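import Mathlib
import Crest.Agent.R136.MkF_627
import Crest.Agent.R138.MkPoint_627
import Crest.Agent.R136.ExR_779
import Crest.Agent.R136.ZoomA_102
import Crest.Agent.R138.ArgM1_163
import Crest.Agent.R136.TD1_627

-- ▼ part R136/PtA_627
section

/-!
# R136: the point of the zoom, abstract marked sequence (helper627)

* `exists_ext_semi` : extension of a function on the rationals of `[0,1]` which is monotone up to a
  linear term (in particular: monotone, antitone with a rate, Lipschitz).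
* `exists_point_fam` : a common differentiability point of a countable family of such functions.
* `MkA.congr` : a marked sequence sees `c`, `τ` at rationals only.
* `mkA_linear` : zoom to linear `c`, `Λ`, `τ`.
-/

set_option autoImplicit false
set_option linter.unusedVariables false

open Finset Filter Topology Set MeasureTheory

namespace Crest.Agent.R136.MkA627

open Crest.Agent.R138.Ex926 (Base U)
open Crest.Agent.R138.MkPoint627 (exists_affine ae_diff ae_diff_anti exists_of_ae exists_ext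
  deriv_bounds)
open Crest.Agent.R138.Mk163 (zc zl rho alive Negl)

/-- extension of a semi-monotone function on the rationals of `[0,1]`. -/
theorem exists_ext_semi {F : ℝ → ℝ} {C : ℝ}
    (h : ∀ u v : ℚ, 0 ≤ u → u ≤ v → v ≤ 1 → -(C * ((v : ℝ) - u)) ≤ F v - F u) :
    ∃ F' : ℝ → ℝ, (∀ v : ℚ, 0 ≤ v → v ≤ 1 → F' v = F v) ∧
      MonotoneOn (fun v => F' v + C * v) (Icc 0 1) := by
  obtain ⟨T, hT1, hT2⟩ := exists_ext (τ := fun v => -(F v + C * v)) (fun u v hu huv hv => by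
    have := h u v hu huv hv
    show -(F v + C * v) ≤ -(F u + C * u)
    linarith)
  refine ⟨fun v => -T v - C * v, fun v hv0 hv1 => ?_, fun a ha b hb hab => ?_⟩
  · show -T v - C * v = F v
    rw [hT1 v hv0 hv1]; ring
  · have := hT2 ha hb hab
    show -T a - C * a + C * a ≤ -T b - C * b + C * b
    linarith

/-- **a common differentiability point of countably many semi-monotone functions.** -/
theorem exists_point_fam {ι : Type*} [Countable ι] {F : ι → ℝ → ℝ} {C : ι → ℝ}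
    (h : ∀ i, ∀ u v : ℚ, 0 ≤ u → u ≤ v → v ≤ 1 → -(C i * ((v : ℝ) - u)) ≤ F i v - F i u) :
    ∃ F' : ι → ℝ → ℝ, (∀ i, ∀ v : ℚ, 0 ≤ v → v ≤ 1 → F' i v = F i v) ∧
      (∀ i, MonotoneOn (fun v => F' i v + C i * v) (Icc 0 1)) ∧
      ∃ v0 ∈ Ioo (0 : ℝ) 1, ∃ D : ι → ℝ, ∀ i, HasDerivAt (F' i) (D i) v0 := by
  choose F' h1 h2 using fun i => exists_ext_semi (h i)
  have hae : ∀ᵐ v : ℝ, v ∈ Ioo (0 : ℝ) 1 → ∀ i, DifferentiableAt ℝ (F' i) v := by
    have : ∀ i, ∀ᵐ v : ℝ, v ∈ Ioo (0 : ℝ) 1 → DifferentiableAt ℝ (F' i) v := by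
      intro i
      filter_upwards [ae_diff (h2 i)] with v hv hv2
      have h3 := hv hv2
      have h4 : DifferentiableAt ℝ (fun v : ℝ => C i * v) v := by fun_prop
      have h5 := h3.sub h4
      refine h5.congr_of_eventuallyEq (Eventually.of_forall fun x => ?_)
      simp
    filter_upwards [ae_all_iff.2 this] with v hv hv2 i using hv i hv2
  obtain ⟨v0, hv0, hd⟩ := exists_of_ae hae
  exact ⟨F', h1, h2, v0, hv0, fun i => deriv (F' i) v0, fun i => (hd i).hasDerivAt⟩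

section

variable {σ κ : Type*} {B : Base} {I : ℕ → Finset (ℕ × ℝ)} {G : Geo σ κ} {lev : ℕ → ℚ → ℕ}
    {A : ℕ → ℝ} {c Λ : ℝ → ℝ} {τ : κ → ℝ → ℝ} {f : ℕ → ℚ → ℕ → ℤ → ℕ} {b : ℕ → ℚ → ℕ → σ}
    {vm : ℕ → ℚ → ℝ} {w : κ → ℕ → ℚ → ℝ}

/-- a marked sequence sees `c` and `τ` at the rationals of `[0,1]` only. -/
theorem MkA.congr (h : MkA B I G lev A c Λ τ f b vm w) {c' : ℝ → ℝ} {τ' : κ → ℝ → ℝ}
    (hc : ∀ v : ℚ, 0 ≤ v → v ≤ 1 → c' v = c v)
    (hτ : ∀ j, ∀ v : ℚ, 0 ≤ v → v ≤ 1 → τ' j v = τ j v) : MkA B I G lev A c' Λ τ' f b vm w := by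
  have e1 : ((1 : ℚ) : ℝ) = 1 := by norm_num
  have e0 : ((0 : ℚ) : ℝ) = 0 := by norm_num
  exact
  { ne := h.ne
    card := h.card
    Apos := h.Apos
    c0 := by
      have h1 := hc 0 le_rfl zero_le_one
      rw [e0] at h1
      rw [h1]; exact h.c0
    lam0 := h.lam0
    lam := h.lam
    tau1 := fun j => by
      have h1 := hτ j 1 zero_le_one le_rfl
      rw [e1] at h1
      rw [h1]; exact h.tau1 j
    lev_mono := h.lev_mono
    lev_lim := h.lev_lim
    cell0 := h.cell0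
    one := h.one
    own := h.own
    dmax := fun v hv0 hv1 ε hε => by
      have h2 := h.dmax v hv0 hv1 ε hε
      simp only [ampA, hc v hv0 hv1] at h2 ⊢
      exact h2
    mark := h.mark
    near := fun v hv0 hv1 ε hε => by
      have h2 := h.near v hv0 hv1 ε hε
      simp only [ampA, hc v hv0 hv1] at h2 ⊢
      exact h2
    vpos := h.vpos
    wpos := h.wpos
    tau := fun j v hv0 hv1 => by rw [hτ j v hv0 hv1]; exact h.tau j v hv0 hv1 }



end

end Crest.Agent.R136.MkA627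
end

-- ▼ part R136/Slt1_627
section

/-!
# R136: slots of an abstract marked sequence (helper627), part 1

`SlotSys` : marked sequence with LINEAR exponents together with families of flags `fl j`, scales
`sc j` and numbers `β j` (precision of the level-`v` marks in the slot `j` is `sc d^(β j v)`), the
flags being close to the level-`v` flags up to the precision.

* `SlotSys.dense` : passes to dense marked parts;
* `slotSys_of_negl` : closeness outside negligible sets is enough;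
* `SlotSys.zoom` : passes to zooms at every point of `(0,1)`.
-/

set_option autoImplicit false
set_option linter.unusedVariables false
set_option linter.unusedSectionVars false

open Finset Filter Topology

namespace Crest.Agent.R136.Slt627

open Crest.Agent.R138.Ex926 (Base U exists_diag)
open Crest.Agent.R138.Dp76
open Crest.Agent.R138.Ps926
open Crest.Agent.R138.Mk163 (zc zl rho alive own Negl)
open Crest.Agent.R138.MkPoint627 (exists_affine)
open Crest.Agent.R138.MkZoom779 (Fq Fq_mem ev_mem_Fq zero_mem_Fq)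
open Crest.Agent.R138.NatTw76 (exists_avoid)
open Crest.Agent.R136.MkA627
open Crest.Agent.R136.ExR779 (exRotA)
open Crest.Agent.R136.ZoomA102 (zoomA)

variable {σ κ φ ι : Type*}

/-- slot data of a marked sequence with linear exponents `g v`, `s v`, `θ j (1 - v)`. -/
structure SlotSys (P : PDist φ ι) (G : Geo σ κ) (g s : ℝ) (θ : κ → ℝ) (β : ι → ℝ)
    (B : Base) (I : ℕ → Finset (ℕ × ℝ)) (lev : ℕ → ℚ → ℕ) (A : ℕ → ℝ)
    (f : ℕ → ℚ → ℕ → ℤ → ℕ) (b : ℕ → ℚ → ℕ → σ) (vm : ℕ → ℚ → ℝ) (w : κ → ℕ → ℚ → ℝ)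
    (e : ℕ → ℚ → ℕ → φ) (pr : ι → ℕ → ℚ → ℝ) (fl : ι → ℕ → ℕ × ℝ → φ) (sc : ι → ℕ → ℝ) :
    Prop where
  mka : MkA B I G lev A (fun v => g * v) (fun v => s * v) (fun j v => θ j * (1 - v)) f b vm w
  scpos : ∀ j n, 0 < sc j n
  prpos : ∀ j, ∀ v : ℚ, 0 ≤ v → v ≤ 1 → ∀ᶠ n in (U : Filter ℕ), 0 < pr j n v
  /-- precision of the marks = `sc d^(β v)` -/
  prc : ∀ j, ∀ v : ℚ, 0 ≤ v → v ≤ 1 →
    Tendsto (fun n => Real.log (sc j n / pr j n v) / B.L n) U (𝓝 (β j * v))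
  /-- flags and level-`v` flags agree up to the precision -/
  close : ∀ j, ∀ v : ℚ, 0 ≤ v → v ≤ 1 → ∀ ε : ℝ, 0 < ε → ∀ᶠ n in (U : Filter ℕ), ∀ x ∈ I n,
    P.d j n (fl j n x) (frA lev f e n v x) ≤ pr j n v * B.d n ^ (-ε)

/-- the flags of one line agree to infinite order -/
def Inv (P : PDist φ ι) (B : Base) (I : ℕ → Finset (ℕ × ℝ)) (j : ι) (fl : ℕ → ℕ × ℝ → φ)
    (sc : ℕ → ℝ) : Prop :=
  ∀ M : ℝ, ∀ᶠ n in (U : Filter ℕ), ∀ x ∈ I n, ∀ y ∈ I n, y.1 = x.1 →
    P.d j n (fl n x) (fl n y) ≤ sc n * B.d n ^ M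

theorem log_dpow (B : Base) (n : ℕ) (a : ℝ) : Real.log (B.d n ^ a) = -(a * B.L n) := by
  rw [Real.log_rpow (B.pos n)]; unfold Base.L; ring

theorem log_sc {B : Base} {n : ℕ} {S P ρ : ℝ} (hS : 0 < S) (hP : 0 < P) :
    Real.log (S * B.d n ^ ρ / P) = Real.log (S / P) - ρ * B.L n := by
  rw [mul_div_right_comm, Real.log_mul (div_pos hS hP).ne' (dpow_pos B n _).ne', log_dpow]
  ring

theorem eq_exp {B : Base} {n : ℕ} {S P : ℝ} (hS : 0 < S) (hP : 0 < P) :
    P = S * B.d n ^ (Real.log (S / P) / B.L n) := by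
  have hL := B.L_pos n
  have h1 : Real.log (B.d n ^ (Real.log (S / P) / B.L n)) = Real.log (P / S) := by
    rw [log_dpow, div_mul_cancel₀ _ hL.ne', Real.log_div hS.ne' hP.ne', Real.log_div hP.ne' hS.ne']
    ring
  have h2 := Real.log_injOn_pos (Set.mem_Ioi.2 (dpow_pos B n _)) (Set.mem_Ioi.2 (div_pos hP hS)) h1
  rw [h2]; field_simp

section

variable {P : PDist φ ι} {G : Geo σ κ} {g s : ℝ} {θ : κ → ℝ} {β : ι → ℝ}
    {B : Base} {I : ℕ → Finset (ℕ × ℝ)} {lev : ℕ → ℚ → ℕ} {A : ℕ → ℝ}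
    {f : ℕ → ℚ → ℕ → ℤ → ℕ} {b : ℕ → ℚ → ℕ → σ} {vm : ℕ → ℚ → ℝ} {w : κ → ℕ → ℚ → ℝ}
    {e : ℕ → ℚ → ℕ → φ} {pr : ι → ℕ → ℚ → ℝ} {fl : ι → ℕ → ℕ × ℝ → φ} {sc : ι → ℕ → ℝ}

theorem SlotSys.dense (h : SlotSys P G g s θ β B I lev A f b vm w e pr fl sc)
    {J : ℕ → Finset (ℕ × ℝ)} (hd : Dense B J I)
    (hJ : MkA B J G lev A (fun v => g * v) (fun v => s * v) (fun j v => θ j * (1 - v)) f b vm w) :
    SlotSys P G g s θ β B J lev A f b vm w e pr fl sc where
  mka := hJ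
  scpos := h.scpos
  prpos := h.prpos
  prc := h.prc
  close := fun j v h0 h1 ε hε => by
    filter_upwards [h.close j v h0 h1 ε hε, hd.1] with n a1 a2 x hx using a1 x (a2 hx)

theorem Inv.dense {j : ι} {fl : ℕ → ℕ × ℝ → φ} {sc : ℕ → ℝ} (h : Inv P B I j fl sc)
    {J : ℕ → Finset (ℕ × ℝ)} (hd : Dense B J I) : Inv P B J j fl sc := by
  intro M
  filter_upwards [h M, hd.1] with n a1 a2 x hx y hy using a1 x (a2 hx) y (a2 hy)


/-- **zoom** of a slot system at a point of `(0,1)`. -/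
theorem SlotSys.zoom [Countable κ] [Finite ι]
    (h : SlotSys P G g s θ β B I lev A f b vm w e pr fl sc) {v0 : ℝ} (hv0 : 0 < v0) (hv1 : v0 < 1) :
    ∃ (η : ℕ → ℝ) (m : ℕ → ℚ → ℚ), (∀ k, 0 < η k) ∧ (∀ k, η k ≤ 1) ∧ Tendsto η atTop (𝓝 0) ∧
      (∀ k, ∀ x : ℚ, 0 ≤ x → x ≤ 1 → 0 ≤ m k x ∧ m k x ≤ 1) ∧
      (∀ k, ∀ x y : ℚ, (m k y : ℝ) - m k x = η k * ((y : ℝ) - x)) ∧
      (∀ x : ℚ, Tendsto (fun k => ((m k x : ℚ) : ℝ)) atTop (𝓝 v0)) ∧
      ∃ s0 : ℕ → ℕ, Tendsto s0 U atTop ∧ ∀ t : ℕ → ℕ, Tendsto t U atTop →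
        (∀ᶠ n in (U : Filter ℕ), t n ≤ s0 n) →
        ∃ (B' : Base) (I' : ℕ → Finset (ℕ × ℝ)) (A' : ℕ → ℝ),
          (∀ n, B'.d n = B.d n ^ η (t n)) ∧ (∀ n, I' n ⊆ I n) ∧
          SlotSys P G g s θ β B' I' (fun n x => lev n (m (t n) x)) A'
            (fun n x => f n (m (t n) x)) (fun n x => b n (m (t n) x)) (fun n x => vm n (m (t n) x))
            (fun j n x => w j n (m (t n) x)) (fun n x => e n (m (t n) x))
            (fun j n x => pr j n (m (t n) x)) fl (fun j n => sc j n * B.d n ^ (β j * m (t n) 0)) := by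
  classical
  obtain ⟨η, m, hη, hη1, hη0, hm, hmono, hq, hmv, hlim⟩ := exists_affine hv0 hv1
  have hq' : ∀ k, ∀ x y : ℚ, (m k y : ℝ) - m k x = η k * ((y : ℝ) - x) := by
    intro k x y
    have := hq k x y
    rw [div_eq_iff (hη k).ne'] at this
    rw [this]; ring
  refine ⟨η, m, hη, hη1, hη0, hm, hq', hmv, ?_⟩
  have hs01 : 0 ≤ s ∧ s ≤ 1 := by
    have := h.mka.lam 0 1 le_rfl zero_le_one le_rfl
    simpa using this
  obtain ⟨s1, hs1, hz⟩ := zoomA h.mka η m (fun v => g * v) (fun v => s * v)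
    (fun j v => θ j * (1 - v)) hη hη1 hm
    (fun x y _ hxy _ => Eventually.of_forall fun k => hmono k x y hxy)
    (fun x y _ _ _ => by
      simp only [hq]
      exact tendsto_const_nhds)
    (fun x hx0 hx1 => by
      have e1 : ∀ k, (g * (m k x : ℝ) - g * (m k 0 : ℝ)) / η k = g * x := by
        intro k
        rw [← mul_sub, hq' k 0 x]
        have := (hη k).ne'
        push_cast
        field_simp
        ring
      simp only [e1]
      exact tendsto_const_nhds)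
    (fun x hx0 hx1 => by
      have e1 : ∀ k, (s * (m k x : ℝ) - s * (m k 0 : ℝ)) / η k = s * x := by
        intro k
        rw [← mul_sub, hq' k 0 x]
        have := (hη k).ne'
        push_cast
        field_simp
        ring
      simp only [e1]
      exact tendsto_const_nhds)
    (fun j x hx0 hx1 => by
      have e1 : ∀ k, (θ j * (1 - (m k x : ℝ)) - θ j * (1 - (m k 1 : ℝ))) / η k = θ j * (1 - x) := by
        intro k
        have e2 : θ j * (1 - (m k x : ℝ)) - θ j * (1 - (m k 1 : ℝ)) =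
            θ j * ((m k 1 : ℝ) - m k x) := by ring
        rw [e2, hq' k x 1]
        have := (hη k).ne'
        push_cast
        field_simp
      simp only [e1]
      exact tendsto_const_nhds)
    (fun u v hu huv hv => by
      have e1 : s * v - s * u = s * (v - u) := by ring
      rw [e1]
      exact ⟨mul_nonneg hs01.1 (by linarith), by nlinarith⟩)
    (by simp) (by simp) (by simp)
  -- slot properties on the diagonal
  have hkp : ∀ k : ℕ, (0 : ℝ) < η k / (k + 1) := fun k => div_pos (hη k) (by positivity)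
  obtain ⟨s2, hs2, hs2'⟩ := exists_diag (fun k n => ∀ j : ι, ∀ x ∈ Fq k,
    0 < pr j n (m k x) ∧
    |Real.log (sc j n / pr j n (m k x)) / B.L n - β j * (m k x : ℝ)| ≤ η k / (k + 1) ∧
    ∀ p ∈ I n, P.d j n (fl j n p) (frA lev f e n (m k x) p) ≤
      pr j n (m k x) * B.d n ^ (-(η k / (k + 1)))) (by
    intro k
    rw [Filter.eventually_all]
    intro j
    rw [Filter.eventually_all_finset]
    intro x hx
    obtain ⟨hx0, hx1⟩ := Fq_mem hx
    obtain ⟨hm0, hm1⟩ := hm k x hx0 hx1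
    have ht := (Metric.tendsto_nhds.1 (h.prc j (m k x) hm0 hm1)) _ (hkp k)
    filter_upwards [h.prpos j (m k x) hm0 hm1, ht, h.close j (m k x) hm0 hm1 _ (hkp k)]
      with n a1 a2 a3
    rw [Real.dist_eq] at a2
    exact ⟨a1, a2.le, a3⟩)
  refine ⟨fun n => min (s1 n) (s2 n), ?_, fun t ht hts => ?_⟩
  · rw [tendsto_atTop]
    intro c
    filter_upwards [tendsto_atTop.1 hs1 c, tendsto_atTop.1 hs2 c] with n h1 h2
    exact le_min h1 h2
  obtain ⟨B', I', A', hBd, hI', hMk⟩ := hz t ht (by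
    filter_upwards [hts] with n hn using hn.trans (min_le_left _ _))
  have hQ : ∀ᶠ n in (U : Filter ℕ), ∀ j : ι, ∀ x ∈ Fq (t n),
      0 < pr j n (m (t n) x) ∧
      |Real.log (sc j n / pr j n (m (t n) x)) / B.L n - β j * (m (t n) x : ℝ)| ≤
        η (t n) / (t n + 1) ∧
      ∀ p ∈ I n, P.d j n (fl j n p) (frA lev f e n (m (t n) x) p) ≤
        pr j n (m (t n) x) * B.d n ^ (-(η (t n) / (t n + 1))) := by
    filter_upwards [hs2', hts] with n h1 h2 using h1 (t n) (h2.trans (min_le_right _ _))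
  have hFq : ∀ x : ℚ, 0 ≤ x → x ≤ 1 → ∀ᶠ n in (U : Filter ℕ), x ∈ Fq (t n) := fun x h0 h1 =>
    ht.eventually (ev_mem_Fq h0 h1)
  have hBL : ∀ n, B'.L n = η (t n) * B.L n := by
    intro n
    have : Real.log (B'.d n) = Real.log (B.d n ^ η (t n)) := by rw [hBd n]
    rw [log_dpow] at this
    have h2 : B'.L n = - Real.log (B'.d n) := rfl
    rw [h2, this]; ring
  have hBp : ∀ n (y : ℝ), B'.d n ^ y = B.d n ^ (η (t n) * y) := by
    intro n y
    rw [hBd n, ← Real.rpow_mul (B.pos n).le]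
  have htend : Tendsto (fun n => 1 / ((t n : ℝ) + 1)) U (𝓝 0) :=
    tendsto_one_div_add_atTop_nhds_zero_nat.comp ht
  refine ⟨B', I', A', hBd, hI', ⟨hMk, fun j n => mul_pos (h.scpos j n) (dpow_pos B n _), ?_, ?_, ?_⟩⟩
  · intro j v h0 h1
    filter_upwards [hQ, hFq v h0 h1] with n a1 a2 using (a1 j v a2).1
  · intro j v h0 h1
    rw [Metric.tendsto_nhds]
    intro ε hε
    filter_upwards [hQ, hFq v h0 h1, (Metric.tendsto_nhds.1 htend) ε hε] with n a1 a2 a3
    obtain ⟨b1, b2, -⟩ := a1 j v a2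
    have hL := B.L_pos n
    have hp := hη (t n)
    have hk1 : (0 : ℝ) < (t n : ℝ) + 1 := by positivity
    rw [Real.dist_eq] at a3 ⊢
    rw [sub_zero, abs_of_pos (by positivity)] at a3
    rw [log_sc (h.scpos j n) b1, hBL n]
    have e1 : (Real.log (sc j n / pr j n (m (t n) v)) - β j * (m (t n) 0 : ℝ) * B.L n) /
        (η (t n) * B.L n) - β j * v =
        (Real.log (sc j n / pr j n (m (t n) v)) / B.L n - β j * (m (t n) v : ℝ)) / η (t n) := by
      have e2 : (m (t n) v : ℝ) = m (t n) 0 + η (t n) * v := by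
        have := hq' (t n) 0 v
        push_cast at this
        linarith
      rw [e2]
      field_simp
      ring
    rw [e1, abs_div, abs_of_pos hp, div_lt_iff₀ hp]
    refine lt_of_le_of_lt b2 ?_
    rw [div_eq_mul_one_div, mul_comm ε]
    exact mul_lt_mul_of_pos_left a3 hp
  · intro j v h0 h1 ε hε
    filter_upwards [hQ, hFq v h0 h1, (Metric.tendsto_nhds.1 htend) ε hε] with n a1 a2 a3 p hp
    obtain ⟨b1, -, b3⟩ := a1 j v a2
    rw [Real.dist_eq, sub_zero, abs_of_pos (by positivity)] at a3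
    have hh := hη (t n)
    refine (b3 p (hI' n hp)).trans ?_
    rw [hBp]
    refine mul_le_mul_of_nonneg_left (dpow_le B n ?_) b1.le
    have e3 : η (t n) / ((t n : ℝ) + 1) = η (t n) * (1 / ((t n : ℝ) + 1)) := by ring
    rw [e3]
    nlinarith

end

end Crest.Agent.R136.Slt627
end

-- ▼ part R136/Slt2_627
section

/-!
# R136: slots of an abstract marked sequence (helper627), part 2

Own rotation functions of all slots on one dense part: `exists_rots`.
-/

set_option autoImplicit false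
set_option linter.unusedVariables false
set_option linter.unusedSectionVars false

open Finset Filter Topology

namespace Crest.Agent.R136.Slt627

open Crest.Agent.R138.Ex926 (Base U exists_diag)
open Crest.Agent.R138.Dp76
open Crest.Agent.R138.Ps926
open Crest.Agent.R138.Mk163 (zc zl rho alive own Negl)
open Crest.Agent.R138.MkRef627 (own_one)
open Crest.Agent.R136.MkA627
open Crest.Agent.R136.ExR779 (exRotA)

variable {σ κ φ ι : Type*}

section

variable {P : PDist φ ι} {G : Geo σ κ} {g s : ℝ} {θ : κ → ℝ} {β : ι → ℝ}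
    {B : Base} {I : ℕ → Finset (ℕ × ℝ)} {lev : ℕ → ℚ → ℕ} {A : ℕ → ℝ}
    {f : ℕ → ℚ → ℕ → ℤ → ℕ} {b : ℕ → ℚ → ℕ → σ} {vm : ℕ → ℚ → ℝ} {w : κ → ℕ → ℚ → ℝ}
    {e : ℕ → ℚ → ℕ → φ} {pr : ι → ℕ → ℚ → ℝ} {fl : ι → ℕ → ℕ × ℝ → φ} {sc : ι → ℕ → ℝ}

theorem own_pos {I : Finset (ℕ × ℝ)} {i j : ℕ} {x : ℕ × ℝ} (h : x ∈ I) :
    1 ≤ (own I i j x).card := by
  classical
  refine card_pos.2 ⟨zc j x.2, ?_⟩
  unfold own
  refine mem_image.2 ⟨x, ?_, rfl⟩
  simp only [mem_filter]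
  exact ⟨h, trivial, trivial⟩

/-- the rotation function passes to dense marked parts -/
theorem rotFA_dense {c Λ : ℝ → ℝ} {τ : κ → ℝ → ℝ} {j : ι} {fl : ℕ → ℕ × ℝ → φ} {sc : ℕ → ℝ}
    {C0 : ℝ} {R : ℝ → ℝ} {J : ℕ → Finset (ℕ × ℝ)} (hR : RotFA P B I lev j fl sc C0 R)
    (hI : MkA B I G lev A c Λ τ f b vm w) (hJ : MkA B J G lev A c Λ τ f b vm w)
    (hd : Dense B J I) : RotFA P B J lev j fl sc C0 R := by
  classical
  refine ⟨hR.scpos, hR.bd, hR.mono, fun u h0 h1 ε hε => ?_, fun u h0 h1 r hr hrC => ?_⟩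
  · filter_upwards [hR.rot u h0 h1 ε hε, hd.1] with n a b x hx y hy
    exact a x (b hx) y (b hy)
  · obtain ⟨γ, hγ, h2⟩ := hR.tw u h0 h1 r hr hrC
    refine ⟨γ / 2, by positivity, ?_⟩
    filter_upwards [h2, hd.1, hI.own u 1 h0 h1.le le_rfl (γ / 4) (by positivity),
      hJ.own u 1 h0 h1.le le_rfl (γ / 4) (by positivity)] with n a b c d x hx
    have a1 := a x (b hx)
    have c1 := (c x (b hx)).2
    have d1 := (d x hx).1
    have hm : ((((J n).filter fun y => y.1 = x.1 ∧ zc (lev n u) y.2 = zc (lev n u) x.2 ∧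
        P.d j n (fl n x) (fl n y) ≤ sc n * B.d n ^ r).card : ℕ) : ℝ) ≤
        ((((I n).filter fun y => y.1 = x.1 ∧ zc (lev n u) y.2 = zc (lev n u) x.2 ∧
        P.d j n (fl n x) (fl n y) ≤ sc n * B.d n ^ r).card : ℕ) : ℝ) := by
      exact_mod_cast card_le_card (filter_subset_filter _ b)
    have hm2 : ((((J n).filter fun y => y.1 = x.1 ∧ zc (lev n u) y.2 = zc (lev n u) x.2 ∧
        P.d j n (fl n x) (fl n y) ≤ sc n * B.d n ^ r).card : ℕ) : ℝ) ≤
        B.d n ^ γ * B.d n ^ (-((1 : ℚ) - (u : ℝ)) + (Λ (1 : ℚ) - Λ u) - γ / 4) := by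
      refine hm.trans ((le_trans (le_of_eq ?_) a1).trans
        (mul_le_mul_of_nonneg_left c1 (dpow_pos B n γ).le))
      convert rfl
    refine le_trans (le_trans (le_of_eq ?_) hm2) ?_
    · convert rfl
    calc B.d n ^ γ * B.d n ^ (-((1 : ℚ) - (u : ℝ)) + (Λ (1 : ℚ) - Λ u) - γ / 4)
        = B.d n ^ (γ / 2) * B.d n ^ (-((1 : ℚ) - (u : ℝ)) + (Λ (1 : ℚ) - Λ u) + γ / 4) := by
          rw [← dpow_add, ← dpow_add]; congr 1; ring
      _ ≤ _ := mul_le_mul_of_nonneg_left d1 (dpow_pos B n _).le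

/-- the precision of level `v` against `sc d^(β v)`. -/
theorem SlotSys.pr_le (h : SlotSys P G g s θ β B I lev A f b vm w e pr fl sc) (j : ι) {v : ℚ}
    (h0 : 0 ≤ v) (h1 : v ≤ 1) {ε : ℝ} (hε : 0 < ε) : ∀ᶠ n in (U : Filter ℕ),
      pr j n v ≤ sc j n * B.d n ^ (β j * v - ε) := by
  filter_upwards [(Metric.tendsto_nhds.1 (h.prc j v h0 h1)) ε hε, h.prpos j v h0 h1] with n a1 a2
  rw [Real.dist_eq, abs_lt] at a1
  rw [eq_exp (B := B) (n := n) (h.scpos j n) a2]
  exact mul_le_mul_of_nonneg_left (dpow_le B n (by linarith [a1.1])) (h.scpos j n).le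

/-- flags of one line in one cell of level `u` agree up to the precision of level `u`. -/
theorem SlotSys.same_cell (h : SlotSys P G g s θ β B I lev A f b vm w e pr fl sc) (j : ι) {u : ℚ}
    (h0 : 0 ≤ u) (h1 : u ≤ 1) {ε : ℝ} (hε : 0 < ε) : ∀ᶠ n in (U : Filter ℕ),
      ∀ x ∈ I n, ∀ y ∈ I n, y.1 = x.1 → zc (lev n u) y.2 = zc (lev n u) x.2 →
        P.d j n (fl j n x) (fl j n y) ≤ sc j n * B.d n ^ (β j * u - ε) := by
  have hK : 0 < P.K := lt_of_lt_of_le one_pos P.K1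
  filter_upwards [h.pr_le j h0 h1 (ε := ε / 3) (by positivity),
    h.close j u h0 h1 (ε / 3) (by positivity),
    dpow_small B (c := ε / 3) (by positivity) (ε := 1 / (2 * P.K)) (by positivity)]
    with n a1 a2 a3 x hx y hy hxy hz
  have e1 : frA lev f e n u y = frA lev f e n u x := by
    unfold frA
    rw [hxy, hz]
  have b1 := a2 x hx
  have b2 := a2 y hy
  rw [e1, P.symm] at b2
  have b3 := P.tri j n (fl j n x) (frA lev f e n u x) (fl j n y)
  have hd := dpow_pos B n (ε / 3)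
  have hd2 := dpow_pos B n (-(ε / 3))
  have hd3 := dpow_pos B n (β j * u - ε)
  have hs := h.scpos j n
  have c1 : pr j n u * B.d n ^ (-(ε / 3)) ≤
      sc j n * B.d n ^ (β j * u - ε / 3) * B.d n ^ (-(ε / 3)) :=
    mul_le_mul_of_nonneg_right a1 hd2.le
  have c2 : sc j n * B.d n ^ (β j * u - ε / 3) * B.d n ^ (-(ε / 3)) =
      sc j n * B.d n ^ (β j * u - ε) * B.d n ^ (ε / 3) := by
    rw [mul_assoc, mul_assoc, ← dpow_add, ← dpow_add]
    congr 2
    ring
  rw [c2] at c1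
  have c3 : P.d j n (fl j n x) (fl j n y) ≤
      2 * P.K * (sc j n * B.d n ^ (β j * u - ε) * B.d n ^ (ε / 3)) := by
    refine b3.trans ?_
    have : P.d j n (fl j n x) (frA lev f e n u x) + P.d j n (frA lev f e n u x) (fl j n y) ≤
        2 * (sc j n * B.d n ^ (β j * u - ε) * B.d n ^ (ε / 3)) := by linarith
    calc _ ≤ P.K * (2 * (sc j n * B.d n ^ (β j * u - ε) * B.d n ^ (ε / 3))) :=
          mul_le_mul_of_nonneg_left this hK.le
      _ = _ := by ring
  refine c3.trans ?_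
  have c4 : 2 * P.K * B.d n ^ (ε / 3) ≤ 1 := by
    have := mul_le_mul_of_nonneg_left a3.le (show 0 ≤ 2 * P.K by positivity)
    rwa [mul_one_div_cancel (by positivity)] at this
  calc 2 * P.K * (sc j n * B.d n ^ (β j * u - ε) * B.d n ^ (ε / 3))
      = (2 * P.K * B.d n ^ (ε / 3)) * (sc j n * B.d n ^ (β j * u - ε)) := by ring
    _ ≤ 1 * (sc j n * B.d n ^ (β j * u - ε)) := mul_le_mul_of_nonneg_right c4 (by positivity)
    _ = _ := one_mul _

open Classical in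
/-- incidences of one line in a cell = cells of level `1` -/
theorem card_fibre {c Λ : ℝ → ℝ} {τ : κ → ℝ → ℝ} (hM : MkA B I G lev A c Λ τ f b vm w) :
    ∀ᶠ n in (U : Filter ℕ), ∀ x ∈ I n, ∀ u : ℚ,
      ((I n).filter fun y => y.1 = x.1 ∧ zc (lev n u) y.2 = zc (lev n u) x.2).card =
        (own (I n) (lev n u) (lev n 1) x).card := by
  classical
  filter_upwards [hM.one] with n h1 x hx u
  unfold own
  symm
  have e1 : ((I n).filter fun y => y.1 = x.1 ∧ zc (lev n u) y.2 = zc (lev n u) x.2) =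
      (I n).filter fun y => y.1 = x.1 ∧ zc (lev n u) y.2 = zc (lev n u) x.2 := rfl
  refine (card_image_of_injOn fun p hp q hq hpq => ?_).trans ?_
  · rw [mem_coe, mem_filter] at hp hq
    exact h1 p hp.1 q hq.1 (hp.2.1.trans hq.2.1.symm) hpq
  · congr 1

/-- **own rotation function of one slot.** -/
theorem SlotSys.exists_rot (h : SlotSys P G g s θ β B I lev A f b vm w e pr fl sc) {j : ι}
    (hβ : 0 < β j) {C0 : ℝ} (hC : β j ≤ C0) :
    ∃ (J : ℕ → Finset (ℕ × ℝ)) (R : ℝ → ℝ), Dense B J I ∧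
      SlotSys P G g s θ β B J lev A f b vm w e pr fl sc ∧
      RotFA P B J lev j (fl j) (sc j) C0 R ∧ ∀ u : ℝ, 0 ≤ u → u ≤ 1 → β j * u ≤ R u := by
  classical
  obtain ⟨J, R, hJd, hJ, hR⟩ := exRotA P B I G lev A (fun v => g * v) (fun v => s * v)
    (fun j v => θ j * (1 - v)) f b vm w j (fl j) (fun n => sc j n * B.d n ^ (-1 : ℝ)) (C0 + 1)
    h.mka (fun n => mul_pos (h.scpos j n) (dpow_pos B n _)) (by linarith) (by
      refine Negl.mono Negl.false ?_
      filter_upwards [h.same_cell j le_rfl zero_le_one one_pos, h.mka.cell0] with n a1 a2 x hx hy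
      obtain ⟨y, hy, hxy, hlt⟩ := hy
      have b1 := a1 x hx y hy hxy (a2 y hy x hx)
      have e1 : β j * ((0 : ℚ) : ℝ) - 1 = -1 := by push_cast; ring
      rw [e1] at b1
      exact absurd b1 (not_le.2 hlt))
  have hS := h.dense hJd hJ
  -- lower bound at rationals
  have hlow : ∀ u : ℚ, 0 ≤ u → u < 1 → β j * u + 1 ≤ R u := by
    intro u h0 h1
    by_contra hcon
    rw [not_le] at hcon
    have hu0 : (0 : ℝ) ≤ u := by exact_mod_cast h0
    have hu1 : (u : ℝ) < 1 := by exact_mod_cast h1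
    set r : ℝ := (R u + (β j * u + 1)) / 2 with hr
    have hr1 : R u < r := by rw [hr]; linarith
    have hr2 : r < β j * u + 1 := by rw [hr]; linarith
    have hr3 : r ≤ C0 + 1 := by nlinarith
    obtain ⟨γ, hγ, htw⟩ := hR.tw u h0 h1 r hr1 hr3
    have hfalse : ∀ᶠ n in (U : Filter ℕ), False := by
      filter_upwards [htw, hJ.ne, hS.same_cell j h0 h1.le (ε := β j * u + 1 - r) (by linarith),
        dpow_small B hγ one_pos, card_fibre hJ] with n a1 a2 a3 a4 a5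
      obtain ⟨x, hx⟩ := a2
      have b1 := a1 x hx
      have e1 : ((J n).filter fun y => y.1 = x.1 ∧ zc (lev n u) y.2 = zc (lev n u) x.2 ∧
          P.d j n (fl j n x) (fl j n y) ≤ sc j n * B.d n ^ (-1 : ℝ) * B.d n ^ r) =
          (J n).filter fun y => y.1 = x.1 ∧ zc (lev n u) y.2 = zc (lev n u) x.2 := by
        refine filter_congr fun y hy => ⟨fun hh => ⟨hh.1, hh.2.1⟩, fun hh => ⟨hh.1, hh.2, ?_⟩⟩
        refine (a3 x hx y hy hh.1 hh.2).trans (le_of_eq ?_)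
        rw [mul_assoc, ← dpow_add]
        congr 2
        ring
      rw [e1, a5 x hx u] at b1
      have hp : (0 : ℝ) < ((own (J n) (lev n u) (lev n 1) x).card : ℝ) := by
        exact_mod_cast own_pos hx
      have b2 : B.d n ^ γ * ((own (J n) (lev n u) (lev n 1) x).card : ℝ) <
          1 * ((own (J n) (lev n u) (lev n 1) x).card : ℝ) := mul_lt_mul_of_pos_right a4 hp
      linarith
    obtain ⟨n, hn⟩ := hfalse.exists
    exact hn
  have hlow2 : ∀ u : ℝ, 0 ≤ u → u ≤ 1 → β j * u + 1 ≤ R u := by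
    intro u h0 h1
    rcases h0.eq_or_lt with h00 | h00
    · have := hlow 0 le_rfl one_pos
      rw [← h00]
      simpa using this
    · by_contra hcon
      rw [not_le] at hcon
      -- a rational `q < u` with `β q + 1 > R u`
      set δ : ℝ := β j * u + 1 - R u with hδ
      have hδ0 : 0 < δ := by rw [hδ]; linarith
      obtain ⟨q, hq1, hq2⟩ := exists_rat_btwn (show max 0 (u - δ / β j) < u from
        max_lt h00 (by have := div_pos hδ0 hβ; linarith))
      have hq0 : (0 : ℝ) < q := (le_max_left _ _).trans_lt hq1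
      have hqd : u - δ / β j < q := (le_max_right _ _).trans_lt hq1
      have hq3 : (q : ℝ) < 1 := hq2.trans_le h1
      have c1 := hlow q (by exact_mod_cast hq0.le) (by exact_mod_cast hq3)
      have c2 := hR.mono ⟨hq0.le, hq3.le⟩ ⟨h0, h1⟩ hq2.le
      have c3 : β j * (u - δ / β j) < β j * q := mul_lt_mul_of_pos_left hqd hβ
      have c4 : β j * (u - δ / β j) = β j * u - δ := by field_simp
      rw [c4] at c3
      rw [hδ] at c3
      linarith
  refine ⟨J, fun u => R u - 1, hJd, hS, ⟨h.scpos j, fun u h0 h1 => ⟨?_, ?_⟩, ?_, ?_, ?_⟩,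
    fun u h0 h1 => by have := hlow2 u h0 h1; show β j * u ≤ R u - 1; linarith⟩
  · have := hlow2 u h0 h1
    have h2 : 0 ≤ β j * u := mul_nonneg hβ.le h0
    show 0 ≤ R u - 1
    linarith
  · have := (hR.bd u h0 h1).2
    show R u - 1 ≤ C0
    linarith
  · intro x hx y hy hxy
    have := hR.mono hx hy hxy
    show R x - 1 ≤ R y - 1
    linarith
  · intro u h0 h1 ε hε
    filter_upwards [hR.rot u h0 h1 ε hε] with n hn x hx y hy hxy hz
    refine (hn x hx y hy hxy hz).trans (le_of_eq ?_)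
    rw [mul_assoc, ← dpow_add]
    congr 2
    ring
  · intro u h0 h1 r hr hrC
    obtain ⟨γ, hγ, h2⟩ := hR.tw u h0 h1 (r + 1) (by have : R u - 1 < r := hr; linarith)
      (by linarith)
    refine ⟨γ, hγ, ?_⟩
    filter_upwards [h2] with n hn x hx
    refine le_trans (le_of_eq ?_) (hn x hx)
    congr 2
    refine filter_congr fun y hy => ?_
    have e1 : sc j n * B.d n ^ (-1 : ℝ) * B.d n ^ (r + 1) = sc j n * B.d n ^ r := by
      rw [mul_assoc, ← dpow_add]
      congr 2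
      ring
    rw [e1]

/-- **own rotation functions of all slots with `β j > 0`, on one dense part.** -/
theorem SlotSys.exists_rots [Finite ι] (h : SlotSys P G g s θ β B I lev A f b vm w e pr fl sc)
    {C0 : ι → ℝ} (hC : ∀ j, β j ≤ C0 j) :
    ∃ (J : ℕ → Finset (ℕ × ℝ)) (R : ι → ℝ → ℝ), Dense B J I ∧
      SlotSys P G g s θ β B J lev A f b vm w e pr fl sc ∧
      ∀ j, 0 < β j → RotFA P B J lev j (fl j) (sc j) (C0 j) (R j) ∧
        ∀ u : ℝ, 0 ≤ u → u ≤ 1 → β j * u ≤ R j u := by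
  classical
  have : Fintype ι := Fintype.ofFinite ι
  have key : ∀ S : Finset ι, ∃ (J : ℕ → Finset (ℕ × ℝ)) (R : ι → ℝ → ℝ), Dense B J I ∧
      SlotSys P G g s θ β B J lev A f b vm w e pr fl sc ∧
      ∀ j ∈ S, 0 < β j → RotFA P B J lev j (fl j) (sc j) (C0 j) (R j) ∧
        ∀ u : ℝ, 0 ≤ u → u ≤ 1 → β j * u ≤ R j u := by
    intro S
    induction S using Finset.induction_on with
    | empty => exact ⟨I, fun _ _ => 0, Dense.refl B I, h, fun j hj => absurd hj (Finset.notMem_empty j)⟩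
    | insert i S hi ih =>
      obtain ⟨J, R, hd, hS, hR⟩ := ih
      by_cases hβ : 0 < β i
      · obtain ⟨J', R', hd', hS', hR', hR''⟩ := hS.exists_rot hβ (hC i)
        refine ⟨J', fun j => if j = i then R' else R j, hd'.trans hd, hS', fun j hj hβj => ?_⟩
        by_cases hji : j = i
        · subst hji
          simp only [if_true]
          exact ⟨hR', hR''⟩
        · simp only [hji, if_false]
          have h1 := hR j ((Finset.mem_insert.1 hj).resolve_left hji) hβj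
          exact ⟨rotFA_dense h1.1 hS.mka hS'.mka hd', h1.2⟩
      · refine ⟨J, R, hd, hS, fun j hj hβj => ?_⟩
        rcases Finset.mem_insert.1 hj with rfl | hj
        · exact absurd hβj hβ
        · exact hR j hj hβj
  obtain ⟨J, R, h1, h2, h3⟩ := key Finset.univ
  exact ⟨J, R, h1, h2, fun j => h3 j (Finset.mem_univ j)⟩

end

end Crest.Agent.R136.Slt627
end

-- ▼ part R136/Slt3_627
section

/-!
# R136: slots of an abstract marked sequence (helper627), part 3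

`exists_nat` : after finitely many zooms every slot is TIED (own rotation exactly `β j u`, both
directions) or INVISIBLE (`Inv`, all flags of a line agree to infinite order).
-/

set_option autoImplicit false
set_option linter.unusedVariables false
set_option linter.unusedSectionVars false

open Finset Filter Topology

namespace Crest.Agent.R136.Slt627

open Crest.Agent.R138.Ex926 (Base U exists_diag)
open Crest.Agent.R138.Dp76
open Crest.Agent.R138.Ps926
open Crest.Agent.R138.Mk163 (zc zl rho alive own Negl)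
open Crest.Agent.R136.MkA627

variable {σ κ φ ι : Type*}

/-- output of the second zoom: every slot is tied or invisible.  `H n` = length of the window, `m n` =
affine level map of slope `H n`. -/
def NatOut (P : PDist φ ι) (G : Geo σ κ) (g s : ℝ) (θ : κ → ℝ) (β C0 : ι → ℝ)
    (fl : ι → ℕ → ℕ × ℝ → φ) (B : Base) (I : ℕ → Finset (ℕ × ℝ)) (lev : ℕ → ℚ → ℕ)
    (f : ℕ → ℚ → ℕ → ℤ → ℕ) (b : ℕ → ℚ → ℕ → σ) (vm : ℕ → ℚ → ℝ) (w : κ → ℕ → ℚ → ℝ)
    (e : ℕ → ℚ → ℕ → φ) (pr : ι → ℕ → ℚ → ℝ) : Prop :=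
  ∃ (H : ℕ → ℝ) (m : ℕ → ℚ → ℚ) (B' : Base) (I' : ℕ → Finset (ℕ × ℝ)) (A' : ℕ → ℝ)
    (sc' : ι → ℕ → ℝ), (∀ n, 0 < H n ∧ H n ≤ 1) ∧
    (∀ n, ∀ x : ℚ, 0 ≤ x → x ≤ 1 → 0 ≤ m n x ∧ m n x ≤ 1) ∧
    (∀ n, ∀ x y : ℚ, (m n y : ℝ) - m n x = H n * ((y : ℝ) - x)) ∧
    (∀ n, B'.d n = B.d n ^ H n) ∧ (∀ᶠ n in (U : Filter ℕ), I' n ⊆ I n) ∧
    SlotSys P G g s θ β B' I' (fun n x => lev n (m n x)) A' (fun n x => f n (m n x))
      (fun n x => b n (m n x)) (fun n x => vm n (m n x)) (fun j n x => w j n (m n x))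
      (fun n x => e n (m n x)) (fun j n x => pr j n (m n x)) fl sc' ∧
    ∀ j, Inv P B' I' j (fl j) (sc' j) ∨ (0 < β j ∧
      RotFA P B' I' (fun n x => lev n (m n x)) j (fl j) (sc' j) (C0 j) (fun u => β j * u))

section

variable {P : PDist φ ι} {G : Geo σ κ} {g s : ℝ} {θ : κ → ℝ} {β C0 : ι → ℝ}
    {B : Base} {I : ℕ → Finset (ℕ × ℝ)} {lev : ℕ → ℚ → ℕ} {A : ℕ → ℝ}
    {f : ℕ → ℚ → ℕ → ℤ → ℕ} {b : ℕ → ℚ → ℕ → σ} {vm : ℕ → ℚ → ℝ} {w : κ → ℕ → ℚ → ℝ}
    {e : ℕ → ℚ → ℕ → φ} {pr : ι → ℕ → ℚ → ℝ} {fl : ι → ℕ → ℕ × ℝ → φ} {sc : ι → ℕ → ℝ}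

/-- composition of windows -/
theorem NatOut.comp {B1 : Base} {I1 : ℕ → Finset (ℕ × ℝ)} {H1 : ℕ → ℝ} {m1 : ℕ → ℚ → ℚ}
    (hH : ∀ n, 0 < H1 n ∧ H1 n ≤ 1) (hm : ∀ n, ∀ x : ℚ, 0 ≤ x → x ≤ 1 → 0 ≤ m1 n x ∧ m1 n x ≤ 1)
    (hq : ∀ n, ∀ x y : ℚ, (m1 n y : ℝ) - m1 n x = H1 n * ((y : ℝ) - x))
    (hB : ∀ n, B1.d n = B.d n ^ H1 n) (hI : ∀ᶠ n in (U : Filter ℕ), I1 n ⊆ I n)
    (h : NatOut P G g s θ β C0 fl B1 I1 (fun n x => lev n (m1 n x)) (fun n x => f n (m1 n x))
      (fun n x => b n (m1 n x)) (fun n x => vm n (m1 n x)) (fun j n x => w j n (m1 n x))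
      (fun n x => e n (m1 n x)) (fun j n x => pr j n (m1 n x))) :
    NatOut P G g s θ β C0 fl B I lev f b vm w e pr := by
  obtain ⟨H2, m2, B2, I2, A2, sc2, h1, h2, h3, h4, h5, h6, h7⟩ := h
  refine ⟨fun n => H1 n * H2 n, fun n x => m1 n (m2 n x), B2, I2, A2, sc2, fun n => ⟨?_, ?_⟩,
    fun n x hx0 hx1 => ?_, fun n x y => ?_, fun n => ?_, ?_, h6, h7⟩
  · exact mul_pos (hH n).1 (h1 n).1
  · exact mul_le_one₀ (hH n).2 (h1 n).1.le (h1 n).2
  · exact hm n _ (h2 n x hx0 hx1).1 (h2 n x hx0 hx1).2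
  · rw [hq, h3]; ring
  · rw [h4, hB, ← Real.rpow_mul (B.pos n).le]
  · filter_upwards [hI, h5] with n a1 a2 using a2.trans a1


/-- **one zoom makes one more slot invisible.** -/
theorem SlotSys.zoom_gap [Countable κ] [Finite ι]
    (h : SlotSys P G g s θ β B I lev A f b vm w e pr fl sc) {j0 : ι} {c0 : ℝ} {R : ℝ → ℝ}
    (hR : RotFA P B I lev j0 (fl j0) (sc j0) c0 R) {v0 D : ℝ} (hv0 : 0 < v0) (hv1 : v0 < 1)
    (hD : 0 < D) (hgap : ∀ᶠ v in 𝓝 v0, β j0 * v + D ≤ R v) :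
    ∃ (H : ℕ → ℝ) (m : ℕ → ℚ → ℚ) (B' : Base) (I' : ℕ → Finset (ℕ × ℝ)) (A' : ℕ → ℝ)
      (sc' : ι → ℕ → ℝ), (∀ n, 0 < H n ∧ H n ≤ 1) ∧
      (∀ n, ∀ x : ℚ, 0 ≤ x → x ≤ 1 → 0 ≤ m n x ∧ m n x ≤ 1) ∧
      (∀ n, ∀ x y : ℚ, (m n y : ℝ) - m n x = H n * ((y : ℝ) - x)) ∧
      (∀ n, B'.d n = B.d n ^ H n) ∧ (∀ᶠ n in (U : Filter ℕ), I' n ⊆ I n) ∧
      SlotSys P G g s θ β B' I' (fun n x => lev n (m n x)) A' (fun n x => f n (m n x))
        (fun n x => b n (m n x)) (fun n x => vm n (m n x)) (fun j n x => w j n (m n x))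
        (fun n x => e n (m n x)) (fun j n x => pr j n (m n x)) fl sc' ∧
      Inv P B' I' j0 (fl j0) (sc' j0) ∧
      ∀ j, Inv P B I j (fl j) (sc j) → Inv P B' I' j (fl j) (sc' j) := by
  classical
  obtain ⟨η, m, hη, hη1, hη0, hm, hq, hmv, s0, hs0, hz⟩ := h.zoom hv0 hv1
  have hm00 : ∀ k, 0 ≤ m k 0 ∧ m k 0 ≤ 1 := fun k => hm k 0 le_rfl zero_le_one
  obtain ⟨s3, hs3, hs3'⟩ := exists_diag (fun k n => ∀ x ∈ I n, ∀ y ∈ I n, y.1 = x.1 →
    zc (lev n (m k 0)) y.2 = zc (lev n (m k 0)) x.2 →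
      P.d j0 n (fl j0 n x) (fl j0 n y) ≤ sc j0 n * B.d n ^ (R (m k 0) - D / 2)) (fun k =>
    hR.rot (m k 0) (hm00 k).1 (hm00 k).2 (D / 2) (by positivity))
  set t : ℕ → ℕ := fun n => min (s0 n) (s3 n) with ht
  have htt : Tendsto t U atTop := by
    rw [tendsto_atTop]
    intro c
    filter_upwards [tendsto_atTop.1 hs0 c, tendsto_atTop.1 hs3 c] with n h1 h2
    exact le_min h1 h2
  obtain ⟨B', I', A', hB', hI', hS'⟩ := hz t htt (Eventually.of_forall fun n => min_le_left _ _)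
  have hBp : ∀ n (y : ℝ), B'.d n ^ y = B.d n ^ (η (t n) * y) := by
    intro n y
    rw [hB' n, ← Real.rpow_mul (B.pos n).le]
  refine ⟨fun n => η (t n), fun n => m (t n), B', I', A', _, fun n => ⟨hη _, hη1 _⟩,
    fun n => hm (t n), fun n => hq (t n), hB', Eventually.of_forall hI', hS', ?_, ?_⟩
  · intro M
    have hg1 : ∀ᶠ n in (U : Filter ℕ), β j0 * (m (t n) 0 : ℝ) + D ≤ R (m (t n) 0) :=
      ((hmv 0).comp htt).eventually hgap
    have hg2 : ∀ᶠ n in (U : Filter ℕ), η (t n) * M < D / 2 := by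
      have h1 : Tendsto (fun n => η (t n) * M) U (𝓝 (0 * M)) := (hη0.comp htt).mul_const M
      rw [zero_mul] at h1
      exact h1.eventually_lt_const (by positivity)
    filter_upwards [hg1, hg2, hs3', hS'.mka.cell0] with n a1 a2 a3 a4 x hx y hy hxy
    have b1 := a3 (t n) (min_le_right _ _) x (hI' n hx) y (hI' n hy) hxy (a4 y hy x hx)
    refine b1.trans ?_
    rw [hBp, mul_assoc, ← dpow_add]
    exact mul_le_mul_of_nonneg_left (dpow_le B n (by linarith)) (h.scpos j0 n).le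
  · intro j hj M
    filter_upwards [hj (|β j| + |M|)] with n a1 x hx y hy hxy
    refine (a1 x (hI' n hx) y (hI' n hy) hxy).trans ?_
    rw [hBp, mul_assoc, ← dpow_add]
    refine mul_le_mul_of_nonneg_left (dpow_le B n ?_) (h.scpos j n).le
    have c1 : β j * (m (t n) 0 : ℝ) ≤ |β j| := by
      have e0 : (0 : ℝ) ≤ m (t n) 0 := by exact_mod_cast (hm00 (t n)).1
      have e1 : (m (t n) 0 : ℝ) ≤ 1 := by exact_mod_cast (hm00 (t n)).2
      calc β j * (m (t n) 0 : ℝ) ≤ |β j| * (m (t n) 0 : ℝ) :=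
            mul_le_mul_of_nonneg_right (le_abs_self _) e0
        _ ≤ |β j| * 1 := mul_le_mul_of_nonneg_left e1 (abs_nonneg _)
        _ = |β j| := mul_one _
    have c2 : η (t n) * M ≤ |M| := by
      calc η (t n) * M ≤ η (t n) * |M| := mul_le_mul_of_nonneg_left (le_abs_self _) (hη _).le
        _ ≤ 1 * |M| := mul_le_mul_of_nonneg_right (hη1 _) (abs_nonneg _)
        _ = |M| := one_mul _
    linarith



end

end Crest.Agent.R136.Slt627
end

-- ▼ part R136/TD2_627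
section

/-!
# R136: triangular slots (helper627), part 2

`TSys` : marked sequence with linear exponents, one composite flag `fl n x` per incidence, triangular
distances `P : TDist φ m`, scales `sc j`, rates `β j`.

The flags of the marks of level `v` are functions `fr n v x` of the incidence (e.g. `frA lev f e n v x`,
or a flag re-centred at the height of `x`).

* `NearE` : agreement of two families of flags in every slot, `NearE.symm`, `NearE.trans`;
* `TSys.same_cell` : the flags of one line in one cell of level `u` agree in every slot up to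
  `sc d^(β u - ε)`;
* `TSys.zoom` : zoom at every point of `(0,1)`.
-/

set_option autoImplicit false
set_option linter.unusedVariables false
set_option linter.unusedSectionVars false

open Finset Filter Topology

namespace Crest.Agent.R136.TD627

open Crest.Agent.R138.Ex926 (Base U exists_diag)
open Crest.Agent.R138.Dp76
open Crest.Agent.R138.Ps926
open Crest.Agent.R138.Mk163 (zc zl rho alive own Negl)
open Crest.Agent.R138.MkPoint627 (exists_affine)
open Crest.Agent.R138.MkZoom779 (Fq Fq_mem ev_mem_Fq zero_mem_Fq)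
open Crest.Agent.R138.NatTw76 (exists_avoid)
open Crest.Agent.R136.MkA627
open Crest.Agent.R136.ZoomA102 (zoomA)
open Crest.Agent.R136.Net191 (Mons)
open Crest.Agent.R136.Slt627 (log_dpow log_sc eq_exp)

variable {σ κ φ : Type*} {m : ℕ}

/-- slot data of a marked sequence with linear exponents, triangular slots. -/
structure TSys (P : TDist φ m) (G : Geo σ κ) (g s : ℝ) (θ : κ → ℝ) (β : Fin m → ℝ)
    (B : Base) (I : ℕ → Finset (ℕ × ℝ)) (lev : ℕ → ℚ → ℕ) (A : ℕ → ℝ)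
    (f : ℕ → ℚ → ℕ → ℤ → ℕ) (b : ℕ → ℚ → ℕ → σ) (vm : ℕ → ℚ → ℝ) (w : κ → ℕ → ℚ → ℝ)
    (fr : ℕ → ℚ → ℕ × ℝ → φ) (pr : Fin m → ℕ → ℚ → ℝ) (fl : ℕ → ℕ × ℝ → φ) (sc : Fin m → ℕ → ℝ) :
    Prop where
  mka : MkA B I G lev A (fun v => g * v) (fun v => s * v) (fun j v => θ j * (1 - v)) f b vm w
  scpos : ∀ j n, 0 < sc j n
  prpos : ∀ j, ∀ v : ℚ, 0 ≤ v → v ≤ 1 → ∀ᶠ n in (U : Filter ℕ), 0 < pr j n v
  /-- precision of the marks = `sc d^(β v)` -/
  prc : ∀ j, ∀ v : ℚ, 0 ≤ v → v ≤ 1 →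
    Tendsto (fun n => Real.log (sc j n / pr j n v) / B.L n) U (𝓝 (β j * v))
  /-- level-`v` flags of one line in one cell of level `v` agree up to the precision -/
  cell : ∀ j, ∀ v : ℚ, 0 ≤ v → v ≤ 1 → ∀ ε : ℝ, 0 < ε → ∀ᶠ n in (U : Filter ℕ), ∀ x ∈ I n,
    ∀ y ∈ I n, y.1 = x.1 → zc (lev n v) y.2 = zc (lev n v) x.2 →
      P.d j n (fr n v x) (fr n v y) ≤ pr j n v * B.d n ^ (-ε)
  /-- flags and level-`v` flags agree up to the precision -/
  close : ∀ j, ∀ v : ℚ, 0 ≤ v → v ≤ 1 → ∀ ε : ℝ, 0 < ε → ∀ᶠ n in (U : Filter ℕ), ∀ x ∈ I n,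
    P.d j n (fl n x) (fr n v x) ≤ pr j n v * B.d n ^ (-ε)
  /-- product rule of the precisions -/
  wpr : ∀ j, ∀ a ∈ P.M.mon j, ∀ v : ℚ, 0 ≤ v → v ≤ 1 → ∀ ε : ℝ, 0 < ε →
    ∀ᶠ n in (U : Filter ℕ), ∏ t, pr t n v ^ a t ≤ pr j n v * B.d n ^ (-ε)

/-- slack monomials are infinitely small -/
def Slack (P : TDist φ m) (β : Fin m → ℝ) (B : Base) (sc : Fin m → ℕ → ℝ) : Prop :=
  ∀ j, ∀ a ∈ P.M.mon j, ∑ t, (a t : ℝ) * β t ≠ β j → ∀ M : ℝ, ∀ᶠ n in (U : Filter ℕ),
    ∏ t, sc t n ^ a t ≤ sc j n * B.d n ^ M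

/-- the flags of one line agree to infinite order in the slot `j` -/
def InvT (P : TDist φ m) (B : Base) (I : ℕ → Finset (ℕ × ℝ)) (j : Fin m) (fl : ℕ → ℕ × ℝ → φ)
    (sc : ℕ → ℝ) : Prop :=
  ∀ M : ℝ, ∀ᶠ n in (U : Filter ℕ), ∀ x ∈ I n, ∀ y ∈ I n, y.1 = x.1 →
    P.d j n (fl n x) (fl n y) ≤ sc n * B.d n ^ M

theorem InvT.dense {P : TDist φ m} {B : Base} {I J : ℕ → Finset (ℕ × ℝ)} {j : Fin m}
    {fl : ℕ → ℕ × ℝ → φ} {sc : ℕ → ℝ} (h : InvT P B I j fl sc) (hd : Dense B J I) :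
    InvT P B J j fl sc := by
  intro M
  filter_upwards [h M, hd.1] with n a1 a2 x hx y hy using a1 x (a2 hx) y (a2 hy)

/-- products of scales with powers of `d` -/
theorem prod_dpow {B : Base} {sc : Fin m → ℕ → ℝ} (n : ℕ) (a : Fin m → ℕ) (r : Fin m → ℝ) :
    ∏ t, (sc t n * B.d n ^ (r t)) ^ a t = (∏ t, sc t n ^ a t) * B.d n ^ (∑ t, (a t : ℝ) * r t) := by
  rw [Real.rpow_sum_of_pos (B.pos n), ← Finset.prod_mul_distrib]
  refine Finset.prod_congr rfl fun t _ => ?_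
  rw [mul_pow, ← Real.rpow_natCast (B.d n ^ r t), ← Real.rpow_mul (B.pos n).le, mul_comm (r t)]

/-- a constant is absorbed by an arbitrarily small power -/
theorem ev_const (B : Base) {C ε : ℝ} (hC : 0 ≤ C) (hε : 0 < ε) :
    ∀ᶠ n in (U : Filter ℕ), ∀ S r : ℝ, 0 ≤ S → C * (S * B.d n ^ (r + ε)) ≤ S * B.d n ^ r := by
  filter_upwards [dpow_small B hε (ε := 1 / (C + 1)) (by positivity)] with n hn S r hS
  have h1 : C * B.d n ^ ε ≤ 1 := by
    have h2 : (C + 1) * B.d n ^ ε ≤ 1 := by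
      have := mul_le_mul_of_nonneg_left hn.le (show 0 ≤ C + 1 by positivity)
      rwa [mul_one_div_cancel (by positivity)] at this
    have := dpow_pos B n ε
    nlinarith
  rw [dpow_add]
  calc C * (S * (B.d n ^ r * B.d n ^ ε)) = (C * B.d n ^ ε) * (S * B.d n ^ r) := by ring
    _ ≤ 1 * (S * B.d n ^ r) := mul_le_mul_of_nonneg_right h1 (mul_nonneg hS (dpow_pos B n r).le)
    _ = _ := one_mul _

/-- degree bound -/
theorem sum_nat_le (M : Mons m) {j : Fin m} {a : Fin m → ℕ} (ha : a ∈ M.mon j) :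
    ∑ t, (a t : ℝ) ≤ (M.deg : ℝ) := by
  exact_mod_cast M.deg_le ha

/-- the monomials of `j` involve earlier slots only -/
theorem mon_lt (M : Mons m) {j : Fin m} {a : Fin m → ℕ} (ha : a ∈ M.mon j) {t : Fin m}
    (ht : a t ≠ 0) : t < j := by
  by_contra hcon
  exact ht (M.low j a ha t (not_lt.1 hcon))

/-! ### agreement of two families of flags -/

/-- `a n p` and `b n p` agree in every slot `j` up to `sc j d^(r j - ε)` -/
def NearE {ι : Type*} (P : TDist φ m) (B : Base) (sc : Fin m → ℕ → ℝ) (r : Fin m → ℝ)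
    (S : ℕ → ι → Prop) (a b : ℕ → ι → φ) : Prop :=
  ∀ j, ∀ ε : ℝ, 0 < ε → ∀ᶠ n in (U : Filter ℕ), ∀ p, S n p →
    P.d j n (a n p) (b n p) ≤ sc j n * B.d n ^ (r j - ε)

/-- walls: the product of the precisions of the earlier slots is at most the precision of `j` -/
def WallE (P : TDist φ m) (B : Base) (sc : Fin m → ℕ → ℝ) (r : Fin m → ℝ) : Prop :=
  ∀ j, ∀ a ∈ P.M.mon j, ∀ ε : ℝ, 0 < ε → ∀ᶠ n in (U : Filter ℕ),
    ∏ t, (sc t n * B.d n ^ (r t)) ^ a t ≤ sc j n * B.d n ^ (r j - ε)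

section near

variable {P : TDist φ m} {B : Base} {sc : Fin m → ℕ → ℝ} {r : Fin m → ℝ}

theorem WallE.fine (hw : WallE P B sc r) (hsc : ∀ j n, 0 < sc j n) (j : Fin m) {ε : ℝ}
    (hε : 0 < ε) : ∃ δ : ℝ, 0 < δ ∧ ∀ᶠ n in (U : Filter ℕ), ∀ a ∈ P.M.mon j,
        ∏ t, (sc t n * B.d n ^ (r t - δ)) ^ a t ≤ sc j n * B.d n ^ (r j - ε) := by
  have hdeg : (0 : ℝ) ≤ P.M.deg := Nat.cast_nonneg _
  refine ⟨ε / (2 * ((P.M.deg : ℝ) + 1)), by positivity, ?_⟩
  set δ : ℝ := ε / (2 * ((P.M.deg : ℝ) + 1)) with hδ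
  have hδ0 : 0 < δ := by rw [hδ]; positivity
  have hδ2 : (P.M.deg : ℝ) * δ ≤ ε / 2 := by
    rw [hδ, mul_div_assoc', div_le_div_iff₀ (by positivity) (by norm_num)]
    nlinarith
  rw [Filter.eventually_all_finset]
  intro a ha
  filter_upwards [hw j a ha (ε / 2) (by positivity)] with n hn
  rw [prod_dpow] at hn ⊢
  have e1 : ∑ t, (a t : ℝ) * (r t - δ) = ∑ t, (a t : ℝ) * r t + -((∑ t, (a t : ℝ)) * δ) := by
    rw [Finset.sum_mul, ← sub_eq_add_neg, ← Finset.sum_sub_distrib]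
    exact Finset.sum_congr rfl fun t _ => by ring
  have e2 := mul_le_mul_of_nonneg_right (sum_nat_le P.M ha) hδ0.le
  calc (∏ t, sc t n ^ a t) * B.d n ^ (∑ t, (a t : ℝ) * (r t - δ))
      = ((∏ t, sc t n ^ a t) * B.d n ^ (∑ t, (a t : ℝ) * r t)) *
          B.d n ^ (-((∑ t, (a t : ℝ)) * δ)) := by
        rw [e1, mul_assoc, ← dpow_add]
    _ ≤ (sc j n * B.d n ^ (r j - ε / 2)) * B.d n ^ (-((∑ t, (a t : ℝ)) * δ)) :=
        mul_le_mul_of_nonneg_right hn (dpow_pos B n _).le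
    _ = sc j n * B.d n ^ (r j - ε / 2 + -((∑ t, (a t : ℝ)) * δ)) := by
        rw [mul_assoc, ← dpow_add]
    _ ≤ _ := mul_le_mul_of_nonneg_left (dpow_le B n (by linarith)) (hsc j n).le

theorem NearE.mono {ι : Type*} {S S' : ℕ → ι → Prop} {a b : ℕ → ι → φ}
    (h : NearE P B sc r S a b) (hS : ∀ᶠ n in (U : Filter ℕ), ∀ p, S' n p → S n p) :
    NearE P B sc r S' a b := fun j ε hε => by
  filter_upwards [h j ε hε, hS] with n a1 a2 p hp using a1 p (a2 p hp)

/-- transitivity -/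
theorem NearE.trans {ι : Type*} {S : ℕ → ι → Prop} {a b c : ℕ → ι → φ}
    (hw : WallE P B sc r) (hsc : ∀ j n, 0 < sc j n)
    (h1 : NearE P B sc r S a b) (h2 : NearE P B sc r S b c) : NearE P B sc r S a c := by
  intro j ε hε
  obtain ⟨δ, hδ, hf⟩ := hw.fine hsc j (half_pos hε)
  have hup : ∀ᶠ n in (U : Filter ℕ), ∀ t : Fin m, ∀ p, S n p →
      P.d t n (a n p) (b n p) ≤ sc t n * B.d n ^ (r t - δ) ∧
      P.d t n (b n p) (c n p) ≤ sc t n * B.d n ^ (r t - δ) := by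
    rw [Filter.eventually_all]
    intro t
    filter_upwards [h1 t δ hδ, h2 t δ hδ] with n a1 a2 p hp using ⟨a1 p hp, a2 p hp⟩
  filter_upwards [hup, hf, h1 j _ (half_pos hε), h2 j _ (half_pos hε),
    ev_const B (C := P.K * (2 + P.cn j)) (ε := ε / 2)
      (mul_nonneg (zero_le_one.trans P.K1) (by have := P.cn_nonneg j; linarith)) (by positivity)]
    with n a1 a3 a4 a4' a5 p hp
  have b1 := P.tri_le (k := j) (n := n) (a := a n p) (b := b n p) (c := c n p)
    (T := fun t => sc t n * B.d n ^ (r t - δ))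
    (X := sc j n * B.d n ^ (r j - ε / 2)) (Y := sc j n * B.d n ^ (r j - ε / 2))
    (fun e he t ht => (a1 t p hp).1) (fun e he t ht => (a1 t p hp).2) a3 (a4 p hp) (a4' p hp)
  refine b1.trans ?_
  have b2 := a5 (sc j n) (r j - ε) (hsc j n).le
  have e1 : r j - ε + ε / 2 = r j - ε / 2 := by ring
  rw [e1] at b2
  refine le_trans (le_of_eq ?_) b2
  ring

/-- symmetry (slot by slot) -/
theorem NearE.symm {ι : Type*} {S : ℕ → ι → Prop} {a b : ℕ → ι → φ}
    (hw : WallE P B sc r) (hsc : ∀ j n, 0 < sc j n)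
    (h1 : NearE P B sc r S a b) : NearE P B sc r S b a := by
  have key : ∀ k : ℕ, ∀ j : Fin m, (j : ℕ) = k → ∀ ε : ℝ, 0 < ε → ∀ᶠ n in (U : Filter ℕ),
      ∀ p, S n p → P.d j n (b n p) (a n p) ≤ sc j n * B.d n ^ (r j - ε) := by
    intro k
    induction k using Nat.strong_induction_on with
    | _ k ih =>
      intro j hj ε hε
      obtain ⟨δ, hδ, hf⟩ := hw.fine hsc j (half_pos hε)
      have hlow : ∀ᶠ n in (U : Filter ℕ), ∀ t : Fin m, t < j → ∀ p, S n p →
          P.d t n (b n p) (a n p) ≤ sc t n * B.d n ^ (r t - δ) := by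
        rw [Filter.eventually_all]
        intro t
        by_cases ht : t < j
        · filter_upwards [ih t (by rw [← hj]; exact ht) t rfl δ hδ] with n hn _ using hn
        · exact Eventually.of_forall fun n h => absurd h ht
      have hup : ∀ᶠ n in (U : Filter ℕ), ∀ t : Fin m, ∀ p, S n p →
          P.d t n (a n p) (b n p) ≤ sc t n * B.d n ^ (r t - δ) := by
        rw [Filter.eventually_all]
        exact fun t => h1 t δ hδ
      filter_upwards [hlow, hup, hf, h1 j (ε / 2) (by positivity),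
        ev_const B (C := P.K * (1 + P.cn j)) (ε := ε / 2)
          (mul_nonneg (zero_le_one.trans P.K1) (by have := P.cn_nonneg j; linarith)) (by positivity)]
        with n a1 a2 a3 a4 a5 p hp
      have b1 := P.sym_le (k := j) (n := n) (a := a n p) (b := b n p)
        (T := fun t => sc t n * B.d n ^ (r t - δ))
        (X := sc j n * B.d n ^ (r j - ε / 2)) (Y := sc j n * B.d n ^ (r j - ε / 2))
        (fun e he t ht => a2 t p hp) (fun e he t ht => a1 t (mon_lt P.M he ht) p hp) a3 (a4 p hp)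
      refine b1.trans ?_
      have b2 := a5 (sc j n) (r j - ε) (hsc j n).le
      have e1 : r j - ε + ε / 2 = r j - ε / 2 := by ring
      rw [e1] at b2
      refine le_trans (le_of_eq ?_) b2
      ring
  exact fun j => key j j rfl

end near

section

variable {P : TDist φ m} {G : Geo σ κ} {g s : ℝ} {θ : κ → ℝ} {β : Fin m → ℝ}
    {B : Base} {I : ℕ → Finset (ℕ × ℝ)} {lev : ℕ → ℚ → ℕ} {A : ℕ → ℝ}
    {f : ℕ → ℚ → ℕ → ℤ → ℕ} {b : ℕ → ℚ → ℕ → σ} {vm : ℕ → ℚ → ℝ} {w : κ → ℕ → ℚ → ℝ}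
    {fr : ℕ → ℚ → ℕ × ℝ → φ} {pr : Fin m → ℕ → ℚ → ℝ} {fl : ℕ → ℕ × ℝ → φ} {sc : Fin m → ℕ → ℝ}

theorem TSys.dense (h : TSys P G g s θ β B I lev A f b vm w fr pr fl sc)
    {J : ℕ → Finset (ℕ × ℝ)} (hd : Dense B J I)
    (hJ : MkA B J G lev A (fun v => g * v) (fun v => s * v) (fun j v => θ j * (1 - v)) f b vm w) :
    TSys P G g s θ β B J lev A f b vm w fr pr fl sc where
  mka := hJ
  scpos := h.scpos
  prpos := h.prpos
  prc := h.prc
  cell := fun j v h0 h1 ε hε => by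
    filter_upwards [h.cell j v h0 h1 ε hε, hd.1] with n a1 a2 x hx y hy
    exact a1 x (a2 hx) y (a2 hy)
  close := fun j v h0 h1 ε hε => by
    filter_upwards [h.close j v h0 h1 ε hε, hd.1] with n a1 a2 x hx using a1 x (a2 hx)
  wpr := h.wpr

/-- the precision of level `v` against `sc d^(β v)`. -/
theorem TSys.pr_le (h : TSys P G g s θ β B I lev A f b vm w fr pr fl sc) (j : Fin m) {v : ℚ}
    (h0 : 0 ≤ v) (h1 : v ≤ 1) {ε : ℝ} (hε : 0 < ε) : ∀ᶠ n in (U : Filter ℕ),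
      pr j n v ≤ sc j n * B.d n ^ (β j * v - ε) ∧ sc j n * B.d n ^ (β j * v + ε) ≤ pr j n v := by
  filter_upwards [(Metric.tendsto_nhds.1 (h.prc j v h0 h1)) ε hε, h.prpos j v h0 h1] with n a1 a2
  rw [Real.dist_eq, abs_lt] at a1
  have e1 := eq_exp (B := B) (n := n) (h.scpos j n) a2
  constructor
  · rw [e1]
    exact mul_le_mul_of_nonneg_left (dpow_le B n (by linarith [a1.1])) (h.scpos j n).le
  · rw [e1]
    exact mul_le_mul_of_nonneg_left (dpow_le B n (by linarith [a1.2])) (h.scpos j n).le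

/-- the walls at level `v`. -/
theorem TSys.wall (h : TSys P G g s θ β B I lev A f b vm w fr pr fl sc) {v : ℚ}
    (h0 : 0 ≤ v) (h1 : v ≤ 1) : WallE P B sc (fun t => β t * v) := by
  intro j a ha ε hε
  have hdeg : (0 : ℝ) ≤ P.M.deg := Nat.cast_nonneg _
  set δ : ℝ := ε / (4 * ((P.M.deg : ℝ) + 1)) with hδ
  have hδ0 : 0 < δ := by rw [hδ]; positivity
  have hδ2 : (P.M.deg : ℝ) * δ ≤ ε / 4 := by
    rw [hδ, mul_div_assoc', div_le_div_iff₀ (by positivity) (by norm_num)]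
    nlinarith
  have hall : ∀ᶠ n in (U : Filter ℕ), ∀ t : Fin m, sc t n * B.d n ^ (β t * v + δ) ≤ pr t n v := by
    rw [Filter.eventually_all]
    intro t
    filter_upwards [h.pr_le t h0 h1 hδ0] with n hn using hn.2
  filter_upwards [hall, h.wpr j a ha v h0 h1 (ε / 4) (by positivity),
    h.pr_le j h0 h1 (ε := ε / 4) (by positivity)] with n a1 a2 a3
  have b1 : ∏ t, (sc t n * B.d n ^ (β t * v + δ)) ^ a t ≤ ∏ t, pr t n v ^ a t :=
    Finset.prod_le_prod (fun t _ => pow_nonneg (mul_pos (h.scpos t n) (dpow_pos B n _)).le _)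
      fun t _ => pow_le_pow_left₀ (mul_pos (h.scpos t n) (dpow_pos B n _)).le (a1 t) _
  have e2 := mul_le_mul_of_nonneg_right (sum_nat_le P.M ha) hδ0.le
  have b2 : (∏ t, (sc t n * B.d n ^ (β t * v)) ^ a t) * B.d n ^ ((∑ t, (a t : ℝ)) * δ) ≤
      sc j n * B.d n ^ (β j * v - ε / 2) := by
    have e1 : (∏ t, (sc t n * B.d n ^ (β t * v)) ^ a t) * B.d n ^ ((∑ t, (a t : ℝ)) * δ) =
        ∏ t, (sc t n * B.d n ^ (β t * v + δ)) ^ a t := by
      rw [prod_dpow, prod_dpow, mul_assoc, ← dpow_add]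
      congr 2
      rw [Finset.sum_mul, ← Finset.sum_add_distrib]
      exact Finset.sum_congr rfl fun t _ => by ring
    rw [e1]
    refine (b1.trans a2).trans ?_
    refine (mul_le_mul_of_nonneg_right a3.1 (dpow_pos B n _).le).trans (le_of_eq ?_)
    rw [mul_assoc, ← dpow_add]
    congr 2
    ring
  have b3 := mul_le_mul_of_nonneg_right b2 (dpow_pos B n (-((∑ t, (a t : ℝ)) * δ))).le
  have e3 : (∏ t, (sc t n * B.d n ^ (β t * v)) ^ a t) * B.d n ^ ((∑ t, (a t : ℝ)) * δ) *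
      B.d n ^ (-((∑ t, (a t : ℝ)) * δ)) = ∏ t, (sc t n * B.d n ^ (β t * v)) ^ a t := by
    rw [mul_assoc, ← dpow_add]
    simp
  rw [e3, mul_assoc, ← dpow_add] at b3
  refine b3.trans (mul_le_mul_of_nonneg_left (dpow_le B n ?_) (h.scpos j n).le)
  linarith

/-- the walls of the scales -/
theorem TSys.wsc (h : TSys P G g s θ β B I lev A f b vm w fr pr fl sc) (j : Fin m)
    (a : Fin m → ℕ) (ha : a ∈ P.M.mon j) (ε : ℝ) (hε : 0 < ε) :
    ∀ᶠ n in (U : Filter ℕ), ∏ t, sc t n ^ a t ≤ sc j n * B.d n ^ (-ε) := by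
  filter_upwards [h.wall (v := 0) le_rfl zero_le_one j a ha ε hε] with n hn
  simpa using hn

/-- closeness against `sc d^(β v)`. -/
theorem TSys.near (h : TSys P G g s θ β B I lev A f b vm w fr pr fl sc) {v : ℚ}
    (h0 : 0 ≤ v) (h1 : v ≤ 1) : NearE P B sc (fun t => β t * v) (fun n x => x ∈ I n) fl
      (fun n x => fr n v x) := by
  intro j ε hε
  filter_upwards [h.pr_le j h0 h1 (half_pos hε), h.close j v h0 h1 _ (half_pos hε)] with n a1 a2 x hx
  refine (a2 x hx).trans ?_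
  refine (mul_le_mul_of_nonneg_right a1.1 (dpow_pos B n _).le).trans (le_of_eq ?_)
  rw [mul_assoc, ← dpow_add]
  congr 2
  ring

/-- **the flags of one line in one cell of level `u` agree up to the precision of level `u`, in every
slot.** -/
theorem TSys.same_cell (h : TSys P G g s θ β B I lev A f b vm w fr pr fl sc) (j : Fin m) {u : ℚ}
    (h0 : 0 ≤ u) (h1 : u ≤ 1) {ε : ℝ} (hε : 0 < ε) : ∀ᶠ n in (U : Filter ℕ),
      ∀ x ∈ I n, ∀ y ∈ I n, y.1 = x.1 → zc (lev n u) y.2 = zc (lev n u) x.2 →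
        P.d j n (fl n x) (fl n y) ≤ sc j n * B.d n ^ (β j * u - ε) := by
  set S : ℕ → (ℕ × ℝ) × (ℕ × ℝ) → Prop := fun n p =>
    p.1 ∈ I n ∧ p.2 ∈ I n ∧ p.2.1 = p.1.1 ∧ zc (lev n u) p.2.2 = zc (lev n u) p.1.2 with hS
  have hw := h.wall h0 h1
  have hn := h.near h0 h1
  have hn' := hn.symm hw h.scpos
  have c1 : NearE P B sc (fun t => β t * u) S (fun n p => fl n p.1) (fun n p => fr n u p.1) :=
    fun j ε hε => by
      filter_upwards [hn j ε hε] with n a1 p hp using a1 p.1 hp.1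
  have c2 : NearE P B sc (fun t => β t * u) S (fun n p => fr n u p.1) (fun n p => fr n u p.2) := by
    intro j ε hε
    filter_upwards [h.pr_le j h0 h1 (half_pos hε), h.cell j u h0 h1 _ (half_pos hε)]
      with n a1 a2 p hp
    refine (a2 p.1 hp.1 p.2 hp.2.1 hp.2.2.1 hp.2.2.2).trans ?_
    refine (mul_le_mul_of_nonneg_right a1.1 (dpow_pos B n _).le).trans (le_of_eq ?_)
    rw [mul_assoc, ← dpow_add]
    congr 2
    ring
  have c3 : NearE P B sc (fun t => β t * u) S (fun n p => fr n u p.2) (fun n p => fl n p.2) :=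
    fun j ε hε => by
      filter_upwards [hn' j ε hε] with n a1 p hp using a1 p.2 hp.2.1
  have c4 := (c1.trans hw h.scpos c2).trans hw h.scpos c3
  filter_upwards [c4 j ε hε] with n a1 x hx y hy hxy hz
  exact a1 (x, y) ⟨hx, hy, hxy, hz⟩

/-- **zoom** at a point of `(0,1)`. -/
theorem TSys.zoom [Countable κ]
    (h : TSys P G g s θ β B I lev A f b vm w fr pr fl sc) {v0 : ℝ} (hv0 : 0 < v0) (hv1 : v0 < 1) :
    ∃ (η : ℕ → ℝ) (mm : ℕ → ℚ → ℚ), (∀ k, 0 < η k) ∧ (∀ k, η k ≤ 1) ∧ Tendsto η atTop (𝓝 0) ∧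
      (∀ k, ∀ x : ℚ, 0 ≤ x → x ≤ 1 → 0 ≤ mm k x ∧ mm k x ≤ 1) ∧
      (∀ k, ∀ x y : ℚ, (mm k y : ℝ) - mm k x = η k * ((y : ℝ) - x)) ∧
      (∀ x : ℚ, Tendsto (fun k => ((mm k x : ℚ) : ℝ)) atTop (𝓝 v0)) ∧
      ∃ s0 : ℕ → ℕ, Tendsto s0 U atTop ∧ ∀ t : ℕ → ℕ, Tendsto t U atTop →
        (∀ᶠ n in (U : Filter ℕ), t n ≤ s0 n) →
        ∃ (B' : Base) (I' : ℕ → Finset (ℕ × ℝ)) (A' : ℕ → ℝ),
          (∀ n, B'.d n = B.d n ^ η (t n)) ∧ (∀ n, I' n ⊆ I n) ∧
          TSys P G g s θ β B' I' (fun n x => lev n (mm (t n) x)) A'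
            (fun n x => f n (mm (t n) x)) (fun n x => b n (mm (t n) x))
            (fun n x => vm n (mm (t n) x)) (fun j n x => w j n (mm (t n) x))
            (fun n x => fr n (mm (t n) x)) (fun j n x => pr j n (mm (t n) x)) fl
            (fun j n => sc j n * B.d n ^ (β j * mm (t n) 0)) := by
  classical
  obtain ⟨η, mm, hη, hη1, hη0, hm, hmono, hq, hmv, hlim⟩ := exists_affine hv0 hv1
  have hq' : ∀ k, ∀ x y : ℚ, (mm k y : ℝ) - mm k x = η k * ((y : ℝ) - x) := by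
    intro k x y
    have := hq k x y
    rw [div_eq_iff (hη k).ne'] at this
    rw [this]; ring
  refine ⟨η, mm, hη, hη1, hη0, hm, hq', hmv, ?_⟩
  have hs01 : 0 ≤ s ∧ s ≤ 1 := by
    have := h.mka.lam 0 1 le_rfl zero_le_one le_rfl
    simpa using this
  obtain ⟨s1, hs1, hz⟩ := zoomA h.mka η mm (fun v => g * v) (fun v => s * v)
    (fun j v => θ j * (1 - v)) hη hη1 hm
    (fun x y _ hxy _ => Eventually.of_forall fun k => hmono k x y hxy)
    (fun x y _ _ _ => by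
      simp only [hq]
      exact tendsto_const_nhds)
    (fun x hx0 hx1 => by
      have e1 : ∀ k, (g * (mm k x : ℝ) - g * (mm k 0 : ℝ)) / η k = g * x := by
        intro k
        rw [← mul_sub, hq' k 0 x]
        have := (hη k).ne'
        push_cast
        field_simp
        ring
      simp only [e1]
      exact tendsto_const_nhds)
    (fun x hx0 hx1 => by
      have e1 : ∀ k, (s * (mm k x : ℝ) - s * (mm k 0 : ℝ)) / η k = s * x := by
        intro k
        rw [← mul_sub, hq' k 0 x]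
        have := (hη k).ne'
        push_cast
        field_simp
        ring
      simp only [e1]
      exact tendsto_const_nhds)
    (fun j x hx0 hx1 => by
      have e1 : ∀ k, (θ j * (1 - (mm k x : ℝ)) - θ j * (1 - (mm k 1 : ℝ))) / η k =
          θ j * (1 - x) := by
        intro k
        have e2 : θ j * (1 - (mm k x : ℝ)) - θ j * (1 - (mm k 1 : ℝ)) =
            θ j * ((mm k 1 : ℝ) - mm k x) := by ring
        rw [e2, hq' k x 1]
        have := (hη k).ne'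
        push_cast
        field_simp
      simp only [e1]
      exact tendsto_const_nhds)
    (fun u v hu huv hv => by
      have e1 : s * v - s * u = s * (v - u) := by ring
      rw [e1]
      exact ⟨mul_nonneg hs01.1 (by linarith), by nlinarith⟩)
    (by simp) (by simp) (by simp)
  -- slot properties on the diagonal
  have hkp : ∀ k : ℕ, (0 : ℝ) < η k / (k + 1) := fun k => div_pos (hη k) (by positivity)
  obtain ⟨s2, hs2, hs2'⟩ := exists_diag (fun k n => ∀ j : Fin m, (∀ x ∈ Fq k,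
    0 < pr j n (mm k x) ∧
    |Real.log (sc j n / pr j n (mm k x)) / B.L n - β j * (mm k x : ℝ)| ≤ η k / (k + 1) ∧
    (∀ p ∈ I n, P.d j n (fl n p) (fr n (mm k x) p) ≤
      pr j n (mm k x) * B.d n ^ (-(η k / (k + 1)))) ∧
    (∀ p ∈ I n, ∀ y ∈ I n, y.1 = p.1 → zc (lev n (mm k x)) y.2 = zc (lev n (mm k x)) p.2 →
      P.d j n (fr n (mm k x) p) (fr n (mm k x) y) ≤
        pr j n (mm k x) * B.d n ^ (-(η k / (k + 1)))) ∧
    ∀ a ∈ P.M.mon j, ∏ t, pr t n (mm k x) ^ a t ≤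
      pr j n (mm k x) * B.d n ^ (-(η k / (k + 1))))) (by
    intro k
    rw [Filter.eventually_all]
    intro j
    rw [Filter.eventually_all_finset]
    intro x hx
    obtain ⟨hx0, hx1⟩ := Fq_mem hx
    obtain ⟨hm0, hm1⟩ := hm k x hx0 hx1
    have ht := (Metric.tendsto_nhds.1 (h.prc j (mm k x) hm0 hm1)) _ (hkp k)
    have hwp : ∀ᶠ n in (U : Filter ℕ), ∀ a ∈ P.M.mon j, ∏ t, pr t n (mm k x) ^ a t ≤
        pr j n (mm k x) * B.d n ^ (-(η k / (k + 1))) := by
      rw [Filter.eventually_all_finset]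
      intro a ha
      exact h.wpr j a ha (mm k x) hm0 hm1 _ (hkp k)
    filter_upwards [h.prpos j (mm k x) hm0 hm1, ht, h.close j (mm k x) hm0 hm1 _ (hkp k),
      h.cell j (mm k x) hm0 hm1 _ (hkp k), hwp] with n a1 a2 a3 a4 a5
    rw [Real.dist_eq] at a2
    exact ⟨a1, a2.le, a3, a4, a5⟩)
  refine ⟨fun n => min (s1 n) (s2 n), ?_, fun t ht hts => ?_⟩
  · rw [tendsto_atTop]
    intro c
    filter_upwards [tendsto_atTop.1 hs1 c, tendsto_atTop.1 hs2 c] with n h1 h2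
    exact le_min h1 h2
  obtain ⟨B', I', A', hBd, hI', hMk⟩ := hz t ht (by
    filter_upwards [hts] with n hn using hn.trans (min_le_left _ _))
  have hQ := (hs2'.and hts).mono fun n hn => hn.1 (t n) (hn.2.trans (min_le_right _ _))
  have hFq : ∀ x : ℚ, 0 ≤ x → x ≤ 1 → ∀ᶠ n in (U : Filter ℕ), x ∈ Fq (t n) := fun x h0 h1 =>
    ht.eventually (ev_mem_Fq h0 h1)
  have hBL : ∀ n, B'.L n = η (t n) * B.L n := by
    intro n
    have : Real.log (B'.d n) = Real.log (B.d n ^ η (t n)) := by rw [hBd n]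
    rw [log_dpow] at this
    have h2 : B'.L n = - Real.log (B'.d n) := rfl
    rw [h2, this]; ring
  have hBp : ∀ n (y : ℝ), B'.d n ^ y = B.d n ^ (η (t n) * y) := by
    intro n y
    rw [hBd n, ← Real.rpow_mul (B.pos n).le]
  have htend : Tendsto (fun n => 1 / ((t n : ℝ) + 1)) U (𝓝 0) :=
    tendsto_one_div_add_atTop_nhds_zero_nat.comp ht
  have hsmall : ∀ ε : ℝ, 0 < ε → ∀ᶠ n in (U : Filter ℕ), η (t n) / ((t n : ℝ) + 1) ≤ η (t n) * ε := by
    intro ε hε
    filter_upwards [(Metric.tendsto_nhds.1 htend) ε hε] with n a3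
    rw [Real.dist_eq, sub_zero, abs_of_pos (by positivity)] at a3
    have e3 : η (t n) / ((t n : ℝ) + 1) = η (t n) * (1 / ((t n : ℝ) + 1)) := by ring
    rw [e3]
    exact mul_le_mul_of_nonneg_left a3.le (hη _).le
  refine ⟨B', I', A', hBd, hI', ⟨hMk, fun j n => mul_pos (h.scpos j n) (dpow_pos B n _), ?_, ?_, ?_,
    ?_, ?_⟩⟩
  · intro j v h0 h1
    filter_upwards [hQ, hFq v h0 h1] with n a1 a2 using (a1 j v a2).1
  · intro j v h0 h1
    rw [Metric.tendsto_nhds]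
    intro ε hε
    filter_upwards [hQ, hFq v h0 h1, (Metric.tendsto_nhds.1 htend) ε hε] with n a1 a2 a3
    obtain ⟨b1, b2, -⟩ := a1 j v a2
    have hL := B.L_pos n
    have hp := hη (t n)
    have hk1 : (0 : ℝ) < (t n : ℝ) + 1 := by positivity
    rw [Real.dist_eq] at a3 ⊢
    rw [sub_zero, abs_of_pos (by positivity)] at a3
    rw [log_sc (h.scpos j n) b1, hBL n]
    have e1 : (Real.log (sc j n / pr j n (mm (t n) v)) - β j * (mm (t n) 0 : ℝ) * B.L n) /
        (η (t n) * B.L n) - β j * v =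
        (Real.log (sc j n / pr j n (mm (t n) v)) / B.L n - β j * (mm (t n) v : ℝ)) / η (t n) := by
      have e2 : (mm (t n) v : ℝ) = mm (t n) 0 + η (t n) * v := by
        have := hq' (t n) 0 v
        push_cast at this
        linarith
      rw [e2]
      field_simp
      ring
    rw [e1, abs_div, abs_of_pos hp, div_lt_iff₀ hp]
    refine lt_of_le_of_lt b2 ?_
    rw [div_eq_mul_one_div, mul_comm ε]
    exact mul_lt_mul_of_pos_left a3 hp
  · intro j v h0 h1 ε hε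
    filter_upwards [hQ, hFq v h0 h1, hsmall ε hε] with n a1 a2 a3 p hp y hy hyp hz
    obtain ⟨b1, -, -, b4, -⟩ := a1 j v a2
    refine (b4 p (hI' n hp) y (hI' n hy) hyp hz).trans ?_
    rw [hBp]
    refine mul_le_mul_of_nonneg_left (dpow_le B n ?_) b1.le
    linarith
  · intro j v h0 h1 ε hε
    filter_upwards [hQ, hFq v h0 h1, hsmall ε hε] with n a1 a2 a3 p hp
    obtain ⟨b1, -, b3, -, -⟩ := a1 j v a2
    refine (b3 p (hI' n hp)).trans ?_
    rw [hBp]
    refine mul_le_mul_of_nonneg_left (dpow_le B n ?_) b1.le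
    linarith
  · intro j a ha v h0 h1 ε hε
    filter_upwards [hQ, hFq v h0 h1, hsmall ε hε] with n a1 a2 a3
    obtain ⟨b1, -, -, -, b5⟩ := a1 j v a2
    refine (b5 a ha).trans ?_
    rw [hBp]
    refine mul_le_mul_of_nonneg_left (dpow_le B n ?_) b1.le
    linarith

end

end Crest.Agent.R136.TD627
end

-- ▼ part R136/TD3_627

/-!
# R136: triangular slots (helper627), part 3

* `TSys.exists_rots` : own rotation functions of all free slots on one dense part (`Free` : every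
  monomial of the slot is slack or contains an invisible slot);
* `TSys.exists_natT` : after finitely many zooms every slot is invisible, tied (own rotation exactly
  `β j u`, both directions) or capped by a monomial of visible slots.
-/

set_option autoImplicit false
set_option linter.unusedVariables false
set_option linter.unusedSectionVars false

open Finset Filter Topology

namespace Crest.Agent.R136.TD627

open Crest.Agent.R138.Ex926 (Base U exists_diag)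
open Crest.Agent.R138.Dp76
open Crest.Agent.R138.Ps926
open Crest.Agent.R138.Mk163 (zc zl rho alive own Negl)
open Crest.Agent.R136.MkA627
open Crest.Agent.R136.Net191 (Mons)
open Crest.Agent.R136.Slt627 (log_dpow log_sc eq_exp own_pos card_fibre)

variable {σ κ φ : Type*} {m : ℕ}

/-- own rotation of the slot `k`, both directions -/
structure RotT (P : TDist φ m) (B : Base) (I : ℕ → Finset (ℕ × ℝ)) (lev : ℕ → ℚ → ℕ) (k : Fin m)
    (fl : ℕ → ℕ × ℝ → φ) (sc : ℕ → ℝ) (C0 : ℝ) (R : ℝ → ℝ) : Prop where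
  scpos : ∀ n, 0 < sc n
  bd : ∀ u : ℝ, 0 ≤ u → u ≤ 1 → 0 ≤ R u ∧ R u ≤ C0
  mono : MonotoneOn R (Set.Icc 0 1)
  /-- all flags of one line in one cell of level `u` agree up to `sc d^(R u)` -/
  rot : ∀ u : ℚ, 0 ≤ u → u ≤ 1 → ∀ ε : ℝ, 0 < ε → ∀ᶠ n in (U : Filter ℕ), ∀ x ∈ I n, ∀ y ∈ I n,
    y.1 = x.1 → zc (lev n u) y.2 = zc (lev n u) x.2 →
      P.d k n (fl n x) (fl n y) ≤ sc n * B.d n ^ (R u - ε)
  /-- ... and not to a smaller scale -/
  tw : ∀ u : ℚ, 0 ≤ u → u < 1 → ∀ r : ℝ, R u < r → r ≤ C0 → ∃ γ : ℝ, 0 < γ ∧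
    ∀ᶠ n in (U : Filter ℕ), ∀ x ∈ I n,
      ((((I n).filter fun y => y.1 = x.1 ∧ zc (lev n u) y.2 = zc (lev n u) x.2 ∧
          P.d k n (fl n x) (fl n y) ≤ sc n * B.d n ^ r).card : ℕ) : ℝ) ≤
        B.d n ^ γ * ((own (I n) (lev n u) (lev n 1) x).card : ℝ)

/-- the slot `j` is free: every monomial is slack or contains an invisible slot -/
def Free (P : TDist φ m) (β : Fin m → ℝ) (B : Base) (I : ℕ → Finset (ℕ × ℝ))
    (fl : ℕ → ℕ × ℝ → φ) (sc : Fin m → ℕ → ℝ) (j : Fin m) : Prop :=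
  ∀ a ∈ P.M.mon j, ∑ t, (a t : ℝ) * β t ≠ β j ∨ ∃ t, a t ≠ 0 ∧ InvT P B I t fl (sc t)

theorem Free.dense {P : TDist φ m} {β : Fin m → ℝ} {B : Base} {I J : ℕ → Finset (ℕ × ℝ)}
    {fl : ℕ → ℕ × ℝ → φ} {sc : Fin m → ℕ → ℝ} {j : Fin m} (h : Free P β B I fl sc j)
    (hd : Dense B J I) : Free P β B J fl sc j := by
  intro a ha
  rcases h a ha with h1 | ⟨t, h1, h2⟩
  · exact Or.inl h1
  · exact Or.inr ⟨t, h1, h2.dense hd⟩

section

variable {P : TDist φ m} {G : Geo σ κ} {g s : ℝ} {θ : κ → ℝ} {β : Fin m → ℝ}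
    {B : Base} {I : ℕ → Finset (ℕ × ℝ)} {lev : ℕ → ℚ → ℕ} {A : ℕ → ℝ}
    {f : ℕ → ℚ → ℕ → ℤ → ℕ} {b : ℕ → ℚ → ℕ → σ} {vm : ℕ → ℚ → ℝ} {w : κ → ℕ → ℚ → ℝ}
    {fr : ℕ → ℚ → ℕ × ℝ → φ} {pr : Fin m → ℕ → ℚ → ℝ} {fl : ℕ → ℕ × ℝ → φ} {sc : Fin m → ℕ → ℝ}

/-- the rotation function passes to dense marked parts -/
theorem RotT.dense {c Λ : ℝ → ℝ} {τ : κ → ℝ → ℝ} {j : Fin m} {sc : ℕ → ℝ}
    {C0 : ℝ} {R : ℝ → ℝ} {J : ℕ → Finset (ℕ × ℝ)} (hR : RotT P B I lev j fl sc C0 R)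
    (hI : MkA B I G lev A c Λ τ f b vm w) (hJ : MkA B J G lev A c Λ τ f b vm w)
    (hd : Dense B J I) : RotT P B J lev j fl sc C0 R := by
  classical
  refine ⟨hR.scpos, hR.bd, hR.mono, fun u h0 h1 ε hε => ?_, fun u h0 h1 r hr hrC => ?_⟩
  · filter_upwards [hR.rot u h0 h1 ε hε, hd.1] with n a b x hx y hy
    exact a x (b hx) y (b hy)
  · obtain ⟨γ, hγ, h2⟩ := hR.tw u h0 h1 r hr hrC
    refine ⟨γ / 2, by positivity, ?_⟩
    filter_upwards [h2, hd.1, hI.own u 1 h0 h1.le le_rfl (γ / 4) (by positivity),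
      hJ.own u 1 h0 h1.le le_rfl (γ / 4) (by positivity)] with n a b c d x hx
    have a1 := a x (b hx)
    have c1 := (c x (b hx)).2
    have d1 := (d x hx).1
    have hm : ((((J n).filter fun y => y.1 = x.1 ∧ zc (lev n u) y.2 = zc (lev n u) x.2 ∧
        P.d j n (fl n x) (fl n y) ≤ sc n * B.d n ^ r).card : ℕ) : ℝ) ≤
        ((((I n).filter fun y => y.1 = x.1 ∧ zc (lev n u) y.2 = zc (lev n u) x.2 ∧
        P.d j n (fl n x) (fl n y) ≤ sc n * B.d n ^ r).card : ℕ) : ℝ) := by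
      exact_mod_cast card_le_card (filter_subset_filter _ b)
    have hm2 : ((((J n).filter fun y => y.1 = x.1 ∧ zc (lev n u) y.2 = zc (lev n u) x.2 ∧
        P.d j n (fl n x) (fl n y) ≤ sc n * B.d n ^ r).card : ℕ) : ℝ) ≤
        B.d n ^ γ * B.d n ^ (-((1 : ℚ) - (u : ℝ)) + (Λ (1 : ℚ) - Λ u) - γ / 4) := by
      refine hm.trans ((le_trans (le_of_eq ?_) a1).trans
        (mul_le_mul_of_nonneg_left c1 (dpow_pos B n γ).le))
      convert rfl
    refine le_trans (le_trans (le_of_eq ?_) hm2) ?_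
    · convert rfl
    calc B.d n ^ γ * B.d n ^ (-((1 : ℚ) - (u : ℝ)) + (Λ (1 : ℚ) - Λ u) - γ / 4)
        = B.d n ^ (γ / 2) * B.d n ^ (-((1 : ℚ) - (u : ℝ)) + (Λ (1 : ℚ) - Λ u) + γ / 4) := by
          rw [← dpow_add, ← dpow_add]; congr 1; ring
      _ ≤ _ := mul_le_mul_of_nonneg_left d1 (dpow_pos B n _).le

/-- the rotation function is `β u` below level `1`. -/
theorem RotT.lin {j : Fin m} {scj : ℕ → ℝ} {R : ℝ → ℝ} {b0 c0 : ℝ}
    (hR : RotT P B I lev j fl scj c0 R) (hb : 0 ≤ b0) (hbc : b0 ≤ c0)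
    (hlow : ∀ u : ℝ, 0 ≤ u → u ≤ 1 → b0 * u ≤ R u)
    (heq : ∀ u : ℚ, 0 ≤ u → u < 1 → R u = b0 * u) :
    RotT P B I lev j fl scj c0 (fun u => b0 * u) where
  scpos := hR.scpos
  bd := fun u h0 h1 => ⟨mul_nonneg hb h0, by
    show b0 * u ≤ c0
    nlinarith⟩
  mono := fun x hx y hy hxy => mul_le_mul_of_nonneg_left hxy hb
  rot := fun u h0 h1 ε hε => by
    filter_upwards [hR.rot u h0 h1 ε hε] with n hn x hx y hy hxy hz
    refine (hn x hx y hy hxy hz).trans ?_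
    refine mul_le_mul_of_nonneg_left (dpow_le B n ?_) (hR.scpos n).le
    have := hlow u (by exact_mod_cast h0) (by exact_mod_cast h1)
    linarith
  tw := fun u h0 h1 r hr hrC => hR.tw u h0 h1 r (by rw [heq u h0 h1]; exact hr) hrC

/-- the monomials of a free slot are no obstruction -/
theorem TSys.capOK (h : TSys P G g s θ β B I lev A f b vm w fr pr fl sc)
    (hβ : ∀ t, InvT P B I t fl (sc t) ∨ 0 < β t) (hsl : Slack P β B sc) {j : Fin m}
    (hfree : Free P β B I fl sc j) {C : ℝ} (hC : 0 ≤ C) :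
    CapOK P B I lev j fl (fun n => sc j n * B.d n ^ (-1 : ℝ)) (fun _ => C) := by
  classical
  intro u h0 h1 r hr
  have hu0 : (0 : ℝ) ≤ u := by exact_mod_cast h0
  have hdeg : (0 : ℝ) ≤ P.M.deg := Nat.cast_nonneg _
  set M : ℝ := C + P.M.deg + 3 with hM
  set rr : Fin m → ℝ := fun t => if InvT P B I t fl (sc t) then M else -1 with hrr
  refine ⟨fun t n => sc t n * B.d n ^ (rr t), ?_⟩
  have hT : ∀ᶠ n in (U : Filter ℕ), ∀ t : Fin m, ∀ x ∈ I n, ∀ y ∈ I n, y.1 = x.1 →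
      zc (lev n u) y.2 = zc (lev n u) x.2 →
        P.d t n (fl n x) (fl n y) ≤ sc t n * B.d n ^ (rr t) := by
    rw [Filter.eventually_all]
    intro t
    by_cases ht : InvT P B I t fl (sc t)
    · have e1 : rr t = M := by simp only [hrr, ht, if_true]
      rw [e1]
      filter_upwards [ht M] with n hn x hx y hy hxy _ using hn x hx y hy hxy
    · have e1 : rr t = -1 := by simp only [hrr, ht, if_false]
      rw [e1]
      have hb := (hβ t).resolve_left ht
      filter_upwards [h.same_cell t h0 h1 one_pos] with n hn x hx y hy hxy hz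
      refine (hn x hx y hy hxy hz).trans
        (mul_le_mul_of_nonneg_left (dpow_le B n ?_) (h.scpos t n).le)
      have := mul_nonneg hb.le hu0
      linarith
  have hP : ∀ᶠ n in (U : Filter ℕ), ∀ a ∈ P.M.mon j,
      ∏ t, (sc t n * B.d n ^ (rr t)) ^ a t ≤ sc j n * B.d n ^ (-1 : ℝ) * B.d n ^ r := by
    rw [Filter.eventually_all_finset]
    intro a ha
    have hsum : ∀ t, (a t : ℝ) * -1 ≤ (a t : ℝ) * rr t := by
      intro t
      refine mul_le_mul_of_nonneg_left ?_ (Nat.cast_nonneg _)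
      simp only [hrr]
      split_ifs
      · rw [hM]; linarith
      · exact le_rfl
    have hdeg2 := sum_nat_le P.M ha
    have htot : -(P.M.deg : ℝ) ≤ ∑ t, (a t : ℝ) * rr t := by
      calc -(P.M.deg : ℝ) ≤ ∑ t, (a t : ℝ) * -1 := by
            rw [← Finset.sum_mul]; linarith
        _ ≤ _ := Finset.sum_le_sum fun t _ => hsum t
    rcases hfree a ha with h2 | ⟨t0, ht0, ht1⟩
    · filter_upwards [hsl j a ha h2 (M + P.M.deg)] with n hn
      rw [prod_dpow]
      calc (∏ t, sc t n ^ a t) * B.d n ^ (∑ t, (a t : ℝ) * rr t)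
          ≤ sc j n * B.d n ^ (M + P.M.deg) * B.d n ^ (∑ t, (a t : ℝ) * rr t) :=
            mul_le_mul_of_nonneg_right hn (dpow_pos B n _).le
        _ = sc j n * B.d n ^ (M + P.M.deg + ∑ t, (a t : ℝ) * rr t) := by
            rw [mul_assoc, ← dpow_add]
        _ ≤ sc j n * B.d n ^ (-1 + r) :=
            mul_le_mul_of_nonneg_left (dpow_le B n (by rw [hM]; linarith)) (h.scpos j n).le
        _ = _ := by rw [mul_assoc, ← dpow_add]
    · have htot2 : M - P.M.deg ≤ ∑ t, (a t : ℝ) * rr t := by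
        have e1 : rr t0 = M := by simp only [hrr, ht1, if_true]
        have e2 : (1 : ℝ) ≤ a t0 := by
          exact_mod_cast Nat.one_le_iff_ne_zero.2 ht0
        have hMp : 0 ≤ M := by rw [hM]; linarith
        have e3 : ∑ t, (a t : ℝ) * rr t = (a t0 : ℝ) * rr t0 + ∑ t ∈ univ.erase t0, (a t : ℝ) * rr t :=
          (Finset.add_sum_erase _ _ (mem_univ t0)).symm
        have e4 : ∑ t ∈ univ.erase t0, (a t : ℝ) * -1 ≤ ∑ t ∈ univ.erase t0, (a t : ℝ) * rr t :=
          Finset.sum_le_sum fun t _ => hsum t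
        have e5 : ∑ t ∈ univ.erase t0, (a t : ℝ) ≤ ∑ t, (a t : ℝ) :=
          Finset.sum_le_sum_of_subset_of_nonneg (Finset.erase_subset _ _)
            fun t _ _ => Nat.cast_nonneg _
        rw [← Finset.sum_mul] at e4
        rw [e3, e1]
        nlinarith
      filter_upwards [h.wsc j a ha 1 one_pos] with n hn
      rw [prod_dpow]
      calc (∏ t, sc t n ^ a t) * B.d n ^ (∑ t, (a t : ℝ) * rr t)
          ≤ sc j n * B.d n ^ (-1 : ℝ) * B.d n ^ (∑ t, (a t : ℝ) * rr t) :=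
            mul_le_mul_of_nonneg_right hn (dpow_pos B n _).le
        _ ≤ _ := mul_le_mul_of_nonneg_left (dpow_le B n (by rw [hM] at htot2; linarith))
            (mul_nonneg (h.scpos j n).le (dpow_pos B n _).le)
  filter_upwards [hT, hP] with n a1 a2
  exact ⟨fun a ha t ht x hx y hy hxy hz => a1 t x hx y hy hxy hz, a2⟩

/-- **own rotation function of one free slot.** -/
theorem TSys.exists_rot (h : TSys P G g s θ β B I lev A f b vm w fr pr fl sc)
    (hβ : ∀ t, InvT P B I t fl (sc t) ∨ 0 < β t) (hsl : Slack P β B sc) {j : Fin m}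
    (hfree : Free P β B I fl sc j) (hβj : 0 < β j) {C0 : ℝ} (hC : β j ≤ C0) :
    ∃ (J : ℕ → Finset (ℕ × ℝ)) (R : ℝ → ℝ), Dense B J I ∧
      TSys P G g s θ β B J lev A f b vm w fr pr fl sc ∧
      RotT P B J lev j fl (sc j) C0 R ∧ ∀ u : ℝ, 0 ≤ u → u ≤ 1 → β j * u ≤ R u := by
  classical
  have hC0 : 0 ≤ C0 := hβj.le.trans hC
  obtain ⟨J, R, hJd, hJ, hR, hRcap⟩ := exRotT (P := P) (sl := j) (fl := fl)
    (sc := fun n => sc j n * B.d n ^ (-1 : ℝ)) (cap := fun _ => C0 + 2) (C0 := C0 + 1)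
    h.mka (fun n => mul_pos (h.scpos j n) (dpow_pos B n _)) (by linarith)
    (h.capOK hβ hsl hfree (by linarith)) (by show (0 : ℝ) < C0 + 2; linarith)
    (fun _ _ _ _ _ => le_rfl) (by
      refine Negl.mono Negl.false ?_
      filter_upwards [h.same_cell j le_rfl zero_le_one one_pos, h.mka.cell0] with n a1 a2 x hx hy
      obtain ⟨y, hy, hxy, hlt⟩ := hy
      have b1 := a1 x hx y hy hxy (a2 y hy x hx)
      have e1 : β j * ((0 : ℚ) : ℝ) - 1 = -1 := by push_cast; ring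
      rw [e1] at b1
      exact absurd b1 (not_le.2 hlt))
  have hS := h.dense hJd hJ
  have htw : ∀ u : ℚ, 0 ≤ u → u < 1 → ∀ r : ℝ, R u < r → r ≤ C0 + 1 → ∃ γ : ℝ, 0 < γ ∧
      ∀ᶠ n in (U : Filter ℕ), ∀ x ∈ J n,
        ((((J n).filter fun y => y.1 = x.1 ∧ zc (lev n u) y.2 = zc (lev n u) x.2 ∧
          P.d j n (fl n x) (fl n y) ≤ sc j n * B.d n ^ (-1 : ℝ) * B.d n ^ r).card : ℕ) : ℝ) ≤
        B.d n ^ γ * ((own (J n) (lev n u) (lev n 1) x).card : ℝ) := fun u h0 h1 r hr hrC =>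
    hR.tw u h0 h1 (by
      have := (hR.bd u (by exact_mod_cast h0) (by exact_mod_cast h1.le)).2
      show R u < C0 + 2
      linarith) r hr hrC
  -- lower bound at rationals
  have hlow : ∀ u : ℚ, 0 ≤ u → u < 1 → β j * u + 1 ≤ R u := by
    intro u h0 h1
    by_contra hcon
    rw [not_le] at hcon
    have hu0 : (0 : ℝ) ≤ u := by exact_mod_cast h0
    have hu1 : (u : ℝ) < 1 := by exact_mod_cast h1
    set r : ℝ := (R u + (β j * u + 1)) / 2 with hr
    have hr1 : R u < r := by rw [hr]; linarith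
    have hr2 : r < β j * u + 1 := by rw [hr]; linarith
    have hr3 : r ≤ C0 + 1 := by nlinarith
    obtain ⟨γ, hγ, htw⟩ := htw u h0 h1 r hr1 hr3
    have hfalse : ∀ᶠ n in (U : Filter ℕ), False := by
      filter_upwards [htw, hJ.ne, hS.same_cell j h0 h1.le (ε := β j * u + 1 - r) (by linarith),
        dpow_small B hγ one_pos, card_fibre hJ] with n a1 a2 a3 a4 a5
      obtain ⟨x, hx⟩ := a2
      have b1 := a1 x hx
      have e1 : ((J n).filter fun y => y.1 = x.1 ∧ zc (lev n u) y.2 = zc (lev n u) x.2 ∧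
          P.d j n (fl n x) (fl n y) ≤ sc j n * B.d n ^ (-1 : ℝ) * B.d n ^ r) =
          (J n).filter fun y => y.1 = x.1 ∧ zc (lev n u) y.2 = zc (lev n u) x.2 := by
        refine filter_congr fun y hy => ⟨fun hh => ⟨hh.1, hh.2.1⟩, fun hh => ⟨hh.1, hh.2, ?_⟩⟩
        refine (a3 x hx y hy hh.1 hh.2).trans (le_of_eq ?_)
        rw [mul_assoc, ← dpow_add]
        congr 2
        ring
      rw [e1, a5 x hx u] at b1
      have hp : (0 : ℝ) < ((own (J n) (lev n u) (lev n 1) x).card : ℝ) := by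
        exact_mod_cast own_pos hx
      have b2 : B.d n ^ γ * ((own (J n) (lev n u) (lev n 1) x).card : ℝ) <
          1 * ((own (J n) (lev n u) (lev n 1) x).card : ℝ) := mul_lt_mul_of_pos_right a4 hp
      linarith
    obtain ⟨n, hn⟩ := hfalse.exists
    exact hn
  have hlow2 : ∀ u : ℝ, 0 ≤ u → u ≤ 1 → β j * u + 1 ≤ R u := by
    intro u h0 h1
    rcases h0.eq_or_lt with h00 | h00
    · have := hlow 0 le_rfl one_pos
      rw [← h00]
      simpa using this
    · by_contra hcon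
      rw [not_le] at hcon
      set δ : ℝ := β j * u + 1 - R u with hδ
      have hδ0 : 0 < δ := by rw [hδ]; linarith
      obtain ⟨q, hq1, hq2⟩ := exists_rat_btwn (show max 0 (u - δ / β j) < u from
        max_lt h00 (by have := div_pos hδ0 hβj; linarith))
      have hq0 : (0 : ℝ) < q := (le_max_left _ _).trans_lt hq1
      have hqd : u - δ / β j < q := (le_max_right _ _).trans_lt hq1
      have hq3 : (q : ℝ) < 1 := hq2.trans_le h1
      have c1 := hlow q (by exact_mod_cast hq0.le) (by exact_mod_cast hq3)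
      have c2 := hR.mono ⟨hq0.le, hq3.le⟩ ⟨h0, h1⟩ hq2.le
      have c3 : β j * (u - δ / β j) < β j * q := mul_lt_mul_of_pos_left hqd hβj
      have c4 : β j * (u - δ / β j) = β j * u - δ := by field_simp
      rw [c4] at c3
      rw [hδ] at c3
      linarith
  refine ⟨J, fun u => R u - 1, hJd, hS, ⟨h.scpos j, fun u h0 h1 => ⟨?_, ?_⟩, ?_, ?_, ?_⟩,
    fun u h0 h1 => by have := hlow2 u h0 h1; show β j * u ≤ R u - 1; linarith⟩
  · have := hlow2 u h0 h1
    have h2 : 0 ≤ β j * u := mul_nonneg hβj.le h0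
    show 0 ≤ R u - 1
    linarith
  · have := (hR.bd u h0 h1).2
    show R u - 1 ≤ C0
    linarith
  · intro x hx y hy hxy
    have := hR.mono hx hy hxy
    show R x - 1 ≤ R y - 1
    linarith
  · intro u h0 h1 ε hε
    filter_upwards [hR.rot u h0 h1 ε hε] with n hn x hx y hy hxy hz
    refine (hn x hx y hy hxy hz).trans (le_of_eq ?_)
    rw [mul_assoc, ← dpow_add]
    congr 2
    ring
  · intro u h0 h1 r hr hrC
    obtain ⟨γ, hγ, h2⟩ := htw u h0 h1 (r + 1) (by have : R u - 1 < r := hr; linarith)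
      (by linarith)
    refine ⟨γ, hγ, ?_⟩
    filter_upwards [h2] with n hn x hx
    refine le_trans (le_of_eq ?_) (hn x hx)
    congr 2
    refine filter_congr fun y hy => ?_
    have e1 : sc j n * B.d n ^ (-1 : ℝ) * B.d n ^ (r + 1) = sc j n * B.d n ^ r := by
      rw [mul_assoc, ← dpow_add]
      congr 2
      ring
    rw [e1]

/-- **own rotation functions of all free slots, on one dense part.** -/
theorem TSys.exists_rots (h : TSys P G g s θ β B I lev A f b vm w fr pr fl sc)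
    (hβ : ∀ t, InvT P B I t fl (sc t) ∨ 0 < β t) (hsl : Slack P β B sc)
    {C0 : Fin m → ℝ} (hC : ∀ j, β j ≤ C0 j) :
    ∃ (J : ℕ → Finset (ℕ × ℝ)) (R : Fin m → ℝ → ℝ), Dense B J I ∧
      TSys P G g s θ β B J lev A f b vm w fr pr fl sc ∧
      ∀ j, 0 < β j → Free P β B I fl sc j → RotT P B J lev j fl (sc j) (C0 j) (R j) ∧
        ∀ u : ℝ, 0 ≤ u → u ≤ 1 → β j * u ≤ R j u := by
  classical
  have key : ∀ S : Finset (Fin m), ∃ (J : ℕ → Finset (ℕ × ℝ)) (R : Fin m → ℝ → ℝ), Dense B J I ∧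
      TSys P G g s θ β B J lev A f b vm w fr pr fl sc ∧
      ∀ j ∈ S, 0 < β j → Free P β B I fl sc j → RotT P B J lev j fl (sc j) (C0 j) (R j) ∧
        ∀ u : ℝ, 0 ≤ u → u ≤ 1 → β j * u ≤ R j u := by
    intro S
    induction S using Finset.induction_on with
    | empty => exact ⟨I, fun _ _ => 0, Dense.refl B I, h, fun j hj => absurd hj (Finset.notMem_empty j)⟩
    | insert i S hi ih =>
      obtain ⟨J, R, hd, hS, hR⟩ := ih
      by_cases hβi : 0 < β i ∧ Free P β B I fl sc i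
      · obtain ⟨J', R', hd', hS', hR', hR''⟩ := hS.exists_rot
          (fun t => (hβ t).imp (fun h => h.dense hd) id) hsl (hβi.2.dense hd) hβi.1 (hC i)
        refine ⟨J', fun j => if j = i then R' else R j, hd'.trans hd, hS', fun j hj hβj hfj => ?_⟩
        by_cases hji : j = i
        · subst hji
          simp only [if_true]
          exact ⟨hR', hR''⟩
        · simp only [hji, if_false]
          have h1 := hR j ((Finset.mem_insert.1 hj).resolve_left hji) hβj hfj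
          exact ⟨h1.1.dense hS.mka hS'.mka hd', h1.2⟩
      · refine ⟨J, R, hd, hS, fun j hj hβj hfj => ?_⟩
        rcases Finset.mem_insert.1 hj with rfl | hj
        · exact absurd ⟨hβj, hfj⟩ hβi
        · exact hR j hj hβj hfj
  obtain ⟨J, R, h1, h2, h3⟩ := key Finset.univ
  exact ⟨J, R, h1, h2, fun j => h3 j (Finset.mem_univ j)⟩

end

/-- output of the second zoom: every slot is invisible, tied or capped.  `H n` = length of the window,
`mm n` = affine level map of slope `H n`. -/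
def NatT (P : TDist φ m) (G : Geo σ κ) (g s : ℝ) (θ : κ → ℝ) (β C0 : Fin m → ℝ)
    (fl : ℕ → ℕ × ℝ → φ) (B : Base) (I : ℕ → Finset (ℕ × ℝ)) (lev : ℕ → ℚ → ℕ)
    (f : ℕ → ℚ → ℕ → ℤ → ℕ) (b : ℕ → ℚ → ℕ → σ) (vm : ℕ → ℚ → ℝ) (w : κ → ℕ → ℚ → ℝ)
    (fr : ℕ → ℚ → ℕ × ℝ → φ) (pr : Fin m → ℕ → ℚ → ℝ) : Prop :=
  ∃ (H : ℕ → ℝ) (mm : ℕ → ℚ → ℚ) (B' : Base) (I' : ℕ → Finset (ℕ × ℝ)) (A' : ℕ → ℝ)
    (sc' : Fin m → ℕ → ℝ), (∀ n, 0 < H n ∧ H n ≤ 1) ∧
    (∀ n, ∀ x : ℚ, 0 ≤ x → x ≤ 1 → 0 ≤ mm n x ∧ mm n x ≤ 1) ∧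
    (∀ n, ∀ x y : ℚ, (mm n y : ℝ) - mm n x = H n * ((y : ℝ) - x)) ∧
    (∀ n, B'.d n = B.d n ^ H n) ∧ (∀ᶠ n in (U : Filter ℕ), I' n ⊆ I n) ∧
    TSys P G g s θ β B' I' (fun n x => lev n (mm n x)) A' (fun n x => f n (mm n x))
      (fun n x => b n (mm n x)) (fun n x => vm n (mm n x)) (fun j n x => w j n (mm n x))
      (fun n x => fr n (mm n x)) (fun j n x => pr j n (mm n x)) fl sc' ∧
    Slack P β B' sc' ∧
    ∀ j, InvT P B' I' j fl (sc' j) ∨
      (0 < β j ∧ RotT P B' I' (fun n x => lev n (mm n x)) j fl (sc' j) (C0 j) (fun u => β j * u)) ∨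
      (0 < β j ∧ ∃ a ∈ P.M.mon j, ∑ t, (a t : ℝ) * β t = β j ∧
        ∀ t, a t ≠ 0 → ¬ InvT P B' I' t fl (sc' t))

section

variable {P : TDist φ m} {G : Geo σ κ} {g s : ℝ} {θ : κ → ℝ} {β C0 : Fin m → ℝ}
    {B : Base} {I : ℕ → Finset (ℕ × ℝ)} {lev : ℕ → ℚ → ℕ} {A : ℕ → ℝ}
    {f : ℕ → ℚ → ℕ → ℤ → ℕ} {b : ℕ → ℚ → ℕ → σ} {vm : ℕ → ℚ → ℝ} {w : κ → ℕ → ℚ → ℝ}
    {fr : ℕ → ℚ → ℕ × ℝ → φ} {pr : Fin m → ℕ → ℚ → ℝ} {fl : ℕ → ℕ × ℝ → φ} {sc : Fin m → ℕ → ℝ}

/-- composition of windows -/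
theorem NatT.comp {B1 : Base} {I1 : ℕ → Finset (ℕ × ℝ)} {H1 : ℕ → ℝ} {m1 : ℕ → ℚ → ℚ}
    (hH : ∀ n, 0 < H1 n ∧ H1 n ≤ 1) (hm : ∀ n, ∀ x : ℚ, 0 ≤ x → x ≤ 1 → 0 ≤ m1 n x ∧ m1 n x ≤ 1)
    (hq : ∀ n, ∀ x y : ℚ, (m1 n y : ℝ) - m1 n x = H1 n * ((y : ℝ) - x))
    (hB : ∀ n, B1.d n = B.d n ^ H1 n) (hI : ∀ᶠ n in (U : Filter ℕ), I1 n ⊆ I n)
    (h : NatT P G g s θ β C0 fl B1 I1 (fun n x => lev n (m1 n x)) (fun n x => f n (m1 n x))
      (fun n x => b n (m1 n x)) (fun n x => vm n (m1 n x)) (fun j n x => w j n (m1 n x))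
      (fun n x => fr n (m1 n x)) (fun j n x => pr j n (m1 n x))) :
    NatT P G g s θ β C0 fl B I lev f b vm w fr pr := by
  obtain ⟨H2, m2, B2, I2, A2, sc2, h1, h2, h3, h4, h5, h6, h7, h8⟩ := h
  refine ⟨fun n => H1 n * H2 n, fun n x => m1 n (m2 n x), B2, I2, A2, sc2, fun n => ⟨?_, ?_⟩,
    fun n x hx0 hx1 => ?_, fun n x y => ?_, fun n => ?_, ?_, h6, h7, h8⟩
  · exact mul_pos (hH n).1 (h1 n).1
  · exact mul_le_one₀ (hH n).2 (h1 n).1.le (h1 n).2
  · exact hm n _ (h2 n x hx0 hx1).1 (h2 n x hx0 hx1).2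
  · rw [hq, h3]; ring
  · rw [h4, hB, ← Real.rpow_mul (B.pos n).le]
  · filter_upwards [hI, h5] with n a1 a2 using a2.trans a1

theorem NatT.mono {J : ℕ → Finset (ℕ × ℝ)} (hJ : ∀ᶠ n in (U : Filter ℕ), J n ⊆ I n)
    (h : NatT P G g s θ β C0 fl B J lev f b vm w fr pr) :
    NatT P G g s θ β C0 fl B I lev f b vm w fr pr :=
  NatT.comp (H1 := fun _ => 1) (m1 := fun _ x => x) (fun _ => ⟨one_pos, le_rfl⟩)
    (fun n x h0 h1 => ⟨h0, h1⟩) (fun n x y => by ring) (fun n => by rw [Real.rpow_one]) hJ h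

/-- data of a zoom at `v0`: what is preserved -/
theorem TSys.zoomP [Countable κ] (h : TSys P G g s θ β B I lev A f b vm w fr pr fl sc)
    {v0 : ℝ} (hv0 : 0 < v0) (hv1 : v0 < 1) (Q : (ℕ → ℚ → ℚ) → ℕ → ℕ → Prop)
    (hQ : ∀ mm : ℕ → ℚ → ℚ, (∀ k, ∀ x : ℚ, 0 ≤ x → x ≤ 1 → 0 ≤ mm k x ∧ mm k x ≤ 1) →
      ∀ k, ∀ᶠ n in (U : Filter ℕ), Q mm k n) :
    ∃ (H : ℕ → ℝ) (mm : ℕ → ℚ → ℚ) (B' : Base) (I' : ℕ → Finset (ℕ × ℝ)) (A' : ℕ → ℝ),
      (∀ n, 0 < H n ∧ H n ≤ 1) ∧ Tendsto H U (𝓝 0) ∧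
      (∀ n, ∀ x : ℚ, 0 ≤ x → x ≤ 1 → 0 ≤ mm n x ∧ mm n x ≤ 1) ∧
      (∀ n, ∀ x y : ℚ, (mm n y : ℝ) - mm n x = H n * ((y : ℝ) - x)) ∧
      (∀ x : ℚ, Tendsto (fun n => ((mm n x : ℚ) : ℝ)) U (𝓝 v0)) ∧
      (∀ n, B'.d n = B.d n ^ H n) ∧ (∀ n, I' n ⊆ I n) ∧
      TSys P G g s θ β B' I' (fun n x => lev n (mm n x)) A' (fun n x => f n (mm n x))
        (fun n x => b n (mm n x)) (fun n x => vm n (mm n x)) (fun j n x => w j n (mm n x))
        (fun n x => fr n (mm n x)) (fun j n x => pr j n (mm n x)) fl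
        (fun j n => sc j n * B.d n ^ (β j * mm n 0)) ∧
      (∀ᶠ n in (U : Filter ℕ), ∃ (mm' : ℕ → ℚ → ℚ) (k : ℕ), mm' k = mm n ∧ Q mm' k n) ∧
      (∀ j, InvT P B I j fl (sc j) →
        InvT P B' I' j fl (fun n => sc j n * B.d n ^ (β j * mm n 0))) ∧
      (Slack P β B sc → Slack P β B' (fun j n => sc j n * B.d n ^ (β j * mm n 0))) := by
  classical
  obtain ⟨η, mm, hη, hη1, hη0, hm, hq, hmv, s0, hs0, hz⟩ := h.zoom hv0 hv1
  obtain ⟨s3, hs3, hs3'⟩ := exists_diag (Q mm) (hQ mm hm)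
  set t : ℕ → ℕ := fun n => min (s0 n) (s3 n) with ht
  have htt : Tendsto t U atTop := by
    rw [tendsto_atTop]
    intro c
    filter_upwards [tendsto_atTop.1 hs0 c, tendsto_atTop.1 hs3 c] with n h1 h2
    exact le_min h1 h2
  obtain ⟨B', I', A', hB', hI', hS'⟩ := hz t htt (Eventually.of_forall fun n => min_le_left _ _)
  have hBp : ∀ n (y : ℝ), B'.d n ^ y = B.d n ^ (η (t n) * y) := by
    intro n y
    rw [hB' n, ← Real.rpow_mul (B.pos n).le]
  have hm00 : ∀ k, (0 : ℝ) ≤ mm k 0 ∧ (mm k 0 : ℝ) ≤ 1 := fun k =>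
    ⟨by exact_mod_cast (hm k 0 le_rfl zero_le_one).1, by exact_mod_cast (hm k 0 le_rfl zero_le_one).2⟩
  have hηM : ∀ n (M : ℝ), η (t n) * M ≤ |M| := fun n M => by
    calc η (t n) * M ≤ η (t n) * |M| := mul_le_mul_of_nonneg_left (le_abs_self _) (hη _).le
      _ ≤ 1 * |M| := mul_le_mul_of_nonneg_right (hη1 _) (abs_nonneg _)
      _ = |M| := one_mul _
  have hβm : ∀ n j, β j * (mm (t n) 0 : ℝ) ≤ |β j| := fun n j => by
    calc β j * (mm (t n) 0 : ℝ) ≤ |β j| * (mm (t n) 0 : ℝ) :=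
          mul_le_mul_of_nonneg_right (le_abs_self _) (hm00 _).1
      _ ≤ |β j| * 1 := mul_le_mul_of_nonneg_left (hm00 _).2 (abs_nonneg _)
      _ = |β j| := mul_one _
  refine ⟨fun n => η (t n), fun n => mm (t n), B', I', A', fun n => ⟨hη _, hη1 _⟩, hη0.comp htt,
    fun n => hm (t n), fun n => hq (t n), fun x => (hmv x).comp htt, hB', hI', hS', ?_, ?_, ?_⟩
  · filter_upwards [hs3'] with n hn
    exact ⟨mm, t n, rfl, hn (t n) (min_le_right _ _)⟩
  · intro j hj M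
    filter_upwards [hj (|β j| + |M|)] with n a1 x hx y hy hxy
    refine (a1 x (hI' n hx) y (hI' n hy) hxy).trans ?_
    rw [hBp, mul_assoc, ← dpow_add]
    refine mul_le_mul_of_nonneg_left (dpow_le B n ?_) (h.scpos j n).le
    have := hβm n j
    have := hηM n M
    linarith
  · intro hsl j a ha hlt M
    filter_upwards [hsl j a ha hlt (|M| + |β j| + |∑ t, (a t : ℝ) * β t|)] with n hn
    rw [prod_dpow, hBp]
    have e1 : ∑ t', (a t' : ℝ) * (β t' * (mm (t n) 0 : ℝ)) = (∑ t', (a t' : ℝ) * β t') *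
        (mm (t n) 0 : ℝ) := by
      rw [Finset.sum_mul]
      exact Finset.sum_congr rfl fun t' _ => by ring
    have e2 : -|∑ t, (a t : ℝ) * β t| ≤ (∑ t', (a t' : ℝ) * β t') * (mm (t n) 0 : ℝ) := by
      have h1 := neg_abs_le ((∑ t', (a t' : ℝ) * β t') * (mm (t n) 0 : ℝ))
      rw [abs_mul, abs_of_nonneg (hm00 (t n)).1] at h1
      have h2 : |∑ t', (a t' : ℝ) * β t'| * (mm (t n) 0 : ℝ) ≤ |∑ t', (a t' : ℝ) * β t'| * 1 :=
        mul_le_mul_of_nonneg_left (hm00 (t n)).2 (abs_nonneg _)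
      linarith
    rw [e1]
    calc (∏ t', sc t' n ^ a t') * B.d n ^ ((∑ t', (a t' : ℝ) * β t') * (mm (t n) 0 : ℝ))
        ≤ sc j n * B.d n ^ (|M| + |β j| + |∑ t, (a t : ℝ) * β t|) *
          B.d n ^ ((∑ t', (a t' : ℝ) * β t') * (mm (t n) 0 : ℝ)) :=
          mul_le_mul_of_nonneg_right hn (dpow_pos B n _).le
      _ = sc j n * B.d n ^ (|M| + |β j| + |∑ t, (a t : ℝ) * β t| +
          (∑ t', (a t' : ℝ) * β t') * (mm (t n) 0 : ℝ)) := by rw [mul_assoc, ← dpow_add]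
      _ ≤ sc j n * B.d n ^ (β j * (mm (t n) 0 : ℝ) + η (t n) * M) := by
          refine mul_le_mul_of_nonneg_left (dpow_le B n ?_) (h.scpos j n).le
          have := hηM n M
          have := hβm n j
          linarith
      _ = _ := by rw [mul_assoc, ← dpow_add]

/-- **one zoom makes one more slot invisible.** -/
theorem TSys.zoom_gap [Countable κ]
    (h : TSys P G g s θ β B I lev A f b vm w fr pr fl sc) (hsl : Slack P β B sc) {j0 : Fin m}
    {c0 : ℝ} {R : ℝ → ℝ} (hR : RotT P B I lev j0 fl (sc j0) c0 R) {v0 D : ℝ} (hv0 : 0 < v0)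
    (hv1 : v0 < 1) (hD : 0 < D) (hgap : ∀ᶠ v in 𝓝 v0, β j0 * v + D ≤ R v) :
    ∃ (H : ℕ → ℝ) (mm : ℕ → ℚ → ℚ) (B' : Base) (I' : ℕ → Finset (ℕ × ℝ)) (A' : ℕ → ℝ)
      (sc' : Fin m → ℕ → ℝ), (∀ n, 0 < H n ∧ H n ≤ 1) ∧
      (∀ n, ∀ x : ℚ, 0 ≤ x → x ≤ 1 → 0 ≤ mm n x ∧ mm n x ≤ 1) ∧
      (∀ n, ∀ x y : ℚ, (mm n y : ℝ) - mm n x = H n * ((y : ℝ) - x)) ∧
      (∀ n, B'.d n = B.d n ^ H n) ∧ (∀ᶠ n in (U : Filter ℕ), I' n ⊆ I n) ∧
      TSys P G g s θ β B' I' (fun n x => lev n (mm n x)) A' (fun n x => f n (mm n x))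
        (fun n x => b n (mm n x)) (fun n x => vm n (mm n x)) (fun j n x => w j n (mm n x))
        (fun n x => fr n (mm n x)) (fun j n x => pr j n (mm n x)) fl sc' ∧
      Slack P β B' sc' ∧ InvT P B' I' j0 fl (sc' j0) ∧
      ∀ j, InvT P B I j fl (sc j) → InvT P B' I' j fl (sc' j) := by
  classical
  obtain ⟨H, mm, B', I', A', h1, h2, h3, h4, h5, h6, h7, h8, h9, h10, h11⟩ :=
    h.zoomP hv0 hv1 (fun mm k n => ∀ x ∈ I n, ∀ y ∈ I n, y.1 = x.1 →
      zc (lev n (mm k 0)) y.2 = zc (lev n (mm k 0)) x.2 →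
        P.d j0 n (fl n x) (fl n y) ≤ sc j0 n * B.d n ^ (R (mm k 0) - D / 2))
      (fun mm hm k => hR.rot (mm k 0) (hm k 0 le_rfl zero_le_one).1 (hm k 0 le_rfl zero_le_one).2
        (D / 2) (by positivity))
  refine ⟨H, mm, B', I', A', _, h1, h3, h4, h6, Eventually.of_forall h7, h8, h11 hsl, ?_, h10⟩
  have hBp : ∀ n (y : ℝ), B'.d n ^ y = B.d n ^ (H n * y) := by
    intro n y
    rw [h6 n, ← Real.rpow_mul (B.pos n).le]
  intro M
  have hg1 : ∀ᶠ n in (U : Filter ℕ), β j0 * (mm n 0 : ℝ) + D ≤ R (mm n 0) :=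
    (h5 0).eventually hgap
  have hg2 : ∀ᶠ n in (U : Filter ℕ), H n * M < D / 2 := by
    have h1 : Tendsto (fun n => H n * M) U (𝓝 (0 * M)) := h2.mul_const M
    rw [zero_mul] at h1
    exact h1.eventually_lt_const (by positivity)
  filter_upwards [hg1, hg2, h9, h8.mka.cell0] with n a1 a2 a3 a4 x hx y hy hxy
  obtain ⟨mm', k, e1, a3⟩ := a3
  rw [e1] at a3
  have b1 := a3 x (h7 n hx) y (h7 n hy) hxy (a4 y hy x hx)
  refine b1.trans ?_
  rw [hBp, mul_assoc, ← dpow_add]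
  exact mul_le_mul_of_nonneg_left (dpow_le B n (by linarith)) (h.scpos j0 n).le

/-- **one zoom makes all slack monomials infinitely small.** -/
theorem TSys.zoom_slack [Countable κ]
    (h : TSys P G g s θ β B I lev A f b vm w fr pr fl sc) :
    ∃ (H : ℕ → ℝ) (mm : ℕ → ℚ → ℚ) (B' : Base) (I' : ℕ → Finset (ℕ × ℝ)) (A' : ℕ → ℝ)
      (sc' : Fin m → ℕ → ℝ), (∀ n, 0 < H n ∧ H n ≤ 1) ∧
      (∀ n, ∀ x : ℚ, 0 ≤ x → x ≤ 1 → 0 ≤ mm n x ∧ mm n x ≤ 1) ∧
      (∀ n, ∀ x y : ℚ, (mm n y : ℝ) - mm n x = H n * ((y : ℝ) - x)) ∧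
      (∀ n, B'.d n = B.d n ^ H n) ∧ (∀ᶠ n in (U : Filter ℕ), I' n ⊆ I n) ∧
      TSys P G g s θ β B' I' (fun n x => lev n (mm n x)) A' (fun n x => f n (mm n x))
        (fun n x => b n (mm n x)) (fun n x => vm n (mm n x)) (fun j n x => w j n (mm n x))
        (fun n x => fr n (mm n x)) (fun j n x => pr j n (mm n x)) fl sc' ∧
      Slack P β B' sc' ∧ ∀ j, InvT P B I j fl (sc j) → InvT P B' I' j fl (sc' j) := by
  classical
  obtain ⟨H, mm, B', I', A', h1, h2, h3, h4, h5, h6, h7, h8, h9, h10, h11⟩ :=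
    h.zoomP (v0 := 1 / 2) (by norm_num) (by norm_num) (fun _ _ _ => True)
      (fun _ _ _ => Eventually.of_forall fun _ => trivial)
  refine ⟨H, mm, B', I', A', _, h1, h3, h4, h6, Eventually.of_forall h7, h8, ?_, h10⟩
  have hBp : ∀ n (y : ℝ), B'.d n ^ y = B.d n ^ (H n * y) := by
    intro n y
    rw [h6 n, ← Real.rpow_mul (B.pos n).le]
  intro j a ha hlt M
  set Sg : ℝ := ∑ t, (a t : ℝ) * β t with hSg
  have hgl : ∀ᶠ n in (U : Filter ℕ), (1 / 4 : ℝ) < mm n 0 :=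
    (h5 0).eventually_const_lt (by norm_num)
  have hgu : ∀ᶠ n in (U : Filter ℕ), (mm n 0 : ℝ) < 3 / 4 :=
    (h5 0).eventually_lt_const (by norm_num)
  have e1 : ∀ n, ∑ t', (a t' : ℝ) * (β t' * (mm n 0 : ℝ)) = Sg * (mm n 0 : ℝ) := by
    intro n
    rw [hSg, Finset.sum_mul]
    exact Finset.sum_congr rfl fun t' _ => by ring
  rcases lt_or_gt_of_ne hlt with hlt | hlt
  · -- sum below `β` : from the level `1`
    set D : ℝ := β j - Sg with hD
    have hD0 : 0 < D := by rw [hD]; linarith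
    have hg2 : ∀ᶠ n in (U : Filter ℕ), H n * M < D / 8 := by
      have h1 : Tendsto (fun n => H n * M) U (𝓝 (0 * M)) := h2.mul_const M
      rw [zero_mul] at h1
      exact h1.eventually_lt_const (by positivity)
    filter_upwards [hgu, hg2, h.wall (v := 1) zero_le_one le_rfl j a ha (D / 8) (by positivity)]
      with n a1 a2 a3
    rw [prod_dpow] at a3
    rw [prod_dpow, hBp, e1]
    have e3 : ∑ t', (a t' : ℝ) * (β t' * ((1 : ℚ) : ℝ)) = Sg := by
      rw [hSg]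
      exact Finset.sum_congr rfl fun t' _ => by push_cast; ring
    rw [e3] at a3
    have e4 : β j = Sg + D := by rw [hD]; ring
    calc (∏ t', sc t' n ^ a t') * B.d n ^ (Sg * (mm n 0 : ℝ))
        = ((∏ t', sc t' n ^ a t') * B.d n ^ Sg) * B.d n ^ (-(Sg * (1 - (mm n 0 : ℝ)))) := by
          rw [mul_assoc, ← dpow_add]
          congr 2
          ring
      _ ≤ (sc j n * B.d n ^ (β j * ((1 : ℚ) : ℝ) - D / 8)) *
            B.d n ^ (-(Sg * (1 - (mm n 0 : ℝ)))) :=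
          mul_le_mul_of_nonneg_right a3 (dpow_pos B n _).le
      _ = sc j n * B.d n ^ (β j * ((1 : ℚ) : ℝ) - D / 8 + -(Sg * (1 - (mm n 0 : ℝ)))) := by
          rw [mul_assoc, ← dpow_add]
      _ ≤ sc j n * B.d n ^ (β j * (mm n 0 : ℝ) + H n * M) := by
          refine mul_le_mul_of_nonneg_left (dpow_le B n ?_) (h.scpos j n).le
          push_cast
          rw [e4]
          nlinarith
      _ = _ := by rw [mul_assoc, ← dpow_add]
  · set D : ℝ := Sg - β j with hD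
    have hD0 : 0 < D := by rw [hD]; linarith
    have hg2 : ∀ᶠ n in (U : Filter ℕ), H n * M < D / 8 := by
      have h1 : Tendsto (fun n => H n * M) U (𝓝 (0 * M)) := h2.mul_const M
      rw [zero_mul] at h1
      exact h1.eventually_lt_const (by positivity)
    filter_upwards [hgl, hg2, h.wsc j a ha (D / 8) (by positivity)] with n a1 a2 a3
    rw [prod_dpow, hBp, e1]
    have e2 : Sg = β j + D := by rw [hD]; ring
    rw [e2]
    calc (∏ t', sc t' n ^ a t') * B.d n ^ ((β j + D) * (mm n 0 : ℝ))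
        ≤ sc j n * B.d n ^ (-(D / 8)) * B.d n ^ ((β j + D) * (mm n 0 : ℝ)) :=
          mul_le_mul_of_nonneg_right a3 (dpow_pos B n _).le
      _ = sc j n * B.d n ^ (-(D / 8) + (β j + D) * (mm n 0 : ℝ)) := by rw [mul_assoc, ← dpow_add]
      _ ≤ sc j n * B.d n ^ (β j * (mm n 0 : ℝ) + H n * M) :=
          mul_le_mul_of_nonneg_left (dpow_le B n (by nlinarith)) (h.scpos j n).le
      _ = _ := by rw [mul_assoc, ← dpow_add]

/-- **second zoom: every slot is invisible, tied or capped** (induction on the number of visible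
slots). -/
theorem exists_natT [Countable κ] (hC : ∀ j, β j ≤ C0 j) :
    ∀ (N : ℕ) (B : Base) (I : ℕ → Finset (ℕ × ℝ)) (lev : ℕ → ℚ → ℕ) (A : ℕ → ℝ)
      (f : ℕ → ℚ → ℕ → ℤ → ℕ) (b : ℕ → ℚ → ℕ → σ) (vm : ℕ → ℚ → ℝ) (w : κ → ℕ → ℚ → ℝ)
      (fr : ℕ → ℚ → ℕ × ℝ → φ) (pr : Fin m → ℕ → ℚ → ℝ) (sc : Fin m → ℕ → ℝ),
      TSys P G g s θ β B I lev A f b vm w fr pr fl sc → Slack P β B sc →
      (∀ j, InvT P B I j fl (sc j) ∨ 0 < β j) →
      {j | ¬ InvT P B I j fl (sc j)}.ncard ≤ N →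
      NatT P G g s θ β C0 fl B I lev f b vm w fr pr := by
  classical
  intro N
  induction N with
  | zero =>
    intro B I lev A f b vm w fr pr sc h hsl hβ hN
    have hall : ∀ j, InvT P B I j fl (sc j) := by
      intro j
      by_contra hcon
      have h1 : {j | ¬ InvT P B I j fl (sc j)}.ncard = 0 := Nat.le_zero.1 hN
      rw [Set.ncard_eq_zero (Set.toFinite _)] at h1
      have : j ∈ {j | ¬ InvT P B I j fl (sc j)} := hcon
      rw [h1] at this
      exact this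
    refine ⟨fun _ => 1, fun _ x => x, B, I, A, sc, fun n => ⟨one_pos, le_rfl⟩,
      fun n x h0 h1 => ⟨h0, h1⟩, fun n x y => by ring, fun n => by rw [Real.rpow_one],
      Eventually.of_forall fun n => Finset.Subset.refl _, h, hsl, fun j => Or.inl (hall j)⟩
  | succ N ih =>
    intro B I lev A f b vm w fr pr sc h hsl hβ hN
    obtain ⟨J, R, hd, hS, hR⟩ := h.exists_rots hβ hsl hC
    have hInvJ : ∀ j, InvT P B I j fl (sc j) → InvT P B J j fl (sc j) :=
      fun j hj => hj.dense hd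
    have hβJ : ∀ j, InvT P B J j fl (sc j) ∨ 0 < β j := fun j => (hβ j).imp (hInvJ j) id
    by_cases hV : ∃ j1, ¬ InvT P B I j1 fl (sc j1) ∧ InvT P B J j1 fl (sc j1)
    · obtain ⟨j1, hj1, hj1'⟩ := hV
      refine NatT.mono hd.1 (ih B J lev A f b vm w fr pr sc hS hsl hβJ ?_)
      have hlt2 : {j | ¬ InvT P B J j fl (sc j)}.ncard < {j | ¬ InvT P B I j fl (sc j)}.ncard := by
        refine Set.ncard_lt_ncard ?_ (Set.toFinite _)
        rw [Set.ssubset_iff_of_subset]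
        · exact ⟨j1, hj1, fun hj => hj hj1'⟩
        · intro j hj hj2
          exact hj (hInvJ j hj2)
      omega
    push Not at hV
    by_cases hA : ∀ j, InvT P B J j fl (sc j) ∨ ¬ Free P β B I fl sc j ∨
        ∀ u : ℚ, 0 ≤ u → u < 1 → R j u = β j * u
    · refine ⟨fun _ => 1, fun _ x => x, B, J, A, sc, fun n => ⟨one_pos, le_rfl⟩,
        fun n x h0 h1 => ⟨h0, h1⟩, fun n x y => by ring, fun n => by rw [Real.rpow_one],
        hd.1, hS, hsl, fun j => ?_⟩
      by_cases hj : InvT P B J j fl (sc j)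
      · exact Or.inl hj
      have hβj : 0 < β j := (hβJ j).resolve_left hj
      by_cases hf : Free P β B I fl sc j
      · obtain ⟨h1, h2⟩ := hR j hβj hf
        have h3 := ((hA j).resolve_left hj).resolve_left (not_not.2 hf)
        exact Or.inr (Or.inl ⟨hβj, h1.lin hβj.le (hC j) h2 h3⟩)
      · unfold Free at hf
        push Not at hf
        obtain ⟨a, ha, hle, hinv⟩ := hf
        refine Or.inr (Or.inr ⟨hβj, a, ha, hle, fun t ht => ?_⟩)
        exact hV t (hinv t ht)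
    · push Not at hA
      obtain ⟨j0, hj0, hf0, hA⟩ := hA
      have hβ0 : 0 < β j0 := (hβJ j0).resolve_left hj0
      obtain ⟨u0, hu0, hu1, hne⟩ := hA
      obtain ⟨hR0, hR1⟩ := hR j0 hβ0 hf0
      have hu0' : (0 : ℝ) ≤ u0 := by exact_mod_cast hu0
      have hu1' : (u0 : ℝ) < 1 := by exact_mod_cast hu1
      have hlt : β j0 * u0 < R j0 u0 := lt_of_le_of_ne (hR1 u0 hu0' hu1'.le) (Ne.symm hne)
      set D : ℝ := R j0 u0 - β j0 * u0 with hDdef
      have hD : 0 < D := by rw [hDdef]; linarith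
      set δ : ℝ := min (D / (2 * β j0)) (1 - u0) with hδdef
      have hδ : 0 < δ := lt_min (by positivity) (by linarith)
      have hδ1 : δ ≤ D / (2 * β j0) := min_le_left _ _
      have hδ2 : δ ≤ 1 - u0 := min_le_right _ _
      have hgap : ∀ᶠ v in 𝓝 ((u0 : ℝ) + δ / 2), β j0 * v + D / 2 ≤ R j0 v := by
        have hmem : Set.Ioo (u0 : ℝ) (u0 + δ) ∈ 𝓝 ((u0 : ℝ) + δ / 2) :=
          Ioo_mem_nhds (by linarith) (by linarith)
        filter_upwards [hmem] with v hv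
        have c1 : R j0 u0 ≤ R j0 v := hR0.mono ⟨hu0', hu1'.le⟩ ⟨by linarith [hv.1], by
          linarith [hv.2]⟩ hv.1.le
        have c2 : β j0 * (v - u0) ≤ β j0 * (D / (2 * β j0)) :=
          mul_le_mul_of_nonneg_left (by linarith [hv.2]) hβ0.le
        have c3 : β j0 * (D / (2 * β j0)) = D / 2 := by field_simp
        rw [c3] at c2
        have c4 : β j0 * (v - u0) = β j0 * v - β j0 * u0 := by ring
        rw [c4] at c2
        linarith
      obtain ⟨H, mm, B', I', A', sc', h1, h2, h3, h4, h5, h6, h7, h8, h9⟩ :=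
        hS.zoom_gap hsl (v0 := (u0 : ℝ) + δ / 2) hR0 (by linarith) (by linarith)
          (D := D / 2) (by positivity) hgap
      refine NatT.comp h1 h2 h3 h4 (by filter_upwards [h5, hd.1] with n a1 a2 using a1.trans a2)
        (ih B' I' _ A' _ _ _ _ _ _ sc' h6 h7 (fun j => (hβJ j).imp (h9 j) id) ?_)
      · have hlt2 : {j | ¬ InvT P B' I' j fl (sc' j)}.ncard <
            {j | ¬ InvT P B I j fl (sc j)}.ncard := by
          refine Set.ncard_lt_ncard ?_ (Set.toFinite _)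
          rw [Set.ssubset_iff_of_subset]
          · exact ⟨j0, fun hj => hj0 (hInvJ j0 hj), fun hj => hj h8⟩
          · intro j hj hj2
            exact hj (h9 j (hInvJ j hj2))
        omega

/-- **second zoom for triangular slots**, user form. -/
theorem TSys.natT [Countable κ] (h : TSys P G g s θ β B I lev A f b vm w fr pr fl sc)
    (hβ : ∀ j, InvT P B I j fl (sc j) ∨ 0 < β j) (hC : ∀ j, β j ≤ C0 j) :
    NatT P G g s θ β C0 fl B I lev f b vm w fr pr := by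
  obtain ⟨H, mm, B', I', A', sc', h1, h2, h3, h4, h5, h6, h7, h8⟩ := h.zoom_slack
  exact NatT.comp h1 h2 h3 h4 h5 (exists_natT hC _ B' I' _ A' _ _ _ _ _ _ sc' h6 h7
    (fun j => (hβ j).imp (h8 j) id) le_rfl)

end

end Crest.Agent.R136.TD627
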