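import Mathlib
import Crest.Agent.R136.MkA_627

/-!
# R136 (helper770): the final diagonal of the extremal calculus

* `Stage` : the finite stage of a marked sequence (`MkA`, full shading, linear exponents) at a finite
  set `S` of rational levels, with error `ε`.
* `MkS`   : marked sequence for a FINITE set `S` of levels, widths linear up to `e`.
* `mkA_of_stages` : stages with `ε_K → 0` and `S_K ↑ ℚ ∩ [0,1]` form a marked sequence `MkA` with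
  exactly linear exponents.
* `mk_diag` : the same from sequences `MkS` (diagonal), carrying arbitrary finite-stage facts.
-/

set_option autoImplicit false
set_option linter.unusedVariables false
set_option linter.unusedSectionVars false

open Finset Filter Topology

namespace Crest.Agent.R136.Dia770

open Crest.Agent.R138.Ex926 Crest.Agent.R138.Dp76
open Crest.Agent.R138.Mk163 (zc zl rho alive own)
open MkA627 (Geo MkA ampA)

/-! ### own cells: trivial upper bound -/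

open Classical in
/-- a cell of level `i` contains `2^(j-i)` cells of level `j` -/
theorem own_le (I : Finset (ℕ × ℝ)) {i j : ℕ} (hij : i ≤ j) (x : ℕ × ℝ) :
    (own I i j x).card ≤ 2 ^ (j - i) := by
  have hsub : own I i j x ⊆ Ico ((2:ℤ) ^ (j - i) * zc i x.2) (2 ^ (j - i) * (zc i x.2 + 1)) := by
    intro k hk
    unfold own at hk
    obtain ⟨y, hy, rfl⟩ := mem_image.1 hk
    obtain ⟨-, -, hz⟩ := mem_filter.1 hy
    rw [← hz]
    have hp : (0:ℝ) < 2 ^ (j - i) := by positivity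
    have e : (2:ℝ) ^ j = 2 ^ (j - i) * 2 ^ i := by
      rw [← pow_add]; congr 1; omega
    have h1 := Int.floor_le ((2:ℝ) ^ i * y.2)
    have h2 := Int.lt_floor_add_one ((2:ℝ) ^ i * y.2)
    rw [mem_Ico]
    unfold zc
    constructor
    · rw [Int.le_floor]
      push_cast
      rw [e, mul_assoc]
      exact mul_le_mul_of_nonneg_left h1 hp.le
    · rw [Int.floor_lt]
      push_cast
      rw [e, mul_assoc]
      exact mul_lt_mul_of_pos_left h2 hp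
  refine (card_le_card hsub).trans (le_of_eq ?_)
  rw [Int.card_Ico]
  have : (2:ℤ) ^ (j - i) * (zc i x.2 + 1) - 2 ^ (j - i) * zc i x.2 = 2 ^ (j - i) := by ring
  rw [this]
  have h3 : ((2:ℤ) ^ (j - i)).toNat = 2 ^ (j - i) := by
    have : (2:ℤ) ^ (j - i) = ((2 ^ (j - i) : ℕ) : ℤ) := by push_cast; rfl
    rw [this, Int.toNat_natCast]
  exact h3

/-! ### finite stages -/

variable {σ κ : Type*}

open Classical in
/-- finite stage: everything for the levels of `S`, error `ε`; `d` = scale. -/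
structure Stage (d : ℝ) (I : Finset (ℕ × ℝ)) (mem : ℕ → ℤ → σ → ℕ → Prop) (adm : ℕ → ℤ → σ → Prop)
    (val : ℕ → ℤ → σ → ℝ) (wid : κ → σ → ℝ) (lev : ℚ → ℕ) (A g : ℝ) (θ : κ → ℝ)
    (f : ℚ → ℕ → ℤ → ℕ) (b : ℚ → ℕ → σ) (vm : ℚ → ℝ) (w : κ → ℚ → ℝ) (S : Finset ℚ) (ε : ℝ) :
    Prop where
  ne : I.Nonempty
  card : Real.log (I.card : ℝ) ≤ d ^ (-ε)
  lev_mono : ∀ u ∈ S, ∀ v ∈ S, u ≤ v → lev u ≤ lev v
  lev_lim : ∀ u ∈ S, ∀ v ∈ S, u ≤ v →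
    |((lev v : ℝ) - lev u) * Real.log 2 / (-Real.log d) - ((v : ℝ) - u)| ≤ ε
  cell0 : ∀ x ∈ I, ∀ y ∈ I, zc (lev 0) x.2 = zc (lev 0) y.2
  one : ∀ x ∈ I, ∀ y ∈ I, x.1 = y.1 → zc (lev 1) x.2 = zc (lev 1) y.2 → x = y
  own : ∀ u ∈ S, ∀ v ∈ S, u ≤ v → ∀ x ∈ I,
    d ^ (-((v : ℝ) - u) + ε) ≤ ((own I (lev u) (lev v) x).card : ℝ)
  dmax : ∀ v ∈ S, ∀ J : ℤ, ∀ s : σ, adm (lev v) J s →
    (((alive I (lev v) J).filter fun t => mem (lev v) J s t).card : ℝ) ≤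
      d ^ (-ε) * (A * d ^ (-(g * v))) * val (lev v) J s
  mark : ∀ v ∈ S, ∀ J : ℤ, ∀ t ∈ alive I (lev v) J,
    mem (lev v) J (b v (f v t J)) t ∧ adm (lev v) J (b v (f v t J)) ∧
    val (lev v) J (b v (f v t J)) = vm v ∧ ∀ j, wid j (b v (f v t J)) = w j v
  near : ∀ v ∈ S, ∀ J : ℤ, ∀ t ∈ alive I (lev v) J,
    (A * d ^ (-(g * v))) * vm v ≤ d ^ (-ε) *
      (((alive I (lev v) J).filter fun s => f v s J = f v t J).card : ℝ)
  vpos : ∀ v ∈ S, 0 < vm v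
  wpos : ∀ j, ∀ v ∈ S, 0 < w j v
  tau : ∀ j, ∀ v ∈ S,
    |Real.log ((rho (lev v) / w j v) / (rho (lev 1) / w j 1)) / (-Real.log d) - θ j * (1 - v)| ≤ ε

section stages

variable {B : Base} {I : ℕ → Finset (ℕ × ℝ)} {G : Geo σ κ} {lev : ℕ → ℚ → ℕ} {A : ℕ → ℝ} {g : ℝ}
  {θ : κ → ℝ} {f : ℕ → ℚ → ℕ → ℤ → ℕ} {b : ℕ → ℚ → ℕ → σ} {vm : ℕ → ℚ → ℝ} {w : κ → ℕ → ℚ → ℝ}


open Classical in
/-- marked sequence for a finite set `S` of rational levels (full shading), widths linear up to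
`e`. -/
structure MkS (B : Base) (I : ℕ → Finset (ℕ × ℝ)) (G : Geo σ κ) (lev : ℕ → ℚ → ℕ) (A : ℕ → ℝ)
    (g : ℝ) (θ : κ → ℝ) (f : ℕ → ℚ → ℕ → ℤ → ℕ) (b : ℕ → ℚ → ℕ → σ) (vm : ℕ → ℚ → ℝ)
    (w : κ → ℕ → ℚ → ℝ) (S : Finset ℚ) (e : ℝ) : Prop where
  ne : ∀ᶠ n in (U : Filter ℕ), (I n).Nonempty
  card : ∀ ε : ℝ, 0 < ε → ∀ᶠ n in (U : Filter ℕ), Real.log ((I n).card : ℝ) ≤ B.d n ^ (-ε)
  Apos : ∀ n, 0 < A n
  lev_mono : ∀ u ∈ S, ∀ v ∈ S, u ≤ v → ∀ᶠ n in (U : Filter ℕ), lev n u ≤ lev n v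
  lev_lim : ∀ u ∈ S, ∀ v ∈ S, u ≤ v →
    Tendsto (fun n => ((lev n v : ℝ) - lev n u) * Real.log 2 / B.L n) U (𝓝 ((v : ℝ) - u))
  cell0 : ∀ᶠ n in (U : Filter ℕ), ∀ x ∈ I n, ∀ y ∈ I n, zc (lev n 0) x.2 = zc (lev n 0) y.2
  one : ∀ᶠ n in (U : Filter ℕ), ∀ x ∈ I n, ∀ y ∈ I n, x.1 = y.1 →
    zc (lev n 1) x.2 = zc (lev n 1) y.2 → x = y
  own : ∀ u ∈ S, ∀ v ∈ S, u ≤ v → ∀ ε : ℝ, 0 < ε → ∀ᶠ n in (U : Filter ℕ), ∀ x ∈ I n,
    B.d n ^ (-((v : ℝ) - u) + ε) ≤ ((own (I n) (lev n u) (lev n v) x).card : ℝ)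
  dmax : ∀ v ∈ S, ∀ ε : ℝ, 0 < ε → ∀ᶠ n in (U : Filter ℕ), ∀ J : ℤ, ∀ s : σ,
    G.adm n (lev n v) J s →
      (((alive (I n) (lev n v) J).filter fun t => G.mem n (lev n v) J s t).card : ℝ) ≤
        B.d n ^ (-ε) * (A n * B.d n ^ (-(g * v))) * G.val n (lev n v) J s
  mark : ∀ v ∈ S, ∀ᶠ n in (U : Filter ℕ), ∀ J : ℤ, ∀ t ∈ alive (I n) (lev n v) J,
      G.mem n (lev n v) J (b n v (f n v t J)) t ∧ G.adm n (lev n v) J (b n v (f n v t J)) ∧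
      G.val n (lev n v) J (b n v (f n v t J)) = vm n v ∧
      ∀ j, G.wid j (b n v (f n v t J)) = w j n v
  near : ∀ v ∈ S, ∀ ε : ℝ, 0 < ε → ∀ᶠ n in (U : Filter ℕ), ∀ J : ℤ,
    ∀ t ∈ alive (I n) (lev n v) J,
      (A n * B.d n ^ (-(g * v))) * vm n v ≤ B.d n ^ (-ε) *
        (((alive (I n) (lev n v) J).filter fun s => f n v s J = f n v t J).card : ℝ)
  vpos : ∀ v ∈ S, ∀ᶠ n in (U : Filter ℕ), 0 < vm n v
  wpos : ∀ j, ∀ v ∈ S, ∀ᶠ n in (U : Filter ℕ), 0 < w j n v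
  tau : ∀ j, ∀ v ∈ S, ∀ᶠ n in (U : Filter ℕ),
    |Real.log ((rho (lev n v) / w j n v) / (rho (lev n 1) / w j n 1)) / B.L n - θ j * (1 - v)| ≤ e




end stages

/-! ### the diagonal -/




/-! ### meshes -/






end Crest.Agent.R136.Dia770
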