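import Crest.Agent.R136.Gf1_356
import Crest.Agent.R136.Gr1_356

-- ▼ part R136/Gr0_356
section

/-!
# R136: Kaufman in exponent form with losses everywhere (helper356)

`kauf_exE`: as `kauf_ex`, but the fibre `S ε n` and the heights `Z ε n` may depend on `ε`, and all
hypotheses are asked with losses `ρ^(-C ε)`.
-/

set_option autoImplicit false
set_option linter.unusedVariables false

open Filter Topology Finset

namespace Crest.Agent.R136.Gf356

open Crest.Agent.R138.Ex926 (Base U)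

/-- **Kaufman in exponent form, with losses everywhere.** -/
theorem kauf_exE (B : Base) {ι : Type*} [DecidableEq ι] (S : ℝ → ℕ → Finset ι)
    (Z : ℝ → ℕ → Finset ℕ)
    (φ : ℕ → ℕ → ℝ) (al : ℕ → ι → ℕ → Prop) [∀ n i, DecidablePred (al n i)]
    (F : ℕ → ι → ℕ → ℝ) (A V : ℕ → ι → ℝ) {x σ α κ C C2 C0 : ℝ} (hx : 0 < x) (hσ0 : 0 ≤ σ)
    (hσ1 : σ ≤ 1) (hC : 1 ≤ C) (hC2 : 1 ≤ C2) {J : ℕ} (hJ : 0 < J) (π : ℕ → ℝ)
    (hZ : ∀ ε : ℝ, 0 < ε → ∀ᶠ n in (U : Filter ℕ), (Z ε n).Nonempty)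
    (hφ : ∀ ε : ℝ, 0 < ε → ∀ᶠ n in (U : Filter ℕ), ∀ k ∈ Z ε n, |φ n k| ≤ B.d n ^ (-(C * ε)))
    (hF : ∀ ε : ℝ, 0 < ε → ∀ᶠ n in (U : Filter ℕ), ∀ k ∈ Z ε n, ∀ i ∈ S ε n, ∀ i' ∈ S ε n,
      al n i k → al n i' k → |F n i k - F n i' k - ((A n i - A n i') + φ n k * (V n i - V n i'))|
        ≤ B.d n ^ (x - C * ε))
    (hS : ∀ ε : ℝ, 0 < ε → ∀ᶠ n in (U : Filter ℕ), B.d n ^ (-α + C * ε) ≤ ((S ε n).card : ℝ))
    (hcell : ∀ ε : ℝ, 0 < ε → ∀ᶠ n in (U : Filter ℕ), ∀ k ∈ Z ε n,
      ((((S ε n).filter fun i => al n i k).image fun i => ⌊F n i k / B.d n ^ (x - C * ε)⌋).card : ℝ)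
        ≤ C0 * B.d n ^ (-κ - C2 * ε))
    (hal : ∀ ε : ℝ, 0 < ε → ∀ᶠ n in (U : Filter ℕ), ∀ i ∈ S ε n,
      B.d n ^ (C * ε) * ((Z ε n).card : ℝ) ≤ (((Z ε n).filter fun k => al n i k).card : ℝ))
    (hV0 : ∀ ε : ℝ, 0 < ε → ∀ᶠ n in (U : Filter ℕ), ∀ i ∈ S ε n, ∀ i' ∈ S ε n,
      |V n i - V n i'| ≤ B.d n ^ (-(C * ε)))
    (hP : ∀ j ≤ J, ∀ ε : ℝ, 0 < ε → ∀ᶠ n in (U : Filter ℕ), ∀ i ∈ S ε n,
      (((S ε n).filter fun i' => |V n i' - V n i| ≤ B.d n ^ (sc x J j - C * ε) ∧
        |A n i' - A n i| ≤ B.d n ^ (sc x J j - (2 * C + 1) * ε)).card : ℝ)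
          ≤ B.d n ^ (-π j - C2 * ε))
    (hQ : ∀ y : ℝ, 0 ≤ y → y ≤ x → ∀ ε : ℝ, 0 < ε → ∀ᶠ n in (U : Filter ℕ), ∀ k ∈ Z ε n,
      (((Z ε n).filter fun k' => |φ n k' - φ n k| ≤ B.d n ^ (y - ε)).card : ℝ)
        ≤ B.d n ^ (σ * y - C2 * ε) * ((Z ε n).card : ℝ)) :
    ∃ j ≤ J, α - π j + σ * (x - sc x J (j + 1)) ≤ κ := by
  classical
  obtain ⟨j, hj, h⟩ := exists_le_of_ev B J
    (fun j => -κ - π j + σ * (x - sc x J (j + 1))) (- α) (3 * C + 3 * C2) (3 * |C0| + 1) (by
    intro ε hε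
    have hCε : 0 ≤ C * ε := by positivity
    have ev1 : ∀ᶠ n in (U : Filter ℕ), ∀ j ∈ range (J + 1), ∀ i ∈ S ε n,
        (((S ε n).filter fun i' => |V n i' - V n i| ≤ B.d n ^ (sc x J j - C * ε) ∧
          |A n i' - A n i| ≤ B.d n ^ (sc x J j - (2 * C + 1) * ε)).card : ℝ)
            ≤ B.d n ^ (-π j - C2 * ε) := by
      rw [Filter.eventually_all_finset]
      intro j hj
      exact hP j (by simpa [Nat.lt_succ_iff] using hj) ε hε
    have ev2 : ∀ᶠ n in (U : Filter ℕ), ∀ j ∈ range J, ∀ k ∈ Z ε n,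
        (((Z ε n).filter fun k' =>
          |φ n k' - φ n k| ≤ B.d n ^ (x - sc x J (j + 1) - ε)).card : ℝ)
          ≤ B.d n ^ (σ * (x - sc x J (j + 1)) - C2 * ε) * ((Z ε n).card : ℝ) := by
      rw [Filter.eventually_all_finset]
      intro j hj
      have hj' : j + 1 ≤ J := by simpa using hj
      exact hQ (x - sc x J (j + 1)) (by linarith [sc_le hx.le hJ hj'])
        (by linarith [sc_nonneg hx.le J (j + 1)]) ε hε
    filter_upwards [ev1, ev2, hZ ε hε, hφ ε hε, hF ε hε, hS ε hε, hcell ε hε, hal ε hε, hV0 ε hε,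
      ev_const_le B hε 8] with n h1 h2 hZn hφn hFn hSn hcn haln hVn h7
    have hpow : ∀ t : ℝ, 0 < B.d n ^ t := fun t => rpos B n t
    have hSne : (S ε n).Nonempty := by
      rw [← Finset.card_pos]
      have : (0 : ℝ) < ((S ε n).card : ℝ) := lt_of_lt_of_le (hpow _) hSn
      exact_mod_cast this
    -- rescaled multiplier and velocity
    set u := B.d n ^ (C * ε) with hu
    have hu0 : 0 < u := hpow _
    have huv : u * B.d n ^ (-(C * ε)) = 1 := by
      rw [hu, ← rpow_add', add_neg_cancel, Real.rpow_zero]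
    set v := B.d n ^ (-(C * ε)) with hv
    have hv0 : 0 < v := hpow _
    set r := B.d n ^ (x - C * ε) with hr
    -- extension of `F` to the heights at which the line is not alive
    obtain ⟨ck, hck⟩ : ∃ ck : ℕ → ℝ, ∀ k ∈ Z ε n, ∀ i ∈ S ε n, al n i k →
        |F n i k - (A n i + φ n k * V n i + ck k)| ≤ r := by
      have : ∀ k, ∃ c : ℝ, k ∈ Z ε n → ∀ i ∈ S ε n, al n i k →
          |F n i k - (A n i + φ n k * V n i + c)| ≤ r := by
        intro k
        by_cases hex : ∃ i ∈ S ε n, al n i k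
        · obtain ⟨j, hj, hja⟩ := hex
          refine ⟨F n j k - A n j - φ n k * V n j, fun hk i hi hia => ?_⟩
          have := hFn k hk i hi j hj hia hja
          have e : F n i k - (A n i + φ n k * V n i + (F n j k - A n j - φ n k * V n j)) =
              F n i k - F n j k - ((A n i - A n j) + φ n k * (V n i - V n j)) := by ring
          rw [e]
          exact this
        · exact ⟨0, fun _ i hi hia => absurd ⟨i, hi, hia⟩ hex⟩
      choose c hc using this
      exact ⟨c, fun k hk => hc k hk⟩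
    set F' : ι → ℕ → ℝ := fun i k => if al n i k then F n i k else
      A n i + φ n k * V n i + ck k with hF'
    have hF'al : ∀ i k, al n i k → F' i k = F n i k := fun i k h => if_pos h
    have hF'1 : ∀ k ∈ Z ε n, ∀ i ∈ S ε n, |F' i k - (A n i + φ n k * V n i + ck k)| ≤ r := by
      intro k hk i hi
      by_cases hia : al n i k
      · rw [hF'al i k hia]; exact hck k hk i hi hia
      · have : F' i k = A n i + φ n k * V n i + ck k := if_neg hia
        rw [this, sub_self, abs_zero]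
        exact (hpow _).le
    have key := Crest.Agent.R138.Tw829.kaufman_abs (S ε n) (Z ε n) (fun k => u * φ n k) (al n)
      (fun i k => F' i k)
      (A n) (fun i => v * V n i) 0 r (2 * r) (|C0| * B.d n ^ (-κ - C2 * ε)) (B.d n ^ (C * ε)) J
      (fun j => B.d n ^ (sc x J j - 2 * (C * ε))) (fun j => B.d n ^ (-π j - C2 * ε))
      (fun j => B.d n ^ (σ * (x - sc x J (j + 1)) - C2 * ε))
      (hpow _) (by have := hpow (x - C * ε); positivity)
      (mul_nonneg (abs_nonneg _) (hpow _).le) (hpow _).le hSne hZn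
      (by
        intro k hk
        have := hφn k hk
        rw [sub_zero, abs_mul, abs_of_pos hu0]
        calc u * |φ n k| ≤ u * v := mul_le_mul_of_nonneg_left this hu0.le
          _ = 1 := huv
          _ ≤ 2 := by norm_num)
      (by
        intro k hk i hi i' hi'
        have h1 := hF'1 k hk i hi
        have h2 := hF'1 k hk i' hi'
        have e : (u * φ n k - 0) * (v * V n i - v * V n i') =
            φ n k * (V n i - V n i') := by
          have : (u * φ n k - 0) * (v * V n i - v * V n i') =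
            (u * v) * (φ n k * (V n i - V n i')) := by ring
          rw [this, huv, one_mul]
        simp only [e]
        have e2 : F' i k - F' i' k - ((A n i - A n i') + φ n k * (V n i - V n i')) =
            (F' i k - (A n i + φ n k * V n i + ck k)) -
              (F' i' k - (A n i' + φ n k * V n i' + ck k)) := by ring
        rw [e2]
        have h3 := abs_sub (F' i k - (A n i + φ n k * V n i + ck k))
          (F' i' k - (A n i' + φ n k * V n i' + ck k))
        linarith)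
      (by
        intro k hk
        have himg : (((S ε n).filter fun i => al n i k).image fun i => ⌊F' i k / r⌋) =
            (((S ε n).filter fun i => al n i k).image fun i => ⌊F n i k / r⌋) := by
          refine Finset.image_congr ?_
          intro i hi
          have := (Finset.mem_filter.1 hi).2
          simp only [hF'al i k this]
        rw [himg]
        refine (hcn k hk).trans ?_
        exact mul_le_mul_of_nonneg_right (le_abs_self _) (hpow _).le)
      (by
        calc B.d n ^ (C * ε) * (((S ε n).card : ℝ) * (Z ε n).card)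
            = ∑ i ∈ S ε n, B.d n ^ (C * ε) * ((Z ε n).card : ℝ) := by
              rw [Finset.sum_const, nsmul_eq_mul]; ring
          _ ≤ _ := Finset.sum_le_sum fun i hi => haln i hi)
      (fun j => hpow _)
      (by
        intro i hi i' hi'
        have := hVn i hi i' hi'
        simp only [sc_zero]
        rw [← mul_sub, abs_mul, abs_of_pos hv0]
        have e1 : B.d n ^ (0 - 2 * (C * ε)) = v * v := by
          rw [hv, ← rpow_add']; congr 1; ring
        rw [e1]
        exact mul_le_mul_of_nonneg_left this hv0.le)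
      (fun j => (hpow _).le) (fun j => (hpow _).le)
      (by
        intro j hj i hi
        have b1 := h1 j (Finset.mem_range.2 (by omega)) i hi
        refine le_trans ?_ b1
        have : ((S ε n).filter fun i' => |v * V n i' - v * V n i| ≤
              B.d n ^ (sc x J j - 2 * (C * ε)) ∧
            |A n i' - A n i| ≤ r + 2 * r + 2 * B.d n ^ (sc x J j - 2 * (C * ε))) ⊆
            (S ε n).filter fun i' => |V n i' - V n i| ≤ B.d n ^ (sc x J j - C * ε) ∧
              |A n i' - A n i| ≤ B.d n ^ (sc x J j - (2 * C + 1) * ε) := by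
          intro i' hi'
          obtain ⟨c1, c2, c3⟩ := Finset.mem_filter.1 hi'
          refine Finset.mem_filter.2 ⟨c1, ?_, c3.trans ?_⟩
          · rw [← mul_sub, abs_mul, abs_of_pos hv0] at c2
            have e1 : B.d n ^ (sc x J j - 2 * (C * ε)) = v * B.d n ^ (sc x J j - C * ε) := by
              rw [hv, ← rpow_add']; congr 1; ring
            rw [e1] at c2
            exact le_of_mul_le_mul_left c2 hv0
          · have e1 : r ≤ B.d n ^ (sc x J j - 2 * (C * ε)) :=
              rpow_anti B n (by linarith [sc_le hx.le hJ hj])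
            have e3 : B.d n ^ (sc x J j - (2 * C + 1) * ε) =
                B.d n ^ (sc x J j - 2 * (C * ε)) * B.d n ^ (-ε) := by
              rw [← rpow_add']; congr 1; ring
            rw [e3]
            have e4 := hpow (sc x J j - 2 * (C * ε))
            nlinarith
        exact_mod_cast Finset.card_le_card this)
      (by
        intro j hj k hk
        have b1 := h2 j (Finset.mem_range.2 hj) k hk
        refine le_trans ?_ b1
        have : ((Z ε n).filter fun k' => |u * φ n k' - u * φ n k| ≤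
            2 * (r + 2 * r) / B.d n ^ (sc x J (j + 1) - 2 * (C * ε))) ⊆
            (Z ε n).filter fun k' => |φ n k' - φ n k| ≤
              B.d n ^ (x - sc x J (j + 1) - ε) := by
          intro k' hk'
          obtain ⟨c1, c2⟩ := Finset.mem_filter.1 hk'
          refine Finset.mem_filter.2 ⟨c1, ?_⟩
          rw [← mul_sub, abs_mul, abs_of_pos hu0] at c2
          have e1 : 2 * (r + 2 * r) / B.d n ^ (sc x J (j + 1) - 2 * (C * ε)) =
              u * (6 * B.d n ^ (x - sc x J (j + 1))) := by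
            have : B.d n ^ (x - C * ε) = u * B.d n ^ (x - sc x J (j + 1)) *
                B.d n ^ (sc x J (j + 1) - 2 * (C * ε)) := by
              rw [hu, ← rpow_add', ← rpow_add']; congr 1; ring
            rw [hr, this]
            have e0 := (hpow (sc x J (j + 1) - 2 * (C * ε))).ne'
            rw [div_eq_iff e0]
            ring
          rw [e1] at c2
          have c3 := le_of_mul_le_mul_left c2 hu0
          refine c3.trans ?_
          have e3 : B.d n ^ (x - sc x J (j + 1) - ε) =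
              B.d n ^ (x - sc x J (j + 1)) * B.d n ^ (-ε) := by
            rw [← rpow_add', ← sub_eq_add_neg]
          rw [e3]
          nlinarith [hpow (x - sc x J (j + 1))]
        exact_mod_cast Finset.card_le_card this)
      (by
        apply Real.one_le_rpow_of_pos_of_le_one_of_nonpos (B.pos n) (B.lt n).le
        rw [sc_succ x hJ, sc_top x hJ]
        have : 0 ≤ σ * (x / J) := by positivity
        have : 0 ≤ C2 * ε := by positivity
        nlinarith)
    have k1 : B.d n ^ (-α + 3 * C * ε) ≤ (B.d n ^ (C * ε)) ^ 2 * ((S ε n).card : ℝ) := by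
      have : B.d n ^ (-α + 3 * C * ε) = (B.d n ^ (C * ε)) ^ 2 * B.d n ^ (-α + C * ε) := by
        rw [sq, ← rpow_add', ← rpow_add']; congr 1; ring
      rw [this]
      exact mul_le_mul_of_nonneg_left hSn (by positivity)
    calc B.d n ^ (-α + (3 * C + 3 * C2) * ε) ≤ B.d n ^ (-α + 3 * C * ε) :=
          rpow_anti B n (by nlinarith)
      _ ≤ _ := k1
      _ ≤ _ := key
      _ = |C0| * ∑ j ∈ range (J + 1), B.d n ^ (-κ - π j + σ * (x - sc x J (j + 1))
            - 3 * C2 * ε) := by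
          rw [mul_assoc, Finset.mul_sum]
          congr 1
          refine Finset.sum_congr rfl fun j _ => ?_
          rw [← rpow_add', ← rpow_add']
          congr 1
          ring
      _ ≤ (3 * |C0| + 1) * ∑ j ∈ range (J + 1), B.d n ^ (-κ - π j + σ * (x - sc x J (j + 1))
            - 3 * C2 * ε) := by
          refine mul_le_mul_of_nonneg_right (by linarith [abs_nonneg C0]) ?_
          exact Finset.sum_nonneg fun j _ => (hpow _).le
      _ ≤ _ := by
          refine mul_le_mul_of_nonneg_left ?_ (by positivity)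
          refine Finset.sum_le_sum fun j _ => rpow_anti B n ?_
          nlinarith)
  refine ⟨j, hj, ?_⟩
  linarith

end Crest.Agent.R136.Gf356
end

-- ▼ part R136/Gr2_356

/-!
# R136: transfer principle and Kaufman, relative coordinates with walls (helper356)

* `transfer_R`, `kauf_R`, `kauf_rate_R`;
* `GUnif.toR`, `GModel.toR`: absolute coordinates are an instance.
-/

set_option autoImplicit false
set_option linter.unusedVariables false
set_option linter.unusedSectionVars false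

open Filter Topology Finset

namespace Crest.Agent.R136.Gf356

open Crest.Agent.R138.Ex926 (Base U)

variable {κ : Type} {B : Base} {G : ℕ → RCfg κ} {Leg : Set (κ → ℝ)} {ν : (κ → ℝ) → ℝ}
  {σ R D : ℝ}

/-- **transfer principle = visible shift**, relative coordinates with walls. -/
theorem transfer_R (H : RModel B G σ R Leg ν D) (p p' pT r : κ → ℝ)
    (hp : p ∈ Leg) (hp' : p' ∈ Leg) (hpT : pT ∈ Leg) (hr : r ∈ Leg) (hTr : ∀ j, pT j ≤ r j)
    (bad : ℕ → ℝ → ℕ → ℕ → Prop)
    (hbad : ∀ ε : ℝ, 0 < ε → ∀ᶠ n in (U : Filter ℕ), ∀ i ∈ (G n).L,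
      ∀ T ⊆ ((G n).hts i) ×ˢ ((G n).hts i), (∀ q ∈ T, bad n ε q.1 q.2) →
      2 * (T.card : ℝ) ≤ (((G n).hts i).card : ℝ) ^ 2)
    (hgeo : ∀ C0 : ℝ, 0 < C0 → ∃ C1 : ℝ, 0 < C1 ∧ ∀ C2 : ℝ, 0 < C2 → ∃ C3 : ℝ, 0 < C3 ∧
      ∀ ε : ℝ, 0 < ε → ∀ᶠ n in (U : Filter ℕ), ∀ k ∈ (G n).Z, ∀ k' ∈ (G n).Z,
      ¬ bad n ε k k' → ∀ i i', (i, k) ∈ (G n).I → (i, k') ∈ (G n).I → (i', k) ∈ (G n).I →
      (i', k') ∈ (G n).I → (G n).loose p (C0 * ε) k i i' →
      (G n).loose pT (C1 * ε) k' i i' ∧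
      ((G n).loose r (C2 * ε) k' i i' → (G n).loose p' (C3 * ε) k i i')) :
    ν p - ν p' ≤ ν pT - ν r := by
  classical
  have hD := H.D1
  have hD0 : 0 < D := by linarith
  obtain ⟨C1, hC1, hgeo1⟩ := hgeo (D ^ 5) (by positivity)
  obtain ⟨C3, hC3, hgeo2⟩ := hgeo1 (D ^ 5 * C1) (by positivity)
  have key := le_of_ev B (-ν p) (-(ν pT - ν r) - ν p') ((D ^ 2 + 1) * C1 + D * C3 + 6) 1 (by
    intro ε hε
    have hC1ε : 0 < C1 * ε := by positivity
    have hC3ε : 0 < C3 * ε := by positivity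
    filter_upwards [H.line ε hε, hbad ε hε, hgeo2 ε hε, H.exists_lab p hp hε,
      H.exists_lab_loose pT r hpT hr hTr hC1ε, H.up p' hp' (C3 * ε) hC3ε,
      ev_const_le B hε 2] with n hline hbadn hgeon hlabp hcells hup h2
    have hpow : ∀ t : ℝ, 0 < B.d n ^ t := fun t => rpos B n t
    obtain ⟨⟨i1, k1⟩, hI1⟩ := H.nonempty n
    have hLne : (G n).L.Nonempty := ⟨i1, H.memL hI1⟩
    have hZne : (G n).Z.Nonempty := ⟨k1, H.memZ hI1⟩
    have hL0 : (0 : ℝ) < (G n).L.card := by exact_mod_cast hLne.card_pos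
    -- good pair
    obtain ⟨k, hk, k', hk', hnb, hcard⟩ := good_pair (G n).L (G n).Z (fun i k => (i, k) ∈ (G n).I)
      (fun k k' => bad n ε k k') (hpow ε) hLne hZne
      (by intro i hi; exact hline i hi)
      (by
        intro i hi
        refine hbadn i hi _ (Finset.filter_subset _ _) ?_
        intro q hq
        exact (Finset.mem_filter.1 hq).2)
    set T0 := (G n).L.filter fun i => (i, k) ∈ (G n).I ∧ (i, k') ∈ (G n).I with hT0
    have hT0pos : (0 : ℝ) < T0.card := by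
      have e1 := hpow ε
      exact lt_of_lt_of_le (by positivity) hcard
    have hT0ne : T0.Nonempty := by rw [← Finset.card_pos]; exact_mod_cast hT0pos
    -- cells at `k`
    obtain ⟨lab, hlab1, hlab2⟩ := hlabp k T0 (fun i hi =>
      H.memSlice.2 (Finset.mem_filter.1 hi).2.1) (G n).L (fun t _ =>
        RCfg.box_subset_slice.trans (Finset.filter_subset _ _))
    obtain ⟨i0, hi0, hfib⟩ := exists_fibre T0 lab hT0ne hlab2
    set S := T0.filter fun i => lab i = lab i0 with hS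
    have hSI : ∀ i ∈ S, (i, k) ∈ (G n).I ∧ (i, k') ∈ (G n).I := by
      intro i hi
      exact (Finset.mem_filter.1 (Finset.mem_filter.1 hi).1).2
    have hSnear : ∀ i ∈ S, ∀ i' ∈ S, (G n).loose p (D ^ 5 * ε) k i i' := by
      intro i hi i' hi'
      obtain ⟨a1, a2⟩ := Finset.mem_filter.1 hi
      obtain ⟨b1, b2⟩ := Finset.mem_filter.1 hi'
      exact hlab1 i a1 i' b1 (by rw [a2, b2])
    -- lower bound of `S`
    have hSlow : B.d n ^ (-ν p + 5 * ε) ≤ (S.card : ℝ) := by
      have g1 : (B.d n ^ ε) ^ 2 / 2 * ((G n).L.card : ℝ) ≤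
          (G n).L.card * B.d n ^ (ν p - ε) * (S.card : ℝ) := hcard.trans hfib
      have g2 : (B.d n ^ ε) ^ 2 / 2 ≤ B.d n ^ (ν p - ε) * (S.card : ℝ) := by
        have : (B.d n ^ ε) ^ 2 / 2 * ((G n).L.card : ℝ) ≤
            (B.d n ^ (ν p - ε) * (S.card : ℝ)) * ((G n).L.card : ℝ) := by linarith
        exact le_of_mul_le_mul_right this hL0
      have g3 : B.d n ^ (3 * ε) ≤ (B.d n ^ ε) ^ 2 / 2 := by
        have a1 : B.d n ^ (3 * ε) = (B.d n ^ ε) ^ 2 * B.d n ^ ε := by
          rw [sq, ← rpow_add', ← rpow_add']; congr 1; ring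
        have a2 : B.d n ^ ε ≤ 1 / 2 := by
          have a3 : B.d n ^ ε * B.d n ^ (-ε) = 1 := by
            rw [← rpow_add', add_neg_cancel, Real.rpow_zero]
          have a4 := hpow ε
          nlinarith
        rw [a1]
        have := hpow ε
        nlinarith [sq_nonneg (B.d n ^ ε)]
      have g4 : B.d n ^ (3 * ε) ≤ (S.card : ℝ) * B.d n ^ (ν p - ε) := by
        exact (g3.trans g2).trans (le_of_eq (mul_comm _ _))
      have g5 : B.d n ^ (-ν p + 4 * ε) * B.d n ^ (ν p - ε) = B.d n ^ (3 * ε) := by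
        rw [← rpow_add']; congr 1; ring
      rw [← g5] at g4
      exact (rpow_anti B n (by linarith)).trans (le_of_mul_le_mul_right g4 (hpow _))
    -- cells at `k'`
    have hSsl : S ⊆ (G n).slice k' := fun i hi => H.memSlice.2 (hSI i hi).2
    have hgeoS : ∀ i ∈ S, ∀ i' ∈ S, (G n).loose pT (C1 * ε) k' i i' ∧
        ((G n).loose r (D ^ 5 * C1 * ε) k' i i' → (G n).loose p' (C3 * ε) k i i') := by
      intro i hi i' hi'
      exact hgeon k hk k' hk' hnb i i' (hSI i hi).1 (hSI i hi).2 (hSI i' hi').1 (hSI i' hi').2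
        (hSnear i hi i' hi')
    obtain ⟨lab', hlab1', hlab2'⟩ := hcells k' S hSsl (fun i hi i' hi' => (hgeoS i hi i' hi').1)
    have hSne : S.Nonempty := ⟨i0, Finset.mem_filter.2 ⟨hi0, rfl⟩⟩
    obtain ⟨i2, hi2, hfib2⟩ := exists_fibre S lab' hSne hlab2'
    have hfc : ((S.filter fun i => lab' i = lab' i2).card : ℝ) ≤
        B.d n ^ (-ν p' - D * (C3 * ε)) := by
      refine le_trans ?_ (hup i2 k (hSI i2 hi2).1)
      refine mod_cast Finset.card_le_card ?_
      intro i hi
      obtain ⟨b1, b2⟩ := Finset.mem_filter.1 hi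
      refine RCfg.mem_box.2 ⟨H.memSlice.2 (hSI i b1).1, ?_⟩
      refine (hgeoS i2 hi2 i b1).2 ?_
      have := hlab1' i2 hi2 i b1 b2.symm
      have e1 : D ^ 5 * (C1 * ε) = D ^ 5 * C1 * ε := by ring
      rwa [e1] at this
    calc B.d n ^ (-ν p + ((D ^ 2 + 1) * C1 + D * C3 + 6) * ε)
        ≤ B.d n ^ (-ν p + 5 * ε) := rpow_anti B n (by
          have : 0 ≤ ((D ^ 2 + 1) * C1 + D * C3) * ε := by positivity
          nlinarith)
      _ ≤ (S.card : ℝ) := hSlow
      _ ≤ _ := hfib2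
      _ ≤ B.d n ^ (-(ν pT - ν r) - (D ^ 2 + 1) * (C1 * ε)) * B.d n ^ (-ν p' - D * (C3 * ε)) :=
          mul_le_mul_of_nonneg_left hfc (hpow _).le
      _ = B.d n ^ (-(ν pT - ν r) - ν p' - ((D ^ 2 + 1) * C1 + D * C3) * ε) := by
          rw [← rpow_add']; congr 1; ring
      _ ≤ B.d n ^ (-(ν pT - ν r) - ν p' - ((D ^ 2 + 1) * C1 + D * C3 + 6) * ε) :=
          rpow_anti B n (by nlinarith)
      _ = _ := by rw [one_mul])
  linarith

/-- **Kaufman on one fibre**, relative coordinates with walls.  Fibre = the loose box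
`box pS ε` around the centre `(i0 n, k0 n)`; `F n k i` = value of the functional at the height `k`,
`A n i` = its value at the centre height, `V n i` = velocity, `φ n k` = multiplier, `Zg n` = good
heights; loose `r`-boxes at good heights have `F`-width `≤ ρ^(x - C1 ε)` (`hlink`).  All
hypotheses are asked with losses `ρ^(-C1 ε)`. -/
theorem kauf_R (H : RUnif B G Leg ν D) (i0 k0 : ℕ → ℕ)
    (h0 : ∀ᶠ n in (U : Filter ℕ), (i0 n, k0 n) ∈ (G n).I) (pS pT r : κ → ℝ)
    (hpS : pS ∈ Leg) (hpT : pT ∈ Leg) (hr : r ∈ Leg) (hTr : ∀ j, pT j ≤ r j) {x τ : ℝ}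
    (hx : 0 < x) (hτ0 : 0 ≤ τ) (hτ1 : τ ≤ 1)
    (F : ℕ → ℕ → ℕ → ℝ) (A V : ℕ → ℕ → ℝ) (φ : ℕ → ℕ → ℝ) (Zg : ℕ → Finset ℕ)
    (hZg : ∀ᶠ n in (U : Filter ℕ), (Zg n).Nonempty) {J : ℕ} (hJ : 0 < J) (Q : ℕ → κ → ℝ)
    (hQm : ∀ j ≤ J, Q j ∈ Leg) {C1 : ℝ} (hC1 : 0 < C1)
    (hφ : ∀ ε : ℝ, 0 < ε → ∀ᶠ n in (U : Filter ℕ), ∀ k ∈ Zg n, |φ n k| ≤ B.d n ^ (-(C1 * ε)))
    (hV : ∀ ε : ℝ, 0 < ε → ∀ᶠ n in (U : Filter ℕ), ∀ i ∈ (G n).box pS ε (i0 n) (k0 n),
      ∀ i' ∈ (G n).box pS ε (i0 n) (k0 n), |V n i - V n i'| ≤ B.d n ^ (-(C1 * ε)))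
    (hF : ∀ ε : ℝ, 0 < ε → ∀ᶠ n in (U : Filter ℕ), ∀ k ∈ Zg n,
      ∀ i ∈ (G n).box pS ε (i0 n) (k0 n), ∀ i' ∈ (G n).box pS ε (i0 n) (k0 n),
      (i, k) ∈ (G n).I → (i', k) ∈ (G n).I →
      |F n k i - F n k i' - ((A n i - A n i') + φ n k * (V n i - V n i'))|
        ≤ B.d n ^ (x - C1 * ε))
    (hlink : ∀ ε : ℝ, 0 < ε → ∀ᶠ n in (U : Filter ℕ), ∀ k ∈ Zg n,
      ∀ i ∈ (G n).box pS ε (i0 n) (k0 n), (i, k) ∈ (G n).I → ∀ l, (l, k) ∈ (G n).I →
      (G n).loose r ε k i l → |F n k l - F n k i| ≤ B.d n ^ (x - C1 * ε))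
    (hT : ∀ ε : ℝ, 0 < ε → ∀ᶠ n in (U : Filter ℕ), ∀ k ∈ Zg n,
      ∀ i ∈ (G n).box pS ε (i0 n) (k0 n), ∀ i' ∈ (G n).box pS ε (i0 n) (k0 n),
      (i, k) ∈ (G n).I → (i', k) ∈ (G n).I → (G n).loose pT (C1 * ε) k i i')
    (hal : ∀ ε : ℝ, 0 < ε → ∀ᶠ n in (U : Filter ℕ), ∀ i ∈ (G n).box pS ε (i0 n) (k0 n),
      ∀ T ⊆ Zg n, (∀ k ∈ Zg n, (i, k) ∈ (G n).I → k ∈ T) →
      B.d n ^ (C1 * ε) * ((Zg n).card : ℝ) ≤ (T.card : ℝ))
    (hQ : ∀ C3 : ℝ, 0 < C3 → ∃ C4 : ℝ, 0 < C4 ∧ ∀ j ≤ J, ∀ ε : ℝ, 0 < ε →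
      ∀ᶠ n in (U : Filter ℕ),
      ∀ i ∈ (G n).box pS ε (i0 n) (k0 n), ∀ i' ∈ (G n).box pS ε (i0 n) (k0 n),
      |V n i' - V n i| ≤ B.d n ^ (sc x J j - C3 * ε) →
      |A n i' - A n i| ≤ B.d n ^ (sc x J j - C3 * ε) →
      (G n).loose (Q j) (C4 * ε) (k0 n) i i')
    (hfr : ∀ y : ℝ, 0 ≤ y → y ≤ x → ∀ ε : ℝ, 0 < ε → ∀ᶠ n in (U : Filter ℕ), ∀ k ∈ Zg n,
      ∀ T ⊆ Zg n, (∀ k' ∈ T, |φ n k' - φ n k| ≤ B.d n ^ y) →
      (T.card : ℝ) ≤ B.d n ^ (τ * y - ε) * ((Zg n).card : ℝ)) :
    ∃ j ≤ J, ν pS - ν (Q j) + τ * (x - sc x J (j + 1)) ≤ ν pT - ν r := by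
  classical
  have hD := H.D1
  have hD0 : 0 < D := by linarith
  set C : ℝ := C1 + 1 with hC
  have hCpos : 0 < C := by linarith
  obtain ⟨C4, hC4, hQ'⟩ := hQ (2 * C + 1) (by positivity)
  set C2 : ℝ := D * (D * C) + C + D * C4 + 3 with hC2
  have hDDC : 0 ≤ D * (D * C) := by positivity
  have hDC4 : 0 ≤ D * C4 := by positivity
  refine kauf_exE B (ι := ℕ) (fun ε n => (G n).box pS ε (i0 n) (k0 n)) (fun _ n => Zg n) φ
    (fun n i k => (i, k) ∈ (G n).I) (fun n i k => F n k i)
    A V hx hτ0 hτ1 (C := C) (C2 := C2) (by linarith) (by linarith) (C0 := 3) hJ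
    (fun j => ν (Q j)) (fun _ _ => hZg) ?_ ?_ ?_ ?_ ?_ ?_ ?_ ?_
  · intro ε hε
    filter_upwards [hφ ε hε] with n hn k hk
    exact (hn k hk).trans (rpow_anti B n (by nlinarith))
  · intro ε hε
    filter_upwards [hF ε hε] with n hn k hk i hi i' hi' hI hI'
    exact (hn k hk i hi i' hi' hI hI').trans (rpow_anti B n (by nlinarith))
  · -- size of the fibre
    intro ε hε
    filter_upwards [H.low pS hpS ε hε, h0] with n hn h0n
    refine le_trans (rpow_anti B n ?_) (hn _ _ h0n)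
    nlinarith
  · -- cells
    intro ε hε
    have hCε : 0 < C * ε := by positivity
    have hC1ε : 0 < C1 * ε := by positivity
    filter_upwards [H.sub_loose_box pT r hpT hTr hCε, H.up pT hpT (D * (C * ε)) (by positivity),
      H.low r hr ε hε, hT ε hε, hlink ε hε] with n h1 h2 h3 h4 h5 k hk
    have hpow : ∀ t : ℝ, 0 < B.d n ^ t := fun t => rpos B n t
    set T := ((G n).box pS ε (i0 n) (k0 n)).filter fun i => (i, k) ∈ (G n).I with hTdef
    have goal : (((T.image fun i => ⌊F n k i / B.d n ^ (x - C * ε)⌋).card : ℕ) : ℝ) ≤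
        3 * B.d n ^ (-(ν pT - ν r) - (D * (D * C) + 1) * ε) := by
      rcases T.eq_empty_or_nonempty with hTe | ⟨t0, ht0⟩
      · rw [hTe]; simpa using (hpow _).le
      obtain ⟨b1, b2⟩ := Finset.mem_filter.1 ht0
      have key := cells_le_abs T ((G n).box pT (D * (C * ε)) t0 k) (fun i (_ : Unit) => F n k i)
        (fun _ => B.d n ^ (x - C * ε)) (fun _ => hpow _) (m0 := B.d n ^ (-ν r + ε)) (by
          intro i hi
          obtain ⟨a1, a2⟩ := Finset.mem_filter.1 hi
          have hloose : (G n).loose pT (C * ε) k t0 i :=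
            H.loose_mono (fun _ => le_rfl) (by nlinarith) (h4 k hk t0 b1 i a1 b2 a2)
          have hsub : (G n).box r ε i k ⊆ (G n).box r (C * ε) i k := by
            intro l hl
            obtain ⟨l1, l2⟩ := RCfg.mem_box.1 hl
            exact RCfg.mem_box.2 ⟨l1, H.loose_mono (fun _ => le_rfl) (by nlinarith) l2⟩
          refine ⟨(G n).box r ε i k, hsub.trans (h1 k t0 i b2 a2 hloose), ?_, h3 i k a2⟩
          intro l hl _
          obtain ⟨l1, l2⟩ := RCfg.mem_box.1 hl
          refine (h5 k hk i a1 a2 l (H.memSlice.1 l1) l2).trans (rpow_anti B n ?_)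
          nlinarith)
      simp only [Fintype.card_unit, pow_one] at key
      have e0 : (T.image fun i => ⌊F n k i / B.d n ^ (x - C * ε)⌋).card ≤
          (T.image fun i => fun _ : Unit => ⌊F n k i / B.d n ^ (x - C * ε)⌋).card := by
        have : (T.image fun i => ⌊F n k i / B.d n ^ (x - C * ε)⌋) =
            (T.image fun i => fun _ : Unit => ⌊F n k i / B.d n ^ (x - C * ε)⌋).image
              fun c => c () := by
          rw [Finset.image_image]
          rfl
        rw [this]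
        exact Finset.card_image_le
      have e1 : B.d n ^ (-ν r + ε) * B.d n ^ (ν r - ε) = 1 := by
        rw [← rpow_add']
        have : -ν r + ε + (ν r - ε) = 0 := by ring
        rw [this, Real.rpow_zero]
      calc (((T.image fun i => ⌊F n k i / B.d n ^ (x - C * ε)⌋).card : ℕ) : ℝ)
          ≤ ((T.image fun i => fun _ : Unit => ⌊F n k i / B.d n ^ (x - C * ε)⌋).card : ℝ) := by
            exact_mod_cast e0
        _ = ((T.image fun i => fun _ : Unit => ⌊F n k i / B.d n ^ (x - C * ε)⌋).card : ℝ) *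
            B.d n ^ (-ν r + ε) * B.d n ^ (ν r - ε) := by rw [mul_assoc, e1, mul_one]
        _ ≤ 3 * (((G n).box pT (D * (C * ε)) t0 k).card : ℝ) * B.d n ^ (ν r - ε) :=
            mul_le_mul_of_nonneg_right key (hpow _).le
        _ ≤ 3 * B.d n ^ (-ν pT - D * (D * (C * ε))) * B.d n ^ (ν r - ε) := by
            refine mul_le_mul_of_nonneg_right ?_ (hpow _).le
            exact mul_le_mul_of_nonneg_left (h2 t0 k b2) (by norm_num)
        _ = _ := by
            rw [mul_assoc, ← rpow_add']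
            congr 2
            ring
    refine goal.trans ?_
    refine mul_le_mul_of_nonneg_left (rpow_anti B n ?_) (by norm_num)
    rw [hC2]; nlinarith
  · -- alive
    intro ε hε
    filter_upwards [hal ε hε] with n hn i hi
    refine le_trans ?_ (hn i hi _ (Finset.filter_subset _ _) ?_)
    · exact mul_le_mul_of_nonneg_right (rpow_anti B n (by nlinarith)) (Nat.cast_nonneg _)
    · intro k hk hI
      exact Finset.mem_filter.2 ⟨hk, hI⟩
  · intro ε hε
    filter_upwards [hV ε hε] with n hn i hi i' hi'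
    exact (hn i hi i' hi').trans (rpow_anti B n (by nlinarith))
  · -- close pairs
    intro j hj ε hε
    have hC4ε : 0 < C4 * ε := by positivity
    filter_upwards [hQ' j hj ε hε, H.up (Q j) (hQm j hj) (C4 * ε) hC4ε] with n h1 h2 i hi
    have hI := H.memSlice.1 (RCfg.box_subset_slice hi)
    have hsub : (((G n).box pS ε (i0 n) (k0 n)).filter fun i' => |V n i' - V n i| ≤
        B.d n ^ (sc x J j - C * ε) ∧ |A n i' - A n i| ≤ B.d n ^ (sc x J j - (2 * C + 1) * ε)) ⊆
        (G n).box (Q j) (C4 * ε) i (k0 n) := by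
      intro i' hi'
      obtain ⟨a1, a2, a3⟩ := Finset.mem_filter.1 hi'
      refine RCfg.mem_box.2 ⟨RCfg.box_subset_slice a1, h1 i hi i' a1 (a2.trans ?_) a3⟩
      exact rpow_anti B n (by nlinarith)
    refine le_trans (mod_cast Finset.card_le_card hsub) ((h2 i (k0 n) hI).trans
      (rpow_anti B n ?_))
    rw [hC2]
    nlinarith
  · -- Frostman
    intro y hy0 hyx ε hε
    rcases le_total (y - ε) 0 with hle | hle
    · refine Filter.Eventually.of_forall fun n k hk => ?_
      have b3 : (((Zg n).filter fun k' => |φ n k' - φ n k| ≤ B.d n ^ (y - ε)).card : ℝ) ≤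
          (Zg n).card := by
        exact_mod_cast Finset.card_le_card (Finset.filter_subset _ _)
      refine b3.trans ?_
      have b4 : (1 : ℝ) ≤ B.d n ^ (τ * y - C2 * ε) := by
        apply Real.one_le_rpow_of_pos_of_le_one_of_nonpos (B.pos n) (B.lt n).le
        have : τ * y ≤ ε := by nlinarith
        rw [hC2]
        nlinarith
      nlinarith [(Nat.cast_nonneg (Zg n).card : (0:ℝ) ≤ _)]
    · filter_upwards [hfr (y - ε) hle (by linarith) ε hε] with n hn k hk
      refine (hn k hk _ (Finset.filter_subset _ _) ?_).trans ?_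
      · intro k' hk'
        exact (Finset.mem_filter.1 hk').2
      · refine mul_le_mul_of_nonneg_right (rpow_anti B n ?_) (Nat.cast_nonneg _)
        rw [hC2]
        nlinarith

/-- elementary: from all `J` to the rate -/
theorem rate_of_forall {x τ f g : ℝ} (hx : 0 < x) (hτ0 : 0 ≤ τ) (hg : 0 < g) {a : ℝ → ℝ} {b : ℝ}
    (h : ∀ J : ℕ, 0 < J → ∃ j ≤ J, a (sc x J j) + τ * (x - sc x J (j + 1)) ≤ b)
    (hlow : ∀ t : ℝ, 0 ≤ t → t ≤ x → (f + g) * t ≤ a t) (hup : b ≤ f * x) : τ ≤ f := by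
  by_contra hcon
  push Not at hcon
  set b' := min (τ - f) g with hb
  have hb0 : 0 < b' := lt_min (by linarith) hg
  obtain ⟨J, hJ⟩ := exists_nat_gt (τ / b')
  have hJ0 : 0 < J := by
    rcases Nat.eq_zero_or_pos J with h | h
    · rw [h] at hJ
      have : 0 ≤ τ / b' := by positivity
      simp at hJ
      linarith
    · exact h
  have hJr : (0 : ℝ) < J := by exact_mod_cast hJ0
  obtain ⟨j, hj, h⟩ := h J hJ0
  have h1 := hlow _ (sc_nonneg hx.le J j) (sc_le hx.le hJ0 hj)
  rw [sc_succ x hJ0] at h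
  set t := sc x J j with ht
  have ht0 : 0 ≤ t := sc_nonneg hx.le J j
  have htx : t ≤ x := sc_le hx.le hJ0 hj
  have h2 : (τ - f) * (x - t) + g * t ≤ τ * (x / J) := by nlinarith
  have h3 : b' * x ≤ (τ - f) * (x - t) + g * t := by
    have e1 : b' ≤ τ - f := min_le_left _ _
    have e2 : b' ≤ g := min_le_right _ _
    nlinarith
  have h4 : b' * x ≤ τ * (x / J) := h3.trans h2
  have h5 : τ < b' * J := by rwa [div_lt_iff₀ hb0, mul_comm] at hJ
  have h6 : τ * (x / J) < b' * x := by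
    rw [mul_div_assoc', div_lt_iff₀ hJr]
    nlinarith
  linarith


/-! ### absolute coordinates are an instance -/



end Crest.Agent.R136.Gf356
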