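import Crest.Agent.R136.Dg5_219
import Crest.Agent.R136.Dg6_219
import Crest.Agent.R136.Dg8_219

-- ▼ part R136/Rc1_146
section

/-!
# R136: record blow-up, consumer half (helper146), part 1: splitting with room for some groups only

* `GeoH`      : window cone `LH` (open part `D`) in the wall cone `L`, room for the groups in `S`
* `LocCross`  : vanishing of small mixed differences; `sep_loc` : block separation
* `inc_eqH`, `reprH` : increments in directions supported on the groups of `S`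
* `phi_monoH`, `phi_supH` : monotonicity, supermodularity of the group functions, on the whole `L`
-/

set_option autoImplicit false
set_option linter.unusedSectionVars false
set_option linter.unusedVariables false

open Set Filter Topology Metric

namespace Crest.Agent.R136.Rc146

open Dg219 (e Cross Sep step_any sep_box grid sep_closed pr pr_add pr_smul pr_in pr_off Cone phi rm
  gset mem_gset sum_pr sum_all phi_congr phi_zero rm_congr mem_ball_pi sum_pr_sub)

variable {ι κ : Type*} [Fintype ι] [DecidableEq ι] [DecidableEq κ]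

/-! ### local vanishing of mixed differences -/



/-! ### geometry -/

/-- `LH` window cone with open part `D` in the wall cone `L`, room `ρ k` for the groups in `S` -/
structure GeoH (grp : ι → κ) (S : Finset κ) (D LH L : Set (ι → ℝ)) (ρ : κ → ι → ℝ)
    (ρs : ι → ℝ) : Prop where
  coneL : Cone L
  cone : Cone LH
  subL : LH ⊆ L
  off : ∀ k ∈ S, ∀ i, grp i = k → ρ k i = 0
  mem : ∀ k ∈ S, ρ k ∈ LH
  ex : ∀ k ∈ S, ∀ c ∈ L, ∃ R : ℝ, 0 ≤ R ∧ pr grp k c + R • ρ k ∈ LH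
  opn : IsOpen D
  conv : Convex ℝ D
  sub : D ⊆ LH
  inn : ∀ c ∈ LH, ∀ ε : ℝ, 0 < ε → c + ε • ρs ∈ D

section

variable {grp : ι → κ} {S : Finset κ} {D LH L : Set (ι → ℝ)} {g : (ι → ℝ) → ℝ} {ρ : κ → ι → ℝ}
  {ρs : ι → ℝ}

theorem GeoH.rs (hG : GeoH grp S D LH L ρ ρs) : ρs ∈ LH := by
  apply hG.sub
  have := hG.inn 0 hG.cone.zero 1 one_pos
  simpa using this

theorem GeoH.mono (hG : GeoH grp S D LH L ρ ρs) {k : κ} (hk : k ∈ S) {y : ι → ℝ} {R R' : ℝ}
    (h : y + R • ρ k ∈ LH) (hR : R ≤ R') : y + R' • ρ k ∈ LH := by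
  have : y + R' • ρ k = y + R • ρ k + (R' - R) • ρ k := by
    rw [add_assoc, ← add_smul]; congr 2; ring
  rw [this]
  exact hG.cone.add _ h _ (hG.cone.smul _ (hG.mem k hk) _ (by linarith))

/-- the cylinder of the group `k` : vectors whose part in the group has room -/
def Cy (grp : ι → κ) (LH : Set (ι → ℝ)) (ρ : κ → ι → ℝ) (k : κ) : Set (ι → ℝ) :=
  {c | ∃ R : ℝ, 0 ≤ R ∧ pr grp k c + R • ρ k ∈ LH}

theorem GeoH.cy (hG : GeoH grp S D LH L ρ ρs) {k : κ} (hk : k ∈ S) {c : ι → ℝ} (hc : c ∈ L) :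
    c ∈ Cy grp LH ρ k := hG.ex k hk c hc

theorem cy_congr {k : κ} {c c' : ι → ℝ} (h : pr grp k c = pr grp k c') :
    c ∈ Cy grp LH ρ k ↔ c' ∈ Cy grp LH ρ k := by
  unfold Cy
  simp only [mem_ofPred_eq, h]

theorem cy_add (hG : GeoH grp S D LH L ρ ρs) {k : κ} {c d : ι → ℝ}
    (hc : c ∈ Cy grp LH ρ k) (hd : d ∈ Cy grp LH ρ k) : c + d ∈ Cy grp LH ρ k := by
  obtain ⟨R1, h10, h1⟩ := hc
  obtain ⟨R2, h20, h2⟩ := hd
  refine ⟨R1 + R2, by linarith, ?_⟩
  have e : pr grp k (c + d) + (R1 + R2) • ρ k =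
      (pr grp k c + R1 • ρ k) + (pr grp k d + R2 • ρ k) := by
    rw [pr_add, add_smul]; abel
  rw [e]; exact hG.cone.add _ h1 _ h2

theorem cy_smul (hG : GeoH grp S D LH L ρ ρs) {k : κ} {c : ι → ℝ}
    (hc : c ∈ Cy grp LH ρ k) {t : ℝ} (ht : 0 ≤ t) : t • c ∈ Cy grp LH ρ k := by
  obtain ⟨R1, h10, h1⟩ := hc
  refine ⟨t * R1, mul_nonneg ht h10, ?_⟩
  have e : pr grp k (t • c) + (t * R1) • ρ k = t • (pr grp k c + R1 • ρ k) := by
    rw [pr_smul, smul_add, mul_smul]
  rw [e]; exact hG.cone.smul _ h1 _ ht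

theorem rm_specH {k : κ} {c : ι → ℝ} (hc : c ∈ Cy grp LH ρ k) :
    0 ≤ rm grp LH ρ k c ∧ pr grp k c + rm grp LH ρ k c • ρ k ∈ LH := by
  have h : ∃ R : ℝ, 0 ≤ R ∧ pr grp k c + R • ρ k ∈ LH := hc
  rw [rm, dif_pos h]
  exact Classical.choose_spec h

theorem phi_eqH' (hG : GeoH grp S D LH L ρ ρs) (hg : Sep grp LH g) {k : κ} (hk : k ∈ S)
    {c : ι → ℝ} {R R' : ℝ} (hR : 0 ≤ R) (hR' : 0 ≤ R') (h1 : pr grp k c + R • ρ k ∈ LH)
    (h2 : pr grp k c + R' • ρ k ∈ LH) :
    g (pr grp k c + R • ρ k) - g (R • ρ k) = g (pr grp k c + R' • ρ k) - g (R' • ρ k) := by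
  have m1 : R • ρ k ∈ LH := hG.cone.smul _ (hG.mem k hk) _ hR
  have m2 : R' • ρ k ∈ LH := hG.cone.smul _ (hG.mem k hk) _ hR'
  have q1 : R • ρ k + (R' - R) • ρ k = R' • ρ k := by rw [← add_smul]; congr 1; ring
  have q2 : R • ρ k + pr grp k c = pr grp k c + R • ρ k := add_comm _ _
  have q3 : R • ρ k + pr grp k c + (R' - R) • ρ k = pr grp k c + R' • ρ k := by
    rw [q2, add_assoc, q1]
  have := hg k (R • ρ k) (pr grp k c) ((R' - R) • ρ k) (fun l hl => pr_off k c hl)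
    (fun l hl => by rw [Pi.smul_apply, hG.off k hk l hl, smul_zero]) m1 (by rw [q2]; exact h1)
    (by rw [q1]; exact m2) (by rw [q3]; exact h2)
  rw [q3, q2, q1] at this
  linarith

/-- the group function does not depend on the room -/
theorem phi_eqH (hG : GeoH grp S D LH L ρ ρs) (hg : Sep grp LH g) {k : κ} (hk : k ∈ S)
    {c : ι → ℝ} {R : ℝ} (hR : 0 ≤ R) (h1 : pr grp k c + R • ρ k ∈ LH) :
    phi grp LH g ρ k c = g (pr grp k c + R • ρ k) - g (R • ρ k) :=
  phi_eqH' hG hg hk (rm_specH ⟨R, hR, h1⟩).1 hR (rm_specH ⟨R, hR, h1⟩).2 h1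

theorem prd_eq {k : κ} {d : ι → ℝ} (hd : ∀ l, grp l ≠ k → d l = 0) : pr grp k d = d := by
  funext i
  by_cases hi : grp i = k
  · exact pr_in k d hi
  · rw [pr_off k d hi, hd i hi]

/-- increments in a group direction are increments of the group function -/
theorem inc_eqH (hG : GeoH grp S D LH L ρ ρs) (hg : Sep grp LH g) {k : κ} (hk : k ∈ S)
    {c d : ι → ℝ} (hd : ∀ l, grp l ≠ k → d l = 0) (hc : c ∈ LH) (hcd : c + d ∈ LH) :
    g (c + d) - g c = phi grp LH g ρ k (c + d) - phi grp LH g ρ k c := by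
  obtain ⟨R1, h10, h1⟩ := hG.ex k hk c (hG.subL hc)
  obtain ⟨R2, h20, h2⟩ := hG.ex k hk _ (hG.subL hcd)
  set R := R1 + R2 with hR
  have hR0 : 0 ≤ R := by linarith
  have m1 : pr grp k c + R • ρ k ∈ LH := hG.mono hk h1 (by linarith)
  have m2 : pr grp k (c + d) + R • ρ k ∈ LH := hG.mono hk h2 (by linarith)
  rw [phi_eqH hG hg hk hR0 m2, phi_eqH hG hg hk hR0 m1]
  have prd : pr grp k d = d := prd_eq hd
  set e' : ι → ℝ := pr grp k c + R • ρ k - c with he'
  have q1 : c + e' = pr grp k c + R • ρ k := by rw [he']; abel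
  have q2 : c + d + e' = pr grp k (c + d) + R • ρ k := by
    rw [he', pr_add, prd]; abel
  have := hg k c d e' hd (fun l hl => by
    rw [he', Pi.sub_apply, Pi.add_apply, pr_in k c hl, Pi.smul_apply, hG.off k hk l hl]; simp)
    hc hcd (by rw [q1]; exact m1) (by rw [q2]; exact m2)
  rw [q1, q2] at this
  linarith

/-- small step: the increment is the sum of the increments of the groups -/
theorem step_sumH (hG : GeoH grp S D LH L ρ ρs) (hg : Sep grp LH g) {c0 : ι → ℝ} {r : ℝ}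
    (hr : 0 ≤ r) (hD : closedBall c0 r ⊆ LH) {d : ι → ℝ} (hd : ‖d‖ ≤ r) (T : Finset κ)
    (hT : T ⊆ S) :
    g (c0 + ∑ k ∈ T, pr grp k d) - g c0 =
      ∑ k ∈ T, (phi grp LH g ρ k (c0 + d) - phi grp LH g ρ k c0) := by
  have mem : ∀ S : Finset κ, c0 + ∑ k ∈ S, pr grp k d ∈ LH := by
    intro S
    apply hD
    rw [mem_ball_pi hr]
    intro i
    rw [Pi.add_apply, sum_pr, add_sub_cancel_left]
    by_cases h : grp i ∈ S
    · rw [if_pos h]
      exact (by rw [← Real.norm_eq_abs]; exact norm_le_pi_norm d i : |d i| ≤ ‖d‖).trans hd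
    · rw [if_neg h, abs_zero]; exact hr
  have m0 : c0 ∈ LH := hD (mem_closedBall_self hr)
  have m1 : c0 + d ∈ LH := by
    apply hD
    rw [mem_closedBall, dist_eq_norm, add_sub_cancel_left]; exact hd
  induction T using Finset.induction_on with
  | empty => simp
  | insert a T ha ih =>
    rw [Finset.sum_insert ha, Finset.sum_insert ha]
    have haS : a ∈ S := hT (Finset.mem_insert_self _ _)
    have ih := ih ((Finset.subset_insert _ _).trans hT)
    have h1 := inc_eqH hG hg haS (c := c0 + ∑ k ∈ T, pr grp k d) (d := pr grp a d)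
      (fun l hl => pr_off a d hl) (mem T) (by
        have := mem (insert a T)
        rw [Finset.sum_insert ha] at this
        rw [add_assoc, add_comm (∑ k ∈ T, pr grp k d)]; exact this)
    have e1 : c0 + (pr grp a d + ∑ k ∈ T, pr grp k d) = c0 + ∑ k ∈ T, pr grp k d + pr grp a d := by
      abel
    have c1 : phi grp LH g ρ a (c0 + ∑ k ∈ T, pr grp k d + pr grp a d) =
        phi grp LH g ρ a (c0 + d) := by
      apply phi_congr
      funext i
      by_cases hi : grp i = a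
      · rw [pr_in a _ hi, pr_in a _ hi, Pi.add_apply, Pi.add_apply, Pi.add_apply, sum_pr,
          if_neg (by rw [hi]; exact ha), pr_in a d hi, add_zero]
      · rw [pr_off a _ hi, pr_off a _ hi]
    have c2 : phi grp LH g ρ a (c0 + ∑ k ∈ T, pr grp k d) = phi grp LH g ρ a c0 := by
      apply phi_congr
      funext i
      by_cases hi : grp i = a
      · rw [pr_in a _ hi, pr_in a _ hi, Pi.add_apply, sum_pr, if_neg (by rw [hi]; exact ha),
          add_zero]
      · rw [pr_off a _ hi, pr_off a _ hi]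
    rw [c1, c2] at h1
    rw [e1]
    linarith

theorem sum_supp {T : Finset κ} {d : ι → ℝ} (hd : ∀ i, grp i ∉ T → d i = 0) :
    ∑ k ∈ T, pr grp k d = d := by
  funext i
  rw [sum_pr]
  by_cases h : grp i ∈ T
  · rw [if_pos h]
  · rw [if_neg h, hd i h]

/-- **representation on the open part**, directions supported on the groups of `S` -/
theorem repr_openH (hG : GeoH grp S D LH L ρ ρs) (hg : Sep grp LH g) {c d : ι → ℝ}
    (hd : ∀ i, grp i ∉ S → d i = 0) (hseg : ∀ t ∈ Icc (0:ℝ) 1, c + t • d ∈ D) :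
    g (c + d) - g c = ∑ k ∈ S, (phi grp LH g ρ k (c + d) - phi grp LH g ρ k c) := by
  set P : ℝ → (ι → ℝ) := fun t => c + t • d with hP
  have cP : Continuous P := by rw [hP]; fun_prop
  have hK : IsCompact (P '' Icc (0:ℝ) 1) := isCompact_Icc.image cP
  obtain ⟨r, hr, hrD⟩ := hK.exists_cthickening_subset_open hG.opn (by
    rintro _ ⟨x, hx, rfl⟩; exact hseg x hx)
  obtain ⟨N, hN⟩ := exists_nat_gt (‖d‖ / r)
  have hN0 : (0:ℝ) < N := lt_of_le_of_lt (by positivity) hN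
  have hsmall : ‖d‖ ≤ r * N := by
    rw [div_lt_iff₀ hr] at hN; linarith
  have hcell : ∀ a < N, g (P (((a + 1 : ℕ):ℝ) / N)) - g (P ((a:ℝ) / N)) =
      ∑ k ∈ S, (phi grp LH g ρ k (P (((a + 1 : ℕ):ℝ) / N)) -
        phi grp LH g ρ k (P ((a:ℝ) / N))) := by
    intro a ha
    have haN : (a:ℝ) / N ∈ Icc (0:ℝ) 1 := by
      constructor
      · positivity
      · rw [div_le_one hN0]; exact_mod_cast ha.le
    have hball : closedBall (P ((a:ℝ) / N)) r ⊆ LH :=
      ((closedBall_subset_cthickening (mem_image_of_mem P haN) r).trans hrD).trans hG.sub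
    have nd : ‖(1 / (N:ℝ)) • d‖ ≤ r := by
      rw [norm_smul, Real.norm_eq_abs, abs_of_pos (by positivity), one_div, inv_mul_le_iff₀ hN0]
      linarith
    have key := step_sumH hG hg hr.le hball nd S subset_rfl
    rw [sum_supp (d := (1 / (N:ℝ)) • d) (fun i hi => by rw [Pi.smul_apply, hd i hi, smul_zero])]
      at key
    have q1 : P (((a + 1 : ℕ):ℝ) / N) = P ((a:ℝ) / N) + (1 / (N:ℝ)) • d := by
      rw [hP]; funext l
      simp only [Pi.add_apply, Pi.smul_apply, smul_eq_mul]; push_cast; ring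
    rw [q1]
    exact key
  have hall : ∀ a ≤ N, g (P ((a:ℝ) / N)) - g (P 0) =
      ∑ k ∈ S, (phi grp LH g ρ k (P ((a:ℝ) / N)) - phi grp LH g ρ k (P 0)) := by
    intro a
    induction a with
    | zero => intro _; simp
    | succ a ih =>
      intro ha
      have h1 := ih (by omega)
      have h2 := hcell a (by omega)
      have h3 : ∑ k ∈ S, (phi grp LH g ρ k (P (((a + 1 : ℕ):ℝ) / N)) - phi grp LH g ρ k (P 0)) =
          ∑ k ∈ S, (phi grp LH g ρ k (P (((a + 1 : ℕ):ℝ) / N)) -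
            phi grp LH g ρ k (P ((a:ℝ) / N))) +
          ∑ k ∈ S, (phi grp LH g ρ k (P ((a:ℝ) / N)) - phi grp LH g ρ k (P 0)) := by
        rw [← Finset.sum_add_distrib]
        exact Finset.sum_congr rfl fun k _ => by ring
      rw [h3, ← h1, ← h2]; ring
  have := hall N le_rfl
  rw [div_self hN0.ne'] at this
  simpa [hP] using this

theorem phi_limH (hG : GeoH grp S D LH L ρ ρs) (hg : Sep grp LH g) (gc : Continuous g) {k : κ}
    (hk : k ∈ S) {c : ι → ℝ} (hc : c ∈ L) :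
    Tendsto (fun ε : ℝ => phi grp LH g ρ k (c + ε • ρs)) (𝓝[>] 0) (𝓝 (phi grp LH g ρ k c)) := by
  obtain ⟨R1, h10, h1⟩ := hG.ex k hk c hc
  obtain ⟨R2, h20, h2⟩ := hG.ex k hk ρs (hG.subL hG.rs)
  set R := R1 + R2 with hR
  have hR0 : 0 ≤ R := by linarith
  have m1 : pr grp k c + R • ρ k ∈ LH := hG.mono hk h1 (by linarith)
  have m2 : ∀ ε : ℝ, 0 < ε → ε ≤ 1 → pr grp k (c + ε • ρs) + R • ρ k ∈ LH := by
    intro ε h0 h1'
    have h3 : pr grp k (c + ε • ρs) + (R1 + ε * R2) • ρ k ∈ LH := by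
      have e : pr grp k (c + ε • ρs) + (R1 + ε * R2) • ρ k =
          (pr grp k c + R1 • ρ k) + ε • (pr grp k ρs + R2 • ρ k) := by
        rw [pr_add, pr_smul, add_smul, mul_smul, smul_add]; abel
      rw [e]; exact hG.cone.add _ h1 _ (hG.cone.smul _ h2 _ h0.le)
    exact hG.mono hk h3 (by nlinarith)
  rw [phi_eqH hG hg hk hR0 m1]
  have h6 : Tendsto (fun ε : ℝ => g ((pr grp k c + ε • pr grp k ρs) + R • ρ k) - g (R • ρ k))
      (𝓝[>] 0) (𝓝 (g (pr grp k c + R • ρ k) - g (R • ρ k))) := by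
    have h5 : Continuous fun ε : ℝ =>
        g ((pr grp k c + ε • pr grp k ρs) + R • ρ k) - g (R • ρ k) :=
      (gc.comp (by fun_prop)).sub continuous_const
    have := h5.tendsto 0
    simp only [zero_smul, add_zero] at this
    exact this.mono_left nhdsWithin_le_nhds
  refine h6.congr' ?_
  filter_upwards [Ioo_mem_nhdsGT one_pos] with ε hε
  rw [phi_eqH hG hg hk hR0 (m2 ε hε.1 hε.2.le), pr_add, pr_smul]

/-- **representation** : increments between two points of `LH` with the same coordinates in the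
groups outside `S` -/
theorem reprH (hG : GeoH grp S D LH L ρ ρs) (hg : Sep grp LH g) (gc : Continuous g)
    {c c' : ι → ℝ} (hc : c ∈ LH) (hc' : c' ∈ LH) (hcc : ∀ i, grp i ∉ S → c' i = c i) :
    g c' - g c = ∑ k ∈ S, (phi grp LH g ρ k c' - phi grp LH g ρ k c) := by
  have key : ∀ ε : ℝ, 0 < ε → g (c' + ε • ρs) - g (c + ε • ρs) = ∑ k ∈ S,
      (phi grp LH g ρ k (c' + ε • ρs) - phi grp LH g ρ k (c + ε • ρs)) := by
    intro ε hε
    have h1 := repr_openH hG hg (c := c + ε • ρs) (d := c' - c) (by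
      intro i hi; rw [Pi.sub_apply, hcc i hi, sub_self]) (by
      intro t ht
      have a1 := hG.inn c hc ε hε
      have a2 := hG.inn c' hc' ε hε
      have a3 := hG.conv a1 a2 (a := 1 - t) (b := t) (by linarith [ht.2]) ht.1 (by ring)
      convert a3 using 1
      funext l
      simp only [Pi.add_apply, Pi.smul_apply, Pi.sub_apply, smul_eq_mul]
      ring)
    have e1 : c + ε • ρs + (c' - c) = c' + ε • ρs := by abel
    rw [e1] at h1
    exact h1
  have lim : ∀ x : ι → ℝ, Tendsto (fun ε : ℝ => g (x + ε • ρs)) (𝓝[>] 0) (𝓝 (g x)) := by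
    intro x
    have : Continuous fun ε : ℝ => g (x + ε • ρs) := gc.comp (by fun_prop)
    have h5 := this.tendsto 0
    rw [zero_smul, add_zero] at h5
    exact h5.mono_left nhdsWithin_le_nhds
  have l1 := (lim c').sub (lim c)
  have l2 : Tendsto (fun ε : ℝ => ∑ k ∈ S, (phi grp LH g ρ k (c' + ε • ρs) -
      phi grp LH g ρ k (c + ε • ρs))) (𝓝[>] 0)
      (𝓝 (∑ k ∈ S, (phi grp LH g ρ k c' - phi grp LH g ρ k c))) :=
    tendsto_finsetSum _ fun k hk =>
      (phi_limH hG hg gc hk (hG.subL hc')).sub (phi_limH hG hg gc hk (hG.subL hc))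
  exact tendsto_nhds_unique (l1.congr' (by
    filter_upwards [self_mem_nhdsWithin] with ε hε
    exact key ε hε)) l2

/-- monotonicity and Lipschitz bound of the group functions, on the whole cylinder -/
theorem phi_monoH (hG : GeoH grp S D LH L ρ ρs) (hg : Sep grp LH g)
    (hm : ∀ c ∈ LH, ∀ c' ∈ LH, c ≤ c' → 0 ≤ g c - g c' ∧ g c - g c' ≤ ∑ i, (c' i - c i))
    {k : κ} (hk : k ∈ S) {c c' : ι → ℝ} (hc : c ∈ Cy grp LH ρ k) (hc' : c' ∈ Cy grp LH ρ k)
    (hcc : ∀ i, grp i = k → c i ≤ c' i) :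
    0 ≤ phi grp LH g ρ k c - phi grp LH g ρ k c' ∧
      phi grp LH g ρ k c - phi grp LH g ρ k c' ≤
      ∑ i ∈ Finset.univ.filter (fun i => grp i = k), (c' i - c i) := by
  obtain ⟨R1, h10, h1⟩ := hc
  obtain ⟨R2, h20, h2⟩ := hc'
  set R := R1 + R2 with hR
  have hR0 : 0 ≤ R := by linarith
  have m1 : pr grp k c + R • ρ k ∈ LH := hG.mono hk h1 (by linarith)
  have m2 : pr grp k c' + R • ρ k ∈ LH := hG.mono hk h2 (by linarith)
  rw [phi_eqH hG hg hk hR0 m1, phi_eqH hG hg hk hR0 m2]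
  have h3 := hm _ m1 _ m2 (by
    intro i
    rw [Pi.add_apply, Pi.add_apply]
    by_cases hi : grp i = k
    · rw [pr_in k c hi, pr_in k c' hi]; linarith [hcc i hi]
    · rw [pr_off k c hi, pr_off k c' hi])
  rw [sum_pr_sub] at h3
  constructor
  · linarith [h3.1]
  · linarith [h3.2]

theorem inf_prH (k : κ) (p q : ι → ℝ) (x : ι → ℝ) :
    (pr grp k p + x) ⊓ (pr grp k q + x) = pr grp k (p ⊓ q) + x := by
  funext i
  simp only [Pi.inf_apply, Pi.add_apply]
  by_cases hi : grp i = k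
  · rw [pr_in k _ hi, pr_in k _ hi, pr_in k _ hi, Pi.inf_apply]
    exact (inf_add _ _ _).symm
  · rw [pr_off k _ hi, pr_off k _ hi, pr_off k _ hi, inf_idem]

theorem sup_prH (k : κ) (p q : ι → ℝ) (x : ι → ℝ) :
    (pr grp k p + x) ⊔ (pr grp k q + x) = pr grp k (p ⊔ q) + x := by
  funext i
  simp only [Pi.sup_apply, Pi.add_apply]
  by_cases hi : grp i = k
  · rw [pr_in k _ hi, pr_in k _ hi, pr_in k _ hi, Pi.sup_apply]
    exact (sup_add _ _ _).symm
  · rw [pr_off k _ hi, pr_off k _ hi, pr_off k _ hi, sup_idem]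

/-- supermodularity of the group functions, on the whole wall cone -/
theorem phi_supH (hG : GeoH grp S D LH L ρ ρs) (hg : Sep grp LH g)
    (hs : ∀ p ∈ LH, ∀ q ∈ LH, p ⊓ q ∈ LH → p ⊔ q ∈ LH → g p + g q ≤ g (p ⊔ q) + g (p ⊓ q))
    {k : κ} (hk : k ∈ S) {p q : ι → ℝ} (hp : p ∈ Cy grp LH ρ k) (hq : q ∈ Cy grp LH ρ k)
    (h1 : p ⊓ q ∈ Cy grp LH ρ k) (h2 : p ⊔ q ∈ Cy grp LH ρ k) :
    phi grp LH g ρ k p + phi grp LH g ρ k q ≤
      phi grp LH g ρ k (p ⊔ q) + phi grp LH g ρ k (p ⊓ q) := by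
  obtain ⟨R1, r1, s1⟩ := hp
  obtain ⟨R2, r2, s2⟩ := hq
  obtain ⟨R3, r3, s3⟩ := h1
  obtain ⟨R4, r4, s4⟩ := h2
  set R := R1 + R2 + R3 + R4 with hR
  have hR0 : 0 ≤ R := by linarith
  have m1 : pr grp k p + R • ρ k ∈ LH := hG.mono hk s1 (by linarith)
  have m2 : pr grp k q + R • ρ k ∈ LH := hG.mono hk s2 (by linarith)
  have m3 : pr grp k (p ⊓ q) + R • ρ k ∈ LH := hG.mono hk s3 (by linarith)
  have m4 : pr grp k (p ⊔ q) + R • ρ k ∈ LH := hG.mono hk s4 (by linarith)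
  rw [phi_eqH hG hg hk hR0 m1, phi_eqH hG hg hk hR0 m2,
    phi_eqH hG hg hk hR0 m3, phi_eqH hG hg hk hR0 m4]
  have h3 := hs _ m1 _ m2 (by rw [inf_prH]; exact m3) (by rw [sup_prH]; exact m4)
  rw [inf_prH, sup_prH] at h3
  linarith

/-- Lipschitz bound of the group functions, on the whole cylinder -/
theorem phi_lipH (hG : GeoH grp S D LH L ρ ρs) (hg : Sep grp LH g) {K : ℝ}
    (hlip : ∀ p ∈ LH, ∀ q ∈ LH, |g p - g q| ≤ K * dist p q)
    {k : κ} (hk : k ∈ S) {c c' : ι → ℝ} (hc : c ∈ Cy grp LH ρ k) (hc' : c' ∈ Cy grp LH ρ k) :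
    |phi grp LH g ρ k c - phi grp LH g ρ k c'| ≤ K * dist (pr grp k c) (pr grp k c') := by
  obtain ⟨R1, h10, h1⟩ := hc
  obtain ⟨R2, h20, h2⟩ := hc'
  set R := R1 + R2 with hR
  have hR0 : 0 ≤ R := by linarith
  have m1 : pr grp k c + R • ρ k ∈ LH := hG.mono hk h1 (by linarith)
  have m2 : pr grp k c' + R • ρ k ∈ LH := hG.mono hk h2 (by linarith)
  rw [phi_eqH hG hg hk hR0 m1, phi_eqH hG hg hk hR0 m2, sub_sub_sub_cancel_right]
  refine (hlip _ m1 _ m2).trans (le_of_eq ?_)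
  rw [dist_add_right]

end

end Crest.Agent.R136.Rc146
end

-- ▼ part R136/Rc2_146
section

/-!
# R136: record blow-up, consumer half (helper146), part 2: the window cone of a half plane

Half plane `lf l w ≤ 0` of the natural plane with directions `a, b`; window cone
`LH = {Tn w + c | lf l w ≤ 0, c ∈ L, ‖c‖ ≤ c0 (-lf l w)}`.
`geoH` : `GeoH` for the groups whose slope is not parallel to `l`.
`LH_sub` : `LH` lies in the cone of the walls active along the record line if `c0` is small.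
-/

set_option autoImplicit false
set_option linter.unusedSectionVars false
set_option linter.unusedVariables false

open Set Filter Topology Metric

namespace Crest.Agent.R136.Rc146

open Dg262 (X X_cont)
open Dg219

variable {ι κ W : Type*} [Fintype ι] [DecidableEq ι] [DecidableEq κ] [Fintype W]

/-- the closed window cone -/
def LH (L : Set (ι → ℝ)) (a b : ι → ℝ) (l : ℝ × ℝ) (c0 : ℝ) : Set (ι → ℝ) :=
  {p | ∃ (w : ℝ × ℝ) (c : ι → ℝ), lf l w ≤ 0 ∧ c ∈ L ∧ ‖c‖ ≤ c0 * -(lf l w) ∧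
    p = Tn a b w + c}

/-- the open window cone -/
def DH (D : Set (ι → ℝ)) (a b : ι → ℝ) (l : ℝ × ℝ) (c0 : ℝ) : Set (ι → ℝ) :=
  {p | ∃ (w : ℝ × ℝ) (c : ι → ℝ), lf l w < 0 ∧ c ∈ D ∧ ‖c‖ < c0 * -(lf l w) ∧
    p = Tn a b w + c}

/-- directions of the groups, with sign (zero allowed) -/
structure SDir (grp : ι → κ) (a b : ι → ℝ) (n : κ → ℝ × ℝ) (dh : ι → ℝ) : Prop where
  fst : ∀ i, a i = dh i * (n (grp i)).1
  snd : ∀ i, b i = dh i * (n (grp i)).2
  ne : ∀ i, n (grp i) ≠ 0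
  det : ∀ i j, grp i ≠ grp j → det2 (n (grp i)) (n (grp j)) ≠ 0

theorem Dir.sdir {grp : ι → κ} {a b : ι → ℝ} {n : κ → ℝ × ℝ} {dh : ι → ℝ}
    (h : Dir grp a b n dh) : SDir grp a b n dh := ⟨h.fst, h.snd, h.ne, h.det⟩

theorem SDir.Tn_eq {grp : ι → κ} {a b : ι → ℝ} {n : κ → ℝ × ℝ} {dh : ι → ℝ}
    (h : SDir grp a b n dh) (z : ℝ × ℝ) (i : ι) : Tn a b z i = lf (n (grp i)) z * dh i := by
  simp only [Tn, lf]; rw [h.fst i, h.snd i]; ring

/-- groups not parallel to the record line -/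
noncomputable def SH (grp : ι → κ) (n : κ → ℝ × ℝ) (l : ℝ × ℝ) : Finset κ := by
  classical exact (gset grp).filter (fun k => det2 (n k) l ≠ 0)

theorem mem_SH {grp : ι → κ} {n : κ → ℝ × ℝ} {l : ℝ × ℝ} {k : κ} :
    k ∈ SH grp n l ↔ k ∈ gset grp ∧ det2 (n k) l ≠ 0 := by
  unfold SH; rw [Finset.mem_filter]

/-- direction fixing the group `k`, one unit into the half plane -/
noncomputable def vd (n : κ → ℝ × ℝ) (l : ℝ × ℝ) (k : κ) : ℝ × ℝ :=
  ((n k).2 / det2 (n k) l, -((n k).1 / det2 (n k) l))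

theorem lf_vd_n (n : κ → ℝ × ℝ) (l : ℝ × ℝ) (k : κ) : lf (n k) (vd n l k) = 0 := by
  simp only [lf, vd]; ring

theorem lf_vd_l {n : κ → ℝ × ℝ} {l : ℝ × ℝ} {k : κ} (h : det2 (n k) l ≠ 0) :
    lf l (vd n l k) = -1 := by
  have h1 : lf l (vd n l k) = -(det2 (n k) l / det2 (n k) l) := by
    simp only [lf, vd]
    have : det2 (n k) l = (n k).1 * l.2 - (n k).2 * l.1 := rfl
    rw [show det2 (n k) l / det2 (n k) l =
      ((n k).1 * l.2 - (n k).2 * l.1) / det2 (n k) l from by rw [← this]]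
    ring
  rw [h1, div_self h]

/-- room for the group `k` -/
noncomputable def rmH (ρ : κ → ι → ℝ) (a b : ι → ℝ) (n : κ → ℝ × ℝ) (l : ℝ × ℝ)
    (c0 : ℝ) (k : κ) : ι → ℝ :=
  Tn a b (vd n l k) + (c0 / (2 * (1 + ‖ρ k‖))) • ρ k

/-- interior direction -/
noncomputable def rsH (ρs : ι → ℝ) (a b : ι → ℝ) (l : ℝ × ℝ) (c0 : ℝ) : ι → ℝ :=
  Tn a b (zz l (-1)) + (c0 / (2 * (1 + ‖ρs‖))) • ρs

theorem Tn_add (a b : ι → ℝ) (z z' : ℝ × ℝ) : Tn a b (z + z') = Tn a b z + Tn a b z' := by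
  funext i; simp only [Tn, Pi.add_apply, Prod.fst_add, Prod.snd_add]; ring

theorem Tn_smul (a b : ι → ℝ) (t : ℝ) (z : ℝ × ℝ) : Tn a b (t • z) = t • Tn a b z := by
  funext i; simp only [Tn, Pi.smul_apply, smul_eq_mul, Prod.smul_fst, Prod.smul_snd]; ring

theorem Tn_zero (a b : ι → ℝ) : Tn a b (0 : ℝ × ℝ) = 0 := by
  funext i; simp [Tn]

theorem lf_add (l z z' : ℝ × ℝ) : lf l (z + z') = lf l z + lf l z' := by
  simp only [lf, Prod.fst_add, Prod.snd_add]; ring

theorem lf_smul (l : ℝ × ℝ) (t : ℝ) (z : ℝ × ℝ) : lf l (t • z) = t * lf l z := by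
  simp only [lf, Prod.smul_fst, Prod.smul_snd, smul_eq_mul]; ring

theorem lf_zero (l : ℝ × ℝ) : lf l (0 : ℝ × ℝ) = 0 := by simp [lf]

theorem half_lt {c0 x : ℝ} (hc0 : 0 < c0) (hx : 0 ≤ x) : c0 / (2 * (1 + x)) * x ≤ c0 / 2 := by
  rw [div_mul_eq_mul_div, div_le_div_iff₀ (by positivity) (by norm_num)]
  nlinarith

section

variable {L D : Set (ι → ℝ)} {a b : ι → ℝ} {l : ℝ × ℝ} {c0 : ℝ}

theorem LH_cone (hL : Cone L) (hc0 : 0 < c0) : Cone (LH L a b l c0) where
  zero := ⟨0, 0, by rw [lf_zero], hL.zero, by rw [lf_zero]; simp, by rw [Tn_zero]; simp⟩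
  add := by
    rintro _ ⟨w, c, h1, h2, h3, rfl⟩ _ ⟨w', c', h1', h2', h3', rfl⟩
    refine ⟨w + w', c + c', by rw [lf_add]; linarith, hL.add _ h2 _ h2', ?_, ?_⟩
    · rw [lf_add]
      refine (norm_add_le _ _).trans ?_
      linarith
    · rw [Tn_add]; abel
  smul := by
    rintro _ ⟨w, c, h1, h2, h3, rfl⟩ t ht
    refine ⟨t • w, t • c, ?_, hL.smul _ h2 _ ht, ?_, ?_⟩
    · rw [lf_smul]; exact mul_nonpos_of_nonneg_of_nonpos ht h1
    · rw [lf_smul, norm_smul, Real.norm_of_nonneg ht]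
      have := mul_le_mul_of_nonneg_left h3 ht
      linarith
    · rw [Tn_smul, smul_add]

theorem DH_sub (hDL : D ⊆ L) : DH D a b l c0 ⊆ LH L a b l c0 := by
  rintro _ ⟨w, c, h1, h2, h3, rfl⟩
  exact ⟨w, c, h1.le, hDL h2, h3.le, rfl⟩

theorem LH_subL (hL : Cone L) (hnat : ∀ z, Tn a b z ∈ L) : LH L a b l c0 ⊆ L := by
  rintro _ ⟨w, c, h1, h2, h3, rfl⟩
  exact hL.add _ (hnat w) _ h2

theorem Tn_memLH (hL : Cone L) {w : ℝ × ℝ} (hc0 : 0 < c0) (hw : lf l w ≤ 0) :
    Tn a b w ∈ LH L a b l c0 :=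
  ⟨w, 0, hw, hL.zero, by rw [norm_zero]; exact mul_nonneg hc0.le (by linarith), by simp⟩

theorem DH_open (hD : IsOpen D) : IsOpen (DH D a b l c0) := by
  have e : DH D a b l c0 = ⋃ w : ℝ × ℝ, ⋃ (_ : lf l w < 0),
      (fun p : ι → ℝ => p - Tn a b w) ⁻¹' (D ∩ {c | ‖c‖ < c0 * -(lf l w)}) := by
    ext p
    simp only [DH, mem_ofPred_eq, mem_iUnion, mem_preimage, mem_inter_iff, exists_prop]
    constructor
    · rintro ⟨w, c, h1, h2, h3, rfl⟩
      exact ⟨w, h1, by rw [add_sub_cancel_left]; exact ⟨h2, h3⟩⟩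
    · rintro ⟨w, h1, h2, h3⟩
      exact ⟨w, p - Tn a b w, h1, h2, h3, by abel⟩
  rw [e]
  refine isOpen_iUnion fun w => isOpen_iUnion fun _ => ?_
  refine (hD.inter ?_).preimage (by fun_prop)
  exact isOpen_lt continuous_norm continuous_const

theorem DH_convex (hD : Convex ℝ D) : Convex ℝ (DH D a b l c0) := by
  rintro _ ⟨w, c, h1, h2, h3, rfl⟩ _ ⟨w', c', h1', h2', h3', rfl⟩ s t hs ht hst
  refine ⟨s • w + t • w', s • c + t • c', ?_, hD h2 h2' hs ht hst, ?_, ?_⟩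
  · rw [lf_add, lf_smul, lf_smul]
    rcases hs.eq_or_lt with h | h
    · rw [← h] at hst ⊢
      have : t = 1 := by linarith
      rw [this]; linarith
    · nlinarith
  · rw [lf_add, lf_smul, lf_smul]
    refine (norm_add_le _ _).trans_lt ?_
    rw [norm_smul, norm_smul, Real.norm_of_nonneg hs, Real.norm_of_nonneg ht]
    rcases hs.eq_or_lt with h | h
    · rw [← h] at hst ⊢
      have : t = 1 := by linarith
      rw [this]; linarith
    · nlinarith
  · rw [Tn_add, Tn_smul, Tn_smul, smul_add, smul_add]; abel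

theorem DH_inn (hl : l ≠ 0) (hc0 : 0 < c0) {ρs : ι → ℝ}
    (hinn : ∀ c ∈ L, ∀ ε : ℝ, 0 < ε → c + ε • ρs ∈ D) {p : ι → ℝ} (hp : p ∈ LH L a b l c0)
    {ε : ℝ} (hε : 0 < ε) : p + ε • rsH ρs a b l c0 ∈ DH D a b l c0 := by
  obtain ⟨w, c, h1, h2, h3, rfl⟩ := hp
  set δ : ℝ := c0 / (2 * (1 + ‖ρs‖)) with hδ
  have hδ0 : 0 < δ := by positivity
  refine ⟨w + ε • zz l (-1), c + (ε * δ) • ρs, ?_, ?_, ?_, ?_⟩
  · rw [lf_add, lf_smul, lf_zz hl]; nlinarith
  · exact hinn c h2 _ (by positivity)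
  · rw [lf_add, lf_smul, lf_zz hl]
    refine (norm_add_le _ _).trans_lt ?_
    rw [norm_smul, Real.norm_of_nonneg (by positivity : 0 ≤ ε * δ)]
    have h4 := half_lt hc0 (norm_nonneg ρs)
    have h5 : ε * δ * ‖ρs‖ ≤ ε * (c0 / 2) := by
      rw [mul_assoc]; exact mul_le_mul_of_nonneg_left h4 hε.le
    nlinarith
  · unfold rsH
    rw [Tn_add, Tn_smul, smul_add, smul_smul]
    abel

/-- **geometry of the window cone** -/
theorem geoH {grp : ι → κ} {n : κ → ℝ × ℝ} {dh : ι → ℝ} {ρ : κ → ι → ℝ} {ρs : ι → ℝ}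
    (hG : Geo grp D L ρ ρs) (hnat : ∀ z, Tn a b z ∈ L) (hd : SDir grp a b n dh) (hl : l ≠ 0)
    (hc0 : 0 < c0) : GeoH grp (SH grp n l) (DH D a b l c0) (LH L a b l c0) L
      (rmH ρ a b n l c0) (rsH ρs a b l c0) where
  coneL := hG.cone
  cone := LH_cone hG.cone hc0
  subL := LH_subL hG.cone hnat
  off := fun k hk i hi => by
    unfold rmH
    rw [Pi.add_apply, Pi.smul_apply, hd.Tn_eq, hi, lf_vd_n, hG.room.off k i hi]
    simp
  mem := fun k hk => by
    have h0 := (mem_SH.1 hk).2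
    refine ⟨vd n l k, _, by rw [lf_vd_l h0]; norm_num,
      hG.cone.smul _ (hG.room.mem k) _ (by positivity), ?_, rfl⟩
    rw [lf_vd_l h0, norm_smul, Real.norm_of_nonneg (by positivity)]
    have := half_lt hc0 (norm_nonneg (ρ k))
    linarith
  ex := fun k hk c hc => by
    have h0 := (mem_SH.1 hk).2
    obtain ⟨R1, h10, h1⟩ := hG.room.ex k c hc
    set ε : ℝ := c0 / (2 * (1 + ‖ρ k‖)) with hε
    have hε0 : 0 < ε := by positivity
    set R : ℝ := R1 / ε + 2 * ‖pr grp k c‖ / c0 with hR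
    have hR0 : 0 ≤ R := by positivity
    refine ⟨R, hR0, R • vd n l k, pr grp k c + (R * ε) • ρ k, ?_, ?_, ?_, ?_⟩
    · rw [lf_smul, lf_vd_l h0]; linarith
    · refine hG.room.mono hG.cone h1 ?_
      have : R * ε = R1 + 2 * ‖pr grp k c‖ / c0 * ε := by
        rw [hR, add_mul, div_mul_cancel₀ _ hε0.ne']
      rw [this]
      have : 0 ≤ 2 * ‖pr grp k c‖ / c0 * ε := by positivity
      linarith
    · rw [lf_smul, lf_vd_l h0]
      refine (norm_add_le _ _).trans ?_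
      rw [norm_smul, Real.norm_of_nonneg (by positivity : 0 ≤ R * ε)]
      have h4 := half_lt hc0 (norm_nonneg (ρ k))
      have h5 : R * ε * ‖ρ k‖ ≤ R * (c0 / 2) := by
        rw [mul_assoc]; exact mul_le_mul_of_nonneg_left h4 hR0
      have h6 : 2 * ‖pr grp k c‖ / c0 ≤ R := by
        rw [hR]; have : 0 ≤ R1 / ε := by positivity
        linarith
      rw [div_le_iff₀ hc0] at h6
      linarith
    · unfold rmH
      rw [Tn_smul, smul_add, smul_smul]; abel
  opn := DH_open hG.opn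
  conv := DH_convex hG.conv
  sub := DH_sub hG.sub
  inn := fun c hc ε hε => DH_inn hl hc0 hG.inn hc hε

end

section

variable {Q : Walls ι W} {x0 a b : ι → ℝ} {l : ℝ × ℝ} {c0 : ℝ}

/-- the linear gap of a wall along the plane -/
def gapW (Q : Walls ι W) (a b : ι → ℝ) (w : W) (z : ℝ × ℝ) : ℝ :=
  Q.rhs w (Tn a b z) - Tn a b z (Q.hd w)

theorem gapW_add (w : W) (z z' : ℝ × ℝ) :
    gapW Q a b w (z + z') = gapW Q a b w z + gapW Q a b w z' := by
  unfold gapW; rw [Tn_add, Q.rhs_add, Pi.add_apply]; ring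

theorem gapW_smul (w : W) (t : ℝ) (z : ℝ × ℝ) :
    gapW Q a b w (t • z) = t * gapW Q a b w z := by
  unfold gapW; rw [Tn_smul, Q.rhs_smul, Pi.smul_apply, smul_eq_mul]; ring

/-- a vector in the kernel of a form is a multiple of `r` -/
theorem ker_lf {l r z : ℝ × ℝ} (hl : l ≠ 0) (hr : r ≠ 0) (hlr : lf l r = 0) (hz : lf l z = 0) :
    ∃ s : ℝ, z = s • r := by
  have hl2 : l.1 ^ 2 + l.2 ^ 2 ≠ 0 := by
    intro h
    apply hl
    exact Prod.ext (by simp only [Prod.fst_zero]; nlinarith [sq_nonneg l.1, sq_nonneg l.2])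
      (by simp only [Prod.snd_zero]; nlinarith [sq_nonneg l.1, sq_nonneg l.2])
  -- `r` and `z` are multiples of `(-l.2, l.1)`
  have key : ∀ y : ℝ × ℝ, lf l y = 0 →
      y = ((l.1 * y.2 - l.2 * y.1) / (l.1 ^ 2 + l.2 ^ 2)) • ((-l.2, l.1) : ℝ × ℝ) := by
    intro y hy
    simp only [lf] at hy
    ext
    · simp only [Prod.smul_fst, smul_eq_mul]
      field_simp
      linear_combination l.1 * hy
    · simp only [Prod.smul_snd, smul_eq_mul]
      field_simp
      linear_combination l.2 * hy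
  set A : (ℝ × ℝ) → ℝ := fun y => (l.1 * y.2 - l.2 * y.1) / (l.1 ^ 2 + l.2 ^ 2) with hA
  have h1 := key r hlr
  have h2 := key z hz
  have hr0 : A r ≠ 0 := by
    intro h
    apply hr
    have h1' : r = A r • ((-l.2, l.1) : ℝ × ℝ) := h1
    rw [h1', h, zero_smul]
  have h1' : r = A r • ((-l.2, l.1) : ℝ × ℝ) := h1
  have h2' : z = A z • ((-l.2, l.1) : ℝ × ℝ) := h2
  refine ⟨A z / A r, ?_⟩
  generalize A z = x at h2'
  generalize A r = y at h1' hr0
  rw [h2', h1', smul_smul, div_mul_cancel₀ _ hr0]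

/-- **the window cone lies in the cone of the record line** : for small `c0`, if the walls which are
active along the record line `y0 + ξ ρ0` and not along the surface are strict on the half plane -/
theorem LH_sub {y0 r0 : ι → ℝ} {r : ℝ × ℝ} (hl : l ≠ 0) (hr : r ≠ 0) (hlr : lf l r = 0)
    (hTr : Tn a b r = r0)
    (hleg : ∀ w, Q.Act y0 r0 0 w → ¬ Q.Act x0 a b w → 0 < gapW Q a b w (zz l (-1))) :
    ∃ c1 : ℝ, 0 < c1 ∧ ∀ c0 : ℝ, c0 ≤ c1 → LH (Q.L x0 a b) a b l c0 ⊆ Q.L y0 r0 0 := by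
  classical
  set B : W → ℝ := fun w => 1 + ∑ s, (Q.co w s : ℝ) with hB
  have hB0 : ∀ w, 0 < B w := fun w => by
    have : (0:ℝ) ≤ ∑ s, (Q.co w s : ℝ) := Finset.sum_nonneg fun s _ => Nat.cast_nonneg _
    simp only [hB]; linarith
  have hbd : ∀ w (c : ι → ℝ), -(B w * ‖c‖) ≤ Q.rhs w c - c (Q.hd w) := by
    intro w c
    have h1 : -((∑ s, (Q.co w s : ℝ)) * ‖c‖) ≤ Q.rhs w c := by
      unfold Walls.rhs
      rw [Finset.sum_mul, ← Finset.sum_neg_distrib]
      refine Finset.sum_le_sum fun s _ => ?_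
      rw [← mul_neg]
      refine mul_le_mul_of_nonneg_left ?_ (Nat.cast_nonneg _)
      have := norm_le_pi_norm c s
      rw [Real.norm_eq_abs] at this
      linarith [neg_abs_le (c s)]
    have h2 : c (Q.hd w) ≤ ‖c‖ := by
      have := norm_le_pi_norm c (Q.hd w)
      rw [Real.norm_eq_abs] at this
      linarith [le_abs_self (c (Q.hd w))]
    simp only [hB]
    linarith
  obtain ⟨c1, hc1, hc1w⟩ : ∃ c1 : ℝ, 0 < c1 ∧ ∀ w, Q.Act y0 r0 0 w → ¬ Q.Act x0 a b w →
      c1 * B w ≤ gapW Q a b w (zz l (-1)) := by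
    by_cases hne : Nonempty W
    · set κ' : W → ℝ := fun w => if Q.Act y0 r0 0 w ∧ ¬ Q.Act x0 a b w then
        gapW Q a b w (zz l (-1)) / B w else 1 with hκ
      have hκ0 : ∀ w, 0 < κ' w := by
        intro w
        simp only [hκ]
        split_ifs with h
        · exact div_pos (hleg w h.1 h.2) (hB0 w)
        · exact one_pos
      obtain ⟨w0, -, hw0⟩ := Finset.exists_min_image Finset.univ κ' Finset.univ_nonempty
      refine ⟨κ' w0, hκ0 w0, fun w h1 h2 => ?_⟩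
      have h3 := hw0 w (Finset.mem_univ w)
      simp only [hκ] at h3 ⊢
      rw [if_pos (⟨h1, h2⟩ : Q.Act y0 r0 0 w ∧ ¬ Q.Act x0 a b w)] at h3
      rwa [le_div_iff₀ (hB0 w)] at h3
    · exact ⟨1, one_pos, fun w => (hne ⟨w⟩).elim⟩
  refine ⟨c1, hc1, fun c0 hc0 => ?_⟩
  rintro _ ⟨z, c, h1, h2, h3, rfl⟩ w hw
  by_cases hact : Q.Act x0 a b w
  · exact Walls.cone.add _ (Walls.Tn_mem z) _ h2 w hact
  · have hgr : gapW Q a b w r = 0 := by
      unfold gapW
      rw [hTr, hw.2.1, sub_self]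
    obtain ⟨s, hs⟩ := ker_lf (z := z - (-(lf l z)) • zz l (-1)) hl hr hlr (by
      rw [sub_eq_add_neg, ← neg_smul, lf_add, lf_smul, lf_zz hl]; ring)
    have hz : z = s • r + (-(lf l z)) • zz l (-1) := by rw [← hs]; abel
    have hgz : gapW Q a b w z = -(lf l z) * gapW Q a b w (zz l (-1)) := by
      conv_lhs => rw [hz]
      rw [gapW_add, gapW_smul, gapW_smul, hgr]; ring
    have h4 := hbd w c
    have h5 := hc1w w hw hact
    have h6 : c0 * B w ≤ gapW Q a b w (zz l (-1)) :=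
      (mul_le_mul_of_nonneg_right hc0 (hB0 w).le).trans h5
    have h7 : B w * ‖c‖ ≤ -(lf l z) * gapW Q a b w (zz l (-1)) := by
      have a1 : B w * ‖c‖ ≤ B w * (c0 * -(lf l z)) := mul_le_mul_of_nonneg_left h3 (hB0 w).le
      have a2 : -(lf l z) * (c0 * B w) ≤ -(lf l z) * gapW Q a b w (zz l (-1)) :=
        mul_le_mul_of_nonneg_left h6 (by linarith)
      linarith
    rw [← hgz] at h7
    unfold gapW at h7
    rw [Q.rhs_add, Pi.add_apply]
    linarith

end

end Crest.Agent.R136.Rc146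
end

-- ▼ part R136/Rc3_146

/-!
# R136: record blow-up, consumer half (helper146), part 3: the second blow-up

* `tan_diag` : tangent of a tangent, moving base points
* `phi_tan`  : group functions of the tangent
* `OutH`     : output for one surface (half plane with window cone): splitting, linear rates
* `outH_of`  : `OutH` for the tangents at good points of the record line
* `ae_good`  : almost every point of the record line is good
-/

set_option autoImplicit false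
set_option linter.unusedSectionVars false
set_option linter.unusedVariables false

open Set Filter Topology Metric MeasureTheory

namespace Crest.Agent.R136.Rc146

open Dg219
open Crest.Agent.R138

/-! ### tangents -/

section

variable {V : Type*} [NormedAddCommGroup V] [NormedSpace ℝ V]


theorem tan_congr' {P D : Set V} {ν ν' lam : V → ℝ} {x : ℕ → V} {h : ℕ → ℝ}
    (H : Ex926.IsTan P D ν x h lam) (hx : ∀ l, x l ∈ P) (he : ∀ c ∈ P, ν' c = ν c) :
    Ex926.IsTan P D ν' x h lam := by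
  intro C ε hε
  filter_upwards [H C ε hε] with l hl c hc hcC
  have h1 := hl c hc hcC
  rw [he _ h1.1, he _ (hx l)]; exact h1

theorem tan_mono {P D D' : Set V} {ν lam : V → ℝ} {x : ℕ → V} {h : ℕ → ℝ}
    (H : Ex926.IsTan P D ν x h lam) (hD : D' ⊆ D) : Ex926.IsTan P D' ν x h lam := by
  intro C ε hε
  filter_upwards [H C ε hε] with l hl c hc hcC
  exact hl c (hD hc) hcC

/-- **tangent of a tangent**, moving base points -/
theorem tan_diag {P L : Set V} {ν g lam : V → ℝ} {x : ℕ → V} {y : V} {h k : ℕ → ℝ}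
    (hpos : ∀ l, 0 < h l) (kpos : ∀ l, 0 < k l) (hy : y ∈ L)
    (hL : ∀ c ∈ L, ∀ t : ℝ, 0 ≤ t → y + t • c ∈ L)
    (H1 : Ex926.IsTan P L ν x h g) (H2 : Ex926.IsTan L L g (fun _ => y) k lam) :
    ∃ ψ : ℕ → ℕ, (∀ m, m ≤ ψ m) ∧ Ex926.IsTan P L ν (fun m => x (ψ m) + h (ψ m) • y)
      (fun m => h (ψ m) * k m) lam := by
  have key : ∀ m : ℕ, ∃ l : ℕ, m ≤ l ∧ ∀ c ∈ L, ‖c‖ ≤ ‖y‖ + k m * m →
      x l + h l • c ∈ P ∧ |ν (x l + h l • c) - ν (x l) - h l * g c| ≤ k m / (m + 1) * h l := by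
    intro m
    have h1 := H1 (‖y‖ + k m * m) (k m / (m + 1)) (div_pos (kpos m) (by positivity))
    obtain ⟨l, hl1, hl2⟩ := (h1.and (eventually_ge_atTop m)).exists
    exact ⟨l, hl2, hl1⟩
  choose ψ hψ hψ2 using key
  refine ⟨ψ, hψ, fun C ε hε => ?_⟩
  obtain ⟨N1, hN1⟩ := exists_nat_gt C
  obtain ⟨N2, hN2⟩ := exists_nat_gt (4 / ε)
  filter_upwards [H2 C (ε / 2) (by positivity), eventually_ge_atTop (max N1 N2)]
    with m hm hmN c hc hcC
  have m1 : (N1 : ℝ) ≤ m := by exact_mod_cast (le_max_left _ _).trans hmN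
  have m2 : (N2 : ℝ) ≤ m := by exact_mod_cast (le_max_right _ _).trans hmN
  have hk := kpos m
  have hh := hpos (ψ m)
  have hp : y + k m • c ∈ L := hL c hc _ hk.le
  have hpn : ‖y + k m • c‖ ≤ ‖y‖ + k m * m := by
    refine (norm_add_le _ _).trans ?_
    rw [norm_smul, Real.norm_of_nonneg hk.le]
    have : k m * ‖c‖ ≤ k m * m := mul_le_mul_of_nonneg_left (by linarith) hk.le
    linarith
  have hyn : ‖y‖ ≤ ‖y‖ + k m * m := by
    have : 0 ≤ k m * (m : ℝ) := by positivity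
    linarith
  have a1 := hψ2 m _ hp hpn
  have a2 := hψ2 m y hy hyn
  have a3 := (hm c hc hcC).2
  have e1 : x (ψ m) + h (ψ m) • y + (h (ψ m) * k m) • c =
      x (ψ m) + h (ψ m) • (y + k m • c) := by
    rw [smul_add, smul_smul, add_assoc]
  refine ⟨by rw [e1]; exact a1.1, ?_⟩
  rw [e1]
  have b1 := a1.2
  have b2 := a2.2
  have b3 : |h (ψ m) * (g (y + k m • c) - g y - k m * lam c)| ≤ h (ψ m) * (ε / 2 * k m) := by
    rw [abs_mul, abs_of_pos hh]
    exact mul_le_mul_of_nonneg_left a3 hh.le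
  have b4 : k m / (m + 1) ≤ ε / 4 * k m := by
    rw [div_le_iff₀ (by positivity)]
    have : 4 / ε < (m : ℝ) + 1 := by linarith
    rw [div_lt_iff₀ hε] at this
    nlinarith
  have b5 : k m / (m + 1) * h (ψ m) ≤ ε / 4 * k m * h (ψ m) :=
    mul_le_mul_of_nonneg_right b4 hh.le
  rw [abs_le] at b1 b2 b3 ⊢
  constructor <;> nlinarith [b1.1, b1.2, b2.1, b2.2, b3.1, b3.2]

end

variable {ι κ : Type*} [Fintype ι] [DecidableEq ι] [DecidableEq κ]

section

variable {grp : ι → κ} {S : Finset κ} {D LW L : Set (ι → ℝ)} {G lam : (ι → ℝ) → ℝ}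
  {ρ : κ → ι → ℝ} {ρs y : ι → ℝ} {t : ℕ → ℝ}

theorem sep_tan (hcone : Cone LW) (hg : Sep grp LW G) (hy : y ∈ LW) (ht : ∀ l, 0 < t l)
    (hlim : ∀ c ∈ LW, Tendsto (fun l => (G (y + t l • c) - G y) / t l) atTop (𝓝 (lam c))) :
    Sep grp LW lam := by
  intro k c d e' hd he h1 h2 h3 h4
  have l1 := (hlim _ h4).add (hlim _ h1)
  have l2 := (hlim _ h2).add (hlim _ h3)
  refine tendsto_nhds_unique (l1.congr fun l => ?_) l2
  have hm : ∀ c ∈ LW, y + t l • c ∈ LW := fun c hc =>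
    hcone.add _ hy _ (hcone.smul _ hc _ (ht l).le)
  have := hg k (y + t l • c) (t l • d) (t l • e') (fun l' hl' => by
      rw [Pi.smul_apply, hd l' hl', smul_zero]) (fun l' hl' => by
      rw [Pi.smul_apply, he l' hl', smul_zero]) (hm _ h1)
    (by rw [add_assoc, ← smul_add]; exact hm _ h2)
    (by rw [add_assoc, ← smul_add]; exact hm _ h3)
    (by rw [add_assoc, add_assoc, ← smul_add, ← smul_add, ← add_assoc]; exact hm _ h4)
  rw [show y + t l • c + t l • d + t l • e' = y + t l • (c + d + e') by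
    rw [smul_add, smul_add]; abel, show y + t l • c + t l • d = y + t l • (c + d) by
    rw [smul_add]; abel, show y + t l • c + t l • e' = y + t l • (c + e') by
    rw [smul_add]; abel] at this
  rw [← add_div, ← add_div]
  congr 1
  linarith

theorem pr_pr (k : κ) (c : ι → ℝ) : pr grp k (pr grp k c) = pr grp k c := by
  funext i
  by_cases hi : grp i = k
  · rw [pr_in k _ hi]
  · rw [pr_off k _ hi, pr_off k _ hi]

/-- group functions of the tangent -/
theorem phi_tan (hG : GeoH grp S D LW L ρ ρs) (hg : Sep grp LW G) {k : κ} (hk : k ∈ S)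
    (hy : y ∈ LW) (ht : ∀ l, 0 < t l)
    (hlim : ∀ c ∈ LW, Tendsto (fun l => (G (y + t l • c) - G y) / t l) atTop (𝓝 (lam c)))
    {c : ι → ℝ} (hc : c ∈ Cy grp LW ρ k) :
    Tendsto (fun l => (phi grp LW G ρ k (y + t l • c) - phi grp LW G ρ k y) / t l) atTop
      (𝓝 (phi grp LW lam ρ k c)) := by
  have hgl : Sep grp LW lam := sep_tan hG.cone hg hy ht hlim
  obtain ⟨R, hR, h1⟩ := hc
  have h2 : R • ρ k ∈ LW := hG.cone.smul _ (hG.mem k hk) _ hR
  rw [phi_eqH hG hgl hk hR h1]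
  refine ((hlim _ h1).sub (hlim _ h2)).congr fun l => ?_
  have hm : ∀ c ∈ LW, y + t l • c ∈ LW := fun c hc =>
    hG.cone.add _ hy _ (hG.cone.smul _ hc _ (ht l).le)
  have prρ : pr grp k (ρ k) = 0 := by
    funext i
    by_cases hi : grp i = k
    · rw [pr_in k _ hi, hG.off k hk i hi]; rfl
    · rw [pr_off k _ hi]; rfl
  have h3 := inc_eqH hG hg hk (c := y + t l • (R • ρ k)) (d := t l • pr grp k c)
    (fun l' hl' => by rw [Pi.smul_apply, pr_off k c hl', smul_zero]) (hm _ h2)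
    (by rw [add_assoc, ← smul_add, add_comm (R • ρ k)]; exact hm _ h1)
  have e1 : y + t l • (R • ρ k) + t l • pr grp k c = y + t l • (pr grp k c + R • ρ k) := by
    rw [smul_add]; abel
  rw [e1] at h3
  have e2 : phi grp LW G ρ k (y + t l • (pr grp k c + R • ρ k)) =
      phi grp LW G ρ k (y + t l • c) := by
    apply phi_congr
    rw [pr_add, pr_add, pr_smul, pr_smul, pr_add, pr_smul, prρ, smul_zero, add_zero, pr_pr]
  have e3 : phi grp LW G ρ k (y + t l • (R • ρ k)) = phi grp LW G ρ k y := by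
    apply phi_congr
    rw [pr_add, pr_smul, pr_smul, prρ, smul_zero, smul_zero, add_zero]
  rw [e2, e3] at h3
  rw [← sub_div, sub_sub_sub_cancel_right, h3]

end

/-! ### natural functions of one variable -/

section

variable {grp : ι → κ} {S : Finset κ} {D LW L : Set (ι → ℝ)} {G lam : (ι → ℝ) → ℝ}
  {ρ : κ → ι → ℝ} {ρs : ι → ℝ} {a b : ι → ℝ} {n : κ → ℝ × ℝ} {dh : ι → ℝ}

/-- the group function along the natural direction of the group -/
noncomputable def fnat (grp : ι → κ) (LW : Set (ι → ℝ)) (G : (ι → ℝ) → ℝ) (ρ : κ → ι → ℝ)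
    (a b : ι → ℝ) (n : κ → ℝ × ℝ) (k : κ) (u : ℝ) : ℝ :=
  phi grp LW G ρ k (Tn a b (zz (n k) u))

theorem pr_nat (hd : SDir grp a b n dh) {k : κ} (hk : k ∈ gset grp) {c : ι → ℝ} {u : ℝ}
    (hc : ∀ i, grp i = k → c i = u * dh i) :
    pr grp k c = pr grp k (Tn a b (zz (n k) u)) := by
  obtain ⟨i0, -, hi0⟩ := Finset.mem_image.1 hk
  have hn : n k ≠ 0 := by rw [← hi0]; exact hd.ne i0
  funext i
  by_cases hi : grp i = k
  · rw [pr_in k _ hi, pr_in k _ hi, hc i hi, hd.Tn_eq, hi, lf_zz hn]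
  · rw [pr_off k _ hi, pr_off k _ hi]

theorem fnat_eq (hd : SDir grp a b n dh) {k : κ} (hk : k ∈ gset grp) {c : ι → ℝ} {u : ℝ}
    (hc : ∀ i, grp i = k → c i = u * dh i) : phi grp LW G ρ k c = fnat grp LW G ρ a b n k u :=
  phi_congr (pr_nat hd hk hc)

theorem fnat_lip (hG : GeoH grp S D LW L ρ ρs) (hg : Sep grp LW G) {K : ℝ} (hK : 0 ≤ K)
    (hlip : ∀ p ∈ LW, ∀ q ∈ LW, |G p - G q| ≤ K * dist p q) (hnat : ∀ z, Tn a b z ∈ L)
    (hd : SDir grp a b n dh) (hSg : S ⊆ gset grp) {k : κ} (hk : k ∈ S) (u v : ℝ) :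
    |fnat grp LW G ρ a b n k u - fnat grp LW G ρ a b n k v| ≤ K * ‖dh‖ * |u - v| := by
  obtain ⟨i0, -, hi0⟩ := Finset.mem_image.1 (hSg hk)
  have hn : n k ≠ 0 := by rw [← hi0]; exact hd.ne i0
  refine (phi_lipH hG hg hlip hk (hG.cy hk (hnat _)) (hG.cy hk (hnat _))).trans ?_
  rw [mul_assoc]
  refine mul_le_mul_of_nonneg_left ?_ hK
  rw [dist_pi_le_iff (by positivity)]
  intro i
  by_cases hi : grp i = k
  · rw [pr_in k _ hi, pr_in k _ hi, hd.Tn_eq, hd.Tn_eq, hi, lf_zz hn, lf_zz hn, Real.dist_eq,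
      ← sub_mul, abs_mul, mul_comm]
    refine mul_le_mul_of_nonneg_right ?_ (abs_nonneg _)
    rw [← Real.norm_eq_abs]; exact norm_le_pi_norm dh i
  · rw [pr_off k _ hi, pr_off k _ hi, dist_self]; positivity

/-- almost every `σ` : all natural functions are differentiable -/
theorem ae_fnat (hG : GeoH grp S D LW L ρ ρs) (hg : Sep grp LW G) {K : ℝ} (hK : 0 ≤ K)
    (hlip : ∀ p ∈ LW, ∀ q ∈ LW, |G p - G q| ≤ K * dist p q) (hnat : ∀ z, Tn a b z ∈ L)
    (hd : SDir grp a b n dh) (hSg : S ⊆ gset grp) {r : ℝ × ℝ} (hr : ∀ k ∈ S, lf (n k) r ≠ 0) :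
    ∀ᵐ σ : ℝ, ∀ k ∈ S, DifferentiableAt ℝ (fnat grp LW G ρ a b n k) (σ * lf (n k) r) := by
  have h1 : ∀ k ∈ S, ∀ᵐ σ : ℝ,
      DifferentiableAt ℝ (fnat grp LW G ρ a b n k) (σ * lf (n k) r) := by
    intro k hk
    set c := lf (n k) r with hc
    have hc0 : c ≠ 0 := hr k hk
    have hL1 : LipschitzWith (Real.toNNReal (K * ‖dh‖ * |c|))
        (fun σ : ℝ => fnat grp LW G ρ a b n k (σ * c)) := by
      apply LipschitzWith.of_dist_le_mul
      intro u v
      rw [Real.coe_toNNReal _ (by positivity), Real.dist_eq, Real.dist_eq]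
      refine (fnat_lip hG hg hK hlip hnat hd hSg hk _ _).trans (le_of_eq ?_)
      rw [← sub_mul, abs_mul]; ring
    filter_upwards [hL1.ae_differentiableAt (μ := volume)] with σ hσ
    have e : fnat grp LW G ρ a b n k =
        (fun σ : ℝ => fnat grp LW G ρ a b n k (σ * c)) ∘ (fun u : ℝ => u / c) := by
      funext u
      simp only [Function.comp]
      rw [div_mul_cancel₀ _ hc0]
    rw [e]
    apply DifferentiableAt.comp
    · rw [mul_div_cancel_right₀ _ hc0]; exact hσ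
    · exact differentiableAt_id.div_const _
  have h2 := (ae_ball_iff (μ := (volume : Measure ℝ)) (Finset.countable_toSet S)
    (p := fun σ k _ => DifferentiableAt ℝ (fnat grp LW G ρ a b n k) (σ * lf (n k) r))).2 h1
  exact h2

/-- **output for one surface** : `LW` window cone of the half plane `lf l w ≤ 0`, `L` wall cone of
the surface, `S` the groups not parallel to the record line -/
structure OutH (grp : ι → κ) (S : Finset κ) (LW L : Set (ι → ℝ)) (a b : ι → ℝ) (l : ℝ × ℝ)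
    (dh : ι → ℝ) (n : κ → ℝ × ℝ) (lam : (ι → ℝ) → ℝ) (φ : κ → (ι → ℝ) → ℝ) (r : κ → ℝ) :
    Prop where
  split : ∀ c ∈ LW, ∀ c' ∈ LW, (∀ i, grp i ∉ S → c' i = c i) →
    lam c' - lam c = ∑ k ∈ S, (φ k c' - φ k c)
  loc : ∀ k c c', (∀ i, grp i = k → c i = c' i) → φ k c = φ k c'
  zero : ∀ k c, (∀ i, grp i = k → c i = 0) → φ k c = 0
  mono : ∀ k ∈ S, ∀ c ∈ L, ∀ c' ∈ L, (∀ i, grp i = k → c i ≤ c' i) → 0 ≤ φ k c - φ k c' ∧
    φ k c - φ k c' ≤ ∑ i ∈ Finset.univ.filter (fun i => grp i = k), (c' i - c i)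
  /-- supermodular; only the coordinates of the group matter -/
  smod : ∀ k ∈ S, ∀ p ∈ L, ∀ q ∈ L, ∀ s ∈ L, ∀ t ∈ L,
    (∀ i, grp i = k → s i = min (p i) (q i)) → (∀ i, grp i = k → t i = max (p i) (q i)) →
    φ k p + φ k q ≤ φ k t + φ k s
  rate : ∀ k ∈ S, ∀ c ∈ L, ∀ u : ℝ, (∀ i, grp i = k → c i = u * dh i) → φ k c = -(r k * u)
  r_nonneg : ∀ k ∈ S, (∀ i, grp i = k → 0 ≤ dh i) → 0 ≤ r k
  r_le : ∀ k ∈ S, (∀ i, grp i = k → 0 ≤ dh i) →
    r k ≤ ∑ i ∈ Finset.univ.filter (fun i => grp i = k), dh i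

/-- **the output at good points of the record line** : `G` separated on the window cone `LW`,
monotone, Lipschitz, supermodular on the cone `M ⊇ LW`; `y = Tn z` a point of the closed half plane
at which the natural functions are differentiable; `lam` any pointwise blow-up of `G` at `y` -/
theorem outH_of (hG : GeoH grp S D LW L ρ ρs) (hg : Sep grp LW G) {M : Set (ι → ℝ)}
    (hM : Cone M) (hLM : LW ⊆ M)
    (hm : ∀ c ∈ M, ∀ c' ∈ M, c ≤ c' → 0 ≤ G c - G c' ∧ G c - G c' ≤ ∑ i, (c' i - c i))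
    (hs : ∀ p ∈ M, ∀ q ∈ M, p ⊓ q ∈ M → p ⊔ q ∈ M → G p + G q ≤ G (p ⊔ q) + G (p ⊓ q))
    {K : ℝ} (hK : 0 ≤ K) (hlip : ∀ p ∈ M, ∀ q ∈ M, |G p - G q| ≤ K * dist p q)
    (hnat : ∀ z, Tn a b z ∈ L) (hd : SDir grp a b n dh) (hSg : S ⊆ gset grp) (l : ℝ × ℝ)
    {z : ℝ × ℝ} (hz : Tn a b z ∈ LW)
    (hdiff : ∀ k ∈ S, DifferentiableAt ℝ (fnat grp LW G ρ a b n k) (lf (n k) z))
    {h : ℕ → ℝ} (H : BUp M M G (Tn a b z) h lam) :
    ∃ r : κ → ℝ, (∀ k, r k = -(deriv (fnat grp LW G ρ a b n k) (lf (n k) z))) ∧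
      OutH grp S LW L a b l dh n lam (phi grp LW lam ρ) r := by
  have hlim : ∀ c ∈ LW, Tendsto (fun l => (G (Tn a b z + h l • c) - G (Tn a b z)) / h l) atTop
      (𝓝 (lam c)) := fun c hc => H.lim c (hLM hc)
  have hgl : Sep grp LW lam := sep_tan hG.cone hg hz H.pos hlim
  -- continuous extension of `lam`
  have hlipl : LipschitzOnWith ⟨K, hK⟩ lam M := LipschitzOnWith.of_dist_le_mul fun p hp q hq => by
    rw [Real.dist_eq]; exact H.lip hlip p hp q hq
  obtain ⟨lam', hl', he⟩ := hlipl.extend_real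
  have heW : ∀ c ∈ LW, lam c = lam' c := fun c hc => he (hLM hc)
  have hgl' : Sep grp LW lam' := by
    intro k c d e' hd he' h1 h2 h3 h4
    rw [← heW _ h1, ← heW _ h2, ← heW _ h3, ← heW _ h4]
    exact hgl k c d e' hd he' h1 h2 h3 h4
  have hphi : ∀ k ∈ S, ∀ c ∈ Cy grp LW ρ k, phi grp LW lam' ρ k c = phi grp LW lam ρ k c := by
    intro k hk c hc
    obtain ⟨R, hR, h1⟩ := hc
    rw [phi_eqH hG hgl' hk hR h1, phi_eqH hG hgl hk hR h1, heW _ h1,
      heW _ (hG.cone.smul _ (hG.mem k hk) _ hR)]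
  have hml : ∀ c ∈ LW, ∀ c' ∈ LW, c ≤ c' → 0 ≤ lam c - lam c' ∧
      lam c - lam c' ≤ ∑ i, (c' i - c i) := fun c hc c' hc' hcc =>
    H.mono hm c (hLM hc) c' (hLM hc') hcc
  have hsl : ∀ p ∈ LW, ∀ q ∈ LW, p ⊓ q ∈ LW → p ⊔ q ∈ LW →
      lam p + lam q ≤ lam (p ⊔ q) + lam (p ⊓ q) := fun p hp q hq h1 h2 =>
    H.smod (fun p hp q hq h1 h2 => hs p hp q hq h1 h2) p (hLM hp) q (hLM hq) (hLM h1) (hLM h2)
  have hrate : ∀ k ∈ S, ∀ c ∈ L, ∀ u : ℝ, (∀ i, grp i = k → c i = u * dh i) →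
      phi grp LW lam ρ k c = deriv (fnat grp LW G ρ a b n k) (lf (n k) z) * u := by
    intro k hk c hc u hcu
    have h1 := phi_tan hG hg hk hz H.pos hlim (hG.cy hk hc)
    have h2 : ∀ l', phi grp LW G ρ k (Tn a b z + h l' • c) =
        fnat grp LW G ρ a b n k (lf (n k) z + h l' * u) := by
      intro l'
      refine fnat_eq hd (hSg hk) fun i hi => ?_
      rw [Pi.add_apply, Pi.smul_apply, smul_eq_mul, hcu i hi, hd.Tn_eq, hi]; ring
    have h3 : phi grp LW G ρ k (Tn a b z) = fnat grp LW G ρ a b n k (lf (n k) z) := by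
      refine fnat_eq hd (hSg hk) fun i hi => ?_
      rw [hd.Tn_eq, hi]
    simp only [h2, h3] at h1
    have h4 := (hdiff k hk).hasDerivAt
    set f := fnat grp LW G ρ a b n k with hf
    set u0 := lf (n k) z with hu0
    -- derivative along `h l' * u`
    have h5 : HasDerivAt (fun s : ℝ => f (u0 + s * u)) (deriv f u0 * u) 0 := by
      have h6 : HasDerivAt (fun s : ℝ => u0 + s * u) u 0 := by
        simpa using ((hasDerivAt_id (0:ℝ)).mul_const u).const_add u0
      have h7 : HasDerivAt f (deriv f u0) (u0 + 0 * u) := by rw [zero_mul, add_zero]; exact h4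
      exact HasDerivAt.comp (0:ℝ) h7 h6
    have h6 := h5.tendsto_slope_zero
    simp only [zero_add, zero_mul, add_zero] at h6
    have h7 : Tendsto h atTop (𝓝[≠] 0) :=
      tendsto_nhdsWithin_iff.2 ⟨H.zero, Eventually.of_forall fun l' => (H.pos l').ne'⟩
    have h8 := h6.comp h7
    refine tendsto_nhds_unique h1 (h8.congr fun l' => ?_)
    simp only [Function.comp, smul_eq_mul]
    rw [div_eq_inv_mul]
  refine ⟨fun k => -(deriv (fnat grp LW G ρ a b n k) (lf (n k) z)), fun k => rfl, ?_, ?_, ?_, ?_,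
    ?_, ?_, ?_, ?_⟩
  · intro c hc c' hc' hcc
    have h1 := reprH hG hgl' hl'.continuous hc hc' hcc
    rw [← heW c hc, ← heW c' hc'] at h1
    rw [h1]
    refine Finset.sum_congr rfl fun k hk => ?_
    rw [hphi k hk _ (hG.cy hk (hG.subL hc')), hphi k hk _ (hG.cy hk (hG.subL hc))]
  · intro k c c' hcc
    apply phi_congr
    funext i
    by_cases hi : grp i = k
    · rw [pr_in k _ hi, pr_in k _ hi, hcc i hi]
    · rw [pr_off k _ hi, pr_off k _ hi]
  · intro k c hc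
    exact phi_zero k hc
  · intro k hk c hc c' hc' hcc
    exact phi_monoH hG hgl hml hk (hG.cy hk hc) (hG.cy hk hc') hcc
  · intro k hk p hp q hq s hs' t ht hsi hti
    have e1 : pr grp k s = pr grp k (p ⊓ q) := by
      funext i
      by_cases hi : grp i = k
      · rw [pr_in k _ hi, pr_in k _ hi, hsi i hi]; rfl
      · rw [pr_off k _ hi, pr_off k _ hi]
    have e2 : pr grp k t = pr grp k (p ⊔ q) := by
      funext i
      by_cases hi : grp i = k
      · rw [pr_in k _ hi, pr_in k _ hi, hti i hi]; rfl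
      · rw [pr_off k _ hi, pr_off k _ hi]
    have h1 := phi_supH hG hgl hsl hk (hG.cy hk hp) (hG.cy hk hq)
      ((cy_congr e1).1 (hG.cy hk hs')) ((cy_congr e2).1 (hG.cy hk ht))
    rw [phi_congr e1, phi_congr e2]
    exact h1
  · intro k hk c hc u hcu
    rw [hrate k hk c hc u hcu]; ring
  · intro k hk hpos
    obtain ⟨i0, -, hi0⟩ := Finset.mem_image.1 (hSg hk)
    have hn : n k ≠ 0 := by rw [← hi0]; exact hd.ne i0
    have hval : ∀ i, grp i = k → Tn a b (zz (n k) 1) i = 1 * dh i := by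
      intro i hi; rw [hd.Tn_eq, hi, lf_zz hn]
    have h1 := phi_monoH hG hgl hml hk (hG.cy hk hG.coneL.zero) (hG.cy hk (hnat (zz (n k) 1)))
      (fun i hi => by rw [hval i hi]; simpa using hpos i hi)
    rw [hrate k hk _ (hnat _) 1 hval, phi_zero k (c := 0) (fun i _ => rfl)] at h1
    linarith [h1.1]
  · intro k hk hpos
    obtain ⟨i0, -, hi0⟩ := Finset.mem_image.1 (hSg hk)
    have hn : n k ≠ 0 := by rw [← hi0]; exact hd.ne i0
    have hval : ∀ i, grp i = k → Tn a b (zz (n k) 1) i = 1 * dh i := by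
      intro i hi; rw [hd.Tn_eq, hi, lf_zz hn]
    have h1 := phi_monoH hG hgl hml hk (hG.cy hk hG.coneL.zero) (hG.cy hk (hnat (zz (n k) 1)))
      (fun i hi => by rw [hval i hi]; simpa using hpos i hi)
    rw [hrate k hk _ (hnat _) 1 hval, phi_zero k (c := 0) (fun i _ => rfl)] at h1
    have h2 := h1.2
    have h3 : ∑ i ∈ Finset.univ.filter (fun i => grp i = k),
        (Tn a b (zz (n k) 1) i - (0 : ι → ℝ) i) =
        ∑ i ∈ Finset.univ.filter (fun i => grp i = k), dh i := by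
      refine Finset.sum_congr rfl fun i hi => ?_
      rw [Finset.mem_filter] at hi
      rw [hval i hi.2]; simp
    rw [h3] at h2
    linarith

end

end Crest.Agent.R136.Rc146
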