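import Crest.Agent.R136.Rb0_741
import Crest.Agent.R136.Dg2_262
import Crest.Agent.R136.Rbw3_219

-- ▼ part R136/Rb1_741
section

/-!
# R136: record blow-up, part 1 (helper741): calculus of negligible families

`Ob F` : continuous and uniformly bounded. `Neg F` : local integrals of `|F k|` summable.
`Pos F` : the negative part of `F` is negligible. Translation by `O(2^-k)`; `Neg.tel`, `Neg.par`:
telescoping.
-/

set_option autoImplicit false

open Set Filter Topology MeasureTheory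

namespace Crest.Agent.R136.Rb741

open Dec146 (tent)

/-- continuous, uniformly bounded -/
structure Ob (F : ℕ → ℝ → ℝ) : Prop where
  cont : ∀ k, Continuous (F k)
  bdd : ∃ B, ∀ k x, |F k x| ≤ B

section ob

variable {F G : ℕ → ℝ → ℝ}

theorem Ob.add (hF : Ob F) (hG : Ob G) : Ob fun k x => F k x + G k x where
  cont := fun k => (hF.cont k).add (hG.cont k)
  bdd := by
    obtain ⟨B, hB⟩ := hF.bdd
    obtain ⟨C, hC⟩ := hG.bdd
    exact ⟨B + C, fun k x => (abs_add_le _ _).trans (add_le_add (hB k x) (hC k x))⟩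

theorem Ob.neg (hF : Ob F) : Ob fun k x => -F k x where
  cont := fun k => (hF.cont k).neg
  bdd := by
    obtain ⟨B, hB⟩ := hF.bdd
    exact ⟨B, fun k x => by rw [abs_neg]; exact hB k x⟩

theorem Ob.sub (hF : Ob F) (hG : Ob G) : Ob fun k x => F k x - G k x where
  cont := fun k => (hF.cont k).sub (hG.cont k)
  bdd := by
    obtain ⟨B, hB⟩ := hF.bdd
    obtain ⟨C, hC⟩ := hG.bdd
    exact ⟨B + C, fun k x => (abs_sub _ _).trans (add_le_add (hB k x) (hC k x))⟩

theorem Ob.mul_const (hF : Ob F) (c : ℝ) : Ob fun k x => c * F k x where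
  cont := fun k => (hF.cont k).const_mul c
  bdd := by
    obtain ⟨B, hB⟩ := hF.bdd
    exact ⟨|c| * B, fun k x => by
      rw [abs_mul]; exact mul_le_mul_of_nonneg_left (hB k x) (abs_nonneg c)⟩

theorem Ob.zero : Ob fun _ _ => (0 : ℝ) where
  cont := fun _ => continuous_const
  bdd := ⟨0, fun k x => by simp⟩

theorem Ob.shift (hF : Ob F) (c : ℕ → ℝ) : Ob fun k x => F k (x + c k) where
  cont := fun k => (hF.cont k).comp (continuous_add_const (c k))
  bdd := by
    obtain ⟨B, hB⟩ := hF.bdd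
    exact ⟨B, fun k x => hB k _⟩

theorem Ob.succ (hF : Ob F) : Ob fun k x => F (k + 1) x where
  cont := fun k => hF.cont (k + 1)
  bdd := by
    obtain ⟨B, hB⟩ := hF.bdd
    exact ⟨B, fun k x => hB (k + 1) x⟩

theorem Ob.npart (hF : Ob F) : Ob fun k x => max (-F k x) 0 where
  cont := fun k => (hF.cont k).neg.max continuous_const
  bdd := by
    obtain ⟨B, hB⟩ := hF.bdd
    refine ⟨B, fun k x => ?_⟩
    rw [abs_of_nonneg (le_max_right _ _)]
    exact max_le ((neg_le_abs _).trans (hB k x)) ((abs_nonneg _).trans (hB k x))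

theorem Ob.sum {σ : Type*} (s : Finset σ) {F : σ → ℕ → ℝ → ℝ} (h : ∀ i ∈ s, Ob (F i)) :
    Ob fun k x => ∑ i ∈ s, F i k x := by
  classical
  induction s using Finset.induction_on with
  | empty => simpa using Ob.zero
  | insert a s ha ih =>
    simp only [Finset.sum_insert ha]
    exact (h a (Finset.mem_insert_self _ _)).add (ih fun i hi => h i (Finset.mem_insert_of_mem hi))

end ob

section neg

variable {x₀ δ : ℝ} {F G : ℕ → ℝ → ℝ}

/-- nonnegative up to negligible -/
def Pos (x₀ δ : ℝ) (F : ℕ → ℝ → ℝ) : Prop := Neg x₀ δ fun k x => max (-F k x) 0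

theorem Ob.integrable (hF : Ob F) (R : ℝ) (k : ℕ) : Integrable (fun x => tent x₀ R x * F k x) := by
  obtain ⟨B, hB⟩ := hF.bdd
  exact Dec146.tent_mul_integrable volume x₀ R (hF.cont k).measurable (hB k)

theorem Ob.integrable_abs (hF : Ob F) (R : ℝ) (k : ℕ) :
    Integrable (fun x => tent x₀ R x * |F k x|) := by
  obtain ⟨B, hB⟩ := hF.bdd
  exact Dec146.tent_mul_integrable volume x₀ R (hF.cont k).abs.measurable (K := B)
    (fun x => by rw [abs_abs]; exact hB k x)

/-- comparison -/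
theorem Neg.of_le (hF : Ob F) (hG : Ob G) (hn : Neg x₀ δ G) (k₀ : ℕ)
    (h : ∀ k, k₀ ≤ k → ∀ x, |x - x₀| ≤ δ → |F k x| ≤ |G k x|) : Neg x₀ δ F := by
  intro R hR hRδ
  refine Summable.of_norm_bounded_eventually_nat (hn R hR hRδ) ?_
  filter_upwards [eventually_ge_atTop k₀] with k hk
  have h0 : 0 ≤ ∫ x, tent x₀ R x * |F k x| :=
    integral_nonneg fun x => mul_nonneg (Dec146.tent_nonneg _ _ _) (abs_nonneg _)
  rw [Real.norm_eq_abs, abs_of_nonneg h0]
  refine integral_mono (hF.integrable_abs R k) (hG.integrable_abs R k) fun x => ?_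
  by_cases hx : |x - x₀| ≤ R
  · exact mul_le_mul_of_nonneg_left (h k hk x (hx.trans hRδ.le)) (Dec146.tent_nonneg _ _ _)
  · have : tent x₀ R x = 0 := Dec146.tent_eq_zero (by rw [Real.norm_eq_abs]; linarith)
    simp only [this, zero_mul]; exact le_rfl

theorem Neg.zero : Neg x₀ δ fun _ _ => (0 : ℝ) := by
  intro R _ _
  simp only [abs_zero, mul_zero, integral_zero]
  exact summable_zero

theorem Neg.congr (h : ∀ k x, F k x = G k x) (hF : Neg x₀ δ F) : Neg x₀ δ G := by
  have : F = G := by funext k x; exact h k x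
  rwa [← this]

theorem Neg.neg (hn : Neg x₀ δ F) : Neg x₀ δ fun k x => -F k x := by
  intro R hR hRδ
  simpa only [abs_neg] using hn R hR hRδ

theorem Neg.abs (hn : Neg x₀ δ F) : Neg x₀ δ fun k x => |F k x| := by
  intro R hR hRδ
  simpa only [abs_abs] using hn R hR hRδ

/-- sum of two absolute values -/
theorem Neg.add_abs (hF : Ob F) (hG : Ob G) (h1 : Neg x₀ δ F) (h2 : Neg x₀ δ G) :
    Neg x₀ δ fun k x => |F k x| + |G k x| := by
  intro R hR hRδ
  refine ((h1 R hR hRδ).add (h2 R hR hRδ)).congr fun k => ?_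
  rw [← integral_add (hF.integrable_abs R k) (hG.integrable_abs R k)]
  refine integral_congr_ae (Eventually.of_forall fun x => ?_)
  simp only
  rw [abs_of_nonneg (add_nonneg (abs_nonneg (F k x)) (abs_nonneg (G k x))), mul_add]

theorem Ob.abs (hF : Ob F) : Ob fun k x => |F k x| where
  cont := fun k => (hF.cont k).abs
  bdd := by
    obtain ⟨B, hB⟩ := hF.bdd
    exact ⟨B, fun k x => by rw [abs_abs]; exact hB k x⟩

theorem Neg.add (hF : Ob F) (hG : Ob G) (h1 : Neg x₀ δ F) (h2 : Neg x₀ δ G) :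
    Neg x₀ δ fun k x => F k x + G k x := by
  refine Neg.of_le (hF.add hG) (hF.abs.add hG.abs) (Neg.add_abs hF hG h1 h2) 0
    fun k _ x _ => ?_
  rw [abs_of_nonneg (add_nonneg (abs_nonneg (F k x)) (abs_nonneg (G k x)))]
  exact abs_add_le _ _

theorem Neg.sub (hF : Ob F) (hG : Ob G) (h1 : Neg x₀ δ F) (h2 : Neg x₀ δ G) :
    Neg x₀ δ fun k x => F k x - G k x := by
  have := Neg.add hF hG.neg h1 h2.neg
  exact this.congr fun k x => by ring

theorem Neg.mul_const (c : ℝ) (h1 : Neg x₀ δ F) : Neg x₀ δ fun k x => c * F k x := by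
  intro R hR hRδ
  refine ((h1 R hR hRδ).mul_left |c|).congr fun k => ?_
  rw [← integral_const_mul]
  refine integral_congr_ae (Eventually.of_forall fun x => ?_)
  simp only
  rw [abs_mul]; ring

theorem Neg.sum {σ : Type*} (s : Finset σ) {F : σ → ℕ → ℝ → ℝ} (h : ∀ i ∈ s, Ob (F i))
    (hn : ∀ i ∈ s, Neg x₀ δ (F i)) : Neg x₀ δ fun k x => ∑ i ∈ s, F i k x := by
  classical
  induction s using Finset.induction_on with
  | empty => simpa using Neg.zero
  | insert a s ha ih =>
    simp only [Finset.sum_insert ha]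
    exact Neg.add (h a (Finset.mem_insert_self _ _))
      (Ob.sum s fun i hi => h i (Finset.mem_insert_of_mem hi))
      (hn a (Finset.mem_insert_self _ _))
      (ih (fun i hi => h i (Finset.mem_insert_of_mem hi))
        fun i hi => hn i (Finset.mem_insert_of_mem hi))

theorem Neg.pos (hF : Ob F) (h : Neg x₀ δ F) : Pos x₀ δ F := by
  refine Neg.of_le hF.npart hF h 0 fun k _ x _ => ?_
  rw [abs_of_nonneg (le_max_right _ _)]
  exact max_le (neg_le_abs _) (abs_nonneg _)

theorem Pos.congr (h : ∀ k x, F k x = G k x) (hF : Pos x₀ δ F) : Pos x₀ δ G := by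
  have : F = G := by funext k x; exact h k x
  rwa [← this]

theorem Pos.of_ev (hF : Ob F) (k₀ : ℕ) (h : ∀ k, k₀ ≤ k → ∀ x, |x - x₀| ≤ δ → 0 ≤ F k x) :
    Pos x₀ δ F := by
  refine Neg.of_le hF.npart Ob.zero Neg.zero k₀ fun k hk x hx => ?_
  rw [max_eq_right (by linarith [h k hk x hx])]

theorem Pos.add (hF : Ob F) (hG : Ob G) (h1 : Pos x₀ δ F) (h2 : Pos x₀ δ G) :
    Pos x₀ δ fun k x => F k x + G k x := by
  refine Neg.of_le (hF.add hG).npart (hF.npart.add hG.npart) (Neg.add hF.npart hG.npart h1 h2) 0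
    fun k _ x _ => ?_
  have a1 := le_max_left (-F k x) 0
  have a2 := le_max_right (-F k x) 0
  have a3 := le_max_left (-G k x) 0
  have a4 := le_max_right (-G k x) 0
  rw [abs_of_nonneg (le_max_right _ _), abs_of_nonneg (add_nonneg a2 a4)]
  exact max_le (by linarith) (by linarith)

/-- `F` and `-F` nonnegative up to negligible -/
theorem Pos.antisymm (hF : Ob F) (h1 : Pos x₀ δ F) (h2 : Pos x₀ δ fun k x => -F k x) :
    Neg x₀ δ F := by
  refine Neg.of_le hF (hF.npart.add hF.neg.npart) (Neg.add hF.npart hF.neg.npart h1 h2) 0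
    fun k _ x _ => ?_
  have a1 := le_max_left (-F k x) 0
  have a2 := le_max_right (-F k x) 0
  have a3 := le_max_left (- -F k x) 0
  have a4 := le_max_right (- -F k x) 0
  rw [abs_of_nonneg (add_nonneg a2 a4)]
  rw [abs_le]
  constructor <;> linarith

/-- if `F`, `G` are nonnegative up to negligible and `F + G` is negligible then so is `F` -/
theorem Pos.left (hF : Ob F) (hG : Ob G) (h1 : Pos x₀ δ F) (h2 : Pos x₀ δ G)
    (h : Neg x₀ δ fun k x => F k x + G k x) : Neg x₀ δ F := by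
  refine h1.antisymm hF ?_
  have h3 : Pos x₀ δ fun k x => -(F k x + G k x) := (h.neg).pos (hF.add hG).neg
  have h4 := Pos.add (hF.add hG).neg hG h3 h2
  exact h4.congr fun k x => by ring

/-! ### translations -/

theorem tent_int_shift (R σ : ℝ) (hF : Ob F) {c : ℝ} (hc : |c| ≤ σ) (k : ℕ) :
    ∫ x, tent x₀ R x * |F k (x + c)| ≤ ∫ x, tent x₀ (R + σ) x * |F k x| := by
  obtain ⟨B, hB⟩ := hF.bdd
  have h1 : (∫ x, tent x₀ R x * |F k (x + c)|) = ∫ x, tent x₀ R (x - c) * |F k x| := by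
    have := integral_add_right_eq_self (μ := (volume : Measure ℝ))
      (fun x => tent x₀ R (x - c) * |F k x|) c
    rw [← this]
    congr 1; ext x
    rw [add_sub_cancel_right]
  rw [h1]
  have hi : Integrable (fun x => tent x₀ R x * |F k (x + c)|) :=
    Dec146.tent_mul_integrable volume x₀ R
      (((hF.cont k).comp (continuous_add_const c)).abs.measurable) (K := B)
      (fun x => by rw [abs_abs]; exact hB k _)
  refine integral_mono ?_ (hF.integrable_abs (R + σ) k) fun x => ?_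
  · refine (hi.comp_sub_right c).congr (Eventually.of_forall fun x => ?_)
    simp
  · refine mul_le_mul_of_nonneg_right (Dec146.tent_shift ?_ x) (abs_nonneg _)
    rw [Real.norm_eq_abs]; exact hc

theorem small_ev {C σ : ℝ} (hσ : 0 < σ) : ∀ᶠ k : ℕ in atTop, C * (1 / 2) ^ k ≤ σ := by
  have h1 : Tendsto (fun k : ℕ => C * (1 / 2 : ℝ) ^ k) atTop (𝓝 (C * 0)) :=
    (tendsto_pow_atTop_nhds_zero_of_lt_one (by norm_num) (by norm_num)).const_mul C
  rw [mul_zero] at h1
  exact h1.eventually (ge_mem_nhds hσ)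

theorem Neg.shift (hF : Ob F) (h : Neg x₀ δ F) {c : ℕ → ℝ} {C : ℝ}
    (hc : ∀ k, |c k| ≤ C * (1 / 2) ^ k) : Neg x₀ δ fun k x => F k (x + c k) := by
  intro R hR hRδ
  set σ := (δ - R) / 2 with hσ
  have hσ0 : 0 < σ := by rw [hσ]; linarith
  refine Summable.of_norm_bounded_eventually_nat (h (R + σ) (by linarith) (by rw [hσ]; linarith)) ?_
  filter_upwards [small_ev (C := C) hσ0] with k hk
  have h0 : 0 ≤ ∫ x, tent x₀ R x * |F k (x + c k)| :=
    integral_nonneg fun x => mul_nonneg (Dec146.tent_nonneg _ _ _) (abs_nonneg _)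
  rw [Real.norm_eq_abs, abs_of_nonneg h0]
  exact tent_int_shift R σ hF ((hc k).trans hk) k

theorem Pos.shift (hF : Ob F) (h : Pos x₀ δ F) {c : ℕ → ℝ} {C : ℝ}
    (hc : ∀ k, |c k| ≤ C * (1 / 2) ^ k) : Pos x₀ δ fun k x => F k (x + c k) :=
  Neg.shift (F := fun k x => max (-F k x) 0) hF.npart h hc

theorem Neg.succ (h : Neg x₀ δ F) : Neg x₀ δ fun k x => F (k + 1) x := by
  intro R hR hRδ
  exact (summable_nat_add_iff (f := fun k => ∫ x, tent x₀ R x * |F k x|) 1).2 (h R hR hRδ)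

theorem Pos.succ (h : Pos x₀ δ F) : Pos x₀ δ fun k x => F (k + 1) x :=
  Neg.succ (F := fun k x => max (-F k x) 0) h

theorem Neg.of_succ (h : Neg x₀ δ fun k x => F (k + 1) x) : Neg x₀ δ F := by
  intro R hR hRδ
  exact (summable_nat_add_iff (f := fun k => ∫ x, tent x₀ R x * |F k x|) 1).1 (h R hR hRδ)

/-- translation of an integral -/
theorem shift_any (R : ℝ) : ∃ D : ℝ, 0 ≤ D ∧ ∀ (G : ℝ → ℝ) (B : ℝ), Continuous G → 0 ≤ B →
    (∀ x, |G x| ≤ B) → ∀ c : ℝ,
    |(∫ x, tent x₀ R x * G (x + c)) - ∫ x, tent x₀ R x * G x| ≤ D * B * |c| := by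
  set I : ℝ := ∫ x, tent x₀ R x with hI
  have hI0 : 0 ≤ I := integral_nonneg fun x => Dec146.tent_nonneg _ _ _
  have hcst := Dec146.cst_nonneg volume x₀ R
  refine ⟨Dec146.cst volume x₀ R + 2 * I, by positivity, ?_⟩
  intro G B hG hB0 hB c
  by_cases hc : |c| ≤ 1
  · have := Dec146.shift_est volume x₀ R hG.measurable hB0 hB (c := c)
      (by rw [Real.norm_eq_abs]; exact hc)
    rw [Real.norm_eq_abs] at this
    refine this.trans ?_
    have h1 : 0 ≤ B * (2 * I) * |c| := by positivity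
    nlinarith
  · push Not at hc
    have hb : ∀ g : ℝ → ℝ, Continuous g → (∀ x, |g x| ≤ B) → |∫ x, tent x₀ R x * g x| ≤ B * I := by
      intro g hg hgB
      rw [← Real.norm_eq_abs]
      refine (norm_integral_le_integral_norm _).trans ?_
      rw [hI, ← integral_const_mul]
      refine integral_mono (Dec146.tent_mul_integrable volume x₀ R hg.measurable hgB).norm
        ((Dec146.tent_integrable volume x₀ R).const_mul B) fun x => ?_
      simp only [Real.norm_eq_abs, abs_mul, abs_of_nonneg (Dec146.tent_nonneg x₀ R x)]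
      rw [mul_comm]
      exact mul_le_mul_of_nonneg_right (hgB x) (Dec146.tent_nonneg _ _ _)
    have h1 := hb (fun x => G (x + c)) (hG.comp (continuous_add_const c)) (fun x => hB _)
    have h2 := hb G hG hB
    refine (abs_sub _ _).trans ((add_le_add h1 h2).trans ?_)
    have h3 : B * I ≤ B * I * |c| := by
      have : 0 ≤ B * I := by positivity
      nlinarith
    have h4 : 0 ≤ Dec146.cst volume x₀ R * B * |c| := by positivity
    nlinarith

/-- a family which is nonnegative up to negligible, with bounded partial sums of the local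
integrals, is negligible -/
theorem Pos.neg_of_int (hF : Ob F) (h : Pos x₀ δ F)
    (hb : ∀ R, 0 < R → R < δ → ∃ C, ∀ N : ℕ, ∑ k ∈ Finset.range N, ∫ x, tent x₀ R x * F k x ≤ C) :
    Neg x₀ δ F := by
  intro R hR hRδ
  obtain ⟨C, hC⟩ := hb R hR hRδ
  have hs := h R hR hRδ
  set n : ℕ → ℝ := fun k => ∫ x, tent x₀ R x * |max (-F k x) 0| with hn
  have hn0 : ∀ k, 0 ≤ n k := fun k =>
    integral_nonneg fun x => mul_nonneg (Dec146.tent_nonneg _ _ _) (abs_nonneg _)
  have e : ∀ k, ∫ x, tent x₀ R x * |F k x| = (∫ x, tent x₀ R x * F k x) + 2 * n k := by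
    intro k
    rw [hn, ← integral_const_mul, ← integral_add (hF.integrable R k)
      ((hF.npart.integrable_abs R k).const_mul 2)]
    refine integral_congr_ae (Eventually.of_forall fun x => ?_)
    simp only
    rw [abs_of_nonneg (le_max_right (-F k x) 0)]
    rcases le_total 0 (F k x) with h1 | h1
    · rw [abs_of_nonneg h1, max_eq_right (by linarith)]; ring
    · rw [abs_of_nonpos h1, max_eq_left (by linarith)]; ring
  refine summable_of_sum_range_le (c := C + 2 * ∑' k, n k) (fun k =>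
    integral_nonneg fun x => mul_nonneg (Dec146.tent_nonneg _ _ _) (abs_nonneg _)) fun N => ?_
  rw [Finset.sum_congr rfl fun k _ => e k, Finset.sum_add_distrib, ← Finset.mul_sum]
  have h2 : ∑ k ∈ Finset.range N, n k ≤ ∑' k, n k := hs.sum_le_tsum _ fun k _ => hn0 k
  linarith [hC N]

theorem geom_bound (N : ℕ) : ∑ k ∈ Finset.range N, (1 / 2 : ℝ) ^ k ≤ 2 := by
  have h := (summable_geometric_of_lt_one (by norm_num : (0:ℝ) ≤ 1 / 2) (by norm_num)).sum_le_tsum
    (Finset.range N) (fun k _ => by positivity)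
  rwa [tsum_geometric_of_lt_one (by norm_num) (by norm_num), show (1 - 1 / 2 : ℝ)⁻¹ = 2 by norm_num]
    at h

/-- telescoping along a translation at every scale -/
theorem Neg.par {A : ℕ → ℝ → ℝ} (hA : Ob A) {c : ℕ → ℝ} {C : ℝ} (hC : 0 ≤ C)
    (hc : ∀ k, |c k| ≤ C * (1 / 2) ^ k) (h : Pos x₀ δ fun k x => A k x - A k (x + c k)) :
    Neg x₀ δ fun k x => A k x - A k (x + c k) := by
  refine h.neg_of_int (hA.sub (hA.shift c)) fun R hR _ => ?_
  obtain ⟨B, hB⟩ := hA.bdd
  have hB0 : 0 ≤ B := (abs_nonneg _).trans (hB 0 0)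
  obtain ⟨D, hD, hD'⟩ := shift_any (x₀ := x₀) R
  refine ⟨D * B * C * 2, fun N => ?_⟩
  have h1 : ∀ k, ∫ x, tent x₀ R x * (A k x - A k (x + c k)) ≤ D * B * C * (1 / 2) ^ k := by
    intro k
    have e : ∫ x, tent x₀ R x * (A k x - A k (x + c k)) =
        (∫ x, tent x₀ R x * A k x) - ∫ x, tent x₀ R x * A k (x + c k) := by
      rw [← integral_sub (hA.integrable R k) ((hA.shift c).integrable R k)]
      congr 1; ext x; ring
    rw [e]
    have h2 := (abs_le.1 (hD' (A k) B (hA.cont k) hB0 (hB k) (c k))).1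
    have h3 : D * B * |c k| ≤ D * B * (C * (1 / 2) ^ k) :=
      mul_le_mul_of_nonneg_left (hc k) (by positivity)
    linarith
  refine (Finset.sum_le_sum fun k _ => h1 k).trans ?_
  rw [← Finset.mul_sum]
  exact mul_le_mul_of_nonneg_left (geom_bound N) (by positivity)

/-- telescoping over the scales -/
theorem Neg.tel {A : ℕ → ℝ → ℝ} (hA : Ob A) {c : ℕ → ℝ} {C : ℝ} (hC : 0 ≤ C)
    (hc : ∀ k, |c k| ≤ C * (1 / 2) ^ k)
    (h : Pos x₀ δ fun k x => A k x - (A (k + 1) x + A (k + 1) (x + c k)) / 2) :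
    Neg x₀ δ fun k x => A k x - (A (k + 1) x + A (k + 1) (x + c k)) / 2 := by
  have hA1 := hA.succ
  have hA2 := hA.succ.shift c
  have hO : Ob fun k x => A k x - (A (k + 1) x + A (k + 1) (x + c k)) / 2 := by
    have := hA.sub ((hA1.add hA2).mul_const (1 / 2))
    have e : (fun k x => A k x - (A (k + 1) x + A (k + 1) (x + c k)) / 2) =
        fun k x => A k x - 1 / 2 * (A (k + 1) x + A (k + 1) (x + c k)) := by
      funext k x; ring
    rw [e]; exact this
  refine h.neg_of_int hO fun R hR _ => ?_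
  obtain ⟨B, hB⟩ := hA.bdd
  have hB0 : 0 ≤ B := (abs_nonneg _).trans (hB 0 0)
  obtain ⟨D, hD, hD'⟩ := shift_any (x₀ := x₀) R
  set I : ℕ → ℝ := fun k => ∫ x, tent x₀ R x * A k x with hI
  set I0 : ℝ := ∫ x, tent x₀ R x with hI0
  have hIb : ∀ k, |I k| ≤ B * I0 := by
    intro k
    rw [hI, ← Real.norm_eq_abs]
    refine (norm_integral_le_integral_norm _).trans ?_
    rw [hI0, ← integral_const_mul]
    refine integral_mono (hA.integrable R k).norm
      ((Dec146.tent_integrable volume x₀ R).const_mul B) fun x => ?_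
    simp only [Real.norm_eq_abs, abs_mul, abs_of_nonneg (Dec146.tent_nonneg x₀ R x)]
    rw [mul_comm]
    exact mul_le_mul_of_nonneg_right (hB k x) (Dec146.tent_nonneg _ _ _)
  refine ⟨2 * (B * I0) + D * B * C * 2, fun N => ?_⟩
  have h1 : ∀ k, ∫ x, tent x₀ R x * (A k x - (A (k + 1) x + A (k + 1) (x + c k)) / 2) ≤
      (I k - I (k + 1)) + D * B * C * (1 / 2) ^ k := by
    intro k
    have e : ∫ x, tent x₀ R x * (A k x - (A (k + 1) x + A (k + 1) (x + c k)) / 2) =
        I k - I (k + 1) / 2 - (∫ x, tent x₀ R x * A (k + 1) (x + c k)) / 2 := by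
      have i1 := hA.integrable (x₀ := x₀) R k
      have i2 := hA.integrable (x₀ := x₀) R (k + 1)
      have i3 := hA2.integrable (x₀ := x₀) R k
      rw [hI]
      simp only
      have e1 := integral_sub i1 (i2.div_const 2)
      have e2 := integral_sub (i1.sub (i2.div_const 2)) (i3.div_const 2)
      simp only [Pi.sub_apply] at e1 e2
      rw [← integral_div, ← integral_div, ← e1, ← e2]
      congr 1; ext x; ring
    rw [e]
    have h2 := (abs_le.1 (hD' (A (k + 1)) B (hA.cont (k + 1)) hB0 (hB (k + 1)) (c k))).1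
    have h3 : D * B * |c k| ≤ D * B * (C * (1 / 2) ^ k) :=
      mul_le_mul_of_nonneg_left (hc k) (by positivity)
    have h4 : 0 ≤ D * B * (C * (1 / 2) ^ k) := by positivity
    change -(D * B * |c k|) ≤ _ - I (k + 1) at h2
    linarith
  refine (Finset.sum_le_sum fun k _ => h1 k).trans ?_
  rw [Finset.sum_add_distrib, ← Finset.mul_sum, Finset.sum_range_sub' I N]
  have h5 : D * B * C * ∑ k ∈ Finset.range N, (1 / 2 : ℝ) ^ k ≤ D * B * C * 2 :=
    mul_le_mul_of_nonneg_left (geom_bound N) (by positivity)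
  have h6 := abs_le.1 (hIb 0)
  have h7 := abs_le.1 (hIb N)
  linarith [h6.2, h7.1]

end neg

end Crest.Agent.R136.Rb741
end

-- ▼ part R136/Rb2_741
section

/-!
# R136: record blow-up, part 2 (helper741): segments

`RD` : record data. `RegW` : position near the half plane with reference point `w`.
`seg` : an increment of coordinates of the group `m` decreases, up to negligible, if the later
coordinates are raised; it does not see the earlier coordinates.
-/

set_option autoImplicit false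
set_option linter.unusedSectionVars false

open Set Filter Topology MeasureTheory

namespace Crest.Agent.R136.Rb741

open Dec146 (tent)
open Dg219 (Tn)
open Dg262 (Mix Inc SupOn Grp)

variable {ι : Type*} [Fintype ι] [DecidableEq ι]

/-! ### algebra of positions -/

theorem lin_comb (lam w w' : ℝ × ℝ) (α β : ℝ) :
    lin lam (α • w + β • w') = α * lin lam w + β * lin lam w' := by
  simp only [lin, Prod.fst_add, Prod.snd_add, Prod.smul_fst, Prod.smul_snd, smul_eq_mul]; ring

theorem Tn_comb (a b : ι → ℝ) (w w' : ℝ × ℝ) (α β : ℝ) :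
    Tn a b (α • w + β • w') = α • Tn a b w + β • Tn a b w' := by
  funext i
  simp only [Tn, Prod.fst_add, Prod.snd_add, Prod.smul_fst, Prod.smul_snd, smul_eq_mul,
    Pi.add_apply, Pi.smul_apply]; ring

theorem Tn_add (a b : ι → ℝ) (w w' : ℝ × ℝ) : Tn a b (w + w') = Tn a b w + Tn a b w' := by
  have := Tn_comb a b w w' 1 1
  simpa using this

theorem lin_add (lam w w' : ℝ × ℝ) : lin lam (w + w') = lin lam w + lin lam w' := by
  have := lin_comb lam w w' 1 1
  simpa using this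

theorem lin_smul (lam w : ℝ × ℝ) (t : ℝ) : lin lam (t • w) = t * lin lam w := by
  simp only [lin, Prod.smul_fst, Prod.smul_snd, smul_eq_mul]; ring

theorem Tn_smul (a b : ι → ℝ) (w : ℝ × ℝ) (t : ℝ) : Tn a b (t • w) = t • Tn a b w := by
  funext i
  simp only [Tn, Prod.smul_fst, Prod.smul_snd, smul_eq_mul, Pi.smul_apply]; ring

/-- `q` is a legal offset near the half plane, with reference point `w` -/
def RegW (a b : ι → ℝ) (Lc : Set (ι → ℝ)) (lam : ℝ × ℝ) (κ : ℝ) (w : ℝ × ℝ) (q : ι → ℝ) : Prop :=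
  0 < -lin lam w ∧ q - Tn a b w ∈ Lc ∧ ∀ i, |q i - Tn a b w i| ≤ κ * (-lin lam w)

/-- record data near the record point `x₀` -/
structure RD (ν : (ι → ℝ) → ℝ) (P : Set (ι → ℝ)) (K : ℝ) (g : ι → ℕ) (a b : ι → ℝ)
    (wv : ℕ → ℝ × ℝ) (Lc : Set (ι → ℝ)) (rk : ι → ℕ) (rm : ℕ → ι → ℝ) (lam r : ℝ × ℝ)
    (bb : ι → ℝ) (κ0 x₀ δ rr : ℝ) : Prop where
  Kn : 0 ≤ K
  lip : ∀ p q, |ν p - ν q| ≤ K * dist p q
  sup : SupOn ν P
  rw : RW g a b Lc rk rm
  grp : Grp a b g wv
  lamr : lin lam r = 0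
  /-- same sign of the slopes along the record line inside every group -/
  ss : ∀ i j, g i = g j → (Tn a b r i = 0 ∧ Tn a b r j = 0) ∨ 0 < Tn a b r i * Tn a b r j
  /-- a group parallel to the record line: the later coordinates all move in the same direction -/
  par : ∀ i, Tn a b r i = 0 → ∃ t : ℝ, ∀ l, g i < g l → 0 < t * Tn a b r l
  κp : 0 < κ0
  rp : 0 < rr
  leg : ∀ x, |x - x₀| ≤ δ → ∀ q ∈ Reg a b Lc lam κ0, (∀ i, |q i| ≤ rr) →
    bb + x • Tn a b r + q ∈ P

section

variable {ν : (ι → ℝ) → ℝ} {P : Set (ι → ℝ)} {K : ℝ} {g : ι → ℕ} {a b : ι → ℝ}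
  {wv : ℕ → ℝ × ℝ} {Lc : Set (ι → ℝ)} {rk : ι → ℕ} {rm : ℕ → ι → ℝ} {lam r : ℝ × ℝ}
  {bb : ι → ℝ} {κ0 x₀ δ rr : ℝ}

theorem RegW.reg {κ : ℝ} {w : ℝ × ℝ} {q : ι → ℝ} (h : RegW a b Lc lam κ w q) :
    q ∈ Reg a b Lc lam κ :=
  ⟨w, q - Tn a b w, by abel, by linarith [h.1], h.2.1, h.2.2⟩

theorem RegW.mono {κ κ' : ℝ} (hκ : κ ≤ κ') {w : ℝ × ℝ} {q : ι → ℝ}
    (h : RegW a b Lc lam κ w q) : RegW a b Lc lam κ' w q :=
  ⟨h.1, h.2.1, fun i => (h.2.2 i).trans (mul_le_mul_of_nonneg_right hκ h.1.le)⟩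

theorem RegW.comb (hR : RW g a b Lc rk rm) {κ : ℝ} {w w' : ℝ × ℝ} {q q' : ι → ℝ}
    (h : RegW a b Lc lam κ w q) (h' : RegW a b Lc lam κ w' q') {α β : ℝ} (hα : 0 ≤ α)
    (hβ : 0 ≤ β) (hαβ : 0 < α + β) : RegW a b Lc lam κ (α • w + β • w') (α • q + β • q') := by
  have e : α • q + β • q' - Tn a b (α • w + β • w') =
      α • (q - Tn a b w) + β • (q' - Tn a b w') := by
    rw [Tn_comb, smul_sub, smul_sub]; abel
  refine ⟨?_, ?_, ?_⟩
  · rw [lin_comb]
    rcases hα.eq_or_lt with h0 | h0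
    · have : 0 < β := by linarith
      rw [← h0]; nlinarith [h'.1]
    · nlinarith [h.1, h'.1]
  · rw [e]
    exact hR.add _ (hR.smul _ h.2.1 _ hα) _ (hR.smul _ h'.2.1 _ hβ)
  · intro i
    have e2 : (α • q + β • q') i - Tn a b (α • w + β • w') i =
        α * (q i - Tn a b w i) + β * (q' i - Tn a b w' i) := by
      have := congrFun e i
      simpa using this
    rw [e2, lin_comb]
    have h1 := h.2.2 i
    have h2 := h'.2.2 i
    rw [abs_le] at h1 h2 ⊢
    constructor <;> nlinarith [h1.1, h1.2, h2.1, h2.2]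

theorem RegW.smul (hR : RW g a b Lc rk rm) {κ : ℝ} {w : ℝ × ℝ} {q : ι → ℝ}
    (h : RegW a b Lc lam κ w q) {t : ℝ} (ht : 0 < t) : RegW a b Lc lam κ (t • w) (t • q) := by
  have := RegW.comb hR h h ht.le le_rfl (by linarith : 0 < t + 0)
  simpa using this

theorem RegW.seg (hR : RW g a b Lc rk rm) {κ : ℝ} {w w' : ℝ × ℝ} {q q' : ι → ℝ}
    (h : RegW a b Lc lam κ w q) (h' : RegW a b Lc lam κ w' q') {s : ℝ} (hs : 0 ≤ s)
    (hs1 : s ≤ 1) : RegW a b Lc lam κ ((1 - s) • w + s • w') ((1 - s) • q + s • q') :=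
  RegW.comb hR h h' (by linarith) hs (by linarith)

/-- translation along the record line -/
theorem RegW.shift (hR : RW g a b Lc rk rm) (hr : lin lam r = 0) {κ : ℝ} {w : ℝ × ℝ} {q : ι → ℝ}
    (h : RegW a b Lc lam κ w q) (t : ℝ) :
    RegW a b Lc lam κ (w + t • r) (q + t • Tn a b r) := by
  have e : lin lam (w + t • r) = lin lam w := by rw [lin_add, lin_smul, hr]; ring
  have e2 : Tn a b (w + t • r) = Tn a b w + t • Tn a b r := by rw [Tn_add, Tn_smul]
  refine ⟨by rw [e]; exact h.1, ?_, ?_⟩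
  · rw [e2, add_sub_add_right_eq_sub]; exact h.2.1
  · intro i
    rw [e, e2]
    have : (q + t • Tn a b r) i - (Tn a b w + t • Tn a b r) i = q i - Tn a b w i := by
      simp only [Pi.add_apply]; ring
    rw [this]; exact h.2.2 i

theorem reg_smul {κ : ℝ} (hR : RW g a b Lc rk rm) {q : ι → ℝ} (h : q ∈ Reg a b Lc lam κ) {t : ℝ}
    (ht : 0 < t) : t • q ∈ Reg a b Lc lam κ := by
  obtain ⟨w, c, rfl, h1, h2, h3⟩ := h
  refine ⟨t • w, t • c, by rw [Tn_smul, smul_add], ?_, hR.smul _ h2 _ ht.le, fun i => ?_⟩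
  · rw [lin_smul]; nlinarith
  · rw [lin_smul, Pi.smul_apply, smul_eq_mul, abs_mul, abs_of_pos ht]
    have := h3 i
    nlinarith

/-! ### increments -/

theorem hpow_pos (k : ℕ) : (0 : ℝ) < (1 / 2) ^ k := by positivity

theorem two_mul_half (k : ℕ) : (2 : ℝ) ^ k * (1 / 2) ^ k = 1 := by
  rw [← mul_pow]; norm_num

theorem cont_of_lip (hK : 0 ≤ K) (hν : ∀ p q : ι → ℝ, |ν p - ν q| ≤ K * dist p q) :
    Continuous ν := by
  have : LipschitzWith ⟨K, hK⟩ ν := LipschitzWith.of_dist_le_mul fun p q => by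
    rw [Real.dist_eq]; exact hν p q
  exact this.continuous

variable {ρ : ι → ℝ}

theorem Del_ob (hK : 0 ≤ K) (hν : ∀ p q : ι → ℝ, |ν p - ν q| ≤ K * dist p q) (u q : ι → ℝ) :
    Ob (Del ν bb ρ u q) where
  cont := fun k => by
    have h := cont_of_lip hK hν
    unfold Del
    fun_prop
  bdd := by
    refine ⟨K * ‖u‖, fun k x => ?_⟩
    unfold Del
    rw [abs_mul, abs_of_pos (by positivity : (0:ℝ) < 2 ^ k)]
    have h1 := hν (bb + x • ρ + (1 / 2 : ℝ) ^ k • q) (bb + x • ρ + (1 / 2 : ℝ) ^ k • (q + u))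
    have h2 : dist (bb + x • ρ + (1 / 2 : ℝ) ^ k • q) (bb + x • ρ + (1 / 2 : ℝ) ^ k • (q + u)) =
        (1 / 2) ^ k * ‖u‖ := by
      rw [dist_eq_norm, smul_add, show bb + x • ρ + (1 / 2 : ℝ) ^ k • q -
        (bb + x • ρ + ((1 / 2 : ℝ) ^ k • q + (1 / 2 : ℝ) ^ k • u)) = -((1 / 2 : ℝ) ^ k • u) by abel,
        norm_neg, norm_smul, Real.norm_of_nonneg (hpow_pos k).le]
    rw [h2] at h1
    calc (2:ℝ) ^ k * |ν (bb + x • ρ + (1 / 2 : ℝ) ^ k • q) -
        ν (bb + x • ρ + (1 / 2 : ℝ) ^ k • (q + u))| ≤ 2 ^ k * (K * ((1 / 2) ^ k * ‖u‖)) :=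
          mul_le_mul_of_nonneg_left h1 (by positivity)
      _ = K * ‖u‖ * (2 ^ k * (1 / 2) ^ k) := by ring
      _ = K * ‖u‖ := by rw [two_mul_half, mul_one]

theorem Mk_ob (hK : 0 ≤ K) (hν : ∀ p q : ι → ℝ, |ν p - ν q| ≤ K * dist p q) (u v q : ι → ℝ) :
    Ob (Mk ν bb ρ u v q) := (Del_ob hK hν u q).sub (Del_ob hK hν u (q + v))

theorem Del_shift (u q : ι → ℝ) (t : ℝ) (k : ℕ) (x : ℝ) :
    Del ν bb ρ u (q + t • ρ) k x = Del ν bb ρ u q k (x + (1 / 2) ^ k * t) := by
  unfold Del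
  congr 2
  · congr 1
    rw [smul_add, add_smul, smul_smul]; abel
  · congr 1
    rw [smul_add, smul_add, smul_add, add_smul, smul_smul]; abel

theorem Del_half (u q : ι → ℝ) (k : ℕ) (x : ℝ) :
    Del ν bb ρ u q k x =
      (Del ν bb ρ u ((2:ℝ) • q) (k + 1) x + Del ν bb ρ u ((2:ℝ) • q + u) (k + 1) x) / 2 := by
  unfold Del
  have e1 : (1 / 2 : ℝ) ^ (k + 1) • ((2:ℝ) • q) = (1 / 2 : ℝ) ^ k • q := by
    rw [smul_smul]; congr 1; rw [pow_succ]; ring
  have e2 : (1 / 2 : ℝ) ^ (k + 1) • ((2:ℝ) • q + u + u) = (1 / 2 : ℝ) ^ k • (q + u) := by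
    have : (2:ℝ) • q + u + u = (2:ℝ) • (q + u) := by rw [smul_add, two_smul ℝ u]; abel
    rw [this, smul_smul]; congr 1; rw [pow_succ]; ring
  rw [e1, e2, pow_succ]; ring

theorem Del_add (u v q : ι → ℝ) (k : ℕ) (x : ℝ) :
    Del ν bb ρ (u + v) q k x = Del ν bb ρ u q k x + Del ν bb ρ v (q + u) k x := by
  unfold Del
  rw [add_assoc q u v]; ring

theorem Del_zero (q : ι → ℝ) (k : ℕ) (x : ℝ) : Del ν bb ρ 0 q k x = 0 := by
  unfold Del; simp

theorem Mk_eq_mix (u v q : ι → ℝ) (k : ℕ) (x : ℝ) :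
    Mk ν bb ρ u v q k x = 2 ^ k * Mix ν ((1 / 2 : ℝ) ^ k • u) ((1 / 2 : ℝ) ^ k • v)
      (bb + x • ρ + (1 / 2 : ℝ) ^ k • q) := by
  unfold Mk Del Mix
  have e1 : bb + x • ρ + (1 / 2 : ℝ) ^ k • (q + u) =
      bb + x • ρ + (1 / 2 : ℝ) ^ k • q + (1 / 2 : ℝ) ^ k • u := by rw [smul_add]; abel
  have e2 : bb + x • ρ + (1 / 2 : ℝ) ^ k • (q + v) =
      bb + x • ρ + (1 / 2 : ℝ) ^ k • q + (1 / 2 : ℝ) ^ k • v := by rw [smul_add]; abel
  have e3 : bb + x • ρ + (1 / 2 : ℝ) ^ k • (q + v + u) =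
      bb + x • ρ + (1 / 2 : ℝ) ^ k • q + (1 / 2 : ℝ) ^ k • u + (1 / 2 : ℝ) ^ k • v := by
    rw [smul_add, smul_add]; abel
  rw [e1, e2, e3]; ring

theorem Mk_symm (u v q : ι → ℝ) (k : ℕ) (x : ℝ) :
    Mk ν bb ρ u v q k x = Mk ν bb ρ v u q k x := by
  rw [Mk_eq_mix, Mk_eq_mix, Dg262.mix_symm]

/-- exact supermodularity -/
theorem pos_mix (D : RD ν P K g a b wv Lc rk rm lam r bb κ0 x₀ δ rr) {u v q : ι → ℝ}
    (hu : ∀ l, 0 ≤ u l) (hv : ∀ l, 0 ≤ v l) (huv : ∀ l, u l = 0 ∨ v l = 0)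
    (h0 : q ∈ Reg a b Lc lam κ0) (h1 : q + u ∈ Reg a b Lc lam κ0)
    (h2 : q + v ∈ Reg a b Lc lam κ0) (h3 : q + u + v ∈ Reg a b Lc lam κ0) :
    Pos x₀ δ (Mk ν bb (Tn a b r) u v q) := by
  set M : ℝ := ‖q‖ + ‖u‖ + ‖v‖ with hM
  have hM0 : 0 ≤ M := by positivity
  obtain ⟨k₀, hk₀⟩ := (small_ev (C := M) D.rp).exists_forall_of_atTop
  refine Pos.of_ev (Mk_ob D.Kn D.lip u v q) k₀ fun k hk x hx => ?_
  rw [Mk_eq_mix]
  refine mul_nonneg (by positivity) ?_
  have hh := hpow_pos k
  have hMk : M * (1 / 2) ^ k ≤ rr := hk₀ k hk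
  have mem : ∀ s : ι → ℝ, s ∈ Reg a b Lc lam κ0 → ‖s‖ ≤ M →
      bb + x • Tn a b r + (1 / 2 : ℝ) ^ k • s ∈ P := by
    intro s hs hsM
    refine D.leg x hx _ (reg_smul D.rw hs hh) fun i => ?_
    rw [Pi.smul_apply, smul_eq_mul, abs_mul, abs_of_pos hh]
    have h5 : |s i| ≤ M := by
      have := norm_le_pi_norm s i
      rw [Real.norm_eq_abs] at this
      exact this.trans hsM
    calc (1 / 2 : ℝ) ^ k * |s i| ≤ (1 / 2) ^ k * M := mul_le_mul_of_nonneg_left h5 hh.le
      _ ≤ rr := by rw [mul_comm]; exact hMk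
  have n0 := norm_nonneg q
  have n1 := norm_nonneg u
  have n2 := norm_nonneg v
  refine Dg262.mix_nonneg D.sup (fun l => ?_) (fun l => ?_) (fun l => ?_) ?_ ?_ ?_ ?_
  · exact mul_nonneg hh.le (hu l)
  · exact mul_nonneg hh.le (hv l)
  · rcases huv l with h | h
    · left; rw [Pi.smul_apply, h, smul_zero]
    · right; rw [Pi.smul_apply, h, smul_zero]
  · exact mem q h0 (by rw [hM]; linarith)
  · rw [add_assoc, ← smul_add]
    exact mem _ h1 ((norm_add_le _ _).trans (by rw [hM]; linarith))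
  · rw [add_assoc, ← smul_add]
    exact mem _ h2 ((norm_add_le _ _).trans (by rw [hM]; linarith))
  · rw [add_assoc, add_assoc, ← smul_add, ← smul_add, ← add_assoc]
    refine mem _ h3 ((norm_add_le _ _).trans ?_)
    have := norm_add_le q u
    rw [hM]; linarith

end

end Crest.Agent.R136.Rb741
end

-- ▼ part R136/Rb3_741
section

/-!
# R136: record blow-up, part 3 (helper741): comparison of positions

`lower` : an increment of coordinates of the group `m` does not see the earlier coordinates.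
`small` : it decreases, up to negligible, if the later coordinates are raised (same reference).
`seg`   : the same between two arbitrary positions near the half plane.
-/

set_option autoImplicit false
set_option linter.unusedSectionVars false

open Set Filter Topology MeasureTheory

namespace Crest.Agent.R136.Rb741

open Dec146 (tent)
open Dg219 (Tn)
open Dg262 (Mix Inc SupOn Grp)

variable {ι : Type*} [Fintype ι] [DecidableEq ι]

section

variable {ν : (ι → ℝ) → ℝ} {P : Set (ι → ℝ)} {K : ℝ} {g : ι → ℕ} {a b : ι → ℝ}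
  {wv : ℕ → ℝ × ℝ} {Lc : Set (ι → ℝ)} {rk : ι → ℕ} {rm : ℕ → ι → ℝ} {lam r : ℝ × ℝ}
  {bb : ι → ℝ} {κ0 x₀ δ rr : ℝ}

/-- monotone chain of single raises inside the wall cone -/
theorem chain (hR : RW g a b Lc rk rm) {c d : ι → ℝ} (hcd : c ≤ d) (E : Set (ι → ℝ))
    (hc : ∀ e ∈ E, c + e ∈ Lc) (hd : ∀ e ∈ E, d + e ∈ Lc) (Q : (ι → ℝ) → Prop) (h0 : Q c)
    (hs : ∀ y i t, c ≤ y → y + Pi.single i t ≤ d → 0 < t → t = d i - c i →
      (∀ e ∈ E, y + e ∈ Lc) → (∀ e ∈ E, y + Pi.single i t + e ∈ Lc) → Q y →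
      Q (y + Pi.single i t)) : Q d := by
  have main : ∀ (n : ℕ) (y : ι → ℝ), (Finset.univ.filter fun j => y j ≠ d j).card = n → c ≤ y →
      y ≤ d → (∀ j, y j = c j ∨ y j = d j) → (∀ e ∈ E, y + e ∈ Lc) → Q y → Q d := by
    intro n
    induction n with
    | zero =>
      intro y hn _ _ _ _ hQ
      have : y = d := by
        funext j
        by_contra hj
        have : j ∈ Finset.univ.filter fun j => y j ≠ d j := by simp [hj]
        rw [Finset.card_eq_zero.1 hn] at this
        simp at this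
      rwa [← this]
    | succ n ih =>
      intro y hn hcy hyd hcd' hE hQ
      have hne : (Finset.univ.filter fun j => y j ≠ d j).Nonempty := by
        rw [← Finset.card_pos, hn]; omega
      obtain ⟨i, hi, hmin⟩ := Finset.exists_min_image _ rk hne
      have hi' : y i ≠ d i := by simpa using hi
      have hyi : y i = c i := (hcd' i).resolve_right hi'
      have ht : 0 < d i - c i := by
        have := hyd i
        rw [hyi] at this hi'
        exact sub_pos.2 (lt_of_le_of_ne this hi')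
      set y' : ι → ℝ := y + Pi.single i (d i - c i) with hy'
      have hy'i : y' i = d i := by simp [hy', hyi]
      have hy'j : ∀ j, j ≠ i → y' j = y j := by
        intro j hj; simp [hy', Pi.single_eq_of_ne hj]
      have hy'd : y' ≤ d := by
        intro j
        by_cases hj : j = i
        · subst hj; rw [hy'i]
        · rw [hy'j j hj]; exact hyd j
      have hE' : ∀ e ∈ E, y' + e ∈ Lc := by
        intro e he
        have h1 : y' + e = Function.update (y + e) i ((d + e) i) := by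
          funext j
          by_cases hj : j = i
          · subst hj; simp [hy'i]
          · rw [Function.update_of_ne hj, Pi.add_apply, hy'j j hj, Pi.add_apply]
        rw [h1]
        refine hR.raise _ (hE e he) _ (hd e he) (fun j => ?_) i fun j hj => ?_
        · exact add_le_add (hyd j) le_rfl
        · have : y j = d j := by
            by_contra hj'
            have := hmin j (by simp [hj'])
            omega
          rw [Pi.add_apply, Pi.add_apply, this]
      refine ih y' ?_ ?_ hy'd ?_ hE' ?_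
      · have h2 : (Finset.univ.filter fun j => y' j ≠ d j) =
            (Finset.univ.filter fun j => y j ≠ d j).erase i := by
          ext j
          simp only [Finset.mem_filter, Finset.mem_univ, true_and, Finset.mem_erase]
          by_cases hj : j = i
          · subst hj; simp [hy'i]
          · rw [hy'j j hj]; simp [hj]
        rw [h2, Finset.card_erase_of_mem hi, hn]; rfl
      · intro j
        by_cases hj : j = i
        · subst hj; rw [hy'i]; exact hcd j
        · rw [hy'j j hj]; exact hcy j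
      · intro j
        by_cases hj : j = i
        · subst hj; right; exact hy'i
        · rw [hy'j j hj]; exact hcd' j
      · exact hs y i _ hcy hy'd ht rfl hE hE' hQ
  exact main _ c rfl le_rfl hcd (fun j => Or.inl rfl) hc h0

/-- inner chain: the increment `z` at `y` and at `y + γ e_i` -/
theorem lower_step (D : RD ν P K g a b wv Lc rk rm lam r bb κ0 x₀ δ rr) {m : ℕ} {κ : ℝ}
    (hP : PP ν g a b Lc lam bb (Tn a b r) x₀ δ m κ) {w : ℝ × ℝ} (hw : lin lam w < 0)
    {y z : ι → ℝ} {i : ι} {t : ℝ} (gi : g i < m)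
    (hzm : ∀ l, g l ≠ m → z l = 0) (hz : ∀ l, 0 ≤ z l) (ht : 0 ≤ t) (htκ : t ≤ κ * (-lin lam w))
    (hzκ : ∀ l, z l ≤ κ * (-lin lam w))
    (bd : ∀ q : ι → ℝ, y ≤ q → q ≤ y + z → ∀ l, |q l - Tn a b w l| ≤ κ * (-lin lam w))
    (h1 : y - Tn a b w ∈ Lc) (h2 : y + z - Tn a b w ∈ Lc)
    (h3 : y + Pi.single i t - Tn a b w ∈ Lc) (h4 : y + z + Pi.single i t - Tn a b w ∈ Lc) :
    Neg x₀ δ fun k x => Del ν bb (Tn a b r) z y k x -
      Del ν bb (Tn a b r) z (y + Pi.single i t) k x := by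
  have hO : ∀ u q, Ob (Del ν bb (Tn a b r) u q) := fun u q => Del_ob D.Kn D.lip u q
  obtain ⟨Q, hQ⟩ : ∃ Q : (ι → ℝ) → Prop, ∀ y', Q y' ↔ Neg x₀ δ fun k x =>
      Del ν bb (Tn a b r) (y' - y) y k x -
          Del ν bb (Tn a b r) (y' - y) (y + Pi.single i t) k x := ⟨_, fun _ => Iff.rfl⟩
  have hle : y ≤ y + z := fun l => by have := hz l; simp; linarith
  have main : Q (y + z) := by
    refine chain D.rw hle {-Tn a b w, Pi.single i t - Tn a b w} ?_ ?_ Q ?_ ?_
    · intro e he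
      rcases he with rfl | he
      · rwa [← sub_eq_add_neg]
      · rw [mem_singleton_iff.1 he, ← add_sub_assoc]; exact h3
    · intro e he
      rcases he with rfl | he
      · rwa [← sub_eq_add_neg]
      · rw [mem_singleton_iff.1 he, ← add_sub_assoc]; exact h4
    · refine (hQ _).2 (Neg.zero.congr fun k x => ?_)
      rw [sub_self, Del_zero, Del_zero, sub_zero]
    · intro y' j α hy1 hy2 hα hαj hF hF' hQ'
      rw [hQ] at hQ' ⊢
      have gj : g j = m := by
        by_contra h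
        have := hzm j h
        rw [Pi.add_apply, this] at hαj
        linarith
      have hαz : α = z j := by rw [hαj, Pi.add_apply]; ring
      have hm : Neg x₀ δ (Mk ν bb (Tn a b r) (Pi.single i t) (Pi.single j α) y') := by
        have e0 : y' = Tn a b w + (y' - Tn a b w) := by abel
        rw [e0]
        refine hP i j gi (by omega) w (y' - Tn a b w) t α hw ?_ ht htκ hα.le ?_ ?_ ?_
          ?_ ?_
        · intro l
          refine bd y' hy1 (fun l => ?_) l
          have e1 := hy2 l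
          have h0 : 0 ≤ (Pi.single j α : ι → ℝ) l := Dg262.single_nonneg hα.le l
          simp only [Pi.add_apply] at e1 ⊢
          linarith
        · rw [hαz]; exact hzκ j
        · have := hF _ (Or.inl rfl)
          rwa [← sub_eq_add_neg] at this
        · have := hF _ (Or.inr rfl)
          have e1 : y' - Tn a b w + Pi.single i t = y' + (Pi.single i t - Tn a b w) := by abel
          rwa [e1]
        · have := hF' _ (Or.inl rfl)
          have e1 : y' - Tn a b w + Pi.single j α = y' + Pi.single j α + -Tn a b w := by abel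
          rwa [e1]
        · have := hF' _ (Or.inr rfl)
          have e1 : y' - Tn a b w + Pi.single i t + Pi.single j α =
              y' + Pi.single j α + (Pi.single i t - Tn a b w) := by abel
          rwa [e1]
      have hm' : Neg x₀ δ (Mk ν bb (Tn a b r) (Pi.single j α) (Pi.single i t) y') :=
        hm.congr fun k x => Mk_symm _ _ _ _ _
      have := Neg.add ((hO _ _).sub (hO _ _)) (Mk_ob D.Kn D.lip _ _ _) hQ' hm'
      refine this.congr fun k x => ?_
      have e1 : y' + Pi.single j α - y = (y' - y) + Pi.single j α := by abel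
      rw [e1, Del_add, Del_add]
      unfold Mk
      have e2 : y + (y' - y) = y' := by abel
      have e3 : y + Pi.single i t + (y' - y) = y' + Pi.single i t := by abel
      rw [e2, e3]; ring
  have e1 : y + z - y = z := by abel
  rw [hQ, e1] at main
  exact main

/-- an increment of the group `m` does not see the earlier coordinates -/
theorem lower (D : RD ν P K g a b wv Lc rk rm lam r bb κ0 x₀ δ rr) {m : ℕ} {κ : ℝ}
    (hP : PP ν g a b Lc lam bb (Tn a b r) x₀ δ m (2 * κ)) {w : ℝ × ℝ} {p p' z : ι → ℝ}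
    (hzm : ∀ l, g l ≠ m → z l = 0) (hz : ∀ l, 0 ≤ z l)
    (h1 : RegW a b Lc lam κ w p) (h2 : RegW a b Lc lam κ w (p + z))
    (h3 : RegW a b Lc lam κ w p') (h4 : RegW a b Lc lam κ w (p' + z)) (hle : p ≤ p')
    (hd : ∀ l, m ≤ g l → p l = p' l) :
    Neg x₀ δ fun k x => Del ν bb (Tn a b r) z p k x - Del ν bb (Tn a b r) z p' k x := by
  have hO : ∀ u q, Ob (Del ν bb (Tn a b r) u q) := fun u q => Del_ob D.Kn D.lip u q
  have hlin := h1.1
  have bd : ∀ y : ι → ℝ, p ≤ y → y ≤ p' + z → ∀ l, |y l - Tn a b w l| ≤ 2 * κ * (-lin lam w) := by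
    intro y hy1 hy2 l
    have e1 := abs_le.1 (h1.2.2 l)
    have e2 := abs_le.1 (h4.2.2 l)
    have e3 := hy1 l
    have e4 := hy2 l
    have e5 : 0 ≤ κ * (-lin lam w) := (abs_nonneg _).trans (h1.2.2 l)
    rw [abs_le]; constructor <;> linarith [e1.1, e1.2, e2.1, e2.2]
  obtain ⟨Q, hQd⟩ : ∃ Q : (ι → ℝ) → Prop, ∀ y, Q y ↔ Neg x₀ δ fun k x =>
      Del ν bb (Tn a b r) z p k x - Del ν bb (Tn a b r) z y k x := ⟨_, fun _ => Iff.rfl⟩
  suffices H : Q p' from (hQd p').1 H
  refine chain D.rw hle {-Tn a b w, z - Tn a b w} ?_ ?_ Q ?_ ?_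
  rotate_left 2
  · exact (hQd p).2 (Neg.zero.congr fun k x => by ring)
  · intro y i t hpy hyp' ht hti hE hE' hQ
    rw [hQd] at hQ ⊢
    have gi : g i < m := by
      by_contra h
      have := hd i (by omega)
      rw [← this] at hti
      linarith
    have hyp : y ≤ p' := fun l => by
      have := hyp' l
      have h0 : 0 ≤ (Pi.single i t : ι → ℝ) l := Dg262.single_nonneg ht.le l
      simp only [Pi.add_apply] at this
      linarith
    have step : Neg x₀ δ fun k x => Del ν bb (Tn a b r) z y k x -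
        Del ν bb (Tn a b r) z (y + Pi.single i t) k x := by
      refine lower_step D hP (w := w) (by linarith) gi hzm hz ht.le ?_ ?_ ?_ ?_ ?_ ?_ ?_
      · have e1 := abs_le.1 (h1.2.2 i)
        have e2 := abs_le.1 (h3.2.2 i)
        rw [hti]; linarith [e1.1, e1.2, e2.1, e2.2]
      · intro l
        have e1 := abs_le.1 (h1.2.2 l)
        have e2 := abs_le.1 (h2.2.2 l)
        rw [Pi.add_apply] at e2
        linarith [e1.1, e1.2, e2.1, e2.2]
      · intro q hq1 hq2
        exact bd q (hpy.trans hq1) (hq2.trans (add_le_add hyp le_rfl))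
      · have := hE _ (Or.inl rfl)
        rwa [← sub_eq_add_neg] at this
      · have := hE _ (Or.inr rfl)
        rwa [← add_sub_assoc] at this
      · have := hE' _ (Or.inl rfl)
        rwa [← sub_eq_add_neg] at this
      · have := hE' _ (Or.inr rfl)
        have e1 : y + z + Pi.single i t - Tn a b w = y + Pi.single i t + (z - Tn a b w) := by abel
        rwa [e1]
    have := Neg.add ((hO _ _).sub (hO _ _)) ((hO _ _).sub (hO _ _)) hQ step
    exact this.congr fun k x => by ring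
  · intro e he
    rcases he with rfl | he
    · rw [← sub_eq_add_neg]; exact h1.2.1
    · rw [mem_singleton_iff.1 he, ← add_sub_assoc]; exact h2.2.1
  · intro e he
    rcases he with rfl | he
    · rw [← sub_eq_add_neg]; exact h3.2.1
    · rw [mem_singleton_iff.1 he, ← add_sub_assoc]; exact h4.2.1

/-- comparison of two positions with the same reference point -/
theorem small (D : RD ν P K g a b wv Lc rk rm lam r bb κ0 x₀ δ rr) {m : ℕ} {κ : ℝ}
    (hκ0 : κ ≤ κ0)
    (hP : PP ν g a b Lc lam bb (Tn a b r) x₀ δ m (2 * κ)) {w : ℝ × ℝ} {p p' z : ι → ℝ}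
    (hzm : ∀ l, g l ≠ m → z l = 0) (hz : ∀ l, 0 ≤ z l)
    (h1 : RegW a b Lc lam κ w p) (h2 : RegW a b Lc lam κ w (p + z))
    (h3 : RegW a b Lc lam κ w p') (h4 : RegW a b Lc lam κ w (p' + z))
    (hG : ∀ l, g l = m → p l = p' l) (hl : ∀ l, m < g l → p l ≤ p' l) :
    Pos x₀ δ fun k x => Del ν bb (Tn a b r) z p k x - Del ν bb (Tn a b r) z p' k x := by
  have hO : ∀ u q, Ob (Del ν bb (Tn a b r) u q) := fun u q => Del_ob D.Kn D.lip u q
  have hsup : ∀ q q' : ι → ℝ, RegW a b Lc lam κ w q → RegW a b Lc lam κ w q' →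
      RegW a b Lc lam κ w (q ⊔ q') := by
    intro q q' hq hq'
    refine ⟨hq.1, ?_, fun i => ?_⟩
    · have := D.rw.sup _ hq.2.1 _ hq'.2.1
      rwa [← sup_sub] at this
    · rw [Pi.sup_apply]
      rcases le_total (q i) (q' i) with h | h
      · rw [sup_eq_right.2 h]; exact hq'.2.2 i
      · rw [sup_eq_left.2 h]; exact hq.2.2 i
  have e1 : p ⊔ p' + z = (p + z) ⊔ (p' + z) := sup_add _ _ _
  have h5 := hsup _ _ h1 h3
  have h6 : RegW a b Lc lam κ w (p ⊔ p' + z) := by rw [e1]; exact hsup _ _ h2 h4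
  have A1 : Pos x₀ δ fun k x => Del ν bb (Tn a b r) z p k x -
      Del ν bb (Tn a b r) z (p ⊔ p') k x := by
    have e2 : p + (p ⊔ p' - p) = p ⊔ p' := by abel
    have := pos_mix D (u := z) (v := p ⊔ p' - p) (q := p) hz (fun l => ?_) (fun l => ?_)
      (h1.mono hκ0).reg (h2.mono hκ0).reg ?_ ?_
    · unfold Mk at this
      rw [e2] at this
      exact this
    · have : p l ≤ (p ⊔ p') l := le_sup_left
      rw [Pi.sub_apply]; linarith
    · by_cases hlm : g l = m
      · right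
        rw [Pi.sub_apply, Pi.sup_apply, ← hG l hlm, sup_idem, sub_self]
      · left; exact hzm l hlm
    · rw [e2]; exact (h5.mono hκ0).reg
    · have e3 : p + z + (p ⊔ p' - p) = p ⊔ p' + z := by abel
      rw [e3]; exact (h6.mono hκ0).reg
  have A2 : Neg x₀ δ fun k x => Del ν bb (Tn a b r) z p' k x -
      Del ν bb (Tn a b r) z (p ⊔ p') k x := by
    refine lower D hP hzm hz h3 h4 h5 h6 le_sup_right fun l hlm => ?_
    rw [Pi.sup_apply]
    rcases hlm.eq_or_lt with h | h
    · rw [hG l h.symm, sup_idem]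
    · rw [sup_eq_right.2 (hl l h)]
  have A3 := Pos.add ((hO _ _).sub (hO _ _)) ((hO _ _).sub (hO _ _)).neg A1
    (A2.neg.pos ((hO _ _).sub (hO _ _)).neg)
  exact A3.congr fun k x => by ring

theorem near_step (hR : RW g a b Lc rk rm) {κ : ℝ} (hκ : 0 < κ) {w w' : ℝ × ℝ}
    (h : 0 < -lin lam w) (h' : 0 < -lin lam w') :
    ∃ N : ℕ, 0 < N ∧ ∀ s t : ℝ, 0 ≤ s → s ≤ t → t ≤ 1 → (t - s) * N ≤ 1 → ∀ q q' : ι → ℝ,
      RegW a b Lc lam κ w q → RegW a b Lc lam κ w' q' →
      RegW a b Lc lam (2 * κ) ((1 - s) • w + s • w') ((1 - t) • q + t • q') := by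
  set μ := min (-lin lam w) (-lin lam w') with hμ
  have hμ0 : 0 < μ := lt_min h h'
  set M : ℝ := κ * |lin lam (w' - w)| + ‖Tn a b (w' - w)‖ with hM
  have hM0 : 0 ≤ M := by positivity
  obtain ⟨N, hN⟩ := exists_nat_gt (M / (κ * μ))
  have hκμ : 0 < κ * μ := by positivity
  have hN' : M < N * (κ * μ) := by rwa [div_lt_iff₀ hκμ] at hN
  have hN0 : 0 < (N : ℝ) := lt_of_le_of_lt (by positivity) hN
  refine ⟨N, by exact_mod_cast hN0, ?_⟩
  intro s t hs hst ht hts q q' hq hq'
  have H := RegW.seg hR hq hq' (hs.trans hst) ht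
  have eW : (1 - t) • w + t • w' = (1 - s) • w + s • w' + (t - s) • (w' - w) := by
    ext <;> simp <;> ring
  have hls : μ ≤ -lin lam ((1 - s) • w + s • w') := by
    rw [lin_comb]
    have e1 : μ ≤ -lin lam w := min_le_left _ _
    have e2 : μ ≤ -lin lam w' := min_le_right _ _
    nlinarith
  have eT : (1 - t) • q + t • q' - Tn a b ((1 - s) • w + s • w') =
      ((1 - t) • q + t • q' - Tn a b ((1 - t) • w + t • w')) + Tn a b ((t - s) • (w' - w)) := by
    have := congrArg (Tn a b) eW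
    rw [Tn_add a b _ ((t - s) • (w' - w))] at this
    rw [this]; abel
  have hsm : (t - s) * M ≤ κ * μ := by
    have : (t - s) * M ≤ (t - s) * (N * (κ * μ)) :=
      mul_le_mul_of_nonneg_left hN'.le (by linarith)
    nlinarith
  refine ⟨by linarith, ?_, fun i => ?_⟩
  · rw [eT]; exact hR.add _ H.2.1 _ (hR.nat _)
  · have e1 : ((1 - t) • q + t • q') i - Tn a b ((1 - s) • w + s • w') i =
        (((1 - t) • q + t • q') i - Tn a b ((1 - t) • w + t • w') i) +
          (t - s) * Tn a b (w' - w) i := by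
      have := congrFun eT i
      rw [Tn_smul] at this
      simpa using this
    rw [e1]
    have e2 := H.2.2 i
    have e3 : lin lam ((1 - t) • w + t • w') =
        lin lam ((1 - s) • w + s • w') + (t - s) * lin lam (w' - w) := by
      rw [eW, lin_add, lin_smul]
    rw [e3] at e2
    have e4 : |(t - s) * Tn a b (w' - w) i| ≤ (t - s) * ‖Tn a b (w' - w)‖ := by
      rw [abs_mul, abs_of_nonneg (by linarith : 0 ≤ t - s)]
      refine mul_le_mul_of_nonneg_left ?_ (by linarith)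
      have := norm_le_pi_norm (Tn a b (w' - w)) i
      rwa [Real.norm_eq_abs] at this
    have e5 := abs_add_le (((1 - t) • q + t • q') i - Tn a b ((1 - t) • w + t • w') i)
      ((t - s) * Tn a b (w' - w) i)
    have e6 : κ * (-(lin lam ((1 - s) • w + s • w') + (t - s) * lin lam (w' - w))) ≤
        κ * (-lin lam ((1 - s) • w + s • w')) + (t - s) * (κ * |lin lam (w' - w)|) := by
      have := neg_abs_le (lin lam (w' - w))
      have h7 : 0 ≤ (t - s) * κ := mul_nonneg (by linarith) hκ.le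
      nlinarith
    have e7 : (t - s) * (κ * |lin lam (w' - w)|) + (t - s) * ‖Tn a b (w' - w)‖ ≤ κ * μ := by
      rw [← mul_add]; exact hsm
    have e8 : κ * μ ≤ κ * (-lin lam ((1 - s) • w + s • w')) :=
      mul_le_mul_of_nonneg_left hls hκ.le
    linarith

/-- comparison of two positions -/
theorem seg (D : RD ν P K g a b wv Lc rk rm lam r bb κ0 x₀ δ rr) {m : ℕ} {κ : ℝ}
    (hκ : 0 < κ) (hκ0 : 2 * κ ≤ κ0)
    (hP : PP ν g a b Lc lam bb (Tn a b r) x₀ δ m (4 * κ)) {w w' : ℝ × ℝ} {p p' z : ι → ℝ}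
    (hzm : ∀ l, g l ≠ m → z l = 0) (hz : ∀ l, 0 ≤ z l)
    (h1 : RegW a b Lc lam κ w p) (h2 : RegW a b Lc lam κ w (p + z))
    (h3 : RegW a b Lc lam κ w' p') (h4 : RegW a b Lc lam κ w' (p' + z))
    (hG : ∀ l, g l = m → p l = p' l) (hl : ∀ l, m < g l → p l ≤ p' l) :
    Pos x₀ δ fun k x => Del ν bb (Tn a b r) z p k x - Del ν bb (Tn a b r) z p' k x := by
  have hO : ∀ u q, Ob (Del ν bb (Tn a b r) u q) := fun u q => Del_ob D.Kn D.lip u q
  obtain ⟨N, hN, hstep⟩ := near_step (w := w) (w' := w') D.rw hκ h1.1 h3.1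
  have hN' : (0 : ℝ) < N := by exact_mod_cast hN
  have main : ∀ n : ℕ, n ≤ N → Pos x₀ δ fun k x => Del ν bb (Tn a b r) z p k x -
      Del ν bb (Tn a b r) z ((1 - (n : ℝ) / N) • p + ((n : ℝ) / N) • p') k x := by
    intro n
    induction n with
    | zero =>
      intro _
      refine (Neg.zero.pos Ob.zero).congr fun k x => ?_
      simp
    | succ n ih =>
      intro hn
      have hI := ih (by omega)
      set s : ℝ := (n : ℝ) / N with hs
      set t : ℝ := ((n + 1 : ℕ) : ℝ) / N with ht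
      have hs0 : 0 ≤ s := by positivity
      have hst : s ≤ t := by
        rw [hs, ht]; push_cast
        exact div_le_div_of_nonneg_right (by linarith) hN'.le
      have ht1 : t ≤ 1 := by
        rw [ht, div_le_one hN']; exact_mod_cast hn
      have hts : (t - s) * N ≤ 1 := by
        rw [hs, ht]; push_cast
        field_simp; linarith
      have es : ∀ s : ℝ, (1 - s) • p + s • p' + z = (1 - s) • (p + z) + s • (p' + z) := by
        intro s; ext l; simp; ring
      have hsm := small D (m := m) (κ := 2 * κ) hκ0 (by rwa [← mul_assoc, show (2:ℝ) * 2 = 4 by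
        norm_num]) (w := (1 - s) • w + s • w') (p := (1 - s) • p + s • p')
        (p' := (1 - t) • p + t • p') (z := z) hzm hz
        (hstep s s hs0 le_rfl (hst.trans ht1) (by simp) _ _ h1 h3)
        (by rw [es]; exact hstep s s hs0 le_rfl (hst.trans ht1) (by simp) _ _ h2 h4)
        (hstep s t hs0 hst ht1 hts _ _ h1 h3)
        (by rw [es]; exact hstep s t hs0 hst ht1 hts _ _ h2 h4)
        (fun l hlm => by
          simp only [Pi.add_apply, Pi.smul_apply, smul_eq_mul, hG l hlm]; ring)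
        (fun l hlm => by
          simp only [Pi.add_apply, Pi.smul_apply, smul_eq_mul]
          have := hl l hlm
          nlinarith)
      have := Pos.add ((hO _ _).sub (hO _ _)) ((hO _ _).sub (hO _ _)) hI hsm
      exact this.congr fun k x => by ring
  have := main N le_rfl
  rw [div_self hN'.ne'] at this
  exact this.congr fun k x => by simp

end

end Crest.Agent.R136.Rb741
end

-- ▼ part R136/Rb4_741
section

/-!
# R136: record blow-up, part 4 (helper741): steps of a whole group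

`sgn` : if a legal offset vanishes on a group which is not parallel to the record line, its later
coordinates have a fixed sign. `dg1`, `dg2`, `dg3` : the step `y ρ` of the whole group does not see
the other coordinates (up to negligible).
-/

set_option autoImplicit false
set_option linter.unusedSectionVars false

open Set Filter Topology MeasureTheory

namespace Crest.Agent.R136.Rb741

open Dec146 (tent)
open Dg219 (Tn)
open Dg262 (Mix Inc SupOn Grp)

variable {ι : Type*} [Fintype ι] [DecidableEq ι]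

theorem exists_min {f : ι → ℝ} {p : ι → Prop} (h : ∀ l, p l → 0 < f l) :
    ∃ d : ℝ, 0 < d ∧ ∀ l, p l → d ≤ f l := by
  have h1 : ∀ᶠ d : ℝ in 𝓝[>] 0, ∀ l, p l → d ≤ f l := by
    refine Filter.eventually_all.2 fun l => ?_
    by_cases hl : p l
    · have : ∀ᶠ d : ℝ in 𝓝[>] 0, d ≤ f l :=
        nhdsWithin_le_nhds (ge_mem_nhds (h l hl))
      filter_upwards [this] with d hd _ using hd
    · exact Eventually.of_forall fun d hl' => absurd hl' hl
  obtain ⟨d, hd, hd'⟩ := (h1.and self_mem_nhdsWithin).exists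
  exact ⟨d, hd', hd⟩

/-- decomposition of the plane: direction of a group, direction of the record line -/
theorem basis {u r w : ℝ × ℝ} (h : u.1 * r.2 - u.2 * r.1 ≠ 0) :
    w = ((w.1 * r.2 - w.2 * r.1) / (u.1 * r.2 - u.2 * r.1)) • u +
      ((u.1 * w.2 - u.2 * w.1) / (u.1 * r.2 - u.2 * r.1)) • r := by
  ext
  · simp only [Prod.fst_add, Prod.smul_fst, smul_eq_mul]
    rw [div_mul_eq_mul_div, div_mul_eq_mul_div, ← add_div, eq_div_iff h]; ring
  · simp only [Prod.snd_add, Prod.smul_snd, smul_eq_mul]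
    rw [div_mul_eq_mul_div, div_mul_eq_mul_div, ← add_div, eq_div_iff h]; ring

section

variable {ν : (ι → ℝ) → ℝ} {P : Set (ι → ℝ)} {K : ℝ} {g : ι → ℕ} {a b : ι → ℝ}
  {wv : ℕ → ℝ × ℝ} {Lc : Set (ι → ℝ)} {rk : ι → ℕ} {rm : ℕ → ι → ℝ} {lam r : ℝ × ℝ}
  {bb : ι → ℝ} {κ0 x₀ δ rr : ℝ}

theorem det_ne (hg : Grp a b g wv) {i l : ι} (hi : Tn a b r i ≠ 0) (hl : g i < g l) :
    (wv (g i)).1 * r.2 - (wv (g i)).2 * r.1 ≠ 0 := by
  intro h
  have h1 := hg.fix i
  have h2 := hg.up i l hl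
  have h3 : a i * r.1 + b i * r.2 ≠ 0 := hi
  set u := wv (g i)
  -- (a i, b i) kills u; u parallel r; so it kills r unless u = 0
  have e1 : u.1 * (a i * r.1 + b i * r.2) = 0 := by linear_combination r.1 * h1 + b i * h
  have e2 : u.2 * (a i * r.1 + b i * r.2) = 0 := by linear_combination r.2 * h1 - a i * h
  have u1 : u.1 = 0 := (mul_eq_zero.1 e1).resolve_right h3
  have u2 : u.2 = 0 := (mul_eq_zero.1 e2).resolve_right h3
  rw [u1, u2] at h2
  simp at h2

/-- sign of the later coordinates of a legal offset which vanishes on the group of `i` -/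
theorem sgn (hg : Grp a b g wv) (hr : lin lam r = 0) {i l0 : ι} (hi : Tn a b r i ≠ 0)
    (hl0 : g i < g l0) :
    ∃ κs : ℝ, 0 < κs ∧ ∃ σ : ℝ, (σ = 1 ∨ σ = -1) ∧ ∀ κ : ℝ, κ ≤ κs → ∀ w q,
      RegW a b Lc lam κ w q → (∀ j, g j = g i → q j = 0) → ∀ l, g i < g l → 0 < σ * q l := by
  set u := wv (g i) with hu
  have hdet := det_ne (r := r) hg hi hl0
  rw [← hu] at hdet
  obtain ⟨dm, hdm, hdm'⟩ := exists_min (f := Tn a b u) (p := fun l => g i < g l)
    fun l hl => hg.up i l hl
  have hTu : Tn a b u i = 0 := hg.fix i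
  by_cases hlu : lin lam u = 0
  · refine ⟨1, one_pos, 1, Or.inl rfl, ?_⟩
    intro κ _ w q hq
    exfalso
    have h1 := hq.1
    rw [basis (w := w) hdet, lin_comb, hlu, hr] at h1
    simp at h1
  set θ : ℝ := |lin lam u| with hθ
  have hθ0 : 0 < θ := abs_pos.2 hlu
  set Mr : ℝ := ‖Tn a b r‖ / |Tn a b r i| + 1 with hMr
  have hρi : 0 < |Tn a b r i| := abs_pos.2 hi
  have hMr0 : 0 < Mr := by positivity
  set σ : ℝ := if 0 < lin lam u then -1 else 1 with hσ
  have hσ1 : σ = 1 ∨ σ = -1 := by rw [hσ]; split_ifs <;> simp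
  have hσu : σ * lin lam u = -θ := by
    rw [hσ, hθ]; split_ifs with h
    · rw [abs_of_pos h]; ring
    · rw [abs_of_nonpos (not_lt.1 h)]; ring
  have hσσ : σ * σ = 1 := by rcases hσ1 with h | h <;> rw [h] <;> norm_num
  have hσa : |σ| = 1 := by rcases hσ1 with h | h <;> rw [h] <;> simp
  refine ⟨dm / θ / Mr / 2, by positivity, σ, hσ1, ?_⟩
  intro κ hκ w q hq hq0 l hl
  set τ : ℝ := (w.1 * r.2 - w.2 * r.1) / (u.1 * r.2 - u.2 * r.1) with hτ
  set μ : ℝ := (u.1 * w.2 - u.2 * w.1) / (u.1 * r.2 - u.2 * r.1) with hμ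
  have hw : w = τ • u + μ • r := basis hdet
  have hlw : lin lam w = τ * lin lam u := by rw [hw, lin_comb, hr]; ring
  set H : ℝ := -lin lam w with hH
  have hH0 : 0 < H := hq.1
  -- σ τ θ = H
  have hτH : σ * τ * θ = H := by
    have : σ * τ * θ = -(σ * σ) * (τ * lin lam u) + σ * τ * (θ + σ * lin lam u) := by ring
    rw [this, hσσ, hσu, hH, hlw]; ring
  have hTw : ∀ j, Tn a b w j = τ * Tn a b u j + μ * Tn a b r j := by
    intro j
    have := congrFun (Tn_comb a b u r τ μ) j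
    rw [← hw] at this
    simpa using this
  have hκH : 0 ≤ κ * H := (abs_nonneg _).trans (hq.2.2 i)
  have h1 : |μ| * |Tn a b r i| ≤ κ * H := by
    have := hq.2.2 i
    rw [hq0 i rfl, hTw i, hTu, mul_zero, zero_add, zero_sub, abs_neg, abs_mul] at this
    exact this
  have h2 : |μ * Tn a b r l| ≤ κ * H * (‖Tn a b r‖ / |Tn a b r i|) := by
    have e1 : |Tn a b r l| ≤ ‖Tn a b r‖ := by
      have := norm_le_pi_norm (Tn a b r) l
      rwa [Real.norm_eq_abs] at this
    rw [abs_mul]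
    calc |μ| * |Tn a b r l| ≤ |μ| * ‖Tn a b r‖ := mul_le_mul_of_nonneg_left e1 (abs_nonneg _)
      _ = (|μ| * |Tn a b r i|) * (‖Tn a b r‖ / |Tn a b r i|) := by field_simp
      _ ≤ κ * H * (‖Tn a b r‖ / |Tn a b r i|) := mul_le_mul_of_nonneg_right h1 (by positivity)
  have h3 := hq.2.2 l
  have h4 : |q l - τ * Tn a b u l| ≤ κ * H * Mr := by
    have e1 : q l - τ * Tn a b u l = (q l - Tn a b w l) + μ * Tn a b r l := by
      rw [hTw l]; ring
    rw [e1, hMr]
    have := abs_add_le (q l - Tn a b w l) (μ * Tn a b r l)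
    have e2 : κ * H * (‖Tn a b r‖ / |Tn a b r i| + 1) =
      κ * H * (‖Tn a b r‖ / |Tn a b r i|) + κ * H := by ring
    rw [e2]; linarith
  have h5 : |σ * (q l - τ * Tn a b u l)| ≤ κ * H * Mr := by
    rw [abs_mul, hσa, one_mul]; exact h4
  have h6 : H / θ * dm ≤ σ * τ * Tn a b u l := by
    have e1 : σ * τ = H / θ := by rw [eq_div_iff hθ0.ne']; exact hτH
    rw [e1]
    exact mul_le_mul_of_nonneg_left (hdm' l hl) (by positivity)
  have h7 : κ * H * Mr ≤ H / θ * dm / 2 := by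
    have e1 : κ * Mr ≤ dm / θ / 2 := by
      calc κ * Mr ≤ dm / θ / Mr / 2 * Mr := mul_le_mul_of_nonneg_right hκ hMr0.le
        _ = dm / θ / 2 := by field_simp
    calc κ * H * Mr = κ * Mr * H := by ring
      _ ≤ dm / θ / 2 * H := mul_le_mul_of_nonneg_right e1 hH0.le
      _ = H / θ * dm / 2 := by ring
  have h8 : 0 < H / θ * dm := by positivity
  have h9 := (abs_le.1 h5).1
  have e : σ * q l = σ * τ * Tn a b u l + σ * (q l - τ * Tn a b u l) := by ring
  rw [e]; linarith

/-- `seg` with a sign -/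
theorem segs (D : RD ν P K g a b wv Lc rk rm lam r bb κ0 x₀ δ rr) {m : ℕ} {κ : ℝ}
    (hκ : 0 < κ) (hκ0 : 2 * κ ≤ κ0)
    (hP : PP ν g a b Lc lam bb (Tn a b r) x₀ δ m (4 * κ)) {w w' : ℝ × ℝ} {p p' z : ι → ℝ}
    (hzm : ∀ l, g l ≠ m → z l = 0) (hz : ∀ l, 0 ≤ z l)
    (h1 : RegW a b Lc lam κ w p) (h2 : RegW a b Lc lam κ w (p + z))
    (h3 : RegW a b Lc lam κ w' p') (h4 : RegW a b Lc lam κ w' (p' + z))
    (hG : ∀ l, g l = m → p l = p' l) {σ : ℝ} (hσ : σ = 1 ∨ σ = -1)
    (hl : ∀ l, m < g l → 0 ≤ σ * (p' l - p l)) :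
    Pos x₀ δ fun k x => σ * (Del ν bb (Tn a b r) z p k x - Del ν bb (Tn a b r) z p' k x) := by
  rcases hσ with rfl | rfl
  · exact (seg D hκ hκ0 hP hzm hz h1 h2 h3 h4 hG fun l hl' => by linarith [hl l hl']).congr
      fun k x => by ring
  · exact (seg D hκ hκ0 hP hzm hz h3 h4 h1 h2 (fun l hl' => (hG l hl').symm)
      fun l hl' => by linarith [hl l hl']).congr fun k x => by ring

/-- whole group step: doubling -/
theorem dg1 (D : RD ν P K g a b wv Lc rk rm lam r bb κ0 x₀ δ rr) {m : ℕ} {κ : ℝ}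
    (hκ : 0 < κ) (hκ0 : 2 * κ ≤ κ0)
    (hP : PP ν g a b Lc lam bb (Tn a b r) x₀ δ m (4 * κ)) {σ : ℝ} (hσ : σ = 1 ∨ σ = -1)
    (hs : ∀ w q, RegW a b Lc lam κ w q → (∀ j, g j = m → q j = 0) → ∀ l, m < g l → 0 < σ * q l)
    {y : ℝ} {u : ι → ℝ} (hu : ∀ i, g i = m → u i = y * Tn a b r i)
    (hum : ∀ i, g i ≠ m → u i = 0) (hu0 : ∀ i, 0 ≤ u i) {w : ℝ × ℝ} {q : ι → ℝ}
    (h1 : RegW a b Lc lam κ w q) (h2 : RegW a b Lc lam κ w (q + u))
    (hq : ∀ i, g i = m → q i = 0) :
    Neg x₀ δ fun k x => Del ν bb (Tn a b r) u q k x -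
      Del ν bb (Tn a b r) u ((2:ℝ) • q) k x := by
  have hO : ∀ u q, Ob (Del ν bb (Tn a b r) u q) := fun u q => Del_ob D.Kn D.lip u q
  have hσσ : σ * σ = 1 := by rcases hσ with h | h <;> rw [h] <;> norm_num
  set p1 : ι → ℝ := (2:ℝ) • q with hp1
  set p2 : ι → ℝ := (2:ℝ) • q + u + (-y) • Tn a b r with hp2
  have R1 : RegW a b Lc lam κ ((2:ℝ) • w) p1 := RegW.smul D.rw h1 two_pos
  have R1' : RegW a b Lc lam κ ((2:ℝ) • w) (p1 + u) := by
    have := RegW.comb D.rw h1 h2 zero_le_one zero_le_one (by norm_num : (0:ℝ) < 1 + 1)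
    have e1 : (1:ℝ) • w + (1:ℝ) • w = (2:ℝ) • w := by rw [one_smul, two_smul]
    have e2 : (1:ℝ) • q + (1:ℝ) • (q + u) = p1 + u := by
      rw [hp1, one_smul, one_smul, two_smul]; abel
    rwa [e1, e2] at this
  have R2 : RegW a b Lc lam κ ((2:ℝ) • w + (-y) • r) p2 := RegW.shift D.rw D.lamr R1' (-y)
  have R2' : RegW a b Lc lam κ ((2:ℝ) • w + (-y) • r) (p2 + u) := by
    have := RegW.shift D.rw D.lamr (RegW.smul D.rw h2 two_pos) (-y)
    have e2 : (2:ℝ) • (q + u) + (-y) • Tn a b r = p2 + u := by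
      rw [hp2, smul_add, two_smul ℝ u]; abel
    rwa [e2] at this
  have R3 : RegW a b Lc lam κ (w + (-y) • r) (q + u + (-y) • Tn a b r) :=
    RegW.shift D.rw D.lamr h2 (-y)
  have s1 := hs _ _ h1 hq
  have s3 := hs _ _ R3 fun j hj => by
    simp only [Pi.add_apply, Pi.smul_apply, smul_eq_mul, hq j hj, hu j hj]; ring
  have B1 : Pos x₀ δ fun k x => σ * (Del ν bb (Tn a b r) u q k x -
      Del ν bb (Tn a b r) u p1 k x) := by
    refine segs D hκ hκ0 hP hum hu0 h1 h2 R1 R1' (fun l hl => ?_) hσ fun l hl => ?_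
    · rw [hp1, Pi.smul_apply, hq l hl, smul_zero]
    · rw [hp1, Pi.smul_apply, smul_eq_mul]
      have := s1 l hl
      linarith
  have B2 : Pos x₀ δ fun k x => σ * (Del ν bb (Tn a b r) u q k x -
      Del ν bb (Tn a b r) u p2 k x) := by
    refine segs D hκ hκ0 hP hum hu0 h1 h2 R2 R2' (fun l hl => ?_) hσ fun l hl => ?_
    · simp only [hp2, Pi.add_apply, Pi.smul_apply, smul_eq_mul, hq l hl, hu l hl]; ring
    · have := s3 l hl
      simp only [hp2, Pi.add_apply, Pi.smul_apply, smul_eq_mul, hum l (by omega)] at this ⊢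
      linarith
  -- scales
  set c : ℕ → ℝ := fun k => (1 / 2) ^ (k + 1) * y with hc
  have hcb : ∀ k, |c k| ≤ |y| * (1 / 2) ^ k := by
    intro k
    have : (0:ℝ) < (1 / 2) ^ k := by positivity
    rw [hc]; simp only
    rw [abs_mul, abs_of_pos (by positivity : (0:ℝ) < (1 / 2) ^ (k + 1)), pow_succ]
    nlinarith [abs_nonneg y]
  set A : ℕ → ℝ → ℝ := Del ν bb (Tn a b r) u q with hA
  have hAO : Ob A := hO _ _
  have hrec : ∀ k x, A k x = (Del ν bb (Tn a b r) u p1 (k + 1) x +
      Del ν bb (Tn a b r) u p2 (k + 1) (x + c k)) / 2 := by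
    intro k x
    rw [hA, Del_half, hp2]
    congr 2
    have e1 : (2:ℝ) • q + u = ((2:ℝ) • q + u + (-y) • Tn a b r) + y • Tn a b r := by
      rw [add_assoc, ← add_smul]; simp
    conv_lhs => rw [e1, Del_shift]
  have O1 : Ob fun k x => σ * (A k x - Del ν bb (Tn a b r) u p1 k x) :=
    (hAO.sub (hO _ _)).mul_const σ
  have O2 : Ob fun k x => σ * (A k x - Del ν bb (Tn a b r) u p2 k x) :=
    (hAO.sub (hO _ _)).mul_const σ
  have P1 := B1.succ
  have P2 := (Pos.shift O2 B2 hcb)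
  have O2s : Ob fun k x => σ * (A (k + 1) (x + c k) -
      Del ν bb (Tn a b r) u p2 (k + 1) (x + c k)) := (O2.succ).shift c
  have P2s : Pos x₀ δ fun k x => σ * (A (k + 1) (x + c k) -
      Del ν bb (Tn a b r) u p2 (k + 1) (x + c k)) :=
    Pos.shift (F := fun k x => σ * (A (k + 1) x - Del ν bb (Tn a b r) u p2 (k + 1) x))
      O2.succ B2.succ hcb
  have Psum := Pos.add O1.succ O2s P1 P2s
  have htel : Neg x₀ δ fun k x => (-σ) * A k x -
      ((-σ) * A (k + 1) x + (-σ) * A (k + 1) (x + c k)) / 2 := by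
    refine Neg.tel (A := fun k x => (-σ) * A k x) (hAO.mul_const (-σ)) (abs_nonneg y) hcb ?_
    have hh : Pos x₀ δ fun k x => (1 / 2 : ℝ) *
        (σ * (A (k + 1) x - Del ν bb (Tn a b r) u p1 (k + 1) x) +
          σ * (A (k + 1) (x + c k) - Del ν bb (Tn a b r) u p2 (k + 1) (x + c k))) := by
      refine Neg.of_le (((O1.succ.add O2s).mul_const (1/2)).npart) ((O1.succ.add O2s).npart)
        Psum 0 fun k _ x _ => ?_
      rw [abs_of_nonneg (le_max_right _ _), abs_of_nonneg (le_max_right _ _)]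
      have m1 := le_max_left (-(σ * (A (k + 1) x - Del ν bb (Tn a b r) u p1 (k + 1) x) +
          σ * (A (k + 1) (x + c k) - Del ν bb (Tn a b r) u p2 (k + 1) (x + c k)))) 0
      have m2 := le_max_right (-(σ * (A (k + 1) x - Del ν bb (Tn a b r) u p1 (k + 1) x) +
          σ * (A (k + 1) (x + c k) - Del ν bb (Tn a b r) u p2 (k + 1) (x + c k)))) 0
      exact max_le (by linarith) m2
    refine hh.congr fun k x => ?_
    rw [hrec k x]; ring
  have hsum : Neg x₀ δ fun k x => σ * (A (k + 1) x - Del ν bb (Tn a b r) u p1 (k + 1) x) +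
      σ * (A (k + 1) (x + c k) - Del ν bb (Tn a b r) u p2 (k + 1) (x + c k)) := by
    refine (htel.mul_const 2).congr fun k x => ?_
    rw [hrec k x]; ring
  have hN1 := Pos.left O1.succ O2s P1 P2s hsum
  have hN := Neg.of_succ (F := fun k x => σ * (A k x - Del ν bb (Tn a b r) u p1 k x)) hN1
  refine (hN.mul_const σ).congr fun k x => ?_
  rw [← mul_assoc, hσσ, one_mul]

/-- whole group step at two positions which vanish on the group -/
theorem dg2 (D : RD ν P K g a b wv Lc rk rm lam r bb κ0 x₀ δ rr) {m : ℕ} {κ : ℝ}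
    (hκ : 0 < κ) (hκ0 : 2 * κ ≤ κ0)
    (hP : PP ν g a b Lc lam bb (Tn a b r) x₀ δ m (4 * κ)) {σ : ℝ} (hσ : σ = 1 ∨ σ = -1)
    (hs : ∀ w q, RegW a b Lc lam κ w q → (∀ j, g j = m → q j = 0) → ∀ l, m < g l → 0 < σ * q l)
    {y : ℝ} {u : ι → ℝ} (hu : ∀ i, g i = m → u i = y * Tn a b r i)
    (hum : ∀ i, g i ≠ m → u i = 0) (hu0 : ∀ i, 0 ≤ u i) {w w' : ℝ × ℝ} {q q' : ι → ℝ}
    (h1 : RegW a b Lc lam κ w q) (h2 : RegW a b Lc lam κ w (q + u))
    (hq : ∀ i, g i = m → q i = 0)
    (h1' : RegW a b Lc lam κ w' q') (h2' : RegW a b Lc lam κ w' (q' + u))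
    (hq' : ∀ i, g i = m → q' i = 0) :
    Neg x₀ δ fun k x => Del ν bb (Tn a b r) u q k x - Del ν bb (Tn a b r) u q' k x := by
  have hO : ∀ u q, Ob (Del ν bb (Tn a b r) u q) := fun u q => Del_ob D.Kn D.lip u q
  have hσσ : σ * σ = 1 := by rcases hσ with h | h <;> rw [h] <;> norm_num
  have hpow : ∀ (N : ℕ) (w : ℝ × ℝ) (q : ι → ℝ), RegW a b Lc lam κ w q →
      RegW a b Lc lam κ w (q + u) →
      RegW a b Lc lam κ ((2:ℝ) ^ N • w) ((2:ℝ) ^ N • q) ∧
      RegW a b Lc lam κ ((2:ℝ) ^ N • w) ((2:ℝ) ^ N • q + u) := by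
    intro N w q h1 h2
    have h2N : (1:ℝ) ≤ 2 ^ N := one_le_pow₀ (by norm_num)
    refine ⟨RegW.smul D.rw h1 (by positivity), ?_⟩
    have := RegW.comb D.rw h1 h2 (sub_nonneg.2 h2N) zero_le_one (by linarith)
    have e1 : ((2:ℝ) ^ N - 1) • w + (1:ℝ) • w = (2:ℝ) ^ N • w := by rw [← add_smul]; simp
    have e2 : ((2:ℝ) ^ N - 1) • q + (1:ℝ) • (q + u) = (2:ℝ) ^ N • q + u := by
      rw [one_smul, sub_smul, one_smul]; abel
    rwa [e1, e2] at this
  have hdb : ∀ (N : ℕ) (w : ℝ × ℝ) (q : ι → ℝ), RegW a b Lc lam κ w q →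
      RegW a b Lc lam κ w (q + u) → (∀ i, g i = m → q i = 0) →
      Neg x₀ δ fun k x => Del ν bb (Tn a b r) u q k x -
        Del ν bb (Tn a b r) u ((2:ℝ) ^ N • q) k x := by
    intro N w q h1 h2 hq
    induction N with
    | zero => exact Neg.zero.congr fun k x => by simp
    | succ N ih =>
      obtain ⟨H1, H2⟩ := hpow N w q h1 h2
      have := dg1 D hκ hκ0 hP hσ hs hu hum hu0 H1 H2 fun i hi => by
        rw [Pi.smul_apply, hq i hi, smul_zero]
      have := Neg.add ((hO _ _).sub (hO _ _)) ((hO _ _).sub (hO _ _)) ih this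
      refine this.congr fun k x => ?_
      rw [smul_smul, pow_succ, mul_comm (2:ℝ) (2 ^ N)]; ring
  have half : ∀ (w w' : ℝ × ℝ) (q q' : ι → ℝ), RegW a b Lc lam κ w q →
      RegW a b Lc lam κ w (q + u) → (∀ i, g i = m → q i = 0) → RegW a b Lc lam κ w' q' →
      RegW a b Lc lam κ w' (q' + u) → (∀ i, g i = m → q' i = 0) →
      Pos x₀ δ fun k x => σ * (Del ν bb (Tn a b r) u q' k x - Del ν bb (Tn a b r) u q k x) := by
    intro w w' q q' h1 h2 hq h1' h2' hq'
    have hN : ∃ N : ℕ, ∀ l, m < g l → |q' l| ≤ 2 ^ N * (σ * q l) := by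
      have h3 : ∀ᶠ N : ℕ in atTop, ∀ l, m < g l → |q' l| ≤ 2 ^ N * (σ * q l) := by
        refine Filter.eventually_all.2 fun l => ?_
        by_cases hl : m < g l
        · have h4 : Tendsto (fun N : ℕ => (2:ℝ) ^ N * (σ * q l)) atTop atTop :=
            (tendsto_pow_atTop_atTop_of_one_lt (by norm_num)).atTop_mul_const (hs _ _ h1 hq l hl)
          filter_upwards [h4.eventually_ge_atTop |q' l|] with N hN _ using hN
        · exact Eventually.of_forall fun N hl' => absurd hl' hl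
      exact h3.exists
    obtain ⟨N, hN⟩ := hN
    obtain ⟨H1, H2⟩ := hpow N w q h1 h2
    have A1 := segs D hκ hκ0 hP hum hu0 h1' h2' H1 H2 (fun l hl => by
      rw [Pi.smul_apply, hq l hl, smul_zero, hq' l hl]) hσ fun l hl => by
        have h3 := hN l hl
        rw [Pi.smul_apply, smul_eq_mul]
        have h4 : |σ * q' l| = |q' l| := by
          rw [abs_mul]
          rcases hσ with h | h <;> rw [h] <;> simp
        have h5 := (abs_le.1 h4.le).2
        nlinarith
    have A2 := hdb N w q h1 h2 hq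
    have A3 : Neg x₀ δ fun k x => (-σ) * (Del ν bb (Tn a b r) u q k x -
        Del ν bb (Tn a b r) u ((2:ℝ) ^ N • q) k x) := A2.mul_const (-σ)
    have := Pos.add (((hO _ _).sub (hO _ _)).mul_const σ) (((hO _ _).sub (hO _ _)).mul_const (-σ))
      A1 (A3.pos (((hO _ _).sub (hO _ _)).mul_const (-σ)))
    exact this.congr fun k x => by ring
  have H1 := half w w' q q' h1 h2 hq h1' h2' hq'
  have H2 := half w' w q' q h1' h2' hq' h1 h2 hq
  have H3 := Pos.antisymm (((hO _ _).sub (hO _ _)).mul_const σ) H2 (H1.congr fun k x => by ring)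
  refine (H3.mul_const σ).congr fun k x => ?_
  rw [← mul_assoc, hσσ, one_mul]

/-- whole group step at two positions on the record line of the group -/
theorem dg3 (D : RD ν P K g a b wv Lc rk rm lam r bb κ0 x₀ δ rr) {m : ℕ} {κ : ℝ}
    (hκ : 0 < κ) (hκ0 : 2 * κ ≤ κ0)
    (hP : PP ν g a b Lc lam bb (Tn a b r) x₀ δ m (4 * κ)) {σ : ℝ} (hσ : σ = 1 ∨ σ = -1)
    (hs : ∀ w q, RegW a b Lc lam κ w q → (∀ j, g j = m → q j = 0) → ∀ l, m < g l → 0 < σ * q l)
    {y : ℝ} {u : ι → ℝ} (hu : ∀ i, g i = m → u i = y * Tn a b r i)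
    (hum : ∀ i, g i ≠ m → u i = 0) (hu0 : ∀ i, 0 ≤ u i) {w w' : ℝ × ℝ} {q q' : ι → ℝ} (s : ℝ)
    (h1 : RegW a b Lc lam κ w q) (h2 : RegW a b Lc lam κ w (q + u))
    (hq : ∀ i, g i = m → q i = -s * Tn a b r i)
    (h1' : RegW a b Lc lam κ w' q') (h2' : RegW a b Lc lam κ w' (q' + u))
    (hq' : ∀ i, g i = m → q' i = -s * Tn a b r i) :
    Neg x₀ δ fun k x => Del ν bb (Tn a b r) u q k x - Del ν bb (Tn a b r) u q' k x := by
  have hO : ∀ u q, Ob (Del ν bb (Tn a b r) u q) := fun u q => Del_ob D.Kn D.lip u q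
  have sh : ∀ (w : ℝ × ℝ) (q : ι → ℝ), RegW a b Lc lam κ w (q + u) →
      RegW a b Lc lam κ (w + s • r) (q + s • Tn a b r + u) := by
    intro w q h
    have := RegW.shift D.rw D.lamr h s
    have e : q + u + s • Tn a b r = q + s • Tn a b r + u := by abel
    rwa [e] at this
  have H := dg2 D hκ hκ0 hP hσ hs hu hum hu0 (RegW.shift D.rw D.lamr h1 s) (sh w q h2)
    (fun i hi => by simp only [Pi.add_apply, Pi.smul_apply, smul_eq_mul, hq i hi]; ring)
    (RegW.shift D.rw D.lamr h1' s) (sh w' q' h2')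
    (fun i hi => by simp only [Pi.add_apply, Pi.smul_apply, smul_eq_mul, hq' i hi]; ring)
  have := Neg.shift ((hO _ _).sub (hO _ _)) H (c := fun k => -((1 / 2) ^ k * s)) (C := |s|)
    (fun k => by rw [abs_neg, abs_mul, abs_of_pos (hpow_pos k)]; linarith)
  refine this.congr fun k x => ?_
  rw [Del_shift, Del_shift]
  have : x + -((1 / 2 : ℝ) ^ k * s) + (1 / 2) ^ k * s = x := by ring
  rw [this]

end

end Crest.Agent.R136.Rb741
end

-- ▼ part R136/Rb5_741

/-!
# R136: record blow-up, part 5 (helper741): decoupling at the record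

`dom` : induction step for a group which is not parallel to the record line; `parl` : the same for a
parallel group. `pp_all` : all small mixed increments between different groups, at closed legal
offsets near the half plane, are negligible.
-/

set_option autoImplicit false
set_option linter.unusedSectionVars false

open Set Filter Topology MeasureTheory

namespace Crest.Agent.R136.Rb741

open Dec146 (tent)
open Dg219 (Tn)
open Dg262 (Mix Inc SupOn Grp)

variable {ι : Type*} [Fintype ι] [DecidableEq ι]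

section

variable {ν : (ι → ℝ) → ℝ} {P : Set (ι → ℝ)} {K : ℝ} {g : ι → ℕ} {a b : ι → ℝ}
  {wv : ℕ → ℝ × ℝ} {Lc : Set (ι → ℝ)} {rk : ι → ℕ} {rm : ℕ → ι → ℝ} {lam r : ℝ × ℝ}
  {bb : ι → ℝ} {κ0 x₀ δ rr : ℝ}

theorem PP.mono {m : ℕ} {κ κ' : ℝ} (hκ : κ ≤ κ')
    (h : PP ν g a b Lc lam bb (Tn a b r) x₀ δ m κ') :
    PP ν g a b Lc lam bb (Tn a b r) x₀ δ m κ := by
  intro i j hi hij w c α β hw hc hα hα' hβ hβ' h1 h2 h3 h4
  have e : κ * (-lin lam w) ≤ κ' * (-lin lam w) := mul_le_mul_of_nonneg_right hκ (by linarith)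
  exact h i j hi hij w c α β hw (fun l => (hc l).trans e) hα (hα'.trans e) hβ (hβ'.trans e)
    h1 h2 h3 h4

theorem regW_off {κ H : ℝ} {w : ℝ × ℝ} (hw : 0 < -lin lam w) {c : ι → ℝ} (hc : c ∈ Lc)
    (hcb : ∀ l, |c l| ≤ H) (hH : H ≤ κ * (-lin lam w)) :
    RegW a b Lc lam κ w (Tn a b w + c) := by
  refine ⟨hw, ?_, fun i => ?_⟩
  · rwa [add_sub_cancel_left]
  · have : (Tn a b w + c) i - Tn a b w i = c i := by rw [Pi.add_apply]; ring
    rw [this]; exact (hcb i).trans hH

/-- mixed increment between the group `m`, parallel to the record line, and a later coordinate -/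
theorem parl (D : RD ν P K g a b wv Lc rk rm lam r bb κ0 x₀ δ rr) {m : ℕ} {κ : ℝ}
    (hκ : 0 < κ) (hκ0 : 2 * κ ≤ κ0)
    (hP : PP ν g a b Lc lam bb (Tn a b r) x₀ δ m (4 * κ))
    (hm : ∀ i, g i = m → Tn a b r i = 0) {i j : ι} (hi : g i = m) (hij : g i < g j)
    {w : ℝ × ℝ} {c : ι → ℝ} {α β : ℝ} (hw : lin lam w < 0)
    (hc : ∀ l, |c l| ≤ κ / 4 * (-lin lam w)) (hα : 0 ≤ α) (hα' : α ≤ κ / 4 * (-lin lam w))
    (hβ : 0 ≤ β) (hβ' : β ≤ κ / 4 * (-lin lam w)) (h1 : c ∈ Lc) (h2 : c + Pi.single i α ∈ Lc)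
    (h3 : c + Pi.single j β ∈ Lc) (h4 : c + Pi.single i α + Pi.single j β ∈ Lc) :
    Neg x₀ δ (Mk ν bb (Tn a b r) (Pi.single i α) (Pi.single j β) (Tn a b w + c)) := by
  have hO : ∀ u q, Ob (Del ν bb (Tn a b r) u q) := fun u q => Del_ob D.Kn D.lip u q
  have hne : i ≠ j := by rintro rfl; omega
  have hw' : 0 < -lin lam w := by linarith
  obtain ⟨t, ht⟩ := D.par i (hm i hi)
  obtain ⟨dm, hdm, hdm'⟩ := exists_min (f := fun l => t * Tn a b r l) (p := fun l => g i < g l) ht
  set T : ℝ := t * (β / dm) with hT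
  have hTl : ∀ l, g i < g l → β ≤ T * Tn a b r l := by
    intro l hl
    have h5 := hdm' l hl
    have h6 : β / dm * dm = β := by field_simp
    calc β = β / dm * dm := h6.symm
      _ ≤ β / dm * (t * Tn a b r l) := mul_le_mul_of_nonneg_left h5 (by positivity)
      _ = T * Tn a b r l := by rw [hT]; ring
  have sg : ∀ (i : ι) (α : ℝ), 0 ≤ α → ∀ l, 0 ≤ (Pi.single i α : ι → ℝ) l := fun i α hα l =>
    Dg262.single_nonneg hα l
  have hH : κ / 4 * (-lin lam w) + κ / 4 * (-lin lam w) + κ / 4 * (-lin lam w) ≤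
      κ * (-lin lam w) := by nlinarith
  have b1 : ∀ l, |c l| ≤ κ * (-lin lam w) := fun l => (hc l).trans (by nlinarith)
  have b2 : ∀ (i : ι) (α : ℝ), 0 ≤ α → α ≤ κ / 4 * (-lin lam w) → ∀ l,
      |(c + Pi.single i α : ι → ℝ) l| ≤ κ / 4 * (-lin lam w) + κ / 4 * (-lin lam w) := by
    intro i α hα hα' l
    rw [Pi.add_apply]
    exact (abs_add_le _ _).trans (add_le_add (hc l) ((Dg262.single_abs hα l).trans hα'))
  have b3 : ∀ l, |(c + Pi.single i α + Pi.single j β : ι → ℝ) l| ≤ κ * (-lin lam w) := by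
    intro l
    change |(c + Pi.single i α : ι → ℝ) l + (Pi.single j β : ι → ℝ) l| ≤ _
    have h5 := b2 i α hα hα' l
    have h6 := (Dg262.single_abs hβ (i := j) l).trans hβ'
    exact (abs_add_le _ _).trans (by linarith)
  have R1 : RegW a b Lc lam κ w (Tn a b w + c) := regW_off hw' h1 b1 le_rfl
  have R2 : RegW a b Lc lam κ w (Tn a b w + c + Pi.single i α) := by
    rw [add_assoc]; exact regW_off hw' h2 (b2 i α hα hα') (by linarith [hH, hc i, abs_nonneg (c i)])
  have R3 : RegW a b Lc lam κ w (Tn a b w + c + Pi.single j β) := by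
    rw [add_assoc]; exact regW_off hw' h3 (b2 j β hβ hβ') (by linarith [hH, hc i, abs_nonneg (c i)])
  have R4 : RegW a b Lc lam κ w (Tn a b w + c + Pi.single j β + Pi.single i α) := by
    have e : Tn a b w + c + Pi.single j β + Pi.single i α =
        Tn a b w + (c + Pi.single i α + Pi.single j β) := by abel
    rw [e]; exact regW_off hw' h4 b3 le_rfl
  have S1 := RegW.shift D.rw D.lamr R1 T
  have S2 : RegW a b Lc lam κ (w + T • r) (Tn a b w + c + T • Tn a b r + Pi.single i α) := by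
    have := RegW.shift D.rw D.lamr R2 T
    have e : Tn a b w + c + Pi.single i α + T • Tn a b r =
        Tn a b w + c + T • Tn a b r + Pi.single i α := by abel
    rwa [e] at this
  have A1 : Pos x₀ δ (Mk ν bb (Tn a b r) (Pi.single i α) (Pi.single j β) (Tn a b w + c)) := by
    refine pos_mix D (sg i α hα) (sg j β hβ) (fun l => ?_) (R1.mono (by linarith)).reg
      (R2.mono (by linarith)).reg (R3.mono (by linarith)).reg ?_
    · by_cases hl : l = i
      · right; subst hl; rw [Pi.single_eq_of_ne hne]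
      · left; rw [Pi.single_eq_of_ne hl]
    · have e : Tn a b w + c + Pi.single i α + Pi.single j β =
        Tn a b w + c + Pi.single j β + Pi.single i α := by abel
      rw [e]; exact (R4.mono (by linarith)).reg
  have A2 : Pos x₀ δ fun k x => Del ν bb (Tn a b r) (Pi.single i α) (Tn a b w + c + Pi.single j β)
      k x - Del ν bb (Tn a b r) (Pi.single i α) (Tn a b w + c + T • Tn a b r) k x := by
    refine seg D hκ hκ0 hP (fun l hl => ?_) (sg i α hα) R3 R4 S1 S2 (fun l hl => ?_)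
      fun l hl => ?_
    · rw [Pi.single_eq_of_ne]; rintro rfl; exact hl hi
    · have hlj : l ≠ j := by rintro rfl; omega
      simp only [Pi.add_apply, Pi.smul_apply, smul_eq_mul, hm l hl, Pi.single_eq_of_ne hlj]; ring
    · have h5 := hTl l (by omega)
      have h6 := (le_abs_self _).trans (Dg262.single_abs hβ (i := j) l)
      simp only [Pi.add_apply, Pi.smul_apply, smul_eq_mul]
      linarith
  have O1 := Mk_ob (bb := bb) (ρ := Tn a b r) D.Kn D.lip (Pi.single i α) (Pi.single j β)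
    (Tn a b w + c)
  have O2 := (hO (Pi.single i α) (Tn a b w + c + Pi.single j β)).sub
    (hO (Pi.single i α) (Tn a b w + c + T • Tn a b r))
  have A3 := Pos.add O1 O2 A1 A2
  have A4 : Neg x₀ δ fun k x => Del ν bb (Tn a b r) (Pi.single i α) (Tn a b w + c) k x -
      Del ν bb (Tn a b r) (Pi.single i α) (Tn a b w + c) k (x + (1 / 2) ^ k * T) := by
    refine Neg.par (A := Del ν bb (Tn a b r) (Pi.single i α) (Tn a b w + c)) (hO _ _)
      (c := fun k => (1 / 2) ^ k * T) (C := |T|) (abs_nonneg T) (fun k => ?_) ?_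
    · rw [abs_mul, abs_of_pos (hpow_pos k)]; linarith
    · refine A3.congr fun k x => ?_
      unfold Mk
      rw [Del_shift]; ring
  refine Pos.left O1 O2 A1 A2 (A4.congr fun k x => ?_)
  unfold Mk
  rw [Del_shift]; ring

/-- restriction of a vector to the group `m` -/
def rst (g : ι → ℕ) (m : ℕ) (v : ι → ℝ) : ι → ℝ := fun i => if g i = m then v i else 0

theorem rst_in {m : ℕ} {v : ι → ℝ} {i : ι} (h : g i = m) : rst g m v i = v i := if_pos h

theorem rst_off {m : ℕ} {v : ι → ℝ} {i : ι} (h : g i ≠ m) : rst g m v i = 0 := if_neg h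

set_option maxHeartbeats 4000000 in
/-- mixed increment between the group `m`, not parallel to the record line, and a later
coordinate, reference point `τ • wv m` -/
theorem dom0 (D : RD ν P K g a b wv Lc rk rm lam r bb κ0 x₀ δ rr) {m : ℕ} {κ : ℝ}
    (hκ : 0 < κ) (hκ0 : 2 * κ ≤ κ0)
    (hP : PP ν g a b Lc lam bb (Tn a b r) x₀ δ m (4 * κ)) {σ : ℝ} (hσ : σ = 1 ∨ σ = -1)
    (hs : ∀ w q, RegW a b Lc lam κ w q → (∀ j, g j = m → q j = 0) → ∀ l, m < g l → 0 < σ * q l)
    {y0 : ℝ} (hy0 : ∀ i, g i = m → 0 < y0 * Tn a b r i) (hy1 : |y0| = 1)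
    (hu0 : ∀ i, g i = m → Tn a b (wv m) i = 0)
    (hup : ∀ l, m < g l → 0 < Tn a b (wv m) l) :
    ∃ ε : ℝ, 0 < ε ∧ ∀ i j, g i = m → m < g j → ∀ (τ : ℝ) (c : ι → ℝ) (α β H : ℝ),
      H = -lin lam (τ • wv m) → 0 < H → (∀ l, |c l| ≤ ε * H) → 0 ≤ α → α ≤ ε * H →
      0 ≤ β → β ≤ ε * H → c ∈ Lc → c + Pi.single i α ∈ Lc → c + Pi.single j β ∈ Lc →
      c + Pi.single i α + Pi.single j β ∈ Lc →
      Neg x₀ δ (Mk ν bb (Tn a b r) (Pi.single i α) (Pi.single j β) (Tn a b (τ • wv m) + c)) := by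
  have hO : ∀ u q, Ob (Del ν bb (Tn a b r) u q) := fun u q => Del_ob D.Kn D.lip u q
  have sg : ∀ (i : ι) (α : ℝ), 0 ≤ α → ∀ l, 0 ≤ (Pi.single i α : ι → ℝ) l := fun i α hα l =>
    Dg262.single_nonneg hα l
  obtain ⟨dρ, hdρ, hdρ'⟩ := exists_min (f := fun i => y0 * Tn a b r i) (p := fun i => g i = m) hy0
  obtain ⟨du, hdu, hdu'⟩ := exists_min (f := Tn a b (wv m)) (p := fun l => m < g l) hup
  obtain ⟨C, hC0, hroom⟩ := D.rw.room m
  set N : ℝ := ‖Tn a b r‖ with hN
  have hN0 : 0 ≤ N := norm_nonneg _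
  set B : ℝ := ‖rm m‖ with hB
  have hB0 : 0 ≤ B := norm_nonneg _
  set a1 : ℝ := 2 * N / dρ + 2 with ha1
  have ha10 : 2 ≤ a1 := by have : 0 ≤ 2 * N / dρ := by positivity
                           linarith
  set a2 : ℝ := C * a1 + 2 with ha2
  have ha20 : 2 ≤ a2 := by have : 0 ≤ C * a1 := by positivity
                           linarith
  set a3 : ℝ := a1 + a2 * B with ha3
  have ha30 : 2 ≤ a3 := by have : 0 ≤ a2 * B := by positivity
                           linarith
  set a4 : ℝ := (1 + a2 * B) / du with ha4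
  have ha40 : 0 < a4 := by positivity
  set Λ : ℝ := |lin lam (wv m)| with hΛ
  have hΛ0 : 0 ≤ Λ := abs_nonneg _
  set ε : ℝ := min (κ / (2 * a3)) (1 / (2 * (a4 * Λ + 1))) with hε
  have hε0 : 0 < ε := lt_min (by positivity) (by positivity)
  have hε1 : ε * a3 ≤ κ / 2 := by
    calc ε * a3 ≤ κ / (2 * a3) * a3 := mul_le_mul_of_nonneg_right (min_le_left _ _) (by linarith)
      _ = κ / 2 := by field_simp
  have hε2 : ε * (a4 * Λ) ≤ 1 / 2 := by
    have h5 : ε * (a4 * Λ + 1) ≤ 1 / 2 := by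
      calc ε * (a4 * Λ + 1) ≤ 1 / (2 * (a4 * Λ + 1)) * (a4 * Λ + 1) :=
            mul_le_mul_of_nonneg_right (min_le_right _ _) (by positivity)
        _ = 1 / 2 := by field_simp
    nlinarith
  clear_value ε a4 a3 a2 a1
  refine ⟨ε, hε0, ?_⟩
  intro i j hi hj τ c α β H hH hH0 hc hα hα' hβ hβ' h1 h2 h3 h4
  set u := wv m with hu
  have hne : i ≠ j := by rintro rfl; omega
  have hεH : 0 < ε * H := by positivity
  set S : ℝ := 2 * (ε * H) / dρ with hS
  have hS0 : 0 < S := by positivity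
  have hSρ : ∀ l, g l = m → 2 * (ε * H) ≤ S * (y0 * Tn a b r l) := by
    intro l hl
    calc 2 * (ε * H) = S * dρ := by rw [hS]; field_simp
      _ ≤ S * (y0 * Tn a b r l) := mul_le_mul_of_nonneg_left (hdρ' l hl) hS0.le
  have hSN : ∀ l, |S * (y0 * Tn a b r l)| ≤ S * N := by
    intro l
    rw [abs_mul, abs_mul, hy1, one_mul, abs_of_pos hS0]
    refine mul_le_mul_of_nonneg_left ?_ hS0.le
    have := norm_le_pi_norm (Tn a b r) l
    rwa [Real.norm_eq_abs] at this
  set A : ℝ := a1 * (ε * H) with hA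
  have hA0 : 0 ≤ A := by positivity
  have hAS : A = S * N + 2 * (ε * H) := by rw [hA, ha1, hS]; field_simp
  set R : ℝ := a2 * (ε * H) with hR
  have hR0 : 0 ≤ R := by positivity
  have hRC : C * A ≤ R := by rw [hR, ha2, hA]; nlinarith
  have hR2 : 2 * (ε * H) ≤ R := by rw [hR]; nlinarith
  -- vectors on the group
  set s1 : ι → ℝ := rst g m fun l => S * (y0 * Tn a b r l) with hs1
  set z1 : ι → ℝ := rst g m c + s1 with hz1
  set z2 : ι → ℝ := Pi.single i α with hz2
  set z3 : ι → ℝ := s1 - rst g m c - z2 with hz3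
  clear_value z3 z2 z1 s1 R A S
  have z2m : ∀ l, g l ≠ m → z2 l = 0 := by
    intro l hl; rw [hz2, Pi.single_eq_of_ne]; rintro rfl; exact hl hi
  have z1m : ∀ l, g l ≠ m → z1 l = 0 := by
    intro l hl; rw [hz1, Pi.add_apply, hs1, rst_off hl, rst_off hl, add_zero]
  have z3m : ∀ l, g l ≠ m → z3 l = 0 := by
    intro l hl
    rw [hz3, Pi.sub_apply, Pi.sub_apply, hs1, rst_off hl, rst_off hl, z2m l hl]; ring
  have z20 : ∀ l, 0 ≤ z2 l := by rw [hz2]; exact sg i α hα
  have z2b : ∀ l, |z2 l| ≤ ε * H := by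
    intro l; rw [hz2]; exact (Dg262.single_abs hα l).trans hα'
  have z10 : ∀ l, 0 ≤ z1 l := by
    intro l
    by_cases hl : g l = m
    · rw [hz1, Pi.add_apply, hs1, rst_in hl, rst_in hl]
      have := (abs_le.1 (hc l)).1
      have := hSρ l hl
      linarith
    · rw [z1m l hl]
  have z30 : ∀ l, 0 ≤ z3 l := by
    intro l
    by_cases hl : g l = m
    · rw [hz3, Pi.sub_apply, Pi.sub_apply, hs1, rst_in hl, rst_in hl]
      have e1 := (abs_le.1 (hc l)).2
      have e2 := hSρ l hl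
      have e3 := (le_abs_self _).trans (z2b l)
      linarith
    · rw [z3m l hl]
  -- corners of the group: e0 = - s1, e1 = rst c, e2 = rst c + z2, e3 = s1
  have room : ∀ e : ι → ℝ, (∀ l, |e l| ≤ A) → (∃ c' ∈ Lc, ∀ l, g l = m → c' l = e l) →
      e + R • rm m ∈ Lc ∧ ∀ l, |(e + R • rm m) l| ≤ ε * H * a3 := by
    intro e he hc'
    refine ⟨hroom e A R hA0 he hc' hRC, fun l => ?_⟩
    have e1 : |rm m l| ≤ B := by
      have := norm_le_pi_norm (rm m) l
      rwa [Real.norm_eq_abs] at this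
    rw [Pi.add_apply, Pi.smul_apply, smul_eq_mul]
    calc |e l + R * rm m l| ≤ |e l| + |R * rm m l| := abs_add_le _ _
      _ ≤ A + R * B := by
        rw [abs_mul, abs_of_nonneg hR0]
        exact add_le_add (he l) (mul_le_mul_of_nonneg_left e1 hR0)
      _ = ε * H * a3 := by rw [hA, hR, ha3]; ring
  have bs1 : ∀ l, |s1 l| ≤ A := by
    intro l
    by_cases hl : g l = m
    · rw [hs1, rst_in hl]; exact (hSN l).trans (by rw [hAS]; linarith)
    · rw [hs1, rst_off hl, abs_zero]; exact hA0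
  have E0 := room (-s1) (fun l => by rw [Pi.neg_apply, abs_neg]; exact bs1 l)
    ⟨Tn a b ((-(S * y0)) • r), D.rw.nat _, fun l hl => by
      rw [Tn_smul, Pi.smul_apply, smul_eq_mul, Pi.neg_apply, hs1, rst_in hl]; ring⟩
  have E1 := room (rst g m c) (fun l => by
      by_cases hl : g l = m
      · rw [rst_in hl]; exact (hc l).trans (by rw [hA]; nlinarith)
      · rw [rst_off hl, abs_zero]; exact hA0)
    ⟨c, h1, fun l hl => by rw [rst_in hl]⟩
  have E2 := room (rst g m c + z2) (fun l => by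
      have e3 := z2b l
      by_cases hl : g l = m
      · rw [Pi.add_apply, rst_in hl]
        exact (abs_add_le _ _).trans (by rw [hA]; have := hc l; nlinarith)
      · rw [Pi.add_apply, rst_off hl, z2m l hl, add_zero, abs_zero]; exact hA0)
    ⟨c + z2, h2, fun l hl => by rw [Pi.add_apply, Pi.add_apply, rst_in hl]⟩
  have E3 := room s1 bs1
    ⟨Tn a b ((S * y0) • r), D.rw.nat _, fun l hl => by
      rw [Tn_smul, Pi.smul_apply, smul_eq_mul, hs1, rst_in hl]; ring⟩
  -- the two room positions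
  set τ' : ℝ := -(a4 * (ε * H)) with hτ'
  have hτ'0 : τ' ≤ 0 := by rw [hτ']; have : 0 ≤ a4 * (ε * H) := by positivity
                           linarith
  set w' : ℝ × ℝ := (τ + τ') • u with hw'
  set w'' : ℝ × ℝ := τ • u with hw''
  have hHw' : H / 2 ≤ -lin lam w' := by
    have e1 : lin lam w' = lin lam w'' + τ' * lin lam u := by
      rw [hw', hw'', lin_smul, lin_smul]; ring
    have e2 : τ' * lin lam u ≤ a4 * (ε * H) * Λ := by
      rw [hτ', hΛ]
      have e3 := neg_abs_le (lin lam u)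
      have e4 : 0 ≤ a4 * (ε * H) := by positivity
      nlinarith
    have e5 : a4 * (ε * H) * Λ = ε * (a4 * Λ) * H := by ring
    have e6 : ε * (a4 * Λ) * H ≤ 1 / 2 * H := mul_le_mul_of_nonneg_right hε2 hH0.le
    rw [e1]; linarith
  have hw'p : 0 < -lin lam w' := by linarith
  have hw''p : 0 < -lin lam w'' := by rw [← hH]; exact hH0
  have k1 : ε * H * a3 ≤ κ * (-lin lam w') := by
    calc ε * H * a3 = ε * a3 * H := by ring
      _ ≤ κ / 2 * H := mul_le_mul_of_nonneg_right hε1 hH0.le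
      _ = κ * (H / 2) := by ring
      _ ≤ κ * (-lin lam w') := mul_le_mul_of_nonneg_left hHw' hκ.le
  have k2 : ε * H * a3 ≤ κ * (-lin lam w'') := by
    rw [← hH]
    calc ε * H * a3 = ε * a3 * H := by ring
      _ ≤ κ / 2 * H := mul_le_mul_of_nonneg_right hε1 hH0.le
      _ ≤ κ * H := by nlinarith
  have Tw' : ∀ l, g l = m → Tn a b w' l = 0 := by
    intro l hl; rw [hw', Tn_smul, Pi.smul_apply, hu0 l hl, smul_zero]
  have Tw'' : ∀ l, g l = m → Tn a b w'' l = 0 := by
    intro l hl; rw [hw'', Tn_smul, Pi.smul_apply, hu0 l hl, smul_zero]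
  have rmG : ∀ l, g l = m → rm m l = 0 := fun l hl => D.rw.rm_in m l hl
  -- positions `pos w e = Tn w + (e + R rm)`
  set q' : ι → ℝ := Tn a b w' + (-s1 + R • rm m) with hq'
  set q'' : ι → ℝ := Tn a b w'' + (-s1 + R • rm m) with hq''
  clear_value q' q''
  have f1 : ∀ v : ℝ × ℝ, Tn a b v + (-s1 + R • rm m) + z1 =
      Tn a b v + (rst g m c + R • rm m) := by intro v; rw [hz1]; abel
  have f2 : ∀ v : ℝ × ℝ, Tn a b v + (-s1 + R • rm m) + z1 + z2 =
      Tn a b v + (rst g m c + z2 + R • rm m) := by intro v; rw [hz1]; abel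
  have f3 : ∀ v : ℝ × ℝ, Tn a b v + (-s1 + R • rm m) + z1 + z2 + z3 =
      Tn a b v + (s1 + R • rm m) := by intro v; rw [hz1, hz3]; abel
  have P0' : RegW a b Lc lam κ w' q' := by rw [hq']; exact regW_off hw'p E0.1 E0.2 k1
  have P1' : RegW a b Lc lam κ w' (q' + z1) := by rw [hq', f1]; exact regW_off hw'p E1.1 E1.2 k1
  have P2' : RegW a b Lc lam κ w' (q' + z1 + z2) := by
    rw [hq', f2]; exact regW_off hw'p E2.1 E2.2 k1
  have P3' : RegW a b Lc lam κ w' (q' + z1 + z2 + z3) := by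
    rw [hq', f3]; exact regW_off hw'p E3.1 E3.2 k1
  have P0'' : RegW a b Lc lam κ w'' q'' := by rw [hq'']; exact regW_off hw''p E0.1 E0.2 k2
  have P1'' : RegW a b Lc lam κ w'' (q'' + z1) := by
    rw [hq'', f1]; exact regW_off hw''p E1.1 E1.2 k2
  have P2'' : RegW a b Lc lam κ w'' (q'' + z1 + z2) := by
    rw [hq'', f2]; exact regW_off hw''p E2.1 E2.2 k2
  have P3'' : RegW a b Lc lam κ w'' (q'' + z1 + z2 + z3) := by
    rw [hq'', f3]; exact regW_off hw''p E3.1 E3.2 k2
  have gq : ∀ l, g l = m → q' l = q'' l := by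
    intro l hl
    simp only [hq', hq'', Pi.add_apply, Tw' l hl, Tw'' l hl]
  have lq : ∀ l, m < g l → q' l ≤ q'' l := by
    intro l hl
    have e1 : Tn a b w' l ≤ Tn a b w'' l := by
      rw [hw', hw'', Tn_smul, Tn_smul, Pi.smul_apply, Pi.smul_apply, smul_eq_mul, smul_eq_mul]
      have := hup l hl
      nlinarith
    simp only [hq', hq'', Pi.add_apply]
    linarith
  -- three comparisons
  have C1 : Pos x₀ δ fun k x => Del ν bb (Tn a b r) z1 q' k x -
      Del ν bb (Tn a b r) z1 q'' k x := seg D hκ hκ0 hP z1m z10 P0' P1' P0'' P1'' gq lq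
  have C2 : Pos x₀ δ fun k x => Del ν bb (Tn a b r) z2 (q' + z1) k x -
      Del ν bb (Tn a b r) z2 (q'' + z1) k x :=
    seg D hκ hκ0 hP z2m z20 P1' P2' P1'' P2''
      (fun l hl => by rw [Pi.add_apply, Pi.add_apply, gq l hl])
      (fun l hl => by rw [Pi.add_apply, Pi.add_apply]; linarith [lq l hl])
  have C3 : Pos x₀ δ fun k x => Del ν bb (Tn a b r) z3 (q' + z1 + z2) k x -
      Del ν bb (Tn a b r) z3 (q'' + z1 + z2) k x :=
    seg D hκ hκ0 hP z3m z30 P2' P3' P2'' P3''
      (fun l hl => by simp only [Pi.add_apply, gq l hl])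
      (fun l hl => by simp only [Pi.add_apply]; linarith [lq l hl])
  -- the whole step
  have hU : z1 + (z2 + z3) = s1 + s1 := by rw [hz1, hz3]; abel
  have HU : Neg x₀ δ fun k x => Del ν bb (Tn a b r) (z1 + (z2 + z3)) q' k x -
      Del ν bb (Tn a b r) (z1 + (z2 + z3)) q'' k x := by
    have g1 : ∀ l, g l = m → (-s1 : ι → ℝ) l = -(S * y0) * Tn a b r l := by
      intro l hl; rw [Pi.neg_apply, hs1, rst_in hl]; ring
    refine dg3 D hκ hκ0 hP hσ hs (y := 2 * (S * y0)) (fun l hl => ?_) (fun l hl => ?_)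
      (fun l => ?_) (S * y0) P0' ?_ (fun l hl => ?_) P0'' ?_ (fun l hl => ?_)
    · rw [hU, Pi.add_apply, hs1, rst_in hl]; ring
    · rw [hU, Pi.add_apply, hs1, rst_off hl]; ring
    · rw [Pi.add_apply, Pi.add_apply]; linarith [z10 l, z20 l, z30 l]
    · have e : q' + (z1 + (z2 + z3)) = q' + z1 + z2 + z3 := by abel
      rw [e]; exact P3'
    · rw [hq', Pi.add_apply, Pi.add_apply, Tw' l hl, g1 l hl, Pi.smul_apply, rmG l hl]; simp
    · have e : q'' + (z1 + (z2 + z3)) = q'' + z1 + z2 + z3 := by abel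
      rw [e]; exact P3''
    · rw [hq'', Pi.add_apply, Pi.add_apply, Tw'' l hl, g1 l hl, Pi.smul_apply, rmG l hl]; simp
  have C4 : Neg x₀ δ fun k x => Del ν bb (Tn a b r) z2 (q' + z1) k x -
      Del ν bb (Tn a b r) z2 (q'' + z1) k x := by
    refine Pos.left ((hO _ _).sub (hO _ _)) (((hO _ _).sub (hO _ _)).add ((hO _ _).sub (hO _ _)))
      C2 (Pos.add ((hO _ _).sub (hO _ _)) ((hO _ _).sub (hO _ _)) C1 C3) (HU.congr fun k x => ?_)
    rw [Del_add z1 (z2 + z3) q', Del_add z2 z3 (q' + z1), Del_add z1 (z2 + z3) q'',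
      Del_add z2 z3 (q'' + z1)]; ring
  -- sandwich
  have b2 : ∀ (i : ι) (α : ℝ), 0 ≤ α → α ≤ ε * H → ∀ l,
      |(c + Pi.single i α : ι → ℝ) l| ≤ ε * H * 2 := by
    intro i α hα hα' l
    rw [Pi.add_apply]
    refine (abs_add_le _ _).trans ?_
    have := (Dg262.single_abs hα (i := i) l).trans hα'
    linarith [hc l]
  have k3 : ε * H * 2 ≤ κ * (-lin lam w'') := by
    refine le_trans ?_ k2
    exact mul_le_mul_of_nonneg_left ha30 hεH.le
  have R1 : RegW a b Lc lam κ w'' (Tn a b w'' + c) :=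
    regW_off hw''p h1 (fun l => (hc l).trans (by linarith)) k3
  have R2 : RegW a b Lc lam κ w'' (Tn a b w'' + c + z2) := by
    rw [add_assoc]
    refine regW_off hw''p h2 ?_ k3
    rw [hz2]; exact b2 i α hα hα'
  have R3 : RegW a b Lc lam κ w'' (Tn a b w'' + c + Pi.single j β) := by
    rw [add_assoc]; exact regW_off hw''p h3 (b2 j β hβ hβ') k3
  have R4 : RegW a b Lc lam κ w'' (Tn a b w'' + c + Pi.single j β + z2) := by
    have e : Tn a b w'' + c + Pi.single j β + z2 =
        Tn a b w'' + (c + z2 + Pi.single j β) := by abel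
    rw [e]
    refine regW_off hw''p h4 (fun l => ?_) k3
    by_cases hl : l = j
    · rw [Pi.add_apply, Pi.add_apply, hz2, hl, Pi.single_eq_of_ne hne.symm, Pi.single_eq_same,
        add_zero]
      refine (abs_add_le _ _).trans ?_
      rw [abs_of_nonneg hβ]; linarith [hc j]
    · rw [Pi.add_apply, Pi.single_eq_of_ne hl, add_zero, hz2]
      exact b2 i α hα hα' l
  have A1 : Pos x₀ δ (Mk ν bb (Tn a b r) z2 (Pi.single j β) (Tn a b w'' + c)) := by
    refine pos_mix D z20 (sg j β hβ) (fun l => ?_) (R1.mono (by linarith)).reg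
      (R2.mono (by linarith)).reg (R3.mono (by linarith)).reg ?_
    · by_cases hl : l = i
      · right; subst hl; rw [Pi.single_eq_of_ne hne]
      · left; rw [hz2, Pi.single_eq_of_ne hl]
    · have e : Tn a b w'' + c + z2 + Pi.single j β =
        Tn a b w'' + c + Pi.single j β + z2 := by abel
      rw [e]; exact (R4.mono (by linarith)).reg
  have bB : ∀ l, rm m l ≤ B := by
    intro l
    have := norm_le_pi_norm (rm m) l
    rw [Real.norm_eq_abs] at this
    exact (le_abs_self _).trans this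
  have A2 : Pos x₀ δ fun k x => Del ν bb (Tn a b r) z2 (q' + z1) k x -
      Del ν bb (Tn a b r) z2 (Tn a b w'' + c) k x := by
    refine seg D hκ hκ0 hP z2m z20 P1' P2' R1 R2 (fun l hl => ?_) (fun l hl => ?_)
    · rw [hq', f1, Pi.add_apply, Pi.add_apply, Pi.add_apply, Tw' l hl, Tw'' l hl, Pi.smul_apply,
        rmG l hl, rst_in hl, smul_zero, add_zero]
    · rw [hq', f1, Pi.add_apply, Pi.add_apply, Pi.add_apply, Pi.smul_apply,
        rst_off (by omega), zero_add, smul_eq_mul, hw', hw'', Tn_smul, Tn_smul, Pi.smul_apply,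
        Pi.smul_apply, smul_eq_mul, smul_eq_mul]
      have e1 := hdu' l hl
      have e2 : τ' * Tn a b u l ≤ -((1 + a2 * B) * (ε * H)) := by
        have e3 : τ' * Tn a b u l ≤ τ' * du := mul_le_mul_of_nonpos_left e1 hτ'0
        have e4 : τ' * du = -((1 + a2 * B) * (ε * H)) := by rw [hτ', ha4]; field_simp
        linarith
      have e5 : R * rm m l ≤ R * B := mul_le_mul_of_nonneg_left (bB l) hR0
      have e6 : R * B = a2 * B * (ε * H) := by rw [hR]; ring
      have e7 := (abs_le.1 (hc l)).1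
      linarith
  have A3 : Pos x₀ δ fun k x => Del ν bb (Tn a b r) z2 (Tn a b w'' + c + Pi.single j β) k x -
      Del ν bb (Tn a b r) z2 (q'' + z1) k x := by
    refine seg D hκ hκ0 hP z2m z20 R3 R4 P1'' P2'' (fun l hl => ?_) (fun l hl => ?_)
    · have hlj : l ≠ j := by rintro rfl; omega
      rw [hq'', f1, Pi.add_apply, Pi.add_apply, Pi.add_apply, Pi.add_apply, Tw'' l hl,
        Pi.smul_apply, rmG l hl, rst_in hl, smul_zero, Pi.single_eq_of_ne hlj]
      ring
    · rw [hq'', f1, Pi.add_apply, Pi.add_apply, Pi.add_apply, Pi.add_apply, Pi.smul_apply,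
        rst_off (by omega), zero_add, smul_eq_mul]
      have e1 := D.rw.rm_off m l (by omega)
      have e2 := (abs_le.1 (hc l)).2
      have e3 := (le_abs_self _).trans ((Dg262.single_abs hβ (i := j) l).trans hβ')
      have e4 : R ≤ R * rm m l := le_mul_of_one_le_right hR0 e1
      linarith
  have O1 := Mk_ob (bb := bb) (ρ := Tn a b r) D.Kn D.lip z2 (Pi.single j β) (Tn a b w'' + c)
  refine Pos.left O1 (((hO _ _).sub (hO _ _)).add ((hO _ _).sub (hO _ _))) A1
    (Pos.add ((hO _ _).sub (hO _ _)) ((hO _ _).sub (hO _ _)) A2 A3) (C4.congr fun k x => ?_)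
  unfold Mk; ring

/-- induction step -/
theorem pp_succ (D : RD ν P K g a b wv Lc rk rm lam r bb κ0 x₀ δ rr) {m : ℕ} {κ1 : ℝ}
    (hκ1 : 0 < κ1) (hP1 : PP ν g a b Lc lam bb (Tn a b r) x₀ δ m κ1) :
    ∃ κ : ℝ, 0 < κ ∧ PP ν g a b Lc lam bb (Tn a b r) x₀ δ (m + 1) κ := by
  by_cases hex : ∃ i l, g i = m ∧ g i < g l
  swap
  · refine ⟨κ1, hκ1, ?_⟩
    intro i j hi hij
    by_cases him : g i = m
    · exact absurd ⟨i, j, him, hij⟩ hex
    · exact hP1 i j (by omega) hij
  obtain ⟨i0, l0, hi0, hl0⟩ := hex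
  by_cases hρ : Tn a b r i0 = 0
  · -- parallel group
    have hm : ∀ i, g i = m → Tn a b r i = 0 := by
      intro i hi
      rcases D.ss i0 i (by rw [hi0, hi]) with h | h
      · exact h.2
      · rw [hρ, zero_mul] at h; exact absurd h (lt_irrefl 0)
    set κ : ℝ := min (κ1 / 4) (κ0 / 2) with hκ
    have hκp : 0 < κ := lt_min (by linarith) (by linarith [D.κp])
    have hκ4 : 4 * κ ≤ κ1 := by have := min_le_left (κ1 / 4) (κ0 / 2); linarith
    have hκ0 : 2 * κ ≤ κ0 := by have := min_le_right (κ1 / 4) (κ0 / 2); linarith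
    have hP := hP1.mono hκ4
    refine ⟨κ / 4, by linarith, ?_⟩
    intro i j hi hij w c α β hw hc hα hα' hβ hβ' h1 h2 h3 h4
    by_cases him : g i = m
    · exact parl D hκp hκ0 hP hm him hij hw hc hα hα' hβ hβ' h1 h2 h3 h4
    · exact (hP.mono (by linarith : κ / 4 ≤ 4 * κ)) i j (by omega) hij w c α β hw hc hα hα' hβ hβ'
        h1 h2 h3 h4
  · obtain ⟨κs, hκs, σ, hσ, hs⟩ := sgn (Lc := Lc) D.grp D.lamr hρ hl0
    rw [hi0] at hs
    set κ : ℝ := min (min (κ1 / 4) (κ0 / 2)) κs with hκ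
    have hκp : 0 < κ := lt_min (lt_min (by linarith) (by linarith [D.κp])) hκs
    have e1 : κ ≤ min (κ1 / 4) (κ0 / 2) := min_le_left _ _
    have hκ4 : 4 * κ ≤ κ1 := by have := min_le_left (κ1 / 4) (κ0 / 2); linarith
    have hκ0 : 2 * κ ≤ κ0 := by have := min_le_right (κ1 / 4) (κ0 / 2); linarith
    have hκκs : κ ≤ κs := min_le_right _ _
    have hP := hP1.mono hκ4
    have hdet := det_ne (r := r) D.grp hρ hl0
    rw [hi0] at hdet
    have hys : ∃ y0 : ℝ, |y0| = 1 ∧ ∀ i, g i = m → 0 < y0 * Tn a b r i := by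
      rcases lt_or_gt_of_ne hρ with h | h
      · refine ⟨-1, by simp, fun i hi => ?_⟩
        rcases D.ss i0 i (by rw [hi0, hi]) with h' | h'
        · exact absurd h'.1 hρ
        · by_contra h''
          nlinarith [not_lt.1 h'']
      · refine ⟨1, by simp, fun i hi => ?_⟩
        rcases D.ss i0 i (by rw [hi0, hi]) with h' | h'
        · exact absurd h'.1 hρ
        · by_contra h''
          nlinarith [not_lt.1 h'']
    obtain ⟨y0, hy1, hy2⟩ := hys
    have hu0 : ∀ i, g i = m → Tn a b (wv m) i = 0 := by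
      intro i hi
      have := D.grp.fix i
      rw [hi] at this; exact this
    have hup : ∀ l, m < g l → 0 < Tn a b (wv m) l := by
      intro l hl
      have := D.grp.up i0 l (by omega)
      rw [hi0] at this; exact this
    obtain ⟨ε, hε, hdom⟩ := dom0 D hκp hκ0 hP hσ (fun w q h => hs κ hκκs w q h) hy2 hy1 hu0 hup
    refine ⟨min ε κ, lt_min hε hκp, ?_⟩
    intro i j hi hij w c α β hw hc hα hα' hβ hβ' h1 h2 h3 h4
    by_cases him : g i = m
    · set τ : ℝ := (w.1 * r.2 - w.2 * r.1) / ((wv m).1 * r.2 - (wv m).2 * r.1) with hτ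
      set μ : ℝ := ((wv m).1 * w.2 - (wv m).2 * w.1) / ((wv m).1 * r.2 - (wv m).2 * r.1) with hμ
      have hwe : w = τ • wv m + μ • r := basis hdet
      have hlw : lin lam w = lin lam (τ • wv m) := by rw [hwe, lin_add, lin_smul lam r, D.lamr]; ring
      have hmin : min ε κ * (-lin lam w) ≤ ε * (-lin lam w) :=
        mul_le_mul_of_nonneg_right (min_le_left _ _) (by linarith)
      have H := hdom i j him (by omega) τ c α β (-lin lam w) (by rw [hlw]) (by linarith)
        (fun l => (hc l).trans hmin) hα (hα'.trans hmin) hβ (hβ'.trans hmin) h1 h2 h3 h4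
      have H2 := Neg.shift (Mk_ob D.Kn D.lip _ _ _) H (c := fun k => (1 / 2) ^ k * μ) (C := |μ|)
        (fun k => by rw [abs_mul, abs_of_pos (hpow_pos k)]; linarith)
      refine H2.congr fun k x => ?_
      have e2 : Tn a b w + c = Tn a b (τ • wv m) + c + μ • Tn a b r := by
        conv_lhs => rw [hwe, Tn_add, Tn_smul a b r]
        abel
      have e3 : Tn a b (τ • wv m) + c + μ • Tn a b r + Pi.single j β =
          Tn a b (τ • wv m) + c + Pi.single j β + μ • Tn a b r := by abel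
      unfold Mk
      rw [e2, e3, Del_shift, Del_shift]
    · exact (hP.mono (by
        have := min_le_right ε κ
        linarith : min ε κ ≤ 4 * κ)) i j (by omega) hij w c α β hw hc hα hα' hβ hβ'
        h1 h2 h3 h4

theorem pp_all (D : RD ν P K g a b wv Lc rk rm lam r bb κ0 x₀ δ rr) (m : ℕ) :
    ∃ κ : ℝ, 0 < κ ∧ PP ν g a b Lc lam bb (Tn a b r) x₀ δ m κ := by
  induction m with
  | zero => exact ⟨1, one_pos, fun i j hi => by omega⟩
  | succ m ih =>
    obtain ⟨κ, hκ, h⟩ := ih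
    exact pp_succ D hκ h

/-- **record blow-up**: all small mixed increments between different groups, at closed legal
offsets near the half plane, are negligible along the record line -/
theorem pp (D : RD ν P K g a b wv Lc rk rm lam r bb κ0 x₀ δ rr) :
    ∃ κ : ℝ, 0 < κ ∧ ∀ i j, g i < g j → ∀ (w : ℝ × ℝ) (c : ι → ℝ) (α β : ℝ), lin lam w < 0 →
      (∀ l, |c l| ≤ κ * (-lin lam w)) → 0 ≤ α → α ≤ κ * (-lin lam w) → 0 ≤ β →
      β ≤ κ * (-lin lam w) → c ∈ Lc → c + Pi.single i α ∈ Lc → c + Pi.single j β ∈ Lc →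
      c + Pi.single i α + Pi.single j β ∈ Lc →
      Neg x₀ δ (Mk ν bb (Tn a b r) (Pi.single i α) (Pi.single j β) (Tn a b w + c)) := by
  obtain ⟨κ, hκ, h⟩ := pp_all D (Finset.univ.sup g + 1)
  exact ⟨κ, hκ, fun i j hij => h i j (Nat.lt_succ_of_le (Finset.le_sup (Finset.mem_univ i))) hij⟩

end

end Crest.Agent.R136.Rb741
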