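import Crest.Agent.R136.Rc6_146
import Crest.Agent.R136.Rc5_683
import Crest.Agent.R136.Rbw_219
import Crest.Agent.R136.Rbw4_219_Mg

-- ▼ part R136/Rc7_683
section

/-!
# R136: record blow-up, Rc7 (helper683): wiring of the complete output `RecOut`

* `Good2`, `First.ae_good2` : good points, including stationarity (146's `StatK`)
* `First.recOut` : third blow-up at `0`: 146's `RecOut` for all surfaces
* **`rec_tan2`**, **`ae_rec_tan2`** : as in `Rc5_683` with `RecOut` instead of `OutH`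
-/

set_option autoImplicit false
set_option linter.unusedSectionVars false
set_option linter.unusedVariables false

open Set Filter Topology Metric MeasureTheory

namespace Crest.Agent.R136.Rc683

open Dg219 Rc146
open Dg262 (X X_cont SupOn)
open Crest.Agent.R138
open Rb548 (RegO)

variable {ι W : Type*} [Fintype ι] [DecidableEq ι] [Fintype W]

section

variable {Q : Walls ι W} {y0 ρ0 : ι → ℝ} {T : Type*} {sf : T → Srf ι} {c0 : T → ℝ} {K : ℝ}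
  {G : (ι → ℝ) → ℝ}

/-- good points of the record line of the blow-up, with stationarity -/
def Good2 (Q : Walls ι W) (sf : T → Srf ι) (c0 : T → ℝ) (G : (ι → ℝ) → ℝ) (σ : ℝ) : Prop :=
  Good Q sf c0 G σ ∧ ∀ s, ∀ k ∈ (sf s).S, StatK (sf s).g ((sf s).LW Q (c0 s)) G
    (rmH (Q.rm (sf s).g) (sf s).a (sf s).b (sf s).n (sf s).l (c0 s)) (sf s).dh k
    (σ * lf ((sf s).n k) (sf s).r)

theorem First.ae_good2 [Countable T] (hF : First Q y0 ρ0 sf c0 K G)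
    (ok : ∀ s, (sf s).Ok Q y0 ρ0) (hK : 0 ≤ K) (hc0 : ∀ s, 0 < c0 s)
    (hsub : ∀ s, (sf s).LW Q (c0 s) ⊆ Q.L y0 ρ0 0) :
    ∀ᵐ σ : ℝ, Good2 Q sf c0 G σ := by
  have h2 : ∀ᵐ σ : ℝ, ∀ s, ∀ k ∈ (sf s).S, StatK (sf s).g ((sf s).LW Q (c0 s)) G
      (rmH (Q.rm (sf s).g) (sf s).a (sf s).b (sf s).n (sf s).l (c0 s)) (sf s).dh k
      (σ * lf ((sf s).n k) (sf s).r) := by
    refine ae_all_iff.2 fun s => ?_
    exact ae_statH ((ok s).geoH (hc0 s)) (hF.sep s) hK (fun p _ q _ => hF.lip p q)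
      (fun p hp q hq h1 h2 => hF.smod p (hsub s hp) q (hsub s hq) (hsub s h1) (hsub s h2))
      (fun z => Walls.Tn_mem z) (ok s).sd (fun k hk => (mem_SH.1 hk).1)
      fun k hk => (ok s).lr_ne hk
  filter_upwards [hF.ae_good ok hK hc0, h2] with σ h1 h2
  exact ⟨h1, h2⟩

/-- **second and third blow-up**, at good points of the record line -/
theorem First.recOut (hF : First Q y0 ρ0 sf c0 K G)
    (ok : ∀ s, (sf s).Ok Q y0 ρ0) (hK : 0 ≤ K) (hc0 : ∀ s, 0 < c0 s)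
    (hsub : ∀ s, (sf s).LW Q (c0 s) ⊆ Q.L y0 ρ0 0) {σ : ℝ} (hσ : Good2 Q sf c0 G σ)
    {k t : ℕ → ℝ} {lam lam2 : (ι → ℝ) → ℝ}
    (H : BUp (Q.L y0 ρ0 0) (Q.L y0 ρ0 0) G (σ • ρ0) k lam)
    (H2 : BUp (Q.L y0 ρ0 0) (Q.L y0 ρ0 0) lam 0 t lam2) (s : T) :
    ∃ (φ : ℕ → (ι → ℝ) → ℝ) (r : ℕ → ℝ), RecOut (sf s).g (sf s).S ((sf s).LW Q (c0 s))
      ((sf s).L Q) (sf s).a (sf s).b (sf s).l (sf s).dh (sf s).n lam2 φ r := by
  have e : Tn (sf s).a (sf s).b (σ • (sf s).r) = σ • ρ0 := by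
    rw [Rc146.Tn_smul, (ok s).dir]
  have hg := (ok s).geoH (hc0 s)
  obtain ⟨r, -, hr, -⟩ := recOut_of hg (hF.sep s) Walls.cone (hsub s) hF.mono hF.smod hK
    (fun p _ q _ => hF.lip p q) (fun c hc d hd' w hw => by
      rw [Pi.sup_apply]
      exact sup_le ((hc w hw).trans (Walls.rhs_mono w le_sup_left))
        ((hd' w hw).trans (Walls.rhs_mono w le_sup_right))) (fun z => Walls.Tn_mem z) (ok s).sd
    (fun k hk => (mem_SH.1 hk).1) (sf s).l (z := σ • (sf s).r) (by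
      refine Tn_memLH Walls.cone (hc0 s) ?_
      rw [Rc146.lf_smul, (ok s).lr, mul_zero])
    (fun k hk => by rw [Rc146.lf_smul]; exact hσ.1 s k hk)
    (fun k hk => by rw [Rc146.lf_smul]; exact hσ.2 s k hk) (h := k) (lam := lam)
    (by rw [e]; exact H) H2
  exact ⟨_, _, hr⟩

end

/-! ### the final tangents -/

/-- **tangents along moving base points of the record line** with `RecOut` for all surfaces, for the
profile `ν = f j0` together with further Lipschitz functions `f j` -/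
theorem rec_tan2 {Q : Walls ι W} {lo hi y0 ρ0 : ι → ℝ} {T : Type*} [Countable T] {sf : T → Srf ι}
    (ok : ∀ s, (sf s).Ok Q y0 ρ0) {c0 : T → ℝ} (hc0 : ∀ s, 0 < c0 s)
    (hsub : ∀ s, (sf s).LW Q (c0 s) ⊆ Q.L y0 ρ0 0) {J : Type*} [Finite J]
    {f : J → (ι → ℝ) → ℝ} {j0 : J} {ν' : (ι → ℝ) → ℝ} {K : ℝ} (hK : 0 ≤ K)
    (hν : ∀ j, ∀ p ∈ Q.P lo hi, ∀ q ∈ Q.P lo hi, |f j p - f j q| ≤ K * dist p q)
    (hm : ∀ p ∈ Q.P lo hi, ∀ q ∈ Q.P lo hi, p ≤ q →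
      0 ≤ f j0 p - f j0 q ∧ f j0 p - f j0 q ≤ ∑ i, (q i - p i))
    (hs : SupOn (f j0) (Q.P lo hi)) (he : ∀ p ∈ Q.P lo hi, ν' p = f j0 p) {ξ : ℝ}
    (hξ : (ξ, (0:ℝ)) ∈ Q.O lo hi y0 ρ0 0) (hcr : ∀ s, (sf s).CrossAt Q ν' (y0 + ξ • ρ0) (c0 s))
    {h : ℕ → ℝ} (hpos : ∀ l, 0 < h l) (h0 : Tendsto h atTop (𝓝 0)) :
    ∃ (x h' : ℕ → ℝ) (lam : J → (ι → ℝ) → ℝ), Tendsto x atTop (𝓝 ξ) ∧ (∀ m, 0 < h' m) ∧
      Tendsto h' atTop (𝓝 0) ∧
      (∀ j, Ex926.IsTan (Q.P lo hi) (Q.L y0 ρ0 0) (f j) (fun m => y0 + x m • ρ0) h' (lam j)) ∧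
      ∀ s, ∃ (φ : ℕ → (ι → ℝ) → ℝ) (r : ℕ → ℝ), RecOut (sf s).g (sf s).S ((sf s).LW Q (c0 s))
        ((sf s).L Q) (sf s).a (sf s).b (sf s).l (sf s).dh (sf s).n (lam j0) φ r := by
  have hM : Dg219.Cone (Q.L y0 ρ0 0) := Walls.cone
  have hcl : IsClosed (Q.L y0 ρ0 0) := Walls.isClosed_L
  -- first blow-up
  obtain ⟨φ1, hφ1, g, hg⟩ := exists_tan (J := J) (P := fun _ => Q.P lo hi)
    (D := fun _ => Q.L y0 ρ0 0) (fun _ => hcl) hK
    (fun j p hp q hq => by rw [← dist_eq_norm]; exact hν j p hp q hq)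
    (x := fun _ => y0 + ξ • ρ0) hpos (fun _ C => legal_line hξ hpos h0 C) (fun _ => hM.zero)
  set h1 : ℕ → ℝ := fun l => h (φ1 l) with hh1
  have h1pos : ∀ l, 0 < h1 l := fun l => hpos _
  have h10 : Tendsto h1 atTop (𝓝 0) := h0.comp hφ1.tendsto_atTop
  obtain ⟨G, hGe, hF⟩ := first_of ok hc0 hsub hK (hν j0) hm hs he hcr h1pos h10 (hg j0)
  obtain ⟨σ, hσ⟩ := (hF.ae_good2 ok hK hc0 hsub).exists
  -- second blow-up
  set k0 : ℕ → ℝ := fun m => 1 / ((m : ℝ) + 1) with hk0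
  have k0pos : ∀ m, 0 < k0 m := fun m => by simp only [hk0]; positivity
  have k00 : Tendsto k0 atTop (𝓝 0) := tendsto_one_div_add_atTop_nhds_zero_nat
  have hglip : ∀ j, ∀ p ∈ Q.L y0 ρ0 0, ∀ q ∈ Q.L y0 ρ0 0, |g j p - g j q| ≤ K * ‖p - q‖ := by
    intro j p hp q hq
    have := (bup_of_tan h1pos h10 (hg j)).lip (hν j) p hp q hq
    rwa [dist_eq_norm] at this
  obtain ⟨φ2, hφ2, lam, hlam⟩ := exists_tan (J := J) (P := fun _ => Q.L y0 ρ0 0)
    (D := fun _ => Q.L y0 ρ0 0) (ν := g) (fun _ => hcl) hK hglip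
    (x := fun _ => σ • ρ0) k0pos (fun _ C => Eventually.of_forall fun m c hc _ =>
      hM.add _ (smul_mem_M σ) _ (hM.smul _ hc _ (k0pos m).le)) (fun _ => hM.zero)
  set k1 : ℕ → ℝ := fun m => k0 (φ2 m) with hk1
  have k1pos : ∀ l, 0 < k1 l := fun l => k0pos _
  have k10 : Tendsto k1 atTop (𝓝 0) := k00.comp hφ2.tendsto_atTop
  have HG : Ex926.IsTan (Q.L y0 ρ0 0) (Q.L y0 ρ0 0) G (fun _ => σ • ρ0) k1 (lam j0) :=
    Rc146.tan_congr' (hlam j0) (fun _ => smul_mem_M σ) hGe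
  -- third blow-up
  have hlamlip : ∀ j, ∀ p ∈ Q.L y0 ρ0 0, ∀ q ∈ Q.L y0 ρ0 0,
      |lam j p - lam j q| ≤ K * ‖p - q‖ := by
    intro j p hp q hq
    have h3 : ∀ p ∈ Q.L y0 ρ0 0, ∀ q ∈ Q.L y0 ρ0 0, |g j p - g j q| ≤ K * dist p q :=
      fun p hp q hq => by rw [dist_eq_norm]; exact hglip j p hp q hq
    have := (bup_of_tan k1pos k10 (hlam j)).lip h3 p hp q hq
    rwa [dist_eq_norm] at this
  obtain ⟨φ3, hφ3, lam2, hlam2⟩ := exists_tan (J := J) (P := fun _ => Q.L y0 ρ0 0)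
    (D := fun _ => Q.L y0 ρ0 0) (ν := lam) (fun _ => hcl) hK hlamlip
    (x := fun _ => (0 : ι → ℝ)) k0pos (fun _ C => Eventually.of_forall fun m c hc _ =>
      hM.add _ hM.zero _ (hM.smul _ hc _ (k0pos m).le)) (fun _ => hM.zero)
  set t1 : ℕ → ℝ := fun m => k0 (φ3 m) with ht1
  have t1pos : ∀ l, 0 < t1 l := fun l => k0pos _
  have t10 : Tendsto t1 atTop (𝓝 0) := k00.comp hφ3.tendsto_atTop
  -- diagonal of the second and the third blow-up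
  obtain ⟨ψ2, hψ2, -, hT2⟩ := diagF (J := J) (P := fun _ => Q.L y0 ρ0 0)
    (L := fun _ => Q.L y0 ρ0 0) (L' := fun _ => Q.L y0 ρ0 0) k1pos hlam (fun _ => hM.zero)
    t1pos hlam2 (A := fun _ _ => True) (fun _ => Eventually.of_forall fun _ => trivial)
  set k2 : ℕ → ℝ := fun m => k1 (ψ2 m) * t1 m with hk2
  have k2pos : ∀ l, 0 < k2 l := fun l => mul_pos (k1pos _) (t1pos _)
  have k20 : Tendsto k2 atTop (𝓝 0) := by
    have := (k10.comp hψ2.tendsto_atTop).mul t10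
    rwa [zero_mul] at this
  have hT2' : ∀ j, Ex926.IsTan (Q.L y0 ρ0 0) (Q.L y0 ρ0 0) (g j) (fun _ => σ • ρ0) k2
      (lam2 j) := by
    intro j
    have := hT2 j
    simp only [smul_zero, add_zero] at this
    exact this
  -- diagonal with the first blow-up
  obtain ⟨ψ, hψ, hA, hT⟩ := diagF (J := J) (P := fun _ => Q.P lo hi) (L := fun _ => Q.L y0 ρ0 0)
    (L' := fun _ => Q.L y0 ρ0 0) h1pos hg (fun _ => smul_mem_M σ) k2pos hT2'
    (A := fun _ _ => True) (fun _ => Eventually.of_forall fun _ => trivial)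
  have hψ1 : Tendsto (fun m => h1 (ψ m)) atTop (𝓝 0) := h10.comp hψ.tendsto_atTop
  refine ⟨fun m => ξ + h1 (ψ m) * σ, fun m => h1 (ψ m) * k2 m, lam2, ?_,
    fun m => mul_pos (h1pos _) (k2pos _), ?_, fun j => ?_, fun s => ?_⟩
  · have := (hψ1.mul_const σ).const_add ξ
    rwa [zero_mul, add_zero] at this
  · have := hψ1.mul k20
    rwa [zero_mul] at this
  · have e : (fun m => y0 + (ξ + h1 (ψ m) * σ) • ρ0) =
        fun m => y0 + ξ • ρ0 + h1 (ψ m) • σ • ρ0 := by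
      funext m
      rw [add_smul, smul_smul, add_assoc]
    rw [e]
    exact hT j
  · exact hF.recOut ok hK hc0 hsub hσ (bup_of_tan k1pos k10 HG)
      (bup_of_tan t1pos t10 (hlam2 j0)) s

/-- **RECORD BLOW-UP, complete form**: at almost every point `ξ ∈ U` of the record line, along
every sequence of scales -/
theorem ae_rec_tan2 {Q : Walls ι W} {lo hi y0 ρ0 : ι → ℝ} {T : Type*} [Countable T]
    {sf : T → Srf ι} (ok : ∀ s, (sf s).Ok Q y0 ρ0) {J : Type*} [Finite J]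
    {f : J → (ι → ℝ) → ℝ} {j0 : J} {ν' : (ι → ℝ) → ℝ} {K : ℝ} (hK : 0 ≤ K)
    (hν : ∀ j, ∀ p ∈ Q.P lo hi, ∀ q ∈ Q.P lo hi, |f j p - f j q| ≤ K * dist p q)
    (hm : ∀ p ∈ Q.P lo hi, ∀ q ∈ Q.P lo hi, p ≤ q →
      0 ≤ f j0 p - f j0 q ∧ f j0 p - f j0 q ≤ ∑ i, (q i - p i))
    (hs : SupOn (f j0) (Q.P lo hi)) (he : ∀ p ∈ Q.P lo hi, ν' p = f j0 p)
    (hν' : ∀ p q, |ν' p - ν' q| ≤ K * dist p q) {U : Set ℝ}
    (hU : ∀ ξ ∈ U, (ξ, (0:ℝ)) ∈ Q.O lo hi y0 ρ0 0) (hP : ∀ s, (sf s).PPU Q ν' U) :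
    ∀ᵐ ξ : ℝ, ξ ∈ U → ∃ c0 : T → ℝ, (∀ s, 0 < c0 s) ∧
      (∀ s, (sf s).LW Q (c0 s) ⊆ Q.L y0 ρ0 0) ∧
      ∀ h : ℕ → ℝ, (∀ l, 0 < h l) → Tendsto h atTop (𝓝 0) →
      ∃ (x h' : ℕ → ℝ) (lam : J → (ι → ℝ) → ℝ), Tendsto x atTop (𝓝 ξ) ∧ (∀ m, 0 < h' m) ∧
        Tendsto h' atTop (𝓝 0) ∧
        (∀ j, Ex926.IsTan (Q.P lo hi) (Q.L y0 ρ0 0) (f j) (fun m => y0 + x m • ρ0) h'
          (lam j)) ∧
        ∀ s, ∃ (φ : ℕ → (ι → ℝ) → ℝ) (r : ℕ → ℝ), RecOut (sf s).g (sf s).S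
          ((sf s).LW Q (c0 s)) ((sf s).L Q) (sf s).a (sf s).b (sf s).l (sf s).dh (sf s).n
          (lam j0) φ r := by
  choose c1 hc1 hc1' using fun s => (ok s).sub
  have h1 : ∀ᵐ ξ : ℝ, ∀ s, ξ ∈ U → ∃ c0 : ℝ, 0 < c0 ∧ c0 ≤ c1 s ∧
      (sf s).CrossAt Q ν' (y0 + ξ • ρ0) c0 :=
    ae_all_iff.2 fun s => ae_crossAt (ok s) hK hν' (hP s) (hc1 s)
  filter_upwards [h1] with ξ hξ hξU
  choose c0 hc0 hc01 hcr using fun s => hξ s hξU
  exact ⟨c0, hc0, fun s => hc1' s _ (hc01 s), fun h hpos h0 =>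
    rec_tan2 ok hc0 (fun s => hc1' s _ (hc01 s)) hK hν hm hs he (hU ξ hξU) hcr hpos h0⟩

end Crest.Agent.R136.Rc683
end

-- ▼ part R136/Rbw5_219

/-!
# R136: record blow-up, last wire (helper219)

* `Srf.Rok`  : data of a surface used by 741's record blow-up (groups, walls, same sign along the
  record line inside every group)
* `Srf.ppu`  : 741's `pp_all` gives `Srf.PPU` at the record points in `Q.O lo hi y0 ρ0 0`
* **`ae_rec`** : the record blow-up as ONE theorem (683's `ae_rec_tan2` without blow-up hypotheses)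
* `Rok.closed` : the data for a surface in the closed half plane `0 ≤ a` with 219's groups `gC`
-/

set_option autoImplicit false
set_option linter.unusedSectionVars false
set_option linter.unusedVariables false

open Set Filter Topology Metric MeasureTheory

namespace Crest.Agent.R136.Rc683

open Dg219 Rc146
open Dg262 (X X_cont SupOn Grp)
open Crest.Agent.R138
open Rb741 (lin Reg LegR PP RD)

variable {ι W : Type*} [Fintype ι] [DecidableEq ι] [Fintype W]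

/-- data of a surface for the record blow-up -/
structure Srf.Rok (s : Srf ι) (Q : Walls ι W) (wv : ℕ → ℝ × ℝ) : Prop where
  grp : Grp s.a s.b s.g wv
  full : Q.Full s.x0 s.a s.b
  /-- same sign of the slopes along the record line inside every group -/
  ss : ∀ i j, s.g i = s.g j → (Tn s.a s.b s.r i = 0 ∧ Tn s.a s.b s.r j = 0) ∨
    0 < Tn s.a s.b s.r i * Tn s.a s.b s.r j
  /-- only for slots which are constant on the surface -/
  par : ∀ i, s.a i = 0 → s.b i = 0 → ∃ t : ℝ, ∀ l, s.g i < s.g l → 0 < t * Tn s.a s.b s.r l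

/-- the legal offsets near the half plane lie in the window cone -/
theorem reg_sub_LH {L : Set (ι → ℝ)} {a b : ι → ℝ} {l : ℝ × ℝ} {κ : ℝ} (hκ : 0 ≤ κ) :
    Reg a b L l κ ⊆ LH L a b l κ := by
  rintro _ ⟨w, c, rfl, h1, h2, h3⟩
  have h1' : lf l w < 0 := h1
  refine ⟨w, c, h1'.le, h2, ?_, rfl⟩
  rw [pi_norm_le_iff_of_nonneg (mul_nonneg hκ (by linarith))]
  intro i
  rw [Real.norm_eq_abs]
  exact h3 i

/-- a slot which is constant along the record line: the later slots move in one direction -/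
theorem Srf.Rok.par' {s : Srf ι} {Q : Walls ι W} {wv : ℕ → ℝ × ℝ} (h : s.Rok Q wv)
    (hr : s.r ≠ 0) (i : ι) (hi : Tn s.a s.b s.r i = 0) :
    ∃ t : ℝ, ∀ l, s.g i < s.g l → 0 < t * Tn s.a s.b s.r l := by
  by_cases h0 : s.a i = 0 ∧ s.b i = 0
  · exact h.par i h0.1 h0.2
  by_cases hex : ∃ l, s.g i < s.g l
  swap
  · exact ⟨1, fun l hl => absurd ⟨l, hl⟩ hex⟩
  obtain ⟨l0, hl0⟩ := hex
  -- `wv (g i)` is parallel to `r`
  set v := wv (s.g i) with hv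
  have h1 := h.grp.fix i
  have h2 := h.grp.up i l0 hl0
  have hi' : s.a i * s.r.1 + s.b i * s.r.2 = 0 := hi
  rw [← hv] at h1 h2
  have hdet : v.1 * s.r.2 = v.2 * s.r.1 := by
    by_cases ha : s.a i = 0
    · have hb : s.b i ≠ 0 := fun hb => h0 ⟨ha, hb⟩
      rw [ha, zero_mul, zero_add] at h1 hi'
      rw [(mul_eq_zero.1 h1).resolve_left hb, (mul_eq_zero.1 hi').resolve_left hb]; ring
    · have h3 : s.a i * (v.1 * s.r.2 - v.2 * s.r.1) = 0 := by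
        linear_combination s.r.2 * h1 - v.2 * hi'
      linarith [(mul_eq_zero.1 h3).resolve_left ha]
  have hv0 : v ≠ 0 := by
    intro h3
    rw [h3] at h2
    simp at h2
  -- `r = c • v`
  obtain ⟨c, hc⟩ : ∃ c : ℝ, s.r = c • v := by
    by_cases hv1 : v.1 = 0
    · have hv2 : v.2 ≠ 0 := fun h3 => hv0 (Prod.ext hv1 h3)
      refine ⟨s.r.2 / v.2, Prod.ext ?_ ?_⟩
      · rw [Prod.smul_fst, smul_eq_mul, hv1, mul_zero]
        rw [hv1, zero_mul] at hdet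
        exact (mul_eq_zero.1 hdet.symm).resolve_left hv2
      · rw [Prod.smul_snd, smul_eq_mul]; field_simp
    · refine ⟨s.r.1 / v.1, Prod.ext ?_ ?_⟩
      · rw [Prod.smul_fst, smul_eq_mul]; field_simp
      · rw [Prod.smul_snd, smul_eq_mul]
        field_simp
        linarith
  have hc0 : c ≠ 0 := by
    rintro rfl
    exact hr (by rw [hc, zero_smul])
  refine ⟨c, fun l hl => ?_⟩
  have h3 := h.grp.up i l hl
  rw [← hv] at h3
  have h4 : Tn s.a s.b s.r l = c * (s.a l * v.1 + s.b l * v.2) := by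
    rw [hc]; simp only [Tn, Prod.smul_fst, Prod.smul_snd, smul_eq_mul]; ring
  rw [h4, ← mul_assoc]
  exact mul_pos (mul_self_pos.2 hc0) h3

/-- legality near the half plane at a record point -/
theorem Srf.Ok.leg {s : Srf ι} {Q : Walls ι W} {lo hi y0 ρ0 : ι → ℝ} (ok : s.Ok Q y0 ρ0)
    {c1 : ℝ} (hc1 : 0 < c1) (hsub : s.LW Q c1 ⊆ Q.L y0 ρ0 0) {x₀ : ℝ}
    (hx : (x₀, (0:ℝ)) ∈ Q.O lo hi y0 ρ0 0) :
    ∃ ε : ℝ, 0 < ε ∧ ∀ x, |x - x₀| ≤ ε → ∀ q ∈ Reg s.a s.b (s.L Q) s.l c1, (∀ i, |q i| ≤ ε) →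
      X s.x0 s.a s.b s.z00 + x • Tn s.a s.b s.r + q ∈ Q.P lo hi := by
  obtain ⟨ε, hε, H⟩ := Walls.legal hx 1
  refine ⟨ε / 2, by positivity, fun x hxx q hq hqr => ?_⟩
  have hq' : q ∈ Q.L y0 ρ0 0 := hsub (reg_sub_LH hc1.le hq)
  have h2 : (0:ℝ) < ε / 2 := by positivity
  have h1 := H (x, 0) (by
    rw [Prod.dist_eq, dist_self, max_eq_left dist_nonneg, Real.dist_eq]
    linarith) (ε / 2) h2 (by linarith) ((ε / 2)⁻¹ • q)
    ((Walls.cone (Q := Q)).smul _ hq' _ (inv_nonneg.2 h2.le)) (by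
      rw [norm_smul, Real.norm_eq_abs, abs_of_pos (inv_pos.2 h2)]
      have h3 : ‖q‖ ≤ ε / 2 := by
        rw [pi_norm_le_iff_of_nonneg h2.le]
        intro i; rw [Real.norm_eq_abs]; exact hqr i
      calc (ε / 2)⁻¹ * ‖q‖ ≤ (ε / 2)⁻¹ * (ε / 2) :=
            mul_le_mul_of_nonneg_left h3 (inv_nonneg.2 h2.le)
        _ = 1 := inv_mul_cancel₀ h2.ne')
  rw [line_eq, smul_smul, mul_inv_cancel₀ h2.ne', one_smul] at h1
  rw [ok.base, ok.dir]
  exact h1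

/-- **741's record blow-up as `Srf.PPU`** -/
theorem Srf.ppu {s : Srf ι} {Q : Walls ι W} {lo hi y0 ρ0 : ι → ℝ} (ok : s.Ok Q y0 ρ0)
    {wv : ℕ → ℝ × ℝ} (hR : s.Rok Q wv) {ν' : (ι → ℝ) → ℝ} {K : ℝ} (hK : 0 ≤ K)
    (hν' : ∀ p q, |ν' p - ν' q| ≤ K * dist p q) (hs : SupOn ν' (Q.P lo hi)) {U : Set ℝ}
    (hU : ∀ ξ ∈ U, (ξ, (0:ℝ)) ∈ Q.O lo hi y0 ρ0 0) : s.PPU Q ν' U := by
  intro x₀ hx₀
  obtain ⟨c1, hc1, hsub⟩ := ok.sub
  obtain ⟨ε, hε, H⟩ := ok.leg hc1 (hsub c1 le_rfl) (hU x₀ hx₀)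
  have D : RD ν' (Q.P lo hi) K s.g s.a s.b wv (s.L Q) Q.rk (Q.rm s.g) s.l s.r
      (X s.x0 s.a s.b s.z00) c1 x₀ ε ε :=
    { Kn := hK
      lip := hν'
      sup := hs
      rw := Walls.rwG hR.grp hR.full
      grp := hR.grp
      lamr := ok.lr
      ss := hR.ss
      par := hR.par' ok.r0
      κp := hc1
      rp := hε
      leg := H }
  obtain ⟨κ, hκ, hP⟩ := Rb741.pp_all D (Finset.univ.sup s.g + 1)
  refine ⟨ε, hε, κ, hκ, fun m => ?_⟩
  intro i j _ hij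
  exact hP i j (Nat.lt_succ_of_le (Finset.le_sup (Finset.mem_univ i))) hij

/-- **RECORD BLOW-UP** (741's theorem, 548's a.e. step, 146's `RecOut`, 683's moving base points):
at almost every point `ξ ∈ U` of the record line, along every sequence of scales -/
theorem ae_rec {Q : Walls ι W} {lo hi y0 ρ0 : ι → ℝ} {T : Type*} [Countable T]
    {sf : T → Srf ι} (ok : ∀ s, (sf s).Ok Q y0 ρ0) (hR : ∀ s, ∃ wv, (sf s).Rok Q wv)
    {J : Type*} [Finite J] {f : J → (ι → ℝ) → ℝ} {j0 : J} {K : ℝ} (hK : 0 ≤ K)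
    (hν : ∀ j, ∀ p ∈ Q.P lo hi, ∀ q ∈ Q.P lo hi, |f j p - f j q| ≤ K * dist p q)
    (hm : ∀ p ∈ Q.P lo hi, ∀ q ∈ Q.P lo hi, p ≤ q →
      0 ≤ f j0 p - f j0 q ∧ f j0 p - f j0 q ≤ ∑ i, (q i - p i))
    (hs : SupOn (f j0) (Q.P lo hi)) {U : Set ℝ}
    (hU : ∀ ξ ∈ U, (ξ, (0:ℝ)) ∈ Q.O lo hi y0 ρ0 0) :
    ∀ᵐ ξ : ℝ, ξ ∈ U → ∃ c0 : T → ℝ, (∀ s, 0 < c0 s) ∧
      (∀ s, (sf s).LW Q (c0 s) ⊆ Q.L y0 ρ0 0) ∧
      ∀ h : ℕ → ℝ, (∀ l, 0 < h l) → Tendsto h atTop (𝓝 0) →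
      ∃ (x h' : ℕ → ℝ) (lam : J → (ι → ℝ) → ℝ), Tendsto x atTop (𝓝 ξ) ∧ (∀ m, 0 < h' m) ∧
        Tendsto h' atTop (𝓝 0) ∧
        (∀ j, Ex926.IsTan (Q.P lo hi) (Q.L y0 ρ0 0) (f j) (fun m => y0 + x m • ρ0) h'
          (lam j)) ∧
        ∀ s, ∃ (φ : ℕ → (ι → ℝ) → ℝ) (r : ℕ → ℝ), RecOut (sf s).g (sf s).S
          ((sf s).LW Q (c0 s)) ((sf s).L Q) (sf s).a (sf s).b (sf s).l (sf s).dh (sf s).n
          (lam j0) φ r := by
  have hlip : LipschitzOnWith ⟨K, hK⟩ (f j0) (Q.P lo hi) :=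
    LipschitzOnWith.of_dist_le_mul fun p hp q hq => by
      rw [Real.dist_eq]; exact hν j0 p hp q hq
  obtain ⟨ν', hν', he⟩ := hlip.extend_real
  have hν'' : ∀ p q, |ν' p - ν' q| ≤ K * dist p q := fun p q => by
    have := hν'.dist_le_mul p q
    rwa [Real.dist_eq] at this
  have he' : ∀ p ∈ Q.P lo hi, ν' p = f j0 p := fun p hp => (he hp).symm
  have hs' : SupOn ν' (Q.P lo hi) := by
    intro p hp q hq h1 h2
    rw [he' p hp, he' q hq, he' _ h1, he' _ h2]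
    exact hs p hp q hq h1 h2
  refine ae_rec_tan2 ok hK hν hm hs he' hν'' hU fun s => ?_
  obtain ⟨wv, h⟩ := hR s
  exact Srf.ppu (ok s) h hK hν'' hs' hU

/-! ### surfaces in the closed half plane -/

/-- data for a surface with `0 ≤ a` (and `0 < b` where `a = 0`), record line along the second
coordinate -/
theorem Rok.closed {s : Srf ι} {Q : Walls ι W} (ha : ∀ i, 0 ≤ s.a i)
    (hb : ∀ i, s.a i = 0 → 0 < s.b i) (hr : s.r = (0, 1)) (hg : s.g = gC s.a s.b) :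
    ∃ wv, s.Rok Q wv := by
  obtain ⟨wv, hG⟩ := exists_grpC (b := s.b) ha
  rw [← hg] at hG
  refine ⟨wv, hG, Walls.full_of_ne fun i => ?_, fun i j hij => ?_, fun i h1 h2 => ?_⟩
  · by_cases h : s.a i = 0
    · exact Or.inr (hb i h).ne'
    · exact Or.inl h
  · have e : ∀ i, Tn s.a s.b s.r i = s.b i := fun i => by rw [hr]; simp [Tn]
    rw [e, e]
    by_cases hi : s.a i = 0
    · have h0 : gC s.a s.b i = 0 := gC_zero.2 hi
      rw [hg, h0] at hij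
      exact Or.inr (mul_pos (hb i hi) (hb j (gC_zero.1 hij.symm)))
    · have hj : s.a j ≠ 0 := by
        intro hj
        have h0 : gC s.a s.b j = 0 := gC_zero.2 hj
        rw [hg, h0] at hij
        exact hi (gC_zero.1 hij)
      rw [hg, gC_eq hi hj, div_eq_div_iff hi hj] at hij
      have hi' : 0 < s.a i := lt_of_le_of_ne (ha i) (Ne.symm hi)
      have hj' : 0 < s.a j := lt_of_le_of_ne (ha j) (Ne.symm hj)
      by_cases hbi : s.b i = 0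
      · left
        refine ⟨hbi, ?_⟩
        rw [hbi, zero_mul] at hij
        exact (mul_eq_zero.1 hij.symm).resolve_right hi
      · right
        have h5 : s.b j = s.b i * s.a j / s.a i := by
          field_simp; linarith
        rw [h5]
        have h6 : s.b i * (s.b i * s.a j / s.a i) = s.b i * s.b i * (s.a j / s.a i) := by ring
        rw [h6]
        exact mul_pos (mul_self_pos.2 hbi) (div_pos hj' hi')
  · exact absurd h2 (hb i h1).ne'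

end Crest.Agent.R136.Rc683
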