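import Crest.Agent.R136.Net4_186
import Crest.Agent.R136.Qg2_926

-- ▼ part R136/Ev1_356
section

/-!
# R136: evolution along lines in the chart of helper186 (helper356)

`x, x'` incidences on one line, `y, y'` incidences on another one, `y.z = x.z`, `y'.z = x'.z`:
`coQ x' y'` in terms of `coQ x y` and the own motion `coQ x x'`.
-/

set_option autoImplicit false

namespace Crest.Agent.R136.Ev356

open Crest.Agent.R136.NetQ186

/-- `x` and `x'` are incidences on the same line -/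
structure SameLine (x x' : Fq4) : Prop where
  A : x'.A = x.A
  B : x'.B = x.B
  ca : x'.ca = x.ca
  cb : x'.cb = x.cb
  y0 : x'.y0 = x.y0
  y1 : x'.y1 = x.y1
  y2 : x'.y2 = x.y2

/-- own motion vanishes on the line slots -/
theorem SameLine.own {x x' : Fq4} (h : SameLine x x') :
    coQ x x' 1 = 0 ∧ coQ x x' 5 = 0 ∧ coQ x x' 6 = 0 ∧ coQ x x' 7 = 0 ∧ coQ x x' 8 = 0 ∧
    coQ x x' 9 = 0 ∧ coQ x x' 10 = 0 := by
  obtain ⟨h1, h2, h3, h4, h5, h6, h7⟩ := h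
  simp only [coQ, Fq4.pa, Fq4.pb, Fq4.py, Fq4.vy, Matrix.cons_val, h1, h2, h3, h4, h5, h6, h7]
  refine ⟨by ring, by ring, by ring, by ring, by ring, by ring, by ring⟩

/-- **evolution**, exact form -/
theorem evo {x x' y y' : Fq4} (hx : SameLine x x') (hy : SameLine y y') :
    coQ x' y' 1 = coQ x y 1 ∧
    coQ x' y' 5 = coQ x y 5 ∧
    coQ x' y' 6 = coQ x y 6 - coQ x x' 2 * coQ x y 5 ∧
    coQ x' y' 7 = coQ x y 7 + 2 * coQ x x' 0 * coQ x y 1 - coQ x x' 4 * coQ x y 5 -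
      coQ x x' 3 * coQ x y 6 ∧
    coQ x' y' 8 = coQ x y 8 + coQ x x' 0 * coQ x y 5 ∧
    coQ x' y' 9 = coQ x y 9 + coQ x x' 0 * coQ x y 6 -
      coQ x x' 2 * (coQ x y 8 + coQ x x' 0 * coQ x y 5) ∧
    coQ x' y' 10 = coQ x y 10 + coQ x x' 0 * coQ x y 7 + coQ x x' 0 ^ 2 * coQ x y 1 -
      coQ x x' 4 * (coQ x y 8 + coQ x x' 0 * coQ x y 5) -
      coQ x x' 3 * (coQ x y 9 + coQ x x' 0 * coQ x y 6) := by
  obtain ⟨h1, h2, h3, h4, h5, h6, h7⟩ := hx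
  obtain ⟨g1, g2, g3, g4, g5, g6, g7⟩ := hy
  simp only [coQ, Fq4.pa, Fq4.pb, Fq4.py, Fq4.vy, Matrix.cons_val, h1, h2, h3, h4, h5, h6, h7,
    g1, g2, g3, g4, g5, g6, g7]
  refine ⟨trivial, trivial, by ring, by ring, by ring, by ring, by ring⟩


end Crest.Agent.R136.Ev356
end

-- ▼ part R136/Ev2_356
section

/-!
# R136: evolution in the chart of helper186 for FAT lines (helper356)

Four incidences `x, x'` (same fat line), `y, y'` (same fat line), `x, y` at the same height,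
`x', y'` at the same height.  With sides `δ s` satisfying the walls, `|coQ| ≤ κ δ` everywhere and
`≤ κ τ δ` in the line slots of `(x, x')`, `(y, y')` and in the height slot of `(x, y)`:
`|coQ x' y' s - evolution| ≤ 100 κ^4 τ δ s`.
-/

set_option autoImplicit false

namespace Crest.Agent.R136.Ev356

open Crest.Agent.R136.NetQ186

/-- right-hand sides of the evolution: `a = coQ x x'` (own motion), `b = coQ x y` -/
def evoRHS (a b : Fin 11 → ℝ) : Fin 11 → ℝ :=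
  ![b 0, b 1, b 2, b 3, b 4, b 5, b 6 - a 2 * b 5,
    b 7 + 2 * a 0 * b 1 - a 4 * b 5 - a 3 * b 6,
    b 8 + a 0 * b 5,
    b 9 + a 0 * b 6 - a 2 * (b 8 + a 0 * b 5),
    b 10 + a 0 * b 7 + a 0 ^ 2 * b 1 - a 4 * (b 8 + a 0 * b 5) - a 3 * (b 9 + a 0 * b 6)]

/-- the sides satisfy the walls -/
structure Sides (δ : Fin 11 → ℝ) : Prop where
  pos : ∀ s, 0 < δ s
  w4 : δ 2 * δ 3 ≤ δ 4
  w6 : δ 2 * δ 5 ≤ δ 6
  w7a : δ 0 * δ 1 ≤ δ 7
  w7b : δ 4 * δ 5 ≤ δ 7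
  w7c : δ 3 * δ 6 ≤ δ 7
  w8 : δ 0 * δ 5 ≤ δ 8
  w9a : δ 0 * δ 6 ≤ δ 9
  w9b : δ 2 * δ 8 ≤ δ 9
  w10a : δ 0 * δ 7 ≤ δ 10
  w10b : δ 4 * δ 8 ≤ δ 10
  w10c : δ 3 * δ 9 ≤ δ 10

/-- size of a quantity: `|x| ≤ K δ` -/
theorem bmul {x y K L δ δ' D : ℝ} (hx : |x| ≤ K * δ) (hy : |y| ≤ L * δ') (hK : 0 ≤ K)
    (hL : 0 ≤ L) (hδ : 0 ≤ δ) (_ : 0 ≤ δ') (hD : δ * δ' ≤ D) : |x * y| ≤ (K * L) * D := by
  rw [abs_mul]
  calc |x| * |y| ≤ (K * δ) * (L * δ') := mul_le_mul hx hy (abs_nonneg _) (by positivity)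
    _ = (K * L) * (δ * δ') := by ring
    _ ≤ _ := mul_le_mul_of_nonneg_left hD (by positivity)

theorem badd {x y K L D : ℝ} (hx : |x| ≤ K * D) (hy : |y| ≤ L * D) : |x + y| ≤ (K + L) * D := by
  have := abs_add_le x y
  linarith

theorem bsub {x y K L D : ℝ} (hx : |x| ≤ K * D) (hy : |y| ≤ L * D) : |x - y| ≤ (K + L) * D := by
  have := abs_sub x y
  linarith

theorem bneg {x K D : ℝ} (hx : |x| ≤ K * D) : |-x| ≤ K * D := by rwa [abs_neg]

theorem bmono {x K L D : ℝ} (hx : |x| ≤ K * D) (h : K ≤ L) (hD : 0 ≤ D) : |x| ≤ L * D :=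
  hx.trans (mul_le_mul_of_nonneg_right h hD)

section

variable {a b c e : Fin 11 → ℝ} {δ : Fin 11 → ℝ} {κ τ : ℝ}

theorem aux1 (hκ : 1 ≤ κ) (hτ : 0 ≤ τ) :
    κ * τ ≤ κ ^ 4 * τ ∧ κ ^ 2 * τ ≤ κ ^ 4 * τ ∧ κ ^ 3 * τ ≤ κ ^ 4 * τ ∧
    κ * τ ≤ κ ^ 3 * τ ∧ κ ^ 2 * τ ≤ κ ^ 3 * τ ∧ κ * τ ≤ κ ^ 2 * τ ∧ 0 ≤ κ * τ := by
  have h : ∀ {m n : ℕ}, m ≤ n → κ ^ m * τ ≤ κ ^ n * τ := fun hmn =>
    mul_le_mul_of_nonneg_right (pow_le_pow_right₀ hκ hmn) hτ
  have h1 := h (show 1 ≤ 4 by norm_num)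
  have h2 := h (show 1 ≤ 3 by norm_num)
  have h3 := h (show 1 ≤ 2 by norm_num)
  rw [pow_one] at h1 h2 h3
  exact ⟨h1, h (by norm_num), h (by norm_num), h2, h (by norm_num), h3,
    mul_nonneg (by linarith) hτ⟩

theorem s6 (hδ : Sides δ) (hκ : 1 ≤ κ) (hτ : 0 ≤ τ)
    (ha : ∀ s, |a s| ≤ κ * δ s) (hb : ∀ s, |b s| ≤ κ * δ s)
    (a6 : |a 6| ≤ (κ * τ) * δ 6) (c5 : |c 5| ≤ (κ * τ) * δ 5) (c6 : |c 6| ≤ (κ * τ) * δ 6)
    (e5 : |e 5 - b 5| ≤ (2 * κ * τ) * δ 5) :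
    |c 6 + b 2 * c 5 - a 6 - a 2 * (e 5 - b 5)| ≤ (5 * κ ^ 2 * τ) * δ 6 := by
  have N : ∀ s, 0 ≤ δ s := fun s => (hδ.pos s).le
  have κ0 : 0 ≤ κ := by linarith
  obtain ⟨t1, t2, t3, t4, t5, t6, κτ⟩ := aux1 hκ hτ
  refine bmono (bsub (bsub (badd c6 (bmul (hb 2) c5 κ0 κτ (N 2) (N 5) hδ.w6)) a6)
      (bmul (ha 2) e5 κ0 (by positivity) (N 2) (N 5) hδ.w6)) ?_ (N 6)
  linarith

theorem s8 (hδ : Sides δ) (hκ : 1 ≤ κ) (hτ : 0 ≤ τ)
    (ha : ∀ s, |a s| ≤ κ * δ s) (hb : ∀ s, |b s| ≤ κ * δ s)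
    (a8 : |a 8| ≤ (κ * τ) * δ 8) (c5 : |c 5| ≤ (κ * τ) * δ 5) (c8 : |c 8| ≤ (κ * τ) * δ 8)
    (e5 : |e 5 - b 5| ≤ (2 * κ * τ) * δ 5) :
    |c 8 - b 0 * c 5 - a 8 + a 0 * (e 5 - b 5)| ≤ (5 * κ ^ 2 * τ) * δ 8 := by
  have N : ∀ s, 0 ≤ δ s := fun s => (hδ.pos s).le
  have κ0 : 0 ≤ κ := by linarith
  obtain ⟨t1, t2, t3, t4, t5, t6, κτ⟩ := aux1 hκ hτ
  refine bmono (badd (bsub (bsub c8 (bmul (hb 0) c5 κ0 κτ (N 0) (N 5) hδ.w8)) a8)
      (bmul (ha 0) e5 κ0 (by positivity) (N 0) (N 5) hδ.w8)) ?_ (N 8)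
  linarith

theorem s9 (hδ : Sides δ) (hκ : 1 ≤ κ) (hτ : 0 ≤ τ) {d6 d8 : ℝ}
    (ha : ∀ s, |a s| ≤ κ * δ s) (hb : ∀ s, |b s| ≤ κ * δ s)
    (a9 : |a 9| ≤ (κ * τ) * δ 9) (c5 : |c 5| ≤ (κ * τ) * δ 5) (c6 : |c 6| ≤ (κ * τ) * δ 6)
    (c8 : |c 8| ≤ (κ * τ) * δ 8) (c9 : |c 9| ≤ (κ * τ) * δ 9)
    (e5 : |e 5 - b 5| ≤ (2 * κ * τ) * δ 5) (e6 : |d6| ≤ (5 * κ ^ 2 * τ) * δ 6)
    (e8 : |d8| ≤ (5 * κ ^ 2 * τ) * δ 8) :
    |c 9 - b 0 * c 6 + b 2 * c 8 - b 2 * (b 0 * c 5) - a 9 + a 0 * d6 - a 2 * d8 +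
      a 2 * (a 0 * (e 5 - b 5))| ≤ (17 * κ ^ 3 * τ) * δ 9 := by
  have N : ∀ s, 0 ≤ δ s := fun s => (hδ.pos s).le
  have κ0 : 0 ≤ κ := by linarith
  obtain ⟨t1, t2, t3, t4, t5, t6, κτ⟩ := aux1 hκ hτ
  have w205 : δ 2 * (δ 0 * δ 5) ≤ δ 9 :=
    (mul_le_mul_of_nonneg_left hδ.w8 (N 2)).trans hδ.w9b
  refine bmono (badd (bsub (badd (bsub (bsub (badd (bsub c9
      (bmul (hb 0) c6 κ0 κτ (N 0) (N 6) hδ.w9a))
      (bmul (hb 2) c8 κ0 κτ (N 2) (N 8) hδ.w9b))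
      (bmul (hb 2) (bmul (hb 0) c5 κ0 κτ (N 0) (N 5) le_rfl) κ0 (by positivity) (N 2)
        (mul_nonneg (N 0) (N 5)) w205)) a9)
      (bmul (ha 0) e6 κ0 (by positivity) (N 0) (N 6) hδ.w9a))
      (bmul (ha 2) e8 κ0 (by positivity) (N 2) (N 8) hδ.w9b))
      (bmul (ha 2) (bmul (ha 0) e5 κ0 (by positivity) (N 0) (N 5) le_rfl) κ0 (by positivity) (N 2)
        (mul_nonneg (N 0) (N 5)) w205)) ?_ (N 9)
  linarith

theorem s7 (hδ : Sides δ) (hκ : 1 ≤ κ) (hτ : 0 ≤ τ) {d6 : ℝ}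
    (ha : ∀ s, |a s| ≤ κ * δ s) (hb : ∀ s, |b s| ≤ κ * δ s)
    (a7 : |a 7| ≤ (κ * τ) * δ 7) (c1 : |c 1| ≤ (κ * τ) * δ 1) (c5 : |c 5| ≤ (κ * τ) * δ 5)
    (c6 : |c 6| ≤ (κ * τ) * δ 6) (c7 : |c 7| ≤ (κ * τ) * δ 7)
    (e1 : |e 1 - b 1| ≤ (2 * κ * τ) * δ 1)
    (e5 : |e 5 - b 5| ≤ (2 * κ * τ) * δ 5) (e6 : |d6| ≤ (5 * κ ^ 2 * τ) * δ 6) :
    |c 7 - b 0 * c 1 - b 0 * c 1 + b 4 * c 5 + b 2 * (b 3 * c 5) + b 3 * c 6 - a 7 +
        a 0 * (e 1 - b 1) + a 0 * (e 1 - b 1) - a 4 * (e 5 - b 5) - a 2 * (a 3 * (e 5 - b 5)) -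
        a 3 * d6| ≤ (20 * κ ^ 3 * τ) * δ 7 := by
  have N : ∀ s, 0 ≤ δ s := fun s => (hδ.pos s).le
  have κ0 : 0 ≤ κ := by linarith
  obtain ⟨t1, t2, t3, t4, t5, t6, κτ⟩ := aux1 hκ hτ
  have w235 : δ 2 * (δ 3 * δ 5) ≤ δ 7 := by
    have h1 : δ 2 * (δ 3 * δ 5) = (δ 2 * δ 3) * δ 5 := by ring
    rw [h1]
    exact (mul_le_mul_of_nonneg_right hδ.w4 (N 5)).trans hδ.w7b
  refine bmono (bsub (bsub (bsub (badd (badd (bsub (badd (badd (badd (bsub (bsub c7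
      (bmul (hb 0) c1 κ0 κτ (N 0) (N 1) hδ.w7a))
      (bmul (hb 0) c1 κ0 κτ (N 0) (N 1) hδ.w7a))
      (bmul (hb 4) c5 κ0 κτ (N 4) (N 5) hδ.w7b))
      (bmul (hb 2) (bmul (hb 3) c5 κ0 κτ (N 3) (N 5) le_rfl) κ0 (by positivity) (N 2)
        (mul_nonneg (N 3) (N 5)) w235))
      (bmul (hb 3) c6 κ0 κτ (N 3) (N 6) hδ.w7c)) a7)
      (bmul (ha 0) e1 κ0 (by positivity) (N 0) (N 1) hδ.w7a))
      (bmul (ha 0) e1 κ0 (by positivity) (N 0) (N 1) hδ.w7a))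
      (bmul (ha 4) e5 κ0 (by positivity) (N 4) (N 5) hδ.w7b))
      (bmul (ha 2) (bmul (ha 3) e5 κ0 (by positivity) (N 3) (N 5) le_rfl) κ0 (by positivity) (N 2)
        (mul_nonneg (N 3) (N 5)) w235))
      (bmul (ha 3) e6 κ0 (by positivity) (N 3) (N 6) hδ.w7c)) ?_ (N 7)
  linarith

theorem s10 (hδ : Sides δ) (hκ : 1 ≤ κ) (hτ : 0 ≤ τ) {d6 d7 d8 d9 : ℝ}
    (ha : ∀ s, |a s| ≤ κ * δ s) (hb : ∀ s, |b s| ≤ κ * δ s)
    (a10 : |a 10| ≤ (κ * τ) * δ 10) (c1 : |c 1| ≤ (κ * τ) * δ 1) (c5 : |c 5| ≤ (κ * τ) * δ 5)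
    (c6 : |c 6| ≤ (κ * τ) * δ 6) (c7 : |c 7| ≤ (κ * τ) * δ 7) (c8 : |c 8| ≤ (κ * τ) * δ 8)
    (c9 : |c 9| ≤ (κ * τ) * δ 9) (c10 : |c 10| ≤ (κ * τ) * δ 10)
    (e1 : |e 1 - b 1| ≤ (2 * κ * τ) * δ 1)
    (e5 : |e 5 - b 5| ≤ (2 * κ * τ) * δ 5) (e6 : |d6| ≤ (5 * κ ^ 2 * τ) * δ 6)
    (e7 : |d7| ≤ (20 * κ ^ 3 * τ) * δ 7) (e8 : |d8| ≤ (5 * κ ^ 2 * τ) * δ 8)
    (e9 : |d9| ≤ (17 * κ ^ 3 * τ) * δ 9) :
    |(c 10 - b 0 * c 7 + b 0 * (b 0 * c 1) + b 4 * c 8 - b 4 * (b 0 * c 5) + b 2 * (b 3 * c 8) -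
        b 2 * (b 3 * (b 0 * c 5)) + b 3 * c 9 - b 3 * (b 0 * c 6) - a 10) +
      (a 0 * d7 - a 0 * (a 0 * (e 1 - b 1)) - a 4 * d8 + a 4 * (a 0 * (e 5 - b 5)) -
        a 2 * (a 3 * d8) + a 2 * (a 3 * (a 0 * (e 5 - b 5))) - a 3 * d9 + a 3 * (a 0 * d6))|
      ≤ (69 * κ ^ 4 * τ) * δ 10 := by
  have N : ∀ s, 0 ≤ δ s := fun s => (hδ.pos s).le
  have κ0 : 0 ≤ κ := by linarith
  obtain ⟨t1, t2, t3, t4, t5, t6, κτ⟩ := aux1 hκ hτ
  have w001 : δ 0 * (δ 0 * δ 1) ≤ δ 10 :=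
    (mul_le_mul_of_nonneg_left hδ.w7a (N 0)).trans hδ.w10a
  have w405 : δ 4 * (δ 0 * δ 5) ≤ δ 10 :=
    (mul_le_mul_of_nonneg_left hδ.w8 (N 4)).trans hδ.w10b
  have w238 : δ 2 * (δ 3 * δ 8) ≤ δ 10 := by
    have h1 : δ 2 * (δ 3 * δ 8) = (δ 2 * δ 3) * δ 8 := by ring
    rw [h1]
    exact (mul_le_mul_of_nonneg_right hδ.w4 (N 8)).trans hδ.w10b
  have w2305 : δ 2 * (δ 3 * (δ 0 * δ 5)) ≤ δ 10 :=
    (mul_le_mul_of_nonneg_left (mul_le_mul_of_nonneg_left hδ.w8 (N 3)) (N 2)).trans w238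
  have w306 : δ 3 * (δ 0 * δ 6) ≤ δ 10 :=
    (mul_le_mul_of_nonneg_left hδ.w9a (N 3)).trans hδ.w10c
  have m1 : |c 10 - b 0 * c 7 + b 0 * (b 0 * c 1) + b 4 * c 8 - b 4 * (b 0 * c 5) +
      b 2 * (b 3 * c 8) - b 2 * (b 3 * (b 0 * c 5)) + b 3 * c 9 - b 3 * (b 0 * c 6) - a 10|
      ≤ (11 * κ ^ 4 * τ) * δ 10 := by
    refine bmono (bsub (bsub (badd (bsub (badd (bsub (badd (badd (bsub c10
      (bmul (hb 0) c7 κ0 κτ (N 0) (N 7) hδ.w10a))
      (bmul (hb 0) (bmul (hb 0) c1 κ0 κτ (N 0) (N 1) le_rfl) κ0 (by positivity) (N 0)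
        (mul_nonneg (N 0) (N 1)) w001))
      (bmul (hb 4) c8 κ0 κτ (N 4) (N 8) hδ.w10b))
      (bmul (hb 4) (bmul (hb 0) c5 κ0 κτ (N 0) (N 5) le_rfl) κ0 (by positivity) (N 4)
        (mul_nonneg (N 0) (N 5)) w405))
      (bmul (hb 2) (bmul (hb 3) c8 κ0 κτ (N 3) (N 8) le_rfl) κ0 (by positivity) (N 2)
        (mul_nonneg (N 3) (N 8)) w238))
      (bmul (hb 2) (bmul (hb 3) (bmul (hb 0) c5 κ0 κτ (N 0) (N 5) le_rfl) κ0 (by positivity) (N 3)
        (mul_nonneg (N 0) (N 5)) le_rfl) κ0 (by positivity) (N 2)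
        (mul_nonneg (N 3) (mul_nonneg (N 0) (N 5))) w2305))
      (bmul (hb 3) c9 κ0 κτ (N 3) (N 9) hδ.w10c))
      (bmul (hb 3) (bmul (hb 0) c6 κ0 κτ (N 0) (N 6) le_rfl) κ0 (by positivity) (N 3)
        (mul_nonneg (N 0) (N 6)) w306)) a10) ?_ (N 10)
    linarith
  have m2 : |a 0 * d7 - a 0 * (a 0 * (e 1 - b 1)) - a 4 * d8 + a 4 * (a 0 * (e 5 - b 5)) -
        a 2 * (a 3 * d8) + a 2 * (a 3 * (a 0 * (e 5 - b 5))) - a 3 * d9 + a 3 * (a 0 * d6)|
      ≤ (58 * κ ^ 4 * τ) * δ 10 := by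
    refine bmono (badd (bsub (badd (bsub (badd (bsub (bsub
      (bmul (ha 0) e7 κ0 (by positivity) (N 0) (N 7) hδ.w10a)
      (bmul (ha 0) (bmul (ha 0) e1 κ0 (by positivity) (N 0) (N 1) le_rfl) κ0 (by positivity) (N 0)
        (mul_nonneg (N 0) (N 1)) w001))
      (bmul (ha 4) e8 κ0 (by positivity) (N 4) (N 8) hδ.w10b))
      (bmul (ha 4) (bmul (ha 0) e5 κ0 (by positivity) (N 0) (N 5) le_rfl) κ0 (by positivity) (N 4)
        (mul_nonneg (N 0) (N 5)) w405))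
      (bmul (ha 2) (bmul (ha 3) e8 κ0 (by positivity) (N 3) (N 8) le_rfl) κ0 (by positivity) (N 2)
        (mul_nonneg (N 3) (N 8)) w238))
      (bmul (ha 2) (bmul (ha 3) (bmul (ha 0) e5 κ0 (by positivity) (N 0) (N 5) le_rfl) κ0
        (by positivity) (N 3) (mul_nonneg (N 0) (N 5)) le_rfl) κ0 (by positivity) (N 2)
        (mul_nonneg (N 3) (mul_nonneg (N 0) (N 5))) w2305))
      (bmul (ha 3) e9 κ0 (by positivity) (N 3) (N 9) hδ.w10c))
      (bmul (ha 3) (bmul (ha 0) e6 κ0 (by positivity) (N 0) (N 6) le_rfl) κ0 (by positivity) (N 3)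
        (mul_nonneg (N 0) (N 6)) w306)) ?_ (N 10)
    linarith
  refine bmono (badd m1 m2) ?_ (N 10)
  linarith

/-- the cocycle identities of `coQ` on the line slots -/
structure Cocy (g b c : Fin 11 → ℝ) : Prop where
  p1 : g 1 = b 1 + c 1
  p5 : g 5 = b 5 + c 5
  p6 : g 6 = b 6 + c 6 + b 2 * c 5
  p7 : g 7 = b 7 + c 7 - 2 * (b 0 * c 1) + (b 4 + b 2 * b 3) * c 5 + b 3 * c 6
  p8 : g 8 = b 8 + c 8 - b 0 * c 5
  p9 : g 9 = b 9 + (c 9 - b 0 * c 6) + b 2 * (c 8 - b 0 * c 5)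
  p10 : g 10 = b 10 + (c 10 - b 0 * c 7 + b 0 ^ 2 * c 1) + (b 4 + b 2 * b 3) * (c 8 - b 0 * c 5) +
    b 3 * (c 9 - b 0 * c 6)

theorem cocy (x y z : Fq4) : Cocy (coQ x z) (coQ x y) (coQ y z) := by
  obtain ⟨-, p1, -, -, -, p5, p6, p7, p8, p9, p10⟩ := coQ_add x y z
  exact ⟨p1, p5, p6, p7, p8, p9, p10⟩

theorem evo_abs {g : Fin 11 → ℝ} (hp : Cocy g b c) (hq : Cocy g a e)
    (hδ : Sides δ) (hκ : 1 ≤ κ) (hτ : 0 ≤ τ)
    (ha : ∀ s, |a s| ≤ κ * δ s) (hb : ∀ s, |b s| ≤ κ * δ s)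
    (ha' : ∀ s, s = 1 ∨ s = 5 ∨ s = 6 ∨ s = 7 ∨ s = 8 ∨ s = 9 ∨ s = 10 →
      |a s| ≤ (κ * τ) * δ s)
    (hc' : ∀ s, s = 1 ∨ s = 5 ∨ s = 6 ∨ s = 7 ∨ s = 8 ∨ s = 9 ∨ s = 10 →
      |c s| ≤ (κ * τ) * δ s)
    (s : Fin 11) (hs : s = 1 ∨ s = 5 ∨ s = 6 ∨ s = 7 ∨ s = 8 ∨ s = 9 ∨ s = 10) :
    |e s - evoRHS a b s| ≤ (100 * κ ^ 4 * τ) * δ s := by
  obtain ⟨p1, p5, p6, p7, p8, p9, p10⟩ := hp
  obtain ⟨q1, q5, q6, q7, q8, q9, q10⟩ := hq
  have N : ∀ s, 0 ≤ δ s := fun s => (hδ.pos s).le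
  obtain ⟨t1, t2, t3, t4, t5, t6, κτ⟩ := aux1 hκ hτ
  have a1 := ha' 1 (by simp)
  have a5 := ha' 5 (by simp)
  have c1 := hc' 1 (by simp)
  have c5 := hc' 5 (by simp)
  have c6 := hc' 6 (by simp)
  have c7 := hc' 7 (by simp)
  have c8 := hc' 8 (by simp)
  have c9 := hc' 9 (by simp)
  -- slot 1
  have e1 : |e 1 - b 1| ≤ (2 * κ * τ) * δ 1 := by
    have : e 1 - b 1 = c 1 - a 1 := by linear_combination p1 - q1
    rw [this]
    exact bmono (bsub c1 a1) (by linarith) (N 1)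
  have e5 : |e 5 - b 5| ≤ (2 * κ * τ) * δ 5 := by
    have : e 5 - b 5 = c 5 - a 5 := by linear_combination p5 - q5
    rw [this]
    exact bmono (bsub c5 a5) (by linarith) (N 5)
  have r6 := s6 hδ hκ hτ ha hb (ha' 6 (by simp)) c5 c6 e5
  have e6 : |e 6 - (b 6 - a 2 * b 5)| ≤ (5 * κ ^ 2 * τ) * δ 6 := by
    have : e 6 - (b 6 - a 2 * b 5) = c 6 + b 2 * c 5 - a 6 - a 2 * (e 5 - b 5) := by
      linear_combination p6 - q6
    rw [this]
    exact r6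
  have r8 := s8 hδ hκ hτ ha hb (ha' 8 (by simp)) c5 c8 e5
  have e8 : |e 8 - (b 8 + a 0 * b 5)| ≤ (5 * κ ^ 2 * τ) * δ 8 := by
    have : e 8 - (b 8 + a 0 * b 5) = c 8 - b 0 * c 5 - a 8 + a 0 * (e 5 - b 5) := by
      linear_combination p8 - q8
    rw [this]
    exact r8
  have r9 := s9 hδ hκ hτ ha hb (ha' 9 (by simp)) c5 c6 c8 c9 e5 e6 e8
  have e9 : |e 9 - (b 9 + a 0 * b 6 - a 2 * (b 8 + a 0 * b 5))| ≤ (17 * κ ^ 3 * τ) * δ 9 := by
    refine le_trans (le_of_eq (congrArg abs ?_)) r9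
    linear_combination p9 - q9
  have r7 := s7 hδ hκ hτ ha hb (ha' 7 (by simp)) c1 c5 c6 c7 e1 e5 e6
  have e7 : |e 7 - (b 7 + 2 * a 0 * b 1 - a 4 * b 5 - a 3 * b 6)| ≤ (20 * κ ^ 3 * τ) * δ 7 := by
    refine le_trans (le_of_eq (congrArg abs ?_)) r7
    linear_combination p7 - q7
  have r10 := s10 hδ hκ hτ ha hb (ha' 10 (by simp)) c1 c5 c6 c7 c8 c9
    (hc' 10 (by simp)) e1 e5 e6 e7 e8 e9
  have e10 : |e 10 - (b 10 + a 0 * b 7 + a 0 ^ 2 * b 1 -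
      a 4 * (b 8 + a 0 * b 5) - a 3 * (b 9 + a 0 * b 6))| ≤ (69 * κ ^ 4 * τ) * δ 10 := by
    refine le_trans (le_of_eq (congrArg abs ?_)) r10
    linear_combination p10 - q10
  rcases hs with rfl | rfl | rfl | rfl | rfl | rfl | rfl
  · exact bmono e1 (by linarith) (N 1)
  · exact bmono e5 (by linarith) (N 5)
  · exact bmono e6 (by linarith) (N 6)
  · exact bmono e7 (by linarith) (N 7)
  · exact bmono e8 (by linarith) (N 8)
  · exact bmono e9 (by linarith) (N 9)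
  · exact bmono e10 (by linarith) (N 10)

end

/-- **evolution for fat lines** -/
theorem evo_fat {x x' y y' : Fq4} {δ : Fin 11 → ℝ} (hδ : Sides δ) {κ τ : ℝ} (hκ : 1 ≤ κ)
    (hτ : 0 ≤ τ)
    (ha : ∀ s, |coQ x x' s| ≤ κ * δ s) (hb : ∀ s, |coQ x y s| ≤ κ * δ s)
    (ha' : ∀ s, s = 1 ∨ s = 5 ∨ s = 6 ∨ s = 7 ∨ s = 8 ∨ s = 9 ∨ s = 10 →
      |coQ x x' s| ≤ (κ * τ) * δ s)
    (hc' : ∀ s, s = 1 ∨ s = 5 ∨ s = 6 ∨ s = 7 ∨ s = 8 ∨ s = 9 ∨ s = 10 →
      |coQ y y' s| ≤ (κ * τ) * δ s)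
    (s : Fin 11) (hs : s = 1 ∨ s = 5 ∨ s = 6 ∨ s = 7 ∨ s = 8 ∨ s = 9 ∨ s = 10) :
    |coQ x' y' s - evoRHS (coQ x x') (coQ x y) s| ≤ (100 * κ ^ 4 * τ) * δ s :=
  evo_abs (cocy x y y') (cocy x x' y') hδ hκ hτ ha hb ha' hc' s hs

end Crest.Agent.R136.Ev356
end

-- ▼ part R136/Ev3_356
section

/-!
# R136: evolution in the window of helper926, chart of helper186 (helper356)

`QWnd W f`: the window `W : Wnd 11 ι` has the chart `coQ (f i) (f j)`; `W.u n s = kap s * d^(X s)`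
(unit of the slot `s`), `W.cf n i j s = u i * u j / u s` (coefficient of the monomial `i j → s`).
-/

set_option autoImplicit false
set_option linter.unusedSectionVars false
set_option linter.unusedVariables false

open Filter Topology

namespace Crest.Agent.R136.Ev356

open Finset Crest.Agent.R136.NetQ186 Crest.Agent.R136.Net191 Crest.Agent.R136.Qg926
open Crest.Agent.R138.Ex926 (Base U)

variable {ι : ℕ → Type*} [∀ n, DecidableEq (ι n)]

/-- legal exponents give sides with walls -/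
theorem sides_of_legal {d : ℝ} (hd : 0 < d) (hd1 : d ≤ 1) {p : Fin 11 → ℝ}
    (hp : Legal monQ p) : Sides (fun s => d ^ p s) := by
  obtain ⟨h0, h4, h6, h7a, h7b, h7c, h8, h9a, h9b, h10a, h10b, h10c⟩ := legalQ_iff.1 hp
  have key : ∀ i j s : Fin 11, p s ≤ p i + p j → d ^ p i * d ^ p j ≤ d ^ p s := by
    intro i j s h
    rw [← Real.rpow_add hd]
    exact Real.rpow_le_rpow_of_exponent_ge hd hd1 h
  exact ⟨fun s => Real.rpow_pos_of_pos hd _, key _ _ _ h4, key _ _ _ h6, key _ _ _ h7a,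
    key _ _ _ h7b, key _ _ _ h7c, key _ _ _ h8, key _ _ _ h9a, key _ _ _ h9b, key _ _ _ h10a,
    key _ _ _ h10b, key _ _ _ h10c⟩

/-- the window lives in the chart of helper186 -/
structure QWnd (W : Wnd 11 ι) (f : ∀ n, ι n → Fq4) : Prop where
  ok : W.Ok
  hM : W.M = monQ
  hco : ∀ n, ∀ i ∈ W.I n, ∀ j ∈ W.I n, W.co n i j = coQ (f n i) (f n j)
  hS : ∀ s ∈ W.S, s = 0 ∨ s = 2 ∨ s = 3 ∨ s = 4

/-- unit of a slot -/
noncomputable def un (W : Wnd 11 ι) (n : ℕ) (s : Fin 11) : ℝ := W.kap s * W.B.d n ^ W.X n s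

/-- coefficient of a monomial in normalised coordinates -/
noncomputable def cf (W : Wnd 11 ι) (n : ℕ) (i j s : Fin 11) : ℝ := un W n i * un W n j / un W n s

/-- normalised right-hand sides of the evolution -/
noncomputable def evoN (W : Wnd 11 ι) (n : ℕ) (a b : Fin 11 → ℝ) : Fin 11 → ℝ :=
  ![b 0, b 1, b 2, b 3, b 4, b 5, b 6 - cf W n 2 5 6 * (a 2 * b 5),
    b 7 + 2 * (cf W n 0 1 7 * (a 0 * b 1)) - cf W n 4 5 7 * (a 4 * b 5) -
      cf W n 3 6 7 * (a 3 * b 6),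
    b 8 + cf W n 0 5 8 * (a 0 * b 5),
    b 9 + cf W n 0 6 9 * (a 0 * b 6) -
      cf W n 2 8 9 * (a 2 * (b 8 + cf W n 0 5 8 * (a 0 * b 5))),
    b 10 + cf W n 0 7 10 * (a 0 * b 7) + cf W n 0 7 10 * (a 0 * (cf W n 0 1 7 * (a 0 * b 1))) -
      cf W n 4 8 10 * (a 4 * (b 8 + cf W n 0 5 8 * (a 0 * b 5))) -
      cf W n 3 9 10 * (a 3 * (b 9 + cf W n 0 6 9 * (a 0 * b 6)))]

variable {W : Wnd 11 ι} {f : ∀ n, ι n → Fq4}

namespace QWnd

variable (h : QWnd W f)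

include h

theorem un_pos (n : ℕ) (s : Fin 11) : 0 < un W n s :=
  mul_pos (h.ok.kap s) (Real.rpow_pos_of_pos (W.B.pos n) _)

theorem sides {n : ℕ} (g : W.Good n) : Sides (fun s => W.B.d n ^ W.X n s) := by
  have h1 := g.leg 0 h.ok.zero_leg
  rw [smul_zero, add_zero, h.hM] at h1
  exact sides_of_legal (W.B.pos n) (W.B.lt n).le h1

theorem notMem {s : Fin 11} (hs : s = 1 ∨ s = 5 ∨ s = 6 ∨ s = 7 ∨ s = 8 ∨ s = 9 ∨ s = 10) :
    s ∉ W.S := by
  intro hm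
  have := h.hS s hm
  rcases hs with rfl | rfl | rfl | rfl | rfl | rfl | rfl <;> simp at this

/-- bounds of all coordinates -/
theorem bnd {n : ℕ} (g : W.Good n) {x y : ι n} (hx : x ∈ W.Cl n) (hy : y ∈ W.Cl n) (s : Fin 11) :
    |coQ (f n x) (f n y) s| ≤ W.K0 * W.B.d n ^ W.X n s := by
  have := h.ok.near0 g hx hy s
  rw [Pi.zero_apply, Real.rpow_zero, mul_one] at this
  rwa [← h.hco n x (g.clI hx) y (g.clI hy)]

/-- own motion of the line slots -/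
theorem own_small {n : ℕ} (g : W.Good n) {x x' : ι n} (hx : x ∈ W.Cl n) (hx' : x' ∈ W.Cl n)
    (hl : W.lc n x = W.lc n x') {t : ℝ} {s : Fin 11} (hs : s ∉ W.S) (ht : t ≤ W.top s) :
    |coQ (f n x) (f n x') s| ≤ (W.K0 * W.B'.d n ^ t) * W.B.d n ^ W.X n s := by
  have h1 := h.ok.near_lc g hx hx' hl s
  rw [cut_of_notMem hs] at h1
  rw [← h.hco n x (g.clI hx) x' (g.clI hx')]
  refine h1.trans ?_
  have h2 : W.B'.d n ^ W.top s ≤ W.B'.d n ^ t :=
    Real.rpow_le_rpow_of_exponent_ge (W.B'.pos n) (W.B'.lt n).le ht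
  have h3 : 0 ≤ W.K0 * W.B.d n ^ W.X n s :=
    mul_nonneg (by linarith [h.ok.K0_one]) (Real.rpow_nonneg (W.B.pos n).le _)
  nlinarith

/-- level slots at the same height -/
theorem lev_small {n : ℕ} (g : W.Good n) {x y : ι n} (hx : x ∈ W.Cl n) (hy : y ∈ W.Cl n)
    (hl : W.zc n x = W.zc n y) {t : ℝ} {s : Fin 11} (hs : s ∈ W.S) (ht : t ≤ W.top s) :
    |coQ (f n x) (f n y) s| ≤ (W.K0 * W.B'.d n ^ t) * W.B.d n ^ W.X n s := by
  have h1 := h.ok.near_zc g hx hy hl s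
  rw [cut_of_mem hs] at h1
  rw [← h.hco n x (g.clI hx) y (g.clI hy)]
  refine h1.trans ?_
  have h2 : W.B'.d n ^ W.top s ≤ W.B'.d n ^ t :=
    Real.rpow_le_rpow_of_exponent_ge (W.B'.pos n) (W.B'.lt n).le ht
  have h3 : 0 ≤ W.K0 * W.B.d n ^ W.X n s :=
    mul_nonneg (by linarith [h.ok.K0_one]) (Real.rpow_nonneg (W.B.pos n).le _)
  nlinarith

theorem crd_eq {n : ℕ} (g : W.Good n) {x y : ι n} (hx : x ∈ W.Cl n) (hy : y ∈ W.Cl n)
    (s : Fin 11) : coQ (f n x) (f n y) s = un W n s * W.crd n x y s := by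
  have h1 := (h.un_pos n s).ne'
  have : W.crd n x y s = coQ (f n x) (f n y) s / un W n s := by
    unfold Wnd.crd un
    rw [h.hco n x (g.clI hx) y (g.clI hy)]
  rw [this]
  field_simp

/-- normalised bounds -/
theorem crd_le {n : ℕ} (g : W.Good n) {x y : ι n} (hx : x ∈ W.Cl n) (hy : y ∈ W.Cl n)
    (s : Fin 11) : |W.crd n x y s| ≤ W.K0 / W.kap s := by
  have h1 := h.bnd g hx hy s
  rw [h.crd_eq g hx hy, abs_mul, abs_of_pos (h.un_pos n s)] at h1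
  have hk := h.ok.kap s
  have hd := Real.rpow_pos_of_pos (W.B.pos n) (W.X n s)
  rw [le_div_iff₀ hk]
  unfold un at h1
  have h2 : W.B.d n ^ W.X n s * (|W.crd n x y s| * W.kap s) ≤ W.B.d n ^ W.X n s * W.K0 := by
    linarith
  exact le_of_mul_le_mul_left h2 hd

/-- **evolution in the window**: `x, x'` on one fat line, `y, y'` on another one. -/
theorem evoW {n : ℕ} (g : W.Good n) {x x' y y' : ι n} (hx : x ∈ W.Cl n) (hx' : x' ∈ W.Cl n)
    (hy : y ∈ W.Cl n) (hy' : y' ∈ W.Cl n) (hl : W.lc n x = W.lc n x') (hl' : W.lc n y = W.lc n y')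
    {t : ℝ} (ht : ∀ s, s ∉ W.S → t ≤ W.top s)
    (s : Fin 11) (hs : s = 1 ∨ s = 5 ∨ s = 6 ∨ s = 7 ∨ s = 8 ∨ s = 9 ∨ s = 10) :
    |W.crd n x' y' s - evoN W n (W.crd n x x') (W.crd n x y) s| ≤
      (100 * W.K0 ^ 4 / W.kap s) * W.B'.d n ^ t := by
  have h1 := evo_fat (x := f n x) (x' := f n x') (y := f n y) (y' := f n y') (h.sides g)
    h.ok.K0_one (Real.rpow_nonneg (W.B'.pos n).le t) (h.bnd g hx hx') (h.bnd g hx hy)
    (fun s hs => h.own_small g hx hx' hl (h.notMem hs) (ht s (h.notMem hs)))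
    (fun s hs => h.own_small g hy hy' hl' (h.notMem hs) (ht s (h.notMem hs))) s hs
  have hu : ∀ s, un W n s ≠ 0 := fun s => (h.un_pos n s).ne'
  have key : coQ (f n x') (f n y') s - evoRHS (coQ (f n x) (f n x')) (coQ (f n x) (f n y)) s =
      un W n s * (W.crd n x' y' s - evoN W n (W.crd n x x') (W.crd n x y) s) := by
    have ea : ∀ s, coQ (f n x) (f n x') s = un W n s * W.crd n x x' s := h.crd_eq g hx hx'
    have eb : ∀ s, coQ (f n x) (f n y) s = un W n s * W.crd n x y s := h.crd_eq g hx hy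
    have ee : ∀ s, coQ (f n x') (f n y') s = un W n s * W.crd n x' y' s := h.crd_eq g hx' hy'
    rcases hs with rfl | rfl | rfl | rfl | rfl | rfl | rfl
    · simp only [evoRHS, evoN, ee, ea, eb, Matrix.cons_val]
      ring
    · simp only [evoRHS, evoN, ee, ea, eb, Matrix.cons_val]
      ring
    · simp only [evoRHS, evoN, ee, ea, eb, Matrix.cons_val, cf]
      have := hu 6
      field_simp
    · simp only [evoRHS, evoN, ee, ea, eb, Matrix.cons_val, cf]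
      have := hu 7
      field_simp
    · simp only [evoRHS, evoN, ee, ea, eb, Matrix.cons_val, cf]
      have := hu 8
      field_simp
    · simp only [evoRHS, evoN, ee, ea, eb, Matrix.cons_val, cf]
      have := hu 8
      have := hu 9
      field_simp
    · simp only [evoRHS, evoN, ee, ea, eb, Matrix.cons_val, cf]
      have := hu 7
      have := hu 8
      have := hu 9
      have := hu 10
      field_simp
  rw [key, abs_mul, abs_of_pos (h.un_pos n s)] at h1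
  have hk := h.ok.kap s
  have hd := Real.rpow_pos_of_pos (W.B.pos n) (W.X n s)
  rw [div_mul_eq_mul_div, le_div_iff₀ hk]
  unfold un at h1
  refine le_of_mul_le_mul_left (le_trans (le_of_eq ?_) (h1.trans (le_of_eq ?_))) hd
  · ring
  · ring

end QWnd

end Crest.Agent.R136.Ev356
end

-- ▼ part R136/Ev4_356
section

/-!
# R136: window of helper926, chart of helper186: level slots, composition (helper356)

* `cf_le`, `cf_eq`: coefficients of the monomials;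
* `own_add`, `own_four`: own motion of the level slots = function of the two heights;
* `crd_zero_add`: the height slot is additive;
* `comp_same`: composition of relative coordinates at one height.
-/

set_option autoImplicit false
set_option linter.unusedSectionVars false
set_option linter.unusedVariables false

open Filter Topology

namespace Crest.Agent.R136.Ev356

open Finset Crest.Agent.R136.NetQ186 Crest.Agent.R136.Net191 Crest.Agent.R136.Qg926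
open Crest.Agent.R138.Ex926 (Base U)

/-! ### composition at one height, raw form -/

/-- composition of relative coordinates at one height -/
def compRHS (b c : Fin 11 → ℝ) : Fin 11 → ℝ :=
  ![b 0 + c 0, b 1 + c 1, b 2 + c 2, b 3 + c 3, b 4 + c 4 - b 2 * c 3, b 5 + c 5,
    b 6 + c 6 + b 2 * c 5,
    b 7 + c 7 + b 4 * c 5 + b 2 * (b 3 * c 5) + b 3 * c 6,
    b 8 + c 8,
    b 9 + c 9 + b 2 * c 8,
    b 10 + c 10 + b 4 * c 8 + b 2 * (b 3 * c 8) + b 3 * c 9]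

theorem comp_abs {g b c : Fin 11 → ℝ} (hp : Cocy g b c) (h0 : g 0 = b 0 + c 0)
    (h2 : g 2 = b 2 + c 2) (h3 : g 3 = b 3 + c 3) (h4 : g 4 = b 4 + c 4 - b 2 * c 3)
    {δ : Fin 11 → ℝ} (hδ : Sides δ) {κ τ : ℝ} (hκ : 1 ≤ κ) (hτ : 0 ≤ τ)
    (hb : ∀ s, |b s| ≤ κ * δ s) (hc : ∀ s, |c s| ≤ κ * δ s) (hb0 : |b 0| ≤ (κ * τ) * δ 0)
    (s : Fin 11) : |g s - compRHS b c s| ≤ (5 * κ ^ 5 * τ) * δ s := by
  obtain ⟨p1, p5, p6, p7, p8, p9, p10⟩ := hp
  have N : ∀ s, 0 ≤ δ s := fun s => (hδ.pos s).le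
  have κ0 : 0 ≤ κ := by linarith
  have κτ : 0 ≤ κ * τ := mul_nonneg κ0 hτ
  have hpw : ∀ {m n : ℕ}, m ≤ n → κ ^ m * τ ≤ κ ^ n * τ := fun hmn =>
    mul_le_mul_of_nonneg_right (pow_le_pow_right₀ hκ hmn) hτ
  have t0 := hpw (show 0 ≤ 5 by norm_num)
  have t2 := hpw (show 2 ≤ 5 by norm_num)
  have t3 := hpw (show 3 ≤ 5 by norm_num)
  have t4 := hpw (show 4 ≤ 5 by norm_num)
  have t5 : 0 ≤ κ ^ 5 * τ := by positivity
  have zero : ∀ s : Fin 11, g s = compRHS b c s → |g s - compRHS b c s| ≤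
      (5 * κ ^ 5 * τ) * δ s := by
    intro s hs
    rw [hs, sub_self, abs_zero]
    exact mul_nonneg (by positivity) (N s)
  have w001 : δ 0 * (δ 0 * δ 1) ≤ δ 10 :=
    (mul_le_mul_of_nonneg_left hδ.w7a (N 0)).trans hδ.w10a
  have w205 : δ 2 * (δ 0 * δ 5) ≤ δ 9 :=
    (mul_le_mul_of_nonneg_left hδ.w8 (N 2)).trans hδ.w9b
  have w405 : δ 4 * (δ 0 * δ 5) ≤ δ 10 :=
    (mul_le_mul_of_nonneg_left hδ.w8 (N 4)).trans hδ.w10b
  have w238 : δ 2 * (δ 3 * δ 8) ≤ δ 10 := by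
    have h1 : δ 2 * (δ 3 * δ 8) = (δ 2 * δ 3) * δ 8 := by ring
    rw [h1]
    exact (mul_le_mul_of_nonneg_right hδ.w4 (N 8)).trans hδ.w10b
  have w2305 : δ 2 * (δ 3 * (δ 0 * δ 5)) ≤ δ 10 :=
    (mul_le_mul_of_nonneg_left (mul_le_mul_of_nonneg_left hδ.w8 (N 3)) (N 2)).trans w238
  have w306 : δ 3 * (δ 0 * δ 6) ≤ δ 10 :=
    (mul_le_mul_of_nonneg_left hδ.w9a (N 3)).trans hδ.w10c
  have e7 : |g 7 - compRHS b c 7| ≤ (5 * κ ^ 5 * τ) * δ 7 := by
    have : g 7 - compRHS b c 7 = -(b 0 * c 1 + b 0 * c 1) := by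
      simp only [compRHS, Matrix.cons_val]
      linear_combination p7
    rw [this]
    refine bmono (bneg (badd (bmul hb0 (hc 1) κτ κ0 (N 0) (N 1) hδ.w7a)
      (bmul hb0 (hc 1) κτ κ0 (N 0) (N 1) hδ.w7a))) ?_ (N 7)
    linarith
  have e8 : |g 8 - compRHS b c 8| ≤ (5 * κ ^ 5 * τ) * δ 8 := by
    have : g 8 - compRHS b c 8 = -(b 0 * c 5) := by
      simp only [compRHS, Matrix.cons_val]
      linear_combination p8
    rw [this]
    refine bmono (bneg (bmul hb0 (hc 5) κτ κ0 (N 0) (N 5) hδ.w8)) ?_ (N 8)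
    linarith
  have e9 : |g 9 - compRHS b c 9| ≤ (5 * κ ^ 5 * τ) * δ 9 := by
    have : g 9 - compRHS b c 9 = -(b 0 * c 6) - b 2 * (b 0 * c 5) := by
      simp only [compRHS, Matrix.cons_val]
      linear_combination p9
    rw [this]
    refine bmono (bsub (bneg (bmul hb0 (hc 6) κτ κ0 (N 0) (N 6) hδ.w9a))
      (bmul (hb 2) (bmul hb0 (hc 5) κτ κ0 (N 0) (N 5) le_rfl) κ0 (by positivity) (N 2)
        (mul_nonneg (N 0) (N 5)) w205)) ?_ (N 9)
    linarith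
  have e10 : |g 10 - compRHS b c 10| ≤ (5 * κ ^ 5 * τ) * δ 10 := by
    have : g 10 - compRHS b c 10 = b 0 * (b 0 * c 1) - b 0 * c 7 - b 4 * (b 0 * c 5) -
        b 2 * (b 3 * (b 0 * c 5)) - b 3 * (b 0 * c 6) := by
      simp only [compRHS, Matrix.cons_val]
      linear_combination p10
    rw [this]
    refine bmono (bsub (bsub (bsub (bsub
      (bmul (hb 0) (bmul hb0 (hc 1) κτ κ0 (N 0) (N 1) le_rfl) κ0 (by positivity) (N 0)
        (mul_nonneg (N 0) (N 1)) w001)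
      (bmul hb0 (hc 7) κτ κ0 (N 0) (N 7) hδ.w10a))
      (bmul (hb 4) (bmul hb0 (hc 5) κτ κ0 (N 0) (N 5) le_rfl) κ0 (by positivity) (N 4)
        (mul_nonneg (N 0) (N 5)) w405))
      (bmul (hb 2) (bmul (hb 3) (bmul hb0 (hc 5) κτ κ0 (N 0) (N 5) le_rfl) κ0
        (by positivity) (N 3) (mul_nonneg (N 0) (N 5)) le_rfl) κ0 (by positivity) (N 2)
        (mul_nonneg (N 3) (mul_nonneg (N 0) (N 5))) w2305))
      (bmul (hb 3) (bmul hb0 (hc 6) κτ κ0 (N 0) (N 6) le_rfl) κ0 (by positivity) (N 3)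
        (mul_nonneg (N 0) (N 6)) w306)) ?_ (N 10)
    linarith
  fin_cases s
  · exact zero 0 (by simp only [compRHS, Matrix.cons_val]; exact h0)
  · exact zero 1 (by simp only [compRHS, Matrix.cons_val]; exact p1)
  · exact zero 2 (by simp only [compRHS, Matrix.cons_val]; exact h2)
  · exact zero 3 (by simp only [compRHS, Matrix.cons_val]; exact h3)
  · exact zero 4 (by simp only [compRHS, Matrix.cons_val]; exact h4)
  · exact zero 5 (by simp only [compRHS, Matrix.cons_val]; exact p5)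
  · exact zero 6 (by simp only [compRHS, Matrix.cons_val]; exact p6)
  · exact e7
  · exact e8
  · exact e9
  · exact e10

variable {ι : ℕ → Type*} [∀ n, DecidableEq (ι n)]

/-- composition at one height, normalised -/
noncomputable def compN (W : Wnd 11 ι) (n : ℕ) (b c : Fin 11 → ℝ) : Fin 11 → ℝ :=
  ![b 0 + c 0, b 1 + c 1, b 2 + c 2, b 3 + c 3, b 4 + c 4 - cf W n 2 3 4 * (b 2 * c 3), b 5 + c 5,
    b 6 + c 6 + cf W n 2 5 6 * (b 2 * c 5),
    b 7 + c 7 + cf W n 4 5 7 * (b 4 * c 5) + cf W n 4 5 7 * cf W n 2 3 4 * (b 2 * (b 3 * c 5)) +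
      cf W n 3 6 7 * (b 3 * c 6),
    b 8 + c 8,
    b 9 + c 9 + cf W n 2 8 9 * (b 2 * c 8),
    b 10 + c 10 + cf W n 4 8 10 * (b 4 * c 8) +
      cf W n 4 8 10 * cf W n 2 3 4 * (b 2 * (b 3 * c 8)) + cf W n 3 9 10 * (b 3 * c 9)]

variable {W : Wnd 11 ι} {f : ∀ n, ι n → Fq4}

namespace QWnd

variable (h : QWnd W f)

include h

theorem cf_pos (n : ℕ) (i j s : Fin 11) : 0 < cf W n i j s :=
  div_pos (mul_pos (h.un_pos n i) (h.un_pos n j)) (h.un_pos n s)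

theorem cf_eq' (n : ℕ) (i j s : Fin 11) : cf W n i j s =
    W.kap i * W.kap j / W.kap s * W.B.d n ^ (W.X n i + W.X n j - W.X n s) := by
  have hs := (h.ok.kap s).ne'
  have hd := (Real.rpow_pos_of_pos (W.B.pos n) (W.X n s)).ne'
  unfold cf un
  rw [Real.rpow_sub (W.B.pos n), Real.rpow_add (W.B.pos n)]
  field_simp

/-- tight wall -/
theorem cf_eq {n : ℕ} {i j s : Fin 11} (hw : W.X n s = W.X n i + W.X n j) :
    cf W n i j s = W.kap i * W.kap j / W.kap s := by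
  rw [h.cf_eq' n i j s, hw, sub_self, Real.rpow_zero, mul_one]

theorem cf_le {n : ℕ} {i j s : Fin 11} (hw : W.X n s ≤ W.X n i + W.X n j) :
    cf W n i j s ≤ W.kap i * W.kap j / W.kap s := by
  rw [h.cf_eq' n i j s]
  have h1 : W.B.d n ^ (W.X n i + W.X n j - W.X n s) ≤ 1 :=
    Real.rpow_le_one (W.B.pos n).le (W.B.lt n).le (by linarith)
  have h2 : 0 ≤ W.kap i * W.kap j / W.kap s :=
    (div_pos (mul_pos (h.ok.kap i) (h.ok.kap j)) (h.ok.kap s)).le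
  nlinarith

/-- the walls at the base point -/
theorem walls {n : ℕ} (g : W.Good n) :
    W.X n 4 ≤ W.X n 2 + W.X n 3 ∧ W.X n 6 ≤ W.X n 2 + W.X n 5 ∧ W.X n 7 ≤ W.X n 0 + W.X n 1 ∧
    W.X n 7 ≤ W.X n 4 + W.X n 5 ∧ W.X n 7 ≤ W.X n 3 + W.X n 6 ∧ W.X n 8 ≤ W.X n 0 + W.X n 5 ∧
    W.X n 9 ≤ W.X n 0 + W.X n 6 ∧ W.X n 9 ≤ W.X n 2 + W.X n 8 ∧ W.X n 10 ≤ W.X n 0 + W.X n 7 ∧
    W.X n 10 ≤ W.X n 4 + W.X n 8 ∧ W.X n 10 ≤ W.X n 3 + W.X n 9 := by
  have h1 := g.leg 0 h.ok.zero_leg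
  rw [smul_zero, add_zero, h.hM] at h1
  exact (legalQ_iff.1 h1).2

/-- additive slots -/
theorem crd_add {n : ℕ} (g : W.Good n) {x y z : ι n} (hx : x ∈ W.Cl n) (hy : y ∈ W.Cl n)
    (hz : z ∈ W.Cl n) {s : Fin 11} (hs : s = 0 ∨ s = 1 ∨ s = 2 ∨ s = 3 ∨ s = 5) :
    W.crd n x z s = W.crd n x y s + W.crd n y z s := by
  obtain ⟨p0, p1, p2, p3, p4, p5, -⟩ := coQ_add (f n x) (f n y) (f n z)
  have hu := (h.un_pos n s).ne'
  have key : coQ (f n x) (f n z) s = coQ (f n x) (f n y) s + coQ (f n y) (f n z) s := by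
    rcases hs with rfl | rfl | rfl | rfl | rfl
    · exact p0
    · exact p1
    · exact p2
    · exact p3
    · exact p5
  rw [h.crd_eq g hx hz, h.crd_eq g hx hy, h.crd_eq g hy hz, ← mul_add] at key
  exact mul_left_cancel₀ hu key

/-- slot `F_a`: exact composition -/
theorem crd_four {n : ℕ} (g : W.Good n) {x y z : ι n} (hx : x ∈ W.Cl n) (hy : y ∈ W.Cl n)
    (hz : z ∈ W.Cl n) :
    W.crd n x z 4 = W.crd n x y 4 + W.crd n y z 4 -
      cf W n 2 3 4 * (W.crd n x y 2 * W.crd n y z 3) := by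
  obtain ⟨p0, p1, p2, p3, p4, p5, -⟩ := coQ_add (f n x) (f n y) (f n z)
  have hu := (h.un_pos n 4).ne'
  rw [h.crd_eq g hx hz, h.crd_eq g hx hy, h.crd_eq g hy hz, h.crd_eq g hx hy,
    h.crd_eq g hy hz] at p4
  have : un W n 4 * (W.crd n x y 4 + W.crd n y z 4 -
      cf W n 2 3 4 * (W.crd n x y 2 * W.crd n y z 3)) = un W n 4 * W.crd n x z 4 := by
    rw [p4]
    unfold cf
    field_simp
  exact (mul_left_cancel₀ hu this).symm

/-- slot `C_b`: exact composition -/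
theorem crd_six {n : ℕ} (g : W.Good n) {x y z : ι n} (hx : x ∈ W.Cl n) (hy : y ∈ W.Cl n)
    (hz : z ∈ W.Cl n) :
    W.crd n x z 6 = W.crd n x y 6 + W.crd n y z 6 +
      cf W n 2 5 6 * (W.crd n x y 2 * W.crd n y z 5) := by
  obtain ⟨p0, p1, p2, p3, p4, p5, p6, -⟩ := coQ_add (f n x) (f n y) (f n z)
  have hu := (h.un_pos n 6).ne'
  rw [h.crd_eq g hx hz, h.crd_eq g hx hy, h.crd_eq g hy hz, h.crd_eq g hx hy,
    h.crd_eq g hy hz] at p6
  have : un W n 6 * (W.crd n x y 6 + W.crd n y z 6 +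
      cf W n 2 5 6 * (W.crd n x y 2 * W.crd n y z 5)) = un W n 6 * W.crd n x z 6 := by
    rw [p6]
    unfold cf
    field_simp
  exact (mul_left_cancel₀ hu this).symm

/-- normalised smallness of the level slots at one height -/
theorem crd_lev {n : ℕ} (g : W.Good n) {x y : ι n} (hx : x ∈ W.Cl n) (hy : y ∈ W.Cl n)
    (hl : W.zc n x = W.zc n y) {t : ℝ} {s : Fin 11} (hs : s ∈ W.S) (ht : t ≤ W.top s) :
    |W.crd n x y s| ≤ (W.K0 / W.kap s) * W.B'.d n ^ t := by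
  have h1 := h.lev_small g hx hy hl hs ht
  rw [h.crd_eq g hx hy, abs_mul, abs_of_pos (h.un_pos n s)] at h1
  have hk := h.ok.kap s
  have hd := Real.rpow_pos_of_pos (W.B.pos n) (W.X n s)
  rw [div_mul_eq_mul_div, le_div_iff₀ hk]
  unfold un at h1
  refine le_of_mul_le_mul_left (le_trans (le_of_eq ?_) (h1.trans (le_of_eq ?_))) hd
  · ring
  · ring

/-- normalised smallness of the line slots on one fat line -/
theorem crd_own {n : ℕ} (g : W.Good n) {x y : ι n} (hx : x ∈ W.Cl n) (hy : y ∈ W.Cl n)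
    (hl : W.lc n x = W.lc n y) {t : ℝ} {s : Fin 11} (hs : s ∉ W.S) (ht : t ≤ W.top s) :
    |W.crd n x y s| ≤ (W.K0 / W.kap s) * W.B'.d n ^ t := by
  have h1 := h.own_small g hx hy hl hs ht
  rw [h.crd_eq g hx hy, abs_mul, abs_of_pos (h.un_pos n s)] at h1
  have hk := h.ok.kap s
  have hd := Real.rpow_pos_of_pos (W.B.pos n) (W.X n s)
  rw [div_mul_eq_mul_div, le_div_iff₀ hk]
  unfold un at h1
  refine le_of_mul_le_mul_left (le_trans (le_of_eq ?_) (h1.trans (le_of_eq ?_))) hd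
  · ring
  · ring

/-- **own motion of an additive level slot is a function of the two heights** -/
theorem own_add {n : ℕ} (g : W.Good n) {x x' z z' : ι n} (hx : x ∈ W.Cl n) (hx' : x' ∈ W.Cl n)
    (hz : z ∈ W.Cl n) (hz' : z' ∈ W.Cl n) (hl : W.zc n x = W.zc n z)
    (hl' : W.zc n x' = W.zc n z') {t : ℝ} {s : Fin 11} (hs : s ∈ W.S)
    (hs' : s = 0 ∨ s = 2 ∨ s = 3) (ht : t ≤ W.top s) :
    |W.crd n x x' s - W.crd n z z' s| ≤ (2 * W.K0 / W.kap s) * W.B'.d n ^ t := by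
  have hs'' : s = 0 ∨ s = 1 ∨ s = 2 ∨ s = 3 ∨ s = 5 := by tauto
  have h1 := h.crd_add g hx hz hx' hs''
  have h2 := h.crd_add g hz hz' hx' hs''
  have h3 := h.crd_lev g hx hz hl hs ht
  have h4 := h.crd_lev g hz' hx' hl'.symm hs ht
  have e : W.crd n x x' s - W.crd n z z' s = W.crd n x z s + W.crd n z' x' s := by linarith
  rw [e]
  have h5 := abs_add_le (W.crd n x z s) (W.crd n z' x' s)
  have e2 : (2 * W.K0 / W.kap s) * W.B'.d n ^ t =
      (W.K0 / W.kap s) * W.B'.d n ^ t + (W.K0 / W.kap s) * W.B'.d n ^ t := by ring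
  linarith


/-- **composition at one height** -/
theorem comp_same {n : ℕ} (g : W.Good n) {x y z : ι n} (hx : x ∈ W.Cl n) (hy : y ∈ W.Cl n)
    (hz : z ∈ W.Cl n) (h0S : (0 : Fin 11) ∈ W.S) (hl : W.zc n x = W.zc n y) {t : ℝ}
    (ht : t ≤ W.top 0) (s : Fin 11) :
    |W.crd n x z s - compN W n (W.crd n x y) (W.crd n y z) s| ≤
      (5 * W.K0 ^ 5 / W.kap s) * W.B'.d n ^ t := by
  obtain ⟨p0, p1, p2, p3, p4, p5, p6, p7, p8, p9, p10⟩ := coQ_add (f n x) (f n y) (f n z)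
  have h1 := comp_abs (cocy (f n x) (f n y) (f n z)) p0 p2 p3 p4 (h.sides g) h.ok.K0_one
    (Real.rpow_nonneg (W.B'.pos n).le t) (h.bnd g hx hy) (h.bnd g hy hz)
    (h.lev_small g hx hy hl h0S ht) s
  have hu : ∀ s, un W n s ≠ 0 := fun s => (h.un_pos n s).ne'
  have key : coQ (f n x) (f n z) s - compRHS (coQ (f n x) (f n y)) (coQ (f n y) (f n z)) s =
      un W n s * (W.crd n x z s - compN W n (W.crd n x y) (W.crd n y z) s) := by
    have ea : ∀ s, coQ (f n x) (f n y) s = un W n s * W.crd n x y s := h.crd_eq g hx hy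
    have eb : ∀ s, coQ (f n y) (f n z) s = un W n s * W.crd n y z s := h.crd_eq g hy hz
    have ee : ∀ s, coQ (f n x) (f n z) s = un W n s * W.crd n x z s := h.crd_eq g hx hz
    fin_cases s
    · simp only [compRHS, compN, ee, ea, eb, Matrix.cons_val, Fin.zero_eta]
      ring
    · simp only [compRHS, compN, ee, ea, eb, Matrix.cons_val, Fin.mk_one]
      ring
    · simp only [compRHS, compN, ee, ea, eb, Matrix.cons_val, Fin.reduceFinMk]
      ring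
    · simp only [compRHS, compN, ee, ea, eb, Matrix.cons_val, Fin.reduceFinMk]
      ring
    · simp only [compRHS, compN, ee, ea, eb, Matrix.cons_val, Fin.reduceFinMk, cf]
      have := hu 4
      field_simp
    · simp only [compRHS, compN, ee, ea, eb, Matrix.cons_val, Fin.reduceFinMk]
      ring
    · simp only [compRHS, compN, ee, ea, eb, Matrix.cons_val, Fin.reduceFinMk, cf]
      have := hu 6
      field_simp
    · simp only [compRHS, compN, ee, ea, eb, Matrix.cons_val, Fin.reduceFinMk, cf]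
      have := hu 7
      have := hu 4
      field_simp
    · simp only [compRHS, compN, ee, ea, eb, Matrix.cons_val, Fin.reduceFinMk]
      ring
    · simp only [compRHS, compN, ee, ea, eb, Matrix.cons_val, Fin.reduceFinMk, cf]
      have := hu 9
      field_simp
    · simp only [compRHS, compN, ee, ea, eb, Matrix.cons_val, Fin.reduceFinMk, cf]
      have := hu 10
      have := hu 4
      field_simp
  rw [key, abs_mul, abs_of_pos (h.un_pos n s)] at h1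
  have hk := h.ok.kap s
  have hd := Real.rpow_pos_of_pos (W.B.pos n) (W.X n s)
  rw [div_mul_eq_mul_div, le_div_iff₀ hk]
  unfold un at h1
  refine le_of_mul_le_mul_left (le_trans (le_of_eq ?_) (h1.trans (le_of_eq ?_))) hd
  · ring
  · ring

end QWnd

end Crest.Agent.R136.Ev356
end

-- ▼ part R136/Ev5_356

/-!
# R136: window of helper926, chart of helper186: evolution of `W.cfg E` (helper356)

* `Ap`: close pairs of bounded numbers;
* `evoN_lip`, `compN_lip`: the right-hand sides are Lipschitz;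
* `own W n k₀ k e`: own motion between two heights (`e` = slot `E` of the line, used only by the slot
  `F_a`);
* `QWnd.evoR`: evolution of `rel`; `QWnd.compR`: composition of `rel`.
-/

set_option autoImplicit false
set_option linter.unusedSectionVars false
set_option linter.unusedVariables false

open Filter Topology

namespace Crest.Agent.R136.Ev356

open Finset Crest.Agent.R136.NetQ186 Crest.Agent.R136.Net191 Crest.Agent.R136.Qg926
open Crest.Agent.R138.Ex926 (Base U)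

/-! ### close pairs -/

/-- `x`, `y` bounded by `m`, at distance at most `c η` -/
structure Ap (η m c x y : ℝ) : Prop where
  l : |x| ≤ m
  r : |y| ≤ m
  d : |x - y| ≤ c * η

namespace Ap

variable {η m c x y m' c' x' y' : ℝ}

theorem m0 (h : Ap η m c x y) : 0 ≤ m := (abs_nonneg _).trans h.l

theorem add (h : Ap η m c x y) (h' : Ap η m' c' x' y') : Ap η (m + m') (c + c') (x + x') (y + y') where
  l := (abs_add_le _ _).trans (add_le_add h.l h'.l)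
  r := (abs_add_le _ _).trans (add_le_add h.r h'.r)
  d := by
    have e : x + x' - (y + y') = (x - y) + (x' - y') := by ring
    rw [e, add_mul]
    exact (abs_add_le _ _).trans (add_le_add h.d h'.d)

theorem neg (h : Ap η m c x y) : Ap η m c (-x) (-y) where
  l := by rw [abs_neg]; exact h.l
  r := by rw [abs_neg]; exact h.r
  d := by
    have e : -x - -y = -(x - y) := by ring
    rw [e, abs_neg]; exact h.d

theorem sub (h : Ap η m c x y) (h' : Ap η m' c' x' y') : Ap η (m + m') (c + c') (x - x') (y - y') := by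
  have := h.add h'.neg
  simpa only [sub_eq_add_neg] using this

theorem mul (h : Ap η m c x y) (h' : Ap η m' c' x' y') :
    Ap η (m * m') (c * m' + m * c') (x * x') (y * y') where
  l := by rw [abs_mul]; exact mul_le_mul h.l h'.l (abs_nonneg _) h.m0
  r := by rw [abs_mul]; exact mul_le_mul h.r h'.r (abs_nonneg _) h.m0
  d := by
    have e : x * x' - y * y' = (x - y) * x' + y * (x' - y') := by ring
    rw [e]
    refine (abs_add_le _ _).trans ?_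
    rw [abs_mul, abs_mul]
    have h1 : |x - y| * |x'| ≤ c * η * m' :=
      mul_le_mul h.d h'.l (abs_nonneg _) ((abs_nonneg _).trans h.d)
    have h2 : |y| * |x' - y'| ≤ m * (c' * η) := mul_le_mul h.r h'.d (abs_nonneg _) h.m0
    nlinarith

theorem const (hη : 0 ≤ η) (hx : |x| ≤ m) : Ap η m 0 x x := ⟨hx, hx, by simp⟩

theorem mono (h : Ap η m c x y) (hη : 0 ≤ η) (hc : c ≤ c') : |x - y| ≤ c' * η :=
  h.d.trans (mul_le_mul_of_nonneg_right hc hη)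

end Ap

variable {ι : ℕ → Type*} [∀ n, DecidableEq (ι n)]

/-- all coefficients used by `evoN` and `compN` -/
def CfB (W : Wnd 11 ι) (n : ℕ) (M : ℝ) : Prop :=
  |cf W n 2 5 6| ≤ M ∧ |cf W n 0 1 7| ≤ M ∧ |cf W n 4 5 7| ≤ M ∧ |cf W n 3 6 7| ≤ M ∧
  |cf W n 0 5 8| ≤ M ∧ |cf W n 0 6 9| ≤ M ∧ |cf W n 2 8 9| ≤ M ∧ |cf W n 0 7 10| ≤ M ∧
  |cf W n 4 8 10| ≤ M ∧ |cf W n 3 9 10| ≤ M ∧ |cf W n 2 3 4| ≤ M

theorem evoN_lip {W : Wnd 11 ι} {n : ℕ} {M η : ℝ} (hM : 1 ≤ M) (hη : 0 ≤ η) (hc : CfB W n M)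
    {a a' b b' : Fin 11 → ℝ} (ha : ∀ s, Ap η M 1 (a s) (a' s))
    (hb : ∀ s, s = 1 ∨ s = 5 ∨ s = 6 ∨ s = 7 ∨ s = 8 ∨ s = 9 ∨ s = 10 → Ap η M 1 (b s) (b' s))
    (s : Fin 11) (hs : s = 1 ∨ s = 5 ∨ s = 6 ∨ s = 7 ∨ s = 8 ∨ s = 9 ∨ s = 10) :
    |evoN W n a b s - evoN W n a' b' s| ≤ (18 * M ^ 4) * η := by
  obtain ⟨c256, c017, c457, c367, c058, c069, c289, c0710, c4810, c3910, c234⟩ := hc
  have h1 : 1 ≤ M ^ 4 := one_le_pow₀ hM
  have h2 : M ^ 2 ≤ M ^ 4 := pow_le_pow_right₀ hM (by norm_num)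
  have h3 : M ^ 3 ≤ M ^ 4 := pow_le_pow_right₀ hM (by norm_num)
  have K : ∀ {x : ℝ}, |x| ≤ M → Ap η M 0 x x := fun hx => Ap.const hη hx
  have b1 := hb 1 (by simp)
  have b5 := hb 5 (by simp)
  have b6 := hb 6 (by simp)
  have b7 := hb 7 (by simp)
  have b8 := hb 8 (by simp)
  have b9 := hb 9 (by simp)
  have b10 := hb 10 (by simp)
  rcases hs with rfl | rfl | rfl | rfl | rfl | rfl | rfl
  · simp only [evoN, Matrix.cons_val]
    exact b1.mono hη (by linarith)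
  · simp only [evoN, Matrix.cons_val]
    exact b5.mono hη (by linarith)
  · simp only [evoN, Matrix.cons_val]
    refine (b6.sub ((K c256).mul ((ha 2).mul b5))).mono hη ?_
    linarith
  · simp only [evoN, Matrix.cons_val]
    refine (((b7.add ((Ap.const (m := 2) hη (by norm_num)).mul ((K c017).mul ((ha 0).mul b1)))).sub
      ((K c457).mul ((ha 4).mul b5))).sub ((K c367).mul ((ha 3).mul b6))).mono hη ?_
    linarith
  · simp only [evoN, Matrix.cons_val]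
    refine (b8.add ((K c058).mul ((ha 0).mul b5))).mono hη ?_
    linarith
  · simp only [evoN, Matrix.cons_val]
    refine ((b9.add ((K c069).mul ((ha 0).mul b6))).sub ((K c289).mul ((ha 2).mul
      (b8.add ((K c058).mul ((ha 0).mul b5)))))).mono hη ?_
    linarith
  · simp only [evoN, Matrix.cons_val]
    refine ((((b10.add ((K c0710).mul ((ha 0).mul b7))).add ((K c0710).mul ((ha 0).mul
      ((K c017).mul ((ha 0).mul b1))))).sub ((K c4810).mul ((ha 4).mul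
      (b8.add ((K c058).mul ((ha 0).mul b5)))))).sub ((K c3910).mul ((ha 3).mul
      (b9.add ((K c069).mul ((ha 0).mul b6)))))).mono hη ?_
    linarith

theorem compN_lip {W : Wnd 11 ι} {n : ℕ} {M η : ℝ} (hM : 1 ≤ M) (hη : 0 ≤ η) (hc : CfB W n M)
    {a a' b b' : Fin 11 → ℝ} (ha : ∀ s, Ap η M 1 (a s) (a' s)) (hb : ∀ s, Ap η M 1 (b s) (b' s))
    (s : Fin 11) : |compN W n a b s - compN W n a' b' s| ≤ (18 * M ^ 4) * η := by
  obtain ⟨c256, c017, c457, c367, c058, c069, c289, c0710, c4810, c3910, c234⟩ := hc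
  have h1 : 1 ≤ M ^ 4 := one_le_pow₀ hM
  have h2 : M ^ 2 ≤ M ^ 4 := pow_le_pow_right₀ hM (by norm_num)
  have h3 : M ^ 3 ≤ M ^ 4 := pow_le_pow_right₀ hM (by norm_num)
  have K : ∀ {x : ℝ}, |x| ≤ M → Ap η M 0 x x := fun hx => Ap.const hη hx
  fin_cases s
  · simp only [compN, Matrix.cons_val, Fin.zero_eta]
    exact ((ha 0).add (hb 0)).mono hη (by linarith)
  · simp only [compN, Matrix.cons_val, Fin.mk_one]
    exact ((ha 1).add (hb 1)).mono hη (by linarith)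
  · simp only [compN, Matrix.cons_val, Fin.reduceFinMk]
    exact ((ha 2).add (hb 2)).mono hη (by linarith)
  · simp only [compN, Matrix.cons_val, Fin.reduceFinMk]
    exact ((ha 3).add (hb 3)).mono hη (by linarith)
  · simp only [compN, Matrix.cons_val, Fin.reduceFinMk]
    exact (((ha 4).add (hb 4)).sub ((K c234).mul ((ha 2).mul (hb 3)))).mono hη (by linarith)
  · simp only [compN, Matrix.cons_val, Fin.reduceFinMk]
    exact ((ha 5).add (hb 5)).mono hη (by linarith)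
  · simp only [compN, Matrix.cons_val, Fin.reduceFinMk]
    exact (((ha 6).add (hb 6)).add ((K c256).mul ((ha 2).mul (hb 5)))).mono hη (by linarith)
  · simp only [compN, Matrix.cons_val, Fin.reduceFinMk]
    refine (((((ha 7).add (hb 7)).add ((K c457).mul ((ha 4).mul (hb 5)))).add
      (((K c457).mul (K c234)).mul ((ha 2).mul ((ha 3).mul (hb 5))))).add
      ((K c367).mul ((ha 3).mul (hb 6)))).mono hη ?_
    nlinarith
  · simp only [compN, Matrix.cons_val, Fin.reduceFinMk]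
    exact ((ha 8).add (hb 8)).mono hη (by linarith)
  · simp only [compN, Matrix.cons_val, Fin.reduceFinMk]
    exact (((ha 9).add (hb 9)).add ((K c289).mul ((ha 2).mul (hb 8)))).mono hη (by linarith)
  · simp only [compN, Matrix.cons_val, Fin.reduceFinMk]
    refine (((((ha 10).add (hb 10)).add ((K c4810).mul ((ha 4).mul (hb 8)))).add
      (((K c4810).mul (K c234)).mul ((ha 2).mul ((ha 3).mul (hb 8))))).add
      ((K c3910).mul ((ha 3).mul (hb 9)))).mono hη ?_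
    nlinarith

/-! ### own motion as a function of the heights -/

/-- motion of an additive flag between two heights (`0` for line slots) -/
noncomputable def mot (W : Wnd 11 ι) (n k₀ k : ℕ) (s : Fin 11) : ℝ :=
  if s ∈ W.S then W.crd n (W.zrep n k₀) (W.zrep n k) s else 0

/-- **own motion from the height `k₀` to the height `k`** (representatives of the heights);
`e`, `b` = slots `E`, `f_b` of the line seen from the representative of `k₀` (used only by the slot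
`F_a`) -/
noncomputable def own (W : Wnd 11 ι) (n k₀ k : ℕ) (e b : ℝ) : Fin 11 → ℝ := fun s =>
  if s = 4 then
    (if (4 : Fin 11) ∈ W.S then W.crd n (W.zrep n k₀) (W.zrep n k) 4 + cf W n 2 3 4 *
        (e * mot W n k₀ k 3 + (e + mot W n k₀ k 2) *
          (W.crd n (W.zrep n k₀) (W.zrep n k) 3 - b - mot W n k₀ k 3))
      else 0)
  else mot W n k₀ k s

/-- a flag of the line `i` at the height `k₀` seen from the representative of the height
(`0` if it is a level slot) -/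
noncomputable def fsl (W : Wnd 11 ι) (n i k₀ : ℕ) (s : Fin 11) : ℝ :=
  if s ∈ W.S then 0 else W.crd n (W.zrep n k₀) (W.rep n i k₀) s

/-- bound of everything in the window -/
noncomputable def MW (W : Wnd 11 ι) : ℝ :=
  1 + (∑ s, W.K0 / W.kap s) + (∑ s, (∑ i, ∑ j, W.kap i * W.kap j / W.kap s)) +
    (∑ s, (2 * W.K0 + W.K0 ^ 2) / W.kap s)

variable {W : Wnd 11 ι} {f : ∀ n, ι n → Fq4}

namespace QWnd

variable (h : QWnd W f)

include h

theorem MW_le (s : Fin 11) : 1 + W.K0 / W.kap s ≤ MW W ∧ 1 ≤ MW W ∧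
    (∀ i j, W.kap i * W.kap j / W.kap s ≤ MW W) ∧ (2 * W.K0 + W.K0 ^ 2) / W.kap s ≤ MW W := by
  have hk := h.ok.kap
  have hK := h.ok.K0_one
  have h1 : ∀ s, 0 ≤ W.K0 / W.kap s := fun s => div_nonneg (by linarith) (hk s).le
  have h2 : ∀ i j s, 0 ≤ W.kap i * W.kap j / W.kap s := fun i j s =>
    div_nonneg (mul_nonneg (hk i).le (hk j).le) (hk s).le
  have h3 : ∀ s, 0 ≤ (2 * W.K0 + W.K0 ^ 2) / W.kap s := fun s =>
    div_nonneg (by positivity) (hk s).le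
  have a1 : W.K0 / W.kap s ≤ ∑ s, W.K0 / W.kap s :=
    single_le_sum (f := fun s => W.K0 / W.kap s) (fun s _ => h1 s) (mem_univ s)
  have a2 : 0 ≤ ∑ s, W.K0 / W.kap s := sum_nonneg fun s _ => h1 s
  have a3 : 0 ≤ ∑ s, (∑ i, ∑ j, W.kap i * W.kap j / W.kap s) :=
    sum_nonneg fun s _ => sum_nonneg fun i _ => sum_nonneg fun j _ => h2 i j s
  have a4 : 0 ≤ ∑ s, (2 * W.K0 + W.K0 ^ 2) / W.kap s := sum_nonneg fun s _ => h3 s
  have a5 : (2 * W.K0 + W.K0 ^ 2) / W.kap s ≤ ∑ s, (2 * W.K0 + W.K0 ^ 2) / W.kap s :=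
    single_le_sum (f := fun s => (2 * W.K0 + W.K0 ^ 2) / W.kap s) (fun s _ => h3 s) (mem_univ s)
  have a6 : ∀ i j, W.kap i * W.kap j / W.kap s ≤
      ∑ s, (∑ i, ∑ j, W.kap i * W.kap j / W.kap s) := by
    intro i j
    have b1 : W.kap i * W.kap j / W.kap s ≤ ∑ j, W.kap i * W.kap j / W.kap s :=
      single_le_sum (f := fun j => W.kap i * W.kap j / W.kap s) (fun j _ => h2 i j s) (mem_univ j)
    have b2 : (∑ j, W.kap i * W.kap j / W.kap s) ≤ ∑ i, ∑ j, W.kap i * W.kap j / W.kap s :=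
      single_le_sum (f := fun i => ∑ j, W.kap i * W.kap j / W.kap s)
        (fun i _ => sum_nonneg fun j _ => h2 i j s) (mem_univ i)
    have b3 : (∑ i, ∑ j, W.kap i * W.kap j / W.kap s) ≤
        ∑ s, (∑ i, ∑ j, W.kap i * W.kap j / W.kap s) :=
      single_le_sum (f := fun s => ∑ i, ∑ j, W.kap i * W.kap j / W.kap s)
        (fun s _ => sum_nonneg fun i _ => sum_nonneg fun j _ => h2 i j s) (mem_univ s)
    exact b1.trans (b2.trans b3)
  unfold MW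
  refine ⟨by linarith, by linarith, fun i j => ?_, by linarith⟩
  have := a6 i j
  linarith

theorem MW_one : 1 ≤ MW W := (h.MW_le 0).2.1

theorem crd_MW {n : ℕ} (g : W.Good n) {x y : ι n} (hx : x ∈ W.Cl n) (hy : y ∈ W.Cl n)
    (s : Fin 11) : |W.crd n x y s| ≤ MW W := by
  have := h.crd_le g hx hy s
  have := (h.MW_le s).1
  linarith

theorem cfB {n : ℕ} (g : W.Good n) : CfB W n (MW W) := by
  obtain ⟨w4, w6, w7a, w7b, w7c, w8, w9a, w9b, w10a, w10b, w10c⟩ := h.walls g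
  have key : ∀ {i j s : Fin 11}, W.X n s ≤ W.X n i + W.X n j → |cf W n i j s| ≤ MW W := by
    intro i j s hw
    rw [abs_of_nonneg (h.cf_pos n i j s).le]
    exact (h.cf_le hw).trans ((h.MW_le s).2.2.1 i j)
  exact ⟨key w6, key w7a, key w7b, key w7c, key w8, key w9a, key w9b, key w10a, key w10b,
    key w10c, key w4⟩

theorem small_of {n : ℕ} {s : Fin 11} {t x : ℝ}
    (hx : |x| ≤ (W.K0 / W.kap s) * W.B'.d n ^ t) : |x| ≤ MW W * W.B'.d n ^ t := by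
  have h1 := (h.MW_le s).1
  have h2 : 0 ≤ W.B'.d n ^ t := Real.rpow_nonneg (W.B'.pos n).le t
  nlinarith

theorem small_of2 {n : ℕ} {s : Fin 11} {t x : ℝ}
    (hx : |x| ≤ (2 * W.K0 / W.kap s) * W.B'.d n ^ t) : |x| ≤ MW W * W.B'.d n ^ t := by
  have h1 := (h.MW_le s).2.2.2
  have h2 : 0 ≤ W.B'.d n ^ t := Real.rpow_nonneg (W.B'.pos n).le t
  have h3 : 2 * W.K0 / W.kap s ≤ (2 * W.K0 + W.K0 ^ 2) / W.kap s :=
    div_le_div_of_nonneg_right (by nlinarith [h.ok.K0_one]) (h.ok.kap s).le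
  nlinarith

/-- **own motion is a function of the heights** -/
theorem own_ap {n : ℕ} (g : W.Good n) {x x' : ι n} (hx : x ∈ W.Cl n)
    (hx' : x' ∈ W.Cl n) (hl : W.lc n x = W.lc n x') {t : ℝ} (ht : ∀ s, t ≤ W.top s) (s : Fin 11) :
    Ap (W.B'.d n ^ t) (20 * MW W ^ 3) (14 * MW W ^ 3)
      (W.crd n (W.rep n (W.lc n x) (W.zc n x)) (W.rep n (W.lc n x) (W.zc n x')) s)
      (own W n (W.zc n x) (W.zc n x') (fsl W n (W.lc n x) (W.zc n x) 2)
        (fsl W n (W.lc n x) (W.zc n x) 3) s) := by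
  obtain ⟨a1, a2, a3⟩ := W.rep_spec hx
  obtain ⟨a1', a2', a3'⟩ := W.rep_spec hx'
  rw [← hl] at a1' a2' a3'
  obtain ⟨c1, c2⟩ := W.zrep_spec hx
  obtain ⟨c1', c2'⟩ := W.zrep_spec hx'
  set i := W.lc n x
  set k₀ := W.zc n x
  set k := W.zc n x'
  set r := W.rep n i k₀
  set r' := W.rep n i k
  set z := W.zrep n k₀
  set z' := W.zrep n k
  set M := MW W with hM
  set η := W.B'.d n ^ t with hη
  have hη0 : 0 ≤ η := Real.rpow_nonneg (W.B'.pos n).le t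
  have hM1 : 1 ≤ M := h.MW_one
  have M3 : M ≤ M ^ 3 := le_self_pow₀ hM1 (by norm_num)
  have M32 : M ^ 2 ≤ M ^ 3 := pow_le_pow_right₀ hM1 (by norm_num)
  have B : ∀ {u v : ι n}, u ∈ W.Cl n → v ∈ W.Cl n → ∀ s, |W.crd n u v s| ≤ M :=
    fun hu hv s => h.crd_MW g hu hv s
  -- additive flags
  have hmot : ∀ s : Fin 11, s = 0 ∨ s = 2 ∨ s = 3 → Ap η M M (W.crd n r r' s) (mot W n k₀ k s) := by
    intro s hs
    unfold mot
    split_ifs with hsS
    · refine ⟨B a1 a1' s, B c1 c1' s, ?_⟩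
      exact h.small_of2 (h.own_add g a1 a1' c1 c1' (a3.trans c2.symm) (a3'.trans c2'.symm) hsS hs
        (ht s))
    · refine ⟨B a1 a1' s, by rw [abs_zero]; linarith, ?_⟩
      rw [sub_zero]
      exact h.small_of (h.crd_own g a1 a1' (a2.trans a2'.symm) hsS (ht s))
  have hfsl : ∀ s : Fin 11, Ap η M M (W.crd n z r s) (fsl W n i k₀ s) := by
    intro s
    unfold fsl
    split_ifs with hsS
    · refine ⟨B c1 a1 s, by rw [abs_zero]; linarith, ?_⟩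
      rw [sub_zero]
      exact h.small_of (h.crd_lev g c1 a1 (c2.trans a3.symm) hsS (ht s))
    · refine ⟨B c1 a1 s, B c1 a1 s, ?_⟩
      rw [sub_self, abs_zero]
      exact mul_nonneg (by linarith) hη0
  by_cases hs4 : s = 4
  · subst hs4
    unfold own
    rw [if_pos rfl]
    split_ifs with hS4
    · have e1 := h.crd_four g c1 a1 a1'
      have e2 := h.crd_four g c1 a1' c1'
      have e3 := h.crd_add g c1 a1 a1' (s := 2) (by simp)
      have e4 := h.crd_add g c1 a1 a1' (s := 3) (by simp)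
      have e5 := h.crd_add g c1 a1' c1' (s := 3) (by simp)
      have l1 : Ap η M M (W.crd n z r 4) 0 := by
        refine ⟨B c1 a1 4, by rw [abs_zero]; linarith, ?_⟩
        rw [sub_zero]
        exact h.small_of (h.crd_lev g c1 a1 (c2.trans a3.symm) hS4 (ht 4))
      have l2 : Ap η M M (W.crd n r' z' 4) 0 := by
        refine ⟨B a1' c1' 4, by rw [abs_zero]; linarith, ?_⟩
        rw [sub_zero]
        exact h.small_of (h.crd_lev g a1' c1' (a3'.trans c2'.symm) hS4 (ht 4))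
      have hcf : |cf W n 2 3 4| ≤ M := (h.cfB g).2.2.2.2.2.2.2.2.2.2
      have key := (((Ap.const (η := η) hη0 (B c1 c1' 4)).sub l1).sub l2).add
        ((Ap.const (η := η) hη0 hcf).mul (((hfsl 2).mul (hmot 3 (by simp))).add
        (((hfsl 2).add (hmot 2 (by simp))).mul
          (((Ap.const (η := η) hη0 (B c1 c1' 3)).sub (hfsl 3)).sub (hmot 3 (by simp))))))
      have ea : W.crd n z z' 4 - W.crd n z r 4 - W.crd n r' z' 4 + cf W n 2 3 4 *
          (W.crd n z r 2 * W.crd n r r' 3 + (W.crd n z r 2 + W.crd n r r' 2) *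
            (W.crd n z z' 3 - W.crd n z r 3 - W.crd n r r' 3)) = W.crd n r r' 4 := by
        have e6 : W.crd n z z' 3 - W.crd n z r 3 - W.crd n r r' 3 = W.crd n r' z' 3 := by linarith
        rw [e6, ← e3]
        linarith
      rw [ea, sub_zero, sub_zero] at key
      refine ⟨key.l.trans ?_, key.r.trans ?_, key.mono hη0 ?_⟩
      · nlinarith
      · nlinarith
      · nlinarith
    · refine ⟨(B a1 a1' 4).trans (by nlinarith), by rw [abs_zero]; positivity, ?_⟩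
      rw [sub_zero]
      refine (h.small_of (h.crd_own g a1 a1' (a2.trans a2'.symm) hS4 (ht 4))).trans ?_
      exact mul_le_mul_of_nonneg_right (by nlinarith) hη0
  · unfold own
    rw [if_neg hs4]
    by_cases hs : s = 0 ∨ s = 2 ∨ s = 3
    · have := hmot s hs
      refine ⟨this.l.trans (by nlinarith), this.r.trans (by nlinarith), this.mono hη0 (by nlinarith)⟩
    · have hsS : s ∉ W.S := by
        intro hm
        have := h.hS s hm
        tauto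
      unfold mot
      rw [if_neg hsS]
      refine ⟨(B a1 a1' s).trans (by nlinarith), by rw [abs_zero]; positivity, ?_⟩
      rw [sub_zero]
      refine (h.small_of (h.crd_own g a1 a1' (a2.trans a2'.symm) hsS (ht s))).trans ?_
      exact mul_le_mul_of_nonneg_right (by nlinarith) hη0

end QWnd

end Crest.Agent.R136.Ev356
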