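import Crest.Agent.R136.Sh1_605
import Mathlib
import Crest.Agent.R136.Gr2_356

-- ▼ part R136/Wk1_323
section

/-!
# R136 (S0187): the WALK LEMMA, part 1: the loop identity (helper323, doc 2205)

Four lines `t2 - t1 - t1' - t2'` of `ℝ⁴`, consecutive ones meeting at the heights `z1`, `z3`, `z4`;
`t1, t2'` have base direction `C`, `t2, t1'` base direction `C'`.  Then `t2, t2'` have the same base
point at the height `z1 + z4 - z3`, and their difference in the normal coordinate `x 0` is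
`u u' λ (2 ΔC_b - (E + E') ΔC_a)`, when the hyperplane flags `(fa, fb)` move along the lines with
speeds `(-λ E, λ)` (lightlike rigidity).  Everything with errors.
-/

set_option autoImplicit false

namespace Crest.Agent.R136.Wk323

open Crest.Agent.R136.Sh605

/-- slope defect of the pair of lines `s, t` with respect to the hyperplane flag `(fa, fb)` -/
def Pd (s t : Ln4) (fa fb : ℝ) : ℝ :=
  (t.v 0 - s.v 0) - fa * (t.v 1 - s.v 1) - fb * (t.v 2 - s.v 2)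

/-- the lines `s, t` meet at the height `z`, with error `δ` -/
def Meet (δ : ℝ) (s t : Ln4) (z : ℝ) : Prop := ∀ k, |t.pos z k - s.pos z k| ≤ δ

/-- the base direction of `t` is `(Ca, Cb)`, with error `δ` -/
def Dir (δ Ca Cb : ℝ) (t : Ln4) : Prop := |t.v 1 - Ca| ≤ δ ∧ |t.v 2 - Cb| ≤ δ

theorem pos_add (t : Ln4) (z u : ℝ) (k : Fin 3) : t.pos (z + u) k = t.pos z k + u * t.v k := by
  simp only [Ln4.pos]; ring

theorem abs_mul_le {a b A B : ℝ} (ha : |a| ≤ A) (hb : |b| ≤ B) : |a * b| ≤ A * B := by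
  rw [abs_mul]
  exact mul_le_mul ha hb (abs_nonneg _) ((abs_nonneg _).trans ha)

/-- **the loop closes in the base.** -/
theorem loop_base {δ : ℝ} {t2 t1 t1' t2' : Ln4} {z1 u u' Ca Cb Ca' Cb' : ℝ}
    (h1 : Meet δ t2 t1 z1) (h3 : Meet δ t1 t1' (z1 + u)) (h4 : Meet δ t1' t2' (z1 + u + u'))
    (d1 : Dir δ Ca Cb t1) (d2' : Dir δ Ca Cb t2') (d1' : Dir δ Ca' Cb' t1') (d2 : Dir δ Ca' Cb' t2)
    (hu : |u| ≤ 1) (hu' : |u'| ≤ 1) (k : Fin 3) (hk : k ≠ 0) :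
    |t2'.pos (z1 + u') k - t2.pos (z1 + u') k| ≤ 7 * δ := by
  have key : ∀ C C' : ℝ, |t1.v k - C| ≤ δ → |t2'.v k - C| ≤ δ → |t1'.v k - C'| ≤ δ →
      |t2.v k - C'| ≤ δ → |t2'.pos (z1 + u') k - t2.pos (z1 + u') k| ≤ 7 * δ := by
    intro C C' e1 e2' e1' e2
    have a1 := h1 k
    have a3 := h3 k
    have a4 := h4 k
    have hz : z1 + u' = (z1 + u + u') + (-u) := by ring
    have id1 : t2'.pos (z1 + u') k - t2.pos (z1 + u') k =
        (t1.pos z1 k - t2.pos z1 k) + (t1'.pos (z1 + u) k - t1.pos (z1 + u) k) +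
        (t2'.pos (z1 + u + u') k - t1'.pos (z1 + u + u') k) +
        u * (t1.v k - C) - u * (t2'.v k - C) + u' * (t1'.v k - C') - u' * (t2.v k - C') := by
      have f1 : t2'.pos (z1 + u') k = t2'.pos (z1 + u + u') k + (-u) * t2'.v k := by
        rw [hz, pos_add]
      rw [f1, pos_add t2 z1 u', pos_add t1 z1 u, pos_add t1' (z1 + u) u']
      ring
    have b1 := abs_mul_le hu e1
    have b2 := abs_mul_le hu e2'
    have b3 := abs_mul_le hu' e1'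
    have b4 := abs_mul_le hu' e2
    rw [one_mul] at b1 b2 b3 b4
    rw [id1]
    rw [abs_le] at *
    constructor <;> linarith [b1.1, b1.2, b2.1, b2.2, b3.1, b3.2, b4.1, b4.2, a1.1, a1.2, a3.1,
      a3.2, a4.1, a4.2]
  have hk' : k = 1 ∨ k = 2 := by
    fin_cases k
    · exact absurd rfl hk
    · exact Or.inl rfl
    · exact Or.inr rfl
  rcases hk' with rfl | rfl
  · exact key Ca Ca' d1.1 d2'.1 d1'.1 d2.1
  · exact key Cb Cb' d1.2 d2'.2 d1'.2 d2.2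

/-- slopes of two lines from the flag: error version -/
theorem slope_err {δ e : ℝ} {s t : Ln4} {fa fb Ca Cb Ca' Cb' : ℝ} (hP : |Pd s t fa fb| ≤ e)
    (ds : Dir δ Ca Cb s) (dt' : Dir δ Ca' Cb' t) (ha : |fa| ≤ 1) (hb : |fb| ≤ 1) :
    |(t.v 0 - s.v 0) - (fa * (Ca' - Ca) + fb * (Cb' - Cb))| ≤ e + 4 * δ := by
  have b1 := abs_mul_le ha dt'.1
  have b2 := abs_mul_le ha ds.1
  have b3 := abs_mul_le hb dt'.2
  have b4 := abs_mul_le hb ds.2
  have id1 : (t.v 0 - s.v 0) - (fa * (Ca' - Ca) + fb * (Cb' - Cb)) =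
      Pd s t fa fb + fa * (t.v 1 - Ca') - fa * (s.v 1 - Ca) + fb * (t.v 2 - Cb') -
        fb * (s.v 2 - Cb) := by
    unfold Pd; ring
  rw [id1]
  rw [one_mul] at b1 b2 b3 b4
  rw [abs_le] at *
  constructor <;> linarith [b1.1, b1.2, b2.1, b2.2, b3.1, b3.2, b4.1, b4.2, hP.1, hP.2]

/-- **the loop identity.**  `(fa1, fb1)`, `(fa3, fb3)`, `(fa4, fb4)`: flags at the three meeting
points. -/
theorem loop_normal {δ e : ℝ} {t2 t1 t1' t2' : Ln4} {z1 u u' Ca Cb Ca' Cb' : ℝ}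
    {fa1 fb1 fa3 fb3 fa4 fb4 lam E E' : ℝ}
    (h1 : Meet δ t2 t1 z1) (h3 : Meet δ t1 t1' (z1 + u)) (h4 : Meet δ t1' t2' (z1 + u + u'))
    (d1 : Dir δ Ca Cb t1) (d2' : Dir δ Ca Cb t2') (d1' : Dir δ Ca' Cb' t1') (d2 : Dir δ Ca' Cb' t2)
    (hu : |u| ≤ 1) (hu' : |u'| ≤ 1)
    (hC : |Ca' - Ca| ≤ 2) (hC' : |Cb' - Cb| ≤ 2)
    (p1 : |Pd t2 t1 fa1 fb1| ≤ e) (p3 : |Pd t1 t1' fa3 fb3| ≤ e) (p4 : |Pd t1' t2' fa4 fb4| ≤ e)
    (a1 : |fa1| ≤ 1) (b1 : |fb1| ≤ 1) (a3 : |fa3| ≤ 1) (b3 : |fb3| ≤ 1) (a4 : |fa4| ≤ 1)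
    (b4 : |fb4| ≤ 1)
    (ma : |fa3 - fa1 + lam * E * u| ≤ e) (mb : |fb3 - fb1 - lam * u| ≤ e)
    (ma' : |fa4 - fa3 + lam * E' * u'| ≤ e) (mb' : |fb4 - fb3 - lam * u'| ≤ e) :
    |(t2'.pos (z1 + u') 0 - t2.pos (z1 + u') 0) -
      u * u' * (lam * (2 * (Cb' - Cb) - (E + E') * (Ca' - Ca)))| ≤ 19 * δ + 12 * e := by
  have s1 := slope_err (δ := δ) p1 d2 d1 a1 b1
  have s3 := slope_err (δ := δ) p3 d1 d1' a3 b3
  have s4 := slope_err (δ := δ) p4 d1' d2' a4 b4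
  set D1 : ℝ := (t1.v 0 - t2.v 0) - (fa1 * (Ca - Ca') + fb1 * (Cb - Cb')) with hD1
  set D3 : ℝ := (t1'.v 0 - t1.v 0) - (fa3 * (Ca' - Ca) + fb3 * (Cb' - Cb)) with hD3
  set D4 : ℝ := (t2'.v 0 - t1'.v 0) - (fa4 * (Ca - Ca') + fb4 * (Cb - Cb')) with hD4
  set M1 : ℝ := fa3 - fa1 + lam * E * u with hM1
  set M2 : ℝ := fb3 - fb1 - lam * u with hM2
  set M3 : ℝ := fa4 - fa3 + lam * E' * u' with hM3
  set M4 : ℝ := fb4 - fb3 - lam * u' with hM4
  have hz : z1 + u' = (z1 + u + u') + (-u) := by ring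
  have id1 : (t2'.pos (z1 + u') 0 - t2.pos (z1 + u') 0) -
      u * u' * (lam * (2 * (Cb' - Cb) - (E + E') * (Ca' - Ca))) =
      (t1.pos z1 0 - t2.pos z1 0) + (t1'.pos (z1 + u) 0 - t1.pos (z1 + u) 0) +
      (t2'.pos (z1 + u + u') 0 - t1'.pos (z1 + u + u') 0) +
      u * (-D3) + u * (-D4) + u' * D3 + u' * D1 +
      u * (M3 * (Ca' - Ca)) + u * (M4 * (Cb' - Cb)) +
      u' * (M1 * (Ca' - Ca)) + u' * (M2 * (Cb' - Cb)) := by
    have f1 : t2'.pos (z1 + u') 0 = t2'.pos (z1 + u + u') 0 + (-u) * t2'.v 0 := by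
      rw [hz, pos_add]
    rw [f1, pos_add t2 z1 u', pos_add t1 z1 u, pos_add t1' (z1 + u) u']
    simp only [hD1, hD3, hD4, hM1, hM2, hM3, hM4]
    ring
  have c1 := h1 0
  have c3 := h3 0
  have c4 := h4 0
  have e1 := abs_mul_le hu ((abs_neg D3).le.trans s3)
  have e2 := abs_mul_le hu ((abs_neg D4).le.trans s4)
  have e3 := abs_mul_le hu' s3
  have e4 := abs_mul_le hu' s1
  have e5 := abs_mul_le hu (abs_mul_le ma' hC)
  have e6 := abs_mul_le hu (abs_mul_le mb' hC')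
  have e7 := abs_mul_le hu' (abs_mul_le ma hC)
  have e8 := abs_mul_le hu' (abs_mul_le mb hC')
  rw [id1]
  rw [one_mul] at e1 e2 e3 e4 e5 e6 e7 e8
  rw [abs_le] at *
  constructor <;> linarith [e1.1, e1.2, e2.1, e2.2, e3.1, e3.2, e4.1, e4.2, e5.1, e5.2, e6.1, e6.2,
    e7.1, e7.2, e8.1, e8.2, c1.1, c1.2, c3.1, c3.2, c4.1, c4.2]

end Crest.Agent.R136.Wk323
end

-- ▼ part R136/Wk2_323
section

/-!
# R136 (S0187): the WALK LEMMA, part 2: counting 3-step walks (helper323, doc 2205)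

`Z` = meetings `(i, j, k)` of a line `i ∈ L` with a line `j ∈ L'` at the height number `k ∈ [n, 2n)`.
If `κ n |L| ≤ |Z|`, `κ n |L'| ≤ |Z|` and every (line, height) has at most `B` partners, then there are
`j ∈ L'`, a height `k` and a step `u'`, `θ n ≤ |u'|`, with at least `κ³ n / (128 B³)` values of the
first step `u` for which a walk `j - i - j' - i'` with steps `u, u'` exists.
-/

set_option autoImplicit false

namespace Crest.Agent.R136.Wk323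

open Finset

section walk

variable {ι : Type*}

/-- a walk `j -(k)- i -(k+u)- j' -(k+u+u')- i'` on the meetings `Z` -/
def IsWalk (Z : Finset (ι × ι × ℤ)) (j i j' i' : ι) (k u u' : ℤ) : Prop :=
  (i, j, k) ∈ Z ∧ (i, j', k + u) ∈ Z ∧ (i', j', k + u + u') ∈ Z

variable [DecidableEq ι]

/-- degree counting: many 3-step walks -/
theorem card_paths (Z : Finset (ι × ι × ℤ)) (L L' : Finset ι)
    (hZ : ∀ x ∈ Z, x.1 ∈ L ∧ x.2.1 ∈ L') :
    ((Z.card : ℝ)) ^ 3 ≤ 32 * (L.card : ℝ) * (L'.card : ℝ) *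
      (((Z ×ˢ Z ×ˢ Z).filter fun p => p.1.1 = p.2.1.1 ∧ p.2.1.2.1 = p.2.2.2.1).card : ℝ) := by
  classical
  rcases Z.eq_empty_or_nonempty with rfl | hne
  · simp
  have hzpos : (0 : ℝ) < Z.card := by exact_mod_cast hne.card_pos
  obtain ⟨x0, hx0⟩ := hne
  have hLpos : (0 : ℝ) < L.card := by exact_mod_cast card_pos.2 ⟨_, (hZ x0 hx0).1⟩
  have hL'pos : (0 : ℝ) < L'.card := by exact_mod_cast card_pos.2 ⟨_, (hZ x0 hx0).2⟩
  set z : ℝ := (Z.card : ℝ) with hz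
  set l : ℝ := (L.card : ℝ) with hl
  set l' : ℝ := (L'.card : ℝ) with hl'
  let dg : ι → Finset (ι × ι × ℤ) := fun i => Z.filter fun x => x.1 = i
  let dg' : ι → Finset (ι × ι × ℤ) := fun j => Z.filter fun x => x.2.1 = j
  set a : ℝ := z / (4 * l) with ha
  set a' : ℝ := z / (4 * l') with ha'
  have hapos : 0 < a := by positivity
  have ha'pos : 0 < a' := by positivity
  -- the good middle edges
  set G : Finset (ι × ι × ℤ) := Z.filter fun y => a ≤ ((dg y.1).card : ℝ) ∧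
    a' ≤ ((dg' y.2.1).card : ℝ) with hG
  set B1 : Finset (ι × ι × ℤ) := Z.filter fun y => ¬ a ≤ ((dg y.1).card : ℝ) with hB1
  set B2 : Finset (ι × ι × ℤ) := Z.filter fun y => ¬ a' ≤ ((dg' y.2.1).card : ℝ) with hB2
  have hcov : Z ⊆ G ∪ B1 ∪ B2 := by
    intro y hy
    simp only [hG, hB1, hB2, mem_union, mem_filter]
    by_cases h1 : a ≤ ((dg y.1).card : ℝ)
    · by_cases h2 : a' ≤ ((dg' y.2.1).card : ℝ)
      · exact Or.inl (Or.inl ⟨hy, h1, h2⟩)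
      · exact Or.inr ⟨hy, h2⟩
    · exact Or.inl (Or.inr ⟨hy, h1⟩)
  have hb1 : (B1.card : ℝ) ≤ z / 4 := by
    have h1 : B1.card = ∑ i ∈ L, (B1.filter fun y => y.1 = i).card :=
      card_eq_sum_card_fiberwise (fun y hy => (hZ y (mem_filter.1 hy).1).1)
    have h2 : ∀ i ∈ L, ((B1.filter fun y => y.1 = i).card : ℝ) ≤ a := by
      intro i _
      rcases (B1.filter fun y => y.1 = i).eq_empty_or_nonempty with he | ⟨y, hy⟩
      · rw [he]; simpa using hapos.le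
      · rw [mem_filter, hB1, mem_filter] at hy
        obtain ⟨⟨hy1, hy2⟩, hy3⟩ := hy
        have h3 : (B1.filter fun y => y.1 = i) ⊆ dg y.1 := by
          intro w hw
          rw [mem_filter] at hw
          exact mem_filter.2 ⟨(mem_filter.1 hw.1).1, hw.2.trans hy3.symm⟩
        have h4 : ((B1.filter fun y => y.1 = i).card : ℝ) ≤ ((dg y.1).card : ℝ) := by
          exact_mod_cast card_le_card h3
        exact h4.trans (not_le.1 hy2).le
    have h5 : (B1.card : ℝ) = ∑ i ∈ L, ((B1.filter fun y => y.1 = i).card : ℝ) := by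
      rw [h1]; push_cast; rfl
    rw [h5]
    refine (sum_le_card_nsmul _ _ a h2).trans (le_of_eq ?_)
    rw [nsmul_eq_mul, ha, ← hl]
    field_simp
  have hb2 : (B2.card : ℝ) ≤ z / 4 := by
    have h1 : B2.card = ∑ i ∈ L', (B2.filter fun y => y.2.1 = i).card :=
      card_eq_sum_card_fiberwise (fun y hy => (hZ y (mem_filter.1 hy).1).2)
    have h2 : ∀ i ∈ L', ((B2.filter fun y => y.2.1 = i).card : ℝ) ≤ a' := by
      intro i _
      rcases (B2.filter fun y => y.2.1 = i).eq_empty_or_nonempty with he | ⟨y, hy⟩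
      · rw [he]; simpa using ha'pos.le
      · rw [mem_filter, hB2, mem_filter] at hy
        obtain ⟨⟨hy1, hy2⟩, hy3⟩ := hy
        have h3 : (B2.filter fun y => y.2.1 = i) ⊆ dg' y.2.1 := by
          intro w hw
          rw [mem_filter] at hw
          exact mem_filter.2 ⟨(mem_filter.1 hw.1).1, hw.2.trans hy3.symm⟩
        have h4 : ((B2.filter fun y => y.2.1 = i).card : ℝ) ≤ ((dg' y.2.1).card : ℝ) := by
          exact_mod_cast card_le_card h3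
        exact h4.trans (not_le.1 hy2).le
    have h5 : (B2.card : ℝ) = ∑ i ∈ L', ((B2.filter fun y => y.2.1 = i).card : ℝ) := by
      rw [h1]; push_cast; rfl
    rw [h5]
    refine (sum_le_card_nsmul _ _ a' h2).trans (le_of_eq ?_)
    rw [nsmul_eq_mul, ha', ← hl']
    field_simp
  have hGc : z / 2 ≤ (G.card : ℝ) := by
    have h1 : Z.card ≤ G.card + B1.card + B2.card :=
      (card_le_card hcov).trans ((card_union_le _ _).trans (by
        have := card_union_le G B1; omega))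
    have h2 : z ≤ (G.card : ℝ) + B1.card + B2.card := by rw [hz]; exact_mod_cast h1
    linarith
  -- paths with good middle edge
  have hfib : ∀ y ∈ G, a * a' ≤
      ((((Z ×ˢ Z ×ˢ Z).filter fun p => p.1.1 = p.2.1.1 ∧ p.2.1.2.1 = p.2.2.2.1).filter
        fun p => p.2.1 = y).card : ℝ) := by
    intro y hy
    rw [hG, mem_filter] at hy
    obtain ⟨hyZ, h1, h2⟩ := hy
    have h3 : ((dg y.1 ×ˢ dg' y.2.1).image fun q => ((q.1, y, q.2) :
        (ι × ι × ℤ) × (ι × ι × ℤ) × (ι × ι × ℤ))) ⊆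
        ((Z ×ˢ Z ×ˢ Z).filter fun p => p.1.1 = p.2.1.1 ∧ p.2.1.2.1 = p.2.2.2.1).filter
          fun p => p.2.1 = y := by
      intro p hp
      rw [mem_image] at hp
      obtain ⟨q, hq, rfl⟩ := hp
      rw [mem_product] at hq
      obtain ⟨hq1, hq2⟩ := hq
      rw [mem_filter] at hq1 hq2
      rw [mem_filter, mem_filter, mem_product, mem_product]
      exact ⟨⟨⟨hq1.1, hyZ, hq2.1⟩, hq1.2, hq2.2.symm⟩, rfl⟩
    have h4 : ((dg y.1 ×ˢ dg' y.2.1).image fun q => ((q.1, y, q.2) :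
        (ι × ι × ℤ) × (ι × ι × ℤ) × (ι × ι × ℤ))).card = (dg y.1).card * (dg' y.2.1).card := by
      rw [card_image_of_injective, card_product]
      intro q q' hqq
      simp only [Prod.mk.injEq, true_and] at hqq
      exact Prod.ext hqq.1 hqq.2
    have h5 := card_le_card h3
    rw [h4] at h5
    have h6 : ((dg y.1).card : ℝ) * ((dg' y.2.1).card : ℝ) ≤
        ((((Z ×ˢ Z ×ˢ Z).filter fun p => p.1.1 = p.2.1.1 ∧ p.2.1.2.1 = p.2.2.2.1).filter
          fun p => p.2.1 = y).card : ℝ) := by exact_mod_cast h5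
    exact (mul_le_mul h1 h2 ha'pos.le (hapos.le.trans h1)).trans h6
  have hsum : (G.card : ℝ) * (a * a') ≤
      (((Z ×ˢ Z ×ˢ Z).filter fun p => p.1.1 = p.2.1.1 ∧ p.2.1.2.1 = p.2.2.2.1).card : ℝ) := by
    set W := (Z ×ˢ Z ×ˢ Z).filter fun p => p.1.1 = p.2.1.1 ∧ p.2.1.2.1 = p.2.2.2.1 with hW
    have h1 : (∑ y ∈ G, (W.filter fun p => p.2.1 = y).card) ≤ W.card := by
      rw [← card_biUnion]
      · exact card_le_card (biUnion_subset.2 fun y _ => filter_subset _ _)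
      · intro y _ y' _ hyy
        rw [Function.onFun, disjoint_left]
        intro p hp hp'
        exact hyy ((mem_filter.1 hp).2.symm.trans (mem_filter.1 hp').2)
    have h2 : (G.card : ℝ) * (a * a') ≤ ∑ y ∈ G, ((W.filter fun p => p.2.1 = y).card : ℝ) := by
      rw [← nsmul_eq_mul]
      exact card_nsmul_le_sum _ _ _ hfib
    refine h2.trans ?_
    exact_mod_cast h1
  have haa : a * a' = z ^ 2 / (16 * l * l') := by
    rw [ha, ha']; field_simp; norm_num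
  have h1 : z / 2 * (a * a') ≤ (G.card : ℝ) * (a * a') :=
    mul_le_mul_of_nonneg_right hGc (by positivity)
  have h2 : z / 2 * (a * a') = z ^ 3 / (32 * l * l') := by
    rw [haa]; field_simp; norm_num
  have h3 := (h2.symm.le.trans h1).trans hsum
  rw [div_le_iff₀ (by positivity)] at h3
  linarith

/-- **many walks with the same start and the same second step.** -/
theorem exists_walks (Z : Finset (ι × ι × ℤ)) (L L' : Finset ι) (n B : ℕ) {κ : ℝ}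
    (hZ : ∀ x ∈ Z, x.1 ∈ L ∧ x.2.1 ∈ L') (hn : ∀ x ∈ Z, (n : ℤ) ≤ x.2.2 ∧ x.2.2 < 2 * n)
    (hB : ∀ (j : ι) (k : ℤ), (Z.filter fun x => x.2.1 = j ∧ x.2.2 = k).card ≤ B)
    (hB' : ∀ (i : ι) (k : ℤ), (Z.filter fun x => x.1 = i ∧ x.2.2 = k).card ≤ B)
    (hκ : 0 < κ) (hne : Z.Nonempty) (hL : κ * n * (L.card : ℝ) ≤ Z.card)
    (hL' : κ * n * (L'.card : ℝ) ≤ Z.card) (hbig : 256 * (B : ℝ) ^ 3 ≤ κ ^ 3 * n) :
    ∃ j ∈ L', ∃ k u' : ℤ, (n : ℤ) ≤ k ∧ k < 2 * n ∧ |u'| < n ∧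
      κ ^ 3 * n ≤ 512 * (B : ℝ) ^ 3 * |(u' : ℝ)| ∧
      ∃ S : Finset ℤ, κ ^ 3 * n ≤ 128 * (B : ℝ) ^ 3 * (S.card : ℝ) ∧
        ∀ u ∈ S, |u| < n ∧ ∃ i j' i' : ι, IsWalk Z j i j' i' k u u' := by
  classical
  set W := (Z ×ˢ Z ×ˢ Z).filter fun p => p.1.1 = p.2.1.1 ∧ p.2.1.2.1 = p.2.2.2.1 with hW
  obtain ⟨x0, hx0⟩ := hne
  have hzpos : (0 : ℝ) < Z.card := by exact_mod_cast card_pos.2 ⟨x0, hx0⟩
  have hLpos : (0 : ℝ) < L.card := by exact_mod_cast card_pos.2 ⟨_, (hZ x0 hx0).1⟩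
  have hL'pos : (0 : ℝ) < L'.card := by exact_mod_cast card_pos.2 ⟨_, (hZ x0 hx0).2⟩
  have hn0 : 0 < n := by have := hn x0 hx0; omega
  have hnpos : (0 : ℝ) < n := by exact_mod_cast hn0
  have hBpos : (0 : ℝ) < B := by
    have h1 := hB x0.2.1 x0.2.2
    have h2 : 0 < (Z.filter fun x => x.2.1 = x0.2.1 ∧ x.2.2 = x0.2.2).card :=
      card_pos.2 ⟨x0, mem_filter.2 ⟨hx0, rfl, rfl⟩⟩
    exact_mod_cast lt_of_lt_of_le h2 h1
  set l : ℝ := (L.card : ℝ) with hl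
  set l' : ℝ := (L'.card : ℝ) with hl'
  set z : ℝ := (Z.card : ℝ) with hz
  set b : ℝ := (B : ℝ) with hb
  set N : ℝ := (n : ℝ) with hN
  -- number of paths
  have hWc : κ ^ 3 * N ^ 3 * l' ≤ 32 * (W.card : ℝ) := by
    have h1 := card_paths Z L L' hZ
    rw [← hz, ← hl, ← hl', ← hW] at h1
    have h2 : (κ * N * l) * (κ * N * l') * (κ * N * l') ≤ z ^ 3 := by
      have h3 : (κ * N * l) * (κ * N * l') ≤ z * z :=
        mul_le_mul hL hL' (by positivity) hzpos.le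
      have h4 := mul_le_mul h3 hL' (by positivity) (by positivity)
      calc _ ≤ z * z * z := h4
        _ = z ^ 3 := by ring
    have h5 : (l * l') * (κ ^ 3 * N ^ 3 * l') ≤ (l * l') * (32 * (W.card : ℝ)) := by
      calc (l * l') * (κ ^ 3 * N ^ 3 * l') = (κ * N * l) * (κ * N * l') * (κ * N * l') := by ring
        _ ≤ z ^ 3 := h2
        _ ≤ 32 * l * l' * (W.card : ℝ) := h1
        _ = _ := by ring
    exact le_of_mul_le_mul_left h5 (by positivity)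
  -- the key map
  let Φ : (ι × ι × ℤ) × (ι × ι × ℤ) × (ι × ι × ℤ) → (ι × ℤ × ℤ) × ℤ := fun p =>
    ((p.1.2.1, p.1.2.2, p.2.2.2.2 - p.2.1.2.2), p.2.1.2.2 - p.1.2.2)
  set Q := W.image Φ with hQ
  have hfib : ∀ q ∈ Q, (W.filter fun p => Φ p = q).card ≤ B * (B * B) := by
    rintro ⟨⟨j, k, u'⟩, u⟩ _
    have hsub : (W.filter fun p => Φ p = ((j, k, u'), u)) ⊆
        (Z.filter fun x => x.2.1 = j ∧ x.2.2 = k).biUnion fun x =>
          (Z.filter fun y => y.1 = x.1 ∧ y.2.2 = k + u).biUnion fun y =>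
            (Z.filter fun w => w.2.1 = y.2.1 ∧ w.2.2 = k + u + u').image fun w => (x, y, w) := by
      intro p hp
      rw [mem_filter, hW, mem_filter, mem_product, mem_product] at hp
      obtain ⟨⟨⟨h1, h2, h3⟩, h4, h5⟩, h6⟩ := hp
      simp only [Φ, Prod.mk.injEq] at h6
      obtain ⟨⟨h6, h7, h8⟩, h9⟩ := h6
      simp only [mem_biUnion, mem_image, mem_filter]
      refine ⟨p.1, ⟨h1, h6, h7⟩, p.2.1, ⟨h2, h4.symm, by omega⟩, p.2.2, ⟨h3, h5.symm, by omega⟩, rfl⟩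
    refine (card_le_card hsub).trans ?_
    refine (card_biUnion_le_card_mul _ _ (B * B) ?_).trans (Nat.mul_le_mul_right _ (hB j k))
    intro x _
    refine (card_biUnion_le_card_mul _ _ B ?_).trans (Nat.mul_le_mul_right _ (hB' x.1 (k + u)))
    intro y _
    exact card_image_le.trans (hB y.2.1 (k + u + u'))
  have hWQ : (W.card : ℝ) ≤ b ^ 3 * (Q.card : ℝ) := by
    have h1 := card_le_mul_card_image W (B * (B * B)) hfib
    have h2 : (W.card : ℝ) ≤ ((B * (B * B) : ℕ) : ℝ) * (Q.card : ℝ) := by exact_mod_cast h1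
    refine h2.trans (le_of_eq ?_)
    push_cast
    rw [← hb]; ring
  have hQmem : ∀ q ∈ Q, q.1.1 ∈ L' ∧ (n : ℤ) ≤ q.1.2.1 ∧ q.1.2.1 < 2 * n ∧ |q.1.2.2| < n ∧
      |q.2| < n ∧ ∃ i j' i' : ι, IsWalk Z q.1.1 i j' i' q.1.2.1 q.2 q.1.2.2 := by
    intro q hq
    rw [hQ, mem_image] at hq
    obtain ⟨p, hp, rfl⟩ := hq
    rw [hW, mem_filter, mem_product, mem_product] at hp
    obtain ⟨⟨h1, h2, h3⟩, h4, h5⟩ := hp
    have m1 := hn _ h1
    have m2 := hn _ h2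
    have m3 := hn _ h3
    simp only [Φ]
    refine ⟨(hZ _ h1).2, m1.1, m1.2, abs_lt.2 ⟨by linarith [m2.2, m3.1], by linarith [m2.1, m3.2]⟩,
      abs_lt.2 ⟨by linarith [m2.1, m1.2], by linarith [m2.2, m1.1]⟩, p.1.1, p.2.1.2.1, p.2.2.1,
      h1, ?_, ?_⟩
    · have e1 : p.1.2.2 + (p.2.1.2.2 - p.1.2.2) = p.2.1.2.2 := by ring
      rw [e1, h4]
      exact h2
    · have e1 : p.1.2.2 + (p.2.1.2.2 - p.1.2.2) + (p.2.2.2.2 - p.2.1.2.2) = p.2.2.2.2 := by ring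
      rw [e1, h5]
      exact h3
  -- short second steps
  set θ : ℝ := κ ^ 3 * N / (512 * b ^ 3) with hθ
  have hθpos : 0 < θ := by positivity
  set Qg := Q.filter fun q => θ ≤ |(q.1.2.2 : ℝ)| with hQg
  set Qb := Q.filter fun q => ¬ θ ≤ |(q.1.2.2 : ℝ)| with hQb
  have hbad : (Qb.card : ℝ) ≤ l' * N * (2 * θ + 1) * (2 * N) := by
    have hsub : Qb ⊆ (L' ×ˢ Finset.Ico (n : ℤ) (2 * n) ×ˢ Finset.Icc (-⌊θ⌋) ⌊θ⌋) ×ˢ
        Finset.Ico (-(n : ℤ)) n := by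
      intro q hq
      rw [hQb, mem_filter] at hq
      obtain ⟨h1, h2, h3, h4, h5, -⟩ := hQmem q hq.1
      have h6 : |(q.1.2.2 : ℝ)| ≤ θ := (not_le.1 hq.2).le
      simp only [mem_product, Finset.mem_Ico, Finset.mem_Icc]
      rw [abs_lt] at h5
      have h7 : |q.1.2.2| ≤ ⌊θ⌋ := by
        rw [Int.le_floor]
        push_cast
        exact h6
      rw [abs_le] at h7
      exact ⟨⟨h1, ⟨h2, h3⟩, h7⟩, h5.1.le, h5.2⟩
    have h1 := card_le_card hsub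
    rw [card_product, card_product, card_product, Int.card_Ico, Int.card_Icc, Int.card_Ico] at h1
    have hfl : 0 ≤ ⌊θ⌋ := Int.floor_nonneg.2 hθpos.le
    have e1 : ((⌊θ⌋ + 1 - -⌊θ⌋).toNat : ℝ) ≤ 2 * θ + 1 := by
      have h2 : (((⌊θ⌋ + 1 - -⌊θ⌋).toNat : ℤ)) = ⌊θ⌋ + 1 - -⌊θ⌋ :=
        Int.toNat_of_nonneg (by omega)
      have h3 : ((⌊θ⌋ + 1 - -⌊θ⌋).toNat : ℝ) = ((⌊θ⌋ + 1 - -⌊θ⌋ : ℤ) : ℝ) := by
        have h4 := congrArg (fun y : ℤ => (y : ℝ)) h2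
        exact (Int.cast_natCast _).symm.trans h4
      rw [h3]; push_cast
      have h4 := Int.floor_le θ
      linarith
    have e2 : (2 * (n : ℤ) - n).toNat = n := by omega
    have e3 : ((n : ℤ) - -(n : ℤ)).toNat = 2 * n := by omega
    rw [e2, e3] at h1
    have h2 : (Qb.card : ℝ) ≤ (l' * (N * ((⌊θ⌋ + 1 - -⌊θ⌋).toNat : ℝ))) * (2 * N) := by
      rw [hl', hN]
      exact_mod_cast h1
    refine h2.trans ?_
    have h3 : l' * (N * ((⌊θ⌋ + 1 - -⌊θ⌋).toNat : ℝ)) ≤ l' * N * (2 * θ + 1) := by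
      rw [← mul_assoc]
      exact mul_le_mul_of_nonneg_left e1 (by positivity)
    exact mul_le_mul_of_nonneg_right h3 (by positivity)
  have hsplit : (Q.card : ℝ) = (Qg.card : ℝ) + (Qb.card : ℝ) := by
    have := card_filter_add_card_filter_not (s := Q) (fun q => θ ≤ |(q.1.2.2 : ℝ)|)
    rw [← hQg, ← hQb] at this
    exact_mod_cast this.symm
  have hb3 : 0 < b ^ 3 := by positivity
  have hQlow : κ ^ 3 * N ^ 3 * l' ≤ 32 * b ^ 3 * (Q.card : ℝ) := by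
    have := hWc.trans (mul_le_mul_of_nonneg_left hWQ (by norm_num : (0 : ℝ) ≤ 32))
    linarith
  have hbad2 : 64 * b ^ 3 * (Qb.card : ℝ) ≤ κ ^ 3 * N ^ 3 * l' := by
    have h1 : 64 * b ^ 3 * (Qb.card : ℝ) ≤ 64 * b ^ 3 * (l' * N * (2 * θ + 1) * (2 * N)) :=
      mul_le_mul_of_nonneg_left hbad (by positivity)
    refine h1.trans ?_
    have h2 : 64 * b ^ 3 * (l' * N * (2 * θ + 1) * (2 * N)) =
        l' * N ^ 2 * (128 * (b ^ 3 * (2 * θ)) + 128 * b ^ 3) := by ring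
    have h3 : b ^ 3 * (2 * θ) = κ ^ 3 * N / 256 := by
      rw [hθ]; field_simp; norm_num
    rw [h2, h3]
    have h4 : κ ^ 3 * N ^ 3 * l' = l' * N ^ 2 * (κ ^ 3 * N) := by ring
    rw [h4]
    refine mul_le_mul_of_nonneg_left ?_ (by positivity)
    linarith [hbig]
  have hgood : κ ^ 3 * N ^ 3 * l' ≤ 64 * b ^ 3 * (Qg.card : ℝ) := by
    have : 64 * b ^ 3 * (Q.card : ℝ) = 64 * b ^ 3 * (Qg.card : ℝ) + 64 * b ^ 3 * (Qb.card : ℝ) := by
      rw [hsplit]; ring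
    linarith
  -- pigeonhole over the keys
  set K := L' ×ˢ Finset.Ico (n : ℤ) (2 * n) ×ˢ Finset.Ico (-(n : ℤ)) n with hK
  have hKc : (K.card : ℝ) = l' * (N * (2 * N)) := by
    rw [hK, card_product, card_product, Int.card_Ico, Int.card_Ico]
    have e2 : (2 * (n : ℤ) - n).toNat = n := by omega
    have e3 : ((n : ℤ) - -(n : ℤ)).toNat = 2 * n := by omega
    rw [e2, e3]
    push_cast
    rfl
  have hKne : K.Nonempty := by
    refine ⟨(x0.2.1, (n : ℤ), 0), ?_⟩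
    rw [hK]
    simp only [mem_product, Finset.mem_Ico]
    exact ⟨(hZ x0 hx0).2, ⟨le_rfl, by omega⟩, by omega, by omega⟩
  have hmaps : ∀ q ∈ Qg, q.1 ∈ K := by
    intro q hq
    obtain ⟨h1, h2, h3, h4, -, -⟩ := hQmem q (mem_filter.1 hq).1
    rw [abs_lt] at h4
    rw [hK]
    simp only [mem_product, Finset.mem_Ico]
    exact ⟨h1, ⟨h2, h3⟩, h4.1.le, h4.2⟩
  have hpig : K.card • (κ ^ 3 * N / (128 * b ^ 3)) ≤ (Qg.card : ℝ) := by
    rw [nsmul_eq_mul, hKc]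
    have h1 : l' * (N * (2 * N)) * (κ ^ 3 * N / (128 * b ^ 3)) =
        κ ^ 3 * N ^ 3 * l' / (64 * b ^ 3) := by field_simp; norm_num
    rw [h1, div_le_iff₀ (by positivity)]
    linarith
  obtain ⟨⟨j, k, u'⟩, hkey, hcard⟩ :=
    exists_le_card_fiber_of_nsmul_le_card_of_maps_to hmaps hKne hpig
  set F := Qg.filter fun q => q.1 = (j, k, u') with hF
  have hFne : F.Nonempty := by
    rw [← card_pos]
    have h1 : (0 : ℝ) < κ ^ 3 * N / (128 * b ^ 3) := by positivity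
    have h2 : (0 : ℝ) < (F.card : ℝ) := lt_of_lt_of_le h1 hcard
    exact_mod_cast h2
  obtain ⟨q0, hq0⟩ := hFne
  rw [hF, mem_filter] at hq0
  have hq0Q := (mem_filter.1 hq0.1).1
  have hq0θ := (mem_filter.1 hq0.1).2
  obtain ⟨g1, g2, g3, g4, -, -⟩ := hQmem q0 hq0Q
  rw [hq0.2] at g1 g2 g3 g4 hq0θ
  refine ⟨j, g1, k, u', g2, g3, g4, ?_, F.image Prod.snd, ?_, ?_⟩
  · rw [hθ, div_le_iff₀ (by positivity)] at hq0θ
    calc κ ^ 3 * N ≤ |(u' : ℝ)| * (512 * b ^ 3) := hq0θ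
      _ = _ := by ring
  · have h1 : (F.image Prod.snd).card = F.card := by
      refine card_image_of_injOn ?_
      intro q hq q' hq' hqq
      have e1 := (mem_filter.1 (mem_coe.1 hq)).2
      have e2 := (mem_filter.1 (mem_coe.1 hq')).2
      exact Prod.ext (e1.trans e2.symm) hqq
    rw [h1]
    rw [div_le_iff₀ (by positivity)] at hcard
    calc κ ^ 3 * N ≤ (F.card : ℝ) * (128 * b ^ 3) := hcard
      _ = _ := by ring
  · intro u hu
    rw [mem_image] at hu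
    obtain ⟨q, hq, rfl⟩ := hu
    rw [hF, mem_filter] at hq
    obtain ⟨-, -, -, -, h5, h6⟩ := hQmem q (mem_filter.1 hq.1).1
    rw [hq.2] at h6
    exact ⟨h5, h6⟩

end walk

end Crest.Agent.R136.Wk323
end

-- ▼ part R136/Wk3_323
section

/-!
# R136 (S0187): the WALK LEMMA, part 3 (helper323, doc 2205)

Two classes `L`, `L'` of lines with base directions `C`, `C'` whose meetings `Z` are dense; the
hyperplane flags move with the speeds `(-λE, λ)` along `L` and `(-λE', λ)` along `L'`.  If the fibres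
over base points are thin (at most `M` values of the normal coordinate, `r`-separated, in a window of
size `2|Λ| + ..`, only for lines ALIVE at the height in question), then
`Λ = λ (2 ΔC_b - (E + E') ΔC_a)` is small: `κ₀ κ⁶ (n h)² |Λ| ≲ B⁶ M (r + δ + e)`.
-/

set_option autoImplicit false

namespace Crest.Agent.R136.Wk323

open Finset
open Crest.Agent.R136.Sh605

variable {ι : Type*} [DecidableEq ι]

theorem Meet.symm {δ z : ℝ} {s t : Ln4} (h : Meet δ s t z) : Meet δ t s z := fun k => by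
  rw [abs_sub_comm]; exact h k

theorem Pd_symm (s t : Ln4) (fa fb : ℝ) : Pd t s fa fb = -Pd s t fa fb := by
  unfold Pd; ring

/-- separated subsets of a set of integers -/
theorem exists_sep (S : Finset ℤ) (m : ℕ) (hm : 0 < m) :
    ∃ S' ⊆ S, S.card ≤ m * S'.card ∧ ∀ u ∈ S', ∀ v ∈ S', u ≠ v → (m : ℤ) ≤ |u - v| := by
  classical
  have hmz : (0 : ℤ) < m := by exact_mod_cast hm
  have hmaps : ∀ u ∈ S, u % (m : ℤ) ∈ Finset.Ico (0 : ℤ) m := fun u _ =>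
    Finset.mem_Ico.2 ⟨Int.emod_nonneg _ hmz.ne', Int.emod_lt_of_pos _ hmz⟩
  have hcard : (Finset.Ico (0 : ℤ) m).card = m := by rw [Int.card_Ico]; omega
  by_contra hcon
  push Not at hcon
  have h1 : ∀ r ∈ Finset.Ico (0 : ℤ) m, m * (S.filter fun u => u % (m : ℤ) = r).card < S.card := by
    intro r _
    by_contra h2
    rw [not_lt] at h2
    obtain ⟨u, hu, v, hv, huv, h3⟩ := hcon _ (filter_subset _ _) h2
    rw [mem_filter] at hu hv
    have h4 : (m : ℤ) ∣ u - v := by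
      apply Int.dvd_of_emod_eq_zero
      rw [Int.sub_emod, hu.2, hv.2]
      simp
    have h5 : (m : ℤ) ≤ |u - v| := by
      have h6 : (m : ℤ) ∣ |u - v| := (dvd_abs _ _).2 h4
      exact Int.le_of_dvd (abs_pos.2 (sub_ne_zero.2 huv)) h6
    omega
  have h2 : S.card = ∑ r ∈ Finset.Ico (0 : ℤ) m, (S.filter fun u => u % (m : ℤ) = r).card :=
    card_eq_sum_card_fiberwise hmaps
  have h3 : ∑ r ∈ Finset.Ico (0 : ℤ) m, m * (S.filter fun u => u % (m : ℤ) = r).card <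
      ∑ _r ∈ Finset.Ico (0 : ℤ) m, S.card := by
    refine sum_lt_sum_of_nonempty ?_ h1
    exact ⟨0, Finset.mem_Ico.2 ⟨le_rfl, hmz⟩⟩
  rw [← mul_sum, ← h2, sum_const, hcard, smul_eq_mul] at h3
  exact lt_irrefl _ h3

/-- the data of the walk lemma: two classes of lines, their meetings, their flags -/
structure WalkData (T : ι → Ln4) (fa fb : ι → ℤ → ℝ) (L L' : Finset ι) (Z : Finset (ι × ι × ℤ))
    (n B : ℕ) (κ δ e h lam E E' Ca Cb Ca' Cb' : ℝ) : Prop where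
  sub : ∀ x ∈ Z, x.1 ∈ L ∧ x.2.1 ∈ L'
  hts : ∀ x ∈ Z, (n : ℤ) ≤ x.2.2 ∧ x.2.2 < 2 * n
  mult : ∀ (j : ι) (k : ℤ), (Z.filter fun x => x.2.1 = j ∧ x.2.2 = k).card ≤ B
  mult' : ∀ (i : ι) (k : ℤ), (Z.filter fun x => x.1 = i ∧ x.2.2 = k).card ≤ B
  ne : Z.Nonempty
  dense : κ * n * (L.card : ℝ) ≤ Z.card
  dense' : κ * n * (L'.card : ℝ) ≤ Z.card
  hpos : 0 < h
  hle : n * h ≤ 1
  /-- meetings, with error `δ` -/
  meet : ∀ x ∈ Z, Meet δ (T x.1) (T x.2.1) (x.2.2 * h)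
  /-- both lines lie in the hyperplane of the flag -/
  slope : ∀ x ∈ Z, |Pd (T x.1) (T x.2.1) (fa x.1 x.2.2) (fb x.1 x.2.2)| ≤ e
  slope' : ∀ x ∈ Z, |Pd (T x.1) (T x.2.1) (fa x.2.1 x.2.2) (fb x.2.1 x.2.2)| ≤ e
  /-- the flag belongs to the point -/
  flag : ∀ x ∈ Z, |fa x.2.1 x.2.2 - fa x.1 x.2.2| ≤ e ∧ |fb x.2.1 x.2.2 - fb x.1 x.2.2| ≤ e
  bdd : ∀ x ∈ Z, |fa x.1 x.2.2| ≤ 1 ∧ |fb x.1 x.2.2| ≤ 1
  bdd' : ∀ x ∈ Z, |fa x.2.1 x.2.2| ≤ 1 ∧ |fb x.2.1 x.2.2| ≤ 1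
  /-- own rotation of the flags -/
  own : ∀ x ∈ Z, ∀ y ∈ Z, x.1 = y.1 →
    |fa x.1 y.2.2 - fa x.1 x.2.2 + lam * E * (((y.2.2 : ℝ) - x.2.2) * h)| ≤ e ∧
      |fb x.1 y.2.2 - fb x.1 x.2.2 - lam * (((y.2.2 : ℝ) - x.2.2) * h)| ≤ e
  own' : ∀ x ∈ Z, ∀ y ∈ Z, x.2.1 = y.2.1 →
    |fa x.2.1 y.2.2 - fa x.2.1 x.2.2 + lam * E' * (((y.2.2 : ℝ) - x.2.2) * h)| ≤ e ∧
      |fb x.2.1 y.2.2 - fb x.2.1 x.2.2 - lam * (((y.2.2 : ℝ) - x.2.2) * h)| ≤ e
  dir : ∀ i ∈ L, Dir δ Ca Cb (T i)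
  dir' : ∀ i ∈ L', Dir δ Ca' Cb' (T i)
  dCa : |Ca' - Ca| ≤ 2
  dCb : |Cb' - Cb| ≤ 2

/-- the cross curvature of the pair of directions -/
def Lamb (lam E E' Ca Cb Ca' Cb' : ℝ) : ℝ := lam * (2 * (Cb' - Cb) - (E + E') * (Ca' - Ca))

/-- slope of the end line of a walk with second step `u'` from the meeting number `k` of `j` -/
def endSlope (T : ι → Ln4) (fa fb : ι → ℤ → ℝ) (h lam E' Ca Cb Ca' Cb' : ℝ) (j : ι) (k u' : ℤ) : ℝ :=
  (T j).v 0 + (fa j k - lam * E' * (u' * h)) * (Ca - Ca') + (fb j k + lam * (u' * h)) * (Cb - Cb')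

/-- one walk: the end line is over the base point of the start line, at a known normal distance, and
with known slope. -/
theorem WalkData.walk {T : ι → Ln4} {fa fb : ι → ℤ → ℝ} {L L' : Finset ι}
    {Z : Finset (ι × ι × ℤ)} {n B : ℕ} {κ δ e h lam E E' Ca Cb Ca' Cb' : ℝ}
    (D : WalkData T fa fb L L' Z n B κ δ e h lam E E' Ca Cb Ca' Cb') {j i j' i' : ι} {k u u' : ℤ}
    (hu : |u| < n) (hu' : |u'| < n) (hw : IsWalk Z j i j' i' k u u') :
    (∀ m : Fin 3, m ≠ 0 → |(T i').pos ((k + u' : ℤ) * h) m - (T j).pos ((k + u' : ℤ) * h) m| ≤ 7 * δ) ∧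
    |((T i').pos ((k + u' : ℤ) * h) 0 - (T j).pos ((k + u' : ℤ) * h) 0) -
      (u * h) * (u' * h) * Lamb lam E E' Ca Cb Ca' Cb'| ≤ 19 * δ + 36 * e ∧
    |(T i').v 0 - endSlope T fa fb h lam E' Ca Cb Ca' Cb' j k u'| ≤ 12 * δ + 19 * e := by
  obtain ⟨w1, w3, w4⟩ := hw
  have hn0 : (0 : ℝ) < n := by
    have h1 : (0 : ℤ) < n := lt_of_le_of_lt (abs_nonneg _) hu
    exact_mod_cast h1
  have hbd : ∀ v : ℤ, |v| < n → |(v : ℝ) * h| ≤ 1 := by
    intro v hv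
    rw [abs_mul, abs_of_pos D.hpos]
    have h1 : |(v : ℝ)| ≤ n := by
      have h2 : (|v| : ℤ) ≤ (n : ℤ) := hv.le
      have h3 : ((|v| : ℤ) : ℝ) ≤ ((n : ℤ) : ℝ) := by exact_mod_cast h2
      simpa [Int.cast_abs] using h3
    exact (mul_le_mul_of_nonneg_right h1 D.hpos.le).trans D.hle
  have e3 : ((k + u : ℤ) : ℝ) * h = (k : ℝ) * h + u * h := by push_cast; ring
  have e4 : ((k + u + u' : ℤ) : ℝ) * h = (k : ℝ) * h + u * h + u' * h := by push_cast; ring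
  have e5 : ((k + u' : ℤ) : ℝ) * h = (k : ℝ) * h + u' * h := by push_cast; ring
  have m1 : Meet δ (T j) (T i) ((k : ℝ) * h) := (D.meet _ w1).symm
  have m3 : Meet δ (T i) (T j') ((k : ℝ) * h + u * h) := by
    have := D.meet _ w3
    rwa [e3] at this
  have m4 : Meet δ (T j') (T i') ((k : ℝ) * h + u * h + u' * h) := by
    have := (D.meet _ w4).symm
    rwa [e4] at this
  have d1 := D.dir i (D.sub _ w1).1
  have d2' := D.dir i' (D.sub _ w4).1
  have d1' := D.dir' j' (D.sub _ w3).2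
  have d2 := D.dir' j (D.sub _ w1).2
  have he : 0 ≤ e := (abs_nonneg _).trans (D.slope _ w1)
  have he3 : e ≤ 3 * e := by linarith
  have o1 := D.own _ w1 _ w3 rfl
  have o2 := D.own' _ w3 _ w4 rfl
  simp only at o1 o2
  have c1 : (((k + u : ℤ) : ℝ) - (k : ℝ)) * h = u * h := by push_cast; ring
  have c2 : (((k + u + u' : ℤ) : ℝ) - ((k + u : ℤ) : ℝ)) * h = u' * h := by push_cast; ring
  rw [c1] at o1
  rw [c2] at o2
  have f1 := D.flag _ w1
  have f3 := D.flag _ w3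
  have f4 := D.flag _ w4
  simp only at f1 f3 f4
  have p1' : |Pd (T j) (T i) (fa i k) (fb i k)| ≤ e := by
    rw [Pd_symm, abs_neg]; exact D.slope _ w1
  have p3' : |Pd (T i) (T j') (fa i (k + u)) (fb i (k + u))| ≤ e := D.slope _ w3
  have p4' : |Pd (T j') (T i') (fa i' (k + u + u')) (fb i' (k + u + u'))| ≤ e := by
    rw [Pd_symm, abs_neg]; exact D.slope _ w4
  have q2a : |fa i' (k + u + u') - fa i (k + u) + lam * E' * (u' * h)| ≤ 3 * e := by
    have a1 := o2.1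
    have a2 := f3.1
    have a3 := f4.1
    rw [abs_le] at *
    constructor <;> linarith [a1.1, a1.2, a2.1, a2.2, a3.1, a3.2]
  have q2b : |fb i' (k + u + u') - fb i (k + u) - lam * (u' * h)| ≤ 3 * e := by
    have a1 := o2.2
    have a2 := f3.2
    have a3 := f4.2
    rw [abs_le] at *
    constructor <;> linarith [a1.1, a1.2, a2.1, a2.2, a3.1, a3.2]
  rw [e5]
  refine ⟨fun m hm => loop_base m1 m3 m4 d1 d2' d1' d2 (hbd u hu) (hbd u' hu') m hm, ?_, ?_⟩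
  · have key := loop_normal m1 m3 m4 d1 d2' d1' d2 (hbd u hu) (hbd u' hu') D.dCa D.dCb
      (p1'.trans he3) (p3'.trans he3) (p4'.trans he3)
      (D.bdd _ w1).1 (D.bdd _ w1).2 (D.bdd _ w3).1 (D.bdd _ w3).2 (D.bdd _ w4).1 (D.bdd _ w4).2
      (o1.1.trans he3) (o1.2.trans he3) q2a q2b
    unfold Lamb
    refine key.trans (le_of_eq ?_)
    ring
  · have s1 := slope_err (δ := δ) p1' d2 d1 (D.bdd _ w1).1 (D.bdd _ w1).2
    have s3 := slope_err (δ := δ) p3' d1 d1' (D.bdd _ w3).1 (D.bdd _ w3).2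
    have s4 := slope_err (δ := δ) p4' d1' d2' (D.bdd _ w4).1 (D.bdd _ w4).2
    set A1 : ℝ := fa i' (k + u + u') - fa i (k + u) + lam * E' * (u' * h) with hA1
    set A2 : ℝ := fb i' (k + u + u') - fb i (k + u) - lam * (u' * h) with hA2
    set A3 : ℝ := fa j k - fa i k with hA3
    set A4 : ℝ := fb j k - fb i k with hA4
    have b1 := abs_mul_le q2a ((abs_sub_comm Ca Ca').le.trans D.dCa)
    have b2 := abs_mul_le q2b ((abs_sub_comm Cb Cb').le.trans D.dCb)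
    have b3 := abs_mul_le f1.1 ((abs_sub_comm Ca Ca').le.trans D.dCa)
    have b4 := abs_mul_le f1.2 ((abs_sub_comm Cb Cb').le.trans D.dCb)
    set S1 : ℝ := ((T i).v 0 - (T j).v 0) - (fa i k * (Ca - Ca') + fb i k * (Cb - Cb')) with hS1
    set S3 : ℝ := ((T j').v 0 - (T i).v 0) -
      (fa i (k + u) * (Ca' - Ca) + fb i (k + u) * (Cb' - Cb)) with hS3
    set S4 : ℝ := ((T i').v 0 - (T j').v 0) -
      (fa i' (k + u + u') * (Ca - Ca') + fb i' (k + u + u') * (Cb - Cb')) with hS4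
    have id : (T i').v 0 - endSlope T fa fb h lam E' Ca Cb Ca' Cb' j k u' =
        S1 + S3 + S4 + A1 * (Ca - Ca') + A2 * (Cb - Cb') - A3 * (Ca - Ca') - A4 * (Cb - Cb') := by
      simp only [endSlope, hS1, hS3, hS4, hA1, hA2, hA3, hA4]
      ring
    rw [id]
    rw [abs_le] at *
    constructor <;> linarith [b1.1, b1.2, b2.1, b2.2, b3.1, b3.2, b4.1, b4.2, s1.1, s1.2, s3.1,
      s3.2, s4.1, s4.2]

/-- **THE WALK LEMMA**: thin fibres over base points make the cross curvature small.  The fibre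
bound is only used for lines alive (`k ∈ al i`) at the height `k` in question. -/
theorem WalkData.main {T : ι → Ln4} {fa fb : ι → ℤ → ℝ} {L L' : Finset ι}
    {Z : Finset (ι × ι × ℤ)} {n B : ℕ} {κ δ e h lam E E' Ca Cb Ca' Cb' : ℝ}
    (D : WalkData T fa fb L L' Z n B κ δ e h lam E E' Ca Cb Ca' Cb') (hκ : 0 < κ)
    (hδ : 0 ≤ δ) (hbig : 256 * (B : ℝ) ^ 3 ≤ κ ^ 3 * n) {r M κ₀ : ℝ} (hr : 0 < r) (hκ₀ : 0 < κ₀)
    (al : ι → Finset ℤ) (halh : ∀ i ∈ L, ∀ k ∈ al i, (n : ℤ) ≤ k ∧ k < 2 * n)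
    (hal : ∀ i ∈ L, κ₀ * n ≤ ((al i).card : ℝ))
    (hfib : ∀ F ⊆ L, F.Nonempty → ∀ k : ℤ, (n : ℤ) ≤ k → k < 2 * n → (∀ i ∈ F, k ∈ al i) →
      (∀ i ∈ F, ∀ i' ∈ F, ∀ m : Fin 3, m ≠ 0 →
        |(T i).pos (k * h) m - (T i').pos (k * h) m| ≤ 18 * δ) →
      (∀ i ∈ F, ∀ i' ∈ F, |(T i).pos (k * h) 0 - (T i').pos (k * h) 0| ≤
        2 * |Lamb lam E E' Ca Cb Ca' Cb'| + (86 * δ + 148 * e)) →
      (∀ i ∈ F, ∀ i' ∈ F, i ≠ i' → r ≤ |(T i).pos (k * h) 0 - (T i').pos (k * h) 0|) →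
      (F.card : ℝ) ≤ M) :
    κ₀ * κ ^ 6 * (n * h) ^ 2 * |Lamb lam E E' Ca Cb Ca' Cb'| ≤
        131072 * (B : ℝ) ^ 6 * M * (r + 86 * δ + 148 * e) ∨
      κ₀ * κ ^ 3 * n ≤ 256 * (B : ℝ) ^ 3 * M := by
  classical
  set Λ : ℝ := Lamb lam E E' Ca Cb Ca' Cb' with hΛ
  obtain ⟨x0, hx0⟩ := D.ne
  have he : 0 ≤ e := (abs_nonneg _).trans (D.slope _ hx0)
  have hn0 : 0 < n := by have := D.hts x0 hx0; omega
  have hnpos : (0 : ℝ) < n := by exact_mod_cast hn0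
  have hBpos : (0 : ℝ) < B := by
    have h1 := D.mult x0.2.1 x0.2.2
    have h2 : 0 < (Z.filter fun x => x.2.1 = x0.2.1 ∧ x.2.2 = x0.2.2).card :=
      card_pos.2 ⟨x0, mem_filter.2 ⟨hx0, rfl, rfl⟩⟩
    exact_mod_cast lt_of_lt_of_le h2 h1
  obtain ⟨j, hj, k, u', hk1, hk2, hu'n, hu'θ, S, hS, hSw⟩ :=
    exists_walks Z L L' n B D.sub D.hts D.mult D.mult' hκ D.ne D.dense D.dense' hbig
  set b : ℝ := (B : ℝ) with hb
  set N : ℝ := (n : ℝ) with hN
  have hκn : 0 < κ ^ 3 * N := by positivity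
  have hSpos : (0 : ℝ) < S.card := by
    by_contra hcon
    rw [not_lt] at hcon
    have h1 : 128 * b ^ 3 * (S.card : ℝ) ≤ 0 := mul_nonpos_of_nonneg_of_nonpos (by positivity) hcon
    linarith
  have : Nonempty ι := ⟨j⟩
  choose! p hp using fun u (hu : u ∈ S) => (hSw u hu).2
  choose! p' hp' using hp
  choose! q hq using hp'
  have hqL : ∀ u ∈ S, q u ∈ L := fun u hu => (D.sub _ (hq u hu).2.2).1
  -- a common height at which many end lines are alive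
  obtain ⟨k5, hk5, hk5c⟩ : ∃ k5 ∈ Finset.Ico (n : ℤ) (2 * n),
      κ₀ * (S.card : ℝ) ≤ ((S.filter fun u => k5 ∈ al (q u)).card : ℝ) := by
    by_contra hcon
    push Not at hcon
    have hIco : (Finset.Ico (n : ℤ) (2 * n)).card = n := by rw [Int.card_Ico]; omega
    have h1 : ∑ u ∈ S, ((al (q u)).card : ℝ) =
        ∑ k5 ∈ Finset.Ico (n : ℤ) (2 * n), ((S.filter fun u => k5 ∈ al (q u)).card : ℝ) := by
      have e1 : ∀ u ∈ S, ((al (q u)).card : ℝ) =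
          ∑ k5 ∈ Finset.Ico (n : ℤ) (2 * n), if k5 ∈ al (q u) then (1 : ℝ) else 0 := by
        intro u hu
        have h2 : al (q u) ⊆ Finset.Ico (n : ℤ) (2 * n) := fun k5 hk5 =>
          Finset.mem_Ico.2 (halh _ (hqL u hu) k5 hk5)
        rw [sum_ite_mem, inter_eq_right.2 h2]
        simp
      rw [sum_congr rfl e1, sum_comm]
      refine sum_congr rfl fun k5 _ => ?_
      rw [card_filter]
      push_cast
      rfl
    have h2 : ∑ u ∈ S, κ₀ * N ≤ ∑ u ∈ S, ((al (q u)).card : ℝ) :=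
      sum_le_sum fun u hu => hal _ (hqL u hu)
    have h3 : ∑ k5 ∈ Finset.Ico (n : ℤ) (2 * n), ((S.filter fun u => k5 ∈ al (q u)).card : ℝ) <
        ∑ _k5 ∈ Finset.Ico (n : ℤ) (2 * n), κ₀ * (S.card : ℝ) := by
      refine sum_lt_sum_of_nonempty ⟨k, Finset.mem_Ico.2 ⟨hk1, hk2⟩⟩ hcon
    rw [sum_const, nsmul_eq_mul] at h2
    rw [sum_const, hIco, nsmul_eq_mul] at h3
    rw [h1] at h2
    nlinarith [h2, h3]
  rw [Finset.mem_Ico] at hk5
  set S5 := S.filter fun u => k5 ∈ al (q u) with hS5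
  have hM : 0 ≤ M := by
    have hS5pos : 0 < S5.card := by
      have h1 : (0 : ℝ) < κ₀ * S.card := by positivity
      exact_mod_cast lt_of_lt_of_le h1 hk5c
    obtain ⟨u0, hu0⟩ := card_pos.1 hS5pos
    rw [hS5, mem_filter] at hu0
    have h5 := hfib {q u0} (by
      intro i hi
      rw [mem_singleton] at hi
      rw [hi]; exact hqL u0 hu0.1) (singleton_nonempty _) k5 hk5.1 hk5.2 (by simpa using hu0.2) (by
        intro i hi i' hi' m _
        rw [mem_singleton] at hi hi'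
        rw [hi, hi', sub_self, abs_zero]
        linarith) (by
        intro i hi i' hi'
        rw [mem_singleton] at hi hi'
        rw [hi, hi', sub_self, abs_zero]
        positivity) (by
        intro i hi i' hi' hne
        rw [mem_singleton] at hi hi'
        exact absurd (hi.trans hi'.symm) hne)
    rw [card_singleton] at h5
    linarith
  have hrho : 0 < r + 86 * δ + 148 * e := by linarith
  rcases eq_or_ne Λ 0 with h0 | h0
  · left
    rw [h0, abs_zero, mul_zero]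
    positivity
  have hΛpos : 0 < |Λ| := abs_pos.2 h0
  have hu'pos : 0 < |(u' : ℝ)| := by
    by_contra hcon
    rw [not_lt] at hcon
    have h1 : |(u' : ℝ)| = 0 := le_antisymm hcon (abs_nonneg _)
    rw [h1, mul_zero] at hu'θ
    linarith
  set s : ℝ := |(u' : ℝ)| * h ^ 2 * |Λ| with hs
  have hspos : 0 < s := by have := D.hpos; positivity
  set ρ₀ : ℝ := r + 86 * δ + 148 * e with hρ₀
  obtain ⟨m, hm1, hm2⟩ : ∃ m : ℕ, ρ₀ / s ≤ m ∧ (m : ℝ) ≤ ρ₀ / s + 1 :=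
    ⟨⌈ρ₀ / s⌉₊, Nat.le_ceil _, (Nat.ceil_lt_add_one (by positivity)).le⟩
  have hmpos : 0 < m := by
    have h1 : 0 < ρ₀ / s := by positivity
    have h2 : (0 : ℝ) < m := lt_of_lt_of_le h1 hm1
    exact_mod_cast h2
  obtain ⟨S', hS'sub5, hS'c, hS'sep⟩ := exists_sep S5 m hmpos
  have hS'sub : ∀ u ∈ S', u ∈ S := fun u hu => (mem_filter.1 (hS'sub5 hu)).1
  have hS'al : ∀ u ∈ S', k5 ∈ al (q u) := fun u hu => (mem_filter.1 (hS'sub5 hu)).2
  have hwalk := fun u (hu : u ∈ S') => D.walk (hSw u (hS'sub u hu)).1 hu'n (hq u (hS'sub u hu))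
  -- transport to the height `k5`
  set τ : ℝ := ((k5 : ℝ) - ((k + u' : ℤ) : ℝ)) * h with hτ
  have hτle : |τ| ≤ 2 := by
    rw [hτ, abs_mul, abs_of_pos D.hpos]
    have h1 : |((k5 : ℝ) - ((k + u' : ℤ) : ℝ))| ≤ 2 * n := by
      rw [abs_lt] at hu'n
      have h2 : |k5 - (k + u')| ≤ 2 * (n : ℤ) := by rw [abs_le]; constructor <;> omega
      have h3 : ((|k5 - (k + u')| : ℤ) : ℝ) ≤ ((2 * (n : ℤ) : ℤ) : ℝ) := by exact_mod_cast h2
      simpa [Int.cast_abs, Int.cast_sub] using h3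
    have h4 := mul_le_mul_of_nonneg_right h1 D.hpos.le
    have h5 := D.hle
    rw [← hN] at h4
    linarith
  have hk5pos : ∀ (t : Ln4) (mm : Fin 3), t.pos (k5 * h) mm =
      t.pos ((k + u' : ℤ) * h) mm + τ * t.v mm := by
    intro t mm
    rw [← pos_add]
    congr 1
    rw [hτ]; ring
  have hdiffY : ∀ u ∈ S', ∀ v ∈ S', |((T (q u)).pos (k5 * h) 0 - (T (q v)).pos (k5 * h) 0) -
      ((u : ℝ) - v) * h * (u' * h) * Λ| ≤ 86 * δ + 148 * e := by
    intro u hu v hv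
    obtain ⟨-, h1, h1s⟩ := hwalk u hu
    obtain ⟨-, h2, h2s⟩ := hwalk v hv
    rw [hk5pos, hk5pos]
    set Yu := (T (q u)).pos ((k + u' : ℤ) * h) 0
    set Yv := (T (q v)).pos ((k + u' : ℤ) * h) 0
    set Yj := (T j).pos ((k + u' : ℤ) * h) 0
    set σ0 := endSlope T fa fb h lam E' Ca Cb Ca' Cb' j k u'
    have h3 := abs_mul_le hτle h1s
    have h4 := abs_mul_le hτle h2s
    have id : (Yu + τ * (T (q u)).v 0 - (Yv + τ * (T (q v)).v 0)) -
        ((u : ℝ) - v) * h * (u' * h) * Λ = (Yu - Yj - (u * h) * (u' * h) * Λ) -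
        (Yv - Yj - (v * h) * (u' * h) * Λ) + τ * ((T (q u)).v 0 - σ0) -
        τ * ((T (q v)).v 0 - σ0) := by ring
    rw [id]
    rw [abs_le] at *
    constructor <;> linarith [h1.1, h1.2, h2.1, h2.2, h3.1, h3.2, h4.1, h4.2]
  have hsep : ∀ u ∈ S', ∀ v ∈ S', u ≠ v →
      r ≤ |(T (q u)).pos (k5 * h) 0 - (T (q v)).pos (k5 * h) 0| := by
    intro u hu v hv huv
    have h1 := hdiffY u hu v hv
    have h3 : (m : ℝ) ≤ |(u : ℝ) - v| := by
      have := hS'sep u hu v hv huv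
      have h4 : ((m : ℤ) : ℝ) ≤ ((|u - v| : ℤ) : ℝ) := by exact_mod_cast this
      simpa [Int.cast_abs, Int.cast_sub] using h4
    have h4 : ρ₀ ≤ |((u : ℝ) - v) * h * (u' * h) * Λ| := by
      have h5 : |((u : ℝ) - v) * h * (u' * h) * Λ| = |(u : ℝ) - v| * s := by
        rw [abs_mul, abs_mul, abs_mul, abs_mul, abs_of_pos D.hpos, hs]; ring
      rw [h5]
      have h6 : ρ₀ ≤ m * s := by
        rw [div_le_iff₀ hspos] at hm1; exact hm1
      exact h6.trans (mul_le_mul_of_nonneg_right h3 hspos.le)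
    have h5 := abs_sub_abs_le_abs_sub (((u : ℝ) - v) * h * (u' * h) * Λ)
      ((T (q u)).pos (k5 * h) 0 - (T (q v)).pos (k5 * h) 0)
    rw [abs_sub_comm] at h1
    linarith
  have hinj : Set.InjOn q (S' : Set ℤ) := by
    intro u hu v hv huv
    by_contra hne
    have := hsep u hu v hv hne
    rw [huv, sub_self, abs_zero] at this
    linarith
  have hbd : ∀ v : ℤ, |v| < n → |(v : ℝ) * h| ≤ 1 := by
    intro v hv
    rw [abs_mul, abs_of_pos D.hpos]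
    have h1 : |(v : ℝ)| ≤ n := by
      have h2 : (|v| : ℤ) ≤ (n : ℤ) := hv.le
      have h3 : ((|v| : ℤ) : ℝ) ≤ ((n : ℤ) : ℝ) := by exact_mod_cast h2
      simpa [Int.cast_abs] using h3
    exact (mul_le_mul_of_nonneg_right h1 D.hpos.le).trans D.hle
  by_cases hS'ne : S'.Nonempty
  swap
  · rw [not_nonempty_iff_eq_empty] at hS'ne
    rw [hS'ne, card_empty, mul_zero] at hS'c
    have h1 : (S5.card : ℝ) ≤ 0 := by exact_mod_cast hS'c
    have h2 : (0 : ℝ) < κ₀ * S.card := by positivity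
    linarith
  have hF := hfib (S'.image q) (by
      intro i hi
      obtain ⟨u, hu, rfl⟩ := mem_image.1 hi
      exact hqL u (hS'sub u hu)) (hS'ne.image _) k5 hk5.1 hk5.2 (by
      intro i hi
      obtain ⟨u, hu, rfl⟩ := mem_image.1 hi
      exact hS'al u hu) (by
      intro i hi i' hi' mm hmm
      obtain ⟨u, hu, rfl⟩ := mem_image.1 hi
      obtain ⟨v, hv, rfl⟩ := mem_image.1 hi'
      have h1 := (hwalk u hu).1 mm hmm
      have h2 := (hwalk v hv).1 mm hmm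
      rw [hk5pos, hk5pos]
      have hv2 : |(T (q u)).v mm - (T (q v)).v mm| ≤ 2 * δ := by
        have d1 := D.dir _ (hqL u (hS'sub u hu))
        have d2 := D.dir _ (hqL v (hS'sub v hv))
        have hmm' : mm = 1 ∨ mm = 2 := by
          fin_cases mm
          · exact absurd rfl hmm
          · exact Or.inl rfl
          · exact Or.inr rfl
        rcases hmm' with rfl | rfl
        · have a1 := d1.1
          have a2 := d2.1
          rw [abs_le] at *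
          constructor <;> linarith [a1.1, a1.2, a2.1, a2.2]
        · have a1 := d1.2
          have a2 := d2.2
          rw [abs_le] at *
          constructor <;> linarith [a1.1, a1.2, a2.1, a2.2]
      have h3 := abs_mul_le hτle hv2
      have id : (T (q u)).pos ((k + u' : ℤ) * h) mm + τ * (T (q u)).v mm -
          ((T (q v)).pos ((k + u' : ℤ) * h) mm + τ * (T (q v)).v mm) =
          ((T (q u)).pos ((k + u' : ℤ) * h) mm - (T j).pos ((k + u' : ℤ) * h) mm) -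
          ((T (q v)).pos ((k + u' : ℤ) * h) mm - (T j).pos ((k + u' : ℤ) * h) mm) +
          τ * ((T (q u)).v mm - (T (q v)).v mm) := by ring
      rw [id]
      rw [abs_le] at *
      constructor <;> linarith [h1.1, h1.2, h2.1, h2.2, h3.1, h3.2]) (by
      intro i hi i' hi'
      obtain ⟨u, hu, rfl⟩ := mem_image.1 hi
      obtain ⟨v, hv, rfl⟩ := mem_image.1 hi'
      have h1 := hdiffY u hu v hv
      have h2 : |((u : ℝ) - v) * h * (u' * h) * Λ| ≤ 2 * |Λ| := by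
        rw [abs_mul]
        refine mul_le_mul_of_nonneg_right ?_ (abs_nonneg _)
        have h3 := hbd u (hSw u (hS'sub u hu)).1
        have h4 := hbd v (hSw v (hS'sub v hv)).1
        have h5 : |((u : ℝ) - v) * h| ≤ 2 := by
          rw [sub_mul]
          refine (abs_sub _ _).trans ?_
          linarith
        have h6 := abs_mul_le h5 (hbd u' hu'n)
        linarith
      have h4 := abs_sub_abs_le_abs_sub ((T (q u)).pos (k5 * h) 0 - (T (q v)).pos (k5 * h) 0)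
        (((u : ℝ) - v) * h * (u' * h) * Λ)
      linarith) (by
      intro i hi i' hi' hne
      obtain ⟨u, hu, rfl⟩ := mem_image.1 hi
      obtain ⟨v, hv, rfl⟩ := mem_image.1 hi'
      exact hsep u hu v hv (fun h => hne (by rw [h])))
  rw [card_image_of_injOn hinj] at hF
  have hSM : κ₀ * (S.card : ℝ) ≤ (ρ₀ / s + 1) * M := by
    have h1 : (S5.card : ℝ) ≤ (m : ℝ) * (S'.card : ℝ) := by exact_mod_cast hS'c
    refine (hk5c.trans h1).trans (mul_le_mul hm2 hF (Nat.cast_nonneg _) ?_)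
    positivity
  have hfin : κ₀ * κ ^ 3 * N ≤ 128 * b ^ 3 * ((ρ₀ / s + 1) * M) := by
    have h1 : κ₀ * (κ ^ 3 * N) ≤ κ₀ * (128 * b ^ 3 * (S.card : ℝ)) :=
      mul_le_mul_of_nonneg_left hS hκ₀.le
    have h2 : 128 * b ^ 3 * (κ₀ * (S.card : ℝ)) ≤ 128 * b ^ 3 * ((ρ₀ / s + 1) * M) :=
      mul_le_mul_of_nonneg_left hSM (by positivity)
    linarith
  by_cases hcase : κ₀ * κ ^ 3 * N ≤ 256 * b ^ 3 * M
  · exact Or.inr hcase
  left
  rw [not_le] at hcase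
  have h1 : κ₀ * κ ^ 3 * N ≤ 256 * b ^ 3 * (ρ₀ / s * M) := by
    have h2 : 128 * b ^ 3 * ((ρ₀ / s + 1) * M) = 128 * b ^ 3 * (ρ₀ / s * M) + 128 * b ^ 3 * M := by
      ring
    linarith
  have h2 : κ₀ * κ ^ 3 * N * s ≤ 256 * b ^ 3 * (ρ₀ * M) := by
    have h3 := mul_le_mul_of_nonneg_right h1 hspos.le
    have h4 : 256 * b ^ 3 * (ρ₀ / s * M) * s = 256 * b ^ 3 * (ρ₀ * M) := by
      field_simp
    linarith
  have h5 : κ₀ * κ ^ 3 * N * (h ^ 2 * |Λ|) * (κ ^ 3 * N) ≤ κ₀ * κ ^ 3 * N * (h ^ 2 * |Λ|) *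
      (512 * b ^ 3 * |(u' : ℝ)|) :=
    mul_le_mul_of_nonneg_left hu'θ (by have := D.hpos; positivity)
  calc κ₀ * κ ^ 6 * (N * h) ^ 2 * |Λ| = κ₀ * κ ^ 3 * N * (h ^ 2 * |Λ|) * (κ ^ 3 * N) := by ring
    _ ≤ κ₀ * κ ^ 3 * N * (h ^ 2 * |Λ|) * (512 * b ^ 3 * |(u' : ℝ)|) := h5
    _ = 512 * b ^ 3 * (κ₀ * κ ^ 3 * N * s) := by rw [hs]; ring
    _ ≤ 512 * b ^ 3 * (256 * b ^ 3 * (ρ₀ * M)) := mul_le_mul_of_nonneg_left h2 (by positivity)
    _ = 131072 * b ^ 6 * M * ρ₀ := by ring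

end Crest.Agent.R136.Wk323
end

-- ▼ part R136/Wk4_323
section

/-!
# R136 (S0187): the WALK LEMMA, part 4: from pairs to the conic (helper323, doc 2205)

* `tri_affine`, `tri_conic` : if the cross curvatures `2 ΔC - (E + E') Δc` of the three pairs of
  `i, j, l` are `≤ η`, then `E l` is the affine interpolation of `E i, E j` at `c l` and `C l` is the
  quadratic one.
* `exists_frame` : dense sets `Zs g ⊆ P` (`g` in a class of directions) ⊢ two separated directions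
  `i, j` and a dense part of directions `l` such that the triple intersections are dense.
* `conic` : both together.
-/

set_option autoImplicit false

namespace Crest.Agent.R136.Wk323

open Finset

/-- cross curvature of two directions (without the factor `λ`) -/
def Xc (c C E c' C' E' : ℝ) : ℝ := 2 * (C' - C) - (E + E') * (c' - c)

theorem tri_affine {ci Ci Ei cj Cj Ej cl Cl El η : ℝ} (h1 : |Xc ci Ci Ei cj Cj Ej| ≤ η)
    (h2 : |Xc cj Cj Ej cl Cl El| ≤ η) (h3 : |Xc cl Cl El ci Ci Ei| ≤ η) :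
    |Ei * (cj - cl) + Ej * (cl - ci) + El * (ci - cj)| ≤ 3 * η := by
  have e : Ei * (cj - cl) + Ej * (cl - ci) + El * (ci - cj) =
      -(Xc ci Ci Ei cj Cj Ej + Xc cj Cj Ej cl Cl El + Xc cl Cl El ci Ci Ei) := by
    unfold Xc; ring
  rw [e, abs_neg]
  calc _ ≤ |Xc ci Ci Ei cj Cj Ej| + |Xc cj Cj Ej cl Cl El| + |Xc cl Cl El ci Ci Ei| :=
        abs_add_three _ _ _
    _ ≤ 3 * η := by linarith

/-- the curvature determined by two directions -/
noncomputable def sOf (ci Ei cj Ej : ℝ) : ℝ := -(Ej - Ei) / (cj - ci)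

theorem tri_E {ci Ci Ei cj Cj Ej cl Cl El η : ℝ} (hne : ci ≠ cj)
    (h1 : |Xc ci Ci Ei cj Cj Ej| ≤ η)
    (h2 : |Xc cj Cj Ej cl Cl El| ≤ η) (h3 : |Xc cl Cl El ci Ci Ei| ≤ η) :
    |El - (Ei - sOf ci Ei cj Ej * (cl - ci))| ≤ 3 * η / |cj - ci| := by
  have hd : cj - ci ≠ 0 := sub_ne_zero.2 (Ne.symm hne)
  have hdpos : 0 < |cj - ci| := abs_pos.2 hd
  have h4 := tri_affine h1 h2 h3
  rw [le_div_iff₀ hdpos, ← abs_mul]
  have e : (El - (Ei - sOf ci Ei cj Ej * (cl - ci))) * (cj - ci) =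
      -(Ei * (cj - cl) + Ej * (cl - ci) + El * (ci - cj)) := by
    unfold sOf; field_simp; ring
  rw [e, abs_neg]
  exact h4

theorem tri_C {ci Ci Ei cj Cj Ej cl Cl El η : ℝ} (hne : ci ≠ cj)
    (h1 : |Xc ci Ci Ei cj Cj Ej| ≤ η)
    (h2 : |Xc cj Cj Ej cl Cl El| ≤ η) (h3 : |Xc cl Cl El ci Ci Ei| ≤ η) (hb : |cl - ci| ≤ 2) :
    |Cl - (Ci + Ei * (cl - ci) - sOf ci Ei cj Ej * (cl - ci) ^ 2 / 2)| ≤
      η / 2 + 3 * η / |cj - ci| := by
  have h4 := tri_E hne h1 h2 h3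
  set s := sOf ci Ei cj Ej
  have e : Cl - (Ci + Ei * (cl - ci) - s * (cl - ci) ^ 2 / 2) =
      -(Xc cl Cl El ci Ci Ei) / 2 + (El - (Ei - s * (cl - ci))) * (cl - ci) / 2 := by
    unfold Xc; ring
  rw [e]
  have h5 : |-(Xc cl Cl El ci Ci Ei) / 2| ≤ η / 2 := by
    rw [abs_div, abs_neg, abs_of_pos (by norm_num : (0 : ℝ) < 2)]
    linarith
  have h6 : |(El - (Ei - s * (cl - ci))) * (cl - ci) / 2| ≤ 3 * η / |cj - ci| := by
    rw [abs_div, abs_mul, abs_of_pos (by norm_num : (0 : ℝ) < 2)]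
    have h7 := mul_le_mul h4 hb (abs_nonneg _) ((abs_nonneg _).trans h4)
    linarith
  exact (abs_add_le _ _).trans (add_le_add h5 h6)

section frame

variable {γ α : Type*} [DecidableEq γ] [DecidableEq α]

omit [DecidableEq γ] in
/-- triples of dense sets with dense triple intersections -/
theorem card_triples (Γ : Finset γ) (P : Finset α) (Zs : γ → Finset α) (κ : ℝ) (hκ : 0 < κ)
    (hP : P.Nonempty) (hΓ : Γ.Nonempty) (hsub : ∀ g ∈ Γ, Zs g ⊆ P)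
    (hsum : κ * Γ.card * P.card ≤ ∑ g ∈ Γ, ((Zs g).card : ℝ)) :
    κ ^ 3 / 2 * (Γ.card : ℝ) ^ 3 ≤ (((Γ ×ˢ Γ ×ˢ Γ).filter fun t => κ ^ 3 / 2 * (P.card : ℝ) ≤
      ((Zs t.1 ∩ Zs t.2.1 ∩ Zs t.2.2).card : ℝ)).card : ℝ) := by
  classical
  set G : ℝ := (Γ.card : ℝ) with hG
  set p : ℝ := (P.card : ℝ) with hp
  have hGpos : 0 < G := by rw [hG]; exact_mod_cast hΓ.card_pos
  have hppos : 0 < p := by rw [hp]; exact_mod_cast hP.card_pos
  let dg : α → ℝ := fun x => ((Γ.filter fun g => x ∈ Zs g).card : ℝ)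
  have hcard : ∀ x : α, dg x = ∑ g ∈ Γ, if x ∈ Zs g then (1 : ℝ) else 0 := by
    intro x
    simp only [dg]
    rw [card_filter]
    push_cast
    rfl
  have hind : ∀ A : Finset α, A ⊆ P → (A.card : ℝ) = ∑ x ∈ P, if x ∈ A then (1 : ℝ) else 0 := by
    intro A hA
    rw [sum_ite_mem, inter_eq_right.2 hA]
    simp
  have h1 : ∑ x ∈ P, dg x = ∑ g ∈ Γ, ((Zs g).card : ℝ) := by
    rw [sum_congr rfl (fun x _ => hcard x), sum_comm]
    exact sum_congr rfl fun g hg => (hind _ (hsub g hg)).symm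
  have h2 : ∑ t ∈ Γ ×ˢ Γ ×ˢ Γ, ((Zs t.1 ∩ Zs t.2.1 ∩ Zs t.2.2).card : ℝ) = ∑ x ∈ P, dg x ^ 3 := by
    have e1 : ∀ t ∈ Γ ×ˢ Γ ×ˢ Γ, ((Zs t.1 ∩ Zs t.2.1 ∩ Zs t.2.2).card : ℝ) =
        ∑ x ∈ P, (if x ∈ Zs t.1 then (1 : ℝ) else 0) * ((if x ∈ Zs t.2.1 then (1 : ℝ) else 0) *
          (if x ∈ Zs t.2.2 then (1 : ℝ) else 0)) := by
      intro t ht
      rw [mem_product] at ht
      rw [hind _ ((inter_subset_left.trans inter_subset_left).trans (hsub _ ht.1))]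
      refine sum_congr rfl fun x _ => ?_
      by_cases a1 : x ∈ Zs t.1 <;> by_cases a2 : x ∈ Zs t.2.1 <;> by_cases a3 : x ∈ Zs t.2.2 <;>
        simp [a1, a2, a3]
    rw [sum_congr rfl e1, sum_comm]
    refine sum_congr rfl fun x _ => ?_
    rw [sum_product]
    simp_rw [sum_product]
    rw [hcard x]
    have e2 : ∀ g ∈ Γ, ∑ g' ∈ Γ, ∑ g'' ∈ Γ, (if x ∈ Zs g then (1 : ℝ) else 0) *
        ((if x ∈ Zs g' then (1 : ℝ) else 0) * (if x ∈ Zs g'' then (1 : ℝ) else 0)) =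
        (if x ∈ Zs g then (1 : ℝ) else 0) * ((∑ g' ∈ Γ, if x ∈ Zs g' then (1 : ℝ) else 0) *
          (∑ g'' ∈ Γ, if x ∈ Zs g'' then (1 : ℝ) else 0)) := by
      intro g _
      rw [sum_mul_sum, mul_sum]
      refine sum_congr rfl fun g' _ => ?_
      rw [mul_sum]
    rw [sum_congr rfl e2, ← sum_mul]
    ring
  have h3 : (∑ x ∈ P, dg x) ^ 3 / p ^ 2 ≤ ∑ x ∈ P, dg x ^ 3 := by
    have := pow_sum_div_card_le_sum_pow (s := P) (f := dg) (fun x _ => Nat.cast_nonneg _) 2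
    simpa [hp] using this
  have h4 : κ ^ 3 * G ^ 3 * p ≤ ∑ t ∈ Γ ×ˢ Γ ×ˢ Γ, ((Zs t.1 ∩ Zs t.2.1 ∩ Zs t.2.2).card : ℝ) := by
    rw [h2]
    refine le_trans ?_ h3
    rw [le_div_iff₀ (by positivity), h1]
    calc κ ^ 3 * G ^ 3 * p * p ^ 2 = (κ * G * p) ^ 3 := by ring
      _ ≤ _ := pow_le_pow_left₀ (by positivity) hsum 3
  set Good := (Γ ×ˢ Γ ×ˢ Γ).filter fun t => κ ^ 3 / 2 * p ≤
      ((Zs t.1 ∩ Zs t.2.1 ∩ Zs t.2.2).card : ℝ) with hGood
  have h5 : ∑ t ∈ Γ ×ˢ Γ ×ˢ Γ, ((Zs t.1 ∩ Zs t.2.1 ∩ Zs t.2.2).card : ℝ) ≤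
      (Good.card : ℝ) * p + G ^ 3 * (κ ^ 3 / 2 * p) := by
    rw [← sum_filter_add_sum_filter_not (Γ ×ˢ Γ ×ˢ Γ) (fun t => κ ^ 3 / 2 * p ≤
      ((Zs t.1 ∩ Zs t.2.1 ∩ Zs t.2.2).card : ℝ)), ← hGood]
    refine add_le_add ?_ ?_
    · rw [← nsmul_eq_mul]
      refine sum_le_card_nsmul _ _ _ ?_
      intro t ht
      rw [hGood, mem_filter, mem_product] at ht
      rw [hp]
      exact_mod_cast card_le_card ((inter_subset_left.trans inter_subset_left).trans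
        (hsub _ ht.1.1))
    · refine (sum_le_card_nsmul _ _ (κ ^ 3 / 2 * p) fun t ht =>
        (not_le.1 (mem_filter.1 ht).2).le).trans ?_
      rw [nsmul_eq_mul]
      refine mul_le_mul_of_nonneg_right ?_ (by positivity)
      have := card_filter_le (Γ ×ˢ Γ ×ˢ Γ) (fun t => ¬ κ ^ 3 / 2 * p ≤
        ((Zs t.1 ∩ Zs t.2.1 ∩ Zs t.2.2).card : ℝ))
      rw [card_product, card_product] at this
      calc (((Γ ×ˢ Γ ×ˢ Γ).filter fun t => ¬ κ ^ 3 / 2 * p ≤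
            ((Zs t.1 ∩ Zs t.2.1 ∩ Zs t.2.2).card : ℝ)).card : ℝ) ≤
            ((Γ.card * (Γ.card * Γ.card) : ℕ) : ℝ) := by exact_mod_cast this
        _ = G ^ 3 := by push_cast; rw [← hG]; ring
  have h6 : (κ ^ 3 / 2 * G ^ 3) * p ≤ (Good.card : ℝ) * p := by
    have h7 := h4.trans h5
    nlinarith [h7]
  exact le_of_mul_le_mul_right h6 hppos

/-- **two separated directions and a dense class of third ones.** -/
theorem exists_frame (Γ : Finset γ) (P : Finset α) (Zs : γ → Finset α) (c : γ → ℝ) (κ sep : ℝ)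
    (hκ : 0 < κ) (hP : P.Nonempty) (hΓ : Γ.Nonempty) (hsub : ∀ g ∈ Γ, Zs g ⊆ P)
    (hsum : κ * Γ.card * P.card ≤ ∑ g ∈ Γ, ((Zs g).card : ℝ))
    (hsep : ∀ g ∈ Γ, ((Γ.filter fun g' => |c g' - c g| ≤ sep).card : ℝ) ≤ κ ^ 3 / 4 * Γ.card) :
    ∃ i ∈ Γ, ∃ j ∈ Γ, sep < |c j - c i| ∧
      κ ^ 3 / 4 * (Γ.card : ℝ) ≤ ((Γ.filter fun l => κ ^ 3 / 2 * (P.card : ℝ) ≤
        ((Zs i ∩ Zs j ∩ Zs l).card : ℝ)).card : ℝ) := by
  classical
  set Good := (Γ ×ˢ Γ ×ˢ Γ).filter fun t => κ ^ 3 / 2 * (P.card : ℝ) ≤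
      ((Zs t.1 ∩ Zs t.2.1 ∩ Zs t.2.2).card : ℝ) with hGood
  have h1 : κ ^ 3 / 2 * (Γ.card : ℝ) ^ 3 ≤ (Good.card : ℝ) :=
    card_triples Γ P Zs κ hκ hP hΓ hsub hsum
  set G : ℝ := (Γ.card : ℝ) with hG
  have hGpos : 0 < G := by rw [hG]; exact_mod_cast hΓ.card_pos
  set Gs := Good.filter fun t => sep < |c t.2.1 - c t.1| with hGs
  set Gn := Good.filter fun t => ¬ sep < |c t.2.1 - c t.1| with hGn
  have h2 : (Gn.card : ℝ) ≤ κ ^ 3 / 4 * G ^ 3 := by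
    have hsub' : Gn ⊆ Γ.biUnion fun g => ((Γ.filter fun g' => |c g' - c g| ≤ sep) ×ˢ Γ).image
        fun q => (g, q.1, q.2) := by
      intro t ht
      rw [hGn, mem_filter, hGood, mem_filter, mem_product, mem_product] at ht
      simp only [mem_biUnion, mem_image, mem_product, mem_filter]
      exact ⟨t.1, ht.1.1.1, (t.2.1, t.2.2), ⟨⟨ht.1.1.2.1, not_lt.1 ht.2⟩, ht.1.1.2.2⟩, rfl⟩
    have h3 : (Gn.card : ℝ) ≤ ∑ g ∈ Γ, ((((Γ.filter fun g' => |c g' - c g| ≤ sep) ×ˢ Γ).image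
        fun q => (g, q.1, q.2)).card : ℝ) := by
      exact_mod_cast (card_le_card hsub').trans card_biUnion_le
    refine h3.trans ((sum_le_card_nsmul _ _ (κ ^ 3 / 4 * G * G) ?_).trans (le_of_eq ?_))
    · intro g hg
      have h4 : ((((Γ.filter fun g' => |c g' - c g| ≤ sep) ×ˢ Γ).image
          fun q => (g, q.1, q.2)).card : ℝ) ≤
          (((Γ.filter fun g' => |c g' - c g| ≤ sep).card * Γ.card : ℕ) : ℝ) := by
        rw [← card_product]
        exact_mod_cast card_image_le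
      refine h4.trans ?_
      push_cast
      exact mul_le_mul_of_nonneg_right (hsep g hg) (Nat.cast_nonneg _)
    · rw [nsmul_eq_mul, ← hG]; ring
  have h3 : κ ^ 3 / 4 * G ^ 3 ≤ (Gs.card : ℝ) := by
    have h4 := card_filter_add_card_filter_not (s := Good) (fun t => sep < |c t.2.1 - c t.1|)
    rw [← hGs, ← hGn] at h4
    have h5 : (Gs.card : ℝ) + Gn.card = Good.card := by exact_mod_cast h4
    nlinarith [h1, h2, h5]
  have hmaps : ∀ t ∈ Gs, (t.1, t.2.1) ∈ Γ ×ˢ Γ := by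
    intro t ht
    rw [hGs, mem_filter, hGood, mem_filter, mem_product, mem_product] at ht
    exact mem_product.2 ⟨ht.1.1.1, ht.1.1.2.1⟩
  have hne : (Γ ×ˢ Γ).Nonempty := hΓ.product hΓ
  have hpig : (Γ ×ˢ Γ).card • (κ ^ 3 / 4 * G) ≤ (Gs.card : ℝ) := by
    rw [nsmul_eq_mul, card_product]
    push_cast
    rw [← hG]
    calc G * G * (κ ^ 3 / 4 * G) = κ ^ 3 / 4 * G ^ 3 := by ring
      _ ≤ _ := h3
  obtain ⟨⟨i, j⟩, hij, hcard⟩ :=
    exists_le_card_fiber_of_nsmul_le_card_of_maps_to hmaps hne hpig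
  set F := Gs.filter fun t => (t.1, t.2.1) = (i, j) with hF
  have hFpos : 0 < F.card := by
    have h4 : (0 : ℝ) < κ ^ 3 / 4 * G := by positivity
    exact_mod_cast lt_of_lt_of_le h4 hcard
  obtain ⟨t0, ht0⟩ := card_pos.1 hFpos
  have ht0' := ht0
  rw [hF, mem_filter, hGs, mem_filter] at ht0'
  have hij' := Prod.mk.inj ht0'.2
  rw [mem_product] at hij
  refine ⟨i, hij.1, j, hij.2, ?_, hcard.trans ?_⟩
  · have := ht0'.1.2
    rwa [hij'.1, hij'.2] at this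
  · have h4 : F.card ≤ (Γ.filter fun l => κ ^ 3 / 2 * (P.card : ℝ) ≤
        ((Zs i ∩ Zs j ∩ Zs l).card : ℝ)).card := by
      refine card_le_card_of_injOn (fun t => t.2.2) ?_ ?_
      · intro t ht
        rw [mem_coe, hF, mem_filter, hGs, mem_filter, hGood, mem_filter, mem_product,
          mem_product] at ht
        have h5 := Prod.mk.inj ht.2
        rw [mem_coe, mem_filter]
        refine ⟨ht.1.1.1.2.2, ?_⟩
        have h6 := ht.1.1.2
        rwa [h5.1, h5.2] at h6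
      · intro t ht t' ht' htt
        rw [mem_coe, hF, mem_filter] at ht ht'
        have h5 := Prod.mk.inj ht.2
        have h6 := Prod.mk.inj ht'.2
        exact Prod.ext (h5.1.trans h6.1.symm) (Prod.ext (h5.2.trans h6.2.symm) htt)
    exact_mod_cast h4

/-- **THE CONIC.**  `Zs g ⊆ P` dense sets; whenever `Zs g ∩ Zs g'` is `κ³/2`-dense the cross curvature
of the directions `g, g'` is `≤ η`.  Then a `κ³/4`-dense part of the directions lies on one conic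
`C = C0 + E0 (c - c0) - s0 (c - c0)² / 2`, with tangent `E = E0 - s0 (c - c0)`. -/
theorem conic (Γ : Finset γ) (P : Finset α) (Zs : γ → Finset α) (c C E : γ → ℝ) (κ sep η : ℝ)
    (hκ : 0 < κ) (hs : 0 < sep) (hη : 0 ≤ η) (hP : P.Nonempty) (hΓ : Γ.Nonempty)
    (hsub : ∀ g ∈ Γ, Zs g ⊆ P)
    (hsum : κ * Γ.card * P.card ≤ ∑ g ∈ Γ, ((Zs g).card : ℝ))
    (hsep : ∀ g ∈ Γ, ((Γ.filter fun g' => |c g' - c g| ≤ sep).card : ℝ) ≤ κ ^ 3 / 4 * Γ.card)
    (hc : ∀ g ∈ Γ, |c g| ≤ 1) (hE : ∀ g ∈ Γ, |E g| ≤ 1)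
    (hX : ∀ g ∈ Γ, ∀ g' ∈ Γ, κ ^ 3 / 2 * (P.card : ℝ) ≤ ((Zs g ∩ Zs g').card : ℝ) →
      |Xc (c g) (C g) (E g) (c g') (C g') (E g')| ≤ η) :
    ∃ i ∈ Γ, ∃ s0 : ℝ, |s0| ≤ 2 / sep ∧ ∃ Γ' ⊆ Γ, κ ^ 3 / 4 * (Γ.card : ℝ) ≤ (Γ'.card : ℝ) ∧
      (∀ l ∈ Γ', κ ^ 3 / 2 * (P.card : ℝ) ≤ ((Zs i ∩ Zs l).card : ℝ)) ∧
      ∀ l ∈ Γ', |E l - (E i - s0 * (c l - c i))| ≤ 3 * η / sep ∧
        |C l - (C i + E i * (c l - c i) - s0 * (c l - c i) ^ 2 / 2)| ≤ η / 2 + 3 * η / sep := by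
  obtain ⟨i, hi, j, hj, hij, hcard⟩ := exists_frame Γ P Zs c κ sep hκ hP hΓ hsub hsum hsep
  refine ⟨i, hi, sOf (c i) (E i) (c j) (E j), ?_, Γ.filter fun l => κ ^ 3 / 2 * (P.card : ℝ) ≤
        ((Zs i ∩ Zs j ∩ Zs l).card : ℝ), filter_subset _ _, hcard, ?_, ?_⟩
  · unfold sOf
    rw [abs_div, abs_neg]
    have h1 : |E j - E i| ≤ 2 := by
      refine (abs_sub _ _).trans ?_
      have := hE i hi
      have := hE j hj
      linarith
    exact div_le_div₀ (by norm_num) h1 hs hij.le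
  · intro l hl
    have s1 : Zs i ∩ Zs j ∩ Zs l ⊆ Zs i ∩ Zs l := fun x hx => by
      simp only [mem_inter] at hx ⊢
      exact ⟨hx.1.1, hx.2⟩
    exact (mem_filter.1 hl).2.trans (by exact_mod_cast card_le_card s1)
  · intro l hl
    obtain ⟨hlΓ, hl2⟩ := mem_filter.1 hl
    have hne : c i ≠ c j := by
      intro h
      rw [h, sub_self, abs_zero] at hij
      linarith
    have d1 : κ ^ 3 / 2 * (P.card : ℝ) ≤ ((Zs i ∩ Zs j).card : ℝ) :=
      hl2.trans (by exact_mod_cast card_le_card inter_subset_left)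
    have s2 : Zs i ∩ Zs j ∩ Zs l ⊆ Zs j ∩ Zs l := fun x hx => by
      simp only [mem_inter] at hx ⊢
      exact ⟨hx.1.2, hx.2⟩
    have s3 : Zs i ∩ Zs j ∩ Zs l ⊆ Zs l ∩ Zs i := fun x hx => by
      simp only [mem_inter] at hx ⊢
      exact ⟨hx.2, hx.1.1⟩
    have d2 : κ ^ 3 / 2 * (P.card : ℝ) ≤ ((Zs j ∩ Zs l).card : ℝ) :=
      hl2.trans (by exact_mod_cast card_le_card s2)
    have d3 : κ ^ 3 / 2 * (P.card : ℝ) ≤ ((Zs l ∩ Zs i).card : ℝ) :=
      hl2.trans (by exact_mod_cast card_le_card s3)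
    have x1 := hX i hi j hj d1
    have x2 := hX j hj l hlΓ d2
    have x3 := hX l hlΓ i hi d3
    have hb : |c l - c i| ≤ 2 := by
      have h1 := hc l hlΓ
      have h2 := hc i hi
      rw [abs_le] at h1 h2 ⊢
      constructor <;> linarith
    have hle : 3 * η / |c j - c i| ≤ 3 * η / sep :=
      div_le_div_of_nonneg_left (by linarith) hs hij.le
    exact ⟨(tri_E hne x1 x2 x3).trans hle, (tri_C hne x1 x2 x3 hb).trans (by linarith)⟩

end frame

end Crest.Agent.R136.Wk323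
end

-- ▼ part R136/Wk5_323
section

/-!
# R136 (S0187): the WALK LEMMA, part 5: rigidity of a whole class, finite form (helper323)

`RigData` : a finite class of lines `Λs` (one per fat line), alive at many heights, with position
labels (lines with the same position label at a height meet there, in a common hyperplane flag),
direction labels, and flags which rotate around the second flag direction `(1, E i)` with common
speed `lam`.  `RigData.rig` : if the fibres over base points are thin, then a dense part of the class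
has `E = E0 - s0 (c - c0)`, `C_b = C0 + E0 (c - c0) - s0 (c - c0)² / 2`, with ONE `s0`.
-/

set_option autoImplicit false
set_option linter.unusedSectionVars false

namespace Crest.Agent.R136.Wk323

open Finset
open Crest.Agent.R136.Sh605

variable {ι α γ : Type*} [DecidableEq ι] [DecidableEq α] [DecidableEq γ]

/-- finite data of the rigidity theorem -/
structure RigData (T : ι → Ln4) (E : ι → ℝ) (fa fb : ι → ℤ → ℝ) (Ls : Finset ι)
    (al : ι → Finset ℤ) (pos : ι → ℤ → α) (dir : ι → γ) (n B : ℕ) (κ δ e h lam : ℝ) : Prop where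
  hts : ∀ i ∈ Ls, ∀ k ∈ al i, (n : ℤ) ≤ k ∧ k < 2 * n
  alive : ∀ i ∈ Ls, κ * n ≤ ((al i).card : ℝ)
  mult : ∀ i ∈ Ls, ∀ k ∈ al i,
    (Ls.filter fun j => dir j = dir i ∧ k ∈ al j ∧ pos j k = pos i k).card ≤ B
  hpos : 0 < h
  hle : n * h ≤ 1
  /-- lines with the same position label at the height `k` meet there, in a common hyperplane -/
  near : ∀ i ∈ Ls, ∀ j ∈ Ls, ∀ k : ℤ, k ∈ al i → k ∈ al j → pos i k = pos j k →
    Meet δ (T i) (T j) (k * h) ∧ |Pd (T i) (T j) (fa i k) (fb i k)| ≤ e ∧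
      |fa j k - fa i k| ≤ e ∧ |fb j k - fb i k| ≤ e
  bdd : ∀ i ∈ Ls, ∀ k ∈ al i, |fa i k| ≤ 1 ∧ |fb i k| ≤ 1
  /-- own rotation: around `(1, E i)`, speed `lam` -/
  own : ∀ i ∈ Ls, ∀ k ∈ al i, ∀ k' ∈ al i,
    |fa i k' - fa i k + lam * E i * (((k' : ℝ) - k) * h)| ≤ e ∧
      |fb i k' - fb i k - lam * (((k' : ℝ) - k) * h)| ≤ e
  vel : ∀ i ∈ Ls, |(T i).v 1| ≤ 1 ∧ |(T i).v 2| ≤ 1 ∧ |E i| ≤ 1
  /-- direction labels -/
  same : ∀ i ∈ Ls, ∀ j ∈ Ls, dir i = dir j →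
    |(T j).v 1 - (T i).v 1| ≤ δ ∧ |(T j).v 2 - (T i).v 2| ≤ δ ∧ |E j - E i| ≤ δ

/-- the lines with direction label `g` -/
def cls (Ls : Finset ι) (dir : ι → γ) (g : γ) : Finset ι := Ls.filter fun i => dir i = g

/-- the points on the lines of `F` -/
def pts (al : ι → Finset ℤ) (pos : ι → ℤ → α) (F : Finset ι) : Finset (ℤ × α) :=
  F.biUnion fun i => (al i).image fun k => (k, pos i k)

/-- the meetings of two classes -/
noncomputable def meets (Ls : Finset ι) (al : ι → Finset ℤ) (pos : ι → ℤ → α) (dir : ι → γ) (n : ℕ) (g g' : γ) :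
    Finset (ι × ι × ℤ) :=
  (cls Ls dir g ×ˢ cls Ls dir g' ×ˢ Finset.Ico (n : ℤ) (2 * n)).filter fun x =>
    x.2.2 ∈ al x.1 ∧ x.2.2 ∈ al x.2.1 ∧ pos x.1 x.2.2 = pos x.2.1 x.2.2

omit [DecidableEq ι] [DecidableEq α] in
theorem mem_cls {Ls : Finset ι} {dir : ι → γ} {g : γ} {i : ι} :
    i ∈ cls Ls dir g ↔ i ∈ Ls ∧ dir i = g := mem_filter

omit [DecidableEq ι] in
theorem mem_pts {al : ι → Finset ℤ} {pos : ι → ℤ → α} {F : Finset ι} {p : ℤ × α} :
    p ∈ pts al pos F ↔ ∃ i ∈ F, p.1 ∈ al i ∧ pos i p.1 = p.2 := by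
  unfold pts
  simp only [mem_biUnion, mem_image]
  constructor
  · rintro ⟨i, hi, k, hk, rfl⟩
    exact ⟨i, hi, hk, rfl⟩
  · rintro ⟨i, hi, h1, h2⟩
    exact ⟨i, hi, p.1, h1, Prod.ext rfl h2⟩

omit [DecidableEq ι] in
theorem mem_meets {Ls : Finset ι} {al : ι → Finset ℤ} {pos : ι → ℤ → α} {dir : ι → γ} {n : ℕ}
    {g g' : γ} {x : ι × ι × ℤ} :
    x ∈ meets Ls al pos dir n g g' ↔ (x.1 ∈ Ls ∧ dir x.1 = g) ∧ (x.2.1 ∈ Ls ∧ dir x.2.1 = g') ∧
      ((n : ℤ) ≤ x.2.2 ∧ x.2.2 < 2 * n) ∧ x.2.2 ∈ al x.1 ∧ x.2.2 ∈ al x.2.1 ∧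
        pos x.1 x.2.2 = pos x.2.1 x.2.2 := by
  unfold meets
  simp only [mem_filter, mem_product, mem_cls, Finset.mem_Ico, and_assoc]

theorem fin_bound1 {U1 U2 U3 δ ηs δs rs : ℝ} (h1 : |U1| ≤ 3 * ηs) (h2 : |U2| ≤ δ)
    (h3 : |U3| ≤ 2 * δs) (h5 : δ ≤ δs) (h7 : δs ≤ rs) (h8 : 0 ≤ rs) (h9 : 0 ≤ ηs) :
    |U1 + U2 + U3| ≤ 4 * ηs + 6 * rs := by
  refine (abs_add_three _ _ _).trans ?_
  linarith

theorem four_bound {x y z : ℝ} (hx : |x| ≤ 1) (hy : |y| ≤ 1) (hz : |z| ≤ 1) :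
    |(x - z) + (y - z)| ≤ 4 := by
  have a1 := abs_add_le (x - z) (y - z)
  have a2 := abs_sub x z
  have a3 := abs_sub y z
  linarith

theorem fin_bound2 {U1 U2 U3 U4 η δ ηs δs rs : ℝ} (h1 : |U1| ≤ η / 2 + 3 * ηs) (h2 : |U2| ≤ δ)
    (h3 : |U3| ≤ 1 * δ) (h4 : |U4| ≤ 4 * δs) (h5 : δ ≤ δs) (h6 : η ≤ ηs) (h7 : δs ≤ rs)
    (h9 : 0 ≤ ηs) : |U1 + U2 - U3 + U4| ≤ 4 * ηs + 6 * rs := by
  have a1 := abs_add_le (U1 + U2 - U3) U4
  have a2 := abs_sub (U1 + U2) U3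
  have a3 := abs_add_le U1 U2
  linarith

/-- size of the normalised curvature: real arithmetic -/
theorem solve_pow {y Q a : ℝ} (hy : 0 ≤ y) (hQ : 0 ≤ Q) (ha0 : 0 ≤ a) (ha1 : a < 1)
    (h : y ≤ Q * (2 * y + 382) ^ a) : y ≤ max 191 ((4 * Q) ^ (1 / (1 - a))) := by
  by_cases h1 : y ≤ 191
  · exact h1.trans (le_max_left _ _)
  rw [not_le] at h1
  refine le_trans ?_ (le_max_right _ _)
  have hy0 : 0 < y := by linarith
  have h2 : (2 * y + 382) ^ a ≤ (4 * y) ^ a := Real.rpow_le_rpow (by linarith) (by linarith) ha0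
  have h3 : (4 * y) ^ a ≤ 4 * y ^ a := by
    rw [Real.mul_rpow (by norm_num) hy]
    refine mul_le_mul_of_nonneg_right ?_ (Real.rpow_nonneg hy a)
    calc (4 : ℝ) ^ a ≤ 4 ^ (1 : ℝ) := Real.rpow_le_rpow_of_exponent_le (by norm_num) ha1.le
      _ = 4 := Real.rpow_one 4
  have h4 : y ≤ 4 * Q * y ^ a := by
    calc y ≤ Q * (2 * y + 382) ^ a := h
      _ ≤ Q * (4 * y ^ a) := mul_le_mul_of_nonneg_left (h2.trans h3) hQ
      _ = _ := by ring
  have h5 : y ^ (1 - a) ≤ 4 * Q := by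
    rw [Real.rpow_sub hy0, Real.rpow_one, div_le_iff₀ (Real.rpow_pos_of_pos hy0 a)]
    exact h4
  have h1a : 0 < 1 - a := by linarith
  have h6 := Real.rpow_le_rpow (Real.rpow_nonneg hy _) h5 (by positivity : 0 ≤ 1 / (1 - a))
  rwa [← Real.rpow_mul hy, mul_one_div_cancel h1a.ne', Real.rpow_one] at h6

namespace RigData

variable {T : ι → Ln4} {E : ι → ℝ} {fa fb : ι → ℤ → ℝ} {Ls : Finset ι} {al : ι → Finset ℤ}
  {pos : ι → ℤ → α} {dir : ι → γ} {n B : ℕ} {κ δ e h lam : ℝ}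
  (D : RigData T E fa fb Ls al pos dir n B κ δ e h lam)

include D

/-- incidences of one direction class are at most `B` times its points -/
theorem inc_le (g : γ) : ∑ i ∈ cls Ls dir g, ((al i).card : ℝ) ≤
    B * ((pts al pos (cls Ls dir g)).card : ℝ) := by
  classical
  set S := (cls Ls dir g).sigma fun i => al i with hS
  have h1 : (S.card : ℝ) = ∑ i ∈ cls Ls dir g, ((al i).card : ℝ) := by
    rw [hS, card_sigma]; push_cast; rfl
  have h2 : S.card ≤ B * (S.image fun s : (Σ _ : ι, ℤ) => (s.2, pos s.1 s.2)).card := by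
    refine card_le_mul_card_image S B ?_
    intro a ha
    rw [mem_image] at ha
    obtain ⟨⟨i, k⟩, hik, rfl⟩ := ha
    rw [hS, mem_sigma] at hik
    obtain ⟨hi, hk⟩ := hik
    simp only at hi hk
    rw [mem_cls] at hi
    refine le_trans ?_ (D.mult i hi.1 k hk)
    refine card_le_card_of_injOn (fun s : (Σ _ : ι, ℤ) => s.1) ?_ ?_
    · intro s hs
      rw [mem_coe, mem_filter, hS, mem_sigma] at hs
      obtain ⟨⟨s1, s2⟩, s3⟩ := hs
      rw [mem_cls] at s1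
      simp only [Prod.mk.injEq] at s3
      obtain ⟨s4, s5⟩ := s3
      rw [s4] at s2 s5
      rw [mem_coe, mem_filter]
      exact ⟨s1.1, s1.2.trans hi.2.symm, s2, s5⟩
    · intro s hs s' hs' hss
      rw [mem_coe, mem_filter] at hs hs'
      have e1 := hs.2
      have e2 := hs'.2
      simp only [Prod.mk.injEq] at e1 e2
      obtain ⟨a1, b1⟩ := s
      obtain ⟨a2, b2⟩ := s'
      simp only at hss e1 e2
      subst hss
      rw [e1.1.trans e2.1.symm]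
  have h3 : (S.image fun s : (Σ _ : ι, ℤ) => (s.2, pos s.1 s.2)) ⊆ pts al pos (cls Ls dir g) := by
    intro p hp
    rw [mem_image] at hp
    obtain ⟨s, hs, rfl⟩ := hp
    rw [hS, mem_sigma] at hs
    exact mem_pts.2 ⟨s.1, hs.1, hs.2, rfl⟩
  rw [← h1]
  calc (S.card : ℝ) ≤ (B : ℝ) * ((S.image fun s : (Σ _ : ι, ℤ) => (s.2, pos s.1 s.2)).card : ℝ) := by
        exact_mod_cast h2
    _ ≤ B * ((pts al pos (cls Ls dir g)).card : ℝ) :=
        mul_le_mul_of_nonneg_left (by exact_mod_cast card_le_card h3) (Nat.cast_nonneg _)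

/-- lines of one direction class -/
theorem cls_le (g : γ) : κ * n * ((cls Ls dir g).card : ℝ) ≤
    B * ((pts al pos (cls Ls dir g)).card : ℝ) := by
  refine le_trans ?_ (D.inc_le g)
  calc κ * n * ((cls Ls dir g).card : ℝ) = ∑ _i ∈ cls Ls dir g, κ * n := by
        rw [sum_const, nsmul_eq_mul]; ring
    _ ≤ _ := sum_le_sum fun i hi => D.alive i (mem_cls.1 hi).1

/-- every line carries at most `n` points -/
theorem pts_le (F : Finset ι) (hF : F ⊆ Ls) : ((pts al pos F).card : ℝ) ≤ n * F.card := by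
  unfold pts
  have h1 := card_biUnion_le_card_mul F (fun i => (al i).image fun k => (k, pos i k)) n (by
    intro i hi
    refine card_image_le.trans ?_
    have h2 : al i ⊆ Finset.Ico (n : ℤ) (2 * n) := fun k hk =>
      Finset.mem_Ico.2 (D.hts i (hF hi) k hk)
    refine (card_le_card h2).trans ?_
    rw [Int.card_Ico]
    omega)
  have h2 : (((F.biUnion fun i => (al i).image fun k => (k, pos i k)).card : ℕ) : ℝ) ≤
      ((F.card * n : ℕ) : ℝ) := by exact_mod_cast h1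
  refine h2.trans (le_of_eq ?_)
  push_cast; ring

/-- points of two classes with the same label give meetings -/
theorem inter_le (g g' : γ) :
    (((pts al pos (cls Ls dir g)) ∩ (pts al pos (cls Ls dir g'))).card : ℝ) ≤
      ((meets Ls al pos dir n g g').card : ℝ) := by
  have h1 : (pts al pos (cls Ls dir g)) ∩ (pts al pos (cls Ls dir g')) ⊆
      (meets Ls al pos dir n g g').image fun x => (x.2.2, pos x.1 x.2.2) := by
    intro p hp
    rw [mem_inter, mem_pts, mem_pts] at hp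
    obtain ⟨⟨i, hi, h2, h3⟩, j, hj, h4, h5⟩ := hp
    rw [mem_cls] at hi hj
    rw [mem_image]
    exact ⟨(i, j, p.1), mem_meets.2 ⟨hi, hj, D.hts i hi.1 _ h2, h2, h4, h3.trans h5.symm⟩,
      Prod.ext rfl h3⟩
  exact_mod_cast (card_le_card h1).trans card_image_le

/-- **the walk data of two directions.** -/
theorem walkData {i0 j0 : ι} (hi0 : i0 ∈ Ls) (hj0 : j0 ∈ Ls) {κ' lm : ℝ} (hlm : |lam| ≤ lm)
    (hδ : 0 ≤ δ)
    (hne : (meets Ls al pos dir n (dir i0) (dir j0)).Nonempty)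
    (hd : κ' * n * ((cls Ls dir (dir i0)).card : ℝ) ≤
      ((meets Ls al pos dir n (dir i0) (dir j0)).card : ℝ))
    (hd' : κ' * n * ((cls Ls dir (dir j0)).card : ℝ) ≤
      ((meets Ls al pos dir n (dir i0) (dir j0)).card : ℝ)) :
    WalkData T fa fb (cls Ls dir (dir i0)) (cls Ls dir (dir j0))
      (meets Ls al pos dir n (dir i0) (dir j0)) n B κ' δ (e + lm * δ) h lam (E i0) (E j0)
      ((T i0).v 1) ((T i0).v 2) ((T j0).v 1) ((T j0).v 2) := by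
  have hlm0 : 0 ≤ lm := (abs_nonneg _).trans hlm
  have hle : e ≤ e + lm * δ := le_add_of_nonneg_right (mul_nonneg hlm0 hδ)
  have hstep : ∀ k k' : ℤ, (n : ℤ) ≤ k → k < 2 * n → (n : ℤ) ≤ k' → k' < 2 * n →
      |((k' : ℝ) - k) * h| ≤ 1 := by
    intro k k' h1 h2 h3 h4
    rw [abs_mul, abs_of_pos D.hpos]
    have h5 : |((k' : ℝ) - k)| ≤ n := by
      have h6 : |k' - k| ≤ (n : ℤ) := by rw [abs_le]; constructor <;> omega
      have h7 : ((|k' - k| : ℤ) : ℝ) ≤ ((n : ℤ) : ℝ) := by exact_mod_cast h6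
      simpa [Int.cast_abs, Int.cast_sub] using h7
    exact (mul_le_mul_of_nonneg_right h5 D.hpos.le).trans D.hle
  have hown : ∀ i ∈ Ls, ∀ i1 ∈ Ls, dir i1 = dir i → ∀ k ∈ al i, ∀ k' ∈ al i,
      |fa i k' - fa i k + lam * E i1 * (((k' : ℝ) - k) * h)| ≤ e + lm * δ ∧
      |fb i k' - fb i k - lam * (((k' : ℝ) - k) * h)| ≤ e + lm * δ := by
    intro i hi i1 hi1 hii k hk k' hk'
    obtain ⟨h1, h2⟩ := D.own i hi k hk k' hk'
    refine ⟨?_, h2.trans hle⟩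
    have h3 := (D.same i hi i1 hi1 hii.symm).2.2
    have h4 := hstep k k' (D.hts i hi k hk).1 (D.hts i hi k hk).2 (D.hts i hi k' hk').1
      (D.hts i hi k' hk').2
    have h5 := abs_mul_le (abs_mul_le hlm h3) h4
    have id : fa i k' - fa i k + lam * E i1 * (((k' : ℝ) - k) * h) =
        (fa i k' - fa i k + lam * E i * (((k' : ℝ) - k) * h)) +
          lam * (E i1 - E i) * (((k' : ℝ) - k) * h) := by ring
    rw [id]
    refine (abs_add_le _ _).trans ?_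
    linarith
  exact
    { sub := fun x hx => by
        rw [mem_meets] at hx
        exact ⟨mem_cls.2 hx.1, mem_cls.2 hx.2.1⟩
      hts := fun x hx => (mem_meets.1 hx).2.2.1
      mult := fun j k => by
        rcases ((meets Ls al pos dir n (dir i0) (dir j0)).filter
          fun x => x.2.1 = j ∧ x.2.2 = k).eq_empty_or_nonempty with he | ⟨x, hx⟩
        · rw [he]; simp
        · rw [mem_filter, mem_meets] at hx
          obtain ⟨⟨x1, x2, x3, x4, x5, x6⟩, x7, x8⟩ := hx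
          refine le_trans ?_ (D.mult x.1 x1.1 x.2.2 x4)
          refine card_le_card_of_injOn (fun y : ι × ι × ℤ => y.1) ?_ ?_
          · intro y hy
            rw [mem_coe, mem_filter, mem_meets] at hy
            obtain ⟨⟨y1, y2, y3, y4, y5, y6⟩, y7, y8⟩ := hy
            rw [mem_coe, mem_filter]
            refine ⟨y1.1, y1.2.trans x1.2.symm, ?_, ?_⟩
            · rw [x8, ← y8]; exact y4
            · rw [x8]
              rw [y8, y7] at y6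
              rw [x8, x7] at x6
              exact y6.trans x6.symm
          · intro y hy y' hy' hyy
            rw [mem_coe, mem_filter] at hy hy'
            exact Prod.ext hyy (Prod.ext (hy.2.1.trans hy'.2.1.symm) (hy.2.2.trans hy'.2.2.symm))
      mult' := fun i k => by
        rcases ((meets Ls al pos dir n (dir i0) (dir j0)).filter
          fun x => x.1 = i ∧ x.2.2 = k).eq_empty_or_nonempty with he | ⟨x, hx⟩
        · rw [he]; simp
        · rw [mem_filter, mem_meets] at hx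
          obtain ⟨⟨x1, x2, x3, x4, x5, x6⟩, x7, x8⟩ := hx
          refine le_trans ?_ (D.mult x.2.1 x2.1 x.2.2 x5)
          refine card_le_card_of_injOn (fun y : ι × ι × ℤ => y.2.1) ?_ ?_
          · intro y hy
            rw [mem_coe, mem_filter, mem_meets] at hy
            obtain ⟨⟨y1, y2, y3, y4, y5, y6⟩, y7, y8⟩ := hy
            rw [mem_coe, mem_filter]
            refine ⟨y2.1, y2.2.trans x2.2.symm, ?_, ?_⟩
            · rw [x8, ← y8]; exact y5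
            · rw [x8]
              rw [y8, y7] at y6
              rw [x8, x7] at x6
              exact y6.symm.trans x6
          · intro y hy y' hy' hyy
            rw [mem_coe, mem_filter] at hy hy'
            exact Prod.ext (hy.2.1.trans hy'.2.1.symm) (Prod.ext hyy (hy.2.2.trans hy'.2.2.symm))
      ne := hne
      dense := hd
      dense' := hd'
      hpos := D.hpos
      hle := D.hle
      meet := fun x hx => by
        rw [mem_meets] at hx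
        obtain ⟨x1, x2, x3, x4, x5, x6⟩ := hx
        exact (D.near _ x1.1 _ x2.1 _ x4 x5 x6).1
      slope := fun x hx => by
        rw [mem_meets] at hx
        obtain ⟨x1, x2, x3, x4, x5, x6⟩ := hx
        exact (D.near _ x1.1 _ x2.1 _ x4 x5 x6).2.1.trans hle
      slope' := fun x hx => by
        rw [mem_meets] at hx
        obtain ⟨x1, x2, x3, x4, x5, x6⟩ := hx
        have h1 := (D.near _ x2.1 _ x1.1 _ x5 x4 x6.symm).2.1.trans hle
        rwa [Pd_symm, abs_neg] at h1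
      flag := fun x hx => by
        rw [mem_meets] at hx
        obtain ⟨x1, x2, x3, x4, x5, x6⟩ := hx
        obtain ⟨-, -, h1, h2⟩ := D.near _ x1.1 _ x2.1 _ x4 x5 x6
        exact ⟨h1.trans hle, h2.trans hle⟩
      bdd := fun x hx => by
        rw [mem_meets] at hx
        exact D.bdd _ hx.1.1 _ hx.2.2.2.1
      bdd' := fun x hx => by
        rw [mem_meets] at hx
        exact D.bdd _ hx.2.1.1 _ hx.2.2.2.2.1
      own := fun x hx y hy hxy => by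
        rw [mem_meets] at hx hy
        obtain ⟨x1, x2, x3, x4, x5, x6⟩ := hx
        obtain ⟨y1, y2, y3, y4, y5, y6⟩ := hy
        rw [← hxy] at y4
        exact hown _ x1.1 i0 hi0 x1.2.symm _ x4 _ y4
      own' := fun x hx y hy hxy => by
        rw [mem_meets] at hx hy
        obtain ⟨x1, x2, x3, x4, x5, x6⟩ := hx
        obtain ⟨y1, y2, y3, y4, y5, y6⟩ := hy
        rw [← hxy] at y5
        exact hown _ x2.1 j0 hj0 x2.2.symm _ x5 _ y5
      dir := fun i hi => by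
        rw [mem_cls] at hi
        have h1 := D.same i0 hi0 i hi.1 hi.2.symm
        exact ⟨h1.1, h1.2.1⟩
      dir' := fun i hi => by
        rw [mem_cls] at hi
        have h1 := D.same j0 hj0 i hi.1 hi.2.symm
        exact ⟨h1.1, h1.2.1⟩
      dCa := by
        have h1 := (D.vel i0 hi0).1
        have h2 := (D.vel j0 hj0).1
        refine (abs_sub _ _).trans ?_
        linarith
      dCb := by
        have h1 := (D.vel i0 hi0).2.1
        have h2 := (D.vel j0 hj0).2.1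
        refine (abs_sub _ _).trans ?_
        linarith }

/-- the bound of the cross curvatures -/
noncomputable def etaR (κ B Kf nh r a lm0 : ℝ) : ℝ :=
  r * max 191 ((4 * (131072 * 383 * B ^ 6 * Kf /
    (κ * (κ ^ 7 / (2 * B ^ 4)) ^ 6 * nh ^ 2))) ^ (1 / (1 - a))) / lm0

/-- thin fibres over base points, for alive lines with one direction label -/
def ThinFib (T : ι → Ln4) (Ls : Finset ι) (al : ι → Finset ℤ) (dir : ι → γ) (δ h r a Kf : ℝ) :
    Prop :=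
  ∀ F ⊆ Ls, F.Nonempty → ∀ k : ℤ, (∀ i ∈ F, k ∈ al i) →
      (∀ i ∈ F, ∀ i' ∈ F, dir i = dir i') →
      (∀ i ∈ F, ∀ i' ∈ F, ∀ m : Fin 3, m ≠ 0 →
        |(T i).pos (k * h) m - (T i').pos (k * h) m| ≤ 18 * δ) →
      ∀ R0 : ℝ, r ≤ R0 →
      (∀ i ∈ F, ∀ i' ∈ F, |(T i).pos (k * h) 0 - (T i').pos (k * h) 0| ≤ R0) →
      (∀ i ∈ F, ∀ i' ∈ F, i ≠ i' → r ≤ |(T i).pos (k * h) 0 - (T i').pos (k * h) 0|) →
      (F.card : ℝ) ≤ Kf * (R0 / r) ^ a

/-- basic positivity -/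
theorem posNB (hκ : 0 < κ) (hLs : Ls.Nonempty) (hn0 : 0 < n) :
    (0 : ℝ) < B ∧ (pts al pos Ls).Nonempty := by
  obtain ⟨l0, hl0⟩ := hLs
  have hnpos : (0 : ℝ) < n := by exact_mod_cast hn0
  have hal0 : (al l0).Nonempty := by
    by_contra hcon
    rw [not_nonempty_iff_eq_empty] at hcon
    have h1 := D.alive l0 hl0
    rw [hcon, card_empty, Nat.cast_zero] at h1
    have := mul_pos hκ hnpos
    linarith
  obtain ⟨k0, hk0⟩ := hal0
  refine ⟨?_, ⟨(k0, pos l0 k0), mem_pts.2 ⟨l0, hl0, hk0, rfl⟩⟩⟩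
  have h1 := D.mult l0 hl0 k0 hk0
  have h2 : 0 < (Ls.filter fun j => dir j = dir l0 ∧ k0 ∈ al j ∧ pos j k0 = pos l0 k0).card :=
    card_pos.2 ⟨l0, mem_filter.2 ⟨hl0, rfl, hk0, rfl⟩⟩
  exact_mod_cast lt_of_lt_of_le h2 h1

/-- points of a direction class are points of the class -/
theorem pts_cls_sub (g : γ) : pts al pos (cls Ls dir g) ⊆ pts al pos Ls := by
  intro p hp
  rw [mem_pts] at hp
  obtain ⟨i, hi, h2, h3⟩ := hp
  exact mem_pts.2 ⟨i, (mem_cls.1 hi).1, h2, h3⟩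

/-- **the cross curvature of every dense pair of directions is small.** -/
theorem xc_le (hκ : 0 < κ) (hδ : 0 ≤ δ) {lm lm0 r a Kf : ℝ} (hlm : |lam| ≤ lm)
    (hlm0 : 0 < lm0) (hlm0' : lm0 ≤ |lam|) (hr : 0 < r) (hδr : δ ≤ r) (her : e ≤ r)
    (hlr : lm * δ ≤ r) (ha0 : 0 ≤ a) (ha1 : a < 1) (hKf : 0 ≤ Kf) (hn0 : 0 < n)
    (hfib : ThinFib T Ls al dir δ h r a Kf)
    (hn : 256 * (B : ℝ) ^ 3 ≤ (κ ^ 7 / (2 * B ^ 4)) ^ 3 * n)
    (hn2 : 256 * (B : ℝ) ^ 3 * (Kf * (16 * lm / r + 382) ^ a) < κ * (κ ^ 7 / (2 * B ^ 4)) ^ 3 * n)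
    {i0 j0 : ι} (hi0 : i0 ∈ Ls) (hj0 : j0 ∈ Ls)
    (hgg : (κ ^ 2 / (B : ℝ)) ^ 3 / 2 * ((pts al pos Ls).card : ℝ) ≤
      ((pts al pos (cls Ls dir (dir i0)) ∩ pts al pos (cls Ls dir (dir j0))).card : ℝ)) :
    |Xc ((T i0).v 1) ((T i0).v 2) (E i0) ((T j0).v 1) ((T j0).v 2) (E j0)| ≤
      etaR κ B Kf (n * h) r a lm0 := by
  classical
  set κ2 : ℝ := κ ^ 7 / (2 * B ^ 4) with hκ2
  set Q : ℝ := 131072 * 383 * B ^ 6 * Kf / (κ * κ2 ^ 6 * (n * h) ^ 2) with hQ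
  set Ym : ℝ := max 191 ((4 * Q) ^ (1 / (1 - a))) with hYm
  have hη : etaR κ B Kf (n * h) r a lm0 = r * Ym / lm0 := rfl
  obtain ⟨hBpos, hPne⟩ := D.posNB hκ ⟨i0, hi0⟩ hn0
  have hlm0p : 0 < lm := lt_of_lt_of_le hlm0 (hlm0'.trans hlm)
  have hnpos : (0 : ℝ) < n := by exact_mod_cast hn0
  have hκ2p : 0 < κ2 := by rw [hκ2]; positivity
  have hhp := D.hpos
  have hQ0 : 0 ≤ Q := by rw [hQ]; positivity
  set P := pts al pos Ls with hP
  have hPpos : (0 : ℝ) < P.card := by exact_mod_cast hPne.card_pos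
  have hsubc : ∀ g, cls Ls dir g ⊆ Ls := fun g => filter_subset _ _
  have m1 := hgg.trans (D.inter_le (dir i0) (dir j0))
  have hd : ∀ g1 : γ, κ2 * n * ((cls Ls dir g1).card : ℝ) ≤
      ((meets Ls al pos dir n (dir i0) (dir j0)).card : ℝ) := by
    intro g1
    have h1 := D.cls_le g1
    have h2 : ((pts al pos (cls Ls dir g1)).card : ℝ) ≤ P.card := by
      exact_mod_cast card_le_card (D.pts_cls_sub g1)
    have h3 : κ * n * ((cls Ls dir g1).card : ℝ) ≤ B * P.card :=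
      h1.trans (mul_le_mul_of_nonneg_left h2 hBpos.le)
    have h4 : κ2 * n * ((cls Ls dir g1).card : ℝ) =
        (κ ^ 2 / (B : ℝ)) ^ 3 / (2 * B) * (κ * n * ((cls Ls dir g1).card : ℝ)) := by
      rw [hκ2]; field_simp
    have h5 : (κ ^ 2 / (B : ℝ)) ^ 3 / (2 * B) * (B * P.card) =
        (κ ^ 2 / (B : ℝ)) ^ 3 / 2 * (P.card : ℝ) := by field_simp
    rw [h4]
    refine (mul_le_mul_of_nonneg_left h3 (by positivity)).trans ?_
    rw [h5]
    exact m1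
  have hgne : (meets Ls al pos dir n (dir i0) (dir j0)).Nonempty := by
    rw [← card_pos]
    have h1 : (0 : ℝ) < (κ ^ 2 / (B : ℝ)) ^ 3 / 2 * (P.card : ℝ) := by positivity
    exact_mod_cast lt_of_lt_of_le h1 m1
  have W := D.walkData hi0 hj0 (κ' := κ2) hlm hδ hgne (hd _) (hd _)
  set Λ : ℝ := Lamb lam (E i0) (E j0) ((T i0).v 1) ((T i0).v 2) ((T j0).v 1) ((T j0).v 2) with hΛ
  have hΛX : Λ = lam * Xc ((T i0).v 1) ((T i0).v 2) (E i0) ((T j0).v 1) ((T j0).v 2) (E j0) := by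
    rw [hΛ]; unfold Lamb Xc; ring
  have he2 : e + lm * δ ≤ 2 * r := by linarith
  have hR0 : r ≤ 2 * |Λ| + 382 * r := by have := abs_nonneg Λ; linarith
  have key := W.main hκ2p hδ hn hr hκ al
    (fun i hi k hk => D.hts i (mem_cls.1 hi).1 k hk)
    (fun i hi => D.alive i (mem_cls.1 hi).1)
    (M := Kf * ((2 * |Λ| + 382 * r) / r) ^ a) (by
      intro F hF hFne k hk1 hk2 hFal hFb hFY hFs
      refine hfib F (hF.trans (hsubc _)) hFne k hFal (fun i hi i' hi' =>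
        (mem_cls.1 (hF hi)).2.trans (mem_cls.1 (hF hi')).2.symm) hFb _ hR0 ?_ hFs
      intro i hi i' hi'
      refine (hFY i hi i' hi').trans ?_
      rw [← hΛ]
      linarith)
  set y : ℝ := |Λ| / r with hy
  have hy0 : 0 ≤ y := by positivity
  have hyr : (2 * |Λ| + 382 * r) / r = 2 * y + 382 := by rw [hy]; field_simp
  rw [hyr] at key
  have hbig0 : 0 ≤ (2 * y + 382) ^ a := by positivity
  have hyΛ : y ≤ Ym := by
    rcases key with key | key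
    · refine solve_pow hy0 hQ0 ha0 ha1 ?_
      have h1 : κ * κ2 ^ 6 * (n * h) ^ 2 * |Λ| ≤
          131072 * (B : ℝ) ^ 6 * (Kf * (2 * y + 382) ^ a) * (383 * r) := by
        refine key.trans ?_
        refine mul_le_mul_of_nonneg_left ?_ (by positivity)
        linarith
      rw [hQ, div_mul_eq_mul_div, hy, div_le_div_iff₀ hr (by positivity), ← hy]
      calc |Λ| * (κ * κ2 ^ 6 * (n * h) ^ 2) = κ * κ2 ^ 6 * (n * h) ^ 2 * |Λ| := by ring
        _ ≤ 131072 * (B : ℝ) ^ 6 * (Kf * (2 * y + 382) ^ a) * (383 * r) := h1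
        _ = _ := by ring
    · exfalso
      have h1 : |Xc ((T i0).v 1) ((T i0).v 2) (E i0) ((T j0).v 1) ((T j0).v 2) (E j0)| ≤ 8 := by
        unfold Xc
        have a1 := W.dCa
        have a2 := W.dCb
        have a3 := (D.vel _ hi0).2.2
        have a4 := (D.vel _ hj0).2.2
        have a5 : |E i0 + E j0| ≤ 2 := (abs_add_le _ _).trans (by linarith)
        have a6 := abs_mul_le a5 a1
        refine (abs_sub _ _).trans ?_
        rw [abs_mul, abs_of_pos (by norm_num : (0 : ℝ) < 2)]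
        linarith
      have h2 : |Λ| ≤ 8 * lm := by
        rw [hΛX]
        have := abs_mul_le hlm h1
        linarith
      have h3 : 2 * y + 382 ≤ 16 * lm / r + 382 := by
        have : 2 * y ≤ 16 * lm / r := by
          rw [hy, mul_div_assoc', div_le_div_iff_of_pos_right hr]
          linarith
        linarith
      have h4 : (2 * y + 382) ^ a ≤ (16 * lm / r + 382) ^ a :=
        Real.rpow_le_rpow (by positivity) h3 ha0
      have h5 : 256 * (B : ℝ) ^ 3 * (Kf * (2 * y + 382) ^ a) ≤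
          256 * (B : ℝ) ^ 3 * (Kf * (16 * lm / r + 382) ^ a) :=
        mul_le_mul_of_nonneg_left (mul_le_mul_of_nonneg_left h4 hKf) (by positivity)
      linarith
  have h1 : |Λ| ≤ r * Ym := by
    rw [hy, div_le_iff₀ hr] at hyΛ
    linarith
  rw [hΛX, abs_mul] at h1
  rw [hη, le_div_iff₀ hlm0]
  calc _ ≤ |Xc ((T i0).v 1) ((T i0).v 2) (E i0) ((T j0).v 1) ((T j0).v 2) (E j0)| * |lam| :=
        mul_le_mul_of_nonneg_left hlm0' (abs_nonneg _)
    _ ≤ r * Ym := by rw [mul_comm]; exact h1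

theorem sum_cls : ∑ g ∈ Ls.image dir, ((cls Ls dir g).card : ℝ) = (Ls.card : ℝ) := by
  have := card_eq_sum_card_fiberwise (s := Ls) (t := Ls.image dir) (f := dir)
    (fun i hi => mem_image_of_mem _ hi)
  rw [this]
  push_cast
  rfl

/-- the points of the direction classes are dense on average -/
theorem sum_pts (hκ : 0 < κ) (hBpos : (0 : ℝ) < B)
    (hcount : κ * ((pts al pos Ls).card : ℝ) * ((Ls.image dir).card : ℝ) ≤ n * (Ls.card : ℝ)) :
    κ ^ 2 / (B : ℝ) * (Ls.image dir).card * (pts al pos Ls).card ≤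
      ∑ g ∈ Ls.image dir, ((pts al pos (cls Ls dir g)).card : ℝ) := by
  set Γ := Ls.image dir with hΓ
  set P := pts al pos Ls with hP
  have h1 : ∑ g ∈ Γ, κ * n * ((cls Ls dir g).card : ℝ) ≤
      ∑ g ∈ Γ, B * ((pts al pos (cls Ls dir g)).card : ℝ) :=
    sum_le_sum fun g _ => D.cls_le g
  rw [← mul_sum, ← mul_sum, hΓ, D.sum_cls, ← hΓ] at h1
  have h2 : κ * (κ * (P.card : ℝ) * (Γ.card : ℝ)) ≤ κ * (n * (Ls.card : ℝ)) :=
    mul_le_mul_of_nonneg_left hcount hκ.le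
  have h3 : κ ^ 2 / (B : ℝ) * Γ.card * P.card = (κ * (κ * (P.card : ℝ) * (Γ.card : ℝ))) / B := by
    field_simp
  rw [h3, div_le_iff₀ hBpos]
  calc κ * (κ * (P.card : ℝ) * (Γ.card : ℝ)) ≤ κ * (n * (Ls.card : ℝ)) := h2
    _ = κ * n * Ls.card := by ring
    _ ≤ B * ∑ g ∈ Γ, ((pts al pos (cls Ls dir g)).card : ℝ) := h1
    _ = _ := by ring

/-- **RIGIDITY OF A CLASS, finite form.** -/
theorem rig (hκ : 0 < κ) (hδ : 0 ≤ δ) {lm lm0 r a Kf sep : ℝ} (hlm : |lam| ≤ lm)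
    (hlm0 : 0 < lm0) (hlm0' : lm0 ≤ |lam|) (hr : 0 < r) (hδr : δ ≤ r) (her : e ≤ r)
    (hlr : lm * δ ≤ r) (ha0 : 0 ≤ a) (ha1 : a < 1) (hKf : 0 ≤ Kf) (hsep0 : 0 < sep)
    (hsep1 : sep ≤ 1) (hLs : Ls.Nonempty) (hn0 : 0 < n)
    (hcount : κ * ((pts al pos Ls).card : ℝ) * ((Ls.image dir).card : ℝ) ≤ n * (Ls.card : ℝ))
    (hconc : ∀ i ∈ Ls, (((Ls.filter fun j => |(T j).v 1 - (T i).v 1| ≤ sep).image dir).card : ℝ) ≤
      (κ ^ 2 / B) ^ 3 / 4 * ((Ls.image dir).card : ℝ))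
    (hfib : ThinFib T Ls al dir δ h r a Kf)
    (hn : 256 * (B : ℝ) ^ 3 ≤ (κ ^ 7 / (2 * B ^ 4)) ^ 3 * n)
    (hn2 : 256 * (B : ℝ) ^ 3 * (Kf * (16 * lm / r + 382) ^ a) < κ * (κ ^ 7 / (2 * B ^ 4)) ^ 3 * n) :
    ∃ i0 ∈ Ls, ∃ s0 : ℝ, |s0| ≤ 2 / sep ∧ ∃ Ls' ⊆ Ls,
      (κ ^ 2 / B) ^ 6 * κ / (8 * B) * (Ls.card : ℝ) ≤ (Ls'.card : ℝ) ∧
      ∀ i ∈ Ls', |E i - (E i0 - s0 * ((T i).v 1 - (T i0).v 1))| ≤
          (4 * etaR κ B Kf (n * h) r a lm0 + 6 * r) / sep ∧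
        |(T i).v 2 - ((T i0).v 2 + E i0 * ((T i).v 1 - (T i0).v 1) -
            s0 * ((T i).v 1 - (T i0).v 1) ^ 2 / 2)| ≤
          (4 * etaR κ B Kf (n * h) r a lm0 + 6 * r) / sep := by
  classical
  set η : ℝ := etaR κ B Kf (n * h) r a lm0 with hη
  obtain ⟨hBpos, hPne⟩ := D.posNB hκ hLs hn0
  have hX0 := fun i0 (hi0 : i0 ∈ Ls) j0 (hj0 : j0 ∈ Ls) => D.xc_le hκ hδ hlm hlm0 hlm0' hr hδr her
    hlr ha0 ha1 hKf hn0 hfib hn hn2 hi0 hj0
  obtain ⟨l0, hl0⟩ := hLs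
  have hnpos : (0 : ℝ) < n := by exact_mod_cast hn0
  have hκ1p : 0 < κ ^ 2 / (B : ℝ) := by positivity
  have hη0 : 0 ≤ η := by
    rw [hη]; unfold etaR
    have : (0 : ℝ) ≤ max 191 ((4 * (131072 * 383 * (B : ℝ) ^ 6 * Kf /
      (κ * (κ ^ 7 / (2 * (B : ℝ) ^ 4)) ^ 6 * (n * h) ^ 2))) ^ (1 / (1 - a))) :=
      le_trans (by norm_num) (le_max_left _ _)
    positivity
  -- objects
  set Γ := Ls.image dir with hΓ
  set P := pts al pos Ls with hP
  have hrep : ∀ g ∈ Γ, ∃ i ∈ Ls, dir i = g := fun g hg => mem_image.1 hg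
  have : Nonempty ι := ⟨l0⟩
  choose! rep hrep1 hrep2 using hrep
  have hΓne : Γ.Nonempty := ⟨dir l0, mem_image_of_mem _ hl0⟩
  have hsubc : ∀ g, cls Ls dir g ⊆ Ls := fun g => filter_subset _ _
  have hsubP : ∀ g ∈ Γ, pts al pos (cls Ls dir g) ⊆ P := fun g _ => D.pts_cls_sub g
  have hPpos : (0 : ℝ) < P.card := by exact_mod_cast hPne.card_pos
  have hsum := D.sum_pts hκ hBpos hcount
  -- cross curvature of dense pairs
  have hX : ∀ g ∈ Γ, ∀ g' ∈ Γ, (κ ^ 2 / (B : ℝ)) ^ 3 / 2 * (P.card : ℝ) ≤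
      ((pts al pos (cls Ls dir g) ∩ pts al pos (cls Ls dir g')).card : ℝ) →
      |Xc ((T (rep g)).v 1) ((T (rep g)).v 2) (E (rep g)) ((T (rep g')).v 1) ((T (rep g')).v 2)
        (E (rep g'))| ≤ η := by
    intro g hg g' hg' hgg
    have h1 := hX0 _ (hrep1 g hg) _ (hrep1 g' hg')
    rw [hrep2 g hg, hrep2 g' hg'] at h1
    exact h1 hgg
  -- separation of directions, for representatives
  have hsepΓ : ∀ g ∈ Γ, ((Γ.filter fun g' => |(T (rep g')).v 1 - (T (rep g)).v 1| ≤ sep).card : ℝ) ≤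
      (κ ^ 2 / (B : ℝ)) ^ 3 / 4 * Γ.card := by
    intro g hg
    refine le_trans ?_ (hconc (rep g) (hrep1 g hg))
    have hs : (Γ.filter fun g' => |(T (rep g')).v 1 - (T (rep g)).v 1| ≤ sep) ⊆
        (Ls.filter fun j => |(T j).v 1 - (T (rep g)).v 1| ≤ sep).image dir := by
      intro g' hg'
      rw [mem_filter] at hg'
      exact mem_image.2 ⟨rep g', mem_filter.2 ⟨hrep1 g' hg'.1, hg'.2⟩, hrep2 g' hg'.1⟩
    exact_mod_cast card_le_card hs
  obtain ⟨g0, hg0, s0, hs0, Γ', hΓ', hΓ'c, hΓ'd, hΓ'con⟩ :=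
    conic Γ P (fun g => pts al pos (cls Ls dir g)) (fun g => (T (rep g)).v 1)
      (fun g => (T (rep g)).v 2) (fun g => E (rep g)) (κ ^ 2 / (B : ℝ)) sep η hκ1p hsep0 hη0 hPne
      hΓne hsubP hsum hsepΓ (fun g hg => (D.vel _ (hrep1 g hg)).1)
      (fun g hg => (D.vel _ (hrep1 g hg)).2.2) hX
  refine ⟨rep g0, hrep1 g0 hg0, s0, hs0, Ls.filter fun i => dir i ∈ Γ', filter_subset _ _, ?_, ?_⟩
  · -- size
    set Ls' := Ls.filter fun i => dir i ∈ Γ' with hLs'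
    have h1 : ∑ g ∈ Γ', ((cls Ls dir g).card : ℝ) = (Ls'.card : ℝ) := by
      have h2 := card_eq_sum_card_fiberwise (s := Ls') (t := Γ') (f := dir)
        (fun i hi => (mem_filter.1 hi).2)
      rw [h2]
      push_cast
      refine sum_congr rfl fun g hg => ?_
      congr 2
      ext i
      rw [mem_cls, mem_filter, hLs', mem_filter]
      constructor
      · rintro ⟨a1, a2⟩
        exact ⟨⟨a1, by rw [a2]; exact hg⟩, a2⟩
      · rintro ⟨⟨a1, -⟩, a2⟩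
        exact ⟨a1, a2⟩
    have h2 : ∀ g ∈ Γ', (κ ^ 2 / (B : ℝ)) ^ 3 / 2 * (P.card : ℝ) ≤ n * ((cls Ls dir g).card : ℝ) := by
      intro g hg
      refine (hΓ'd g hg).trans (le_trans ?_ (D.pts_le _ (hsubc g)))
      exact_mod_cast card_le_card inter_subset_right
    have h3 : (Γ'.card : ℝ) * ((κ ^ 2 / (B : ℝ)) ^ 3 / 2 * (P.card : ℝ)) ≤ n * (Ls'.card : ℝ) := by
      rw [← h1, mul_sum, ← nsmul_eq_mul]
      exact card_nsmul_le_sum _ _ _ h2
    have h4 : κ * n * (Ls.card : ℝ) ≤ B * ((Γ.card : ℝ) * P.card) := by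
      have h5 : ∑ g ∈ Γ, κ * n * ((cls Ls dir g).card : ℝ) ≤ ∑ _g ∈ Γ, B * (P.card : ℝ) := by
        refine sum_le_sum fun g hg => (D.cls_le g).trans ?_
        refine mul_le_mul_of_nonneg_left ?_ hBpos.le
        exact_mod_cast card_le_card (hsubP g hg)
      rw [← mul_sum, hΓ, D.sum_cls, ← hΓ, sum_const, nsmul_eq_mul] at h5
      linarith
    have h6 : (κ ^ 2 / (B : ℝ)) ^ 6 / 8 * ((Γ.card : ℝ) * P.card) ≤ n * (Ls'.card : ℝ) := by
      refine le_trans ?_ h3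
      have h7 : (κ ^ 2 / (B : ℝ)) ^ 6 / 8 * ((Γ.card : ℝ) * P.card) =
          ((κ ^ 2 / (B : ℝ)) ^ 3 / 4 * (Γ.card : ℝ)) * ((κ ^ 2 / (B : ℝ)) ^ 3 / 2 * P.card) := by
        ring
      rw [h7]
      exact mul_le_mul_of_nonneg_right hΓ'c (by positivity)
    have h8 : ((κ ^ 2 / (B : ℝ)) ^ 6 * κ / (8 * B) * (Ls.card : ℝ)) * n ≤ (Ls'.card : ℝ) * n := by
      have h9 : ((κ ^ 2 / (B : ℝ)) ^ 6 * κ / (8 * B) * (Ls.card : ℝ)) * n =
          (κ ^ 2 / (B : ℝ)) ^ 6 / 8 / B * (κ * n * (Ls.card : ℝ)) := by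
        field_simp
      rw [h9]
      calc (κ ^ 2 / (B : ℝ)) ^ 6 / 8 / B * (κ * n * (Ls.card : ℝ)) ≤
            (κ ^ 2 / (B : ℝ)) ^ 6 / 8 / B * (B * ((Γ.card : ℝ) * P.card)) :=
            mul_le_mul_of_nonneg_left h4 (by positivity)
        _ = (κ ^ 2 / (B : ℝ)) ^ 6 / 8 * ((Γ.card : ℝ) * P.card) := by field_simp
        _ ≤ n * (Ls'.card : ℝ) := h6
        _ = _ := by ring
    exact le_of_mul_le_mul_right h8 hnpos
  · -- the conic on the lines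
    intro i hi
    rw [mem_filter] at hi
    obtain ⟨hiL, hiΓ⟩ := hi
    have hiΓ0 : dir i ∈ Γ := hΓ' hiΓ
    obtain ⟨c1, c2⟩ := hΓ'con (dir i) hiΓ
    obtain ⟨d1, d2, d3⟩ := D.same (rep (dir i)) (hrep1 _ hiΓ0) i hiL (hrep2 _ hiΓ0)
    set i' := rep (dir i) with hi'
    set i0 := rep g0 with hi0
    have hv := D.vel i hiL
    have hv' := D.vel i' (hrep1 _ hiΓ0)
    have hv0 := D.vel i0 (hrep1 g0 hg0)
    have hsd : |s0 * ((T i).v 1 - (T i').v 1)| ≤ 2 / sep * δ := abs_mul_le hs0 d1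
    have hδs : δ ≤ δ / sep := le_div_self hδ hsep0 hsep1
    have hηs : η ≤ η / sep := le_div_self hη0 hsep0 hsep1
    have hδrs : δ / sep ≤ r / sep := div_le_div_of_nonneg_right hδr hsep0.le
    have hrs : 0 ≤ r / sep := by positivity
    have hηs0 : 0 ≤ η / sep := by positivity
    have e2 : (2 / sep * δ) = 2 * (δ / sep) := by ring
    have e3 : 3 * η / sep = 3 * (η / sep) := by ring
    have e4 : (4 * η + 6 * r) / sep = 4 * (η / sep) + 6 * (r / sep) := by ring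
    constructor
    · rw [e4]
      have id : E i - (E i0 - s0 * ((T i).v 1 - (T i0).v 1)) =
          (E i' - (E i0 - s0 * ((T i').v 1 - (T i0).v 1))) + (E i - E i') +
            s0 * ((T i).v 1 - (T i').v 1) := by ring
      rw [id]
      rw [e3] at c1
      rw [e2] at hsd
      exact fin_bound1 c1 d3 hsd hδs hδrs hrs hηs0
    · rw [e4]
      have hE0 : |E i0 * ((T i).v 1 - (T i').v 1)| ≤ 1 * δ := abs_mul_le hv0.2.2 d1
      have hq : |s0 * ((T i).v 1 - (T i').v 1) * (((T i).v 1 - (T i0).v 1) +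
          ((T i').v 1 - (T i0).v 1)) / 2| ≤ 4 * (δ / sep) := by
        have a1 : |((T i).v 1 - (T i0).v 1) + ((T i').v 1 - (T i0).v 1)| ≤ 4 :=
          four_bound hv.1 hv'.1 hv0.1
        have a2 := abs_mul_le hsd a1
        rw [abs_div, abs_of_pos (by norm_num : (0 : ℝ) < 2), div_le_iff₀ (by norm_num)]
        rw [e2] at a2
        refine a2.trans (le_of_eq ?_)
        ring
      have id : (T i).v 2 - ((T i0).v 2 + E i0 * ((T i).v 1 - (T i0).v 1) -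
          s0 * ((T i).v 1 - (T i0).v 1) ^ 2 / 2) =
          ((T i').v 2 - ((T i0).v 2 + E i0 * ((T i').v 1 - (T i0).v 1) -
          s0 * ((T i').v 1 - (T i0).v 1) ^ 2 / 2)) + ((T i).v 2 - (T i').v 2) -
          E i0 * ((T i).v 1 - (T i').v 1) +
          s0 * ((T i).v 1 - (T i').v 1) * (((T i).v 1 - (T i0).v 1) +
            ((T i').v 1 - (T i0).v 1)) / 2 := by ring
      rw [id]
      rw [e3] at c2
      exact fin_bound2 c2 d2 hE0 hq hδs hηs hδrs hηs0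

/-- **MIRRORED LIGHTLIKE**: `E = 0` on the class and `C_b` spread: impossible for small `η`. -/
theorem mirror (hκ : 0 < κ) (hδ : 0 ≤ δ) {lm lm0 r a Kf sep : ℝ} (hlm : |lam| ≤ lm)
    (hlm0 : 0 < lm0) (hlm0' : lm0 ≤ |lam|) (hr : 0 < r) (hδr : δ ≤ r) (her : e ≤ r)
    (hlr : lm * δ ≤ r) (ha0 : 0 ≤ a) (ha1 : a < 1) (hKf : 0 ≤ Kf)
    (hLs : Ls.Nonempty) (hn0 : 0 < n) (hE : ∀ i ∈ Ls, E i = 0)
    (hcount : κ * ((pts al pos Ls).card : ℝ) * ((Ls.image dir).card : ℝ) ≤ n * (Ls.card : ℝ))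
    (hconc : ∀ i ∈ Ls, (((Ls.filter fun j => |(T j).v 2 - (T i).v 2| ≤ sep).image dir).card : ℝ) ≤
      (κ ^ 2 / B) ^ 3 / 4 * ((Ls.image dir).card : ℝ))
    (hfib : ThinFib T Ls al dir δ h r a Kf)
    (hn : 256 * (B : ℝ) ^ 3 ≤ (κ ^ 7 / (2 * B ^ 4)) ^ 3 * n)
    (hn2 : 256 * (B : ℝ) ^ 3 * (Kf * (16 * lm / r + 382) ^ a) < κ * (κ ^ 7 / (2 * B ^ 4)) ^ 3 * n) :
    2 * sep < etaR κ B Kf (n * h) r a lm0 := by
  classical
  obtain ⟨hBpos, hPne⟩ := D.posNB hκ hLs hn0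
  have hX0 := fun i0 (hi0 : i0 ∈ Ls) j0 (hj0 : j0 ∈ Ls) => D.xc_le hκ hδ hlm hlm0 hlm0' hr hδr her
    hlr ha0 ha1 hKf hn0 hfib hn hn2 hi0 hj0
  obtain ⟨l0, hl0⟩ := hLs
  have hκ1p : 0 < κ ^ 2 / (B : ℝ) := by positivity
  set Γ := Ls.image dir with hΓ
  set P := pts al pos Ls with hP
  have hrep : ∀ g ∈ Γ, ∃ i ∈ Ls, dir i = g := fun g hg => mem_image.1 hg
  have : Nonempty ι := ⟨l0⟩
  choose! rep hrep1 hrep2 using hrep
  have hΓne : Γ.Nonempty := ⟨dir l0, mem_image_of_mem _ hl0⟩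
  have hsubP : ∀ g ∈ Γ, pts al pos (cls Ls dir g) ⊆ P := fun g _ => D.pts_cls_sub g
  have hsum := D.sum_pts hκ hBpos hcount
  have hsepΓ : ∀ g ∈ Γ, ((Γ.filter fun g' => |(T (rep g')).v 2 - (T (rep g)).v 2| ≤ sep).card : ℝ) ≤
      (κ ^ 2 / (B : ℝ)) ^ 3 / 4 * Γ.card := by
    intro g hg
    refine le_trans ?_ (hconc (rep g) (hrep1 g hg))
    have hs : (Γ.filter fun g' => |(T (rep g')).v 2 - (T (rep g)).v 2| ≤ sep) ⊆
        (Ls.filter fun j => |(T j).v 2 - (T (rep g)).v 2| ≤ sep).image dir := by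
      intro g' hg'
      rw [mem_filter] at hg'
      exact mem_image.2 ⟨rep g', mem_filter.2 ⟨hrep1 g' hg'.1, hg'.2⟩, hrep2 g' hg'.1⟩
    exact_mod_cast card_le_card hs
  obtain ⟨i, hi, j, hj, hij, hcard⟩ := exists_frame Γ P (fun g => pts al pos (cls Ls dir g))
    (fun g => (T (rep g)).v 2) (κ ^ 2 / (B : ℝ)) sep hκ1p hPne hΓne hsubP hsum hsepΓ
  -- the pair `i, j` is dense
  have hΓpos : (0 : ℝ) < Γ.card := by exact_mod_cast hΓne.card_pos
  have hne : (Γ.filter fun l => (κ ^ 2 / (B : ℝ)) ^ 3 / 2 * (P.card : ℝ) ≤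
      ((pts al pos (cls Ls dir i) ∩ pts al pos (cls Ls dir j) ∩
        pts al pos (cls Ls dir l)).card : ℝ)).Nonempty := by
    rw [← card_pos]
    have h1 : (0 : ℝ) < (κ ^ 2 / (B : ℝ)) ^ 3 / 4 * Γ.card := by positivity
    exact_mod_cast lt_of_lt_of_le h1 hcard
  obtain ⟨l, hl⟩ := hne
  have hdense : (κ ^ 2 / (B : ℝ)) ^ 3 / 2 * (P.card : ℝ) ≤
      ((pts al pos (cls Ls dir i) ∩ pts al pos (cls Ls dir j)).card : ℝ) :=
    (mem_filter.1 hl).2.trans (by exact_mod_cast card_le_card inter_subset_left)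
  have h1 := hX0 _ (hrep1 i hi) _ (hrep1 j hj)
  rw [hrep2 i hi, hrep2 j hj] at h1
  have h2 := h1 hdense
  unfold Xc at h2
  rw [hE _ (hrep1 i hi), hE _ (hrep1 j hj), add_zero, zero_mul, sub_zero, abs_mul,
    abs_of_pos (by norm_num : (0 : ℝ) < 2)] at h2
  linarith

end RigData

end Crest.Agent.R136.Wk323
end

-- ▼ part R136/WkD_323

/-!
# R136 (S0187): RIG wrapper, definitions and literals (helper323)

`AbsWin` : a relative model whose line slots are computed from absolute straight lines `T n l`,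
axes `E n l` of `V2` and flags `fa n l k`, `fb n k` (lightlike window: `F_b` is a level slot, so `fb`
depends on the height only), up to `ρ^(x-ε)`; the flags rotate around the axis; `fb` is affine in `z`.
Numbering of 186's `coQ`: `0 z, 1 R, 2 E, 3 F_b, 4 F_a, 5 C_a, 6 C_b, 7 P, 8 X_a, 9 X_b, 10 N`.
-/

set_option autoImplicit false
set_option linter.unusedVariables false

open Filter Topology Finset

namespace Crest.Agent.R136.Wk323

open Crest.Agent.R136.Sh605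
open Crest.Agent.R138.Ex926 (Base U)
open Crest.Agent.R136.Gf356

/-- `x` on the slots of `F`, `0` elsewhere -/
def vec (F : Finset (Fin 11)) (x : ℝ) : Fin 11 → ℝ := fun s => if s ∈ F then x else 0

/-- the line slots -/
def fAll : Finset (Fin 11) := {2, 4, 5, 6, 7, 8, 9, 10}
/-- position, hyperplane flag -/
def fPos : Finset (Fin 11) := {4, 7, 8, 9, 10}
/-- direction, axis -/
def fDir : Finset (Fin 11) := {2, 5, 6}

/-- base position at `x`, normal position at `y` -/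
def qv (x y : ℝ) : Fin 11 → ℝ := fun s => if s = 10 then y else if s = 8 ∨ s = 9 then x else 0

/-- relative coordinates computed from absolute lines and flags, at the height `z` -/
def coA (T T' : Ln4) (E E' fa fa' fb z : ℝ) : Fin 11 → ℝ :=
  ![0, 0, E' - E, 0, fa' - fa, T'.v 1 - T.v 1,
    (T'.v 2 - T.v 2) - E * (T'.v 1 - T.v 1),
    (T'.v 0 - T.v 0) - fa * (T'.v 1 - T.v 1) - fb * (T'.v 2 - T.v 2),
    T'.pos z 1 - T.pos z 1,
    (T'.pos z 2 - T.pos z 2) - E * (T'.pos z 1 - T.pos z 1),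
    (T'.pos z 0 - T.pos z 0) - fa * (T'.pos z 1 - T.pos z 1) - fb * (T'.pos z 2 - T.pos z 2)]

/-- a lightlike window in absolute coordinates -/
structure AbsWin (B : Base) (G : ℕ → RCfg (Fin 11)) (x : ℝ) (T : ℕ → ℕ → Ln4) (E : ℕ → ℕ → ℝ)
    (fa : ℕ → ℕ → ℕ → ℝ) (fb : ℕ → ℕ → ℝ) (mu be : ℕ → ℝ) : Prop where
  bd : ∀ᶠ n in (U : Filter ℕ), ∀ l k, (l, k) ∈ (G n).I → |(G n).z k| ≤ 1 ∧
    (∀ j, |(T n l).pos ((G n).z k) j| ≤ 1) ∧ (∀ j, |(T n l).v j| ≤ 1) ∧ |E n l| ≤ 1 ∧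
      |fa n l k| ≤ 1 ∧ |fb n k| ≤ 1
  bdr : ∀ᶠ n in (U : Filter ℕ), ∀ k i l, (i, k) ∈ (G n).I → (l, k) ∈ (G n).I →
    ∀ s, |(G n).rel k i l s| ≤ 1
  rel : ∀ ε : ℝ, 0 < ε → ∀ᶠ n in (U : Filter ℕ), ∀ k i l, (i, k) ∈ (G n).I → (l, k) ∈ (G n).I →
    ∀ s ∈ fAll, |(G n).rel k i l s - coA (T n i) (T n l) (E n i) (E n l) (fa n i k) (fa n l k)
      (fb n k) ((G n).z k) s| ≤ B.d n ^ (x - ε)
  own : ∀ ε : ℝ, 0 < ε → ∀ᶠ n in (U : Filter ℕ), ∀ l k k', (l, k) ∈ (G n).I → (l, k') ∈ (G n).I →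
    |fa n l k' - fa n l k + E n l * (fb n k' - fb n k)| ≤ B.d n ^ (x - ε)
  aff : ∀ ε : ℝ, 0 < ε → ∀ᶠ n in (U : Filter ℕ), ∀ l k, (l, k) ∈ (G n).I →
    |fb n k - be n - mu n * (G n).z k| ≤ B.d n ^ (x - ε)

/-- position label (mesh `δ`) of the line `T` with the hyperplane flag `(fa, fb)` at the height `z` -/
noncomputable def posL (δ : ℝ) (T : Ln4) (fa fb z : ℝ) : Fin 5 → ℤ :=
  ![⌊T.pos z 0 / δ⌋, ⌊T.pos z 1 / δ⌋, ⌊T.pos z 2 / δ⌋, ⌊fa / δ⌋,
    ⌊(T.v 0 - fa * T.v 1 - fb * T.v 2) / δ⌋]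

/-- direction label -/
noncomputable def dirL (δ : ℝ) (T : Ln4) (E : ℝ) : Fin 3 → ℤ := ![⌊T.v 1 / δ⌋, ⌊T.v 2 / δ⌋, ⌊E / δ⌋]

/-- label of the fat line; `Fc` = slope of `V2`, i.e. `fa + E fb` at one height -/
noncomputable def cellL (δ : ℝ) (T : Ln4) (E Fc : ℝ) : Fin 8 → ℤ :=
  ![⌊T.p 0 / δ⌋, ⌊T.p 1 / δ⌋, ⌊T.p 2 / δ⌋, ⌊T.v 0 / δ⌋, ⌊T.v 1 / δ⌋, ⌊T.v 2 / δ⌋, ⌊E / δ⌋, ⌊Fc / δ⌋]

/-- hypotheses of the RIG wrapper on the profile -/
structure RigProf (Leg : Set (Fin 11 → ℝ)) (ν : (Fin 11 → ℝ) → ℝ) (x a m : ℝ) : Prop where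
  x0 : 0 < x
  a0 : 0 ≤ a
  a1 : a < 1
  m0 : 0 < m
  zero : (0 : Fin 11 → ℝ) ∈ Leg
  all : vec fAll x ∈ Leg
  pos : vec fPos x ∈ Leg
  dir : vec fDir x ∈ Leg
  q : ∀ y, 0 ≤ y → y ≤ x → qv x y ∈ Leg
  c : ∀ y, 0 ≤ y → y ≤ x → vec {5} y ∈ Leg
  /-- positions and directions are decoupled -/
  dec : ν 0 + ν (vec fAll x) ≤ ν (vec fPos x) + ν (vec fDir x)
  /-- fibre rate over a base point -/
  fib : ∀ y, 0 ≤ y → y ≤ x → ν (qv x y) - ν (qv x x) ≤ a * (x - y)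
  /-- the fan is spread in the direction `A` -/
  conc : ∀ y, 0 ≤ y → y ≤ x → m * y ≤ ν 0 - ν (vec {5} y)

/-- **target**: rigidity of a lightlike window (proved in `Wk9_323` / by helper120) -/
def RigWin : Prop :=
  ∀ (B : Base) (G : ℕ → RCfg (Fin 11)) (Leg : Set (Fin 11 → ℝ)) (ν : (Fin 11 → ℝ) → ℝ)
    (D R x a m : ℝ) (T : ℕ → ℕ → Ln4) (E : ℕ → ℕ → ℝ) (fa : ℕ → ℕ → ℕ → ℝ) (fb : ℕ → ℕ → ℝ)
    (mu be : ℕ → ℝ),
    RModel B G 1 R Leg ν D → x ≤ R → AbsWin B G x T E fa fb mu be → RigProf Leg ν x a m →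
    (∀ ε : ℝ, 0 < ε → ∀ᶠ n in (U : Filter ℕ), B.d n ^ ε ≤ |mu n| ∧ |mu n| ≤ B.d n ^ (-ε)) →
    ∀ ε : ℝ, 0 < ε → ∀ᶠ n in (U : Filter ℕ), ∃ s0 c0 C0 E0 : ℝ, |s0| ≤ B.d n ^ (-ε) ∧ |c0| ≤ 1 ∧
      |C0| ≤ 1 ∧ |E0| ≤ 1 ∧
      ∃ L' ⊆ (G n).L, B.d n ^ ε * ((G n).L.card : ℝ) ≤ (L'.card : ℝ) ∧
        ∀ l ∈ L', |E n l - (E0 - s0 * ((T n l).v 1 - c0))| ≤ B.d n ^ (x - ε) ∧
          |(T n l).v 2 - (C0 + E0 * ((T n l).v 1 - c0) - s0 * ((T n l).v 1 - c0) ^ 2 / 2)| ≤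
            B.d n ^ (x - ε)

/-! ### literals of the counting part (helper344) -/

section counting

variable (B : Base) (G : ℕ → RCfg (Fin 11)) (ν : (Fin 11 → ℝ) → ℝ) (x a : ℝ)
  (T : ℕ → ℕ → Ln4) (E : ℕ → ℕ → ℝ) (fa : ℕ → ℕ → ℕ → ℝ) (fb : ℕ → ℕ → ℝ)


/-- number of position labels at one height, mesh `ρ^(x-ε₀)` -/
def PosCount : Prop := ∀ ε₀ : ℝ, 0 < ε₀ → ∀ ε : ℝ, 0 < ε → ∀ᶠ n in (U : Filter ℕ), ∀ k,
  ((((G n).slice k).image fun l =>
    posL (B.d n ^ (x - ε₀)) (T n l) (fa n l k) (fb n k) ((G n).z k)).card : ℝ) ≤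
    B.d n ^ (-(ν 0 - ν (vec fPos x)) - ε)

/-- number of direction labels at one height -/
def DirCount : Prop := ∀ ε₀ : ℝ, 0 < ε₀ → ∀ ε : ℝ, 0 < ε → ∀ᶠ n in (U : Filter ℕ), ∀ k,
  ((((G n).slice k).image fun l => dirL (B.d n ^ (x - ε₀)) (T n l) (E n l)).card : ℝ) ≤
    B.d n ^ (-(ν 0 - ν (vec fDir x)) - ε)

/-- the lines of a slice whose relative coordinates on all line slots are `≤ ρ^(x-ε₀)` -/
def CellUp : Prop := ∃ C : ℝ, 0 ≤ C ∧ ∀ ε₀ : ℝ, 0 < ε₀ → ∀ᶠ n in (U : Filter ℕ), ∀ k i,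
  (i, k) ∈ (G n).I → ∀ F ⊆ (G n).slice k, (∀ l ∈ F, ∀ s ∈ fAll, |coA (T n i) (T n l) (E n i) (E n l)
    (fa n i k) (fa n l k) (fb n k) ((G n).z k) s| ≤ B.d n ^ (x - ε₀)) →
    (F.card : ℝ) ≤ B.d n ^ (-ν (vec fAll x) - C * ε₀)

/-- many lines in every fat line -/
def CellLow : Prop := ∀ ε : ℝ, 0 < ε → ∀ᶠ n in (U : Filter ℕ), ∀ k i, (i, k) ∈ (G n).I →
  ∃ F ⊆ (G n).slice k, B.d n ^ (-ν (vec fAll x) + ε) ≤ (F.card : ℝ) ∧
    ∀ l ∈ F, ∀ s ∈ fAll, |coA (T n i) (T n l) (E n i) (E n l)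
      (fa n i k) (fa n l k) (fb n k) ((G n).z k) s| ≤ B.d n ^ (x - ε)

/-- fibres over base points -/
def FibBound : Prop := ∃ C : ℝ, 1 ≤ C ∧ ∀ ε₀ : ℝ, 0 < ε₀ → C * ε₀ ≤ x → ∀ᶠ n in (U : Filter ℕ),
  ∀ k, ∀ F ⊆ (G n).slice k, F.Nonempty →
  (∀ i ∈ F, ∀ i' ∈ F, ∀ m : Fin 3, m ≠ 0 →
    |(T n i).pos ((G n).z k) m - (T n i').pos ((G n).z k) m| ≤ B.d n ^ (x - ε₀)) →
  ∀ R0 : ℝ, B.d n ^ (x - C * ε₀) ≤ R0 →
  (∀ i ∈ F, ∀ i' ∈ F, |(T n i).pos ((G n).z k) 0 - (T n i').pos ((G n).z k) 0| ≤ R0) →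
  (∀ i ∈ F, ∀ i' ∈ F, i ≠ i' →
    B.d n ^ (x - C * ε₀) ≤ |(T n i).pos ((G n).z k) 0 - (T n i').pos ((G n).z k) 0|) →
  (F.card : ℝ) ≤ B.d n ^ (-(C * ε₀)) * (R0 / B.d n ^ (x - C * ε₀)) ^ a

/-- direction labels with `c` in a short interval -/
def DirConc : Prop := ∃ C : ℝ, 0 ≤ C ∧ ∀ ε₀ : ℝ, 0 < ε₀ → ∀ y : ℝ, 0 ≤ y → y ≤ x →
  ∀ᶠ n in (U : Filter ℕ), ∀ k, ∀ c : ℝ,
  (((((G n).slice k).filter fun l => |(T n l).v 1 - c| ≤ B.d n ^ y).image fun l =>
    dirL (B.d n ^ (x - ε₀)) (T n l) (E n l)).card : ℝ) ≤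
    B.d n ^ (-(ν (vec {5} y) - ν (vec fDir x)) - C * ε₀)

end counting

end Crest.Agent.R136.Wk323
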