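import Mathlib
import Crest.Agent.R136.Rk3D_601

-- ▼ part R136/Sa1_705
section

/-!
# R136 (one-level crude tilt), helper705: rows

`Sys f J`: functions `f 0, f 1, ..` on the interval `J` with `f k' = f (k+1) / θ`, `θ ∈ [1/2, 2]`, and
`|f 5| ≤ 25 |f 3| + 100 |f 1|`.  `gron`: the values at one point control the values at all points;
`pts`: sixteen separated points with small `f 0` in a short interval bound everything.
-/

set_option autoImplicit false
set_option linter.unusedVariables false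

namespace Crest.Agent.R136.Sa705

open Set

/-- a chain of derivatives with a closing relation -/
structure Sys (f : ℕ → ℝ → ℝ) (J : Set ℝ) : Prop where
  der : ∀ k, k ≤ 4 → ∀ t ∈ J, ∃ θ : ℝ, 1 / 2 ≤ θ ∧ θ ≤ 2 ∧ HasDerivWithinAt (f k) (f (k + 1) t / θ) J t
  top : ∀ t ∈ J, |f 5 t| ≤ 25 * |f 3 t| + 100 * |f 1 t|

theorem Sys.mono {f : ℕ → ℝ → ℝ} {J J' : Set ℝ} (h : Sys f J) (hJ : J' ⊆ J) : Sys f J' where
  der := by
    intro k hk t ht
    obtain ⟨θ, h1, h2, h3⟩ := h.der k hk t (hJ ht)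
    exact ⟨θ, h1, h2, h3.mono hJ⟩
  top := fun t ht => h.top t (hJ ht)

/-- reflection -/
theorem Sys.neg {f : ℕ → ℝ → ℝ} {α β : ℝ} (h : Sys f (Icc α β)) :
    Sys (fun k t => (-1) ^ k * f k (-t)) (Icc (-β) (-α)) where
  der := by
    intro k hk t ht
    have ht' : -t ∈ Icc α β := ⟨by linarith [ht.2], by linarith [ht.1]⟩
    obtain ⟨θ, h1, h2, h3⟩ := h.der k hk (-t) ht'
    refine ⟨θ, h1, h2, ?_⟩
    have hn : HasDerivWithinAt (fun s : ℝ => -s) (-1) (Icc (-β) (-α)) t :=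
      (hasDerivAt_id t).neg.hasDerivWithinAt
    have h4 := h3.comp t hn (fun s hs => (⟨by linarith [hs.2], by linarith [hs.1]⟩ : -s ∈ Icc α β))
    have h5 := h4.const_mul ((-1 : ℝ) ^ k)
    refine h5.congr_deriv ?_
    simp only [pow_succ]
    ring
  top := by
    intro t ht
    have ht' : -t ∈ Icc α β := ⟨by linarith [ht.2], by linarith [ht.1]⟩
    have := h.top (-t) ht'
    simp only [abs_mul, abs_pow, abs_neg, abs_one, one_pow, one_mul]
    exact this

/-- size of the derivatives -/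
theorem Sys.next {f : ℕ → ℝ → ℝ} {J : Set ℝ} (h : Sys f J) {t B : ℝ} (ht : t ∈ J)
    (hB : ∀ k, k ≤ 4 → |f k t| ≤ B) {k : ℕ} (hk : k ≤ 4) : |f (k + 1) t| ≤ 125 * B := by
  have hB0 : 0 ≤ B := (abs_nonneg _).trans (hB 0 (by norm_num))
  rcases Nat.lt_or_ge k 4 with h4 | h4
  · have := hB (k + 1) h4
    linarith
  · have e : k = 4 := le_antisymm hk h4
    subst e
    have h1 := h.top t ht
    have h2 := hB 3 (by norm_num)
    have h3 := hB 1 (by norm_num)
    have e5 : (4 + 1 : ℕ) = 5 := rfl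
    rw [e5]
    linarith

theorem gron_right {f : ℕ → ℝ → ℝ} {α β B : ℝ} (h : Sys f (Icc α β)) {s t : ℝ}
    (hs : s ∈ Icc α β) (ht : t ∈ Icc α β) (hst : s ≤ t) (hB : ∀ k, k ≤ 4 → |f k s| ≤ B) :
    ∀ k, k ≤ 4 → |f k t| ≤ Real.exp (250 * (t - s)) * B := by
  have hB0 : 0 ≤ B := (abs_nonneg _).trans (hB 0 (by norm_num))
  have hsub : Icc s β ⊆ Icc α β := Icc_subset_Icc_left hs.1
  have h' := h.mono hsub
  choose! θ hθ1 hθ2 hθ3 using h'.der
  set u : ℝ → Fin 5 → ℝ := fun x k => f k x with hu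
  set u' : ℝ → Fin 5 → ℝ := fun x k => f (k + 1) x / θ k x with hu'
  have hder : ∀ x ∈ Icc s β, HasDerivWithinAt u (u' x) (Icc s β) x := by
    intro x hx
    rw [hasDerivWithinAt_pi]
    intro k
    exact hθ3 k (by omega) x hx
  have key := norm_le_gronwallBound_of_norm_deriv_right_le (f := u) (f' := u') (δ := B) (K := 250)
    (ε := 0) (a := s) (b := β) (fun x hx => (hder x hx).continuousWithinAt)
    (fun x hx => by
      have hx' : x ∈ Icc s β := Ico_subset_Icc_self hx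
      refine (hder x hx').mono_of_mem_nhdsWithin ?_
      rw [mem_nhdsWithin]
      exact ⟨Iio β, isOpen_Iio, hx.2, fun y hy => ⟨hx.1.trans hy.2, (mem_Iio.1 hy.1).le⟩⟩)
    ((pi_norm_le_iff_of_nonneg hB0).2 fun k => by
      rw [Real.norm_eq_abs]; exact hB k (by omega))
    (fun x hx => by
      have hx' : x ∈ Icc s β := Ico_subset_Icc_self hx
      rw [add_zero]
      refine (pi_norm_le_iff_of_nonneg (by positivity)).2 fun k => ?_
      have hn : ∀ j, j ≤ 4 → |f j x| ≤ ‖u x‖ := by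
        intro j hj
        have := norm_le_pi_norm (u x) (⟨j, by omega⟩ : Fin 5)
        rw [Real.norm_eq_abs] at this
        exact this
      have h1 := h'.next hx' hn (k := k) (by omega)
      have h2 := hθ1 k (by omega) x hx'
      rw [Real.norm_eq_abs]
      change |f (k + 1) x / θ k x| ≤ _
      rw [abs_div, abs_of_pos (by linarith : 0 < θ k x), div_le_iff₀ (by linarith)]
      have h3 : 0 ≤ ‖u x‖ := norm_nonneg _
      nlinarith)
  intro k hk
  have h1 := key t ⟨hst, ht.2⟩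
  rw [gronwallBound_ε0] at h1
  have h2 := norm_le_pi_norm (u t) (⟨k, by omega⟩ : Fin 5)
  rw [Real.norm_eq_abs] at h2
  have h3 : |f k t| ≤ ‖u t‖ := h2
  rw [mul_comm] at h1
  exact h3.trans h1

/-- **the values at one point control the values at all points** -/
theorem gron {f : ℕ → ℝ → ℝ} {α β B : ℝ} (h : Sys f (Icc α β)) {s t : ℝ} (hs : s ∈ Icc α β)
    (ht : t ∈ Icc α β) (hB : ∀ k, k ≤ 4 → |f k s| ≤ B) :
    ∀ k, k ≤ 4 → |f k t| ≤ Real.exp (250 * |t - s|) * B := by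
  rcases le_total s t with hst | hst
  · rw [abs_of_nonneg (by linarith)]; exact gron_right h hs ht hst hB
  · rw [abs_of_nonpos (by linarith)]
    have hs' : -s ∈ Icc (-β) (-α) := ⟨by linarith [hs.2], by linarith [hs.1]⟩
    have ht' : -t ∈ Icc (-β) (-α) := ⟨by linarith [ht.2], by linarith [ht.1]⟩
    have := gron_right h.neg hs' ht' (by linarith) (B := B) (fun k hk => by
      simp only [abs_mul, abs_pow, abs_neg, abs_one, one_pow, one_mul, neg_neg]
      exact hB k hk)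
    intro k hk
    have h1 := this k hk
    simp only [abs_mul, abs_pow, abs_neg, abs_one, one_pow, one_mul, neg_neg] at h1
    have e : -(t - s) = -t - -s := by ring
    rw [e]; exact h1

/-- one step of the mean value theorem on separated points -/
theorem rolle {f : ℕ → ℝ → ℝ} {α β : ℝ} (h : Sys f (Icc α β)) {k m : ℕ} (hk : k ≤ 4) {δ μ : ℝ}
    (hδ : 0 < δ) {t : ℕ → ℝ} (ht : ∀ i < 2 * m, t i ∈ Icc α β)
    (hsep : ∀ i, i + 1 < 2 * m → t i + δ ≤ t (i + 1)) (hf : ∀ i < 2 * m, |f k (t i)| ≤ μ) :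
    ∃ s : ℕ → ℝ, (∀ i < m, s i ∈ Icc α β) ∧ (∀ i, i + 1 < m → s i + δ ≤ s (i + 1)) ∧
      ∀ i < m, |f (k + 1) (s i)| ≤ 4 * μ / δ := by
  have key : ∀ i, i < m → ∃ s : ℝ, t (2 * i) ≤ s ∧ s ≤ t (2 * i + 1) ∧ |f (k + 1) s| ≤ 4 * μ / δ := by
    intro i hi
    have h1 := hsep (2 * i) (by omega)
    have a1 := ht (2 * i) (by omega)
    have a2 := ht (2 * i + 1) (by omega)
    have hlt : t (2 * i) < t (2 * i + 1) := by linarith
    have hsub : Icc (t (2 * i)) (t (2 * i + 1)) ⊆ Icc α β := Icc_subset_Icc a1.1 a2.2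
    choose! θ hθ1 hθ2 hθ3 using h.der
    have hcont : ContinuousOn (f k) (Icc (t (2 * i)) (t (2 * i + 1))) := fun x hx =>
      ((hθ3 k hk x (hsub hx)).continuousWithinAt).mono hsub
    obtain ⟨s, hs, hs'⟩ := exists_hasDerivAt_eq_slope (f k) (fun x => f (k + 1) x / θ k x) hlt
      hcont (fun x hx => (hθ3 k hk x (hsub (Ioo_subset_Icc_self hx))).hasDerivAt
        (Icc_mem_nhds (lt_of_le_of_lt a1.1 hx.1) (lt_of_lt_of_le hx.2 a2.2)))
    have hsI : s ∈ Icc α β := hsub (Ioo_subset_Icc_self hs)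
    refine ⟨s, hs.1.le, hs.2.le, ?_⟩
    have b1 := hf (2 * i) (by omega)
    have b2 := hf (2 * i + 1) (by omega)
    have hθp : 0 < θ k s := by linarith [hθ1 k hk s hsI]
    have hd : 0 < t (2 * i + 1) - t (2 * i) := by linarith
    have h2 : |f (k + 1) s / θ k s| * (t (2 * i + 1) - t (2 * i)) ≤ 2 * μ := by
      rw [hs', abs_div, abs_of_pos hd, div_mul_cancel₀ _ hd.ne']
      exact (abs_sub _ _).trans (by linarith)
    have h3 : |f (k + 1) s / θ k s| * δ ≤ 2 * μ :=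
      (mul_le_mul_of_nonneg_left (by linarith) (abs_nonneg _)).trans h2
    rw [abs_div, abs_of_pos hθp, div_mul_eq_mul_div, div_le_iff₀ hθp] at h3
    rw [le_div_iff₀ hδ]
    have h4 : 0 ≤ μ := (abs_nonneg _).trans b1
    have h5 := hθ2 k hk s hsI
    nlinarith
  choose! s hs using key
  refine ⟨s, fun i hi => ?_, fun i hi => ?_, fun i hi => (hs i hi).2.2⟩
  · obtain ⟨h1, h2, -⟩ := hs i hi
    exact ⟨(ht (2 * i) (by omega)).1.trans h1, h2.trans (ht (2 * i + 1) (by omega)).2⟩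
  · have h1 := (hs i (by omega)).2.1
    have h2 := (hs (i + 1) hi).1
    have h3 := hsep (2 * i + 1) (by omega)
    have e : 2 * (i + 1) = 2 * i + 1 + 1 := by ring
    rw [e] at h2
    linarith

/-- **sixteen points** -/
theorem pts {f : ℕ → ℝ → ℝ} {α β : ℝ} (h : Sys f (Icc α β)) (hL : β - α ≤ 1 / 2000) {δ lam : ℝ}
    (hδ : 0 < δ) (hδ1 : δ ≤ 1) {t : ℕ → ℝ} (ht : ∀ i < 16, t i ∈ Icc α β)
    (hsep : ∀ i, i + 1 < 16 → t i + δ ≤ t (i + 1)) (hf : ∀ i < 16, |f 0 (t i)| ≤ lam) {x : ℝ}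
    (hx : x ∈ Icc α β) : ∀ k, k ≤ 4 → |f k x| ≤ 512 * lam / δ ^ 4 := by
  have hl0 : 0 ≤ lam := (abs_nonneg _).trans (hf 0 (by norm_num))
  obtain ⟨t1, a1, b1, c1⟩ := rolle h (k := 0) (m := 8) (by norm_num) hδ ht hsep hf
  obtain ⟨t2, a2, b2, c2⟩ := rolle h (k := 1) (m := 4) (by norm_num) hδ a1 b1 c1
  obtain ⟨t3, a3, b3, c3⟩ := rolle h (k := 2) (m := 2) (by norm_num) hδ a2 b2 c2
  obtain ⟨t4, a4, b4, c4⟩ := rolle h (k := 3) (m := 1) (by norm_num) hδ a3 b3 c3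
  have hδ4 : 0 < δ ^ 4 := by positivity
  have hex : ∀ k, k ≤ 4 → ∃ s ∈ Icc α β, |f k s| ≤ 256 * lam / δ ^ 4 := by
    have p1 : δ ^ 4 ≤ 1 := pow_le_one₀ hδ.le hδ1
    have p2 : δ ^ 3 ≤ 1 := pow_le_one₀ hδ.le hδ1
    have p3 : δ ^ 2 ≤ 1 := pow_le_one₀ hδ.le hδ1
    intro k hk
    interval_cases k
    · refine ⟨t 0, ht 0 (by norm_num), (hf 0 (by norm_num)).trans ?_⟩
      rw [le_div_iff₀ hδ4]; nlinarith
    · refine ⟨t1 0, a1 0 (by norm_num), (c1 0 (by norm_num)).trans ?_⟩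
      rw [div_le_div_iff₀ hδ hδ4]
      have : 4 * lam * δ ^ 4 = (4 * lam * δ) * δ ^ 3 := by ring
      rw [this]
      have : (4 * lam * δ) * δ ^ 3 ≤ (4 * lam * δ) * 1 := by gcongr
      nlinarith [mul_nonneg hl0 hδ.le]
    · refine ⟨t2 0, a2 0 (by norm_num), (c2 0 (by norm_num)).trans ?_⟩
      have e : 4 * (4 * lam / δ) / δ = 16 * lam / δ ^ 2 := by field_simp; ring
      rw [e, div_le_div_iff₀ (by positivity) hδ4]
      have : 16 * lam * δ ^ 4 = (16 * lam * δ ^ 2) * δ ^ 2 := by ring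
      rw [this]
      have h0 : 0 ≤ 16 * lam * δ ^ 2 := by positivity
      have : (16 * lam * δ ^ 2) * δ ^ 2 ≤ (16 * lam * δ ^ 2) * 1 := by gcongr
      nlinarith
    · refine ⟨t3 0, a3 0 (by norm_num), (c3 0 (by norm_num)).trans ?_⟩
      have e : 4 * (4 * (4 * lam / δ) / δ) / δ = 64 * lam / δ ^ 3 := by field_simp; ring
      rw [e, div_le_div_iff₀ (by positivity) hδ4]
      have : 64 * lam * δ ^ 4 = (64 * lam * δ ^ 3) * δ := by ring
      rw [this]
      have h0 : 0 ≤ 64 * lam * δ ^ 3 := by positivity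
      have : (64 * lam * δ ^ 3) * δ ≤ (64 * lam * δ ^ 3) * 1 := by gcongr
      nlinarith
    · refine ⟨t4 0, a4 0 (by norm_num), (c4 0 (by norm_num)).trans ?_⟩
      have e : 4 * (4 * (4 * (4 * lam / δ) / δ) / δ) / δ = 256 * lam / δ ^ 4 := by field_simp; ring
      rw [e]
  -- the largest value at `x`
  obtain ⟨k0, hk0, hmax⟩ := Finset.exists_max_image (Finset.range 5) (fun k => |f k x|)
    ⟨0, by simp⟩
  set B0 := |f k0 x| with hB0
  have hB : ∀ k, k ≤ 4 → |f k x| ≤ B0 := fun k hk => hmax k (Finset.mem_range.2 (by omega))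
  have hk04 : k0 ≤ 4 := by have := Finset.mem_range.1 hk0; omega
  have hB00 : 0 ≤ B0 := abs_nonneg _
  have hexp : ∀ y ∈ Icc α β, ∀ k, k ≤ 4 → |f k y| ≤ 2 * B0 := by
    intro y hy k hk
    have h1 := gron h hx hy hB k hk
    refine h1.trans (mul_le_mul_of_nonneg_right ?_ hB00)
    have h2 : |y - x| ≤ 1 / 2000 := by
      rw [abs_le]; constructor <;> linarith [hy.1, hy.2, hx.1, hx.2]
    have h3 : 250 * |y - x| ≤ 1 / 8 := by linarith
    have h4 : Real.exp (250 * |y - x|) ≤ Real.exp (1 / 8) := Real.exp_le_exp.2 h3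
    have h5 : Real.exp (1 / 8) ≤ 2 := by
      have : Real.exp (1 / 8) ≤ 1 / (1 - 1 / 8) := Real.exp_bound_div_one_sub_of_interval' (by norm_num) (by norm_num) |>.le
      refine this.trans (by norm_num)
    exact h4.trans h5
  obtain ⟨s, hs, hs'⟩ := hex k0 hk04
  have hlip : |f k0 x - f k0 s| ≤ 500 * B0 * |x - s| := by
    choose! θ hθ1 hθ2 hθ3 using h.der
    have := (convex_Icc α β).norm_image_sub_le_of_norm_hasDerivWithin_le (f := f k0)
      (f' := fun y => f (k0 + 1) y / θ k0 y) (C := 500 * B0) (fun y hy => hθ3 k0 hk04 y hy)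
      (fun y hy => by
        have h1 := h.next hy (hexp y hy) hk04
        have h2 := hθ1 k0 hk04 y hy
        rw [Real.norm_eq_abs, abs_div, abs_of_pos (by linarith : 0 < θ k0 y),
          div_le_iff₀ (by linarith)]
        nlinarith) hs hx
    rwa [Real.norm_eq_abs, Real.norm_eq_abs] at this
  have h2 : |x - s| ≤ 1 / 2000 := by
    rw [abs_le]; constructor <;> linarith [hs.1, hs.2, hx.1, hx.2]
  have h3 : |f k0 x - f k0 s| ≤ B0 / 4 := by
    refine hlip.trans ?_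
    have := mul_le_mul_of_nonneg_left h2 (by positivity : 0 ≤ 500 * B0)
    linarith
  have h4 : B0 ≤ B0 / 4 + 256 * lam / δ ^ 4 := by
    have : |f k0 x| ≤ |f k0 x - f k0 s| + |f k0 s| := by
      have := abs_add_le (f k0 x - f k0 s) (f k0 s)
      rwa [sub_add_cancel] at this
    linarith
  intro k hk
  refine (hB k hk).trans ?_
  have e : 512 * lam / δ ^ 4 = 2 * (256 * lam / δ ^ 4) := by ring
  have h5 : 0 ≤ 256 * lam / δ ^ 4 := by positivity
  rw [e]
  linarith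

/-- an algebra of functions on a square with two derivations, rows and columns are chains -/
structure Alg {V : Type} (ev : V → ℝ → ℝ → ℝ) (D1 D2 : V → V) (I : Set ℝ) : Prop where
  row : ∀ (p : V) (x2 : ℝ), x2 ∈ I → Sys (fun k t => ev (D1^[k] p) t x2) I
  col : ∀ (p : V) (x1 : ℝ), x1 ∈ I → Sys (fun k t => ev (D2^[k] p) x1 t) I

end Crest.Agent.R136.Sa705
end

-- ▼ part R136/Row1_214
section

/-!
# R136 (S0187), Step A (705): one slice of the graph of a quadratic function (helper214)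

`Q2` = quadratic functions in `(y, t)`; `Q2.D F` = Hamiltonian derivation of `F`, which satisfies
`D⁵ = 5 ν D³ - 4 ν² D`; along a graph `y = φ t` inside a level set of `F` all functions
`(D^k p)(φ t, t)` form a chain `Sys`.
-/

set_option autoImplicit false

namespace Crest.Agent.R136.Row214

open Set Filter Topology
open Crest.Agent.R136.Sa705 (Sys Alg)

/-- quadratic functions in `(y, t)` -/
@[ext] structure Q2 where
  k : ℝ
  h : ℝ
  g : ℝ
  e : ℝ
  f : ℝ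
  c : ℝ

namespace Q2

/-- value -/
def ev (p : Q2) (y t : ℝ) : ℝ := p.k * y ^ 2 + p.h * (y * t) + p.g * t ^ 2 + p.e * y + p.f * t + p.c

/-- derivative in `y` -/
def dy (p : Q2) (y t : ℝ) : ℝ := 2 * p.k * y + p.h * t + p.e

/-- derivative in `t` -/
def dt (p : Q2) (y t : ℝ) : ℝ := p.h * y + 2 * p.g * t + p.f

/-- Hamiltonian derivation -/
def D (F p : Q2) : Q2 where
  k := 2 * F.k * p.h - 2 * F.h * p.k
  h := 4 * F.k * p.g - 4 * F.g * p.k
  g := 2 * F.h * p.g - 2 * F.g * p.h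
  e := 2 * F.k * p.f + F.e * p.h - F.h * p.e - 2 * F.f * p.k
  f := F.h * p.f + 2 * F.e * p.g - 2 * F.g * p.e - F.f * p.h
  c := F.e * p.f - F.f * p.e

theorem D_ev (F p : Q2) (y t : ℝ) :
    (D F p).ev y t = F.dy y t * p.dt y t - F.dt y t * p.dy y t := by
  simp only [ev, D, dy, dt]; ring

/-- discriminant -/
def nu (F : Q2) : ℝ := F.h ^ 2 - 4 * F.k * F.g

/-- linear combination -/
def comb (a b : ℝ) (p q : Q2) : Q2 where
  k := a * p.k + b * q.k
  h := a * p.h + b * q.h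
  g := a * p.g + b * q.g
  e := a * p.e + b * q.e
  f := a * p.f + b * q.f
  c := a * p.c + b * q.c

theorem D_five (F p : Q2) : D F (D F (D F (D F (D F p)))) =
    comb (5 * F.nu) (-(4 * F.nu ^ 2)) (D F (D F (D F p))) (D F p) := by
  ext <;> simp only [D, comb, nu] <;> ring

theorem top (F p : Q2) {B y t : ℝ} (hν : |F.nu| ≤ B) :
    |(D F (D F (D F (D F (D F p))))).ev y t| ≤
      5 * B * |(D F (D F (D F p))).ev y t| + 4 * B ^ 2 * |(D F p).ev y t| := by
  rw [D_five]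
  have e : (comb (5 * F.nu) (-(4 * F.nu ^ 2)) (D F (D F (D F p))) (D F p)).ev y t =
      5 * F.nu * (D F (D F (D F p))).ev y t - 4 * F.nu ^ 2 * (D F p).ev y t := by
    generalize D F (D F (D F p)) = q1
    generalize D F p = q2
    simp only [comb, ev]; ring
  rw [e]
  refine (abs_sub _ _).trans ?_
  have hB : 0 ≤ B := (abs_nonneg _).trans hν
  have h1 : |5 * F.nu * (D F (D F (D F p))).ev y t| ≤ 5 * B * |(D F (D F (D F p))).ev y t| := by
    rw [abs_mul]
    refine mul_le_mul_of_nonneg_right ?_ (abs_nonneg _)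
    rw [abs_mul, abs_of_pos (by norm_num : (0 : ℝ) < 5)]
    linarith
  have h2 : |4 * F.nu ^ 2 * (D F p).ev y t| ≤ 4 * B ^ 2 * |(D F p).ev y t| := by
    rw [abs_mul]
    refine mul_le_mul_of_nonneg_right ?_ (abs_nonneg _)
    rw [abs_mul, abs_of_pos (by norm_num : (0 : ℝ) < 4), abs_pow]
    have := pow_le_pow_left₀ (abs_nonneg _) hν 2
    linarith
  exact add_le_add h1 h2

end Q2

/-- the graph data of a slice -/
structure Gr (F : Q2) (s : ℝ) (φ : ℝ → ℝ) (J : Set ℝ) : Prop where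
  small : ∀ t ∈ J, |φ t| ≤ 1 / 4
  eq : ∀ t ∈ J, F.ev (φ t) t = s
  st : ∀ t ∈ J, ∀ y, |y| ≤ 1 / 2 → 1 / 2 ≤ F.dy y t ∧ F.dy y t ≤ 2

variable {F : Q2} {s : ℝ} {φ : ℝ → ℝ} {J : Set ℝ}

/-- difference quotient of the graph -/
theorem Gr.quot (H : Gr F s φ J) {t t' : ℝ} (ht : t ∈ J) (ht' : t' ∈ J) :
    φ t' = φ t + (t' - t) *
      (-(F.h * φ t + F.g * (t' + t) + F.f) / F.dy ((φ t' + φ t) / 2) t') := by
  have h1 := H.eq t ht
  have h2 := H.eq t' ht'
  have h3 : |(φ t' + φ t) / 2| ≤ 1 / 2 := by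
    have a := abs_le.1 (H.small t ht)
    have b := abs_le.1 (H.small t' ht')
    rw [abs_le]; constructor <;> linarith [a.1, a.2, b.1, b.2]
  have h4 : 0 < F.dy ((φ t' + φ t) / 2) t' := by linarith [(H.st t' ht' _ h3).1]
  have h5 : (φ t' - φ t) * F.dy ((φ t' + φ t) / 2) t' +
      (t' - t) * (F.h * φ t + F.g * (t' + t) + F.f) = 0 := by
    have : (φ t' - φ t) * F.dy ((φ t' + φ t) / 2) t' +
      (t' - t) * (F.h * φ t + F.g * (t' + t) + F.f) = F.ev (φ t') t' - F.ev (φ t) t := by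
      simp only [Q2.ev, Q2.dy]; ring
    rw [this, h1, h2, sub_self]
  have h6 : (φ t' - φ t) = -((t' - t) * (F.h * φ t + F.g * (t' + t) + F.f)) /
      F.dy ((φ t' + φ t) / 2) t' := by
    rw [eq_div_iff h4.ne']; linarith
  have h7 : -((t' - t) * (F.h * φ t + F.g * (t' + t) + F.f)) / F.dy ((φ t' + φ t) / 2) t' =
      (t' - t) * (-(F.h * φ t + F.g * (t' + t) + F.f) / F.dy ((φ t' + φ t) / 2) t') := by ring
  rw [h7] at h6
  linarith

/-- the graph is continuous -/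
theorem Gr.cont (H : Gr F s φ J) {t : ℝ} (ht : t ∈ J) : ContinuousWithinAt φ J t := by
  rw [ContinuousWithinAt, tendsto_iff_norm_sub_tendsto_zero]
  have hlim : Tendsto (fun t' : ℝ => 2 * |t' - t| * |F.h * φ t + F.g * (t' + t) + F.f|) (𝓝[J] t)
      (𝓝 0) := by
    have hc : Continuous (fun t' : ℝ => 2 * |t' - t| * |F.h * φ t + F.g * (t' + t) + F.f|) := by
      fun_prop
    have h0 := hc.tendsto t
    simp only [sub_self, abs_zero, mul_zero, zero_mul] at h0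
    exact h0.mono_left nhdsWithin_le_nhds
  refine squeeze_zero' (Eventually.of_forall fun t' => norm_nonneg _) ?_ hlim
  filter_upwards [self_mem_nhdsWithin] with t' ht'
  have h1 := H.quot ht ht'
  have h3 : |(φ t' + φ t) / 2| ≤ 1 / 2 := by
    have a := abs_le.1 (H.small t ht)
    have b := abs_le.1 (H.small t' ht')
    rw [abs_le]; constructor <;> linarith [a.1, a.2, b.1, b.2]
  have h4 := (H.st t' ht' _ h3).1
  have h5 : φ t' - φ t = (t' - t) *
      (-(F.h * φ t + F.g * (t' + t) + F.f) / F.dy ((φ t' + φ t) / 2) t') := by linarith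
  rw [Real.norm_eq_abs, h5, abs_mul, abs_div, abs_neg,
    abs_of_pos (by linarith : 0 < F.dy ((φ t' + φ t) / 2) t')]
  have h6 : |F.h * φ t + F.g * (t' + t) + F.f| / F.dy ((φ t' + φ t) / 2) t' ≤
      2 * |F.h * φ t + F.g * (t' + t) + F.f| := by
    rw [div_le_iff₀ (by linarith)]
    nlinarith [abs_nonneg (F.h * φ t + F.g * (t' + t) + F.f)]
  calc |t' - t| * (|F.h * φ t + F.g * (t' + t) + F.f| / F.dy ((φ t' + φ t) / 2) t') ≤
      |t' - t| * (2 * |F.h * φ t + F.g * (t' + t) + F.f|) :=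
        mul_le_mul_of_nonneg_left h6 (abs_nonneg _)
    _ = _ := by ring

/-- derivative of the graph -/
theorem Gr.deriv (H : Gr F s φ J) {t : ℝ} (ht : t ∈ J) :
    HasDerivWithinAt φ (-F.dt (φ t) t / F.dy (φ t) t) J t := by
  rw [hasDerivWithinAt_iff_tendsto_slope]
  have hφ := H.cont ht
  have hdy : 0 < F.dy (φ t) t := by
    have := (H.st t ht (φ t) ((H.small t ht).trans (by norm_num))).1
    linarith
  have hw : ContinuousWithinAt (fun t' => -(F.h * φ t + F.g * (t' + t) + F.f) /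
      F.dy ((φ t' + φ t) / 2) t') J t := by
    apply ContinuousWithinAt.div
    · exact (by fun_prop : Continuous fun t' : ℝ => -(F.h * φ t + F.g * (t' + t) + F.f))
        |>.continuousWithinAt
    · unfold Q2.dy
      have h1 : ContinuousWithinAt (fun t' => (φ t' + φ t) / 2) J t := by
        exact (hφ.add continuousWithinAt_const).div_const 2
      exact (((continuousWithinAt_const).mul h1).add
        ((continuousWithinAt_const).mul continuousWithinAt_id)).add continuousWithinAt_const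
    · have : (φ t + φ t) / 2 = φ t := by ring
      rw [this]; exact hdy.ne'
  have hlim : Tendsto (fun t' => -(F.h * φ t + F.g * (t' + t) + F.f) /
      F.dy ((φ t' + φ t) / 2) t') (𝓝[J \ {t}] t) (𝓝 (-F.dt (φ t) t / F.dy (φ t) t)) := by
    have h1 := hw.tendsto
    have e1 : (φ t + φ t) / 2 = φ t := by ring
    have e2 : F.h * φ t + F.g * (t + t) + F.f = F.dt (φ t) t := by simp only [Q2.dt]; ring
    rw [e1, e2] at h1
    exact h1.mono_left (nhdsWithin_mono _ sdiff_subset)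
  refine hlim.congr' ?_
  filter_upwards [self_mem_nhdsWithin] with t' ht'
  have hne : t' - t ≠ 0 := sub_ne_zero.2 ht'.2
  have h5 := H.quot ht ht'.1
  rw [slope_def_field, eq_div_iff hne]
  linarith

/-- derivative of a quadratic function along the graph -/
theorem Gr.deriv_ev (H : Gr F s φ J) (p : Q2) {t : ℝ} (ht : t ∈ J) :
    HasDerivWithinAt (fun t => p.ev (φ t) t) ((Q2.D F p).ev (φ t) t / F.dy (φ t) t) J t := by
  have hφ := H.deriv ht
  have hdy : 0 < F.dy (φ t) t := by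
    have := (H.st t ht (φ t) ((H.small t ht).trans (by norm_num))).1
    linarith
  have hid : HasDerivWithinAt (fun t : ℝ => t) 1 J t := hasDerivWithinAt_id t J
  have h1 := (((((hφ.pow 2).const_mul p.k).add ((hφ.mul hid).const_mul p.h)).add
    ((hid.pow 2).const_mul p.g)).add (hφ.const_mul p.e)).add (hid.const_mul p.f)
  have h2 := h1.add_const p.c
  have h3 : HasDerivWithinAt (fun t => p.ev (φ t) t)
      (p.dy (φ t) t * (-F.dt (φ t) t / F.dy (φ t) t) + p.dt (φ t) t) J t := by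
    refine (h2.congr_deriv ?_).congr (fun x _ => ?_) ?_
    · simp only [Q2.dy, Q2.dt]; push_cast; ring
    · simp only [Q2.ev, Pi.add_apply, Pi.mul_apply, Pi.pow_apply]
    · simp only [Q2.ev, Pi.add_apply, Pi.mul_apply, Pi.pow_apply]
  refine h3.congr_deriv ?_
  rw [Q2.D_ev]
  field_simp
  ring

/-- **the chain of a slice** -/
theorem Gr.sys (H : Gr F s φ J) (hν : |F.nu| ≤ 5) (p : Q2) :
    Sys (fun k t => ((Q2.D F)^[k] p).ev (φ t) t) J where
  der := by
    intro k _ t ht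
    obtain ⟨h1, h2⟩ := H.st t ht (φ t) ((H.small t ht).trans (by norm_num))
    refine ⟨F.dy (φ t) t, h1, h2, ?_⟩
    have := H.deriv_ev ((Q2.D F)^[k] p) ht
    rw [Function.iterate_succ_apply']
    exact this
  top := by
    intro t _
    have := Q2.top F p (y := φ t) (t := t) hν
    simp only [Function.iterate_succ, Function.comp_apply, Function.iterate_zero, id_eq]
    refine this.trans (le_of_eq ?_)
    norm_num

end Crest.Agent.R136.Row214
end

-- ▼ part R136/Adj1_214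
section

/-!
# R136 (S0187), U4 (AL): division by a quadratic sheet along one slice (helper214)

`cau`: a quadratic function `p` which is small on the graph `F = 0` of a steep quadratic function of
two variables has a small chain `(D_F^k p)(0, 0)`, `k ≤ 4`.  `alg`: consequences for the
coefficients.
-/

set_option autoImplicit false

namespace Crest.Agent.R136.Adj214

open Set
open Crest.Agent.R136.Row214 (Q2 Gr)
open Crest.Agent.R136.Row214

theorem graph {F : Q2} {J : Set ℝ} (hst : ∀ t ∈ J, ∀ y, |y| ≤ 1 / 2 → 1 / 2 ≤ F.dy y t ∧ F.dy y t ≤ 2)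
    (h8 : ∀ t ∈ J, |F.ev 0 t| ≤ 1 / 8) : ∃ φ : ℝ → ℝ, Gr F 0 φ J := by
  have key : ∀ t ∈ J, ∃ y : ℝ, |y| ≤ 1 / 4 ∧ F.ev y t = 0 := by
    intro t ht
    have h1 := abs_le.1 (h8 t ht)
    have a1 : F.ev (1 / 4) t = F.ev 0 t + 1 / 4 * F.dy (1 / 8) t := by
      simp only [Q2.ev, Q2.dy]; ring
    have a2 : F.ev (-1 / 4) t = F.ev 0 t - 1 / 4 * F.dy (-1 / 8) t := by
      simp only [Q2.ev, Q2.dy]; ring
    have s1 := hst t ht (1 / 8) (by rw [abs_of_pos] <;> norm_num)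
    have s2 := hst t ht (-1 / 8) (by rw [abs_of_neg] <;> norm_num)
    have p1 : 0 ≤ F.ev (1 / 4) t := by rw [a1]; linarith [h1.1, s1.1]
    have p2 : F.ev (-1 / 4) t ≤ 0 := by rw [a2]; linarith [h1.2, s2.1]
    have hc : ContinuousOn (fun y => F.ev y t) (Icc (-1 / 4) (1 / 4)) := by
      apply Continuous.continuousOn
      unfold Q2.ev
      fun_prop
    have := intermediate_value_Icc (by norm_num : (-1 / 4 : ℝ) ≤ 1 / 4) hc ⟨p2, p1⟩
    obtain ⟨y, hy, hy'⟩ := this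
    exact ⟨y, abs_le.2 ⟨by linarith [hy.1], by linarith [hy.2]⟩, hy'⟩
  choose! φ h1 h2 using key
  exact ⟨φ, ⟨h1, h2, hst⟩⟩

/-- **the chain at the base point** -/
theorem cau {F p : Q2} {lam : ℝ} (hc : F.c = 0)
    (hst : ∀ t, 0 ≤ t → t ≤ 1 / 2000 → ∀ y, |y| ≤ 1 / 2 → 1 / 2 ≤ F.dy y t ∧ F.dy y t ≤ 2)
    (h8 : ∀ t, 0 ≤ t → t ≤ 1 / 2000 → |F.ev 0 t| ≤ 1 / 8) (hν : |F.nu| ≤ 5)
    (hp : ∀ t, 0 ≤ t → t ≤ 1 / 2000 → ∀ y, |y| ≤ 1 / 4 → F.ev y t = 0 → |p.ev y t| ≤ lam) :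
    ∀ k, k ≤ 4 → |((Q2.D F)^[k] p).ev 0 0| ≤ 512 * lam / (1 / 32000) ^ 4 := by
  obtain ⟨φ, H⟩ := graph (F := F) (J := Icc 0 (1 / 2000)) (fun t ht => hst t ht.1 ht.2)
    (fun t ht => h8 t ht.1 ht.2)
  have h0m : (0 : ℝ) ∈ Icc (0 : ℝ) (1 / 2000) := ⟨le_rfl, by norm_num⟩
  have hφ0 : φ 0 = 0 := by
    have h1 := H.eq 0 h0m
    have h2 := H.small 0 h0m
    have h3 : φ 0 * F.dy (φ 0 / 2) 0 = 0 := by
      have : F.ev (φ 0) 0 = φ 0 * F.dy (φ 0 / 2) 0 + F.c := by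
        simp only [Q2.ev, Q2.dy]; ring
      rw [h1, hc] at this; linarith
    have h4 := (H.st 0 h0m (φ 0 / 2) (by
      rw [abs_div, abs_of_pos (by norm_num : (0 : ℝ) < 2)]; linarith)).1
    rcases mul_eq_zero.1 h3 with h | h
    · exact h
    · linarith
  have S := H.sys hν p
  have hpts := Sa705.pts S (by norm_num) (δ := 1 / 32000) (lam := lam) (by norm_num) (by norm_num)
    (t := fun i => (i : ℝ) / 32000) ?_ ?_ ?_ h0m
  · intro k hk
    have := hpts k hk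
    simp only [hφ0] at this
    exact this
  · intro i hi
    have : (i : ℝ) ≤ 15 := by exact_mod_cast Nat.lt_succ_iff.1 hi
    constructor
    · positivity
    · rw [div_le_div_iff₀ (by norm_num) (by norm_num)]; linarith
  · intro i _
    push_cast
    apply le_of_eq
    ring
  · intro i hi
    have hi' : (i : ℝ) ≤ 15 := by exact_mod_cast Nat.lt_succ_iff.1 hi
    have h1 : (0 : ℝ) ≤ (i : ℝ) / 32000 := by positivity
    have h2 : (i : ℝ) / 32000 ≤ 1 / 2000 := by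
      rw [div_le_div_iff₀ (by norm_num) (by norm_num)]; linarith
    simp only [Function.iterate_zero, id_eq]
    exact hp _ h1 h2 _ (H.small _ ⟨h1, h2⟩) (H.eq _ ⟨h1, h2⟩)

/-- `B` of `cau` -/
noncomputable def cB : ℝ := 512 * 32000 ^ 4

theorem cB_pos : 0 < cB := by unfold cB; positivity

theorem abs3 {x y z X Y Z : ℝ} (hx : |x| ≤ X) (hy : |y| ≤ Y) (hz : |z| ≤ Z) :
    |x * y * z| ≤ X * Y * Z := by
  rw [abs_mul, abs_mul]
  have hX : 0 ≤ X := (abs_nonneg _).trans hx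
  have hY : 0 ≤ Y := (abs_nonneg _).trans hy
  exact mul_le_mul (mul_le_mul hx hy (abs_nonneg _) hX) hz (abs_nonneg _) (mul_nonneg hX hY)

theorem abs2 {x y X Y : ℝ} (hx : |x| ≤ X) (hy : |y| ≤ Y) : |x * y| ≤ X * Y := by
  rw [abs_mul]
  exact mul_le_mul hx hy (abs_nonneg _) ((abs_nonneg _).trans hx)

theorem half_le {A x B : ℝ} (hA : 1 / 2 ≤ A) (hx : |A * x| ≤ B) : |x| ≤ 2 * B := by
  rw [abs_mul, abs_of_pos (by linarith)] at hx
  have := mul_le_mul_of_nonneg_right hA (abs_nonneg x)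
  linarith

/-- pure algebra of `alg` -/
theorem alg0 {K B A Fk Fh S f g h k f1 f2 f3 : ℝ} (hK : 1 ≤ K) (hB : 0 ≤ B)
    (hA : 1 / 2 ≤ A) (hA' : A ≤ 2) (hk : |Fk| ≤ K) (hh : |Fh| ≤ K) (hg : |S| ≤ K)
    (hf1 : f1 = Fh * f + 2 * A * g)
    (hf2 : f2 = Fh * f1 + 4 * A * Fh * g - 2 * Fk * S * f - 3 * A * (S * h))
    (hf3 : f3 = Fh * f2 + 8 * A * Fh ^ 2 * g - 3 * A * Fh * (S * h) - 12 * A * Fk * S * g +
      6 * A * (S ^ 2 * k) - 2 * Fk * S * f1 + 2 * Fk * Fh * S * f)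
    (k1 : |f| ≤ 2 * B) (k2 : |f1| ≤ 2 * B) (k3 : |f2| ≤ 2 * B) (k4 : |f3| ≤ 2 * B) :
    |g| ≤ 4 * K * B ∧ |S * h| ≤ 40 * K ^ 2 * B ∧ |S ^ 2 * k| ≤ 150 * K ^ 3 * B := by
  have hAa : |A| ≤ 2 := by rw [abs_le]; constructor <;> linarith
  have hK2 : K ≤ K ^ 2 := by nlinarith
  have hK3 : K ^ 2 ≤ K ^ 3 := by nlinarith [sq_nonneg K]
  have kb : B ≤ K * B := le_mul_of_one_le_left hB hK
  have kb2 : K * B ≤ K ^ 2 * B := mul_le_mul_of_nonneg_right hK2 hB
  have kb3 : K ^ 2 * B ≤ K ^ 3 * B := mul_le_mul_of_nonneg_right hK3 hB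
  have c2 : |(2 : ℝ)| ≤ 2 := by norm_num
  have k5 : |g| ≤ 4 * K * B := by
    have e1 : 2 * A * g = f1 - Fh * f := by rw [hf1]; ring
    have e2 := abs2 hh k1
    have e3 : |2 * A * g| ≤ 2 * B + K * (2 * B) := by
      rw [e1]; exact (abs_sub _ _).trans (add_le_add k2 e2)
    rw [abs_mul, abs_of_pos (by linarith : (0 : ℝ) < 2 * A)] at e3
    have e4 := mul_le_mul_of_nonneg_right (by linarith : 1 ≤ 2 * A) (abs_nonneg g)
    linarith
  have k6 : |S * h| ≤ 40 * K ^ 2 * B := by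
    have e1 : 3 * A * (S * h) = Fh * f1 + 4 * A * Fh * g - 2 * Fk * S * f - f2 := by
      rw [hf2]; ring
    have e2 := abs2 hh k2
    have e3 : |4 * A * Fh * g| ≤ 4 * 2 * K * (4 * K * B) :=
      abs2 (abs3 (by norm_num : |(4 : ℝ)| ≤ 4) hAa hh) k5
    have e4 : |2 * Fk * S * f| ≤ 2 * K * K * (2 * B) := abs2 (abs3 c2 hk hg) k1
    have e5 : |3 * A * (S * h)| ≤ K * (2 * B) + 4 * 2 * K * (4 * K * B) + 2 * K * K * (2 * B) +
        2 * B := by
      rw [e1]
      exact (abs_sub _ _).trans (add_le_add ((abs_sub _ _).trans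
        (add_le_add ((abs_add_le _ _).trans (add_le_add e2 e3)) e4)) k3)
    rw [abs_mul, abs_of_pos (by linarith : (0 : ℝ) < 3 * A)] at e5
    have e6 := mul_le_mul_of_nonneg_right (by linarith : 3 / 2 ≤ 3 * A) (abs_nonneg (S * h))
    have e7 : K * (2 * B) + 4 * 2 * K * (4 * K * B) + 2 * K * K * (2 * B) + 2 * B =
      2 * (K * B) + 36 * (K ^ 2 * B) + 2 * B := by ring
    rw [e7] at e5
    linarith
  have k7 : |S ^ 2 * k| ≤ 150 * K ^ 3 * B := by
    have e1 : 6 * A * (S ^ 2 * k) = f3 - Fh * f2 - 8 * A * Fh ^ 2 * g + 3 * A * Fh * (S * h) +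
      12 * A * Fk * S * g + 2 * Fk * S * f1 - 2 * Fk * Fh * S * f := by
      rw [hf3]; ring
    have e2 := abs2 hh k3
    have h2 : |Fh ^ 2| ≤ K ^ 2 := by
      rw [abs_pow]; exact pow_le_pow_left₀ (abs_nonneg _) hh 2
    have e3 : |8 * A * Fh ^ 2 * g| ≤ 8 * 2 * K ^ 2 * (4 * K * B) :=
      abs2 (abs3 (by norm_num : |(8 : ℝ)| ≤ 8) hAa h2) k5
    have e4 : |3 * A * Fh * (S * h)| ≤ 3 * 2 * K * (40 * K ^ 2 * B) :=
      abs2 (abs3 (by norm_num : |(3 : ℝ)| ≤ 3) hAa hh) k6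
    have e5 : |12 * A * Fk * S * g| ≤ 12 * 2 * K * K * (4 * K * B) :=
      abs2 (abs2 (abs3 (by norm_num : |(12 : ℝ)| ≤ 12) hAa hk) hg) k5
    have e6 : |2 * Fk * S * f1| ≤ 2 * K * K * (2 * B) := abs2 (abs3 c2 hk hg) k2
    have e7 : |2 * Fk * Fh * S * f| ≤ 2 * K * K * K * (2 * B) :=
      abs2 (abs2 (abs3 c2 hk hh) hg) k1
    have e8 : |6 * A * (S ^ 2 * k)| ≤ 2 * B + K * (2 * B) + 8 * 2 * K ^ 2 * (4 * K * B) +
        3 * 2 * K * (40 * K ^ 2 * B) + 12 * 2 * K * K * (4 * K * B) + 2 * K * K * (2 * B) +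
        2 * K * K * K * (2 * B) := by
      rw [e1]
      exact (abs_sub _ _).trans (add_le_add ((abs_add_le _ _).trans (add_le_add
        ((abs_add_le _ _).trans (add_le_add ((abs_add_le _ _).trans (add_le_add
        ((abs_sub _ _).trans (add_le_add ((abs_sub _ _).trans (add_le_add k4 e2)) e3)) e4)) e5))
        e6)) e7)
    rw [abs_mul, abs_of_pos (by linarith : (0 : ℝ) < 6 * A)] at e8
    have e9 := mul_le_mul_of_nonneg_right (by linarith : 3 ≤ 6 * A) (abs_nonneg (S ^ 2 * k))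
    have e10 : 2 * B + K * (2 * B) + 8 * 2 * K ^ 2 * (4 * K * B) +
        3 * 2 * K * (40 * K ^ 2 * B) + 12 * 2 * K * K * (4 * K * B) + 2 * K * K * (2 * B) +
        2 * K * K * K * (2 * B) = 2 * B + 2 * (K * B) + 4 * (K ^ 2 * B) + 404 * (K ^ 3 * B) := by
      ring
    rw [e10] at e8
    linarith
  exact ⟨k5, k6, k7⟩

/-- **the coefficients from the chain** -/
theorem alg {F d : Q2} {K B : ℝ} (hK : 1 ≤ K) (hf : F.f = 0) (he : d.e = 0)
    (hA : 1 / 2 ≤ F.e) (hA' : F.e ≤ 2) (hk : |F.k| ≤ K) (hh : |F.h| ≤ K) (hg : |2 * F.g| ≤ K)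
    (H : ∀ k, k ≤ 4 → |((Q2.D F)^[k] d).ev 0 0| ≤ B) :
    |d.c| ≤ B ∧ |d.f| ≤ 2 * B ∧ |d.g| ≤ 4 * K * B ∧ |2 * F.g * d.h| ≤ 40 * K ^ 2 * B ∧
      |(2 * F.g) ^ 2 * d.k| ≤ 150 * K ^ 3 * B := by
  obtain ⟨Fk, Fh, Fg, A, Ff, Fc⟩ := F
  obtain ⟨k, h, g, e, f, c⟩ := d
  simp only at hf he hA hA' hk hh hg ⊢
  subst hf he
  have h0 := H 0 (by norm_num)
  have h1 := H 1 (by norm_num)
  have h2 := H 2 (by norm_num)
  have h3 := H 3 (by norm_num)
  have h4 := H 4 (by norm_num)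
  simp only [Function.iterate_succ, Function.comp_apply, Function.iterate_zero, id_eq, Q2.D,
    Q2.ev] at h0 h1 h2 h3 h4
  have hB : 0 ≤ B := (abs_nonneg _).trans h0
  obtain ⟨S, hS⟩ : ∃ S, S = 2 * Fg := ⟨_, rfl⟩
  have eFg : Fg = S / 2 := by rw [hS]; ring
  obtain ⟨f1, hf1⟩ : ∃ f1, f1 = Fh * f + 2 * A * g := ⟨_, rfl⟩
  obtain ⟨f2, hf2⟩ : ∃ f2, f2 = Fh * f1 + 4 * A * Fh * g - 2 * Fk * S * f - 3 * A * (S * h) :=
    ⟨_, rfl⟩
  obtain ⟨f3, hf3⟩ : ∃ f3, f3 = Fh * f2 + 8 * A * Fh ^ 2 * g - 3 * A * Fh * (S * h) -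
    12 * A * Fk * S * g + 6 * A * (S ^ 2 * k) - 2 * Fk * S * f1 + 2 * Fk * Fh * S * f := ⟨_, rfl⟩
  have g1 : |A * f| ≤ B := by
    refine le_trans (le_of_eq ?_) h1
    congr 1; ring
  have g2 : |A * f1| ≤ B := by
    refine le_trans (le_of_eq ?_) h2
    congr 1; rw [hf1]; ring
  have g3 : |A * f2| ≤ B := by
    refine le_trans (le_of_eq ?_) h3
    congr 1; rw [hf2, hf1, hS]; ring
  have g4 : |A * f3| ≤ B := by
    refine le_trans (le_of_eq ?_) h4
    congr 1; rw [hf3, hf2, hf1, hS]; ring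
  rw [← hS] at hg ⊢
  have k1 := half_le hA g1
  obtain ⟨a, b, c'⟩ := alg0 hK hB hA hA' hk hh hg hf1 hf2 hf3 k1 (half_le hA g2) (half_le hA g3)
    (half_le hA g4)
  refine ⟨?_, k1, a, b, c'⟩
  refine le_trans (le_of_eq ?_) h0
  congr 1; ring

end Crest.Agent.R136.Adj214
end

-- ▼ part R136/Adj2_214
section

/-!
# R136 (S0187), U4 (AL): division by a sheet jet, algebra of jets (helper214)

`prod`: if `|qf H ω| |E·ω| ≤ N` for all small nonnegative `ω` and `H` has a large entry, then `E` is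
small.  `NJ c J`: normal form of a sheet in a chart.  `div_jet`: a quadratic function which is small
on the sheet is a multiple of the sheet function plus a small quadratic function.
-/

set_option autoImplicit false

namespace Crest.Agent.R136.Adj214

open Set
open Crest.Agent.R136.Row214 (Q2 Gr)
open Crest.Agent.R136.Rk601 (Jt dp qf lf sl)

/-- value of the polynomial of a jet -/
noncomputable def ev (J : Jt) (y : ℝ) (ξ : Fin 3 → ℝ) : ℝ :=
  J.a0 * y + dp J.a ξ + 1 / 2 * (J.h00 * y ^ 2 + 2 * y * dp J.h0 ξ + qf J.h ξ)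

/-- mixed second derivatives in the slice -/
def hs (P : Jt) (s : Fin 3 → ℝ) (i : Fin 3) : ℝ := P.h0 i + P.h00 * s i

/-- slice of the sheet function -/
noncomputable def sF (J : Jt) (ω : Fin 3 → ℝ) : Q2 :=
  ⟨1 / 2 * J.h00, dp (hs J (sl J)) ω, 1 / 2 * qf (lf J (sl J)) ω, J.a0, 0, 0⟩

/-- slice of another function without normal derivative -/
noncomputable def sD (s : Fin 3 → ℝ) (D : Jt) (c0 : ℝ) (ω : Fin 3 → ℝ) : Q2 :=
  ⟨1 / 2 * D.h00, dp (hs D s) ω, 1 / 2 * qf (lf D s) ω, 0, dp D.a ω, c0⟩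

theorem sF_ev {J : Jt} (h : J.a0 ≠ 0) (ω : Fin 3 → ℝ) (y t : ℝ) :
    (sF J ω).ev y t = ev J (y + t * dp (sl J) ω) (fun i => t * ω i) := by
  have e : J.a0 * dp (sl J) ω = - dp J.a ω := by
    simp only [dp, sl, Fin.sum_univ_three]
    field_simp
    ring
  have e2 : ev J (y + t * dp (sl J) ω) (fun i => t * ω i) = J.a0 * y + t * (J.a0 * dp (sl J) ω) +
      t * dp J.a ω + 1 / 2 * (J.h00 * (y + t * dp (sl J) ω) ^ 2 +
      2 * (y + t * dp (sl J) ω) * (t * dp J.h0 ω) + t ^ 2 * qf J.h ω) := by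
    simp only [ev, dp, qf, Fin.sum_univ_three]
    ring
  rw [e2, e]
  have e3 : dp (hs J (sl J)) ω = dp J.h0 ω + J.h00 * dp (sl J) ω := by
    simp only [dp, hs, Fin.sum_univ_three]; ring
  have e4 : qf (lf J (sl J)) ω = qf J.h ω + 2 * dp J.h0 ω * dp (sl J) ω +
      J.h00 * dp (sl J) ω ^ 2 := by
    simp only [dp, qf, lf, Fin.sum_univ_three]; ring
  simp only [Q2.ev, sF, e3, e4]
  ring

theorem sD_ev {D : Jt} (h : D.a0 = 0) (s : Fin 3 → ℝ) (c0 : ℝ) (ω : Fin 3 → ℝ) (y t : ℝ) :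
    (sD s D c0 ω).ev y t = c0 + ev D (y + t * dp s ω) (fun i => t * ω i) := by
  have e2 : ev D (y + t * dp s ω) (fun i => t * ω i) =
      t * dp D.a ω + 1 / 2 * (D.h00 * (y + t * dp s ω) ^ 2 +
      2 * (y + t * dp s ω) * (t * dp D.h0 ω) + t ^ 2 * qf D.h ω) := by
    simp only [ev, dp, qf, Fin.sum_univ_three, h]
    ring
  rw [e2]
  have e3 : dp (hs D s) ω = dp D.h0 ω + D.h00 * dp s ω := by
    simp only [dp, hs, Fin.sum_univ_three]; ring
  have e4 : qf (lf D s) ω = qf D.h ω + 2 * dp D.h0 ω * dp s ω + D.h00 * dp s ω ^ 2 := by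
    simp only [dp, qf, lf, Fin.sum_univ_three]; ring
  simp only [Q2.ev, sD, e3, e4]
  ring

theorem sF_dy (J : Jt) (ω : Fin 3 → ℝ) (y t : ℝ) :
    (sF J ω).dy y t = J.a0 + J.h00 * (y + t * dp (sl J) ω) + dp J.h0 (fun i => t * ω i) := by
  have e3 : dp (hs J (sl J)) ω = dp J.h0 ω + J.h00 * dp (sl J) ω := by
    simp only [dp, hs, Fin.sum_univ_three]; ring
  have e5 : dp J.h0 (fun i => t * ω i) = t * dp J.h0 ω := by
    simp only [dp, Fin.sum_univ_three]; ring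
  simp only [Q2.dy, sF, e3, e5]
  ring

/-- unit vectors -/
def uv (i : Fin 3) (a : ℝ) : Fin 3 → ℝ := fun l => if l = i then a else 0

theorem dp_uv (E : Fin 3 → ℝ) (i : Fin 3) (a : ℝ) : dp E (uv i a) = E i * a := by
  fin_cases i <;> simp [dp, uv]

theorem qf_uv (H : Fin 3 → Fin 3 → ℝ) (i : Fin 3) (a : ℝ) : qf H (uv i a) = H i i * a ^ 2 := by
  fin_cases i <;> simp [qf, uv] <;> ring

theorem qf_uv2 {H : Fin 3 → Fin 3 → ℝ} (hs : ∀ i j, H i j = H j i) (i j : Fin 3) (a : ℝ) :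
    qf H (fun l => uv i a l + uv j a l) = (H i i + 2 * H i j + H j j) * a ^ 2 := by
  have s10 := hs 1 0
  have s20 := hs 2 0
  have s21 := hs 2 1
  fin_cases i <;> fin_cases j <;> simp [qf, uv, Fin.sum_univ_three] <;>
    (try simp only [s10, s20, s21]) <;> ring

theorem dp_le' {n v : Fin 3 → ℝ} {a b : ℝ} (ha : ∀ i, |n i| ≤ a) (hb : ∀ i, |v i| ≤ b) :
    |dp n v| ≤ 3 * (a * b) := by
  unfold dp
  rw [Fin.sum_univ_three]
  have h0 := abs2 (ha 0) (hb 0)
  have h1 := abs2 (ha 1) (hb 1)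
  have h2 := abs2 (ha 2) (hb 2)
  refine (abs_add_le _ _).trans ((add_le_add (abs_add_le _ _) le_rfl).trans ?_)
  linarith

theorem qf_le' {H : Fin 3 → Fin 3 → ℝ} {v : Fin 3 → ℝ} {a b : ℝ} (ha : ∀ i j, |H i j| ≤ a)
    (hb : ∀ i, |v i| ≤ b) : |qf H v| ≤ 9 * (a * b ^ 2) := by
  have h : ∀ i, |∑ j, H i j * v i * v j| ≤ 3 * (a * b ^ 2) := by
    intro i
    rw [Fin.sum_univ_three]
    have h0 := abs3 (ha i 0) (hb i) (hb 0)
    have h1 := abs3 (ha i 1) (hb i) (hb 1)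
    have h2 := abs3 (ha i 2) (hb i) (hb 2)
    refine (abs_add_le _ _).trans ((add_le_add (abs_add_le _ _) le_rfl).trans ?_)
    linarith
  unfold qf
  rw [Fin.sum_univ_three]
  refine (abs_add_le _ _).trans ((add_le_add (abs_add_le _ _) le_rfl).trans ?_)
  linarith [h 0, h 1, h 2]

theorem qf_diff (H : Fin 3 → Fin 3 → ℝ) (v : Fin 3 → ℝ) (k : Fin 3) (τ : ℝ) :
    qf H (fun l => v l + uv k τ l) = qf H v + τ * dp (fun l => H k l + H l k) v +
      H k k * τ ^ 2 := by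
  fin_cases k <;> simp [qf, dp, uv, Fin.sum_univ_three] <;> ring

theorem dp_diff (E : Fin 3 → ℝ) (v : Fin 3 → ℝ) (k : Fin 3) (τ : ℝ) :
    dp E (fun l => v l + uv k τ l) = dp E v + E k * τ := by
  fin_cases k <;> simp [dp, uv, Fin.sum_univ_three] <;> ring

/-- a direction on which the form is large -/
theorem exists_dir {H : Fin 3 → Fin 3 → ℝ} {m : ℝ} (hs : ∀ i j, H i j = H j i)
    (hm : ∃ i j, m ≤ |H i j|) :
    ∃ ω : Fin 3 → ℝ, (∀ i, 0 ≤ ω i ∧ ω i ≤ 1 / 2) ∧ m / 8 ≤ |qf H ω| := by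
  by_cases hd : ∃ i, m / 2 ≤ |H i i|
  · obtain ⟨i, hi⟩ := hd
    refine ⟨uv i (1 / 2), fun l => ?_, ?_⟩
    · unfold uv; split_ifs <;> norm_num
    · rw [qf_uv, abs_mul, abs_of_pos (by norm_num : (0 : ℝ) < (1 / 2) ^ 2)]
      linarith
  · push Not at hd
    obtain ⟨i, j, hij⟩ := hm
    have hne : i ≠ j := by
      rintro rfl
      have := hd i
      have h0 : 0 ≤ |H i i| := abs_nonneg _
      linarith
    refine ⟨fun l => uv i (1 / 2) l + uv j (1 / 2) l, fun l => ?_, ?_⟩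
    · unfold uv
      by_cases h1 : l = i
      · have h2 : l ≠ j := fun h => hne (h1.symm.trans h)
        simp [h1, hne]
      · by_cases h2 : l = j
        · simp [h2, hne.symm]
        · simp [h1, h2]
    · rw [qf_uv2 hs, abs_mul, abs_of_pos (by norm_num : (0 : ℝ) < (1 / 2) ^ 2)]
      have a1 := hd i
      have a2 := hd j
      have a3 : 2 * |H i j| ≤ |H i i + 2 * H i j + H j j| + |H i i| + |H j j| := by
        have : 2 * H i j = (H i i + 2 * H i j + H j j) - H i i - H j j := by ring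
        have e : |2 * H i j| = 2 * |H i j| := by
          rw [abs_mul, abs_of_pos (by norm_num : (0 : ℝ) < 2)]
        rw [← e]
        conv_lhs => rw [this]
        exact (abs_sub _ _).trans (add_le_add (abs_sub _ _) le_rfl)
      have a4 : 0 ≤ |H i i| := abs_nonneg _
      linarith

/-- **product lemma** -/
theorem prod {H : Fin 3 → Fin 3 → ℝ} {E : Fin 3 → ℝ} {K m N : ℝ} (hs : ∀ i j, H i j = H j i)
    (hb : ∀ i j, |H i j| ≤ K) (hm0 : 0 < m) (hm : ∃ i j, m ≤ |H i j|)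
    (hN : ∀ ω : Fin 3 → ℝ, (∀ i, 0 ≤ ω i ∧ ω i ≤ 1) → |qf H ω * dp E ω| ≤ N) (k : Fin 3) :
    |E k| ≤ 1536 * K * N / m ^ 2 := by
  obtain ⟨ω, h1, h2⟩ := exists_dir hs hm
  obtain ⟨i, j, hij⟩ := hm
  have hmK : m ≤ K := hij.trans (hb i j)
  have hK : 0 < K := hm0.trans_le hmK
  set τ := m / (64 * K) with hτ
  have hτ0 : 0 < τ := by positivity
  have hτK : K * τ = m / 64 := by rw [hτ]; field_simp
  have hτ1 : τ ≤ 1 / 64 := by
    rw [hτ, div_le_div_iff₀ (by positivity) (by norm_num)]; linarith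
  have a1 := hN ω (fun i => ⟨(h1 i).1, (h1 i).2.trans (by norm_num)⟩)
  have a2 := hN (fun l => ω l + uv k τ l) (fun l => by
    have := h1 l
    unfold uv
    split_ifs
    · constructor <;> linarith [this.1, this.2]
    · constructor <;> linarith [this.1, this.2])
  have b1 : m / 16 ≤ |qf H (fun l => ω l + uv k τ l)| := by
    rw [qf_diff]
    have c1 : |dp (fun l => H k l + H l k) ω| ≤ 3 * (2 * K * (1 / 2)) := by
      apply dp_le'
      · intro l
        exact (abs_add_le _ _).trans (by linarith [hb k l, hb l k])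
      · intro l
        rw [abs_of_nonneg (h1 l).1]; exact (h1 l).2
    have c2 : |τ * dp (fun l => H k l + H l k) ω| ≤ 3 * (m / 64) := by
      rw [abs_mul, abs_of_pos hτ0]
      calc τ * |dp (fun l => H k l + H l k) ω| ≤ τ * (3 * (2 * K * (1 / 2))) :=
            mul_le_mul_of_nonneg_left c1 hτ0.le
        _ = 3 * (K * τ) := by ring
        _ = _ := by rw [hτK]
    have c3 : |H k k * τ ^ 2| ≤ m / 64 := by
      rw [abs_mul, abs_of_pos (by positivity : 0 < τ ^ 2)]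
      calc |H k k| * τ ^ 2 ≤ K * τ ^ 2 := mul_le_mul_of_nonneg_right (hb k k) (by positivity)
        _ = (K * τ) * τ := by ring
        _ = m / 64 * τ := by rw [hτK]
        _ ≤ m / 64 * 1 := by
            apply mul_le_mul_of_nonneg_left _ (by positivity)
            linarith
        _ = _ := by ring
    have c4 : |qf H ω| ≤ |qf H ω + τ * dp (fun l => H k l + H l k) ω + H k k * τ ^ 2| +
        |τ * dp (fun l => H k l + H l k) ω| + |H k k * τ ^ 2| := by
      have : qf H ω = (qf H ω + τ * dp (fun l => H k l + H l k) ω + H k k * τ ^ 2) -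
        τ * dp (fun l => H k l + H l k) ω - H k k * τ ^ 2 := by ring
      conv_lhs => rw [this]
      exact (abs_sub _ _).trans (add_le_add (abs_sub _ _) le_rfl)
    linarith
  rw [abs_mul] at a1 a2
  have d1 : |dp E ω| ≤ 8 * N / m := by
    rw [le_div_iff₀ hm0]
    nlinarith [abs_nonneg (dp E ω)]
  have d2 : |dp E (fun l => ω l + uv k τ l)| ≤ 16 * N / m := by
    rw [le_div_iff₀ hm0]
    nlinarith [abs_nonneg (dp E (fun l => ω l + uv k τ l))]
  have d3 : |E k * τ| ≤ 24 * N / m := by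
    have : E k * τ = dp E (fun l => ω l + uv k τ l) - dp E ω := by rw [dp_diff]; ring
    rw [this]
    refine (abs_sub _ _).trans ((add_le_add d2 d1).trans (le_of_eq ?_))
    ring
  rw [abs_mul, abs_of_pos hτ0] at d3
  have d4 : |E k| ≤ 24 * N / m / τ := by
    rw [le_div_iff₀ hτ0]; exact d3
  refine d4.trans (le_of_eq ?_)
  rw [hτ]
  field_simp
  ring

end Crest.Agent.R136.Adj214
end

-- ▼ part R136/Adj3_214
section

/-!
# R136 (S0187), U4 (AL): division by a sheet jet (helper214)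

`NJ c J`: normal form of the sheet function in a chart.  `div_jet`: a quadratic function which is
small on the sheet is a multiple of the sheet function plus a small quadratic function.
-/

set_option autoImplicit false

namespace Crest.Agent.R136.Adj214

open Set
open Crest.Agent.R136.Row214 (Q2 Gr)
open Crest.Agent.R136.Rk601 (Jt dp qf lf sl)

/-- normal form of a sheet function `c + ev J` in a chart -/
structure NJ (c : ℝ) (J : Jt) : Prop where
  sym : J.Sym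
  st : ∀ (y : ℝ) (ξ : Fin 3 → ℝ), |y| ≤ 1 → 0 ≤ ξ 0 → ξ 0 ≤ 1 → |ξ 1| ≤ 1 → |ξ 2| ≤ 1 →
    1 / 2 ≤ J.a0 + J.h00 * y + dp J.h0 ξ ∧ J.a0 + J.h00 * y + dp J.h0 ξ ≤ 2
  h00 : |J.h00| ≤ 2
  h0 : |J.h0 0| ≤ 3 / 2
  h1 : |J.h0 1| ≤ 1 / 50
  h2 : |J.h0 2| ≤ 1 / 50
  h : ∀ i j, |J.h i j| ≤ 2
  a0 : |J.a 0| ≤ 1 / 400
  a1 : J.a 1 = 0
  a2 : J.a 2 = 0
  c : |c| ≤ 1 / 3000
  big : (∃ j, j ≠ 0 ∧ 1 / 2 ≤ |J.h 0 j|) ∨ ∃ i j, i ≠ 0 ∧ j ≠ 0 ∧ 1 / 256 ≤ |J.h i j|

/-- shift in the normal direction -/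
def bs (J : Jt) (y0 : ℝ) : Jt where
  a0 := J.a0 + J.h00 * y0
  a := fun i => J.a i + y0 * J.h0 i
  h00 := J.h00
  h0 := J.h0
  h := J.h

/-- `P - μ Q` -/
def sbm (P : Jt) (μ : ℝ) (Q : Jt) : Jt where
  a0 := P.a0 - μ * Q.a0
  a := fun i => P.a i - μ * Q.a i
  h00 := P.h00 - μ * Q.h00
  h0 := fun i => P.h0 i - μ * Q.h0 i
  h := fun i j => P.h i j - μ * Q.h i j

theorem ev_bs (J : Jt) (y0 y : ℝ) (ξ : Fin 3 → ℝ) :
    ev J (y0 + y) ξ = ev J y0 0 + ev (bs J y0) y ξ := by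
  simp only [ev, bs, dp, qf, Fin.sum_univ_three, Pi.zero_apply]
  ring

theorem ev_sbm (P : Jt) (μ : ℝ) (Q : Jt) (y : ℝ) (ξ : Fin 3 → ℝ) :
    ev (sbm P μ Q) y ξ = ev P y ξ - μ * ev Q y ξ := by
  simp only [ev, sbm, dp, qf, Fin.sum_univ_three]
  ring

theorem ev_zero (J : Jt) (y : ℝ) : ev J y 0 = J.a0 * y + 1 / 2 * J.h00 * y ^ 2 := by
  simp only [ev, dp, qf, Fin.sum_univ_three, Pi.zero_apply]
  ring

/-- base point -/
theorem NJ.base {c : ℝ} {J : Jt} (N : NJ c J) : ∃ ys, |ys| ≤ 1 / 1500 ∧ c + ev J ys 0 = 0 := by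
  have hst : ∀ y : ℝ, |y| ≤ 1 → 1 / 2 ≤ J.a0 + J.h00 * y := by
    intro y hy
    have := (N.st y 0 hy le_rfl zero_le_one (by simp) (by simp)).1
    simpa [dp] using this
  have hc := abs_le.1 N.c
  have s1 := hst (1 / 3000) (by rw [abs_of_pos] <;> norm_num)
  have s2 := hst (-1 / 3000) (by rw [abs_of_neg] <;> norm_num)
  have p1 : 0 ≤ c + ev J (1 / 1500) 0 := by rw [ev_zero]; linarith [hc.1]
  have p2 : c + ev J (-1 / 1500) 0 ≤ 0 := by rw [ev_zero]; linarith [hc.2]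
  have hcont : ContinuousOn (fun y => c + ev J y 0) (Icc (-1 / 1500) (1 / 1500)) := by
    apply Continuous.continuousOn
    simp only [ev_zero]
    fun_prop
  obtain ⟨y, hy, hy'⟩ := intermediate_value_Icc (by norm_num : (-1 / 1500 : ℝ) ≤ 1 / 1500) hcont
    ⟨p2, p1⟩
  exact ⟨y, abs_le.2 ⟨by linarith [hy.1], by linarith [hy.2]⟩, hy'⟩

/-- bounds at the base point -/
theorem NJ.at_base {c : ℝ} {J : Jt} (N : NJ c J) {ys : ℝ} (hys : |ys| ≤ 1 / 1500) :
    1 / 2 ≤ (bs J ys).a0 ∧ (bs J ys).a0 ≤ 2 ∧ |sl (bs J ys) 0| ≤ 1 / 100 ∧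
      |sl (bs J ys) 1| ≤ 1 / 30000 ∧ |sl (bs J ys) 2| ≤ 1 / 30000 := by
  have h0 := N.st ys 0 (hys.trans (by norm_num)) le_rfl zero_le_one (by simp) (by simp)
  have h1 : 1 / 2 ≤ (bs J ys).a0 ∧ (bs J ys).a0 ≤ 2 := by
    simpa [dp, bs] using h0
  obtain ⟨g1, g2⟩ := h1
  have key : ∀ i (x : ℝ), |(bs J ys).a i| ≤ x → |sl (bs J ys) i| ≤ 2 * x := by
    intro i x hx
    unfold sl
    rw [abs_div, abs_neg, abs_of_pos (by linarith : 0 < (bs J ys).a0), div_le_iff₀ (by linarith)]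
    have := mul_le_mul_of_nonneg_left g1 ((abs_nonneg _).trans hx)
    linarith
  refine ⟨g1, g2, ?_, ?_, ?_⟩
  · have : |(bs J ys).a 0| ≤ 1 / 400 + 1 / 1500 * (3 / 2) :=
      (abs_add_le _ _).trans (add_le_add N.a0 (abs2 hys N.h0))
    exact (key _ _ this).trans (by norm_num)
  · have : |(bs J ys).a 1| ≤ 1 / 1500 * (1 / 50) := by
      have e : (bs J ys).a 1 = ys * J.h0 1 := by simp [bs, N.a1]
      rw [e]; exact abs2 hys N.h1
    exact (key _ _ this).trans (by norm_num)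
  · have : |(bs J ys).a 2| ≤ 1 / 1500 * (1 / 50) := by
      have e : (bs J ys).a 2 = ys * J.h0 2 := by simp [bs, N.a2]
      rw [e]; exact abs2 hys N.h2
    exact (key _ _ this).trans (by norm_num)

theorem abs_sub3 {x y z w X Y Z W : ℝ} (hx : |x| ≤ X) (hy : |y| ≤ Y) (hz : |z| ≤ Z)
    (hw : |w| ≤ W) : |x + y + z + w| ≤ X + Y + Z + W :=
  (abs_add_le _ _).trans (add_le_add ((abs_add_le _ _).trans (add_le_add
    ((abs_add_le _ _).trans (add_le_add hx hy)) hz)) hw)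

/-- second order part at the base point -/
theorem NJ.lf_le {c : ℝ} {J : Jt} (N : NJ c J) {ys : ℝ} (hys : |ys| ≤ 1 / 1500) :
    (∀ i j, |lf (bs J ys) (sl (bs J ys)) i j| ≤ 3) ∧ (∀ i, |hs (bs J ys) (sl (bs J ys)) i| ≤ 2) ∧
      (∃ i j, 1 / 512 ≤ |lf (bs J ys) (sl (bs J ys)) i j|) ∧
      (∀ i j, lf (bs J ys) (sl (bs J ys)) i j = lf (bs J ys) (sl (bs J ys)) j i) := by
  obtain ⟨-, -, s0, s1, s2⟩ := N.at_base hys
  set s := sl (bs J ys) with hsdef
  have hh : (bs J ys).h = J.h := rfl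
  have hh0 : (bs J ys).h0 = J.h0 := rfl
  have hh00 : (bs J ys).h00 = J.h00 := rfl
  have sle : ∀ i, |s i| ≤ 1 / 100 := by
    intro i; fin_cases i
    · exact s0
    · exact s1.trans (by norm_num)
    · exact s2.trans (by norm_num)
  have sle' : ∀ i, i ≠ 0 → |s i| ≤ 1 / 30000 := by
    intro i hi; fin_cases i
    · exact absurd rfl hi
    · exact s1
    · exact s2
  have hle : ∀ i, |J.h0 i| ≤ 3 / 2 := by
    intro i; fin_cases i
    · exact N.h0
    · exact N.h1.trans (by norm_num)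
    · exact N.h2.trans (by norm_num)
  have hle' : ∀ i, i ≠ 0 → |J.h0 i| ≤ 1 / 50 := by
    intro i hi; fin_cases i
    · exact absurd rfl hi
    · exact N.h1
    · exact N.h2
  refine ⟨?_, ?_, ?_, ?_⟩
  · intro i j
    unfold lf
    rw [hh, hh0, hh00]
    refine (abs_sub3 (N.h i j) (abs2 (hle i) (sle j)) (abs2 (hle j) (sle i))
      (abs2 N.h00 (abs2 (sle i) (sle j)))).trans ?_
    norm_num
  · intro i
    unfold hs
    rw [hh0, hh00]
    refine (abs_add_le _ _).trans ((add_le_add (hle i) (abs2 N.h00 (sle i))).trans ?_)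
    norm_num
  · rcases N.big with ⟨j, hj, hb⟩ | ⟨i, j, hi, hj, hb⟩
    · refine ⟨0, j, ?_⟩
      have e : J.h 0 j = lf (bs J ys) s 0 j + (-(J.h0 0 * s j)) + (-(J.h0 j * s 0)) +
          (-(J.h00 * (s 0 * s j))) := by
        unfold lf; rw [hh, hh0, hh00]; ring
      have h1 : |J.h 0 j| ≤ |lf (bs J ys) s 0 j| + 3 / 2 * (1 / 30000) + 1 / 50 * (1 / 100) +
          2 * (1 / 100 * (1 / 30000)) := by
        conv_lhs => rw [e]
        refine abs_sub3 le_rfl ?_ ?_ ?_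
        · rw [abs_neg]; exact abs2 N.h0 (sle' j hj)
        · rw [abs_neg]; exact abs2 (hle' j hj) s0
        · rw [abs_neg]; exact abs2 N.h00 (abs2 s0 (sle' j hj))
      norm_num at h1 ⊢
      linarith
    · refine ⟨i, j, ?_⟩
      have e : J.h i j = lf (bs J ys) s i j + (-(J.h0 i * s j)) + (-(J.h0 j * s i)) +
          (-(J.h00 * (s i * s j))) := by
        unfold lf; rw [hh, hh0, hh00]; ring
      have h1 : |J.h i j| ≤ |lf (bs J ys) s i j| + 1 / 50 * (1 / 30000) + 1 / 50 * (1 / 30000) +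
          2 * (1 / 30000 * (1 / 30000)) := by
        conv_lhs => rw [e]
        refine abs_sub3 le_rfl ?_ ?_ ?_
        · rw [abs_neg]; exact abs2 (hle' i hi) (sle' j hj)
        · rw [abs_neg]; exact abs2 (hle' j hj) (sle' i hi)
        · rw [abs_neg]; exact abs2 N.h00 (abs2 (sle' i hi) (sle' j hj))
      norm_num at h1 ⊢
      linarith
  · intro i j
    unfold lf
    rw [hh, N.sym i j]
    ring

/-- the bounds on all slices -/
theorem NJ.slices {c : ℝ} {J : Jt} (N : NJ c J) {ys : ℝ} (hys : |ys| ≤ 1 / 1500) {D : Jt}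
    (hD : D.a0 = 0) {cs lam : ℝ}
    (h : ∀ (y : ℝ) (ξ : Fin 3 → ℝ), |ys + y| ≤ 1 → 0 ≤ ξ 0 → ξ 0 ≤ 1 → |ξ 1| ≤ 1 → |ξ 2| ≤ 1 →
      ev (bs J ys) y ξ = 0 → |cs + ev D y ξ| ≤ lam) (ω : Fin 3 → ℝ)
    (hω : ∀ i, 0 ≤ ω i ∧ ω i ≤ 1 / 8) :
    |cs| ≤ cB * lam ∧ |dp D.a ω| ≤ 2 * (cB * lam) ∧
      |qf (lf D (sl (bs J ys))) ω| ≤ 72 * (cB * lam) ∧
      |qf (lf (bs J ys) (sl (bs J ys))) ω * dp (hs D (sl (bs J ys))) ω| ≤ 3240 * (cB * lam) ∧
      |qf (lf (bs J ys) (sl (bs J ys))) ω ^ 2 * D.h00| ≤ 218700 * (cB * lam) := by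
  obtain ⟨g1, g2, s0, s1, s2⟩ := N.at_base hys
  obtain ⟨l1, l2, -, -⟩ := N.lf_le hys
  set s := sl (bs J ys) with hsdef
  have g0 : (bs J ys).a0 ≠ 0 := by linarith
  have sle : ∀ i, |s i| ≤ 1 / 100 := by
    intro i; fin_cases i
    · exact s0
    · exact s1.trans (by norm_num)
    · exact s2.trans (by norm_num)
  have ωle : ∀ i, |ω i| ≤ 1 / 8 := by
    intro i; rw [abs_of_nonneg (hω i).1]; exact (hω i).2
  have dple : |dp s ω| ≤ 3 * (1 / 100 * (1 / 8)) := dp_le' sle ωle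
  have tle : ∀ t : ℝ, 0 ≤ t → t ≤ 1 / 2000 → |t * dp s ω| ≤ 1 / 100 := by
    intro t h1 h2
    have ht : |t| ≤ 1 / 2000 := by rw [abs_of_nonneg h1]; exact h2
    exact (abs2 ht dple).trans (by norm_num)
  have box : ∀ t : ℝ, 0 ≤ t → t ≤ 1 / 2000 → ∀ y : ℝ, |y| ≤ 1 / 2 →
      |ys + (y + t * dp s ω)| ≤ 1 ∧ 0 ≤ t * ω 0 ∧ t * ω 0 ≤ 1 ∧ |t * ω 1| ≤ 1 ∧ |t * ω 2| ≤ 1 := by
    intro t h1 h2 y hy
    have ht : |t| ≤ 1 / 2000 := by rw [abs_of_nonneg h1]; exact h2
    refine ⟨?_, mul_nonneg h1 (hω 0).1, ?_, ?_, ?_⟩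
    · have := (abs_add_le ys (y + t * dp s ω)).trans (add_le_add hys
        ((abs_add_le _ _).trans (add_le_add hy (tle t h1 h2))))
      exact this.trans (by norm_num)
    · have := (le_abs_self _).trans (abs2 ht (ωle 0))
      exact this.trans (by norm_num)
    · exact (abs2 ht (ωle 1)).trans (by norm_num)
    · exact (abs2 ht (ωle 2)).trans (by norm_num)
  have hlam : 0 ≤ lam := by
    have e0 : ev (bs J ys) 0 0 = 0 := by rw [ev_zero]; ring
    exact (abs_nonneg _).trans (h 0 0 (by rw [add_zero]; exact hys.trans (by norm_num)) le_rfl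
      zero_le_one (by simp) (by simp) e0)
  have hk : |(sF (bs J ys) ω).k| ≤ 9 := by
    change |1 / 2 * J.h00| ≤ 9
    rw [abs_mul, abs_of_pos (by norm_num : (0 : ℝ) < 1 / 2)]
    linarith [N.h00]
  have hhl : |(sF (bs J ys) ω).h| ≤ 3 / 4 := by
    change |dp (hs (bs J ys) s) ω| ≤ 3 / 4
    exact (dp_le' l2 ωle).trans (by norm_num)
  have hg' : |qf (lf (bs J ys) s) ω| ≤ 1 / 2 := (qf_le' l1 ωle).trans (by norm_num)
  have e2g : 2 * (sF (bs J ys) ω).g = qf (lf (bs J ys) s) ω := by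
    change 2 * (1 / 2 * qf (lf (bs J ys) s) ω) = _
    ring
  have hgl : |2 * (sF (bs J ys) ω).g| ≤ 9 := by
    rw [e2g]; exact hg'.trans (by norm_num)
  have H := cau (F := sF (bs J ys) ω) (p := sD s D cs ω) (lam := lam) rfl ?_ ?_ ?_ ?_
  · obtain ⟨c1, c2, c3, c4, c5⟩ := alg (K := 9) (by norm_num) rfl rfl g1 g2 hk
      (hhl.trans (by norm_num)) hgl H
    have eB : 512 * lam / (1 / 32000) ^ 4 = cB * lam := by unfold cB; norm_num; ring
    rw [eB] at c1 c2 c3 c4 c5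
    rw [e2g] at c4 c5
    refine ⟨c1, c2, ?_, ?_, ?_⟩
    · change |1 / 2 * qf (lf D s) ω| ≤ _ at c3
      rw [abs_mul, abs_of_pos (by norm_num : (0 : ℝ) < 1 / 2)] at c3
      linarith
    · refine (c4).trans (by norm_num)
    · change |qf (lf (bs J ys) s) ω ^ 2 * (1 / 2 * D.h00)| ≤ _ at c5
      have e : qf (lf (bs J ys) s) ω ^ 2 * (1 / 2 * D.h00) =
        1 / 2 * (qf (lf (bs J ys) s) ω ^ 2 * D.h00) := by ring
      rw [e, abs_mul, abs_of_pos (by norm_num : (0 : ℝ) < 1 / 2)] at c5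
      linarith
  · intro t h1 h2 y hy
    rw [sF_dy]
    obtain ⟨b1, b2, b3, b4, b5⟩ := box t h1 h2 y hy
    have := N.st (ys + (y + t * dp s ω)) (fun i => t * ω i) b1 b2 b3 b4 b5
    have e : (bs J ys).a0 + (bs J ys).h00 * (y + t * dp (sl (bs J ys)) ω) +
        dp (bs J ys).h0 (fun i => t * ω i) = J.a0 + J.h00 * (ys + (y + t * dp s ω)) +
        dp J.h0 (fun i => t * ω i) := by
      simp only [bs]
      rw [hsdef]
      simp only [bs]
      ring
    rw [e]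
    exact this
  · intro t h1 h2
    have e : (sF (bs J ys) ω).ev 0 t = 1 / 2 * qf (lf (bs J ys) s) ω * (t * t) := by
      simp only [Q2.ev, sF]; ring
    rw [e]
    have ht : |t| ≤ 1 / 2000 := by rw [abs_of_nonneg h1]; exact h2
    have h3 : |1 / 2 * qf (lf (bs J ys) s) ω| ≤ 1 / 2 * (1 / 2) :=
      abs2 (by norm_num : |(1 / 2 : ℝ)| ≤ 1 / 2) hg'
    exact (abs2 h3 (abs2 ht ht)).trans (by norm_num)
  · have hF : (sF (bs J ys) ω).nu = (sF (bs J ys) ω).h ^ 2 + (-(J.h00 *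
        qf (lf (bs J ys) s) ω)) := by
      simp only [Q2.nu, sF]
      have : (bs J ys).h00 = J.h00 := rfl
      rw [this]
      ring
    rw [hF]
    refine (abs_add_le _ _).trans ?_
    rw [abs_neg, abs_pow]
    have h3 := pow_le_pow_left₀ (abs_nonneg _) hhl 2
    have h4 := abs2 N.h00 hg'
    norm_num at h3 h4 ⊢
    linarith
  · intro t h1 h2 y hy hF
    rw [sD_ev hD]
    rw [sF_ev g0] at hF
    obtain ⟨b1, b2, b3, b4, b5⟩ := box t h1 h2 y (hy.trans (by norm_num))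
    exact h _ _ b1 b2 b3 b4 b5 hF

end Crest.Agent.R136.Adj214
end

-- ▼ part R136/Adj4_214

/-!
# R136 (S0187), U4 (AL): division by a sheet jet, end (helper214)

`div_jet`: a quadratic function which is small on the sheet is a multiple of the sheet function plus
a small quadratic function.
-/

set_option autoImplicit false

namespace Crest.Agent.R136.Adj214

open Set
open Crest.Agent.R136.Row214 (Q2 Gr)
open Crest.Agent.R136.Rk601 (Jt dp qf lf sl)

/-- all entries bounded -/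
structure JB (K c : ℝ) (J : Jt) : Prop where
  sym : J.Sym
  c : |c| ≤ K
  a0 : |J.a0| ≤ K
  a : ∀ i, |J.a i| ≤ K
  h00 : |J.h00| ≤ K
  h0 : ∀ i, |J.h0 i| ≤ K
  h : ∀ i j, |J.h i j| ≤ K

theorem JB.mono {K K' c : ℝ} {J : Jt} (h : JB K c J) (hK : K ≤ K') : JB K' c J :=
  ⟨h.sym, h.c.trans hK, h.a0.trans hK, fun i => (h.a i).trans hK, h.h00.trans hK,
    fun i => (h.h0 i).trans hK, fun i j => (h.h i j).trans hK⟩

theorem dp_scale (E ω : Fin 3 → ℝ) : dp E (fun i => 1 / 8 * ω i) = 1 / 8 * dp E ω := by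
  simp only [dp, Fin.sum_univ_three]; ring

theorem qf_scale (H : Fin 3 → Fin 3 → ℝ) (ω : Fin 3 → ℝ) :
    qf H (fun i => 1 / 8 * ω i) = 1 / 64 * qf H ω := by
  simp only [qf, Fin.sum_univ_three]; ring

/-- the difference jet at the base point -/
theorem NJ.diff {c : ℝ} {J : Jt} (N : NJ c J) {ys : ℝ} (hys : |ys| ≤ 1 / 1500) {D : Jt}
    (hD : D.a0 = 0) (hDs : D.Sym) {cs lam : ℝ}
    (h : ∀ (y : ℝ) (ξ : Fin 3 → ℝ), |ys + y| ≤ 1 → 0 ≤ ξ 0 → ξ 0 ≤ 1 → |ξ 1| ≤ 1 → |ξ 2| ≤ 1 →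
      ev (bs J ys) y ξ = 0 → |cs + ev D y ξ| ≤ lam) :
    JB (10 ^ 17 * (cB * lam)) cs D := by
  have S := fun ω hω => N.slices hys hD h ω hω
  obtain ⟨g1, g2, s0, s1, s2⟩ := N.at_base hys
  obtain ⟨l1, l2, l3, l4⟩ := N.lf_le hys
  set s := sl (bs J ys) with hsdef
  set H := lf (bs J ys) s with hH
  set B := cB * lam with hB
  have sle : ∀ i, |s i| ≤ 1 / 100 := by
    intro i; fin_cases i
    · exact s0
    · exact s1.trans (by norm_num)
    · exact s2.trans (by norm_num)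
  have hcs : |cs| ≤ B := (S 0 (fun i => ⟨le_rfl, by simp⟩)).1
  have hB0 : 0 ≤ B := (abs_nonneg _).trans hcs
  have uvle : ∀ i : Fin 3, ∀ l, 0 ≤ uv i (1 / 8) l ∧ uv i (1 / 8) l ≤ 1 / 8 := by
    intro i l; unfold uv; split_ifs <;> norm_num
  have uvle' : ∀ i j : Fin 3, ∀ l, 0 ≤ uv i (1 / 16) l + uv j (1 / 16) l ∧
      uv i (1 / 16) l + uv j (1 / 16) l ≤ 1 / 8 := by
    intro i j l; unfold uv; split_ifs <;> norm_num
  have ha : ∀ i, |D.a i| ≤ 16 * B := by
    intro i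
    have := (S (uv i (1 / 8)) (uvle i)).2.1
    rw [dp_uv, abs_mul, abs_of_pos (by norm_num : (0 : ℝ) < 1 / 8)] at this
    linarith
  have hld : ∀ i, |lf D s i i| ≤ 4608 * B := by
    intro i
    have := (S (uv i (1 / 8)) (uvle i)).2.2.1
    rw [qf_uv, abs_mul, abs_of_pos (by norm_num : (0 : ℝ) < (1 / 8) ^ 2)] at this
    linarith
  have lsym : ∀ i j, lf D s i j = lf D s j i := by
    intro i j
    unfold lf
    rw [hDs i j]; ring
  have hl : ∀ i j, |lf D s i j| ≤ 13824 * B := by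
    intro i j
    have h1 := (S (fun l => uv i (1 / 16) l + uv j (1 / 16) l) (uvle' i j)).2.2.1
    rw [qf_uv2 lsym, abs_mul, abs_of_pos (by norm_num : (0 : ℝ) < (1 / 16) ^ 2)] at h1
    have h2 : 2 * |lf D s i j| ≤ |lf D s i i + 2 * lf D s i j + lf D s j j| + |lf D s i i| +
        |lf D s j j| := by
      have e : |2 * lf D s i j| = 2 * |lf D s i j| := by
        rw [abs_mul, abs_of_pos (by norm_num : (0 : ℝ) < 2)]
      rw [← e]
      have : 2 * lf D s i j = (lf D s i i + 2 * lf D s i j + lf D s j j) - lf D s i i -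
        lf D s j j := by ring
      conv_lhs => rw [this]
      exact (abs_sub _ _).trans (add_le_add (abs_sub _ _) le_rfl)
    linarith [hld i, hld j]
  have half : ∀ ω : Fin 3 → ℝ, (∀ i, 0 ≤ ω i ∧ ω i ≤ 1) →
      ∀ i, 0 ≤ (fun i => 1 / 8 * ω i) i ∧ (fun i => 1 / 8 * ω i) i ≤ 1 / 8 := by
    intro ω hω i
    have := hω i
    constructor
    · show 0 ≤ 1 / 8 * ω i
      linarith [this.1]
    · show 1 / 8 * ω i ≤ 1 / 8
      linarith [this.2]
  have hE : ∀ k, |hs D s k| ≤ 10 ^ 16 * B := by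
    intro k
    have := prod (H := H) (E := hs D s) (K := 3) (m := 1 / 512) (N := 512 * (3240 * B)) l4 l1
      (by norm_num) l3 (fun ω hω => by
        have h1 := (S _ (half ω hω)).2.2.2.1
        rw [dp_scale, qf_scale] at h1
        have e : 1 / 64 * qf H ω * (1 / 8 * dp (hs D s) ω) =
          1 / 512 * (qf H ω * dp (hs D s) ω) := by ring
        rw [e, abs_mul, abs_of_pos (by norm_num : (0 : ℝ) < 1 / 512)] at h1
        linarith) k
    refine this.trans ?_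
    norm_num
    linarith
  have hh00 : |D.h00| ≤ 2 * 10 ^ 16 * B := by
    obtain ⟨ω, w1, w2⟩ := exists_dir l4 l3
    have h1 := (S _ (half ω (fun i => ⟨(w1 i).1, (w1 i).2.trans (by norm_num)⟩))).2.2.2.2
    rw [qf_scale] at h1
    have e : (1 / 64 * qf H ω) ^ 2 * D.h00 = 1 / 4096 * (|qf H ω| ^ 2 * D.h00) := by
      rw [sq_abs]; ring
    rw [e, abs_mul, abs_of_pos (by norm_num : (0 : ℝ) < 1 / 4096), abs_mul,
      abs_of_nonneg (by positivity : 0 ≤ |qf H ω| ^ 2)] at h1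
    have h2 : (1 / 4096 : ℝ) ^ 2 ≤ |qf H ω| ^ 2 := by
      apply pow_le_pow_left₀ (by norm_num)
      linarith
    have h3 := mul_le_mul_of_nonneg_right h2 (abs_nonneg D.h00)
    norm_num at h1 h3 ⊢
    linarith
  have hh0 : ∀ i, |D.h0 i| ≤ 2 * 10 ^ 16 * B := by
    intro i
    have e : D.h0 i = hs D s i - D.h00 * s i := by unfold hs; ring
    rw [e]
    have := abs2 hh00 (sle i)
    refine (abs_sub _ _).trans ((add_le_add (hE i) this).trans ?_)
    linarith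
  refine ⟨hDs, hcs.trans ?_, ?_, fun i => (ha i).trans ?_, hh00.trans ?_,
    fun i => (hh0 i).trans ?_, fun i j => ?_⟩
  · linarith
  · rw [hD, abs_zero]; positivity
  · linarith
  · linarith
  · linarith
  · have e : D.h i j = lf D s i j + (-(D.h0 i * s j)) + (-(D.h0 j * s i)) +
        (-(D.h00 * (s i * s j))) := by
      unfold lf; ring
    have h1 : |D.h i j| ≤ 13824 * B + 2 * 10 ^ 16 * B * (1 / 100) + 2 * 10 ^ 16 * B * (1 / 100) +
        2 * 10 ^ 16 * B * (1 / 100 * (1 / 100)) := by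
      rw [e]
      refine abs_sub3 (hl i j) ?_ ?_ ?_
      · rw [abs_neg]; exact abs2 (hh0 i) (sle j)
      · rw [abs_neg]; exact abs2 (hh0 j) (sle i)
      · rw [abs_neg]; exact abs2 hh00 (abs2 (sle i) (sle j))
    linarith

/-- the absolute constant of the division -/
noncomputable def KD : ℝ := 4 * 10 ^ 17 * cB

theorem KD_pos : 0 < KD := by have := cB_pos; unfold KD; positivity

theorem KD_one : 1 ≤ KD := by unfold KD cB; norm_num

/-- **division by a sheet**: a quadratic function which is at most `lam` on the sheet is a multiple of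
the sheet function plus a quadratic function with all coefficients at most `KD * lam` -/
theorem div_jet {c : ℝ} {J : Jt} (N : NJ c J) {cR : ℝ} {R : Jt} (hR : R.Sym) {lam : ℝ}
    (h : ∀ (y : ℝ) (ξ : Fin 3 → ℝ), |y| ≤ 1 → 0 ≤ ξ 0 → ξ 0 ≤ 1 → |ξ 1| ≤ 1 → |ξ 2| ≤ 1 →
      c + ev J y ξ = 0 → |cR + ev R y ξ| ≤ lam) :
    ∃ (μ c' : ℝ) (D : Jt), (∀ y ξ, cR + ev R y ξ - μ * (c + ev J y ξ) = c' + ev D y ξ) ∧
      JB (KD * lam) c' D := by
  obtain ⟨ys, hys, hbase⟩ := N.base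
  obtain ⟨g1, g2, -, -, -⟩ := N.at_base hys
  have g0 : (bs J ys).a0 ≠ 0 := by linarith
  set μ := (bs R ys).a0 / (bs J ys).a0 with hμ
  set D := sbm (bs R ys) μ (bs J ys) with hDdef
  set cs := cR + ev R ys 0 with hcs
  have hD0 : D.a0 = 0 := by
    rw [hDdef]
    simp only [sbm]
    rw [hμ]
    field_simp
    ring
  have hDs : D.Sym := by
    intro i j
    rw [hDdef]
    simp only [sbm, bs]
    rw [hR i j, N.sym i j]
  have key : ∀ y ξ, cR + ev R (ys + y) ξ - μ * (c + ev J (ys + y) ξ) = cs + ev D y ξ := by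
    intro y ξ
    rw [ev_bs R, ev_bs J, hDdef, ev_sbm, hcs]
    have : c + (ev J ys 0 + ev (bs J ys) y ξ) = ev (bs J ys) y ξ := by linarith
    rw [this]
    ring
  have B := N.diff hys hD0 hDs (cs := cs) (lam := lam) (fun y ξ h1 h2 h3 h4 h5 h6 => by
    rw [← key y ξ]
    have e : c + ev J (ys + y) ξ = 0 := by
      rw [ev_bs J]; linarith
    rw [e, mul_zero, sub_zero]
    exact h _ _ h1 h2 h3 h4 h5 e)
  have hX0 : 0 ≤ 10 ^ 17 * (cB * lam) := (abs_nonneg _).trans B.c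
  set X := 10 ^ 17 * (cB * lam) with hX
  have hKX : KD * lam = 4 * X := by rw [hX]; unfold KD; ring
  have hys1 : |-ys| ≤ 1 := by rw [abs_neg]; exact hys.trans (by norm_num)
  refine ⟨μ, cs + ev D (-ys) 0, bs D (-ys), fun y ξ => ?_, ?_⟩
  · have h1 := key (-ys + y) ξ
    have e : ys + (-ys + y) = y := by ring
    rw [e, ev_bs D] at h1
    rw [h1]; ring
  · rw [hKX]
    refine ⟨hDs, ?_, ?_, fun i => ?_, B.h00.trans (by linarith), fun i => (B.h0 i).trans
      (by linarith), fun i j => (B.h i j).trans (by linarith)⟩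
    · rw [ev_zero, hD0]
      have e : cs + (0 * -ys + 1 / 2 * D.h00 * (-ys) ^ 2) = cs + D.h00 * (1 / 2 * (-ys * -ys)) := by
        ring
      rw [e]
      have h1 := abs2 B.h00 (abs2 (by norm_num : |(1 / 2 : ℝ)| ≤ 1 / 2) (abs2 hys1 hys1))
      refine (abs_add_le _ _).trans ((add_le_add B.c h1).trans ?_)
      linarith
    · change |D.a0 + D.h00 * -ys| ≤ _
      have h1 := abs2 B.h00 hys1
      refine (abs_add_le _ _).trans ((add_le_add B.a0 h1).trans ?_)
      linarith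
    · change |D.a i + -ys * D.h0 i| ≤ _
      have h1 := abs2 hys1 (B.h0 i)
      refine (abs_add_le _ _).trans ((add_le_add (B.a i) h1).trans ?_)
      linarith

end Crest.Agent.R136.Adj214
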