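import Crest.Agent.R136.Adj_214
import Crest.Agent.R136.KapP_335

/-!
# R136 (S0187), U4 (AL): points of the sheet in the chart, plank form (helper214)

`point_of`: points of the sheet near `T` are chart points with `|y| ≤ 1/2`; `chartP`, `divideP`,
`pointP`: the three statements for a plank `S : Plk4` with `expP`, `kapP`; `chart_jet`, `divide_jet`:
the same as `JetAt` (helper601).
-/

set_option autoImplicit false

namespace Crest.Agent.R136.Adj214

open Crest.Agent.R136.Sh605 Crest.Agent.R136.Tl102 Crest.Agent.R136.K4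
open Crest.Agent.R136.Deep51 (CloseC)
open Crest.Agent.R136.KapP335 (expP kapP expP_spec)
open Crest.Agent.R136.Rk601 (Jt dp qf lf sl JetAt exists_jet)

theorem NJ.jb {c : ℝ} {J : Jt} (N : NJ c J) : JB 2 c J where
  sym := N.sym
  c := N.c.trans (by norm_num)
  a0 := by
    have := N.st 0 0 (by simp) le_rfl zero_le_one (by simp) (by simp)
    have e : J.a0 + J.h00 * 0 + dp J.h0 0 = J.a0 := by simp [dp]
    rw [e] at this
    rw [abs_le]; constructor <;> linarith [this.1, this.2]
  a := by
    intro i; fin_cases i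
    · exact N.a0.trans (by norm_num)
    · show |J.a 1| ≤ 2
      rw [N.a1]; norm_num
    · show |J.a 2| ≤ 2
      rw [N.a2]; norm_num
  h00 := N.h00
  h0 := by
    intro i; fin_cases i
    · exact N.h0.trans (by norm_num)
    · exact N.h1.trans (by norm_num)
    · exact N.h2.trans (by norm_num)
  h := N.h

theorem kap_pos_of {w0 a κ : ℝ} (hw0 : 0 < w0) (ha : 0 < a) (hk : 10 ^ 6 * a ≤ w0 * κ) : 0 < κ := by
  by_contra h
  push Not at h
  have := mul_nonpos_of_nonneg_of_nonpos hw0.le h
  have h2 : 0 < 10 ^ 6 * a := by positivity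
  linarith

section
variable {e : Fin 3 → V3} {c T : Ln4} {w : V3} {q : ℝ → V3 → ℝ} {a z0 ρ r0 : ℝ}
  {b0 b1 : V3} {G : QF}


end

/-! ### plank form -/

/-- chart of the plank `S` around the line `T` -/
noncomputable def cP (S : Plk4) (z0 ρ : ℝ) (T : Ln4) (ζ y u v : ℝ) : V3 :=
  cx S.e S.w (expP S z0 ρ T).1 (kap (expP S z0 ρ T).1 (expP S z0 ρ T).2.1 (expP S z0 ρ T).2.2)
    z0 ρ T ζ y u v

section
variable {S : Plk4} {T : Ln4} {z0 ρ r0 : ℝ}




end

end Crest.Agent.R136.Adj214
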