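import Mathlib
import Crest.Agent.R136.Sh1_605

/-!
# R136, PLAN 2 (3) (aligned curved pairs): the grid of a class (helper862)

Heights `zj z0 ρ H j = z0 + ρ j / H` and labels `gb e c w1 w2 z0 ρ H t j : ℤ × ℤ` = cell of the line
`t` at the height `z_j` in the grid of sides `w1 / H`, `w2 / H` of the frame `e 1`, `e 2` around `c`.

* `gb_close` : same label ⊢ the lateral differences are less than `w_k / H`;
* `gb_near`  : differences at most `r w_k / H` ⊢ the labels differ by at most `r + 1`;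
* `gb_card`  : at most `(2 B H + 3)^2` labels at one height on a class of extent `B w_k`;
* `gb_nbh`   : lines within `r w_k / H` of `t` have at most `(2 r + 3)^2` labels;
* `gb_change`: change of the frame (long axes within `W w2 / w1`).
* `gn`       : labels `(z, y1, y2)` in `Fin 3 → ℕ`.
-/

set_option autoImplicit false

namespace Crest.Agent.R136.Gbx862

open Finset Crest.Agent.R136.Sh605

/-! ### one dimension -/

theorem fl_close {x y w H : ℝ} (hw : 0 < w) (hH : 0 < H) (h : ⌊H * x / w⌋ = ⌊H * y / w⌋) :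
    |x - y| < w / H := by
  have h1 := Int.abs_sub_lt_one_of_floor_eq_floor h
  have h2 : H * x / w - H * y / w = (x - y) * (H / w) := by ring
  rw [h2, abs_mul, abs_of_pos (by positivity : 0 < H / w)] at h1
  rw [lt_div_iff₀ hH]
  have h3 : |x - y| * H = |x - y| * (H / w) * w := by field_simp
  rw [h3]
  nlinarith


theorem fl_range {x w H B : ℝ} (hw : 0 < w) (hH : 0 < H) (h : |x| ≤ B * w) :
    -(B * H + 1) ≤ ((⌊H * x / w⌋ : ℤ) : ℝ) ∧ ((⌊H * x / w⌋ : ℤ) : ℝ) ≤ B * H := by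
  have h1 := Int.floor_le (H * x / w)
  have h2 := Int.lt_floor_add_one (H * x / w)
  have h5 : |H * x / w| ≤ B * H := by
    have : H * x / w = x * (H / w) := by ring
    rw [this, abs_mul, abs_of_pos (by positivity : 0 < H / w)]
    calc |x| * (H / w) ≤ B * w * (H / w) := mul_le_mul_of_nonneg_right h (by positivity)
      _ = B * H := by field_simp
  rw [abs_le] at h5
  constructor <;> linarith [h5.1, h5.2]

/-- integers within `s` of `x` -/
theorem card_int {A : Finset ℤ} {x s : ℝ} (hs : 0 ≤ s) (h : ∀ m ∈ A, |(m : ℝ) - x| ≤ s) :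
    (A.card : ℝ) ≤ 2 * s + 1 := by
  have h1 : A ⊆ Icc ⌈x - s⌉ ⌊x + s⌋ := by
    intro m hm
    have h2 := abs_le.1 (h m hm)
    rw [mem_Icc]
    exact ⟨Int.ceil_le.2 (by linarith [h2.1]), Int.le_floor.2 (by linarith [h2.2])⟩
  have h3 : (A.card : ℝ) ≤ ((Icc ⌈x - s⌉ ⌊x + s⌋).card : ℝ) := by exact_mod_cast card_le_card h1
  refine h3.trans ?_
  rw [Int.card_Icc]
  have h4 := Int.floor_le (x + s)
  have h5 := Int.le_ceil (x - s)
  rcases le_or_gt 0 (⌊x + s⌋ + 1 - ⌈x - s⌉) with h6 | h6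
  · have h7 : (((⌊x + s⌋ + 1 - ⌈x - s⌉).toNat : ℕ) : ℝ) = ((⌊x + s⌋ + 1 - ⌈x - s⌉ : ℤ) : ℝ) := by
      exact_mod_cast Int.toNat_of_nonneg h6
    rw [h7]; push_cast; linarith
  · rw [Int.toNat_of_nonpos h6.le]; push_cast; linarith

/-- pairs of integers within `s` of `(x, y)` -/
theorem card_int2 {A : Finset (ℤ × ℤ)} {x y s : ℝ} (hs : 0 ≤ s)
    (h1 : ∀ m ∈ A, |(m.1 : ℝ) - x| ≤ s) (h2 : ∀ m ∈ A, |(m.2 : ℝ) - y| ≤ s) :
    (A.card : ℝ) ≤ (2 * s + 1) ^ 2 := by
  classical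
  have h3 : A ⊆ (A.image Prod.fst) ×ˢ (A.image Prod.snd) := by
    intro m hm
    rw [mem_product]
    exact ⟨mem_image_of_mem _ hm, mem_image_of_mem _ hm⟩
  have h4 : (A.card : ℝ) ≤ ((A.image Prod.fst).card : ℝ) * ((A.image Prod.snd).card : ℝ) := by
    have := card_le_card h3
    rw [card_product] at this
    exact_mod_cast this
  have h5 : ((A.image Prod.fst).card : ℝ) ≤ 2 * s + 1 := by
    refine card_int (x := x) hs fun m hm => ?_
    obtain ⟨p, hp, rfl⟩ := mem_image.1 hm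
    exact h1 p hp
  have h6 : ((A.image Prod.snd).card : ℝ) ≤ 2 * s + 1 := by
    refine card_int (x := y) hs fun m hm => ?_
    obtain ⟨p, hp, rfl⟩ := mem_image.1 hm
    exact h2 p hp
  calc (A.card : ℝ) ≤ _ := h4
    _ ≤ (2 * s + 1) * (2 * s + 1) := mul_le_mul h5 h6 (by positivity) (by linarith)
    _ = _ := by ring

/-! ### heights and labels -/

/-- the height number `j` of `H` -/
noncomputable def zj (z0 ρ : ℝ) (H j : ℕ) : ℝ := z0 + ρ * ((j : ℝ) / H)

theorem zj_mem {z0 ρ : ℝ} {H j : ℕ} (hρ : 0 ≤ ρ) (h : j ≤ H) :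
    z0 ≤ zj z0 ρ H j ∧ zj z0 ρ H j ≤ z0 + ρ := by
  unfold zj
  have h0 : (0:ℝ) ≤ (j : ℝ) / H := by positivity
  have h1 : (j : ℝ) / H ≤ 1 := by
    rcases Nat.eq_zero_or_pos H with h2 | h2
    · subst h2; simp
    · rw [div_le_one (by exact_mod_cast h2)]; exact_mod_cast h
  constructor
  · nlinarith
  · nlinarith


/-- lateral coordinate `k` of `t` relative to `c` at the height `z` -/
def lc (e : Fin 3 → V3) (c : Ln4) (k : Fin 3) (t : Ln4) (z : ℝ) : ℝ := dt (e k) (t.pos z - c.pos z)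

theorem lc_sub (e : Fin 3 → V3) (c : Ln4) (k : Fin 3) (t t' : Ln4) (z : ℝ) :
    lc e c k t z - lc e c k t' z = dt (e k) (t.pos z - t'.pos z) := by
  unfold lc; simp only [dt_sub]; ring

/-- the label of the line `t` at the height `z_j` -/
noncomputable def gb (e : Fin 3 → V3) (c : Ln4) (w1 w2 z0 ρ : ℝ) (H : ℕ) (t : Ln4) (j : ℕ) : ℤ × ℤ :=
  (⌊(H : ℝ) * lc e c 1 t (zj z0 ρ H j) / w1⌋, ⌊(H : ℝ) * lc e c 2 t (zj z0 ρ H j) / w2⌋)

section
variable {e : Fin 3 → V3} {c : Ln4} {w1 w2 z0 ρ : ℝ} {H : ℕ}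

/-- same label ⊢ close -/
theorem gb_close (h1 : 0 < w1) (h2 : 0 < w2) (hH : 0 < H) {t t' : Ln4} {j : ℕ}
    (h : gb e c w1 w2 z0 ρ H t j = gb e c w1 w2 z0 ρ H t' j) :
    |dt (e 1) (t.pos (zj z0 ρ H j) - t'.pos (zj z0 ρ H j))| < w1 / H ∧
    |dt (e 2) (t.pos (zj z0 ρ H j) - t'.pos (zj z0 ρ H j))| < w2 / H := by
  have hH' : (0:ℝ) < H := by exact_mod_cast hH
  unfold gb at h
  rw [Prod.mk.injEq] at h
  have a1 := fl_close h1 hH' h.1
  have a2 := fl_close h2 hH' h.2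
  rw [lc_sub] at a1 a2
  exact ⟨a1, a2⟩


open Classical in
/-- number of labels at one height -/
theorem gb_card (h1 : 0 < w1) (h2 : 0 < w2) (hH : 0 < H) {ι : Type} (L : ι → Ln4) (A : Finset ι)
    (j : ℕ) {B : ℝ} (hB : 0 ≤ B) (a1 : ∀ t ∈ A, |lc e c 1 (L t) (zj z0 ρ H j)| ≤ B * w1)
    (a2 : ∀ t ∈ A, |lc e c 2 (L t) (zj z0 ρ H j)| ≤ B * w2) :
    ((A.image fun t => gb e c w1 w2 z0 ρ H (L t) j).card : ℝ) ≤ (2 * (B * H) + 3) ^ 2 := by
  have hH' : (0:ℝ) < H := by exact_mod_cast hH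
  have e1 : (2 * (B * H) + 3 : ℝ) ^ 2 = (2 * (B * H + 1) + 1) ^ 2 := by ring
  rw [e1]
  refine card_int2 (x := 0) (y := 0) (by positivity) ?_ ?_
  · intro m hm
    obtain ⟨t, ht, rfl⟩ := mem_image.1 hm
    have := fl_range h1 hH' (a1 t ht)
    rw [sub_zero, abs_le]
    exact ⟨this.1, this.2.trans (by linarith)⟩
  · intro m hm
    obtain ⟨t, ht, rfl⟩ := mem_image.1 hm
    have := fl_range h2 hH' (a2 t ht)
    rw [sub_zero, abs_le]
    exact ⟨this.1, this.2.trans (by linarith)⟩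



end

/-! ### change of the frame -/

/-- a scalar product in an orthonormal frame -/
theorem dt_frame {e : Fin 3 → V3} (h : Ortho e) (f u : V3) :
    dt f u = dt f (e 0) * dt (e 0) u + dt f (e 1) * dt (e 1) u + dt f (e 2) * dt (e 2) u := by
  have h0 := h.expand u 0
  have h1 := h.expand u 1
  have h2 := h.expand u 2
  have : dt f u = f 0 * u 0 + f 1 * u 1 + f 2 * u 2 := rfl
  rw [this, h0, h1, h2]
  simp only [dt]; ring

theorem dt_le_one {f g : V3} (hf : dt f f = 1) (hg : dt g g = 1) : |dt f g| ≤ 1 := by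
  have h : dt f g ^ 2 ≤ 1 := by
    have h1 : dt f g ^ 2 ≤ dt f f * dt g g := by
      simp only [dt]
      nlinarith [sq_nonneg (f 0 * g 1 - f 1 * g 0), sq_nonneg (f 0 * g 2 - f 2 * g 0),
        sq_nonneg (f 1 * g 2 - f 2 * g 1)]
    rw [hf, hg] at h1; linarith
  rw [← sq_le_one_iff_abs_le_one]; exact h



/-! ### labels in `Fin 3 → ℕ` -/







end Crest.Agent.R136.Gbx862
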