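import Mathlib

/-!
# R136 tilt lemma, counting core (helper51): "class counting at a deeper level"

`P` = incidences (line, deep cell) of one parent cell.  Labels:
* `S x` = (first class, deep cell), `s x` = its small box;
* `C x` = (second class, deep cell), `t x` = its small box.

If every first class has many lines over every deep cell (`M1`), every second class too (`M2`), there
are few small boxes per class (`K1`, `K2`), a second class captures at most `s0` lines of an `s`-box
outside an exceptional set `Bad`, and all `t`-boxes meeting one `s`-box contain together at most `D`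
incidences, then `M1 * M2 ≤ 16 * K1 * K2 * s0 * D`.
-/

set_option autoImplicit false
set_option linter.unusedVariables false
set_option linter.unusedSectionVars false

open Finset

namespace Crest.Agent.R136.Deep51

/-- fibre decomposition with real values -/
theorem card_fib {X γ : Type*} [DecidableEq γ] (Q : Finset X) (T : Finset γ) (f : X → γ)
    (h : ∀ x ∈ Q, f x ∈ T) :
    (Q.card : ℝ) = ∑ g ∈ T, ((Q.filter fun x => f x = g).card : ℝ) := by
  rw [card_eq_sum_card_fiberwise h]
  push_cast
  rfl

/-- a set all of whose fibres are small -/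
theorem card_le_of_fib {X γ : Type*} [DecidableEq γ] (Q : Finset X) (T : Finset γ) (f : X → γ)
    (h : ∀ x ∈ Q, f x ∈ T) {m K : ℝ} (hm : 0 ≤ m) (hT : (T.card : ℝ) ≤ K)
    (hq : ∀ g ∈ T, ((Q.filter fun x => f x = g).card : ℝ) ≤ m) : (Q.card : ℝ) ≤ K * m := by
  rw [card_fib Q T f h]
  refine (sum_le_sum hq).trans ?_
  rw [sum_const, nsmul_eq_mul]
  exact mul_le_mul_of_nonneg_right hT hm




/-- disjoint classes inside a set -/
theorem classes_le {X δ : Type*} [DecidableEq X] [DecidableEq δ] (Z : Finset X) (T : Finset δ)
    (C : X → δ) {m : ℝ} (h : ∀ c ∈ T, m ≤ ((Z.filter fun z => C z = c).card : ℝ)) :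
    (T.card : ℝ) * m ≤ (Z.card : ℝ) := by
  have h1 : (∑ c ∈ T, ((Z.filter fun z => C z = c).card : ℝ)) ≤ (Z.card : ℝ) := by
    have h2 : (∑ c ∈ T, (Z.filter fun z => C z = c).card) ≤ Z.card := by
      rw [← card_biUnion]
      · refine card_le_card ?_
        intro z hz
        rw [mem_biUnion] at hz
        obtain ⟨c, -, hz⟩ := hz
        exact (mem_filter.1 hz).1
      · intro c _ c' _ hcc
        rw [Function.onFun, disjoint_left]
        intro z hz hz'
        exact hcc ((mem_filter.1 hz).2.symm.trans (mem_filter.1 hz').2)
    exact_mod_cast h2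
  refine le_trans ?_ h1
  have h3 : (T.card : ℝ) * m = ∑ c ∈ T, m := by rw [sum_const, nsmul_eq_mul]
  rw [h3]
  exact sum_le_sum h


end Crest.Agent.R136.Deep51
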