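import Mathlib
import Crest.Agent.R136.Sh1_605
import Crest.Agent.R136.KS4_879

-- ▼ part R136/KR1_879
section

/-!
# Katz-Rogers bound for quadric sheets in R^4, part 1: pairs of lines

Lines `(x, b)` (position at time 0, velocity) of a sheet `{|q| ≤ a}`, `q` a quadratic
polynomial with `1/2 ≤ ∂_0 q ≤ 2`.  All information used is `LD` (position, velocity,
gradient of `q` at the position, gradient of the top part at the velocity) and the four
pair relations `Rel`.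
-/

namespace Crest.Agent.R136.KR879

structure LD where
  x0 : ℝ
  x1 : ℝ
  x2 : ℝ
  b0 : ℝ
  b1 : ℝ
  b2 : ℝ
  n0 : ℝ
  n1 : ℝ
  n2 : ℝ
  R0 : ℝ
  R1 : ℝ
  R2 : ℝ

/-- the four relations between two lines of the same sheet -/
structure Rel (e : ℝ) (p p' : LD) : Prop where
  A : |(p.n0 + p'.n0) * (p'.x0 - p.x0) + (p.n1 + p'.n1) * (p'.x1 - p.x1)
        + (p.n2 + p'.n2) * (p'.x2 - p.x2)| ≤ e
  B : |(p'.n0 * (p'.b0 - p.b0) + p'.n1 * (p'.b1 - p.b1) + p'.n2 * (p'.b2 - p.b2))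
        + (p.R0 * (p'.x0 - p.x0) + p.R1 * (p'.x1 - p.x1) + p.R2 * (p'.x2 - p.x2))| ≤ e
  C : |(p.n0 * (p'.b0 - p.b0) + p.n1 * (p'.b1 - p.b1) + p.n2 * (p'.b2 - p.b2))
        + (p'.R0 * (p'.x0 - p.x0) + p'.R1 * (p'.x1 - p.x1) + p'.R2 * (p'.x2 - p.x2))| ≤ e
  D : |(p.R0 + p'.R0) * (p'.b0 - p.b0) + (p.R1 + p'.R1) * (p'.b1 - p.b1)
        + (p.R2 + p'.R2) * (p'.b2 - p.b2)| ≤ e

/-- one line -/
structure Ok (a δ w1 w2 : ℝ) (p : LD) : Prop where
  hx1 : |p.x1| ≤ w1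
  hx2 : |p.x2| ≤ w2
  hb1 : |p.b1| ≤ 2 * w1
  hb2 : |p.b2| ≤ 2 * w2
  hn0 : 1 / 2 ≤ p.n0
  hR0 : |p.R0| ≤ 3 / 2
  hn1 : |p.n1| * δ ≤ a
  hn2 : |p.n2| * δ ≤ a
  hR1 : |p.R1| * δ ≤ 2 * a
  hR2 : |p.R2| * δ ≤ 2 * a

noncomputable def LD.kap (p : LD) : ℝ := p.R0 / p.n0
noncomputable def LD.rho1 (p : LD) : ℝ := p.R1 - p.kap * p.n1
noncomputable def LD.rho2 (p : LD) : ℝ := p.R2 - p.kap * p.n2

lemma kap_mul {a δ w1 w2 : ℝ} {p : LD} (h : Ok a δ w1 w2 p) : p.kap * p.n0 = p.R0 := by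
  have : p.n0 ≠ 0 := by have := h.hn0; linarith
  unfold LD.kap; field_simp

lemma kap_abs {a δ w1 w2 : ℝ} {p : LD} (h : Ok a δ w1 w2 p) : |p.kap| ≤ 2 * |p.R0| := by
  have h0 := h.hn0
  have h1 := kap_mul h
  have h2 : |p.kap| * p.n0 = |p.R0| := by
    rw [← h1, abs_mul, abs_of_pos (by linarith : 0 < p.n0)]
  nlinarith [abs_nonneg p.kap]

lemma kap_abs3 {a δ w1 w2 : ℝ} {p : LD} (h : Ok a δ w1 w2 p) : |p.kap| ≤ 3 := by
  have := kap_abs h; have := h.hR0; linarith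

lemma kap_nonneg {a δ w1 w2 : ℝ} {p : LD} (h : Ok a δ w1 w2 p) (hR : 0 ≤ p.R0) :
    0 ≤ p.kap := by
  unfold LD.kap; exact div_nonneg hR (by have := h.hn0; linarith)

lemma kap_nonpos {a δ w1 w2 : ℝ} {p : LD} (h : Ok a δ w1 w2 p) (hR : p.R0 ≤ 0) :
    p.kap ≤ 0 := by
  unfold LD.kap; exact div_nonpos_of_nonpos_of_nonneg hR (by have := h.hn0; linarith)

lemma rho1_abs {a δ w1 w2 : ℝ} {p : LD} (hδ : 0 < δ) (h : Ok a δ w1 w2 p) :
    |p.rho1| * δ ≤ 5 * a := by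
  have h1 : |p.rho1| ≤ |p.R1| + |p.kap| * |p.n1| := by
    unfold LD.rho1; rw [← abs_mul]; exact abs_sub _ _
  have h2 := kap_abs3 h
  have h3 : |p.kap| * |p.n1| * δ ≤ 3 * a := by
    have : |p.kap| * (|p.n1| * δ) ≤ 3 * a :=
      mul_le_mul h2 h.hn1 (by positivity) (by norm_num)
    linarith
  have := h.hR1
  nlinarith

lemma rho2_abs {a δ w1 w2 : ℝ} {p : LD} (hδ : 0 < δ) (h : Ok a δ w1 w2 p) :
    |p.rho2| * δ ≤ 5 * a := by
  have h1 : |p.rho2| ≤ |p.R2| + |p.kap| * |p.n2| := by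
    unfold LD.rho2; rw [← abs_mul]; exact abs_sub _ _
  have h2 := kap_abs3 h
  have h3 : |p.kap| * |p.n2| * δ ≤ 3 * a := by
    have : |p.kap| * (|p.n2| * δ) ≤ 3 * a :=
      mul_le_mul h2 h.hn2 (by positivity) (by norm_num)
    linarith
  have := h.hR2
  nlinarith

/-- `ρ · Δx` -/
lemma rhox_abs {a δ w1 w2 : ℝ} {p p' q : LD} (_hw1 : 0 ≤ w1) (_hw2 : 0 ≤ w2)
    (h : Ok a δ w1 w2 p) (h' : Ok a δ w1 w2 p') :
    |q.rho1 * (p'.x1 - p.x1) + q.rho2 * (p'.x2 - p.x2)|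
      ≤ 2 * (|q.rho1| * w1) + 2 * (|q.rho2| * w2) := by
  have e1 : |p'.x1 - p.x1| ≤ 2 * w1 := by
    have := abs_sub p'.x1 p.x1; have := h.hx1; have := h'.hx1; linarith
  have e2 : |p'.x2 - p.x2| ≤ 2 * w2 := by
    have := abs_sub p'.x2 p.x2; have := h.hx2; have := h'.hx2; linarith
  calc |q.rho1 * (p'.x1 - p.x1) + q.rho2 * (p'.x2 - p.x2)|
      ≤ |q.rho1| * |p'.x1 - p.x1| + |q.rho2| * |p'.x2 - p.x2| := by
        rw [← abs_mul, ← abs_mul]; exact abs_add_le _ _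
    _ ≤ |q.rho1| * (2 * w1) + |q.rho2| * (2 * w2) := by gcongr
    _ = _ := by ring

lemma half_up {n d M : ℝ} (hn : 1 / 2 ≤ n) (hM : 0 ≤ M) (h : n * d ≤ M) : d ≤ 2 * M := by
  by_cases hd : d ≤ 0
  · linarith
  · push Not at hd
    nlinarith

lemma half_lo {n d M : ℝ} (hn : 1 / 2 ≤ n) (hM : 0 ≤ M) (h : -M ≤ n * d) : -(2 * M) ≤ d := by
  have := half_up (d := -d) hn hM (by linarith)
  linarith

lemma alpha_scalar {A A' κ κ' n n' d ε1 ε2 e m : ℝ} (he : 0 ≤ e) (hm : 0 ≤ m)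
    (hn : 1 / 2 ≤ n) (hn' : 1 / 2 ≤ n')
    (e1 : n' * d = -(κ * A) + ε1) (e2 : n * d = -(κ' * A') + ε2) (hAA : |A + A'| ≤ e)
    (h1 : |ε1| ≤ m) (h2 : |ε2| ≤ m) (hk : |κ'| ≤ 3)
    (hs : (0 ≤ κ ∧ 0 ≤ κ') ∨ (κ ≤ 0 ∧ κ' ≤ 0)) : |d| ≤ 2 * (m + 3 * e) := by
  have hM : 0 ≤ m + 3 * e := by positivity
  have a1 := abs_le.1 hAA
  have a2 := abs_le.1 h1
  have a3 := abs_le.1 h2
  have a4 := abs_le.1 hk
  obtain ⟨a11, a12⟩ := a1
  obtain ⟨a21, a22⟩ := a2
  obtain ⟨a31, a32⟩ := a3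
  obtain ⟨a41, a42⟩ := a4
  clear hAA h1 h2 hk
  rw [abs_le]
  rcases hs with ⟨q1, q2⟩ | ⟨q1, q2⟩
  · by_cases hA0 : 0 ≤ A
    · have u1 : 0 ≤ κ * A := mul_nonneg q1 hA0
      have u2 : κ' * A' ≤ 3 * e := by
        have h5 : κ' * A' ≤ κ' * e := mul_le_mul_of_nonneg_left (by linarith) q2
        have h6 : κ' * e ≤ 3 * e := mul_le_mul_of_nonneg_right a42 he
        linarith
      exact ⟨half_lo hn hM (by linarith), half_up hn' hM (by linarith)⟩
    · push Not at hA0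
      have u1 : κ * A ≤ 0 := mul_nonpos_of_nonneg_of_nonpos q1 hA0.le
      have u2 : -(3 * e) ≤ κ' * A' := by
        have h5 : κ' * (-e) ≤ κ' * A' := mul_le_mul_of_nonneg_left (by linarith) q2
        have h6 : κ' * e ≤ 3 * e := mul_le_mul_of_nonneg_right a42 he
        linarith
      exact ⟨half_lo hn' hM (by linarith), half_up hn hM (by linarith)⟩
  · by_cases hA0 : 0 ≤ A
    · have u1 : κ * A ≤ 0 := mul_nonpos_of_nonpos_of_nonneg q1 hA0
      have u2 : -(3 * e) ≤ κ' * A' := by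
        have h5 : κ' * e ≤ κ' * A' := mul_le_mul_of_nonpos_left (by linarith) q2
        have h6 : (-3) * e ≤ κ' * e := mul_le_mul_of_nonneg_right a41 he
        linarith
      exact ⟨half_lo hn' hM (by linarith), half_up hn hM (by linarith)⟩
    · push Not at hA0
      have u1 : 0 ≤ κ * A := mul_nonneg_of_nonpos_of_nonpos q1 hA0.le
      have u2 : κ' * A' ≤ 3 * e := by
        have h5 : κ' * A' ≤ κ' * (-e) := mul_le_mul_of_nonpos_left (by linarith) q2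
        have h6 : (-3) * e ≤ κ' * e := mul_le_mul_of_nonneg_right a41 he
        linarith
      exact ⟨half_lo hn hM (by linarith), half_up hn' hM (by linarith)⟩

/-- (i): two lines with the same `(b1, b2)` and the same sign of `R0` -/
lemma alpha {a δ w1 w2 e r : ℝ} {p p' : LD} (ha : 0 ≤ a) (he : 0 ≤ e)
    (hw1 : 0 ≤ w1) (hw2 : 0 ≤ w2) (h : Ok a δ w1 w2 p) (h' : Ok a δ w1 w2 p')
    (hr : Rel e p p') (h1 : |p'.b1 - p.b1| ≤ δ) (h2 : |p'.b2 - p.b2| ≤ δ)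
    (hs : (0 ≤ p.R0 ∧ 0 ≤ p'.R0) ∨ (p.R0 ≤ 0 ∧ p'.R0 ≤ 0))
    (hr1 : |p.rho1| * w1 ≤ r) (hr2 : |p.rho2| * w2 ≤ r)
    (hr1' : |p'.rho1| * w1 ≤ r) (hr2' : |p'.rho2| * w2 ≤ r) :
    |p'.b0 - p.b0| ≤ 8 * e + 4 * a + 8 * r := by
  have hk := kap_mul h
  have hk' := kap_mul h'
  obtain ⟨hA, hB, hC, -⟩ := hr
  have hAA : |(p.n0 * (p'.x0 - p.x0) + p.n1 * (p'.x1 - p.x1) + p.n2 * (p'.x2 - p.x2))
      + (p'.n0 * (p'.x0 - p.x0) + p'.n1 * (p'.x1 - p.x1) + p'.n2 * (p'.x2 - p.x2))| ≤ e := by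
    refine le_of_eq_of_le ?_ hA
    congr 1; ring
  have t1 : |p'.n1 * (p'.b1 - p.b1)| ≤ a := by
    rw [abs_mul]
    exact (mul_le_mul_of_nonneg_left h1 (abs_nonneg _)).trans h'.hn1
  have t2 : |p'.n2 * (p'.b2 - p.b2)| ≤ a := by
    rw [abs_mul]
    exact (mul_le_mul_of_nonneg_left h2 (abs_nonneg _)).trans h'.hn2
  have t3 : |p.n1 * (p'.b1 - p.b1)| ≤ a := by
    rw [abs_mul]
    exact (mul_le_mul_of_nonneg_left h1 (abs_nonneg _)).trans h.hn1
  have t4 : |p.n2 * (p'.b2 - p.b2)| ≤ a := by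
    rw [abs_mul]
    exact (mul_le_mul_of_nonneg_left h2 (abs_nonneg _)).trans h.hn2
  have t5 := (rhox_abs (q := p) hw1 hw2 h h').trans
    (by linarith : 2 * (|p.rho1| * w1) + 2 * (|p.rho2| * w2) ≤ 4 * r)
  have t6 := (rhox_abs (q := p') hw1 hw2 h h').trans
    (by linarith : 2 * (|p'.rho1| * w1) + 2 * (|p'.rho2| * w2) ≤ 4 * r)
  have m0 : 0 ≤ r := le_trans (by positivity) hr1
  have comb : ∀ X u v w : ℝ, |X| ≤ e → |u| ≤ a → |v| ≤ a → |w| ≤ 4 * r →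
      |X - u - v - w| ≤ e + 2 * a + 4 * r := by
    intro X u v w h1 h2 h3 h4
    rw [abs_le] at *
    constructor <;> linarith [h1.1, h1.2, h2.1, h2.2, h3.1, h3.2, h4.1, h4.2]
  have := alpha_scalar (d := p'.b0 - p.b0) (κ := p.kap) (κ' := p'.kap) (n := p.n0)
    (n' := p'.n0) he (by positivity : 0 ≤ e + 2 * a + 4 * r) h.hn0 h'.hn0
    (e1 := by rw [← hk]; unfold LD.rho1 LD.rho2; ring)
    (e2 := by rw [← hk']; unfold LD.rho1 LD.rho2; ring) hAA
    (comb _ _ _ _ hB t1 t2 t5) (comb _ _ _ _ hC t3 t4 t6) (kap_abs3 h')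
    (by
      rcases hs with ⟨s1, s2⟩ | ⟨s1, s2⟩
      · exact Or.inl ⟨kap_nonneg h s1, kap_nonneg h' s2⟩
      · exact Or.inr ⟨kap_nonpos h s1, kap_nonpos h' s2⟩)
  linarith

/-- (ii): two lines with the same `(b1, b2)` and `|R0| ≥ k`, same sign -/
lemma beta {a δ w1 w2 e k : ℝ} {p p' : LD} (h : Ok a δ w1 w2 p) (h' : Ok a δ w1 w2 p')
    (hr : Rel e p p') (h1 : |p'.b1 - p.b1| ≤ δ) (h2 : |p'.b2 - p.b2| ≤ δ)
    (hk : k ≤ |p.R0|) (hk' : k ≤ |p'.R0|) (hk0 : 0 < k)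
    (hs : (0 ≤ p.R0 ∧ 0 ≤ p'.R0) ∨ (p.R0 ≤ 0 ∧ p'.R0 ≤ 0)) :
    |p'.b0 - p.b0| ≤ (e + 8 * a) / (2 * k) := by
  have hD := hr.D
  have t : ∀ u v : ℝ, |u| * δ ≤ 2 * a → |v| ≤ δ → |u * v| ≤ 2 * a := by
    intro u v hu hv
    rw [abs_mul]
    exact (mul_le_mul_of_nonneg_left hv (abs_nonneg _)).trans hu
  have t1 := t _ _ h.hR1 h1
  have t2 := t _ _ h'.hR1 h1
  have t3 := t _ _ h.hR2 h2
  have t4 := t _ _ h'.hR2 h2
  have g : |(p.R0 + p'.R0) * (p'.b0 - p.b0)| ≤ e + 8 * a := by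
    rw [abs_le] at *
    constructor <;> linarith [hD.1, hD.2, t1.1, t1.2, t2.1, t2.2, t3.1, t3.2, t4.1, t4.2]
  have g2 : 2 * k ≤ |p.R0 + p'.R0| := by
    rcases hs with ⟨s1, s2⟩ | ⟨s1, s2⟩
    · rw [abs_of_nonneg s1] at hk; rw [abs_of_nonneg s2] at hk'
      rw [abs_of_nonneg (by linarith)]; linarith
    · rw [abs_of_nonpos s1] at hk; rw [abs_of_nonpos s2] at hk'
      rw [abs_of_nonpos (by linarith)]; linarith
  rw [le_div_iff₀ (by linarith)]
  rw [abs_mul] at g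
  nlinarith [abs_nonneg (p'.b0 - p.b0)]

/-- (iii): two lines with the same `b2`; `ρ₁` dominates -/
lemma gamma {a δ w1 w2 e K : ℝ} {p p' : LD} (hδ : 0 < δ)
    (hw1 : 0 ≤ w1) (hw2 : 0 ≤ w2) (h : Ok a δ w1 w2 p) (h' : Ok a δ w1 w2 p')
    (hr : Rel e p p') (h2 : |p'.b2 - p.b2| ≤ δ)
    (hd : |p.rho2| * w2 ≤ |p.rho1| * w1) (hd' : |p'.rho2| * w2 ≤ |p'.rho1| * w1)
    (hK : |p.kap| ≤ K) (hK' : |p'.kap| ≤ K)
    (hs : (0 ≤ p.rho1 ∧ 0 ≤ p'.rho1) ∨ (p.rho1 ≤ 0 ∧ p'.rho1 ≤ 0)) :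
    |p'.b1 - p.b1| * (|p.rho1| + |p'.rho1|)
      ≤ 16 * e + 10 * a + 4 * w1 * K * (|p.rho1| + |p'.rho1|) := by
  have hk := kap_mul h
  have hk' := kap_mul h'
  have k3 := kap_abs3 h
  have k3' := kap_abs3 h'
  obtain ⟨hA, hB, hC, hD⟩ := hr
  have id : (p.rho1 + p'.rho1) * (p'.b1 - p.b1) =
      ((p.R0 + p'.R0) * (p'.b0 - p.b0) + (p.R1 + p'.R1) * (p'.b1 - p.b1)
        + (p.R2 + p'.R2) * (p'.b2 - p.b2))
      - p.kap * ((p.n0 * (p'.b0 - p.b0) + p.n1 * (p'.b1 - p.b1) + p.n2 * (p'.b2 - p.b2))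
        + (p'.R0 * (p'.x0 - p.x0) + p'.R1 * (p'.x1 - p.x1) + p'.R2 * (p'.x2 - p.x2)))
      - p'.kap * ((p'.n0 * (p'.b0 - p.b0) + p'.n1 * (p'.b1 - p.b1) + p'.n2 * (p'.b2 - p.b2))
        + (p.R0 * (p'.x0 - p.x0) + p.R1 * (p'.x1 - p.x1) + p.R2 * (p'.x2 - p.x2)))
      + p.kap * p'.kap * ((p.n0 + p'.n0) * (p'.x0 - p.x0) + (p.n1 + p'.n1) * (p'.x1 - p.x1)
        + (p.n2 + p'.n2) * (p'.x2 - p.x2))
      - (p.rho2 + p'.rho2) * (p'.b2 - p.b2)
      + p'.kap * (p.rho1 * (p'.x1 - p.x1) + p.rho2 * (p'.x2 - p.x2))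
      + p.kap * (p'.rho1 * (p'.x1 - p.x1) + p'.rho2 * (p'.x2 - p.x2)) := by
    rw [← hk, ← hk']; unfold LD.rho1 LD.rho2; ring
  have t5 := rhox_abs (q := p) hw1 hw2 h h'
  have t6 := rhox_abs (q := p') hw1 hw2 h h'
  have K0 : 0 ≤ K := (abs_nonneg _).trans hK
  have b1 : |p.kap * ((p.n0 * (p'.b0 - p.b0) + p.n1 * (p'.b1 - p.b1) + p.n2 * (p'.b2 - p.b2))
        + (p'.R0 * (p'.x0 - p.x0) + p'.R1 * (p'.x1 - p.x1) + p'.R2 * (p'.x2 - p.x2)))|
        ≤ 3 * e := by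
    rw [abs_mul]; exact mul_le_mul k3 hC (abs_nonneg _) (by norm_num)
  have b2 : |p'.kap * ((p'.n0 * (p'.b0 - p.b0) + p'.n1 * (p'.b1 - p.b1)
        + p'.n2 * (p'.b2 - p.b2))
        + (p.R0 * (p'.x0 - p.x0) + p.R1 * (p'.x1 - p.x1) + p.R2 * (p'.x2 - p.x2)))|
        ≤ 3 * e := by
    rw [abs_mul]; exact mul_le_mul k3' hB (abs_nonneg _) (by norm_num)
  have b3 : |p.kap * p'.kap * ((p.n0 + p'.n0) * (p'.x0 - p.x0)
        + (p.n1 + p'.n1) * (p'.x1 - p.x1) + (p.n2 + p'.n2) * (p'.x2 - p.x2))| ≤ 9 * e := by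
    rw [abs_mul, abs_mul]
    have : |p.kap| * |p'.kap| ≤ 9 := by
      have := mul_le_mul k3 k3' (abs_nonneg _) (by norm_num : (0:ℝ) ≤ 3)
      linarith
    exact mul_le_mul this hA (abs_nonneg _) (by norm_num)
  have b4 : |(p.rho2 + p'.rho2) * (p'.b2 - p.b2)| ≤ 10 * a := by
    rw [abs_mul]
    have c1 := rho2_abs hδ h
    have c2 := rho2_abs hδ h'
    calc |p.rho2 + p'.rho2| * |p'.b2 - p.b2| ≤ (|p.rho2| + |p'.rho2|) * δ := by
          gcongr; exact abs_add_le _ _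
      _ ≤ 10 * a := by linarith
  have b5 : |p'.kap * (p.rho1 * (p'.x1 - p.x1) + p.rho2 * (p'.x2 - p.x2))|
      ≤ K * (4 * (|p.rho1| * w1)) := by
    rw [abs_mul]; exact mul_le_mul hK' (by linarith) (abs_nonneg _) K0
  have b6 : |p.kap * (p'.rho1 * (p'.x1 - p.x1) + p'.rho2 * (p'.x2 - p.x2))|
      ≤ K * (4 * (|p'.rho1| * w1)) := by
    rw [abs_mul]; exact mul_le_mul hK (by linarith) (abs_nonneg _) K0
  have tot : |(p.rho1 + p'.rho1) * (p'.b1 - p.b1)|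
      ≤ 16 * e + 10 * a + K * (4 * (|p.rho1| * w1)) + K * (4 * (|p'.rho1| * w1)) := by
    rw [id]
    rw [abs_le] at hD b1 b2 b3 b4 b5 b6 ⊢
    constructor <;> linarith [hD.1, hD.2, b1.1, b1.2, b2.1, b2.2, b3.1, b3.2, b4.1, b4.2,
      b5.1, b5.2, b6.1, b6.2]
  have hsum : |p.rho1 + p'.rho1| = |p.rho1| + |p'.rho1| := by
    rcases hs with ⟨s1, s2⟩ | ⟨s1, s2⟩
    · rw [abs_of_nonneg s1, abs_of_nonneg s2, abs_of_nonneg (by linarith)]
    · rw [abs_of_nonpos s1, abs_of_nonpos s2, abs_of_nonpos (by linarith)]; ring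
  rw [abs_mul, hsum] at tot
  linarith

/-! ### counting cells -/

lemma card_int_le {T : Finset ℤ} {M : ℝ} (hM : 0 ≤ M)
    (h : ∀ x ∈ T, ∀ y ∈ T, ((x : ℝ) - y) ≤ M) : (T.card : ℝ) ≤ M + 1 := by
  rcases T.eq_empty_or_nonempty with rfl | hT
  · simp; linarith
  · have hsub : T ⊆ Finset.Icc (T.min' hT) (T.min' hT + ⌊M⌋) := by
      intro x hx
      rw [Finset.mem_Icc]
      refine ⟨Finset.min'_le _ _ hx, ?_⟩
      have := h x hx _ (T.min'_mem hT)
      have h2 : x - T.min' hT ≤ ⌊M⌋ := by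
        apply Int.le_floor.2
        push_cast
        exact this
      linarith
    have := Finset.card_le_card hsub
    rw [Int.card_Icc] at this
    have h3 : (T.card : ℤ) ≤ ⌊M⌋ + 1 := by
      have h0 : (0:ℤ) ≤ ⌊M⌋ := Int.floor_nonneg.2 hM
      omega
    have h4 : (T.card : ℝ) ≤ (⌊M⌋ : ℝ) + 1 := by exact_mod_cast h3
    linarith [Int.floor_le M]

lemma card_fib {α β : Type*} [DecidableEq β] (s : Finset α) (f : α → β) {c : ℝ}
    (h : ∀ y ∈ s.image f, ((s.filter fun x => f x = y).card : ℝ) ≤ c) :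
    (s.card : ℝ) ≤ c * (s.image f).card := by
  classical
  rw [Finset.card_eq_sum_card_image f s]
  push_cast
  calc (∑ b ∈ s.image f, ((s.filter fun x => f x = b).card : ℝ))
      ≤ ∑ _b ∈ s.image f, c := Finset.sum_le_sum h
    _ = c * (s.image f).card := by rw [Finset.sum_const, nsmul_eq_mul]; ring

lemma card3 {ι : Type*} (s : Finset ι) (j0 j1 j2 : ι → ℤ)
    (hinj : ∀ l ∈ s, ∀ l' ∈ s, j0 l = j0 l' → j1 l = j1 l' → j2 l = j2 l' → l = l')
    {M0 M1 M2 : ℝ} (h0 : 0 ≤ M0) (h1 : 0 ≤ M1) (h2 : 0 ≤ M2)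
    (H0 : ∀ l ∈ s, ∀ l' ∈ s, j1 l = j1 l' → j2 l = j2 l' → (j0 l : ℝ) - j0 l' ≤ M0)
    (H1 : ∀ l ∈ s, ∀ l' ∈ s, j2 l = j2 l' → (j1 l : ℝ) - j1 l' ≤ M1)
    (H2 : ∀ l ∈ s, ∀ l' ∈ s, (j2 l : ℝ) - j2 l' ≤ M2) :
    (s.card : ℝ) ≤ (M0 + 1) * (M1 + 1) * (M2 + 1) := by
  classical
  -- step 1
  have s1 : (s.card : ℝ) ≤ (M0 + 1) * (s.image fun l => (j1 l, j2 l)).card := by
    apply card_fib
    rintro ⟨u, v⟩ -
    set F := s.filter fun l => (j1 l, j2 l) = (u, v) with hF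
    have hmem : ∀ l ∈ F, l ∈ s ∧ j1 l = u ∧ j2 l = v := by
      intro l hl
      rw [hF, Finset.mem_filter, Prod.mk.injEq] at hl
      exact hl
    have hc : (F.image j0).card = F.card := by
      apply Finset.card_image_of_injOn
      intro l hl l' hl' hll
      obtain ⟨a1, a2, a3⟩ := hmem l hl
      obtain ⟨b1, b2, b3⟩ := hmem l' hl'
      exact hinj l a1 l' b1 hll (a2.trans b2.symm) (a3.trans b3.symm)
    rw [← hc]
    apply card_int_le h0
    intro x hx y hy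
    obtain ⟨l, hl, rfl⟩ := Finset.mem_image.1 hx
    obtain ⟨l', hl', rfl⟩ := Finset.mem_image.1 hy
    obtain ⟨a1, a2, a3⟩ := hmem l hl
    obtain ⟨b1, b2, b3⟩ := hmem l' hl'
    exact H0 l a1 l' b1 (a2.trans b2.symm) (a3.trans b3.symm)
  -- step 2
  have s2 : ((s.image fun l => (j1 l, j2 l)).card : ℝ) ≤ (M1 + 1) * (s.image j2).card := by
    have him : (s.image fun l => (j1 l, j2 l)).image Prod.snd = s.image j2 := by
      rw [Finset.image_image]; rfl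
    rw [← him]
    apply card_fib
    intro v _
    set F := (s.image fun l => (j1 l, j2 l)).filter fun x => x.2 = v with hF
    have hc : (F.image Prod.fst).card = F.card := by
      apply Finset.card_image_of_injOn
      rintro ⟨a1, a2⟩ ha ⟨b1, b2⟩ hb hab
      have ha' := Finset.mem_filter.1 ha
      have hb' := Finset.mem_filter.1 hb
      simp only at ha' hb' hab
      rw [hab, ha'.2, hb'.2]
    rw [← hc]
    apply card_int_le h1
    intro x hx y hy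
    obtain ⟨⟨x1, x2⟩, hx', rfl⟩ := Finset.mem_image.1 hx
    obtain ⟨⟨y1, y2⟩, hy', rfl⟩ := Finset.mem_image.1 hy
    obtain ⟨hx1, hx2⟩ := Finset.mem_filter.1 hx'
    obtain ⟨hy1, hy2⟩ := Finset.mem_filter.1 hy'
    obtain ⟨l, hl, hl2⟩ := Finset.mem_image.1 hx1
    obtain ⟨l', hl', hl2'⟩ := Finset.mem_image.1 hy1
    rw [Prod.mk.injEq] at hl2 hl2'
    simp only at hx2 hy2 ⊢
    rw [← hl2.1, ← hl2'.1]
    exact H1 l hl l' hl' (by rw [hl2.2, hl2'.2, hx2, hy2])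
  -- step 3
  have s3 : ((s.image j2).card : ℝ) ≤ M2 + 1 := by
    apply card_int_le h2
    intro x hx y hy
    obtain ⟨l, hl, rfl⟩ := Finset.mem_image.1 hx
    obtain ⟨l', hl', rfl⟩ := Finset.mem_image.1 hy
    exact H2 l hl l' hl'
  calc (s.card : ℝ) ≤ (M0 + 1) * (s.image fun l => (j1 l, j2 l)).card := s1
    _ ≤ (M0 + 1) * ((M1 + 1) * (s.image j2).card) := by gcongr
    _ ≤ (M0 + 1) * ((M1 + 1) * (M2 + 1)) := by gcongr
    _ = _ := by ring

lemma floor_close {u v δ : ℝ} (hδ : 0 < δ) (h : ⌊u / δ⌋ = ⌊v / δ⌋) : |v - u| ≤ δ := by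
  have h1 := Int.abs_sub_lt_one_of_floor_eq_floor h
  have h2 : |u / δ - v / δ| * δ = |v - u| := by
    rw [← sub_div, abs_div, abs_of_pos hδ, abs_sub_comm]; field_simp
  nlinarith

lemma floor_sub_le {u v δ D : ℝ} (hδ : 0 < δ) (h : |v - u| ≤ D) :
    ((⌊u / δ⌋ : ℝ)) - ⌊v / δ⌋ ≤ D / δ + 1 := by
  have h1 := Int.floor_le (u / δ)
  have h2 := Int.lt_floor_add_one (v / δ)
  have h3 : u / δ - v / δ ≤ D / δ := by
    rw [← sub_div]
    apply div_le_div_of_nonneg_right _ hδ.le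
    have := (abs_le.1 h).1
    linarith
  linarith

end Crest.Agent.R136.KR879
end

-- ▼ part R136/KR2_879
section

/-!
# Katz-Rogers bound for quadric sheets in R^4, part 2: classes and the total count
-/

namespace Crest.Agent.R136.KR879

/-- cell injectivity -/
def CInj {ι : Type*} (s : Finset ι) (P : ι → LD) (δ : ℝ) : Prop :=
  ∀ l ∈ s, ∀ l' ∈ s, ⌊(P l).b0 / δ⌋ = ⌊(P l').b0 / δ⌋ → ⌊(P l).b1 / δ⌋ = ⌊(P l').b1 / δ⌋ →
    ⌊(P l).b2 / δ⌋ = ⌊(P l').b2 / δ⌋ → l = l'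

/-- the common count of a class from the three ranges -/
lemma class_count {ι : Type*} (s : Finset ι) (P : ι → LD) {a δ w1 w2 D0 D1 : ℝ}
    (hδ : 0 < δ) (hw2 : δ ≤ w2) (hD0 : 0 ≤ D0) (hD1 : 0 ≤ D1)
    (hok : ∀ l ∈ s, Ok a δ w1 w2 (P l)) (hinj : CInj s P δ)
    (H0 : ∀ l ∈ s, ∀ l' ∈ s, |(P l').b1 - (P l).b1| ≤ δ → |(P l').b2 - (P l).b2| ≤ δ →
      |(P l').b0 - (P l).b0| ≤ D0)
    (H1 : ∀ l ∈ s, ∀ l' ∈ s, |(P l').b2 - (P l).b2| ≤ δ → |(P l').b1 - (P l).b1| ≤ D1) :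
    (s.card : ℝ) * δ ^ 3 ≤ (D0 + 2 * δ) * (D1 + 2 * δ) * (6 * w2) := by
  have hw0 : 0 ≤ w2 := hδ.le.trans hw2
  have h := card3 s (fun l => ⌊(P l).b0 / δ⌋) (fun l => ⌊(P l).b1 / δ⌋)
    (fun l => ⌊(P l).b2 / δ⌋) hinj (M0 := D0 / δ + 1) (M1 := D1 / δ + 1)
    (M2 := 4 * w2 / δ + 1) (by positivity) (by positivity) (by positivity)
    (fun l hl l' hl' h1 h2 => floor_sub_le hδ (H0 l hl l' hl' (floor_close hδ h1)
      (floor_close hδ h2)))
    (fun l hl l' hl' h2 => floor_sub_le hδ (H1 l hl l' hl' (floor_close hδ h2)))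
    (fun l hl l' hl' => floor_sub_le hδ (by
      have := abs_sub (P l').b2 (P l).b2
      have := (hok l hl).hb2
      have := (hok l' hl').hb2
      linarith))
  have h2 : (D0 / δ + 1 + 1) * (D1 / δ + 1 + 1) * (4 * w2 / δ + 1 + 1) * δ ^ 3
      = (D0 + 2 * δ) * (D1 + 2 * δ) * (4 * w2 + 2 * δ) := by
    field_simp; ring
  calc (s.card : ℝ) * δ ^ 3
      ≤ (D0 / δ + 1 + 1) * (D1 / δ + 1 + 1) * (4 * w2 / δ + 1 + 1) * δ ^ 3 := by gcongr
    _ = (D0 + 2 * δ) * (D1 + 2 * δ) * (4 * w2 + 2 * δ) := h2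
    _ ≤ (D0 + 2 * δ) * (D1 + 2 * δ) * (6 * w2) := by gcongr; linarith

/-- class with small `ρ` -/
lemma class_small {ι : Type*} (s : Finset ι) (P : ι → LD) {a δ w1 w2 : ℝ}
    (hδ : 0 < δ) (hδa : δ ≤ a) (hw1 : δ ≤ w1) (hw2 : δ ≤ w2)
    (hok : ∀ l ∈ s, Ok a δ w1 w2 (P l)) (hinj : CInj s P δ)
    (hrel : ∀ l ∈ s, ∀ l' ∈ s, Rel (32 * a) (P l) (P l'))
    (hs : (∀ l ∈ s, 0 ≤ (P l).R0) ∨ (∀ l ∈ s, (P l).R0 ≤ 0))
    (hr : ∀ l ∈ s, |(P l).rho1| * w1 ≤ a ∧ |(P l).rho2| * w2 ≤ a) :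
    (s.card : ℝ) * δ ^ 3 ≤ 2000000 * (a * w1 * w2) := by
  have ha : 0 ≤ a := hδ.le.trans hδa
  have h1 : 0 ≤ w1 := hδ.le.trans hw1
  have h2 : 0 ≤ w2 := hδ.le.trans hw2
  have h := class_count s P (D0 := 268 * a) (D1 := 4 * w1) hδ hw2 (by positivity)
    (by positivity) hok hinj
    (fun l hl l' hl' u v => by
      have := alpha (e := 32 * a) (r := a) ha (by positivity) h1 h2 (hok l hl) (hok l' hl')
        (hrel l hl l' hl') u v
        (by rcases hs with hs | hs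
            · exact Or.inl ⟨hs l hl, hs l' hl'⟩
            · exact Or.inr ⟨hs l hl, hs l' hl'⟩)
        (hr l hl).1 (hr l hl).2 (hr l' hl').1 (hr l' hl').2
      linarith)
    (fun l hl l' hl' _ => by
      have := abs_sub (P l').b1 (P l).b1
      have := (hok l hl).hb1
      have := (hok l' hl').hb1
      linarith)
  calc (s.card : ℝ) * δ ^ 3 ≤ (268 * a + 2 * δ) * (4 * w1 + 2 * δ) * (6 * w2) := h
    _ ≤ (270 * a) * (6 * w1) * (6 * w2) := by gcongr <;> linarith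
    _ = 9720 * (a * w1 * w2) := by ring
    _ ≤ 2000000 * (a * w1 * w2) := by
        have : 0 ≤ a * w1 * w2 := by positivity
        linarith

lemma div_bound {d S c w K r : ℝ} (hr : 0 < r) (hw : 0 < w) (hc : 0 ≤ c)
    (hS : 2 * r / w ≤ S) (h : d * S ≤ c + 4 * w * K * S) :
    d ≤ 4 * w * K + c * w / (2 * r) := by
  have hS0 : 0 < S := lt_of_lt_of_le (by positivity) hS
  have h1 : (d - 4 * w * K) * S ≤ c := by linarith
  have h2 : d - 4 * w * K ≤ c / S := (le_div_iff₀ hS0).2 h1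
  have h3 : c / S ≤ c / (2 * r / w) := div_le_div_of_nonneg_left hc (by positivity) hS
  have h4 : c / (2 * r / w) = c * w / (2 * r) := by field_simp
  linarith

/-- class with `ρ₁ w₁ ~ r ≥ a` dominating -/
lemma class_le {ι : Type*} (s : Finset ι) (P : ι → LD) {a δ w1 w2 W r k : ℝ}
    (hδ : 0 < δ) (hδa : δ ≤ a) (hw1 : δ ≤ w1) (hw2 : δ ≤ w2) (hW : w1 ≤ W)
    (hok : ∀ l ∈ s, Ok a δ w1 w2 (P l)) (hinj : CInj s P δ)
    (hrel : ∀ l ∈ s, ∀ l' ∈ s, Rel (32 * a) (P l) (P l'))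
    (hs : (∀ l ∈ s, 0 ≤ (P l).R0) ∨ (∀ l ∈ s, (P l).R0 ≤ 0))
    (hρ : (∀ l ∈ s, 0 ≤ (P l).rho1) ∨ (∀ l ∈ s, (P l).rho1 ≤ 0))
    (hdom : ∀ l ∈ s, |(P l).rho2| * w2 ≤ |(P l).rho1| * w1)
    (har : a ≤ r) (hr : ∀ l ∈ s, r ≤ |(P l).rho1| * w1 ∧ |(P l).rho1| * w1 ≤ 2 * r)
    (hk : (0 < k ∧ ∀ l ∈ s, k ≤ |(P l).R0| ∧ |(P l).R0| ≤ 2 * k) ∨
      (0 ≤ k ∧ k * W ≤ δ ∧ ∀ l ∈ s, |(P l).R0| ≤ k)) :
    (s.card : ℝ) * δ ^ 3 ≤ 2000000 * (a * w1 * w2) := by
  classical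
  have ha : 0 < a := hδ.trans_le hδa
  have h1 : 0 < w1 := hδ.trans_le hw1
  have h2 : 0 < w2 := hδ.trans_le hw2
  have hr0 : 0 < r := ha.trans_le har
  have hW0 : 0 < W := h1.trans_le hW
  rcases s.eq_empty_or_nonempty with rfl | hne
  · simp only [Finset.card_empty, Nat.cast_zero, zero_mul]; positivity
  obtain ⟨l0, hl0⟩ := hne
  -- r δ ≤ 5 a w1
  have hrδ : r * δ ≤ 5 * a * w1 := by
    have q1 := (hr l0 hl0).1
    have q2 := rho1_abs hδ (hok l0 hl0)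
    calc r * δ ≤ (|(P l0).rho1| * w1) * δ := by gcongr
      _ = (|(P l0).rho1| * δ) * w1 := by ring
      _ ≤ (5 * a) * w1 := by gcongr
  -- the first range
  have Ha : ∀ l ∈ s, ∀ l' ∈ s, |(P l').b1 - (P l).b1| ≤ δ → |(P l').b2 - (P l).b2| ≤ δ →
      |(P l').b0 - (P l).b0| ≤ 276 * r := by
    intro l hl l' hl' u v
    have := alpha (e := 32 * a) (r := 2 * r) ha.le (by positivity) h1.le h2.le (hok l hl)
      (hok l' hl') (hrel l hl l' hl') u v
      (by rcases hs with hs | hs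
          · exact Or.inl ⟨hs l hl, hs l' hl'⟩
          · exact Or.inr ⟨hs l hl, hs l' hl'⟩)
      (hr l hl).2 ((hdom l hl).trans (hr l hl).2) (hr l' hl').2
      ((hdom l' hl').trans (hr l' hl').2)
    linarith
  -- the second range
  have Hc : ∀ K : ℝ, (∀ l ∈ s, |(P l).R0| ≤ K) → ∀ l ∈ s, ∀ l' ∈ s,
      |(P l').b2 - (P l).b2| ≤ δ → |(P l').b1 - (P l).b1| ≤ 8 * w1 * K + 261 * a * w1 / r := by
    intro K hK l hl l' hl' v
    have g := gamma (e := 32 * a) (K := 2 * K) hδ h1.le h2.le (hok l hl) (hok l' hl')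
      (hrel l hl l' hl') v (hdom l hl) (hdom l' hl')
      ((kap_abs (hok l hl)).trans (by have := hK l hl; linarith))
      ((kap_abs (hok l' hl')).trans (by have := hK l' hl'; linarith))
      (by rcases hρ with hρ | hρ
          · exact Or.inl ⟨hρ l hl, hρ l' hl'⟩
          · exact Or.inr ⟨hρ l hl, hρ l' hl'⟩)
    have hS : 2 * r / w1 ≤ |(P l).rho1| + |(P l').rho1| := by
      rw [div_le_iff₀ h1]
      have := (hr l hl).1
      have := (hr l' hl').1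
      linarith
    have := div_bound (c := 522 * a) (K := 2 * K) (d := |(P l').b1 - (P l).b1|) hr0 h1
      (by positivity) hS (by linarith [g])
    calc |(P l').b1 - (P l).b1| ≤ 4 * w1 * (2 * K) + 522 * a * w1 / (2 * r) := this
      _ = 8 * w1 * K + 261 * a * w1 / r := by
          field_simp; ring
  have fin : ∀ D0 D1 : ℝ, 2 * δ ≤ D0 → D0 ≤ 276 * r → 0 ≤ D1 → D0 * D1 ≤ 84000 * (a * w1) →
      (s.card : ℝ) * δ ^ 3 ≤ (D0 + 2 * δ) * (D1 + 2 * δ) * (6 * w2) →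
      (s.card : ℝ) * δ ^ 3 ≤ 2000000 * (a * w1 * w2) := by
    intro D0 D1 q1 q2 q3 q4 q5
    have q6 : D0 * δ ≤ 1380 * (a * w1) := by
      calc D0 * δ ≤ 276 * r * δ := by gcongr
        _ = 276 * (r * δ) := by ring
        _ ≤ 276 * (5 * a * w1) := by gcongr
        _ = 1380 * (a * w1) := by ring
    calc (s.card : ℝ) * δ ^ 3 ≤ (D0 + 2 * δ) * (D1 + 2 * δ) * (6 * w2) := q5
      _ ≤ (2 * D0) * (D1 + 2 * δ) * (6 * w2) := by gcongr; linarith
      _ = 12 * (D0 * D1 + 2 * (D0 * δ)) * w2 := by ring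
      _ ≤ 12 * (84000 * (a * w1) + 2 * (1380 * (a * w1))) * w2 := by gcongr
      _ = 1041120 * (a * w1 * w2) := by ring
      _ ≤ 2000000 * (a * w1 * w2) := by
          have : 0 ≤ a * w1 * w2 := by positivity
          linarith
  rcases hk with ⟨hk0, hk⟩ | ⟨hk0, hkW, hk⟩
  · have hk32 : k ≤ 3 / 2 := ((hk l0 hl0).1).trans (hok l0 hl0).hR0
    set D0 : ℝ := min (20 * a / k) (276 * r) with hD0
    set D1 : ℝ := 8 * w1 * (2 * k) + 261 * a * w1 / r with hD1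
    have c1 : D0 * k ≤ 20 * a := by
      calc D0 * k ≤ (20 * a / k) * k := by gcongr; exact min_le_left _ _
        _ = 20 * a := by field_simp
    have c2 : D0 / r ≤ 276 := by
      rw [div_le_iff₀ hr0]; exact min_le_right _ _
    have hD0lo : 2 * δ ≤ D0 := by
      rw [hD0, le_min_iff]
      constructor
      · rw [le_div_iff₀ hk0]
        nlinarith
      · linarith
    refine fin D0 D1 hD0lo (min_le_right _ _) (by positivity) ?_ ?_
    · calc D0 * D1 = 16 * w1 * (D0 * k) + 261 * a * w1 * (D0 / r) := by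
            rw [hD1]; ring
        _ ≤ 16 * w1 * (20 * a) + 261 * a * w1 * 276 := by gcongr
        _ = 72356 * (a * w1) := by ring
        _ ≤ 84000 * (a * w1) := by
            have : 0 ≤ a * w1 := by positivity
            linarith
    · refine class_count s P hδ hw2 ((by positivity : (0:ℝ) ≤ 2 * δ).trans hD0lo)
        (by positivity) hok hinj ?_ ?_
      · intro l hl l' hl' u v
        rw [hD0, le_min_iff]
        refine ⟨?_, Ha l hl l' hl' u v⟩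
        have := beta (e := 32 * a) (k := k) (hok l hl) (hok l' hl') (hrel l hl l' hl') u v
          (hk l hl).1 (hk l' hl').1 hk0
          (by rcases hs with hs | hs
              · exact Or.inl ⟨hs l hl, hs l' hl'⟩
              · exact Or.inr ⟨hs l hl, hs l' hl'⟩)
        calc |(P l').b0 - (P l).b0| ≤ (32 * a + 8 * a) / (2 * k) := this
          _ = 20 * a / k := by field_simp; ring
      · exact Hc (2 * k) (fun l hl => (hk l hl).2)
  · set D0 : ℝ := 276 * r with hD0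
    set D1 : ℝ := 8 * w1 * k + 261 * a * w1 / r with hD1
    have hkr : r * k ≤ 5 * a := by
      have : r * k * W ≤ 5 * a * W := by
        calc r * k * W = r * (k * W) := by ring
          _ ≤ r * δ := by gcongr
          _ ≤ 5 * a * w1 := hrδ
          _ ≤ 5 * a * W := by gcongr
      exact le_of_mul_le_mul_right this hW0
    refine fin D0 D1 (by linarith) le_rfl (by positivity) ?_ ?_
    · calc D0 * D1 = 2208 * w1 * (r * k) + 72036 * (a * w1) * (r / r) := by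
            rw [hD0, hD1]; ring
        _ = 2208 * w1 * (r * k) + 72036 * (a * w1) := by rw [div_self hr0.ne', mul_one]
        _ ≤ 2208 * w1 * (5 * a) + 72036 * (a * w1) := by gcongr
        _ = 83076 * (a * w1) := by ring
        _ ≤ 84000 * (a * w1) := by
            have : 0 ≤ a * w1 := by positivity
            linarith
    · exact class_count s P hδ hw2 (by positivity) (by positivity) hok hinj Ha (Hc k hk)

/-! ### swapping the two lateral coordinates -/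

def LD.swap (p : LD) : LD :=
  ⟨p.x0, p.x2, p.x1, p.b0, p.b2, p.b1, p.n0, p.n2, p.n1, p.R0, p.R2, p.R1⟩

lemma Ok.swap {a δ w1 w2 : ℝ} {p : LD} (h : Ok a δ w1 w2 p) : Ok a δ w2 w1 p.swap :=
  ⟨h.hx2, h.hx1, h.hb2, h.hb1, h.hn0, h.hR0, h.hn2, h.hn1, h.hR2, h.hR1⟩

lemma Rel.swap {e : ℝ} {p p' : LD} (h : Rel e p p') : Rel e p.swap p'.swap := by
  obtain ⟨hA, hB, hC, hD⟩ := h
  refine ⟨le_of_eq_of_le (congrArg _ ?_) hA, le_of_eq_of_le (congrArg _ ?_) hB,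
    le_of_eq_of_le (congrArg _ ?_) hC, le_of_eq_of_le (congrArg _ ?_) hD⟩ <;>
  · simp only [LD.swap]; ring

lemma CInj.swap {ι : Type*} {s : Finset ι} {P : ι → LD} {δ : ℝ} (h : CInj s P δ) :
    CInj s (fun l => (P l).swap) δ :=
  fun l hl l' hl' h0 h1 h2 => h l hl l' hl' h0 h2 h1

lemma dyad {x t : ℝ} (ht : 0 < t) (N : ℕ) (hx : x ≤ 2 ^ N * t) :
    ∃ n ≤ N + 1, (n = 0 ∧ x ≤ t) ∨ (∃ m, n = m + 1 ∧ 2 ^ m * t ≤ x ∧ x ≤ 2 * (2 ^ m * t)) := by
  by_cases h : x ≤ t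
  · exact ⟨0, by omega, Or.inl ⟨rfl, h⟩⟩
  · push Not at h
    obtain ⟨m, hm1, hm2⟩ := exists_nat_pow_near (x := x / t) (y := 2)
      ((one_le_div ht).2 h.le) (by norm_num)
    rw [le_div_iff₀ ht] at hm1
    rw [div_lt_iff₀ ht] at hm2
    have hmN : m ≤ N := by
      by_contra hc
      push Not at hc
      have h3 : (2:ℝ) ^ (N + 1) ≤ 2 ^ m := pow_le_pow_right₀ (by norm_num) hc
      have h4 : (2:ℝ) ^ (N + 1) * t ≤ 2 ^ N * t := by
        calc (2:ℝ) ^ (N + 1) * t ≤ 2 ^ m * t := by gcongr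
          _ ≤ x := hm1
          _ ≤ _ := hx
      have h5 : (0:ℝ) < 2 ^ N * t := by positivity
      rw [pow_succ] at h4
      nlinarith
    refine ⟨m + 1, by omega, Or.inr ⟨m, rfl, hm1, ?_⟩⟩
    rw [pow_succ] at hm2
    linarith

/-- **Katz-Rogers for abstract sheet data.** -/
theorem kr_abs {ι : Type*} (s : Finset ι) (P : ι → LD) {a δ w1 w2 W : ℝ}
    (hδ : 0 < δ) (hδa : δ ≤ a) (hw1 : δ ≤ w1) (hw2 : δ ≤ w2) (hW1 : w1 ≤ W) (hW2 : w2 ≤ W)
    (hok : ∀ l ∈ s, Ok a δ w1 w2 (P l)) (hinj : CInj s P δ)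
    (hrel : ∀ l ∈ s, ∀ l' ∈ s, Rel (32 * a) (P l) (P l'))
    (N : ℕ) (hN : 5 * W / δ ≤ 2 ^ N) :
    (s.card : ℝ) ≤ 16000000 * (N + 2) ^ 2 * (a * w1 * w2 / δ ^ 3) := by
  classical
  have ha : 0 < a := hδ.trans_le hδa
  have h1 : 0 < w1 := hδ.trans_le hw1
  have h2 : 0 < w2 := hδ.trans_le hw2
  have hW0 : 0 < W := h1.trans_le hW1
  -- dyadic classes of ρ
  have hR : ∀ l : ι, ∃ n ≤ N + 1, l ∈ s →
      ((n = 0 ∧ max (|(P l).rho1| * w1) (|(P l).rho2| * w2) ≤ a) ∨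
      (∃ m, n = m + 1 ∧ 2 ^ m * a ≤ max (|(P l).rho1| * w1) (|(P l).rho2| * w2) ∧
        max (|(P l).rho1| * w1) (|(P l).rho2| * w2) ≤ 2 * (2 ^ m * a))) := by
    intro l
    by_cases hl : l ∈ s
    · obtain ⟨n, hn, h⟩ := dyad (x := max (|(P l).rho1| * w1) (|(P l).rho2| * w2)) ha N (by
        have q1 := rho1_abs hδ (hok l hl)
        have q2 := rho2_abs hδ (hok l hl)
        have q3 : 5 * W / δ * a ≤ 2 ^ N * a := by gcongr
        refine le_trans ?_ q3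
        have q4 : 5 * W / δ * a = (5 * a) * W / δ := by ring
        rw [q4, max_le_iff, le_div_iff₀ hδ, le_div_iff₀ hδ]
        constructor
        · calc |(P l).rho1| * w1 * δ = (|(P l).rho1| * δ) * w1 := by ring
            _ ≤ (5 * a) * W := by gcongr
        · calc |(P l).rho2| * w2 * δ = (|(P l).rho2| * δ) * w2 := by ring
            _ ≤ (5 * a) * W := by gcongr)
      exact ⟨n, hn, fun _ => h⟩
    · exact ⟨0, by omega, fun h => absurd h hl⟩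
  choose fR hfR1 hfR2 using hR
  -- dyadic classes of R0
  have hK : ∀ l : ι, ∃ n ≤ N + 1, l ∈ s → ((n = 0 ∧ |(P l).R0| ≤ δ / W) ∨
      (∃ m, n = m + 1 ∧ 2 ^ m * (δ / W) ≤ |(P l).R0| ∧ |(P l).R0| ≤ 2 * (2 ^ m * (δ / W)))) := by
    intro l
    by_cases hl : l ∈ s
    · obtain ⟨n, hn, h⟩ := dyad (x := |(P l).R0|) (t := δ / W) (by positivity) N (by
        have q1 := (hok l hl).hR0
        have q3 : 5 * W / δ * (δ / W) ≤ 2 ^ N * (δ / W) := by gcongr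
        have q4 : 5 * W / δ * (δ / W) = 5 := by field_simp
        linarith)
      exact ⟨n, hn, fun _ => h⟩
    · exact ⟨0, by omega, fun h => absurd h hl⟩
  choose fK hfK1 hfK2 using hK
  let cls : ι → (Bool × Bool × Bool) × ℕ × ℕ := fun l =>
    ((decide (0 ≤ (P l).R0), decide (|(P l).rho2| * w2 ≤ |(P l).rho1| * w1),
      if |(P l).rho2| * w2 ≤ |(P l).rho1| * w1 then decide (0 ≤ (P l).rho1)
      else decide (0 ≤ (P l).rho2)), fR l, fK l)
  have hcard : ((s.image cls).card : ℝ) ≤ 8 * (N + 2) ^ 2 := by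
    have hsub : s.image cls ⊆ Finset.univ ×ˢ (Finset.range (N + 2) ×ˢ Finset.range (N + 2)) := by
      intro c hc
      obtain ⟨l, -, rfl⟩ := Finset.mem_image.1 hc
      simp only [Finset.mem_product, Finset.mem_univ, Finset.mem_range, true_and, cls]
      exact ⟨by have := hfR1 l; omega, by have := hfK1 l; omega⟩
    have h3 := Finset.card_le_card hsub
    rw [Finset.card_product, Finset.card_product, Finset.card_range] at h3
    have h4 : (Finset.univ : Finset (Bool × Bool × Bool)).card = 8 := by decide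
    rw [h4] at h3
    calc ((s.image cls).card : ℝ) ≤ ((8 * ((N + 2) * (N + 2)) : ℕ) : ℝ) := by exact_mod_cast h3
      _ = 8 * (N + 2) ^ 2 := by push_cast; ring
  have hcl : ∀ c ∈ s.image cls, ((s.filter fun l => cls l = c).card : ℝ)
      ≤ 2000000 * (a * w1 * w2 / δ ^ 3) := by
    intro c hc
    obtain ⟨l0, hl0, hl0c⟩ := Finset.mem_image.1 hc
    set F := s.filter fun l => cls l = c with hF
    have hFs : ∀ l ∈ F, l ∈ s := fun l hl => (Finset.mem_filter.1 hl).1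
    have hFc : ∀ l ∈ F, cls l = cls l0 := fun l hl => by
      rw [(Finset.mem_filter.1 hl).2, hl0c]
    have hokF : ∀ l ∈ F, Ok a δ w1 w2 (P l) := fun l hl => hok l (hFs l hl)
    have hinjF : CInj F P δ := fun l hl l' hl' => hinj l (hFs l hl) l' (hFs l' hl')
    have hrelF : ∀ l ∈ F, ∀ l' ∈ F, Rel (32 * a) (P l) (P l') :=
      fun l hl l' hl' => hrel l (hFs l hl) l' (hFs l' hl')
    have hc1 : ∀ l ∈ F, decide (0 ≤ (P l).R0) = decide (0 ≤ (P l0).R0) := fun l hl =>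
      congrArg (fun c => c.1.1) (hFc l hl)
    have hc2 : ∀ l ∈ F, decide (|(P l).rho2| * w2 ≤ |(P l).rho1| * w1)
        = decide (|(P l0).rho2| * w2 ≤ |(P l0).rho1| * w1) := fun l hl =>
      congrArg (fun c => c.1.2.1) (hFc l hl)
    have hc3 : ∀ l ∈ F, (if |(P l).rho2| * w2 ≤ |(P l).rho1| * w1 then decide (0 ≤ (P l).rho1)
        else decide (0 ≤ (P l).rho2)) = (if |(P l0).rho2| * w2 ≤ |(P l0).rho1| * w1
          then decide (0 ≤ (P l0).rho1) else decide (0 ≤ (P l0).rho2)) := fun l hl =>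
      congrArg (fun c => c.1.2.2) (hFc l hl)
    have hc4 : ∀ l ∈ F, fR l = fR l0 := fun l hl => congrArg (fun c => c.2.1) (hFc l hl)
    have hc5 : ∀ l ∈ F, fK l = fK l0 := fun l hl => congrArg (fun c => c.2.2) (hFc l hl)
    have hsg : (∀ l ∈ F, 0 ≤ (P l).R0) ∨ (∀ l ∈ F, (P l).R0 ≤ 0) := by
      by_cases h : 0 ≤ (P l0).R0
      · left; intro l hl
        have := hc1 l hl
        rw [decide_eq_true h] at this
        exact of_decide_eq_true this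
      · right; intro l hl
        have := hc1 l hl
        rw [decide_eq_false h] at this
        exact (not_le.1 (of_decide_eq_false this)).le
    suffices hmain : (F.card : ℝ) * δ ^ 3 ≤ 2000000 * (a * w1 * w2) by
      rw [← mul_div_assoc, le_div_iff₀ (by positivity)]
      exact hmain
    rcases hfR2 l0 hl0 with ⟨hz, hz2⟩ | ⟨m, hm, -, -⟩
    · -- small ρ
      refine class_small F P hδ hδa hw1 hw2 hokF hinjF hrelF hsg ?_
      intro l hl
      rcases hfR2 l (hFs l hl) with ⟨-, hz'⟩ | ⟨m', hm', -⟩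
      · exact max_le_iff.1 hz'
      · have := hc4 l hl; omega
    · -- ρ ~ 2^m a
      have hrr : ∀ l ∈ F, 2 ^ m * a ≤ max (|(P l).rho1| * w1) (|(P l).rho2| * w2) ∧
        max (|(P l).rho1| * w1) (|(P l).rho2| * w2) ≤ 2 * (2 ^ m * a) := by
        intro l hl
        rcases hfR2 l (hFs l hl) with ⟨hz', -⟩ | ⟨m', hm', h1', h2'⟩
        · have := hc4 l hl; omega
        · have : m' = m := by have := hc4 l hl; omega
          subst this; exact ⟨h1', h2'⟩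
      have har : a ≤ 2 ^ m * a := by
        have : (1:ℝ) ≤ 2 ^ m := one_le_pow₀ (by norm_num)
        nlinarith
      have hkk : ∃ k : ℝ, (0 < k ∧ ∀ l ∈ F, k ≤ |(P l).R0| ∧ |(P l).R0| ≤ 2 * k) ∨
          (0 ≤ k ∧ k * W ≤ δ ∧ ∀ l ∈ F, |(P l).R0| ≤ k) := by
        rcases hfK2 l0 hl0 with ⟨hz, -⟩ | ⟨n, hn, -, -⟩
        · refine ⟨δ / W, Or.inr ⟨by positivity, ?_, ?_⟩⟩
          · field_simp; exact le_rfl
          · intro l hl
            rcases hfK2 l (hFs l hl) with ⟨-, hz'⟩ | ⟨m', hm', -⟩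
            · exact hz'
            · have := hc5 l hl; omega
        · refine ⟨2 ^ n * (δ / W), Or.inl ⟨by positivity, ?_⟩⟩
          intro l hl
          rcases hfK2 l (hFs l hl) with ⟨hz', -⟩ | ⟨m', hm', h1', h2'⟩
          · have := hc5 l hl; omega
          · have : m' = n := by have := hc5 l hl; omega
            subst this; exact ⟨h1', h2'⟩
      obtain ⟨k, hkk⟩ := hkk
      by_cases hdom : |(P l0).rho2| * w2 ≤ |(P l0).rho1| * w1
      · have hdF : ∀ l ∈ F, |(P l).rho2| * w2 ≤ |(P l).rho1| * w1 := by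
          intro l hl
          have := hc2 l hl
          rw [decide_eq_true hdom] at this
          exact of_decide_eq_true this
        have hρF : (∀ l ∈ F, 0 ≤ (P l).rho1) ∨ (∀ l ∈ F, (P l).rho1 ≤ 0) := by
          by_cases h : 0 ≤ (P l0).rho1
          · left; intro l hl
            have := hc3 l hl
            rw [if_pos hdom, if_pos (hdF l hl), decide_eq_true h] at this
            exact of_decide_eq_true this
          · right; intro l hl
            have := hc3 l hl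
            rw [if_pos hdom, if_pos (hdF l hl), decide_eq_false h] at this
            exact (not_le.1 (of_decide_eq_false this)).le
        refine class_le F P hδ hδa hw1 hw2 hW1 hokF hinjF hrelF hsg hρF hdF har ?_ hkk
        intro l hl
        have := hrr l hl
        rwa [max_eq_left (hdF l hl)] at this
      · have hdF : ∀ l ∈ F, |(P l).rho1| * w1 ≤ |(P l).rho2| * w2 := by
          intro l hl
          have := hc2 l hl
          rw [decide_eq_false hdom] at this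
          exact (not_le.1 (of_decide_eq_false this)).le
        have hdF' : ∀ l ∈ F, ¬ |(P l).rho2| * w2 ≤ |(P l).rho1| * w1 := by
          intro l hl
          have := hc2 l hl
          rw [decide_eq_false hdom] at this
          exact of_decide_eq_false this
        have hρF : (∀ l ∈ F, 0 ≤ (P l).rho2) ∨ (∀ l ∈ F, (P l).rho2 ≤ 0) := by
          by_cases h : 0 ≤ (P l0).rho2
          · left; intro l hl
            have := hc3 l hl
            rw [if_neg hdom, if_neg (hdF' l hl), decide_eq_true h] at this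
            exact of_decide_eq_true this
          · right; intro l hl
            have := hc3 l hl
            rw [if_neg hdom, if_neg (hdF' l hl), decide_eq_false h] at this
            exact (not_le.1 (of_decide_eq_false this)).le
        have := class_le F (fun l => (P l).swap) hδ hδa hw2 hw1 hW2
          (fun l hl => (hokF l hl).swap) hinjF.swap
          (fun l hl l' hl' => (hrelF l hl l' hl').swap) hsg hρF hdF har ?_ hkk
        · calc (F.card : ℝ) * δ ^ 3 ≤ 2000000 * (a * w2 * w1) := this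
            _ = 2000000 * (a * w1 * w2) := by ring
        · intro l hl
          have := hrr l hl
          rwa [max_eq_right (hdF l hl)] at this
  have htot := card_fib s cls hcl
  have hpos : 0 ≤ 2000000 * (a * w1 * w2 / δ ^ 3) := by positivity
  calc (s.card : ℝ) ≤ 2000000 * (a * w1 * w2 / δ ^ 3) * (s.image cls).card := htot
    _ ≤ 2000000 * (a * w1 * w2 / δ ^ 3) * (8 * (N + 2) ^ 2) := by gcongr
    _ = 16000000 * (N + 2) ^ 2 * (a * w1 * w2 / δ ^ 3) := by ring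

end Crest.Agent.R136.KR879
end

-- ▼ part R136/KR3_879
section

/-!
# Katz-Rogers bound for quadric sheets in R^4, part 3: sheets of `Sh1_605`

`kr_sheet`: the lines of a sheet over `[z0, z0 + ρ]` whose velocities are `r0/ρ`-separated are
at most `C (N+2)² a w₁ w₂ / r0³`, `10 w₁ / r0 ≤ 2^N`.
-/

set_option autoImplicit false

namespace Crest.Agent.R136.KR879

open Sh605

/-- gradient of the quadratic function -/
def gam (b d : V3) (g : Fin 3 → Fin 3 → ℝ) (z : ℝ) (x : V3) : V3 :=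
  fun j => b j + d j * z + ∑ i, (g i j + g j i) * x i

/-- the quadratic function -/
def qf (c0 c1 c2 : ℝ) (b d : V3) (g : Fin 3 → Fin 3 → ℝ) (z : ℝ) (x : V3) : ℝ :=
  c0 + c1 * z + c2 * z ^ 2 + ∑ i, (b i + d i * z) * x i + ∑ i, ∑ j, g i j * (x i * x j)

lemma q_diff (c0 c1 c2 : ℝ) (b d : V3) (g : Fin 3 → Fin 3 → ℝ) (z : ℝ) (x x' : V3) :
    dt (gam b d g z x) (x' - x) + dt (gam b d g z x') (x' - x)
      = 2 * (qf c0 c1 c2 b d g z x' - qf c0 c1 c2 b d g z x) := by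
  simp only [dt, gam, qf, Fin.sum_univ_three, Pi.sub_apply]
  ring

lemma q_dir (c0 c1 c2 : ℝ) (b d : V3) (g : Fin 3 → Fin 3 → ℝ) (z τ : ℝ) (x u : V3) :
    qf c0 c1 c2 b d g z (x + τ • u) - qf c0 c1 c2 b d g z x
      = τ * dt (gam b d g z x) u + τ ^ 2 * ∑ i, ∑ j, g i j * (u i * u j) := by
  simp only [dt, gam, qf, Fin.sum_univ_three, Pi.add_apply, Pi.smul_apply, smul_eq_mul]
  ring

/-- values along a line over the interval -/
def val (c0 c1 c2 : ℝ) (b d : V3) (g : Fin 3 → Fin 3 → ℝ) (z0 ρ : ℝ) (t : Ln4) (s : ℝ) : ℝ :=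
  qf c0 c1 c2 b d g (z0 + s * ρ) (t.pos (z0 + s * ρ))

noncomputable def Gc (c0 c1 c2 : ℝ) (b d : V3) (g : Fin 3 → Fin 3 → ℝ) (z0 ρ : ℝ) (t : Ln4) : ℝ :=
  4 * val c0 c1 c2 b d g z0 ρ t (1 / 2) - val c0 c1 c2 b d g z0 ρ t 1
    - 3 * val c0 c1 c2 b d g z0 ρ t 0

noncomputable def Fc (c0 c1 c2 : ℝ) (b d : V3) (g : Fin 3 → Fin 3 → ℝ) (z0 ρ : ℝ) (t : Ln4) : ℝ :=
  2 * val c0 c1 c2 b d g z0 ρ t 1 + 2 * val c0 c1 c2 b d g z0 ρ t 0
    - 4 * val c0 c1 c2 b d g z0 ρ t (1 / 2)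

lemma rel_B (c0 c1 c2 : ℝ) (b d : V3) (g : Fin 3 → Fin 3 → ℝ) (z0 ρ : ℝ) (t t' : Ln4) :
    dt (gam b d g z0 (t'.pos z0)) (ρ • (t'.v - t.v))
      + dt (gam b d g (z0 + ρ) (t.pos (z0 + ρ)) - gam b d g z0 (t.pos z0))
          (t'.pos z0 - t.pos z0)
      = Gc c0 c1 c2 b d g z0 ρ t' - Gc c0 c1 c2 b d g z0 ρ t := by
  simp only [dt, gam, Gc, val, qf, Ln4.pos, Fin.sum_univ_three, Pi.sub_apply, Pi.smul_apply,
    smul_eq_mul]
  ring

lemma rel_C (c0 c1 c2 : ℝ) (b d : V3) (g : Fin 3 → Fin 3 → ℝ) (z0 ρ : ℝ) (t t' : Ln4) :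
    dt (gam b d g z0 (t.pos z0)) (ρ • (t'.v - t.v))
      + dt (gam b d g (z0 + ρ) (t'.pos (z0 + ρ)) - gam b d g z0 (t'.pos z0))
          (t'.pos z0 - t.pos z0)
      = Gc c0 c1 c2 b d g z0 ρ t' - Gc c0 c1 c2 b d g z0 ρ t := by
  simp only [dt, gam, Gc, val, qf, Ln4.pos, Fin.sum_univ_three, Pi.sub_apply, Pi.smul_apply,
    smul_eq_mul]
  ring

lemma rel_D (c0 c1 c2 : ℝ) (b d : V3) (g : Fin 3 → Fin 3 → ℝ) (z0 ρ : ℝ) (t t' : Ln4) :
    dt (gam b d g (z0 + ρ) (t.pos (z0 + ρ)) - gam b d g z0 (t.pos z0)) (ρ • (t'.v - t.v))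
      + dt (gam b d g (z0 + ρ) (t'.pos (z0 + ρ)) - gam b d g z0 (t'.pos z0))
          (ρ • (t'.v - t.v))
      = 2 * (Fc c0 c1 c2 b d g z0 ρ t' - Fc c0 c1 c2 b d g z0 ρ t) := by
  simp only [dt, gam, Fc, val, qf, Ln4.pos, Fin.sum_univ_three, Pi.sub_apply, Pi.smul_apply,
    smul_eq_mul]
  ring

/-- expansion of a scalar product in an orthonormal frame -/
lemma frame_sum {e : Fin 3 → V3} (h : Ortho e) (γ Δ : V3) :
    dt γ (e 0) * dt (e 0) Δ + dt γ (e 1) * dt (e 1) Δ + dt γ (e 2) * dt (e 2) Δ = dt γ Δ := by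
  have h0 := h.expand Δ 0
  have h1 := h.expand Δ 1
  have h2 := h.expand Δ 2
  calc dt γ (e 0) * dt (e 0) Δ + dt γ (e 1) * dt (e 1) Δ + dt γ (e 2) * dt (e 2) Δ
      = γ 0 * (dt (e 0) Δ * e 0 0 + dt (e 1) Δ * e 1 0 + dt (e 2) Δ * e 2 0)
        + γ 1 * (dt (e 0) Δ * e 0 1 + dt (e 1) Δ * e 1 1 + dt (e 2) Δ * e 2 1)
        + γ 2 * (dt (e 0) Δ * e 0 2 + dt (e 1) Δ * e 1 2 + dt (e 2) Δ * e 2 2) := by
        simp only [dt]; ring
    _ = γ 0 * Δ 0 + γ 1 * Δ 1 + γ 2 * Δ 2 := by rw [← h0, ← h1, ← h2]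
    _ = dt γ Δ := rfl

/-- the data of a line -/
def mkLD (e : Fin 3 → V3) (c : Ln4) (b d : V3) (g : Fin 3 → Fin 3 → ℝ) (z0 ρ : ℝ) (t : Ln4) :
    LD where
  x0 := dt (e 0) (t.pos z0 - c.pos z0)
  x1 := dt (e 1) (t.pos z0 - c.pos z0)
  x2 := dt (e 2) (t.pos z0 - c.pos z0)
  b0 := dt (e 0) (ρ • (t.v - c.v))
  b1 := dt (e 1) (ρ • (t.v - c.v))
  b2 := dt (e 2) (ρ • (t.v - c.v))
  n0 := dt (gam b d g z0 (t.pos z0)) (e 0)
  n1 := dt (gam b d g z0 (t.pos z0)) (e 1)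
  n2 := dt (gam b d g z0 (t.pos z0)) (e 2)
  R0 := dt (gam b d g (z0 + ρ) (t.pos (z0 + ρ)) - gam b d g z0 (t.pos z0)) (e 0)
  R1 := dt (gam b d g (z0 + ρ) (t.pos (z0 + ρ)) - gam b d g z0 (t.pos z0)) (e 1)
  R2 := dt (gam b d g (z0 + ρ) (t.pos (z0 + ρ)) - gam b d g z0 (t.pos z0)) (e 2)

lemma dx_eq (e : V3) (c t t' : Ln4) (z : ℝ) :
    dt e (t'.pos z - c.pos z) - dt e (t.pos z - c.pos z) = dt e (t'.pos z - t.pos z) := by
  simp only [dt, Pi.sub_apply]; ring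

lemma db_eq (e : V3) (c t t' : Ln4) (ρ : ℝ) :
    dt e (ρ • (t'.v - c.v)) - dt e (ρ • (t.v - c.v)) = dt e (ρ • (t'.v - t.v)) := by
  simp only [dt, Pi.sub_apply, Pi.smul_apply, smul_eq_mul]; ring

lemma b_eq (e : V3) (c t : Ln4) (z0 ρ : ℝ) :
    dt e (ρ • (t.v - c.v)) = dt e (t.pos (z0 + ρ) - c.pos (z0 + ρ))
      - dt e (t.pos z0 - c.pos z0) := by
  simp only [dt, Pi.sub_apply, Pi.smul_apply, smul_eq_mul, Ln4.pos]; ring

lemma abs4 {a u v w : ℝ} (hu : |u| ≤ a) (hv : |v| ≤ a) (hw : |w| ≤ a) :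
    |4 * u - v - 3 * w| ≤ 8 * a ∧ |2 * v + 2 * w - 4 * u| ≤ 8 * a := by
  have hu' := abs_le.1 hu
  have hv' := abs_le.1 hv
  have hw' := abs_le.1 hw
  constructor
  · rw [abs_le]; constructor <;> linarith [hu'.1, hu'.2, hv'.1, hv'.2, hw'.1, hw'.2]
  · rw [abs_le]; constructor <;> linarith [hu'.1, hu'.2, hv'.1, hv'.2, hw'.1, hw'.2]

lemma mk_rel {e : Fin 3 → V3} (he : Ortho e) (c : Ln4) (c0 c1 c2 : ℝ) (b d : V3)
    (g : Fin 3 → Fin 3 → ℝ) (z0 ρ a : ℝ) (ha : 0 ≤ a) (t t' : Ln4)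
    (h0 : |val c0 c1 c2 b d g z0 ρ t 0| ≤ a) (hh : |val c0 c1 c2 b d g z0 ρ t (1 / 2)| ≤ a)
    (h1 : |val c0 c1 c2 b d g z0 ρ t 1| ≤ a)
    (h0' : |val c0 c1 c2 b d g z0 ρ t' 0| ≤ a) (hh' : |val c0 c1 c2 b d g z0 ρ t' (1 / 2)| ≤ a)
    (h1' : |val c0 c1 c2 b d g z0 ρ t' 1| ≤ a) :
    Rel (32 * a) (mkLD e c b d g z0 ρ t) (mkLD e c b d g z0 ρ t') := by
  obtain ⟨G1, F1⟩ := abs4 hh h1 h0
  obtain ⟨G2, F2⟩ := abs4 hh' h1' h0'
  refine ⟨?_, ?_, ?_, ?_⟩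
  · simp only [mkLD]
    rw [dx_eq, dx_eq, dx_eq]
    have k1 := frame_sum he (gam b d g z0 (t.pos z0)) (t'.pos z0 - t.pos z0)
    have k2 := frame_sum he (gam b d g z0 (t'.pos z0)) (t'.pos z0 - t.pos z0)
    have k3 := q_diff c0 c1 c2 b d g z0 (t.pos z0) (t'.pos z0)
    have k4 : qf c0 c1 c2 b d g z0 (t.pos z0) = val c0 c1 c2 b d g z0 ρ t 0 := by
      simp only [val, zero_mul, add_zero]
    have k5 : qf c0 c1 c2 b d g z0 (t'.pos z0) = val c0 c1 c2 b d g z0 ρ t' 0 := by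
      simp only [val, zero_mul, add_zero]
    rw [k4, k5] at k3
    rw [show (dt (gam b d g z0 (t.pos z0)) (e 0) + dt (gam b d g z0 (t'.pos z0)) (e 0)) *
        dt (e 0) (t'.pos z0 - t.pos z0) +
        (dt (gam b d g z0 (t.pos z0)) (e 1) + dt (gam b d g z0 (t'.pos z0)) (e 1)) *
        dt (e 1) (t'.pos z0 - t.pos z0) +
        (dt (gam b d g z0 (t.pos z0)) (e 2) + dt (gam b d g z0 (t'.pos z0)) (e 2)) *
        dt (e 2) (t'.pos z0 - t.pos z0)
        = 2 * (val c0 c1 c2 b d g z0 ρ t' 0 - val c0 c1 c2 b d g z0 ρ t 0) by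
        rw [← k3, ← k1, ← k2]; ring]
    rw [abs_le] at *
    constructor <;> linarith [h0.1, h0.2, h0'.1, h0'.2]
  · simp only [mkLD]
    rw [dx_eq, dx_eq, dx_eq, db_eq, db_eq, db_eq, frame_sum he, frame_sum he,
      rel_B c0 c1 c2 b d g z0 ρ t t']
    unfold Gc
    rw [abs_le] at *
    constructor <;> linarith [G1.1, G1.2, G2.1, G2.2]
  · simp only [mkLD]
    rw [dx_eq, dx_eq, dx_eq, db_eq, db_eq, db_eq, frame_sum he, frame_sum he,
      rel_C c0 c1 c2 b d g z0 ρ t t']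
    unfold Gc
    rw [abs_le] at *
    constructor <;> linarith [G1.1, G1.2, G2.1, G2.2]
  · simp only [mkLD]
    rw [db_eq, db_eq, db_eq]
    have k1 := frame_sum he (gam b d g (z0 + ρ) (t.pos (z0 + ρ)) - gam b d g z0 (t.pos z0))
      (ρ • (t'.v - t.v))
    have k2 := frame_sum he (gam b d g (z0 + ρ) (t'.pos (z0 + ρ)) - gam b d g z0 (t'.pos z0))
      (ρ • (t'.v - t.v))
    have k3 := rel_D c0 c1 c2 b d g z0 ρ t t'
    rw [← k1, ← k2] at k3
    have k4 : |2 * (Fc c0 c1 c2 b d g z0 ρ t' - Fc c0 c1 c2 b d g z0 ρ t)| ≤ 32 * a := by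
      unfold Fc
      rw [abs_le] at *
      constructor <;> linarith [F1.1, F1.2, F2.1, F2.2]
    rw [← k3] at k4
    refine le_of_eq_of_le (congrArg _ ?_) k4
    ring

/-! ### derivative bounds from the difference quotients -/

lemma deriv_le {A B K T : ℝ} (hT : 0 < T)
    (h : ∀ τ : ℝ, 0 < τ → τ ≤ T → τ * A + τ ^ 2 * B ≤ K * τ) : A ≤ K := by
  by_contra hc
  push Not at hc
  -- choose τ small
  set τ := min T ((A - K) / (2 * (|B| + 1))) with hτ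
  have hB : 0 < 2 * (|B| + 1) := by positivity
  have hpos : 0 < τ := lt_min hT (div_pos (by linarith) hB)
  have h1 := h τ hpos (min_le_left _ _)
  have h2 : τ * (2 * (|B| + 1)) ≤ A - K := by
    have := min_le_right T ((A - K) / (2 * (|B| + 1)))
    rw [← hτ, le_div_iff₀ hB] at this
    exact this
  have h3 : A + τ * B ≤ K := by
    have : τ * (A + τ * B) ≤ τ * K := by nlinarith
    exact le_of_mul_le_mul_left this hpos
  have h4 : -(τ * |B|) ≤ τ * B := by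
    have := neg_abs_le B
    nlinarith
  nlinarith [abs_nonneg B]

lemma le_deriv {A B K T : ℝ} (hT : 0 < T)
    (h : ∀ τ : ℝ, 0 < τ → τ ≤ T → K * τ ≤ τ * A + τ ^ 2 * B) : K ≤ A := by
  have := deriv_le (A := -A) (B := -B) (K := -K) hT (fun τ h1 h2 => by
    have := h τ h1 h2; linarith)
  linarith

lemma dt_self {e : Fin 3 → V3} (he : Ortho e) (i : Fin 3) : dt (e i) (e i) = 1 := by
  have := he i i; simpa using this

lemma dt_ne {e : Fin 3 → V3} (he : Ortho e) {i j : Fin 3} (hij : i ≠ j) :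
    dt (e i) (e j) = 0 := by
  have := he i j; simpa [hij] using this

lemma dt_move {e : Fin 3 → V3} (i : Fin 3) (x y u : V3) (τ : ℝ) :
    dt (e i) (x + τ • u - y) = dt (e i) (x - y) + τ * dt (e i) u := by
  simp only [dt, Pi.sub_apply, Pi.add_apply, Pi.smul_apply, smul_eq_mul]; ring

lemma l1_le {u : V3} (h : dt u u = 1) : |u 0| + |u 1| + |u 2| ≤ 2 := by
  have h1 : u 0 ^ 2 + u 1 ^ 2 + u 2 ^ 2 = 1 := by unfold dt at h; linarith
  have h2 : (|u 0| + |u 1| + |u 2|) ^ 2 ≤ 3 * (u 0 ^ 2 + u 1 ^ 2 + u 2 ^ 2) := by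
    nlinarith [sq_nonneg (|u 0| - |u 1|), sq_nonneg (|u 0| - |u 2|), sq_nonneg (|u 1| - |u 2|),
      sq_abs (u 0), sq_abs (u 1), sq_abs (u 2)]
  nlinarith [abs_nonneg (u 0), abs_nonneg (u 1), abs_nonneg (u 2)]

/-- gradient in the steep direction at a point of the sheet -/
lemma steep_grad {e : Fin 3 → V3} (he : Ortho e) {c : Ln4} {w : V3} {q : ℝ → V3 → ℝ}
    {z0 ρ : ℝ} (c0 c1 c2 : ℝ) (b d : V3) (g : Fin 3 → Fin 3 → ℝ)
    (hq : ∀ z x, q z x = qf c0 c1 c2 b d g z x)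
    (hS : Steep q e c (dbl w) z0 ρ) (hw0 : 0 < w 0) (hw1 : 0 ≤ w 1) (hw2 : 0 ≤ w 2)
    {z : ℝ} (hz0 : z0 ≤ z) (hz1 : z ≤ z0 + ρ) {x : V3} (hx : InK e c w z x) :
    1 / 2 ≤ dt (gam b d g z x) (e 0) ∧ dt (gam b d g z x) (e 0) ≤ 2 := by
  have hx0 := abs_le.1 (hx 0)
  have hx1 := hx 1
  have hx2 := hx 2
  have hin : ∀ τ : ℝ, |dt (e 0) (x - c.pos z) + τ| ≤ w 0 → InK e c (dbl w) z (x + τ • e 0) := by
    intro τ hτ i
    rw [dt_move]
    fin_cases i
    · simp only [Fin.zero_eta, dt_self he, mul_one]; exact hτ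
    · simp only [Fin.mk_one, dt_ne he (by decide : (1 : Fin 3) ≠ 0), mul_zero, add_zero]
      show _ ≤ 2 * w 1
      linarith
    · have h20 : dt (e 2) (e 0) = 0 := dt_ne he (by decide : (2 : Fin 3) ≠ 0)
      show |dt (e 2) (x - c.pos z) + τ * dt (e 2) (e 0)| ≤ 2 * w 2
      rw [h20, mul_zero, add_zero]
      linarith
  have hx' : InK e c (dbl w) z x := by
    have := hin 0 (by rw [add_zero]; exact hx 0)
    simpa using this
  by_cases hc : dt (e 0) (x - c.pos z) ≤ 0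
  · -- move up
    have hmv : ∀ τ : ℝ, 0 < τ → τ ≤ w 0 →
        τ / 2 ≤ τ * dt (gam b d g z x) (e 0) + τ ^ 2 * ∑ i, ∑ j, g i j * (e 0 i * e 0 j) ∧
        τ * dt (gam b d g z x) (e 0) + τ ^ 2 * ∑ i, ∑ j, g i j * (e 0 i * e 0 j) ≤ 2 * τ := by
      intro τ h1 h2
      have := hS z hz0 hz1 x τ h1.le hx' (hin τ (by
        rw [abs_le]; constructor <;> linarith [hx0.1, hx0.2]))
      rw [hq, hq, q_dir] at this
      exact this
    exact ⟨le_deriv (B := ∑ i, ∑ j, g i j * (e 0 i * e 0 j)) hw0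
        (fun τ h1 h2 => by have := (hmv τ h1 h2).1; linarith),
      deriv_le (B := ∑ i, ∑ j, g i j * (e 0 i * e 0 j)) hw0
        (fun τ h1 h2 => (hmv τ h1 h2).2)⟩
  · push Not at hc
    have hmv : ∀ τ : ℝ, 0 < τ → τ ≤ w 0 →
        τ / 2 ≤ τ * dt (gam b d g z x) (e 0) - τ ^ 2 * ∑ i, ∑ j, g i j * (e 0 i * e 0 j) ∧
        τ * dt (gam b d g z x) (e 0) - τ ^ 2 * ∑ i, ∑ j, g i j * (e 0 i * e 0 j) ≤ 2 * τ := by
      intro τ h1 h2
      have h3 := hin (-τ) (by rw [abs_le]; constructor <;> linarith [hx0.1, hx0.2])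
      have h4 : x + (-τ) • e 0 + τ • e 0 = x := by
        rw [add_assoc, ← add_smul]; simp
      have := hS z hz0 hz1 (x + (-τ) • e 0) τ h1.le h3 (by rw [h4]; exact hx')
      rw [h4, hq, hq] at this
      have h5 := q_dir c0 c1 c2 b d g z (-τ) x (e 0)
      have h6 : qf c0 c1 c2 b d g z x - qf c0 c1 c2 b d g z (x + -τ • e 0)
          = τ * dt (gam b d g z x) (e 0) - τ ^ 2 * ∑ i, ∑ j, g i j * (e 0 i * e 0 j) := by
        have : (-τ) ^ 2 = τ ^ 2 := by ring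
        rw [this] at h5
        linarith
      rw [h6] at this
      exact this
    exact ⟨le_deriv (B := -∑ i, ∑ j, g i j * (e 0 i * e 0 j)) hw0
        (fun τ h1 h2 => by have := (hmv τ h1 h2).1; linarith),
      deriv_le (B := -∑ i, ∑ j, g i j * (e 0 i * e 0 j)) hw0
        (fun τ h1 h2 => by have := (hmv τ h1 h2).2; linarith)⟩

/-- gradient in the base directions at a point of the sheet -/
lemma lip_grad {e : Fin 3 → V3} (he : Ortho e) {c : Ln4} {w : V3} {q : ℝ → V3 → ℝ}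
    {z0 ρ Λ : ℝ} (c0 c1 c2 : ℝ) (b d : V3) (g : Fin 3 → Fin 3 → ℝ)
    (hq : ∀ z x, q z x = qf c0 c1 c2 b d g z x)
    (hL : LipK q e c (dbl w) z0 ρ Λ) (hΛ : 0 ≤ Λ) (hw1 : 0 < w 1) (hw2 : 0 < w 2)
    {z : ℝ} (hz0 : z0 ≤ z) (hz1 : z ≤ z0 + ρ) {x : V3} (hx : InK e c w z x) (k : Fin 3)
    (hk : k ≠ 0) :
    |dt (gam b d g z x) (e k)| ≤ 2 * Λ := by
  have hwk : 0 < w k := by
    fin_cases k
    · exact absurd rfl hk
    · exact hw1
    · exact hw2
  have hdb : ∀ i, w i ≤ dbl w i := by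
    intro i
    fin_cases i
    · exact le_rfl
    · show w 1 ≤ 2 * w 1; linarith
    · show w 2 ≤ 2 * w 2; linarith
  have hdk : w k + w k ≤ dbl w k := by
    fin_cases k
    · exact absurd rfl hk
    · show w 1 + w 1 ≤ 2 * w 1; linarith
    · show w 2 + w 2 ≤ 2 * w 2; linarith
  have hin : ∀ τ : ℝ, 0 < τ → τ ≤ w k → InK e c (dbl w) z (x + τ • e k) := by
    intro τ hτ0 hτ i
    rw [dt_move]
    by_cases hik : i = k
    · subst hik
      rw [dt_self he, mul_one]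
      have h1 := abs_le.1 (hx i)
      rw [abs_le]; constructor <;> linarith [h1.1, h1.2]
    · rw [dt_ne he hik, mul_zero, add_zero]
      exact (hx i).trans (hdb i)
  have hx' : InK e c (dbl w) z x := fun i => (hx i).trans (hdb i)
  have hl1 := l1_le (dt_self he k)
  have hmv : ∀ τ : ℝ, 0 < τ → τ ≤ w k →
      |τ * dt (gam b d g z x) (e k) + τ ^ 2 * ∑ i, ∑ j, g i j * (e k i * e k j)|
        ≤ 2 * Λ * τ := by
    intro τ h1 h2
    have h3 := hL z hz0 hz1 (x + τ • e k) x (hin τ h1 h2) hx'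
    rw [hq, hq, q_dir] at h3
    refine h3.trans ?_
    have h4 : ∀ i, (x + τ • e k) i - x i = τ * e k i := by
      intro i; simp only [Pi.add_apply, Pi.smul_apply, smul_eq_mul]; ring
    rw [h4, h4, h4, abs_mul, abs_mul, abs_mul, abs_of_pos h1]
    calc Λ * (τ * |e k 0| + τ * |e k 1| + τ * |e k 2|)
        = Λ * τ * (|e k 0| + |e k 1| + |e k 2|) := by ring
      _ ≤ Λ * τ * 2 := by gcongr
      _ = 2 * Λ * τ := by ring
  rw [abs_le]
  constructor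
  · exact le_deriv (B := ∑ i, ∑ j, g i j * (e k i * e k j)) hwk (fun τ h1 h2 => by
      have := (abs_le.1 (hmv τ h1 h2)).1; linarith)
  · exact deriv_le (B := ∑ i, ∑ j, g i j * (e k i * e k j)) hwk
      (fun τ h1 h2 => (abs_le.1 (hmv τ h1 h2)).2)

/-- **Katz-Rogers for sheets.**  The lines of `A` lie in one sheet over `[z0, z0 + ρ]`, the scaled
velocities `ρ v` are `r0`-separated. -/
theorem kr_sheet {ι : Type*} (A : Finset ι) (L : ι → Ln4) {e : Fin 3 → V3} {c : Ln4} {w : V3}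
    {q : ℝ → V3 → ℝ} {a z0 ρ r0 : ℝ} (hr0 : 0 < r0) (hρ : 0 ≤ ρ)
    (hS : Sheet e c w q a z0 ρ r0)
    (hin : ∀ t ∈ A, InSheet (L t) e c w q a z0 ρ)
    (hsep : ∀ t ∈ A, ∀ t' ∈ A, t ≠ t' → ∃ i, r0 ≤ ρ * |(L t).v i - (L t').v i|)
    (N : ℕ) (hN : 10 * w 1 / r0 ≤ 2 ^ N) :
    (A.card : ℝ) ≤ 128000000 * (N + 2) ^ 2 * (a * w 1 * w 2 / r0 ^ 3) := by
  classical
  have ha : 0 < a := hr0.trans_le hS.r0_le
  have hw2 : 0 < w 2 := ha.trans_le hS.a_le
  have hw1 : 0 < w 1 := hw2.trans_le hS.w_le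
  obtain ⟨c0, c1, c2, b, d, g, hq⟩ := hS.isQ
  have hq' : ∀ z x, q z x = qf c0 c1 c2 b d g z x := hq
  obtain ⟨Λ, hΛ, hLip, hΛa⟩ := hS.res
  set δ : ℝ := r0 / 2 with hδdef
  have hδ : 0 < δ := by positivity
  have hδa : δ ≤ a := by have := hS.r0_le; linarith
  have hδw2 : δ ≤ w 2 := by have := hS.a_le; linarith
  have hδw1 : δ ≤ w 1 := by have := hS.w_le; linarith
  let P : ι → LD := fun t => mkLD e c b d g z0 ρ (L t)
  -- injectivity of the cells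
  have hinj : CInj A P δ := by
    intro t ht t' ht' h0 h1 h2
    by_contra hne
    obtain ⟨i, hi⟩ := hsep t ht t' ht' hne
    have k0 := floor_close hδ h0
    have k1 := floor_close hδ h1
    have k2 := floor_close hδ h2
    simp only [P, mkLD] at k0 k1 k2
    rw [db_eq] at k0 k1 k2
    set Δ : V3 := ρ • ((L t').v - (L t).v) with hΔ
    have hex : dt Δ Δ = dt (e 0) Δ ^ 2 + dt (e 1) Δ ^ 2 + dt (e 2) Δ ^ 2 := by
      rw [← frame_sum hS.ortho Δ Δ, dt_comm Δ (e 0), dt_comm Δ (e 1), dt_comm Δ (e 2)]; ring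
    have hs0 : dt (e 0) Δ ^ 2 ≤ δ ^ 2 := sq_le_sq' (abs_le.1 k0).1 (abs_le.1 k0).2
    have hs1 : dt (e 1) Δ ^ 2 ≤ δ ^ 2 := sq_le_sq' (abs_le.1 k1).1 (abs_le.1 k1).2
    have hs2 : dt (e 2) Δ ^ 2 ≤ δ ^ 2 := sq_le_sq' (abs_le.1 k2).1 (abs_le.1 k2).2
    have hi2 : Δ i ^ 2 ≤ dt Δ Δ := by
      unfold dt
      fin_cases i
      · show Δ 0 ^ 2 ≤ _; nlinarith [mul_self_nonneg (Δ 1), mul_self_nonneg (Δ 2)]
      · show Δ 1 ^ 2 ≤ _; nlinarith [mul_self_nonneg (Δ 0), mul_self_nonneg (Δ 2)]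
      · show Δ 2 ^ 2 ≤ _; nlinarith [mul_self_nonneg (Δ 0), mul_self_nonneg (Δ 1)]
    have hΔi : |Δ i| = ρ * |(L t).v i - (L t').v i| := by
      rw [hΔ]
      simp only [Pi.smul_apply, Pi.sub_apply, smul_eq_mul]
      rw [abs_mul, abs_of_nonneg hρ, abs_sub_comm]
    have hri : r0 ^ 2 ≤ Δ i ^ 2 := by
      rw [← sq_abs (Δ i), hΔi]
      exact pow_le_pow_left₀ hr0.le hi 2
    have : r0 ^ 2 ≤ 3 * δ ^ 2 := by linarith
    rw [hδdef] at this
    nlinarith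
  -- membership at the two ends and the middle
  have hz1 : z0 ≤ z0 + ρ := by linarith
  have hInK0 : ∀ t ∈ A, InK e c w z0 ((L t).pos z0) := fun t ht => (hin t ht z0 le_rfl hz1).1
  have hInK1 : ∀ t ∈ A, InK e c w (z0 + ρ) ((L t).pos (z0 + ρ)) :=
    fun t ht => (hin t ht (z0 + ρ) hz1 le_rfl).1
  have hval : ∀ t ∈ A, ∀ s : ℝ, 0 ≤ s → s ≤ 1 → |val c0 c1 c2 b d g z0 ρ (L t) s| ≤ a := by
    intro t ht s hs0 hs1
    have := (hin t ht (z0 + s * ρ) (by nlinarith) (by nlinarith)).2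
    rw [hq'] at this
    exact this
  have hbase : ∀ t ∈ A, |(P t).x1| ≤ w 1 ∧ |(P t).x2| ≤ w 2 ∧ |(P t).b1| ≤ 2 * w 1 ∧
      |(P t).b2| ≤ 2 * w 2 ∧ |(P t).b0| ≤ 2 * w 0 := by
    intro t ht
    have hb : ∀ i, |dt (e i) (ρ • ((L t).v - c.v))| ≤ 2 * w i := by
      intro i
      rw [b_eq (e i) c (L t) z0 ρ]
      have h0 := hInK0 t ht i
      have h1 := hInK1 t ht i
      have := abs_sub (dt (e i) ((L t).pos (z0 + ρ) - c.pos (z0 + ρ)))
        (dt (e i) ((L t).pos z0 - c.pos z0))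
      linarith
    exact ⟨hInK0 t ht 1, hInK0 t ht 2, hb 1, hb 2, hb 0⟩
  have hpow : (a * w 1 * w 2 / δ ^ 3) = 8 * (a * w 1 * w 2 / r0 ^ 3) := by
    rw [hδdef]; field_simp; ring
  by_cases hw0 : w 0 ≤ a
  · -- the trivial case
    have htriv := card3 A (fun l => ⌊(P l).b0 / δ⌋) (fun l => ⌊(P l).b1 / δ⌋)
      (fun l => ⌊(P l).b2 / δ⌋) hinj (M0 := 4 * a / δ + 1) (M1 := 4 * w 1 / δ + 1)
      (M2 := 4 * w 2 / δ + 1) (by positivity) (by positivity) (by positivity)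
      (fun l hl l' hl' _ _ => floor_sub_le hδ (by
        have := abs_sub (P l').b0 (P l).b0
        have := (hbase l hl).2.2.2.2
        have := (hbase l' hl').2.2.2.2
        linarith))
      (fun l hl l' hl' _ => floor_sub_le hδ (by
        have := abs_sub (P l').b1 (P l).b1
        have := (hbase l hl).2.2.1
        have := (hbase l' hl').2.2.1
        linarith))
      (fun l hl l' hl' => floor_sub_le hδ (by
        have := abs_sub (P l').b2 (P l).b2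
        have := (hbase l hl).2.2.2.1
        have := (hbase l' hl').2.2.2.1
        linarith))
    have hfr : ∀ y : ℝ, δ ≤ y → 4 * y / δ + 1 + 1 ≤ 6 * y / δ := by
      intro y hy
      have : 1 ≤ y / δ := (one_le_div hδ).2 hy
      have e1 : 4 * y / δ = 4 * (y / δ) := by ring
      have e2 : 6 * y / δ = 6 * (y / δ) := by ring
      rw [e1, e2]; linarith
    calc (A.card : ℝ) ≤ (4 * a / δ + 1 + 1) * (4 * w 1 / δ + 1 + 1) * (4 * w 2 / δ + 1 + 1) :=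
          htriv
      _ ≤ (6 * a / δ) * (6 * w 1 / δ) * (6 * w 2 / δ) := by
          gcongr
          · exact hfr _ hδa
          · exact hfr _ hδw1
          · exact hfr _ hδw2
      _ = 216 * (a * w 1 * w 2 / δ ^ 3) := by field_simp; ring
      _ = 1728 * (a * w 1 * w 2 / r0 ^ 3) := by rw [hpow]; ring
      _ ≤ 128000000 * (N + 2) ^ 2 * (a * w 1 * w 2 / r0 ^ 3) := by
          have h1 : 0 ≤ a * w 1 * w 2 / r0 ^ 3 := by positivity
          have h2 : (1:ℝ) ≤ (N + 2) ^ 2 := by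
            have : (0:ℝ) ≤ N := Nat.cast_nonneg N
            nlinarith
          nlinarith
  · push Not at hw0
    have hw00 : 0 < w 0 := ha.trans hw0
    have hok : ∀ t ∈ A, Ok a δ (w 1) (w 2) (P t) := by
      intro t ht
      obtain ⟨k1, k2, k3, k4, -⟩ := hbase t ht
      have s0 := steep_grad hS.ortho c0 c1 c2 b d g hq' hS.steep hw00 hw1.le hw2.le le_rfl hz1
        (hInK0 t ht)
      have s1 := steep_grad hS.ortho c0 c1 c2 b d g hq' hS.steep hw00 hw1.le hw2.le hz1 le_rfl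
        (hInK1 t ht)
      have l0 := fun k hk => lip_grad hS.ortho c0 c1 c2 b d g hq' hLip hΛ hw1 hw2 le_rfl hz1
        (hInK0 t ht) k hk
      have l1 := fun k hk => lip_grad hS.ortho c0 c1 c2 b d g hq' hLip hΛ hw1 hw2 hz1 le_rfl
        (hInK1 t ht) k hk
      have hsubdt : ∀ (u v y : V3), dt (u - v) y = dt u y - dt v y := by
        intro u v y; simp only [dt, Pi.sub_apply]; ring
      have hΛδ : 2 * Λ * δ ≤ a := by rw [hδdef]; linarith
      have hgn : ∀ k : Fin 3, k ≠ 0 → |dt (gam b d g z0 ((L t).pos z0)) (e k)| * δ ≤ a := by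
        intro k hk
        exact (mul_le_mul_of_nonneg_right (l0 k hk) hδ.le).trans hΛδ
      have hgR : ∀ k : Fin 3, k ≠ 0 → |dt (gam b d g (z0 + ρ) ((L t).pos (z0 + ρ))
          - gam b d g z0 ((L t).pos z0)) (e k)| * δ ≤ 2 * a := by
        intro k hk
        rw [hsubdt]
        have := abs_sub (dt (gam b d g (z0 + ρ) ((L t).pos (z0 + ρ))) (e k))
          (dt (gam b d g z0 ((L t).pos z0)) (e k))
        have h3 := l0 k hk
        have h4 := l1 k hk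
        nlinarith
      exact ⟨k1, k2, k3, k4, s0.1, by
        show |dt (gam b d g (z0 + ρ) ((L t).pos (z0 + ρ))
          - gam b d g z0 ((L t).pos z0)) (e 0)| ≤ 3 / 2
        rw [hsubdt, abs_le]
        constructor <;> linarith [s0.1, s0.2, s1.1, s1.2],
        hgn 1 (by decide), hgn 2 (by decide), hgR 1 (by decide), hgR 2 (by decide)⟩
    have hrel : ∀ t ∈ A, ∀ t' ∈ A, Rel (32 * a) (P t) (P t') := by
      intro t ht t' ht'
      exact mk_rel hS.ortho c c0 c1 c2 b d g z0 ρ a ha.le (L t) (L t')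
        (hval t ht 0 le_rfl (by norm_num)) (hval t ht (1 / 2) (by norm_num) (by norm_num))
        (hval t ht 1 (by norm_num) le_rfl)
        (hval t' ht' 0 le_rfl (by norm_num)) (hval t' ht' (1 / 2) (by norm_num) (by norm_num))
        (hval t' ht' 1 (by norm_num) le_rfl)
    have hNN : 5 * w 1 / δ ≤ 2 ^ N := by
      have : 5 * w 1 / δ = 10 * w 1 / r0 := by rw [hδdef]; field_simp; ring
      rw [this]; exact hN
    have := kr_abs A P hδ hδa hδw1 hδw2 le_rfl hS.w_le hok hinj hrel N hNN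
    rw [hpow] at this
    calc (A.card : ℝ) ≤ 16000000 * (N + 2) ^ 2 * (8 * (a * w 1 * w 2 / r0 ^ 3)) := this
      _ = 128000000 * (N + 2) ^ 2 * (a * w 1 * w 2 / r0 ^ 3) := by ring

end Crest.Agent.R136.KR879
end

-- ▼ part R136/En4a_879
section

/-!
# R136: the enemy in `ℝ⁴`, part a (helper879)

Grid lines `GLine4` as real lines `Sh605.Ln4` in the coordinates `z' = (z + 2) / 4`, `x' = x / 64`.

* `kr_grid`: velocity separated families have density `≤ C (M+6)² 8^M` in every sheet of level `0`;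
* `close4`: cell mates are `2^-M`-close over the `z`-cell of level `M`;
* `cubeSheet`: the `2^-M`-neighbourhood of a line is a sheet.
-/

set_option autoImplicit false

open Finset

namespace Crest.Agent.R136.En879

open Sh605 KS879

noncomputable section

/-- the real line of a grid line, in the coordinates `z' = (z + 2) / 4`, `x' = x / 64` -/
def rl4 (N : ℕ) (l : GLine4) : Ln4 where
  p := fun i => (1 / 64 : ℝ) * ((l.1 i : ℝ) / N - 2 * ((l.2 i : ℝ) / N))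
  v := fun i => (1 / 16 : ℝ) * ((l.2 i : ℝ) / N)

/-- the new height of the grid height `j` -/
def rh4 (N : ℕ) (j : ℤ) : ℝ := ((j:ℝ) / N + 2) / 4

theorem pos_rl4 (N : ℕ) (l : GLine4) (z : ℝ) (i : Fin 3) :
    (rl4 N l).pos ((z + 2) / 4) i = (1 / 64 : ℝ) * ((l.1 i : ℝ) / N + z * ((l.2 i : ℝ) / N)) := by
  simp only [Ln4.pos, rl4]; ring

theorem rl4_inj {N : ℕ} (hN : 1 ≤ N) {l l' : GLine4} (h : rl4 N l = rl4 N l') : l = l' := by
  have hN0 : (N : ℝ) ≠ 0 := by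
    have : (0:ℝ) < N := by exact_mod_cast hN
    exact this.ne'
  have hv := congrArg Ln4.v h
  have hp := congrArg Ln4.p h
  have e2 : ∀ i, l.2 i = l'.2 i := by
    intro i
    have h1 := congrFun hv i
    simp only [rl4] at h1
    have h2 : (l.2 i : ℝ) = l'.2 i := by
      have : (l.2 i : ℝ) / N = l'.2 i / N := by linarith
      field_simp at this; exact this
    exact_mod_cast h2
  have e1 : ∀ i, l.1 i = l'.1 i := by
    intro i
    have h1 := congrFun hp i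
    simp only [rl4] at h1
    rw [e2 i] at h1
    have h2 : (l.1 i : ℝ) = l'.1 i := by
      have : (l.1 i : ℝ) / N = l'.1 i / N := by linarith
      field_simp at this; exact this
    exact_mod_cast h2
  exact Prod.ext (funext e1) (funext e2)

theorem rh4_mem {N : ℕ} (hN : 1 ≤ N) {j : ℤ} (hj : |j| ≤ (N : ℤ)) :
    1 / 4 ≤ rh4 N j ∧ rh4 N j ≤ 3 / 4 := by
  have hN0 : (0:ℝ) < N := by exact_mod_cast hN
  have h1 : |(j:ℝ)| ≤ N := by exact_mod_cast hj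
  rw [abs_le] at h1
  have h2 : -1 ≤ (j:ℝ) / N := by rw [le_div_iff₀ hN0]; linarith [h1.1]
  have h3 : (j:ℝ) / N ≤ 1 := by rw [div_le_one hN0]; exact h1.2
  unfold rh4
  constructor <;> linarith

/-- heights in different cells of level `M` -/
theorem rh4_cell_inj {N M : ℕ} (hN : 1 ≤ N) (hM : 4 * N ≤ 2 ^ M) {j j' : ℤ}
    (h : ⌊(2:ℝ) ^ M * rh4 N j⌋ = ⌊(2:ℝ) ^ M * rh4 N j'⌋) : j = j' := by
  have hN0 : (0:ℝ) < N := by exact_mod_cast hN
  have h1 := Int.abs_sub_lt_one_of_floor_eq_floor h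
  have h2 : (2:ℝ) ^ M * rh4 N j - 2 ^ M * rh4 N j' = (2 ^ M / (4 * N)) * ((j:ℝ) - j') := by
    unfold rh4; field_simp; ring
  have h3 : (1:ℝ) ≤ 2 ^ M / (4 * N) := by
    rw [le_div_iff₀ (by positivity)]
    have : ((4 * N : ℕ) : ℝ) ≤ ((2 ^ M : ℕ) : ℝ) := by exact_mod_cast hM
    push_cast at this; linarith
  rw [h2, abs_mul, abs_of_pos (by linarith)] at h1
  have h4 : |(j:ℝ) - j'| < 1 := by
    have : |(j:ℝ) - j'| ≤ 2 ^ M / (4 * N) * |(j:ℝ) - j'| :=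
      le_mul_of_one_le_left (abs_nonneg _) h3
    linarith
  have h5 : |j - j'| < 1 := by exact_mod_cast h4
  have := Int.abs_lt_one_iff.1 h5
  omega

/-- velocities of different lines are separated -/
theorem vel_sep {N : ℕ} (hN : 1 ≤ N) {l l' : GLine4} (h : l.2 ≠ l'.2) :
    ∃ i, 1 / (16 * (N:ℝ)) ≤ |(rl4 N l).v i - (rl4 N l').v i| := by
  have hN0 : (0:ℝ) < N := by exact_mod_cast hN
  obtain ⟨i, hi⟩ := Function.ne_iff.1 h
  refine ⟨i, ?_⟩
  have h1 : (1:ℝ) ≤ |(l.2 i : ℝ) - l'.2 i| := by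
    have : 1 ≤ |l.2 i - l'.2 i| := Int.one_le_abs (sub_ne_zero.2 hi)
    exact_mod_cast this
  have h2 : (rl4 N l).v i - (rl4 N l').v i = (1 / (16 * (N:ℝ))) * ((l.2 i : ℝ) - l'.2 i) := by
    simp only [rl4]; field_simp
  rw [h2, abs_mul, abs_of_pos (by positivity)]
  exact le_mul_of_one_le_right (by positivity) h1


/-- cell mates are close over the `z`-cell of level `M` -/
theorem close4 {N M : ℕ} (hN : 1 ≤ N) (hM' : 2 ^ M ≤ 32 * N)
    {x y : GLine4 × ℤ} (hx : Bd4 N x.1) (hy : Bd4 N y.1) (h : key4 N x = key4 N y) {z : ℝ}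
    (hz : |z - rh4 N y.2| ≤ 1 / 2 ^ M) (i : Fin 3) :
    |(rl4 N x.1).pos z i - (rl4 N y.1).pos z i| ≤ 1 / 2 ^ M := by
  have hN0 : (0:ℝ) < N := by exact_mod_cast hN
  have hMr' : (2:ℝ) ^ M ≤ 32 * N := by
    have : ((2 ^ M : ℕ) : ℝ) ≤ ((32 * N : ℕ) : ℝ) := by exact_mod_cast hM'
    push_cast at this; exact this
  have hp : (0:ℝ) < 2 ^ M := by positivity
  unfold key4 at h
  rw [Prod.mk.injEq] at h
  obtain ⟨h1, h2⟩ := h
  rw [← h2] at h1 hz
  set j := x.2 with hj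
  have ha := (Int.abs_sub_lt_one_of_floor_eq_floor (congrFun h1 i)).le
  have bx : |(x.1.2 i : ℝ)| ≤ N := by exact_mod_cast (hx i).2
  have bY : |(y.1.2 i : ℝ)| ≤ N := by exact_mod_cast (hy i).2
  set w : ℝ := 4 * z - 2 with hw
  have hzw : z = (w + 2) / 4 := by rw [hw]; ring
  have hwj : |w - (j:ℝ) / N| ≤ 4 / 2 ^ M := by
    have : w - (j:ℝ) / N = 4 * (z - rh4 N j) := by rw [hw]; unfold rh4; ring
    rw [this, abs_mul, abs_of_pos (by norm_num : (0:ℝ) < 4)]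
    calc 4 * |z - rh4 N j| ≤ 4 * (1 / 2 ^ M) := by gcongr
      _ = _ := by ring
  rw [hzw, pos_rl4, pos_rl4]
  have e1 : (1 / 64 : ℝ) * ((x.1.1 i : ℝ) / N + w * ((x.1.2 i : ℝ) / N)) -
      (1 / 64 : ℝ) * ((y.1.1 i : ℝ) / N + w * ((y.1.2 i : ℝ) / N)) =
      1 / 64 * ((1 / N) * (((x.1.1 i : ℝ) + x.1.2 i * (j:ℝ) / N) -
        ((y.1.1 i : ℝ) + y.1.2 i * (j:ℝ) / N)) +
      (w - (j:ℝ) / N) * (((x.1.2 i : ℝ) - y.1.2 i) / N)) := by field_simp; ring
  have e2 : |((x.1.2 i : ℝ) - y.1.2 i) / N| ≤ 2 := by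
    rw [abs_div, abs_of_pos hN0, div_le_iff₀ hN0]
    calc |(x.1.2 i : ℝ) - y.1.2 i| ≤ |(x.1.2 i : ℝ)| + |(y.1.2 i : ℝ)| := abs_sub _ _
      _ ≤ 2 * N := by linarith
  have e3 : (1:ℝ) / N ≤ 32 / 2 ^ M := by
    rw [div_le_div_iff₀ hN0 hp]; linarith
  rw [e1, abs_mul, abs_of_pos (by norm_num : (0:ℝ) < 1 / 64)]
  have e4 : |(1 / (N:ℝ)) * (((x.1.1 i : ℝ) + x.1.2 i * (j:ℝ) / N) -
      ((y.1.1 i : ℝ) + y.1.2 i * (j:ℝ) / N)) +
      (w - (j:ℝ) / N) * (((x.1.2 i : ℝ) - y.1.2 i) / N)| ≤ 40 / 2 ^ M := by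
    calc _ ≤ |(1 / (N:ℝ)) * (((x.1.1 i : ℝ) + x.1.2 i * (j:ℝ) / N) -
          ((y.1.1 i : ℝ) + y.1.2 i * (j:ℝ) / N))| +
          |(w - (j:ℝ) / N) * (((x.1.2 i : ℝ) - y.1.2 i) / N)| := abs_add_le _ _
      _ = (1 / N) * |((x.1.1 i : ℝ) + x.1.2 i * (j:ℝ) / N) -
          ((y.1.1 i : ℝ) + y.1.2 i * (j:ℝ) / N)| +
          |w - (j:ℝ) / N| * |((x.1.2 i : ℝ) - y.1.2 i) / N| := by
        rw [abs_mul, abs_mul, abs_of_pos (by positivity : (0:ℝ) < 1 / N)]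
      _ ≤ (32 / 2 ^ M) * 1 + (4 / 2 ^ M) * 2 := by gcongr
      _ = 40 / 2 ^ M := by ring
  have e5 := mul_le_mul_of_nonneg_left e4 (by norm_num : (0:ℝ) ≤ 1 / 64)
  refine e5.trans ?_
  have e6 : (1:ℝ) / 64 * (40 / 2 ^ M) = (5 / 8) * (1 / 2 ^ M) := by ring
  rw [e6]
  have h0 : (0:ℝ) ≤ 1 / 2 ^ M := by positivity
  linarith

/-- the standard frame -/
def stdE : Fin 3 → V3 := ![![1, 0, 0], ![0, 1, 0], ![0, 0, 1]]

theorem dt_std (i : Fin 3) (x : V3) : dt (stdE i) x = x i := by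
  fin_cases i <;> simp [dt, stdE]

theorem ortho_std : Ortho stdE := by
  intro i j
  rw [dt_std]
  fin_cases i <;> fin_cases j <;> simp [stdE]

/-- the height function of the small cube sheet -/
def cubeQ (c : Ln4) : ℝ → V3 → ℝ := fun z x => x 0 - c.pos z 0

/-- **the `r`-cube around a line is a sheet** (every level, resolution `r`) -/
theorem cubeSheet (c : Ln4) {r z0 ρ : ℝ} :
    Sheet stdE c ![r, r, r] (cubeQ c) r z0 ρ r where
  ortho := ortho_std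
  isQ := by
    refine ⟨-c.p 0, -c.v 0, 0, ![1, 0, 0], 0, 0, fun z x => ?_⟩
    simp only [cubeQ, Ln4.pos, Fin.sum_univ_three, Pi.zero_apply, Matrix.cons_val_zero,
      Matrix.cons_val_one, Matrix.cons_val]
    ring
  steep := by
    intro z _ _ x τ hτ _ _
    have : cubeQ c z (x + τ • stdE 0) - cubeQ c z x = τ := by
      simp only [cubeQ, stdE, Pi.add_apply, Pi.smul_apply, smul_eq_mul, Matrix.cons_val_zero]
      ring
    rw [this]; constructor <;> linarith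
  a_le := le_rfl
  w_le := le_rfl
  r0_le := le_rfl
  res := by
    refine ⟨1, zero_le_one, ?_, by rw [mul_one]⟩
    intro z _ _ x x' _ _
    have : cubeQ c z x - cubeQ c z x' = x 0 - x' 0 := by simp only [cubeQ]; ring
    rw [this, one_mul]
    have := abs_nonneg (x 1 - x' 1)
    have := abs_nonneg (x 2 - x' 2)
    linarith

theorem inCube {c t : Ln4} {r z0 ρ : ℝ}
    (h : ∀ z, z0 ≤ z → z ≤ z0 + ρ → ∀ i, |t.pos z i - c.pos z i| ≤ r) :
    InSheet t stdE c ![r, r, r] (cubeQ c) r z0 ρ := by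
  intro z h0 h1
  refine ⟨fun i => ?_, ?_⟩
  · rw [dt_std]
    have := h z h0 h1 i
    fin_cases i <;> exact this
  · exact h z h0 h1 0

/-- the cell mates of `y` lie in the cube sheet of `y` over the cell of level `M` -/
theorem mates_in {N M : ℕ} (hN : 1 ≤ N) (hM' : 2 ^ M ≤ 32 * N)
    {x y : GLine4 × ℤ} (hx : Bd4 N x.1) (hy : Bd4 N y.1) (h : key4 N x = key4 N y) :
    InSheet (rl4 N x.1) stdE (rl4 N y.1) ![1 / 2 ^ M, 1 / 2 ^ M, 1 / 2 ^ M]
      (cubeQ (rl4 N y.1)) (1 / 2 ^ M) ((⌊(2:ℝ) ^ M * rh4 N y.2⌋ : ℝ) / 2 ^ M) (1 / 2 ^ M) := by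
  have hp : (0:ℝ) < 2 ^ M := by positivity
  apply inCube
  intro z h0 h1 i
  refine close4 hN hM' hx hy h ?_ i
  have f1 := Int.floor_le ((2:ℝ) ^ M * rh4 N y.2)
  have f2 := Int.lt_floor_add_one ((2:ℝ) ^ M * rh4 N y.2)
  have g1 : (⌊(2:ℝ) ^ M * rh4 N y.2⌋ : ℝ) / 2 ^ M ≤ rh4 N y.2 := by
    rw [div_le_iff₀ hp]; linarith
  have g2 : rh4 N y.2 ≤ (⌊(2:ℝ) ^ M * rh4 N y.2⌋ : ℝ) / 2 ^ M + 1 / 2 ^ M := by
    rw [← add_div, le_div_iff₀ hp]; linarith
  rw [abs_le]; constructor <;> linarith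

/-- the level of the grid -/
theorem exists_level {N : ℕ} (hN : 1 ≤ N) : ∃ M, 16 * N ≤ 2 ^ M ∧ 2 ^ M ≤ 32 * N ∧ 1 ≤ M := by
  refine ⟨Nat.clog 2 (16 * N), Nat.le_pow_clog one_lt_two _, ?_, ?_⟩
  · have h1 : 2 ^ (Nat.clog 2 (16 * N) - 1) < 16 * N :=
      Nat.pow_pred_clog_lt_self one_lt_two (by omega)
    have hM1 : 1 ≤ Nat.clog 2 (16 * N) := by
      by_contra h
      have h0 : Nat.clog 2 (16 * N) = 0 := by omega
      have := Nat.le_pow_clog one_lt_two (16 * N)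
      rw [h0] at this; omega
    have h2 : 2 ^ (Nat.clog 2 (16 * N)) = 2 * 2 ^ (Nat.clog 2 (16 * N) - 1) := by
      rw [← pow_succ']; congr 1; omega
    omega
  · by_contra h
    have h0 : Nat.clog 2 (16 * N) = 0 := by omega
    have := Nat.le_pow_clog one_lt_two (16 * N)
    rw [h0] at this; omega

end

end Crest.Agent.R136.En879
end

-- ▼ part R136/En4b_879
section

/-!
# R136: the enemy in `ℝ⁴`, part b (helper879): the negation of `KS4`, in powers of two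

`enemy_raw`: if `KS4` fails there is `b0 > 0` such that for all `η > 0`, `M0` there is a grid
configuration with `16 N ≤ 2^M ≤ 32 N`, `M ≥ M0`, lines alive in `≥ 2^((1-η) M)` cells of level `M`,
multiplicity between `μ` and `2^(η M) μ`, `μ ≥ 2^(b0 M)`.
-/

set_option autoImplicit false

open Finset

namespace Crest.Agent.R136.En879

open Sh605 KS879

noncomputable section

open Classical in
/-- a grid configuration, raw form -/
structure Raw (b0 η : ℝ) (N M : ℕ) (s : Finset GLine4) (I : Finset (GLine4 × ℤ)) (μ : ℝ) :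
    Prop where
  N1 : 1 ≤ N
  M1 : 1 ≤ M
  hM : 16 * N ≤ 2 ^ M
  hM' : 2 ^ M ≤ 32 * N
  ne : s.Nonempty
  bd : ∀ l ∈ s, Bd4 N l
  inj : Set.InjOn Prod.snd (s : Set GLine4)
  many : (2:ℝ) ^ ((3 - η) * M) ≤ 32 ^ 3 * (s.card : ℝ)
  mem : ∀ x ∈ I, x.1 ∈ s ∧ |x.2| ≤ (N : ℤ)
  own : ∀ l ∈ s, (2:ℝ) ^ ((1 - η) * M) ≤ 32 * ((I.filter (fun x => x.1 = l)).card : ℝ)
  mul : ∀ x ∈ I, μ ≤ ((I.filter (fun y => key4 N y = key4 N x)).card : ℝ) ∧
      ((I.filter (fun y => key4 N y = key4 N x)).card : ℝ) ≤ (2:ℝ) ^ (η * M) * μ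
  big : (2:ℝ) ^ (b0 * M) ≤ μ

theorem Raw.Ine {b0 η : ℝ} {N M : ℕ} {s : Finset GLine4} {I : Finset (GLine4 × ℤ)} {μ : ℝ}
    (h : Raw b0 η N M s I μ) : I.Nonempty := by
  classical
  obtain ⟨l, hl⟩ := h.ne
  have h1 := h.own l hl
  have h2 : (0:ℝ) < 2 ^ ((1 - η) * M) := by positivity
  have h3 : 0 < (I.filter (fun x => x.1 = l)).card := by
    by_contra h0
    have : (I.filter (fun x => x.1 = l)).card = 0 := by omega
    rw [this] at h1
    norm_num at h1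
    linarith
  obtain ⟨x, hx⟩ := card_pos.1 h3
  exact ⟨x, (mem_filter.1 hx).1⟩

/-- `N ≥ 2^M / 32` in powers -/
theorem pow_N {N M : ℕ} (hN : 1 ≤ N) (hM' : 2 ^ M ≤ 32 * N) {x : ℝ} (hx : 0 ≤ x) :
    (2:ℝ) ^ (x * M) ≤ 32 ^ x * (N:ℝ) ^ x := by
  have hN0 : (0:ℝ) < N := by exact_mod_cast hN
  have hMr' : (2:ℝ) ^ M ≤ 32 * N := by
    have : ((2 ^ M : ℕ) : ℝ) ≤ ((32 * N : ℕ) : ℝ) := by exact_mod_cast hM'
    push_cast at this; exact this
  rw [← Real.mul_rpow (by norm_num) hN0.le, mul_comm x, Real.rpow_mul (by norm_num),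
    Real.rpow_natCast]
  exact Real.rpow_le_rpow (by positivity) hMr' hx

theorem pow_N' {N M : ℕ} (hN : 1 ≤ N) (hM : 16 * N ≤ 2 ^ M) {x : ℝ} (hx : 0 ≤ x) :
    (N:ℝ) ^ x ≤ 2 ^ (x * M) := by
  have hN0 : (0:ℝ) < N := by exact_mod_cast hN
  have hMr : (16:ℝ) * N ≤ 2 ^ M := by
    have : ((16 * N : ℕ) : ℝ) ≤ ((2 ^ M : ℕ) : ℝ) := by exact_mod_cast hM
    push_cast at this; exact this
  rw [mul_comm x, Real.rpow_mul (by norm_num), Real.rpow_natCast]
  exact Real.rpow_le_rpow hN0.le (by linarith) hx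

theorem enemy_raw (h : ¬ KS4) : ∃ b0 : ℝ, 0 < b0 ∧ ∀ η : ℝ, 0 < η → ∀ M0 : ℕ,
    ∃ (N M : ℕ) (s : Finset GLine4) (I : Finset (GLine4 × ℤ)) (μ : ℝ),
      M0 ≤ M ∧ Raw b0 η N M s I μ := by
  classical
  unfold KS4 at h
  push Not at h
  obtain ⟨ε, hε, hfail⟩ := h
  refine ⟨ε, hε, fun η0 hη0 M0 => ?_⟩
  set η : ℝ := min η0 1 with hη
  have hηp : 0 < η := lt_min hη0 one_pos
  have hη1 : η ≤ 1 := min_le_right _ _
  have hηη : η ≤ η0 := min_le_left _ _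
  set C : ℝ := 32 ^ ε + 27 * ((2:ℝ) ^ M0) ^ 3 with hC
  have hCp : 0 < C := by positivity
  obtain ⟨N, hN, s, I, μ, hs, hbd, hinj, hmany, hmem, hown, hmul, hbig⟩ := hfail η hηp C hCp
  have hN0 : (0:ℝ) < N := by exact_mod_cast hN
  have hN1 : (1:ℝ) ≤ N := by exact_mod_cast hN
  obtain ⟨M, hM, hM', hM1⟩ := exists_level hN
  have hMr : (16:ℝ) * N ≤ 2 ^ M := by
    have : ((16 * N : ℕ) : ℝ) ≤ ((2 ^ M : ℕ) : ℝ) := by exact_mod_cast hM
    push_cast at this; exact this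
  have hNε : (1:ℝ) ≤ (N:ℝ) ^ ε := Real.one_le_rpow hN1 hε.le
  -- `I` is non-empty
  have hIne : I.Nonempty := by
    obtain ⟨l, hl⟩ := hs
    have h1 := hown l hl
    have h2 : (0:ℝ) < (N:ℝ) ^ (1 - η) := by positivity
    have h3 : 0 < (I.filter (fun x => x.1 = l)).card := by
      by_contra h0
      have : (I.filter (fun x => x.1 = l)).card = 0 := by omega
      rw [this] at h1
      norm_num at h1
      linarith
    obtain ⟨x, hx⟩ := card_pos.1 h3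
    exact ⟨x, (mem_filter.1 hx).1⟩
  -- the multiplicity is at most the number of lines
  have hμs : μ ≤ 27 * (N:ℝ) ^ 3 := by
    obtain ⟨x, hx⟩ := hIne
    refine (hmul x hx).1.trans ?_
    refine le_trans ?_ (card_le_of_inj hN hbd hinj)
    refine Nat.cast_le.2 (card_le_card_of_injOn (fun y => y.1) (fun y hy => ?_) ?_)
    · rw [Finset.mem_coe, mem_filter] at hy
      exact (hmem y hy.1).1
    · intro y hy y' hy' hyy
      rw [Finset.mem_coe, mem_filter] at hy hy'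
      have h1 : y.2 = y'.2 := by
        have := congrArg Prod.snd (hy.2.trans hy'.2.symm); simpa [key4] using this
      exact Prod.ext hyy h1
  refine ⟨N, M, s, I, μ, ?_, ⟨hN, hM1, hM, hM', hs, hbd, hinj, ?_, hmem, ?_, ?_, ?_⟩⟩
  · -- `M0 ≤ M`
    have h1 : C < 27 * (N:ℝ) ^ 3 := by
      calc C ≤ C * (N:ℝ) ^ ε := le_mul_of_one_le_right hCp.le hNε
        _ < μ := hbig
        _ ≤ _ := hμs
    have h2 : ((2:ℝ) ^ M0) ^ 3 < (N:ℝ) ^ 3 := by
      have : (0:ℝ) < 32 ^ ε := by positivity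
      rw [hC] at h1
      linarith
    have h3 : (2:ℝ) ^ M0 < N := lt_of_pow_lt_pow_left₀ 3 hN0.le h2
    have h4 : (2:ℝ) ^ M0 ≤ 2 ^ M := by linarith
    exact (pow_le_pow_iff_right₀ one_lt_two).1 h4
  · have h1 := pow_N hN hM' (x := 3 - η) (by linarith)
    have h2 : (2:ℝ) ^ ((3 - η0) * M) ≤ 2 ^ ((3 - η) * M) := by
      apply Real.rpow_le_rpow_of_exponent_le (by norm_num)
      have : (0:ℝ) ≤ M := Nat.cast_nonneg M
      nlinarith
    have h3 : (32:ℝ) ^ (3 - η) ≤ 32 ^ 3 := by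
      rw [← Real.rpow_natCast 32 3]
      apply Real.rpow_le_rpow_of_exponent_le (by norm_num)
      push_cast; linarith
    calc (2:ℝ) ^ ((3 - η0) * M) ≤ 2 ^ ((3 - η) * M) := h2
      _ ≤ 32 ^ (3 - η) * (N:ℝ) ^ (3 - η) := h1
      _ ≤ 32 ^ 3 * (s.card : ℝ) := by gcongr
  · intro l hl
    have h1 := pow_N hN hM' (x := 1 - η) (by linarith)
    have h2 : (2:ℝ) ^ ((1 - η0) * M) ≤ 2 ^ ((1 - η) * M) := by
      apply Real.rpow_le_rpow_of_exponent_le (by norm_num)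
      have : (0:ℝ) ≤ M := Nat.cast_nonneg M
      nlinarith
    have h3 : (32:ℝ) ^ (1 - η) ≤ 32 := by
      calc (32:ℝ) ^ (1 - η) ≤ 32 ^ (1:ℝ) :=
            Real.rpow_le_rpow_of_exponent_le (by norm_num) (by linarith)
        _ = 32 := Real.rpow_one _
    calc (2:ℝ) ^ ((1 - η0) * M) ≤ 2 ^ ((1 - η) * M) := h2
      _ ≤ 32 ^ (1 - η) * (N:ℝ) ^ (1 - η) := h1
      _ ≤ 32 * ((I.filter (fun x => x.1 = l)).card : ℝ) := by
        have := hown l hl
        gcongr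
  · intro x hx
    obtain ⟨h1, h2⟩ := hmul x hx
    have hμ0 : 0 < μ := (by positivity : (0:ℝ) < C * (N:ℝ) ^ ε).trans hbig
    refine ⟨h1, h2.trans ?_⟩
    have h3 := pow_N' hN hM hηp.le
    have h4 : (2:ℝ) ^ (η * M) ≤ 2 ^ (η0 * M) := by
      apply Real.rpow_le_rpow_of_exponent_le (by norm_num)
      have : (0:ℝ) ≤ M := Nat.cast_nonneg M
      nlinarith
    have h5 := h3.trans h4
    gcongr
  · have h1 := pow_N hN hM' (x := ε) hε.le
    calc (2:ℝ) ^ (ε * M) ≤ 32 ^ ε * (N:ℝ) ^ ε := h1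
      _ ≤ C * (N:ℝ) ^ ε := by
        have : (0:ℝ) ≤ 27 * ((2:ℝ) ^ M0) ^ 3 := by positivity
        have h3 : (32:ℝ) ^ ε ≤ C := by rw [hC]; linarith
        gcongr
      _ ≤ μ := hbig.le

end

end Crest.Agent.R136.En879
end

-- ▼ part R136/En4c_879
section

/-!
# R136: the enemy in `ℝ⁴`, part c (helper879): incidences of real lines

`grid_cf`: a raw grid configuration as a finite set `J` of incidences `(real line, height)` with
classes: everything a literal configuration needs (levels `0` and `M`, resolution `2^-M`).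
-/

set_option autoImplicit false

open Finset

namespace Crest.Agent.R136.En879

open Sh605 KS879

noncomputable section

/-- index of the dyadic cell of level `m` of the height `z` -/
def zc4 (m : ℕ) (z : ℝ) : ℤ := ⌊(2:ℝ) ^ m * z⌋

/-- the object of level `m` of an incidence -/
def ob4 (m : ℕ) (x : Ln4 × ℝ) : Ln4 × ℤ := (x.1, zc4 m x.2)

/-- the incidences as real objects -/
def phi4 (N : ℕ) (x : GLine4 × ℤ) : Ln4 × ℝ := (rl4 N x.1, rh4 N x.2)

theorem phi4_inj {N M : ℕ} (hN : 1 ≤ N) (hM : 16 * N ≤ 2 ^ M) {x y : GLine4 × ℤ}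
    (h : ob4 M (phi4 N x) = ob4 M (phi4 N y)) : x = y := by
  simp only [ob4, phi4, Prod.mk.injEq] at h
  exact Prod.ext (rl4_inj hN h.1) (rh4_cell_inj hN (by omega) h.2)


end

end Crest.Agent.R136.En879
end

-- ▼ part R136/KDef4_879

/-!
# R136: literal configurations in `ℝ⁴` (helper879, port of `KDef_294`)

Lines `l : Ln4` (Sh1_605), incidences `(l, z)` with real height `z`, dyadic `z`-cells of level `m`
(absolute scales).  A test set of level `m` is a 605 sheet `Plk4` over one cell of level `m`;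
objects are pairs (line, cell).  `cap4 q1 q2 m K = a w2 w1 (w2 2^m)^q2 (w1 2^m)^q1`; no reward on
the thickness `a`.  Slope cap `Λm` (818).  `Cf4` = finite configuration of the window `[m, m + M]`
with ASSIGNED classes at the deep level; full shading: value `= log₂ (D1 / D0) / M`.

`enemy4`: if `KS4` fails there are admissible configurations of value `≥ b0 - q1 - q2`.
-/

set_option autoImplicit false

open Finset

namespace Crest.Agent.R136.K4

open Sh605 KS879 En879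

noncomputable section

/-- a sheet over the cell `j` (of a level which is not recorded) -/
structure Plk4 where
  j : ℤ
  e : Fin 3 → V3
  c : Ln4
  w : V3
  q : ℝ → V3 → ℝ
  a : ℝ

/-- the object `o` = (line, cell of level `m`) lies in the sheet `K` -/
def In4 (m : ℕ) (K : Plk4) (o : Ln4 × ℤ) : Prop :=
  o.2 = K.j ∧ InSheet o.1 K.e K.c K.w K.q K.a ((K.j : ℝ) / 2 ^ m) (1 / 2 ^ m)

/-- legal sheets of level `m` at resolution `r`, slope at most `Λm` -/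
structure Legal4 (m : ℕ) (r Λm : ℝ) (K : Plk4) : Prop where
  sheet : Sheet K.e K.c K.w K.q K.a ((K.j : ℝ) / 2 ^ m) (1 / 2 ^ m) r
  slope : ∃ Λ, 0 ≤ Λ ∧ Λ ≤ Λm ∧
    LipK K.q K.e K.c (dbl K.w) ((K.j : ℝ) / 2 ^ m) (1 / 2 ^ m) Λ
  w1 : K.w 1 ≤ 1 / 2 ^ m

/-- capacity -/
def cap4 (q1 q2 : ℝ) (m : ℕ) (K : Plk4) : ℝ :=
  K.a * K.w 2 * K.w 1 * ((K.w 2 * 2 ^ m) ^ q2 * (K.w 1 * 2 ^ m) ^ q1)

open Classical in
/-- the objects of `I` in the sheet `K` -/
def objs4 (m : ℕ) (I : Finset (Ln4 × ℝ)) (K : Plk4) : Finset (Ln4 × ℤ) :=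
  (I.image (ob4 m)).filter (In4 m K)

open Classical in
/-- number of cells of level `m'` which the line of `x` has in the `m`-cell of `x` -/
def ownc4 (m m' : ℕ) (I : Finset (Ln4 × ℝ)) (x : Ln4 × ℝ) : ℕ :=
  ((I.filter fun y => ob4 m y = ob4 m x).image (ob4 m')).card

/-- finite configuration of the window `[m, m + M]`, with assigned deep classes -/
structure Cf4 where
  /-- coarse level -/
  m : ℕ
  /-- number of dyadic levels of the window -/
  M : ℕ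
  /-- resolution -/
  r : ℝ
  /-- slope cap -/
  Λm : ℝ
  /-- incidences -/
  I : Finset (Ln4 × ℝ)
  /-- class of an object of level `m + M` -/
  cl : Ln4 × ℤ → ℕ
  /-- sheet of a class -/
  K : ℕ → Plk4
  /-- upper bound for the densities of level `m` -/
  D0 : ℝ
  /-- lower bound for the class densities of level `m + M` -/
  D1 : ℝ

/-- the deep level -/
def Cf4.top (F : Cf4) : ℕ := F.m + F.M

open Classical in
/-- the objects of the class of `x` -/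
def Cf4.cls (F : Cf4) (x : Ln4 × ℝ) : Finset (Ln4 × ℤ) :=
  (F.I.image (ob4 F.top)).filter fun o => F.cl o = F.cl (ob4 F.top x)

/-- validity of a configuration for the rewards `q1` (wide width `w 1`), `q2` (`w 2`) -/
structure Cf4.Ok (q1 q2 : ℝ) (F : Cf4) : Prop where
  M1 : 1 ≤ F.M
  r0 : 0 < F.r
  rle : F.r ≤ 1 / 2 ^ F.top
  Λ1 : 1 ≤ F.Λm
  ne : F.I.Nonempty
  cell : ∀ x ∈ F.I, ∀ y ∈ F.I, zc4 F.m x.2 = zc4 F.m y.2
  D1p : 0 < F.D1
  legal : ∀ x ∈ F.I, Legal4 F.top F.r F.Λm (F.K (F.cl (ob4 F.top x)))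
  mem : ∀ x ∈ F.I, In4 F.top (F.K (F.cl (ob4 F.top x))) (ob4 F.top x)
  low : ∀ x ∈ F.I, F.D1 * cap4 q1 q2 F.top (F.K (F.cl (ob4 F.top x))) ≤ ((F.cls x).card : ℝ)
  up : ∀ K, Legal4 F.m F.r F.Λm K → ((objs4 F.m F.I K).card : ℝ) ≤ F.D0 * cap4 q1 q2 F.m K

/-- the value `D(1) - D(0)` of the configuration, in units of the window -/
def Cf4.val (F : Cf4) : ℝ := Real.logb 2 (F.D1 / F.D0) / F.M

/-- admissibility with error `δ`: own loss, size, resolution, slope cap; velocities bounded -/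
structure Cf4.Adm (δ : ℝ) (F : Cf4) : Prop where
  own : ∀ x ∈ F.I, (2:ℝ) ^ ((1 - δ) * F.M) ≤ (ownc4 F.m F.top F.I x : ℝ)
  size : Real.logb 2 (F.I.card : ℝ) ≤ (2:ℝ) ^ (δ * F.M)
  res : Real.logb 2 (1 / (F.r * 2 ^ F.m)) ≤ (2:ℝ) ^ (δ * F.M)
  slope : F.Λm ≤ (2:ℝ) ^ (δ * F.M)
  vel : ∀ x ∈ F.I, ∀ i, |x.1.v i| ≤ 1

/-! ### the configuration of a grid family -/


/-- the cube sheet over the cell `j` of level `m` -/
def cubeK (r : ℝ) (o : Ln4 × ℤ) : Plk4 := ⟨o.2, stdE, o.1, ![r, r, r], cubeQ o.1, r⟩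





open Filter Topology in
/-- polynomials of `M` are negligible -/
theorem poly_small (C : ℝ) (hC : 0 < C) {b : ℝ} (hb : 0 < b) :
    ∀ᶠ M : ℕ in atTop, C * ((M : ℝ) + 6) ^ 2 ≤ (2:ℝ) ^ (b * M) := by
  have h1 : (1:ℝ) < 2 ^ b := Real.one_lt_rpow (by norm_num) hb
  have h2 := tendsto_pow_const_div_const_pow_of_one_lt 2 h1
  have h3 := (tendsto_add_atTop_iff_nat 6).2 h2
  have h4 : (0:ℝ) < 1 / (C * ((2:ℝ) ^ b) ^ 6) := by positivity
  filter_upwards [h3.eventually_lt_const h4] with M hM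
  have h5 : (0:ℝ) < ((2:ℝ) ^ b) ^ (M + 6) := by positivity
  rw [div_lt_div_iff₀ h5 (by positivity), one_mul, pow_add] at hM
  have h6 : (0:ℝ) < ((2:ℝ) ^ b) ^ 6 := by positivity
  have h7 : (2:ℝ) ^ (b * M) = ((2:ℝ) ^ b) ^ M := by
    rw [Real.rpow_mul (by norm_num), Real.rpow_natCast]
  rw [h7]
  push_cast at hM
  have h8 : (C * ((M : ℝ) + 6) ^ 2) * ((2:ℝ) ^ b) ^ 6 ≤ ((2:ℝ) ^ b) ^ M * ((2:ℝ) ^ b) ^ 6 := by
    calc (C * ((M : ℝ) + 6) ^ 2) * ((2:ℝ) ^ b) ^ 6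
        = ((M : ℝ) + 6) ^ 2 * (C * ((2:ℝ) ^ b) ^ 6) := by ring
      _ ≤ ((2:ℝ) ^ b) ^ M * ((2:ℝ) ^ b) ^ 6 := hM.le
  exact le_of_mul_le_mul_right h8 h6


end

end Crest.Agent.R136.K4
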