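import Mathlib
import Crest.Agent.R136.KS4_879
import Crest.Agent.R136.Sh6_605
import Crest.Agent.R136.KDef4_879
import Crest.Agent.R136.MkF_627
import Crest.Agent.R136.Deep0_770
import Crest.Agent.R136.SubD_335
import Crest.Agent.R136.DAl7_879

-- ▼ part R136/FDef_480
section

/-!
# R136 (S0187): the combinatorial normal form `FK4` of Kakeya sets in `ℝ⁴` (helper480)

Grid lines `x(t) = (a + t v)/N`, `t ∈ [0,1]`, `a, v ∈ ℤ³`, at most one line for each direction `v`.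
`FK4`: for all `ε > 0` there is `η > 0` such that for large `N`, if there are at least `N^(3-η)` lines
and each of them has at least `N^(1-η)` of its `N` cells in `E`, then `#E ≥ N^(4-ε)`.
-/

set_option autoImplicit false

namespace Crest.Agent.R136.Fin480

/-- grid lines of `ℝ⁴`: the line `x(t) = (a + t v)/N`. -/
abbrev GL4 := (Fin 3 → ℤ) × (Fin 3 → ℤ)

/-- the cell of side `1/N` containing the point of `l` at time `j/N`. -/
noncomputable def cell4 (N : ℕ) (l : GL4) (j : ℤ) : Fin 3 → ℤ :=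
  fun i => ⌊(l.1 i : ℝ) + l.2 i * (j : ℝ) / N⌋

open Classical in
/-- **FK4**: full-shading Kakeya in `ℝ⁴`, one grid line per direction. -/
def FK4 : Prop :=
  ∀ ε : ℝ, 0 < ε → ∃ η : ℝ, 0 < η ∧ ∃ N0 : ℕ, ∀ N : ℕ, N0 ≤ N →
    ∀ (s : Finset GL4) (E : Finset ((Fin 3 → ℤ) × ℤ)),
      (∀ l ∈ s, ∀ i, |l.1 i| ≤ (N : ℤ) ∧ |l.2 i| ≤ (N : ℤ)) →
      (∀ l ∈ s, ∀ l' ∈ s, l.2 = l'.2 → l = l') →
      (∀ l ∈ s, (N : ℝ) ^ (1 - η) ≤
        (((Finset.range N).filter fun j : ℕ => (cell4 N l j, (j : ℤ)) ∈ E).card : ℝ)) →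
      (N : ℝ) ^ (3 - η) ≤ (s.card : ℝ) →
      (N : ℝ) ^ (4 - ε) ≤ (E.card : ℝ)

end Crest.Agent.R136.Fin480
end

-- ▼ part R136/Fin4_879
section

/-!
# R136 (helper879): `KS4 → FK4` (uniformisation half of the finish of S0187)
-/

set_option autoImplicit false
set_option linter.unusedVariables false

open Finset

namespace Crest.Agent.R136.KS879

open Crest.Agent.R136.Fin480 (FK4)

/-- the counting form gives `FK4`. -/
theorem FK4_of_KS4c (hK : KS4c) : FK4 := by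
  classical
  intro ε hε
  obtain ⟨η, hη, C, hC, hK⟩ := hK (ε / 2) (by positivity)
  have h1 : Filter.Tendsto (fun N : ℕ => (N : ℝ) ^ (ε / 2)) Filter.atTop Filter.atTop :=
    (tendsto_rpow_atTop (show 0 < ε / 2 by positivity)).comp
      (tendsto_natCast_atTop_atTop (R := ℝ))
  obtain ⟨N₀, hN₀⟩ := Filter.eventually_atTop.1 (h1.eventually (Filter.eventually_ge_atTop C))
  refine ⟨η, hη, N₀ + 1, ?_⟩
  intro N hN s E hBd hinj hline hs
  have hN1' : 1 ≤ N := by omega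
  have hN0 : (0 : ℝ) < N := by exact_mod_cast hN1'
  have hN1 : (1 : ℝ) ≤ N := by exact_mod_cast hN1'
  have hsne : s.Nonempty := by
    have h2 : (0 : ℝ) < s.card := lt_of_lt_of_le (Real.rpow_pos_of_pos hN0 _) hs
    exact card_pos.1 (by exact_mod_cast h2)
  set I : Finset (GLine4 × ℤ) := (s ×ˢ (range N).map Nat.castEmbedding).filter
    (fun x => (cell4 N x.1 x.2, x.2) ∈ E) with hI
  have hmem : ∀ x : GLine4 × ℤ, x ∈ I ↔ (x.1 ∈ s ∧ ∃ j : ℕ, j < N ∧ (j : ℤ) = x.2) ∧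
      (cell4 N x.1 x.2, x.2) ∈ E := by
    intro x
    simp only [hI, mem_filter, mem_product, mem_map, mem_range, Nat.castEmbedding_apply]
  have hmain := hK N hN1' s I hsne (fun l hl i => hBd l hl i)
    (fun l hl l' hl' h => hinj l hl l' hl' h) hs ?_ ?_
  · have h2 : ((I.image (key4 N)).card : ℝ) ≤ E.card := by
      have : I.image (key4 N) ⊆ E := by
        intro c hc
        obtain ⟨x, hx, rfl⟩ := mem_image.1 hc
        exact ((hmem x).1 hx).2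
      exact_mod_cast card_le_card this
    have h3 := hN₀ N (by omega)
    have h4 : (N : ℝ) ^ (ε / 2) * (N : ℝ) ^ (4 - ε) ≤ (N : ℝ) ^ (ε / 2) * (E.card : ℝ) := by
      calc (N : ℝ) ^ (ε / 2) * (N : ℝ) ^ (4 - ε) = (N : ℝ) ^ (4 - ε / 2) := by
            rw [← Real.rpow_add hN0]; congr 1; ring
        _ ≤ C * ((I.image (key4 N)).card : ℝ) := hmain
        _ ≤ C * (E.card : ℝ) := by gcongr
        _ ≤ (N : ℝ) ^ (ε / 2) * (E.card : ℝ) := by gcongr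
    exact le_of_mul_le_mul_left h4 (Real.rpow_pos_of_pos hN0 _)
  · intro x hx
    obtain ⟨⟨h2, j, hj, h3⟩, _⟩ := (hmem x).1 hx
    refine ⟨h2, ?_⟩
    rw [← h3, Nat.abs_cast]
    exact_mod_cast hj.le
  · intro l hl
    refine (hline l hl).trans ?_
    norm_cast
    refine card_le_card_of_injOn (fun j : ℕ => ((l, (j : ℤ)) : GLine4 × ℤ)) ?_ ?_
    · intro j hj
      have hj' := mem_filter.1 hj
      rw [mem_coe, mem_filter]
      refine ⟨?_, rfl⟩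
      rw [hmem]
      exact ⟨⟨hl, j, mem_range.1 hj'.1, rfl⟩, hj'.2⟩
    · intro j _ j' _ h
      have := (Prod.mk.inj h).2
      exact_mod_cast this

/-- **KS4 → FK4**. -/
theorem FK4_of_KS4 (hK : KS4) : FK4 := FK4_of_KS4c (KS4c_of_KS4 hK)

end Crest.Agent.R136.KS879
end

-- ▼ part R136/Fin1_480
section

/-!
# R136 (S0187): dyadic covers of a set of small Hausdorff dimension
-/

set_option autoImplicit false

open MeasureTheory Set Metric
open scoped ENNReal NNReal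

namespace Crest.Agent.R136.Fin480

theorem exists_scale (d : ℝ) (hd : 0 < d) (k0 n : ℕ) (r : ℝ) (hr0 : 0 ≤ r)
    (hr : r ≤ (2⁻¹ : ℝ) ^ k0) :
    ∃ k, k0 ≤ k ∧ r ≤ (2⁻¹ : ℝ) ^ k ∧ ((2⁻¹ : ℝ) ^ k) ^ d ≤ 2 ^ d * r ^ d + (2⁻¹ : ℝ) ^ n := by
  rcases hr0.eq_or_lt with h | h
  · subst h
    have h1 : (2⁻¹ : ℝ) ^ d < 1 := Real.rpow_lt_one (by norm_num) (by norm_num) hd
    obtain ⟨k, hk⟩ := exists_pow_lt_of_lt_one (show (0:ℝ) < (2⁻¹ : ℝ) ^ n by positivity) h1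
    refine ⟨max k0 k, le_max_left _ _, by positivity, ?_⟩
    have h2 : ((2⁻¹ : ℝ) ^ (max k0 k)) ^ d = ((2⁻¹ : ℝ) ^ d) ^ (max k0 k) := by
      rw [← Real.rpow_natCast, ← Real.rpow_mul (by norm_num), mul_comm, Real.rpow_mul (by norm_num),
        Real.rpow_natCast]
    rw [h2, Real.zero_rpow hd.ne', mul_zero, zero_add]
    exact (pow_le_pow_of_le_one (by positivity) h1.le (le_max_right _ _)).trans hk.le
  · have hr1 : r ≤ 1 := hr.trans (pow_le_one₀ (by norm_num) (by norm_num))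
    obtain ⟨k, hk1, hk2⟩ := exists_nat_pow_near_of_lt_one h hr1 (show (0:ℝ) < 2⁻¹ by norm_num)
      (by norm_num)
    refine ⟨k, ?_, hk2, ?_⟩
    · by_contra hlt
      push Not at hlt
      have h1 : (2⁻¹ : ℝ) ^ k0 ≤ (2⁻¹ : ℝ) ^ (k + 1) :=
        pow_le_pow_of_le_one (by norm_num) (by norm_num) hlt
      linarith
    · have h1 : (2⁻¹ : ℝ) ^ k ≤ 2 * r := by
        rw [pow_succ] at hk1
        linarith
      have h2 : ((2⁻¹ : ℝ) ^ k) ^ d ≤ (2 * r) ^ d := Real.rpow_le_rpow (by positivity) h1 hd.le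
      rw [Real.mul_rpow (by norm_num) h.le] at h2
      have : (0:ℝ) < (2⁻¹ : ℝ) ^ n := by positivity
      linarith

/-- dyadic cell index in `ℝ⁴`. -/
noncomputable def ix (k : ℕ) (x : EuclideanSpace ℝ (Fin 4)) : Fin 4 → ℤ :=
  fun i => ⌊(2 : ℝ) ^ k * x i⌋

/-- covering sequence. -/
theorem exists_seq (K : Set (EuclideanSpace ℝ (Fin 4))) (d : ℝ) (hd : 0 < d)
    (h : dimH K < ENNReal.ofReal d) (k0 : ℕ) :
    ∃ t : ℕ → Set (EuclideanSpace ℝ (Fin 4)), K ⊆ ⋃ n, t n ∧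
      (∀ n, ediam (t n) ≤ ENNReal.ofReal ((2⁻¹ : ℝ) ^ k0)) ∧
      ∀ F : Finset ℕ, (∀ n ∈ F, (t n).Nonempty) → ∑ n ∈ F, (ediam (t n)).toReal ^ d ≤ 1 := by
  have h0 : (μH[d] : Measure (EuclideanSpace ℝ (Fin 4))) K = 0 := by
    have := hausdorffMeasure_of_dimH_lt (s := K) (d := d.toNNReal) h
    rwa [Real.coe_toNNReal d hd.le] at this
  rw [Measure.hausdorffMeasure_apply] at h0
  have h1 : (⨅ (t : ℕ → Set (EuclideanSpace ℝ (Fin 4))) (_ : K ⊆ ⋃ n, t n)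
      (_ : ∀ n, ediam (t n) ≤ ENNReal.ofReal ((2⁻¹ : ℝ) ^ k0)),
      ∑' n, ⨆ _ : (t n).Nonempty, ediam (t n) ^ d) < 1 := by
    refine lt_of_le_of_lt ?_ zero_lt_one
    rw [← h0]
    exact le_iSup₂ (f := fun (r : ℝ≥0∞) (_ : 0 < r) =>
      ⨅ (t : ℕ → Set (EuclideanSpace ℝ (Fin 4))) (_ : K ⊆ ⋃ n, t n)
      (_ : ∀ n, ediam (t n) ≤ r), ∑' n, ⨆ _ : (t n).Nonempty, ediam (t n) ^ d)
      (ENNReal.ofReal ((2⁻¹ : ℝ) ^ k0)) (by rw [ENNReal.ofReal_pos]; positivity)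
  simp only [iInf_lt_iff] at h1
  obtain ⟨t, ht, hdm, hs⟩ := h1
  refine ⟨t, ht, hdm, fun F hF => ?_⟩
  have h2 : ∑ n ∈ F, ediam (t n) ^ d ≤ 1 := by
    refine le_trans ?_ hs.le
    refine le_trans (Finset.sum_le_sum fun n hn => ?_) (ENNReal.sum_le_tsum F)
    exact le_iSup (fun _ : (t n).Nonempty => ediam (t n) ^ d) (hF n hn)
  have h3 : ∀ n, ediam (t n) ≠ ∞ := fun n => ((hdm n).trans_lt ENNReal.ofReal_lt_top).ne
  have h4 : ∑ n ∈ F, (ediam (t n)).toReal ^ d = (∑ n ∈ F, ediam (t n) ^ d).toReal := by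
    rw [ENNReal.toReal_sum]
    · exact Finset.sum_congr rfl fun n _ => by rw [ENNReal.toReal_rpow]
    · intro n _
      exact ENNReal.rpow_ne_top_of_nonneg hd.le (h3 n)
  rw [h4]
  exact ENNReal.toReal_le_of_le_ofReal (by norm_num) (by simpa using h2)

/-- neighbours of a cell. -/
noncomputable def nb (q : Fin 4 → ℤ) : Finset (Fin 4 → ℤ) :=
  Fintype.piFinset fun i => Finset.Icc (q i - 1) (q i + 1)

theorem card_nb (q : Fin 4 → ℤ) : (nb q).card = 81 := by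
  unfold nb
  rw [Fintype.card_piFinset]
  simp only [Int.card_Icc]
  have : ∀ i : Fin 4, (q i + 1 + 1 - (q i - 1)).toNat = 3 := fun i => by
    have : q i + 1 + 1 - (q i - 1) = 3 := by ring
    rw [this]; rfl
  simp [this]

theorem mem_nb {k : ℕ} {x y : EuclideanSpace ℝ (Fin 4)} (h : ‖x - y‖ ≤ (2⁻¹ : ℝ) ^ k) :
    ix k x ∈ nb (ix k y) := by
  unfold nb
  rw [Fintype.mem_piFinset]
  intro i
  have h1 : |x i - y i| ≤ (2⁻¹ : ℝ) ^ k := by
    have := PiLp.norm_apply_le (x - y) i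
    rw [PiLp.sub_apply, Real.norm_eq_abs] at this
    exact this.trans h
  have h2 : |(2 : ℝ) ^ k * x i - (2 : ℝ) ^ k * y i| ≤ 1 := by
    rw [← mul_sub, abs_mul, abs_of_pos (by positivity : (0:ℝ) < 2 ^ k)]
    calc (2 : ℝ) ^ k * |x i - y i| ≤ 2 ^ k * (2⁻¹ : ℝ) ^ k := by gcongr
      _ = 1 := by rw [← mul_pow]; norm_num
  rw [abs_le] at h2
  rw [Finset.mem_Icc]
  unfold ix
  constructor
  · rw [sub_le_iff_le_add]
    have : (2:ℝ) ^ k * y i ≤ 2 ^ k * x i + 1 := by linarith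
    calc ⌊(2:ℝ) ^ k * y i⌋ ≤ ⌊(2:ℝ) ^ k * x i + 1⌋ := Int.floor_le_floor this
      _ = _ := by rw [Int.floor_add_one]
  · have : (2:ℝ) ^ k * x i ≤ 2 ^ k * y i + 1 := by linarith
    calc ⌊(2:ℝ) ^ k * x i⌋ ≤ ⌊(2:ℝ) ^ k * y i + 1⌋ := Int.floor_le_floor this
      _ = _ := by rw [Int.floor_add_one]

/-- **dyadic covers**. -/
theorem exists_cover (K : Set (EuclideanSpace ℝ (Fin 4))) (d : ℝ) (hd : 0 < d) (hd4 : d ≤ 4)
    (h : dimH K < ENNReal.ofReal d) (k0 : ℕ) :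
    ∃ E : ℕ → Finset (Fin 4 → ℤ), (∀ k, ((E k).card : ℝ) ≤ 81 * 18 * (2 : ℝ) ^ ((k : ℝ) * d)) ∧
      ∀ x ∈ K, ∃ k, k0 ≤ k ∧ ix k x ∈ E k := by
  classical
  obtain ⟨t, hKt, hdm, hsum⟩ := exists_seq K d hd h k0
  set r : ℕ → ℝ := fun n => (ediam (t n)).toReal with hr
  have hfin : ∀ n, ediam (t n) ≠ ∞ := fun n => ((hdm n).trans_lt ENNReal.ofReal_lt_top).ne
  have hrk : ∀ n, r n ≤ (2⁻¹ : ℝ) ^ k0 := fun n =>
    ENNReal.toReal_le_of_le_ofReal (by positivity) (hdm n)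
  choose κ hκ0 hκ1 hκ2 using fun n => exists_scale d hd k0 n (r n) ENNReal.toReal_nonneg (hrk n)
  -- the number of pieces of scale `k`
  have hcard : ∀ k, ∀ F : Finset ℕ, (∀ n ∈ F, (t n).Nonempty ∧ κ n = k) →
      (F.card : ℝ) ≤ 18 * (2 : ℝ) ^ ((k : ℝ) * d) := by
    intro k F hF
    have h1 : (F.card : ℝ) * ((2⁻¹ : ℝ) ^ k) ^ d ≤ 18 := by
      calc (F.card : ℝ) * ((2⁻¹ : ℝ) ^ k) ^ d = ∑ n ∈ F, ((2⁻¹ : ℝ) ^ κ n) ^ d := by
            rw [Finset.sum_congr rfl fun n hn => by rw [(hF n hn).2]]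
            simp
        _ ≤ ∑ n ∈ F, (2 ^ d * r n ^ d + (2⁻¹ : ℝ) ^ n) := Finset.sum_le_sum fun n _ => hκ2 n
        _ = 2 ^ d * ∑ n ∈ F, r n ^ d + ∑ n ∈ F, (2⁻¹ : ℝ) ^ n := by
            rw [Finset.sum_add_distrib, Finset.mul_sum]
        _ ≤ 2 ^ (4:ℝ) * 1 + 2 := by
            have a1 : ∑ n ∈ F, r n ^ d ≤ 1 := hsum F fun n hn => (hF n hn).1
            have a2 : (2:ℝ) ^ d ≤ 2 ^ (4:ℝ) := Real.rpow_le_rpow_of_exponent_le (by norm_num) hd4
            have a3 : ∑ n ∈ F, (2⁻¹ : ℝ) ^ n ≤ 2 := by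
              have hs : Summable fun n : ℕ => (2⁻¹ : ℝ) ^ n :=
                summable_geometric_of_lt_one (by norm_num) (by norm_num)
              refine (hs.sum_le_tsum F fun n _ => by positivity).trans ?_
              rw [tsum_geometric_of_lt_one (by norm_num) (by norm_num)]
              norm_num
            have a4 : 0 ≤ ∑ n ∈ F, r n ^ d :=
              Finset.sum_nonneg fun n _ => Real.rpow_nonneg ENNReal.toReal_nonneg _
            have : (2:ℝ) ^ d * ∑ n ∈ F, r n ^ d ≤ 2 ^ (4:ℝ) * 1 := by gcongr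
            linarith
        _ = 18 := by norm_num
    have h2 : ((2⁻¹ : ℝ) ^ k) ^ d * (2 : ℝ) ^ ((k : ℝ) * d) = 1 := by
      rw [Real.rpow_mul (by norm_num), Real.rpow_natCast, ← Real.mul_rpow (by positivity)
        (by positivity), ← mul_pow]
      norm_num
    calc (F.card : ℝ) = (F.card : ℝ) * ((2⁻¹ : ℝ) ^ k) ^ d * (2 : ℝ) ^ ((k : ℝ) * d) := by
          rw [mul_assoc, h2, mul_one]
      _ ≤ 18 * (2 : ℝ) ^ ((k : ℝ) * d) := by gcongr
  have hfinI : ∀ k, {n | (t n).Nonempty ∧ κ n = k}.Finite := by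
    intro k
    by_contra hinf
    obtain ⟨F, hF1, hF2⟩ := Set.Infinite.exists_subset_card_eq hinf
      (⌊18 * (2 : ℝ) ^ ((k : ℝ) * d)⌋₊ + 1)
    have h1 := hcard k F fun n hn => hF1 hn
    rw [hF2] at h1
    have h2 := Nat.lt_floor_add_one (18 * (2 : ℝ) ^ ((k : ℝ) * d))
    push_cast at h1
    linarith
  choose! x hx using fun n (hn : (t n).Nonempty) => hn
  refine ⟨fun k => (hfinI k).toFinset.biUnion fun n => nb (ix k (x n)), fun k => ?_, ?_⟩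
  · have h1 : (((hfinI k).toFinset.biUnion fun n => nb (ix k (x n))).card : ℝ) ≤
        ((hfinI k).toFinset.card * 81 : ℕ) := by
      exact_mod_cast Finset.card_biUnion_le_card_mul _ _ _ fun n _ => (card_nb _).le
    have h2 := hcard k (hfinI k).toFinset fun n hn => by simpa using hn
    push_cast at h1
    calc _ ≤ ((hfinI k).toFinset.card : ℝ) * 81 := h1
      _ ≤ (18 * (2 : ℝ) ^ ((k : ℝ) * d)) * 81 := by gcongr
      _ = _ := by ring
  · intro y hy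
    obtain ⟨n, hn⟩ := mem_iUnion.1 (hKt hy)
    refine ⟨κ n, hκ0 n, ?_⟩
    rw [Finset.mem_biUnion]
    refine ⟨n, by simpa using ⟨y, hn⟩, mem_nb ?_⟩
    refine le_trans ?_ (hκ1 n)
    have h1 : edist y (x n) ≤ ediam (t n) := edist_le_ediam_of_mem hn (hx n ⟨y, hn⟩)
    rw [← dist_eq_norm, dist_edist]
    exact ENNReal.toReal_mono (hfin n) h1

end Crest.Agent.R136.Fin480
end

-- ▼ part R136/Fin2_480
section

/-!
# R136 (S0187): directions, pigeonholes over scales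
-/

set_option autoImplicit false

open MeasureTheory Set Metric
open scoped ENNReal NNReal

namespace Crest.Agent.R136.Fin480

/-! ### the direction `(c, 1)` -/

/-- the vector `(c, 1)`. -/
noncomputable def dv (c : Fin 3 → ℝ) : EuclideanSpace ℝ (Fin 4) :=
  WithLp.toLp 2 (Fin.snoc (α := fun _ => ℝ) c 1)

theorem dv_castSucc (c : Fin 3 → ℝ) (i : Fin 3) : dv c i.castSucc = c i := by
  simp only [dv]
  exact Fin.snoc_castSucc (α := fun _ => ℝ) _ _ _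

theorem dv_last (c : Fin 3 → ℝ) : dv c (Fin.last 3) = 1 := by
  simp only [dv]
  exact Fin.snoc_last (α := fun _ => ℝ) _ _

theorem norm_dv_sq (c : Fin 3 → ℝ) : ‖dv c‖ ^ 2 = (∑ i, c i ^ 2) + 1 := by
  rw [EuclideanSpace.norm_sq_eq, Fin.sum_univ_castSucc, dv_last]
  simp [dv_castSucc]

theorem norm_dv_pos (c : Fin 3 → ℝ) : 0 < ‖dv c‖ := by
  have h := norm_dv_sq c
  have h1 : 0 ≤ ∑ i, c i ^ 2 := Finset.sum_nonneg fun i _ => sq_nonneg _
  by_contra h2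
  have h3 : ‖dv c‖ = 0 := le_antisymm (not_lt.1 h2) (norm_nonneg _)
  rw [h3] at h
  nlinarith

theorem norm_dv_le {c : Fin 3 → ℝ} (hc : ∀ i, |c i| ≤ 1 / 2) : ‖dv c‖ ≤ 4 / 3 := by
  have h := norm_dv_sq c
  have h1 : ∑ i, c i ^ 2 ≤ 3 / 4 := by
    calc ∑ i, c i ^ 2 ≤ ∑ _i : Fin 3, (1 / 4 : ℝ) := Finset.sum_le_sum fun i _ => by
          have := hc i
          rw [← sq_abs]
          have h0 := abs_nonneg (c i)
          nlinarith
      _ = 3 / 4 := by norm_num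
  by_contra h2
  push Not at h2
  nlinarith

theorem exists_line {K : Set (EuclideanSpace ℝ (Fin 4))}
    (hK : ∀ e : EuclideanSpace ℝ (Fin 4), ‖e‖ = 1 →
      ∃ a : EuclideanSpace ℝ (Fin 4), segment ℝ a (a + e) ⊆ K)
    {c : Fin 3 → ℝ} (hc : ∀ i, |c i| ≤ 1 / 2) :
    ∃ a : EuclideanSpace ℝ (Fin 4), ∀ t : ℝ, 0 ≤ t → t ≤ 3 / 4 → a + t • dv c ∈ K := by
  have hp := norm_dv_pos c
  obtain ⟨a, ha⟩ := hK (‖dv c‖⁻¹ • dv c) (by
    rw [norm_smul, norm_inv, norm_norm, inv_mul_cancel₀ hp.ne'])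
  refine ⟨a, fun t ht0 ht1 => ha ?_⟩
  rw [segment_eq_image']
  refine ⟨t * ‖dv c‖, ⟨by positivity, ?_⟩, ?_⟩
  · have := norm_dv_le hc
    nlinarith
  · simp only
    rw [add_sub_cancel_left, smul_smul, mul_assoc, mul_inv_cancel₀ hp.ne', mul_one]

/-- **the lines**, localised. -/
theorem directions {K : Set (EuclideanSpace ℝ (Fin 4))}
    (hK : ∀ e : EuclideanSpace ℝ (Fin 4), ‖e‖ = 1 →
      ∃ a : EuclideanSpace ℝ (Fin 4), segment ℝ a (a + e) ⊆ K) :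
    ∃ (D : Set (Fin 3 → ℝ)) (q : (Fin 3 → ℝ) → Fin 3 → ℝ) (z : Fin 4 → ℤ),
      volume D ≠ 0 ∧ (∀ c ∈ D, ∀ i, |c i| ≤ 1 / 2) ∧ (∀ c ∈ D, ∀ i, |q c i| ≤ 1 / 4) ∧
      ∀ c ∈ D, ∀ τ : ℝ, 0 ≤ τ → τ ≤ 1 / 2 → ∃ x ∈ K,
        (∀ i : Fin 3, x i.castSucc = q c i + τ * c i + (z i.castSucc : ℝ) / 8) ∧
        x (Fin.last 3) = τ + (z (Fin.last 3) : ℝ) / 8 := by
  classical
  set B : Set (Fin 3 → ℝ) := Set.Icc (fun _ => -(1 / 2)) (fun _ => 1 / 2) with hB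
  have hBc : ∀ c ∈ B, ∀ i, |c i| ≤ 1 / 2 := fun c hc i => by
    rw [abs_le]
    exact ⟨hc.1 i, hc.2 i⟩
  choose! a ha using fun (c : Fin 3 → ℝ) (hc : ∀ i, |c i| ≤ 1 / 2) => exists_line hK hc
  have hvol : volume B = 1 := by
    rw [hB, Real.volume_Icc_pi]
    simp
    norm_num
  have hne : volume (⋃ w : Fin 4 → ℤ, {c | c ∈ B ∧ (fun i => ⌊8 * a c i⌋) = w}) ≠ 0 := by
    have : (⋃ w : Fin 4 → ℤ, {c | c ∈ B ∧ (fun i => ⌊8 * a c i⌋) = w}) = B := by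
      ext c
      simp
    rw [this, hvol]
    exact one_ne_zero
  obtain ⟨w, hw⟩ := exists_measure_pos_of_not_measure_iUnion_null hne
  refine ⟨{c | c ∈ B ∧ (fun i => ⌊8 * a c i⌋) = w},
    fun c i => a c i.castSucc + (((w (Fin.last 3) : ℝ) + 1) / 8 - a c (Fin.last 3)) * c i
      - (w i.castSucc : ℝ) / 8,
    fun i => if i = Fin.last 3 then w i + 1 else w i, hw.ne', fun c hc => hBc c hc.1, ?_, ?_⟩
  · intro c hc i
    have h1 : ⌊8 * a c i.castSucc⌋ = w i.castSucc := congrFun hc.2 _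
    have h2 : ⌊8 * a c (Fin.last 3)⌋ = w (Fin.last 3) := congrFun hc.2 _
    rw [Int.floor_eq_iff] at h1 h2
    have h3 := hBc c hc.1 i
    rw [abs_le] at h3 ⊢
    obtain ⟨h1a, h1b⟩ := h1
    obtain ⟨h2a, h2b⟩ := h2
    obtain ⟨h3a, h3b⟩ := h3
    set u := ((w (Fin.last 3) : ℝ) + 1) / 8 - a c (Fin.last 3) with hu
    have hu0 : 0 ≤ u := by rw [hu]; linarith
    have hu1 : u ≤ 1 / 8 := by rw [hu]; linarith
    constructor <;> nlinarith
  · intro c hc τ hτ0 hτ1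
    have h2 : ⌊8 * a c (Fin.last 3)⌋ = w (Fin.last 3) := congrFun hc.2 _
    rw [Int.floor_eq_iff] at h2
    obtain ⟨h2a, h2b⟩ := h2
    refine ⟨_, ha c (hBc c hc.1) (((w (Fin.last 3) : ℝ) + 1) / 8 - a c (Fin.last 3) + τ)
      (by linarith) (by linarith), ?_, ?_⟩
    · intro i
      rw [PiLp.add_apply, PiLp.smul_apply, dv_castSucc, smul_eq_mul]
      simp only
      rw [if_neg (Fin.castSucc_ne_last i)]
      ring
    · rw [PiLp.add_apply, PiLp.smul_apply, dv_last, smul_eq_mul]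
      simp only
      rw [if_pos trivial]
      push_cast
      ring

/-! ### pigeonhole over scales -/

/-- weights. -/
noncomputable def wt (k : ℕ) : ℝ := 1 / (((k : ℝ) + 1) * (k + 2))

theorem wt_pos (k : ℕ) : 0 < wt k := by unfold wt; positivity

theorem sum_wt (n : ℕ) : ∑ k ∈ Finset.range n, wt k = 1 - 1 / ((n : ℝ) + 1) := by
  induction n with
  | zero => simp
  | succ n ih =>
    rw [Finset.sum_range_succ, ih]
    unfold wt
    push_cast
    field_simp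
    ring

theorem tsum_wt : ∑' k, ENNReal.ofReal (wt k) ≤ 1 := by
  refine ENNReal.tsum_le_of_sum_range_le fun n => ?_
  rw [← ENNReal.ofReal_sum_of_nonneg fun k _ => (wt_pos k).le, sum_wt]
  rw [ENNReal.ofReal_le_one]
  have : (0:ℝ) ≤ 1 / ((n : ℝ) + 1) := by positivity
  linarith

theorem pigeon (f : ℕ → ℝ≥0∞) (κ : ℝ≥0∞) (h0 : κ ≠ 0) (ht : κ ≠ ∞) (h : κ ≤ ∑' k, f k) :
    ∃ k, κ / 2 * ENNReal.ofReal (wt k) ≤ f k ∧ f k ≠ 0 := by
  by_contra hcon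
  push Not at hcon
  have h1 : ∀ k, f k ≤ κ / 2 * ENNReal.ofReal (wt k) := fun k => by
    by_contra hk
    push Not at hk
    have := hcon k hk.le
    rw [this] at hk
    exact not_lt_zero hk
  have h2 : ∑' k, f k ≤ κ / 2 := by
    calc ∑' k, f k ≤ ∑' k, κ / 2 * ENNReal.ofReal (wt k) := ENNReal.tsum_le_tsum h1
      _ = κ / 2 * ∑' k, ENNReal.ofReal (wt k) := ENNReal.tsum_mul_left
      _ ≤ κ / 2 * 1 := by gcongr; exact tsum_wt
      _ = κ / 2 := mul_one _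
  exact absurd (h.trans h2) (not_le.2 (ENNReal.half_lt_self h0 ht))

/-! ### one line: a good scale -/

/-- the cell (space) of the point at time `τ` of the line `q + τ c`. -/
noncomputable def sc (k : ℕ) (q c : Fin 3 → ℝ) (τ : ℝ) : Fin 3 → ℤ :=
  fun i => ⌊(2 : ℝ) ^ k * (q i + τ * c i)⌋

open Classical in
/-- good time steps. -/
noncomputable def JJ (E : Finset ((Fin 3 → ℤ) × ℤ)) (k : ℕ) (q c : Fin 3 → ℝ) : Finset ℕ :=
  (Finset.range (2 ^ k)).filter fun j => ∃ τ : ℝ, 0 ≤ τ ∧ ⌊(2 : ℝ) ^ k * τ⌋ = (j : ℤ) ∧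
    (sc k q c τ, (j : ℤ)) ∈ E

theorem good_scale (E : ℕ → Finset ((Fin 3 → ℤ) × ℤ)) (k0 : ℕ) (q c : Fin 3 → ℝ)
    (h : ∀ τ : ℝ, 0 ≤ τ → τ ≤ 1 / 2 → ∃ k, k0 ≤ k ∧ (sc k q c τ, ⌊(2 : ℝ) ^ k * τ⌋) ∈ E k) :
    ∃ k, k0 ≤ k ∧ wt k / 4 * 2 ^ k ≤ ((JJ (E k) k q c).card : ℝ) := by
  classical
  set T : ℕ → Set ℝ := fun k => if k0 ≤ k then
    {τ | 0 ≤ τ ∧ τ ≤ 1 / 2 ∧ (sc k q c τ, ⌊(2 : ℝ) ^ k * τ⌋) ∈ E k} else ∅ with hT
  have h1 : ENNReal.ofReal (1 / 2) ≤ ∑' k, volume (T k) := by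
    calc ENNReal.ofReal (1 / 2) = volume (Set.Icc (0:ℝ) (1 / 2)) := by
          rw [Real.volume_Icc]; norm_num
      _ ≤ volume (⋃ k, T k) := by
          refine measure_mono fun τ hτ => ?_
          obtain ⟨k, hk0, hk⟩ := h τ hτ.1 hτ.2
          rw [mem_iUnion]
          refine ⟨k, ?_⟩
          simp only [hT, if_pos hk0]
          exact ⟨hτ.1, hτ.2, hk⟩
      _ ≤ ∑' k, volume (T k) := measure_iUnion_le _
  obtain ⟨k, hk, hk'⟩ := pigeon (fun k => volume (T k)) _ (by simp)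
    ENNReal.ofReal_ne_top h1
  have hk0 : k0 ≤ k := by
    by_contra hlt
    apply hk'
    simp only [hT, if_neg hlt, measure_empty]
  refine ⟨k, hk0, ?_⟩
  have h2 : T k ⊆ ⋃ j ∈ JJ (E k) k q c, Set.Icc ((j : ℝ) / 2 ^ k) (((j : ℝ) + 1) / 2 ^ k) := by
    intro τ hτ
    simp only [hT, if_pos hk0] at hτ
    obtain ⟨hτ0, hτ1, hτE⟩ := hτ
    have hf0 : 0 ≤ ⌊(2 : ℝ) ^ k * τ⌋ := Int.floor_nonneg.2 (by positivity)
    obtain ⟨j, hj⟩ := Int.eq_ofNat_of_zero_le hf0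
    rw [hj] at hτE
    rw [mem_iUnion₂]
    rw [Int.floor_eq_iff] at hj
    push_cast at hj
    refine ⟨j, ?_, ?_, ?_⟩
    · unfold JJ
      rw [Finset.mem_filter, Finset.mem_range]
      refine ⟨?_, τ, hτ0, ?_, hτE⟩
      · have h3 : (j : ℝ) < 2 ^ k := by
          have h4 : (2:ℝ) ^ k * τ ≤ 2 ^ k * (1 / 2) := by gcongr
          have : (0:ℝ) < 2 ^ k := by positivity
          linarith [hj.1]
        exact_mod_cast h3
      · rw [Int.floor_eq_iff]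
        push_cast
        exact hj
    · rw [div_le_iff₀ (by positivity)]
      linarith [hj.1]
    · rw [le_div_iff₀ (by positivity)]
      linarith [hj.2]
  have h3 : volume (T k) ≤ ENNReal.ofReal ((JJ (E k) k q c).card / 2 ^ k) := by
    calc volume (T k) ≤ ∑ j ∈ JJ (E k) k q c,
          volume (Set.Icc ((j : ℝ) / 2 ^ k) (((j : ℝ) + 1) / 2 ^ k)) :=
          (measure_mono h2).trans (measure_biUnion_finset_le _ _)
      _ = ∑ j ∈ JJ (E k) k q c, ENNReal.ofReal (1 / 2 ^ k) := by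
          refine Finset.sum_congr rfl fun j _ => ?_
          rw [Real.volume_Icc]
          congr 1
          ring
      _ = ENNReal.ofReal ((JJ (E k) k q c).card / 2 ^ k) := by
          rw [Finset.sum_const, nsmul_eq_mul, ← ENNReal.ofReal_natCast,
            ← ENNReal.ofReal_mul (by positivity)]
          congr 1
          ring
  have h4 := hk.trans h3
  have h5 : ENNReal.ofReal (1 / 2) / 2 = ENNReal.ofReal (1 / 4) := by
    rw [show (2 : ℝ≥0∞) = ENNReal.ofReal 2 by norm_num, ← ENNReal.ofReal_div_of_pos (by norm_num)]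
    norm_num
  rw [h5, ← ENNReal.ofReal_mul (by norm_num)] at h4
  rw [ENNReal.ofReal_le_ofReal_iff (by positivity), le_div_iff₀ (by positivity)] at h4
  linarith

end Crest.Agent.R136.Fin480
end

-- ▼ part R136/Fin3_480
section

/-!
# R136 (S0187): the finish, `s0187_of_FK4`
-/

set_option autoImplicit false

open MeasureTheory Set Metric Filter
open scoped ENNReal NNReal Topology

namespace Crest.Agent.R136.Fin480

/-! ### snapping to grid lines -/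

/-- the grid line of `(q, c)`. -/
noncomputable def snap (k : ℕ) (q c : Fin 3 → ℝ) : GL4 :=
  (fun i => ⌊(2 : ℝ) ^ k * q i⌋, fun i => ⌊(2 : ℝ) ^ k * c i⌋)

theorem cell_close (k : ℕ) (q c : Fin 3 → ℝ) (hc : ∀ i, |c i| ≤ 1 / 2) (j : ℕ) (hj : j < 2 ^ k)
    (τ : ℝ) (hτ : ⌊(2 : ℝ) ^ k * τ⌋ = (j : ℤ)) (i : Fin 3) :
    cell4 (2 ^ k) (snap k q c) j i ∈ Finset.Icc (sc k q c τ i - 3) (sc k q c τ i + 1) := by
  have hN : (0 : ℝ) < 2 ^ k := by positivity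
  rw [Int.floor_eq_iff] at hτ
  push_cast at hτ
  obtain ⟨hτ1, hτ2⟩ := hτ
  have hj' : (j : ℝ) ≤ 2 ^ k := by exact_mod_cast hj.le
  have hj0 : (0 : ℝ) ≤ j := by positivity
  set Q := (2 : ℝ) ^ k * q i with hQ
  set V := (2 : ℝ) ^ k * c i with hV
  set T := (2 : ℝ) ^ k * τ with hT
  have hQ1 := Int.floor_le Q
  have hQ2 := Int.lt_floor_add_one Q
  have hV1 := Int.floor_le V
  have hV2 := Int.lt_floor_add_one V
  have hci := abs_le.1 (hc i)
  set R := (2 : ℝ) ^ k * (q i + τ * c i) with hR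
  set G := (⌊Q⌋ : ℝ) + (⌊V⌋ : ℝ) * (j : ℝ) / 2 ^ k with hG
  have hcell : cell4 (2 ^ k) (snap k q c) j i = ⌊G⌋ := by
    unfold cell4 snap
    simp only
    push_cast
    rfl
  have hsc : sc k q c τ i = ⌊R⌋ := rfl
  have hRG : R - G = (Q - ⌊Q⌋) + (T - j) * c i + (j / 2 ^ k) * (V - ⌊V⌋) := by
    rw [hR, hG, hQ, hV, hT]
    field_simp
    ring
  have hu0 : 0 ≤ (j : ℝ) / 2 ^ k := by positivity
  have hu1 : (j : ℝ) / 2 ^ k ≤ 1 := by rw [div_le_one hN]; exact hj'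
  have h1 : 0 ≤ ((j : ℝ) / 2 ^ k) * (V - ⌊V⌋) := mul_nonneg hu0 (by linarith)
  have h2 : ((j : ℝ) / 2 ^ k) * (V - ⌊V⌋) ≤ 1 := by
    have : ((j : ℝ) / 2 ^ k) * (V - ⌊V⌋) ≤ 1 * 1 := by
      apply mul_le_mul hu1 (by linarith) (by linarith) (by norm_num)
    linarith
  have h3 : |(T - j) * c i| ≤ 1 / 2 := by
    rw [abs_mul]
    have a1 : |T - j| ≤ 1 := by rw [abs_le]; constructor <;> linarith
    calc |T - j| * |c i| ≤ 1 * (1 / 2) := by gcongr; exact hc i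
      _ = 1 / 2 := by ring
  rw [abs_le] at h3
  rw [hcell, hsc, Finset.mem_Icc]
  have g1 := Int.floor_le R
  have g2 := Int.lt_floor_add_one R
  have g3 := Int.floor_le G
  have g4 := Int.lt_floor_add_one G
  constructor
  · have : (⌊R⌋ : ℝ) - 3 < ⌊G⌋ + 1 := by linarith [h3.1, h3.2]
    have : ⌊R⌋ - 3 < ⌊G⌋ + 1 := by exact_mod_cast this
    omega
  · have : (⌊G⌋ : ℝ) < ⌊R⌋ + 1 + 1 := by linarith [h3.1, h3.2]
    have : ⌊G⌋ < ⌊R⌋ + 1 + 1 := by exact_mod_cast this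
    omega

open Classical in
/-- fattened set of cells. -/
noncomputable def fat (E : Finset ((Fin 3 → ℤ) × ℤ)) : Finset ((Fin 3 → ℤ) × ℤ) :=
  E.biUnion fun x => (Fintype.piFinset fun i => Finset.Icc (x.1 i - 3) (x.1 i + 1)).image
    fun w => (w, x.2)

theorem card_fat (E : Finset ((Fin 3 → ℤ) × ℤ)) : (fat E).card ≤ E.card * 125 := by
  classical
  unfold fat
  refine Finset.card_biUnion_le_card_mul _ _ _ fun x _ => ?_
  refine Finset.card_image_le.trans ?_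
  rw [Fintype.card_piFinset]
  have : ∀ i : Fin 3, (Finset.Icc (x.1 i - 3) (x.1 i + 1)).card = 5 := fun i => by
    rw [Int.card_Icc]
    have : x.1 i + 1 + 1 - (x.1 i - 3) = 5 := by ring
    rw [this]; rfl
  simp [this]

open Classical in
theorem JJ_le (E : Finset ((Fin 3 → ℤ) × ℤ)) (k : ℕ) (q c : Fin 3 → ℝ) (hc : ∀ i, |c i| ≤ 1 / 2) :
    (JJ E k q c).card ≤ ((Finset.range (2 ^ k)).filter fun j : ℕ =>
      (cell4 (2 ^ k) (snap k q c) j, (j : ℤ)) ∈ fat E).card := by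
  refine Finset.card_le_card fun j hj => ?_
  unfold JJ at hj
  rw [Finset.mem_filter, Finset.mem_range] at hj
  obtain ⟨hj1, τ, _, hτ, hE⟩ := hj
  rw [Finset.mem_filter, Finset.mem_range]
  refine ⟨hj1, ?_⟩
  unfold fat
  rw [Finset.mem_biUnion]
  refine ⟨_, hE, ?_⟩
  rw [Finset.mem_image]
  refine ⟨cell4 (2 ^ k) (snap k q c) j, ?_, rfl⟩
  rw [Fintype.mem_piFinset]
  intro i
  exact cell_close k q c hc j hj1 τ hτ i

theorem snap_bd (k : ℕ) (q c : Fin 3 → ℝ) (hq : ∀ i, |q i| ≤ 1 / 4) (hc : ∀ i, |c i| ≤ 1 / 2)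
    (i : Fin 3) : |(snap k q c).1 i| ≤ ((2 ^ k : ℕ) : ℤ) ∧ |(snap k q c).2 i| ≤ ((2 ^ k : ℕ) : ℤ) := by
  have hN : (1 : ℝ) ≤ 2 ^ k := one_le_pow₀ (by norm_num)
  have key : ∀ x : ℝ, |x| ≤ 1 / 2 → |⌊(2 : ℝ) ^ k * x⌋| ≤ ((2 ^ k : ℕ) : ℤ) := by
    intro x hx
    rw [abs_le] at hx ⊢
    have h1 : -(2 ^ k : ℝ) ≤ 2 ^ k * x := by nlinarith [hx.1]
    have h2 : (2 : ℝ) ^ k * x ≤ 2 ^ k := by nlinarith [hx.2]
    constructor
    · rw [Int.le_floor]
      push_cast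
      exact h1
    · have h3 := (Int.floor_le ((2 : ℝ) ^ k * x)).trans h2
      have h4 : (⌊(2 : ℝ) ^ k * x⌋ : ℝ) ≤ ((2 ^ k : ℕ) : ℤ) := by
        push_cast
        exact h3
      exact_mod_cast h4
  exact ⟨key _ ((hq i).trans (by norm_num)), key _ (hc i)⟩

/-! ### the family of directions at one scale -/

theorem exists_family (k : ℕ) (D : Set (Fin 3 → ℝ)) (hc : ∀ c ∈ D, ∀ i, |c i| ≤ 1 / 2) :
    ∃ F : Finset (Fin 3 → ℝ), (∀ c ∈ F, c ∈ D) ∧
      (∀ c ∈ F, ∀ c' ∈ F, (fun i => ⌊(2 : ℝ) ^ k * c i⌋) = (fun i => ⌊(2 : ℝ) ^ k * c' i⌋) → c = c') ∧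
      volume D ≤ ENNReal.ofReal (F.card / ((2 : ℝ) ^ k) ^ 3) := by
  classical
  set fl : (Fin 3 → ℝ) → Fin 3 → ℤ := fun c i => ⌊(2 : ℝ) ^ k * c i⌋ with hfl
  have hN : (0 : ℝ) < 2 ^ k := by positivity
  have hfin : (fl '' D).Finite := by
    refine Set.Finite.subset (Fintype.piFinset fun _ : Fin 3 =>
      Finset.Icc (-((2 ^ k : ℕ) : ℤ)) ((2 ^ k : ℕ) : ℤ)).finite_toSet ?_
    rintro _ ⟨c, hcD, rfl⟩
    rw [Finset.mem_coe, Fintype.mem_piFinset]
    intro i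
    have := (snap_bd k 0 c (by simp) (hc c hcD) i).2
    rw [abs_le] at this
    rw [Finset.mem_Icc]
    exact this
  choose! g hg using fun (v : Fin 3 → ℤ) (hv : v ∈ fl '' D) => hv
  set VV := hfin.toFinset with hVV
  have hmem : ∀ v ∈ VV, g v ∈ D ∧ fl (g v) = v := fun v hv => hg v (by simpa [hVV] using hv)
  refine ⟨VV.image g, ?_, ?_, ?_⟩
  · intro c hc'
    obtain ⟨v, hv, rfl⟩ := Finset.mem_image.1 hc'
    exact (hmem v hv).1
  · intro c hc1 c' hc2 he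
    obtain ⟨v, hv, rfl⟩ := Finset.mem_image.1 hc1
    obtain ⟨v', hv', rfl⟩ := Finset.mem_image.1 hc2
    have h1 : fl (g v) = fl (g v') := he
    rw [(hmem v hv).2, (hmem v' hv').2] at h1
    rw [h1]
  · have hcard : (VV.image g).card = VV.card := by
      refine Finset.card_image_of_injOn fun v hv v' hv' he => ?_
      have h1 := congrArg fl he
      rwa [(hmem v hv).2, (hmem v' hv').2] at h1
    rw [hcard]
    have hsub : D ⊆ ⋃ v ∈ VV, Set.Icc (fun i => (v i : ℝ) / 2 ^ k) (fun i => ((v i : ℝ) + 1) / 2 ^ k) := by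
      intro c hcD
      rw [mem_iUnion₂]
      refine ⟨fl c, by simp [hVV]; exact ⟨c, hcD, rfl⟩, ?_, ?_⟩
      · intro i
        simp only [hfl]
        rw [div_le_iff₀ hN]
        linarith [Int.floor_le ((2 : ℝ) ^ k * c i)]
      · intro i
        simp only [hfl]
        rw [le_div_iff₀ hN]
        linarith [Int.lt_floor_add_one ((2 : ℝ) ^ k * c i)]
    calc volume D ≤ ∑ v ∈ VV, volume
          (Set.Icc (fun i => (v i : ℝ) / 2 ^ k) (fun i => ((v i : ℝ) + 1) / 2 ^ k)) :=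
          (measure_mono hsub).trans (measure_biUnion_finset_le _ _)
      _ = ∑ v ∈ VV, ENNReal.ofReal ((1 / 2 ^ k) ^ 3) := by
          refine Finset.sum_congr rfl fun v _ => ?_
          rw [Real.volume_Icc_pi]
          have : ∀ i : Fin 3, ((v i : ℝ) + 1) / 2 ^ k - (v i : ℝ) / 2 ^ k = 1 / 2 ^ k := fun i => by
            ring
          simp only [this, Finset.prod_const, Finset.card_univ, Fintype.card_fin]
          rw [ENNReal.ofReal_pow (by positivity)]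
      _ = ENNReal.ofReal (VV.card / ((2 : ℝ) ^ k) ^ 3) := by
          rw [Finset.sum_const, nsmul_eq_mul, ← ENNReal.ofReal_natCast,
            ← ENNReal.ofReal_mul (by positivity)]
          congr 1
          field_simp

/-! ### large scales -/

theorem large_scale (η κ ε d : ℝ) (hη : 0 < η) (hκ : 0 < κ) (hε : 0 < ε) (hd : d + ε = 4 - ε)
    (N0 : ℕ) :
    ∃ k0 : ℕ, ∀ k : ℕ, k0 ≤ k → 3 ≤ k ∧ N0 ≤ 2 ^ k ∧
      (((2 ^ k : ℕ) : ℝ)) ^ (1 - η) ≤ wt k / 4 * 2 ^ k ∧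
      (((2 ^ k : ℕ) : ℝ)) ^ (3 - η) ≤ κ / 2 * wt k * ((2 : ℝ) ^ k) ^ 3 ∧
      125 * (81 * 18 * (2 : ℝ) ^ ((k : ℝ) * d)) < (((2 ^ k : ℕ) : ℝ)) ^ (4 - ε) := by
  set ρ : ℝ := (2 : ℝ) ^ (-η) with hρ
  have hρ0 : 0 < ρ := by positivity
  have hρ1 : ρ < 1 := Real.rpow_lt_one_of_one_lt_of_neg (by norm_num) (by linarith)
  have hab : |ρ| < 1 := by rwa [abs_of_pos hρ0]
  have t1 : Tendsto (fun k : ℕ => (((k : ℝ) + 1) * (k + 2)) * ρ ^ k) atTop (𝓝 0) := by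
    have a1 := tendsto_pow_const_mul_const_pow_of_abs_lt_one 2 hab
    have a2 := (tendsto_pow_const_mul_const_pow_of_abs_lt_one 1 hab).const_mul 3
    have a3 := (tendsto_pow_const_mul_const_pow_of_abs_lt_one 0 hab).const_mul 2
    have a4 := (a1.add a2).add a3
    simp only [mul_zero, add_zero] at a4
    refine a4.congr fun k => ?_
    ring
  have e1 : ∀ᶠ k : ℕ in atTop, (((k : ℝ) + 1) * (k + 2)) * ρ ^ k < min (1 / 4) (κ / 2) :=
    t1.eventually_lt_const (by positivity)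
  have h2ε : (1 : ℝ) < 2 ^ ε := Real.one_lt_rpow (by norm_num) hε
  have e2 : ∀ᶠ k : ℕ in atTop, (125 * (81 * 18) : ℝ) < ((2 : ℝ) ^ ε) ^ k :=
    (tendsto_pow_atTop_atTop_of_one_lt h2ε).eventually_gt_atTop _
  have e3 : ∀ᶠ k : ℕ in atTop, (N0 : ℝ) < (2 : ℝ) ^ k :=
    (tendsto_pow_atTop_atTop_of_one_lt (by norm_num)).eventually_gt_atTop _
  obtain ⟨k0, hk0⟩ := eventually_atTop.1 ((e1.and (e2.and e3)).and (eventually_ge_atTop 3))
  refine ⟨k0, fun k hk => ?_⟩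
  obtain ⟨⟨h1, h2, h3⟩, h4⟩ := hk0 k hk
  have hN : (0 : ℝ) < 2 ^ k := by positivity
  have hcast : (((2 ^ k : ℕ) : ℝ)) = (2 : ℝ) ^ k := by push_cast; rfl
  have hρk : ((2 : ℝ) ^ k) ^ (-η) = ρ ^ k := by
    rw [hρ, ← Real.rpow_natCast, ← Real.rpow_mul (by norm_num), mul_comm, Real.rpow_mul (by norm_num),
      Real.rpow_natCast]
  have hwt : ρ ^ k = (((k : ℝ) + 1) * (k + 2)) * ρ ^ k * wt k := by
    unfold wt
    field_simp
  have hw0 := wt_pos k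
  have hA : ρ ^ k ≤ wt k / 4 := by
    rw [hwt]
    have := (h1.trans_le (min_le_left _ _)).le
    nlinarith
  have hB : ρ ^ k ≤ κ / 2 * wt k := by
    rw [hwt]
    have := (h1.trans_le (min_le_right _ _)).le
    nlinarith
  refine ⟨h4, ?_, ?_, ?_, ?_⟩
  · have : (N0 : ℝ) ≤ ((2 ^ k : ℕ) : ℝ) := by rw [hcast]; exact h3.le
    exact_mod_cast this
  · rw [hcast, sub_eq_add_neg, Real.rpow_add hN, Real.rpow_one, hρk, mul_comm]
    gcongr
  · rw [hcast, sub_eq_add_neg, Real.rpow_add hN, hρk, mul_comm]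
    rw [show ((2 : ℝ) ^ k) ^ (3 : ℝ) = ((2 : ℝ) ^ k) ^ 3 by
      rw [← Real.rpow_natCast]; norm_num]
    gcongr
  · rw [hcast, ← hd, Real.rpow_add hN]
    have c1 : ((2 : ℝ) ^ k) ^ d = (2 : ℝ) ^ ((k : ℝ) * d) := by
      rw [← Real.rpow_natCast, ← Real.rpow_mul (by norm_num)]
    have c2 : ((2 : ℝ) ^ k) ^ ε = ((2 : ℝ) ^ ε) ^ k := by
      rw [← Real.rpow_natCast, ← Real.rpow_mul (by norm_num), mul_comm,
        Real.rpow_mul (by norm_num), Real.rpow_natCast]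
    rw [c1, c2]
    have : (0:ℝ) < (2 : ℝ) ^ ((k : ℝ) * d) := by positivity
    nlinarith

/-- **main contradiction**. -/
theorem main (hF : FK4) {K : Set (EuclideanSpace ℝ (Fin 4))}
    (hK : ∀ e : EuclideanSpace ℝ (Fin 4), ‖e‖ = 1 →
      ∃ a : EuclideanSpace ℝ (Fin 4), segment ℝ a (a + e) ⊆ K)
    (d : ℝ) (hd0 : 0 < d) (hd4 : d < 4) (h : dimH K < ENNReal.ofReal d) : False := by
  classical
  obtain ⟨D, q, z, hD0, hDc, hDq, hDK⟩ := directions hK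
  have hDfin : volume D ≠ ∞ := by
    obtain ⟨F, _, _, h3⟩ := exists_family 0 D hDc
    exact (h3.trans_lt ENNReal.ofReal_lt_top).ne
  set κ : ℝ := (volume D).toReal with hκ
  have hκ0 : 0 < κ := ENNReal.toReal_pos hD0 hDfin
  set ε : ℝ := (4 - d) / 2 with hε
  obtain ⟨η, hη, N0, hFK⟩ := hF ε (by rw [hε]; linarith)
  obtain ⟨k0, hk0⟩ := large_scale η κ ε d hη hκ0 (by rw [hε]; linarith) (by rw [hε]; ring) N0
  obtain ⟨E, hEc, hEK⟩ := exists_cover K d hd0 hd4.le h k0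
  set E' : ℕ → Finset ((Fin 3 → ℤ) × ℤ) := fun k => (E k).image fun w =>
    ((fun i : Fin 3 => w i.castSucc - 2 ^ (k - 3) * z i.castSucc),
      w (Fin.last 3) - 2 ^ (k - 3) * z (Fin.last 3)) with hE'
  -- every point of every line is covered
  have hcov : ∀ c ∈ D, ∀ τ : ℝ, 0 ≤ τ → τ ≤ 1 / 2 →
      ∃ k, k0 ≤ k ∧ (sc k (q c) c τ, ⌊(2 : ℝ) ^ k * τ⌋) ∈ E' k := by
    intro c hc τ hτ0 hτ1
    obtain ⟨x, hxK, hx1, hx2⟩ := hDK c hc τ hτ0 hτ1
    obtain ⟨k, hk, hkE⟩ := hEK x hxK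
    refine ⟨k, hk, ?_⟩
    obtain ⟨h3, -⟩ := hk0 k hk
    have h8 : ∀ m : ℤ, (2 : ℝ) ^ k * ((m : ℝ) / 8) = ((2 ^ (k - 3) * m : ℤ) : ℝ) := by
      intro m
      have : (2 : ℝ) ^ k = 2 ^ (k - 3) * 8 := by
        rw [show (8 : ℝ) = 2 ^ 3 by norm_num, ← pow_add]
        congr 1
        omega
      rw [this]
      push_cast
      ring
    rw [hE', Finset.mem_image]
    refine ⟨_, hkE, ?_⟩
    refine Prod.ext ?_ ?_
    · funext i
      simp only [ix, sc]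
      rw [hx1 i, mul_add ((2 : ℝ) ^ k) (q c i + τ * c i), h8, Int.floor_add_intCast]
      ring
    · simp only [ix]
      rw [hx2, mul_add, h8, Int.floor_add_intCast]
      ring
  -- a good scale for every line
  have hgs : ∀ c ∈ D, ∃ k, k0 ≤ k ∧ wt k / 4 * 2 ^ k ≤ ((JJ (E' k) k (q c) c).card : ℝ) :=
    fun c hc => good_scale E' k0 (q c) c (hcov c hc)
  -- pigeonhole over scales
  set DD : ℕ → Set (Fin 3 → ℝ) := fun k => if k0 ≤ k then
    {c | c ∈ D ∧ wt k / 4 * 2 ^ k ≤ ((JJ (E' k) k (q c) c).card : ℝ)} else ∅ with hDD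
  have h1 : volume D ≤ ∑' k, volume (DD k) := by
    refine le_trans (measure_mono fun c hc => ?_) (measure_iUnion_le DD)
    obtain ⟨k, hk, hk'⟩ := hgs c hc
    rw [mem_iUnion]
    refine ⟨k, ?_⟩
    simp only [hDD, if_pos hk]
    exact ⟨hc, hk'⟩
  obtain ⟨k, hk, hk'⟩ := pigeon (fun k => volume (DD k)) _ hD0 hDfin h1
  have hkk : k0 ≤ k := by
    by_contra hlt
    apply hk'
    simp only [hDD, if_neg hlt, measure_empty]
  have hDDk : ∀ c ∈ DD k, c ∈ D ∧ wt k / 4 * 2 ^ k ≤ ((JJ (E' k) k (q c) c).card : ℝ) := by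
    intro c hc
    simp only [hDD, if_pos hkk] at hc
    exact hc
  obtain ⟨F, hF1, hF2, hF3⟩ := exists_family k (DD k) fun c hc => hDc c (hDDk c hc).1
  obtain ⟨_, hN0, hp1, hp3, hp4⟩ := hk0 k hkk
  have hFcard : κ / 2 * wt k * ((2 : ℝ) ^ k) ^ 3 ≤ (F.card : ℝ) := by
    have h2 := hk.trans hF3
    have h3 : volume D / 2 * ENNReal.ofReal (wt k) = ENNReal.ofReal (κ / 2 * wt k) := by
      rw [ENNReal.ofReal_mul (by positivity), ENNReal.ofReal_div_of_pos (by norm_num), hκ,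
        ENNReal.ofReal_toReal hDfin]
      norm_num
    rw [h3, ENNReal.ofReal_le_ofReal_iff (by positivity), le_div_iff₀ (by positivity)] at h2
    exact h2
  -- the family of grid lines
  have hinj : ∀ c ∈ F, ∀ c' ∈ F, (snap k (q c) c).2 = (snap k (q c') c').2 → c = c' :=
    fun c hc c' hc' he => hF2 c hc c' hc' he
  have hFs : (F.image fun c => snap k (q c) c).card = F.card := by
    refine Finset.card_image_of_injOn fun c hc c' hc' he => ?_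
    exact hinj c hc c' hc' (congrArg Prod.snd he)
  have hfinal := hFK (2 ^ k) hN0 (F.image fun c => snap k (q c) c) (fat (E' k)) ?_ ?_ ?_ ?_
  · have h5 : ((fat (E' k)).card : ℝ) ≤ 125 * (81 * 18 * (2 : ℝ) ^ ((k : ℝ) * d)) := by
      have h6 : ((fat (E' k)).card : ℝ) ≤ ((E' k).card : ℝ) * 125 := by
        exact_mod_cast card_fat (E' k)
      have h7 : ((E' k).card : ℝ) ≤ ((E k).card : ℝ) := by
        exact_mod_cast Finset.card_image_le
      have h8 := hEc k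
      linarith
    linarith
  · intro l hl i
    obtain ⟨c, hc, rfl⟩ := Finset.mem_image.1 hl
    have hcD := (hDDk c (hF1 c hc)).1
    exact snap_bd k (q c) c (hDq c hcD) (hDc c hcD) i
  · intro l hl l' hl' he
    obtain ⟨c, hc, rfl⟩ := Finset.mem_image.1 hl
    obtain ⟨c', hc', rfl⟩ := Finset.mem_image.1 hl'
    rw [hinj c hc c' hc' he]
  · intro l hl
    obtain ⟨c, hc, rfl⟩ := Finset.mem_image.1 hl
    obtain ⟨hcD, hcJ⟩ := hDDk c (hF1 c hc)
    refine hp1.trans (hcJ.trans ?_)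
    exact_mod_cast JJ_le (E' k) k (q c) c (hDc c hcD)
  · rw [hFs]
    exact hp3.trans hFcard

/-- **the finish**: `S0187` from `FK4`. -/
theorem s0187_of_FK4 (hF : FK4) (K : Set (EuclideanSpace ℝ (Fin 4)))
    (hK : ∀ e : EuclideanSpace ℝ (Fin 4), ‖e‖ = 1 →
      ∃ a : EuclideanSpace ℝ (Fin 4), segment ℝ a (a + e) ⊆ K) :
    dimH K = 4 := by
  have hle : dimH K ≤ 4 := by
    refine (dimH_mono (subset_univ K)).trans ?_
    rw [Real.dimH_univ_eq_finrank, finrank_euclideanSpace_fin]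
    norm_num
  refine le_antisymm hle ?_
  by_contra hlt
  push Not at hlt
  obtain ⟨d, hd1, hd2⟩ := ENNReal.lt_iff_exists_nnreal_btwn.1 hlt
  have hd4 : (d : ℝ) < 4 := by
    have : d < 4 := by exact_mod_cast hd2
    exact_mod_cast this
  have hd0 : 0 < (d : ℝ) := by
    have : (0 : ℝ≥0∞) < d := lt_of_le_of_lt (by simp) hd1
    exact_mod_cast this
  refine main hF hK d hd0 hd4 ?_
  rw [ENNReal.ofReal_coe_nnreal]
  exact hd1

end Crest.Agent.R136.Fin480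
end

-- ▼ part R136/FinT_879
section

/-!
# R136 (helper879): `KS4 → S0187` (literal statement)
-/

set_option autoImplicit false

namespace Crest.Agent.R136.KS879

/-- **the finish of S0187**. -/
theorem s0187_of_KS4 (hKS : KS4) (K : Set (EuclideanSpace ℝ (Fin 4)))
    (hK : ∀ e : EuclideanSpace ℝ (Fin 4), ‖e‖ = 1 →
      ∃ a : EuclideanSpace ℝ (Fin 4), segment ℝ a (a + e) ⊆ K) : dimH K = 4 :=
  Crest.Agent.R136.Fin480.s0187_of_FK4 (FK4_of_KS4 hKS) K hK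

end Crest.Agent.R136.KS879
end

-- ▼ part R136/TopD_484

/-!
# R136: upstream seams of S0187 (helper484), definitions

* `geo4` : the geometry of sheets of the class `C*` (`Sh605.ShN`) for `MkA627.MkA`; index of the
  widths and rewards: `0` = thickness, `1` = wide, `2` = narrow.
* `J1` : output of block [EXT] : marked extremal sequence of sheets, full shading, all exponents
  linear, D-max at all levels and at arbitrary depth (`Dia770.AllD`, `Dia770.DeepP`).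
-/

set_option autoImplicit false
set_option linter.unusedVariables false

open Finset Filter Topology

namespace Crest.Agent.R136.Top484

open Crest.Agent.R138.Ex926 (Base U)
open Crest.Agent.R138.Dp76 (Dense)
open Crest.Agent.R138.Mk163 (zc zl rho alive own Negl)
open Crest.Agent.R136.MkA627 Crest.Agent.R136.Sh605 Crest.Agent.R136.K4

/-- **geometry of sheets** (class `C*`), rewards `(a/ρ)^(q 0) (w₁/ρ)^(q 1) (w₂/ρ)^(q 2)`; `wr`,
`cr` = range of the three widths: only sheets with `wr k n ≤ ![a, w 1, w 2] k ≤ cr k n` are tested -/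
noncomputable def geo4 (L : ℕ → ℕ → Ln4) (r0 : ℕ → ℝ) (wr cr : Fin 3 → ℕ → ℝ) (q : Fin 3 → ℝ) :
    Geo Plk4 (Fin 3) where
  mem := fun n i J s t => InSheet (L n t) s.e s.c s.w s.q s.a (zl i J) (rho i)
  adm := fun n i J s => ShN s.e s.c s.w s.q s.a (zl i J) (rho i) (r0 n) ∧ s.w 1 ≤ rho i ∧
    ∀ k : Fin 3, wr k n ≤ ![s.a, s.w 1, s.w 2] k ∧ ![s.a, s.w 1, s.w 2] k ≤ cr k n
  val := fun n i J s => s.a * s.w 2 * s.w 1 *
    ((s.a / rho i) ^ q 0 * (s.w 1 / rho i) ^ q 1 * (s.w 2 / rho i) ^ q 2)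
  wid := fun k s => ![s.a, s.w 1, s.w 2] k

/-- lines alive in the cell `j` of level `m`; beyond the level `l1` every sub-cell of an alive cell of
level `l1` is alive -/
noncomputable def aliveX (I : Finset (ℕ × ℝ)) (l1 m : ℕ) (j : ℤ) : Finset ℕ :=
  if m ≤ l1 then alive I m j else alive I l1 (j / 2 ^ (m - l1))


/-- parameters of the extremiser -/
structure Par4 where
  /-- rewards: thickness, wide, narrow -/
  q : Fin 3 → ℝ
  /-- growth -/
  g : ℝ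
  /-- slopes of the widths -/
  θ : Fin 3 → ℝ

/-- the data of a marked sequence of sheets -/
structure Dat4 where
  B : Base
  I : ℕ → Finset (ℕ × ℝ)
  L : ℕ → ℕ → Ln4
  r0 : ℕ → ℝ
  wr : Fin 3 → ℕ → ℝ
  cr : Fin 3 → ℕ → ℝ
  lev : ℕ → ℚ → ℕ
  A : ℕ → ℝ
  f : ℕ → ℚ → ℕ → ℤ → ℕ
  b : ℕ → ℚ → ℕ → Plk4
  vm : ℕ → ℚ → ℝ
  w : Fin 3 → ℕ → ℚ → ℝ

/-- the geometry of the data -/
noncomputable def Dat4.G (D : Dat4) (p : Par4) : Geo Plk4 (Fin 3) := geo4 D.L D.r0 D.wr D.cr p.q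

/-- the widths of the marks are superpolynomially far from both ends of the range -/
def Rng (B : Base) (wr cr : Fin 3 → ℕ → ℝ) (w : Fin 3 → ℕ → ℚ → ℝ) : Prop :=
  ∀ (C : ℝ) (k : Fin 3) (v : ℚ), 0 ≤ v → v ≤ 1 → ∀ᶠ n in (U : Filter ℕ),
    wr k n ≤ B.d n ^ C * w k n v ∧ w k n v ≤ B.d n ^ C * cr k n

/-- **J1, core**: marked extremal sequence of sheets; no relation between `g` and `q 1` -/
structure J1c (η : ℝ) (p : Par4) (D : Dat4) : Prop where
  mka : MkA D.B D.I (D.G p) D.lev D.A (fun v => p.g * v) (fun v => 0 * v)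
    (fun j v => p.θ j * (1 - v)) D.f D.b D.vm D.w
  /-- D-max at all levels (helper770) -/
  alld : Dia770.AllD D.B D.I (D.G p) D.lev D.A p.g
  /-- D-max seven steps below the last level, weak form (helper335) -/
  sub7 : Ndc335.SubD D.B D.I (D.G p) D.lev D.A p.g 1 7
  /-- D-max at the marked levels (and seven steps below) for all sheets, two-sided exponents
  (helper248, helper879, helper685) -/
  dall : ∃ qm qp : Fin 3 → ℝ, DAl879.Ex2 η qm qp ∧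
    DAl879.DAll D.B D.I D.L D.lev D.A p.g p.q D.r0 D.w qm qp ∧
    DAl879.DAllK 7 D.B D.I D.L D.lev D.A p.g p.q D.r0 D.w qm qp
  /-- rewards `0 ≤ q₀ ≤ η q₂`, `q₂ ≤ η g`, `q₂ ≤ η q₁` -/
  q0 : 0 ≤ p.q 0 ∧ p.q 0 ≤ η * p.q 2
  q2 : 0 < p.q 2 ∧ p.q 2 ≤ η * p.g
  q21 : p.q 2 ≤ η * p.q 1
  g0 : 0 < p.g ∧ 0 < p.q 1
  θ1 : 0 < p.θ 1
  /-- the slopes are bounded in terms of the rewards (helper823) -/
  θb : p.q 2 * max (p.θ 1 - p.θ 2) 0 + p.q 0 * (max (-(p.θ 0)) 0 + |p.θ 1| + |p.θ 2|) ≤ η * p.g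
  θ1b : p.q 2 * p.θ 1 ≤ η * p.g ∧ p.q 2 * max (-(p.θ 2)) 0 ≤ η * p.g
  /-- range of the tests -/
  wrs : Rng D.B D.wr D.cr D.w
  r0pos : ∀ n, 0 < D.r0 n
  r0log : ∀ ε : ℝ, 0 < ε → ∀ᶠ n in (U : Filter ℕ), Real.log (1 / D.r0 n) ≤ D.B.d n ^ (-ε)
  vel : ∀ᶠ n in (U : Filter ℕ), ∀ x ∈ D.I n, ∀ i, |(D.L n x.1).v i| ≤ 1

/-- **J1**: the old output of block [EXT]; rewards `g ≤ η q₁`, `g² ≤ η q₁ q₂` -/
structure J1 (η : ℝ) (p : Par4) (D : Dat4) : Prop extends J1c η p D where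
  g1 : p.g ≤ η * p.q 1
  gq : p.g ^ 2 ≤ η * (p.q 1 * p.q 2)

/-- **[EXT]** -/
def SeamExt : Prop := ∀ η : ℝ, 0 < η → ¬ KS879.KS4 → ∃ (p : Par4) (D : Dat4), J1 η p D

/-- **end of S0187** from the two halves. -/
theorem ks4_of (hE : SeamExt) {η : ℝ} (hη : 0 < η)
    (hF : ∀ (p : Par4) (D : Dat4), J1 η p D → False) : KS879.KS4 := by
  by_contra h
  obtain ⟨p, D, hJ⟩ := hE η hη h
  exact hF p D hJ

end Crest.Agent.R136.Top484
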