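import Mathlib
import Crest.Agent.R136.Deep1_51
import Crest.Agent.R136.TopD_484
import Crest.Agent.R138.TiltU1_51

/-!
# R136 (U5 TILT), deep count on pairs (line, deep cell) (helper51)

`deepQ I l1 m` : pairs (line, cell of level `m`) alive (below the level `l1` every sub-cell of an alive
cell of level `l1` is alive).  `deep_stage` : the deep count for two class systems of levels `lv` and
`lu`, abstract box labels.
-/

set_option autoImplicit false
set_option linter.unusedVariables false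

open Finset Filter Topology

namespace Crest.Agent.R136.Deep51

open Crest.Agent.R138.Mk163 (zc zl rho alive own)
open Crest.Agent.R138.TiltU51 (zc_mul_le zc_lt_mul zc_nest mem_alive)
open Crest.Agent.R136.Top484 (aliveX)

/-! ### cells -/

/-- ancestor of the cell `j` of level `m` at level `i` -/
def anc (i m : ℕ) (j : ℤ) : ℤ := j / 2 ^ (m - i)

theorem anc_eq {i m : ℕ} {j J : ℤ} : anc i m j = J ↔ 2 ^ (m - i) * J ≤ j ∧ j < 2 ^ (m - i) * (J + 1) := by
  unfold anc
  have hp : (0 : ℤ) < 2 ^ (m - i) := by positivity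
  rw [Int.ediv_eq_iff_of_pos hp]
  constructor
  · rintro ⟨h1, h2⟩; constructor <;> nlinarith
  · rintro ⟨h1, h2⟩; constructor <;> nlinarith

theorem anc_zc {i m : ℕ} (h : i ≤ m) (z : ℝ) : anc i m (zc m z) = zc i z :=
  anc_eq.2 ⟨zc_mul_le h z, zc_lt_mul h z⟩

theorem anc_anc {i k m : ℕ} (h1 : i ≤ k) (h2 : k ≤ m) (j : ℤ) : anc i k (anc k m j) = anc i m j := by
  unfold anc
  rw [Int.ediv_ediv_of_nonneg (by positivity), ← pow_add]
  congr 2; omega


/-! ### alive pairs -/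

open Classical in
/-- pairs (line, cell of level `m`), alive -/
noncomputable def deepQ (I : Finset (ℕ × ℝ)) (l1 m : ℕ) : Finset (ℕ × ℤ) :=
  if m ≤ l1 then I.image fun x => (x.1, zc m x.2)
  else (I.image fun x => (x.1, zc l1 x.2)).biUnion fun o =>
    (Finset.range (2 ^ (m - l1))).image fun k : ℕ => (o.1, 2 ^ (m - l1) * o.2 + (k : ℤ))

theorem mem_deepQ {I : Finset (ℕ × ℝ)} {l1 m : ℕ} {o : ℕ × ℤ} :
    o ∈ deepQ I l1 m ↔ o.1 ∈ aliveX I l1 m o.2 := by
  classical
  unfold deepQ aliveX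
  by_cases h : m ≤ l1
  · rw [if_pos h, if_pos h, mem_image, mem_alive]
    constructor
    · rintro ⟨x, hx, rfl⟩; exact ⟨x, hx, rfl, rfl⟩
    · rintro ⟨x, hx, h1, h2⟩; exact ⟨x, hx, by rw [h1, h2]⟩
  · rw [if_neg h, if_neg h, mem_biUnion, mem_alive]
    constructor
    · rintro ⟨o', ho', ho⟩
      obtain ⟨x, hx, rfl⟩ := mem_image.1 ho'
      obtain ⟨k, hk, rfl⟩ := mem_image.1 ho
      rw [mem_range] at hk
      have hk' : (k : ℤ) < 2 ^ (m - l1) := by exact_mod_cast hk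
      refine ⟨x, hx, ?_, rfl⟩
      have := (anc_eq (i := l1) (m := m) (j := 2 ^ (m - l1) * zc l1 x.2 + (k : ℤ))
        (J := zc l1 x.2)).2 ⟨by linarith [Int.natCast_nonneg k], by nlinarith⟩
      exact this.symm
    · rintro ⟨x, hx, h1, h2⟩
      obtain ⟨a1, a2⟩ := (anc_eq (i := l1) (m := m) (j := o.2) (J := zc l1 x.2)).1 h1.symm
      refine ⟨(x.1, zc l1 x.2), mem_image_of_mem _ hx, mem_image.2
        ⟨(o.2 - 2 ^ (m - l1) * zc l1 x.2).toNat, ?_, ?_⟩⟩
      · rw [mem_range]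
        have : ((o.2 - 2 ^ (m - l1) * zc l1 x.2).toNat : ℤ) < ((2 ^ (m - l1) : ℕ) : ℤ) := by
          rw [Int.toNat_of_nonneg (by linarith)]; push_cast; linarith
        exact_mod_cast this
      · rw [Int.toNat_of_nonneg (by linarith)]
        ext
        · exact h2
        · simp


/-- (L1) ancestors of alive pairs are alive -/
theorem alive_anc {I : Finset (ℕ × ℝ)} {lv l1 m : ℕ} (h1 : lv ≤ l1) (h2 : lv ≤ m) {o : ℕ × ℤ}
    (ho : o ∈ deepQ I l1 m) : o.1 ∈ alive I lv (anc lv m o.2) := by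
  rw [mem_deepQ] at ho
  unfold aliveX at ho
  by_cases h : m ≤ l1
  · rw [if_pos h, mem_alive] at ho
    obtain ⟨x, hx, h3, h4⟩ := ho
    rw [mem_alive]
    exact ⟨x, hx, by rw [← h3, anc_zc h2], h4⟩
  · rw [if_neg h, mem_alive] at ho
    obtain ⟨x, hx, h3, h4⟩ := ho
    rw [mem_alive]
    refine ⟨x, hx, ?_, h4⟩
    rw [← anc_anc h1 (le_of_not_ge h) o.2, ← anc_zc h1 x.2, h3]
    rfl

open Classical in
/-- level-`l1` cells of the line `t` in the cell `J` of level `lv` -/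
noncomputable def topc (I : Finset (ℕ × ℝ)) (l1 lv : ℕ) (t : ℕ) (J : ℤ) : Finset ℤ :=
  (I.filter fun y => y.1 = t ∧ zc lv y.2 = J).image fun y => zc l1 y.2

open Classical in
/-- deep cells of the line `t` in the cell `J` of level `lv` -/
noncomputable def deepc (I : Finset (ℕ × ℝ)) (l1 m lv : ℕ) (t : ℕ) (J : ℤ) : Finset ℤ :=
  ((deepQ I l1 m).filter fun o => o.1 = t ∧ anc lv m o.2 = J).image Prod.snd

open Classical in
theorem mem_deepc {I : Finset (ℕ × ℝ)} {l1 m lv : ℕ} {t : ℕ} {J j : ℤ} :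
    j ∈ deepc I l1 m lv t J ↔ (t, j) ∈ deepQ I l1 m ∧ anc lv m j = J := by
  unfold deepc
  rw [mem_image]
  constructor
  · rintro ⟨o, ho, rfl⟩
    obtain ⟨h1, h2, h3⟩ := mem_filter.1 ho
    refine ⟨?_, h3⟩
    rw [← h2]; exact h1
  · rintro ⟨h1, h2⟩
    exact ⟨(t, j), mem_filter.2 ⟨h1, rfl, h2⟩, rfl⟩

/-- the cells of level `m` below one cell of level `i` -/
theorem card_anc {i m : ℕ} (S : Finset ℤ) (J : ℤ) (hS : ∀ j ∈ S, anc i m j = J) :
    S.card ≤ 2 ^ (m - i) := by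
  have h1 : S ⊆ Ico (2 ^ (m - i) * J) (2 ^ (m - i) * (J + 1)) := by
    intro j hj
    obtain ⟨a, b⟩ := anc_eq.1 (hS j hj)
    exact mem_Ico.2 ⟨a, b⟩
  refine (card_le_card h1).trans (le_of_eq ?_)
  rw [Int.card_Ico]
  have : (2 : ℤ) ^ (m - i) * (J + 1) - 2 ^ (m - i) * J = ((2 ^ (m - i) : ℕ) : ℤ) := by
    push_cast; ring
  rw [this, Int.toNat_natCast]


open Classical in
/-- (L2) full shading at the top gives full shading at every integer level below `lv` -/
theorem card_deepc {I : Finset (ℕ × ℝ)} {lv l1 m : ℕ} (h1 : lv ≤ l1) (h2 : lv ≤ m) {X : ℝ}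
    (hX : 0 ≤ X) {t : ℕ} {J : ℤ}
    (hown : (2:ℝ) ^ (l1 - lv) ≤ X * ((topc I l1 lv t J).card : ℝ)) :
    (2:ℝ) ^ (m - lv) ≤ X * ((deepc I l1 m lv t J).card : ℝ) := by
  rcases le_or_gt m l1 with h | h
  · -- above the top
    have hc : (topc I l1 lv t J).card ≤ (deepc I l1 m lv t J).card * 2 ^ (l1 - m) := by
      have e : (topc I l1 lv t J).card = ∑ j ∈ deepc I l1 m lv t J,
          ((topc I l1 lv t J).filter fun j1 => anc m l1 j1 = j).card := by
        refine card_eq_sum_card_fiberwise fun j1 hj1 => ?_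
        have hj1 : j1 ∈ topc I l1 lv t J := hj1
        show anc m l1 j1 ∈ deepc I l1 m lv t J
        unfold topc at hj1
        obtain ⟨y, hy, rfl⟩ := mem_image.1 hj1
        obtain ⟨hy1, hy2, hy3⟩ := mem_filter.1 hy
        rw [anc_zc h, mem_deepc, mem_deepQ]
        refine ⟨?_, by rw [anc_zc h2]; exact hy3⟩
        unfold aliveX
        rw [if_pos h, mem_alive]
        exact ⟨y, hy1, rfl, hy2⟩
      rw [e, ← smul_eq_mul]
      refine sum_le_card_nsmul _ _ _ fun j _ => ?_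
      exact card_anc _ j fun j1 hj1 => (mem_filter.1 hj1).2
    have hc' : ((topc I l1 lv t J).card : ℝ) ≤ (deepc I l1 m lv t J).card * 2 ^ (l1 - m) := by
      exact_mod_cast hc
    have e2 : (2:ℝ) ^ (l1 - lv) = 2 ^ (m - lv) * 2 ^ (l1 - m) := by
      rw [← pow_add]; congr 1; omega
    rw [e2] at hown
    have hp : (0:ℝ) < 2 ^ (l1 - m) := by positivity
    have h3 : (2:ℝ) ^ (m - lv) * 2 ^ (l1 - m) ≤
        (X * ((deepc I l1 m lv t J).card : ℝ)) * 2 ^ (l1 - m) := by
      refine hown.trans ?_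
      calc X * ((topc I l1 lv t J).card : ℝ) ≤ X * ((deepc I l1 m lv t J).card * 2 ^ (l1 - m)) :=
            mul_le_mul_of_nonneg_left hc' hX
        _ = _ := by ring
    exact le_of_mul_le_mul_right h3 hp
  · -- below the top
    have hc : (topc I l1 lv t J).card * 2 ^ (m - l1) ≤ (deepc I l1 m lv t J).card := by
      have e : (deepc I l1 m lv t J).card = ∑ j1 ∈ topc I l1 lv t J,
          ((deepc I l1 m lv t J).filter fun j => anc l1 m j = j1).card := by
        refine card_eq_sum_card_fiberwise fun j hj => ?_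
        have hj : j ∈ deepc I l1 m lv t J := hj
        show anc l1 m j ∈ topc I l1 lv t J
        obtain ⟨h3, h4⟩ := mem_deepc.1 hj
        rw [mem_deepQ] at h3
        unfold aliveX at h3
        rw [if_neg (not_le.2 h), mem_alive] at h3
        obtain ⟨y, hy, h5, h6⟩ := h3
        unfold topc
        refine mem_image.2 ⟨y, mem_filter.2 ⟨hy, h6, ?_⟩, h5⟩
        rw [← anc_zc h1 y.2, h5, ← h4]
        exact anc_anc h1 h.le j
      rw [e, ← smul_eq_mul]
      refine card_nsmul_le_sum _ _ _ fun j1 hj1 => ?_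
      unfold topc at hj1
      obtain ⟨y, hy, rfl⟩ := mem_image.1 hj1
      obtain ⟨hy1, hy2, hy3⟩ := mem_filter.1 hy
      have hI : (Ico (2 ^ (m - l1) * zc l1 y.2) (2 ^ (m - l1) * (zc l1 y.2 + 1)) : Finset ℤ) ⊆
          (deepc I l1 m lv t J).filter fun j => anc l1 m j = zc l1 y.2 := by
        intro j hj
        rw [mem_Ico] at hj
        have h7 : anc l1 m j = zc l1 y.2 := anc_eq.2 hj
        refine mem_filter.2 ⟨mem_deepc.2 ⟨?_, ?_⟩, h7⟩
        · rw [mem_deepQ]
          unfold aliveX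
          rw [if_neg (not_le.2 h), mem_alive]
          exact ⟨y, hy1, h7.symm, hy2⟩
        · rw [← anc_anc h1 h.le j, h7, anc_zc h1]; exact hy3
      refine le_trans (le_of_eq ?_) (card_le_card hI)
      rw [Int.card_Ico]
      have : (2 : ℤ) ^ (m - l1) * (zc l1 y.2 + 1) - 2 ^ (m - l1) * zc l1 y.2 =
          ((2 ^ (m - l1) : ℕ) : ℤ) := by
        push_cast; ring
      rw [this, Int.toNat_natCast]
    have hc' : ((topc I l1 lv t J).card : ℝ) * 2 ^ (m - l1) ≤ (deepc I l1 m lv t J).card := by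
      exact_mod_cast hc
    have e2 : (2:ℝ) ^ (m - lv) = 2 ^ (l1 - lv) * 2 ^ (m - l1) := by
      rw [← pow_add]; congr 1; omega
    rw [e2]
    calc (2:ℝ) ^ (l1 - lv) * 2 ^ (m - l1) ≤ (X * ((topc I l1 lv t J).card : ℝ)) * 2 ^ (m - l1) :=
          mul_le_mul_of_nonneg_right hown (by positivity)
      _ = X * (((topc I l1 lv t J).card : ℝ) * 2 ^ (m - l1)) := by ring
      _ ≤ _ := mul_le_mul_of_nonneg_left hc' hX

open Classical in
/-- (L3) pairs of a class -/
theorem card_classQ {I : Finset (ℕ × ℝ)} {lv l1 m : ℕ} (h1 : lv ≤ l1) (h2 : lv ≤ m) {X : ℝ}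
    (hX : 0 < X) {J : ℤ}
    (hown : ∀ t ∈ alive I lv J, (2:ℝ) ^ (l1 - lv) ≤ X * ((topc I l1 lv t J).card : ℝ))
    (f : ℕ → ℤ → ℕ) (a : ℕ) :
    (2:ℝ) ^ (m - lv) * (((alive I lv J).filter fun t => f t J = a).card : ℝ) ≤
      X * (((deepQ I l1 m).filter fun o => anc lv m o.2 = J ∧ f o.1 (anc lv m o.2) = a).card : ℝ) := by
  set T := (alive I lv J).filter fun t => f t J = a with hT
  set Q := (deepQ I l1 m).filter fun o => anc lv m o.2 = J ∧ f o.1 (anc lv m o.2) = a with hQ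
  have e : Q.card = ∑ t ∈ T, (Q.filter fun o => o.1 = t).card := by
    refine card_eq_sum_card_fiberwise fun o ho => ?_
    have ho : o ∈ Q := ho
    show o.1 ∈ T
    obtain ⟨h3, h4, h5⟩ := mem_filter.1 ho
    have h6 := alive_anc h1 h2 h3
    rw [h4] at h6 h5
    exact mem_filter.2 ⟨h6, h5⟩
  have hf : ∀ t ∈ T, (2:ℝ) ^ (m - lv) ≤ X * ((Q.filter fun o => o.1 = t).card : ℝ) := by
    intro t ht
    obtain ⟨ht1, ht2⟩ := mem_filter.1 ht
    refine (card_deepc h1 h2 hX.le (hown t ht1)).trans ?_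
    refine mul_le_mul_of_nonneg_left ?_ hX.le
    norm_cast
    refine card_le_card_of_injOn (fun j => (t, j)) (fun j hj => ?_) (fun a _ b _ h => by
      simpa using h)
    obtain ⟨h3, h4⟩ := mem_deepc.1 hj
    rw [Finset.mem_coe, mem_filter, mem_filter]
    exact ⟨⟨h3, h4, by rw [h4]; exact ht2⟩, rfl⟩
  rw [e]
  push_cast
  rw [mul_sum]
  calc (2:ℝ) ^ (m - lv) * (T.card : ℝ) = ∑ t ∈ T, (2:ℝ) ^ (m - lv) := by
        rw [sum_const, nsmul_eq_mul]; ring
    _ ≤ _ := sum_le_sum hf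

/-- class of the pair `o` : (cell of level `lv`, class number) -/
def clQ (lv m : ℕ) (f : ℕ → ℤ → ℕ) (o : ℕ × ℤ) : ℤ × ℕ := (anc lv m o.2, f o.1 (anc lv m o.2))




end Crest.Agent.R136.Deep51
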