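import Crest.Agent.R136.KDef5_879

/-!
# R136 (S0187): the class of sheets with free chart width (helper321)

`ShC` : as `ShN` (class C*), but the half-width `w 0` of the chart is free, `a ≤ w 0 ≤ w 2 ≤ w 1`,
and on the doubled box `∂_{e 0} q ∈ [1/2, 2]`, `|∂_{e 1} q| ≤ w 0 / w 1`, `|∂_{e 2} q| ≤ w 0 / w 2`
(`q / w 0` is bounded in the coordinates of the box).

* `ShN.toC` : class C* is contained in `ShC`; `ShC.toSheet`; `clsOK_C`.
* `ShC.of_step` : `ShC` from slopes; `ShC.sub` : sub-boxes; `ShC.cigar` : a cigar in `ShC` is `ShN`.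
* `flat_ShC` : flat boxes; `DMaxC`, `DMaxC.toN`.
-/

set_option autoImplicit false
set_option linter.unusedVariables false

namespace Crest.Agent.R136.Sh321

open Finset Sh605 K4

/-- **sheets with free chart width** -/
structure ShC (e : Fin 3 → V3) (c : Ln4) (w : V3) (q : ℝ → V3 → ℝ) (a z0 ρ r0 : ℝ) : Prop where
  ortho : Ortho e
  isQ : IsQ q
  r0_le : r0 ≤ a
  w0_ge : a ≤ w 0
  w0_le : w 0 ≤ w 2
  w_le : w 2 ≤ w 1
  st0 : ∀ z, z0 ≤ z → z ≤ z0 + ρ → ∀ (x : V3) (τ : ℝ), 0 ≤ τ → InK e c (dbl3 w) z x →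
    InK e c (dbl3 w) z (x + τ • e 0) →
      τ / 2 ≤ q z (x + τ • e 0) - q z x ∧ q z (x + τ • e 0) - q z x ≤ 2 * τ
  st1 : ∀ z, z0 ≤ z → z ≤ z0 + ρ → ∀ (x : V3) (τ : ℝ), 0 ≤ τ → InK e c (dbl3 w) z x →
    InK e c (dbl3 w) z (x + τ • e 1) → |q z (x + τ • e 1) - q z x| ≤ w 0 / w 1 * τ
  st2 : ∀ z, z0 ≤ z → z ≤ z0 + ρ → ∀ (x : V3) (τ : ℝ), 0 ≤ τ → InK e c (dbl3 w) z x →
    InK e c (dbl3 w) z (x + τ • e 2) → |q z (x + τ • e 2) - q z x| ≤ w 0 / w 2 * τ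

variable {e : Fin 3 → V3} {c : Ln4} {w : V3} {q : ℝ → V3 → ℝ} {a z0 ρ r0 : ℝ}

/-- **class C\* is contained in `ShC`** -/
theorem ShN.toC (hr : 0 < r0) (h : ShN e c w q a z0 ρ r0) : ShC e c w q a z0 ρ r0 where
  ortho := h.ortho
  isQ := h.isQ
  r0_le := h.r0_le
  w0_ge := h.a_le0
  w0_le := h.w0_le
  w_le := h.w_le
  st0 := h.st0
  st1 := h.sl1
  st2 := h.sl2

/-- since the migration of 02:50 `ShN` and `ShC` are the same class -/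
theorem ShC.toN (h : ShC e c w q a z0 ρ r0) : ShN e c w q a z0 ρ r0 where
  ortho := h.ortho
  isQ := h.isQ
  a_le0 := h.w0_ge
  w0_le := h.w0_le
  w_le := h.w_le
  r0_le := h.r0_le
  st0 := h.st0
  sl1 := h.st1
  sl2 := h.st2


theorem ShC.pos (hr : 0 < r0) (h : ShC e c w q a z0 ρ r0) :
    0 < a ∧ 0 < w 0 ∧ 0 < w 2 ∧ 0 < w 1 := by
  have h0 := hr.trans_le h.r0_le
  have h1 := h0.trans_le h.w0_ge
  have h2 := h1.trans_le h.w0_le
  exact ⟨h0, h1, h2, h2.trans_le h.w_le⟩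

theorem ShC.a_le (h : ShC e c w q a z0 ρ r0) : a ≤ w 2 := h.w0_ge.trans h.w0_le



/-- **sub-boxes**: same function, same frame, a smaller box inside, slopes still small -/
theorem ShC.sub (hr : 0 < r0) (h : ShC e c w q a z0 ρ r0) {c' : Ln4} {w' : V3} {a' z0' ρ' : ℝ}
    (hz : z0 ≤ z0') (hz' : z0' + ρ' ≤ z0 + ρ)
    (hbox : ∀ z, z0' ≤ z → z ≤ z0' + ρ' → ∀ x, InK e c' (dbl3 w') z x → InK e c (dbl3 w) z x)
    (ha : r0 ≤ a') (ha' : a' ≤ w' 0) (h02 : w' 0 ≤ w' 2) (h21 : w' 2 ≤ w' 1)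
    (s1 : w 0 * w' 1 ≤ w' 0 * w 1) (s2 : w 0 * w' 2 ≤ w' 0 * w 2) :
    ShC e c' w' q a' z0' ρ' r0 where
  ortho := h.ortho
  isQ := h.isQ
  r0_le := ha
  w0_ge := ha'
  w0_le := h02
  w_le := h21
  st0 := by
    intro z k k' x τ hτ hx hx'
    exact h.st0 z (hz.trans k) (k'.trans hz') x τ hτ (hbox z k k' _ hx) (hbox z k k' _ hx')
  st1 := by
    intro z k k' x τ hτ hx hx'
    obtain ⟨-, -, -, p1⟩ := h.pos hr
    have p1' : 0 < w' 1 := (((hr.trans_le ha).trans_le ha').trans_le h02).trans_le h21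
    refine (h.st1 z (hz.trans k) (k'.trans hz') x τ hτ (hbox z k k' _ hx)
      (hbox z k k' _ hx')).trans (mul_le_mul_of_nonneg_right ?_ hτ)
    rw [div_le_div_iff₀ p1 p1']
    exact s1
  st2 := by
    intro z k k' x τ hτ hx hx'
    obtain ⟨-, -, p2, -⟩ := h.pos hr
    have p2' : 0 < w' 2 := ((hr.trans_le ha).trans_le ha').trans_le h02
    refine (h.st2 z (hz.trans k) (k'.trans hz') x τ hτ (hbox z k k' _ hx)
      (hbox z k k' _ hx')).trans (mul_le_mul_of_nonneg_right ?_ hτ)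
    rw [div_le_div_iff₀ p2 p2']
    exact s2


/-- legal sheets of level `m` at resolution `r` (the slope cap is not used) -/
def LegC (m : ℕ) (r _Λm : ℝ) (K : Plk4) : Prop :=
  ShC K.e K.c K.w K.q K.a ((K.j : ℝ) / 2 ^ m) (1 / 2 ^ m) r ∧ K.w 1 ≤ 1 / 2 ^ m

theorem LegN.toC {m : ℕ} {r Λ : ℝ} {K : Plk4} (hr : 0 < r) (h : LegN m r Λ K) : LegC m r Λ K :=
  ⟨ShN.toC hr h.1, h.2⟩





open Classical in
/-- **D-max for the class `ShC`**, reward `R a (w 2) (w 1)` -/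
def DMaxC {ι : Type} (A : Finset ι) (L : ι → Ln4) (z0 ρ D : ℝ) (R : ℝ → ℝ → ℝ → ℝ)
    (r0 wmax : ℝ) : Prop :=
  ∀ (e : Fin 3 → V3) (c : Ln4) (w : V3) (q : ℝ → V3 → ℝ) (a : ℝ), ShC e c w q a z0 ρ r0 →
    w 1 ≤ wmax →
    ((A.filter fun t => InSheet (L t) e c w q a z0 ρ).card : ℝ) ≤
      D * (a * w 2 * w 1 * R a (w 2) (w 1))

theorem DMaxC.toN {ι : Type} {A : Finset ι} {L : ι → Ln4} {z0 ρ D : ℝ} {R : ℝ → ℝ → ℝ → ℝ}
    {r0 wmax : ℝ} (hr : 0 < r0) (h : DMaxC A L z0 ρ D R r0 wmax) :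
    DMaxN A L z0 ρ D R r0 wmax := by
  intro e c w q a hs hw
  exact h e c w q a (ShN.toC hr hs) hw

end Crest.Agent.R136.Sh321
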