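import Mathlib
import Crest.Agent.R136.Deep2_51
import Crest.Agent.R136.Sh7_321

-- ▼ part R136/Deep3_51
section

/-!
# R136 (U5 TILT), geometry of the deep count (helper51)

Class `ShC`.  Offsets in the steep direction, frames, labels of boxes, test sheets.
-/

set_option autoImplicit false
set_option linter.unusedVariables false

open Finset

namespace Crest.Agent.R136.Deep51

open Crest.Agent.R136.Sh605 Crest.Agent.R136.Sh321 Crest.Agent.R136.K4

/-! ### linear algebra -/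

theorem dt_exp {e' : Fin 3 → V3} (h : Ortho e') (x D : V3) :
    dt x D = dt x (e' 0) * dt (e' 0) D + dt x (e' 1) * dt (e' 1) D + dt x (e' 2) * dt (e' 2) D := by
  have h0 := h.expand D 0
  have h1 := h.expand D 1
  have h2 := h.expand D 2
  have : dt x D = x 0 * D 0 + x 1 * D 1 + x 2 * D 2 := rfl
  rw [this, h0, h1, h2]
  simp only [dt]
  ring


theorem dt_cs (x y : V3) : (dt x y) ^ 2 ≤ dt x x * dt y y := by
  unfold dt
  nlinarith [sq_nonneg (x 0 * y 1 - x 1 * y 0), sq_nonneg (x 0 * y 2 - x 2 * y 0),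
    sq_nonneg (x 1 * y 2 - x 2 * y 1)]

theorem abs_dt_unit {e e' : Fin 3 → V3} (h : Ortho e) (h' : Ortho e') (i j : Fin 3) :
    |dt (e i) (e' j)| ≤ 1 := by
  have h1 := dt_cs (e i) (e' j)
  rw [h i i, h' j j, if_pos rfl, if_pos rfl, mul_one] at h1
  rw [abs_le]
  constructor <;> nlinarith

/-- offsets in one frame from the offsets in another one -/
theorem abs_dt_exp {e e' : Fin 3 → V3} (h : Ortho e) (h' : Ortho e') (i : Fin 3) (D : V3) :
    |dt (e i) D| ≤ |dt (e i) (e' 0)| * |dt (e' 0) D| + |dt (e i) (e' 1)| * |dt (e' 1) D| +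
      |dt (e i) (e' 2)| * |dt (e' 2) D| := by
  rw [dt_exp h' (e i) D]
  refine (abs_add_le _ _).trans ?_
  have h1 := abs_add_le (dt (e i) (e' 0) * dt (e' 0) D) (dt (e i) (e' 1) * dt (e' 1) D)
  rw [abs_mul, abs_mul] at h1
  rw [abs_mul (dt (e i) (e' 2))]
  linarith







/-! ### steepness -/

section
variable {e : Fin 3 → V3} {c : Ln4} {w : V3} {q : ℝ → V3 → ℝ} {a z0 ρ r0 : ℝ}




end

/-! ### labels of boxes -/



/-- label of a line: positions and velocities in the base directions -/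
noncomputable def lab4 (e : Fin 3 → V3) (c : Ln4) (μ1 μ2 ν1 ν2 ζ : ℝ) (t : Ln4) :
    (ℤ × ℤ) × (ℤ × ℤ) :=
  ((⌊dt (e 1) (t.pos ζ - c.pos ζ) / μ1⌋, ⌊dt (e 2) (t.pos ζ - c.pos ζ) / μ2⌋),
    (⌊dt (e 1) (t.v - c.v) / ν1⌋, ⌊dt (e 2) (t.v - c.v) / ν2⌋))




/-! ### test sheets -/

/-- half-widths of the test sheets -/
def tw (w : V3) (A G G' : ℝ) : V3 := ![max (G * w 0) (8 * A), G' * w 1, G * w 2]

section
variable {e : Fin 3 → V3} {c : Ln4} {w : V3} {q : ℝ → V3 → ℝ} {a z0 ρ r0 : ℝ}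



end

end Crest.Agent.R136.Deep51
end

-- ▼ part R136/Deep4_51

/-!
# R136 (U5 TILT): the hull of a small box, the deep count on an arbitrary part (helper51)

* `CoinC` : coincidence of two sheets near a common line.
* `hull_mem` : lines of the second sheet near a line of both lie in one test sheet of the first one.
* `tilt_stage` : deep count with explicit deficits, on an arbitrary set `P` of objects.
-/

set_option autoImplicit false
set_option linter.unusedVariables false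

open Finset

namespace Crest.Agent.R136.Deep51

open Crest.Agent.R136.Sh605 Crest.Agent.R136.Sh321 Crest.Agent.R136.K4
open Crest.Agent.R138.Mk163 (zc zl rho alive own)

/-- **coincidence** near the line `T` : points of the second sheet at distance at most `m1, m2` from
`T` along its axes `e' 1, e' 2` lie in the first sheet fattened to `A`. -/
def CoinC (e : Fin 3 → V3) (w : V3) (q : ℝ → V3 → ℝ) (e' : Fin 3 → V3) (c' : Ln4) (w' : V3)
    (q' : ℝ → V3 → ℝ) (a' A m1 m2 : ℝ) (T : Ln4) (z0 ρ : ℝ) : Prop :=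
  ∀ z, z0 ≤ z → z ≤ z0 + ρ → ∀ x : V3, InK e' c' w' z x → |q' z x| ≤ a' →
    |dt (e' 1) (x - T.pos z)| ≤ m1 → |dt (e' 2) (x - T.pos z)| ≤ m2 →
      |dt (e 0) (x - T.pos z)| ≤ w 0 / 2 ∧ |q z x| ≤ A

/-- **closeness** : points of the first sheet in an eighth of the base box around `T` lie in the
second sheet fattened to `E`. -/
def CloseC (e : Fin 3 → V3) (w : V3) (q : ℝ → V3 → ℝ) (a : ℝ) (q' : ℝ → V3 → ℝ) (E : ℝ) (T : Ln4)
    (z0 ρ : ℝ) : Prop :=
  ∀ z, z0 ≤ z → z ≤ z0 + ρ → ∀ x : V3, InK e T (fun i => w i / 8) z x → |q z x| ≤ a →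
    |q' z x| ≤ E

theorem CoinC.anti {e e' : Fin 3 → V3} {c' : Ln4} {w w' : V3} {q q' : ℝ → V3 → ℝ}
    {a' A B m1 m2 n1 n2 : ℝ} {T : Ln4} {z0 ρ z1 ρ1 : ℝ}
    (h : CoinC e w q e' c' w' q' a' A m1 m2 T z0 ρ) (hAB : A ≤ B) (h1 : n1 ≤ m1)
    (h2 : n2 ≤ m2) (hz : z0 ≤ z1) (hz' : z1 + ρ1 ≤ z0 + ρ) :
    CoinC e w q e' c' w' q' a' B n1 n2 T z1 ρ1 := by
  intro z a b x c d f g
  obtain ⟨k1, k2⟩ := h z (hz.trans a) (b.trans hz') x c d (f.trans h1) (g.trans h2)
  exact ⟨k1, k2.trans hAB⟩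

section
variable {e : Fin 3 → V3} {c : Ln4} {w : V3} {q : ℝ → V3 → ℝ} {a z0 ρ r0 : ℝ}
variable {e' : Fin 3 → V3} {c' : Ln4} {w' : V3} {q' : ℝ → V3 → ℝ} {a' z0' ρ' r0' : ℝ}




end

/-! ### counting on an arbitrary part -/




/-- the cell `j` of level `m` inside its ancestor of level `i` -/
theorem anc_sub {i m : ℕ} (h : i ≤ m) (j : ℤ) :
    zl i (anc i m j) ≤ zl m j ∧ zl m j + rho m ≤ zl i (anc i m j) + rho i := by
  obtain ⟨h1, h2⟩ := anc_eq.1 (rfl : anc i m j = anc i m j)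
  have hp : (0:ℝ) < 2 ^ m := by positivity
  have e : (2:ℝ) ^ m = 2 ^ (m - i) * 2 ^ i := by rw [← pow_add]; congr 1; omega
  have h1' : (2:ℝ) ^ (m - i) * (anc i m j : ℝ) ≤ j := by exact_mod_cast h1
  have h2' : (j : ℝ) + 1 ≤ 2 ^ (m - i) * ((anc i m j : ℝ) + 1) := by exact_mod_cast h2
  unfold zl rho
  have q1 : (anc i m j : ℝ) / 2 ^ i = 2 ^ (m - i) * (anc i m j : ℝ) / 2 ^ m := by
    rw [e]; field_simp
  have q2 : (anc i m j : ℝ) / 2 ^ i + 1 / 2 ^ i = 2 ^ (m - i) * ((anc i m j : ℝ) + 1) / 2 ^ m := by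
    rw [e]; field_simp
  constructor
  · rw [q1]; exact div_le_div_of_nonneg_right h1' hp.le
  · rw [q2, ← add_div]; exact div_le_div_of_nonneg_right h2' hp.le

/-! ### the stage -/

section stage

/-- sheet of the object `o` (line, cell of level `m`) at the level `lv` -/
def mv (lv m : ℕ) (f : ℕ → ℤ → ℕ) (b : ℕ → Plk4) (o : ℕ × ℤ) : Plk4 := b (f o.1 (anc lv m o.2))


/-- the object lies in its sheet of level `lv` -/
def inv (L : ℕ → Ln4) (lv m : ℕ) (S : Plk4) (o : ℕ × ℤ) : Prop :=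
  InSheet (L o.1) S.e S.c S.w S.q S.a (zl lv (anc lv m o.2)) (rho lv)

/-- label of the object in the frame of its sheet -/
noncomputable def lbl (L : ℕ → Ln4) (m : ℕ) (S : Plk4) (μ1 μ2 ν1 ν2 : ℝ) (o : ℕ × ℤ) :
    (ℤ × ℤ) × (ℤ × ℤ) := lab4 S.e S.c μ1 μ2 ν1 ν2 (zl m o.2) (L o.1)


theorem rho_pos (i : ℕ) : 0 < rho i := by unfold rho; positivity






end stage

end Crest.Agent.R136.Deep51
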