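import Mathlib
import Crest.Agent.R136.Pl2W_102

-- ▼ part R136/Rfa_877
section

/-!
# R136, PLAN 2 (AL): refinement of two systems of classes, abstract part (helper877)

* `prune2` : two labels, thresholds `m1`, `m2`;
* `refine_abs` : every class of `u` (resp. `v`) has at least `M / W` members and is cut into at most `N`
  cells; after removal of at most half of the members every remaining cell has at least `M / (4 N W)`
  remaining members, for both systems.
-/

set_option autoImplicit false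

open Finset

namespace Crest.Agent.R136.Rf877

variable {ι : Type}

open Classical in
/-- **pruning for two labels** -/
theorem prune2 (f g : ι → ℕ) {m1 m2 : ℝ} (h1 : 0 ≤ m1) (h2 : 0 ≤ m2) :
    ∀ (n : ℕ) (O : Finset ι), O.card ≤ n →
    ∃ G ⊆ O, (O.card : ℝ) - m1 * ((O.image f).card : ℝ) - m2 * ((O.image g).card : ℝ) ≤ (G.card : ℝ) ∧
      ∀ o ∈ G, m1 ≤ ((G.filter fun p => f p = f o).card : ℝ) ∧
        m2 ≤ ((G.filter fun p => g p = g o).card : ℝ) := by
  intro n
  induction n with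
  | zero =>
    intro O hO
    have h0 : O = ∅ := card_eq_zero.1 (Nat.le_zero.1 hO)
    subst h0
    exact ⟨∅, Subset.refl _, by simp, by simp⟩
  | succ n ih =>
    intro O hO
    -- removal of one class of a label
    have key : ∀ (a b : ι → ℕ) (o : ι), o ∈ O → ∀ m m' : ℝ, 0 ≤ m → 0 ≤ m' →
        ((O.filter fun p => a p = a o).card : ℝ) < m →
        (O.card : ℝ) - m * ((O.image a).card : ℝ) - m' * ((O.image b).card : ℝ) ≤
          ((O.filter fun p => a p ≠ a o).card : ℝ) -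
            m * (((O.filter fun p => a p ≠ a o).image a).card : ℝ) -
            m' * (((O.filter fun p => a p ≠ a o).image b).card : ℝ) := by
      intro a b o ho m m' hm hm' hlt
      have e1 : (O.card : ℝ) = ((O.filter fun p => a p = a o).card : ℝ) +
          ((O.filter fun p => a p ≠ a o).card : ℝ) := by
        have := card_filter_add_card_filter_not (s := O) (fun p => a p = a o)
        exact_mod_cast this.symm
      have e2 : (((O.filter fun p => a p ≠ a o).image a).card : ℝ) + 1 ≤ ((O.image a).card : ℝ) := by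
        have hn : a o ∉ (O.filter fun p => a p ≠ a o).image a := by
          intro h
          obtain ⟨p, hp, hpo⟩ := mem_image.1 h
          exact (mem_filter.1 hp).2 hpo
        have hs : insert (a o) ((O.filter fun p => a p ≠ a o).image a) ⊆ O.image a := by
          intro x hx
          rcases mem_insert.1 hx with h | h
          · rw [h]; exact mem_image_of_mem _ ho
          · exact image_subset_image (filter_subset _ _) h
        have := card_le_card hs
        rw [card_insert_of_notMem hn] at this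
        exact_mod_cast this
      have e3 : (((O.filter fun p => a p ≠ a o).image b).card : ℝ) ≤ ((O.image b).card : ℝ) := by
        exact_mod_cast card_le_card (image_subset_image (filter_subset _ _))
      have e4 := mul_le_mul_of_nonneg_left e2 hm
      have e5 := mul_le_mul_of_nonneg_left e3 hm'
      linarith
    have hlt' : ∀ (a : ι → ℕ) (o : ι), o ∈ O →
        (O.filter fun p => a p ≠ a o).card < O.card := by
      intro a o ho
      refine card_lt_card ⟨filter_subset _ _, fun h => ?_⟩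
      have := h ho
      rw [mem_filter] at this
      exact this.2 rfl
    by_cases hg : ∀ o ∈ O, m1 ≤ ((O.filter fun p => f p = f o).card : ℝ) ∧
        m2 ≤ ((O.filter fun p => g p = g o).card : ℝ)
    · refine ⟨O, Subset.refl _, ?_, hg⟩
      have k1 : 0 ≤ m1 * ((O.image f).card : ℝ) := by positivity
      have k2 : 0 ≤ m2 * ((O.image g).card : ℝ) := by positivity
      linarith
    · push Not at hg
      obtain ⟨o, ho, hlt⟩ := hg
      by_cases hf : m1 ≤ ((O.filter fun p => f p = f o).card : ℝ)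
      · have hlt2 := hlt hf
        obtain ⟨G, hG, hcard, hgood⟩ := ih (O.filter fun p => g p ≠ g o) (by
          have := hlt' g o ho; omega)
        refine ⟨G, hG.trans (filter_subset _ _), le_trans ?_ hcard, hgood⟩
        have := key g f o ho m2 m1 h2 h1 hlt2
        linarith
      · have hlt2 := not_le.1 hf
        obtain ⟨G, hG, hcard, hgood⟩ := ih (O.filter fun p => f p ≠ f o) (by
          have := hlt' f o ho; omega)
        exact ⟨G, hG.trans (filter_subset _ _), (key f g o ho m1 m2 h1 h2 hlt2).trans hcard, hgood⟩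

open Classical in
/-- number of classes of a full system -/
theorem classes_le (P : Finset ι) (u : ι → ℕ) {M W : ℝ}
    (hfull : ∀ t ∈ P, M ≤ W * ((P.filter fun s => u s = u t).card : ℝ)) :
    ((P.image u).card : ℝ) * M ≤ W * (P.card : ℝ) := by
  have h1 : (P.card : ℝ) = ∑ c ∈ P.image u, ((P.filter fun s => u s = c).card : ℝ) := by
    have := card_eq_sum_card_fiberwise (s := P) (t := P.image u) (f := u)
      (fun x hx => mem_image_of_mem u hx)
    exact_mod_cast this
  rw [h1, mul_sum]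
  calc ((P.image u).card : ℝ) * M = ∑ c ∈ P.image u, M := by rw [sum_const, nsmul_eq_mul]
    _ ≤ _ := by
      refine sum_le_sum fun c hc => ?_
      obtain ⟨t, ht, rfl⟩ := mem_image.1 hc
      exact hfull t ht

open Classical in
/-- number of cells of a system cut into cells -/
theorem cells_le (P : Finset ι) (u c : ι → ℕ) {N : ℝ}
    (hN : ∀ t ∈ P, (((P.filter fun s => u s = u t).image c).card : ℝ) ≤ N) :
    ((P.image fun t => Nat.pair (u t) (c t)).card : ℝ) ≤ N * ((P.image u).card : ℝ) := by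
  have h1 : (P.image fun t => Nat.pair (u t) (c t)) ⊆
      (P.image u).biUnion fun k => ((P.filter fun s => u s = k).image c).image fun b =>
        Nat.pair k b := by
    intro x hx
    obtain ⟨t, ht, rfl⟩ := mem_image.1 hx
    rw [mem_biUnion]
    refine ⟨u t, mem_image_of_mem u ht, ?_⟩
    exact mem_image.2 ⟨c t, mem_image_of_mem c (mem_filter.2 ⟨ht, rfl⟩), rfl⟩
  have h2 : ((P.image fun t => Nat.pair (u t) (c t)).card : ℝ) ≤
      ∑ k ∈ P.image u, (((P.filter fun s => u s = k).image c).card : ℝ) := by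
    have := (card_le_card h1).trans card_biUnion_le
    have h3 : ((P.image fun t => Nat.pair (u t) (c t)).card : ℝ) ≤
      ∑ k ∈ P.image u, ((((P.filter fun s => u s = k).image c).image fun b => Nat.pair k b).card : ℝ) := by
      exact_mod_cast this
    refine h3.trans (sum_le_sum fun k _ => ?_)
    exact_mod_cast card_image_le
  refine h2.trans ?_
  calc ∑ k ∈ P.image u, (((P.filter fun s => u s = k).image c).card : ℝ) ≤
      ∑ k ∈ P.image u, N := by
        refine sum_le_sum fun k hk => ?_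
        obtain ⟨t, ht, rfl⟩ := mem_image.1 hk
        exact hN t ht
    _ = _ := by rw [sum_const, nsmul_eq_mul]; ring

open Classical in
/-- **refinement of two full systems** -/
theorem refine_abs (P : Finset ι) (u v cu cv : ι → ℕ) {M W N : ℝ} (hM : 0 < M) (hW : 0 < W)
    (hN : 0 < N)
    (fu : ∀ t ∈ P, M ≤ W * ((P.filter fun s => u s = u t).card : ℝ))
    (fv : ∀ t ∈ P, M ≤ W * ((P.filter fun s => v s = v t).card : ℝ))
    (nu : ∀ t ∈ P, (((P.filter fun s => u s = u t).image cu).card : ℝ) ≤ N)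
    (nv : ∀ t ∈ P, (((P.filter fun s => v s = v t).image cv).card : ℝ) ≤ N) :
    ∃ G ⊆ P, (P.card : ℝ) ≤ 2 * (G.card : ℝ) ∧ ∀ t ∈ G,
      M ≤ 4 * N * W * ((G.filter fun s => Nat.pair (u s) (cu s) = Nat.pair (u t) (cu t)).card : ℝ) ∧
      M ≤ 4 * N * W * ((G.filter fun s => Nat.pair (v s) (cv s) = Nat.pair (v t) (cv t)).card : ℝ) := by
  have m0 : 0 ≤ M / (4 * N * W) := by positivity
  obtain ⟨G, hG, hcard, hgood⟩ := prune2 (fun t => Nat.pair (u t) (cu t))
    (fun t => Nat.pair (v t) (cv t)) m0 m0 P.card P le_rfl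
  refine ⟨G, hG, ?_, ?_⟩
  · have k : ∀ (u c : ι → ℕ), (∀ t ∈ P, M ≤ W * ((P.filter fun s => u s = u t).card : ℝ)) →
        (∀ t ∈ P, (((P.filter fun s => u s = u t).image c).card : ℝ) ≤ N) →
        M / (4 * N * W) * ((P.image fun t => Nat.pair (u t) (c t)).card : ℝ) ≤ (P.card : ℝ) / 4 := by
      intro u c h1 h2
      have e1 := classes_le P u h1
      have e2 := cells_le P u c h2
      have e3 : M / (4 * N * W) * ((P.image fun t => Nat.pair (u t) (c t)).card : ℝ) ≤
          M / (4 * N * W) * (N * ((P.image u).card : ℝ)) := mul_le_mul_of_nonneg_left e2 m0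
      refine e3.trans ?_
      have e4 : M / (4 * N * W) * (N * ((P.image u).card : ℝ)) =
          ((P.image u).card : ℝ) * M / (4 * W) := by
        field_simp
      rw [e4, div_le_div_iff₀ (by positivity) (by norm_num)]
      nlinarith
    have k1 := k u cu fu nu
    have k2 := k v cv fv nv
    linarith
  · intro t ht
    obtain ⟨g1, g2⟩ := hgood t ht
    rw [div_le_iff₀ (by positivity)] at g1 g2
    exact ⟨by linarith, by linarith⟩

end Crest.Agent.R136.Rf877
end

-- ▼ part R136/Rft_877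

/-!
# R136, PLAN 2 (AL): refinement of the classes of `Two1` by tubes (helper877)

`refine2` : the classes of both systems are cut into cells (lines which are within `1 / m` of each
other, in units of the sheet, over the whole cell `[z0, z0 + ρ]`), and half of the lines are kept such
that every remaining cell is full up to `4 (3 m)^4 W`. `Two1` is preserved with this deficit.
-/

set_option autoImplicit false
set_option linter.unusedVariables false

open Finset

namespace Crest.Agent.R136.Rf877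

open Crest.Agent.R136.Sh605
open Crest.Agent.R136.K4 (Plk4)
open Crest.Agent.R136.Tlt51 (Shp InP)
open Crest.Agent.R136.Tl102 (StP)
open Crest.Agent.R136.Pl2W102 (Near Ex2 Two1)
open Crest.Agent.R136.Phc248 (phC)

/-- the lines `s`, `t` are within `κ` of each other in the units of the sheet `S` -/
def Tub (S : Plk4) (κ : ℝ) (s t : Ln4) (z0 ρ : ℝ) : Prop :=
  ∀ z, z0 ≤ z → z ≤ z0 + ρ →
    |dt (S.e 1) (s.pos z - t.pos z)| ≤ κ * S.w 1 ∧ |dt (S.e 2) (s.pos z - t.pos z)| ≤ κ * S.w 2 ∧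
    |dt (S.e 0) (s.pos z - t.pos z)| ≤ 4 * (S.a + κ * S.w 0)

theorem Tub.symm {S : Plk4} {κ : ℝ} {s t : Ln4} {z0 ρ : ℝ} (h : Tub S κ s t z0 ρ) :
    Tub S κ t s z0 ρ := by
  intro z h1 h2
  obtain ⟨a, b, c⟩ := h z h1 h2
  have e : ∀ i, |dt (S.e i) (t.pos z - s.pos z)| = |dt (S.e i) (s.pos z - t.pos z)| := by
    intro i
    rw [dt_sub, dt_sub, abs_sub_comm]
  rw [e 1, e 2, e 0]
  exact ⟨a, b, c⟩

/-- integer code of the lateral position at the height `z` -/
noncomputable def cd (S : Plk4) (m : ℕ) (t : Ln4) (i : Fin 3) (z : ℝ) : ℤ :=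
  ⌊(m : ℝ) * (dt (S.e i) (t.pos z - S.c.pos z) / S.w i)⌋

/-- code of a line in a sheet -/
noncomputable def code (S : Plk4) (m : ℕ) (z0 ρ : ℝ) (t : Ln4) : ℕ :=
  Encodable.encode ((cd S m t 1 z0, cd S m t 1 (z0 + ρ)), (cd S m t 2 z0, cd S m t 2 (z0 + ρ)))

theorem cd_mem {S : Plk4} {m : ℕ} {t : Ln4} {i : Fin 3} {z : ℝ} (hw : 0 < S.w i)
    (h : |dt (S.e i) (t.pos z - S.c.pos z)| ≤ S.w i) :
    cd S m t i z ∈ Finset.Icc (-(m : ℤ)) (m : ℤ) := by
  have h1 : |dt (S.e i) (t.pos z - S.c.pos z) / S.w i| ≤ 1 := by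
    rw [abs_div, abs_of_pos hw, div_le_one hw]; exact h
  have m0 : (0:ℝ) ≤ m := Nat.cast_nonneg m
  rw [abs_le] at h1
  rw [Finset.mem_Icc, cd]
  constructor
  · rw [Int.le_floor]
    push_cast
    nlinarith
  · have : (m : ℝ) * (dt (S.e i) (t.pos z - S.c.pos z) / S.w i) ≤ (m : ℝ) := by nlinarith
    have h2 := Int.floor_le_floor this
    simpa using h2

theorem cd_close {S : Plk4} {m : ℕ} (hm : 1 ≤ m) {s t : Ln4} {i : Fin 3} {z : ℝ} (hw : 0 < S.w i)
    (h : cd S m s i z = cd S m t i z) :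
    |dt (S.e i) (s.pos z - t.pos z)| ≤ 1 / m * S.w i := by
  have m0 : (0:ℝ) < m := by exact_mod_cast hm
  have h1 := Int.abs_sub_lt_one_of_floor_eq_floor h
  have e1 : (m : ℝ) * (dt (S.e i) (s.pos z - S.c.pos z) / S.w i) -
      (m : ℝ) * (dt (S.e i) (t.pos z - S.c.pos z) / S.w i) =
      (m : ℝ) / S.w i * dt (S.e i) (s.pos z - t.pos z) := by
    have : dt (S.e i) (s.pos z - t.pos z) =
        dt (S.e i) (s.pos z - S.c.pos z) - dt (S.e i) (t.pos z - S.c.pos z) := by
      simp only [dt_sub]; ring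
    rw [this]; field_simp
  rw [e1, abs_mul, abs_of_pos (by positivity : (0:ℝ) < m / S.w i)] at h1
  rw [div_mul_eq_mul_div, div_lt_one hw] at h1
  rw [one_div, inv_mul_eq_div, le_div_iff₀ m0]
  linarith

/-- affine functions which are small at both ends -/
theorem aff_le {s t : Ln4} {x : V3} {z0 ρ z B : ℝ} (hρ : 0 < ρ) (h1 : z0 ≤ z) (h2 : z ≤ z0 + ρ)
    (ha : |dt x (s.pos z0 - t.pos z0)| ≤ B) (hb : |dt x (s.pos (z0 + ρ) - t.pos (z0 + ρ))| ≤ B) :
    |dt x (s.pos z - t.pos z)| ≤ B := by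
  have e : dt x (s.pos z - t.pos z) = (1 - (z - z0) / ρ) * dt x (s.pos z0 - t.pos z0) +
      (z - z0) / ρ * dt x (s.pos (z0 + ρ) - t.pos (z0 + ρ)) := by
    simp only [dt, Ln4.pos, Pi.sub_apply]
    field_simp
    ring
  have l0 : 0 ≤ (z - z0) / ρ := div_nonneg (by linarith) hρ.le
  have l1 : (z - z0) / ρ ≤ 1 := by rw [div_le_one hρ]; linarith
  rw [e]
  calc _ ≤ |(1 - (z - z0) / ρ) * dt x (s.pos z0 - t.pos z0)| +
        |(z - z0) / ρ * dt x (s.pos (z0 + ρ) - t.pos (z0 + ρ))| := abs_add_le _ _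
    _ ≤ (1 - (z - z0) / ρ) * B + (z - z0) / ρ * B := by
        rw [abs_mul, abs_mul, abs_of_nonneg (by linarith : 0 ≤ 1 - (z - z0) / ρ), abs_of_nonneg l0]
        exact add_le_add (mul_le_mul_of_nonneg_left ha (by linarith))
          (mul_le_mul_of_nonneg_left hb l0)
    _ = B := by ring

theorem tub_of_code {S : Plk4} {m : ℕ} (hm : 1 ≤ m) {s t : Ln4} {z0 ρ r : ℝ} (hρ : 0 < ρ)
    (hS : Shp S z0 ρ r) (hr : 0 < r) (hs : InP s S z0 ρ) (ht : InP t S z0 ρ)
    (h : code S m z0 ρ s = code S m z0 ρ t) : Tub S (1 / m) s t z0 ρ := by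
  have a0 : 0 < S.a := hr.trans_le hS.r0_le
  have w0 : 0 < S.w 0 := a0.trans_le hS.a_le0
  have w2 : 0 < S.w 2 := w0.trans_le hS.w0_le
  have w1 : 0 < S.w 1 := w2.trans_le hS.w_le
  have h' := Encodable.encode_injective h
  simp only [Prod.mk.injEq] at h'
  obtain ⟨⟨k1, k2⟩, ⟨k3, k4⟩⟩ := h'
  have SP : StP S.e S.c S.w S.q z0 ρ := StP.of_shN hS w0
  intro z h1 h2
  have g1 := aff_le hρ h1 h2 (cd_close hm w1 k1) (cd_close hm w1 k2)
  have g2 := aff_le hρ h1 h2 (cd_close hm w2 k3) (cd_close hm w2 k4)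
  refine ⟨g1, g2, ?_⟩
  have dbl : ∀ u : Ln4, InK S.e S.c S.w z (u.pos z) → InK S.e S.c (dbl3 S.w) z (u.pos z) := by
    intro u hu i
    refine (hu i).trans ?_
    have : 0 ≤ S.w i := by fin_cases i <;> [exact w0.le; exact w1.le; exact w2.le]
    simp only [dbl3]; linarith
  obtain ⟨p1, p2⟩ := hs z h1 h2
  obtain ⟨q1, q2⟩ := ht z h1 h2
  have P := (SP.path h1 h2 (dbl t q1) (dbl s p1)).2
  refine P.trans ?_
  have m0 : (0:ℝ) < m := by exact_mod_cast hm
  have e1 : S.w 0 / S.w 1 * |dt (S.e 1) (s.pos z - t.pos z)| ≤ 1 / m * S.w 0 := by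
    calc _ ≤ S.w 0 / S.w 1 * (1 / m * S.w 1) := mul_le_mul_of_nonneg_left g1 (by positivity)
      _ = _ := by field_simp
  have e2 : S.w 0 / S.w 2 * |dt (S.e 2) (s.pos z - t.pos z)| ≤ 1 / m * S.w 0 := by
    calc _ ≤ S.w 0 / S.w 2 * (1 / m * S.w 2) := mul_le_mul_of_nonneg_left g2 (by positivity)
      _ = _ := by field_simp
  have e3 : |S.q z (s.pos z) - S.q z (t.pos z)| ≤ 2 * S.a := by
    have := abs_sub (S.q z (s.pos z)) (S.q z (t.pos z))
    linarith
  linarith

theorem code_mem {S : Plk4} {m : ℕ} {t : Ln4} {z0 ρ r : ℝ} (hρ : 0 < ρ) (hr : 0 < r)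
    (hS : Shp S z0 ρ r) (ht : InP t S z0 ρ) :
    code S m z0 ρ t ∈ (((Finset.Icc (-(m : ℤ)) m ×ˢ Finset.Icc (-(m : ℤ)) m) ×ˢ
      (Finset.Icc (-(m : ℤ)) m ×ˢ Finset.Icc (-(m : ℤ)) m)).image Encodable.encode) := by
  have a0 : 0 < S.a := hr.trans_le hS.r0_le
  have w0 : 0 < S.w 0 := a0.trans_le hS.a_le0
  have w2 : 0 < S.w 2 := w0.trans_le hS.w0_le
  have w1 : 0 < S.w 1 := w2.trans_le hS.w_le
  have l0 := (ht z0 le_rfl (by linarith)).1
  have l1 := (ht (z0 + ρ) (by linarith) le_rfl).1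
  refine mem_image.2 ⟨_, ?_, rfl⟩
  simp only [mem_product]
  exact ⟨⟨cd_mem w1 (l0 1), cd_mem w1 (l1 1)⟩, ⟨cd_mem w2 (l0 2), cd_mem w2 (l1 2)⟩⟩

theorem box_card (m : ℕ) (hm : 1 ≤ m) :
    (((((Finset.Icc (-(m : ℤ)) m ×ˢ Finset.Icc (-(m : ℤ)) m) ×ˢ
      (Finset.Icc (-(m : ℤ)) m ×ˢ Finset.Icc (-(m : ℤ)) m)).image
        (Encodable.encode : (ℤ × ℤ) × (ℤ × ℤ) → ℕ)).card : ℕ) : ℝ) ≤ (3 * (m : ℝ)) ^ 4 := by
  have h1 := card_image_le (s := ((Finset.Icc (-(m : ℤ)) m ×ˢ Finset.Icc (-(m : ℤ)) m) ×ˢ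
      (Finset.Icc (-(m : ℤ)) m ×ˢ Finset.Icc (-(m : ℤ)) m)))
      (f := (Encodable.encode : (ℤ × ℤ) × (ℤ × ℤ) → ℕ))
  rw [card_product, card_product, Int.card_Icc] at h1
  have h2 : ((m : ℤ) + 1 - -(m : ℤ)).toNat = 2 * m + 1 := by omega
  rw [h2] at h1
  have h3 : ((((((Finset.Icc (-(m : ℤ)) m ×ˢ Finset.Icc (-(m : ℤ)) m) ×ˢ
      (Finset.Icc (-(m : ℤ)) m ×ˢ Finset.Icc (-(m : ℤ)) m)).image
        (Encodable.encode : (ℤ × ℤ) × (ℤ × ℤ) → ℕ)).card : ℕ) : ℝ)) ≤
        (2 * (m : ℝ) + 1) * (2 * m + 1) * ((2 * m + 1) * (2 * m + 1)) := by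
    exact_mod_cast h1
  refine h3.trans ?_
  have m1 : (1:ℝ) ≤ m := by exact_mod_cast hm
  have e : (2 * (m : ℝ) + 1) * (2 * m + 1) * ((2 * m + 1) * (2 * m + 1)) = (2 * (m:ℝ) + 1) ^ 4 := by
    ring
  rw [e]
  exact pow_le_pow_left₀ (by positivity) (by linarith) 4

open Classical in
/-- **refinement of `Two1` by tubes** -/
theorem refine2 {qm qp : Fin 3 → ℝ} {L : ℕ → Ln4} {P : Finset ℕ} {cu cv : ℕ → ℕ}
    {Uf Vf : ℕ → Plk4} {W M a w1 w2 z0 ρ r : ℝ} (hq : ∀ k, 0 ≤ qm k ∧ qm k ≤ qp k)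
    (h : Two1 qm qp L P cu cv Uf Vf W M a w1 w2 z0 ρ r) (m : ℕ) (hm : 1 ≤ m) :
    ∃ P' ⊆ P, (P.card : ℝ) ≤ 2 * (P'.card : ℝ) ∧ ∃ du dv : ℕ → ℕ,
      (∀ t, (Nat.unpair (du t)).1 = cu t) ∧ (∀ t, (Nat.unpair (dv t)).1 = cv t) ∧
      Two1 qm qp L P' du dv (fun k => Uf (Nat.unpair k).1) (fun k => Vf (Nat.unpair k).1)
        (4 * (3 * (m : ℝ)) ^ 4 * W) M a w1 w2 z0 ρ r ∧
      (∀ s ∈ P, ∀ t ∈ P, du s = du t → cu s = cu t ∧ Tub (Uf (cu t)) (1 / m) (L s) (L t) z0 ρ) ∧
      (∀ s ∈ P, ∀ t ∈ P, dv s = dv t → cv s = cv t ∧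
        Tub (Vf (cv t)) (1 / m) (L s) (L t) z0 ρ) := by
  set kU : ℕ → ℕ := fun t => code (Uf (cu t)) m z0 ρ (L t) with hkU
  set kV : ℕ → ℕ := fun t => code (Vf (cv t)) m z0 ρ (L t) with hkV
  have m0 : (1:ℝ) ≤ m := by exact_mod_cast hm
  have N0 : (0:ℝ) < (3 * (m : ℝ)) ^ 4 := by positivity
  have W0 : 0 < W := lt_of_lt_of_le one_pos h.W1
  obtain ⟨P', hP', hcard, hfull⟩ := refine_abs P cu cv kU kV h.M0 W0 N0 h.fullU h.fullV
    (by
      intro t ht
      refine le_trans ?_ (box_card m hm)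
      have : ((P.filter fun s => cu s = cu t).image kU) ⊆
          (((Finset.Icc (-(m : ℤ)) m ×ˢ Finset.Icc (-(m : ℤ)) m) ×ˢ
      (Finset.Icc (-(m : ℤ)) m ×ˢ Finset.Icc (-(m : ℤ)) m)).image
        (Encodable.encode : (ℤ × ℤ) × (ℤ × ℤ) → ℕ)) := by
        intro x hx
        obtain ⟨s, hs, rfl⟩ := mem_image.1 hx
        have hsP := (mem_filter.1 hs).1
        exact code_mem h.ρ0 h.r0 (h.shU s hsP) (h.inU s hsP)
      exact_mod_cast card_le_card this)
    (by
      intro t ht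
      refine le_trans ?_ (box_card m hm)
      have : ((P.filter fun s => cv s = cv t).image kV) ⊆
          (((Finset.Icc (-(m : ℤ)) m ×ˢ Finset.Icc (-(m : ℤ)) m) ×ˢ
      (Finset.Icc (-(m : ℤ)) m ×ˢ Finset.Icc (-(m : ℤ)) m)).image
        (Encodable.encode : (ℤ × ℤ) × (ℤ × ℤ) → ℕ)) := by
        intro x hx
        obtain ⟨s, hs, rfl⟩ := mem_image.1 hx
        have hsP := (mem_filter.1 hs).1
        exact code_mem h.ρ0 h.r0 (h.shV s hsP) (h.inV s hsP)
      exact_mod_cast card_le_card this)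
  refine ⟨P', hP', hcard, fun t => Nat.pair (cu t) (kU t), fun t => Nat.pair (cv t) (kV t), ?_, ?_,
    ?_, ?_, ?_⟩
  · intro t; simp
  · intro t; simp
  · have hW1 : W ≤ 4 * (3 * (m : ℝ)) ^ 4 * W := by
      have : (1:ℝ) ≤ (3 * (m : ℝ)) ^ 4 := one_le_pow₀ (by linarith)
      nlinarith
    have nr : ∀ {x y : ℝ}, 0 ≤ x → 0 ≤ y → Near W x y → Near (4 * (3 * (m : ℝ)) ^ 4 * W) x y := by
      intro x y hx hy hn
      exact ⟨hn.1.trans (mul_le_mul_of_nonneg_right hW1 hy),
        hn.2.trans (mul_le_mul_of_nonneg_right hW1 hx)⟩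
    have posS : ∀ {S : Plk4}, Shp S z0 ρ r → 0 ≤ S.a ∧ 0 ≤ S.w 1 ∧ 0 ≤ S.w 2 := by
      intro S hS
      have a0 : 0 < S.a := h.r0.trans_le hS.r0_le
      have w0 : 0 < S.w 0 := a0.trans_le hS.a_le0
      have w2 : 0 < S.w 2 := w0.trans_le hS.w0_le
      exact ⟨a0.le, (w2.trans_le hS.w_le).le, w2.le⟩
    exact
      { W1 := h.W1.trans hW1
        M0 := h.M0
        r0 := h.r0
        ρ0 := h.ρ0
        a0 := h.a0
        w10 := h.w10
        w20 := h.w20
        w1ρ := h.w1ρ.trans (mul_le_mul_of_nonneg_right hW1 h.ρ0.le)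
        lg := h.lg.trans hW1
        vel := fun t ht => h.vel t (hP' ht)
        shU := fun t ht => by simpa using h.shU t (hP' ht)
        shV := fun t ht => by simpa using h.shV t (hP' ht)
        inU := fun t ht => by simpa using h.inU t (hP' ht)
        inV := fun t ht => by simpa using h.inV t (hP' ht)
        dimU := fun t ht => by
          obtain ⟨d1, d2, d3⟩ := h.dimU t (hP' ht)
          obtain ⟨p1, p2, p3⟩ := posS (h.shU t (hP' ht))
          simp only [Nat.unpair_pair]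
          exact ⟨nr h.a0.le p1 d1, nr h.w10.le p2 d2, nr h.w20.le p3 d3⟩
        dimV := fun t ht => by
          obtain ⟨d1, d2, d3⟩ := h.dimV t (hP' ht)
          obtain ⟨p1, p2, p3⟩ := posS (h.shV t (hP' ht))
          simp only [Nat.unpair_pair]
          exact ⟨nr h.a0.le p1 d1, nr h.w10.le p2 d2, nr h.w20.le p3 d3⟩
        fullU := fun t ht => (hfull t ht).1
        fullV := fun t ht => (hfull t ht).2
        dmax := fun S hS hSρ => by
          have k1 := h.dmax S hS hSρ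
          have k2 : ((P'.filter fun t => InP (L t) S z0 ρ).card : ℝ) ≤
              ((P.filter fun t => InP (L t) S z0 ρ).card : ℝ) := by
            exact_mod_cast card_le_card (filter_subset_filter _ hP')
          refine (k2.trans k1).trans ?_
          obtain ⟨p1, p2, p3⟩ := posS hS
          have k3 := Phc248.phC_nonneg (qm := qm) (qp := qp) h.a0.le h.w10.le h.w20.le p1 p2 p3
          exact mul_le_mul_of_nonneg_right (mul_le_mul_of_nonneg_right hW1 h.M0.le) k3 }
  · intro s hs t ht hst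
    simp only [Nat.pair_eq_pair] at hst
    obtain ⟨h1, h2⟩ := hst
    refine ⟨h1, ?_⟩
    have h2' : code (Uf (cu t)) m z0 ρ (L s) = code (Uf (cu t)) m z0 ρ (L t) := by
      have : kU s = kU t := h2
      simp only [hkU, h1] at this
      exact this
    exact tub_of_code hm h.ρ0 (h.shU t ht) h.r0 (by have := h.inU s hs; rwa [h1] at this)
      (h.inU t ht) h2'
  · intro s hs t ht hst
    simp only [Nat.pair_eq_pair] at hst
    obtain ⟨h1, h2⟩ := hst
    refine ⟨h1, ?_⟩
    have h2' : code (Vf (cv t)) m z0 ρ (L s) = code (Vf (cv t)) m z0 ρ (L t) := by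
      have : kV s = kV t := h2
      simp only [hkV, h1] at this
      exact this
    exact tub_of_code hm h.ρ0 (h.shV t ht) h.r0 (by have := h.inV s hs; rwa [h1] at this)
      (h.inV t ht) h2'

end Crest.Agent.R136.Rf877
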