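import Crest.Agent.R136.Asm1_102

-- ▼ part R136/Asm3_102

/-!
# R136 (S0187), U5: finite lemmas for the last assembly of the tilt block III (helper102)

* `AgreeQ` : `Agree` and closeness of coefficients unless the short axis is thin;
* `exists_lam`, `compC_of`, `compC_mono` : the dyadic base tilt;
* `coin_triv` : coincidence at the trivial scale;
* `hcap_tilt`, `hcap_curv` : the capture hypothesis of `tilt_num`, cases (i) and (ii);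
* `tiltOK_of`, `tiltOKP_of` : the conclusion.
-/

set_option autoImplicit false

namespace Crest.Agent.R136.Tl102

open Crest.Agent.R136.Sh605
open Crest.Agent.R136.K4 (Plk4)
open Crest.Agent.R136.Top484 (Dat4)
open Crest.Agent.R136.Deep51 (CoinC CloseC dt_exp)
open Crest.Agent.R136.Tlt51 (CompC Agree Shp InP mk4 zx rh TiltOKC)
open Crest.Agent.R136.KapP335
open Crest.Agent.R136.Cps605

/-! ### `AgreeQ` -/

theorem PolyC.mono {E E' : ℝ} {S S' : Plk4} {T : Ln4} {z0 ρ : ℝ} (h : PolyC E S S' T z0 ρ)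
    (hE : E ≤ E') : PolyC E' S S' T z0 ρ := by
  intro b0 b1 G b0' b1' G' h1 h2
  obtain ⟨k1, k2, X, k3, k4⟩ := h b0 b1 G b0' b1' G' h1 h2
  exact ⟨k1, k2, X, k3.trans hE, k4⟩

/-- `Agree` and closeness of the coefficients, unless the short axis is thin -/
structure AgreeQ (A E s lam : ℝ) (S S' : Plk4) (T : Ln4) (z0 ρ : ℝ) : Prop
    extends Agree A E s lam S S' T z0 ρ where
  poly : PolyC E S S' T z0 ρ ∨ S.w 2 ≤ E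

theorem AgreeP.toQ {A E s lam : ℝ} {S S' : Plk4} {T : Ln4} {z0 ρ : ℝ}
    (h : AgreeP A E s lam S S' T z0 ρ) : AgreeQ A E s lam S S' T z0 ρ :=
  ⟨h.toAgree, Or.inl h.poly⟩


/-- monotonicity of `AgreeQ` -/
theorem agreeQ_mono {A A' E E' s s' lam : ℝ} {S S' : Plk4} {T : Ln4} {z0 ρ : ℝ}
    (h : AgreeQ A E s lam S S' T z0 ρ) (hA : A ≤ A') (hE : E ≤ E') (hs : s' ≤ s) (hlam : 0 < lam)
    (hw : ∀ k, 0 ≤ S.w k) : AgreeQ A' E' s' lam S S' T z0 ρ :=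
  ⟨agree_mono h.toAgree hA hE hs hlam hw, h.poly.imp (fun h => h.mono hE) fun h => h.trans hE⟩

/-! ### the base tilt -/

theorem angC_nonneg (S S' : Plk4) : 0 ≤ angC S S' :=
  (abs_nonneg _).trans ((le_max_left _ _).trans (le_max_left _ _))


theorem le_angC (S S' : Plk4) {i : Fin 3} (hi : i ≠ 1) : |dt (S.e 1) (S'.e i)| ≤ angC S S' := by
  fin_cases i
  · exact (le_max_left _ _).trans (le_max_left _ _)
  · exact absurd rfl hi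
  · exact (le_max_right _ _).trans (le_max_left _ _)

theorem le_angC' (S S' : Plk4) {i : Fin 3} (hi : i ≠ 1) : |dt (S.e i) (S'.e 1)| ≤ angC S S' := by
  fin_cases i
  · exact (le_max_left _ _).trans (le_max_right _ _)
  · exact absurd rfl hi
  · exact (le_max_right _ _).trans (le_max_right _ _)

theorem compC_of {S S' : Plk4} {B lam : ℝ}
    (hw : ∀ i, i ≠ 0 → S.w i ≤ B * S'.w i ∧ S'.w i ≤ B * S.w i)
    (ha : S.a ≤ B * S'.a ∧ S'.a ≤ B * S.a) (hw1 : 0 ≤ S.w 1)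
    (hlam : angC S S' * S.w 1 ≤ lam * S.w 2) : CompC B lam S S' where
  w := hw
  a := ha
  g := fun i hi => (mul_le_mul_of_nonneg_right (le_angC S S' hi) hw1).trans hlam
  g' := fun i hi => (mul_le_mul_of_nonneg_right (le_angC' S S' hi) hw1).trans hlam




/-! ### coincidence at the trivial scale -/


/-! ### capture -/


/-- **case (ii)**: the capture hypothesis from the curvature of the base sheet -/
theorem hcap_curv : ∃ C1 : ℝ, 1 ≤ C1 ∧ ∃ N : ℕ, 1 ≤ N ∧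
    ∀ (θ lam A E s s' : ℝ) (S S' : Plk4) (T : Ln4) (z0 ρ z1 ρ1 z2 ρ2 r : ℝ),
    0 < θ → C1 * θ ≤ 1 → 1 ≤ lam → lam * θ ≤ 1 → 0 < r → 0 < ρ →
    z1 ≤ z0 → z0 + ρ ≤ z1 + ρ1 → θ * ρ1 ≤ ρ → z2 ≤ z0 → z0 + ρ ≤ z2 + ρ2 → θ * ρ2 ≤ ρ →
    Shp S z1 ρ1 r → Shp S' z2 ρ2 r → CompC θ⁻¹ lam S S' → InP T S z1 ρ1 → InP T S' z2 ρ2 →
    θ ^ (-C1) * (S.a + S'.a) ≤ kapP S z1 ρ1 T → DetP θ S z1 ρ1 T → C1 * (S.a + S'.a) ≤ A →
    s ≤ θ ^ C1 → s' ≤ θ ^ C1 → θ ^ (-C1) * (S.a + S'.a) ≤ E →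
    ¬ AgreeQ A E s' lam S S' T z0 ρ →
    ∃ c : Fin 2 → ℝ, ∀ ζ, z0 ≤ ζ → ζ ≤ z0 + ρ → (∀ i, θ * ρ ≤ |ζ - c i|) →
      ∃ V : Fin N → V3, ∀ t : Ln4, InP t S z1 ρ1 → InP t S' z2 ρ2 →
        |dt (S.e 1) (t.pos ζ - T.pos ζ)| ≤ s * S.w 1 →
        |dt (S.e 2) (t.pos ζ - T.pos ζ)| ≤ s * S.w 2 →
          ∃ l, |dt (S.e 1) (t.v - V l)| * ρ ≤ θ * S.w 1 ∧
            |dt (S.e 2) (t.v - V l)| * ρ ≤ lam * θ * S.w 2 := by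
  obtain ⟨C1, h1, N, hN, h⟩ := capP
  refine ⟨C1, h1, N, hN, ?_⟩
  intro θ lam A E s s' S S' T z0 ρ z1 ρ1 z2 ρ2 r hθ g2 g3 g4 hr hρ g7 g8 g9 g10 g11 g12 hS hS' g15
    g16 g17 g18 g19 g20 hs hs' hE hnot
  have hw0 : 0 < S.w 0 := hr.trans_le (hS.r0_le.trans hS.a_le0)
  have P := StP.of_shN hS hw0
  obtain ⟨c, hc⟩ := h θ lam A S S' T z0 ρ z1 ρ1 z2 ρ2 r hθ g2 g3 g4 hr hρ g7 g8 g9 g10 g11 g12 hS
    hS' g15 g16 g17 g18 g19 g20 fun hA => hnot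
      (agreeQ_mono hA.toQ le_rfl hE hs' (by linarith) fun k => (P.pos k).le)
  refine ⟨c, fun ζ a b d => ?_⟩
  obtain ⟨V, hV⟩ := hc ζ a b d
  refine ⟨V, fun t ht ht' k1 k2 => ?_⟩
  obtain ⟨l, l1, l2⟩ := hV t ht ht'
    (k1.trans (mul_le_mul_of_nonneg_right hs (P.pos 1).le))
    (k2.trans (mul_le_mul_of_nonneg_right hs (P.pos 2).le))
  refine ⟨l, l1, l2.trans ?_⟩
  apply mul_le_mul_of_nonneg_right _ (P.pos 2).le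
  exact le_mul_of_one_le_left hθ.le g3

/-- **case (ii)**, with `Agree` -/
theorem hcap_curv' : ∃ C1 : ℝ, 1 ≤ C1 ∧ ∃ N : ℕ, 1 ≤ N ∧
    ∀ (θ lam A E s s' : ℝ) (S S' : Plk4) (T : Ln4) (z0 ρ z1 ρ1 z2 ρ2 r : ℝ),
    0 < θ → C1 * θ ≤ 1 → 1 ≤ lam → lam * θ ≤ 1 → 0 < r → 0 < ρ →
    z1 ≤ z0 → z0 + ρ ≤ z1 + ρ1 → θ * ρ1 ≤ ρ → z2 ≤ z0 → z0 + ρ ≤ z2 + ρ2 → θ * ρ2 ≤ ρ →
    Shp S z1 ρ1 r → Shp S' z2 ρ2 r → CompC θ⁻¹ lam S S' → InP T S z1 ρ1 → InP T S' z2 ρ2 →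
    θ ^ (-C1) * (S.a + S'.a) ≤ kapP S z1 ρ1 T → DetP θ S z1 ρ1 T → C1 * (S.a + S'.a) ≤ A →
    s ≤ θ ^ C1 → s' ≤ θ ^ C1 → θ ^ (-C1) * (S.a + S'.a) ≤ E →
    ¬ Agree A E s' lam S S' T z0 ρ →
    ∃ c : Fin 2 → ℝ, ∀ ζ, z0 ≤ ζ → ζ ≤ z0 + ρ → (∀ i, θ * ρ ≤ |ζ - c i|) →
      ∃ V : Fin N → V3, ∀ t : Ln4, InP t S z1 ρ1 → InP t S' z2 ρ2 →
        |dt (S.e 1) (t.pos ζ - T.pos ζ)| ≤ s * S.w 1 →
        |dt (S.e 2) (t.pos ζ - T.pos ζ)| ≤ s * S.w 2 →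
          ∃ l, |dt (S.e 1) (t.v - V l)| * ρ ≤ θ * S.w 1 ∧
            |dt (S.e 2) (t.v - V l)| * ρ ≤ lam * θ * S.w 2 := by
  obtain ⟨C1, h1, N, hN, h⟩ := hcap_curv
  refine ⟨C1, h1, N, hN, ?_⟩
  intro θ lam A E s s' S S' T z0 ρ z1 ρ1 z2 ρ2 r g1 g2 g3 g4 g5 g6 g7 g8 g9 g10 g11 g12 g13 g14 g15
    g16 g17 g18 g19 g20 g21 g22 g23 g24
  exact h θ lam A E s s' S S' T z0 ρ z1 ρ1 z2 ρ2 r g1 g2 g3 g4 g5 g6 g7 g8 g9 g10 g11 g12 g13 g14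
    g15 g16 g17 g18 g19 g20 g21 g22 g23 fun hA => g24 hA.toAgree

/-! ### the conclusion -/



end Crest.Agent.R136.Tl102
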