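import Mathlib
import Crest.Agent.R136.Pl2Def_860
import Crest.Agent.R136.Rft_877
import Crest.Agent.R136.Pl2C_860
import Crest.Agent.R136.Asm3_102

-- ▼ part R136/Pop_615
section

/-! # Popular label + double pruning (finite)

`popular`: pigeonhole over a finite label set. `prune2`: every subfamily which is not too thin against
the number of classes of two partitions contains a subfamily, of half the size, all of whose classes
(of both partitions) are full. `classes_le`: number of classes from the fullness. `pop_full` and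
`pop_full_log` : popular label (arbitrary finite label set; dyadic value of a real function with
`log ≤ W`) + double pruning. -/

namespace Crest.Agent.R136.Pop615

open Finset

variable {ι α β γ : Type*}

/-- Pigeonhole over the labels which occur. -/
theorem popular [DecidableEq γ] (P : Finset ι) (lab : ι → γ) (hP : P.Nonempty) :
    ∃ b ∈ P.image lab, (P.card : ℝ) ≤ ((P.image lab).card : ℝ) * ((P.filter fun t => lab t = b).card : ℝ) := by
  classical
  by_contra hcon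
  push Not at hcon
  have hne : (P.image lab).Nonempty := hP.image lab
  have h1 : P.card = ∑ b ∈ P.image lab, (P.filter fun t => lab t = b).card :=
    Finset.card_eq_sum_card_image lab P
  have h2 : (P.card : ℝ) = ∑ b ∈ P.image lab, ((P.filter fun t => lab t = b).card : ℝ) := by
    exact_mod_cast h1
  have hpos : (0 : ℝ) < ((P.image lab).card : ℝ) := by
    exact_mod_cast Finset.card_pos.mpr hne
  have h3 : ∑ b ∈ P.image lab, ((P.image lab).card : ℝ) * ((P.filter fun t => lab t = b).card : ℝ) <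
      ∑ b ∈ P.image lab, (P.card : ℝ) :=
    Finset.sum_lt_sum_of_nonempty hne fun b hb => hcon b hb
  rw [← Finset.mul_sum, ← h2, Finset.sum_const, nsmul_eq_mul] at h3
  exact lt_irrefl _ h3

/-- Double pruning. -/
theorem prune2 [DecidableEq ι] [DecidableEq α] [DecidableEq β] (Q : Finset ι) (cu : ι → α) (cv : ι → β)
    {τ : ℝ} (h : 2 * (τ * ((Q.image cu).card + (Q.image cv).card)) ≤ Q.card) :
    ∃ P' ⊆ Q, (Q.card : ℝ) ≤ 2 * P'.card ∧ ∀ t ∈ P',
      τ ≤ ((P'.filter fun s => cu s = cu t).card : ℝ) ∧ τ ≤ ((P'.filter fun s => cv s = cv t).card : ℝ) := by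
  classical
  let f : Finset ι → ℝ := fun S => (S.card : ℝ) - τ * ((S.image cu).card + (S.image cv).card)
  obtain ⟨S, hS, hmax⟩ := Finset.exists_max_image Q.powerset f ⟨Q, Finset.mem_powerset_self Q⟩
  rw [Finset.mem_powerset] at hS
  have hfQ : f Q ≤ f S := hmax Q (Finset.mem_powerset_self Q)
  have hτ : ∀ t ∈ S, τ ≤ ((S.filter fun s => cu s = cu t).card : ℝ) ∧
      τ ≤ ((S.filter fun s => cv s = cv t).card : ℝ) := by
    intro t ht
    by_cases hτ0 : τ ≤ 0
    · exact ⟨hτ0.trans (by positivity), hτ0.trans (by positivity)⟩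
    push Not at hτ0
    constructor
    · by_contra hlt
      push Not at hlt
      set S' := S.filter fun s => cu s ≠ cu t with hS'
      have hsub : S' ⊆ S := Finset.filter_subset _ _
      have h1 : f S' ≤ f S := hmax S' (Finset.mem_powerset.mpr (hsub.trans hS))
      have hc : (S.card : ℝ) = (S.filter fun s => cu s = cu t).card + S'.card := by
        have := Finset.card_filter_add_card_filter_not (s := S) (fun s => cu s = cu t)
        rw [hS']
        exact_mod_cast this.symm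
      have hiu : ((S'.image cu).card : ℝ) + 1 ≤ (S.image cu).card := by
        have hsub2 : S'.image cu ⊆ (S.image cu).erase (cu t) := by
          intro c hc'
          rw [Finset.mem_image] at hc'
          obtain ⟨s, hs, rfl⟩ := hc'
          rw [hS', Finset.mem_filter] at hs
          exact Finset.mem_erase.mpr ⟨hs.2, Finset.mem_image_of_mem cu hs.1⟩
        have h2 := Finset.card_le_card hsub2
        have hmem : cu t ∈ S.image cu := Finset.mem_image_of_mem cu ht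
        rw [Finset.card_erase_of_mem hmem] at h2
        have h3 : 0 < (S.image cu).card := Finset.card_pos.mpr ⟨_, hmem⟩
        have h4 : (S'.image cu).card + 1 ≤ (S.image cu).card := by omega
        exact_mod_cast h4
      have hiv : ((S'.image cv).card : ℝ) ≤ (S.image cv).card := by
        exact_mod_cast Finset.card_le_card (Finset.image_subset_image hsub)
      have hS'f : f S' = (S'.card : ℝ) - τ * ((S'.image cu).card + (S'.image cv).card) := rfl
      have hSf : f S = (S.card : ℝ) - τ * ((S.image cu).card + (S.image cv).card) := rfl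
      have h5 : τ * (((S'.image cu).card : ℝ) + (S'.image cv).card) + τ ≤
          τ * ((S.image cu).card + (S.image cv).card) := by nlinarith
      rw [hS'f, hSf] at h1
      linarith
    · by_contra hlt
      push Not at hlt
      set S' := S.filter fun s => cv s ≠ cv t with hS'
      have hsub : S' ⊆ S := Finset.filter_subset _ _
      have h1 : f S' ≤ f S := hmax S' (Finset.mem_powerset.mpr (hsub.trans hS))
      have hc : (S.card : ℝ) = (S.filter fun s => cv s = cv t).card + S'.card := by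
        have := Finset.card_filter_add_card_filter_not (s := S) (fun s => cv s = cv t)
        rw [hS']
        exact_mod_cast this.symm
      have hiv : ((S'.image cv).card : ℝ) + 1 ≤ (S.image cv).card := by
        have hsub2 : S'.image cv ⊆ (S.image cv).erase (cv t) := by
          intro c hc'
          rw [Finset.mem_image] at hc'
          obtain ⟨s, hs, rfl⟩ := hc'
          rw [hS', Finset.mem_filter] at hs
          exact Finset.mem_erase.mpr ⟨hs.2, Finset.mem_image_of_mem cv hs.1⟩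
        have h2 := Finset.card_le_card hsub2
        have hmem : cv t ∈ S.image cv := Finset.mem_image_of_mem cv ht
        rw [Finset.card_erase_of_mem hmem] at h2
        have h3 : 0 < (S.image cv).card := Finset.card_pos.mpr ⟨_, hmem⟩
        have h4 : (S'.image cv).card + 1 ≤ (S.image cv).card := by omega
        exact_mod_cast h4
      have hiu : ((S'.image cu).card : ℝ) ≤ (S.image cu).card := by
        exact_mod_cast Finset.card_le_card (Finset.image_subset_image hsub)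
      have hS'f : f S' = (S'.card : ℝ) - τ * ((S'.image cu).card + (S'.image cv).card) := rfl
      have hSf : f S = (S.card : ℝ) - τ * ((S.image cu).card + (S.image cv).card) := rfl
      have h5 : τ * (((S'.image cu).card : ℝ) + (S'.image cv).card) + τ ≤
          τ * ((S.image cu).card + (S.image cv).card) := by nlinarith
      rw [hS'f, hSf] at h1
      linarith
  refine ⟨S, hS, ?_, hτ⟩
  by_cases hτ0 : 0 ≤ τ
  · have hSf : f S = (S.card : ℝ) - τ * ((S.image cu).card + (S.image cv).card) := rfl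
    have hQf : f Q = (Q.card : ℝ) - τ * ((Q.image cu).card + (Q.image cv).card) := rfl
    have h6 : 0 ≤ τ * (((S.image cu).card : ℝ) + (S.image cv).card) := by positivity
    rw [hSf, hQf] at hfQ
    linarith
  · push Not at hτ0
    -- then `f` is monotone in the number of classes; use `Q` itself
    have hSf : f S = (S.card : ℝ) - τ * ((S.image cu).card + (S.image cv).card) := rfl
    have hQf : f Q = (Q.card : ℝ) - τ * ((Q.image cu).card + (Q.image cv).card) := rfl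
    have h7 : ((S.image cu).card : ℝ) ≤ (Q.image cu).card := by
      exact_mod_cast Finset.card_le_card (Finset.image_subset_image hS)
    have h8 : ((S.image cv).card : ℝ) ≤ (Q.image cv).card := by
      exact_mod_cast Finset.card_le_card (Finset.image_subset_image hS)
    rw [hSf, hQf] at hfQ
    have h9 : τ * (((Q.image cu).card : ℝ) + (Q.image cv).card) ≤
        τ * ((S.image cu).card + (S.image cv).card) := by nlinarith
    have h10 : (0 : ℝ) ≤ S.card := by positivity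
    linarith

/-- The number of classes is bounded by fullness. -/
theorem classes_le [DecidableEq α] (P : Finset ι) (cu : ι → α) {M W : ℝ}
    (hfull : ∀ t ∈ P, M ≤ W * ((P.filter fun s => cu s = cu t).card : ℝ)) :
    M * ((P.image cu).card : ℝ) ≤ W * (P.card : ℝ) := by
  classical
  have h1 : P.card = ∑ b ∈ P.image cu, (P.filter fun t => cu t = b).card :=
    Finset.card_eq_sum_card_image cu P
  have h2 : (P.card : ℝ) = ∑ b ∈ P.image cu, ((P.filter fun t => cu t = b).card : ℝ) := by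
    exact_mod_cast h1
  rw [h2, Finset.mul_sum]
  calc M * ((P.image cu).card : ℝ) = ∑ _b ∈ P.image cu, M := by
        rw [Finset.sum_const, nsmul_eq_mul]; ring
    _ ≤ _ := Finset.sum_le_sum fun b hb => by
        rw [Finset.mem_image] at hb
        obtain ⟨t, ht, rfl⟩ := hb
        exact hfull t ht

/-- Popular subfamily + double pruning. -/
theorem full_sub [DecidableEq ι] [DecidableEq α] [DecidableEq β] {P Q : Finset ι} {cu : ι → α} {cv : ι → β}
    {M W L : ℝ} (hQP : Q ⊆ P) (hQ : Q.Nonempty) (hM : 0 < M) (hW : 0 < W) (hL : 0 < L)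
    (hu : ∀ t ∈ P, M ≤ W * ((P.filter fun s => cu s = cu t).card : ℝ))
    (hv : ∀ t ∈ P, M ≤ W * ((P.filter fun s => cv s = cv t).card : ℝ))
    (hPQ : (P.card : ℝ) ≤ L * Q.card) :
    ∃ P' ⊆ Q, P'.Nonempty ∧ (Q.card : ℝ) ≤ 2 * P'.card ∧ (P.card : ℝ) ≤ 2 * L * P'.card ∧ ∀ t ∈ P',
      M ≤ 4 * L * W * ((P'.filter fun s => cu s = cu t).card : ℝ) ∧
      M ≤ 4 * L * W * ((P'.filter fun s => cv s = cv t).card : ℝ) := by
  classical
  have h1 := classes_le P cu hu
  have h2 := classes_le P cv hv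
  have hiu : ((Q.image cu).card : ℝ) ≤ (P.image cu).card := by
    exact_mod_cast Finset.card_le_card (Finset.image_subset_image hQP)
  have hiv : ((Q.image cv).card : ℝ) ≤ (P.image cv).card := by
    exact_mod_cast Finset.card_le_card (Finset.image_subset_image hQP)
  have hLW : (0 : ℝ) < 4 * L * W := by positivity
  obtain ⟨P', hP'Q, hcard, hτ⟩ := prune2 Q cu cv (τ := M / (4 * L * W)) (by
    have h3 : M * (((Q.image cu).card : ℝ) + (Q.image cv).card) ≤ 2 * W * P.card := by nlinarith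
    have h4 : 2 * (M / (4 * L * W) * (((Q.image cu).card : ℝ) + (Q.image cv).card)) =
        (M * (((Q.image cu).card : ℝ) + (Q.image cv).card)) / (2 * L * W) := by
      field_simp; ring
    rw [h4, div_le_iff₀ (by positivity)]
    nlinarith)
  have hQc : (0 : ℝ) < Q.card := by exact_mod_cast Finset.card_pos.mpr hQ
  refine ⟨P', hP'Q, ?_, hcard, ?_, ?_⟩
  · rw [← Finset.card_pos]
    have : (0 : ℝ) < P'.card := by linarith
    exact_mod_cast this
  · nlinarith
  · intro t ht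
    obtain ⟨ha, hb⟩ := hτ t ht
    rw [div_le_iff₀ hLW] at ha hb
    constructor <;> nlinarith






end Crest.Agent.R136.Pop615
end

-- ▼ part R136/Alo_877
section

/-!
# R136, PLAN 2 (AL): last step (helper877)

* `TypA` : the part of `TypP` used in (AL), monotone in `K` and `W`;
* `two_sub`, `two_prune` : `Two1` passes to full subfamilies;
* `AlMixed` (case (A), the flatter sheet is much flatter), `AlBal` (case (B), comparable curvature
  extents), `al_top : AlMixed → AlBal → AL`.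
-/

set_option autoImplicit false
set_option linter.unusedVariables false

open Finset

namespace Crest.Agent.R136.Al877

open Crest.Agent.R136.Sh605 Crest.Agent.R136.Pl2
open Crest.Agent.R136.K4 (Plk4)
open Crest.Agent.R136.Tlt51 (Shp InP)
open Crest.Agent.R136.Phc248 (phC)
open Crest.Agent.R136.Deep51 (CloseC)
open Crest.Agent.R136.KapP335 (kapP DetP)
open Crest.Agent.R136.Tl102 (angC)
open Crest.Agent.R136.Pl2W102 (Near Ex2 Two1)

/-- facts at the lines used in (AL), monotone in `K` and `W` -/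
structure TypA (K W a : ℝ) (S S' : Plk4) (T : Ln4) (z0 ρ : ℝ) : Prop where
  big : K * a ≤ kp S z0 ρ T
  le : kp S' z0 ρ T ≤ kp S z0 ρ T
  det : W * a ≤ kp S z0 ρ T → DetP W⁻¹ S z0 ρ T
  det' : W * a ≤ kp S' z0 ρ T → DetP W⁻¹ S' z0 ρ T

theorem TypA.mono {K W K' W' a : ℝ} {S S' : Plk4} {T : Ln4} {z0 ρ : ℝ}
    (h : TypA K W a S S' T z0 ρ) (ha : 0 ≤ a) (hW0 : 0 < W) (hK : K' ≤ K) (hW : W ≤ W') :
    TypA K' W' a S S' T z0 ρ where
  big := (mul_le_mul_of_nonneg_right hK ha).trans h.big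
  le := h.le
  det := fun h1 => (h.det ((mul_le_mul_of_nonneg_right hW ha).trans h1)).mono
    (inv_anti₀ hW0 hW)
  det' := fun h1 => (h.det' ((mul_le_mul_of_nonneg_right hW ha).trans h1)).mono
    (inv_anti₀ hW0 hW)

theorem TypA.of_typP {K W a : ℝ} {S S' : Plk4} {T : Ln4} {z0 ρ : ℝ}
    (h : TypP K W a S S' T z0 ρ) : TypA K W a S S' T z0 ρ where
  big := h.big
  le := h.le
  det := h.typ.det
  det' := h.typ'.det

/-- alignment and closeness hypothesis of (AL) -/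
structure AlH (W w1 w2 : ℝ) (S S' : Plk4) (T : Ln4) (z0 ρ : ℝ) : Prop where
  ang : angC S S' * w1 ≤ W * w2
  close : CloseC S'.e S'.w S'.q S'.a S.q (W * kp S z0 ρ T) T z0 ρ

theorem closeC_mono {e : Fin 3 → V3} {w : V3} {q : ℝ → V3 → ℝ} {a : ℝ} {q' : ℝ → V3 → ℝ}
    {E E' : ℝ} {T : Ln4} {z0 ρ : ℝ} (h : CloseC e w q a q' E T z0 ρ) (hE : E ≤ E') :
    CloseC e w q a q' E' T z0 ρ :=
  fun z h1 h2 x hx hq => (h z h1 h2 x hx hq).trans hE

theorem AlH.mono {W W' w1 w2 : ℝ} {S S' : Plk4} {T : Ln4} {z0 ρ : ℝ}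
    (h : AlH W w1 w2 S S' T z0 ρ) (hw : 0 ≤ w2) (hk : 0 ≤ kp S z0 ρ T) (hW : W ≤ W') :
    AlH W' w1 w2 S S' T z0 ρ where
  ang := h.ang.trans (mul_le_mul_of_nonneg_right hW hw)
  close := closeC_mono h.close (mul_le_mul_of_nonneg_right hW hk)

theorem ex2_mono {η η' : ℝ} {qm qp : Fin 3 → ℝ} (h : Ex2 η qm qp) (hη : η ≤ η') :
    Ex2 η' qm qp :=
  ⟨h.le, h.pos, h.e02, h.e1,
    h.e00.trans (mul_le_mul_of_nonneg_right hη (by positivity)),
    h.e21.trans (mul_le_mul_of_nonneg_right hη (h.le 1).1)⟩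

section
variable {qm qp : Fin 3 → ℝ} {L : ℕ → Ln4} {P : Finset ℕ} {cu cv : ℕ → ℕ} {Uf Vf : ℕ → Plk4}
  {W M a w1 w2 z0 ρ r : ℝ}

open Classical in
/-- `Two1` passes to subfamilies which are full -/
theorem two_sub (h : Two1 qm qp L P cu cv Uf Vf W M a w1 w2 z0 ρ r) {P' : Finset ℕ} (hP : P' ⊆ P)
    {W' : ℝ} (hW : W ≤ W')
    (fu : ∀ t ∈ P', M ≤ W' * ((P'.filter fun s => cu s = cu t).card : ℝ))
    (fv : ∀ t ∈ P', M ≤ W' * ((P'.filter fun s => cv s = cv t).card : ℝ)) :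
    Two1 qm qp L P' cu cv Uf Vf W' M a w1 w2 z0 ρ r := by
  have nr : ∀ {x y : ℝ}, 0 ≤ x → 0 ≤ y → Near W x y → Near W' x y := by
    intro x y hx hy hn
    exact ⟨hn.1.trans (mul_le_mul_of_nonneg_right hW hy),
      hn.2.trans (mul_le_mul_of_nonneg_right hW hx)⟩
  have posS : ∀ {S : Plk4}, Shp S z0 ρ r → 0 ≤ S.a ∧ 0 ≤ S.w 1 ∧ 0 ≤ S.w 2 := by
    intro S hS
    have a0 : 0 < S.a := h.r0.trans_le hS.r0_le
    have w0 : 0 < S.w 0 := a0.trans_le hS.a_le0
    have w2 : 0 < S.w 2 := w0.trans_le hS.w0_le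
    exact ⟨a0.le, (w2.trans_le hS.w_le).le, w2.le⟩
  exact
    { W1 := h.W1.trans hW
      M0 := h.M0
      r0 := h.r0
      ρ0 := h.ρ0
      a0 := h.a0
      w10 := h.w10
      w20 := h.w20
      w1ρ := h.w1ρ.trans (mul_le_mul_of_nonneg_right hW h.ρ0.le)
      lg := h.lg.trans hW
      vel := fun t ht => h.vel t (hP ht)
      shU := fun t ht => h.shU t (hP ht)
      shV := fun t ht => h.shV t (hP ht)
      inU := fun t ht => h.inU t (hP ht)
      inV := fun t ht => h.inV t (hP ht)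
      dimU := fun t ht => by
        obtain ⟨d1, d2, d3⟩ := h.dimU t (hP ht)
        obtain ⟨p1, p2, p3⟩ := posS (h.shU t (hP ht))
        exact ⟨nr h.a0.le p1 d1, nr h.w10.le p2 d2, nr h.w20.le p3 d3⟩
      dimV := fun t ht => by
        obtain ⟨d1, d2, d3⟩ := h.dimV t (hP ht)
        obtain ⟨p1, p2, p3⟩ := posS (h.shV t (hP ht))
        exact ⟨nr h.a0.le p1 d1, nr h.w10.le p2 d2, nr h.w20.le p3 d3⟩
      fullU := fu
      fullV := fv
      dmax := fun S hS hSρ => by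
        have k1 := h.dmax S hS hSρ
        have k2 : ((P'.filter fun t => InP (L t) S z0 ρ).card : ℝ) ≤
            ((P.filter fun t => InP (L t) S z0 ρ).card : ℝ) := by
          exact_mod_cast card_le_card (filter_subset_filter _ hP)
        refine (k2.trans k1).trans ?_
        obtain ⟨p1, p2, p3⟩ := posS hS
        have k3 := Phc248.phC_nonneg (qm := qm) (qp := qp) h.a0.le h.w10.le h.w20.le p1 p2 p3
        exact mul_le_mul_of_nonneg_right (mul_le_mul_of_nonneg_right hW h.M0.le) k3 }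

/-- pruning of a subfamily of proportion `1 / Lo` -/
theorem two_prune (h : Two1 qm qp L P cu cv Uf Vf W M a w1 w2 z0 ρ r) {Q : Finset ℕ} (hQ : Q ⊆ P)
    (hne : Q.Nonempty) {Lo : ℝ} (hLo : 1 ≤ Lo) (hc : (P.card : ℝ) ≤ Lo * (Q.card : ℝ)) :
    ∃ P' ⊆ Q, P'.Nonempty ∧ (Q.card : ℝ) ≤ 2 * (P'.card : ℝ) ∧
      Two1 qm qp L P' cu cv Uf Vf (4 * Lo * W) M a w1 w2 z0 ρ r := by
  have hW0 : 0 < W := lt_of_lt_of_le one_pos h.W1
  obtain ⟨P', h1, h2, h3, -, h4⟩ := Pop615.full_sub hQ hne h.M0 hW0 (lt_of_lt_of_le one_pos hLo)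
    h.fullU h.fullV hc
  refine ⟨P', h1, h2, h3, two_sub h (h1.trans hQ) ?_ (fun t ht => ?_) (fun t ht => ?_)⟩
  · have := h.W1
    nlinarith
  · convert (h4 t ht).1
  · convert (h4 t ht).2

end



/-- powers after a loss `8` -/
theorem pow8_le {W C : ℝ} (hW : 1 ≤ W) (hC : 0 ≤ C) : (2 * (8 * W)) ^ C ≤ (2 * W) ^ (4 * C) := by
  have h1 : 2 * (8 * W) ≤ (2 * W) ^ (4 : ℝ) := by
    have : (2 * W) ^ (4 : ℝ) = (2 * W) ^ 4 := by
      rw [show (4:ℝ) = ((4:ℕ) : ℝ) by norm_num, Real.rpow_natCast]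
    rw [this]
    have e : (2 * W) ^ 4 = 16 * W * W ^ 3 := by ring
    rw [e]
    have : 1 ≤ W ^ 3 := one_le_pow₀ hW
    nlinarith
  calc (2 * (8 * W)) ^ C ≤ ((2 * W) ^ (4 : ℝ)) ^ C := Real.rpow_le_rpow (by linarith) h1 hC
    _ = (2 * W) ^ (4 * C) := by rw [← Real.rpow_mul (by linarith)]


end Crest.Agent.R136.Al877
end

-- ▼ part R136/Alr_877

/-!
# R136, PLAN 2 (AL), final interfaces of 860 (helper877)

`two7_sub`, `two7_prune`, `refine7` for `Pl2.Two7`; `Al1.mono`; `UBalA` (mixed curvatures), `Bal`,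
`AlCore` (balanced curvatures, closeness both ways), `CloseBack` (closeness in the other direction),
`alr_of : UBalA → CloseBack → AlCore → ALR Al1`.
-/

set_option autoImplicit false
set_option linter.unusedVariables false

open Finset

namespace Crest.Agent.R136.Alr877

open Crest.Agent.R136.Sh605 Crest.Agent.R136.Pl2 Crest.Agent.R136.Fl808
open Crest.Agent.R136.K4 (Plk4)
open Crest.Agent.R136.Tlt51 (Shp InP)
open Crest.Agent.R136.Deep51 (CloseC)
open Crest.Agent.R136.Tl102 (angC StP exists_isExp)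
open Crest.Agent.R136.KapP335 (kapP kapP_eq DetP)
open Crest.Agent.R136.Rf877 (Tub refine2)
open Crest.Agent.R136.Pl2W102 (Near Ex2 Two1)
open Crest.Agent.R136.Al877 (TypA AlH closeC_mono ex2_mono two_sub two_prune pow8_le)

section
variable {qm qp : Fin 3 → ℝ} {L : ℕ → Ln4} {P : Finset ℕ} {cu cv : ℕ → ℕ} {Uf Vf : ℕ → Plk4}
  {W M a w1 w2 z0 ρ zL ρL r : ℝ}

open Classical in
/-- `Two7` passes to subfamilies which are full -/
theorem two7_sub (h : Two7 qm qp L P cu cv Uf Vf W M a w1 w2 z0 ρ zL ρL r) {P' : Finset ℕ}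
    (hP : P' ⊆ P) {W' : ℝ} (hW : W ≤ W')
    (fu : ∀ t ∈ P', M ≤ W' * ((P'.filter fun s => cu s = cu t).card : ℝ))
    (fv : ∀ t ∈ P', M ≤ W' * ((P'.filter fun s => cv s = cv t).card : ℝ)) :
    Two7 qm qp L P' cu cv Uf Vf W' M a w1 w2 z0 ρ zL ρL r where
  to1 := two_sub h.to1 hP hW fu fv
  rρ := h.rρ
  lo := h.lo
  hi := h.hi
  long := h.long
  short := h.short
  shU := fun t ht => h.shU t (hP ht)
  shV := fun t ht => h.shV t (hP ht)
  inU := fun t ht => h.inU t (hP ht)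
  inV := fun t ht => h.inV t (hP ht)

/-- `Two7` is monotone in the deficit -/
theorem two7_mono (h : Two7 qm qp L P cu cv Uf Vf W M a w1 w2 z0 ρ zL ρL r) {W' : ℝ}
    (hW : W ≤ W') : Two7 qm qp L P cu cv Uf Vf W' M a w1 w2 z0 ρ zL ρL r := by
  classical
  refine two7_sub h subset_rfl hW (fun t ht => ?_) (fun t ht => ?_)
  · refine (h.to1.fullU t ht).trans ?_
    exact mul_le_mul_of_nonneg_right hW (Nat.cast_nonneg _)
  · refine (h.to1.fullV t ht).trans ?_
    exact mul_le_mul_of_nonneg_right hW (Nat.cast_nonneg _)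

/-- pruning of a subfamily of proportion `1 / Lo` -/
theorem two7_prune (h : Two7 qm qp L P cu cv Uf Vf W M a w1 w2 z0 ρ zL ρL r) {Q : Finset ℕ}
    (hQ : Q ⊆ P) (hne : Q.Nonempty) {Lo : ℝ} (hLo : 1 ≤ Lo)
    (hc : (P.card : ℝ) ≤ Lo * (Q.card : ℝ)) :
    ∃ P' ⊆ Q, P'.Nonempty ∧ (Q.card : ℝ) ≤ 2 * (P'.card : ℝ) ∧
      Two7 qm qp L P' cu cv Uf Vf (4 * Lo * W) M a w1 w2 z0 ρ zL ρL r := by
  obtain ⟨P', h1, h2, h3, h4⟩ := two_prune h.to1 hQ hne hLo hc
  have hP : P' ⊆ P := h1.trans hQ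
  exact ⟨P', h1, h2, h3,
    { to1 := h4
      rρ := h.rρ
      lo := h.lo
      hi := h.hi
      long := h.long
      short := h.short
      shU := fun t ht => h.shU t (hP ht)
      shV := fun t ht => h.shV t (hP ht)
      inU := fun t ht => h.inU t (hP ht)
      inV := fun t ht => h.inV t (hP ht) }⟩

/-- **refinement of `Two7` by tubes** (over the short cell) -/
theorem refine7 (hq : ∀ k, 0 ≤ qm k ∧ qm k ≤ qp k)
    (h : Two7 qm qp L P cu cv Uf Vf W M a w1 w2 z0 ρ zL ρL r) (m : ℕ) (hm : 1 ≤ m) :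
    ∃ P' ⊆ P, (P.card : ℝ) ≤ 2 * (P'.card : ℝ) ∧ ∃ du dv : ℕ → ℕ,
      (∀ t, (Nat.unpair (du t)).1 = cu t) ∧ (∀ t, (Nat.unpair (dv t)).1 = cv t) ∧
      Two7 qm qp L P' du dv (fun k => Uf (Nat.unpair k).1) (fun k => Vf (Nat.unpair k).1)
        (4 * (3 * (m : ℝ)) ^ 4 * W) M a w1 w2 z0 ρ zL ρL r ∧
      (∀ s ∈ P, ∀ t ∈ P, du s = du t → cu s = cu t ∧ Tub (Uf (cu t)) (1 / m) (L s) (L t) z0 ρ) ∧
      (∀ s ∈ P, ∀ t ∈ P, dv s = dv t → cv s = cv t ∧
        Tub (Vf (cv t)) (1 / m) (L s) (L t) z0 ρ) := by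
  obtain ⟨P', h1, h2, du, dv, hu, hv, h3, h4, h5⟩ := refine2 hq h.to1 m hm
  exact ⟨P', h1, h2, du, dv, hu, hv,
    { to1 := h3
      rρ := h.rρ
      lo := h.lo
      hi := h.hi
      long := h.long
      short := h.short
      shU := fun t ht => by simpa only [hu] using h.shU t (h1 ht)
      shV := fun t ht => by simpa only [hv] using h.shV t (h1 ht)
      inU := fun t ht => by simpa only [hu] using h.inU t (h1 ht)
      inV := fun t ht => by simpa only [hv] using h.inV t (h1 ht) }, h4, h5⟩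

end

theorem fh_mono {C C' Y : ℝ} {S : Plk4} {f : Fin 3 → V3} {z0 ρ : ℝ} (h : FH C Y S f z0 ρ)
    (hC : C ≤ C') (hY : 0 ≤ Y) (h1 : 0 ≤ S.w 1) (h2 : 0 ≤ S.w 2) : FH C' Y S f z0 ρ where
  ortho := h.ortho
  e01 := h.e01.trans (mul_le_mul_of_nonneg_right hC h2)
  e10 := h.e10.trans (mul_le_mul_of_nonneg_right hC h2)
  e12 := h.e12.trans (mul_le_mul_of_nonneg_right hC h2)
  e21 := h.e21.trans (mul_le_mul_of_nonneg_right hC h2)
  e00 := h.e00.trans (mul_le_mul_of_nonneg_right hC (abs_nonneg _))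
  box := fun t t' ht ht' z hz hz' i => by
    refine (h.box t t' ht ht' z hz hz' i).trans ?_
    fin_cases i
    · exact mul_le_mul_of_nonneg_right hC hY
    · exact mul_le_mul_of_nonneg_right hC h1
    · exact mul_le_mul_of_nonneg_right hC h2
  pt := fun T hT z hz hz' x hx hq =>
    (h.pt T hT z hz hz' x hx hq).trans (mul_le_mul_of_nonneg_right hC hY)

theorem fl_mono {C C' Y : ℝ} {S : Plk4} {f : Fin 3 → V3} {z0 ρ : ℝ} (h : FL C Y S f z0 ρ)
    (hC : C ≤ C') (hC0 : 0 < C) (hY : 0 ≤ Y) : FL C' Y S f z0 ρ := by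
  intro T hT
  obtain ⟨b0, h1, h2, h3⟩ := h T hT
  have hb : 0 ≤ b0 := by
    by_contra hb
    push Not at hb
    have := mul_neg_of_pos_of_neg hC0 hb
    linarith
  refine ⟨b0, h1.trans (mul_le_mul_of_nonneg_right hC hb), h2.trans hC, ?_⟩
  intro m hm z hz hz' x k0 k1 k2
  refine (h3 m hm z hz hz' x k0 k1 k2).trans ?_
  have : C * m ^ 2 * Y = C * (m ^ 2 * Y) := by ring
  rw [this, show C' * m ^ 2 * Y = C' * (m ^ 2 * Y) by ring]
  exact mul_le_mul_of_nonneg_right hC (by positivity)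

/-- the output of the base tilt theorem is monotone in `K` -/
theorem al1_mono {K K' a w1 w2 z0 ρ : ℝ} {S S' : Plk4} {T : Ln4}
    (h : Al1 K S S' T a w1 w2 z0 ρ) (hK : K ≤ K') (hK0 : 0 < K) (hw2 : 0 ≤ w2)
    (hk : 0 ≤ kp S z0 ρ T) (s1 : 0 ≤ S.w 1) (s2 : 0 ≤ S.w 2) (s1' : 0 ≤ S'.w 1)
    (s2' : 0 ≤ S'.w 2) : Al1 K' S S' T a w1 w2 z0 ρ where
  ang := h.ang.trans (mul_le_mul_of_nonneg_right hK hw2)
  close := closeC_mono h.close (mul_le_mul_of_nonneg_right hK hk)
  fr := by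
    obtain ⟨f, g, h1, h2, h3, h4, h5, h6, h7⟩ := h.fr
    have := mul_le_mul_of_nonneg_right hK hk
    exact ⟨f, g, fh_mono h1 hK hk s1 s2, fl_mono h2 hK hK0 hk, fh_mono h3 hK hk s1' s2',
      h4.trans this, h5.trans this, h6.trans this, h7.trans this⟩

/-- **(A) mixed curvatures**, with `TypA` -/
def UBalA (R : Rel) : Prop := ∃ η : ℝ, 0 < η ∧ ∀ qm qp : Fin 3 → ℝ, Ex2 η qm qp →
  ∃ K0 C : ℝ, 0 ≤ K0 ∧ 0 ≤ C ∧
  ∀ (L : ℕ → Ln4) (P : Finset ℕ) (cu cv : ℕ → ℕ) (Uf Vf : ℕ → Plk4)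
    (W M a w1 w2 z0 ρ zL ρL r : ℝ),
    Two7 qm qp L P cu cv Uf Vf W M a w1 w2 z0 ρ zL ρL r → P.Nonempty →
    (∀ t ∈ P, TypA ((2 * W) ^ K0) W a (Uf (cu t)) (Vf (cv t)) (L t) z0 ρ) →
    (∀ t ∈ P, R W (Uf (cu t)) (Vf (cv t)) (L t) a w1 w2 z0 ρ) →
    ∃ t ∈ P, kp (Uf (cu t)) z0 ρ (L t) ≤ (2 * W) ^ C * max a (kp (Vf (cv t)) z0 ρ (L t))

/-- balanced, nondegenerate, aligned pair of sheets, close both ways up to the curvature extent
(helper500) -/
structure Bal (W : ℝ) (S S' : Plk4) (T : Ln4) (w1 w2 z0 ρ : ℝ) : Prop where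
  near : kp S' z0 ρ T ≤ W * kp S z0 ρ T
  near' : kp S z0 ρ T ≤ W * kp S' z0 ρ T
  det : DetP W⁻¹ S z0 ρ T
  det' : DetP W⁻¹ S' z0 ρ T
  ang : angC S S' * w1 ≤ W * w2
  cl : CloseC S.e S.w S.q S.a S'.q (W * kp S z0 ρ T) T z0 ρ
  cl' : CloseC S'.e S'.w S'.q S'.a S.q (W * kp S z0 ρ T) T z0 ρ
  fr : ∃ f g : Fin 3 → V3, FH W (kp S z0 ρ T) S f z0 ρ ∧ FL W (kp S z0 ρ T) S f z0 ρ ∧
    FH W (kp S z0 ρ T) S' g z0 ρ ∧ |dt (f 0) (g 1)| * w1 ≤ W * kp S z0 ρ T ∧
    |dt (f 0) (g 2)| * w2 ≤ W * kp S z0 ρ T ∧ |dt (g 0) (f 1)| * w1 ≤ W * kp S z0 ρ T ∧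
    |dt (g 0) (f 2)| * w2 ≤ W * kp S z0 ρ T

/-- **(B) balanced curvatures**, core (helper500) -/
def AlCore : Prop := ∃ η : ℝ, 0 < η ∧ ∀ qm qp : Fin 3 → ℝ, Ex2 η qm qp →
  ∃ K0 C : ℝ, 0 ≤ K0 ∧ 0 ≤ C ∧
  ∀ (L : ℕ → Ln4) (P : Finset ℕ) (cu cv : ℕ → ℕ) (Uf Vf : ℕ → Plk4)
    (W M a w1 w2 z0 ρ zL ρL r : ℝ),
    Two7 qm qp L P cu cv Uf Vf W M a w1 w2 z0 ρ zL ρL r → P.Nonempty →
    (∀ t ∈ P, (2 * W) ^ K0 * a ≤ kp (Uf (cu t)) z0 ρ (L t) ∧
      Bal W (Uf (cu t)) (Vf (cv t)) (L t) w1 w2 z0 ρ) →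
    ∃ t ∈ P,
      CloseC (Uf (cu t)).e (Uf (cu t)).w (Uf (cu t)).q (Uf (cu t)).a (Vf (cv t)).q
        ((2 * W) ^ C * a) (L t) z0 ρ ∧
      CloseC (Vf (cv t)).e (Vf (cv t)).w (Vf (cv t)).q (Vf (cv t)).a (Uf (cu t)).q
        ((2 * W) ^ C * a) (L t) z0 ρ

/-- **closeness in the other direction** (`S` = the more curved sheet; helper208's literal) -/
def CloseBack : Prop := ∃ C : ℝ, 0 ≤ C ∧ ∀ (K a w1 w2 z0 ρ r : ℝ) (S S' : Plk4) (T : Ln4),
  1 ≤ K → 0 < r → 0 < ρ → Shp S z0 ρ r → Shp S' z0 ρ r → InP T S z0 ρ → InP T S' z0 ρ →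
  Near K w1 (S.w 1) → Near K w2 (S.w 2) → Near K w1 (S'.w 1) → Near K w2 (S'.w 2) →
  10 ^ 5 * K * S'.a ≤ kp S z0 ρ T → kp S' z0 ρ T ≤ K * kp S z0 ρ T →
  kp S z0 ρ T ≤ K * kp S' z0 ρ T → Al1 K S S' T a w1 w2 z0 ρ →
  CloseC S.e S.w S.q S.a S'.q ((2 * K) ^ C * kp S z0 ρ T) T z0 ρ

theorem kapP_le {S : Plk4} {T : Ln4} {z0 ρ r : ℝ} (hr : 0 < r) (hρ : 0 ≤ ρ) (hS : Shp S z0 ρ r)
    (hT : InP T S z0 ρ) : kapP S z0 ρ T ≤ 13 * S.w 0 := by
  have hw0 : 0 < S.w 0 := hr.trans_le (hS.r0_le.trans hS.a_le0)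
  have P := StP.of_shN hS hw0
  obtain ⟨b0, b1, G, hE⟩ := exists_isExp P.isQ S.e hw0.ne' T z0 ρ
  have N := hE.nrmC P hρ (fun z h1 h2 => (hT z h1 h2).1)
  rw [kapP_eq hw0.ne' hE]
  have := Tl102.kap_le N
  nlinarith

/-- one power of `2 W` beats small constants -/
theorem pw_add {W x y : ℝ} (hW : 1 ≤ W) : (2 * W) ^ (x + y) = (2 * W) ^ x * (2 * W) ^ y :=
  Real.rpow_add (by linarith) x y

theorem pw_nat {W : ℝ} (n : ℕ) : (2 * W) ^ (n : ℝ) = (2 * W) ^ n := Real.rpow_natCast _ _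

theorem pw_one_le {W x : ℝ} (hW : 1 ≤ W) (hx : 0 ≤ x) : 1 ≤ (2 * W) ^ x :=
  Real.one_le_rpow (by linarith) hx

theorem pw_le {W x y : ℝ} (hW : 1 ≤ W) (h : x ≤ y) : (2 * W) ^ x ≤ (2 * W) ^ y :=
  Real.rpow_le_rpow_of_exponent_le (by linarith) h

/-- facts of the core at one line -/
theorem bal_of {Cc : ℝ} (hCc : 0 ≤ Cc)
    (hC : ∀ (K a w1 w2 z0 ρ r : ℝ) (S S' : Plk4) (T : Ln4),
      1 ≤ K → 0 < r → 0 < ρ → Shp S z0 ρ r → Shp S' z0 ρ r → InP T S z0 ρ → InP T S' z0 ρ →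
      Near K w1 (S.w 1) → Near K w2 (S.w 2) → Near K w1 (S'.w 1) → Near K w2 (S'.w 2) →
      10 ^ 5 * K * S'.a ≤ kp S z0 ρ T → kp S' z0 ρ T ≤ K * kp S z0 ρ T →
      kp S z0 ρ T ≤ K * kp S' z0 ρ T → Al1 K S S' T a w1 w2 z0 ρ →
      CloseC S.e S.w S.q S.a S'.q ((2 * K) ^ Cc * kp S z0 ρ T) T z0 ρ)
    {A N X : ℝ} (hA : 0 ≤ A) (hN : (A + 2) * Cc + A + 12 ≤ N) (hX : A + 20 ≤ X)
    {W a w1 w2 z0 ρ r : ℝ} {S S' : Plk4} {T : Ln4} (W1 : 1 ≤ W) (a0 : 0 < a) (r0 : 0 < r)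
    (ρ0 : 0 < ρ) (w10 : 0 < w1) (w20 : 0 < w2) (sh : Shp S z0 ρ r) (sh' : Shp S' z0 ρ r)
    (hi : InP T S z0 ρ) (hi' : InP T S' z0 ρ)
    (d : Near W a S.a ∧ Near W w1 (S.w 1) ∧ Near W w2 (S.w 2))
    (d' : Near W a S'.a ∧ Near W w1 (S'.w 1) ∧ Near W w2 (S'.w 2))
    (hT : TypA ((2 * W) ^ X) W a S S' T z0 ρ) (hH : Al1 W S S' T a w1 w2 z0 ρ)
    (hG : kp S z0 ρ T ≤ (2 * W) ^ A * max a (kp S' z0 ρ T)) :
    Bal ((2 * W) ^ N / 2) S S' T w1 w2 z0 ρ := by
  have W0 : 0 < W := by linarith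
  have b1 : (1:ℝ) ≤ 2 * W := by linarith
  obtain ⟨nU0, nU1, nU2⟩ := d
  obtain ⟨nV0, nV1, nV2⟩ := d'
  have posS : ∀ {S : Plk4}, Shp S z0 ρ r → 0 ≤ S.w 1 ∧ 0 ≤ S.w 2 := by
    intro S hS
    have a0 : 0 < S.a := r0.trans_le hS.r0_le
    have w0 : 0 < S.w 0 := a0.trans_le hS.a_le0
    have w2 : 0 < S.w 2 := w0.trans_le hS.w0_le
    exact ⟨(w2.trans_le hS.w_le).le, w2.le⟩
  obtain ⟨u1, u2⟩ := posS sh
  obtain ⟨v1, v2⟩ := posS sh'
  have hpC : 0 < (2 * W) ^ A := Real.rpow_pos_of_pos (by linarith) _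
  set k : ℝ := kp S z0 ρ T with hk
  set k' : ℝ := kp S' z0 ρ T with hk'
  have hbig : (2 * W) ^ X * a ≤ k := hT.big
  have hle : k' ≤ k := hT.le
  have hlow : ∀ x : ℝ, x ≤ X → (2 * W) ^ x * a ≤ k := fun x hx =>
    (mul_le_mul_of_nonneg_right (pw_le W1 hx) a0.le).trans hbig
  have hk0 : 0 ≤ k := (mul_nonneg (Real.rpow_nonneg (by linarith) _) a0.le).trans hbig
  -- `(2 W)^(A + 19) a ≤ k`
  have h19 : (2 * W) ^ A * ((2 * W) ^ (19:ℕ) * a) ≤ k := by
    have h1 := hlow (A + ((19:ℕ):ℝ)) (by push_cast; linarith)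
    rw [pw_add W1, pw_nat] at h1
    calc _ = (2 * W) ^ A * (2 * W) ^ 19 * a := by ring
      _ ≤ _ := h1
  have p19 : (2:ℝ) ^ 18 * (2 * W ^ 2) ≤ (2 * W) ^ (19:ℕ) := by
    have e : (2 * W) ^ 19 = 2 ^ 18 * (2 * W ^ 2) * W ^ 17 := by ring
    rw [e]
    exact le_mul_of_one_le_right (by positivity) (one_le_pow₀ W1)
  have hWW : W ≤ W ^ 2 := by nlinarith
  have hWa : 0 < W * a := by positivity
  have h19' : (2 * W) ^ A * ((2:ℝ) ^ 18 * (2 * W ^ 2) * a) ≤ k :=
    (mul_le_mul_of_nonneg_left (mul_le_mul_of_nonneg_right p19 a0.le) hpC.le).trans h19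
  have hA1 : 1 ≤ (2 * W) ^ A := pw_one_le W1 hA
  have hW2a : W * a ≤ W ^ 2 * a := mul_le_mul_of_nonneg_right hWW a0.le
  -- the curvature extents are comparable
  have hkV : k ≤ (2 * W) ^ A * k' := by
    rcases le_total a k' with h1 | h1
    · rwa [max_eq_right h1] at hG
    · rw [max_eq_left h1] at hG
      exfalso
      have h4 : (2 * W) ^ A * (2 * a) ≤ (2 * W) ^ A * ((2:ℝ) ^ 18 * (2 * W ^ 2) * a) := by
        refine mul_le_mul_of_nonneg_left ?_ hpC.le
        have : 1 * a ≤ W ^ 2 * a := mul_le_mul_of_nonneg_right (one_le_pow₀ W1) a0.le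
        nlinarith
      have h5 : 0 < (2 * W) ^ A * a := by positivity
      nlinarith
  have hkV0 : 0 ≤ k' := by
    by_contra hneg
    push Not at hneg
    have := mul_neg_of_pos_of_neg hpC hneg
    linarith
  -- thresholds of nondegeneracy
  have dV : W * a ≤ k' := by
    have h2 : (2 * W) ^ A * (W * a) ≤ (2 * W) ^ A * k' := by
      refine le_trans ?_ (h19'.trans hkV)
      exact mul_le_mul_of_nonneg_left (by nlinarith) hpC.le
    exact le_of_mul_le_mul_left h2 hpC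
  have dU : W * a ≤ k := dV.trans hle
  -- the constant of the closeness in the other direction
  set K : ℝ := (2 * W) ^ (A + 1) with hK
  have eK : K = (2 * W) ^ A * (2 * W) := by rw [hK, pw_add W1, Real.rpow_one]
  have hWK : W ≤ K := by
    rw [eK]
    nlinarith
  have hAK : (2 * W) ^ A ≤ K := by
    rw [eK]
    nlinarith
  have hK1 : 1 ≤ K := W1.trans hWK
  have nr : ∀ {x y : ℝ}, 0 ≤ x → 0 ≤ y → Near W x y → Near K x y := by
    intro x y hx hy hn
    exact ⟨hn.1.trans (mul_le_mul_of_nonneg_right hWK hy),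
      hn.2.trans (mul_le_mul_of_nonneg_right hWK hx)⟩
  have hSa : 10 ^ 5 * K * S'.a ≤ k := by
    have h1 : S'.a ≤ W * a := nV0.2
    calc 10 ^ 5 * K * S'.a ≤ 10 ^ 5 * K * (W * a) :=
          mul_le_mul_of_nonneg_left h1 (by positivity)
      _ = (2 * W) ^ A * (10 ^ 5 * (2 * W ^ 2) * a) := by rw [eK]; ring
      _ ≤ (2 * W) ^ A * ((2:ℝ) ^ 18 * (2 * W ^ 2) * a) := by
          refine mul_le_mul_of_nonneg_left ?_ hpC.le
          refine mul_le_mul_of_nonneg_right ?_ a0.le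
          exact mul_le_mul_of_nonneg_right (by norm_num) (by positivity)
      _ ≤ _ := h19'
  have hcb := hC K a w1 w2 z0 ρ r S S' T hK1 r0 ρ0 sh sh' hi hi' (nr w10.le u1 nU1)
    (nr w20.le u2 nU2) (nr w10.le v1 nV1) (nr w20.le v2 nV2) hSa
    (hle.trans (le_mul_of_one_le_left hk0 hK1)) (hkV.trans (mul_le_mul_of_nonneg_right hAK hkV0))
    (al1_mono hH hWK W0 w20.le hk0 u1 u2 v1 v2)
  -- the deficit
  set W2 : ℝ := (2 * W) ^ N / 2 with hW2
  have hpwN : ∀ x : ℝ, x + 1 ≤ N → (2 * W) ^ x ≤ W2 := by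
    intro x hx
    have h1 : (2 * W) ^ (x + 1) ≤ (2 * W) ^ N := pw_le W1 hx
    rw [pw_add W1, Real.rpow_one] at h1
    have h2 : 0 ≤ (2 * W) ^ x := Real.rpow_nonneg (by linarith) x
    have : (2 * W) ^ x * 2 ≤ (2 * W) ^ x * (2 * W) := mul_le_mul_of_nonneg_left (by linarith) h2
    rw [hW2]
    linarith
  have hAC : 0 ≤ (A + 2) * Cc := by positivity
  have hWW2 : W ≤ W2 := by
    have h1 := hpwN 1 (by linarith)
    rw [Real.rpow_one] at h1
    linarith
  have hfin : (2 * K) ^ Cc * k ≤ W2 * k := by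
    refine mul_le_mul_of_nonneg_right ?_ hk0
    have k1 : 2 * K ≤ (2 * W) ^ (A + 2) := by
      rw [show A + 2 = (A + 1) + 1 by ring, pw_add W1 (y := 1), Real.rpow_one, ← hK]
      nlinarith
    have k2 : (2 * K) ^ Cc ≤ (2 * W) ^ ((A + 2) * Cc) := by
      rw [Real.rpow_mul (by linarith)]
      exact Real.rpow_le_rpow (by positivity) k1 hCc
    exact k2.trans (hpwN _ (by linarith))
  have hiW : W2⁻¹ ≤ W⁻¹ := inv_anti₀ W0 hWW2
  exact
    { near := hle.trans (le_mul_of_one_le_left hk0 (W1.trans hWW2))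
      near' := hkV.trans (mul_le_mul_of_nonneg_right (hpwN _ (by linarith)) hkV0)
      det := (hT.det dU).mono hiW
      det' := (hT.det' dV).mono hiW
      ang := hH.ang.trans (mul_le_mul_of_nonneg_right hWW2 w20.le)
      cl := closeC_mono hcb hfin
      cl' := closeC_mono hH.close (mul_le_mul_of_nonneg_right hWW2 hk0)
      fr := (al1_mono hH hWW2 W0 w20.le hk0 u1 u2 v1 v2).fr }

/-- **(AL) from its two cases** -/
theorem alr_of (hA : UBalA Al1) (hC : CloseBack) (hB : AlCore) : ALR Al1 := by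
  classical
  obtain ⟨ηA, hηA, hA⟩ := hA
  obtain ⟨ηB, hηB, hB⟩ := hB
  obtain ⟨Cc, hCc, hC⟩ := hC
  refine ⟨min ηA ηB, lt_min hηA hηB, fun qm qp hE => ?_⟩
  obtain ⟨KA, CA, hKA, hCA, hA⟩ := hA qm qp (ex2_mono hE (min_le_left _ _))
  obtain ⟨KB, CB, hKB, hCB, hB⟩ := hB qm qp (ex2_mono hE (min_le_right _ _))
  -- exponent of the deficit in the balanced case
  set N : ℝ := (4 * CA + 2) * Cc + 4 * CA + 12 with hN
  have hAC : 0 ≤ (4 * CA + 2) * Cc := by positivity
  have hN0 : 12 ≤ N := by linarith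
  have hNKB : 0 ≤ N * KB := by positivity
  refine ⟨4 * KA + N * KB + N + 20, N * CB, by positivity, by positivity, ?_⟩
  intro L P cu cv Uf Vf W M a w1 w2 z0 ρ zL ρL r h hP hT hH
  have W1 := h.to1.W1
  have W0 : 0 < W := by linarith
  have a0 := h.to1.a0
  have b1 : (1:ℝ) ≤ 2 * W := by linarith
  have hW8 : 4 * 2 * W = 8 * W := by ring
  have kU0 : ∀ t ∈ P, 0 ≤ kp (Uf (cu t)) z0 ρ (L t) := fun t ht =>
    (mul_nonneg (Real.rpow_nonneg (by linarith) _) a0.le).trans (hT t ht).big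
  have posS : ∀ {S : Plk4}, Shp S z0 ρ r → 0 ≤ S.w 1 ∧ 0 ≤ S.w 2 := by
    intro S hS
    have a0 : 0 < S.a := h.to1.r0.trans_le hS.r0_le
    have w0 : 0 < S.w 0 := a0.trans_le hS.a_le0
    have w2 : 0 < S.w 2 := w0.trans_le hS.w0_le
    exact ⟨(w2.trans_le hS.w_le).le, w2.le⟩
  set G : ℕ → Prop := fun t => kp (Uf (cu t)) z0 ρ (L t) ≤
    (2 * W) ^ (4 * CA) * max a (kp (Vf (cv t)) z0 ρ (L t)) with hG
  have hsplit : (P.card : ℝ) = ((P.filter G).card : ℝ) + ((P.filter fun t => ¬ G t).card : ℝ) := by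
    have := card_filter_add_card_filter_not (s := P) G
    exact_mod_cast this.symm
  have hPc : (0 : ℝ) < P.card := by exact_mod_cast hP.card_pos
  have mx0 : ∀ t, 0 ≤ max a (kp (Vf (cv t)) z0 ρ (L t)) :=
    fun t => a0.le.trans (le_max_left _ _)
  rcases le_total ((P.filter fun t => ¬ G t).card : ℝ) ((P.filter G).card : ℝ) with hc | hc
  · -- comparable curvature extents
    have hne : (P.filter G).Nonempty := by
      rw [← card_pos]
      have : (0:ℝ) < ((P.filter G).card : ℝ) := by linarith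
      exact_mod_cast this
    obtain ⟨P', hP', hne', -, h'⟩ := two7_prune h (filter_subset G P) hne (Lo := 2) (by norm_num)
      (by linarith)
    rw [hW8] at h'
    have hsub : P' ⊆ P := hP'.trans (filter_subset _ _)
    have e2 : 2 * ((2 * W) ^ N / 2) = (2 * W) ^ N := by ring
    have q8 : 8 * W ≤ (2 * W) ^ N / 2 := by
      have h4 : (2 * W) ^ ((4:ℕ):ℝ) ≤ (2 * W) ^ N := pw_le W1 (by push_cast; linarith)
      rw [pw_nat] at h4
      have : 16 * W ≤ (2 * W) ^ 4 := by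
        have : (2 * W) ^ 4 = 16 * W * W ^ 3 := by ring
        rw [this]
        exact le_mul_of_one_le_right (by positivity) (one_le_pow₀ W1)
      linarith
    obtain ⟨t, ht, c1, c2⟩ := hB L P' cu cv Uf Vf ((2 * W) ^ N / 2) M a w1 w2 z0 ρ zL ρL r
      (two7_mono h' q8) hne' (fun t ht => by
        have htP := hsub ht
        have hg : G t := (mem_filter.1 (hP' ht)).2
        refine ⟨?_, bal_of hCc hC (by linarith) le_rfl (X := 4 * CA + 20) le_rfl W1 a0 h.to1.r0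
          h.to1.ρ0 h.to1.w10 h.to1.w20 (h.to1.shU t htP) (h.to1.shV t htP) (h.to1.inU t htP)
          (h.to1.inV t htP) (h.to1.dimU t htP) (h.to1.dimV t htP) ?_ (hH t htP) hg⟩
        · rw [e2, ← Real.rpow_mul (by linarith)]
          refine (mul_le_mul_of_nonneg_right (pw_le W1 ?_) a0.le).trans (hT t htP).big
          linarith
        · refine (TypA.of_typP (hT t htP)).mono a0.le W0 (pw_le W1 ?_) le_rfl
          linarith)
    have hle : (2 * ((2 * W) ^ N / 2)) ^ CB * a ≤ (2 * W) ^ (N * CB) * a := by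
      rw [e2, ← Real.rpow_mul (by linarith)]
    exact ⟨t, hsub ht, closeC_mono c1 hle, closeC_mono c2 hle⟩
  · -- mixed curvatures
    exfalso
    have hne : (P.filter fun t => ¬ G t).Nonempty := by
      rw [← card_pos]
      have : (0:ℝ) < ((P.filter fun t => ¬ G t).card : ℝ) := by linarith
      exact_mod_cast this
    obtain ⟨P', hP', hne', -, h'⟩ := two7_prune h (filter_subset (fun t => ¬ G t) P) hne (Lo := 2)
      (by norm_num) (by linarith)
    rw [hW8] at h'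
    have hsub : P' ⊆ P := hP'.trans (filter_subset _ _)
    obtain ⟨t, ht, hk⟩ := hA L P' cu cv Uf Vf (8 * W) M a w1 w2 z0 ρ zL ρL r h' hne'
      (fun t ht => by
        refine (TypA.of_typP (hT t (hsub ht))).mono a0.le W0 ?_ (by linarith)
        exact (pow8_le W1 hKA).trans (pw_le W1 (by linarith)))
      (fun t ht => by
        obtain ⟨u1, u2⟩ := posS (h.to1.shU t (hsub ht))
        obtain ⟨v1, v2⟩ := posS (h.to1.shV t (hsub ht))
        exact al1_mono (hH t (hsub ht)) (by linarith) W0 h.to1.w20.le (kU0 t (hsub ht)) u1 u2 v1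
          v2)
    refine (mem_filter.1 (hP' ht)).2 (hk.trans ?_)
    exact mul_le_mul_of_nonneg_right (pow8_le W1 hCA) (mx0 t)

end Crest.Agent.R136.Alr877
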