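import Crest.Agent.R136.NumE_624
import Crest.Agent.R136.Gen_467
import Crest.Agent.R136.Num_624
import Crest.Agent.R136.AlK_500
import Crest.Agent.R136.Alr_877
import Crest.Agent.R136.Hcp3_208
import Crest.Agent.R136.Bk_467

-- ▼ part R136/AlN_500
section

/-!
# R136, PLAN 2 (AL), balanced case: the numbers of `alk_false` (helper500)

* `PB f` : `0 ≤ f B ≤ (2 B)^k` for `B ≥ 1`.
* `nums` : all the inequalities between powers used in `alk_false`.
-/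

set_option autoImplicit false
set_option linter.unusedVariables false

namespace Crest.Agent.R136.Al500

open Crest.Agent.R136.Bt624
open Crest.Agent.R136.Pl2W102 (Ex2)

/-- polynomially bounded -/
def PB (f : ℝ → ℝ) : Prop := (∀ B, 1 ≤ B → 0 ≤ f B) ∧ ∃ k : ℝ, 0 ≤ k ∧ ∀ B, 1 ≤ B → f B ≤ (2 * B) ^ k

theorem PB.const {c : ℝ} (hc : 0 ≤ c) : PB fun _ => c := by
  obtain ⟨k, hk, h⟩ := exists_pow_ge c
  exact ⟨fun _ _ => hc, k, hk, fun B hB => two_le hB hk h⟩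

theorem PB.id' : PB fun B => B :=
  ⟨fun B hB => by linarith, 1, zero_le_one, fun B hB => by rw [Real.rpow_one]; linarith⟩

theorem PB.mul {f g : ℝ → ℝ} (hf : PB f) (hg : PB g) : PB fun B => f B * g B := by
  obtain ⟨f0, k, hk, h⟩ := hf
  obtain ⟨g0, k', hk', h'⟩ := hg
  refine ⟨fun B hB => mul_nonneg (f0 B hB) (g0 B hB), k + k', by linarith, fun B hB => ?_⟩
  have h2 : (0 : ℝ) < 2 * B := by linarith
  rw [Real.rpow_add h2]
  exact mul_le_mul (h B hB) (h' B hB) (g0 B hB) (Real.rpow_nonneg h2.le _)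

theorem PB.rpow {f : ℝ → ℝ} (hf : PB f) {d : ℝ} (hd : 0 ≤ d) : PB fun B => f B ^ d := by
  obtain ⟨f0, k, hk, h⟩ := hf
  refine ⟨fun B hB => Real.rpow_nonneg (f0 B hB) _, k * d, by positivity, fun B hB => ?_⟩
  have h2 : (0 : ℝ) < 2 * B := by linarith
  rw [Real.rpow_mul h2.le]
  exact Real.rpow_le_rpow (f0 B hB) (h B hB) hd

theorem PB.pow {f : ℝ → ℝ} (hf : PB f) (n : ℕ) : PB fun B => f B ^ n := by
  have := hf.rpow (d := (n : ℝ)) (Nat.cast_nonneg n)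
  simpa only [Real.rpow_natCast] using this

theorem PB.add {f g : ℝ → ℝ} (hf : PB f) (hg : PB g) : PB fun B => f B + g B := by
  obtain ⟨f0, k, hk, h⟩ := hf
  obtain ⟨g0, k', hk', h'⟩ := hg
  refine ⟨fun B hB => add_nonneg (f0 B hB) (g0 B hB), k + k' + 1, by linarith, fun B hB => ?_⟩
  have h1 : (1 : ℝ) ≤ 2 * B := by linarith
  have h2 : (0 : ℝ) < 2 * B := by linarith
  have e1 : (2 * B) ^ k ≤ (2 * B) ^ (k + k') := Real.rpow_le_rpow_of_exponent_le h1 (by linarith)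
  have e2 : (2 * B) ^ k' ≤ (2 * B) ^ (k + k') := Real.rpow_le_rpow_of_exponent_le h1 (by linarith)
  have e3 : (2 * B) ^ (k + k' + 1) = (2 * B) ^ (k + k') * (2 * B) := by
    rw [Real.rpow_add h2, Real.rpow_one]
  have e4 : 0 ≤ (2 * B) ^ (k + k') := Real.rpow_nonneg h2.le _
  rw [e3]
  have := h B hB
  have := h' B hB
  nlinarith

/-- `(C B)^D` -/
theorem PB.cb {C D : ℝ} (hC : 0 ≤ C) (hD : 0 ≤ D) : PB fun B => (C * B) ^ D :=
  ((PB.const hC).mul PB.id').rpow hD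

theorem log_one {H δ : ℝ} (hH : 1 ≤ H) (hδ : 0 < δ) : 1 + Real.log H ≤ (1 + 1 / δ) * H ^ δ := by
  have h1 := Real.log_le_rpow_div (by linarith : (0:ℝ) ≤ H) hδ
  have h2 : 1 ≤ H ^ δ := Real.one_le_rpow hH hδ.le
  have e : (1 + 1 / δ) * H ^ δ = H ^ δ + H ^ δ / δ := by ring
  rw [e]; linarith

theorem split16 {a1 a2 a3 a4 a5 a6 b1 b2 b3 b4 b5 b6 d1 d2 d3 d4 S : ℝ}
    (h : a1 + a2 + (a3 + a4) + (a5 + a6) + (b1 + b2 + (b3 + b4) + (b5 + b6)) +
      (d1 + d2 + (d3 + d4)) ≤ S) (ha1 : 0 ≤ a1) (ha2 : 0 ≤ a2) (ha3 : 0 ≤ a3) (ha4 : 0 ≤ a4)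
    (ha5 : 0 ≤ a5) (ha6 : 0 ≤ a6) (hb1 : 0 ≤ b1) (hb2 : 0 ≤ b2) (hb3 : 0 ≤ b3) (hb4 : 0 ≤ b4)
    (hb5 : 0 ≤ b5) (hb6 : 0 ≤ b6) (hd1 : 0 ≤ d1) (hd2 : 0 ≤ d2) (hd3 : 0 ≤ d3) (hd4 : 0 ≤ d4) :
    (a1 ≤ S ∧ a2 ≤ S ∧ a3 ≤ S ∧ a4 ≤ S ∧ a5 ≤ S ∧ a6 ≤ S) ∧
    (b1 ≤ S ∧ b2 ≤ S ∧ b3 ≤ S ∧ b4 ≤ S ∧ b5 ≤ S ∧ b6 ≤ S) ∧
    (d1 ≤ S ∧ d2 ≤ S ∧ d3 ≤ S ∧ d4 ≤ S) := by
  have hA : 0 ≤ a1 + a2 + (a3 + a4) + (a5 + a6) := by positivity
  have hB : 0 ≤ b1 + b2 + (b3 + b4) + (b5 + b6) := by positivity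
  have hD : 0 ≤ d1 + d2 + (d3 + d4) := by positivity
  have h1 : a1 + a2 + (a3 + a4) + (a5 + a6) ≤ S := by
    clear ha1 ha2 ha3 ha4 ha5 ha6 hb1 hb2 hb3 hb4 hb5 hb6 hd1 hd2 hd3 hd4
    linarith
  have h2 : b1 + b2 + (b3 + b4) + (b5 + b6) ≤ S := by
    clear ha1 ha2 ha3 ha4 ha5 ha6 hb1 hb2 hb3 hb4 hb5 hb6 hd1 hd2 hd3 hd4
    linarith
  have h3 : d1 + d2 + (d3 + d4) ≤ S := by
    clear ha1 ha2 ha3 ha4 ha5 ha6 hb1 hb2 hb3 hb4 hb5 hb6 hd1 hd2 hd3 hd4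
    linarith
  clear h hA hB hD
  refine ⟨?_, ?_, ?_⟩
  · clear h2 h3 hb1 hb2 hb3 hb4 hb5 hb6 hd1 hd2 hd3 hd4
    refine ⟨?_, ?_, ?_, ?_, ?_, ?_⟩ <;> linarith
  · clear h1 h3 ha1 ha2 ha3 ha4 ha5 ha6 hd1 hd2 hd3 hd4
    refine ⟨?_, ?_, ?_, ?_, ?_, ?_⟩ <;> linarith
  · clear h1 h2 ha1 ha2 ha3 ha4 ha5 ha6 hb1 hb2 hb3 hb4 hb5 hb6
    refine ⟨?_, ?_, ?_, ?_⟩ <;> linarith

/-- the inequalities used in `alk_false`; `β = H^(-c3)`, `x` = `l = m`, `k`, `g` thresholds. -/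
structure Nm (C2 C2' C3 C4 C5 C6 Ch Ck : ℝ) (N : ℕ) (c0 c0' c3 ε q p B H R X Q Z Y x k g : ℝ) :
    Prop where
  nb : Numb c0' q p (2 * (C6 * (C4 + 2) + 2) * C3 + 1) c3 ε R H X Q Z Y
  ε0 : 0 < ε
  c3p : 0 < c3
  c0p : 0 < c0'
  c00 : c0' ≤ c0
  R512 : 512 ≤ R
  rX : 4 * (25 * B ^ 2) * B ≤ R
  rup : (4 * B * B) ^ 6 ≤ R
  rcap : N * (240 * B ^ 7 * B) ^ 6 ≤ R
  rgen : 2 * (2 * B ^ 2 * B) ^ 6 ≤ R
  r2 : (C2 * B) ^ C2 ≤ R
  r2' : (C2' * B) ^ C2' ≤ R
  r3 : (C3 * B) ^ C3 ≤ R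
  r4 : (C4 * B) ^ C4 ≤ R
  r5 : (C5 * B) ^ C5 ≤ R
  r6 : (C6 * B) ^ C6 ≤ R
  rk : Ck * ((C2 * B) ^ C2 * (1 + Real.log H)) ≤ H ^ (ε / 4)
  rh : 2 * (2 * B) ^ Ch ≤ H
  big : 512 ≤ (H / 2) ^ c0
  x0 : 0 < x
  x1 : x ≤ 1
  k0 : 0 < k
  k1 : k ≤ 1
  g0 : 0 < g
  g1 : g ≤ 1
  nd : (C3 * B / (x * x)) ^ C3 * (1 + Real.log H) ≤ Z
  wd : (C4 * B / k) ^ C4 * (x + g + 1 / H) ≤ (H ^ (-c3)) ^ C4
  v7 : (C5 * B) ^ C5 * (x + k) ≤ 1
  v6 : (C6 * B / k) ^ C6 * (x + x + 1 / H) ≤ g ^ C6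

set_option maxHeartbeats 1600000 in
theorem nums {C3 C4 C5 C6 c0 : ℝ} (h3 : 1 ≤ C3) (h4 : 1 ≤ C4) (h5 : 1 ≤ C5) (h6 : 1 ≤ C6)
    (hc0 : 0 < c0) (hc1 : c0 ≤ 1 / 2) :
    ∃ c0' η : ℝ, 0 < c0' ∧ c0' ≤ c0 ∧ 0 < η ∧ ∀ qm qp : Fin 3 → ℝ, Ex2 η qm qp →
      ∃ c3 ε : ℝ, 0 < c3 ∧ 0 < ε ∧ ∀ (C2 C2' Ch Ck : ℝ) (N : ℕ), 1 ≤ C2 → 1 ≤ C2' → 1 ≤ Ch →
        0 < Ck → ∃ K : ℝ, 0 ≤ K ∧ ∀ B H : ℝ, 1 ≤ B → (2 * B) ^ K ≤ H → ∃ R X Q Z Y x k g : ℝ,
          Nm C2 C2' C3 C4 C5 C6 Ch Ck N c0 c0' c3 ε (qm 1 + qm 2) (qp 0) B H R X Q Z Y x k g ∧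
          Q = H ^ (qp 0) := by
  set N0 : ℝ := C6 * (C4 + 2) + 2 with hN0
  have hN05 : 5 ≤ N0 := by nlinarith
  have hN00 : 0 < N0 := by linarith
  set A : ℝ := 2 * N0 * C3 + 1 with hA
  have hA8 : 8 ≤ A := by nlinarith
  set d : ℝ := min c0 (1 / N0) with hd
  have hd0 : 0 < d := lt_min hc0 (by positivity)
  have hdc : d ≤ c0 := min_le_left _ _
  have hdN : d ≤ 1 / N0 := min_le_right _ _
  refine ⟨d, d / 2, hd0, hdc, by positivity, fun qm qp hE => ?_⟩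
  obtain ⟨c3, ε, hc3, hε, hc3d, hεc, -, hnum⟩ := numbers_ex2 (A := A) hd0 (by linarith)
    (by positivity) le_rfl hE hA8
  refine ⟨c3, ε, hc3, hε, fun C2 C2' Ch Ck N h2 h2' hh hk => ?_⟩
  have hNc : N0 * c3 ≤ 1 := by
    have : c3 ≤ 1 / N0 := hc3d.trans hdN
    rw [le_div_iff₀ hN00] at this
    linarith
  -- all the constants
  have p0 : PB fun _ => (512 : ℝ) := PB.const (by norm_num)
  have p1 : PB fun B => 4 * (25 * B ^ 2) * B :=
    ((PB.const (by norm_num)).mul ((PB.const (by norm_num)).mul (PB.id'.pow 2))).mul PB.id'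
  have p2 : PB fun B => (4 * B * B) ^ 6 := (((PB.const (by norm_num)).mul PB.id').mul PB.id').pow 6
  have p3 : PB fun B => (N : ℝ) * (240 * B ^ 7 * B) ^ 6 :=
    (PB.const (Nat.cast_nonneg N)).mul
      ((((PB.const (by norm_num)).mul (PB.id'.pow 7)).mul PB.id').pow 6)
  have p4 : PB fun B => 2 * (2 * B ^ 2 * B) ^ 6 :=
    (PB.const (by norm_num)).mul ((((PB.const (by norm_num)).mul (PB.id'.pow 2)).mul PB.id').pow 6)
  have q2 : PB fun B => (C2 * B) ^ C2 := PB.cb (by linarith) (by linarith)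
  have q2' : PB fun B => (C2' * B) ^ C2' := PB.cb (by linarith) (by linarith)
  have q3 : PB fun B => (C3 * B) ^ C3 := PB.cb (by linarith) (by linarith)
  have q4 : PB fun B => (C4 * B) ^ C4 := PB.cb (by linarith) (by linarith)
  have q5 : PB fun B => (C5 * B) ^ C5 := PB.cb (by linarith) (by linarith)
  have q6 : PB fun B => (C6 * B) ^ C6 := PB.cb (by linarith) (by linarith)
  have q3' : PB fun B => (C3 * B) ^ C3 * (1 + 1 / c3) := q3.mul (PB.const (by positivity))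
  have qk : PB fun B => Ck * ((C2 * B) ^ C2 * (1 + 1 / (ε / 8))) :=
    (PB.const hk.le).mul (q2.mul (PB.const (by positivity)))
  have q5' : PB fun B => 2 * (C5 * B) ^ C5 := (PB.const (by norm_num)).mul q5
  have q4' : PB fun B => 3 * (C4 * B * (2 * (C5 * B) ^ C5)) ^ C4 :=
    (PB.const (by norm_num)).mul (((((PB.const (by linarith)).mul PB.id')).mul q5').rpow
      (by linarith))
  have q6' : PB fun B => 3 * (C6 * B * (2 * (C5 * B) ^ C5)) ^ C6 :=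
    (PB.const (by norm_num)).mul (((((PB.const (by linarith)).mul PB.id')).mul q5').rpow
      (by linarith))
  have s1 := ((p0.add p1).add (p2.add p3)).add (p4.add q2)
  have s2 := ((q2'.add q3).add (q4.add q5)).add (q6.add q3')
  have s3 := (qk.add q5').add (q4'.add q6')
  obtain ⟨-, kk, hkk, hF⟩ := (s1.add s2).add s3
  obtain ⟨K, hK1, hK⟩ := hnum kk hkk
  obtain ⟨K2, hK21, hK2⟩ := exists_K [(kk, ε / 8)] (by
    intro p hp
    simp only [List.mem_cons, List.not_mem_nil, or_false] at hp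
    subst hp
    exact ⟨hkk, by positivity⟩)
  set K' : ℝ := max (max K K2) (max (Ch + 1) (9 / c0 + 1)) with hK'
  have k1 : K ≤ K' := (le_max_left _ _).trans (le_max_left _ _)
  have k2 : K2 ≤ K' := (le_max_right _ _).trans (le_max_left _ _)
  have k3 : Ch + 1 ≤ K' := (le_max_left _ _).trans (le_max_right _ _)
  have k4 : 9 / c0 + 1 ≤ K' := (le_max_right _ _).trans (le_max_right _ _)
  have hK'0 : 0 < K' := by linarith
  refine ⟨K', hK'0.le, fun B H hB hH => ?_⟩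
  have h2B : (1 : ℝ) ≤ 2 * B := by linarith
  have h2B0 : (0 : ℝ) < 2 * B := by linarith
  have hHK : (2 * B) ^ K ≤ H := (Real.rpow_le_rpow_of_exponent_le h2B k1).trans hH
  set R : ℝ := (2 * B) ^ kk with hR
  have hR1 : 1 ≤ R := Real.one_le_rpow h2B hkk
  have nb := hK B H R hB hHK hR1 le_rfl
  have hH1 : 1 ≤ H := nb.H1
  have hH0 : 0 < H := by linarith
  obtain ⟨⟨v0, v1, v2, v3, v4, w2⟩, ⟨w2', w3, w4, w5, w6, w3'⟩, ⟨wk, w5', w4', w6'⟩⟩ :=
    split16 (hF B hB) (p0.1 B hB) (p1.1 B hB) (p2.1 B hB) (p3.1 B hB) (p4.1 B hB) (q2.1 B hB)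
      (q2'.1 B hB) (q3.1 B hB) (q4.1 B hB) (q5.1 B hB) (q6.1 B hB) (q3'.1 B hB) (qk.1 B hB)
      (q5'.1 B hB) (q4'.1 B hB) (q6'.1 B hB)
  have u2 : 0 ≤ (C2 * B) ^ C2 := q2.1 B hB
  have u3 : 0 ≤ (C3 * B) ^ C3 := q3.1 B hB
  clear hF hK hnum s1 s2 s3 p0 p1 p2 p3 p4 q2 q2' q3 q4 q5 q6 q3' qk q5' q4' q6'
  -- powers of `H`
  have hpos : ∀ y : ℝ, 0 < H ^ y := fun y => Real.rpow_pos_of_pos hH0 y
  have hmono : ∀ {y z : ℝ}, y ≤ z → H ^ y ≤ H ^ z := fun h =>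
    Real.rpow_le_rpow_of_exponent_le hH1 h
  have hRc : R ≤ H ^ c3 := nb.Rc3
  set x : ℝ := H ^ (-(N0 * c3)) with hx
  set g : ℝ := H ^ (-((C4 + 2) * c3)) with hg
  set P5 : ℝ := (C5 * B) ^ C5 with hP5
  have hP51 : 1 ≤ P5 :=
    Real.one_le_rpow (one_le_mul_of_one_le_of_one_le h5 hB) (by linarith)
  set k : ℝ := 1 / (2 * P5) with hkd
  have hk0 : 0 < k := by positivity
  have hk1 : k ≤ 1 := by
    rw [hkd, div_le_one (by positivity)]; linarith
  have hx0 : 0 < x := hpos _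
  have hg0 : 0 < g := hpos _
  have hx1 : x ≤ 1 := by
    have := hmono (y := -(N0 * c3)) (z := 0) (by
      have : 0 < N0 * c3 := by positivity
      linarith)
    rwa [Real.rpow_zero] at this
  have hg1 : g ≤ 1 := by
    have := hmono (y := -((C4 + 2) * c3)) (z := 0) (by
      have : 0 < (C4 + 2) * c3 := by positivity
      linarith)
    rwa [Real.rpow_zero] at this
  have hHx : 1 / H ≤ x := by
    have := hmono (y := -1) (z := -(N0 * c3)) (by linarith)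
    rwa [Real.rpow_neg_one, ← one_div] at this
  have hN4 : C4 + 2 ≤ N0 := by
    have := mul_le_mul_of_nonneg_right h6 (by linarith : (0:ℝ) ≤ C4 + 2)
    rw [hN0]; linarith
  have hN4c : (C4 + 2) * c3 ≤ N0 * c3 := mul_le_mul_of_nonneg_right hN4 hc3.le
  have hxg : x ≤ g := hmono (neg_le_neg hN4c)
  refine ⟨R, R * H ^ ε, H ^ (qp 0), R * H ^ (A * c3), H ^ (d * (qm 1 + qm 2)) / (R * H ^ ε),
    x, k, g, ?_, rfl⟩
  · refine
      { nb := nb
        ε0 := hε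
        c3p := hc3
        c0p := hd0
        c00 := hdc
        R512 := v0
        rX := v1
        rup := v2
        rcap := v3
        rgen := v4
        r2 := w2
        r2' := w2'
        r3 := w3
        r4 := w4
        r5 := w5
        r6 := w6
        rk := ?_
        rh := ?_
        big := ?_
        x0 := hx0
        x1 := hx1
        k0 := hk0
        k1 := hk1
        g0 := hg0
        g1 := hg1
        nd := ?_
        wd := ?_
        v7 := ?_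
        v6 := ?_ }
    · -- rk
      have e1 := log_one hH1 (show 0 < ε / 8 by positivity)
      have e2 : R ≤ H ^ (ε / 8) := by
        have h1 := beat (x := 0) (y := ε / 8) (k := kk) hB hK'0 hkk hH (by
          have := hK2 K' k2 (kk, ε / 8) (by simp)
          simp only at this
          linarith)
        rwa [Real.rpow_zero, mul_one] at h1
      have e3 : Ck * ((C2 * B) ^ C2 * (1 + 1 / (ε / 8))) ≤ R := wk
      calc Ck * ((C2 * B) ^ C2 * (1 + Real.log H))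
          ≤ Ck * ((C2 * B) ^ C2 * ((1 + 1 / (ε / 8)) * H ^ (ε / 8))) :=
            mul_le_mul_of_nonneg_left (mul_le_mul_of_nonneg_left e1 u2) hk.le
        _ = (Ck * ((C2 * B) ^ C2 * (1 + 1 / (ε / 8)))) * H ^ (ε / 8) := by ring
        _ ≤ H ^ (ε / 8) * H ^ (ε / 8) :=
            mul_le_mul_of_nonneg_right (e3.trans e2) (hpos _).le
        _ = H ^ (ε / 4) := by rw [← Real.rpow_add hH0]; congr 1; ring
    · -- rh
      have e1 : (2 * B) ^ (Ch + 1) ≤ H := (Real.rpow_le_rpow_of_exponent_le h2B k3).trans hH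
      rw [Real.rpow_add h2B0, Real.rpow_one] at e1
      have h0 : 0 ≤ (2 * B) ^ Ch := Real.rpow_nonneg h2B0.le _
      have h1 := mul_le_mul_of_nonneg_left (show (2 : ℝ) ≤ 2 * B by linarith) h0
      linarith
    · -- big
      have e1 : (2 : ℝ) ^ (9 / c0 + 1) ≤ H := by
        refine le_trans ?_ hH
        calc (2 : ℝ) ^ (9 / c0 + 1) ≤ 2 ^ K' :=
              Real.rpow_le_rpow_of_exponent_le (by norm_num) k4
          _ ≤ (2 * B) ^ K' := Real.rpow_le_rpow (by norm_num) (by linarith) hK'0.le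
      rw [Real.rpow_add (by norm_num), Real.rpow_one] at e1
      have e2 : (2 : ℝ) ^ (9 / c0) ≤ H / 2 := by linarith
      have e3 := Real.rpow_le_rpow (by positivity) e2 hc0.le
      rw [← Real.rpow_mul (by norm_num), div_mul_cancel₀ _ hc0.ne'] at e3
      have e4 : (2 : ℝ) ^ (9 : ℝ) = 512 := by norm_num
      rwa [e4] at e3
    · -- nd
      have e1 := log_one hH1 hc3
      have e2 : (C3 * B / (x * x)) ^ C3 = (C3 * B) ^ C3 * H ^ (2 * N0 * C3 * c3) := by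
        have e3 : C3 * B / (x * x) = (C3 * B) * H ^ (2 * N0 * c3) := by
          have e5 : x * x = H ^ (-(2 * N0 * c3)) := by
            rw [hx, ← Real.rpow_add hH0]; congr 1; ring
          rw [e5, Real.rpow_neg hH0.le, div_inv_eq_mul]
        rw [e3, Real.mul_rpow (by positivity) (hpos _).le, ← Real.rpow_mul hH0.le]
        congr 2; ring
      rw [e2]
      have e6 : (C3 * B) ^ C3 * (1 + 1 / c3) ≤ R := w3'
      calc (C3 * B) ^ C3 * H ^ (2 * N0 * C3 * c3) * (1 + Real.log H)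
          ≤ (C3 * B) ^ C3 * H ^ (2 * N0 * C3 * c3) * ((1 + 1 / c3) * H ^ c3) :=
            mul_le_mul_of_nonneg_left e1 (mul_nonneg u3 (hpos _).le)
        _ = ((C3 * B) ^ C3 * (1 + 1 / c3)) * (H ^ (2 * N0 * C3 * c3) * H ^ c3) := by ring
        _ ≤ R * (H ^ (2 * N0 * C3 * c3) * H ^ c3) :=
            mul_le_mul_of_nonneg_right e6 (mul_nonneg (hpos _).le (hpos _).le)
        _ = R * H ^ (A * c3) := by
            rw [← Real.rpow_add hH0]
            congr 2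
            rw [hA]; ring
    · -- wd
      have e1 : C4 * B / k = C4 * B * (2 * P5) := by
        rw [hkd]; field_simp
      rw [e1]
      have e2 : 3 * (C4 * B * (2 * P5)) ^ C4 ≤ R := w4'
      have e3 : 0 ≤ (C4 * B * (2 * P5)) ^ C4 := Real.rpow_nonneg (by positivity) _
      have e4 : x + g + 1 / H ≤ 3 * g := by linarith
      calc (C4 * B * (2 * P5)) ^ C4 * (x + g + 1 / H)
          ≤ (C4 * B * (2 * P5)) ^ C4 * (3 * g) := mul_le_mul_of_nonneg_left e4 e3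
        _ = (3 * (C4 * B * (2 * P5)) ^ C4) * g := by ring
        _ ≤ H ^ c3 * g := mul_le_mul_of_nonneg_right (e2.trans hRc) hg0.le
        _ = H ^ (c3 + -((C4 + 2) * c3)) := by rw [hg, ← Real.rpow_add hH0]
        _ ≤ H ^ (-c3 * C4) := hmono (by
            have e : c3 + -((C4 + 2) * c3) = -c3 * C4 - c3 := by ring
            rw [e]; linarith)
        _ = (H ^ (-c3)) ^ C4 := by rw [Real.rpow_mul hH0.le]
    · -- v7
      have e1 : P5 * k = 1 / 2 := by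
        rw [hkd]; field_simp
      have e2 : 2 * P5 ≤ H ^ (N0 * c3) := by
        have e3 : 2 * P5 ≤ R := w5'
        refine (e3.trans hRc).trans (hmono ?_)
        have := mul_le_mul_of_nonneg_right (show (1 : ℝ) ≤ N0 by linarith) hc3.le
        linarith
      have e4 : 2 * P5 * x ≤ 1 := by
        calc 2 * P5 * x ≤ H ^ (N0 * c3) * x := mul_le_mul_of_nonneg_right e2 hx0.le
          _ = 1 := by rw [hx, ← Real.rpow_add hH0, add_neg_cancel, Real.rpow_zero]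
      have e5 : P5 * (x + k) = P5 * x + P5 * k := by ring
      rw [e5, e1]; linarith
    · -- v6
      have e1 : C6 * B / k = C6 * B * (2 * P5) := by
        rw [hkd]; field_simp
      rw [e1]
      have e2 : 3 * (C6 * B * (2 * P5)) ^ C6 ≤ R := w6'
      have e3 : 0 ≤ (C6 * B * (2 * P5)) ^ C6 := Real.rpow_nonneg (by positivity) _
      have e4 : x + x + 1 / H ≤ 3 * x := by linarith
      calc (C6 * B * (2 * P5)) ^ C6 * (x + x + 1 / H)
          ≤ (C6 * B * (2 * P5)) ^ C6 * (3 * x) := mul_le_mul_of_nonneg_left e4 e3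
        _ = (3 * (C6 * B * (2 * P5)) ^ C6) * x := by ring
        _ ≤ H ^ c3 * x := mul_le_mul_of_nonneg_right (e2.trans hRc) hx0.le
        _ = H ^ (c3 + -(N0 * c3)) := by rw [hx, ← Real.rpow_add hH0]
        _ ≤ H ^ (-((C4 + 2) * c3) * C6) := hmono (by
            have e : c3 + -((C6 * (C4 + 2) + 2) * c3) = -((C4 + 2) * c3) * C6 - c3 := by ring
            rw [hN0, e]; linarith)
        _ = g ^ C6 := by rw [hg, Real.rpow_mul hH0.le]

end Crest.Agent.R136.Al500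
end

-- ▼ part R136/Gen3_467
section

/-!
# R136, PLAN 2 (3) (aligned curved pairs): numbers of `hGen` (helper467)

* `gen_num` : the number condition of `wedge_at` from `Numb`;
* `hGen_lit` : `hGen` of `al_end'`.
-/

set_option autoImplicit false
set_option linter.unusedVariables false

open Finset

namespace Crest.Agent.R136.Gen467

open Crest.Agent.R136.Sh605 Crest.Agent.R136.Hcp208
open Crest.Agent.R136.K4 (Plk4)
open Crest.Agent.R136.Tlt51 (Shp InP)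
open Crest.Agent.R136.Pl2W102 (Near Two1)
open Crest.Agent.R136.Alw500 (Mul lbl)
open Crest.Agent.R136.Bt624 (Numb)


section two

variable {qm qp : Fin 3 → ℝ} {L : ℕ → Ln4} {P : Finset ℕ} {cu cv : ℕ → ℕ} {Uf Vf : ℕ → Plk4}
  {W M a w1 w2 z0 ρ r : ℝ}

open Classical in
/-- **`hGen` of `al_end'`** -/
theorem hGen_lit (h : Two1 qm qp L P cu cv Uf Vf W M a w1 w2 z0 ρ r) {H : ℕ} (hH : 1 ≤ H)
    {c0 q p A c3 ε R X Q Z Y : ℝ} (N : Numb c0 q p A c3 ε R H X Q Z Y)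
    {B Bad : ℕ × ℕ → Prop} {Gen : ℕ × ℕ → ℕ → Prop}
    (hM : Mul P cv L Vf B z0 ρ w1 w2 W H ((H : ℝ) ^ (-c3))
      ((H : ℝ) ^ (4 * (ε / 4)) * ((H : ℝ) ^ (-c3)) ^ q * M / (H : ℝ) ^ 2))
    (hB : ∀ p, B p → Bad p) (hR : 2 * (2 * W ^ 3) ^ 6 ≤ R)
    (hw : ∀ t ∈ P, ∀ j < H, ¬ Bad (t, j) → Wedge L cv Vf W z0 ρ ((H : ℝ) ^ (-c3)) H Gen t j) :
    ∀ t ∈ P, ∀ j < H, ¬ Bad (t, j) → 8 * (X * (H : ℝ) ^ 2 * ((P.filter fun s =>
      ¬ Bad (s, j) ∧ cv s = cv t ∧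
      lbl Vf L w1 w2 z0 ρ H (cv t) s j = lbl Vf L w1 w2 z0 ρ H (cv t) t j ∧
      ¬ Gen (t, j) s).card : ℝ)) ≤ M := by
  intro t ht j hj hb
  have hW := h.W1
  have hH0 : (0 : ℝ) < H := by linarith [N.H1]
  have hb0 : 0 ≤ (H : ℝ) ^ (-c3) := Real.rpow_nonneg hH0.le _
  have hm : 0 ≤ (H : ℝ) ^ (4 * (ε / 4)) * ((H : ℝ) ^ (-c3)) ^ q * M / (H : ℝ) ^ 2 := by
    have := h.M0.le
    positivity
  have h1 := hgen_of h hH (Gen := Gen) (K1 := 2 * W ^ 2) (β := (H : ℝ) ^ (-c3)) hm hM hB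
    (by nlinarith) le_rfl hb0 (by
      have : W ≤ 2 * W ^ 2 := by nlinarith
      calc (H : ℝ) ^ (-c3) * W ≤ (H : ℝ) ^ (-c3) * (2 * W ^ 2) := mul_le_mul_of_nonneg_left this hb0
        _ = 2 * W ^ 2 * (H : ℝ) ^ (-c3) := by ring) hw t ht j hj hb
  refine N.wedge4 (G := 2 * (2 * W ^ 3) ^ 6) h.M0.le hR (h1.trans (le_of_eq ?_))
  ring

end two

end Crest.Agent.R136.Gen467
end

-- ▼ part R136/Cfo_877
section

/-!
# R136, PLAN 2 (AL), balanced case: the configuration of record (helper877)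

`cf_of` : from the hypotheses of `AlCore` with no line at which the sheets are close up to
`(2 W)^(K + 1) a` in both directions, a configuration `Al500.Cf` with `H ≥ (2 W)^K`;
`alCore_of` : `AlCore` from the impossibility of such configurations.
-/

set_option autoImplicit false
set_option linter.unusedVariables false

open Finset

namespace Crest.Agent.R136.Cfo877

open Crest.Agent.R136.Sh605 Crest.Agent.R136.Alr877
open Crest.Agent.R136.K4 (Plk4)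
open Crest.Agent.R136.Tlt51 (Shp InP)
open Crest.Agent.R136.Deep51 (CloseC)
open Crest.Agent.R136.KapP335 (DetP kapP)
open Crest.Agent.R136.Tl102 (angC)
open Crest.Agent.R136.Pl2W102 (Near Ex2 Two1)
open Crest.Agent.R136.Pl2 (Two7 kp)
open Crest.Agent.R136.Rf877 (Tub)
open Crest.Agent.R136.Al877 (closeC_mono)
open Crest.Agent.R136.Al500 (Dm Cl2 Cf)

theorem cl2_mono {S S' : Plk4} {s s' : ℝ} {T : Ln4} {z0 ρ : ℝ} (h : Cl2 S S' s T z0 ρ)
    (hs : s ≤ s') : Cl2 S S' s' T z0 ρ :=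
  ⟨closeC_mono h.1 hs, closeC_mono h.2 hs⟩

/-- level of the discrepancy of two sheets -/
theorem exists_lv {S S' : Plk4} {T : Ln4} {z0 ρ a X Y : ℝ} (ha : 0 < a) (hX : 1 ≤ X)
    (lo : ¬ Cl2 S S' (X * a) T z0 ρ) (up : Cl2 S S' (Y * a) T z0 ρ) :
    ∃ n : ℕ, X < 2 * 2 ^ n ∧ (2:ℝ) ^ n < Y ∧ Cl2 S S' (2 * 2 ^ n * a) T z0 ρ ∧
      ¬ Cl2 S S' (2 ^ n * a) T z0 ρ := by
  classical
  have hex : ∃ n : ℕ, Cl2 S S' (2 ^ n * a) T z0 ρ := by
    obtain ⟨n, hn⟩ := pow_unbounded_of_one_lt Y (one_lt_two)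
    exact ⟨n, cl2_mono up (mul_le_mul_of_nonneg_right hn.le ha.le)⟩
  obtain ⟨m, h1, h2⟩ : ∃ m : ℕ, Cl2 S S' (2 ^ m * a) T z0 ρ ∧
      ∀ k < m, ¬ Cl2 S S' (2 ^ k * a) T z0 ρ :=
    ⟨Nat.find hex, Nat.find_spec hex, fun k hk => Nat.find_min hex hk⟩
  have hm : X < 2 ^ m := by
    by_contra hcon
    push Not at hcon
    exact lo (cl2_mono h1 (mul_le_mul_of_nonneg_right hcon ha.le))
  rcases m with _ | n
  · exfalso
    rw [pow_zero] at hm
    linarith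
  · have h3 := h2 n (Nat.lt_succ_self n)
    have e : (2:ℝ) ^ (n + 1) = 2 * 2 ^ n := by rw [pow_succ]; ring
    rw [e] at hm h1
    refine ⟨n, hm, ?_, h1, h3⟩
    by_contra hcon
    push Not at hcon
    exact h3 (cl2_mono up (mul_le_mul_of_nonneg_right hcon ha.le))

/-- number of levels -/
theorem lv_le {n : ℕ} {W k a w1 : ℝ} (hW : 1 ≤ W) (ha : 0 < a) (hw : 0 < w1)
    (hlg : Real.log (w1 / a) ≤ W) (hn : (2:ℝ) ^ n < W * k / a) (hk : k ≤ 13 * (W * w1)) :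
    (n : ℝ) ≤ 9 * W := by
  have W0 : 0 < W := by linarith
  have h1 : (2:ℝ) ^ n ≤ 2 ^ 4 * W ^ 2 * (w1 / a) := by
    refine hn.le.trans ?_
    have : W * k / a ≤ W * (13 * (W * w1)) / a :=
      div_le_div_of_nonneg_right (mul_le_mul_of_nonneg_left hk W0.le) ha.le
    refine this.trans ?_
    have e : W * (13 * (W * w1)) / a = 13 * (W ^ 2 * (w1 / a)) := by ring
    rw [e]
    have : 0 ≤ W ^ 2 * (w1 / a) := by positivity
    nlinarith
  have h2 := Real.log_le_log (by positivity) h1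
  rw [Real.log_pow, Real.log_mul (by positivity) (by positivity),
    Real.log_mul (by positivity) (by positivity), Real.log_pow, Real.log_pow] at h2
  have h3 : Real.log W ≤ W - 1 := Real.log_le_sub_one_of_pos W0
  have h4 := Real.log_two_gt_d9
  push_cast at h2
  have h5 : (n : ℝ) * Real.log 2 ≤ 4 * Real.log 2 + 3 * W := by linarith
  by_contra hcon
  push Not at hcon
  have h6 : ((n : ℝ) - 4) * Real.log 2 ≤ 3 * W := by linarith
  have h7 : 5 * W < (n : ℝ) - 4 := by linarith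
  have h8 : 5 * W * Real.log 2 < ((n : ℝ) - 4) * Real.log 2 :=
    mul_lt_mul_of_pos_right h7 (by linarith)
  nlinarith

/-- numbers of the refinement -/
theorem num_of {C1 W : ℝ} (hC1 : 1 ≤ C1) (hW : 1 ≤ W) :
    1 ≤ ⌈C1 * (W ^ 2) ^ C1⌉₊ ∧
    C1 * (W ^ 2) ^ C1 * (1 / (⌈C1 * (W ^ 2) ^ C1⌉₊ : ℝ)) ≤ 1 ∧
    4 * (3 * (⌈C1 * (W ^ 2) ^ C1⌉₊ : ℝ)) ^ 4 * (4 * (10 * W) * W) ≤
      (2 * W) ^ (8 * C1 + 20) := by
  have W0 : 0 < W := by linarith
  set x : ℝ := C1 * (W ^ 2) ^ C1 with hx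
  have hp : 1 ≤ (W ^ 2) ^ C1 := Real.one_le_rpow (one_le_pow₀ hW) (by linarith)
  have hx1 : 1 ≤ x := by
    rw [hx]
    nlinarith
  have h1 : 1 ≤ ⌈x⌉₊ := Nat.one_le_iff_ne_zero.2 (by
    have : 0 < ⌈x⌉₊ := Nat.ceil_pos.2 (by linarith)
    omega)
  have hm0 : (0:ℝ) < (⌈x⌉₊ : ℝ) := by exact_mod_cast h1
  have hm1 : x ≤ (⌈x⌉₊ : ℝ) := Nat.le_ceil x
  have hm2 : (⌈x⌉₊ : ℝ) ≤ 2 * x := by
    have := Nat.ceil_lt_add_one (by linarith : 0 ≤ x)
    linarith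
  refine ⟨h1, ?_, ?_⟩
  · rw [mul_one_div, div_le_one hm0]
    exact hm1
  · have hC2 : C1 ≤ (2:ℝ) ^ C1 := by
      have := one_add_mul_self_le_rpow_one_add (s := 1) (by norm_num) hC1
      norm_num at this
      linarith
    have hx2 : x ≤ (2 * W) ^ C1 * W ^ C1 := by
      have e : (W ^ 2) ^ C1 = W ^ C1 * W ^ C1 := by
        rw [← Real.mul_rpow W0.le W0.le]
        congr 1
        ring
      rw [hx, e, Real.mul_rpow (by norm_num) W0.le]
      have : 0 ≤ W ^ C1 * W ^ C1 := by positivity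
      calc C1 * (W ^ C1 * W ^ C1) ≤ 2 ^ C1 * (W ^ C1 * W ^ C1) :=
            mul_le_mul_of_nonneg_right hC2 this
        _ = _ := by ring
    have hx3 : x ≤ (2 * W) ^ (2 * C1) := by
      refine hx2.trans ?_
      rw [show 2 * C1 = C1 + C1 by ring, Real.rpow_add (by linarith)]
      refine mul_le_mul_of_nonneg_left ?_ (by positivity)
      exact Real.rpow_le_rpow W0.le (by linarith) (by linarith)
    have hx4 : x ^ 4 ≤ (2 * W) ^ (8 * C1) := by
      calc x ^ 4 ≤ ((2 * W) ^ (2 * C1)) ^ 4 := pow_le_pow_left₀ (by linarith) hx3 4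
        _ = (2 * W) ^ (8 * C1) := by
            rw [← Real.rpow_natCast, ← Real.rpow_mul (by linarith)]
            congr 1
            push_cast
            ring
    calc 4 * (3 * (⌈x⌉₊ : ℝ)) ^ 4 * (4 * (10 * W) * W)
        = 12960 * W ^ 2 * (⌈x⌉₊ : ℝ) ^ 4 := by ring
      _ ≤ 12960 * W ^ 2 * (2 * x) ^ 4 :=
          mul_le_mul_of_nonneg_left (pow_le_pow_left₀ hm0.le hm2 4) (by positivity)
      _ = 207360 * W ^ 2 * x ^ 4 := by ring
      _ ≤ 207360 * W ^ 2 * (2 * W) ^ (8 * C1) :=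
          mul_le_mul_of_nonneg_left hx4 (by positivity)
      _ ≤ (2 * W) ^ 20 * (2 * W) ^ (8 * C1) := by
          refine mul_le_mul_of_nonneg_right ?_ (by positivity)
          have e : (2 * W) ^ 20 = 1048576 * W ^ 2 * W ^ 18 := by ring
          rw [e]
          have h18 : 1 ≤ W ^ 18 := one_le_pow₀ hW
          have h2 : 0 ≤ W ^ 2 := by positivity
          nlinarith [mul_le_mul_of_nonneg_left h18 h2]
      _ = (2 * W) ^ (8 * C1 + 20) := by
          rw [Real.rpow_add (by linarith), mul_comm]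
          congr 1
          have := pw_nat (W := W) 20
          push_cast at this
          exact this.symm

/-- **the configuration of record** -/
theorem cf_of (C1 : ℝ) (hC1 : 1 ≤ C1) {qm qp : Fin 3 → ℝ} (hq : ∀ k, 0 ≤ qm k ∧ qm k ≤ qp k)
    {K : ℝ} (hK : 0 ≤ K) {L : ℕ → Ln4} {P : Finset ℕ} {cu cv : ℕ → ℕ} {Uf Vf : ℕ → Plk4}
    {W M a w1 w2 z0 ρ zL ρL r : ℝ} (h : Two7 qm qp L P cu cv Uf Vf W M a w1 w2 z0 ρ zL ρL r)
    (hP : P.Nonempty) (hB : ∀ t ∈ P, Bal W (Uf (cu t)) (Vf (cv t)) (L t) w1 w2 z0 ρ)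
    (hlo : ∀ t ∈ P, ¬ Cl2 (Uf (cu t)) (Vf (cv t)) ((2 * W) ^ (K + 1) * a) (L t) z0 ρ) :
    ∃ (P' : Finset ℕ) (du dv : ℕ → ℕ) (W' B κ E : ℝ) (H : ℕ), P' ⊆ P ∧
      Cf qm qp L P' du dv (fun k => Uf (Nat.unpair k).1) (fun k => Vf (Nat.unpair k).1)
        W' B M a w1 w2 z0 ρ zL ρL r κ E H ∧
      C1 * W' ^ C1 * κ ≤ 1 ∧ B ≤ (2 * W) ^ (8 * C1 + 20) ∧ W' = W ^ 2 ∧ (2 * W) ^ K ≤ H := by
  classical
  have W1 := h.to1.W1
  have W0 : 0 < W := by linarith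
  have a0 := h.to1.a0
  have hX1 : 1 ≤ (2 * W) ^ (K + 1) := pw_one_le W1 (by linarith)
  -- levels
  have hlv : ∀ t, ∃ n : ℕ, t ∈ P → (2 * W) ^ (K + 1) < 2 * 2 ^ n ∧
      (2:ℝ) ^ n < W * kp (Uf (cu t)) z0 ρ (L t) / a ∧
      Cl2 (Uf (cu t)) (Vf (cv t)) (2 * 2 ^ n * a) (L t) z0 ρ ∧
      ¬ Cl2 (Uf (cu t)) (Vf (cv t)) (2 ^ n * a) (L t) z0 ρ := by
    intro t
    by_cases ht : t ∈ P
    · obtain ⟨n, hn⟩ := exists_lv (Y := W * kp (Uf (cu t)) z0 ρ (L t) / a) a0 hX1 (hlo t ht)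
        (by rw [div_mul_cancel₀ _ a0.ne']; exact ⟨(hB t ht).cl, (hB t ht).cl'⟩)
      exact ⟨n, fun _ => hn⟩
    · exact ⟨0, fun h => absurd h ht⟩
  choose lv hlv using hlv
  have hk13 : ∀ t ∈ P, kp (Uf (cu t)) z0 ρ (L t) ≤ 13 * (W * w1) := by
    intro t ht
    have k1 : kp (Uf (cu t)) z0 ρ (L t) ≤ 13 * (Uf (cu t)).w 0 :=
      kapP_le h.to1.r0 h.to1.ρ0.le (h.to1.shU t ht) (h.to1.inU t ht)
    have k2 := (h.to1.shU t ht).w0_le
    have k3 := (h.to1.shU t ht).w_le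
    have k4 := (h.to1.dimU t ht).2.1.2
    linarith
  have hcnt : ((P.image lv).card : ℝ) ≤ 10 * W := by
    have hsub : P.image lv ⊆ Finset.range (⌊9 * W⌋₊ + 1) := by
      intro b hb
      obtain ⟨t, ht, rfl⟩ := mem_image.1 hb
      rw [mem_range, Nat.lt_succ_iff]
      exact Nat.le_floor (lv_le W1 a0 h.to1.w10 h.to1.lg (hlv t ht).2.1 (hk13 t ht))
    have h1 := card_le_card hsub
    rw [card_range] at h1
    have h2 : ((P.image lv).card : ℝ) ≤ (⌊9 * W⌋₊ : ℝ) + 1 := by exact_mod_cast h1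
    have h3 := Nat.floor_le (by positivity : 0 ≤ 9 * W)
    linarith
  obtain ⟨n0, hn0, hpop⟩ := Pop615.popular P lv hP
  have hQne : (P.filter fun t => lv t = n0).Nonempty := by
    obtain ⟨t, ht, he⟩ := mem_image.1 hn0
    exact ⟨t, mem_filter.2 ⟨ht, he⟩⟩
  obtain ⟨P1, hP1, hne1, -, h1⟩ := two7_prune h (filter_subset _ P) hQne (Lo := 10 * W)
    (by linarith) (hpop.trans (mul_le_mul_of_nonneg_right hcnt (Nat.cast_nonneg _)))
  obtain ⟨hm1, hm2, hm3⟩ := num_of hC1 W1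
  set m : ℕ := ⌈C1 * (W ^ 2) ^ C1⌉₊ with hm
  obtain ⟨P2, hP2, hc2, du, dv, hu, hv, h2, t1, t2⟩ := refine7 hq h1 m hm1
  have hP1P : P1 ⊆ P := hP1.trans (filter_subset _ _)
  have hsub : P2 ⊆ P := hP2.trans hP1P
  have hl0 : ∀ t ∈ P2, lv t = n0 := fun t ht => (mem_filter.1 (hP1 (hP2 ht))).2
  have hne2 : P2.Nonempty := by
    rw [← card_pos]
    have : (0:ℝ) < P1.card := by exact_mod_cast hne1.card_pos
    have : (0:ℝ) < P2.card := by linarith
    exact_mod_cast this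
  have WW : W ≤ W ^ 2 := by nlinarith
  have WW1 : 1 ≤ W ^ 2 := one_le_pow₀ W1
  have hdim : ∀ {x y : ℝ}, 0 ≤ x → 0 ≤ y → Near W x y → Near (W ^ 2) x y := by
    intro x y hx hy hn
    exact ⟨hn.1.trans (mul_le_mul_of_nonneg_right WW hy),
      hn.2.trans (mul_le_mul_of_nonneg_right WW hx)⟩
  have posS : ∀ {S : Plk4}, Shp S z0 ρ r → 0 ≤ S.a ∧ 0 ≤ S.w 1 ∧ 0 ≤ S.w 2 := by
    intro S hS
    have a0 : 0 < S.a := h.to1.r0.trans_le hS.r0_le
    have w0 : 0 < S.w 0 := a0.trans_le hS.a_le0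
    have w2 : 0 < S.w 2 := w0.trans_le hS.w0_le
    exact ⟨a0.le, (w2.trans_le hS.w_le).le, w2.le⟩
  have hWB : W ^ 2 ≤ 4 * (3 * (m : ℝ)) ^ 4 * (4 * (10 * W) * W) := by
    have hm1' : (1:ℝ) ≤ m := by exact_mod_cast hm1
    have h3 : (1:ℝ) ≤ (3 * (m : ℝ)) ^ 4 := one_le_pow₀ (by linarith)
    have h4 : 0 ≤ W ^ 2 := by positivity
    calc W ^ 2 ≤ 160 * W ^ 2 * 1 := by linarith
      _ ≤ 160 * W ^ 2 * (3 * (m : ℝ)) ^ 4 := mul_le_mul_of_nonneg_left h3 (by positivity)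
      _ = _ := by ring
  -- curvature extents are nonnegative
  have hkU : ∀ t ∈ P, 0 ≤ kp (Uf (cu t)) z0 ρ (L t) := by
    intro t ht
    by_contra hneg
    push Not at hneg
    have k1 := (hlv t ht).2.1
    have : W * kp (Uf (cu t)) z0 ρ (L t) / a < 0 := div_neg_of_neg_of_pos
      (mul_neg_of_pos_of_neg W0 hneg) a0
    have : (0:ℝ) < 2 ^ (lv t) := by positivity
    linarith
  have hkV : ∀ t ∈ P, 0 ≤ kp (Vf (cv t)) z0 ρ (L t) := by
    intro t ht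
    by_contra hneg
    push Not at hneg
    have := mul_neg_of_pos_of_neg W0 hneg
    have := hkU t ht
    have := (hB t ht).near'
    linarith
  have hkE : ∀ t ∈ P2, (2:ℝ) ^ n0 * a ≤ W * kp (Uf (cu t)) z0 ρ (L t) := by
    intro t ht
    have k1 := (hlv t (hsub ht)).2.1
    rw [hl0 t ht, lt_div_iff₀ a0] at k1
    exact k1.le
  have hinv : (W ^ 2)⁻¹ ≤ W⁻¹ := inv_anti₀ W0 WW
  refine ⟨P2, du, dv, W ^ 2, 4 * (3 * (m : ℝ)) ^ 4 * (4 * (10 * W) * W), 1 / (m : ℝ), (2:ℝ) ^ n0,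
    2 ^ n0, hsub, ?_, hm2, hm3, rfl, ?_⟩
  · have m0 : (0:ℝ) < m := by exact_mod_cast hm1
    exact
      { ne := hne2
        two := h2
        qq := hq
        W1 := WW1
        WB := hWB
        κ0 := by positivity
        E1 := one_le_pow₀ (by norm_num)
        EH := by push_cast; exact le_rfl
        HE := by
          push_cast
          have : (0:ℝ) ≤ 2 ^ n0 := by positivity
          linarith
        dmU := fun t ht => by
          obtain ⟨d1, d2, d3⟩ := h.to1.dimU t (hsub ht)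
          obtain ⟨p1, p2, p3⟩ := posS (h.to1.shU t (hsub ht))
          simp only [hu, Dm]
          exact ⟨hdim a0.le p1 d1, hdim h.to1.w10.le p2 d2, hdim h.to1.w20.le p3 d3⟩
        dmV := fun t ht => by
          obtain ⟨d1, d2, d3⟩ := h.to1.dimV t (hsub ht)
          obtain ⟨p1, p2, p3⟩ := posS (h.to1.shV t (hsub ht))
          simp only [hv, Dm]
          exact ⟨hdim a0.le p1 d1, hdim h.to1.w10.le p2 d2, hdim h.to1.w20.le p3 d3⟩
        ang := fun t ht => by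
          simp only [hu, hv]
          exact (hB t (hsub ht)).ang.trans (mul_le_mul_of_nonneg_right WW h.to1.w20.le)
        up := fun t ht => by
          simp only [hu, hv]
          have k1 := (hlv t (hsub ht)).2.2.1
          rwa [hl0 t ht] at k1
        lo := fun t ht => by
          simp only [hu, hv]
          have k1 := (hlv t (hsub ht)).2.2.2
          rwa [hl0 t ht] at k1
        kE := fun t ht => by
          simp only [hu]
          exact (hkE t ht).trans (mul_le_mul_of_nonneg_right WW (hkU t (hsub ht)))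
        kE' := fun t ht => by
          simp only [hv]
          refine (hkE t ht).trans ?_
          calc W * kp (Uf (cu t)) z0 ρ (L t) ≤ W * (W * kp (Vf (cv t)) z0 ρ (L t)) :=
                mul_le_mul_of_nonneg_left (hB t (hsub ht)).near' W0.le
            _ = _ := by ring
        kUV := fun t ht => by
          simp only [hu, hv]
          exact (hB t (hsub ht)).near'.trans (mul_le_mul_of_nonneg_right WW (hkV t (hsub ht)))
        kVU := fun t ht => by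
          simp only [hu, hv]
          exact (hB t (hsub ht)).near.trans (mul_le_mul_of_nonneg_right WW (hkU t (hsub ht)))
        detU := fun t ht => by
          simp only [hu]
          exact (hB t (hsub ht)).det.mono hinv
        detV := fun t ht => by
          simp only [hv]
          exact (hB t (hsub ht)).det'.mono hinv
        tubU := fun s hs t ht hst => by
          simp only [hu]
          exact (t1 s (hP2 hs) t (hP2 ht) hst).2
        tubV := fun s hs t ht hst => by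
          simp only [hv]
          exact (t2 s (hP2 hs) t (hP2 ht) hst).2
        fr := fun t ht => by
          have hk := hkU t (hsub ht)
          obtain ⟨-, u1, u2⟩ := posS (h.to1.shU t (hsub ht))
          obtain ⟨-, v1, v2⟩ := posS (h.to1.shV t (hsub ht))
          obtain ⟨f, g, h1, h2, h3, h4, h5, h6, h7⟩ := (hB t (hsub ht)).fr
          have hm := mul_le_mul_of_nonneg_right WW hk
          simp only [hu, hv]
          exact ⟨f, g, fh_mono h1 WW hk u1 u2, fl_mono h2 WW W0 hk, fh_mono h3 WW hk v1 v2,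
            h4.trans hm, h5.trans hm, h6.trans hm, h7.trans hm⟩ }
  · obtain ⟨t, ht⟩ := hne2
    have k1 := (hlv t (hsub ht)).1
    rw [hl0 t ht, pw_add W1, Real.rpow_one] at k1
    have k2 : 0 ≤ (2 * W) ^ K := Real.rpow_nonneg (by linarith) _
    push_cast
    nlinarith

/-- **no configuration with large discrepancy** (the theorem of helper500) -/
def AlkFalse : Prop := ∃ η : ℝ, 0 < η ∧ ∀ qm qp : Fin 3 → ℝ, Ex2 η qm qp →
  ∃ C1 K : ℝ, 1 ≤ C1 ∧ 0 ≤ K ∧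
  ∀ (L : ℕ → Ln4) (P : Finset ℕ) (cu cv : ℕ → ℕ) (Uf Vf : ℕ → Plk4)
    (W B M a w1 w2 z0 ρ zL ρL r κ E : ℝ) (H : ℕ),
    Cf qm qp L P cu cv Uf Vf W B M a w1 w2 z0 ρ zL ρL r κ E H → C1 * W ^ C1 * κ ≤ 1 →
    (2 * B) ^ K ≤ H → False

/-- **(B) balanced curvatures from the impossibility of configurations** -/
theorem alCore_of (hF : AlkFalse) : AlCore := by
  obtain ⟨η, hη, hF⟩ := hF
  refine ⟨η, hη, fun qm qp hE => ?_⟩
  obtain ⟨C1, K, hC1, hK, hF⟩ := hF qm qp hE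
  set K1 : ℝ := (8 * C1 + 21) * K with hK1
  have hK10 : 0 ≤ K1 := by positivity
  refine ⟨0, K1 + 1, le_rfl, by linarith, ?_⟩
  intro L P cu cv Uf Vf W M a w1 w2 z0 ρ zL ρL r h hP hB
  by_contra hcon
  push Not at hcon
  have W1 := h.to1.W1
  obtain ⟨P', du, dv, W', B, κ, E, H, hP', hCf, hκ, hBb, hW', hH⟩ := cf_of C1 hC1 hE.le hK10 h hP
    (fun t ht => (hB t ht).2) (fun t ht hc => hcon t ht hc.1 hc.2)
  refine hF L P' du dv _ _ W' B M a w1 w2 z0 ρ zL ρL r κ E H hCf hκ (le_trans ?_ hH)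
  have hB0 : 0 ≤ B := by
    have := hCf.W1
    have := hCf.WB
    linarith
  have h1 : 2 * B ≤ (2 * W) ^ (8 * C1 + 21) := by
    have e : (2 * W) ^ (8 * C1 + 21) = (2 * W) ^ (8 * C1 + 20) * (2 * W) := by
      rw [show 8 * C1 + 21 = (8 * C1 + 20) + 1 by ring, pw_add W1 (y := 1), Real.rpow_one]
    rw [e]
    have h2 : 0 ≤ (2 * W) ^ (8 * C1 + 20) := Real.rpow_nonneg (by linarith) _
    nlinarith
  calc (2 * B) ^ K ≤ ((2 * W) ^ (8 * C1 + 21)) ^ K :=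
        Real.rpow_le_rpow (by linarith) h1 hK
    _ = (2 * W) ^ K1 := by rw [← Real.rpow_mul (by linarith)]

end Crest.Agent.R136.Cfo877
end

-- ▼ part R136/AlX_500

/-!
# R136 (S0187), PLAN 2 (AL), balanced case: no configuration (helper500)

* `alkFalse_of` : `Cfo877.AlkFalse` from the six leaves of `AlK_500` and `KM32`.
-/

set_option autoImplicit false
set_option linter.unusedVariables false

open Finset

namespace Crest.Agent.R136.Al500

open Crest.Agent.R136.Sh605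
open Crest.Agent.R136.K4 (Plk4)
open Crest.Agent.R136.Tlt51 (Shp InP)
open Crest.Agent.R136.Deep51 (CloseC)
open Crest.Agent.R136.KapP335 (DetP kapP)
open Crest.Agent.R136.Tl102 (angC)
open Crest.Agent.R136.Pl2W102 (Near Ex2 Two1)
open Crest.Agent.R136.Pl2 (Two7 kp)
open Crest.Agent.R136.Rf877 (Tub)
open Crest.Agent.R136.Alw500 (PLh Mul lbl two_swap kmb_two box_two up_of_mul al_end' bad_or)
open Crest.Agent.R136.Gen467 (Wedge hGen_lit kmb_of_mul)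
open Crest.Agent.R136.AlD601 (Nd Sm Gn)
open Crest.Agent.R136.Bt624 (Numb)
open Crest.Agent.R136.Gbx862 (gb)
open Crest.Agent.R138.Tub70 (KM32)

theorem cnst_mono {C D W κ : ℝ} (h1 : 0 ≤ C) (h : C ≤ D) (hW : 1 ≤ W) (hκ : 0 ≤ κ)
    (hD : D * W ^ D * κ ≤ 1) : C * W ^ C * κ ≤ 1 := by
  refine le_trans ?_ hD
  refine mul_le_mul_of_nonneg_right ?_ hκ
  exact mul_le_mul h (Real.rpow_le_rpow_of_exponent_le hW h) (Real.rpow_nonneg (by linarith) _)
    (h1.trans h)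

section

variable {qm qp : Fin 3 → ℝ} {L : ℕ → Ln4} {P : Finset ℕ} {cu cv : ℕ → ℕ} {Uf Vf : ℕ → Plk4}
  {W B M a w1 w2 z0 ρ zL ρL r κ E : ℝ} {H : ℕ}

theorem Cf.al (h : Cf qm qp L P cu cv Uf Vf W B M a w1 w2 z0 ρ zL ρL r κ E H) :
    ∀ t ∈ P, Hcp208.Al W E a w1 w2 z0 ρ r (Uf (cu t)) (Vf (cv t)) (L t) := fun t ht =>
  { K1 := h.W1
    r0 := h.two.to1.r0
    ρ0 := h.two.to1.ρ0
    a0 := h.two.to1.a0
    sh := h.two.to1.shU t ht
    sh' := h.two.to1.shV t ht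
    mem := h.two.to1.inU t ht
    mem' := h.two.to1.inV t ht
    dim := h.dmU t ht
    dim' := h.dmV t ht
    ang := h.ang t ht
    cur := h.kE t ht
    det := h.detU t ht
    far := h.lo t ht }

end

open Classical in
set_option maxHeartbeats 1600000 in
/-- **no configuration** -/
theorem alkFalse_of (hKM : ∀ V : ℝ, KM32 V) (l1 : LeafPL) (l2 : LeafHull) (l3 : LeafNd)
    (l4 : LeafWedge) (l5 : LeafV7) (l6 : LeafV6) : Cfo877.AlkFalse := by
  obtain ⟨c0, hc0, hc01, Ch, hCh, N, hN, hcap⟩ := Hcp208.hcap_gb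
  obtain ⟨C3, h3, L3⟩ := l3
  obtain ⟨C4, h4, L4⟩ := l4
  obtain ⟨C5, h5, L5⟩ := l5
  obtain ⟨C6, h6, L6⟩ := l6
  obtain ⟨c0', η, hc0', hc0'c, hη, key⟩ := nums h3 h4 h5 h6 hc0 (by linarith)
  refine ⟨η, hη, fun qm qp hE => ?_⟩
  obtain ⟨c3, ε, hc3, hε, key⟩ := key qm qp hE
  obtain ⟨C1, h1, L1⟩ := l1 qm qp hE.le
  obtain ⟨C2, h2, L2⟩ := l2 qm qp hE.le
  obtain ⟨Ck, hCk, hkmb⟩ := kmb_two hKM (ε / 4) (by positivity)
  obtain ⟨K, hK, key⟩ := key C1 C2 Ch Ck N h1 h2 hCh hCk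
  refine ⟨C1 + C2 + C3 + C4 + C5 + C6, K, by linarith, hK, ?_⟩
  intro L P cu cv Uf Vf W B M a w1 w2 z0 ρ zL ρL r κ E H hC hκ hH
  have hB : 1 ≤ B := hC.W1.trans hC.WB
  obtain ⟨R, X, Q, Z, Y, x, k, g, n, hQ⟩ := key B H hB hH
  have nb := n.nb
  have to1 := hC.two.to1
  have hκ0 := hC.κ0.le
  have κ1 : C1 * W ^ C1 * κ ≤ 1 := cnst_mono (by linarith) (by linarith) hC.W1 hκ0 hκ
  have κ2 : C2 * W ^ C2 * κ ≤ 1 := cnst_mono (by linarith) (by linarith) hC.W1 hκ0 hκ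
  have κ3 : C3 * W ^ C3 * κ ≤ 1 := cnst_mono (by linarith) (by linarith) hC.W1 hκ0 hκ
  have κ4 : C4 * W ^ C4 * κ ≤ 1 := cnst_mono (by linarith) (by linarith) hC.W1 hκ0 hκ
  have κ5 : C5 * W ^ C5 * κ ≤ 1 := cnst_mono (by linarith) (by linarith) hC.W1 hκ0 hκ
  have κ6 : C6 * W ^ C6 * κ ≤ 1 := cnst_mono (by linarith) (by linarith) hC.W1 hκ0 hκ
  have hH1 : (1 : ℝ) ≤ H := nb.H1
  have hH0 : (0 : ℝ) < H := by linarith
  have hHR : (512 : ℝ) ≤ H := n.R512.trans nb.RH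
  have hHn : 512 ≤ H := by exact_mod_cast hHR
  have hE0 : 0 < E := by linarith [hC.E1]
  have hq0 : 0 ≤ qm 1 + qm 2 := by linarith [(hE.le 1).1, (hE.le 2).1]
  have hM0 := to1.M0
  -- the leaves
  obtain ⟨pl1, pl2⟩ := L1 L P cu cv Uf Vf W B M a w1 w2 z0 ρ zL ρL r κ E H hC κ1
    (n.r2.trans nb.RH)
  obtain ⟨hu1, hu2⟩ := L2 L P cu cv Uf Vf W B M a w1 w2 z0 ρ zL ρL r κ E H hC κ2
    (n.r2'.trans nb.RH)
  obtain ⟨nd1, nd2⟩ := L3 qm qp L P cu cv Uf Vf W B M a w1 w2 z0 ρ zL ρL r κ E H hC κ3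
    (n.r3.trans nb.RH) x x n.x0 n.x1 n.x0 n.x1
  have wd := L4 qm qp L P cu cv Uf Vf W B M a w1 w2 z0 ρ zL ρL r κ E H hC κ4
    (n.r4.trans nb.RH) x x k g ((H : ℝ) ^ (-c3)) n.x0 n.x0 n.k0 n.k1 n.g0
    (Real.rpow_pos_of_pos hH0 _) nb.b31 n.wd
  have v7 := L5 qm qp L P cu cv Uf Vf W B M a w1 w2 z0 ρ zL ρL r κ E H hC κ5
    (n.r5.trans nb.RH) x x k n.x0 n.x0 n.k0 n.v7
  have v6 := L6 qm qp L P cu cv Uf Vf W B M a w1 w2 z0 ρ zL ρL r κ E H hC κ6
    (n.r6.trans nb.RH) x x k g n.x0 n.x0 n.k0 n.k1 n.g0 n.g1 n.v6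
  -- multiplicities
  have hWp : 0 ≤ (C1 * B) ^ C1 * (1 + Real.log H) :=
    mul_nonneg (Real.rpow_nonneg (by nlinarith) _) (by linarith [Real.log_nonneg hH1])
  obtain ⟨B1, hB1, mu1, mu0, mu3, mv1, mv0, mv3⟩ := hkmb qm qp L P cu cv Uf Vf B M a w1 w2 z0 ρ r
    to1 H ((C1 * B) ^ C1 * (1 + Real.log H)) (qm 1 + qm 2) ((H : ℝ) ^ (-c0')) ((H : ℝ) ^ (-c3))
    (by omega) hWp hq0 nb.b0 nb.b01 nb.b3 nb.b31 n.rk pl1 pl2
  -- capture heights
  obtain ⟨s, hs⟩ := hcap P cu cv L Uf Vf W E a w1 w2 z0 ρ r H hC.EH hC.HE (by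
    have h1 : (2 * W) ^ Ch ≤ (2 * B) ^ Ch :=
      Real.rpow_le_rpow (by linarith [hC.W1]) (by linarith [hC.WB]) (by linarith)
    have := n.rh
    have := hC.HE
    linarith) hC.al
  set V : ℕ × ℕ → Prop := fun p => ¬ Nd (Uf (cu p.1)) (Vf (cv p.1)).q z0 ρ H p.2 (L p.1) x x (E * a) ∧
    Sm (Uf (cu p.1)) (Vf (cv p.1)).q z0 ρ H p.2 (L p.1) k (E * a) with hV
  set Cp : ℕ × ℕ → Prop := fun p => ∃ i, |(p.2 : ℝ) / H - s p.1 i| < E ^ (-c0) with hCp
  set Bad : ℕ × ℕ → Prop := fun p => B1 p ∨ (Cp p ∨ V p) with hBad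
  have hBB : ∀ p, B1 p → Bad p := fun p hp => Or.inl hp
  have hW1 := hC.W1
  have hWB := hC.WB
  -- number of bad pairs
  have cB : 16 * (((P ×ˢ range H).filter B1).card : ℝ) ≤ (P.card : ℝ) * H := by
    have h1 := nb.bad (n := 96) (B := (((P ×ˢ range H).filter B1).card : ℝ) / 6)
      (Pc := (P.card : ℝ)) (by norm_num) (by linarith [n.R512]) (Nat.cast_nonneg _) (by
        rw [div_le_iff₀ (by norm_num)]
        linarith)
    linarith
  have cC : 64 * (((P ×ˢ range H).filter Cp).card : ℝ) ≤ (P.card : ℝ) * H := by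
    have h1 := Bk467.capt_bad P H (by omega) s (θ := E ^ (-c0)) (Real.rpow_nonneg hE0.le _)
    have h2 : E ^ (-c0) ≤ 1 / 512 := by
      have h3 : (H / 2 : ℝ) ^ c0 ≤ E ^ c0 :=
        Real.rpow_le_rpow (by positivity) (by linarith [hC.HE]) hc0.le
      rw [Real.rpow_neg hE0.le, ← one_div]
      exact one_div_le_one_div_of_le (by norm_num) (n.big.trans h3)
    have h3 : ((2 : ℕ) : ℝ) * (2 * E ^ (-c0) * H + 1) ≤ H / 64 := by
      have := mul_le_mul_of_nonneg_right h2 hH0.le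
      push_cast
      linarith
    have h4 : (((P ×ˢ range H).filter Cp).card : ℝ) ≤ (P.card : ℝ) * (H / 64) :=
      le_trans (by convert h1) (mul_le_mul_of_nonneg_left h3 (Nat.cast_nonneg _))
    linarith
  have cV : 64 * (((P ×ˢ range H).filter V).card : ℝ) ≤ (P.card : ℝ) * H := by
    have h1 := Bk467.sep_bad P H 16 (by norm_num) (by omega) V (by
      intro t ht i0 i1 i2 hi0 hi1 hi2 g1 g2 b0 b1 b2
      have hh : (1 : ℝ) / H ≤ 1 / 512 := one_div_le_one_div_of_le (by norm_num) hHR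
      push_cast at g1 g2
      refine v7 t ht i0 i1 i2 hi2 (by linarith) (by linarith) ?_
      intro j hj
      rcases hj with rfl | rfl | rfl
      · exact b0
      · exact b1
      · exact b2)
    have e : (4 * ((16 : ℕ) : ℝ)) = 64 := by norm_num
    rw [e] at h1
    convert h1
  have cBad : 4 * (((P ×ˢ range H).filter Bad).card : ℝ) ≤ (P.card : ℝ) * H := by
    have h1 := bad_or P H Cp V (fun p => Cp p ∨ V p) (fun p hp => hp)
      (x := (P.card : ℝ) * H / 64) (y := (P.card : ℝ) * H / 64) (by linarith) (by linarith)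
    have h2 := bad_or P H B1 (fun p => Cp p ∨ V p) Bad (fun p hp => hp)
      (x := (P.card : ℝ) * H / 16) (by linarith) h1
    have : 0 ≤ (P.card : ℝ) * H := by positivity
    linarith
  have eE : E ^ (1 + qp 0) ≤ H * Q := by
    have h1 : E ^ (1 + qp 0) ≤ (H : ℝ) ^ (1 + qp 0) :=
      Real.rpow_le_rpow hE0.le hC.EH (by linarith [(hE.le 0).1, (hE.le 0).2])
    rw [Real.rpow_add hH0, Real.rpow_one, ← hQ] at h1
    exact h1
  have hX0 := nb.X0
  have hQ1 := nb.Q1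
  have hull : ∀ y : ℝ, y ≤ (C2 * B) ^ C2 * E ^ (1 + qp 0) → y ≤ X * Q * H := by
    intro y hy
    have h1 : (C2 * B) ^ C2 ≤ X := n.r2'.trans nb.RX
    calc y ≤ (C2 * B) ^ C2 * E ^ (1 + qp 0) := hy
      _ ≤ X * (H * Q) := mul_le_mul h1 eE (Real.rpow_nonneg hE0.le _) hX0.le
      _ = X * Q * H := by ring
  have hndZ : ∀ y : ℝ, y ≤ (C3 * B / (x * x)) ^ C3 * (1 + Real.log H) * (H : ℝ) ^ 2 →
      y ≤ Z * (H : ℝ) ^ 2 := fun y hy =>
    hy.trans (mul_le_mul_of_nonneg_right n.nd (by positivity))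
  -- one radius at the heights far from the capture heights
  have hGB : (N : ℝ) * (240 * W ^ 7 * B) ^ 6 ≤ R := by
    refine le_trans (mul_le_mul_of_nonneg_left ?_ (Nat.cast_nonneg N)) n.rcap
    have hW0 : 0 ≤ W := by linarith
    have : W ^ 7 ≤ B ^ 7 := pow_le_pow_left₀ hW0 hWB 7
    refine pow_le_pow_left₀ (by positivity) ?_ 6
    exact mul_le_mul_of_nonneg_right (by linarith) (by linarith)
  have hm0 : 0 ≤ (H : ℝ) ^ (4 * (ε / 4)) * ((H : ℝ) ^ (-c0')) ^ (qm 1 + qm 2) * M / (H : ℝ) ^ 2 := by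
    positivity
  obtain ⟨cap1, cap2⟩ := hs Bad ((H : ℝ) ^ (-c0')) ((240 * W ^ 7 * B) ^ 6 *
    ((H : ℝ) ^ (4 * (ε / 4)) * ((H : ℝ) ^ (-c0')) ^ (qm 1 + qm 2) * M / (H : ℝ) ^ 2)) (by
      have h1 := Bt624.b_E (c0 := c0) hE0 hH0 hC.HE hc0.le (by linarith)
      have h2 : (H : ℝ) ^ (-c0) ≤ (H : ℝ) ^ (-c0') :=
        Real.rpow_le_rpow_of_exponent_le hH1 (by linarith)
      linarith) (by
      have hW0 : 0 ≤ W := by linarith
      have hB0 : 0 ≤ B := by linarith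
      positivity)
    (fun t ht j hj i hi => Or.inr (Or.inl ⟨i, hi⟩))
    (kmb_of_mul mu0 hBB (by
      have : 1 ≤ W ^ 7 := one_le_pow₀ hW1
      linarith))
  -- the theorem
  obtain ⟨t, ht, t', ht', j, hj, e1, e2, b1, b2, -, -, n1, n1', n2, hg⟩ :=
    al_end' P cu cv (fun c t j => lbl Uf L w1 w2 z0 ρ H c t j)
      (fun c t j => lbl Vf L w1 w2 z0 ρ H c t j) H Bad (fun _ => False)
      (fun p => Nd (Uf (cu p.1)) (Vf (cv p.1)).q z0 ρ H p.2 (L p.1) x x (E * a))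
      (fun p t' => Nd (Uf (cu p.1)) (Uf (cu t')).q z0 ρ H p.2 (L p.1) x x (E * a))
      (fun p t' => Nd (Uf (cu p.1)) (Vf (cv p.1)).q z0 ρ H p.2 (L p.1) x x (E * a) ∨
        Gn (Uf (cu p.1)) (Vf (cv p.1)).q z0 ρ H p.2 (L p.1) (L t') k g (E * a))
      (M := M) (W := B) (Cb := 25 * B ^ 2) (X := X) (Y := Y) (Q := Q) (Z := Z)
      hM0 hB (by nlinarith) (by omega) (n.rX.trans nb.RX) nb.Y0 (by linarith)
      (by linarith [nb.Z1]) hC.ne
      (fun t ht => by convert to1.fullU t ht)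
      (fun t ht => by convert to1.fullV t ht)
      (fun c j hj => by convert box_two (two_swap to1) (by omega) c j hj)
      (by convert cBad)
      (by simp only [filter_false, card_empty, Nat.cast_zero, mul_zero]; positivity)
      (fun t ht j hj hb => by
        convert up_of_mul to1 (by omega) (mu1.mono hBB) (X := X) (by
          refine nb.up4 (G := (4 * B * B) ^ 6) hM0.le n.rup ?_
          rw [Real.one_rpow, mul_one]) t ht j hj hb)
      (fun t ht j hj hb => by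
        convert up_of_mul (two_swap to1) (by omega) (mv1.mono hBB) (X := X) (by
          refine nb.up4 (G := (4 * B * B) ^ 6) hM0.le n.rup ?_
          rw [Real.one_rpow, mul_one]) t ht j hj hb)
      (fun t ht j hj hb => by
        refine nb.capt4 (G := (N : ℝ) * (240 * W ^ 7 * B) ^ 6) hM0.le hGB ?_
        rw [mul_assoc (N : ℝ)]
        convert cap1 t ht j hj hb
        all_goals rfl)
      (fun t ht j hj hb => by
        refine nb.capt4 (G := (N : ℝ) * (240 * W ^ 7 * B) ^ 6) hM0.le hGB ?_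
        rw [mul_assoc (N : ℝ)]
        convert cap2 t ht j hj hb
        all_goals rfl)
      (fun c => hull _ (by convert hu1 c))
      (fun c T hT => hull _ (hu2 c T fun c1 hc1 => by
        obtain ⟨t, ht, t', ht', j, hj, a1, a2, a3, -⟩ := hT c1 hc1
        exact ⟨t, ht, t', ht', a1, a2, a3⟩))
      (fun c c' T hT => hndZ _ (nd1 c c' T fun y hy => by
        obtain ⟨t, ht, a1, a2, a3, a4, a5, a6⟩ := hT y hy
        exact ⟨t, ht, a1, a2, a3, a4, a6⟩))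
      (fun c c1 T hT => hndZ _ (nd2 c c1 T fun y hy => by
        obtain ⟨t, ht, t', ht', a1, a2, a3, a4, a5, a6, a7, a8, a9⟩ := hT y hy
        exact ⟨t, ht, t', ht', a1, a2, a3, a4, a5, a6, a9⟩))
      (fun t ht j hj hb => by
        convert hGen_lit to1 (by omega) nb mv3 hBB (by
          have e : 2 * (2 * B ^ 3) ^ 6 = 2 * (2 * B ^ 2 * B) ^ 6 := by ring
          rw [e]; exact n.rgen)
          (fun t ht j hj _ => wd t ht j hj) t ht j hj hb)
      nb.num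
  have s1 : ¬ Sm (Uf (cu t)) (Vf (cv t)).q z0 ρ H j (L t) k (E * a) := fun hh =>
    b1 (Or.inr (Or.inr ⟨n1, hh⟩))
  have s2 : ¬ Sm (Uf (cu t')) (Vf (cv t')).q z0 ρ H j (L t') k (E * a) := fun hh =>
    b2 (Or.inr (Or.inr ⟨n1', hh⟩))
  have hG : Gn (Uf (cu t)) (Vf (cv t)).q z0 ρ H j (L t) (L t') k g (E * a) :=
    hg.resolve_left n1
  exact v6 t ht t' ht' j hj e1 e2 n1 n1' n2 s1 s2 hG

end Crest.Agent.R136.Al500
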