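import Crest.Agent.R136.KDef5_879

/-!
# R136: literal configurations with `h` coarse levels (helper879; ARCH 5)

`Cf6 = Cf4` with a number `h`: the bound `D0` holds at ALL levels `m ≤ i ≤ m + h` (sheets over
cells of level `i`, objects = (line alive in the cell, cell)), and the own loss is at most `h - 20`
levels.  `Adm6 δ` bounds `h ≤ δ M`, so it is monotone in `δ`.
`enemy6`: `¬ KS4` gives admissible configurations of value `≥ b0 - ∑ |q i|`.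
-/

set_option autoImplicit false

open Finset

namespace Crest.Agent.R136.K4

open Sh605 KS879 En879

noncomputable section

/-- configuration with `h` coarse levels -/
structure Cf6 extends Cf4 where
  /-- number of coarse levels at which `D0` bounds the densities -/
  h : ℕ

/-- validity of a configuration -/
structure Ok6 (Leg : ℕ → ℝ → ℝ → Plk4 → Prop) (q : Fin 3 → ℝ) (F : Cf6) : Prop
    extends Ok5 Leg q F.toCf4 where
  h20 : 20 ≤ F.h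
  hM : F.h ≤ F.M
  ups : ∀ i, F.m ≤ i → i ≤ F.m + F.h → ∀ K, Leg i F.r F.Λm K →
    ((objs4 i F.I K).card : ℝ) ≤ F.D0 * cap5 q i K
  own : ∀ x ∈ F.I, 2 ^ (F.M + 20) ≤ 2 ^ F.h * ownc4 F.m F.top F.I x

/-- admissibility with error `δ` (monotone in `δ`) -/
structure Adm6 (δ : ℝ) (F : Cf6) : Prop where
  hle : (F.h : ℝ) ≤ δ * F.M
  size : Real.logb 2 (F.I.card : ℝ) ≤ (2:ℝ) ^ (δ * F.M)
  res : Real.logb 2 (1 / (F.r * 2 ^ F.m)) ≤ (2:ℝ) ^ (δ * F.M)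
  slope : F.Λm ≤ (2:ℝ) ^ (δ * F.M)
  vel : ∀ x ∈ F.I, ∀ i, |x.1.v i| ≤ 1

theorem Adm6.mono {δ δ' : ℝ} {F : Cf6} (h : Adm6 δ F) (hd : δ ≤ δ') : Adm6 δ' F := by
  have h0 : (0:ℝ) ≤ F.M := Nat.cast_nonneg _
  have h1 : δ * F.M ≤ δ' * F.M := mul_le_mul_of_nonneg_right hd h0
  have h2 : (2:ℝ) ^ (δ * F.M) ≤ (2:ℝ) ^ (δ' * F.M) :=
    Real.rpow_le_rpow_of_exponent_le (by norm_num) h1
  exact ⟨h.hle.trans h1, h.size.trans h2, h.res.trans h2, h.slope.trans h2, h.vel⟩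

theorem Ok6.adm {Leg : ℕ → ℝ → ℝ → Plk4 → Prop} {q : Fin 3 → ℝ} {F : Cf6} (hF : Ok6 Leg q F)
    {δ : ℝ} (h : Adm6 δ F) : F.toCf4.Adm δ := by
  refine ⟨fun x hx => ?_, h.size, h.res, h.slope, h.vel⟩
  have h1 := hF.own x hx
  have h2 : (2:ℝ) ^ ((F.M : ℝ) + 20) ≤ (2:ℝ) ^ (F.h : ℝ) * (ownc4 F.m F.top F.I x : ℝ) := by
    have : ((2 ^ (F.M + 20) : ℕ) : ℝ) ≤ ((2 ^ F.h * ownc4 F.m F.top F.I x : ℕ) : ℝ) := by
      exact_mod_cast h1
    push_cast at this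
    rw [Real.rpow_natCast]
    refine le_trans (le_of_eq ?_) this
    rw [← Real.rpow_natCast]; congr 1; push_cast; ring
  have h3 : (2:ℝ) ^ (F.h : ℝ) ≤ (2:ℝ) ^ (δ * F.M) :=
    Real.rpow_le_rpow_of_exponent_le (by norm_num) h.hle
  have h0 : (0:ℝ) ≤ (ownc4 F.m F.top F.I x : ℝ) := Nat.cast_nonneg _
  have h4 : (2:ℝ) ^ ((F.M : ℝ)) ≤ (2:ℝ) ^ (δ * F.M) * (ownc4 F.m F.top F.I x : ℝ) := by
    refine le_trans ?_ (h2.trans (mul_le_mul_of_nonneg_right h3 h0))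
    exact Real.rpow_le_rpow_of_exponent_le (by norm_num) (by linarith)
  have h5 : (2:ℝ) ^ ((1 - δ) * F.M) * (2:ℝ) ^ (δ * F.M) = (2:ℝ) ^ ((F.M : ℝ)) := by
    rw [← Real.rpow_add (by norm_num)]; congr 1; ring
  have h6 : (0:ℝ) < (2:ℝ) ^ (δ * F.M) := by positivity
  rw [← h5, mul_comm] at h4
  exact le_of_mul_le_mul_left h4 h6

/-- what the enemy needs from the class, at all levels -/
structure ClsOK6 (Leg : ℕ → ℝ → ℝ → Plk4 → Prop) (κ : ℕ) : Prop where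
  sheet : ∀ i r Λm K, 0 < r → Leg i r Λm K →
    Sheet K.e K.c K.w K.q K.a ((K.j : ℝ) / 2 ^ i) (1 / 2 ^ i) (r / 2 ^ κ)
  width : ∀ i r Λm K, 0 < r → Leg i r Λm K →
    r ≤ K.a ∧ K.a ≤ K.w 2 ∧ K.w 2 ≤ K.w 1 ∧ K.w 1 * 2 ^ i ≤ 2 ^ κ
  cube : ∀ m r Λm o, 0 < r → 1 ≤ Λm → r ≤ 1 / 2 ^ m → Leg m r Λm (cubeK r o)

theorem clsOK6_N : ClsOK6 LegN 2 where
  sheet := fun i r Λm K hr h => shN_toSheet hr h.1
  width := by
    intro i r Λm K _ h
    refine ⟨h.1.r0_le, h.1.a_le, h.1.w_le, ?_⟩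
    have h2 := h.2
    rw [le_div_iff₀ (by positivity)] at h2
    exact h2.trans (by norm_num)
  cube := by
    intro m r Λm o hr _ hrm
    exact ⟨cubeN o.1 hr, hrm⟩

theorem sheet_mono {e : Fin 3 → V3} {c : Ln4} {w : V3} {q : ℝ → V3 → ℝ} {a z0 ρ r0 r1 : ℝ}
    (h : Sheet e c w q a z0 ρ r0) (hr : r1 ≤ r0) : Sheet e c w q a z0 ρ r1 := by
  refine ⟨h.ortho, h.isQ, h.steep, h.a_le, h.w_le, hr.trans h.r0_le, ?_⟩
  obtain ⟨Λ, h0, h1, h2⟩ := h.res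
  exact ⟨Λ, h0, h1, (mul_le_mul_of_nonneg_right hr h0).trans h2⟩

/-- **Katz–Rogers on cells of level `i`** -/
theorem kr_cell6 {M κ i : ℕ} (J : Finset (Ln4 × ℝ))
    (hsep : ∀ x ∈ J, ∀ y ∈ J, x.1 ≠ y.1 → ∃ k, 1 / 2 ^ M ≤ |x.1.v k - y.1.v k|) {K : Plk4}
    (hS : Sheet K.e K.c K.w K.q K.a ((K.j : ℝ) / 2 ^ i) (1 / 2 ^ i) (1 / 2 ^ M / 2 ^ κ))
    (hw : K.w 1 ≤ 2 ^ κ) :
    ((objs4 i J K).card : ℝ) ≤
      128000000 * ((M : ℝ) + 2 * κ + i + 6) ^ 2 * 8 ^ (M + κ + i) * (K.a * K.w 2 * K.w 1) := by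
  classical
  have hr : (0:ℝ) < 1 / 2 ^ M / 2 ^ κ / 2 ^ i := by positivity
  have hS' : Sheet K.e K.c K.w K.q K.a ((K.j : ℝ) / 2 ^ i) (1 / 2 ^ i)
      (1 / 2 ^ M / 2 ^ κ / 2 ^ i) :=
    sheet_mono hS (div_le_self (by positivity) (one_le_pow₀ (by norm_num)))
  have hmem : ∀ t ∈ objs4 i J K, (∃ x ∈ J, x.1 = t.1) ∧ t.2 = K.j ∧
      InSheet t.1 K.e K.c K.w K.q K.a ((K.j : ℝ) / 2 ^ i) (1 / 2 ^ i) := by
    intro t ht
    unfold objs4 at ht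
    rw [mem_filter, mem_image] at ht
    obtain ⟨⟨x, hx, rfl⟩, h1, h2⟩ := ht
    exact ⟨⟨x, hx, rfl⟩, h1, h2⟩
  have h := KR879.kr_sheet (objs4 i J K) (fun t => t.1) (r0 := 1 / 2 ^ M / 2 ^ κ / 2 ^ i) hr
    (by positivity) hS' (fun t ht => (hmem t ht).2.2)
    (fun t ht t' ht' hne => by
      obtain ⟨⟨x, hx, hx1⟩, hj, _⟩ := hmem t ht
      obtain ⟨⟨y, hy, hy1⟩, hj', _⟩ := hmem t' ht'
      have hne' : x.1 ≠ y.1 := by
        intro h3
        exact hne (Prod.ext (by rw [← hx1, ← hy1, h3]) (by rw [hj, hj']))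
      obtain ⟨k, hk⟩ := hsep x hx y hy hne'
      refine ⟨k, ?_⟩
      rw [hx1, hy1] at hk
      have e1 : (1:ℝ) / 2 ^ M / 2 ^ κ / 2 ^ i = 1 / 2 ^ i * (1 / 2 ^ M / 2 ^ κ) := by ring
      rw [e1]
      refine mul_le_mul_of_nonneg_left (le_trans ?_ hk) (by positivity)
      exact div_le_self (by positivity) (one_le_pow₀ (by norm_num)))
    (M + 2 * κ + i + 4) (by
      have e1 : (10:ℝ) * K.w 1 / (1 / 2 ^ M / 2 ^ κ / 2 ^ i) =
          10 * K.w 1 * (2 ^ M * 2 ^ κ * 2 ^ i) := by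
        field_simp
      have e2 : (2:ℝ) ^ (M + 2 * κ + i + 4) = 16 * (2 ^ κ * (2 ^ M * 2 ^ κ * 2 ^ i)) := by ring
      rw [e1, e2]
      have h3 : K.w 1 * (2 ^ M * 2 ^ κ * 2 ^ i) ≤ 2 ^ κ * (2 ^ M * 2 ^ κ * 2 ^ i) :=
        mul_le_mul_of_nonneg_right hw (by positivity)
      have h4 : (0:ℝ) ≤ 2 ^ κ * (2 ^ M * 2 ^ κ * 2 ^ i) := by positivity
      nlinarith)
  refine h.trans (le_of_eq ?_)
  have e1 : (8:ℝ) ^ (M + κ + i) = (2 ^ M * 2 ^ κ * 2 ^ i) ^ 3 := by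
    rw [← pow_add, ← pow_add, ← pow_mul, mul_comm, pow_mul]; norm_num
  rw [e1]
  push_cast
  field_simp
  ring

open Classical in
/-- **a raw grid configuration as incidences of real lines.** -/
theorem grid_cf6 {b0 η : ℝ} {N M : ℕ} {s : Finset GLine4} {I : Finset (GLine4 × ℤ)} {μ : ℝ}
    (h : Raw b0 η N M s I μ) :
    ∃ (J : Finset (Ln4 × ℝ)) (cl : Ln4 × ℤ → ℕ) (ctr : ℕ → Ln4 × ℤ),
      J.Nonempty ∧ J.card = I.card ∧ (J.card : ℝ) ≤ 2 ^ (5 * M) ∧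
      (∀ x ∈ J, 1 / 4 ≤ x.2 ∧ x.2 ≤ 3 / 4) ∧ (∀ x ∈ J, zc4 0 x.2 = 0) ∧
      (∀ x ∈ J, ∀ y ∈ J, ob4 M x = ob4 M y → x = y) ∧
      (∀ x ∈ J, ∀ i, |x.1.v i| ≤ 1 / 16 ∧ |x.1.p i| ≤ 3 / 64) ∧
      -- classes of level `M`
      (∀ x ∈ J, zc4 M x.2 = (ctr (cl (ob4 M x))).2 ∧
        InSheet x.1 stdE (ctr (cl (ob4 M x))).1 ![1 / 2 ^ M, 1 / 2 ^ M, 1 / 2 ^ M]
          (cubeQ (ctr (cl (ob4 M x))).1) (1 / 2 ^ M)
          (((ctr (cl (ob4 M x))).2 : ℝ) / 2 ^ M) (1 / 2 ^ M)) ∧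
      (∀ x ∈ J, μ ≤ (((J.image (ob4 M)).filter fun o => cl o = cl (ob4 M x)).card : ℝ)) ∧
      -- own cells
      (∀ x ∈ J, (2:ℝ) ^ ((1 - η) * M) ≤
        32 * (((J.filter fun y => y.1 = x.1).image (ob4 M)).card : ℝ)) ∧
      -- separated directions
      (∀ x ∈ J, ∀ y ∈ J, x.1 ≠ y.1 → ∃ i, 1 / 2 ^ M ≤ |x.1.v i - y.1.v i|) := by
  have hN := h.N1
  have hN0 : (0:ℝ) < N := by exact_mod_cast hN
  have hobi : ∀ x y : GLine4 × ℤ, ob4 M (phi4 N x) = ob4 M (phi4 N y) → x = y :=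
    fun x y => phi4_inj hN h.hM
  have hφi : Function.Injective (phi4 N) := fun x y hxy => hobi x y (by rw [hxy])
  -- classes
  set cl : Ln4 × ℤ → ℕ := fun o => if h : ∃ x : GLine4 × ℤ, ob4 M (phi4 N x) = o then
    Encodable.encode (key4 N h.choose) else 0 with hcl
  have hcl' : ∀ x, cl (ob4 M (phi4 N x)) = Encodable.encode (key4 N x) := by
    intro x
    have hex : ∃ x' : GLine4 × ℤ, ob4 M (phi4 N x') = ob4 M (phi4 N x) := ⟨x, rfl⟩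
    simp only [hcl]
    rw [dif_pos hex]
    rw [hobi _ _ hex.choose_spec]
  set ctr : ℕ → Ln4 × ℤ := fun c => if h : ∃ x ∈ I, Encodable.encode (key4 N x) = c then
    ob4 M (phi4 N h.choose) else (⟨0, 0⟩, 0) with hctr
  have hctr' : ∀ x ∈ I, ∃ y ∈ I, key4 N y = key4 N x ∧ ctr (cl (ob4 M (phi4 N x))) =
      ob4 M (phi4 N y) := by
    intro x hx
    rw [hcl']
    have hex : ∃ y ∈ I, Encodable.encode (key4 N y) = Encodable.encode (key4 N x) := ⟨x, hx, rfl⟩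
    refine ⟨hex.choose, hex.choose_spec.1, Encodable.encode_injective hex.choose_spec.2, ?_⟩
    simp only [hctr]
    rw [dif_pos hex]
  have hz0 : ∀ x ∈ I, zc4 0 (rh4 N x.2) = 0 := by
    intro x hx
    obtain ⟨a1, a2⟩ := rh4_mem hN (h.mem x hx).2
    unfold zc4
    rw [pow_zero, one_mul, Int.floor_eq_zero_iff]
    exact ⟨by linarith, by linarith⟩
  refine ⟨I.image (phi4 N), cl, ctr, h.Ine.image _, card_image_of_injective _ hφi, ?_, ?_, ?_, ?_,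
    ?_, ?_, ?_, ?_, ?_⟩
  · -- cardinality
    rw [card_image_of_injective _ hφi]
    have hMr : (16:ℝ) * N ≤ 2 ^ M := by
      have : ((16 * N : ℕ) : ℝ) ≤ ((2 ^ M : ℕ) : ℝ) := by exact_mod_cast h.hM
      push_cast at this; exact this
    have h1 : I ⊆ s ×ˢ Icc (-(N : ℤ)) N := by
      intro x hx
      obtain ⟨a1, a2⟩ := h.mem x hx
      rw [mem_product, mem_Icc]
      exact ⟨a1, abs_le.1 a2⟩
    have h2 := card_le_card h1
    rw [card_product, Int.card_Icc] at h2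
    have h3 : ((N : ℤ) + 1 - -(N : ℤ)).toNat ≤ 3 * N := by omega
    have h4 := card_le_of_inj hN h.bd h.inj
    have h5 : (I.card : ℝ) ≤ (s.card : ℝ) * (3 * N) := by
      have : I.card ≤ s.card * (3 * N) := h2.trans (Nat.mul_le_mul_left _ h3)
      exact_mod_cast this
    have hN1 : (1:ℝ) ≤ N := by exact_mod_cast hN
    calc (I.card : ℝ) ≤ (s.card : ℝ) * (3 * N) := h5
      _ ≤ (27 * (N : ℝ) ^ 3) * (3 * N) := by gcongr
      _ = 81 * (N:ℝ) ^ 4 := by ring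
      _ ≤ 81 * ((N:ℝ) ^ 4 * N) := by
        have : (N:ℝ) ^ 4 ≤ (N:ℝ) ^ 4 * N := le_mul_of_one_le_right (by positivity) hN1
        linarith
      _ ≤ (16 * (N : ℝ)) ^ 5 := by
        have : (0:ℝ) ≤ (N : ℝ) ^ 5 := by positivity
        nlinarith
      _ ≤ (2 ^ M) ^ 5 := by gcongr
      _ = 2 ^ (5 * M) := by rw [← pow_mul]; ring_nf
  · intro x hx
    obtain ⟨x', hx', rfl⟩ := mem_image.1 hx
    exact rh4_mem hN (h.mem x' hx').2
  · intro x hx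
    obtain ⟨x', hx', rfl⟩ := mem_image.1 hx
    exact hz0 x' hx'
  · intro x hx y hy hxy
    obtain ⟨x', hx', rfl⟩ := mem_image.1 hx
    obtain ⟨y', hy', rfl⟩ := mem_image.1 hy
    rw [hobi x' y' hxy]
  · intro x hx i
    obtain ⟨x', hx', rfl⟩ := mem_image.1 hx
    have hb := h.bd _ (h.mem x' hx').1 i
    have b1 : |((x'.1.1 i : ℤ) : ℝ)| ≤ N := by exact_mod_cast hb.1
    have b2 : |((x'.1.2 i : ℤ) : ℝ)| ≤ N := by exact_mod_cast hb.2
    have c1 : |((x'.1.1 i : ℤ) : ℝ) / N| ≤ 1 := by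
      rw [abs_div, abs_of_pos hN0, div_le_one hN0]; exact b1
    have c2 : |((x'.1.2 i : ℤ) : ℝ) / N| ≤ 1 := by
      rw [abs_div, abs_of_pos hN0, div_le_one hN0]; exact b2
    simp only [phi4, rl4]
    rw [abs_le] at c1 c2
    constructor
    · rw [abs_le]; constructor <;> linarith [c2.1, c2.2]
    · rw [abs_le]; constructor <;> linarith [c1.1, c1.2, c2.1, c2.2]
  · intro x hx
    obtain ⟨x', hx', rfl⟩ := mem_image.1 hx
    obtain ⟨y, hy, hxy, hK⟩ := hctr' x' hx'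
    rw [hK]
    have h2 : x'.2 = y.2 := by
      have := congrArg Prod.snd hxy; simpa [key4] using this.symm
    refine ⟨?_, ?_⟩
    · show zc4 M (rh4 N x'.2) = zc4 M (rh4 N y.2)
      rw [h2]
    · exact mates_in hN h.hM' (h.bd _ (h.mem x' hx').1) (h.bd _ (h.mem y hy).1) hxy.symm
  · intro x hx
    obtain ⟨x', hx', rfl⟩ := mem_image.1 hx
    rw [hcl']
    refine (h.mul x' hx').1.trans (Nat.cast_le.2 ?_)
    refine card_le_card_of_injOn (fun y => ob4 M (phi4 N y)) (fun y hy => ?_)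
      (fun a _ b _ hab => hobi a b hab)
    rw [Finset.mem_coe, mem_filter] at hy
    rw [Finset.mem_coe, mem_filter]
    refine ⟨mem_image_of_mem _ (mem_image_of_mem _ hy.1), ?_⟩
    rw [hcl', hy.2]
  · intro x hx
    obtain ⟨x', hx', rfl⟩ := mem_image.1 hx
    refine (h.own x'.1 (h.mem x' hx').1).trans ?_
    have : ((I.filter fun y => y.1 = x'.1).card : ℝ) ≤
        ((((I.image (phi4 N)).filter fun y => y.1 = (phi4 N x').1).image (ob4 M)).card : ℝ) := by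
      refine Nat.cast_le.2 (card_le_card_of_injOn (fun y => ob4 M (phi4 N y)) (fun y hy => ?_)
        (fun a _ b _ hab => hobi a b hab))
      rw [Finset.mem_coe, mem_filter] at hy
      rw [Finset.mem_coe]
      refine mem_image_of_mem _ (mem_filter.2 ⟨mem_image_of_mem _ hy.1, ?_⟩)
      show rl4 N y.1 = rl4 N x'.1
      rw [hy.2]
    linarith
  · intro x hx y hy hne
    obtain ⟨x', hx', rfl⟩ := mem_image.1 hx
    obtain ⟨y', hy', rfl⟩ := mem_image.1 hy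
    have h2 : x'.1.2 ≠ y'.1.2 := by
      intro h3
      apply hne
      show rl4 N x'.1 = rl4 N y'.1
      rw [h.inj (h.mem x' hx').1 (h.mem y' hy').1 h3]
    obtain ⟨i, hi⟩ := vel_sep hN h2
    refine ⟨i, le_trans ?_ hi⟩
    have hMr : (16:ℝ) * N ≤ 2 ^ M := by
      have : ((16 * N : ℕ) : ℝ) ≤ ((2 ^ M : ℕ) : ℝ) := by exact_mod_cast h.hM
      push_cast at this; exact this
    exact one_div_le_one_div_of_le (by positivity) hMr



end

end Crest.Agent.R136.K4
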