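import Crest.Agent.R136.Sh6_605

/-!
# R136 (UB) for the class `C*`: cover and pigeonhole (helper289)

`UbOne` : the one-sheet lemma (literal of helper861's `ub_one`);
`UBg A B k` : the finite statement; **`ubg : UbOne → UBg 22 3 10`**.
-/

set_option autoImplicit false
set_option linter.unusedVariables false

open Finset

namespace Crest.Agent.R136.UB289

open Sh605

noncomputable section



/-! ### few bad cells -/

open Classical in
/-- at most `2 n` cells have their left end at distance less than `n ρ'` from `zb` -/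
theorem near_card {z00 ρ' zb : ℝ} (hρ : 0 < ρ') (n : ℕ) (S : Finset ℕ)
    (hS : ∀ j ∈ S, |z00 + j * ρ' - zb| < n * ρ') : S.card ≤ 2 * n := by
  set x : ℝ := (zb - z00) / ρ' with hx
  have h1 : ∀ j ∈ S, x - n < j ∧ (j:ℝ) < x + n := by
    intro j hj
    have h2 := abs_lt.1 (hS j hj)
    have hx' : x * ρ' = zb - z00 := by rw [hx]; field_simp
    constructor
    · by_contra hn
      rw [not_lt] at hn
      have := mul_le_mul_of_nonneg_right hn hρ.le
      rw [sub_mul, hx'] at this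
      linarith [h2.1]
    · by_contra hn
      rw [not_lt] at hn
      have := mul_le_mul_of_nonneg_right hn hρ.le
      rw [add_mul, hx'] at this
      linarith [h2.2]
  -- image in the integers between ⌊x⌋ - n + 1 and ⌊x⌋ + n
  have h3 : (S.image fun j : ℕ => (j : ℤ)) ⊆ Icc (⌊x⌋ - n + 1) (⌊x⌋ + n) ∨
      (S.image fun j : ℕ => (j : ℤ)) ⊆ Ico (⌈x⌉ - n) (⌈x⌉ + n) := by
    by_cases hxi : (⌊x⌋ : ℝ) = x
    · right
      have hc : (⌈x⌉ : ℝ) = x := by
        rw [← hxi, Int.ceil_intCast]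
      intro j hj
      obtain ⟨i, hi, rfl⟩ := mem_image.1 hj
      have := h1 i hi
      rw [← hc] at this
      rw [mem_Ico]
      constructor
      · have h4 : ((⌈x⌉ - n : ℤ) : ℝ) < ((i : ℤ) : ℝ) := by push_cast; exact this.1
        exact (by exact_mod_cast h4 : (⌈x⌉ - n : ℤ) < (i : ℤ)).le
      · have h4 : ((i : ℤ) : ℝ) < ((⌈x⌉ + n : ℤ) : ℝ) := by push_cast; exact this.2
        exact_mod_cast h4
    · left
      intro j hj
      obtain ⟨i, hi, rfl⟩ := mem_image.1 hj
      have := h1 i hi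
      have f1 := Int.floor_le x
      have f2 := Int.lt_floor_add_one x
      rw [mem_Icc]
      constructor
      · have h4 : ((⌊x⌋ - n : ℤ) : ℝ) < ((i : ℤ) : ℝ) := by push_cast; linarith [this.1]
        have h5 : (⌊x⌋ - n : ℤ) < (i : ℤ) := by exact_mod_cast h4
        linarith
      · have h4 : ((i : ℤ) : ℝ) < ((⌊x⌋ + n + 1 : ℤ) : ℝ) := by push_cast; linarith [this.2]
        have h5 : (i : ℤ) < (⌊x⌋ + n + 1 : ℤ) := by exact_mod_cast h4
        linarith
  have hinj : (S.image fun j : ℕ => (j : ℤ)).card = S.card :=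
    card_image_of_injective _ Nat.cast_injective
  rcases h3 with h3 | h3
  · have := card_le_card h3
    rw [hinj, Int.card_Icc] at this
    have e : (⌊x⌋ + (n:ℤ) + 1 - (⌊x⌋ - n + 1)).toNat = 2 * n := by omega
    rwa [e] at this
  · have := card_le_card h3
    rw [hinj, Int.card_Ico] at this
    have e : (⌈x⌉ + (n:ℤ) - (⌈x⌉ - n)).toNat = 2 * n := by omega
    rwa [e] at this

/-! ### the codes -/

/-- code of a line: roundings at the two ends -/
def code (e : Fin 3 → V3) (c : Ln4) (w : V3) (κ z0 z1 : ℝ) (t : Ln4) :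
    (Fin 3 → ℤ) × (Fin 3 → ℤ) :=
  (fun i => ⌊dt (e i) (t.pos z0 - c.pos z0) / (κ * w i)⌋,
    fun i => ⌊dt (e i) (t.pos z1 - c.pos z1) / (κ * w i)⌋)

theorem floor_close {x y s : ℝ} (hs : 0 < s) (h : ⌊x / s⌋ = ⌊y / s⌋) : |x - y| ≤ s := by
  have h1 := Int.floor_le (x / s)
  have h2 := Int.lt_floor_add_one (x / s)
  have h3 := Int.floor_le (y / s)
  have h4 := Int.lt_floor_add_one (y / s)
  rw [h] at h1 h2
  have h5 : |x / s - y / s| ≤ 1 := by
    rw [abs_le]; constructor <;> linarith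
  have e : x / s - y / s = (x - y) / s := by ring
  rw [e, abs_div, abs_of_pos hs, div_le_one hs] at h5
  exact h5

theorem dt_diff (e t y c : V3) : dt e (t - y) = dt e (t - c) - dt e (y - c) := by
  simp only [dt, Pi.sub_apply]; ring

theorem code_close {e : Fin 3 → V3} {c : Ln4} {w : V3} {κ z0 z1 : ℝ} {t y : Ln4}
    (hκ : 0 < κ) (hw : ∀ i, 0 < w i) (h : code e c w κ z0 z1 t = code e c w κ z0 z1 y) :
    (∀ i, |dt (e i) (t.pos z0 - y.pos z0)| ≤ κ * w i) ∧
    (∀ i, |dt (e i) (t.pos z1 - y.pos z1)| ≤ κ * w i) := by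
  unfold code at h
  rw [Prod.ext_iff] at h
  constructor
  · intro i
    rw [dt_diff _ _ _ (c.pos z0)]
    exact floor_close (mul_pos hκ (hw i)) (congrFun h.1 i)
  · intro i
    rw [dt_diff _ _ _ (c.pos z1)]
    exact floor_close (mul_pos hκ (hw i)) (congrFun h.2 i)

theorem code_mem {e : Fin 3 → V3} {c : Ln4} {w : V3} {q : ℝ → V3 → ℝ} {a z0 ρ : ℝ} {n : ℕ}
    (hρ : 0 ≤ ρ) (hn : 0 < n) (hw : ∀ i, 0 < w i) {t : Ln4} (h : InSheet t e c w q a z0 ρ) :
    code e c w (1 / n) z0 (z0 + ρ) t ∈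
      (Fintype.piFinset fun _ : Fin 3 => Icc (-(n:ℤ)) n) ×ˢ
      (Fintype.piFinset fun _ : Fin 3 => Icc (-(n:ℤ)) n) := by
  have hn' : (0:ℝ) < n := by exact_mod_cast hn
  have key : ∀ (x u : ℝ), 0 < u → |x| ≤ u → ⌊x / (1 / (n:ℝ) * u)⌋ ∈ Icc (-(n:ℤ)) n := by
    intro x u hu hx
    have e1 : x / (1 / (n:ℝ) * u) = x / u * n := by field_simp
    have h1 : |x / u| ≤ 1 := by rw [abs_div, abs_of_pos hu, div_le_one hu]; exact hx
    rw [abs_le] at h1
    rw [e1, mem_Icc]
    constructor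
    · rw [Int.le_floor]; push_cast; nlinarith [h1.1]
    · have : (⌊x / u * n⌋ : ℝ) ≤ n := (Int.floor_le _).trans (by nlinarith [h1.2])
      exact_mod_cast this
  have g0 := (h z0 le_rfl (by linarith)).1
  have g1 := (h (z0 + ρ) (by linarith) le_rfl).1
  rw [mem_product]
  unfold code
  constructor
  · rw [Fintype.mem_piFinset]
    intro i
    exact key _ _ (hw i) (g0 i)
  · rw [Fintype.mem_piFinset]
    intro i
    exact key _ _ (hw i) (g1 i)

theorem code_card (n : ℕ) : ((Fintype.piFinset fun _ : Fin 3 => Icc (-(n:ℤ)) n) ×ˢ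
    (Fintype.piFinset fun _ : Fin 3 => Icc (-(n:ℤ)) n)).card = (2 * n + 1) ^ 6 := by
  rw [card_product, Fintype.card_piFinset]
  have : (Icc (-(n:ℤ)) n).card = 2 * n + 1 := by rw [Int.card_Icc]; omega
  simp only [this, prod_const, card_univ, Fintype.card_fin]
  ring

/-! ### cover and pigeonhole -/


end

end Crest.Agent.R136.UB289
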