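import Crest.Agent.R136.KDef5_879
import Crest.Agent.R136.KDef6_879
import Crest.Agent.R136.UB2_289
import Crest.Agent.R136.UB4_289

-- ▼ part R136/Val0_289
section

/-!
# R136 (V1), the side of the configurations (helper289)

* `zc4_div` : nesting of the dyadic cells;
* `own_alv` : a line with many own top cells is alive in many cells of level `m + h`;
* `cap_le` : comparison of the rewards of two levels;
* `CardTop` : the output needed from the one-sheet cover, `cls_le`, `val_le`.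
-/

set_option autoImplicit false

open Finset

namespace Crest.Agent.R136.Val289

open Sh605 K4 KS879 En879

noncomputable section

/-! ### cells -/









/-! ### rewards -/

/-- reward of the level `i` -/
def rew (q : Fin 3 → ℝ) (i : ℕ) (a w2 w1 : ℝ) : ℝ :=
  (a * 2 ^ i) ^ q 0 * (w1 * 2 ^ i) ^ q 1 * (w2 * 2 ^ i) ^ q 2

theorem cap5_eq (q : Fin 3 → ℝ) (i : ℕ) (K : Plk4) :
    cap5 q i K = K.a * K.w 2 * K.w 1 * rew q i K.a (K.w 2) (K.w 1) := rfl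

/-- one factor: `w' ≤ 2^B w`, `w ≤ 2^B w'`, `w' > 0` -/
theorem rpow_comp {p w w' : ℝ} {B s : ℝ} (hw : 0 < w) (hw' : 0 < w')
    (h1 : w' ≤ 2 ^ B * w) (h2 : w ≤ 2 ^ B * w') (hs : 0 ≤ s) :
    w' ^ p ≤ (2:ℝ) ^ (|p| * (B + s)) * ((2:ℝ) ^ s * w) ^ p := by
  have h2s : (1:ℝ) ≤ 2 ^ s := Real.one_le_rpow (by norm_num) hs
  have hBs : (0:ℝ) < 2 ^ (B + s) := by positivity
  have e : (2:ℝ) ^ (|p| * (B + s)) = ((2:ℝ) ^ (B + s)) ^ |p| := by
    rw [← Real.rpow_mul (by norm_num)]; congr 1; ring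
  have hsw : 0 < (2:ℝ) ^ s * w := by positivity
  rw [e]
  rcases le_total 0 p with h0 | h0
  · rw [abs_of_nonneg h0, ← Real.mul_rpow hBs.le hsw.le]
    refine Real.rpow_le_rpow hw'.le ?_ h0
    rw [Real.rpow_add (by norm_num)]
    calc w' ≤ 2 ^ B * w := h1
      _ = 2 ^ B * 1 * (1 * w) := by ring
      _ ≤ 2 ^ B * 2 ^ s * (2 ^ s * w) := by gcongr
  · rw [abs_of_nonpos h0]
    have e1 : w' ^ p = (w'⁻¹) ^ (-p) := by
      rw [Real.inv_rpow hw'.le, Real.rpow_neg hw'.le, inv_inv]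
    have e2 : ((2:ℝ) ^ s * w) ^ p = ((2 ^ s * w)⁻¹) ^ (-p) := by
      rw [Real.inv_rpow hsw.le, Real.rpow_neg hsw.le, inv_inv]
    rw [e1, e2, ← Real.mul_rpow hBs.le (by positivity)]
    refine Real.rpow_le_rpow (by positivity) ?_ (by linarith)
    rw [Real.rpow_add (by norm_num), inv_eq_one_div, ← div_eq_mul_inv,
      div_le_div_iff₀ hw' hsw, one_mul]
    have : (0:ℝ) < 2 ^ s := by positivity
    calc (2:ℝ) ^ s * w ≤ 2 ^ s * (2 ^ B * w') := by gcongr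
      _ = 2 ^ B * 2 ^ s * w' := by ring

/-- **comparison of the rewards** of the levels `i` and `i + n` -/
theorem rew_le (q : Fin 3 → ℝ) (i n : ℕ) {a a' w2 w2' w1 w1' B : ℝ}
    (ha : 0 < a) (ha' : 0 < a') (h2 : 0 < w2) (h2' : 0 < w2') (h1 : 0 < w1) (h1' : 0 < w1')
    (b1 : a' ≤ 2 ^ B * a) (b2 : a ≤ 2 ^ B * a') (b3 : w2' ≤ 2 ^ B * w2) (b4 : w2 ≤ 2 ^ B * w2')
    (b5 : w1' ≤ 2 ^ B * w1) (b6 : w1 ≤ 2 ^ B * w1') :
    rew q i a' w2' w1' ≤ (2:ℝ) ^ (qs q * (B + n)) * rew q (i + n) a w2 w1 := by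
  have key : ∀ (p w w' : ℝ), 0 < w → 0 < w' → w' ≤ 2 ^ B * w → w ≤ 2 ^ B * w' →
      (w' * 2 ^ i) ^ p ≤ (2:ℝ) ^ (|p| * (B + n)) * (w * 2 ^ (i + n)) ^ p := by
    intro p w w' hw hw' c1 c2
    have hi : (0:ℝ) < 2 ^ i := by positivity
    have := rpow_comp (p := p) (w := w * 2 ^ i) (w' := w' * 2 ^ i) (B := B) (s := n)
      (by positivity) (by positivity)
      (by calc w' * 2 ^ i ≤ (2 ^ B * w) * 2 ^ i := by gcongr
            _ = _ := by ring)
      (by calc w * 2 ^ i ≤ (2 ^ B * w') * 2 ^ i := by gcongr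
            _ = _ := by ring) (Nat.cast_nonneg n)
    refine this.trans (le_of_eq ?_)
    congr 2
    rw [Real.rpow_natCast, pow_add]; ring
  have k0 := key (q 0) a a' ha ha' b1 b2
  have k1 := key (q 1) w1 w1' h1 h1' b5 b6
  have k2 := key (q 2) w2 w2' h2 h2' b3 b4
  have e : (2:ℝ) ^ (qs q * (B + n)) = 2 ^ (|q 0| * (B + n)) * 2 ^ (|q 1| * (B + n)) *
      2 ^ (|q 2| * (B + n)) := by
    rw [← Real.rpow_add (by norm_num), ← Real.rpow_add (by norm_num)]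
    congr 1; unfold qs; ring
  unfold rew
  rw [e]
  calc (a' * 2 ^ i) ^ q 0 * (w1' * 2 ^ i) ^ q 1 * (w2' * 2 ^ i) ^ q 2
      ≤ ((2:ℝ) ^ (|q 0| * (B + n)) * (a * 2 ^ (i + n)) ^ q 0) *
        ((2:ℝ) ^ (|q 1| * (B + n)) * (w1 * 2 ^ (i + n)) ^ q 1) *
        ((2:ℝ) ^ (|q 2| * (B + n)) * (w2 * 2 ^ (i + n)) ^ q 2) := by gcongr
    _ = _ := by ring

end

end Crest.Agent.R136.Val289
end

-- ▼ part R136/Val4_289

/-!
# R136 (V1) for a general class of sheets (helper289)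

`LegOf Cl Leg` : `Leg m r Λ K` iff `K` is a `Cl`-sheet over its cell with `w 1 ≤ 2^-m`.
`card_coreG`, `val_coreG`, `val_le7G`, `val_endG`, `val_hwG`, `hUB_G` (form of `Win823.ups_all`).
-/

set_option autoImplicit false
set_option linter.unusedVariables false

open Finset

namespace Crest.Agent.R136.Val289

open Sh605 K4 KS879 En879 UB289

noncomputable section

/-- the legality predicate of a class -/
structure LegOf (Cl : Cls) (Leg : ℕ → ℝ → ℝ → Plk4 → Prop) : Prop where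
  iff : ∀ (m : ℕ) (r Λ : ℝ) (K : Plk4), Leg m r Λ K ↔
    Cl K.e K.c K.w K.q K.a ((K.j : ℝ) / 2 ^ m) (1 / 2 ^ m) r ∧ K.w 1 ≤ 1 / 2 ^ m
  cube : ∀ (m : ℕ) (r Λ : ℝ) (o : Ln4 × ℤ), 0 < r → 1 ≤ Λ → r ≤ 1 / 2 ^ m →
    Leg m r Λ (cubeK r o)
  pos : Pos Cl


variable {Cl : Cls} {Leg : ℕ → ℝ → ℝ → Plk4 → Prop}




variable {q : Fin 3 → ℝ} {F : Cf6} {A B k : ℕ}






/-! ### from the one-sheet lemma -/




end

end Crest.Agent.R136.Val289
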