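import Crest.Agent.R136.KDef7_879
import Crest.Agent.R136.Val4_289
import Crest.Agent.R116.XcDef_794
import Crest.Agent.R136.KF2_879

-- ▼ part R136/Val7_879
section

/-!
# R136: (UB) for the configurations with container and resolution (helper879)

`card_coreR` : helper289's `card_coreG` for an arbitrary reward function `R'`.
`card7` : if `D0` bounds the sheets of level `m + h` in the range `[wr, c]`, then the sheets of the
top level with margins (`Mrg`) contain at most `2^(A (M + h + 10)) 2^E D0 cap` objects.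
`val7`, `ubC`, `endC` : the hypotheses `UBC` and `hw` of `Bet7_879`.
-/

set_option autoImplicit false
set_option linter.unusedVariables false

open Finset

namespace Crest.Agent.R136.Val7

open Sh605 K4 KS879 En879 UB289 Val289

noncomputable section

variable {Cl : Cls} {Leg : ℕ → ℝ → ℝ → Plk4 → Prop}



/-- the margins of a sheet of the top level -/
structure Mrg (F : Cf7) (K : Plk4) : Prop where
  rng : ∀ k, F.wr k ≤ wd K k ∧ wd K k ≤ wd F.KC k
  low : ∀ k, k ≠ 0 → F.wr k * (2:ℝ) ^ (7 * (F.M : ℝ)) ≤ wd K k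
  thk : K.a * (2:ℝ) ^ (7 * (F.M : ℝ)) ≤ wd F.KC 0 ∨ wd F.KC 2 ≤ wd F.KC 0


variable {q : Fin 3 → ℝ} {A B k : ℕ}






end

end Crest.Agent.R136.Val7
end

-- ▼ part R136/KDef8_879
section

/-!
# R136: configurations with container over a longer cell and resolution (helper879; 289, 770)

`Cf8` = `Cf6` with a container sheet `KC` over the cell of a level `lc ≤ m` and a resolution vector
`wr`.  `Ok8` : `Ok6` for the class `LegR Leg wr (wd KC)` (members of `Leg` with widths in
`[wr k, wd KC k]`), all lines in the container.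
`InX x C` : container `≤ T 2^(C M)`, lateral margin `≥ x M` below the top marks (thickness: no
margin), range bounded.  `x` is fixed, `C` is variable; a window keeps its container.

* `Ok8.setWr`  : the resolution may be raised up to the top marks;
* `Ok8.raise`  : a margin `x` configuration is a margin `x' ≤ x` configuration;
* `lip8`       : Lipschitz in the rewards, for any bound `R` of the range;
* `enemy8`     : the enemy is in `InX x C` for every `x ≥ 0`, `C ≥ 1`.
-/

set_option autoImplicit false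

open Finset

namespace Crest.Agent.R136.K4

open Sh605 KS879 En879

noncomputable section

/-- configuration with container and resolution -/
structure Cf8 extends Cf6 where
  /-- container: a sheet over the cell of level `lc` -/
  KC : Plk4
  /-- level of the container -/
  lc : ℕ
  /-- resolution of the widths -/
  wr : Fin 3 → ℝ

/-- validity of a configuration with container and resolution -/
structure Ok8 (Leg : ℕ → ℝ → ℝ → Plk4 → Prop) (q : Fin 3 → ℝ) (F : Cf8) : Prop where
  ok : Ok6 (LegR Leg F.wr (wd F.KC)) q F.toCf6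
  lcm : F.lc ≤ F.m
  conL : Leg F.lc F.r F.Λm F.KC
  con : ∀ y ∈ F.I, In4 F.lc F.KC (ob4 F.lc y)
  wrp : ∀ k, 0 < F.wr k

/-- margin exponents: thickness `0`, lateral `x` -/
def xk (x : ℝ) (k : Fin 3) : ℝ := if k = 0 then 0 else x

@[simp] theorem xk_zero (x : ℝ) : xk x 0 = 0 := rfl
@[simp] theorem xk_one (x : ℝ) : xk x 1 = x := rfl
@[simp] theorem xk_two (x : ℝ) : xk x 2 = x := rfl

theorem xk_le {x : ℝ} (hx : 0 ≤ x) (k : Fin 3) : xk x k ≤ x := by
  unfold xk; split_ifs <;> linarith



/-- **the class `P(x, C)`**: container `≤ T 2^(C M)`, lateral margin `≥ x M` -/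
structure InX (x C : ℝ) (F : Cf8) : Prop where
  con : ∀ y ∈ F.I, ∀ k, wd F.KC k ≤ F.T y k * (2:ℝ) ^ (C * F.M)
  mar : ∀ y ∈ F.I, ∀ k, F.wr k * (2:ℝ) ^ (xk x k * F.M) ≤ F.T y k
  low : ∀ y ∈ F.I, ∀ k, F.T y k ≤ F.wr k * (2:ℝ) ^ ((xk x k + 1) * F.M)


variable {Leg : ℕ → ℝ → ℝ → Plk4 → Prop} {q : Fin 3 → ℝ}





/-- the range of a configuration of the class `P(x, C)` -/
theorem InX.range {x C : ℝ} (hx : 0 ≤ x) {F : Cf8} (h : InX x C F) (hF : Ok8 Leg q F)
    (k : Fin 3) : wd F.KC k ≤ F.wr k * (2:ℝ) ^ ((x + 1 + C) * F.M) := by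
  obtain ⟨y, hy⟩ := hF.ok.ne
  have hM0 : (0:ℝ) ≤ F.M := Nat.cast_nonneg _
  calc wd F.KC k ≤ F.T y k * (2:ℝ) ^ (C * F.M) := h.con y hy k
    _ ≤ (F.wr k * (2:ℝ) ^ ((xk x k + 1) * F.M)) * (2:ℝ) ^ (C * F.M) := by
        gcongr; exact h.low y hy k
    _ = F.wr k * (2:ℝ) ^ ((xk x k + 1 + C) * F.M) := by
        rw [mul_assoc, ← Real.rpow_add (by norm_num)]; congr 2; ring
    _ ≤ _ := by
        refine mul_le_mul_of_nonneg_left ?_ (hF.wrp k).le
        refine Real.rpow_le_rpow_of_exponent_le (by norm_num) ?_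
        have := xk_le hx k
        exact mul_le_mul_of_nonneg_right (by linarith) hM0

/-! ### change of the resolution and of the densities -/





/-! ### Lipschitz in the rewards -/


/-! ### the enemy -/




end

end Crest.Agent.R136.K4
end

-- ▼ part R136/Val8_879
section

/-!
# R136: (UB) for the configurations `Cf8` (helper879)

Same as `Val7_879` for `Cf8` / `Ok8` / `InX x C`, `7 ≤ x`, and `Thk8`.
-/

set_option autoImplicit false
set_option linter.unusedVariables false

open Finset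

namespace Crest.Agent.R136.Val8

open Sh605 K4 KS879 En879 UB289 Val289 Val7

noncomputable section

variable {Cl : Cls} {Leg : ℕ → ℝ → ℝ → Plk4 → Prop}

/-- the margins of a sheet of the top level -/
structure Mrg8 (F : Cf8) (K : Plk4) : Prop where
  rng : ∀ k, F.wr k ≤ wd K k ∧ wd K k ≤ wd F.KC k
  low : ∀ k, k ≠ 0 → F.wr k * (2:ℝ) ^ (7 * (F.M : ℝ)) ≤ wd K k
  thk : K.a * (2:ℝ) ^ (7 * (F.M : ℝ)) ≤ wd F.KC 0 ∨ wd F.KC 2 ≤ wd F.KC 0


variable {q : Fin 3 → ℝ} {A B k : ℕ}





end

end Crest.Agent.R136.Val8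
end

-- ▼ part R136/Tq1_879

/-!
# R136: the class of sheets as a class of test sets of the abstract machine (helper879)

`TS36 r` : sheets of class `C*` (`ShN`) with dyadic widths, resolution `r`; index of the widths:
`0` = thickness, `1` = wide, `2` = narrow; only lines of slope at most `1` are members.
-/

set_option autoImplicit false
set_option linter.unusedVariables false

open Finset

namespace Crest.Agent.R136.Tq879

open Crest.Agent.R116.Xa794 (TS)
open Crest.Agent.R138.Mk163 (zc zl rho alive own)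
open Sh605 K4

noncomputable section

/-- sheets of class `C*` with dyadic widths -/
def TS36 (r : ℝ) : TS Ln4 (Fin 3) Plk4 where
  mem := fun i J s t => InSheet t s.2.e s.2.c s.2.w s.2.q s.2.a (zl i J) (rho i) ∧
    ∀ k, |t.v k| ≤ 1
  adm := fun i J s => ShN s.2.e s.2.c s.2.w s.2.q s.2.a (zl i J) (rho i) r ∧ s.2.w 1 ≤ rho i ∧
    ∀ k, wd s.2 k = (1 / 2 : ℝ) ^ (s.1 k)
  vol := fun _ a => (1 / 2 : ℝ) ^ (a 0) * (1 / 2 : ℝ) ^ (a 1) * (1 / 2 : ℝ) ^ (a 2)
  volpos := fun _ _ => by positivity

/-- all resolutions -/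
def TT36 : Set (TS Ln4 (Fin 3) Plk4) := {T | ∃ r : ℝ, 0 < r ∧ T = TS36 r}

/-- a sheet of level `i` over the cell `J` -/
def atc (K : Plk4) (J : ℤ) : Plk4 := { K with j := J }

@[simp] theorem atc_wd (K : Plk4) (J : ℤ) : wd (atc K J) = wd K := rfl



theorem vol_eq {r : ℝ} {i : ℕ} {J : ℤ} {s : (Fin 3 → ℕ) × Plk4} (h : (TS36 r).adm i J s) :
    (TS36 r).vol i s.1 = s.2.a * s.2.w 2 * s.2.w 1 := by
  have h0 := h.2.2 0
  have h1 := h.2.2 1
  have h2 := h.2.2 2
  rw [wd_zero] at h0
  rw [wd_one] at h1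
  rw [wd_two] at h2
  show (1 / 2 : ℝ) ^ (s.1 0) * (1 / 2 : ℝ) ^ (s.1 1) * (1 / 2 : ℝ) ^ (s.1 2) = _
  rw [h0, h1, h2]; ring

end

end Crest.Agent.R136.Tq879
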