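import Crest.Agent.R136.KDef6_879

/-!
# R136: windows of configurations, part 1 (helper823): cells, own counts, pruning

* `zc4_div`  : the coarse cell is the integral part of the fine one.
* `ownc4_mul`: `own (m, k) ≤ own (m, i) * 2^(k-i)`.
* `exists_prune` : one pruning for finitely many partitions with thresholds.
-/
namespace Crest.Agent.R136.Win823
end Crest.Agent.R136.Win823
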