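import Mathlib
import Crest.Agent.R136.MkA_627

/-!
# R136, block U4 (helper248): the pinned extremiser, definitions

Everything is stated for CODES (line number, height) and abstract test sets (`MkA627.Geo`).

* `valx`, `rew`     : size of a test set when the rewards are changed by `x`.
* `IsCl`, `Low`, `Up` : assigned classes of level `j`, lower bound of their sizes, upper bound for all
  admissible test sets of a level (in range `R` of a width vector).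
* `UBw`   : the supremum bound `β'` for all windows and all sub-families (rewards changed by `x`).
* `InSeq` : the extremal sequence.
* `St`    : state of the extraction at a level.
-/

set_option autoImplicit false
set_option linter.unusedVariables false

open Finset Filter Topology

namespace Crest.Agent.R136.XA248

open Crest.Agent.R138.Ex926 Crest.Agent.R138.Dp76
open Crest.Agent.R138.Mk163 (zc zl rho alive own)
open Crest.Agent.R138.MkRef627 (lc)
open MkA627 (Geo)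

variable {σ κ : Type} [Fintype κ]

/-- reward `∏ (w k / ρ_i) ^ x k` -/
noncomputable def rew (i : ℕ) (w x : κ → ℝ) : ℝ := ∏ k, (w k / rho i) ^ x k

/-- width vector of a test set -/
def wv (G : Geo σ κ) (s : σ) : κ → ℝ := fun k => G.wid k s

/-- size of a test set, rewards changed by `x` -/
noncomputable def valx (G : Geo σ κ) (x : κ → ℝ) (n i : ℕ) (J : ℤ) (s : σ) : ℝ :=
  G.val n i J s * rew i (wv G s) x


/-- a relation between widths at a level and widths at a deeper level -/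
abbrev Rel (κ : Type) := ℕ → (κ → ℝ) → ℕ → (κ → ℝ) → Prop



/-- `c` assigns to the objects (line, cell) of level `j` of `F` classes lying in admissible test sets
with the common widths `w` -/
def IsCl (G : Geo σ κ) (n j : ℕ) (F : Finset (ℕ × ℝ)) (c : ℕ → ℤ → ℕ) (b : ℕ → σ) (w : κ → ℝ) :
    Prop :=
  ∀ J : ℤ, ∀ t ∈ alive F j J,
    G.mem n j J (b (c t J)) t ∧ G.adm n j J (b (c t J)) ∧ wv G (b (c t J)) = w

open Classical in
/-- the classes have at least `D · size` objects -/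
def Low (G : Geo σ κ) (x : κ → ℝ) (n j : ℕ) (F : Finset (ℕ × ℝ)) (c : ℕ → ℤ → ℕ) (b : ℕ → σ)
    (D : ℝ) : Prop :=
  ∀ J : ℤ, ∀ t ∈ alive F j J,
    D * valx G x n j J (b (c t J)) ≤ (((alive F j J).filter fun s => c s J = c t J).card : ℝ)

open Classical in
/-- all admissible test sets of level `i`, with widths in range `R` of `w` (level `j`), contain at most
`D · size` alive lines -/
def Up (G : Geo σ κ) (R : Rel κ) (x : κ → ℝ) (n i : ℕ) (F : Finset (ℕ × ℝ)) (j : ℕ) (w : κ → ℝ)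
    (D : ℝ) : Prop :=
  ∀ (J : ℤ) (s : σ), G.adm n i J s → R i (wv G s) j w →
    (((alive F i J).filter fun t => G.mem n i J s t).card : ℝ) ≤ D * valx G x n i J s


/-- **the extremal sequence**: levels `lo n < hi n`, `d n = 2^-(hi n - lo n)`, top classes
`(ct, bt, wt)` of density `D0 d^-β`, `D0` = bound at level `lo`, trivial bound
`D0 · 2^(Cu (i - lo))` at all levels `i`; the admissible test sets have widths in the finite grid
`Sh n`. -/
structure InSeq (B : Base) (I : ℕ → Finset (ℕ × ℝ)) (G : Geo σ κ) (R : Rel κ)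
    (Sh : ℕ → Finset (κ → ℝ)) (lo hi : ℕ → ℕ) (D0 : ℕ → ℝ) (β Cu : ℝ) (ct : ℕ → ℕ → ℤ → ℕ)
    (bt : ℕ → ℕ → σ) (wt : ℕ → κ → ℝ) : Prop where
  lohi : ∀ n, lo n < hi n
  base : ∀ n, B.d n = (1 / 2 : ℝ) ^ (hi n - lo n)
  ne : ∀ᶠ n in (U : Filter ℕ), (I n).Nonempty
  card : ∀ ε : ℝ, 0 < ε → ∀ᶠ n in (U : Filter ℕ), Real.log ((I n).card : ℝ) ≤ B.d n ^ (-ε)
  cell0 : ∀ᶠ n in (U : Filter ℕ), ∀ x ∈ I n, ∀ y ∈ I n, zc (lo n) x.2 = zc (lo n) y.2
  one : ∀ᶠ n in (U : Filter ℕ), ∀ x ∈ I n, ∀ y ∈ I n, x.1 = y.1 →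
    zc (hi n) x.2 = zc (hi n) y.2 → x = y
  own : ∀ ε : ℝ, 0 < ε → ∀ᶠ n in (U : Filter ℕ), ∀ x ∈ I n,
    B.d n ^ (-1 + ε) ≤ ((own (I n) (lo n) (hi n) x).card : ℝ)
  sh : ∀ n i J s, G.adm n i J s → wv G s ∈ Sh n
  shc : ∀ ε : ℝ, 0 < ε → ∀ᶠ n in (U : Filter ℕ), ((Sh n).card : ℝ) ≤ B.d n ^ (-ε)
  shpos : ∀ n, ∀ w ∈ Sh n, ∀ k, 0 < w k
  vpos : ∀ n i J s, G.adm n i J s → 0 < G.val n i J s
  valw : ∀ n i J s J' s', G.adm n i J s → G.adm n i J' s' → wv G s = wv G s' →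
    G.val n i J s = G.val n i J' s'
  D0pos : ∀ n, 0 < D0 n
  βpos : 0 ≤ β
  Cu0 : 0 ≤ Cu
  cl : ∀ᶠ n in (U : Filter ℕ), IsCl G n (hi n) (I n) (ct n) (bt n) (wt n)
  low : ∀ ε : ℝ, 0 < ε → ∀ᶠ n in (U : Filter ℕ),
    Low G 0 n (hi n) (I n) (ct n) (bt n) (D0 n * B.d n ^ (-β + ε))
  up : ∀ ε : ℝ, 0 < ε → ∀ᶠ n in (U : Filter ℕ), ∀ i : ℕ, lo n ≤ i → i ≤ hi n →
    Up G R 0 n i (I n) (hi n) (wt n) (D0 n * (2:ℝ) ^ (Cu * ((i : ℝ) - lo n)) * B.d n ^ (-ε))


/-- **state at level `l n`** (`(l n - lo n) / (hi n - lo n) → v`): near-maximal classes with common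
widths `w n`, in range of the top widths. -/
structure St (B : Base) (J : ℕ → Finset (ℕ × ℝ)) (G : Geo σ κ) (R : Rel κ) (lo hi : ℕ → ℕ)
    (D0 : ℕ → ℝ) (β : ℝ) (wt : ℕ → κ → ℝ) (v : ℝ) (l : ℕ → ℕ) (c : ℕ → ℕ → ℤ → ℕ)
    (b : ℕ → ℕ → σ) (w : ℕ → κ → ℝ) : Prop where
  lo_le : ∀ᶠ n in (U : Filter ℕ), lo n ≤ l n
  le_hi : ∀ᶠ n in (U : Filter ℕ), l n ≤ hi n
  lim : Tendsto (fun n => ((l n : ℝ) - lo n) / ((hi n : ℝ) - lo n)) U (𝓝 v)
  rng : ∀ᶠ n in (U : Filter ℕ), R (l n) (w n) (hi n) (wt n)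
  cl : ∀ᶠ n in (U : Filter ℕ), IsCl G n (l n) (J n) (c n) (b n) (w n)
  near : ∀ ε : ℝ, 0 < ε → ∀ᶠ n in (U : Filter ℕ),
    Low G 0 n (l n) (J n) (c n) (b n)
      (D0 n * (2:ℝ) ^ (β * ((l n : ℝ) - lo n)) * B.d n ^ ε)

/-! ### literal targets of the leaves -/




end Crest.Agent.R136.XA248
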