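import Crest.Agent.R136.XIn1_823
import Crest.Agent.R136.UB4_861_Mg
import Mathlib
import Crest.Agent.R136.Dia1_770
import Crest.Agent.R136.Deep0_770
import Crest.Agent.R136.XA1_248
import Crest.Agent.R136.Win1_823

-- ▼ part R136/XIn2_823
section

/-!
# R136, block U4 (helper823): the extremal sequence on codes (`inSeq_of_seq`)

`SeqDat` : a sequence of configurations `F n` (class `Leg n`, finite set `Sh n` of widths) whose values
tend to `β`; `inSeq_of_seq` : codes `ℓ, I` with 248's `InSeq` and 289's `CodeDat`.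
-/

set_option autoImplicit false
set_option linter.unusedVariables false

open Finset Filter Topology

namespace Crest.Agent.R136.XIn823

open Sh605 K4 KS879 En879 XA248 Win823 Cod289
open Crest.Agent.R138.Ex926 (Base U)
open Crest.Agent.R138.Mk163 (zc zl rho alive own)
open Crest.Agent.R138.MkRef627 (mem_alive)
open MkA627 (Geo)

noncomputable section



/-- input data: configurations whose values tend to `β` -/
structure SeqDat (Leg : ℕ → ℕ → ℝ → ℝ → Plk4 → Prop) (q : Fin 3 → ℝ) (F : ℕ → Cf6)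
    (Sh : ℕ → Finset (Fin 3 → ℝ)) (CU K0 β : ℝ) : Prop where
  pos : ∀ n i K, Leg n i (F n).r (F n).Λm K → 0 < K.a ∧ 0 < K.w 2 ∧ 0 < K.w 1
  CU0 : 0 ≤ CU
  K01 : 1 ≤ K0
  β0 : 0 ≤ β
  ok : ∀ n, Ok6 (Leg n) q (F n)
  all : ∀ n i, (F n).m ≤ i → i ≤ (F n).top → ∀ S, Leg n i (F n).r (F n).Λm S →
    ((objs4 i (F n).I S).card : ℝ) ≤
      (2:ℝ) ^ (CU * ((i : ℝ) - (F n).m + (F n).h + 10)) * (F n).D0 * cap5 q i S
  D0 : ∀ n, 0 < (F n).D0
  rnd : ∀ n, ∀ x ∈ (F n).I, ∀ K, K = (F n).K ((F n).cl (ob4 (F n).top x)) →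
    ∀ O : Finset (Ln4 × ℤ), (∀ o ∈ O, In4 (F n).top K o) → ∃ K', Leg n (F n).top (F n).r (F n).Λm K' ∧ wd K' ∈ Sh n ∧
      cap5 q (F n).top K' ≤ K0 * cap5 q (F n).top K ∧
      ∀ _ : DecidablePred (In4 (F n).top K'),
      (O.card : ℝ) ≤ K0 * ((O.filter fun o => In4 (F n).top K' o).card : ℝ)
  shpos : ∀ n, ∀ w ∈ Sh n, ∀ k, 0 < w k
  shc : ∀ ε : ℝ, 0 < ε → ∀ᶠ n in (U : Filter ℕ), ((Sh n).card : ℝ) ≤ (2:ℝ) ^ (ε * (F n).M)
  len : Tendsto (fun n => ((F n).M : ℝ)) U atTop
  val : ∀ ε : ℝ, 0 < ε → ∀ᶠ n in (U : Filter ℕ), β - ε ≤ (F n).toCf4.val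
  adm : ∀ δ : ℝ, 0 < δ → ∀ᶠ n in (U : Filter ℕ), Adm6 δ (F n)

/-- the new number of coarse levels -/
def hN (F : ℕ → Cf6) (Sh : ℕ → Finset (Fin 3 → ℝ)) (K0 : ℝ) (n : ℕ) : ℕ :=
  (F n).h + ⌈Real.logb 2 (4 * K0 * ((Sh n).card : ℝ))⌉₊

variable {Leg : ℕ → ℕ → ℝ → ℝ → Plk4 → Prop} {q : Fin 3 → ℝ} {F : ℕ → Cf6}
  {Sh : ℕ → Finset (Fin 3 → ℝ)} {CU K0 β : ℝ}




/-- the geometry of the sequence -/
def gSeq (Leg : ℕ → ℕ → ℝ → ℝ → Plk4 → Prop) (q : Fin 3 → ℝ) (F : ℕ → Cf6)
    (Sh : ℕ → Finset (Fin 3 → ℝ)) (ℓ : ℕ → ℕ → Ln4) : Geo Plk4 (Fin 3) :=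
  geoW ℓ q fun n i K => LegS (Leg n) (Sh n) i (F n).r (F n).Λm K


end

end Crest.Agent.R136.XIn823
end

-- ▼ part R136/XIn3_823
section

/-!
# R136, block U4 (helper823): grids of widths

* `RndAt`      : rounding of the sheets of a level into the finite set `Sh`;
* `valB_grid`  : an upper bound for the values of the class gives one for the class with widths in `Sh`;
* `gridN`, `rndAt_N`, `seqDat_N`, `exists_seqDat` : the instance `LegN`.
-/

set_option autoImplicit false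
set_option linter.unusedVariables false

open Finset Filter Topology

namespace Crest.Agent.R136.XIn823

open Sh605 K4 KS879 En879 XA248 Win823 Cod289
open Crest.Agent.R138.Ex926 (Base U)
open Crest.Agent.R138.Mk163 (zc zl rho alive own)
open MkA627 (Geo)

noncomputable section








/-! ### the instance `LegN` -/

/-- dyadic widths -/
def gridW (r : ℝ) (N : ℕ) : Finset (Fin 3 → ℝ) :=
  (Rnd289.shps r N).image fun x => ![x.1, x.2.2, x.2.1]



/-- number of dyadic scales -/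
def gridN (r : ℝ) (lo : ℕ) : ℕ := ⌈Real.logb 2 (1 / (r * 2 ^ lo))⌉₊


/-- the constant of the rounding -/
def K0N (q : Fin 3 → ℝ) : ℝ := 17 ^ 9 * (2:ℝ) ^ (3 * qs q)

theorem K0N_ge (q : Fin 3 → ℝ) : 1 ≤ K0N q := by
  have hqs : 0 ≤ 3 * qs q := by unfold qs; positivity
  have hA1 : (1:ℝ) ≤ (2:ℝ) ^ (3 * qs q) := Real.one_le_rpow (by norm_num) hqs
  unfold K0N
  nlinarith



/-- the exponent of (UB) -/
def CUN (q : Fin 3 → ℝ) : ℝ := (29 : ℝ) + (4 + 1) * qs q







section

variable {q : Fin 3 → ℝ} {β : ℝ} {F : ℕ → Cf6}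
  (h : SeqDat (fun _ => LegN) q F (fun n => gridW (F n).r (gridN (F n).r (F n).m)) (CUN q) (K0N q)
    β)

include h


variable {ℓ : ℕ → ℕ → Ln4} {I : ℕ → Finset (ℕ × ℝ)}
  (hC : CodeDat (gSeq (fun _ => LegN) q F (fun n => gridW (F n).r (gridN (F n).r (F n).m)) ℓ) ℓ I
    (fun n => LegS LegN (gridW (F n).r (gridN (F n).r (F n).m))) (fun n => (F n).r)
    (fun n => (F n).Λm) (fun n => (F n).m) (fun n => (F n).top) q)

include hC



end

end

end Crest.Agent.R136.XIn823
end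

-- ▼ part R136/Dia2_770
section

/-!
# R136 (helper770): refinement and extension of marked sequences with finitely many levels

* `mk_diag_ev` : the final diagonal from eventual finite stages.
* `MkS.refine` : a dense part of an `MkS` contains a dense part which is again an `MkS`.
* `MkS.insert` : one more marked level.
* `full_own`   : full shading between level `0` and `1` gives full shading between all levels.
-/

set_option autoImplicit false
set_option linter.unusedVariables false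
set_option linter.unusedSectionVars false

open Finset Filter Topology

namespace Crest.Agent.R136.Dia770

open Crest.Agent.R138.Ex926 Crest.Agent.R138.Dp76 Crest.Agent.R138.Ps627
open Crest.Agent.R138.Mk163 (zc zl rho alive own)
open Crest.Agent.R138.MkRef627 (lc kc own_one alive_mono mem_alive card_class own_lower hh hh_even
  hh_odd exists_num)
open MkA627 (Geo MkA ampA)

variable {σ κ : Type*}


section

variable {B : Base} {I : ℕ → Finset (ℕ × ℝ)} {G : Geo σ κ} {lev : ℕ → ℚ → ℕ} {A : ℕ → ℝ} {g : ℝ}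
  {θ : κ → ℝ} {f : ℕ → ℚ → ℕ → ℤ → ℕ} {b : ℕ → ℚ → ℕ → σ} {vm : ℕ → ℚ → ℝ} {w : κ → ℕ → ℚ → ℝ}
  {S : Finset ℚ} {e : ℝ}

open Classical in
/-- trivial upper bound for own counts, sequence form. -/
theorem own_upper (B : Base) (I : ℕ → Finset (ℕ × ℝ)) {l1 l2 : ℕ → ℕ} {t : ℝ}
    (hmono : ∀ᶠ n in (U : Filter ℕ), l1 n ≤ l2 n)
    (hlim : Tendsto (fun n => ((l2 n : ℝ) - l1 n) * Real.log 2 / B.L n) U (𝓝 t))
    {ε : ℝ} (hε : 0 < ε) :
    ∀ᶠ n in (U : Filter ℕ), ∀ x, ((own (I n) (l1 n) (l2 n) x).card : ℝ) ≤ B.d n ^ (-t - ε) := by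
  have h1 : ∀ᶠ n in (U : Filter ℕ), ((l2 n : ℝ) - l1 n) * Real.log 2 / B.L n < t + ε :=
    hlim.eventually (Iio_mem_nhds (by linarith))
  filter_upwards [hmono, h1] with n hm h2 x
  have h6 : ((own (I n) (l1 n) (l2 n) x).card : ℝ) ≤ 2 ^ (l2 n - l1 n) := by
    exact_mod_cast own_le (I n) hm x
  refine h6.trans ?_
  have hL := B.L_pos n
  have h8 : ((l2 n : ℝ) - l1 n) * Real.log 2 ≤ (t + ε) * B.L n := by
    rw [div_lt_iff₀ hL] at h2; exact h2.le
  have e1 : (2:ℝ) ^ (l2 n - l1 n) = Real.exp (((l2 n : ℝ) - l1 n) * Real.log 2) := by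
    rw [← Nat.cast_sub hm, ← Real.log_pow, Real.exp_log (by positivity)]
  have e2 : B.d n ^ (-t - ε) = Real.exp ((t + ε) * B.L n) := by
    rw [Real.rpow_def_of_pos (B.pos n)]
    congr 1
    unfold Base.L; ring
  rw [e1, e2]
  exact Real.exp_le_exp.2 h8

open Classical in
/-- incidence counts of (line, cell) pairs. -/
theorem MkS.fib (h : MkS B I G lev A g θ f b vm w S e) (h1S : (1:ℚ) ∈ S) (hS1 : ∀ v ∈ S, v ≤ 1)
    {v : ℚ} (hv : v ∈ S) {ε : ℝ} (hε : 0 < ε) :
    ∀ᶠ n in (U : Filter ℕ), ∀ x ∈ I n,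
      B.d n ^ (-(1 - (v : ℝ)) + ε) ≤
        (((I n).filter fun y => lc (lev n v) y = lc (lev n v) x).card : ℝ) ∧
      (((I n).filter fun y => lc (lev n v) y = lc (lev n v) x).card : ℝ) ≤
        B.d n ^ (-(1 - (v : ℝ)) - ε) := by
  have a1 := h.own v hv 1 h1S (hS1 v hv) ε hε
  have a2 := own_upper B I (h.lev_mono v hv 1 h1S (hS1 v hv)) (h.lev_lim v hv 1 h1S (hS1 v hv)) hε
  filter_upwards [a1, a2, h.one] with n hn hn2 hone x hx
  have h2 := hn x hx
  have h3 := hn2 x
  have e1 : ((1 : ℚ) : ℝ) = 1 := by norm_num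
  rw [own_one hone] at h2 h3
  rw [e1] at h2 h3
  exact ⟨h2, h3⟩

open Classical in
/-- **a part which keeps its (line, cell) and (class, cell) fibres is again an `MkS`.** -/
theorem MkS.of_fib (h : MkS B I G lev A g θ f b vm w S e) (h1S : (1:ℚ) ∈ S)
    (hS1 : ∀ v ∈ S, v ≤ 1) {J' : ℕ → Finset (ℕ × ℝ)}
    (hsub : ∀ n, J' n ⊆ I n) (hne : ∀ᶠ n in (U : Filter ℕ), (J' n).Nonempty)
    (fl : ∀ v ∈ S, ∀ ε : ℝ, 0 < ε → ∀ᶠ n in (U : Filter ℕ), ∀ x ∈ J' n,
      B.d n ^ ε * (((I n).filter fun y => lc (lev n v) y = lc (lev n v) x).card : ℝ) ≤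
        (((J' n).filter fun y => lc (lev n v) y = lc (lev n v) x).card : ℝ))
    (fk : ∀ v ∈ S, ∀ ε : ℝ, 0 < ε → ∀ᶠ n in (U : Filter ℕ), ∀ x ∈ J' n,
      B.d n ^ ε * (((I n).filter fun y => kc (lev n v) (f n v) y = kc (lev n v) (f n v) x).card : ℝ)
        ≤ (((J' n).filter fun y => kc (lev n v) (f n v) y = kc (lev n v) (f n v) x).card : ℝ)) :
    MkS B J' G lev A g θ f b vm w S e := by
  refine
    { ne := hne
      card := ?_
      Apos := h.Apos
      lev_mono := h.lev_mono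
      lev_lim := h.lev_lim
      cell0 := by
        filter_upwards [h.cell0] with n hn x hx y hy using hn x ((hsub n) hx) y ((hsub n) hy)
      one := by
        filter_upwards [h.one] with n hn x hx y hy using hn x ((hsub n) hx) y ((hsub n) hy)
      own := ?_
      dmax := ?_
      mark := ?_
      near := ?_
      vpos := h.vpos
      wpos := h.wpos
      tau := h.tau }
  · intro ε hε
    filter_upwards [h.card ε hε, hne] with n hn hne
    refine le_trans (Real.log_le_log (by exact_mod_cast card_pos.2 hne)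
      (by exact_mod_cast card_le_card (hsub n))) hn
  · intro u hu v hv huv ε hε
    have hε3 : 0 < ε / 3 := by linarith
    filter_upwards [h.fib h1S hS1 hu hε3, h.fib h1S hS1 hv hε3, fl u hu (ε / 3) hε3] with
      n h2 h3 h4 x hx
    have h5 := own_lower (J := J' n) (i := lev n u) (j := lev n v) (x := x)
      (m := B.d n ^ (-(1 - (v : ℝ)) - ε / 3)) (fun y hy =>
        le_trans (by exact_mod_cast card_le_card (filter_subset_filter _ (hsub n)))
          (h3 y ((hsub n) hy)).2) hx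
    have h6 := (mul_le_mul_of_nonneg_left (h2 x ((hsub n) hx)).1 (dpow_pos B n (ε / 3)).le).trans
      ((h4 x hx).trans h5)
    rw [← dpow_add] at h6
    have hp := dpow_pos B n (-(1 - (v : ℝ)) - ε / 3)
    rw [← div_le_iff₀' hp, ← Real.rpow_sub (B.pos n)] at h6
    refine le_trans (le_of_eq ?_) h6
    congr 1; ring
  · intro v hv ε hε
    filter_upwards [h.dmax v hv ε hε] with n hn J s hs
    refine le_trans ?_ (hn J s hs)
    exact_mod_cast card_le_card (filter_subset_filter _ (alive_mono (hsub n) _ _))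
  · intro v hv
    filter_upwards [h.mark v hv] with n hn J t ht
    exact hn J t (alive_mono (hsub n) _ _ ht)
  · intro v hv ε hε
    have hε4 : 0 < ε / 4 := by linarith
    filter_upwards [h.near v hv (ε / 4) hε4, h.fib h1S hS1 hv hε4, fk v hv (ε / 4) hε4]
      with n h1 h2 h3 J t ht
    obtain ⟨x, hx, hx1, hx2⟩ := mem_alive.1 ht
    have hxI := (hsub n) hx
    have h4 := h1 J t (alive_mono (hsub n) _ _ ht)
    set a : ℕ := f n v t J with ha
    have kI : ∀ K : Finset (ℕ × ℝ), (K.filter fun y => kc (lev n v) (f n v) y =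
        kc (lev n v) (f n v) x) = K.filter fun y => (lc (lev n v) y).2 = J ∧
          f n v (lc (lev n v) y).1 J = a := by
      intro K
      ext y
      rw [mem_filter, mem_filter]
      simp only [kc, lc, Prod.mk.injEq, hx1, hx2, ← ha]
      constructor
      · rintro ⟨h5, h6, h7⟩
        exact ⟨h5, h7, by rw [← h7]; exact h6⟩
      · rintro ⟨h5, h7, h6⟩
        exact ⟨h5, by rw [h7]; exact h6, h7⟩
    set m₁ : ℝ := B.d n ^ (-(1 - (v : ℝ)) + ε / 4) with hm₁
    set m₂ : ℝ := B.d n ^ (-(1 - (v : ℝ)) - ε / 4) with hm₂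
    have p1 : m₁ * (((alive (I n) (lev n v) J).filter fun s => f n v s J = a).card : ℝ) ≤
        (((I n).filter fun y => kc (lev n v) (f n v) y = kc (lev n v) (f n v) x).card : ℝ) := by
      rw [card_class (I n) (lev n v) J (fun s => f n v s J) a, kI (I n)]
      have := mul_card_filter_le (n₁ := m₁) (lc (lev n v)) (I n)
        (fun o => o.2 = J ∧ f n v o.1 J = a) (fun y hy => by convert (h2 y hy).1)
      convert this
    have p2 : (((J' n).filter fun y => kc (lev n v) (f n v) y = kc (lev n v) (f n v) x).card : ℝ) ≤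
        m₂ * (((alive (J' n) (lev n v) J).filter fun s => f n v s J = a).card : ℝ) := by
      rw [card_class (J' n) (lev n v) J (fun s => f n v s J) a, kI (J' n)]
      have h7 : ∀ y ∈ J' n, (((J' n).filter fun z => lc (lev n v) z = lc (lev n v) y).card : ℝ) ≤
          m₂ := by
        intro y hy
        have h6 := card_le_card (filter_subset_filter (fun z => lc (lev n v) z = lc (lev n v) y)
          (hsub n))
        have h8 : (((J' n).filter fun z => lc (lev n v) z = lc (lev n v) y).card : ℝ) ≤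
          (((I n).filter fun z => lc (lev n v) z = lc (lev n v) y).card : ℝ) := by
          exact_mod_cast h6
        exact h8.trans (h2 y ((hsub n) hy)).2
      have := card_filter_le_mul (n₂ := m₂) (lc (lev n v)) (J' n)
        (fun o => o.2 = J ∧ f n v o.1 J = a) (fun y hy => by convert h7 y hy)
      convert this
    have p3 := h3 x hx
    set NI : ℝ := (((alive (I n) (lev n v) J).filter fun s => f n v s J = a).card : ℝ) with hNI
    set NJ : ℝ := (((alive (J' n) (lev n v) J).filter fun s => f n v s J = a).card : ℝ) with hNJ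
    have p4 : B.d n ^ (ε / 4) * (m₁ * NI) ≤ m₂ * NJ :=
      (mul_le_mul_of_nonneg_left p1 (dpow_pos B n _).le).trans (p3.trans p2)
    have p5 : NI ≤ B.d n ^ (-(3 * (ε / 4))) * NJ := by
      have hpos : 0 < B.d n ^ (ε / 4) * m₁ := mul_pos (dpow_pos B n _) (dpow_pos B n _)
      have h7 : m₂ = B.d n ^ (-(3 * (ε / 4))) * (B.d n ^ (ε / 4) * m₁) := by
        rw [hm₁, hm₂, ← dpow_add, ← dpow_add]; congr 1; ring
      rw [h7] at p4
      have h8 : (B.d n ^ (ε / 4) * m₁) * NI ≤ (B.d n ^ (ε / 4) * m₁) *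
          (B.d n ^ (-(3 * (ε / 4))) * NJ) := by linarith
      exact le_of_mul_le_mul_left h8 hpos
    refine h4.trans ?_
    have h9 : B.d n ^ (-ε) = B.d n ^ (-(ε / 4)) * B.d n ^ (-(3 * (ε / 4))) := by
      rw [← dpow_add]; congr 1; ring
    rw [h9, mul_assoc]
    exact mul_le_mul_of_nonneg_left p5 (dpow_pos B n _).le

open Classical in
/-- **refinement**, with extra fibre maps `k` which keep their fibres. -/
theorem MkS.refine' (h : MkS B I G lev A g θ f b vm w S e) (h1S : (1:ℚ) ∈ S)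
    (hS1 : ∀ v ∈ S, v ≤ 1) {J : ℕ → Finset (ℕ × ℝ)} (hJ : Dense B J I) :
    ∃ J' : ℕ → Finset (ℕ × ℝ), (∀ n, J' n ⊆ J n) ∧ Dense B J' J ∧
      (∀ᶠ n in (U : Filter ℕ), ((J n).card : ℝ) ≤ 2 * ((J' n).card : ℝ)) ∧
      MkS B J' G lev A g θ f b vm w S e := by
  obtain ⟨J', hsub, hhalf, hfib⟩ := prune_seq (η := fun _ _ => ℕ × ℤ) hJ (hh lev f)
  have hJ'J : Dense B J' J := dense_of_half (by
    filter_upwards [hhalf] with n hn using ⟨(hsub n).1, hn⟩)
  have hJ'I : Dense B J' I := hJ'J.trans hJ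
  have fl : ∀ v : ℚ, ∀ ε : ℝ, 0 < ε → ∀ᶠ n in (U : Filter ℕ), ∀ x ∈ J' n,
      B.d n ^ ε * (((I n).filter fun y => lc (lev n v) y = lc (lev n v) x).card : ℝ) ≤
        (((J' n).filter fun y => lc (lev n v) y = lc (lev n v) x).card : ℝ) := by
    intro v ε hε
    obtain ⟨j, rfl⟩ := exists_num v
    filter_upwards [hfib (2 * j) ε hε] with n hn x hx
    have := hn x hx
    simp only [hh_even] at this
    exact this
  have fk : ∀ v : ℚ, ∀ ε : ℝ, 0 < ε → ∀ᶠ n in (U : Filter ℕ), ∀ x ∈ J' n,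
      B.d n ^ ε * (((I n).filter fun y => kc (lev n v) (f n v) y = kc (lev n v) (f n v) x).card : ℝ)
        ≤ (((J' n).filter fun y => kc (lev n v) (f n v) y = kc (lev n v) (f n v) x).card : ℝ) := by
    intro v ε hε
    obtain ⟨j, rfl⟩ := exists_num v
    filter_upwards [hfib (2 * j + 1) ε hε] with n hn x hx
    have := hn x hx
    simp only [hh_odd] at this
    exact this
  exact ⟨J', fun n => (hsub n).1, hJ'J, hhalf, h.of_fib h1S hS1 (fun n => (hsub n).2)
    (hJ'I.nonempty h.ne) (fun v _ => fl v) (fun v _ => fk v)⟩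

/-- **refinement of an `MkS`.** -/
theorem MkS.refine (h : MkS B I G lev A g θ f b vm w S e) (h1S : (1:ℚ) ∈ S)
    (hS1 : ∀ v ∈ S, v ≤ 1) {J : ℕ → Finset (ℕ × ℝ)} (hJ : Dense B J I) :
    ∃ J' : ℕ → Finset (ℕ × ℝ), (∀ n, J' n ⊆ J n) ∧ Dense B J' J ∧
      MkS B J' G lev A g θ f b vm w S e := by
  obtain ⟨J', h1, h2, -, h4⟩ := h.refine' h1S hS1 hJ
  exact ⟨J', h1, h2, h4⟩

end

end Crest.Agent.R136.Dia770
end

-- ▼ part R136/XIn4_823

/-!
# R136, block U4 (helper823): from the grid of widths to all sheets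

* `GeoCov K0 lo L G1 G2` : every set of allowed codes (`L n`) in an admissible test set of `G2` (level
  `≥ lo n`) has a `1/K0`-portion in an admissible test set of `G1` of size `≤ K0 ·`;
* `mkA_big`, `allD_big`, `deepP_big` : D-max for `G1` gives D-max for `G2`;
* `geoCov_W`, `GeoCov.diag` : the instances.
-/

set_option autoImplicit false
set_option linter.unusedVariables false
set_option linter.unusedSectionVars false

open Finset Filter Topology

namespace Crest.Agent.R136.XIn823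

open Sh605 K4 KS879 En879 XA248 Win823 Cod289
open Crest.Agent.R138.Ex926 Crest.Agent.R138.Dp76
open Crest.Agent.R138.Mk163 (zc zl rho alive own)
open Crest.Agent.R138.MkRef627 (lc mem_alive)
open MkA627 (Geo MkA ampA)
open Dia770

noncomputable section

/-- comparison of two geometries with the same test sets -/
structure GeoCov {σ κ : Type} (K0 : ℝ) (lo : ℕ → ℕ) (L : ℕ → Finset ℕ) (G1 G2 : Geo σ κ) :
    Prop where
  mem : ∀ n i J s t, G2.mem n i J s t ↔ G1.mem n i J s t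
  val : ∀ n i J s, G2.val n i J s = G1.val n i J s
  wid : ∀ k s, G2.wid k s = G1.wid k s
  cov : ∀ n i : ℕ, lo n ≤ i → ∀ (J : ℤ) (s : σ), G2.adm n i J s → ∀ T : Finset ℕ, T ⊆ L n →
    (∀ t ∈ T, G2.mem n i J s t) → ∃ s' : σ, G1.adm n i J s' ∧
      G1.val n i J s' ≤ K0 * G2.val n i J s ∧
      ∃ T' : Finset ℕ, T' ⊆ T ∧ (∀ t ∈ T', G1.mem n i J s' t) ∧ (T.card : ℝ) ≤ K0 * (T'.card : ℝ)

section

variable {σ κ : Type} {B : Base} {lo : ℕ → ℕ} {L : ℕ → Finset ℕ} {K0 : ℝ} {G1 G2 : Geo σ κ}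
  {I : ℕ → Finset (ℕ × ℝ)} {lev : ℕ → ℚ → ℕ} {A : ℕ → ℝ}



theorem ev_const_le (B : Base) (K : ℝ) {ε : ℝ} (hε : 0 < ε) :
    ∀ᶠ n in (U : Filter ℕ), K ≤ B.d n ^ (-ε) := by
  filter_upwards [B.ev_L_ge (K / ε)] with n hn
  rw [div_le_iff₀ hε] at hn
  have e : B.d n ^ (-ε) = Real.exp (B.L n * ε) := by
    rw [Real.rpow_def_of_pos (B.pos n)]
    congr 1
    unfold Base.L
    ring
  rw [e]
  have := Real.add_one_le_exp (B.L n * ε)
  linarith

theorem rpow_half (n : ℕ) {ε : ℝ} : B.d n ^ (-(ε / 2)) * B.d n ^ (-(ε / 2)) = B.d n ^ (-ε) := by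
  rw [← Real.rpow_add (B.pos n)]; congr 1; ring





end


end

end Crest.Agent.R136.XIn823
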