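import Crest.Agent.R136.Sh6_605
import Crest.Agent.R136.Rnd_289
import Crest.Agent.R136.XIn4_823
import Crest.Agent.R116.Xa3_794
import Crest.Agent.R136.Tq1_879

-- ▼ part R136/Cig_705
section

/-!
# R136 (U5 TILT), helper705: replacement of a thin chart by an affine cigar

A sheet whose chart width `w 0` is at most `K a` is contained in the flat sheet of thickness `K a`
with the same axes around the same centre line (widths enlarged to at least `K a`).
-/

set_option autoImplicit false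
set_option linter.unusedVariables false

namespace Crest.Agent.R136.Cig705

open Crest.Agent.R136.Sh605

/-- the affine function of the centre line -/
def qaf (e : Fin 3 → V3) (c : Ln4) : ℝ → V3 → ℝ := fun z x => dt (e 0) (x - c.pos z)


theorem qaf_add (e : Fin 3 → V3) (c : Ln4) (z : ℝ) (x : V3) (τ : ℝ) (u : V3) :
    qaf e c z (x + τ • u) - qaf e c z x = τ * dt (e 0) u := by
  simp only [qaf, dt, Pi.sub_apply, Pi.add_apply, Pi.smul_apply, smul_eq_mul]
  ring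

theorem qaf_isQ (e : Fin 3 → V3) (c : Ln4) : IsQ (qaf e c) := by
  refine ⟨-(dt (e 0) c.p), -(dt (e 0) c.v), 0, e 0, 0, 0, fun z x => ?_⟩
  simp only [qaf, dt, Pi.sub_apply, Ln4.pos, Fin.sum_univ_three, Pi.zero_apply]
  ring










end Crest.Agent.R136.Cig705
end

-- ▼ part R136/AllD1_823
section

/-!
# R136, block U4 (helper823): D-max at all natural levels, part 1 (finite)

`shrink_cover` : the lines of a sheet of the class `ShN` over `[z0, z0 + ρ]` (widths `≤ ρ`) restricted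
to a shorter window `[z0', z0' + ρ']`, `ρ ≤ N ρ'`: a `1 / (2 N + 1)^6` part lies in a `ShN`-sheet over
the short window with the widths `min (w i) ρ'` and the thickness `min a ρ'`.
-/

set_option autoImplicit false
set_option linter.unusedVariables false

open Finset

namespace Crest.Agent.R136.AllD823

open Sh605 UB289 Rnd289 Cig705

noncomputable section

theorem window {e : Fin 3 → V3} {c : Ln4} {w : V3} {q : ℝ → V3 → ℝ} {a z0 ρ r0 z0' ρ' : ℝ}
    (h : ShN e c w q a z0 ρ r0) (h0 : z0 ≤ z0') (h1 : z0' + ρ' ≤ z0 + ρ) :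
    ShN e c w q a z0' ρ' r0 :=
  { ortho := h.ortho, isQ := h.isQ, a_le0 := h.a_le0, w0_le := h.w0_le, w_le := h.w_le
    r0_le := h.r0_le
    st0 := fun z hz hz' => h.st0 z (h0.trans hz) (hz'.trans h1)
    sl1 := fun z hz hz' => h.sl1 z (h0.trans hz) (hz'.trans h1)
    sl2 := fun z hz hz' => h.sl2 z (h0.trans hz) (hz'.trans h1) }

theorem window_mem {t : Ln4} {e : Fin 3 → V3} {c : Ln4} {w : V3} {q : ℝ → V3 → ℝ}
    {a z0 ρ z0' ρ' : ℝ} (h : InSheet t e c w q a z0 ρ) (h0 : z0 ≤ z0')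
    (h1 : z0' + ρ' ≤ z0 + ρ) : InSheet t e c w q a z0' ρ' :=
  fun z hz hz' => h z (h0.trans hz) (hz'.trans h1)

/-- a point close to `u` is at distance `≤ w'` from the clamped `u` -/
theorem clp_closeN {w w' u t μ : ℝ} (h1 : w' ≤ w) (h2 : μ ≤ w') (hu : |u| ≤ w) (ht : |t| ≤ w)
    (htu : |t - u| ≤ μ) : |t - clp (w - w') u| ≤ w' := by
  unfold clp
  rw [abs_le] at hu ht htu ⊢
  rcases le_total (w - w') u with h3 | h3
  · rw [min_eq_left h3, max_eq_right (by linarith)]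
    constructor <;> linarith
  · rw [min_eq_right h3]
    rcases le_total (-(w - w')) u with h4 | h4
    · rw [max_eq_right h4]
      constructor <;> linarith
    · rw [max_eq_left h4]
      constructor <;> linarith

theorem ctl_closeN {e : Fin 3 → V3} (he : Ortho e) {c : Ln4} {w w' : V3} {z0 ρ κ : ℝ} (hρ : 0 < ρ)
    (hw : ∀ i, w' i ≤ w i) (hw8 : ∀ i, κ * w i ≤ w' i) {y t : Ln4}
    (hy0 : ∀ i, |crd e c y z0 i| ≤ w i) (hy1 : ∀ i, |crd e c y (z0 + ρ) i| ≤ w i)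
    (ht0 : ∀ i, |crd e c t z0 i| ≤ w i) (ht1 : ∀ i, |crd e c t (z0 + ρ) i| ≤ w i)
    (c0 : ∀ i, |dt (e i) (t.pos z0 - y.pos z0)| ≤ κ * w i)
    (c1 : ∀ i, |dt (e i) (t.pos (z0 + ρ) - y.pos (z0 + ρ))| ≤ κ * w i)
    {z : ℝ} (h0 : z0 ≤ z) (h1 : z ≤ z0 + ρ) (i : Fin 3) :
    |dt (e i) (t.pos z - (ctl e c w w' z0 ρ y).pos z)| ≤ w' i := by
  have k0 := c0 i
  have k1 := c1 i
  rw [crd_sub e c t y] at k0 k1
  have g0 := clp_closeN (hw i) (hw8 i) (hy0 i) (ht0 i) k0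
  have g1 := clp_closeN (hw i) (hw8 i) (hy1 i) (ht1 i) k1
  rw [crd_sub e c t]
  unfold ctl
  rw [cen_crd he c hρ, crd_affine e c t hρ z i]
  have e1 : (crd e c t z0 i * (z0 + ρ - z) + crd e c t (z0 + ρ) i * (z - z0)) / ρ -
      (clp (w i - w' i) (crd e c y z0 i) * (z0 + ρ - z) +
        clp (w i - w' i) (crd e c y (z0 + ρ) i) * (z - z0)) / ρ =
      ((crd e c t z0 i - clp (w i - w' i) (crd e c y z0 i)) * (z0 + ρ - z) +
        (crd e c t (z0 + ρ) i - clp (w i - w' i) (crd e c y (z0 + ρ) i)) * (z - z0)) / ρ := by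
    ring
  rw [e1]
  exact conv_abs hρ h0 h1 g0 g1

/-- the widths over the short window -/
def wm (w : V3) (ρ' : ℝ) : V3 := fun i => min (w i) ρ'

/-- smaller widths, same function -/
theorem small_sheet {e : Fin 3 → V3} {c : Ln4} {w w' : V3} {q : ℝ → V3 → ℝ} {a z0 ρ r0 : ℝ}
    (S : ShN e c w q a z0 ρ r0) (hρ : 0 < ρ) (hw : ∀ i, w' i ≤ w i) (hp : ∀ i, 0 < w' i)
    (ha : a ≤ w' 0) (h02 : w' 0 ≤ w' 2) (h21 : w' 2 ≤ w' 1) (r1 : w 0 * w' 1 ≤ w' 0 * w 1)
    (r2 : w 0 * w' 2 ≤ w' 0 * w 2) (y : Ln4) :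
    ShN e (ctl e c w w' z0 ρ y) w' q a z0 ρ r0 := by
  have hq : ∀ i, 0 < w i := fun i => (hp i).trans_le (hw i)
  have hin : ∀ {z : ℝ} {x : V3}, z0 ≤ z → z ≤ z0 + ρ →
      InK e (ctl e c w w' z0 ρ y) (dbl3 w') z x → InK e c (dbl3 w) z x := by
    intro z x h0 h1 hx i
    have g1 := hx i
    have g2 := ctl_abs (c := c) S.ortho hρ hw y h0 h1 i
    have g3 := hw i
    have e1 : dt (e i) (x - c.pos z) = dt (e i) (x - (ctl e c w w' z0 ρ y).pos z) +
        crd e c (ctl e c w w' z0 ρ y) z i := by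
      simp only [crd, dt, Pi.sub_apply]; ring
    rw [e1]
    refine (abs_add_le _ _).trans ?_
    unfold dbl3 at g1 ⊢
    linarith
  refine ⟨S.ortho, S.isQ, ha, h02, h21, S.r0_le, ?_, ?_, ?_⟩
  · intro z h0 h1 x τ hτ hx hx'
    exact S.st0 z h0 h1 x τ hτ (hin h0 h1 hx) (hin h0 h1 hx')
  · intro z h0 h1 x τ hτ hx hx'
    refine (S.sl1 z h0 h1 x τ hτ (hin h0 h1 hx) (hin h0 h1 hx')).trans
      (mul_le_mul_of_nonneg_right ?_ hτ)
    rw [div_le_div_iff₀ (hq 1) (hp 1)]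
    exact r1
  · intro z h0 h1 x τ hτ hx hx'
    refine (S.sl2 z h0 h1 x τ hτ (hin h0 h1 hx) (hin h0 h1 hx')).trans
      (mul_le_mul_of_nonneg_right ?_ hτ)
    rw [div_le_div_iff₀ (hq 2) (hp 2)]
    exact r2

theorem min_slope {u v s : ℝ} (hs : 0 < s) (hu : 0 < u) (huv : u ≤ v) :
    u * min v s ≤ min u s * v := by
  rcases le_total u s with h | h
  · rw [min_eq_left h]
    exact mul_le_mul_of_nonneg_left (min_le_left _ _) hu.le
  · rw [min_eq_right h, min_eq_right (h.trans huv), mul_comm]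
    exact mul_le_mul_of_nonneg_left huv hs.le

open Classical in
/-- **shrinking of the window** -/
theorem shrink_cover {ι : Type} {e : Fin 3 → V3} {c : Ln4} {w : V3} {q : ℝ → V3 → ℝ}
    {a z0 ρ r0 z0' ρ' : ℝ} (S : ShN e c w q a z0 ρ r0) (hr : 0 < r0) (hρ' : 0 < ρ')
    (h0 : z0 ≤ z0') (h1 : z0' + ρ' ≤ z0 + ρ) (hw1 : w 1 ≤ ρ) (hr' : r0 ≤ ρ') {N : ℕ}
    (hN : ρ ≤ N * ρ') (L : ι → Ln4) (T : Finset ι)
    (hT : ∀ t ∈ T, InSheet (L t) e c w q a z0 ρ) :
    ∃ (c' : Ln4) (q' : ℝ → V3 → ℝ), ShN e c' (wm w ρ') q' (min a ρ') z0' ρ' r0 ∧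
      (T.card : ℝ) ≤ (2 * N + 1) ^ 6 *
        ((T.filter fun t => InSheet (L t) e c' (wm w ρ') q' (min a ρ') z0' ρ').card : ℝ) := by
  classical
  have pa : 0 < a := hr.trans_le S.r0_le
  have p0 : 0 < w 0 := pa.trans_le S.a_le0
  have p2 : 0 < w 2 := p0.trans_le S.w0_le
  have p1 : 0 < w 1 := p2.trans_le S.w_le
  have hwp : ∀ i, 0 < w i := by
    intro i; fin_cases i
    · exact p0
    · exact p1
    · exact p2
  have hwle : ∀ i, w i ≤ w 1 := by
    intro i; fin_cases i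
    · exact S.w0_le.trans S.w_le
    · exact le_rfl
    · exact S.w_le
  have hρ : 0 < ρ := p1.trans_le hw1
  have hNp : 0 < N := by
    rcases Nat.eq_zero_or_pos N with h | h
    · rw [h, Nat.cast_zero, zero_mul] at hN; linarith
    · exact h
  have hNR : (0:ℝ) < N := by exact_mod_cast hNp
  have hmp : ∀ i, 0 < wm w ρ' i := fun i => lt_min (hwp i) hρ'
  have hml : ∀ i, wm w ρ' i ≤ w i := fun i => min_le_left _ _
  have hmk : ∀ i, 1 / (N:ℝ) * w i ≤ wm w ρ' i := by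
    intro i
    have hN1 : (1:ℝ) ≤ N := by exact_mod_cast hNp
    rw [one_div, inv_mul_le_iff₀ hNR]
    unfold wm
    rcases le_total (w i) ρ' with h | h
    · rw [min_eq_left h]
      nlinarith [hwp i]
    · rw [min_eq_right h]
      exact ((hwle i).trans hw1).trans hN
  have hms0 : wm w ρ' 0 ≤ wm w ρ' 2 := min_le_min_right _ S.w0_le
  have hms2 : wm w ρ' 2 ≤ wm w ρ' 1 := min_le_min_right _ S.w_le
  have S' := window S h0 h1
  have hT' : ∀ t ∈ T, InSheet (L t) e c w q a z0' ρ' := fun t ht => window_mem (hT t ht) h0 h1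
  rcases T.eq_empty_or_nonempty with hTe | hne
  · -- no lines
    have hc : ∀ y, ShN e (ctl e c w (wm w ρ') z0' ρ' y) (wm w ρ') (qaf e c) (min a ρ') z0' ρ' r0 := by
      intro y
      refine ⟨S.ortho, qaf_isQ e c, min_le_min_right _ S.a_le0, hms0, hms2, le_min S.r0_le hr',
        ?_, ?_, ?_⟩
      · intro z _ _ x τ hτ _ _
        have h := S.ortho 0 0
        rw [if_pos rfl] at h
        rw [qaf_add, h, mul_one]
        constructor <;> linarith
      · intro z _ _ x τ hτ _ _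
        have h := S.ortho 0 1
        rw [if_neg (by decide)] at h
        rw [qaf_add, h, mul_zero, abs_zero]
        exact mul_nonneg (div_pos (hmp 0) (hmp 1)).le hτ
      · intro z _ _ x τ hτ _ _
        have h := S.ortho 0 2
        rw [if_neg (by decide)] at h
        rw [qaf_add, h, mul_zero, abs_zero]
        exact mul_nonneg (div_pos (hmp 0) (hmp 2)).le hτ
    refine ⟨_, _, hc c, ?_⟩
    rw [hTe, card_empty, Nat.cast_zero]
    positivity
  -- popular class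
  set P := (Fintype.piFinset fun _ : Fin 3 => Icc (-(N:ℤ)) N) ×ˢ
      (Fintype.piFinset fun _ : Fin 3 => Icc (-(N:ℤ)) N) with hP
  have hPc : (P.card : ℝ) = (2 * N + 1) ^ 6 := by
    rw [hP, code_card]; push_cast; ring
  have hmap : ∀ t ∈ T, code e c w (1 / N) z0' (z0' + ρ') (L t) ∈ P :=
    fun t ht => code_mem hρ'.le hNp hwp (hT' t ht)
  have hPne : P.Nonempty := by
    obtain ⟨t, ht⟩ := hne
    exact ⟨_, hmap t ht⟩
  have hPpos : (0:ℝ) < (2 * N + 1) ^ 6 := by positivity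
  obtain ⟨b, hb, hb2⟩ := Finset.exists_le_card_fiber_of_nsmul_le_card_of_maps_to (s := T)
    (t := P) (f := fun t => code e c w (1 / N) z0' (z0' + ρ') (L t))
    (b := (T.card : ℝ) / (2 * N + 1) ^ 6)
    hmap hPne (by
      rw [nsmul_eq_mul, hPc, mul_div_cancel₀]
      exact hPpos.ne')
  rw [div_le_iff₀ hPpos] at hb2
  have hpos : (0:ℝ) < T.card := by exact_mod_cast card_pos.2 hne
  have hfne : (T.filter fun t => code e c w (1 / N) z0' (z0' + ρ') (L t) = b).Nonempty := by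
    rw [← card_pos]
    by_contra hn
    have h0 : (T.filter fun t => code e c w (1 / N) z0' (z0' + ρ') (L t) = b).card = 0 := by omega
    rw [h0, Nat.cast_zero, zero_mul] at hb2
    linarith
  obtain ⟨y, hy⟩ := hfne
  rw [mem_filter] at hy
  have hInK : ∀ t ∈ T, code e c w (1 / N) z0' (z0' + ρ') (L t) = b → ∀ z, z0' ≤ z →
      z ≤ z0' + ρ' → InK e (ctl e c w (wm w ρ') z0' ρ' (L y)) (wm w ρ') z ((L t).pos z) := by
    intro t ht hc z hz hz' i
    obtain ⟨c0, c1⟩ := code_close (κ := 1 / (N:ℝ)) (by positivity) hwp (hc.trans hy.2.symm)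
    exact ctl_closeN S.ortho hρ' hml hmk (hT' y hy.1 z0' le_rfl (by linarith)).1
      (hT' y hy.1 (z0' + ρ') (by linarith) le_rfl).1 (hT' t ht z0' le_rfl (by linarith)).1
      (hT' t ht (z0' + ρ') (by linarith) le_rfl).1 c0 c1 hz hz' i
  rcases le_total a ρ' with haρ | haρ
  · -- the same function
    refine ⟨ctl e c w (wm w ρ') z0' ρ' (L y), q, ?_, ?_⟩
    · rw [min_eq_left haρ]
      exact small_sheet S' hρ' hml hmp (le_min S.a_le0 haρ) hms0 hms2
        (min_slope hρ' p0 (S.w0_le.trans S.w_le)) (min_slope hρ' p0 S.w0_le) (L y)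
    · refine hb2.trans ?_
      rw [mul_comm]
      refine mul_le_mul_of_nonneg_left (Nat.cast_le.2 (card_le_card fun t ht => ?_)) hPpos.le
      rw [mem_filter] at ht ⊢
      refine ⟨ht.1, fun z hz hz' => ⟨hInK t ht.1 ht.2 z hz hz', ?_⟩⟩
      rw [min_eq_left haρ]
      exact (hT' t ht.1 z hz hz').2
  · -- thick sheet: cubes
    set c' := ctl e c w (wm w ρ') z0' ρ' (L y) with hc'
    have e0 : wm w ρ' 0 = ρ' := min_eq_right (haρ.trans S.a_le0)
    refine ⟨c', qaf e c', ?_, ?_⟩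
    · refine ⟨S.ortho, qaf_isQ e c', min_le_min_right _ S.a_le0, hms0, hms2, le_min S.r0_le hr',
        ?_, ?_, ?_⟩
      · intro z _ _ x τ hτ _ _
        have h := S.ortho 0 0
        rw [if_pos rfl] at h
        rw [qaf_add, h, mul_one]
        constructor <;> linarith
      · intro z _ _ x τ hτ _ _
        have h := S.ortho 0 1
        rw [if_neg (by decide)] at h
        rw [qaf_add, h, mul_zero, abs_zero]
        exact mul_nonneg (div_pos (hmp 0) (hmp 1)).le hτ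
      · intro z _ _ x τ hτ _ _
        have h := S.ortho 0 2
        rw [if_neg (by decide)] at h
        rw [qaf_add, h, mul_zero, abs_zero]
        exact mul_nonneg (div_pos (hmp 0) (hmp 2)).le hτ
    · refine hb2.trans ?_
      rw [mul_comm]
      refine mul_le_mul_of_nonneg_left (Nat.cast_le.2 (card_le_card fun t ht => ?_)) hPpos.le
      rw [mem_filter] at ht ⊢
      refine ⟨ht.1, fun z hz hz' => ⟨hInK t ht.1 ht.2 z hz hz', ?_⟩⟩
      rw [min_eq_right haρ]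
      have := hInK t ht.1 ht.2 z hz hz' 0
      rw [e0] at this
      exact this

end

end Crest.Agent.R136.AllD823
end

-- ▼ part R136/AllD2_823
section

/-!
# R136, block U4 (helper823): D-max at all natural levels, part 2

* `LevCov` : the lines of a test set of `G2` over a cell of level `i` restricted to a cell of level
  `i + k` : a `1 / (K0 2^(C k))`-part lies in a test set of `G1` of size `≤ K0 2^(C k) ·`.
* `allD_of_lev` : a marked sequence for `G1` and `LevCov` give `AllD` for `G2`.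
* `geoS`, `levCov_S`, `allD_S` : the class `ShN` with arbitrary range conditions.
-/

set_option autoImplicit false
set_option linter.unusedVariables false
set_option linter.unusedSectionVars false

open Finset Filter Topology

namespace Crest.Agent.R136.AllD823

open Sh605 K4 XIn823
open Crest.Agent.R138.Ex926 Crest.Agent.R138.Dp76
open Crest.Agent.R138.Mk163 (zc zl rho alive own)
open Crest.Agent.R138.MkRef627 (lc mem_alive)
open MkA627 (Geo MkA ampA)
open Dia770 (AllD zc_div ico_div)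

noncomputable section

/-- change of the level -/
def LevCov {σ κ : Type} (K0 C : ℝ) (hi km : ℕ → ℕ) (G1 G2 : Geo σ κ) : Prop :=
  ∀ᶠ n in (U : Filter ℕ), ∀ i k : ℕ, i + k ≤ hi n → k ≤ km n → ∀ (J J' : ℤ) (s : σ),
    J' / 2 ^ k = J → G2.adm n i J s → ∀ T : Finset ℕ, (∀ t ∈ T, G2.mem n i J s t) →
      ∃ s' : σ, G1.adm n (i + k) J' s' ∧
        G1.val n (i + k) J' s' ≤ K0 * 2 ^ (C * k) * G2.val n i J s ∧
        ∃ T' : Finset ℕ, T' ⊆ T ∧ (∀ t ∈ T', G1.mem n (i + k) J' s' t) ∧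
          (T.card : ℝ) ≤ K0 * 2 ^ (C * k) * (T'.card : ℝ)

theorem exists_net {l : ℕ → ℕ} {N m : ℕ} (h0 : l 0 ≤ m) (h1 : m ≤ l N) :
    ∃ r r' : ℕ, r ≤ r' ∧ r' ≤ r + 1 ∧ r' ≤ N ∧ l r ≤ m ∧ m ≤ l r' := by
  classical
  have hex : ∃ j, m ≤ l j := ⟨N, h1⟩
  have hN : Nat.find hex ≤ N := Nat.find_min' hex h1
  have hs := Nat.find_spec hex
  rcases hj : Nat.find hex with _ | k
  · rw [hj] at hs
    exact ⟨0, 0, le_rfl, by omega, by omega, h0, hs⟩
  · rw [hj] at hs hN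
    have := Nat.find_min hex (m := k) (by omega)
    exact ⟨k, k + 1, by omega, le_rfl, hN, by omega, hs⟩

section

variable {σ κ : Type} {B : Base} {G1 G2 : Geo σ κ} {I : ℕ → Finset (ℕ × ℝ)} {lev : ℕ → ℚ → ℕ}
  {A : ℕ → ℝ} {K0 C g : ℝ} {km : ℕ → ℕ}

open Classical in
/-- alive lines and sub-cells -/
theorem alive_sub {I : Finset (ℕ × ℝ)} {i k : ℕ} {J : ℤ} {P : ℕ → Prop} {D : ℝ}
    (h : ∀ J' : ℤ, J' / 2 ^ k = J → (((alive I (i + k) J').filter P).card : ℝ) ≤ D) :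
    (((alive I i J).filter P).card : ℝ) ≤ 2 ^ k * D := by
  have hsub : (alive I i J).filter P ⊆
      (Finset.Ico (J * 2 ^ k) (J * 2 ^ k + 2 ^ k)).biUnion fun J' => (alive I (i + k) J').filter P := by
    intro t ht
    rw [mem_filter, mem_alive] at ht
    obtain ⟨⟨x, hx, hx1, hx2⟩, hP⟩ := ht
    rw [mem_biUnion]
    refine ⟨zc (i + k) x.2, ico_div.2 ?_, ?_⟩
    · rw [← hx2, zc_div (Nat.le_add_right i k) x.2, Nat.add_sub_cancel_left]
    · rw [mem_filter, mem_alive]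
      exact ⟨⟨x, hx, hx1, rfl⟩, hP⟩
  have h1 : (((alive I i J).filter P).card : ℝ) ≤
      ∑ J' ∈ Finset.Ico (J * 2 ^ k) (J * 2 ^ k + 2 ^ k), (((alive I (i + k) J').filter P).card : ℝ) := by
    have := (card_le_card hsub).trans card_biUnion_le
    exact_mod_cast this
  refine h1.trans ?_
  have h2 := sum_le_card_nsmul (Finset.Ico (J * 2 ^ k) (J * 2 ^ k + 2 ^ k))
    (fun J' => (((alive I (i + k) J').filter P).card : ℝ)) D (fun J' hJ' => h J' (ico_div.1 hJ'))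
  rw [nsmul_eq_mul, Int.card_Ico] at h2
  have e1 : (((J * 2 ^ k + 2 ^ k - J * 2 ^ k).toNat : ℕ) : ℝ) = 2 ^ k := by
    have : (J * 2 ^ k + 2 ^ k - J * 2 ^ k).toNat = 2 ^ k := by
      have h3 : J * 2 ^ k + 2 ^ k - J * 2 ^ k = (((2 ^ k : ℕ)) : ℤ) := by push_cast; ring
      rw [h3, Int.toNat_natCast]
    rw [this]; push_cast; rfl
  rwa [e1] at h2

open Classical in
/-- **D-max at all natural levels** from the rational levels and `LevCov` -/
theorem allD_of_lev {Λ : ℝ → ℝ} {τ : κ → ℝ → ℝ} {f : ℕ → ℚ → ℕ → ℤ → ℕ} {b : ℕ → ℚ → ℕ → σ}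
    {vm : ℕ → ℚ → ℝ} {w : κ → ℕ → ℚ → ℝ} (hM : MkA B I G1 lev A (fun v => g * v) Λ τ f b vm w)
    (hg : 0 ≤ g) (hc : LevCov K0 C (fun n => lev n 1) km G1 G2) (hK0 : 1 ≤ K0) (hC : 0 ≤ C)
    (hkm : ∃ c0 : ℝ, 0 < c0 ∧ ∀ᶠ n in (U : Filter ℕ), c0 * B.L n ≤ km n * Real.log 2) :
    AllD B I G2 lev A g := by
  intro ε hε
  obtain ⟨c0, hc0, hkm⟩ := hkm
  have hlog2 : 0 < Real.log 2 := Real.log_pos (by norm_num)
  set h : ℝ := min (c0 / 3) (ε / (2 * (6 * C + 3 + 2 * g))) with hh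
  have hden : 0 < 2 * (6 * C + 3 + 2 * g) := by linarith
  have hh0 : 0 < h := lt_min (by linarith) (div_pos hε hden)
  have hh1 : 3 * h ≤ c0 := by
    have : h ≤ c0 / 3 := min_le_left _ _
    linarith
  have hh2 : (6 * C + 3 + 2 * g) * h ≤ ε / 2 := by
    have h1 : h ≤ ε / (2 * (6 * C + 3 + 2 * g)) := min_le_right _ _
    rw [le_div_iff₀ hden] at h1
    linarith
  obtain ⟨N, hN⟩ := exists_nat_one_div_lt hh0
  set v : ℕ → ℚ := fun r => (r : ℚ) / (N + 1) with hv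
  have hN1 : (0:ℝ) < (N:ℝ) + 1 := by positivity
  have hvR : ∀ r, ((v r : ℚ) : ℝ) = (r:ℝ) / (N + 1) := by intro r; simp only [hv]; push_cast; rfl
  have hv0 : ∀ r, 0 ≤ v r := fun r => by simp only [hv]; positivity
  have hv1 : ∀ r, r ≤ N + 1 → v r ≤ 1 := by
    intro r hr
    simp only [hv]
    rw [div_le_one (by positivity)]
    exact_mod_cast hr
  have e0 : v 0 = 0 := by simp [hv]
  have e1 : v (N + 1) = 1 := by
    simp only [hv]; push_cast; exact div_self (by positivity)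
  have hfin : ∀ᶠ n in (U : Filter ℕ), ∀ r ∈ range (N + 2),
      (∀ J : ℤ, ∀ s : σ, G1.adm n (lev n (v r)) J s →
        (((alive (I n) (lev n (v r)) J).filter fun t => G1.mem n (lev n (v r)) J s t).card : ℝ) ≤
          B.d n ^ (-(ε / 4)) * ampA B A (fun v => g * v) n (v r) * G1.val n (lev n (v r)) J s) ∧
      lev n 0 ≤ lev n (v r) ∧ lev n (v r) ≤ lev n 1 ∧
      |((lev n (v r) : ℝ) - lev n 0) * Real.log 2 / B.L n - ((v r : ℚ) : ℝ)| ≤ h := by
    rw [Filter.eventually_all_finset]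
    intro r hr
    have hr1 : r ≤ N + 1 := by
      have := mem_range.1 hr; omega
    have h1 := hM.lev_lim 0 (v r) le_rfl (hv0 r) (hv1 r hr1)
    have h2 := (Metric.tendsto_nhds.1 h1) h hh0
    filter_upwards [hM.dmax (v r) (hv0 r) (hv1 r hr1) (ε / 4) (by positivity),
      hM.lev_mono 0 (v r) le_rfl (hv0 r) (hv1 r hr1), hM.lev_mono (v r) 1 (hv0 r) (hv1 r hr1) le_rfl,
      h2] with n a1 a2 a3 a4
    refine ⟨a1, a2, a3, ?_⟩
    rw [Real.dist_eq] at a4
    rw [Rat.cast_zero, sub_zero] at a4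
    exact a4.le
  filter_upwards [hfin, hc, hkm, ev_const_le B (K0 * K0) (show 0 < ε / 4 by positivity)]
    with n hn hcn hkn hKn
  intro i hi0 hi1 J s hs
  have hL : 0 < B.L n := B.L_pos n
  obtain ⟨r, r', hrr, hrr1, hr'N, hri, hir⟩ := exists_net (l := fun r => lev n (v r)) (N := N + 1)
    (m := i) (by show lev n (v 0) ≤ i; rw [e0]; exact hi0)
    (by show i ≤ lev n (v (N + 1)); rw [e1]; exact hi1)
  obtain ⟨-, b1, b2, b3⟩ := hn r (mem_range.2 (by omega))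
  obtain ⟨D1, d1, d2, d3⟩ := hn r' (mem_range.2 (by omega))
  set i' := lev n (v r') with hi'
  obtain ⟨k, hk⟩ := Nat.exists_eq_add_of_le hir
  rw [hvR] at b3 d3
  rw [abs_le] at b3 d3
  have hkR : (k:ℝ) = (i' : ℝ) - i := by
    have : (i' : ℝ) = i + k := by exact_mod_cast hk
    linarith
  have hriR : ((lev n (v r) : ℕ) : ℝ) ≤ i := by exact_mod_cast hri
  have hr' : (r':ℝ) ≤ r + 1 := by exact_mod_cast hrr1
  have hsp : (r':ℝ) / (N + 1) ≤ (r:ℝ) / (N + 1) + h := by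
    have : (r':ℝ) / (N + 1) ≤ (r:ℝ) / (N + 1) + 1 / (N + 1) := by
      rw [← add_div]
      exact div_le_div_of_nonneg_right hr' hN1.le
    linarith
  -- the length of the step
  have hi'd : ((i' : ℝ) - lev n 0) * Real.log 2 ≤ ((r':ℝ) / (N + 1) + h) * B.L n := by
    have := d3.2
    rw [sub_le_iff_le_add, div_le_iff₀ hL] at this
    linarith
  have hid : ((r:ℝ) / (N + 1) - h) * B.L n ≤ ((i : ℝ) - lev n 0) * Real.log 2 := by
    have h1 : (r:ℝ) / (N + 1) - h ≤ (((lev n (v r) : ℕ) : ℝ) - lev n 0) * Real.log 2 / B.L n := by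
      linarith [b3.1]
    rw [le_div_iff₀ hL] at h1
    nlinarith
  have hkL : (k:ℝ) * Real.log 2 ≤ 3 * h * B.L n := by
    rw [hkR]
    have h1 : ((r':ℝ) / (N + 1)) * B.L n ≤ ((r:ℝ) / (N + 1) + h) * B.L n :=
      mul_le_mul_of_nonneg_right hsp hL.le
    nlinarith
  have hkkm : k ≤ km n := by
    have h1 : (k:ℝ) * Real.log 2 ≤ km n * Real.log 2 := by
      refine hkL.trans (le_trans ?_ hkn)
      exact mul_le_mul_of_nonneg_right hh1 hL.le
    exact_mod_cast le_of_mul_le_mul_right h1 hlog2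
  have hik : i + k ≤ lev n 1 := by rw [← hk]; exact d2
  have hAn := hM.Apos n
  have hdp : ∀ e : ℝ, 0 < B.d n ^ e := fun e => Real.rpow_pos_of_pos (B.pos n) _
  have hamp : 0 < ampA B A (fun v => g * v) n (v r') := mul_pos hAn (hdp _)
  have hX : (0:ℝ) < K0 * 2 ^ (C * k) := by positivity
  -- positivity of the value
  have hval : 0 ≤ G2.val n i J s := by
    have hJ' : (J * 2 ^ k) / 2 ^ k = J := Int.mul_ediv_cancel _ (by positivity)
    obtain ⟨s', hs', hv', -⟩ := hcn i k hik hkkm J (J * 2 ^ k) s hJ' hs ∅ (by simp)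
    have h7 := D1 (J * 2 ^ k) s' (by rw [hk]; exact hs')
    have h8 : 0 ≤ G1.val n i' (J * 2 ^ k) s' := by
      by_contra hneg
      push Not at hneg
      have h9 : B.d n ^ (-(ε / 4)) * ampA B A (fun v => g * v) n (v r') *
          G1.val n i' (J * 2 ^ k) s' < 0 := mul_neg_of_pos_of_neg (mul_pos (hdp _) hamp) hneg
      have h10 : (0:ℝ) ≤ (((alive (I n) i' (J * 2 ^ k)).filter fun t =>
        G1.mem n i' (J * 2 ^ k) s' t).card : ℝ) := Nat.cast_nonneg _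
      linarith
    rw [hk] at h8
    exact nonneg_of_mul_nonneg_right (h8.trans hv') hX
  -- one sub-cell
  have hone : ∀ J' : ℤ, J' / 2 ^ k = J →
      (((alive (I n) (i + k) J').filter fun t => G2.mem n i J s t).card : ℝ) ≤
        (K0 * 2 ^ (C * k)) * (K0 * 2 ^ (C * k)) *
          (B.d n ^ (-(ε / 4)) * ampA B A (fun v => g * v) n (v r')) * G2.val n i J s := by
    intro J' hJ'
    obtain ⟨s', hs', hv', T', hT', hm', hcard⟩ := hcn i k hik hkkm J J' s hJ' hs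
      ((alive (I n) (i + k) J').filter fun t => G2.mem n i J s t)
      (fun t ht => (mem_filter.1 ht).2)
    have h7 := D1 J' s' (by rw [hk]; exact hs')
    rw [hk] at h7
    have h8 : (T'.card : ℝ) ≤ B.d n ^ (-(ε / 4)) * ampA B A (fun v => g * v) n (v r') *
        G1.val n (i + k) J' s' := by
      refine le_trans (Nat.cast_le.2 (card_le_card fun t ht => ?_)) h7
      exact mem_filter.2 ⟨(mem_filter.1 (hT' ht)).1, hm' t ht⟩
    have hp := mul_pos (hdp (-(ε / 4))) hamp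
    calc _ ≤ (K0 * 2 ^ (C * k)) * (T'.card : ℝ) := hcard
      _ ≤ (K0 * 2 ^ (C * k)) * (B.d n ^ (-(ε / 4)) * ampA B A (fun v => g * v) n (v r') *
            G1.val n (i + k) J' s') := mul_le_mul_of_nonneg_left h8 hX.le
      _ ≤ (K0 * 2 ^ (C * k)) * (B.d n ^ (-(ε / 4)) * ampA B A (fun v => g * v) n (v r') *
            (K0 * 2 ^ (C * k) * G2.val n i J s)) :=
          mul_le_mul_of_nonneg_left (mul_le_mul_of_nonneg_left hv' hp.le) hX.le
      _ = _ := by ring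
  have hsum := alive_sub hone
  refine hsum.trans ?_
  -- the exponents
  have p1 : (2:ℝ) ^ k * ((2:ℝ) ^ (C * k) * (2:ℝ) ^ (C * k)) ≤
      B.d n ^ (-((2 * C + 1) * (3 * h))) := by
    have e2 : (2:ℝ) ^ k * ((2:ℝ) ^ (C * k) * (2:ℝ) ^ (C * k)) = (2:ℝ) ^ ((2 * C + 1) * k) := by
      rw [← Real.rpow_natCast 2 k, ← Real.rpow_add two_pos, ← Real.rpow_add two_pos]
      congr 1; ring
    rw [e2]
    refine Crest.Agent.R116.Xa3794.two_rpow_le ?_
    rw [div_le_iff₀ hL]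
    have : (2 * C + 1) * ((k:ℝ) * Real.log 2) ≤ (2 * C + 1) * (3 * h * B.L n) :=
      mul_le_mul_of_nonneg_left hkL (by linarith)
    linarith
  have p2 : B.d n ^ (-(g * ((v r' : ℚ) : ℝ))) ≤
      B.d n ^ (-(2 * g * h)) * 2 ^ (g * ((i : ℝ) - lev n 0)) := by
    have h1 : B.d n ^ (-(g * ((r':ℝ) / (N + 1) - 2 * h))) ≤ (2:ℝ) ^ (g * ((i : ℝ) - lev n 0)) := by
      refine Crest.Agent.R116.Xa3794.le_two_rpow ?_
      rw [le_div_iff₀ hL]
      have h2 : ((r':ℝ) / (N + 1) - 2 * h) * B.L n ≤ ((i : ℝ) - lev n 0) * Real.log 2 := by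
        refine le_trans (mul_le_mul_of_nonneg_right ?_ hL.le) hid
        linarith
      have := mul_le_mul_of_nonneg_left h2 hg
      linarith
    calc B.d n ^ (-(g * ((v r' : ℚ) : ℝ)))
        = B.d n ^ (-(2 * g * h)) * B.d n ^ (-(g * ((r':ℝ) / (N + 1) - 2 * h))) := by
          rw [← Real.rpow_add (B.pos n), hvR]; congr 1; ring
      _ ≤ _ := mul_le_mul_of_nonneg_left h1 (hdp _).le
  have p3 : B.d n ^ (-(ε / 4)) * B.d n ^ (-(ε / 4)) * B.d n ^ (-((2 * C + 1) * (3 * h))) *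
      B.d n ^ (-(2 * g * h)) ≤ B.d n ^ (-ε) := by
    rw [← Real.rpow_add (B.pos n), ← Real.rpow_add (B.pos n), ← Real.rpow_add (B.pos n)]
    refine Real.rpow_le_rpow_of_exponent_ge (B.pos n) (B.lt n).le ?_
    have : (6 * C + 3 + 2 * g) * h = (2 * C + 1) * (3 * h) + 2 * g * h := by ring
    linarith
  have ha : ampA B A (fun v => g * v) n (v r') = A n * B.d n ^ (-(g * ((v r' : ℚ) : ℝ))) := rfl
  rw [ha]
  have q1 : 0 < (2:ℝ) ^ (g * ((i : ℝ) - lev n 0)) := Real.rpow_pos_of_pos two_pos _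
  calc (2:ℝ) ^ k * ((K0 * 2 ^ (C * k)) * (K0 * 2 ^ (C * k)) *
        (B.d n ^ (-(ε / 4)) * (A n * B.d n ^ (-(g * ((v r' : ℚ) : ℝ))))) * G2.val n i J s)
      = (K0 * K0) * B.d n ^ (-(ε / 4)) * ((2:ℝ) ^ k * ((2:ℝ) ^ (C * k) * (2:ℝ) ^ (C * k))) *
        B.d n ^ (-(g * ((v r' : ℚ) : ℝ))) * (A n * G2.val n i J s) := by ring
    _ ≤ B.d n ^ (-(ε / 4)) * B.d n ^ (-(ε / 4)) * B.d n ^ (-((2 * C + 1) * (3 * h))) *
        (B.d n ^ (-(2 * g * h)) * 2 ^ (g * ((i : ℝ) - lev n 0))) * (A n * G2.val n i J s) := by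
        have r1 := (hdp (-(ε / 4))).le
        have r2 := (hdp (-((2 * C + 1) * (3 * h)))).le
        have r3 := (hdp (-(g * ((v r' : ℚ) : ℝ)))).le
        have r4 : 0 ≤ A n * G2.val n i J s := mul_nonneg hAn.le hval
        refine mul_le_mul_of_nonneg_right ?_ r4
        refine mul_le_mul ?_ p2 r3 (by positivity)
        refine mul_le_mul ?_ p1 (by positivity) (by positivity)
        exact mul_le_mul_of_nonneg_right hKn r1
    _ = (B.d n ^ (-(ε / 4)) * B.d n ^ (-(ε / 4)) * B.d n ^ (-((2 * C + 1) * (3 * h))) *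
        B.d n ^ (-(2 * g * h))) * (A n * 2 ^ (g * ((i : ℝ) - lev n 0)) * G2.val n i J s) := by ring
    _ ≤ B.d n ^ (-ε) * (A n * 2 ^ (g * ((i : ℝ) - lev n 0)) * G2.val n i J s) := by
        refine mul_le_mul_of_nonneg_right p3 ?_
        exact mul_nonneg (mul_nonneg hAn.le q1.le) hval
    _ = _ := by ring

end

/-! ### the class `ShN` -/


theorem sub_cell {i k : ℕ} {J J' : ℤ} (h : J' / 2 ^ k = J) :
    zl i J ≤ zl (i + k) J' ∧ zl (i + k) J' + rho (i + k) ≤ zl i J + rho i := by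
  have h1 := ico_div.2 h
  rw [Finset.mem_Ico] at h1
  obtain ⟨a, b⟩ := h1
  have a' : (J : ℝ) * 2 ^ k ≤ J' := by exact_mod_cast a
  have b' : (J' : ℝ) + 1 ≤ (J : ℝ) * 2 ^ k + 2 ^ k := by
    have : J' + 1 ≤ J * 2 ^ k + 2 ^ k := by linarith
    exact_mod_cast this
  have hm : (0 : ℝ) < 2 ^ i := by positivity
  have hk : (0 : ℝ) < 2 ^ k := by positivity
  unfold zl rho
  rw [pow_add]
  constructor
  · rw [div_le_div_iff₀ hm (by positivity)]
    calc (J:ℝ) * (2 ^ i * 2 ^ k) = (J * 2 ^ k) * 2 ^ i := by ring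
      _ ≤ J' * 2 ^ i := mul_le_mul_of_nonneg_right a' hm.le
  · rw [← add_div, ← add_div, div_le_div_iff₀ (by positivity) hm]
    calc ((J':ℝ) + 1) * 2 ^ i ≤ (J * 2 ^ k + 2 ^ k) * 2 ^ i := mul_le_mul_of_nonneg_right b' hm.le
      _ = _ := by ring

theorem rho_add (i k : ℕ) : rho i = 2 ^ k * rho (i + k) := by
  unfold rho
  rw [pow_add]
  field_simp

theorem rho_anti {i j : ℕ} (h : i ≤ j) : rho j ≤ rho i := by
  unfold rho
  exact one_div_le_one_div_of_le (by positivity) (pow_le_pow_right₀ (by norm_num) h)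




section

variable {B : Base} {I : ℕ → Finset (ℕ × ℝ)} {lev : ℕ → ℚ → ℕ} {A : ℕ → ℝ} {g : ℝ} {km : ℕ → ℕ}
  {ℓ : ℕ → ℕ → Ln4} {r0 : ℕ → ℝ} {q : Fin 3 → ℝ} {Rg1 Rg2 : ℕ → Plk4 → Prop}




end

end

end Crest.Agent.R136.AllD823
end

-- ▼ part R136/AllD3_823

/-!
# R136, block U4 (helper823): D-max at all natural levels, part 3 (dyadic sheets, reward `Ψ`)

`levCov_P` : `LevCov` for `geoP T Ψ mt atop L` over the class `TT36`, `Ψ` Lipschitz;
`allD_P` : a marked sequence over `geoP` has D-max at all natural levels.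
-/

set_option autoImplicit false
set_option linter.unusedVariables false
set_option linter.unusedSectionVars false

open Finset Filter Topology

namespace Crest.Agent.R136.AllD823

open Sh605 K4 XIn823
open Crest.Agent.R138.Ex926 Crest.Agent.R138.Dp76
open Crest.Agent.R138.Mk163 (zc zl rho alive own)
open Crest.Agent.R138.MkRef627 (lc mem_alive)
open MkA627 (Geo MkA ampA)
open Dia770 (AllD)
open Crest.Agent.R116.Xa794 (TS)
open Crest.Agent.R116.Xc794 (rel capP geoP)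
open Tq879 (TS36 TT36)

noncomputable section

/-- Lipschitz rewards -/
def LipR (Ψ : ℝ → (Fin 3 → ℝ) → ℝ) (K : ℝ) : Prop :=
  ∀ l l' x x', 0 ≤ l → 0 ≤ l' → |Ψ l x - Ψ l' x'| ≤ K * (|l - l'| + ∑ j, |x j - x' j|)

/-- exponents of the smaller sheet -/
def mxE (a : Fin 3 → ℕ) (i : ℕ) : Fin 3 → ℕ := fun j => max (a j) i

theorem min_pow (a i : ℕ) : min ((1 / 2 : ℝ) ^ a) ((1 / 2 : ℝ) ^ i) = (1 / 2 : ℝ) ^ (max a i) := by
  rcases le_total a i with h | h
  · rw [max_eq_right h]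
    exact min_eq_right (pow_le_pow_of_le_one (by norm_num) (by norm_num) h)
  · rw [max_eq_left h]
    exact min_eq_left (pow_le_pow_of_le_one (by norm_num) (by norm_num) h)

theorem rho_eq (i : ℕ) : rho i = (1 / 2 : ℝ) ^ i := by
  unfold rho
  rw [one_div, one_div, inv_pow]

theorem le_exp {a i : ℕ} (h : (1 / 2 : ℝ) ^ a ≤ (1 / 2 : ℝ) ^ i) : i ≤ a := by
  by_contra hn
  push Not at hn
  have := pow_lt_pow_right_of_lt_one₀ (a := (1 / 2 : ℝ)) (by norm_num) (by norm_num) hn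
  linarith

/-- **`LevCov` for the class `TT36`** -/
theorem levCov_P {T : ℕ → TS Ln4 (Fin 3) Plk4} {Ψ : ℝ → (Fin 3 → ℝ) → ℝ} {mt : ℕ → ℕ}
    {atop : ℕ → Fin 3 → ℕ} {L : ℕ → ℕ → Ln4} {K : ℝ} {hi km : ℕ → ℕ} {r : ℕ → ℝ}
    (hT : ∀ n, T n = TS36 (r n)) (hr : ∀ᶠ n in (U : Filter ℕ), 0 < r n ∧ r n ≤ rho (hi n))
    (hK : 0 ≤ K) (hΨ : LipR Ψ K) (hmt : ∀ᶠ n in (U : Filter ℕ), hi n ≤ mt n) :
    LevCov 729 (6 + 4 * K) hi km (geoP T Ψ mt atop L) (geoP T Ψ mt atop L) := by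
  classical
  filter_upwards [hr, hmt] with n hrn hmn
  obtain ⟨hr0, hr1⟩ := hrn
  intro i k hik hkm J J' s hJ hs Q hQ
  have hs' : (TS36 (r n)).adm i J s := by
    have : (T n).adm i J s := hs
    rwa [hT n] at this
  have hQ' : ∀ t ∈ Q, (TS36 (r n)).mem i J s (L n t) := by
    intro t ht
    have : (T n).mem i J s (L n t) := hQ t ht
    rwa [hT n] at this
  obtain ⟨S, hw1, hwd⟩ := hs'
  obtain ⟨h0, h1⟩ := sub_cell (i := i) hJ
  have hρ' : 0 < rho (i + k) := by unfold rho; positivity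
  have hP : (0:ℝ) < 2 ^ k := by positivity
  have hrr := rho_add i k
  have w0' := hwd 0
  have w1' := hwd 1
  have w2' := hwd 2
  rw [wd_zero] at w0'
  rw [wd_one] at w1'
  rw [wd_two] at w2'
  obtain ⟨c', q', S', hc⟩ := shrink_cover S hr0 hρ' h0 h1 hw1 (hr1.trans (rho_anti hik)) (N := 2 ^ k)
    (by push_cast; exact hrr.le) (L n) Q (fun t ht => (hQ' t ht).1)
  set K' : Plk4 := ⟨J', s.2.e, c', wm s.2.w (rho (i + k)), q', min s.2.a (rho (i + k))⟩ with hK'
  -- the exponents are at least `i`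
  have g1 : i ≤ s.1 1 := le_exp (by rw [← w1', ← rho_eq]; exact hw1)
  have g2 : i ≤ s.1 2 := le_exp (by rw [← w2', ← rho_eq]; exact S.w_le.trans hw1)
  have g0 : i ≤ s.1 0 := le_exp (by
    rw [← w0', ← rho_eq]; exact ((S.a_le0.trans S.w0_le).trans S.w_le).trans hw1)
  have gj : ∀ j, i ≤ s.1 j := by
    intro j; fin_cases j
    · exact g0
    · exact g1
    · exact g2
  refine ⟨(mxE s.1 (i + k), K'), ?_, ?_, Q.filter fun t => InSheet (L n t) s.2.e c'
    (wm s.2.w (rho (i + k))) q' (min s.2.a (rho (i + k))) (zl (i + k) J') (rho (i + k)),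
    filter_subset _ _, ?_, ?_⟩
  · show (T n).adm (i + k) J' (mxE s.1 (i + k), K')
    rw [hT n]
    refine ⟨S', min_le_right _ _, fun j => ?_⟩
    fin_cases j
    · show min s.2.a (rho (i + k)) = (1 / 2 : ℝ) ^ (max (s.1 0) (i + k))
      rw [w0', rho_eq, min_pow]
    · show min (s.2.w 1) (rho (i + k)) = (1 / 2 : ℝ) ^ (max (s.1 1) (i + k))
      rw [w1', rho_eq, min_pow]
    · show min (s.2.w 2) (rho (i + k)) = (1 / 2 : ℝ) ^ (max (s.1 2) (i + k))
      rw [w2', rho_eq, min_pow]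
  · show capP (T n) Ψ (mt n) (atop n) (i + k) (mxE s.1 (i + k)) ≤
      729 * 2 ^ ((6 + 4 * K) * k) * capP (T n) Ψ (mt n) (atop n) i s.1
    unfold capP
    rw [hT n]
    have hv : (TS36 (r n)).vol (i + k) (mxE s.1 (i + k)) ≤ (TS36 (r n)).vol i s.1 := by
      show (1 / 2 : ℝ) ^ (max (s.1 0) (i + k)) * (1 / 2 : ℝ) ^ (max (s.1 1) (i + k)) *
        (1 / 2 : ℝ) ^ (max (s.1 2) (i + k)) ≤ (1 / 2 : ℝ) ^ (s.1 0) * (1 / 2 : ℝ) ^ (s.1 1) *
        (1 / 2 : ℝ) ^ (s.1 2)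
      have hm : ∀ a : ℕ, (1 / 2 : ℝ) ^ (max a (i + k)) ≤ (1 / 2 : ℝ) ^ a := fun a =>
        pow_le_pow_of_le_one (by norm_num) (by norm_num) (le_max_left _ _)
      have := hm (s.1 0); have := hm (s.1 1); have := hm (s.1 2)
      gcongr
    have hvp : 0 < (TS36 (r n)).vol i s.1 := (TS36 (r n)).volpos _ _
    have hik' : ((i + k : ℕ) : ℝ) ≤ mt n := by exact_mod_cast hik.trans hmn
    have hl : (0:ℝ) ≤ (mt n : ℝ) - ((i + k : ℕ) : ℝ) := by linarith
    have hik'' : (i : ℝ) ≤ ((i + k : ℕ) : ℝ) := by exact_mod_cast Nat.le_add_right i k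
    have hl' : (0:ℝ) ≤ (mt n : ℝ) - (i : ℝ) := by linarith
    have hd := hΨ ((mt n : ℝ) - i) ((mt n : ℝ) - ((i + k : ℕ) : ℝ)) (rel i s.1 (mt n) (atop n))
      (rel (i + k) (mxE s.1 (i + k)) (mt n) (atop n)) hl' hl
    have hk0 : (0:ℝ) ≤ k := Nat.cast_nonneg _
    have e1 : |(mt n : ℝ) - i - ((mt n : ℝ) - ((i + k : ℕ) : ℝ))| ≤ k := by
      have : (mt n : ℝ) - i - ((mt n : ℝ) - ((i + k : ℕ) : ℝ)) = k := by push_cast; ring
      rw [this, abs_of_nonneg hk0]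
    have e2 : ∀ j, |rel i s.1 (mt n) (atop n) j -
        rel (i + k) (mxE s.1 (i + k)) (mt n) (atop n) j| ≤ k := by
      intro j
      have hgj : (i:ℝ) ≤ s.1 j := by exact_mod_cast gj j
      have e3 : rel i s.1 (mt n) (atop n) j - rel (i + k) (mxE s.1 (i + k)) (mt n) (atop n) j =
          (s.1 j : ℝ) + k - ((max (s.1 j) (i + k) : ℕ) : ℝ) := by
        simp only [rel, mxE]; push_cast; ring
      rw [e3]
      rcases le_total (s.1 j) (i + k) with h | h
      · rw [max_eq_right h]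
        have h2 : (s.1 j : ℝ) ≤ i + k := by exact_mod_cast h
        push_cast
        rw [abs_le]; constructor <;> linarith
      · rw [max_eq_left h, abs_le]; constructor <;> linarith
    have e4 : ∑ j, |rel i s.1 (mt n) (atop n) j -
        rel (i + k) (mxE s.1 (i + k)) (mt n) (atop n) j| ≤ 3 * k := by
      have h2 := sum_le_card_nsmul (univ : Finset (Fin 3)) _ (k : ℝ) (fun j _ => e2 j)
      rw [card_univ, Fintype.card_fin, nsmul_eq_mul] at h2
      exact_mod_cast h2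
    have e5 : |Ψ ((mt n : ℝ) - i) (rel i s.1 (mt n) (atop n)) -
        Ψ ((mt n : ℝ) - ((i + k : ℕ) : ℝ)) (rel (i + k) (mxE s.1 (i + k)) (mt n) (atop n))| ≤
        4 * K * k := by
      refine hd.trans ?_
      have := mul_le_mul_of_nonneg_left (add_le_add e1 e4) hK
      linarith
    rw [abs_le] at e5
    have e6 : (2:ℝ) ^ (-(Ψ ((mt n : ℝ) - ((i + k : ℕ) : ℝ))
        (rel (i + k) (mxE s.1 (i + k)) (mt n) (atop n)))) ≤
        2 ^ (4 * K * k) * 2 ^ (-(Ψ ((mt n : ℝ) - i) (rel i s.1 (mt n) (atop n)))) := by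
      rw [← Real.rpow_add two_pos]
      refine Real.rpow_le_rpow_of_exponent_le (by norm_num) ?_
      linarith [e5.2]
    have e7 : (2:ℝ) ^ (4 * K * k) ≤ 729 * 2 ^ ((6 + 4 * K) * k) := by
      have h2 : (2:ℝ) ^ (4 * K * k) ≤ 2 ^ ((6 + 4 * K) * k) := by
        refine Real.rpow_le_rpow_of_exponent_le (by norm_num) ?_
        nlinarith
      have h3 : (0:ℝ) < 2 ^ ((6 + 4 * K) * k) := Real.rpow_pos_of_pos two_pos _
      linarith
    have p1 : (0:ℝ) < 2 ^ (-(Ψ ((mt n : ℝ) - i) (rel i s.1 (mt n) (atop n)))) :=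
      Real.rpow_pos_of_pos two_pos _
    calc _ ≤ (TS36 (r n)).vol i s.1 * (2 ^ (4 * K * k) *
          2 ^ (-(Ψ ((mt n : ℝ) - i) (rel i s.1 (mt n) (atop n))))) :=
          mul_le_mul hv e6 (Real.rpow_pos_of_pos two_pos _).le hvp.le
      _ ≤ (TS36 (r n)).vol i s.1 * ((729 * 2 ^ ((6 + 4 * K) * k)) *
          2 ^ (-(Ψ ((mt n : ℝ) - i) (rel i s.1 (mt n) (atop n))))) :=
          mul_le_mul_of_nonneg_left (mul_le_mul_of_nonneg_right e7 p1.le) hvp.le
      _ = _ := by ring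
  · intro t ht
    show (T n).mem (i + k) J' (mxE s.1 (i + k), K') (L n t)
    rw [hT n]
    rw [mem_filter] at ht
    exact ⟨ht.2, (hQ' t ht.1).2⟩
  · refine hc.trans (mul_le_mul_of_nonneg_right ?_ (Nat.cast_nonneg _))
    have hP1 : (1:ℝ) ≤ 2 ^ k := one_le_pow₀ (by norm_num)
    have e2 : ((2:ℝ) * ((2 ^ k : ℕ) : ℝ) + 1) ^ 6 ≤ 729 * ((2:ℝ) ^ k) ^ 6 := by
      have h3 : (2:ℝ) * ((2 ^ k : ℕ) : ℝ) + 1 ≤ 3 * 2 ^ k := by push_cast; linarith
      calc ((2:ℝ) * ((2 ^ k : ℕ) : ℝ) + 1) ^ 6 ≤ (3 * 2 ^ k) ^ 6 :=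
            pow_le_pow_left₀ (by positivity) h3 6
        _ = _ := by ring
    refine e2.trans (mul_le_mul_of_nonneg_left ?_ (by norm_num))
    have e3 : ((2:ℝ) ^ k) ^ 6 = (2:ℝ) ^ ((6:ℝ) * k) := by
      rw [← Real.rpow_natCast 2 k, ← Real.rpow_natCast _ 6, ← Real.rpow_mul (by norm_num)]
      congr 1; push_cast; ring
    rw [e3]
    refine Real.rpow_le_rpow_of_exponent_le (by norm_num) ?_
    exact mul_le_mul_of_nonneg_right (by linarith) (Nat.cast_nonneg _)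

/-- **D-max at all natural levels over `geoP`** -/
theorem allD_P {B : Base} {I : ℕ → Finset (ℕ × ℝ)} {lev : ℕ → ℚ → ℕ} {A : ℕ → ℝ} {g : ℝ}
    {T : ℕ → TS Ln4 (Fin 3) Plk4} {Ψ : ℝ → (Fin 3 → ℝ) → ℝ} {mt : ℕ → ℕ}
    {atop : ℕ → Fin 3 → ℕ} {L : ℕ → ℕ → Ln4} {K : ℝ} {Λ : ℝ → ℝ} {τ : Fin 3 → ℝ → ℝ}
    {f : ℕ → ℚ → ℕ → ℤ → ℕ} {b : ℕ → ℚ → ℕ → (Fin 3 → ℕ) × Plk4}
    {vm : ℕ → ℚ → ℝ} {w : Fin 3 → ℕ → ℚ → ℝ}
    (hM : MkA B I (geoP T Ψ mt atop L) lev A (fun v => g * v) Λ τ f b vm w)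
    (hg : 0 ≤ g) (hT : ∀ n, T n ∈ TT36) (hmt : ∀ᶠ n in (U : Filter ℕ), lev n 1 ≤ mt n)
    (hK : 0 ≤ K) (hΨ : LipR Ψ K) : AllD B I (geoP T Ψ mt atop L) lev A g := by
  choose r hr hTr using hT
  refine allD_of_lev hM hg (levCov_P (km := fun n => ⌊B.L n / Real.log 2⌋₊) hTr ?_ hK hΨ hmt)
    (by norm_num) (by linarith) ⟨1 / 2, by norm_num, ?_⟩
  · filter_upwards [hM.mark 1 zero_le_one le_rfl, hM.ne] with n h2 h3
    obtain ⟨x, hx⟩ := h3
    obtain ⟨-, hadm, -⟩ := h2 (zc (lev n 1) x.2) x.1 (mem_alive.2 ⟨x, hx, rfl, rfl⟩)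
    have h4 : (T n).adm (lev n 1) (zc (lev n 1) x.2) (b n 1 (f n 1 x.1 (zc (lev n 1) x.2))) := hadm
    rw [hTr n] at h4
    obtain ⟨S, hw, -⟩ := h4
    exact ⟨hr n, ((((S.r0_le.trans S.a_le0).trans S.w0_le).trans S.w_le)).trans hw⟩
  · have hlog2 : 0 < Real.log 2 := Real.log_pos (by norm_num)
    filter_upwards [B.ev_L_ge (2 * Real.log 2)] with n hn
    have h1 := Nat.lt_floor_add_one (B.L n / Real.log 2)
    rw [div_lt_iff₀ hlog2] at h1
    nlinarith

end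

end Crest.Agent.R136.AllD823
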