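import Crest.Agent.R136.Amx1_84
import Crest.Agent.R136.Pl2C_860

/-!
# R136 (S0187), PLAN 2, alignment of sheets, mixed curvatures: the four leaves (helper84)

`Y` = level of the curvature extents of the more curved sheets `U` (`Near 4 Y (kp U)`); `V` flatter.

* `HullMx` : number of `U`-classes met by one `V`-class.
* `AlMx`   : facts of one pair (`Hcp208.Al`).
* `PLMx`   : (PL) for the classes of `U`.
* `NdMx`   : number of boxes of the `V`-chart met by common lines of one pair (volume form).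
-/

set_option autoImplicit false
set_option linter.unusedVariables false

open Finset

namespace Crest.Agent.R136.Amx84

open Crest.Agent.R136.Sh605
open Crest.Agent.R136.K4 (Plk4)
open Crest.Agent.R136.Tlt51 (Shp InP)
open Crest.Agent.R136.KapP335 (kapP DetP)
open Crest.Agent.R136.Pl2W102 (Near Ex2 Two1)
open Crest.Agent.R136.Pl2 (kp Two7 Al1)
open Crest.Agent.R136.Hcp208 (Al Dims)
open Crest.Agent.R136.Gbx862 (gb)




/-- **[ND]** (84) : one pair `U, V`; `P` = its common lines. -/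
def NdMx : Prop := ∃ C : ℝ, 0 ≤ C ∧
  ∀ (W Y a w1 w2 z0 ρ r : ℝ) (H : ℕ) (U V : Plk4) (P : Finset ℕ) (L : ℕ → Ln4),
    1 ≤ W → 0 < r → 0 < ρ → r ≤ ρ → 0 < a → Shp U z0 ρ r → Shp V z0 ρ r →
    (∀ t ∈ P, InP (L t) U z0 ρ ∧ InP (L t) V z0 ρ) → Dims W a w1 w2 U → Dims W a w1 w2 V →
    (∀ t ∈ P, Al1 W U V (L t) a w1 w2 z0 ρ) → (∀ t ∈ P, DetP W⁻¹ U z0 ρ (L t)) →
    (∀ t ∈ P, Near 4 Y (kp U z0 ρ (L t))) → (∀ t ∈ P, (2 * W) ^ C * kp V z0 ρ (L t) ≤ Y) →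
    (2 * W) ^ C * a ≤ Y → 1 ≤ H → (H : ℝ) * a ≤ Y →
    ∀ T : Finset ((ℤ × ℤ) × ℕ),
      (∀ y ∈ T, ∃ t ∈ P, y.2 < H ∧ gb V.e V.c w1 w2 z0 ρ H (L t) y.2 = y.1) →
      (T.card : ℝ) ≤ (2 * W) ^ C * (1 + Real.log H) * (H : ℝ) ^ 2

end Crest.Agent.R136.Amx84
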