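import Crest.Agent.R136.NdD_325
import Mathlib
import Crest.Agent.R136.Tlt1_51
import Crest.Agent.R136.Amx3_325
import Crest.Agent.R136.Kcl2_44
import Crest.Agent.R138.KMs_630
import Crest.Agent.R136.Amd_84

-- ▼ part R136/Ndw_325
section

/-!
# R136 (S0187), PLAN 2, mixed curvatures: wiring of `NdMx` (helper325)

* `exists_N` : number of scales;
* `cell_count` : count of the boxes met by the lines of one cell, from a chart `ChM`.
-/

set_option autoImplicit false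
set_option linter.unusedVariables false

open Finset

namespace Crest.Agent.R136.Ndw325

open Crest.Agent.R136.Rk601 Crest.Agent.R136.Sh605
open Crest.Agent.R136.Tl102 (cmb fr)
open Crest.Agent.R136.K4 (Plk4)
open Crest.Agent.R136.Tlt51 (Shp InP)
open Crest.Agent.R136.KapP335 (kapP DetP)
open Crest.Agent.R136.Pl2W102 (Near)
open Crest.Agent.R136.Pl2 (kp Al1)
open Crest.Agent.R136.Hcp208 (Dims)
open Crest.Agent.R136.Gbx862 (zj gb lc zj_mem)
open Crest.Agent.R136.AlD601 (Nd jS)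
open Crest.Agent.R136.Adp876
open Crest.Agent.R136.Bl5667 (shp_pos kp_nonneg)

theorem num_le : (10 ^ 52 * 5 * 5000 * (54 * 10 ^ 14) * (54 * 10 ^ 14) ^ 10 * 4 : ℝ) ≤ 10 ^ 240 := by
  norm_num

/-- number of scales -/
theorem exists_N {A : ℝ} (hA : 1 ≤ A) {H : ℕ} (hH : 1 ≤ H) {β : ℝ} (hβ : 1 / (H : ℝ) ≤ β) :
    ∃ N : ℕ, 1 ≤ N ∧ A ≤ 2 ^ N * √β ∧ (N : ℝ) ≤ 5 * A * (1 + Real.log H) := by
  have hHr : (1 : ℝ) ≤ H := by exact_mod_cast hH
  have hH0 : (0 : ℝ) < H := by linarith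
  have hl : 0 ≤ Real.log H := Real.log_nonneg hHr
  have hA0 : 0 < A := by linarith
  have hs : 1 ≤ √(H : ℝ) := by
    rw [show (1:ℝ) = √1 by rw [Real.sqrt_one]]
    exact Real.sqrt_le_sqrt hHr
  set B := A * √(H : ℝ) with hB
  have hB1 : 1 ≤ B := by rw [hB]; nlinarith
  have hB0 : 0 < B := by linarith
  refine ⟨⌈Real.log B / Real.log 2⌉₊ + 1, by omega, ?_, ?_⟩
  · have h2 : 0 < Real.log 2 := Real.log_pos (by norm_num)
    have h3 : Real.log B / Real.log 2 ≤ (⌈Real.log B / Real.log 2⌉₊ : ℝ) := Nat.le_ceil _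
    have h4 : B ≤ 2 ^ (⌈Real.log B / Real.log 2⌉₊ + 1) := by
      have h5 : B = (2:ℝ) ^ (Real.log B / Real.log 2) := by
        rw [Real.rpow_def_of_pos (by norm_num), mul_div_cancel₀ _ h2.ne', Real.exp_log hB0]
      calc B = (2:ℝ) ^ (Real.log B / Real.log 2) := h5
        _ ≤ (2:ℝ) ^ ((⌈Real.log B / Real.log 2⌉₊ : ℕ) : ℝ) :=
            Real.rpow_le_rpow_of_exponent_le (by norm_num) h3
        _ = 2 ^ ⌈Real.log B / Real.log 2⌉₊ := Real.rpow_natCast _ _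
        _ ≤ _ := pow_le_pow_right₀ (by norm_num) (by omega)
    have h6 : 1 / √(H : ℝ) ≤ √β := by
      have : √(1 / (H : ℝ)) ≤ √β := Real.sqrt_le_sqrt hβ
      rwa [Real.sqrt_div zero_le_one, Real.sqrt_one] at this
    have h7 : 0 < √(H : ℝ) := by linarith
    calc A = B * (1 / √(H : ℝ)) := by rw [hB]; field_simp
      _ ≤ 2 ^ (⌈Real.log B / Real.log 2⌉₊ + 1) * √β :=
          mul_le_mul h4 h6 (by positivity) (by positivity)
  · have h1 : Real.log B = Real.log A + Real.log H / 2 := by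
      rw [hB, Real.log_mul hA0.ne' (by positivity), Real.log_sqrt hH0.le]
    have hlA : 0 ≤ Real.log A := Real.log_nonneg hA
    have hlA' : Real.log A ≤ A := (Real.log_le_sub_one_of_pos hA0).trans (by linarith)
    have h2 : 1 / 2 < Real.log 2 := by have := Real.log_two_gt_d9; linarith
    have hlB : 0 ≤ Real.log B := Real.log_nonneg hB1
    have h3 : Real.log B / Real.log 2 ≤ 2 * Real.log B := by
      rw [div_le_iff₀ (by linarith)]
      nlinarith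
    have h4 := Nat.ceil_lt_add_one (show 0 ≤ Real.log B / Real.log 2 by positivity)
    push_cast
    have h5 : (⌈Real.log B / Real.log 2⌉₊ : ℝ) + 1 ≤ 2 * A + Real.log H + 2 := by
      rw [h1] at h3 h4 ⊢
      linarith
    refine h5.trans ?_
    nlinarith [mul_nonneg hA0.le hl]

set_option maxHeartbeats 1600000 in
/-- **the count in one cell** -/
theorem cell_count {K X : ℝ} (hK : 2 ≤ K) (hKX : K ≤ X) {W Y a w1 w2 z0 ρ r : ℝ}
    {U V : Plk4} {T0 : Ln4} {σ s1 s2 rr k0 μ Λ cq cP ε αq : ℝ} {Jq JP : Jt}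
    (h : ChM K V U.q T0 z0 ρ Y a σ s1 s2 rr k0 μ Λ cq cP ε αq Jq JP) {H : ℕ} (hH : 1 ≤ H)
    (hW : 1 ≤ W) (hWK : W ≤ K) (hr : 0 < r) (hρ : 0 < ρ) (ha : 0 < a) (hY : 0 < Y)
    (hHa : (H : ℝ) * a ≤ Y) (hU : Shp U z0 ρ r) (hV : Shp V z0 ρ r) (dU : Dims W a w1 w2 U)
    (dV : Dims W a w1 w2 V) (h0V : InP T0 V z0 ρ) (T : Finset ((ℤ × ℤ) × ℕ))
    (Tb : (ℤ × ℤ) × ℕ → Ln4) (hj : ∀ b ∈ T, b.2 < H)
    (hin : ∀ b ∈ T, InP (Tb b) U z0 ρ ∧ InP (Tb b) V z0 ρ)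
    (lab : ∀ b ∈ T, gb V.e V.c w1 w2 z0 ρ H (Tb b) b.2 = b.1)
    (hcl : ∀ b ∈ T, ∀ z, z0 ≤ z → z ≤ z0 + ρ → ∀ k : Fin 3,
      |dt (V.e k) ((Tb b).pos z - T0.pos z)| ≤ V.w k / K)
    (hnd : ∀ b ∈ T, Nd V U.q z0 ρ H b.2 (Tb b) X⁻¹ X⁻¹ Y) :
    (T.card : ℝ) ≤ 10 ^ 240 * X ^ 414 * (1 + Real.log H) * (H : ℝ) ^ 2 := by
  have hK0 : 0 < K := by linarith
  have hK1 : 1 ≤ K := by linarith
  have hX0 : 0 < X := by linarith
  have hX1 : 1 ≤ X := by linarith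
  have hHr : (1 : ℝ) ≤ H := by exact_mod_cast hH
  have hH0 : (0 : ℝ) < H := by linarith
  have hl0 : 0 ≤ Real.log H := Real.log_nonneg hHr
  obtain ⟨va, vw0, v2, v1⟩ := shp_pos hr hV
  obtain ⟨⟨a1, a2⟩, ⟨b1, b2⟩, ⟨c1, c2⟩⟩ := dV
  obtain ⟨⟨a1', a2'⟩, -, -⟩ := dU
  have w10 : 0 < w1 := by
    have : 0 < W * w1 := v1.trans_le b2
    exact pos_of_mul_pos_right this (by linarith)
  have w20 : 0 < w2 := by
    have : 0 < W * w2 := v2.trans_le c2
    exact pos_of_mul_pos_right this (by linarith)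
  have hw : ∀ k, 0 < V.w k := by
    intro k; fin_cases k
    · exact vw0
    · exact v1
    · exact v2
  -- relative velocity of `T0`
  have hg : ∀ k, |gv V ρ T0 k| ≤ K := by
    intro k
    have e1 := (h0V z0 le_rfl (by linarith)).1 k
    have e2 := (h0V (z0 + ρ) (by linarith) le_rfl).1 k
    have e3 : ρ * dt (V.e k) (T0.v - V.c.v) = dt (V.e k) (T0.pos (z0 + ρ) - V.c.pos (z0 + ρ)) -
        dt (V.e k) (T0.pos z0 - V.c.pos z0) := by
      simp only [dt, Ln4.pos, Pi.sub_apply]; ring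
    unfold gv
    rw [e3, abs_div, abs_of_pos (hw k), div_le_iff₀ (hw k)]
    have := abs_sub (dt (V.e k) (T0.pos (z0 + ρ) - V.c.pos (z0 + ρ)))
      (dt (V.e k) (T0.pos z0 - V.c.pos z0))
    have h3 := hw k
    nlinarith
  -- chart points
  have hex : ∀ b : (ℤ × ℤ) × ℕ, ∃ p : ℝ × ℝ × ℝ, b ∈ T → |p.1| ≤ 1 ∧ |p.2.1| ≤ 1 ∧ |p.2.2| ≤ 1 ∧
      (Tb b).pos (zj z0 ρ H b.2) =
        cg (fr V.e V.w) T0 z0 ρ σ s1 s2 rr ((b.2 : ℝ) / H) p.1 p.2.1 p.2.2 := by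
    intro b
    by_cases hb : b ∈ T
    · obtain ⟨y, u, v, h1, h2, h3, h4⟩ := h.pt (Tb b) (hin b hb).2 (hcl b hb) ((b.2 : ℝ) / H)
        (by positivity) (by
          rw [div_le_one hH0]; exact_mod_cast (hj b hb).le)
      exact ⟨(y, u, v), fun _ => ⟨h1, h2, h3, h4⟩⟩
    · exact ⟨(0, 0, 0), fun hh => absurd hh hb⟩
  choose p hp using hex
  have hzz : ∀ b ∈ T, z0 ≤ zj z0 ρ H b.2 ∧ zj z0 ρ H b.2 ≤ z0 + ρ := fun b hb =>
    zj_mem hρ.le (hj b hb).le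
  -- numbers
  set β : ℝ := K * (W + K) / H with hβd
  have hβ : 1 / (H : ℝ) ≤ β := by
    rw [hβd]
    apply div_le_div_of_nonneg_right _ hH0.le
    nlinarith
  have hWK0 : 0 < W + K := by linarith
  set A : ℝ := 5000 * (Nmx501.KC2 (K ^ 2) (K ^ 3) * K ^ 3) with hA
  have hCK : 1 ≤ CK (K ^ 2) := CK_one (one_le_pow₀ hK1)
  have hKC : Nmx501.KC2 (K ^ 2) (K ^ 3) = 54 * 10 ^ 14 * K ^ 31 := by
    unfold Nmx501.KC2 Nmx501.C2 CK; ring
  have hA1 : 1 ≤ A := by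
    rw [hA, hKC]
    have : 1 ≤ K ^ 31 := one_le_pow₀ hK1
    have : 1 ≤ K ^ 3 := one_le_pow₀ hK1
    nlinarith
  obtain ⟨N, hN1, hN2', hN3⟩ := exists_N hA1 hH hβ
  have hXi : 0 < X⁻¹ := inv_pos.2 hX0
  have key := Nmx501.nd_count2 (S := V) (q' := U.q) (z0 := z0) (ρ := ρ) (T0 := T0) (σ := σ) (s1 := s1)
    (s2 := s2) (r := rr) (k0 := k0) (μ := μ) (Λ := Λ) (cq := cq) (cP := cP) (Jq := Jq) (JP := JP)
    (K := K ^ 2) (W := K) (w1 := w1) (w2 := w2) (l := X⁻¹ / K) (m := X⁻¹ / K ^ 2) (β := β)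
    (ε := ε) (αq := αq / K) (H := H) (N := N) hV.ortho hw h.σ0 h.r0 h.rK hK1 h.kk0 h.Λ0 hH w10 w20
    ⟨b2.trans (mul_le_mul_of_nonneg_right hWK w10.le),
      b1.trans (mul_le_mul_of_nonneg_right hWK v1.le)⟩
    ⟨c2.trans (mul_le_mul_of_nonneg_right hWK w20.le),
      c1.trans (mul_le_mul_of_nonneg_right hWK v2.le)⟩ (hg 1) (hg 2) h.hq h.hP
    (one_le_pow₀ hK1) ?_ h.sP ?_ ?_ ?_ ?_ ?_ ?_ T Tb (fun b => (p b).1) (fun b => (p b).2.1)
    (fun b => (p b).2.2) (fun b hb => (hj b hb).le) (fun b hb => (hp b hb).2.2.2)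
    (fun b hb => ⟨(hp b hb).1, (hp b hb).2.1, (hp b hb).2.2.1⟩) (div_pos h.α0 hK0)
    ((div_le_self h.α0.le hK1).trans h.α1) h.ε0 h.ε1 ?_ ?_ ?_ lab ?_ (by positivity)
    (by positivity) ?_ hβ hN1 hN2' ?_
  · -- conclusion
    have k1 : 1 / (X⁻¹ / K / K) ^ 2 ≤ X ^ 35 := by
      have : 1 / (X⁻¹ / K / K) ^ 2 = X ^ 2 * K ^ 4 := by field_simp
      rw [this]
      calc X ^ 2 * K ^ 4 ≤ X ^ 2 * X ^ 4 :=
            mul_le_mul_of_nonneg_left (pow_le_pow_left₀ hK0.le hKX 4) (by positivity)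
        _ = X ^ 6 := by ring
        _ ≤ X ^ 35 := pow_le_pow_right₀ hX1 (by norm_num)
    have k2 : 1 / (X⁻¹ / K ^ 2 / K ^ 4) ^ 5 ≤ X ^ 35 := by
      have : 1 / (X⁻¹ / K ^ 2 / K ^ 4) ^ 5 = X ^ 5 * K ^ 30 := by field_simp
      rw [this]
      calc X ^ 5 * K ^ 30 ≤ X ^ 5 * X ^ 30 :=
            mul_le_mul_of_nonneg_left (pow_le_pow_left₀ hK0.le hKX 30) (by positivity)
        _ = X ^ 35 := by ring
    have k3 : (Nmx501.KC2 (K ^ 2) (K ^ 3)) ^ 10 ≤ (54 * 10 ^ 14) ^ 10 * X ^ 310 := by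
      rw [hKC]
      calc (54 * 10 ^ 14 * K ^ 31) ^ 10 = (54 * 10 ^ 14) ^ 10 * K ^ 310 := by ring
        _ ≤ _ := mul_le_mul_of_nonneg_left (pow_le_pow_left₀ hK0.le hKX 310) (by positivity)
    have k4 : K ^ 33 ≤ X ^ 33 := pow_le_pow_left₀ hK0.le hKX 33
    have k5 : β * (H : ℝ) ^ 3 ≤ 2 * X ^ 2 * (H : ℝ) ^ 2 := by
      have e1 : β * (H : ℝ) ^ 3 = K * (W + K) * (H : ℝ) ^ 2 := by
        rw [hβd]; field_simp
      rw [e1]
      refine mul_le_mul_of_nonneg_right ?_ (by positivity)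
      calc K * (W + K) ≤ X * (X + X) := mul_le_mul hKX (by linarith) hWK0.le hX0.le
        _ = 2 * X ^ 2 := by ring
    have k6 : (N : ℝ) ≤ 5 * (5000 * (54 * 10 ^ 14) * X ^ 34) * (1 + Real.log H) := by
      refine hN3.trans (mul_le_mul_of_nonneg_right ?_ (by linarith))
      have e1 : A = 5000 * (54 * 10 ^ 14) * K ^ 34 := by rw [hA, hKC]; ring
      rw [e1]
      have : K ^ 34 ≤ X ^ 34 := pow_le_pow_left₀ hK0.le hKX 34
      nlinarith
    have hN0 : (0:ℝ) ≤ N := Nat.cast_nonneg N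
    have hKC0 : 0 ≤ Nmx501.KC2 (K ^ 2) (K ^ 3) := by rw [hKC]; positivity
    have hβ0 : 0 ≤ β := (by positivity : (0:ℝ) ≤ 1 / H).trans hβ
    refine key.trans ?_
    calc 10 ^ 52 * (N : ℝ) * (Nmx501.KC2 (K ^ 2) (K ^ 3)) ^ 10 * K ^ 33 *
          (1 / (X⁻¹ / K / K) ^ 2 + 1 / (X⁻¹ / K ^ 2 / K ^ 4) ^ 5) * β * (H : ℝ) ^ 3
        = 10 ^ 52 * (N : ℝ) * (Nmx501.KC2 (K ^ 2) (K ^ 3)) ^ 10 * K ^ 33 *
          (1 / (X⁻¹ / K / K) ^ 2 + 1 / (X⁻¹ / K ^ 2 / K ^ 4) ^ 5) * (β * (H : ℝ) ^ 3) := by ring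
      _ ≤ 10 ^ 52 * (5 * (5000 * (54 * 10 ^ 14) * X ^ 34) * (1 + Real.log H)) *
          ((54 * 10 ^ 14) ^ 10 * X ^ 310) * X ^ 33 * (X ^ 35 + X ^ 35) *
            (2 * X ^ 2 * (H : ℝ) ^ 2) := by
          gcongr
      _ = (10 ^ 52 * 5 * 5000 * (54 * 10 ^ 14) * (54 * 10 ^ 14) ^ 10 * 4) * X ^ 414 *
          (1 + Real.log H) * (H : ℝ) ^ 2 := by ring
      _ ≤ 10 ^ 240 * X ^ 414 * (1 + Real.log H) * (H : ℝ) ^ 2 := by
          refine mul_le_mul_of_nonneg_right (mul_le_mul_of_nonneg_right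
            (mul_le_mul_of_nonneg_right num_le (by positivity)) (by linarith))
            (by positivity)
  · exact ⟨h.bq.a0.trans (le_self_pow₀ hK1 (by norm_num)),
      fun i => (h.bq.a i).trans (le_self_pow₀ hK1 (by norm_num)),
      h.bq.h00.trans (le_self_pow₀ hK1 (by norm_num)),
      fun i => (h.bq.h0 i).trans (le_self_pow₀ hK1 (by norm_num)),
      fun i j => (h.bq.h i j).trans (le_self_pow₀ hK1 (by norm_num)), h.bq.s⟩
  · exact fun i => (h.bPa i).trans (le_self_pow₀ hK1 (by norm_num))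
  · exact fun i j => (h.bPh i j).trans (le_self_pow₀ hK1 (by norm_num))
  · exact h.bP0.trans (mul_le_mul_of_nonneg_right (le_self_pow₀ hK1 (by norm_num)) h.ε0.le)
  · exact h.bP00.trans (mul_le_mul_of_nonneg_right (le_self_pow₀ hK1 (by norm_num)) h.ε0.le)
  · exact fun i => (h.bPm i).trans
      (mul_le_mul_of_nonneg_right (le_self_pow₀ hK1 (by norm_num)) h.ε0.le)
  · intro y x hy hx hx0
    refine le_trans ?_ (h.st y x hy hx hx0)
    exact one_div_le_one_div_of_le hK0 (le_self_pow₀ hK1 (by norm_num))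
  · -- `ε αq / K ≤ 1 / H`
    have e1 := h.εα
    rw [mul_div_assoc', div_le_div_iff₀ hK0 hH0]
    have e2 : ε * αq * (H * a) ≤ ε * αq * Y :=
      mul_le_mul_of_nonneg_left hHa (mul_nonneg h.ε0.le h.α0.le)
    have e3 : (ε * αq * H) * a ≤ K * a := by nlinarith
    have := le_of_mul_le_mul_right e3 ha
    linarith
  · intro b hb
    obtain ⟨z1, z2⟩ := hzz b hb
    have e1 := ((hin b hb).2 _ z1 z2).2
    refine e1.trans (h.on.trans (le_of_eq ?_))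
    field_simp
  · intro b hb
    obtain ⟨z1, z2⟩ := hzz b hb
    have e1 := ((hin b hb).2 _ z1 z2).2
    have e2 := ((hin b hb).1 _ z1 z2).2
    have e3 : |μ * V.q (zj z0 ρ H b.2) ((Tb b).pos (zj z0 ρ H b.2))| ≤ K * a := by
      rw [abs_mul]
      exact (mul_le_mul_of_nonneg_left e1 (abs_nonneg μ)).trans h.μa
    have e4 := abs_sub (U.q (zj z0 ρ H b.2) ((Tb b).pos (zj z0 ρ H b.2)))
      (μ * V.q (zj z0 ρ H b.2) ((Tb b).pos (zj z0 ρ H b.2)))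
    have e5 : (W + K) * a ≤ Λ * β := by
      have f1 : H * a ≤ K * Λ := hHa.trans h.YΛ
      rw [hβd]
      have f2 : Λ * (K * (W + K) / H) = (K * Λ) * (W + K) / H := by ring
      rw [f2, le_div_iff₀ hH0]
      nlinarith
    have e6 : U.a ≤ W * a := a2'
    linarith
  · intro b hb k
    obtain ⟨z1, z2⟩ := hzz b hb
    exact ((hin b hb).2 _ z1 z2).1 k
  · rw [div_le_one (by positivity)]
    have : X⁻¹ ≤ 1 := inv_le_one_of_one_le₀ hX1
    exact this.trans (one_le_pow₀ hK1)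
  · intro b hb
    rcases hnd b hb with ⟨i, hi⟩ | ⟨i, j, k, k', hi⟩
    · left
      refine ⟨i, lt_of_le_of_lt ?_ hi⟩
      have e1 : X⁻¹ / K * Λ ≤ X⁻¹ / K * (K * Y) :=
        mul_le_mul_of_nonneg_left h.ΛY (by positivity)
      have e2 : X⁻¹ / K * (K * Y) = X⁻¹ * Y := by field_simp
      linarith
    · right
      refine ⟨i, j, k, k', lt_of_le_of_lt ?_ hi⟩
      have e0 : Λ ^ 2 ≤ (K * Y) ^ 2 := pow_le_pow_left₀ h.Λ0.le h.ΛY 2
      have e1 : X⁻¹ / K ^ 2 * Λ ^ 2 ≤ X⁻¹ / K ^ 2 * (K * Y) ^ 2 :=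
        mul_le_mul_of_nonneg_left e0 (by positivity)
      have e2 : X⁻¹ / K ^ 2 * (K * Y) ^ 2 = X⁻¹ * Y ^ 2 := by field_simp
      linarith

end Crest.Agent.R136.Ndw325
end

-- ▼ part R136/Nmw_84
section

/-!
# R136 (S0187), PLAN 2, alignment of sheets, mixed curvatures: cells of lines (helper84)

`cells_sum` : the lines of a sheet are split into at most `2^68` cells (positions at both ends of the
height interval in the grid `w_k / 2^15`); a bound `B` for every cell gives `2^68 B`.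
-/

set_option autoImplicit false

open Finset

namespace Crest.Agent.R136.Nmw84

open Crest.Agent.R136.Sh605
open Crest.Agent.R136.K4 (Plk4)
open Crest.Agent.R136.Tlt51 (Shp InP)



/-- the difference of two lines between two heights -/
theorem dt_mid {n : V3} {s t : Ln4} {z0 ρ z A : ℝ} (hρ : 0 ≤ ρ) (h1 : z0 ≤ z) (h2 : z ≤ z0 + ρ)
    (a1 : |dt n (s.pos z0 - t.pos z0)| ≤ A) (a2 : |dt n (s.pos (z0 + ρ) - t.pos (z0 + ρ))| ≤ A) :
    |dt n (s.pos z - t.pos z)| ≤ A := by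
  rcases eq_or_lt_of_le hρ with h0 | h0
  · have : z = z0 := by linarith
    rw [this]; exact a1
  set l := (z - z0) / ρ with hl
  have l0 : 0 ≤ l := div_nonneg (by linarith) hρ
  have l1 : l ≤ 1 := by rw [hl, div_le_one h0]; linarith
  have hz : z = z0 + ρ * l := by rw [hl]; field_simp; ring
  have e : dt n (s.pos z - t.pos z) = (1 - l) * dt n (s.pos z0 - t.pos z0) +
      l * dt n (s.pos (z0 + ρ) - t.pos (z0 + ρ)) := by
    rw [hz]
    simp only [dt, Ln4.pos, Pi.sub_apply]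
    ring
  rw [e]
  refine (abs_add_le _ _).trans ?_
  rw [abs_mul, abs_mul, abs_of_nonneg l0, abs_of_nonneg (by linarith : 0 ≤ 1 - l)]
  nlinarith [mul_le_mul_of_nonneg_left a1 (by linarith : 0 ≤ 1 - l),
    mul_le_mul_of_nonneg_left a2 l0]



end Crest.Agent.R136.Nmw84
end

-- ▼ part R136/Nmw2_84
section

/-!
# R136 (S0187), PLAN 2, alignment of sheets, mixed curvatures: cells of lines (helper84)

`cells_sum3` : the lines of a sheet are split into at most `(3 m)^6` cells (positions at both ends of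
the height interval in the grid `w_k / m`, all three axes); a bound `B` for every cell gives
`(3 m)^6 B`.
-/

set_option autoImplicit false

open Finset

namespace Crest.Agent.R136.Nmw84

open Crest.Agent.R136.Sh605
open Crest.Agent.R136.K4 (Plk4)
open Crest.Agent.R136.Tlt51 (Shp InP)

theorem fl_rng3 {x w : ℝ} {m : ℕ} (hw : 0 < w) (h : |x| ≤ w) :
    ⌊(m:ℝ) * (x / w)⌋ ∈ Icc (-(m : ℤ)) m := by
  have h1 : |x / w| ≤ 1 := by
    rw [abs_div, abs_of_pos hw, div_le_one hw]; exact h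
  obtain ⟨h2, h3⟩ := abs_le.1 h1
  have hm : (0:ℝ) ≤ m := Nat.cast_nonneg m
  rw [mem_Icc]
  constructor
  · rw [Int.le_floor]; push_cast; nlinarith
  · have : ⌊(m:ℝ) * (x / w)⌋ < m + 1 := by
      rw [Int.floor_lt]; push_cast; nlinarith
    omega

theorem fl_cls3 {x y w : ℝ} {m : ℕ} (hm : 1 ≤ m) (hw : 0 < w)
    (h : ⌊(m:ℝ) * (x / w)⌋ = ⌊(m:ℝ) * (y / w)⌋) : |x - y| ≤ w / m := by
  have hm0 : (0:ℝ) < m := by exact_mod_cast hm
  have h1 := (Int.abs_sub_lt_one_of_floor_eq_floor h).le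
  have h2 : (m:ℝ) * (x / w) - m * (y / w) = (x - y) * (m / w) := by ring
  rw [h2, abs_mul, abs_of_pos (by positivity : (0:ℝ) < m / w)] at h1
  rw [le_div_iff₀ hm0]
  have h3 : |x - y| * m = |x - y| * (m / w) * w := by field_simp
  rw [h3]
  nlinarith

/-- `t` in the `w / m` tube of `T` (all axes) -/
def Cl3 (m : ℕ) (V : Plk4) (z0 ρ : ℝ) (t T : Ln4) : Prop :=
  ∀ z, z0 ≤ z → z ≤ z0 + ρ → ∀ k : Fin 3, |dt (V.e k) (t.pos z - T.pos z)| ≤ V.w k / m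

/-- **cells of lines** -/
theorem cells_sum3 {β : Type} {V : Plk4} {P : Finset ℕ} {L : ℕ → Ln4} {z0 ρ B : ℝ} {m : ℕ}
    (hm : 1 ≤ m) (hρ : 0 ≤ ρ) (hw : ∀ k, 0 < V.w k) (hP : ∀ t ∈ P, InP (L t) V z0 ρ) (T : Finset β)
    (R : β → ℕ → Prop) (tw : ∀ y ∈ T, ∃ t ∈ P, R y t) (hB0 : 0 ≤ B)
    (hB : ∀ T0 ∈ P, ∀ T' ⊆ T, (∀ y ∈ T', ∃ t ∈ P, R y t ∧ Cl3 m V z0 ρ (L t) (L T0)) →
      (T'.card : ℝ) ≤ B) : (T.card : ℝ) ≤ (3 * m) ^ 6 * B := by
  classical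
  have hex : ∀ y : β, ∃ t : ℕ, y ∈ T → t ∈ P ∧ R y t := by
    intro y
    by_cases hy : y ∈ T
    · obtain ⟨t, h1, h2⟩ := tw y hy
      exact ⟨t, fun _ => ⟨h1, h2⟩⟩
    · exact ⟨0, fun h => absurd h hy⟩
  choose f hf using hex
  let g : Fin 3 → ℝ → β → ℤ := fun k z y =>
    ⌊(m:ℝ) * (dt (V.e k) ((L (f y)).pos z - V.c.pos z) / V.w k)⌋
  let lab : β → (ℤ × ℤ × ℤ) × (ℤ × ℤ × ℤ) := fun y =>
    ((g 0 z0 y, g 1 z0 y, g 2 z0 y), (g 0 (z0 + ρ) y, g 1 (z0 + ρ) y, g 2 (z0 + ρ) y))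
  have hmem : ∀ y ∈ T, ∀ z, z0 ≤ z → z ≤ z0 + ρ → ∀ k, g k z y ∈ Icc (-(m : ℤ)) m := by
    intro y hy z h1 h2 k
    exact fl_rng3 (hw k) ((hP _ (hf y hy).1 z h1 h2).1 k)
  obtain ⟨I, hI⟩ : ∃ I : Finset ℤ, I = Icc (-(m : ℤ)) m := ⟨_, rfl⟩
  have hmr : (1:ℝ) ≤ m := by exact_mod_cast hm
  have hIc : (I.card : ℝ) ≤ 3 * m := by
    rw [hI, Int.card_Icc]
    have : ((m : ℤ) + 1 - -(m : ℤ)).toNat = 2 * m + 1 := by omega
    rw [this]
    push_cast
    linarith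
  rw [← hI] at hmem
  have himg : T.image lab ⊆ (I ×ˢ (I ×ˢ I)) ×ˢ (I ×ˢ (I ×ˢ I)) := by
    intro l hl
    obtain ⟨y, hy, rfl⟩ := mem_image.1 hl
    have a := hmem y hy z0 le_rfl (by linarith)
    have b := hmem y hy (z0 + ρ) (by linarith) le_rfl
    exact mem_product.2 ⟨mem_product.2 ⟨a 0, mem_product.2 ⟨a 1, a 2⟩⟩,
      mem_product.2 ⟨b 0, mem_product.2 ⟨b 1, b 2⟩⟩⟩
  have hcard : ((T.image lab).card : ℝ) ≤ (3 * m) ^ 6 := by
    have h1 : ((T.image lab).card : ℝ) ≤ (((I ×ˢ (I ×ˢ I)) ×ˢ (I ×ˢ (I ×ˢ I))).card : ℝ) :=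
      Nat.cast_le.2 (card_le_card himg)
    rw [card_product, card_product, card_product, Nat.cast_mul, Nat.cast_mul, Nat.cast_mul] at h1
    refine h1.trans ?_
    have h0 : (0:ℝ) ≤ I.card := Nat.cast_nonneg _
    calc (I.card : ℝ) * ((I.card : ℝ) * I.card) * ((I.card : ℝ) * ((I.card : ℝ) * I.card)) =
        (I.card : ℝ) ^ 6 := by ring
      _ ≤ (3 * m) ^ 6 := pow_le_pow_left₀ h0 hIc 6
  have hsum : (T.card : ℝ) = ∑ l ∈ T.image lab, ((T.filter fun y => lab y = l).card : ℝ) := by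
    have := card_eq_sum_card_image lab T
    exact_mod_cast this
  rw [hsum]
  refine (sum_le_card_nsmul _ _ B fun l hl => ?_).trans ?_
  · obtain ⟨y0, hy0, rfl⟩ := mem_image.1 hl
    refine hB (f y0) (hf y0 hy0).1 _ (filter_subset _ _) fun y hy => ?_
    obtain ⟨hyT, hyl⟩ := mem_filter.1 hy
    refine ⟨f y, (hf y hyT).1, (hf y hyT).2, ?_⟩
    have hl1 : lab y = lab y0 := hyl
    simp only [lab, Prod.mk.injEq] at hl1
    obtain ⟨⟨l0, l1, l2⟩, ⟨l3, l4, l5⟩⟩ := hl1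
    have key : ∀ (k : Fin 3), g k z0 y = g k z0 y0 → g k (z0 + ρ) y = g k (z0 + ρ) y0 →
        ∀ z, z0 ≤ z → z ≤ z0 + ρ →
          |dt (V.e k) ((L (f y)).pos z - (L (f y0)).pos z)| ≤ V.w k / m := by
      intro k e1 e2 z h1 h2
      have d : ∀ z, dt (V.e k) ((L (f y)).pos z - (L (f y0)).pos z) =
          dt (V.e k) ((L (f y)).pos z - V.c.pos z) -
            dt (V.e k) ((L (f y0)).pos z - V.c.pos z) := by
        intro z; simp only [dt, Pi.sub_apply]; ring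
      refine dt_mid hρ h1 h2 ?_ ?_
      · rw [d]; exact fl_cls3 hm (hw k) e1
      · rw [d]; exact fl_cls3 hm (hw k) e2
    intro z h1 h2 k
    fin_cases k
    · exact key 0 l0 l3 z h1 h2
    · exact key 1 l1 l4 z h1 h2
    · exact key 2 l2 l5 z h1 h2
  · rw [nsmul_eq_mul]
    exact mul_le_mul_of_nonneg_right hcard hB0

end Crest.Agent.R136.Nmw84
end

-- ▼ part R136/Amx5_325

/-!
# R136 (S0187), PLAN 2, mixed curvatures: the leaves of `Amd_84` ⊢ the leaves of `Amx3_325`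
(helper325)

`ubalA_of84 : Amx84.HullMx → Amx84.PLMx → Amx84.NdMx → UBalA Al1`.
-/

set_option autoImplicit false
set_option linter.unusedVariables false

open Finset

namespace Crest.Agent.R136.Amx325

open Crest.Agent.R136.Sh605 Crest.Agent.R136.Pl2
open Crest.Agent.R136.K4 (Plk4)
open Crest.Agent.R136.Tlt51 (Shp InP)
open Crest.Agent.R136.KapP335 (kapP DetP)
open Crest.Agent.R136.Pl2W102 (Near Ex2 Two1)
open Crest.Agent.R136.Bl5667 (shp_pos kp_nonneg)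
open Crest.Agent.R136.Gbx862 (gb)

section

variable {qm qp : Fin 3 → ℝ} {K : ℝ} {L : ℕ → Ln4} {P : Finset ℕ} {cu cv : ℕ → ℕ}
  {Uf Vf : ℕ → Plk4} {W M a w1 w2 z0 ρ zL ρL r Y : ℝ}

theorem MixD.near (h : MixD qm qp K L P cu cv Uf Vf W M a w1 w2 z0 ρ zL ρL r Y) {t : ℕ}
    (ht : t ∈ P) : Near 4 Y (kp (Uf (cu t)) z0 ρ (L t)) := by
  obtain ⟨-, p0, -, -⟩ := shp_pos h.two.to1.r0 (h.two.to1.shU t ht)
  have h0 := kp_nonneg p0.le z0 ρ (L t)
  have h1 := h.lo t ht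
  have h2 := h.hi t ht
  have hY : 0 ≤ Y := by linarith
  exact ⟨by linarith, by linarith⟩

theorem MixD.det (h : MixD qm qp K L P cu cv Uf Vf W M a w1 w2 z0 ρ zL ρL r Y) (hK : W ≤ K) {t : ℕ}
    (ht : t ∈ P) : DetP W⁻¹ (Uf (cu t)) z0 ρ (L t) :=
  (h.ty t ht).det (((mul_le_mul_of_nonneg_right hK h.two.to1.a0.le).trans h.big).trans (h.lo t ht))

end



theorem ndMx_of (h : Amx84.NdMx) : NdMx := by
  classical
  obtain ⟨C, hC, key⟩ := h
  intro c1 η qm qp hc1 hE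
  refine ⟨C + 1, C, by linarith, hC, ?_⟩
  intro L P cu cv Uf Vf W M a w1 w2 z0 ρ zL ρL r Y hM H hH hHa hYH c c' T hT
  have h1 := hM.two.to1
  have W1 := h1.W1
  have b1 : (1:ℝ) ≤ 2 * W := by linarith
  have hWK : W ≤ (2 * W) ^ (C + 1) := by
    have : (2 * W) ^ (1:ℝ) ≤ (2 * W) ^ (C + 1) :=
      Real.rpow_le_rpow_of_exponent_le b1 (by linarith)
    rw [Real.rpow_one] at this
    linarith
  have hCC : (2 * W) ^ C ≤ (2 * W) ^ (C + 1) :=
    Real.rpow_le_rpow_of_exponent_le b1 (by linarith)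
  rcases T.eq_empty_or_nonempty with h0 | h0
  · subst h0
    have hHr : (4:ℝ) ≤ H := by exact_mod_cast hH
    have hl : 0 ≤ Real.log H := Real.log_nonneg (by linarith)
    have : 0 ≤ (2 * W) ^ C := Real.rpow_nonneg (by linarith) _
    simp only [card_empty, Nat.cast_zero]
    positivity
  · obtain ⟨y0, hy0⟩ := h0
    obtain ⟨t0, ht0, -, e1, e2, -⟩ := hT y0 hy0
    set P' := P.filter fun t => cv t = c ∧ cu t = c' with hP'
    have mem : ∀ t ∈ P', t ∈ P ∧ cv t = c ∧ cu t = c' := fun t ht => by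
      rw [hP', mem_filter] at ht; exact ht
    have sU := h1.shU t0 ht0
    have sV := h1.shV t0 ht0
    have dU := h1.dimU t0 ht0
    have dV := h1.dimV t0 ht0
    rw [e2] at sU dU
    rw [e1] at sV dV
    refine key W Y a w1 w2 z0 ρ r H (Uf c') (Vf c) P' L W1 h1.r0 h1.ρ0 hM.two.rρ h1.a0 sU sV
      (fun t ht => ?_) dU dV (fun t ht => ?_) (fun t ht => ?_) (fun t ht => ?_) (fun t ht => ?_)
      ((mul_le_mul_of_nonneg_right hCC h1.a0.le).trans hM.big) (by omega) hHa T (fun y hy => ?_)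
    · obtain ⟨m1, m2, m3⟩ := mem t ht
      have a1 := h1.inU t m1
      have a2 := h1.inV t m1
      rw [m3] at a1
      rw [m2] at a2
      exact ⟨a1, a2⟩
    · obtain ⟨m1, m2, m3⟩ := mem t ht
      have a1 := hM.al t m1
      rw [m3, m2] at a1
      exact a1
    · obtain ⟨m1, m2, m3⟩ := mem t ht
      have a1 := hM.det hWK m1
      rw [m3] at a1
      exact a1
    · obtain ⟨m1, m2, m3⟩ := mem t ht
      have a1 := hM.near m1
      rw [m3] at a1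
      exact a1
    · obtain ⟨m1, m2, m3⟩ := mem t ht
      have a1 := hM.fl t m1
      obtain ⟨-, p0, -, -⟩ := shp_pos h1.r0 (h1.shV t m1)
      have a2 := mul_le_mul_of_nonneg_right hCC (kp_nonneg p0.le z0 ρ (L t))
      rw [m2] at a1 a2
      exact a2.trans a1
    · obtain ⟨t, t1, t2, t3, t4, t5⟩ := hT y hy
      exact ⟨t, by rw [hP', mem_filter]; exact ⟨t1, t3, t4⟩, t2, t5⟩


end Crest.Agent.R136.Amx325
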