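import Mathlib
import Crest.Agent.R138.ArgM1_163
import Crest.Agent.R136.MkF_627

/-!
# R136, ArgA (helper163), part 1: flags of a marked sequence with linear widths

All width exponents of the marks are linear (vector form of the extremiser), so the precision of every
slot is `d^(β v)`.  The chain of `TiltTwoA` over a fine mesh shows that the flags of level `1`
(`0 < β`) or of level `0` (`β ≤ 0`) are close, up to the precision, to the flags of EVERY level.
-/

set_option autoImplicit false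
set_option linter.unusedVariables false
set_option linter.unusedSectionVars false

open Finset Filter Topology

namespace Crest.Agent.R136.ArgA163

open Crest.Agent.R138.Ex926 (Base U)
open Crest.Agent.R138.Dp76 (Dense dpow_pos dpow_add dpow_le dpow_le_one)
open Crest.Agent.R138.Mk163 (zc zl rho alive own Negl)
open Crest.Agent.R138.ArgM163 (log_dpow exp_le_of ev_log_div ev_const ev_const_mul)
open Crest.Agent.R136.MkA627

/-! ### meshes of `[a,b]` -/

/-- mesh point of `[a,b]` -/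
def mq (a b : ℚ) (N i : ℕ) : ℚ := a + (b - a) * i / N

theorem mq_zero (a b : ℚ) (N : ℕ) : mq a b N 0 = a := by simp [mq]

theorem mq_last (a b : ℚ) {N : ℕ} (hN : 0 < N) : mq a b N N = b := by
  have : (N : ℚ) ≠ 0 := by exact_mod_cast hN.ne'
  unfold mq; field_simp; ring

theorem mq_succ (a b : ℚ) {N : ℕ} (hN : 0 < N) (i : ℕ) :
    mq a b N (i + 1) - mq a b N i = (b - a) / N := by
  have : (N : ℚ) ≠ 0 := by exact_mod_cast hN.ne'
  unfold mq; push_cast; field_simp; ring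

theorem mq_mono {a b : ℚ} (hab : a ≤ b) (N : ℕ) {i j : ℕ} (h : i ≤ j) : mq a b N i ≤ mq a b N j := by
  unfold mq
  have hij : (i : ℚ) ≤ j := by exact_mod_cast h
  have : (b - a) * i / N ≤ (b - a) * j / N := by
    apply div_le_div_of_nonneg_right _ (Nat.cast_nonneg _)
    exact mul_le_mul_of_nonneg_left hij (by linarith)
  linarith

theorem mq_ge {a b : ℚ} (hab : a ≤ b) (N i : ℕ) : a ≤ mq a b N i := by
  have := mq_mono hab N (Nat.zero_le i)
  rwa [mq_zero] at this

theorem mq_le {a b : ℚ} (hab : a ≤ b) {N i : ℕ} (hN : 0 < N) (h : i ≤ N) : mq a b N i ≤ b := by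
  have := mq_mono hab N h
  rwa [mq_last a b hN] at this

section

variable {σ κ φ ι : Type*} {P : PDist φ ι} {B : Base} {I : ℕ → Finset (ℕ × ℝ)} {G : Geo σ κ}
    {lev : ℕ → ℚ → ℕ} {A : ℕ → ℝ} {c Λ : ℝ → ℝ} {τ : κ → ℝ → ℝ} {f : ℕ → ℚ → ℕ → ℤ → ℕ}
    {b : ℕ → ℚ → ℕ → σ} {vm : ℕ → ℚ → ℝ} {w : κ → ℕ → ℚ → ℝ} {e : ℕ → ℚ → ℕ → φ}
    {pr : ι → ℕ → ℚ → ℝ}


/-- exponent comparison -/
theorem le_of_log {B : Base} {n : ℕ} {x y δ : ℝ} (hx : 0 < x) (hy : 0 < y)
    (h : -δ ≤ Real.log (y / x) / B.L n) : x ≤ y * B.d n ^ (-δ) := by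
  have hL := B.L_pos n
  rw [le_div_iff₀ hL] at h
  have hd := dpow_pos B n (-δ)
  rw [← Real.log_le_log_iff hx (mul_pos hy hd), Real.log_mul hy.ne' hd.ne', log_dpow]
  rw [Real.log_div hy.ne' hx.ne'] at h
  linarith


/-- relative precision of two levels, exponent form -/
def PrLin (B : Base) (pr : ι → ℕ → ℚ → ℝ) (j : ι) (β : ℝ) : Prop :=
  (∀ v : ℚ, 0 ≤ v → v ≤ 1 → ∀ᶠ n in (U : Filter ℕ), 0 < pr j n v) ∧
  ∀ v : ℚ, 0 ≤ v → v ≤ 1 →
    Tendsto (fun n => Real.log (pr j n 0 / pr j n v) / B.L n) U (𝓝 (β * v))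

theorem PrLin.pair {j : ι} {β : ℝ} (h : PrLin B pr j β) {u v : ℚ} (h0 : 0 ≤ u) (h1 : u ≤ 1)
    (h2 : 0 ≤ v) (h3 : v ≤ 1) :
    Tendsto (fun n => Real.log (pr j n u / pr j n v) / B.L n) U (𝓝 (β * (v - u))) := by
  have e1 : β * ((v : ℝ) - u) = β * v - β * u := by ring
  rw [e1]
  refine ((h.2 v h2 h3).sub (h.2 u h0 h1)).congr' ?_
  filter_upwards [h.1 0 le_rfl zero_le_one, h.1 u h0 h1, h.1 v h2 h3] with n a b c
  rw [Real.log_div a.ne' c.ne', Real.log_div a.ne' b.ne', Real.log_div b.ne' c.ne']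
  ring







/-! ### the precision is a monomial in the widths -/

/-- monomial `∏ w_k^(a_k) ρ^(a_0)` in the widths of the marks -/
noncomputable def monoW [Fintype κ] (lev : ℕ → ℚ → ℕ) (w : κ → ℕ → ℚ → ℝ) (a : κ → ℝ) (a₀ : ℝ)
    (n : ℕ) (v : ℚ) : ℝ := (∏ k, w k n v ^ a k) * rho (lev n v) ^ a₀

theorem rho_pos (i : ℕ) : 0 < rho i := by unfold rho; positivity

theorem log_rho (i : ℕ) : Real.log (rho i) = -((i : ℝ) * Real.log 2) := by
  unfold rho
  rw [one_div, Real.log_inv, Real.log_pow]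

theorem log_mono [Fintype κ] {n : ℕ} {v : ℚ} (hw : ∀ k, 0 < w k n v) (a : κ → ℝ) (a₀ : ℝ) :
    Real.log (monoW lev w a a₀ n v) =
      ∑ k, a k * Real.log (w k n v) + a₀ * Real.log (rho (lev n v)) := by
  unfold monoW
  rw [Real.log_mul, Real.log_prod, Real.log_rpow (rho_pos _)]
  · congr 1
    exact Finset.sum_congr rfl fun k _ => Real.log_rpow (hw k) _
  · intro k _
    exact (Real.rpow_pos_of_pos (hw k) _).ne'
  · exact (Finset.prod_pos fun k _ => Real.rpow_pos_of_pos (hw k) _).ne'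
  · exact (Real.rpow_pos_of_pos (rho_pos _) _).ne'

/-- exponent of one width, relative to level `0` -/
theorem tau_zero {θ : κ → ℝ}
    (h : MkA B I G lev A c Λ (fun j v => θ j * (1 - v)) f b vm w) (k : κ) {v : ℚ} (h0 : 0 ≤ v)
    (h1 : v ≤ 1) :
    Tendsto (fun n => (Real.log (w k n 0) - Real.log (w k n v)) / B.L n) U
      (𝓝 ((1 - θ k) * v)) := by
  have a1 := h.tau k 0 le_rfl zero_le_one
  have a2 := h.tau k v h0 h1
  have a3 := h.lev_lim 0 v le_rfl h0 h1
  have e1 : (1 - θ k) * (v : ℝ) = ((v : ℝ) - (0 : ℚ)) - (θ k * (1 - ((0 : ℚ) : ℝ)) -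
      θ k * (1 - (v : ℝ))) := by push_cast; ring
  rw [e1]
  refine (a3.sub (a1.sub a2)).congr' ?_
  filter_upwards [h.wpos k 0 le_rfl zero_le_one, h.wpos k v h0 h1, h.wpos k 1 zero_le_one le_rfl]
    with n b1 b2 b3
  have r0 := rho_pos (lev n 0)
  have r1 := rho_pos (lev n 1)
  have rv := rho_pos (lev n v)
  rw [Real.log_div (div_pos r0 b1).ne' (div_pos r1 b3).ne',
    Real.log_div (div_pos rv b2).ne' (div_pos r1 b3).ne', Real.log_div r0.ne' b1.ne',
    Real.log_div r1.ne' b3.ne', Real.log_div rv.ne' b2.ne', log_rho, log_rho, log_rho]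
  ring

/-- **the precision of a monomial slot is linear**, `β = Σ a_k (1 - θ_k) + a_0` -/
theorem prLin_mono [Fintype κ] {θ : κ → ℝ}
    (h : MkA B I G lev A c Λ (fun j v => θ j * (1 - v)) f b vm w) {a : κ → ℝ} {a₀ : ℝ} {j : ι}
    (hpr : ∀ n v, pr j n v = monoW lev w a a₀ n v) :
    PrLin B pr j (∑ k, a k * (1 - θ k) + a₀) := by
  have hw : ∀ v : ℚ, 0 ≤ v → v ≤ 1 → ∀ᶠ n in (U : Filter ℕ), ∀ k, 0 < w k n v := fun v h0 h1 =>
    Filter.eventually_all.2 fun k => h.wpos k v h0 h1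
  have hp : ∀ v : ℚ, ∀ n, (∀ k, 0 < w k n v) → 0 < monoW lev w a a₀ n v := fun v n hn => by
    unfold monoW
    exact mul_pos (Finset.prod_pos fun k _ => Real.rpow_pos_of_pos (hn k) _)
      (Real.rpow_pos_of_pos (rho_pos _) _)
  refine ⟨fun v h0 h1 => ?_, fun v h0 h1 => ?_⟩
  · filter_upwards [hw v h0 h1] with n hn
    rw [hpr]; exact hp v n hn
  · have a1 : Tendsto (fun n => ∑ k, a k *
        ((Real.log (w k n 0) - Real.log (w k n v)) / B.L n)) U
        (𝓝 (∑ k, a k * ((1 - θ k) * v))) :=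
      tendsto_finsetSum _ fun k _ => (tau_zero h k h0 h1).const_mul (a k)
    have a2 := (h.lev_lim 0 v le_rfl h0 h1).const_mul a₀
    have e1 : (∑ k, a k * (1 - θ k) + a₀) * (v : ℝ) =
        ∑ k, a k * ((1 - θ k) * v) + a₀ * ((v : ℝ) - (0 : ℚ)) := by
      rw [add_mul, Finset.sum_mul]
      push_cast
      congr 1
      · exact Finset.sum_congr rfl fun k _ => by ring
      · ring
    rw [e1]
    refine (a1.add a2).congr' ?_
    filter_upwards [hw 0 le_rfl zero_le_one, hw v h0 h1] with n b0 bv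
    rw [hpr, hpr, Real.log_div (hp 0 n b0).ne' (hp v n bv).ne', log_mono b0, log_mono bv, log_rho,
      log_rho]
    have e2 : ∑ k, a k * ((Real.log (w k n 0) - Real.log (w k n v)) / B.L n) =
        (∑ k, a k * Real.log (w k n 0) - ∑ k, a k * Real.log (w k n v)) / B.L n := by
      rw [← Finset.sum_sub_distrib, Finset.sum_div]
      exact Finset.sum_congr rfl fun k _ => by ring
    rw [e2]
    ring

end

end Crest.Agent.R136.ArgA163
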