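import Crest.Agent.R136.Fl3_808
import Crest.Agent.R136.Deep1_51
import Crest.Agent.R138.MkDef_163

-- ▼ part R136/Fl4_808
section

/-!
# R136 (S0187): flat tilt, class counting at a deeper level (helper808)

* `deep_count2` : counting with global numbers of boxes.
* `gl` : grid label of a line of a box over a deep cell.
* `flat_deep` : if two systems of flat boxes have base tilt `λ = 2^j` everywhere, then
  `δ0² A1 A2 ≤ C n² (D' cap) (D cap)`, `D'` = D-max over the cells of length `λ α ρ`, `D` over the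
  cells of length `α ρ`, `α = 2^-k`.
-/

set_option autoImplicit false
set_option linter.unusedVariables false
set_option linter.unusedSectionVars false

namespace Crest.Agent.R136.Fl808

open Finset Crest.Agent.R136.Sh605
open Crest.Agent.R138.Mk163 (zl rho)
open Crest.Agent.R136.Deep51 (card_fib card_le_of_fib classes_le)

/-! ### counting -/




/-! ### grid labels -/

/-- grid label of the line `t` at the height `z` in the frame `e` around `l` -/
noncomputable def gl (e : Fin 3 → V3) (l : Ln4) (z s1 s2 : ℝ) (t : Ln4) : ℤ × ℤ :=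
  (⌊dt (e 1) (t.pos z - l.pos z) / s1⌋, ⌊dt (e 2) (t.pos z - l.pos z) / s2⌋)

theorem pos_sub (t l : Ln4) (z z' : ℝ) :
    t.pos z' - l.pos z' = (t.pos z - l.pos z) + (z' - z) • (t.v - l.v) := by
  funext i
  simp only [Ln4.pos, Pi.sub_apply, Pi.add_apply, Pi.smul_apply, smul_eq_mul]
  ring

/-- velocities of lines of one box -/
theorem vel_le {t l : Ln4} {e : Fin 3 → V3} {i : Fin 3} {W z0 ρ : ℝ} (hρ : 0 < ρ)
    (h : ∀ z, z0 ≤ z → z ≤ z0 + ρ → |dt (e i) (t.pos z - l.pos z)| ≤ W) :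
    |dt (e i) (t.v - l.v)| * ρ ≤ 2 * W := by
  have h1 := h z0 le_rfl (by linarith)
  have h2 := h (z0 + ρ) (by linarith) le_rfl
  rw [pos_sub t l z0 (z0 + ρ), dt_add, dt_smul] at h2
  have h3 : (z0 + ρ - z0) * dt (e i) (t.v - l.v) =
      (dt (e i) (t.pos z0 - l.pos z0) + (z0 + ρ - z0) * dt (e i) (t.v - l.v)) -
        dt (e i) (t.pos z0 - l.pos z0) := by ring
  have h4 : |dt (e i) (t.v - l.v)| * ρ = |(z0 + ρ - z0) * dt (e i) (t.v - l.v)| := by
    rw [abs_mul, add_sub_cancel_left, abs_of_pos hρ, mul_comm]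
  rw [h4, h3]
  exact (abs_sub _ _).trans (by linarith)

/-- a line which is `s`-close at one height and slow stays close -/
theorem stay {t l : Ln4} {e : Fin 3 → V3} {i : Fin 3} {s V z z' : ℝ}
    (h1 : |dt (e i) (t.pos z - l.pos z)| ≤ s) (h2 : |dt (e i) (t.v - l.v)| * |z' - z| ≤ V) :
    |dt (e i) (t.pos z' - l.pos z')| ≤ s + V := by
  rw [pos_sub t l z z', dt_add, dt_smul]
  refine (abs_add_le _ _).trans ?_
  rw [abs_mul]
  linarith [mul_comm |z' - z| |dt (e i) (t.v - l.v)|]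

theorem diff_box {t t' l : Ln4} {e : Fin 3 → V3} {s : V3} {z0 ρ : ℝ} (h : InB t l e s z0 ρ)
    (h' : InB t' l e s z0 ρ) : InB t t' e (fun i => 2 * s i) z0 ρ := by
  intro z hz0 hz1 i
  have : t.pos z - t'.pos z = (t.pos z - l.pos z) - (t'.pos z - l.pos z) := by abel
  rw [this, dt_sub]
  exact (abs_sub _ _).trans (by linarith [h z hz0 hz1 i, h' z hz0 hz1 i])

theorem abs_le_of_floor {x y w : ℝ} (hw : 0 < w) (h : ⌊x / w⌋ = ⌊y / w⌋) : |x - y| ≤ w := by
  have h1 := Int.abs_sub_lt_one_of_floor_eq_floor h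
  have h2 : |x / w - y / w| = |x - y| / w := by rw [← sub_div, abs_div, abs_of_pos hw]
  rw [h2, div_lt_one hw] at h1
  exact h1.le

/-- two lines of one box with the same label at the beginning of a short cell -/
theorem grid_box {t t' l : Ln4} {e : Fin 3 → V3} {a w1 w2 s1 s2 z0 ρ z' ρ' : ℝ} (hρ : 0 < ρ)
    (hρ' : 0 ≤ ρ') (hs1 : 0 < s1) (hs2 : 0 < s2) (hz : z0 ≤ z') (hz' : z' + ρ' ≤ z0 + ρ)
    (h1 : ρ' * w1 ≤ ρ * s1) (h2 : ρ' * w2 ≤ ρ * s2)
    (ht : InB t l e ![a, w1, w2] z0 ρ) (ht' : InB t' l e ![a, w1, w2] z0 ρ)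
    (hl : gl e l z' s1 s2 t = gl e l z' s1 s2 t') : InB t t' e ![2 * a, 5 * s1, 5 * s2] z' ρ' := by
  have hd := diff_box ht ht'
  have e1 := congrArg Prod.fst hl
  have e2 := congrArg Prod.snd hl
  simp only [gl] at e1 e2
  have f1 := abs_le_of_floor hs1 e1
  have f2 := abs_le_of_floor hs2 e2
  rw [← dt_sub] at f1 f2
  have g0 : t.pos z' - l.pos z' - (t'.pos z' - l.pos z') = t.pos z' - t'.pos z' := by abel
  rw [g0] at f1 f2
  have v1 := vel_le (e := e) (i := 1) hρ fun z hz0 hz1 => by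
    have := hd z hz0 hz1 1
    simpa using this
  have v2 := vel_le (e := e) (i := 2) hρ fun z hz0 hz1 => by
    have := hd z hz0 hz1 2
    simpa using this
  have b1 : 0 ≤ 2 * (2 * w1) := le_trans (by positivity) v1
  have b2 : 0 ≤ 2 * (2 * w2) := le_trans (by positivity) v2
  intro z hz0 hz1 i
  have hzz : |z - z'| ≤ ρ' := by rw [abs_of_nonneg (by linarith)]; linarith
  fin_cases i
  · have := hd z (hz.trans hz0) (by linarith) 0
    simpa using this
  · have h3 : |dt (e 1) (t.v - t'.v)| * |z - z'| ≤ 4 * s1 := by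
      have h4 : |dt (e 1) (t.v - t'.v)| * |z - z'| * ρ ≤ 4 * s1 * ρ := by
        calc |dt (e 1) (t.v - t'.v)| * |z - z'| * ρ = (|dt (e 1) (t.v - t'.v)| * ρ) * |z - z'| := by
              ring
          _ ≤ (2 * (2 * w1)) * ρ' := by gcongr
          _ = 4 * (ρ' * w1) := by ring
          _ ≤ 4 * (ρ * s1) := by linarith
          _ = _ := by ring
      exact le_of_mul_le_mul_right h4 hρ
    have := stay f1 h3
    simp only [Fin.mk_one, Matrix.cons_val_one, Matrix.cons_val_zero]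
    linarith
  · have h3 : |dt (e 2) (t.v - t'.v)| * |z - z'| ≤ 4 * s2 := by
      have h4 : |dt (e 2) (t.v - t'.v)| * |z - z'| * ρ ≤ 4 * s2 * ρ := by
        calc |dt (e 2) (t.v - t'.v)| * |z - z'| * ρ = (|dt (e 2) (t.v - t'.v)| * ρ) * |z - z'| := by
              ring
          _ ≤ (2 * (2 * w2)) * ρ' := by gcongr
          _ = 4 * (ρ' * w2) := by ring
          _ ≤ 4 * (ρ * s2) := by linarith
          _ = _ := by ring
      exact le_of_mul_le_mul_right h4 hρ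
    have := stay f2 h3
    simp only [Fin.reduceFinMk, Matrix.cons_val]
    linarith

/-- number of floors -/
theorem floors_card {X : Type*} (Q : Finset X) (h : X → ℝ) {w s : ℝ} (hs : 0 < s) (hw : 0 ≤ w)
    (hQ : ∀ x ∈ Q, |h x| ≤ w) : ((Q.image fun x => ⌊h x / s⌋).card : ℝ) ≤ 2 * (w / s) + 2 := by
  have h1 : (Q.image fun x => ⌊h x / s⌋) ⊆ Finset.Icc ⌊-(w / s)⌋ ⌊w / s⌋ := by
    intro y hy
    obtain ⟨x, hx, rfl⟩ := mem_image.1 hy
    have := abs_le.1 (hQ x hx)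
    rw [Finset.mem_Icc]
    constructor
    · refine Int.floor_le_floor ?_
      rw [← neg_div]
      gcongr
      exact this.1
    · refine Int.floor_le_floor ?_
      gcongr
      exact this.2
  have h2 := card_le_card h1
  rw [Int.card_Icc] at h2
  have h3 : (((⌊w / s⌋ + 1 - ⌊-(w / s)⌋).toNat : ℕ) : ℝ) ≤ 2 * (w / s) + 2 := by
    have h4 : (0 : ℤ) ≤ ⌊w / s⌋ + 1 - ⌊-(w / s)⌋ := by
      have : ⌊-(w / s)⌋ ≤ ⌊w / s⌋ := Int.floor_le_floor (by
        have : 0 ≤ w / s := by positivity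
        linarith)
      omega
    have h5 : (((⌊w / s⌋ + 1 - ⌊-(w / s)⌋).toNat : ℕ) : ℝ) =
        ((⌊w / s⌋ + 1 - ⌊-(w / s)⌋ : ℤ) : ℝ) := by
      have := Int.toNat_of_nonneg h4
      exact_mod_cast this
    rw [h5]
    push_cast
    have := Int.floor_le (w / s)
    have := Int.lt_floor_add_one (-(w / s))
    linarith
  exact le_trans (Nat.cast_le.2 h2) h3

/-- number of labels of the lines of one box -/
theorem grid_card {X : Type*} (Q : Finset X) (L : X → Ln4) {l : Ln4} {e : Fin 3 → V3}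
    {a w1 w2 s1 s2 z0 ρ z' : ℝ} (hs1 : 0 < s1) (hs2 : 0 < s2) (hw1 : 0 ≤ w1) (hw2 : 0 ≤ w2)
    (hz : z0 ≤ z') (hz' : z' ≤ z0 + ρ) (hQ : ∀ x ∈ Q, InB (L x) l e ![a, w1, w2] z0 ρ) :
    ((Q.image fun x => gl e l z' s1 s2 (L x)).card : ℝ) ≤
      (2 * (w1 / s1) + 2) * (2 * (w2 / s2) + 2) := by
  classical
  have h1 : (Q.image fun x => gl e l z' s1 s2 (L x)) ⊆
      (Q.image fun x => ⌊dt (e 1) ((L x).pos z' - l.pos z') / s1⌋) ×ˢ
        (Q.image fun x => ⌊dt (e 2) ((L x).pos z' - l.pos z') / s2⌋) := by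
    intro y hy
    obtain ⟨x, hx, rfl⟩ := mem_image.1 hy
    rw [mem_product]
    exact ⟨mem_image_of_mem _ hx, mem_image_of_mem _ hx⟩
  have h2 := card_le_card h1
  rw [card_product] at h2
  have h3 := floors_card Q (fun x => dt (e 1) ((L x).pos z' - l.pos z')) hs1 hw1 (fun x hx => by
    have := hQ x hx z' hz hz' 1
    simpa using this)
  have h4 := floors_card Q (fun x => dt (e 2) ((L x).pos z' - l.pos z')) hs2 hw2 (fun x hx => by
    have := hQ x hx z' hz hz' 2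
    simpa using this)
  calc ((Q.image fun x => gl e l z' s1 s2 (L x)).card : ℝ) ≤
      (((Q.image fun x => ⌊dt (e 1) ((L x).pos z' - l.pos z') / s1⌋).card *
        (Q.image fun x => ⌊dt (e 2) ((L x).pos z' - l.pos z') / s2⌋).card : ℕ) : ℝ) :=
        Nat.cast_le.2 h2
    _ ≤ _ := by
        push_cast
        refine mul_le_mul h3 h4 (by positivity) ?_
        have : 0 ≤ w1 / s1 := by positivity
        linarith

end Crest.Agent.R136.Fl808
end

-- ▼ part R136/Fl5_808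
section

/-!
# R136 (S0187): flat tilt, the deep count in finite form (helper808)

`O` = objects (line, cell of level `i`), `P` = deep objects (line, cell of level `i + k`).
-/

set_option autoImplicit false
set_option linter.unusedVariables false
set_option linter.unusedSectionVars false

namespace Crest.Agent.R136.Fl808

open Finset Crest.Agent.R136.Sh605
open Crest.Agent.R138.Mk163 (zl rho)
open Crest.Agent.R136.Deep51 (card_fib card_le_of_fib classes_le)

/-- the object of a coarser level -/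
def par (k : ℕ) (x : ℕ × ℤ) : ℕ × ℤ := (x.1, x.2 / 2 ^ k)

theorem rho_pos (i : ℕ) : 0 < rho i := by unfold rho; positivity

theorem rho_add (i k : ℕ) : rho (i + k) * 2 ^ k = rho i := by
  unfold rho; rw [pow_add]; field_simp

theorem zl_par_le (i k : ℕ) (c : ℤ) : zl i (c / 2 ^ k) ≤ zl (i + k) c := by
  unfold zl
  rw [pow_add, div_le_div_iff₀ (by positivity) (by positivity)]
  have h1 : c / 2 ^ k * 2 ^ k ≤ c := Int.ediv_mul_le c (by positivity)
  have h2 : ((c / 2 ^ k : ℤ) : ℝ) * 2 ^ k ≤ (c : ℝ) := by exact_mod_cast h1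
  calc ((c / 2 ^ k : ℤ) : ℝ) * (2 ^ i * 2 ^ k) = (((c / 2 ^ k : ℤ) : ℝ) * 2 ^ k) * 2 ^ i := by ring
    _ ≤ (c : ℝ) * 2 ^ i := by gcongr

theorem zl_par_ge (i k : ℕ) (c : ℤ) :
    zl (i + k) c + rho (i + k) ≤ zl i (c / 2 ^ k) + rho i := by
  unfold zl rho
  rw [← add_div, ← add_div, pow_add, div_le_div_iff₀ (by positivity) (by positivity)]
  have h1 : c + 1 ≤ (c / 2 ^ k + 1) * 2 ^ k := by
    have := Int.lt_ediv_add_one_mul_self c (by positivity : (0 : ℤ) < 2 ^ k)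
    omega
  have h2 : (c : ℝ) + 1 ≤ (((c / 2 ^ k : ℤ) : ℝ) + 1) * 2 ^ k := by exact_mod_cast h1
  calc ((c : ℝ) + 1) * 2 ^ i ≤ ((((c / 2 ^ k : ℤ) : ℝ) + 1) * 2 ^ k) * 2 ^ i := by gcongr
    _ = _ := by ring

open Classical in
/-- a system of flat boxes over the cells of level `i` -/
structure FSys {α : Type*} (O : Finset (ℕ × ℤ)) (L : ℕ → Ln4) (i : ℕ) (f : ℕ × ℤ → α)
    (b : α → Ln4) (e : α → Fin 3 → V3) (a w1 w2 A : ℝ) : Prop where
  ortho : ∀ o ∈ O, Ortho (e (f o))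
  mem : ∀ o ∈ O, InB (L o.1) (b (f o)) (e (f o)) ![a, w1, w2] (zl i o.2) (rho i)
  cell : ∀ o ∈ O, ∀ o' ∈ O, f o = f o' → o.2 = o'.2
  num : ((O.image f).card : ℝ) * A ≤ (O.card : ℝ)

open Classical in
/-- D-max of the lines of `P` over the cells of level `m`, for boxes of lateral widths at least
`ω1`, `ω2` and at most `R0`, `R2`, of thickness between `r0` and `Ra` -/
def DMaxP (P : Finset (ℕ × ℤ)) (L : ℕ → Ln4) (m : ℕ) (D q0 q1 q2 r0 ω1 ω2 R0 R2 Ra : ℝ) :
    Prop :=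
  ∀ c : ℤ, DMaxW ((P.filter fun x => x.2 = c).image Prod.fst) L (zl m c) (rho m) D q0 q1 q2 r0
    ω1 ω2 R0 R2 Ra

/-- grid label of a deep object -/
noncomputable def lab {α : Type*} (L : ℕ → Ln4) (i k : ℕ) (f : ℕ × ℤ → α) (b : α → Ln4)
    (e : α → Fin 3 → V3) (s1 s2 : ℝ) (x : ℕ × ℤ) : α × ℤ × ℤ × ℤ :=
  (f (par k x), x.2, gl (e (f (par k x))) (b (f (par k x))) (zl (i + k) x.2) s1 s2 (L x.1))

section

variable {α β : Type*} {O P P' : Finset (ℕ × ℤ)} {L : ℕ → Ln4} {i : ℕ} {f : ℕ × ℤ → α}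
  {g : ℕ × ℤ → β} {bf : α → Ln4} {ef : α → Fin 3 → V3} {bg : β → Ln4} {eg : β → Fin 3 → V3}
  {a w1 w2 A1 A2 q0 q1 q2 r0 : ℝ}

open Classical in
/-- number of (class, deep cell) pairs -/
theorem card_pairs {k : ℕ} {A : ℝ} (h : FSys O L i f bf ef a w1 w2 A)
    (hP : ∀ x ∈ P, par k x ∈ O) :
    ((P.image fun x => (f (par k x), x.2)).card : ℝ) ≤ ((O.image f).card : ℝ) * 2 ^ k := by
  have h1 : (P.image fun x => (f (par k x), x.2)).card ≤
      ((O.image f) ×ˢ (range (2 ^ k))).card := by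
    refine card_le_card_of_injOn (fun y => (y.1, (y.2 % 2 ^ k).toNat)) ?_ ?_
    · intro y hy
      obtain ⟨x, hx, rfl⟩ := mem_image.1 (mem_coe.1 hy)
      have h2 : 0 ≤ x.2 % 2 ^ k := Int.emod_nonneg _ (by positivity)
      have h3 : x.2 % 2 ^ k < 2 ^ k := Int.emod_lt_of_pos _ (by positivity)
      rw [mem_coe, mem_product]
      refine ⟨mem_image_of_mem _ (hP x hx), ?_⟩
      rw [mem_range]
      zify
      rw [Int.toNat_of_nonneg h2]
      exact h3
    · intro y hy y' hy' hyy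
      obtain ⟨x, hx, rfl⟩ := mem_image.1 (mem_coe.1 hy)
      obtain ⟨x', hx', rfl⟩ := mem_image.1 (mem_coe.1 hy')
      simp only [Prod.mk.injEq] at hyy
      obtain ⟨e1, e2⟩ := hyy
      have e3 := h.cell _ (hP x hx) _ (hP x' hx') e1
      simp only [par] at e3
      have h2 : 0 ≤ x.2 % 2 ^ k := Int.emod_nonneg _ (by positivity)
      have h2' : 0 ≤ x'.2 % 2 ^ k := Int.emod_nonneg _ (by positivity)
      have e4 : x.2 % 2 ^ k = x'.2 % 2 ^ k := by
        rw [← Int.toNat_of_nonneg h2, ← Int.toNat_of_nonneg h2', e2]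
      have e5 : x.2 = x'.2 := by
        rw [← Int.ediv_mul_add_emod x.2 (2 ^ k), ← Int.ediv_mul_add_emod x'.2 (2 ^ k), e3, e4]
      simp only [Prod.mk.injEq]
      exact ⟨e1, e5⟩
  rw [card_product, card_range] at h1
  exact_mod_cast h1

open Classical in
/-- number of labels -/
theorem card_lab {k : ℕ} {A s1 s2 : ℝ} (h : FSys O L i f bf ef a w1 w2 A)
    (hP : ∀ x ∈ P, par k x ∈ O) (hs1 : 0 < s1) (hs2 : 0 < s2) (hw1 : 0 ≤ w1) (hw2 : 0 ≤ w2) :
    ((P.image (lab L i k f bf ef s1 s2)).card : ℝ) ≤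
      ((O.image f).card : ℝ) * 2 ^ k * ((2 * (w1 / s1) + 2) * (2 * (w2 / s2) + 2)) := by
  refine card_le_of_fib (P.image (lab L i k f bf ef s1 s2))
    (P.image fun x => (f (par k x), x.2)) (fun y => (y.1, y.2.1)) ?_ ?_ (card_pairs h hP) ?_
  · intro y hy
    obtain ⟨x, hx, rfl⟩ := mem_image.1 hy
    exact mem_image.2 ⟨x, hx, rfl⟩
  · have h1 : 0 ≤ w1 / s1 := by positivity
    have h2 : 0 ≤ w2 / s2 := by positivity
    positivity
  · intro y hy
    obtain ⟨x, hx, rfl⟩ := mem_image.1 hy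
    set κ := f (par k x) with hκ
    set Q := P.filter fun z => f (par k z) = κ ∧ z.2 = x.2 with hQ
    have h1 : ((P.image (lab L i k f bf ef s1 s2)).filter fun y => (y.1, y.2.1) = (κ, x.2)) ⊆
        (Q.image fun z => gl (ef κ) (bf κ) (zl (i + k) x.2) s1 s2 (L z.1)).image
          fun p => ((κ, x.2, p) : α × ℤ × ℤ × ℤ) := by
      intro y hy
      rw [mem_filter] at hy
      obtain ⟨hy1, hy2⟩ := hy
      obtain ⟨z, hz, rfl⟩ := mem_image.1 hy1
      simp only [lab, Prod.mk.injEq] at hy2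
      refine mem_image.2 ⟨gl (ef κ) (bf κ) (zl (i + k) x.2) s1 s2 (L z.1),
        mem_image.2 ⟨z, mem_filter.2 ⟨hz, hy2⟩, rfl⟩, ?_⟩
      simp only [lab, hy2.1, hy2.2]
    have h2 := (card_le_card h1).trans card_image_le
    refine le_trans (Nat.cast_le.2 h2) ?_
    have hz := zl_par_le i k x.2
    have hz' := zl_par_ge i k x.2
    have := rho_pos (i + k)
    refine grid_card (z0 := zl i (x.2 / 2 ^ k)) (ρ := rho i) (a := a) Q (fun z => L z.1) hs1 hs2 hw1
      hw2 hz (by linarith) ?_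
    intro z hzQ
    obtain ⟨hzP, hz1, hz2⟩ := mem_filter.1 hzQ
    have h3 := h.mem _ (hP z hzP)
    rw [hz1] at h3
    simp only [par] at h3
    rw [hz2] at h3
    exact h3

/-- the two boxes of an object with base tilt about `lam` and thickness tilt at most `1 / alp` -/
structure Tl (e e' : Fin 3 → V3) (a w1 w2 lam alp : ℝ) : Prop where
  lo : lam = 1 ∨ lam * w2 ≤ 2 * (|dt (e' 2) (e 1)| * w1) ∨
    lam * w2 ≤ 2 * (|dt (e' 0) (e 1)| * w1)
  h12 : |dt (e' 1) (e 2)| * w1 ≤ 2 * (lam * w2)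
  h10 : alp * (|dt (e' 1) (e 0)| * w1) ≤ a
  h20 : alp * lam * (|dt (e' 2) (e 0)| * w2) ≤ a

/-- the difference of two common lines is short in the direction `e 1` -/
theorem Tl.short {e e' : Fin 3 → V3} {lam alp : ℝ} (h : Tl e e' a w1 w2 lam alp) (he : Ortho e)
    (he' : Ortho e') (ha : 0 < a) (haw : a ≤ w2) (hw : w2 ≤ w1) (hlam : 0 < lam) {t t' l l' : Ln4}
    {z0 ρ : ℝ} (h1 : InB t l e ![a, w1, w2] z0 ρ) (h2 : InB t' l e ![a, w1, w2] z0 ρ)
    (h3 : InB t l' e' ![a, w1, w2] z0 ρ) (h4 : InB t' l' e' ![a, w1, w2] z0 ρ) {z : ℝ}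
    (hz0 : z0 ≤ z) (hz1 : z ≤ z0 + ρ) : |dt (e 1) (t.pos z - t'.pos z)| ≤ 12 * w1 / lam := by
  have hw2 : 0 < w2 := ha.trans_le haw
  have hw1 : 0 < w1 := hw2.trans_le hw
  have d := diff_box h1 h2 z hz0 hz1
  have d' := diff_box h3 h4 z hz0 hz1
  set u := t.pos z - t'.pos z with hu
  have d0 := d 0
  have d1 := d 1
  have d2 := d 2
  have d0' := d' 0
  have d2' := d' 2
  simp only [Matrix.cons_val_zero, Matrix.cons_val_one, Matrix.cons_val] at d0 d1 d2 d0' d2'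
  -- a row whose second entry is big
  have key : ∀ j : Fin 3, |dt (e' j) u| ≤ 2 * w2 → lam * w2 ≤ 2 * (|dt (e' j) (e 1)| * w1) →
      |dt (e 1) u| ≤ 12 * w1 / lam := by
    intro j hj hlo
    have e1 := dt_expand he (e' j) u
    have e2 : |dt (e' j) (e 1)| * |dt (e 1) u| ≤ 6 * w2 := by
      rw [← abs_mul]
      have : dt (e' j) (e 1) * dt (e 1) u = dt (e' j) u - dt (e' j) (e 0) * dt (e 0) u -
          dt (e' j) (e 2) * dt (e 2) u := by rw [e1]; ring
      rw [this]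
      have b0 := abs_dt_le_one he he' j 0
      have b2 := abs_dt_le_one he he' j 2
      have c0 : |dt (e' j) (e 0) * dt (e 0) u| ≤ 2 * a := by
        rw [abs_mul]
        calc |dt (e' j) (e 0)| * |dt (e 0) u| ≤ 1 * (2 * a) := by gcongr
          _ = _ := by ring
      have c2 : |dt (e' j) (e 2) * dt (e 2) u| ≤ 2 * w2 := by
        rw [abs_mul]
        calc |dt (e' j) (e 2)| * |dt (e 2) u| ≤ 1 * (2 * w2) := by gcongr
          _ = _ := by ring
      have := abs_sub (dt (e' j) u - dt (e' j) (e 0) * dt (e 0) u) (dt (e' j) (e 2) * dt (e 2) u)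
      have := abs_sub (dt (e' j) u) (dt (e' j) (e 0) * dt (e 0) u)
      linarith
    rw [le_div_iff₀ hlam]
    have h5 : |dt (e 1) u| * lam * w2 ≤ 12 * w1 * w2 := by
      calc |dt (e 1) u| * lam * w2 = |dt (e 1) u| * (lam * w2) := by ring
        _ ≤ |dt (e 1) u| * (2 * (|dt (e' j) (e 1)| * w1)) := by gcongr
        _ = 2 * w1 * (|dt (e' j) (e 1)| * |dt (e 1) u|) := by ring
        _ ≤ 2 * w1 * (6 * w2) := by gcongr
        _ = _ := by ring
    exact le_of_mul_le_mul_right h5 hw2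
  rcases h.lo with h5 | h5 | h5
  · rw [h5, div_one]; linarith
  · exact key 2 d2' h5
  · exact key 0 (d0'.trans (by linarith)) h5


end

end Crest.Agent.R136.Fl808
end

-- ▼ part R136/Fl6_808

/-!
# R136 (S0187): flat tilt, the two finite theorems (helper808)

* `flat_deep` : base tilt, counting at two deeper levels.
* `flat_step` : thickness tilt, one-step count over the cells of length `ρ / λ`.
-/

set_option autoImplicit false
set_option linter.unusedVariables false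
set_option linter.unusedSectionVars false

namespace Crest.Agent.R136.Fl808

open Finset Crest.Agent.R136.Sh605
open Crest.Agent.R138.Mk163 (zl rho)
open Crest.Agent.R136.Deep51 (card_fib card_le_of_fib classes_le)

section

variable {α β : Type*} {O P P' : Finset (ℕ × ℤ)} {L : ℕ → Ln4} {i : ℕ} {f : ℕ × ℤ → α}
  {g : ℕ × ℤ → β} {bf : α → Ln4} {ef : α → Fin 3 → V3} {bg : β → Ln4} {eg : β → Fin 3 → V3}
  {a w1 w2 A1 A2 q0 q1 q2 r0 R0 R0' R2 R2' Ra Ra' D D' δ0 ω1 ω2 ω1' ω2' : ℝ}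


open Classical in
/-- number of classes -/
theorem FSys.num' {γ : Type*} {F : ℕ × ℤ → γ} {bF : γ → Ln4} {eF : γ → Fin 3 → V3} {A : ℝ}
    (hF : FSys O L i F bF eF a w1 w2 A) (hA : 0 < A) :
    ((O.image F).card : ℝ) ≤ (O.card : ℝ) / A := by
  rw [le_div_iff₀ hA]
  exact hF.num

/-- the box of a label -/
theorem lab_box {γ : Type*} {F : ℕ × ℤ → γ} {bF : γ → Ln4} {eF : γ → Fin 3 → V3} {A s1 s2 : ℝ}
    {k : ℕ} (hF : FSys O L i F bF eF a w1 w2 A) (hP : ∀ x ∈ P, par k x ∈ O) (hs1 : 0 < s1)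
    (hs2 : 0 < s2) (h1 : w1 ≤ 2 ^ k * s1) (h2 : w2 ≤ 2 ^ k * s2) {x y : ℕ × ℤ} (hx : x ∈ P)
    (hy : y ∈ P) (hxy : lab L i k F bF eF s1 s2 y = lab L i k F bF eF s1 s2 x) :
    y.2 = x.2 ∧ F (par k y) = F (par k x) ∧
      InB (L y.1) (L x.1) (eF (F (par k x))) ![2 * a, 5 * s1, 5 * s2] (zl (i + k) x.2)
        (rho (i + k)) := by
  have e1 : F (par k y) = F (par k x) := congrArg Prod.fst hxy
  have e2 : y.2 = x.2 := congrArg (fun p => p.2.1) hxy
  have e3 : gl (eF (F (par k y))) (bF (F (par k y))) (zl (i + k) y.2) s1 s2 (L y.1) =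
      gl (eF (F (par k x))) (bF (F (par k x))) (zl (i + k) x.2) s1 s2 (L x.1) :=
    congrArg (fun p => p.2.2) hxy
  have m1 := hF.mem _ (hP x hx)
  have m2 := hF.mem _ (hP y hy)
  rw [e1, e2] at e3
  rw [e1] at m2
  have e4 : (par k y).2 = (par k x).2 := by simp only [par, e2]
  rw [e4] at m2
  refine ⟨e2, e1, ?_⟩
  have hz := zl_par_le i k x.2
  have hz' := zl_par_ge i k x.2
  have hρi := rho_add i k
  have hρp := rho_pos (i + k)
  refine grid_box (z0 := zl i (par k x).2) (ρ := rho i) (rho_pos i) hρp.le hs1 hs2 hz hz' ?_ ?_ m2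
    m1 e3
  · rw [← hρi]
    calc rho (i + k) * w1 ≤ rho (i + k) * (2 ^ k * s1) := by gcongr
      _ = _ := by ring
  · rw [← hρi]
    calc rho (i + k) * w2 ≤ rho (i + k) * (2 ^ k * s2) := by gcongr
      _ = _ := by ring



variable {j k' k : ℕ} {s1 s2 : ℝ}

/-- the parameters of the deep count -/
structure DPar (a w1 w2 s1 s2 : ℝ) (j k' k : ℕ) : Prop where
  ha : 0 < a
  haw : a ≤ w2
  hw : w2 ≤ w1
  hk : k = k' + j
  hs1 : s1 = 16 * (w1 / 2 ^ k)
  hs2 : s2 = 8 * (w2 / 2 ^ k')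
  hlw : (2:ℝ) ^ j * w2 ≤ 2 * w1
  hleg : a * 2 ^ k' ≤ 8 * w2

namespace DPar

variable (H : DPar a w1 w2 s1 s2 j k' k)
include H

theorem w2p : 0 < w2 := H.ha.trans_le H.haw
theorem w1p : 0 < w1 := H.w2p.trans_le H.hw
theorem s1p : 0 < s1 := by rw [H.hs1]; have := H.w1p; positivity
theorem s2p : 0 < s2 := by rw [H.hs2]; have := H.w2p; positivity
theorem pw : (2:ℝ) ^ k = 2 ^ k' * 2 ^ j := by rw [H.hk, pow_add]
theorem s1' : s1 = 16 * (1 / 2 ^ k * w1) := by rw [H.hs1]; ring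
theorem s2' : s2 = 8 * (1 / 2 ^ k * 2 ^ j * w2) := by rw [H.hs2, H.pw]; field_simp
theorem k1 : w1 ≤ 2 ^ k * s1 := by
  have : 2 ^ k * s1 = 16 * w1 := by rw [H.hs1]; field_simp
  linarith [H.w1p]
theorem k2 : w2 ≤ 2 ^ k * s2 := by
  have e : 2 ^ k * s2 = 8 * 2 ^ j * w2 := by rw [H.hs2, H.pw]; field_simp
  have h4 : (1:ℝ) ≤ 2 ^ j := one_le_pow₀ (by norm_num)
  rw [e]
  nlinarith [H.w2p]
theorem nb : (2 * (w1 / s1) + 2) * (2 * (w2 / s2) + 2) ≤ 9 * (2 ^ k * 2 ^ k') := by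
  have h1 := H.w1p
  have h2 := H.w2p
  have e1 : 2 * (w1 / s1) + 2 ≤ 3 * 2 ^ k := by
    have : w1 / s1 = 2 ^ k / 16 := by rw [H.hs1]; field_simp
    rw [this]
    have : (1:ℝ) ≤ 2 ^ k := one_le_pow₀ (by norm_num)
    linarith
  have e2 : 2 * (w2 / s2) + 2 ≤ 3 * 2 ^ k' := by
    have : w2 / s2 = 2 ^ k' / 8 := by rw [H.hs2]; field_simp
    rw [this]
    have : (1:ℝ) ≤ 2 ^ k' := one_le_pow₀ (by norm_num)
    linarith
  have h3 := H.s1p
  have h4 := H.s2p
  calc (2 * (w1 / s1) + 2) * (2 * (w2 / s2) + 2) ≤ (3 * 2 ^ k) * (3 * 2 ^ k') := by gcongr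
    _ = _ := by ring

end DPar




end

end Crest.Agent.R136.Fl808
namespace Crest.Agent.R136.Fl808.Tl
end Crest.Agent.R136.Fl808.Tl
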