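import Crest.Agent.R136.Coi1_102
import Crest.Agent.R136.Cap3_102
import Crest.Agent.R136.Fn1_880
import Crest.Agent.R136.KapP_335
import Crest.Agent.R136.Tlt1_51

-- ▼ part R136/Coi2_102
section

/-!
# R136 (S0187): two sheets through a common line, transition of tangent coordinates II (helper102)
-/

set_option autoImplicit false

namespace Crest.Agent.R136.Tl102

open Crest.Agent.R136.Sh605

section two

variable {e : Fin 3 → V3} {c : Ln4} {w : V3} {q : ℝ → V3 → ℝ} {e' : Fin 3 → V3} {c' : Ln4}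
  {w' : V3} {q' : ℝ → V3 → ℝ} {T : Ln4} {z0 ρ a a' : ℝ} {b0 b1 : V3} {G : QF}
  {b0' b1' : V3} {G' : QF} {d0 d1 : V3} {H : QF} {B lam : ℝ}

/-! ### transition of the tangent vectors -/

/-- tangent vectors of the second sheet at `T` (lower end of the cell) -/
noncomputable def tg (e' : Fin 3 → V3) (w' d0 : V3) (k : Fin 3) : V3 :=
  w' k • e' k - (d0 k / d0 0 * w' 0) • e' 0

theorem tg_split (he' : Ortho e') (hw' : ∀ k, w' k ≠ 0) (d0 V : V3) :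
    V = (w' 0 * yc d0 (pv e' w' V)) • e' 0 +
      (pv e' w' V 1 • tg e' w' d0 1 + pv e' w' V 2 • tg e' w' d0 2) := by
  have h := cmb_pv he' hw' V
  generalize pv e' w' V = x at h ⊢
  conv_lhs => rw [← h]
  ext i
  simp only [cmb, fr, tg, yc, Pi.add_apply, Pi.sub_apply, Pi.smul_apply, smul_eq_mul]
  ring

theorem tv_split (he' : Ortho e') (hw' : ∀ k, w' k ≠ 0) (κ : ℝ) (b0 : V3) (e : Fin 3 → V3)
    (w d0 V : V3) (k : Fin 3) : tv κ b0 e w V k =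
      w' 0 * yc d0 (pv e' w' V) * tv κ b0 e w (e' 0) k +
        (pv e' w' V 1 * tv κ b0 e w (tg e' w' d0 1) k +
          pv e' w' V 2 * tv κ b0 e w (tg e' w' d0 2) k) := by
  conv_lhs => rw [tg_split he' hw' d0 V]
  rw [tv_add, tv_add, tv_smul, tv_smul, tv_smul]
  rfl

theorem pv_tg (he' : Ortho e') (hw' : ∀ k, w' k ≠ 0) {d0 : V3} (hd : d0 0 ≠ 0) {k : Fin 3}
    (hk : k ≠ 0) : dt d0 (pv e' w' (tg e' w' d0 k)) = 0 := by
  have h : ∀ j, pv e' w' (tg e' w' d0 k) j =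
      (w' k * (if j = k then 1 else 0) - d0 k / d0 0 * w' 0 * (if j = 0 then 1 else 0)) / w' j := by
    intro j
    have h1 := he' j k
    have h2 := he' j 0
    simp only [pv, tg, dt_sub, dt_smul, h1, h2]
  have h0 := hw' 0
  fin_cases k
  · exact absurd rfl hk
  · have h1 := hw' 1
    simp only [dt, h]
    simp
    field_simp
    ring
  · have h1 := hw' 2
    simp only [dt, h]
    simp
    field_simp
    ring

/-- lateral coordinates of the tangent vectors -/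
theorem Two.tg_le (D : Two e c w q e' c' w' q' T z0 ρ a a' b0 b1 G b0' b1' G' d0 d1 H B lam)
    (κ : ℝ) {k : Fin 3} (hk : k ≠ 0) : |tv κ b0 e w (tg e' w' d0 k) 1| ≤ 3 * (B * lam) ∧
      |tv κ b0 e w (tg e' w' d0 k) 2| ≤ 3 * (B * lam) := by
  obtain ⟨-, -, -, -, -, -, -, s1, s2⟩ := D.nrm'.b1_le
  have hw0 := D.S.pos 0
  have hw1 := D.S.pos 1
  have hw2 := D.S.pos 2
  have hw0' := D.S'.pos 0
  have hw1' := D.S'.pos 1
  have hw2' := D.S'.pos 2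
  have hB := D.B1
  have hlam := D.lam1
  have hs : |d0 k / d0 0| ≤ 2 := by
    fin_cases k
    · exact absurd rfl hk
    · exact s1
    · exact s2
  have hBl : B ≤ B * lam := le_mul_of_one_le_right (by linarith) hlam
  have hgen : ∀ j, |dt (e j) (tg e' w' d0 k)| ≤ |dt (e j) (e' k)| * w' k + 2 * w' 0 := by
    intro j
    rw [tg, dt_sub, dt_smul, dt_smul]
    refine (abs_sub _ _).trans (add_le_add ?_ ?_)
    · rw [abs_mul, abs_of_pos (D.S'.pos k), mul_comm]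
    · rw [abs_mul, abs_mul, abs_of_pos hw0']
      have h1 := dt_le_one D.S.ortho D.S'.ortho j 0
      have h2 : |d0 k / d0 0| * w' 0 * |dt (e j) (e' 0)| ≤ 2 * w' 0 * 1 := by gcongr
      linarith
  have h1 := hgen 1
  have h2 := hgen 2
  have u1 := dt_le_one D.S.ortho D.S'.ortho 1 k
  have w1B := D.wB1
  have w2B := D.wB2
  have w02' := D.w02'
  have w21' := D.w21'
  have w21 := D.w21
  constructor
  · change |dt (e 1) (tg e' w' d0 k) / w 1| ≤ _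
    rw [abs_div, abs_of_pos hw1, div_le_iff₀ hw1]
    have h3 : |dt (e 1) (e' k)| * w' k ≤ 1 * w' 1 := by
      apply mul_le_mul u1 _ (D.S'.pos k).le zero_le_one
      fin_cases k
      · exact absurd rfl hk
      · exact le_rfl
      · exact w21'
    have h4 : B * w 1 ≤ B * lam * w 1 := mul_le_mul_of_nonneg_right hBl hw1.le
    linarith
  · change |dt (e 2) (tg e' w' d0 k) / w 2| ≤ _
    rw [abs_div, abs_of_pos hw2, div_le_iff₀ hw2]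
    have h4 : B * w 2 ≤ B * lam * w 2 := mul_le_mul_of_nonneg_right hBl hw2.le
    have h3 : |dt (e 2) (e' k)| * w' k ≤ B * lam * w 2 := by
      fin_cases k
      · exact absurd rfl hk
      · change |dt (e 2) (e' 1)| * w' 1 ≤ _
        calc |dt (e 2) (e' 1)| * w' 1 ≤ |dt (e 2) (e' 1)| * (B * w 1) :=
              mul_le_mul_of_nonneg_left w1B (abs_nonneg _)
          _ = B * (|dt (e 2) (e' 1)| * w 1) := by ring
          _ ≤ B * (lam * w 2) := mul_le_mul_of_nonneg_left D.tilt (by linarith)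
          _ = _ := by ring
      · change |dt (e 2) (e' 2)| * w' 2 ≤ _
        have u2 := dt_le_one D.S.ortho D.S'.ortho 2 2
        have := mul_le_mul_of_nonneg_right u2 hw2'.le
        linarith
    linarith

/-- **normal coordinate of the tangent vectors** -/
theorem Two.tg_zero (D : Two e c w q e' c' w' q' T z0 ρ a a' b0 b1 G b0' b1' G' d0 d1 H B lam)
    {κ X Y Z : ℝ} (hκ : 0 < κ) (O : OmB κ X Y Z b0 b1 G b0' b1' G')
    (hX : 8 * (X * (w 0 * κ)) ≤ w 2) {k : Fin 3} (hk : k ≠ 0) :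
    |tv κ b0 e w (tg e' w' d0 k) 0| ≤ 192 * (X * (B * lam)) := by
  have hwne : ∀ i, w i ≠ 0 := fun i => (D.S.pos i).ne'
  have hwne' : ∀ i, w' i ≠ 0 := fun i => (D.S'.pos i).ne'
  obtain ⟨g1, g2, -, -, -, -, -, -, -⟩ := D.nrm.b1_le
  obtain ⟨g1', g2', -, -, -, -, -, -, -⟩ := D.nrm'.b1_le
  have hb0 : b0 0 ≠ 0 := by linarith
  have hm := D.le_m hκ O hX
  have h := (cross D.S.ortho D.S'.ortho hwne hwne' D.hE' D.hH (tg e' w' d0 k)).1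
  rw [pv_tg D.S'.ortho hwne' (by linarith) hk, mul_zero] at h
  have h1 := (mul_eq_zero.1 h).resolve_left (hwne 0)
  rw [grad' hb0 hκ.ne' e w b0'] at h1
  have h2 := (mul_eq_zero.1 h1).resolve_left hκ.ne'
  obtain ⟨t1, t2⟩ := D.tg_le κ hk
  set p := tv κ b0 e w (tg e' w' d0 k) with hp
  have h3 : |b0' 0 / b0 0 * (b0 0 * p 0)| ≤ X * (3 * (B * lam)) + X * (3 * (B * lam)) := by
    have : b0' 0 / b0 0 * (b0 0 * p 0) = -(om0 κ b0 b0' 1 * p 1 + om0 κ b0 b0' 2 * p 2) := by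
      linarith
    rw [this, abs_neg]
    exact Arc880.abs_add2 (mul_abs_le O.h01 t1) (mul_abs_le O.h02 t2)
  rw [abs_mul, abs_mul, abs_of_pos (by linarith : 0 < b0 0)] at h3
  have h4 : 1 / 16 * (1 / 2 * |p 0|) ≤ |b0' 0 / b0 0| * (b0 0 * |p 0|) := by
    apply mul_le_mul hm _ (by positivity) (abs_nonneg _)
    exact mul_le_mul_of_nonneg_right g1 (abs_nonneg _)
  linarith

/-- coordinates of the normal vector -/
theorem Two.nv_le (D : Two e c w q e' c' w' q' T z0 ρ a a' b0 b1 G b0' b1' G' d0 d1 H B lam)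
    {κ : ℝ} (hκ : 0 < κ) : |tv κ b0 e w (e' 0) 0| ≤ 5 / (w 0 * κ) ∧
      |tv κ b0 e w (e' 0) 1| ≤ 1 / w 2 ∧ |tv κ b0 e w (e' 0) 2| ≤ 1 / w 2 := by
  obtain ⟨-, -, -, -, -, -, -, s1, s2⟩ := D.nrm.b1_le
  have hw0 := D.S.pos 0
  have hw1 := D.S.pos 1
  have hw2 := D.S.pos 2
  have h1 : |dt (e 1) (e' 0) / w 1| ≤ 1 / w 2 := by
    rw [abs_div, abs_of_pos hw1]
    calc |dt (e 1) (e' 0)| / w 1 ≤ 1 / w 1 :=
          div_le_div_of_nonneg_right (dt_le_one D.S.ortho D.S'.ortho 1 0) hw1.le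
      _ ≤ 1 / w 2 := one_div_le_one_div_of_le hw2 D.w21
  have h2 : |dt (e 2) (e' 0) / w 2| ≤ 1 / w 2 := by
    rw [abs_div, abs_of_pos hw2]
    exact div_le_div_of_nonneg_right (dt_le_one D.S.ortho D.S'.ortho 2 0) hw2.le
  have h0 : |dt (e 0) (e' 0) / w 0| ≤ 1 / w 0 := by
    rw [abs_div, abs_of_pos hw0]
    exact div_le_div_of_nonneg_right (dt_le_one D.S.ortho D.S'.ortho 0 0) hw0.le
  refine ⟨?_, h1, h2⟩
  change |(dt (e 0) (e' 0) / w 0 + b0 1 / b0 0 * (dt (e 1) (e' 0) / w 1) +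
    b0 2 / b0 0 * (dt (e 2) (e' 0) / w 2)) / κ| ≤ _
  have h3 : 1 / w 2 ≤ 1 / w 0 := one_div_le_one_div_of_le hw0 D.w02
  have h4 := Arc880.abs_add2 (Arc880.abs_add2 h0 (mul_abs_le s1 (h1.trans h3)))
    (mul_abs_le s2 (h2.trans h3))
  rw [abs_div, abs_of_pos hκ]
  calc _ ≤ (1 / w 0 + 2 * (1 / w 0) + 2 * (1 / w 0)) / κ := div_le_div_of_nonneg_right h4 hκ.le
    _ = 5 / (w 0 * κ) := by field_simp; ring

/-- **transition of coordinates**: `d` = distance to the tangent plane of the second sheet -/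
theorem Two.coords (D : Two e c w q e' c' w' q' T z0 ρ a a' b0 b1 G b0' b1' G' d0 d1 H B lam)
    {κ X Y Z : ℝ} (hκ : 0 < κ) (O : OmB κ X Y Z b0 b1 G b0' b1' G')
    (hX : 8 * (X * (w 0 * κ)) ≤ w 2) {V : V3} {d r : ℝ} (hd : w' 0 * |yc d0 (pv e' w' V)| ≤ d)
    (h1 : |pv e' w' V 1| ≤ r) (h2 : |pv e' w' V 2| ≤ r) :
    |tv κ b0 e w V 0| ≤ 5 * d / (w 0 * κ) + 384 * (r * (X * (B * lam))) ∧
      |tv κ b0 e w V 1| ≤ d / w 2 + 6 * (r * (B * lam)) ∧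
      |tv κ b0 e w V 2| ≤ d / w 2 + 6 * (r * (B * lam)) := by
  have hwne' : ∀ i, w' i ≠ 0 := fun i => (D.S'.pos i).ne'
  obtain ⟨n0, n1, n2⟩ := D.nv_le hκ
  have p1 := D.tg_le κ (k := 1) (by decide)
  have p2 := D.tg_le κ (k := 2) (by decide)
  have q1 := D.tg_zero hκ O hX (k := 1) (by decide)
  have q2 := D.tg_zero hκ O hX (k := 2) (by decide)
  have hd' : |w' 0 * yc d0 (pv e' w' V)| ≤ d := by
    rw [abs_mul, abs_of_pos (D.S'.pos 0)]; exact hd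
  have s := tv_split D.S'.ortho hwne' κ b0 e w d0 V
  refine ⟨?_, ?_, ?_⟩
  · rw [s 0]
    exact (Arc880.abs_add2 (mul_abs_le hd' n0) (Arc880.abs_add2 (mul_abs_le h1 q1)
      (mul_abs_le h2 q2))).trans (le_of_eq (by ring))
  · rw [s 1]
    exact (Arc880.abs_add2 (mul_abs_le hd' n1) (Arc880.abs_add2 (mul_abs_le h1 p1.1)
      (mul_abs_le h2 p2.1))).trans (le_of_eq (by ring))
  · rw [s 2]
    exact (Arc880.abs_add2 (mul_abs_le hd' n2) (Arc880.abs_add2 (mul_abs_le h1 p1.2)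
      (mul_abs_le h2 p2.2))).trans (le_of_eq (by ring))

/-- the curvature extent from the values on the tangent plane -/
theorem kap_of_values {d0 d1 : V3} {H : QF} {ω W : ℝ} (hω : 0 < ω)
    (h : ∀ ζ u v : ℝ, 0 ≤ ζ → ζ ≤ 1 → |u| ≤ 1 → |v| ≤ 1 →
      |ω * Fq (shB0 d0) (shB1 d0 d1) (shG d0 H) ζ ![0, u, v]| ≤ W) : ω * kap d0 d1 H ≤ W := by
  have f : ∀ ζ u v : ℝ, ω * Fq (shB0 d0) (shB1 d0 d1) (shG d0 H) ζ ![0, u, v] =
      ω * (ζ * (shB1 d0 d1 1 * u + shB1 d0 d1 2 * v) + ((shG d0 H).uu * u ^ 2 +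
        (shG d0 H).uv * (u * v) + (shG d0 H).vv * v ^ 2)) := by
    intro ζ u v
    simp only [Fq, dt, bz, QF.ev, shB0, Matrix.cons_val]; ring
  have a0 : |(0 : ℝ)| ≤ 1 := by norm_num
  have a1 : |(1 : ℝ)| ≤ 1 := by norm_num
  have a2 : |(-1 : ℝ)| ≤ 1 := by norm_num
  have h1 := h 0 1 0 le_rfl zero_le_one a1 a0
  have h2 := h 0 0 1 le_rfl zero_le_one a0 a1
  have h3 := h 0 1 1 le_rfl zero_le_one a1 a1
  have h4 := h 0 1 (-1) le_rfl zero_le_one a1 a2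
  have h5 := h 1 1 0 zero_le_one le_rfl a1 a0
  have h6 := h 1 (-1) 0 zero_le_one le_rfl a2 a0
  have h7 := h 1 0 1 zero_le_one le_rfl a0 a1
  have h8 := h 1 0 (-1) zero_le_one le_rfl a0 a2
  rw [f, abs_le] at h1 h2 h3 h4 h5 h6 h7 h8
  have g : ∀ x : ℝ, -W ≤ ω * x → ω * x ≤ W → |x| ≤ W / ω := by
    intro x k1 k2
    have k3 : |ω * x| ≤ W := abs_le.2 ⟨k1, k2⟩
    rw [abs_mul, abs_of_pos hω] at k3
    rw [le_div_iff₀ hω]
    linarith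
  have k : kap d0 d1 H ≤ W / ω := by
    refine max_le (max_le ?_ ?_) (max_le (max_le ?_ ?_) ?_) <;> apply g <;>
      linarith [h1.1, h1.2, h2.1, h2.2, h3.1, h3.2, h4.1, h4.2, h5.1, h5.2, h6.1, h6.2, h7.1, h7.2,
        h8.1, h8.2]
  rw [le_div_iff₀ hω] at k
  linarith

/-- **the curvature extents of the two sheets** -/
theorem Two.kap_le (D : Two e c w q e' c' w' q' T z0 ρ a a' b0 b1 G b0' b1' G' d0 d1 H B lam)
    {κ X Y Z : ℝ} (hκ : 0 < κ) (hk : kap b0 b1 G ≤ κ) (hκ1 : κ ≤ 13)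
    (O : OmB κ X Y Z b0 b1 G b0' b1' G') (hX : 8 * (X * (w 0 * κ)) ≤ w 2) :
    w' 0 * kap d0 d1 H ≤
      2 * 10 ^ 8 * ((1 + X + Y + Z) * (1 + X) ^ 2 * (B * lam) ^ 2) * (w 0 * κ) := by
  have hwne : ∀ i, w i ≠ 0 := fun i => (D.S.pos i).ne'
  have hwne' : ∀ i, w' i ≠ 0 := fun i => (D.S'.pos i).ne'
  obtain ⟨g1, g2, -, -, -, -, -, -, -⟩ := D.nrm.b1_le
  obtain ⟨g1', g2', -, -, -, -, -, -, -⟩ := D.nrm'.b1_le
  have hb0 : b0 0 ≠ 0 := by linarith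
  have hd0 : d0 0 ≠ 0 := by linarith
  obtain ⟨X0, Y0, Z0⟩ := O.nonneg
  have hwk : 0 < w 0 * κ := mul_pos (D.S.pos 0) hκ
  have hBl : 1 ≤ B * lam := one_le_mul_of_one_le_of_one_le D.B1 D.lam1
  apply kap_of_values (D.S'.pos 0)
  intro ζ u v hζ hζ' hu hv
  set V : V3 := u • tg e' w' d0 1 + v • tg e' w' d0 2 with hV
  have hpv : pv e' w' V = unsh d0 0 u v := by
    have h : ∀ j, pv e' w' V j = (u * (w' 1 * (if j = 1 then 1 else 0) -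
        d0 1 / d0 0 * w' 0 * (if j = 0 then 1 else 0)) + v * (w' 2 * (if j = 2 then 1 else 0) -
        d0 2 / d0 0 * w' 0 * (if j = 0 then 1 else 0))) / w' j := by
      intro j
      have h1 := D.S'.ortho j 1
      have h2 := D.S'.ortho j 2
      have h3 := D.S'.ortho j 0
      simp only [pv, hV, tg, dt_add, dt_sub, dt_smul, h1, h2, h3]
    have k0 := hwne' 0
    have k1 := hwne' 1
    have k2 := hwne' 2
    ext j
    rw [h]
    fin_cases j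
    · change _ = 0 - d0 1 / d0 0 * u - d0 2 / d0 0 * v
      simp
      field_simp
      ring
    · change _ = u
      simp
      field_simp
    · change _ = v
      simp
      field_simp
  have hX1 := D.hH ζ (pv e' w' V)
  rw [cmb_pv D.S'.ortho hwne'] at hX1
  have e1 := om_val D.S.ortho hwne D.hE D.hE' hκ.ne' ζ (T.pos (z0 + ρ * ζ) + V)
  have e2 := own_val D.S.ortho hwne D.hE hb0 hκ.ne' ζ (T.pos (z0 + ρ * ζ) + V)
  rw [add_sub_cancel_left] at e1 e2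
  rw [e2, hX1, hpv, Fq_unsh hd0] at e1
  set m := b0' 0 / b0 0 with hm
  have e3 : w' 0 * Fq (shB0 d0) (shB1 d0 d1) (shG d0 H) ζ ![0, u, v] =
      w 0 * κ * (m * Fq (shB0 b0) (scB1 κ b0 b1) (scG κ b0 G) ζ (tv κ b0 e w V) +
        Fq (om0 κ b0 b0') (om1 κ b0 b1 b0' b1') (omM κ b0 G b0' G') ζ (tv κ b0 e w V)) := by
    linarith
  rw [e3, abs_mul, abs_of_pos hwk]
  -- coordinates of `V`
  have p1 := D.tg_le κ (k := 1) (by decide)
  have p2 := D.tg_le κ (k := 2) (by decide)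
  have q1 := D.tg_zero hκ O hX (k := 1) (by decide)
  have q2 := D.tg_zero hκ O hX (k := 2) (by decide)
  set R := 384 * ((1 + X) * (B * lam)) with hR
  have hR1 : 1 ≤ R := by
    have : 1 ≤ (1 + X) * (B * lam) := one_le_mul_of_one_le_of_one_le (by linarith) hBl
    rw [hR]; linarith
  have hV' : ∀ k, tv κ b0 e w V k = u * tv κ b0 e w (tg e' w' d0 1) k +
      v * tv κ b0 e w (tg e' w' d0 2) k := by
    intro k
    rw [hV, tv_add, tv_smul, tv_smul]; rfl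
  have hXB : 0 ≤ X * (B * lam) := by positivity
  have hRe : R = 384 * (X * (B * lam)) + 384 * (B * lam) := by rw [hR]; ring
  have hc : ∀ k, |tv κ b0 e w V k| ≤ R := by
    intro k
    rw [hV' k]
    fin_cases k
    · exact (Arc880.abs_add2 (mul_abs_le hu q1) (mul_abs_le hv q2)).trans (by linarith)
    · exact (Arc880.abs_add2 (mul_abs_le hu p1.1) (mul_abs_le hv p2.1)).trans (by linarith)
    · exact (Arc880.abs_add2 (mul_abs_le hu p1.2) (mul_abs_le hv p2.2)).trans (by linarith)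
  have hζa : |ζ| ≤ 1 := by rw [abs_of_nonneg hζ]; exact hζ'
  obtain ⟨c1, c2, c3⟩ := D.nrm.sc_le' hκ hk hκ1
  have f1 := Fq_le c1 c2 c3 hζa hc hR1
  have f2 := O.le hb0 hζa (hc 0) (hc 1) (hc 2)
  have f3 := Arc880.abs_add2 (mul_abs_le D.m_le f1) f2
  have hRR : R ≤ R ^ 2 := by nlinarith
  have hR2 : 0 ≤ R ^ 2 := by positivity
  have f4 : 8 * (12 * R ^ 2 * 13) + (Y * R + Z * (R ^ 2 + 2 * (R * R)) + X * (4 * R + 3 * R ^ 2)) ≤
      1300 * ((1 + X + Y + Z) * R ^ 2) := by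
    have k1 : Y * R ≤ Y * R ^ 2 := mul_le_mul_of_nonneg_left hRR Y0
    have k2 : X * R ≤ X * R ^ 2 := mul_le_mul_of_nonneg_left hRR X0
    have k3 : 0 ≤ X * R ^ 2 := by positivity
    have k4 : 0 ≤ Y * R ^ 2 := by positivity
    have k5 : 0 ≤ Z * R ^ 2 := by positivity
    have k6 : R * R = R ^ 2 := by ring
    rw [k6]
    linarith
  calc w 0 * κ * _ ≤ w 0 * κ * (1300 * ((1 + X + Y + Z) * R ^ 2)) :=
        mul_le_mul_of_nonneg_left (f3.trans f4) hwk.le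
    _ = (1300 * 384 ^ 2) * ((1 + X + Y + Z) * (1 + X) ^ 2 * (B * lam) ^ 2) * (w 0 * κ) := by
        rw [hR]; ring
    _ ≤ _ := by
        have k5 : 0 ≤ (1 + X + Y + Z) * (1 + X) ^ 2 * (B * lam) ^ 2 := by positivity
        have k6 := mul_nonneg k5 hwk.le
        nlinarith

end two

end Crest.Agent.R136.Tl102
end

-- ▼ part R136/Coi3_102
section

/-!
# R136 (S0187): pencil lemma and capture, coefficient form (helper102)
-/

set_option autoImplicit false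

namespace Crest.Agent.R136.Tl102

open Crest.Agent.R136.Sh605
open Crest.Agent.R136.Arc880

/-- constant of the coefficients -/
def cX : ℝ := 2 * 10 ^ 11 * 256 ^ 7 * cTw ^ 10

theorem cX_pos : 0 < cX := by unfold cX; have := cTw_pos; positivity

/-- bound of the coefficients of `ω`, `wk = w 0 * kap` -/
noncomputable def xP (η a a₂ wk : ℝ) : ℝ :=
  2 * 10 ^ 11 * 256 ^ 7 * ((2 * a₂ + 16 * a) / wk) / (η ^ 2 / cTw) ^ 10

theorem xP_eq {η : ℝ} (hη : 0 < η) (a a₂ wk : ℝ) :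
    xP η a a₂ wk = cX * (2 * a₂ + 16 * a) / η ^ 20 / wk := by
  have := cTw_pos
  rw [xP, cX, div_pow]
  field_simp

theorem xP_mul {η : ℝ} (hη : 0 < η) (a a₂ : ℝ) {wk : ℝ} (hk : wk ≠ 0) :
    xP η a a₂ wk * wk = cX * (2 * a₂ + 16 * a) / η ^ 20 := by
  rw [xP_eq hη, div_mul_cancel₀ _ hk]

/-- **the pencil lemma for sheets, coefficient form** -/
theorem pencil_coef {e : Fin 3 → V3} {c : Ln4} {w : V3} {q q₂ : ℝ → V3 → ℝ} {z0 ρ a a₂ : ℝ}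
    (S : StP e c w q z0 ρ) (hρ : 0 ≤ ρ) {T : Ln4} (hT : InSheet T e c w q a z0 ρ)
    {b0 b1 : V3} {G : QF} (hE : IsExp q e w T z0 ρ b0 b1 G) (hκ : 0 < kap b0 b1 G)
    {b0' b1' : V3} {G' : QF} (hE' : IsExp q₂ e w T z0 ρ b0' b1' G') (hm : |b0' 0| ≤ 4)
    (hT₂ : ∀ z, z0 ≤ z → z ≤ z0 + ρ → |q₂ z (T.pos z)| ≤ a₂)
    {η r : ℝ} (hη : 0 < η) (hη1 : η ≤ 1)
    {s : Fin 3 → ℝ} (hs : ∀ i, 0 ≤ s i ∧ s i ≤ 1) (hsd : ∀ i j, i ≠ j → η ≤ |s i - s j|)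
    {L : Fin 3 → Fin 3 → Ln4} (hL : ∀ i j, InSheet (L i j) e c w q a z0 ρ)
    (hL₂ : ∀ i j, ∀ z, z0 ≤ z → z ≤ z0 + ρ → |q₂ z ((L i j).pos z)| ≤ a₂)
    (hr1 : ∀ i j, |rp e w z0 ρ T (L i j) (s i) 1| ≤ r)
    (hr2 : ∀ i j, |rp e w z0 ρ T (L i j) (s i) 2| ≤ r)
    (htd : ∀ i j j', j ≠ j' → η ≤ |vel e w ρ T (L i j) 1 * vel e w ρ T (L i j') 2 -
      vel e w ρ T (L i j') 1 * vel e w ρ T (L i j) 2|)
    (hsm : cSm * (r + a / (w 0 * kap b0 b1 G)) ≤ η ^ 20) :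
    OmB (kap b0 b1 G) (xP η a a₂ (w 0 * kap b0 b1 G)) (xP η a a₂ (w 0 * kap b0 b1 G))
      (xP η a a₂ (w 0 * kap b0 b1 G)) b0 b1 G b0' b1' G' := by
  have hw0 := S.pos 0
  have hwne : ∀ i, w i ≠ 0 := fun i => (S.pos i).ne'
  have hz : ∀ ζ, 0 ≤ ζ → ζ ≤ 1 → z0 ≤ z0 + ρ * ζ ∧ z0 + ρ * ζ ≤ z0 + ρ := by
    intro ζ h1 h2
    constructor
    · nlinarith
    · nlinarith
  have hTK : ∀ z, z0 ≤ z → z ≤ z0 + ρ → InK e c w z (T.pos z) := fun z h1 h2 => (hT z h1 h2).1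
  have N := hE.nrmC S hρ hTK
  obtain ⟨g1, g2, g3, g4, g5, -, -, -, -⟩ := N.b1_le
  have hb0 : b0 0 ≠ 0 := by linarith
  obtain ⟨c1, c2, c3, c4, c5, c6, c7, c8, c9, c10⟩ := N.sc_le hκ
  set κ := kap b0 b1 G with hκd
  have ha : 0 ≤ a := (abs_nonneg _).trans (hT z0 le_rfl (by linarith)).2
  have ha₂ : 0 ≤ a₂ := (abs_nonneg _).trans (hT₂ z0 le_rfl (by linarith))
  have hr : 0 ≤ r := (abs_nonneg _).trans (hr1 0 0)
  have hwk : 0 < w 0 * κ := mul_pos hw0 hκ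
  set A := a / (w 0 * κ) with hAd
  have hA0 : 0 ≤ A := by positivity
  have hcT := cTw_pos
  -- smallness
  set ηp := η ^ 2 / cTw with hηp
  have hηp0 : 0 < ηp := by positivity
  have hηp1 : ηp ≤ 1 / 2 := by
    rw [hηp, div_le_iff₀ hcT]
    have : η ^ 2 ≤ 1 := pow_le_one₀ hη.le hη1
    have : (2 : ℝ) ≤ cTw := by unfold cTw; norm_num
    linarith
  have hηpη : ηp ≤ η := by
    rw [hηp, div_le_iff₀ hcT]
    have := one_le_cTw
    nlinarith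
  have hsm1 : 10 ^ 12 * 256 ^ 8 * (6 * (r + A)) ≤ ηp ^ 10 := by
    have e1 : ηp ^ 10 = η ^ 20 / cTw ^ 10 := by rw [hηp, div_pow]; ring
    rw [e1, le_div_iff₀ (by positivity)]
    refine le_trans (le_of_eq ?_) hsm
    rw [cSm]; ring
  have hsm2 : 6 * (r + A) ≤ ηp / 2 ∧ 6 * (r + A) ≤ 1 / 40 := by
    have h1 : ηp ^ 10 ≤ ηp := by
      calc ηp ^ 10 ≤ ηp ^ 1 := pow_le_pow_of_le_one hηp0.le (by linarith) (by norm_num)
        _ = ηp := pow_one _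
    have h3 : 0 ≤ 6 * (r + A) := by positivity
    constructor <;> nlinarith
  have hr40 : r ≤ 1 / 40 := by linarith [hsm2.2]
  have hA2 : A ≤ 1 / 2 := by linarith [hsm2.2]
  -- the captured lines
  have cap := fun i j => captured S hρ hT (hL i j) hE hκ hA2 (hs i).1 (hs i).2 hr40 (hr1 i j)
    (hr2 i j)
  set D : Fin 3 → Fin 3 → V3 := fun i j => sD κ b0 (rp e w z0 ρ T (L i j) (s i)) with hD
  set t : Fin 3 → Fin 3 → V3 := fun i j => sD κ b0 (vel e w ρ T (L i j)) with ht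
  have hDr : ∀ i j k, |D i j k| ≤ 5 * r + 4 * A := fun i j k => (cap i j).1 k
  have htr : ∀ i j k, |t i j k| ≤ 256 := fun i j k => (cap i j).2 k
  have hpos : ∀ i j ζ, pos (D i j) (t i j) (s i) ζ = sD κ b0 (rp e w z0 ρ T (L i j) ζ) :=
    fun i j ζ => sD_pos b0 e w z0 ρ T (L i j) (s i) ζ
  have htd' : ∀ i j j', j ≠ j' → η ≤ |t i j 1 * t i j' 2 - t i j' 1 * t i j 2| :=
    fun i j j' h => htd i j j' h
  -- values
  have h0 : ∀ i j z', 0 ≤ z' → z' ≤ 1 →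
      |Fq (shB0 b0) (scB1 κ b0 b1) (scG κ b0 G) z' (pos (D i j) (t i j) (s i) z')| ≤ 2 * A := by
    intro i j ζ hζ hζ'
    obtain ⟨z1, z2⟩ := hz ζ hζ hζ'
    rw [hpos]
    have h1 := hE.at S.ortho hwne hκ.ne' b0 ζ ((L i j).pos (z0 + ρ * ζ))
    rw [gl_own hb0, gl_own1, gM_own] at h1
    have q1 := (hL i j _ z1 z2).2
    have q2 := (hT _ z1 z2).2
    have h2 : w 0 * κ * |Fq (shB0 b0) (scB1 κ b0 b1) (scG κ b0 G) ζ
        (sD κ b0 (rp e w z0 ρ T (L i j) ζ))| ≤ 2 * a := by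
      rw [← abs_of_pos hwk, ← abs_mul, mul_assoc]
      have e1 : w 0 * (κ * Fq (shB0 b0) (scB1 κ b0 b1) (scG κ b0 G) ζ
          (sD κ b0 (rp e w z0 ρ T (L i j) ζ))) =
          q (z0 + ρ * ζ) ((L i j).pos (z0 + ρ * ζ)) - q (z0 + ρ * ζ) (T.pos (z0 + ρ * ζ)) := by
        rw [h1]; unfold rp; ring
      rw [e1]
      exact (abs_sub _ _).trans (by linarith)
    have h3 : 2 * A * (w 0 * κ) = 2 * a := by rw [hAd]; field_simp
    exact le_of_mul_le_mul_left (by linarith) hwk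
  set m := b0' 0 / b0 0 with hmd
  have hm8 : |m| ≤ 8 := by
    rw [hmd, abs_div, abs_of_pos (by linarith : 0 < b0 0), div_le_iff₀ (by linarith)]; linarith
  set l0 : V3 := fun k => b0' k - m * b0 k with hl0
  set l1 : V3 := fun k => b1' k - m * b1 k with hl1
  set M := QF.comb m G' G with hM
  set σ₁ := b0 1 / b0 0 with hσ₁
  set σ₂ := b0 2 / b0 0 with hσ₂
  have hωE : ∀ ζ X, q₂ (z0 + ρ * ζ) X - q₂ (z0 + ρ * ζ) (T.pos (z0 + ρ * ζ)) -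
      m * (q (z0 + ρ * ζ) X - q (z0 + ρ * ζ) (T.pos (z0 + ρ * ζ))) = w 0 * κ *
        Fq (gl κ σ₁ σ₂ l0) (gl κ σ₁ σ₂ l1) (gM κ σ₁ σ₂ M) ζ
          (sD κ b0 (pc e w T (z0 + ρ * ζ) X)) := by
    have hEω : IsExp (fun z X => q₂ z X - m * q z X) e w T z0 ρ l0 l1 M := by
      intro ζ x
      have h1 := hE ζ x
      have h2 := hE' ζ x
      beta_reduce
      rw [h1, h2, hl0, hl1, hM, Fq_comb]
      ring
    intro ζ X
    have := hEω.at S.ortho hwne hκ.ne' b0 ζ X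
    linarith
  have hB1 : ∀ i j z', 0 ≤ z' → z' ≤ 1 → |Fq (gl κ σ₁ σ₂ l0) (gl κ σ₁ σ₂ l1) (gM κ σ₁ σ₂ M) z'
      (pos (D i j) (t i j) (s i) z')| ≤ (2 * a₂ + 16 * a) / (w 0 * κ) := by
    intro i j ζ hζ hζ'
    obtain ⟨z1, z2⟩ := hz ζ hζ hζ'
    rw [hpos, le_div_iff₀ hwk]
    have h1 := hωE ζ ((L i j).pos (z0 + ρ * ζ))
    have q1 := (hL i j _ z1 z2).2
    have q2 := (hT _ z1 z2).2
    have q3 := hL₂ i j _ z1 z2
    have q4 := hT₂ _ z1 z2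
    have e0 : |Fq (gl κ σ₁ σ₂ l0) (gl κ σ₁ σ₂ l1) (gM κ σ₁ σ₂ M) ζ
        (sD κ b0 (rp e w z0 ρ T (L i j) ζ))| * (w 0 * κ) =
        |w 0 * κ * Fq (gl κ σ₁ σ₂ l0) (gl κ σ₁ σ₂ l1) (gM κ σ₁ σ₂ M) ζ
          (sD κ b0 (pc e w T (z0 + ρ * ζ) ((L i j).pos (z0 + ρ * ζ))))| := by
      rw [abs_mul, abs_of_pos hwk, mul_comm]; rfl
    rw [e0, ← h1]
    have a1 : |q₂ (z0 + ρ * ζ) ((L i j).pos (z0 + ρ * ζ)) -
        q₂ (z0 + ρ * ζ) (T.pos (z0 + ρ * ζ))| ≤ a₂ + a₂ := Arc880.abs_sub2 q3 q4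
    have a2 : |m * (q (z0 + ρ * ζ) ((L i j).pos (z0 + ρ * ζ)) -
        q (z0 + ρ * ζ) (T.pos (z0 + ρ * ζ)))| ≤ 8 * (a + a) :=
      mul_abs_le hm8 (Arc880.abs_sub2 q1 q2)
    exact (Arc880.abs_sub2 a1 a2).trans (by linarith)
  -- twist
  have hG'' : (scG κ b0 G).Le 256 := ⟨c5.trans (by norm_num), c6.trans (by norm_num),
    c7.trans (by norm_num), c8.trans (by norm_num), c9.trans (by norm_num), c10.trans (by norm_num)⟩
  have hw := twist_lower N hκ hη (hs 0).1 (hs 0).2 (fun j k => hDr 0 j k) (fun j k => htr 0 j k)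
    (htd' 0) (h0 0) (by linarith [hsm2.1]) hηp1
  have P := pencil_curved (K := 256) hηp0 (by linarith) (by norm_num)
    (fun k => (c1 k).trans (by norm_num)) (fun k => (c2 k).trans (by norm_num)) hG''
    (show 1 / 2 ≤ shB0 b0 0 from g1) (show shB0 b0 0 ≤ 2 from g2)
    (show 1 / 2 ≤ shB0 b0 0 + scB1 κ b0 b1 0 from g3)
    (show shB0 b0 0 + scB1 κ b0 b1 0 ≤ 2 from g4) hw
    (show gl κ σ₁ σ₂ l0 0 = 0 by
      change b0' 0 - m * b0 0 = 0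
      rw [hmd, div_mul_cancel₀ _ hb0, sub_self]) hs
    (fun i j h => hηpη.trans (hsd i j h)) hDr htr (fun i j j' h => hηpη.trans (htd' i j j' h))
    h0 hB1 (by
      refine le_trans ?_ hsm1
      have : 5 * r + 4 * A + 2 * A ≤ 6 * (r + A) := by linarith
      gcongr)
  exact OmB.of_le (fun k => (P.1 k).1) (fun k => (P.1 k).2) P.2

/-- **capture, general form**: if three pencils of captured lines of `𝓛` are impossible, then the
captured lines lie in three balls, for all heights outside two intervals. -/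
theorem cap_gen {e : Fin 3 → V3} {c : Ln4} {w : V3} {q : ℝ → V3 → ℝ} {z0 ρ a : ℝ}
    (S : StP e c w q z0 ρ) (hρ : 0 ≤ ρ) {T : Ln4} (hT : InSheet T e c w q a z0 ρ)
    {b0 b1 : V3} {G : QF} (hE : IsExp q e w T z0 ρ b0 b1 G) (hκ : 0 < kap b0 b1 G)
    {κd β η r : ℝ} (hκd : 0 < κd) (hκd1 : κd ≤ 1) (hβ : 0 < β) (hβ1 : β ≤ 1)
    (hnd : ∀ ζ, 0 ≤ ζ → ζ ≤ 1 →
      κd ≤ |det3 (fan (shB0 b0) (scB1 (kap b0 b1 G) b0 b1) (scG (kap b0 b1 G) b0 G) ζ)|)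
    (hη : 0 < η) (hη3 : η ≤ (κd * β ^ 2 / 216) ^ 3 / 48) (hr : 0 ≤ r)
    (hsm : cSm * (r + a / (w 0 * kap b0 b1 G)) ≤ η ^ 20)
    {𝓛 : Set Ln4} (hL : ∀ L ∈ 𝓛, InSheet L e c w q a z0 ρ)
    (hbig : ∀ s : Fin 3 → ℝ, (∀ i, 0 ≤ s i ∧ s i ≤ 1) → (∀ i j, i ≠ j → η ≤ |s i - s j|) →
      ∀ L : Fin 3 → Fin 3 → Ln4, (∀ i j, L i j ∈ 𝓛) →
      (∀ i j, |rp e w z0 ρ T (L i j) (s i) 1| ≤ r) → (∀ i j, |rp e w z0 ρ T (L i j) (s i) 2| ≤ r) →
      (∀ i j j', j ≠ j' → η ≤ |vel e w ρ T (L i j) 1 * vel e w ρ T (L i j') 2 -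
        vel e w ρ T (L i j') 1 * vel e w ρ T (L i j) 2|) → False) :
    ∃ s : Fin 2 → ℝ, ∀ ζ, 0 ≤ ζ → ζ ≤ 1 → (∀ i, η ≤ |ζ - s i|) →
      ∃ p : Fin 3 → ℝ × ℝ, ∀ L ∈ 𝓛, |rp e w z0 ρ T L ζ 1| ≤ r → |rp e w z0 ρ T L ζ 2| ≤ r →
        ∃ i, dist (vel e w ρ T L 1, vel e w ρ T L 2) (p i) < 8 * β := by
  have hTK : ∀ z, z0 ≤ z → z ≤ z0 + ρ → InK e c w z (T.pos z) := fun z h1 h2 => (hT z h1 h2).1
  have N := hE.nrmC S hρ hTK
  obtain ⟨g1, g2, g3, g4, g5, -, -, -, -⟩ := N.b1_le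
  have hb0 : b0 0 ≠ 0 := by linarith
  have hw0 := S.pos 0
  have hwne : ∀ i, w i ≠ 0 := fun i => (S.pos i).ne'
  have hz : ∀ ζ, 0 ≤ ζ → ζ ≤ 1 → z0 ≤ z0 + ρ * ζ ∧ z0 + ρ * ζ ≤ z0 + ρ := by
    intro ζ h1 h2
    constructor
    · nlinarith
    · nlinarith
  have ha : 0 ≤ a := (abs_nonneg _).trans (hT z0 le_rfl (by linarith)).2
  set κ := kap b0 b1 G with hκdef
  have hwk : 0 < w 0 * κ := mul_pos hw0 hκ
  set A := a / (w 0 * κ) with hAd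
  have hA0 : 0 ≤ A := by positivity
  -- smallness
  have hβ2 : β ^ 2 ≤ 1 := pow_le_one₀ hβ.le hβ1
  have hθ0 : 0 ≤ κd * β ^ 2 / 216 := by positivity
  have hθ1 : κd * β ^ 2 / 216 ≤ 1 := by
    rw [div_le_one (by norm_num)]
    have : κd * β ^ 2 ≤ 1 * 1 := mul_le_mul hκd1 hβ2 (by positivity) (by norm_num)
    linarith
  have hθ31 : (κd * β ^ 2 / 216) ^ 3 ≤ 1 := pow_le_one₀ hθ0 hθ1
  have hη1 : η ≤ 1 := by linarith
  have hη20 : η ^ 20 ≤ η := by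
    calc η ^ 20 ≤ η ^ 1 := pow_le_pow_of_le_one hη.le hη1 (by norm_num)
      _ = η := pow_one _
  have hcSm : 10 ^ 12 ≤ cSm := by
    have h1 : 1 ≤ cTw ^ 10 := one_le_pow₀ one_le_cTw
    unfold cSm
    nlinarith
  have hrA : 0 ≤ r + A := by positivity
  have hsm1 : 10 ^ 12 * (r + A) ≤ η := by
    have := mul_le_mul_of_nonneg_right hcSm hrA
    linarith
  have hδ : 244 * (5000000 * (r + A)) ≤ (κd * β ^ 2 / 216) ^ 3 := by linarith
  have hr40 : r ≤ 1 / 40 := by linarith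
  have hA2 : A ≤ 1 / 2 := by linarith
  -- the bad heights
  set bad : Set ℝ := {ζ | 0 ≤ ζ ∧ ζ ≤ 1 ∧ ¬ ∃ p : Fin 3 → ℝ × ℝ, ∀ L ∈ 𝓛,
    |rp e w z0 ρ T L ζ 1| ≤ r → |rp e w z0 ρ T L ζ 2| ≤ r →
      ∃ i, dist (vel e w ρ T L 1, vel e w ρ T L 2) (p i) < 8 * β} with hbad
  have hno : ¬ ∃ s : Fin (2 + 1) → ℝ, (∀ i, s i ∈ bad) ∧ ∀ i j, i ≠ j → η ≤ dist (s i) (s j) := by
    rintro ⟨s, hs, hsd⟩
    have hex : ∀ i, ∃ L : Fin 3 → Ln4, (∀ j, L j ∈ 𝓛) ∧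
        (∀ j, |rp e w z0 ρ T (L j) (s i) 1| ≤ r) ∧ (∀ j, |rp e w z0 ρ T (L j) (s i) 2| ≤ r) ∧
        ∀ j j', j ≠ j' → η ≤ |vel e w ρ T (L j) 1 * vel e w ρ T (L j') 2 -
          vel e w ρ T (L j') 1 * vel e w ρ T (L j) 2| := by
      intro i
      obtain ⟨s1, s2, s3⟩ := hs i
      by_contra hcon
      apply s3
      set X : Set (ℝ × ℝ) := {p | ∃ L ∈ 𝓛, |rp e w z0 ρ T L (s i) 1| ≤ r ∧
        |rp e w z0 ρ T L (s i) 2| ≤ r ∧ p = (vel e w ρ T L 1 / 4, vel e w ρ T L 2 / 4)} with hXd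
      have hcap : ∀ L ∈ 𝓛, |rp e w z0 ρ T L (s i) 1| ≤ r → |rp e w z0 ρ T L (s i) 2| ≤ r →
          |vel e w ρ T L 1 / 4| ≤ 1 ∧ |vel e w ρ T L 2 / 4| ≤ 1 ∧
          |qf (fan (shB0 b0) (scB1 κ b0 b1) (scG κ b0 G) (s i)) (vel e w ρ T L 1 / 4)
            (vel e w ρ T L 2 / 4)| ≤ 5000000 * (r + A) := by
        intro L hLL k1 k2
        obtain ⟨d1, d2⟩ := captured S hρ hT (hL L hLL) hE hκ hA2 s1 s2 hr40 k1 k2
        have hx : ∀ ζ, 0 ≤ ζ → ζ ≤ 1 → ∀ k, |rp e w z0 ρ T L ζ k| ≤ 2 := by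
          intro ζ hζ hζ' k
          obtain ⟨z1, z2⟩ := hz ζ hζ hζ'
          have k1 := (hL L hLL _ z1 z2).1 k
          have k2 := (hT _ z1 z2).1 k
          have hwk := S.pos k
          have e1 : dt (e k) (L.pos (z0 + ρ * ζ) - T.pos (z0 + ρ * ζ)) =
              dt (e k) (L.pos (z0 + ρ * ζ) - c.pos (z0 + ρ * ζ)) -
                dt (e k) (T.pos (z0 + ρ * ζ) - c.pos (z0 + ρ * ζ)) := by
            rw [dt_sub, dt_sub, dt_sub]; ring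
          change |dt (e k) (L.pos (z0 + ρ * ζ) - T.pos (z0 + ρ * ζ)) / w k| ≤ 2
          rw [abs_div, abs_of_pos hwk, div_le_iff₀ hwk, e1]
          exact (abs_sub _ _).trans (by linarith)
        have hv : ∀ k, |vel e w ρ T L k / 4| ≤ 1 := by
          intro k
          have e1 := rp_affine e w z0 ρ T L 0 1 k
          have e2 : vel e w ρ T L k = rp e w z0 ρ T L 1 k - rp e w z0 ρ T L 0 k := by
            rw [e1]; ring
          rw [abs_div, abs_of_pos (by norm_num : (0 : ℝ) < 4), div_le_one (by norm_num), e2]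
          refine (abs_sub _ _).trans ?_
          have := hx 1 zero_le_one le_rfl k
          have := hx 0 le_rfl zero_le_one k
          linarith
        refine ⟨hv 1, hv 2, ?_⟩
        have := qf_captured (D := sD κ b0 (rp e w z0 ρ T L (s i)))
          (t := sD κ b0 (vel e w ρ T L)) N hκ s1 s2 hr hA0 (by linarith) d1 d2 (by
            intro ζ hζ hζ'
            obtain ⟨z1, z2⟩ := hz ζ hζ hζ'
            rw [sD_pos]
            have h1 := hE.at S.ortho hwne hκ.ne' b0 ζ (L.pos (z0 + ρ * ζ))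
            rw [gl_own hb0, gl_own1, gM_own] at h1
            have q1 := (hL L hLL _ z1 z2).2
            have q2 := (hT _ z1 z2).2
            have h2 : w 0 * κ * |Fq (shB0 b0) (scB1 κ b0 b1) (scG κ b0 G) ζ
                (sD κ b0 (rp e w z0 ρ T L ζ))| ≤ 2 * a := by
              rw [← abs_of_pos hwk, ← abs_mul, mul_assoc]
              have e1 : w 0 * (κ * Fq (shB0 b0) (scB1 κ b0 b1) (scG κ b0 G) ζ
                  (sD κ b0 (rp e w z0 ρ T L ζ))) =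
                  q (z0 + ρ * ζ) (L.pos (z0 + ρ * ζ)) - q (z0 + ρ * ζ) (T.pos (z0 + ρ * ζ)) := by
                rw [h1]; unfold rp; ring
              rw [e1]
              exact (abs_sub _ _).trans (by linarith)
            have h3 : 2 * A * (w 0 * κ) = 2 * a := by rw [hAd]; field_simp
            exact le_of_mul_le_mul_left (by linarith) hwk)
        exact this
      obtain ⟨p, hp⟩ := arcs3_ball (x0 := 0) (y0 := 0) (X := X) (fan_le N hκ s1 s2).1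
        (hnd _ s1 s2) hκd.le hκd1 hβ hβ1 hδ hη3 (by norm_num) (by norm_num) (by
          have : qf (fan (shB0 b0) (scB1 κ b0 b1) (scG κ b0 G) (s i)) 0 0 = 0 := by
            simp [qf, fan]
          rw [this, abs_zero]; positivity)
        (by
          rintro p ⟨L, hLL, k1, k2, rfl⟩
          exact hcap L hLL k1 k2)
        (by
          rintro ⟨p, hpX, hpt⟩
          choose L hLL k1 k2 hpe using hpX
          refine hcon ⟨L, hLL, k1, k2, fun j j' hj => ?_⟩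
          have := hpt j j' hj
          rw [hpe j, hpe j'] at this
          have e1 : ar 0 0 (vel e w ρ T (L j) 1 / 4) (vel e w ρ T (L j) 2 / 4)
              (vel e w ρ T (L j') 1 / 4) (vel e w ρ T (L j') 2 / 4) =
              (vel e w ρ T (L j) 1 * vel e w ρ T (L j') 2 -
                vel e w ρ T (L j') 1 * vel e w ρ T (L j) 2) / 16 := by
            unfold ar; ring
          simp only at this
          rw [e1, abs_div, abs_of_pos (by norm_num : (0 : ℝ) < 16), le_div_iff₀ (by norm_num)] at this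
          linarith)
      refine ⟨fun i => (4 * (p i).1, 4 * (p i).2), fun L hLL k1 k2 => ?_⟩
      obtain ⟨i, hi⟩ := hp _ ⟨L, hLL, k1, k2, rfl⟩
      refine ⟨i, ?_⟩
      rw [Prod.dist_eq, max_lt_iff, Real.dist_eq, Real.dist_eq] at hi ⊢
      obtain ⟨i1, i2⟩ := hi
      have f1 : ∀ x y : ℝ, |x / 4 - y| < 2 * β → |x - 4 * y| < 8 * β := by
        intro x y h
        have : x - 4 * y = 4 * (x / 4 - y) := by ring
        rw [this, abs_mul, abs_of_pos (by norm_num : (0 : ℝ) < 4)]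
        linarith
      exact ⟨f1 _ _ i1, f1 _ _ i2⟩
    choose L hLm k1 k2 htr using hex
    exact hbig s (fun i => ⟨(hs i).1, (hs i).2.1⟩)
      (fun i j h => by have := hsd i j h; rwa [Real.dist_eq] at this) L hLm k1 k2 htr
  obtain ⟨s, hs⟩ := coverN 2 hno
  refine ⟨s, fun ζ hζ hζ' hfar => ?_⟩
  by_contra hcon
  obtain ⟨i, hi⟩ := hs ζ ⟨hζ, hζ', hcon⟩
  rw [Real.dist_eq] at hi
  exact absurd hi (not_lt.2 (hfar i))


/-! ### the second plank is not thin -/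




end Crest.Agent.R136.Tl102
end

-- ▼ part R136/Coi4_102
section

/-!
# R136 (S0187): coincidence and closeness of two sheets from the coefficients of `ω` (helper102)
-/

set_option autoImplicit false

namespace Crest.Agent.R136.Tl102

open Crest.Agent.R136.Sh605

section two

variable {e : Fin 3 → V3} {c : Ln4} {w : V3} {q : ℝ → V3 → ℝ} {e' : Fin 3 → V3} {c' : Ln4}
  {w' : V3} {q' : ℝ → V3 → ℝ} {T : Ln4} {z0 ρ a a' : ℝ} {b0 b1 : V3} {G : QF}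
  {b0' b1' : V3} {G' : QF} {d0 d1 : V3} {H : QF} {B lam : ℝ}

theorem Two.hz (D : Two e c w q e' c' w' q' T z0 ρ a a' b0 b1 G b0' b1' G' d0 d1 H B lam) {ζ : ℝ}
    (hζ : 0 ≤ ζ) (hζ' : ζ ≤ 1) : z0 ≤ z0 + ρ * ζ ∧ z0 + ρ * ζ ≤ z0 + ρ := by
  have := D.hρ
  constructor
  · nlinarith
  · nlinarith

/-- the normal coordinate of the base sheet -/
theorem Two.n_le (D : Two e c w q e' c' w' q' T z0 ρ a a' b0 b1 G b0' b1' G' d0 d1 H B lam)
    {κ : ℝ} (hκ : 0 < κ) {V : V3} {h t : ℝ} (h0 : |tv κ b0 e w V 0| ≤ h)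
    (h1 : |tv κ b0 e w V 1| ≤ t) (h2 : |tv κ b0 e w V 2| ≤ t) :
    |dt (e 0) V| ≤ w 0 * (κ * h + 4 * t) := by
  obtain ⟨-, -, -, -, -, -, -, s1, s2⟩ := D.nrm.b1_le
  have hw0 := D.S.pos 0
  have e1 : dt (e 0) V = w 0 * (κ * tv κ b0 e w V 0 - (b0 1 / b0 0 * tv κ b0 e w V 1 +
      b0 2 / b0 0 * tv κ b0 e w V 2)) := by
    change dt (e 0) V = w 0 * (κ * ((dt (e 0) V / w 0 + b0 1 / b0 0 * (dt (e 1) V / w 1) +
      b0 2 / b0 0 * (dt (e 2) V / w 2)) / κ) - (b0 1 / b0 0 * (dt (e 1) V / w 1) +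
      b0 2 / b0 0 * (dt (e 2) V / w 2)))
    rw [mul_div_cancel₀ _ hκ.ne']
    have e2 : w 0 * (dt (e 0) V / w 0) = dt (e 0) V := mul_div_cancel₀ _ hw0.ne'
    linear_combination -e2
  rw [e1, abs_mul, abs_of_pos hw0]
  apply mul_le_mul_of_nonneg_left _ hw0.le
  exact (Arc880.abs_sub2 (mul_abs_le (le_of_eq (abs_of_pos hκ)) h0)
    (Arc880.abs_add2 (mul_abs_le s1 h1) (mul_abs_le s2 h2))).trans (le_of_eq (by ring))

/-- coordinates of a point of the second sheet -/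
theorem Two.pointA (D : Two e c w q e' c' w' q' T z0 ρ a a' b0 b1 G b0' b1' G' d0 d1 H B lam)
    {κ X Y Z : ℝ} (hκ : 0 < κ) (O : OmB κ X Y Z b0 b1 G b0' b1' G')
    (hX : 8 * (X * (w 0 * κ)) ≤ w 2) {ζ : ℝ} (hζ : 0 ≤ ζ) (hζ' : ζ ≤ 1) {P : V3} {α r W d : ℝ}
    (hP : InK e' c' (dbl3 w') (z0 + ρ * ζ) P) (hq : |q' (z0 + ρ * ζ) P| ≤ α)
    (hr : r ≤ 1 / 8) (h1 : |pv e' w' (P - T.pos (z0 + ρ * ζ)) 1| ≤ r)
    (h2 : |pv e' w' (P - T.pos (z0 + ρ * ζ)) 2| ≤ r) (hW : w' 0 * kap d0 d1 H ≤ W)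
    (hd : 2 * (α + a') + 5 * (r * W) ≤ d) :
    |tv κ b0 e w (P - T.pos (z0 + ρ * ζ)) 0| ≤ 5 * d / (w 0 * κ) + 384 * (r * (X * (B * lam))) ∧
      |tv κ b0 e w (P - T.pos (z0 + ρ * ζ)) 1| ≤ d / w 2 + 6 * (r * (B * lam)) ∧
      |tv κ b0 e w (P - T.pos (z0 + ρ * ζ)) 2| ≤ d / w 2 + 6 * (r * (B * lam)) := by
  have hr0 : 0 ≤ r := (abs_nonneg _).trans h1
  obtain ⟨z1, z2⟩ := D.hz hζ hζ'
  have hy := yc_le2 D.S' D.hρ (fun z h1 h2 => (D.hT' z h1 h2).1) D.hH hζ hζ' hP hr h1 h2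
  have hT := (D.hT' _ z1 z2).2
  refine D.coords hκ O hX (d := d) (hy.trans ?_) h1 h2
  have h3 := mul_le_mul_of_nonneg_left hW hr0
  linarith

/-- value of the base function -/
theorem Two.valA (D : Two e c w q e' c' w' q' T z0 ρ a a' b0 b1 G b0' b1' G' d0 d1 H B lam)
    {κ X Y Z : ℝ} (hκ : 0 < κ) (O : OmB κ X Y Z b0 b1 G b0' b1' G')
    (hX : 8 * (X * (w 0 * κ)) ≤ w 2) {ζ : ℝ} (hζ : 0 ≤ ζ) (hζ' : ζ ≤ 1) {P : V3} {α h t : ℝ}
    (hq : |q' (z0 + ρ * ζ) P| ≤ α) (h0 : |tv κ b0 e w (P - T.pos (z0 + ρ * ζ)) 0| ≤ h)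
    (h1 : |tv κ b0 e w (P - T.pos (z0 + ρ * ζ)) 1| ≤ t)
    (h2 : |tv κ b0 e w (P - T.pos (z0 + ρ * ζ)) 2| ≤ t) :
    |q (z0 + ρ * ζ) P| ≤ a + 16 * (α + a' + w 0 * κ *
      (Y * h + Z * (h ^ 2 + 2 * (h * t)) + X * (4 * t + 3 * t ^ 2))) := by
  have hwne : ∀ i, w i ≠ 0 := fun i => (D.S.pos i).ne'
  obtain ⟨g1, g2, -, -, -, -, -, -, -⟩ := D.nrm.b1_le
  have hb0 : b0 0 ≠ 0 := by linarith
  have hwk : 0 < w 0 * κ := mul_pos (D.S.pos 0) hκ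
  obtain ⟨z1, z2⟩ := D.hz hζ hζ'
  have hm := D.le_m hκ O hX
  have e1 := om_val D.S.ortho hwne D.hE D.hE' hκ.ne' ζ P
  have hζa : |ζ| ≤ 1 := by rw [abs_of_nonneg hζ]; exact hζ'
  have f := O.le hb0 hζa h0 h1 h2
  set m := b0' 0 / b0 0 with hmd
  set Ω := Fq (om0 κ b0 b0') (om1 κ b0 b1 b0' b1') (omM κ b0 G b0' G') ζ
    (tv κ b0 e w (P - T.pos (z0 + ρ * ζ))) with hΩ
  set F := Y * h + Z * (h ^ 2 + 2 * (h * t)) + X * (4 * t + 3 * t ^ 2) with hF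
  have hT := (D.hT _ z1 z2).2
  have hT' := (D.hT' _ z1 z2).2
  have e2 : m * (q (z0 + ρ * ζ) P - q (z0 + ρ * ζ) (T.pos (z0 + ρ * ζ))) =
      q' (z0 + ρ * ζ) P - q' (z0 + ρ * ζ) (T.pos (z0 + ρ * ζ)) - w 0 * κ * Ω := by linarith
  have h3 : |m * (q (z0 + ρ * ζ) P - q (z0 + ρ * ζ) (T.pos (z0 + ρ * ζ)))| ≤
      α + a' + w 0 * κ * F := by
    rw [e2]
    exact Arc880.abs_sub2 (Arc880.abs_sub2 hq hT')
      (mul_abs_le (le_of_eq (abs_of_pos hwk)) f)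
  rw [abs_mul] at h3
  have h4 : 1 / 16 * |q (z0 + ρ * ζ) P - q (z0 + ρ * ζ) (T.pos (z0 + ρ * ζ))| ≤
      |m| * |q (z0 + ρ * ζ) P - q (z0 + ρ * ζ) (T.pos (z0 + ρ * ζ))| :=
    mul_le_mul_of_nonneg_right hm (abs_nonneg _)
  have h5 : |q (z0 + ρ * ζ) P| ≤ |q (z0 + ρ * ζ) (T.pos (z0 + ρ * ζ))| +
      |q (z0 + ρ * ζ) P - q (z0 + ρ * ζ) (T.pos (z0 + ρ * ζ))| := by
    have := abs_add_le (q (z0 + ρ * ζ) (T.pos (z0 + ρ * ζ)))
      (q (z0 + ρ * ζ) P - q (z0 + ρ * ζ) (T.pos (z0 + ρ * ζ)))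
    rwa [add_sub_cancel] at this
  linarith

/-- coordinates of a point of the base sheet -/
theorem Two.pointB (D : Two e c w q e' c' w' q' T z0 ρ a a' b0 b1 G b0' b1' G' d0 d1 H B lam)
    {κ : ℝ} (hκ : 0 < κ) (hk : kap b0 b1 G ≤ κ) {ζ : ℝ} (hζ : 0 ≤ ζ) (hζ' : ζ ≤ 1) {P : V3}
    {α r : ℝ} (hP : InK e c (dbl3 w) (z0 + ρ * ζ) P) (hq : |q (z0 + ρ * ζ) P| ≤ α)
    (hr : r ≤ 1 / 8) (h1 : |pv e w (P - T.pos (z0 + ρ * ζ)) 1| ≤ r)
    (h2 : |pv e w (P - T.pos (z0 + ρ * ζ)) 2| ≤ r) :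
    |tv κ b0 e w (P - T.pos (z0 + ρ * ζ)) 0| ≤ 2 * (α + a) / (w 0 * κ) + 5 * r ∧
      |tv κ b0 e w (P - T.pos (z0 + ρ * ζ)) 1| ≤ r ∧
      |tv κ b0 e w (P - T.pos (z0 + ρ * ζ)) 2| ≤ r := by
  have hr0 : 0 ≤ r := (abs_nonneg _).trans h1
  have hw0 := D.S.pos 0
  have hwk : 0 < w 0 * κ := mul_pos hw0 hκ
  obtain ⟨z1, z2⟩ := D.hz hζ hζ'
  have hy := yc_le2 D.S D.hρ (fun z h1 h2 => (D.hT z h1 h2).1) D.hE hζ hζ' hP hr h1 h2
  have hT := (D.hT _ z1 z2).2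
  refine ⟨?_, h1, h2⟩
  change |yc b0 (pc e w T (z0 + ρ * ζ) P) / κ| ≤ _
  rw [abs_div, abs_of_pos hκ, div_le_iff₀ hκ]
  have h3 : w 0 * |yc b0 (pc e w T (z0 + ρ * ζ) P)| ≤ 2 * (α + a) + 5 * (r * (w 0 * κ)) := by
    have h4 : r * (w 0 * kap b0 b1 G) ≤ r * (w 0 * κ) :=
      mul_le_mul_of_nonneg_left (mul_le_mul_of_nonneg_left hk hw0.le) hr0
    linarith
  have e1 : w 0 * ((2 * (α + a) / (w 0 * κ) + 5 * r) * κ) = 2 * (α + a) + 5 * (r * (w 0 * κ)) := by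
    field_simp
  exact le_of_mul_le_mul_left (by rw [e1]; exact h3) hw0

/-- value of the second function -/
theorem Two.valB (D : Two e c w q e' c' w' q' T z0 ρ a a' b0 b1 G b0' b1' G' d0 d1 H B lam)
    {κ X Y Z : ℝ} (hκ : 0 < κ) (O : OmB κ X Y Z b0 b1 G b0' b1' G')
    {ζ : ℝ} (hζ : 0 ≤ ζ) (hζ' : ζ ≤ 1) {P : V3} {α h t : ℝ}
    (hq : |q (z0 + ρ * ζ) P| ≤ α) (h0 : |tv κ b0 e w (P - T.pos (z0 + ρ * ζ)) 0| ≤ h)
    (h1 : |tv κ b0 e w (P - T.pos (z0 + ρ * ζ)) 1| ≤ t)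
    (h2 : |tv κ b0 e w (P - T.pos (z0 + ρ * ζ)) 2| ≤ t) :
    |q' (z0 + ρ * ζ) P| ≤ a' + 8 * (α + a) + w 0 * κ *
      (Y * h + Z * (h ^ 2 + 2 * (h * t)) + X * (4 * t + 3 * t ^ 2)) := by
  have hwne : ∀ i, w i ≠ 0 := fun i => (D.S.pos i).ne'
  obtain ⟨g1, g2, -, -, -, -, -, -, -⟩ := D.nrm.b1_le
  have hb0 : b0 0 ≠ 0 := by linarith
  have hwk : 0 < w 0 * κ := mul_pos (D.S.pos 0) hκ
  obtain ⟨z1, z2⟩ := D.hz hζ hζ'
  have e1 := om_val D.S.ortho hwne D.hE D.hE' hκ.ne' ζ P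
  have hζa : |ζ| ≤ 1 := by rw [abs_of_nonneg hζ]; exact hζ'
  have f := O.le hb0 hζa h0 h1 h2
  have hm := D.m_le
  set m := b0' 0 / b0 0 with hmd
  set Ω := Fq (om0 κ b0 b0') (om1 κ b0 b1 b0' b1') (omM κ b0 G b0' G') ζ
    (tv κ b0 e w (P - T.pos (z0 + ρ * ζ))) with hΩ
  have hT := (D.hT _ z1 z2).2
  have hT' := (D.hT' _ z1 z2).2
  have e2 : q' (z0 + ρ * ζ) P = q' (z0 + ρ * ζ) (T.pos (z0 + ρ * ζ)) +
      m * (q (z0 + ρ * ζ) P - q (z0 + ρ * ζ) (T.pos (z0 + ρ * ζ))) + w 0 * κ * Ω := by linarith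
  rw [e2]
  exact Arc880.abs_add2 (Arc880.abs_add2 hT' (mul_abs_le hm (Arc880.abs_sub2 hq hT)))
    (mul_abs_le (le_of_eq (abs_of_pos hwk)) f)

/-- normal coordinate of the second sheet -/
theorem Two.nB (D : Two e c w q e' c' w' q' T z0 ρ a a' b0 b1 G b0' b1' G' d0 d1 H B lam)
    {κ X Y Z : ℝ} (hκ : 0 < κ) (O : OmB κ X Y Z b0 b1 G b0' b1' G')
    {V : V3} {h t : ℝ} (h0 : |tv κ b0 e w V 0| ≤ h)
    (h1 : |tv κ b0 e w V 1| ≤ t) (h2 : |tv κ b0 e w V 2| ≤ t) :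
    |dt (e' 0) V| ≤ 2 * (w 0 * κ * (18 * h + 2 * (X * t)) + 12 * (t * (B * lam)) * w' 0) := by
  have hwne : ∀ i, w i ≠ 0 := fun i => (D.S.pos i).ne'
  have hwne' : ∀ i, w' i ≠ 0 := fun i => (D.S'.pos i).ne'
  have hw0 := D.S.pos 0
  have hw1 := D.S.pos 1
  have hw2 := D.S.pos 2
  have hw0' := D.S'.pos 0
  have hw1' := D.S'.pos 1
  have hw2' := D.S'.pos 2
  obtain ⟨g1, g2, -, -, -, -, -, -, -⟩ := D.nrm.b1_le
  obtain ⟨g1', g2', -, -, -, -, -, -, -⟩ := D.nrm'.b1_le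
  have hb0 : b0 0 ≠ 0 := by linarith
  have hwk : 0 < w 0 * κ := mul_pos hw0 hκ
  have hh : 0 ≤ h := (abs_nonneg _).trans h0
  have ht : 0 ≤ t := (abs_nonneg _).trans h1
  have hB := D.B1
  have hlam := D.lam1
  have hBl : B ≤ B * lam := le_mul_of_one_le_right (by linarith) hlam
  -- normal component
  have n0 := D.n_le hκ h0 h1 h2
  have e1 : dt (e 1) V = tv κ b0 e w V 1 * w 1 := by
    change dt (e 1) V = dt (e 1) V / w 1 * w 1
    rw [div_mul_cancel₀ _ hw1.ne']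
  have e2 : dt (e 2) V = tv κ b0 e w V 2 * w 2 := by
    change dt (e 2) V = dt (e 2) V / w 2 * w 2
    rw [div_mul_cancel₀ _ hw2.ne']
  have n1 : |dt (e 1) V| ≤ t * w 1 := by
    rw [e1, abs_mul, abs_of_pos hw1]; exact mul_le_mul_of_nonneg_right h1 hw1.le
  have n2 : |dt (e 2) V| ≤ t * w 2 := by
    rw [e2, abs_mul, abs_of_pos hw2]; exact mul_le_mul_of_nonneg_right h2 hw2.le
  have ex : ∀ k, dt (e' k) V = dt (e' k) (e 0) * dt (e 0) V + dt (e' k) (e 1) * dt (e 1) V +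
      dt (e' k) (e 2) * dt (e 2) V := by
    intro k
    have x0 := D.S.ortho.expand V 0
    have x1 := D.S.ortho.expand V 1
    have x2 := D.S.ortho.expand V 2
    have : dt (e' k) V = e' k 0 * V 0 + e' k 1 * V 1 + e' k 2 * V 2 := rfl
    rw [this, x0, x1, x2]
    simp only [dt]; ring
  have w02 := D.w02
  have w21 := D.w21
  have w02' := D.w02'
  have w21' := D.w21'
  have m1 : |dt (e' 1) V| ≤ w 0 * κ * h + 6 * (t * w 1) := by
    rw [ex 1]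
    refine (Arc880.abs_add2 (Arc880.abs_add2
      (mul_abs_le (dt_le_one D.S'.ortho D.S.ortho 1 0) n0)
      (mul_abs_le (dt_le_one D.S'.ortho D.S.ortho 1 1) n1))
      (mul_abs_le (dt_le_one D.S'.ortho D.S.ortho 1 2) n2)).trans ?_
    have k1 : t * w 0 ≤ t * w 1 := mul_le_mul_of_nonneg_left (w02.trans w21) ht
    have k2 : t * w 2 ≤ t * w 1 := mul_le_mul_of_nonneg_left w21 ht
    linarith
  have m2 : |dt (e' 2) V| ≤ w 0 * κ * h + 6 * (t * lam * w 2) := by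
    rw [ex 2]
    have k3 : |dt (e' 2) (e 1) * dt (e 1) V| ≤ t * lam * w 2 := by
      rw [abs_mul]
      calc |dt (e' 2) (e 1)| * |dt (e 1) V| ≤ |dt (e' 2) (e 1)| * (t * w 1) :=
            mul_le_mul_of_nonneg_left n1 (abs_nonneg _)
        _ = t * (|dt (e' 2) (e 1)| * w 1) := by ring
        _ ≤ t * (lam * w 2) := mul_le_mul_of_nonneg_left D.tilt' ht
        _ = _ := by ring
    refine (Arc880.abs_add2 (Arc880.abs_add2
      (mul_abs_le (dt_le_one D.S'.ortho D.S.ortho 2 0) n0) k3)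
      (mul_abs_le (dt_le_one D.S'.ortho D.S.ortho 2 2) n2)).trans ?_
    have k1 : t * w 0 ≤ t * w 2 := mul_le_mul_of_nonneg_left w02 ht
    have k2 : t * w 2 ≤ t * lam * w 2 :=
      mul_le_mul_of_nonneg_right (le_mul_of_one_le_right ht hlam) hw2.le
    linarith
  -- gradient
  have hc := (cross D.S.ortho D.S'.ortho hwne hwne' D.hE' D.hH V).1
  have hg := grad' hb0 hκ.ne' e w b0' V
  have k1 : |w 0 * dt b0' (pv e w V)| ≤ w 0 * κ * (16 * h + 2 * (X * t)) := by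
    have e3 : w 0 * dt b0' (pv e w V) = w 0 * κ * (b0' 0 / b0 0 * (b0 0 * tv κ b0 e w V 0) +
        (om0 κ b0 b0' 1 * tv κ b0 e w V 1 + om0 κ b0 b0' 2 * tv κ b0 e w V 2)) := by
      rw [hg]; ring
    rw [e3]
    refine (mul_abs_le (le_of_eq (abs_of_pos hwk)) (Arc880.abs_add2 (mul_abs_le D.m_le
      (mul_abs_le (abs_le.2 ⟨by linarith, g2⟩ : |b0 0| ≤ 2) h0))
      (Arc880.abs_add2 (mul_abs_le O.h01 h1) (mul_abs_le O.h02 h2)))).trans (le_of_eq (by ring))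
  rw [hc] at k1
  have e4 : w' 0 * dt d0 (pv e' w' V) = d0 0 * dt (e' 0) V + d0 1 * (w' 0 / w' 1 * dt (e' 1) V) +
      d0 2 * (w' 0 / w' 2 * dt (e' 2) V) := by
    simp only [dt, pv]
    field_simp
  have r1 : |w' 0 / w' 1 * dt (e' 1) V| ≤ w 0 * κ * h + 6 * (t * (B * lam)) * w' 0 := by
    rw [abs_mul, abs_of_pos (div_pos hw0' hw1')]
    have q1 : w' 0 / w' 1 ≤ 1 := by rw [div_le_one hw1']; exact w02'.trans w21'
    have q0 : 0 ≤ w' 0 / w' 1 := (div_pos hw0' hw1').le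
    calc w' 0 / w' 1 * |dt (e' 1) V| ≤ w' 0 / w' 1 * (w 0 * κ * h + 6 * (t * w 1)) :=
          mul_le_mul_of_nonneg_left m1 q0
      _ = w' 0 / w' 1 * (w 0 * κ * h) + w' 0 / w' 1 * (6 * (t * w 1)) := by ring
      _ ≤ 1 * (w 0 * κ * h) + w' 0 / w' 1 * (6 * (t * (B * w' 1))) := by
          apply add_le_add (mul_le_mul_of_nonneg_right q1 (by positivity))
          apply mul_le_mul_of_nonneg_left _ q0
          have := mul_le_mul_of_nonneg_left D.wB1' ht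
          linarith
      _ = w 0 * κ * h + 6 * (t * B) * w' 0 := by field_simp
      _ ≤ w 0 * κ * h + 6 * (t * (B * lam)) * w' 0 := by
          have := mul_le_mul_of_nonneg_right (mul_le_mul_of_nonneg_left hBl ht) hw0'.le
          linarith
  have r2 : |w' 0 / w' 2 * dt (e' 2) V| ≤ w 0 * κ * h + 6 * (t * (B * lam)) * w' 0 := by
    rw [abs_mul, abs_of_pos (div_pos hw0' hw2')]
    have q1 : w' 0 / w' 2 ≤ 1 := by rw [div_le_one hw2']; exact w02'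
    have q0 : 0 ≤ w' 0 / w' 2 := (div_pos hw0' hw2').le
    calc w' 0 / w' 2 * |dt (e' 2) V| ≤ w' 0 / w' 2 * (w 0 * κ * h + 6 * (t * lam * w 2)) :=
          mul_le_mul_of_nonneg_left m2 q0
      _ = w' 0 / w' 2 * (w 0 * κ * h) + w' 0 / w' 2 * (6 * (t * lam * w 2)) := by ring
      _ ≤ 1 * (w 0 * κ * h) + w' 0 / w' 2 * (6 * (t * lam * (B * w' 2))) := by
          apply add_le_add (mul_le_mul_of_nonneg_right q1 (by positivity))
          apply mul_le_mul_of_nonneg_left _ q0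
          have := mul_le_mul_of_nonneg_left D.wB2' (mul_nonneg ht (by linarith : 0 ≤ lam))
          linarith
      _ = w 0 * κ * h + 6 * (t * (B * lam)) * w' 0 := by field_simp
  have e5 : d0 0 * dt (e' 0) V = w' 0 * dt d0 (pv e' w' V) -
      (d0 1 * (w' 0 / w' 1 * dt (e' 1) V) + d0 2 * (w' 0 / w' 2 * dt (e' 2) V)) := by
    rw [e4]; ring
  have h5 : |d0 0 * dt (e' 0) V| ≤ w 0 * κ * (16 * h + 2 * (X * t)) +
      (1 * (w 0 * κ * h + 6 * (t * (B * lam)) * w' 0) +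
        1 * (w 0 * κ * h + 6 * (t * (B * lam)) * w' 0)) := by
    rw [e5]
    exact Arc880.abs_sub2 k1 (Arc880.abs_add2 (mul_abs_le D.nrm'.b01 r1)
      (mul_abs_le D.nrm'.b02 r2))
  rw [abs_mul, abs_of_pos (by linarith : 0 < d0 0)] at h5
  have h6 : 1 / 2 * |dt (e' 0) V| ≤ d0 0 * |dt (e' 0) V| :=
    mul_le_mul_of_nonneg_right g1' (abs_nonneg _)
  linarith

end two

end Crest.Agent.R136.Tl102
end

-- ▼ part R136/Coi5_102
section

/-!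
# R136 (S0187): coincidence and closeness of a curved sheet and a second sheet (helper102)
-/

set_option autoImplicit false

namespace Crest.Agent.R136.Tl102

open Crest.Agent.R136.Sh605

/-- coefficient bounds for a smaller unit -/
theorem OmB.mono {κ X X' Y Y' Z Z' : ℝ} {b0 b1 : V3} {G : QF} {b0' b1' : V3} {G' : QF}
    (O : OmB κ X Y Z b0 b1 G b0' b1' G') (hX : X ≤ X') (hY : Y ≤ Y') (hZ : Z ≤ Z') :
    OmB κ X' Y' Z' b0 b1 G b0' b1' G' where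
  h01 := O.h01.trans hX
  h02 := O.h02.trans hX
  h11 := O.h11.trans hX
  h12 := O.h12.trans hX
  uu := O.uu.trans hX
  uv := O.uv.trans hX
  vv := O.vv.trans hX
  y1 := O.y1.trans hY
  yy := O.yy.trans hZ
  yu := O.yu.trans hZ
  yv := O.yv.trans hZ


section two

variable {e : Fin 3 → V3} {c : Ln4} {w : V3} {q : ℝ → V3 → ℝ} {e' : Fin 3 → V3} {c' : Ln4}
  {w' : V3} {q' : ℝ → V3 → ℝ} {T : Ln4} {z0 ρ a a' : ℝ} {b0 b1 : V3} {G : QF}
  {b0' b1' : V3} {G' : QF} {d0 d1 : V3} {H : QF} {B lam : ℝ}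

/-- extent of the second sheet, `X ≤ 1` -/
theorem Two.kap_le1 (D : Two e c w q e' c' w' q' T z0 ρ a a' b0 b1 G b0' b1' G' d0 d1 H B lam)
    {κ X : ℝ} (hκ : 0 < κ) (hk : kap b0 b1 G ≤ κ) (hκ1 : κ ≤ 13)
    (O : OmB κ X X X b0 b1 G b0' b1' G') (hX : 8 * (X * (w 0 * κ)) ≤ w 2) (hX1 : X ≤ 1) :
    w' 0 * kap d0 d1 H ≤ 4 * 10 ^ 9 * (B * lam) ^ 2 * (w 0 * κ) := by
  have h := D.kap_le hκ hk hκ1 O hX
  obtain ⟨X0, -, -⟩ := O.nonneg
  have hwk : 0 < w 0 * κ := mul_pos (D.S.pos 0) hκ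
  have h1 : (1 + X + X + X) * (1 + X) ^ 2 ≤ 4 * 2 ^ 2 := by
    apply mul_le_mul (by linarith) _ (by positivity) (by norm_num)
    exact pow_le_pow_left₀ (by linarith) (by linarith) 2
  have h2 : 0 ≤ (B * lam) ^ 2 * (w 0 * κ) := by positivity
  have h3 := mul_le_mul_of_nonneg_right h1 h2
  nlinarith

/-- **coincidence**: a point of the second sheet near `T` -/
theorem Two.coin (D : Two e c w q e' c' w' q' T z0 ρ a a' b0 b1 G b0' b1' G' d0 d1 H B lam)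
    {κ X Λ δ r : ℝ} (hκ : 0 < κ) (hk : kap b0 b1 G ≤ κ) (hκ1 : κ ≤ 13)
    (O : OmB κ X X X b0 b1 G b0' b1' G') (hX : 8 * (X * (w 0 * κ)) ≤ w 2) (hX1 : X ≤ 1)
    (hΛ : X * (w 0 * κ) ≤ Λ) (hδ : a' ≤ δ * (w 0 * κ)) (hr : r ≤ 1 / 8)
    (hε : 10 ^ 12 * (δ + r * (B * lam) ^ 2) ≤ 1)
    {ζ : ℝ} (hζ : 0 ≤ ζ) (hζ' : ζ ≤ 1) {P : V3} (hP : InK e' c' (dbl3 w') (z0 + ρ * ζ) P)
    (hq : |q' (z0 + ρ * ζ) P| ≤ a') (h1 : |pv e' w' (P - T.pos (z0 + ρ * ζ)) 1| ≤ r)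
    (h2 : |pv e' w' (P - T.pos (z0 + ρ * ζ)) 2| ≤ r) :
    |dt (e 0) (P - T.pos (z0 + ρ * ζ))| ≤ w 0 * (17 * (10 ^ 12 * (δ + r * (B * lam) ^ 2))) ∧
      |q (z0 + ρ * ζ) P| ≤ a + 16 * (2 * a' + 11 * (10 ^ 12 * (δ + r * (B * lam) ^ 2)) * Λ) := by
  have hw0 := D.S.pos 0
  have hw2 := D.S.pos 2
  have hwk : 0 < w 0 * κ := mul_pos hw0 hκ
  obtain ⟨X0, -, -⟩ := O.nonneg
  have hr0 : 0 ≤ r := (abs_nonneg _).trans h1
  have ha' : 0 ≤ a' := (abs_nonneg _).trans hq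
  have hM1 : 1 ≤ B * lam := one_le_mul_of_one_le_of_one_le D.B1 D.lam1
  set M := B * lam with hM
  have hδ0 : 0 ≤ δ := by
    by_contra hc
    push Not at hc
    nlinarith
  have hrM : 0 ≤ r * M ^ 2 := by positivity
  have hMM : M ≤ M ^ 2 := by nlinarith
  have hrMM : r * M ≤ r * M ^ 2 := mul_le_mul_of_nonneg_left hMM hr0
  set ε := 10 ^ 12 * (δ + r * M ^ 2) with hεd
  have hε0 : 0 ≤ ε := by positivity
  set W := 4 * 10 ^ 9 * M ^ 2 * (w 0 * κ) with hW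
  have hkap := D.kap_le1 hκ hk hκ1 O hX hX1
  set d := 2 * (a' + a') + 5 * (r * W) with hd
  obtain ⟨p0, p1, p2⟩ := D.pointA hκ O hX hζ hζ' hP hq hr h1 h2 hkap (le_refl d)
  have hd1 : d ≤ (4 * δ + 2 * 10 ^ 10 * (r * M ^ 2)) * (w 0 * κ) := by
    have : (4 * δ + 2 * 10 ^ 10 * (r * M ^ 2)) * (w 0 * κ) =
        4 * (δ * (w 0 * κ)) + 5 * (r * W) := by rw [hW]; ring
    rw [this, hd]; linarith
  have hd2 : d / (w 0 * κ) ≤ 4 * δ + 2 * 10 ^ 10 * (r * M ^ 2) := by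
    rw [div_le_iff₀ hwk]; exact hd1
  have hd3 : d / w 2 ≤ 13 * (4 * δ + 2 * 10 ^ 10 * (r * M ^ 2)) := by
    rw [div_le_iff₀ hw2]
    have h3 : w 0 * κ ≤ 13 * w 2 := by
      have := D.w02
      nlinarith
    have h4 : 0 ≤ 4 * δ + 2 * 10 ^ 10 * (r * M ^ 2) := by positivity
    have h5 := mul_le_mul_of_nonneg_left h3 h4
    linarith
  have hXr : r * (X * M) ≤ r * M ^ 2 := by
    apply mul_le_mul_of_nonneg_left _ hr0
    have : X * M ≤ 1 * M := mul_le_mul_of_nonneg_right hX1 (by linarith)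
    linarith
  have hh : |tv κ b0 e w (P - T.pos (z0 + ρ * ζ)) 0| ≤ ε := by
    refine p0.trans ?_
    have e1 : 5 * d / (w 0 * κ) = 5 * (d / (w 0 * κ)) := by ring
    rw [e1, hεd]; linarith
  have ht : d / w 2 + 6 * (r * M) ≤ ε := by
    rw [hεd]; linarith
  constructor
  · have hn := D.n_le hκ hh (p1.trans ht) (p2.trans ht)
    refine hn.trans (mul_le_mul_of_nonneg_left ?_ hw0.le)
    have := mul_le_mul_of_nonneg_right hκ1 hε0
    linarith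
  · have hv := D.valA hκ O hX hζ hζ' hq hh (p1.trans ht) (p2.trans ht)
    refine hv.trans ?_
    have e2 : X * ε + X * (ε ^ 2 + 2 * (ε * ε)) + X * (4 * ε + 3 * ε ^ 2) =
        X * (5 * ε + 6 * (ε * ε)) := by ring
    have h6 : ε * ε ≤ ε * 1 := mul_le_mul_of_nonneg_left hε hε0
    have h7 : X * (5 * ε + 6 * (ε * ε)) ≤ X * (11 * ε) :=
      mul_le_mul_of_nonneg_left (by linarith) X0
    have h8 : w 0 * κ * (X * (11 * ε)) ≤ 11 * ε * Λ := by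
      have : w 0 * κ * (X * (11 * ε)) = 11 * ε * (X * (w 0 * κ)) := by ring
      rw [this]
      exact mul_le_mul_of_nonneg_left hΛ (by positivity)
    rw [e2]
    have h9 := mul_le_mul_of_nonneg_left h7 hwk.le
    linarith

/-- **closeness**: the second function on the base sheet -/
theorem Two.closeA (D : Two e c w q e' c' w' q' T z0 ρ a a' b0 b1 G b0' b1' G' d0 d1 H B lam)
    {κ X Λ : ℝ} (hκ : 0 < κ) (hk : kap b0 b1 G ≤ κ)
    (O : OmB κ X X X b0 b1 G b0' b1' G')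
    (hΛ : X * (w 0 * κ) ≤ Λ) (hδ : 16 * a ≤ w 0 * κ)
    {ζ : ℝ} (hζ : 0 ≤ ζ) (hζ' : ζ ≤ 1) {P : V3} (hP : InK e T (fun i => w i / 8) (z0 + ρ * ζ) P)
    (hq : |q (z0 + ρ * ζ) P| ≤ a) : |q' (z0 + ρ * ζ) P| ≤ a' + 16 * a + 4 * Λ := by
  have hw0 := D.S.pos 0
  have hwk : 0 < w 0 * κ := mul_pos hw0 hκ
  obtain ⟨X0, -, -⟩ := O.nonneg
  have ha : 0 ≤ a := (abs_nonneg _).trans hq
  obtain ⟨z1, z2⟩ := D.hz hζ hζ'
  have hPK : InK e c (dbl3 w) (z0 + ρ * ζ) P := by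
    intro i
    have e1 : dt (e i) (P - c.pos (z0 + ρ * ζ)) = dt (e i) (P - T.pos (z0 + ρ * ζ)) +
        dt (e i) (T.pos (z0 + ρ * ζ) - c.pos (z0 + ρ * ζ)) := by
      rw [dt_sub, dt_sub, dt_sub]; ring
    rw [e1]
    have h1 := hP i
    have h2 := (D.hT _ z1 z2).1 i
    have := D.S.pos i
    refine (abs_add_le _ _).trans ?_
    change _ ≤ 2 * w i
    beta_reduce at h1
    linarith
  have hl : ∀ i, |pv e w (P - T.pos (z0 + ρ * ζ)) i| ≤ 1 / 8 := by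
    intro i
    have hwi := D.S.pos i
    change |dt (e i) (P - T.pos (z0 + ρ * ζ)) / w i| ≤ 1 / 8
    rw [abs_div, abs_of_pos hwi, div_le_iff₀ hwi]
    have := hP i
    beta_reduce at this
    linarith
  obtain ⟨p0, p1, p2⟩ := D.pointB hκ hk hζ hζ' hPK hq (le_refl (1 / 8)) (hl 1) (hl 2)
  have h0 : |tv κ b0 e w (P - T.pos (z0 + ρ * ζ)) 0| ≤ 1 := by
    refine p0.trans ?_
    have : 2 * (a + a) / (w 0 * κ) ≤ 1 / 4 := by
      rw [div_le_iff₀ hwk]; linarith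
    linarith
  have hv := D.valB hκ O hζ hζ' hq h0 p1 p2
  refine hv.trans ?_
  have e2 : w 0 * κ * (X * 1 + X * (1 ^ 2 + 2 * (1 * (1 / 8))) + X * (4 * (1 / 8) + 3 * (1 / 8) ^ 2)) =
      179 / 64 * (X * (w 0 * κ)) := by ring
  have h3 : 0 ≤ X * (w 0 * κ) := by positivity
  rw [e2]
  linarith

/-- **closeness**: the base function on the second sheet -/
theorem Two.closeB (D : Two e c w q e' c' w' q' T z0 ρ a a' b0 b1 G b0' b1' G' d0 d1 H B lam)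
    {κ X Λ : ℝ} (hκ : 0 < κ) (hk : kap b0 b1 G ≤ κ) (hκ1 : κ ≤ 13)
    (O : OmB κ X X X b0 b1 G b0' b1' G') (hX : 8 * (X * (w 0 * κ)) ≤ w 2) (hX1 : X ≤ 1)
    (hΛ : X * (w 0 * κ) ≤ Λ) (hδ : a' ≤ w 0 * κ)
    {ζ : ℝ} (hζ : 0 ≤ ζ) (hζ' : ζ ≤ 1) {P : V3}
    (hP : InK e' T (fun i => w' i / 8) (z0 + ρ * ζ) P) (hq : |q' (z0 + ρ * ζ) P| ≤ a') :
    |q (z0 + ρ * ζ) P| ≤ a + 16 * (2 * a' + 11 * (10 ^ 11 * (B * lam) ^ 2) ^ 2 * Λ) := by
  have hw0 := D.S.pos 0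
  have hw2 := D.S.pos 2
  have hwk : 0 < w 0 * κ := mul_pos hw0 hκ
  obtain ⟨X0, -, -⟩ := O.nonneg
  have ha' : 0 ≤ a' := (abs_nonneg _).trans hq
  have hM1 : 1 ≤ B * lam := one_le_mul_of_one_le_of_one_le D.B1 D.lam1
  set M := B * lam with hM
  have hMM : M ≤ M ^ 2 := by nlinarith
  obtain ⟨z1, z2⟩ := D.hz hζ hζ'
  have hPK : InK e' c' (dbl3 w') (z0 + ρ * ζ) P := by
    intro i
    have e1 : dt (e' i) (P - c'.pos (z0 + ρ * ζ)) = dt (e' i) (P - T.pos (z0 + ρ * ζ)) +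
        dt (e' i) (T.pos (z0 + ρ * ζ) - c'.pos (z0 + ρ * ζ)) := by
      rw [dt_sub, dt_sub, dt_sub]; ring
    rw [e1]
    have h1 := hP i
    have h2 := (D.hT' _ z1 z2).1 i
    have := D.S'.pos i
    refine (abs_add_le _ _).trans ?_
    change _ ≤ 2 * w' i
    beta_reduce at h1
    linarith
  have hl : ∀ i, |pv e' w' (P - T.pos (z0 + ρ * ζ)) i| ≤ 1 / 8 := by
    intro i
    have hwi := D.S'.pos i
    change |dt (e' i) (P - T.pos (z0 + ρ * ζ)) / w' i| ≤ 1 / 8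
    rw [abs_div, abs_of_pos hwi, div_le_iff₀ hwi]
    have := hP i
    beta_reduce at this
    linarith
  set W := 4 * 10 ^ 9 * M ^ 2 * (w 0 * κ) with hW
  have hkap := D.kap_le1 hκ hk hκ1 O hX hX1
  set d := 2 * (a' + a') + 5 * (1 / 8 * W) with hd
  obtain ⟨p0, p1, p2⟩ := D.pointA hκ O hX hζ hζ' hPK hq (le_refl (1 / 8)) (hl 1) (hl 2) hkap
    (le_refl d)
  have hd1 : d ≤ 3 * 10 ^ 9 * M ^ 2 * (w 0 * κ) := by
    have h3 : w 0 * κ ≤ M ^ 2 * (w 0 * κ) := le_mul_of_one_le_left hwk.le (by linarith)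
    rw [hd, hW]; linarith
  have hd2 : d / (w 0 * κ) ≤ 3 * 10 ^ 9 * M ^ 2 := by
    rw [div_le_iff₀ hwk]; exact hd1
  have hd3 : d / w 2 ≤ 13 * (3 * 10 ^ 9 * M ^ 2) := by
    rw [div_le_iff₀ hw2]
    have h3 : w 0 * κ ≤ 13 * w 2 := by
      have := D.w02
      nlinarith
    have h4 : 0 ≤ 3 * 10 ^ 9 * M ^ 2 := by positivity
    have h5 := mul_le_mul_of_nonneg_left h3 h4
    linarith
  set R := 10 ^ 11 * M ^ 2 with hR
  have hR1 : 1 ≤ R := by rw [hR]; linarith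
  have hh : |tv κ b0 e w (P - T.pos (z0 + ρ * ζ)) 0| ≤ R := by
    refine p0.trans ?_
    have e1 : 5 * d / (w 0 * κ) = 5 * (d / (w 0 * κ)) := by ring
    have h6 : X * M ≤ 1 * M := mul_le_mul_of_nonneg_right hX1 (by linarith)
    rw [e1, hR]; linarith
  have ht : d / w 2 + 6 * (1 / 8 * M) ≤ R := by
    rw [hR]; linarith
  have hv := D.valA hκ O hX hζ hζ' hq hh (p1.trans ht) (p2.trans ht)
  refine hv.trans ?_
  have e2 : X * R + X * (R ^ 2 + 2 * (R * R)) + X * (4 * R + 3 * R ^ 2) =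
      X * (5 * R + 6 * R ^ 2) := by ring
  have h7 : X * (5 * R + 6 * R ^ 2) ≤ X * (11 * R ^ 2) :=
    mul_le_mul_of_nonneg_left (by nlinarith) X0
  have h8 : w 0 * κ * (X * (11 * R ^ 2)) ≤ 11 * R ^ 2 * Λ := by
    have : w 0 * κ * (X * (11 * R ^ 2)) = 11 * R ^ 2 * (X * (w 0 * κ)) := by ring
    rw [this]
    exact mul_le_mul_of_nonneg_left hΛ (by positivity)
  rw [e2]
  have h9 := mul_le_mul_of_nonneg_left h7 hwk.le
  linarith

end two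

end Crest.Agent.R136.Tl102
end

-- ▼ part R136/Cps_605
section

/-!
# R136 (S0187), U5: sub-cells of the expansion of a sheet around a line (helper605)

Cell `[z0', z0' + ρ']`, sub-cell `[z0, z0 + ρ]`, `ζ0 = (z0 - z0') / ρ'`, `τ = ρ / ρ'`;
`b0s = b0 + ζ0 b1`, `b1s = τ b1`, same `G`.

* `stP_mono`, `inSheet_mono`, `isExp_mono`, `nrmC_mono`, `rp_mono`, `vel_mono`.
* `slope_sub`    : `|s_k(ζ0) - s_k| ≤ 2 |ζ0| |shB1 k|`.
* `kap_sub_le`   : `kap b0s b1s G ≤ 128 kap b0 b1 G`.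
* `kap_le_sub`   : `τ kap b0 b1 G ≤ 160 kap b0s b1s G`.
* `fan_sub`      : `fan b0s b1s G ζ` = `fan b0 b1 G (ζ0 + τ ζ)` with the row and the column `0` times `τ`.
* `det3_sub`     : `det3 (fan b0s b1s G ζ) = τ² det3 (fan b0 b1 G (ζ0 + τ ζ))`.
* `det3_scaled_sub` : the same for the scaled fans: factor `τ² (κ/κs)³`.
* `det3_scaled_ge`  : `τ² / 128³ |det3 scaled fan (ζ0 + τ ζ)| ≤ |det3 scaled fan of the sub-cell ζ|`.
* `nd_mono`      : non-degeneracy passes to sub-cells.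
-/

set_option autoImplicit false

namespace Crest.Agent.R136.Cps605

open Crest.Agent.R136.Sh605 Crest.Agent.R136.Tl102
open Crest.Agent.R136.Arc880 (det3)
open Crest.Agent.R136.Fn880 (fan_scaled det3_scaled)

/-- constant part of the expansion over the sub-cell -/
def b0s (b0 b1 : V3) (ζ0 : ℝ) : V3 := fun k => b0 k + ζ0 * b1 k

/-- rotation part of the expansion over the sub-cell -/
def b1s (b1 : V3) (τ : ℝ) : V3 := fun k => τ * b1 k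

variable {e : Fin 3 → V3} {c T T' : Ln4} {w : V3} {q : ℝ → V3 → ℝ} {a z0 ρ z0' ρ' : ℝ}
  {b0 b1 : V3} {G : QF}

/-! ### restriction -/

theorem stP_mono (S : StP e c w q z0' ρ') (h : z0' ≤ z0) (h' : z0 + ρ ≤ z0' + ρ') :
    StP e c w q z0 ρ where
  ortho := S.ortho
  isQ := S.isQ
  pos := S.pos
  st0 := fun z a b => S.st0 z (h.trans a) (b.trans h')
  st1 := fun z a b => S.st1 z (h.trans a) (b.trans h')
  st2 := fun z a b => S.st2 z (h.trans a) (b.trans h')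

theorem inSheet_mono (S : InSheet T e c w q a z0' ρ') (h : z0' ≤ z0) (h' : z0 + ρ ≤ z0' + ρ') :
    InSheet T e c w q a z0 ρ :=
  fun z x y => S z (h.trans x) (y.trans h')

/-- heights of the sub-cell in the units of the cell -/
theorem hgt (hρ' : ρ' ≠ 0) (ζ : ℝ) :
    z0 + ρ * ζ = z0' + ρ' * ((z0 - z0') / ρ' + ρ / ρ' * ζ) := by
  field_simp
  ring

theorem hgt_mem (hρ' : 0 < ρ') (hρ : 0 ≤ ρ) (h : z0' ≤ z0) (h' : z0 + ρ ≤ z0' + ρ') :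
    0 ≤ (z0 - z0') / ρ' ∧ 0 ≤ ρ / ρ' ∧ (z0 - z0') / ρ' + ρ / ρ' ≤ 1 := by
  refine ⟨div_nonneg (by linarith) hρ'.le, div_nonneg hρ hρ'.le, ?_⟩
  rw [← add_div, div_le_one hρ']; linarith

theorem isExp_mono (hE : IsExp q e w T z0' ρ' b0 b1 G) (hρ' : ρ' ≠ 0) :
    IsExp q e w T z0 ρ (b0s b0 b1 ((z0 - z0') / ρ')) (b1s b1 (ρ / ρ')) G := by
  intro ζ x
  rw [hgt (z0' := z0') hρ' ζ, hE]
  congr 2
  simp only [Fq, dt, bz, b0s, b1s]
  ring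




/-- the expansion over the sub-cell is normalised -/
theorem nrmC_mono (N : NrmC b0 b1 G) {ζ0 τ : ℝ} (h0 : 0 ≤ ζ0) (h1 : 0 ≤ τ) (h2 : ζ0 + τ ≤ 1) :
    NrmC (b0s b0 b1 ζ0) (b1s b1 τ) G where
  st := by
    intro ζ hζ hζ' σ u v hσ hu hv
    have e1 : b0s b0 b1 ζ0 0 + ζ * b1s b1 τ 0 = b0 0 + (ζ0 + τ * ζ) * b1 0 := by
      simp only [b0s, b1s]; ring
    rw [e1]
    exact N.st (ζ0 + τ * ζ) (by positivity) (by nlinarith) σ u v hσ hu hv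
  b01 := by
    have h3 := N.b01
    have h4 := N.b11
    have e1 : b0s b0 b1 ζ0 1 = (1 - ζ0) * b0 1 + ζ0 * (b0 1 + b1 1) := by
      simp only [b0s]; ring
    rw [abs_le] at h3 h4
    rw [e1, abs_le]
    constructor <;> nlinarith [h3.1, h3.2, h4.1, h4.2]
  b02 := by
    have h3 := N.b02
    have h4 := N.b12
    have e1 : b0s b0 b1 ζ0 2 = (1 - ζ0) * b0 2 + ζ0 * (b0 2 + b1 2) := by
      simp only [b0s]; ring
    rw [abs_le] at h3 h4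
    rw [e1, abs_le]
    constructor <;> nlinarith [h3.1, h3.2, h4.1, h4.2]
  b11 := by
    have h3 := N.b01
    have h4 := N.b11
    have e1 : b0s b0 b1 ζ0 1 + b1s b1 τ 1 =
        (1 - (ζ0 + τ)) * b0 1 + (ζ0 + τ) * (b0 1 + b1 1) := by
      simp only [b0s, b1s]; ring
    rw [abs_le] at h3 h4
    rw [e1, abs_le]
    constructor <;> nlinarith [h3.1, h3.2, h4.1, h4.2]
  b12 := by
    have h3 := N.b02
    have h4 := N.b12
    have e1 : b0s b0 b1 ζ0 2 + b1s b1 τ 2 =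
        (1 - (ζ0 + τ)) * b0 2 + (ζ0 + τ) * (b0 2 + b1 2) := by
      simp only [b0s, b1s]; ring
    rw [abs_le] at h3 h4
    rw [e1, abs_le]
    constructor <;> nlinarith [h3.1, h3.2, h4.1, h4.2]
  G_le := N.G_le

/-! ### basic quantities -/

theorem D_ge (N : NrmC b0 b1 G) {ζ0 : ℝ} (h0 : 0 ≤ ζ0) (h1 : ζ0 ≤ 1) :
    1 / 2 ≤ b0s b0 b1 ζ0 0 ∧ b0s b0 b1 ζ0 0 ≤ 2 := by
  have a0 : |(0 : ℝ)| ≤ 1 := by norm_num
  have hst := N.st ζ0 h0 h1 0 0 0 a0 a0 a0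
  simp only [mul_zero, add_zero] at hst
  exact hst

/-- the rotation part of the sub-cell, exactly -/
theorem shB1_sub {ζ0 τ : ℝ} (g0 : b0 0 ≠ 0) (g1 : b0s b0 b1 ζ0 0 ≠ 0) {k : Fin 3}
    (hk : k = 1 ∨ k = 2) :
    shB1 (b0s b0 b1 ζ0) (b1s b1 τ) k = τ * (b0 0 / b0s b0 b1 ζ0 0 * shB1 b0 b1 k) := by
  have e0 : b0s b0 b1 ζ0 0 = b0 0 + ζ0 * b1 0 := rfl
  rw [e0] at g1
  rcases hk with rfl | rfl
  · simp only [shB1, b0s, b1s, Matrix.cons_val]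
    field_simp
    ring
  · simp only [shB1, b0s, b1s, Matrix.cons_val]
    field_simp
    ring

/-- the shift of the tangent slopes, exactly -/
theorem slope_eq {ζ0 : ℝ} (g0 : b0 0 ≠ 0) (g1 : b0s b0 b1 ζ0 0 ≠ 0) {k : Fin 3}
    (hk : k = 1 ∨ k = 2) :
    b0s b0 b1 ζ0 k / b0s b0 b1 ζ0 0 - b0 k / b0 0 =
      ζ0 * (1 / b0s b0 b1 ζ0 0 * shB1 b0 b1 k) := by
  have e0 : b0s b0 b1 ζ0 0 = b0 0 + ζ0 * b1 0 := rfl
  rw [e0] at g1
  rcases hk with rfl | rfl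
  · simp only [shB1, b0s, Matrix.cons_val]
    field_simp
    ring
  · simp only [shB1, b0s, Matrix.cons_val]
    field_simp
    ring

theorem slope_sub (N : NrmC b0 b1 G) {ζ0 : ℝ} (h0 : 0 ≤ ζ0) (h1 : ζ0 ≤ 1) {k : Fin 3}
    (hk : k = 1 ∨ k = 2) :
    |b0s b0 b1 ζ0 k / b0s b0 b1 ζ0 0 - b0 k / b0 0| ≤ 2 * ζ0 * |shB1 b0 b1 k| := by
  obtain ⟨g1, -⟩ := N.b1_le
  obtain ⟨d1, -⟩ := D_ge N h0 h1
  rw [slope_eq (by linarith) (by linarith) hk, abs_mul, abs_mul, abs_of_nonneg h0]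
  have hDi : |1 / b0s b0 b1 ζ0 0| ≤ 2 := by
    rw [abs_of_pos (by positivity), div_le_iff₀ (by linarith)]; linarith
  have := mul_le_mul_of_nonneg_right hDi (abs_nonneg (shB1 b0 b1 k))
  nlinarith

/-- the slopes of the sub-cell are bounded -/
theorem slope_abs (N : NrmC b0 b1 G) {ζ0 : ℝ} (h0 : 0 ≤ ζ0) (h1 : ζ0 ≤ 1) {k : Fin 3}
    (hk : k = 1 ∨ k = 2) : |b0s b0 b1 ζ0 k / b0s b0 b1 ζ0 0| ≤ 2 := by
  have N' := nrmC_mono (τ := 0) N h0 le_rfl (by linarith)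
  obtain ⟨-, -, -, -, -, -, -, s1, s2⟩ := N'.b1_le
  rcases hk with rfl | rfl
  · exact s1
  · exact s2

theorem kap_comp (b0 b1 : V3) (G : QF) : |shB1 b0 b1 1| ≤ kap b0 b1 G ∧
    |shB1 b0 b1 2| ≤ kap b0 b1 G ∧ |(shG b0 G).uu| ≤ kap b0 b1 G ∧
    |(shG b0 G).uv| ≤ kap b0 b1 G ∧ |(shG b0 G).vv| ≤ kap b0 b1 G :=
  ⟨(le_max_left _ _).trans (le_max_left _ _), (le_max_right _ _).trans (le_max_left _ _),
    (le_max_left _ _).trans ((le_max_left _ _).trans (le_max_right _ _)),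
    (le_max_right _ _).trans ((le_max_left _ _).trans (le_max_right _ _)),
    (le_max_right _ _).trans (le_max_right _ _)⟩

/-- change of the second order part with the slopes -/
theorem shG_shift (b0 b0' : V3) (G : QF) {d1 d2 : ℝ} (h1 : b0' 1 / b0' 0 = b0 1 / b0 0 + d1)
    (h2 : b0' 2 / b0' 0 = b0 2 / b0 0 + d2) :
    (shG b0' G).uu = (shG b0 G).uu - d1 * (shG b0 G).yu + d1 * d1 * G.yy ∧
    (shG b0' G).uv = (shG b0 G).uv - d2 * (shG b0 G).yu - d1 * (shG b0 G).yv +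
      2 * (d1 * d2) * G.yy ∧
    (shG b0' G).vv = (shG b0 G).vv - d2 * (shG b0 G).yv + d2 * d2 * G.yy := by
  refine ⟨?_, ?_, ?_⟩
  · change G.uu - b0' 1 / b0' 0 * G.yu + (b0' 1 / b0' 0) ^ 2 * G.yy = _
    rw [h1]
    simp only [shG]
    ring
  · change G.uv - b0' 2 / b0' 0 * G.yu - b0' 1 / b0' 0 * G.yv +
      2 * (b0' 1 / b0' 0 * (b0' 2 / b0' 0)) * G.yy = _
    rw [h1, h2]
    simp only [shG]
    ring
  · change G.vv - b0' 2 / b0' 0 * G.yv + (b0' 2 / b0' 0) ^ 2 * G.yy = _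
    rw [h2]
    simp only [shG]
    ring

/-- bound of the second order part after a shift of the slopes `|d_k| ≤ m`, `|d_k| ≤ 4` -/
theorem shG_shift_le (b0 b0' : V3) {G : QF} {d1 d2 m κ : ℝ}
    (h1 : b0' 1 / b0' 0 = b0 1 / b0 0 + d1) (h2 : b0' 2 / b0' 0 = b0 2 / b0 0 + d2)
    (hd1 : |d1| ≤ m) (hd2 : |d2| ≤ m) (hd1' : |d1| ≤ 4) (hd2' : |d2| ≤ 4)
    (hyu : |(shG b0 G).yu| ≤ 5) (hyv : |(shG b0 G).yv| ≤ 5) (hyy : |G.yy| ≤ 1)
    (huu : |(shG b0 G).uu| ≤ κ) (huv : |(shG b0 G).uv| ≤ κ) (hvv : |(shG b0 G).vv| ≤ κ) :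
    |(shG b0' G).uu| ≤ κ + 9 * m ∧ |(shG b0' G).uv| ≤ κ + 18 * m ∧
      |(shG b0' G).vv| ≤ κ + 9 * m := by
  obtain ⟨u1, u2, u3⟩ := shG_shift b0 b0' G h1 h2
  have hm : 0 ≤ m := (abs_nonneg _).trans hd1
  refine ⟨?_, ?_, ?_⟩
  · rw [u1]
    have t1 := mul_abs_le hd1 hyu
    have t2 := mul_abs_le (mul_abs_le hd1 hd1') hyy
    refine (Arc880.abs_add2 (Arc880.abs_sub2 huu t1) t2).trans ?_
    linarith
  · rw [u2]
    have t1 := mul_abs_le hd2 hyu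
    have t2 := mul_abs_le hd1 hyv
    have t3 := mul_abs_le (mul_abs_le (show |(2 : ℝ)| ≤ 2 by norm_num)
      (mul_abs_le hd1 hd2')) hyy
    refine (Arc880.abs_add2 (Arc880.abs_sub2 (Arc880.abs_sub2 huv t1) t2) t3).trans ?_
    linarith
  · rw [u3]
    have t1 := mul_abs_le hd2 hyv
    have t2 := mul_abs_le (mul_abs_le hd2 hd2') hyy
    refine (Arc880.abs_add2 (Arc880.abs_sub2 hvv t1) t2).trans ?_
    linarith

/-! ### the curvature extent -/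

/-- **the extent of a sub-cell is at most that of the cell** -/
theorem kap_sub_le (N : NrmC b0 b1 G) {ζ0 τ : ℝ} (h0 : 0 ≤ ζ0) (h1 : 0 ≤ τ) (h2 : ζ0 + τ ≤ 1) :
    kap (b0s b0 b1 ζ0) (b1s b1 τ) G ≤ 40 * kap b0 b1 G := by
  obtain ⟨k1, k2, k3, k4, k5⟩ := kap_comp b0 b1 G
  have hκ := kap_nonneg b0 b1 G
  obtain ⟨g1, g2, -, -, -, -, -, s1, s2⟩ := N.b1_le
  obtain ⟨-, -, j3, j4, -, -, -⟩ := N.sh_le
  obtain ⟨m1, -⟩ := N.G_le
  have hζ1 : ζ0 ≤ 1 := by linarith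
  have hτ1 : τ ≤ 1 := by linarith
  obtain ⟨d1, d2⟩ := D_ge N h0 hζ1
  set κ := kap b0 b1 G with hκd
  have sl : ∀ k : Fin 3, k = 1 ∨ k = 2 → |shB1 b0 b1 k| ≤ κ →
      |b0s b0 b1 ζ0 k / b0s b0 b1 ζ0 0 - b0 k / b0 0| ≤ 2 * κ := by
    intro k hk hb
    refine (slope_sub N h0 hζ1 hk).trans ?_
    have := abs_nonneg (shB1 b0 b1 k)
    nlinarith
  have rot : ∀ k : Fin 3, k = 1 ∨ k = 2 → |shB1 b0 b1 k| ≤ κ →
      |shB1 (b0s b0 b1 ζ0) (b1s b1 τ) k| ≤ 40 * κ := by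
    intro k hk hb
    rw [shB1_sub (by linarith) (by linarith) hk]
    have hr : |τ| ≤ 1 := by rw [abs_of_nonneg h1]; exact hτ1
    have hD : |b0 0 / b0s b0 b1 ζ0 0| ≤ 4 := by
      rw [abs_of_pos (by positivity), div_le_iff₀ (by linarith)]; linarith
    have := mul_abs_le hr (mul_abs_le hD hb)
    linarith
  have f4 : ∀ k : Fin 3, k = 1 ∨ k = 2 → |b0 k / b0 0| ≤ 2 →
      |b0s b0 b1 ζ0 k / b0s b0 b1 ζ0 0 - b0 k / b0 0| ≤ 4 := by
    intro k hk hb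
    exact (Arc880.abs_sub2 (slope_abs N h0 hζ1 hk) hb).trans (by norm_num)
  obtain ⟨u1, u2, u3⟩ := shG_shift_le (G := G) b0 (b0s b0 b1 ζ0)
    (d1 := b0s b0 b1 ζ0 1 / b0s b0 b1 ζ0 0 - b0 1 / b0 0)
    (d2 := b0s b0 b1 ζ0 2 / b0s b0 b1 ζ0 0 - b0 2 / b0 0) (m := 2 * κ) (κ := κ)
    (by ring) (by ring) (sl 1 (Or.inl rfl) k1) (sl 2 (Or.inr rfl) k2)
    (f4 1 (Or.inl rfl) s1) (f4 2 (Or.inr rfl) s2) j3 j4 m1 k3 k4 k5
  exact max_le (max_le (rot 1 (Or.inl rfl) k1) (rot 2 (Or.inr rfl) k2))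
    (max_le (max_le (u1.trans (by linarith)) (u2.trans (by linarith))) (u3.trans (by linarith)))

/-- **the extent of a sub-cell is at least `τ` times that of the cell** -/
theorem kap_le_sub (N : NrmC b0 b1 G) {ζ0 τ : ℝ} (h0 : 0 ≤ ζ0) (h1 : 0 ≤ τ) (h2 : ζ0 + τ ≤ 1) :
    τ * kap b0 b1 G ≤ 160 * kap (b0s b0 b1 ζ0) (b1s b1 τ) G := by
  obtain ⟨k1, k2, k3, k4, k5⟩ := kap_comp (b0s b0 b1 ζ0) (b1s b1 τ) G
  have hκ := kap_nonneg (b0s b0 b1 ζ0) (b1s b1 τ) G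
  obtain ⟨g1, g2, -, -, -, -, -, s1, s2⟩ := N.b1_le
  have N' := nrmC_mono N h0 h1 h2
  obtain ⟨-, -, j3, j4, -, -, -⟩ := N'.sh_le
  obtain ⟨m1, -⟩ := N.G_le
  have hζ1 : ζ0 ≤ 1 := by linarith
  have hτ1 : τ ≤ 1 := by linarith
  obtain ⟨d1, d2⟩ := D_ge N h0 hζ1
  set κ := kap (b0s b0 b1 ζ0) (b1s b1 τ) G with hκd
  rcases h1.eq_or_lt with h | hτ
  · rw [← h, zero_mul]; positivity
  -- rotation
  have rot : ∀ k : Fin 3, k = 1 ∨ k = 2 → |shB1 (b0s b0 b1 ζ0) (b1s b1 τ) k| ≤ κ →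
      |shB1 b0 b1 k| ≤ 4 * κ / τ := by
    intro k hk hb
    have e1 : shB1 b0 b1 k =
        b0s b0 b1 ζ0 0 / b0 0 * shB1 (b0s b0 b1 ζ0) (b1s b1 τ) k / τ := by
      rw [shB1_sub (by linarith) (by linarith) hk]
      have : b0 0 ≠ 0 := by linarith
      have : b0s b0 b1 ζ0 0 ≠ 0 := by linarith
      field_simp
    have hD : |b0s b0 b1 ζ0 0 / b0 0| ≤ 4 := by
      rw [abs_of_pos (by positivity), div_le_iff₀ (by linarith)]; linarith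
    rw [e1, abs_div, abs_of_pos hτ]
    exact div_le_div_of_nonneg_right (mul_abs_le hD hb) hτ.le
  have r1 := rot 1 (Or.inl rfl) k1
  have r2 := rot 2 (Or.inr rfl) k2
  have sl : ∀ k : Fin 3, k = 1 ∨ k = 2 → |shB1 b0 b1 k| ≤ 4 * κ / τ →
      |b0 k / b0 0 - b0s b0 b1 ζ0 k / b0s b0 b1 ζ0 0| ≤ 8 * κ / τ := by
    intro k hk hb
    rw [abs_sub_comm]
    refine (slope_sub N h0 hζ1 hk).trans ?_
    have := abs_nonneg (shB1 b0 b1 k)
    have e1 : 8 * κ / τ = 2 * (4 * κ / τ) := by ring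
    rw [e1]
    nlinarith
  have f4 : ∀ k : Fin 3, k = 1 ∨ k = 2 → |b0 k / b0 0| ≤ 2 →
      |b0 k / b0 0 - b0s b0 b1 ζ0 k / b0s b0 b1 ζ0 0| ≤ 4 := by
    intro k hk hb
    exact (Arc880.abs_sub2 hb (slope_abs N h0 hζ1 hk)).trans (by norm_num)
  obtain ⟨u1, u2, u3⟩ := shG_shift_le (G := G) (b0s b0 b1 ζ0) b0
    (d1 := b0 1 / b0 0 - b0s b0 b1 ζ0 1 / b0s b0 b1 ζ0 0)
    (d2 := b0 2 / b0 0 - b0s b0 b1 ζ0 2 / b0s b0 b1 ζ0 0) (m := 8 * κ / τ) (κ := κ)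
    (by ring) (by ring) (sl 1 (Or.inl rfl) r1) (sl 2 (Or.inr rfl) r2)
    (f4 1 (Or.inl rfl) s1) (f4 2 (Or.inr rfl) s2) j3 j4 m1 k3 k4 k5
  have c1 : κ ≤ κ / τ := by rw [le_div_iff₀ hτ]; nlinarith
  have c2 : 0 ≤ κ / τ := by positivity
  have e1 : 4 * κ / τ = 4 * (κ / τ) := by ring
  have e2 : 8 * κ / τ = 8 * (κ / τ) := by ring
  rw [e1] at r1 r2
  rw [e2] at u1 u2 u3
  have : kap b0 b1 G ≤ 160 * (κ / τ) :=
    max_le (max_le (by linarith) (by linarith))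
      (max_le (max_le (by linarith) (by linarith)) (by linarith))
  calc τ * kap b0 b1 G ≤ τ * (160 * (κ / τ)) := mul_le_mul_of_nonneg_left this h1
    _ = 160 * κ := by field_simp

/-! ### the fan -/

theorem slp_sub (b0 b1 : V3) (ζ0 τ ζ : ℝ) (k : Fin 3) :
    slp (b0s b0 b1 ζ0) (b1s b1 τ) k ζ = slp b0 b1 k (ζ0 + τ * ζ) := by
  simp only [slp, b0s, b1s]
  congr 1
  · ring
  · ring

/-- **the fan of the sub-cell** -/
theorem fan_sub (b0 b1 : V3) (G : QF) (ζ0 τ ζ : ℝ) (i j : Fin 3) :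
    fan (b0s b0 b1 ζ0) (b1s b1 τ) G ζ i j =
      (if i = 0 then τ else 1) * (if j = 0 then τ else 1) * fan b0 b1 G (ζ0 + τ * ζ) i j := by
  have e1 := slp_sub b0 b1 ζ0 τ ζ 1
  have e2 := slp_sub b0 b1 ζ0 τ ζ 2
  fin_cases i <;> fin_cases j <;>
    simp [fan, e1, e2, b1s] <;> ring

/-- **the determinant of the fan of the sub-cell** -/
theorem det3_sub (b0 b1 : V3) (G : QF) (ζ0 τ ζ : ℝ) :
    det3 (fan (b0s b0 b1 ζ0) (b1s b1 τ) G ζ) = τ ^ 2 * det3 (fan b0 b1 G (ζ0 + τ * ζ)) := by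
  unfold det3
  simp only [fan_sub]
  simp
  ring

/-- scaled fans, exactly -/
theorem det3_scaled_sub {κ κs ζ0 τ ζ : ℝ} (g0 : b0 0 ≠ 0) (g1 : b0 0 + ζ0 * b1 0 ≠ 0)
    (g2 : b0 0 + (ζ0 + τ * ζ) * b1 0 ≠ 0) (hκ : κ ≠ 0) (hκs : κs ≠ 0) :
    det3 (fan (shB0 (b0s b0 b1 ζ0)) (scB1 κs (b0s b0 b1 ζ0) (b1s b1 τ))
      (scG κs (b0s b0 b1 ζ0) G) ζ) = τ ^ 2 * (κ / κs) ^ 3 *
        det3 (fan (shB0 b0) (scB1 κ b0 b1) (scG κ b0 G) (ζ0 + τ * ζ)) := by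
  rw [det3_scaled (b0 := b0s b0 b1 ζ0) (b1 := b1s b1 τ) (by exact g1)
    (by
      have : b0s b0 b1 ζ0 0 + ζ * b1s b1 τ 0 = b0 0 + (ζ0 + τ * ζ) * b1 0 := by
        simp only [b0s, b1s]; ring
      rw [this]; exact g2) hκs, det3_scaled g0 g2 hκ, det3_sub]
  field_simp

/-- **non-degeneracy on a sub-cell** : scaled fans -/
theorem det3_scaled_ge (N : NrmC b0 b1 G) {ζ0 τ ζ : ℝ} (h0 : 0 ≤ ζ0) (h1 : 0 ≤ τ)
    (h2 : ζ0 + τ ≤ 1) (hζ : 0 ≤ ζ) (hζ' : ζ ≤ 1) (hκ : 0 < kap b0 b1 G)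
    (hκs : 0 < kap (b0s b0 b1 ζ0) (b1s b1 τ) G) :
    τ ^ 2 / 40 ^ 3 * |det3 (fan (shB0 b0) (scB1 (kap b0 b1 G) b0 b1) (scG (kap b0 b1 G) b0 G)
        (ζ0 + τ * ζ))| ≤
      |det3 (fan (shB0 (b0s b0 b1 ζ0))
        (scB1 (kap (b0s b0 b1 ζ0) (b1s b1 τ) G) (b0s b0 b1 ζ0) (b1s b1 τ))
        (scG (kap (b0s b0 b1 ζ0) (b1s b1 τ) G) (b0s b0 b1 ζ0) G) ζ)| := by
  obtain ⟨g1, -⟩ := N.b1_le
  have hζ1 : ζ0 ≤ 1 := by linarith
  obtain ⟨d1, -⟩ := D_ge N h0 hζ1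
  obtain ⟨d2, -⟩ := D_ge N (ζ0 := ζ0 + τ * ζ) (by positivity) (by nlinarith)
  have d1' : 1 / 2 ≤ b0 0 + ζ0 * b1 0 := d1
  have d2' : 1 / 2 ≤ b0 0 + (ζ0 + τ * ζ) * b1 0 := d2
  have hle := kap_sub_le N h0 h1 h2
  rw [det3_scaled_sub (b0 := b0) (b1 := b1) (G := G) (κ := kap b0 b1 G) (by linarith)
    (by linarith) (by linarith) hκ.ne' hκs.ne']
  set κ := kap b0 b1 G with hκd
  set κs := kap (b0s b0 b1 ζ0) (b1s b1 τ) G with hκsd
  rw [abs_mul]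
  refine mul_le_mul_of_nonneg_right ?_ (abs_nonneg _)
  rw [abs_mul, abs_of_nonneg (by positivity : 0 ≤ τ ^ 2), abs_of_pos (by positivity),
    div_eq_mul_inv]
  refine mul_le_mul_of_nonneg_left ?_ (by positivity)
  have h3 : (1 : ℝ) / 40 ≤ κ / κs := by
    rw [div_le_div_iff₀ (by norm_num) hκs]; linarith
  calc ((40 : ℝ) ^ 3)⁻¹ = (1 / 40) ^ 3 := by norm_num
    _ ≤ (κ / κs) ^ 3 := pow_le_pow_left₀ (by norm_num) h3 3

/-- **non-degeneracy passes to the sub-cells** (`hnd` of `Tl102.cap`) -/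
theorem nd_mono (N : NrmC b0 b1 G) {ζ0 τ κd : ℝ} (h0 : 0 ≤ ζ0) (h1 : 0 < τ)
    (h2 : ζ0 + τ ≤ 1) (hκ : 0 < kap b0 b1 G)
    (hnd : ∀ ζ, 0 ≤ ζ → ζ ≤ 1 →
      κd ≤ |det3 (fan (shB0 b0) (scB1 (kap b0 b1 G) b0 b1) (scG (kap b0 b1 G) b0 G) ζ)|) :
    0 < kap (b0s b0 b1 ζ0) (b1s b1 τ) G ∧ ∀ ζ, 0 ≤ ζ → ζ ≤ 1 →
      τ ^ 2 / 40 ^ 3 * κd ≤ |det3 (fan (shB0 (b0s b0 b1 ζ0))
        (scB1 (kap (b0s b0 b1 ζ0) (b1s b1 τ) G) (b0s b0 b1 ζ0) (b1s b1 τ))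
        (scG (kap (b0s b0 b1 ζ0) (b1s b1 τ) G) (b0s b0 b1 ζ0) G) ζ)| := by
  have hs : 0 < kap (b0s b0 b1 ζ0) (b1s b1 τ) G := by
    have := kap_le_sub N h0 h1.le h2
    have h3 : 0 < τ * kap b0 b1 G := mul_pos h1 hκ
    linarith
  refine ⟨hs, fun ζ hζ hζ' => ?_⟩
  refine le_trans ?_ (det3_scaled_ge N h0 h1.le h2 hζ hζ' hκ hs)
  exact mul_le_mul_of_nonneg_left (hnd _ (by positivity) (by nlinarith)) (by positivity)

end Crest.Agent.R136.Cps605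
end

-- ▼ part R136/Coi6_102

/-!
# R136 (S0187): capture, official literal `CapC` (helper102)

`capP` (stronger: also the coefficients of `ω`) and `capC : CapC kapP DetP`.
-/

set_option autoImplicit false

namespace Crest.Agent.R136.Tl102

open Crest.Agent.R136.Sh605
open Crest.Agent.R136.Arc880 (det3)
open Crest.Agent.R136.K4 (Plk4)
open Crest.Agent.R136.Deep51 (CoinC CloseC)
open Crest.Agent.R136.Tlt51 (CompC Agree CapC Shp InP)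
open Crest.Agent.R136.KapP335
open Crest.Agent.R136.Cps605

/-- **coefficient form of closeness**: `q' = m q + ω`, coefficients of `ω` at most `E` -/
def PolyC (E : ℝ) (S S' : Plk4) (T : Ln4) (z0 ρ : ℝ) : Prop :=
  ∀ (b0 b1 : V3) (G : QF) (b0' b1' : V3) (G' : QF), IsExp S.q S.e S.w T z0 ρ b0 b1 G →
    IsExp S'.q S.e S.w T z0 ρ b0' b1' G' → 1 / 16 ≤ |b0' 0 / b0 0| ∧ |b0' 0 / b0 0| ≤ 8 ∧
      ∃ X, X * (S.w 0 * kap b0 b1 G) ≤ E ∧ OmB (kap b0 b1 G) X X X b0 b1 G b0' b1' G'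

/-- `Agree` and closeness of the coefficients -/
structure AgreeP (A E s lam : ℝ) (S S' : Plk4) (T : Ln4) (z0 ρ : ℝ) : Prop
    extends Agree A E s lam S S' T z0 ρ where
  poly : PolyC E S S' T z0 ρ

section two

variable {e : Fin 3 → V3} {c : Ln4} {w : V3} {q : ℝ → V3 → ℝ} {e' : Fin 3 → V3} {c' : Ln4}
  {w' : V3} {q' : ℝ → V3 → ℝ} {T : Ln4} {z0 ρ a a' : ℝ} {b0 b1 : V3} {G : QF}
  {b0' b1' : V3} {G' : QF} {d0 d1 : V3} {H : QF} {B lam : ℝ}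

theorem height_exists {z0 ρ z : ℝ} (hρ : 0 < ρ) (h0 : z0 ≤ z) (h1 : z ≤ z0 + ρ) :
    ∃ ζ, 0 ≤ ζ ∧ ζ ≤ 1 ∧ z = z0 + ρ * ζ := by
  refine ⟨(z - z0) / ρ, div_nonneg (by linarith) hρ.le, ?_, ?_⟩
  · rw [div_le_one hρ]; linarith
  · rw [mul_div_cancel₀ _ hρ.ne']; ring

/-- coincidence in the form `CoinC` -/
theorem Two.coinC (D : Two e c w q e' c' w' q' T z0 ρ a a' b0 b1 G b0' b1' G' d0 d1 H B lam)
    (hρ : 0 < ρ) {κ X Λ δ s A : ℝ} (hκ : 0 < κ) (hk : kap b0 b1 G ≤ κ) (hκ1 : κ ≤ 13)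
    (O : OmB κ X X X b0 b1 G b0' b1' G') (hX : 8 * (X * (w 0 * κ)) ≤ w 2) (hX1 : X ≤ 1)
    (hΛ : X * (w 0 * κ) ≤ Λ) (hδ : a' ≤ δ * (w 0 * κ)) (hs : 0 ≤ s) (hr : s * B ≤ 1 / 8)
    (hε : 10 ^ 12 * (δ + s * B * (B * lam) ^ 2) ≤ 1 / 34)
    (hA : a + 16 * (2 * a' + 11 * (10 ^ 12 * (δ + s * B * (B * lam) ^ 2)) * Λ) ≤ A) :
    CoinC e w q e' c' w' q' a' A (s / lam * w 1) (s * w 2) T z0 ρ := by
  intro z hz hz' P hP hq h1 h2
  obtain ⟨ζ, hζ, hζ', rfl⟩ := height_exists hρ hz hz'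
  have hlam := D.lam1
  have hB := D.B1
  have hPK : InK e' c' (dbl3 w') (z0 + ρ * ζ) P := by
    intro i
    have := hP i
    have hwi := D.S'.pos i
    change _ ≤ 2 * w' i
    linarith
  have g1 : |pv e' w' (P - T.pos (z0 + ρ * ζ)) 1| ≤ s * B := by
    have hwi := D.S'.pos 1
    change |dt (e' 1) (P - T.pos (z0 + ρ * ζ)) / w' 1| ≤ _
    rw [abs_div, abs_of_pos hwi, div_le_iff₀ hwi]
    refine h1.trans ?_
    have h3 : s / lam ≤ s := div_le_self hs hlam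
    calc s / lam * w 1 ≤ s * (B * w' 1) :=
          mul_le_mul h3 D.wB1' (D.S.pos 1).le hs
      _ = _ := by ring
  have g2 : |pv e' w' (P - T.pos (z0 + ρ * ζ)) 2| ≤ s * B := by
    have hwi := D.S'.pos 2
    change |dt (e' 2) (P - T.pos (z0 + ρ * ζ)) / w' 2| ≤ _
    rw [abs_div, abs_of_pos hwi, div_le_iff₀ hwi]
    refine h2.trans ?_
    calc s * w 2 ≤ s * (B * w' 2) := mul_le_mul_of_nonneg_left D.wB2' hs
      _ = _ := by ring
  obtain ⟨k1, k2⟩ := D.coin hκ hk hκ1 O hX hX1 hΛ hδ hr (hε.trans (by norm_num)) hζ hζ' hPK hq g1 g2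
  refine ⟨k1.trans ?_, k2.trans hA⟩
  have hw0 := D.S.pos 0
  have := mul_le_mul_of_nonneg_left hε hw0.le
  linarith

/-- closeness in the form `CloseC` -/
theorem Two.closeC (D : Two e c w q e' c' w' q' T z0 ρ a a' b0 b1 G b0' b1' G' d0 d1 H B lam)
    (hρ : 0 < ρ) {κ X Λ E : ℝ} (hκ : 0 < κ) (hk : kap b0 b1 G ≤ κ)
    (O : OmB κ X X X b0 b1 G b0' b1' G')
    (hΛ : X * (w 0 * κ) ≤ Λ) (hδ : 16 * a ≤ w 0 * κ) (hE : a' + 16 * a + 4 * Λ ≤ E) :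
    CloseC e w q a q' E T z0 ρ := by
  intro z hz hz' P hP hq
  obtain ⟨ζ, hζ, hζ', rfl⟩ := height_exists hρ hz hz'
  exact (D.closeA hκ hk O hΛ hδ hζ hζ' hP hq).trans hE

/-- closeness in the form `CloseC`, other direction -/
theorem Two.closeC' (D : Two e c w q e' c' w' q' T z0 ρ a a' b0 b1 G b0' b1' G' d0 d1 H B lam)
    (hρ : 0 < ρ) {κ X Λ E : ℝ} (hκ : 0 < κ) (hk : kap b0 b1 G ≤ κ) (hκ1 : κ ≤ 13)
    (O : OmB κ X X X b0 b1 G b0' b1' G') (hX : 8 * (X * (w 0 * κ)) ≤ w 2) (hX1 : X ≤ 1)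
    (hΛ : X * (w 0 * κ) ≤ Λ) (hδ : a' ≤ w 0 * κ)
    (hE : a + 16 * (2 * a' + 11 * (10 ^ 11 * (B * lam) ^ 2) ^ 2 * Λ) ≤ E) :
    CloseC e' w' q' a' q E T z0 ρ := by
  intro z hz hz' P hP hq
  obtain ⟨ζ, hζ, hζ', rfl⟩ := height_exists hρ hz hz'
  exact (D.closeB hκ hk hκ1 O hX hX1 hΛ hδ hζ hζ' hP hq).trans hE

end two

/-! ### numbers -/

/-- constant of `η ^ 20` -/
noncomputable def cH : ℝ := (48 * 884736000 ^ 3) ^ 20

/-- the constant -/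
noncomputable def cK : ℝ := 2 * 10 ^ 24 + 2 * cSm * cH + 16 * cX * cH

/-- exponent and constant of `CapC` -/
noncomputable def cC : ℝ := 700 + cK

theorem cH_pos : 0 < cH := by unfold cH; positivity

theorem cK_ge : 2 * 10 ^ 24 ≤ cK ∧ 2 * cSm * cH ≤ cK ∧ 16 * cX * cH ≤ cK := by
  have h1 := cH_pos
  have h2 := cSm_pos
  have h3 := cX_pos
  have h4 : 0 < 2 * cSm * cH := by positivity
  have h5 : 0 < 16 * cX * cH := by positivity
  unfold cK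
  refine ⟨by linarith, by linarith, by linarith⟩

/-- `η` of the capture lemma -/
noncomputable def etaC (θ : ℝ) : ℝ := (θ ^ 3 / 64000 * (θ / 8) ^ 2 / 216) ^ 3 / 48

theorem etaC_eq (θ : ℝ) : etaC θ = θ ^ 15 / (48 * 884736000 ^ 3) := by
  unfold etaC; ring

theorem etaC_pow (θ : ℝ) : etaC θ ^ 20 = θ ^ 300 / cH := by
  rw [etaC_eq, cH, div_pow]; ring

theorem pow_le_pow_of {θ : ℝ} (h0 : 0 ≤ θ) (h1 : θ ≤ 1) {m n : ℕ} (h : m ≤ n) :
    θ ^ n ≤ θ ^ m := pow_le_pow_of_le_one h0 h1 h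

/-- numbers for the capture lemma -/
theorem num_cap {θ u a v : ℝ} (hθ : 0 < θ) (hK : cK * θ ≤ 1) (hu : u ≤ θ ^ 700)
    (hv : 0 < v) (ha : a ≤ θ ^ 698 * v) : cSm * (u + a / v) ≤ etaC θ ^ 20 := by
  obtain ⟨k1, k2, -⟩ := cK_ge
  have hS := cSm_pos
  have hH := cH_pos
  have hθ1 : θ ≤ 1 := by nlinarith
  have h1 : a / v ≤ θ ^ 698 := by rw [div_le_iff₀ hv]; exact ha
  have h2 : θ ^ 700 ≤ θ ^ 698 := pow_le_pow_of hθ.le hθ1 (by norm_num)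
  have h3 : 2 * cSm * cH * θ ≤ 1 := (mul_le_mul_of_nonneg_right k2 hθ.le).trans hK
  rw [etaC_pow, le_div_iff₀ hH]
  calc cSm * (u + a / v) * cH ≤ cSm * (θ ^ 698 + θ ^ 698) * cH := by gcongr; linarith
    _ = (2 * cSm * cH * θ) * θ ^ 697 := by ring
    _ ≤ 1 * θ ^ 697 := by gcongr
    _ = θ ^ 697 := one_mul _
    _ ≤ θ ^ 300 := pow_le_pow_of hθ.le hθ1 (by norm_num)

/-- numbers for the coefficients -/
theorem num_X {θ a a' v : ℝ} (hθ : 0 < θ) (hK : cK * θ ≤ 1) (ha : 0 ≤ a) (ha' : 0 ≤ a')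
    (hv : 0 < v) (h : a + a' ≤ θ ^ 698 * v) :
    xP (etaC θ) a a' v * v ≤ (a + a') / θ ^ 301 ∧ xP (etaC θ) a a' v ≤ θ ^ 397 := by
  obtain ⟨k1, -, k3⟩ := cK_ge
  have hX := cX_pos
  have hH := cH_pos
  have hη : 0 < etaC θ := by rw [etaC_eq]; positivity
  have h3 : 16 * cX * cH * θ ≤ 1 := (mul_le_mul_of_nonneg_right k3 hθ.le).trans hK
  have h1 : xP (etaC θ) a a' v * v ≤ (a + a') / θ ^ 301 := by
    rw [xP_mul hη a a' hv.ne', etaC_pow, le_div_iff₀ (by positivity)]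
    have e1 : cX * (2 * a' + 16 * a) / (θ ^ 300 / cH) * θ ^ 301 =
        cX * (2 * a' + 16 * a) * cH * θ := by field_simp
    rw [e1]
    calc cX * (2 * a' + 16 * a) * cH * θ ≤ cX * (16 * (a + a')) * cH * θ := by
          gcongr
          linarith
      _ = (16 * cX * cH * θ) * (a + a') := by ring
      _ ≤ 1 * (a + a') := by gcongr
      _ = a + a' := one_mul _
  refine ⟨h1, ?_⟩
  have h4 : (a + a') / θ ^ 301 ≤ θ ^ 397 * v := by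
    rw [div_le_iff₀ (by positivity)]
    calc a + a' ≤ θ ^ 698 * v := h
      _ = θ ^ 397 * v * θ ^ 301 := by ring
  exact le_of_mul_le_mul_right (h1.trans h4) hv

end Crest.Agent.R136.Tl102
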