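import Crest.Agent.R136.Wit5_321
import Crest.Agent.R136.KapP_335
import Crest.Agent.R136.Tlt0_51
import Crest.Agent.R136.Coi6_102

-- ▼ part R136/TL1_650
section

/-!
# R136, two-level closeness in coefficient form (helper650), part 1: normal form and core

`lagr`, `cr_cr`, `dual` : identities of the normal form `Y - z B + A² / D + ..` of a
nondegenerate family; **`core`** : a second family which is small on the zero set of a
nondegenerate one is a multiple of it, coefficient by coefficient.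
-/

set_option autoImplicit false
set_option linter.unusedVariables false

namespace Crest.Agent.R136.TL650

open Crest.Agent.R136.Sh605
open Crest.Agent.R136.GeoN778 (Qd)
open Crest.Agent.R136.Wit321 (Wq wqd wqd_ev dif dif_gr dif_ev mul mul_gr mul_ev gr_zero gr_close)
open Crest.Agent.R136.Tl102 (QF Fq bz)

/-- cross product -/
def cr (a b : V3) : V3 :=
  ![a 1 * b 2 - a 2 * b 1, a 2 * b 0 - a 0 * b 2, a 0 * b 1 - a 1 * b 0]

/-- symmetric matrix of a form times a vector -/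
noncomputable def gv (G : QF) (x : V3) : V3 :=
  ![G.yy * x 0 + G.yu / 2 * x 1 + G.yv / 2 * x 2, G.yu / 2 * x 0 + G.uu * x 1 + G.uv / 2 * x 2,
    G.yv / 2 * x 0 + G.uv / 2 * x 1 + G.vv * x 2]

/-- adjugate form -/
noncomputable def aj (G : QF) (x y : V3) : ℝ :=
  (G.uu * G.vv - G.uv ^ 2 / 4) * (x 0 * y 0) + (G.yy * G.vv - G.yv ^ 2 / 4) * (x 1 * y 1) +
    (G.yy * G.uu - G.yu ^ 2 / 4) * (x 2 * y 2) +
    (G.yv * G.uv / 4 - G.yu * G.vv / 2) * (x 0 * y 1 + x 1 * y 0) +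
    (G.yu * G.uv / 4 - G.yv * G.uu / 2) * (x 0 * y 2 + x 2 * y 0) +
    (G.yu * G.yv / 4 - G.yy * G.uv / 2) * (x 1 * y 2 + x 2 * y 1)

theorem lagr (G : QF) (O X : V3) :
    dt (gv G O) O * G.ev X = dt (gv G O) X ^ 2 + aj G (cr O X) (cr O X) := by
  simp only [dt, gv, aj, cr, QF.ev, Matrix.cons_val]
  ring

theorem cr_cr (N R X : V3) (j : Fin 3) : cr (cr N R) X j = dt N X * R j - dt R X * N j := by
  fin_cases j <;> simp [cr, dt] <;> ring

theorem dual (N R K X : V3) (j : Fin 3) : dt K (cr N R) * X j =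
    dt N X * cr R K j + dt R X * cr K N j + dt K X * cr N R j := by
  fin_cases j <;> simp [cr, dt] <;> ring

/-- normal form of a form -/
theorem norm_form (G : QF) (N R X : V3) :
    dt (gv G (cr N R)) (cr N R) * G.ev X = dt (gv G (cr N R)) X ^ 2 +
      (dt N X ^ 2 * aj G R R - 2 * (dt N X * dt R X) * aj G R N + dt R X ^ 2 * aj G N N) := by
  rw [lagr]
  have h0 := cr_cr N R X 0
  have h1 := cr_cr N R X 1
  have h2 := cr_cr N R X 2
  simp only [aj, h0, h1, h2]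
  ring

theorem dt_abs {x y : V3} {a b : ℝ} (hx : ∀ k, |x k| ≤ a) (hy : ∀ k, |y k| ≤ b) :
    |dt x y| ≤ 3 * (a * b) := by
  have ha : 0 ≤ a := (abs_nonneg _).trans (hx 0)
  have h : ∀ k, |x k * y k| ≤ a * b := fun k => by
    rw [abs_mul]; exact mul_le_mul (hx k) (hy k) (abs_nonneg _) ha
  have := h 0
  have := h 1
  have := h 2
  calc |dt x y| ≤ |x 0 * y 0| + |x 1 * y 1| + |x 2 * y 2| := by
        unfold dt
        exact (abs_add_le _ _).trans (add_le_add_left (abs_add_le _ _) _)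
    _ ≤ _ := by linarith

theorem cr_abs {x y : V3} {a b : ℝ} (hx : ∀ k, |x k| ≤ a) (hy : ∀ k, |y k| ≤ b) (j : Fin 3) :
    |cr x y j| ≤ 2 * (a * b) := by
  have ha : 0 ≤ a := (abs_nonneg _).trans (hx 0)
  have h : ∀ k l, |x k * y l| ≤ a * b := fun k l => by
    rw [abs_mul]; exact mul_le_mul (hx k) (hy l) (abs_nonneg _) ha
  have s : ∀ p q : ℝ, |p| ≤ a * b → |q| ≤ a * b → |p - q| ≤ 2 * (a * b) := fun p q h1 h2 =>
    (abs_sub _ _).trans (by linarith)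
  fin_cases j
  · exact s _ _ (h 1 2) (h 2 1)
  · exact s _ _ (h 2 0) (h 0 2)
  · exact s _ _ (h 0 1) (h 1 0)

theorem gv_abs {G : QF} {x : V3} {g a : ℝ} (hG : G.Le g) (hx : ∀ k, |x k| ≤ a) (j : Fin 3) :
    |gv G x j| ≤ 3 * (g * a) := by
  obtain ⟨h1, h2, h3, h4, h5, h6⟩ := hG
  have hg : 0 ≤ g := (abs_nonneg _).trans h1
  have ha : 0 ≤ a := (abs_nonneg _).trans (hx 0)
  have f : ∀ (c : ℝ), |c| ≤ g → ∀ k, |c * x k| ≤ g * a := fun c hc k => by
    rw [abs_mul]; exact mul_le_mul hc (hx k) (abs_nonneg _) hg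
  have hh : ∀ c : ℝ, |c| ≤ g → |c / 2| ≤ g := fun c hc => by
    rw [abs_div, abs_two]; linarith [abs_nonneg c]
  have s : ∀ p q r : ℝ, |p| ≤ g * a → |q| ≤ g * a → |r| ≤ g * a → |p + q + r| ≤ 3 * (g * a) :=
    fun p q r a1 a2 a3 => ((abs_add_le _ _).trans (add_le_add_left (abs_add_le _ _) _)).trans
      (by linarith)
  fin_cases j
  · exact s _ _ _ (f _ h1 0) (f _ (hh _ h2) 1) (f _ (hh _ h3) 2)
  · exact s _ _ _ (f _ (hh _ h2) 0) (f _ h4 1) (f _ (hh _ h5) 2)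
  · exact s _ _ _ (f _ (hh _ h3) 0) (f _ (hh _ h5) 1) (f _ h6 2)

theorem aj_abs {G : QF} {x y : V3} {g a b : ℝ} (hG : G.Le g) (hx : ∀ k, |x k| ≤ a)
    (hy : ∀ k, |y k| ≤ b) : |aj G x y| ≤ 12 * (g ^ 2 * (a * b)) := by
  obtain ⟨h1, h2, h3, h4, h5, h6⟩ := hG
  have hg : 0 ≤ g := (abs_nonneg _).trans h1
  have ha : 0 ≤ a := (abs_nonneg _).trans (hx 0)
  have hb : 0 ≤ b := (abs_nonneg _).trans (hy 0)
  have hab : 0 ≤ a * b := mul_nonneg ha hb
  have p : ∀ k l, |x k * y l| ≤ a * b := fun k l => by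
    rw [abs_mul]; exact mul_le_mul (hx k) (hy l) (abs_nonneg _) ha
  have q : ∀ c d : ℝ, |c| ≤ g → |d| ≤ g → |c * d| ≤ g ^ 2 := fun c d hc hd => by
    rw [abs_mul, sq]; exact mul_le_mul hc hd (abs_nonneg _) hg
  have e1 : ∀ c d e : ℝ, |c| ≤ g → |d| ≤ g → |e| ≤ g → |c * d - e ^ 2 / 4| ≤ 2 * g ^ 2 := by
    intro c d e hc hd he
    refine (abs_sub _ _).trans ?_
    have := q c d hc hd
    have h3 := q e e he he
    rw [abs_div, sq]
    have h4 : |e * e| / |(4 : ℝ)| ≤ g ^ 2 := by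
      rw [abs_of_pos (by norm_num : (0 : ℝ) < 4)]; linarith [abs_nonneg (e * e)]
    linarith
  have e2 : ∀ c d e f : ℝ, |c| ≤ g → |d| ≤ g → |e| ≤ g → |f| ≤ g →
      |c * d / 4 - e * f / 2| ≤ g ^ 2 := by
    intro c d e f hc hd he hf
    refine (abs_sub _ _).trans ?_
    have h1 := q c d hc hd
    have h2 := q e f he hf
    rw [abs_div, abs_div, abs_two, abs_of_pos (by norm_num : (0 : ℝ) < 4)]
    have := abs_nonneg (c * d)
    have := abs_nonneg (e * f)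
    linarith
  have t1 : ∀ c d : ℝ, |c| ≤ 2 * g ^ 2 → |d| ≤ a * b → |c * d| ≤ 2 * (g ^ 2 * (a * b)) := by
    intro c d hc hd
    rw [abs_mul]
    calc |c| * |d| ≤ 2 * g ^ 2 * (a * b) := mul_le_mul hc hd (abs_nonneg _) (by positivity)
      _ = _ := by ring
  have t2 : ∀ c d e : ℝ, |c| ≤ g ^ 2 → |d| ≤ a * b → |e| ≤ a * b →
      |c * (d + e)| ≤ 2 * (g ^ 2 * (a * b)) := by
    intro c d e hc hd he
    rw [abs_mul]
    calc |c| * |d + e| ≤ g ^ 2 * (2 * (a * b)) :=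
          mul_le_mul hc ((abs_add_le _ _).trans (by linarith)) (abs_nonneg _) (by positivity)
      _ = _ := by ring
  have s : ∀ p1 p2 p3 p4 p5 p6 M : ℝ, |p1| ≤ M → |p2| ≤ M → |p3| ≤ M → |p4| ≤ M → |p5| ≤ M →
      |p6| ≤ M → |p1 + p2 + p3 + p4 + p5 + p6| ≤ 6 * M := by
    intro p1 p2 p3 p4 p5 p6 M a1 a2 a3 a4 a5 a6
    rw [abs_le] at *
    constructor <;> linarith [a1.1, a1.2, a2.1, a2.2, a3.1, a3.2, a4.1, a4.2, a5.1, a5.2, a6.1,
      a6.2]
  refine (s _ _ _ _ _ _ _ (t1 _ _ (e1 _ _ _ h4 h6 h5) (p 0 0)) (t1 _ _ (e1 _ _ _ h1 h6 h3) (p 1 1))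
    (t1 _ _ (e1 _ _ _ h1 h4 h2) (p 2 2)) (t2 _ _ _ (e2 _ _ _ _ h3 h5 h2 h6) (p 0 1) (p 1 0))
    (t2 _ _ _ (e2 _ _ _ _ h2 h5 h3 h4) (p 0 2) (p 2 0))
    (t2 _ _ _ (e2 _ _ _ _ h2 h3 h1 h5) (p 1 2) (p 2 1))).trans (le_of_eq (by ring))

/-- gradient of `Fq` in `x` -/
noncomputable def dF (b0 b1 : V3) (G : QF) (ζ : ℝ) (X : V3) : V3 :=
  fun k => bz b0 b1 ζ k + 2 * gv G X k

/-- the second family in the graded coordinates `X = Σ x k • M k`, `ζ = c + s z` -/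
noncomputable def lift (b0 b1 : V3) (G : QF) (c s : ℝ) (M : Fin 3 → V3) : Qd where
  c0 := 0
  c1 := 0
  c2 := 0
  b := fun k => dt (bz b0 b1 c) (M k)
  d := fun k => s * dt b1 (M k)
  g := fun i j => dt (gv G (M i)) (M j)

theorem lift_ev (b0 b1 : V3) (G : QF) (c s : ℝ) (M : Fin 3 → V3) (z : ℝ) (x : V3) :
    (lift b0 b1 G c s M).ev z x = Fq b0 b1 G (c + s * z) (Tl102.cmb M x) := by
  simp only [Qd.ev, lift, Fin.sum_univ_three, Fq, dt, bz, gv, QF.ev, Tl102.cmb, Matrix.cons_val]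
  ring

theorem lift_gr (b0 b1 : V3) (G : QF) (c s : ℝ) (M : Fin 3 → V3) (z : ℝ) (x : V3) (k : Fin 3) :
    (lift b0 b1 G c s M).gr z x k = dt (dF b0 b1 G (c + s * z) (Tl102.cmb M x)) (M k) := by
  simp only [Qd.gr, lift, Fin.sum_univ_three, dF, dt, bz, gv, Tl102.cmb, Matrix.cons_val]
  ring

theorem dual' (N R K V : V3) (j : Fin 3) : dt K (cr N R) * V j =
    N j * dt V (cr R K) + R j * dt V (cr K N) + K j * dt V (cr N R) := by
  fin_cases j <;> simp [cr, dt] <;> ring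

/-- the graded frame of a nondegenerate family -/
noncomputable def fm (N R K : V3) (D s : ℝ) : Fin 3 → V3 :=
  ![fun j => s ^ 4 * cr R K j / D, fun j => s ^ 3 * cr N R j / D, fun j => -(s ^ 3 * cr K N j / D)]

/-- graded coordinates -/
noncomputable def co (N R K : V3) (s : ℝ) (X : V3) : V3 :=
  ![dt N X / s ^ 4, dt K X / s ^ 3, -(dt R X / s ^ 3)]

section

variable {N R K : V3} {D s : ℝ}

theorem cmb_co (hD : D = dt K (cr N R)) (hD0 : D ≠ 0) (hs : s ≠ 0) (X : V3) :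
    Tl102.cmb (fm N R K D s) (co N R K s X) = X := by
  funext j
  have h := dual N R K X j
  rw [← hD] at h
  simp only [Tl102.cmb, fm, co, Matrix.cons_val]
  field_simp
  linarith

theorem cov_co (hD : D = dt K (cr N R)) (hD0 : D ≠ 0) (hs : s ≠ 0) (V : V3) (j : Fin 3) :
    V j = N j / s ^ 4 * dt V (fm N R K D s 0) + K j / s ^ 3 * dt V (fm N R K D s 1) -
      R j / s ^ 3 * dt V (fm N R K D s 2) := by
  have h := dual' N R K V j
  rw [← hD] at h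
  have e0 : dt V (fm N R K D s 0) = s ^ 4 * dt V (cr R K) / D := by
    simp only [fm, dt, Matrix.cons_val]; ring
  have e1 : dt V (fm N R K D s 1) = s ^ 3 * dt V (cr N R) / D := by
    simp only [fm, dt, Matrix.cons_val]; ring
  have e2 : dt V (fm N R K D s 2) = -(s ^ 3 * dt V (cr K N) / D) := by
    simp only [fm, dt, Matrix.cons_val]; ring
  rw [e0, e1, e2]
  field_simp
  linarith

theorem dt_cmb (V : V3) (M : Fin 3 → V3) (x : V3) :
    dt V (Tl102.cmb M x) = x 0 * dt V (M 0) + x 1 * dt V (M 1) + x 2 * dt V (M 2) := by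
  simp only [dt, Tl102.cmb]; ring

theorem N_cmb (hD : D = dt K (cr N R)) (hD0 : D ≠ 0) (x : V3) :
    dt N (Tl102.cmb (fm N R K D s) x) = s ^ 4 * x 0 := by
  have h0 : dt N (cr R K) = D := by rw [hD]; simp only [dt, cr, Matrix.cons_val]; ring
  have h1 : dt N (cr N R) = 0 := by simp only [dt, cr, Matrix.cons_val]; ring
  have h2 : dt N (cr K N) = 0 := by simp only [dt, cr, Matrix.cons_val]; ring
  have e0 : dt N (fm N R K D s 0) = s ^ 4 * dt N (cr R K) / D := by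
    simp only [fm, dt, Matrix.cons_val]; ring
  have e1 : dt N (fm N R K D s 1) = s ^ 3 * dt N (cr N R) / D := by
    simp only [fm, dt, Matrix.cons_val]; ring
  have e2 : dt N (fm N R K D s 2) = -(s ^ 3 * dt N (cr K N) / D) := by
    simp only [fm, dt, Matrix.cons_val]; ring
  rw [dt_cmb, e0, e1, e2, h0, h1, h2]
  field_simp
  ring

theorem R_cmb (hD : D = dt K (cr N R)) (hD0 : D ≠ 0) (x : V3) :
    dt R (Tl102.cmb (fm N R K D s) x) = -(s ^ 3 * x 2) := by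
  have h0 : dt R (cr R K) = 0 := by simp only [dt, cr, Matrix.cons_val]; ring
  have h1 : dt R (cr N R) = 0 := by simp only [dt, cr, Matrix.cons_val]; ring
  have h2 : dt R (cr K N) = D := by rw [hD]; simp only [dt, cr, Matrix.cons_val]; ring
  have e0 : dt R (fm N R K D s 0) = s ^ 4 * dt R (cr R K) / D := by
    simp only [fm, dt, Matrix.cons_val]; ring
  have e1 : dt R (fm N R K D s 1) = s ^ 3 * dt R (cr N R) / D := by
    simp only [fm, dt, Matrix.cons_val]; ring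
  have e2 : dt R (fm N R K D s 2) = -(s ^ 3 * dt R (cr K N) / D) := by
    simp only [fm, dt, Matrix.cons_val]; ring
  rw [dt_cmb, e0, e1, e2, h0, h1, h2]
  field_simp
  ring

theorem K_cmb (hD : D = dt K (cr N R)) (hD0 : D ≠ 0) (x : V3) :
    dt K (Tl102.cmb (fm N R K D s) x) = s ^ 3 * x 1 := by
  have h0 : dt K (cr R K) = 0 := by simp only [dt, cr, Matrix.cons_val]; ring
  have h2 : dt K (cr K N) = 0 := by simp only [dt, cr, Matrix.cons_val]; ring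
  have e0 : dt K (fm N R K D s 0) = s ^ 4 * dt K (cr R K) / D := by
    simp only [fm, dt, Matrix.cons_val]; ring
  have e1 : dt K (fm N R K D s 1) = s ^ 3 * dt K (cr N R) / D := by
    simp only [fm, dt, Matrix.cons_val]; ring
  have e2 : dt K (fm N R K D s 2) = -(s ^ 3 * dt K (cr K N) / D) := by
    simp only [fm, dt, Matrix.cons_val]; ring
  rw [dt_cmb, e0, e1, e2, h0, ← hD, h2]
  field_simp
  ring

end

/-- the container polynomial in graded coordinates -/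
noncomputable def wg (G : QF) (N R : V3) (D s : ℝ) : Wq where
  γ := 0
  ζ := 0
  κ := -(s ^ 2 / D)
  c1 := 0
  c2 := s ^ 2 * aj G N N / D
  c3 := 0
  c4 := 2 * s ^ 3 * aj G R N / D
  c5 := s ^ 4 * aj G R R / D

/-- **the normal form** -/
theorem wg_q {b0 b1 : V3} {G : QF} {c s D : ℝ} (hD : D = dt (gv G (cr (bz b0 b1 c) b1))
    (cr (bz b0 b1 c) b1)) (hD0 : D ≠ 0) (z : ℝ) (x : V3) :
    Fq b0 b1 G (c + s * z) (Tl102.cmb (fm (bz b0 b1 c) b1 (gv G (cr (bz b0 b1 c) b1)) D s) x) =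
      s ^ 4 * (wg G (bz b0 b1 c) b1 D s).q z x := by
  set N := bz b0 b1 c with hN
  set K := gv G (cr N b1) with hK
  set X := Tl102.cmb (fm N b1 K D s) x with hX
  have h1 := N_cmb (s := s) hD hD0 x
  have h2 := R_cmb (s := s) hD hD0 x
  have h3 := K_cmb (s := s) hD hD0 x
  have h4 := norm_form G N b1 X
  rw [← hK, ← hD, ← hX] at *
  have e1 : Fq b0 b1 G (c + s * z) X = dt N X + s * z * dt b1 X + G.ev X := by
    simp only [Fq, hN, bz, dt]; ring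
  have e2 : G.ev X = (dt K X ^ 2 + (dt N X ^ 2 * aj G b1 b1 -
      2 * (dt N X * dt b1 X) * aj G b1 N + dt b1 X ^ 2 * aj G N N)) / D := by
    rw [eq_div_iff hD0, mul_comm]; exact h4
  rw [e1, e2, h1, h2, h3]
  simp only [Wq.q, wg]
  field_simp
  ring

theorem cr_bz (b0 b1 : V3) (c : ℝ) : cr (bz b0 b1 c) b1 = cr b0 b1 := by
  funext j
  fin_cases j <;> simp [cr, bz] <;> ring

theorem wqd_lift {b0 b1 : V3} {G : QF} {c s D : ℝ} (hD : D = dt (gv G (cr (bz b0 b1 c) b1))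
    (cr (bz b0 b1 c) b1)) (hD0 : D ≠ 0) (hs : s ≠ 0) (z : ℝ) (x : V3) (k : Fin 3) :
    (wqd (wg G (bz b0 b1 c) b1 D s)).gr z x k = 1 / s ^ 4 *
      (lift b0 b1 G c s (fm (bz b0 b1 c) b1 (gv G (cr (bz b0 b1 c) b1)) D s)).gr z x k := by
  have h := gr_zero (Q := dif (wqd (wg G (bz b0 b1 c) b1 D s)) (mul (1 / s ^ 4)
    (lift b0 b1 G c s (fm (bz b0 b1 c) b1 (gv G (cr (bz b0 b1 c) b1)) D s)))) (fun z x _ _ => by
      rw [dif_ev, mul_ev, wqd_ev, lift_ev, wg_q hD hD0]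
      field_simp
      ring) z x k
  rw [dif_gr, mul_gr] at h
  linarith

/-- **core**: a family small on the zero set of a nondegenerate family is a multiple of it -/
theorem core {b0 b1 β0 β1 : V3} {G Γ : QF} (hb0 : ∀ k, |b0 k| ≤ 2) (hb1 : ∀ k, |b1 k| ≤ 3 / 2)
    (hG : G.Le 13) {E s : ℝ} (hs : 0 < s)
    (hDs : 10 ^ 8 * s ≤ |dt (gv G (cr b0 b1)) (cr b0 b1)|)
    (hc : ∀ ζ, 0 ≤ ζ → ζ ≤ 1 → ∀ x : V3, (∀ k, |x k| ≤ 1 / 256) → Fq b0 b1 G ζ x = 0 →
      |Fq β0 β1 Γ ζ x| ≤ E) :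
    ∃ m : ℝ, ∀ ζ, 0 ≤ ζ → ζ ≤ 1 → ∀ X : V3, (∀ k, |X k| ≤ 1) → ∀ j,
      |dF β0 β1 Γ ζ X j - m * dF b0 b1 G ζ X j| ≤ 27200 * E / s ^ 8 := by
  have hE : 0 ≤ E := by
    have h := hc 0 le_rfl zero_le_one 0 (fun k => by simp) (by simp [Fq, dt, QF.ev])
    exact (abs_nonneg _).trans h
  obtain ⟨N, hN⟩ : ∃ N, N = bz b0 b1 (2 * s) := ⟨_, rfl⟩
  obtain ⟨K, hK⟩ : ∃ K, K = gv G (cr N b1) := ⟨_, rfl⟩
  obtain ⟨D, hD⟩ : ∃ D, D = dt K (cr N b1) := ⟨_, rfl⟩
  have hO : cr N b1 = cr b0 b1 := by rw [hN, cr_bz]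
  rw [← hO, ← hK, ← hD] at hDs
  have hD0 : D ≠ 0 := by
    rintro h
    rw [h, abs_zero] at hDs
    linarith
  have hDp : 0 < |D| := abs_pos.2 hD0
  have bO : ∀ k, |cr N b1 k| ≤ 6 := fun k => by
    rw [hO]
    exact (cr_abs hb0 hb1 k).trans (by norm_num)
  have bK : ∀ k, |K k| ≤ 234 := fun k => by
    rw [hK]
    exact (gv_abs hG bO k).trans (by norm_num)
  have bD : |D| ≤ 4212 := by
    rw [hD]
    exact (dt_abs bK bO).trans (by norm_num)
  have hs1 : s ≤ 1 / 20000 := by linarith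
  have bN : ∀ k, |N k| ≤ 4 := fun k => by
    rw [hN]
    show |b0 k + 2 * s * b1 k| ≤ 4
    refine (abs_add_le _ _).trans ?_
    rw [abs_mul, abs_of_pos (by positivity : (0 : ℝ) < 2 * s)]
    have := mul_le_mul_of_nonneg_left (hb1 k) (by positivity : (0 : ℝ) ≤ 2 * s)
    linarith [hb0 k]
  have hsD : s / |D| ≤ 1 / 10 ^ 8 := by
    rw [div_le_div_iff₀ hDp (by norm_num)]; linarith
  have hq : ∀ (y B : ℝ) (k : ℕ), |y| ≤ B → |s ^ (k + 2) * y / D| ≤ B / 10 ^ 12 := by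
    intro y B k hy
    have hB : 0 ≤ B := (abs_nonneg _).trans hy
    rw [abs_div, abs_mul, abs_of_pos (pow_pos hs _)]
    have e : s ^ (k + 2) * |y| / |D| = s ^ (k + 1) * (s / |D|) * |y| := by
      rw [pow_succ]; ring
    rw [e]
    have h1 : s ^ (k + 1) ≤ 1 / 10 ^ 4 := by
      calc s ^ (k + 1) ≤ s ^ 1 := pow_le_pow_of_le_one hs.le (by linarith) (by omega)
        _ ≤ _ := by rw [pow_one]; linarith
    calc s ^ (k + 1) * (s / |D|) * |y| ≤ 1 / 10 ^ 4 * (1 / 10 ^ 8) * B :=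
          mul_le_mul (mul_le_mul h1 hsD (by positivity) (by norm_num)) hy (abs_nonneg _)
            (by norm_num)
      _ = _ := by ring
  have bRR := aj_abs (a := 4) (b := 4) hG (fun k => (hb1 k).trans (by norm_num))
    (fun k => (hb1 k).trans (by norm_num))
  have bRN := aj_abs (a := 4) (b := 4) (x := b1) hG (fun k => (hb1 k).trans (by norm_num)) bN
  have bNN := aj_abs hG bN bN
  have z0 : |(0 : ℝ)| ≤ 1 / 1000 := by norm_num
  have hw : (wg G N b1 D s).Sm (1 / 1000) := by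
    refine ⟨z0, z0, z0, ?_, z0, ?_, ?_⟩
    · exact (hq _ _ 0 bNN).trans (by norm_num)
    · have h1 := hq _ _ 1 bRN
      have e : (wg G N b1 D s).c4 = 2 * (s ^ (1 + 2) * aj G b1 N / D) := by
        simp only [wg]; ring
      rw [e, abs_mul, abs_two]
      linarith
    · exact (hq _ _ 2 bRR).trans (by norm_num)
  have hκ : |(wg G N b1 D s).κ| ≤ 1 / 2 := by
    have h1 := hq 1 1 0 (by norm_num)
    have e : (wg G N b1 D s).κ = -(s ^ (0 + 2) * 1 / D) := by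
      simp only [wg]; ring
    rw [e, abs_neg]
    exact h1.trans (by norm_num)
  have bRK : ∀ k, |cr b1 K k| ≤ 702 := fun k => (cr_abs hb1 bK k).trans (by norm_num)
  have bKN : ∀ k, |cr K N k| ≤ 1872 := fun k => (cr_abs bK bN k).trans (by norm_num)
  obtain ⟨M, hM⟩ : ∃ M, M = fm N b1 K D s := ⟨_, rfl⟩
  have M0 : ∀ j, |M 0 j| ≤ 1 / 10000 := fun j => by
    rw [hM]; exact (hq _ _ 2 (bRK j)).trans (by norm_num)
  have M1 : ∀ j, |M 1 j| ≤ 1 / 10000 := fun j => by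
    rw [hM]; exact (hq _ _ 1 (bO j)).trans (by norm_num)
  have M2 : ∀ j, |M 2 j| ≤ 1 / 10000 := fun j => by
    rw [hM]
    show |-(s ^ (1 + 2) * cr K N j / D)| ≤ _
    rw [abs_neg]; exact (hq _ _ 1 (bKN j)).trans (by norm_num)
  have hwq : ∀ z x, Fq b0 b1 G (2 * s + s * z) (Tl102.cmb M x) =
      s ^ 4 * (wg G N b1 D s).q z x := by
    intro z x
    subst hM hK hN
    exact wg_q hD hD0 z x
  obtain ⟨ν, hν⟩ := gr_close hw le_rfl hκ (Q := lift β0 β1 Γ (2 * s) s M) (δ := E) (by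
    intro z x hz hx hzero
    rw [lift_ev]
    have hz' := abs_le.1 hz
    refine hc _ (by nlinarith) (by nlinarith) _ (fun k => ?_) (by rw [hwq, hzero, mul_zero])
    have p : ∀ a b : ℝ, |a| ≤ 2 → |b| ≤ 1 / 10000 → |a * b| ≤ 1 / 5000 := by
      intro a b ha hb
      rw [abs_mul]
      calc |a| * |b| ≤ 2 * (1 / 10000) := mul_le_mul ha hb (abs_nonneg _) (by norm_num)
        _ = _ := by norm_num
    have p0 := p _ _ (hx 0) (M0 k)
    have p1 := p _ _ (hx 1) (M1 k)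
    have p2 := p _ _ (hx 2) (M2 k)
    show |x 0 * M 0 k + x 1 * M 1 k + x 2 * M 2 k| ≤ 1 / 256
    rw [abs_le] at *
    constructor <;> linarith [p0.1, p0.2, p1.1, p1.2, p2.1, p2.2])
  have hgr : ∀ z x k, (wqd (wg G N b1 D s)).gr z x k =
      1 / s ^ 4 * (lift b0 b1 G (2 * s) s M).gr z x k := by
    intro z x k
    subst hM hK hN
    exact wqd_lift hD hD0 hs.ne' z x k
  refine ⟨ν / s ^ 4, fun ζ h0 h1 X hX j => ?_⟩
  have s4 : 0 < s ^ 4 := by positivity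
  have s3 : 0 < s ^ 3 := by positivity
  obtain ⟨z, hz⟩ : ∃ z, z = (ζ - 2 * s) / s := ⟨_, rfl⟩
  obtain ⟨x, hx⟩ : ∃ x, x = co N b1 K s X := ⟨_, rfl⟩
  have ez : 2 * s + s * z = ζ := by rw [hz]; field_simp; ring
  have ex : Tl102.cmb M x = X := by rw [hM, hx]; exact cmb_co hD hD0 hs.ne' X
  have s34 : ∀ B : ℝ, 0 ≤ B → B ≤ 1000 → B / s ^ 3 ≤ 1 / s ^ 4 := by
    intro B hB hB'
    rw [div_le_div_iff₀ s3 s4]
    have : B * s ≤ 1 := by nlinarith
    calc B * s ^ 4 = B * s * s ^ 3 := by ring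
      _ ≤ 1 * s ^ 3 := mul_le_mul_of_nonneg_right this s3.le
  have bz' : |z| ≤ 12 / s ^ 4 := by
    rw [hz, abs_div, abs_of_pos hs]
    have h2 : |ζ - 2 * s| ≤ 1 := abs_le.2 ⟨by linarith, by linarith⟩
    have h3 : |ζ - 2 * s| / s ≤ 1 / s := div_le_div_of_nonneg_right h2 hs.le
    have h4 : 1 / s ≤ 1 / s ^ 4 := by
      apply one_div_le_one_div_of_le s4
      calc s ^ 4 ≤ s ^ 1 := pow_le_pow_of_le_one hs.le (by linarith) (by norm_num)
        _ = s := pow_one s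
    have h5 : 1 / s ^ 4 ≤ 12 / s ^ 4 := div_le_div_of_nonneg_right (by norm_num) s4.le
    linarith
  have bx : ∀ k, |x k| ≤ 12 / s ^ 4 := by
    have e14 : 1 / s ^ 4 ≤ 12 / s ^ 4 := div_le_div_of_nonneg_right (by norm_num) s4.le
    intro k
    rw [hx]
    fin_cases k
    · show |dt N X / s ^ 4| ≤ _
      rw [abs_div, abs_of_pos s4]
      exact div_le_div_of_nonneg_right ((dt_abs bN hX).trans (by norm_num)) s4.le
    · show |dt K X / s ^ 3| ≤ _
      rw [abs_div, abs_of_pos s3]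
      have h2 : |dt K X| / s ^ 3 ≤ 702 / s ^ 3 :=
        div_le_div_of_nonneg_right ((dt_abs bK hX).trans (by norm_num)) s3.le
      linarith [s34 702 (by norm_num) (by norm_num)]
    · show |-(dt b1 X / s ^ 3)| ≤ _
      rw [abs_neg, abs_div, abs_of_pos s3]
      have h2 : |dt b1 X| / s ^ 3 ≤ 9 / 2 / s ^ 3 :=
        div_le_div_of_nonneg_right ((dt_abs hb1 hX).trans (by norm_num)) s3.le
      linarith [s34 (9 / 2) (by norm_num) (by norm_num)]
  obtain ⟨V, hV⟩ : ∃ V : V3, V = fun j => dF β0 β1 Γ ζ X j - ν / s ^ 4 * dF b0 b1 G ζ X j :=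
    ⟨_, rfl⟩
  have hVk : ∀ k, |dt V (M k)| ≤ 3400 * E / s ^ 4 := by
    intro k
    have h2 := hν (12 / s ^ 4) z x bz' bx k
    rw [hgr, lift_gr, lift_gr, ez, ex] at h2
    have e : dt V (M k) = dt (dF β0 β1 Γ ζ X) (M k) -
        ν * (1 / s ^ 4 * dt (dF b0 b1 G ζ X) (M k)) := by
      rw [hV]; simp only [dt]; ring
    rw [e]
    refine h2.trans ?_
    have h3 : 1 + 7 * (12 / s ^ 4) ≤ 85 / s ^ 4 := by
      have : 1 ≤ 1 / s ^ 4 := by
        rw [le_div_iff₀ s4, one_mul]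
        exact pow_le_one₀ hs.le (by linarith)
      have e2 : 85 / s ^ 4 = 1 / s ^ 4 + 7 * (12 / s ^ 4) := by ring
      rw [e2]; linarith
    calc 40 * E * (1 + 7 * (12 / s ^ 4)) ≤ 40 * E * (85 / s ^ 4) :=
          mul_le_mul_of_nonneg_left h3 (by positivity)
      _ = _ := by ring
  have hVj := cov_co (V := V) hD hD0 hs.ne' j
  rw [← hM] at hVj
  have goal : |V j| ≤ 27200 * E / s ^ 8 := by
    rw [hVj]
    have a0 : |N j / s ^ 4| ≤ 4 / s ^ 4 := by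
      rw [abs_div, abs_of_pos s4]; exact div_le_div_of_nonneg_right (bN j) s4.le
    have a1 : |K j / s ^ 3| ≤ 1 / s ^ 4 := by
      rw [abs_div, abs_of_pos s3]
      exact (div_le_div_of_nonneg_right (bK j) s3.le).trans (s34 _ (by norm_num) (by norm_num))
    have a2 : |b1 j / s ^ 3| ≤ 1 / s ^ 4 := by
      rw [abs_div, abs_of_pos s3]
      exact (div_le_div_of_nonneg_right (hb1 j) s3.le).trans (s34 _ (by norm_num) (by norm_num))
    have m0 : |N j / s ^ 4 * dt V (M 0)| ≤ 4 / s ^ 4 * (3400 * E / s ^ 4) := by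
      rw [abs_mul]; exact mul_le_mul a0 (hVk 0) (abs_nonneg _) (by positivity)
    have m1 : |K j / s ^ 3 * dt V (M 1)| ≤ 1 / s ^ 4 * (3400 * E / s ^ 4) := by
      rw [abs_mul]; exact mul_le_mul a1 (hVk 1) (abs_nonneg _) (by positivity)
    have m2 : |b1 j / s ^ 3 * dt V (M 2)| ≤ 1 / s ^ 4 * (3400 * E / s ^ 4) := by
      rw [abs_mul]; exact mul_le_mul a2 (hVk 2) (abs_nonneg _) (by positivity)
    have e : 27200 * E / s ^ 8 = 8 * (1 / s ^ 4 * (3400 * E / s ^ 4)) := by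
      field_simp; ring
    have e4 : 4 / s ^ 4 * (3400 * E / s ^ 4) = 4 * (1 / s ^ 4 * (3400 * E / s ^ 4)) := by ring
    have p : 0 ≤ 1 / s ^ 4 * (3400 * E / s ^ 4) := by positivity
    rw [e]
    rw [e4] at m0
    rw [abs_le] at *
    constructor <;> linarith [m0.1, m0.2, m1.1, m1.2, m2.1, m2.2]
  rw [hV] at goal
  exact goal

end Crest.Agent.R136.TL650
end

-- ▼ part R136/TL2_650
section

/-!
# R136, two-level closeness in coefficient form (helper650), part 2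

`tnV`, `tnQ` : coefficients in the tangent basis `κ f0, E1, E2` of a sheet; **`two_level`** :
closeness on the base box ⊢ the second polynomial is a multiple of the first one, coefficient by
coefficient; **`close_coef`** : the same for two marks (`Tlt51.Close`).
-/

set_option autoImplicit false
set_option linter.unusedVariables false

namespace Crest.Agent.R136.TL650

open Crest.Agent.R136.Sh605
open Crest.Agent.R136.Tl102
open Crest.Agent.R136.Arc880 (det3)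
open Crest.Agent.R136.KapP335 (kapP DetP expP expP_spec kapP_eq detP_iff)
open Crest.Agent.R136.Tlt51 (Close Shp InP)
open Crest.Agent.R136.K4 (Plk4)

/-- `Γ - m G` -/
def qdif (m : ℝ) (Γ G : QF) : QF where
  yy := Γ.yy - m * G.yy
  yu := Γ.yu - m * G.yu
  yv := Γ.yv - m * G.yv
  uu := Γ.uu - m * G.uu
  uv := Γ.uv - m * G.uv
  vv := Γ.vv - m * G.vv

/-- coefficients from the gradients -/
theorem coef_of_dF {b0 b1 β0 β1 : V3} {G Γ : QF} {m X : ℝ}
    (h : ∀ ζ, 0 ≤ ζ → ζ ≤ 1 → ∀ x : V3, (∀ k, |x k| ≤ 1) → ∀ j,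
      |dF β0 β1 Γ ζ x j - m * dF b0 b1 G ζ x j| ≤ X) :
    (∀ k, |β0 k - m * b0 k| ≤ X) ∧ (∀ k, |β1 k - m * b1 k| ≤ 2 * X) ∧
      (qdif m Γ G).Le (2 * X) := by
  have hX : 0 ≤ X := (abs_nonneg _).trans (h 0 le_rfl zero_le_one 0 (fun k => by simp) 0)
  have h0 : ∀ k, |β0 k - m * b0 k| ≤ X := by
    intro k
    have := h 0 le_rfl zero_le_one 0 (fun k => by simp) k
    have e : dF β0 β1 Γ 0 0 k - m * dF b0 b1 G 0 0 k = β0 k - m * b0 k := by
      fin_cases k <;> simp [dF, bz, gv]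
    rwa [e] at this
  have h1 : ∀ k, |β1 k - m * b1 k| ≤ 2 * X := by
    intro k
    have h2 := h 1 zero_le_one le_rfl 0 (fun k => by simp) k
    have e : dF β0 β1 Γ 1 0 k - m * dF b0 b1 G 1 0 k =
        (β0 k - m * b0 k) + (β1 k - m * b1 k) := by
      fin_cases k <;> simp [dF, bz, gv] <;> ring
    rw [e] at h2
    have h3 := h0 k
    rw [abs_le] at *
    constructor <;> linarith [h2.1, h2.2, h3.1, h3.2]
  have g : ∀ (x : V3), (∀ k, |x k| ≤ 1) → ∀ j, |2 * (gv Γ x j - m * gv G x j)| ≤ 2 * X := by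
    intro x hx j
    have h2 := h 0 le_rfl zero_le_one x hx j
    have e : dF β0 β1 Γ 0 x j - m * dF b0 b1 G 0 x j =
        (β0 j - m * b0 j) + 2 * (gv Γ x j - m * gv G x j) := by
      simp only [dF, bz]; ring
    rw [e] at h2
    have h3 := h0 j
    rw [abs_le] at *
    constructor <;> linarith [h2.1, h2.2, h3.1, h3.2]
  have v : ∀ a b c : ℝ, |a| ≤ 1 → |b| ≤ 1 → |c| ≤ 1 → ∀ k, |(![a, b, c] : V3) k| ≤ 1 := by
    intro a b c ha hb hc k
    fin_cases k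
    · exact ha
    · exact hb
    · exact hc
  have o : |(1 : ℝ)| ≤ 1 := by norm_num
  have n : |(0 : ℝ)| ≤ 1 := by norm_num
  have x0 := g ![1, 0, 0] (v _ _ _ o n n)
  have x1 := g ![0, 1, 0] (v _ _ _ n o n)
  have x2 := g ![0, 0, 1] (v _ _ _ n n o)
  have a00 := x0 0
  have a01 := x0 1
  have a02 := x0 2
  have a11 := x1 1
  have a12 := x1 2
  have a22 := x2 2
  simp only [gv, Matrix.cons_val, mul_one, mul_zero, add_zero, zero_add] at a00 a01 a02 a11 a12 a22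
  refine ⟨h0, h1, ?_, ?_, ?_, ?_, ?_, ?_⟩
  · show |Γ.yy - m * G.yy| ≤ _
    rw [abs_le] at *; constructor <;> linarith [a00.1, a00.2]
  · show |Γ.yu - m * G.yu| ≤ _
    rw [abs_le] at *; constructor <;> linarith [a01.1, a01.2]
  · show |Γ.yv - m * G.yv| ≤ _
    rw [abs_le] at *; constructor <;> linarith [a02.1, a02.2]
  · show |Γ.uu - m * G.uu| ≤ _
    rw [abs_le] at *; constructor <;> linarith [a11.1, a11.2]
  · show |Γ.uv - m * G.uv| ≤ _
    rw [abs_le] at *; constructor <;> linarith [a12.1, a12.2]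
  · show |Γ.vv - m * G.vv| ≤ _
    rw [abs_le] at *; constructor <;> linarith [a22.1, a22.2]

/-- a covector in the tangent basis `κ f0, E1, E2` of the sheet with `b0` (units of `w 0`) -/
noncomputable def tnV (κ : ℝ) (b0 β : V3) : V3 :=
  ![κ * β 0, β 1 - b0 1 / b0 0 * β 0, β 2 - b0 2 / b0 0 * β 0]

/-- a quadratic form in the tangent basis `κ f0, E1, E2` -/
noncomputable def tnQ (κ : ℝ) (b0 : V3) (Γ : QF) : QF where
  yy := κ ^ 2 * Γ.yy
  yu := κ * (shG b0 Γ).yu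
  yv := κ * (shG b0 Γ).yv
  uu := (shG b0 Γ).uu
  uv := (shG b0 Γ).uv
  vv := (shG b0 Γ).vv

theorem Fq_tn (κ : ℝ) (b0 β0 β1 : V3) (Γ : QF) (ζ : ℝ) (x : V3) :
    Fq (tnV κ b0 β0) (tnV κ b0 β1) (tnQ κ b0 Γ) ζ x =
      Fq β0 β1 Γ ζ (unsh b0 (κ * x 0) (x 1) (x 2)) := by
  simp only [Fq, dt, bz, QF.ev, tnV, tnQ, unsh, shG, Matrix.cons_val]
  ring

theorem tnV_self0 {κ : ℝ} {b0 : V3} (h : b0 0 ≠ 0) (k : Fin 3) :
    tnV κ b0 b0 k = κ * shB0 b0 k := by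
  fin_cases k <;> simp [tnV, shB0] <;> field_simp <;> ring

theorem tnV_self1 {κ : ℝ} {b0 : V3} (hκ : κ ≠ 0) (b1 : V3) (k : Fin 3) :
    tnV κ b0 b1 k = κ * scB1 κ b0 b1 k := by
  fin_cases k <;> simp [tnV, scB1, shB1] <;> field_simp

theorem tnQ_self {κ : ℝ} {b0 : V3} (hκ : κ ≠ 0) (G : QF) :
    tnQ κ b0 G = (scG κ b0 G).smul κ := by
  simp only [tnQ, scG, QF.smul, QF.mk.injEq]
  refine ⟨by ring, trivial, trivial, ?_, ?_, ?_⟩ <;> field_simp

theorem Fq_sc {κ : ℝ} {b0 b1 : V3} {G : QF} (h : b0 0 ≠ 0) (hκ : κ ≠ 0) (ζ : ℝ) (x : V3) :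
    κ * Fq (shB0 b0) (scB1 κ b0 b1) (scG κ b0 G) ζ x =
      Fq b0 b1 G ζ (unsh b0 (κ * x 0) (x 1) (x 2)) := by
  rw [Fq_scaled h hκ]
  congr 2
  funext k
  fin_cases k <;> rfl

/-- the determinant of the fan at the lower end -/
theorem det_eq {b0 b1 : V3} {G : QF} {κ : ℝ} :
    dt (gv (scG κ b0 G) (cr (shB0 b0) (scB1 κ b0 b1))) (cr (shB0 b0) (scB1 κ b0 b1)) =
      -(16777216 * b0 0 ^ 2 * det3 (fan (shB0 b0) (scB1 κ b0 b1) (scG κ b0 G) 0)) := by
  simp only [det3, fan, slp, cr, gv, dt, shB0, Matrix.cons_val]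
  simp only [mul_zero, zero_mul, add_zero, zero_add, neg_zero, zero_div, sub_zero]
  ring

/-- **two-level closeness in coefficient form** -/
theorem two_level {q q2 : ℝ → V3 → ℝ} {e : Fin 3 → V3} {w : V3} {T : Ln4} {z0 ρ a E δ : ℝ}
    {b0 b1 β0 β1 : V3} {G Γ : QF} (he : Ortho e) (hw : ∀ i, 0 < w i) (hρ : 0 ≤ ρ)
    (hx : IsExp q e w T z0 ρ b0 b1 G) (N : NrmC b0 b1 G) (hκ : 0 < kap b0 b1 G) (hδ : 0 < δ)
    (hdet : δ ≤ |det3 (fan (shB0 b0) (scB1 (kap b0 b1 G) b0 b1) (scG (kap b0 b1 G) b0 G) 0)|)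
    (hx2 : IsExp q2 e w T z0 ρ β0 β1 Γ) (hT : ∀ z, z0 ≤ z → z ≤ z0 + ρ → |q z (T.pos z)| ≤ a)
    (hc : ∀ z, z0 ≤ z → z ≤ z0 + ρ → ∀ x, InK e T (fun i => w i / 8) z x → |q z x| ≤ a →
      |q2 z x| ≤ E) :
    ∃ m : ℝ, (∀ k, w 0 * |tnV (kap b0 b1 G) b0 β0 k - m * tnV (kap b0 b1 G) b0 b0 k| ≤
        10 ^ 17 * E / δ ^ 8) ∧
      (∀ k, w 0 * |tnV (kap b0 b1 G) b0 β1 k - m * tnV (kap b0 b1 G) b0 b1 k| ≤
        10 ^ 17 * E / δ ^ 8) ∧
      (qdif m (tnQ (kap b0 b1 G) b0 Γ) (tnQ (kap b0 b1 G) b0 G)).Le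
        (10 ^ 17 * E / δ ^ 8 / w 0) := by
  obtain ⟨κ, hκd⟩ : ∃ κ, κ = kap b0 b1 G := ⟨_, rfl⟩
  have hsc := N.sc_le hκ
  have hk13 := kap_le N
  rw [← hκd] at hκ hdet hsc hk13 ⊢
  obtain ⟨c1, c2, -, -, g1, g2, g3, g4, g5, g6⟩ := hsc
  obtain ⟨p1, p2, -, -, -, -, -, s1, s2⟩ := N.b1_le
  have hp0 : b0 0 ≠ 0 := by
    have : (0 : ℝ) < b0 0 := by linarith
    exact this.ne'
  have hw0 := hw 0
  have hG13 : (scG κ b0 G).Le 13 :=
    ⟨g1, by linarith, by linarith, by linarith, by linarith, by linarith⟩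
  -- closeness on the zero set
  have hF : ∀ ζ, 0 ≤ ζ → ζ ≤ 1 → ∀ x : V3, (∀ k, |x k| ≤ 1 / 256) →
      Fq (shB0 b0) (scB1 κ b0 b1) (scG κ b0 G) ζ x = 0 →
      |Fq (tnV κ b0 β0) (tnV κ b0 β1) (tnQ κ b0 Γ) ζ x| ≤ 2 * E / w 0 := by
    intro ζ h0 h1 x hx' hz
    have z1 : z0 ≤ z0 + ρ * ζ := by nlinarith
    have z2 : z0 + ρ * ζ ≤ z0 + ρ := by nlinarith
    have e1 := Fq_sc (b1 := b1) (G := G) hp0 hκ.ne' ζ x
    rw [hz, mul_zero] at e1
    rw [Fq_tn]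
    set y := unsh b0 (κ * x 0) (x 1) (x 2) with hy
    have hy0 : ∀ k, |y k| ≤ 1 / 8 := by
      have q0 : |κ * x 0| ≤ 13 * (1 / 256) := by
        rw [abs_mul, abs_of_pos hκ]
        exact mul_le_mul hk13 (hx' 0) (abs_nonneg _) (by norm_num)
      have q1 : |b0 1 / b0 0 * x 1| ≤ 2 * (1 / 256) := by
        rw [abs_mul]; exact mul_le_mul s1 (hx' 1) (abs_nonneg _) (by norm_num)
      have q2 : |b0 2 / b0 0 * x 2| ≤ 2 * (1 / 256) := by
        rw [abs_mul]; exact mul_le_mul s2 (hx' 2) (abs_nonneg _) (by norm_num)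
      intro k
      fin_cases k
      · show |κ * x 0 - b0 1 / b0 0 * x 1 - b0 2 / b0 0 * x 2| ≤ _
        rw [abs_le] at *
        constructor <;> linarith [q0.1, q0.2, q1.1, q1.2, q2.1, q2.2]
      · exact (hx' 1).trans (by norm_num)
      · exact (hx' 2).trans (by norm_num)
    have hin : ∀ y' : V3, (∀ k, |y' k| ≤ 1 / 8) →
        InK e T (fun i => w i / 8) (z0 + ρ * ζ) (T.pos (z0 + ρ * ζ) + cmb (fr e w) y') := by
      intro y' hy' i
      have e2 : dt (e i) (T.pos (z0 + ρ * ζ) + cmb (fr e w) y' - T.pos (z0 + ρ * ζ)) =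
          dt (e i) (cmb (fr e w) y') := by
        congr 1
        funext j
        simp
      rw [e2, dt_cmb_fr he, abs_mul, abs_of_pos (hw i)]
      have := mul_le_mul_of_nonneg_left (hy' i) (hw i).le
      linarith
    have h2 := hx ζ y
    rw [← e1, mul_zero, add_zero] at h2
    have h3 := hc _ z1 z2 _ (hin y hy0) (by rw [h2]; exact hT _ z1 z2)
    have h4 := hc _ z1 z2 (T.pos (z0 + ρ * ζ)) (by
      have := hin 0 (fun k => by simp)
      have e3 : cmb (fr e w) 0 = 0 := by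
        funext j; simp [cmb]
      rwa [e3, add_zero] at this) (hT _ z1 z2)
    rw [hx2 ζ y] at h3
    have h5 : |w 0 * Fq β0 β1 Γ ζ y| ≤ 2 * E := by
      rw [abs_le] at *
      constructor <;> linarith [h3.1, h3.2, h4.1, h4.2]
    rwa [abs_mul, abs_of_pos hw0, mul_comm, ← le_div_iff₀ hw0] at h5
  have hE : 0 ≤ E := by
    have := hc z0 le_rfl (by linarith) (T.pos z0) (by
      intro i
      rw [sub_self]
      have : dt (e i) 0 = 0 := by simp [dt]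
      rw [this, abs_zero]
      exact div_nonneg (hw i).le (by norm_num)) (hT _ le_rfl (by linarith))
    exact (abs_nonneg _).trans this
  have hD : 10 ^ 8 * (δ / 25) ≤ |dt (gv (scG κ b0 G) (cr (shB0 b0) (scB1 κ b0 b1)))
      (cr (shB0 b0) (scB1 κ b0 b1))| := by
    rw [det_eq, abs_neg, abs_mul, abs_of_pos (by positivity : (0 : ℝ) < 16777216 * b0 0 ^ 2)]
    have h4 : (1 : ℝ) / 4 ≤ b0 0 ^ 2 := by nlinarith
    calc 10 ^ 8 * (δ / 25) ≤ 16777216 * (1 / 4) * δ := by linarith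
      _ ≤ 16777216 * b0 0 ^ 2 * |det3 (fan (shB0 b0) (scB1 κ b0 b1) (scG κ b0 G) 0)| :=
          mul_le_mul (by linarith) hdet hδ.le (by positivity)
  obtain ⟨m, hm⟩ := core (β0 := tnV κ b0 β0) (β1 := tnV κ b0 β1) (Γ := tnQ κ b0 Γ) c1 c2 hG13
    (s := δ / 25) (by positivity) hD hF
  obtain ⟨r0, r1, r2⟩ := coef_of_dF hm
  have hX : 2 * (27200 * (2 * E / w 0) / (δ / 25) ^ 8) ≤ 10 ^ 17 * E / δ ^ 8 / w 0 := by
    have e1 : 2 * (27200 * (2 * E / w 0) / (δ / 25) ^ 8) =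
        (108800 * 25 ^ 8) * (E / δ ^ 8 / w 0) := by
      field_simp; ring
    have e2 : 10 ^ 17 * E / δ ^ 8 / w 0 = 10 ^ 17 * (E / δ ^ 8 / w 0) := by ring
    rw [e1, e2]
    have : 0 ≤ E / δ ^ 8 / w 0 := by positivity
    exact mul_le_mul_of_nonneg_right (by norm_num) this
  have hX0 : 0 ≤ 27200 * (2 * E / w 0) / (δ / 25) ^ 8 := by positivity
  have conv : ∀ x y : ℝ, |x - m * y| ≤ 2 * (27200 * (2 * E / w 0) / (δ / 25) ^ 8) →
      |x - m / κ * (κ * y)| ≤ 10 ^ 17 * E / δ ^ 8 / w 0 := by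
    intro x y h
    have e1 : m / κ * (κ * y) = m * y := by field_simp
    rw [e1]
    exact h.trans hX
  have conv' : ∀ x y : ℝ, |x - m * y| ≤ 2 * (27200 * (2 * E / w 0) / (δ / 25) ^ 8) →
      w 0 * |x - m / κ * (κ * y)| ≤ 10 ^ 17 * E / δ ^ 8 := by
    intro x y h
    have := conv x y h
    rwa [le_div_iff₀ hw0, mul_comm] at this
  refine ⟨m / κ, fun k => ?_, fun k => ?_, ?_⟩
  · rw [tnV_self0 hp0]
    exact conv' _ _ ((r0 k).trans (by linarith))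
  · rw [tnV_self1 hκ.ne' b1]
    exact conv' _ _ (r1 k)
  · rw [tnQ_self hκ.ne' G]
    obtain ⟨a1, a2, a3, a4, a5, a6⟩ := r2
    exact ⟨conv _ _ a1, conv _ _ a2, conv _ _ a3, conv _ _ a4, conv _ _ a5, conv _ _ a6⟩

/-! ### two marks -/

/-- symmetric difference at the lower end of the cell -/
theorem sym_diff {q : ℝ → V3 → ℝ} {e : Fin 3 → V3} {w : V3} {T : Ln4} {z0 ρ : ℝ} {b0 b1 : V3}
    {G : QF} (he : Ortho e) (hw : ∀ i, 0 < w i) (hx : IsExp q e w T z0 ρ b0 b1 G) (X : V3) :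
    q z0 (T.pos z0 + X) - q z0 (T.pos z0 - X) =
      2 * (w 0 * dt b0 (fun k => dt (e k) X / w k)) := by
  have hX : cmb (fr e w) (fun k => dt (e k) X / w k) = X := by
    funext j
    have h := he.expand X j
    simp only [cmb, fr, Pi.smul_apply, smul_eq_mul]
    have h0 := (hw 0).ne'
    have h1 := (hw 1).ne'
    have h2 := (hw 2).ne'
    field_simp
    linarith
  have hX' : cmb (fr e w) (fun k => -(dt (e k) X / w k)) = -X := by
    conv_rhs => rw [← hX]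
    funext j
    simp only [cmb, Pi.neg_apply]
    ring
  have h1 := hx 0 (fun k => dt (e k) X / w k)
  have h2 := hx 0 (fun k => -(dt (e k) X / w k))
  rw [hX, mul_zero, add_zero] at h1
  rw [hX', mul_zero, add_zero, ← sub_eq_add_neg] at h2
  rw [h1, h2]
  simp only [Fq, dt, bz, QF.ev]
  ring

/-- gradient of a sheet in a foreign frame -/
theorem grad_bd {q : ℝ → V3 → ℝ} {e e' : Fin 3 → V3} {w w' : V3} {T : Ln4} {z0 ρ : ℝ}
    {β0 β1 b0 b1 : V3} {Γ G : QF} (he : Ortho e) (hw : ∀ i, 0 < w i) (he' : Ortho e')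
    (hw' : ∀ i, 0 < w' i) (h1' : w' 0 ≤ w' 1) (h2' : w' 0 ≤ w' 2)
    (hx : IsExp q e w T z0 ρ β0 β1 Γ) (hx' : IsExp q e' w' T z0 ρ b0 b1 G) (N : NrmC b0 b1 G) :
    |β0 0| ≤ 4 ∧ 1 / 2 ≤ |β0 0| + w 0 / w 1 * |β0 1| + w 0 / w 2 * |β0 2| := by
  obtain ⟨p1, p2, -⟩ := N.b1_le
  have k1 := N.b01
  have k2 := N.b02
  have key : ∀ X : V3, w 0 * dt β0 (fun k => dt (e k) X / w k) =
      w' 0 * dt b0 (fun k => dt (e' k) X / w' k) := fun X => by
    have a1 := sym_diff he hw hx X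
    have a2 := sym_diff he' hw' hx' X
    linarith
  have r1 : w' 0 / w' 1 ≤ 1 := (div_le_one (hw' 1)).2 h1'
  have r2 : w' 0 / w' 2 ≤ 1 := (div_le_one (hw' 2)).2 h2'
  have le1 : ∀ {f g : Fin 3 → V3}, Ortho f → Ortho g → ∀ i j, |dt (f i) (g j)| ≤ 1 := by
    intro f g hf hg i j
    rw [← sq_le_one_iff_abs_le_one]
    have e1 : dt (g j) (g j) = dt (f 0) (g j) ^ 2 + dt (f 1) (g j) ^ 2 + dt (f 2) (g j) ^ 2 := by
      have h0 := hf.expand (g j) 0
      have h1 := hf.expand (g j) 1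
      have h2 := hf.expand (g j) 2
      have : dt (g j) (g j) = (dt (f 0) (g j) * f 0 0 + dt (f 1) (g j) * f 1 0 +
          dt (f 2) (g j) * f 2 0) * g j 0 + (dt (f 0) (g j) * f 0 1 + dt (f 1) (g j) * f 1 1 +
          dt (f 2) (g j) * f 2 1) * g j 1 + (dt (f 0) (g j) * f 0 2 + dt (f 1) (g j) * f 1 2 +
          dt (f 2) (g j) * f 2 2) * g j 2 := by
        rw [← h0, ← h1, ← h2]; rfl
      rw [this]
      simp only [dt]; ring
    have e2 := hg j j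
    rw [if_pos rfl] at e2
    rw [e2] at e1
    fin_cases i
    · show dt (f 0) (g j) ^ 2 ≤ 1
      nlinarith [sq_nonneg (dt (f 1) (g j)), sq_nonneg (dt (f 2) (g j))]
    · show dt (f 1) (g j) ^ 2 ≤ 1
      nlinarith [sq_nonneg (dt (f 0) (g j)), sq_nonneg (dt (f 2) (g j))]
    · show dt (f 2) (g j) ^ 2 ≤ 1
      nlinarith [sq_nonneg (dt (f 0) (g j)), sq_nonneg (dt (f 1) (g j))]
  constructor
  · have h := key (e 0)
    have e0 : w 0 * dt β0 (fun k => dt (e k) (e 0) / w k) = β0 0 := by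
      have a0 := he 0 0
      have a1 := he 1 0
      have a2 := he 2 0
      simp only [if_true] at a0
      rw [if_neg (by decide)] at a1 a2
      show w 0 * (β0 0 * (dt (e 0) (e 0) / w 0) + β0 1 * (dt (e 1) (e 0) / w 1) +
        β0 2 * (dt (e 2) (e 0) / w 2)) = _
      rw [a0, a1, a2]
      have := (hw 0).ne'
      field_simp
      ring
    rw [e0] at h
    have e1 : w' 0 * dt b0 (fun k => dt (e' k) (e 0) / w' k) = b0 0 * dt (e' 0) (e 0) +
        w' 0 / w' 1 * (b0 1 * dt (e' 1) (e 0)) + w' 0 / w' 2 * (b0 2 * dt (e' 2) (e 0)) := by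
      have h0 := (hw' 0).ne'
      simp only [dt]
      field_simp
    rw [h, e1]
    have m : ∀ a b A : ℝ, |a| ≤ A → |b| ≤ 1 → |a * b| ≤ A := by
      intro a b A ha hb
      rw [abs_mul]
      exact (mul_le_mul ha hb (abs_nonneg _) ((abs_nonneg _).trans ha)).trans (by linarith)
    have m' : ∀ t a : ℝ, 0 ≤ t → t ≤ 1 → |a| ≤ 1 → |t * a| ≤ 1 := by
      intro t a h0 h1 ha
      rw [abs_mul, abs_of_nonneg h0]
      nlinarith [abs_nonneg a]
    have t0 := m _ _ 2 (abs_le.2 ⟨by linarith, p2⟩ : |b0 0| ≤ 2) (le1 he' he 0 0)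
    have t1 := m' _ _ (div_pos (hw' 0) (hw' 1)).le r1 (m _ _ 1 k1 (le1 he' he 1 0))
    have t2 := m' _ _ (div_pos (hw' 0) (hw' 2)).le r2 (m _ _ 1 k2 (le1 he' he 2 0))
    rw [abs_le] at *
    constructor <;> linarith [t0.1, t0.2, t1.1, t1.2, t2.1, t2.2]
  · have h := key (e' 0)
    have e0 : w' 0 * dt b0 (fun k => dt (e' k) (e' 0) / w' k) = b0 0 := by
      have a0 := he' 0 0
      have a1 := he' 1 0
      have a2 := he' 2 0
      simp only [if_true] at a0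
      rw [if_neg (by decide)] at a1 a2
      show w' 0 * (b0 0 * (dt (e' 0) (e' 0) / w' 0) + b0 1 * (dt (e' 1) (e' 0) / w' 1) +
        b0 2 * (dt (e' 2) (e' 0) / w' 2)) = _
      rw [a0, a1, a2]
      have := (hw' 0).ne'
      field_simp
      ring
    rw [e0] at h
    have e1 : w 0 * dt β0 (fun k => dt (e k) (e' 0) / w k) = β0 0 * dt (e 0) (e' 0) +
        w 0 / w 1 * (β0 1 * dt (e 1) (e' 0)) + w 0 / w 2 * (β0 2 * dt (e 2) (e' 0)) := by
      have h0 := (hw 0).ne'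
      simp only [dt]
      field_simp
    rw [e1] at h
    have m : ∀ a b : ℝ, |b| ≤ 1 → a * b ≤ |a| := by
      intro a b hb
      refine (le_abs_self _).trans ?_
      rw [abs_mul]
      nlinarith [abs_nonneg a]
    have t0 := m (β0 0) _ (le1 he he' 0 0)
    have t1 := mul_le_mul_of_nonneg_left (m (β0 1) _ (le1 he he' 1 0))
      (div_pos (hw 0) (hw 1)).le
    have t2 := mul_le_mul_of_nonneg_left (m (β0 2) _ (le1 he he' 2 0))
      (div_pos (hw 0) (hw 2)).le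
    linarith

/-- size of the factor -/
theorem m_bd {κ w0 w1 w2 X m : ℝ} {b0 β0 : V3} (hw0 : 0 < w0) (h1 : w0 ≤ w1) (h2 : w0 ≤ w2)
    (hκ : 0 < κ) (hκ' : κ ≤ 13) (p1 : 1 / 2 ≤ b0 0) (p2 : b0 0 ≤ 2) (s1 : |b0 1 / b0 0| ≤ 2)
    (s2 : |b0 2 / b0 0| ≤ 2) (hX : 200 * X ≤ w0 * κ)
    (h : ∀ k, w0 * |tnV κ b0 β0 k - m * tnV κ b0 b0 k| ≤ X) (g1 : |β0 0| ≤ 4)
    (g2 : 1 / 2 ≤ |β0 0| + w0 / w1 * |β0 1| + w0 / w2 * |β0 2|) :
    1 / 80 ≤ |m| ∧ |m| ≤ 9 := by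
  have hb : b0 0 ≠ 0 := by
    have : (0 : ℝ) < b0 0 := by linarith
    exact this.ne'
  have k0 := h 0
  have k1 := h 1
  have k2 := h 2
  rw [tnV_self0 hb] at k0 k1 k2
  simp only [tnV, shB0, Matrix.cons_val, mul_zero, sub_zero] at k0 k1 k2
  have e0 : w0 * |κ * β0 0 - m * (κ * b0 0)| = w0 * κ * |β0 0 - m * b0 0| := by
    have : κ * β0 0 - m * (κ * b0 0) = κ * (β0 0 - m * b0 0) := by ring
    rw [this, abs_mul, abs_of_pos hκ]; ring
  rw [e0] at k0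
  have q0 : |β0 0 - m * b0 0| ≤ 1 / 200 := by
    have hp : 0 < w0 * κ := by positivity
    have : w0 * κ * |β0 0 - m * b0 0| ≤ w0 * κ * (1 / 200) := by linarith
    exact le_of_mul_le_mul_left this hp
  have hXw : X ≤ 13 / 200 * w0 := by nlinarith
  have lat : ∀ (y b : ℝ) (w : ℝ), w0 ≤ w → |b / b0 0| ≤ 2 →
      w0 * |y - b / b0 0 * β0 0| ≤ X → w0 / w * |y| ≤ 2 * |β0 0| + 13 / 200 := by
    intro y b w hw hs hk
    have hwp : 0 < w := by linarith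
    have r : w0 / w ≤ 1 := (div_le_one hwp).2 hw
    have r0 : 0 ≤ w0 / w := by positivity
    have e1 : |y - b / b0 0 * β0 0| ≤ 13 / 200 := by
      have : w0 * |y - b / b0 0 * β0 0| ≤ w0 * (13 / 200) := by linarith
      exact le_of_mul_le_mul_left this hw0
    have e2 : |y| ≤ 2 * |β0 0| + 13 / 200 := by
      have e3 : y = b / b0 0 * β0 0 + (y - b / b0 0 * β0 0) := by ring
      rw [e3]
      refine (abs_add_le _ _).trans ?_
      rw [abs_mul]
      have := mul_le_mul_of_nonneg_right hs (abs_nonneg (β0 0))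
      linarith
    nlinarith [abs_nonneg y]
  have l1 := lat _ _ w1 h1 s1 k1
  have l2 := lat _ _ w2 h2 s2 k2
  have low : 1 / 20 ≤ |β0 0| := by linarith
  have em : |m| * b0 0 = |m * b0 0| := by
    rw [abs_mul, abs_of_pos (by linarith : (0 : ℝ) < b0 0)]
  have q1 : |m * b0 0| ≤ 4 + 1 / 200 := by
    have e3 : m * b0 0 = β0 0 - (β0 0 - m * b0 0) := by ring
    rw [e3]
    exact (abs_sub _ _).trans (by linarith)
  have q2 : 1 / 20 - 1 / 200 ≤ |m * b0 0| := by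
    have e3 : β0 0 = m * b0 0 + (β0 0 - m * b0 0) := by ring
    have := abs_add_le (m * b0 0) (β0 0 - m * b0 0)
    rw [← e3] at this
    linarith
  rw [← em] at q1 q2
  constructor
  · nlinarith [abs_nonneg m]
  · nlinarith [abs_nonneg m]

/-- **two-level closeness of two marks in coefficient form**: `S` deep, over `[z0, z0 + ρ]`, `S'`
over a longer cell. -/
theorem close_coef {S S' : Plk4} {T : Ln4} {z0 ρ z0' ρ' r r' δ E : ℝ} (hS : Shp S z0 ρ r)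
    (hw0 : 0 < S.w 0) (hρ : 0 ≤ ρ) (hT : InP T S z0 ρ) (hS' : Shp S' z0' ρ' r')
    (hw0' : 0 < S'.w 0) (hz : z0' ≤ z0) (hz' : z0 + ρ ≤ z0' + ρ') (hT' : InP T S' z0' ρ')
    (hκ : 0 < kapP S z0 ρ T) (hδ : 0 < δ) (hdet : DetP δ S z0 ρ T) (hcl : Close E S S' T z0 ρ)
    {b0 b1 β0 β1 : V3} {G Γ : QF} (hx : IsExp S.q S.e S.w T z0 ρ b0 b1 G)
    (hx2 : IsExp S'.q S.e S.w T z0 ρ β0 β1 Γ) :
    ∃ m : ℝ, (∀ k, S.w 0 * |tnV (kap b0 b1 G) b0 β0 k - m * tnV (kap b0 b1 G) b0 b0 k| ≤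
        10 ^ 17 * E / δ ^ 8) ∧
      (∀ k, S.w 0 * |tnV (kap b0 b1 G) b0 β1 k - m * tnV (kap b0 b1 G) b0 b1 k| ≤
        10 ^ 17 * E / δ ^ 8) ∧
      (qdif m (tnQ (kap b0 b1 G) b0 Γ) (tnQ (kap b0 b1 G) b0 G)).Le
        (10 ^ 17 * E / δ ^ 8 / S.w 0) ∧
      (2 * 10 ^ 19 * E ≤ δ ^ 8 * kapP S z0 ρ T → 1 / 80 ≤ |m| ∧ |m| ≤ 9) := by
  have P : StP S.e S.c S.w S.q z0 ρ := StP.of_shN hS hw0
  have P' : StP S'.e S'.c S'.w S'.q z0' ρ' := StP.of_shN hS' hw0'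
  have Q : StP S'.e S'.c S'.w S'.q z0 ρ := by
    refine ⟨P'.ortho, P'.isQ, P'.pos, ?_, ?_, ?_⟩
    · exact fun z h1 h2 => P'.st0 z (hz.trans h1) (h2.trans hz')
    · exact fun z h1 h2 => P'.st1 z (hz.trans h1) (h2.trans hz')
    · exact fun z h1 h2 => P'.st2 z (hz.trans h1) (h2.trans hz')
  have N : NrmC b0 b1 G := hx.nrmC P hρ (fun z h1 h2 => (hT z h1 h2).1)
  have hkp : kapP S z0 ρ T = S.w 0 * kap b0 b1 G := kapP_eq hw0.ne' hx
  have hk : 0 < kap b0 b1 G := by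
    rw [hkp] at hκ
    exact (mul_pos_iff_of_pos_left hw0).1 hκ
  have hd := (detP_iff hw0.ne' hx δ).1 hdet 0 le_rfl zero_le_one
  obtain ⟨m, m1, m2, m3⟩ := two_level (a := S.a) (E := E) P.ortho P.pos hρ hx N hk hδ hd hx2
    (fun z h1 h2 => (hT z h1 h2).2) hcl
  refine ⟨m, m1, m2, m3, fun hsm => ?_⟩
  obtain ⟨b0', b1', G', hx'⟩ := exists_isExp P'.isQ S'.e hw0'.ne' T z0 ρ
  have N' : NrmC b0' b1' G' :=
    hx'.nrmC Q hρ (fun z h1 h2 => (hT' z (hz.trans h1) (h2.trans hz')).1)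
  obtain ⟨g1, g2⟩ := grad_bd P.ortho P.pos P'.ortho P'.pos (hS'.w0_le.trans hS'.w_le) hS'.w0_le
    hx2 hx' N'
  obtain ⟨p1, p2, -, -, -, -, -, s1, s2⟩ := N.b1_le
  refine m_bd hw0 (hS.w0_le.trans hS.w_le) hS.w0_le hk (kap_le N) p1 p2 s1 s2 ?_ m1 g1 g2
  rw [hkp] at hsm
  have h8 : 0 < δ ^ 8 := by positivity
  have e1 : 200 * (10 ^ 17 * E / δ ^ 8) = 2 * 10 ^ 19 * E / δ ^ 8 := by ring
  rw [e1, div_le_iff₀ h8]
  linarith

end Crest.Agent.R136.TL650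
end

-- ▼ part R136/TL3_650

/-!
# R136, two-level closeness in coefficient form (helper650), part 3: the literal `PolyC`

**`omB_of_close`**, **`polyC_of_close`** : nondegenerate deep mark + closeness on its base box ⊢
`Tl102.PolyC`.
-/

set_option autoImplicit false
set_option linter.unusedVariables false

namespace Crest.Agent.R136.TL650

open Crest.Agent.R136.Sh605
open Crest.Agent.R136.Tl102
open Crest.Agent.R136.Arc880 (det3)
open Crest.Agent.R136.KapP335 (kapP DetP expP expP_spec kapP_eq detP_iff)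
open Crest.Agent.R136.Tlt51 (Close Shp InP)
open Crest.Agent.R136.K4 (Plk4)

theorem shift_abs {w0 κ Y x y m m' c : ℝ} (hw : 0 < w0) (hκ : 0 < κ) (hY : 0 ≤ Y)
    (h : w0 * |x - m * (κ * y)| ≤ Y) (hm : w0 * κ * |m' - m| ≤ 2 * Y) (hy : |y| ≤ c) :
    w0 * |x - m' * (κ * y)| ≤ (1 + 2 * c) * Y := by
  have hc : 0 ≤ c := (abs_nonneg _).trans hy
  have e : x - m' * (κ * y) = (x - m * (κ * y)) - (m' - m) * (κ * y) := by ring
  have h1 : |x - m' * (κ * y)| ≤ |x - m * (κ * y)| + |m' - m| * (κ * |y|) := by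
    rw [e]
    refine (abs_sub _ _).trans (le_of_eq ?_)
    rw [abs_mul, abs_mul, abs_of_pos hκ]
  have h2 : w0 * (|m' - m| * (κ * |y|)) ≤ 2 * Y * c := by
    calc w0 * (|m' - m| * (κ * |y|)) = w0 * κ * |m' - m| * |y| := by ring
      _ ≤ 2 * Y * c := mul_le_mul hm hy (abs_nonneg _) (by positivity)
  calc w0 * |x - m' * (κ * y)| ≤ w0 * (|x - m * (κ * y)| + |m' - m| * (κ * |y|)) :=
        mul_le_mul_of_nonneg_left h1 hw.le
    _ = w0 * |x - m * (κ * y)| + w0 * (|m' - m| * (κ * |y|)) := by ring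
    _ ≤ _ := by linarith

set_option maxHeartbeats 1000000 in
/-- **two marks: `q' = m q + ω` with small coefficients** -/
theorem omB_of_close {S S' : Plk4} {T : Ln4} {z0 ρ z0' ρ' r r' δ E : ℝ} (hS : Shp S z0 ρ r)
    (hw0 : 0 < S.w 0) (hρ : 0 ≤ ρ) (hT : InP T S z0 ρ) (hS' : Shp S' z0' ρ' r')
    (hw0' : 0 < S'.w 0) (hz : z0' ≤ z0) (hz' : z0 + ρ ≤ z0' + ρ') (hT' : InP T S' z0' ρ')
    (hκ : 0 < kapP S z0 ρ T) (hδ : 0 < δ) (hdet : DetP δ S z0 ρ T) (hcl : Close E S S' T z0 ρ)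
    (hsm : 10 ^ 20 * E ≤ δ ^ 8 * kapP S z0 ρ T)
    {b0 b1 β0 β1 : V3} {G Γ : QF} (hx : IsExp S.q S.e S.w T z0 ρ b0 b1 G)
    (hx2 : IsExp S'.q S.e S.w T z0 ρ β0 β1 Γ) :
    1 / 16 ≤ |β0 0 / b0 0| ∧ |β0 0 / b0 0| ≤ 8 ∧ ∃ X,
      X * (S.w 0 * kap b0 b1 G) ≤ 10 ^ 19 * E / δ ^ 8 ∧
      OmB (kap b0 b1 G) X X X b0 b1 G β0 β1 Γ := by
  obtain ⟨m, m1, m2, m3, -⟩ := close_coef hS hw0 hρ hT hS' hw0' hz hz' hT' hκ hδ hdet hcl hx hx2
  have P : StP S.e S.c S.w S.q z0 ρ := StP.of_shN hS hw0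
  have P' : StP S'.e S'.c S'.w S'.q z0' ρ' := StP.of_shN hS' hw0'
  have Q : StP S'.e S'.c S'.w S'.q z0 ρ := by
    refine ⟨P'.ortho, P'.isQ, P'.pos, ?_, ?_, ?_⟩
    · exact fun z h1 h2 => P'.st0 z (hz.trans h1) (h2.trans hz')
    · exact fun z h1 h2 => P'.st1 z (hz.trans h1) (h2.trans hz')
    · exact fun z h1 h2 => P'.st2 z (hz.trans h1) (h2.trans hz')
  have N : NrmC b0 b1 G := hx.nrmC P hρ (fun z h1 h2 => (hT z h1 h2).1)
  have hkp : kapP S z0 ρ T = S.w 0 * kap b0 b1 G := kapP_eq hw0.ne' hx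
  obtain ⟨κ, hκd⟩ : ∃ κ, κ = kap b0 b1 G := ⟨_, rfl⟩
  rw [hkp] at hsm hκ
  have hk : 0 < kap b0 b1 G := (mul_pos_iff_of_pos_left hw0).1 hκ
  obtain ⟨b0', b1', G', hx'⟩ := exists_isExp P'.isQ S'.e hw0'.ne' T z0 ρ
  have N' : NrmC b0' b1' G' :=
    hx'.nrmC Q hρ (fun z h1 h2 => (hT' z (hz.trans h1) (h2.trans hz')).1)
  obtain ⟨g1, g2⟩ := grad_bd P.ortho P.pos P'.ortho P'.pos (hS'.w0_le.trans hS'.w_le) hS'.w0_le
    hx2 hx' N'
  obtain ⟨p1, p2, -, -, -, -, -, s1, s2⟩ := N.b1_le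
  have hsc := N.sc_le hk
  have hk13 := kap_le N
  have n1 := N.b01
  have n2 := N.b02
  rw [← hκd] at m1 m2 m3 hsm hk hsc hk13 ⊢
  obtain ⟨c1, c2, -, -, q1, q2, q3, q4, q5, q6⟩ := hsc
  have hb : b0 0 ≠ 0 := by
    have : (0 : ℝ) < b0 0 := by linarith
    exact this.ne'
  obtain ⟨Y, hY⟩ : ∃ Y, Y = 10 ^ 17 * E / δ ^ 8 := ⟨_, rfl⟩
  rw [← hY] at m1 m2 m3
  have hY0 : 0 ≤ Y := (mul_nonneg hw0.le (abs_nonneg _)).trans (m1 0)
  have hδ8 : 0 < δ ^ 8 := by positivity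
  have hsm' : 1000 * Y ≤ S.w 0 * κ := by
    have e1 : 1000 * Y = 10 ^ 20 * E / δ ^ 8 := by rw [hY]; ring
    rw [e1, div_le_iff₀ hδ8]
    linarith
  obtain ⟨m', hm'⟩ : ∃ m', m' = β0 0 / b0 0 := ⟨_, rfl⟩
  have hmm : S.w 0 * κ * |m' - m| ≤ 2 * Y := by
    have h0 := m1 0
    rw [tnV_self0 hb] at h0
    simp only [tnV, shB0, Matrix.cons_val] at h0
    have e0 : κ * β0 0 - m * (κ * b0 0) = κ * b0 0 * (m' - m) := by
      rw [hm']; field_simp
    rw [e0, abs_mul, abs_of_pos (by have : (0 : ℝ) < b0 0 := by linarith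
                                    positivity)] at h0
    have h3 : S.w 0 * κ * |m' - m| * (1 / 2) ≤ S.w 0 * κ * |m' - m| * b0 0 :=
      mul_le_mul_of_nonneg_left p1 (by positivity)
    nlinarith
  -- the coefficients after the shift to `m'`
  have t0 : ∀ k, S.w 0 * |tnV κ b0 β0 k - m' * (κ * shB0 b0 k)| ≤ 5 * Y := fun k => by
    have h := m1 k
    rw [tnV_self0 hb] at h
    exact (shift_abs hw0 hk hY0 h hmm (c1 k)).trans (le_of_eq (by ring))
  have t1 : ∀ k, S.w 0 * |tnV κ b0 β1 k - m' * (κ * scB1 κ b0 b1 k)| ≤ 27 * Y := fun k => by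
    have h := m2 k
    rw [tnV_self1 hk.ne' b1] at h
    exact (shift_abs hw0 hk hY0 h hmm (c2 k)).trans (by linarith)
  have tq : ∀ x y : ℝ, |x - m * (κ * y)| ≤ Y / S.w 0 → |y| ≤ 13 →
      S.w 0 * |x - m' * (κ * y)| ≤ 27 * Y := by
    intro x y h hy
    rw [le_div_iff₀ hw0, mul_comm] at h
    exact (shift_abs hw0 hk hY0 h hmm hy).trans (le_of_eq (by ring))
  rw [tnQ_self hk.ne' G] at m3
  obtain ⟨a1, a2, a3, a4, a5, a6⟩ := m3
  have u1 := tq _ _ a1 (q1.trans (by norm_num))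
  have u2 := tq _ _ a2 (q2.trans (by norm_num))
  have u3 := tq _ _ a3 (q3.trans (by norm_num))
  have u4 := tq _ _ a4 (q4.trans (by norm_num))
  have u5 := tq _ _ a5 (q5.trans (by norm_num))
  have u6 := tq _ _ a6 (q6.trans (by norm_num))
  -- conversion to `OmB`
  have hwk : 0 < S.w 0 * κ := by positivity
  obtain ⟨X, hX⟩ : ∃ X, X = 27 * Y / (S.w 0 * κ) := ⟨_, rfl⟩
  have cv : ∀ x y : ℝ, κ * x = y → S.w 0 * |y| ≤ 27 * Y → |x| ≤ X := by
    intro x y hxy hy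
    rw [hX, le_div_iff₀ hwk]
    calc |x| * (S.w 0 * κ) = S.w 0 * |κ * x| := by rw [abs_mul, abs_of_pos hk]; ring
      _ ≤ 27 * Y := by rw [hxy]; exact hy
  have O : OmB κ X X X b0 b1 G β0 β1 Γ := by
    have h5 : 5 * Y ≤ 27 * Y := by linarith
    have hz1 : b0 1 / b0 0 * b0 0 = b0 1 := div_mul_cancel₀ _ hb
    have hz2 : b0 2 / b0 0 * b0 0 = b0 2 := div_mul_cancel₀ _ hb
    refine ⟨?_, ?_, ?_, ?_, ?_, ?_, ?_, ?_, ?_, ?_, ?_⟩
    · refine cv _ _ ?_ ((t0 1).trans h5)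
      simp only [om0, gl, tnV, shB0, Matrix.cons_val, ← hm']
      field_simp
      ring
    · refine cv _ _ ?_ ((t0 2).trans h5)
      simp only [om0, gl, tnV, shB0, Matrix.cons_val, ← hm']
      field_simp
      ring
    · refine cv _ _ ?_ (t1 1)
      simp only [om1, gl, tnV, scB1, shB1, Matrix.cons_val, ← hm']
      field_simp
      ring
    · refine cv _ _ ?_ (t1 2)
      simp only [om1, gl, tnV, scB1, shB1, Matrix.cons_val, ← hm']
      field_simp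
      ring
    · refine cv _ _ ?_ u4
      simp only [omM, gM, QF.comb, tnQ, shG, scG, ← hm']
      field_simp
      ring
    · refine cv _ _ ?_ u5
      simp only [omM, gM, QF.comb, tnQ, shG, scG, ← hm']
      field_simp
      ring
    · refine cv _ _ ?_ u6
      simp only [omM, gM, QF.comb, tnQ, shG, scG, ← hm']
      field_simp
      ring
    · refine cv _ _ ?_ (t1 0)
      simp only [om1, gl, tnV, scB1, shB1, Matrix.cons_val, ← hm']
      ring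
    · refine cv _ _ ?_ u1
      simp only [omM, gM, QF.comb, tnQ, shG, scG, ← hm']
      ring
    · refine cv _ _ ?_ u2
      simp only [omM, gM, QF.comb, tnQ, shG, scG, ← hm']
      ring
    · refine cv _ _ ?_ u3
      simp only [omM, gM, QF.comb, tnQ, shG, scG, ← hm']
      ring
  -- bounds of `m'`
  have hup : |m'| ≤ 8 := by
    rw [hm', abs_div, abs_of_pos (by linarith : (0 : ℝ) < b0 0), div_le_iff₀ (by linarith)]
    linarith
  have w01 : S.w 0 ≤ S.w 1 := hS.w0_le.trans hS.w_le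
  have w02 : S.w 0 ≤ S.w 2 := hS.w0_le
  have lat : ∀ (y b w : ℝ), S.w 0 ≤ w → |b| ≤ 1 → S.w 0 * |y - m' * b| ≤ 5 * Y →
      S.w 0 / w * |y| ≤ |m'| + 13 / 200 := by
    intro y b w hw hb1 hk1
    have hwp : 0 < w := by linarith
    have r : S.w 0 / w ≤ 1 := (div_le_one hwp).2 hw
    have r0 : 0 ≤ S.w 0 / w := by positivity
    have e1 : |y - m' * b| ≤ 13 / 200 := by
      have h9 : S.w 0 * κ ≤ S.w 0 * 13 := mul_le_mul_of_nonneg_left hk13 hw0.le
      have : S.w 0 * |y - m' * b| ≤ S.w 0 * (13 / 200) := by linarith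
      exact le_of_mul_le_mul_left this hw0
    have e2 : |y| ≤ |m'| + 13 / 200 := by
      have e3 : y = m' * b + (y - m' * b) := by ring
      rw [e3]
      refine (abs_add_le _ _).trans ?_
      rw [abs_mul]
      have := mul_le_mul_of_nonneg_left hb1 (abs_nonneg m')
      linarith
    calc S.w 0 / w * |y| ≤ 1 * |y| := mul_le_mul_of_nonneg_right r (abs_nonneg _)
      _ ≤ _ := by linarith
  have hlow : 1 / 16 ≤ |m'| := by
    have k1 : S.w 0 * |β0 1 - m' * b0 1| ≤ 5 * Y := by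
      have h := t0 1
      have e : tnV κ b0 β0 1 - m' * (κ * shB0 b0 1) = β0 1 - m' * b0 1 := by
        simp only [tnV, shB0, Matrix.cons_val, hm']
        field_simp
        ring
      rwa [e] at h
    have k2 : S.w 0 * |β0 2 - m' * b0 2| ≤ 5 * Y := by
      have h := t0 2
      have e : tnV κ b0 β0 2 - m' * (κ * shB0 b0 2) = β0 2 - m' * b0 2 := by
        simp only [tnV, shB0, Matrix.cons_val, hm']
        field_simp
        ring
      rwa [e] at h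
    have l1 := lat _ _ _ w01 n1 k1
    have l2 := lat _ _ _ w02 n2 k2
    have e0 : |β0 0| ≤ 2 * |m'| := by
      have : β0 0 = m' * b0 0 := by rw [hm']; field_simp
      rw [this, abs_mul, abs_of_pos (by linarith : (0 : ℝ) < b0 0)]
      nlinarith [abs_nonneg m']
    linarith
  rw [← hm']
  refine ⟨hlow, hup, X, ?_, O⟩
  rw [hX, div_mul_cancel₀ _ hwk.ne', hY]
  have : 0 ≤ E / δ ^ 8 := by
    have h7 : 0 ≤ 10 ^ 17 * (E / δ ^ 8) := by
      have e : 10 ^ 17 * (E / δ ^ 8) = Y := by rw [hY]; ring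
      rw [e]; exact hY0
    exact (mul_nonneg_iff_of_pos_left (by norm_num)).1 h7
  have e1 : 27 * (10 ^ 17 * E / δ ^ 8) = 27 * 10 ^ 17 * (E / δ ^ 8) := by ring
  have e2 : 10 ^ 19 * E / δ ^ 8 = 10 ^ 19 * (E / δ ^ 8) := by ring
  rw [e1, e2]
  exact mul_le_mul_of_nonneg_right (by norm_num) this

/-- **`PolyC` from closeness** -/
theorem polyC_of_close {S S' : Plk4} {T : Ln4} {z0 ρ z0' ρ' r r' δ E : ℝ} (hS : Shp S z0 ρ r)
    (hw0 : 0 < S.w 0) (hρ : 0 ≤ ρ) (hT : InP T S z0 ρ) (hS' : Shp S' z0' ρ' r')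
    (hw0' : 0 < S'.w 0) (hz : z0' ≤ z0) (hz' : z0 + ρ ≤ z0' + ρ') (hT' : InP T S' z0' ρ')
    (hκ : 0 < kapP S z0 ρ T) (hδ : 0 < δ) (hdet : DetP δ S z0 ρ T) (hcl : Close E S S' T z0 ρ)
    (hsm : 10 ^ 20 * E ≤ δ ^ 8 * kapP S z0 ρ T) :
    PolyC (10 ^ 19 * E / δ ^ 8) S S' T z0 ρ := fun b0 b1 G b0' b1' G' hx hx' =>
  omB_of_close hS hw0 hρ hT hS' hw0' hz hz' hT' hκ hδ hdet hcl hsm hx hx'

end Crest.Agent.R136.TL650
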