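import Crest.Agent.R136.Deep0_770
import Crest.Agent.R136.MkA_627
import Crest.Agent.R138.NatTw_76
import Crest.Agent.R138.ArgM1_163
import Crest.Agent.R136.Mdr2_535
import Crest.Agent.R136.Fl6_808
import Crest.Agent.R136.KapP_335
import Crest.Agent.R136.Tlt0_51
import Crest.Agent.R136.Asm3_102
import Crest.Agent.R136.TL3_650

-- ▼ part R136/Mdr3_535
section

/-!
# R136 (S0187), U5 TILT, `Mid`: planks which agree (helper535)

* `Nr Θ f f' a w1 w2` : two planks of dimensions `(a, w1, w2)` with frames `f`, `f'` agree up to `Θ`.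
* `pf_near` : frames with close gradients.
* `frame_near` : frames of two lines of the sheet which are close at the beginning of the cell.
* `frame_height` : frames of one line at two heights.
-/

set_option autoImplicit false
set_option linter.unusedVariables false

namespace Crest.Agent.R136.Mdr535

open Crest.Agent.R136.Sh605 Crest.Agent.R136.Tl102
open Crest.Agent.R136.Fl808 (InB dt_expand abs_dt_le_one)

/-- the planks of dimensions `(a, w1, w2)` with the frames `f`, `f'` agree up to `Θ` -/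
structure Nr (Θ : ℝ) (f f' : Fin 3 → V3) (a w1 w2 : ℝ) : Prop where
  n01 : |dt (f' 0) (f 1)| * w1 ≤ Θ * a
  n02 : |dt (f' 0) (f 2)| * w2 ≤ Θ * a
  n10 : |dt (f' 1) (f 0)| * w1 ≤ Θ * a
  n20 : |dt (f' 2) (f 0)| * w2 ≤ Θ * a
  n12 : |dt (f' 1) (f 2)| * w1 ≤ Θ * w2
  n21 : |dt (f' 2) (f 1)| * w1 ≤ Θ * w2

theorem Nr.symm {Θ a w1 w2 : ℝ} {f f' : Fin 3 → V3} (h : Nr Θ f f' a w1 w2) :
    Nr Θ f' f a w1 w2 where
  n01 := by rw [dt_comm]; exact h.n10
  n02 := by rw [dt_comm]; exact h.n20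
  n10 := by rw [dt_comm]; exact h.n01
  n20 := by rw [dt_comm]; exact h.n02
  n12 := by rw [dt_comm]; exact h.n21
  n21 := by rw [dt_comm]; exact h.n12

theorem Nr.mono {Θ Θ' a w1 w2 : ℝ} {f f' : Fin 3 → V3} (h : Nr Θ f f' a w1 w2) (hΘ : Θ ≤ Θ')
    (ha : 0 ≤ a) (hw2 : 0 ≤ w2) : Nr Θ' f f' a w1 w2 where
  n01 := h.n01.trans (by gcongr)
  n02 := h.n02.trans (by gcongr)
  n10 := h.n10.trans (by gcongr)
  n20 := h.n20.trans (by gcongr)
  n12 := h.n12.trans (by gcongr)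
  n21 := h.n21.trans (by gcongr)

theorem Nr.trans {Θ Θ' a w1 w2 : ℝ} {f f' f'' : Fin 3 → V3} (h : Nr Θ f f' a w1 w2)
    (h' : Nr Θ' f' f'' a w1 w2) (hf : Ortho f) (hf' : Ortho f') (hf'' : Ortho f'') (ha : 0 < a)
    (haw : a ≤ w2) (hw : w2 ≤ w1) (hΘ : 1 ≤ Θ) (hΘ' : 1 ≤ Θ') :
    Nr (3 * (Θ * Θ')) f f'' a w1 w2 := by
  have hw2 : 0 < w2 := ha.trans_le haw
  have hw1 : 0 < w1 := hw2.trans_le hw
  have o1 := fun i j => abs_dt_le_one hf hf' j i
  have o2 := fun i j => abs_dt_le_one hf' hf'' j i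
  -- sum over the middle frame
  have key : ∀ i j : Fin 3, ∀ W A0 A1 A2 : ℝ, 0 ≤ W →
      |dt (f'' i) (f' 0)| * |dt (f' 0) (f j)| * W ≤ A0 →
      |dt (f'' i) (f' 1)| * |dt (f' 1) (f j)| * W ≤ A1 →
      |dt (f'' i) (f' 2)| * |dt (f' 2) (f j)| * W ≤ A2 →
      |dt (f'' i) (f j)| * W ≤ A0 + A1 + A2 := by
    intro i j W A0 A1 A2 hW h0 h1 h2
    rw [dt_expand hf' (f'' i) (f j)]
    have : |dt (f'' i) (f' 0) * dt (f' 0) (f j) + dt (f'' i) (f' 1) * dt (f' 1) (f j) +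
        dt (f'' i) (f' 2) * dt (f' 2) (f j)| ≤ |dt (f'' i) (f' 0)| * |dt (f' 0) (f j)| +
        |dt (f'' i) (f' 1)| * |dt (f' 1) (f j)| + |dt (f'' i) (f' 2)| * |dt (f' 2) (f j)| := by
      refine (abs_add_le _ _).trans (add_le_add ((abs_add_le _ _).trans (add_le_add ?_ ?_)) ?_) <;>
        rw [abs_mul]
    calc _ ≤ (|dt (f'' i) (f' 0)| * |dt (f' 0) (f j)| +
        |dt (f'' i) (f' 1)| * |dt (f' 1) (f j)| + |dt (f'' i) (f' 2)| * |dt (f' 2) (f j)|) * W := by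
          gcongr
      _ ≤ _ := by linarith
  have hA : Θ * a ≤ Θ * Θ' * a := by
    have : Θ * a * 1 ≤ Θ * a * Θ' := by gcongr
    linarith
  have hA' : Θ' * a ≤ Θ * Θ' * a := by
    have : Θ' * a * 1 ≤ Θ' * a * Θ := by gcongr
    linarith
  have hB : Θ * w2 ≤ Θ * Θ' * w2 := by
    have : Θ * w2 * 1 ≤ Θ * w2 * Θ' := by gcongr
    linarith
  have hB' : Θ' * w2 ≤ Θ * Θ' * w2 := by
    have : Θ' * w2 * 1 ≤ Θ' * w2 * Θ := by gcongr
    linarith
  -- elementary products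
  have left : ∀ x y W R : ℝ, 0 ≤ y → x ≤ 1 → 0 ≤ W → y * W ≤ R → x * y * W ≤ R := by
    intro x y W R hy hx hW hR
    have : x * y * W ≤ 1 * y * W := by gcongr
    linarith
  have right : ∀ x y W R : ℝ, 0 ≤ x → y ≤ 1 → 0 ≤ W → x * W ≤ R → x * y * W ≤ R := by
    intro x y W R hx hy hW hR
    have : x * y * W ≤ x * 1 * W := by gcongr
    linarith
  have down : ∀ x R : ℝ, 0 ≤ x → x * w1 ≤ R → x * w2 ≤ R := by
    intro x R hx hR
    have : x * w2 ≤ x * w1 := by gcongr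
    linarith
  have A := fun x y => abs_nonneg (dt x y)
  have e3 : ∀ x : ℝ, 3 * (Θ * Θ') * x = Θ * Θ' * x + Θ * Θ' * x + Θ * Θ' * x := by intro x; ring
  refine ⟨?_, ?_, ?_, ?_, ?_, ?_⟩
  · rw [e3]
    refine key 0 1 w1 _ _ _ hw1.le ?_ ?_ ?_
    · exact (left _ _ _ _ (A _ _) (o2 0 0) hw1.le h.n01).trans hA
    · exact (right _ _ _ _ (A _ _) (o1 1 1) hw1.le h'.n01).trans hA'
    · calc |dt (f'' 0) (f' 2)| * |dt (f' 2) (f 1)| * w1 =
          |dt (f'' 0) (f' 2)| * (|dt (f' 2) (f 1)| * w1) := by ring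
        _ ≤ |dt (f'' 0) (f' 2)| * (Θ * w2) := mul_le_mul_of_nonneg_left h.n21 (A _ _)
        _ = Θ * (|dt (f'' 0) (f' 2)| * w2) := by ring
        _ ≤ Θ * (Θ' * a) := mul_le_mul_of_nonneg_left h'.n02 (by linarith)
        _ = _ := by ring
  · rw [e3]
    refine key 0 2 w2 _ _ _ hw2.le ?_ ?_ ?_
    · exact (left _ _ _ _ (A _ _) (o2 0 0) hw2.le h.n02).trans hA
    · exact (right _ _ _ _ (A _ _) (o1 2 1) hw2.le (down _ _ (A _ _) h'.n01)).trans hA'
    · exact (right _ _ _ _ (A _ _) (o1 2 2) hw2.le h'.n02).trans hA'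
  · rw [e3]
    refine key 1 0 w1 _ _ _ hw1.le ?_ ?_ ?_
    · exact (right _ _ _ _ (A _ _) (o1 0 0) hw1.le h'.n10).trans hA'
    · exact (left _ _ _ _ (A _ _) (o2 1 1) hw1.le h.n10).trans hA
    · calc |dt (f'' 1) (f' 2)| * |dt (f' 2) (f 0)| * w1 =
          (|dt (f'' 1) (f' 2)| * w1) * |dt (f' 2) (f 0)| := by ring
        _ ≤ (Θ' * w2) * |dt (f' 2) (f 0)| := mul_le_mul_of_nonneg_right h'.n12 (A _ _)
        _ = Θ' * (|dt (f' 2) (f 0)| * w2) := by ring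
        _ ≤ Θ' * (Θ * a) := mul_le_mul_of_nonneg_left h.n20 (by linarith)
        _ = _ := by ring
  · rw [e3]
    refine key 2 0 w2 _ _ _ hw2.le ?_ ?_ ?_
    · exact (right _ _ _ _ (A _ _) (o1 0 0) hw2.le h'.n20).trans hA'
    · exact (left _ _ _ _ (A _ _) (o2 1 2) hw2.le (down _ _ (A _ _) h.n10)).trans hA
    · exact (left _ _ _ _ (A _ _) (o2 2 2) hw2.le h.n20).trans hA
  · rw [e3]
    refine key 1 2 w1 _ _ _ hw1.le ?_ ?_ ?_
    · exact (right _ _ _ _ (A _ _) (o1 2 0) hw1.le h'.n10).trans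
        (by have : Θ' * a ≤ Θ' * w2 := by gcongr
            linarith)
    · exact (left _ _ _ _ (A _ _) (o2 1 1) hw1.le h.n12).trans hB
    · exact (right _ _ _ _ (A _ _) (o1 2 2) hw1.le h'.n12).trans hB'
  · rw [e3]
    refine key 2 1 w1 _ _ _ hw1.le ?_ ?_ ?_
    · exact (left _ _ _ _ (A _ _) (o2 0 2) hw1.le h.n01).trans
        (by have : Θ * a ≤ Θ * w2 := by gcongr
            linarith)
    · exact (right _ _ _ _ (A _ _) (o1 1 1) hw1.le h'.n21).trans hB'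
    · exact (left _ _ _ _ (A _ _) (o2 2 2) hw1.le h.n21).trans hB

/-! ### frames with close gradients -/

theorem shrink {m X : ℝ} (hm : 1 ≤ m) : |1 / m * X| ≤ |X| := by
  have hm0 : 0 < m := by linarith
  rw [abs_mul, abs_of_pos (by positivity)]
  exact mul_le_of_le_one_left (abs_nonneg _) ((div_le_one hm0).2 hm)

theorem pf01 {e : Fin 3 → V3} (he : Ortho e) (g1 g2 g1' g2' : ℝ) :
    |dt (pf e g1' g2' 0) (pf e g1 g2 1)| ≤ |g1' - g1| := by
  have k := fun i => (dt_adF (G0 := 1) (G1 := g1) (G2 := g2)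
    (m := Real.sqrt (1 + g1 ^ 2 + g2 ^ 2)) (m1 := Real.sqrt (1 + g1 ^ 2)) he i).2.1
  unfold pf
  rw [adF_zero, k 0, k 1, k 2]
  simp only [Matrix.cons_val]
  have : 1 * (1 / Real.sqrt (1 + g1 ^ 2) * -g1) + g1' * (1 / Real.sqrt (1 + g1 ^ 2) * 1) +
      g2' * (1 / Real.sqrt (1 + g1 ^ 2) * 0) = 1 / Real.sqrt (1 + g1 ^ 2) * (g1' - g1) := by ring
  rw [this]
  exact (shrink (one_le_m _ _)).trans (shrink (one_le_m1 _))

theorem pf02 {e : Fin 3 → V3} (he : Ortho e) (g1 g2 g1' g2' : ℝ) :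
    |dt (pf e g1' g2' 0) (pf e g1 g2 2)| ≤
      |(g2' - g2) + g1 * ((g1 - g1') * g2' + g1' * (g2' - g2))| := by
  have k := fun i => (dt_adF (G0 := 1) (G1 := g1) (G2 := g2)
    (m := Real.sqrt (1 + g1 ^ 2 + g2 ^ 2)) (m1 := Real.sqrt (1 + g1 ^ 2)) he i).2.2
  have hmm : 1 ≤ Real.sqrt (1 + g1 ^ 2 + g2 ^ 2) * Real.sqrt (1 + g1 ^ 2) := by
    have h1 := one_le_m g1 g2
    have h2 := one_le_m1 g1
    nlinarith
  unfold pf
  rw [adF_zero, k 0, k 1, k 2, pf_sq1]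
  simp only [Matrix.cons_val]
  generalize Real.sqrt (1 + g1 ^ 2 + g2 ^ 2) * Real.sqrt (1 + g1 ^ 2) = M at *
  have : 1 * (1 / M * -(1 * g2)) + g1' * (1 / M * -(g1 * g2)) + g2' * (1 / M * (1 ^ 2 + g1 ^ 2)) =
      1 / M * ((g2' - g2) + g1 * ((g1 - g1') * g2' + g1' * (g2' - g2))) := by ring
  rw [this]
  exact (shrink (one_le_m _ _)).trans (shrink hmm)

theorem pf12 {e : Fin 3 → V3} (he : Ortho e) (g1 g2 g1' g2' : ℝ) :
    |dt (pf e g1' g2' 1) (pf e g1 g2 2)| ≤ |g2 * (g1' - g1)| := by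
  have k := fun i => (dt_adF (G0 := 1) (G1 := g1) (G2 := g2)
    (m := Real.sqrt (1 + g1 ^ 2 + g2 ^ 2)) (m1 := Real.sqrt (1 + g1 ^ 2)) he i).2.2
  have hmm : 1 ≤ Real.sqrt (1 + g1 ^ 2 + g2 ^ 2) * Real.sqrt (1 + g1 ^ 2) := by
    have h1 := one_le_m g1 g2
    have h2 := one_le_m1 g1
    nlinarith
  unfold pf
  rw [adF_one, k 0, k 1]
  simp only [Matrix.cons_val]
  generalize Real.sqrt (1 + g1 ^ 2 + g2 ^ 2) * Real.sqrt (1 + g1 ^ 2) = M at *
  have : -g1' * (1 / M * -(1 * g2)) + 1 * (1 / M * -(g1 * g2)) = 1 / M * (g2 * (g1' - g1)) := by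
    ring
  rw [this]
  exact (shrink (one_le_m1 _)).trans (shrink hmm)

/-- **frames with close gradients agree** -/
theorem pf_near {e : Fin 3 → V3} (he : Ortho e) {g1 g2 g1' g2' a w1 w2 δ : ℝ} (ha : 0 < a)
    (haw : a ≤ w2) (hw : w2 ≤ w1) (h1 : |g1| ≤ 2) (h2 : |g2| ≤ 2) (h1' : |g1'| ≤ 2)
    (h2' : |g2'| ≤ 2) (d1 : |g1' - g1| * w1 ≤ δ * a) (d2 : |g2' - g2| * w2 ≤ δ * a) :
    Nr (9 * δ) (pf e g1 g2) (pf e g1' g2') a w1 w2 := by
  have hw2 : 0 < w2 := ha.trans_le haw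
  have hw1 : 0 < w1 := hw2.trans_le hw
  have hδ : 0 ≤ δ * a := le_trans (by positivity) d1
  have hδ0 : 0 ≤ δ := by
    by_contra hc
    push Not at hc
    nlinarith
  have hδw : δ * a ≤ δ * w2 := by gcongr
  have d1' : |g1' - g1| * w2 ≤ δ * a := by
    have : |g1' - g1| * w2 ≤ |g1' - g1| * w1 := by gcongr
    linarith
  have e1 : |g1 - g1'| = |g1' - g1| := abs_sub_comm _ _
  have e2 : |g2 - g2'| = |g2' - g2| := abs_sub_comm _ _
  -- the mixed term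
  have mix : ∀ x x' y y' : ℝ, |x| ≤ 2 → |x'| ≤ 2 → |y'| ≤ 2 → |x - x'| * w2 ≤ δ * a →
      |y' - y| * w2 ≤ δ * a →
      |(y' - y) + x * ((x - x') * y' + x' * (y' - y))| * w2 ≤ 9 * δ * a := by
    intro x x' y y' hx hx' hy' hd hd'
    have m : |(y' - y) + x * ((x - x') * y' + x' * (y' - y))| ≤
        |y' - y| + 2 * (|x - x'| * 2 + 2 * |y' - y|) := by
      refine (abs_add_le _ _).trans (add_le_add le_rfl ?_)
      rw [abs_mul]
      refine mul_le_mul hx ((abs_add_le _ _).trans (add_le_add ?_ ?_)) (abs_nonneg _) (by norm_num)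
      · rw [abs_mul]; gcongr
      · rw [abs_mul]; gcongr
    calc _ ≤ (|y' - y| + 2 * (|x - x'| * 2 + 2 * |y' - y|)) * w2 := by gcongr
      _ = 5 * (|y' - y| * w2) + 4 * (|x - x'| * w2) := by ring
      _ ≤ _ := by linarith
  refine ⟨?_, ?_, ?_, ?_, ?_, ?_⟩
  · have := pf01 he g1 g2 g1' g2'
    calc |dt (pf e g1' g2' 0) (pf e g1 g2 1)| * w1 ≤ |g1' - g1| * w1 := by gcongr
      _ ≤ _ := by linarith
  · have := pf02 he g1 g2 g1' g2'
    calc |dt (pf e g1' g2' 0) (pf e g1 g2 2)| * w2 ≤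
          |(g2' - g2) + g1 * ((g1 - g1') * g2' + g1' * (g2' - g2))| * w2 := by gcongr
      _ ≤ _ := mix g1 g1' g2 g2' h1 h1' h2' (by rw [e1]; exact d1') d2
  · rw [dt_comm]
    have := pf01 he g1' g2' g1 g2
    calc |dt (pf e g1 g2 0) (pf e g1' g2' 1)| * w1 ≤ |g1 - g1'| * w1 := by gcongr
      _ ≤ _ := by rw [e1]; linarith
  · rw [dt_comm]
    have := pf02 he g1' g2' g1 g2
    calc |dt (pf e g1 g2 0) (pf e g1' g2' 2)| * w2 ≤
          |(g2 - g2') + g1' * ((g1' - g1) * g2 + g1 * (g2 - g2'))| * w2 := by gcongr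
      _ ≤ _ := mix g1' g1 g2' g2 h1' h1 h2 d1' (by rw [e2]; exact d2)
  · have := pf12 he g1 g2 g1' g2'
    calc |dt (pf e g1' g2' 1) (pf e g1 g2 2)| * w1 ≤ |g2 * (g1' - g1)| * w1 := by gcongr
      _ = |g2| * (|g1' - g1| * w1) := by rw [abs_mul]; ring
      _ ≤ 2 * (δ * a) := by gcongr
      _ ≤ _ := by linarith
  · rw [dt_comm]
    have := pf12 he g1' g2' g1 g2
    calc |dt (pf e g1 g2 1) (pf e g1' g2' 2)| * w1 ≤ |g2' * (g1 - g1')| * w1 := by gcongr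
      _ = |g2'| * (|g1' - g1| * w1) := by rw [abs_mul, e1]; ring
      _ ≤ 2 * (δ * a) := by gcongr
      _ ≤ _ := by linarith

variable {e : Fin 3 → V3} {c T t : Ln4} {w : V3} {q : ℝ → V3 → ℝ} {a z0 ρ : ℝ} {b0 b1 : V3}
  {G : QF}

theorem gr_le2 (N : NrmC b0 b1 G) (hw : ∀ i, 0 < w i) (h02 : w 0 ≤ w 2) (h21 : w 2 ≤ w 1) :
    |gr b0 w 1| ≤ 2 ∧ |gr b0 w 2| ≤ 2 := by
  obtain ⟨r1, r2⟩ := gr_le N hw
  have h1 : w 0 / w 1 ≤ 1 := (div_le_one (hw 1)).2 (h02.trans h21)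
  have h2 : w 0 / w 2 ≤ 1 := (div_le_one (hw 2)).2 h02
  constructor <;> linarith

/-- **the gradients at two lines which are close at the beginning of the cell** -/
theorem ratio_move {T' : Ln4} {b0' b1' : V3} {G' : QF} (S : StP e c w q z0 ρ) (hρ : 0 < ρ)
    (hE : IsExp q e w T z0 ρ b0 b1 G) (hE' : IsExp q e w T' z0 ρ b0' b1' G')
    (hT : InSheet T e c w q a z0 ρ) (hT' : InSheet T' e c w q a z0 ρ) {μ : ℝ} (hμ : 4 * μ ≤ 1)
    (h1 : |dt (e 1) (T'.pos z0 - T.pos z0)| ≤ μ * w 1)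
    (h2 : |dt (e 2) (T'.pos z0 - T.pos z0)| ≤ μ * w 2) :
    ∀ k, k = 1 ∨ k = 2 → |gr b0' w k - gr b0 w k| * w k ≤
      40 * a + 66 * μ * (w 0 * kap b0 b1 G) := by
  have hw := S.pos
  have h0 := hw 0
  have N := hE.nrmC S hρ.le fun z hz hz' => (hT z hz hz').1
  have N' := hE'.nrmC S hρ.le fun z hz hz' => (hT' z hz hz').1
  obtain ⟨g1, g2, -, -, -, -, -, s1, s2⟩ := N.b1_le
  obtain ⟨g1', g2', -⟩ := N'.b1_le
  obtain ⟨-, -, j3, j4, -, -, -⟩ := N.sh_le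
  have hb0 : b0 0 ≠ 0 := by linarith
  have hb0' : b0' 0 ≠ 0 := by linarith
  have k3 : |(shG b0 G).uu| ≤ kap b0 b1 G :=
    (le_max_left _ _).trans ((le_max_left _ _).trans (le_max_right _ _))
  have k4 : |(shG b0 G).uv| ≤ kap b0 b1 G :=
    (le_max_right _ _).trans ((le_max_left _ _).trans (le_max_right _ _))
  have k5 : |(shG b0 G).vv| ≤ kap b0 b1 G := (le_max_right _ _).trans (le_max_right _ _)
  have hκ := kap_nonneg b0 b1 G
  have hzz : z0 + ρ * 0 = z0 := by ring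
  have hy := y_bound (a := a) S hE N hρ.le (ζ := 0) (μ := μ) le_rfl zero_le_one hμ
    (x := T'.pos z0)
    (by rw [hzz]; exact (hT z0 le_rfl (by linarith)).1)
    (by rw [hzz]; exact (hT' z0 le_rfl (by linarith)).1)
    (by rw [hzz]; exact (hT z0 le_rfl (by linarith)).2)
    (by rw [hzz]; exact (hT' z0 le_rfl (by linarith)).2)
    (by rw [hzz]; exact h1) (by rw [hzz]; exact h2)
  rw [hzz] at hy
  obtain ⟨d, hd⟩ : ∃ d : V3, ∀ k, d k = dt (e k) (T'.pos z0 - T.pos z0) / w k :=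
    ⟨fun k => dt (e k) (T'.pos z0 - T.pos z0) / w k, fun k => rfl⟩
  obtain ⟨m0, m1, m2⟩ := b0_move S.ortho hw hE hE' hd
  have hd1 : |d 1| ≤ μ := by
    rw [hd, abs_div, abs_of_pos (hw 1), div_le_iff₀ (hw 1)]; exact h1
  have hd2 : |d 2| ≤ μ := by
    rw [hd, abs_div, abs_of_pos (hw 2), div_le_iff₀ (hw 2)]; exact h2
  have hμ0 : 0 ≤ μ := (abs_nonneg _).trans hd1
  -- tangent coordinate
  set Y := d 0 + b0 1 / b0 0 * d 1 + b0 2 / b0 0 * d 2 with hY
  have hYt : w 0 * Y = ty e w b0 (T'.pos z0 - T.pos z0) := by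
    have q1 := (hw 1).ne'
    have q2 := (hw 2).ne'
    simp only [hY, hd, ty, gr]
    field_simp
  have hYb : w 0 * |Y| ≤ 4 * a + 6 * μ * (w 0 * kap b0 b1 G) := by
    have : w 0 * |Y| = |w 0 * Y| := by rw [abs_mul, abs_of_pos h0]
    rw [this, hYt]; exact hy
  have e1 : b0' 1 / b0' 0 - b0 1 / b0 0 = 1 / b0' 0 *
      ((shG b0 G).yu * Y + 2 * (shG b0 G).uu * d 1 + (shG b0 G).uv * d 2) := by
    rw [eq_comm, one_div, inv_mul_eq_div, div_eq_iff hb0', sub_mul, div_mul_cancel₀ _ hb0', m0, m1]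
    simp only [shG, hY]
    field_simp
    ring
  have e2 : b0' 2 / b0' 0 - b0 2 / b0 0 = 1 / b0' 0 *
      ((shG b0 G).yv * Y + (shG b0 G).uv * d 1 + 2 * (shG b0 G).vv * d 2) := by
    rw [eq_comm, one_div, inv_mul_eq_div, div_eq_iff hb0', sub_mul, div_mul_cancel₀ _ hb0', m0, m2]
    simp only [shG, hY]
    field_simp
    ring
  have hi : |1 / b0' 0| ≤ 2 := by
    rw [abs_of_pos (by positivity), div_le_iff₀ (by linarith)]; linarith
  have t2 : |(2 : ℝ)| ≤ 2 := by norm_num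
  have hYn : |Y| ≤ |Y| := le_rfl
  have r1 : |b0' 1 / b0' 0 - b0 1 / b0 0| ≤ 10 * |Y| + 6 * μ * kap b0 b1 G := by
    rw [e1]
    have a1 := mul_abs_le j3 hYn
    have a2 := mul_abs_le (mul_abs_le t2 k3) hd1
    have a3 := mul_abs_le k4 hd2
    have := mul_abs_le hi ((abs_add_le _ _).trans (add_le_add ((abs_add_le _ _).trans
      (add_le_add a1 a2)) a3))
    refine this.trans (le_of_eq ?_)
    ring
  have r2 : |b0' 2 / b0' 0 - b0 2 / b0 0| ≤ 10 * |Y| + 6 * μ * kap b0 b1 G := by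
    rw [e2]
    have a1 := mul_abs_le j4 hYn
    have a2 := mul_abs_le k4 hd1
    have a3 := mul_abs_le (mul_abs_le t2 k5) hd2
    have := mul_abs_le hi ((abs_add_le _ _).trans (add_le_add ((abs_add_le _ _).trans
      (add_le_add a1 a2)) a3))
    refine this.trans (le_of_eq ?_)
    ring
  have fin : ∀ k, |b0' k / b0' 0 - b0 k / b0 0| ≤ 10 * |Y| + 6 * μ * kap b0 b1 G →
      |gr b0' w k - gr b0 w k| * w k ≤ 40 * a + 66 * μ * (w 0 * kap b0 b1 G) := by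
    intro k hk
    have hk0 := hw k
    have : gr b0' w k - gr b0 w k = (b0' k / b0' 0 - b0 k / b0 0) * (w 0 / w k) := by
      unfold gr; ring
    rw [this, abs_mul, abs_of_pos (div_pos h0 hk0), mul_assoc, div_mul_cancel₀ _ hk0.ne']
    calc |b0' k / b0' 0 - b0 k / b0 0| * w 0 ≤ (10 * |Y| + 6 * μ * kap b0 b1 G) * w 0 := by gcongr
      _ = 10 * (w 0 * |Y|) + 6 * μ * (w 0 * kap b0 b1 G) := by ring
      _ ≤ 10 * (4 * a + 6 * μ * (w 0 * kap b0 b1 G)) + 6 * μ * (w 0 * kap b0 b1 G) := by gcongr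
      _ = _ := by ring
  rintro k (rfl | rfl)
  · exact fin 1 r1
  · exact fin 2 r2

/-- **the frames of two lines which are close at the beginning of the cell agree** -/
theorem frame_near {T' : Ln4} {b0' b1' : V3} {G' : QF} (S : StP e c w q z0 ρ) (hρ : 0 < ρ)
    (hE : IsExp q e w T z0 ρ b0 b1 G) (hE' : IsExp q e w T' z0 ρ b0' b1' G')
    (hT : InSheet T e c w q a z0 ρ) (hT' : InSheet T' e c w q a z0 ρ) {B Λ W1 W2 : ℝ}
    (ha : 0 < a) (hΛ : 0 < Λ)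
    (h1 : |dt (e 1) (T'.pos z0 - T.pos z0)| ≤ 5 * (W1 / Λ))
    (h2 : |dt (e 2) (T'.pos z0 - T.pos z0)| ≤ 5 * (W2 / Λ))
    (hW1 : W1 ≤ B * w 1) (hW2 : W2 ≤ B * w 2) (hB1 : 1 ≤ B) (hB : 20 * B ≤ Λ)
    (hext : B * (w 0 * kap b0 b1 G) ≤ 26 * Λ * a) (haΛ : a * Λ ≤ W2) (h02 : w 0 ≤ w 2)
    (h21 : w 2 ≤ w 1) (hW21 : W2 ≤ W1) :
    Nr 4000 (pfr q e w T z0) (pfr q e w T' z0) a (W1 / Λ) (W2 / Λ) := by
  have hw := S.pos
  have h0 := hw 0
  have p1 := hw 1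
  have p2 := hw 2
  have N := hE.nrmC S hρ.le fun z hz hz' => (hT z hz hz').1
  have N' := hE'.nrmC S hρ.le fun z hz hz' => (hT' z hz hz').1
  obtain ⟨q1, q2⟩ := gr_le2 N hw h02 h21
  obtain ⟨q1', q2'⟩ := gr_le2 N' hw h02 h21
  set μ : ℝ := 5 * B / Λ with hμ
  have hμ4 : 4 * μ ≤ 1 := by
    rw [hμ, ← mul_div_assoc, div_le_one hΛ]; linarith
  have m1 : |dt (e 1) (T'.pos z0 - T.pos z0)| ≤ μ * w 1 := by
    refine h1.trans ?_
    rw [hμ]
    calc 5 * (W1 / Λ) ≤ 5 * (B * w 1 / Λ) := by gcongr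
      _ = 5 * B / Λ * w 1 := by ring
  have m2 : |dt (e 2) (T'.pos z0 - T.pos z0)| ≤ μ * w 2 := by
    refine h2.trans ?_
    rw [hμ]
    calc 5 * (W2 / Λ) ≤ 5 * (B * w 2 / Λ) := by gcongr
      _ = 5 * B / Λ * w 2 := by ring
  have hr := ratio_move S hρ hE hE' hT hT' hμ4 m1 m2
  have hBΛ : B / Λ ≤ 1 / 20 := by rw [div_le_iff₀ hΛ]; linarith
  have hBΛ0 : 0 ≤ B / Λ := by positivity
  have hkap := kap_nonneg b0 b1 G
  have hBk : 0 ≤ B * (w 0 * kap b0 b1 G) := by positivity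
  have fin : ∀ (k : Fin 3) (Wk : ℝ), k = 1 ∨ k = 2 → Wk ≤ B * w k →
      |gr b0' w k - gr b0 w k| * (Wk / Λ) ≤ 431 * a := by
    intro k Wk hk hWk
    have hrk := hr k hk
    calc |gr b0' w k - gr b0 w k| * (Wk / Λ) ≤ |gr b0' w k - gr b0 w k| * (B * w k / Λ) := by
          gcongr
      _ = B / Λ * (|gr b0' w k - gr b0 w k| * w k) := by ring
      _ ≤ B / Λ * (40 * a + 66 * μ * (w 0 * kap b0 b1 G)) := by gcongr
      _ = 40 * a * (B / Λ) + 330 / Λ * (B / Λ) * (B * (w 0 * kap b0 b1 G)) := by rw [hμ]; ring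
      _ ≤ 40 * a * (1 / 20) + 330 / Λ * (1 / 20) * (26 * Λ * a) := by gcongr
      _ = 431 * a := by field_simp; ring
  unfold pfr
  rw [cb0_eq hE h0.ne', cb0_eq hE' h0.ne']
  have haW : a ≤ W2 / Λ := by rw [le_div_iff₀ hΛ]; exact haΛ
  have hWW : W2 / Λ ≤ W1 / Λ := by gcongr
  exact (pf_near S.ortho ha haW hWW q1 q2 q1' q2' (fin 1 W1 (Or.inl rfl) hW1)
    (fin 2 W2 (Or.inr rfl) hW2)).mono (by norm_num) ha.le (ha.le.trans haW)


end Crest.Agent.R136.Mdr535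
end

-- ▼ part R136/Mdr4_535
section

/-!
# R136 (S0187), U5 TILT, `Mid`: curved class systems as systems of planks at a deeper level
(helper535)

* `CSys` : class system of curved sheets (curved version of 808's `FSys`).
* `CSys.plank` : over the cells of level `i + k` it is a system of planks, labels = (class, deep cell,
  grid label of the small box).
* `CSys.near`, `CSys.near0` : the frame of the plank of a deep object agrees with the frame of the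
  gradient of the sheet along the line of the object (at the beginning of the deep / long cell).
* `FSys.mono`.
-/

set_option autoImplicit false
set_option linter.unusedVariables false
set_option linter.unusedSectionVars false

namespace Crest.Agent.R136.Mdr535

open Finset Crest.Agent.R136.Sh605 Crest.Agent.R136.Tl102
open Crest.Agent.R138.Mk163 (zl rho)
open Crest.Agent.R136.Fl808

open Classical in
/-- class system of curved sheets over the cells of level `i`: common thickness `a`, widths comparable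
to `W1 ≥ W2` up to `B`, curvature extent at most `X` (length units) along every object. -/
structure CSys {α : Type*} (O : Finset (ℕ × ℤ)) (L : ℕ → Ln4) (i : ℕ) (f : ℕ × ℤ → α)
    (c : α → Ln4) (e : α → Fin 3 → V3) (w : α → V3) (q : α → ℝ → V3 → ℝ)
    (a W1 W2 B X A : ℝ) : Prop where
  st : ∀ o ∈ O, StP (e (f o)) (c (f o)) (w (f o)) (q (f o)) (zl i o.2) (rho i)
  mem : ∀ o ∈ O, InSheet (L o.1) (e (f o)) (c (f o)) (w (f o)) (q (f o)) a (zl i o.2) (rho i)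
  w02 : ∀ o ∈ O, w (f o) 0 ≤ w (f o) 2
  w21 : ∀ o ∈ O, w (f o) 2 ≤ w (f o) 1
  wW1 : ∀ o ∈ O, w (f o) 1 ≤ W1
  wW2 : ∀ o ∈ O, w (f o) 2 ≤ W2
  Ww1 : ∀ o ∈ O, W1 ≤ B * w (f o) 1
  Ww2 : ∀ o ∈ O, W2 ≤ B * w (f o) 2
  ext : ∀ o ∈ O, ∃ b0 b1 G, IsExp (q (f o)) (e (f o)) (w (f o)) (L o.1) (zl i o.2) (rho i) b0 b1 G ∧
    w (f o) 0 * kap b0 b1 G ≤ X
  cell : ∀ o ∈ O, ∀ o' ∈ O, f o = f o' → o.2 = o'.2
  num : ((O.image f).card : ℝ) * A ≤ (O.card : ℝ)

/-- a chosen object of every label -/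
noncomputable def rep {γ : Type*} (P : Finset (ℕ × ℤ)) (F : ℕ × ℤ → γ) (l : γ) : ℕ × ℤ :=
  open Classical in if h : ∃ x ∈ P, F x = l then h.choose else (0, 0)

theorem rep_spec {γ : Type*} {P : Finset (ℕ × ℤ)} {F : ℕ × ℤ → γ} {x : ℕ × ℤ} (hx : x ∈ P) :
    rep P F (F x) ∈ P ∧ F (rep P F (F x)) = F x := by
  have h : ∃ y ∈ P, F y = F x := ⟨x, hx, rfl⟩
  unfold rep
  rw [dif_pos h]
  exact h.choose_spec

section

variable {α : Type*} {O P : Finset (ℕ × ℤ)} {L : ℕ → Ln4} {i k : ℕ} {f : ℕ × ℤ → α}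
  {c : α → Ln4} {e : α → Fin 3 → V3} {w : α → V3} {q : α → ℝ → V3 → ℝ} {a W1 W2 B X A : ℝ}

theorem CSys.toF (h : CSys O L i f c e w q a W1 W2 B X A) : FSys O L i f c e W2 W1 W2 A where
  ortho := fun o ho => (h.st o ho).ortho
  mem := by
    intro o ho z hz hz' j
    have h1 := (h.mem o ho z hz hz').1 j
    have h2 := h.w02 o ho
    have h3 := h.wW1 o ho
    have h4 := h.wW2 o ho
    fin_cases j
    · exact h1.trans (h2.trans h4)
    · exact h1.trans h3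
    · exact h1.trans h4
  cell := h.cell
  num := h.num

/-- a deep cell inside its parent -/
theorem deep_cell (i k : ℕ) (x : ℕ × ℤ) : ∃ ζ r : ℝ, 0 ≤ ζ ∧ ζ ≤ 1 ∧ 0 ≤ r ∧ r ≤ 1 ∧
    zl i (par k x).2 + rho i * ζ = zl (i + k) x.2 ∧ rho i * r = rho (i + k) ∧
    zl i (par k x).2 ≤ zl (i + k) x.2 ∧
    zl (i + k) x.2 + rho (i + k) ≤ zl i (par k x).2 + rho i := by
  have hρ := rho_pos i
  have hρ' := rho_pos (i + k)
  have h1 := zl_par_le i k x.2
  have h2 := zl_par_ge i k x.2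
  have h3 := rho_add i k
  refine ⟨(zl (i + k) x.2 - zl i (par k x).2) / rho i, 1 / 2 ^ k, ?_, ?_, ?_, ?_, ?_, ?_, h1, h2⟩
  · exact div_nonneg (by simp only [par]; linarith) hρ.le
  · rw [div_le_one hρ]; simp only [par]; linarith
  · positivity
  · exact (div_le_one (by positivity)).2 (one_le_pow₀ (by norm_num))
  · field_simp; ring
  · rw [← h3]; field_simp

/-- expansion of the sheet along the line of a deep object, over the deep cell -/
theorem CSys.deep_exp (h : CSys O L i f c e w q a W1 W2 B X A) {x : ℕ × ℤ} (hx : par k x ∈ O) :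
    ∃ b0 b1 G, IsExp (q (f (par k x))) (e (f (par k x))) (w (f (par k x))) (L x.1)
      (zl (i + k) x.2) (rho (i + k)) b0 b1 G ∧ w (f (par k x)) 0 * kap b0 b1 G ≤ 128 * X := by
  obtain ⟨b0, b1, G, hE, hX⟩ := h.ext _ hx
  obtain ⟨ζ, r, h1, h2, h3, h4, h5, h6, h7, h8⟩ := deep_cell i k x
  have N := hE.nrmC (h.st _ hx) (rho_pos i).le fun z hz hz' => (h.mem _ hx z hz hz').1
  have hE' := isExp_sub hE ζ r
  rw [h5, h6] at hE'
  refine ⟨_, _, _, hE', ?_⟩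
  have hk := (kap_sub N h1 h2 h3 h4).1
  have hw := (h.st _ hx).pos 0
  calc w (f (par k x)) 0 * kap (fun k => b0 k + ζ * b1 k) (fun k => r * b1 k) G ≤
      w (f (par k x)) 0 * (128 * kap b0 b1 G) := by gcongr
    _ = 128 * (w (f (par k x)) 0 * kap b0 b1 G) := by ring
    _ ≤ _ := by gcongr

/-- conditions on the numbers of the zoom -/
structure ZPar (a W1 W2 B X : ℝ) (k : ℕ) : Prop where
  ha : 0 < a
  hB1 : 1 ≤ B
  hB : 20 * B ≤ 2 ^ k
  hX : 5 * (B * X) ≤ 2 ^ k * a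
  haW : a * 2 ^ k ≤ W2
  hW : W2 ≤ W1

/-- the labels of the zoomed system -/
noncomputable def zlab (L : ℕ → Ln4) (i k : ℕ) (f : ℕ × ℤ → α) (c : α → Ln4)
    (e : α → Fin 3 → V3) (W1 W2 : ℝ) : ℕ × ℤ → α × ℤ × ℤ × ℤ :=
  lab L i k f c e (W1 / 2 ^ k) (W2 / 2 ^ k)

/-- centre of the plank of a label -/
noncomputable def zb (P : Finset (ℕ × ℤ)) (L : ℕ → Ln4) (i k : ℕ) (f : ℕ × ℤ → α) (c : α → Ln4)
    (e : α → Fin 3 → V3) (W1 W2 : ℝ) (l : α × ℤ × ℤ × ℤ) : Ln4 :=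
  L (rep P (zlab L i k f c e W1 W2) l).1

/-- frame of the plank of a label -/
noncomputable def ze (P : Finset (ℕ × ℤ)) (L : ℕ → Ln4) (i k : ℕ) (f : ℕ × ℤ → α) (c : α → Ln4)
    (e : α → Fin 3 → V3) (w : α → V3) (q : α → ℝ → V3 → ℝ) (W1 W2 : ℝ) (l : α × ℤ × ℤ × ℤ) :
    Fin 3 → V3 :=
  pfr (q l.1) (e l.1) (w l.1) (zb P L i k f c e W1 W2 l) (zl (i + k) l.2.1)

/-- the data of a deep object and the representative of its label -/
theorem CSys.pair (h : CSys O L i f c e w q a W1 W2 B X A) (hP : ∀ x ∈ P, par k x ∈ O)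
    (Z : ZPar a W1 W2 B X k) {x : ℕ × ℤ} (hx : x ∈ P) :
    ∃ y ∈ P, rep P (zlab L i k f c e W1 W2) (zlab L i k f c e W1 W2 x) = y ∧ y.2 = x.2 ∧
      f (par k y) = f (par k x) ∧
      InB (L x.1) (L y.1) (e (f (par k x))) ![2 * W2, 5 * (W1 / 2 ^ k), 5 * (W2 / 2 ^ k)]
        (zl (i + k) x.2) (rho (i + k)) := by
  have hW2 : 0 < W2 := lt_of_lt_of_le (mul_pos Z.ha (by positivity)) Z.haW
  have hW1 : 0 < W1 := hW2.trans_le Z.hW
  obtain ⟨h1, h2⟩ := rep_spec (F := zlab L i k f c e W1 W2) hx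
  have e1 : ∀ W : ℝ, W ≤ 2 ^ k * (W / 2 ^ k) := fun W => le_of_eq (by field_simp)
  obtain ⟨h3, h4, h5⟩ := lab_box (P := P) (k := k) h.toF hP (s1 := W1 / 2 ^ k) (s2 := W2 / 2 ^ k)
    (by positivity) (by positivity) (e1 W1) (e1 W2) h1 hx h2.symm
  refine ⟨_, h1, rfl, h3.symm, h4.symm, ?_⟩
  rw [← h4] at h5
  rw [← h3] at h5
  exact h5


/-- **the frame of the plank of a deep object agrees with the frame of the gradient along its line**,
taken at the beginning of the deep cell -/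
theorem CSys.near (h : CSys O L i f c e w q a W1 W2 B X A) (hP : ∀ x ∈ P, par k x ∈ O)
    (Z : ZPar a W1 W2 B X k) {x : ℕ × ℤ} (hx : x ∈ P) :
    Nr 4000 (ze P L i k f c e w q W1 W2 (zlab L i k f c e W1 W2 x))
      (pfr (q (f (par k x))) (e (f (par k x))) (w (f (par k x))) (L x.1) (zl (i + k) x.2)) a
      (W1 / 2 ^ k) (W2 / 2 ^ k) := by
  obtain ⟨y, hy, h1, h2, h3, h4⟩ := h.pair hP Z hx
  have hyO := hP y hy
  have hxO := hP x hx
  obtain ⟨ζ, r, -, -, -, -, -, -, h5, h6⟩ := deep_cell i k x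
  obtain ⟨b0, b1, G, hE, hX⟩ := h.deep_exp hyO
  obtain ⟨b0', b1', G', hE', hX'⟩ := h.deep_exp hxO
  have hcell : (par k y).2 = (par k x).2 := by simp only [par, h2]
  have hS := stP_sub (h.st _ hxO) h5 h6
  have m1 := inSheet_sub (h.mem _ hxO) h5 h6
  have m2 := h.mem _ hyO
  rw [h3, hcell] at m2
  have m2 := inSheet_sub m2 h5 h6
  rw [h3, h2] at hE
  rw [h3] at hX
  have hρ := rho_pos (i + k)
  have hB0 : 0 < B := by linarith [Z.hB1]
  have hext : B * (w (f (par k x)) 0 * kap b0 b1 G) ≤ 26 * 2 ^ k * a := by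
    calc B * (w (f (par k x)) 0 * kap b0 b1 G) ≤ B * (128 * X) := by gcongr
      _ = 128 / 5 * (5 * (B * X)) := by ring
      _ ≤ 128 / 5 * (2 ^ k * a) := mul_le_mul_of_nonneg_left Z.hX (by norm_num)
      _ ≤ _ := by
        have := mul_pos (show (0 : ℝ) < 2 ^ k by positivity) Z.ha
        linarith
  have e1 : zb P L i k f c e W1 W2 (zlab L i k f c e W1 W2 x) = L y.1 := by
    unfold zb; rw [h1]
  have e2 : ze P L i k f c e w q W1 W2 (zlab L i k f c e W1 W2 x) =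
      pfr (q (f (par k x))) (e (f (par k x))) (w (f (par k x))) (L y.1) (zl (i + k) x.2) := by
    unfold ze; rw [e1]; rfl
  rw [e2]
  have h40 := h4 (zl (i + k) x.2) le_rfl (by linarith)
  exact frame_near hS hρ hE hE' m2 m1 Z.ha (by positivity) (h40 1) (h40 2) (h.Ww1 _ hxO)
    (h.Ww2 _ hxO) Z.hB1 Z.hB hext Z.haW (h.w02 _ hxO) (h.w21 _ hxO) Z.hW


end

/-- enlarging the dimensions of a system of planks -/
theorem FSys.mono {α : Type*} {O : Finset (ℕ × ℤ)} {L : ℕ → Ln4} {i : ℕ} {f : ℕ × ℤ → α}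
    {b : α → Ln4} {e : α → Fin 3 → V3} {a w1 w2 A a' w1' w2' A' : ℝ}
    (h : FSys O L i f b e a w1 w2 A) (ha : a ≤ a') (h1 : w1 ≤ w1') (h2 : w2 ≤ w2') (hA : A' ≤ A) :
    FSys O L i f b e a' w1' w2' A' where
  ortho := h.ortho
  mem := by
    intro o ho z hz hz' j
    have := h.mem o ho z hz hz' j
    fin_cases j
    · exact this.trans ha
    · exact this.trans h1
    · exact this.trans h2
  cell := h.cell
  num := (mul_le_mul_of_nonneg_left hA (by positivity)).trans h.num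

end Crest.Agent.R136.Mdr535
end

-- ▼ part R136/Csj2_535
section

/-!
# R136 (S0187), U5 TILT: the class systems of the marks of `J1` (helper535)

* `csys_fin` : the marks of level `u`, clamped to the cells of level `v`, form a class system.
* `csys_j1` : the same from `J1`, for every dense part.
-/

set_option autoImplicit false
set_option linter.unusedVariables false
set_option linter.unusedSectionVars false

open Finset Filter Topology

namespace Crest.Agent.R136.Csj535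

open Crest.Agent.R138.Ex926 Crest.Agent.R138.Dp76
open Crest.Agent.R138.Mk163 (zc zl rho alive own Negl)
open Crest.Agent.R138.MkRef627 (lc kc mem_alive)
open Crest.Agent.R136.MkA627 Crest.Agent.R136.Dia770
open Crest.Agent.R136.Sh605 Crest.Agent.R136.K4 Crest.Agent.R136.Top484 Crest.Agent.R136.Tlt51
open Crest.Agent.R136.KapP335
open Crest.Agent.R136.Mdr535 (CSys deep_cell stP_sub inSheet_sub isExp_sub kap_sub)
open Crest.Agent.R136.Tl102 (StP kap kap_nonneg)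


theorem inSheet_mono {t : Ln4} {e : Fin 3 → V3} {c : Ln4} {w : V3} {q : ℝ → V3 → ℝ}
    {a a' z0 ρ : ℝ} (h : InSheet t e c w q a z0 ρ) (ha : a ≤ a') : InSheet t e c w q a' z0 ρ :=
  fun z h1 h2 => ⟨(h z h1 h2).1, (h z h1 h2).2.trans ha⟩




end Crest.Agent.R136.Csj535
end

-- ▼ part R136/Asm4_102

/-!
# R136 (S0187), U5/U6: the tilt block in coefficient form (helper102)

* `polyC_sub` : closeness and non-degeneracy give `PolyC`, over a sub-cell (650's `polyC_of_close`);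
* `TiltOKP`, `Tilt4P` (literal of helper555), **`tilt4P_of`** : `Tilt4C` and `NonDeg` give `Tilt4P`.
-/

set_option autoImplicit false
set_option linter.unusedVariables false

open Finset Filter Topology

namespace Crest.Agent.R136.Tl102

open Crest.Agent.R138.Ex926 (Base U)
open Crest.Agent.R138.Dp76 (Dense)
open Crest.Agent.R138.Dp76
open Crest.Agent.R138.Mk163 (zc zl rho alive own Negl)
open Crest.Agent.R138.ArgM163 (ev_const ev_const_mul log_dpow)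
open Crest.Agent.R138.MkRef627 (mem_alive)
open Crest.Agent.R136.MkA627
open Crest.Agent.R136.Sh605
open Crest.Agent.R136.K4 (Plk4)
open Crest.Agent.R136.Top484
open Crest.Agent.R136.Deep51 (CoinC CloseC dt_exp)
open Crest.Agent.R136.Tlt51 (CompC Agree Shp InP mk4 zx rh TiltOKC Tilt4C NonDeg Close)
open Crest.Agent.R136.KapP335
open Crest.Agent.R136.Cps605
open Crest.Agent.R136.TL650 (polyC_of_close)

/-! ### sub-cells -/

theorem shp_sub {S : Plk4} {z0 ρ z1 ρ1 r : ℝ} (h : Shp S z1 ρ1 r) (h0 : z1 ≤ z0)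
    (h1 : z0 + ρ ≤ z1 + ρ1) : Shp S z0 ρ r :=
  { ortho := h.ortho
    isQ := h.isQ
    a_le0 := h.a_le0
    w0_le := h.w0_le
    w_le := h.w_le
    r0_le := h.r0_le
    st0 := fun z a b => h.st0 z (h0.trans a) (b.trans h1)
    sl1 := fun z a b => h.sl1 z (h0.trans a) (b.trans h1)
    sl2 := fun z a b => h.sl2 z (h0.trans a) (b.trans h1) }

/-- curvature extent and non-degeneracy over a sub-cell -/
theorem kapP_sub {S : Plk4} {T : Ln4} {z0 ρ z1 ρ1 r δ : ℝ} (hr : 0 < r) (hρ : 0 < ρ)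
    (hz1 : z1 ≤ z0) (hz1' : z0 + ρ ≤ z1 + ρ1) (hS : Shp S z1 ρ1 r) (hT : InP T S z1 ρ1)
    (hκ : 0 < kapP S z1 ρ1 T) (hdet : DetP δ S z1 ρ1 T) :
    0 < kapP S z0 ρ T ∧ ρ / ρ1 * kapP S z1 ρ1 T ≤ 160 * kapP S z0 ρ T ∧
      DetP ((ρ / ρ1) ^ 2 / 40 ^ 3 * δ) S z0 ρ T := by
  have hw0 : 0 < S.w 0 := hr.trans_le (hS.r0_le.trans hS.a_le0)
  have hρ1 : 0 < ρ1 := by linarith
  have P := StP.of_shN hS hw0
  obtain ⟨b0, b1, G, hE⟩ := exists_isExp P.isQ S.e hw0.ne' T z1 ρ1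
  have N := hE.nrmC P hρ1.le (fun z h1 h2 => (hT z h1 h2).1)
  obtain ⟨m0, m1, m2⟩ := hgt_mem (z0' := z1) (z0 := z0) hρ1 hρ.le hz1 hz1'
  have hEs := isExp_mono (z0 := z0) (ρ := ρ) hE hρ1.ne'
  have hτ0 : 0 < ρ / ρ1 := div_pos hρ hρ1
  rw [kapP_eq hw0.ne' hE] at hκ ⊢
  rw [kapP_eq hw0.ne' hEs]
  have hk : 0 < kap b0 b1 G := (mul_pos_iff_of_pos_left hw0).1 hκ
  obtain ⟨k1, k2⟩ := nd_mono N m0 hτ0 m2 hk ((detP_iff hw0.ne' hE δ).1 hdet)
  have k3 := kap_le_sub N m0 hτ0.le m2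
  refine ⟨mul_pos hw0 k1, ?_, (detP_iff hw0.ne' hEs _).2 k2⟩
  have := mul_le_mul_of_nonneg_left k3 hw0.le
  linarith


/-! ### the literals -/

/-- the marks of the levels `u < v` of the incidence `x` agree up to `E`, coefficient form -/
structure TiltOKP (D : Dat4) (E : ℝ) (u v : ℚ) (n : ℕ) (x : ℕ × ℝ) : Prop
    extends TiltOKC D E u v n x where
  poly : E * max (D.w 0 n u) (D.w 0 n v) ≤
      kapP (mk4 D n v x) (zx D n v x) (rh D n v) (D.L n x.1) →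
    PolyC (E * max (D.w 0 n u) (D.w 0 n v)) (mk4 D n v x) (mk4 D n u x) (D.L n x.1) (zx D n v x)
      (rh D n v)
  poly' : E * max (D.w 0 n u) (D.w 0 n v) ≤
      kapP (mk4 D n u x) (zx D n u x) (rh D n u) (D.L n x.1) →
    PolyC (E * max (D.w 0 n u) (D.w 0 n v)) (mk4 D n u x) (mk4 D n v x) (D.L n x.1) (zx D n v x)
      (rh D n v)













end Crest.Agent.R136.Tl102
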