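import Crest.Agent.R136.Qg4c_480
import Crest.Agent.R136.Aw1_413
import Crest.Agent.R136.Qg4d_480

-- ▼ part R136/Qg4e_480
section

/-!
# R136: raw twist of windows (helper480), part 5: good sets depending on the blow-up stage

`exists_twS`, `exists_wnd_twS_ex`, `ZWin.exists_wnd_twS` : as in parts 2, 3, with additional good
sets `Gs l n` depending on the stage `l` of the blow-up (full up to every admissible loss); the
classes of the windows are inside `Gs (k' n) n`.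
-/

set_option autoImplicit false
set_option linter.unusedSectionVars false
set_option linter.unusedVariables false

open Filter Topology

namespace Crest.Agent.R136.Qg4480

open Finset Crest.Agent.R138.Ex926 Crest.Agent.R136.Net191 Crest.Agent.R136.Gf356
open Crest.Agent.R136.Qg926

variable {m : ℕ} {ι : ℕ → Type*} [∀ n, DecidableEq (ι n)]

section

variable {B B₁ : Base} {I J G : ∀ n, Finset (ι n)} {co : ∀ n, ι n → ι n → Fin m → ℝ}
  {M : Mons m} {C : ℝ} {X : ℕ → Fin m → ℝ} {w : ℕ → ℝ} {P : Set (Fin m → ℝ)} {T : ℕ → ℝ}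
  {ν : (Fin m → ℝ) → ℝ}

/-- the bad incidences are few -/
theorem ev_badS (hZ : ZWin B B₁ I J co M C X w P T ν) (hG : ∀ n, G n ⊆ J n) {q p : Fin m → ℝ} (hq : q ∈ P) (hp : p ∈ P)
    (hqp : q ≤ p) {η : ℝ} (hη : 0 < η) {σ : ℕ → ℝ}
    (hσ : ∀ᶠ n in (U : Filter ℕ), 0 ≤ σ n ∧ σ n ≤ B₁.d n ^ (-(η / 4))) :
    ∀ᶠ n in (U : Filter ℕ), σ n * ((bad B B₁ I G co M C X w T ν q p η n).card : ℝ) ≤
      ((J n).card : ℝ) := by
  classical
  have hK1 : 1 ≤ cK0 M C := cK0_one (hZ.chart 0).C0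
  have hN : 0 < cN M C (cK0 M C) := cN_pos M (hZ.chart 0).C0 hK1
  set R : ℝ := max ‖q‖ ‖p‖ with hR
  filter_upwards [hZ.sub, hZ.legal R, hZ.prof.root R (η / 2) (by positivity),
    ev_const_le B₁ hN (ε := η / 4) (by positivity), hσ] with n h1 h2 h3 h4 h5
  have hpos : ∀ t : ℝ, 0 < B₁.d n ^ t := fun t => Real.rpow_pos_of_pos (B₁.pos n) t
  have hTn := hZ.T0 n
  have hlq := h2 q hq (le_max_left _ _)
  have hlp := h2 p hp (le_max_right _ _)
  have hσn : σ n ≤ B₁.d n ^ (-(η / 4)) := h5.2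
  have hrich := card_rich (G n) (zlab B I co M C X w n q) (zlab B I co M C X w n p)
    (t := T n * B₁.d n ^ (-ν p + η)) (N := cN M C (cK0 M C)) (mul_pos hTn (hpos _)) (fun i hi => by
      have h6 := hZ.card_zlab_le le_rfl hlq hlq hK1 (h1 (hG n hi))
      simp only [sub_self, sum_const_zero, neg_zero, Real.rpow_zero, mul_one] at h6
      refine le_trans ?_ h6
      refine Nat.cast_le.2 (card_le_card (image_subset_image fun j hj => ?_))
      obtain ⟨j1, j2⟩ := mem_cls.1 hj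
      refine mem_filter.2 ⟨h1 (hG n j1), ?_⟩
      have h7 := hZ.near_of_zlab hlp (h1 (hG n hi)) (h1 (hG n j1)) j2.symm
      intro s
      refine (h7 s).trans (mul_le_mul_of_nonneg_left ?_ (by linarith))
      exact mul_le_mul_of_nonneg_left
        (Real.rpow_le_rpow_of_exponent_ge (B₁.pos n) (B₁.lt n).le (hqp s))
        (Real.rpow_nonneg (B.pos n).le _))
  have h6 := h3 p hp (le_max_right _ _)
  have e1 : B₁.d n ^ (-ν p + η) * B₁.d n ^ (ν p - η / 2) = B₁.d n ^ (η / 2) := by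
    rw [← Real.rpow_add (B₁.pos n)]; congr 1; ring
  have e2 : B₁.d n ^ (-(η / 4)) * (B₁.d n ^ (-(η / 4)) * B₁.d n ^ (η / 2)) = 1 := by
    rw [← Real.rpow_add (B₁.pos n), ← Real.rpow_add (B₁.pos n)]
    have : -(η / 4) + (-(η / 4) + η / 2) = 0 := by ring
    rw [this, Real.rpow_zero]
  have h8 : (((G n).image (zlab B I co M C X w n p)).card : ℝ) ≤
      ((J n).image (zlab B I co M C X w n p)).card :=
    Nat.cast_le.2 (card_le_card (image_subset_image (hG n)))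
  calc σ n * ((bad B B₁ I G co M C X w T ν q p η n).card : ℝ)
      ≤ σ n * ((T n * B₁.d n ^ (-ν p + η)) * (cN M C (cK0 M C) *
          ((G n).image (zlab B I co M C X w n p)).card)) :=
        mul_le_mul_of_nonneg_left hrich h5.1
    _ ≤ σ n * ((T n * B₁.d n ^ (-ν p + η)) * (cN M C (cK0 M C) *
          ((J n).image (zlab B I co M C X w n p)).card)) := by
        refine mul_le_mul_of_nonneg_left ?_ h5.1
        refine mul_le_mul_of_nonneg_left ?_ (mul_pos hTn (hpos _)).le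
        exact mul_le_mul_of_nonneg_left h8 hN.le
    _ = σ n * (cN M C (cK0 M C) * (B₁.d n ^ (-ν p + η) *
          (((J n).image (zlab B I co M C X w n p)).card * T n))) := by ring
    _ ≤ σ n * (cN M C (cK0 M C) * (B₁.d n ^ (-ν p + η) *
          ((J n).card * B₁.d n ^ (ν p - η / 2)))) := by
        refine mul_le_mul_of_nonneg_left ?_ h5.1
        refine mul_le_mul_of_nonneg_left ?_ hN.le
        exact mul_le_mul_of_nonneg_left h6 (hpos _).le
    _ = σ n * (cN M C (cK0 M C) * ((B₁.d n ^ (-ν p + η) * B₁.d n ^ (ν p - η / 2)) *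
          (J n).card)) := by ring
    _ = σ n * (cN M C (cK0 M C) * (B₁.d n ^ (η / 2) * (J n).card)) := by rw [e1]
    _ ≤ B₁.d n ^ (-(η / 4)) * (B₁.d n ^ (-(η / 4)) * (B₁.d n ^ (η / 2) * (J n).card)) := by
        have hc : (0 : ℝ) ≤ (J n).card := Nat.cast_nonneg _
        refine mul_le_mul hσn ?_ (mul_nonneg hN.le (mul_nonneg (hpos _).le hc)) (hpos _).le
        exact mul_le_mul_of_nonneg_right h4 (mul_nonneg (hpos _).le hc)
    _ = B₁.d n ^ (-(η / 4)) * (B₁.d n ^ (-(η / 4)) * B₁.d n ^ (η / 2)) * (J n).card := by ring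
    _ = (J n).card := by rw [e2, one_mul]

open Classical in
/-- the finite facts at the stage `l` -/
def StageS (B B₁ : Base) (I J G : ∀ n, Finset (ι n)) (co : ∀ n, ι n → ι n → Fin m → ℝ)
    (M : Mons m) (C : ℝ) (X : ℕ → Fin m → ℝ) (w : ℕ → ℝ) (P : Set (Fin m → ℝ)) (T : ℕ → ℝ)
    (ν : (Fin m → ℝ) → ℝ) (x : Fin m → ℝ) (h : ℝ) (S : Finset (Fin m)) (top : Fin m → ℝ)
    (Fs : Finset (Finset (Fin m))) (e : ℕ → ℝ) (η : ℝ) (s : ℕ → ℕ → ℝ) (l n : ℕ) : Prop :=
  (∀ K ≤ l, ∀ a ≤ l, 2 * ((1 + h * B₁.L n) * ∏ i ∈ range K, (1 + |s i n|)) ^ a *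
    ((bad B B₁ I G co M C X w T ν x (x + h • cut S top 0) η n).card : ℝ) ≤ ((J n).card : ℝ)) ∧
  (∀ i ∈ I n, (((J n).filter fun j => wbox B B₁ co X n (x + h • top) (cK0 M C) i j).card : ℝ) ≤
    T n * B₁.d n ^ (-(ν (x + h • top) + η))) ∧
  (∀ F ∈ Fs, ∀ j ≤ l, x + h • cut S top (ind F (e j)) ∈ P → ∀ i ∈ I n,
    ((((J n).filter fun j' => wbox B B₁ co X n (x + h • cut S top (ind F (e j))) (cK0 M C)
      i j').image (zlab B I co M C X w n (x + h • top))).card : ℝ) ≤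
      B₁.d n ^ (-(ν (x + h • cut S top (ind F (e j))) - ν (x + h • top) + η))) ∧
  (∀ K ≤ l, ∀ a ≤ l, ((1 + h * B₁.L n) * ∏ i ∈ range K, (1 + |s i n|)) ^ a * cN M C (cK0 M C) ≤
    B₁.d n ^ (-η))

theorem ev_stageS (hZ : ZWin B B₁ I J co M C X w P T ν) (hG : ∀ n, G n ⊆ J n) {x : Fin m → ℝ} {h : ℝ} (hpos : 0 < h)
    (S : Finset (Fin m)) (top : Fin m → ℝ) (Fs : Finset (Finset (Fin m))) {e0 : ℝ}
    (he0 : 0 < e0) (htop : ∀ k, 0 ≤ top k) (heF : ∀ F ∈ Fs, ∀ k ∈ F, e0 ≤ top k)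
    (e : ℕ → ℝ) (he : ∀ j, 0 < e j ∧ e j ≤ e0)
    (hx : x ∈ P) (hx1 : x + h • top ∈ P) (hx0 : x + h • cut S top 0 ∈ P) {η : ℝ} (hη : 0 < η)
    (s : ℕ → ℕ → ℝ) (hs : ∀ i, B₁.Sub (s i)) (l : ℕ) :
    ∀ᶠ n in (U : Filter ℕ), StageS B B₁ I J G co M C X w P T ν x h S top Fs e η s l n := by
  have hK1 : 1 ≤ cK0 M C := cK0_one (hZ.chart 0).C0
  have hN : 0 < cN M C (cK0 M C) := cN_pos M (hZ.chart 0).C0 hK1
  set R : ℝ := ‖x‖ + h * (‖top‖ + e0) with hR
  have hnorm : ∀ r : Fin m → ℝ, (∀ k, |r k| ≤ e0) → ‖x + h • cut S top r‖ ≤ R := by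
    intro r hr
    refine (norm_add_le _ _).trans (add_le_add le_rfl ?_)
    rw [norm_smul, Real.norm_of_nonneg hpos.le]
    exact mul_le_mul_of_nonneg_left (norm_cut_le S top r he0.le hr) hpos.le
  have hnorm1 : ‖x + h • top‖ ≤ R := by
    refine (norm_add_le _ _).trans (add_le_add le_rfl ?_)
    rw [norm_smul, Real.norm_of_nonneg hpos.le]
    exact mul_le_mul_of_nonneg_left (by linarith) hpos.le
  have h1 : ∀ᶠ n in (U : Filter ℕ), ∀ K ∈ range (l + 1), ∀ a ∈ range (l + 1),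
      2 * ((1 + h * B₁.L n) * ∏ i ∈ range K, (1 + |s i n|)) ^ a *
        ((bad B B₁ I G co M C X w T ν x (x + h • cut S top 0) η n).card : ℝ) ≤
        ((J n).card : ℝ) := by
    rw [Filter.eventually_all_finset]
    intro K _
    rw [Filter.eventually_all_finset]
    intro a _
    refine ev_badS hZ hG hx hx0 ?_ hη ?_
    rotate_left
    · filter_upwards [ev_loss B₁ hs hpos K a 2 two_pos (ε := η / 4) (by positivity)] with n hn
      rw [mul_comm _ (2 : ℝ)] at hn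
      refine ⟨mul_nonneg zero_le_two (pow_nonneg (mul_nonneg ?_ ?_) _), hn⟩
      · have := B₁.L_pos n
        positivity
      · linarith [one_le_prod_abs s K n]
    intro k
    simp only [Pi.add_apply, Pi.smul_apply, smul_eq_mul]
    have h2 : 0 ≤ cut S top 0 k := by
      unfold cut
      split_ifs
      · exact le_rfl
      · exact htop k
    have := mul_nonneg hpos.le h2
    linarith
  have h2 : ∀ᶠ n in (U : Filter ℕ), ∀ K ∈ range (l + 1), ∀ a ∈ range (l + 1),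
      ((1 + h * B₁.L n) * ∏ i ∈ range K, (1 + |s i n|)) ^ a * cN M C (cK0 M C) ≤
        B₁.d n ^ (-η) := by
    rw [Filter.eventually_all_finset]
    intro K _
    rw [Filter.eventually_all_finset]
    intro a _
    exact ev_loss B₁ hs hpos K a _ hN hη
  filter_upwards [h1, h2, hZ.near_up hK1 R hη, hZ.near_num hK1 R hη] with n h1 h2 h3 h4
  refine ⟨fun K hK a ha => h1 K (mem_range.2 (by omega)) a (mem_range.2 (by omega)),
    h3 _ hx1 hnorm1, fun F hF j hj hje i hi => ?_,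
    fun K hK a ha => h2 K (mem_range.2 (by omega)) a (mem_range.2 (by omega))⟩
  refine h4 _ hje (hnorm _ fun k => abs_ind_le F (he j).1.le (he j).2 k) _ hx1 hnorm1 ?_ i hi
  exact add_smul_mono hpos.le (cut_ind_le (he j).2 htop (heF F hF))

/-- **from the stages to the raw twist**, finite part -/
theorem near_of_stageS (hZ : ZWin B B₁ I J co M C X w P T ν) (W : Wnd m ι) (hW : W.Ok)
    (hB : W.B = B) (hI : W.I = I) (hJ : W.J = J) (hco : W.co = co) (hM : W.M = M) (hC : W.C = C)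
    {S : Finset (Fin m)} {top : Fin m → ℝ} (hS : W.S = S) (ht : W.top = top)
    {n : ℕ} (g : W.Good n) (hClJ : W.Cl n ⊆ W.J n) {x : Fin m → ℝ} {h : ℝ} (hpos : 0 < h)
    (hX : W.X n = X n + w n • x) (hw : W.w n = w n * h) (hB' : W.B'.d n = B₁.d n ^ h)
    {Fs : Finset (Finset (Fin m))} {e : ℕ → ℝ} {η : ℝ}
    {s : ℕ → ℕ → ℝ} {l : ℕ} (hst : StageS B B₁ I J G co M C X w P T ν x h S top Fs e η s l n)
    (hCl : ∀ i ∈ W.Cl n, i ∈ G n \ bad B B₁ I G co M C X w T ν x (x + h • cut S top 0) η n ∧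
      W.Cl n = cls (G n) (zlab B I co M C X w n x) i)
    {F : Finset (Fin m)} (hF : F ∈ Fs) (hFS : F ⊆ S) {j : ℕ} (hj : j ≤ l)
    (hjP : x + h • cut S top (ind F (e j)) ∈ P)
    (hdrop : 4 * η ≤ ν (x + h • cut S top 0) - ν (x + h • cut S top (ind F (e j))))
    {ε : ℝ} (hkap : ∀ k ∈ F, W.kap k * W.B'.d n ^ ε ≤ W.K0 * W.B'.d n ^ (e j))
    {K a : ℕ} (hK : K ≤ l) (ha : a ≤ l) {i : ι n} (hi : i ∈ W.Cl n) :
    lossP W.B'.L s K n ^ a * (((nearF W F n ε i).image (W.zc n)).card *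
      ((T n * B₁.d n ^ (-(ν (x + h • top) + η))) * ((W.Cl n).image (W.lc n)).card)) ≤
      ((W.Cl n).card : ℝ) := by
  classical
  subst hB hI hJ hco hM hC
  obtain ⟨-, h2, h3, h4⟩ := hst
  have hK1 : 1 ≤ cK0 W.M W.C := cK0_one (hZ.chart 0).C0
  have hN : 0 < cN W.M W.C (cK0 W.M W.C) := cN_pos W.M (hZ.chart 0).C0 hK1
  have hpos1 : ∀ t : ℝ, 0 < B₁.d n ^ t := fun t => Real.rpow_pos_of_pos (B₁.pos n) t
  have hTn := hZ.T0 n
  have hlab : ∀ c, W.lab n c = zlab W.B W.I W.co W.M W.C X w n (x + h • c) := by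
    intro c
    show nlab W.B W.I W.co W.M W.C n (W.X n + W.w n • c) =
      nlab W.B W.I W.co W.M W.C n (X n + w n • (x + h • c))
    rw [hX, hw, zoom_zoom]
  have hbx : ∀ c (K : ℝ) i j, W.bx n c K i j ↔ wbox W.B B₁ W.co X n (x + h • c) K i j := by
    intro c K i j
    rw [← hZ.near_iff]
    unfold Wnd.bx
    rw [← hW.cls.near_iff, hX, hw, zoom_zoom]
  -- the near incidences
  set A := nearF W F n ε i with hA
  have hAsub : ∀ j' ∈ A, j' ∈ W.Cl n ∧ W.lc n j' = W.lc n i ∧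
      ∀ k ∈ F, |W.crd n i j' k| ≤ W.B'.d n ^ ε := fun j' hj' => by
    have := mem_filter.1 hj'
    exact ⟨this.1, this.2.1, this.2.2⟩
  have hbe : ∀ j' ∈ A, wbox W.B B₁ W.co X n (x + h • cut S top (ind F (e j))) (cK0 W.M W.C)
      i j' := by
    intro j' hj'
    obtain ⟨a1, a2, a3⟩ := hAsub j' hj'
    rw [← hbx]
    have a4 := hW.near_lc g hi a1 a2.symm
    intro k
    by_cases hk : k ∈ F
    · have a5 := a3 k hk
      have hkk := hW.kap k
      have hBX : 0 < W.B.d n ^ W.X n k := Real.rpow_pos_of_pos (W.B.pos n) _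
      unfold Wnd.crd at a5
      rw [abs_div, abs_of_pos (mul_pos hkk hBX), div_le_iff₀ (mul_pos hkk hBX)] at a5
      have e1 : cut S top (ind F (e j)) k = e j := by
        rw [cut_of_mem (hFS hk)]; unfold ind; rw [if_pos hk]
      rw [e1]
      refine a5.trans ?_
      calc W.B'.d n ^ ε * (W.kap k * W.B.d n ^ W.X n k)
          = (W.kap k * W.B'.d n ^ ε) * W.B.d n ^ W.X n k := by ring
        _ ≤ (W.K0 * W.B'.d n ^ (e j)) * W.B.d n ^ W.X n k :=
            mul_le_mul_of_nonneg_right (hkap k hk) hBX.le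
        _ = cK0 W.M W.C * (W.B.d n ^ W.X n k * W.B'.d n ^ (e j)) := by
            unfold Wnd.K0; ring
    · have e1 : cut S top (ind F (e j)) k = cut W.S W.top 0 k := by
        rw [hS, ht]
        unfold cut ind
        rw [if_neg hk]
        rfl
      have := a4 k
      rw [← e1] at this
      exact this
  have hAJ : A ⊆ (W.J n).filter fun j' => wbox W.B B₁ W.co X n (x + h • cut S top (ind F (e j)))
      (cK0 W.M W.C) i j' := fun j' hj' =>
    mem_filter.2 ⟨hClJ (hAsub j' hj').1, hbe j' hj'⟩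
  have hAI : A ⊆ W.I n := fun j' hj' => g.clI (hAsub j' hj').1
  have c1 : ((A.image (W.zc n)).card : ℝ) ≤
      cN W.M W.C (cK0 W.M W.C) * (A.image (W.lab n W.top)).card := by
    refine card_image_le_mul A _ _ fun y hy => ?_
    have hOI : cls A (W.lab n W.top) y ⊆ W.I n := (cls_subset _ _ _).trans hAI
    refine hW.card_zc_box g (c := W.top) ?_ hW.K0_one hOI (hAI hy) (fun y' hy' =>
      hW.near_lab g hW.top_leg (hAI hy) (hOI hy') (mem_cls.1 hy').2.symm)
    conv_rhs => rw [← cut_self W.S W.top]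
    exact cut_mono (fun k _ => hW.top_leg.1.nonneg k) (fun _ _ => le_rfl)
  have c2 : ((A.image (W.lab n W.top)).card : ℝ) ≤
      B₁.d n ^ (-(ν (x + h • cut S top (ind F (e j))) - ν (x + h • top) + η)) := by
    refine le_trans ?_ (h3 F hF j hj hjP i (g.clI hi))
    rw [hlab, ht]
    exact_mod_cast card_le_card (image_subset_image hAJ)
  -- the lines
  obtain ⟨hi1, hi2⟩ := hCl i hi
  have c3 : (((W.Cl n).image (W.lc n)).card : ℝ) ≤
      ((cls (G n) (zlab W.B W.I W.co W.M W.C X w n x) i).image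
        (zlab W.B W.I W.co W.M W.C X w n (x + h • cut S top 0))).card := by
    rw [← hi2, ← hlab, ← hS, ← ht]
    exact_mod_cast Wnd.card_enc_image _ _ _
  have c4 := good_big (J := G) (B := W.B) (B₁ := B₁) (I := W.I) (co := W.co) (M := W.M) (C := W.C) (X := X)
    (w := w) (T := T) (ν := ν) hi1
  have c5 := h4 K hK a ha
  have eL : W.B'.L n = h * B₁.L n := by
    have h1 : Real.log (W.B'.d n) = Real.log (B₁.d n ^ h) := by rw [hB']
    rw [Real.log_rpow (B₁.pos n), B₁.log_d, W.B'.log_d] at h1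
    linarith
  have eP : lossP W.B'.L s K n = (1 + h * B₁.L n) * ∏ i ∈ range K, (1 + |s i n|) := by
    unfold lossP; rw [eL]
  rw [eP]
  set Lp : ℝ := ((1 + h * B₁.L n) * ∏ i ∈ range K, (1 + |s i n|)) ^ a with hLp
  set NN : ℝ := cN W.M W.C (cK0 W.M W.C) with hNN
  have hLp0 : 0 ≤ Lp := by
    refine pow_nonneg (mul_nonneg ?_ ?_) _
    · have := B₁.L_pos n
      positivity
    · linarith [one_le_prod_abs s K n]
  set lines : ℝ := (((W.Cl n).image (W.lc n)).card : ℝ) with hlines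
  have hlines0 : 0 ≤ lines := Nat.cast_nonneg _
  set ve := ν (x + h • cut S top (ind F (e j))) with hve
  set v1 := ν (x + h • top) with hv1
  set v0 := ν (x + h • cut S top 0) with hv0
  have d1 : B₁.d n ^ (-η) * (B₁.d n ^ (-(ve - v1 + η)) * B₁.d n ^ (-(v1 + η))) ≤
      B₁.d n ^ (-v0 + η) := by
    rw [← Real.rpow_add (B₁.pos n), ← Real.rpow_add (B₁.pos n)]
    refine Real.rpow_le_rpow_of_exponent_ge (B₁.pos n) (B₁.lt n).le ?_
    linarith
  calc Lp * (((A.image (W.zc n)).card : ℝ) * ((T n * B₁.d n ^ (-(v1 + η))) * lines))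
      ≤ Lp * ((NN * B₁.d n ^ (-(ve - v1 + η))) * ((T n * B₁.d n ^ (-(v1 + η))) * lines)) := by
        refine mul_le_mul_of_nonneg_left ?_ hLp0
        refine mul_le_mul_of_nonneg_right (c1.trans (mul_le_mul_of_nonneg_left c2 hN.le)) ?_
        exact mul_nonneg (mul_pos hTn (hpos1 _)).le hlines0
    _ = (Lp * NN) * ((B₁.d n ^ (-(ve - v1 + η)) * B₁.d n ^ (-(v1 + η))) * (T n * lines)) := by
        ring
    _ ≤ B₁.d n ^ (-η) * ((B₁.d n ^ (-(ve - v1 + η)) * B₁.d n ^ (-(v1 + η))) * (T n * lines)) := by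
        refine mul_le_mul_of_nonneg_right c5 ?_
        exact mul_nonneg (mul_pos (hpos1 _) (hpos1 _)).le (mul_nonneg hTn.le hlines0)
    _ = (B₁.d n ^ (-η) * (B₁.d n ^ (-(ve - v1 + η)) * B₁.d n ^ (-(v1 + η)))) * (T n * lines) := by
        ring
    _ ≤ B₁.d n ^ (-v0 + η) * (T n * lines) :=
        mul_le_mul_of_nonneg_right d1 (mul_nonneg hTn.le hlines0)
    _ = (T n * B₁.d n ^ (-v0 + η)) * lines := by ring
    _ ≤ (T n * B₁.d n ^ (-v0 + η)) *
        ((cls (G n) (zlab W.B W.I W.co W.M W.C X w n x) i).image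
        (zlab W.B W.I W.co W.M W.C X w n (x + h • cut S top 0))).card :=
        mul_le_mul_of_nonneg_left c3 (mul_pos hTn (hpos1 _)).le
    _ ≤ ((cls (G n) (zlab W.B W.I W.co W.M W.C X w n x) i).card : ℝ) := c4
    _ = ((W.Cl n).card : ℝ) := by rw [← hi2]

/-- losses at one stage -/
theorem ev_Gs {B₁ : Base} {J : ∀ n, Finset (ι n)} {G : ∀ n, Finset (ι n)} {h : ℝ} (hpos : 0 < h)
    (s : ℕ → ℕ → ℝ) (hs : ∀ i, B₁.Sub (s i))
    (hG : ∀ c : ℕ → ℝ, B₁.Sub c → ∀ᶠ n in (U : Filter ℕ), c n * ((J n \ G n).card : ℝ) ≤ (J n).card)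
    (l : ℕ) : ∀ᶠ n in (U : Filter ℕ), ∀ K ≤ l, ∀ a ≤ l,
      2 * ((1 + h * B₁.L n) * ∏ i ∈ range K, (1 + |s i n|)) ^ a * ((J n \ G n).card : ℝ) ≤
        (J n).card := by
  have h1 : ∀ᶠ n in (U : Filter ℕ), ∀ K ∈ range (l + 1), ∀ a ∈ range (l + 1),
      2 * ((1 + h * B₁.L n) * ∏ i ∈ range K, (1 + |s i n|)) ^ a * ((J n \ G n).card : ℝ) ≤
        (J n).card := by
    rw [Filter.eventually_all_finset]
    intro K _
    rw [Filter.eventually_all_finset]
    intro a _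
    have hS : B₁.Sub (fun n => 2 * (((1 + h) * (1 + B₁.L n)) *
        ∏ i ∈ range K, (1 + |s i n|)) ^ a) :=
      (Base.Sub.const two_pos).mul
        ((((Base.Sub.const (by positivity)).mul Base.Sub.one_add_L).mul (sub_prod hs K)).pow a)
    filter_upwards [hG _ hS] with n hn
    refine le_trans (mul_le_mul_of_nonneg_right ?_ (Nat.cast_nonneg _)) hn
    have hL := B₁.L_pos n
    have hp := one_le_prod_abs s K n
    refine mul_le_mul_of_nonneg_left (pow_le_pow_left₀ ?_ ?_ a) zero_le_two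
    · exact mul_nonneg (by positivity) (by linarith)
    · refine mul_le_mul_of_nonneg_right ?_ (by linarith)
      nlinarith
  filter_upwards [h1] with n hn K hK a ha
  exact hn K (mem_range.2 (by omega)) a (mem_range.2 (by omega))

/-- **choice of the good incidences** (outer window `ZWin`, moving base points `x l`, scales `h l`):
strict drop of `ν` in the flags `F` (all `F ∈ Fs` at once) at the points
`x l + h l • cut S top (ind F e)`. -/
theorem _root_.Crest.Agent.R136.Qg926.ZWin.exists_twS (hZ : ZWin B B₁ I J co M C X w P T ν)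
    {x : ℕ → Fin m → ℝ} {h : ℕ → ℝ} (hpos : ∀ l, 0 < h l)
    (S : Finset (Fin m)) (top : Fin m → ℝ) (Fs : Finset (Finset (Fin m))) {e0 : ℝ} (he0 : 0 < e0)
    (hFS : ∀ F ∈ Fs, F ⊆ S) (htop : ∀ k, 0 ≤ top k) (heF : ∀ F ∈ Fs, ∀ k ∈ F, e0 ≤ top k)
    (hxP : ∀ᶠ l in (atTop : Filter ℕ), x l ∈ P ∧ x l + h l • top ∈ P ∧ x l + h l • cut S top 0 ∈ P)
    (heP : ∀ F ∈ Fs, ∀ e, 0 < e → e ≤ e0 → ∀ᶠ l in (atTop : Filter ℕ),
      x l + h l • cut S top (ind F e) ∈ P)
    (hdrop : ∀ F ∈ Fs, ∀ e, 0 < e → e ≤ e0 → ∀ᶠ l in (atTop : Filter ℕ),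
      ν (x l + h l • cut S top (ind F e)) < ν (x l + h l • cut S top 0))
    (s : ℕ → ℕ → ℝ) (hs : ∀ i, B₁.Sub (s i)) (Gs : ℕ → ∀ n, Finset (ι n))
    (hGs : ∀ l, ∀ c : ℕ → ℝ, B₁.Sub c → ∀ᶠ n in (U : Filter ℕ),
      c n * ((J n \ Gs l n).card : ℝ) ≤ (J n).card) :
    ∃ k : ℕ → ℕ, Tendsto k U atTop ∧ ∀ k' : ℕ → ℕ, Tendsto k' U atTop →
      (∀ᶠ n in (U : Filter ℕ), k' n ≤ k n) → ∃ (Gd : ∀ n, Finset (ι n)) (Mx : ℕ → ℝ),
        (∀ n, Gd n ⊆ J n) ∧ (∀ n, Gd n ⊆ Gs (k' n) n) ∧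
        (∀ n, ∀ i ∈ Gd n, cls (Gd n) (zlab B I co M C X w n (x (k' n))) i =
          cls (J n ∩ Gs (k' n) n) (zlab B I co M C X w n (x (k' n))) i) ∧
        (∀ B' : Base, (∀ n, B'.d n = B₁.d n ^ h (k' n)) → ∀ c : ℕ → ℝ, IsLoss B' s c →
          ∀ᶠ n in (U : Filter ℕ), c n * ((J n \ Gd n).card : ℝ) ≤ (J n).card) ∧
        ∀ W : Wnd m ι, W.Ok → W.B = B → W.I = I → W.J = J → W.co = co → W.M = M → W.C = C →
          (W.X = fun n => X n + w n • x (k' n)) → (W.w = fun n => w n * h (k' n)) →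
          (∀ n, W.B'.d n = B₁.d n ^ h (k' n)) → W.S = S → W.top = top →
          (∀ᶠ n in (U : Filter ℕ), W.Cl n = cls (Gd n) (W.lab n 0) (W.s₀ n)) →
          ∀ F ∈ Fs, Tw W F s Mx := by
  classical
  set e : ℕ → ℝ := fun j => e0 / ((j : ℝ) + 1) with he
  have he1 : ∀ j, 0 < e j ∧ e j ≤ e0 := fun j => ⟨by positivity, by
    simp only [he]
    rw [div_le_iff₀ (by positivity)]
    nlinarith [(Nat.cast_nonneg j : (0 : ℝ) ≤ j)]⟩
  set f : ℕ → Finset (Fin m) × ℕ → ℝ := fun l q =>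
    ν (x l + h l • cut S top 0) - ν (x l + h l • cut S top (ind q.1 (e q.2))) with hf
  choose η hη0 hη using fun l => exists_eta (Fs ×ˢ range (l + 1)) (f l)
  obtain ⟨k, hk, hk2⟩ := exists_diag (fun l n =>
    (x l ∈ P ∧ x l + h l • top ∈ P ∧ x l + h l • cut S top 0 ∈ P) →
      StageS B B₁ I J (fun n => J n ∩ Gs l n) co M C X w P T ν (x l) (h l) S top Fs e (η l) s l
        n ∧ ∀ K ≤ l, ∀ a ≤ l, 2 * ((1 + h l * B₁.L n) * ∏ i ∈ range K, (1 + |s i n|)) ^ a *
          ((J n \ Gs l n).card : ℝ) ≤ (J n).card) (by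
    intro l
    by_cases hl : x l ∈ P ∧ x l + h l • top ∈ P ∧ x l + h l • cut S top 0 ∈ P
    · filter_upwards [ev_stageS hZ (G := fun n => J n ∩ Gs l n) (fun n => inter_subset_left)
        (hpos l) S top Fs he0 htop heF e he1 hl.1 hl.2.1 hl.2.2 (hη0 l) s hs l,
        ev_Gs (J := J) (G := Gs l) (hpos l) s hs (hGs l) l] with n hn hn' _ using ⟨hn, hn'⟩
    · exact Eventually.of_forall fun n hn => absurd hn hl)
  refine ⟨k, hk, fun k' hk' hle => ?_⟩
  have hst2 : ∀ᶠ n in (U : Filter ℕ), StageS B B₁ I J (fun n' => J n' ∩ Gs (k' n) n') co M C X w P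
      T ν (x (k' n)) (h (k' n)) S top Fs e (η (k' n)) s (k' n) n ∧ ∀ K ≤ k' n, ∀ a ≤ k' n,
        2 * ((1 + h (k' n) * B₁.L n) * ∏ i ∈ range K, (1 + |s i n|)) ^ a *
          ((J n \ Gs (k' n) n).card : ℝ) ≤ (J n).card := by
    filter_upwards [hk2, hle, hk'.eventually hxP] with n h1 h2 h3 using h1 _ h2 h3
  have hst := hst2.mono fun n hn => hn.1
  refine ⟨fun n => (J n ∩ Gs (k' n) n) \ bad B B₁ I (fun n' => J n' ∩ Gs (k' n) n') co M C X w T ν
    (x (k' n)) (x (k' n) + h (k' n) • cut S top 0) (η (k' n)) n,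
    fun n => T n * B₁.d n ^ (-(ν (x (k' n) + h (k' n) • top) + η (k' n))),
    fun n => sdiff_subset.trans inter_subset_left, fun n => sdiff_subset.trans inter_subset_right,
    fun n i hi => cls_good (J := fun n' => J n' ∩ Gs (k' n) n') hi,
    fun B' hB' c hc => ?_, ?_⟩
  · obtain ⟨K, a, hKa⟩ := hc
    filter_upwards [hst2, hKa, hk'.eventually_ge_atTop K, hk'.eventually_ge_atTop a] with
      n h1 h6 h7 h8
    have h3 := h1.1.1 K h7 a h8
    have h3' := h1.2 K h7 a h8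
    have eL : B'.L n = h (k' n) * B₁.L n := by
      have h1 : Real.log (B'.d n) = Real.log (B₁.d n ^ h (k' n)) := by rw [hB' n]
      rw [Real.log_rpow (B₁.pos n), B₁.log_d, B'.log_d] at h1
      linarith
    have eP : lossP B'.L s K n = (1 + h (k' n) * B₁.L n) * ∏ i ∈ range K, (1 + |s i n|) := by
      unfold lossP; rw [eL]
    rw [eP] at h6
    have h4 : J n \ ((J n ∩ Gs (k' n) n) \ bad B B₁ I (fun n' => J n' ∩ Gs (k' n) n') co M C X w T
        ν (x (k' n)) (x (k' n) + h (k' n) • cut S top 0) (η (k' n)) n) ⊆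
        (J n \ Gs (k' n) n) ∪ bad B B₁ I (fun n' => J n' ∩ Gs (k' n) n') co M C X w T
        ν (x (k' n)) (x (k' n) + h (k' n) • cut S top 0) (η (k' n)) n := by
      intro i hi
      obtain ⟨i1, i2⟩ := mem_sdiff.1 hi
      by_cases hg : i ∈ Gs (k' n) n
      · by_cases hb : i ∈ bad B B₁ I (fun n' => J n' ∩ Gs (k' n) n') co M C X w T
            ν (x (k' n)) (x (k' n) + h (k' n) • cut S top 0) (η (k' n)) n
        · exact mem_union_right _ hb
        · exact absurd (mem_sdiff.2 ⟨mem_inter.2 ⟨i1, hg⟩, hb⟩) i2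
      · exact mem_union_left _ (mem_sdiff.2 ⟨i1, hg⟩)
    have h5 := (Nat.cast_le (α := ℝ)).2 ((card_le_card h4).trans (card_union_le _ _))
    push_cast at h5
    set AA : ℝ := ((1 + h (k' n) * B₁.L n) * ∏ i ∈ range K, (1 + |s i n|)) ^ a with hAA
    have hAA0 : 0 ≤ AA := by
      have := B₁.L_pos n
      have := hpos (k' n)
      have := one_le_prod_abs s K n
      refine pow_nonneg (mul_nonneg (by positivity) (by linarith)) _
    refine (mul_le_mul_of_nonneg_right h6 (Nat.cast_nonneg _)).trans ?_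
    have h9 := mul_le_mul_of_nonneg_left h5 hAA0
    linarith
  intro W hW hB hI hJ hco hM hC hX hw hB' hS ht hCl F hF
  have hcl : ∀ᶠ n in (U : Filter ℕ), W.Cl n ⊆ W.J n := hW.cls.csub
  have hlab0 : ∀ n, W.lab n 0 = zlab B I co M C X w n (x (k' n)) := by
    intro n
    show nlab W.B W.I W.co W.M W.C n (W.X n + W.w n • 0) =
      nlab B I co M C n (X n + w n • (x (k' n)))
    rw [hB, hI, hco, hM, hC, hX, smul_zero, add_zero]
  have hCl2 : ∀ᶠ n in (U : Filter ℕ), ∀ i ∈ W.Cl n,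
      i ∈ (J n ∩ Gs (k' n) n) \ bad B B₁ I (fun n' => J n' ∩ Gs (k' n) n') co M C X w T ν
        (x (k' n)) (x (k' n) + h (k' n) • cut S top 0) (η (k' n)) n ∧
      W.Cl n = cls (J n ∩ Gs (k' n) n) (zlab B I co M C X w n (x (k' n))) i := by
    filter_upwards [hCl, hW.ev_good] with n h1 g i hi
    rw [hlab0] at h1
    have h2 : i ∈ cls ((J n ∩ Gs (k' n) n) \ bad B B₁ I (fun n' => J n' ∩ Gs (k' n) n') co M C X w
        T ν (x (k' n)) (x (k' n) + h (k' n) • cut S top 0) (η (k' n)) n)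
        (zlab B I co M C X w n (x (k' n))) (W.s₀ n) := by rw [← h1]; exact hi
    obtain ⟨h3, h4⟩ := mem_cls.1 h2
    refine ⟨h3, ?_⟩
    rw [h1, ← cls_congr h4]
    exact cls_good (J := fun n' => J n' ∩ Gs (k' n) n') h3
  refine ⟨fun n => mul_pos (hZ.T0 n) (Real.rpow_pos_of_pos (B₁.pos n) _), ?_, ?_⟩
  · filter_upwards [hst, hW.ev_good, hcl] with n h1 g h2 i hi
    have h3 := h1.2.1 i (by rw [← hI]; exact g.clI hi)
    refine le_trans (Nat.cast_le.2 (card_le_card fun j hj => ?_)) h3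
    obtain ⟨j1, j2⟩ := mem_cls.1 hj
    refine mem_filter.2 ⟨by rw [← hJ]; exact h2 j1, ?_⟩
    have h4 := hW.near_top g hi j1 (congrArg Prod.fst j2).symm (congrArg Prod.snd j2).symm
    unfold Wnd.bx at h4
    rw [← hW.cls.near_iff, hX, hw] at h4
    rw [← hZ.near_iff, ← zoom_zoom]
    unfold Wnd.K0 at h4
    rw [hB, hco, hM, hC, ht] at h4
    exact h4
  · intro ε hε c hc
    obtain ⟨K, a, hKa⟩ := hc
    obtain ⟨j, hj⟩ := exists_nat_gt (2 * e0 / ε)
    have hje : e j ≤ ε / 2 := by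
      simp only [he]
      rw [div_lt_iff₀ hε] at hj
      rw [div_le_iff₀ (by positivity)]
      nlinarith
    have hkap : ∀ᶠ n in (U : Filter ℕ), ∀ k ∈ F,
        W.kap k * W.B'.d n ^ ε ≤ W.K0 * W.B'.d n ^ (e j) := by
      rw [Filter.eventually_all_finset]
      intro k _
      have hkk := hW.kap k
      filter_upwards [W.B'.ev_rpow_small (η := ε / 2) (c := 1 / W.kap k) (by positivity)
        (by positivity)] with n hn
      have h1 : W.B'.d n ^ ε = W.B'.d n ^ (ε / 2) * W.B'.d n ^ (ε / 2) := by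
        rw [← Real.rpow_add (W.B'.pos n)]; congr 1; ring
      have h2 : W.B'.d n ^ (ε / 2) ≤ W.B'.d n ^ (e j) :=
        Real.rpow_le_rpow_of_exponent_ge (W.B'.pos n) (W.B'.lt n).le hje
      have h3 := Real.rpow_pos_of_pos (W.B'.pos n) (ε / 2)
      have h4 : W.kap k * W.B'.d n ^ (ε / 2) ≤ 1 := by
        rw [le_div_iff₀ hkk] at hn; linarith
      have h5 := hW.K0_one
      calc W.kap k * W.B'.d n ^ ε = (W.kap k * W.B'.d n ^ (ε / 2)) * W.B'.d n ^ (ε / 2) := by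
            rw [h1]; ring
        _ ≤ 1 * W.B'.d n ^ (ε / 2) := mul_le_mul_of_nonneg_right h4 h3.le
        _ ≤ W.K0 * W.B'.d n ^ (e j) := mul_le_mul h5 h2 h3.le (by linarith)
    filter_upwards [hst, hW.ev_good, hcl, hCl2, hkap, hKa, hk'.eventually_ge_atTop j,
      hk'.eventually_ge_atTop K, hk'.eventually_ge_atTop a,
      hk'.eventually (heP F hF (e j) (he1 j).1 (he1 j).2),
      hk'.eventually (hdrop F hF (e j) (he1 j).1 (he1 j).2)] with
      n h1 g h2 h3 h4 h5 h6 h7 h8 h9 h10 i hi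
    have h11 := hη (k' n) (F, j) (mem_product.2 ⟨hF, mem_range.2 (by omega)⟩) (sub_pos.2 h10)
    have h12 := near_of_stageS (G := fun n' => J n' ∩ Gs (k' n) n') hZ W hW hB hI hJ hco hM hC hS ht g h2 (hpos (k' n))
      (by rw [hX]) (by rw [hw]) (hB' n) h1 h3 hF (hFS F hF) h6 h9 h11 h4 h7 h8 hi
    refine le_trans (mul_le_mul_of_nonneg_right h5 ?_) h12
    refine mul_nonneg (Nat.cast_nonneg _) (mul_nonneg ?_ (Nat.cast_nonneg _))
    exact (mul_pos (hZ.T0 n) (Real.rpow_pos_of_pos (B₁.pos n) _)).le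

end

/-- **windows with raw twist from a profile and a tangent**, with a second profile (own profile)
along the same blow-up; base incidence in a dense `E` -/
theorem exists_wnd_twS_ex {B : Base} {I J : ∀ n, Finset (ι n)}
    {co : ∀ n, ι n → ι n → Fin m → ℝ} {M : Mons m} {C R : ℝ} {ν : (Fin m → ℝ) → ℝ}
    (hN : NProf B I J co M C R ν)
    {x : ℕ → Fin m → ℝ} {h : ℕ → ℝ} (hpos : ∀ l, 0 < h l) {D : Set (Fin m → ℝ)}
    (h0 : (0 : Fin m → ℝ) ∈ D) {lam : (Fin m → ℝ) → ℝ} (htan : IsTan (Leg M R) D ν x h lam)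
    {κ : ℕ → Type*} [∀ n, DecidableEq (κ n)] {ol : ∀ n, (Fin m → ℝ) → ι n → κ n}
    {Po Do : Set (Fin m → ℝ)} {own lo : (Fin m → ℝ) → ℝ} (hO : QProf B J ol Po own)
    (h0o : (0 : Fin m → ℝ) ∈ Do) (htano : IsTan Po Do own x h lo)
    {st : WSt m} (hst : st.Ok M D) (s : ℕ → ℕ → ℝ) (hs : ∀ i, B.Sub (s i)) (i₀ : ∀ n, ι n)
    {E : ∀ n, Finset (ι n)} (hE : ∀ᶠ n in (U : Filter ℕ), E n ⊆ J n) (K a : ℕ)
    (hd : ∀ᶠ n in (U : Filter ℕ),
      ((J n).card : ℝ) ≤ (∏ i ∈ range K, (1 + |s i n|)) ^ a * (E n).card)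
    (Fs : Finset (Finset (Fin m))) {e0 : ℝ} (he0 : 0 < e0) (hFS : ∀ F ∈ Fs, F ⊆ st.S)
    (heF : ∀ F ∈ Fs, ∀ k ∈ F, e0 ≤ st.top k)
    (heD : ∀ F ∈ Fs, ∀ e, 0 < e → e ≤ e0 → cut st.S st.top (ind F e) ∈ D)
    (hdrop : ∀ F ∈ Fs, ∀ e, 0 < e → e ≤ e0 → ∀ᶠ l in (atTop : Filter ℕ),
      ν (x l + h l • cut st.S st.top (ind F e)) < ν (x l + h l • cut st.S st.top 0))
    (Gs : ℕ → ∀ n, Finset (ι n))
    (hGs : ∀ l, ∀ c : ℕ → ℝ, B.Sub c → ∀ᶠ n in (U : Filter ℕ),
      c n * ((J n \ Gs l n).card : ℝ) ≤ (J n).card) :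
    ∃ k : ℕ → ℕ, Tendsto k U atTop ∧ ∀ k' : ℕ → ℕ, Tendsto k' U atTop →
      (∀ᶠ n in (U : Filter ℕ), k' n ≤ k n) → ∃ (B' : Base) (Gd : ∀ n, Finset (ι n))
        (s₀ : ∀ n, ι n) (Mx : ℕ → ℝ),
        (∀ n, B'.d n = B.d n ^ h (k' n)) ∧ (∀ n, B'.L n = h (k' n) * B.L n) ∧
        (∀ i, B'.Sub (s i)) ∧ (∀ n, Gd n ⊆ J n) ∧ (∀ n, Gd n ⊆ Gs (k' n) n) ∧
        (∀ n, ∀ i ∈ Gd n,
          cls (Gd n) (zlab B I co M C (fun n => x (k' n)) (fun n => h (k' n)) n 0) i =
          cls (J n ∩ Gs (k' n) n)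
            (zlab B I co M C (fun n => x (k' n)) (fun n => h (k' n)) n 0) i) ∧
        (∀ c : ℕ → ℝ, IsLoss B' s c → ∀ᶠ n in (U : Filter ℕ),
          c n * ((J n \ Gd n).card : ℝ) ≤ (J n).card) ∧
        (∀ᶠ n in (U : Filter ℕ), s₀ n ∈ E n ∧ s₀ n ∈ Gd n) ∧
        ZProf B' J (fun n c => ol n (x (k' n) + h (k' n) • c)) Do
          (fun n => B.d n ^ (-(own (x (k' n))))) lo ∧
        (st.wnd B B' I J co M C (fun n => x (k' n)) (fun n => h (k' n)) D
          (fun n => B.d n ^ (-(ν (x (k' n))))) lam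
          (fun n => cls (Gd n) (zlab B I co M C (fun n => x (k' n)) (fun n => h (k' n)) n 0)
            (s₀ n)) s₀).Ok ∧
        ∀ F ∈ Fs, Tw (st.wnd B B' I J co M C (fun n => x (k' n)) (fun n => h (k' n)) D
          (fun n => B.d n ^ (-(ν (x (k' n))))) lam
          (fun n => cls (Gd n) (zlab B I co M C (fun n => x (k' n)) (fun n => h (k' n)) n 0)
            (s₀ n)) s₀) F s Mx := by
  classical
  have hz0 := hN.zwin
  obtain ⟨k1, hk1, hk1'⟩ := exists_zwin_ex hN hpos h0 htan hO h0o htano s hs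
  have htop : ∀ k, 0 ≤ st.top k := fun k => hst.top_leg.1.nonneg k
  obtain ⟨k2, hk2, hk2'⟩ := hz0.exists_twS hpos st.S st.top Fs he0 hFS htop heF
    (by
      filter_upwards [htan.ev h0 one_pos, htan.ev (hst.leg hst.top_leg) one_pos,
        htan.ev (hst.leg hst.lin_leg) one_pos] with l a1 a2 a3
      refine ⟨?_, a2.1, a3.1⟩
      have := a1.1
      rwa [smul_zero, add_zero] at this)
    (fun F hF e he he' => (htan.ev (heD F hF e he he') one_pos).mono fun l hl => hl.1)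
    (fun F hF e he he' => (hdrop F hF e he he').mono fun l hl => sub_lt_sub_right hl _) s hs Gs hGs
  refine ⟨fun n => min (k1 n) (k2 n), tendsto_min_top hk1 hk2, fun k' hk' hle => ?_⟩
  obtain ⟨B', b1, b2, b3, b4, b5⟩ := hk1' k' hk' (hle.mono fun n hn => hn.trans (min_le_left _ _))
  obtain ⟨Gd, Mx, g1, g1s, g1c, g2, g3⟩ := hk2' k' hk' (hle.mono fun n hn => hn.trans (min_le_right _ _))
  obtain ⟨s₀, c1, c2, c3⟩ := wnd_tw_core b4 hst i₀ (Mx := Mx) (Fs := Fs) g1 hE b3 K a hd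
    (g2 B' b1) (fun W hW hB hI hJ hco hM hC hX hw hB' hS ht hCl F hF =>
      g3 W hW hB hI hJ hco hM hC
        (by rw [hX]; funext n; show x (k' n) = (0 : Fin m → ℝ) + (1 : ℝ) • x (k' n)
            rw [zero_add, one_smul])
        (by rw [hw]; funext n; show h (k' n) = 1 * h (k' n); rw [one_mul])
        (fun n => by rw [hB']; exact b1 n) hS ht hCl F hF)
  refine ⟨B', Gd, s₀, Mx, b1, b2, b3, g1, g1s, fun n i hi => ?_, g2 B' b1, c1, b5, c2, c3⟩
  have e1 : zlab B I co M C (fun n => x (k' n)) (fun n => h (k' n)) n 0 =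
      zlab B I co M C (fun _ => 0) (fun _ => 1) n (x (k' n)) := by
    show nlab B I co M C n (x (k' n) + h (k' n) • (0 : Fin m → ℝ)) =
      nlab B I co M C n ((0 : Fin m → ℝ) + (1 : ℝ) • x (k' n))
    rw [smul_zero, add_zero, zero_add, one_smul]
  rw [e1]
  exact g1c n i hi


end Crest.Agent.R136.Qg4480
end

-- ▼ part R136/AwT_146
section

/-!
# R136 (helper146): raw twist of the pruned sections

* `tw_rawL` : 480's `Tw` for one flag slot gives 413's `RawL` for every pruned section with slow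
  loss `g ≤ sqrt (1 + L)`; `tw_rawL'` : for every pruned half-dense section, `g ≤ 1 + L`.
* `TwInZ`, `twInZ` : windows with raw twist inside an outer window `ZWin`.
* `twIn'` : the same for a profile `NProf` (outer window `X = 0`, `w = 1`).
-/

set_option autoImplicit false
set_option linter.unusedSectionVars false
set_option linter.unusedVariables false

open Filter Topology

namespace Crest.Agent.R136.AwT146

open Finset Crest.Agent.R138.Ex926 Crest.Agent.R136.Net191 Crest.Agent.R136.Gf356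
open Crest.Agent.R136.Qg926 Crest.Agent.R136.Dg219 Crest.Agent.R136.Aw413
open Crest.Agent.R136.Qg4480 (Tw ind nearF IsLoss DenC TwM)

section

variable {m : ℕ} {ι : ℕ → Type*} [∀ n, DecidableEq (ι n)]

theorem ind_single (j : Fin m) (e : ℝ) : ind {j} e = Pi.single j e := by
  funext s
  unfold ind
  by_cases h : s = j
  · subst h; simp
  · rw [if_neg (by simpa using h), Pi.single_eq_of_ne h]


/-- half-dense sections are dense for 480's multiplicity scale -/
theorem denC_HD {W : Wnd m ι} {s : ℕ → ℕ → ℝ} {Mx : ℕ → ℝ} (hM0 : ∀ n, 0 < Mx n)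
    (hM : ∀ᶠ n in (U : Filter ℕ), ∀ i ∈ W.Cl n, ((cls (W.Cl n) (W.pc n) i).card : ℝ) ≤ Mx n)
    {E : ∀ n, Finset (ι n)} (hE : HD W E) : DenC W s Mx E := by
  classical
  refine ⟨fun _ => 1, fun _ => 2, IsLoss.const 2, ?_⟩
  filter_upwards [hM, hE] with n h1 h2
  refine ⟨zero_le_two, one_pos, h2.1.trans (filter_subset _ _), fun i hi => ?_, ?_⟩
  · have h3 : (cls (E n) (W.pc n) i).card ≤ 1 := by
      rw [card_le_one]
      intro a ha b hb
      obtain ⟨a1, a2⟩ := mem_cls.1 ha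
      obtain ⟨b1, b2⟩ := mem_cls.1 hb
      exact Wnd.sec_inj (h2.1 a1) (h2.1 b1) (a2.trans b2.symm)
    exact_mod_cast h3
  · rw [mul_one]
    exact h2.2 _ (hM0 n).le h1

/-- **raw twist of the pruned half-dense sections** -/
theorem tw_rawL' {W : Wnd m ι} (hW : W.Ok) {j : Fin m} {s : ℕ → ℕ → ℝ} {Mx : ℕ → ℝ}
    (h : Tw W {j} s Mx) {E E' : ∀ n, Finset (ι n)} (hE : HD W E) {g : ℕ → ℝ}
    {ex : ℕ → ∀ n, ι n → ℕ} (hP : Wnd.Pruned W E E' g ex)
    (hg : ∀ᶠ n in (U : Filter ℕ), g n ≤ 1 + W.B'.L n) : RawL W E' j := by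
  classical
  intro ε hε θ hθ
  have h1 := h.twM hW (denC_HD h.pos h.mult hE) hP (IsLoss.one_add_L.mono hg) ε hε
    (fun _ => 1 / θ) (IsLoss.const _)
  filter_upwards [h1] with n hn l hl k hk
  have h2 := hn l hl k hk
  have e : ((W.cfg E' n).hts l).filter (fun k' =>
      |W.crd n (W.rep n l k) (W.rep n l k') j| ≤ W.B'.d n ^ ε) =
      ((W.cfg E' n).hts l).filter (fun k' => ∀ f ∈ ({j} : Finset (Fin m)),
        |W.crd n (W.rep n l k) (W.rep n l k') f| ≤ W.B'.d n ^ ε) :=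
    filter_congr fun k' _ => by simp
  rw [e]
  have h3 := mul_le_mul_of_nonneg_left h2 hθ.le
  rwa [← mul_assoc, mul_one_div_cancel hθ.ne', one_mul] at h3

end

/-! ### windows with raw twist -/

/-- **raw twist theorem inside an outer window** -/
def TwInZ (m : ℕ) (ι : ℕ → Type) [∀ n, DecidableEq (ι n)] : Prop :=
  ∀ (B B₁ : Base) (I J : ∀ n, Finset (ι n)) (co : ∀ n, ι n → ι n → Fin m → ℝ) (M : Mons m)
    (C : ℝ) (X : ℕ → Fin m → ℝ) (wx : ℕ → ℝ) (P : Set (Fin m → ℝ)) (T : ℕ → ℝ)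
    (ν : (Fin m → ℝ) → ℝ), ZWin B B₁ I J co M C X wx P T ν →
    ∀ (x : ℕ → Fin m → ℝ) (b : ℝ), (∀ l, ‖x l‖ ≤ b) → ∀ h : ℕ → ℝ, (∀ l, 0 < h l) →
    Tendsto h atTop (𝓝 0) → ∀ D : Set (Fin m → ℝ),
    (0 : Fin m → ℝ) ∈ D → ∀ lam : (Fin m → ℝ) → ℝ, IsTan P D ν x h lam →
    ∀ st : WSt m, st.Ok M D → ∀ s : ℕ → ℕ → ℝ, (∀ i, B₁.Sub (s i)) → ∀ F : Finset (Fin m),
    F ⊆ st.S →
    (∀ j ∈ F, 0 < st.top j ∧ ∃ e0 : ℝ, 0 < e0 ∧ ∀ e, 0 < e → e ≤ e0 →
      cut st.S st.top (Pi.single j e) ∈ D ∧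
      ∀ᶠ l in atTop, ν (x l + h l • cut st.S st.top (Pi.single j e)) <
        ν (x l + h l • cut st.S st.top 0)) →
    ∃ (k : ℕ → ℕ) (B' : Base) (T' : ℕ → ℝ) (Cl : ∀ n, Finset (ι n)) (s₀ : ∀ n, ι n),
      Tendsto k U atTop ∧ (∀ n, B'.d n = B₁.d n ^ h (k n)) ∧ (∀ i, B'.Sub (s i)) ∧
      (∀ᶠ n in (U : Filter ℕ), Cl n ⊆ J n) ∧
      (st.wnd B B' I J co M C (fun n => X n + wx n • x (k n)) (fun n => wx n * h (k n)) D T' lam
        Cl s₀).Ok ∧
      ∃ Xg : ℕ → ℝ, Tendsto Xg U atTop ∧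
        ∀ E : ∀ n, Finset (ι n), HD (st.wnd B B' I J co M C (fun n => X n + wx n • x (k n))
            (fun n => wx n * h (k n)) D T' lam Cl s₀) E →
        ∀ (E' : ∀ n, Finset (ι n)) (g : ℕ → ℝ) (ex : ℕ → ∀ n, ι n → ℕ),
          Wnd.Pruned (st.wnd B B' I J co M C (fun n => X n + wx n • x (k n))
            (fun n => wx n * h (k n)) D T' lam Cl s₀) E E' g ex →
          (∀ᶠ n in (U : Filter ℕ), g n ≤ Xg n) →
          ∀ j ∈ F, RawL
            (st.wnd B B' I J co M C (fun n => X n + wx n • x (k n)) (fun n => wx n * h (k n)) D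
              T' lam Cl s₀) E' j

variable {m : ℕ} {ι : ℕ → Type} [∀ n, DecidableEq (ι n)] [∀ n, Nonempty (ι n)]

/-- a common small number -/
theorem exists_common {α : Type*} [DecidableEq α] (F : Finset α) (P : α → ℝ → Prop)
    (h : ∀ j ∈ F, ∃ e0 : ℝ, 0 < e0 ∧ ∀ e, 0 < e → e ≤ e0 → P j e) :
    ∃ e0 : ℝ, 0 < e0 ∧ ∀ j ∈ F, ∀ e, 0 < e → e ≤ e0 → P j e := by
  induction F using Finset.induction_on with
  | empty => exact ⟨1, one_pos, fun j hj => absurd hj (notMem_empty _)⟩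
  | insert a s has ih =>
    obtain ⟨e1, h1, h2⟩ := ih fun j hj => h j (mem_insert_of_mem hj)
    obtain ⟨e2, h3, h4⟩ := h a (mem_insert_self _ _)
    refine ⟨min e1 e2, lt_min h1 h3, fun j hj e he hee => ?_⟩
    rcases mem_insert.1 hj with rfl | hj
    · exact h4 e he (hee.trans (min_le_right _ _))
    · exact h2 j hj e he (hee.trans (min_le_left _ _))

theorem twInZ : TwInZ m ι := by
  classical
  intro B B₁ I J co M C X wx P T ν hZ x b hx h hpos hh D h0 lam htan st hst s hs F hFS hF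
  obtain ⟨e1, he1, hF1⟩ := exists_common F (fun j e => e ≤ st.top j ∧
      cut st.S st.top (Pi.single j e) ∈ D ∧
      ∀ᶠ l in atTop, ν (x l + h l • cut st.S st.top (Pi.single j e)) <
        ν (x l + h l • cut st.S st.top 0)) (fun j hj => by
    obtain ⟨t, e0, he0, hd⟩ := hF j hj
    exact ⟨min (st.top j) e0, lt_min t he0, fun e he hee =>
      ⟨hee.trans (min_le_left _ _), (hd e he (hee.trans (min_le_right _ _))).1,
        (hd e he (hee.trans (min_le_right _ _))).2⟩⟩)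
  set Fs : Finset (Finset (Fin m)) := F.image fun j => {j} with hFs
  have hmem : ∀ F' ∈ Fs, ∃ j ∈ F, F' = {j} := by
    intro F' hF'
    obtain ⟨j, hj, rfl⟩ := mem_image.1 hF'
    exact ⟨j, hj, rfl⟩
  obtain ⟨k, hk, hk2⟩ := hZ.exists_wnd_tw hx hpos hh h0 htan hZ.T0 hZ.prof h0 htan hst s hs
    (fun n => Classical.arbitrary (ι n)) (E := J) (Eventually.of_forall fun n => Subset.refl _) 0 0
    (Eventually.of_forall fun n => by simp) Fs he1
    (fun F' hF' => by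
      obtain ⟨j, hj, rfl⟩ := hmem F' hF'
      exact singleton_subset_iff.2 (hFS hj))
    (fun F' hF' i hi => by
      obtain ⟨j, hj, rfl⟩ := hmem F' hF'
      rw [mem_singleton] at hi
      subst hi
      exact (hF1 i hj e1 he1 le_rfl).1)
    (fun F' hF' e he hee => by
      obtain ⟨j, hj, rfl⟩ := hmem F' hF'
      rw [ind_single]
      exact (hF1 j hj e he hee).2.1)
    (fun F' hF' e he hee => by
      obtain ⟨j, hj, rfl⟩ := hmem F' hF'
      rw [ind_single]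
      exact (hF1 j hj e he hee).2.2)
  obtain ⟨B', Gd, s₀, Mx, b1, b2, b3, b4, b5, b6, -, b8, b9⟩ := hk2 k hk
    (Eventually.of_forall fun n => le_rfl)
  refine ⟨k, B', _, _, s₀, hk, b1, b3, ?_, b8, fun n => 1 + B'.L n, ?_, ?_⟩
  · exact Eventually.of_forall fun n => (filter_subset _ _).trans (b4 n)
  · exact tendsto_atTop_add_const_left _ _ B'.L_tendsto
  · intro E hE E' g ex hP hg j hj
    exact tw_rawL' b8 (b9 {j} (mem_image_of_mem _ hj)) hE hP hg



end Crest.Agent.R136.AwT146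
end

-- ▼ part R136/Aw2_413

/-!
# R136: the window wrapper of the a.e. lines (helper413), part 2: the core

* `tan_shift` : moved base points.
* `wndL_core` : profile + tangent + strict drop ⊢ `WndL` (raw twist: 480's Qg4e, 146's `tw_rawL`).
* `aew_core` : profile + tangent + splitting + own loss + strict drop ⊢ `AeW`.
-/

set_option autoImplicit false
set_option linter.unusedSectionVars false
set_option linter.unusedVariables false

open Filter Topology

namespace Crest.Agent.R136.Aw413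

open Finset Crest.Agent.R138.Ex926 Crest.Agent.R136.Net191 Crest.Agent.R136.Gf356
open Crest.Agent.R136.Qg926 Crest.Agent.R136.Dg219

variable {m : ℕ} {ι : ℕ → Type} [∀ n, DecidableEq (ι n)] [∀ n, Nonempty (ι n)]

/-- moved base points -/
theorem tan_shift {P L : Set (Fin m → ℝ)} {ν lam : (Fin m → ℝ) → ℝ} {y : ℕ → Fin m → ℝ}
    {w : ℕ → ℝ} (ht : IsTan P L ν y w lam) (hpos : ∀ l, 0 < w l) {c0 : Fin m → ℝ} (h0 : c0 ∈ L) :
    IsTan P {p | c0 + p ∈ L} ν (fun l => y l + w l • c0) w (fun p => lam (c0 + p) - lam c0) := by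
  intro K ε hε
  filter_upwards [ht (‖c0‖ + K) (ε / 2) (by positivity), ht.ev h0 (ε := ε / 2) (by positivity)]
    with l h1 h2 c hc hcK
  have h3 := h1 (c0 + c) hc ((norm_add_le _ _).trans (by linarith))
  have e : y l + w l • c0 + w l • c = y l + w l • (c0 + c) := by rw [smul_add, add_assoc]
  rw [e]
  refine ⟨h3.1, ?_⟩
  have h4 := h3.2
  have h5 := h2.2
  have hw := hpos l
  rw [abs_le] at h4 h5 ⊢
  constructor <;> nlinarith [h4.1, h4.2, h5.1, h5.2]

theorem sum_shift (e : Fin m → ℕ) (y c0 : Fin m → ℝ) (w : ℝ) :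
    ∑ s, (e s : ℝ) * (y + w • c0) s = ∑ s, (e s : ℝ) * y s + w * ∑ s, (e s : ℝ) * c0 s := by
  rw [mul_sum, ← sum_add_distrib]
  refine sum_congr rfl fun s _ => ?_
  simp only [Pi.add_apply, Pi.smul_apply, smul_eq_mul]; ring

section core

variable {B : Base} {I J : ∀ n, Finset (ι n)} {co : ∀ n, ι n → ι n → Fin m → ℝ} {M Ma : Mons m}
  {C R : ℝ} {ν lam : (Fin m → ℝ) → ℝ} {y : ℕ → Fin m → ℝ} {w : ℕ → ℝ} {a b : Fin m → ℝ}
  {A : ℝ × ℝ} {φ : ℕ → (Fin m → ℝ) → ℝ} {r : ℕ → ℝ} {kz : Fin m} {σ : ℝ} {κ : Fin m → ℝ}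
  {V Tw : Fin m → Prop}

theorem tan_mono_add (hpos : ∀ l, 0 < w l) (l : ℕ) (c c' : Fin m → ℝ) (h : c ≤ c') :
    y l + w l • c ≤ y l + w l • c' := fun k => by
  simp only [Pi.add_apply, Pi.smul_apply, smul_eq_mul]
  have := mul_le_mul_of_nonneg_left (h k) (hpos l).le
  linarith

/-- one-sided Lipschitz bound of the tangent -/
theorem tan_sharp' {P L : Set (Fin m → ℝ)} (ht : IsTan P L ν y w lam) (hpos : ∀ l, 0 < w l)
    (hν : ∀ p ∈ P, ∀ q ∈ P, p ≤ q → ν p - ν q ≤ ∑ s, (q s - p s)) :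
    ∀ c ∈ L, ∀ c' ∈ L, c ≤ c' → lam c - lam c' ≤ ∑ s, (c' s - c s) := by
  intro c hc c' hc' hcc
  refine le_of_forall_pos_le_add fun ε hε => ?_
  obtain ⟨l, h1, h2⟩ := ((ht.ev hc (ε := ε / 2) (by positivity)).and
    (ht.ev hc' (ε := ε / 2) (by positivity))).exists
  have h3 := hν _ h1.1 _ h2.1 (tan_mono_add hpos l c c' hcc)
  have h4 : ∑ s, ((y l + w l • c') s - (y l + w l • c) s) = w l * ∑ s, (c' s - c s) := by
    rw [mul_sum]
    exact sum_congr rfl fun s _ => by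
      simp only [Pi.add_apply, Pi.smul_apply, smul_eq_mul]; ring
  rw [h4] at h3
  have h5 := h1.2
  have h6 := h2.2
  have hw := hpos l
  rw [abs_le] at h5 h6
  have key : w l * (lam c - lam c') ≤ w l * (∑ s, (c' s - c s) + ε) := by nlinarith
  exact le_of_mul_le_mul_left key hw

/-- a smaller flag loss is legal too -/
theorem cut_conv {c0 : Fin m → ℝ} {S : Finset (Fin m)} {top : Fin m → ℝ} {j : Fin m}
    (h0 : c0 + cut S top 0 ∈ coneM Ma) {e e0 : ℝ} (he : 0 < e) (hee : e ≤ e0)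
    (h1 : c0 + cut S top (Pi.single j e0) ∈ coneM Ma) :
    c0 + cut S top (Pi.single j e) ∈ coneM Ma := by
  have he0 : 0 < e0 := he.trans_le hee
  intro k q hq
  have g1 := h0 k q hq
  have g2 := h1 k q hq
  have hc : ∀ i, (c0 + cut S top (Pi.single j e)) i =
      (1 - e / e0) * (c0 + cut S top 0) i + e / e0 * (c0 + cut S top (Pi.single j e0)) i := by
    intro i
    simp only [Pi.add_apply, cut]
    by_cases hiS : i ∈ S
    · rw [if_pos hiS, if_pos hiS, if_pos hiS]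
      by_cases hij : i = j
      · subst hij
        rw [Pi.single_eq_same, Pi.single_eq_same, Pi.zero_apply]
        field_simp
        ring
      · rw [Pi.single_eq_of_ne hij, Pi.single_eq_of_ne hij, Pi.zero_apply]; ring
    · rw [if_neg hiS, if_neg hiS, if_neg hiS]; ring
  have hs : ∑ i, (q i : ℝ) * (c0 + cut S top (Pi.single j e)) i =
      (1 - e / e0) * ∑ i, (q i : ℝ) * (c0 + cut S top 0) i +
        e / e0 * ∑ i, (q i : ℝ) * (c0 + cut S top (Pi.single j e0)) i := by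
    rw [mul_sum, mul_sum, ← sum_add_distrib]
    exact sum_congr rfl fun i _ => by rw [hc i]; ring
  rw [hs, hc k]
  have t1 : 0 ≤ e / e0 := by positivity
  have t2 : 0 ≤ 1 - e / e0 := by
    rw [sub_nonneg, div_le_one he0]; exact hee
  exact add_le_add (mul_le_mul_of_nonneg_left g1 t2) (mul_le_mul_of_nonneg_left g2 t1)

/-- strict drop in a tied slot -/
theorem cut_drop {c0 : Fin m → ℝ} {st : WSt m} (hkz : st.kz = kz) (hkzS : st.kz ∈ st.S)
    (hTkz : ¬ Tw kz)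
    (hdrop : ∀ c ∈ coneM Ma, ∀ c' ∈ coneM Ma, c ≤ c' → (∀ k, V k → c k ≤ κ k * c kz) →
      c' kz = c kz → (∃ k, Tw k ∧ κ k * c kz < c' k) →
      ∀ᶠ l in atTop, ν (y l + w l • c') < ν (y l + w l • c))
    (h1 : ∀ k, V k → c0 k ≤ κ k * c0 kz) (h2 : ∀ k, V k → k ∈ st.S ∨ st.top k = 0) {j : Fin m}
    (hjS : j ∈ st.S) (hjT : Tw j) (hj0 : c0 j = κ j * c0 kz)
    (hlin : c0 + cut st.S st.top 0 ∈ coneM Ma) {e : ℝ} (he : 0 < e)
    (hle : c0 + cut st.S st.top (Pi.single j e) ∈ coneM Ma) :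
    ∀ᶠ l in atTop, ν (y l + w l • c0 + w l • cut st.S st.top (Pi.single j e)) <
      ν (y l + w l • c0 + w l • cut st.S st.top 0) := by
  have hjk : j ≠ kz := fun h => hTkz (h ▸ hjT)
  have hkzS : kz ∈ st.S := hkz ▸ hkzS
  have e1 : (c0 + cut st.S st.top 0) kz = c0 kz := by
    rw [Pi.add_apply, cut_of_mem hkzS]; simp
  have e2 : (c0 + cut st.S st.top (Pi.single j e)) kz = c0 kz := by
    rw [Pi.add_apply, cut_of_mem hkzS, Pi.single_eq_of_ne hjk.symm, add_zero]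
  have e3 : (c0 + cut st.S st.top (Pi.single j e)) j = c0 j + e := by
    rw [Pi.add_apply, cut_of_mem hjS, Pi.single_eq_same]
  have hd := hdrop _ hlin _ hle (by
      intro i
      simp only [Pi.add_apply, cut]
      by_cases hiS : i ∈ st.S
      · rw [if_pos hiS, if_pos hiS]
        by_cases hij : i = j
        · subst hij; rw [Pi.single_eq_same, Pi.zero_apply]; linarith
        · rw [Pi.single_eq_of_ne hij, Pi.zero_apply]
      · rw [if_neg hiS, if_neg hiS])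
    (by
      intro k hk
      rw [e1]
      have h1 := h1 k hk
      rcases h2 k hk with h2 | h2
      · rw [Pi.add_apply, cut_of_mem h2]; simpa using h1
      · by_cases hkS : k ∈ st.S
        · rw [Pi.add_apply, cut_of_mem hkS]; simpa using h1
        · rw [Pi.add_apply, cut_of_notMem hkS, h2, add_zero]; exact h1)
    (by rw [e1, e2]) ⟨j, hjT, by rw [e1, e3, ← hj0]; linarith⟩
  filter_upwards [hd] with l hl
  rw [add_assoc, ← smul_add, add_assoc, ← smul_add]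
  exact hl

theorem finset_min {α : Type*} (F : Finset α) (P : α → ℝ → Prop)
    (hP : ∀ j ∈ F, ∃ e : ℝ, 0 < e ∧ P j e) (hm : ∀ j ∈ F, ∀ e e', 0 < e → e ≤ e' → P j e' → P j e) :
    ∃ e0 : ℝ, 0 < e0 ∧ ∀ j ∈ F, P j e0 := by
  classical
  induction F using Finset.induction_on with
  | empty => exact ⟨1, one_pos, fun j hj => absurd hj (notMem_empty _)⟩
  | insert a s has ih =>
    obtain ⟨e1, h1, h2⟩ := ih (fun j hj => hP j (mem_insert_of_mem hj))
      fun j hj => hm j (mem_insert_of_mem hj)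
    obtain ⟨e2, h3, h4⟩ := hP a (mem_insert_self _ _)
    refine ⟨min e1 e2, lt_min h1 h3, fun j hj => ?_⟩
    rcases mem_insert.1 hj with rfl | hj'
    · exact hm _ (mem_insert_self _ _) _ _ (lt_min h1 h3) (min_le_right _ _) h4
    · exact hm _ (mem_insert_of_mem hj') _ _ (lt_min h1 h3) (min_le_left _ _) (h2 _ hj')

/-- **windows with known base points** from a profile, a tangent and the strict drop -/
theorem wndL_core (hN : NProf B I J co M C R ν) (hB : Bas M Ma y w)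
    (ht : IsTan (Leg M R) (coneM Ma) ν y w lam) (hTkz : ¬ Tw kz)
    (hdrop : ∀ c ∈ coneM Ma, ∀ c' ∈ coneM Ma, c ≤ c' → (∀ k, V k → c k ≤ κ k * c kz) →
      c' kz = c kz → (∃ k, Tw k ∧ κ k * c kz < c' k) →
      ∀ᶠ l in atTop, ν (y l + w l • c') < ν (y l + w l • c)) :
    WndL B B I J co M Ma C lam kz κ V Tw y w := by
  classical
  intro c0 hc0 st hkz hst s hs E Sd hE hSd hd Gs hGs
  have ht' := tan_shift ht hB.pos hc0
  have h0D : (0 : Fin m → ℝ) ∈ {p | c0 + p ∈ coneM Ma} := by simpa using hc0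
  have hlin : c0 + cut st.S st.top 0 ∈ coneM Ma := hst.leg hst.lin_leg
  set F : Finset (Fin m) := if ((∀ k, V k → c0 k ≤ κ k * c0 kz) ∧
      (∀ k, V k → k ∈ st.S ∨ st.top k = 0)) then
      st.S.filter fun j => Tw j ∧ 0 < st.top j ∧ c0 j = κ j * c0 kz ∧
        ∃ e : ℝ, 0 < e ∧ c0 + cut st.S st.top (Pi.single j e) ∈ coneM Ma
    else ∅ with hF
  have hFS : F ⊆ st.S := by
    rw [hF]; split_ifs
    · exact filter_subset _ _
    · exact empty_subset _
  have hFm : ∀ j ∈ F, ((∀ k, V k → c0 k ≤ κ k * c0 kz) ∧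
      (∀ k, V k → k ∈ st.S ∨ st.top k = 0)) ∧ j ∈ st.S ∧ Tw j ∧ 0 < st.top j ∧
      c0 j = κ j * c0 kz ∧ ∃ e : ℝ, 0 < e ∧ c0 + cut st.S st.top (Pi.single j e) ∈ coneM Ma := by
    intro j hj
    by_cases hcond : (∀ k, V k → c0 k ≤ κ k * c0 kz) ∧ (∀ k, V k → k ∈ st.S ∨ st.top k = 0)
    · rw [hF, if_pos hcond, mem_filter] at hj
      exact ⟨hcond, hj⟩
    · rw [hF, if_neg hcond] at hj
      exact absurd hj (notMem_empty j)
  obtain ⟨e0, he0, he1⟩ := finset_min F (fun j e => e ≤ st.top j ∧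
      c0 + cut st.S st.top (Pi.single j e) ∈ coneM Ma) (fun j hj => by
      obtain ⟨-, -, -, h1, -, e, h2, h3⟩ := hFm j hj
      exact ⟨min (st.top j) e, lt_min h1 h2, min_le_left _ _,
        cut_conv hlin (lt_min h1 h2) (min_le_right _ _) h3⟩)
    fun j hj e e' h1 h2 h3 => ⟨h2.trans h3.1, cut_conv hlin h1 h2 h3.2⟩
  set s' : ℕ → ℕ → ℝ := consS Sd s with hs'
  have hs'S : ∀ i, B.Sub (s' i) := fun i => by
    simp only [hs', consS]
    split_ifs
    · exact hSd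
    · exact hs _
  set Fs : Finset (Finset (Fin m)) := F.image fun j => {j} with hFs
  have hmem : ∀ F' ∈ Fs, ∃ j ∈ F, F' = {j} := by
    intro F' hF'
    obtain ⟨j, hj, rfl⟩ := mem_image.1 hF'
    exact ⟨j, hj, rfl⟩
  obtain ⟨k, hk, hk2⟩ := Qg4480.exists_wnd_twS_ex hN (x := fun l => y l + w l • c0) hB.pos h0D ht'
    hN.prof h0D ht' hst s' hs'S
    (fun n => Classical.arbitrary (ι n)) (E := E) hE 1 1
    (by
      filter_upwards [hd] with n hn
      rw [prod_range_one, pow_one]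
      refine hn.trans (mul_le_mul_of_nonneg_right ?_ (Nat.cast_nonneg _))
      have e1 : s' 0 n = Sd n := by simp [hs', consS]
      rw [e1]
      linarith [le_abs_self (Sd n)]) Fs he0
    (fun F' hF' => by
      obtain ⟨j, hj, rfl⟩ := hmem F' hF'
      exact singleton_subset_iff.2 (hFS hj))
    (fun F' hF' i hi => by
      obtain ⟨j, hj, rfl⟩ := hmem F' hF'
      rw [mem_singleton] at hi
      subst hi
      exact (he1 i hj).1)
    (fun F' hF' e he hee => by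
      obtain ⟨j, hj, rfl⟩ := hmem F' hF'
      rw [AwT146.ind_single]
      exact cut_conv hlin he hee (he1 j hj).2)
    (fun F' hF' e he hee => by
      obtain ⟨j, hj, rfl⟩ := hmem F' hF'
      rw [AwT146.ind_single]
      obtain ⟨⟨h1, h2⟩, h3, h4, -, h5, -⟩ := hFm j hj
      exact cut_drop hkz hst.kzS hTkz hdrop h1 h2 h3 h4 h5 hlin he
        (cut_conv hlin he hee (he1 j hj).2)) Gs hGs
  refine ⟨k, hk, fun k' hk' hle => ?_⟩
  obtain ⟨B', Gd, s₀, Mx, b1, b2, b3, b4, b4s, b4c, b5, b6, b7, b8, b9⟩ := hk2 k' hk' hle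
  refine ⟨_, ⟨b8, rfl, rfl, rfl, rfl, rfl, rfl, rfl, rfl, rfl, rfl, rfl, rfl, rfl, b1, ?_, ?_, ?_,
    ?_⟩, fun i => ?_, rfl, rfl, rfl, ?_, ?_, ?_⟩
  · intro j e he n
    show (y (k' n) + w (k' n) • c0) j + (∑ s, (e s : ℝ) * c0 s - c0 j) * w (k' n) =
      ∑ s, (e s : ℝ) * (y (k' n) + w (k' n) • c0) s
    rw [sum_shift, ← hB.act j e he (k' n), Pi.add_apply, Pi.smul_apply, smul_eq_mul]
    ring
  · intro j e he hne R'
    have h1 := hB.gap j e he hne (R' + c0 j - ∑ s, (e s : ℝ) * c0 s)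
    filter_upwards [hk'.eventually h1] with n hn
    show (y (k' n) + w (k' n) • c0) j + R' * w (k' n) ≤
      ∑ s, (e s : ℝ) * (y (k' n) + w (k' n) • c0) s
    rw [sum_shift, Pi.add_apply, Pi.smul_apply, smul_eq_mul]
    linarith
  · intro j R'
    have h1 := hB.room j (R' - c0 j)
    filter_upwards [hk'.eventually h1] with n hn
    show R' * w (k' n) ≤ (y (k' n) + w (k' n) • c0) j
    rw [Pi.add_apply, Pi.smul_apply, smul_eq_mul]
    linarith
  · intro g1 g2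
    refine ⟨fun n => 1 + B'.L n, ?_, fun E hE E' g ex hP hg j hj hjT hjt hj0 hje => ?_⟩
    · exact tendsto_atTop_add_const_left _ _ B'.L_tendsto
    · refine AwT146.tw_rawL' b8 (b9 {j} (mem_image_of_mem _ ?_)) hE hP hg
      rw [hkz] at g1 hj0
      rw [hF, if_pos ⟨g1, g2⟩, mem_filter]
      exact ⟨hj, hjT, hjt, hj0, hje⟩
  · have h1 : B'.Sub (s i) := by simpa [hs', consS] using b3 (i + 1)
    exact h1
  · filter_upwards [b6] with n hn
    exact ⟨hn.1, mem_cls.2 ⟨hn.2, rfl⟩⟩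
  · refine Eventually.of_forall fun n => ⟨fun i hi => ?_, fun i hi => ?_⟩
    · obtain ⟨h1, -⟩ := mem_cls.1 hi
      exact mem_inter.2 ⟨b4 n h1, b4s n h1⟩
    · obtain ⟨h1, h2⟩ := mem_cls.1 hi
      show cls (Gd n) (zlab B I co M C _ _ n 0) (s₀ n) = _
      rw [← cls_congr h2, b4c n i h1]
      rfl
  · intro g1 g2
    refine ⟨Mx, fun j hj hjT hjt hj0 hje => b9 {j} (mem_image_of_mem _ ?_)⟩
    rw [hkz] at g1 hj0
    rw [hF, if_pos ⟨g1, g2⟩, mem_filter]
    exact ⟨hj, hjT, hjt, hj0, hje⟩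

/-- **the core**: profile, tangent, splitting, own loss of the tangent, strict drop by tied slots -/
theorem aew_core (hN : NProf B I J co M C R ν) (hB : Bas M Ma y w)
    (ht : IsTan (Leg M R) (coneM Ma) ν y w lam)
    (out : OutS (gC a b) (coneM Ma) (dhC a b) (nC a b) lam A φ r)
    (hown : ∀ c ∈ coneM Ma, ∀ c' ∈ coneM Ma, c ≤ c' → (∀ k, V k → c k ≤ κ k * c kz) →
      σ * (c' kz - c kz) ≤ lam c - lam c')
    (hTkz : ¬ Tw kz)
    (hdrop : ∀ c ∈ coneM Ma, ∀ c' ∈ coneM Ma, c ≤ c' → (∀ k, V k → c k ≤ κ k * c kz) →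
      c' kz = c kz → (∃ k, Tw k ∧ κ k * c kz < c' k) →
      ∀ᶠ l in atTop, ν (y l + w l • c') < ν (y l + w l • c)) :
    AeW B B I J co M Ma C lam a b A φ r kz σ κ V Tw where
  sub := hB.sub
  zero := ht.zero hB.pos zero_mem
  lip := ht.lip hB.pos hN.lip
  anti := ht.anti hB.pos (tan_mono_add hB.pos) hN.anti
  sharp := tan_sharp' ht hB.pos hN.sharp
  submod := fun c hc c' hc' h1 h2 => ht.submod hB.pos
    (fun p hp q hq h _ => hN.submod p hp q hq h) hc hc' h1 h2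
  out := out
  own := hown
  wndO := by
    intro c0 hc0 st hkz hst s hs J' Sd hJ hne hSd hd
    have hN' : NProf B I J' co M C R ν := hN.refine hJ hne hSd hd
    obtain ⟨k, hk, hk2⟩ := wndL_core hN' hB ht hTkz hdrop c0 hc0 st hkz hst s hs J' (fun _ => 1)
      (Eventually.of_forall fun n => Subset.refl _) (Base.Sub.const one_pos)
      (Eventually.of_forall fun n => by rw [one_mul]) (fun _ => J') (fun l c hc =>
        Eventually.of_forall fun n => by simp)
    obtain ⟨W, h1, h2, -, -, -, -, h3, -⟩ := hk2 k hk (Eventually.of_forall fun n => le_rfl)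
    exact ⟨W, h1, h2, h3.mono fun n hn => hn.1.trans inter_subset_left⟩

end core

end Crest.Agent.R136.Aw413
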