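import Crest.Agent.R136.Dec1_146

-- ▼ part R136/Dec2_146
section

/-!
# R136: stationarity of superadditive increments, a.e. statements (helper146)
-/

set_option autoImplicit false
set_option linter.unusedSectionVars false

open Filter Topology MeasureTheory Set

namespace Crest.Agent.R136.Dec146

variable {E : Type*} [NormedAddCommGroup E] [NormedSpace ℝ E] [FiniteDimensional ℝ E]
  [MeasurableSpace E] [BorelSpace E] (μ : Measure E) [μ.IsAddHaarMeasure]

theorem ae_diff (x₀ : E) (R σ : ℝ) {φ : ℕ → E → ℝ} (hφ : ∀ k, Measurable (φ k)) {K : ℝ}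
    (hK0 : 0 ≤ K) (hφK : ∀ k x, |φ k x| ≤ K) {c : ℕ → E} (hc : ∀ k, ‖c k‖ ≤ (1 / 2) ^ k)
    (h : ∀ k x, ‖x - x₀‖ ≤ R + σ → (φ (k + 1) x + φ (k + 1) (x + c k)) / 2 ≤ φ k x)
    {c' : ℕ → E} (hc' : ∀ k, ‖c' k‖ ≤ σ) :
    ∀ᵐ x ∂μ, ‖x - x₀‖ < R →
      Tendsto (fun k => φ k (x + c' k) - φ (k + 1) (x + c' k)) atTop (𝓝 0) := by
  obtain ⟨C, hC⟩ := sum_est μ x₀ (R + σ) hφ hK0 hφK hc h
  set F : ℕ → E → ℝ := fun k x => (φ k x - φ (k + 1) x) ^ 2 with hF
  have hFm : ∀ k, Measurable (F k) := fun k => ((hφ k).sub (hφ (k + 1))).pow_const 2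
  have hFb : ∀ k x, |F k x| ≤ (2 * K) ^ 2 := by
    intro k x
    rw [hF]
    simp only
    rw [abs_pow]
    refine pow_le_pow_left₀ (abs_nonneg _) ?_ 2
    refine (abs_sub _ _).trans ?_
    linarith [hφK k x, hφK (k + 1) x]
  have hF0 : ∀ k x, 0 ≤ F k x := fun k x => sq_nonneg _
  have hint : ∀ k, Integrable (fun x => tent x₀ R x * F k (x + c' k)) μ := fun k =>
    tent_mul_integrable μ x₀ R (F := fun x => F k (x + c' k)) ((hFm k).comp (measurable_add_const _))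
      (K := (2 * K) ^ 2) (fun x => hFb k _)
  have hle : ∀ k, ∫ x, tent x₀ R x * F k (x + c' k) ∂μ ≤ ∫ x, tent x₀ (R + σ) x * F k x ∂μ := by
    intro k
    have h1 : (∫ x, tent x₀ R x * F k (x + c' k) ∂μ) = ∫ x, tent x₀ R (x - c' k) * F k x ∂μ := by
      have := integral_add_right_eq_self (μ := μ) (fun x => tent x₀ R (x - c' k) * F k x) (c' k)
      rw [← this]
      congr 1; ext x
      rw [add_sub_cancel_right]
    rw [h1]
    refine integral_mono ?_ (tent_mul_integrable μ x₀ (R + σ) (hFm k) (hFb k)) fun x => ?_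
    · refine ((hint k).comp_sub_right (c' k)).congr (Eventually.of_forall fun x => ?_)
      simp
    · exact mul_le_mul_of_nonneg_right (tent_shift (hc' k) x) (hF0 k x)
  have hsum : ∑' k, ∫⁻ x, ENNReal.ofReal (tent x₀ R x * F k (x + c' k)) ∂μ ≤ ENNReal.ofReal C := by
    refine ENNReal.tsum_le_of_sum_range_le fun N => ?_
    have e : ∀ k, ∫⁻ x, ENNReal.ofReal (tent x₀ R x * F k (x + c' k)) ∂μ =
        ENNReal.ofReal (∫ x, tent x₀ R x * F k (x + c' k) ∂μ) := fun k =>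
      (ofReal_integral_eq_lintegral_ofReal (hint k) (Eventually.of_forall fun x =>
        mul_nonneg (tent_nonneg _ _ _) (hF0 _ _))).symm
    rw [Finset.sum_congr rfl fun k _ => e k, ← ENNReal.ofReal_sum_of_nonneg fun k _ =>
      integral_nonneg fun x => mul_nonneg (tent_nonneg _ _ _) (hF0 _ _)]
    exact ENNReal.ofReal_le_ofReal ((Finset.sum_le_sum fun k _ => hle k).trans (hC N))
  have hm : ∀ k, AEMeasurable (fun x => ENNReal.ofReal (tent x₀ R x * F k (x + c' k))) μ := fun k =>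
    (((tent_continuous x₀ R).measurable.mul ((hFm k).comp (measurable_add_const _))).ennreal_ofReal).aemeasurable
  have hfin : ∫⁻ x, ∑' k, ENNReal.ofReal (tent x₀ R x * F k (x + c' k)) ∂μ ≠ ⊤ := by
    rw [lintegral_tsum hm]
    exact ne_top_of_le_ne_top ENNReal.ofReal_ne_top hsum
  filter_upwards [ae_lt_top' (AEMeasurable.tsum hm) hfin] with x hx hxR
  have t1 := ENNReal.tendsto_atTop_zero_of_tsum_ne_top hx.ne
  have t2 : Tendsto (fun k => tent x₀ R x * F k (x + c' k)) atTop (𝓝 0) := by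
    have := (ENNReal.tendsto_toReal ENNReal.zero_ne_top).comp t1
    simp only [ENNReal.toReal_zero] at this
    refine this.congr fun k => ?_
    simp only [Function.comp]
    exact ENNReal.toReal_ofReal (mul_nonneg (tent_nonneg _ _ _) (hF0 _ _))
  have hpos := tent_pos hxR
  have t3 : Tendsto (fun k => F k (x + c' k)) atTop (𝓝 0) := by
    have := t2.const_mul (tent x₀ R x)⁻¹
    rw [mul_zero] at this
    refine this.congr fun k => ?_
    rw [← mul_assoc, inv_mul_cancel₀ hpos.ne', one_mul]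
  have t4 : Tendsto (fun k => |φ k (x + c' k) - φ (k + 1) (x + c' k)|) atTop (𝓝 0) := by
    have := (Real.continuous_sqrt.tendsto 0).comp t3
    rw [Real.sqrt_zero] at this
    refine this.congr fun k => ?_
    simp only [Function.comp, hF]
    rw [Real.sqrt_sq_eq_abs]
  exact (tendsto_zero_iff_abs_tendsto_zero _).2 t4

/-- cut-off of a vector -/
noncomputable def clip (σ : ℝ) (v : E) : E := by
  classical exact if ‖v‖ ≤ σ then v else 0

theorem norm_clip {σ : ℝ} (hσ : 0 ≤ σ) (v : E) : ‖clip σ v‖ ≤ σ := by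
  unfold clip
  split_ifs with h
  · exact h
  · simpa using hσ

theorem clip_eq {σ : ℝ} {v : E} (h : ‖v‖ ≤ σ) : clip σ v = v := by
  unfold clip
  rw [if_pos h]

theorem half_small {σ : ℝ} (hσ : 0 < σ) (u : E) : ∀ᶠ k : ℕ in atTop, ‖((1 / 2 : ℝ) ^ k) • u‖ ≤ σ := by
  have h1 : Tendsto (fun k : ℕ => ((1 / 2 : ℝ) ^ k) • u) atTop (𝓝 ((0 : ℝ) • u)) :=
    (tendsto_pow_atTop_nhds_zero_of_lt_one (by norm_num) (by norm_num)).smul_const u
  have h2 := h1.norm
  rw [zero_smul, norm_zero] at h2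
  exact h2.eventually (ge_mem_nhds hσ)

/-- **stationarity**: superadditive increments are asymptotically translation invariant, a.e. -/
theorem ae_stat (x₀ : E) (R : ℝ) {σ : ℝ} (hσ : 0 < σ) {φ : ℕ → E → ℝ} (hφ : ∀ k, Measurable (φ k)) {K K' : ℝ}
    (hK0 : 0 ≤ K) (hφK : ∀ k x, |φ k x| ≤ K)
    (hlip : ∀ k x y, |φ k x - φ k y| ≤ K' * 2 ^ k * ‖x - y‖) {c : ℕ → E}
    (hc : ∀ k, ‖c k‖ ≤ (1 / 2) ^ k)
    (h : ∀ k x, ‖x - x₀‖ ≤ R + σ → (φ (k + 1) x + φ (k + 1) (x + c k)) / 2 ≤ φ k x) :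
    ∀ᵐ x ∂μ, ‖x - x₀‖ < R → ∀ u : E,
      Tendsto (fun k => φ k (x + ((1 / 2 : ℝ) ^ k) • u) - φ k x) atTop (𝓝 0) := by
  have hall : ∀ᵐ x ∂μ, ∀ (n l i : ℕ), ‖x - x₀‖ < R →
      Tendsto (fun j => φ j (x + clip σ (((1 / 2 : ℝ) ^ (j + (l - i))) • TopologicalSpace.denseSeq E n))
        - φ (j + 1) (x + clip σ (((1 / 2 : ℝ) ^ (j + (l - i))) • TopologicalSpace.denseSeq E n)))
        atTop (𝓝 0) := by
    rw [ae_all_iff]; intro n
    rw [ae_all_iff]; intro l
    rw [ae_all_iff]; intro i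
    exact ae_diff μ x₀ R σ hφ hK0 hφK hc h fun j => norm_clip hσ.le _
  have hall0 := ae_diff μ x₀ R σ hφ hK0 hφK hc h (c' := fun _ => (0 : E)) (fun _ => by simpa using hσ.le)
  filter_upwards [hall, hall0] with x hx hx0 hxR
  -- telescoping
  have T0 : ∀ l : ℕ, Tendsto (fun k => φ k x - φ (k + l) x) atTop (𝓝 0) := by
    intro l
    induction l with
    | zero => simp
    | succ l ih =>
      have h1 := (hx0 hxR).comp (tendsto_add_atTop_nat l)
      have := ih.add h1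
      rw [show (0 : ℝ) + 0 = 0 from add_zero 0] at this
      refine this.congr fun k => ?_
      simp only [Function.comp, add_zero]
      rw [show k + (l + 1) = k + l + 1 by ring]
      ring
  have T1 : ∀ (n l : ℕ), Tendsto (fun k =>
      φ k (x + ((1 / 2 : ℝ) ^ (k + l)) • TopologicalSpace.denseSeq E n) -
        φ (k + l) (x + ((1 / 2 : ℝ) ^ (k + l)) • TopologicalSpace.denseSeq E n)) atTop (𝓝 0) := by
    intro n l
    set u := TopologicalSpace.denseSeq E n with hu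
    have h1 : ∀ i ≤ l, Tendsto (fun k =>
        φ k (x + ((1 / 2 : ℝ) ^ (k + l)) • u) - φ (k + i) (x + ((1 / 2 : ℝ) ^ (k + l)) • u))
        atTop (𝓝 0) := by
      intro i
      induction i with
      | zero => intro _; simp
      | succ i ih =>
        intro hi
        have h2 := (hx n l i hxR).comp (tendsto_add_atTop_nat i)
        have h3 := (ih (by omega)).add h2
        rw [show (0 : ℝ) + 0 = 0 from add_zero 0] at h3
        refine h3.congr' ?_
        have h4 : ∀ᶠ k : ℕ in atTop, ‖((1 / 2 : ℝ) ^ (k + l)) • u‖ ≤ σ :=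
          (tendsto_add_atTop_nat l).eventually (half_small hσ u)
        filter_upwards [h4] with k hk
        simp only [Function.comp]
        rw [show k + i + (l - i) = k + l by omega, ← hu, clip_eq hk, show k + (i + 1) = k + i + 1 by ring]
        ring
    exact h1 l le_rfl
  have hK'0 : ∀ u : E, 0 ≤ K' * ‖u‖ := by
    intro u
    have := (abs_nonneg _).trans (hlip 0 u 0)
    simpa using this
  -- dense directions
  have T2 : ∀ n : ℕ, Tendsto (fun k => φ k (x + ((1 / 2 : ℝ) ^ k) • TopologicalSpace.denseSeq E n)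
      - φ k x) atTop (𝓝 0) := by
    intro n
    set u := TopologicalSpace.denseSeq E n with hu
    rw [Metric.tendsto_atTop]
    intro ε hε
    obtain ⟨l, hl⟩ := exists_pow_lt_of_lt_one (show 0 < ε / (2 * (K' * ‖u‖ + 1)) by
      have := hK'0 u; positivity) (show (1 / 2 : ℝ) < 1 by norm_num)
    have a1 := (T1 n l).sub (T0 l)
    rw [sub_zero] at a1
    obtain ⟨N, hN⟩ := Metric.tendsto_atTop.1 a1 (ε / 2) (half_pos hε)
    refine ⟨N + l, fun k hk => ?_⟩
    obtain ⟨j, rfl⟩ : ∃ j, k = j + l := ⟨k - l, by omega⟩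
    have a2 := hN j (by omega)
    rw [Real.dist_eq, sub_zero] at a2 ⊢
    have a3 := hlip j (x + ((1 / 2 : ℝ) ^ (j + l)) • u) x
    have a4 : K' * 2 ^ j * ‖x + ((1 / 2 : ℝ) ^ (j + l)) • u - x‖ = (K' * ‖u‖) * (1 / 2) ^ l := by
      rw [add_sub_cancel_left, norm_smul, norm_pow, Real.norm_of_nonneg (by norm_num : (0:ℝ) ≤ 1 / 2),
        pow_add]
      have : (2 : ℝ) ^ j * (1 / 2) ^ j = 1 := by rw [← mul_pow]; norm_num
      calc K' * 2 ^ j * ((1 / 2) ^ j * (1 / 2) ^ l * ‖u‖)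
          = (K' * ‖u‖) * (1 / 2) ^ l * ((2 : ℝ) ^ j * (1 / 2) ^ j) := by ring
        _ = _ := by rw [this, mul_one]
    rw [a4] at a3
    have a5 : (K' * ‖u‖) * (1 / 2) ^ l ≤ ε / 2 := by
      have h6 : (1 / 2 : ℝ) ^ l * (2 * (K' * ‖u‖ + 1)) < ε := by
        rwa [lt_div_iff₀ (by have := hK'0 u; positivity)] at hl
      have h7 : (0 : ℝ) < (1 / 2) ^ l := by positivity
      nlinarith [hK'0 u]
    rw [← hu] at a2
    rw [abs_lt] at a2 ⊢
    rw [abs_le] at a3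
    constructor <;> linarith [a2.1, a2.2, a3.1, a3.2]
  intro u
  rw [Metric.tendsto_atTop]
  intro ε hε
  obtain ⟨n, hn⟩ : ∃ n, ‖u - TopologicalSpace.denseSeq E n‖ < ε / (2 * (|K'| + 1)) := by
    have hd := TopologicalSpace.denseRange_denseSeq E
    obtain ⟨n, hn⟩ := hd.exists_dist_lt u (show 0 < ε / (2 * (|K'| + 1)) by positivity)
    exact ⟨n, by rwa [dist_eq_norm] at hn⟩
  obtain ⟨N, hN⟩ := Metric.tendsto_atTop.1 (T2 n) (ε / 2) (half_pos hε)
  refine ⟨N, fun k hk => ?_⟩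
  have a2 := hN k hk
  rw [Real.dist_eq, sub_zero] at a2 ⊢
  have a3 := hlip k (x + ((1 / 2 : ℝ) ^ k) • u)
    (x + ((1 / 2 : ℝ) ^ k) • TopologicalSpace.denseSeq E n)
  have a4 : K' * 2 ^ k * ‖x + ((1 / 2 : ℝ) ^ k) • u
      - (x + ((1 / 2 : ℝ) ^ k) • TopologicalSpace.denseSeq E n)‖ =
      K' * ‖u - TopologicalSpace.denseSeq E n‖ := by
    rw [add_sub_add_left_eq_sub, ← smul_sub, norm_smul, norm_pow,
      Real.norm_of_nonneg (by norm_num : (0:ℝ) ≤ 1 / 2)]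
    have : (2 : ℝ) ^ k * (1 / 2) ^ k = 1 := by rw [← mul_pow]; norm_num
    calc K' * 2 ^ k * ((1 / 2) ^ k * ‖u - TopologicalSpace.denseSeq E n‖)
        = K' * ‖u - TopologicalSpace.denseSeq E n‖ * ((2 : ℝ) ^ k * (1 / 2) ^ k) := by ring
      _ = _ := by rw [this, mul_one]
  rw [a4] at a3
  have a5 : K' * ‖u - TopologicalSpace.denseSeq E n‖ ≤ ε / 2 := by
    have h6 : ‖u - TopologicalSpace.denseSeq E n‖ * (2 * (|K'| + 1)) < ε := by
      rwa [lt_div_iff₀ (by positivity)] at hn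
    have h7 := norm_nonneg (u - TopologicalSpace.denseSeq E n)
    nlinarith [le_abs_self K', abs_nonneg K']
  rw [abs_lt] at a2 ⊢
  rw [abs_le] at a3
  constructor <;> linarith [a2.1, a2.2, a3.1, a3.2]

end Crest.Agent.R136.Dec146
end

-- ▼ part R136/Dec3_146
section

/-!
# R136: stationarity of the increments of a supermodular profile along a natural family (helper146)

`ν : (ι → ℝ) → ℝ` Lipschitz, supermodular on `S`, natural family `x ↦ b + L x`, `L : E → (ι → ℝ)`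
linear, `LEG` = wall cone. A MOVE raises some coordinates by `L y` from the offset `w`; the other
coordinates are behind (type I) or ahead of the end (type II). `ae_move`: for a.e. `x`, the rescaled
increment of every move is asymptotically invariant under translations along the natural family.
-/

set_option autoImplicit false
set_option linter.unusedSectionVars false

open Filter Topology MeasureTheory Set

namespace Crest.Agent.R136.Dec146

section alg

variable {ι : Type*}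

/-- increment -/
def Inc (ν : (ι → ℝ) → ℝ) (d p : ι → ℝ) : ℝ := ν p - ν (p + d)

/-- supermodularity on `S` (only when all four points are in `S`) -/
def Sup4 (ν : (ι → ℝ) → ℝ) (S : Set (ι → ℝ)) : Prop :=
  ∀ p ∈ S, ∀ q ∈ S, p ⊓ q ∈ S → p ⊔ q ∈ S → ν p + ν q ≤ ν (p ⊔ q) + ν (p ⊓ q)

/-- increments are antitone in the coordinates off the support -/
theorem inc_anti {ν : (ι → ℝ) → ℝ} {S : Set (ι → ℝ)} (hsup : Sup4 ν S) {p p' z : ι → ℝ}
    (hz : ∀ i, (p i = p' i ∧ 0 ≤ z i) ∨ (p i ≤ p' i ∧ z i = 0))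
    (h1 : p ∈ S) (h2 : p' ∈ S) (h3 : p + z ∈ S) (h4 : p' + z ∈ S) :
    Inc ν z p' ≤ Inc ν z p := by
  have e1 : p' ⊓ (p + z) = p := by
    ext i
    simp only [Pi.inf_apply, Pi.add_apply]
    rcases hz i with ⟨a, b⟩ | ⟨a, b⟩
    · rw [← a]; exact min_eq_left (by linarith)
    · rw [b, add_zero]; exact min_eq_right a
  have e2 : p' ⊔ (p + z) = p' + z := by
    ext i
    simp only [Pi.sup_apply, Pi.add_apply]
    rcases hz i with ⟨a, b⟩ | ⟨a, b⟩
    · rw [← a]; exact max_eq_right (by linarith)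
    · rw [b, add_zero, add_zero]; exact max_eq_left a
  have := hsup p' h2 (p + z) h3 (by rw [e1]; exact h1) (by rw [e2]; exact h4)
  rw [e1, e2] at this
  unfold Inc
  linarith

theorem inc_split (ν : (ι → ℝ) → ℝ) (d d' p : ι → ℝ) :
    Inc ν (d + d') p = Inc ν d p + Inc ν d' (p + d) := by
  unfold Inc; rw [add_assoc]; ring

end alg

section cone

variable {ι : Type*} {E : Type*} [NormedAddCommGroup E] [NormedSpace ℝ E]

/-- type I move: raise by `L y` from `w`; the other coordinates are behind -/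
def MoveI (L : E →ₗ[ℝ] (ι → ℝ)) (w z : ι → ℝ) (y : E) : Prop :=
  ∀ i, (w i = 0 ∧ z i = L y i ∧ 0 ≤ z i) ∨ (z i = 0 ∧ w i ≤ 0 ∧ w i ≤ L y i)

/-- type II move: raise by `L y` from `w`; the other coordinates are ahead of the end -/
def MoveII (L : E →ₗ[ℝ] (ι → ℝ)) (w z : ι → ℝ) (y : E) : Prop :=
  ∀ i, (w i = 0 ∧ z i = L y i ∧ 0 ≤ z i) ∨ (z i = 0 ∧ 0 ≤ w i ∧ L y i ≤ w i)

/-- wall cone: convex cone which contains the natural directions -/
structure Cone (L : E →ₗ[ℝ] (ι → ℝ)) (LEG : Set (ι → ℝ)) : Prop where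
  smul : ∀ c ∈ LEG, ∀ t : ℝ, 0 ≤ t → t • c ∈ LEG
  add : ∀ c ∈ LEG, ∀ c' ∈ LEG, c + c' ∈ LEG
  nat : ∀ x, L x ∈ LEG

variable {L : E →ₗ[ℝ] (ι → ℝ)} {LEG S : Set (ι → ℝ)} {ν : (ι → ℝ) → ℝ} {w z b : ι → ℝ} {x y : E}

/-- the seven points of the halving inequality -/
theorem seven (hC : Cone L LEG) (hw : w ∈ LEG) (hwz : w + z ∈ LEG) {h r : ℝ} (hh : 0 ≤ h)
    (hS : ∀ c ∈ LEG, (∀ i, |c i| ≤ r) → b + L x + c ∈ S)
    (hr : ∀ i, h * (|w i| + |z i| + |L y i|) ≤ r) :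
    b + L x + h • w ∈ S ∧ b + L x + h • w + (h / 2) • z ∈ S ∧
    b + L x + h • w + (h / 2) • z + (h / 2) • z ∈ S ∧
    b + L x + (h / 2) • w ∈ S ∧ b + L x + (h / 2) • w + (h / 2) • z ∈ S ∧
    b + L (x + (h / 2) • y) + (h / 2) • w ∈ S ∧
    b + L (x + (h / 2) • y) + (h / 2) • w + (h / 2) • z ∈ S := by
  have hh2 : 0 ≤ h / 2 := by linarith
  have key : ∀ c ∈ LEG, (∀ i, |c i| ≤ h * (|w i| + |z i| + |L y i|)) → b + L x + c ∈ S :=
    fun c hc h1 => hS c hc fun i => (h1 i).trans (hr i)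
  have hb : ∀ i, 0 ≤ h * |w i| ∧ 0 ≤ h * |z i| ∧ 0 ≤ h * |L y i| := fun i =>
    ⟨by positivity, by positivity, by positivity⟩
  have aw : ∀ i, -(h * |w i|) ≤ h * w i ∧ h * w i ≤ h * |w i| := fun i =>
    ⟨by nlinarith [neg_abs_le (w i)], by nlinarith [le_abs_self (w i)]⟩
  have az : ∀ i, -(h * |z i|) ≤ h * z i ∧ h * z i ≤ h * |z i| := fun i =>
    ⟨by nlinarith [neg_abs_le (z i)], by nlinarith [le_abs_self (z i)]⟩
  have ay : ∀ i, -(h * |L y i|) ≤ h * L y i ∧ h * L y i ≤ h * |L y i| := fun i =>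
    ⟨by nlinarith [neg_abs_le (L y i)], by nlinarith [le_abs_self (L y i)]⟩
  have l1 : h • w ∈ LEG := hC.smul _ hw _ hh
  have l2 : (h / 2) • w ∈ LEG := hC.smul _ hw _ hh2
  have l3 : (h / 2) • (w + z) ∈ LEG := hC.smul _ hwz _ hh2
  have l4 : (h / 2) • L y ∈ LEG := hC.smul _ (hC.nat y) _ hh2
  refine ⟨key _ l1 ?_, ?_, ?_, key _ l2 ?_, ?_, ?_, ?_⟩
  · intro i; simp only [Pi.smul_apply, smul_eq_mul]; rw [abs_le]
    constructor <;> nlinarith [aw i, hb i]
  · rw [show b + L x + h • w + (h / 2) • z = b + L x + ((h / 2) • w + (h / 2) • (w + z)) by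
      ext i; simp only [Pi.add_apply, Pi.smul_apply, smul_eq_mul]; ring]
    refine key _ (hC.add _ l2 _ l3) ?_
    intro i; simp only [Pi.smul_apply, Pi.add_apply, smul_eq_mul]; rw [abs_le]
    constructor <;> nlinarith [aw i, az i, hb i]
  · rw [show b + L x + h • w + (h / 2) • z + (h / 2) • z =
      b + L x + ((h / 2) • (w + z) + (h / 2) • (w + z)) by
      ext i; simp only [Pi.add_apply, Pi.smul_apply, smul_eq_mul]; ring]
    refine key _ (hC.add _ l3 _ l3) ?_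
    intro i; simp only [Pi.smul_apply, Pi.add_apply, smul_eq_mul]; rw [abs_le]
    constructor <;> nlinarith [aw i, az i, hb i]
  · intro i; simp only [Pi.smul_apply, smul_eq_mul]; rw [abs_le]
    constructor <;> nlinarith [aw i, hb i]
  · rw [show b + L x + (h / 2) • w + (h / 2) • z = b + L x + (h / 2) • (w + z) by
      ext i; simp only [Pi.add_apply, Pi.smul_apply, smul_eq_mul]; ring]
    refine key _ l3 ?_
    intro i; simp only [Pi.smul_apply, Pi.add_apply, smul_eq_mul]; rw [abs_le]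
    constructor <;> nlinarith [aw i, az i, hb i]
  · rw [show b + L (x + (h / 2) • y) + (h / 2) • w = b + L x + ((h / 2) • L y + (h / 2) • w) by
      rw [map_add, map_smul]
      ext i; simp only [Pi.add_apply, Pi.smul_apply, smul_eq_mul]; ring]
    refine key _ (hC.add _ l4 _ l2) ?_
    intro i; simp only [Pi.smul_apply, Pi.add_apply, smul_eq_mul]; rw [abs_le]
    constructor <;> nlinarith [aw i, ay i, hb i]
  · rw [show b + L (x + (h / 2) • y) + (h / 2) • w + (h / 2) • z =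
      b + L x + ((h / 2) • L y + (h / 2) • (w + z)) by
      rw [map_add, map_smul]
      ext i; simp only [Pi.add_apply, Pi.smul_apply, smul_eq_mul]; ring]
    refine key _ (hC.add _ l4 _ l3) ?_
    intro i; simp only [Pi.smul_apply, Pi.add_apply, smul_eq_mul]; rw [abs_le]
    constructor <;> nlinarith [aw i, az i, ay i, hb i]

theorem half_add (h : ℝ) (z : ι → ℝ) : h • z = (h / 2) • z + (h / 2) • z := by
  rw [← add_smul]; congr 1; ring

/-- halving, type I -/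
theorem half_I (hsup : Sup4 ν S) (hC : Cone L LEG) (hw : w ∈ LEG) (hwz : w + z ∈ LEG)
    (hm : MoveI L w z y) {h r : ℝ} (hh : 0 ≤ h)
    (hS : ∀ c ∈ LEG, (∀ i, |c i| ≤ r) → b + L x + c ∈ S)
    (hr : ∀ i, h * (|w i| + |z i| + |L y i|) ≤ r) :
    Inc ν ((h / 2) • z) (b + L x + (h / 2) • w) +
      Inc ν ((h / 2) • z) (b + L (x + (h / 2) • y) + (h / 2) • w) ≤
      Inc ν (h • z) (b + L x + h • w) := by
  obtain ⟨p1, p2, p3, p4, p5, p6, p7⟩ := seven (y := y) hC hw hwz hh hS hr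
  have hh2 : 0 ≤ h / 2 := by linarith
  rw [half_add h z, inc_split]
  refine add_le_add ?_ ?_
  · refine inc_anti hsup (fun i => ?_) p1 p4 p2 p5
    simp only [Pi.add_apply, Pi.smul_apply, smul_eq_mul]
    rcases hm i with ⟨a, b', c⟩ | ⟨a, b', c⟩
    · left; rw [a]; exact ⟨by ring, mul_nonneg hh2 c⟩
    · right; rw [a]; exact ⟨by nlinarith, by ring⟩
  · refine inc_anti hsup (fun i => ?_) p2 p6 p3 p7
    rw [map_add, map_smul]
    simp only [Pi.add_apply, Pi.smul_apply, smul_eq_mul]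
    rcases hm i with ⟨a, b', c⟩ | ⟨a, b', c⟩
    · left; rw [a, b']; rw [b'] at c; exact ⟨by ring, mul_nonneg hh2 c⟩
    · right; rw [a]; exact ⟨by nlinarith, by ring⟩

/-- halving, type II -/
theorem half_II (hsup : Sup4 ν S) (hC : Cone L LEG) (hw : w ∈ LEG) (hwz : w + z ∈ LEG)
    (hm : MoveII L w z y) {h r : ℝ} (hh : 0 ≤ h)
    (hS : ∀ c ∈ LEG, (∀ i, |c i| ≤ r) → b + L x + c ∈ S)
    (hr : ∀ i, h * (|w i| + |z i| + |L y i|) ≤ r) :
    Inc ν (h • z) (b + L x + h • w) ≤ Inc ν ((h / 2) • z) (b + L x + (h / 2) • w) +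
      Inc ν ((h / 2) • z) (b + L (x + (h / 2) • y) + (h / 2) • w) := by
  obtain ⟨p1, p2, p3, p4, p5, p6, p7⟩ := seven (y := y) hC hw hwz hh hS hr
  have hh2 : 0 ≤ h / 2 := by linarith
  rw [half_add h z, inc_split]
  refine add_le_add ?_ ?_
  · refine inc_anti hsup (fun i => ?_) p4 p1 p5 p2
    simp only [Pi.add_apply, Pi.smul_apply, smul_eq_mul]
    rcases hm i with ⟨a, b', c⟩ | ⟨a, b', c⟩
    · left; rw [a]; exact ⟨by ring, mul_nonneg hh2 c⟩
    · right; rw [a]; exact ⟨by nlinarith, by ring⟩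
  · refine inc_anti hsup (fun i => ?_) p6 p2 p7 p3
    rw [map_add, map_smul]
    simp only [Pi.add_apply, Pi.smul_apply, smul_eq_mul]
    rcases hm i with ⟨a, b', c⟩ | ⟨a, b', c⟩
    · left; rw [a, b']; rw [b'] at c; exact ⟨by ring, mul_nonneg hh2 c⟩
    · right; rw [a]; exact ⟨by nlinarith, by ring⟩

end cone

section main

variable {ι : Type*} [Fintype ι] {E : Type*} [NormedAddCommGroup E] [NormedSpace ℝ E]
  [FiniteDimensional ℝ E] [MeasurableSpace E] [BorelSpace E] (μ : Measure E) [μ.IsAddHaarMeasure]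
  {L : E →ₗ[ℝ] (ι → ℝ)} {LEG S : Set (ι → ℝ)} {ν : (ι → ℝ) → ℝ} {b : ι → ℝ} {K : ℝ}

/-- difference of the rescaled increments of a move at `x + h u` and `x` -/
noncomputable def GG (ν : (ι → ℝ) → ℝ) (b : ι → ℝ) (L : E →ₗ[ℝ] (ι → ℝ)) (w z : ι → ℝ) (u x : E)
    (h : ℝ) : ℝ :=
  (Inc ν (h • z) (b + L (x + h • u) + h • w) - Inc ν (h • z) (b + L x + h • w)) / h

theorem inc_le (hlip : ∀ p q, |ν p - ν q| ≤ K * ‖p - q‖) (d p : ι → ℝ) :
    |Inc ν d p| ≤ K * ‖d‖ := by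
  have := hlip p (p + d)
  rwa [sub_add_cancel_left, norm_neg] at this

theorem inc_sub_le (hlip : ∀ p q, |ν p - ν q| ≤ K * ‖p - q‖) (d p q : ι → ℝ) :
    |Inc ν d p - Inc ν d q| ≤ 2 * K * ‖p - q‖ := by
  have h1 := abs_le.1 (hlip p q)
  have h2 := hlip (p + d) (q + d)
  rw [add_sub_add_right_eq_sub] at h2
  have h2 := abs_le.1 h2
  unfold Inc
  rw [abs_le]; constructor <;> linarith [h1.1, h1.2, h2.1, h2.2]

theorem exists_Lam (L : E →ₗ[ℝ] (ι → ℝ)) : ∃ Λ : ℝ, 0 ≤ Λ ∧ ∀ x, ‖L x‖ ≤ Λ * ‖x‖ := by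
  refine ⟨‖LinearMap.toContinuousLinearMap L‖, norm_nonneg _, fun x => ?_⟩
  exact (LinearMap.toContinuousLinearMap L).le_opNorm x

/-- one move, dyadic scales, near one point -/
theorem move_local (hK : 0 ≤ K) (hlip : ∀ p q, |ν p - ν q| ≤ K * ‖p - q‖) (hsup : Sup4 ν S)
    (hC : Cone L LEG) {w z : ι → ℝ} {y : E} (hw : w ∈ LEG) (hwz : w + z ∈ LEG)
    (hm : MoveI L w z y ∨ MoveII L w z y) {x₀ : E} {ρ r : ℝ} (hρ : 0 < ρ) (hr : 0 < r)
    (hS : ∀ x, ‖x - x₀‖ ≤ ρ → ∀ c ∈ LEG, (∀ i, |c i| ≤ r) → b + L x + c ∈ S) :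
    ∀ᵐ x ∂μ, ‖x - x₀‖ < ρ / 2 → ∀ u : E,
      Tendsto (fun k : ℕ => GG ν b L w z u x ((1 / 2) ^ k)) atTop (𝓝 0) := by
  obtain ⟨Λ, hΛ0, hΛ⟩ := exists_Lam L
  set M : ℝ := ‖w‖ + ‖z‖ + ‖L y‖ + ‖y‖ + 1 with hM
  have hM1 : 0 < M := by rw [hM]; positivity
  obtain ⟨k₀, hk₀⟩ := exists_pow_lt_of_lt_one (show 0 < min (r / M) (1 / M) by positivity)
    (show (1 / 2 : ℝ) < 1 by norm_num)
  have hk1 : (1 / 2 : ℝ) ^ k₀ * M ≤ r := by
    have := hk₀.le.trans (min_le_left _ _)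
    rwa [le_div_iff₀ hM1] at this
  have hk2 : (1 / 2 : ℝ) ^ k₀ * M ≤ 1 := by
    have := hk₀.le.trans (min_le_right _ _)
    rwa [le_div_iff₀ hM1] at this
  set φ : ℕ → E → ℝ := fun k x =>
    Inc ν (((1 / 2 : ℝ) ^ (k + k₀)) • z) (b + L x + ((1 / 2 : ℝ) ^ (k + k₀)) • w) /
      (1 / 2 : ℝ) ^ (k + k₀) with hφ
  have hpos : ∀ k : ℕ, (0 : ℝ) < (1 / 2) ^ k := fun k => by positivity
  have hνc : Continuous ν := by
    refine (LipschitzWith.of_dist_le_mul (K := K.toNNReal) fun p q => ?_).continuous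
    rw [Real.dist_eq, dist_eq_norm, Real.coe_toNNReal _ hK]
    exact hlip p q
  have hLc : Continuous L := (LinearMap.toContinuousLinearMap L).continuous
  have hφc : ∀ k, Continuous (φ k) := by
    intro k
    simp only [hφ, Inc]
    refine Continuous.div_const ?_ _
    refine (hνc.comp ?_).sub (hνc.comp ?_) <;> fun_prop
  have hφK : ∀ k x, |φ k x| ≤ K * ‖z‖ := by
    intro k x
    simp only [hφ]
    rw [abs_div, abs_of_pos (hpos _), div_le_iff₀ (hpos _)]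
    refine (inc_le hlip _ _).trans (le_of_eq ?_)
    rw [norm_smul, Real.norm_of_nonneg (hpos _).le]; ring
  have hφlip : ∀ k x x', |φ k x - φ k x'| ≤ (2 * K * Λ * 2 ^ k₀) * 2 ^ k * ‖x - x'‖ := by
    intro k x x'
    simp only [hφ]
    rw [← sub_div, abs_div, abs_of_pos (hpos _), div_le_iff₀ (hpos _)]
    refine (inc_sub_le hlip _ _ _).trans ?_
    have e : b + L x + ((1 / 2 : ℝ) ^ (k + k₀)) • w - (b + L x' + ((1 / 2 : ℝ) ^ (k + k₀)) • w)
        = L (x - x') := by rw [map_sub]; abel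
    rw [e]
    have h1 : (2 : ℝ) ^ k₀ * 2 ^ k * (1 / 2) ^ (k + k₀) = 1 := by
      rw [← pow_add, add_comm k₀ k, ← mul_pow]; norm_num
    calc 2 * K * ‖L (x - x')‖ ≤ 2 * K * (Λ * ‖x - x'‖) :=
          mul_le_mul_of_nonneg_left (hΛ _) (by positivity)
      _ = 2 * K * Λ * ((2 : ℝ) ^ k₀ * 2 ^ k * (1 / 2) ^ (k + k₀)) * ‖x - x'‖ := by rw [h1]; ring
      _ = _ := by ring
  set c : ℕ → E := fun k => ((1 / 2 : ℝ) ^ (k + k₀ + 1)) • y with hc
  have hcb : ∀ k, ‖c k‖ ≤ (1 / 2) ^ k := by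
    intro k
    simp only [hc]
    rw [norm_smul, Real.norm_of_nonneg (hpos _).le]
    have h1 : ‖y‖ ≤ M := by
      rw [hM]; linarith [norm_nonneg w, norm_nonneg z, norm_nonneg (L y)]
    have h2 : (1 / 2 : ℝ) ^ (k + k₀ + 1) * ‖y‖ ≤ (1 / 2) ^ (k + k₀) * M := by
      refine mul_le_mul ?_ h1 (norm_nonneg _) (hpos _).le
      exact pow_le_pow_of_le_one (by norm_num) (by norm_num) (by omega)
    refine h2.trans ?_
    rw [pow_add, mul_assoc]
    have := mul_le_mul_of_nonneg_left hk2 (hpos k).le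
    rwa [mul_one] at this
  have hsm : ∀ k i, (1 / 2 : ℝ) ^ (k + k₀) * (|w i| + |z i| + |L y i|) ≤ r := by
    intro k i
    have h1 : |w i| + |z i| + |L y i| ≤ M := by
      have a1 := norm_le_pi_norm w i
      have a2 := norm_le_pi_norm z i
      have a3 := norm_le_pi_norm (L y) i
      rw [Real.norm_eq_abs] at a1 a2 a3
      rw [hM]; linarith [norm_nonneg y]
    have h2 : (1 / 2 : ℝ) ^ (k + k₀) ≤ (1 / 2) ^ k₀ :=
      pow_le_pow_of_le_one (by norm_num) (by norm_num) (by omega)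
    calc (1 / 2 : ℝ) ^ (k + k₀) * (|w i| + |z i| + |L y i|) ≤ (1 / 2) ^ k₀ * M :=
          mul_le_mul h2 h1 (by positivity) (hpos _).le
      _ ≤ r := hk1
  have hhalf : ∀ k : ℕ, ((1 / 2 : ℝ) ^ (k + k₀)) / 2 = (1 / 2) ^ (k + 1 + k₀) := by
    intro k
    rw [show k + 1 + k₀ = k + k₀ + 1 by ring, pow_succ]; ring
  have main : ∀ᵐ x ∂μ, ‖x - x₀‖ < ρ / 2 → ∀ u : E,
      Tendsto (fun k => φ k (x + ((1 / 2 : ℝ) ^ k) • u) - φ k x) atTop (𝓝 0) := by
    rcases hm with hm | hm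
    · refine ae_stat μ x₀ (ρ / 2) (σ := ρ / 2) (by positivity) (fun k => (hφc k).measurable)
        (K := K * ‖z‖) (by positivity) hφK hφlip hcb fun k x hx => ?_
      rw [add_halves] at hx
      have := half_I hsup hC hw hwz hm (hpos (k + k₀)).le (hS x hx) (hsm k)
      simp only [hφ, hc]
      rw [hhalf] at this
      rw [show ((1 / 2 : ℝ) ^ (k + k₀ + 1)) • y = ((1 / 2 : ℝ) ^ (k + 1 + k₀)) • y by
        rw [show k + k₀ + 1 = k + 1 + k₀ by ring]]
      rw [← add_div, div_div, div_le_div_iff₀ (by positivity) (by positivity)]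
      rw [show (1 / 2 : ℝ) ^ (k + 1 + k₀) * 2 = (1 / 2) ^ (k + k₀) by rw [← hhalf]; ring]
      exact mul_le_mul_of_nonneg_right this (hpos _).le
    · have hneg := ae_stat μ x₀ (ρ / 2) (σ := ρ / 2) (by positivity) (φ := fun k x => -φ k x)
        (fun k => (hφc k).measurable.neg)
        (K := K * ‖z‖) (K' := 2 * K * Λ * 2 ^ k₀) (by positivity)
        (fun k x => by rw [abs_neg]; exact hφK k x)
        (fun k x x' => by
          rw [show -φ k x - -φ k x' = -(φ k x - φ k x') by ring, abs_neg]; exact hφlip k x x')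
        hcb (fun k x hx => by
          rw [add_halves] at hx
          have := half_II hsup hC hw hwz hm (hpos (k + k₀)).le (hS x hx) (hsm k)
          simp only [hφ, hc]
          rw [hhalf] at this
          rw [show ((1 / 2 : ℝ) ^ (k + k₀ + 1)) • y = ((1 / 2 : ℝ) ^ (k + 1 + k₀)) • y by
            rw [show k + k₀ + 1 = k + 1 + k₀ by ring]]
          rw [← neg_add, neg_div, neg_le_neg_iff, ← add_div, div_div,
            div_le_div_iff₀ (by positivity) (by positivity)]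
          rw [show (1 / 2 : ℝ) ^ (k + 1 + k₀) * 2 = (1 / 2) ^ (k + k₀) by rw [← hhalf]; ring]
          exact mul_le_mul_of_nonneg_right this (hpos _).le)
      filter_upwards [hneg] with x hx hxr u
      have := (hx hxr u).neg
      rw [neg_zero] at this
      refine this.congr fun k => ?_
      ring
  filter_upwards [main] with x hx hxr u
  have h1 := hx hxr (((1 / 2 : ℝ) ^ k₀) • u)
  rw [← tendsto_add_atTop_iff_nat k₀]
  refine h1.congr fun k => ?_
  simp only [hφ, GG]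
  rw [smul_smul, ← pow_add, ← sub_div]

end main

end Crest.Agent.R136.Dec146
end

-- ▼ part R136/Dec4_146

/-!
# R136: the stationarity theorem (helper146)

`ae_move`: for a.e. `x` of the domain, for ALL moves `(w, z, y)` of type I or II and all `u`,
`(1/h) [Inc ν (h z) (X (x + h u) + h w) - Inc ν (h z) (X x + h w)] → 0` as `h → 0+` (all scales).
`BU.inv`: every blow-up of `ν` at such a point has increments of moves which are invariant under the
whole natural plane.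
-/

set_option autoImplicit false
set_option linter.unusedSectionVars false
set_option linter.unusedVariables false

open Filter Topology MeasureTheory Set

namespace Crest.Agent.R136.Dec146

variable {ι : Type*} [Fintype ι] {E : Type*} [NormedAddCommGroup E] [NormedSpace ℝ E]
  [FiniteDimensional ℝ E]
  {L : E →ₗ[ℝ] (ι → ℝ)} {LEG S : Set (ι → ℝ)} {ν : (ι → ℝ) → ℝ} {b : ι → ℝ} {K : ℝ}

theorem lip_step (hK : 0 ≤ K) (hlip : ∀ p q, |ν p - ν q| ≤ K * ‖p - q‖) {h : ℝ} (hh : 0 < h)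
    (p v v' : ι → ℝ) : |ν (p + h • v) - ν (p + h • v')| ≤ K * h * ‖v - v'‖ := by
  refine (hlip _ _).trans (le_of_eq ?_)
  rw [add_sub_add_left_eq_sub, ← smul_sub, norm_smul, Real.norm_of_nonneg hh.le]; ring

theorem GG_eq (w z : ι → ℝ) (u x : E) (h : ℝ) :
    GG ν b L w z u x h = (ν (b + L x + h • (L u + w)) - ν (b + L x + h • (L u + w + z))
      - (ν (b + L x + h • w) - ν (b + L x + h • (w + z)))) / h := by
  have e1 : b + L (x + h • u) + h • w = b + L x + h • (L u + w) := by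
    rw [map_add, map_smul]
    ext i; simp only [Pi.add_apply, Pi.smul_apply, smul_eq_mul]; ring
  have e2 : b + L (x + h • u) + h • w + h • z = b + L x + h • (L u + w + z) := by
    rw [map_add, map_smul]
    ext i; simp only [Pi.add_apply, Pi.smul_apply, smul_eq_mul]; ring
  have e3 : b + L x + h • w + h • z = b + L x + h • (w + z) := by
    rw [add_assoc, ← smul_add]
  unfold GG Inc
  rw [e2, e1, e3]

theorem GG_lip (hK : 0 ≤ K) (hlip : ∀ p q, |ν p - ν q| ≤ K * ‖p - q‖) {Λ : ℝ}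
    (hΛ : ∀ x, ‖L x‖ ≤ Λ * ‖x‖) {h : ℝ} (hh : 0 < h) (w z w' z' : ι → ℝ) (u u' x : E) :
    |GG ν b L w z u x h - GG ν b L w' z' u' x h| ≤
      K * (2 * Λ * ‖u - u'‖ + 4 * ‖w - w'‖ + 2 * ‖z - z'‖) := by
  rw [GG_eq, GG_eq, ← sub_div, abs_div, abs_of_pos hh, div_le_iff₀ hh]
  have t1 := lip_step hK hlip hh (b + L x) (L u + w) (L u' + w')
  have t2 := lip_step hK hlip hh (b + L x) (L u + w + z) (L u' + w' + z')
  have t3 := lip_step hK hlip hh (b + L x) w w'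
  have t4 := lip_step hK hlip hh (b + L x) (w + z) (w' + z')
  have n1 : ‖L u + w - (L u' + w')‖ ≤ Λ * ‖u - u'‖ + ‖w - w'‖ := by
    rw [show L u + w - (L u' + w') = L (u - u') + (w - w') by rw [map_sub]; abel]
    exact (norm_add_le _ _).trans (add_le_add (hΛ _) le_rfl)
  have n2 : ‖L u + w + z - (L u' + w' + z')‖ ≤ Λ * ‖u - u'‖ + ‖w - w'‖ + ‖z - z'‖ := by
    rw [show L u + w + z - (L u' + w' + z') = (L u + w - (L u' + w')) + (z - z') by abel]
    exact (norm_add_le _ _).trans (add_le_add n1 le_rfl)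
  have n4 : ‖w + z - (w' + z')‖ ≤ ‖w - w'‖ + ‖z - z'‖ := by
    rw [show w + z - (w' + z') = (w - w') + (z - z') by abel]
    exact norm_add_le _ _
  have hKh : 0 ≤ K * h := by positivity
  have m1 := mul_le_mul_of_nonneg_left n1 hKh
  have m2 := mul_le_mul_of_nonneg_left n2 hKh
  have m4 := mul_le_mul_of_nonneg_left n4 hKh
  rw [abs_le] at t1 t2 t3 t4 ⊢
  constructor
  · nlinarith [t1.1, t2.2, t3.2, t4.1]
  · nlinarith [t1.2, t2.1, t3.1, t4.2]

theorem GG_scale (w z : ι → ℝ) (u x : E) {t h : ℝ} (ht : 0 < t) (hh : 0 < h) :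
    GG ν b L w z u x (t * h) = t⁻¹ * GG ν b L (t • w) (t • z) (t • u) x h := by
  rw [GG_eq, GG_eq]
  have e : ∀ v : ι → ℝ, (t * h) • v = h • (t • v) := fun v => by rw [smul_smul, mul_comm]
  have a1 : t • L u + t • w = t • (L u + w) := (smul_add _ _ _).symm
  have a2 : t • L u + t • w + t • z = t • (L u + w + z) := by rw [smul_add, smul_add]
  have a3 : t • w + t • z = t • (w + z) := (smul_add _ _ _).symm
  rw [e, e, e, e, map_smul, a2, a1, a3]
  field_simp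

theorem exists_Lam' (L : E →ₗ[ℝ] (ι → ℝ)) : ∃ Λ : ℝ, 0 ≤ Λ ∧ ∀ x, ‖L x‖ ≤ Λ * ‖x‖ := by
  refine ⟨‖LinearMap.toContinuousLinearMap L‖, norm_nonneg _, fun x => ?_⟩
  exact (LinearMap.toContinuousLinearMap L).le_opNorm x

theorem all_scales (hK : 0 ≤ K) (hlip : ∀ p q, |ν p - ν q| ≤ K * ‖p - q‖) {w z : ι → ℝ} {u x : E}
    (H : ∀ t : ℝ, 1 ≤ t → t ≤ 2 →
      Tendsto (fun k : ℕ => GG ν b L (t • w) (t • z) (t • u) x ((1 / 2) ^ k)) atTop (𝓝 0)) :
    Tendsto (fun h => GG ν b L w z u x h) (𝓝[>] 0) (𝓝 0) := by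
  obtain ⟨Λ, hΛ0, hΛ⟩ := exists_Lam' L
  set C : ℝ := K * (2 * Λ * ‖u‖ + 4 * ‖w‖ + 2 * ‖z‖) with hC
  have hC0 : 0 ≤ C := by rw [hC]; positivity
  rw [Metric.tendsto_nhds]
  intro ε hε
  obtain ⟨N, hN⟩ := exists_nat_gt (C / (ε / 2))
  have hN0 : (0 : ℝ) < N + 1 := by positivity
  have hCN : C / (N + 1) < ε / 2 := by
    rw [div_lt_iff₀ (by positivity)] at hN ⊢
    nlinarith
  have hall : ∀ᶠ k : ℕ in atTop, ∀ j ∈ Finset.range (N + 2),
      |GG ν b L ((1 + j / (N + 1) : ℝ) • w) ((1 + j / (N + 1) : ℝ) • z)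
        ((1 + j / (N + 1) : ℝ) • u) x ((1 / 2) ^ k)| < ε / 2 := by
    rw [Filter.eventually_all_finset]
    intro j hj
    have hj1 : (j : ℝ) ≤ N + 1 := by
      have := Finset.mem_range.1 hj
      exact_mod_cast Nat.lt_succ_iff.1 this
    have hj2 : (j : ℝ) / (N + 1) ≤ 1 := by rw [div_le_one hN0]; exact hj1
    have hj0 : (0 : ℝ) ≤ (j : ℝ) / (N + 1) := by positivity
    have := H (1 + j / (N + 1)) (by linarith) (by linarith)
    have h2 := (Metric.tendsto_nhds.1 this) (ε / 2) (half_pos hε)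
    filter_upwards [h2] with k hk
    rwa [Real.dist_eq, sub_zero] at hk
  obtain ⟨k₁, hk₁⟩ := eventually_atTop.1 hall
  have hsmall : ∀ᶠ h : ℝ in 𝓝[>] 0, h < (1 / 2 : ℝ) ^ (k₁ + 1) := by
    have : Ioo (0 : ℝ) ((1 / 2 : ℝ) ^ (k₁ + 1)) ∈ 𝓝[>] (0 : ℝ) := Ioo_mem_nhdsGT (by positivity)
    filter_upwards [this] with h hh using hh.2
  filter_upwards [hsmall, self_mem_nhdsWithin] with h hh1 hh0
  have hh0 : 0 < h := hh0
  have hle1 : h ≤ 1 := hh1.le.trans (pow_le_one₀ (by norm_num) (by norm_num))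
  obtain ⟨n, hn1, hn2⟩ := exists_nat_pow_near_of_lt_one hh0 hle1 (show (0 : ℝ) < 1 / 2 by norm_num)
    (by norm_num)
  have hnk : k₁ ≤ n := by
    by_contra hcon
    have : (1 / 2 : ℝ) ^ (k₁ + 1) ≤ (1 / 2) ^ (n + 1) :=
      pow_le_pow_of_le_one (by norm_num) (by norm_num) (by omega)
    linarith
  set t : ℝ := h / (1 / 2) ^ (n + 1) with ht
  have hp : (0 : ℝ) < (1 / 2) ^ (n + 1) := by positivity
  have ht1 : 1 ≤ t := by rw [ht, le_div_iff₀ hp]; linarith
  have ht2 : t ≤ 2 := by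
    rw [ht, div_le_iff₀ hp, pow_succ]; linarith
  have hth : h = t * (1 / 2) ^ (n + 1) := by rw [ht, div_mul_cancel₀ _ hp.ne']
  -- nearest net point
  set j : ℕ := ⌊(t - 1) * (N + 1)⌋₊ with hj
  have hj0 : 0 ≤ (t - 1) * (N + 1 : ℝ) := mul_nonneg (by linarith) hN0.le
  have hj1 : (j : ℝ) ≤ (t - 1) * (N + 1) := Nat.floor_le hj0
  have hj2 : (t - 1) * (N + 1) < (j : ℝ) + 1 := Nat.lt_floor_add_one _
  have hjN : j ∈ Finset.range (N + 2) := by
    rw [Finset.mem_range]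
    have : (j : ℝ) ≤ N + 1 := hj1.trans (by nlinarith)
    have : j ≤ N + 1 := by exact_mod_cast this
    omega
  have hk := hk₁ (n + 1) (by omega) j hjN
  set s : ℝ := 1 + j / (N + 1) with hs
  have hst : |t - s| ≤ 1 / (N + 1) := by
    rw [hs, abs_le]
    have a1 : (j : ℝ) / (N + 1) ≤ t - 1 := by rw [div_le_iff₀ hN0]; exact hj1
    have a2 : t - 1 ≤ (j : ℝ) / (N + 1) + 1 / (N + 1) := by
      rw [← add_div, le_div_iff₀ hN0]; exact hj2.le
    have a3 : (0 : ℝ) ≤ 1 / (N + 1) := by positivity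
    constructor <;> linarith
  have hd := GG_lip (ν := ν) (b := b) (L := L) hK hlip hΛ hp (t • w) (t • z) (s • w) (s • z)
    (t • u) (s • u) x
  rw [← sub_smul, ← sub_smul, ← sub_smul, norm_smul, norm_smul, norm_smul, Real.norm_eq_abs] at hd
  have hd2 : K * (2 * Λ * (|t - s| * ‖u‖) + 4 * (|t - s| * ‖w‖) + 2 * (|t - s| * ‖z‖)) =
      C * |t - s| := by rw [hC]; ring
  rw [hd2] at hd
  have hd3 : C * |t - s| < ε / 2 := by
    calc C * |t - s| ≤ C * (1 / (N + 1)) := mul_le_mul_of_nonneg_left hst hC0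
      _ = C / (N + 1) := by ring
      _ < ε / 2 := hCN
  rw [Real.dist_eq, sub_zero, hth, GG_scale w z u x (by linarith) hp, abs_mul,
    abs_of_pos (by positivity : 0 < t⁻¹)]
  have h3 : |GG ν b L (t • w) (t • z) (t • u) x ((1 / 2) ^ (n + 1))| < ε := by
    rw [abs_lt] at hk ⊢
    rw [abs_le] at hd
    constructor <;> linarith [hk.1, hk.2, hd.1, hd.2]
  have h4 : t⁻¹ ≤ 1 := inv_le_one_of_one_le₀ ht1
  calc t⁻¹ * |GG ν b L (t • w) (t • z) (t • u) x ((1 / 2) ^ (n + 1))|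
      ≤ 1 * |GG ν b L (t • w) (t • z) (t • u) x ((1 / 2) ^ (n + 1))| :=
        mul_le_mul_of_nonneg_right h4 (abs_nonneg _)
    _ < ε := by rw [one_mul]; exact h3

theorem MoveI.smul {w z : ι → ℝ} {y : E} (hm : MoveI L w z y) {t : ℝ} (ht : 0 ≤ t) :
    MoveI L (t • w) (t • z) (t • y) := by
  intro i
  rw [map_smul]
  simp only [Pi.smul_apply, smul_eq_mul]
  rcases hm i with ⟨a, b', c⟩ | ⟨a, b', c⟩
  · left; exact ⟨by rw [a, mul_zero], by rw [b'], mul_nonneg ht c⟩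
  · right; exact ⟨by rw [a, mul_zero], mul_nonpos_of_nonneg_of_nonpos ht b',
      mul_le_mul_of_nonneg_left c ht⟩

theorem MoveII.smul {w z : ι → ℝ} {y : E} (hm : MoveII L w z y) {t : ℝ} (ht : 0 ≤ t) :
    MoveII L (t • w) (t • z) (t • y) := by
  intro i
  rw [map_smul]
  simp only [Pi.smul_apply, smul_eq_mul]
  rcases hm i with ⟨a, b', c⟩ | ⟨a, b', c⟩
  · left; exact ⟨by rw [a, mul_zero], by rw [b'], mul_nonneg ht c⟩
  · right; exact ⟨by rw [a, mul_zero], mul_nonneg ht b', mul_le_mul_of_nonneg_left c ht⟩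

/-- the legal moves -/
def Mv (L : E →ₗ[ℝ] (ι → ℝ)) (LEG : Set (ι → ℝ)) : Set ((ι → ℝ) × (ι → ℝ) × E) :=
  {m | m.1 ∈ LEG ∧ m.1 + m.2.1 ∈ LEG ∧ (MoveI L m.1 m.2.1 m.2.2 ∨ MoveII L m.1 m.2.1 m.2.2)}

theorem Mv.smul (hC : Cone L LEG) {m : (ι → ℝ) × (ι → ℝ) × E} (hm : m ∈ Mv L LEG) {t : ℝ}
    (ht : 0 ≤ t) : (t • m.1, t • m.2.1, t • m.2.2) ∈ Mv L LEG := by
  refine ⟨hC.smul _ hm.1 _ ht, ?_, ?_⟩
  · rw [← smul_add]; exact hC.smul _ hm.2.1 _ ht
  · rcases hm.2.2 with h | h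
    · exact Or.inl (h.smul ht)
    · exact Or.inr (h.smul ht)

variable [MeasurableSpace E] [BorelSpace E] (μ : Measure E) [μ.IsAddHaarMeasure]

/-- domain of the natural family: locally uniformly legal -/
def Dom (b : ι → ℝ) (L : E →ₗ[ℝ] (ι → ℝ)) (LEG S : Set (ι → ℝ)) (Ω : Set E) : Prop :=
  ∀ x₀ ∈ Ω, ∃ ρ > 0, ∃ r > 0, ∀ x, ‖x - x₀‖ ≤ ρ → ∀ c ∈ LEG, (∀ i, |c i| ≤ r) → b + L x + c ∈ S

/-- stationary point of the natural family -/
def StatAt (ν : (ι → ℝ) → ℝ) (b : ι → ℝ) (L : E →ₗ[ℝ] (ι → ℝ)) (LEG : Set (ι → ℝ)) (x : E) : Prop :=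
  ∀ m ∈ Mv L LEG, ∀ u : E, Tendsto (fun h => GG ν b L m.1 m.2.1 u x h) (𝓝[>] 0) (𝓝 0)

/-- **the stationarity theorem** -/
theorem ae_statAt (hK : 0 ≤ K) (hlip : ∀ p q, |ν p - ν q| ≤ K * ‖p - q‖) (hsup : Sup4 ν S)
    (hC : Cone L LEG) {Ω : Set E} (hΩ : Dom b L LEG S Ω) :
    ∀ᵐ x ∂μ, x ∈ Ω → StatAt ν b L LEG x := by
  obtain ⟨Λ, hΛ0, hΛ⟩ := exists_Lam' L
  rw [ae_iff]
  refine measure_null_of_locally_null _ fun x₀ hx₀ => ?_
  simp only [mem_ofPred_eq, Classical.not_imp] at hx₀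
  obtain ⟨ρ, hρ, r, hr, hS⟩ := hΩ x₀ hx₀.1
  obtain ⟨D, hDc, hDd⟩ := TopologicalSpace.exists_countable_dense (Mv L LEG)
  have hD : Countable D := hDc.to_subtype
  have hae : ∀ᵐ x ∂μ, ∀ m : D, ‖x - x₀‖ < ρ / 2 → ∀ u : E, Tendsto (fun k : ℕ =>
      GG ν b L (m : Mv L LEG).1.1 (m : Mv L LEG).1.2.1 u x ((1 / 2) ^ k)) atTop (𝓝 0) := by
    rw [ae_all_iff]
    intro m
    exact move_local μ hK hlip hsup hC m.1.2.1 m.1.2.2.1 m.1.2.2.2 hρ hr hS
  have hae2 : ∀ᵐ x ∂μ, ‖x - x₀‖ < ρ / 2 → StatAt ν b L LEG x := by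
    filter_upwards [hae] with x hx hxr m hm u
    refine all_scales hK hlip fun t ht1 _ => ?_
    rw [Metric.tendsto_atTop]
    intro ε hε
    set m' : Mv L LEG := ⟨_, Mv.smul hC hm (t := t) (by linarith)⟩ with hm'
    obtain ⟨d, hd, hdd⟩ := hDd.exists_dist_lt m' (show 0 < ε / (2 * (6 * K + 1)) by positivity)
    obtain ⟨N, hN⟩ := Metric.tendsto_atTop.1 (hx ⟨d, hd⟩ hxr (t • u)) (ε / 2) (half_pos hε)
    refine ⟨N, fun k hk => ?_⟩
    have h1 := hN k hk
    rw [Real.dist_eq, sub_zero] at h1 ⊢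
    have h2 := GG_lip (ν := ν) (b := b) (L := L) hK hlip hΛ (show (0 : ℝ) < (1 / 2) ^ k by positivity)
      (t • m.1) (t • m.2.1) d.1.1 d.1.2.1 (t • u) (t • u) x
    rw [sub_self, norm_zero, mul_zero, zero_add] at h2
    have h3 : ‖t • m.1 - d.1.1‖ < ε / (2 * (6 * K + 1)) := by
      rw [← dist_eq_norm]
      refine lt_of_le_of_lt ?_ hdd
      rw [Subtype.dist_eq, Prod.dist_eq]
      exact le_max_left _ _
    have h4 : ‖t • m.2.1 - d.1.2.1‖ < ε / (2 * (6 * K + 1)) := by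
      rw [← dist_eq_norm]
      refine lt_of_le_of_lt ?_ hdd
      rw [Subtype.dist_eq, Prod.dist_eq, Prod.dist_eq]
      exact (le_max_left _ _).trans (le_max_right _ _)
    have h5 : K * (4 * ‖t • m.1 - d.1.1‖ + 2 * ‖t • m.2.1 - d.1.2.1‖) ≤ ε / 2 := by
      rw [lt_div_iff₀ (by positivity)] at h3 h4
      nlinarith [norm_nonneg (t • m.1 - d.1.1), norm_nonneg (t • m.2.1 - d.1.2.1)]
    rw [abs_lt] at h1 ⊢
    rw [abs_le] at h2
    constructor <;> linarith [h1.1, h1.2, h2.1, h2.2]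
  refine ⟨{x | ¬(x ∈ Ω → StatAt ν b L LEG x)} ∩ Metric.ball x₀ (ρ / 2),
    inter_mem_nhdsWithin _ (Metric.ball_mem_nhds _ (by positivity)), ?_⟩
  refine measure_mono_null ?_ (ae_iff.1 hae2)
  rintro x ⟨hx1, hx2⟩
  simp only [mem_ofPred_eq, Classical.not_imp] at hx1 ⊢
  exact ⟨by rwa [mem_ball_iff_norm] at hx2, hx1.2⟩

end Crest.Agent.R136.Dec146
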