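import Crest.Agent.R136.Aw2_413
import Crest.Agent.R136.Rc8_146

/-!
# R136: the window wrapper of the a.e. lines (helper413), part 3: almost every point of a plane

* `bas_plane`, `ownB_plane` : position of a point of the plane; `locV` : visible slots which touch
  the own path at the point (the others are strictly own-wide: invisible in the window).
* `wndL_at` : windows with known base points at every point of the plane.
* `ae_aew` : **at a.e. interior point of a plane `x0 + v a + t b`, `0 ≤ a`, EVERY tangent of `ν` is an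
  `AeW`** (with 146's `OutA`), and it has a homogeneous zoom with the same rates which is an `AeW`.
* `ae_conc` : a conclusion about the slopes which holds for every `AeW` holds a.e.
-/

set_option autoImplicit false
set_option linter.unusedSectionVars false
set_option linter.unusedVariables false

open Filter Topology

namespace Crest.Agent.R136.Aw413

open Finset Crest.Agent.R138.Ex926 Crest.Agent.R136.Net191 Crest.Agent.R136.Gf356
open Crest.Agent.R136.Qg926 Crest.Agent.R136.Dg219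
open Crest.Agent.R136.Rc146 (OutA leg_outA)
open Crest.Agent.R136.Dg262 (X X_cont)

variable {m : ℕ} {ι : ℕ → Type} [∀ n, DecidableEq (ι n)] [∀ n, Nonempty (ι n)]

theorem sum_X (e : Fin m → ℕ) (x0 a b : Fin m → ℝ) (z : ℝ × ℝ) :
    ∑ s, (e s : ℝ) * X x0 a b z s =
      ∑ s, (e s : ℝ) * x0 s + (∑ s, (e s : ℝ) * a s) * z.1 + (∑ s, (e s : ℝ) * b s) * z.2 := by
  rw [sum_mul, sum_mul, ← sum_add_distrib, ← sum_add_distrib]
  refine sum_congr rfl fun s _ => ?_
  simp only [X]; ring

/-- the active monomials are equalities on the whole plane -/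
theorem act_X {M : Mons m} {x0 a b : Fin m → ℝ} {k : Fin m} {e : Fin m → ℕ}
    (he : e ∈ (actM M x0 a b).mon k) (z : ℝ × ℝ) :
    X x0 a b z k = ∑ s, (e s : ℝ) * X x0 a b z s := by
  obtain ⟨-, h1, h2, h3⟩ := mem_actM.1 he
  rw [sum_X, ← h1, ← h2, ← h3]
  simp only [X]

section

variable {M : Mons m} {R : ℝ} {x0 a b : Fin m → ℝ} {z : ℝ × ℝ} {h : ℕ → ℝ}

theorem ev_small (h0 : Tendsto h atTop (𝓝 0)) (c : ℝ) {δ : ℝ} (hδ : 0 < δ) :
    ∀ᶠ l in atTop, c * h l ≤ δ := by
  have : Tendsto (fun l => c * h l) atTop (𝓝 0) := by simpa using h0.const_mul c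
  exact (this.eventually_lt_const hδ).mono fun l hl => hl.le

/-- a point of the plane as a base point -/
theorem bas_plane (hz : z ∈ (mw M).O (fun _ => 0) (fun _ => R) x0 a b) (hpos : ∀ l, 0 < h l)
    (h0 : Tendsto h atTop (𝓝 0)) : Bas M (actM M x0 a b) (fun _ => X x0 a b z) h where
  pos := hpos
  zero := h0
  sub := fun k e he => (mem_actM.1 he).1
  act := fun k e he l => act_X he z
  gap := fun k e he hne R' => by
    obtain ⟨-, h2⟩ := mem_mwO.1 hz
    rcases h2 k e he with h3 | h3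
    · exact absurd (mem_actM.2 ⟨he, h3⟩) hne
    · filter_upwards [ev_small h0 R' (sub_pos.2 h3)] with l hl
      linarith
  room := fun s R' => by
    obtain ⟨h1, -⟩ := mem_mwO.1 hz
    exact ev_small h0 R' (h1 s).1

/-- visible slots which touch the own path at the point `x` -/
def locV (kz : Fin m) (w0 : ℝ) (o : ℝ → Fin m → ℝ) (V0 : Fin m → Prop) (x : Fin m → ℝ)
    (k : Fin m) : Prop := V0 k ∧ x k = o (x kz - w0) k

/-- own position of a point of the plane -/
theorem ownB_plane {kz : Fin m} {w0 : ℝ} {o : ℝ → Fin m → ℝ} {T V0 Tw : Fin m → Prop}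
    (h0 : Tendsto h atTop (𝓝 0))
    (hsub : ∀ k, Tw k → T k ∧ V0 k) (hv0 : 0 < X x0 a b z kz - w0) (hv1 : X x0 a b z kz - w0 < 1)
    (hle : ∀ k, X x0 a b z k ≤ o (X x0 a b z kz - w0) k)
    (heq : ∀ k, Tw k → X x0 a b z k = o (X x0 a b z kz - w0) k) :
    OwnB kz w0 o T V0 (locV kz w0 o V0 (X x0 a b z)) Tw (fun _ => X x0 a b z) h where
  lim := ⟨_, _, hv0, hv1, Eventually.of_forall fun _ => ⟨le_rfl, le_rfl⟩⟩
  le := Eventually.of_forall fun _ => hle
  slack := fun k hk hk2 R' => by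
    have h1 : X x0 a b z k < o (X x0 a b z kz - w0) k :=
      lt_of_le_of_ne (hle k) fun h => hk2 ⟨hk, h⟩
    filter_upwards [ev_small h0 R' (sub_pos.2 h1)] with l hl
    linarith
  sub := hsub
  eq := Eventually.of_forall fun _ => heq

end

/-- the plane is own-wide and natural in the tied slots; `V0` = visible slots of the own path -/
structure PlaneO (M : Mons m) (R : ℝ) (kz : Fin m) (w0 : ℝ) (o : ℝ → Fin m → ℝ)
    (T V0 Tw : Fin m → Prop) (x0 a b : Fin m → ℝ) : Prop where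
  a0 : ∀ i, 0 ≤ a i
  sub : ∀ k, Tw k → T k ∧ V0 k
  nz : ¬ Tw kz
  le : ∀ z, z ∈ (mw M).O (fun _ => 0) (fun _ => R) x0 a b → 0 < X x0 a b z kz - w0 →
    X x0 a b z kz - w0 < 1 → ∀ k, X x0 a b z k ≤ o (X x0 a b z kz - w0) k
  eq : ∀ z, z ∈ (mw M).O (fun _ => 0) (fun _ => R) x0 a b → 0 < X x0 a b z kz - w0 →
    X x0 a b z kz - w0 < 1 → ∀ k, Tw k → X x0 a b z k = o (X x0 a b z kz - w0) k

section ae

variable {B : Base} {I J : ∀ n, Finset (ι n)} {co : ∀ n, ι n → ι n → Fin m → ℝ} {M : Mons m}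
  {C R : ℝ} {ν own : (Fin m → ℝ) → ℝ} {x0 a b : Fin m → ℝ} {kz : Fin m} {w0 s : ℝ}
  {o : ℝ → Fin m → ℝ} {T V0 Tw : Fin m → Prop} {κ : Fin m → ℝ}




/-- the scales `1 / (l + 1)` -/
theorem exists_seq : ∃ h : ℕ → ℝ, (∀ l, 0 < h l) ∧ Tendsto h atTop (𝓝 0) :=
  ⟨fun l => 1 / ((l : ℝ) + 1), fun l => by positivity, tendsto_one_div_add_atTop_nhds_zero_nat⟩


/-- derivative along the first coordinate from the full derivative -/
theorem hasDeriv_fst {f : ℝ × ℝ → ℝ} {D : ℝ × ℝ →L[ℝ] ℝ} {z : ℝ × ℝ} (h : HasFDerivAt f D z) :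
    HasDerivAt (fun v => f (v, z.2)) (D (1, 0)) z.1 := by
  have h1 : HasDerivAt (fun v : ℝ => ((v, z.2) : ℝ × ℝ)) (1, 0) z.1 :=
    (hasDerivAt_id z.1).prodMk (hasDerivAt_const z.1 z.2)
  exact h.comp_hasDerivAt z.1 h1

end ae

end Crest.Agent.R136.Aw413
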