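import Crest.Agent.R136.LadW2_697
import Crest.Agent.R136.Aw0_413

-- ▼ part R136/LadW3_697
section

/-!
# R136, thin branch (helper697): facts at the points left of the record line

* `StW.ind_pt` : a tangent at a point of the surface does not depend on the dropped slots
* `StW.sweep`  : the slot `c` costs at least `q₁ + 2 q₂` per unit at every point of the surface left
  of the record line (supermodularity against the record box with the same `t`, D-max)
-/

set_option autoImplicit false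
set_option linter.unusedVariables false

open Finset Filter Topology

namespace Crest.Agent.R136.LadW697

open Crest.Agent.R136.Net191
open Crest.Agent.R136.NetW191
open Crest.Agent.R136.PrW464
open Crest.Agent.R136.NatW697
open Crest.Agent.R136.K2S774
open Crest.Agent.R136.K2A146
open Crest.Agent.R136.Dg219 (Walls mw)
open Crest.Agent.R136.Dg262 (X)
open Crest.Agent.R138

variable {P : Set (Fin 18 → ℝ)} {ν own : (Fin 18 → ℝ) → ℝ} {K : ℝ} {r0 : Fin 18 → ℝ}
  {θ : Fin 3 → ℝ} {g : ℝ} {q : Fin 3 → ℝ} {V : Set (Fin 18)} {s : ℝ} {lam lo : (Fin 18 → ℝ) → ℝ}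

/-- unit vector of the slot `c` -/
def e1W : Fin 18 → ℝ := Pi.single 1 1
/-- the sweep `c, A, B` by `1, 1, 2` -/
def swW : Fin 18 → ℝ := ![0, 1, 1, 2, 0, 0, 0, 0, 0, 0, 0, 0, 0, 0, 0, 0, 0, 0]

theorem e1W_nonneg (i : Fin 18) : 0 ≤ e1W i := by
  unfold e1W; by_cases h : i = 1
  · subst h; simp
  · rw [Pi.single_eq_of_ne h]

theorem swW_nonneg (i : Fin 18) : 0 ≤ swW i := by
  fin_cases i <;> simp [swW]

/-- raising slots without walls -/
theorem mem_cn_of_head {A : WW → Prop} {n c : Fin 18 → ℝ} (hn : c ∈ cn QW A) (hc : c ≤ n)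
    (hh : ∀ w, A w → n (QW.hd w) = c (QW.hd w)) : n ∈ cn QW A := fun w hw => by
  rw [hh w hw]
  exact (hn w hw).trans (rhs_mono w hc)

theorem no_wall_c (w : WW) : QW.hd w ≠ 0 ∧ QW.hd w ≠ 1 := by
  obtain ⟨l, hl, -, -⟩ := wall_list w
  have h0 : mlW 0 = [] := by decide
  have h1 : mlW 1 = [] := by decide
  constructor
  · intro h
    have h' : w.1 = 0 := h
    rw [h', h0] at hl; exact absurd hl (by simp)
  · intro h
    have h' : w.1 = 1 := h
    rw [h', h1] at hl; exact absurd hl (by simp)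

theorem add_e1_mem {A : WW → Prop} {c : Fin 18 → ℝ} (hc : c ∈ cn QW A) {t : ℝ} (ht : 0 ≤ t) :
    c + t • e1W ∈ cn QW A := by
  refine mem_cn_of_head hc (fun i => ?_) fun w _ => ?_
  · simp only [Pi.add_apply, Pi.smul_apply, smul_eq_mul]
    nlinarith [e1W_nonneg i]
  · have := (no_wall_c w).2
    simp only [Pi.add_apply, Pi.smul_apply, smul_eq_mul, e1W, Pi.single_eq_of_ne this]
    ring

theorem swW_mem (A : WW → Prop) : swW ∈ cn QW A := by
  intro w _
  obtain ⟨l, hl, -, h3⟩ := wall_list w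
  rw [h3]
  have key : ∀ k : Fin 18, ∀ l ∈ mlW k,
      (![0, 1, 1, 2, 0, 0, 0, 0, 0, 0, 0, 0, 0, 0, 0, 0, 0, 0] : Fin 18 → ℤ) k ≤
      (l.map (![0, 1, 1, 2, 0, 0, 0, 0, 0, 0, 0, 0, 0, 0, 0, 0, 0, 0] : Fin 18 → ℤ)).sum := by
    decide
  have e : swW = fun k => (((![0, 1, 1, 2, 0, 0, 0, 0, 0, 0, 0, 0, 0, 0, 0, 0, 0, 0] : Fin 18 → ℤ) k : ℤ) : ℝ) := by
    funext k; fin_cases k <;> simp [swW]
  have h4 := key _ l hl
  rw [e, list_sum_real]
  have h5 : ((((![0, 1, 1, 2, 0, 0, 0, 0, 0, 0, 0, 0, 0, 0, 0, 0, 0, 0] : Fin 18 → ℤ) w.1 : ℤ)) : ℝ) ≤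
      (((l.map (![0, 1, 1, 2, 0, 0, 0, 0, 0, 0, 0, 0, 0, 0, 0, 0, 0, 0] : Fin 18 → ℤ)).sum : ℤ) : ℝ) :=
    Int.cast_le.2 h4
  exact h5

theorem sum_swW : ∑ i, swW i = 4 := by
  simp [Fin.sum_univ_succ, swW]; norm_num

theorem DlW_grW010 (g : ℝ) (q : Fin 3 → ℝ) : DlW g q (grW 0 1 0) = -(3 + q 1 + 2 * q 2) := by
  simp only [DlW_apply, grW, wz, wc, wn]
  simp
  ring

/-- **the sweep at a record box** -/
theorem StW.sweep_rec (H : StW P ν own K r0 θ g q V s lam lo) {b : Fin 18 → ℝ}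
    (hb : ∀ k, k ∉ DrW s → b k = btW θ k) (hbn : Nat QW (actW (DrW s)) b) (ξ : ℝ) {t : ℝ}
    (ht : 0 ≤ t) : lam (ξ • b + t • e1W) ≤ lam (ξ • b) - (q 1 + 2 * q 2) * t := by
  have hξ : ξ • b ∈ cn QW (actW (DrW s)) := (hbn.smul ξ).mem
  have h1 : lam (ξ • b) = ξ * DlW g q (btW θ) :=
    H.lam_b (nat_btW _ θ) hξ fun i hi => by rw [Pi.smul_apply, smul_eq_mul, hb i hi]
  have m1 : ξ • b + t • e1W ∈ cn QW (actW (DrW s)) := add_e1_mem hξ ht
  have m2 : ξ • b + t • swW ∈ cn QW (actW (DrW s)) := cn_nat_add (hbn.smul ξ) (swW_mem _) ht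
  have h2 : lam (ξ • b + t • swW) ≤ DlW g q (ξ • btW θ + t • grW 0 1 0) := by
    refine H.dmx _ m2 _ (sweep_mem θ ξ t) fun i hi => ?_
    have key : ∀ i : Fin 18, wc i ≤ (![0, 1, 1, 2, 0, 0, 0, 0, 0, 0, 0, 0, 0, 0, 0, 0, 0, 0] : Fin 18 → ℤ) i := by
      decide
    have k2 : grW 0 1 0 i ≤ swW i := by
      have := key i
      have h5 : ((wc i : ℤ) : ℝ) ≤ (((![0, 1, 1, 2, 0, 0, 0, 0, 0, 0, 0, 0, 0, 0, 0, 0, 0, 0] : Fin 18 → ℤ) i : ℤ) : ℝ) := by
        exact_mod_cast this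
      have h6 : (((![0, 1, 1, 2, 0, 0, 0, 0, 0, 0, 0, 0, 0, 0, 0, 0, 0, 0] : Fin 18 → ℤ) i : ℤ) : ℝ) = swW i := by
        fin_cases i <;> simp [swW]
      simp only [grW]
      rw [← h6]
      linarith
    simp only [Pi.add_apply, Pi.smul_apply, smul_eq_mul, hb i hi]
    have := mul_le_mul_of_nonneg_left k2 ht
    linarith
  rw [map_add, map_smul, map_smul, smul_eq_mul, smul_eq_mul, DlW_grW010] at h2
  have h3 := H.prf.sharp _ m1 _ m2 (fun i => by
    simp only [Pi.add_apply, Pi.smul_apply, smul_eq_mul]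
    have : e1W i ≤ swW i := by
      by_cases h : i = 1
      · subst h; simp [e1W, swW]
      · unfold e1W; rw [Pi.single_eq_of_ne h]; exact swW_nonneg i
    nlinarith)
  have h4 : ∑ i, ((ξ • b + t • swW) i - (ξ • b + t • e1W) i) = 3 * t := by
    have : ∀ i, (ξ • b + t • swW) i - (ξ • b + t • e1W) i = t * swW i - t * e1W i := fun i => by
      simp only [Pi.add_apply, Pi.smul_apply, smul_eq_mul]; ring
    rw [Finset.sum_congr rfl fun i _ => this i, Finset.sum_sub_distrib, ← Finset.mul_sum,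
      ← Finset.mul_sum, sum_swW]
    have : ∑ i, e1W i = 1 := by simp [e1W]
    rw [this]; ring
  rw [h4] at h3
  linarith

/-- a box between a point and the record box with the same `t` -/
theorem StW.sweep_box (H : StW P ν own K r0 θ g q V s lam lo) {b : Fin 18 → ℝ}
    (hb : ∀ k, k ∉ DrW s → b k = btW θ k) (hbn : Nat QW (actW (DrW s)) b) {ξ t : ℝ} (ht : 0 ≤ t)
    {p : Fin 18 → ℝ} (hp : p ∈ cn QW (actW (DrW s))) (hle : p ≤ ξ • b) (h1 : p 1 = ξ * b 1) :
    lam (p + t • e1W) ≤ lam p - (q 1 + 2 * q 2) * t := by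
  have hξ : ξ • b ∈ cn QW (actW (DrW s)) := (hbn.smul ξ).mem
  have m1 : p + t • e1W ∈ cn QW (actW (DrW s)) := add_e1_mem hp ht
  have m2 : ξ • b + t • e1W ∈ cn QW (actW (DrW s)) := add_e1_mem hξ ht
  have e1 : (p + t • e1W) ⊔ (ξ • b) = ξ • b + t • e1W := by
    funext i
    simp only [Pi.sup_apply, Pi.add_apply, Pi.smul_apply, smul_eq_mul]
    by_cases h : i = 1
    · subst h
      rw [h1]
      have : e1W 1 = 1 := by simp [e1W]
      rw [this, max_eq_left (by nlinarith)]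
    · have h2 : e1W i = 0 := by unfold e1W; rw [Pi.single_eq_of_ne h]
      rw [h2, mul_zero, add_zero, add_zero]
      exact max_eq_right (by simpa using hle i)
  have e2 : (p + t • e1W) ⊓ (ξ • b) = p := by
    funext i
    simp only [Pi.inf_apply, Pi.add_apply, Pi.smul_apply, smul_eq_mul]
    by_cases h : i = 1
    · subst h
      rw [h1]
      have : e1W 1 = 1 := by simp [e1W]
      rw [this, min_eq_right (by nlinarith)]
    · have h2 : e1W i = 0 := by unfold e1W; rw [Pi.single_eq_of_ne h]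
      rw [h2, mul_zero, add_zero]
      exact min_eq_left (by simpa using hle i)
  have h3 := H.prf.sup _ m1 _ hξ (by rw [e2]; exact hp) (by rw [e1]; exact m2)
  rw [e1, e2] at h3
  have h4 := H.sweep_rec hb hbn ξ ht
  linarith

/-- **the slot `c` at a point left of the record line** (slots of slope `0` not narrowed) -/
theorem StW.sweep (H : StW P ν own K r0 θ g q V s lam lo) {b : Fin 18 → ℝ}
    (hb : ∀ k, k ∉ DrW s → b k = btW θ k) (hbn : Nat QW (actW (DrW s)) b)
    (hT0 : ∀ i, 0 ≤ TW s i) {z : ℝ × ℝ} (hz : z.1 < 0)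
    {k : ℕ → ℝ} {lam' : (Fin 18 → ℝ) → ℝ} (kpos : ∀ l, 0 < k l) (k0 : Tendsto k atTop (𝓝 0))
    (H1 : Ex926.IsTan (cn QW (actW (DrW s))) (cn QW (actW (DrW s))) lam
      (fun _ => X 0 (TW s) b z) k lam')
    {c : Fin 18 → ℝ} (hc : c ∈ cn QW (actW (DrW s))) (hc1 : c 1 = 0)
    (hcT : ∀ i, i ≠ 1 → TW s i = 0 → c i ≤ 0) {t : ℝ} (ht : 0 ≤ t) :
    lam' (c + t • e1W) ≤ lam' c - (q 1 + 2 * q 2) * t := by
  have hB := Dg219.bup_of_tan kpos k0 H1
  have m1 : c + t • e1W ∈ cn QW (actW (DrW s)) := add_e1_mem hc ht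
  have L1 := hB.lim _ m1
  have L2 := hB.lim _ hc
  have L3 := L1.sub L2
  have key : ∀ᶠ l in atTop, (lam (X 0 (TW s) b z + k l • (c + t • e1W)) -
      lam (X 0 (TW s) b z)) / k l - (lam (X 0 (TW s) b z + k l • c) - lam (X 0 (TW s) b z)) / k l ≤
      -((q 1 + 2 * q 2) * t) := by
    have hev : ∀ᶠ l in atTop, X 0 (TW s) b z + k l • c ≤ z.2 • b := by
      have h1 : ∀ i, ∀ᶠ l in atTop, (X 0 (TW s) b z + k l • c) i ≤ (z.2 • b) i := by
        intro i
        rcases (hT0 i).lt_or_eq with h2 | h2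
        · have h3 : Tendsto (fun l => k l * c i) atTop (𝓝 0) := by
            simpa using k0.mul_const (c i)
          have h4 : 0 < -(z.1 * TW s i) := by nlinarith
          filter_upwards [h3.eventually (eventually_lt_nhds h4)] with l hl
          simp only [X, Pi.add_apply, Pi.smul_apply, smul_eq_mul, Pi.zero_apply]
          linarith
        · have h5 : c i ≤ 0 := by
            by_cases h6 : i = 1
            · rw [h6, hc1]
            · exact hcT i h6 h2.symm
          refine Eventually.of_forall fun l => ?_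
          simp only [X, Pi.add_apply, Pi.smul_apply, smul_eq_mul, Pi.zero_apply, ← h2, mul_zero,
            zero_add]
          nlinarith [kpos l]
      exact eventually_all.2 h1
    filter_upwards [hev, hB.mem c hc] with l hl hm
    have hTc : TW s 1 = 0 := TW_c s
    have h6 := H.sweep_box hb hbn (t := k l * t) (mul_nonneg (kpos l).le ht) hm hl (by
      simp only [X, Pi.add_apply, Pi.smul_apply, smul_eq_mul, Pi.zero_apply, hTc, hc1]; ring)
    have e : X 0 (TW s) b z + k l • (c + t • e1W) =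
        X 0 (TW s) b z + k l • c + (k l * t) • e1W := by
      rw [smul_add, smul_smul, add_assoc]
    rw [e, ← sub_div, div_le_iff₀ (kpos l)]
    linarith
  have h7 := le_of_tendsto L3 key
  linarith

/-- **tangents on the surface do not depend on the dropped slots** -/
theorem StW.ind_pt (H : StW P ν own K r0 θ g q V s lam lo) (h1 : 0 < θ 1) {y : Fin 18 → ℝ}
    {k : ℕ → ℝ} {lam' : (Fin 18 → ℝ) → ℝ} (kpos : ∀ l, 0 < k l) (k0 : Tendsto k atTop (𝓝 0))
    (H1 : Ex926.IsTan (cn QW (actW (DrW s))) (cn QW (actW (DrW s))) lam (fun _ => y) k lam')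
    {c c' : Fin 18 → ℝ} (hc : c ∈ cn QW (actW (DrW s))) (hc' : c' ∈ cn QW (actW (DrW s)))
    (hcc : ∀ i, i ∉ DrW s → c i = c' i) : lam' c = lam' c' := by
  have hB := Dg219.bup_of_tan kpos k0 H1
  refine tendsto_nhds_unique (hB.lim c hc) ((hB.lim c' hc').congr' ?_)
  filter_upwards [hB.mem c hc, hB.mem c' hc'] with l a1 a2
  have : lam (y + k l • c) = lam (y + k l • c') := by
    refine H.ind _ a1 _ a2 (fun i hi => ?_) ?_
    · simp only [Pi.add_apply, Pi.smul_apply, smul_eq_mul, hcc i hi]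
    · refine ⟨-((y + k l • c) 1) / θ 1, fun i hi => ?_⟩
      rw [Set.mem_singleton_iff.1 hi]
      have h2 : btW θ 1 = -θ 1 := by simp [btW, grW, wz, wc, wn]
      rw [h2]
      have : -(y + k l • c) 1 / θ 1 * -θ 1 = (y + k l • c) 1 := by field_simp
      rw [this]
  rw [this]

end Crest.Agent.R136.LadW697
end

-- ▼ part R136/LadW4_697

/-!
# R136, thin branch (helper697): end of an F-lemma

* `ray_eq`  : `lam (u • T) = u * A.1`
* `full_of_ray` : `lam (u • T) ≤ -(3 + s) u + C` for all large `u` ⊢ `3 + s ≤ -A.1`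
-/

set_option autoImplicit false
set_option linter.unusedVariables false

open Finset Filter Topology

namespace Crest.Agent.R136.LadW697

open Crest.Agent.R136.Dg219

section ray

variable {m : ℕ} {T b : Fin m → ℝ} {L : Set (Fin m → ℝ)} {lam : (Fin m → ℝ) → ℝ} {A : ℝ × ℝ}
  {φ : ℕ → (Fin m → ℝ) → ℝ} {r : ℕ → ℝ}

theorem ray_eq (H : OutS (gC T b) L (dhC T b) (nC T b) lam A φ r) {u : ℝ} (hu : u • T ∈ L) :
    lam (u • T) = u * A.1 := by
  rw [H.sum _ hu]
  have h1 := H.total (u, 0)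
  have h2 : ∀ k ∈ gset (gC T b), φ k (u • T) = -(r k * lf (nC T b k) (u, 0)) := by
    intro k hk
    by_cases h0 : k = 0
    · subst h0
      rw [nC_zero, H.zero 0 (u • T) fun i hi => by
        rw [Pi.smul_apply, gC_zero.1 hi, smul_zero]]
      simp [lf]
    · obtain ⟨i, hi⟩ : ∃ i, gC T b i = k := by
        simpa [gset] using hk
      have hT : T i ≠ 0 := fun h => h0 (by rw [← hi, gC_zero.2 h])
      rw [H.rate k (u • T) hu u fun j hj => by
        have hTj : T j ≠ 0 := fun h => h0 (by rw [← hj, gC_zero.2 h])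
        simp [dhC, hTj]]
      rw [← hi, nC_of hT]
      simp [lf]
  rw [Finset.sum_congr rfl h2, Finset.sum_neg_distrib, ← h1]
  simp only [lf]
  ring

theorem full_of_ray (H : OutS (gC T b) L (dhC T b) (nC T b) lam A φ r) {F C : ℝ}
    (h : ∃ᶠ u in atTop, u • T ∈ L ∧ lam (u • T) ≤ -(F * u) + C) : F ≤ -A.1 := by
  by_contra hcon
  push Not at hcon
  -- `-A.1 < F`
  have h1 : 0 < F + A.1 := by linarith
  obtain ⟨u, ⟨hu, hle⟩, hu2⟩ := (h.and_eventually (eventually_gt_atTop (max 0 (C / (F + A.1))))).exists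
  rw [ray_eq H hu] at hle
  have h0 : 0 < u := lt_of_le_of_lt (le_max_left _ _) hu2
  have h3 : C / (F + A.1) < u := lt_of_le_of_lt (le_max_right _ _) hu2
  rw [div_lt_iff₀ h1] at h3
  nlinarith

end ray

end Crest.Agent.R136.LadW697
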