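import Crest.Agent.R136.KDef6_879

/-!
# R136: the extremal exponent `β q` (helper879)

`IsBeta V β` : `β` is the limit of `sup (V δ)` as `δ → 0`, for a family of sets of values which
decreases with `δ`.  Existence, uniqueness, comparison, near-extremal sequences.
`VV q δ` : values of the admissible configurations of class C* with error `δ`.
-/

set_option autoImplicit false

open Filter Topology

namespace Crest.Agent.R136.Bet879

/-- `β` is the limit of the suprema of the decreasing family `V δ`, `δ → 0` -/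
structure IsBeta (V : ℝ → Set ℝ) (β : ℝ) : Prop where
  le : ∀ ε, 0 < ε → ∃ δ, 0 < δ ∧ ∀ v ∈ V δ, v ≤ β + ε
  ge : ∀ ε, 0 < ε → ∀ δ, 0 < δ → ∃ v ∈ V δ, β - ε ≤ v



/-- an upper bound for all values of small error bounds `β` -/
theorem IsBeta.le_of {V : ℝ → Set ℝ} {β c : ℝ} (h : IsBeta V β)
    (hc : ∀ ε, 0 < ε → ∃ δ, 0 < δ ∧ ∀ v ∈ V δ, v ≤ c + ε) : β ≤ c := by
  refine le_of_forall_pos_le_add fun ε hε => ?_
  obtain ⟨δ, hδ, h2⟩ := hc (ε / 2) (by linarith)
  obtain ⟨v, hv, h3⟩ := h.ge (ε / 2) (by linarith) δ hδ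
  have := h2 v hv
  linarith




/-! ### the instance -/

open K4






end Crest.Agent.R136.Bet879
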