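import Crest.Agent.R136.Ev9_356

-- ▼ part R136/Ev10_356
section

/-!
# R136: evolution with partially resolved slots (helper356)

`Rs` = resolved slots.  The evolution and the composition hold for the slots of `Rs` if every wall of
a resolved slot has resolved factors or a negligible coefficient.
-/

set_option autoImplicit false
set_option linter.unusedSectionVars false
set_option linter.unusedVariables false

open Filter Topology

namespace Crest.Agent.R136.Ev356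

open Finset Crest.Agent.R136.NetQ186 Crest.Agent.R136.Net191 Crest.Agent.R136.Qg926
open Crest.Agent.R136.Gf356 Crest.Agent.R136.Ab356
open Crest.Agent.R138.Ex926 (Base U)

/-- **the exact composition law**, coefficients `q` -/
structure LawC (q : Fin 11 → Fin 11 → Fin 11 → ℝ) (g b c : Fin 11 → ℝ) : Prop where
  e0 : g 0 = b 0 + c 0
  e1 : g 1 = b 1 + c 1
  e2 : g 2 = b 2 + c 2
  e3 : g 3 = b 3 + c 3
  e4 : g 4 = b 4 + c 4 - q 2 3 4 * (b 2 * c 3)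
  e5 : g 5 = b 5 + c 5
  e6 : g 6 = b 6 + c 6 + q 2 5 6 * (b 2 * c 5)
  e7 : g 7 = b 7 + c 7 - 2 * (q 0 1 7 * (b 0 * c 1)) + q 4 5 7 * (b 4 * c 5) +
    q 4 5 7 * (q 2 3 4 * (b 2 * (b 3 * c 5))) + q 3 6 7 * (b 3 * c 6)
  e8 : g 8 = b 8 + c 8 - q 0 5 8 * (b 0 * c 5)
  e9 : g 9 = b 9 + c 9 - q 0 6 9 * (b 0 * c 6) + q 2 8 9 * (b 2 * c 8) -
    q 2 8 9 * (q 0 5 8 * (b 2 * (b 0 * c 5)))
  e10 : g 10 = b 10 + c 10 - q 0 7 10 * (b 0 * c 7) + q 0 7 10 * (q 0 1 7 * (b 0 * (b 0 * c 1))) +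
    q 4 8 10 * (b 4 * c 8) + q 4 8 10 * (q 2 3 4 * (b 2 * (b 3 * c 8))) -
    q 4 8 10 * (q 0 5 8 * (b 4 * (b 0 * c 5))) -
    q 4 8 10 * (q 2 3 4 * (q 0 5 8 * (b 2 * (b 3 * (b 0 * c 5))))) +
    q 3 9 10 * (b 3 * c 9) - q 3 9 10 * (q 0 6 9 * (b 3 * (b 0 * c 6)))

/-- relations between the coefficients -/
structure CfR (q : Fin 11 → Fin 11 → Fin 11 → ℝ) : Prop where
  r7 : q 4 5 7 * q 2 3 4 = q 3 6 7 * q 2 5 6
  r9 : q 0 6 9 * q 2 5 6 = q 2 8 9 * q 0 5 8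
  r10a : q 4 8 10 * q 2 3 4 = q 3 9 10 * q 2 8 9
  r10b : q 0 7 10 * q 4 5 7 = q 4 8 10 * q 0 5 8
  r10c : q 0 7 10 * q 3 6 7 = q 3 9 10 * q 0 6 9

/-- **exact evolution**: `x → x'` by `a`, `x → y` by `b`, `y → y'` by `o`, `x' → y'` by `g`;
`u = h - a`, `h` : `x → y'`. -/
theorem evo_exact {q : Fin 11 → Fin 11 → Fin 11 → ℝ} (hq : CfR q) {a g h : Fin 11 → ℝ}
    (H : LawC q h a g) :
    g 0 = h 0 - a 0 ∧ g 1 = h 1 - a 1 ∧ g 2 = h 2 - a 2 ∧ g 3 = h 3 - a 3 ∧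
    g 4 = (h 4 - a 4) + q 2 3 4 * (a 2 * g 3) ∧ g 5 = h 5 - a 5 ∧
    g 6 = (h 6 - a 6) - q 2 5 6 * (a 2 * (h 5 - a 5)) ∧
    g 7 = (h 7 - a 7) + 2 * (q 0 1 7 * (a 0 * g 1)) - q 4 5 7 * (a 4 * (h 5 - a 5)) -
      q 3 6 7 * (a 3 * (h 6 - a 6)) ∧
    g 8 = (h 8 - a 8) + q 0 5 8 * (a 0 * (h 5 - a 5)) ∧
    g 9 = (h 9 - a 9) + q 0 6 9 * (a 0 * (h 6 - a 6)) -
      q 2 8 9 * (a 2 * ((h 8 - a 8) + q 0 5 8 * (a 0 * (h 5 - a 5)))) ∧
    g 10 = (h 10 - a 10) + q 0 7 10 * (a 0 * (h 7 - a 7)) +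
      q 0 7 10 * (a 0 * (q 0 1 7 * (a 0 * g 1))) -
      q 4 8 10 * (a 4 * ((h 8 - a 8) + q 0 5 8 * (a 0 * (h 5 - a 5)))) -
      q 3 9 10 * (a 3 * ((h 9 - a 9) + q 0 6 9 * (a 0 * (h 6 - a 6)))) := by
  obtain ⟨e0, e1, e2, e3, e4, e5, e6, e7, e8, e9, e10⟩ := H
  obtain ⟨r7, r9, r10a, r10b, r10c⟩ := hq
  have g5 : g 5 = h 5 - a 5 := by linarith
  have g6 : g 6 = (h 6 - a 6) - q 2 5 6 * (a 2 * (h 5 - a 5)) := by rw [← g5]; linarith
  have g7 : g 7 = (h 7 - a 7) + 2 * (q 0 1 7 * (a 0 * g 1)) - q 4 5 7 * (a 4 * (h 5 - a 5)) -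
      q 3 6 7 * (a 3 * (h 6 - a 6)) := by
    have e6' : h 6 - a 6 = g 6 + q 2 5 6 * (a 2 * g 5) := by linarith
    rw [e6', ← g5]
    linear_combination -e7 + (-(a 2 * a 3 * g 5)) * r7
  have g8 : g 8 = (h 8 - a 8) + q 0 5 8 * (a 0 * (h 5 - a 5)) := by rw [← g5]; linarith
  have e8' : h 8 - a 8 = g 8 - q 0 5 8 * (a 0 * g 5) := by linarith
  have e6' : h 6 - a 6 = g 6 + q 2 5 6 * (a 2 * g 5) := by linarith
  have e9' : h 9 - a 9 = g 9 - q 0 6 9 * (a 0 * g 6) + q 2 8 9 * (a 2 * g 8) -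
    q 2 8 9 * (q 0 5 8 * (a 2 * (a 0 * g 5))) := by linarith
  have e7' : h 7 - a 7 = g 7 - 2 * (q 0 1 7 * (a 0 * g 1)) + q 4 5 7 * (a 4 * g 5) +
    q 4 5 7 * (q 2 3 4 * (a 2 * (a 3 * g 5))) + q 3 6 7 * (a 3 * g 6) := by linarith
  refine ⟨by linarith, by linarith, by linarith, by linarith, by linarith, g5, g6, g7, g8, ?_, ?_⟩
  · rw [e9', e8', e6', ← g5]
    linear_combination (-(a 0 * a 2 * g 5)) * r9
  · rw [e9', e8', e6', e7', ← g5]
    linear_combination -e10 + (-(a 2 * a 3 * g 8)) * r10a +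
      (-(a 0 * a 4 * g 5) - q 2 3 4 * a 0 * a 2 * a 3 * g 5) * r10b +
      (-(a 0 * a 3 * g 6)) * r10c + (a 0 * a 2 * a 3 * g 5 * q 3 9 10) * r9

/-! ### products with negligible coefficients -/

/-- product of a coefficient and a term; the term need only be close if the coefficient of the
limit does not vanish -/
theorem Ap.cmul {η M c' q q' u u' : ℝ} (hη : 0 ≤ η) (hq : Ap η 1 1 q q') (hu : |u| ≤ M)
    (hu' : |u'| ≤ M) (hc : 0 ≤ c') (h : q' = 0 ∨ |u - u'| ≤ c' * η) :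
    Ap η M (M + c') (q * u) (q' * u') where
  l := by
    rw [abs_mul]
    have := mul_le_mul hq.l hu (abs_nonneg _) zero_le_one
    linarith
  r := by
    rw [abs_mul]
    have := mul_le_mul hq.r hu' (abs_nonneg _) zero_le_one
    linarith
  d := by
    have hM : 0 ≤ M := (abs_nonneg _).trans hu
    rcases h with h | h
    · rw [h, zero_mul, sub_zero, abs_mul]
      have h1 := hq.d
      rw [h, sub_zero, one_mul] at h1
      have := mul_le_mul h1 hu (abs_nonneg _) hη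
      nlinarith [mul_nonneg hc hη]
    · have e : q * u - q' * u' = (q - q') * u + q' * (u - u') := by ring
      rw [e]
      refine (abs_add_le _ _).trans ?_
      rw [abs_mul, abs_mul]
      have h1 := mul_le_mul hq.d hu (abs_nonneg _) (by linarith)
      have h2 := mul_le_mul hq.r h (abs_nonneg _) zero_le_one
      nlinarith

/-- **closure of the resolved slots**: the walls of a resolved slot have resolved factors or a
negligible coefficient -/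
structure Clo (Rs : Finset (Fin 11)) (q : Fin 11 → Fin 11 → Fin 11 → ℝ) : Prop where
  w4 : 4 ∈ Rs → q 2 3 4 = 0 ∨ (2 ∈ Rs ∧ 3 ∈ Rs)
  w6 : 6 ∈ Rs → q 2 5 6 = 0 ∨ (2 ∈ Rs ∧ 5 ∈ Rs)
  w7r : q 0 1 7 = 0
  w7a : 7 ∈ Rs → q 4 5 7 = 0 ∨ (4 ∈ Rs ∧ 5 ∈ Rs)
  w7b : 7 ∈ Rs → q 3 6 7 = 0 ∨ (3 ∈ Rs ∧ 6 ∈ Rs)
  w8 : 8 ∈ Rs → q 0 5 8 = 0 ∨ (0 ∈ Rs ∧ 5 ∈ Rs)
  w9a : 9 ∈ Rs → q 0 6 9 = 0 ∨ (0 ∈ Rs ∧ 6 ∈ Rs)
  w9b : 9 ∈ Rs → q 2 8 9 = 0 ∨ (2 ∈ Rs ∧ 8 ∈ Rs)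
  w10a : 10 ∈ Rs → q 0 7 10 = 0 ∨ (0 ∈ Rs ∧ 7 ∈ Rs)
  w10b : 10 ∈ Rs → q 4 8 10 = 0 ∨ (4 ∈ Rs ∧ 8 ∈ Rs)
  w10c : 10 ∈ Rs → q 3 9 10 = 0 ∨ (3 ∈ Rs ∧ 9 ∈ Rs)

end Crest.Agent.R136.Ev356
end

-- ▼ part R136/Ev11_356
section

/-!
# R136: evolution with partially resolved slots (helper356), finite part
-/

set_option autoImplicit false
set_option linter.unusedSectionVars false
set_option linter.unusedVariables false

open Filter Topology

namespace Crest.Agent.R136.Ev356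

open Finset Crest.Agent.R136.NetQ186 Crest.Agent.R136.Net191 Crest.Agent.R136.Qg926
open Crest.Agent.R136.Gf356 Crest.Agent.R136.Ab356
open Crest.Agent.R138.Ex926 (Base U)

/-- small monomial -/
theorem sm {η q q' u : ℝ} (hη : 0 ≤ η) (hq : Ap η 1 1 q q') (hu : |u| ≤ 1)
    (h : q' = 0 ∨ |u| ≤ η) : |q * u| ≤ η := by
  rw [abs_mul]
  rcases h with h | h
  · have h1 := hq.d
    rw [h, sub_zero, one_mul] at h1
    have := mul_le_mul h1 hu (abs_nonneg _) hη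
    linarith
  · have := mul_le_mul hq.l h (abs_nonneg _) zero_le_one
    linarith

theorem ab1 {x y : ℝ} (hx : |x| ≤ 1) (hy : |y| ≤ 1) : |x * y| ≤ 1 := by
  rw [abs_mul]
  have := mul_le_mul hx hy (abs_nonneg _) zero_le_one
  linarith

theorem abη {η x y : ℝ} (hη : 0 ≤ η) (hx : |x| ≤ 1) (hy : |y| ≤ η) : |x * y| ≤ η := by
  rw [abs_mul]
  have := mul_le_mul hx hy (abs_nonneg _) zero_le_one
  linarith

/-- the slots `u = h - a` -/
theorem u_close {Rs S : Finset (Fin 11)} {q q' : Fin 11 → Fin 11 → Fin 11 → ℝ} {η A : ℝ}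
    (hη : 0 ≤ η) (hA : 0 ≤ A) (hq : CApp η 1 q q') (hcl : Clo Rs q')
    {a b o h : Fin 11 → ℝ} (H2 : LawC q h b o) (bb : ∀ s, |b s| ≤ 1) (bo : ∀ s, |o s| ≤ 1)
    (hS : ∀ s, s = 5 ∨ s = 6 ∨ s = 7 ∨ s = 8 ∨ s = 9 ∨ s = 10 → s ∉ S)
    (ha : ∀ s ∈ Rs, s ∉ S → |a s| ≤ A * η) (ho : ∀ s ∈ Rs, s ∉ S → |o s| ≤ η)
    (s : Fin 11) (hs : s = 5 ∨ s = 6 ∨ s = 7 ∨ s = 8 ∨ s = 9 ∨ s = 10) (hsR : s ∈ Rs) :
    |(h s - a s) - b s| ≤ (A + 12) * η := by
  obtain ⟨e0, e1, e2, e3, e4, e5, e6, e7, e8, e9, e10⟩ := H2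
  obtain ⟨c256, c017, c457, c367, c058, c069, c289, c0710, c4810, c3910, c234⟩ := hq
  have hsS := hS s hs
  have has := ha s hsR hsS
  have hos := ho s hsR hsS
  have O : ∀ s, s = 5 ∨ s = 6 ∨ s = 7 ∨ s = 8 ∨ s = 9 ∨ s = 10 → s ∈ Rs → |o s| ≤ η :=
    fun s hs hR => ho s hR (hS s hs)
  have t0 : |o s - a s| ≤ (A + 1) * η := by
    have := abs_sub (o s) (a s)
    linarith
  rcases hs with rfl | rfl | rfl | rfl | rfl | rfl
  · have e : (h 5 - a 5) - b 5 = o 5 - a 5 := by rw [e5]; ring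
    rw [e]; linarith
  · have e : (h 6 - a 6) - b 6 = (o 6 - a 6) + q 2 5 6 * (b 2 * o 5) := by rw [e6]; ring
    rw [e]
    have m1 : |q 2 5 6 * (b 2 * o 5)| ≤ η := sm hη c256 (ab1 (bb 2) (bo 5))
      ((hcl.w6 hsR).imp id fun hh => abη hη (bb 2) (O 5 (by simp) hh.2))
    have := abs_add_le (o 6 - a 6) (q 2 5 6 * (b 2 * o 5))
    linarith
  · have e : (h 7 - a 7) - b 7 = (o 7 - a 7) - 2 * (q 0 1 7 * (b 0 * o 1)) +
        q 4 5 7 * (b 4 * o 5) + q 4 5 7 * (q 2 3 4 * (b 2 * (b 3 * o 5))) +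
        q 3 6 7 * (b 3 * o 6) := by rw [e7]; ring
    rw [e]
    have m1 : |q 0 1 7 * (b 0 * o 1)| ≤ η := sm hη c017 (ab1 (bb 0) (bo 1)) (Or.inl hcl.w7r)
    have m2 : |q 4 5 7 * (b 4 * o 5)| ≤ η := sm hη c457 (ab1 (bb 4) (bo 5))
      ((hcl.w7a hsR).imp id fun hh => abη hη (bb 4) (O 5 (by simp) hh.2))
    have m3 : |q 4 5 7 * (q 2 3 4 * (b 2 * (b 3 * o 5)))| ≤ η :=
      sm hη c457 (ab1 c234.l (ab1 (bb 2) (ab1 (bb 3) (bo 5))))
      ((hcl.w7a hsR).imp id fun hh => abη hη c234.l (abη hη (bb 2)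
        (abη hη (bb 3) (O 5 (by simp) hh.2))))
    have m4 : |q 3 6 7 * (b 3 * o 6)| ≤ η := sm hη c367 (ab1 (bb 3) (bo 6))
      ((hcl.w7b hsR).imp id fun hh => abη hη (bb 3) (O 6 (by simp) hh.2))
    have n1 : |2 * (q 0 1 7 * (b 0 * o 1))| ≤ 2 * η := by
      rw [abs_mul, abs_of_pos (by norm_num : (0 : ℝ) < 2)]; linarith
    have s1 := abs_sub (o 7 - a 7) (2 * (q 0 1 7 * (b 0 * o 1)))
    have s2 := abs_add_le ((o 7 - a 7) - 2 * (q 0 1 7 * (b 0 * o 1))) (q 4 5 7 * (b 4 * o 5))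
    have s3 := abs_add_le ((o 7 - a 7) - 2 * (q 0 1 7 * (b 0 * o 1)) + q 4 5 7 * (b 4 * o 5))
      (q 4 5 7 * (q 2 3 4 * (b 2 * (b 3 * o 5))))
    have s4 := abs_add_le ((o 7 - a 7) - 2 * (q 0 1 7 * (b 0 * o 1)) + q 4 5 7 * (b 4 * o 5) +
      q 4 5 7 * (q 2 3 4 * (b 2 * (b 3 * o 5)))) (q 3 6 7 * (b 3 * o 6))
    linarith
  · have e : (h 8 - a 8) - b 8 = (o 8 - a 8) - q 0 5 8 * (b 0 * o 5) := by rw [e8]; ring
    rw [e]
    have m1 : |q 0 5 8 * (b 0 * o 5)| ≤ η := sm hη c058 (ab1 (bb 0) (bo 5))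
      ((hcl.w8 hsR).imp id fun hh => abη hη (bb 0) (O 5 (by simp) hh.2))
    have := abs_sub (o 8 - a 8) (q 0 5 8 * (b 0 * o 5))
    linarith
  · have e : (h 9 - a 9) - b 9 = (o 9 - a 9) - q 0 6 9 * (b 0 * o 6) + q 2 8 9 * (b 2 * o 8) -
        q 2 8 9 * (q 0 5 8 * (b 2 * (b 0 * o 5))) := by rw [e9]; ring
    rw [e]
    have m1 : |q 0 6 9 * (b 0 * o 6)| ≤ η := sm hη c069 (ab1 (bb 0) (bo 6))
      ((hcl.w9a hsR).imp id fun hh => abη hη (bb 0) (O 6 (by simp) hh.2))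
    have m2 : |q 2 8 9 * (b 2 * o 8)| ≤ η := sm hη c289 (ab1 (bb 2) (bo 8))
      ((hcl.w9b hsR).imp id fun hh => abη hη (bb 2) (O 8 (by simp) hh.2))
    have m3 : |q 2 8 9 * (q 0 5 8 * (b 2 * (b 0 * o 5)))| ≤ η :=
      sm hη c289 (ab1 c058.l (ab1 (bb 2) (ab1 (bb 0) (bo 5))))
      ((hcl.w9b hsR).imp id fun hh => sm hη c058 (ab1 (bb 2) (ab1 (bb 0) (bo 5)))
        ((hcl.w8 hh.2).imp id fun hk => abη hη (bb 2) (abη hη (bb 0) (O 5 (by simp) hk.2))))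
    have s1 := abs_sub (o 9 - a 9) (q 0 6 9 * (b 0 * o 6))
    have s2 := abs_add_le ((o 9 - a 9) - q 0 6 9 * (b 0 * o 6)) (q 2 8 9 * (b 2 * o 8))
    have s3 := abs_sub ((o 9 - a 9) - q 0 6 9 * (b 0 * o 6) + q 2 8 9 * (b 2 * o 8))
      (q 2 8 9 * (q 0 5 8 * (b 2 * (b 0 * o 5))))
    linarith
  · have e : (h 10 - a 10) - b 10 = (o 10 - a 10) - q 0 7 10 * (b 0 * o 7) +
        q 0 7 10 * (q 0 1 7 * (b 0 * (b 0 * o 1))) + q 4 8 10 * (b 4 * o 8) +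
        q 4 8 10 * (q 2 3 4 * (b 2 * (b 3 * o 8))) - q 4 8 10 * (q 0 5 8 * (b 4 * (b 0 * o 5))) -
        q 4 8 10 * (q 2 3 4 * (q 0 5 8 * (b 2 * (b 3 * (b 0 * o 5))))) +
        q 3 9 10 * (b 3 * o 9) - q 3 9 10 * (q 0 6 9 * (b 3 * (b 0 * o 6))) := by
      rw [e10]; ring
    rw [e]
    have m1 : |q 0 7 10 * (b 0 * o 7)| ≤ η := sm hη c0710 (ab1 (bb 0) (bo 7))
      ((hcl.w10a hsR).imp id fun hh => abη hη (bb 0) (O 7 (by simp) hh.2))
    have m2 : |q 0 7 10 * (q 0 1 7 * (b 0 * (b 0 * o 1)))| ≤ η :=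
      abη hη c0710.l (sm hη c017 (ab1 (bb 0) (ab1 (bb 0) (bo 1))) (Or.inl hcl.w7r))
    have m3 : |q 4 8 10 * (b 4 * o 8)| ≤ η := sm hη c4810 (ab1 (bb 4) (bo 8))
      ((hcl.w10b hsR).imp id fun hh => abη hη (bb 4) (O 8 (by simp) hh.2))
    have m4 : |q 4 8 10 * (q 2 3 4 * (b 2 * (b 3 * o 8)))| ≤ η :=
      sm hη c4810 (ab1 c234.l (ab1 (bb 2) (ab1 (bb 3) (bo 8))))
      ((hcl.w10b hsR).imp id fun hh => abη hη c234.l (abη hη (bb 2)
        (abη hη (bb 3) (O 8 (by simp) hh.2))))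
    have m5 : |q 4 8 10 * (q 0 5 8 * (b 4 * (b 0 * o 5)))| ≤ η :=
      sm hη c4810 (ab1 c058.l (ab1 (bb 4) (ab1 (bb 0) (bo 5))))
      ((hcl.w10b hsR).imp id fun hh => sm hη c058 (ab1 (bb 4) (ab1 (bb 0) (bo 5)))
        ((hcl.w8 hh.2).imp id fun hk => abη hη (bb 4) (abη hη (bb 0) (O 5 (by simp) hk.2))))
    have m6 : |q 4 8 10 * (q 2 3 4 * (q 0 5 8 * (b 2 * (b 3 * (b 0 * o 5)))))| ≤ η :=
      sm hη c4810 (ab1 c234.l (ab1 c058.l (ab1 (bb 2) (ab1 (bb 3) (ab1 (bb 0) (bo 5))))))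
      ((hcl.w10b hsR).imp id fun hh => abη hη c234.l
        (sm hη c058 (ab1 (bb 2) (ab1 (bb 3) (ab1 (bb 0) (bo 5))))
        ((hcl.w8 hh.2).imp id fun hk => abη hη (bb 2) (abη hη (bb 3)
          (abη hη (bb 0) (O 5 (by simp) hk.2))))))
    have m7 : |q 3 9 10 * (b 3 * o 9)| ≤ η := sm hη c3910 (ab1 (bb 3) (bo 9))
      ((hcl.w10c hsR).imp id fun hh => abη hη (bb 3) (O 9 (by simp) hh.2))
    have m8 : |q 3 9 10 * (q 0 6 9 * (b 3 * (b 0 * o 6)))| ≤ η :=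
      sm hη c3910 (ab1 c069.l (ab1 (bb 3) (ab1 (bb 0) (bo 6))))
      ((hcl.w10c hsR).imp id fun hh => sm hη c069 (ab1 (bb 3) (ab1 (bb 0) (bo 6)))
        ((hcl.w9a hh.2).imp id fun hk => abη hη (bb 3) (abη hη (bb 0) (O 6 (by simp) hk.2))))
    rw [abs_le] at m1 m2 m3 m4 m5 m6 m7 m8 t0
    rw [abs_le]
    constructor
    · linarith [m1.1, m1.2, m2.1, m2.2, m3.1, m3.2, m4.1, m4.2, m5.1, m5.2, m6.1, m6.2, m7.1,
        m7.2, m8.1, m8.2, t0.1, t0.2]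
    · linarith [m1.1, m1.2, m2.1, m2.2, m3.1, m3.2, m4.1, m4.2, m5.1, m5.2, m6.1, m6.2, m7.1,
        m7.2, m8.1, m8.2, t0.1, t0.2]

end Crest.Agent.R136.Ev356
end

-- ▼ part R136/Ev12_356
section

/-!
# R136: evolution with partially resolved slots (helper356), finite part 2

* `evoP_fin` : evolution, conclusion for the resolved line slots;
* `compP_fin` : composition at one height (level slots resolved).
-/

set_option autoImplicit false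
set_option linter.unusedSectionVars false
set_option linter.unusedVariables false

open Filter Topology

namespace Crest.Agent.R136.Ev356

open Finset Crest.Agent.R136.NetQ186 Crest.Agent.R136.Net191 Crest.Agent.R136.Qg926
open Crest.Agent.R136.Gf356 Crest.Agent.R136.Ab356
open Crest.Agent.R138.Ex926 (Base U)

theorem fin11 : ∀ s : Fin 11, s = 0 ∨ s = 1 ∨ s = 2 ∨ s = 3 ∨ s = 4 ∨ s = 5 ∨ s = 6 ∨ s = 7 ∨
    s = 8 ∨ s = 9 ∨ s = 10 := by decide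

/-- **evolution, resolved slots only** -/
theorem evoP_fin {Rs S : Finset (Fin 11)} {q q' : Fin 11 → Fin 11 → Fin 11 → ℝ} {η A : ℝ}
    (hη : 0 ≤ η) (hA : 0 ≤ A) (hq : CApp η 1 q q') (hr : CfR q) (hcl : Clo Rs q')
    {a b o g h a' b' : Fin 11 → ℝ} (H1 : LawC q h a g) (H2 : LawC q h b o)
    (ba : ∀ s, |a s| ≤ 1 / 4) (bb : ∀ s, |b s| ≤ 1 / 4) (bo : ∀ s, |o s| ≤ 1 / 4)
    (bg : ∀ s, |g s| ≤ 1 / 4) (bh : ∀ s, |h s| ≤ 1 / 4) (ba' : ∀ s, |a' s| ≤ 1)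
    (hS : ∀ s, s = 5 ∨ s = 6 ∨ s = 7 ∨ s = 8 ∨ s = 9 ∨ s = 10 → s ∉ S)
    (ha : ∀ s ∈ Rs, |a s - a' s| ≤ A * η) (ha0 : ∀ s, s ∉ S → a' s = 0)
    (ho : ∀ s ∈ Rs, s ∉ S → |o s| ≤ η)
    (hao : ∀ s ∈ Rs, s = 2 ∨ s = 3 → |o s - a s| ≤ A * η)
    (hb : ∀ s ∈ S, |b s| ≤ η) (hb' : ∀ s, b' s = if s ∈ S then 0 else b s)
    (s : Fin 11) (hs : s ∈ Rs) (hsS : s ∉ S) :
    |g s - evoC q' a' b' s| ≤ (400 * (A + 1)) * η := by
  have cA : ∀ s ∈ Rs, Ap η 1 A (a s) (a' s) := fun s hs =>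
    ⟨(ba s).trans (by norm_num), ba' s, ha s hs⟩
  have bb' : ∀ s, |b' s| ≤ 1 := by
    intro s
    rw [hb' s]
    split_ifs
    · rw [abs_zero]; norm_num
    · exact (bb s).trans (by norm_num)
  have cB : ∀ s, Ap η 1 1 (b s) (b' s) := by
    intro s
    refine ⟨(bb s).trans (by norm_num), bb' s, ?_⟩
    rw [hb' s]
    split_ifs with h1
    · rw [sub_zero, one_mul]; exact hb s h1
    · rw [sub_self, abs_zero]; linarith
  have ha' : ∀ s ∈ Rs, s ∉ S → |a s| ≤ A * η := by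
    intro s hs hsS
    have := ha s hs
    rwa [ha0 s hsS, sub_zero] at this
  have bu : ∀ s, |h s - a s| ≤ 1 := fun s => by
    have := abs_sub (h s) (a s)
    linarith [ba s, bh s]
  have cU : ∀ s : Fin 11, s = 5 ∨ s = 6 ∨ s = 7 ∨ s = 8 ∨ s = 9 ∨ s = 10 → s ∈ Rs →
      Ap η 1 (A + 12) (h s - a s) (b' s) := by
    intro s hs hR
    refine ⟨bu s, bb' s, ?_⟩
    rw [hb' s, if_neg (hS s hs)]
    exact u_close hη hA hq hcl H2 (fun s => (bb s).trans (by norm_num))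
      (fun s => (bo s).trans (by norm_num)) hS ha' ho s hs hR
  have pr : ∀ i j : Fin 11, j = 5 ∨ j = 6 ∨ j = 7 ∨ j = 8 ∨ j = 9 ∨ j = 10 → i ∈ Rs → j ∈ Rs →
      |a i * (h j - a j) - a' i * b' j| ≤ (2 * A + 12) * η := fun i j hj hi hjR =>
    ((cA i hi).mul (cU j hj hjR)).mono hη (by linarith)
  have bm : ∀ i j, |a i * (h j - a j)| ≤ 1 := fun i j => ab1 ((ba i).trans (by norm_num)) (bu j)
  have bm' : ∀ i j, |a' i * b' j| ≤ 1 := fun i j => ab1 (ba' i) (bb' j)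
  obtain ⟨c256, c017, c457, c367, c058, c069, c289, c0710, c4810, c3910, c234⟩ := hq
  obtain ⟨g0, g1, g2, g3, g4, g5, g6, g7, g8, g9, g10⟩ := evo_exact hr H1
  have h2A : 0 ≤ 2 * A + 12 := by linarith
  -- additive slots
  have addS : ∀ s, g s = h s - a s → h s = b s + o s → s ∈ Rs → s ∉ S → evoC q' a' b' s = b' s →
      |g s - evoC q' a' b' s| ≤ (400 * (A + 1)) * η := by
    intro s e1 e2 hs hsS e3
    rw [e3, hb' s, if_neg hsS, e1, e2]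
    have e4 : b s + o s - a s - b s = o s - a s := by ring
    rw [e4]
    have := abs_sub (o s) (a s)
    have := ho s hs hsS
    have := ha' s hs hsS
    have := mul_nonneg hA hη
    linarith
  rcases fin11 s with rfl | rfl | rfl | rfl | rfl | rfl | rfl | rfl | rfl | rfl | rfl
  · exact addS 0 g0 H2.e0 hs hsS (by simp only [evoC, Matrix.cons_val])
  · exact addS 1 g1 H2.e1 hs hsS (by simp only [evoC, Matrix.cons_val])
  · exact addS 2 g2 H2.e2 hs hsS (by simp only [evoC, Matrix.cons_val])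
  · exact addS 3 g3 H2.e3 hs hsS (by simp only [evoC, Matrix.cons_val])
  · -- slot 4
    have m1 : Ap η 2 (2 + (4 * A + 3)) (q 2 3 4 * (a 2 * g 3 - b 2 * o 3))
        (q' 2 3 4 * (a' 2 * b' 3 - b' 2 * a' 3)) := by
      refine Ap.cmul hη c234 ?_ ?_ (by linarith) ?_
      · have e1 := abs_sub (a 2 * g 3) (b 2 * o 3)
        have e2 := ab1 ((ba 2).trans (by norm_num)) ((bg 3).trans (by norm_num))
        have e3 := ab1 ((bb 2).trans (by norm_num)) ((bo 3).trans (by norm_num))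
        linarith
      · have e1 := abs_sub (a' 2 * b' 3) (b' 2 * a' 3)
        have e2 := ab1 (ba' 2) (bb' 3)
        have e3 := ab1 (bb' 2) (ba' 3)
        linarith
      · refine (hcl.w4 hs).imp id fun hh => ?_
        obtain ⟨h2, h3⟩ := hh
        have i3 : Ap η 1 (A + 1) (g 3) (b' 3) := by
          refine ⟨(bg 3).trans (by norm_num), bb' 3, ?_⟩
          have e1 : g 3 - b' 3 = (b 3 - b' 3) + (o 3 - a 3) := by rw [g3, H2.e3]; ring
          rw [e1]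
          have e2 := abs_add_le (b 3 - b' 3) (o 3 - a 3)
          have e3 := (cB 3).d
          have e4 := hao 3 h3 (Or.inr rfl)
          linarith
        have j3 : Ap η 1 (2 * A) (o 3) (a' 3) := by
          refine ⟨(bo 3).trans (by norm_num), ba' 3, ?_⟩
          have e1 : o 3 - a' 3 = (o 3 - a 3) + (a 3 - a' 3) := by ring
          rw [e1]
          have e2 := abs_add_le (o 3 - a 3) (a 3 - a' 3)
          have e3 := ha 3 h3
          have e4 := hao 3 h3 (Or.inr rfl)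
          linarith
        exact (((cA 2 h2).mul i3).sub ((cB 2).mul j3)).mono hη (by linarith)
    have e1 : g 4 - evoC q' a' b' 4 = (o 4 - a 4) + (q 2 3 4 * (a 2 * g 3 - b 2 * o 3) -
        q' 2 3 4 * (a' 2 * b' 3 - b' 2 * a' 3)) := by
      have e0 : evoC q' a' b' 4 = b' 4 + q' 2 3 4 * (a' 2 * b' 3 - b' 2 * a' 3) := by
        simp only [evoC, Matrix.cons_val]
      rw [e0, g4, H2.e4, hb' 4, if_neg hsS]
      ring
    rw [e1]
    have e2 := abs_add_le (o 4 - a 4) (q 2 3 4 * (a 2 * g 3 - b 2 * o 3) -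
        q' 2 3 4 * (a' 2 * b' 3 - b' 2 * a' 3))
    have e3 := abs_sub (o 4) (a 4)
    have e4 := ho 4 hs hsS
    have e5 := ha' 4 hs hsS
    have e6 := m1.d
    have := mul_nonneg hA hη
    linarith
  · exact addS 5 g5 H2.e5 hs hsS (by simp only [evoC, Matrix.cons_val])
  · -- slot 6
    have m1 := Ap.cmul hη c256 (bm 2 5) (bm' 2 5) h2A
      ((hcl.w6 hs).imp id fun hh => pr 2 5 (by simp) hh.1 hh.2)
    have e0 : evoC q' a' b' 6 = b' 6 - q' 2 5 6 * (a' 2 * b' 5) := by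
      simp only [evoC, Matrix.cons_val]
    rw [g6, e0]
    refine ((cU 6 (by simp) hs).sub m1).mono hη ?_
    linarith
  · -- slot 7
    have m0 : Ap η 1 (1 + 0) (q 0 1 7 * (a 0 * g 1)) (q' 0 1 7 * (a' 0 * b' 1)) :=
      Ap.cmul hη c017 (ab1 ((ba 0).trans (by norm_num)) ((bg 1).trans (by norm_num))) (bm' 0 1)
        le_rfl (Or.inl hcl.w7r)
    have m1 := Ap.cmul hη c457 (bm 4 5) (bm' 4 5) h2A
      ((hcl.w7a hs).imp id fun hh => pr 4 5 (by simp) hh.1 hh.2)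
    have m2 := Ap.cmul hη c367 (bm 3 6) (bm' 3 6) h2A
      ((hcl.w7b hs).imp id fun hh => pr 3 6 (by simp) hh.1 hh.2)
    have e0 : evoC q' a' b' 7 = b' 7 + 2 * (q' 0 1 7 * (a' 0 * b' 1)) - q' 4 5 7 * (a' 4 * b' 5) -
        q' 3 6 7 * (a' 3 * b' 6) := by
      simp only [evoC, Matrix.cons_val]
    rw [g7, e0]
    refine ((((cU 7 (by simp) hs).add ((Ap.const (m := 2) hη (by norm_num)).mul m0)).sub
      m1).sub m2).mono hη ?_
    linarith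
  · -- slot 8
    have m1 := Ap.cmul hη c058 (bm 0 5) (bm' 0 5) h2A
      ((hcl.w8 hs).imp id fun hh => pr 0 5 (by simp) hh.1 hh.2)
    have e0 : evoC q' a' b' 8 = b' 8 + q' 0 5 8 * (a' 0 * b' 5) := by
      simp only [evoC, Matrix.cons_val]
    rw [g8, e0]
    refine ((cU 8 (by simp) hs).add m1).mono hη ?_
    linarith
  · -- slot 9
    have m1 := Ap.cmul hη c069 (bm 0 6) (bm' 0 6) h2A
      ((hcl.w9a hs).imp id fun hh => pr 0 6 (by simp) hh.1 hh.2)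
    have bq : |q 0 5 8 * (a 0 * (h 5 - a 5))| ≤ 1 := ab1 c058.l (bm 0 5)
    have bq' : |q' 0 5 8 * (a' 0 * b' 5)| ≤ 1 := ab1 c058.r (bm' 0 5)
    have m2 : Ap η 2 (2 + (5 * A + 40)) (q 2 8 9 * (a 2 * ((h 8 - a 8) + q 0 5 8 *
        (a 0 * (h 5 - a 5))))) (q' 2 8 9 * (a' 2 * (b' 8 + q' 0 5 8 * (a' 0 * b' 5)))) := by
      refine Ap.cmul hη c289 ?_ ?_ (by linarith) ?_
      · rw [abs_mul]
        have e1 := abs_add_le (h 8 - a 8) (q 0 5 8 * (a 0 * (h 5 - a 5)))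
        have e2 := mul_le_mul ((ba 2).trans (by norm_num : (1 : ℝ) / 4 ≤ 1))
          (e1.trans (add_le_add (bu 8) bq)) (abs_nonneg _) zero_le_one
        linarith
      · rw [abs_mul]
        have e1 := abs_add_le (b' 8) (q' 0 5 8 * (a' 0 * b' 5))
        have e2 := mul_le_mul (ba' 2) (e1.trans (add_le_add (bb' 8) bq')) (abs_nonneg _) zero_le_one
        linarith
      · refine (hcl.w9b hs).imp id fun hh => ?_
        have m3 := Ap.cmul hη c058 (bm 0 5) (bm' 0 5) h2A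
          ((hcl.w8 hh.2).imp id fun hk => pr 0 5 (by simp) hk.1 hk.2)
        exact ((cA 2 hh.1).mul ((cU 8 (by simp) hh.2).add m3)).mono hη (by linarith)
    have e0 : evoC q' a' b' 9 = b' 9 + q' 0 6 9 * (a' 0 * b' 6) - q' 2 8 9 * (a' 2 *
        (b' 8 + q' 0 5 8 * (a' 0 * b' 5))) := by
      simp only [evoC, Matrix.cons_val]
    rw [g9, e0]
    refine (((cU 9 (by simp) hs).add m1).sub m2).mono hη ?_
    linarith
  · -- slot 10
    have m1 := Ap.cmul hη c0710 (bm 0 7) (bm' 0 7) h2A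
      ((hcl.w10a hs).imp id fun hh => pr 0 7 (by simp) hh.1 hh.2)
    have m0 : Ap η 1 (1 + 0) (q 0 1 7 * (a 0 * g 1)) (q' 0 1 7 * (a' 0 * b' 1)) :=
      Ap.cmul hη c017 (ab1 ((ba 0).trans (by norm_num)) ((bg 1).trans (by norm_num))) (bm' 0 1)
        le_rfl (Or.inl hcl.w7r)
    have m0' : |q 0 7 10 * (a 0 * (q 0 1 7 * (a 0 * g 1))) -
        q' 0 7 10 * (a' 0 * (q' 0 1 7 * (a' 0 * b' 1)))| ≤ 1 * η := by
      have e1 : q' 0 7 10 * (a' 0 * (q' 0 1 7 * (a' 0 * b' 1))) = 0 := by rw [hcl.w7r]; ring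
      rw [e1, sub_zero, one_mul]
      refine abη hη c0710.l (abη hη ((ba 0).trans (by norm_num)) ?_)
      have := m0.d
      rw [hcl.w7r, zero_mul, sub_zero] at this
      linarith
    have bq : |q 0 5 8 * (a 0 * (h 5 - a 5))| ≤ 1 := ab1 c058.l (bm 0 5)
    have bq' : |q' 0 5 8 * (a' 0 * b' 5)| ≤ 1 := ab1 c058.r (bm' 0 5)
    have br : |q 0 6 9 * (a 0 * (h 6 - a 6))| ≤ 1 := ab1 c069.l (bm 0 6)
    have br' : |q' 0 6 9 * (a' 0 * b' 6)| ≤ 1 := ab1 c069.r (bm' 0 6)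
    have m2 : Ap η 2 (2 + (5 * A + 40)) (q 4 8 10 * (a 4 * ((h 8 - a 8) + q 0 5 8 *
        (a 0 * (h 5 - a 5))))) (q' 4 8 10 * (a' 4 * (b' 8 + q' 0 5 8 * (a' 0 * b' 5)))) := by
      refine Ap.cmul hη c4810 ?_ ?_ (by linarith) ?_
      · rw [abs_mul]
        have e1 := abs_add_le (h 8 - a 8) (q 0 5 8 * (a 0 * (h 5 - a 5)))
        have e2 := mul_le_mul ((ba 4).trans (by norm_num : (1 : ℝ) / 4 ≤ 1))
          (e1.trans (add_le_add (bu 8) bq)) (abs_nonneg _) zero_le_one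
        linarith
      · rw [abs_mul]
        have e1 := abs_add_le (b' 8) (q' 0 5 8 * (a' 0 * b' 5))
        have e2 := mul_le_mul (ba' 4) (e1.trans (add_le_add (bb' 8) bq')) (abs_nonneg _) zero_le_one
        linarith
      · refine (hcl.w10b hs).imp id fun hh => ?_
        have m3 := Ap.cmul hη c058 (bm 0 5) (bm' 0 5) h2A
          ((hcl.w8 hh.2).imp id fun hk => pr 0 5 (by simp) hk.1 hk.2)
        exact ((cA 4 hh.1).mul ((cU 8 (by simp) hh.2).add m3)).mono hη (by linarith)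
    have m4 : Ap η 2 (2 + (5 * A + 40)) (q 3 9 10 * (a 3 * ((h 9 - a 9) + q 0 6 9 *
        (a 0 * (h 6 - a 6))))) (q' 3 9 10 * (a' 3 * (b' 9 + q' 0 6 9 * (a' 0 * b' 6)))) := by
      refine Ap.cmul hη c3910 ?_ ?_ (by linarith) ?_
      · rw [abs_mul]
        have e1 := abs_add_le (h 9 - a 9) (q 0 6 9 * (a 0 * (h 6 - a 6)))
        have e2 := mul_le_mul ((ba 3).trans (by norm_num : (1 : ℝ) / 4 ≤ 1))
          (e1.trans (add_le_add (bu 9) br)) (abs_nonneg _) zero_le_one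
        linarith
      · rw [abs_mul]
        have e1 := abs_add_le (b' 9) (q' 0 6 9 * (a' 0 * b' 6))
        have e2 := mul_le_mul (ba' 3) (e1.trans (add_le_add (bb' 9) br')) (abs_nonneg _) zero_le_one
        linarith
      · refine (hcl.w10c hs).imp id fun hh => ?_
        have m3 := Ap.cmul hη c069 (bm 0 6) (bm' 0 6) h2A
          ((hcl.w9a hh.2).imp id fun hk => pr 0 6 (by simp) hk.1 hk.2)
        exact ((cA 3 hh.1).mul ((cU 9 (by simp) hh.2).add m3)).mono hη (by linarith)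
    have e0 : evoC q' a' b' 10 = b' 10 + q' 0 7 10 * (a' 0 * b' 7) +
        q' 0 7 10 * (a' 0 * (q' 0 1 7 * (a' 0 * b' 1))) -
        q' 4 8 10 * (a' 4 * (b' 8 + q' 0 5 8 * (a' 0 * b' 5))) -
        q' 3 9 10 * (a' 3 * (b' 9 + q' 0 6 9 * (a' 0 * b' 6))) := by
      simp only [evoC, Matrix.cons_val]
    rw [g10, e0]
    have d1 := (cU 10 (by simp) hs).d
    have d2 := m1.d
    have d3 := m2.d
    have d4 := m4.d
    rw [abs_le] at d1 d2 d3 d4 m0'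
    have := mul_nonneg hA hη
    rw [abs_le]
    constructor <;> linarith [d1.1, d1.2, d2.1, d2.2, d3.1, d3.2, d4.1, d4.2, m0'.1, m0'.2]

/-- **composition at one height**, level slots resolved -/
theorem compP_fin {S : Finset (Fin 11)} {q q' : Fin 11 → Fin 11 → Fin 11 → ℝ} {η : ℝ}
    (hη : 0 ≤ η) (hq : CApp η 1 q q') (h0 : (0 : Fin 11) ∈ S)
    {g b c b' c' : Fin 11 → ℝ} (H : LawC q g b c)
    (bb : ∀ s, |b s| ≤ 1) (bc : ∀ s, |c s| ≤ 1)
    (hb : ∀ s ∈ S, |b s| ≤ η) (hb' : ∀ s, b' s = if s ∈ S then 0 else b s)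
    (hc : ∀ s ∈ S, |c s| ≤ η) (hc' : ∀ s, c' s = if s ∈ S then 0 else c s)
    (s : Fin 11) : |g s - compC q' b' c' s| ≤ 50 * η := by
  have cB : ∀ s, Ap η 1 1 (b s) (b' s) := by
    intro s
    rw [hb' s]
    split_ifs with h1
    · exact ⟨bb s, by simp, by rw [sub_zero, one_mul]; exact hb s h1⟩
    · exact ⟨bb s, bb s, by rw [sub_self, abs_zero]; linarith⟩
  have cC : ∀ s, Ap η 1 1 (c s) (c' s) := by
    intro s
    rw [hc' s]
    split_ifs with h1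
    · exact ⟨bc s, by simp, by rw [sub_zero, one_mul]; exact hc s h1⟩
    · exact ⟨bc s, bc s, by rw [sub_self, abs_zero]; linarith⟩
  have el := compC_lip (M := 1) le_rfl hη hq cB cC s
  obtain ⟨c256, c017, c457, c367, c058, c069, c289, c0710, c4810, c3910, c234⟩ := hq
  have b0 := hb 0 h0
  have key : |g s - compC q b c s| ≤ 10 * η := by
    obtain ⟨e0, e1, e2, e3, e4, e5, e6, e7, e8, e9, e10⟩ := H
    have z : ∀ s, g s = compC q b c s → |g s - compC q b c s| ≤ 10 * η := by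
      intro s hs
      rw [hs, sub_self, abs_zero]; linarith
    have n0 : ∀ {x y : ℝ}, |x| ≤ η → |y| ≤ 1 → |x * y| ≤ η := by
      intro x y hx hy
      rw [mul_comm]; exact abη hη hy hx
    rcases fin11 s with rfl | rfl | rfl | rfl | rfl | rfl | rfl | rfl | rfl | rfl | rfl
    · exact z 0 (by simp only [compC, Matrix.cons_val]; exact e0)
    · exact z 1 (by simp only [compC, Matrix.cons_val]; exact e1)
    · exact z 2 (by simp only [compC, Matrix.cons_val]; exact e2)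
    · exact z 3 (by simp only [compC, Matrix.cons_val]; exact e3)
    · exact z 4 (by simp only [compC, Matrix.cons_val]; exact e4)
    · exact z 5 (by simp only [compC, Matrix.cons_val]; exact e5)
    · exact z 6 (by simp only [compC, Matrix.cons_val]; exact e6)
    · have : g 7 - compC q b c 7 = -(2 * (q 0 1 7 * (b 0 * c 1))) := by
        simp only [compC, Matrix.cons_val]
        rw [e7]; ring
      rw [this, abs_neg, abs_mul, abs_of_pos (by norm_num : (0 : ℝ) < 2)]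
      have := abη hη c017.l (n0 b0 (bc 1))
      linarith
    · have : g 8 - compC q b c 8 = -(q 0 5 8 * (b 0 * c 5)) := by
        simp only [compC, Matrix.cons_val]
        rw [e8]; ring
      rw [this, abs_neg]
      have := abη hη c058.l (n0 b0 (bc 5))
      linarith
    · have : g 9 - compC q b c 9 = -(q 0 6 9 * (b 0 * c 6)) -
          q 2 8 9 * (q 0 5 8 * (b 2 * (b 0 * c 5))) := by
        simp only [compC, Matrix.cons_val]
        rw [e9]; ring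
      rw [this]
      have t1 := abη hη c069.l (n0 b0 (bc 6))
      have t2 := abη hη c289.l (abη hη c058.l (abη hη (bb 2) (n0 b0 (bc 5))))
      have t3 := abs_sub (-(q 0 6 9 * (b 0 * c 6))) (q 2 8 9 * (q 0 5 8 * (b 2 * (b 0 * c 5))))
      rw [abs_neg] at t3
      linarith
    · have : g 10 - compC q b c 10 = -(q 0 7 10 * (b 0 * c 7)) +
          q 0 7 10 * (q 0 1 7 * (b 0 * (b 0 * c 1))) -
          q 4 8 10 * (q 0 5 8 * (b 4 * (b 0 * c 5))) -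
          q 4 8 10 * (q 2 3 4 * (q 0 5 8 * (b 2 * (b 3 * (b 0 * c 5))))) -
          q 3 9 10 * (q 0 6 9 * (b 3 * (b 0 * c 6))) := by
        simp only [compC, Matrix.cons_val]
        rw [e10]; ring
      rw [this]
      have t1 := abη hη c0710.l (n0 b0 (bc 7))
      have t2 := abη hη c0710.l (abη hη c017.l (abη hη (bb 0) (n0 b0 (bc 1))))
      have t3 := abη hη c4810.l (abη hη c058.l (abη hη (bb 4) (n0 b0 (bc 5))))
      have t4 := abη hη c4810.l (abη hη c234.l (abη hη c058.l (abη hη (bb 2) (abη hη (bb 3)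
        (n0 b0 (bc 5))))))
      have t5 := abη hη c3910.l (abη hη c069.l (abη hη (bb 3) (n0 b0 (bc 6))))
      rw [abs_le] at t1 t2 t3 t4 t5 ⊢
      constructor <;> linarith [t1.1, t1.2, t2.1, t2.2, t3.1, t3.2, t4.1, t4.2, t5.1, t5.2]
  have e2 := abs_sub_le (g s) (compC q b c s) (compC q' b' c' s)
  linarith

end Crest.Agent.R136.Ev356
end

-- ▼ part R136/Ev13_356

/-!
# R136: windows with partially resolved slots (helper356)

`PQ W f Rs t q'` : the slots of `Rs ⊇ W.S` are resolved down to `ρ^t`, the coefficients of the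
monomials are `q'` up to `ρ^t`, `Rs` is closed under the walls with nonzero coefficient.

* **`PQ.evo`**, **`PQ.comp`** : evolution (slots of `Rs`), composition (all line slots);
* `PQ.of_at`, `PQ.of_ato`, `PQ.of_atot` : the windows of helper413 (`chi Ma`, `chiO`, `chiT`).
-/

set_option autoImplicit false
set_option linter.unusedSectionVars false
set_option linter.unusedVariables false

open Filter Topology

namespace Crest.Agent.R136.Ev356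

open Finset Crest.Agent.R136.NetQ186 Crest.Agent.R136.Net191 Crest.Agent.R136.Qg926
open Crest.Agent.R136.Gf356 Crest.Agent.R136.Ab356
open Crest.Agent.R138.Ex926 (Base U)

variable {ι : ℕ → Type*} [∀ n, DecidableEq (ι n)] {W : Wnd 11 ι} {f : ∀ n, ι n → Fq4}

namespace QWnd

variable (h : QWnd W f)

include h

/-- **the exact composition law**, normalised coordinates -/
theorem lawC {n : ℕ} (g : W.Good n) {p x y : ι n}
    (hp : p ∈ W.Cl n) (hx : x ∈ W.Cl n) (hy : y ∈ W.Cl n) :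
    LawC (cf W n) (W.crd n p y) (W.crd n p x) (W.crd n x y) := by
  have hu : ∀ s, un W n s ≠ 0 := fun s => (h.un_pos n s).ne'
  have key : ∀ i j s : Fin 11, un W n i * un W n j = cf W n i j s * un W n s := by
    intro i j s
    have h1 := hu s
    unfold cf
    field_simp
  have e4 := key 2 3 4
  have e6 := key 2 5 6
  have er := key 0 1 7
  have e7b := key 4 5 7
  have e7c := key 3 6 7
  have e8 := key 0 5 8
  have e9a := key 0 6 9
  have e9b := key 2 8 9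
  have e10a := key 0 7 10
  have e10b := key 4 8 10
  have e10c := key 3 9 10
  obtain ⟨p0, p1, p2, p3, p4, p5, p6, p7, p8, p9, p10⟩ := coQ_add (f n p) (f n x) (f n y)
  have ea : ∀ s, coQ (f n p) (f n x) s = un W n s * W.crd n p x s := h.crd_eq g hp hx
  have eb : ∀ s, coQ (f n x) (f n y) s = un W n s * W.crd n x y s := h.crd_eq g hx hy
  have ee : ∀ s, coQ (f n p) (f n y) s = un W n s * W.crd n p y s := h.crd_eq g hp hy
  simp only [ea, eb, ee] at p0 p1 p2 p3 p4 p5 p6 p7 p8 p9 p10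
  refine ⟨?_, ?_, ?_, ?_, ?_, ?_, ?_, ?_, ?_, ?_, ?_⟩
  · refine mul_left_cancel₀ (hu 0) ?_
    linear_combination p0
  · refine mul_left_cancel₀ (hu 1) ?_
    linear_combination p1
  · refine mul_left_cancel₀ (hu 2) ?_
    linear_combination p2
  · refine mul_left_cancel₀ (hu 3) ?_
    linear_combination p3
  · refine mul_left_cancel₀ (hu 4) ?_
    linear_combination p4 - W.crd n p x 2 * W.crd n x y 3 * e4
  · refine mul_left_cancel₀ (hu 5) ?_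
    linear_combination p5
  · refine mul_left_cancel₀ (hu 6) ?_
    linear_combination p6 + W.crd n p x 2 * W.crd n x y 5 * e6
  · refine mul_left_cancel₀ (hu 7) ?_
    linear_combination p7 - 2 * W.crd n p x 0 * W.crd n x y 1 * er +
      W.crd n p x 4 * W.crd n x y 5 * e7b +
      W.crd n p x 2 * W.crd n p x 3 * W.crd n x y 5 * (un W n 5 * e4 + cf W n 2 3 4 * e7b) +
      W.crd n p x 3 * W.crd n x y 6 * e7c
  · refine mul_left_cancel₀ (hu 8) ?_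
    linear_combination p8 - W.crd n p x 0 * W.crd n x y 5 * e8
  · refine mul_left_cancel₀ (hu 9) ?_
    linear_combination p9 - W.crd n p x 0 * W.crd n x y 6 * e9a +
      W.crd n p x 2 * W.crd n x y 8 * e9b -
      W.crd n p x 2 * W.crd n p x 0 * W.crd n x y 5 * (un W n 2 * e8 + cf W n 0 5 8 * e9b)
  · refine mul_left_cancel₀ (hu 10) ?_
    linear_combination p10 - W.crd n p x 0 * W.crd n x y 7 * e10a +
      W.crd n p x 0 ^ 2 * W.crd n x y 1 * (un W n 0 * er + cf W n 0 1 7 * e10a) +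
      W.crd n p x 4 * W.crd n x y 8 * e10b -
      W.crd n p x 4 * W.crd n p x 0 * W.crd n x y 5 * (un W n 4 * e8 + cf W n 0 5 8 * e10b) +
      W.crd n p x 2 * W.crd n p x 3 * W.crd n x y 8 * (un W n 8 * e4 + cf W n 2 3 4 * e10b) -
      W.crd n p x 2 * W.crd n p x 3 * W.crd n p x 0 * W.crd n x y 5 *
        (un W n 0 * un W n 5 * e4 + cf W n 2 3 4 * (un W n 4 * e8 + cf W n 0 5 8 * e10b)) +
      W.crd n p x 3 * W.crd n x y 9 * e10c -
      W.crd n p x 3 * W.crd n p x 0 * W.crd n x y 6 * (un W n 3 * e9a + cf W n 0 6 9 * e10c)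

/-- relations of the coefficients -/
theorem cfR (n : ℕ) : CfR (cf W n) := by
  have hu : ∀ s, un W n s ≠ 0 := fun s => (h.un_pos n s).ne'
  have h2 := hu 2
  have h4 := hu 4
  have h6 := hu 6
  have h7 := hu 7
  have h8 := hu 8
  have h9 := hu 9
  have h10 := hu 10
  refine ⟨?_, ?_, ?_, ?_, ?_⟩ <;> (unfold cf; field_simp)

end QWnd

/-- **window with partially resolved slots** -/
structure PQ (W : Wnd 11 ι) (f : ∀ n, ι n → Fq4) (Rs : Finset (Fin 11)) (t : ℝ)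
    (q' : ℕ → Fin 11 → Fin 11 → Fin 11 → ℝ) : Prop where
  q : QWnd W f
  S0 : (0 : Fin 11) ∈ W.S
  sub : W.S ⊆ Rs
  kap4 : ∀ s, 4 * W.K0 ≤ W.kap s
  top : ∀ s ∈ Rs, t ≤ W.top s
  capp : ∀ᶠ n in (U : Filter ℕ), CApp (W.B'.d n ^ t) 1 (cf W n) (q' n)
  clo : ∀ᶠ n in (U : Filter ℕ), Clo Rs (q' n)

namespace PQ

variable {Rs : Finset (Fin 11)} {t : ℝ} {q' : ℕ → Fin 11 → Fin 11 → Fin 11 → ℝ}
  (P : PQ W f Rs t q')

include P

theorem k4 (s : Fin 11) : W.K0 / W.kap s ≤ 1 / 4 := by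
  have h1 := P.q.ok.kap s
  rw [div_le_div_iff₀ h1 (by norm_num)]
  linarith [P.kap4 s]

theorem crd4 {n : ℕ} (g : W.Good n) {u v : ι n} (hu : u ∈ W.Cl n) (hv : v ∈ W.Cl n)
    (s : Fin 11) : |W.crd n u v s| ≤ 1 / 4 :=
  (P.q.crd_le g hu hv s).trans (P.k4 s)

theorem sm4 {n : ℕ} {s : Fin 11} {x : ℝ} (hx : |x| ≤ (W.K0 / W.kap s) * W.B'.d n ^ t) :
    |x| ≤ (1 / 4) * W.B'.d n ^ t :=
  hx.trans (mul_le_mul_of_nonneg_right (P.k4 s) (Real.rpow_nonneg (W.B'.pos n).le t))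

theorem sm2 {n : ℕ} {s : Fin 11} {x : ℝ} (hx : |x| ≤ (2 * W.K0 / W.kap s) * W.B'.d n ^ t) :
    |x| ≤ (1 / 2) * W.B'.d n ^ t := by
  have h1 : 2 * W.K0 / W.kap s ≤ 1 / 2 := by
    have := P.k4 s
    rw [mul_div_assoc]
    linarith
  exact hx.trans (mul_le_mul_of_nonneg_right h1 (Real.rpow_nonneg (W.B'.pos n).le t))

/-- own motion of the additive flags -/
theorem add_ap {n : ℕ} (g : W.Good n) {x x' z z' : ι n} (hx : x ∈ W.Cl n) (hx' : x' ∈ W.Cl n)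
    (hz : z ∈ W.Cl n) (hz' : z' ∈ W.Cl n) (hlc : W.lc n x = W.lc n x') (hl : W.zc n x = W.zc n z)
    (hl' : W.zc n x' = W.zc n z') {s : Fin 11} (hs : s ∈ Rs) (hs' : s = 0 ∨ s = 2 ∨ s = 3) :
    |W.crd n x x' s - (if s ∈ W.S then W.crd n z z' s else 0)| ≤ (1 / 2) * W.B'.d n ^ t := by
  split_ifs with hsS
  · exact P.sm2 (P.q.own_add g hx hx' hz hz' hl hl' hsS hs' (P.top s hs))
  · rw [sub_zero]
    have := P.sm4 (P.q.crd_own g hx hx' hlc hsS (P.top s hs))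
    have := Real.rpow_nonneg (W.B'.pos n).le t
    linarith

/-- **own motion is a function of the heights**, resolved slots -/
theorem own_apP {n : ℕ} (g : W.Good n) (hca : CApp (W.B'.d n ^ t) 1 (cf W n) (q' n))
    (hcl : Clo Rs (q' n)) {E0 : Finset (ι n)} (hE : E0 ⊆ W.Cl n) {i k₀ k : ℕ}
    (h1 : (i, k₀) ∈ (W.cfg0 n E0).I) (h2 : (i, k) ∈ (W.cfg0 n E0).I) :
    (∀ s ∈ Rs, |W.crd n (W.rep n i k₀) (W.rep n i k) s -
      ownC (q' n) W n k₀ k (fsl W n i k₀ 2) (fsl W n i k₀ 3) s| ≤ 8 * W.B'.d n ^ t) ∧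
    (∀ s, |ownC (q' n) W n k₀ k (fsl W n i k₀ 2) (fsl W n i k₀ 3) s| ≤ 1) ∧
    ∀ s, s ∉ W.S → ownC (q' n) W n k₀ k (fsl W n i k₀ 2) (fsl W n i k₀ 3) s = 0 := by
  obtain ⟨a1, a2, a3⟩ := rep_of_mem hE h1
  obtain ⟨a1', a2', a3'⟩ := rep_of_mem hE h2
  have hZ : ∀ {i k : ℕ}, (i, k) ∈ (W.cfg0 n E0).I → W.zrep n k ∈ W.Cl n ∧
      W.zc n (W.zrep n k) = k := by
    intro i k hik
    have hk : k ∈ (W.cfg0 n E0).Z := mem_image.2 (by
      obtain ⟨u, hu, -, h6⟩ := mem_cfg0 hik; exact ⟨u, hu, h6⟩)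
    exact zrep_of_mem hE hk
  obtain ⟨c1, c2⟩ := hZ h1
  obtain ⟨c1', c2'⟩ := hZ h2
  set r := W.rep n i k₀
  set r' := W.rep n i k
  set z := W.zrep n k₀
  set z' := W.zrep n k
  set η := W.B'.d n ^ t with hη
  have hη0 : 0 ≤ η := Real.rpow_nonneg (W.B'.pos n).le t
  have B : ∀ {u v : ι n}, u ∈ W.Cl n → v ∈ W.Cl n → ∀ s, |W.crd n u v s| ≤ 1 / 4 :=
    fun hu hv s => P.crd4 g hu hv s
  have z4 : |(0 : ℝ)| ≤ 1 / 4 := by rw [abs_zero]; norm_num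
  have bmot : ∀ s, |mot W n k₀ k s| ≤ 1 / 4 := by
    intro s; unfold mot; split_ifs
    · exact B c1 c1' s
    · exact z4
  have bfsl : ∀ s, |fsl W n i k₀ s| ≤ 1 / 4 := by
    intro s; unfold fsl; split_ifs
    · exact z4
    · exact B c1 a1 s
  have hmot : ∀ s ∈ Rs, s = 0 ∨ s = 2 ∨ s = 3 →
      |W.crd n r r' s - mot W n k₀ k s| ≤ (1 / 2) * η := fun s hs hs' =>
    P.add_ap g a1 a1' c1 c1' (a2.trans a2'.symm) (a3.trans c2.symm) (a3'.trans c2'.symm) hs hs'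
  have hfsl : ∀ s ∈ Rs, |W.crd n z r s - fsl W n i k₀ s| ≤ (1 / 4) * η := by
    intro s hs
    unfold fsl
    split_ifs with hsS
    · rw [sub_zero]
      exact P.sm4 (P.q.crd_lev g c1 a1 (c2.trans a3.symm) hsS (P.top s hs))
    · rw [sub_self, abs_zero]; positivity
  -- the bound of the limit
  set Q' := fsl W n i k₀ 2 * mot W n k₀ k 3 + (fsl W n i k₀ 2 + mot W n k₀ k 2) *
      (W.crd n z z' 3 - fsl W n i k₀ 3 - mot W n k₀ k 3) with hQ'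
  set Q := W.crd n z r 2 * W.crd n r r' 3 + (W.crd n z r 2 + W.crd n r r' 2) *
      (W.crd n z z' 3 - W.crd n z r 3 - W.crd n r r' 3) with hQ
  have bd : ∀ {α β γ δ ε : ℝ}, |α| ≤ 1 / 4 → |β| ≤ 1 / 4 → |γ| ≤ 1 / 4 → |δ| ≤ 1 / 4 →
      |ε| ≤ 1 / 4 → |α * β + (α + γ) * (δ - ε - β)| ≤ 3 / 4 := by
    intro α β γ δ ε hα hβ hγ hδ hε
    refine (abs_add_le _ _).trans ?_
    rw [abs_mul, abs_mul]
    have e1 := mul_le_mul hα hβ (abs_nonneg _) (by norm_num)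
    have e2 := (abs_add_le α γ).trans (add_le_add hα hγ)
    have e3 := (abs_sub (δ - ε) β).trans (add_le_add ((abs_sub _ _).trans (add_le_add hδ hε)) hβ)
    have e4 := mul_le_mul e2 e3 (abs_nonneg _) (by norm_num)
    linarith
  have bQ' : |Q'| ≤ 3 / 4 := bd (bfsl 2) (bmot 3) (bmot 2) (B c1 c1' 3) (bfsl 3)
  have bQ : |Q| ≤ 3 / 4 := bd (B c1 a1 2) (B a1 a1' 3) (B a1 a1' 2) (B c1 c1' 3) (B c1 a1 3)
  have c234 : Ap η 1 1 (cf W n 2 3 4) (q' n 2 3 4) := hca.2.2.2.2.2.2.2.2.2.2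
  refine ⟨fun s hs => ?_, fun s => ?_, fun s hsS => ?_⟩
  · by_cases hs4 : s = 4
    · subst hs4
      unfold ownC
      rw [if_pos rfl]
      split_ifs with hS4
      · have e1 := P.q.crd_four g c1 a1 a1'
        have e2 := P.q.crd_four g c1 a1' c1'
        have e3 := P.q.crd_add g c1 a1 a1' (s := 2) (by simp)
        have e4 := P.q.crd_add g c1 a1 a1' (s := 3) (by simp)
        have e5 := P.q.crd_add g c1 a1' c1' (s := 3) (by simp)
        have ea : W.crd n r r' 4 = W.crd n z z' 4 - W.crd n z r 4 - W.crd n r' z' 4 +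
            cf W n 2 3 4 * Q := by
          have e6 : W.crd n z z' 3 - W.crd n z r 3 - W.crd n r r' 3 = W.crd n r' z' 3 := by
            linarith
          rw [hQ, e6, ← e3]
          linarith
        have l1 := P.sm4 (P.q.crd_lev g c1 a1 (c2.trans a3.symm) hS4 (P.top 4 hs))
        have l2 := P.sm4 (P.q.crd_lev g a1' c1' (a3'.trans c2'.symm) hS4 (P.top 4 hs))
        have m1 : Ap η 1 (1 + 4) (cf W n 2 3 4 * Q) (q' n 2 3 4 * Q') := by
          refine Ap.cmul hη0 c234 (bQ.trans (by norm_num)) (bQ'.trans (by norm_num)) (by norm_num) ?_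
          refine (hcl.w4 hs).imp id fun hh => ?_
          obtain ⟨r2, r3⟩ := hh
          have k2 : Ap η (1 / 4) (1 / 4) (W.crd n z r 2) (fsl W n i k₀ 2) :=
            ⟨B c1 a1 2, bfsl 2, hfsl 2 r2⟩
          have k3 : Ap η (1 / 4) (1 / 4) (W.crd n z r 3) (fsl W n i k₀ 3) :=
            ⟨B c1 a1 3, bfsl 3, hfsl 3 r3⟩
          have o2 : Ap η (1 / 4) (1 / 2) (W.crd n r r' 2) (mot W n k₀ k 2) :=
            ⟨B a1 a1' 2, bmot 2, hmot 2 r2 (by simp)⟩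
          have o3 : Ap η (1 / 4) (1 / 2) (W.crd n r r' 3) (mot W n k₀ k 3) :=
            ⟨B a1 a1' 3, bmot 3, hmot 3 r3 (by simp)⟩
          exact ((k2.mul o3).add ((k2.add o2).mul
            (((Ap.const (η := η) hη0 (B c1 c1' 3)).sub k3).sub o3))).mono hη0 (by norm_num)
        have e7 : W.crd n r r' 4 - (W.crd n z z' 4 + q' n 2 3 4 * Q') =
            (cf W n 2 3 4 * Q - q' n 2 3 4 * Q') - W.crd n z r 4 - W.crd n r' z' 4 := by
          rw [ea]; ring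
        rw [e7]
        have t1 := m1.d
        have t2 := abs_sub (cf W n 2 3 4 * Q - q' n 2 3 4 * Q' - W.crd n z r 4) (W.crd n r' z' 4)
        have t3 := abs_sub (cf W n 2 3 4 * Q - q' n 2 3 4 * Q') (W.crd n z r 4)
        linarith
      · rw [sub_zero]
        have := P.sm4 (P.q.crd_own g a1 a1' (a2.trans a2'.symm) hS4 (P.top 4 hs))
        linarith
    · unfold ownC
      rw [if_neg hs4]
      by_cases hs' : s = 0 ∨ s = 2 ∨ s = 3
      · have := hmot s hs hs'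
        linarith
      · have hsS : s ∉ W.S := by
          intro hm
          have := P.q.hS s hm
          tauto
        unfold mot
        rw [if_neg hsS, sub_zero]
        have := P.sm4 (P.q.crd_own g a1 a1' (a2.trans a2'.symm) hsS (P.top s hs))
        linarith
  · unfold ownC
    split_ifs
    · refine (abs_add_le _ _).trans ?_
      rw [abs_mul]
      have e1 := mul_le_mul c234.r bQ' (abs_nonneg _) zero_le_one
      have e2 := B c1 c1' 4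
      linarith
    · rw [abs_zero]; norm_num
    · exact (bmot s).trans (by norm_num)
  · unfold ownC
    by_cases hs4 : s = 4
    · subst hs4
      rw [if_pos rfl, if_neg hsS]
    · rw [if_neg hs4]
      unfold mot
      rw [if_neg hsS]

/-- **evolution**, one `n` -/
theorem evo0 {n : ℕ} (g : W.Good n) (hca : CApp (W.B'.d n ^ t) 1 (cf W n) (q' n))
    (hcl : Clo Rs (q' n)) {E0 : Finset (ι n)} (hE : E0 ⊆ W.Cl n) {k₀ k i l : ℕ}
    (h1 : (i, k₀) ∈ (W.cfg0 n E0).I) (h2 : (i, k) ∈ (W.cfg0 n E0).I)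
    (h3 : (l, k₀) ∈ (W.cfg0 n E0).I) (h4 : (l, k) ∈ (W.cfg0 n E0).I)
    (s : Fin 11) (hs : s ∈ Rs) (hsS : s ∉ W.S) :
    |(W.cfg0 n E0).rel k i l s -
      evoC (q' n) (ownC (q' n) W n k₀ k (fsl W n i k₀ 2) (fsl W n i k₀ 3))
        ((W.cfg0 n E0).rel k₀ i l) s| ≤ 3600 * W.B'.d n ^ t := by
  obtain ⟨a1, a2, a3⟩ := rep_of_mem hE h1
  obtain ⟨b1, b2, b3⟩ := rep_of_mem hE h2
  obtain ⟨c1, c2, c3⟩ := rep_of_mem hE h3
  obtain ⟨d1, d2, d3⟩ := rep_of_mem hE h4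
  have hZ : ∀ {i k : ℕ}, (i, k) ∈ (W.cfg0 n E0).I → W.zrep n k ∈ W.Cl n ∧
      W.zc n (W.zrep n k) = k := by
    intro i k hik
    have hk : k ∈ (W.cfg0 n E0).Z := mem_image.2 (by
      obtain ⟨u, hu, -, h6⟩ := mem_cfg0 hik; exact ⟨u, hu, h6⟩)
    exact zrep_of_mem hE hk
  obtain ⟨z1, z2⟩ := hZ h1
  obtain ⟨z1', z2'⟩ := hZ h2
  have hη0 : 0 ≤ W.B'.d n ^ t := Real.rpow_nonneg (W.B'.pos n).le t
  obtain ⟨o1, o2, o3⟩ := P.own_apP g hca hcl hE h1 h2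
  have key := evoP_fin (Rs := Rs) (S := W.S) (A := 8) hη0 (by norm_num) hca (P.q.cfR n) hcl
    (P.q.lawC g a1 b1 d1) (P.q.lawC g a1 c1 d1) (P.crd4 g a1 b1) (P.crd4 g a1 c1)
    (P.crd4 g c1 d1) (P.crd4 g b1 d1) (P.crd4 g a1 d1) o2
    (fun s hs => P.q.notMem (by tauto)) o1 o3
    (fun s hs hsS => (P.sm4 (P.q.crd_own g c1 d1 (c2.trans d2.symm) hsS (P.top s hs))).trans
      (by linarith))
    (fun s hs hs' => by
      have e1 := P.add_ap g a1 b1 z1 z1' (a2.trans b2.symm) (a3.trans z2.symm) (b3.trans z2'.symm)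
        hs (by tauto)
      have e2 := P.add_ap g c1 d1 z1 z1' (c2.trans d2.symm) (c3.trans z2.symm) (d3.trans z2'.symm)
        hs (by tauto)
      have e3 := abs_sub_le (W.crd n (W.rep n l k₀) (W.rep n l k) s)
        (if s ∈ W.S then W.crd n (W.zrep n k₀) (W.zrep n k) s else 0)
        (W.crd n (W.rep n i k₀) (W.rep n i k) s)
      rw [abs_sub_comm] at e1
      linarith)
    (fun s hsS => (P.sm4 (P.q.crd_lev g a1 c1 (a3.trans c3.symm) hsS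
      (P.top s (P.sub hsS)))).trans (by linarith))
    (fun s => rel_cfg0 (W := W) (n := n) (E := E0) k₀ i l s) s hs hsS
  rw [rel_cfg0 k i l s, if_neg hsS]
  refine key.trans (le_of_eq ?_)
  norm_num

variable {E : ∀ n, Finset (ι n)}

/-- **evolution of `rel`**, resolved slots -/
theorem evo (hc : ∀ᶠ n in (U : Filter ℕ), W.Good n ∧ E n ⊆ W.Cl n ∧
      W.cfg E n = W.cfg0 n (E n)) {ε : ℝ} (hε : 0 < ε) :
    ∀ᶠ n in (U : Filter ℕ), ∀ k₀ k i l, (i, k₀) ∈ (W.cfg E n).I → (i, k) ∈ (W.cfg E n).I →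
      (l, k₀) ∈ (W.cfg E n).I → (l, k) ∈ (W.cfg E n).I → ∀ s ∈ Rs, s ∉ W.S →
      |(W.cfg E n).rel k i l s -
        evoC (q' n) (ownC (q' n) W n k₀ k (fsl W n i k₀ 2) (fsl W n i k₀ 3))
          ((W.cfg E n).rel k₀ i l) s| ≤ W.B'.d n ^ (t - ε) := by
  filter_upwards [hc, P.capp, P.clo, Crest.Agent.R136.Gf356.ev_const_le W.B' hε 3600] with
    n hn hca hcl hk k₀ k i l h1 h2 h3 h4 s hs hsS
  obtain ⟨g, hE, hcfg⟩ := hn
  rw [hcfg] at h1 h2 h3 h4 ⊢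
  have e1 := P.evo0 g hca hcl hE h1 h2 h3 h4 s hs hsS
  have e4 : W.B'.d n ^ (t - ε) = W.B'.d n ^ (-ε) * W.B'.d n ^ t := by
    rw [← Real.rpow_add (W.B'.pos n)]; congr 1; ring
  rw [e4]
  exact e1.trans (mul_le_mul_of_nonneg_right hk (Real.rpow_nonneg (W.B'.pos n).le t))

/-- **composition of `rel`**, all line slots -/
theorem comp (hc : ∀ᶠ n in (U : Filter ℕ), W.Good n ∧ E n ⊆ W.Cl n ∧
      W.cfg E n = W.cfg0 n (E n)) {ε : ℝ} (hε : 0 < ε) :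
    ∀ᶠ n in (U : Filter ℕ), ∀ k i j l, (i, k) ∈ (W.cfg E n).I → (j, k) ∈ (W.cfg E n).I →
      (l, k) ∈ (W.cfg E n).I → ∀ s, s ∉ W.S →
      |(W.cfg E n).rel k i l s -
        compC (q' n) ((W.cfg E n).rel k i j) ((W.cfg E n).rel k j l) s| ≤
        W.B'.d n ^ (t - ε) := by
  filter_upwards [hc, P.capp, Crest.Agent.R136.Gf356.ev_const_le W.B' hε 50] with
    n hn hca hk k i j l h1 h2 h3 s hsS
  obtain ⟨g, hE, hcfg⟩ := hn
  rw [hcfg] at h1 h2 h3 ⊢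
  obtain ⟨a1, a2, a3⟩ := rep_of_mem hE h1
  obtain ⟨b1, b2, b3⟩ := rep_of_mem hE h2
  obtain ⟨c1, c2, c3⟩ := rep_of_mem hE h3
  have hη0 : 0 ≤ W.B'.d n ^ t := Real.rpow_nonneg (W.B'.pos n).le t
  have e1 := compP_fin (S := W.S) hη0 hca P.S0 (P.q.lawC g a1 b1 c1)
    (fun s => (P.crd4 g a1 b1 s).trans (by norm_num))
    (fun s => (P.crd4 g b1 c1 s).trans (by norm_num))
    (fun s hsS => (P.sm4 (P.q.crd_lev g a1 b1 (a3.trans b3.symm) hsS
      (P.top s (P.sub hsS)))).trans (by linarith))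
    (fun s => rel_cfg0 (W := W) (n := n) (E := E n) k i j s)
    (fun s hsS => (P.sm4 (P.q.crd_lev g b1 c1 (b3.trans c3.symm) hsS
      (P.top s (P.sub hsS)))).trans (by linarith))
    (fun s => rel_cfg0 (W := W) (n := n) (E := E n) k j l s) s
  rw [rel_cfg0 k i l s, if_neg hsS]
  have e4 : W.B'.d n ^ (t - ε) = W.B'.d n ^ (-ε) * W.B'.d n ^ t := by
    rw [← Real.rpow_add (W.B'.pos n)]; congr 1; ring
  rw [e4]
  exact e1.trans (mul_le_mul_of_nonneg_right hk hη0)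

end PQ

/-! ### the windows of helper413 -/

/-- closure of the resolved slots under the walls of `Ma` -/
structure CloM (Rs : Finset (Fin 11)) (Ma : Mons 11) : Prop where
  w4 : 4 ∈ Rs → mv 2 3 ∉ Ma.mon 4 ∨ (2 ∈ Rs ∧ 3 ∈ Rs)
  w6 : 6 ∈ Rs → mv 2 5 ∉ Ma.mon 6 ∨ (2 ∈ Rs ∧ 5 ∈ Rs)
  w7a : 7 ∈ Rs → mv 4 5 ∉ Ma.mon 7 ∨ (4 ∈ Rs ∧ 5 ∈ Rs)
  w7b : 7 ∈ Rs → mv 3 6 ∉ Ma.mon 7 ∨ (3 ∈ Rs ∧ 6 ∈ Rs)
  w8 : 8 ∈ Rs → mv 0 5 ∉ Ma.mon 8 ∨ (0 ∈ Rs ∧ 5 ∈ Rs)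
  w9a : 9 ∈ Rs → mv 0 6 ∉ Ma.mon 9 ∨ (0 ∈ Rs ∧ 6 ∈ Rs)
  w9b : 9 ∈ Rs → mv 2 8 ∉ Ma.mon 9 ∨ (2 ∈ Rs ∧ 8 ∈ Rs)
  w10a : 10 ∈ Rs → mv 0 7 ∉ Ma.mon 10 ∨ (0 ∈ Rs ∧ 7 ∈ Rs)
  w10b : 10 ∈ Rs → mv 4 8 ∉ Ma.mon 10 ∨ (4 ∈ Rs ∧ 8 ∈ Rs)
  w10c : 10 ∈ Rs → mv 3 9 ∉ Ma.mon 10 ∨ (3 ∈ Rs ∧ 9 ∈ Rs)

theorem CloM.clo {Rs : Finset (Fin 11)} {Ma : Mons 11} (h : CloM Rs Ma) (r : mv 0 1 ∉ Ma.mon 7)
    {q : Fin 11 → Fin 11 → Fin 11 → ℝ} (hq : ∀ i j s, mv i j ∉ Ma.mon s → q i j s = 0) :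
    Clo Rs q where
  w4 := fun hs => (h.w4 hs).imp (hq _ _ _) id
  w6 := fun hs => (h.w6 hs).imp (hq _ _ _) id
  w7r := hq _ _ _ r
  w7a := fun hs => (h.w7a hs).imp (hq _ _ _) id
  w7b := fun hs => (h.w7b hs).imp (hq _ _ _) id
  w8 := fun hs => (h.w8 hs).imp (hq _ _ _) id
  w9a := fun hs => (h.w9a hs).imp (hq _ _ _) id
  w9b := fun hs => (h.w9b hs).imp (hq _ _ _) id
  w10a := fun hs => (h.w10a hs).imp (hq _ _ _) id
  w10b := fun hs => (h.w10b hs).imp (hq _ _ _) id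
  w10c := fun hs => (h.w10c hs).imp (hq _ _ _) id

/-- windows without offset -/
theorem PQ.of_at {Ma : Mons 11} (h : QAt W f Ma) {Rs : Finset (Fin 11)} {t : ℝ} (t0 : 0 ≤ t)
    (sub : W.S ⊆ Rs) (top : ∀ s ∈ Rs, t ≤ W.top s) (cl : CloM Rs Ma) :
    PQ W f Rs t (fun _ => chi Ma) where
  q := h.q
  S0 := h.S0
  sub := sub
  kap4 := h.kap4
  top := top
  capp := h.capp t t0
  clo := Eventually.of_forall fun _ => cl.clo h.r fun _ _ _ hm => if_neg hm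


/-! ### offset windows, coefficients `≤ ρ^t` dropped -/

/-- coefficients of an offset window, those `≤ ρ^t` are dropped -/
noncomputable def chiT (ρ t : ℝ) (c0 : Fin 11 → ℝ) (Ma : Mons 11) (i j s : Fin 11) : ℝ :=
  if mv i j ∈ Ma.mon s ∧ c0 i + c0 j - c0 s < t then ρ ^ (c0 i + c0 j - c0 s) else 0

namespace QAtO

variable {c0 : Fin 11 → ℝ} {Ma : Mons 11} (h : QAtO W f c0 Ma)

include h



end QAtO

/-- a wall of `Ma` at distance `< t` in the offset window -/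
def WT (t : ℝ) (c0 : Fin 11 → ℝ) (Ma : Mons 11) (i j s : Fin 11) : Prop :=
  mv i j ∈ Ma.mon s ∧ c0 i + c0 j - c0 s < t

/-- closure of the resolved slots, offset windows -/
structure CloT (Rs : Finset (Fin 11)) (t : ℝ) (c0 : Fin 11 → ℝ) (Ma : Mons 11) : Prop where
  w4 : 4 ∈ Rs → WT t c0 Ma 2 3 4 → 2 ∈ Rs ∧ 3 ∈ Rs
  w6 : 6 ∈ Rs → WT t c0 Ma 2 5 6 → 2 ∈ Rs ∧ 5 ∈ Rs
  w7a : 7 ∈ Rs → WT t c0 Ma 4 5 7 → 4 ∈ Rs ∧ 5 ∈ Rs
  w7b : 7 ∈ Rs → WT t c0 Ma 3 6 7 → 3 ∈ Rs ∧ 6 ∈ Rs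
  w8 : 8 ∈ Rs → WT t c0 Ma 0 5 8 → 0 ∈ Rs ∧ 5 ∈ Rs
  w9a : 9 ∈ Rs → WT t c0 Ma 0 6 9 → 0 ∈ Rs ∧ 6 ∈ Rs
  w9b : 9 ∈ Rs → WT t c0 Ma 2 8 9 → 2 ∈ Rs ∧ 8 ∈ Rs
  w10a : 10 ∈ Rs → WT t c0 Ma 0 7 10 → 0 ∈ Rs ∧ 7 ∈ Rs
  w10b : 10 ∈ Rs → WT t c0 Ma 4 8 10 → 4 ∈ Rs ∧ 8 ∈ Rs
  w10c : 10 ∈ Rs → WT t c0 Ma 3 9 10 → 3 ∈ Rs ∧ 9 ∈ Rs

theorem CloT.clo {Rs : Finset (Fin 11)} {t : ℝ} {c0 : Fin 11 → ℝ} {Ma : Mons 11}
    (h : CloT Rs t c0 Ma) (r : mv 0 1 ∉ Ma.mon 7) (ρ : ℝ) : Clo Rs (chiT ρ t c0 Ma) := by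
  have key : ∀ {i j s : Fin 11}, (WT t c0 Ma i j s → i ∈ Rs ∧ j ∈ Rs) →
      chiT ρ t c0 Ma i j s = 0 ∨ (i ∈ Rs ∧ j ∈ Rs) := by
    intro i j s hh
    by_cases hw : WT t c0 Ma i j s
    · exact Or.inr (hh hw)
    · exact Or.inl (if_neg hw)
  exact ⟨fun hs => key (h.w4 hs), fun hs => key (h.w6 hs), if_neg fun hh => r hh.1,
    fun hs => key (h.w7a hs), fun hs => key (h.w7b hs), fun hs => key (h.w8 hs),
    fun hs => key (h.w9a hs), fun hs => key (h.w9b hs), fun hs => key (h.w10a hs),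
    fun hs => key (h.w10b hs), fun hs => key (h.w10c hs)⟩


end Crest.Agent.R136.Ev356
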