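import Crest.Agent.R136.C1a_865
import Crest.Agent.R136.C1c_865
import Crest.Agent.R136.Ev13_356
import Crest.Agent.R136.C2w_400
import Crest.Agent.R136.Tb6_628

-- ▼ part R136/C1b_865
section

/-!
# R136, case (C1), F-half, part 2 (helper865): the models `M0`, `M1` at a window of helper413

* `MaC` : active monomials of the plane with slack `F_b`; `own4` : own motion of `F_a`;
* `m0_of`, `m1_of` : `M0`, `M1` from 356's `PQ` (partially resolved slots);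
* `stC`, `stC_ok` : static data; `w0h`, `w1h` : `W0H`, `W1H` from `AeW`.
-/

set_option autoImplicit false
set_option linter.unusedSectionVars false
set_option linter.unusedVariables false

open Filter Topology

namespace Crest.Agent.R136.C1865

open Finset Crest.Agent.R136.NetQ186 Crest.Agent.R136.Net191 Crest.Agent.R136.Qg926
open Crest.Agent.R136.Gf356 Crest.Agent.R136.Ev356 Crest.Agent.R136.Aw413
open Crest.Agent.R136.Wq400 (qwnd_of_wat hcQ)
open Crest.Agent.R136.Fe1355 Crest.Agent.R136.Fe2355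
open Crest.Agent.R136.Tb628 (coneF)
open Crest.Agent.R138.Ex926 (Base U)

/-- active monomials of the plane with slack `F_b` -/
structure MaC (Ma : Mons 11) : Prop where
  sub : ∀ k, Ma.mon k ⊆ monQ.mon k
  cone : ∀ c, c ∈ coneM Ma ↔ c ∈ coneF
  m6 : mv 2 5 ∈ Ma.mon 6
  m7 : mv 4 5 ∈ Ma.mon 7
  m8 : mv 0 5 ∈ Ma.mon 8
  m9a : mv 0 6 ∈ Ma.mon 9
  m9b : mv 2 8 ∈ Ma.mon 9
  m10a : mv 0 7 ∈ Ma.mon 10
  m10b : mv 4 8 ∈ Ma.mon 10
  n4 : mv 2 3 ∉ Ma.mon 4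
  n7r : mv 0 1 ∉ Ma.mon 7
  n7 : mv 3 6 ∉ Ma.mon 7
  n10 : mv 3 9 ∉ Ma.mon 10

variable {ι : ℕ → Type*} [∀ n, DecidableEq (ι n)] {W : Wnd 11 ι} {f : ∀ n, ι n → Fq4}
  {E : ∀ n, Finset (ι n)} {T : ℝ} {Ma : Mons 11} {Rs : Finset (Fin 11)}

/-- closure of the resolved slots of the base window -/
theorem cloM0 (hM : MaC Ma) : CloM {0, 2, 5, 6, 8, 9} Ma where
  w4 := fun h => absurd h (by decide)
  w6 := fun _ => Or.inr (by decide)
  w7a := fun h => absurd h (by decide)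
  w7b := fun h => absurd h (by decide)
  w8 := fun _ => Or.inr (by decide)
  w9a := fun _ => Or.inr (by decide)
  w9b := fun _ => Or.inr (by decide)
  w10a := fun h => absurd h (by decide)
  w10b := fun h => absurd h (by decide)
  w10c := fun h => absurd h (by decide)

/-- closure, level slots `z, F_a`, without `E, C_b, X_b` -/
theorem cloM1 (hM : MaC Ma) : CloM {0, 4, 5, 7, 8, 10} Ma where
  w4 := fun _ => Or.inl hM.n4
  w6 := fun h => absurd h (by decide)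
  w7a := fun _ => Or.inr (by decide)
  w7b := fun _ => Or.inl hM.n7
  w8 := fun _ => Or.inr (by decide)
  w9a := fun h => absurd h (by decide)
  w9b := fun h => absurd h (by decide)
  w10a := fun _ => Or.inr (by decide)
  w10b := fun _ => Or.inr (by decide)
  w10c := fun _ => Or.inl hM.n10

/-- closure, level slots `z, F_a`, everything but `R, F_b` -/
theorem cloM2 (hM : MaC Ma) : CloM {0, 2, 4, 5, 6, 7, 8, 9, 10} Ma where
  w4 := fun _ => Or.inl hM.n4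
  w6 := fun _ => Or.inr (by decide)
  w7a := fun _ => Or.inr (by decide)
  w7b := fun _ => Or.inl hM.n7
  w8 := fun _ => Or.inr (by decide)
  w9a := fun _ => Or.inr (by decide)
  w9b := fun _ => Or.inr (by decide)
  w10a := fun _ => Or.inr (by decide)
  w10b := fun _ => Or.inr (by decide)
  w10c := fun _ => Or.inl hM.n10


/-- bounds of heights and flags -/
theorem zF_bd (Q : QAt W f Ma) (hkz : W.kz = 0)
    (hc : ∀ᶠ n in (U : Filter ℕ), W.Good n ∧ E n ⊆ W.Cl n ∧ W.cfg E n = W.cfg0 n (E n)) :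
    ∀ᶠ n in (U : Filter ℕ), ∀ k ∈ (W.cfg E n).Z,
      (W.cfg E n).z k = flg W n k 0 ∧ ∀ s, |flg W n k s| ≤ 1 / 4 := by
  filter_upwards [hc, Q.q.z_eq hkz hc] with n hn hz k hk
  obtain ⟨g, hE, hcfg⟩ := hn
  refine ⟨hz k, fun s => ?_⟩
  rw [hcfg] at hk
  obtain ⟨z1, z2⟩ := zrep_of_mem hE hk
  exact Q.crd4 g g.s0 z1 s

/-- own motion of the height and of `F_a` -/
theorem own04 (Q : QAt W f Ma) (hM : MaC Ma) (hkz : W.kz = 0)
    (hc : ∀ᶠ n in (U : Filter ℕ), W.Good n ∧ E n ⊆ W.Cl n ∧ W.cfg E n = W.cfg0 n (E n))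
    (hT : 0 ≤ T) :
    ∀ᶠ n in (U : Filter ℕ), ∀ k₀ ∈ (W.cfg E n).Z, ∀ k ∈ (W.cfg E n).Z, ∀ e b : ℝ,
      ownC (chi Ma) W n k₀ k e b 0 = (W.cfg E n).z k - (W.cfg E n).z k₀ ∧
      (4 ∈ W.S → |ownC (chi Ma) W n k₀ k e b 4 - (flg W n k 4 - flg W n k₀ 4)| ≤
        W.B'.d n ^ T) := by
  filter_upwards [Q.q.mot_eq hc, zF_bd Q hkz hc, Q.capp T hT] with n hmot hz hca k₀ hk₀ k hk e b
  obtain ⟨z1, z2⟩ := hz k hk
  obtain ⟨z1', z2'⟩ := hz k₀ hk₀
  obtain ⟨m1, m2⟩ := hmot k₀ hk₀ k hk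
  have h0 : 0 ≤ W.B'.d n ^ T := Real.rpow_nonneg (W.B'.pos n).le T
  refine ⟨?_, fun h4 => ?_⟩
  · unfold ownC mot
    rw [if_neg (by decide), if_pos Q.S0, m1 0 (by simp), z1, z1']
  · have e1 : chi Ma 2 3 4 = 0 := if_neg hM.n4
    have e2 : ownC (chi Ma) W n k₀ k e b 4 = W.crd n (W.zrep n k₀) (W.zrep n k) 4 := by
      unfold ownC
      rw [if_pos rfl, if_pos h4, e1, zero_mul, add_zero]
    rw [e2, m2]
    have e3 := hca.2.2.2.2.2.2.2.2.2.2.d
    rw [e1, sub_zero, one_mul] at e3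
    have e4 : flg W n k 4 - flg W n k₀ 4 +
        cf W n 2 3 4 * (flg W n k₀ 2 * (flg W n k 3 - flg W n k₀ 3)) -
        (flg W n k 4 - flg W n k₀ 4) =
        cf W n 2 3 4 * (flg W n k₀ 2 * (flg W n k 3 - flg W n k₀ 3)) := by ring
    rw [e4, abs_mul, abs_mul]
    have e5 := (abs_sub (flg W n k 3) (flg W n k₀ 3)).trans (add_le_add (z2 3) (z2' 3))
    have e6 := mul_le_mul (z2' 2) e5 (abs_nonneg _) (by norm_num)
    have e7 := mul_le_mul e3 e6 (by positivity) h0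
    linarith

/-- **own motion of `F_a` along a line** -/
theorem own4 (Q : QAt W f Ma) (P : PQ W f Rs T (fun _ => chi Ma)) (hM : MaC Ma) (hkz : W.kz = 0)
    (hc : ∀ᶠ n in (U : Filter ℕ), W.Good n ∧ E n ⊆ W.Cl n ∧ W.cfg E n = W.cfg0 n (E n))
    (hT : 0 ≤ T) (h4 : 4 ∈ W.S) :
    ∀ᶠ n in (U : Filter ℕ), ∀ i k₀ k, (i, k₀) ∈ (W.cfg E n).I → (i, k) ∈ (W.cfg E n).I →
      |W.crd n (W.rep n i k₀) (W.rep n i k) 4 - (flg W n k 4 - flg W n k₀ 4)| ≤
        9 * W.B'.d n ^ T := by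
  filter_upwards [hc, own04 Q hM hkz hc hT, P.capp, P.clo] with n hn hown hca hcl i k₀ k h1 h2
  obtain ⟨g, hE, hcfg⟩ := hn
  rw [hcfg] at h1 h2 hown
  have hZ : ∀ {i k : ℕ}, (i, k) ∈ (W.cfg0 n (E n)).I → k ∈ (W.cfg0 n (E n)).Z := by
    intro i k hik
    exact mem_image.2 (by obtain ⟨u, hu, -, h6⟩ := mem_cfg0 hik; exact ⟨u, hu, h6⟩)
  obtain ⟨o1, -, -⟩ := P.own_apP g hca hcl hE h1 h2
  have e1 := o1 4 (P.sub h4)
  have e2 := (hown k₀ (hZ h1) k (hZ h2) (fsl W n i k₀ 2) (fsl W n i k₀ 3)).2 h4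
  have e3 := abs_sub_le (W.crd n (W.rep n i k₀) (W.rep n i k) 4)
    (ownC (chi Ma) W n k₀ k (fsl W n i k₀ 2) (fsl W n i k₀ 3) 4)
    (flg W n k 4 - flg W n k₀ 4)
  linarith

/-- **raw twist of `F_a` between heights** -/
theorem rawTw4 (Q : QAt W f Ma) (P : PQ W f Rs T (fun _ => chi Ma)) (hM : MaC Ma)
    (hkz : W.kz = 0)
    (hc : ∀ᶠ n in (U : Filter ℕ), W.Good n ∧ E n ⊆ W.Cl n ∧ W.cfg E n = W.cfg0 n (E n))
    (hT : 0 < T) (h4 : 4 ∈ W.S) (hr : RawL W E 4) :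
    RawTw W.B' (W.cfg E) (fun n k k' => flg W n k' 4 - flg W n k 4) := by
  intro ε hε
  set δ : ℝ := min (ε / 2) (T / 2) with hδ
  have hδ0 : 0 < δ := lt_min (by positivity) (by positivity)
  have hδε : δ < ε := lt_of_le_of_lt (min_le_left _ _) (by linarith)
  have hδT : δ < T := lt_of_le_of_lt (min_le_right _ _) (by linarith)
  filter_upwards [hr δ hδ0 (1 / 2) (by norm_num), own4 Q P hM hkz hc hT.le h4,
    ev_const_le W.B' (show 0 < ε - δ by linarith) 2,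
    ev_const_le W.B' (show 0 < T - δ by linarith) 18] with n hrn hown h2 h3
  intro i hi S hS hSm
  have hd0 : 0 < W.B'.d n := W.B'.pos n
  have hpow : ∀ t : ℝ, 0 < W.B'.d n ^ t := fun t => Real.rpow_pos_of_pos hd0 t
  have a1 : W.B'.d n ^ ε ≤ W.B'.d n ^ δ / 2 := by
    have : W.B'.d n ^ ε * W.B'.d n ^ (-(ε - δ)) = W.B'.d n ^ δ := by
      rw [← Real.rpow_add hd0]; congr 1; ring
    have h4 := mul_le_mul_of_nonneg_left h2 (hpow ε).le
    rw [this] at h4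
    linarith
  have a2 : 9 * W.B'.d n ^ T ≤ W.B'.d n ^ δ / 2 := by
    have : W.B'.d n ^ T * W.B'.d n ^ (-(T - δ)) = W.B'.d n ^ δ := by
      rw [← Real.rpow_add hd0]; congr 1; ring
    have h4 := mul_le_mul_of_nonneg_left h3 (hpow T).le
    rw [this] at h4
    linarith
  classical
  have hsub : S ⊆ ((W.cfg E n).hts i).biUnion fun k =>
      (((W.cfg E n).hts i).filter fun k' =>
        |W.crd n (W.rep n i k) (W.rep n i k') 4| ≤ W.B'.d n ^ δ).image fun k' => (k, k') := by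
    intro q hq
    obtain ⟨q1, q2⟩ := mem_product.1 (hS hq)
    refine mem_biUnion.2 ⟨q.1, q1, mem_image.2 ⟨q.2, mem_filter.2 ⟨q2, ?_⟩, rfl⟩⟩
    have g1 := (RCfg.mem_hts.1 q1)
    have g2 := (RCfg.mem_hts.1 q2)
    have m2 := hown i q.1 q.2 g1.2 g2.2
    have m3 := hSm q hq
    have m5 := abs_sub_abs_le_abs_sub (W.crd n (W.rep n i q.1) (W.rep n i q.2) 4)
      (flg W n q.2 4 - flg W n q.1 4)
    linarith
  have hcard : (S.card : ℝ) ≤ ∑ k ∈ (W.cfg E n).hts i,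
      1 / 2 * (((W.cfg E n).hts i).card : ℝ) := by
    have h5 : (S.card : ℝ) ≤ ∑ k ∈ (W.cfg E n).hts i,
        ((((W.cfg E n).hts i).filter fun k' =>
        |W.crd n (W.rep n i k) (W.rep n i k') 4| ≤ W.B'.d n ^ δ).card : ℝ) := by
      have h6 := (card_le_card hsub).trans card_biUnion_le
      have h7 : ∑ k ∈ (W.cfg E n).hts i, ((((W.cfg E n).hts i).filter fun k' =>
          |W.crd n (W.rep n i k) (W.rep n i k') 4| ≤ W.B'.d n ^ δ).image
            fun k' => (k, k')).card ≤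
          ∑ k ∈ (W.cfg E n).hts i, (((W.cfg E n).hts i).filter fun k' =>
          |W.crd n (W.rep n i k) (W.rep n i k') 4| ≤ W.B'.d n ^ δ).card :=
        sum_le_sum fun k _ => card_image_le
      exact_mod_cast h6.trans h7
    exact h5.trans (sum_le_sum fun k hk => hrn i hi k hk)
  rw [sum_const, nsmul_eq_mul] at hcard
  nlinarith

/-- `rel` is bounded -/
theorem rel_ev (Q : QAt W f Ma)
    (hc : ∀ᶠ n in (U : Filter ℕ), W.Good n ∧ E n ⊆ W.Cl n ∧ W.cfg E n = W.cfg0 n (E n))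
    {ε : ℝ} (hε : 0 < ε) :
    ∀ᶠ n in (U : Filter ℕ), ∀ k i l, (i, k) ∈ (W.cfg E n).I → (l, k) ∈ (W.cfg E n).I →
      ∀ s, |(W.cfg E n).rel k i l s| ≤ W.B'.d n ^ (-ε) := by
  filter_upwards [hc, ev_const_le W.B' hε (1 / 4)] with n hn h2 k i l h3 h4 s
  obtain ⟨g, hE, hcfg⟩ := hn
  rw [hcfg] at h3 h4 ⊢
  exact (Q.rel_le g hE h3 h4 s).trans h2

/-- heights of incidences -/
theorem Z_of_I {n : ℕ} (hcfg : W.cfg E n = W.cfg0 n (E n)) {i k : ℕ}
    (h : (i, k) ∈ (W.cfg E n).I) : k ∈ (W.cfg E n).Z := by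
  rw [hcfg] at h ⊢
  exact mem_image.2 (by obtain ⟨u, hu, -, h6⟩ := mem_cfg0 h; exact ⟨u, hu, h6⟩)

/-- **evolution of `C_a, P, X_a, N`** and of `E, C_b, X_b` -/
theorem evA_of (Q : QAt W f Ma) (P : PQ W f Rs T (fun _ => chi Ma)) (hM : MaC Ma)
    (hkz : W.kz = 0)
    (hc : ∀ᶠ n in (U : Filter ℕ), W.Good n ∧ E n ⊆ W.Cl n ∧ W.cfg E n = W.cfg0 n (E n))
    (hT : 0 ≤ T) (hS : ∀ s ∈ W.S, s = 0 ∨ s = 4) {ε : ℝ} (hε : 0 < ε) :
    ∀ᶠ n in (U : Filter ℕ), ∀ k k' i l, (i, k) ∈ (W.cfg E n).I →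
      (l, k) ∈ (W.cfg E n).I → (i, k') ∈ (W.cfg E n).I → (l, k') ∈ (W.cfg E n).I →
      (4 ∈ W.S → 5 ∈ Rs → 7 ∈ Rs → 8 ∈ Rs → 10 ∈ Rs →
        EvA (W.B'.d n ^ (T - ε)) ((W.cfg E n).z k' - (W.cfg E n).z k)
          (flg W n k' 4 - flg W n k 4) ((W.cfg E n).rel k i l) ((W.cfg E n).rel k' i l)) ∧
      (8 ∈ Rs → |(W.cfg E n).rel k' i l 8 - ((W.cfg E n).rel k i l 8 +
        ((W.cfg E n).z k' - (W.cfg E n).z k) * (W.cfg E n).rel k i l 5)| ≤
          W.B'.d n ^ (T - ε)) ∧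
      (2 ∈ Rs → 6 ∈ Rs → 9 ∈ Rs →
        EvB (W.B'.d n ^ (T - ε)) ((W.cfg E n).z k' - (W.cfg E n).z k)
          ((W.cfg E n).rel k i l) ((W.cfg E n).rel k' i l)) := by
  have n5 : (5 : Fin 11) ∉ W.S := fun h => by rcases hS 5 h with h | h <;> exact absurd h (by decide)
  have n7 : (7 : Fin 11) ∉ W.S := fun h => by rcases hS 7 h with h | h <;> exact absurd h (by decide)
  have n8 : (8 : Fin 11) ∉ W.S := fun h => by rcases hS 8 h with h | h <;> exact absurd h (by decide)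
  have n10 : (10 : Fin 11) ∉ W.S := fun h => by
    rcases hS 10 h with h | h <;> exact absurd h (by decide)
  have n2 : (2 : Fin 11) ∉ W.S := fun h => by rcases hS 2 h with h | h <;> exact absurd h (by decide)
  have n6 : (6 : Fin 11) ∉ W.S := fun h => by rcases hS 6 h with h | h <;> exact absurd h (by decide)
  have n9 : (9 : Fin 11) ∉ W.S := fun h => by rcases hS 9 h with h | h <;> exact absurd h (by decide)
  have c256 : chi Ma 2 5 6 = 1 := if_pos hM.m6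
  have c457 : chi Ma 4 5 7 = 1 := if_pos hM.m7
  have c058 : chi Ma 0 5 8 = 1 := if_pos hM.m8
  have c069 : chi Ma 0 6 9 = 1 := if_pos hM.m9a
  have c289 : chi Ma 2 8 9 = 1 := if_pos hM.m9b
  have c0710 : chi Ma 0 7 10 = 1 := if_pos hM.m10a
  have c4810 : chi Ma 4 8 10 = 1 := if_pos hM.m10b
  have c017 : chi Ma 0 1 7 = 0 := if_neg hM.n7r
  have c367 : chi Ma 3 6 7 = 0 := if_neg hM.n7
  have c3910 : chi Ma 3 9 10 = 0 := if_neg hM.n10
  filter_upwards [hc, P.evo hc (half_pos hε), own04 Q hM hkz hc hT,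
    zF_bd Q hkz hc, ev_const_le W.B' (half_pos hε) 2]
    with n hn hev hown hzb h2c k k' i l h1 h2 h3 h4
  obtain ⟨g, hE, hcfg⟩ := hn
  have hk := Z_of_I hcfg h1
  have hk' := Z_of_I hcfg h3
  have rl : ∀ s, |(W.cfg E n).rel k i l s| ≤ 1 / 4 := by
    intro s
    rw [hcfg] at h1 h2 ⊢
    exact Q.rel_le g hE h1 h2 s
  have key := hev k k' i l h1 h3 h2 h4
  obtain ⟨o0, o4⟩ := hown k hk k' hk' (fsl W n i k 2) (fsl W n i k 3)
  set a := ownC (chi Ma) W n k k' (fsl W n i k 2) (fsl W n i k 3) with ha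
  set b := (W.cfg E n).rel k i l with hb
  set b' := (W.cfg E n).rel k' i l with hb'
  set u := (W.cfg E n).z k' - (W.cfg E n).z k with hu
  have a2 : a 2 = 0 := by
    rw [ha]; unfold ownC mot
    rw [if_neg (by decide), if_neg n2]
  obtain ⟨z1, z2⟩ := hzb k hk
  obtain ⟨z1', z2'⟩ := hzb k' hk'
  have ub : |u| ≤ 1 / 2 := by
    rw [hu, z1, z1']
    have := (abs_sub (flg W n k' 0) (flg W n k 0)).trans (add_le_add (z2' 0) (z2 0))
    linarith
  have hd0 : 0 < W.B'.d n := W.B'.pos n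
  have hpow : ∀ t : ℝ, 0 < W.B'.d n ^ t := fun t => Real.rpow_pos_of_pos hd0 t
  have d1 : W.B'.d n ^ (T - ε / 2) + W.B'.d n ^ T ≤ W.B'.d n ^ (T - ε) := by
    have e1 : W.B'.d n ^ (T - ε) = W.B'.d n ^ (-(ε / 2)) * W.B'.d n ^ (T - ε / 2) := by
      rw [← Real.rpow_add hd0]; congr 1; ring
    have e2 : W.B'.d n ^ T ≤ W.B'.d n ^ (T - ε / 2) :=
      Real.rpow_le_rpow_of_exponent_ge hd0 (W.B'.lt n).le (by linarith)
    rw [e1]
    have := hpow (T - ε / 2)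
    nlinarith
  have d0 : W.B'.d n ^ (T - ε / 2) ≤ W.B'.d n ^ (T - ε) := by
    linarith [(hpow T).le]
  refine ⟨fun h4S r5 r7 r8 r10 => ?_, fun r8 => ?_, fun r2 r6 r9 => ?_⟩
  · have hφ := o4 h4S
    set φ := flg W n k' 4 - flg W n k 4 with hφd
    have sm4 : ∀ x : ℝ, |x| ≤ 1 → |(a 4 - φ) * x| ≤ W.B'.d n ^ T := by
      intro x hx
      rw [abs_mul]
      have := mul_le_mul hφ hx (abs_nonneg _) (hpow T).le
      linarith
    refine ⟨?_, ?_, ?_, ?_⟩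
    · have := key 5 r5 n5
      have e : evoC (chi Ma) a b 5 = b 5 := by simp [evoC]
      rw [e] at this
      exact this.trans d0
    · have := key 7 r7 n7
      have e : evoC (chi Ma) a b 7 = b 7 - a 4 * b 5 := by
        simp only [evoC, Matrix.cons_val]; rw [c017, c457, c367]; ring
      rw [e] at this
      have e2 : b' 7 - (b 7 - φ * b 5) = (b' 7 - (b 7 - a 4 * b 5)) - (a 4 - φ) * b 5 := by ring
      rw [e2]
      have e3 := abs_sub (b' 7 - (b 7 - a 4 * b 5)) ((a 4 - φ) * b 5)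
      have e4 := sm4 (b 5) ((rl 5).trans (by norm_num))
      linarith
    · have := key 8 r8 n8
      have e : evoC (chi Ma) a b 8 = b 8 + u * b 5 := by
        simp only [evoC, Matrix.cons_val]; rw [c058, o0]; ring
      rw [e] at this
      exact this.trans d0
    · have := key 10 r10 n10
      have e : evoC (chi Ma) a b 10 = b 10 + u * b 7 - a 4 * (b 8 + u * b 5) := by
        simp only [evoC, Matrix.cons_val]; rw [c058, c0710, c017, c4810, c3910, o0]; ring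
      rw [e] at this
      have e2 : b' 10 - (b 10 + u * b 7 - φ * (b 8 + u * b 5)) =
          (b' 10 - (b 10 + u * b 7 - a 4 * (b 8 + u * b 5))) - (a 4 - φ) * (b 8 + u * b 5) := by
        ring
      rw [e2]
      have e3 := abs_sub (b' 10 - (b 10 + u * b 7 - a 4 * (b 8 + u * b 5)))
        ((a 4 - φ) * (b 8 + u * b 5))
      have e5 : |b 8 + u * b 5| ≤ 1 := by
        have f1 := abs_add_le (b 8) (u * b 5)
        have f2 : |u * b 5| ≤ 1 / 2 * (1 / 4) := by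
          rw [abs_mul]
          exact mul_le_mul ub (rl 5) (abs_nonneg _) (by norm_num)
        have f3 := rl 8
        linarith
      have e4 := sm4 _ e5
      linarith
  · have := key 8 r8 n8
    have e : evoC (chi Ma) a b 8 = b 8 + u * b 5 := by
      simp only [evoC, Matrix.cons_val]; rw [c058, o0]; ring
    rw [e] at this
    exact this.trans d0
  · refine ⟨?_, ?_, ?_⟩
    · have := key 2 r2 n2
      have e : evoC (chi Ma) a b 2 = b 2 := by simp [evoC]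
      rw [e] at this
      exact this.trans d0
    · have := key 6 r6 n6
      have e : evoC (chi Ma) a b 6 = b 6 := by
        simp only [evoC, Matrix.cons_val]; rw [a2]; ring
      rw [e] at this
      exact this.trans d0
    · have := key 9 r9 n9
      have e : evoC (chi Ma) a b 9 = b 9 + u * b 6 := by
        simp only [evoC, Matrix.cons_val]; rw [c069, a2, o0]; ring
      rw [e] at this
      exact this.trans d0

/-! ### the models -/

/-- tops of the windows -/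
def tp0 (T : ℝ) : Fin 11 → ℝ := bz T 0 T T T 0 T T 0
def tp1 (T : ℝ) : Fin 11 → ℝ := bz T T 0 T 0 T T 0 T
def tp2 (T : ℝ) : Fin 11 → ℝ := bz T T T T T T T T T

theorem cut0 (T e ca cb xa xb : ℝ) :
    cut {0} (bw e ca cb 0 xa xb 0) (tp0 T) = bz T 0 e ca cb 0 xa xb 0 := by
  funext j
  fin_cases j <;> simp [cut, bw, bz, tp0]

theorem cut1 (T e ca cb p xa xb n : ℝ) :
    cut {0, 4} (bw e ca cb p xa xb n) (tp1 T) = bz T T e ca cb p xa xb n := by
  funext j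
  fin_cases j <;> simp [cut, bw, bz, tp1]

theorem cut2 (T e ca cb p xa xb n : ℝ) :
    cut {0, 4} (bw e ca cb p xa xb n) (tp2 T) = bz T T e ca cb p xa xb n := by
  funext j
  fin_cases j <;> simp [cut, bw, bz, tp2]

/-- legality of a box of the cone -/
theorem leg_bz (hM : MaC Ma) {R z f e ca cb p xa xb n : ℝ} (h : bz z f e ca cb p xa xb n ∈ coneF)
    (h0 : 0 ≤ z ∧ z ≤ R) (h1 : 0 ≤ f ∧ f ≤ R) (h2 : 0 ≤ e ∧ e ≤ R) (h3 : 0 ≤ ca ∧ ca ≤ R)
    (h4 : 0 ≤ cb ∧ cb ≤ R) (h5 : 0 ≤ p ∧ p ≤ R) (h6 : 0 ≤ xa ∧ xa ≤ R) (h7 : 0 ≤ xb ∧ xb ≤ R)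
    (h8 : 0 ≤ n ∧ n ≤ R) : bz z f e ca cb p xa xb n ∈ Leg Ma R := by
  have hR : 0 ≤ R := h0.1.trans h0.2
  refine ⟨⟨fun k => ?_, fun k m hm => (hM.cone _).2 h k m hm⟩, fun k => ?_⟩
  · fin_cases k <;> simp [bz] <;>
      first | exact h0.1 | exact h1.1 | exact h2.1 | exact h3.1 | exact h4.1 | exact h5.1 |
        exact h6.1 | exact h7.1 | exact h8.1
  · fin_cases k <;> simp [bz] <;>
      first | exact hR | exact h0.2 | exact h1.2 | exact h2.2 | exact h3.2 | exact h4.2 |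
        exact h5.2 | exact h6.2 | exact h7.2 | exact h8.2

/-- the base window -/
structure Win0 (W : Wnd 11 ι) (Ma : Mons 11) (T : ℝ) : Prop where
  kz : W.kz = 0
  S : W.S = {0}
  top : W.top = tp0 T
  R' : W.R' = T
  Mw : W.Mw = Ma
  T0 : 0 < T

/-- **the base model** -/
theorem m0_of (Q : QAt W f Ma) (hM : MaC Ma)
    (hc : ∀ᶠ n in (U : Filter ℕ), W.Good n ∧ E n ⊆ W.Cl n ∧ W.cfg E n = W.cfg0 n (E n))
    (hw : Win0 W Ma T) (H : RModel W.B' (W.cfg E) 1 T W.legW W.nu W.Dc) :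
    M0 W.B' (W.cfg E) W.legW W.nu T W.Dc where
  H := H
  T0 := hw.T0
  leg := fun e ca cb xa xb e0 e1 ca0 ca1 cb0 cb1 xa0 xa1 xb0 xb1 w6 w9 => by
    have hT := hw.T0
    refine ⟨?_, fun s hs => ?_⟩
    · rw [hw.S, hw.top, cut0, hw.R', hw.Mw]
      exact leg_bz hM (mem_bz.2 ⟨w6, by linarith, by linarith, by linarith, w9, by linarith,
        by linarith⟩) ⟨hT.le, le_rfl⟩ ⟨le_rfl, hT.le⟩ ⟨e0, e1⟩ ⟨ca0, ca1⟩ ⟨cb0, cb1⟩
        ⟨le_rfl, hT.le⟩ ⟨xa0, xa1⟩ ⟨xb0, xb1⟩ ⟨le_rfl, hT.le⟩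
    · rw [hw.top]
      fin_cases s <;> simp [bw, tp0, bz] <;> first | exact hT.le | assumption
  zb := fun ε hε => by
    filter_upwards [zF_bd Q hw.kz hc, ev_const_le W.B' hε 2] with n hn h2 k hk k' hk'
    obtain ⟨a1, a2⟩ := hn k hk
    obtain ⟨a1', a2'⟩ := hn k' hk'
    rw [a1, a1']
    have := (abs_sub (flg W n k' 0) (flg W n k 0)).trans (add_le_add (a2' 0) (a2 0))
    linarith
  rb := fun ε hε => rel_ev Q hc hε
  ev := fun ε hε => by
    have P : PQ W f {0, 2, 5, 6, 8, 9} T (fun _ => chi Ma) :=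
      PQ.of_at Q hw.T0.le (by rw [hw.S]; decide) (by
        intro s hs
        rw [hw.top]
        fin_cases s <;> simp [tp0, bz] at hs ⊢) (cloM0 hM)
    filter_upwards [evA_of Q P hM hw.kz hc hw.T0.le (fun s hs => Or.inl (by
      rw [hw.S] at hs; simpa using hs)) hε] with n hn k k' i l h1 h2 h3 h4
    obtain ⟨-, e2, e3⟩ := hn k k' i l h1 h2 h3 h4
    have e3 := e3 (by decide) (by decide) (by decide)
    exact ⟨e3.e2, e2 (by decide), e3.e9⟩
  co := fun ε hε => by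
    have P : PQ W f {0, 2, 5, 6, 8, 9} T (fun _ => chi Ma) :=
      PQ.of_at Q hw.T0.le (by rw [hw.S]; decide) (by
        intro s hs
        rw [hw.top]
        fin_cases s <;> simp [tp0, bz] at hs ⊢) (cloM0 hM)
    filter_upwards [P.comp hc hε] with n hn k i l l' h1 h2 h3
    have c289 : chi Ma 2 8 9 = 1 := if_pos hM.m9b
    have e8 := hn k i l l' h1 h2 h3 8 (by rw [hw.S]; decide)
    have e9 := hn k i l l' h1 h2 h3 9 (by rw [hw.S]; decide)
    have e : compC (chi Ma) ((W.cfg E n).rel k i l) ((W.cfg E n).rel k l l') 8 =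
        (W.cfg E n).rel k i l 8 + (W.cfg E n).rel k l l' 8 := by simp [compC]
    have e' : compC (chi Ma) ((W.cfg E n).rel k i l) ((W.cfg E n).rel k l l') 9 =
        (W.cfg E n).rel k i l 9 + (W.cfg E n).rel k l l' 9 +
          (W.cfg E n).rel k i l 2 * (W.cfg E n).rel k l l' 8 := by
      simp only [compC, Matrix.cons_val]; rw [c289]; ring
    rw [e] at e8
    rw [e'] at e9
    refine ⟨?_, ?_⟩
    · rw [sub_sub]; exact e8
    · rw [sub_sub, sub_sub, ← add_assoc]; exact e9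

/-- a window with level slots `{z, F_a}` -/
structure Win1 (W : Wnd 11 ι) (Ma : Mons 11) (T : ℝ) (tp : Fin 11 → ℝ) (Rs : Finset (Fin 11))
    (Rb : Prop) : Prop where
  kz : W.kz = 0
  S : W.S = {0, 4}
  top : W.top = tp
  R' : W.R' = T
  Mw : W.Mw = Ma
  T0 : 0 < T
  cut : ∀ e ca cb p xa xb n : ℝ, cut {0, 4} (bw e ca cb p xa xb n) tp =
    bz T T e ca cb p xa xb n
  le : ∀ e ca cb p xa xb n : ℝ, 0 ≤ e → e ≤ T → 0 ≤ ca → ca ≤ T → 0 ≤ cb → cb ≤ T → 0 ≤ p →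
    p ≤ T → 0 ≤ xa → xa ≤ T → 0 ≤ xb → xb ≤ T → 0 ≤ n → n ≤ T →
    (Rb ∨ (e = 0 ∧ cb = 0 ∧ xb = 0)) → ∀ s, s ∉ ({0, 4} : Finset (Fin 11)) →
      bw e ca cb p xa xb n s ≤ tp s
  res : ∀ s ∈ Rs, T ≤ tp s
  sub : ({0, 4} : Finset (Fin 11)) ⊆ Rs
  clo : CloM Rs Ma
  r5 : 5 ∈ Rs
  r7 : 7 ∈ Rs
  r8 : 8 ∈ Rs
  r10 : 10 ∈ Rs
  rb : Rb → 2 ∈ Rs ∧ 6 ∈ Rs ∧ 9 ∈ Rs

/-- **the model with level slots `{z, F_a}`** -/
theorem m1_of (Q : QAt W f Ma) (hM : MaC Ma)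
    (hc : ∀ᶠ n in (U : Filter ℕ), W.Good n ∧ E n ⊆ W.Cl n ∧ W.cfg E n = W.cfg0 n (E n))
    {tp : Fin 11 → ℝ} {Rb : Prop}
    (hw : Win1 W Ma T tp Rs Rb) (H : RModel W.B' (W.cfg E) 1 T W.legW W.nu W.Dc)
    (hr : RawL W E 4) :
    M1 W.B' (W.cfg E) W.legW W.nu T W.Dc (fun n k => flg W n k 4) Rb where
  H := H
  T0 := hw.T0
  leg := fun e ca cb p xa xb n e0 e1 ca0 ca1 cb0 cb1 p0 p1 xa0 xa1 xb0 xb1 n0 n1 w6 w9 hR => by
    have hT := hw.T0
    refine ⟨?_, fun s hs => ?_⟩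
    · rw [hw.S, hw.top, hw.cut, hw.R', hw.Mw]
      exact leg_bz hM (mem_bz.2 ⟨w6, by linarith, by linarith, by linarith, w9, by linarith,
        by linarith⟩) ⟨hT.le, le_rfl⟩ ⟨hT.le, le_rfl⟩ ⟨e0, e1⟩ ⟨ca0, ca1⟩ ⟨cb0, cb1⟩
        ⟨p0, p1⟩ ⟨xa0, xa1⟩ ⟨xb0, xb1⟩ ⟨n0, n1⟩
    · rw [hw.top]
      rw [hw.S] at hs
      exact hw.le e ca cb p xa xb n e0 e1 ca0 ca1 cb0 cb1 p0 p1 xa0 xa1 xb0 xb1 n0 n1 hR s hs
  bd := by
    filter_upwards [zF_bd Q hw.kz hc] with n hn k hk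
    obtain ⟨a1, a2⟩ := hn k hk
    rw [a1]
    exact ⟨(a2 0).trans (by norm_num), (a2 4).trans (by norm_num)⟩
  rb := fun ε hε => rel_ev Q hc hε
  ev := fun ε hε => by
    have P : PQ W f Rs T (fun _ => chi Ma) :=
      PQ.of_at Q hw.T0.le (by rw [hw.S]; exact hw.sub) (by rw [hw.top]; exact hw.res) hw.clo
    filter_upwards [evA_of Q P hM hw.kz hc hw.T0.le (fun s hs => (by
      rw [hw.S] at hs; simpa using hs)) hε] with n hn k k' i l h1 h2 h3 h4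
    obtain ⟨e1, e2, e3⟩ := hn k k' i l h1 h2 h3 h4
    refine ⟨e1 (by rw [hw.S]; decide) hw.r5 hw.r7 hw.r8 hw.r10, fun hR => ?_⟩
    obtain ⟨r2, r6, r9⟩ := hw.rb hR
    exact e3 r2 r6 r9
  tw := by
    have P : PQ W f Rs T (fun _ => chi Ma) :=
      PQ.of_at Q hw.T0.le (by rw [hw.S]; exact hw.sub) (by rw [hw.top]; exact hw.res) hw.clo
    exact rawTw4 Q P hM hw.kz hc hw.T0 (by rw [hw.S]; decide) hr

end Crest.Agent.R136.C1865
end

-- ▼ part R136/C1d_865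

/-!
# R136, case (C1), F-half, part 4 (helper865): windows of `AeW` with level slots `{z, F_a}`

* `maC_act` : active monomials of the plane with slack `F_b`;
* `stC`, `stC_ok` : static data;
* `dens_grp` : density of a window whose level slots are a union of groups up to slots with top `0`;
* `w1h1`, `w1h2` : `W1H lam T False`, `W1H lam T True` from `AeW`; `w0h` : `W0H lam T`.
-/

set_option autoImplicit false
set_option linter.unusedSectionVars false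
set_option linter.unusedVariables false

open Filter Topology

namespace Crest.Agent.R136.C1865

open Finset Crest.Agent.R136.NetQ186 Crest.Agent.R136.Net191 Crest.Agent.R136.Qg926
open Crest.Agent.R136.Gf356 Crest.Agent.R136.Aw413 Crest.Agent.R136.Dg219
open Crest.Agent.R136.Ab356 (wtQ)
open Crest.Agent.R136.Ev356 (mv QAt QWnd flg)
open Crest.Agent.R136.Wq400 (qwnd_of_wat hcQ)
open Crest.Agent.R136.Tb628 (coneF s0 sA sB fA fB mem_act)
open Crest.Agent.R136.NatR550 (nL)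
open Crest.Agent.R136.NatT550 (nat4)
open Crest.Agent.R138.Ex926 (Base U U_le_atTop)

theorem mv_mon : mv 2 5 ∈ monQ.mon 6 ∧ mv 4 5 ∈ monQ.mon 7 ∧ mv 0 5 ∈ monQ.mon 8 ∧
    mv 0 6 ∈ monQ.mon 9 ∧ mv 2 8 ∈ monQ.mon 9 ∧ mv 0 7 ∈ monQ.mon 10 ∧
    mv 4 8 ∈ monQ.mon 10 := by
  decide

/-- **active monomials of the plane with slack `F_b`** -/
theorem maC_act {θ : Fin 3 → ℝ} {w0 R κ3 kf : ℝ} (hf' : kf < κ3) (hτ : (θ 0 + κ3) / θ 1 ≠ 0)
    (hcone : coneM (actM monQ (s0 w0 (R - 1)) (fA 0 κ3 kf) (fB θ 0 κ3 kf)) = coneF) :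
    MaC (actM monQ (s0 w0 (R - 1)) (fA 0 κ3 kf) (fB θ 0 κ3 kf)) where
  sub := fun k e he => (mem_actM.1 he).1
  cone := fun c => by rw [hcone]
  m6 := mem_act.2 ⟨mv_mon.1, by simp [s0, nat4]; ring, by simp [fA, sA, nL],
    by simp [fB, sB, nL]⟩
  m7 := mem_act.2 ⟨mv_mon.2.1, by simp [s0, nat4]; ring, by simp [fA, sA, nL],
    by simp [fB, sB, nL]⟩
  m8 := mem_act.2 ⟨mv_mon.2.2.1, by simp [s0, nat4]; ring, by simp [fA, sA, nL],
    by simp [fB, sB, nL]⟩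
  m9a := mem_act.2 ⟨mv_mon.2.2.2.1, by simp [s0, nat4]; ring, by simp [fA, sA, nL],
    by simp [fB, sB, nL]⟩
  m9b := mem_act.2 ⟨mv_mon.2.2.2.2.1, by simp [s0, nat4]; ring, by simp [fA, sA, nL],
    by simp [fB, sB, nL]⟩
  m10a := mem_act.2 ⟨mv_mon.2.2.2.2.2.1, by simp [s0, nat4]; ring, by simp [fA, sA, nL],
    by simp [fB, sB, nL]⟩
  m10b := mem_act.2 ⟨mv_mon.2.2.2.2.2.2, by simp [s0, nat4]; ring, by simp [fA, sA, nL]; ring,
    by simp [fB, sB, nL]⟩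
  n4 := fun h => by
    have := (mem_act.1 h).2.2.1
    simp [fA, sA, nL] at this
    linarith
  n7r := fun h => by
    have := (mem_act.1 h).2.2.2
    simp [fB, sB, nL] at this
    simp [this] at hτ
  n7 := fun h => by
    have := (mem_act.1 h).2.2.1
    simp [fA, sA, nL] at this
    linarith
  n10 := fun h => by
    have := (mem_act.1 h).2.2.1
    simp [fA, sA, nL] at this
    linarith

/-- static data of a window of the plane -/
noncomputable def stC (S : Finset (Fin 11)) (top : Fin 11 → ℝ) (T : ℝ) (Ma : Mons 11) (C : ℝ) :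
    WSt 11 where
  S := S
  kz := 0
  top := top
  kap := fun s => (4 * cK0 monQ C) ^ wtQ s
  Mw := Ma
  R' := T

variable {Ma : Mons 11} {C T : ℝ} {S : Finset (Fin 11)} {top : Fin 11 → ℝ}

theorem stC_ok (hM : MaC Ma) (hC : 0 ≤ C) (hT : 0 ≤ T) (hS : 0 ∈ S) (h1 : top ∈ Leg Ma T)
    (h2 : cut S top 0 ∈ Leg Ma T) (h3 : cut S 0 top ∈ Leg Ma T) :
    (stC S top T Ma C).Ok monQ (coneM Ma) where
  R0 := hT
  leg := leg_cone fun k => Finset.Subset.refl _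
  top_leg := h1
  lin_leg := h2
  lev_leg := h3
  kzS := hS
  kz0 := rfl
  kzw := Finset.subset_empty.1 (hM.sub 0)
  kap := fun s => by
    show 0 < (4 * cK0 monQ C) ^ wtQ s
    have := cK0_one (M := monQ) hC
    positivity

/-- **density** if the level slots are a union of groups, up to slots with top `0` -/
theorem dens_grp {grp : Fin 11 → ℕ} {L : Set (Fin 11 → ℝ)} {dh : Fin 11 → ℝ} {nn : ℕ → ℝ × ℝ}
    {lam : (Fin 11 → ℝ) → ℝ} {A : ℝ × ℝ} {φ : ℕ → (Fin 11 → ℝ) → ℝ} {r : ℕ → ℝ}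
    (h : OutS grp L dh nn lam A φ r)
    (hS : ∀ i j, grp i = grp j → i ∈ S → j ∈ S ∨ top j = 0) (h1 : top ∈ L)
    (h2 : cut S top 0 ∈ L) (h3 : cut S 0 top ∈ L) :
    lam top = lam (cut S top 0) + lam (cut S 0 top) := by
  rw [h.sum _ h1, h.sum _ h2, h.sum _ h3, ← sum_add_distrib]
  refine sum_congr rfl fun k hk => ?_
  by_cases hk' : ∃ i, grp i = k ∧ i ∈ S
  · obtain ⟨i, hi, hiS⟩ := hk'
    have e1 : ∀ j, grp j = k → j ∈ S ∨ top j = 0 := fun j hj => hS i j (by rw [hi, hj]) hiS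
    rw [h.zero k (cut S top 0) fun j hj => by
      by_cases hjS : j ∈ S
      · rw [cut_of_mem hjS]; rfl
      · rw [cut_of_notMem hjS]; exact (e1 j hj).resolve_left hjS, zero_add]
    exact h.loc k _ _ fun j hj => by
      by_cases hjS : j ∈ S
      · rw [cut_of_mem hjS]
      · rw [cut_of_notMem hjS]; exact (e1 j hj).resolve_left hjS
  · push Not at hk'
    rw [h.zero k (cut S 0 top) fun j hj => by rw [cut_of_notMem (hk' j hj)]; rfl, add_zero]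
    exact h.loc k _ _ fun j hj => by rw [cut_of_notMem (hk' j hj)]

variable {ι : ℕ → Type*} [∀ n, DecidableEq (ι n)] {B Bo : Base} {I J : ∀ n, Finset (ι n)}
  {co : ∀ n, ι n → ι n → Fin 11 → ℝ} {f : ∀ n, ι n → Fq4} {lam : (Fin 11 → ℝ) → ℝ}
  {a b : Fin 11 → ℝ} {A : ℝ × ℝ} {φ : ℕ → (Fin 11 → ℝ) → ℝ} {r : ℕ → ℝ} {κv : Fin 11 → ℝ}
  {V Tw : Fin 11 → Prop} {κ σ : ℝ}

/-- density and Frostman conditions -/
theorem stC_dens (h : AeW B Bo I J co monQ Ma C lam a b A φ r 0 1 κv V Tw) (hM : MaC Ma)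
    (hT : 0 ≤ T) (ht : T ≤ top 0)
    (hd : lam top ≤ lam (cut S top 0) + lam (cut S 0 top)) :
    (stC S top T Ma C).Dens lam 1 T where
  dens := hd
  σ0 := zero_le_one
  σ1 := le_rfl
  hR := ht
  frost := fun y hy hyT => by
    have m1 : (Pi.single 0 y : Fin 11 → ℝ) ∈ coneM Ma := by
      rw [hM.cone]
      have e : (Pi.single 0 y : Fin 11 → ℝ) = bz y 0 0 0 0 0 0 0 0 := by
        funext s
        fin_cases s <;> simp [bz]
      rw [e]
      exact mem_bz.2 ⟨by linarith, by linarith, by linarith, by linarith, by linarith,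
        by linarith, by linarith⟩
    have h2 := h.own 0 zero_mem _ m1 (fun s => by
      by_cases hs : s = 0
      · subst hs; simpa using hy
      · rw [Pi.single_eq_of_ne hs]; exact le_rfl) (fun k _ => by simp)
    rw [Pi.single_eq_same, h.zero] at h2
    simp only [Pi.zero_apply, sub_zero, one_mul] at h2
    show lam (Pi.single 0 y) ≤ -(1 * y)
    linarith

/-- **window with level slots `{z, F_a}`** -/
theorem w1h_of (h : AeW B Bo I J co monQ Ma C lam a b A φ r 0 1 κv V Tw) (hC : 0 ≤ C)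
    (hco : ∀ n, ∀ i ∈ I n, ∀ j ∈ I n, co n i j = coQ (f n i) (f n j))
    (hJ : ∀ᶠ n in (U : Filter ℕ), (J n).Nonempty) (hM : MaC Ma) (hT : 0 < T)
    (hV : ∀ k, V k → k = 3 ∨ k = 4) (hTw : Tw 4) {tp : Fin 11 → ℝ} {Rs : Finset (Fin 11)}
    {Rb : Prop} (hw : ∀ W : Wnd 11 ι, W.kz = 0 → W.S = {0, 4} → W.top = tp → W.R' = T →
      W.Mw = Ma → Win1 W Ma T tp Rs Rb) (t0 : tp 0 = T) (t3 : tp 3 = 0) (t4 : tp 4 = T)
    (l1 : tp ∈ Leg Ma T) (l2 : cut {0, 4} tp 0 ∈ Leg Ma T) (l3 : cut {0, 4} 0 tp ∈ Leg Ma T)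
    (l4 : cut {0, 4} tp (Pi.single 4 T) ∈ coneM Ma)
    (hd : lam tp ≤ lam (cut {0, 4} tp 0) + lam (cut {0, 4} 0 tp)) : LF.W1H lam T Rb := by
  have hok : (stC {0, 4} tp T Ma C).Ok monQ (coneM Ma) :=
    stC_ok hM hC hT.le (by decide) l1 l2 l3
  obtain ⟨W, hW, -, -⟩ := h.wnd (stC {0, 4} tp T Ma C) rfl hok (fun _ _ => 1)
    (fun i => Crest.Agent.R138.Ex926.Base.Sub.const one_pos) J (fun _ => 1)
    (Eventually.of_forall fun n => Finset.Subset.refl _) hJ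
    (Crest.Agent.R138.Ex926.Base.Sub.const one_pos) (Eventually.of_forall fun n => by simp)
  have hden : (stC {0, 4} tp T Ma C).Dens lam 1 T := stC_dens h hM hT.le t0.ge hd
  obtain ⟨E', g, hPr, -, H, hraw⟩ := hW.model hden (fun _ _ _ => 0)
    (g₀ := fun n => (n : ℝ)) (tendsto_natCast_atTop_atTop.mono_left U_le_atTop) (by
      intro k hk
      rcases hV k hk with rfl | rfl
      · right; exact t3
      · left
        show (4 : Fin 11) ∈ ({0, 4} : Finset (Fin 11))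
        decide)
  have hL : RawL W E' 4 := hraw 4 (by show (4 : Fin 11) ∈ ({0, 4} : Finset (Fin 11)); decide) hTw
    (by show 0 < tp 4; rw [t4]; exact hT) ⟨T, hT, l4⟩
  have hq : QWnd W f := qwnd_of_wat hW hco (by
    show ∀ s ∈ ({0, 4} : Finset (Fin 11)), _
    decide)
  have hc := hcQ hq hPr
  have Q : QAt W f Ma := QAt.of_wat hW hq (by
    show (0 : Fin 11) ∈ ({0, 4} : Finset (Fin 11)); decide) (fun s => rfl) hM.n7r
  have win : Win1 W Ma T tp Rs Rb := hw W hW.ekz hW.eS hW.etop hW.eR hW.eMw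
  refine ⟨W.B', W.cfg E', W.legW, W.nu, W.Dc, fun n k => flg W n k 4, lam tp,
    m1_of Q hM hc win H hL, fun e ca cb p xa xb n _ => ?_⟩
  unfold Wnd.nu
  rw [hW.elam, win.S, win.top, win.cut]

theorem win1_1 (hM : MaC Ma) (hT : 0 < T) (W : Wnd 11 ι) (h1 : W.kz = 0) (h2 : W.S = {0, 4})
    (h3 : W.top = tp1 T) (h4 : W.R' = T) (h5 : W.Mw = Ma) :
    Win1 W Ma T (tp1 T) {0, 4, 5, 7, 8, 10} False where
  kz := h1
  S := h2
  top := h3
  R' := h4
  Mw := h5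
  T0 := hT
  cut := fun e ca cb p xa xb n => cut1 T e ca cb p xa xb n
  le := fun e ca cb p xa xb n e0 e1 ca0 ca1 cb0 cb1 p0 p1 xa0 xa1 xb0 xb1 n0 n1 hR s hs => by
    obtain ⟨r1, r2, r3⟩ := hR.resolve_left id
    fin_cases s <;> simp [bw, tp1, bz] at hs ⊢ <;> first | exact hT.le | assumption | linarith
  res := fun s hs => by
    fin_cases s <;> simp [tp1, bz] at hs ⊢
  sub := by decide
  clo := cloM1 hM
  r5 := by decide
  r7 := by decide
  r8 := by decide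
  r10 := by decide
  rb := fun h => h.elim

theorem win1_2 (hM : MaC Ma) (hT : 0 < T) (W : Wnd 11 ι) (h1 : W.kz = 0) (h2 : W.S = {0, 4})
    (h3 : W.top = tp2 T) (h4 : W.R' = T) (h5 : W.Mw = Ma) :
    Win1 W Ma T (tp2 T) {0, 2, 4, 5, 6, 7, 8, 9, 10} True where
  kz := h1
  S := h2
  top := h3
  R' := h4
  Mw := h5
  T0 := hT
  cut := fun e ca cb p xa xb n => cut2 T e ca cb p xa xb n
  le := fun e ca cb p xa xb n e0 e1 ca0 ca1 cb0 cb1 p0 p1 xa0 xa1 xb0 xb1 n0 n1 hR s hs => by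
    fin_cases s <;> simp [bw, tp2, bz] at hs ⊢ <;> assumption
  res := fun s hs => by
    fin_cases s <;> simp [tp2, bz] at hs ⊢
  sub := by decide
  clo := cloM2 hM
  r5 := by decide
  r7 := by decide
  r8 := by decide
  r10 := by decide
  rb := fun _ => by decide

/-- the group of the height -/
theorem grp0 (sl : Slo a b κ σ) (hκ : 0 < κ) {s i : Fin 11} (hs : s = 0 ∨ s = 4)
    (hi : gC a b s = gC a b i) : i = 0 ∨ i = 4 ∨ i = 3 ∨ (i = 9 ∧ σ = 0) := by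
  obtain ⟨g1, g2⟩ := LF.grp_par hi.symm
  have hs0 : a s ≠ 0 := by
    rcases hs with rfl | rfl
    · rw [sl.a0]; norm_num
    · rw [sl.a4]; exact hκ.ne'
  have hb : b s = 0 := by
    rcases hs with rfl | rfl
    · exact sl.b0
    · exact sl.b4
  have g3 : a i ≠ 0 := fun h0 => hs0 (g1.1 h0)
  have g4 := g2 g3
  rw [hb, zero_mul, mul_eq_zero, or_iff_left hs0] at g4
  fin_cases i
  · simp
  · exact absurd sl.a1 g3
  · exact absurd sl.a2 g3
  · simp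
  · simp
  · exact absurd sl.a5 g3
  · exact absurd sl.a6 g3
  · simp [sl.b7] at g4
  · simp [sl.b8] at g4
  · simp [sl.b9] at g4; simp [g4]
  · simp [sl.b10] at g4

theorem mem_legT (hM : MaC Ma) (hT : 0 < T) {z f e ca cb p xa xb n : ℝ}
    (h : bz z f e ca cb p xa xb n ∈ coneF) (h0 : z = 0 ∨ z = T) (h1 : f = 0 ∨ f = T)
    (h2 : e = 0 ∨ e = T) (h3 : ca = 0 ∨ ca = T) (h4 : cb = 0 ∨ cb = T) (h5 : p = 0 ∨ p = T)
    (h6 : xa = 0 ∨ xa = T) (h7 : xb = 0 ∨ xb = T) (h8 : n = 0 ∨ n = T) :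
    bz z f e ca cb p xa xb n ∈ Leg Ma T := by
  have k : ∀ {x : ℝ}, x = 0 ∨ x = T → 0 ≤ x ∧ x ≤ T := by
    intro x hx
    rcases hx with rfl | rfl
    · exact ⟨le_rfl, hT.le⟩
    · exact ⟨hT.le, le_rfl⟩
  exact leg_bz hM h (k h0) (k h1) (k h2) (k h3) (k h4) (k h5) (k h6) (k h7) (k h8)

/-- **`W1H` without `E, C_b, X_b`** -/
theorem w1h1 (h : AeW B Bo I J co monQ Ma C lam a b A φ r 0 1 κv V Tw) (hC : 0 ≤ C)
    (hco : ∀ n, ∀ i ∈ I n, ∀ j ∈ I n, co n i j = coQ (f n i) (f n j))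
    (hJ : ∀ᶠ n in (U : Filter ℕ), (J n).Nonempty) (hM : MaC Ma) (hT : 0 < T)
    (hV : ∀ k, V k → k = 3 ∨ k = 4) (hTw : Tw 4) (sl : Slo a b κ σ) (hκ : 0 < κ) :
    LF.W1H lam T False := by
  have hT' := hT.le
  have e1 : cut {0, 4} (tp1 T) 0 = bz 0 0 0 T 0 T T 0 T := by
    funext j; fin_cases j <;> simp [cut, bz, tp1]
  have e2 : cut {0, 4} 0 (tp1 T) = bz T T 0 0 0 0 0 0 0 := by
    funext j; fin_cases j <;> simp [cut, bz, tp1]
  have e3 : cut {0, 4} (tp1 T) (Pi.single 4 T) = bz 0 T 0 T 0 T T 0 T := by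
    funext j; fin_cases j <;> simp [cut, bz, tp1]
  have l1 : tp1 T ∈ Leg Ma T := by
    unfold tp1
    refine mem_legT hM hT (mem_bz.2 ⟨?_, ?_, ?_, ?_, ?_, ?_, ?_⟩) ?_ ?_ ?_ ?_ ?_ ?_ ?_ ?_ ?_ <;>
      first | linarith | simp
  have l2 : cut {0, 4} (tp1 T) 0 ∈ Leg Ma T := by
    rw [e1]
    refine mem_legT hM hT (mem_bz.2 ⟨?_, ?_, ?_, ?_, ?_, ?_, ?_⟩) ?_ ?_ ?_ ?_ ?_ ?_ ?_ ?_ ?_ <;>
      first | linarith | simp
  have l3 : cut {0, 4} 0 (tp1 T) ∈ Leg Ma T := by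
    rw [e2]
    refine mem_legT hM hT (mem_bz.2 ⟨?_, ?_, ?_, ?_, ?_, ?_, ?_⟩) ?_ ?_ ?_ ?_ ?_ ?_ ?_ ?_ ?_ <;>
      first | linarith | simp
  have lc : Leg Ma T ⊆ coneM Ma := leg_cone fun k => Finset.Subset.refl _
  refine w1h_of (tp := tp1 T) (Rs := {0, 4, 5, 7, 8, 10}) h hC hco hJ hM hT hV hTw
    (fun W h1 h2 h3 h4 h5 => win1_1 hM hT W h1 h2 h3 h4 h5) (by simp [tp1, bz])
    (by simp [tp1, bz]) (by simp [tp1, bz]) l1 l2 l3 (by
      rw [e3, hM.cone]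
      exact mem_bz.2 ⟨by linarith, by linarith, by linarith, by linarith, by linarith,
        by linarith, by linarith⟩) ?_
  refine (dens_grp h.out (fun i j hij hi => ?_) (lc l1) (lc l2) (lc l3)).le
  rcases grp0 sl hκ (by simpa using hi) hij with rfl | rfl | rfl | ⟨rfl, -⟩
  · left; decide
  · left; decide
  · right; simp [tp1, bz]
  · right; simp [tp1, bz]

/-- **`W1H` with `E, C_b, X_b`**, `σ ≠ 0` -/
theorem w1h2 (h : AeW B Bo I J co monQ Ma C lam a b A φ r 0 1 κv V Tw) (hC : 0 ≤ C)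
    (hco : ∀ n, ∀ i ∈ I n, ∀ j ∈ I n, co n i j = coQ (f n i) (f n j))
    (hJ : ∀ᶠ n in (U : Filter ℕ), (J n).Nonempty) (hM : MaC Ma) (hT : 0 < T)
    (hV : ∀ k, V k → k = 3 ∨ k = 4) (hTw : Tw 4) (sl : Slo a b κ σ) (hκ : 0 < κ)
    (hσ : σ ≠ 0) : LF.W1H lam T True := by
  have hT' := hT.le
  have e1 : cut {0, 4} (tp2 T) 0 = bz 0 0 T T T T T T T := by
    funext j; fin_cases j <;> simp [cut, bz, tp2]
  have e2 : cut {0, 4} 0 (tp2 T) = bz T T 0 0 0 0 0 0 0 := by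
    funext j; fin_cases j <;> simp [cut, bz, tp2]
  have e3 : cut {0, 4} (tp2 T) (Pi.single 4 T) = bz 0 T T T T T T T T := by
    funext j; fin_cases j <;> simp [cut, bz, tp2]
  have l1 : tp2 T ∈ Leg Ma T := by
    unfold tp2
    refine mem_legT hM hT (mem_bz.2 ⟨?_, ?_, ?_, ?_, ?_, ?_, ?_⟩) ?_ ?_ ?_ ?_ ?_ ?_ ?_ ?_ ?_ <;>
      first | linarith | simp
  have l2 : cut {0, 4} (tp2 T) 0 ∈ Leg Ma T := by
    rw [e1]
    refine mem_legT hM hT (mem_bz.2 ⟨?_, ?_, ?_, ?_, ?_, ?_, ?_⟩) ?_ ?_ ?_ ?_ ?_ ?_ ?_ ?_ ?_ <;>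
      first | linarith | simp
  have l3 : cut {0, 4} 0 (tp2 T) ∈ Leg Ma T := by
    rw [e2]
    refine mem_legT hM hT (mem_bz.2 ⟨?_, ?_, ?_, ?_, ?_, ?_, ?_⟩) ?_ ?_ ?_ ?_ ?_ ?_ ?_ ?_ ?_ <;>
      first | linarith | simp
  have lc : Leg Ma T ⊆ coneM Ma := leg_cone fun k => Finset.Subset.refl _
  refine w1h_of (tp := tp2 T) (Rs := {0, 2, 4, 5, 6, 7, 8, 9, 10}) h hC hco hJ hM hT hV hTw
    (fun W h1 h2 h3 h4 h5 => win1_2 hM hT W h1 h2 h3 h4 h5) (by simp [tp2, bz])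
    (by simp [tp2, bz]) (by simp [tp2, bz]) l1 l2 l3 (by
      rw [e3, hM.cone]
      exact mem_bz.2 ⟨by linarith, by linarith, by linarith, by linarith, by linarith,
        by linarith, by linarith⟩) ?_
  refine (dens_grp h.out (fun i j hij hi => ?_) (lc l1) (lc l2) (lc l3)).le
  rcases grp0 sl hκ (by simpa using hi) hij with rfl | rfl | rfl | ⟨rfl, h0⟩
  · left; decide
  · left; decide
  · right; simp [tp2, bz]
  · exact absurd h0 hσ

end Crest.Agent.R136.C1865
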