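import Mathlib
import Crest.Agent.R136.LmQ2_861

-- ▼ part R136/Mk4a_418
section

/-!
# 4-linear Kakeya in R^4, part a (helper418)

Discrete Loomis–Whitney in four variables (cube roots) and the local step of Guth's induction on
scales, for abstract sets near the coordinate axes.
-/

set_option autoImplicit false

namespace Crest.Agent.R136.MK4

open Finset

/-- cube root -/
noncomputable def cb (x : ℝ) : ℝ := x ^ ((1 : ℝ) / 3)

lemma cb_nonneg {x : ℝ} (hx : 0 ≤ x) : 0 ≤ cb x := Real.rpow_nonneg hx _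

lemma cb_mono {x y : ℝ} (hx : 0 ≤ x) (h : x ≤ y) : cb x ≤ cb y :=
  Real.rpow_le_rpow hx h (by norm_num)

lemma cb_mul {x y : ℝ} (hx : 0 ≤ x) (hy : 0 ≤ y) : cb (x * y) = cb x * cb y :=
  Real.mul_rpow hx hy


lemma cb_cube {x : ℝ} (hx : 0 ≤ x) : cb (x ^ 3) = x := by
  unfold cb
  rw [← Real.rpow_natCast, ← Real.rpow_mul hx]
  norm_num

lemma cb_1331 : cb 1331 = 11 := by
  rw [show (1331 : ℝ) = 11 ^ 3 by norm_num]
  exact cb_cube (by norm_num)

lemma cb_sqrt_sq {x : ℝ} (hx : 0 ≤ x) : cb (√x) ^ 2 = cb x := by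
  unfold cb
  rw [Real.sqrt_eq_rpow, ← Real.rpow_mul hx, ← Real.rpow_natCast, ← Real.rpow_mul hx]
  norm_num




/-- Hölder with exponents `3, 3/2`. -/
lemma holder32 {α : Type*} (s : Finset α) (x t : α → ℝ) (hx : ∀ a ∈ s, 0 ≤ x a)
    (ht : ∀ a ∈ s, 0 ≤ t a) :
    ∑ a ∈ s, cb (x a) * cb (t a) ^ 2 ≤ cb (∑ a ∈ s, x a) * cb (∑ a ∈ s, t a) ^ 2 := by
  have h := Real.inner_le_Lp_mul_Lq_of_nonneg s (p := 3) (q := 3 / 2)
    (by rw [Real.holderConjugate_iff]; norm_num) (f := fun a => cb (x a))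
    (g := fun a => cb (t a) ^ 2) (fun a ha => cb_nonneg (hx a ha)) (fun a ha => sq_nonneg _)
  refine h.trans (le_of_eq ?_)
  have e1 : ∑ a ∈ s, cb (x a) ^ (3 : ℝ) = ∑ a ∈ s, x a := by
    refine Finset.sum_congr rfl fun a ha => ?_
    unfold cb
    rw [← Real.rpow_mul (hx a ha)]
    norm_num
  have e2 : ∑ a ∈ s, (cb (t a) ^ 2) ^ (3 / 2 : ℝ) = ∑ a ∈ s, t a := by
    refine Finset.sum_congr rfl fun a ha => ?_
    unfold cb
    rw [← Real.rpow_natCast, ← Real.rpow_mul (ht a ha), ← Real.rpow_mul (ht a ha)]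
    norm_num
  rw [e1, e2]
  have h3 : 0 ≤ ∑ a ∈ s, t a := Finset.sum_nonneg ht
  unfold cb
  rw [← Real.rpow_natCast, ← Real.rpow_mul h3]
  norm_num

/-- Three-dimensional discrete Loomis–Whitney inequality (square roots). -/
lemma lw3 {α β γ : Type*} (s : Finset α) (t : Finset β) (u : Finset γ)
    (f : β → γ → ℝ) (g : α → γ → ℝ) (h : α → β → ℝ)
    (hf : ∀ b c, 0 ≤ f b c) (hg : ∀ a c, 0 ≤ g a c) (hh : ∀ a b, 0 ≤ h a b) :
    ∑ a ∈ s, ∑ b ∈ t, ∑ c ∈ u, √(f b c) * √(g a c) * √(h a b) ≤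
      √(∑ b ∈ t, ∑ c ∈ u, f b c) * √(∑ a ∈ s, ∑ c ∈ u, g a c) * √(∑ a ∈ s, ∑ b ∈ t, h a b) := by
  have e1 : ∑ a ∈ s, ∑ b ∈ t, ∑ c ∈ u, √(f b c) * √(g a c) * √(h a b) =
      ∑ b ∈ t, ∑ c ∈ u, √(f b c) * ∑ a ∈ s, √(g a c) * √(h a b) := by
    rw [Finset.sum_comm]
    refine Finset.sum_congr rfl fun b _ => ?_
    rw [Finset.sum_comm]
    refine Finset.sum_congr rfl fun c _ => ?_
    rw [Finset.mul_sum]
    refine Finset.sum_congr rfl fun a _ => ?_
    ring
  rw [e1]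
  have e2 : ∀ b c, ∑ a ∈ s, √(g a c) * √(h a b) ≤
      √(∑ a ∈ s, g a c) * √(∑ a ∈ s, h a b) := fun b c =>
    Real.sum_sqrt_mul_sqrt_le s (fun a => hg a c) (fun a => hh a b)
  have e3 : ∑ b ∈ t, ∑ c ∈ u, √(f b c) * ∑ a ∈ s, √(g a c) * √(h a b) ≤
      ∑ p ∈ t ×ˢ u, √(f p.1 p.2) * √((∑ a ∈ s, g a p.2) * (∑ a ∈ s, h a p.1)) := by
    rw [Finset.sum_product]
    refine Finset.sum_le_sum fun b _ => Finset.sum_le_sum fun c _ => ?_
    refine mul_le_mul_of_nonneg_left ?_ (Real.sqrt_nonneg _)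
    rw [Real.sqrt_mul (Finset.sum_nonneg fun a _ => hg a c)]
    exact e2 b c
  refine e3.trans ?_
  refine (Real.sum_sqrt_mul_sqrt_le (t ×ˢ u) (f := fun p => f p.1 p.2)
    (g := fun p => (∑ a ∈ s, g a p.2) * (∑ a ∈ s, h a p.1)) (fun p => hf p.1 p.2)
    (fun p => mul_nonneg (Finset.sum_nonneg fun a _ => hg a _)
      (Finset.sum_nonneg fun a _ => hh a _))).trans ?_
  have e4 : ∑ p ∈ t ×ˢ u, (∑ a ∈ s, g a p.2) * (∑ a ∈ s, h a p.1) =
      (∑ a ∈ s, ∑ c ∈ u, g a c) * (∑ a ∈ s, ∑ b ∈ t, h a b) := by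
    rw [Finset.sum_product, Finset.sum_comm (s := s) (t := u), Finset.sum_comm (s := s) (t := t),
      Finset.sum_mul_sum, Finset.sum_comm]
  rw [e4, Finset.sum_product, Real.sqrt_mul (Finset.sum_nonneg fun a _ =>
    Finset.sum_nonneg fun c _ => hg a c), mul_assoc]

/-- Hölder for three cube roots. -/
lemma holder333 {α : Type*} (s : Finset α) (x y z : α → ℝ) (hx : ∀ a, 0 ≤ x a)
    (hy : ∀ a, 0 ≤ y a) (hz : ∀ a, 0 ≤ z a) :
    ∑ a ∈ s, cb (x a) * (cb (y a) * cb (z a)) ≤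
      cb (∑ a ∈ s, x a) * (cb (∑ a ∈ s, y a) * cb (∑ a ∈ s, z a)) := by
  have h1 := holder32 s x (fun a => √(y a) * √(z a)) (fun a _ => hx a)
    (fun a _ => by positivity)
  have e1 : ∑ a ∈ s, cb (x a) * cb (√(y a) * √(z a)) ^ 2 =
      ∑ a ∈ s, cb (x a) * (cb (y a) * cb (z a)) := by
    refine Finset.sum_congr rfl fun a _ => ?_
    rw [cb_mul (Real.sqrt_nonneg _) (Real.sqrt_nonneg _), mul_pow, cb_sqrt_sq (hy a),
      cb_sqrt_sq (hz a)]
  rw [e1] at h1
  refine h1.trans ?_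
  refine mul_le_mul_of_nonneg_left ?_ (cb_nonneg (Finset.sum_nonneg fun a _ => hx a))
  have h2 := Real.sum_sqrt_mul_sqrt_le s (f := y) (g := z) (fun a => hy a) (fun a => hz a)
  have hY : 0 ≤ ∑ a ∈ s, y a := Finset.sum_nonneg fun a _ => hy a
  have hZ : 0 ≤ ∑ a ∈ s, z a := Finset.sum_nonneg fun a _ => hz a
  have h0 : 0 ≤ ∑ a ∈ s, √(y a) * √(z a) := Finset.sum_nonneg fun a _ => by positivity
  calc cb (∑ a ∈ s, √(y a) * √(z a)) ^ 2 ≤ cb (√(∑ a ∈ s, y a) * √(∑ a ∈ s, z a)) ^ 2 :=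
        pow_le_pow_left₀ (cb_nonneg h0) (cb_mono h0 h2) 2
    _ = cb (∑ a ∈ s, y a) * cb (∑ a ∈ s, z a) := by
        rw [cb_mul (Real.sqrt_nonneg _) (Real.sqrt_nonneg _), mul_pow, cb_sqrt_sq hY,
          cb_sqrt_sq hZ]

/-- **Discrete Loomis–Whitney inequality in dimension four** (cube roots). -/
lemma lw4 {α β γ δ : Type*} (s : Finset α) (t : Finset β) (u : Finset γ) (v : Finset δ)
    (f0 : β → γ → δ → ℝ) (f1 : α → γ → δ → ℝ) (f2 : α → β → δ → ℝ) (f3 : α → β → γ → ℝ)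
    (h0 : ∀ b c d, 0 ≤ f0 b c d) (h1 : ∀ a c d, 0 ≤ f1 a c d) (h2 : ∀ a b d, 0 ≤ f2 a b d)
    (h3 : ∀ a b c, 0 ≤ f3 a b c) :
    ∑ a ∈ s, ∑ b ∈ t, ∑ c ∈ u, ∑ d ∈ v,
      cb (f0 b c d) * (cb (f1 a c d) * (cb (f2 a b d) * cb (f3 a b c))) ≤
      cb (∑ b ∈ t, ∑ c ∈ u, ∑ d ∈ v, f0 b c d) *
        (cb (∑ a ∈ s, ∑ c ∈ u, ∑ d ∈ v, f1 a c d) *
          (cb (∑ a ∈ s, ∑ b ∈ t, ∑ d ∈ v, f2 a b d) *
            cb (∑ a ∈ s, ∑ b ∈ t, ∑ c ∈ u, f3 a b c))) := by
  set F0 : ℝ := ∑ b ∈ t, ∑ c ∈ u, ∑ d ∈ v, f0 b c d with hF0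
  set F1 : α → ℝ := fun a => ∑ c ∈ u, ∑ d ∈ v, f1 a c d with hF1
  set F2 : α → ℝ := fun a => ∑ b ∈ t, ∑ d ∈ v, f2 a b d with hF2
  set F3 : α → ℝ := fun a => ∑ b ∈ t, ∑ c ∈ u, f3 a b c with hF3
  have n0 : 0 ≤ F0 := Finset.sum_nonneg fun b _ => Finset.sum_nonneg fun c _ =>
    Finset.sum_nonneg fun d _ => h0 b c d
  have n1 : ∀ a, 0 ≤ F1 a := fun a => Finset.sum_nonneg fun b _ => Finset.sum_nonneg fun c _ =>
    h1 a b c
  have n2 : ∀ a, 0 ≤ F2 a := fun a => Finset.sum_nonneg fun b _ => Finset.sum_nonneg fun c _ =>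
    h2 a b c
  have n3 : ∀ a, 0 ≤ F3 a := fun a => Finset.sum_nonneg fun b _ => Finset.sum_nonneg fun c _ =>
    h3 a b c
  have key : ∀ a ∈ s, ∑ b ∈ t, ∑ c ∈ u, ∑ d ∈ v,
      cb (f0 b c d) * (cb (f1 a c d) * (cb (f2 a b d) * cb (f3 a b c))) ≤
      cb F0 * (cb (F1 a) * (cb (F2 a) * cb (F3 a))) := by
    intro a _
    have g1 := holder32 (t ×ˢ (u ×ˢ v)) (fun q => f0 q.1 q.2.1 q.2.2)
      (fun q => √(f1 a q.2.1 q.2.2) * √(f2 a q.1 q.2.2) * √(f3 a q.1 q.2.1))
      (fun q _ => h0 _ _ _) (fun q _ => by positivity)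
    have g2 : ∑ b ∈ t, ∑ c ∈ u, ∑ d ∈ v,
        cb (f0 b c d) * (cb (f1 a c d) * (cb (f2 a b d) * cb (f3 a b c))) =
        ∑ q ∈ t ×ˢ (u ×ˢ v), cb (f0 q.1 q.2.1 q.2.2) *
          cb (√(f1 a q.2.1 q.2.2) * √(f2 a q.1 q.2.2) * √(f3 a q.1 q.2.1)) ^ 2 := by
      rw [Finset.sum_product]
      refine Finset.sum_congr rfl fun b _ => ?_
      rw [Finset.sum_product]
      refine Finset.sum_congr rfl fun c _ => Finset.sum_congr rfl fun d _ => ?_
      rw [cb_mul (by positivity) (Real.sqrt_nonneg _), cb_mul (Real.sqrt_nonneg _)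
        (Real.sqrt_nonneg _), mul_pow, mul_pow, cb_sqrt_sq (h1 _ _ _), cb_sqrt_sq (h2 _ _ _),
        cb_sqrt_sq (h3 _ _ _)]
      ring
    rw [g2]
    refine g1.trans ?_
    have g3 : ∑ q ∈ t ×ˢ (u ×ˢ v), f0 q.1 q.2.1 q.2.2 = F0 := by
      rw [Finset.sum_product, hF0]
      refine Finset.sum_congr rfl fun b _ => ?_
      rw [Finset.sum_product]
    have g4 : ∑ q ∈ t ×ˢ (u ×ˢ v), √(f1 a q.2.1 q.2.2) * √(f2 a q.1 q.2.2) * √(f3 a q.1 q.2.1) ≤
        √(F1 a) * √(F2 a) * √(F3 a) := by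
      rw [Finset.sum_product]
      have := lw3 t u v (f1 a) (f2 a) (f3 a) (h1 a) (h2 a) (h3 a)
      refine le_trans (le_of_eq ?_) this
      refine Finset.sum_congr rfl fun b _ => ?_
      rw [Finset.sum_product]
    rw [g3]
    refine mul_le_mul_of_nonneg_left ?_ (cb_nonneg n0)
    have g5 : 0 ≤ ∑ q ∈ t ×ˢ (u ×ˢ v),
        √(f1 a q.2.1 q.2.2) * √(f2 a q.1 q.2.2) * √(f3 a q.1 q.2.1) :=
      Finset.sum_nonneg fun q _ => by positivity
    calc cb (∑ q ∈ t ×ˢ (u ×ˢ v),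
          √(f1 a q.2.1 q.2.2) * √(f2 a q.1 q.2.2) * √(f3 a q.1 q.2.1)) ^ 2
        ≤ cb (√(F1 a) * √(F2 a) * √(F3 a)) ^ 2 :=
          pow_le_pow_left₀ (cb_nonneg g5) (cb_mono g5 g4) 2
      _ = cb (F1 a) * (cb (F2 a) * cb (F3 a)) := by
          rw [cb_mul (by positivity) (Real.sqrt_nonneg _), cb_mul (Real.sqrt_nonneg _)
            (Real.sqrt_nonneg _), mul_pow, mul_pow, cb_sqrt_sq (n1 _), cb_sqrt_sq (n2 _),
            cb_sqrt_sq (n3 _)]
          ring
  refine (Finset.sum_le_sum key).trans ?_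
  rw [← Finset.mul_sum]
  exact mul_le_mul_of_nonneg_left (holder333 s F1 F2 F3 n1 n2 n3) (cb_nonneg n0)

end Crest.Agent.R136.MK4
end

-- ▼ part R136/Mk4b_418
section

/-!
# 4-linear Kakeya in R^4, part b (helper418)

Near-axis multilinear Kakeya (Guth's induction on scales) for abstract sets `S l ⊂ R^4` any two
points of which are seen in direction `e_j` up to slope `1/N`.
-/

set_option autoImplicit false

namespace Crest.Agent.R136.MK4

open Finset

/-- `x` is within sup-distance `r` of the set `S` -/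
def Nr (S : Set (Fin 4 → ℝ)) (x : Fin 4 → ℝ) (r : ℝ) : Prop := ∃ p ∈ S, ∀ i, |x i - p i| ≤ r

lemma Nr.mono {S : Set (Fin 4 → ℝ)} {x : Fin 4 → ℝ} {r r' : ℝ} (h : Nr S x r) (hr : r ≤ r') :
    Nr S x r' := by
  obtain ⟨p, hp, hs⟩ := h
  exact ⟨p, hp, fun i => (hs i).trans hr⟩

lemma Nr.shift {S : Set (Fin 4 → ℝ)} {x y : Fin 4 → ℝ} {r d : ℝ} (h : Nr S x r)
    (hd : ∀ i, |y i - x i| ≤ d) : Nr S y (r + d) := by
  obtain ⟨p, hp, hs⟩ := h
  refine ⟨p, hp, fun i => ?_⟩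
  have : y i - p i = (x i - p i) + (y i - x i) := by ring
  rw [this]
  exact (abs_add_le _ _).trans (add_le_add (hs i) (hd i))

/-- integer points as real vectors, scaled by `σ` -/
def pt (σ : ℝ) (k : Fin 4 → ℤ) : Fin 4 → ℝ := fun i => σ * (k i : ℝ)

/-- the parent relation -/
lemma near_parent {σ : ℝ} (hσ : 0 ≤ σ) {N : ℕ} {K : Fin 4 → ℤ} {a : Fin 4 → ℤ}
    (ha0 : ∀ i, 0 ≤ a i) (haN : ∀ i, a i < N) {S : Set (Fin 4 → ℝ)}
    (h : Nr S (pt σ (fun i => N * K i + a i)) σ) :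
    Nr S (pt (σ * N) K) (σ * N) := by
  have h1 : Nr S (pt (σ * N) K) (σ + σ * (N - 1)) := by
    refine h.shift fun i => ?_
    simp only [pt]
    push_cast
    have : σ * N * (K i : ℝ) - σ * (N * K i + a i) = -(σ * a i) := by ring
    rw [this, abs_neg, abs_mul, abs_of_nonneg hσ]
    refine mul_le_mul_of_nonneg_left ?_ hσ
    have h0 : (0 : ℝ) ≤ a i := by exact_mod_cast ha0 i
    have h2 : (a i : ℝ) + 1 ≤ N := by exact_mod_cast haN i
    rw [abs_of_nonneg h0]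
    linarith
  refine h1.mono (le_of_eq ?_)
  ring

/-- near-axis set in direction `j` -/
def AxS (N : ℕ) (j : Fin 4) (S : Set (Fin 4 → ℝ)) : Prop :=
  ∀ p ∈ S, ∀ q ∈ S, ∀ i, i ≠ j → |p i - q i| ≤ 1 / (N : ℝ) * |p j - q j|

lemma column {σ : ℝ} (hσ : 0 < σ) {N : ℕ} (hN : 1 ≤ N) {j : Fin 4} {S : Set (Fin 4 → ℝ)}
    (he : AxS N j S) {k k' : Fin 4 → ℤ}
    (hk : Nr S (pt σ k) σ) (hk' : Nr S (pt σ k') σ) (hj : |k j - k' j| ≤ N)
    (i : Fin 4) (hi : i ≠ j) : |k i - k' i| ≤ 5 := by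
  obtain ⟨p, hp, hs⟩ := hk
  obtain ⟨q, hq, hs'⟩ := hk'
  have hN' : (1 : ℝ) ≤ N := by exact_mod_cast hN
  have hjR : |(k j : ℝ) - k' j| ≤ N := by exact_mod_cast hj
  have h1 := hs j
  have h2 := hs' j
  simp only [pt] at h1 h2
  have h3 : |p j - q j| ≤ σ * (N + 2) := by
    have : p j - q j = -(σ * k j - p j) + (σ * k' j - q j) + σ * (k j - k' j) := by
      ring
    rw [this]
    refine (abs_add_le _ _).trans ?_
    have h4 := abs_add_le (-(σ * (k j : ℝ) - p j)) (σ * (k' j : ℝ) - q j)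
    rw [abs_neg] at h4
    have h5 : |σ * ((k j : ℝ) - k' j)| ≤ σ * N := by
      rw [abs_mul, abs_of_pos hσ]
      exact mul_le_mul_of_nonneg_left hjR hσ.le
    nlinarith
  have g1 := hs i
  have g2 := hs' i
  simp only [pt] at g1 g2
  have h6 : |σ * ((k i : ℝ) - k' i)| ≤ σ * 5 := by
    have : σ * ((k i : ℝ) - k' i) = (σ * k i - p i) - (σ * k' i - q i) + (p i - q i) := by ring
    rw [this]
    refine (abs_add_le _ _).trans ?_
    have h7 := abs_sub (σ * (k i : ℝ) - p i) (σ * k' i - q i)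
    have h8 : |p i - q i| ≤ σ * 3 := by
      calc |p i - q i| ≤ 1 / (N : ℝ) * |p j - q j| := he p hp q hq i hi
        _ ≤ (1 / (N : ℝ)) * (σ * (N + 2)) :=
            mul_le_mul_of_nonneg_left h3 (by positivity)
        _ ≤ σ * 3 := by
            rw [one_div, inv_mul_le_iff₀ (by linarith)]
            nlinarith
    linarith
  rw [abs_mul, abs_of_pos hσ] at h6
  have h9 := le_of_mul_le_mul_left h6 hσ
  exact_mod_cast h9

lemma card_close {N : ℕ} (P : ℕ → ℕ → ℕ → Prop)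
    [DecidablePred fun q : ℕ × (ℕ × ℕ) => P q.1 q.2.1 q.2.2]
    (h : ∀ b c d b' c' d', b < N → c < N → d < N → b' < N → c' < N → d' < N → P b c d →
      P b' c' d' → |(b : ℤ) - b'| ≤ 5 ∧ |(c : ℤ) - c'| ≤ 5 ∧ |(d : ℤ) - d'| ≤ 5) :
    (((range N ×ˢ (range N ×ˢ range N)).filter
      fun q : ℕ × (ℕ × ℕ) => P q.1 q.2.1 q.2.2).card : ℝ) ≤ 1331 := by
  classical
  by_cases hne : ((range N ×ˢ (range N ×ˢ range N)).filter
      fun q : ℕ × (ℕ × ℕ) => P q.1 q.2.1 q.2.2).Nonempty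
  · obtain ⟨⟨b0, c0, d0⟩, h0⟩ := hne
    simp only [mem_filter, mem_product, mem_range] at h0
    have hsub : ((range N ×ˢ (range N ×ˢ range N)).filter
        fun q : ℕ × (ℕ × ℕ) => P q.1 q.2.1 q.2.2) ⊆
        (Finset.Icc (b0 - 5) (b0 + 5)) ×ˢ ((Finset.Icc (c0 - 5) (c0 + 5)) ×ˢ
          (Finset.Icc (d0 - 5) (d0 + 5))) := by
      intro q hq
      simp only [mem_filter, mem_product, mem_range] at hq
      have := h q.1 q.2.1 q.2.2 b0 c0 d0 hq.1.1 hq.1.2.1 hq.1.2.2 h0.1.1 h0.1.2.1 h0.1.2.2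
        hq.2 h0.2
      simp only [mem_product, mem_Icc]
      obtain ⟨h1, h2, h3⟩ := this
      rw [abs_le] at h1 h2 h3
      omega
    have := Finset.card_le_card hsub
    rw [Finset.card_product, Finset.card_product, Nat.card_Icc, Nat.card_Icc,
      Nat.card_Icc] at this
    have h3 : b0 + 5 + 1 - (b0 - 5) ≤ 11 := by omega
    have h4 : c0 + 5 + 1 - (c0 - 5) ≤ 11 := by omega
    have h4' : d0 + 5 + 1 - (d0 - 5) ≤ 11 := by omega
    have h5 : ((range N ×ˢ (range N ×ˢ range N)).filter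
        fun q : ℕ × (ℕ × ℕ) => P q.1 q.2.1 q.2.2).card ≤ 11 * (11 * 11) :=
      this.trans (Nat.mul_le_mul h3 (Nat.mul_le_mul h4 h4'))
    calc (((range N ×ˢ (range N ×ˢ range N)).filter
        fun q : ℕ × (ℕ × ℕ) => P q.1 q.2.1 q.2.2).card : ℝ)
        ≤ ((11 * (11 * 11) : ℕ) : ℝ) := by exact_mod_cast h5
      _ = 1331 := by norm_num
  · rw [Finset.not_nonempty_iff_eq_empty] at hne
    rw [hne]
    norm_num

open Classical in
/-- total weight of the sets passing near the cube `k` at scale `σ` -/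
noncomputable def W {ι : Type*} (s : Finset ι) (S : ι → Set (Fin 4 → ℝ)) (w : ι → ℝ) (σ : ℝ)
    (k : Fin 4 → ℤ) : ℝ :=
  ∑ l ∈ s, if Nr (S l) (pt σ k) σ then w l else 0

lemma W_nonneg {ι : Type*} (s : Finset ι) (S : ι → Set (Fin 4 → ℝ)) (w : ι → ℝ)
    (hw : ∀ l ∈ s, 0 ≤ w l) (σ : ℝ) (k : Fin 4 → ℤ) : 0 ≤ W s S w σ k := by
  classical
  refine Finset.sum_nonneg fun l hl => ?_
  split_ifs
  · exact hw l hl
  · exact le_rfl

lemma W_le {ι : Type*} (s : Finset ι) (S : ι → Set (Fin 4 → ℝ)) (w : ι → ℝ)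
    (hw : ∀ l ∈ s, 0 ≤ w l) (σ : ℝ) (k : Fin 4 → ℤ) : W s S w σ k ≤ ∑ l ∈ s, w l := by
  classical
  refine Finset.sum_le_sum fun l hl => ?_
  split_ifs
  · exact le_rfl
  · exact hw l hl

/-- the child cube -/
def ch (N : ℕ) (K : Fin 4 → ℤ) (a b c d : ℕ) : Fin 4 → ℤ :=
  fun i => N * K i + (![(a : ℤ), b, c, d] i)

open Classical in
/-- abstract column count -/
lemma col_sum {ι : Type*} (s : Finset ι) (w : ι → ℝ) (hw : ∀ l ∈ s, 0 ≤ w l) (N : ℕ)
    (Q : ι → ℕ → ℕ → ℕ → ℕ → Prop) (R : ι → Prop)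
    (hR : ∀ l ∈ s, ∀ a b c d, a < N → b < N → c < N → d < N → Q l a b c d → R l)
    (hcol : ∀ l ∈ s, ∀ a b c d a' b' c' d', a < N → b < N → c < N → d < N → a' < N → b' < N →
      c' < N → d' < N → Q l a b c d → Q l a' b' c' d' →
      |(b : ℤ) - b'| ≤ 5 ∧ |(c : ℤ) - c'| ≤ 5 ∧ |(d : ℤ) - d'| ≤ 5) :
    ∑ b ∈ range N, ∑ c ∈ range N, ∑ d ∈ range N,
      ∑ l ∈ s, (if ∃ a < N, Q l a b c d then w l else 0) ≤
      1331 * ∑ l ∈ s, (if R l then w l else 0) := by
  have e0 : ∑ b ∈ range N, ∑ c ∈ range N, ∑ d ∈ range N,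
      ∑ l ∈ s, (if ∃ a < N, Q l a b c d then w l else 0) =
      ∑ q ∈ range N ×ˢ (range N ×ˢ range N),
        ∑ l ∈ s, (if ∃ a < N, Q l a q.1 q.2.1 q.2.2 then w l else 0) := by
    rw [Finset.sum_product]
    refine Finset.sum_congr rfl fun b _ => ?_
    rw [Finset.sum_product]
  have e1 : ∑ b ∈ range N, ∑ c ∈ range N, ∑ d ∈ range N,
      ∑ l ∈ s, (if ∃ a < N, Q l a b c d then w l else 0) =
      ∑ l ∈ s, w l * (((range N ×ˢ (range N ×ˢ range N)).filter fun q : ℕ × (ℕ × ℕ) =>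
        ∃ a < N, Q l a q.1 q.2.1 q.2.2).card : ℝ) := by
    rw [e0, Finset.sum_comm]
    refine Finset.sum_congr rfl fun l _ => ?_
    rw [Finset.card_filter]
    push_cast
    rw [Finset.mul_sum]
    refine Finset.sum_congr rfl fun q _ => ?_
    split_ifs <;> simp
  rw [e1, Finset.mul_sum]
  refine Finset.sum_le_sum fun l hl => ?_
  by_cases hRl : R l
  · rw [if_pos hRl, mul_comm]
    refine mul_le_mul_of_nonneg_right ?_ (hw l hl)
    refine card_close (fun b c d => ∃ a < N, Q l a b c d) ?_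
    rintro b c d b' c' d' hb hc hd hb' hc' hd' ⟨a, ha, h1⟩ ⟨a', ha', h2⟩
    exact hcol l hl a b c d a' b' c' d' ha hb hc hd ha' hb' hc' hd' h1 h2
  · rw [if_neg hRl]
    have : ((range N ×ˢ (range N ×ˢ range N)).filter fun q : ℕ × (ℕ × ℕ) =>
        ∃ a < N, Q l a q.1 q.2.1 q.2.2) = ∅ := by
      rw [Finset.filter_eq_empty_iff]
      rintro ⟨b, c, d⟩ hq ⟨a, ha, h1⟩
      simp only [mem_product, mem_range] at hq
      exact hRl (hR l hl a b c d ha hq.1 hq.2.1 hq.2.2 h1)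
    rw [this]
    simp

/-- the product of the four cube roots -/
noncomputable def P4 {ι : Type*} (s : Fin 4 → Finset ι) (S : ι → Set (Fin 4 → ℝ)) (w : ι → ℝ)
    (σ : ℝ) (k : Fin 4 → ℤ) : ℝ :=
  cb (W (s 0) S w σ k) * (cb (W (s 1) S w σ k) * (cb (W (s 2) S w σ k) * cb (W (s 3) S w σ k)))

lemma P4_nonneg {ι : Type*} (s : Fin 4 → Finset ι) (S : ι → Set (Fin 4 → ℝ)) (w : ι → ℝ)
    (hw : ∀ j, ∀ l ∈ s j, 0 ≤ w l) (σ : ℝ) (k : Fin 4 → ℤ) : 0 ≤ P4 s S w σ k := by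
  unfold P4
  have := fun j => cb_nonneg (W_nonneg (s j) S w (hw j) σ k)
  exact mul_nonneg (this 0) (mul_nonneg (this 1) (mul_nonneg (this 2) (this 3)))

open Classical in
/-- **local step** -/
lemma local_step {ι : Type*} (s : Fin 4 → Finset ι) (S : ι → Set (Fin 4 → ℝ)) (w : ι → ℝ)
    (hw : ∀ j, ∀ l ∈ s j, 0 ≤ w l) {N : ℕ} (hN : 1 ≤ N)
    (hax : ∀ j, ∀ l ∈ s j, AxS N j (S l)) {σ : ℝ} (hσ : 0 < σ) (K : Fin 4 → ℤ) :
    ∑ a ∈ range N, ∑ b ∈ range N, ∑ c ∈ range N, ∑ d ∈ range N,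
      P4 s S w σ (ch N K a b c d) ≤ 14641 * P4 s S w (σ * N) K := by
  -- child nearness predicate
  set Q : ι → ℕ → ℕ → ℕ → ℕ → Prop := fun l a b c d => Nr (S l) (pt σ (ch N K a b c d)) σ with hQ
  set R : ι → Prop := fun l => Nr (S l) (pt (σ * N) K) (σ * N) with hRdef
  have hR : ∀ l a b c d, a < N → b < N → c < N → d < N → Q l a b c d → R l := by
    intro l a b c d ha hb hc hd h
    refine near_parent hσ.le (a := ![(a : ℤ), b, c, d]) ?_ ?_ h
    · intro i; fin_cases i <;> simp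
    · intro i; fin_cases i <;> simp [ha, hb, hc, hd]
  have hclose : ∀ j, ∀ l ∈ s j, ∀ a b c d a' b' c' d', a < N → b < N → c < N → d < N →
      a' < N → b' < N → c' < N → d' < N → Q l a b c d → Q l a' b' c' d' → ∀ i, i ≠ j →
      |(![(a : ℤ), b, c, d] i) - (![(a' : ℤ), b', c', d'] i)| ≤ 5 := by
    intro j l hl a b c d a' b' c' d' ha hb hc hd ha' hb' hc' hd' h1 h2 i hi
    have h3 := column hσ hN (hax j l hl) h1 h2 ?_ i hi
    · have : (ch N K a b c d i) - (ch N K a' b' c' d' i) =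
        (![(a : ℤ), b, c, d] i) - (![(a' : ℤ), b', c', d'] i) := by simp [ch]
      rwa [this] at h3
    · have : (ch N K a b c d j) - (ch N K a' b' c' d' j) =
        (![(a : ℤ), b, c, d] j) - (![(a' : ℤ), b', c', d'] j) := by simp [ch]
      rw [this, abs_le]
      fin_cases j <;> simp <;> omega
  -- the four column functions
  set g0 : ℕ → ℕ → ℕ → ℝ := fun b c d =>
    ∑ l ∈ s 0, (if ∃ a < N, Q l a b c d then w l else 0) with hg0
  set g1 : ℕ → ℕ → ℕ → ℝ := fun a c d =>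
    ∑ l ∈ s 1, (if ∃ b < N, Q l a b c d then w l else 0) with hg1
  set g2 : ℕ → ℕ → ℕ → ℝ := fun a b d =>
    ∑ l ∈ s 2, (if ∃ c < N, Q l a b c d then w l else 0) with hg2
  set g3 : ℕ → ℕ → ℕ → ℝ := fun a b c =>
    ∑ l ∈ s 3, (if ∃ d < N, Q l a b c d then w l else 0) with hg3
  have n0 : ∀ b c d, 0 ≤ g0 b c d := fun b c d => Finset.sum_nonneg fun l hl => by
    split_ifs; exacts [hw 0 l hl, le_rfl]
  have n1 : ∀ b c d, 0 ≤ g1 b c d := fun b c d => Finset.sum_nonneg fun l hl => by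
    split_ifs; exacts [hw 1 l hl, le_rfl]
  have n2 : ∀ b c d, 0 ≤ g2 b c d := fun b c d => Finset.sum_nonneg fun l hl => by
    split_ifs; exacts [hw 2 l hl, le_rfl]
  have n3 : ∀ b c d, 0 ≤ g3 b c d := fun b c d => Finset.sum_nonneg fun l hl => by
    split_ifs; exacts [hw 3 l hl, le_rfl]
  have b0 : ∀ a b c d, a < N → W (s 0) S w σ (ch N K a b c d) ≤ g0 b c d := by
    intro a b c d ha
    refine Finset.sum_le_sum fun l hl => ?_
    by_cases h : Q l a b c d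
    · rw [if_pos h, if_pos ⟨a, ha, h⟩]
    · rw [if_neg h]
      split_ifs; exacts [hw 0 l hl, le_rfl]
  have b1 : ∀ a b c d, b < N → W (s 1) S w σ (ch N K a b c d) ≤ g1 a c d := by
    intro a b c d ha
    refine Finset.sum_le_sum fun l hl => ?_
    by_cases h : Q l a b c d
    · rw [if_pos h, if_pos ⟨b, ha, h⟩]
    · rw [if_neg h]
      split_ifs; exacts [hw 1 l hl, le_rfl]
  have b2 : ∀ a b c d, c < N → W (s 2) S w σ (ch N K a b c d) ≤ g2 a b d := by
    intro a b c d ha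
    refine Finset.sum_le_sum fun l hl => ?_
    by_cases h : Q l a b c d
    · rw [if_pos h, if_pos ⟨c, ha, h⟩]
    · rw [if_neg h]
      split_ifs; exacts [hw 2 l hl, le_rfl]
  have b3 : ∀ a b c d, d < N → W (s 3) S w σ (ch N K a b c d) ≤ g3 a b c := by
    intro a b c d ha
    refine Finset.sum_le_sum fun l hl => ?_
    by_cases h : Q l a b c d
    · rw [if_pos h, if_pos ⟨d, ha, h⟩]
    · rw [if_neg h]
      split_ifs; exacts [hw 3 l hl, le_rfl]
  have t0 : ∑ b ∈ range N, ∑ c ∈ range N, ∑ d ∈ range N, g0 b c d ≤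
      1331 * W (s 0) S w (σ * N) K := by
    refine col_sum (s 0) w (hw 0) N (fun l a b c d => Q l a b c d) R
      (fun l _ a b c d ha hb hc hd h => hR l a b c d ha hb hc hd h) ?_
    intro l hl a b c d a' b' c' d' ha hb hc hd ha' hb' hc' hd' h1 h2
    have := hclose 0 l hl a b c d a' b' c' d' ha hb hc hd ha' hb' hc' hd' h1 h2
    exact ⟨by simpa using this 1 (by decide), by simpa using this 2 (by decide),
      by simpa using this 3 (by decide)⟩
  have t1 : ∑ a ∈ range N, ∑ c ∈ range N, ∑ d ∈ range N, g1 a c d ≤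
      1331 * W (s 1) S w (σ * N) K := by
    refine col_sum (s 1) w (hw 1) N (fun l b a c d => Q l a b c d) R
      (fun l _ b a c d hb ha hc hd h => hR l a b c d ha hb hc hd h) ?_
    intro l hl b a c d b' a' c' d' hb ha hc hd hb' ha' hc' hd' h1 h2
    have := hclose 1 l hl a b c d a' b' c' d' ha hb hc hd ha' hb' hc' hd' h1 h2
    exact ⟨by simpa using this 0 (by decide), by simpa using this 2 (by decide),
      by simpa using this 3 (by decide)⟩
  have t2 : ∑ a ∈ range N, ∑ b ∈ range N, ∑ d ∈ range N, g2 a b d ≤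
      1331 * W (s 2) S w (σ * N) K := by
    refine col_sum (s 2) w (hw 2) N (fun l c a b d => Q l a b c d) R
      (fun l _ c a b d hc ha hb hd h => hR l a b c d ha hb hc hd h) ?_
    intro l hl c a b d c' a' b' d' hc ha hb hd hc' ha' hb' hd' h1 h2
    have := hclose 2 l hl a b c d a' b' c' d' ha hb hc hd ha' hb' hc' hd' h1 h2
    exact ⟨by simpa using this 0 (by decide), by simpa using this 1 (by decide),
      by simpa using this 3 (by decide)⟩
  have t3 : ∑ a ∈ range N, ∑ b ∈ range N, ∑ c ∈ range N, g3 a b c ≤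
      1331 * W (s 3) S w (σ * N) K := by
    refine col_sum (s 3) w (hw 3) N (fun l d a b c => Q l a b c d) R
      (fun l _ d a b c hd ha hb hc h => hR l a b c d ha hb hc hd h) ?_
    intro l hl d a b c d' a' b' c' hd ha hb hc hd' ha' hb' hc' h1 h2
    have := hclose 3 l hl a b c d a' b' c' d' ha hb hc hd ha' hb' hc' hd' h1 h2
    exact ⟨by simpa using this 0 (by decide), by simpa using this 1 (by decide),
      by simpa using this 2 (by decide)⟩
  have m0 := W_nonneg (s 0) S w (hw 0) (σ * N) K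
  have m1 := W_nonneg (s 1) S w (hw 1) (σ * N) K
  have m2 := W_nonneg (s 2) S w (hw 2) (σ * N) K
  have m3 := W_nonneg (s 3) S w (hw 3) (σ * N) K
  have cW : ∀ j k, 0 ≤ cb (W (s j) S w σ k) := fun j k => cb_nonneg (W_nonneg (s j) S w (hw j) σ k)
  have s0 : 0 ≤ ∑ b ∈ range N, ∑ c ∈ range N, ∑ d ∈ range N, g0 b c d :=
    Finset.sum_nonneg fun b _ => Finset.sum_nonneg fun c _ => Finset.sum_nonneg fun d _ => n0 b c d
  have s1 : 0 ≤ ∑ b ∈ range N, ∑ c ∈ range N, ∑ d ∈ range N, g1 b c d :=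
    Finset.sum_nonneg fun b _ => Finset.sum_nonneg fun c _ => Finset.sum_nonneg fun d _ => n1 b c d
  have s2 : 0 ≤ ∑ b ∈ range N, ∑ c ∈ range N, ∑ d ∈ range N, g2 b c d :=
    Finset.sum_nonneg fun b _ => Finset.sum_nonneg fun c _ => Finset.sum_nonneg fun d _ => n2 b c d
  have s3 : 0 ≤ ∑ b ∈ range N, ∑ c ∈ range N, ∑ d ∈ range N, g3 b c d :=
    Finset.sum_nonneg fun b _ => Finset.sum_nonneg fun c _ => Finset.sum_nonneg fun d _ => n3 b c d
  calc ∑ a ∈ range N, ∑ b ∈ range N, ∑ c ∈ range N, ∑ d ∈ range N,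
      P4 s S w σ (ch N K a b c d)
      ≤ ∑ a ∈ range N, ∑ b ∈ range N, ∑ c ∈ range N, ∑ d ∈ range N,
          cb (g0 b c d) * (cb (g1 a c d) * (cb (g2 a b d) * cb (g3 a b c))) := by
        refine Finset.sum_le_sum fun a ha => Finset.sum_le_sum fun b hb =>
          Finset.sum_le_sum fun c hc => Finset.sum_le_sum fun d hd => ?_
        rw [mem_range] at ha hb hc hd
        unfold P4
        have k0 := cb_mono (W_nonneg (s 0) S w (hw 0) σ _) (b0 a b c d ha)
        have k1 := cb_mono (W_nonneg (s 1) S w (hw 1) σ _) (b1 a b c d hb)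
        have k2 := cb_mono (W_nonneg (s 2) S w (hw 2) σ _) (b2 a b c d hc)
        have k3 := cb_mono (W_nonneg (s 3) S w (hw 3) σ _) (b3 a b c d hd)
        refine mul_le_mul k0 (mul_le_mul k1 (mul_le_mul k2 k3 (cW 3 _) (cb_nonneg (n2 _ _ _)))
          (mul_nonneg (cW 2 _) (cW 3 _)) (cb_nonneg (n1 _ _ _)))
          (mul_nonneg (cW 1 _) (mul_nonneg (cW 2 _) (cW 3 _))) (cb_nonneg (n0 _ _ _))
    _ ≤ cb (∑ b ∈ range N, ∑ c ∈ range N, ∑ d ∈ range N, g0 b c d) *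
          (cb (∑ a ∈ range N, ∑ c ∈ range N, ∑ d ∈ range N, g1 a c d) *
          (cb (∑ a ∈ range N, ∑ b ∈ range N, ∑ d ∈ range N, g2 a b d) *
          cb (∑ a ∈ range N, ∑ b ∈ range N, ∑ c ∈ range N, g3 a b c))) :=
        lw4 _ _ _ _ g0 g1 g2 g3 n0 n1 n2 n3
    _ ≤ cb (1331 * W (s 0) S w (σ * N) K) * (cb (1331 * W (s 1) S w (σ * N) K) *
          (cb (1331 * W (s 2) S w (σ * N) K) * cb (1331 * W (s 3) S w (σ * N) K))) := by
        have k0 := cb_mono s0 t0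
        have k1 := cb_mono s1 t1
        have k2 := cb_mono s2 t2
        have k3 := cb_mono s3 t3
        have z1 := cb_nonneg s1
        have z2 := cb_nonneg s2
        have z3 := cb_nonneg s3
        have y0 : 0 ≤ cb (1331 * W (s 0) S w (σ * N) K) := cb_nonneg (by positivity)
        have y1 : 0 ≤ cb (1331 * W (s 1) S w (σ * N) K) := cb_nonneg (by positivity)
        have y2 : 0 ≤ cb (1331 * W (s 2) S w (σ * N) K) := cb_nonneg (by positivity)
        exact mul_le_mul k0 (mul_le_mul k1 (mul_le_mul k2 k3 z3 y2)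
          (mul_nonneg z2 z3) y1) (mul_nonneg z1 (mul_nonneg z2 z3)) y0
    _ = 14641 * P4 s S w (σ * N) K := by
        rw [cb_mul (by norm_num) m0, cb_mul (by norm_num) m1, cb_mul (by norm_num) m2,
          cb_mul (by norm_num) m3, cb_1331]
        unfold P4
        ring

/-- the parent of a cell -/
def par (N : ℕ) (k : Fin 4 → ℤ) : Fin 4 → ℤ := fun i => k i / (N : ℤ)

lemma sum_children {N : ℕ} (hN : 1 ≤ N) (F : (Fin 4 → ℤ) → ℝ) (hF : ∀ k, 0 ≤ F k)
    (X : Finset (Fin 4 → ℤ)) (K : Fin 4 → ℤ) (hX : ∀ k ∈ X, par N k = K) :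
    ∑ k ∈ X, F k ≤ ∑ a ∈ range N, ∑ b ∈ range N, ∑ c ∈ range N, ∑ d ∈ range N,
      F (ch N K a b c d) := by
  classical
  have hN0 : (0 : ℤ) < N := by exact_mod_cast hN
  have e2 : ∑ a ∈ range N, ∑ b ∈ range N, ∑ c ∈ range N, ∑ d ∈ range N, F (ch N K a b c d) =
      ∑ q ∈ range N ×ˢ (range N ×ˢ (range N ×ˢ range N)),
        F (ch N K q.1 q.2.1 q.2.2.1 q.2.2.2) := by
    rw [Finset.sum_product]
    refine Finset.sum_congr rfl fun a _ => ?_
    rw [Finset.sum_product]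
    refine Finset.sum_congr rfl fun b _ => ?_
    rw [Finset.sum_product]
  rw [e2]
  set g : (Fin 4 → ℤ) → ℕ × (ℕ × (ℕ × ℕ)) := fun k =>
    ((k 0 % N).toNat, ((k 1 % N).toNat, ((k 2 % N).toNat, (k 3 % N).toNat))) with hg
  have hch : ∀ k ∈ X, ch N K (g k).1 (g k).2.1 (g k).2.2.1 (g k).2.2.2 = k := by
    intro k hk
    have h1 := hX k hk
    funext i
    have h2 : k i / (N : ℤ) = K i := congrFun h1 i
    have h3 := Int.emod_nonneg (k i) (ne_of_gt hN0)
    have h4 := Int.mul_ediv_add_emod (k i) N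
    simp only [ch, hg]
    fin_cases i <;> simp [Int.toNat_of_nonneg (Int.emod_nonneg _ (ne_of_gt hN0))] <;>
      simp at h2 h4 <;> rw [← h2] <;> linarith
  have hinj : Set.InjOn g (X : Set (Fin 4 → ℤ)) := by
    intro k hk k' hk' h
    rw [← hch k hk, ← hch k' hk', h]
  have e3 : ∑ k ∈ X, F k = ∑ q ∈ X.image g, F (ch N K q.1 q.2.1 q.2.2.1 q.2.2.2) := by
    rw [Finset.sum_image hinj]
    exact Finset.sum_congr rfl fun k hk => by rw [hch k hk]
  rw [e3]
  refine Finset.sum_le_sum_of_subset_of_nonneg ?_ (fun q _ _ => hF _)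
  intro q hq
  simp only [Finset.mem_image] at hq
  obtain ⟨k, hk, rfl⟩ := hq
  have h5 : ∀ i, (k i % (N : ℤ)).toNat < N := by
    intro i
    have h3 := Int.emod_nonneg (k i) (ne_of_gt hN0)
    have h4 := Int.emod_lt_of_pos (k i) hN0
    omega
  simp only [hg, Finset.mem_product, Finset.mem_range]
  exact ⟨h5 0, h5 1, h5 2, h5 3⟩

/-- **near-axis multilinear Kakeya in dimension four** for abstract sets. -/
theorem axial {ι : Type*} (s : Fin 4 → Finset ι) (S : ι → Set (Fin 4 → ℝ)) (w : ι → ℝ)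
    (hw : ∀ j, ∀ l ∈ s j, 0 ≤ w l) {N : ℕ} (hN : 1 ≤ N)
    (hax : ∀ j, ∀ l ∈ s j, AxS N j (S l)) (m : ℕ) : ∀ {σ : ℝ}, 0 < σ →
    ∀ (X : Finset (Fin 4 → ℤ)), (∀ k ∈ X, ∀ i, -((N : ℤ) ^ m) ≤ k i ∧ k i < (N : ℤ) ^ m) →
    ∑ k ∈ X, P4 s S w σ k ≤ 16 * 14641 ^ m *
      (cb (∑ l ∈ s 0, w l) * (cb (∑ l ∈ s 1, w l) * (cb (∑ l ∈ s 2, w l) *
        cb (∑ l ∈ s 3, w l)))) := by
  classical
  have hs : ∀ j, 0 ≤ ∑ l ∈ s j, w l := fun j => Finset.sum_nonneg (hw j)
  have hT : 0 ≤ (cb (∑ l ∈ s 0, w l) * (cb (∑ l ∈ s 1, w l) * (cb (∑ l ∈ s 2, w l) *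
        cb (∑ l ∈ s 3, w l)))) :=
    mul_nonneg (cb_nonneg (hs 0)) (mul_nonneg (cb_nonneg (hs 1)) (mul_nonneg (cb_nonneg (hs 2))
      (cb_nonneg (hs 3))))
  induction m with
  | zero =>
    intro σ hσ X hX
    have hcard : X.card ≤ 16 := by
      have hsub : X ⊆ Fintype.piFinset (fun _ : Fin 4 => Finset.Ico (-1 : ℤ) 1) := by
        intro k hk
        rw [Fintype.mem_piFinset]
        intro i
        have := hX k hk i
        simp only [pow_zero] at this
        rw [Finset.mem_Ico]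
        exact this
      have h1 := Finset.card_le_card hsub
      rw [Fintype.card_piFinset] at h1
      simpa using h1
    have hbd : ∀ k ∈ X, P4 s S w σ k ≤ (cb (∑ l ∈ s 0, w l) * (cb (∑ l ∈ s 1, w l) *
        (cb (∑ l ∈ s 2, w l) * cb (∑ l ∈ s 3, w l)))) := by
      intro k _
      unfold P4
      have k0 := cb_mono (W_nonneg (s 0) S w (hw 0) σ k) (W_le (s 0) S w (hw 0) σ k)
      have k1 := cb_mono (W_nonneg (s 1) S w (hw 1) σ k) (W_le (s 1) S w (hw 1) σ k)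
      have k2 := cb_mono (W_nonneg (s 2) S w (hw 2) σ k) (W_le (s 2) S w (hw 2) σ k)
      have k3 := cb_mono (W_nonneg (s 3) S w (hw 3) σ k) (W_le (s 3) S w (hw 3) σ k)
      have z := fun j => cb_nonneg (W_nonneg (s j) S w (hw j) σ k)
      exact mul_le_mul k0 (mul_le_mul k1 (mul_le_mul k2 k3 (z 3) (cb_nonneg (hs 2)))
        (mul_nonneg (z 2) (z 3)) (cb_nonneg (hs 1)))
        (mul_nonneg (z 1) (mul_nonneg (z 2) (z 3))) (cb_nonneg (hs 0))
    refine (Finset.sum_le_card_nsmul X _ _ hbd).trans ?_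
    rw [nsmul_eq_mul, pow_zero, mul_one]
    refine mul_le_mul_of_nonneg_right ?_ hT
    exact_mod_cast hcard
  | succ m ih =>
    intro σ hσ X hX
    have hN0 : (0 : ℤ) < N := by exact_mod_cast hN
    have hNR : (0 : ℝ) < N := by exact_mod_cast hN
    have e1 : ∑ k ∈ X, P4 s S w σ k =
        ∑ K ∈ X.image (par N), ∑ k ∈ X.filter (fun k => par N k = K), P4 s S w σ k := by
      rw [Finset.sum_fiberwise_of_maps_to]
      intro k hk
      exact Finset.mem_image_of_mem _ hk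
    rw [e1]
    have e2 : ∀ K ∈ X.image (par N), ∑ k ∈ X.filter (fun k => par N k = K), P4 s S w σ k ≤
        14641 * P4 s S w (σ * N) K := by
      intro K _
      refine (sum_children hN (P4 s S w σ) (P4_nonneg s S w hw σ) _ K ?_).trans
        (local_step s S w hw hN hax hσ K)
      intro k hk
      exact (Finset.mem_filter.mp hk).2
    refine (Finset.sum_le_sum e2).trans ?_
    rw [← Finset.mul_sum]
    have h3 := ih (σ := σ * N) (by positivity) (X.image (par N)) ?_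
    · calc 14641 * ∑ K ∈ X.image (par N), P4 s S w (σ * N) K
          ≤ 14641 * (16 * 14641 ^ m * (cb (∑ l ∈ s 0, w l) * (cb (∑ l ∈ s 1, w l) *
            (cb (∑ l ∈ s 2, w l) * cb (∑ l ∈ s 3, w l))))) :=
            mul_le_mul_of_nonneg_left h3 (by norm_num)
        _ = _ := by rw [pow_succ]; ring
    · intro K hK i
      obtain ⟨k, hk, rfl⟩ := Finset.mem_image.mp hK
      have h4 := hX k hk i
      simp only [par]
      rw [pow_succ] at h4
      constructor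
      · rw [Int.le_ediv_iff_mul_le hN0]
        linarith [h4.1]
      · rw [Int.ediv_lt_iff_lt_mul hN0]
        exact h4.2

end Crest.Agent.R136.MK4
end

-- ▼ part R136/Mk4c_418
section

/-!
# 4-linear Kakeya in R^4, part c (helper418)

The transversal statement after a linear change of variables `G` (snapping of unit cells to cells
of the new coordinates), with the loss `R ^ ε`.
-/

set_option autoImplicit false

namespace Crest.Agent.R136.MK4

open Finset

/-- choice of the base of the induction and of the number of scales -/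
lemma exists_scale (ε : ℝ) (hε : 0 < ε) : ∃ N : ℕ, 1 ≤ N ∧ ∀ R : ℝ, 1 ≤ R →
    ∃ m : ℕ, R < (N : ℝ) ^ m ∧ (14641 : ℝ) ^ m ≤ 14641 * R ^ ε := by
  obtain ⟨N, hN⟩ := exists_nat_gt (max 2 ((14641 : ℝ) ^ (1 / ε)))
  have hN2 : (2 : ℝ) < N := lt_of_le_of_lt (le_max_left _ _) hN
  have hN3 : (14641 : ℝ) ^ (1 / ε) < N := lt_of_le_of_lt (le_max_right _ _) hN
  have hN0 : (0 : ℝ) < N := by linarith
  refine ⟨N, by have : (1 : ℝ) ≤ N := by linarith
                exact_mod_cast this, fun R hR => ?_⟩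
  have h14 : (14641 : ℝ) ≤ (N : ℝ) ^ ε := by
    calc (14641 : ℝ) = ((14641 : ℝ) ^ (1 / ε)) ^ ε := by
          rw [← Real.rpow_mul (by norm_num)]
          rw [one_div, inv_mul_cancel₀ hε.ne', Real.rpow_one]
      _ ≤ (N : ℝ) ^ ε := Real.rpow_le_rpow (by positivity) hN3.le hε.le
  have hex : ∃ m : ℕ, R < (N : ℝ) ^ m := pow_unbounded_of_one_lt R (by linarith)
  classical
  set m := Nat.find hex with hm
  have h1 : R < (N : ℝ) ^ m := Nat.find_spec hex
  refine ⟨m, h1, ?_⟩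
  have hm0 : m ≠ 0 := by
    intro h0
    rw [h0, pow_zero] at h1
    linarith
  obtain ⟨n, hn⟩ := Nat.exists_eq_succ_of_ne_zero hm0
  have h2 : (N : ℝ) ^ n ≤ R := by
    have := Nat.find_min hex (m := n) (by rw [← hm, hn]; exact Nat.lt_succ_self n)
    exact not_lt.mp this
  rw [hn, Nat.succ_eq_add_one, pow_succ]
  have h3 : (14641 : ℝ) ^ n ≤ R ^ ε := by
    calc (14641 : ℝ) ^ n ≤ ((N : ℝ) ^ ε) ^ n := pow_le_pow_left₀ (by norm_num) h14 n
      _ = ((N : ℝ) ^ n) ^ ε := by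
          rw [← Real.rpow_natCast, ← Real.rpow_mul hN0.le, mul_comm, Real.rpow_mul hN0.le,
            Real.rpow_natCast]
      _ ≤ R ^ ε := Real.rpow_le_rpow (by positivity) h2 hε.le
  nlinarith

/-- integer point as a real vector -/
def rv (k : Fin 4 → ℤ) : Fin 4 → ℝ := fun i => (k i : ℝ)

/-- snapping -/
noncomputable def snap (G : (Fin 4 → ℝ) → (Fin 4 → ℝ)) (σ : ℝ) (k : Fin 4 → ℤ) : Fin 4 → ℤ :=
  fun i => round (G (rv k) i / σ)

lemma snap_near (G : (Fin 4 → ℝ) → (Fin 4 → ℝ)) {σ : ℝ} (hσ : 0 < σ) (k : Fin 4 → ℤ) (i : Fin 4) :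
    |pt σ (snap G σ k) i - G (rv k) i| ≤ σ / 2 := by
  have h := abs_sub_round (G (rv k) i / σ)
  have e : pt σ (snap G σ k) i - G (rv k) i =
      -(σ * (G (rv k) i / σ - round (G (rv k) i / σ))) := by
    simp only [pt, snap]
    field_simp
    ring
  rw [e, abs_neg, abs_mul, abs_of_pos hσ]
  nlinarith

/-- fibres of the snapping map -/
lemma fibre_card (G : (Fin 4 → ℝ) → (Fin 4 → ℝ))
    (hadd : ∀ x y : Fin 4 → ℝ, ∀ i, G x i - G y i = G (fun i => x i - y i) i)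
    (hback : ∀ (y : Fin 4 → ℝ) (t : ℝ), (∀ i, |G y i| ≤ t) → ∀ i, |y i| ≤ 8 * t)
    {σ : ℝ} (hσ : 1 ≤ σ) (X : Finset (Fin 4 → ℤ)) (κ : Fin 4 → ℤ)
    (hX : ∀ k ∈ X, snap G σ k = κ) : (X.card : ℝ) ≤ (17 * σ) ^ 4 := by
  classical
  have hσ0 : 0 < σ := by linarith
  rcases X.eq_empty_or_nonempty with h0 | ⟨k0, hk0⟩
  · rw [h0]; simp; positivity
  · set b : ℤ := ⌊8 * σ⌋ with hb
    have hb0 : 0 ≤ b := Int.floor_nonneg.mpr (by linarith)
    have hsub : X ⊆ Fintype.piFinset (fun i : Fin 4 => Finset.Icc (k0 i - b) (k0 i + b)) := by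
      intro k hk
      rw [Fintype.mem_piFinset]
      intro i
      have h1 : ∀ i, |G (fun i => rv k i - rv k0 i) i| ≤ σ := by
        intro i
        rw [← hadd]
        have g1 := snap_near G hσ0 k i
        have g2 := snap_near G hσ0 k0 i
        rw [hX k hk] at g1
        rw [hX k0 hk0] at g2
        rw [abs_le] at g1 g2 ⊢
        constructor <;> linarith [g1.1, g1.2, g2.1, g2.2]
      have h2 := hback _ _ h1 i
      simp only [rv] at h2
      have h3 : |k i - k0 i| ≤ b := by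
        rw [hb, Int.le_floor]
        push_cast
        exact h2
      rw [abs_le] at h3
      rw [Finset.mem_Icc]
      constructor <;> linarith [h3.1, h3.2]
    have hc := Finset.card_le_card hsub
    rw [Fintype.card_piFinset] at hc
    have h4 : ∀ i : Fin 4, (Finset.Icc (k0 i - b) (k0 i + b)).card = (2 * b + 1).toNat := by
      intro i
      rw [Int.card_Icc]
      congr 1
      ring
    simp only [h4, Finset.prod_const, Finset.card_univ, Fintype.card_fin] at hc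
    have h5 : (((2 * b + 1).toNat : ℕ) : ℝ) ≤ 17 * σ := by
      have h6 : (((2 * b + 1).toNat : ℤ) : ℝ) = ((2 * b + 1 : ℤ) : ℝ) := by
        rw [Int.toNat_of_nonneg (by linarith)]
      have h7 : (((2 * b + 1).toNat : ℕ) : ℝ) = 2 * (b : ℝ) + 1 := by
        have : (((2 * b + 1).toNat : ℕ) : ℝ) = (((2 * b + 1).toNat : ℤ) : ℝ) := by push_cast; rfl
        rw [this, h6]; push_cast; ring
      rw [h7]
      have h8 : (b : ℝ) ≤ 8 * σ := Int.floor_le _
      linarith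
    calc (X.card : ℝ) ≤ (((2 * b + 1).toNat ^ 4 : ℕ) : ℝ) := by exact_mod_cast hc
      _ = (((2 * b + 1).toNat : ℕ) : ℝ) ^ 4 := by push_cast; rfl
      _ ≤ (17 * σ) ^ 4 := pow_le_pow_left₀ (by positivity) h5 4

/-- **Transversal 4-linear Kakeya**, after the change of variables `G`. -/
theorem transversal {ι : Type*} {N : ℕ} (hN : 1 ≤ N) (m : ℕ)
    (G : (Fin 4 → ℝ) → (Fin 4 → ℝ)) {L : ℝ} (hL : 1 ≤ L)
    (hadd : ∀ x y : Fin 4 → ℝ, ∀ i, G x i - G y i = G (fun i => x i - y i) i)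
    (hforw : ∀ (y : Fin 4 → ℝ) (t : ℝ), (∀ i, |y i| ≤ t) → ∀ i, |G y i| ≤ L * t)
    (hback : ∀ (y : Fin 4 → ℝ) (t : ℝ), (∀ i, |G y i| ≤ t) → ∀ i, |y i| ≤ 8 * t)
    (s : Fin 4 → Finset ι) (S : ι → Set (Fin 4 → ℝ)) (w : ι → ℝ)
    (hw : ∀ j, ∀ l ∈ s j, 0 ≤ w l)
    (hax : ∀ j, ∀ l ∈ s j, AxS N j (G '' S l))
    {r R : ℝ} (hr : 1 ≤ r) (hR : 1 ≤ R) (hRm : R < (N : ℝ) ^ m)
    (X : Finset (Fin 4 → ℤ)) (hX : ∀ k ∈ X, ∀ i, |(k i : ℝ)| ≤ R)
    (A : Fin 4 → (Fin 4 → ℤ) → Finset ι) (hA : ∀ k ∈ X, ∀ j, A j k ⊆ s j)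
    (hnear : ∀ k ∈ X, ∀ j, ∀ l ∈ A j k, Nr (S l) (rv k) r) :
    ∑ k ∈ X, (cb (∑ l ∈ A 0 k, w l) * (cb (∑ l ∈ A 1 k, w l) * (cb (∑ l ∈ A 2 k, w l) *
        cb (∑ l ∈ A 3 k, w l)))) ≤
      (34 * L * r) ^ 4 * (16 * 14641 ^ m * (cb (∑ l ∈ s 0, w l) * (cb (∑ l ∈ s 1, w l) *
        (cb (∑ l ∈ s 2, w l) * cb (∑ l ∈ s 3, w l))))) := by
  classical
  set σ : ℝ := 2 * L * r with hσdef
  have hLr : 1 ≤ L * r := by nlinarith
  have hσ1 : 1 ≤ σ := by rw [hσdef]; nlinarith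
  have hσ0 : 0 < σ := by linarith
  set S' : ι → Set (Fin 4 → ℝ) := fun l => G '' S l with hS'
  have hn : ∀ k ∈ X, ∀ j, ∀ l ∈ A j k, Nr (S' l) (pt σ (snap G σ k)) σ := by
    intro k hk j l hl
    obtain ⟨p, hp, hpr⟩ := hnear k hk j l hl
    refine ⟨G p, ⟨p, hp, rfl⟩, fun i => ?_⟩
    have h1 := snap_near G hσ0 k i
    have h2 : |G (rv k) i - G p i| ≤ L * r := by
      rw [hadd]
      exact hforw _ r hpr i
    have h3 : pt σ (snap G σ k) i - G p i =
        (pt σ (snap G σ k) i - G (rv k) i) + (G (rv k) i - G p i) := by ring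
    rw [h3]
    refine (abs_add_le _ _).trans ?_
    have : σ / 2 = L * r := by rw [hσdef]; ring
    linarith
  have hWk : ∀ k ∈ X, ∀ j, ∑ l ∈ A j k, w l ≤ W (s j) S' w σ (snap G σ k) := by
    intro k hk j
    unfold W
    have h1 : ∑ l ∈ A j k, w l =
        ∑ l ∈ A j k, (if Nr (S' l) (pt σ (snap G σ k)) σ then w l else 0) := by
      refine Finset.sum_congr rfl fun l hl => ?_
      rw [if_pos (hn k hk j l hl)]
    rw [h1]
    refine Finset.sum_le_sum_of_subset_of_nonneg (hA k hk j) ?_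
    intro l hl _
    split_ifs
    · exact hw j l hl
    · exact le_rfl
  have hA0 : ∀ k ∈ X, ∀ j, 0 ≤ ∑ l ∈ A j k, w l := fun k hk j =>
    Finset.sum_nonneg fun l hl => hw j l (hA k hk j hl)
  have e1 : ∀ k ∈ X, (cb (∑ l ∈ A 0 k, w l) * (cb (∑ l ∈ A 1 k, w l) * (cb (∑ l ∈ A 2 k, w l) *
        cb (∑ l ∈ A 3 k, w l)))) ≤ P4 s S' w σ (snap G σ k) := by
    intro k hk
    unfold P4
    have k0 := cb_mono (hA0 k hk 0) (hWk k hk 0)
    have k1 := cb_mono (hA0 k hk 1) (hWk k hk 1)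
    have k2 := cb_mono (hA0 k hk 2) (hWk k hk 2)
    have k3 := cb_mono (hA0 k hk 3) (hWk k hk 3)
    have z := fun j => cb_nonneg (hA0 k hk j)
    have y := fun j => cb_nonneg (W_nonneg (s j) S' w (hw j) σ (snap G σ k))
    exact mul_le_mul k0 (mul_le_mul k1 (mul_le_mul k2 k3 (z 3) (y 2))
      (mul_nonneg (z 2) (z 3)) (y 1)) (mul_nonneg (z 1) (mul_nonneg (z 2) (z 3))) (y 0)
  refine (Finset.sum_le_sum e1).trans ?_
  have e2 : ∑ k ∈ X, P4 s S' w σ (snap G σ k) =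
      ∑ κ ∈ X.image (snap G σ), ∑ k ∈ X.filter (fun k => snap G σ k = κ),
        P4 s S' w σ (snap G σ k) := by
    rw [Finset.sum_fiberwise_of_maps_to]
    intro k hk
    exact Finset.mem_image_of_mem _ hk
  rw [e2]
  have e3 : ∀ κ ∈ X.image (snap G σ), ∑ k ∈ X.filter (fun k => snap G σ k = κ),
        P4 s S' w σ (snap G σ k) ≤ (17 * σ) ^ 4 * P4 s S' w σ κ := by
    intro κ _
    have h1 : ∑ k ∈ X.filter (fun k => snap G σ k = κ), P4 s S' w σ (snap G σ k) =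
        ((X.filter (fun k => snap G σ k = κ)).card : ℝ) * P4 s S' w σ κ := by
      rw [← nsmul_eq_mul, ← Finset.sum_const]
      refine Finset.sum_congr rfl fun k hk => ?_
      rw [(Finset.mem_filter.mp hk).2]
    rw [h1]
    refine mul_le_mul_of_nonneg_right ?_ (P4_nonneg s S' w hw σ κ)
    exact fibre_card G hadd hback hσ1 _ κ fun k hk => (Finset.mem_filter.mp hk).2
  refine (Finset.sum_le_sum e3).trans ?_
  rw [← Finset.mul_sum]
  have h17 : 17 * σ = 34 * L * r := by rw [hσdef]; ring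
  rw [h17]
  refine mul_le_mul_of_nonneg_left ?_ (by positivity)
  refine axial s S' w hw hN hax m hσ0 _ ?_
  intro κ hκ i
  obtain ⟨k, hk, rfl⟩ := Finset.mem_image.mp hκ
  have h1 : |G (rv k) i| ≤ L * R := hforw (rv k) R (fun i => hX k hk i) i
  have h2 : |(snap G σ k i : ℝ)| ≤ R := by
    have h3 : (snap G σ k i : ℝ) = pt σ (snap G σ k) i / σ := by
      simp only [pt]; field_simp
    have h4 := snap_near G hσ0 k i
    have h5 : |pt σ (snap G σ k) i| ≤ L * R + σ / 2 := by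
      have : pt σ (snap G σ k) i = (pt σ (snap G σ k) i - G (rv k) i) + G (rv k) i := by ring
      rw [this]
      refine (abs_add_le _ _).trans ?_
      linarith
    rw [h3, abs_div, abs_of_pos hσ0, div_le_iff₀ hσ0]
    refine h5.trans ?_
    rw [hσdef]
    have h6 : L * R ≤ L * r * R := by
      have : L * R * 1 ≤ L * R * r := mul_le_mul_of_nonneg_left hr (by positivity)
      linarith
    nlinarith
  have h7 : |(snap G σ k i : ℝ)| < (N : ℝ) ^ m := lt_of_le_of_lt h2 hRm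
  rw [abs_lt] at h7
  constructor
  · have := h7.1.le
    exact_mod_cast this
  · exact_mod_cast h7.2

end Crest.Agent.R136.MK4
end

-- ▼ part R136/MF1_191
section

/-!
# 4-linear Kakeya in R^4, linear algebra and pigeonhole (helper191), part 1

`quad_of_nonnarrow`: if no slab of half-width `ν` of the velocity space `R^3` carries more than half
of the weight, then the 4-tuples with `|det| ≥ ν^3` carry at least `1/8` of the fourth power of the
weight.  `caps_of_nonnarrow`: the same after a decomposition into velocity cubes.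
-/

set_option autoImplicit false

namespace Crest.Agent.R136.MF191

open Finset Matrix

/-- direction of the line with velocity `v` -/
def dir (v : Fin 3 → ℝ) : Fin 4 → ℝ := ![v 0, v 1, v 2, 1]

/-- determinant of four directions (columns) -/
noncomputable def D4 (e : Fin 4 → Fin 4 → ℝ) : ℝ := (Matrix.of fun i j => e j i).det

/-- the slab of half-width `ν` through `u` with normal `n` -/
def Slab (ν : ℝ) (u n v : Fin 3 → ℝ) : Prop := |∑ i, n i * (v i - u i)| ≤ ν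

lemma D4_dir (v : Fin 4 → Fin 3 → ℝ) : |D4 (fun j => dir (v j))| =
    |(((v 1 1 - v 0 1) * (v 2 2 - v 0 2) - (v 1 2 - v 0 2) * (v 2 1 - v 0 1)) * (v 3 0 - v 0 0)
      + ((v 1 2 - v 0 2) * (v 2 0 - v 0 0) - (v 1 0 - v 0 0) * (v 2 2 - v 0 2)) * (v 3 1 - v 0 1)
      + ((v 1 0 - v 0 0) * (v 2 1 - v 0 1) - (v 1 1 - v 0 1) * (v 2 0 - v 0 0)) *
        (v 3 2 - v 0 2))| := by
  have h : D4 (fun j => dir (v j)) =
    -(((v 1 1 - v 0 1) * (v 2 2 - v 0 2) - (v 1 2 - v 0 2) * (v 2 1 - v 0 1)) * (v 3 0 - v 0 0)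
      + ((v 1 2 - v 0 2) * (v 2 0 - v 0 0) - (v 1 0 - v 0 0) * (v 2 2 - v 0 2)) * (v 3 1 - v 0 1)
      + ((v 1 0 - v 0 0) * (v 2 1 - v 0 1) - (v 1 1 - v 0 1) * (v 2 0 - v 0 0)) *
        (v 3 2 - v 0 2)) := by
    unfold D4
    rw [Matrix.det_succ_row_zero]
    simp only [Fin.sum_univ_four, Matrix.det_fin_three]
    simp [Matrix.submatrix, dir, Fin.succAbove]
    ring
  rw [h, abs_neg]

/-- nested form of a sum over 4-tuples -/
lemma sum_pi_four {ι : Type*} (A : Finset ι) (F : ι → ι → ι → ι → ℝ) :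
    ∑ l ∈ Fintype.piFinset (fun _ : Fin 4 => A), F (l 0) (l 1) (l 2) (l 3) =
      ∑ l0 ∈ A, ∑ l1 ∈ A, ∑ l2 ∈ A, ∑ l3 ∈ A, F l0 l1 l2 l3 := by
  classical
  have h : ∑ l0 ∈ A, ∑ l1 ∈ A, ∑ l2 ∈ A, ∑ l3 ∈ A, F l0 l1 l2 l3 =
      ∑ q ∈ A ×ˢ (A ×ˢ (A ×ˢ A)), F q.1 q.2.1 q.2.2.1 q.2.2.2 := by
    rw [Finset.sum_product]
    refine Finset.sum_congr rfl fun a _ => ?_
    rw [Finset.sum_product]
    refine Finset.sum_congr rfl fun b _ => ?_
    rw [Finset.sum_product]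
  rw [h]
  refine Finset.sum_nbij' (fun l => (l 0, l 1, l 2, l 3))
    (fun q => ![q.1, q.2.1, q.2.2.1, q.2.2.2]) ?_ ?_ ?_ ?_ ?_
  · intro l hl
    rw [Fintype.mem_piFinset] at hl
    simp only [Finset.mem_product]
    exact ⟨hl 0, hl 1, hl 2, hl 3⟩
  · intro q hq
    simp only [Finset.mem_product] at hq
    rw [Fintype.mem_piFinset]
    intro i
    fin_cases i
    · exact hq.1
    · exact hq.2.1
    · exact hq.2.2.1
    · exact hq.2.2.2
  · intro l _
    funext i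
    fin_cases i <;> rfl
  · intro q _
    rfl
  · intro l _
    rfl

/-- one step of the greedy choice -/
lemma step_slab {ι : Type*} (A : Finset ι) (v : ι → Fin 3 → ℝ) (w : ι → ℝ) {ν μ : ℝ}
    (hcomp : ∀ u n : Fin 3 → ℝ, ∑ i, n i ^ 2 = 1 →
      haveI := Classical.decPred fun l => Slab ν u n (v l)
      μ / 2 ≤ ∑ l ∈ A, if Slab ν u n (v l) then 0 else w l)
    (u n : Fin 3 → ℝ) (hn : ∑ i, n i ^ 2 = 1) {c : ℝ} (hc : 0 ≤ c) (G : ι → ℝ)
    (hG0 : ∀ l ∈ A, 0 ≤ G l) (hG : ∀ l ∈ A, ¬ Slab ν u n (v l) → c * w l ≤ G l) :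
    c * (μ / 2) ≤ ∑ l ∈ A, G l := by
  classical
  have h1 := hcomp u n hn
  calc c * (μ / 2) ≤ c * ∑ l ∈ A, (if Slab ν u n (v l) then 0 else w l) := by
        refine mul_le_mul_of_nonneg_left ?_ hc
        convert h1
    _ = ∑ l ∈ A, c * (if Slab ν u n (v l) then 0 else w l) := by rw [Finset.mul_sum]
    _ ≤ ∑ l ∈ A, G l := by
        refine Finset.sum_le_sum fun l hl => ?_
        by_cases hs : Slab ν u n (v l)
        · rw [if_pos hs, mul_zero]
          exact hG0 l hl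
        · rw [if_neg hs]
          exact hG l hl hs

open Classical in
/-- **non-narrow implies many transversal 4-tuples** -/
theorem quad_of_nonnarrow {ι : Type*} (A : Finset ι) (v : ι → Fin 3 → ℝ) (w : ι → ℝ)
    (hw : ∀ l ∈ A, 0 ≤ w l) {ν : ℝ} (hν : 0 < ν)
    (hnn : ∀ u n : Fin 3 → ℝ, ∑ i, n i ^ 2 = 1 →
      ∑ l ∈ A.filter (fun l => Slab ν u n (v l)), w l ≤ (∑ l ∈ A, w l) / 2) :
    (∑ l ∈ A, w l) ^ 4 / 8 ≤ ∑ l ∈ Fintype.piFinset (fun _ : Fin 4 => A),
      if ν ^ 3 ≤ |D4 (fun j => dir (v (l j)))| then ∏ j, w (l j) else 0 := by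
  set μ : ℝ := ∑ l ∈ A, w l with hμ
  have hμ0 : 0 ≤ μ := Finset.sum_nonneg hw
  have hcomp : ∀ u n : Fin 3 → ℝ, ∑ i, n i ^ 2 = 1 →
      μ / 2 ≤ ∑ l ∈ A, if Slab ν u n (v l) then 0 else w l := by
    intro u n hn
    have h1 := hnn u n hn
    have h2 : ∑ l ∈ A, (if Slab ν u n (v l) then 0 else w l) +
        ∑ l ∈ A.filter (fun l => Slab ν u n (v l)), w l = μ := by
      rw [Finset.sum_filter, ← Finset.sum_add_distrib, hμ]
      refine Finset.sum_congr rfl fun l _ => ?_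
      split_ifs <;> simp
    linarith
  -- the determinant in terms of the nested variables
  set X : (Fin 3 → ℝ) → (Fin 3 → ℝ) → (Fin 3 → ℝ) := fun a b =>
    ![a 1 * b 2 - a 2 * b 1, a 2 * b 0 - a 0 * b 2, a 0 * b 1 - a 1 * b 0] with hX
  set dt : ι → ι → ι → ι → ℝ := fun l0 l1 l2 l3 =>
    ∑ i, X (v l1 - v l0) (v l2 - v l0) i * (v l3 i - v l0 i) with hdt
  have hD : ∀ l : Fin 4 → ι, |D4 (fun j => dir (v (l j)))| = |dt (l 0) (l 1) (l 2) (l 3)| := by
    intro l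
    rw [D4_dir (fun j => v (l j))]
    simp only [hdt, hX, Fin.sum_univ_three, Matrix.cons_val_zero, Matrix.cons_val_one,
      Matrix.cons_val, Pi.sub_apply]
  have hprod : ∀ l : Fin 4 → ι, ∏ j, w (l j) = w (l 0) * w (l 1) * w (l 2) * w (l 3) := fun l => by
    rw [Fin.prod_univ_four]
  simp only [hD, hprod]
  rw [sum_pi_four A (fun l0 l1 l2 l3 => if ν ^ 3 ≤ |dt l0 l1 l2 l3| then
    w l0 * w l1 * w l2 * w l3 else 0)]
  -- level 3
  have h3 : ∀ l0 ∈ A, ∀ l1 ∈ A, ∀ l2 ∈ A,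
      ν ^ 2 ≤ |X (v l1 - v l0) (v l2 - v l0) 2| →
      w l0 * w l1 * w l2 * (μ / 2) ≤ ∑ l3 ∈ A, (if ν ^ 3 ≤ |dt l0 l1 l2 l3| then
        w l0 * w l1 * w l2 * w l3 else 0) := by
    intro l0 m0 l1 m1 l2 m2 hb
    have p0 := hw l0 m0
    have p1 := hw l1 m1
    have p2 := hw l2 m2
    set c : Fin 3 → ℝ := X (v l1 - v l0) (v l2 - v l0) with hc
    set ρ : ℝ := √(c 0 ^ 2 + c 1 ^ 2 + c 2 ^ 2) with hρ
    have hρν : ν ^ 2 ≤ ρ := by
      rw [hρ]
      refine hb.trans ?_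
      rw [← Real.sqrt_sq_eq_abs]
      exact Real.sqrt_le_sqrt (by nlinarith [sq_nonneg (c 0), sq_nonneg (c 1)])
    have hρpos : 0 < ρ := lt_of_lt_of_le (by positivity) hρν
    have hρsq : ρ ^ 2 = c 0 ^ 2 + c 1 ^ 2 + c 2 ^ 2 := Real.sq_sqrt (by positivity)
    refine step_slab A v w hcomp (v l0) (fun i => c i / ρ) ?_ (by positivity) _ ?_ ?_
    · rw [Fin.sum_univ_three]
      have : (c 0 / ρ) ^ 2 + (c 1 / ρ) ^ 2 + (c 2 / ρ) ^ 2 =
          (c 0 ^ 2 + c 1 ^ 2 + c 2 ^ 2) / ρ ^ 2 := by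
        field_simp
      rw [this, ← hρsq]
      exact div_self (by positivity)
    · intro l3 m3
      have p3 := hw l3 m3
      split_ifs
      · positivity
      · exact le_rfl
    · intro l3 m3 hs
      have p3 := hw l3 m3
      rw [if_pos]
      unfold Slab at hs
      push Not at hs
      have e1 : dt l0 l1 l2 l3 = ρ * ∑ i, c i / ρ * (v l3 i - v l0 i) := by
        simp only [hdt]
        rw [Finset.mul_sum]
        refine Finset.sum_congr rfl fun i _ => ?_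
        have hρne : ρ ≠ 0 := hρpos.ne'
        field_simp
        rw [mul_comm]
      rw [e1, abs_mul, abs_of_pos hρpos, show ν ^ 3 = ν ^ 2 * ν by ring]
      exact mul_le_mul hρν hs.le hν.le hρpos.le
  -- level 2
  have h2 : ∀ l0 ∈ A, ∀ l1 ∈ A, ν ≤ |v l1 0 - v l0 0| →
      w l0 * w l1 * (μ / 2) * (μ / 2) ≤ ∑ l2 ∈ A, ∑ l3 ∈ A,
        (if ν ^ 3 ≤ |dt l0 l1 l2 l3| then w l0 * w l1 * w l2 * w l3 else 0) := by
    intro l0 m0 l1 m1 ha
    have p0 := hw l0 m0
    have p1 := hw l1 m1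
    set a : Fin 3 → ℝ := v l1 - v l0 with hadef
    have ha0 : ν ≤ |a 0| := ha
    set ρ : ℝ := √(a 0 ^ 2 + a 1 ^ 2) with hρ
    have hρν : ν ≤ ρ := by
      rw [hρ]
      refine ha0.trans ?_
      rw [← Real.sqrt_sq_eq_abs]
      exact Real.sqrt_le_sqrt (by nlinarith [sq_nonneg (a 1)])
    have hρpos : 0 < ρ := lt_of_lt_of_le hν hρν
    have hρsq : ρ ^ 2 = a 0 ^ 2 + a 1 ^ 2 := Real.sq_sqrt (by positivity)
    have key := step_slab A v w hcomp (v l0) ![-(a 1 / ρ), a 0 / ρ, 0] (by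
        rw [Fin.sum_univ_three]
        simp only [Matrix.cons_val_zero, Matrix.cons_val_one, Matrix.cons_val]
        have : (-(a 1 / ρ)) ^ 2 + (a 0 / ρ) ^ 2 + (0 : ℝ) ^ 2 =
          (a 0 ^ 2 + a 1 ^ 2) / ρ ^ 2 := by
          field_simp
          ring
        rw [this, ← hρsq]
        exact div_self (by positivity)) (c := w l0 * w l1 * (μ / 2)) (by positivity)
      (fun l2 => ∑ l3 ∈ A, (if ν ^ 3 ≤ |dt l0 l1 l2 l3| then
        w l0 * w l1 * w l2 * w l3 else 0)) ?_ ?_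
    · exact key
    · intro l2 m2
      have p2 := hw l2 m2
      refine Finset.sum_nonneg fun l3 m3 => ?_
      have p3 := hw l3 m3
      split_ifs
      · positivity
      · exact le_rfl
    · intro l2 m2 hs
      unfold Slab at hs
      push Not at hs
      have hb : ν ^ 2 ≤ |X (v l1 - v l0) (v l2 - v l0) 2| := by
        have e1 : X (v l1 - v l0) (v l2 - v l0) 2 =
            ρ * ∑ i, (![-(a 1 / ρ), a 0 / ρ, 0] : Fin 3 → ℝ) i * (v l2 i - v l0 i) := by
          rw [Fin.sum_univ_three]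
          simp only [hX, Matrix.cons_val_zero, Matrix.cons_val_one, Matrix.cons_val, Pi.sub_apply]
          have hρne : ρ ≠ 0 := hρpos.ne'
          have e2 : a 0 = v l1 0 - v l0 0 := rfl
          have e3 : a 1 = v l1 1 - v l0 1 := rfl
          rw [← e2, ← e3]
          field_simp
          ring
        rw [e1, abs_mul, abs_of_pos hρpos, pow_two]
        exact mul_le_mul hρν hs.le hν.le hρpos.le
      have := h3 l0 m0 l1 m1 l2 m2 hb
      calc w l0 * w l1 * (μ / 2) * w l2 = w l0 * w l1 * w l2 * (μ / 2) := by ring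
        _ ≤ _ := this
  -- level 1
  have h1 : ∀ l0 ∈ A, w l0 * (μ / 2) * (μ / 2) * (μ / 2) ≤
      ∑ l1 ∈ A, ∑ l2 ∈ A, ∑ l3 ∈ A,
        (if ν ^ 3 ≤ |dt l0 l1 l2 l3| then w l0 * w l1 * w l2 * w l3 else 0) := by
    intro l0 m0
    have p0 := hw l0 m0
    refine step_slab A v w hcomp (v l0) ![1, 0, 0] (by
        rw [Fin.sum_univ_three]
        simp) (c := w l0 * (μ / 2) * (μ / 2)) (by positivity) _ ?_ ?_
    · intro l1 m1
      have p1 := hw l1 m1
      refine Finset.sum_nonneg fun l2 m2 => Finset.sum_nonneg fun l3 m3 => ?_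
      have p2 := hw l2 m2
      have p3 := hw l3 m3
      split_ifs
      · positivity
      · exact le_rfl
    · intro l1 m1 hs
      unfold Slab at hs
      push Not at hs
      have ha : ν ≤ |v l1 0 - v l0 0| := by
        rw [Fin.sum_univ_three] at hs
        simpa using hs.le
      have := h2 l0 m0 l1 m1 ha
      calc w l0 * (μ / 2) * (μ / 2) * w l1 = w l0 * w l1 * (μ / 2) * (μ / 2) := by ring
        _ ≤ _ := this
  calc μ ^ 4 / 8 = ∑ l0 ∈ A, w l0 * (μ / 2) * (μ / 2) * (μ / 2) := by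
        rw [← Finset.sum_mul, ← Finset.sum_mul, ← Finset.sum_mul, ← hμ]; ring
    _ ≤ _ := Finset.sum_le_sum fun l0 m0 => h1 l0 m0

/-! ### caps -/

/-- cap index -/
noncomputable def cix (η : ℝ) (v : Fin 3 → ℝ) : Fin 3 → ℤ := fun i => ⌊v i / η⌋

lemma cix_close {η : ℝ} (hη : 0 < η) {v v' : Fin 3 → ℝ} (h : cix η v = cix η v') (i : Fin 3) :
    |v i - v' i| ≤ η := by
  have h1 := congrFun h i
  simp only [cix] at h1
  have h2 := Int.abs_sub_lt_one_of_floor_eq_floor h1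
  have h3 : v i - v' i = η * (v i / η - v' i / η) := by field_simp
  rw [h3, abs_mul, abs_of_pos hη]
  nlinarith


/-- explicit polynomial: the determinant of four velocities -/
def P4 (x y z t : Fin 3 → ℝ) : ℝ :=
  ((y 1 - x 1) * (z 2 - x 2) - (y 2 - x 2) * (z 1 - x 1)) * (t 0 - x 0)
    + ((y 2 - x 2) * (z 0 - x 0) - (y 0 - x 0) * (z 2 - x 2)) * (t 1 - x 1)
    + ((y 0 - x 0) * (z 1 - x 1) - (y 1 - x 1) * (z 0 - x 0)) * (t 2 - x 2)

/-- trilinear form -/
def T3 (a b c : Fin 3 → ℝ) : ℝ :=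
  (a 1 * b 2 - a 2 * b 1) * c 0 + (a 2 * b 0 - a 0 * b 2) * c 1 + (a 0 * b 1 - a 1 * b 0) * c 2

lemma T3_bound {a b c : Fin 3 → ℝ} {A B C : ℝ} (ha : ∀ i, |a i| ≤ A) (hb : ∀ i, |b i| ≤ B)
    (hc : ∀ i, |c i| ≤ C) : |T3 a b c| ≤ 6 * (A * B * C) := by
  have hA : 0 ≤ A := (abs_nonneg _).trans (ha 0)
  have hB : 0 ≤ B := (abs_nonneg _).trans (hb 0)
  have hC : 0 ≤ C := (abs_nonneg _).trans (hc 0)
  have h : ∀ i j k, |a i * b j * c k| ≤ A * B * C := fun i j k => by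
    rw [abs_mul, abs_mul]
    exact mul_le_mul (mul_le_mul (ha i) (hb j) (abs_nonneg _) hA) (hc k) (abs_nonneg _)
      (mul_nonneg hA hB)
  have e : T3 a b c = a 1 * b 2 * c 0 - a 2 * b 1 * c 0 + a 2 * b 0 * c 1 - a 0 * b 2 * c 1
      + a 0 * b 1 * c 2 - a 1 * b 0 * c 2 := by
    unfold T3; ring
  rw [e]
  have h1 := h 1 2 0; have h2 := h 2 1 0; have h3 := h 2 0 1
  have h4 := h 0 2 1; have h5 := h 0 1 2; have h6 := h 1 0 2
  rw [abs_le] at *
  constructor <;> linarith [h1.1, h1.2, h2.1, h2.2, h3.1, h3.2, h4.1, h4.2, h5.1, h5.2, h6.1, h6.2]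

lemma P4_perturb {x y z t x' y' z' t' : Fin 3 → ℝ} {η : ℝ} (hη : 0 ≤ η)
    (hx : ∀ i, |x i| ≤ 1) (hy : ∀ i, |y i| ≤ 1) (hz : ∀ i, |z i| ≤ 1) (ht : ∀ i, |t i| ≤ 1)
    (hx' : ∀ i, |x' i| ≤ 1) (hy' : ∀ i, |y' i| ≤ 1) (hz' : ∀ i, |z' i| ≤ 1)
    (ht' : ∀ i, |t' i| ≤ 1)
    (hxx : ∀ i, |x i - x' i| ≤ η) (hyy : ∀ i, |y i - y' i| ≤ η) (hzz : ∀ i, |z i - z' i| ≤ η)
    (htt : ∀ i, |t i - t' i| ≤ η) :
    |P4 x y z t - P4 x' y' z' t'| ≤ 144 * η := by
  have e : P4 x y z t - P4 x' y' z' t' =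
      T3 (fun i => (y i - x i) - (y' i - x' i)) (fun i => z i - x i) (fun i => t i - x i)
      + T3 (fun i => y' i - x' i) (fun i => (z i - x i) - (z' i - x' i)) (fun i => t i - x i)
      + T3 (fun i => y' i - x' i) (fun i => z' i - x' i)
          (fun i => (t i - x i) - (t' i - x' i)) := by
    simp only [P4, T3]; ring
  have two : ∀ {a b : Fin 3 → ℝ}, (∀ i, |a i| ≤ 1) → (∀ i, |b i| ≤ 1) → ∀ i, |a i - b i| ≤ 2 := by
    intro a b h1 h2 i
    have := abs_sub (a i) (b i)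
    have := h1 i
    have := h2 i
    linarith
  have dd : ∀ {a b a' b' : Fin 3 → ℝ}, (∀ i, |a i - a' i| ≤ η) → (∀ i, |b i - b' i| ≤ η) →
      ∀ i, |(a i - b i) - (a' i - b' i)| ≤ 2 * η := by
    intro a b a' b' h1 h2 i
    have e : (a i - b i) - (a' i - b' i) = (a i - a' i) - (b i - b' i) := by ring
    rw [e]
    have := abs_sub (a i - a' i) (b i - b' i)
    have := h1 i
    have := h2 i
    linarith
  rw [e]
  have h1 := T3_bound (dd hyy hxx) (two hz hx) (two ht hx)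
  have h2 := T3_bound (two hy' hx') (dd hzz hxx) (two ht hx)
  have h3 := T3_bound (two hy' hx') (two hz' hx') (dd htt hxx)
  set a1 := T3 (fun i => (y i - x i) - (y' i - x' i)) (fun i => z i - x i) (fun i => t i - x i)
  set a2 := T3 (fun i => y' i - x' i) (fun i => (z i - x i) - (z' i - x' i)) (fun i => t i - x i)
  set a3 := T3 (fun i => y' i - x' i) (fun i => z' i - x' i) (fun i => (t i - x i) - (t' i - x' i))
  have := abs_add_le (a1 + a2) a3
  have := abs_add_le a1 a2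
  linarith

lemma D4_dir_P4 (v : Fin 4 → Fin 3 → ℝ) : |D4 (fun j => dir (v j))| =
    |P4 (v 0) (v 1) (v 2) (v 3)| := D4_dir v

lemma D4_perturb {v v' : Fin 4 → Fin 3 → ℝ} {η : ℝ} (hη : 0 ≤ η) (hv : ∀ j i, |v j i| ≤ 1)
    (hv' : ∀ j i, |v' j i| ≤ 1) (h : ∀ j i, |v j i - v' j i| ≤ η) :
    |D4 (fun j => dir (v j))| - 144 * η ≤ |D4 (fun j => dir (v' j))| := by
  rw [D4_dir_P4, D4_dir_P4]
  have h1 := P4_perturb hη (hv 0) (hv 1) (hv 2) (hv 3) (hv' 0) (hv' 1) (hv' 2) (hv' 3)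
    (h 0) (h 1) (h 2) (h 3)
  have := abs_sub_abs_le_abs_sub (P4 (v 0) (v 1) (v 2) (v 3)) (P4 (v' 0) (v' 1) (v' 2) (v' 3))
  linarith

lemma rpow_third_add {x y : ℝ} (hx : 0 ≤ x) (hy : 0 ≤ y) :
    (x + y) ^ (1 / 3 : ℝ) ≤ x ^ (1 / 3 : ℝ) + y ^ (1 / 3 : ℝ) :=
  Real.rpow_add_le_add_rpow hx hy (by norm_num) (by norm_num)

lemma rpow_third_sum {α : Type*} (s : Finset α) (f : α → ℝ) (hf : ∀ a ∈ s, 0 ≤ f a) :
    (∑ a ∈ s, f a) ^ (1 / 3 : ℝ) ≤ ∑ a ∈ s, f a ^ (1 / 3 : ℝ) := by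
  classical
  induction s using Finset.induction_on with
  | empty => simp
  | insert a s ha ih =>
    rw [Finset.sum_insert ha, Finset.sum_insert ha]
    refine (rpow_third_add (hf a (Finset.mem_insert_self a s)) (Finset.sum_nonneg fun b hb =>
      hf b (Finset.mem_insert_of_mem hb))).trans ?_
    have := ih (fun b hb => hf b (Finset.mem_insert_of_mem hb))
    linarith

/-- a 4-tuple of caps with a `ν ^ 3`-transversal 4-tuple of representatives in `s` -/
def Good {ι : Type*} (s : Finset ι) (v : ι → Fin 3 → ℝ) (ν η : ℝ) (τ : Fin 4 → Fin 3 → ℤ) : Prop :=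
  ∃ l : Fin 4 → ι, (∀ j, l j ∈ s ∧ cix η (v (l j)) = τ j) ∧ ν ^ 3 ≤ |D4 (fun j => dir (v (l j)))|

/-- all representatives of a good 4-tuple of caps are transversal -/
lemma Good.det {ι : Type*} {s : Finset ι} {v : ι → Fin 3 → ℝ} {ν η : ℝ} (hη : 0 < η)
    (hην : 288 * η ≤ ν ^ 3) (hv : ∀ l ∈ s, ∀ i, |v l i| ≤ 1) {τ : Fin 4 → Fin 3 → ℤ}
    (h : Good s v ν η τ) (l : Fin 4 → ι) (hl : ∀ j, l j ∈ s ∧ cix η (v (l j)) = τ j) :
    ν ^ 3 / 2 ≤ |D4 (fun j => dir (v (l j)))| := by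
  obtain ⟨m, hm, hD⟩ := h
  have := D4_perturb (v := fun j => v (m j)) (v' := fun j => v (l j)) hη.le
    (fun j => hv _ (hm j).1) (fun j => hv _ (hl j).1)
    (fun j i => cix_close hη ((hm j).2.trans (hl j).2.symm) i)
  linarith


open Classical in
/-- **non-narrow implies: one third power of the fourth power of the weight is controlled by the
good 4-tuples of caps.** -/
theorem caps_of_nonnarrow {ι : Type*} (A s : Finset ι) (hAs : A ⊆ s) (v : ι → Fin 3 → ℝ)
    (w : ι → ℝ) (hw : ∀ l ∈ s, 0 ≤ w l) {ν : ℝ} (hν : 0 < ν) (η : ℝ)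
    (hnn : ∀ u n : Fin 3 → ℝ, ∑ i, n i ^ 2 = 1 →
      ∑ l ∈ A.filter (fun l => Slab ν u n (v l)), w l ≤ (∑ l ∈ A, w l) / 2) :
    (∑ l ∈ A, w l) ^ (4 / 3 : ℝ) ≤
      2 * ∑ τ ∈ Fintype.piFinset (fun _ : Fin 4 => s.image fun l => cix η (v l)),
        if Good s v ν η τ then
          ∏ j, (∑ l ∈ A.filter (fun l => cix η (v l) = τ j), w l) ^ (1 / 3 : ℝ) else 0 := by
  have hwA : ∀ l ∈ A, 0 ≤ w l := fun l hl => hw l (hAs hl)
  have h1 := quad_of_nonnarrow A v w hwA hν hnn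
  set μ : ℝ := ∑ l ∈ A, w l with hμ
  have hμ0 : 0 ≤ μ := Finset.sum_nonneg hwA
  set I : Finset (Fin 3 → ℤ) := s.image fun l => cix η (v l) with hI
  set S : (Fin 3 → ℤ) → Finset ι := fun τ => A.filter (fun l => cix η (v l) = τ) with hS
  have hSn : ∀ τ, 0 ≤ ∑ l ∈ S τ, w l := fun τ =>
    Finset.sum_nonneg fun l hl => hwA l (Finset.mem_filter.mp hl).1
  have h2 : ∑ l ∈ Fintype.piFinset (fun _ : Fin 4 => A),
      (if ν ^ 3 ≤ |D4 (fun j => dir (v (l j)))| then ∏ j, w (l j) else 0) ≤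
      ∑ τ ∈ Fintype.piFinset (fun _ : Fin 4 => I),
        if Good s v ν η τ then ∏ j, ∑ l ∈ S (τ j), w l else 0 := by
    -- fibre over the caps
    have hmaps : ∀ l ∈ Fintype.piFinset (fun _ : Fin 4 => A),
        (fun j => cix η (v (l j))) ∈ Fintype.piFinset (fun _ : Fin 4 => I) := by
      intro l hl
      rw [Fintype.mem_piFinset] at hl ⊢
      intro j
      exact Finset.mem_image_of_mem _ (hAs (hl j))
    rw [← Finset.sum_fiberwise_of_maps_to hmaps]
    refine Finset.sum_le_sum fun τ _ => ?_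
    have hfib : (Fintype.piFinset (fun _ : Fin 4 => A)).filter
        (fun l => (fun j => cix η (v (l j))) = τ) = Fintype.piFinset (fun j => S (τ j)) := by
      ext l
      simp only [Finset.mem_filter, Fintype.mem_piFinset, hS]
      constructor
      · rintro ⟨h1, h2⟩ j
        exact ⟨h1 j, congrFun h2 j⟩
      · intro h
        exact ⟨fun j => (h j).1, funext fun j => (h j).2⟩
    rw [hfib]
    by_cases hg : Good s v ν η τ
    · rw [if_pos hg, Finset.prod_univ_sum]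
      refine Finset.sum_le_sum fun l hl => ?_
      rw [Fintype.mem_piFinset] at hl
      split_ifs
      · exact le_rfl
      · exact Finset.prod_nonneg fun j _ => hwA _ (Finset.mem_filter.mp (hl j)).1
    · rw [if_neg hg]
      refine le_of_eq (Finset.sum_eq_zero fun l hl => ?_)
      rw [Fintype.mem_piFinset] at hl
      rw [if_neg]
      intro hD
      exact hg ⟨l, fun j => ⟨hAs (Finset.mem_filter.mp (hl j)).1, (Finset.mem_filter.mp (hl j)).2⟩,
        hD⟩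
  have h3 : μ ^ 4 ≤ 8 * ∑ τ ∈ Fintype.piFinset (fun _ : Fin 4 => I),
        if Good s v ν η τ then ∏ j, ∑ l ∈ S (τ j), w l else 0 := by
    have := h1.trans h2
    linarith
  have hterm : ∀ τ : Fin 4 → Fin 3 → ℤ, 0 ≤ if Good s v ν η τ then ∏ j, ∑ l ∈ S (τ j), w l else 0 := by
    intro τ
    split_ifs
    · exact Finset.prod_nonneg fun j _ => hSn _
    · exact le_rfl
  have h4 : μ ^ (4 / 3 : ℝ) = (μ ^ 4) ^ (1 / 3 : ℝ) := by
    rw [← Real.rpow_natCast, ← Real.rpow_mul hμ0]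
    norm_num
  rw [h4]
  refine (Real.rpow_le_rpow (by positivity) h3 (by norm_num)).trans ?_
  rw [Real.mul_rpow (by norm_num) (Finset.sum_nonneg fun τ _ => hterm τ)]
  have h8 : (8 : ℝ) ^ (1 / 3 : ℝ) = 2 := by
    rw [show (8 : ℝ) = 2 ^ (3 : ℝ) by norm_num, ← Real.rpow_mul (by norm_num)]
    norm_num
  rw [h8]
  refine mul_le_mul_of_nonneg_left ?_ (by norm_num)
  refine (rpow_third_sum _ _ fun τ _ => hterm τ).trans ?_
  refine Finset.sum_le_sum fun τ _ => ?_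
  split_ifs
  · rw [Real.finsetProd_rpow _ _ fun j _ => hSn _]
  · rw [Real.zero_rpow (by norm_num)]

end Crest.Agent.R136.MF191
end

-- ▼ part R136/MF2_191
section

/-!
# 4-linear Kakeya in R^4, linear algebra and pigeonhole (helper191), part 2

Inverse bounds for four transversal directions, cones, snapping of integer points.
-/

set_option autoImplicit false

namespace Crest.Agent.R136.MF191

open Finset Matrix

/-- the matrix with columns `e j` -/
def Bm (e : Fin 4 → Fin 4 → ℝ) : Matrix (Fin 4) (Fin 4) ℝ := Matrix.of fun i j => e j i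

lemma Bm_det (e : Fin 4 → Fin 4 → ℝ) : (Bm e).det = D4 e := rfl

lemma isUnit_of_D4 {e : Fin 4 → Fin 4 → ℝ} {μ : ℝ} (hμ : 0 < μ) (hD : μ ≤ |D4 e|) :
    IsUnit (Bm e).det := by
  rw [isUnit_iff_ne_zero, Bm_det]
  intro h
  rw [h, abs_zero] at hD
  linarith

lemma inv_entry4 {e : Fin 4 → Fin 4 → ℝ} {μ : ℝ} (hμ : 0 < μ) (he : ∀ j i, |e j i| ≤ 1)
    (hD : μ ≤ |D4 e|) (i j : Fin 4) : |(Bm e)⁻¹ i j| ≤ 24 / μ := by
  have hd : 0 < |(Bm e).det| := lt_of_lt_of_le hμ hD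
  have h0 : (Bm e)⁻¹ = ((Bm e).det)⁻¹ • (Bm e).adjugate := by
    rw [Matrix.inv_def, Ring.inverse_eq_inv']
  have key : |(Bm e).adjugate i j| ≤ 24 := by
    rw [Matrix.adjugate_apply]
    have h1 := Matrix.det_le (A := (Bm e).updateRow j (Pi.single i 1))
      (abv := (AbsoluteValue.abs : AbsoluteValue ℝ ℝ)) (x := 1) (fun a b => by
        change |(Bm e).updateRow j (Pi.single i 1) a b| ≤ 1
        rw [Matrix.updateRow_apply]
        split_ifs with h
        · rw [Pi.single_apply]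
          split_ifs <;> simp
        · exact he b a)
    change |((Bm e).updateRow j (Pi.single i 1)).det| ≤ _ at h1
    refine h1.trans (le_of_eq ?_)
    simp [Fintype.card_fin, Nat.factorial]
  rw [h0, Matrix.smul_apply, smul_eq_mul, abs_mul, abs_inv, div_eq_mul_inv, mul_comm]
  refine mul_le_mul key ?_ (by positivity) (by norm_num)
  exact inv_anti₀ hμ hD

lemma mulVec_bound4 {A : Matrix (Fin 4) (Fin 4) ℝ} {a : ℝ} (hA : ∀ i j, |A i j| ≤ a)
    {v : Fin 4 → ℝ} {d : ℝ} (hv : ∀ i, |v i| ≤ d) (i : Fin 4) : |(A *ᵥ v) i| ≤ 4 * (a * d) := by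
  have ha : 0 ≤ a := (abs_nonneg _).trans (hA 0 0)
  simp only [Matrix.mulVec, dotProduct]
  refine (Finset.abs_sum_le_sum_abs _ _).trans ?_
  calc ∑ j, |A i j * v j| ≤ ∑ _j : Fin 4, a * d := Finset.sum_le_sum fun j _ => by
        rw [abs_mul]; exact mul_le_mul (hA i j) (hv j) (abs_nonneg _) ha
    _ = 4 * (a * d) := by simp

/-- the inverse matrix sends the `j`-th direction to the `j`-th basis vector -/
lemma inv_mulVec {e : Fin 4 → Fin 4 → ℝ} {μ : ℝ} (hμ : 0 < μ) (hD : μ ≤ |D4 e|) (j : Fin 4) :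
    (Bm e)⁻¹ *ᵥ (e j) = Pi.single j 1 := by
  have hu := isUnit_of_D4 hμ hD
  have h1 : e j = (Bm e) *ᵥ (Pi.single j 1) := by
    funext i
    rw [Matrix.mulVec_single_one]
    rfl
  rw [h1, Matrix.mulVec_mulVec, Matrix.nonsing_inv_mul _ hu, Matrix.one_mulVec]

lemma inv_bound {e : Fin 4 → Fin 4 → ℝ} {μ : ℝ} (hμ : 0 < μ) (he : ∀ j i, |e j i| ≤ 1)
    (hD : μ ≤ |D4 e|) {y : Fin 4 → ℝ} {d : ℝ} (hy : ∀ i, |y i| ≤ d) (i : Fin 4) :
    |((Bm e)⁻¹ *ᵥ y) i| ≤ 96 / μ * d := by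
  refine (mulVec_bound4 (inv_entry4 hμ he hD) hy i).trans (le_of_eq ?_)
  ring

/-- **cone lemma**: an almost straight increment in a direction of the `j`-th cap is mapped into
the cone of opening `1/N` around the `j`-th axis. -/
lemma cone {e : Fin 4 → Fin 4 → ℝ} {μ : ℝ} (hμ : 0 < μ) (he : ∀ j i, |e j i| ≤ 1)
    (hD : μ ≤ |D4 e|) {N : ℝ} (hN : 1 ≤ N) {j : Fin 4} {e' y : Fin 4 → ℝ} {s δ : ℝ}
    (hδ : δ ≤ μ / (400 * N)) (h1 : ∀ i, |e' i - e j i| ≤ δ)
    (h2 : ∀ i, |y i - s * e' i| ≤ |s| * δ) (i : Fin 4) (hi : i ≠ j) :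
    |((Bm e)⁻¹ *ᵥ y) i| ≤ 1 / N * |((Bm e)⁻¹ *ᵥ y) j| := by
  have hN0 : 0 < N := by linarith
  set M := (Bm e)⁻¹ with hM
  have hs : 0 ≤ |s| := abs_nonneg s
  -- the increment minus `s e_j`
  have h3 : ∀ i, |(y - s • e j) i| ≤ 2 * (|s| * δ) := by
    intro i
    have e1 : (y - s • e j) i = (y i - s * e' i) + s * (e' i - e j i) := by
      simp only [Pi.sub_apply, Pi.smul_apply, smul_eq_mul]; ring
    rw [e1]
    refine (abs_add_le _ _).trans ?_
    have h4 := h2 i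
    have h5 : |s * (e' i - e j i)| ≤ |s| * δ := by
      rw [abs_mul]; exact mul_le_mul_of_nonneg_left (h1 i) hs
    linarith
  have h4 : ∀ i, |(M *ᵥ (y - s • e j)) i| ≤ 0.48 / N * |s| := by
    intro i
    refine (inv_bound hμ he hD h3 i).trans ?_
    have : 96 / μ * (2 * (|s| * δ)) ≤ 96 / μ * (2 * (|s| * (μ / (400 * N)))) := by gcongr
    refine this.trans (le_of_eq ?_)
    field_simp
    ring
  have h5 : ∀ i, (M *ᵥ y) i = (M *ᵥ (y - s • e j)) i + s * (Pi.single j (1 : ℝ) : Fin 4 → ℝ) i := by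
    intro i
    rw [Matrix.mulVec_sub, Matrix.mulVec_smul, hM, inv_mulVec hμ hD j]
    simp only [Pi.sub_apply, Pi.smul_apply, smul_eq_mul]
    ring
  have hi1 : |(M *ᵥ y) i| ≤ 0.48 / N * |s| := by
    rw [h5 i, Pi.single_apply, if_neg hi, mul_zero, add_zero]
    exact h4 i
  have hj1 : (1 - 0.48 / N) * |s| ≤ |(M *ᵥ y) j| := by
    have h6 : (M *ᵥ y) j = (M *ᵥ (y - s • e j)) j + s := by
      rw [h5 j, Pi.single_apply, if_pos rfl, mul_one]
    have h7 : |s| - |(M *ᵥ (y - s • e j)) j| ≤ |(M *ᵥ y) j| := by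
      have h8 : s = (M *ᵥ y) j - (M *ᵥ (y - s • e j)) j := by rw [h6]; ring
      have h9 := abs_sub ((M *ᵥ y) j) ((M *ᵥ (y - s • e j)) j)
      rw [← h8] at h9
      linarith
    have := h4 j
    linarith
  have h048 : 0.48 / N ≤ 0.48 := by
    rw [div_le_iff₀ hN0]; linarith
  calc |(M *ᵥ y) i| ≤ 0.48 / N * |s| := hi1
    _ = 1 / N * (0.48 * |s|) := by ring
    _ ≤ 1 / N * ((1 - 0.48 / N) * |s|) := by
        refine mul_le_mul_of_nonneg_left ?_ (by positivity)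
        refine mul_le_mul_of_nonneg_right ?_ hs
        linarith
    _ ≤ 1 / N * |(M *ᵥ y) j| := mul_le_mul_of_nonneg_left hj1 (by positivity)

/-- integer points as real vectors -/
def rp (k : Fin 4 → ℤ) : Fin 4 → ℝ := fun i => (k i : ℝ)







end Crest.Agent.R136.MF191
end

-- ▼ part R136/Mk4d_418
section

/-!
# 4-linear Kakeya in R^4, part d (helper418)

The curved non-narrow theorem: `nonnarrow_kakeya4_curved`, and its straight special case
`nonnarrow_kakeya4`.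
-/

set_option autoImplicit false

namespace Crest.Agent.R136.MK4

open Finset
open Crest.Agent.R136.MF191 (dir D4 Slab cix cix_close Good Bm)

/-- the box of caps -/
noncomputable def capBox (η : ℝ) : Finset (Fin 3 → ℤ) :=
  Fintype.piFinset (fun _ : Fin 3 => Finset.Icc (-(⌈1 / η⌉₊ : ℤ)) ⌈1 / η⌉₊)

lemma cix_mem {η : ℝ} (hη : 0 < η) {v : Fin 3 → ℝ} (hv : ∀ i, |v i| ≤ 1) :
    cix η v ∈ capBox η := by
  unfold capBox
  rw [Fintype.mem_piFinset]
  intro i
  rw [Finset.mem_Icc]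
  have h1 := hv i
  rw [abs_le] at h1
  have h2 : (1 / η : ℝ) ≤ (⌈1 / η⌉₊ : ℝ) := Nat.le_ceil _
  simp only [cix]
  constructor
  · rw [Int.le_floor]
    push_cast
    rw [le_div_iff₀ hη]
    have : (1 / η) * η ≤ (⌈1 / η⌉₊ : ℝ) * η := mul_le_mul_of_nonneg_right h2 hη.le
    rw [one_div, inv_mul_cancel₀ hη.ne'] at this
    rw [one_div] at *
    linarith [h1.1]
  · have h3 : ((⌊v i / η⌋ : ℤ) : ℝ) ≤ (⌈1 / η⌉₊ : ℝ) := by
      refine (Int.floor_le _).trans ?_
      refine le_trans ?_ h2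
      exact div_le_div_of_nonneg_right h1.2 hη.le
    exact_mod_cast h3

lemma capBox_card {η : ℝ} (hη : 0 < η) (hη1 : η ≤ 1) :
    ((Fintype.piFinset (fun _ : Fin 4 => capBox η)).card : ℝ) ≤ (5 / η) ^ 12 := by
  rw [Fintype.card_piFinset]
  simp only [Finset.prod_const, Finset.card_univ, Fintype.card_fin]
  have h1 : ((capBox η).card : ℝ) ≤ (5 / η) ^ 3 := by
    unfold capBox
    rw [Fintype.card_piFinset]
    simp only [Finset.prod_const, Finset.card_univ, Fintype.card_fin]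
    have h2 : (Finset.Icc (-(⌈1 / η⌉₊ : ℤ)) ⌈1 / η⌉₊).card = 2 * ⌈1 / η⌉₊ + 1 := by
      rw [Int.card_Icc]
      omega
    rw [h2]
    push_cast
    apply pow_le_pow_left₀ (by positivity)
    have h3 : (⌈1 / η⌉₊ : ℝ) < 1 / η + 1 := Nat.ceil_lt_add_one (by positivity)
    have h4 : 1 ≤ 1 / η := by rw [le_div_iff₀ hη]; linarith
    have : 5 / η = 5 * (1 / η) := by ring
    rw [this]
    linarith
  push_cast
  calc ((capBox η).card : ℝ) ^ 4 ≤ ((5 / η) ^ 3) ^ 4 := pow_le_pow_left₀ (by positivity) h1 4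
    _ = (5 / η) ^ 12 := by rw [← pow_mul]

/-- space-time point -/
def sp (x : Fin 3 → ℝ) (t : ℝ) : Fin 4 → ℝ := ![x 0, x 1, x 2, t]

/-- the piece of a curve in a time slab -/
def piece (γ : ℤ → Fin 3 → ℝ) (R t : ℝ) (c : ℤ) : Set (Fin 4 → ℝ) :=
  {p | ∃ a : ℤ, |(a : ℝ)| ≤ R ∧ |(a : ℝ) - c| ≤ t ∧ p = sp (γ a) a}

/-- data of a family of almost straight curves -/
structure Curved {ι : Type*} (s : Finset ι) (γ v : ι → ℤ → Fin 3 → ℝ) (R B : ℝ) : Prop where
  vel : ∀ l ∈ s, ∀ a : ℤ, |(a : ℝ)| ≤ R → ∀ i, |v l a i| ≤ 1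
  str : ∀ l ∈ s, ∀ a b c : ℤ, |(a : ℝ)| ≤ R → |(b : ℝ)| ≤ R → |(c : ℝ)| ≤ R → ∀ i,
    |γ l a i - γ l b i - ((a : ℝ) - b) * v l c i| ≤
      B / R * (max |(a : ℝ) - c| |(b : ℝ) - c|) * |(a : ℝ) - b|

/-- velocities are Lipschitz -/
lemma Curved.lip {ι : Type*} {s : Finset ι} {γ v : ι → ℤ → Fin 3 → ℝ} {R B : ℝ} (hR : 0 < R)
    (hB : 0 ≤ B) (h : Curved s γ v R B) {l : ι} (hl : l ∈ s) {a b : ℤ} (ha : |(a : ℝ)| ≤ R)
    (hb : |(b : ℝ)| ≤ R) (i : Fin 3) : |v l a i - v l b i| ≤ 2 * (B / R) * |(a : ℝ) - b| := by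
  by_cases hab : a = b
  · subst hab; simp
  · have h1 := h.str l hl a b a ha hb ha i
    have h2 := h.str l hl a b b ha hb hb i
    have hab' : (a : ℝ) - b ≠ 0 := by
      intro h0
      apply hab
      have : (a : ℝ) = b := by linarith
      exact_mod_cast this
    have hpos : 0 < |(a : ℝ) - b| := abs_pos.mpr hab'
    have e1 : max |(a : ℝ) - a| |(b : ℝ) - a| = |(a : ℝ) - b| := by
      rw [sub_self, abs_zero, abs_sub_comm (b : ℝ) a]
      exact max_eq_right (abs_nonneg _)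
    have e2 : max |(a : ℝ) - b| |(b : ℝ) - b| = |(a : ℝ) - b| := by
      rw [sub_self, abs_zero]
      exact max_eq_left (abs_nonneg _)
    rw [e1] at h1
    rw [e2] at h2
    have h3 : |(a : ℝ) - b| * |v l a i - v l b i| ≤
        |(a : ℝ) - b| * (2 * (B / R) * |(a : ℝ) - b|) := by
      rw [← abs_mul]
      have e3 : ((a : ℝ) - b) * (v l a i - v l b i) =
          -(γ l a i - γ l b i - ((a : ℝ) - b) * v l a i) +
            (γ l a i - γ l b i - ((a : ℝ) - b) * v l b i) := by ring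
      rw [e3]
      refine (abs_add_le _ _).trans ?_
      rw [abs_neg]
      linarith
    exact le_of_mul_le_mul_left h3 hpos

lemma G_add (M : Matrix (Fin 4) (Fin 4) ℝ) (x y : Fin 4 → ℝ) (i : Fin 4) :
    (M.mulVec x) i - (M.mulVec y) i = (M.mulVec (fun i => x i - y i)) i := by
  have : (fun i => x i - y i) = x - y := rfl
  rw [this, Matrix.mulVec_sub, Pi.sub_apply]

lemma dir_bound {v : Fin 3 → ℝ} (h : ∀ i, |v i| ≤ 1) (i : Fin 4) : |dir v i| ≤ 1 := by
  fin_cases i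
  · simpa [dir] using h 0
  · simpa [dir] using h 1
  · simpa [dir] using h 2
  · simp [dir]

lemma dir_close {v v' : Fin 3 → ℝ} {d : ℝ} (hd : 0 ≤ d) (h : ∀ i, |v i - v' i| ≤ d) (i : Fin 4) :
    |dir v i - dir v' i| ≤ d := by
  fin_cases i
  · simpa [dir] using h 0
  · simpa [dir] using h 1
  · simpa [dir] using h 2
  · simpa [dir] using hd

/-- one 4-tuple of caps in one time slab -/
lemma slab_tuple {ι : Type*} (s : Finset ι) (w : ι → ℝ) (hw : ∀ l ∈ s, 0 ≤ w l)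
    (γ v : ι → ℤ → Fin 3 → ℝ) {R B : ℝ} (hR : 1 ≤ R) (hB : 0 ≤ B) (hC : Curved s γ v R B)
    {ν r : ℝ} (hν : 0 < ν) (hν1 : ν ≤ 1) (hr : 1 ≤ r) {N : ℕ} (hN : 1 ≤ N) (m : ℕ)
    (hRm : R < (N : ℝ) ^ m) {η : ℝ} (hη : 0 < η) (hη1 : η ≤ ν ^ 3 / (800 * N))
    {t : ℝ} (ht : 0 ≤ t) (htη : 2 * (B / R) * t ≤ η) (c : ℤ) (hc : |(c : ℝ)| ≤ R)
    (X : Finset (Fin 4 → ℤ)) (hX : ∀ k ∈ X, ∀ i, |(k i : ℝ)| ≤ R)
    (hXc : ∀ k ∈ X, |(k 3 : ℝ) - c| ≤ t)
    (A : (Fin 4 → ℤ) → Finset ι) (hA : ∀ k ∈ X, A k ⊆ s)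
    (hnear : ∀ k ∈ X, ∀ l ∈ A k, ∀ i : Fin 3, |(k i.castSucc : ℝ) - γ l (k 3) i| ≤ r)
    (τ : Fin 4 → Fin 3 → ℤ)
    (hgood : ∃ k ∈ X, Good (A k) (fun l => v l (k 3)) ν η τ) :
    haveI := Classical.decEq (Fin 3 → ℤ)
    ∑ k ∈ X, ∏ j, (∑ l ∈ (A k).filter (fun l => cix η (v l (k 3)) = τ j), w l) ^ (1 / 3 : ℝ) ≤
      (3264 / ν ^ 3 * r) ^ 4 * (16 * 14641 ^ m * (∑ l ∈ s, w l) ^ (4 / 3 : ℝ)) := by
  classical
  have hR0 : 0 < R := by linarith
  have hN1 : (1 : ℝ) ≤ N := by exact_mod_cast hN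
  have hN0 : (0 : ℝ) < N := by linarith
  obtain ⟨k1, hk1, m1, hm1, hD⟩ := hgood
  set e : Fin 4 → Fin 4 → ℝ := fun j => dir (v (m1 j) (k1 3)) with he
  have hμ : 0 < ν ^ 3 := by positivity
  have hμ1 : ν ^ 3 ≤ 1 := pow_le_one₀ hν.le hν1
  have hm1s : ∀ j, m1 j ∈ s := fun j => hA k1 hk1 (hm1 j).1
  have he1 : ∀ j i, |e j i| ≤ 1 := fun j i =>
    dir_bound (hC.vel _ (hm1s j) (k1 3) (hX k1 hk1 3)) i
  set M := (Bm e)⁻¹ with hM
  set G : (Fin 4 → ℝ) → (Fin 4 → ℝ) := fun y => M.mulVec y with hG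
  set fam : Fin 4 → Finset ι := fun j =>
    s.filter (fun l => ∀ i, |v l c i - v (m1 j) (k1 3) i| ≤ 2 * η) with hfam
  set S : ι → Set (Fin 4 → ℝ) := fun l => piece (γ l) R t c with hS
  set A' : Fin 4 → (Fin 4 → ℤ) → Finset ι := fun j k =>
    (A k).filter (fun l => cix η (v l (k 3)) = τ j) with hA'
  have hunit := MF191.isUnit_of_D4 hμ hD
  have hL : (1 : ℝ) ≤ 96 / ν ^ 3 := by
    rw [le_div_iff₀ hμ]; linarith
  have hmain := transversal hN m G hL (fun x y i => G_add M x y i)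
    (fun y d hy i => MF191.inv_bound hμ he1 hD hy i)
    (by
      intro y d hy i
      have h1 : y = (Bm e).mulVec (G y) := by
        simp only [hG, hM]
        rw [Matrix.mulVec_mulVec, Matrix.mul_nonsing_inv _ hunit, Matrix.one_mulVec]
      have h2 := MF191.mulVec_bound4 (A := Bm e) (a := 1) (fun i j => he1 j i) (v := G y)
        (d := d) hy i
      rw [← h1] at h2
      have hd : 0 ≤ d := (abs_nonneg _).trans (hy 0)
      linarith)
    fam S w (fun j l hl => hw l (Finset.mem_filter.mp hl).1)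
    (by
      intro j l hl
      rw [hfam, Finset.mem_filter] at hl
      obtain ⟨hls, hlv⟩ := hl
      rintro _ ⟨p, ⟨a, haR, hac, rfl⟩, rfl⟩ _ ⟨q, ⟨b, hbR, hbc, rfl⟩, rfl⟩ i hi
      rw [G_add, G_add]
      refine MF191.cone hμ he1 hD hN1 (e' := dir (v l c)) (s := (a : ℝ) - b) (δ := 2 * η) ?_ ?_ ?_
        i hi
      · have : 2 * (ν ^ 3 / (800 * (N : ℝ))) = ν ^ 3 / (400 * N) := by
          field_simp; ring
        linarith
      · exact fun i => dir_close (by linarith) hlv i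
      · have key : ∀ i : Fin 3, |γ l a i - γ l b i - ((a : ℝ) - b) * v l c i| ≤
            |(a : ℝ) - b| * (2 * η) := by
          intro i
          refine (hC.str l hls a b c haR hbR hc i).trans ?_
          have h1 : max |(a : ℝ) - c| |(b : ℝ) - c| ≤ t := max_le hac hbc
          have h2 : B / R * max |(a : ℝ) - c| |(b : ℝ) - c| ≤ B / R * t :=
            mul_le_mul_of_nonneg_left h1 (by positivity)
          have h3 : B / R * max |(a : ℝ) - c| |(b : ℝ) - c| ≤ 2 * η := by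
            have h4 : 0 ≤ B / R * t := by positivity
            linarith
          rw [mul_comm |(a : ℝ) - b|]
          exact mul_le_mul_of_nonneg_right h3 (abs_nonneg _)
        intro i
        fin_cases i
        · simpa [sp, dir] using key 0
        · simpa [sp, dir] using key 1
        · simpa [sp, dir] using key 2
        · simp only [sp, dir]
          simp
          positivity)
    hr hR hRm X hX A'
    (by
      intro k hk j l hl
      rw [hA', Finset.mem_filter] at hl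
      rw [hfam, Finset.mem_filter]
      have hls := hA k hk hl.1
      refine ⟨hls, fun i => ?_⟩
      have h1 : |v l (k 3) i - v (m1 j) (k1 3) i| ≤ η :=
        cix_close hη (hl.2.trans (hm1 j).2.symm) i
      have h2 : |v l (k 3) i - v l c i| ≤ η := by
        refine (hC.lip hR0 hB hls (hX k hk 3) hc i).trans ?_
        refine le_trans ?_ htη
        exact mul_le_mul_of_nonneg_left (hXc k hk) (by positivity)
      have e3 : v l c i - v (m1 j) (k1 3) i =
          -(v l (k 3) i - v l c i) + (v l (k 3) i - v (m1 j) (k1 3) i) := by ring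
      rw [e3]
      refine (abs_add_le _ _).trans ?_
      rw [abs_neg]
      linarith)
    (by
      intro k hk j l hl
      rw [hA', Finset.mem_filter] at hl
      refine ⟨sp (γ l (k 3)) (k 3), ⟨k 3, hX k hk 3, hXc k hk, rfl⟩, ?_⟩
      have h1 := hnear k hk l hl.1
      intro i
      fin_cases i
      · simpa [sp, rv] using h1 0
      · simpa [sp, rv] using h1 1
      · simpa [sp, rv] using h1 2
      · simp only [sp, rv]
        simp
        linarith)
  have e1 : ∑ k ∈ X, ∏ j, (∑ l ∈ (A k).filter (fun l => cix η (v l (k 3)) = τ j), w l) ^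
      (1 / 3 : ℝ) = ∑ k ∈ X, (cb (∑ l ∈ A' 0 k, w l) * (cb (∑ l ∈ A' 1 k, w l) *
        (cb (∑ l ∈ A' 2 k, w l) * cb (∑ l ∈ A' 3 k, w l)))) := by
    refine Finset.sum_congr rfl fun k _ => ?_
    rw [Fin.prod_univ_four]
    simp only [cb, hA']
    ring
  have e2 : (34 * (96 / ν ^ 3) * r) = 3264 / ν ^ 3 * r := by ring
  rw [e2] at hmain
  have hgoal : ∑ k ∈ X, ∏ j, (∑ l ∈ (A k).filter (fun l => cix η (v l (k 3)) = τ j), w l) ^
      (1 / 3 : ℝ) ≤
      (3264 / ν ^ 3 * r) ^ 4 * (16 * 14641 ^ m * (∑ l ∈ s, w l) ^ (4 / 3 : ℝ)) := by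
    rw [e1]
    refine hmain.trans ?_
    refine mul_le_mul_of_nonneg_left ?_ (by positivity)
    refine mul_le_mul_of_nonneg_left ?_ (by positivity)
    have hle : ∀ j, ∑ l ∈ fam j, w l ≤ ∑ l ∈ s, w l := fun j =>
      Finset.sum_le_sum_of_subset_of_nonneg (Finset.filter_subset _ _) (fun l hl _ => hw l hl)
    have h0 : ∀ j, 0 ≤ ∑ l ∈ fam j, w l := fun j =>
      Finset.sum_nonneg fun l hl => hw l (Finset.mem_filter.mp hl).1
    have hs0 : 0 ≤ ∑ l ∈ s, w l := Finset.sum_nonneg hw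
    have c0 := cb_nonneg hs0
    have z := fun j => cb_nonneg (h0 j)
    have k := fun j => cb_mono (h0 j) (hle j)
    have h5 : cb (∑ l ∈ s, w l) * (cb (∑ l ∈ s, w l) * (cb (∑ l ∈ s, w l) *
        cb (∑ l ∈ s, w l))) = (∑ l ∈ s, w l) ^ (4 / 3 : ℝ) := by
      have h6 : cb (∑ l ∈ s, w l) * (cb (∑ l ∈ s, w l) * (cb (∑ l ∈ s, w l) *
        cb (∑ l ∈ s, w l))) = cb (∑ l ∈ s, w l) ^ 4 := by ring
      rw [h6]
      unfold cb
      rw [← Real.rpow_natCast, ← Real.rpow_mul hs0]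
      norm_num
    rw [← h5]
    exact mul_le_mul (k 0) (mul_le_mul (k 1) (mul_le_mul (k 2) (k 3) (z 3) c0)
      (mul_nonneg (z 2) (z 3)) c0) (mul_nonneg (z 1) (mul_nonneg (z 2) (z 3))) c0
  convert hgoal

end Crest.Agent.R136.MK4
end

-- ▼ part R136/Mk4e_418
section

/-!
# 4-linear Kakeya in R^4, part e (helper418)

Final statements: `nonnarrow_kakeya4_curved` (C^{1,1} curves) and `nonnarrow_kakeya4` (lines).
-/

set_option autoImplicit false

namespace Crest.Agent.R136.MK4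

open Finset
open Crest.Agent.R136.MF191 (dir D4 Slab cix cix_close Good Bm)

open Classical in
/-- all 4-tuples of caps in one time slab -/
lemma slab_sum {ι : Type*} (s : Finset ι) (w : ι → ℝ) (hw : ∀ l ∈ s, 0 ≤ w l)
    (γ v : ι → ℤ → Fin 3 → ℝ) {R B : ℝ} (hR : 1 ≤ R) (hB : 0 ≤ B) (hC : Curved s γ v R B)
    {ν r : ℝ} (hν : 0 < ν) (hν1 : ν ≤ 1) (hr : 1 ≤ r) {N : ℕ} (hN : 1 ≤ N) (m : ℕ)
    (hRm : R < (N : ℝ) ^ m) {η : ℝ} (hη : 0 < η) (hη1 : η ≤ ν ^ 3 / (800 * N))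
    {t : ℝ} (ht : 0 ≤ t) (htη : 2 * (B / R) * t ≤ η) (c : ℤ) (hc : |(c : ℝ)| ≤ R)
    (X : Finset (Fin 4 → ℤ)) (hX : ∀ k ∈ X, ∀ i, |(k i : ℝ)| ≤ R)
    (hXc : ∀ k ∈ X, |(k 3 : ℝ) - c| ≤ t)
    (A : (Fin 4 → ℤ) → Finset ι) (hA : ∀ k ∈ X, A k ⊆ s)
    (hnear : ∀ k ∈ X, ∀ l ∈ A k, ∀ i : Fin 3, |(k i.castSucc : ℝ) - γ l (k 3) i| ≤ r)
    (hnn : ∀ k ∈ X, ∀ u n : Fin 3 → ℝ, ∑ i, n i ^ 2 = 1 →
      ∑ l ∈ (A k).filter (fun l => Slab ν u n (v l (k 3))), w l ≤ (∑ l ∈ A k, w l) / 2) :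
    ∑ k ∈ X, (∑ l ∈ A k, w l) ^ (4 / 3 : ℝ) ≤
      2 * ((5 / η) ^ 12 * ((3264 / ν ^ 3 * r) ^ 4 *
        (16 * 14641 ^ m * (∑ l ∈ s, w l) ^ (4 / 3 : ℝ)))) := by
  have hN1 : (1 : ℝ) ≤ N := by exact_mod_cast hN
  have hη2 : η ≤ 1 := by
    refine hη1.trans ?_
    rw [div_le_one (by positivity)]
    have : ν ^ 3 ≤ 1 := pow_le_one₀ hν.le hν1
    linarith
  set T : Finset (Fin 4 → Fin 3 → ℤ) := Fintype.piFinset (fun _ : Fin 4 => capBox η) with hT
  set F : (Fin 4 → ℤ) → (Fin 4 → Fin 3 → ℤ) → ℝ := fun k τ =>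
    ∏ j, (∑ l ∈ (A k).filter (fun l => cix η (v l (k 3)) = τ j), w l) ^ (1 / 3 : ℝ) with hF
  have hwA : ∀ k ∈ X, ∀ l ∈ A k, 0 ≤ w l := fun k hk l hl => hw l (hA k hk hl)
  have hF0 : ∀ k ∈ X, ∀ τ, 0 ≤ F k τ := by
    intro k hk τ
    refine Finset.prod_nonneg fun j _ => Real.rpow_nonneg ?_ _
    exact Finset.sum_nonneg fun l hl => hwA k hk l (Finset.mem_filter.mp hl).1
  have step1 : ∀ k ∈ X, (∑ l ∈ A k, w l) ^ (4 / 3 : ℝ) ≤
      2 * ∑ τ ∈ T, if Good (A k) (fun l => v l (k 3)) ν η τ then F k τ else 0 := by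
    intro k hk
    refine (MF191.caps_of_nonnarrow (A k) (A k) (Finset.Subset.refl _) (fun l => v l (k 3)) w
      (hwA k hk) hν η (hnn k hk)).trans ?_
    refine mul_le_mul_of_nonneg_left ?_ (by norm_num)
    refine Finset.sum_le_sum_of_subset_of_nonneg ?_ ?_
    · intro τ hτ
      rw [Fintype.mem_piFinset] at hτ
      rw [hT, Fintype.mem_piFinset]
      intro j
      obtain ⟨l, hl, hl2⟩ := Finset.mem_image.mp (hτ j)
      rw [← hl2]
      exact cix_mem hη (hC.vel l (hA k hk hl) (k 3) (hX k hk 3))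
    · intro τ _ _
      split_ifs
      · exact hF0 k hk τ
      · exact le_rfl
  refine (Finset.sum_le_sum step1).trans ?_
  rw [← Finset.mul_sum]
  refine mul_le_mul_of_nonneg_left ?_ (by norm_num)
  rw [Finset.sum_comm]
  set Q : ℝ := (3264 / ν ^ 3 * r) ^ 4 * (16 * 14641 ^ m * (∑ l ∈ s, w l) ^ (4 / 3 : ℝ)) with hQ
  have hQ0 : 0 ≤ Q := by
    have : 0 ≤ ∑ l ∈ s, w l := Finset.sum_nonneg hw
    positivity
  have step2 : ∀ τ ∈ T, ∑ k ∈ X, (if Good (A k) (fun l => v l (k 3)) ν η τ then F k τ else 0) ≤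
      Q := by
    intro τ _
    by_cases hg : ∃ k ∈ X, Good (A k) (fun l => v l (k 3)) ν η τ
    · have h1 := slab_tuple s w hw γ v hR hB hC hν hν1 hr hN m hRm hη hη1 ht htη c hc X hX hXc A
        hA hnear τ hg
      have h2 : ∑ k ∈ X, (if Good (A k) (fun l => v l (k 3)) ν η τ then F k τ else 0) ≤
          ∑ k ∈ X, F k τ := by
        refine Finset.sum_le_sum fun k hk => ?_
        split_ifs
        · exact le_rfl
        · exact hF0 k hk τ
      refine h2.trans (le_trans (le_of_eq ?_) h1)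
      refine Finset.sum_congr rfl fun k _ => ?_
      simp only [hF]
      refine Finset.prod_congr rfl fun j _ => ?_
      congr 1
      refine Finset.sum_congr ?_ fun _ _ => rfl
      ext l
      simp only [Finset.mem_filter]
    · push Not at hg
      have : ∑ k ∈ X, (if Good (A k) (fun l => v l (k 3)) ν η τ then F k τ else 0) = 0 :=
        Finset.sum_eq_zero fun k hk => by rw [if_neg (hg k hk)]
      rw [this]
      exact hQ0
  refine (Finset.sum_le_card_nsmul T _ _ step2).trans ?_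
  rw [nsmul_eq_mul]
  exact mul_le_mul_of_nonneg_right (capBox_card hη hη2) hQ0

open Classical in
/-- **Curved 4-linear Kakeya in R^4 at non-narrow points** (C^{1,1} curves). -/
theorem nonnarrow_kakeya4_curved.{u} (ε B : ℝ) (hε : 0 < ε) (hB : 0 ≤ B) : ∃ C : ℝ, 0 < C ∧
    ∀ (ι : Type u) (s : Finset ι) (w : ι → ℝ) (_hw : ∀ l ∈ s, 0 ≤ w l)
      (γ v : ι → ℤ → Fin 3 → ℝ) (R : ℝ) (_hR : 1 ≤ R) (_hC : Curved s γ v R B)
      (ν r : ℝ) (_hν : 0 < ν) (_hν1 : ν ≤ 1) (_hr : 1 ≤ r)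
      (X : Finset (Fin 4 → ℤ)) (_hX : ∀ k ∈ X, ∀ i, |(k i : ℝ)| ≤ R)
      (A : (Fin 4 → ℤ) → Finset ι) (_hA : ∀ k ∈ X, A k ⊆ s)
      (_hnear : ∀ k ∈ X, ∀ l ∈ A k, ∀ i : Fin 3, |(k i.castSucc : ℝ) - γ l (k 3) i| ≤ r)
      (_hnn : ∀ k ∈ X, ∀ u n : Fin 3 → ℝ, ∑ i, n i ^ 2 = 1 →
        ∑ l ∈ (A k).filter (fun l => Slab ν u n (v l (k 3))), w l ≤ (∑ l ∈ A k, w l) / 2),
      ∑ k ∈ X, (∑ l ∈ A k, w l) ^ (4 / 3 : ℝ) ≤
        C * r ^ 4 * (1 / ν) ^ 51 * R ^ ε * (∑ l ∈ s, w l) ^ (4 / 3 : ℝ) := by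
  obtain ⟨N, hN, hscale⟩ := exists_scale ε hε
  have hN1 : (1 : ℝ) ≤ N := by exact_mod_cast hN
  have hN0 : (0 : ℝ) < N := by linarith
  refine ⟨(8 * (B + 1) * (800 * N)) * (2 * ((4000 * N) ^ 12 * (3264 ^ 4 * (16 * 14641)))),
    by positivity, ?_⟩
  intro ι s w hw γ v R hR hC ν r hν hν1 hr X hX A hA hnear hnn
  obtain ⟨m, hRm, h146⟩ := hscale R hR
  have hR0 : 0 < R := by linarith
  set η : ℝ := ν ^ 3 / (800 * N) with hη
  have hη0 : 0 < η := by positivity
  have hν31 : ν ^ 3 ≤ 1 := pow_le_one₀ hν.le hν1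
  have hη1 : η ≤ 1 := by
    rw [hη, div_le_one (by positivity)]
    linarith
  set t : ℝ := η * R / (2 * (B + 1)) with ht
  have ht0 : 0 < t := by positivity
  have htη : 2 * (B / R) * t ≤ η := by
    rw [ht]
    have : 2 * (B / R) * (η * R / (2 * (B + 1))) = η * (B / (B + 1)) := by
      field_simp
    rw [this]
    have h1 : B / (B + 1) ≤ 1 := by
      rw [div_le_one (by positivity)]; linarith
    calc η * (B / (B + 1)) ≤ η * 1 := mul_le_mul_of_nonneg_left h1 hη0.le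
      _ = η := mul_one _
  set Q : ℝ := 2 * ((5 / η) ^ 12 * ((3264 / ν ^ 3 * r) ^ 4 *
        (16 * 14641 ^ m * (∑ l ∈ s, w l) ^ (4 / 3 : ℝ)))) with hQ
  have hs0 : 0 ≤ ∑ l ∈ s, w l := Finset.sum_nonneg hw
  have hQ0 : 0 ≤ Q := by positivity
  -- slabs
  set idx : (Fin 4 → ℤ) → ℤ := fun k => ⌊(k 3 : ℝ) / t⌋ with hidx
  have hsplit : ∑ k ∈ X, (∑ l ∈ A k, w l) ^ (4 / 3 : ℝ) =
      ∑ b ∈ X.image idx, ∑ k ∈ X.filter (fun k => idx k = b), (∑ l ∈ A k, w l) ^ (4 / 3 : ℝ) := by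
    rw [Finset.sum_fiberwise_of_maps_to]
    intro k hk
    exact Finset.mem_image_of_mem _ hk
  have hslab : ∀ b ∈ X.image idx,
      ∑ k ∈ X.filter (fun k => idx k = b), (∑ l ∈ A k, w l) ^ (4 / 3 : ℝ) ≤ Q := by
    intro b hb
    obtain ⟨k0, hk0, hk0b⟩ := Finset.mem_image.mp hb
    have hsub : ∀ k ∈ X.filter (fun k => idx k = b), k ∈ X := fun k hk =>
      (Finset.mem_filter.mp hk).1
    refine slab_sum s w hw γ v hR hB hC hν hν1 hr hN m hRm hη0 le_rfl ht0.le htη (k0 3)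
      (hX k0 hk0 3) (X.filter (fun k => idx k = b)) (fun k hk => hX k (hsub k hk)) ?_ A
      (fun k hk => hA k (hsub k hk)) (fun k hk => hnear k (hsub k hk))
      (fun k hk => hnn k (hsub k hk))
    intro k hk
    have h1 : idx k = idx k0 := (Finset.mem_filter.mp hk).2.trans hk0b.symm
    have h2 := Int.abs_sub_lt_one_of_floor_eq_floor h1
    have h3 : (k 3 : ℝ) - (k0 3 : ℤ) = t * ((k 3 : ℝ) / t - (k0 3 : ℝ) / t) := by
      field_simp
    rw [h3, abs_mul, abs_of_pos ht0]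
    nlinarith
  have hcard : ((X.image idx).card : ℝ) ≤ 8 * (B + 1) / η := by
    set n : ℕ := ⌈R / t⌉₊ with hn
    have hRt : R / t = 2 * (B + 1) / η := by
      rw [ht]; field_simp
    have hsub : X.image idx ⊆ Finset.Icc (-(n : ℤ)) n := by
      intro b hb
      obtain ⟨k, hk, rfl⟩ := Finset.mem_image.mp hb
      have h1 := hX k hk 3
      rw [abs_le] at h1
      have h2 : R / t ≤ (n : ℝ) := Nat.le_ceil _
      rw [Finset.mem_Icc]
      constructor
      · simp only [hidx]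
        rw [Int.le_floor]
        push_cast
        rw [le_div_iff₀ ht0]
        rw [div_le_iff₀ ht0] at h2
        linarith [h1.1]
      · have h3 : ((⌊(k 3 : ℝ) / t⌋ : ℤ) : ℝ) ≤ (n : ℝ) := by
          refine (Int.floor_le _).trans ?_
          refine le_trans ?_ h2
          exact div_le_div_of_nonneg_right h1.2 ht0.le
        simp only [hidx]
        exact_mod_cast h3
    have h1 := Finset.card_le_card hsub
    have h2 : (Finset.Icc (-(n : ℤ)) n).card = 2 * n + 1 := by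
      rw [Int.card_Icc]; omega
    rw [h2] at h1
    have h3 : (n : ℝ) < R / t + 1 := Nat.ceil_lt_add_one (by positivity)
    have h4 : ((X.image idx).card : ℝ) ≤ 2 * (n : ℝ) + 1 := by exact_mod_cast h1
    rw [hRt] at h3
    have h5 : 2 ≤ 2 * (B + 1) / η := by
      rw [le_div_iff₀ hη0]
      nlinarith
    have h6 : 8 * (B + 1) / η = 4 * (2 * (B + 1) / η) := by ring
    rw [h6]
    linarith
  rw [hsplit]
  refine (Finset.sum_le_card_nsmul _ _ _ hslab).trans ?_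
  rw [nsmul_eq_mul]
  refine (mul_le_mul_of_nonneg_right hcard hQ0).trans ?_
  have hW0 : 0 ≤ (∑ l ∈ s, w l) ^ (4 / 3 : ℝ) := Real.rpow_nonneg hs0 _
  have hQle : Q ≤ 2 * ((5 / η) ^ 12 * ((3264 / ν ^ 3 * r) ^ 4 *
        (16 * (14641 * R ^ ε) * (∑ l ∈ s, w l) ^ (4 / 3 : ℝ)))) := by
    rw [hQ]
    refine mul_le_mul_of_nonneg_left ?_ (by norm_num)
    refine mul_le_mul_of_nonneg_left ?_ (by positivity)
    refine mul_le_mul_of_nonneg_left ?_ (by positivity)
    refine mul_le_mul_of_nonneg_right ?_ hW0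
    exact mul_le_mul_of_nonneg_left h146 (by norm_num)
  refine (mul_le_mul_of_nonneg_left hQle (by positivity)).trans (le_of_eq ?_)
  rw [hη]
  field_simp
  ring

open Classical in
/-- **4-linear Kakeya in R^4 at non-narrow points**, lines `t ↦ (p l + t v l, t)`. -/
theorem nonnarrow_kakeya4.{u} (ε : ℝ) (hε : 0 < ε) : ∃ C : ℝ, 0 < C ∧
    ∀ (ι : Type u) (s : Finset ι) (w : ι → ℝ) (_hw : ∀ l ∈ s, 0 ≤ w l)
      (p v : ι → Fin 3 → ℝ) (_hv : ∀ l ∈ s, ∀ i, |v l i| ≤ 1) (R : ℝ) (_hR : 1 ≤ R)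
      (ν r : ℝ) (_hν : 0 < ν) (_hν1 : ν ≤ 1) (_hr : 1 ≤ r)
      (X : Finset (Fin 4 → ℤ)) (_hX : ∀ k ∈ X, ∀ i, |(k i : ℝ)| ≤ R)
      (A : (Fin 4 → ℤ) → Finset ι) (_hA : ∀ k ∈ X, A k ⊆ s)
      (_hnear : ∀ k ∈ X, ∀ l ∈ A k, ∀ i : Fin 3,
        |(k i.castSucc : ℝ) - (p l i + (k 3 : ℝ) * v l i)| ≤ r)
      (_hnn : ∀ k ∈ X, ∀ u n : Fin 3 → ℝ, ∑ i, n i ^ 2 = 1 →
        ∑ l ∈ (A k).filter (fun l => Slab ν u n (v l)), w l ≤ (∑ l ∈ A k, w l) / 2),
      ∑ k ∈ X, (∑ l ∈ A k, w l) ^ (4 / 3 : ℝ) ≤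
        C * r ^ 4 * (1 / ν) ^ 51 * R ^ ε * (∑ l ∈ s, w l) ^ (4 / 3 : ℝ) := by
  obtain ⟨C, hC, h⟩ := nonnarrow_kakeya4_curved.{u} ε 0 hε le_rfl
  refine ⟨C, hC, ?_⟩
  intro ι s w hw p v hv R hR ν r hν hν1 hr X hX A hA hnear hnn
  refine h ι s w hw (fun l a i => p l i + (a : ℝ) * v l i) (fun l _ => v l) R hR
    ⟨fun l hl a _ => hv l hl, fun l hl a b c _ _ _ i => ?_⟩ ν r hν hν1 hr X hX A hA hnear hnn
  have : p l i + (a : ℝ) * v l i - (p l i + (b : ℝ) * v l i) - ((a : ℝ) - b) * v l i = 0 := by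
    ring
  rw [this, abs_zero]
  have h1 : 0 ≤ max |(a : ℝ) - c| |(b : ℝ) - c| := (abs_nonneg _).trans (le_max_left _ _)
  simp

end Crest.Agent.R136.MK4
end

-- ▼ part R136/LmQ0_861
section

/-!
# R136, LEMMA A_Q: the 4-linear input `NN4c` (from helper418's curved theorem) (helper861)
-/

set_option autoImplicit false
set_option linter.unusedVariables false

namespace Crest.Agent.R136.LmQ861

open Finset Crest.Agent.R136.MK4

theorem nn4c : NN4c := by
  intro ε hε B hB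
  obtain ⟨C, hC, key⟩ := nonnarrow_kakeya4_curved.{0} ε B hε hB
  refine ⟨C, hC, 51, ?_⟩
  intro ι s w γ v ν r R hw hν hν1 hr hR hv hcur X hX A hA hnear hnn
  have h := key ι s w hw (fun l a => γ l a) (fun l a => v l a) R hR
    ⟨fun l hl a ha i => hv l hl a ha i, fun l hl a b c ha hb hc i => hcur l hl a b c ha hb hc i⟩
    ν r hν hν1 hr X hX A hA hnear hnn
  rwa [one_div] at h

end Crest.Agent.R136.LmQ861
end

-- ▼ part R136/LmQ3_861

/-!
# R136, LEMMA A_Q, part 3: the dichotomy, finite form (helper861)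
-/

set_option autoImplicit false
set_option linter.unusedVariables false
set_option linter.unusedSectionVars false

namespace Crest.Agent.R136.LmQ861

open Finset Crest.Agent.R138.LmA861

/-- plank relation around the incidence `x`: steep direction `n` (thickness `100 / R`), lateral
frame `E` with widths `100 w a H / R`, all at the height of `x`. -/
def Plk {ι : Type} (γ v : ι → ℝ → Fin 3 → ℝ) (R : ℝ) (H : ℕ) (n : Fin 3 → ℝ)
    (E : Fin 2 → Fin 3 → ℝ) (w : Fin 2 → ℝ) (x y : ι × ℤ) : Prop :=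
  |∑ i, n i * (γ y.1 ((x.2 : ℝ) / R) i - γ x.1 ((x.2 : ℝ) / R) i)| ≤ 100 / R ∧
  |∑ i, n i * (v y.1 ((x.2 : ℝ) / R) i - v x.1 ((x.2 : ℝ) / R) i)| ≤ 100 / H ∧
  ∀ a, |∑ i, E a i * (γ y.1 ((x.2 : ℝ) / R) i - γ x.1 ((x.2 : ℝ) / R) i)| ≤ 100 * w a * H / R ∧
    |∑ i, E a i * (v y.1 ((x.2 : ℝ) / R) i - v x.1 ((x.2 : ℝ) / R) i)| ≤ 100 * w a

open Classical in
/-- the one-slab lemma (helper480), consequence of the Kakeya maximal theorem in `R^3`. -/
def SlabOne : Prop := ∀ ε : ℝ, 0 < ε → ∃ C : ℝ, 0 < C ∧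
  ∀ {ι : Type} [DecidableEq ι] (J : Finset (ι × ℤ)) (γ v : ι → ℝ → Fin 3 → ℝ) (H : ℕ) (R : ℝ)
    (j0 : ℤ) (n : Fin 3 → ℝ) (θ θ' D : ℝ), J.Nonempty → 0 < H → (H : ℝ) ^ 2 ≤ R → 0 < θ →
    0 < θ' → 0 ≤ D → ∑ i, n i ^ 2 = 1 → |(j0 : ℝ)| ≤ R →
    (∀ x ∈ J, C11 γ v x.1 ∧ |(x.2 : ℝ)| ≤ R ∧ j0 ≤ x.2 ∧ x.2 < j0 + H) →
    (∀ x ∈ J, ∀ y ∈ J, ∀ i, |γ y.1 ((j0 : ℝ) / R) i - γ x.1 ((j0 : ℝ) / R) i| ≤ 8 * H / R) →
    (∀ x ∈ J, ∀ y ∈ J, |∑ i, n i * (γ y.1 ((j0 : ℝ) / R) i - γ x.1 ((j0 : ℝ) / R) i)| ≤ 1 / R) →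
    (∀ x ∈ J, ∀ y ∈ J, |∑ i, n i * (v y.1 ((j0 : ℝ) / R) i - v x.1 ((j0 : ℝ) / R) i)| ≤ 2 / H) →
    (∀ x ∈ J, θ ≤ ((J.filter fun y => cell γ R y = cell γ R x).card : ℝ)) →
    (∀ x ∈ J, θ' ≤ ((J.filter fun y => y.1 = x.1).card : ℝ)) →
    (∀ x ∈ J, ∀ E : Fin 2 → Fin 3 → ℝ, (∀ a b, ∑ i, E a i * E b i = if a = b then 1 else 0) →
      (∀ a, ∑ i, E a i * n i = 0) → ∀ w : Fin 2 → ℝ, (∀ a, 1 / (H : ℝ) ≤ w a ∧ w a ≤ 1) →
      (((J.filter (Plk γ v R H n E w x)).image Prod.fst).card : ℝ) ≤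
        D * (w 0 * w 1) * (H : ℝ) ^ 2) →
    θ * θ' ^ 2 ≤ C * (H : ℝ) ^ (2 + ε) * D

theorem abs_dot_le {n a : Fin 3 → ℝ} (hn : ∑ i, n i ^ 2 = 1) {M : ℝ} (h : ∀ i, |a i| ≤ M) :
    |∑ i, n i * a i| ≤ 3 * M := by
  have hn1 : ∀ i, |n i| ≤ 1 := by
    intro i
    rw [← sq_le_one_iff_abs_le_one]
    calc n i ^ 2 ≤ ∑ i, n i ^ 2 := single_le_sum (f := fun i => n i ^ 2)
          (fun i _ => sq_nonneg _) (mem_univ i)
      _ = 1 := hn
  have hM : 0 ≤ M := (abs_nonneg _).trans (h 0)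
  calc |∑ i, n i * a i| ≤ ∑ i, |n i * a i| := abs_sum_le_sum_abs _ _
    _ ≤ ∑ _i : Fin 3, M := by
        refine sum_le_sum fun i _ => ?_
        rw [abs_mul]
        calc |n i| * |a i| ≤ 1 * M := mul_le_mul (hn1 i) (h i) (abs_nonneg _) zero_le_one
          _ = M := one_mul _
    _ = 3 * M := by simp

open Classical in
/-- **LEMMA A_Q, finite form.** -/
theorem lemmaQ (hSlab : SlabOne) (ε : ℝ) (hε : 0 < ε) : ∃ C : ℝ, 0 < C ∧ ∃ N : ℕ,
    ∀ {ι : Type} [DecidableEq ι] (I : Finset (ι × ℤ)) (γ v : ι → ℝ → Fin 3 → ℝ) (H R' : ℕ)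
      (R h0 h1 m D : ℝ), I.Nonempty → 0 < H → H ≤ R' → R = H * R' → 0 < h0 → 0 < h1 → 0 < m →
      0 ≤ D →
      (∀ x ∈ I, |(x.2 : ℝ)| ≤ R ∧ (∀ i, |pt γ R x i| ≤ 1) ∧ C11 γ v x.1) →
      (∀ x ∈ I, h0 ≤ ((I.filter fun y => y.1 = x.1).card : ℝ)) →
      (∀ x ∈ I, h1 ≤ ((I.filter fun y => y.1 = x.1 ∧ y.2 / (H : ℤ) = x.2 / (H : ℤ)).card : ℝ)) →
      (∀ x ∈ I, m ≤ ((I.filter fun y => y.2 = x.2 ∧
        ∀ i, |pt γ R y i - pt γ R x i| ≤ 1 / R).card : ℝ)) →
      (∀ x ∈ I, ∀ n : Fin 3 → ℝ, ∑ i, n i ^ 2 = 1 → ∀ E : Fin 2 → Fin 3 → ℝ,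
        (∀ a b, ∑ i, E a i * E b i = if a = b then 1 else 0) →
        (∀ a, ∑ i, E a i * n i = 0) → ∀ w : Fin 2 → ℝ, (∀ a, 1 / (H : ℝ) ≤ w a ∧ w a ≤ 1) →
        (((I.filter fun y => |(y.2 : ℝ) - x.2| ≤ H ∧ Plk γ v R H n E w x y).image
          Prod.fst).card : ℝ) ≤ D * (w 0 * w 1) * (H : ℝ) ^ 2) →
      m * h0 ^ 3 ≤ C * (H : ℝ) ^ N * ((R' : ℝ) ^ ε) ^ 3 * ((I.image Prod.fst).card : ℝ) ∨
      m * h1 ^ 5 ≤ C * (H : ℝ) ^ (5 + ε) * D := by
  obtain ⟨C, hC, N, keyA⟩ := caseA nn4c ε hε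
  obtain ⟨C', hC', keyB⟩ := hSlab ε hε
  refine ⟨6912 * C ^ 3 + 10 ^ 20 * C', by positivity, 3 * N + 3, ?_⟩
  intro ι _ I γ v H R' R h0 h1 m D hI hH hHR' hRH hh0 hh1 hm hD hbd hown hw1 hrich hplank
  have hH0 : (0 : ℝ) < H := by exact_mod_cast hH
  have hH1 : (1 : ℝ) ≤ H := by exact_mod_cast hH
  have hR'n : 0 < R' := lt_of_lt_of_le hH hHR'
  have hR'1 : (1 : ℝ) ≤ R' := by exact_mod_cast hR'n
  have hR'0 : (0 : ℝ) < R' := by linarith
  have hR : 0 < R := by rw [hRH]; positivity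
  have hHz : (0 : ℤ) < H := by exact_mod_cast hH
  have hHR'' : (H : ℝ) ≤ R' := by exact_mod_cast hHR'
  have hHHR : (H : ℝ) ^ 2 ≤ R := by rw [hRH]; nlinarith
  have hHR : (H : ℝ) ≤ R := by nlinarith
  have hIc : (0 : ℝ) < I.card := by exact_mod_cast hI.card_pos
  have hHdR : (H : ℝ) / R = 1 / R' := by rw [hRH]; field_simp
  set cl := cell γ R with hcl
  set K : ι × ℤ → Fin 4 → ℤ := fun x => big H (cl x) with hK
  have hK3 : ∀ x, K x 3 = x.2 / (H : ℤ) := by
    intro x; simp [hK, big, hcl]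
  -- class counts
  have hc1 : m * ((I.image cl).card : ℝ) ≤ 27 * (I.card : ℝ) := cells_le γ hR I hrich
  have hc2 : h1 * ((I.image fun x => (x.1, K x)).card : ℝ) ≤ 125 * (I.card : ℝ) := by
    have e1 := lineK_le γ v hH hR hHR I (fun x hx => (hbd x hx).2.2) (fun x hx => (hbd x hx).1)
    have e2 : h1 * ((I.image fun x => (x.1, x.2 / (H : ℤ))).card : ℝ) ≤ (I.card : ℝ) := by
      refine mul_image_le_card I _ fun x hx => ?_
      refine (hw1 x hx).trans (le_of_eq ?_)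
      congr 2
      ext y
      simp [Prod.ext_iff]
    calc h1 * ((I.image fun x => (x.1, K x)).card : ℝ) ≤
        h1 * (125 * ((I.image fun x => (x.1, x.2 / (H : ℤ))).card : ℝ)) :=
          mul_le_mul_of_nonneg_left e1 hh1.le
      _ = 125 * (h1 * ((I.image fun x => (x.1, x.2 / (H : ℤ))).card : ℝ)) := by ring
      _ ≤ _ := by linarith
  -- first pruning
  obtain ⟨J, hJI, hJc, hJ1, hJ2⟩ := prune2 I cl (fun x => (x.1, K x)) (μ := m / 108)
    (ν := h1 / 500) (by positivity) (by positivity) (by linarith)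
  have hJpos : (0 : ℝ) < J.card := by linarith
  -- narrow cells
  set Nar : (Fin 4 → ℤ) → Prop := fun k => ∃ un : (Fin 3 → ℝ) × (Fin 3 → ℝ),
    ∑ i, un.2 i ^ 2 = 1 ∧ ((FK J K k).card : ℝ) / 2 <
      (((FK J K k).filter fun l => |∑ i, un.2 i * (v l (((k 3 : ℤ) : ℝ) / R') i - un.1 i)| ≤
        1 / H).card : ℝ) with hNar
  set A := J.filter fun x => ¬ Nar (K x) with hA
  set B := J.filter fun x => Nar (K x) with hB
  have hAB : (B.card : ℝ) + A.card = J.card := by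
    have := card_filter_add_card_filter_not (s := J) (fun x => Nar (K x))
    exact_mod_cast this
  -- lines in a coarse cell
  have hFKlow : ∀ x ∈ J, m / 108 ≤ ((FK J K (K x)).card : ℝ) := by
    intro x hx
    refine (hJ1 x hx).trans ?_
    have e1 : (J.filter fun y => cl y = cl x).card =
        ((J.filter fun y => cl y = cl x).image Prod.fst).card := by
      symm
      apply card_image_of_injOn
      intro y hy y' hy' he
      simp only [coe_filter, Set.mem_ofPred_eq] at hy hy'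
      have e2 := congrFun (hy.2.trans hy'.2.symm) 3
      simp only [hcl, cell_last] at e2
      exact Prod.ext he e2
    rw [e1]
    have e3 : (J.filter fun y => cl y = cl x).image Prod.fst ⊆ FK J K (K x) := by
      intro l hl
      obtain ⟨y, hy, rfl⟩ := mem_image.1 hl
      rw [mem_filter] at hy
      exact mem_FK.2 ⟨y, hy.1, by simp only [hK, hy.2], rfl⟩
    exact_mod_cast card_le_card e3
  rcases le_or_gt ((J.card : ℝ) / 2) (A.card : ℝ) with hcase | hcase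
  · -- CASE A
    left
    have hmain := keyA J A γ v H R' R (m / 108) (filter_subset _ _) hH hR'n hRH
      (by positivity) (fun x hx => hbd x (hJI hx))
      (fun x hx => hFKlow x (filter_subset _ _ hx))
      (by
        intro x hx u n hn
        rw [hA, mem_filter] at hx
        by_contra hcon
        exact hx.2 ⟨(u, n), hn, not_le.1 hcon⟩)
    set L : ℝ := ((I.image Prod.fst).card : ℝ) with hL
    have hL1 : ((J.image Prod.fst).card : ℝ) ≤ L := by
      rw [hL]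
      exact_mod_cast card_le_card (image_subset_image hJI)
    have hL2 : h0 * L ≤ I.card := by
      refine mul_image_le_card I _ fun x hx => ?_
      exact hown x hx
    have hLpos : 0 < L := by
      have : 0 < (I.image Prod.fst).card := card_pos.2 (hI.image _)
      rw [hL]
      exact_mod_cast this
    set X : ℝ := H * (C * (H : ℝ) ^ N * (R' : ℝ) ^ ε) with hX
    have hX0 : 0 < X := by positivity
    have e1 : h0 * L / 4 ≤ A.card := by linarith
    have hL43 : L ^ (4 / 3 : ℝ) = L * L ^ (1 / 3 : ℝ) := by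
      rw [show (4 / 3 : ℝ) = 1 + 1 / 3 by norm_num,
        Real.rpow_add_of_nonneg hLpos.le zero_le_one (by norm_num), Real.rpow_one]
    have e2 : h0 * L / 4 * (m / 108) ^ (1 / 3 : ℝ) ≤ X * (L * L ^ (1 / 3 : ℝ)) := by
      refine (mul_le_mul_of_nonneg_right e1 (Real.rpow_nonneg (by positivity) _)).trans
        (hmain.trans ?_)
      rw [← hL43, hX]
      have : ((J.image Prod.fst).card : ℝ) ^ (4 / 3 : ℝ) ≤ L ^ (4 / 3 : ℝ) :=
        Real.rpow_le_rpow (Nat.cast_nonneg _) hL1 (by norm_num)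
      calc _ ≤ H * (C * (H : ℝ) ^ N * (R' : ℝ) ^ ε * L ^ (4 / 3 : ℝ)) := by gcongr
        _ = _ := by ring
    have e3 : h0 * (m / 108) ^ (1 / 3 : ℝ) ≤ 4 * X * L ^ (1 / 3 : ℝ) := by
      have : L * (h0 * (m / 108) ^ (1 / 3 : ℝ)) ≤ L * (4 * X * L ^ (1 / 3 : ℝ)) := by
        calc L * (h0 * (m / 108) ^ (1 / 3 : ℝ)) = 4 * (h0 * L / 4 * (m / 108) ^ (1 / 3 : ℝ)) := by
              ring
          _ ≤ 4 * (X * (L * L ^ (1 / 3 : ℝ))) := by linarith
          _ = _ := by ring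
      exact le_of_mul_le_mul_left this hLpos
    have hcube : ∀ t : ℝ, 0 ≤ t → (t ^ (1 / 3 : ℝ)) ^ 3 = t := by
      intro t ht
      rw [← Real.rpow_natCast, ← Real.rpow_mul ht]
      norm_num
    have e4 : h0 ^ 3 * (m / 108) ≤ 64 * X ^ 3 * L := by
      have h5 := pow_le_pow_left₀ (by positivity) e3 3
      have h6 : (h0 * (m / 108) ^ (1 / 3 : ℝ)) ^ 3 = h0 ^ 3 * (m / 108) := by
        rw [mul_pow, hcube _ (by positivity)]
      have h7 : (4 * X * L ^ (1 / 3 : ℝ)) ^ 3 = 64 * X ^ 3 * L := by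
        rw [mul_pow, hcube _ hLpos.le]; ring
      linarith
    have e5 : m * h0 ^ 3 ≤ 6912 * C ^ 3 * ((H : ℝ) ^ (3 * N + 3) * ((R' : ℝ) ^ ε) ^ 3 * L) := by
      have : 64 * X ^ 3 * L * 108 =
          6912 * C ^ 3 * ((H : ℝ) ^ (3 * N + 3) * ((R' : ℝ) ^ ε) ^ 3 * L) := by
        rw [hX]; ring
      linarith
    have e6 : 0 ≤ (H : ℝ) ^ (3 * N + 3) * ((R' : ℝ) ^ ε) ^ 3 * L := by positivity
    calc m * h0 ^ 3 ≤ 6912 * C ^ 3 * ((H : ℝ) ^ (3 * N + 3) * ((R' : ℝ) ^ ε) ^ 3 * L) := e5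
      _ ≤ (6912 * C ^ 3 + 10 ^ 20 * C') * ((H : ℝ) ^ (3 * N + 3) * ((R' : ℝ) ^ ε) ^ 3 * L) :=
          mul_le_mul_of_nonneg_right (by nlinarith) e6
      _ = _ := by ring
  · -- CASE B
    right
    have hBc : (J.card : ℝ) / 2 ≤ B.card := by linarith
    have hBpos : (0 : ℝ) < B.card := by linarith
    -- strips
    set un : (Fin 4 → ℤ) → (Fin 3 → ℝ) × (Fin 3 → ℝ) := fun k =>
      if h : Nar k then h.choose else (0, ![1, 0, 0]) with hun
    have hunit : ∀ k, ∑ i, (un k).2 i ^ 2 = 1 := by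
      intro k
      simp only [hun]
      split_ifs with h
      · exact h.choose_spec.1
      · simp [Fin.sum_univ_three]
    have hmaj : ∀ k, Nar k → ((FK J K k).card : ℝ) / 2 <
      (((FK J K k).filter fun l =>
        |∑ i, (un k).2 i * (v l (((k 3 : ℤ) : ℝ) / R') i - (un k).1 i)| ≤ 1 / H).card : ℝ) := by
      intro k h
      have := h.choose_spec.2
      simp only [hun, dif_pos h]
      exact this
    set J1 := B.filter fun x =>
      |∑ i, (un (K x)).2 i * (v x.1 (((K x 3 : ℤ) : ℝ) / R') i - (un (K x)).1 i)| ≤ 1 / H with hJ1d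
    have hJ1B : J1 ⊆ B := filter_subset _ _
    have hBJ : B ⊆ J := filter_subset _ _
    -- size of J1
    have hJ1c : h1 / 500 * (B.card : ℝ) ≤ 2 * H * J1.card := by
      have s1 : B.card = ∑ k ∈ B.image K, (B.filter fun y => K y = k).card :=
        card_eq_sum_card_image K B
      have s2 : ∑ k ∈ B.image K, (J1.filter fun y => K y = k).card ≤ J1.card := by
        have s3 : J1.card = ∑ k ∈ J1.image K, (J1.filter fun y => K y = k).card :=
          card_eq_sum_card_image K J1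
        have s4 : ∑ k ∈ B.image K, (J1.filter fun y => K y = k).card =
            ∑ k ∈ J1.image K, (J1.filter fun y => K y = k).card := by
          symm
          refine sum_subset (image_subset_image hJ1B) ?_
          intro k _ hk
          rw [card_eq_zero, filter_eq_empty_iff]
          intro y hy he
          exact hk (mem_image.2 ⟨y, hy, he⟩)
        rw [s4, ← s3]
      have s5 : ∀ k ∈ B.image K, h1 / 500 * ((B.filter fun y => K y = k).card : ℝ) ≤
          2 * H * ((J1.filter fun y => K y = k).card : ℝ) := by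
        intro k hk
        obtain ⟨x, hx, rfl⟩ := mem_image.1 hk
        have hNx : Nar (K x) := by rw [hB, mem_filter] at hx; exact hx.2
        have t1 : ((B.filter fun y => K y = K x).card : ℝ) ≤ H * ((FK J K (K x)).card : ℝ) := by
          refine le_trans ?_ (inc_le_FK γ R hH J (K x))
          exact_mod_cast card_le_card (filter_subset_filter _ hBJ)
        have t2 := hmaj (K x) hNx
        have t3 : h1 / 500 * (((FK J K (K x)).filter fun l =>
            |∑ i, (un (K x)).2 i * (v l (((K x 3 : ℤ) : ℝ) / R') i - (un (K x)).1 i)| ≤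
              1 / H).card : ℝ) ≤ ((J1.filter fun y => K y = K x).card : ℝ) := by
          have t4 : ((FK J K (K x)).filter fun l =>
            |∑ i, (un (K x)).2 i * (v l (((K x 3 : ℤ) : ℝ) / R') i - (un (K x)).1 i)| ≤ 1 / H) ⊆
              (J1.filter fun y => K y = K x).image Prod.fst := by
            intro l hl
            rw [mem_filter] at hl
            obtain ⟨y, hy, hyK, rfl⟩ := mem_FK.1 hl.1
            rw [mem_image]
            refine ⟨y, ?_, rfl⟩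
            rw [mem_filter, hJ1d, mem_filter, hB, mem_filter]
            refine ⟨⟨⟨hy, ?_⟩, ?_⟩, hyK⟩
            · rw [hyK]; exact hNx
            · rw [hyK]; exact hl.2
          have t5 : h1 / 500 * (((J1.filter fun y => K y = K x).image Prod.fst).card : ℝ) ≤
              ((J1.filter fun y => K y = K x).card : ℝ) := by
            refine mul_image_le_card _ _ fun y hy => ?_
            rw [mem_filter] at hy
            have hyJ : y ∈ J := hBJ (hJ1B hy.1)
            refine (hJ2 y hyJ).trans ?_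
            have : (J.filter fun z => (z.1, K z) = (y.1, K y)) ⊆
                (J1.filter fun z => K z = K x).filter fun z => z.1 = y.1 := by
              intro z hz
              rw [mem_filter, Prod.mk.injEq] at hz
              obtain ⟨hz1, hz2, hz3⟩ := hz
              rw [mem_filter, mem_filter, hJ1d, mem_filter, hB, mem_filter]
              have hy' := hy.1
              rw [hJ1d, mem_filter, hB, mem_filter] at hy'
              refine ⟨⟨⟨⟨hz1, ?_⟩, ?_⟩, hz3.trans hy.2⟩, hz2⟩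
              · rw [hz3]; exact hy'.1.2
              · rw [hz3, hz2]; exact hy'.2
            exact_mod_cast card_le_card this
          have t6 : (((FK J K (K x)).filter fun l =>
            |∑ i, (un (K x)).2 i * (v l (((K x 3 : ℤ) : ℝ) / R') i - (un (K x)).1 i)| ≤
              1 / H).card : ℝ) ≤
              (((J1.filter fun y => K y = K x).image Prod.fst).card : ℝ) := by
            exact_mod_cast card_le_card t4
          exact (mul_le_mul_of_nonneg_left t6 (by positivity)).trans t5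
        calc h1 / 500 * ((B.filter fun y => K y = K x).card : ℝ) ≤
            h1 / 500 * (H * ((FK J K (K x)).card : ℝ)) :=
              mul_le_mul_of_nonneg_left t1 (by positivity)
          _ = 2 * H * (h1 / 500 * (((FK J K (K x)).card : ℝ) / 2)) := by ring
          _ ≤ 2 * H * (h1 / 500 * (((FK J K (K x)).filter fun l =>
            |∑ i, (un (K x)).2 i * (v l (((K x 3 : ℤ) : ℝ) / R') i - (un (K x)).1 i)| ≤
              1 / H).card : ℝ)) := by
              gcongr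
          _ ≤ _ := mul_le_mul_of_nonneg_left t3 (by positivity)
      calc h1 / 500 * (B.card : ℝ) =
            ∑ k ∈ B.image K, h1 / 500 * ((B.filter fun y => K y = k).card : ℝ) := by
            rw [s1]; push_cast; rw [mul_sum]
        _ ≤ ∑ k ∈ B.image K, 2 * H * ((J1.filter fun y => K y = k).card : ℝ) := sum_le_sum s5
        _ = 2 * H * ((∑ k ∈ B.image K, (J1.filter fun y => K y = k).card : ℕ) : ℝ) := by
            push_cast; rw [mul_sum]
        _ ≤ 2 * H * J1.card := by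
            have : ((∑ k ∈ B.image K, (J1.filter fun y => K y = k).card : ℕ) : ℝ) ≤ J1.card := by
              exact_mod_cast s2
            exact mul_le_mul_of_nonneg_left this (by positivity)
    -- heights
    have hz1 : ∀ x ∈ I, |((K x 3 : ℤ) : ℝ)| ≤ R' ∧
        |(x.2 : ℝ) / R - ((K x 3 : ℤ) : ℝ) / R'| ≤ H / R := by
      intro x hx
      constructor
      · have h1 := (hbd x hx).1
        rw [hRH] at h1
        have h2 : |x.2| ≤ (H : ℤ) * R' := by
          have : ((|x.2| : ℤ) : ℝ) ≤ (((H : ℤ) * R' : ℤ) : ℝ) := by push_cast; exact h1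
          exact_mod_cast this
        rw [abs_le] at h2
        have h3 : -(R' : ℤ) ≤ x.2 / (H : ℤ) := by
          rw [Int.le_ediv_iff_mul_le hHz]; linarith [h2.1, mul_comm (H : ℤ) (R' : ℤ)]
        have h4 : x.2 / (H : ℤ) ≤ R' := by
          rw [← Int.lt_add_one_iff, Int.ediv_lt_iff_lt_mul hHz]
          nlinarith [h2.2]
        rw [hK3, abs_le]
        constructor
        · exact_mod_cast h3
        · exact_mod_cast h4
      · have h1 := div_int_near hH x.2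
        rw [hK3]
        have e1 : (x.2 : ℝ) / R - ((x.2 / (H : ℤ) : ℤ) : ℝ) / R' =
            ((x.2 : ℝ) / H - ((x.2 / (H : ℤ) : ℤ) : ℝ)) / R' := by
          rw [hRH]; field_simp
        rw [e1, abs_div, abs_of_pos hR'0, hHdR]
        gcongr
    have hzK : ∀ x ∈ I, |((K x 3 : ℤ) : ℝ) / R'| ≤ 2 := by
      intro x hx
      rw [abs_div, abs_of_pos hR'0, div_le_iff₀ hR'0]
      linarith [(hz1 x hx).1]
    have hzx : ∀ x ∈ I, |(x.2 : ℝ) / R| ≤ 2 := fun x hx =>
      (ht_le hR (hbd x hx).1).trans (by norm_num)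
    have hJ1II : J1 ⊆ I := hJ1B.trans (hBJ.trans hJI)
    -- slab index
    set sl : ι × ℤ → ℤ := fun x =>
      ⌊R * ∑ i, (un (K x)).2 i * γ x.1 (((K x 3 : ℤ) : ℝ) / R') i⌋ with hsl
    have hstrip : ∀ x ∈ J1,
        |∑ i, (un (K x)).2 i * (v x.1 (((K x 3 : ℤ) : ℝ) / R') i - (un (K x)).1 i)| ≤ 1 / H := by
      intro x hx
      rw [hJ1d, mem_filter] at hx
      exact hx.2
    have hstrip2 : ∀ x ∈ J1, ∀ y ∈ J1, K y = K x →
        |∑ i, (un (K x)).2 i * (v y.1 (((K x 3 : ℤ) : ℝ) / R') i -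
          v x.1 (((K x 3 : ℤ) : ℝ) / R') i)| ≤ 2 / H := by
      intro x hx y hy hKy
      have e1 := hstrip x hx
      have e2 := hstrip y hy
      rw [hKy] at e2
      have e3 : ∑ i, (un (K x)).2 i * (v y.1 (((K x 3 : ℤ) : ℝ) / R') i -
          v x.1 (((K x 3 : ℤ) : ℝ) / R') i) =
          ∑ i, (un (K x)).2 i * (v y.1 (((K x 3 : ℤ) : ℝ) / R') i - (un (K x)).1 i) -
          ∑ i, (un (K x)).2 i * (v x.1 (((K x 3 : ℤ) : ℝ) / R') i - (un (K x)).1 i) := by
        rw [← sum_sub_distrib]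
        refine sum_congr rfl fun i _ => ?_
        ring
      rw [e3]
      refine (abs_sub _ _).trans ?_
      calc _ ≤ 1 / (H : ℝ) + 1 / H := add_le_add e2 e1
        _ = 2 / H := by ring
    have hslab12 : ∀ x ∈ J1, ∀ y ∈ J1, cl y = cl x → |sl y - sl x| ≤ 12 := by
      intro x hx y hy hc
      have hKy : K y = K x := by simp only [hK, hc]
      have hy2 : y.2 = x.2 := by
        have := congrFun hc 3
        simpa [hcl] using this
      have hxI := hJ1II hx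
      have hyI := hJ1II hy
      set z := (x.2 : ℝ) / R with hz
      set zk := ((K x 3 : ℤ) : ℝ) / R' with hzk
      set n := (un (K x)).2 with hn
      have hn1 : ∑ i, n i ^ 2 = 1 := hunit _
      have hzz := (hz1 x hxI).2
      have f1 : ∀ i, |γ y.1 z i - γ x.1 z i| ≤ 1 / R := by
        intro i
        have := congrFun hc i.castSucc
        simp only [hcl, cell_castSucc] at this
        have h := near_of_floor hR this
        simp only [pt, hy2] at h
        exact h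
      have f2 := ((hbd x hxI).2.2).2.1 zk z (hzK x hxI) (hzx x hxI)
      have f3 := ((hbd y hyI).2.2).2.1 zk z (hzK x hxI) (hzx x hxI)
      have hzsq : (z - zk) ^ 2 ≤ 1 / R := by
        have : (z - zk) ^ 2 ≤ (H / R) ^ 2 := by
          rw [← sq_abs (z - zk)]
          exact pow_le_pow_left₀ (abs_nonneg _) hzz 2
        refine this.trans ?_
        rw [div_pow, div_le_div_iff₀ (by positivity) hR]
        nlinarith
      have e1 : ∑ i, n i * γ y.1 zk i - ∑ i, n i * γ x.1 zk i =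
          ∑ i, n i * ((γ y.1 z i - γ x.1 z i) -
            ((γ y.1 z i - γ y.1 zk i - (z - zk) * v y.1 zk i) -
             (γ x.1 z i - γ x.1 zk i - (z - zk) * v x.1 zk i))) -
          (z - zk) * ∑ i, n i * (v y.1 zk i - v x.1 zk i) := by
        rw [← sum_sub_distrib, mul_sum, ← sum_sub_distrib]
        refine sum_congr rfl fun i _ => ?_
        ring
      have e2 : |∑ i, n i * ((γ y.1 z i - γ x.1 z i) -
            ((γ y.1 z i - γ y.1 zk i - (z - zk) * v y.1 zk i) -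
             (γ x.1 z i - γ x.1 zk i - (z - zk) * v x.1 zk i)))| ≤ 3 * (3 / R) := by
        refine abs_dot_le hn1 fun i => ?_
        refine (abs_sub _ _).trans ?_
        have := abs_sub (γ y.1 z i - γ y.1 zk i - (z - zk) * v y.1 zk i)
          (γ x.1 z i - γ x.1 zk i - (z - zk) * v x.1 zk i)
        have g1 := f1 i
        have g2 := f2 i
        have g3 := f3 i
        have e : (3 : ℝ) / R = 1 / R + 1 / R + 1 / R := by ring
        rw [e]
        linarith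
      have e3 : |(z - zk) * ∑ i, n i * (v y.1 zk i - v x.1 zk i)| ≤ 2 / R := by
        rw [abs_mul]
        calc _ ≤ H / R * (2 / H) := mul_le_mul hzz (hstrip2 x hx y hy hKy) (abs_nonneg _)
              (by positivity)
          _ = 2 / R := by field_simp
      have e4 : |∑ i, n i * γ y.1 zk i - ∑ i, n i * γ x.1 zk i| ≤ 11 / R := by
        rw [e1]
        refine (abs_sub _ _).trans ?_
        calc _ ≤ 3 * (3 / R) + 2 / R := add_le_add e2 e3
          _ = 11 / R := by ring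
      have e5 : |R * ∑ i, n i * γ y.1 zk i - R * ∑ i, n i * γ x.1 zk i| ≤ 11 := by
        rw [← mul_sub, abs_mul, abs_of_pos hR]
        calc _ ≤ R * (11 / R) := by gcongr
          _ = 11 := by field_simp
      have hsly : sl y = ⌊R * ∑ i, n i * γ y.1 zk i⌋ := by
        simp only [hsl, hKy, hn, hzk]
      have hslx : sl x = ⌊R * ∑ i, n i * γ x.1 zk i⌋ := rfl
      rw [hsly, hslx]
      set p := R * ∑ i, n i * γ y.1 zk i with hp
      set q := R * ∑ i, n i * γ x.1 zk i with hq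
      have g4 := Int.floor_le p
      have g5 := Int.lt_floor_add_one p
      have g6 := Int.floor_le q
      have g7 := Int.lt_floor_add_one q
      rw [abs_le] at e5
      have g8 : (⌊p⌋ : ℝ) - ⌊q⌋ < 12 := by linarith
      have g9 : (⌊q⌋ : ℝ) - ⌊p⌋ < 12 := by linarith
      have g8' : ⌊p⌋ - ⌊q⌋ < 12 := by exact_mod_cast g8
      have g9' : ⌊q⌋ - ⌊p⌋ < 12 := by exact_mod_cast g9
      rw [abs_le]; omega
    -- second pruning
    set lam : ℝ := h1 / (4000 * H) with hlam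
    have hlam0 : 0 < lam := by positivity
    have hJ1I : lam * I.card ≤ J1.card := by
      have e1 : (I.card : ℝ) ≤ 4 * B.card := by linarith
      have e2 : h1 / 500 * (I.card : ℝ) ≤ 8 * H * J1.card := by
        calc h1 / 500 * (I.card : ℝ) ≤ h1 / 500 * (4 * B.card) := by gcongr
          _ = 4 * (h1 / 500 * B.card) := by ring
          _ ≤ 4 * (2 * H * J1.card) := by linarith
          _ = _ := by ring
      have e3 : lam * (I.card : ℝ) * (8 * H) = h1 / 500 * I.card := by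
        rw [hlam]; field_simp; norm_num
      have e4 : lam * (I.card : ℝ) * (8 * H) ≤ J1.card * (8 * H) := by
        rw [e3]; linarith
      exact le_of_mul_le_mul_right e4 (by positivity)
    have hfcount : ((J1.image fun x => (cl x, sl x)).card : ℝ) ≤
        25 * ((J1.image cl).card : ℝ) := by
      have h1 := card_le_mul_image (J1.image fun x => (cl x, sl x))
        (fun p : (Fin 4 → ℤ) × ℤ => p.1) (n := 25) (by
          intro p hp
          obtain ⟨x, hx, rfl⟩ := mem_image.1 hp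
          have h2 : ((J1.image fun x => (cl x, sl x)).filter fun q => q.1 = cl x) ⊆
              (Icc (sl x - 12) (sl x + 12)).image (fun s => (cl x, s)) := by
            intro q hq
            rw [mem_filter] at hq
            obtain ⟨hq1, hq2⟩ := hq
            obtain ⟨y, hy, rfl⟩ := mem_image.1 hq1
            have := hslab12 x hx y hy hq2
            rw [abs_le] at this
            rw [mem_image]
            refine ⟨sl y, ?_, ?_⟩
            · rw [mem_Icc]; constructor <;> linarith [this.1, this.2]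
            · rw [← hq2]
          have h3 := (card_le_card h2).trans card_image_le
          rw [Int.card_Icc] at h3
          have h4 : (sl x + 12 + 1 - (sl x - 12)).toNat = 25 := by
            have : sl x + 12 + 1 - (sl x - 12) = 25 := by ring
            rw [this]; rfl
          rw [h4] at h3
          exact_mod_cast h3)
      refine h1.trans (le_of_eq ?_)
      congr 2
      rw [image_image]
      rfl
    obtain ⟨J3, hJ31, hJ3c, hJ3a, hJ3b⟩ := prune2 J1 (fun x => (cl x, sl x))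
      (fun x => (x.1, K x)) (μ := lam * m / 2700) (ν := lam * h1 / 500) (by positivity)
      (by positivity) (by
        have e1 : ((J1.image cl).card : ℝ) ≤ ((I.image cl).card : ℝ) := by
          exact_mod_cast card_le_card (image_subset_image hJ1II)
        have e2 : ((J1.image fun x => (x.1, K x)).card : ℝ) ≤
            ((I.image fun x => (x.1, K x)).card : ℝ) := by
          exact_mod_cast card_le_card (image_subset_image hJ1II)
        have e3 : ((J1.image fun x => (cl x, sl x)).card : ℝ) ≤ 25 * ((I.image cl).card : ℝ) :=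
          hfcount.trans (by gcongr)
        calc lam * m / 2700 * ((J1.image fun x => (cl x, sl x)).card : ℝ) +
              lam * h1 / 500 * ((J1.image fun x => (x.1, K x)).card : ℝ) ≤
            lam * m / 2700 * (25 * ((I.image cl).card : ℝ)) +
              lam * h1 / 500 * ((I.image fun x => (x.1, K x)).card : ℝ) := by gcongr
          _ = lam / 108 * (m * ((I.image cl).card : ℝ)) +
              lam / 500 * (h1 * ((I.image fun x => (x.1, K x)).card : ℝ)) := by ring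
          _ ≤ lam / 108 * (27 * I.card) + lam / 500 * (125 * I.card) := by gcongr
          _ = lam * I.card / 2 := by ring
          _ ≤ J1.card / 2 := by linarith)
    have hJ1pos : (0 : ℝ) < J1.card := lt_of_lt_of_le (by positivity) hJ1I
    have hJ3n : J3.Nonempty := by
      rw [← card_pos]
      have : (0 : ℝ) < J3.card := by linarith
      exact_mod_cast this
    obtain ⟨x0, hx0⟩ := hJ3n
    have hJ3I : J3 ⊆ I := hJ31.trans hJ1II
    have hx0I : x0 ∈ I := hJ3I hx0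
    set k := K x0 with hk
    set J4 := J3.filter fun x => K x = k ∧ sl x = sl x0 with hJ4
    have hJ4m : ∀ x ∈ J4, x ∈ J3 ∧ K x = k ∧ sl x = sl x0 := by
      intro x hx
      rw [hJ4, mem_filter] at hx
      exact hx
    have hJ43 : J4 ⊆ J3 := filter_subset _ _
    have hj0R : (((H : ℤ) * k 3 : ℤ) : ℝ) / R = ((k 3 : ℤ) : ℝ) / R' := by
      push_cast
      rw [hRH]; field_simp
    have hj0w : ∀ x ∈ J4, (H : ℤ) * k 3 ≤ x.2 ∧ x.2 < (H : ℤ) * k 3 + H := by
      intro x hx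
      have e1 : x.2 / (H : ℤ) = k 3 := by rw [← hK3, (hJ4m x hx).2.1]
      have a1 := Int.emod_add_mul_ediv x.2 H
      have a3 := Int.emod_nonneg x.2 hHz.ne'
      have a5 := Int.emod_lt_of_pos x.2 hHz
      rw [e1] at a1
      constructor <;> linarith
    have hmain := keyB J4 γ v H R ((H : ℤ) * k 3) (un k).2 (lam * m / 2700) (lam * h1 / 500) D
      ⟨x0, by rw [hJ4, mem_filter]; exact ⟨hx0, rfl, rfl⟩⟩ hH hHHR (by positivity) (by positivity)
      hD (hunit k) (by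
        have := (hz1 x0 hx0I).1
        push_cast
        rw [abs_mul, abs_of_pos hH0, hRH]
        exact mul_le_mul_of_nonneg_left this hH0.le)
      (fun x hx => ⟨(hbd x (hJ3I (hJ43 hx))).2.2, (hbd x (hJ3I (hJ43 hx))).1, hj0w x hx⟩)
      (by
        intro x hx y hy i
        rw [hj0R]
        obtain ⟨hx3, hxK, hxs⟩ := hJ4m x hx
        obtain ⟨hy3, hyK, hys⟩ := hJ4m y hy
        have hxI := hJ3I hx3
        have hyI := hJ3I hy3
        have a1 := ((hbd x hxI).2.2).lip (hzK x hxI) (hzx x hxI) i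
        have a2 := ((hbd y hyI).2.2).lip (hzK y hyI) (hzx y hyI) i
        have hHR1 : (H : ℝ) / R ≤ 1 := by rw [div_le_one hR]; exact hHR
        have b1 : |(x.2 : ℝ) / R - ((K x 3 : ℤ) : ℝ) / R'| * (1 + |(x.2 : ℝ) / R -
            ((K x 3 : ℤ) : ℝ) / R'|) ≤ H / R * (1 + 1) := by
          have h := (hz1 x hxI).2
          gcongr
          exact h.trans hHR1
        have b2 : |(y.2 : ℝ) / R - ((K y 3 : ℤ) : ℝ) / R'| * (1 + |(y.2 : ℝ) / R -
            ((K y 3 : ℤ) : ℝ) / R'|) ≤ H / R * (1 + 1) := by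
          have h := (hz1 y hyI).2
          gcongr
          exact h.trans hHR1
        rw [hxK] at a1 b1
        rw [hyK] at a2 b2
        have c1 : |pt γ R y i - pt γ R x i| ≤ 2 * H / R := by
          have h1 : K y i.castSucc = K x i.castSucc := by rw [hyK, hxK]
          have h2 : ⌊R * pt γ R y i⌋ / (H : ℤ) = ⌊R * pt γ R x i⌋ / (H : ℤ) := by
            simpa [hK, big, hcl] using h1
          have h3 := window_near hH h2
          have h4 : |(⌊R * pt γ R y i⌋ : ℝ) - ⌊R * pt γ R x i⌋| ≤ H := by exact_mod_cast h3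
          have g4 := Int.floor_le (R * pt γ R y i)
          have g5 := Int.lt_floor_add_one (R * pt γ R y i)
          have g6 := Int.floor_le (R * pt γ R x i)
          have g7 := Int.lt_floor_add_one (R * pt γ R x i)
          have h5 : |R * (pt γ R y i - pt γ R x i)| ≤ 2 * H := by
            rw [abs_le] at h4 ⊢
            constructor <;> nlinarith
          rw [abs_mul, abs_of_pos hR] at h5
          rw [le_div_iff₀ hR]; linarith
        have e1 : γ y.1 (((k 3 : ℤ) : ℝ) / R') i - γ x.1 (((k 3 : ℤ) : ℝ) / R') i =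
            -(γ y.1 ((y.2 : ℝ) / R) i - γ y.1 (((k 3 : ℤ) : ℝ) / R') i) +
            (γ x.1 ((x.2 : ℝ) / R) i - γ x.1 (((k 3 : ℤ) : ℝ) / R') i) +
            (pt γ R y i - pt γ R x i) := by
          simp only [pt]; ring
        rw [e1]
        refine (abs_add_le _ _).trans ?_
        have d1 := abs_add_le (-(γ y.1 ((y.2 : ℝ) / R) i - γ y.1 (((k 3 : ℤ) : ℝ) / R') i))
            (γ x.1 ((x.2 : ℝ) / R) i - γ x.1 (((k 3 : ℤ) : ℝ) / R') i)
        rw [abs_neg] at d1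
        have e2 : 8 * (H : ℝ) / R = H / R * (1 + 1) + H / R * (1 + 1) + 2 * H / R + 2 * H / R := by
          ring
        have e3 : 0 ≤ 2 * (H : ℝ) / R := by positivity
        linarith [a1.trans b1, a2.trans b2])
      (by
        intro x hx y hy
        rw [hj0R]
        obtain ⟨hx3, hxK, hxs⟩ := hJ4m x hx
        obtain ⟨hy3, hyK, hys⟩ := hJ4m y hy
        have h1 : sl y = sl x := hys.trans hxs.symm
        simp only [hsl, hxK, hyK] at h1
        have h2 := near_of_floor hR h1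
        refine le_trans (le_of_eq ?_) h2
        congr 1
        rw [← sum_sub_distrib]
        refine sum_congr rfl fun i _ => ?_
        ring)
      (by
        intro x hx y hy
        rw [hj0R]
        obtain ⟨hx3, hxK, hxs⟩ := hJ4m x hx
        obtain ⟨hy3, hyK, hys⟩ := hJ4m y hy
        have h1 := hstrip2 x (hJ31 hx3) y (hJ31 hy3) (hyK.trans hxK.symm)
        rw [hxK] at h1
        exact h1)
      (by
        intro x hx
        obtain ⟨hx3, hxK, hxs⟩ := hJ4m x hx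
        refine (hJ3a x hx3).trans ?_
        have : (J3.filter fun y => (cl y, sl y) = (cl x, sl x)) ⊆
            J4.filter fun y => cell γ R y = cell γ R x := by
          intro y hy
          rw [mem_filter, Prod.mk.injEq] at hy
          rw [mem_filter, hJ4, mem_filter]
          refine ⟨⟨hy.1, ?_, hy.2.2.trans hxs⟩, hy.2.1⟩
          rw [← hxK]; simp only [hK, hy.2.1]
        exact_mod_cast card_le_card this)
      (by
        intro x hx
        obtain ⟨hx3, hxK, hxs⟩ := hJ4m x hx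
        refine (hJ3b x hx3).trans ?_
        have : (J3.filter fun y => (y.1, K y) = (x.1, K x)) ⊆
            J4.filter fun y => y.1 = x.1 := by
          intro y hy
          rw [mem_filter, Prod.mk.injEq] at hy
          rw [mem_filter, hJ4, mem_filter]
          refine ⟨⟨hy.1, hy.2.2.trans hxK, ?_⟩, hy.2.1⟩
          rw [← hxs]; simp only [hsl, hy.2.2, hy.2.1]
        exact_mod_cast card_le_card this)
      (by
        intro x hx E hE hEn w hw
        obtain ⟨hx3, hxK, hxs⟩ := hJ4m x hx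
        refine le_trans ?_ (hplank x (hJ3I hx3) (un k).2 (hunit k) E hE hEn w hw)
        have : (J4.filter (Plk γ v R H (un k).2 E w x)).image Prod.fst ⊆
            (I.filter fun y => |(y.2 : ℝ) - x.2| ≤ H ∧ Plk γ v R H (un k).2 E w x y).image
              Prod.fst := by
          refine image_subset_image ?_
          intro y hy
          rw [mem_filter] at hy ⊢
          refine ⟨hJ3I (hJ43 hy.1), ?_, hy.2⟩
          have b1 := hj0w x hx
          have b2 := hj0w y hy.1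
          have b3 : |y.2 - x.2| ≤ H := by rw [abs_le]; constructor <;> linarith [b1.1, b1.2, b2.1, b2.2]
          exact_mod_cast b3
        exact_mod_cast card_le_card this)
    have e2 : lam * m / 2700 * (lam * h1 / 500) ^ 2 * (2700 * 500 ^ 2 * 4000 ^ 3 * (H : ℝ) ^ 3) =
        m * h1 ^ 5 := by
      rw [hlam]; field_simp
    have e3 : m * h1 ^ 5 ≤ C' * (H : ℝ) ^ (2 + ε) * D * (2700 * 500 ^ 2 * 4000 ^ 3 * (H : ℝ) ^ 3) := by
      rw [← e2]
      exact mul_le_mul_of_nonneg_right hmain (by positivity)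
    have e4 : (H : ℝ) ^ (5 + ε) = (H : ℝ) ^ (2 + ε) * (H : ℝ) ^ 3 := by
      rw [← Real.rpow_natCast, ← Real.rpow_add hH0]
      norm_num
      ring_nf
    have e5 : 0 ≤ (H : ℝ) ^ (5 + ε) * D := by positivity
    calc m * h1 ^ 5 ≤ C' * (H : ℝ) ^ (2 + ε) * D * (2700 * 500 ^ 2 * 4000 ^ 3 * (H : ℝ) ^ 3) := e3
      _ = 2700 * 500 ^ 2 * 4000 ^ 3 * C' * ((H : ℝ) ^ (5 + ε) * D) := by rw [e4]; ring
      _ ≤ (6912 * C ^ 3 + 10 ^ 20 * C') * ((H : ℝ) ^ (5 + ε) * D) := by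
          refine mul_le_mul_of_nonneg_right ?_ e5
          have : (0 : ℝ) < C ^ 3 := by positivity
          nlinarith
      _ = _ := by ring

end Crest.Agent.R136.LmQ861
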