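import Crest.Agent.R136.LmQ3_861
import Crest.Agent.R138.MkDef_163
import Mathlib
import Crest.Agent.R136.Slb1_480
import Crest.Agent.R136.Sh4_605

-- ▼ part R136/LmQ4_861
section

/-!
# R136, LEMMA A_Q, part 4: exponent forms (helper861)

`lemmaQ_exp`, `lemmaQ_two`: for every `g > 0` there is no configuration of `C^{1,1}` curves in the
normalised cube of `R^4` with full shading, rich balls (density `2^(g M)`) and density at most
`2^(g (M - k))` for all straight planks of one intermediate length `2^(k - M)`, `η/2 M ≤ k ≤ η M`.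
-/

set_option autoImplicit false
set_option linter.unusedVariables false
set_option linter.unusedSectionVars false

namespace Crest.Agent.R136.LmQ861

open Finset

open Classical in
/-- **LEMMA A_Q, exponent form.** -/
theorem lemmaQ_exp (hSlab : SlabOne) {g : ℝ} (hg : 0 < g) :
    ∃ η ε₀ ℓ₀ : ℝ, 0 < η ∧ η ≤ 1 / 2 ∧ 0 < ε₀ ∧ 0 < ℓ₀ ∧
    ∀ {ι : Type} [DecidableEq ι] (I : Finset (ι × ℤ)) (γ v : ι → ℝ → Fin 3 → ℝ) (H R' : ℕ)
      (R ℓ n₀ h : ℝ), I.Nonempty → 0 < H → ℓ₀ ≤ ℓ → R = H * R' → R = Real.exp ℓ →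
      (H : ℝ) = Real.exp h → η / 2 * ℓ ≤ h → h ≤ η * ℓ →
      (∀ x ∈ I, |(x.2 : ℝ)| ≤ R ∧ (∀ i, |pt γ R x i| ≤ 1) ∧ C11 γ v x.1) →
      (∀ x ∈ I, Real.exp (ℓ - ε₀ * ℓ) ≤ ((I.filter fun y => y.1 = x.1).card : ℝ)) →
      (∀ x ∈ I, Real.exp (h - ε₀ * ℓ) ≤
        ((I.filter fun y => y.1 = x.1 ∧ y.2 / (H : ℤ) = x.2 / (H : ℤ)).card : ℝ)) →
      (∀ x ∈ I, Real.exp (n₀ - 3 * ℓ + g * ℓ - ε₀ * ℓ) ≤ ((I.filter fun y => y.2 = x.2 ∧
        ∀ i, |pt γ R y i - pt γ R x i| ≤ 1 / R).card : ℝ)) →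
      (∀ x ∈ I, ∀ n : Fin 3 → ℝ, ∑ i, n i ^ 2 = 1 → ∀ E : Fin 2 → Fin 3 → ℝ,
        (∀ a b, ∑ i, E a i * E b i = if a = b then 1 else 0) →
        (∀ a, ∑ i, E a i * n i = 0) → ∀ w : Fin 2 → ℝ, (∀ a, 1 / (H : ℝ) ≤ w a ∧ w a ≤ 1) →
        (((I.filter fun y => |(y.2 : ℝ) - x.2| ≤ H ∧ Plk γ v R H n E w x y).image
          Prod.fst).card : ℝ) ≤
          Real.exp (n₀ - 3 * ℓ + g * (ℓ - h) + ε₀ * ℓ) * (w 0 * w 1) * (H : ℝ) ^ 2) →
      ((I.image Prod.fst).card : ℝ) ≤ Real.exp (n₀ + ε₀ * ℓ) → False := by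
  obtain ⟨C, hC, N, key⟩ := lemmaQ hSlab (g / 12) (by positivity)
  set η : ℝ := min (1 / 2) (g / (4 * (N + 1))) with hη
  have hη0 : 0 < η := lt_min (by norm_num) (by positivity)
  have hη1 : η ≤ 1 / 2 := min_le_left _ _
  have hηN : N * η ≤ g / 4 := by
    have h1 : η ≤ g / (4 * (N + 1)) := min_le_right _ _
    calc N * η ≤ (N + 1) * (g / (4 * (N + 1))) := by
          refine mul_le_mul (by linarith) h1 hη0.le (by positivity)
      _ = g / 4 := by field_simp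
  set ε₀ : ℝ := g * η / 32 with hε₀
  have hε0 : 0 < ε₀ := by positivity
  refine ⟨η, ε₀, (Real.log C ⊔ 0) / ε₀ + 1, hη0, hη1, hε0, by positivity, ?_⟩
  intro ι _ I γ v H R' R ℓ n₀ h hI hH hℓ hRH hR hHh hh1 hh2 hbd hown hw1 hrich hplank hL
  have hℓ0 : 0 < ℓ := lt_of_lt_of_le (by positivity) hℓ
  have hCℓ : Real.log C ≤ ε₀ * ℓ := by
    have h1 : (Real.log C ⊔ 0) / ε₀ ≤ ℓ := by linarith
    rw [div_le_iff₀ hε0] at h1
    have h2 : Real.log C ≤ Real.log C ⊔ 0 := le_sup_left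
    linarith
  have hCexp : C ≤ Real.exp (ε₀ * ℓ) := by
    rw [← Real.exp_log hC]
    exact Real.exp_le_exp.2 hCℓ
  have hH0 : (0 : ℝ) < H := by exact_mod_cast hH
  have hR'eq : (R' : ℝ) = Real.exp (ℓ - h) := by
    have e1 : (H : ℝ) * R' = Real.exp ℓ := by rw [← hRH, hR]
    rw [hHh] at e1
    have e2 : Real.exp ℓ = Real.exp h * Real.exp (ℓ - h) := by
      rw [← Real.exp_add]; congr 1; ring
    rw [e2] at e1
    exact mul_left_cancel₀ (Real.exp_pos h).ne' e1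
  have hHR' : H ≤ R' := by
    have : (H : ℝ) ≤ R' := by
      rw [hHh, hR'eq]
      refine Real.exp_le_exp.2 ?_
      nlinarith
    exact_mod_cast this
  have hh0 : 0 ≤ h := le_trans (by positivity) hh1
  rcases key I γ v H R' R (Real.exp (ℓ - ε₀ * ℓ)) (Real.exp (h - ε₀ * ℓ))
    (Real.exp (n₀ - 3 * ℓ + g * ℓ - ε₀ * ℓ)) (Real.exp (n₀ - 3 * ℓ + g * (ℓ - h) + ε₀ * ℓ)) hI hH
    hHR' hRH (Real.exp_pos _) (Real.exp_pos _) (Real.exp_pos _) (Real.exp_pos _).le hbd hown hw1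
    hrich hplank with hA | hB
  · have e1 : Real.exp (n₀ - 3 * ℓ + g * ℓ - ε₀ * ℓ) * Real.exp (ℓ - ε₀ * ℓ) ^ 3 =
        Real.exp (n₀ + g * ℓ - 4 * (ε₀ * ℓ)) := by
      rw [← Real.exp_nat_mul, ← Real.exp_add]
      congr 1; push_cast; ring
    have e2 : C * (H : ℝ) ^ N * ((R' : ℝ) ^ (g / 12)) ^ 3 * ((I.image Prod.fst).card : ℝ) ≤
        Real.exp (ε₀ * ℓ) * Real.exp (N * h) * Real.exp (3 * ((ℓ - h) * (g / 12))) *
          Real.exp (n₀ + ε₀ * ℓ) := by
      have f1 : (H : ℝ) ^ N = Real.exp (N * h) := by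
        rw [hHh, ← Real.exp_nat_mul]
      have f2 : ((R' : ℝ) ^ (g / 12)) ^ 3 = Real.exp (3 * ((ℓ - h) * (g / 12))) := by
        rw [hR'eq, ← Real.exp_mul, ← Real.exp_nat_mul]
        push_cast; rfl
      rw [f1, f2]
      have f3 := Real.exp_pos (N * h)
      have f4 := Real.exp_pos (3 * ((ℓ - h) * (g / 12)))
      gcongr
    rw [e1] at hA
    have e3 := hA.trans e2
    rw [← Real.exp_add, ← Real.exp_add, ← Real.exp_add] at e3
    have e4 := Real.exp_le_exp.1 e3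
    have e5 : N * h ≤ g / 4 * ℓ := by
      calc N * h ≤ N * (η * ℓ) := by gcongr
        _ = N * η * ℓ := by ring
        _ ≤ g / 4 * ℓ := by gcongr
    have e6 : ε₀ ≤ g / 64 := by
      rw [hε₀]
      nlinarith
    have e7 : ε₀ * ℓ ≤ g / 64 * ℓ := by gcongr
    have e8 : 0 < g * ℓ := by positivity
    have e9 : 0 ≤ h * g := by positivity
    nlinarith
  · have e1 : Real.exp (n₀ - 3 * ℓ + g * ℓ - ε₀ * ℓ) * Real.exp (h - ε₀ * ℓ) ^ 5 =
        Real.exp (n₀ - 3 * ℓ + g * ℓ + 5 * h - 6 * (ε₀ * ℓ)) := by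
      rw [← Real.exp_nat_mul, ← Real.exp_add]
      congr 1; push_cast; ring
    have e2 : C * (H : ℝ) ^ (5 + g / 12) * Real.exp (n₀ - 3 * ℓ + g * (ℓ - h) + ε₀ * ℓ) ≤
        Real.exp (ε₀ * ℓ) * Real.exp (h * (5 + g / 12)) *
          Real.exp (n₀ - 3 * ℓ + g * (ℓ - h) + ε₀ * ℓ) := by
      have f1 : (H : ℝ) ^ (5 + g / 12) = Real.exp (h * (5 + g / 12)) := by
        rw [hHh, ← Real.exp_mul]
      rw [f1]
      have f3 := Real.exp_pos (h * (5 + g / 12))
      have f4 := Real.exp_pos (n₀ - 3 * ℓ + g * (ℓ - h) + ε₀ * ℓ)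
      gcongr
    rw [e1] at hB
    have e3 := hB.trans e2
    rw [← Real.exp_add, ← Real.exp_add] at e3
    have e4 := Real.exp_le_exp.1 e3
    have e5 : g * h * (11 / 12) ≤ 8 * (ε₀ * ℓ) := by nlinarith
    have e6 : g * (η / 2 * ℓ) * (11 / 12) ≤ g * h * (11 / 12) := by gcongr
    have e7 : 8 * (ε₀ * ℓ) = g * (η * ℓ) / 4 := by rw [hε₀]; ring
    have e8 : 0 < g * (η * ℓ) := by positivity
    nlinarith

open Classical in
/-- **LEMMA A_Q, dyadic form** (`H = 2^k`, `R = 2^M`). -/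
theorem lemmaQ_two (hSlab : SlabOne) {g : ℝ} (hg : 0 < g) :
    ∃ η ε₀ : ℝ, ∃ M₀ : ℕ, 0 < η ∧ η ≤ 1 / 2 ∧ 0 < ε₀ ∧
    ∀ {ι : Type} [DecidableEq ι] (I : Finset (ι × ℤ)) (γ v : ι → ℝ → Fin 3 → ℝ) (M k : ℕ)
      (n₀ : ℝ), I.Nonempty → M₀ ≤ M → η / 2 * M ≤ k → (k : ℝ) ≤ η * M →
      (∀ x ∈ I, |(x.2 : ℝ)| ≤ 2 ^ M ∧ (∀ i, |pt γ (2 ^ M) x i| ≤ 1) ∧ C11 γ v x.1) →
      (∀ x ∈ I, (2 : ℝ) ^ ((M : ℝ) - ε₀ * M) ≤ ((I.filter fun y => y.1 = x.1).card : ℝ)) →
      (∀ x ∈ I, (2 : ℝ) ^ ((k : ℝ) - ε₀ * M) ≤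
        ((I.filter fun y => y.1 = x.1 ∧ y.2 / 2 ^ k = x.2 / 2 ^ k).card : ℝ)) →
      (∀ x ∈ I, (2 : ℝ) ^ (n₀ - 3 * M + g * M - ε₀ * M) ≤ ((I.filter fun y => y.2 = x.2 ∧
        ∀ i, |pt γ (2 ^ M) y i - pt γ (2 ^ M) x i| ≤ 1 / 2 ^ M).card : ℝ)) →
      (∀ x ∈ I, ∀ n : Fin 3 → ℝ, ∑ i, n i ^ 2 = 1 → ∀ E : Fin 2 → Fin 3 → ℝ,
        (∀ a b, ∑ i, E a i * E b i = if a = b then 1 else 0) →
        (∀ a, ∑ i, E a i * n i = 0) → ∀ w : Fin 2 → ℝ, (∀ a, 1 / (2 : ℝ) ^ k ≤ w a ∧ w a ≤ 1) →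
        (((I.filter fun y => |(y.2 : ℝ) - x.2| ≤ 2 ^ k ∧ Plk γ v (2 ^ M) (2 ^ k) n E w x y).image
          Prod.fst).card : ℝ) ≤
          (2 : ℝ) ^ (n₀ - 3 * M + g * (M - k) + ε₀ * M) * (w 0 * w 1) * (2 ^ k) ^ 2) →
      ((I.image Prod.fst).card : ℝ) ≤ (2 : ℝ) ^ (n₀ + ε₀ * M) → False := by
  obtain ⟨η, ε₀, ℓ₀, hη, hη1, hε, hℓ, key⟩ := lemmaQ_exp hSlab hg
  have hl2 : 0 < Real.log 2 := Real.log_pos (by norm_num)
  obtain ⟨M₀, hM₀⟩ := exists_nat_ge (ℓ₀ / Real.log 2)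
  refine ⟨η, ε₀, M₀, hη, hη1, hε, ?_⟩
  intro ι _ I γ v M k n₀ hI hM hk1 hk2 hbd hown hw1 hrich hplank hL
  have hpow : ∀ x : ℝ, (2 : ℝ) ^ x = Real.exp (x * Real.log 2) := by
    intro x
    rw [Real.rpow_def_of_pos (by norm_num : (0:ℝ) < 2)]
    congr 1; ring
  have hnat : ∀ j : ℕ, (2 : ℝ) ^ j = Real.exp (j * Real.log 2) := by
    intro j
    rw [← Real.rpow_natCast, hpow]
  have hkM : k ≤ M := by
    have : (k : ℝ) ≤ M := by
      have : η * M ≤ 1 * M := by gcongr; linarith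
      linarith
    exact_mod_cast this
  have hMR : (M₀ : ℝ) ≤ M := by exact_mod_cast hM
  have h1 : ℓ₀ ≤ M * Real.log 2 := by
    rw [div_le_iff₀ hl2] at hM₀
    calc ℓ₀ ≤ M₀ * Real.log 2 := hM₀
      _ ≤ M * Real.log 2 := by gcongr
  refine key I γ v (2 ^ k) (2 ^ (M - k)) (2 ^ M) (M * Real.log 2) (n₀ * Real.log 2)
    (k * Real.log 2) hI (by positivity) h1 (by
      push_cast
      rw [← pow_add, Nat.add_sub_cancel' hkM]) (hnat M) (by
      push_cast
      exact hnat k)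
    (by
      have := mul_le_mul_of_nonneg_right hk1 hl2.le
      linarith)
    (by
      have := mul_le_mul_of_nonneg_right hk2 hl2.le
      linarith) hbd ?_ ?_ ?_ ?_ ?_
  · intro x hx
    refine le_trans (le_of_eq ?_) (hown x hx)
    rw [hpow]; congr 1; ring
  · intro x hx
    refine le_trans (le_of_eq ?_) (le_trans (hw1 x hx) (le_of_eq ?_))
    · rw [hpow]; congr 1; ring
    · congr 2
  · intro x hx
    refine le_trans (le_of_eq ?_) (hrich x hx)
    rw [hpow]; congr 1; ring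
  · intro x hx n hn E hE hEn w hw
    have hw' : ∀ a, 1 / (2 : ℝ) ^ k ≤ w a ∧ w a ≤ 1 := by
      intro a
      have := hw a
      push_cast at this
      exact this
    have := hplank x hx n hn E hE hEn w hw'
    push_cast
    refine le_trans this (le_of_eq ?_)
    rw [hpow]
    congr 3
    ring
  · refine hL.trans (le_of_eq ?_)
    rw [hpow]; congr 1; ring

end Crest.Agent.R136.LmQ861
end

-- ▼ part R136/HR0_829
section

/-!
# R136, HRot4 part 0 (helper829): `lemmaQ_two` of helper861 with `η` as small as wanted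

`lemmaQ_exp`, `lemmaQ_two`: for every `g > 0` there is no configuration of `C^{1,1}` curves in the
normalised cube of `R^4` with full shading, rich balls (density `2^(g M)`) and density at most
`2^(g (M - k))` for all straight planks of one intermediate length `2^(k - M)`, `η/2 M ≤ k ≤ η M`.
-/

set_option autoImplicit false
set_option linter.unusedVariables false
set_option linter.unusedSectionVars false

namespace Crest.Agent.R136.HR829

open Finset
open Crest.Agent.R136.LmQ861 (C11 pt Plk SlabOne lemmaQ)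

open Classical in
/-- **LEMMA A_Q, exponent form.** -/
theorem lemmaQ_exp (hSlab : SlabOne) {g : ℝ} (hg : 0 < g) {η₁ : ℝ} (hη₁ : 0 < η₁) :
    ∃ η ε₀ ℓ₀ : ℝ, 0 < η ∧ η ≤ η₁ ∧ η ≤ 1 / 2 ∧ 0 < ε₀ ∧ 0 < ℓ₀ ∧
    ∀ {ι : Type} [DecidableEq ι] (I : Finset (ι × ℤ)) (γ v : ι → ℝ → Fin 3 → ℝ) (H R' : ℕ)
      (R ℓ n₀ h : ℝ), I.Nonempty → 0 < H → ℓ₀ ≤ ℓ → R = H * R' → R = Real.exp ℓ →
      (H : ℝ) = Real.exp h → η / 2 * ℓ ≤ h → h ≤ η * ℓ →
      (∀ x ∈ I, |(x.2 : ℝ)| ≤ R ∧ (∀ i, |pt γ R x i| ≤ 1) ∧ C11 γ v x.1) →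
      (∀ x ∈ I, Real.exp (ℓ - ε₀ * ℓ) ≤ ((I.filter fun y => y.1 = x.1).card : ℝ)) →
      (∀ x ∈ I, Real.exp (h - ε₀ * ℓ) ≤
        ((I.filter fun y => y.1 = x.1 ∧ y.2 / (H : ℤ) = x.2 / (H : ℤ)).card : ℝ)) →
      (∀ x ∈ I, Real.exp (n₀ - 3 * ℓ + g * ℓ - ε₀ * ℓ) ≤ ((I.filter fun y => y.2 = x.2 ∧
        ∀ i, |pt γ R y i - pt γ R x i| ≤ 1 / R).card : ℝ)) →
      (∀ x ∈ I, ∀ n : Fin 3 → ℝ, ∑ i, n i ^ 2 = 1 → ∀ E : Fin 2 → Fin 3 → ℝ,
        (∀ a b, ∑ i, E a i * E b i = if a = b then 1 else 0) →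
        (∀ a, ∑ i, E a i * n i = 0) → ∀ w : Fin 2 → ℝ, (∀ a, 1 / (H : ℝ) ≤ w a ∧ w a ≤ 1) →
        (((I.filter fun y => |(y.2 : ℝ) - x.2| ≤ H ∧ Plk γ v R H n E w x y).image
          Prod.fst).card : ℝ) ≤
          Real.exp (n₀ - 3 * ℓ + g * (ℓ - h) + ε₀ * ℓ) * (w 0 * w 1) * (H : ℝ) ^ 2) →
      ((I.image Prod.fst).card : ℝ) ≤ Real.exp (n₀ + ε₀ * ℓ) → False := by
  obtain ⟨C, hC, N, key⟩ := lemmaQ hSlab (g / 12) (by positivity)
  set η : ℝ := min η₁ (min (1 / 2) (g / (4 * (N + 1)))) with hη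
  have hη0 : 0 < η := lt_min hη₁ (lt_min (by norm_num) (by positivity))
  have hηη : η ≤ η₁ := min_le_left _ _
  have hη1 : η ≤ 1 / 2 := (min_le_right _ _).trans (min_le_left _ _)
  have hηN : N * η ≤ g / 4 := by
    have h1 : η ≤ g / (4 * (N + 1)) := (min_le_right _ _).trans (min_le_right _ _)
    calc N * η ≤ (N + 1) * (g / (4 * (N + 1))) := by
          refine mul_le_mul (by linarith) h1 hη0.le (by positivity)
      _ = g / 4 := by field_simp
  set ε₀ : ℝ := g * η / 32 with hε₀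
  have hε0 : 0 < ε₀ := by positivity
  refine ⟨η, ε₀, (Real.log C ⊔ 0) / ε₀ + 1, hη0, hηη, hη1, hε0, by positivity, ?_⟩
  intro ι _ I γ v H R' R ℓ n₀ h hI hH hℓ hRH hR hHh hh1 hh2 hbd hown hw1 hrich hplank hL
  have hℓ0 : 0 < ℓ := lt_of_lt_of_le (by positivity) hℓ
  have hCℓ : Real.log C ≤ ε₀ * ℓ := by
    have h1 : (Real.log C ⊔ 0) / ε₀ ≤ ℓ := by linarith
    rw [div_le_iff₀ hε0] at h1
    have h2 : Real.log C ≤ Real.log C ⊔ 0 := le_sup_left
    linarith
  have hCexp : C ≤ Real.exp (ε₀ * ℓ) := by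
    rw [← Real.exp_log hC]
    exact Real.exp_le_exp.2 hCℓ
  have hH0 : (0 : ℝ) < H := by exact_mod_cast hH
  have hR'eq : (R' : ℝ) = Real.exp (ℓ - h) := by
    have e1 : (H : ℝ) * R' = Real.exp ℓ := by rw [← hRH, hR]
    rw [hHh] at e1
    have e2 : Real.exp ℓ = Real.exp h * Real.exp (ℓ - h) := by
      rw [← Real.exp_add]; congr 1; ring
    rw [e2] at e1
    exact mul_left_cancel₀ (Real.exp_pos h).ne' e1
  have hHR' : H ≤ R' := by
    have : (H : ℝ) ≤ R' := by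
      rw [hHh, hR'eq]
      refine Real.exp_le_exp.2 ?_
      nlinarith
    exact_mod_cast this
  have hh0 : 0 ≤ h := le_trans (by positivity) hh1
  rcases key I γ v H R' R (Real.exp (ℓ - ε₀ * ℓ)) (Real.exp (h - ε₀ * ℓ))
    (Real.exp (n₀ - 3 * ℓ + g * ℓ - ε₀ * ℓ)) (Real.exp (n₀ - 3 * ℓ + g * (ℓ - h) + ε₀ * ℓ)) hI hH
    hHR' hRH (Real.exp_pos _) (Real.exp_pos _) (Real.exp_pos _) (Real.exp_pos _).le hbd hown hw1
    hrich hplank with hA | hB
  · have e1 : Real.exp (n₀ - 3 * ℓ + g * ℓ - ε₀ * ℓ) * Real.exp (ℓ - ε₀ * ℓ) ^ 3 =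
        Real.exp (n₀ + g * ℓ - 4 * (ε₀ * ℓ)) := by
      rw [← Real.exp_nat_mul, ← Real.exp_add]
      congr 1; push_cast; ring
    have e2 : C * (H : ℝ) ^ N * ((R' : ℝ) ^ (g / 12)) ^ 3 * ((I.image Prod.fst).card : ℝ) ≤
        Real.exp (ε₀ * ℓ) * Real.exp (N * h) * Real.exp (3 * ((ℓ - h) * (g / 12))) *
          Real.exp (n₀ + ε₀ * ℓ) := by
      have f1 : (H : ℝ) ^ N = Real.exp (N * h) := by
        rw [hHh, ← Real.exp_nat_mul]
      have f2 : ((R' : ℝ) ^ (g / 12)) ^ 3 = Real.exp (3 * ((ℓ - h) * (g / 12))) := by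
        rw [hR'eq, ← Real.exp_mul, ← Real.exp_nat_mul]
        push_cast; rfl
      rw [f1, f2]
      have f3 := Real.exp_pos (N * h)
      have f4 := Real.exp_pos (3 * ((ℓ - h) * (g / 12)))
      gcongr
    rw [e1] at hA
    have e3 := hA.trans e2
    rw [← Real.exp_add, ← Real.exp_add, ← Real.exp_add] at e3
    have e4 := Real.exp_le_exp.1 e3
    have e5 : N * h ≤ g / 4 * ℓ := by
      calc N * h ≤ N * (η * ℓ) := by gcongr
        _ = N * η * ℓ := by ring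
        _ ≤ g / 4 * ℓ := by gcongr
    have e6 : ε₀ ≤ g / 64 := by
      rw [hε₀]
      nlinarith
    have e7 : ε₀ * ℓ ≤ g / 64 * ℓ := by gcongr
    have e8 : 0 < g * ℓ := by positivity
    have e9 : 0 ≤ h * g := by positivity
    nlinarith
  · have e1 : Real.exp (n₀ - 3 * ℓ + g * ℓ - ε₀ * ℓ) * Real.exp (h - ε₀ * ℓ) ^ 5 =
        Real.exp (n₀ - 3 * ℓ + g * ℓ + 5 * h - 6 * (ε₀ * ℓ)) := by
      rw [← Real.exp_nat_mul, ← Real.exp_add]
      congr 1; push_cast; ring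
    have e2 : C * (H : ℝ) ^ (5 + g / 12) * Real.exp (n₀ - 3 * ℓ + g * (ℓ - h) + ε₀ * ℓ) ≤
        Real.exp (ε₀ * ℓ) * Real.exp (h * (5 + g / 12)) *
          Real.exp (n₀ - 3 * ℓ + g * (ℓ - h) + ε₀ * ℓ) := by
      have f1 : (H : ℝ) ^ (5 + g / 12) = Real.exp (h * (5 + g / 12)) := by
        rw [hHh, ← Real.exp_mul]
      rw [f1]
      have f3 := Real.exp_pos (h * (5 + g / 12))
      have f4 := Real.exp_pos (n₀ - 3 * ℓ + g * (ℓ - h) + ε₀ * ℓ)
      gcongr
    rw [e1] at hB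
    have e3 := hB.trans e2
    rw [← Real.exp_add, ← Real.exp_add] at e3
    have e4 := Real.exp_le_exp.1 e3
    have e5 : g * h * (11 / 12) ≤ 8 * (ε₀ * ℓ) := by
      have f1 : h * (5 + g / 12) = 5 * h + g * h / 12 := by ring
      have f2 : g * (ℓ - h) = g * ℓ - g * h := by ring
      rw [f1, f2] at e4
      linarith
    have e6 : g * (η / 2 * ℓ) * (11 / 12) ≤ g * h * (11 / 12) := by gcongr
    have e7 : 8 * (ε₀ * ℓ) = g * (η * ℓ) / 4 := by rw [hε₀]; ring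
    have e8 : 0 < g * (η * ℓ) := by positivity
    have e9 : g * (η / 2 * ℓ) * (11 / 12) = 11 / 24 * (g * (η * ℓ)) := by ring
    linarith

open Classical in
/-- **LEMMA A_Q, dyadic form** (`H = 2^k`, `R = 2^M`). -/
theorem lemmaQ_two (hSlab : SlabOne) {g : ℝ} (hg : 0 < g) {η₁ : ℝ} (hη₁ : 0 < η₁) :
    ∃ η ε₀ : ℝ, ∃ M₀ : ℕ, 0 < η ∧ η ≤ η₁ ∧ η ≤ 1 / 2 ∧ 0 < ε₀ ∧
    ∀ {ι : Type} [DecidableEq ι] (I : Finset (ι × ℤ)) (γ v : ι → ℝ → Fin 3 → ℝ) (M k : ℕ)
      (n₀ : ℝ), I.Nonempty → M₀ ≤ M → η / 2 * M ≤ k → (k : ℝ) ≤ η * M →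
      (∀ x ∈ I, |(x.2 : ℝ)| ≤ 2 ^ M ∧ (∀ i, |pt γ (2 ^ M) x i| ≤ 1) ∧ C11 γ v x.1) →
      (∀ x ∈ I, (2 : ℝ) ^ ((M : ℝ) - ε₀ * M) ≤ ((I.filter fun y => y.1 = x.1).card : ℝ)) →
      (∀ x ∈ I, (2 : ℝ) ^ ((k : ℝ) - ε₀ * M) ≤
        ((I.filter fun y => y.1 = x.1 ∧ y.2 / 2 ^ k = x.2 / 2 ^ k).card : ℝ)) →
      (∀ x ∈ I, (2 : ℝ) ^ (n₀ - 3 * M + g * M - ε₀ * M) ≤ ((I.filter fun y => y.2 = x.2 ∧
        ∀ i, |pt γ (2 ^ M) y i - pt γ (2 ^ M) x i| ≤ 1 / 2 ^ M).card : ℝ)) →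
      (∀ x ∈ I, ∀ n : Fin 3 → ℝ, ∑ i, n i ^ 2 = 1 → ∀ E : Fin 2 → Fin 3 → ℝ,
        (∀ a b, ∑ i, E a i * E b i = if a = b then 1 else 0) →
        (∀ a, ∑ i, E a i * n i = 0) → ∀ w : Fin 2 → ℝ, (∀ a, 1 / (2 : ℝ) ^ k ≤ w a ∧ w a ≤ 1) →
        (((I.filter fun y => |(y.2 : ℝ) - x.2| ≤ 2 ^ k ∧ Plk γ v (2 ^ M) (2 ^ k) n E w x y).image
          Prod.fst).card : ℝ) ≤
          (2 : ℝ) ^ (n₀ - 3 * M + g * (M - k) + ε₀ * M) * (w 0 * w 1) * (2 ^ k) ^ 2) →
      ((I.image Prod.fst).card : ℝ) ≤ (2 : ℝ) ^ (n₀ + ε₀ * M) → False := by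
  obtain ⟨η, ε₀, ℓ₀, hη, hηη, hη1, hε, hℓ, key⟩ := lemmaQ_exp hSlab hg hη₁
  have hl2 : 0 < Real.log 2 := Real.log_pos (by norm_num)
  obtain ⟨M₀, hM₀⟩ := exists_nat_ge (ℓ₀ / Real.log 2)
  refine ⟨η, ε₀, M₀, hη, hηη, hη1, hε, ?_⟩
  intro ι _ I γ v M k n₀ hI hM hk1 hk2 hbd hown hw1 hrich hplank hL
  have hpow : ∀ x : ℝ, (2 : ℝ) ^ x = Real.exp (x * Real.log 2) := by
    intro x
    rw [Real.rpow_def_of_pos (by norm_num : (0:ℝ) < 2)]
    congr 1; ring
  have hnat : ∀ j : ℕ, (2 : ℝ) ^ j = Real.exp (j * Real.log 2) := by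
    intro j
    rw [← Real.rpow_natCast, hpow]
  have hkM : k ≤ M := by
    have : (k : ℝ) ≤ M := by
      have : η * M ≤ 1 * M := by gcongr; linarith
      linarith
    exact_mod_cast this
  have hMR : (M₀ : ℝ) ≤ M := by exact_mod_cast hM
  have h1 : ℓ₀ ≤ M * Real.log 2 := by
    rw [div_le_iff₀ hl2] at hM₀
    calc ℓ₀ ≤ M₀ * Real.log 2 := hM₀
      _ ≤ M * Real.log 2 := by gcongr
  refine key I γ v (2 ^ k) (2 ^ (M - k)) (2 ^ M) (M * Real.log 2) (n₀ * Real.log 2)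
    (k * Real.log 2) hI (by positivity) h1 (by
      push_cast
      rw [← pow_add, Nat.add_sub_cancel' hkM]) (hnat M) (by
      push_cast
      exact hnat k)
    (by
      have := mul_le_mul_of_nonneg_right hk1 hl2.le
      linarith)
    (by
      have := mul_le_mul_of_nonneg_right hk2 hl2.le
      linarith) hbd ?_ ?_ ?_ ?_ ?_
  · intro x hx
    refine le_trans (le_of_eq ?_) (hown x hx)
    rw [hpow]; congr 1; ring
  · intro x hx
    refine le_trans (le_of_eq ?_) (le_trans (hw1 x hx) (le_of_eq ?_))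
    · rw [hpow]; congr 1; ring
    · congr 2
  · intro x hx
    refine le_trans (le_of_eq ?_) (hrich x hx)
    rw [hpow]; congr 1; ring
  · intro x hx n hn E hE hEn w hw
    have hw' : ∀ a, 1 / (2 : ℝ) ^ k ≤ w a ∧ w a ≤ 1 := by
      intro a
      have := hw a
      push_cast at this
      exact this
    have := hplank x hx n hn E hE hEn w hw'
    push_cast
    refine le_trans this (le_of_eq ?_)
    rw [hpow]
    congr 3
    ring
  · refine hL.trans (le_of_eq ?_)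
    rw [hpow]; congr 1; ring

end Crest.Agent.R136.HR829
end

-- ▼ part R136/HR1_829
section

/-!
# R136, HRot4 part 1 (helper829): no container, finite form

`nc_fin`: LEMMA A_Q (`lemmaQ_two`) for a finite set of incidences (line, real height) inside one cell
`J0` of level `i`: heights are the left ends of the cells of level `i + M + 1`, windows are cells of
level `i + M + 1 - k`.
-/

set_option autoImplicit false
set_option linter.unusedVariables false
set_option linter.unusedSectionVars false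

namespace Crest.Agent.R136.HR829

open Finset
open Crest.Agent.R136.LmQ861 (C11 pt Plk SlabOne)
open Crest.Agent.R138.Mk163 (zc zl rho alive own)

/-- index of the cell `c` of level `i + M + 1` relative to the middle of the cell `J0` of level `i` -/
def ix (M : ℕ) (J0 c : ℤ) : ℤ := c - J0 * 2 ^ (M + 1) - 2 ^ M

/-- normalised height (in `[-1, 1]`) of the left end of the cell `c` -/
noncomputable def uh (M : ℕ) (J0 c : ℤ) : ℝ := (ix M J0 c : ℝ) / 2 ^ M

theorem zc_div (i k : ℕ) (z : ℝ) : zc (i + k) z / 2 ^ k = zc i z := by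
  unfold zc
  have h : (2 : ℝ) ^ (i + k) * z = (2 : ℝ) ^ k * ((2 : ℝ) ^ i * z) := by rw [pow_add]; ring
  rw [h]
  set y : ℝ := (2 : ℝ) ^ i * z
  have hK : (0 : ℤ) < 2 ^ k := by positivity
  have hKr : (0 : ℝ) < 2 ^ k := by positivity
  apply le_antisymm
  · rw [Int.le_floor]
    have h1 : ⌊(2 : ℝ) ^ k * y⌋ / 2 ^ k * 2 ^ k ≤ ⌊(2 : ℝ) ^ k * y⌋ := Int.ediv_mul_le _ hK.ne'
    have h2 : ((⌊(2 : ℝ) ^ k * y⌋ / 2 ^ k * 2 ^ k : ℤ) : ℝ) ≤ (2 : ℝ) ^ k * y :=
      (Int.cast_le.2 h1).trans (Int.floor_le _)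
    push_cast at h2
    rw [mul_comm] at h2
    exact le_of_mul_le_mul_left h2 hKr
  · rw [Int.le_ediv_iff_mul_le hK, Int.le_floor]
    push_cast
    rw [mul_comm]
    exact mul_le_mul_of_nonneg_left (Int.floor_le _) hKr.le

theorem ix_abs {i M : ℕ} {J0 : ℤ} {z : ℝ} (h : zc i z = J0) :
    |((ix M J0 (zc (i + M + 1) z) : ℤ) : ℝ)| ≤ 2 ^ M := by
  have h1 := zc_div i (M + 1) z
  rw [h, ← add_assoc] at h1
  have hK : (0 : ℤ) < 2 ^ (M + 1) := by positivity
  have h2 := Int.ediv_mul_le (zc (i + M + 1) z) hK.ne'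
  have h3 := Int.lt_ediv_add_one_mul_self (zc (i + M + 1) z) hK
  rw [h1] at h2 h3
  have h4 : |ix M J0 (zc (i + M + 1) z)| ≤ 2 ^ M := by
    unfold ix
    rw [abs_le]
    have h5 : (2 : ℤ) ^ (M + 1) = 2 * 2 ^ M := by ring
    rw [h5] at h2 h3 ⊢
    constructor <;> linarith
  have h6 : ((|ix M J0 (zc (i + M + 1) z)| : ℤ) : ℝ) ≤ ((2 ^ M : ℤ) : ℝ) := by exact_mod_cast h4
  push_cast at h6
  exact h6

/-- the windows of `ix` are cells of level `i + M + 1 - k` -/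
theorem ix_div {i M k : ℕ} (hk : k ≤ M) (J0 : ℤ) (z : ℝ) :
    ix M J0 (zc (i + M + 1) z) / 2 ^ k =
      zc (i + M + 1 - k) z - J0 * 2 ^ (M + 1 - k) - 2 ^ (M - k) := by
  have h1 := zc_div (i + M + 1 - k) k z
  rw [Nat.sub_add_cancel (by omega)] at h1
  have hK : (2 : ℤ) ^ k ≠ 0 := by positivity
  have e1 : (2 : ℤ) ^ (M + 1) = 2 ^ (M + 1 - k) * 2 ^ k := by
    rw [← pow_add]; congr 1; omega
  have e2 : (2 : ℤ) ^ M = 2 ^ (M - k) * 2 ^ k := by
    rw [← pow_add]; congr 1; omega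
  have e3 : ix M J0 (zc (i + M + 1) z) = zc (i + M + 1) z +
      (-(J0 * 2 ^ (M + 1 - k)) - 2 ^ (M - k)) * 2 ^ k := by
    unfold ix
    rw [e1, e2]; ring
  rw [e3, Int.add_mul_ediv_right _ _ hK, h1]
  ring

theorem ix_window {i M k : ℕ} (hk : k ≤ M) (J0 : ℤ) (z z' : ℝ) :
    ix M J0 (zc (i + M + 1) z) / 2 ^ k = ix M J0 (zc (i + M + 1) z') / 2 ^ k ↔
      zc (i + M + 1 - k) z = zc (i + M + 1 - k) z' := by
  rw [ix_div hk, ix_div hk]
  constructor
  · intro h; linarith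
  · intro h; rw [h]

/-- heights at distance `≤ 2^k` lie in neighbouring windows -/
theorem ix_near {i M k : ℕ} (hk : k ≤ M) (J0 : ℤ) (z z' : ℝ)
    (h : |((ix M J0 (zc (i + M + 1) z) : ℤ) : ℝ) - ((ix M J0 (zc (i + M + 1) z') : ℤ) : ℝ)| ≤ 2 ^ k) :
    |zc (i + M + 1 - k) z - zc (i + M + 1 - k) z'| ≤ 1 := by
  have hd := ix_div (i := i) hk J0 z
  have hd' := ix_div (i := i) hk J0 z'
  set a := ix M J0 (zc (i + M + 1) z)
  set b := ix M J0 (zc (i + M + 1) z')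
  have hK : (0 : ℤ) < 2 ^ k := by positivity
  have h1 : |a - b| ≤ 2 ^ k := by
    have : ((|a - b| : ℤ) : ℝ) ≤ ((2 ^ k : ℤ) : ℝ) := by push_cast; exact h
    exact_mod_cast this
  have h2 : |a / 2 ^ k - b / 2 ^ k| ≤ 1 := by
    rw [abs_le] at h1 ⊢
    have a1 := Int.ediv_mul_le a hK.ne'
    have a2 := Int.lt_ediv_add_one_mul_self a hK
    have b1 := Int.ediv_mul_le b hK.ne'
    have b2 := Int.lt_ediv_add_one_mul_self b hK
    constructor
    · by_contra hc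
      push Not at hc
      have : a / 2 ^ k + 1 + 1 ≤ b / 2 ^ k := by omega
      nlinarith
    · by_contra hc
      push Not at hc
      have : b / 2 ^ k + 1 + 1 ≤ a / 2 ^ k := by omega
      nlinarith
  have e : zc (i + M + 1 - k) z - zc (i + M + 1 - k) z' = a / 2 ^ k - b / 2 ^ k := by
    rw [hd, hd']; ring
  rw [e]; exact h2

/-- the discrete incidences -/
noncomputable def inc (F : Finset (ℕ × ℝ)) (i M : ℕ) (J0 : ℤ) : Finset (ℕ × ℤ) :=
  F.image fun x => (x.1, ix M J0 (zc (i + M + 1) x.2))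


open Classical in
/-- cells of the line of `x` in the window of `x` -/
theorem own_le {F : Finset (ℕ × ℝ)} {i M k : ℕ} (hk : k ≤ M) {J0 : ℤ}
    (hJ : ∀ x ∈ F, zc i x.2 = J0) (x : ℕ × ℝ) :
    ((own F (i + M + 1 - k) (i + M + 1) x).card : ℝ) ≤
      (((inc F i M J0).filter fun y => y.1 = x.1 ∧
        y.2 / 2 ^ k = ix M J0 (zc (i + M + 1) x.2) / 2 ^ k).card : ℝ) := by
  have : own F (i + M + 1 - k) (i + M + 1) x ⊆
      ((inc F i M J0).filter fun y => y.1 = x.1 ∧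
        y.2 / 2 ^ k = ix M J0 (zc (i + M + 1) x.2) / 2 ^ k).image
          fun y => y.2 + J0 * 2 ^ (M + 1) + 2 ^ M := by
    intro c hc
    unfold own at hc
    rw [mem_image] at hc
    obtain ⟨y, hy, rfl⟩ := hc
    rw [mem_filter] at hy
    rw [mem_image]
    refine ⟨(y.1, ix M J0 (zc (i + M + 1) y.2)), ?_, ?_⟩
    · rw [mem_filter]
      refine ⟨mem_image.2 ⟨y, hy.1, rfl⟩, hy.2.1, ?_⟩
      exact (ix_window hk J0 _ _).2 hy.2.2
    · simp only [ix]; ring
  exact_mod_cast (card_le_card this).trans card_image_le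

open Classical in
/-- all cells of the line of `x` -/
theorem own_le' {F : Finset (ℕ × ℝ)} {i M : ℕ} {J0 : ℤ}
    (hJ : ∀ x ∈ F, zc i x.2 = J0) (x : ℕ × ℝ) :
    ((own F i (i + M + 1) x).card : ℝ) ≤
      (((inc F i M J0).filter fun y => y.1 = x.1).card : ℝ) := by
  have : own F i (i + M + 1) x ⊆
      ((inc F i M J0).filter fun y => y.1 = x.1).image
          fun y => y.2 + J0 * 2 ^ (M + 1) + 2 ^ M := by
    intro c hc
    unfold own at hc
    rw [mem_image] at hc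
    obtain ⟨y, hy, rfl⟩ := hc
    rw [mem_filter] at hy
    rw [mem_image]
    refine ⟨(y.1, ix M J0 (zc (i + M + 1) y.2)), ?_, ?_⟩
    · rw [mem_filter]
      exact ⟨mem_image.2 ⟨y, hy.1, rfl⟩, hy.2.1⟩
    · simp only [ix]; ring
  exact_mod_cast (card_le_card this).trans card_image_le

open Classical in
/-- **no container, finite form.** -/
theorem nc_fin (hSlab : SlabOne) {g : ℝ} (hg : 0 < g) {η₁ : ℝ} (hη₁ : 0 < η₁) :
    ∃ η ε₀ : ℝ, ∃ M₀ : ℕ, 0 < η ∧ η ≤ η₁ ∧ η ≤ 1 / 2 ∧ 0 < ε₀ ∧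
    ∀ (F : Finset (ℕ × ℝ)) (γ v : ℕ → ℝ → Fin 3 → ℝ) (i M k : ℕ) (J0 : ℤ) (n₀ : ℝ),
      F.Nonempty → M₀ ≤ M → η / 2 * M ≤ k → (k : ℝ) ≤ η * M →
      (∀ x ∈ F, zc i x.2 = J0) →
      (∀ x ∈ F, C11 γ v x.1 ∧ ∀ z : ℝ, |z| ≤ 1 → ∀ a, |γ x.1 z a| ≤ 1) →
      (∀ x ∈ F, (2 : ℝ) ^ ((M : ℝ) - ε₀ * M) ≤ ((own F i (i + M + 1) x).card : ℝ)) →
      (∀ x ∈ F, (2 : ℝ) ^ ((k : ℝ) - ε₀ * M) ≤
        ((own F (i + M + 1 - k) (i + M + 1) x).card : ℝ)) →
      (∀ x ∈ F, (2 : ℝ) ^ (n₀ - 3 * M + g * M - ε₀ * M) ≤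
        (((alive F (i + M + 1) (zc (i + M + 1) x.2)).filter fun t =>
          ∀ a, |γ t (uh M J0 (zc (i + M + 1) x.2)) a - γ x.1 (uh M J0 (zc (i + M + 1) x.2)) a| ≤
            1 / 2 ^ M).card : ℝ)) →
      (∀ x ∈ F, ∀ J1 : ℤ, |J1 - zc (i + M + 1 - k) x.2| ≤ 1 →
        ∀ n : Fin 3 → ℝ, ∑ i, n i ^ 2 = 1 → ∀ E : Fin 2 → Fin 3 → ℝ,
        (∀ a b, ∑ i, E a i * E b i = if a = b then 1 else 0) →
        (∀ a, ∑ i, E a i * n i = 0) → ∀ w : Fin 2 → ℝ, (∀ a, 1 / (2 : ℝ) ^ k ≤ w a ∧ w a ≤ 1) →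
        (((alive F (i + M + 1 - k) J1).filter fun t =>
          Plk γ v (2 ^ M) (2 ^ k) n E w (x.1, ix M J0 (zc (i + M + 1) x.2)) (t, 0)).card : ℝ) ≤
          (2 : ℝ) ^ (n₀ - 3 * M + g * (M - k) + ε₀ * M) * (w 0 * w 1) * (2 ^ k) ^ 2) →
      ((F.image Prod.fst).card : ℝ) ≤ (2 : ℝ) ^ (n₀ + ε₀ * M) → False := by
  obtain ⟨η, ε₀, M₀, hη, hηη, hη1, hε, key⟩ := lemmaQ_two hSlab hg hη₁
  obtain ⟨M₁, hM₁⟩ := exists_nat_ge (2 / (ε₀ / 2))
  refine ⟨η, ε₀ / 2, max M₀ M₁, hη, hηη, hη1, by positivity, ?_⟩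
  intro F γ v i M k J0 n₀ hF hM hk1 hk2 hJ hcur hown hwin hrich hplank hL
  have hM0 : M₀ ≤ M := (le_max_left _ _).trans hM
  have hkM : k ≤ M := by
    have : (k : ℝ) ≤ M := by
      have : η * M ≤ 1 * M := by gcongr; linarith
      linarith
    exact_mod_cast this
  have h4 : (4 : ℝ) ≤ 2 ^ (ε₀ / 2 * M) := by
    have h5 : (2 : ℝ) ≤ ε₀ / 2 * M := by
      have h6 : (M₁ : ℝ) ≤ M := by exact_mod_cast (le_max_right M₀ M₁).trans hM
      rw [div_le_iff₀ (by positivity)] at hM₁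
      nlinarith
    calc (4 : ℝ) = 2 ^ (2 : ℝ) := by norm_num
      _ ≤ 2 ^ (ε₀ / 2 * M) := Real.rpow_le_rpow_of_exponent_le (by norm_num) h5
  have hmono : ∀ {a b : ℝ}, a ≤ b → (2 : ℝ) ^ a ≤ 2 ^ b := fun h =>
    Real.rpow_le_rpow_of_exponent_le (by norm_num) h
  have hε0 : 0 ≤ ε₀ * M := by positivity
  -- membership
  have mem : ∀ y ∈ inc F i M J0, ∃ x ∈ F, x.1 = y.1 ∧ ix M J0 (zc (i + M + 1) x.2) = y.2 := by
    intro y hy
    unfold inc at hy
    rw [mem_image] at hy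
    obtain ⟨x, hx, rfl⟩ := hy
    exact ⟨x, hx, rfl, rfl⟩
  refine key (inc F i M J0) γ v M k n₀ (hF.image _) hM0 hk1 hk2 ?_ ?_ ?_ ?_ ?_ ?_
  · intro y hy
    obtain ⟨x, hx, h1, h2⟩ := mem y hy
    have h3 : |((y.2 : ℤ) : ℝ)| ≤ 2 ^ M := by rw [← h2]; exact ix_abs (hJ x hx)
    refine ⟨h3, ?_, ?_⟩
    · intro a
      unfold pt
      rw [← h1]
      refine (hcur x hx).2 _ ?_ a
      rw [abs_div, abs_of_pos (by positivity : (0:ℝ) < 2 ^ M), div_le_one (by positivity)]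
      exact h3
    · rw [← h1]; exact (hcur x hx).1
  · intro y hy
    obtain ⟨x, hx, h1, h2⟩ := mem y hy
    have h3 := (hown x hx).trans (own_le' hJ x)
    rw [h1] at h3
    refine (hmono ?_).trans h3
    linarith
  · intro y hy
    obtain ⟨x, hx, h1, h2⟩ := mem y hy
    have h3 := (hwin x hx).trans (own_le hkM hJ x)
    rw [h1, h2] at h3
    refine (hmono ?_).trans h3
    linarith
  · intro y hy
    obtain ⟨x, hx, h1, h2⟩ := mem y hy
    refine (hmono ?_).trans ((hrich x hx).trans ?_)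
    · linarith
    · have hsub : ((alive F (i + M + 1) (zc (i + M + 1) x.2)).filter fun t =>
          ∀ a, |γ t (uh M J0 (zc (i + M + 1) x.2)) a - γ x.1 (uh M J0 (zc (i + M + 1) x.2)) a| ≤
            1 / 2 ^ M) ⊆ ((inc F i M J0).filter fun y' => y'.2 = y.2 ∧
          ∀ a, |pt γ (2 ^ M) y' a - pt γ (2 ^ M) y a| ≤ 1 / 2 ^ M).image Prod.fst := by
        intro t ht
        rw [mem_filter] at ht
        obtain ⟨ht1, ht2⟩ := ht
        unfold alive at ht1
        rw [mem_image] at ht1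
        obtain ⟨x', hx', rfl⟩ := ht1
        rw [mem_filter] at hx'
        rw [mem_image]
        refine ⟨(x'.1, ix M J0 (zc (i + M + 1) x'.2)), ?_, rfl⟩
        rw [mem_filter]
        refine ⟨mem_image.2 ⟨x', hx'.1, rfl⟩, ?_, ?_⟩
        · change ix M J0 (zc (i + M + 1) x'.2) = y.2
          rw [hx'.2, h2]
        · intro a
          have := ht2 a
          unfold pt
          change |γ x'.1 ((ix M J0 (zc (i + M + 1) x'.2) : ℝ) / 2 ^ M) a -
            γ y.1 ((y.2 : ℝ) / 2 ^ M) a| ≤ 1 / 2 ^ M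
          rw [hx'.2, ← h1, ← h2]
          exact this
      exact_mod_cast (card_le_card hsub).trans card_image_le
  · intro y hy n hn E hE hEn w hw
    obtain ⟨x, hx, h1, h2⟩ := mem y hy
    have hy' : y = (x.1, ix M J0 (zc (i + M + 1) x.2)) := by
      rw [h1, h2]
    set c := zc (i + M + 1 - k) x.2 with hc
    have hsub : (((inc F i M J0).filter fun y' => |(y'.2 : ℝ) - y.2| ≤ 2 ^ k ∧
        Plk γ v (2 ^ M) (2 ^ k) n E w y y').image Prod.fst) ⊆
        (({c - 1, c, c + 1} : Finset ℤ).biUnion fun J1 =>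
          (alive F (i + M + 1 - k) J1).filter fun t =>
          Plk γ v (2 ^ M) (2 ^ k) n E w (x.1, ix M J0 (zc (i + M + 1) x.2)) (t, 0)) := by
      intro t ht
      rw [mem_image] at ht
      obtain ⟨y', hy'1, rfl⟩ := ht
      rw [mem_filter] at hy'1
      obtain ⟨m1, m2, m3⟩ := hy'1
      obtain ⟨x', hx', h1', h2'⟩ := mem y' m1
      rw [← h2', ← h2] at m2
      have m4 := ix_near hkM J0 _ _ m2
      rw [mem_biUnion]
      refine ⟨zc (i + M + 1 - k) x'.2, ?_, ?_⟩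
      · rw [abs_le] at m4
        simp only [mem_insert, mem_singleton]
        rw [hc]
        omega
      · rw [mem_filter]
        refine ⟨?_, ?_⟩
        · unfold alive
          rw [mem_image]
          exact ⟨x', mem_filter.2 ⟨hx', rfl⟩, h1'⟩
        · rw [← hy']
          exact m3
    have hb : ∀ J1 ∈ ({c - 1, c, c + 1} : Finset ℤ),
        (((alive F (i + M + 1 - k) J1).filter fun t =>
          Plk γ v (2 ^ M) (2 ^ k) n E w (x.1, ix M J0 (zc (i + M + 1) x.2)) (t, 0)).card : ℝ) ≤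
          (2 : ℝ) ^ (n₀ - 3 * M + g * (M - k) + ε₀ / 2 * M) * (w 0 * w 1) * (2 ^ k) ^ 2 := by
      intro J1 hJ1
      refine hplank x hx J1 ?_ n hn E hE hEn w hw
      simp only [mem_insert, mem_singleton] at hJ1
      rw [abs_le]
      rw [hc] at hJ1
      omega
    have hcard : ((({c - 1, c, c + 1} : Finset ℤ).biUnion fun J1 =>
          (alive F (i + M + 1 - k) J1).filter fun t =>
          Plk γ v (2 ^ M) (2 ^ k) n E w (x.1, ix M J0 (zc (i + M + 1) x.2)) (t, 0)).card : ℝ) ≤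
        3 * ((2 : ℝ) ^ (n₀ - 3 * M + g * (M - k) + ε₀ / 2 * M) * (w 0 * w 1) * (2 ^ k) ^ 2) := by
      have c1 : ((({c - 1, c, c + 1} : Finset ℤ).biUnion fun J1 =>
          (alive F (i + M + 1 - k) J1).filter fun t =>
          Plk γ v (2 ^ M) (2 ^ k) n E w (x.1, ix M J0 (zc (i + M + 1) x.2)) (t, 0)).card : ℝ) ≤
          ∑ J1 ∈ ({c - 1, c, c + 1} : Finset ℤ), (((alive F (i + M + 1 - k) J1).filter fun t =>
          Plk γ v (2 ^ M) (2 ^ k) n E w (x.1, ix M J0 (zc (i + M + 1) x.2)) (t, 0)).card : ℝ) := by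
        exact_mod_cast card_biUnion_le
      refine c1.trans ((sum_le_sum hb).trans ?_)
      rw [sum_const, nsmul_eq_mul]
      refine mul_le_mul_of_nonneg_right ?_ ?_
      · have : ({c - 1, c, c + 1} : Finset ℤ).card ≤ 3 := card_le_three
        exact_mod_cast this
      · have := (hw 0).1
        have := (hw 1).1
        have e0 : (0:ℝ) ≤ 1 / 2 ^ k := by positivity
        have : 0 ≤ w 0 := e0.trans (hw 0).1
        have : 0 ≤ w 1 := e0.trans (hw 1).1
        positivity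
    have hsub' := card_le_card hsub
    refine (Nat.cast_le.2 hsub').trans (hcard.trans ?_)
    have e0 : (0:ℝ) ≤ 1 / 2 ^ k := by positivity
    have w0 : 0 ≤ w 0 := e0.trans (hw 0).1
    have w1 : 0 ≤ w 1 := e0.trans (hw 1).1
    have e1 : (2 : ℝ) ^ (n₀ - 3 * M + g * (M - k) + ε₀ * M) =
        2 ^ (ε₀ / 2 * M) * 2 ^ (n₀ - 3 * M + g * (M - k) + ε₀ / 2 * M) := by
      rw [← Real.rpow_add (by norm_num)]; congr 1; ring
    rw [e1]
    have e2 : (0:ℝ) ≤ 2 ^ (n₀ - 3 * M + g * (M - k) + ε₀ / 2 * M) * (w 0 * w 1) * (2 ^ k) ^ 2 := by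
      positivity
    nlinarith
  · refine le_trans ?_ (hL.trans (hmono ?_))
    · have : (inc F i M J0).image Prod.fst ⊆ F.image Prod.fst := by
        intro t ht
        rw [mem_image] at ht
        obtain ⟨y, hy, rfl⟩ := ht
        obtain ⟨x, hx, h1, -⟩ := mem y hy
        exact mem_image.2 ⟨x, hx, h1⟩
      exact_mod_cast card_le_card this
    · linarith

end Crest.Agent.R136.HR829
end

-- ▼ part R136/Slb2_480
section

/-!
# R136: frames of `ℝ³`, projection along a unit vector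
-/

set_option autoImplicit false

open Set Metric
open scoped InnerProductSpace

namespace Crest.Agent.R136.Slb480

open Crest.Agent.R138.Defs (E2)

/-- `ℝ³`. -/
abbrev E3 := EuclideanSpace ℝ (Fin 3)

/-- projection to the first two vectors of the frame. -/
noncomputable def prj (B : OrthonormalBasis (Fin 3) ℝ E3) (x : E3) : E2 :=
  WithLp.toLp 2 ![⟪B 0, x⟫_ℝ, ⟪B 1, x⟫_ℝ]

/-- section. -/
noncomputable def sec (B : OrthonormalBasis (Fin 3) ℝ E3) (a : E2) : E3 := a 0 • B 0 + a 1 • B 1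

theorem prj_sub (B : OrthonormalBasis (Fin 3) ℝ E3) (x y : E3) :
    prj B (x - y) = prj B x - prj B y := by
  unfold prj
  ext i
  fin_cases i <;> simp [inner_sub_right]

theorem prj_add (B : OrthonormalBasis (Fin 3) ℝ E3) (x y : E3) :
    prj B (x + y) = prj B x + prj B y := by
  unfold prj
  ext i
  fin_cases i <;> simp [inner_add_right]

theorem prj_smul (B : OrthonormalBasis (Fin 3) ℝ E3) (c : ℝ) (x : E3) :
    prj B (c • x) = c • prj B x := by
  unfold prj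
  ext i
  fin_cases i <;> simp [inner_smul_right]

theorem norm_prj_le (B : OrthonormalBasis (Fin 3) ℝ E3) (x : E3) : ‖prj B x‖ ≤ ‖x‖ := by
  have h1 : ‖prj B x‖ ^ 2 = ⟪B 0, x⟫_ℝ ^ 2 + ⟪B 1, x⟫_ℝ ^ 2 := by
    rw [EuclideanSpace.norm_sq_eq]
    simp [prj, Fin.sum_univ_two]
  have h2 := B.sum_sq_norm_inner_right x
  rw [Fin.sum_univ_three] at h2
  simp only [Real.norm_eq_abs, sq_abs] at h2
  have h3 : ‖prj B x‖ ^ 2 ≤ ‖x‖ ^ 2 := by
    rw [h1, ← h2]
    nlinarith [sq_nonneg (⟪B 2, x⟫_ℝ)]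
  exact le_of_sq_le_sq h3 (norm_nonneg _) 

theorem inner2 (a b : E2) : ⟪a, b⟫_ℝ = a 0 * b 0 + a 1 * b 1 := by
  rw [PiLp.inner_apply, Fin.sum_univ_two]
  simp [mul_comm]

theorem inner_sec (B : OrthonormalBasis (Fin 3) ℝ E3) (a : E2) (x : E3) :
    ⟪sec B a, x⟫_ℝ = ⟪a, prj B x⟫_ℝ := by
  rw [inner2]
  unfold sec prj
  rw [inner_add_left, real_inner_smul_left, real_inner_smul_left]
  rfl

theorem prj_sec (B : OrthonormalBasis (Fin 3) ℝ E3) (a : E2) : prj B (sec B a) = a := by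
  have h := B.orthonormal
  rw [orthonormal_iff_ite] at h
  unfold prj sec
  ext i
  fin_cases i
  · simp [inner_add_right, inner_smul_right, h]
  · simp [inner_add_right, inner_smul_right, h]

theorem inner_sec_sec (B : OrthonormalBasis (Fin 3) ℝ E3) (a a' : E2) :
    ⟪sec B a, sec B a'⟫_ℝ = ⟪a, a'⟫_ℝ := by
  rw [inner_sec, prj_sec]

theorem inner_sec_two (B : OrthonormalBasis (Fin 3) ℝ E3) (a : E2) : ⟪sec B a, B 2⟫_ℝ = 0 := by
  have h := B.orthonormal
  rw [orthonormal_iff_ite] at h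
  unfold sec
  rw [inner_add_left, inner_smul_left, inner_smul_left, h, h]
  simp

/-- a frame with third vector `n`. -/
theorem exists_frame {n : E3} (hn : ‖n‖ = 1) : ∃ B : OrthonormalBasis (Fin 3) ℝ E3, B 2 = n := by
  have h : Orthonormal ℝ (({2} : Set (Fin 3)).domRestrict fun _ : Fin 3 => n) := by
    rw [orthonormal_iff_ite]
    rintro ⟨i, hi⟩ ⟨j, hj⟩
    simp only [Set.mem_singleton_iff] at hi hj
    subst hi
    subst hj
    show ⟪n, n⟫_ℝ = _
    rw [real_inner_self_eq_norm_sq, hn]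
    simp
  obtain ⟨b, hb⟩ := h.exists_orthonormalBasis_extension_of_card_eq (by simp)
  exact ⟨b, hb 2 rfl⟩

/-- the frame of `ℝ³` given by a frame of the plane. -/
theorem exists_lift (B : OrthonormalBasis (Fin 3) ℝ E3) (b : OrthonormalBasis (Fin 2) ℝ E2) :
    ∃ b' : OrthonormalBasis (Fin 3) ℝ E3, b' 0 = sec B (b 0) ∧ b' 1 = sec B (b 1) ∧ b' 2 = B 2 := by
  set c : Fin 3 → E3 := ![sec B (b 0), sec B (b 1), B 2] with hc
  have hb := b.orthonormal
  rw [orthonormal_iff_ite] at hb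
  have hB := B.orthonormal
  rw [orthonormal_iff_ite] at hB
  have h0 : Orthonormal ℝ c := by
    rw [orthonormal_iff_ite]
    intro i j
    have h2 : ∀ a, ⟪B 2, sec B a⟫_ℝ = 0 := fun a => by
      rw [real_inner_comm]; exact inner_sec_two B a
    have h22 : ⟪B 2, B 2⟫_ℝ = 1 := by rw [hB]; simp
    fin_cases i <;> fin_cases j
    · show ⟪sec B (b 0), sec B (b 0)⟫_ℝ = _
      rw [inner_sec_sec, hb]; simp
    · show ⟪sec B (b 0), sec B (b 1)⟫_ℝ = _
      rw [inner_sec_sec, hb]; simp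
    · show ⟪sec B (b 0), B 2⟫_ℝ = _
      rw [inner_sec_two]; simp
    · show ⟪sec B (b 1), sec B (b 0)⟫_ℝ = _
      rw [inner_sec_sec, hb]; simp
    · show ⟪sec B (b 1), sec B (b 1)⟫_ℝ = _
      rw [inner_sec_sec, hb]; simp
    · show ⟪sec B (b 1), B 2⟫_ℝ = _
      rw [inner_sec_two]; simp
    · show ⟪B 2, sec B (b 0)⟫_ℝ = _
      rw [h2]; simp
    · show ⟪B 2, sec B (b 1)⟫_ℝ = _
      rw [h2]; simp
    · show ⟪B 2, B 2⟫_ℝ = _
      rw [h22]; simp
  have h : Orthonormal ℝ ((Set.univ : Set (Fin 3)).domRestrict c) :=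
    h0.comp Subtype.val Subtype.val_injective
  obtain ⟨b', hb'⟩ := h.exists_orthonormalBasis_extension_of_card_eq (by simp)
  exact ⟨b', hb' 0 (Set.mem_univ _), hb' 1 (Set.mem_univ _), hb' 2 (Set.mem_univ _)⟩

end Crest.Agent.R136.Slb480
end

-- ▼ part R136/SlbO_480
section

/-!
# R136, Lemma A_Q: the one-slab lemma `SlabOne` (LmQ3_861) from Kakeya in `ℝ³`
-/

set_option autoImplicit false

open Set Metric
open scoped InnerProductSpace

namespace Crest.Agent.R136.Slb480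

open Crest.Agent.R138.Defs (E2)
open Crest.Agent.R136.LmQ861 (C11 cell Plk SlabOne)

theorem inner3 (u : E3) (a : Fin 3 → ℝ) : ⟪u, (WithLp.toLp 2 a : E3)⟫_ℝ = ∑ i, u i * a i := by
  rw [PiLp.inner_apply]
  simp [mul_comm]

theorem norm3_le {a : Fin 3 → ℝ} {M : ℝ} (h : ∀ i, |a i| ≤ M) :
    ‖(WithLp.toLp 2 a : E3)‖ ≤ 3 * M := by
  have hM : 0 ≤ M := (abs_nonneg _).trans (h 0)
  have h1 : ‖(WithLp.toLp 2 a : E3)‖ ^ 2 ≤ (3 * M) ^ 2 := by
    rw [EuclideanSpace.norm_sq_eq]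
    calc ∑ i, ‖(WithLp.toLp 2 a : E3) i‖ ^ 2 ≤ ∑ _i : Fin 3, M ^ 2 := by
          refine Finset.sum_le_sum fun i _ => ?_
          have : ‖(WithLp.toLp 2 a : E3) i‖ ≤ M := h i
          gcongr
      _ = 3 * M ^ 2 := by simp
      _ ≤ _ := by nlinarith [sq_nonneg M]
  exact le_of_sq_le_sq h1 (by positivity)

theorem lin_pos {u : E3} (hu : ‖u‖ = 1) {X X0 V0 e : E3} {τ a c h d : ℝ}
    (hX : X = X0 + τ • V0 + e) (h1 : |⟪u, X0⟫_ℝ| ≤ a) (h2 : |⟪u, V0⟫_ℝ| ≤ c) (h3 : |τ| ≤ h)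
    (h4 : ‖e‖ ≤ d) : |⟪u, X⟫_ℝ| ≤ a + h * c + d := by
  have h5 : |⟪u, e⟫_ℝ| ≤ d := by
    refine (abs_real_inner_le_norm u e).trans ?_
    rw [hu, one_mul]
    exact h4
  rw [hX, inner_add_right, inner_add_right, inner_smul_right]
  have h6 : |τ * ⟪u, V0⟫_ℝ| ≤ h * c := by
    rw [abs_mul]
    exact mul_le_mul h3 h2 (abs_nonneg _) ((abs_nonneg _).trans h3)
  calc _ ≤ |⟪u, X0⟫_ℝ + τ * ⟪u, V0⟫_ℝ| + |⟪u, e⟫_ℝ| := abs_add_le _ _
    _ ≤ |⟪u, X0⟫_ℝ| + |τ * ⟪u, V0⟫_ℝ| + |⟪u, e⟫_ℝ| := by gcongr; exact abs_add_le _ _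
    _ ≤ _ := by linarith

theorem inpl_diff {b : OrthonormalBasis (Fin 2) ℝ E2} {s : Fin 2 → ℝ} {p0 v0 p v p' v' : E2}
    (h : Crest.Agent.R138.Tub70.InPl b s p0 v0 p v)
    (h' : Crest.Agent.R138.Tub70.InPl b s p0 v0 p' v') (j : Fin 2) :
    |⟪b j, p - p'⟫_ℝ| ≤ 2 * s j ∧ |⟪b j, v - v'⟫_ℝ| ≤ 2 * s j := by
  have e : ∀ (p v : E2) (z : ℝ), inner ℝ (p - p0 + z • (v - v0)) (b j) =
      ⟪b j, p - p0⟫_ℝ + z * ⟪b j, v - v0⟫_ℝ := by
    intro p v z
    rw [real_inner_comm, inner_add_right, inner_smul_right]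
  have key : ∀ {p v : E2}, Crest.Agent.R138.Tub70.InPl b s p0 v0 p v →
      |⟪b j, p - p0⟫_ℝ| ≤ s j ∧ |⟪b j, v - v0⟫_ℝ| ≤ s j := by
    intro p v h
    have h0 := h 0 (by norm_num) j
    have h1 := h 1 (by norm_num) j
    have h2 := h (-1) (by norm_num) j
    rw [e] at h0 h1 h2
    rw [zero_mul, add_zero] at h0
    rw [abs_le] at h1 h2
    refine ⟨h0, ?_⟩
    rw [abs_le]
    constructor
    · linarith [h1.1, h2.2]
    · linarith [h1.2, h2.1]
  obtain ⟨a1, a2⟩ := key h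
  obtain ⟨a3, a4⟩ := key h'
  have e1 : ⟪b j, p - p'⟫_ℝ = ⟪b j, p - p0⟫_ℝ - ⟪b j, p' - p0⟫_ℝ := by
    rw [← inner_sub_right]
    congr 1
    abel
  have e2 : ⟪b j, v - v'⟫_ℝ = ⟪b j, v - v0⟫_ℝ - ⟪b j, v' - v0⟫_ℝ := by
    rw [← inner_sub_right]
    congr 1
    abel
  rw [e1, e2]
  rw [abs_le] at a1 a2 a3 a4
  constructor
  · rw [abs_le]; constructor <;> linarith [a1.1, a1.2, a3.1, a3.2]
  · rw [abs_le]; constructor <;> linarith [a2.1, a2.2, a4.1, a4.2]

set_option maxHeartbeats 1600000 in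
open Classical in
/-- **the one-slab lemma**. -/
theorem slabOne (hKM : ∀ V : ℝ, Crest.Agent.R138.Tub70.KM32 V) : SlabOne := by
  intro ε hε
  obtain ⟨C1, hC1, key⟩ := km3_core hKM 24 9 (by norm_num) (by norm_num) ε hε
  refine ⟨C1 + 34 ^ 2, by positivity, ?_⟩
  intro ι _ J γ v H R j0 n θ θ' D hJ hH hHR hθ hθ' hD hn hj0 hbd hbox hn1 hn2 hrich hline hpl
  have hH1 : (1 : ℝ) ≤ H := by exact_mod_cast hH
  have hH0 : (0 : ℝ) < H := by linarith
  have hR1 : 1 ≤ R := by nlinarith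
  have hR0 : 0 < R := by linarith
  set z0 : ℝ := (j0 : ℝ) / R with hz0
  have hz0b : |z0| ≤ 2 := by
    rw [hz0, abs_div, abs_of_pos hR0, div_le_iff₀ hR0]
    linarith
  have hzb : ∀ x ∈ J, |((x.2 : ℝ) / R)| ≤ 2 := by
    intro x hx
    rw [abs_div, abs_of_pos hR0, div_le_iff₀ hR0]
    linarith [(hbd x hx).2.1]
  have hzz : ∀ x ∈ J, |(x.2 : ℝ) / R - z0| ≤ H / R := by
    intro x hx
    rw [hz0, ← sub_div, abs_div, abs_of_pos hR0]
    gcongr
    have h1 := (hbd x hx).2.2.1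
    have h2 := (hbd x hx).2.2.2
    rw [abs_le]
    have h1' : (j0 : ℝ) ≤ x.2 := by exact_mod_cast h1
    have h2' : (x.2 : ℝ) < j0 + H := by exact_mod_cast h2
    constructor <;> linarith
  have hHR1 : (H : ℝ) / R ≤ 1 / H := by
    rw [div_le_div_iff₀ hR0 hH0]
    nlinarith
  have hHR2 : ((H : ℝ) / R) ^ 2 ≤ 1 / R := by
    rw [div_pow, div_le_div_iff₀ (by positivity) hR0]
    nlinarith
  -- the curves as curves in `E3`
  set X : ι → ℝ → E3 := fun l z => WithLp.toLp 2 (γ l z) with hX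
  set W : ι → ℝ → E3 := fun l z => WithLp.toLp 2 (v l z) with hW
  set N : E3 := WithLp.toLp 2 n with hN
  have hNn : ‖N‖ = 1 := by
    have : ‖N‖ ^ 2 = 1 := by
      rw [EuclideanSpace.norm_sq_eq]
      rw [← hn]
      refine Finset.sum_congr rfl fun i _ => ?_
      rw [Real.norm_eq_abs, sq_abs]
    have h0 := norm_nonneg N
    nlinarith
  have hXd : ∀ l l' z z', X l z - X l' z' = WithLp.toLp 2 (fun i => γ l z i - γ l' z' i) := by
    intro l l' z z'; rfl
  have hWd : ∀ l l' z z', W l z - W l' z' = WithLp.toLp 2 (fun i => v l z i - v l' z' i) := by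
    intro l l' z z'; rfl
  -- straightness
  have hst : ∀ y ∈ J, ∀ x ∈ J, ‖X y.1 (x.2 / R) - X y.1 z0 - ((x.2 : ℝ) / R - z0) • W y.1 z0‖ ≤
      3 / R := by
    intro y hy x hx
    have h1 := (hbd y hy).1.2.1 z0 (x.2 / R) hz0b (hzb x hx)
    have h2 : X y.1 (x.2 / R) - X y.1 z0 - ((x.2 : ℝ) / R - z0) • W y.1 z0 =
        WithLp.toLp 2 (fun i => γ y.1 (x.2 / R) i - γ y.1 z0 i -
          ((x.2 : ℝ) / R - z0) * v y.1 z0 i) := by rfl
    rw [h2]
    refine (norm3_le (M := 1 / R) fun i => (h1 i).trans ?_).trans (le_of_eq (by ring))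
    refine le_trans ?_ hHR2
    rw [← sq_abs]
    have := hzz x hx
    gcongr
  have hdv : ∀ y ∈ J, ∀ x ∈ J, ‖W y.1 (x.2 / R) - W y.1 z0‖ ≤ 3 / H := by
    intro y hy x hx
    have h1 := (hbd y hy).1.2.2 z0 (x.2 / R) hz0b (hzb x hx)
    rw [hWd]
    refine (norm3_le (M := 1 / H) fun i => (h1 i).trans ?_).trans (le_of_eq (by ring))
    exact (hzz x hx).trans hHR1
  set L : Finset ι := J.image Prod.fst with hL
  have hLJ : ∀ l ∈ L, ∃ y ∈ J, y.1 = l := fun l hl => by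
    obtain ⟨y, hy, he⟩ := Finset.mem_image.1 hl
    exact ⟨y, hy, he⟩
  have hLpos : 0 < (L.card : ℝ) := by exact_mod_cast (hJ.image _).card_pos
  -- membership in planks
  have hmem : ∀ (b' : OrthonormalBasis (Fin 3) ℝ E3) (w : Fin 2 → ℝ),
      b' 2 = N → (∀ a, 1 / (H : ℝ) ≤ w a ∧ w a ≤ 1) → ∀ x ∈ J, ∀ y ∈ J,
      (∀ a : Fin 2, |⟪b' a.castSucc, X y.1 z0 - X x.1 z0⟫_ℝ| ≤ 24 * w a * (H / R)) →
      (∀ a : Fin 2, |⟪b' a.castSucc, W y.1 z0 - W x.1 z0⟫_ℝ| ≤ 12 * w a) →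
      Plk γ v R H n (fun a i => b' a.castSucc i) w x y := by
    intro b' w hb2 hw x hx y hy hp hv
    set z1 : ℝ := (x.2 : ℝ) / R with hz1
    have hX1 : X y.1 z1 - X x.1 z1 = (X y.1 z0 - X x.1 z0) + (z1 - z0) • (W y.1 z0 - W x.1 z0) +
        ((X y.1 z1 - X y.1 z0 - (z1 - z0) • W y.1 z0) -
          (X x.1 z1 - X x.1 z0 - (z1 - z0) • W x.1 z0)) := by module
    have hW1 : W y.1 z1 - W x.1 z1 = (W y.1 z0 - W x.1 z0) + (0 : ℝ) • (0 : E3) +
        ((W y.1 z1 - W y.1 z0) - (W x.1 z1 - W x.1 z0)) := by module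
    have he1 : ‖(X y.1 z1 - X y.1 z0 - (z1 - z0) • W y.1 z0) -
          (X x.1 z1 - X x.1 z0 - (z1 - z0) • W x.1 z0)‖ ≤ 6 / R := by
      refine (norm_sub_le _ _).trans ?_
      have a1 := hst y hy x hx
      have a2 := hst x hx x hx
      calc _ ≤ 3 / R + 3 / R := add_le_add a1 a2
        _ = _ := by ring
    have he2 : ‖(W y.1 z1 - W y.1 z0) - (W x.1 z1 - W x.1 z0)‖ ≤ 6 / H := by
      refine (norm_sub_le _ _).trans ?_
      have a1 := hdv y hy x hx
      have a2 := hdv x hx x hx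
      calc _ ≤ 3 / (H : ℝ) + 3 / H := add_le_add a1 a2
        _ = _ := by ring
    have hN1 : |⟪N, X y.1 z0 - X x.1 z0⟫_ℝ| ≤ 1 / R := by
      rw [hXd, inner3]
      exact hn1 x hx y hy
    have hN2 : |⟪N, W y.1 z0 - W x.1 z0⟫_ℝ| ≤ 2 / H := by
      rw [hWd, inner3]
      exact hn2 x hx y hy
    have hz := hzz x hx
    refine ⟨?_, ?_, fun a => ⟨?_, ?_⟩⟩
    · have h1 := lin_pos hNn hX1 hN1 hN2 hz he1
      rw [hXd, inner3] at h1
      refine h1.trans ?_
      have : 1 / R + H / R * (2 / H) + 6 / R = 9 / R := by field_simp; norm_num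
      rw [this]
      gcongr
      norm_num
    · have h1 := lin_pos hNn hW1 hN2 (c := 0) (by simp) (h := 0) (by simp) he2
      rw [hWd, inner3] at h1
      refine h1.trans ?_
      have : 2 / (H : ℝ) + 0 * 0 + 6 / H = 8 / H := by ring
      rw [this]
      gcongr
      norm_num
    · have h1 := lin_pos (b'.norm_eq_one a.castSucc) hX1 (hp a) (hv a) hz he1
      rw [hXd, inner3] at h1
      refine h1.trans ?_
      have h2 : 1 / R ≤ w a * (H / R) := by
        calc 1 / R = 1 / H * (H / R) := by field_simp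
          _ ≤ _ := by gcongr; exact (hw a).1
      have h3 : 6 / R = 6 * (1 / R) := by ring
      have h4 : 100 * w a * H / R = 100 * (w a * (H / R)) := by ring
      rw [h3, h4]
      have h5 : 0 ≤ w a * (H / R) := le_trans (by positivity) h2
      nlinarith
    · have h1 := lin_pos (b'.norm_eq_one a.castSucc) hW1 (hv a) (c := 0) (by simp) (h := 0)
        (by simp) he2
      rw [hWd, inner3] at h1
      refine h1.trans ?_
      have h2 := (hw a).1
      have h3 : 6 / (H : ℝ) = 6 * (1 / H) := by ring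
      rw [h3]
      have h5 : 0 ≤ w a := le_trans (by positivity) h2
      nlinarith
  -- orthonormality in coordinates
  have hEE : ∀ b' : OrthonormalBasis (Fin 3) ℝ E3, ∀ a c : Fin 2,
      ∑ i, b' a.castSucc i * b' c.castSucc i = if a = c then 1 else 0 := by
    intro b' a c
    have h := b'.orthonormal
    rw [orthonormal_iff_ite] at h
    have h1 := h a.castSucc c.castSucc
    have h2 : ⟪b' a.castSucc, b' c.castSucc⟫_ℝ = ∑ i, b' a.castSucc i * b' c.castSucc i := by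
      rw [← inner3]
    rw [← h2, h1]
    simp
  have hEn : ∀ b' : OrthonormalBasis (Fin 3) ℝ E3, b' 2 = N → ∀ a : Fin 2,
      ∑ i, b' a.castSucc i * n i = 0 := by
    intro b' hb a
    rw [← inner3]
    change ⟪b' a.castSucc, N⟫_ℝ = 0
    rw [← hb]
    have h := b'.orthonormal
    rw [orthonormal_iff_ite] at h
    rw [h]
    have : (a.castSucc : Fin 3) ≠ 2 := by
      intro he
      have := congrArg Fin.val he
      simp at this
      omega
    rw [if_neg this]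
  obtain ⟨B, hB⟩ := exists_frame hNn
  -- crude bounds
  have hcr1 : ∀ x ∈ J, ∀ y ∈ J, ‖X y.1 z0 - X x.1 z0‖ ≤ 24 * (H / R) := by
    intro x hx y hy
    rw [hXd]
    refine (norm3_le (M := 8 * H / R) fun i => hbox x hx y hy i).trans (le_of_eq (by ring))
  have hcr2 : ∀ x ∈ J, ∀ y ∈ J, ‖W y.1 z0 - W x.1 z0‖ ≤ 6 := by
    intro x hx y hy
    rw [hWd]
    refine (norm3_le (M := 2) fun i => ?_).trans (by norm_num)
    have h1 := (hbd y hy).1.1 z0 hz0b i
    have h2 := (hbd x hx).1.1 z0 hz0b i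
    rw [abs_le] at h1 h2 ⊢
    constructor <;> linarith [h1.1, h1.2, h2.1, h2.2]
  rcases lt_or_ge (H : ℝ) 34 with hsmall | hlarge
  · -- small `H`
    obtain ⟨x, hx⟩ := hJ
    have hall : L ⊆ (J.filter (Plk γ v R H n (fun a i => B a.castSucc i) (fun _ => 1) x)).image
        Prod.fst := by
      intro l hl
      obtain ⟨y, hy, rfl⟩ := hLJ l hl
      refine Finset.mem_image_of_mem _ (Finset.mem_filter.2 ⟨hy, ?_⟩)
      refine hmem B (fun _ => 1) hB (fun a => ⟨?_, le_rfl⟩) x hx y hy (fun a => ?_) (fun a => ?_)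
      · rw [div_le_one hH0]; exact hH1
      · refine (abs_real_inner_le_norm _ _).trans ?_
        rw [B.norm_eq_one, one_mul, mul_one]
        exact hcr1 x hx y hy
      · refine (abs_real_inner_le_norm _ _).trans ?_
        rw [B.norm_eq_one, one_mul, mul_one]
        exact (hcr2 x hx y hy).trans (by norm_num)
    have h1 := hpl x hx (fun a i => B a.castSucc i) (fun a c => hEE B a c) (fun a => hEn B hB a)
      (fun _ => 1) (fun a => ⟨by rw [div_le_one hH0]; exact hH1, le_rfl⟩)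
    have h2 : (L.card : ℝ) ≤ D * H ^ 2 := by
      have : (L.card : ℝ) ≤ ((((J.filter (Plk γ v R H n (fun a i => B a.castSucc i)
        (fun _ => 1) x)).image Prod.fst).card : ℕ) : ℝ) := by
        exact_mod_cast Finset.card_le_card hall
      refine this.trans (h1.trans (le_of_eq (by ring)))
    have h3 : θ ≤ (L.card : ℝ) := by
      refine (hrich x hx).trans ?_
      have : (J.filter fun y => cell γ R y = cell γ R x).card ≤ L.card := by
        refine Finset.card_le_card_of_injOn Prod.fst ?_ ?_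
        · intro y hy
          rw [Finset.mem_coe, Finset.mem_filter] at hy
          exact Finset.mem_image_of_mem _ hy.1
        · intro y hy y' hy' he
          rw [Finset.mem_coe, Finset.mem_filter] at hy hy'
          refine Prod.ext he ?_
          have := congrFun (hy.2.trans hy'.2.symm) 3
          simpa using this
      exact_mod_cast this
    have h4 : θ' ≤ H := by
      refine (hline x hx).trans ?_
      have : (J.filter fun y => y.1 = x.1).card ≤ (Finset.Ico j0 (j0 + H)).card := by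
        refine Finset.card_le_card_of_injOn Prod.snd ?_ ?_
        · intro y hy
          rw [Finset.mem_coe, Finset.mem_filter] at hy
          rw [Finset.mem_coe, Finset.mem_Ico]
          exact (hbd y hy.1).2.2
        · intro y hy y' hy' he
          rw [Finset.mem_coe, Finset.mem_filter] at hy hy'
          exact Prod.ext (hy.2.trans hy'.2.symm) he
      rw [Int.card_Ico] at this
      simp at this
      exact_mod_cast this
    calc θ * θ' ^ 2 ≤ (D * H ^ 2) * H ^ 2 := by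
          gcongr
          exact h3.trans h2
      _ ≤ (D * H ^ 2) * 34 ^ 2 := by gcongr
      _ = 34 ^ 2 * (H : ℝ) ^ (2 : ℝ) * D := by
          rw [Real.rpow_two]; ring
      _ ≤ (C1 + 34 ^ 2) * (H : ℝ) ^ (2 + ε) * D := by
          have g1 : (H : ℝ) ^ (2 : ℝ) ≤ (H : ℝ) ^ (2 + ε) :=
            Real.rpow_le_rpow_of_exponent_le hH1 (by linarith)
          have g2 : (34 : ℝ) ^ 2 ≤ C1 + 34 ^ 2 := by linarith
          have g3 : (0 : ℝ) ≤ (H : ℝ) ^ (2 : ℝ) := by positivity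
          calc 34 ^ 2 * (H : ℝ) ^ (2 : ℝ) * D ≤ (C1 + 34 ^ 2) * (H : ℝ) ^ (2 : ℝ) * D := by gcongr
            _ ≤ _ := by gcongr
  · -- large `H`
    obtain ⟨x0, hx0⟩ := hJ
    set p' : {l // l ∈ L} → E2 := fun i => (R / H) • prj B (X i z0 - X x0.1 z0) with hp'
    set v' : {l // l ∈ L} → E2 := fun i => prj B (W i z0 - W x0.1 z0) with hv'
    set I' : Finset ({l // l ∈ L} × ℤ) :=
      ((Finset.univ : Finset {l // l ∈ L}) ×ˢ Finset.Icc (-(H : ℤ)) H).filter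
        fun q => ((q.1 : ι), q.2 + j0) ∈ J with hI'
    have hI'mem : ∀ q ∈ I', |q.2| ≤ (H : ℤ) ∧ ((q.1 : ι), q.2 + j0) ∈ J := by
      intro q hq
      rw [hI', Finset.mem_filter, Finset.mem_product, Finset.mem_Icc] at hq
      exact ⟨abs_le.2 hq.1.2, hq.2⟩
    have hpos : ∀ (i : {l // l ∈ L}) (j : ℤ), ps p' v' i (j / H) =
        (R / H) • prj B (X i z0 - X x0.1 z0 + ((j : ℝ) / R) • (W i z0 - W x0.1 z0)) := by
      intro i j
      unfold ps
      simp only [hp', hv']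
      rw [prj_add, prj_smul, smul_add, smul_smul]
      congr 2
      field_simp
    have hbd' : ∀ i : {l // l ∈ L}, ‖p' i‖ ≤ 24 ∧ ‖v' i‖ ≤ 24 := by
      intro i
      obtain ⟨y, hy, hyi⟩ := hLJ i i.2
      have h1 := hcr1 x0 hx0 y hy
      have h2 := hcr2 x0 hx0 y hy
      rw [hyi] at h1 h2
      constructor
      · simp only [hp']
        rw [norm_smul, Real.norm_eq_abs, abs_of_pos (by positivity : (0:ℝ) < R / H)]
        calc (R / H) * ‖prj B (X i z0 - X x0.1 z0)‖ ≤ (R / H) * (24 * (H / R)) := by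
              gcongr
              exact (norm_prj_le _ _).trans h1
          _ = 24 := by field_simp
      · simp only [hv']
        exact (norm_prj_le _ _).trans (h2.trans (by norm_num))
    have hmult : ∀ q ∈ I', θ ≤ ((Finset.univ.filter fun i : {l // l ∈ L} =>
        ‖ps p' v' i (q.2 / H) - ps p' v' q.1 (q.2 / H)‖ ≤ 9 / H).card : ℝ) := by
      intro q hq
      obtain ⟨hq1, hqJ⟩ := hI'mem q hq
      set y : ι × ℤ := ((q.1 : ι), q.2 + j0) with hy
      refine (hrich y hqJ).trans ?_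
      have hinj : Set.InjOn (fun y : ι × ℤ => y.1) (J.filter fun y' => cell γ R y' = cell γ R y) := by
        intro a ha a' ha' he
        rw [Finset.mem_coe, Finset.mem_filter] at ha ha'
        refine Prod.ext he ?_
        have := congrFun (ha.2.trans ha'.2.symm) 3
        simpa using this
      set S2 : Finset {l // l ∈ L} := Finset.univ.filter fun i : {l // l ∈ L} =>
        ‖ps p' v' i (q.2 / H) - ps p' v' q.1 (q.2 / H)‖ ≤ 9 / H with hS2
      have h1 : ((J.filter fun y' => cell γ R y' = cell γ R y).image fun y => y.1) ⊆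
          Finset.image (fun i : {l // l ∈ L} => (i : ι)) S2 := by
        intro l hl
        obtain ⟨y', hy', rfl⟩ := Finset.mem_image.1 hl
        rw [Finset.mem_filter] at hy'
        obtain ⟨hy'J, hcell⟩ := hy'
        have hk : y'.2 = y.2 := by
          have := congrFun hcell 3
          simpa using this
        rw [Finset.mem_image]
        refine ⟨⟨y'.1, Finset.mem_image_of_mem _ hy'J⟩, ?_, rfl⟩
        rw [hS2, Finset.mem_filter]
        refine ⟨Finset.mem_univ _, ?_⟩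
        rw [hpos, hpos, ← smul_sub, ← prj_sub, norm_smul, Real.norm_eq_abs,
          abs_of_pos (by positivity : (0:ℝ) < R / H)]
        have hyk : (y.2 : ℝ) / R - z0 = (q.2 : ℝ) / R := by
          rw [hy, hz0]
          push_cast
          ring
        have hd : ‖X y'.1 (y.2 / R) - X y.1 (y.2 / R)‖ ≤ 3 / R := by
          rw [hXd]
          refine (norm3_le (M := 1 / R) fun i => ?_).trans (le_of_eq (by ring))
          have hci := congrFun hcell i.castSucc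
          rw [LmQ861.cell_castSucc, LmQ861.cell_castSucc] at hci
          unfold LmQ861.pt at hci
          rw [hk] at hci
          exact Crest.Agent.R138.LmA861.near_of_floor hR0 hci
        have e1 := hst y hqJ y hqJ
        have e2 := hst y' hy'J y hqJ
        rw [hyk] at e1 e2
        have e3 : ‖(X y'.1 z0 - X x0.1 z0 + ((q.2 : ℝ) / R) • (W y'.1 z0 - W x0.1 z0)) -
            (X y.1 z0 - X x0.1 z0 + ((q.2 : ℝ) / R) • (W y.1 z0 - W x0.1 z0))‖ ≤ 9 / R := by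
          have e4 : (X y'.1 z0 - X x0.1 z0 + ((q.2 : ℝ) / R) • (W y'.1 z0 - W x0.1 z0)) -
            (X y.1 z0 - X x0.1 z0 + ((q.2 : ℝ) / R) • (W y.1 z0 - W x0.1 z0)) =
            (X y'.1 (y.2 / R) - X y.1 (y.2 / R)) -
            ((X y'.1 (y.2 / R) - X y'.1 z0 - ((q.2 : ℝ) / R) • W y'.1 z0) -
              (X y.1 (y.2 / R) - X y.1 z0 - ((q.2 : ℝ) / R) • W y.1 z0)) := by module
          rw [e4]
          calc _ ≤ ‖X y'.1 (y.2 / R) - X y.1 (y.2 / R)‖ +
                ‖(X y'.1 (y.2 / R) - X y'.1 z0 - ((q.2 : ℝ) / R) • W y'.1 z0) -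
              (X y.1 (y.2 / R) - X y.1 z0 - ((q.2 : ℝ) / R) • W y.1 z0)‖ := norm_sub_le _ _
            _ ≤ 3 / R + (3 / R + 3 / R) := by
                gcongr
                exact (norm_sub_le _ _).trans (add_le_add e2 e1)
            _ = 9 / R := by ring
        calc (R / H) * _ ≤ (R / H) * (9 / R) := by
              gcongr
              exact (norm_prj_le _ _).trans e3
          _ = _ := by field_simp
      have h2 := Finset.card_le_card h1
      rw [Finset.card_image_of_injOn hinj] at h2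
      have h3 := h2.trans Finset.card_image_le
      exact_mod_cast h3
    -- number of incidences
    have hIc : θ' * (L.card : ℝ) ≤ (I'.card : ℝ) := by
      have h1 : J ⊆ I'.image fun q => ((q.1 : ι), q.2 + j0) := by
        intro y hy
        rw [Finset.mem_image]
        refine ⟨(⟨y.1, Finset.mem_image_of_mem _ hy⟩, y.2 - j0), ?_, ?_⟩
        · rw [hI', Finset.mem_filter, Finset.mem_product, Finset.mem_Icc]
          have h1 := (hbd y hy).2.2.1
          have h2 := (hbd y hy).2.2.2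
          refine ⟨⟨Finset.mem_univ _, ?_, ?_⟩, ?_⟩
          · simp only; omega
          · simp only; omega
          · simp only [sub_add_cancel]
            exact hy
        · simp
      have h2 : J.card ≤ I'.card := (Finset.card_le_card h1).trans Finset.card_image_le
      have h3 : J.card = ∑ l ∈ L, (J.filter fun y => y.1 = l).card :=
        Finset.card_eq_sum_card_fiberwise fun y hy => Finset.mem_image_of_mem _ hy
      calc θ' * (L.card : ℝ) = ∑ _l ∈ L, θ' := by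
            rw [Finset.sum_const, nsmul_eq_mul, mul_comm]
        _ ≤ ∑ l ∈ L, ((J.filter fun y => y.1 = l).card : ℝ) := by
            refine Finset.sum_le_sum fun l hl => ?_
            obtain ⟨y, hy, hyl⟩ := hLJ l hl
            have := hline y hy
            rw [hyl] at this
            exact this
        _ = (J.card : ℝ) := by rw [h3]; push_cast; rfl
        _ ≤ _ := by exact_mod_cast h2
    -- planks
    have hplank : ∀ (b : OrthonormalBasis (Fin 2) ℝ E2) (s : Fin 2 → ℝ) (p0 v0 : E2),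
        (∀ j, 1 / (H : ℝ) ≤ s j ∧ s j ≤ 1) →
        ((Finset.univ.filter fun i : {l // l ∈ L} =>
          Crest.Agent.R138.Tub70.InPl b s p0 v0 (p' i) (v' i)).card : ℝ) ≤
          D * (s 0 * s 1) * (H : ℝ) ^ 2 := by
      intro b s p0 v0 hs
      have hs0 : ∀ j, 0 < s j := fun j => lt_of_lt_of_le (by positivity) (hs j).1
      obtain ⟨b', hb0, hb1, hb2⟩ := exists_lift B b
      rw [hB] at hb2
      have hba : ∀ a : Fin 2, b' a.castSucc = sec B (b a) := by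
        intro a
        fin_cases a
        · exact hb0
        · exact hb1
      rcases (Finset.univ.filter fun i : {l // l ∈ L} =>
          Crest.Agent.R138.Tub70.InPl b s p0 v0 (p' i) (v' i)).eq_empty_or_nonempty with he | ⟨i1, hi1⟩
      · rw [he]
        have := hs0 0
        have := hs0 1
        simp only [Finset.card_empty, Nat.cast_zero]
        positivity
      · rw [Finset.mem_filter] at hi1
        obtain ⟨x, hx, hxi⟩ := hLJ i1 i1.2
        have h1 := hpl x hx (fun a i => b' a.castSucc i) (fun a c => hEE b' a c)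
          (fun a => hEn b' hb2 a) s hs
        refine le_trans ?_ h1
        have hsub : (Finset.univ.filter fun i : {l // l ∈ L} =>
          Crest.Agent.R138.Tub70.InPl b s p0 v0 (p' i) (v' i)).card ≤
          ((J.filter (Plk γ v R H n (fun a i => b' a.castSucc i) s x)).image Prod.fst).card := by
          refine Finset.card_le_card_of_injOn (fun i => (i : ι)) ?_ Subtype.val_injective.injOn
          intro i hi
          rw [Finset.mem_coe, Finset.mem_filter] at hi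
          obtain ⟨y, hy, hyi⟩ := hLJ i i.2
          show (i : ι) ∈ _
          rw [← hyi]
          refine Finset.mem_image_of_mem _ (Finset.mem_filter.2 ⟨hy, ?_⟩)
          refine hmem b' s hb2 hs x hx y hy (fun a => ?_) (fun a => ?_)
          · have d := (inpl_diff hi.2 hi1.2 a).1
            rw [hba, inner_sec]
            have : p' i - p' i1 = (R / H) • prj B (X y.1 z0 - X x.1 z0) := by
              simp only [hp']
              rw [← smul_sub, ← prj_sub, hyi, hxi]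
              congr 2
              abel
            rw [this, inner_smul_right, abs_mul, abs_of_pos (by positivity : (0:ℝ) < R / H)] at d
            have h2 : |⟪b a, prj B (X y.1 z0 - X x.1 z0)⟫_ℝ| ≤ 2 * s a * (H / R) := by
              calc |⟪b a, prj B (X y.1 z0 - X x.1 z0)⟫_ℝ| =
                  (R / H * |⟪b a, prj B (X y.1 z0 - X x.1 z0)⟫_ℝ|) * (H / R) := by field_simp
                _ ≤ _ := by gcongr
            refine h2.trans ?_
            have := hs0 a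
            gcongr
            norm_num
          · have d := (inpl_diff hi.2 hi1.2 a).2
            rw [hba, inner_sec]
            have : v' i - v' i1 = prj B (W y.1 z0 - W x.1 z0) := by
              simp only [hv']
              rw [← prj_sub, hyi, hxi]
              congr 1
              abel
            rw [this] at d
            refine d.trans ?_
            have := hs0 a
            linarith
        exact_mod_cast hsub
    have hfin := key H (by omega) (by linarith) {l // l ∈ L} p' v' I' θ D hθ hD hbd'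
      (fun q hq => (hI'mem q hq).1) hmult hplank
    rw [Fintype.card_coe] at hfin
    have h1 : θ * (θ' * (L.card : ℝ)) ^ 2 ≤
        C1 * (H : ℝ) ^ (2 + ε) * D * (L.card : ℝ) ^ 2 := by
      refine le_trans ?_ hfin
      gcongr
    have h2 : (θ * θ' ^ 2) * (L.card : ℝ) ^ 2 ≤ (C1 * (H : ℝ) ^ (2 + ε) * D) * (L.card : ℝ) ^ 2 := by
      calc _ = θ * (θ' * (L.card : ℝ)) ^ 2 := by ring
        _ ≤ _ := h1
    have h3 := le_of_mul_le_mul_right h2 (by positivity)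
    refine h3.trans ?_
    gcongr
    linarith

end Crest.Agent.R136.Slb480
end

-- ▼ part R136/HR2_829

/-!
# R136, HRot4 part 2 (helper829): no container, finite form for ONE sheet

`end_gam` = `nc_fin` for the normalised curves `gam` of 605: all lines `InSheet` over the cell `J0` of
level `i`; richness is asked in the natural form (normalised distance at ONE height of the fine
cell); the plank hypothesis is the literal conclusion of 605's `dmaxQ` (any class of sheets).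
-/

set_option autoImplicit false
set_option linter.unusedVariables false
set_option linter.unusedSectionVars false

namespace Crest.Agent.R136.HR829

open Finset
open Crest.Agent.R136.LmQ861 (C11 pt Plk SlabOne)
open Crest.Agent.R138.Mk163 (zc zl rho alive own)
open Crest.Agent.R136.Sh605

/-- centre of the cell `J` of level `i` -/
noncomputable def zm (i : ℕ) (J : ℤ) : ℝ := zl i J + rho i / 2

/-- normalised height of `z` in the cell `J` of level `i` -/
noncomputable def un (i : ℕ) (J : ℤ) (z : ℝ) : ℝ := (z - zm i J) / (rho i / 2)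

theorem rho_pos (i : ℕ) : 0 < rho i := by unfold rho; positivity

theorem un_spec (i : ℕ) (J : ℤ) (z : ℝ) : zm i J + rho i / 2 * un i J z = z := by
  have := rho_pos i
  unfold un
  field_simp
  ring

theorem un_uh (i M : ℕ) (J0 c : ℤ) : un i J0 (zl (i + M + 1) c) = uh M J0 c := by
  have h2 : (2 : ℝ) ^ i ≠ 0 := by positivity
  have h3 : (2 : ℝ) ^ M ≠ 0 := by positivity
  unfold un zm uh ix zl rho
  rw [pow_add, pow_add]
  push_cast
  rw [pow_succ]
  field_simp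
  ring

theorem zc_mem (i : ℕ) (z : ℝ) : zl i (zc i z) ≤ z ∧ z < zl i (zc i z) + rho i := by
  have h := Int.floor_le ((2 : ℝ) ^ i * z)
  have h' := Int.lt_floor_add_one ((2 : ℝ) ^ i * z)
  have h2 : (0 : ℝ) < 2 ^ i := by positivity
  unfold zl zc rho
  rw [← add_div]
  constructor
  · rw [div_le_iff₀ h2]; linarith
  · rw [lt_div_iff₀ h2]; linarith

theorem un_abs {i : ℕ} {J : ℤ} {z : ℝ} (h1 : zl i J ≤ z) (h2 : z ≤ zl i J + rho i) :
    |un i J z| ≤ 1 := by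
  have := rho_pos i
  unfold un zm
  rw [abs_div, abs_of_pos (by positivity : 0 < rho i / 2), div_le_one (by positivity), abs_le]
  constructor <;> linarith

/-- two heights in one cell of level `i + M + 1` -/
theorem un_near {i M : ℕ} {J0 : ℤ} {z : ℝ} :
    |un i J0 z - uh M J0 (zc (i + M + 1) z)| ≤ 1 / 2 ^ M := by
  have h := zc_mem (i + M + 1) z
  rw [← un_uh i M J0]
  have hp := rho_pos i
  have e : un i J0 z - un i J0 (zl (i + M + 1) (zc (i + M + 1) z)) =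
      (z - zl (i + M + 1) (zc (i + M + 1) z)) / (rho i / 2) := by
    unfold un
    rw [← sub_div]; congr 1; ring
  rw [e, abs_div, abs_of_pos (by positivity : 0 < rho i / 2), div_le_iff₀ (by positivity),
    abs_of_nonneg (by linarith [h.1])]
  have e2 : rho (i + M + 1) = 1 / 2 ^ M * (rho i / 2) := by
    unfold rho
    rw [pow_add, pow_add]
    field_simp
  rw [← e2]
  linarith [h.2]

theorem zc_nest {i j : ℕ} (h : i ≤ j) {z z' : ℝ} (hz : zc j z = zc j z') : zc i z = zc i z' := by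
  have e1 := zc_div i (j - i) z
  have e2 := zc_div i (j - i) z'
  rw [Nat.add_sub_cancel' h] at e1 e2
  rw [← e1, ← e2, hz]

/-- a subcell lies inside its cell -/
theorem sub_cell {i j : ℕ} (h : i ≤ j) (z : ℝ) : zl i (zc i z) ≤ zl j (zc j z) ∧
    zl j (zc j z) + rho j ≤ zl i (zc i z) + rho i := by
  obtain ⟨d, rfl⟩ := Nat.exists_eq_add_of_le h
  have e1 := zc_div i d z
  have hK : (0 : ℤ) < 2 ^ d := by positivity
  have h2 := Int.ediv_mul_le (zc (i + d) z) hK.ne'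
  have h3 := Int.lt_ediv_add_one_mul_self (zc (i + d) z) hK
  rw [e1] at h2 h3
  have h4 : (zc i z : ℝ) * 2 ^ d ≤ zc (i + d) z := by exact_mod_cast h2
  have h5 : (zc (i + d) z : ℝ) + 1 ≤ (zc i z + 1) * 2 ^ d := by
    have : zc (i + d) z + 1 ≤ (zc i z + 1) * 2 ^ d := by omega
    exact_mod_cast this
  unfold zl rho
  have p1 : (0 : ℝ) < 2 ^ i := by positivity
  have p2 : (0 : ℝ) < 2 ^ d := by positivity
  constructor
  · rw [pow_add, div_le_div_iff₀ p1 (by positivity)]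
    nlinarith
  · rw [← add_div, ← add_div, pow_add, div_le_div_iff₀ (by positivity) p1]
    nlinarith

/-- heights in a neighbouring window -/
theorem near_window {i M k : ℕ} {J0 : ℤ} (hk : k ≤ M) {x y : ℝ}
    (h : |zc (i + M + 1 - k) y - zc (i + M + 1 - k) x| ≤ 1) {z : ℝ}
    (h1 : zl (i + M + 1 - k) (zc (i + M + 1 - k) y) ≤ z)
    (h2 : z ≤ zl (i + M + 1 - k) (zc (i + M + 1 - k) y) + rho (i + M + 1 - k)) :
    |z - (zm i J0 + rho i / 2 * ((ix M J0 (zc (i + M + 1) x) : ℝ) / 2 ^ M))| ≤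
      2 * (rho i / 2) * ((2 ^ k : ℕ) : ℝ) / 2 ^ M := by
  have e0 : zm i J0 + rho i / 2 * ((ix M J0 (zc (i + M + 1) x) : ℝ) / 2 ^ M) =
      zl (i + M + 1) (zc (i + M + 1) x) := by
    have := un_spec i J0 (zl (i + M + 1) (zc (i + M + 1) x))
    rw [un_uh] at this
    exact this
  rw [e0]
  have e1 : 2 * (rho i / 2) * ((2 ^ k : ℕ) : ℝ) / 2 ^ M = 2 * rho (i + M + 1 - k) := by
    unfold rho
    have p1 : (2 : ℝ) ^ (i + M + 1) = 2 ^ (i + M + 1 - k) * 2 ^ k := by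
      rw [← pow_add]; congr 1; omega
    rw [pow_succ, pow_add] at p1
    push_cast
    field_simp
    linarith
  rw [e1]
  have hs := sub_cell (i := i + M + 1 - k) (j := i + M + 1) (by omega) x
  have hp := rho_pos (i + M + 1)
  have hq : |zl (i + M + 1 - k) (zc (i + M + 1 - k) y) - zl (i + M + 1 - k) (zc (i + M + 1 - k) x)| ≤
      rho (i + M + 1 - k) := by
    unfold zl rho
    rw [← sub_div, abs_div, abs_of_pos (by positivity : (0:ℝ) < 2 ^ (i + M + 1 - k))]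
    gcongr
    exact_mod_cast h
  rw [abs_le] at hq ⊢
  constructor <;> linarith [hs.1, hs.2, hq.1, hq.2]

section geo

variable {e : Fin 3 → V3} {c : Ln4} {w : V3} {q : ℝ → V3 → ℝ} {a z0 ρ zc lam : ℝ}

theorem markov {f : ℝ → ℝ} {k0 k1 k2 : ℝ} (h : ∀ u, f u = k0 + k1 * u + k2 * u ^ 2)
    (hb : ∀ u, -1 ≤ u → u ≤ 1 → |f u| ≤ 1) {u u' : ℝ} (hu : |u| ≤ 1) (hu' : |u'| ≤ 1) :
    |f u' - f u| ≤ 4 * |u' - u| := by
  have b1 := abs_le.1 (hb 1 (by norm_num) (by norm_num))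
  have b2 := abs_le.1 (hb (-1) (by norm_num) (by norm_num))
  have b3 := abs_le.1 (hb 0 (by norm_num) (by norm_num))
  rw [h] at b1 b2 b3
  have e1 : f u' - f u = (u' - u) * (k1 + 2 * k2 * ((u' + u) / 2)) := by rw [h, h]; ring
  rw [e1, abs_mul, mul_comm]
  refine mul_le_mul_of_nonneg_right ?_ (abs_nonneg _)
  rw [abs_le] at hu hu'
  set s := (u' + u) / 2 with hs
  have s1 : -1 ≤ s := by rw [hs]; linarith
  have s2 : s ≤ 1 := by rw [hs]; linarith
  rw [abs_le]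
  constructor
  · nlinarith [b1.1, b1.2, b2.1, b2.2, b3.1, b3.2]
  · nlinarith [b1.1, b1.2, b2.1, b2.2, b3.1, b3.2]

/-- two normalised curves move apart with velocity `≤ 8/9` -/
theorem gam_move (hq : IsQ q) (ha : 0 < a) (hw1 : 0 < w 1) (hw2 : 0 < w 2)
    (hz0 : z0 = zc - lam) (hρ : ρ = 2 * lam) (hlam : 0 ≤ lam) {y t : Ln4}
    (hy : InSheet y e c w q a z0 ρ) (ht : InSheet t e c w q a z0 ρ) {u u' : ℝ}
    (hu : |u| ≤ 1) (hu' : |u'| ≤ 1) (i : Fin 3) :
    |gam e c w q a zc lam t u' i - gam e c w q a zc lam y u' i| ≤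
      |gam e c w q a zc lam t u i - gam e c w q a zc lam y u i| + 8 / 9 * |u' - u| := by
  obtain ⟨k0, k1, k2, hk⟩ := hN_poly hq a zc lam t
  obtain ⟨m0, m1, m2, hm⟩ := hN_poly hq a zc lam y
  have b1 := markov hk (hN_bd ha ht hz0 hρ hlam) hu hu'
  have b2 := markov hm (hN_bd ha hy hz0 hρ hlam) hu hu'
  have hn : 0 ≤ |u' - u| := abs_nonneg _
  have lin : ∀ j : Fin 3, 0 < w j → ∀ s : Ln4, InSheet s e c w q a z0 ρ →
      |(dt (e j) (s.pos (zc + lam * u') - c.pos (zc + lam * u')) / w j) -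
        (dt (e j) (s.pos (zc + lam * u) - c.pos (zc + lam * u)) / w j)| ≤ 1 * |u' - u| := by
    intro j hj s hs
    rw [lin_poly, lin_poly]
    have v1 := lin_vel hs j hj hz0 hρ hlam
    have e1 : dt (e j) (s.pos zc - c.pos zc) / w j + lam * dt (e j) (s.v - c.v) / w j * u' -
        (dt (e j) (s.pos zc - c.pos zc) / w j + lam * dt (e j) (s.v - c.v) / w j * u) =
        lam * dt (e j) (s.v - c.v) / w j * (u' - u) := by ring
    rw [e1, abs_mul]
    exact mul_le_mul_of_nonneg_right v1 hn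
  have tri : ∀ A B A' B' K : ℝ, |A' - A| ≤ K * |u' - u| → |B' - B| ≤ K * |u' - u| → K ≤ 4 →
      |1 / 9 * A' - 1 / 9 * B'| ≤ |1 / 9 * A - 1 / 9 * B| + 8 / 9 * |u' - u| := by
    intro A B A' B' K h1 h2 hK
    have h3 : K * |u' - u| ≤ 4 * |u' - u| := mul_le_mul_of_nonneg_right hK hn
    have e1 : 1 / 9 * A' - 1 / 9 * B' = (1 / 9 * A - 1 / 9 * B) + 1 / 9 * (A' - A) -
        1 / 9 * (B' - B) := by ring
    rw [e1]
    refine (abs_sub _ _).trans ?_
    refine (add_le_add_left (abs_add_le _ _) _).trans ?_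
    rw [abs_mul, abs_mul (1 / 9 : ℝ) (B' - B), abs_of_pos (by norm_num : (0:ℝ) < 1 / 9)]
    linarith
  fin_cases i
  · exact tri _ _ _ _ 4 b1 b2 le_rfl
  · exact tri _ _ _ _ 1 (lin 1 hw1 t ht) (lin 1 hw1 y hy) (by norm_num)
  · exact tri _ _ _ _ 1 (lin 2 hw2 t ht) (lin 2 hw2 y hy) (by norm_num)

/-- the difference of two normalised curves is `nrm / 9` -/
theorem gam_nrm (y t : Ln4) (u : ℝ) (i : Fin 3) :
    gam e c w q a zc lam t u i - gam e c w q a zc lam y u i =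
      1 / 9 * nrm e w q a y t (zc + lam * u) i := by
  fin_cases i
  · change 1 / 9 * (q _ _ / a) - 1 / 9 * (q _ _ / a) = 1 / 9 * ((q _ _ - q _ _) / a)
    ring
  · change 1 / 9 * (dt (e 1) _ / w 1) - 1 / 9 * (dt (e 1) _ / w 1) = 1 / 9 * (dt (e 1) _ / w 1)
    simp only [dt_sub]; ring
  · change 1 / 9 * (dt (e 2) _ / w 2) - 1 / 9 * (dt (e 2) _ / w 2) = 1 / 9 * (dt (e 2) _ / w 2)
    simp only [dt_sub]; ring

end geo

open Classical in
/-- **END, finite form, one sheet** (any class: the plank hypothesis is the conclusion of `dmaxQ`). -/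
theorem end_gam (hKM : ∀ V : ℝ, Crest.Agent.R138.Tub70.KM32 V) {g : ℝ} (hg : 0 < g)
    {η₁ : ℝ} (hη₁ : 0 < η₁) (C₁ : ℝ) :
    ∃ η ε₀ : ℝ, ∃ M₀ : ℕ, 0 < η ∧ η ≤ η₁ ∧ η ≤ 1 / 4 ∧ 0 < ε₀ ∧
    ∀ (F : Finset (ℕ × ℝ)) (L : ℕ → Ln4) (e : Fin 3 → V3) (c : Ln4) (w : V3)
      (q : ℝ → V3 → ℝ) (a : ℝ) (i j M k : ℕ) (J0 : ℤ) (n₀ P : ℝ),
      F.Nonempty → M₀ ≤ M → η / 2 * M ≤ k → (k : ℝ) ≤ η * M → i + M + 1 ≤ j →
      (∀ x ∈ F, zc i x.2 = J0) →
      IsQ q → 0 < a → 0 < w 1 → 0 < w 2 →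
      (∀ x ∈ F, InSheet (L x.1) e c w q a (zl i J0) (rho i)) →
      -- own counts
      (∀ x ∈ F, (2 : ℝ) ^ ((M : ℝ) - ε₀ * M) ≤ ((own F i (i + M + 1) x).card : ℝ)) →
      (∀ x ∈ F, (2 : ℝ) ^ ((k : ℝ) - ε₀ * M) ≤
        ((own F (i + M + 1 - k) (i + M + 1) x).card : ℝ)) →
      -- rich: at one height of the cell of level `j`
      (∀ x ∈ F, ∃ z : ℝ, zc j z = zc j x.2 ∧ (2 : ℝ) ^ (n₀ - 3 * M + g * M - ε₀ * M) ≤
        (((alive F j (zc j x.2)).filter fun t =>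
          ∀ b, |nrm e w q a (L x.1) (L t) z b| ≤ 1 / 2 / 2 ^ M).card : ℝ)) →
      -- planks
      (∀ x ∈ F, ∀ y ∈ F, C₁ * ((2 ^ k : ℕ) : ℝ) ^ 2 ≤ 2 ^ M →
        zl i J0 ≤ zl (i + M + 1 - k) (zc (i + M + 1 - k) y.2) →
        zl (i + M + 1 - k) (zc (i + M + 1 - k) y.2) + rho (i + M + 1 - k) ≤ zl i J0 + rho i →
        (∀ z, zl (i + M + 1 - k) (zc (i + M + 1 - k) y.2) ≤ z →
          z ≤ zl (i + M + 1 - k) (zc (i + M + 1 - k) y.2) + rho (i + M + 1 - k) →
          |z - (zm i J0 + rho i / 2 * ((ix M J0 (zc (i + M + 1) x.2) : ℝ) / 2 ^ M))| ≤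
            2 * (rho i / 2) * ((2 ^ k : ℕ) : ℝ) / 2 ^ M) →
        ∀ n : Fin 3 → ℝ, ∑ i, n i ^ 2 = 1 → ∀ E : Fin 2 → Fin 3 → ℝ,
        (∀ a b, ∑ i, E a i * E b i = if a = b then 1 else 0) →
        (∀ a, ∑ i, E a i * n i = 0) → ∀ wd : Fin 2 → ℝ, (∀ a, 1 / (2 : ℝ) ^ k ≤ wd a ∧ wd a ≤ 1) →
        (((alive F (i + M + 1 - k) (zc (i + M + 1 - k) y.2)).filter fun t =>
          Plk (fun l => gam e c w q a (zm i J0) (rho i / 2) (L l))
            (fun l => vel e c w q a (zm i J0) (rho i / 2) (L l)) (2 ^ M) (2 ^ k) n E wd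
            (x.1, ix M J0 (zc (i + M + 1) x.2))
            (t, ix M J0 (zc (i + M + 1) x.2))).card : ℝ) ≤ P * (wd 0 * wd 1) * (2 ^ k) ^ 2) →
      P ≤ (2 : ℝ) ^ (n₀ - 3 * M + g * (M - k) + ε₀ * M) →
      ((F.image Prod.fst).card : ℝ) ≤ (2 : ℝ) ^ (n₀ + ε₀ * M) → False := by
  obtain ⟨η, ε₀, M₀, hη, hηη, hη1, hε, key⟩ := nc_fin (Slb480.slabOne hKM) hg
    (lt_min hη₁ (by norm_num : (0:ℝ) < 1 / 4))
  obtain ⟨M₁, hM₁⟩ := pow_unbounded_of_one_lt C₁ (by norm_num : (1:ℝ) < 2)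
  have hη4 : η ≤ 1 / 4 := hηη.trans (min_le_right _ _)
  refine ⟨η, ε₀, max M₀ (2 * M₁), hη, hηη.trans (min_le_left _ _), hη4, hε, ?_⟩
  intro F L e c w q a i j M k J0 n₀ P hF hM' hk1 hk2 hij hJ hq ha hw1 hw2 hin hown hwin hrich hplank
    hP hL
  have hM : M₀ ≤ M := (le_max_left _ _).trans hM'
  have hM2 : 2 * M₁ ≤ M := (le_max_right _ _).trans hM'
  have hk4 : 4 * k ≤ M := by
    have : (4 : ℝ) * k ≤ M := by
      have h1 : η * M ≤ 1 / 4 * M := by gcongr
      linarith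
    exact_mod_cast this
  have hkM : k ≤ M := by omega
  have hbig : C₁ * ((2 ^ k : ℕ) : ℝ) ^ 2 ≤ 2 ^ M := by
    push_cast
    calc C₁ * ((2 : ℝ) ^ k) ^ 2 ≤ 2 ^ M₁ * (2 ^ k) ^ 2 := by gcongr
      _ = 2 ^ (M₁ + 2 * k) := by rw [← pow_mul, ← pow_add]; congr 1; ring
      _ ≤ 2 ^ M := pow_le_pow_right₀ (by norm_num) (by omega)
  have hz0 : zl i J0 = zm i J0 - rho i / 2 := by unfold zm; ring
  have hρ : rho i = 2 * (rho i / 2) := by ring
  have hlam : 0 ≤ rho i / 2 := by have := rho_pos i; positivity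
  have hwd0 : ∀ wd : Fin 2 → ℝ, (∀ a, 1 / (2 : ℝ) ^ k ≤ wd a ∧ wd a ≤ 1) →
      0 ≤ wd 0 * wd 1 * (2 ^ k) ^ 2 := by
    intro wd h
    have e0 : (0:ℝ) ≤ 1 / 2 ^ k := by positivity
    have : 0 ≤ wd 0 := e0.trans (h 0).1
    have : 0 ≤ wd 1 := e0.trans (h 1).1
    positivity
  have hcell : ∀ x ∈ F, zl i J0 ≤ x.2 ∧ x.2 ≤ zl i J0 + rho i := by
    intro x hx
    have := zc_mem i x.2
    rw [hJ x hx] at this
    exact ⟨this.1, this.2.le⟩
  refine key F (fun l => gam e c w q a (zm i J0) (rho i / 2) (L l))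
    (fun l => vel e c w q a (zm i J0) (rho i / 2) (L l)) i M k J0 n₀ hF hM hk1 hk2 hJ ?_ hown hwin
    ?_ ?_ hL
  · intro x hx
    refine ⟨C11_gam L hq ha hw1 hw2 hz0 hρ hlam (hin x hx), fun z hz b => ?_⟩
    rw [abs_le] at hz
    exact gam_bd ha hw1 hw2 hz0 hρ hlam (hin x hx) hz.1 hz.2 b
  · intro x hx
    obtain ⟨z, hz, hr⟩ := hrich x hx
    refine hr.trans (Nat.cast_le.2 (card_le_card ?_))
    intro t ht
    rw [mem_filter] at ht ⊢
    obtain ⟨ht1, ht2⟩ := ht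
    unfold alive at ht1 ⊢
    rw [mem_image] at ht1 ⊢
    obtain ⟨y, hy, rfl⟩ := ht1
    rw [mem_filter] at hy
    have hnest : ∀ z z' : ℝ, zc j z = zc j z' → zc (i + M + 1) z = zc (i + M + 1) z' := by
      intro z z' h
      have e1 := zc_div (i + M + 1) (j - (i + M + 1)) z
      have e2 := zc_div (i + M + 1) (j - (i + M + 1)) z'
      rw [Nat.add_sub_cancel' hij] at e1 e2
      rw [← e1, ← e2, h]
    have hyx := hnest _ _ hy.2
    have hzx := hnest _ _ hz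
    refine ⟨⟨y, mem_filter.2 ⟨hy.1, hyx⟩, rfl⟩, fun b => ?_⟩
    have hzi : zc i z = J0 := by
      have e1 := zc_div i (M + 1) z
      have e2 := zc_div i (M + 1) x.2
      rw [← add_assoc] at e1 e2
      rw [← e1, hzx, e2, hJ x hx]
    have hzc := zc_mem i z
    rw [hzi] at hzc
    have hu1 : |un i J0 z| ≤ 1 := un_abs hzc.1 hzc.2.le
    have hu2 : |uh M J0 (zc (i + M + 1) x.2)| ≤ 1 := by
      unfold uh
      rw [abs_div, abs_of_pos (by positivity : (0:ℝ) < 2 ^ M), div_le_one (by positivity)]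
      exact ix_abs (hJ x hx)
    have h1 := gam_move hq ha hw1 hw2 hz0 hρ hlam (hin x hx) (hin y hy.1) hu1 hu2 b
    have h2 : |uh M J0 (zc (i + M + 1) x.2) - un i J0 z| ≤ 1 / 2 ^ M := by
      rw [abs_sub_comm, ← hzx]; exact un_near
    rw [gam_nrm (y := L x.1) (t := L y.1) (u := un i J0 z), un_spec] at h1
    refine h1.trans ?_
    rw [abs_mul, abs_of_pos (by norm_num : (0:ℝ) < 1 / 9)]
    have h3 := ht2 b
    have h4 : (1 : ℝ) / 2 / 2 ^ M = 1 / 2 * (1 / 2 ^ M) := by ring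
    rw [h4] at h3
    have h5 : (0:ℝ) ≤ 1 / 2 ^ M := by positivity
    linarith
  · intro x hx J1 hJ1 n hn E hE hEn wd hwd
    by_cases hne : ∃ y ∈ F, zc (i + M + 1 - k) y.2 = J1
    · obtain ⟨y, hy, rfl⟩ := hne
      have hsc := sub_cell (i := i) (j := i + M + 1 - k) (by omega) y.2
      rw [hJ y hy] at hsc
      refine le_trans (le_of_eq ?_) ((hplank x hx y hy hbig hsc.1 hsc.2
        (fun z hz1 hz2 => near_window hkM hJ1 hz1 hz2) n hn E hE hEn wd hwd).trans ?_)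
      · rfl
      · calc P * (wd 0 * wd 1) * (2 ^ k) ^ 2 = P * (wd 0 * wd 1 * (2 ^ k) ^ 2) := by ring
          _ ≤ (2 : ℝ) ^ (n₀ - 3 * M + g * (M - k) + ε₀ * M) * (wd 0 * wd 1 * (2 ^ k) ^ 2) :=
              mul_le_mul_of_nonneg_right hP (hwd0 wd hwd)
          _ = _ := by ring
    · have h0 : alive F (i + M + 1 - k) J1 = ∅ := by
        rw [eq_empty_iff_forall_notMem]
        intro t ht
        unfold alive at ht
        rw [mem_image] at ht
        obtain ⟨y, hy, -⟩ := ht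
        rw [mem_filter] at hy
        exact hne ⟨y, hy.1, hy.2⟩
      rw [h0, filter_empty, card_empty, Nat.cast_zero]
      have h1 := hwd0 wd hwd
      have h2 : (0:ℝ) < (2 : ℝ) ^ (n₀ - 3 * M + g * (M - k) + ε₀ * M) :=
        Real.rpow_pos_of_pos (by norm_num) _
      calc (0:ℝ) ≤ (2 : ℝ) ^ (n₀ - 3 * M + g * (M - k) + ε₀ * M) * (wd 0 * wd 1 * (2 ^ k) ^ 2) :=
            mul_nonneg h2.le h1
        _ = _ := by ring

end Crest.Agent.R136.HR829
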