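import Crest.Agent.R136.HR5_829
import Crest.Agent.R136.HR2_829
import Crest.Agent.R138.MkRef_627
import Crest.Agent.R138.Ctn_829

-- ▼ part R136/HR6_829
section

/-!
# R136 (helper829): labels of flat containers, number of labels
-/

set_option autoImplicit false
set_option linter.unusedVariables false
set_option linter.unusedSectionVars false

namespace Crest.Agent.R136.HR829

open Finset
open Crest.Agent.R136.Sh605

theorem Cls.swap {K : ℝ} {V : V3} {e : Fin 3 → V3} {s t : Ln4} {z0 ρ : ℝ}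
    (h : Cls K V e s t z0 ρ) : Cls K V e t s z0 ρ := by
  intro z h1 h2 k
  have h3 := h z h1 h2 k
  have e1 : dt (e k) (s.pos z - t.pos z) = -dt (e k) (t.pos z - s.pos z) := by
    simp only [dt_sub]; ring
  rw [e1, abs_neg]; exact h3

section

variable {Ω : Type*} (w : V3) (R : ℝ) (fr : Ω → Fin 3 → V3) (ln : Ω → Ln4) (cell : Ω → ℤ)
  (z0 : ℤ → ℝ) (ρ : ℝ)

/-- comparable objects -/
def NK (K : ℝ) (o o' : Ω) : Prop := cell o = cell o' ∧ Cmp K w (fr o) (fr o') ∧
  Cmp K w (fr o') (fr o) ∧ Cls K (R • w) (fr o) (ln o) (ln o') (z0 (cell o)) ρ ∧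
  Cls K (R • w) (fr o') (ln o) (ln o') (z0 (cell o)) ρ

variable {w R fr ln cell z0 ρ}

theorem NK.symm {K : ℝ} {o o' : Ω} (h : NK w R fr ln cell z0 ρ K o o') :
    NK w R fr ln cell z0 ρ K o' o := by
  obtain ⟨h1, h2, h3, h4, h5⟩ := h
  refine ⟨h1.symm, h3, h2, ?_, ?_⟩
  · rw [← h1]; exact h5.swap
  · rw [← h1]; exact h4.swap

theorem NK.refl (hw : ∀ i, 0 < w i) (hR : 0 < R) {o : Ω} (ho : Ortho (fr o)) {K : ℝ} (hK : 1 ≤ K) :
    NK w R fr ln cell z0 ρ K o o := by
  have h1 : Cls K (R • w) (fr o) (ln o) (ln o) (z0 (cell o)) ρ := by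
    intro z _ _ k
    rw [sub_self]
    have : dt (fr o k) 0 = 0 := by simp [dt]
    rw [this, abs_zero]
    have := hw k
    have : 0 ≤ (R • w) k := by simp only [Pi.smul_apply, smul_eq_mul]; positivity
    positivity
  exact ⟨rfl, (Cmp.refl hw ho).mono hw hK, (Cmp.refl hw ho).mono hw hK, h1, h1⟩

/-- **transitivity with loss** -/
theorem NK.trans (hw : ∀ i, 0 < w i) (hR : 0 < R) {K K' : ℝ} (hK : 1 ≤ K) (hK' : 1 ≤ K')
    {o o' o'' : Ω} (ho : Ortho (fr o)) (ho' : Ortho (fr o')) (ho'' : Ortho (fr o''))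
    (h : NK w R fr ln cell z0 ρ K o o') (h' : NK w R fr ln cell z0 ρ K' o' o'') :
    NK w R fr ln cell z0 ρ (4 * K * K') o o'' := by
  obtain ⟨h1, h2, h3, h4, h5⟩ := h
  obtain ⟨g1, g2, g3, g4, g5⟩ := h'
  have hV : ∀ i, 0 ≤ (R • w) i := fun i => by
    have := hw i
    simp only [Pi.smul_apply, smul_eq_mul]; positivity
  have hKK : K ≤ K * K' := le_mul_of_one_le_right (by linarith) hK'
  have hKK' : K' ≤ K * K' := le_mul_of_one_le_left (by linarith) hK
  have e1 : 3 * K * K' ≤ 4 * K * K' := by nlinarith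
  refine ⟨h1.trans g1, (h2.trans hw (by linarith) (by linarith) ho' g2).mono hw e1,
    ((g3.trans hw (by linarith) (by linarith) ho' h3).mono hw (by nlinarith)), ?_, ?_⟩
  · rw [← h1] at g4 g5
    have c1 := Cls.conv hw (by linarith) ho' h2 hR g4
    intro z hz hz' k
    have a1 := h4 z hz hz' k
    have a2 := c1 z hz hz' k
    have e2 : dt (fr o k) ((ln o'').pos z - (ln o).pos z) =
        dt (fr o k) ((ln o').pos z - (ln o).pos z) +
        dt (fr o k) ((ln o'').pos z - (ln o').pos z) := by simp only [dt_sub]; ring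
    rw [e2]
    refine (abs_add_le _ _).trans ?_
    have hVk := hV k
    have : K * (R • w) k ≤ K * K' * (R • w) k := mul_le_mul_of_nonneg_right hKK hVk
    linarith
  · rw [← h1] at g4 g5
    have c1 := Cls.conv hw (by linarith) ho' g3 hR h5
    intro z hz hz' k
    have a1 := g5 z hz hz' k
    have a2 := c1 z hz hz' k
    have e2 : dt (fr o'' k) ((ln o'').pos z - (ln o).pos z) =
        dt (fr o'' k) ((ln o').pos z - (ln o).pos z) +
        dt (fr o'' k) ((ln o'').pos z - (ln o').pos z) := by simp only [dt_sub]; ring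
    rw [e2]
    refine (abs_add_le _ _).trans ?_
    have hVk := hV k
    have : K' * (R • w) k ≤ K * K' * (R • w) k := mul_le_mul_of_nonneg_right hKK' hVk
    linarith

/-- integer coordinates of a label seen from `o` -/
noncomputable def qd (w : V3) (R : ℝ) (fr : Ω → Fin 3 → V3) (ln : Ω → Ln4) (cell : Ω → ℤ)
    (z0 : ℤ → ℝ) (ρ K : ℝ) (o l : Ω) :
    (Fin 3 → Fin 3 → ℤ) × (Fin 3 → ℤ) × (Fin 3 → ℤ) :=
  (fun k j => ⌊3 * K * (dt (fr o k) (fr l j) * w j / w k)⌋,
    fun k => ⌊3 * K * (dt (fr o k) ((ln l).pos (z0 (cell o)) - (ln o).pos (z0 (cell o))) /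
      (R * w k))⌋,
    fun k => ⌊3 * K * (dt (fr o k) ((ln l).pos (z0 (cell o) + ρ) -
      (ln o).pos (z0 (cell o) + ρ)) / (R * w k))⌋)

/-- same integer coordinates: close vectors -/
theorem near_of_qd (hw : ∀ i, 0 < w i) {K : ℝ} (hK : 1 ≤ K) {eo el : Fin 3 → V3} (hO : Ortho eo)
    (hc : Cmp K w el eo) {R : ℝ} (hR : 0 < R) {δ δ' : V3}
    (h : ∀ k, ⌊3 * K * (dt (eo k) δ / (R * w k))⌋ = ⌊3 * K * (dt (eo k) δ' / (R * w k))⌋) (m : Fin 3) :
    |dt (el m) (δ' - δ)| ≤ R * w m := by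
  have h1 : ∀ k, |dt (eo k) (δ' - δ)| ≤ (R / (3 * K)) * w k := by
    intro k
    have h2 := Int.abs_sub_lt_one_of_floor_eq_floor (h k)
    have hwk := hw k
    have e1 : 3 * K * (dt (eo k) δ / (R * w k)) - 3 * K * (dt (eo k) δ' / (R * w k)) =
        -(3 * K / (R * w k) * dt (eo k) (δ' - δ)) := by rw [dt_sub]; ring
    rw [e1, abs_neg, abs_mul, abs_of_pos (by positivity : 0 < 3 * K / (R * w k))] at h2
    have h3 : |dt (eo k) (δ' - δ)| = (R / (3 * K) * w k) *
        (3 * K / (R * w k) * |dt (eo k) (δ' - δ)|) := by field_simp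
    rw [h3]
    exact mul_le_of_le_one_right (by positivity) h2.le
  have h4 := Cmp.vec hw (K' := R / (3 * K)) (by positivity) hO hc h1 m
  refine h4.trans (le_of_eq ?_)
  field_simp

/-- **number of separated labels comparable to one object** -/
theorem labels_le (hw : ∀ i, 0 < w i) (hR : 0 < R) (hρ : 0 < ρ) {N : Finset Ω}
    (hN : ∀ l ∈ N, Ortho (fr l)) (hsep : ∀ l ∈ N, ∀ l' ∈ N, NK w R fr ln cell z0 ρ 2 l l' → l = l')
    {o : Ω} (ho : Ortho (fr o)) {K : ℝ} (hK : 1 ≤ K) {S : Finset Ω} (hS : S ⊆ N)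
    (hnear : ∀ l ∈ S, NK w R fr ln cell z0 ρ K o l) :
    (S.card : ℝ) ≤ (11 * K ^ 2) ^ 15 := by
  classical
  set B : ℕ := ⌈4 * K ^ 2⌉₊ with hB
  have hBr : 4 * K ^ 2 ≤ (B : ℝ) := Nat.le_ceil _
  have hB2 : (B : ℝ) ≤ 4 * K ^ 2 + 1 := (Nat.ceil_lt_add_one (by positivity)).le
  set I1 : Finset ℤ := Icc (-(B : ℤ)) B with hI1
  have hcard : I1.card = 2 * B + 1 := by
    rw [hI1, Int.card_Icc]; omega
  have hfl : ∀ x : ℝ, |x| ≤ K → ⌊3 * K * x⌋ ∈ I1 := by
    intro x hx
    rw [abs_le] at hx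
    rw [hI1, mem_Icc]
    have hK2 : K ≤ K ^ 2 := by nlinarith
    have h1 : 3 * K * x ≤ 3 * K ^ 2 := by nlinarith
    have h2 : -(3 * K ^ 2) ≤ 3 * K * x := by nlinarith
    constructor
    · rw [Int.le_floor]; push_cast; nlinarith
    · have : ((⌊3 * K * x⌋ : ℤ) : ℝ) ≤ ((B : ℤ) : ℝ) := by
        push_cast
        exact (Int.floor_le _).trans (by nlinarith)
      exact_mod_cast this
  set T : Finset ((Fin 3 → Fin 3 → ℤ) × (Fin 3 → ℤ) × (Fin 3 → ℤ)) :=
    (Fintype.piFinset fun _ => Fintype.piFinset fun _ => I1) ×ˢ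
      ((Fintype.piFinset fun _ => I1) ×ˢ (Fintype.piFinset fun _ => I1)) with hT
  have hTc : T.card = (2 * B + 1) ^ 15 := by
    rw [hT, card_product, card_product, Fintype.card_piFinset, Fintype.card_piFinset]
    simp only [Fintype.card_piFinset, prod_const, card_univ, Fintype.card_fin, hcard]
    ring
  have hmap : ∀ l ∈ S, qd w R fr ln cell z0 ρ K o l ∈ T := by
    intro l hl
    obtain ⟨h1, h2, h3, h4, h5⟩ := hnear l hl
    rw [hT, mem_product, mem_product, Fintype.mem_piFinset, Fintype.mem_piFinset,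
      Fintype.mem_piFinset]
    refine ⟨fun k => Fintype.mem_piFinset.2 fun j => ?_, fun k => ?_, fun k => ?_⟩
    · refine hfl _ ?_
      have hwk := hw k
      rw [abs_div, abs_mul, abs_of_pos (hw j), abs_of_pos hwk, div_le_iff₀ hwk]
      exact h2 k j
    · refine hfl _ ?_
      have hwk := hw k
      rw [abs_div, abs_of_pos (by positivity : 0 < R * w k), div_le_iff₀ (by positivity)]
      exact h4 _ le_rfl (by linarith) k
    · refine hfl _ ?_
      have hwk := hw k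
      rw [abs_div, abs_of_pos (by positivity : 0 < R * w k), div_le_iff₀ (by positivity)]
      exact h4 _ (by linarith) le_rfl k
  have hinj : Set.InjOn (qd w R fr ln cell z0 ρ K o) (S : Set Ω) := by
    intro l hl l' hl' heq
    obtain ⟨h1, h2, h3, h4, h5⟩ := hnear l hl
    obtain ⟨g1, g2, g3, g4, g5⟩ := hnear l' hl'
    have hOl := hN l (hS hl)
    have hOl' := hN l' (hS hl')
    unfold qd at heq
    simp only [Prod.mk.injEq] at heq
    obtain ⟨q1, q2, q3⟩ := heq
    -- frames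
    have fra : ∀ (l l' : Ω), Ortho (fr l) → Cmp K w (fr l) (fr o) →
        (∀ k j, ⌊3 * K * (dt (fr o k) (fr l j) * w j / w k)⌋ =
          ⌊3 * K * (dt (fr o k) (fr l' j) * w j / w k)⌋) → Cmp 2 w (fr l) (fr l') := by
      intro l l' hO hC hq i j
      have hwj := hw j
      have hwi := hw i
      have h6 := near_of_qd hw hK ho hC (R := 1 / w j) (by positivity) (δ := fr l j)
        (δ' := fr l' j) (fun k => by
          have hwk := hw k
          have e1 : ∀ y : ℝ, y / (1 / w j * w k) = y * w j / w k := fun y => by field_simp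
          rw [e1, e1]
          exact hq k j) i
      rw [dt_sub] at h6
      have h7 : |dt (fr l i) (fr l' j)| ≤ |dt (fr l i) (fr l j)| + 1 / w j * w i := by
        have := abs_sub_abs_le_abs_sub (dt (fr l i) (fr l' j)) (dt (fr l i) (fr l j))
        linarith
      have h8 := (Cmp.refl hw hO) i j
      calc |dt (fr l i) (fr l' j)| * w j ≤ (|dt (fr l i) (fr l j)| + 1 / w j * w i) * w j :=
            mul_le_mul_of_nonneg_right h7 hwj.le
        _ = |dt (fr l i) (fr l j)| * w j + w i := by field_simp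
        _ ≤ 2 * w i := by linarith
    have q1' : ∀ k j, ⌊3 * K * (dt (fr o k) (fr l j) * w j / w k)⌋ =
        ⌊3 * K * (dt (fr o k) (fr l' j) * w j / w k)⌋ := fun k j => congrFun (congrFun q1 k) j
    have pos : ∀ (l l' : Ω), Cmp K w (fr l) (fr o) →
        (∀ k, ⌊3 * K * (dt (fr o k) ((ln l).pos (z0 (cell o)) - (ln o).pos (z0 (cell o))) /
          (R * w k))⌋ = ⌊3 * K * (dt (fr o k) ((ln l').pos (z0 (cell o)) -
            (ln o).pos (z0 (cell o))) / (R * w k))⌋) →
        (∀ k, ⌊3 * K * (dt (fr o k) ((ln l).pos (z0 (cell o) + ρ) -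
          (ln o).pos (z0 (cell o) + ρ)) / (R * w k))⌋ =
          ⌊3 * K * (dt (fr o k) ((ln l').pos (z0 (cell o) + ρ) -
          (ln o).pos (z0 (cell o) + ρ)) / (R * w k))⌋) →
        Cls 2 (R • w) (fr l) (ln l) (ln l') (z0 (cell o)) ρ := by
      intro l l' hC p1 p2
      refine Cls.of_ends hρ (fun k => ?_) (fun k => ?_)
      · have h6 := near_of_qd hw hK ho hC hR p1 k
        rw [sub_sub_sub_cancel_right] at h6
        have hwk := hw k
        simp only [Pi.smul_apply, smul_eq_mul]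
        have : 0 < R * w k := by positivity
        linarith
      · have h6 := near_of_qd hw hK ho hC hR p2 k
        rw [sub_sub_sub_cancel_right] at h6
        have hwk := hw k
        simp only [Pi.smul_apply, smul_eq_mul]
        have : 0 < R * w k := by positivity
        linarith
    refine hsep l (hS hl) l' (hS hl') ⟨h1.symm.trans g1, fra l l' hOl h3 q1',
      fra l' l hOl' g3 (fun k j => (q1' k j).symm), ?_, ?_⟩
    · rw [← h1]
      exact pos l l' h3 (fun k => congrFun q2 k) (fun k => congrFun q3 k)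
    · rw [← h1]
      exact (pos l' l g3 (fun k => (congrFun q2 k).symm) (fun k => (congrFun q3 k).symm)).swap
  have h9 : S.card ≤ T.card := card_le_card_of_injOn _ hmap hinj
  rw [hTc] at h9
  have h10 : (S.card : ℝ) ≤ ((2 * B + 1 : ℕ) : ℝ) ^ 15 := by exact_mod_cast h9
  refine h10.trans ?_
  push_cast
  have hK2 : 1 ≤ K ^ 2 := one_le_pow₀ hK
  gcongr
  linarith

end

end Crest.Agent.R136.HR829
end

-- ▼ part R136/HR7_829

/-!
# R136 (helper829): flat containers of the (line, cell) pairs, finite part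
-/

set_option autoImplicit false
set_option linter.unusedVariables false
set_option linter.unusedSectionVars false

namespace Crest.Agent.R136.HR829

open Finset
open Crest.Agent.R136.Sh605
open Crest.Agent.R138.Mk163 (zc zl rho alive own)
open Crest.Agent.R138.MkRef627 (lc kc)

section

variable (I : Finset (ℕ × ℝ)) (iu iv : ℕ) (fv : ℕ → ℤ → ℕ) (L : ℕ → Ln4)
  (fe : ℕ × ℝ → Fin 3 → V3) (w : V3)

/-- the classes of level `v` lie in boxes of frame `fe` and half-widths `K w` -/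
def FL1 (K : ℝ) : Prop := ∀ x ∈ I, ∀ y ∈ I, kc iv fv x = kc iv fv y →
  Cls K w (fe x) (L x.1) (L y.1) (zl iv (zc iv x.2)) (rho iv)

/-- frames of one class are comparable -/
def FL2 (K : ℝ) : Prop := ∀ x ∈ I, ∀ y ∈ I, kc iv fv x = kc iv fv y → Cmp K w (fe x) (fe y)

/-- frames of one line in one cell of level `u` are comparable -/
def FL3 (K : ℝ) : Prop := ∀ x ∈ I, ∀ y ∈ I, lc iu x = lc iu y → Cmp K w (fe x) (fe y)

variable {I iu iv fv L fe w}

open Classical in
/-- a chosen incidence of the object `o` -/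
noncomputable def rp (I : Finset (ℕ × ℝ)) (iu : ℕ) (o : ℕ × ℤ) : ℕ × ℝ :=
  if h : ∃ x ∈ I, lc iu x = o then h.choose else (0, 0)

theorem rp_spec {x : ℕ × ℝ} (hx : x ∈ I) : rp I iu (lc iu x) ∈ I ∧ lc iu (rp I iu (lc iu x)) = lc iu x := by
  have h : ∃ y ∈ I, lc iu y = lc iu x := ⟨x, hx, rfl⟩
  unfold rp
  rw [dif_pos h]
  exact h.choose_spec

/-- frame of an object -/
noncomputable def fo (I : Finset (ℕ × ℝ)) (iu : ℕ) (fe : ℕ × ℝ → Fin 3 → V3) (o : ℕ × ℤ) :
    Fin 3 → V3 := fe (rp I iu o)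

/-- the relation of objects -/
def NKo (I : Finset (ℕ × ℝ)) (iu iv : ℕ) (L : ℕ → Ln4) (fe : ℕ × ℝ → Fin 3 → V3) (w : V3) (K : ℝ)
    (o o' : ℕ × ℤ) : Prop :=
  NK w (2 ^ (iv - iu)) (fo I iu fe) (fun o => L o.1) (fun o => o.2) (zl iu) (rho iu) K o o'

theorem rho_ratio (huv : iu ≤ iv) : rho iu = 2 ^ (iv - iu) * rho iv := by
  unfold rho
  have : (2:ℝ) ^ iv = 2 ^ (iv - iu) * 2 ^ iu := by
    rw [← pow_add]; congr 1; omega
  rw [this]
  field_simp

/-- members of one class are comparable objects -/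
theorem class_NK (huv : iu ≤ iv) (hw : ∀ i, 0 < w i) (hO : ∀ x ∈ I, Ortho (fe x)) {K : ℝ}
    (hK : 1 ≤ K) (h1 : FL1 I iv fv L fe w K) (h2 : FL2 I iv fv fe w K) (h3 : FL3 I iu fe w K)
    {x y : ℕ × ℝ} (hx : x ∈ I) (hy : y ∈ I) (hxy : kc iv fv x = kc iv fv y) :
    NKo I iu iv L fe w (27 * K ^ 3) (lc iu x) (lc iu y) := by
  have hR : (0 : ℝ) < 2 ^ (iv - iu) := by positivity
  have hR1 : (1 : ℝ) ≤ 2 ^ (iv - iu) := one_le_pow₀ (by norm_num)
  have hK0 : 0 ≤ K := by linarith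
  obtain ⟨rx, rx'⟩ := rp_spec (iu := iu) hx
  obtain ⟨ry, ry'⟩ := rp_spec (iu := iu) hy
  have hz : zc iv x.2 = zc iv y.2 := (Prod.ext_iff.1 hxy).2
  have hzu : zc iu x.2 = zc iu y.2 := zc_nest huv hz
  have c1 := h3 _ rx _ hx rx'
  have c1' := h3 _ hx _ rx rx'.symm
  have c2 := h2 _ hx _ hy hxy
  have c2' := h2 _ hy _ hx hxy.symm
  have c3 := h3 _ hy _ ry ry'.symm
  have c3' := h3 _ ry _ hy ry'
  have d1 := (c1.trans hw hK0 hK0 (hO _ hx) c2).trans hw (by positivity) hK0 (hO _ hy) c3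
  have d2 := (c3'.trans hw hK0 hK0 (hO _ hy) c2').trans hw (by positivity) hK0 (hO _ hx) c1'
  have hV : ∀ i, 0 ≤ ((2 : ℝ) ^ (iv - iu) • w) i := fun i => by
    have := hw i
    simp only [Pi.smul_apply, smul_eq_mul]; positivity
  have hsc := sub_cell huv x.2
  have e1 : Cls (3 * K) ((2 : ℝ) ^ (iv - iu) • w) (fe x) (L x.1) (L y.1) (zl iu (zc iu x.2))
      (rho iu) :=
    Cls.ext hw hK0 (rho_pos iv) (rho_ratio huv) hR1 hsc.1 hsc.2 (h1 x hx y hy hxy)
  have e2 := Cls.conv hw (by positivity) (hO _ hx) c1 hR e1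
  have e3 := Cls.conv hw (by positivity) (hO _ hx) (c3'.trans hw hK0 hK0 (hO _ hy) c2') hR e1
  have p1 : 3 * (3 * K * K) * K ≤ 27 * K ^ 3 := by nlinarith [pow_pos (by linarith : 0 < K) 3]
  have p2 : 3 * K * (3 * K) ≤ 27 * K ^ 3 := by
    have : K ^ 2 ≤ K ^ 3 := pow_le_pow_right₀ hK (by norm_num)
    nlinarith [sq_nonneg K]
  have p3 : 3 * (3 * K * K) * (3 * K) ≤ 27 * K ^ 3 := by
    refine le_of_eq ?_; ring
  exact ⟨hzu, d1.mono hw p1, d2.mono hw p1, e2.mono hV p2, e3.mono hV p3⟩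

open Classical in
/-- **flat containers**: labels of the (line, `u`-cell) pairs, popular label of every class. -/
theorem flat_labels (huv : iu ≤ iv) (hw : ∀ i, 0 < w i) (hO : ∀ x ∈ I, Ortho (fe x)) :
    ∃ (J : Finset (ℕ × ℝ)) (lab : ℕ × ℤ → ℕ × ℤ), J ⊆ I ∧
      (∀ x ∈ I, ∃ y ∈ I, lc iu y = lab (lc iu x)) ∧
      (∀ x ∈ I, NKo I iu iv L fe w 2 (lc iu x) (lab (lc iu x))) ∧
      (∀ x ∈ J, ∀ y ∈ J, kc iv fv x = kc iv fv y → lab (lc iu x) = lab (lc iu y)) ∧
      ∀ K : ℝ, 1 ≤ K → FL1 I iv fv L fe w K → FL2 I iv fv fe w K → FL3 I iu fe w K →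
        (I.card : ℝ) ≤ (11 * (216 * K ^ 3) ^ 2) ^ 15 * J.card := by
  have hR : (0 : ℝ) < 2 ^ (iv - iu) := by positivity
  set O : Finset (ℕ × ℤ) := I.image (lc iu) with hOdef
  have hfo : ∀ o ∈ O, Ortho (fo I iu fe o) := by
    intro o ho
    rw [hOdef, mem_image] at ho
    obtain ⟨x, hx, rfl⟩ := ho
    exact hO _ (rp_spec hx).1
  obtain ⟨N, hN, hN1, hN2⟩ := exists_net O (NKo I iu iv L fe w 2)
    (fun o ho => NK.refl hw hR (hfo o ho) (by norm_num)) (fun o o' h => NK.symm h)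
  have hch : ∀ o : ℕ × ℤ, ∃ l : ℕ × ℤ, o ∈ O → l ∈ N ∧ NKo I iu iv L fe w 2 o l := by
    intro o
    by_cases ho : o ∈ O
    · obtain ⟨l, hl, hr⟩ := hN1 o ho
      exact ⟨l, fun _ => ⟨hl, hr⟩⟩
    · exact ⟨o, fun h => absurd h ho⟩
  choose lab hlab using hch
  have hmem : ∀ x ∈ I, lc iu x ∈ O := fun x hx => by rw [hOdef]; exact mem_image_of_mem _ hx
  set C0 : ℕ := I.sup fun x => ((I.filter fun y => kc iv fv y = kc iv fv x).image
    fun y => lab (lc iu y)).card with hC0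
  obtain ⟨J, hJI, hJc, hJl, -⟩ := Crest.Agent.R138.Ctn829.popular I (kc iv fv)
    (fun y => lab (lc iu y)) C0 (fun x hx => le_trans (le_of_eq (by congr!))
      (Finset.le_sup (f := fun x => ((I.filter fun y => kc iv fv y = kc iv fv x).image
        fun y => lab (lc iu y)).card) hx))
  refine ⟨J, lab, hJI, ?_, ?_, hJl, ?_⟩
  · intro x hx
    have h1 := hN (hlab _ (hmem x hx)).1
    rw [hOdef, mem_image] at h1
    exact h1
  · exact fun x hx => (hlab _ (hmem x hx)).2
  · intro K hK h1 h2 h3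
    have hK0 : 0 < K := by linarith
    have hK27 : 1 ≤ 27 * K ^ 3 := by
      have : 1 ≤ K ^ 3 := one_le_pow₀ hK
      linarith
    have hC0le : (C0 : ℝ) ≤ (11 * (216 * K ^ 3) ^ 2) ^ 15 := by
      have hall : ∀ x ∈ I, (((I.filter fun y => kc iv fv y = kc iv fv x).image
          fun y => lab (lc iu y)).card : ℝ) ≤ (11 * (216 * K ^ 3) ^ 2) ^ 15 := by
        intro x hx
        have hnearS : ∀ l ∈ (I.filter fun y => kc iv fv y = kc iv fv x).image
            (fun y => lab (lc iu y)), l ∈ N ∧ NKo I iu iv L fe w (216 * K ^ 3) (lc iu x) l := by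
          intro l hl
          rw [mem_image] at hl
          obtain ⟨y, hy, rfl⟩ := hl
          rw [mem_filter] at hy
          obtain ⟨g1, g2⟩ := hlab _ (hmem y hy.1)
          refine ⟨g1, ?_⟩
          have g3 := class_NK huv hw hO hK h1 h2 h3 hx hy.1 hy.2.symm
          have g4 := NK.trans hw hR hK27 (by norm_num : (1:ℝ) ≤ 2) (hfo _ (hmem x hx))
            (hfo _ (hmem y hy.1)) (hfo _ (hN g1)) g3 g2
          have e1 : 4 * (27 * K ^ 3) * 2 = 216 * K ^ 3 := by ring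
          rw [e1] at g4
          exact g4
        have h216 : 1 ≤ 216 * K ^ 3 := by linarith
        have := labels_le (w := w) (R := 2 ^ (iv - iu)) (fr := fo I iu fe) (ln := fun o => L o.1)
          (cell := fun o => o.2) (z0 := zl iu) (ρ := rho iu) hw hR (rho_pos iu) (N := N)
          (fun l hl => hfo l (hN hl)) hN2 (o := lc iu x) (hfo _ (hmem x hx)) h216
          (S := (I.filter fun y => kc iv fv y = kc iv fv x).image fun y => lab (lc iu y))
          (fun l hl => (hnearS l hl).1) (fun l hl => (hnearS l hl).2)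
        exact this
      rcases I.eq_empty_or_nonempty with hI | hI
      · have : C0 = 0 := by rw [hC0, hI, Finset.sup_empty]; rfl
        rw [this, Nat.cast_zero]; positivity
      · obtain ⟨x, hx, hxs⟩ := Finset.exists_mem_eq_sup I hI fun x =>
          ((I.filter fun y => kc iv fv y = kc iv fv x).image fun y => lab (lc iu y)).card
        rw [hC0, hxs]
        exact hall x hx
    have : (I.card : ℝ) ≤ (C0 : ℝ) * J.card := by exact_mod_cast hJc
    exact this.trans (mul_le_mul_of_nonneg_right hC0le (Nat.cast_nonneg _))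

/-- normalised closeness of a class in its container -/
theorem rich_cls (huv : iu ≤ iv) (hw : ∀ i, 0 < w i) (hO : ∀ x ∈ I, Ortho (fe x)) {K : ℝ}
    (hK : 1 ≤ K) (h1 : FL1 I iv fv L fe w K) (h3 : FL3 I iu fe w K)
    {x y : ℕ × ℝ} (hx : x ∈ I) (hy : y ∈ I) (hxy : kc iv fv x = kc iv fv y) {l : ℕ × ℤ}
    (hl : NKo I iu iv L fe w 2 (lc iu x) l) :
    Cls (18 * K ^ 2) w (fo I iu fe l) (L x.1) (L y.1) (zl iv (zc iv x.2)) (rho iv) := by
  have hK0 : 0 ≤ K := by linarith
  obtain ⟨rx, rx'⟩ := rp_spec (iu := iu) hx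
  have c1 := h3 _ rx _ hx rx'
  have c2 : Cmp 2 w (fo I iu fe l) (fe (rp I iu (lc iu x))) := hl.2.2.1
  have c3 := c2.trans hw (by norm_num) hK0 (hO _ rx) c1
  intro z hz hz' k
  have h4 := Cmp.vec hw hK0 (hO _ hx) c3 (h1 x hx y hy hxy z hz hz') k
  refine h4.trans (le_of_eq ?_)
  ring

end

end Crest.Agent.R136.HR829
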