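import Crest.Agent.R136.HR5_829
import Crest.Agent.R136.GD2_186
import Crest.Agent.R136.Fl1_808
import Crest.Agent.R136.HR7_829
import Crest.Agent.R136.NatT_550
import Crest.Agent.R138.ArgM1_163
import Crest.Agent.R136.HR10_829
import Crest.Agent.R138.LmAN_57
import Crest.Agent.R136.TopB_550
import Crest.Agent.R136.C1d_865

-- ▼ part R136/HR8_829
section

/-!
# R136 (helper829): comparable flags give comparable frames
-/

set_option autoImplicit false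
set_option linter.unusedVariables false
set_option linter.unusedSectionVars false

namespace Crest.Agent.R136.HR829

open Crest.Agent.R136.Sh605
open Crest.Agent.R136.GeoQ186

theorem frn_one (Fa Fb : ℝ) : 1 ≤ frn Fa Fb := by
  unfold frn; rw [Real.one_le_sqrt]; nlinarith [sq_nonneg Fa, sq_nonneg Fb]

theorem frm1_one (Fa Fb E : ℝ) : 1 ≤ frm1 Fa Fb E := by
  unfold frm1; rw [Real.one_le_sqrt]; nlinarith [sq_nonneg (Fa + Fb * E), sq_nonneg E]

/-- division by a number `≥ 1` -/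
theorem div_le_aux {x y ν : ℝ} (hν : 1 ≤ ν) (h : |x| ≤ y) : |x / ν| ≤ y := by
  rw [abs_div, abs_of_pos (by linarith : 0 < ν)]
  exact (div_le_self (abs_nonneg _) hν).trans h

theorem mul_one_le {x y : ℝ} (hx : 1 ≤ x) (hy : 1 ≤ y) : 1 ≤ x * y := by nlinarith

set_option maxHeartbeats 2000000 in
theorem cmp_fr0 {Fa Fb E Fa' Fb' E' K : ℝ} {w : V3} (hw : ∀ i, 0 < w i) (h02 : w 0 ≤ w 2)
    (h21 : w 2 ≤ w 1) (hK : 1 ≤ K) (hFa : |Fa| ≤ 1) (hFb : |Fb| ≤ 1) (hE1 : |E| ≤ 1)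
    (hFa' : |Fa'| ≤ 1) (hFb' : |Fb'| ≤ 1) (hE1' : |E'| ≤ 1)
    (hE : |E' - E| * w 1 ≤ K * w 2) (hB : |Fb' - Fb| * w 2 ≤ K * w 0)
    (hA : |(Fa' - Fa) + E * (Fb' - Fb)| * w 1 ≤ K * w 0) :
    Cmp (10 * K ^ 2) w (fr Fa Fb E) (fr Fa' Fb' E') := by
  have w0 := hw 0
  have w1 := hw 1
  have w2 := hw 2
  have hK2 : K ≤ K ^ 2 := by nlinarith
  have o1 := fr_ortho Fa Fb E
  have o2 := fr_ortho Fa' Fb' E'
  have k0 : 0 ≤ K := by linarith
  set ν := frn Fa Fb with hν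
  set μ := frm1 Fa Fb E with hμ
  set ν' := frn Fa' Fb' with hν'
  set μ' := frm1 Fa' Fb' E' with hμ'
  have n1 : 1 ≤ ν := frn_one _ _
  have n2 : 1 ≤ μ := frm1_one _ _ _
  have n3 : 1 ≤ ν' := frn_one _ _
  have n4 : 1 ≤ μ' := frm1_one _ _ _
  have hm' : |Fa' + Fb' * E'| ≤ 2 := by
    have : |Fb' * E'| ≤ 1 := by
      rw [abs_mul]; nlinarith [abs_nonneg Fb', abs_nonneg E']
    exact (abs_add_le _ _).trans (by linarith)
  have hm : |Fa + Fb * E| ≤ 2 := by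
    have : |Fb * E| ≤ 1 := by
      rw [abs_mul]; nlinarith [abs_nonneg Fb, abs_nonneg E]
    exact (abs_add_le _ _).trans (by linarith)
  have hEB : |(E' - E) * (Fb' - Fb)| * w 1 ≤ K ^ 2 * w 0 := by
    rw [abs_mul]
    calc |E' - E| * |Fb' - Fb| * w 1 = |Fb' - Fb| * (|E' - E| * w 1) := by ring
      _ ≤ |Fb' - Fb| * (K * w 2) := mul_le_mul_of_nonneg_left hE (abs_nonneg _)
      _ = K * (|Fb' - Fb| * w 2) := by ring
      _ ≤ K * (K * w 0) := mul_le_mul_of_nonneg_left hB k0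
      _ = K ^ 2 * w 0 := by ring
  have hFF : |Fa' - Fa| * w 2 ≤ 2 * K * w 0 := by
    have e : Fa' - Fa = ((Fa' - Fa) + E * (Fb' - Fb)) - E * (Fb' - Fb) := by ring
    have a1 : |Fa' - Fa| ≤ |(Fa' - Fa) + E * (Fb' - Fb)| + |Fb' - Fb| := by
      rw [e]
      refine (abs_sub _ _).trans ?_
      have : |E * (Fb' - Fb)| ≤ |Fb' - Fb| := by
        rw [abs_mul]; nlinarith [abs_nonneg (Fb' - Fb)]
      have e2 : (Fa' - Fa) + E * (Fb' - Fb) - E * (Fb' - Fb) + E * (Fb' - Fb) =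
        (Fa' - Fa) + E * (Fb' - Fb) := by ring
      rw [e2]
      linarith
    have a2 : |(Fa' - Fa) + E * (Fb' - Fb)| * w 2 ≤ K * w 0 :=
      (mul_le_mul_of_nonneg_left h21 (abs_nonneg _)).trans hA
    calc |Fa' - Fa| * w 2 ≤ (|(Fa' - Fa) + E * (Fb' - Fb)| + |Fb' - Fb|) * w 2 :=
          mul_le_mul_of_nonneg_right a1 w2.le
      _ ≤ 2 * K * w 0 := by linarith
  -- the three nontrivial entries
  have c01 : |dt (fr Fa Fb E 0) (fr Fa' Fb' E' 1)| * w 1 ≤ 10 * K ^ 2 * w 0 := by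
    have e1 : dt (fr Fa Fb E 0) (fr Fa' Fb' E' 1) =
        (((Fa' - Fa) + E * (Fb' - Fb)) + (E' - E) * (Fb' - Fb)) / (ν * μ') := by
      simp only [fr, dt, Matrix.cons_val, ← hν, ← hμ']
      field_simp
      ring
    have e2 := div_le_aux (mul_one_le n1 n4)
      (le_refl |((Fa' - Fa) + E * (Fb' - Fb)) + (E' - E) * (Fb' - Fb)|)
    rw [e1]
    refine (mul_le_mul_of_nonneg_right (e2.trans (abs_add_le _ _)) w1.le).trans ?_
    have : K * w 0 ≤ K ^ 2 * w 0 := mul_le_mul_of_nonneg_right hK2 w0.le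
    nlinarith
  have c02 : |dt (fr Fa Fb E 0) (fr Fa' Fb' E' 2)| * w 2 ≤ 10 * K ^ 2 * w 0 := by
    have e1 : dt (fr Fa Fb E 0) (fr Fa' Fb' E' 2) =
        ((Fa' - Fa) * (-Fb' * (Fa' + Fb' * E') - E') +
          (Fb' - Fb) * (1 + Fa' * (Fa' + Fb' * E'))) / (ν * (ν' * μ')) := by
      simp only [fr, dt, Matrix.cons_val, ← hν, ← hμ', ← hν']
      field_simp
      ring
    have b1 : |-Fb' * (Fa' + Fb' * E') - E'| ≤ 3 := by
      refine (abs_sub _ _).trans ?_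
      rw [abs_mul, abs_neg]
      nlinarith [abs_nonneg Fb', abs_nonneg (Fa' + Fb' * E')]
    have b2 : |1 + Fa' * (Fa' + Fb' * E')| ≤ 3 := by
      refine (abs_add_le _ _).trans ?_
      rw [abs_mul, abs_one]
      nlinarith [abs_nonneg Fa', abs_nonneg (Fa' + Fb' * E')]
    have e2 := div_le_aux (mul_one_le n1 (mul_one_le n3 n4))
      (le_refl |(Fa' - Fa) * (-Fb' * (Fa' + Fb' * E') - E') +
          (Fb' - Fb) * (1 + Fa' * (Fa' + Fb' * E'))|)
    have e3 : |(Fa' - Fa) * (-Fb' * (Fa' + Fb' * E') - E') +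
          (Fb' - Fb) * (1 + Fa' * (Fa' + Fb' * E'))| ≤ 3 * |Fa' - Fa| + 3 * |Fb' - Fb| := by
      refine (abs_add_le _ _).trans ?_
      rw [abs_mul, abs_mul]
      nlinarith [abs_nonneg (Fa' - Fa), abs_nonneg (Fb' - Fb)]
    rw [e1]
    refine (mul_le_mul_of_nonneg_right (e2.trans e3) w2.le).trans ?_
    have : K * w 0 ≤ K ^ 2 * w 0 := mul_le_mul_of_nonneg_right hK2 w0.le
    nlinarith
  have c21 : |dt (fr Fa Fb E 2) (fr Fa' Fb' E' 1)| * w 1 ≤ 10 * K ^ 2 * w 2 := by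
    have e1 : dt (fr Fa Fb E 2) (fr Fa' Fb' E' 1) =
        ((-Fa * E + Fb) * (((Fa' - Fa) + E * (Fb' - Fb)) + Fb' * (E' - E)) +
          (1 + Fa * (Fa + Fb * E)) * (E' - E)) / (ν * μ * μ') := by
      simp only [fr, dt, Matrix.cons_val, ← hν, ← hμ', ← hμ]
      field_simp
      ring
    have b1 : |-Fa * E + Fb| ≤ 2 := by
      refine (abs_add_le _ _).trans ?_
      rw [abs_mul, abs_neg]
      nlinarith [abs_nonneg Fa, abs_nonneg E]
    have b2 : |1 + Fa * (Fa + Fb * E)| ≤ 3 := by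
      refine (abs_add_le _ _).trans ?_
      rw [abs_mul, abs_one]
      nlinarith [abs_nonneg Fa, abs_nonneg (Fa + Fb * E)]
    have b3 : |((Fa' - Fa) + E * (Fb' - Fb)) + Fb' * (E' - E)| ≤
        |(Fa' - Fa) + E * (Fb' - Fb)| + |E' - E| := by
      refine (abs_add_le _ _).trans ?_
      rw [abs_mul]
      nlinarith [abs_nonneg (E' - E)]
    have e2 := div_le_aux (mul_one_le (mul_one_le n1 n2) n4)
      (le_refl |(-Fa * E + Fb) * (((Fa' - Fa) + E * (Fb' - Fb)) + Fb' * (E' - E)) +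
          (1 + Fa * (Fa + Fb * E)) * (E' - E)|)
    have e3 : |(-Fa * E + Fb) * (((Fa' - Fa) + E * (Fb' - Fb)) + Fb' * (E' - E)) +
          (1 + Fa * (Fa + Fb * E)) * (E' - E)| ≤
        2 * (|(Fa' - Fa) + E * (Fb' - Fb)| + |E' - E|) + 3 * |E' - E| := by
      refine (abs_add_le _ _).trans ?_
      rw [abs_mul, abs_mul]
      have := mul_le_mul b1 b3 (abs_nonneg _) (by norm_num)
      have := mul_le_mul_of_nonneg_right b2 (abs_nonneg (E' - E))
      linarith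
    rw [e1]
    refine (mul_le_mul_of_nonneg_right (e2.trans e3) w1.le).trans ?_
    have h1 : K * w 2 ≤ K ^ 2 * w 2 := mul_le_mul_of_nonneg_right hK2 w2.le
    have h2 : K * w 0 ≤ K * w 2 := mul_le_mul_of_nonneg_left h02 k0
    nlinarith
  -- trivial entries
  have triv : ∀ i j, w j ≤ w i → |dt (fr Fa Fb E i) (fr Fa' Fb' E' j)| * w j ≤
      10 * K ^ 2 * w i := by
    intro i j hij
    have h1 := Crest.Agent.R136.Fl808.abs_dt_le_one o2 o1 i j
    have hi := hw i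
    have hj := hw j
    have : |dt (fr Fa Fb E i) (fr Fa' Fb' E' j)| * w j ≤ 1 * w i :=
      mul_le_mul h1 hij hj.le zero_le_one
    have h3 : 1 * w i ≤ 10 * K ^ 2 * w i := by
      refine mul_le_mul_of_nonneg_right ?_ hi.le
      nlinarith
    exact this.trans h3
  intro i j
  fin_cases i <;> fin_cases j
  · exact triv 0 0 le_rfl
  · exact c01
  · exact c02
  · exact triv 1 0 (h02.trans h21)
  · exact triv 1 1 le_rfl
  · exact triv 1 2 h21
  · exact triv 2 0 h02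
  · exact c21
  · exact triv 2 2 le_rfl

theorem cmp_fpv {π : Equiv.Perm (Fin 3)} {K : ℝ} {w : V3} {e e' : Fin 3 → V3}
    (h : Cmp K w e e') : Cmp K w (fpv π e) (fpv π e') := by
  intro i j
  have : dt (fpv π e i) (fpv π e' j) = dt (e i) (e' j) := dt_pv π.symm (e i) (e' j)
  rw [this]
  exact h i j

theorem ortho_fpv {π : Equiv.Perm (Fin 3)} {e : Fin 3 → V3} (h : Ortho e) : Ortho (fpv π e) := by
  intro i j
  have : dt (fpv π e i) (fpv π e j) = dt (e i) (e j) := dt_pv π.symm (e i) (e j)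
  rw [this]
  exact h i j

end Crest.Agent.R136.HR829
end

-- ▼ part R136/HR9_829
section

/-!
# R136 (helper829): the flat containers of the (line, cell) pairs in the thick branch, no visible tie

`fl_seq` : in the thick branch (`ThickPre`) without visible tie, the classes of level `v` lie in
flat boxes around their members, with comparable frames (`FL1`, `FL2`, `FL3` of `HR7_829`).
-/

set_option autoImplicit false
set_option linter.unusedVariables false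
set_option linter.unusedSectionVars false

open Finset Filter Topology

namespace Crest.Agent.R136.HR829

open Crest.Agent.R138.Ex926 (Base U)
open Crest.Agent.R138.Dp76 (dpow_pos dpow_add dpow_le dpow_le_one)
open Crest.Agent.R138.Mk163 (zc zl rho alive)
open Crest.Agent.R138.MkRef627 (lc kc mem_alive)
open Crest.Agent.R138.ArgM163 (ev_const)
open Crest.Agent.R136.MkA627
open Crest.Agent.R136.NetQ186
open Crest.Agent.R136.GeoQ186
open Crest.Agent.R136.Wq638 (couQ pathQ ownQ incQ uH uA uB uY prQ prQ_pos btQ wtQ isSl sfac_slot pathQ_slot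
  uH_pos uA_pos uB_pos uY_pos BigQ)
open Crest.Agent.R136.Top484
open Crest.Agent.R136.Sh605
open Crest.Agent.R136.NatT550
open Crest.Agent.R136.K4

section

variable {σ : Type*} {B : Base} {I : ℕ → Finset (ℕ × ℝ)} {G : Geo σ (Fin 3)} {lev : ℕ → ℚ → ℕ}
    {A : ℕ → ℝ} {c Λ : ℝ → ℝ} {θ : Fin 3 → ℝ} {f : ℕ → ℚ → ℕ → ℤ → ℕ} {b : ℕ → ℚ → ℕ → σ}
    {vm : ℕ → ℚ → ℝ} {w : Fin 3 → ℕ → ℚ → ℝ}

theorem w_lim (h : MkA B I G lev A c Λ (fun j v => θ j * (1 - v)) f b vm w) (k : Fin 3) {v : ℚ}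
    (h0 : 0 ≤ v) (h1 : v ≤ 1) :
    Tendsto (fun n => Real.log (w k n v / w k n 0) / B.L n) U (𝓝 (-((1 - θ k) * v))) := by
  have t0 := h.tau k 0 le_rfl zero_le_one
  have t1 := h.tau k v h0 h1
  have tl := h.lev_lim 0 v le_rfl h0 h1
  have := (t0.sub t1).sub tl
  have e1 : θ k * (1 - ((0 : ℚ) : ℝ)) - θ k * (1 - (v : ℝ)) - ((v : ℝ) - ((0 : ℚ) : ℝ)) =
      -((1 - θ k) * v) := by push_cast; ring
  rw [e1] at this
  refine this.congr' ?_
  filter_upwards [h.wpos k 0 le_rfl zero_le_one, h.wpos k v h0 h1,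
    h.wpos k 1 zero_le_one le_rfl] with n a0 a1 a2
  have r0 := rho_pos (lev n 0)
  have r1 := rho_pos (lev n 1)
  have rv := rho_pos (lev n v)
  rw [Real.log_div (div_pos r0 a0).ne' (div_pos r1 a2).ne',
    Real.log_div (div_pos rv a1).ne' (div_pos r1 a2).ne', Real.log_div r0.ne' a0.ne',
    Real.log_div rv.ne' a1.ne', Real.log_div a1.ne' a0.ne',
    Crest.Agent.R136.ArgA163.log_rho, Crest.Agent.R136.ArgA163.log_rho]
  ring

theorem w_bd (h : MkA B I G lev A c Λ (fun j v => θ j * (1 - v)) f b vm w) (k : Fin 3) {v : ℚ}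
    (h0 : 0 ≤ v) (h1 : v ≤ 1) {ε : ℝ} (hε : 0 < ε) : ∀ᶠ n in (U : Filter ℕ),
      w k n 0 * B.d n ^ ((1 - θ k) * v + ε) ≤ w k n v ∧
      w k n v ≤ w k n 0 * B.d n ^ ((1 - θ k) * v - ε) := by
  have hl := w_lim h k h0 h1
  filter_upwards [h.wpos k 0 le_rfl zero_le_one, h.wpos k v h0 h1,
    hl.eventually_lt_const (show -((1 - θ k) * v) < -((1 - θ k) * v) + ε by linarith),
    hl.eventually_const_lt (show -((1 - θ k) * v) - ε < -((1 - θ k) * v) by linarith)]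
    with n a0 a1 a2 a3
  have hL := B.L_pos n
  rw [div_lt_iff₀ hL, Real.log_div a1.ne' a0.ne'] at a2
  rw [lt_div_iff₀ hL, Real.log_div a1.ne' a0.ne'] at a3
  have d1 := dpow_pos B n ((1 - θ k) * v + ε)
  have d2 := dpow_pos B n ((1 - θ k) * v - ε)
  unfold Base.L at a2 a3
  constructor
  · rw [← Real.log_le_log_iff (mul_pos a0 d1) a1, Real.log_mul a0.ne' d1.ne',
      Real.log_rpow (B.pos n)]
    linarith
  · rw [← Real.log_le_log_iff a1 (mul_pos a0 d2), Real.log_mul a0.ne' d2.ne',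
      Real.log_rpow (B.pos n)]
    linarith

theorem ratio_bd {a a' b b' x y z : ℝ} {B : Base} {n : ℕ} (ha : 0 < a) (hb : 0 < b) (hb' : 0 < b')
    (h1 : a * B.d n ^ x ≤ a') (h2 : b' ≤ b * B.d n ^ y) (hz : z = x - y) :
    a / b * B.d n ^ z ≤ a' / b' := by
  rw [le_div_iff₀ hb']
  have dx := dpow_pos B n x
  have dz := dpow_pos B n z
  calc a / b * B.d n ^ z * b' ≤ a / b * B.d n ^ z * (b * B.d n ^ y) :=
        mul_le_mul_of_nonneg_left h2 (by positivity)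
    _ = a * (B.d n ^ z * B.d n ^ y) := by field_simp
    _ = a * B.d n ^ x := by rw [← dpow_add, hz]; congr 2; ring
    _ ≤ a' := h1

theorem pr_bd (h : MkA B I G lev A c Λ (fun j v => θ j * (1 - v)) f b vm w) {k : Fin 11}
    (hk : isSl k) {v : ℚ} (h0 : 0 ≤ v) (h1 : v ≤ 1) {ε : ℝ} (hε : 0 < ε) :
    ∀ᶠ n in (U : Filter ℕ), prQ w k n 0 * B.d n ^ (btQ θ k * v + ε) ≤ prQ w k n v := by
  have hw : ∀ᶠ n in (U : Filter ℕ), ∀ k, 0 < w k n 0 :=
    Filter.eventually_all.2 fun k => h.wpos k 0 le_rfl zero_le_one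
  have hw' : ∀ᶠ n in (U : Filter ℕ), ∀ k, 0 < w k n v :=
    Filter.eventually_all.2 fun k => h.wpos k v h0 h1
  filter_upwards [hw, hw', w_bd h 0 h0 h1 (half_pos hε), w_bd h 1 h0 h1 (half_pos hε),
    w_bd h 2 h0 h1 (half_pos hε)] with n a a' b0 b1 b2
  rcases hk with rfl | rfl | rfl
  · simp only [prQ, btQ]
    exact ratio_bd (a 2) (a 1) (a' 1) b2.1 b1.2 (by simp; ring)
  · simp only [prQ, btQ]
    exact ratio_bd (a 0) (a 2) (a' 2) b0.1 b2.2 (by simp; ring)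
  · simp only [prQ, btQ]
    exact ratio_bd (a 0) (a 1) (a' 1) b0.1 b1.2 (by simp; ring)

end

open Classical in
/-- order of the widths of the marks -/
theorem w_ord {B : Base} {I : ℕ → Finset (ℕ × ℝ)} {L : ℕ → ℕ → Ln4} {r0 : ℕ → ℝ}
    {wr cr : Fin 3 → ℕ → ℝ} {q : Fin 3 → ℝ}
    {lev : ℕ → ℚ → ℕ} {A : ℕ → ℝ} {c Λ : ℝ → ℝ} {τ : Fin 3 → ℝ → ℝ}
    {f : ℕ → ℚ → ℕ → ℤ → ℕ} {b : ℕ → ℚ → ℕ → Plk4} {vm : ℕ → ℚ → ℝ} {w : Fin 3 → ℕ → ℚ → ℝ}
    (h : MkA B I (geo4 L r0 wr cr q) lev A c Λ τ f b vm w) {v : ℚ} (h0 : 0 ≤ v) (h1 : v ≤ 1) :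
    ∀ᶠ n in (U : Filter ℕ), w 0 n v ≤ w 2 n v ∧ w 2 n v ≤ w 1 n v ∧ r0 n ≤ w 0 n v ∧
      w 1 n v ≤ rho (lev n v) ∧
      vm n v = w 0 n v * w 2 n v * w 1 n v * ((w 0 n v / rho (lev n v)) ^ q 0 *
        (w 1 n v / rho (lev n v)) ^ q 1 * (w 2 n v / rho (lev n v)) ^ q 2) := by
  filter_upwards [h.mark v h0 h1, h.ne] with n hn hne
  obtain ⟨x, hx⟩ := hne
  have hal : x.1 ∈ alive (I n) (lev n v) (zc (lev n v) x.2) := mem_alive.2 ⟨x, hx, rfl, rfl⟩
  obtain ⟨h2, h3, h4, h5⟩ := hn _ _ hal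
  have e0 := h5 0
  have e1 := h5 1
  have e2 := h5 2
  simp only [geo4, Matrix.cons_val] at e0 e1 e2
  have g1 := h3.1.a_le
  have g2 := h3.1.w_le
  have g3 := h3.1.r0_le
  have g4 := h3.2.1
  rw [e0, e2] at g1
  rw [e1, e2] at g2
  rw [e0] at g3
  rw [e1] at g4
  refine ⟨g1, g2, g3, g4, ?_⟩
  rw [← h4]
  simp only [geo4]
  rw [e0, e1, e2]

section

variable {η : ℝ} {p : Par4} {D : Dat4} {π : Equiv.Perm (Fin 3)} {eE fA fB : ℕ → ℕ × ℝ → ℝ}
  {V T : Fin 11 → Prop} {w0 R T0 : ℝ} {PD : Set (Fin 11 → ℝ)}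

/-- widths of level `v` as a vector -/
def wv (w : Fin 3 → ℕ → ℚ → ℝ) (v : ℚ) (n : ℕ) : V3 := fun k => w k n v

/-- the frames of the flags -/
noncomputable def ffr (π : Equiv.Perm (Fin 3)) (eE fA fB : ℕ → ℕ × ℝ → ℝ) (n : ℕ) (x : ℕ × ℝ) :
    Fin 3 → V3 := fpv π (fr (fA n x) (fB n x) (eE n x))

theorem ffr_ortho (n : ℕ) (x : ℕ × ℝ) : Ortho (ffr π eE fA fB n x) := ortho_fpv (fr_ortho _ _ _)

/-- closeness in the slots gives comparable frames -/
theorem cmp_slots (h : ThickPre η p D π eE fA fB V T w0 R T0 PD) {v : ℚ} (h0 : 0 ≤ v)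
    (h1 : v ≤ 1) {ε : ℝ} (hε : 0 < ε) : ∀ᶠ n in (U : Filter ℕ), ∀ x ∈ D.I n, ∀ y ∈ D.I n,
      (∀ k, isSl k → |couQ D.B D.lev D.w w0 (incQ π D.L eE fA fB) n x y k| ≤
        D.B.d n ^ (wtQ k * w0 + btQ p.θ k * v - ε)) →
      Cmp (10 * (D.B.d n ^ (-(2 * ε))) ^ 2) (wv D.w v n) (ffr π eE fA fB n x)
        (ffr π eE fA fB n y) := by
  have hm := h.pre.mka
  have hw : ∀ᶠ n in (U : Filter ℕ), ∀ k, 0 < D.w k n 0 :=
    Filter.eventually_all.2 fun k => hm.wpos k 0 le_rfl zero_le_one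
  have hw' : ∀ᶠ n in (U : Filter ℕ), ∀ k, 0 < D.w k n v :=
    Filter.eventually_all.2 fun k => hm.wpos k v h0 h1
  filter_upwards [hw, hw', w_ord hm h0 h1, pr_bd hm (k := 2) (Or.inl rfl) h0 h1 hε,
    pr_bd hm (k := 3) (Or.inr (Or.inl rfl)) h0 h1 hε,
    pr_bd hm (k := 4) (Or.inr (Or.inr rfl)) h0 h1 hε] with n a a' ho b2 b3 b4 x hx y hy hs
  obtain ⟨f1, f2, f3⟩ := h.flag n x hx
  obtain ⟨g1, g2, g3⟩ := h.flag n y hy
  obtain ⟨o1, o2, -⟩ := ho
  have hK : 1 ≤ D.B.d n ^ (-(2 * ε)) := by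
    have := dpow_le D.B n (a := -(2 * ε)) (b := 0) (by linarith)
    rwa [Real.rpow_zero] at this
  have key : ∀ k, isSl k → |coQ (incQ π D.L eE fA fB n x) (incQ π D.L eE fA fB n y) k| ≤
      D.B.d n ^ (-(2 * ε)) * prQ D.w k n v := by
    intro k hk
    have h1 := hs k hk
    unfold couQ at h1
    have pp := prQ_pos (k := k) a
    have dd := dpow_pos D.B n (wtQ k * w0)
    rw [coQ_scl (uH_pos n).ne' (uA_pos (a 1)).ne' (uB_pos (a 2)).ne' (uY_pos (a 0)).ne',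
      sfac_slot hk a, abs_mul, abs_of_pos (div_pos dd pp)] at h1
    have h2 : |coQ (incQ π D.L eE fA fB n x) (incQ π D.L eE fA fB n y) k| ≤
        prQ D.w k n 0 * D.B.d n ^ (btQ p.θ k * v - ε) := by
      have e1 : D.B.d n ^ (wtQ k * w0 + btQ p.θ k * v - ε) =
          D.B.d n ^ (wtQ k * w0) * D.B.d n ^ (btQ p.θ k * v - ε) := by
        rw [← dpow_add]; congr 1; ring
      rw [e1, div_mul_eq_mul_div, div_le_iff₀ pp, mul_assoc] at h1
      have := le_of_mul_le_mul_left h1 dd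
      linarith
    have h3 : prQ D.w k n 0 * D.B.d n ^ (btQ p.θ k * v + ε) ≤ prQ D.w k n v := by
      rcases hk with rfl | rfl | rfl <;> assumption
    calc _ ≤ _ := h2
      _ = D.B.d n ^ (-(2 * ε)) * (prQ D.w k n 0 * D.B.d n ^ (btQ p.θ k * v + ε)) := by
         rw [show btQ p.θ k * (v : ℝ) - ε = -(2 * ε) + (btQ p.θ k * v + ε) by ring, dpow_add]
         ring
      _ ≤ _ := mul_le_mul_of_nonneg_left h3 (dpow_pos _ _ _).le
  have k2 := key 2 (Or.inl rfl)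
  have k3 := key 3 (Or.inr (Or.inl rfl))
  have k4 := key 4 (Or.inr (Or.inr rfl))
  simp only [coQ, incQ, mkT, prQ, Matrix.cons_val, Fin.reduceEq, if_true, if_false,
    Fin.isValue, mul_div_assoc'] at k2 k3 k4
  rw [le_div_iff₀ (a' 1)] at k2 k4
  rw [le_div_iff₀ (a' 2)] at k3
  exact cmp_fpv (cmp_fr0 a' o1 o2 hK f2 f3 f1 g2 g3 g1 k2 k3 k4)

theorem uH_rho (n : ℕ) (v : ℚ) (B : Base) (lev : ℕ → ℚ → ℕ) :
    uH B lev w0 n * rho (lev n v) = B.d n ^ w0 * ((2 : ℝ) ^ (lev n 0) / 2 ^ (lev n v)) := by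
  unfold uH rho; ring

theorem unit_ratio {x r H d1 dw : ℝ} (hr : H * r = 1) (hdw : dw ≠ 0) :
    x / r * (d1 * dw) / (dw * H) = x * d1 := by
  have hH : H ≠ 0 := by rintro rfl; simp at hr
  have hr0 : r ≠ 0 := by rintro rfl; simp at hr
  calc x / r * (d1 * dw) / (dw * H) = x * d1 / (H * r) := by field_simp
    _ = x * d1 := by rw [hr, div_one]

theorem size_le {B : Base} {n : ℕ} {x xv X c e ε m : ℝ} (hx : 0 < x) (hm : 0 ≤ m)
    (h : x * B.d n ^ (e + ε) ≤ xv) (hX : X ≤ m * B.d n ^ (c + e - 3 * ε)) :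
    x * B.d n ^ (-c) * X ≤ m * B.d n ^ (-(4 * ε)) * xv := by
  have d1 := dpow_pos B n (-c)
  have d2 := dpow_pos B n (-(4 * ε))
  calc x * B.d n ^ (-c) * X ≤ x * B.d n ^ (-c) * (m * B.d n ^ (c + e - 3 * ε)) :=
        mul_le_mul_of_nonneg_left hX (by positivity)
    _ = m * x * (B.d n ^ (-c) * B.d n ^ (c + e - 3 * ε)) := by ring
    _ = m * B.d n ^ (-(4 * ε)) * (x * B.d n ^ (e + ε)) := by
        rw [← dpow_add, show -c + (c + e - 3 * ε) = -(4 * ε) + (e + ε) by ring, dpow_add]; ring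
    _ ≤ _ := mul_le_mul_of_nonneg_left h (by positivity)

set_option maxHeartbeats 1000000 in
/-- **FL1** -/
theorem fl1_seq (h : ThickPre η p D π eE fA fB V T w0 R T0 PD) {v : ℚ} (h0 : 0 ≤ v)
    (h1 : v ≤ 1) {ε : ℝ} (hε : 0 < ε) : ∀ᶠ n in (U : Filter ℕ),
      FL1 (D.I n) (D.lev n v) (D.f n v) (D.L n) (ffr π eE fA fB n) (wv D.w v n)
        (12 * D.B.d n ^ (-(4 * ε))) := by
  have hm := h.pre.mka
  have hw : ∀ᶠ n in (U : Filter ℕ), ∀ k, 0 < D.w k n 0 :=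
    Filter.eventually_all.2 fun k => hm.wpos k 0 le_rfl zero_le_one
  have hw' : ∀ᶠ n in (U : Filter ℕ), ∀ k, 0 < D.w k n v :=
    Filter.eventually_all.2 fun k => hm.wpos k v h0 h1
  have hlev := (hm.lev_lim 0 v le_rfl h0 h1).eventually_const_lt
    (show (v : ℝ) - ((0 : ℚ) : ℝ) - ε < (v : ℝ) - ((0 : ℚ) : ℝ) by linarith)
  filter_upwards [hw, hw', w_ord hm h0 h1, h.pre.gR v h0 h1 ε hε, hlev, w_bd hm 0 h0 h1 hε,
    w_bd hm 1 h0 h1 hε, w_bd hm 2 h0 h1 hε] with n a a' ho hg al b0 b1 b2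
  intro x hx y hy hxy z hz1 hz2
  obtain ⟨f1, f2, f3⟩ := h.flag n x hx
  obtain ⟨o1, o2, -⟩ := ho
  have hcx := zc_mem (D.lev n v) x.2
  have hz : |z - x.2| ≤ rho (D.lev n v) := by
    rw [abs_le]; constructor <;> linarith [hcx.1, hcx.2]
  have hb := hg x hx y hy hxy.symm
  -- height factor
  have hHr : uH D.B D.lev w0 n * rho (D.lev n v) ≤ D.B.d n ^ (w0 + (v : ℝ) - ε) := by
    rw [uH_rho]
    have e1 : D.B.d n ^ (w0 + (v : ℝ) - ε) = D.B.d n ^ w0 * D.B.d n ^ ((v : ℝ) - ε) := by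
      rw [← dpow_add]; congr 1; ring
    rw [e1]
    refine mul_le_mul_of_nonneg_left ?_ (dpow_pos _ n _).le
    have p : (0 : ℝ) < 2 ^ (D.lev n v) := by positivity
    have p' : (0 : ℝ) < 2 ^ (D.lev n 0) := by positivity
    rw [← Real.log_le_log_iff (div_pos p' p) (dpow_pos D.B n _), Real.log_rpow (D.B.pos n),
      Real.log_div p'.ne' p.ne', Real.log_pow, Real.log_pow]
    have hL := D.B.L_pos n
    rw [lt_div_iff₀ hL] at al
    unfold Base.L at al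
    push_cast at al
    linarith
  have hH := uH_pos (B := D.B) (lev := D.lev) (w0 := w0) n
  have hA := uA_pos (B := D.B) (lev := D.lev) (w0 := w0) (a 1)
  have hB := uB_pos (B := D.B) (lev := D.lev) (w0 := w0) (a 2)
  have hY := uY_pos (B := D.B) (lev := D.lev) (w0 := w0) (a 0)
  have hr := rho_pos (D.lev n v)
  have hHρ0 : 0 < uH D.B D.lev w0 n * rho (D.lev n v) := mul_pos hH hr
  have r1 : (2 : ℝ) ^ (D.lev n 0) * rho (D.lev n 0) = 1 := by unfold rho; field_simp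
  have dw := dpow_pos D.B n w0
  -- ratios of the units
  have u1 : uA D.B D.lev D.w w0 n / uH D.B D.lev w0 n = D.w 1 n 0 * D.B.d n ^ (-(2 * w0)) := by
    unfold uA uH
    rw [show -w0 = -(2 * w0) + w0 by ring, dpow_add]
    exact unit_ratio r1 dw.ne'
  have u2 : uB D.B D.lev D.w w0 n / uH D.B D.lev w0 n = D.w 2 n 0 * D.B.d n ^ (-(3 * w0)) := by
    unfold uB uH
    rw [show -(2 * w0) = -(3 * w0) + w0 by ring, dpow_add]
    exact unit_ratio r1 dw.ne'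
  have u0 : uY D.B D.lev D.w w0 n / uH D.B D.lev w0 n = D.w 0 n 0 * D.B.d n ^ (-(4 * w0)) := by
    unfold uY uH
    rw [show -(3 * w0) = -(4 * w0) + w0 by ring, dpow_add]
    exact unit_ratio r1 dw.ne'
  -- sizes
  have hvr : (0 : ℝ) ≤ v := by exact_mod_cast h0
  have hv1 : (v : ℝ) ≤ 1 := by exact_mod_cast h1
  have hmul : ∀ e : ℝ, uH D.B D.lev w0 n * rho (D.lev n v) * D.B.d n ^ e ≤
      D.B.d n ^ (w0 + (v : ℝ) - ε + e) := by
    intro e
    rw [dpow_add]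
    exact mul_le_mul_of_nonneg_right hHr (dpow_pos _ n _).le
  have s1 : uA D.B D.lev D.w w0 n / uH D.B D.lev w0 n *
      (D.B.d n ^ (pathQ p.θ w0 R v 8 - ε) + uH D.B D.lev w0 n * rho (D.lev n v) *
        D.B.d n ^ (pathQ p.θ w0 R v 5 - ε)) ≤ 2 * D.B.d n ^ (-(4 * ε)) * D.w 1 n v := by
    rw [u1]
    refine size_le (a 1) (by norm_num) b1.1 ?_
    have q1 : D.B.d n ^ (pathQ p.θ w0 R v 8 - ε) ≤
        D.B.d n ^ (2 * w0 + (1 - p.θ 1) * v - 3 * ε) := dpow_le _ n (by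
      simp only [pathQ, Matrix.cons_val]; linarith)
    have q2 := (hmul (pathQ p.θ w0 R v 5 - ε)).trans (dpow_le D.B n
      (a := 2 * w0 + (1 - p.θ 1) * v - 3 * ε) (by simp only [pathQ, Matrix.cons_val]; linarith))
    linarith
  have s2 : uB D.B D.lev D.w w0 n / uH D.B D.lev w0 n *
      (D.B.d n ^ (pathQ p.θ w0 R v 9 - ε) + uH D.B D.lev w0 n * rho (D.lev n v) *
        D.B.d n ^ (pathQ p.θ w0 R v 6 - ε)) ≤ 2 * D.B.d n ^ (-(4 * ε)) * D.w 2 n v := by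
    rw [u2]
    refine size_le (a 2) (by norm_num) b2.1 ?_
    have q1 : D.B.d n ^ (pathQ p.θ w0 R v 9 - ε) ≤
        D.B.d n ^ (3 * w0 + (1 - p.θ 2) * v - 3 * ε) := dpow_le _ n (by
      simp only [pathQ, Matrix.cons_val]; linarith)
    have q2 := (hmul (pathQ p.θ w0 R v 6 - ε)).trans (dpow_le D.B n
      (a := 3 * w0 + (1 - p.θ 2) * v - 3 * ε) (by simp only [pathQ, Matrix.cons_val]; linarith))
    linarith
  have s0 : uY D.B D.lev D.w w0 n / uH D.B D.lev w0 n *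
      (D.B.d n ^ (pathQ p.θ w0 R v 10 - ε) + uH D.B D.lev w0 n * rho (D.lev n v) *
        D.B.d n ^ (pathQ p.θ w0 R v 7 - ε) + (uH D.B D.lev w0 n * rho (D.lev n v)) ^ 2 *
        D.B.d n ^ (pathQ p.θ w0 R v 1 - ε)) ≤ 3 * D.B.d n ^ (-(4 * ε)) * D.w 0 n v := by
    rw [u0]
    refine size_le (a 0) (by norm_num) b0.1 ?_
    have q1 : D.B.d n ^ (pathQ p.θ w0 R v 10 - ε) ≤
        D.B.d n ^ (4 * w0 + (1 - p.θ 0) * v - 3 * ε) := dpow_le _ n (by
      simp only [pathQ, Matrix.cons_val]; linarith)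
    have q2 := (hmul (pathQ p.θ w0 R v 7 - ε)).trans (dpow_le D.B n
      (a := 4 * w0 + (1 - p.θ 0) * v - 3 * ε) (by simp only [pathQ, Matrix.cons_val]; linarith))
    have q3 : (uH D.B D.lev w0 n * rho (D.lev n v)) ^ 2 * D.B.d n ^ (pathQ p.θ w0 R v 1 - ε) ≤
        D.B.d n ^ (4 * w0 + (1 - p.θ 0) * v - 3 * ε) := by
      have e1 := mul_le_mul_of_nonneg_left (hmul (pathQ p.θ w0 R v 1 - ε)) hHρ0.le
      have e2 := hmul (w0 + (v : ℝ) - ε + (pathQ p.θ w0 R v 1 - ε))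
      have e3 : (uH D.B D.lev w0 n * rho (D.lev n v)) ^ 2 *
        D.B.d n ^ (pathQ p.θ w0 R v 1 - ε) = uH D.B D.lev w0 n * rho (D.lev n v) *
          (uH D.B D.lev w0 n * rho (D.lev n v) * D.B.d n ^ (pathQ p.θ w0 R v 1 - ε)) := by ring
      rw [e3]
      refine (e1.trans e2).trans (dpow_le D.B n ?_)
      simp only [pathQ, Matrix.cons_val]
      have t1 := h.big.R0
      have t2 := h.big.T0
      have t3 := h.big.w0T
      have t4 := (h.big.bd hvr hv1 0).1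
      linarith
    linarith
  obtain ⟨g0, g1, g2⟩ := gd_flat (π := π) (c := D.L n x.1) (t := D.L n y.1) (zi := x.2)
    (b := fun k => D.B.d n ^ (pathQ p.θ w0 R v k - ε)) f1 f2 f3 hH hA hB hY hz hb s1 s2 s0
  have w0' := a' 0
  have w1' := a' 1
  have w2' := a' 2
  have dd := dpow_pos D.B n (-(4 * ε))
  have m1 := mul_le_mul_of_nonneg_left o1 dd.le
  have m2 := mul_le_mul_of_nonneg_left o2 dd.le
  have m0 := mul_pos dd w0'
  have n1 := mul_pos dd w1'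
  have n2 := mul_pos dd w2'
  intro k
  fin_cases k
  · refine g0.trans ?_
    simp only [wv]
    show _ ≤ 12 * D.B.d n ^ (-(4 * ε)) * D.w 0 n v
    linarith
  · refine g1.trans ?_
    simp only [wv]
    show _ ≤ 12 * D.B.d n ^ (-(4 * ε)) * D.w 1 n v
    linarith
  · refine g2.trans ?_
    simp only [wv]
    show _ ≤ 12 * D.B.d n ^ (-(4 * ε)) * D.w 2 n v
    linarith

/-- **FL2** -/
theorem fl2_seq (h : ThickPre η p D π eE fA fB V T w0 R T0 PD) {v : ℚ} (h0 : 0 ≤ v)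
    (h1 : v ≤ 1) {ε : ℝ} (hε : 0 < ε) : ∀ᶠ n in (U : Filter ℕ),
      FL2 (D.I n) (D.lev n v) (D.f n v) (ffr π eE fA fB n) (wv D.w v n)
        (10 * (D.B.d n ^ (-(2 * ε))) ^ 2) := by
  filter_upwards [cmp_slots h h0 h1 hε, h.pre.gR v h0 h1 ε hε] with n h2 h3 x hx y hy hxy
  refine h2 x hx y hy fun k hk => ?_
  have := h3 x hx y hy hxy.symm k
  rwa [pathQ_slot hk] at this

/-- **FL3**, no visible tie -/
theorem fl3_seq (h : ThickPre η p D π eE fA fB V T w0 R T0 PD) (hV : ¬ V 2 ∧ ¬ V 3 ∧ ¬ V 4)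
    {u v : ℚ} (hu : 0 ≤ u) (hu1 : u ≤ 1) (h0 : 0 ≤ v)
    (h1 : v ≤ 1) {ε : ℝ} (hε : 0 < ε) : ∀ᶠ n in (U : Filter ℕ),
      FL3 (D.I n) (D.lev n u) (ffr π eE fA fB n) (wv D.w v n)
        (10 * (D.B.d n ^ (-(2 * ε))) ^ 2) := by
  filter_upwards [cmp_slots h h0 h1 hε, h.pre.own_near u hu hu1 ε hε] with n h2 h3 x hx y hy hxy
  refine h2 x hx y hy fun k hk => ?_
  have h4 := h3 x hx y hy hxy.symm k
  have hvr : (0 : ℝ) ≤ v := by exact_mod_cast h0
  have hv1 : (v : ℝ) ≤ 1 := by exact_mod_cast h1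
  have t1 := h.big.R0
  have t2 := h.big.T0
  have t3 := h.big.w0T
  have b0 := h.big.bd hvr hv1 0
  have b1 := h.big.bd hvr hv1 1
  have b2 := h.big.bd hvr hv1 2
  refine h4.trans (dpow_le D.B n ?_)
  have hown : ownQ p.θ w0 R V u k = R := by
    unfold ownQ
    have hk0 : k ≠ 0 := by rintro rfl; rcases hk with h | h | h <;> exact absurd h (by decide)
    have hkV : ¬ V k := by
      rcases hk with rfl | rfl | rfl
      · exact hV.1
      · exact hV.2.1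
      · exact hV.2.2
    rw [if_neg hk0, if_neg hkV]
  rw [hown]
  rcases hk with rfl | rfl | rfl
  · simp only [wtQ, btQ, Fin.reduceEq, if_true, if_false, Fin.isValue]
    linarith [b1.1, b1.2, b2.1, b2.2]
  · simp only [wtQ, btQ, Fin.reduceEq, if_true, if_false, Fin.isValue]
    linarith [b0.1, b0.2, b2.1, b2.2]
  · simp only [wtQ, btQ, Fin.reduceEq, if_true, if_false, Fin.isValue]
    linarith [b1.1, b1.2, b0.1, b0.2]

theorem FL1.mono {I : Finset (ℕ × ℝ)} {iv : ℕ} {fv : ℕ → ℤ → ℕ} {L : ℕ → Ln4}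
    {fe : ℕ × ℝ → Fin 3 → V3} {w : V3} (hw : ∀ i, 0 < w i) {K K' : ℝ} (hK : K ≤ K')
    (h : FL1 I iv fv L fe w K) : FL1 I iv fv L fe w K' := fun x hx y hy hxy =>
  (h x hx y hy hxy).mono (fun i => (hw i).le) hK

theorem FL2.mono {I : Finset (ℕ × ℝ)} {iv : ℕ} {fv : ℕ → ℤ → ℕ}
    {fe : ℕ × ℝ → Fin 3 → V3} {w : V3} (hw : ∀ i, 0 < w i) {K K' : ℝ} (hK : K ≤ K')
    (h : FL2 I iv fv fe w K) : FL2 I iv fv fe w K' := fun x hx y hy hxy =>
  (h x hx y hy hxy).mono hw hK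

theorem FL3.mono {I : Finset (ℕ × ℝ)} {iu : ℕ}
    {fe : ℕ × ℝ → Fin 3 → V3} {w : V3} (hw : ∀ i, 0 < w i) {K K' : ℝ} (hK : K ≤ K')
    (h : FL3 I iu fe w K) : FL3 I iu fe w K' := fun x hx y hy hxy =>
  (h x hx y hy hxy).mono hw hK

/-- **the flat hypotheses in the thick branch without visible tie** -/
theorem fl_seq (h : ThickPre η p D π eE fA fB V T w0 R T0 PD) (hV : ¬ V 2 ∧ ¬ V 3 ∧ ¬ V 4)
    {u v : ℚ} (hu : 0 ≤ u) (hu1 : u ≤ 1) (h0 : 0 ≤ v) (h1 : v ≤ 1) {ε : ℝ} (hε : 0 < ε) :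
    ∀ᶠ n in (U : Filter ℕ),
      FL1 (D.I n) (D.lev n v) (D.f n v) (D.L n) (ffr π eE fA fB n) (wv D.w v n)
        (D.B.d n ^ (-ε)) ∧
      FL2 (D.I n) (D.lev n v) (D.f n v) (ffr π eE fA fB n) (wv D.w v n) (D.B.d n ^ (-ε)) ∧
      FL3 (D.I n) (D.lev n u) (ffr π eE fA fB n) (wv D.w v n) (D.B.d n ^ (-ε)) := by
  have hw' : ∀ᶠ n in (U : Filter ℕ), ∀ k, 0 < D.w k n v :=
    Filter.eventually_all.2 fun k => h.pre.mka.wpos k v h0 h1
  have hε8 : 0 < ε / 8 := by linarith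
  filter_upwards [hw', fl1_seq h h0 h1 hε8, fl2_seq h h0 h1 hε8, fl3_seq h hV hu hu1 h0 h1 hε8,
    ev_const D.B (show (0 : ℝ) < 12 by norm_num) (show (0 : ℝ) < ε / 2 by linarith)]
    with n a h1 h2 h3 h4
  have d1 := dpow_pos D.B n (-(ε / 2))
  have e1 : D.B.d n ^ (-ε) = D.B.d n ^ (-(ε / 2)) * D.B.d n ^ (-(ε / 2)) := by
    rw [← dpow_add]; congr 1; ring
  have e2 : D.B.d n ^ (-(4 * (ε / 8))) = D.B.d n ^ (-(ε / 2)) := by congr 1; ring
  have e3 : (D.B.d n ^ (-(2 * (ε / 8)))) ^ 2 = D.B.d n ^ (-(ε / 2)) := by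
    rw [sq, ← dpow_add]; congr 1; ring
  have k1 : 12 * D.B.d n ^ (-(4 * (ε / 8))) ≤ D.B.d n ^ (-ε) := by
    rw [e1, e2]; exact mul_le_mul_of_nonneg_right h4 d1.le
  have k2 : 10 * (D.B.d n ^ (-(2 * (ε / 8)))) ^ 2 ≤ D.B.d n ^ (-ε) := by
    rw [e1, e3]; exact mul_le_mul_of_nonneg_right (by linarith) d1.le
  exact ⟨h1.mono a k1, h2.mono a k2, h3.mono a k2⟩

end

end Crest.Agent.R136.HR829
end

-- ▼ part R136/HR11_829
section

/-!
# R136 (helper829): END for flat containers, marked sequences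

`end_flat` : a marked sequence of sheets (`geo4`) whose classes lie in flat boxes with frames which
are constant on the (line, cell) pairs (`FL1`, `FL2`, `FL3`) does not exist.
-/

set_option autoImplicit false
set_option linter.unusedVariables false
set_option linter.unusedSectionVars false

open Finset Filter Topology

namespace Crest.Agent.R136.HR829

open Crest.Agent.R138.Ex926 (Base U)
open Crest.Agent.R138.Dp76 (Dense dpow_pos dpow_add dpow_le dpow_le_one)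
open Crest.Agent.R138.Mk163 (zc zl rho alive own)
open Crest.Agent.R138.MkRef627 (lc kc mem_alive)
open Crest.Agent.R138.ArgM163 (ev_const)
open Crest.Agent.R138.LmAN57 (two_le le_two comb)
open Crest.Agent.R136.MkA627
open Crest.Agent.R136.Top484
open Crest.Agent.R136.Sh605
open Crest.Agent.R136.K4

open Classical in
/-- own counts at a coarser resolution -/
theorem own_coarse (I : Finset (ℕ × ℝ)) (i j d : ℕ) (x : ℕ × ℝ) :
    ((own I i (j + d) x).card : ℝ) ≤ 2 ^ d * ((own I i j x).card : ℝ) := by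
  have hd : (0 : ℤ) < 2 ^ d := by positivity
  have hsub : (own I i (j + d) x).image (fun c => c / 2 ^ d) ⊆ own I i j x := by
    intro c hc
    rw [mem_image] at hc
    obtain ⟨c', hc', rfl⟩ := hc
    unfold own at hc' ⊢
    rw [mem_image] at hc' ⊢
    obtain ⟨y, hy, rfl⟩ := hc'
    exact ⟨y, hy, (zc_div j d y.2).symm⟩
  have h := card_le_mul_card_image (f := fun c : ℤ => c / 2 ^ d) (own I i (j + d) x) (2 ^ d)
    (fun a _ => by
      have hs : (own I i (j + d) x).filter (fun c => c / 2 ^ d = a) ⊆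
          Ico (a * 2 ^ d) (a * 2 ^ d + 2 ^ d) := by
        intro c hc
        rw [mem_filter] at hc
        rw [mem_Ico]
        have h1 := Int.ediv_mul_le c hd.ne'
        have h2 := Int.lt_ediv_add_one_mul_self c hd
        rw [hc.2] at h1 h2
        constructor
        · exact h1
        · linarith
      refine (card_le_card hs).trans ?_
      rw [Int.card_Ico]
      have : a * 2 ^ d + 2 ^ d - a * 2 ^ d = ((2 ^ d : ℕ) : ℤ) := by push_cast; ring
      rw [this, Int.toNat_natCast])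
  have h2 : (own I i (j + d) x).card ≤ 2 ^ d * (own I i j x).card :=
    h.trans (Nat.mul_le_mul_left _ (card_le_card hsub))
  exact_mod_cast h2

open Classical in
theorem dmaxW_of_mka {B : Base} {I : ℕ → Finset (ℕ × ℝ)} {L : ℕ → ℕ → Ln4} {r0 : ℕ → ℝ}
    {wr cr : Fin 3 → ℕ → ℝ} {q : Fin 3 → ℝ} {lev : ℕ → ℚ → ℕ} {A : ℕ → ℝ} {c Λ : ℝ → ℝ}
    {τ : Fin 3 → ℝ → ℝ} {f : ℕ → ℚ → ℕ → ℤ → ℕ} {b : ℕ → ℚ → ℕ → Plk4} {vm : ℕ → ℚ → ℝ}
    {w : Fin 3 → ℕ → ℚ → ℝ}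
    (h : MkA B I (geo4 L r0 wr cr q) lev A c Λ τ f b vm w) {v : ℚ} (h0 : 0 ≤ v) (h1 : v ≤ 1) {ε : ℝ}
    (hε : 0 < ε) : ∀ᶠ n in (U : Filter ℕ), ∀ J : ℤ,
      DMaxW (alive (I n) (lev n v) J) (L n) (zl (lev n v) J) (rho (lev n v))
        (B.d n ^ (-ε) * ampA B A c n v) (Rq q (rho (lev n v))) (r0 n)
        (rho (lev n v)) (fun k => wr k n) (fun k => cr k n) := by
  filter_upwards [h.dmax v h0 h1 ε hε] with n hn J e cc w' q' a hs hw h1
  have := hn J ⟨J, e, cc, w', q', a⟩ ⟨hs, hw, h1⟩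
  refine le_trans (le_of_eq ?_) this
  congr!

section lim

variable {B : Base}

theorem near_lim {X Y : ℕ → ℝ} {x C : ℝ}
    (hX : Tendsto (fun n => X n * Real.log 2 / B.L n) U (𝓝 x))
    (h : ∀ᶠ n in (U : Filter ℕ), |Y n - X n| ≤ C) :
    Tendsto (fun n => Y n * Real.log 2 / B.L n) U (𝓝 x) := by
  have l2 : 0 < Real.log 2 := Real.log_pos (by norm_num)
  have h0 : Tendsto (fun n => (Y n - X n) * Real.log 2 / B.L n) U (𝓝 0) := by
    refine squeeze_zero_norm' (a := fun n => C * Real.log 2 / B.L n) ?_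
      (tendsto_const_nhds.div_atTop B.L_tendsto)
    filter_upwards [h] with n hn
    have hL := B.L_pos n
    rw [Real.norm_eq_abs, abs_div, abs_mul, abs_of_pos l2, abs_of_pos hL]
    gcongr
  have := hX.add h0
  rw [add_zero] at this
  refine this.congr fun n => ?_
  ring

theorem neg_of_lim {X : ℕ → ℝ} {x : ℝ}
    (hX : Tendsto (fun n => X n * Real.log 2 / B.L n) U (𝓝 x)) (hx : x < 0) :
    ∀ᶠ n in (U : Filter ℕ), X n < 0 := by
  filter_upwards [hX.eventually_lt_const hx] with n hn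
  have hL := B.L_pos n
  have l2 : 0 < Real.log 2 := Real.log_pos (by norm_num)
  by_contra hc
  push Not at hc
  have : 0 ≤ X n * Real.log 2 / B.L n := by positivity
  linarith

theorem lin_lim {X Y : ℕ → ℝ} {x y : ℝ} (α β γ : ℝ)
    (hX : Tendsto (fun n => X n * Real.log 2 / B.L n) U (𝓝 x))
    (hY : Tendsto (fun n => Y n * Real.log 2 / B.L n) U (𝓝 y)) :
    Tendsto (fun n => (α * X n + β * Y n + γ) * Real.log 2 / B.L n) U (𝓝 (α * x + β * y)) := by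
  refine near_lim (C := |γ|) (comb α β hX hY) (Eventually.of_forall fun n => ?_)
  rw [add_sub_cancel_left]

end lim

/-! ### numerics at one `n` -/

theorem two_n0 {X : ℝ} (hX : 0 < X) {iu iv : ℕ} (h : iu ≤ iv) (Y : ℝ) :
    (2 : ℝ) ^ (Real.logb 2 X + 3 * ((iv : ℝ) - iu) + Y) =
      X * (2 ^ (iv - iu)) ^ 3 * (2 : ℝ) ^ Y := by
  rw [Real.rpow_add two_pos, Real.rpow_add two_pos, Real.rpow_logb two_pos (by norm_num) hX]
  congr 2
  rw [← pow_mul, ← Real.rpow_natCast]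
  push_cast [Nat.cast_sub h]
  congr 1
  ring

section num

variable {B : Base} {n : ℕ} {A₀ v₀ gu ga gv ε Q Y R M3 N : ℝ}

theorem num1 (hA : 0 < A₀) (hv : 0 < v₀) (hR : 0 < R) (hQ : 8 * Q ≤ B.d n ^ (-ε))
    (hY : B.d n ^ (-(2 * ε)) ≤ (2 : ℝ) ^ Y) :
    B.d n ^ (-ε) * (A₀ * B.d n ^ (-gu)) * (8 * Q * R ^ 3 * v₀) ≤
      A₀ * B.d n ^ (-gu) * v₀ * R ^ 3 * (2 : ℝ) ^ Y := by
  have d1 := dpow_pos B n (-ε)
  have d2 := dpow_pos B n (-gu)
  have hX : 0 < A₀ * B.d n ^ (-gu) * v₀ * R ^ 3 := by positivity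
  have e1 : B.d n ^ (-(2 * ε)) = B.d n ^ (-ε) * B.d n ^ (-ε) := by
    rw [← dpow_add]; congr 1; ring
  calc B.d n ^ (-ε) * (A₀ * B.d n ^ (-gu)) * (8 * Q * R ^ 3 * v₀) =
        (8 * Q) * (B.d n ^ (-ε) * (A₀ * B.d n ^ (-gu) * v₀ * R ^ 3)) := by ring
    _ ≤ B.d n ^ (-ε) * (B.d n ^ (-ε) * (A₀ * B.d n ^ (-gu) * v₀ * R ^ 3)) :=
        mul_le_mul_of_nonneg_right hQ (by positivity)
    _ = A₀ * B.d n ^ (-gu) * v₀ * R ^ 3 * B.d n ^ (-(2 * ε)) := by rw [e1]; ring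
    _ ≤ _ := mul_le_mul_of_nonneg_left hY hX.le

theorem num2 (hA : 0 < A₀) (hv : 0 < v₀) (hR : 0 < R) (hM : 0 < M3)
    (hQ : 6 * 2718 ^ 3 * (8 * Q) ≤ B.d n ^ (-ε))
    (hY : B.d n ^ (-((ga - gu) + 2 * ε)) ≤ (2 : ℝ) ^ Y) :
    6 * 2718 ^ 3 * (B.d n ^ (-ε) * (A₀ * B.d n ^ (-ga))) / M3 * (8 * Q * R ^ 3 * v₀) ≤
      A₀ * B.d n ^ (-gu) * v₀ * R ^ 3 * ((2 : ℝ) ^ Y / M3) := by
  have d1 := dpow_pos B n (-ε)
  have d2 := dpow_pos B n (-gu)
  have d3 := dpow_pos B n (-ga)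
  have e1 : B.d n ^ (-gu) * B.d n ^ (-((ga - gu) + 2 * ε)) =
      B.d n ^ (-ε) * (B.d n ^ (-ε) * B.d n ^ (-ga)) := by
    rw [← dpow_add, ← dpow_add, ← dpow_add]; congr 1; ring
  calc 6 * 2718 ^ 3 * (B.d n ^ (-ε) * (A₀ * B.d n ^ (-ga))) / M3 * (8 * Q * R ^ 3 * v₀) =
        (6 * 2718 ^ 3 * (8 * Q)) * (B.d n ^ (-ε) * B.d n ^ (-ga) * (A₀ * v₀ * R ^ 3 / M3)) := by
        ring
    _ ≤ B.d n ^ (-ε) * (B.d n ^ (-ε) * B.d n ^ (-ga) * (A₀ * v₀ * R ^ 3 / M3)) :=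
        mul_le_mul_of_nonneg_right hQ (by positivity)
    _ = (B.d n ^ (-gu) * B.d n ^ (-((ga - gu) + 2 * ε))) * (A₀ * v₀ * R ^ 3 / M3) := by
        rw [e1]; ring
    _ ≤ (B.d n ^ (-gu) * (2 : ℝ) ^ Y) * (A₀ * v₀ * R ^ 3 / M3) := by
        refine mul_le_mul_of_nonneg_right ?_ (by positivity)
        exact mul_le_mul_of_nonneg_left hY d2.le
    _ = _ := by ring

theorem num3 (hA : 0 < A₀) (hv : 0 < v₀) (hY : (2 : ℝ) ^ Y ≤ B.d n ^ (-((gv - gu) - ε)))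
    (hN : A₀ * B.d n ^ (-gv) * v₀ ≤ B.d n ^ (-ε) * N) :
    A₀ * B.d n ^ (-gu) * v₀ * (2 : ℝ) ^ Y ≤ N := by
  have d1 := dpow_pos B n (-ε)
  have d2 := dpow_pos B n (-gu)
  have d4 := dpow_pos B n ε
  have e1 : B.d n ^ (-gu) * B.d n ^ (-((gv - gu) - ε)) = B.d n ^ ε * B.d n ^ (-gv) := by
    rw [← dpow_add, ← dpow_add]; congr 1; ring
  have e2 : B.d n ^ ε * B.d n ^ (-ε) = 1 := by rw [← dpow_add]; simp
  calc A₀ * B.d n ^ (-gu) * v₀ * (2 : ℝ) ^ Y ≤
        A₀ * B.d n ^ (-gu) * v₀ * B.d n ^ (-((gv - gu) - ε)) :=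
        mul_le_mul_of_nonneg_left hY (by positivity)
    _ = (B.d n ^ (-gu) * B.d n ^ (-((gv - gu) - ε))) * (A₀ * v₀) := by ring
    _ = B.d n ^ ε * (A₀ * B.d n ^ (-gv) * v₀) := by rw [e1]; ring
    _ ≤ B.d n ^ ε * (B.d n ^ (-ε) * N) := mul_le_mul_of_nonneg_left hN d4.le
    _ = N := by rw [← mul_assoc, e2, one_mul]

theorem own_num {t c1 c2 : ℝ} {d' : ℕ} (h1 : c1 ≤ 2 ^ d' * c2) (h2 : B.d n ^ (-t + ε) ≤ c1)
    (h3 : (2 : ℝ) ^ (Y + d') ≤ B.d n ^ (-(t - ε))) : (2 : ℝ) ^ Y ≤ c2 := by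
  rw [Real.rpow_add two_pos, Real.rpow_natCast] at h3
  have h4 : B.d n ^ (-(t - ε)) = B.d n ^ (-t + ε) := by congr 1; ring
  rw [h4] at h3
  have h5 := (h3.trans h2).trans h1
  rw [mul_comm] at h5
  exact le_of_mul_le_mul_left h5 (by positivity)

end num

theorem sc_lim {B : Base} {X : ℕ → ℝ} {x : ℝ} (α : ℝ)
    (hX : Tendsto (fun n => X n * Real.log 2 / B.L n) U (𝓝 x)) :
    Tendsto (fun n => (α * X n) * Real.log 2 / B.L n) U (𝓝 (α * x)) := by
  refine (hX.const_mul α).congr fun n => ?_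
  ring

theorem d_one_le (B : Base) (n : ℕ) {ε : ℝ} (hε : 0 ≤ ε) : 1 ≤ B.d n ^ (-ε) := by
  have := dpow_le B n (a := -ε) (b := 0) (by linarith)
  rwa [Real.rpow_zero] at this

set_option maxHeartbeats 4000000 in
open Classical in
/-- **END for flat containers, marked sequences.** -/
theorem end_flat (hKM : ∀ V : ℝ, Crest.Agent.R138.Tub70.KM32 V) {B : Base}
    {I : ℕ → Finset (ℕ × ℝ)} {L : ℕ → ℕ → Ln4} {r0 : ℕ → ℝ} {wr cr : Fin 3 → ℕ → ℝ} {q : Fin 3 → ℝ}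
    {lev : ℕ → ℚ → ℕ} {A : ℕ → ℝ} {g : ℝ} {θ : Fin 3 → ℝ} {f : ℕ → ℚ → ℕ → ℤ → ℕ} {b : ℕ → ℚ → ℕ → Plk4}
    {vm : ℕ → ℚ → ℝ} {w : Fin 3 → ℕ → ℚ → ℝ}
    (h : MkA B I (geo4 L r0 wr cr q) lev A (fun v => g * v) (fun v => 0 * v)
      (fun j v => θ j * (1 - v)) f b vm w) (hwr : Rng B wr cr w) (hg : 0 < g) (hq : ∀ i, 0 ≤ q i) (hθ : 0 < θ 1)
    (fe : ℕ → ℕ × ℝ → Fin 3 → V3) (hO : ∀ n x, Ortho (fe n x)) {u v : ℚ} (hu : 0 ≤ u)
    (huv : u < v) (hv : v < 1)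
    (hFL : ∀ ε : ℝ, 0 < ε → ∀ᶠ n in (U : Filter ℕ),
      FL1 (I n) (lev n v) (f n v) (L n) (fe n) (wv w v n) (B.d n ^ (-ε)) ∧
      FL2 (I n) (lev n v) (f n v) (fe n) (wv w v n) (B.d n ^ (-ε)) ∧
      FL3 (I n) (lev n u) (fe n) (wv w v n) (B.d n ^ (-ε))) : False := by
  obtain ⟨η, ε₀, M₀, hη, hη1, hη4, hε₀, key⟩ := fin_flat hKM hg (η₁ := 1 / 4) (by norm_num)
  have hv0 : 0 ≤ v := hu.trans huv.le
  have hu1 : u ≤ 1 := huv.le.trans hv.le
  set T : ℝ := (v : ℝ) - u with hT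
  have huvR : (u : ℝ) < v := by exact_mod_cast huv
  have hT0 : 0 < T := by rw [hT]; linarith
  set κ : ℝ := min (1 / 2) (ε₀ / 12) with hκ
  have hκ0 : 0 < κ := lt_min (by norm_num) (by positivity)
  have hκ1 : κ ≤ 1 / 2 := min_le_left _ _
  have hκ2 : κ ≤ ε₀ / 12 := min_le_right _ _
  set ε : ℝ := min (ε₀ * T / 8) (κ * T / 4) with hε
  have hε0 : 0 < ε := lt_min (by positivity) (by positivity)
  have hε1 : ε ≤ ε₀ * T / 8 := min_le_left _ _
  have hε2 : ε ≤ κ * T / 4 := min_le_right _ _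
  have hS0 : 0 < (1 - κ) * T := mul_pos (by linarith) hT0
  have hS1 : 1 / 2 * T ≤ (1 - κ) * T := mul_le_mul_of_nonneg_right (by linarith) hT0.le
  have hSη : 0 < (1 - κ) * T * η := mul_pos hS0 hη
  have hεS : ε₀ * T / 2 ≤ ε₀ * ((1 - κ) * T) := by nlinarith
  have hκT : 3 * (κ * T) ≤ ε₀ * T / 4 := by nlinarith
  have hκT0 : 0 < κ * T := mul_pos hκ0 hT0
  have hεT0 : 0 < ε₀ * T := mul_pos hε₀ hT0
  obtain ⟨a, ha1, ha2⟩ := exists_rat_btwn
    (show (u : ℝ) + ((1 - κ) * T - (1 - κ) * T * η) < u + ((1 - κ) * T - (1 - κ) * T * η / 2) by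
      linarith)
  have hSη4 : (1 - κ) * T * η ≤ (1 - κ) * T * (1 / 4) := mul_le_mul_of_nonneg_left hη4 hS0.le
  have hauR : (u : ℝ) < a := by linarith
  have havR : (a : ℝ) < v := by
    have : (1 - κ) * T = T - κ * T := by ring
    linarith
  have hau : u ≤ a := by exact_mod_cast hauR.le
  have hav : a ≤ v := by exact_mod_cast havR.le
  have ha0 : 0 ≤ a := hu.trans hau
  have ha1' : a ≤ 1 := hav.trans hv.le
  -- the labels
  have hch : ∀ n, ∃ (J : Finset (ℕ × ℝ)) (lab : ℕ × ℤ → ℕ × ℤ),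
      (lev n u ≤ lev n v ∧ ∀ k, 0 < wv w v n k) →
      J ⊆ I n ∧ (∀ x ∈ I n, ∃ y ∈ I n, lc (lev n u) y = lab (lc (lev n u) x)) ∧
      (∀ x ∈ I n, NKo (I n) (lev n u) (lev n v) (L n) (fe n) (wv w v n) 2 (lc (lev n u) x)
        (lab (lc (lev n u) x))) ∧
      (∀ x ∈ J, ∀ y ∈ J, kc (lev n v) (f n v) x = kc (lev n v) (f n v) y →
        lab (lc (lev n u) x) = lab (lc (lev n u) y)) ∧
      ∀ K : ℝ, 1 ≤ K → FL1 (I n) (lev n v) (f n v) (L n) (fe n) (wv w v n) K →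
        FL2 (I n) (lev n v) (f n v) (fe n) (wv w v n) K →
        FL3 (I n) (lev n u) (fe n) (wv w v n) K →
        ((I n).card : ℝ) ≤ (11 * (216 * K ^ 3) ^ 2) ^ 15 * J.card := by
    intro n
    by_cases hh : lev n u ≤ lev n v ∧ ∀ k, 0 < wv w v n k
    · obtain ⟨J, lab, h1, h2, h3, h4, h5⟩ := flat_labels (I := I n) (iu := lev n u)
        (iv := lev n v) (fv := f n v) (L := L n) (fe := fe n) hh.1 hh.2 (fun x _ => hO n x)
      exact ⟨J, lab, fun _ => ⟨h1, h2, h3, h4, h5⟩⟩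
    · exact ⟨∅, id, fun h => absurd h hh⟩
  choose J lab hJ using hch
  have hgood : ∀ᶠ n in (U : Filter ℕ), lev n u ≤ lev n v ∧ ∀ k, 0 < wv w v n k := by
    filter_upwards [h.lev_mono u v hu huv.le hv.le,
      Filter.eventually_all.2 fun k => h.wpos k v hv0 hv.le] with n a1 a2
    exact ⟨a1, a2⟩
  have hdense : Dense B J I := by
    refine ⟨hgood.mono fun n hn => (hJ n hn).1, fun δ hδ => ?_⟩
    have hδ' : 0 < δ / 180 := by positivity
    filter_upwards [hgood, hFL (δ / 180) hδ',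
      ev_const B (C := 11 ^ 15 * 216 ^ 30) (by positivity) (half_pos hδ)] with n hn hfl hc
    have h1 := (hJ n hn).2.2.2.2 _ (d_one_le B n hδ'.le) hfl.1 hfl.2.1 hfl.2.2
    have e1 : (11 * (216 * (B.d n ^ (-(δ / 180))) ^ 3) ^ 2) ^ 15 =
        (11 ^ 15 * 216 ^ 30) * (B.d n ^ (-(δ / 180))) ^ 90 := by ring
    have e2 : (B.d n ^ (-(δ / 180))) ^ 90 = B.d n ^ (-(δ / 2)) := by
      rw [← Real.rpow_natCast, ← Real.rpow_mul (B.pos n).le]; congr 1; push_cast; ring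
    have e3 : B.d n ^ δ * (B.d n ^ (-(δ / 2)) * B.d n ^ (-(δ / 2))) = 1 := by
      rw [← dpow_add, ← dpow_add]
      rw [show δ + (-(δ / 2) + -(δ / 2)) = 0 by ring, Real.rpow_zero]
    have hd := dpow_pos B n δ
    have hd2 := dpow_pos B n (-(δ / 2))
    rw [e1, e2] at h1
    have hJc : (0 : ℝ) ≤ (J n).card := Nat.cast_nonneg _
    calc B.d n ^ δ * ((I n).card : ℝ) ≤
          B.d n ^ δ * ((11 ^ 15 * 216 ^ 30) * B.d n ^ (-(δ / 2)) * (J n).card) :=
          mul_le_mul_of_nonneg_left h1 hd.le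
      _ ≤ B.d n ^ δ * (B.d n ^ (-(δ / 2)) * B.d n ^ (-(δ / 2)) * (J n).card) := by
          refine mul_le_mul_of_nonneg_left ?_ hd.le
          refine mul_le_mul_of_nonneg_right ?_ hJc
          exact mul_le_mul_of_nonneg_right hc hd2.le
      _ = (J n).card := by rw [← mul_assoc, e3, one_mul]
  obtain ⟨J', hJ'sub, hJ'd, -, h'⟩ := h.refine' hdense
  -- limits
  obtain ⟨M, hM⟩ : ∃ M : ℕ → ℕ, ∀ n, M n = ⌊(1 - κ) * ((lev n v : ℝ) - lev n u)⌋₊ :=
    ⟨_, fun n => rfl⟩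
  have lD : Tendsto (fun n => ((lev n v : ℝ) - lev n u) * Real.log 2 / B.L n) U (𝓝 T) :=
    h.lev_lim u v hu huv.le hv.le
  have lA : Tendsto (fun n => ((lev n a : ℝ) - lev n u) * Real.log 2 / B.L n) U
      (𝓝 ((a : ℝ) - u)) := h.lev_lim u a hu hau ha1'
  have lM : Tendsto (fun n => (M n : ℝ) * Real.log 2 / B.L n) U (𝓝 ((1 - κ) * T)) := by
    refine near_lim (C := 1) (sc_lim (1 - κ) lD) ?_
    filter_upwards [h.lev_mono u v hu huv.le hv.le] with n hn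
    have h0 : (0 : ℝ) ≤ (lev n v : ℝ) - lev n u := by
      have : (lev n u : ℝ) ≤ lev n v := by exact_mod_cast hn
      linarith
    have h1 : 0 ≤ (1 - κ) * ((lev n v : ℝ) - lev n u) := mul_nonneg (by linarith) h0
    have h2 := Nat.floor_le h1
    have h3 := Nat.lt_floor_add_one ((1 - κ) * ((lev n v : ℝ) - lev n u))
    rw [hM n, abs_le]
    constructor <;> linarith
  obtain ⟨k, hk⟩ : ∃ k : ℕ → ℕ, ∀ n, k n = lev n u + M n + 1 - lev n a := ⟨_, fun n => rfl⟩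
  have hle : ∀ᶠ n in (U : Filter ℕ), lev n a ≤ lev n u + M n + 1 := by
    have := neg_of_lim (lin_lim 1 (-1) (-1) lA lM)
      (show 1 * ((a : ℝ) - u) + (-1) * ((1 - κ) * T) < 0 by linarith)
    filter_upwards [this] with n hn
    have : (lev n a : ℝ) ≤ lev n u + M n + 1 := by linarith
    exact_mod_cast this
  have lk : Tendsto (fun n => (k n : ℝ) * Real.log 2 / B.L n) U
      (𝓝 ((1 - κ) * T - ((a : ℝ) - u))) := by
    have h1 := lin_lim 1 (-1) 1 lM lA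
    have e1 : 1 * ((1 - κ) * T) + (-1) * ((a : ℝ) - u) = (1 - κ) * T - ((a : ℝ) - u) := by ring
    rw [e1] at h1
    refine near_lim (C := 0) h1 ?_
    filter_upwards [hle] with n hn
    rw [hk n]
    push_cast [Nat.cast_sub hn]
    rw [abs_le]
    constructor <;> linarith
  -- eventual inequalities
  have E1 := neg_of_lim (lin_lim (-1) 0 (M₀ : ℝ) lM lM) (by linarith)
  have E2 := neg_of_lim (lin_lim (η / 2) (-1) 0 lM lk) (by
    have : η / 2 * ((1 - κ) * T) = (1 - κ) * T * η / 2 := by ring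
    linarith)
  have E3 := neg_of_lim (lin_lim 1 (-η) 0 lk lM) (by
    have : -η * ((1 - κ) * T) = -((1 - κ) * T * η) := by ring
    linarith)
  have E4 := neg_of_lim (lin_lim 1 (-1) 1 lM lD) (by
    have : (1 - κ) * T = T - κ * T := by ring
    linarith)
  have E6 := le_two (sc_lim ε₀ lM) (show 2 * ε < ε₀ * ((1 - κ) * T) by linarith)
  have l7 := lin_lim 1 1 0 (sc_lim g (lin_lim 1 (-1) 0 lM lk)) (sc_lim ε₀ lM)
  have E7 := le_two l7 (show (g * a - g * u) + 2 * ε <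
      1 * (g * (1 * ((1 - κ) * T) + (-1) * ((1 - κ) * T - ((a : ℝ) - u)))) +
        1 * (ε₀ * ((1 - κ) * T)) by
    have : g * (1 * ((1 - κ) * T) + (-1) * ((1 - κ) * T - ((a : ℝ) - u))) = g * a - g * u := by
      ring
    linarith)
  have l8 := lin_lim 1 (g - ε₀) 0 (sc_lim 3 (lin_lim 1 (-1) 0 lD lM)) lM
  have E8 := two_le l8 (show 1 * (3 * (1 * T + (-1) * ((1 - κ) * T))) + (g - ε₀) * ((1 - κ) * T) <
      (g * v - g * u) - ε by
    have e1 : 1 * (3 * (1 * T + (-1) * ((1 - κ) * T))) = 3 * (κ * T) := by ring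
    have e2 : (g - ε₀) * ((1 - κ) * T) = g * T - g * (κ * T) - ε₀ * ((1 - κ) * T) := by ring
    have e3 : g * v - g * u = g * T := by rw [hT]; ring
    have e4 : 0 < g * (κ * T) := mul_pos hg hκT0
    linarith)
  have l9 := lin_lim 1 (-ε₀) (-1) lD lM
  have E9 := two_le l9 (show 1 * T + -ε₀ * ((1 - κ) * T) < ((v : ℝ) - u) - ε by
    rw [← hT]; linarith)
  have l10 := lin_lim 1 1 (-1) lk (lin_lim 1 (-(1 + ε₀)) 0 lD lM)
  have E10 := two_le l10 (show 1 * ((1 - κ) * T - ((a : ℝ) - u)) +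
      1 * (1 * T + -(1 + ε₀) * ((1 - κ) * T)) < ((v : ℝ) - a) - ε by
    have e1 : -(1 + ε₀) * ((1 - κ) * T) = -((1 - κ) * T) - ε₀ * ((1 - κ) * T) := by ring
    linarith)
  have E11 := le_two (lin_lim 1 (-1) 0 lD lM) (show 3 * ε < 1 * T + (-1) * ((1 - κ) * T) by
    have : (1 - κ) * T = T - κ * T := by ring
    linarith)
  have E5 : ∀ᶠ n in (U : Filter ℕ), 65232 * w 1 n v ≤ rho (lev n v) := by
    have hvR : (v : ℝ) < 1 := by exact_mod_cast hv
    have hx : 0 < θ 1 * (1 - (v : ℝ)) := mul_pos hθ (by linarith)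
    filter_upwards [(h.tau 1 v hv0 hv.le).eventually_const_lt
      (show θ 1 * (1 - (v : ℝ)) / 2 < θ 1 * (1 - (v : ℝ)) by linarith),
      ev_const B (C := 65232) (by norm_num) (half_pos hx), h.wpos 1 v hv0 hv.le,
      h.wpos 1 1 zero_le_one le_rfl, w_ord h zero_le_one le_rfl] with n a1 a2 a3 a4 a5
    have r1 := rho_pos (lev n 1)
    have rv := rho_pos (lev n v)
    have hL := B.L_pos n
    rw [lt_div_iff₀ hL] at a1
    have a6 : (1 : ℝ) ≤ rho (lev n 1) / w 1 n 1 := by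
      rw [one_le_div a4]; exact a5.2.2.2.1
    have h3 : B.d n ^ (-(θ 1 * (1 - (v : ℝ)) / 2)) ≤
        (rho (lev n v) / w 1 n v) / (rho (lev n 1) / w 1 n 1) := by
      rw [← Real.log_le_log_iff (dpow_pos B n _) (div_pos (div_pos rv a3) (div_pos r1 a4)),
        Real.log_rpow (B.pos n)]
      unfold Base.L at a1
      linarith
    have h4 : (rho (lev n v) / w 1 n v) / (rho (lev n 1) / w 1 n 1) ≤ rho (lev n v) / w 1 n v :=
      div_le_self (div_pos rv a3).le a6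
    have h5 := (a2.trans h3).trans h4
    rwa [le_div_iff₀ a3] at h5
  have E12 : ∀ᶠ n in (U : Filter ℕ), 8 * (2 : ℝ) ^ (q 0 + q 1 + q 2) ≤ B.d n ^ (-ε) :=
    ev_const B (by positivity) hε0
  have E13 : ∀ᶠ n in (U : Filter ℕ),
      6 * 2718 ^ 3 * (8 * (108720 : ℝ) ^ (q 0 + q 1 + q 2)) ≤ B.d n ^ (-ε) :=
    ev_const B (by positivity) hε0
  have E14 : ∀ᶠ n in (U : Filter ℕ), (18 : ℝ) ≤ B.d n ^ (-ε) := ev_const B (by norm_num) hε0
  have E15 : ∀ᶠ n in (U : Filter ℕ), ∀ k : Fin 3,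
      54360 * (2 ^ (lev n v - lev n u) * wv w v n k) ≤ cr k n := by
    refine Filter.eventually_all.2 fun k => ?_
    filter_upwards [hgood, hwr (T + 1) k v hv0 hv.le,
      two_le lD (show T < T + 1 / 2 by linarith),
      ev_const B (C := 54360) (by norm_num) (show (0 : ℝ) < 1 / 2 by norm_num)] with n a1 a2 a3 a4
    have hw := a1.2 k
    have e1 : (2 : ℝ) ^ (lev n v - lev n u) = (2 : ℝ) ^ ((lev n v : ℝ) - lev n u) := by
      rw [← Real.rpow_natCast]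
      push_cast [Nat.cast_sub a1.1]
      rfl
    have d1 := dpow_pos B n (-(1 / 2))
    have d2 := dpow_pos B n (-(T + 1 / 2))
    have e2 : B.d n ^ (-(1 / 2 : ℝ)) * (B.d n ^ (-(T + 1 / 2)) * B.d n ^ (T + 1)) = 1 := by
      rw [← dpow_add, ← dpow_add, show -(1 / 2 : ℝ) + (-(T + 1 / 2) + (T + 1)) = 0 by ring,
        Real.rpow_zero]
    rw [e1]
    calc 54360 * ((2 : ℝ) ^ ((lev n v : ℝ) - lev n u) * wv w v n k) ≤
          B.d n ^ (-(1 / 2 : ℝ)) * (B.d n ^ (-(T + 1 / 2)) * wv w v n k) := by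
          refine mul_le_mul a4 (mul_le_mul_of_nonneg_right a3 hw.le) (by positivity) d1.le
      _ ≤ B.d n ^ (-(1 / 2 : ℝ)) * (B.d n ^ (-(T + 1 / 2)) * (B.d n ^ (T + 1) * cr k n)) := by
          refine mul_le_mul_of_nonneg_left ?_ d1.le
          exact mul_le_mul_of_nonneg_left a2.2 d2.le
      _ = (B.d n ^ (-(1 / 2 : ℝ)) * (B.d n ^ (-(T + 1 / 2)) * B.d n ^ (T + 1))) * cr k n := by ring
      _ = cr k n := by rw [e2, one_mul]
  have hfin : ∀ᶠ n in (U : Filter ℕ), False := by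
    filter_upwards [hgood, hFL ε hε0, E1, E2, E3, E4, E5, E6, E7, E8, E9, E10, E11, E12, E13, E14,
      hle, h'.ne, w_ord h hv0 hv.le, dmaxW_of_mka h hu hu1 hε0, dmaxW_of_mka h ha0 ha1' hε0,
      h'.near v hv0 hv.le ε hε0, h'.own u v hu huv.le hv.le ε hε0,
      h'.own a v ha0 hav hv.le ε hε0, h.vpos v hv0 hv.le, hdense.1,
      Filter.eventually_all.2 fun i => hwr 0 i v hv0 hv.le, E15] with n
      g0 gFL g1 g2 g3 g4 g5 g6 g7 g8 g9 g10 g11 g12 g13 g14 gle gne gord gU gA gnear gown1 gown2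
      gvm gJI gw gc
    have hMD : lev n u + M n + 1 ≤ lev n v := by
      have : (lev n u : ℝ) + M n + 1 ≤ lev n v := by linarith
      exact_mod_cast this
    have hka : lev n u + M n + 1 - k n = lev n a := by rw [hk n]; omega
    have huvn : lev n u ≤ lev n v := g0.1
    have hA := h.Apos n
    have hdu := dpow_pos B n (-(g * u))
    have hX0 : 0 < A n * B.d n ^ (-(g * u)) * vm n v := mul_pos (mul_pos hA hdu) gvm
    have hR0 : (0 : ℝ) < 2 ^ (lev n v - lev n u) := by positivity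
    obtain ⟨d', hd'⟩ := Nat.exists_eq_add_of_le hMD
    have hd'R : (d' : ℝ) = (lev n v : ℝ) - lev n u - M n - 1 := by
      have : (lev n v : ℝ) = lev n u + M n + 1 + d' := by exact_mod_cast hd'
      linarith
    have hV : wv w v n 0 * wv w v n 2 * wv w v n 1 * Rq q (rho (lev n v)) (wv w v n 0)
        (wv w v n 2) (wv w v n 1) = vm n v := by
      rw [gord.2.2.2.2]; rfl
    have amp1 : ∀ x : ℚ, ampA B A (fun v => g * v) n x = A n * B.d n ^ (-(g * x)) := fun x => rfl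
    refine key (I n) (J' n) (L n) (f n v) (fe n) (wv w v n) (lab n) q (lev n u) (lev n v) (M n)
      (k n) (B.d n ^ (-ε)) (Real.logb 2 (A n * B.d n ^ (-(g * u)) * vm n v) +
        3 * ((lev n v : ℝ) - lev n u)) (r0 n) (fun i => wr i n)
      (fun i => cr i n) (B.d n ^ (-ε) * ampA B A (fun v => g * v) n u) (B.d n ^ (-ε) * ampA B A (fun v => g * v) n a)
      ((hJ'sub n).trans gJI) gne ?_ ?_ ?_ hMD hq (g0.2 0) gord.1 gord.2.1 gord.2.2.1
      (fun i => by simpa [wv] using (gw i).1) gc g5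
      (fun x _ => hO n x) (d_one_le B n hε0.le) gFL.1 gFL.2.2 ?_ (hJ n g0).2.1 (hJ n g0).2.2.1
      ?_ ?_ ?_ ?_ ?_ ?_ gU ?_ ?_ ?_
    · have : (M₀ : ℝ) ≤ M n := by linarith
      exact_mod_cast this
    · linarith
    · linarith
    · have e1 : B.d n ^ (-(3 * ε)) = B.d n ^ (-ε) * (B.d n ^ (-ε)) ^ 2 := by
        rw [sq, ← dpow_add, ← dpow_add]; congr 1; ring
      have e2 : (2 : ℝ) ^ (1 * ((lev n v : ℝ) - lev n u) + (-1) * (M n : ℝ) + 0) * 2 ^ (M n) =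
          2 ^ (lev n v - lev n u) := by
        rw [← Real.rpow_natCast, ← Real.rpow_natCast, ← Real.rpow_add two_pos]
        push_cast [Nat.cast_sub huvn]
        congr 1; ring
      rw [← e2]
      refine mul_le_mul_of_nonneg_right ?_ (by positivity)
      refine le_trans ?_ g11
      rw [e1]
      exact mul_le_mul_of_nonneg_right g14 (by positivity)
    · intro x hx y hy
      exact (hJ n g0).2.2.2.1 x (hJ'sub n hx) y (hJ'sub n hy)
    · intro x hx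
      have h1 := own_coarse (J' n) (lev n u) (lev n u + M n + 1) d' x
      rw [← hd'] at h1
      have h2 := (gown1 x hx).1
      rw [show -((v : ℝ) - u) + (0 * (v : ℝ) - 0 * (u : ℝ)) + ε = -((v : ℝ) - u) + ε by ring] at h2
      refine own_num h1 h2 ?_
      have e1 : (M n : ℝ) - ε₀ * M n + d' =
          1 * ((lev n v : ℝ) - lev n u) + -ε₀ * (M n : ℝ) + -1 := by rw [hd'R]; ring
      rw [e1]
      exact g9
    · intro x hx
      rw [hka]
      have h1 := own_coarse (J' n) (lev n a) (lev n u + M n + 1) d' x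
      rw [← hd'] at h1
      have h2 := (gown2 x hx).1
      rw [show -((v : ℝ) - a) + (0 * (v : ℝ) - 0 * (a : ℝ)) + ε = -((v : ℝ) - a) + ε by ring] at h2
      refine own_num h1 h2 ?_
      have e1 : (k n : ℝ) - ε₀ * M n + d' =
          1 * (k n : ℝ) + 1 * (1 * ((lev n v : ℝ) - lev n u) + -(1 + ε₀) * (M n : ℝ) + 0) + -1 := by
        rw [hd'R]; ring
      rw [e1]
      exact g10
    · intro x hx
      have h1 := gnear (zc (lev n v) x.2) x.1 (mem_alive.2 ⟨x, hx, rfl, rfl⟩)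
      rw [amp1] at h1
      have h2 := num3 (gu := g * u) (gv := g * v) hA gvm g8 h1
      refine le_trans (le_of_eq ?_) h2
      rw [← Real.rpow_logb two_pos (by norm_num) hX0, ← Real.rpow_add two_pos,
        Real.rpow_logb two_pos (by norm_num) hX0]
      congr 1
      ring
    · rw [amp1]
      exact (mul_pos (dpow_pos B n _) (mul_pos hA (dpow_pos B n _))).le
    · rw [amp1]
      exact (mul_pos (dpow_pos B n _) (mul_pos hA (dpow_pos B n _))).le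
    · rw [hka]; exact gA
    · rw [hV, two_n0 hX0 huvn, amp1]
      exact num1 hA gvm hR0 g12 g6
    · have e1 : Real.logb 2 (A n * B.d n ^ (-(g * u)) * vm n v) +
          3 * ((lev n v : ℝ) - lev n u) - 3 * (M n : ℝ) + g * ((M n : ℝ) - k n) + ε₀ * M n =
          Real.logb 2 (A n * B.d n ^ (-(g * u)) * vm n v) + 3 * ((lev n v : ℝ) - lev n u) +
          ((1 * (g * (1 * (M n : ℝ) + (-1) * (k n : ℝ) + 0)) + 1 * (ε₀ * (M n : ℝ)) + 0) -
            3 * (M n : ℝ)) := by ring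
      have e2 : ∀ Y : ℝ, (2 : ℝ) ^ (Y - 3 * (M n : ℝ)) = 2 ^ Y / (2 ^ (M n)) ^ 3 := by
        intro Y
        rw [Real.rpow_sub two_pos]
        congr 1
        rw [← pow_mul, ← Real.rpow_natCast]
        push_cast
        congr 1; ring
      rw [hV, e1, two_n0 hX0 huvn, e2, amp1]
      exact num2 hA gvm hR0 (by positivity) g13 g7
  exact (hfin.exists).elim fun _ h => h

end Crest.Agent.R136.HR829
end

-- ▼ part R136/HR12_829
section

/-!
# R136 (helper829): field `A` of the table of the thick branch (no visible tie)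
-/

set_option autoImplicit false
set_option linter.unusedVariables false

open Finset Filter Topology

namespace Crest.Agent.R136.HR829

open Crest.Agent.R138.Ex926 (Base U)
open Crest.Agent.R136.Top484
open Crest.Agent.R136.NatT550
open Crest.Agent.R136.TopB550

/-- no visible tie, from the input of L15 alone -/
theorem preA_false (hKM : ∀ V : ℝ, Crest.Agent.R138.Tub70.KM32 V) {η : ℝ} {p : Par4} {D : Dat4}
    {π : Equiv.Perm (Fin 3)} {eE fA fB : ℕ → ℕ × ℝ → ℝ} {V T : Fin 11 → Prop} {w0 R T0 : ℝ}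
    {PD : Set (Fin 11 → ℝ)} (h : ThickPre η p D π eE fA fB V T w0 R T0 PD)
    (hV : ¬ V 2 ∧ ¬ V 3 ∧ ¬ V 4) : False := by
  have hg := h.ok.g0
  have hq2 := h.ok.q2
  have hq1 : 0 ≤ p.q 1 := by
    first
      | exact hg.2.le
      | (have hη : 0 < η := by
           by_contra hc
           push Not at hc
           have := mul_nonpos_of_nonpos_of_nonneg hc hg.1.le
           linarith [hq2.1, hq2.2]
         by_contra hc
         push Not at hc
         have := mul_nonpos_of_nonneg_of_nonpos hη.le hc.le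
         linarith [hg.1, hg.2])
  have hq : ∀ i, 0 ≤ p.q i := by
    intro i
    fin_cases i
    · exact h.ok.q0.1
    · exact hq1
    · exact hq2.1.le
  exact end_flat hKM h.pre.mka h.wrs hg.1 hq h.ok.θ1 (ffr π eE fA fB) (fun n x => ffr_ortho n x)
    (u := 0) (v := 1 / 2) le_rfl (by norm_num) (by norm_num)
    (fun ε hε => fl_seq h hV le_rfl (by norm_num) (by norm_num) (by norm_num) hε)

/-- **field `A` of `ThickTable`** -/
theorem caseA (hKM : ∀ V : ℝ, Crest.Agent.R138.Tub70.KM32 V) (η : ℝ) : Dead η pA := by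
  intro p D I1 π eE fA fB V T w0 R T0 PD ν own c₀ h hV
  exact preA_false hKM h.tp hV

end Crest.Agent.R136.HR829
end

-- ▼ part R136/C1e_865

/-!
# R136, case (C1) of the thick table (helper865): the row

* `w0h` : `W0H lam T` from `AeW`; `slo_row`, `lf_of_row` : the facts of 628's `RowPt` on the plane
  with slack `F_b`, `kf > 0`;
* **`caseC1 : DeadG η pC1`**.
-/

set_option autoImplicit false
set_option linter.unusedSectionVars false
set_option linter.unusedVariables false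

open Filter Topology

namespace Crest.Agent.R136.C1865

open Finset Crest.Agent.R136.NetQ186 Crest.Agent.R136.Net191 Crest.Agent.R136.Qg926
open Crest.Agent.R136.Gf356 Crest.Agent.R136.Aw413 Crest.Agent.R136.Dg219
open Crest.Agent.R136.Ab356 (wtQ)
open Crest.Agent.R136.Ev356 (mv QAt QWnd flg)
open Crest.Agent.R136.Wq400 (qwnd_of_wat hcQ)
open Crest.Agent.R136.Tb628 (coneF s0 sA sB fA fB mem_act eCa eECb RecS RowPt Hom oS)
open Crest.Agent.R136.NatR550 (nL)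
open Crest.Agent.R136.NatT550 (nat4 Thick Gap23)
open Crest.Agent.R136.Wq638 (couQ incQ uH uA uB uY)
open Crest.Agent.R136.GeoQ186 (scl)
open Crest.Agent.R138.Ex926 (Base U U_le_atTop)

section win

variable {Ma : Mons 11} {C T : ℝ}
variable {ι : ℕ → Type*} [∀ n, DecidableEq (ι n)] {B Bo : Base} {I J : ∀ n, Finset (ι n)}
  {co : ∀ n, ι n → ι n → Fin 11 → ℝ} {f : ∀ n, ι n → Fq4} {lam : (Fin 11 → ℝ) → ℝ}
  {a b : Fin 11 → ℝ} {A : ℝ × ℝ} {φ : ℕ → (Fin 11 → ℝ) → ℝ} {r : ℕ → ℝ} {κv : Fin 11 → ℝ}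
  {V Tw : Fin 11 → Prop} {κ σ : ℝ}

/-- **the base window** -/
theorem w0h (h : AeW B Bo I J co monQ Ma C lam a b A φ r 0 1 κv V Tw) (hC : 0 ≤ C)
    (hco : ∀ n, ∀ i ∈ I n, ∀ j ∈ I n, co n i j = coQ (f n i) (f n j))
    (hJ : ∀ᶠ n in (U : Filter ℕ), (J n).Nonempty) (hM : MaC Ma) (hT : 0 < T)
    (hV : ∀ k, V k → k = 3 ∨ k = 4) : LF.W0H lam T := by
  have hT' := hT.le
  have e1 : cut {0} (tp0 T) 0 = bz 0 0 T T T 0 T T 0 := by
    funext j; fin_cases j <;> simp [cut, bz, tp0]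
  have e2 : cut {0} 0 (tp0 T) = bz T 0 0 0 0 0 0 0 0 := by
    funext j; fin_cases j <;> simp [cut, bz, tp0]
  have l1 : tp0 T ∈ Leg Ma T := by
    unfold tp0
    refine mem_legT hM hT (mem_bz.2 ⟨?_, ?_, ?_, ?_, ?_, ?_, ?_⟩) ?_ ?_ ?_ ?_ ?_ ?_ ?_ ?_ ?_ <;>
      first | linarith | simp
  have l2 : cut {0} (tp0 T) 0 ∈ Leg Ma T := by
    rw [e1]
    refine mem_legT hM hT (mem_bz.2 ⟨?_, ?_, ?_, ?_, ?_, ?_, ?_⟩) ?_ ?_ ?_ ?_ ?_ ?_ ?_ ?_ ?_ <;>
      first | linarith | simp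
  have l3 : cut {0} 0 (tp0 T) ∈ Leg Ma T := by
    rw [e2]
    refine mem_legT hM hT (mem_bz.2 ⟨?_, ?_, ?_, ?_, ?_, ?_, ?_⟩) ?_ ?_ ?_ ?_ ?_ ?_ ?_ ?_ ?_ <;>
      first | linarith | simp
  have lc : Leg Ma T ⊆ coneM Ma := leg_cone fun k => Finset.Subset.refl _
  have hok : (stC {0} (tp0 T) T Ma C).Ok monQ (coneM Ma) :=
    stC_ok hM hC hT.le (by decide) l1 l2 l3
  have t0 : tp0 T 0 = T := by simp [tp0, bz]
  have t3 : tp0 T 3 = 0 := by simp [tp0, bz]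
  have t4 : tp0 T 4 = 0 := by simp [tp0, bz]
  -- density: own loss of the height and sharpness
  have hd : lam (tp0 T) ≤ lam (cut {0} (tp0 T) 0) + lam (cut {0} 0 (tp0 T)) := by
    have m1 := lc l1
    have m2 := lc l2
    have m3 := lc l3
    rw [e1] at m2 ⊢
    rw [e2] at m3 ⊢
    have h1 := h.own _ m2 _ m1 (by
      unfold tp0
      exact bz_le hT' le_rfl le_rfl le_rfl le_rfl le_rfl le_rfl le_rfl le_rfl) (by
      intro k hk
      rcases hV k hk with rfl | rfl <;> simp [bz])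
    have h2 := h.sharp 0 zero_mem _ m3 (by
      intro i; fin_cases i <;> simp [bz]; exact hT')
    have h3 : ∑ s, (bz T 0 0 0 0 0 0 0 0 s - (0 : Fin 11 → ℝ) s) = T := by
      rw [Finset.sum_eq_single 0 (fun j _ hj => by fin_cases j <;> simp [bz] at hj ⊢)
        (fun h0 => absurd (mem_univ _) h0)]
      simp [bz]
    rw [h3, h.zero] at h2
    rw [t0] at h1
    simp only [bz, Matrix.cons_val, sub_zero, one_mul] at h1 h2 ⊢
    linarith
  obtain ⟨W, hW, -, -⟩ := h.wnd (stC {0} (tp0 T) T Ma C) rfl hok (fun _ _ => 1)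
    (fun i => Crest.Agent.R138.Ex926.Base.Sub.const one_pos) J (fun _ => 1)
    (Eventually.of_forall fun n => Finset.Subset.refl _) hJ
    (Crest.Agent.R138.Ex926.Base.Sub.const one_pos) (Eventually.of_forall fun n => by simp)
  have hden : (stC {0} (tp0 T) T Ma C).Dens lam 1 T := stC_dens h hM hT.le t0.ge hd
  obtain ⟨E', g, hPr, -, H, -⟩ := hW.model hden (fun _ _ _ => 0)
    (g₀ := fun n => (n : ℝ)) (tendsto_natCast_atTop_atTop.mono_left U_le_atTop) (by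
      intro k hk
      rcases hV k hk with rfl | rfl
      · right; exact t3
      · right; exact t4)
  have hq : QWnd W f := qwnd_of_wat hW hco (by
    show ∀ s ∈ ({0} : Finset (Fin 11)), _
    decide)
  have hc := hcQ hq hPr
  have Q : QAt W f Ma := QAt.of_wat hW hq (by
    show (0 : Fin 11) ∈ ({0} : Finset (Fin 11)); decide) (fun s => rfl) hM.n7r
  have win : Win0 W Ma T := ⟨hW.ekz, hW.eS, hW.etop, hW.eR, hW.eMw, hT⟩
  refine ⟨W.B', W.cfg E', W.legW, W.nu, W.Dc, lam (tp0 T), m0_of Q hM hc win H,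
    fun e ca cb xa xb => ?_⟩
  unfold Wnd.nu
  rw [hW.elam, win.S, win.top, cut0]

end win

section row

variable {B : Base} {I I1 : ℕ → Finset (ℕ × ℝ)} {co : ∀ n : ℕ, ℕ × ℝ → ℕ × ℝ → Fin 11 → ℝ}
  {θ : Fin 3 → ℝ} {w0 R : ℝ} {ν : (Fin 11 → ℝ) → ℝ} {V T : Fin 11 → Prop} {ξ x : ℝ}
  {h' : ℕ → ℝ} {lam : (Fin 11 → ℝ) → ℝ} {A : ℝ × ℝ} {φ : ℕ → (Fin 11 → ℝ) → ℝ} {r : ℕ → ℝ}
  {κ3 kf q1 q2 : ℝ}

/-- slopes of the plane -/
theorem slo_row (hf : 0 ≤ kf) (hτ : (θ 0 + κ3) / θ 1 = 1) :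
    Slo (fA 0 κ3 kf) (fB θ 0 κ3 kf) κ3 (θ 2 / θ 1) where
  a0 := by simp [fA, sA, nL]
  a1 := by simp [fA, sA, nL]
  a2 := by simp [fA, sA, nL]
  a3 := by simpa [fA, sA, nL] using hf
  a4 := by simp [fA, sA, nL]
  a5 := by simp [fA, sA, nL]
  a6 := by simp [fA, sA, nL]
  a7 := by simp [fA, sA, nL]
  a8 := by simp [fA, sA, nL]
  a9 := by simp [fA, sA, nL]
  a10 := by simp [fA, sA, nL]
  b0 := by simp [fB, sB, nL]
  b2 := by simp [fB, sB, nL]
  b4 := by simp [fB, sB, nL, hτ]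
  b5 := by simp [fB, sB, nL]
  b6 := by simp [fB, sB, nL]
  b7 := by simp [fB, sB, nL, hτ]
  b8 := by simp [fB, sB, nL]
  b9 := by simp [fB, sB, nL]
  b10 := by simp [fB, sB, nL, hτ]

/-- **the facts of a point of the row** -/
theorem lf_of_row (P : RowPt B I I1 co θ w0 R ν V T (s0 w0 (R - 1)) (fA 0 κ3 kf)
      (fB θ 0 κ3 kf) ξ x h' lam A φ r)
    (Hm : Hom (s0 w0 (R - 1)) (fA 0 κ3 kf) (fB θ 0 κ3 kf) φ)
    (hcone : coneM (actM monQ (s0 w0 (R - 1)) (fA 0 κ3 kf) (fB θ 0 κ3 kf)) = coneF)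
    (g1 : RecS θ w0 R ν (eCa 1) q1) (g2 : RecS θ w0 R ν (eECb 1) q2) (hq1 : 0 < q1)
    (hq2 : 0 < q2) (hκ : 0 < κ3) (hf : 0 < kf) (h1 : 0 < θ 1) (hκ3 : κ3 = θ 1 - θ 0)
    (h12 : θ 2 ≠ θ 1) (hV : ∀ k, V k → fB θ 0 κ3 kf k = 0 → k = 4) :
    LF lam (fA 0 κ3 kf) (fB θ 0 κ3 kf) A φ r κ3 (θ 2 / θ 1) q1 q2 := by
  have hτ : (θ 0 + κ3) / θ 1 = 1 := by
    rw [hκ3, div_eq_one_iff_eq h1.ne']; ring
  have sl := slo_row (θ := θ) hf.le hτ
  have cz : ∀ {k : Fin 11}, k ≠ 1 → fA 0 κ3 kf k = 0 → k = 2 ∨ k = 5 ∨ k = 6 := by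
    intro k hk1 hk
    have e3 : fA 0 κ3 kf 3 = kf := by simp [fA]
    fin_cases k
    · simp [sl.a0] at hk
    · exact absurd rfl hk1
    · simp
    · simp [e3] at hk; exact absurd hk hf.ne'
    · simp [sl.a4] at hk; exact absurd hk hκ.ne'
    · simp
    · simp
    · simp [sl.a7] at hk; exact absurd hk hκ.ne'
    · simp [sl.a8] at hk
    · simp [sl.a9] at hk
    · simp [sl.a10] at hk; linarith
  exact
    { κ0 := hκ
      σ1 := fun h => h12 (by rwa [div_eq_one_iff_eq h1.ne'] at h)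
      q1p := hq1
      q2p := hq2
      sl := sl
      out := by have := P.out; rwa [hcone] at this
      hom := fun k hk c hc s hs => Hm k hk c (by rw [hcone]; exact hc) s hs
      zero := P.aew.zero
      anti := fun c hc c' hc' => P.aew.anti c (by rw [hcone]; exact hc) c'
        (by rw [hcone]; exact hc')
      sharp := fun c hc c' hc' => P.aew.sharp c (by rw [hcone]; exact hc) c'
        (by rw [hcone]; exact hc')
      own := fun c hc c' hc' hcc h4 => by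
        have := P.aew.own c (by rw [hcone]; exact hc) c' (by rw [hcone]; exact hc') hcc
          (fun k hk => by
            have hk4 := hV k hk.1 hk.2
            subst hk4
            have e4 : oS θ 4 = κ3 := by rw [Tb628.oS_eq, hκ3]; simp
            rw [e4]
            exact h4)
        linarith
      S1 := fun c hc y hy hcy e2 e6 => by
        refine P.S1 sl.a5 sl.b5 g1 (by rw [hcone]; exact hc) hy (by rw [hcone]; exact hcy)
          fun k hk1 hk => ?_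
        rcases cz hk1 hk with rfl | rfl | rfl
        · rw [sl.b2]; exact e2
        · rw [sl.b5, one_mul]
        · rw [sl.b6]; exact e6
      S2 := fun c hc τ y hy hcy e5 e2 e6 => by
        refine P.S2 sl.a2 sl.a6 g2 (by rw [hcone]; exact hc) (τ := τ) hy
          (by rw [hcone]; exact hcy) (fun k hk1 hk => ?_) (by rw [sl.b2]; exact e2)
          (by rw [sl.b6]; exact e6)
        rcases cz hk1 hk with rfl | rfl | rfl
        · rw [sl.b2]; exact e2.le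
        · rw [sl.b5, one_mul]; exact e5
        · rw [sl.b6]; exact e6.le }

end row

/-- the slack of row C1 from the weak slope bound of `J1c` -/
theorem hsl_weak {q0 q2 g η t0 t1 t2 : ℝ} (hη : η ≤ 1 / 8) (hg : 0 < g) (h0 : 0 ≤ q0)
    (h2 : 0 ≤ q2)
    (hb : q2 * max (t1 - t2) 0 + q0 * (max (-t0) 0 + |t1| + |t2|) ≤ η * g) :
    q2 * 0 + q0 * (t1 - t0) < g := by
  have e1 : t1 - t0 ≤ max (-t0) 0 + |t1| + |t2| := by
    have := le_max_left (-t0) 0
    have := le_abs_self t1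
    have := abs_nonneg t2
    linarith
  have e2 : 0 ≤ q2 * max (t1 - t2) 0 := mul_nonneg h2 (le_max_right _ _)
  have e3 := mul_le_mul_of_nonneg_left e1 h0
  have e4 : η * g ≤ 1 / 8 * g := mul_le_mul_of_nonneg_right hη hg.le
  linarith

/-- **(C1)** : the wide width free, 31 dominates -/
theorem caseC1 {η : ℝ} (hη : η ≤ 1 / 8) : TopB550.DeadG η TopB550.pC1 := by
  intro p D I1 π eE gA gB V T w0 R T0 PD ν own c₀ h hp hg
  obtain ⟨h2, h4, h12, hls⟩ := hp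
  have ok := h.tp.ok
  have sl := h.tp.slots
  have hη0 := ok.η_pos
  have hθ1 := ok.θ1
  have hκ : 0 < p.θ 1 - p.θ 0 := by
    have := (sl.vis 4 h4).2
    simpa [Crest.Agent.R136.Wq638.btQ] using this
  have T4 : T 4 := by
    by_contra hc
    exact h2 (sl.cap 4 h4 hc).2.1
  have hne : p.θ 2 ≠ p.θ 1 := by
    rcases h12 with h | ⟨-, h⟩
    · exact h.ne
    · exact h.ne'
  obtain ⟨kf, hf0, hf1, hf3⟩ : ∃ kf : ℝ, 0 < kf ∧ kf < p.θ 1 - p.θ 0 ∧
      (V 3 → p.θ 2 - p.θ 0 < kf) := by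
    by_cases h3 : V 3
    · have h32 : 0 < p.θ 2 - p.θ 0 := by
        have := (sl.vis 3 h3).2
        simpa [Crest.Agent.R136.Wq638.btQ] using this
      have hlt : p.θ 2 < p.θ 1 := by
        rcases h12 with h | ⟨h, -⟩
        · exact h
        · exact absurd h3 h
      exact ⟨(p.θ 1 - p.θ 0 + (p.θ 2 - p.θ 0)) / 2, by linarith, by linarith,
        fun _ => by linarith⟩
    · exact ⟨(p.θ 1 - p.θ 0) / 2, by linarith, by linarith, fun h => absurd h h3⟩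
  refine Tb628.row_F0 (κ := 0) (κ3 := p.θ 1 - p.θ 0) (kf := kf) h hη0 le_rfl hκ.le hf0.le
    (by linarith) (Or.inl rfl) (hg.imp Ne.symm id)
    (by
      first
        | exact Tb628.hsl_sub ok hη (i := 0) (j := 0) (k := 1) (l := 0) (by simp) (le_abs_self _)
        | exact hsl_weak hη ok.g0.1 ok.q0.1 ok.q2.1.le ok.θb)
    (fun h => absurd h h2) (fun h3 => (hf3 h3).le) (fun _ => le_rfl) ?_
  intro g1 g2 hcone ξ x h' lam A φ r P Hm
  have hτ : (p.θ 0 + (p.θ 1 - p.θ 0)) / p.θ 1 = 1 := by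
    rw [div_eq_one_iff_eq hθ1.ne']; ring
  have hM := maC_act (θ := p.θ) (w0 := w0) (R := R) hf1 (by rw [hτ]; norm_num) hcone
  have hV : ∀ k, V k → fB p.θ 0 (p.θ 1 - p.θ 0) kf k = 0 → k = 4 := by
    intro k hk hb
    rcases (sl.vis k hk).1 with rfl | rfl | rfl
    · exact absurd hk h2
    · rw [Tb628.fB_three, div_eq_zero_iff, or_iff_left hθ1.ne'] at hb
      have := hf3 hk
      linarith
    · rfl
  have hLF := lf_of_row P Hm hcone (g1 hne.symm) g2 ok.g0.2 ok.q2.1 hκ hf0 hθ1 rfl hne hV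
  have hco : ∀ n, ∀ i ∈ D.I n, ∀ j ∈ D.I n,
      couQ D.B D.lev D.w w0 (incQ π D.L eE gA gB) n i j =
        coQ (scl (uH D.B D.lev w0 n) (uA D.B D.lev D.w w0 n) (uB D.B D.lev D.w w0 n)
          (uY D.B D.lev D.w w0 n) (incQ π D.L eE gA gB n i))
          (scl (uH D.B D.lev w0 n) (uA D.B D.lev D.w w0 n) (uB D.B D.lev D.w w0 n)
          (uY D.B D.lev D.w w0 n) (incQ π D.L eE gA gB n j)) := fun _ _ _ _ _ => rfl
  have hb4 : fB p.θ 0 (p.θ 1 - p.θ 0) kf 4 = 0 := hLF.sl.b4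
  have hne' := h.ext.ne
  have key := hLF.fhalf (fun hc => hls ⟨hc.1, by
      have := hc.2
      rw [div_eq_iff hθ1.ne'] at this
      linarith⟩) one_pos
    (w0h P.aew zero_le_two hco hne' hM one_pos fun k hk => Or.inr (hV k hk.1 hk.2))
    (w1h1 P.aew zero_le_two hco hne' hM one_pos (fun k hk => Or.inr (hV k hk.1 hk.2))
      ⟨T4, hb4⟩ hLF.sl hκ)
    (fun hσ => w1h2 P.aew zero_le_two hco hne' hM one_pos
      (fun k hk => Or.inr (hV k hk.1 hk.2)) ⟨T4, hb4⟩ hLF.sl hκ hσ)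
  linarith

end Crest.Agent.R136.C1865
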