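import Crest.Agent.R136.C1c_865

/-!
# R136, case C1* (helper940): `X_a` and `X_b` are full

Generated from helper865's C1c_865 (theorems `xa_full`, `xb_full`), with weaker hypotheses: no
condition against the resonance `κ = 1, σ = 1 / 2`, sweeps only at boxes which are coarse.
-/

set_option autoImplicit false
set_option linter.unusedVariables false
set_option linter.unusedSectionVars false

open Filter Topology Finset

namespace Crest.Agent.R136.C1s940

open Crest.Agent.R138.Ex926 (Base U)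
open Crest.Agent.R136.Gf356
open Crest.Agent.R136.Dg219 (gC dhC nC OutS gC_zero gC_eq gset lf)
open Crest.Agent.R136.Rc146 (OutA)
open Crest.Agent.R136.Tb628 (coneF eCa eECb)
open Crest.Agent.R136.C1865 (M0 bw bz mem_bz bz_le Slo)
open Crest.Agent.R136.C1865.LF (W0H)

/-- facts on the tangent (865's `LF` without the parts which are not used for the fullness of
`X_a`, `X_b`; sweeps only at boxes which are not finer than the base point in the slots of weight
zero) -/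
structure LX (lam : (Fin 11 → ℝ) → ℝ) (a b : Fin 11 → ℝ) (A : ℝ × ℝ)
    (φ : ℕ → (Fin 11 → ℝ) → ℝ) (r : ℕ → ℝ) (κ σ q1 q2 : ℝ) : Prop where
  κ0 : 0 < κ
  σ1 : σ ≠ 1
  q1p : 0 < q1
  q2p : 0 < q2
  sl : Slo a b κ σ
  out : OutA (gC a b) coneF a b (dhC a b) (nC a b) lam A φ r
  anti : ∀ c ∈ coneF, ∀ c' ∈ coneF, c ≤ c' → lam c' ≤ lam c
  sharp : ∀ c ∈ coneF, ∀ c' ∈ coneF, c ≤ c' → lam c - lam c' ≤ ∑ s, (c' s - c s)
  S1 : ∀ c ∈ coneF, ∀ y : ℝ, 0 ≤ y → c + eCa y ∈ coneF → c 2 ≤ 0 → c 3 ≤ 0 → c 5 = 0 →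
    c 6 ≤ 0 → q1 * y ≤ lam c - lam (c + eCa y)
  S2 : ∀ c ∈ coneF, ∀ y : ℝ, 0 ≤ y → c + eECb y ∈ coneF → c 2 = 0 → c 3 ≤ 0 → c 5 ≤ 0 →
    c 6 = 0 → q2 * y ≤ lam c - lam (c + eECb y)

namespace LX

variable {lam : (Fin 11 → ℝ) → ℝ} {a b : Fin 11 → ℝ} {A : ℝ × ℝ}
  {φ : ℕ → (Fin 11 → ℝ) → ℝ} {r : ℕ → ℝ} {κ σ q1 q2 : ℝ}
  (h : LX lam a b A φ r κ σ q1 q2)

/-- slots of one group are parallel -/
theorem grp_par {i s : Fin 11} (hi : gC a b i = gC a b s) :
    (a i = 0 ↔ a s = 0) ∧ (a i ≠ 0 → b i * a s = b s * a i) := by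
  by_cases h1 : a s = 0
  · have h2 : gC a b i = 0 := by rw [hi]; exact gC_zero.2 h1
    have h3 : a i = 0 := gC_zero.1 h2
    exact ⟨⟨fun _ => h1, fun _ => h3⟩, fun h4 => absurd h3 h4⟩
  · have h3 : a i ≠ 0 := by
      intro h4
      have h5 : gC a b s = 0 := by rw [← hi]; exact gC_zero.2 h4
      exact h1 (gC_zero.1 h5)
    refine ⟨⟨fun h4 => absurd h4 h3, fun h4 => absurd h4 h1⟩, fun _ => ?_⟩
    have h5 := (gC_eq h3 h1).1 hi
    rw [div_eq_div_iff h3 h1] at h5
    linarith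

include h

/-- only one group moves -/
theorem one_grp {c c' : Fin 11 → ℝ} (hc : c ∈ coneF) (hc' : c' ∈ coneF) {k : ℕ}
    (hk : k ∈ gset (gC a b)) (he : ∀ i, gC a b i ≠ k → c i = c' i) :
    lam c - lam c' = φ k c - φ k c' := by
  rw [h.out.sum _ hc, h.out.sum _ hc', ← sum_sub_distrib]
  rw [sum_eq_single k]
  · intro j _ hj
    rw [h.out.loc j c c' fun i hi => he i (by rw [hi]; exact hj), sub_self]
  · intro hk'; exact absurd hk hk'

/-- **decoupled submodularity** -/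
theorem dec (s : Fin 11) {c c' d d' : Fin 11 → ℝ} (hc : c ∈ coneF) (hc' : c' ∈ coneF)
    (hd : d ∈ coneF) (hd' : d' ∈ coneF) (h1 : ∀ i, i ≠ s → c' i = c i)
    (h2 : ∀ i, i ≠ s → d' i = d i) (h3 : c s = d s) (h4 : c' s = d' s) (h5 : c s ≤ c' s)
    (hg : ∀ i, gC a b i = gC a b s → i ≠ s → c i ≤ d i) :
    lam d - lam d' ≤ lam c - lam c' := by
  have hk : gC a b s ∈ gset (gC a b) := by
    simp [gset]
  have e1 := h.one_grp hc hc' hk fun i hi => (h1 i (by rintro rfl; exact hi rfl)).symm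
  have e2 := h.one_grp hd hd' hk fun i hi => (h2 i (by rintro rfl; exact hi rfl)).symm
  have e3 := h.out.smods (gC a b s) d hd c' hc' c hc d' hd' (fun i hi => by
    by_cases his : i = s
    · subst his; rw [← h3]; exact (min_eq_left h5).symm
    · rw [h1 i his]; exact (min_eq_right (hg i hi his)).symm) (fun i hi => by
    by_cases his : i = s
    · subst his; rw [← h4, ← h3]; exact (max_eq_right h5).symm
    · rw [h1 i his, h2 i his]; exact (max_eq_left (hg i hi his)).symm)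
  rw [e1, e2]
  linarith

/-- one slot moves: `1`-Lipschitz -/
theorem sharp1 (s : Fin 11) {c c' : Fin 11 → ℝ} (hc : c ∈ coneF) (hc' : c' ∈ coneF)
    (h1 : ∀ i, i ≠ s → c' i = c i) (h5 : c s ≤ c' s) : lam c - lam c' ≤ c' s - c s := by
  have h2 := h.sharp c hc c' hc' (fun i => by
    by_cases his : i = s
    · rw [his]; exact h5
    · rw [h1 i his])
  rw [sum_eq_single s (fun j _ hj => by rw [h1 j hj, sub_self])
    (fun hs => absurd (mem_univ s) hs)] at h2
  exact h2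

/-- the group of `X_a` -/
theorem g8 {i : Fin 11} (hi : gC a b i = gC a b 8) : i = 8 ∨ i = 3 ∨ (i = 7 ∧ κ = 1) := by
  obtain ⟨g1, g2⟩ := grp_par hi
  have sl := h.sl
  have hκ := h.κ0
  have hσ := h.σ1
  have e8 : a 8 ≠ 0 := by rw [sl.a8]; norm_num
  have g3 : a i ≠ 0 := fun h0 => e8 (g1.1 h0)
  have g4 := g2 g3
  rw [sl.a8, sl.b8] at g4
  fin_cases i
  · simp [sl.a0, sl.b0] at g4
  · exact absurd sl.a1 g3
  · exact absurd sl.a2 g3
  · simp
  · simp [sl.a4, sl.b4] at g4; exact absurd g4.symm hκ.ne'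
  · exact absurd sl.a5 g3
  · exact absurd sl.a6 g3
  · simp [sl.a7, sl.b7] at g4 ⊢; exact g4.symm
  · simp
  · simp [sl.a9, sl.b9] at g4; exact absurd g4 hσ
  · simp [sl.a10, sl.b10] at g4; exact absurd g4 hκ.ne'

/-- the group of `X_b` -/
theorem g9 {i : Fin 11} (hi : gC a b i = gC a b 9) : i = 9 ∨ i = 3 ∨ i = 0 ∨ i = 4 ∨ i = 7 ∨
    (i = 10 ∧ σ * (1 + κ) = 1) := by
  obtain ⟨g1, g2⟩ := grp_par hi
  have sl := h.sl
  have hκ := h.κ0
  have hσ := h.σ1
  have e8 : a 9 ≠ 0 := by rw [sl.a9]; norm_num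
  have g3 : a i ≠ 0 := fun h0 => e8 (g1.1 h0)
  have g4 := g2 g3
  rw [sl.a9, sl.b9] at g4
  fin_cases i
  · simp
  · exact absurd sl.a1 g3
  · exact absurd sl.a2 g3
  · simp
  · simp
  · exact absurd sl.a5 g3
  · exact absurd sl.a6 g3
  · simp
  · simp [sl.a8, sl.b8] at g4; exact absurd g4.symm hσ
  · simp
  · simp [sl.a10, sl.b10] at g4 ⊢; exact g4.symm


/-- group `0` -/
theorem g0 {s i : Fin 11} (hs : a s = 0) (hi : gC a b i = gC a b s) :
    i = 1 ∨ i = 2 ∨ i = 3 ∨ i = 5 ∨ i = 6 := by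
  obtain ⟨g1, g2⟩ := grp_par hi
  have sl := h.sl
  have hκ := h.κ0
  have g3 : a i = 0 := g1.2 hs
  fin_cases i
  · simp [sl.a0] at g3
  · simp
  · simp
  · simp
  · simp [sl.a4] at g3; exact absurd g3.symm hκ.ne
  · simp
  · simp
  · simp [sl.a7] at g3; exact absurd g3.symm hκ.ne
  · simp [sl.a8] at g3
  · simp [sl.a9] at g3
  · simp [sl.a10] at g3; linarith



/-! ### boxes -/

/-- `X_a` loses its exponent, given the height -/
theorem xaT {T : ℝ} (hT : 0 < T)
    (hX : T ≤ lam (bz T 0 0 0 0 0 0 0 0) - lam (bz T 0 0 0 0 0 T 0 0)) {t : ℝ} (h0 : 0 ≤ t)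
    (h1 : t ≤ T) : t ≤ lam (bz T 0 0 0 0 0 0 0 0) - lam (bz T 0 0 0 0 0 t 0 0) := by
  have h2 := h.sharp1 8 (c := bz T 0 0 0 0 0 t 0 0) (c' := bz T 0 0 0 0 0 T 0 0)
    (mem_bz.2 ⟨by linarith, by linarith, by linarith, by linarith, by linarith, by linarith,
      by linarith⟩)
    (mem_bz.2 ⟨by linarith, by linarith, by linarith, by linarith, by linarith, by linarith,
      by linarith⟩)
    (by intro i hi; fin_cases i <;> simp [bz] at hi ⊢)
    (by simpa [bz] using h1)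
  simp only [bz, Matrix.cons_val] at h2 hX ⊢
  linarith

/-- `X_a` is full given anything legal -/
theorem xaF {T : ℝ} (hT : 0 < T)
    (hX : T ≤ lam (bz T 0 0 0 0 0 0 0 0) - lam (bz T 0 0 0 0 0 T 0 0)) {t : ℝ} (h0 : 0 ≤ t)
    (h1 : t ≤ T) {z f e ca cb p xb n : ℝ} (hp : p = 0 ∨ κ ≠ 1)
    (m1 : bz z f e ca cb p 0 xb n ∈ coneF) (m2 : bz z f e ca cb p t xb n ∈ coneF) :
    t ≤ lam (bz z f e ca cb p 0 xb n) - lam (bz z f e ca cb p t xb n) := by
  refine (h.xaT hT hX h0 h1).trans (h.dec 8 m1 m2 ?_ ?_ ?_ ?_ ?_ ?_ ?_ ?_)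
  · exact mem_bz.2 ⟨by linarith, by linarith, by linarith, by linarith, by linarith, by linarith,
      by linarith⟩
  · exact mem_bz.2 ⟨by linarith, by linarith, by linarith, by linarith, by linarith, by linarith,
      by linarith⟩
  · intro i hi; fin_cases i <;> simp [bz] at hi ⊢
  · intro i hi; fin_cases i <;> simp [bz] at hi ⊢
  · simp [bz]
  · simp [bz]
  · simpa [bz] using h0
  · intro i hi hne
    rcases h.g8 hi with rfl | rfl | ⟨rfl, hk⟩
    · exact absurd rfl hne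
    · simp [bz]
    · rcases hp with hp | hp
      · simp [bz, hp]
      · exact absurd hk hp

/-- box of the base window -/
theorem m0 {T : ℝ} (hT : 0 < T) {e ca cb xa xb : ℝ} (h1 : 0 ≤ ca) (h2 : xa ≤ T) (h3 : 0 ≤ cb)
    (h4 : xb ≤ T) (h5 : cb ≤ e + ca) (h6 : xb ≤ e + xa) (h7 : 0 ≤ xa) :
    bz T 0 e ca cb 0 xa xb 0 ∈ coneF :=
  mem_bz.2 ⟨h5, by linarith, by linarith, by linarith, h6, by linarith, by linarith⟩

/-- one slot, base window: sharpness -/
theorem xaS {T : ℝ} (hT : 0 < T) {e ca cb xa xa' xb : ℝ} (m1 : bz T 0 e ca cb 0 xa xb 0 ∈ coneF)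
    (m2 : bz T 0 e ca cb 0 xa' xb 0 ∈ coneF) (hx : xa ≤ xa') :
    lam (bz T 0 e ca cb 0 xa xb 0) - lam (bz T 0 e ca cb 0 xa' xb 0) ≤ xa' - xa := by
  have h2 := h.sharp1 8 m1 m2 (by intro i hi; fin_cases i <;> simp [bz] at hi ⊢)
    (by simpa [bz] using hx)
  simpa [bz] using h2

theorem xbS {T : ℝ} (hT : 0 < T) {e ca cb xa xb xb' : ℝ} (m1 : bz T 0 e ca cb 0 xa xb 0 ∈ coneF)
    (m2 : bz T 0 e ca cb 0 xa xb' 0 ∈ coneF) (hx : xb ≤ xb') :
    lam (bz T 0 e ca cb 0 xa xb 0) - lam (bz T 0 e ca cb 0 xa xb' 0) ≤ xb' - xb := by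
  have h2 := h.sharp1 9 m1 m2 (by intro i hi; fin_cases i <;> simp [bz] at hi ⊢)
    (by simpa [bz] using hx)
  simpa [bz] using h2

/-- **`X_a` is full** -/
theorem xa_full {T : ℝ} (hT : 0 < T) (hW : W0H lam T) :
    T ≤ lam (bz T 0 0 0 0 0 0 0 0) - lam (bz T 0 0 0 0 0 T 0 0) := by
  obtain ⟨B, G, Leg, ν, D, K, H, hν⟩ := hW
  have key := H.xa (y := T) (c := q1) hT le_rfl h.q1p
    (by
      intro t h1 h2
      rw [hν, hν]
      have m1 : bz T 0 0 0 0 0 t 0 0 ∈ coneF :=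
        h.m0 hT le_rfl h2 le_rfl hT.le (by linarith) (by linarith) h1
      have m2 : bz T 0 0 t 0 0 t 0 0 ∈ coneF :=
        h.m0 hT h1 h2 le_rfl hT.le (by linarith) (by linarith) h1
      have e : bz T 0 0 0 0 0 t 0 0 + eCa t = bz T 0 0 t 0 0 t 0 0 := by
        funext i; fin_cases i <;> simp [bz, eCa]
      have := h.S1 _ m1 t h1 (by rw [e]; exact m2) (by simp [bz]) (by simp [bz]) (by simp [bz])
        (by simp [bz])
      rw [e] at this
      linarith)
    (by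
      intro t h1 h2
      rw [hν, hν]
      have := h.xaS hT (e := 0) (ca := 0) (cb := 0) (xb := 0)
        (h.m0 hT le_rfl h2 le_rfl hT.le (by linarith) (by linarith) h1)
        (h.m0 hT le_rfl le_rfl le_rfl hT.le (by linarith) (by linarith) hT.le) h2
      linarith)
  rw [hν, hν] at key
  linarith

/-- **`X_b` is full** at some scale, given `X_a` -/
theorem xb_full {T : ℝ} (hT : 0 < T) (hW : W0H lam T) : ∃ h0 : ℝ, 0 < h0 ∧ h0 ≤ T ∧
    ∀ t : ℝ, 0 ≤ t → t ≤ h0 →
      t ≤ lam (bz T 0 0 0 0 0 T 0 0) - lam (bz T 0 0 0 0 0 T t 0) := by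
  have hX := h.xa_full hT hW
  obtain ⟨B, G, Leg, ν, D, K, H, hν⟩ := hW
  have hT' := hT.le
  -- reduction to one scale
  have red : ∀ {y e : ℝ}, 0 < y → y ≤ T → 0 ≤ e → e ≤ T →
      ∀ xa : ℝ, 0 ≤ xa → xa ≤ T → y ≤ e + xa →
      y ≤ lam (bz T 0 e 0 0 0 xa 0 0) - lam (bz T 0 e 0 0 0 xa y 0) →
      ∀ t : ℝ, 0 ≤ t → t ≤ y →
        t ≤ lam (bz T 0 0 0 0 0 T 0 0) - lam (bz T 0 0 0 0 0 T t 0) := by
    intro y e hy hyT he heT xa hxa hxaT hye hyy t h1 h2
    have m1 : bz T 0 e 0 0 0 xa 0 0 ∈ coneF :=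
      h.m0 hT le_rfl hxaT le_rfl hT' (by linarith) (by linarith) hxa
    have m2 : bz T 0 e 0 0 0 xa t 0 ∈ coneF :=
      h.m0 hT le_rfl hxaT le_rfl (by linarith) (by linarith) (by linarith) hxa
    have m3 : bz T 0 e 0 0 0 xa y 0 ∈ coneF :=
      h.m0 hT le_rfl hxaT le_rfl (by linarith) (by linarith) (by linarith) hxa
    have m4 : bz T 0 0 0 0 0 T 0 0 ∈ coneF :=
      h.m0 hT le_rfl le_rfl le_rfl hT' (by linarith) (by linarith) hT'
    have m5 : bz T 0 0 0 0 0 T t 0 ∈ coneF :=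
      h.m0 hT le_rfl le_rfl le_rfl (by linarith) (by linarith) (by linarith) hT'
    have e1 := h.xbS hT m2 m3 h2
    have e2 := h.dec 9 m4 m5 m1 m2 (by intro i hi; fin_cases i <;> simp [bz] at hi ⊢)
      (by intro i hi; fin_cases i <;> simp [bz] at hi ⊢) (by simp [bz]) (by simp [bz])
      (by simpa [bz] using h1)
      (by
        intro i hi hne
        rcases h.g9 hi with rfl | rfl | rfl | rfl | rfl | ⟨rfl, -⟩
        · exact absurd rfl hne
        all_goals simp [bz])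
    linarith
  -- the two alternatives
  have alt : ∀ j : ℝ, 0 ≤ j → j ≤ T →
      lam (bz T 0 0 0 0 0 0 0 0) ≤ lam (bz T 0 j 0 0 0 0 0 0) ∨
      T - j ≤ lam (bz T 0 0 0 0 0 T 0 0) - lam (bz T 0 0 0 0 0 T T 0) := by
    intro j hj hjT
    have mE : bz T 0 T 0 0 0 0 T 0 ∈ coneF :=
      h.m0 hT le_rfl hT' le_rfl le_rfl (by linarith) (by linarith) le_rfl
    have mEX : ∀ t : ℝ, 0 ≤ t → t ≤ T → bz T 0 T 0 0 0 t T 0 ∈ coneF := fun t h1 h2 =>
      h.m0 hT le_rfl h2 le_rfl le_rfl (by linarith) (by linarith) h1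
    have hXX := h.xaF hT hX (t := T) hT' le_rfl (z := T) (f := 0) (e := T) (ca := 0) (cb := 0)
      (p := 0) (xb := T) (n := 0) (Or.inl rfl) mE (mEX T hT' le_rfl)
    have key := H.leaf (x := T) (j := j) hj hjT le_rfl (by rw [hν, hν]; linarith)
    rw [hν, hν, hν, hν, hν] at key
    rcases key with key | key
    · left
      have m0' : bz T 0 0 0 0 0 0 0 0 ∈ coneF :=
        h.m0 hT le_rfl hT' le_rfl hT' (by linarith) (by linarith) le_rfl
      have mj : bz T 0 j 0 0 0 0 0 0 ∈ coneF :=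
        h.m0 hT le_rfl hT' le_rfl hT' (by linarith) (by linarith) le_rfl
      have mT : bz T 0 0 0 0 0 T T 0 ∈ coneF :=
        h.m0 hT le_rfl le_rfl le_rfl le_rfl (by linarith) (by linarith) hT'
      have mTj : bz T 0 j 0 0 0 T T 0 ∈ coneF :=
        h.m0 hT le_rfl le_rfl le_rfl le_rfl (by linarith) (by linarith) hT'
      have e2 := h.dec 2 mT mTj m0' mj (by intro i hi; fin_cases i <;> simp [bz] at hi ⊢)
        (by intro i hi; fin_cases i <;> simp [bz] at hi ⊢) (by simp [bz]) (by simp [bz])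
        (by simpa [bz] using hj)
        (by
          intro i hi hne
          rcases h.g0 h.sl.a2 hi with rfl | rfl | rfl | rfl | rfl <;> simp [bz])
      linarith
    · right
      have e1 := h.xaF hT hX (t := T - j) (by linarith) (by linarith) (z := T) (f := 0) (e := T)
        (ca := 0) (cb := 0) (p := 0) (xb := T) (n := 0) (Or.inl rfl) mE
        (mEX (T - j) (by linarith) (by linarith))
      have e2 := h.xaS hT (e := 0) (ca := 0) (cb := 0) (xb := 0)
        (h.m0 hT le_rfl hT' le_rfl hT' (by linarith) (by linarith) le_rfl)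
        (h.m0 hT le_rfl le_rfl le_rfl hT' (by linarith) (by linarith) hT') hT'
      linarith
  by_cases hc : ∃ j : ℝ, 0 < j ∧ j ≤ T ∧
      lam (bz T 0 0 0 0 0 0 0 0) ≤ lam (bz T 0 j 0 0 0 0 0 0)
  · obtain ⟨j, hj, hjT, hf⟩ := hc
    refine ⟨j, hj, hjT, red hj hjT hj.le hjT 0 le_rfl hT' (by linarith) ?_⟩
    have mz : bz T 0 0 0 0 0 0 0 0 ∈ coneF :=
      h.m0 hT le_rfl hT' le_rfl hT' (by linarith) (by linarith) le_rfl
    have key := H.xb (y := j) (c := q2) hj hjT h.q2p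
      (by
        intro t h1 h2
        rw [hν, hν]
        have m1 : bz T 0 j 0 0 0 0 t 0 ∈ coneF :=
          h.m0 hT le_rfl hT' le_rfl (by linarith) (by linarith) (by linarith) le_rfl
        have m2 : bz T 0 j 0 t 0 0 t 0 ∈ coneF :=
          h.m0 hT le_rfl hT' h1 (by linarith) (by linarith) (by linarith) le_rfl
        have m3 : bz T 0 j 0 0 0 0 0 0 ∈ coneF :=
          h.m0 hT le_rfl hT' le_rfl hT' (by linarith) (by linarith) le_rfl
        have m4 : bz T 0 j 0 t 0 0 0 0 ∈ coneF :=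
          h.m0 hT le_rfl hT' h1 hT' (by linarith) (by linarith) le_rfl
        have m5 : bz T 0 t 0 t 0 0 0 0 ∈ coneF :=
          h.m0 hT le_rfl hT' h1 hT' (by linarith) (by linarith) le_rfl
        have e2 := h.dec 6 m1 m2 m3 m4 (by intro i hi; fin_cases i <;> simp [bz] at hi ⊢)
          (by intro i hi; fin_cases i <;> simp [bz] at hi ⊢) (by simp [bz]) (by simp [bz])
          (by simpa [bz] using h1)
          (by
            intro i hi hne
            rcases h.g0 h.sl.a6 hi with rfl | rfl | rfl | rfl | rfl <;> simp [bz])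
        have e3 := h.anti _ m5 _ m4 (bz_le le_rfl le_rfl h2 le_rfl le_rfl le_rfl le_rfl le_rfl
          le_rfl)
        have e : bz T 0 0 0 0 0 0 0 0 + eECb t = bz T 0 t 0 t 0 0 0 0 := by
          funext i; fin_cases i <;> simp [bz, eECb]
        have e4 := h.S2 _ mz t h1 (by rw [e]; exact m5) (by simp [bz]) (by simp [bz])
          (by simp [bz]) (by simp [bz])
        rw [e] at e4
        linarith)
      (by
        intro t h1 h2
        rw [hν, hν]
        have := h.xbS hT (e := j) (ca := 0) (cb := 0) (xa := 0)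
          (h.m0 hT le_rfl hT' le_rfl (by linarith) (by linarith) (by linarith) le_rfl)
          (h.m0 hT le_rfl hT' le_rfl hjT (by linarith) (by linarith) le_rfl) h2
        linarith)
    rw [hν, hν] at key
    linarith
  · push Not at hc
    refine ⟨T, hT, le_rfl, red hT le_rfl le_rfl hT' T hT' le_rfl (by linarith) ?_⟩
    refine le_of_forall_pos_le_add fun ε hε => ?_
    rcases le_total T ε with h1 | h1
    · have m1 := h.anti _ (h.m0 hT le_rfl le_rfl le_rfl hT' (by linarith) (by linarith) hT')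
        _ (h.m0 hT le_rfl le_rfl le_rfl le_rfl (by linarith) (by linarith) hT')
        (bz_le (z := T) (f := 0) (e := 0) (ca := 0) (cb := 0) (p := 0) (xa := T) (xb := 0)
          (n := 0) (z' := T) (f' := 0) (e' := 0) (ca' := 0) (cb' := 0) (p' := 0) (xa' := T)
          (xb' := T) (n' := 0) le_rfl le_rfl le_rfl le_rfl le_rfl le_rfl le_rfl hT' le_rfl)
      linarith
    · rcases alt ε hε.le h1 with h2 | h2
      · exact absurd h2 (not_le.2 (hc ε hε h1))
      · linarith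

end LX

end Crest.Agent.R136.C1s940
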