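import Crest.Agent.R136.Wk9_323
import Crest.Agent.R136.Wk11_323
import Crest.Agent.R136.C1sD_940

-- ▼ part R136/Wk12_323
section

/-!
# R136 (S0187): mirrored lightlike, wrapper at one number `n` (helper323, for 940's C1*)

`mirror_one` : `wrap_one` for `RigData.mirror` (`E = 0`), heights of arbitrary density in a subset
`Zh` on which the flag `fb` is affine.
-/

set_option autoImplicit false
set_option linter.unusedVariables false

open Finset

namespace Crest.Agent.R136.Wk323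

open Crest.Agent.R136.Sh605
open Crest.Agent.R136.Gf356

/-- **MIRRORED LIGHTLIKE at one number `n`.**  `κ₁` = density of the heights of a line in `g.Z`,
`κ₂` = density of `Lg`, `κ₃` = density of the mesh heights (in `Zh`) of the lines of `Lg`. -/
theorem mirror_one {g : RCfg (Fin 11)} {t : ℕ → Ln4} {u : ℕ → ℝ} {fA : ℕ → ℕ → ℝ} {fB : ℕ → ℝ}
    {mu be δ : ℝ} {Fc : ℕ → ℝ} (A0 : ARel0 g.I g.z t u fA fB δ Fc) (hu : ∀ l ∈ g.L, u l = 0)
    {Zh : Finset ℕ} (haff : ∀ k ∈ Zh, |fB k - be - mu * g.z k| ≤ δ)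
    {h κ κ₁ κ₂ κ₃ lm lm0 r a Kf sep tol MP MD Mu Md Mc : ℝ} {N : ℕ}
    {w : ℤ} {kst : ℤ → ℕ} {Lg : Finset ℕ}
    (hδ : 0 < δ) (hh : 0 < h) (hhδ : h ≤ δ) (hNh : N * h ≤ 1) (hN : 0 < N)
    {eo : ℝ} (heo : 3 * δ + 2 * (|mu| * h) ≤ eo)
    (hlm : |mu| ≤ lm) (hlm0 : 0 < lm0) (hlm0' : lm0 ≤ |mu|) (hL : g.L.Nonempty)
    (hZ : g.Z.Nonempty) (hκ₁ : 0 < κ₁) (hκ₂ : 0 < κ₂)
    (hline : ∀ i ∈ g.L, κ₁ * (g.Z.card : ℝ) ≤ ((g.hts i).card : ℝ))
    (hκ : 0 < κ) (hκκ : κ ≤ κ₃) (hLg : Lg ⊆ g.L) (hLgc : κ₂ * (g.L.card : ℝ) ≤ (Lg.card : ℝ))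
    (hal : ∀ l ∈ Lg, κ₃ * N ≤
      ((alf (g.I.filter fun p => p.2 ∈ Zh) g.z h N w kst l).card : ℝ))
    (htol : 20 * δ ≤ tol) (hMP : 0 ≤ MP) (hMD : 0 ≤ MD) (hMu : 0 < Mu) (hMd : 0 < Md)
    (hpc : ∀ k, (((g.slice k).image fun l => posL δ (t l) (fA l k) (fB k) (g.z k)).card : ℝ) ≤ MP)
    (hdc : ∀ k, (((g.slice k).image fun l => dirL δ (t l) (u l)).card : ℝ) ≤ MD)
    (hcu : ∀ k i, (i, k) ∈ g.I → ∀ F ⊆ g.slice k, (∀ l ∈ F, ∀ s ∈ fAll,
      |coA (t i) (t l) (u i) (u l) (fA i k) (fA l k) (fB k) (g.z k) s| ≤ tol) → (F.card : ℝ) ≤ Mu)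
    (hdu : ∀ k i, (i, k) ∈ g.I → ∀ F ⊆ g.slice k, (∀ l ∈ F, ∀ s ∈ fDir,
      |coA (t i) (t l) (u i) (u l) (fA i k) (fA l k) (fB k) (g.z k) s| ≤ tol) → (F.card : ℝ) ≤ Md)
    (hcc : ∀ k, ∀ c : ℝ, ((((g.slice k).filter fun l => |(t l).v 2 - c| ≤ sep).image fun l =>
      dirL δ (t l) (u l)).card : ℝ) ≤ Mc)
    (hfib : ∀ Ls ⊆ Lg, RigData.ThinFib (fun l => shf (w * (N * h)) (t l)) Ls
      (fun l => alf (g.I.filter fun p => p.2 ∈ Zh) g.z h N w kst l)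
      (fun l => dirL δ (t l) (u l)) (3 * δ) h r a Kf)
    (n1 : κ * MP * MD * Mu ≤ κ₁ ^ 2 * (κ₂ * (g.L.card : ℝ)))
    (n2 : Mc * Md ≤ (κ ^ 2 / ((13 ^ 8 : ℕ) : ℝ)) ^ 3 / 4 * (κ₁ ^ 2 * (κ₂ * (g.L.card : ℝ))))
    (hr : 0 < r) (hδr : 3 * δ ≤ r) (her : eo ≤ r) (hlr : lm * (3 * δ) ≤ r) (ha0 : 0 ≤ a)
    (ha1 : a < 1) (hKf : 0 ≤ Kf)
    (hn : 256 * (((13 ^ 8 : ℕ) : ℝ)) ^ 3 ≤ (κ ^ 7 / (2 * (((13 ^ 8 : ℕ) : ℝ)) ^ 4)) ^ 3 * N)
    (hn2 : 256 * (((13 ^ 8 : ℕ) : ℝ)) ^ 3 * (Kf * (16 * lm / r + 382) ^ a) <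
      κ * (κ ^ 7 / (2 * (((13 ^ 8 : ℕ) : ℝ)) ^ 4)) ^ 3 * N) :
    2 * sep < RigData.etaR κ ((13 ^ 8 : ℕ) : ℝ) Kf (N * h) r a lm0 := by
  classical
  have hNr : (0 : ℝ) < N := by exact_mod_cast hN
  have hLpos : (0 : ℝ) < g.L.card := by exact_mod_cast hL.card_pos
  have hLgpos : (0 : ℝ) < Lg.card := lt_of_lt_of_le (by positivity) hLgc
  obtain ⟨Ls, hLsLg, hinj, hrep, hLsc⟩ := exists_reps Lg (fun l => cellL δ (t l) (u l) (Fc l))
  have hLsL : Ls ⊆ g.L := hLsLg.trans hLg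
  have hLsne : Ls.Nonempty := by
    obtain ⟨l, hl⟩ : Lg.Nonempty := by rw [← Finset.card_pos]; exact_mod_cast hLgpos
    obtain ⟨i, hi, -⟩ := hrep l hl
    exact ⟨i, hi⟩
  have AR : ARel (g.I.filter fun p => p.2 ∈ Zh) g.z t u fA fB mu be δ Fc :=
    ⟨A0.mono (filter_subset _ _), fun l k hl => haff k (mem_filter.1 hl).2⟩
  have hDat := AR.rigData_of' (h := h) (κ := κ) (N := N) (w := w) (kst := kst) (Ls := Ls) hδ hh hhδ
    hNh heo hN hκ hinj (fun l hl => le_trans (mul_le_mul_of_nonneg_right hκκ hNr.le)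
      (hal l (hLsLg hl)))
  -- counting
  have c1 := lines_le_cells A0 hδ hMu.le htol hZ hline hcu hLg
  rw [← hLsc] at c1
  have c2 := (lines_le_dirs A0 hδ hMd.le htol hZ hline hdu hLg).trans
    (mul_le_mul_of_nonneg_right (Nat.cast_le.2 (card_le_card (dirs_reps hrep))) hMd.le)
  have c3 : κ₁ * ((Ls.image fun l => dirL δ (t l) (u l)).card : ℝ) ≤ MD := by
    have := dirs_le (t := t) (u := u) (δ := δ) hZ hline (fun _ => True) (M := MD) (by
      intro k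
      rw [filter_true]
      exact hdc k) hLsL
    rwa [filter_true] at this
  have c4 : ((pts (fun l => alf (g.I.filter fun p => p.2 ∈ Zh) g.z h N w kst l)
      (fun l k => posL δ (t l) (fA l (kst k)) (fB (kst k)) (g.z (kst k))) Ls).card : ℝ) ≤
      N * MP := by
    refine pts_card_le Ls (fun l k => posL δ (t l) (fA l k) (fB k) (g.z k)) hMP ?_
    intro k
    refine le_trans ?_ (hpc k)
    refine mod_cast card_le_card (image_subset_image ?_)
    intro l hl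
    obtain ⟨a1, a2⟩ := mem_filter.1 hl
    exact RCfg.mem_slice.2 ⟨hLsL a1, (mem_filter.1 a2).1⟩
  have c5 : κ₁ * (κ₂ * (g.L.card : ℝ)) ≤ κ₁ * (Lg.card : ℝ) :=
    mul_le_mul_of_nonneg_left hLgc hκ₁.le
  have hcount : κ * ((pts (fun l => alf (g.I.filter fun p => p.2 ∈ Zh) g.z h N w kst l)
      (fun l k => posL δ (t l) (fA l (kst k)) (fB (kst k)) (g.z (kst k))) Ls).card : ℝ) *
      ((Ls.image fun l => dirL δ (t l) (u l)).card : ℝ) ≤ N * (Ls.card : ℝ) := by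
    set P : ℝ := ((pts (fun l => alf (g.I.filter fun p => p.2 ∈ Zh) g.z h N w kst l)
      (fun l k => posL δ (t l) (fA l (kst k)) (fB (kst k)) (g.z (kst k))) Ls).card : ℝ) with hP
    set Dn : ℝ := ((Ls.image fun l => dirL δ (t l) (u l)).card : ℝ) with hDn
    have hP0 : 0 ≤ P := Nat.cast_nonneg _
    have hDn0 : 0 ≤ Dn := Nat.cast_nonneg _
    have h1 : (κ * P * Dn) * (κ₁ * Mu) ≤ (N * (Ls.card : ℝ)) * (κ₁ * Mu) := by
      calc (κ * P * Dn) * (κ₁ * Mu) = κ * Mu * (P * (κ₁ * Dn)) := by ring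
        _ ≤ κ * Mu * ((N * MP) * MD) := by
            refine mul_le_mul_of_nonneg_left ?_ (by positivity)
            exact mul_le_mul c4 c3 (by positivity) (by positivity)
        _ = N * (κ * MP * MD * Mu) := by ring
        _ ≤ N * (κ₁ ^ 2 * (κ₂ * (g.L.card : ℝ))) := mul_le_mul_of_nonneg_left n1 hNr.le
        _ = N * κ₁ * (κ₁ * (κ₂ * (g.L.card : ℝ))) := by ring
        _ ≤ N * κ₁ * ((Ls.card : ℝ) * Mu) :=
            mul_le_mul_of_nonneg_left (c5.trans c1) (by positivity)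
        _ = _ := by ring
    exact le_of_mul_le_mul_right h1 (by positivity)
  have hconc : ∀ i ∈ Ls, (((Ls.filter fun j => |(t j).v 2 - (t i).v 2| ≤ sep).image fun l =>
      dirL δ (t l) (u l)).card : ℝ) ≤ (κ ^ 2 / ((13 ^ 8 : ℕ) : ℝ)) ^ 3 / 4 *
        ((Ls.image fun l => dirL δ (t l) (u l)).card : ℝ) := by
    intro i hi
    have h1 := dirs_le (t := t) (u := u) (δ := δ) hZ hline
      (fun j => |(t j).v 2 - (t i).v 2| ≤ sep) (M := Mc) (fun k => hcc k _) hLsL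
    set X : ℝ := (((Ls.filter fun j => |(t j).v 2 - (t i).v 2| ≤ sep).image fun l =>
      dirL δ (t l) (u l)).card : ℝ) with hX
    set Dn : ℝ := ((Ls.image fun l => dirL δ (t l) (u l)).card : ℝ) with hDn
    set c : ℝ := (κ ^ 2 / ((13 ^ 8 : ℕ) : ℝ)) ^ 3 / 4 with hc
    have hc0 : 0 ≤ c := by rw [hc]; positivity
    have h2 : X * (κ₁ * Md) ≤ c * Dn * (κ₁ * Md) := by
      calc X * (κ₁ * Md) = (κ₁ * X) * Md := by ring
        _ ≤ Mc * Md := mul_le_mul_of_nonneg_right h1 hMd.le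
        _ ≤ c * (κ₁ ^ 2 * (κ₂ * (g.L.card : ℝ))) := n2
        _ = c * κ₁ * (κ₁ * (κ₂ * (g.L.card : ℝ))) := by ring
        _ ≤ c * κ₁ * (Dn * Md) := mul_le_mul_of_nonneg_left (c5.trans c2) (by positivity)
        _ = _ := by ring
    exact le_of_mul_le_mul_right h2 (by positivity)
  exact hDat.mirror hκ (by positivity) (lm := lm) (lm0 := lm0) (r := r) (a := a) (Kf := Kf)
    (sep := sep) hlm hlm0 hlm0' hr hδr her hlr ha0 ha1 hKf hLsne hN
    (fun i hi => hu i (hLsL hi)) hcount hconc (hfib Ls hLsLg) hn hn2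

end Crest.Agent.R136.Wk323
end

-- ▼ part R136/Wk13_323
section

/-!
# R136 (S0187): counting without the affine relation (helper323, for 940's C1*)

`AbsRel` = `AbsWin` without `own`, `aff`, with any bound `Kb` of `rel`; `posCount_A`, `dirCount_A`,
`famUp_A`, `conc_A` (any direction slot), `fib_A` (thin fibre, only `qv x 0`, `qv x x`).
Proofs adapted from helper344's `WkN_344`.
-/

set_option autoImplicit false
set_option linter.unusedVariables false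
set_option linter.unusedSectionVars false

open Filter Topology Finset

namespace Crest.Agent.R136.Wk323

open Crest.Agent.R136.Sh605
open Crest.Agent.R138.Ex926 (Base U)
open Crest.Agent.R136.Gf356
open Crest.Agent.R136.RgN344

/-- absolute coordinates, no relation between the flags -/
structure AbsRel (B : Base) (G : ℕ → RCfg (Fin 11)) (x : ℝ) (T : ℕ → ℕ → Ln4) (E : ℕ → ℕ → ℝ)
    (fa : ℕ → ℕ → ℕ → ℝ) (fb : ℕ → ℕ → ℝ) (Kb : ℝ) : Prop where
  bd : ∀ᶠ n in (U : Filter ℕ), ∀ l k, (l, k) ∈ (G n).I → |(G n).z k| ≤ 1 ∧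
    (∀ j, |(T n l).pos ((G n).z k) j| ≤ 1) ∧ (∀ j, |(T n l).v j| ≤ 1) ∧ |E n l| ≤ 1 ∧
      |fa n l k| ≤ 1 ∧ |fb n k| ≤ 1
  bdr : ∀ᶠ n in (U : Filter ℕ), ∀ k i l, (i, k) ∈ (G n).I → (l, k) ∈ (G n).I →
    ∀ s, |(G n).rel k i l s| ≤ Kb
  rel : ∀ ε : ℝ, 0 < ε → ∀ᶠ n in (U : Filter ℕ), ∀ k i l, (i, k) ∈ (G n).I → (l, k) ∈ (G n).I →
    ∀ s ∈ fAll, |(G n).rel k i l s - coA (T n i) (T n l) (E n i) (E n l) (fa n i k) (fa n l k)
      (fb n k) ((G n).z k) s| ≤ B.d n ^ (x - ε)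

variable {B : Base} {G : ℕ → RCfg (Fin 11)} {Leg : Set (Fin 11 → ℝ)} {ν : (Fin 11 → ℝ) → ℝ}
  {D x a m Kb : ℝ} {T : ℕ → ℕ → Ln4} {E : ℕ → ℕ → ℝ} {fa : ℕ → ℕ → ℕ → ℝ} {fb : ℕ → ℕ → ℝ}
  {mu be : ℕ → ℝ}

/-- relative coordinates small ⇒ absolute relative coordinates small -/
theorem AbsRel.co_le (A : AbsRel B G x T E fa fb Kb) (H : RUnif B G Leg ν D) {p : Fin 11 → ℝ}
    (hp : ∀ s, p s ≤ x) {ε : ℝ} (hε : 0 < ε) :
    ∀ᶠ n in (U : Filter ℕ), ∀ k i l, (i, k) ∈ (G n).I → (l, k) ∈ (G n).I →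
      (G n).loose p ε k i l → ∀ s ∈ fAll, |coA (T n i) (T n l) (E n i) (E n l) (fa n i k) (fa n l k)
        (fb n k) ((G n).z k) s| ≤ 2 * B.d n ^ (p s - ε) := by
  filter_upwards [A.rel ε hε] with n h k i l hi hl hlo s hs
  have h1 := h k i l hi hl s hs
  have h2 := hlo s
  rw [H.base n] at h2
  have h3 : B.d n ^ (x - ε) ≤ B.d n ^ (p s - ε) := rpow_anti B n (by linarith [hp s])
  rw [abs_le] at *
  constructor <;> linarith [h1.1, h1.2, h2.1, h2.2]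

/-- everything is loose at nonpositive exponents -/
theorem AbsRel.ev_bd (A : AbsRel B G x T E fa fb Kb) {t : ℝ} (ht : 0 < t) :
    ∀ᶠ n in (U : Filter ℕ), ∀ k i l, (i, k) ∈ (G n).I → (l, k) ∈ (G n).I →
      ∀ s, ∀ q ≤ (0 : ℝ), |(G n).rel k i l s| ≤ B.d n ^ (q - t) := by
  filter_upwards [A.bdr, ev_const_le B ht Kb] with n h hK k i l hi hl s q hq
  exact (h k i l hi hl s).trans (hK.trans (rpow_anti B n (by linarith)))

/-- absolute relative coordinates small ⇒ relative coordinates small -/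
theorem AbsRel.loose_of (A : AbsRel B G x T E fa fb Kb) (H : RUnif B G Leg ν D)
    {p : Fin 11 → ℝ} (hp0 : ∀ s, s ∉ fAll → p s ≤ 0) (hp : ∀ s, p s ≤ x) {ε : ℝ} (hε : 0 < ε)
    (K : ℝ) :
    ∀ᶠ n in (U : Filter ℕ), ∀ k i l, (i, k) ∈ (G n).I → (l, k) ∈ (G n).I →
      (∀ s ∈ fAll, 0 < p s → |coA (T n i) (T n l) (E n i) (E n l) (fa n i k) (fa n l k)
        (fb n k) ((G n).z k) s| ≤ K * B.d n ^ (p s - ε)) → (G n).loose p (2 * ε) k i l := by
  filter_upwards [A.rel ε hε, A.ev_bd (t := 2 * ε) (by positivity), ev_const_le B hε (|K| + 1)]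
    with n h hbd hK k i l hi hl hco s
  rw [H.base n]
  by_cases hs0 : p s ≤ 0
  · exact hbd k i l hi hl s _ hs0
  · have hs : s ∈ fAll := by
      by_contra hcon
      exact hs0 (hp0 s hcon)
    rw [not_le] at hs0
    have h1 := h k i l hi hl s hs
    have h2 := hco s hs hs0
    have h3 : B.d n ^ (x - ε) ≤ B.d n ^ (p s - ε) := rpow_anti B n (by linarith [hp s])
    have h4 : (|K| + 1) * B.d n ^ (p s - ε) ≤ B.d n ^ (p s - 2 * ε) := by
      have e1 : B.d n ^ (p s - 2 * ε) = B.d n ^ (-ε) * B.d n ^ (p s - ε) := by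
        rw [← rpow_add']; congr 1; ring
      rw [e1]
      exact mul_le_mul_of_nonneg_right hK (rpos B n _).le
    have h5 : K * B.d n ^ (p s - ε) ≤ |K| * B.d n ^ (p s - ε) :=
      mul_le_mul_of_nonneg_right (le_abs_self K) (rpos B n _).le
    refine le_trans ?_ h4
    have h6 : |(G n).rel k i l s| ≤ |(G n).rel k i l s - coA (T n i) (T n l) (E n i) (E n l)
        (fa n i k) (fa n l k) (fb n k) ((G n).z k) s| + |coA (T n i) (T n l) (E n i) (E n l)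
        (fa n i k) (fa n l k) (fb n k) ((G n).z k) s| := by
      have := abs_add_le ((G n).rel k i l s - coA (T n i) (T n l) (E n i) (E n l)
        (fa n i k) (fa n l k) (fb n k) ((G n).z k) s) (coA (T n i) (T n l) (E n i) (E n l)
        (fa n i k) (fa n l k) (fb n k) ((G n).z k) s)
      simpa using this
    linarith

theorem posCount_A (H : RUnif B G Leg ν D) (A : AbsRel B G x T E fa fb Kb) (hx : 0 < x)
    (hzero : (0 : Fin 11 → ℝ) ∈ Leg) (hpos : vec fPos x ∈ Leg) : PosCount B G ν x T fa fb := by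
  intro ε₀ hε₀ ε hε
  have hD := H.D1
  have hle : ∀ s, vec fPos x s ≤ x := fun s => by
    unfold vec; split_ifs <;> linarith
  have hco : ∀ ε : ℝ, 0 < ε → ∀ᶠ n in (U : Filter ℕ), ∀ k i l, (i, k) ∈ (G n).I →
      (l, k) ∈ (G n).I → (G n).loose (vec fPos x) ε k i l → ∀ j : Fin 5,
      |(fun n k l => (![(T n l).pos ((G n).z k) 0, (T n l).pos ((G n).z k) 1,
          (T n l).pos ((G n).z k) 2, fa n l k,
          (T n l).v 0 - fa n l k * (T n l).v 1 - fb n k * (T n l).v 2] : Fin 5 → ℝ)) n k l j -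
        (fun n k l => (![(T n l).pos ((G n).z k) 0, (T n l).pos ((G n).z k) 1,
          (T n l).pos ((G n).z k) 2, fa n l k,
          (T n l).v 0 - fa n l k * (T n l).v 1 - fb n k * (T n l).v 2] : Fin 5 → ℝ)) n k i j| ≤
      B.d n ^ ((x - ε₀) - 2 * ε) := by
    intro ε hε
    filter_upwards [A.co_le H hle hε, A.bd, ev_mul_le B (K := 8) hε] with n h1 hb h8 k i l hi hl hlo j
    have g := h1 k i l hi hl hlo
    have hval : ∀ s ∈ fPos, |coA (T n i) (T n l) (E n i) (E n l) (fa n i k) (fa n l k)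
        (fb n k) ((G n).z k) s| ≤ 2 * B.d n ^ (x - ε) := by
      intro s hs
      have hsA : s ∈ fAll := by
        revert hs; revert s; decide
      have := g s hsA
      rwa [vec_of_mem hs] at this
    obtain ⟨_, _, _, bE, bfa, bfb⟩ := hb i k hi
    obtain ⟨_, _, bv, _, _, _⟩ := hb l k hl
    have key := pos_close bE bfa bfb (bv 1) (hval 4 (by decide)) (hval 7 (by decide))
      (hval 8 (by decide)) (hval 9 (by decide)) (hval 10 (by decide)) j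
    refine key.trans ?_
    calc 4 * (2 * B.d n ^ (x - ε)) = 8 * B.d n ^ (x - ε) := by ring
      _ ≤ B.d n ^ (x - ε - ε) := h8 _
      _ ≤ B.d n ^ ((x - ε₀) - 2 * ε) := rpow_anti B n (by linarith)
  set K : ℝ := D * (D * 1) + (5 : ℕ) * (2 + 1) + 1 with hK
  have hK0 : 0 < K := by positivity
  have hεK : 0 < ε / K := by positivity
  filter_upwards [lab_le H (0 : Fin 11 → ℝ) (vec fPos x) hzero hpos (fun s => vec_nonneg hx.le s)
    (by norm_num : (0 : ℝ) ≤ 2) _ hco (le_refl (1 : ℝ)) hεK,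
    A.ev_bd (t := 1 * (ε / K)) (by positivity)] with n h1 hbd k
  rcases ((G n).slice k).eq_empty_or_nonempty with he | ⟨i0, hi0⟩
  · rw [he]; simpa using (rpos B n _).le
  have hI0 := H.memSlice.1 hi0
  have h2 := h1 k i0 hI0 _ (Finset.Subset.refl _) (fun i hi s => by
    rw [H.base n]
    exact hbd k i0 i hI0 (H.memSlice.1 hi) s _ le_rfl)
  have e1 : K * (ε / K) = ε := by field_simp
  rw [← hK, e1] at h2
  refine le_trans (le_of_eq ?_) h2
  simp only [posL_eq]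

/-- the direction coordinates of close lines -/
theorem AbsRel.dir_co (H : RUnif B G Leg ν D) (A : AbsRel B G x T E fa fb Kb) (hx : 0 < x)
    {ε₀ : ℝ} (hε₀ : 0 < ε₀) {ε : ℝ} (hε : 0 < ε) :
    ∀ᶠ n in (U : Filter ℕ), ∀ k i l, (i, k) ∈ (G n).I →
      (l, k) ∈ (G n).I → (G n).loose (vec fDir x) ε k i l → ∀ j : Fin 3,
      |(fun n (_ : ℕ) l => (![(T n l).v 1, (T n l).v 2, E n l] : Fin 3 → ℝ)) n k l j -
        (fun n (_ : ℕ) l => (![(T n l).v 1, (T n l).v 2, E n l] : Fin 3 → ℝ)) n k i j| ≤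
      B.d n ^ ((x - ε₀) - 2 * ε) := by
  have hle : ∀ s, vec fDir x s ≤ x := fun s => by
    unfold vec; split_ifs <;> linarith
  filter_upwards [A.co_le H hle hε, A.bd, ev_mul_le B (K := 4) hε] with n h1 hb h8 k i l hi hl hlo j
  have g := h1 k i l hi hl hlo
  have hval : ∀ s ∈ fDir, |coA (T n i) (T n l) (E n i) (E n l) (fa n i k) (fa n l k)
      (fb n k) ((G n).z k) s| ≤ 2 * B.d n ^ (x - ε) := by
    intro s hs
    have hsA : s ∈ fAll := by
      revert hs; revert s; decide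
    have := g s hsA
    rwa [vec_of_mem hs] at this
  obtain ⟨_, _, _, bE, bfa, bfb⟩ := hb i k hi
  have key := dir_close bE (hval 2 (by decide)) (hval 5 (by decide)) (hval 6 (by decide)) j
  refine key.trans ?_
  calc 2 * (2 * B.d n ^ (x - ε)) = 4 * B.d n ^ (x - ε) := by ring
    _ ≤ B.d n ^ (x - ε - ε) := h8 _
    _ ≤ B.d n ^ ((x - ε₀) - 2 * ε) := rpow_anti B n (by linarith)

theorem dirCount_A (H : RUnif B G Leg ν D) (A : AbsRel B G x T E fa fb Kb) (hx : 0 < x)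
    (hzero : (0 : Fin 11 → ℝ) ∈ Leg) (hdir : vec fDir x ∈ Leg) : DirCount B G ν x T E := by
  intro ε₀ hε₀ ε hε
  have hD := H.D1
  set K : ℝ := D * (D * 1) + (3 : ℕ) * (2 + 1) + 1 with hK
  have hK0 : 0 < K := by positivity
  have hεK : 0 < ε / K := by positivity
  filter_upwards [lab_le H (0 : Fin 11 → ℝ) (vec fDir x) hzero hdir (fun s => vec_nonneg hx.le s)
    (by norm_num : (0 : ℝ) ≤ 2) _ (fun ε hε => A.dir_co H hx hε₀ hε) (le_refl (1 : ℝ)) hεK,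
    A.ev_bd (t := 1 * (ε / K)) (by positivity)] with n h1 hbd k
  rcases ((G n).slice k).eq_empty_or_nonempty with he | ⟨i0, hi0⟩
  · rw [he]; simpa using (rpos B n _).le
  have hI0 := H.memSlice.1 hi0
  have h2 := h1 k i0 hI0 _ (Finset.Subset.refl _) (fun i hi s => by
    rw [H.base n]
    exact hbd k i0 i hI0 (H.memSlice.1 hi) s _ le_rfl)
  have e1 : K * (ε / K) = ε := by field_simp
  rw [← hK, e1] at h2
  refine le_trans (le_of_eq ?_) h2
  simp only [dirL_eq]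

/-- number of lines of a slice close in the slots of `S` -/
theorem famUp_A (H : RUnif B G Leg ν D) (A : AbsRel B G x T E fa fb Kb) {S : Finset (Fin 11)}
    (hS : S ⊆ fAll) (hL : vec S x ∈ Leg) (hx : 0 < x) :
    ∃ C : ℝ, 0 ≤ C ∧ ∀ ε₀ : ℝ, 0 < ε₀ → ∀ᶠ n in (U : Filter ℕ), ∀ k i,
      (i, k) ∈ (G n).I → ∀ F ⊆ (G n).slice k, (∀ l ∈ F, ∀ s ∈ S, |coA (T n i) (T n l) (E n i) (E n l)
        (fa n i k) (fa n l k) (fb n k) ((G n).z k) s| ≤ B.d n ^ (x - ε₀)) →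
        (F.card : ℝ) ≤ B.d n ^ (-ν (vec S x) - C * ε₀) := by
  have hD := H.D1
  refine ⟨D * 2, by positivity, fun ε₀ hε₀ => ?_⟩
  have h2ε : 0 < 2 * ε₀ := by positivity
  filter_upwards [A.loose_of H (p := vec S x)
    (fun s hs => (vec_of_notMem (fun h => hs (hS h))).le)
    (fun s => by unfold vec; split_ifs <;> linarith) hε₀ 1, H.up _ hL _ h2ε] with n h1 h2
    k i hi F hF hc
  have h3 := h2 i k hi
  have e1 : D * (2 * ε₀) = D * 2 * ε₀ := by ring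
  rw [e1] at h3
  refine le_trans ?_ h3
  refine mod_cast Finset.card_le_card fun l hl => RCfg.mem_box.2 ⟨hF hl, ?_⟩
  refine h1 k i l hi (H.memSlice.1 (hF hl)) fun s hs hps => ?_
  have hsS : s ∈ S := by
    by_contra hcon
    rw [vec_of_notMem hcon] at hps
    exact lt_irrefl _ hps
  rw [vec_of_mem hsS, one_mul]
  exact hc l hl s hsS

/-- directions with `v 2` in a short interval, `E = 0` -/
theorem conc6_A (H : RUnif B G Leg ν D) (A : AbsRel B G x T (fun _ _ => 0) fa fb Kb) (hx : 0 < x)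
    (hdir : vec fDir x ∈ Leg) {y : ℝ} (hy0 : 0 ≤ y) (hyx : y ≤ x) (hc : vec {6} y ∈ Leg) :
    ∀ ε₀ : ℝ, 0 < ε₀ → ∀ᶠ n in (U : Filter ℕ), ∀ k, ∀ c : ℝ,
    (((((G n).slice k).filter fun l => |(T n l).v 2 - c| ≤ B.d n ^ y).image fun l =>
      dirL (B.d n ^ (x - ε₀)) (T n l) 0).card : ℝ) ≤
      B.d n ^ (-(ν (vec {6} y) - ν (vec fDir x)) -
        (D * (D * 2) + (3 : ℕ) * (2 + 1) + 1) * ε₀) := by
  intro ε₀ hε₀
  have hD := H.D1
  filter_upwards [lab_le H (vec {6} y) (vec fDir x) hc hdir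
    (vec_mono (by decide) hyx hx.le) (by norm_num : (0 : ℝ) ≤ 2) _
    (fun ε hε => A.dir_co H hx hε₀ hε) (by norm_num : (1 : ℝ) ≤ 2) hε₀,
    A.loose_of H (p := vec {6} y) (fun s hs => (vec_of_notMem (by
      intro h; apply hs; revert h; revert s; decide)).le)
      (fun s => by unfold vec; split_ifs <;> linarith) hε₀ 2] with n h1 h2 k c
  set F := ((G n).slice k).filter fun l => |(T n l).v 2 - c| ≤ B.d n ^ y with hF
  rcases F.eq_empty_or_nonempty with he | ⟨i0, hi0⟩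
  · rw [he]; simpa using (rpos B n _).le
  obtain ⟨a1, a2⟩ := Finset.mem_filter.1 hi0
  have hI0 := H.memSlice.1 a1
  have h3 := h1 k i0 hI0 F (Finset.filter_subset _ _) (fun i hi => by
    obtain ⟨b1, b2⟩ := Finset.mem_filter.1 hi
    refine h2 k i0 i hI0 (H.memSlice.1 b1) fun s hs hs0 => ?_
    have hs6 : s = 6 := by
      by_contra hne
      have : vec {6} y s = 0 := vec_of_notMem (by simpa using hne)
      linarith
    subst hs6
    rw [vec_of_mem (by simp)]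
    have e1 : coA (T n i0) (T n i) 0 0 (fa n i0 k) (fa n i k) (fb n k) ((G n).z k) 6 =
        ((T n i).v 2 - (T n i0).v 2) - 0 * ((T n i).v 1 - (T n i0).v 1) := rfl
    rw [e1, zero_mul, sub_zero]
    have e2 : B.d n ^ y ≤ B.d n ^ (y - ε₀) := rpow_anti B n (by linarith)
    rw [abs_le] at *
    constructor <;> linarith [a2.1, a2.2, b2.1, b2.2])
  refine le_trans (le_of_eq ?_) h3
  simp only [dirL_eq]

/-- **thin fibre**, only the boxes `qv x 0` and `qv x x` -/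
theorem fib_A (H : RUnif B G Leg ν D) (A : AbsRel B G x T E fa fb Kb) (hx : 0 < x)
    (hq0 : qv x 0 ∈ Leg) (hq : qv x x ∈ Leg) :
    ∃ C : ℝ, 1 ≤ C ∧ ∀ ε₀ : ℝ, 0 < ε₀ → ∀ᶠ n in (U : Filter ℕ), ∀ k, ∀ F ⊆ (G n).slice k,
      F.Nonempty → (∀ i ∈ F, ∀ i' ∈ F, ∀ m : Fin 3, m ≠ 0 →
        |(T n i).pos ((G n).z k) m - (T n i').pos ((G n).z k) m| ≤ B.d n ^ (x - ε₀)) →
      (∀ i ∈ F, ∀ i' ∈ F, i ≠ i' →
        B.d n ^ x ≤ |(T n i).pos ((G n).z k) 0 - (T n i').pos ((G n).z k) 0|) →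
      (F.card : ℝ) ≤ B.d n ^ (-(ν (qv x 0) - ν (qv x x)) - C * ε₀) := by
  have hD := H.D1
  set K : ℝ := D * (D * 2) + (1 : ℕ) * (2 + 1) + 1 with hK
  have hK1 : 1 ≤ K := by
    have : 0 ≤ D * (D * 2) := by positivity
    rw [hK]; push_cast; linarith
  refine ⟨K, hK1, fun ε₀ hε₀ => ?_⟩
  have hle : ∀ s, qv x x s ≤ x := fun s => by unfold qv; split_ifs <;> linarith
  -- one label coordinate
  have hco : ∀ ε : ℝ, 0 < ε → ∀ᶠ n in (U : Filter ℕ), ∀ k i l, (i, k) ∈ (G n).I →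
      (l, k) ∈ (G n).I → (G n).loose (qv x x) ε k i l → ∀ j : Fin 1,
      |(fun n k l => (fun _ => (T n l).pos ((G n).z k) 0 : Fin 1 → ℝ)) n k l j -
        (fun n k l => (fun _ => (T n l).pos ((G n).z k) 0 : Fin 1 → ℝ)) n k i j| ≤
      B.d n ^ (x - 2 * ε) := by
    intro ε hε
    filter_upwards [A.co_le H hle hε, A.bd, ev_mul_le B (K := 8) hε] with n h1 hb h8 k i l hi hl hlo j
    have g := h1 k i l hi hl hlo
    have g8 : |coA (T n i) (T n l) (E n i) (E n l) (fa n i k) (fa n l k)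
        (fb n k) ((G n).z k) 8| ≤ 2 * B.d n ^ (x - ε) := g 8 (by decide)
    have g9 : |coA (T n i) (T n l) (E n i) (E n l) (fa n i k) (fa n l k)
        (fb n k) ((G n).z k) 9| ≤ 2 * B.d n ^ (x - ε) := g 9 (by decide)
    have g10 : |coA (T n i) (T n l) (E n i) (E n l) (fa n i k) (fa n l k)
        (fb n k) ((G n).z k) 10| ≤ 2 * B.d n ^ (x - ε) := g 10 (by decide)
    obtain ⟨_, _, _, bE, bfa, bfb⟩ := hb i k hi
    obtain ⟨_, _, g3⟩ := base_close bE bfa bfb g8 g9 g10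
    refine g3.trans ?_
    calc 2 * B.d n ^ (x - ε) + 3 * (2 * B.d n ^ (x - ε)) = 8 * B.d n ^ (x - ε) := by ring
      _ ≤ B.d n ^ (x - ε - ε) := h8 _
      _ = _ := by congr 1; ring
  filter_upwards [lab_le H (qv x 0) (qv x x) hq0 hq (fun s => by unfold qv; split_ifs <;> linarith)
    (by norm_num : (0 : ℝ) ≤ 2) _ hco (by norm_num : (1 : ℝ) ≤ 2) hε₀,
    A.loose_of H (p := qv x 0) (fun s hs => by
      have h8 : s ≠ 8 := fun h => hs (by subst h; decide)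
      have h9 : s ≠ 9 := fun h => hs (by subst h; decide)
      unfold qv; split_ifs <;> simp_all) (fun s => by unfold qv; split_ifs <;> linarith) hε₀ 2,
    A.bd] with n h1 h2 hb k F hF hne hbase hsep
  obtain ⟨i0, hi0⟩ := hne
  have hI0 := H.memSlice.1 (hF hi0)
  have h3 := h1 k i0 hI0 F hF (fun i hi => by
    refine h2 k i0 i hI0 (H.memSlice.1 (hF hi)) fun s hs hs0 => ?_
    obtain ⟨_, _, _, bE, bfa, bfb⟩ := hb i0 k hI0
    have c1 := hbase i hi i0 hi0 1 (by decide)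
    have c2 := hbase i hi i0 hi0 2 (by decide)
    have hp0 := rpos B n (x - ε₀)
    by_cases h8 : s = 8
    · subst h8
      have e0 : qv x 0 8 = x := by simp [qv]
      have e1 : coA (T n i0) (T n i) (E n i0) (E n i) (fa n i0 k) (fa n i k) (fb n k)
        ((G n).z k) 8 = (T n i).pos ((G n).z k) 1 - (T n i0).pos ((G n).z k) 1 := rfl
      rw [e0, e1]
      linarith
    · by_cases h9 : s = 9
      · subst h9
        have e0 : qv x 0 9 = x := by simp [qv]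
        have e1 : coA (T n i0) (T n i) (E n i0) (E n i) (fa n i0 k) (fa n i k) (fb n k)
          ((G n).z k) 9 = ((T n i).pos ((G n).z k) 2 - (T n i0).pos ((G n).z k) 2) -
            E n i0 * ((T n i).pos ((G n).z k) 1 - (T n i0).pos ((G n).z k) 1) := rfl
        rw [e0, e1]
        have m1 : |E n i0 * ((T n i).pos ((G n).z k) 1 - (T n i0).pos ((G n).z k) 1)| ≤
            1 * B.d n ^ (x - ε₀) := abs_mul_le bE c1
        refine (abs_sub _ _).trans ?_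
        linarith
      · exfalso
        have : qv x 0 s = 0 := by
          unfold qv
          split_ifs <;> simp_all
        linarith)
  -- different lines have different labels
  have hinj : Set.InjOn (fun i => gl (B.d n ^ x) ((fun n k l => (fun _ =>
      (T n l).pos ((G n).z k) 0 : Fin 1 → ℝ)) n k i)) (F : Set ℕ) := by
    intro i hi i' hi' hii
    by_contra hne'
    have h4 := abs_sub_lt_of_gl_eq (rpos B n x) hii 0
    have h5 := hsep i hi i' hi' hne'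
    simp only at h4
    linarith
  rw [card_image_of_injOn hinj] at h3
  rw [← hK] at h3
  exact h3

end Crest.Agent.R136.Wk323
end

-- ▼ part R136/Wk14_323
section

/-!
# R136 (S0187): mirrored lightlike window (C1*), `mirWin` (helper323, literal of helper940)
-/

set_option autoImplicit false
set_option linter.unusedVariables false

open Filter Topology Finset

namespace Crest.Agent.R136.Wk323

open Crest.Agent.R136.Sh605
open Crest.Agent.R138.Ex926 (Base U)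
open Crest.Agent.R136.Gf356

/-- profile of the mirrored window -/
structure MirPr (Leg : Set (Fin 11 → ℝ)) (ν : (Fin 11 → ℝ) → ℝ) (x a m : ℝ) : Prop where
  x0 : 0 < x
  zero : (0 : Fin 11 → ℝ) ∈ Leg
  all : vec fAll x ∈ Leg
  pos : vec fPos x ∈ Leg
  dir : vec fDir x ∈ Leg
  q0 : qv x 0 ∈ Leg
  q : qv x x ∈ Leg
  c : ∀ y, 0 ≤ y → y ≤ x → vec {6} y ∈ Leg
  dec : ν 0 + ν (vec fAll x) ≤ ν (vec fPos x) + ν (vec fDir x)
  fib : ν (qv x 0) - ν (qv x x) ≤ a * x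
  conc : ∀ y, 0 ≤ y → y ≤ x → m * y ≤ ν 0 - ν (vec {6} y)

/-- **target**: no mirrored lightlike window -/
def MirWin : Prop := ∀ a m : ℝ, 0 ≤ a → a < 1 → 0 < m → ∃ η : ℝ, 0 < η ∧
  ∀ (B : Base) (G : ℕ → RCfg (Fin 11)) (Leg : Set (Fin 11 → ℝ)) (ν : (Fin 11 → ℝ) → ℝ)
    (D R x : ℝ) (T : ℕ → ℕ → Ln4) (f : ℕ → ℕ → ℝ),
  RModel B G 1 R Leg ν D → x ≤ R → MirPr Leg ν x a m →
  (∀ᶠ n in (U : Filter ℕ), ∀ l k, (l, k) ∈ (G n).I → |(G n).z k| ≤ 1 ∧
    (∀ j, |(T n l).pos ((G n).z k) j| ≤ 1) ∧ (∀ j, |(T n l).v j| ≤ 1) ∧ |f n k| ≤ 1) →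
  (∀ n k i l s, (G n).rel k i l s = coA (T n i) (T n l) 0 0 0 0 (f n k) ((G n).z k) s) →
  ¬ ∀ᶠ n in (U : Filter ℕ), ∃ Z' ⊆ (G n).Z, Z'.Nonempty ∧
    B.d n ^ (η * x) * ((G n).Z.card : ℝ) ≤ Z'.card ∧
    ∃ μ : ℝ, B.d n ^ (η * x) ≤ |μ| ∧ ∀ k ∈ Z', ∀ k' ∈ Z',
      |f n k' - f n k - μ * ((G n).z k' - (G n).z k)| ≤ 2 * B.d n ^ x

/-- bound of exact relative coordinates -/
theorem coA_bound {T T' : Ln4} {fb z : ℝ} (h1 : ∀ j, |T.pos z j| ≤ 1) (h2 : ∀ j, |T.v j| ≤ 1)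
    (h3 : ∀ j, |T'.pos z j| ≤ 1) (h4 : ∀ j, |T'.v j| ≤ 1) (h5 : |fb| ≤ 1) (s : Fin 11) :
    |coA T T' 0 0 0 0 fb z s| ≤ 4 := by
  have d : ∀ {a b : ℝ}, |a| ≤ 1 → |b| ≤ 1 → |a - b| ≤ 2 := fun ha hb =>
    (abs_sub _ _).trans (by linarith)
  have v0 := d (h4 0) (h2 0)
  have v1 := d (h4 1) (h2 1)
  have v2 := d (h4 2) (h2 2)
  have p0 := d (h3 0) (h1 0)
  have p1 := d (h3 1) (h1 1)
  have p2 := d (h3 2) (h1 2)
  have m1 : |fb * (T'.v 2 - T.v 2)| ≤ 2 := by have := abs_mul_le h5 v2; linarith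
  have m2 : |fb * (T'.pos z 2 - T.pos z 2)| ≤ 2 := by have := abs_mul_le h5 p2; linarith
  fin_cases s
  · show |(0 : ℝ)| ≤ 4
    simp
  · show |(0 : ℝ)| ≤ 4
    simp
  · show |(0 : ℝ) - 0| ≤ 4
    simp
  · show |(0 : ℝ)| ≤ 4
    simp
  · show |(0 : ℝ) - 0| ≤ 4
    simp
  · show |T'.v 1 - T.v 1| ≤ 4
    linarith
  · show |(T'.v 2 - T.v 2) - 0 * (T'.v 1 - T.v 1)| ≤ 4
    rw [zero_mul, sub_zero]; linarith
  · show |(T'.v 0 - T.v 0) - 0 * (T'.v 1 - T.v 1) - fb * (T'.v 2 - T.v 2)| ≤ 4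
    rw [zero_mul, sub_zero]
    exact (abs_sub _ _).trans (by linarith)
  · show |T'.pos z 1 - T.pos z 1| ≤ 4
    linarith
  · show |(T'.pos z 2 - T.pos z 2) - 0 * (T'.pos z 1 - T.pos z 1)| ≤ 4
    rw [zero_mul, sub_zero]; linarith
  · show |(T'.pos z 0 - T.pos z 0) - 0 * (T'.pos z 1 - T.pos z 1) -
      fb * (T'.pos z 2 - T.pos z 2)| ≤ 4
    rw [zero_mul, sub_zero]
    exact (abs_sub _ _).trans (by linarith)

/-- `etaR` with fibre exponent `0` -/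
theorem etaR0_le {κ b Kf nh r lm0 : ℝ} (hr : 0 ≤ r) (hlm0 : 0 < lm0)
    (hQ : 0 ≤ 131072 * 383 * b ^ 6 * Kf / (κ * (κ ^ 7 / (2 * b ^ 4)) ^ 6 * nh ^ 2)) :
    RigData.etaR κ b Kf nh r 0 lm0 ≤
      r * (191 + 4 * (131072 * 383 * b ^ 6 * Kf / (κ * (κ ^ 7 / (2 * b ^ 4)) ^ 6 * nh ^ 2))) /
        lm0 := by
  unfold RigData.etaR
  refine div_le_div_of_nonneg_right (mul_le_mul_of_nonneg_left ?_ hr) hlm0.le
  rw [sub_zero, div_one, Real.rpow_one]
  refine max_le (by linarith) (by linarith)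

theorem q_eq {κ b nh K : ℝ} (hκ : 0 < κ) (hb : 0 < b) (hnh : 0 < nh) :
    131072 * 383 * b ^ 6 * (4 * K) / (κ * (κ ^ 7 / (2 * b ^ 4)) ^ 6 * nh ^ 2) =
      131072 * 383 * b ^ 6 * 4 * (2 * b ^ 4) ^ 6 * (K / κ ^ 43) / nh ^ 2 := by
  field_simp

/-- numbers of the mirrored window -/
theorem mir_num (B : Base) {x a θ K1 y : ℝ} (hθ : 0 < θ) (hK1 : K1 ≤ θ)
    (h1 : y < (1 - a) * x - 134 * θ) (hx : 0 < x) (ha0 : 0 ≤ a) :
    ∀ᶠ n in (U : Filter ℕ), ∀ nh : ℝ, 1 / 2 ≤ nh →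
      RigData.etaR (B.d n ^ (3 * θ)) ((13 ^ 8 : ℕ) : ℝ) (4 * B.d n ^ (-(a * x) - K1)) nh
        (2 * B.d n ^ (x - 3 * θ)) 0 (B.d n ^ θ) ≤ 2 * B.d n ^ y := by
  set b : ℝ := ((13 ^ 8 : ℕ) : ℝ) with hb
  have hb0 : 0 < b := by rw [hb]; positivity
  set c : ℝ := 4 * (131072 * 383 * b ^ 6 * 4 * (2 * b ^ 4) ^ 6) * 4 with hc
  have hc0 : 0 < c := by rw [hc]; positivity
  have hax : 0 ≤ a * x := mul_nonneg ha0 hx.le
  filter_upwards [ev_abs B (show y < (1 - a) * x - 134 * θ by exact h1) (2 * c),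
    ev_abs B (show y < x - 4 * θ by nlinarith) (2 * (2 * 191))] with n h2 h3 nh hnh
  have hpow : ∀ t : ℝ, 0 < B.d n ^ t := fun t => rpos B n t
  have hnh0 : 0 < nh := by linarith
  have hκ : 0 < B.d n ^ (3 * θ) := hpow _
  have hκ43 : (B.d n ^ (3 * θ)) ^ 43 = B.d n ^ (129 * θ) := by
    rw [pow_rp]; congr 1; push_cast; ring
  have hQ0 : 0 ≤ 131072 * 383 * b ^ 6 * (4 * B.d n ^ (-(a * x) - K1)) /
      (B.d n ^ (3 * θ) * ((B.d n ^ (3 * θ)) ^ 7 / (2 * b ^ 4)) ^ 6 * nh ^ 2) := by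
    have := hpow (-(a * x) - K1)
    positivity
  refine (etaR0_le (mul_nonneg (by norm_num) (hpow _).le) (hpow θ) hQ0).trans ?_
  rw [q_eq hκ hb0 hnh0, hκ43, div_le_iff₀ (hpow θ)]
  have e1 : B.d n ^ (-(a * x) - K1) / B.d n ^ (129 * θ) ≤ B.d n ^ (-(a * x) - 130 * θ) := by
    rw [div_le_iff₀ (hpow _), ← rpow_add']
    exact rpow_anti B n (by linarith)
  have hnh2 : 1 ≤ 4 * nh ^ 2 := by nlinarith
  have e2 : 131072 * 383 * b ^ 6 * 4 * (2 * b ^ 4) ^ 6 *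
      (B.d n ^ (-(a * x) - K1) / B.d n ^ (129 * θ)) / nh ^ 2 ≤
      c / 4 * B.d n ^ (-(a * x) - 130 * θ) := by
    rw [div_le_iff₀ (by positivity)]
    have e3 : c / 4 * B.d n ^ (-(a * x) - 130 * θ) * nh ^ 2 =
        131072 * 383 * b ^ 6 * 4 * (2 * b ^ 4) ^ 6 * B.d n ^ (-(a * x) - 130 * θ) *
          (4 * nh ^ 2) := by rw [hc]; ring
    rw [e3]
    have e4 : 131072 * 383 * b ^ 6 * 4 * (2 * b ^ 4) ^ 6 *
        (B.d n ^ (-(a * x) - K1) / B.d n ^ (129 * θ)) ≤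
        131072 * 383 * b ^ 6 * 4 * (2 * b ^ 4) ^ 6 * B.d n ^ (-(a * x) - 130 * θ) :=
      mul_le_mul_of_nonneg_left e1 (by positivity)
    have e5 : 0 ≤ 131072 * 383 * b ^ 6 * 4 * (2 * b ^ 4) ^ 6 * B.d n ^ (-(a * x) - 130 * θ) := by
      have := hpow (-(a * x) - 130 * θ)
      positivity
    nlinarith
  have e6 : 2 * B.d n ^ (x - 3 * θ) * (191 + 4 * (131072 * 383 * b ^ 6 * 4 * (2 * b ^ 4) ^ 6 *
      (B.d n ^ (-(a * x) - K1) / B.d n ^ (129 * θ)) / nh ^ 2)) ≤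
      2 * B.d n ^ (x - 3 * θ) * (191 + 4 * (c / 4 * B.d n ^ (-(a * x) - 130 * θ))) :=
    mul_le_mul_of_nonneg_left (by linarith) (mul_nonneg (by norm_num) (hpow _).le)
  refine e6.trans ?_
  have e7 : B.d n ^ (x - 3 * θ) * B.d n ^ (-(a * x) - 130 * θ) =
      B.d n ^ ((1 - a) * x - 134 * θ) * B.d n ^ θ := by
    rw [← rpow_add', ← rpow_add']; congr 1; ring
  have e8 : B.d n ^ (x - 3 * θ) = B.d n ^ (x - 4 * θ) * B.d n ^ θ := by
    rw [← rpow_add']; congr 1; ring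
  calc 2 * B.d n ^ (x - 3 * θ) * (191 + 4 * (c / 4 * B.d n ^ (-(a * x) - 130 * θ))) =
        (2 * 191) * B.d n ^ (x - 3 * θ) +
          2 * c * (B.d n ^ (x - 3 * θ) * B.d n ^ (-(a * x) - 130 * θ)) := by ring
    _ = (2 * 191 * B.d n ^ (x - 4 * θ) + 2 * c * B.d n ^ ((1 - a) * x - 134 * θ)) *
          B.d n ^ θ := by rw [e7]; nth_rewrite 1 [e8]; ring
    _ ≤ (2 * B.d n ^ y) * B.d n ^ θ := by
        refine mul_le_mul_of_nonneg_right ?_ (hpow θ).le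
        have := hpow y
        linarith
    _ = _ := by ring

theorem mir_hn (B : Base) {x a θ K1 : ℝ} (hθ : 0 < θ) (hK1 : K1 ≤ θ)
    (h1 : 68 * θ < (1 - a) * x) (hx : 0 < x) (ha0 : 0 ≤ a) :
    ∀ᶠ n in (U : Filter ℕ), ∀ q : ℝ,
      256 * (((13 ^ 8 : ℕ) : ℝ)) ^ 3 ≤
        ((B.d n ^ (3 * θ)) ^ 7 / (2 * (((13 ^ 8 : ℕ) : ℝ)) ^ 4)) ^ 3 * (Nn B x n : ℝ) ∧
      256 * (((13 ^ 8 : ℕ) : ℝ)) ^ 3 * (4 * B.d n ^ (-(a * x) - K1) * q ^ (0 : ℝ)) <
        B.d n ^ (3 * θ) * ((B.d n ^ (3 * θ)) ^ 7 / (2 * (((13 ^ 8 : ℕ) : ℝ)) ^ 4)) ^ 3 *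
          (Nn B x n : ℝ) := by
  set b : ℝ := ((13 ^ 8 : ℕ) : ℝ) with hb
  have hb0 : 0 < b := by rw [hb]; positivity
  have hax : 0 ≤ a * x := mul_nonneg ha0 hx.le
  filter_upwards [ev_abs B (show 63 * θ - x < 0 by nlinarith) (256 * b ^ 3 * (8 * b ^ 12) * 2),
    ev_abs B (show 66 * θ - x < -(a * x) - θ by nlinarith)
      (256 * b ^ 3 * 4 * (8 * b ^ 12) * 2 + 1)] with n h2 h3 q
  have hpow : ∀ t : ℝ, 0 < B.d n ^ t := fun t => rpos B n t
  set κ : ℝ := B.d n ^ (3 * θ) with hκ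
  have hκ0 : 0 < κ := hpow _
  have hκ21 : κ ^ 21 = B.d n ^ (63 * θ) := by
    rw [hκ, pow_rp]; congr 1; push_cast; ring
  have hκ22 : κ ^ 22 = B.d n ^ (66 * θ) := by
    rw [hκ, pow_rp]; congr 1; push_cast; ring
  have hN := half_le_Nn B hx.le n
  have e1 : (κ ^ 7 / (2 * b ^ 4)) ^ 3 = κ ^ 21 / (8 * b ^ 12) := by
    field_simp
    ring
  constructor
  · rw [e1]
    rw [Real.rpow_zero, mul_one] at h2
    have e2 : B.d n ^ (63 * θ - x) = κ ^ 21 * B.d n ^ (-x) := by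
      rw [hκ21, ← rpow_add']; congr 1
    rw [e2] at h2
    have h6 : κ ^ 21 * B.d n ^ (-x) ≤ κ ^ 21 * (2 * (Nn B x n : ℝ)) :=
      mul_le_mul_of_nonneg_left hN (by positivity)
    rw [div_mul_eq_mul_div, le_div_iff₀ (by positivity)]
    nlinarith
  · rw [e1, Real.rpow_zero, mul_one]
    have e4 : κ * (κ ^ 21 / (8 * b ^ 12)) * (Nn B x n : ℝ) =
        κ ^ 22 * (Nn B x n : ℝ) / (8 * b ^ 12) := by ring
    rw [e4, lt_div_iff₀ (by positivity)]
    have e6 : B.d n ^ (66 * θ - x) = κ ^ 22 * B.d n ^ (-x) := by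
      rw [hκ22, ← rpow_add']; congr 1
    rw [e6] at h3
    have h8 : κ ^ 22 * B.d n ^ (-x) ≤ κ ^ 22 * (2 * (Nn B x n : ℝ)) :=
      mul_le_mul_of_nonneg_left hN (by positivity)
    have h9 : B.d n ^ (-(a * x) - K1) ≤ B.d n ^ (-(a * x) - θ) := rpow_anti B n (by linarith)
    have h10 := hpow (-(a * x) - θ)
    have h11 : 0 ≤ 256 * b ^ 3 * 4 * (8 * b ^ 12) := by positivity
    have h12 := mul_le_mul_of_nonneg_left h9 h11
    nlinarith

/-- `n1` -/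
theorem mir_n1 (B : Base) {v0 vP vD vA e Cu θ : ℝ} (he : 0 < e) (hCu : 0 ≤ Cu)
    (hdec : v0 + vA ≤ vP + vD) (hθ : (7 + 2 * Cu) * e < 2 * θ) :
    ∀ᶠ n in (U : Filter ℕ), ∀ Ln : ℝ, B.d n ^ (-v0 + e) ≤ Ln →
      B.d n ^ (3 * θ) * B.d n ^ (-(v0 - vP) - e) * B.d n ^ (-(v0 - vD) - e) *
        B.d n ^ (-vA - Cu * (2 * e)) ≤ (B.d n ^ e) ^ 2 * (B.d n ^ (θ + e) / 8 * Ln) := by
  filter_upwards [ev_abs B (show θ - v0 + 4 * e < 3 * θ - v0 - (2 + 2 * Cu) * e by linarith) 8]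
    with n h Ln hLn
  have hpow : ∀ t : ℝ, 0 < B.d n ^ t := fun t => rpos B n t
  have e1 : B.d n ^ (3 * θ) * B.d n ^ (-(v0 - vP) - e) * B.d n ^ (-(v0 - vD) - e) *
      B.d n ^ (-vA - Cu * (2 * e)) ≤ B.d n ^ (3 * θ - v0 - (2 + 2 * Cu) * e) := by
    rw [← rpow_add', ← rpow_add', ← rpow_add']
    exact rpow_anti B n (by linarith)
  refine e1.trans ?_
  have e2 : (B.d n ^ e) ^ 2 * (B.d n ^ (θ + e) / 8 * B.d n ^ (-v0 + e)) =
      B.d n ^ (θ - v0 + 4 * e) / 8 := by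
    have : (B.d n ^ e) ^ 2 * (B.d n ^ (θ + e) * B.d n ^ (-v0 + e)) = B.d n ^ (θ - v0 + 4 * e) := by
      rw [pow_rp, ← rpow_add', ← rpow_add']; congr 1; push_cast; ring
    rw [← this]; ring
  have e3 : (B.d n ^ e) ^ 2 * (B.d n ^ (θ + e) / 8 * B.d n ^ (-v0 + e)) ≤
      (B.d n ^ e) ^ 2 * (B.d n ^ (θ + e) / 8 * Ln) := by
    refine mul_le_mul_of_nonneg_left (mul_le_mul_of_nonneg_left hLn ?_) (by positivity)
    have := hpow (θ + e)
    positivity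
  refine le_trans ?_ e3
  rw [e2, le_div_iff₀ (by norm_num)]
  linarith

/-- `n2` -/
theorem mir_n2 (B : Base) {v0 v6 vD e Cc Cd θ : ℝ} (he : 0 < e) (hCc : 0 ≤ Cc) (hCd : 0 ≤ Cd)
    (hcon : 20 * θ ≤ v0 - v6) (hθ : (Cc + 2 * Cd + 5) * e < θ) :
    ∀ᶠ n in (U : Filter ℕ), ∀ Ln : ℝ, B.d n ^ (-v0 + e) ≤ Ln →
      B.d n ^ (-(v6 - vD) - Cc * e) * B.d n ^ (-vD - Cd * (2 * e)) ≤
        ((B.d n ^ (3 * θ)) ^ 2 / ((13 ^ 8 : ℕ) : ℝ)) ^ 3 / 4 *
          ((B.d n ^ e) ^ 2 * (B.d n ^ (θ + e) / 8 * Ln)) := by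
  set b : ℝ := ((13 ^ 8 : ℕ) : ℝ) with hb
  have hb0 : 0 < b := by rw [hb]; positivity
  filter_upwards [ev_abs B (show 19 * θ - v0 + 4 * e < 20 * θ - v0 - (Cc + 2 * Cd) * e by
    nlinarith) (32 * b ^ 3)] with n h Ln hLn
  have hpow : ∀ t : ℝ, 0 < B.d n ^ t := fun t => rpos B n t
  have e1 : B.d n ^ (-(v6 - vD) - Cc * e) * B.d n ^ (-vD - Cd * (2 * e)) ≤
      B.d n ^ (20 * θ - v0 - (Cc + 2 * Cd) * e) := by
    rw [← rpow_add']
    exact rpow_anti B n (by linarith)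
  have e2 : (B.d n ^ (3 * θ)) ^ 6 = B.d n ^ (18 * θ) := by
    rw [pow_rp]; congr 1; push_cast; ring
  have e3 : ((B.d n ^ (3 * θ)) ^ 2 / b) ^ 3 / 4 * ((B.d n ^ e) ^ 2 * (B.d n ^ (θ + e) / 8 *
      B.d n ^ (-v0 + e))) = B.d n ^ (19 * θ - v0 + 4 * e) / (32 * b ^ 3) := by
    have a1 : (B.d n ^ (3 * θ)) ^ 6 * ((B.d n ^ e) ^ 2 * (B.d n ^ (θ + e) * B.d n ^ (-v0 + e))) =
        B.d n ^ (19 * θ - v0 + 4 * e) := by
      rw [e2, pow_rp, ← rpow_add', ← rpow_add', ← rpow_add']; congr 1; push_cast; ring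
    rw [← a1]
    field_simp
    ring
  have e4 : ((B.d n ^ (3 * θ)) ^ 2 / b) ^ 3 / 4 * ((B.d n ^ e) ^ 2 * (B.d n ^ (θ + e) / 8 *
      B.d n ^ (-v0 + e))) ≤ ((B.d n ^ (3 * θ)) ^ 2 / b) ^ 3 / 4 *
      ((B.d n ^ e) ^ 2 * (B.d n ^ (θ + e) / 8 * Ln)) := by
    have h1 := hpow (3 * θ)
    have h2 := hpow (θ + e)
    have h3 := hpow e
    refine mul_le_mul_of_nonneg_left (mul_le_mul_of_nonneg_left (mul_le_mul_of_nonneg_left hLn ?_)
      ?_) ?_ <;> positivity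
  refine e1.trans (le_trans ?_ e4)
  rw [e3, le_div_iff₀ (by positivity)]
  linarith

end Crest.Agent.R136.Wk323
end

-- ▼ part R136/C1sB_940
section

/-!
# R136, case C1* (mirrored lightlike), part B (helper940)

`recG` : the configuration with relative coordinates recomputed from the absolute lines, flags 21
dropped, indices of the two base directions exchanged.  `recG_model` : it is a model for the uniform
boxes.  `no_slope_mir` : no heavy sloped strip.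
-/

set_option autoImplicit false
set_option linter.unusedVariables false
set_option linter.unusedSectionVars false

open Filter Topology Finset

namespace Crest.Agent.R136.C1s940

open Crest.Agent.R136.Sh605
open Crest.Agent.R138.Ex926 (Base U)
open Crest.Agent.R136.Gf356
open Crest.Agent.R136.CD366
open Crest.Agent.R136.Wk323 (vec fAll fPos fDir qv coA MirPr MirWin)

/-- the line with the two base directions exchanged -/
def swL (T : Ln4) : Ln4 := ⟨![T.p 0, T.p 2, T.p 1], ![T.v 0, T.v 2, T.v 1]⟩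

theorem swL_v0 (T : Ln4) : (swL T).v 0 = T.v 0 := rfl
theorem swL_v1 (T : Ln4) : (swL T).v 1 = T.v 2 := rfl
theorem swL_v2 (T : Ln4) : (swL T).v 2 = T.v 1 := rfl
theorem swL_pos0 (T : Ln4) (z : ℝ) : (swL T).pos z 0 = T.pos z 0 := rfl
theorem swL_pos1 (T : Ln4) (z : ℝ) : (swL T).pos z 1 = T.pos z 2 := rfl
theorem swL_pos2 (T : Ln4) (z : ℝ) : (swL T).pos z 2 = T.pos z 1 := rfl

/-- the recomputed configuration -/
def recG (G : ℕ → RCfg (Fin 11)) (T : ℕ → ℕ → Ln4) (f : ℕ → ℕ → ℝ) : ℕ → RCfg (Fin 11) :=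
  fun n => { G n with
    rel := (fun k i l => coA (swL (T n i)) (swL (T n l)) 0 0 0 0 (f n k) ((G n).z k)) }

/-- translation of the boxes -/
def piB (p : Fin 11 → ℝ) : Fin 11 → ℝ := ![0, 0, 0, 0, 0, p 6, p 5, p 7, p 9, p 8, p 10]

/-- admissible boxes -/
def LegB (Leg : Set (Fin 11 → ℝ)) (x : ℝ) : Set (Fin 11 → ℝ) :=
  {p | piB p ∈ Leg ∧ (∀ s, p s ≤ x) ∧ p 5 ≤ p 6 ∧ p 8 ≤ p 9}

/-- the recomputed coordinates -/
theorem coA_sw (T T' : Ln4) (f z : ℝ) : coA (swL T) (swL T') 0 0 0 0 f z =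
    ![0, 0, 0, 0, 0, T'.v 2 - T.v 2, T'.v 1 - T.v 1, (T'.v 0 - T.v 0) - f * (T'.v 1 - T.v 1),
      T'.pos z 2 - T.pos z 2, T'.pos z 1 - T.pos z 1,
      (T'.pos z 0 - T.pos z 0) - f * (T'.pos z 1 - T.pos z 1)] := by
  funext s
  fin_cases s <;> simp [coA, swL_v0, swL_v1, swL_v2, swL_pos0, swL_pos1, swL_pos2]

variable {B : Base} {G : ℕ → RCfg (Fin 11)} {Leg : Set (Fin 11 → ℝ)} {ν : (Fin 11 → ℝ) → ℝ}
  {D R R0 x a m : ℝ} {T : ℕ → ℕ → Ln4} {e : ℕ → ℕ → ℝ} {f : ℕ → ℕ → ℝ}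

section

variable {ρ p5 p6 : ℝ}

/-- numbers `≤ c ρ^(p - ε)` are `≤ ρ^(p - 2 ε)` -/
theorem ab2 (B : Base) (n : ℕ) {y p ε c : ℝ} (hc : c ≤ B.d n ^ (-ε))
    (hy : |y| ≤ c * B.d n ^ (p - ε)) : |y| ≤ B.d n ^ (p - 2 * ε) := by
  refine hy.trans ?_
  have e1 : B.d n ^ (p - 2 * ε) = B.d n ^ (-ε) * B.d n ^ (p - ε) := by
    rw [← rpow_add']; congr 1; ring
  rw [e1]
  exact mul_le_mul_of_nonneg_right hc (rpos B n _).le

end

/-- `loose → loose'` -/
theorem loose_rec (hbase : ∀ n, (G n).ρ = B.d n) (A : MirGeo B G x T e f) {ε : ℝ} (hε : 0 < ε) :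
    ∀ᶠ n in (U : Filter ℕ), ∀ p : Fin 11 → ℝ, (∀ s, p s ≤ x) → p 5 ≤ p 6 → p 8 ≤ p 9 →
      ∀ k i l, (i, k) ∈ (G n).I → (l, k) ∈ (G n).I → (G n).loose (piB p) ε k i l →
      (recG G T f n).loose p (2 * ε) k i l := by
  filter_upwards [A.bd, A.rel ε hε, ev_const_le B hε 4] with n hbd hrel h4 p hpx h56 h89 k i l
    hi hl hlo
  have hpow : ∀ t : ℝ, 0 < B.d n ^ t := fun t => rpos B n t
  have he := (hbd i k hi).2.2.2.1
  have hx : ∀ s, B.d n ^ (x - ε) ≤ B.d n ^ (p s - ε) := fun s =>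
    rpow_anti B n (by linarith [hpx s])
  have r5 := hrel k i l hi hl 5 (by decide)
  have r6 := hrel k i l hi hl 6 (by decide)
  have r7 := hrel k i l hi hl 7 (by decide)
  have r8 := hrel k i l hi hl 8 (by decide)
  have r9 := hrel k i l hi hl 9 (by decide)
  have r10 := hrel k i l hi hl 10 (by decide)
  have l5 := hlo 5
  have l6 := hlo 6
  have l7 := hlo 7
  have l8 := hlo 8
  have l9 := hlo 9
  have l10 := hlo 10
  rw [hbase n] at l5 l6 l7 l8 l9 l10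
  simp only [piB, Matrix.cons_val] at l5 l6 l7 l8 l9 l10
  simp only [coM, Matrix.cons_val] at r5 r6 r7 r8 r9 r10
  have hrho : (recG G T f n).ρ = B.d n := hbase n
  have h1 : (1 : ℝ) ≤ B.d n ^ (-ε) := by linarith
  have x5 := hx 5
  have x6 := hx 6
  have x7 := hx 7
  have x8 := hx 8
  have x9 := hx 9
  have x10 := hx 10
  have m56 : B.d n ^ (p 6 - ε) ≤ B.d n ^ (p 5 - ε) := rpow_anti B n (by linarith)
  have m89 : B.d n ^ (p 9 - ε) ≤ B.d n ^ (p 8 - ε) := rpow_anti B n (by linarith)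
  -- wide velocity
  have w5 : |(T n l).v 1 - (T n i).v 1| ≤ 2 * B.d n ^ (p 6 - ε) := by
    have := abs_sub_abs_le_abs_sub ((T n l).v 1 - (T n i).v 1) ((G n).rel k i l 5)
    rw [abs_sub_comm] at r5
    linarith
  have w8 : |(T n l).pos ((G n).z k) 1 - (T n i).pos ((G n).z k) 1| ≤ 2 * B.d n ^ (p 9 - ε) := by
    have := abs_sub_abs_le_abs_sub ((T n l).pos ((G n).z k) 1 - (T n i).pos ((G n).z k) 1)
      ((G n).rel k i l 8)
    rw [abs_sub_comm] at r8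
    linarith
  have e5 : |e n i * ((T n l).v 1 - (T n i).v 1)| ≤ 2 * B.d n ^ (p 6 - ε) := by
    rw [abs_mul]
    calc _ ≤ 1 * (2 * B.d n ^ (p 6 - ε)) := mul_le_mul he w5 (abs_nonneg _) zero_le_one
      _ = _ := one_mul _
  have e8 : |e n i * ((T n l).pos ((G n).z k) 1 - (T n i).pos ((G n).z k) 1)| ≤
      2 * B.d n ^ (p 9 - ε) := by
    rw [abs_mul]
    calc _ ≤ 1 * (2 * B.d n ^ (p 9 - ε)) := mul_le_mul he w8 (abs_nonneg _) zero_le_one
      _ = _ := one_mul _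
  intro s
  rw [hrho]
  show |coA (swL (T n i)) (swL (T n l)) 0 0 0 0 (f n k) ((G n).z k) s| ≤ _
  rw [coA_sw]
  have hz : |(0 : ℝ)| ≤ B.d n ^ (p s - 2 * ε) := by rw [abs_zero]; exact (hpow _).le
  fin_cases s
  · exact hz
  · exact hz
  · exact hz
  · exact hz
  · exact hz
  · refine ab2 B n h4 ?_
    simp only [Matrix.cons_val, Fin.reduceFinMk]
    rw [abs_le] at r6 l6 e5 ⊢
    constructor <;> linarith [r6.1, r6.2, l6.1, l6.2, e5.1, e5.2]
  · refine ab2 B n h4 ?_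
    simp only [Matrix.cons_val, Fin.reduceFinMk]
    linarith [hpow (p 6 - ε)]
  · refine ab2 B n h4 ?_
    simp only [Matrix.cons_val, Fin.reduceFinMk]
    have := hpow (p 7 - ε)
    rw [abs_le] at r7 l7 ⊢
    constructor <;> linarith [r7.1, r7.2, l7.1, l7.2]
  · refine ab2 B n h4 ?_
    simp only [Matrix.cons_val, Fin.reduceFinMk]
    rw [abs_le] at r9 l9 e8 ⊢
    constructor <;> linarith [r9.1, r9.2, l9.1, l9.2, e8.1, e8.2]
  · refine ab2 B n h4 ?_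
    simp only [Matrix.cons_val, Fin.reduceFinMk]
    linarith [hpow (p 9 - ε)]
  · refine ab2 B n h4 ?_
    simp only [Matrix.cons_val, Fin.reduceFinMk]
    have := hpow (p 10 - ε)
    rw [abs_le] at r10 l10 ⊢
    constructor <;> linarith [r10.1, r10.2, l10.1, l10.2]

/-- `loose' → loose` -/
theorem rec_loose (hbase : ∀ n, (G n).ρ = B.d n) (A : MirGeo B G x T e f) {ε : ℝ} (hε : 0 < ε) :
    ∀ᶠ n in (U : Filter ℕ), ∀ p : Fin 11 → ℝ, (∀ s, p s ≤ x) → p 5 ≤ p 6 → p 8 ≤ p 9 →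
      ∀ k i l, (i, k) ∈ (G n).I → (l, k) ∈ (G n).I → (recG G T f n).loose p ε k i l →
      (G n).loose (piB p) (2 * ε) k i l := by
  filter_upwards [A.bd, A.bdr, A.rel ε hε, ev_const_le B hε 4] with n hbd hbdr hrel h4 p hpx h56
    h89 k i l hi hl hlo
  have hpow : ∀ t : ℝ, 0 < B.d n ^ t := fun t => rpos B n t
  have he := (hbd i k hi).2.2.2.1
  have hx : ∀ s, B.d n ^ (x - ε) ≤ B.d n ^ (p s - ε) := fun s =>
    rpow_anti B n (by linarith [hpx s])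
  have r5 := hrel k i l hi hl 5 (by decide)
  have r6 := hrel k i l hi hl 6 (by decide)
  have r7 := hrel k i l hi hl 7 (by decide)
  have r8 := hrel k i l hi hl 8 (by decide)
  have r9 := hrel k i l hi hl 9 (by decide)
  have r10 := hrel k i l hi hl 10 (by decide)
  have hlo' : ∀ s, |coA (swL (T n i)) (swL (T n l)) 0 0 0 0 (f n k) ((G n).z k) s| ≤
      B.d n ^ (p s - ε) := by
    intro s
    have := hlo s
    rw [show (recG G T f n).ρ = B.d n from hbase n] at this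
    exact this
  rw [coA_sw] at hlo'
  have l5 := hlo' 5
  have l6 := hlo' 6
  have l7 := hlo' 7
  have l8 := hlo' 8
  have l9 := hlo' 9
  have l10 := hlo' 10
  simp only [Matrix.cons_val] at l5 l6 l7 l8 l9 l10
  simp only [coM, Matrix.cons_val] at r5 r6 r7 r8 r9 r10
  have x5 := hx 5
  have x6 := hx 6
  have x7 := hx 7
  have x8 := hx 8
  have x9 := hx 9
  have x10 := hx 10
  have m56 : B.d n ^ (p 6 - ε) ≤ B.d n ^ (p 5 - ε) := rpow_anti B n (by linarith)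
  have m89 : B.d n ^ (p 9 - ε) ≤ B.d n ^ (p 8 - ε) := rpow_anti B n (by linarith)
  have e5 : |e n i * ((T n l).v 1 - (T n i).v 1)| ≤ B.d n ^ (p 6 - ε) := by
    rw [abs_mul]
    calc _ ≤ 1 * (B.d n ^ (p 6 - ε)) := mul_le_mul he l6 (abs_nonneg _) zero_le_one
      _ = _ := one_mul _
  have e8 : |e n i * ((T n l).pos ((G n).z k) 1 - (T n i).pos ((G n).z k) 1)| ≤
      B.d n ^ (p 9 - ε) := by
    rw [abs_mul]
    calc _ ≤ 1 * (B.d n ^ (p 9 - ε)) := mul_le_mul he l9 (abs_nonneg _) zero_le_one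
      _ = _ := one_mul _
  have hb : ∀ s, |(G n).rel k i l s| ≤ B.d n ^ ((0 : ℝ) - 2 * ε) := by
    intro s
    refine (hbdr k i l hi hl s).trans ?_
    exact Real.one_le_rpow_of_pos_of_le_one_of_nonpos (B.pos n) (B.lt n).le (by linarith)
  intro s
  rw [hbase n]
  fin_cases s
  · exact hb 0
  · exact hb 1
  · exact hb 2
  · exact hb 3
  · exact hb 4
  · refine ab2 B n h4 ?_
    simp only [piB, Matrix.cons_val, Fin.reduceFinMk]
    have := hpow (p 6 - ε)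
    rw [abs_le] at r5 l6 ⊢
    constructor <;> linarith [r5.1, r5.2, l6.1, l6.2]
  · refine ab2 B n h4 ?_
    simp only [piB, Matrix.cons_val, Fin.reduceFinMk]
    have := hpow (p 5 - ε)
    rw [abs_le] at r6 l5 e5 ⊢
    constructor <;> linarith [r6.1, r6.2, l5.1, l5.2, e5.1, e5.2]
  · refine ab2 B n h4 ?_
    simp only [piB, Matrix.cons_val, Fin.reduceFinMk]
    have := hpow (p 7 - ε)
    rw [abs_le] at r7 l7 ⊢
    constructor <;> linarith [r7.1, r7.2, l7.1, l7.2]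
  · refine ab2 B n h4 ?_
    simp only [piB, Matrix.cons_val, Fin.reduceFinMk]
    have := hpow (p 9 - ε)
    rw [abs_le] at r8 l9 ⊢
    constructor <;> linarith [r8.1, r8.2, l9.1, l9.2]
  · refine ab2 B n h4 ?_
    simp only [piB, Matrix.cons_val, Fin.reduceFinMk]
    have := hpow (p 8 - ε)
    rw [abs_le] at r9 l8 e8 ⊢
    constructor <;> linarith [r9.1, r9.2, l8.1, l8.2, e8.1, e8.2]
  · refine ab2 B n h4 ?_
    simp only [piB, Matrix.cons_val, Fin.reduceFinMk]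
    have := hpow (p 10 - ε)
    rw [abs_le] at r10 l10 ⊢
    constructor <;> linarith [r10.1, r10.2, l10.1, l10.2]

theorem rec_neg (n k i l : ℕ) (s : Fin 11) :
    (recG G T f n).rel k l i s = -(recG G T f n).rel k i l s := by
  show coA _ _ 0 0 0 0 _ _ s = -coA _ _ 0 0 0 0 _ _ s
  rw [coA_sw, coA_sw]
  fin_cases s <;> simp only [Matrix.cons_val, Fin.reduceFinMk, Fin.zero_eta, Fin.mk_one] <;> ring

theorem rec_add (n k i l j : ℕ) (s : Fin 11) :
    (recG G T f n).rel k i j s = (recG G T f n).rel k i l s + (recG G T f n).rel k l j s := by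
  show coA _ _ 0 0 0 0 _ _ s = coA _ _ 0 0 0 0 _ _ s + coA _ _ 0 0 0 0 _ _ s
  rw [coA_sw, coA_sw, coA_sw]
  fin_cases s <;> simp only [Matrix.cons_val, Fin.reduceFinMk, Fin.zero_eta, Fin.mk_one] <;> ring

theorem rec_self (n k i : ℕ) (s : Fin 11) : (recG G T f n).rel k i i s = 0 := by
  show coA _ _ 0 0 0 0 _ _ s = 0
  rw [coA_sw]
  fin_cases s <;> simp

/-- **the recomputed configuration is a model** -/
theorem recG_model (H : RModel B G 1 R Leg ν D) (A : MirGeo B G x T e f) :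
    RModel B (recG G T f) 1 R (LegB Leg x) (fun p => ν (piB p)) (2 * D) where
  D1 := by linarith [H.D1]
  base := H.base
  sub := H.sub
  nonempty := H.nonempty
  refl := fun n k i _ j => rec_self n k i j
  symm := fun p _ ε hε => by
    filter_upwards with n k i l hi hl hlo j
    have h1 := hlo j
    rw [show (recG G T f n).ρ = B.d n from H.base n] at h1 ⊢
    rw [rec_neg, abs_neg]
    refine h1.trans (rpow_anti B n ?_)
    have := H.D1
    nlinarith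
  tri := fun p _ ε hε => by
    filter_upwards [ev_const_le B hε 2] with n h2 k i l j hi hl hj h1 h3 s
    have g1 := h1 s
    have g2 := h3 s
    rw [show (recG G T f n).ρ = B.d n from H.base n] at g1 g2 ⊢
    rw [rec_add n k i l j s]
    have g3 : |(recG G T f n).rel k i l s + (recG G T f n).rel k l j s| ≤
        2 * B.d n ^ (p s - ε) := (abs_add_le _ _).trans (by linarith)
    refine (ab2 B n h2 g3).trans (rpow_anti B n ?_)
    have := H.D1
    nlinarith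
  low := fun p hp ε hε => by
    have hε2 : 0 < ε / 2 := by positivity
    filter_upwards [H.low (piB p) hp.1 (ε / 2) hε2, loose_rec H.base A hε2] with n h1 h2 i k hi
    refine (rpow_anti B n (by linarith)).trans ((h1 i k hi).trans ?_)
    refine mod_cast card_le_card fun l hl => ?_
    obtain ⟨l1, l2⟩ := RCfg.mem_box.1 hl
    refine RCfg.mem_box.2 ⟨l1, ?_⟩
    have := h2 p hp.2.1 hp.2.2.1 hp.2.2.2 k i l hi (H.memSlice.1 l1) l2
    rwa [mul_div_cancel₀ _ (by norm_num : (2 : ℝ) ≠ 0)] at this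
  up := fun p hp ε hε => by
    filter_upwards [H.up (piB p) hp.1 (2 * ε) (by positivity), rec_loose H.base A hε]
      with n h1 h2 i k hi
    have h3 := h1 i k hi
    rw [show -ν (piB p) - D * (2 * ε) = -ν (piB p) - 2 * D * ε by ring] at h3
    refine le_trans ?_ h3
    refine mod_cast card_le_card fun l hl => ?_
    obtain ⟨l1, l2⟩ := RCfg.mem_box.1 hl
    exact RCfg.mem_box.2 ⟨l1, h2 p hp.2.1 hp.2.2.1 hp.2.2.2 k i l hi (H.memSlice.1 l1) l2⟩
  σ_nonneg := H.σ_nonneg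
  σ_le := H.σ_le
  line := H.line
  slice := H.slice
  frost := H.frost

/-! ### the boxes -/

theorem piB_zero : piB 0 = 0 := by
  funext s; fin_cases s <;> simp [piB]

theorem piB_all (y : ℝ) : piB (vec fAll y) = vec {5, 6, 7, 8, 9, 10} y := by
  funext s; fin_cases s <;> simp [piB, vec, fAll]

theorem piB_pos (y : ℝ) : piB (vec fPos y) = vec {7, 8, 9, 10} y := by
  funext s; fin_cases s <;> simp [piB, vec, fPos]

theorem piB_dir (y : ℝ) : piB (vec fDir y) = vec {5, 6} y := by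
  funext s; fin_cases s <;> simp [piB, vec, fDir]

theorem piB_q0 (y : ℝ) : piB (qv y 0) = vec {8, 9} y := by
  funext s; fin_cases s <;> simp [piB, vec, qv]

theorem piB_q (y : ℝ) : piB (qv y y) = vec {8, 9, 10} y := by
  funext s; fin_cases s <;> simp [piB, vec, qv]

theorem piB_c (y : ℝ) : piB (vec {6} y) = vec {5} y := by
  funext s; fin_cases s <;> simp [piB, vec]

theorem vec_le {F : Finset (Fin 11)} {y x : ℝ} (h0 : 0 ≤ x) (h : y ≤ x) (s : Fin 11) :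
    vec F y s ≤ x := by
  unfold vec
  split_ifs
  · exact h
  · exact h0

theorem vec_zero (F : Finset (Fin 11)) : vec F 0 = 0 := by
  funext s; unfold vec; simp

theorem MirProf.toPr (P : MirProf Leg ν R0 a m) (hx : R0 ≤ x) {y : ℝ} (hy : 0 < y)
    (hyR : y ≤ R0) : MirPr (LegB Leg x) (fun p => ν (piB p)) y a m := by
  have hx0 : 0 ≤ x := P.R0_pos.le.trans hx
  have hyx : y ≤ x := hyR.trans hx
  have h0 : (0 : Fin 11 → ℝ) ∈ Leg := by
    have := P.c 0 le_rfl P.R0_pos.le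
    rwa [vec_zero] at this
  refine ⟨hy, ?_, ?_, ?_, ?_, ?_, ?_, ?_, ?_, ?_, ?_⟩
  · exact ⟨by rw [piB_zero]; exact h0, fun s => hx0, le_rfl, le_rfl⟩
  · exact ⟨by rw [piB_all]; exact P.all y hy.le hyR, vec_le hx0 hyx, by simp [vec, fAll],
      by simp [vec, fAll]⟩
  · exact ⟨by rw [piB_pos]; exact P.pos y hy.le hyR, vec_le hx0 hyx, by simp [vec, fPos],
      by simp [vec, fPos]⟩
  · exact ⟨by rw [piB_dir]; exact P.dir y hy.le hyR, vec_le hx0 hyx, by simp [vec, fDir],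
      by simp [vec, fDir]⟩
  · refine ⟨by rw [piB_q0]; exact P.q0 y hy.le hyR, fun s => ?_, by simp [qv], by simp [qv]⟩
    unfold qv
    split_ifs <;> assumption
  · refine ⟨by rw [piB_q]; exact P.q y hy.le hyR, fun s => ?_, by simp [qv], by simp [qv]⟩
    unfold qv
    split_ifs <;> assumption
  · intro y' h1 h2
    exact ⟨by rw [piB_c]; exact P.c y' h1 (h2.trans hyR), vec_le hx0 (h2.trans hyx),
      by simpa [vec] using h1, by simp [vec]⟩
  · simp only [piB_zero, piB_all, piB_pos, piB_dir]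
    exact P.dec y hy.le hyR
  · simp only [piB_q0, piB_q]
    exact P.fib y hy.le hyR
  · intro y' h1 h2
    simp only [piB_zero, piB_c]
    exact P.conc y' h1 (h2.trans hyR)

/-- **no heavy sloped strip** -/
theorem no_slope_mir (hW : MirWin) (H : RModel B G 1 R Leg ν D) (A : MirGeo B G x T e f)
    (P : MirProf Leg ν R0 a m) (hx : R0 ≤ x) (hR : R0 ≤ R) :
    ∃ η₁ : ℝ, 0 < η₁ ∧ ∀ y, 0 < y → y ≤ R0 → ¬ ∀ᶠ n in (U : Filter ℕ), ∃ Z' ⊆ (G n).Z,
      Z'.Nonempty ∧ B.d n ^ (η₁ * y) * ((G n).Z.card : ℝ) ≤ Z'.card ∧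
      ∃ μ : ℝ, B.d n ^ (η₁ * y) ≤ |μ| ∧
      ∀ k ∈ Z', ∀ k' ∈ Z', |f n k' - f n k - μ * ((G n).z k' - (G n).z k)| ≤
        2 * B.d n ^ y := by
  obtain ⟨η, hη, h⟩ := hW a m P.a0 P.a1 P.m0
  refine ⟨η, hη, fun y hy hyR => ?_⟩
  refine h B (recG G T f) (LegB Leg x) (fun p => ν (piB p)) (2 * D) R y
    (fun n l => swL (T n l)) f (recG_model H A) (hyR.trans hR) (P.toPr hx hy hyR) ?_
    (fun n k i l s => rfl)
  filter_upwards [A.bd] with n hn l k hlk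
  obtain ⟨h1, h2, h3, h4, h5⟩ := hn l k hlk
  refine ⟨h1, fun j => ?_, fun j => ?_, h5⟩
  · fin_cases j
    · exact h2 0
    · exact h2 2
    · exact h2 1
  · fin_cases j
    · exact h3 0
    · exact h3 2
    · exact h3 1

end Crest.Agent.R136.C1s940
end

-- ▼ part R136/Wk15_323

/-!
# R136 (S0187): `mirWin : MirWin` (helper323): no mirrored lightlike window
-/

set_option autoImplicit false
set_option linter.unusedVariables false

open Filter Topology Finset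

namespace Crest.Agent.R136.Wk323

open Crest.Agent.R136.Sh605
open Crest.Agent.R138.Ex926 (Base U)
open Crest.Agent.R136.Gf356

/-- **the mirrored window at one number `n`** -/
theorem mir_one {g : RCfg (Fin 11)} {t : ℕ → Ln4} {f : ℕ → ℝ} {μ be δ h κ κ₁ κh lm lm0 rF sep tol
    eo MP MD Mu Md Mc Kf' : ℝ} {N : ℕ} (hsub : g.I ⊆ g.L ×ˢ g.Z)
    (hbd : ∀ l k, (l, k) ∈ g.I → |g.z k| ≤ 1 ∧ (∀ j, |(t l).v j| ≤ 1) ∧ |f k| ≤ 1)
    {Z' : Finset ℕ} (hZ' : Z'.Nonempty) (hZ'Z : Z' ⊆ g.Z)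
    (haff : ∀ k ∈ Z', |f k - be - μ * g.z k| ≤ δ)
    (hδ : 0 < δ) (hh : 0 < h) (hhδ : h ≤ δ) (hNh : N * h ≤ 1) (hNh1 : 1 < (N + 1) * h) (hN : 0 < N)
    (heo : 3 * δ + 2 * (|μ| * h) ≤ eo)
    (hlm : |μ| ≤ lm) (hlm0 : 0 < lm0) (hlm0' : lm0 ≤ |μ|) (hL : g.L.Nonempty)
    (hκ₁ : 0 < κ₁) (hline : ∀ i ∈ g.L, κ₁ * (g.Z.card : ℝ) ≤ ((g.hts i).card : ℝ))
    (hκh : 0 < κh) (hz : ∀ k ∈ Z', |g.z k| ≤ 1)
    (hsl : ∀ k ∈ Z', κh * (g.L.card : ℝ) ≤ ((g.slice k).card : ℝ))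
    (hfr : ∀ k ∈ Z', κh * N * ((Z'.filter fun k' => |g.z k' - g.z k| ≤ h).card : ℝ) ≤
      (Z'.card : ℝ))
    (hκ : 0 < κ) (hκκ : κ ≤ κh ^ 2 / 8)
    (htol : 20 * δ ≤ tol) (htol2 : 56 * δ ≤ tol) (hMP : 0 ≤ MP) (hMD : 0 ≤ MD) (hMu : 0 < Mu)
    (hMd : 0 < Md)
    (hpc : ∀ k, (((g.slice k).image fun l => posL δ (t l) 0 (f k) (g.z k)).card : ℝ) ≤ MP)
    (hdc : ∀ k, (((g.slice k).image fun l => dirL δ (t l) 0).card : ℝ) ≤ MD)
    (hcu : ∀ k i, (i, k) ∈ g.I → ∀ F ⊆ g.slice k, (∀ l ∈ F, ∀ s ∈ fAll,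
      |coA (t i) (t l) 0 0 0 0 (f k) (g.z k) s| ≤ tol) → (F.card : ℝ) ≤ Mu)
    (hdu : ∀ k i, (i, k) ∈ g.I → ∀ F ⊆ g.slice k, (∀ l ∈ F, ∀ s ∈ fDir,
      |coA (t i) (t l) 0 0 0 0 (f k) (g.z k) s| ≤ tol) → (F.card : ℝ) ≤ Md)
    (hcc : ∀ k, ∀ c : ℝ, ((((g.slice k).filter fun l => |(t l).v 2 - c| ≤ sep).image fun l =>
      dirL δ (t l) 0).card : ℝ) ≤ Mc)
    (hrF : 0 < rF) (hrF2 : 2 * h ≤ rF) (hKf' : 0 ≤ Kf')
    (hfib : ∀ k, ∀ F ⊆ g.slice k, F.Nonempty → (∀ i ∈ F, ∀ i' ∈ F, ∀ m : Fin 3, m ≠ 0 →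
        |(t i).pos (g.z k) m - (t i').pos (g.z k) m| ≤ tol) →
      (∀ i ∈ F, ∀ i' ∈ F, i ≠ i' → rF ≤ |(t i).pos (g.z k) 0 - (t i').pos (g.z k) 0|) →
      (F.card : ℝ) ≤ Kf')
    (n1 : κ * MP * MD * Mu ≤ κ₁ ^ 2 * (κh / 8 * (g.L.card : ℝ)))
    (n2 : Mc * Md ≤ (κ ^ 2 / ((13 ^ 8 : ℕ) : ℝ)) ^ 3 / 4 * (κ₁ ^ 2 * (κh / 8 * (g.L.card : ℝ))))
    (hδr : 3 * δ ≤ 2 * rF) (her : eo ≤ 2 * rF) (hlr : lm * (3 * δ) ≤ 2 * rF)
    (hn : 256 * (((13 ^ 8 : ℕ) : ℝ)) ^ 3 ≤ (κ ^ 7 / (2 * (((13 ^ 8 : ℕ) : ℝ)) ^ 4)) ^ 3 * N)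
    (hn2 : 256 * (((13 ^ 8 : ℕ) : ℝ)) ^ 3 * (4 * Kf' * (16 * lm / (2 * rF) + 382) ^ (0 : ℝ)) <
      κ * (κ ^ 7 / (2 * (((13 ^ 8 : ℕ) : ℝ)) ^ 4)) ^ 3 * N) :
    2 * sep < RigData.etaR κ ((13 ^ 8 : ℕ) : ℝ) (4 * Kf') (N * h) (2 * rF) 0 lm0 := by
  classical
  have A0 : ARel0 g.I g.z t (fun _ => 0) (fun _ _ => 0) f δ (fun _ => 0) :=
    ⟨fun l k hl => (hbd l k hl).1, fun l k hl => (hbd l k hl).2.1,
      fun l k hl => by simp, fun l k hl => by simp, fun l k hl => (hbd l k hl).2.2,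
      fun l k k' hl hl' => by simpa using hδ.le, fun l k hl => by simpa using hδ.le⟩
  obtain ⟨w, hw, kst, Lg, hLg, hLgc, hal⟩ := heights_fin g.L Z' (fun l k => (l, k) ∈ g.I) g.z
    (h := h) (κ := κh) (n := N) hN hh hκh hNh1 hZ' hz hsl hfr
  have hal' : ∀ l ∈ Lg, κh ^ 2 / 8 * N ≤
      ((alf (g.I.filter fun p => p.2 ∈ Z') g.z h N w kst l).card : ℝ) := by
    intro l hl
    refine (hal l hl).trans ?_
    refine mod_cast card_le_card ?_
    intro x hx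
    rw [mem_filter, Finset.mem_Ico] at hx
    rw [mem_alf]
    exact ⟨hx.1, mem_filter.2 ⟨hx.2.2.1, hx.2.1⟩, hx.2.2.2⟩
  have AR : ARel (g.I.filter fun p => p.2 ∈ Z') g.z t (fun _ => 0) (fun _ _ => 0) f μ be δ
      (fun _ => 0) := ⟨A0.mono (filter_subset _ _), fun l k hl => haff k (mem_filter.1 hl).2⟩
  refine mirror_one A0 (fun _ _ => rfl) haff (h := h) (κ := κ) (κ₁ := κ₁) (κ₂ := κh / 8)
    (κ₃ := κh ^ 2 / 8) (lm := lm) (lm0 := lm0) (r := 2 * rF) (a := 0) (Kf := 4 * Kf')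
    (sep := sep) (tol := tol) (MP := MP) (MD := MD) (Mu := Mu) (Md := Md) (Mc := Mc) (N := N)
    (w := w) (kst := kst) (Lg := Lg) hδ hh hhδ hNh hN heo hlm hlm0 hlm0' hL
    (hZ'.mono hZ'Z) hκ₁ (by positivity) hline hκ hκκ hLg hLgc hal' htol hMP hMD hMu hMd hpc hdc
    hcu hdu hcc ?_ n1 n2 (by positivity) hδr her hlr le_rfl one_pos (by positivity) hn hn2
  intro Ls hLs
  refine AR.thinFib_of (h := h) (rF := rF) (a := 0) (Kf' := Kf') (tol := tol) (N := N) (w := w)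
    (kst := kst) (Ls := Ls) hδ hh hhδ hrF hrF2 htol2 hKf' le_rfl one_pos ?_
  intro k F hF hne h1 R0 hR0 h2 h3
  rw [Real.rpow_zero, mul_one]
  refine hfib k F (fun i hi => RCfg.mem_slice.2 ⟨?_, (mem_filter.1 (hF i hi)).1⟩) hne h1 h3
  exact (mem_product.1 (hsub (mem_filter.1 (hF i hi)).1)).1

/-- the slope of an affine piece on a heavy set of heights is bounded by a power -/
theorem slope_le {Z Z' : Finset ℕ} (hZ' : Z' ⊆ Z) {z f : ℕ → ℝ} {μ w c : ℝ} (hw : 0 < w)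
    (hne : Z'.Nonempty) (hc : c ≤ 1)
    (hf : ∀ k ∈ Z', |f k| ≤ 1)
    (haff : ∀ k ∈ Z', ∀ k' ∈ Z', |f k' - f k - μ * (z k' - z k)| ≤ 2 * c)
    (hfr : ∀ k ∈ Z', ((Z.filter fun k' => |z k' - z k| ≤ w).card : ℝ) < (Z'.card : ℝ)) :
    |μ| * w ≤ 4 := by
  obtain ⟨k0, hk0⟩ := hne
  obtain ⟨k, hk, hkw⟩ : ∃ k ∈ Z', w < |z k - z k0| := by
    by_contra hcon
    push Not at hcon
    have h1 := hfr k0 hk0
    have h2 : Z' ⊆ Z.filter fun k' => |z k' - z k0| ≤ w := fun k hk =>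
      mem_filter.2 ⟨hZ' hk, hcon k hk⟩
    have h3 : (Z'.card : ℝ) ≤ ((Z.filter fun k' => |z k' - z k0| ≤ w).card : ℝ) := by
      exact_mod_cast card_le_card h2
    linarith
  have h1 := haff k0 hk0 k hk
  have h2 : |μ * (z k - z k0)| ≤ 4 := by
    have e : μ * (z k - z k0) = (f k - f k0) - (f k - f k0 - μ * (z k - z k0)) := by ring
    rw [e]
    have h3 := abs_sub (f k - f k0) (f k - f k0 - μ * (z k - z k0))
    have h4 := abs_sub (f k) (f k0)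
    have h5 := hf k hk
    have h6 := hf k0 hk0
    linarith
  rw [abs_mul] at h2
  have h3 := mul_le_mul_of_nonneg_left hkw.le (abs_nonneg μ)
  linarith

set_option maxHeartbeats 1600000 in
/-- **NO MIRRORED LIGHTLIKE WINDOW** -/
theorem mirWin : MirWin := by
  classical
  intro a m ha0 ha1 hm
  have h1a : 0 < 1 - a := by linarith
  obtain ⟨K, hK⟩ : ∃ K : ℝ, K = 140 + 21 / m := ⟨_, rfl⟩
  have h21m : 0 < 21 / m := by positivity
  have hK0 : 0 < K := by rw [hK]; linarith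
  refine ⟨(1 - a) / K, by positivity, ?_⟩
  intro B G Leg ν D R x T f H hxR P hbd hrel hev
  have hx := P.x0
  obtain ⟨θ, hθ⟩ : ∃ θ : ℝ, θ = (1 - a) / K * x := ⟨_, rfl⟩
  rw [← hθ] at hev
  have hθ0 : 0 < θ := by rw [hθ]; positivity
  have hKθ : K * θ = (1 - a) * x := by rw [hθ]; field_simp
  obtain ⟨y, hy⟩ : ∃ y : ℝ, y = 20 * θ / m := ⟨_, rfl⟩
  have hy0 : 0 < y := by rw [hy]; positivity
  have hyK : 140 * θ + 21 / 20 * y = (1 - a) * x := by
    rw [← hKθ, hK, hy]; field_simp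
  have hax : 0 ≤ a * x := mul_nonneg ha0 hx.le
  have hyx : y ≤ x := by linarith
  have hmy : m * y = 20 * θ := by rw [hy]; field_simp
  have hθx : 140 * θ < x := by linarith
  have hconc := P.conc y hy0.le hyx
  rw [hmy] at hconc
  have A : AbsRel B G x T (fun _ _ => 0) (fun _ _ _ => 0) f 4 := by
    refine ⟨?_, ?_, ?_⟩
    · filter_upwards [hbd] with n h l k hlk
      obtain ⟨h1, h2, h3, h4⟩ := h l k hlk
      exact ⟨h1, h2, h3, by simp, by simp, h4⟩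
    · filter_upwards [hbd] with n h k i l hi hl s
      rw [hrel]
      obtain ⟨h1, h2, h3, h4⟩ := h i k hi
      obtain ⟨g1, g2, g3, g4⟩ := h l k hl
      exact coA_bound h2 h3 g2 g3 h4 s
    · intro ε hε
      refine Eventually.of_forall fun n k i l hi hl s hs => ?_
      rw [hrel, sub_self, abs_zero]
      exact (rpos B n _).le
  obtain ⟨Cu, hCu0, hcu⟩ := famUp_A H.toRUnif A (S := fAll) (Finset.Subset.refl _) P.all hx
  obtain ⟨Cd, hCd0, hdu⟩ := famUp_A H.toRUnif A (S := fDir) (by decide) P.dir hx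
  obtain ⟨Cf, hCf1, hfb⟩ := fib_A H.toRUnif A hx P.q0 P.q
  have hD := H.D1
  obtain ⟨Cc, hCc⟩ : ∃ Cc : ℝ, Cc = D * (D * 2) + (3 : ℕ) * (2 + 1) + 1 := ⟨_, rfl⟩
  have hCc0 : 0 ≤ Cc := by rw [hCc]; positivity
  have hcc := conc6_A H.toRUnif A hx P.dir hy0.le hyx (P.c y hy0.le hyx)
  rw [← hCc] at hcc
  obtain ⟨e, he, q1, q2, q3, q4, -⟩ := exists_e (K1 := 7 + 2 * Cu) (K2 := Cc + 2 * Cd + 5)
    (K3 := 2 * Cf) (K4 := 10) (K5 := 0) (ε := θ) (X := θ) (x := θ)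
    (by positivity) (by positivity) (by positivity) (by norm_num) le_rfl hθ0 hθ0 le_rfl
  have hbig : ∀ᶠ n in (U : Filter ℕ), False := by
    filter_upwards [hev, hbd, H.slice e he, H.line e he, H.frost x hx.le hxR e he,
      H.frost (2 * θ) (by positivity) (by linarith) e he,
      posCount_A H.toRUnif A hx P.zero P.pos e he e he,
      dirCount_A H.toRUnif A hx P.zero P.dir e he e he, hcu (2 * e) (by positivity),
      hdu (2 * e) (by positivity), hcc e he, hfb (2 * e) (by positivity),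
      RgN344.slice_ge H.toRUnif 0 P.zero he,
      mir_num B (x := x) (a := a) (θ := θ) (K1 := Cf * (2 * e)) (y := y) hθ0 (by linarith)
        (by linarith) hx ha0,
      mir_hn B (x := x) (a := a) (θ := θ) (K1 := Cf * (2 * e)) hθ0 (by linarith)
        (by linarith) hx ha0,
      mir_n1 B (v0 := ν 0) (vP := ν (vec fPos x)) (vD := ν (vec fDir x)) (vA := ν (vec fAll x))
        (e := e) (Cu := Cu) (θ := θ) he hCu0 P.dec (by linarith),
      mir_n2 B (v0 := ν 0) (v6 := ν (vec {6} y)) (vD := ν (vec fDir x)) (e := e) (Cc := Cc)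
        (Cd := Cd) (θ := θ) he hCc0 hCd0 hconc q2,
      ev_abs B (show x - 2 * e < x - e by linarith) 56,
      ev_abs B (show x - 3 * θ < x by linarith) 2,
      ev_abs B (show x - 3 * θ < x - 2 * θ by linarith) 11,
      ev_abs B (show x - 3 * θ < x - e - 2 * θ by linarith) 12,
      ev_abs B (show 2 * θ + 2 * e < 3 * θ by linarith) 8,
      ev_abs B (show x - e < x by linarith) 2]
      with n hevn hbdn hsl hline hfrx hfrθ hpcn hdcn hcun hdun hccn hfbn hslice hnum hhn hn1 hn2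
        t2 t3 t4 t5 t6 t7
    have hpow : ∀ t : ℝ, 0 < B.d n ^ t := fun t => rpos B n t
    obtain ⟨Z', hZ'Z, hZ'ne, hZ'c, μ, hμ, haff⟩ := hevn
    have hx1 : B.d n ^ x ≤ 1 := Real.rpow_le_one (B.pos n).le (B.lt n).le hx.le
    have hL0 : (G n).L.Nonempty := by
      obtain ⟨⟨i1, k1⟩, hI1⟩ := H.nonempty n
      exact ⟨i1, H.memL hI1⟩
    have hLpos : (0 : ℝ) < (G n).L.card := by exact_mod_cast hL0.card_pos
    have hLbig : B.d n ^ (-ν 0 + e) ≤ ((G n).L.card : ℝ) := by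
      obtain ⟨⟨i1, k1⟩, hI1⟩ := H.nonempty n
      refine (hslice i1 k1 hI1).trans ?_
      exact_mod_cast card_le_card (filter_subset _ _)
    have hZpos : (0 : ℝ) < (G n).Z.card := by
      exact_mod_cast (hZ'ne.mono hZ'Z).card_pos
    have halive : ∀ k ∈ (G n).Z, ∃ l, (l, k) ∈ (G n).I := by
      intro k hk
      have h1 : (0 : ℝ) < ((G n).slice k).card := lt_of_lt_of_le (mul_pos (hpow _) hLpos) (hsl k hk)
      obtain ⟨l, hl⟩ : ((G n).slice k).Nonempty := by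
        rw [← Finset.card_pos]; exact_mod_cast h1
      exact ⟨l, H.memSlice.1 hl⟩
    have hzf : ∀ k ∈ Z', |(G n).z k| ≤ 1 ∧ |f n k| ≤ 1 := by
      intro k hk
      obtain ⟨l, hl⟩ := halive k (hZ'Z hk)
      exact ⟨(hbdn l k hl).1, (hbdn l k hl).2.2.2⟩
    -- the slope
    have hμ2 : |μ| ≤ 4 * B.d n ^ (-(2 * θ)) := by
      have h1 := slope_le hZ'Z (w := B.d n ^ (2 * θ)) (hpow _) hZ'ne hx1
        (fun k hk => (hzf k hk).2) haff (by
          intro k hk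
          have h2 := hfrθ k (hZ'Z hk)
          have h3 : (((G n).Z.filter fun k' => |(G n).z k' - (G n).z k| ≤
              B.d n ^ (2 * θ)).card : ℝ) ≤ B.d n ^ (1 * (2 * θ) - e) * ((G n).Z.card : ℝ) := by
            refine le_trans (le_of_eq ?_) h2
            unfold RCfg.hbox
            rw [H.base n]
          refine lt_of_le_of_lt h3 (lt_of_lt_of_le ?_ hZ'c)
          refine mul_lt_mul_of_pos_right ?_ hZpos
          exact Real.rpow_lt_rpow_of_exponent_gt (B.pos n) (B.lt n) (by linarith))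
      have e1 : B.d n ^ (-(2 * θ)) * B.d n ^ (2 * θ) = 1 := by
        rw [← rpow_add', neg_add_cancel, Real.rpow_zero]
      have h2 : |μ| * B.d n ^ (2 * θ) ≤ (4 * B.d n ^ (-(2 * θ))) * B.d n ^ (2 * θ) := by
        rw [mul_assoc, e1]; linarith
      exact le_of_mul_le_mul_right h2 (hpow _)
    obtain ⟨k0, hk0⟩ := hZ'ne
    have haff' : ∀ k ∈ Z', |f n k - (f n k0 - μ * (G n).z k0) - μ * (G n).z k| ≤
        B.d n ^ (x - e) := by
      intro k hk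
      have h1 := haff k0 hk0 k hk
      have e1 : f n k - (f n k0 - μ * (G n).z k0) - μ * (G n).z k =
          f n k - f n k0 - μ * ((G n).z k - (G n).z k0) := by ring
      rw [e1]
      exact h1.trans t7
    have hNh2 : 1 / 2 ≤ (Nn B x n : ℝ) * B.d n ^ x := by
      have h1 := mul_le_mul_of_nonneg_right (half_le_Nn B hx.le n) (hpow x).le
      have e1 : B.d n ^ (-x) * B.d n ^ x = 1 := by
        rw [← rpow_add', neg_add_cancel, Real.rpow_zero]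
      rw [e1] at h1
      linarith
    have e20 : B.d n ^ (-(2 * θ)) * B.d n ^ x = B.d n ^ (x - 2 * θ) := by
      rw [← rpow_add']; congr 1; ring
    have e21 : B.d n ^ (x - e) ≤ B.d n ^ (x - 2 * θ) := rpow_anti B n (by linarith)
    have e22 : |μ| * B.d n ^ x ≤ 4 * B.d n ^ (x - 2 * θ) := by
      rw [← e20, ← mul_assoc]
      exact mul_le_mul_of_nonneg_right hμ2 (hpow x).le
    have hp2 := hpow (x - 2 * θ)
    have hpe := hpow (x - e)
    have hp3 := hpow (x - 3 * θ)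
    have hcon := mir_one (g := G n) (t := T n) (f := f n) (μ := μ)
      (be := f n k0 - μ * (G n).z k0) (δ := B.d n ^ (x - e)) (h := B.d n ^ x)
      (κ := B.d n ^ (3 * θ)) (κ₁ := B.d n ^ e) (κh := B.d n ^ (θ + e))
      (lm := 4 * B.d n ^ (-(2 * θ))) (lm0 := B.d n ^ θ) (rF := B.d n ^ (x - 3 * θ))
      (sep := B.d n ^ y) (tol := B.d n ^ (x - 2 * e)) (eo := B.d n ^ (x - 3 * θ))
      (MP := B.d n ^ (-(ν 0 - ν (vec fPos x)) - e)) (MD := B.d n ^ (-(ν 0 - ν (vec fDir x)) - e))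
      (Mu := B.d n ^ (-ν (vec fAll x) - Cu * (2 * e)))
      (Md := B.d n ^ (-ν (vec fDir x) - Cd * (2 * e)))
      (Mc := B.d n ^ (-(ν (vec {6} y) - ν (vec fDir x)) - Cc * e))
      (Kf' := B.d n ^ (-(a * x) - Cf * (2 * e))) (N := Nn B x n) (H.sub n)
      (fun l k hlk => ⟨(hbdn l k hlk).1, (hbdn l k hlk).2.2.1, (hbdn l k hlk).2.2.2⟩)
      (Z' := Z') ⟨k0, hk0⟩ hZ'Z haff' (hpow _) (hpow _) (rpow_anti B n (by linarith))
      (Nn_mul_le B x n) (lt_Nn_mul B x n) (Nn_pos B hx.le n) (by linarith) hμ2 (hpow _) hμ hL0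
      (hpow _) hline (hpow _) (fun k hk => (hzf k hk).1)
      (fun k hk => le_trans (mul_le_mul_of_nonneg_right (rpow_anti B n (by linarith)) hLpos.le)
        (hsl k (hZ'Z hk))) (by
        intro k hk
        have h1 := hfrx k (hZ'Z hk)
        have h2 : ((Z'.filter fun k' => |(G n).z k' - (G n).z k| ≤ B.d n ^ x).card : ℝ) ≤
            B.d n ^ (1 * x - e) * ((G n).Z.card : ℝ) := by
          refine le_trans ?_ h1
          unfold RCfg.hbox
          rw [H.base n]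
          exact_mod_cast card_le_card (filter_subset_filter _ hZ'Z)
        have h3 : B.d n ^ (θ + e) * B.d n ^ (1 * x - e) * ((G n).Z.card : ℝ) ≤
            B.d n ^ x * (Z'.card : ℝ) := by
          have e1 : B.d n ^ (θ + e) * B.d n ^ (1 * x - e) = B.d n ^ x * B.d n ^ θ := by
            rw [← rpow_add', ← rpow_add']; congr 1; ring
          rw [e1, mul_assoc]
          exact mul_le_mul_of_nonneg_left hZ'c (hpow x).le
        have hN0 : (0 : ℝ) ≤ (Nn B x n : ℝ) := Nat.cast_nonneg _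
        calc B.d n ^ (θ + e) * (Nn B x n : ℝ) *
              ((Z'.filter fun k' => |(G n).z k' - (G n).z k| ≤ B.d n ^ x).card : ℝ)
            ≤ B.d n ^ (θ + e) * (Nn B x n : ℝ) * (B.d n ^ (1 * x - e) * ((G n).Z.card : ℝ)) :=
              mul_le_mul_of_nonneg_left h2 (mul_nonneg (hpow _).le hN0)
          _ = (Nn B x n : ℝ) * (B.d n ^ (θ + e) * B.d n ^ (1 * x - e) * ((G n).Z.card : ℝ)) := by
              ring
          _ ≤ (Nn B x n : ℝ) * (B.d n ^ x * (Z'.card : ℝ)) := mul_le_mul_of_nonneg_left h3 hN0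
          _ = ((Nn B x n : ℝ) * B.d n ^ x) * (Z'.card : ℝ) := by ring
          _ ≤ 1 * (Z'.card : ℝ) := mul_le_mul_of_nonneg_right (Nn_mul_le B x n) (Nat.cast_nonneg _)
          _ = _ := one_mul _)
      (hpow _) (by
        have e1 : (B.d n ^ (θ + e)) ^ 2 = B.d n ^ (2 * θ + 2 * e) := by
          rw [pow_rp]; congr 1; push_cast; ring
        rw [e1]; linarith) (by linarith) t2 (hpow _).le (hpow _).le (hpow _) (hpow _)
      hpcn hdcn hcun hdun hccn (hpow _) t3 (hpow _).le (by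
        intro k F hF hne h1 h2
        refine (hfbn k F hF hne h1 (fun i hi i' hi' hne' => ?_)).trans ?_
        · exact (rpow_anti B n (by linarith)).trans (h2 i hi i' hi' hne')
        · have := P.fib
          exact rpow_anti B n (by linarith))
      (hn1 _ hLbig) (hn2 _ hLbig) (by linarith) (by linarith) (by
        have e1 : 4 * B.d n ^ (-(2 * θ)) * (3 * B.d n ^ (x - e)) =
            12 * B.d n ^ (x - e - 2 * θ) := by
          have : B.d n ^ (x - e - 2 * θ) = B.d n ^ (-(2 * θ)) * B.d n ^ (x - e) := by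
            rw [← rpow_add']; congr 1; ring
          rw [this]; ring
        rw [e1]; linarith)
      (hhn 1).1 (hhn _).2
    exact absurd hcon (not_lt.2 (hnum _ hNh2))
  exact hbig.exists.elim fun _ h => h

end Crest.Agent.R136.Wk323
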