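import Crest.Agent.R136.C1sA_940
import Crest.Agent.R136.Wk15_323_Mg
import Crest.Agent.R136.Fe1_355
import Crest.Agent.R136.C1sD_940
import Crest.Agent.R136.Aw0_413
import Crest.Agent.R136.Ab1_356
import Crest.Agent.R136.Ev13_356
import Crest.Agent.R136.Wq0_400
import Crest.Agent.R136.C1c_865
import Crest.Agent.R136.C1sX_940
import Crest.Agent.R136.Tb5_628
import Crest.Agent.R136.TopB_550

-- ▼ part R136/C1sC_940
section

/-!
# R136, case C1* (mirrored lightlike), part C (helper940)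

`mir_false` : a window with the geometry `MirGeo`, the profile `MirProf` and a raw twist of the flag
`F_a` does not exist.
-/

set_option autoImplicit false
set_option linter.unusedVariables false
set_option linter.unusedSectionVars false

open Filter Topology Finset

namespace Crest.Agent.R136.C1s940

open Crest.Agent.R136.Sh605
open Crest.Agent.R138.Ex926 (Base U)
open Crest.Agent.R136.Gf356
open Crest.Agent.R136.CD366
open Crest.Agent.R136.Fe1355 (RawTw shift_R)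
open Crest.Agent.R136.Wk323 (vec fAll fPos fDir qv coA MirPr MirWin mirWin)

variable {B : Base} {G : ℕ → RCfg (Fin 11)} {Leg : Set (Fin 11 → ℝ)} {ν : (Fin 11 → ℝ) → ℝ}
  {D R R0 x a m : ℝ} {T : ℕ → ℕ → Ln4} {e : ℕ → ℕ → ℝ} {f : ℕ → ℕ → ℝ}

/-- motion of the coordinates -/
theorem coM_move (T T' : Ln4) (e e' f f' z z' : ℝ) :
    coM T T' e e' f' z' 2 = coM T T' e e' f z 2 ∧
    coM T T' e e' f' z' 5 = coM T T' e e' f z 5 ∧
    coM T T' e e' f' z' 6 = coM T T' e e' f z 6 ∧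
    coM T T' e e' f' z' 7 = coM T T' e e' f z 7 - (f' - f) * coM T T' e e' f z 5 ∧
    coM T T' e e' f' z' 9 = coM T T' e e' f z 9 + (z' - z) * coM T T' e e' f z 6 ∧
    coM T T' e e' f' z' 10 = coM T T' e e' f z 10 + (z' - z) * coM T T' e e' f z 7 -
      (f' - f) * (coM T T' e e' f z 8 + (z' - z) * coM T T' e e' f z 5) := by
  simp only [coM, Matrix.cons_val, Ln4.pos]
  refine ⟨trivial, trivial, trivial, ?_, ?_, ?_⟩ <;> ring

theorem abs_mul2 {u v c d : ℝ} (hu : |u| ≤ c) (hv : |v| ≤ d) : |u * v| ≤ c * d := by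
  rw [abs_mul]
  exact mul_le_mul hu hv (abs_nonneg _) ((abs_nonneg _).trans hu)

theorem fb_eq (y n p x c : ℝ) : fb y n p x c = ![0, 0, y, 0, 0, c, y, p, x, y, n] := by
  funext s
  fin_cases s <;> simp [fb, bx]

/-- **evolution in the fibre** -/
theorem MirGeo.ev (hbase : ∀ n, (G n).ρ = B.d n) (hsub : ∀ n, (G n).I ⊆ (G n).L ×ˢ (G n).Z)
    (A : MirGeo B G x T e f) {y : ℝ} (hyx : y ≤ x) {ε : ℝ} (hε : 0 < ε) :
    ∀ᶠ n in (U : Filter ℕ), ∀ k₀ k i i',
    (i, k₀) ∈ (G n).I → (i', k₀) ∈ (G n).I → (i, k) ∈ (G n).I → (i', k) ∈ (G n).I →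
    (G n).loose (fb y 0 0 0 0) ε k₀ i i' →
    (G n).loose (fb y 0 0 0 0) (2 * ε) k i i' ∧
    |(G n).rel k i i' 10 - ((G n).rel k₀ i i' 10 + ((G n).z k - (G n).z k₀) * (G n).rel k₀ i i' 7
      - (f n k - f n k₀) * ((G n).rel k₀ i i' 8 +
        ((G n).z k - (G n).z k₀) * (G n).rel k₀ i i' 5))| ≤ B.d n ^ (y - 2 * ε) := by
  filter_upwards [A.bd, A.bdr, A.rel ε hε, ev_const_le B hε 16] with n hbd hbdr hrel h16
    k₀ k i i' h1 h2 h3 h4 hlo
  have hpow : ∀ t : ℝ, 0 < B.d n ^ t := fun t => rpos B n t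
  set δ := B.d n ^ (y - ε) with hδ
  have hδ0 : 0 < δ := hpow _
  have hxy : B.d n ^ (x - ε) ≤ δ := rpow_anti B n (by linarith)
  have hz : |(G n).z k - (G n).z k₀| ≤ 2 := by
    refine (abs_sub _ _).trans ?_
    have := (hbd i k h3).1; have := (hbd i k₀ h1).1; linarith
  have hf : |f n k - f n k₀| ≤ 2 := by
    refine (abs_sub _ _).trans ?_
    have := (hbd i k h3).2.2.2.2; have := (hbd i k₀ h1).2.2.2.2; linarith
  obtain ⟨m2, m5, m6, m7, m9, m10⟩ := coM_move (T n i) (T n i') (e n i) (e n i') (f n k₀)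
    (f n k) ((G n).z k₀) ((G n).z k)
  set c : Fin 11 → ℝ := coM (T n i) (T n i') (e n i) (e n i') (f n k₀) ((G n).z k₀) with hc
  set c' : Fin 11 → ℝ := coM (T n i) (T n i') (e n i) (e n i') (f n k) ((G n).z k) with hc'
  have r : ∀ s ∈ sMir, |(G n).rel k₀ i i' s - c s| ≤ δ := fun s hs =>
    (hrel k₀ i i' h1 h2 s hs).trans hxy
  have r' : ∀ s ∈ sMir, |(G n).rel k i i' s - c' s| ≤ δ := fun s hs =>
    (hrel k i i' h3 h4 s hs).trans hxy
  have q2 := r 2 (by decide)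
  have q5 := r 5 (by decide)
  have q6 := r 6 (by decide)
  have q7 := r 7 (by decide)
  have q8 := r 8 (by decide)
  have q9 := r 9 (by decide)
  have q10 := r 10 (by decide)
  have q2' := r' 2 (by decide)
  have q6' := r' 6 (by decide)
  have q9' := r' 9 (by decide)
  have q10' := r' 10 (by decide)
  have l2 := hlo 2
  have l6 := hlo 6
  have l9 := hlo 9
  rw [hbase n, fb_eq] at l2 l6 l9
  simp only [Matrix.cons_val] at l2 l6 l9
  rw [← hδ] at l2 l6 l9
  -- small slots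
  have b6 : |((G n).z k - (G n).z k₀) * c 6| ≤ 2 * (2 * δ) := by
    refine abs_mul2 hz ?_
    rw [abs_le] at q6 l6 ⊢
    constructor <;> linarith [q6.1, q6.2, l6.1, l6.2]
  have hb : ∀ s, |(G n).rel k i i' s| ≤ B.d n ^ ((0 : ℝ) - 2 * ε) := by
    intro s
    refine (hbdr k i i' h3 h4 s).trans ?_
    exact Real.one_le_rpow_of_pos_of_le_one_of_nonpos (B.pos n) (B.lt n).le (by linarith)
  constructor
  · intro s
    rw [hbase n, fb_eq]
    have a2 : |(G n).rel k i i' 2| ≤ 16 * B.d n ^ (y - ε) := by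
      rw [← hδ]
      rw [m2] at q2'
      rw [abs_le] at q2 q2' l2 ⊢
      constructor <;> linarith [q2.1, q2.2, q2'.1, q2'.2, l2.1, l2.2]
    have a6 : |(G n).rel k i i' 6| ≤ 16 * B.d n ^ (y - ε) := by
      rw [← hδ]
      rw [m6] at q6'
      rw [abs_le] at q6 q6' l6 ⊢
      constructor <;> linarith [q6.1, q6.2, q6'.1, q6'.2, l6.1, l6.2]
    have a9 : |(G n).rel k i i' 9| ≤ 16 * B.d n ^ (y - ε) := by
      rw [← hδ]
      rw [m9] at q9'
      rw [abs_le] at q9 q9' l9 b6 ⊢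
      constructor <;> linarith [q9.1, q9.2, q9'.1, q9'.2, l9.1, l9.2, b6.1, b6.2]
    fin_cases s
    · exact hb 0
    · exact hb 1
    · exact ab2 B n h16 a2
    · exact hb 3
    · exact hb 4
    · exact hb 5
    · exact ab2 B n h16 a6
    · exact hb 7
    · exact hb 8
    · exact ab2 B n h16 a9
    · exact hb 10
  · refine ab2 B n h16 ?_
    rw [← hδ]
    have d7 : |((G n).z k - (G n).z k₀) * ((G n).rel k₀ i i' 7 - c 7)| ≤ 2 * δ := abs_mul2 hz q7
    have d5 : |((G n).z k - (G n).z k₀) * ((G n).rel k₀ i i' 5 - c 5)| ≤ 2 * δ := abs_mul2 hz q5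
    have d8 : |(f n k - f n k₀) * (((G n).rel k₀ i i' 8 - c 8) +
        ((G n).z k - (G n).z k₀) * ((G n).rel k₀ i i' 5 - c 5))| ≤ 2 * (3 * δ) := by
      refine abs_mul2 hf ((abs_add_le _ _).trans ?_)
      linarith
    have e1 : (G n).rel k i i' 10 - ((G n).rel k₀ i i' 10 + ((G n).z k - (G n).z k₀) *
        (G n).rel k₀ i i' 7 - (f n k - f n k₀) * ((G n).rel k₀ i i' 8 +
        ((G n).z k - (G n).z k₀) * (G n).rel k₀ i i' 5)) =
        ((G n).rel k i i' 10 - c' 10) - ((G n).rel k₀ i i' 10 - c 10) -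
        ((G n).z k - (G n).z k₀) * ((G n).rel k₀ i i' 7 - c 7) +
        (f n k - f n k₀) * (((G n).rel k₀ i i' 8 - c 8) +
          ((G n).z k - (G n).z k₀) * ((G n).rel k₀ i i' 5 - c 5)) := by
      rw [m10]; ring
    rw [e1]
    rw [abs_le] at q10 q10' d7 d8 ⊢
    constructor <;> linarith [q10.1, q10.2, q10'.1, q10'.2, d7.1, d7.2, d8.1, d8.2]

/-- **rate of `P`** from the twist of `F_a` -/
theorem MirProf.prate (H : RModel B G 1 R Leg ν D) (A : MirGeo B G x T e f)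
    (P : MirProf Leg ν R0 a m) (hx : R0 ≤ x)
    (tw : RawTw B G fun n k k' => f n k - f n k') {y : ℝ} (hy : 0 ≤ y) (hyR : y ≤ R0) :
    m * y ≤ ν 0 - ν (vec {7} y) := by
  have h0 : (0 : Fin 11 → ℝ) ∈ Leg := by
    have := P.c 0 le_rfl P.R0_pos.le
    rwa [vec_zero] at this
  refine (P.concp y hy hyR).trans ?_
  refine shift_R H (vec {7} y) (vec {5, 7} y) 0 (vec {7} y) (P.p y hy hyR) (P.cp y hy hyR) h0
    (P.p y hy hyR) (fun s => by unfold vec; split_ifs <;> simp [hy]) 5 7 (y := y)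
    (by simp [vec]) ?_ (by simp [vec]) (fun n k k' => f n k - f n k') tw ?_
  · intro j hj
    unfold vec
    simp only [mem_insert, mem_singleton]
    split_ifs with h1 h2
    · exact le_rfl
    · rcases h1 with h1 | h1
      · exact absurd h1 hj
      · exact absurd h1 h2
    · exact hy
    · exact le_rfl
  · intro C0 hC0
    refine ⟨C0 + 2, by positivity, fun ε hε => ?_⟩
    filter_upwards [A.bd, A.bdr, A.rel ε hε, ev_const_le B hε 16] with n hbd hbdr hrel h16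
      k hk k' hk' i i' h1 h2 h3 h4 hlo
    have hpow : ∀ t : ℝ, 0 < B.d n ^ t := fun t => rpos B n t
    constructor
    · intro s
      rw [H.base n]
      refine (hbdr k' i i' h2 h4 s).trans ?_
      refine Real.one_le_rpow_of_pos_of_le_one_of_nonpos (B.pos n) (B.lt n).le ?_
      simp only [Pi.zero_apply]
      have : 0 ≤ (C0 + 2) * ε := by positivity
      linarith
    · have hf : |f n k' - f n k| ≤ 2 := by
        refine (abs_sub _ _).trans ?_
        have := (hbd i k h1).2.2.2.2; have := (hbd i k' h2).2.2.2.2; linarith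
      obtain ⟨m2, m5, m6, m7, m9, m10⟩ := coM_move (T n i) (T n i') (e n i) (e n i') (f n k)
        (f n k') ((G n).z k) ((G n).z k')
      set c : Fin 11 → ℝ := coM (T n i) (T n i') (e n i) (e n i') (f n k) ((G n).z k) with hc
      set c' : Fin 11 → ℝ := coM (T n i) (T n i') (e n i) (e n i') (f n k') ((G n).z k') with hc'
      set δ := B.d n ^ (y - (C0 + 1) * ε) with hδ
      have hδ0 : 0 < δ := hpow _
      have hC0ε : 0 < C0 * ε := by positivity
      have hxy : B.d n ^ (x - ε) ≤ δ := rpow_anti B n (by nlinarith)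
      have q5 := (hrel k i i' h1 h3 5 (by decide)).trans hxy
      have q7 := (hrel k i i' h1 h3 7 (by decide)).trans hxy
      have q7' := (hrel k' i i' h2 h4 7 (by decide)).trans hxy
      rw [← hc] at q5 q7
      rw [← hc', m7] at q7'
      have l7 := hlo 7
      rw [H.base n] at l7
      have l7' : |(G n).rel k i i' 7| ≤ δ := by
        refine l7.trans (rpow_anti B n ?_)
        simp only [vec, mem_singleton, if_true]
        nlinarith
      have d5 : |(f n k' - f n k) * ((G n).rel k i i' 5 - c 5)| ≤ 2 * δ := abs_mul2 hf q5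
      have e1 : (G n).rel k' i i' 7 - (f n k - f n k') * (G n).rel k i i' 5 =
          ((G n).rel k' i i' 7 - (c 7 - (f n k' - f n k) * c 5)) -
          ((G n).rel k i i' 7 - c 7) + (G n).rel k i i' 7 +
          (f n k' - f n k) * ((G n).rel k i i' 5 - c 5) := by ring
      have e2 : |(G n).rel k' i i' 7 - (f n k - f n k') * (G n).rel k i i' 5| ≤ 16 * δ := by
        rw [e1]
        rw [abs_le] at q7 q7' l7' d5 ⊢
        constructor <;> linarith [q7.1, q7.2, q7'.1, q7'.2, l7'.1, l7'.2, d5.1, d5.2]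
      refine e2.trans ?_
      have e3 : B.d n ^ (y - (C0 + 2) * ε) = B.d n ^ (-ε) * δ := by
        rw [hδ, ← rpow_add']; congr 1; ring
      rw [e3]
      exact mul_le_mul_of_nonneg_right h16 hδ0.le

/-- **C1*, F-lemma**: the offset window of a mirrored lightlike profile does not exist -/
theorem mir_false (hW : MirWin) (H : RModel B G 1 R Leg ν D) (A : MirGeo B G x T e f)
    (P : MirProf Leg ν R0 a m) (hx : R0 ≤ x) (hR : R0 ≤ R)
    (tw : RawTw B G fun n k k' => f n k - f n k') : False := by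
  have hc : 0 < min m (1 - a) := lt_min P.m0 (by linarith [P.a1])
  have hcm : min m (1 - a) ≤ m := min_le_left _ _
  have hca : min m (1 - a) ≤ 1 - a := min_le_right _ _
  have hZ : ∀ᶠ n in (U : Filter ℕ), ∀ k ∈ (G n).Z, ∃ l, (l, k) ∈ (G n).I := by
    filter_upwards [H.slice 1 one_pos] with n h k hk
    obtain ⟨⟨i1, k1⟩, hI1⟩ := H.nonempty n
    have hL0 : (0 : ℝ) < (G n).L.card := by
      exact_mod_cast card_pos.2 ⟨i1, H.memL hI1⟩
    have h1 := h k hk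
    have h2 := rpos B n 1
    have h3 : (0 : ℝ) < ((G n).slice k).card := lt_of_lt_of_le (by positivity) h1
    obtain ⟨l, hl⟩ := card_pos.1 (show 0 < ((G n).slice k).card by exact_mod_cast h3)
    exact ⟨l, H.memSlice.1 hl⟩
  have K : K3w B G Leg ν {2, 6, 9} 10 7 8 5 f R0 2 a (min m (1 - a)) := by
    refine ⟨P.R0_pos, by norm_num, hc, by decide, by decide, by decide, by decide, by decide,
      by decide, ?_, ?_, ?_, ?_, ?_, ?_⟩
    · intro y n p x c h1 h2 h3 h4 h5 h6 h7 h8 h9 h10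
      exact P.leg y n p x c h1 h2 h3 h4 h5 h6 h7 h8 h9 h10
    · filter_upwards [A.bd, hZ] with n h1 h2 k hk
      obtain ⟨l, hl⟩ := h2 k hk
      exact ⟨(h1 l k hl).1, (h1 l k hl).2.2.2.2⟩
    · intro y hy hyR ε hε
      exact A.ev H.base H.sub (hyR.trans hx) hε
    · exact fun y hy hyR => P.hN y hy hyR
    · intro y t ht hty hyR
      have h1 := P.np y t ht hty hyR
      have h2 := P.prate H A hx tw ht (hty.trans hyR)
      have h3 : min m (1 - a) * t ≤ m * t := mul_le_mul_of_nonneg_right hcm ht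
      refine le_trans ?_ h1
      linarith
    · intro t ht htR
      refine le_trans ?_ (P.px t ht htR)
      have : min m (1 - a) * t ≤ (1 - a) * t := mul_le_mul_of_nonneg_right hca ht
      linarith
  have h1 := K3core_w H K hR (fun _ => no_slope_mir hW H A P hx hR)
  linarith [P.a1]

end Crest.Agent.R136.C1s940
end

-- ▼ part R136/C1sE_940
section

/-!
# R136, case C1* (mirrored lightlike), part E (helper940): the profile of the window

Plane with slack `F_b` (helper865), level slots `{z, F_a}`.  `mirProf_of` : splitting into the groups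
of slopes, additivity and homogeneity (146), `X_a`, `X_b` full, `C_a` spread, rate `r < 3` of the
group `{X_b, N}` give `MirProf` with `a = (r - 1) / 2`.
-/

set_option autoImplicit false
set_option linter.unusedVariables false
set_option linter.unusedSectionVars false

open Filter Topology Finset

namespace Crest.Agent.R136.C1s940

open Crest.Agent.R136.Net191 Crest.Agent.R136.Gf356
open Crest.Agent.R136.Qg926 Crest.Agent.R136.Dg219 Crest.Agent.R136.Aw413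
open Crest.Agent.R136.CD366 (bx)
open Crest.Agent.R136.Wk323 (vec)

/-- slopes of the plane of C1* -/
structure PlaneM (a b : Fin 11 → ℝ) : Prop where
  a0 : a 0 = 1
  b0 : b 0 = 0
  a1 : a 1 = 0
  a2 : a 2 = 0
  a3 : 0 ≤ a 3
  a4 : a 4 = 1
  b4 : b 4 = 0
  a5 : a 5 = 0
  a6 : a 6 = 0
  a7 : a 7 = 1
  b7 : b 7 = 1
  a8 : a 8 = 1
  b8 : b 8 = 1
  a9 : a 9 = 1
  b9 : b 9 = 1 / 2
  a10 : a 10 = 2
  b10 : b 10 = 1
  par : a 3 = 0 ∨ (b 3 / a 3 ≠ 0 ∧ b 3 / a 3 ≠ 1 ∧ b 3 / a 3 ≠ 1 / 2)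

/-- the walls of the plane -/
def ConeM (c : Fin 11 → ℝ) : Prop :=
  c 6 ≤ c 2 + c 5 ∧ c 7 ≤ c 4 + c 5 ∧ c 8 ≤ c 0 + c 5 ∧ c 9 ≤ c 0 + c 6 ∧ c 9 ≤ c 2 + c 8 ∧
    c 10 ≤ c 0 + c 7 ∧ c 10 ≤ c 4 + c 8

/-- resolution of the window -/
def topM : Fin 11 → ℝ := ![1, 0, 1, 0, 1, 1, 1, 1, 1, 1, 1]

/-- level slots of the window -/
def sM : Finset (Fin 11) := {0, 4}

theorem cut_sM (p q : Fin 11 → ℝ) :
    cut sM p q = ![q 0, p 1, p 2, p 3, q 4, p 5, p 6, p 7, p 8, p 9, p 10] := by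
  funext s
  fin_cases s <;> simp [cut, sM]

theorem cut_topM (p : Fin 11 → ℝ) :
    cut sM p topM = ![1, p 1, p 2, p 3, 1, p 5, p 6, p 7, p 8, p 9, p 10] := by
  rw [cut_sM]; simp [topM]

section groups

variable {a b : Fin 11 → ℝ}

theorem PlaneM.grpA (hP : PlaneM a b) (i : Fin 11) : gC a b i = gC a b 0 ↔ i = 0 ∨ i = 4 := by
  have h0 : a 0 ≠ 0 := by rw [hP.a0]; norm_num
  have key : ∀ i, a i = 0 → gC a b i ≠ gC a b 0 := fun i hi h => by
    rw [gC_zero.2 hi] at h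
    exact h0 (gC_zero.1 h.symm)
  have key2 : ∀ i, a i ≠ 0 → b i / a i ≠ 0 → gC a b i ≠ gC a b 0 := fun i hi hb h => by
    rw [gC_eq hi h0, hP.b0, zero_div] at h
    exact hb h
  have n7 : a 7 ≠ 0 := by rw [hP.a7]; norm_num
  have n8 : a 8 ≠ 0 := by rw [hP.a8]; norm_num
  have n9 : a 9 ≠ 0 := by rw [hP.a9]; norm_num
  have n10 : a 10 ≠ 0 := by rw [hP.a10]; norm_num
  have n4 : a 4 ≠ 0 := by rw [hP.a4]; norm_num
  have h3 : gC a b 3 ≠ gC a b 0 := by
    rcases hP.par with h | h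
    · exact key 3 h
    · by_cases h3 : a 3 = 0
      · exact key 3 h3
      · exact key2 3 h3 h.1
  have h4 : gC a b 4 = gC a b 0 := by rw [gC_eq n4 h0, hP.b4, hP.b0]; simp
  fin_cases i
  · simp
  · simpa using key 1 hP.a1
  · simpa using key 2 hP.a2
  · simpa using h3
  · simpa using h4
  · simpa using key 5 hP.a5
  · simpa using key 6 hP.a6
  · simpa using key2 7 n7 (by rw [hP.a7, hP.b7]; norm_num)
  · simpa using key2 8 n8 (by rw [hP.a8, hP.b8]; norm_num)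
  · simpa using key2 9 n9 (by rw [hP.a9, hP.b9]; norm_num)
  · simpa using key2 10 n10 (by rw [hP.a10, hP.b10]; norm_num)

theorem PlaneM.grpB (hP : PlaneM a b) (i : Fin 11) : gC a b i = gC a b 7 ↔ i = 7 ∨ i = 8 := by
  have h0 : a 7 ≠ 0 := by rw [hP.a7]; norm_num
  have key : ∀ i, a i = 0 → gC a b i ≠ gC a b 7 := fun i hi h => by
    rw [gC_zero.2 hi] at h
    exact h0 (gC_zero.1 h.symm)
  have key2 : ∀ i, a i ≠ 0 → b i / a i ≠ 1 → gC a b i ≠ gC a b 7 := fun i hi hb h => by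
    rw [gC_eq hi h0, hP.b7, hP.a7, div_one] at h
    exact hb h
  have n0 : a 0 ≠ 0 := by rw [hP.a0]; norm_num
  have n8 : a 8 ≠ 0 := by rw [hP.a8]; norm_num
  have n9 : a 9 ≠ 0 := by rw [hP.a9]; norm_num
  have n10 : a 10 ≠ 0 := by rw [hP.a10]; norm_num
  have n4 : a 4 ≠ 0 := by rw [hP.a4]; norm_num
  have h3 : gC a b 3 ≠ gC a b 7 := by
    rcases hP.par with h | h
    · exact key 3 h
    · by_cases h3 : a 3 = 0
      · exact key 3 h3
      · exact key2 3 h3 h.2.1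
  have h8 : gC a b 8 = gC a b 7 := by rw [gC_eq n8 h0, hP.b8, hP.b7, hP.a8, hP.a7]
  fin_cases i
  · simpa using key2 0 n0 (by rw [hP.a0, hP.b0]; norm_num)
  · simpa using key 1 hP.a1
  · simpa using key 2 hP.a2
  · simpa using h3
  · simpa using key2 4 n4 (by rw [hP.a4, hP.b4]; norm_num)
  · simpa using key 5 hP.a5
  · simpa using key 6 hP.a6
  · simp
  · simpa using h8
  · simpa using key2 9 n9 (by rw [hP.a9, hP.b9]; norm_num)
  · simpa using key2 10 n10 (by rw [hP.a10, hP.b10]; norm_num)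

theorem PlaneM.grpC (hP : PlaneM a b) (i : Fin 11) : gC a b i = gC a b 9 ↔ i = 9 ∨ i = 10 := by
  have h0 : a 9 ≠ 0 := by rw [hP.a9]; norm_num
  have key : ∀ i, a i = 0 → gC a b i ≠ gC a b 9 := fun i hi h => by
    rw [gC_zero.2 hi] at h
    exact h0 (gC_zero.1 h.symm)
  have key2 : ∀ i, a i ≠ 0 → b i / a i ≠ 1 / 2 → gC a b i ≠ gC a b 9 := fun i hi hb h => by
    rw [gC_eq hi h0, hP.b9, hP.a9, div_one] at h
    exact hb h
  have n0 : a 0 ≠ 0 := by rw [hP.a0]; norm_num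
  have n7 : a 7 ≠ 0 := by rw [hP.a7]; norm_num
  have n8 : a 8 ≠ 0 := by rw [hP.a8]; norm_num
  have n10 : a 10 ≠ 0 := by rw [hP.a10]; norm_num
  have n4 : a 4 ≠ 0 := by rw [hP.a4]; norm_num
  have h3 : gC a b 3 ≠ gC a b 9 := by
    rcases hP.par with h | h
    · exact key 3 h
    · by_cases h3 : a 3 = 0
      · exact key 3 h3
      · exact key2 3 h3 h.2.2
  have h10 : gC a b 10 = gC a b 9 := by
    rw [gC_eq n10 h0, hP.b9, hP.a9, hP.b10, hP.a10]; norm_num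
  fin_cases i
  · simpa using key2 0 n0 (by rw [hP.a0, hP.b0]; norm_num)
  · simpa using key 1 hP.a1
  · simpa using key 2 hP.a2
  · simpa using h3
  · simpa using key2 4 n4 (by rw [hP.a4, hP.b4]; norm_num)
  · simpa using key 5 hP.a5
  · simpa using key 6 hP.a6
  · simpa using key2 7 n7 (by rw [hP.a7, hP.b7]; norm_num)
  · simpa using key2 8 n8 (by rw [hP.a8, hP.b8]; norm_num)
  · simp
  · simpa using h10

end groups

section outS

variable {ι κ : Type*} [Fintype ι] [DecidableEq ι] [DecidableEq κ] {grp : ι → κ}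
  {L : Set (ι → ℝ)} {dh : ι → ℝ} {nn : κ → ℝ × ℝ} {lam : (ι → ℝ) → ℝ} {A : ℝ × ℝ}
  {φ : κ → (ι → ℝ) → ℝ} {r : κ → ℝ}

/-- losses in different groups are decoupled -/
theorem outS_diff (ho : OutS grp L dh nn lam A φ r) {c c' d d' : ι → ℝ} (hc : c ∈ L)
    (hc' : c' ∈ L) (hd : d ∈ L) (hd' : d' ∈ L)
    (h : ∀ k, ((∀ i, grp i = k → c i = c' i) ∧ ∀ i, grp i = k → d i = d' i) ∨
      ((∀ i, grp i = k → c i = d i) ∧ ∀ i, grp i = k → c' i = d' i)) :
    lam c - lam c' = lam d - lam d' := by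
  rw [ho.sum c hc, ho.sum c' hc', ho.sum d hd, ho.sum d' hd', ← sum_sub_distrib,
    ← sum_sub_distrib]
  refine sum_congr rfl fun k _ => ?_
  rcases h k with ⟨h1, h2⟩ | ⟨h1, h2⟩
  · rw [ho.loc k c c' h1, ho.loc k d d' h2, sub_self, sub_self]
  · rw [ho.loc k c d h1, ho.loc k c' d' h2]

/-- loss inside one group -/
theorem outS_one (ho : OutS grp L dh nn lam A φ r) {c c' : ι → ℝ} (hc : c ∈ L) (hc' : c' ∈ L)
    {i₀ : ι} (h : ∀ i, grp i ≠ grp i₀ → c i = c' i) :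
    lam c - lam c' = φ (grp i₀) c - φ (grp i₀) c' := by
  rw [ho.sum c hc, ho.sum c' hc', ← sum_sub_distrib]
  refine sum_eq_single_of_mem (grp i₀) (mem_gset i₀) fun k _ hk => ?_
  rw [ho.loc k c c' fun i hi => h i (by rw [hi]; exact hk), sub_self]

end outS

section prof

variable {Ma : Mons 11} {lam : (Fin 11 → ℝ) → ℝ} {a b : Fin 11 → ℝ} {A : ℝ × ℝ}
  {φ : ℕ → (Fin 11 → ℝ) → ℝ} {r : ℕ → ℝ} {m : ℝ}

/-- the legal boxes of the window -/
def legV (Ma : Mons 11) : Set (Fin 11 → ℝ) :=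
  {p | cut sM p topM ∈ Leg Ma 1 ∧ ∀ s, s ∉ sM → p s ≤ topM s}

/-- the profile of the window -/
def nuV (lam : (Fin 11 → ℝ) → ℝ) (p : Fin 11 → ℝ) : ℝ := lam (cut sM p topM) - lam topM

theorem mem_leg (hcone : ∀ c, c ∈ coneM Ma ↔ ConeM c) {c : Fin 11 → ℝ} {R : ℝ} :
    c ∈ Leg Ma R ↔ (∀ s, 0 ≤ c s) ∧ (∀ s, c s ≤ R) ∧ ConeM c := by
  constructor
  · intro h
    exact ⟨h.1.nonneg, h.2, (hcone c).1 fun k e he => h.1.wall k e he⟩
  · rintro ⟨h1, h2, h3⟩
    exact ⟨⟨h1, fun k e he => (hcone c).2 h3 k e he⟩, h2⟩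

theorem mem_legV (hcone : ∀ c, c ∈ coneM Ma ↔ ConeM c) {p : Fin 11 → ℝ} (h1 : p 1 = 0)
    (h3 : p 3 = 0) (h0 : ∀ s, 0 ≤ p s) (hle : ∀ s, p s ≤ 1) (w6 : p 6 ≤ p 2 + p 5)
    (w9 : p 9 ≤ p 2 + p 8) : p ∈ legV Ma := by
  refine ⟨?_, ?_⟩
  · rw [mem_leg hcone, cut_topM]
    refine ⟨fun s => ?_, fun s => ?_, ?_⟩
    · fin_cases s <;> simp [h0]
    · fin_cases s <;> simp [hle]
    · simp only [ConeM, Matrix.cons_val]
      have := h0 5
      have := h0 6
      have := h0 7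
      have := h0 8
      have := hle 7
      have := hle 8
      have := hle 9
      have := hle 10
      refine ⟨w6, ?_, ?_, ?_, w9, ?_, ?_⟩ <;> linarith
  · intro s hs
    fin_cases s
    · exact absurd (by decide) hs
    · simp [topM, h1]
    · simpa [topM] using hle 2
    · simp [topM, h3]
    · exact absurd (by decide) hs
    · simpa [topM] using hle 5
    · simpa [topM] using hle 6
    · simpa [topM] using hle 7
    · simpa [topM] using hle 8
    · simpa [topM] using hle 9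
    · simpa [topM] using hle 10

theorem legV_cone {p : Fin 11 → ℝ} (h : p ∈ legV Ma) : cut sM p topM ∈ coneM Ma :=
  fun k e he => h.1.1.wall k e he

/-- additivity and homogeneity of the group functions (146's `OutA`, zoomed) -/
structure AddHom (L : Set (Fin 11 → ℝ)) (a b : Fin 11 → ℝ) (φ : ℕ → (Fin 11 → ℝ) → ℝ) :
    Prop where
  add : ∀ k, (∀ i, gC a b i = k → 0 < dhC a b i) → ∀ w : ℝ × ℝ, ∀ c ∈ L,
    φ k (Tn a b w + c) = φ k (Tn a b w) + φ k c
  hom : ∀ k, (∀ i, gC a b i = k → 0 < dhC a b i) → ∀ c ∈ L, ∀ t : ℝ, 0 ≤ t →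
    φ k (t • c) = t * φ k c

/-- the group function of `{X_b, N}` -/
theorem phiC (hP : PlaneM a b) (ho : OutS (gC a b) (coneM Ma) (dhC a b) (nC a b) lam A φ r)
    (hah : AddHom (coneM Ma) a b φ) (hcone : ∀ c, c ∈ coneM Ma ↔ ConeM c)
    (hXB : φ (gC a b 9) (![0, 0, 0, 0, 0, 0, 0, 0, 0, 1, 0]) ≤ -1)
    {x n : ℝ} (hn : 0 ≤ n) (hnx : n ≤ 2 * x) {c : Fin 11 → ℝ} (h9 : c 9 = x) (h10 : c 10 = n) :
    φ (gC a b 9) c = -(r (gC a b 9) * (n / 2) + (x - n / 2)) := by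
  set k := gC a b 9 with hk
  have hpos : ∀ i, gC a b i = k → 0 < dhC a b i := by
    intro i hi
    rcases (hP.grpC i).1 hi with rfl | rfl
    · rw [dhC, hP.a9]; norm_num
    · rw [dhC, hP.a10]; norm_num
  have hloc : ∀ c c' : Fin 11 → ℝ, c 9 = c' 9 → c 10 = c' 10 → φ k c = φ k c' := by
    intro c c' g1 g2
    refine ho.loc k c c' fun i hi => ?_
    rcases (hP.grpC i).1 hi with rfl | rfl
    · exact g1
    · exact g2
  have hd : 0 ≤ x - n / 2 := by linarith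
  -- `X_b` alone
  have h1 : ∀ y : ℝ, 0 ≤ y → φ k (![y, 0, 0, 0, 0, 0, y, 0, y, y, 0]) = -y := by
    intro y hy
    have m1 : (![1, 0, 0, 0, 0, 0, 1, 0, 1, 1, 0] : Fin 11 → ℝ) ∈ coneM Ma → True := fun _ => trivial
    have cy : ∀ y : ℝ, 0 ≤ y → (![y, 0, y, 0, y, y, y, y, y, y, 0] : Fin 11 → ℝ) ∈ coneM Ma := by
      intro y hy
      rw [hcone]
      simp only [ConeM, Matrix.cons_val]
      refine ⟨?_, ?_, ?_, ?_, ?_, ?_, ?_⟩ <;> linarith
    have e1 : φ k (![y, 0, 0, 0, 0, 0, y, 0, y, y, 0]) = φ k (![y, 0, y, 0, y, y, y, y, y, y, 0]) :=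
      hloc _ _ (by simp) (by simp)
    have e2 : (![y, 0, y, 0, y, y, y, y, y, y, 0] : Fin 11 → ℝ) =
        y • (![1, 0, 1, 0, 1, 1, 1, 1, 1, 1, 0] : Fin 11 → ℝ) := by
      funext s
      fin_cases s <;> simp
    have e3 := hah.hom k hpos _ (cy 1 zero_le_one) y hy
    have e4 : φ k (![1, 0, 1, 0, 1, 1, 1, 1, 1, 1, 0]) =
        φ k (![0, 0, 0, 0, 0, 0, 0, 0, 0, 1, 0]) := hloc _ _ (by simp) (by simp)
    have up : φ k (![y, 0, y, 0, y, y, y, y, y, y, 0]) ≤ -y := by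
      rw [e2, e3, e4]
      nlinarith
    have lo := (ho.mono k (![y, 0, y, 0, y, y, y, y, 0, 0, 0]) (by
        rw [hcone]
        simp only [ConeM, Matrix.cons_val]
        refine ⟨?_, ?_, ?_, ?_, ?_, ?_, ?_⟩ <;> linarith)
      (![y, 0, y, 0, y, y, y, y, y, y, 0]) (cy y hy) (by
        intro i hi
        rcases (hP.grpC i).1 hi with rfl | rfl
        · simpa using hy
        · simp)).2
    have e5 : φ k (![y, 0, y, 0, y, y, y, y, 0, 0, 0]) = 0 := by
      refine ho.zero k _ fun i hi => ?_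
      rcases (hP.grpC i).1 hi with rfl | rfl
      · simp
      · simp
    have e6 : ∑ i ∈ Finset.univ.filter (fun i => gC a b i = k),
        ((![y, 0, y, 0, y, y, y, y, y, y, 0] : Fin 11 → ℝ) i -
          (![y, 0, y, 0, y, y, y, y, 0, 0, 0] : Fin 11 → ℝ) i) = y := by
      have : Finset.univ.filter (fun i => gC a b i = k) = ({9, 10} : Finset (Fin 11)) := by
        ext i
        rw [Finset.mem_filter, hk, hP.grpC]
        simp
      rw [this, Finset.sum_insert (by decide), Finset.sum_singleton]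
      simp
    rw [e6, e5] at lo
    rw [e1]
    linarith
  -- shift
  have hTn : ∀ s, Tn a b (n / 2, 0) s = a s * (n / 2) := fun s => by
    simp only [Tn]; ring
  have m2 : (![x + n, 0, x + n, 0, x + n, x + n, x + n, x + n, x + n, x - n / 2, 0] :
      Fin 11 → ℝ) ∈ coneM Ma := by
    rw [hcone]
    simp only [ConeM, Matrix.cons_val]
    refine ⟨?_, ?_, ?_, ?_, ?_, ?_, ?_⟩ <;> linarith
  have h2 := hah.add k hpos (n / 2, 0) _ m2
  have h3 : φ k (Tn a b (n / 2, 0)) = -(r k * (n / 2)) := by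
    have m3 : Tn a b (n / 2, 0) ∈ coneM Ma := by
      rw [hcone]
      simp only [ConeM, hTn, hP.a0, hP.a2, hP.a4, hP.a5, hP.a6, hP.a7, hP.a8, hP.a9, hP.a10]
      refine ⟨?_, ?_, ?_, ?_, ?_, ?_, ?_⟩ <;> linarith
    refine ho.rate k _ m3 (n / 2) fun i hi => ?_
    rw [hTn]
    rcases (hP.grpC i).1 hi with rfl | rfl
    · rw [dhC, hP.a9]; norm_num
    · rw [dhC, hP.a10]; norm_num; ring
  have h4 : φ k (Tn a b (n / 2, 0) + ![x + n, 0, x + n, 0, x + n, x + n, x + n, x + n, x + n,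
      x - n / 2, 0]) = φ k c := by
    refine hloc _ _ ?_ ?_
    · rw [Pi.add_apply, hTn, hP.a9, h9]
      simp
    · rw [Pi.add_apply, hTn, hP.a10, h10]
      simp only [Matrix.cons_val]
      ring
  have h5 : φ k (![x + n, 0, x + n, 0, x + n, x + n, x + n, x + n, x + n, x - n / 2, 0]) =
      -(x - n / 2) := by
    rw [← h1 _ hd]
    exact hloc _ _ (by simp) (by simp)
  rw [h4, h3, h5] at h2
  rw [h2]; ring

/-- losses of the direction slots -/
theorem loss0 (hP : PlaneM a b) (ho : OutS (gC a b) (coneM Ma) (dhC a b) (nC a b) lam A φ r)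
    {p q u v : Fin 11 → ℝ} (hp : p ∈ coneM Ma) (hq : q ∈ coneM Ma) (hu : u ∈ coneM Ma)
    (hv : v ∈ coneM Ma) (h1 : ∀ i, i ≠ 5 → i ≠ 6 → p i = q i ∧ u i = v i)
    (h2 : ∀ i ∈ ({1, 2, 3, 5, 6} : Finset (Fin 11)), p i = u i ∧ q i = v i) :
    lam p - lam q = lam u - lam v := by
  have h0 : ∀ i, a i = 0 → i ∈ ({1, 2, 3, 5, 6} : Finset (Fin 11)) := by
    intro i hi
    fin_cases i
    · exact absurd (hP.a0.symm.trans hi) (by norm_num)
    · decide
    · decide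
    · decide
    · exact absurd (hP.a4.symm.trans hi) (by norm_num)
    · decide
    · decide
    · exact absurd (hP.a7.symm.trans hi) (by norm_num)
    · exact absurd (hP.a8.symm.trans hi) (by norm_num)
    · exact absurd (hP.a9.symm.trans hi) (by norm_num)
    · exact absurd (hP.a10.symm.trans hi) (by norm_num)
  refine outS_diff ho hp hq hu hv fun k => ?_
  by_cases hk : k = 0
  · subst hk
    exact Or.inr ⟨fun i hi => (h2 i (h0 i (gC_zero.1 hi))).1,
      fun i hi => (h2 i (h0 i (gC_zero.1 hi))).2⟩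
  · refine Or.inl ⟨fun i hi => (h1 i ?_ ?_).1, fun i hi => (h1 i ?_ ?_).2⟩
    · rintro rfl
      exact hk (hi.symm.trans (gC_zero.2 hP.a5))
    · rintro rfl
      exact hk (hi.symm.trans (gC_zero.2 hP.a6))
    · rintro rfl
      exact hk (hi.symm.trans (gC_zero.2 hP.a5))
    · rintro rfl
      exact hk (hi.symm.trans (gC_zero.2 hP.a6))

/-- losses of `P, X_a` -/
theorem lossB (hP : PlaneM a b) (ho : OutS (gC a b) (coneM Ma) (dhC a b) (nC a b) lam A φ r)
    {p q u v : Fin 11 → ℝ} (hp : p ∈ coneM Ma) (hq : q ∈ coneM Ma) (hu : u ∈ coneM Ma)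
    (hv : v ∈ coneM Ma) (h1 : ∀ i, i ≠ 7 → i ≠ 8 → p i = q i ∧ u i = v i)
    (h7 : p 7 = u 7 ∧ q 7 = v 7) (h8 : p 8 = u 8 ∧ q 8 = v 8) :
    lam p - lam q = lam u - lam v := by
  refine outS_diff ho hp hq hu hv fun k => ?_
  by_cases hk : k = gC a b 7
  · subst hk
    refine Or.inr ⟨fun i hi => ?_, fun i hi => ?_⟩
    · rcases (hP.grpB i).1 hi with rfl | rfl
      · exact h7.1
      · exact h8.1
    · rcases (hP.grpB i).1 hi with rfl | rfl
      · exact h7.2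
      · exact h8.2
  · refine Or.inl ⟨fun i hi => (h1 i ?_ ?_).1, fun i hi => (h1 i ?_ ?_).2⟩
    · rintro rfl
      exact hk hi.symm
    · rintro rfl
      exact hk (hi.symm.trans ((hP.grpB 8).2 (Or.inr rfl)))
    · rintro rfl
      exact hk hi.symm
    · rintro rfl
      exact hk (hi.symm.trans ((hP.grpB 8).2 (Or.inr rfl)))

/-- losses of `X_b, N` -/
theorem lossC (hP : PlaneM a b) (ho : OutS (gC a b) (coneM Ma) (dhC a b) (nC a b) lam A φ r)
    (hah : AddHom (coneM Ma) a b φ) (hcone : ∀ c, c ∈ coneM Ma ↔ ConeM c)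
    (hXB : φ (gC a b 9) (![0, 0, 0, 0, 0, 0, 0, 0, 0, 1, 0]) ≤ -1)
    {c c' : Fin 11 → ℝ} (hc : c ∈ coneM Ma) (hc' : c' ∈ coneM Ma)
    (h : ∀ i, i ≠ 9 → i ≠ 10 → c i = c' i) (x n x' n' : ℝ) (hn : 0 ≤ n) (hnx : n ≤ 2 * x)
    (hn' : 0 ≤ n') (hnx' : n' ≤ 2 * x') (h9 : c 9 = x) (h10 : c 10 = n) (h9' : c' 9 = x')
    (h10' : c' 10 = n') :
    lam c - lam c' = (r (gC a b 9) * (n' / 2) + (x' - n' / 2)) -
      (r (gC a b 9) * (n / 2) + (x - n / 2)) := by
  rw [outS_one ho hc hc' (i₀ := 9) (fun i hi => h i (fun h => hi (by rw [h]))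
    fun h => hi ((hP.grpC i).2 (Or.inr h))), phiC hP ho hah hcone hXB hn hnx h9 h10,
    phiC hP ho hah hcone hXB hn' hnx' h9' h10']
  ring

/-- rate of `{X_b, N}` -/
theorem one_le_rC (hP : PlaneM a b) (ho : OutS (gC a b) (coneM Ma) (dhC a b) (nC a b) lam A φ r)
    (hah : AddHom (coneM Ma) a b φ) (hcone : ∀ c, c ∈ coneM Ma ↔ ConeM c)
    (hXB : φ (gC a b 9) (![0, 0, 0, 0, 0, 0, 0, 0, 0, 1, 0]) ≤ -1) : 1 ≤ r (gC a b 9) := by
  have m1 : (![1, 0, 1, 0, 1, 1, 1, 1, 1, 1, 0] : Fin 11 → ℝ) ∈ coneM Ma := by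
    rw [hcone]
    simp only [ConeM, Matrix.cons_val]
    norm_num
  have m2 : (![1, 0, 1, 0, 1, 1, 1, 1, 1, 1, 2] : Fin 11 → ℝ) ∈ coneM Ma := by
    rw [hcone]
    simp only [ConeM, Matrix.cons_val]
    norm_num
  have h1 := phiC hP ho hah hcone hXB (x := 1) (n := 0) le_rfl (by norm_num)
    (c := ![1, 0, 1, 0, 1, 1, 1, 1, 1, 1, 0]) (by simp) (by simp)
  have h2 := phiC hP ho hah hcone hXB (x := 1) (n := 2) (by norm_num) (by norm_num)
    (c := ![1, 0, 1, 0, 1, 1, 1, 1, 1, 1, 2]) (by simp) (by simp)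
  have h3 := (ho.mono (gC a b 9) _ m1 _ m2 (by
    intro i hi
    rcases (hP.grpC i).1 hi with rfl | rfl
    · simp
    · simp)).1
  rw [h1, h2] at h3
  linarith

/-- rate of `{P, X_a}` -/
theorem one_le_rB (hP : PlaneM a b) (ho : OutS (gC a b) (coneM Ma) (dhC a b) (nC a b) lam A φ r)
    (hcone : ∀ c, c ∈ coneM Ma ↔ ConeM c)
    (hXA : φ (gC a b 7) (![0, 0, 0, 0, 0, 0, 0, 0, 1, 0, 0]) ≤ -1) : 1 ≤ r (gC a b 7) := by
  have m1 : (![1, 0, 1, 0, 1, 1, 1, 0, 1, 0, 0] : Fin 11 → ℝ) ∈ coneM Ma := by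
    rw [hcone]
    simp only [ConeM, Matrix.cons_val]
    norm_num
  have m2 : (![1, 0, 1, 0, 1, 1, 1, 1, 1, 0, 0] : Fin 11 → ℝ) ∈ coneM Ma := by
    rw [hcone]
    simp only [ConeM, Matrix.cons_val]
    norm_num
  have h1 : φ (gC a b 7) (![1, 0, 1, 0, 1, 1, 1, 0, 1, 0, 0]) =
      φ (gC a b 7) (![0, 0, 0, 0, 0, 0, 0, 0, 1, 0, 0]) := by
    refine ho.loc _ _ _ fun i hi => ?_
    rcases (hP.grpB i).1 hi with rfl | rfl
    · simp
    · simp
  have h2 : φ (gC a b 7) (![1, 0, 1, 0, 1, 1, 1, 1, 1, 0, 0]) = -(r (gC a b 7) * 1) := by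
    refine ho.rate _ _ m2 1 fun i hi => ?_
    rcases (hP.grpB i).1 hi with rfl | rfl
    · rw [dhC, hP.a7]; norm_num; rfl
    · rw [dhC, hP.a8]; norm_num; rfl
  have h3 := (ho.mono (gC a b 7) _ m1 _ m2 (by
    intro i hi
    rcases (hP.grpB i).1 hi with rfl | rfl
    · simp
    · simp)).1
  rw [h1, h2] at h3
  linarith

/-- **profile of the window** -/
theorem mirProf_of (hP : PlaneM a b)
    (ho : OutS (gC a b) (coneM Ma) (dhC a b) (nC a b) lam A φ r)
    (hah : AddHom (coneM Ma) a b φ) (hcone : ∀ c, c ∈ coneM Ma ↔ ConeM c)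
    (hXB : φ (gC a b 9) (![0, 0, 0, 0, 0, 0, 0, 0, 0, 1, 0]) ≤ -1)
    (hXA : φ (gC a b 7) (![0, 0, 0, 0, 0, 0, 0, 0, 1, 0, 0]) ≤ -1) (hm : 0 < m)
    (hS1 : ∀ y : ℝ, 0 ≤ y → y ≤ 1 → m * y ≤ lam 0 - lam (![0, 0, 0, 0, 0, y, 0, 0, 0, 0, 0]))
    (hr : r (gC a b 9) < 3) :
    MirProf (legV Ma) (nuV lam) 1 ((r (gC a b 9) - 1) / 2) m := by
  have hleg : ∀ (A : Finset (Fin 11)) (y : ℝ), 0 ≤ y → y ≤ 1 → 1 ∉ A → 3 ∉ A →
      (6 ∈ A → 5 ∈ A) → (9 ∈ A → 8 ∈ A) → vec A y ∈ legV Ma := by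
    intro A y h0 h1 g1 g3 g6 g9
    have v0 : ∀ s, 0 ≤ vec A y s := fun s => by
      unfold vec
      split_ifs
      · exact h0
      · exact le_rfl
    refine mem_legV hcone ?_ ?_ v0 (fun s => ?_) ?_ ?_
    · simp [vec, g1]
    · simp [vec, g3]
    · unfold vec
      split_ifs
      · exact h1
      · norm_num
    · by_cases g : (6 : Fin 11) ∈ A
      · have e : vec A y 5 = y := by simp [vec, g6 g]
        have e2 : vec A y 6 = y := by simp [vec, g]
        rw [e, e2]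
        linarith [v0 2]
      · have e2 : vec A y 6 = 0 := by simp [vec, g]
        rw [e2]
        exact add_nonneg (v0 2) (v0 5)
    · by_cases g : (9 : Fin 11) ∈ A
      · have e : vec A y 8 = y := by simp [vec, g9 g]
        have e2 : vec A y 9 = y := by simp [vec, g]
        rw [e, e2]
        linarith [v0 2]
      · have e2 : vec A y 9 = 0 := by simp [vec, g]
        rw [e2]
        exact add_nonneg (v0 2) (v0 8)
  have h0leg : (0 : Fin 11 → ℝ) ∈ legV Ma := by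
    have := hleg ∅ 0 le_rfl zero_le_one (by simp) (by simp) (by simp) (by simp)
    have e : vec (∅ : Finset (Fin 11)) 0 = 0 := by funext s; simp [vec]
    rwa [e] at this
  have hfb : ∀ y n p x c : ℝ, 0 ≤ y → y ≤ 1 → 0 ≤ n → n ≤ y → 0 ≤ p → p ≤ y → 0 ≤ x → x ≤ y →
      0 ≤ c → c ≤ y → fb y n p x c ∈ legV Ma := by
    intro y n p x c hy hy1 hn hny hp hpy hx hxy hc hcy
    have e : fb y n p x c = ![0, 0, y, 0, 0, c, y, p, x, y, n] := by
      funext s
      fin_cases s <;> simp [fb, bx]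
    rw [e]
    refine mem_legV hcone (by simp) (by simp) (fun s => ?_) (fun s => ?_) ?_ ?_
    · fin_cases s <;> simp <;> assumption
    · fin_cases s <;> simp <;> linarith
    · simp only [Matrix.cons_val]
      linarith
    · simp only [Matrix.cons_val]
      linarith
  have efb : ∀ y n p x c : ℝ, cut sM (fb y n p x c) topM = ![1, 0, y, 0, 1, c, y, p, x, y, n] := by
    intro y n p x c
    rw [cut_topM]
    funext s
    fin_cases s <;> simp [fb, bx]
  have e0 : cut sM (0 : Fin 11 → ℝ) topM = ![1, 0, 0, 0, 1, 0, 0, 0, 0, 0, 0] := by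
    rw [cut_topM]
    funext s
    fin_cases s <;> simp
  have sub : ∀ p q, nuV lam p - nuV lam q = lam (cut sM p topM) - lam (cut sM q topM) :=
    fun p q => by unfold nuV; ring
  have z0 : (0 : Fin 11 → ℝ) ∈ coneM Ma := zero_mem
  have z5 : ∀ y : ℝ, 0 ≤ y → (![0, 0, 0, 0, 0, y, 0, 0, 0, 0, 0] : Fin 11 → ℝ) ∈ coneM Ma := by
    intro y hy
    rw [hcone]
    simp only [ConeM, Matrix.cons_val]
    refine ⟨?_, ?_, ?_, ?_, ?_, ?_, ?_⟩ <;> linarith
  have hr1 := one_le_rC hP ho hah hcone hXB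
  have hall := fun y (h0 : 0 ≤ y) (h1 : y ≤ 1) => hleg {5, 6, 7, 8, 9, 10} y h0 h1 (by decide)
    (by decide) (by decide) (by decide)
  have hpos := fun y (h0 : 0 ≤ y) (h1 : y ≤ 1) => hleg {7, 8, 9, 10} y h0 h1 (by decide)
    (by decide) (by decide) (by decide)
  have hdir := fun y (h0 : 0 ≤ y) (h1 : y ≤ 1) => hleg {5, 6} y h0 h1 (by decide)
    (by decide) (by decide) (by decide)
  have hq0 := fun y (h0 : 0 ≤ y) (h1 : y ≤ 1) => hleg {8, 9} y h0 h1 (by decide)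
    (by decide) (by decide) (by decide)
  have hq := fun y (h0 : 0 ≤ y) (h1 : y ≤ 1) => hleg {8, 9, 10} y h0 h1 (by decide)
    (by decide) (by decide) (by decide)
  have hc5 := fun y (h0 : 0 ≤ y) (h1 : y ≤ 1) => hleg {5} y h0 h1 (by decide)
    (by decide) (by decide) (by decide)
  have hc7 := fun y (h0 : 0 ≤ y) (h1 : y ≤ 1) => hleg {7} y h0 h1 (by decide)
    (by decide) (by decide) (by decide)
  have hc57 := fun y (h0 : 0 ≤ y) (h1 : y ≤ 1) => hleg {5, 7} y h0 h1 (by decide)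
    (by decide) (by decide) (by decide)
  refine ⟨one_pos, by linarith, by linarith, hm, hfb, hall, hpos, hdir, hq0, hq, hc5, hc7, hc57,
    ?_, ?_, ?_, ?_, ?_, ?_, ?_⟩
  · -- dec
    intro y h0 h1
    have := loss0 hP ho (legV_cone h0leg) (legV_cone (hdir y h0 h1)) (legV_cone (hpos y h0 h1))
      (legV_cone (hall y h0 h1)) (by
        intro i h5 h6
        simp only [cut_topM]
        fin_cases i <;> simp [vec] at h5 h6 ⊢) (by
        intro i hi
        simp only [cut_topM]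
        fin_cases i <;> simp [vec] at hi ⊢)
    rw [← sub, ← sub] at this
    linarith
  · -- fib
    intro y h0 h1
    rw [sub, lossC hP ho hah hcone hXB (legV_cone (hq0 y h0 h1)) (legV_cone (hq y h0 h1)) (by
      intro i h9 h10
      simp only [cut_topM]
      fin_cases i <;> simp [vec] at h9 h10 ⊢) y 0 y y le_rfl (by linarith) h0 (by linarith)
      (by simp [cut_topM, vec]) (by simp [cut_topM, vec]) (by simp [cut_topM, vec])
      (by simp [cut_topM, vec])]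
    apply le_of_eq
    ring
  · -- conc
    intro y h0 h1
    rw [sub, loss0 hP ho (legV_cone h0leg) (legV_cone (hc5 y h0 h1)) z0 (z5 y h0) (by
      intro i h5 h6
      simp only [cut_topM]
      fin_cases i <;> simp [vec] at h5 h6 ⊢) (by
      intro i hi
      simp only [cut_topM]
      fin_cases i <;> simp [vec] at hi ⊢)]
    exact hS1 y h0 h1
  · -- concp
    intro y h0 h1
    rw [sub, loss0 hP ho (legV_cone (hc7 y h0 h1)) (legV_cone (hc57 y h0 h1)) z0 (z5 y h0) (by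
      intro i h5 h6
      simp only [cut_topM]
      fin_cases i <;> simp [vec] at h5 h6 ⊢) (by
      intro i hi
      simp only [cut_topM]
      fin_cases i <;> simp [vec] at hi ⊢)]
    exact hS1 y h0 h1
  · -- hN
    intro y h0 h1
    have m1 := hfb y 0 0 0 0 h0 h1 le_rfl h0 le_rfl h0 le_rfl h0 le_rfl h0
    have m2 := hfb y y 0 0 0 h0 h1 h0 le_rfl le_rfl h0 le_rfl h0 le_rfl h0
    rw [sub, lossC hP ho hah hcone hXB (legV_cone m1) (legV_cone m2) (by
      intro i h9 h10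
      rw [efb, efb]
      fin_cases i <;> simp at h9 h10 ⊢) y 0 y y le_rfl (by linarith) h0 (by linarith)
      (by rw [efb]; simp) (by rw [efb]; simp) (by rw [efb]; simp) (by rw [efb]; simp)]
    apply le_of_eq
    ring
  · -- np
    intro y t ht hty h1
    have h0 := ht.trans hty
    have m1 := hfb y 0 0 0 0 h0 h1 le_rfl h0 le_rfl h0 le_rfl h0 le_rfl h0
    have m2 := hfb y t 0 0 0 h0 h1 ht hty le_rfl h0 le_rfl h0 le_rfl h0
    have m3 := hfb y t t 0 0 h0 h1 ht hty ht hty le_rfl h0 le_rfl h0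
    have k1 := lossC hP ho hah hcone hXB (legV_cone m1) (legV_cone m2) (by
      intro i h9 h10
      rw [efb, efb]
      fin_cases i <;> simp at h9 h10 ⊢) y 0 y t le_rfl (by linarith) ht (by linarith)
      (by rw [efb]; simp) (by rw [efb]; simp) (by rw [efb]; simp) (by rw [efb]; simp)
    have k2 := lossB hP ho (legV_cone m2) (legV_cone m3) (legV_cone h0leg)
      (legV_cone (hc7 t ht (hty.trans h1))) (by
        intro i h7 h8
        rw [efb, efb]
        simp only [cut_topM]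
        fin_cases i <;> simp [vec] at h7 h8 ⊢)
      (by rw [efb, efb]; simp [cut_topM, vec]) (by rw [efb, efb]; simp [cut_topM, vec])
    rw [← sub] at k1 k2
    rw [← sub] at k2
    linarith
  · -- px
    intro t ht ht1
    have m1 := hfb 1 1 0 0 1 zero_le_one le_rfl zero_le_one le_rfl le_rfl zero_le_one le_rfl
      zero_le_one zero_le_one le_rfl
    have m2 := hfb 1 1 t t 1 zero_le_one le_rfl zero_le_one le_rfl ht ht1 ht ht1
      zero_le_one le_rfl
    have k1 := outS_one ho (legV_cone m1) (legV_cone m2) (i₀ := 7) (by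
      intro i hi
      have h7 : i ≠ 7 := fun h => hi (by rw [h])
      have h8 : i ≠ 8 := fun h => hi ((hP.grpB i).2 (Or.inr h))
      rw [efb, efb]
      fin_cases i <;> simp at h7 h8 ⊢)
    have k2 : φ (gC a b 7) (cut sM (fb 1 1 0 0 1) topM) = 0 := by
      refine ho.zero _ _ fun i hi => ?_
      rw [efb]
      rcases (hP.grpB i).1 hi with rfl | rfl
      · simp
      · simp
    have k3 : φ (gC a b 7) (cut sM (fb 1 1 t t 1) topM) = -(r (gC a b 7) * t) := by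
      refine ho.rate _ _ (legV_cone m2) t fun i hi => ?_
      rw [efb]
      rcases (hP.grpB i).1 hi with rfl | rfl
      · rw [dhC, hP.a7]; norm_num; rfl
      · rw [dhC, hP.a8]; norm_num; rfl
    rw [sub, k1, k2, k3]
    have := one_le_rB hP ho hcone hXA
    nlinarith

end prof

end Crest.Agent.R136.C1s940
end

-- ▼ part R136/C1sF_940
section

/-!
# R136, case C1* (mirrored lightlike), part F (helper940)

* `stM` : static data of the window, level slots `{z, F_a}`.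
* `rC_ge` : rate of the group `{X_b, N}` is at least `3` (`mir_false` over 413's windows, the
  geometry of the window is a hypothesis).
* `A_le` : `A.1 ≤ -5`.
-/

set_option autoImplicit false
set_option linter.unusedVariables false
set_option linter.unusedSectionVars false

open Filter Topology Finset

namespace Crest.Agent.R136.C1s940

open Crest.Agent.R136.Sh605
open Crest.Agent.R138.Ex926 (Base U U_le_atTop)
open Crest.Agent.R136.Net191 Crest.Agent.R136.NetQ186 Crest.Agent.R136.Gf356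
open Crest.Agent.R136.Qg926 Crest.Agent.R136.Dg219 Crest.Agent.R136.Aw413
open Crest.Agent.R136.Ab356 (wtQ)
open Crest.Agent.R136.Fe1355 (RawTw)
open Crest.Agent.R136.Wk323 (mirWin)

/-- static data of the window -/
noncomputable def stM (Ma : Mons 11) (C : ℝ) : WSt 11 where
  S := sM
  kz := 0
  top := topM
  kap := fun s => (4 * cK0 monQ C) ^ wtQ s
  Mw := Ma
  R' := 1

variable {Ma : Mons 11} {C : ℝ}

theorem mem_sM : ∀ i ∈ sM, i = 0 ∨ i = 4 := by decide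

theorem stM_ok (hcone : ∀ c, c ∈ coneM Ma ↔ ConeM c) (hsub : ∀ k, Ma.mon k ⊆ monQ.mon k)
    (hC : 0 ≤ C) : (stM Ma C).Ok monQ (coneM Ma) where
  R0 := zero_le_one
  leg := leg_cone fun k => Finset.Subset.refl _
  top_leg := by
    show topM ∈ Leg Ma 1
    rw [mem_leg hcone]
    refine ⟨fun s => ?_, fun s => ?_, ?_⟩
    · fin_cases s <;> simp [topM]
    · fin_cases s <;> simp [topM]
    · simp only [ConeM, topM, Matrix.cons_val]
      norm_num
  lin_leg := by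
    show cut sM topM 0 ∈ Leg Ma 1
    rw [mem_leg hcone, cut_sM]
    refine ⟨fun s => ?_, fun s => ?_, ?_⟩
    · fin_cases s <;> simp [topM]
    · fin_cases s <;> simp [topM]
    · simp only [ConeM, topM, Matrix.cons_val, Pi.zero_apply]
      norm_num
  lev_leg := by
    show cut sM 0 topM ∈ Leg Ma 1
    rw [mem_leg hcone, cut_sM]
    refine ⟨fun s => ?_, fun s => ?_, ?_⟩
    · fin_cases s <;> simp [topM]
    · fin_cases s <;> simp [topM]
    · simp only [ConeM, topM, Matrix.cons_val, Pi.zero_apply]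
      norm_num
  kzS := by
    show (0 : Fin 11) ∈ sM
    decide
  kz0 := by
    show monQ.mon 0 = ∅
    rfl
  kzw := by
    show Ma.mon 0 = ∅
    exact Finset.subset_empty.1 (hsub 0)
  kap := fun s => by
    show 0 < (4 * cK0 monQ C) ^ wtQ s
    have := cK0_one (M := monQ) hC
    positivity

variable {ι : ℕ → Type*} [∀ n, DecidableEq (ι n)] {B Bo : Base} {I J : ∀ n, Finset (ι n)}
  {co : ∀ n, ι n → ι n → Fin 11 → ℝ} {lam : (Fin 11 → ℝ) → ℝ} {a b : Fin 11 → ℝ} {A : ℝ × ℝ}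
  {φ : ℕ → (Fin 11 → ℝ) → ℝ} {r : ℕ → ℝ} {κ : Fin 11 → ℝ} {V Tw : Fin 11 → Prop} {m : ℝ}

/-- geometry of the windows with static data `stM` -/
def MirAll (B : Base) (I : ∀ n, Finset (ι n)) (co : ∀ n, ι n → ι n → Fin 11 → ℝ) (Ma : Mons 11)
    (C : ℝ) (lam : (Fin 11 → ℝ) → ℝ) (V Tw : Fin 11 → Prop) : Prop :=
  ∀ (W : Wnd 11 ι) (E' : ∀ n, Finset (ι n)) (g : ℕ → ℝ),
    WAt B I co monQ Ma C lam V Tw (stM Ma C) W → Wnd.Pruned W W.sec E' g (fun _ _ _ => 0) →
    RModel W.B' (W.cfg E') 1 1 W.legW W.nu W.Dc → RawL W E' 4 →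
    ∃ (T : ℕ → ℕ → Ln4) (e f : ℕ → ℕ → ℝ), MirGeo W.B' (W.cfg E') 1 T e f ∧
      RawTw W.B' (W.cfg E') (fun n k k' => f n k - f n k')

/-- **rate of the group `{X_b, N}`** -/
theorem rC_ge (h : AeW B Bo I J co monQ Ma C lam a b A φ r 0 1 κ V Tw) (hC : 0 ≤ C)
    (hJ : ∀ᶠ n in (U : Filter ℕ), (J n).Nonempty) (hV : ∀ k, V k → k = 3 ∨ k = 4) (hT : Tw 4)
    (hP : PlaneM a b) (hah : AddHom (coneM Ma) a b φ) (hcone : ∀ c, c ∈ coneM Ma ↔ ConeM c)
    (hXB : φ (gC a b 9) (![0, 0, 0, 0, 0, 0, 0, 0, 0, 1, 0]) ≤ -1)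
    (hXA : φ (gC a b 7) (![0, 0, 0, 0, 0, 0, 0, 0, 1, 0, 0]) ≤ -1) (hm : 0 < m)
    (hS1 : ∀ y : ℝ, 0 ≤ y → y ≤ 1 → m * y ≤ lam 0 - lam (![0, 0, 0, 0, 0, y, 0, 0, 0, 0, 0]))
    (hgeo : MirAll B I co Ma C lam V Tw) : 3 ≤ r (gC a b 9) := by
  by_contra hr
  push Not at hr
  have hok := stM_ok hcone h.sub hC
  obtain ⟨W, hW, -, -⟩ := h.wnd (stM Ma C) rfl hok (fun _ _ => 1)
    (fun i => Crest.Agent.R138.Ex926.Base.Sub.const one_pos) J (fun _ => 1)
    (Eventually.of_forall fun n => Finset.Subset.refl _) hJ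
    (Crest.Agent.R138.Ex926.Base.Sub.const one_pos) (Eventually.of_forall fun n => by simp)
  have hden : (stM Ma C).Dens lam 1 1 := h.dens rfl hok (by
      intro i j hij hi
      have hi' : i = 0 ∨ i = 4 := mem_sM i hi
      have hj : gC a b j = gC a b 0 := by
        rw [← hij]
        exact (hP.grpA i).2 hi'
      show j ∈ sM
      rcases (hP.grpA j).1 hj with rfl | rfl <;> decide) zero_le_one le_rfl (R := 1) (by
      show (1 : ℝ) ≤ topM 0
      simp [topM]) (by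
      intro y hy _
      have e : (Pi.single 0 y : Fin 11 → ℝ) = ![y, 0, 0, 0, 0, 0, 0, 0, 0, 0, 0] := by
        funext s
        fin_cases s <;> simp
      rw [e, hcone]
      simp only [ConeM, Matrix.cons_val]
      refine ⟨?_, ?_, ?_, ?_, ?_, ?_, ?_⟩ <;> linarith)
  obtain ⟨E', g, hPr, -, H, hraw⟩ := hW.model hden (fun _ _ _ => 0)
    (g₀ := fun n => (n : ℝ)) (tendsto_natCast_atTop_atTop.mono_left U_le_atTop) (by
      intro k hk
      rcases hV k hk with rfl | rfl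
      · right
        show topM 3 = 0
        simp [topM]
      · left
        show (4 : Fin 11) ∈ sM
        decide)
  have hL : RawL W E' 4 := hraw 4 (by show (4 : Fin 11) ∈ sM; decide) hT (by
      show 0 < topM 4
      simp [topM]) ⟨1, one_pos, by
      show cut sM topM (Pi.single 4 1) ∈ coneM Ma
      rw [cut_sM, hcone]
      simp only [ConeM, topM, Matrix.cons_val]
      simp⟩
  obtain ⟨T, e, f, hG, hR⟩ := hgeo W E' g hW hPr H hL
  have hlegW : W.legW = legV Ma := by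
    unfold Wnd.legW legV
    rw [hW.eS, hW.etop, hW.eMw, hW.eR]
    rfl
  have hnu : W.nu = nuV lam := by
    funext p
    unfold Wnd.nu nuV
    rw [hW.elam, hW.eS, hW.etop]
    rfl
  rw [hlegW, hnu] at H
  exact mir_false mirWin H hG (mirProf_of hP h.out hah hcone hXB hXA hm hS1 hr) le_rfl le_rfl hR

/-- **scalar end** -/
theorem A_le (h : AeW B Bo I J co monQ Ma C lam a b A φ r 0 1 κ V Tw)
    (hP : PlaneM a b) (hcone : ∀ c, c ∈ coneM Ma ↔ ConeM c)
    (hXA : φ (gC a b 7) (![0, 0, 0, 0, 0, 0, 0, 0, 1, 0, 0]) ≤ -1) (hr : 3 ≤ r (gC a b 9)) :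
    A.1 ≤ -5 := by
  have ho := h.out
  have n0 : a 0 ≠ 0 := by rw [hP.a0]; norm_num
  have n7 : a 7 ≠ 0 := by rw [hP.a7]; norm_num
  have n9 : a 9 ≠ 0 := by rw [hP.a9]; norm_num
  -- rate of `{z, F_a}`
  have hA : 1 ≤ r (gC a b 0) := by
    have m1 : (![1, 0, 0, 0, 1, 0, 0, 0, 0, 0, 0] : Fin 11 → ℝ) ∈ coneM Ma := by
      rw [hcone]
      simp only [ConeM, Matrix.cons_val]
      norm_num
    have h1 := h.own 0 zero_mem _ m1 (fun s => by fin_cases s <;> simp) (fun k _ => by simp)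
    have h2 := outS_one ho zero_mem m1 (i₀ := 0) (by
      intro i hi
      have h0 : i ≠ 0 := fun h => hi (by rw [h])
      have h4 : i ≠ 4 := fun h => hi ((hP.grpA i).2 (Or.inr h))
      fin_cases i <;> simp at h0 h4 ⊢)
    have h3 : φ (gC a b 0) (0 : Fin 11 → ℝ) = 0 := ho.zero _ _ fun i _ => rfl
    have h4 : φ (gC a b 0) (![1, 0, 0, 0, 1, 0, 0, 0, 0, 0, 0]) = -(r (gC a b 0) * 1) := by
      refine ho.rate _ _ m1 1 fun i hi => ?_
      rcases (hP.grpA i).1 hi with rfl | rfl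
      · rw [dhC, hP.a0]; norm_num
      · rw [dhC, hP.a4]; norm_num; rfl
    rw [h2, h3, h4] at h1
    have h5 : (![1, 0, 0, 0, 1, 0, 0, 0, 0, 0, 0] : Fin 11 → ℝ) 0 = 1 := rfl
    rw [h5] at h1
    simp only [Pi.zero_apply] at h1
    linarith
  have hB := one_le_rB hP ho hcone hXA
  have hpos : ∀ i, 0 ≤ a i := by
    intro i
    fin_cases i
    · show 0 ≤ a 0
      rw [hP.a0]; norm_num
    · show 0 ≤ a 1
      rw [hP.a1]
    · show 0 ≤ a 2
      rw [hP.a2]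
    · exact hP.a3
    · show 0 ≤ a 4
      rw [hP.a4]; norm_num
    · show 0 ≤ a 5
      rw [hP.a5]
    · show 0 ≤ a 6
      rw [hP.a6]
    · show 0 ≤ a 7
      rw [hP.a7]; norm_num
    · show 0 ≤ a 8
      rw [hP.a8]; norm_num
    · show 0 ≤ a 9
      rw [hP.a9]; norm_num
    · show 0 ≤ a 10
      rw [hP.a10]; norm_num
  have hterm : ∀ k ∈ gset (gC a b), 0 ≤ r k * lf (nC a b k) (1, 0) := by
    intro k hk
    by_cases hk0 : k = 0
    · subst hk0
      rw [nC_zero]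
      simp [lf]
    · obtain ⟨i, -, hi⟩ := Finset.mem_image.1 hk
      have hai : a i ≠ 0 := fun h0 => hk0 (hi.symm.trans (gC_zero.2 h0))
      rw [← hi, nC_of hai]
      have h1 : 0 ≤ r (gC a b i) := ho.r_nonneg _ fun j hj => by
        have haj : a j ≠ 0 := fun h0 => by
          rw [gC_zero.2 h0] at hj
          exact hai (gC_zero.1 hj.symm)
        rw [dhC, if_neg haj]
        exact lt_of_le_of_ne (hpos j) (Ne.symm haj)
      simpa [lf] using h1
  have hone : ∀ i, a i ≠ 0 → r (gC a b i) * lf (nC a b (gC a b i)) (1, 0) = r (gC a b i) := by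
    intro i hi
    rw [nC_of hi]
    simp [lf]
  have hsub : ({gC a b 0, gC a b 7, gC a b 9} : Finset ℕ) ⊆ gset (gC a b) := by
    intro k hk
    simp only [Finset.mem_insert, Finset.mem_singleton] at hk
    rcases hk with rfl | rfl | rfl <;> exact mem_gset _
  have d1 : gC a b 0 ≠ gC a b 7 := fun h => by
    rcases (hP.grpB 0).1 h with h | h <;> exact absurd h (by decide)
  have d2 : gC a b 0 ≠ gC a b 9 := fun h => by
    rcases (hP.grpC 0).1 h with h | h <;> exact absurd h (by decide)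
  have d3 : gC a b 7 ≠ gC a b 9 := fun h => by
    rcases (hP.grpC 7).1 h with h | h <;> exact absurd h (by decide)
  have hsum := Finset.sum_le_sum_of_subset_of_nonneg hsub
    (f := fun k => r k * lf (nC a b k) (1, 0)) (fun k hk _ => hterm k hk)
  rw [Finset.sum_insert (by simp [d1, d2]), Finset.sum_insert (by simp [d3]),
    Finset.sum_singleton, hone 0 n0, hone 7 n7, hone 9 n9] at hsum
  have ht := ho.total (1, 0)
  have e : lf A (1, 0) = A.1 := by simp [lf]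
  rw [e] at ht
  linarith

end Crest.Agent.R136.C1s940
end

-- ▼ part R136/Ab2_356
section

/-!
# R136: lightlike windows in absolute coordinates (helper356), part 2

`AbsHyp` : hypotheses on a window (lightlike: level slots `z, F_b`, walls tight with coefficient `1`,
slot `R` negligible); **`AbsHyp.absWin`**: `W.cfg E` is a lightlike window in absolute coordinates
(`Wk323.AbsWin`) as soon as `F_b` is affine in `z`.
-/

set_option autoImplicit false
set_option linter.unusedSectionVars false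
set_option linter.unusedVariables false

open Filter Topology

namespace Crest.Agent.R136.Ab356

open Finset Crest.Agent.R136.NetQ186 Crest.Agent.R136.Net191 Crest.Agent.R136.Qg926
open Crest.Agent.R136.Gf356 Crest.Agent.R136.Ev356 Crest.Agent.R136.Sh605
open Crest.Agent.R136.Wk323
open Crest.Agent.R138.Ex926 (Base U)

variable {ι : ℕ → Type*} [∀ n, DecidableEq (ι n)]

open Classical in
/-- a chosen incidence on a fat line -/
noncomputable def lrep (W : Wnd 11 ι) (n l : ℕ) : ι n :=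
  if h : ∃ i ∈ W.Cl n, W.lc n i = l then h.choose else W.s₀ n

theorem lrep_spec {W : Wnd 11 ι} {n : ℕ} {i : ι n} (hi : i ∈ W.Cl n) :
    lrep W n (W.lc n i) ∈ W.Cl n ∧ W.lc n (lrep W n (W.lc n i)) = W.lc n i := by
  have h : ∃ j ∈ W.Cl n, W.lc n j = W.lc n i := ⟨i, hi, rfl⟩
  unfold lrep
  rw [dif_pos h]
  exact h.choose_spec

/-- the absolute straight line of a fat line, frame of the base incidence -/
noncomputable def absT (W : Wnd 11 ι) (n l : ℕ) : Ln4 := lnOf (W.crd n (W.s₀ n) (lrep W n l))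

/-- the axis of a fat line -/
noncomputable def absE (W : Wnd 11 ι) (n l : ℕ) : ℝ := W.crd n (W.s₀ n) (lrep W n l) 2

/-- the flag `F_a` of an incidence -/
noncomputable def absFa (W : Wnd 11 ι) (n l k : ℕ) : ℝ := W.crd n (W.s₀ n) (W.rep n l k) 4

/-- the flag `F_b` of a height -/
noncomputable def absFb (W : Wnd 11 ι) (n k : ℕ) : ℝ := flg W n k 3

/-- **hypotheses on a lightlike window** -/
structure AbsHyp (W : Wnd 11 ι) (f : ∀ n, ι n → Fq4) (E : ∀ n, Finset (ι n)) (x : ℝ) : Prop where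
  q : QWnd W f
  kz : W.kz = 0
  S0 : (0 : Fin 11) ∈ W.S
  S3 : (3 : Fin 11) ∈ W.S
  S2 : (2 : Fin 11) ∉ W.S
  S4 : (4 : Fin 11) ∉ W.S
  kap : ∀ s, 4 * W.K0 ≤ W.kap s
  tight : ∀ᶠ n in (U : Filter ℕ), CfOne W n
  R : ∀ ε : ℝ, 0 < ε → ∀ᶠ n in (U : Filter ℕ), ∀ u ∈ W.Cl n, ∀ v ∈ W.Cl n,
    cf W n 0 1 7 * |W.crd n u v 1| ≤ W.B'.d n ^ (x - ε)
  top : ∀ s, x ≤ W.top s
  cfg : ∀ᶠ n in (U : Filter ℕ), W.Good n ∧ E n ⊆ W.Cl n ∧ W.cfg E n = W.cfg0 n (E n)

namespace AbsHyp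

variable {W : Wnd 11 ι} {f : ∀ n, ι n → Fq4} {E : ∀ n, Finset (ι n)} {x : ℝ}
  (h : AbsHyp W f E x)

include h

theorem K0kap (s : Fin 11) : W.K0 / W.kap s ≤ 1 / 4 := by
  have h1 := h.q.ok.kap s
  have h2 := h.kap s
  rw [div_le_div_iff₀ h1 (by norm_num)]
  linarith

theorem crd4 {n : ℕ} (g : W.Good n) {u v : ι n} (hu : u ∈ W.Cl n) (hv : v ∈ W.Cl n)
    (s : Fin 11) : |W.crd n u v s| ≤ 1 / 4 := (h.q.crd_le g hu hv s).trans (h.K0kap s)

theorem lev {n : ℕ} (g : W.Good n) {η : ℝ} (hη : W.B'.d n ^ x ≤ η) {u v : ι n}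
    (hu : u ∈ W.Cl n) (hv : v ∈ W.Cl n) (hl : W.zc n u = W.zc n v) {s : Fin 11} (hs : s ∈ W.S) :
    Ap η 1 1 (W.crd n u v s) 0 := by
  have h0 : 0 ≤ W.B'.d n ^ x := Real.rpow_nonneg (W.B'.pos n).le x
  refine ⟨(h.crd4 g hu hv s).trans (by norm_num), by rw [abs_zero]; norm_num, ?_⟩
  rw [sub_zero, one_mul]
  have h1 := h.q.crd_lev g hu hv hl hs (h.top s)
  have h2 := h.K0kap s
  nlinarith

theorem own {n : ℕ} (g : W.Good n) {η : ℝ} (hη : W.B'.d n ^ x ≤ η) {u v : ι n}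
    (hu : u ∈ W.Cl n) (hv : v ∈ W.Cl n) (hl : W.lc n u = W.lc n v) {s : Fin 11} (hs : s ∉ W.S) :
    Ap η 1 1 (W.crd n u v s) 0 := by
  have h0 : 0 ≤ W.B'.d n ^ x := Real.rpow_nonneg (W.B'.pos n).le x
  refine ⟨(h.crd4 g hu hv s).trans (by norm_num), by rw [abs_zero]; norm_num, ?_⟩
  rw [sub_zero, one_mul]
  have h1 := h.q.crd_own g hu hv hl hs (h.top s)
  have h2 := h.K0kap s
  nlinarith

/-- absolute coordinates of the incidences of one fat line -/
theorem line {n : ℕ} (g : W.Good n) (hc : CfOne W n) {η : ℝ} (hη : W.B'.d n ^ x ≤ η)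
    (hR : ∀ u ∈ W.Cl n, ∀ v ∈ W.Cl n, cf W n 0 1 7 * |W.crd n u v 1| ≤ η) {u v : ι n}
    (hu : u ∈ W.Cl n) (hv : v ∈ W.Cl n) (hl : W.lc n u = W.lc n v) (s : Fin 11)
    (hs : s = 2 ∨ s = 5 ∨ s = 6 ∨ s = 7 ∨ s = 8 ∨ s = 9 ∨ s = 10) :
    Ap (20 * η) 1 1 (W.crd n (W.s₀ n) u s) (W.crd n (W.s₀ n) v s) := by
  have h0 : 0 ≤ W.B'.d n ^ x := Real.rpow_nonneg (W.B'.pos n).le x
  have hη0 : 0 ≤ η := h0.trans hη
  obtain ⟨e0, e2, e3, e4, e5, e6, e7, e8, e9, e10⟩ := law h.q g hc g.s0 hu hv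
  have B : ∀ s, Ap η 1 0 (W.crd n (W.s₀ n) u s) (W.crd n (W.s₀ n) u s) := fun s =>
    Ap.const hη0 ((h.crd4 g g.s0 hu s).trans (by norm_num))
  have bu : ∀ s, |W.crd n (W.s₀ n) u s| ≤ 1 := fun s =>
    (h.crd4 g g.s0 hu s).trans (by norm_num)
  have bv : ∀ s, |W.crd n (W.s₀ n) v s| ≤ 1 := fun s =>
    (h.crd4 g g.s0 hv s).trans (by norm_num)
  have cS : ∀ s, s ∉ W.S → Ap η 1 1 (W.crd n u v s) 0 := fun s hs => h.own g hη hu hv hl hs
  have nS : ∀ s : Fin 11, s = 1 ∨ s = 5 ∨ s = 6 ∨ s = 7 ∨ s = 8 ∨ s = 9 ∨ s = 10 → s ∉ W.S :=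
    fun s hs => h.q.notMem hs
  have c2 := cS 2 h.S2
  have c5 := cS 5 (nS 5 (by simp))
  have c6 := cS 6 (nS 6 (by simp))
  have c7 := cS 7 (nS 7 (by simp))
  have c8 := cS 8 (nS 8 (by simp))
  have c9 := cS 9 (nS 9 (by simp))
  have c10 := cS 10 (nS 10 (by simp))
  have hr : |cf W n 0 1 7 * W.crd n u v 1| ≤ η := by
    rw [abs_mul, abs_of_pos (h.q.cf_pos n 0 1 7)]
    exact hR u hu v hv
  have key : ∀ {m c z : ℝ} {s : Fin 11}, Ap η m c (W.crd n (W.s₀ n) v s) z →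
      z = W.crd n (W.s₀ n) u s → c ≤ 18 → 
      |W.crd n (W.s₀ n) u s - W.crd n (W.s₀ n) v s| ≤ 18 * η := by
    intro m c z s hA hz hc
    rw [abs_sub_comm, ← hz]
    exact hA.mono hη0 hc
  have main : |W.crd n (W.s₀ n) u s - W.crd n (W.s₀ n) v s| ≤ 20 * η := by
    rcases hs with rfl | rfl | rfl | rfl | rfl | rfl | rfl
    · have a := (B 2).add c2
      rw [← e2] at a
      exact (key a (by ring) (by norm_num)).trans (by linarith)
    · have a := (B 5).add c5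
      rw [← e5] at a
      exact (key a (by ring) (by norm_num)).trans (by linarith)
    · have a := ((B 6).add c6).add ((B 2).mul c5)
      rw [← e6] at a
      exact (key a (by ring) (by norm_num)).trans (by linarith)
    · have a := (((B 7).add c7).add (((B 4).add ((B 2).mul (B 3))).mul c5)).add ((B 3).mul c6)
      have e7' : W.crd n (W.s₀ n) u 7 + W.crd n u v 7 + (W.crd n (W.s₀ n) u 4 +
          W.crd n (W.s₀ n) u 2 * W.crd n (W.s₀ n) u 3) * W.crd n u v 5 +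
          W.crd n (W.s₀ n) u 3 * W.crd n u v 6 = W.crd n (W.s₀ n) v 7 +
          2 * (W.crd n (W.s₀ n) u 0 * (cf W n 0 1 7 * W.crd n u v 1)) := by
        rw [e7]; ring
      rw [e7'] at a
      have h1 : |W.crd n (W.s₀ n) v 7 + 2 * (W.crd n (W.s₀ n) u 0 *
          (cf W n 0 1 7 * W.crd n u v 1)) - W.crd n (W.s₀ n) u 7| ≤ 18 * η := by
        have := a.mono (c' := 18) hη0 (by norm_num)
        refine le_trans (le_of_eq ?_) this
        congr 1
        ring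
      have h2 : |2 * (W.crd n (W.s₀ n) u 0 * (cf W n 0 1 7 * W.crd n u v 1))| ≤ 2 * η := by
        rw [abs_mul, abs_mul, abs_of_pos (by norm_num : (0 : ℝ) < 2)]
        have h3 := mul_le_mul (bu 0) hr (abs_nonneg _) zero_le_one
        linarith
      have e : W.crd n (W.s₀ n) u 7 - W.crd n (W.s₀ n) v 7 =
          2 * (W.crd n (W.s₀ n) u 0 * (cf W n 0 1 7 * W.crd n u v 1)) -
          (W.crd n (W.s₀ n) v 7 + 2 * (W.crd n (W.s₀ n) u 0 *
          (cf W n 0 1 7 * W.crd n u v 1)) - W.crd n (W.s₀ n) u 7) := by ring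
      rw [e]
      have h3 := abs_sub (2 * (W.crd n (W.s₀ n) u 0 * (cf W n 0 1 7 * W.crd n u v 1)))
        (W.crd n (W.s₀ n) v 7 + 2 * (W.crd n (W.s₀ n) u 0 *
          (cf W n 0 1 7 * W.crd n u v 1)) - W.crd n (W.s₀ n) u 7)
      linarith
    · have a := ((B 8).add c8).sub ((B 0).mul c5)
      rw [← e8] at a
      exact (key a (by ring) (by norm_num)).trans (by linarith)
    · have a := ((B 9).add (c9.sub ((B 0).mul c6))).add ((B 2).mul (c8.sub ((B 0).mul c5)))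
      rw [← e9] at a
      exact (key a (by ring) (by norm_num)).trans (by linarith)
    · have a := (((B 10).add (c10.sub ((B 0).mul c7))).add
        (((B 4).add ((B 2).mul (B 3))).mul (c8.sub ((B 0).mul c5)))).add
        ((B 3).mul (c9.sub ((B 0).mul c6)))
      have e10' : W.crd n (W.s₀ n) u 10 + (W.crd n u v 10 - W.crd n (W.s₀ n) u 0 *
          W.crd n u v 7) + (W.crd n (W.s₀ n) u 4 + W.crd n (W.s₀ n) u 2 *
          W.crd n (W.s₀ n) u 3) * (W.crd n u v 8 - W.crd n (W.s₀ n) u 0 * W.crd n u v 5) +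
          W.crd n (W.s₀ n) u 3 * (W.crd n u v 9 - W.crd n (W.s₀ n) u 0 * W.crd n u v 6) =
          W.crd n (W.s₀ n) v 10 - W.crd n (W.s₀ n) u 0 ^ 2 *
          (cf W n 0 1 7 * W.crd n u v 1) := by
        rw [e10]; ring
      rw [e10'] at a
      have h1 : |W.crd n (W.s₀ n) v 10 - W.crd n (W.s₀ n) u 0 ^ 2 *
          (cf W n 0 1 7 * W.crd n u v 1) - W.crd n (W.s₀ n) u 10| ≤ 18 * η := by
        have := a.mono (c' := 18) hη0 (by norm_num)
        refine le_trans (le_of_eq ?_) this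
        congr 1
        ring
      have h2 : |W.crd n (W.s₀ n) u 0 ^ 2 * (cf W n 0 1 7 * W.crd n u v 1)| ≤ 2 * η := by
        rw [abs_mul, abs_pow]
        have h3 : |W.crd n (W.s₀ n) u 0| ^ 2 ≤ 1 := pow_le_one₀ (abs_nonneg _) (bu 0)
        have h4 := mul_le_mul h3 hr (abs_nonneg _) zero_le_one
        linarith
      have e : W.crd n (W.s₀ n) u 10 - W.crd n (W.s₀ n) v 10 =
          -(W.crd n (W.s₀ n) u 0 ^ 2 * (cf W n 0 1 7 * W.crd n u v 1)) -
          (W.crd n (W.s₀ n) v 10 - W.crd n (W.s₀ n) u 0 ^ 2 *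
          (cf W n 0 1 7 * W.crd n u v 1) - W.crd n (W.s₀ n) u 10) := by ring
      rw [e]
      have h3 := abs_sub (-(W.crd n (W.s₀ n) u 0 ^ 2 * (cf W n 0 1 7 * W.crd n u v 1)))
        (W.crd n (W.s₀ n) v 10 - W.crd n (W.s₀ n) u 0 ^ 2 *
          (cf W n 0 1 7 * W.crd n u v 1) - W.crd n (W.s₀ n) u 10)
      rw [abs_neg] at h3
      linarith
  exact ⟨bu s, bv s, by rw [one_mul]; exact main⟩

end AbsHyp

end Crest.Agent.R136.Ab356
end

-- ▼ part R136/Ab3_356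
section

/-!
# R136: lightlike windows in absolute coordinates (helper356), part 3: `AbsHyp.absWin`
-/

set_option autoImplicit false
set_option linter.unusedSectionVars false
set_option linter.unusedVariables false

open Filter Topology

namespace Crest.Agent.R136.Ab356

open Finset Crest.Agent.R136.NetQ186 Crest.Agent.R136.Net191 Crest.Agent.R136.Qg926
open Crest.Agent.R136.Gf356 Crest.Agent.R136.Ev356 Crest.Agent.R136.Sh605
open Crest.Agent.R136.Wk323
open Crest.Agent.R138.Ex926 (Base U)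

variable {ι : ℕ → Type*} [∀ n, DecidableEq (ι n)]

theorem mem_fAll {s : Fin 11} (hs : s ∈ fAll) :
    s = 2 ∨ s = 4 ∨ s = 5 ∨ s = 6 ∨ s = 7 ∨ s = 8 ∨ s = 9 ∨ s = 10 := by
  revert hs; unfold fAll; revert s; decide

namespace AbsHyp

variable {W : Wnd 11 ι} {f : ∀ n, ι n → Fq4} {E : ∀ n, Finset (ι n)} {x : ℝ}
  (h : AbsHyp W f E x)

include h

theorem fAll_notMem {s : Fin 11} (hs : s ∈ fAll) : s ∉ W.S := by
  rcases mem_fAll hs with rfl | rfl | rfl | rfl | rfl | rfl | rfl | rfl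
  · exact h.S2
  · exact h.S4
  all_goals exact h.q.notMem (by simp)

theorem Z_of_mem {n : ℕ} {E0 : Finset (ι n)} (hE : E0 ⊆ W.Cl n) {i k : ℕ}
    (h1 : (i, k) ∈ (W.cfg0 n E0).I) : W.zrep n k ∈ W.Cl n ∧ W.zc n (W.zrep n k) = k := by
  have hk : k ∈ (W.cfg0 n E0).Z := mem_image.2 (by
    obtain ⟨u, hu, -, h6⟩ := mem_cfg0 h1; exact ⟨u, hu, h6⟩)
  exact zrep_of_mem hE hk

theorem lrep_of_mem {n : ℕ} {E0 : Finset (ι n)} (hE : E0 ⊆ W.Cl n) {i k : ℕ}
    (h1 : (i, k) ∈ (W.cfg0 n E0).I) : lrep W n i ∈ W.Cl n ∧ W.lc n (lrep W n i) = i := by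
  obtain ⟨a1, a2, a3⟩ := rep_of_mem hE h1
  have := lrep_spec a1
  rw [a2] at this
  exact this

theorem hz {n : ℕ} {E0 : Finset (ι n)} (k : ℕ) : (W.cfg0 n E0).z k = flg W n k 0 := by
  show W.crd n (W.s₀ n) (W.zrep n k) W.kz = _
  rw [h.kz]; rfl

/-- relative coordinates from absolute ones, one `n` -/
theorem rel0 {n : ℕ} (g : W.Good n) (hc : CfOne W n) {η : ℝ} (hη : W.B'.d n ^ x ≤ η)
    (hR : ∀ u ∈ W.Cl n, ∀ v ∈ W.Cl n, cf W n 0 1 7 * |W.crd n u v 1| ≤ η)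
    {E0 : Finset (ι n)} (hE : E0 ⊆ W.Cl n) {k i l : ℕ} (h1 : (i, k) ∈ (W.cfg0 n E0).I)
    (h2 : (l, k) ∈ (W.cfg0 n E0).I) {s : Fin 11} (hs : s ∈ fAll) :
    |(W.cfg0 n E0).rel k i l s - coA (absT W n i) (absT W n l) (absE W n i) (absE W n l)
      (absFa W n i k) (absFa W n l k) (absFb W n k) ((W.cfg0 n E0).z k) s| ≤ 1002 * η := by
  have h0 : 0 ≤ W.B'.d n ^ x := Real.rpow_nonneg (W.B'.pos n).le x
  have hη0 : 0 ≤ η := h0.trans hη
  obtain ⟨a1, a2, a3⟩ := rep_of_mem hE h1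
  obtain ⟨b1, b2, b3⟩ := rep_of_mem hE h2
  obtain ⟨z1, z2⟩ := h.Z_of_mem hE h1
  obtain ⟨l1, l2⟩ := h.lrep_of_mem hE h1
  obtain ⟨m1, m2⟩ := h.lrep_of_mem hE h2
  have hL := law h.q g hc g.s0 a1 b1
  have ex := coA_exact hL s hs
  have B : ∀ {u v : ι n}, u ∈ W.Cl n → v ∈ W.Cl n → ∀ s, |W.crd n u v s| ≤ 1 := fun hu hv s =>
    (h.crd4 g hu hv s).trans (by norm_num)
  have hlev : ∀ s : Fin 11, s = 0 ∨ s = 2 ∨ s = 3 → s ∈ W.S →
      Ap (20 * η) 1 1 (W.crd n (W.s₀ n) (W.rep n i k) s) (flg W n k s) := by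
    intro s hs hsS
    refine ⟨B g.s0 a1 s, B g.s0 z1 s, ?_⟩
    have e1 := h.q.crd_add g g.s0 a1 z1 (s := s) (by tauto)
    have e2 := (h.lev g hη a1 z1 (a3.trans z2.symm) hsS).d
    rw [sub_zero, one_mul] at e2
    have e3 : W.crd n (W.s₀ n) (W.rep n i k) s - flg W n k s =
        -W.crd n (W.rep n i k) (W.zrep n k) s := by unfold flg; linarith
    rw [e3, abs_neg, one_mul]
    linarith
  have lip := coA_lip (η := 20 * η) (by positivity)
    (b := W.crd n (W.s₀ n) (W.rep n i k)) (b' := W.crd n (W.s₀ n) (lrep W n i))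
    (g := W.crd n (W.s₀ n) (W.rep n l k)) (g' := W.crd n (W.s₀ n) (lrep W n l))
    (fa := W.crd n (W.s₀ n) (W.rep n i k) 4) (fa' := W.crd n (W.s₀ n) (W.rep n l k) 4)
    (fun s hs => h.line g hc hη hR a1 l1 (a2.trans l2.symm) s hs)
    (fun s hs => h.line g hc hη hR b1 m1 (b2.trans m2.symm) s hs)
    (B g.s0 a1 4) (hlev 3 (by simp) h.S3) (hlev 0 (by simp) h.S0) s hs
  have herr : |errA (cf W n 0 1 7) (W.crd n (W.s₀ n) (W.rep n i k))
      (W.crd n (W.rep n i k) (W.rep n l k)) s| ≤ 2 * η := by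
    have hr : |cf W n 0 1 7 * W.crd n (W.rep n i k) (W.rep n l k) 1| ≤ η := by
      rw [abs_mul, abs_of_pos (h.q.cf_pos n 0 1 7)]
      exact hR _ a1 _ b1
    have hz0 : |(0 : ℝ)| ≤ 2 * η := by rw [abs_zero]; positivity
    have u0 := B g.s0 a1 0
    have u2 := B g.s0 a1 2
    rcases mem_fAll hs with rfl | rfl | rfl | rfl | rfl | rfl | rfl | rfl
    · simpa only [errA, Matrix.cons_val] using hz0
    · simp only [errA, Matrix.cons_val]
      have c3 := (h.lev g hη a1 b1 (a3.trans b3.symm) h.S3).d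
      rw [sub_zero, one_mul] at c3
      rw [abs_mul]
      have := mul_le_mul u2 c3 (abs_nonneg _) zero_le_one
      linarith
    · simpa only [errA, Matrix.cons_val] using hz0
    · simpa only [errA, Matrix.cons_val] using hz0
    · simp only [errA, Matrix.cons_val]
      rw [abs_mul, abs_mul, abs_of_pos (by norm_num : (0 : ℝ) < 2)]
      have := mul_le_mul u0 hr (abs_nonneg _) zero_le_one
      linarith
    · simpa only [errA, Matrix.cons_val] using hz0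
    · simpa only [errA, Matrix.cons_val] using hz0
    · simp only [errA, Matrix.cons_val]
      rw [abs_mul, abs_pow]
      have h3 : |W.crd n (W.s₀ n) (W.rep n i k) 0| ^ 2 ≤ 1 := pow_le_one₀ (abs_nonneg _) u0
      have := mul_le_mul h3 hr (abs_nonneg _) zero_le_one
      linarith
  rw [rel_cfg0, if_neg (h.fAll_notMem hs), ex, h.hz]
  have tri := abs_add_le
    (coA (lnOf (W.crd n (W.s₀ n) (W.rep n i k))) (lnOf (W.crd n (W.s₀ n) (W.rep n l k)))
      (W.crd n (W.s₀ n) (W.rep n i k) 2) (W.crd n (W.s₀ n) (W.rep n l k) 2)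
      (W.crd n (W.s₀ n) (W.rep n i k) 4) (W.crd n (W.s₀ n) (W.rep n l k) 4)
      (W.crd n (W.s₀ n) (W.rep n i k) 3) (W.crd n (W.s₀ n) (W.rep n i k) 0) s -
    coA (absT W n i) (absT W n l) (absE W n i) (absE W n l)
      (absFa W n i k) (absFa W n l k) (absFb W n k) (flg W n k 0) s)
    (errA (cf W n 0 1 7) (W.crd n (W.s₀ n) (W.rep n i k))
      (W.crd n (W.rep n i k) (W.rep n l k)) s)
  have lip' : |coA (lnOf (W.crd n (W.s₀ n) (W.rep n i k)))
      (lnOf (W.crd n (W.s₀ n) (W.rep n l k)))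
      (W.crd n (W.s₀ n) (W.rep n i k) 2) (W.crd n (W.s₀ n) (W.rep n l k) 2)
      (W.crd n (W.s₀ n) (W.rep n i k) 4) (W.crd n (W.s₀ n) (W.rep n l k) 4)
      (W.crd n (W.s₀ n) (W.rep n i k) 3) (W.crd n (W.s₀ n) (W.rep n i k) 0) s -
    coA (absT W n i) (absT W n l) (absE W n i) (absE W n l)
      (absFa W n i k) (absFa W n l k) (absFb W n k) (flg W n k 0) s| ≤ 50 * (20 * η) := lip
  refine le_trans (le_of_eq ?_) (tri.trans (by linarith))
  congr 1
  ring



end AbsHyp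

end Crest.Agent.R136.Ab356
end

-- ▼ part R136/Mir1_356
section

/-!
# R136: the mirrored windows in absolute coordinates (helper356)

Level slots `z, F_a`; the flag `F_b` and the slot `R` are not resolved, the walls `234, 367, 3910,
017` are slack, the other ones are tight with coefficient `1`.

* `MirHyp` : hypotheses; **`MirHyp.mirGeo`** : `C1s940.MirGeo`;
* **`rawTw_of_near`**, **`MirHyp.rawTw`** : raw twist of `F_a` between heights;
* **`mirHyp_of_wat`** : `MirHyp` from helper413's `WAt`.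
-/

set_option autoImplicit false
set_option linter.unusedSectionVars false
set_option linter.unusedVariables false

open Filter Topology

namespace Crest.Agent.R136.Mir356

open Finset Crest.Agent.R136.NetQ186 Crest.Agent.R136.Net191 Crest.Agent.R136.Qg926
open Crest.Agent.R136.Gf356 Crest.Agent.R136.Ev356 Crest.Agent.R136.Sh605
open Crest.Agent.R136.Ab356 Crest.Agent.R136.C1s940 Crest.Agent.R136.Aw413
open Crest.Agent.R138.Ex926 (Base U)

/-- the coefficients of the mirrored window -/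
structure Q1 (q : Fin 11 → Fin 11 → Fin 11 → ℝ) : Prop where
  a256 : q 2 5 6 = 1
  a289 : q 2 8 9 = 1
  a457 : q 4 5 7 = 1
  a4810 : q 4 8 10 = 1
  a058 : q 0 5 8 = 1
  a069 : q 0 6 9 = 1
  a0710 : q 0 7 10 = 1
  b234 : q 2 3 4 = 0
  b367 : q 3 6 7 = 0
  b3910 : q 3 9 10 = 0
  b017 : q 0 1 7 = 0

theorem mem_sMir {s : Fin 11} (hs : s ∈ sMir) :
    s = 2 ∨ s = 5 ∨ s = 6 ∨ s = 7 ∨ s = 8 ∨ s = 9 ∨ s = 10 := by
  revert hs; unfold sMir; revert s; decide

/-- relative coordinates from absolute ones -/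
theorem coM_near {q q' : Fin 11 → Fin 11 → Fin 11 → ℝ} {η : ℝ} (hη : 0 ≤ η)
    (hq : CApp η 1 q q') (h1 : Q1 q') {g b c : Fin 11 → ℝ} (H : LawC q g b c)
    (bb : ∀ s, |b s| ≤ 1) (bc : ∀ s, |c s| ≤ 1) (s : Fin 11) (hs : s ∈ sMir) :
    |c s - coM (lnOf b) (lnOf g) (b 2) (g 2) (b 4) (b 0) s| ≤ 14 * η := by
  obtain ⟨c256, c017, c457, c367, c058, c069, c289, c0710, c4810, c3910, c234⟩ := hq
  obtain ⟨e0, e1, e2, e3, e4, e5, e6, e7, e8, e9, e10⟩ := H
  have d256 : |q 2 5 6 - 1| ≤ η := by have := c256.d; rwa [h1.a256, one_mul] at this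
  have d289 : |q 2 8 9 - 1| ≤ η := by have := c289.d; rwa [h1.a289, one_mul] at this
  have d457 : |q 4 5 7 - 1| ≤ η := by have := c457.d; rwa [h1.a457, one_mul] at this
  have d4810 : |q 4 8 10 - 1| ≤ η := by have := c4810.d; rwa [h1.a4810, one_mul] at this
  have d058 : |q 0 5 8 - 1| ≤ η := by have := c058.d; rwa [h1.a058, one_mul] at this
  have d069 : |q 0 6 9 - 1| ≤ η := by have := c069.d; rwa [h1.a069, one_mul] at this
  have d0710 : |q 0 7 10 - 1| ≤ η := by have := c0710.d; rwa [h1.a0710, one_mul] at this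
  have d234 : |q 2 3 4| ≤ η := by have := c234.d; rwa [h1.b234, one_mul, sub_zero] at this
  have d367 : |q 3 6 7| ≤ η := by have := c367.d; rwa [h1.b367, one_mul, sub_zero] at this
  have d3910 : |q 3 9 10| ≤ η := by have := c3910.d; rwa [h1.b3910, one_mul, sub_zero] at this
  have d017 : |q 0 1 7| ≤ η := by have := c017.d; rwa [h1.b017, one_mul, sub_zero] at this
  have n0 : ∀ {x y : ℝ}, |x| ≤ η → |y| ≤ 1 → |x * y| ≤ η := by
    intro x y hx hy
    rw [mul_comm]; exact abη hη hy hx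
  have z : ∀ s, c s = coM (lnOf b) (lnOf g) (b 2) (g 2) (b 4) (b 0) s →
      |c s - coM (lnOf b) (lnOf g) (b 2) (g 2) (b 4) (b 0) s| ≤ 14 * η := by
    intro s hs
    rw [hs, sub_self, abs_zero]; linarith
  rcases mem_sMir hs with rfl | rfl | rfl | rfl | rfl | rfl | rfl
  · refine z 2 ?_
    simp only [coM, Matrix.cons_val]
    linarith
  · refine z 5 ?_
    simp only [coM, lnOf, Matrix.cons_val]
    linarith
  · have : c 6 - coM (lnOf b) (lnOf g) (b 2) (g 2) (b 4) (b 0) 6 =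
        -((q 2 5 6 - 1) * (b 2 * c 5)) := by
      simp only [coM, lnOf, Matrix.cons_val]
      rw [e6, e5]; ring
    rw [this, abs_neg]
    have := n0 d256 (ab1 (bb 2) (bc 5))
    linarith
  · have : c 7 - coM (lnOf b) (lnOf g) (b 2) (g 2) (b 4) (b 0) 7 =
        2 * (q 0 1 7 * (b 0 * c 1)) - (q 4 5 7 - 1) * (b 4 * c 5) -
        q 4 5 7 * (q 2 3 4 * (b 2 * (b 3 * c 5))) - q 3 6 7 * (b 3 * c 6) := by
      simp only [coM, lnOf, Matrix.cons_val]
      rw [e7, e5]; ring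
    rw [this]
    have t1 := n0 d017 (ab1 (bb 0) (bc 1))
    have t2 := n0 d457 (ab1 (bb 4) (bc 5))
    have t3 := abη hη c457.l (n0 d234 (ab1 (bb 2) (ab1 (bb 3) (bc 5))))
    have t4 := n0 d367 (ab1 (bb 3) (bc 6))
    rw [abs_le] at t1 t2 t3 t4 ⊢
    constructor <;> linarith [t1.1, t1.2, t2.1, t2.2, t3.1, t3.2, t4.1, t4.2]
  · have : c 8 - coM (lnOf b) (lnOf g) (b 2) (g 2) (b 4) (b 0) 8 =
        (q 0 5 8 - 1) * (b 0 * c 5) := by
      simp only [coM, lnOf, Ln4.pos, Matrix.cons_val]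
      rw [e8, e5]; ring
    rw [this]
    have := n0 d058 (ab1 (bb 0) (bc 5))
    linarith
  · have : c 9 - coM (lnOf b) (lnOf g) (b 2) (g 2) (b 4) (b 0) 9 =
        (q 0 6 9 - 1) * (b 0 * c 6) - (q 2 8 9 - 1) * (b 2 * c 8) +
        (q 2 8 9 - 1) * (q 0 5 8 * (b 2 * (b 0 * c 5))) -
        (q 2 5 6 - 1) * (b 0 * (b 2 * c 5)) := by
      simp only [coM, lnOf, Ln4.pos, Matrix.cons_val]
      rw [e9, e8, e6, e5]; ring
    rw [this]
    have t1 := n0 d069 (ab1 (bb 0) (bc 6))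
    have t2 := n0 d289 (ab1 (bb 2) (bc 8))
    have t3 := n0 d289 (ab1 c058.l (ab1 (bb 2) (ab1 (bb 0) (bc 5))))
    have t4 := n0 d256 (ab1 (bb 0) (ab1 (bb 2) (bc 5)))
    rw [abs_le] at t1 t2 t3 t4 ⊢
    constructor <;> linarith [t1.1, t1.2, t2.1, t2.2, t3.1, t3.2, t4.1, t4.2]
  · have : c 10 - coM (lnOf b) (lnOf g) (b 2) (g 2) (b 4) (b 0) 10 =
        (q 0 7 10 - 1) * (b 0 * c 7) - q 0 7 10 * (q 0 1 7 * (b 0 * (b 0 * c 1))) +
        2 * (q 0 1 7 * (b 0 * (b 0 * c 1))) - (q 4 8 10 - 1) * (b 4 * c 8) -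
        q 4 8 10 * (q 2 3 4 * (b 2 * (b 3 * c 8))) +
        (q 4 8 10 - 1) * (q 0 5 8 * (b 4 * (b 0 * c 5))) -
        (q 4 5 7 - 1) * (b 0 * (b 4 * c 5)) +
        q 4 8 10 * (q 2 3 4 * (q 0 5 8 * (b 2 * (b 3 * (b 0 * c 5))))) -
        q 3 9 10 * (b 3 * c 9) + q 3 9 10 * (q 0 6 9 * (b 3 * (b 0 * c 6))) -
        q 4 5 7 * (q 2 3 4 * (b 0 * (b 2 * (b 3 * c 5)))) - q 3 6 7 * (b 0 * (b 3 * c 6)) := by
      simp only [coM, lnOf, Ln4.pos, Matrix.cons_val]
      rw [e10, e8, e7, e5]; ring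
    rw [this]
    have t1 := n0 d0710 (ab1 (bb 0) (bc 7))
    have t2 := abη hη c0710.l (n0 d017 (ab1 (bb 0) (ab1 (bb 0) (bc 1))))
    have t3 := n0 d017 (ab1 (bb 0) (ab1 (bb 0) (bc 1)))
    have t4 := n0 d4810 (ab1 (bb 4) (bc 8))
    have t5 := abη hη c4810.l (n0 d234 (ab1 (bb 2) (ab1 (bb 3) (bc 8))))
    have t6 := n0 d4810 (ab1 c058.l (ab1 (bb 4) (ab1 (bb 0) (bc 5))))
    have t7 := n0 d457 (ab1 (bb 0) (ab1 (bb 4) (bc 5)))
    have t8 := abη hη c4810.l (n0 d234 (ab1 c058.l (ab1 (bb 2) (ab1 (bb 3)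
      (ab1 (bb 0) (bc 5))))))
    have t9 := n0 d3910 (ab1 (bb 3) (bc 9))
    have t10 := n0 d3910 (ab1 c069.l (ab1 (bb 3) (ab1 (bb 0) (bc 6))))
    have t11 := abη hη c457.l (n0 d234 (ab1 (bb 0) (ab1 (bb 2) (ab1 (bb 3) (bc 5)))))
    have t12 := n0 d367 (ab1 (bb 0) (ab1 (bb 3) (bc 6)))
    rw [abs_le] at t1 t2 t3 t4 t5 t6 t7 t8 t9 t10 t11 t12 ⊢
    constructor <;> linarith [t1.1, t1.2, t2.1, t2.2, t3.1, t3.2, t4.1, t4.2, t5.1, t5.2, t6.1,
      t6.2, t7.1, t7.2, t8.1, t8.2, t9.1, t9.2, t10.1, t10.2, t11.1, t11.2, t12.1, t12.2]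

/-- absolute coordinates along one fat line -/
theorem line_near {q : Fin 11 → Fin 11 → Fin 11 → ℝ} {η : ℝ} (hη : 0 ≤ η)
    (hq : ∀ i j s, (i, j, s) ∈ ({(2, 5, 6), (0, 1, 7), (4, 5, 7), (3, 6, 7), (0, 5, 8), (0, 6, 9),
      (2, 8, 9), (0, 7, 10), (4, 8, 10), (3, 9, 10), (2, 3, 4)} :
      Finset (Fin 11 × Fin 11 × Fin 11)) → |q i j s| ≤ 1)
    (h017 : |q 0 1 7| ≤ η) {g b c : Fin 11 → ℝ} (H : LawC q g b c)
    (bb : ∀ s, |b s| ≤ 1) (bc : ∀ s, |c s| ≤ 1)
    (hc : ∀ s : Fin 11, s = 2 ∨ s = 5 ∨ s = 6 ∨ s = 7 ∨ s = 8 ∨ s = 9 ∨ s = 10 → |c s| ≤ η)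
    (s : Fin 11) (hs : s = 2 ∨ s = 5 ∨ s = 6 ∨ s = 7 ∨ s = 8 ∨ s = 9 ∨ s = 10) :
    |g s - b s| ≤ 12 * η := by
  have q256 := hq 2 5 6 (by decide)
  have q457 := hq 4 5 7 (by decide)
  have q367 := hq 3 6 7 (by decide)
  have q058 := hq 0 5 8 (by decide)
  have q069 := hq 0 6 9 (by decide)
  have q289 := hq 2 8 9 (by decide)
  have q0710 := hq 0 7 10 (by decide)
  have q4810 := hq 4 8 10 (by decide)
  have q3910 := hq 3 9 10 (by decide)
  have q234 := hq 2 3 4 (by decide)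
  obtain ⟨e0, e1, e2, e3, e4, e5, e6, e7, e8, e9, e10⟩ := H
  have n0 : ∀ {x y : ℝ}, |x| ≤ η → |y| ≤ 1 → |x * y| ≤ η := by
    intro x y hx hy
    rw [mul_comm]; exact abη hη hy hx
  have k2 := hc 2 (by simp)
  have k5 := hc 5 (by simp)
  have k6 := hc 6 (by simp)
  have k7 := hc 7 (by simp)
  have k8 := hc 8 (by simp)
  have k9 := hc 9 (by simp)
  have k10 := hc 10 (by simp)
  rcases hs with rfl | rfl | rfl | rfl | rfl | rfl | rfl
  · have : g 2 - b 2 = c 2 := by rw [e2]; ring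
    rw [this]; linarith
  · have : g 5 - b 5 = c 5 := by rw [e5]; ring
    rw [this]; linarith
  · have : g 6 - b 6 = c 6 + q 2 5 6 * (b 2 * c 5) := by rw [e6]; ring
    rw [this]
    have t1 := abη hη q256 (abη hη (bb 2) k5)
    rw [abs_le] at t1 k6 ⊢
    constructor <;> linarith [t1.1, t1.2, k6.1, k6.2]
  · have : g 7 - b 7 = c 7 - 2 * (q 0 1 7 * (b 0 * c 1)) + q 4 5 7 * (b 4 * c 5) +
        q 4 5 7 * (q 2 3 4 * (b 2 * (b 3 * c 5))) + q 3 6 7 * (b 3 * c 6) := by rw [e7]; ring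
    rw [this]
    have t1 := n0 h017 (ab1 (bb 0) (bc 1))
    have t2 := abη hη q457 (abη hη (bb 4) k5)
    have t3 := abη hη q457 (abη hη q234 (abη hη (bb 2) (abη hη (bb 3) k5)))
    have t4 := abη hη q367 (abη hη (bb 3) k6)
    rw [abs_le] at t1 t2 t3 t4 k7 ⊢
    constructor <;> linarith [t1.1, t1.2, t2.1, t2.2, t3.1, t3.2, t4.1, t4.2, k7.1, k7.2]
  · have : g 8 - b 8 = c 8 - q 0 5 8 * (b 0 * c 5) := by rw [e8]; ring
    rw [this]
    have t1 := abη hη q058 (abη hη (bb 0) k5)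
    rw [abs_le] at t1 k8 ⊢
    constructor <;> linarith [t1.1, t1.2, k8.1, k8.2]
  · have : g 9 - b 9 = c 9 - q 0 6 9 * (b 0 * c 6) + q 2 8 9 * (b 2 * c 8) -
        q 2 8 9 * (q 0 5 8 * (b 2 * (b 0 * c 5))) := by rw [e9]; ring
    rw [this]
    have t1 := abη hη q069 (abη hη (bb 0) k6)
    have t2 := abη hη q289 (abη hη (bb 2) k8)
    have t3 := abη hη q289 (abη hη q058 (abη hη (bb 2) (abη hη (bb 0) k5)))
    rw [abs_le] at t1 t2 t3 k9 ⊢
    constructor <;> linarith [t1.1, t1.2, t2.1, t2.2, t3.1, t3.2, k9.1, k9.2]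
  · have : g 10 - b 10 = c 10 - q 0 7 10 * (b 0 * c 7) +
        q 0 7 10 * (q 0 1 7 * (b 0 * (b 0 * c 1))) + q 4 8 10 * (b 4 * c 8) +
        q 4 8 10 * (q 2 3 4 * (b 2 * (b 3 * c 8))) - q 4 8 10 * (q 0 5 8 * (b 4 * (b 0 * c 5))) -
        q 4 8 10 * (q 2 3 4 * (q 0 5 8 * (b 2 * (b 3 * (b 0 * c 5))))) +
        q 3 9 10 * (b 3 * c 9) - q 3 9 10 * (q 0 6 9 * (b 3 * (b 0 * c 6))) := by rw [e10]; ring
    rw [this]
    have t1 := abη hη q0710 (abη hη (bb 0) k7)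
    have t2 := abη hη q0710 (n0 h017 (ab1 (bb 0) (ab1 (bb 0) (bc 1))))
    have t3 := abη hη q4810 (abη hη (bb 4) k8)
    have t4 := abη hη q4810 (abη hη q234 (abη hη (bb 2) (abη hη (bb 3) k8)))
    have t5 := abη hη q4810 (abη hη q058 (abη hη (bb 4) (abη hη (bb 0) k5)))
    have t6 := abη hη q4810 (abη hη q234 (abη hη q058 (abη hη (bb 2) (abη hη (bb 3)
      (abη hη (bb 0) k5)))))
    have t7 := abη hη q3910 (abη hη (bb 3) k9)
    have t8 := abη hη q3910 (abη hη q069 (abη hη (bb 3) (abη hη (bb 0) k6)))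
    rw [abs_le] at t1 t2 t3 t4 t5 t6 t7 t8 k10 ⊢
    constructor <;> linarith [t1.1, t1.2, t2.1, t2.2, t3.1, t3.2, t4.1, t4.2, t5.1, t5.2, t6.1,
      t6.2, t7.1, t7.2, t8.1, t8.2, k10.1, k10.2]

/-- the formula is Lipschitz -/
theorem coM_lip {η : ℝ} (hη : 0 ≤ η) {b b' g g' : Fin 11 → ℝ} {e e' z z' : ℝ}
    (hb : ∀ s : Fin 11, s = 2 ∨ s = 5 ∨ s = 6 ∨ s = 7 ∨ s = 8 ∨ s = 9 ∨ s = 10 →
      Ap η 1 1 (b s) (b' s))
    (hg : ∀ s : Fin 11, s = 2 ∨ s = 5 ∨ s = 6 ∨ s = 7 ∨ s = 8 ∨ s = 9 ∨ s = 10 →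
      Ap η 1 1 (g s) (g' s))
    (he : Ap η 1 1 e e') (hz : Ap η 1 1 z z') (s : Fin 11) (hs : s ∈ sMir) :
    |coM (lnOf b) (lnOf g) (b 2) (g 2) e z s -
      coM (lnOf b') (lnOf g') (b' 2) (g' 2) e' z' s| ≤ 50 * η := by
  have b2 := hb 2 (by simp)
  have b5 := hb 5 (by simp)
  have b6 := hb 6 (by simp)
  have b7 := hb 7 (by simp)
  have b8 := hb 8 (by simp)
  have b9 := hb 9 (by simp)
  have b10 := hb 10 (by simp)
  have g2 := hg 2 (by simp)
  have g5 := hg 5 (by simp)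
  have g6 := hg 6 (by simp)
  have g7 := hg 7 (by simp)
  have g8 := hg 8 (by simp)
  have g9 := hg 9 (by simp)
  have g10 := hg 10 (by simp)
  rcases mem_sMir hs with rfl | rfl | rfl | rfl | rfl | rfl | rfl
  · simp only [coM, Matrix.cons_val]
    exact (g2.sub b2).mono hη (by norm_num)
  · simp only [coM, lnOf, Matrix.cons_val]
    exact (g5.sub b5).mono hη (by norm_num)
  · simp only [coM, lnOf, Matrix.cons_val]
    exact ((g6.sub b6).sub (b2.mul (g5.sub b5))).mono hη (by norm_num)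
  · simp only [coM, lnOf, Matrix.cons_val]
    exact ((g7.sub b7).sub (he.mul (g5.sub b5))).mono hη (by norm_num)
  · simp only [coM, lnOf, Ln4.pos, Matrix.cons_val]
    exact ((g8.add (hz.mul g5)).sub (b8.add (hz.mul b5))).mono hη (by norm_num)
  · simp only [coM, lnOf, Ln4.pos, Matrix.cons_val]
    exact (((g9.add (hz.mul g6)).sub (b9.add (hz.mul b6))).sub
      (b2.mul ((g8.add (hz.mul g5)).sub (b8.add (hz.mul b5))))).mono hη (by norm_num)
  · simp only [coM, lnOf, Ln4.pos, Matrix.cons_val]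
    exact (((g10.add (hz.mul g7)).sub (b10.add (hz.mul b7))).sub
      (he.mul ((g8.add (hz.mul g5)).sub (b8.add (hz.mul b5))))).mono hη (by norm_num)

variable {ι : ℕ → Type*} [∀ n, DecidableEq (ι n)]

/-- the resolved slots -/
def RsM : Finset (Fin 11) := {0, 2, 4, 5, 6, 7, 8, 9, 10}

/-- **hypotheses on a mirrored window** -/
structure MirHyp (W : Wnd 11 ι) (f : ∀ n, ι n → Fq4) (E : ∀ n, Finset (ι n)) (x : ℝ)
    (q' : ℕ → Fin 11 → Fin 11 → Fin 11 → ℝ) : Prop where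
  P : PQ W f RsM x q'
  kz : W.kz = 0
  S : W.S = {0, 4}
  q1 : ∀ n, Q1 (q' n)
  cfg : ∀ᶠ n in (U : Filter ℕ), W.Good n ∧ E n ⊆ W.Cl n ∧ W.cfg E n = W.cfg0 n (E n)

namespace MirHyp

variable {W : Wnd 11 ι} {f : ∀ n, ι n → Fq4} {E : ∀ n, Finset (ι n)} {x : ℝ}
  {q' : ℕ → Fin 11 → Fin 11 → Fin 11 → ℝ} (h : MirHyp W f E x q')

include h

theorem notMem {s : Fin 11} (hs : s = 2 ∨ s = 5 ∨ s = 6 ∨ s = 7 ∨ s = 8 ∨ s = 9 ∨ s = 10) :
    s ∉ W.S := by
  rw [h.S]
  rcases hs with rfl | rfl | rfl | rfl | rfl | rfl | rfl <;> decide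

theorem line {n : ℕ} (g : W.Good n) (hca : CApp (W.B'.d n ^ x) 1 (cf W n) (q' n)) {u v : ι n}
    (hu : u ∈ W.Cl n) (hv : v ∈ W.Cl n) (hl : W.lc n u = W.lc n v) (s : Fin 11)
    (hs : s = 2 ∨ s = 5 ∨ s = 6 ∨ s = 7 ∨ s = 8 ∨ s = 9 ∨ s = 10) :
    Ap (12 * W.B'.d n ^ x) 1 1 (W.crd n (W.s₀ n) u s) (W.crd n (W.s₀ n) v s) := by
  have hη0 : 0 ≤ W.B'.d n ^ x := Real.rpow_nonneg (W.B'.pos n).le x
  have B : ∀ {u v : ι n}, u ∈ W.Cl n → v ∈ W.Cl n → ∀ s, |W.crd n u v s| ≤ 1 := fun hu hv s =>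
    (h.P.crd4 g hu hv s).trans (by norm_num)
  obtain ⟨c256, c017, c457, c367, c058, c069, c289, c0710, c4810, c3910, c234⟩ := hca
  have key := line_near (q := cf W n) hη0 (by
    intro i j s hm
    simp only [Finset.mem_insert, Finset.mem_singleton, Prod.mk.injEq] at hm
    rcases hm with hm | hm | hm | hm | hm | hm | hm | hm | hm | hm | hm <;>
      (obtain ⟨rfl, rfl, rfl⟩ := hm)
    exacts [c256.l, c017.l, c457.l, c367.l, c058.l, c069.l, c289.l, c0710.l, c4810.l, c3910.l,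
      c234.l]) (by
    have := c017.d
    rwa [(h.q1 n).b017, one_mul, sub_zero] at this) (h.P.q.lawC g g.s0 hu hv) (B g.s0 hu)
    (B hu hv) (fun s hs => (h.P.sm4 (h.P.q.crd_own g hu hv hl (h.notMem hs) (h.P.top s (by
      unfold RsM
      rcases hs with rfl | rfl | rfl | rfl | rfl | rfl | rfl <;> decide)))).trans (by linarith)) s hs
  refine ⟨B g.s0 hu s, B g.s0 hv s, ?_⟩
  rw [abs_sub_comm, one_mul]
  exact key

theorem Z_of_mem {n : ℕ} {E0 : Finset (ι n)} (hE : E0 ⊆ W.Cl n) {i k : ℕ}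
    (h1 : (i, k) ∈ (W.cfg0 n E0).I) : W.zrep n k ∈ W.Cl n ∧ W.zc n (W.zrep n k) = k := by
  have hk : k ∈ (W.cfg0 n E0).Z := mem_image.2 (by
    obtain ⟨u, hu, -, h6⟩ := mem_cfg0 h1; exact ⟨u, hu, h6⟩)
  exact zrep_of_mem hE hk

theorem lrep_of_mem {n : ℕ} {E0 : Finset (ι n)} (hE : E0 ⊆ W.Cl n) {i k : ℕ}
    (h1 : (i, k) ∈ (W.cfg0 n E0).I) : lrep W n i ∈ W.Cl n ∧ W.lc n (lrep W n i) = i := by
  obtain ⟨a1, a2, a3⟩ := rep_of_mem hE h1
  have := lrep_spec a1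
  rw [a2] at this
  exact this

theorem hz {n : ℕ} {E0 : Finset (ι n)} (k : ℕ) : (W.cfg0 n E0).z k = flg W n k 0 := by
  show W.crd n (W.s₀ n) (W.zrep n k) W.kz = _
  rw [h.kz]; rfl

/-- the level slots of an incidence = those of its height -/
theorem lev {n : ℕ} (g : W.Good n) (hca : CApp (W.B'.d n ^ x) 1 (cf W n) (q' n))
    {E0 : Finset (ι n)} (hE : E0 ⊆ W.Cl n) {k i : ℕ} (h1 : (i, k) ∈ (W.cfg0 n E0).I) :
    Ap (12 * W.B'.d n ^ x) 1 1 (W.crd n (W.s₀ n) (W.rep n i k) 0) (flg W n k 0) ∧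
    Ap (12 * W.B'.d n ^ x) 1 1 (W.crd n (W.s₀ n) (W.rep n i k) 4) (flg W n k 4) := by
  have hη0 : 0 ≤ W.B'.d n ^ x := Real.rpow_nonneg (W.B'.pos n).le x
  obtain ⟨a1, a2, a3⟩ := rep_of_mem hE h1
  obtain ⟨z1, z2⟩ := h.Z_of_mem hE h1
  have B : ∀ {u v : ι n}, u ∈ W.Cl n → v ∈ W.Cl n → ∀ s, |W.crd n u v s| ≤ 1 / 4 := fun hu hv s =>
    h.P.crd4 g hu hv s
  have S0 : (0 : Fin 11) ∈ W.S := by rw [h.S]; decide
  have S4 : (4 : Fin 11) ∈ W.S := by rw [h.S]; decide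
  have l0 := h.P.sm4 (h.P.q.crd_lev g a1 z1 (a3.trans z2.symm) S0 (h.P.top 0 (by decide)))
  have l4 := h.P.sm4 (h.P.q.crd_lev g a1 z1 (a3.trans z2.symm) S4 (h.P.top 4 (by decide)))
  have d234 : |cf W n 2 3 4| ≤ W.B'.d n ^ x := by
    have := hca.2.2.2.2.2.2.2.2.2.2.d
    rwa [(h.q1 n).b234, one_mul, sub_zero] at this
  refine ⟨⟨(B g.s0 a1 0).trans (by norm_num), (B g.s0 z1 0).trans (by norm_num), ?_⟩,
    ⟨(B g.s0 a1 4).trans (by norm_num), (B g.s0 z1 4).trans (by norm_num), ?_⟩⟩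
  · have e1 := h.P.q.crd_add g g.s0 a1 z1 (s := 0) (by simp)
    have e3 : W.crd n (W.s₀ n) (W.rep n i k) 0 - flg W n k 0 =
        -W.crd n (W.rep n i k) (W.zrep n k) 0 := by unfold flg; linarith
    rw [e3, abs_neg, one_mul]
    linarith
  · have e1 := h.P.q.crd_four g g.s0 a1 z1
    have e3 : W.crd n (W.s₀ n) (W.rep n i k) 4 - flg W n k 4 =
        cf W n 2 3 4 * (W.crd n (W.s₀ n) (W.rep n i k) 2 *
          W.crd n (W.rep n i k) (W.zrep n k) 3) - W.crd n (W.rep n i k) (W.zrep n k) 4 := by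
      unfold flg; linarith
    rw [e3, one_mul]
    have t1 : |cf W n 2 3 4 * (W.crd n (W.s₀ n) (W.rep n i k) 2 *
          W.crd n (W.rep n i k) (W.zrep n k) 3)| ≤ W.B'.d n ^ x := by
      rw [mul_comm]
      exact abη hη0 (ab1 ((B g.s0 a1 2).trans (by norm_num)) ((B a1 z1 3).trans (by norm_num))) d234
    have t2 := abs_sub (cf W n 2 3 4 * (W.crd n (W.s₀ n) (W.rep n i k) 2 *
          W.crd n (W.rep n i k) (W.zrep n k) 3)) (W.crd n (W.rep n i k) (W.zrep n k) 4)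
    linarith

/-- relative coordinates from absolute ones, one `n` -/
theorem rel0 {n : ℕ} (g : W.Good n) (hca : CApp (W.B'.d n ^ x) 1 (cf W n) (q' n))
    {E0 : Finset (ι n)} (hE : E0 ⊆ W.Cl n) {k i l : ℕ} (h1 : (i, k) ∈ (W.cfg0 n E0).I)
    (h2 : (l, k) ∈ (W.cfg0 n E0).I) {s : Fin 11} (hs : s ∈ sMir) :
    |(W.cfg0 n E0).rel k i l s - coM (absT W n i) (absT W n l) (absE W n i) (absE W n l)
      (flg W n k 4) ((W.cfg0 n E0).z k) s| ≤ 700 * W.B'.d n ^ x := by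
  have hη0 : 0 ≤ W.B'.d n ^ x := Real.rpow_nonneg (W.B'.pos n).le x
  obtain ⟨a1, a2, a3⟩ := rep_of_mem hE h1
  obtain ⟨b1, b2, b3⟩ := rep_of_mem hE h2
  obtain ⟨l1, l2⟩ := h.lrep_of_mem hE h1
  obtain ⟨m1, m2⟩ := h.lrep_of_mem hE h2
  have B : ∀ {u v : ι n}, u ∈ W.Cl n → v ∈ W.Cl n → ∀ s, |W.crd n u v s| ≤ 1 := fun hu hv s =>
    (h.P.crd4 g hu hv s).trans (by norm_num)
  have ex := coM_near hη0 hca (h.q1 n) (h.P.q.lawC g g.s0 a1 b1) (B g.s0 a1) (B a1 b1) s hs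
  obtain ⟨v0, v4⟩ := h.lev g hca hE h1
  have lip := coM_lip (η := 12 * W.B'.d n ^ x) (by positivity)
    (b := W.crd n (W.s₀ n) (W.rep n i k)) (b' := W.crd n (W.s₀ n) (lrep W n i))
    (g := W.crd n (W.s₀ n) (W.rep n l k)) (g' := W.crd n (W.s₀ n) (lrep W n l))
    (fun s hs => h.line g hca a1 l1 (a2.trans l2.symm) s hs)
    (fun s hs => h.line g hca b1 m1 (b2.trans m2.symm) s hs) v4 v0 s hs
  rw [rel_cfg0, if_neg (h.notMem (mem_sMir hs)), h.hz]
  have tri := abs_sub_le (W.crd n (W.rep n i k) (W.rep n l k) s)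
    (coM (lnOf (W.crd n (W.s₀ n) (W.rep n i k))) (lnOf (W.crd n (W.s₀ n) (W.rep n l k)))
      (W.crd n (W.s₀ n) (W.rep n i k) 2) (W.crd n (W.s₀ n) (W.rep n l k) 2)
      (W.crd n (W.s₀ n) (W.rep n i k) 4) (W.crd n (W.s₀ n) (W.rep n i k) 0) s)
    (coM (absT W n i) (absT W n l) (absE W n i) (absE W n l) (flg W n k 4) (flg W n k 0) s)
  have lip' : |coM (lnOf (W.crd n (W.s₀ n) (W.rep n i k)))
      (lnOf (W.crd n (W.s₀ n) (W.rep n l k)))
      (W.crd n (W.s₀ n) (W.rep n i k) 2) (W.crd n (W.s₀ n) (W.rep n l k) 2)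
      (W.crd n (W.s₀ n) (W.rep n i k) 4) (W.crd n (W.s₀ n) (W.rep n i k) 0) s -
    coM (absT W n i) (absT W n l) (absE W n i) (absE W n l) (flg W n k 4) (flg W n k 0) s| ≤
      50 * (12 * W.B'.d n ^ x) := lip
  linarith

/-- **the mirrored window in absolute coordinates** -/
theorem mirGeo : MirGeo W.B' (W.cfg E) x (absT W) (absE W) (fun n k => flg W n k 4) where
  bd := by
    filter_upwards [h.cfg] with n hn l k hlk
    obtain ⟨g, hE, hcfg⟩ := hn
    rw [hcfg] at hlk ⊢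
    obtain ⟨a1, a2, a3⟩ := rep_of_mem hE hlk
    obtain ⟨z1, z2⟩ := h.Z_of_mem hE hlk
    obtain ⟨l1, l2⟩ := h.lrep_of_mem hE hlk
    have B : ∀ {u v : ι n}, u ∈ W.Cl n → v ∈ W.Cl n → ∀ s, |W.crd n u v s| ≤ 1 / 4 :=
      fun hu hv s => h.P.crd4 g hu hv s
    have hz : |flg W n k 0| ≤ 1 / 4 := B g.s0 z1 0
    have hp : ∀ a b : ℝ, |a| ≤ 1 / 4 → |b| ≤ 1 / 4 → |a + flg W n k 0 * b| ≤ 1 := by
      intro a b ha hb
      have h1 := abs_add_le a (flg W n k 0 * b)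
      rw [abs_mul] at h1
      have h2 := mul_le_mul hz hb (abs_nonneg _) (by norm_num)
      linarith
    rw [h.hz]
    refine ⟨hz.trans (by norm_num), fun j => ?_, fun j => ?_, ?_, ?_⟩
    · fin_cases j
      · exact hp _ _ (B g.s0 l1 10) (B g.s0 l1 7)
      · exact hp _ _ (B g.s0 l1 8) (B g.s0 l1 5)
      · exact hp _ _ (B g.s0 l1 9) (B g.s0 l1 6)
    · fin_cases j
      · exact (B g.s0 l1 7).trans (by norm_num)
      · exact (B g.s0 l1 5).trans (by norm_num)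
      · exact (B g.s0 l1 6).trans (by norm_num)
    · exact (B g.s0 l1 2).trans (by norm_num)
    · exact (B g.s0 z1 4).trans (by norm_num)
  bdr := by
    filter_upwards [h.cfg] with n hn k i l h1 h2 s
    obtain ⟨g, hE, hcfg⟩ := hn
    rw [hcfg] at h1 h2 ⊢
    obtain ⟨a1, a2, a3⟩ := rep_of_mem hE h1
    obtain ⟨b1, b2, b3⟩ := rep_of_mem hE h2
    rw [rel_cfg0]
    split_ifs
    · rw [abs_zero]; norm_num
    · exact (h.P.crd4 g a1 b1 s).trans (by norm_num)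
  rel := by
    intro ε hε
    filter_upwards [h.cfg, h.P.capp, Crest.Agent.R136.Gf356.ev_const_le W.B' hε 700] with
      n hn hca hk k i l h1 h2 s hs
    obtain ⟨g, hE, hcfg⟩ := hn
    rw [hcfg] at h1 h2 ⊢
    refine (h.rel0 g hca hE h1 h2 hs).trans ?_
    refine (mul_le_mul_of_nonneg_right hk (Real.rpow_nonneg (W.B'.pos n).le _)).trans
      (le_of_eq ?_)
    rw [← Real.rpow_add (W.B'.pos n)]
    congr 1; ring

end MirHyp

end Crest.Agent.R136.Mir356
end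

-- ▼ part R136/Mir2_356
section

/-!
# R136: the mirrored windows (helper356), part 2: raw twist, instances

* **`rawTw_of_near`** : raw twist between heights from 413's `RawL`, any level slot whose own motion
  is a function of the heights up to `ρ^T`;
* **`MirHyp.rawTw`** : `F_a` of the mirrored window;
* **`mirHyp_of_wat`** : from helper413's `WAt`, plain windows.
-/

set_option autoImplicit false
set_option linter.unusedSectionVars false
set_option linter.unusedVariables false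

open Filter Topology

namespace Crest.Agent.R136.Mir356

open Finset Crest.Agent.R136.NetQ186 Crest.Agent.R136.Net191 Crest.Agent.R136.Qg926
open Crest.Agent.R136.Gf356 Crest.Agent.R136.Ev356 Crest.Agent.R136.Sh605
open Crest.Agent.R136.Ab356 Crest.Agent.R136.C1s940 Crest.Agent.R136.Aw413
open Crest.Agent.R136.Fe1355
open Crest.Agent.R138.Ex926 (Base U)

variable {ι : ℕ → Type*} [∀ n, DecidableEq (ι n)]

/-- **raw twist between heights** -/
theorem rawTw_of_near {W : Wnd 11 ι} {E : ∀ n, Finset (ι n)} {s : Fin 11} {φ : ℕ → ℕ → ℕ → ℝ}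
    {T C : ℝ} (hT : 0 < T)
    (hnr : ∀ᶠ n in (U : Filter ℕ), ∀ l k k', (l, k) ∈ (W.cfg E n).I → (l, k') ∈ (W.cfg E n).I →
      |W.crd n (W.rep n l k) (W.rep n l k') s| ≤ |φ n k k'| + C * W.B'.d n ^ T)
    (hr : RawL W E s) : RawTw W.B' (W.cfg E) φ := by
  intro ε hε
  set δ : ℝ := min (ε / 2) (T / 2) with hδ
  have hδ0 : 0 < δ := lt_min (by positivity) (by positivity)
  have hδε : δ < ε := lt_of_le_of_lt (min_le_left _ _) (by linarith)
  have hδT : δ < T := lt_of_le_of_lt (min_le_right _ _) (by linarith)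
  filter_upwards [hnr, hr δ hδ0 (1 / 2) (by norm_num),
    Crest.Agent.R136.Gf356.ev_const_le W.B' (show 0 < ε - δ by linarith) 2,
    Crest.Agent.R136.Gf356.ev_const_le W.B' (show 0 < T - δ by linarith) (2 * |C|)] with
    n hn hrn h2 h3
  intro i hi S hS hSm
  have hd0 : 0 < W.B'.d n := W.B'.pos n
  have hpow : ∀ t : ℝ, 0 < W.B'.d n ^ t := fun t => Real.rpow_pos_of_pos hd0 t
  have a1 : W.B'.d n ^ ε ≤ W.B'.d n ^ δ / 2 := by
    have : W.B'.d n ^ ε * W.B'.d n ^ (-(ε - δ)) = W.B'.d n ^ δ := by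
      rw [← Real.rpow_add hd0]; congr 1; ring
    have h4 := mul_le_mul_of_nonneg_left h2 (hpow ε).le
    rw [this] at h4
    linarith
  have a2 : |C| * W.B'.d n ^ T ≤ W.B'.d n ^ δ / 2 := by
    have : W.B'.d n ^ T * W.B'.d n ^ (-(T - δ)) = W.B'.d n ^ δ := by
      rw [← Real.rpow_add hd0]; congr 1; ring
    have h4 := mul_le_mul_of_nonneg_left h3 (hpow T).le
    rw [this] at h4
    linarith
  have hsub : S ⊆ ((W.cfg E n).hts i).biUnion fun k =>
      (((W.cfg E n).hts i).filter fun k' =>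
        |W.crd n (W.rep n i k) (W.rep n i k') s| ≤ W.B'.d n ^ δ).image fun k' => (k, k') := by
    intro q hq
    obtain ⟨q1, q2⟩ := mem_product.1 (hS hq)
    refine mem_biUnion.2 ⟨q.1, q1, mem_image.2 ⟨q.2, mem_filter.2 ⟨q2, ?_⟩, rfl⟩⟩
    have g1 := (RCfg.mem_hts.1 q1).2
    have g2 := (RCfg.mem_hts.1 q2).2
    have m2 := hn i q.1 q.2 g1 g2
    have m3 := hSm q hq
    have m4 : C * W.B'.d n ^ T ≤ |C| * W.B'.d n ^ T :=
      mul_le_mul_of_nonneg_right (le_abs_self _) (hpow _).le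
    linarith
  have hcard : (S.card : ℝ) ≤ ∑ k ∈ (W.cfg E n).hts i,
      1 / 2 * (((W.cfg E n).hts i).card : ℝ) := by
    have h5 : (S.card : ℝ) ≤ ∑ k ∈ (W.cfg E n).hts i,
        ((((W.cfg E n).hts i).filter fun k' =>
        |W.crd n (W.rep n i k) (W.rep n i k') s| ≤ W.B'.d n ^ δ).card : ℝ) := by
      have h6 := (card_le_card hsub).trans card_biUnion_le
      have h7 : ∑ k ∈ (W.cfg E n).hts i, ((((W.cfg E n).hts i).filter fun k' =>
          |W.crd n (W.rep n i k) (W.rep n i k') s| ≤ W.B'.d n ^ δ).image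
            fun k' => (k, k')).card ≤
          ∑ k ∈ (W.cfg E n).hts i, (((W.cfg E n).hts i).filter fun k' =>
          |W.crd n (W.rep n i k) (W.rep n i k') s| ≤ W.B'.d n ^ δ).card :=
        sum_le_sum fun k _ => card_image_le
      exact_mod_cast h6.trans h7
    exact h5.trans (sum_le_sum fun k hk => hrn i hi k hk)
  rw [sum_const, nsmul_eq_mul] at hcard
  nlinarith

/-- **raw twist of `F_a`** in the mirrored window -/
theorem MirHyp.rawTw {W : Wnd 11 ι} {f : ∀ n, ι n → Fq4} {E : ∀ n, Finset (ι n)} {x : ℝ}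
    {q' : ℕ → Fin 11 → Fin 11 → Fin 11 → ℝ} (h : MirHyp W f E x q') (hx : 0 < x)
    (hr : RawL W E 4) : RawTw W.B' (W.cfg E) (fun n k k' => flg W n k 4 - flg W n k' 4) := by
  refine rawTw_of_near (C := 30) hx ?_ hr
  filter_upwards [h.cfg, h.P.capp] with n hn hca l k k' h1 h2
  obtain ⟨g, hE, hcfg⟩ := hn
  rw [hcfg] at h1 h2
  have hη0 : 0 ≤ W.B'.d n ^ x := Real.rpow_nonneg (W.B'.pos n).le x
  obtain ⟨a1, a2, a3⟩ := rep_of_mem hE h1
  obtain ⟨b1, b2, b3⟩ := rep_of_mem hE h2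
  have B : ∀ {u v : ι n}, u ∈ W.Cl n → v ∈ W.Cl n → ∀ s, |W.crd n u v s| ≤ 1 := fun hu hv s =>
    (h.P.crd4 g hu hv s).trans (by norm_num)
  have e1 := h.P.q.crd_four g g.s0 a1 b1
  have v := (h.lev g hca hE h1).2.d
  have v' := (h.lev g hca hE h2).2.d
  have d234 : |cf W n 2 3 4| ≤ W.B'.d n ^ x := by
    have := hca.2.2.2.2.2.2.2.2.2.2.d
    rwa [(h.q1 n).b234, one_mul, sub_zero] at this
  have t1 : |cf W n 2 3 4 * (W.crd n (W.s₀ n) (W.rep n l k) 2 *
        W.crd n (W.rep n l k) (W.rep n l k') 3)| ≤ W.B'.d n ^ x := by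
    rw [mul_comm]
    exact abη hη0 (ab1 (B g.s0 a1 2) (B a1 b1 3)) d234
  have e2 : W.crd n (W.rep n l k) (W.rep n l k') 4 =
      -(flg W n k 4 - flg W n k' 4) - (W.crd n (W.s₀ n) (W.rep n l k) 4 - flg W n k 4) +
      (W.crd n (W.s₀ n) (W.rep n l k') 4 - flg W n k' 4) +
      cf W n 2 3 4 * (W.crd n (W.s₀ n) (W.rep n l k) 2 *
        W.crd n (W.rep n l k) (W.rep n l k') 3) := by linarith
  rw [e2]
  have s1 := abs_add_le (-(flg W n k 4 - flg W n k' 4) -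
      (W.crd n (W.s₀ n) (W.rep n l k) 4 - flg W n k 4) +
      (W.crd n (W.s₀ n) (W.rep n l k') 4 - flg W n k' 4)) (cf W n 2 3 4 *
      (W.crd n (W.s₀ n) (W.rep n l k) 2 * W.crd n (W.rep n l k) (W.rep n l k') 3))
  have s2 := abs_add_le (-(flg W n k 4 - flg W n k' 4) -
      (W.crd n (W.s₀ n) (W.rep n l k) 4 - flg W n k 4))
      (W.crd n (W.s₀ n) (W.rep n l k') 4 - flg W n k' 4)
  have s3 := abs_sub (-(flg W n k 4 - flg W n k' 4))
      (W.crd n (W.s₀ n) (W.rep n l k) 4 - flg W n k 4)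
  rw [abs_neg] at s3
  rw [one_mul] at v v'
  have v1 : |W.crd n (W.s₀ n) (W.rep n l k) 4 - flg W n k 4| ≤ 12 * W.B'.d n ^ x := v
  have v2 : |W.crd n (W.s₀ n) (W.rep n l k') 4 - flg W n k' 4| ≤ 12 * W.B'.d n ^ x := v'
  linarith

/-- the walls of the mirrored window -/
structure MirMa (Ma : Mons 11) : Prop where
  a256 : mv 2 5 ∈ Ma.mon 6
  a289 : mv 2 8 ∈ Ma.mon 9
  a457 : mv 4 5 ∈ Ma.mon 7
  a4810 : mv 4 8 ∈ Ma.mon 10
  a058 : mv 0 5 ∈ Ma.mon 8
  a069 : mv 0 6 ∈ Ma.mon 9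
  a0710 : mv 0 7 ∈ Ma.mon 10
  b234 : mv 2 3 ∉ Ma.mon 4
  b367 : mv 3 6 ∉ Ma.mon 7
  b3910 : mv 3 9 ∉ Ma.mon 10
  b017 : mv 0 1 ∉ Ma.mon 7

theorem MirMa.q1 {Ma : Mons 11} (h : MirMa Ma) : Q1 (chi Ma) :=
  ⟨if_pos h.a256, if_pos h.a289, if_pos h.a457, if_pos h.a4810, if_pos h.a058, if_pos h.a069,
    if_pos h.a0710, if_neg h.b234, if_neg h.b367, if_neg h.b3910, if_neg h.b017⟩

theorem MirMa.clo {Ma : Mons 11} (h : MirMa Ma) : CloM RsM Ma where
  w4 := fun _ => Or.inl h.b234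
  w6 := fun _ => Or.inr (by decide)
  w7a := fun _ => Or.inr (by decide)
  w7b := fun _ => Or.inl h.b367
  w8 := fun _ => Or.inr (by decide)
  w9a := fun _ => Or.inr (by decide)
  w9b := fun _ => Or.inr (by decide)
  w10a := fun _ => Or.inr (by decide)
  w10b := fun _ => Or.inr (by decide)
  w10c := fun _ => Or.inl h.b3910

/-- **mirrored windows from helper413's `WAt`** -/
theorem mirHyp_of_wat {B : Base} {I : ∀ n, Finset (ι n)} {co : ∀ n, ι n → ι n → Fin 11 → ℝ}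
    {Ma : Mons 11} {C : ℝ} {lam : (Fin 11 → ℝ) → ℝ} {V Tw : Fin 11 → Prop} {st : WSt 11}
    {W : Wnd 11 ι} {f : ∀ n, ι n → Fq4} (h : WAt B I co monQ Ma C lam V Tw st W)
    (hco : ∀ n, ∀ i ∈ I n, ∀ j ∈ I n, co n i j = coQ (f n i) (f n j)) (hS : st.S = {0, 4})
    (hkz : st.kz = 0) (hkap : ∀ s, st.kap s = (4 * cK0 monQ C) ^ wtQ s) {x : ℝ} (x0 : 0 ≤ x)
    (htop : ∀ s, s ≠ 1 → s ≠ 3 → x ≤ st.top s) (hMa : MirMa Ma) {E : ∀ n, Finset (ι n)}
    (hc : ∀ᶠ n in (U : Filter ℕ), W.Good n ∧ E n ⊆ W.Cl n ∧ W.cfg E n = W.cfg0 n (E n)) :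
    MirHyp W f E x (fun _ => chi Ma) where
  P := PQ.of_at (QAt.of_wat h (Crest.Agent.R136.Wq400.qwnd_of_wat h hco (by
      intro s hs
      rw [hS] at hs
      simp only [Finset.mem_insert, Finset.mem_singleton] at hs
      tauto)) (by rw [hS]; decide) hkap hMa.b017) x0 (by rw [h.eS, hS]; decide)
    (fun s hs => by
      rw [h.etop]
      refine htop s ?_ ?_
      · rintro rfl; exact absurd hs (by decide)
      · rintro rfl; exact absurd hs (by decide)) hMa.clo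
  kz := h.ekz.trans hkz
  S := h.eS.trans hS
  q1 := fun _ => hMa.q1
  cfg := hc

end Crest.Agent.R136.Mir356
end

-- ▼ part R136/C1sG_940
section

/-!
# R136, case C1* (mirrored lightlike), part G (helper940)

* `mirAll` : the geometry of the windows (356's `mirHyp_of_wat`).
* `phiXA`, `phiXB` : fullness of `X_a`, `X_b` as values of the group functions.
* `half` : `A.1 ≤ -5`.
-/

set_option autoImplicit false
set_option linter.unusedVariables false
set_option linter.unusedSectionVars false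

open Filter Topology Finset

namespace Crest.Agent.R136.C1s940

open Crest.Agent.R136.Sh605
open Crest.Agent.R138.Ex926 (Base U U_le_atTop)
open Crest.Agent.R136.Net191 Crest.Agent.R136.NetQ186 Crest.Agent.R136.Gf356
open Crest.Agent.R136.Qg926 Crest.Agent.R136.Dg219 Crest.Agent.R136.Aw413
open Crest.Agent.R136.Ab356 (wtQ)
open Crest.Agent.R136.Fe1355 (RawTw)
open Crest.Agent.R136.Mir356 (MirMa mirHyp_of_wat MirHyp)

variable {ι : ℕ → Type*} [∀ n, DecidableEq (ι n)] {B Bo : Base} {I J : ∀ n, Finset (ι n)}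
  {co : ∀ n, ι n → ι n → Fin 11 → ℝ} {Ma : Mons 11} {C : ℝ} {lam : (Fin 11 → ℝ) → ℝ}
  {a b : Fin 11 → ℝ} {A : ℝ × ℝ} {φ : ℕ → (Fin 11 → ℝ) → ℝ} {r : ℕ → ℝ} {κ : Fin 11 → ℝ}
  {V Tw : Fin 11 → Prop} {m : ℝ} {f : ∀ n, ι n → Fq4}

/-- **geometry of all the windows** -/
theorem mirAll (hco : ∀ n, ∀ i ∈ I n, ∀ j ∈ I n, co n i j = coQ (f n i) (f n j))
    (hMa : MirMa Ma) : MirAll B I co Ma C lam V Tw := by
  intro W E' g hW hPr H hL
  have hq : Ev356.QWnd W f := Crest.Agent.R136.Wq400.qwnd_of_wat hW hco (by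
    intro s hs
    have : s = 0 ∨ s = 4 := mem_sM s hs
    tauto)
  have hc := Crest.Agent.R136.Wq400.hcQ hq hPr
  have hM := mirHyp_of_wat hW hco rfl rfl (fun s => rfl) (x := 1) zero_le_one (by
    intro s h1 h3
    show 1 ≤ topM s
    fin_cases s <;> simp [topM] at h1 h3 ⊢) hMa hc
  exact ⟨_, _, _, hM.mirGeo, hM.rawTw one_pos hL⟩

/-- `X_a` -/
theorem phiXA (hP : PlaneM a b) (ho : OutS (gC a b) (coneM Ma) (dhC a b) (nC a b) lam A φ r)
    (hcone : ∀ c, c ∈ coneM Ma ↔ ConeM c)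
    (hX : 1 ≤ lam (![1, 0, 0, 0, 0, 0, 0, 0, 0, 0, 0]) - lam (![1, 0, 0, 0, 0, 0, 0, 0, 1, 0, 0])) :
    φ (gC a b 7) (![0, 0, 0, 0, 0, 0, 0, 0, 1, 0, 0]) ≤ -1 := by
  have m1 : (![1, 0, 0, 0, 0, 0, 0, 0, 0, 0, 0] : Fin 11 → ℝ) ∈ coneM Ma := by
    rw [hcone]
    simp only [ConeM, Matrix.cons_val]
    norm_num
  have m2 : (![1, 0, 0, 0, 0, 0, 0, 0, 1, 0, 0] : Fin 11 → ℝ) ∈ coneM Ma := by
    rw [hcone]
    simp only [ConeM, Matrix.cons_val]
    norm_num
  have h1 := outS_one ho m1 m2 (i₀ := 7) (by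
    intro i hi
    have h8 : i ≠ 8 := fun h => hi ((hP.grpB i).2 (Or.inr h))
    fin_cases i <;> simp at h8 ⊢)
  have h2 : φ (gC a b 7) (![1, 0, 0, 0, 0, 0, 0, 0, 0, 0, 0]) = 0 := ho.zero _ _ fun i hi => by
    rcases (hP.grpB i).1 hi with rfl | rfl <;> simp
  have h3 : φ (gC a b 7) (![1, 0, 0, 0, 0, 0, 0, 0, 1, 0, 0]) =
      φ (gC a b 7) (![0, 0, 0, 0, 0, 0, 0, 0, 1, 0, 0]) := ho.loc _ _ _ fun i hi => by
    rcases (hP.grpB i).1 hi with rfl | rfl <;> simp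
  rw [h1, h2, h3] at hX
  linarith

/-- `X_b` -/
theorem phiXB (hP : PlaneM a b) (ho : OutS (gC a b) (coneM Ma) (dhC a b) (nC a b) lam A φ r)
    (hah : AddHom (coneM Ma) a b φ) (hcone : ∀ c, c ∈ coneM Ma ↔ ConeM c) {t : ℝ} (ht : 0 < t)
    (ht1 : t ≤ 1)
    (hX : t ≤ lam (![1, 0, 0, 0, 0, 0, 0, 0, 1, 0, 0]) - lam (![1, 0, 0, 0, 0, 0, 0, 0, 1, t, 0])) :
    φ (gC a b 9) (![0, 0, 0, 0, 0, 0, 0, 0, 0, 1, 0]) ≤ -1 := by
  have m1 : (![1, 0, 0, 0, 0, 0, 0, 0, 1, 0, 0] : Fin 11 → ℝ) ∈ coneM Ma := by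
    rw [hcone]
    simp only [ConeM, Matrix.cons_val]
    norm_num
  have m2 : (![1, 0, 0, 0, 0, 0, 0, 0, 1, t, 0] : Fin 11 → ℝ) ∈ coneM Ma := by
    rw [hcone]
    simp only [ConeM, Matrix.cons_val]
    refine ⟨?_, ?_, ?_, ?_, ?_, ?_, ?_⟩ <;> linarith
  have m3 : (![1, 0, 1, 0, 1, 1, 1, 1, 1, 1, 0] : Fin 11 → ℝ) ∈ coneM Ma := by
    rw [hcone]
    simp only [ConeM, Matrix.cons_val]
    norm_num
  have hpos : ∀ i, gC a b i = gC a b 9 → 0 < dhC a b i := by
    intro i hi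
    rcases (hP.grpC i).1 hi with rfl | rfl
    · rw [dhC, hP.a9]; norm_num
    · rw [dhC, hP.a10]; norm_num
  have h1 := outS_one ho m1 m2 (i₀ := 9) (by
    intro i hi
    have h8 : i ≠ 9 := fun h => hi (by rw [h])
    fin_cases i <;> simp at h8 ⊢)
  have h2 : φ (gC a b 9) (![1, 0, 0, 0, 0, 0, 0, 0, 1, 0, 0]) = 0 := ho.zero _ _ fun i hi => by
    rcases (hP.grpC i).1 hi with rfl | rfl <;> simp
  have h3 : φ (gC a b 9) (![1, 0, 0, 0, 0, 0, 0, 0, 1, t, 0]) =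
      φ (gC a b 9) (t • (![1, 0, 1, 0, 1, 1, 1, 1, 1, 1, 0] : Fin 11 → ℝ)) :=
    ho.loc _ _ _ fun i hi => by
      rcases (hP.grpC i).1 hi with rfl | rfl <;> simp
  have h4 : φ (gC a b 9) (![1, 0, 1, 0, 1, 1, 1, 1, 1, 1, 0]) =
      φ (gC a b 9) (![0, 0, 0, 0, 0, 0, 0, 0, 0, 1, 0]) := ho.loc _ _ _ fun i hi => by
    rcases (hP.grpC i).1 hi with rfl | rfl <;> simp
  rw [h1, h2, h3, hah.hom _ hpos _ m3 t ht.le, h4] at hX
  nlinarith

/-- **the F-half of C1*** from the fullness of `X_a`, `X_b` -/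
theorem half (h : AeW B Bo I J co monQ Ma C lam a b A φ r 0 1 κ V Tw) (hC : 0 ≤ C)
    (hJ : ∀ᶠ n in (U : Filter ℕ), (J n).Nonempty) (hV : ∀ k, V k → k = 3 ∨ k = 4) (hT : Tw 4)
    (hco : ∀ n, ∀ i ∈ I n, ∀ j ∈ I n, co n i j = coQ (f n i) (f n j)) (hMa : MirMa Ma)
    (hP : PlaneM a b) (hah : AddHom (coneM Ma) a b φ) (hcone : ∀ c, c ∈ coneM Ma ↔ ConeM c)
    (hXA : 1 ≤ lam (![1, 0, 0, 0, 0, 0, 0, 0, 0, 0, 0]) -
      lam (![1, 0, 0, 0, 0, 0, 0, 0, 1, 0, 0]))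
    (hXB : ∃ t : ℝ, 0 < t ∧ t ≤ 1 ∧ t ≤ lam (![1, 0, 0, 0, 0, 0, 0, 0, 1, 0, 0]) -
      lam (![1, 0, 0, 0, 0, 0, 0, 0, 1, t, 0])) (hm : 0 < m)
    (hS1 : ∀ y : ℝ, 0 ≤ y → y ≤ 1 → m * y ≤ lam 0 - lam (![0, 0, 0, 0, 0, y, 0, 0, 0, 0, 0])) :
    A.1 ≤ -5 := by
  obtain ⟨t, t0, t1, ht⟩ := hXB
  have h1 := phiXA hP h.out hcone hXA
  have h2 := phiXB hP h.out hah hcone t0 t1 ht
  exact A_le h hP hcone h1 (rC_ge h hC hJ hV hT hP hah hcone h2 h1 hm hS1 (mirAll hco hMa))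

end Crest.Agent.R136.C1s940
end

-- ▼ part R136/C1sI_940
section

/-!
# R136, cases C1 and C1* (helper940): the base window

`w0h_of_aew` : the base window (level slot `z`, resolved slots `E, C_a, C_b, X_a, X_b`) of 413's
`AeW` gives 865's `W0H lam 1`.  No hypothesis on the slopes.
-/

set_option autoImplicit false
set_option linter.unusedVariables false
set_option linter.unusedSectionVars false

open Filter Topology Finset

namespace Crest.Agent.R136.C1s940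

open Crest.Agent.R136.Sh605
open Crest.Agent.R138.Ex926 (Base U U_le_atTop)
open Crest.Agent.R136.Net191 Crest.Agent.R136.NetQ186 Crest.Agent.R136.Gf356
open Crest.Agent.R136.Qg926 Crest.Agent.R136.Dg219 Crest.Agent.R136.Aw413
open Crest.Agent.R136.Ab356 (wtQ)
open Crest.Agent.R136.Ev356
open Crest.Agent.R136.Mir356 (MirMa)
open Crest.Agent.R136.C1865 (M0 bw bz LF)

/-- resolution of the base window -/
def topB : Fin 11 → ℝ := ![1, 0, 1, 0, 0, 1, 1, 0, 1, 1, 0]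

/-- static data of the base window -/
noncomputable def stB (Ma : Mons 11) (C : ℝ) : WSt 11 where
  S := {0}
  kz := 0
  top := topB
  kap := fun s => (4 * cK0 monQ C) ^ wtQ s
  Mw := Ma
  R' := 1

theorem cut_z (p q : Fin 11 → ℝ) :
    cut ({0} : Finset (Fin 11)) p q =
      ![q 0, p 1, p 2, p 3, p 4, p 5, p 6, p 7, p 8, p 9, p 10] := by
  funext s
  fin_cases s <;> simp [cut]

variable {Ma : Mons 11} {C : ℝ}

theorem stB_ok (hcone : ∀ c, c ∈ coneM Ma ↔ ConeM c) (hsub : ∀ k, Ma.mon k ⊆ monQ.mon k)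
    (hC : 0 ≤ C) : (stB Ma C).Ok monQ (coneM Ma) where
  R0 := zero_le_one
  leg := leg_cone fun k => Finset.Subset.refl _
  top_leg := by
    show topB ∈ Leg Ma 1
    rw [mem_leg hcone]
    refine ⟨fun s => ?_, fun s => ?_, ?_⟩
    · fin_cases s <;> simp [topB]
    · fin_cases s <;> simp [topB]
    · simp only [ConeM, topB, Matrix.cons_val]
      norm_num
  lin_leg := by
    show cut {0} topB 0 ∈ Leg Ma 1
    rw [mem_leg hcone, cut_z]
    refine ⟨fun s => ?_, fun s => ?_, ?_⟩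
    · fin_cases s <;> simp [topB]
    · fin_cases s <;> simp [topB]
    · simp only [ConeM, topB, Matrix.cons_val, Pi.zero_apply]
      norm_num
  lev_leg := by
    show cut {0} 0 topB ∈ Leg Ma 1
    rw [mem_leg hcone, cut_z]
    refine ⟨fun s => ?_, fun s => ?_, ?_⟩
    · fin_cases s <;> simp [topB]
    · fin_cases s <;> simp [topB]
    · simp only [ConeM, topB, Matrix.cons_val, Pi.zero_apply]
      norm_num
  kzS := by
    show (0 : Fin 11) ∈ ({0} : Finset (Fin 11))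
    decide
  kz0 := by
    show monQ.mon 0 = ∅
    rfl
  kzw := by
    show Ma.mon 0 = ∅
    exact Finset.subset_empty.1 (hsub 0)
  kap := fun s => by
    show 0 < (4 * cK0 monQ C) ^ wtQ s
    have := cK0_one (M := monQ) hC
    positivity

variable {ι : ℕ → Type*} [∀ n, DecidableEq (ι n)] {B Bo : Base} {I J : ∀ n, Finset (ι n)}
  {co : ∀ n, ι n → ι n → Fin 11 → ℝ} {lam : (Fin 11 → ℝ) → ℝ} {a b : Fin 11 → ℝ} {A : ℝ × ℝ}
  {φ : ℕ → (Fin 11 → ℝ) → ℝ} {r : ℕ → ℝ} {κ : Fin 11 → ℝ} {V Tw : Fin 11 → Prop} {m : ℝ}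
  {f : ∀ n, ι n → Fq4}

/-- resolved slots of the base window -/
def rsB : Finset (Fin 11) := {0, 2, 5, 6, 8, 9}

theorem cloB : CloM rsB Ma where
  w4 := fun h => absurd h (by decide)
  w6 := fun _ => Or.inr (by decide)
  w7a := fun h => absurd h (by decide)
  w7b := fun h => absurd h (by decide)
  w8 := fun _ => Or.inr (by decide)
  w9a := fun _ => Or.inr (by decide)
  w9b := fun _ => Or.inr (by decide)
  w10a := fun h => absurd h (by decide)
  w10b := fun h => absurd h (by decide)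
  w10c := fun h => absurd h (by decide)

theorem mem_rsB : ∀ s ∈ rsB, topB s = 1 := by
  intro s hs
  fin_cases s <;> first | exact absurd hs (by decide) | simp [topB]

/-- **the base model** -/
theorem m0_of_wat {W : Wnd 11 ι} {E' : ∀ n, Finset (ι n)} {g : ℕ → ℝ}
    {ex : ℕ → ∀ n, ι n → ℕ} (hW : WAt B I co monQ Ma C lam V Tw (stB Ma C) W)
    (hP : Wnd.Pruned W W.sec E' g ex) (H : RModel W.B' (W.cfg E') 1 1 W.legW W.nu W.Dc)
    (hco : ∀ n, ∀ i ∈ I n, ∀ j ∈ I n, co n i j = coQ (f n i) (f n j))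
    (hcone : ∀ c, c ∈ coneM Ma ↔ ConeM c) (hMa : MirMa Ma) :
    M0 W.B' (W.cfg E') W.legW W.nu 1 W.Dc := by
  have hq : QWnd W f := Crest.Agent.R136.Wq400.qwnd_of_wat hW hco (by
    intro s hs
    have : s ∈ ({0} : Finset (Fin 11)) := hs
    left
    simpa using this)
  have hc := Crest.Agent.R136.Wq400.hcQ hq hP
  have hQ : QAt W f Ma := QAt.of_wat hW hq (by
    show (0 : Fin 11) ∈ ({0} : Finset (Fin 11))
    decide) (fun s => rfl) hMa.b017
  have P : PQ W f rsB 1 (fun _ => chi Ma) := PQ.of_at hQ zero_le_one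
    (by
      rw [hW.eS]
      show ({0} : Finset (Fin 11)) ⊆ rsB
      decide) (fun s hs => by
      rw [hW.etop]
      exact (mem_rsB s hs).ge) cloB
  have hkz : W.kz = 0 := hW.ekz
  have hS : W.S = {0} := hW.eS
  have c058 : chi Ma 0 5 8 = 1 := if_pos hMa.a058
  have c069 : chi Ma 0 6 9 = 1 := if_pos hMa.a069
  have c289 : chi Ma 2 8 9 = 1 := if_pos hMa.a289
  have bd : ∀ᶠ n in (U : Filter ℕ), (∀ k ∈ (W.cfg E' n).Z, |(W.cfg E' n).z k| ≤ 1) ∧
      ∀ k i l, (i, k) ∈ (W.cfg E' n).I → (l, k) ∈ (W.cfg E' n).I →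
        ∀ s, |(W.cfg E' n).rel k i l s| ≤ 1 := by
    filter_upwards [hc, hq.z_eq hkz hc] with n hn hz
    obtain ⟨g, hE, hcfg⟩ := hn
    refine ⟨fun k hk => ?_, fun k i l h1 h2 s => ?_⟩
    · rw [hz k]
      rw [hcfg] at hk
      exact (P.crd4 g g.s0 (zrep_of_mem hE hk).1 0).trans (by norm_num)
    · rw [hcfg] at h1 h2 ⊢
      rw [rel_cfg0]
      split_ifs
      · rw [abs_zero]; norm_num
      · exact (P.crd4 g (rep_of_mem hE h1).1 (rep_of_mem hE h2).1 s).trans (by norm_num)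
  refine ⟨H, one_pos, ?_, ?_, ?_, ?_, ?_⟩
  · -- leg
    intro e ca cb xa xb e0 e1 ca0 ca1 cb0 cb1 xa0 xa1 xb0 xb1 w6 w9
    show cut W.S _ W.top ∈ Leg W.Mw W.R' ∧ _
    rw [hW.eS, hW.etop, hW.eMw, hW.eR]
    refine ⟨?_, fun s hs => ?_⟩
    · show cut {0} _ topB ∈ Leg Ma 1
      rw [mem_leg hcone, cut_z]
      refine ⟨fun s => ?_, fun s => ?_, ?_⟩
      · fin_cases s <;> simp [topB, bw] <;> assumption
      · fin_cases s <;> simp [topB, bw] <;> assumption
      · simp only [ConeM, topB, bw, Matrix.cons_val]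
        refine ⟨?_, ?_, ?_, ?_, ?_, ?_, ?_⟩ <;> linarith
    · show bw e ca cb 0 xa xb 0 s ≤ topB s
      fin_cases s <;> simp [topB, bw] <;> assumption
  · -- zb
    intro ε hε
    filter_upwards [bd, Crest.Agent.R136.Gf356.ev_const_le W.B' hε 2] with n hn h2 k hk k' hk'
    have := abs_sub ((W.cfg E' n).z k') ((W.cfg E' n).z k)
    linarith [hn.1 k hk, hn.1 k' hk']
  · -- rb
    intro ε hε
    filter_upwards [bd, Crest.Agent.R136.Gf356.ev_const_le W.B' hε 1] with n hn h2 k i l h3 h4 s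
    exact (hn.2 k i l h3 h4 s).trans h2
  · -- ev
    intro ε hε
    filter_upwards [P.evo hc hε, hc, hq.mot_eq hc, hq.z_eq hkz hc] with n hn hcn hm hz k k' i l
      h1 h2 h3 h4
    have key := hn k k' i l h1 h3 h2 h4
    obtain ⟨g, hE, hcfg⟩ := hcn
    have hk : k ∈ (W.cfg E' n).Z := by
      rw [hcfg] at h1 ⊢
      obtain ⟨u, hu, -, h6⟩ := mem_cfg0 h1
      exact mem_image.2 ⟨u, hu, h6⟩
    have hk' : k' ∈ (W.cfg E' n).Z := by
      rw [hcfg] at h3 ⊢
      obtain ⟨u, hu, -, h6⟩ := mem_cfg0 h3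
      exact mem_image.2 ⟨u, hu, h6⟩
    have o2 : ownC (chi Ma) W n k k' (fsl W n i k 2) (fsl W n i k 3) 2 = 0 := by
      show mot W n k k' 2 = 0
      unfold mot
      rw [if_neg (by rw [hS]; decide)]
    have o0 : ownC (chi Ma) W n k k' (fsl W n i k 2) (fsl W n i k 3) 0 =
        (W.cfg E' n).z k' - (W.cfg E' n).z k := by
      show mot W n k k' 0 = _
      unfold mot
      rw [if_pos (by rw [hS]; decide), (hm k hk k' hk').1 0 (Or.inl rfl), hz, hz]
    refine ⟨?_, ?_, ?_⟩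
    · have := key 2 (by decide) (by rw [hS]; decide)
      simpa [evoC] using this
    · have := key 8 (by decide) (by rw [hS]; decide)
      simp only [evoC, Matrix.cons_val, o0, c058, one_mul] at this
      exact this
    · have := key 9 (by decide) (by rw [hS]; decide)
      simp only [evoC, Matrix.cons_val, o0, o2, c058, c069, c289, one_mul, zero_mul,
        sub_zero] at this
      exact this
  · -- co
    intro ε hε
    filter_upwards [P.comp hc hε] with n hn k i l l' h1 h2 h3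
    have key := hn k i l l' h1 h2 h3
    refine ⟨?_, ?_⟩
    · have := key 8 (by rw [hS]; decide)
      simp only [compC, Matrix.cons_val] at this
      have e : (W.cfg E' n).rel k i l' 8 - (W.cfg E' n).rel k i l 8 - (W.cfg E' n).rel k l l' 8 =
          (W.cfg E' n).rel k i l' 8 - ((W.cfg E' n).rel k i l 8 + (W.cfg E' n).rel k l l' 8) := by
        ring
      rw [e]
      exact this
    · have := key 9 (by rw [hS]; decide)
      simp only [compC, Matrix.cons_val, c289, one_mul] at this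
      have e : (W.cfg E' n).rel k i l' 9 - (W.cfg E' n).rel k i l 9 - (W.cfg E' n).rel k l l' 9 -
          (W.cfg E' n).rel k i l 2 * (W.cfg E' n).rel k l l' 8 = (W.cfg E' n).rel k i l' 9 -
          ((W.cfg E' n).rel k i l 9 + (W.cfg E' n).rel k l l' 9 +
            (W.cfg E' n).rel k i l 2 * (W.cfg E' n).rel k l l' 8) := by
        ring
      rw [e]
      exact this

/-- **the base window** -/
theorem w0h_of_aew (h : AeW B Bo I J co monQ Ma C lam a b A φ r 0 1 κ V Tw) (hC : 0 ≤ C)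
    (hJ : ∀ᶠ n in (U : Filter ℕ), (J n).Nonempty) (hV : ∀ k, V k → k = 3 ∨ k = 4)
    (hco : ∀ n, ∀ i ∈ I n, ∀ j ∈ I n, co n i j = coQ (f n i) (f n j)) (hMa : MirMa Ma)
    (hcone : ∀ c, c ∈ coneM Ma ↔ ConeM c) : LF.W0H lam 1 := by
  have hok := stB_ok hcone h.sub hC
  obtain ⟨W, hW, -, -⟩ := h.wnd (stB Ma C) rfl hok (fun _ _ => 1)
    (fun i => Crest.Agent.R138.Ex926.Base.Sub.const one_pos) J (fun _ => 1)
    (Eventually.of_forall fun n => Finset.Subset.refl _) hJ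
    (Crest.Agent.R138.Ex926.Base.Sub.const one_pos) (Eventually.of_forall fun n => by simp)
  have hsing : ∀ y : ℝ, 0 ≤ y → (Pi.single 0 y : Fin 11 → ℝ) ∈ coneM Ma := by
    intro y hy
    have e : (Pi.single 0 y : Fin 11 → ℝ) = ![y, 0, 0, 0, 0, 0, 0, 0, 0, 0, 0] := by
      funext s
      fin_cases s <;> simp
    rw [e, hcone]
    simp only [ConeM, Matrix.cons_val]
    refine ⟨?_, ?_, ?_, ?_, ?_, ?_, ?_⟩ <;> linarith
  have hden : (stB Ma C).Dens lam 1 1 := by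
    refine ⟨?_, zero_le_one, le_rfl, ?_, ?_⟩
    · have m1 : cut ({0} : Finset (Fin 11)) topB 0 ∈ coneM Ma := hok.leg hok.lin_leg
      have m2 : topB ∈ coneM Ma := hok.leg hok.top_leg
      have m3 : cut ({0} : Finset (Fin 11)) 0 topB ∈ coneM Ma := hok.leg hok.lev_leg
      show lam topB ≤ lam (cut {0} topB 0) + lam (cut {0} 0 topB)
      have e1 := h.own _ m1 _ m2 (by
        intro s
        rw [cut_z]
        fin_cases s <;> simp [topB]) (by
        intro k hk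
        rw [cut_z]
        rcases hV k hk with rfl | rfl <;> simp [topB])
      have e2 := h.sharp 0 zero_mem _ m3 (by
        intro s
        rw [cut_z]
        fin_cases s <;> simp [topB])
      rw [h.zero] at e2
      have e3 : ∑ s, (cut ({0} : Finset (Fin 11)) 0 topB s - (0 : Fin 11 → ℝ) s) = 1 := by
        rw [cut_z]
        simp [Fin.sum_univ_succ, topB]
      rw [e3] at e2
      have e4 : topB 0 - cut ({0} : Finset (Fin 11)) topB 0 0 = 1 := by
        rw [cut_z]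
        simp [topB]
      rw [e4] at e1
      linarith
    · show (1 : ℝ) ≤ topB 0
      simp [topB]
    · intro y hy _
      show lam (Pi.single 0 y) ≤ -(1 * y)
      have e1 := h.own 0 zero_mem _ (hsing y hy) (by
        intro s
        by_cases hs : s = 0
        · subst hs; simpa using hy
        · rw [Pi.single_eq_of_ne hs]; rfl) (fun k _ => by simp)
      rw [h.zero, Pi.single_eq_same] at e1
      simp only [Pi.zero_apply] at e1
      linarith
  obtain ⟨E', g, hPr, -, H, -⟩ := hW.model hden (fun _ _ _ => 0)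
    (g₀ := fun n => (n : ℝ)) (tendsto_natCast_atTop_atTop.mono_left U_le_atTop) (by
      intro k hk
      right
      show topB k = 0
      rcases hV k hk with rfl | rfl <;> simp [topB])
  refine ⟨W.B', W.cfg E', W.legW, W.nu, W.Dc, lam topB, m0_of_wat hW hPr H hco hcone hMa, ?_⟩
  intro e ca cb xa xb
  show W.lam (cut W.S _ W.top) - W.lam W.top = _
  rw [hW.elam, hW.eS, hW.etop]
  show lam (cut {0} _ topB) - lam topB = _
  rw [cut_z]
  rfl

end Crest.Agent.R136.C1s940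
end

-- ▼ part R136/C1sH_940

/-!
# R136, case C1* (mirrored lightlike), part H (helper940): the row

* `slo_F`, `planeM_F`, `mirMa_F` : the plane of 628 with slack `F_b`.
* `lx_of_row` : the facts of one point of the row.
* **`caseC1s : DeadG η pC1s`** (`0 < η ≤ 1 / 8`).
-/

set_option autoImplicit false
set_option linter.unusedVariables false
set_option linter.unusedSectionVars false

open Filter Topology Finset

namespace Crest.Agent.R136.C1s940

open Crest.Agent.R136.Net191 Crest.Agent.R136.NetQ186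
open Crest.Agent.R136.NatT550 Crest.Agent.R136.NatR550
open Crest.Agent.R136.Lq196 Crest.Agent.R136.Wq638
open Crest.Agent.R136.Gf356 Crest.Agent.R136.Qg926
open Crest.Agent.R136.Dg219
open Crest.Agent.R136.Dg262 (X)
open Crest.Agent.R136.Aw413
open Crest.Agent.R136.Rc146 (OutA)
open Crest.Agent.R138.Ex926 (Base U)
open Crest.Agent.R136.Top484 (Par4 Dat4)
open Crest.Agent.R136.TopB550 (DeadG pC1s LLs)
open Crest.Agent.R136.Mir356 (MirMa)
open Crest.Agent.R136.Ev356 (mv)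
open Crest.Agent.R136.GeoQ186 (scl)
open Crest.Agent.R136.C1865 (M0 bw bz mem_bz bz_le Slo)
open Crest.Agent.R136.Tb628 (coneF eCa eECb RowPt Hom RecS sA sB s0 row_F0 mem_act slack)

variable {θ : Fin 3 → ℝ} {w0 R κ3 kf : ℝ}

/-- slopes of the plane with slack `F_b` -/
theorem slo_F (h1 : 0 < θ 1) (hk : κ3 = θ 1 - θ 0) (hf : 0 ≤ kf) :
    Slo (Tb628.fA 0 κ3 kf) (Tb628.fB θ 0 κ3 kf) κ3 (θ 2 / θ 1) := by
  have e1 : (θ 0 + κ3) / θ 1 = 1 := by
    rw [hk, add_sub_cancel, div_self h1.ne']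
  have hA : ∀ k : Fin 11, k ≠ 3 → Tb628.fA 0 κ3 kf k = nL 1 0 0 κ3 k := fun k hk => by
    rw [Tb628.fA, Function.update_of_ne hk]; rfl
  have hB : ∀ k : Fin 11, k ≠ 3 → Tb628.fB θ 0 κ3 kf k = nL 0 1 (θ 2 / θ 1) 1 k := fun k hk => by
    rw [Tb628.fB, Function.update_of_ne hk, sB, add_zero, e1]
  refine ⟨?_, ?_, ?_, ?_, ?_, ?_, ?_, ?_, ?_, ?_, ?_, ?_, ?_, ?_, ?_, ?_, ?_, ?_, ?_, ?_⟩
  · rw [hA _ (by decide)]; simp [nL]
  · rw [hA _ (by decide)]; simp [nL]
  · rw [hA _ (by decide)]; simp [nL]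
  · rw [Tb628.fA, Function.update_self]; exact hf
  · rw [hA _ (by decide)]; simp [nL]
  · rw [hA _ (by decide)]; simp [nL]
  · rw [hA _ (by decide)]; simp [nL]
  · rw [hA _ (by decide)]; simp [nL]
  · rw [hA _ (by decide)]; simp [nL]
  · rw [hA _ (by decide)]; simp [nL]
  · rw [hA _ (by decide)]; simp [nL]
  · rw [hB _ (by decide)]; simp [nL]
  · rw [hB _ (by decide)]; simp [nL]
  · rw [hB _ (by decide)]; simp [nL]
  · rw [hB _ (by decide)]; simp [nL]
  · rw [hB _ (by decide)]; simp [nL]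
  · rw [hB _ (by decide)]; simp [nL]
  · rw [hB _ (by decide)]; simp [nL]
  · rw [hB _ (by decide)]; simp [nL]
  · rw [hB _ (by decide)]; simp [nL]

/-- the plane of C1* -/
theorem planeM_F (h1 : 0 < θ 1) (hL1 : θ 1 - θ 0 = 1) (hL2 : θ 2 = θ 1 / 2) (hf : 0 ≤ kf)
    (hf1 : kf < 1) (hpar : kf = 0 ∨ (θ 2 - θ 0 < kf ∧ 0 < θ 2 - θ 0)) :
    PlaneM (Tb628.fA 0 1 kf) (Tb628.fB θ 0 1 kf) := by
  have sl := slo_F (θ := θ) (κ3 := 1) h1 hL1.symm hf
  have hs : θ 2 / θ 1 = 1 / 2 := by rw [hL2]; field_simp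
  rw [hs] at sl
  refine ⟨sl.a0, sl.b0, sl.a1, sl.a2, sl.a3, sl.a4, sl.b4, sl.a5, sl.a6, sl.a7, sl.b7, sl.a8,
    sl.b8, sl.a9, sl.b9, ?_, sl.b10, ?_⟩
  · rw [sl.a10]; norm_num
  · have a3 : Tb628.fA 0 1 kf 3 = kf := by rw [Tb628.fA, Function.update_self]
    have b3 : Tb628.fB θ 0 1 kf 3 = (kf - (θ 2 - θ 0)) / θ 1 := by
      rw [Tb628.fB, Function.update_self]
    rw [a3, b3]
    rcases hpar with h | ⟨h2, h3⟩
    · exact Or.inl h
    · right
      have hk : θ 2 - θ 0 = 1 - θ 1 / 2 := by rw [hL2]; linarith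
      rw [hk] at h2 h3 ⊢
      have hk0 : 0 < kf := h3.trans h2
      refine ⟨?_, ?_, ?_⟩
      · exact (div_pos (div_pos (by linarith) h1) hk0).ne'
      · intro h
        rw [div_eq_iff hk0.ne', one_mul, div_eq_iff h1.ne'] at h
        rcases le_total (θ 1) 1 with h4 | h4
        · nlinarith
        · nlinarith
      · intro h
        rw [div_eq_iff hk0.ne', div_eq_iff h1.ne'] at h
        have h5 : (kf - 1) * (2 - θ 1) = 0 := by linarith
        rcases mul_eq_zero.1 h5 with h6 | h6 <;> linarith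

/-- the walls -/
theorem mirMa_F (h1 : 0 < θ 1) (hk : κ3 = θ 1 - θ 0) (hf : 0 ≤ kf) (hf1 : kf < κ3) :
    MirMa (actM monQ (s0 w0 (R - 1)) (Tb628.fA 0 κ3 kf) (Tb628.fB θ 0 κ3 kf)) := by
  have sl := slo_F (θ := θ) h1 hk hf
  have a3 : Tb628.fA 0 κ3 kf 3 = kf := by rw [Tb628.fA, Function.update_self]
  obtain ⟨a0, a1, a2, -, a4, a5, a6, a7, a8, a9, a10, b0, b2, b4, b5, b6, b7, b8, b9, b10⟩ := sl
  have e : ∀ k : Fin 11, s0 w0 (R - 1) k = ![w0, R - 1, w0, w0, 2 * w0, w0, 2 * w0, 3 * w0,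
      2 * w0, 3 * w0, 4 * w0] k := by
    intro k
    fin_cases k <;> simp [s0, nat4]
  refine ⟨?_, ?_, ?_, ?_, ?_, ?_, ?_, ?_, ?_, ?_, ?_⟩
  · refine mem_act.2 ⟨by decide, ?_, ?_, ?_⟩
    · rw [e, e, e]; simp; ring
    · rw [a6, a2, a5]; ring
    · rw [b6, b2, b5]; ring
  · refine mem_act.2 ⟨by decide, ?_, ?_, ?_⟩
    · rw [e, e, e]; simp; ring
    · rw [a9, a2, a8]; ring
    · rw [b9, b2, b8]; ring
  · refine mem_act.2 ⟨by decide, ?_, ?_, ?_⟩
    · rw [e, e, e]; simp; ring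
    · rw [a7, a4, a5]; ring
    · rw [b7, b4, b5]; ring
  · refine mem_act.2 ⟨by decide, ?_, ?_, ?_⟩
    · rw [e, e, e]; simp; ring
    · rw [a10, a4, a8]; ring
    · rw [b10, b4, b8]; ring
  · refine mem_act.2 ⟨by decide, ?_, ?_, ?_⟩
    · rw [e, e, e]; simp; ring
    · rw [a8, a0, a5]; ring
    · rw [b8, b0, b5]; ring
  · refine mem_act.2 ⟨by decide, ?_, ?_, ?_⟩
    · rw [e, e, e]; simp; ring
    · rw [a9, a0, a6]; ring
    · rw [b9, b0, b6]; ring
  · refine mem_act.2 ⟨by decide, ?_, ?_, ?_⟩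
    · rw [e, e, e]; simp; ring
    · rw [a10, a0, a7]
    · rw [b10, b0, b7]; ring
  · intro h
    have := (mem_act.1 h).2.2.1
    rw [a4, a2, a3] at this
    linarith
  · intro h
    have := (mem_act.1 h).2.2.1
    rw [a7, a6, a3] at this
    linarith
  · intro h
    have := (mem_act.1 h).2.2.1
    rw [a10, a9, a3] at this
    linarith
  · intro h
    have h2 := (mem_act.1 h).2.2.2
    have h3 : Tb628.fB θ 0 κ3 kf 1 = 0 := by
      rw [Tb628.fB, Function.update_of_ne (by decide)]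
      simp [sB, nL]
    rw [b7, b0, h3] at h2
    norm_num at h2

variable {B : Base} {I I1 : ℕ → Finset (ℕ × ℝ)}
  {co : ∀ n : ℕ, ℕ × ℝ → ℕ × ℝ → Fin 11 → ℝ} {ν : (Fin 11 → ℝ) → ℝ} {V T : Fin 11 → Prop}
  {ξ x : ℝ} {h : ℕ → ℝ} {lam : (Fin 11 → ℝ) → ℝ} {A : ℝ × ℝ} {φ : ℕ → (Fin 11 → ℝ) → ℝ}
  {r : ℕ → ℝ} {q1 q2 : ℝ}

/-- the facts at one point of the row -/
theorem lx_of_row
    (P : RowPt B I I1 co θ w0 R ν V T (s0 w0 (R - 1)) (Tb628.fA 0 κ3 kf) (Tb628.fB θ 0 κ3 kf)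
      ξ x h lam A φ r)
    (h1 : 0 < θ 1) (hk : κ3 = θ 1 - θ 0) (hk0 : 0 < κ3) (hf : 0 ≤ kf) (hσ : θ 2 ≠ θ 1)
    (hq1 : 0 < q1) (hq2 : 0 < q2) (hR1 : RecS θ w0 R ν (eCa 1) q1)
    (hR2 : RecS θ w0 R ν (eECb 1) q2)
    (hcone : coneM (actM monQ (s0 w0 (R - 1)) (Tb628.fA 0 κ3 kf) (Tb628.fB θ 0 κ3 kf)) =
      coneF) :
    LX lam (Tb628.fA 0 κ3 kf) (Tb628.fB θ 0 κ3 kf) A φ r κ3 (θ 2 / θ 1) q1 q2 := by
  have sl := slo_F (θ := θ) (κ3 := κ3) h1 hk hf
  refine ⟨hk0, ?_, hq1, hq2, sl, hcone ▸ P.out, ?_, ?_, ?_, ?_⟩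
  · rw [Ne, div_eq_one_iff_eq h1.ne']
    exact hσ
  · intro c hc c' hc' hcc
    rw [← hcone] at hc hc'
    exact P.aew.anti c hc c' hc' hcc
  · intro c hc c' hc' hcc
    rw [← hcone] at hc hc'
    exact P.aew.sharp c hc c' hc' hcc
  · intro c hc y hy hcy h2 h3 h5 h6
    rw [← hcone] at hc hcy
    refine P.S1 sl.a5 sl.b5 hR1 hc hy hcy fun k hk1 hak => ?_
    rw [h5, mul_zero]
    fin_cases k
    · exact absurd (sl.a0.symm.trans hak) (by norm_num)
    · exact absurd rfl hk1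
    · exact h2
    · exact h3
    · exact absurd (sl.a4.symm.trans hak) hk0.ne'
    · exact h5.le
    · exact h6
    · exact absurd (sl.a7.symm.trans hak) hk0.ne'
    · exact absurd (sl.a8.symm.trans hak) (by norm_num)
    · exact absurd (sl.a9.symm.trans hak) (by norm_num)
    · exact absurd (sl.a10.symm.trans hak) (by linarith)
  · intro c hc y hy hcy h2 h3 h5 h6
    rw [← hcone] at hc hcy
    refine P.S2 sl.a2 sl.a6 hR2 hc (τ := 0) hy hcy (fun k hk1 hak => ?_) (by rw [h2, mul_zero])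
      (by rw [h6, mul_zero])
    rw [mul_zero]
    fin_cases k
    · exact absurd (sl.a0.symm.trans hak) (by norm_num)
    · exact absurd rfl hk1
    · exact h2.le
    · exact h3
    · exact absurd (sl.a4.symm.trans hak) hk0.ne'
    · exact h5
    · exact h6.le
    · exact absurd (sl.a7.symm.trans hak) hk0.ne'
    · exact absurd (sl.a8.symm.trans hak) (by norm_num)
    · exact absurd (sl.a9.symm.trans hak) (by norm_num)
    · exact absurd (sl.a10.symm.trans hak) (by linarith)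

/-- **case C1*** -/
theorem caseC1s {η : ℝ} (hη : 0 < η) (hη1 : η ≤ 1 / 8) : DeadG η pC1s := by
  intro p D I1 π eE gA gB V T w0 R T0 PD ν own c₀ h hp hG
  obtain ⟨hV2, hV4, hL1, hL2⟩ := hp
  have ok := h.tp.ok
  have hth : 0 < p.θ 1 := ok.θ1
  have hvis := h.tp.slots.vis
  obtain ⟨kf, hf0, hf1, hf3, hpar⟩ : ∃ kf : ℝ, 0 ≤ kf ∧ kf < 1 ∧ (V 3 → p.θ 2 - p.θ 0 < kf) ∧
      (kf = 0 ∨ (p.θ 2 - p.θ 0 < kf ∧ 0 < p.θ 2 - p.θ 0)) := by
    by_cases h3 : V 3
    · have h4 : 0 < p.θ 2 - p.θ 0 := by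
        have := (hvis 3 h3).2
        simpa [btQ] using this
      have h5 : p.θ 2 - p.θ 0 < 1 := by rw [hL2]; linarith
      exact ⟨(p.θ 2 - p.θ 0 + 1) / 2, by linarith, by linarith, fun _ => by linarith,
        Or.inr ⟨by linarith, h4⟩⟩
    · exact ⟨0, le_rfl, one_pos, fun h => absurd h h3, Or.inl rfl⟩
  have hsl : p.q 2 * 0 + p.q 0 * 1 < p.g := slack (i := 1) (j := 0) (k := 1) (l := 0) ok hη hη1
    ok.θb (by positivity) (by
      have e1 := le_abs_self (p.θ 1)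
      have e2 := neg_abs_le (p.θ 0)
      linarith)
  refine row_F0 h hη le_rfl zero_le_one hf0 (by linarith) (Or.inl rfl) (hG.imp Ne.symm id) hsl
    (fun h2 => absurd h2 hV2) (fun h3 => (hf3 h3).le) (fun _ => hL1.le) ?_
  intro hR1 hR2 hcone ξ x h' lam A φ r P hH
  have h12 : p.θ 2 ≠ p.θ 1 := by rw [hL2]; intro h; linarith
  have q1p := ok.g0.2
  have q2p := ok.q2.1
  have L := lx_of_row P hth hL1.symm one_pos hf0 h12 q1p q2p (hR1 (Ne.symm h12)) hR2 hcone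
  have hPl := planeM_F hth hL1 hL2 hf0 hf1 hpar
  have hMa := mirMa_F (w0 := w0) (R := R) (θ := p.θ) hth hL1.symm hf0 hf1
  have hcone' : ∀ c, c ∈ coneM (actM monQ (s0 w0 (R - 1)) (Tb628.fA 0 1 kf)
      (Tb628.fB p.θ 0 1 kf)) ↔ ConeM c := fun c => by rw [hcone]; exact Iff.rfl
  have hV : ∀ k, V k ∧ Tb628.fB p.θ 0 1 kf k = 0 → k = 3 ∨ k = 4 := fun k hk => by
    rcases (hvis k hk.1).1 with rfl | rfl | rfl
    · exact absurd hk.1 hV2
    · exact Or.inl rfl
    · exact Or.inr rfl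
  have hT4 : T 4 := by
    by_contra hT
    exact hV2 (h.tp.slots.cap 4 hV4 hT).2.1
  have hJ := (Tb628.nprof h).ne
  have hW := w0h_of_aew (f := fun n x => scl (uH D.B D.lev w0 n) (uA D.B D.lev D.w w0 n)
    (uB D.B D.lev D.w w0 n) (uY D.B D.lev D.w w0 n) (incQ π D.L eE gA gB n x)) P.aew
    (by norm_num) hJ hV (fun n i _ j _ => rfl) hMa hcone'
  have hXA := L.xa_full one_pos hW
  obtain ⟨t, t0, t1, hXB⟩ := L.xb_full one_pos hW
  have key := half (f := fun n x => scl (uH D.B D.lev w0 n) (uA D.B D.lev D.w w0 n)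
    (uB D.B D.lev D.w w0 n) (uY D.B D.lev D.w w0 n) (incQ π D.L eE gA gB n x)) P.aew
    (by norm_num) hJ hV ⟨hT4, hPl.b4⟩ (fun n i _ j _ => rfl) hMa hPl ⟨P.out.add, hH⟩ hcone' hXA
    ⟨t, t0, t1, hXB t t0.le le_rfl⟩ q1p (by
      intro y y0 y1
      have e : (0 : Fin 11 → ℝ) + eCa y = ![0, 0, 0, 0, 0, y, 0, 0, 0, 0, 0] := by
        rw [zero_add]; rfl
      have hz : (0 : Fin 11 → ℝ) ∈ coneF := by rw [← hcone]; exact zero_mem
      have hy : (0 : Fin 11 → ℝ) + eCa y ∈ coneF := by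
        rw [e, ← hcone, hcone']
        simp only [ConeM, Matrix.cons_val]
        refine ⟨?_, ?_, ?_, ?_, ?_, ?_, ?_⟩ <;> linarith
      have := L.S1 0 hz y y0 hy le_rfl le_rfl rfl le_rfl
      rwa [e] at this)
  linarith

end Crest.Agent.R136.C1s940
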