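import Crest.Agent.R136.CV0_366
import Crest.Agent.R136.Ful7_403
import Crest.Agent.R136.CD6_366

-- ▼ part R136/C3a_795
section

/-!
# R136: the full block of the velocities from "no strips" (helper795, T.C3)

* `AddT` : additivity of the two velocity slots up to `ρ^t` for the second pair in the `t`-box.
* `fan_strip2` : 366's `fan_strip` with `AddT` (shears of the velocities allowed).
* `AbsC` : absolute coordinates of the positions and of the velocities, shear `e`.
* `block_strip` : no strips ⊢ the loss of the two position slots is `≥ 2 x`.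
-/

set_option autoImplicit false
set_option linter.unusedVariables false
set_option linter.unusedSectionVars false

open Filter Topology Finset

namespace Crest.Agent.R136.C3a795

open Crest.Agent.R138.Ex926 (Base U)
open Crest.Agent.R136.Gf356
open Crest.Agent.R136.CD366
open Crest.Agent.R136.CV366 (NoStr unit_le)
open Crest.Agent.R136.Ful403 (FanBd block_full_R)

variable {κ : Type} {B : Base} {G : ℕ → RCfg κ} {Leg : Set (κ → ℝ)} {ν : (κ → ℝ) → ℝ}
  {σ R D : ℝ}

/-- additivity of the two slots up to `ρ^t`, first pair in `p0`, second pair in `pC` -/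
def AddT (B : Base) (G : ℕ → RCfg κ) (p0 pC : κ → ℝ) (cA cB : κ) (Ca t : ℝ) : Prop :=
  ∀ ε : ℝ, 0 < ε → ∀ᶠ n in (U : Filter ℕ), ∀ k i l m, (i, k) ∈ (G n).I → (l, k) ∈ (G n).I →
    (m, k) ∈ (G n).I → (G n).loose p0 ε k i l → (G n).loose pC ε k l m →
    |(G n).rel k i m cA - ((G n).rel k i l cA + (G n).rel k l m cA)| ≤ B.d n ^ (t - Ca * ε) ∧
    |(G n).rel k i m cB - ((G n).rel k i l cB + (G n).rel k l m cB)| ≤ B.d n ^ (t - Ca * ε)

open Classical in
set_option maxHeartbeats 800000 in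
/-- **class strips ⊢ fan strips**, shears of the velocities allowed -/
theorem fan_strip2 (H : RUnif B G Leg ν D) {p0 pC pF pFC : κ → ℝ} {cA cB : κ} {q R0 Ca t : ℝ}
    (h0 : p0 ∈ Leg) (hC : pC ∈ Leg) (hF : pF ∈ Leg) (hFC : pFC ∈ Leg)
    (h0C : ∀ s, p0 s ≤ pC s) (h0F : ∀ s, p0 s ≤ pF s) (hcA : t ≤ pC cA) (hcB : t ≤ pC cB)
    (hmax : ∀ s, pFC s ≤ max (pC s) (pF s)) (hCa : 0 < Ca)
    (hN : NoStr B G p0 cA cB ν q R0) (hadd : AddT B G p0 pC cA cB Ca t) (ht : 0 ≤ t)
    (htR : t ≤ R0) (hprod : ν p0 - ν pC ≤ ν pF - ν pFC) :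
    ∃ K : ℝ, 0 ≤ K ∧ ∀ ε : ℝ, 0 < ε → ∀ᶠ n in (U : Filter ℕ),
      ∀ i k, (i, k) ∈ (G n).I → ∀ b : Fin 2 → ℝ, b 0 ^ 2 + b 1 ^ 2 = 1 →
      ((((G n).box pF ε i k).filter fun l =>
        |b 0 * (G n).rel k i l cA + b 1 * (G n).rel k i l cB| ≤ B.d n ^ (t - ε)).card : ℝ) ≤
        B.d n ^ (-(ν pF) + q * t - K * ε) := by
  have hD := H.D1
  have hD0 : 0 < D := by linarith
  obtain ⟨K, hK, hN⟩ := hN
  rcases ht.eq_or_lt with rfl | ht0
  · refine ⟨D, hD0.le, fun ε hε => ?_⟩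
    filter_upwards [H.up pF hF ε hε] with n hn i k hik b hb
    refine le_trans ?_ ((hn i k hik).trans (le_of_eq (by congr 1; ring)))
    exact_mod_cast card_filter_le _ _
  -- constants
  set C : ℝ := D ^ 2 + Ca * D + Ca + 4 with hCdef
  have hC0 : 0 < C := by positivity
  refine ⟨K * C + D * (D ^ 5 + D ^ 2) + 1, by positivity, fun ε hε => ?_⟩
  have hCε : 0 < C * ε := by positivity
  have hDε : 0 < D * ε := by positivity
  filter_upwards [hN t ht0 htR (C * ε) hCε, H.exists_lab pC hC hε, hadd (D * ε) hDε,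
    H.tri p0 h0 (D * ε) hDε, box_pair H pF hF hε, H.up pFC hFC ((D ^ 5 + D ^ 2) * ε) (by positivity),
    ev_const_le B hε 5] with n hNn hlab haddn htri hpair hup h5 i k hik b hb
  have hpow : ∀ t : ℝ, 0 < B.d n ^ t := fun t => rpos B n t
  set S := ((G n).box pF ε i k).filter fun l =>
    |b 0 * (G n).rel k i l cA + b 1 * (G n).rel k i l cB| ≤ B.d n ^ (t - ε) with hS
  set P := ((G n).box p0 (C * ε) i k).filter fun l =>
    |b 0 * (G n).rel k i l cA + b 1 * (G n).rel k i l cB| ≤ B.d n ^ (t - C * ε) with hP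
  have hSI : ∀ l ∈ S, (l, k) ∈ (G n).I ∧ (G n).loose pF ε k i l ∧
      |b 0 * (G n).rel k i l cA + b 1 * (G n).rel k i l cB| ≤ B.d n ^ (t - ε) := by
    intro l hl
    rw [hS, mem_filter, RCfg.mem_box] at hl
    exact ⟨H.memSlice.1 hl.1.1, hl.1.2, hl.2⟩
  obtain ⟨hb0, hb1⟩ := unit_le hb
  have hεD : ε ≤ D * ε := by nlinarith
  have hWP : ∀ l ∈ S, (G n).box pC ε l k ⊆ P := by
    intro l hl m hm
    obtain ⟨hlI, hl1, hl2⟩ := hSI l hl
    obtain ⟨hm1, hm2⟩ := RCfg.mem_box.1 hm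
    have hmI := H.memSlice.1 hm1
    have a1 : (G n).loose p0 (D * ε) k i l := H.loose_mono h0F hεD hl1
    have a2 : (G n).loose p0 (D * ε) k l m := H.loose_mono h0C hεD hm2
    have a2' : (G n).loose pC (D * ε) k l m := H.loose_mono (fun _ => le_rfl) hεD hm2
    have a3 := htri k i l m hik hlI hmI a1 a2
    obtain ⟨a4, a5⟩ := haddn k i l m hik hlI hmI a1 a2'
    rw [hP, mem_filter, RCfg.mem_box]
    refine ⟨⟨hm1, H.loose_mono (fun _ => le_rfl) ?_ a3⟩, ?_⟩
    · have e1 : D * (D * ε) = D ^ 2 * ε := by ring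
      rw [e1, hCdef]
      have : 0 ≤ (Ca * D + Ca + 4) * ε := by positivity
      nlinarith
    · have cA' := hm2 cA
      have cB' := hm2 cB
      rw [H.base n] at cA' cB'
      set e := B.d n ^ (t - (Ca * D + 1) * ε) with he
      have he0 : 0 < e := hpow _
      have k1 : B.d n ^ (pC cA - ε) ≤ e := rpow_anti B n (by
        have : 0 ≤ Ca * D * ε := by positivity
        nlinarith)
      have k2 : B.d n ^ (pC cB - ε) ≤ e := rpow_anti B n (by
        have : 0 ≤ Ca * D * ε := by positivity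
        nlinarith)
      have k3 : B.d n ^ (t - Ca * (D * ε)) ≤ e := rpow_anti B n (by nlinarith)
      have k4 : B.d n ^ (t - ε) ≤ e := rpow_anti B n (by
        have : 0 ≤ Ca * D * ε := by positivity
        nlinarith)
      have m1 : |b 0 * (G n).rel k i m cA + b 1 * (G n).rel k i m cB| ≤ 5 * e := by
        have e1 : b 0 * (G n).rel k i m cA + b 1 * (G n).rel k i m cB =
            (b 0 * (G n).rel k i l cA + b 1 * (G n).rel k i l cB) +
            b 0 * (G n).rel k l m cA + b 1 * (G n).rel k l m cB +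
            b 0 * ((G n).rel k i m cA - ((G n).rel k i l cA + (G n).rel k l m cA)) +
            b 1 * ((G n).rel k i m cB - ((G n).rel k i l cB + (G n).rel k l m cB)) := by ring
        have f1 : |b 0 * (G n).rel k l m cA| ≤ e := by
          rw [abs_mul]
          calc |b 0| * |(G n).rel k l m cA| ≤ 1 * e :=
                mul_le_mul hb0 (cA'.trans k1) (abs_nonneg _) zero_le_one
            _ = e := one_mul _
        have f2 : |b 1 * (G n).rel k l m cB| ≤ e := by
          rw [abs_mul]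
          calc |b 1| * |(G n).rel k l m cB| ≤ 1 * e :=
                mul_le_mul hb1 (cB'.trans k2) (abs_nonneg _) zero_le_one
            _ = e := one_mul _
        have f3 : |b 0 * ((G n).rel k i m cA - ((G n).rel k i l cA + (G n).rel k l m cA))| ≤
            e := by
          rw [abs_mul]
          calc |b 0| * _ ≤ 1 * e :=
                mul_le_mul hb0 (a4.trans k3) (abs_nonneg _) zero_le_one
            _ = e := one_mul _
        have f4 : |b 1 * ((G n).rel k i m cB - ((G n).rel k i l cB + (G n).rel k l m cB))| ≤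
            e := by
          rw [abs_mul]
          calc |b 1| * _ ≤ 1 * e :=
                mul_le_mul hb1 (a5.trans k3) (abs_nonneg _) zero_le_one
            _ = e := one_mul _
        have f0 := hl2.trans k4
        rw [e1]
        have n0 := abs_le.1 f0
        have n1 := abs_le.1 f1
        have n2 := abs_le.1 f2
        have n3 := abs_le.1 f3
        have n4 := abs_le.1 f4
        rw [abs_le]
        constructor <;> linarith [n0.1, n0.2, n1.1, n1.2, n2.1, n2.2, n3.1, n3.2, n4.1, n4.2]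
      refine m1.trans (absorb B ?_)
      refine h5.trans (rpow_anti B n ?_)
      rw [hCdef]
      have : 0 ≤ (D ^ 2 + Ca + 2) * ε := by positivity
      nlinarith
  have hSsl : S ⊆ (G n).slice k := fun l hl => H.memSlice.2 (hSI l hl).1
  obtain ⟨lab, hlab1, hlab2⟩ := hlab k S hSsl P hWP
  have hPc := hNn i k hik b hb
  -- fibres of the labels
  have hfib : ∀ c ∈ S.image lab, ((S.filter fun l => lab l = c).card : ℝ) ≤
      B.d n ^ (-ν pFC - D * ((D ^ 5 + D ^ 2) * ε)) := by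
    intro c hc
    obtain ⟨l0, hl0, rfl⟩ := mem_image.1 hc
    refine le_trans ?_ (hup l0 k (hSI l0 hl0).1)
    refine mod_cast card_le_card ?_
    intro l hl
    rw [mem_filter] at hl
    obtain ⟨hlS, hll⟩ := hl
    refine RCfg.mem_box.2 ⟨hSsl hlS, ?_⟩
    have a1 := hlab1 l0 hl0 l hlS hll.symm
    have a2 : (G n).loose pF (D ^ 2 * ε) k l0 l := hpair k i l0 l hik
      (RCfg.mem_box.2 ⟨hSsl hl0, (hSI l0 hl0).2.1⟩) (RCfg.mem_box.2 ⟨hSsl hlS, (hSI l hlS).2.1⟩)
    intro s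
    have hms := hmax s
    have hp5 : 0 ≤ D ^ 5 * ε := by positivity
    have hp2 : 0 ≤ D ^ 2 * ε := by positivity
    have hsum : (D ^ 5 + D ^ 2) * ε = D ^ 5 * ε + D ^ 2 * ε := by ring
    have b2 := a2 s
    have b1 := a1 s
    rw [H.base n] at b1 b2 ⊢
    rcases le_total (pC s) (pF s) with h | h
    · rw [max_eq_right h] at hms
      exact b2.trans (rpow_anti B n (by linarith))
    · rw [max_eq_left h] at hms
      exact b1.trans (rpow_anti B n (by linarith))
  have hcount : (S.card : ℝ) ≤ ((S.image lab).card : ℝ) *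
      B.d n ^ (-ν pFC - D * ((D ^ 5 + D ^ 2) * ε)) := by
    have e1 : (S.card : ℝ) = ∑ c ∈ S.image lab, ((S.filter fun l => lab l = c).card : ℝ) := by
      have := card_eq_sum_card_image lab S
      exact_mod_cast this
    rw [e1, ← nsmul_eq_mul, ← sum_const]
    exact sum_le_sum hfib
  calc (S.card : ℝ) ≤ ((S.image lab).card : ℝ) * B.d n ^ (-ν pFC - D * ((D ^ 5 + D ^ 2) * ε)) :=
        hcount
    _ ≤ ((P.card : ℝ) * B.d n ^ (ν pC - ε)) * B.d n ^ (-ν pFC - D * ((D ^ 5 + D ^ 2) * ε)) :=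
        mul_le_mul_of_nonneg_right hlab2 (hpow _).le
    _ ≤ (B.d n ^ (-(ν p0) + q * t - K * (C * ε)) * B.d n ^ (ν pC - ε)) *
          B.d n ^ (-ν pFC - D * ((D ^ 5 + D ^ 2) * ε)) := by
        refine mul_le_mul_of_nonneg_right ?_ (hpow _).le
        exact mul_le_mul_of_nonneg_right hPc (hpow _).le
    _ = B.d n ^ (-(ν p0) + ν pC - ν pFC + q * t -
          (K * C + D * (D ^ 5 + D ^ 2) + 1) * ε) := by
        rw [← rpow_add', ← rpow_add']; congr 1; ring
    _ ≤ _ := rpow_anti B n (by linarith)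

/-- absolute coordinates: `A` = positions at the height `0`, `V` = velocities of the lines, `e` =
shear of the second slot by the first one. -/
structure AbsC (B : Base) (G : ℕ → RCfg κ) (p0 : κ → ℝ) (sA sB cA cB : κ) (x Ca : ℝ)
    (A V : ℕ → ℕ → Fin 2 → ℝ) (e : ℕ → ℕ → ℕ → ℝ) : Prop where
  Ca_pos : 0 < Ca
  e_le : ∀ᶠ n in (U : Filter ℕ), ∀ k i, (i, k) ∈ (G n).I → |e n k i| ≤ 1
  pA : ∀ ε : ℝ, 0 < ε → ∀ᶠ n in (U : Filter ℕ), ∀ k i l, (i, k) ∈ (G n).I → (l, k) ∈ (G n).I →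
    (G n).loose p0 ε k i l → |A n l 0 - A n i 0 + (G n).z k * (V n l 0 - V n i 0) -
      (G n).rel k i l sA| ≤ B.d n ^ (x - Ca * ε)
  pB : ∀ ε : ℝ, 0 < ε → ∀ᶠ n in (U : Filter ℕ), ∀ k i l, (i, k) ∈ (G n).I → (l, k) ∈ (G n).I →
    (G n).loose p0 ε k i l → |A n l 1 - A n i 1 + (G n).z k * (V n l 1 - V n i 1) -
      ((G n).rel k i l sB + e n k i * (G n).rel k i l sA)| ≤ B.d n ^ (x - Ca * ε)
  vA : ∀ ε : ℝ, 0 < ε → ∀ᶠ n in (U : Filter ℕ), ∀ k i l, (i, k) ∈ (G n).I → (l, k) ∈ (G n).I →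
    (G n).loose p0 ε k i l → |V n l 0 - V n i 0 - (G n).rel k i l cA| ≤ B.d n ^ (x - Ca * ε)
  vB : ∀ ε : ℝ, 0 < ε → ∀ᶠ n in (U : Filter ℕ), ∀ k i l, (i, k) ∈ (G n).I → (l, k) ∈ (G n).I →
    (G n).loose p0 ε k i l → |V n l 1 - V n i 1 -
      ((G n).rel k i l cB + e n k i * (G n).rel k i l cA)| ≤ B.d n ^ (x - Ca * ε)

/-- the sheared direction -/
theorem shear_dir {b0 b1 e c5 c6 w : ℝ} (hb : b0 ^ 2 + b1 ^ 2 = 1) (he : |e| ≤ 1)
    (h : |(b0 + b1 * e) * c5 + b1 * c6| ≤ w) :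
    ∃ u : Fin 2 → ℝ, u 0 ^ 2 + u 1 ^ 2 = 1 ∧ (∀ c5' c6' w' : ℝ,
      |(b0 + b1 * e) * c5' + b1 * c6'| ≤ w' → |u 0 * c5' + u 1 * c6'| ≤ 2 * w') := by
  have he2 : e ^ 2 ≤ 1 := (sq_le_one_iff_abs_le_one e).2 he
  set s : ℝ := (b0 + b1 * e) ^ 2 + b1 ^ 2 with hs
  have hs4 : 1 / 4 ≤ s := by
    have h1 : 0 ≤ (3 / 4 * b0 + b1 * e) ^ 2 := sq_nonneg _
    have h2 : 0 ≤ b1 ^ 2 * (1 - e ^ 2) := mul_nonneg (sq_nonneg _) (by linarith)
    have h3 : 0 ≤ b1 ^ 2 := sq_nonneg _
    rw [hs]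
    nlinarith
  have hs0 : 0 < s := by linarith
  have hq := Real.sq_sqrt hs0.le
  have hq0 : 1 / 2 ≤ Real.sqrt s := by
    apply Real.le_sqrt_of_sq_le
    linarith
  have hq1 : 0 < Real.sqrt s := by linarith
  refine ⟨![(b0 + b1 * e) / Real.sqrt s, b1 / Real.sqrt s], ?_, ?_⟩
  · simp only [Matrix.cons_val_zero, Matrix.cons_val_one]
    rw [div_pow, div_pow, ← add_div, hq, ← hs, div_self hs0.ne']
  · intro c5' c6' w' hw'
    simp only [Matrix.cons_val_zero, Matrix.cons_val_one]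
    have e1 : (b0 + b1 * e) / Real.sqrt s * c5' + b1 / Real.sqrt s * c6' =
        ((b0 + b1 * e) * c5' + b1 * c6') / Real.sqrt s := by ring
    rw [e1, abs_div, abs_of_pos hq1, div_le_iff₀ hq1]
    have hw0 : 0 ≤ w' := (abs_nonneg _).trans hw'
    nlinarith

/-- the block data: legal boxes for the fans -/
def FanLeg (B : Base) (G : ℕ → RCfg κ) (Leg : Set (κ → ℝ)) (ν : (κ → ℝ) → ℝ) (p0 r : κ → ℝ)
    (cA cB : κ) (t : ℝ) : Prop :=
  ∃ pC ∈ Leg, ∃ pFC ∈ Leg, (∀ s, p0 s ≤ pC s) ∧ t ≤ pC cA ∧ t ≤ pC cB ∧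
    (∀ s, pFC s ≤ max (pC s) (r s)) ∧ (∃ Ca : ℝ, 0 < Ca ∧ AddT B G p0 pC cA cB Ca t) ∧
    ν p0 - ν pC ≤ ν r - ν pFC

/-- the coarse boxes are transported along the lines -/
def CoEv (B : Base) (G : ℕ → RCfg κ) (p0 : κ → ℝ) (C1 : ℝ) : Prop :=
  ∀ ε : ℝ, 0 < ε → ∀ᶠ n in (U : Filter ℕ), ∀ k₀ k i i', (i, k₀) ∈ (G n).I →
    (i', k₀) ∈ (G n).I → (i, k) ∈ (G n).I → (i', k) ∈ (G n).I →
    (G n).loose p0 ε k₀ i i' → (G n).loose p0 (C1 * ε) k i i'

set_option maxHeartbeats 1600000 in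
/-- the fans of the block -/
theorem fanBd_of (H : RUnif B G Leg ν D) {p0 r : κ → ℝ} {sA sB cA cB : κ} {x q t0 Ca C1 : ℝ}
    {A V : ℕ → ℕ → Fin 2 → ℝ} {e : ℕ → ℕ → ℕ → ℝ} (hC1 : 0 < C1)
    (h0 : p0 ∈ Leg) (hr : r ∈ Leg) (h0r : ∀ s, p0 s ≤ r s)
    (hrs : ∀ s, s ≠ sA → s ≠ sB → r s ≤ p0 s) (hrA : r sA ≤ x) (hrB : r sB ≤ x)
    (habs : AbsC B G p0 sA sB cA cB x Ca A V e) (hN : NoStr B G p0 cA cB ν q t0)
    (hev : CoEv B G p0 C1) {t : ℝ} (ht : 0 < t) (htt : t ≤ t0) (htx : t ≤ x)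
    (hleg : FanLeg B G Leg ν p0 r cA cB t) (i0 k0 : ℕ → ℕ)
    (h00 : ∀ᶠ n in (U : Filter ℕ), (i0 n, k0 n) ∈ (G n).I) :
    FanBd B G p0 i0 k0 (fun n k i a => A n i a + (G n).z k * V n i a) V
      (fun n => (G n).Z) x t (ν r - q * t) := by
  classical
  have hD := H.D1
  have hD0 : 0 < D := by linarith
  have hCa := habs.Ca_pos
  obtain ⟨pC, hpC, pFC, hpFC, a1, a2, a3, a4, ⟨Cb, hCb, a5⟩, a6⟩ := hleg
  intro C3 hC3
  obtain ⟨K, hK, hfs⟩ := fan_strip2 H h0 hpC hr hpFC a1 h0r a2 a3 a4 hCb hN a5 ht.le htt a6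
  -- the width of the boxes
  set E : ℝ := C1 * D ^ 2 + C3 + Ca * (C1 * D ^ 2) + 2 with hE
  have hCD : 0 < C1 * D ^ 2 := by positivity
  have hCaD : 0 < Ca * (C1 * D ^ 2) := by positivity
  have hE0 : 0 < E := by positivity
  refine ⟨K * E + 1, by positivity, fun ε hε => ?_⟩
  have hEε : 0 < E * ε := by positivity
  filter_upwards [hfs (E * ε) hEε, box_pair H p0 h0 hε, hev (D ^ 2 * ε) (by positivity),
    habs.e_le, habs.pA (C1 * D ^ 2 * ε) (by positivity), habs.pB (C1 * D ^ 2 * ε) (by positivity),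
    habs.vA (C1 * D ^ 2 * ε) (by positivity), habs.vB (C1 * D ^ 2 * ε) (by positivity),
    ev_const_le B hε 8, h00]
    with n hn hpair hevn hele hpA hpB hvA hvB h8 h0n k hk i hi hik b hb T hTS hT
  have hpow : ∀ t : ℝ, 0 < B.d n ^ t := fun t => rpos B n t
  have he := hele k i hik
  obtain ⟨hb0, hb1⟩ := unit_le hb
  obtain ⟨u, hu1, hu2⟩ := shear_dir (c5 := 0) (c6 := 0) (w := 0) hb he (by simp)
  refine le_trans ?_ ((hn i k hik u hu1).trans (rpow_anti B n (by nlinarith)))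
  refine mod_cast card_le_card ?_
  intro l hl
  obtain ⟨b1', b2', b3'⟩ := hT l hl
  have hlbox := hTS hl
  have hi0 := RCfg.mem_box.1 hi
  have hl0 := RCfg.mem_box.1 hlbox
  have c1 : (G n).loose p0 (D ^ 2 * ε) (k0 n) i l := hpair (k0 n) (i0 n) i l h0n hi hlbox
  have c2 : (G n).loose p0 (C1 * D ^ 2 * ε) k i l := by
    have := hevn (k0 n) k i l (H.memSlice.1 hi0.1) (H.memSlice.1 hl0.1) hik b1' c1
    rwa [← mul_assoc] at this
  have d1 := hpA k i l hik b1' c2
  have d2 := hpB k i l hik b1' c2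
  have d3 := hvA k i l hik b1' c2
  have d4 := hvB k i l hik b1' c2
  set w : ℝ := B.d n ^ (x - (C3 + Ca * (C1 * D ^ 2)) * ε) with hw
  have hw0 : 0 < w := hpow _
  have w1 : B.d n ^ (x - Ca * (C1 * D ^ 2 * ε)) ≤ w := rpow_anti B n (by nlinarith)
  have w2 : B.d n ^ (x - C3 * ε) ≤ w := rpow_anti B n (by nlinarith)
  have f1 : |(G n).rel k i l sA| ≤ 2 * w := by
    have g1 := b2' 0
    have g2 : (G n).rel k i l sA = (A n l 0 + (G n).z k * V n l 0 - (A n i 0 +
        (G n).z k * V n i 0)) - (A n l 0 - A n i 0 + (G n).z k * (V n l 0 - V n i 0) -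
      (G n).rel k i l sA) := by ring
    rw [g2]
    have g3 := abs_sub (A n l 0 + (G n).z k * V n l 0 - (A n i 0 +
        (G n).z k * V n i 0)) (A n l 0 - A n i 0 + (G n).z k * (V n l 0 - V n i 0) -
      (G n).rel k i l sA)
    linarith
  have f2 : |(G n).rel k i l sB| ≤ 4 * w := by
    have g1 := b2' 1
    have g2 : (G n).rel k i l sB = (A n l 1 + (G n).z k * V n l 1 - (A n i 1 +
        (G n).z k * V n i 1)) - (A n l 1 - A n i 1 + (G n).z k * (V n l 1 - V n i 1) -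
      ((G n).rel k i l sB + e n k i * (G n).rel k i l sA)) -
      e n k i * (G n).rel k i l sA := by ring
    have g4 : |e n k i * (G n).rel k i l sA| ≤ 2 * w := by
      rw [abs_mul]
      calc |e n k i| * |(G n).rel k i l sA| ≤ 1 * (2 * w) :=
            mul_le_mul he f1 (abs_nonneg _) zero_le_one
        _ = 2 * w := one_mul _
    have n1 := abs_le.1 (g1.trans w2)
    have n2 := abs_le.1 (d2.trans w1)
    have n3 := abs_le.1 g4
    rw [g2, abs_le]
    constructor <;> linarith [n1.1, n1.2, n2.1, n2.2, n3.1, n3.2]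
  have f3 : |(b 0 + b 1 * e n k i) * (G n).rel k i l cA + b 1 * (G n).rel k i l cB| ≤
      3 * B.d n ^ (t - (C3 + Ca * (C1 * D ^ 2)) * ε) := by
    set w' : ℝ := B.d n ^ (t - (C3 + Ca * (C1 * D ^ 2)) * ε) with hw'
    have w3 : w ≤ w' := rpow_anti B n (by linarith)
    have w4 : B.d n ^ (t - C3 * ε) ≤ w' := rpow_anti B n (by nlinarith)
    have g2 : (b 0 + b 1 * e n k i) * (G n).rel k i l cA + b 1 * (G n).rel k i l cB =
        (b 0 * (V n l 0 - V n i 0) + b 1 * (V n l 1 - V n i 1)) -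
        b 0 * (V n l 0 - V n i 0 - (G n).rel k i l cA) -
        b 1 * (V n l 1 - V n i 1 - ((G n).rel k i l cB + e n k i * (G n).rel k i l cA)) := by ring
    have g3 : |b 0 * (V n l 0 - V n i 0 - (G n).rel k i l cA)| ≤ w' := by
      rw [abs_mul]
      calc |b 0| * _ ≤ 1 * w' := mul_le_mul hb0 ((d3.trans w1).trans w3) (abs_nonneg _) zero_le_one
        _ = w' := one_mul _
    have g4 : |b 1 * (V n l 1 - V n i 1 - ((G n).rel k i l cB +
        e n k i * (G n).rel k i l cA))| ≤ w' := by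
      rw [abs_mul]
      calc |b 1| * _ ≤ 1 * w' := mul_le_mul hb1 ((d4.trans w1).trans w3) (abs_nonneg _) zero_le_one
        _ = w' := one_mul _
    have n1 := abs_le.1 (b3'.trans w4)
    have n2 := abs_le.1 g3
    have n3 := abs_le.1 g4
    rw [g2, abs_le]
    constructor <;> linarith [n1.1, n1.2, n2.1, n2.2, n3.1, n3.2]
  have hpow2 : ∀ s : ℝ, 8 * B.d n ^ (s - (C3 + Ca * (C1 * D ^ 2)) * ε) ≤ B.d n ^ (s - E * ε) := by
    intro s
    calc 8 * B.d n ^ (s - (C3 + Ca * (C1 * D ^ 2)) * ε) ≤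
        B.d n ^ (-ε) * B.d n ^ (s - (C3 + Ca * (C1 * D ^ 2)) * ε) :=
          mul_le_mul_of_nonneg_right h8 (hpow _).le
      _ = B.d n ^ (s - (C3 + Ca * (C1 * D ^ 2) + 1) * ε) := by
          rw [← rpow_add']; congr 1; ring
      _ ≤ _ := rpow_anti B n (by rw [hE]; nlinarith)
  rw [mem_filter, RCfg.mem_box]
  refine ⟨⟨H.memSlice.2 b1', ?_⟩, ?_⟩
  · intro s
    rw [H.base n]
    by_cases hsA : s = sA
    · subst hsA
      refine (f1.trans ?_).trans ((hpow2 x).trans (rpow_anti B n (by linarith)))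
      linarith
    · by_cases hsB : s = sB
      · subst hsB
        refine (f2.trans ?_).trans ((hpow2 x).trans (rpow_anti B n (by linarith)))
        linarith
      · have := c2 s
        rw [H.base n] at this
        refine this.trans (rpow_anti B n ?_)
        have := hrs s hsA hsB
        rw [hE]
        nlinarith
  · refine (hu2 _ _ _ f3).trans (le_trans ?_ (hpow2 t))
    have := hpow (t - (C3 + Ca * (C1 * D ^ 2)) * ε)
    linarith

set_option maxHeartbeats 4000000 in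
/-- **the full block**: no strips of the velocities ⊢ the positions lose `2 x`. -/
theorem block_strip (hKM : ∀ V : ℝ, Crest.Agent.R138.Tub70.KM32 V) (H : RModel B G 1 R Leg ν D)
    {p0 r : κ → ℝ} {sA sB cA cB : κ} {x q t0 Ca C1 : ℝ}
    {A V : ℕ → ℕ → Fin 2 → ℝ} {e : ℕ → ℕ → ℕ → ℝ} (hC1 : 0 < C1) (hx : 0 < x) (hxR : x ≤ R)
    (ht0 : 0 < t0) (hq : 0 < q) (hpos : ∀ s, 0 ≤ p0 s)
    (h0 : p0 ∈ Leg) (hr : r ∈ Leg) (h0r : ∀ s, p0 s ≤ r s)
    (hrs : ∀ s, s ≠ sA → s ≠ sB → r s ≤ p0 s) (hrA : r sA = x) (hrB : r sB = x)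
    (habs : AbsC B G p0 sA sB cA cB x Ca A V e) (hN : NoStr B G p0 cA cB ν q t0)
    (hz : ∀ᶠ n in (U : Filter ℕ), ∀ k ∈ (G n).Z, |(G n).z k| ≤ 1)
    (hev : CoEv B G p0 C1)
    (hleg : ∀ t : ℝ, 0 < t → t ≤ t0 → FanLeg B G Leg ν p0 r cA cB t) :
    2 * x ≤ ν p0 - ν r := by
  classical
  have hD := H.D1
  have hD0 : 0 < D := by linarith
  have hCa := habs.Ca_pos
  choose c hc using fun n => H.nonempty n
  have h00 : ∀ᶠ n in (U : Filter ℕ), ((c n).1, (c n).2) ∈ (G n).I :=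
    Filter.Eventually.of_forall fun n => hc n
  set C : ℝ := D ^ 2 + C1 * D ^ 2 + Ca * D ^ 2 + Ca + 4 with hC
  have hC0 : 0 < C := by positivity
  have hcD : 0 < C1 * D ^ 2 := by positivity
  have hcaD : 0 < Ca * D ^ 2 := by positivity
  have hdD : 0 < D ^ 2 := by positivity
  refine block_full_R hKM H.toRUnif (fun n => (c n).1) (fun n => (c n).2) h00 p0 p0 r h0 h0 hr h0r
    (x := x) (t0 := min t0 x) hx (lt_min ht0 hx)
    (fun n k i a => A n i a + (G n).z k * V n i a)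
    (fun n i a => A n i a + (G n).z (c n).2 * V n i a) V
    (fun n k => (G n).z k - (G n).z (c n).2) (fun n => (G n).Z) ?_ (C1 := C) hC0
    ?_ ?_ ?_ ?_ ?_ ?_ ?_ ?_ ?_
  · exact Filter.Eventually.of_forall fun n => ⟨(c n).2, H.memZ (hc n)⟩
  · -- φ
    intro ε hε
    filter_upwards [hz, ev_const_le B hε 2] with n hzn h2 k hk
    have a1 := hzn k hk
    have a2 := hzn _ (H.memZ (hc n))
    have a3 := abs_sub ((G n).z k) ((G n).z (c n).2)
    calc |(G n).z k - (G n).z (c n).2| ≤ 2 := by linarith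
      _ ≤ B.d n ^ (-ε) := h2
      _ ≤ _ := rpow_anti B n (by rw [hC]; nlinarith)
  · -- A
    intro ε hε
    filter_upwards [box_pair H.toRUnif p0 h0 hε, habs.e_le,
      habs.pA (D ^ 2 * ε) (by positivity), habs.pB (D ^ 2 * ε) (by positivity),
      ev_const_le B hε 4] with n hpair hele hpA hpB h4 i hi i' hi' a
    have hpow : ∀ t : ℝ, 0 < B.d n ^ t := fun t => rpos B n t
    have hiI := H.memSlice.1 (RCfg.mem_box.1 hi).1
    have hi'I := H.memSlice.1 (RCfg.mem_box.1 hi').1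
    have c1 := hpair (c n).2 (c n).1 i i' (hc n) hi hi'
    have he := hele _ _ hiI
    set w : ℝ := B.d n ^ (-((D ^ 2 + Ca * D ^ 2) * ε)) with hw
    have hw0 : 0 < w := hpow _
    have w1 : B.d n ^ (x - Ca * (D ^ 2 * ε)) ≤ w := rpow_anti B n (by nlinarith)
    have w2 : ∀ s, |(G n).rel (c n).2 i i' s| ≤ w := by
      intro s
      have := c1 s
      rw [H.base n] at this
      exact this.trans (rpow_anti B n (by nlinarith [hpos s]))
    have hfin : 4 * w ≤ B.d n ^ (-(C * ε)) := by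
      calc 4 * w ≤ B.d n ^ (-ε) * w := mul_le_mul_of_nonneg_right h4 hw0.le
        _ = B.d n ^ (-((D ^ 2 + Ca * D ^ 2 + 1) * ε)) := by
            rw [hw, ← rpow_add']; congr 1; ring
        _ ≤ _ := rpow_anti B n (by rw [hC]; nlinarith)
    refine le_trans ?_ hfin
    fin_cases a
    · have d1 := abs_le.1 ((hpA _ i i' hiI hi'I c1).trans w1)
      have d2 := abs_le.1 (w2 sA)
      simp only [Fin.zero_eta]
      rw [abs_le]
      constructor <;> nlinarith [d1.1, d1.2, d2.1, d2.2]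
    · have d1 := abs_le.1 ((hpB _ i i' hiI hi'I c1).trans w1)
      have d2 := abs_le.1 (w2 sB)
      have d3 : |e n (c n).2 i * (G n).rel (c n).2 i i' sA| ≤ w := by
        rw [abs_mul]
        calc |e n (c n).2 i| * _ ≤ 1 * w := mul_le_mul he (w2 sA) (abs_nonneg _) zero_le_one
          _ = w := one_mul _
      have d4 := abs_le.1 d3
      simp only [Fin.mk_one]
      rw [abs_le]
      constructor <;> nlinarith [d1.1, d1.2, d2.1, d2.2, d4.1, d4.2]
  · -- V
    intro ε hε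
    filter_upwards [box_pair H.toRUnif p0 h0 hε, habs.e_le,
      habs.vA (D ^ 2 * ε) (by positivity), habs.vB (D ^ 2 * ε) (by positivity),
      ev_const_le B hε 4] with n hpair hele hvA hvB h4 i hi i' hi' a
    have hpow : ∀ t : ℝ, 0 < B.d n ^ t := fun t => rpos B n t
    have hiI := H.memSlice.1 (RCfg.mem_box.1 hi).1
    have hi'I := H.memSlice.1 (RCfg.mem_box.1 hi').1
    have c1 := hpair (c n).2 (c n).1 i i' (hc n) hi hi'
    have he := hele _ _ hiI
    set w : ℝ := B.d n ^ (-((D ^ 2 + Ca * D ^ 2) * ε)) with hw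
    have hw0 : 0 < w := hpow _
    have w1 : B.d n ^ (x - Ca * (D ^ 2 * ε)) ≤ w := rpow_anti B n (by nlinarith)
    have w2 : ∀ s, |(G n).rel (c n).2 i i' s| ≤ w := by
      intro s
      have := c1 s
      rw [H.base n] at this
      exact this.trans (rpow_anti B n (by nlinarith [hpos s]))
    have hfin : 4 * w ≤ B.d n ^ (-(C * ε)) := by
      calc 4 * w ≤ B.d n ^ (-ε) * w := mul_le_mul_of_nonneg_right h4 hw0.le
        _ = B.d n ^ (-((D ^ 2 + Ca * D ^ 2 + 1) * ε)) := by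
            rw [hw, ← rpow_add']; congr 1; ring
        _ ≤ _ := rpow_anti B n (by rw [hC]; nlinarith)
    refine le_trans ?_ hfin
    fin_cases a
    · have d1 := abs_le.1 ((hvA _ i i' hiI hi'I c1).trans w1)
      have d2 := abs_le.1 (w2 cA)
      simp only [Fin.zero_eta]
      rw [abs_le]
      constructor <;> linarith [d1.1, d1.2, d2.1, d2.2]
    · have d1 := abs_le.1 ((hvB _ i i' hiI hi'I c1).trans w1)
      have d2 := abs_le.1 (w2 cB)
      have d3 : |e n (c n).2 i * (G n).rel (c n).2 i i' cA| ≤ w := by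
        rw [abs_mul]
        calc |e n (c n).2 i| * _ ≤ 1 * w := mul_le_mul he (w2 cA) (abs_nonneg _) zero_le_one
          _ = w := one_mul _
      have d4 := abs_le.1 d3
      simp only [Fin.mk_one]
      rw [abs_le]
      constructor <;> linarith [d1.1, d1.2, d2.1, d2.2, d4.1, d4.2]
  · -- F
    intro ε hε
    refine Filter.Eventually.of_forall fun n k hk i hi hik i' hi' hi'k a => ?_
    have e1 : A n i' a + (G n).z k * V n i' a - (A n i a + (G n).z k * V n i a) -
        (A n i' a + (G n).z (c n).2 * V n i' a - (A n i a + (G n).z (c n).2 * V n i a) +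
          ((G n).z k - (G n).z (c n).2) * (V n i' a - V n i a)) = 0 := by ring
    show |A n i' a + (G n).z k * V n i' a - (A n i a + (G n).z k * V n i a) -
        (A n i' a + (G n).z (c n).2 * V n i' a - (A n i a + (G n).z (c n).2 * V n i a) +
          ((G n).z k - (G n).z (c n).2) * (V n i' a - V n i a))| ≤ _
    rw [e1, abs_zero]
    exact (rpos B n _).le
  · -- link
    intro ε hε
    filter_upwards [habs.e_le, habs.pA ε hε, habs.pB ε hε, ev_const_le B hε 4] with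
      n hele hpA hpB h4 k hk i hi hik l hl hlo a
    have hpow : ∀ t : ℝ, 0 < B.d n ^ t := fun t => rpos B n t
    have c1 : (G n).loose p0 ε k i l := H.loose_mono h0r le_rfl hlo
    have he := hele _ _ hik
    set w : ℝ := B.d n ^ (x - (Ca + 1) * ε) with hw
    have hw0 : 0 < w := hpow _
    have w1 : B.d n ^ (x - Ca * ε) ≤ w := rpow_anti B n (by nlinarith)
    have w2 : |(G n).rel k i l sA| ≤ w := by
      have := hlo sA
      rw [H.base n, hrA] at this
      exact this.trans (rpow_anti B n (by nlinarith))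
    have w3 : |(G n).rel k i l sB| ≤ w := by
      have := hlo sB
      rw [H.base n, hrB] at this
      exact this.trans (rpow_anti B n (by nlinarith))
    have hfin : 4 * w ≤ B.d n ^ (x - C * ε) := by
      calc 4 * w ≤ B.d n ^ (-ε) * w := mul_le_mul_of_nonneg_right h4 hw0.le
        _ = B.d n ^ (x - (Ca + 1 + 1) * ε) := by
            rw [hw, ← rpow_add']; congr 1; ring
        _ ≤ _ := rpow_anti B n (by rw [hC]; nlinarith)
    refine le_trans ?_ hfin
    fin_cases a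
    · have d1 := abs_le.1 ((hpA _ i l hik hl c1).trans w1)
      have d2 := abs_le.1 w2
      simp only [Fin.zero_eta]
      rw [abs_le]
      constructor <;> nlinarith [d1.1, d1.2, d2.1, d2.2]
    · have d1 := abs_le.1 ((hpB _ i l hik hl c1).trans w1)
      have d2 := abs_le.1 w3
      have d3 : |e n k i * (G n).rel k i l sA| ≤ w := by
        rw [abs_mul]
        calc |e n k i| * _ ≤ 1 * w := mul_le_mul he w2 (abs_nonneg _) zero_le_one
          _ = w := one_mul _
      have d4 := abs_le.1 d3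
      simp only [Fin.mk_one]
      rw [abs_le]
      constructor <;> nlinarith [d1.1, d1.2, d2.1, d2.2, d4.1, d4.2]
  · -- hT
    intro ε hε
    filter_upwards [box_pair H.toRUnif p0 h0 hε, hev (D ^ 2 * ε) (by positivity)] with
      n hpair hevn k hk i hi i' hi' hik hi'k
    have hiI := H.memSlice.1 (RCfg.mem_box.1 hi).1
    have hi'I := H.memSlice.1 (RCfg.mem_box.1 hi').1
    have c1 := hpair (c n).2 (c n).1 i i' (hc n) hi hi'
    have c2 := hevn (c n).2 k i i' hiI hi'I hik hi'k c1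
    refine H.loose_mono (fun _ => le_rfl) ?_ c2
    rw [hC]
    nlinarith
  · -- alive
    intro ε hε
    filter_upwards [H.line ε hε] with n hn i hi T hT1 hT2
    have hiL := (RCfg.mem_slice.1 (RCfg.mem_box.1 hi).1).1
    have h1 := hn i hiL
    have h2 : (((G n).hts i).card : ℝ) ≤ (T.card : ℝ) := by
      refine mod_cast card_le_card ?_
      intro k hk
      obtain ⟨k1, k2⟩ := RCfg.mem_hts.1 hk
      exact hT2 k k1 k2
    refine le_trans ?_ (h1.trans h2)
    refine mul_le_mul_of_nonneg_right (rpow_anti B n ?_) (Nat.cast_nonneg _)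
    rw [hC]
    nlinarith
  · -- fans
    intro t ht htt
    refine ⟨ν r - q * t, by nlinarith, ?_⟩
    exact fanBd_of H.toRUnif hC1 h0 hr h0r hrs hrA.le hrB.le habs hN hev ht
      (htt.trans (min_le_left _ _)) (htt.trans (min_le_right _ _))
      (hleg t ht (htt.trans (min_le_left _ _))) _ _ h00
  · -- Frostman
    intro y hy hyx ε hε
    filter_upwards [H.frost y hy (hyx.trans hxR) ε hε] with n hn k hk T hT1 hT2
    have h1 := hn k hk
    rw [one_mul] at h1
    refine le_trans ?_ h1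
    refine mod_cast card_le_card ?_
    intro k' hk'
    unfold RCfg.hbox
    rw [mem_filter]
    refine ⟨hT1 hk', ?_⟩
    have := hT2 k' hk'
    have e1 : (G n).z k' - (G n).z (c n).2 - ((G n).z k - (G n).z (c n).2) =
        (G n).z k' - (G n).z k := by ring
    rw [e1] at this
    rw [H.base n]
    exact this

end Crest.Agent.R136.C3a795
end

-- ▼ part R136/C3b_795
section

/-!
# R136: sheared slots of a relative model (helper795, T.C3)

* `shr G e` : the slots `6, 9` replaced by `6 + e 5`, `9 + e 8` (`e` = absolute `E`-coordinate of the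
  line): the own motion of `F_a` becomes a function of the heights, and `5, 6, 8, 9` additive.
* `RModel.shr` : the sheared model is a model on the legal boxes with `p 9 ≤ p 8`, `p 6 ≤ p 5`.
* `noStr_shr` : no strips pass to the sheared model.
-/

set_option autoImplicit false
set_option linter.unusedVariables false
set_option linter.unusedSectionVars false

open Filter Topology Finset

namespace Crest.Agent.R136.C3b795

open Crest.Agent.R138.Ex926 (Base U)
open Crest.Agent.R136.Gf356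
open Crest.Agent.R136.CD366
open Crest.Agent.R136.CV366 (NoStr unit_le)
open Crest.Agent.R136.C3a795

variable {B : Base} {G : ℕ → RCfg (Fin 11)} {Leg : Set (Fin 11 → ℝ)} {ν : (Fin 11 → ℝ) → ℝ}
  {σ R D : ℝ} {e : ℕ → ℕ → ℕ → ℝ}

/-- sheared slots -/
def shr (G : ℕ → RCfg (Fin 11)) (e : ℕ → ℕ → ℕ → ℝ) (n : ℕ) : RCfg (Fin 11) :=
  { G n with
    rel := fun k i l s => if s = 6 then (G n).rel k i l 6 + e n k i * (G n).rel k i l 5
      else if s = 9 then (G n).rel k i l 9 + e n k i * (G n).rel k i l 8 else (G n).rel k i l s }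

theorem shr_six (n k i l : ℕ) : (shr G e n).rel k i l 6 =
    (G n).rel k i l 6 + e n k i * (G n).rel k i l 5 := rfl

theorem shr_nine (n k i l : ℕ) : (shr G e n).rel k i l 9 =
    (G n).rel k i l 9 + e n k i * (G n).rel k i l 8 := rfl

theorem shr_of_ne {s : Fin 11} (h6 : s ≠ 6) (h9 : s ≠ 9) (n k i l : ℕ) :
    (shr G e n).rel k i l s = (G n).rel k i l s := by
  show (if s = 6 then _ else if s = 9 then _ else (G n).rel k i l s) = _
  rw [if_neg h6, if_neg h9]

/-- the legal boxes of the sheared model -/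
def LegS (Leg : Set (Fin 11 → ℝ)) : Set (Fin 11 → ℝ) := {p | p ∈ Leg ∧ p 9 ≤ p 8 ∧ p 6 ≤ p 5}

/-- bounded shears -/
def EB (G : ℕ → RCfg (Fin 11)) (e : ℕ → ℕ → ℕ → ℝ) : Prop :=
  ∀ᶠ n in (U : Filter ℕ), ∀ k i, (i, k) ∈ (G n).I → |e n k i| ≤ 1

theorem shr_loose (hb : ∀ n, (G n).ρ = B.d n) (he : EB G e) {p : Fin 11 → ℝ}
    (h9 : p 9 ≤ p 8) (h6 : p 6 ≤ p 5) {δ : ℝ} (hδ : 0 < δ) :
    ∀ᶠ n in (U : Filter ℕ), ∀ ε : ℝ, ∀ k i l, (i, k) ∈ (G n).I →
      ((shr G e n).loose p ε k i l → (G n).loose p (ε + δ) k i l) ∧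
      ((G n).loose p ε k i l → (shr G e n).loose p (ε + δ) k i l) := by
  filter_upwards [he, ev_const_le B hδ 2] with n hen h2 ε k i l hik
  have hpow : ∀ t : ℝ, 0 < B.d n ^ t := fun t => rpos B n t
  have hb' : (shr G e n).ρ = B.d n := hb n
  have he1 := hen k i hik
  have key : ∀ x y w v : ℝ, w ≤ v → |x| ≤ B.d n ^ (w - ε) → |y| ≤ B.d n ^ (v - ε) →
      |x| + |e n k i * y| ≤ B.d n ^ (w - (ε + δ)) := by
    intro x y w v hwv hx hy
    have a1 : |e n k i * y| ≤ B.d n ^ (w - ε) := by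
      rw [abs_mul]
      calc |e n k i| * |y| ≤ 1 * B.d n ^ (v - ε) :=
            mul_le_mul he1 hy (abs_nonneg _) zero_le_one
        _ = B.d n ^ (v - ε) := one_mul _
        _ ≤ _ := rpow_anti B n (by linarith)
    calc |x| + |e n k i * y| ≤ 2 * B.d n ^ (w - ε) := by linarith
      _ ≤ B.d n ^ (-δ) * B.d n ^ (w - ε) := mul_le_mul_of_nonneg_right h2 (hpow _).le
      _ = B.d n ^ (w - (ε + δ)) := by rw [← rpow_add']; congr 1; ring
  constructor
  · intro h s
    have h5 := h 5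
    have h8 := h 8
    rw [shr_of_ne (by decide) (by decide), hb'] at h5 h8
    rw [hb n]
    by_cases hs6 : s = 6
    · subst hs6
      have h6' := h 6
      rw [hb'] at h6'
      have e1 : (G n).rel k i l 6 = (shr G e n).rel k i l 6 - e n k i * (G n).rel k i l 5 := by
        rw [shr_six]; ring
      rw [e1]
      exact (abs_sub _ _).trans (key _ _ _ _ h6 h6' h5)
    by_cases hs9 : s = 9
    · subst hs9
      have h9' := h 9
      rw [hb'] at h9'
      have e1 : (G n).rel k i l 9 = (shr G e n).rel k i l 9 - e n k i * (G n).rel k i l 8 := by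
        rw [shr_nine]; ring
      rw [e1]
      exact (abs_sub _ _).trans (key _ _ _ _ h9 h9' h8)
    · have := h s
      rw [shr_of_ne hs6 hs9, hb'] at this
      exact this.trans (rpow_anti B n (by linarith))
  · intro h s
    have h5 := h 5
    have h8 := h 8
    rw [hb n] at h5 h8
    rw [hb']
    by_cases hs6 : s = 6
    · subst hs6
      have h6' := h 6
      rw [hb n] at h6'
      rw [shr_six]
      exact (abs_add_le _ _).trans (key _ _ _ _ h6 h6' h5)
    by_cases hs9 : s = 9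
    · subst hs9
      have h9' := h 9
      rw [hb n] at h9'
      rw [shr_nine]
      exact (abs_add_le _ _).trans (key _ _ _ _ h9 h9' h8)
    · have := h s
      rw [hb n] at this
      rw [shr_of_ne hs6 hs9]
      exact this.trans (rpow_anti B n (by linarith))


/-- **the sheared counts are uniform** -/
theorem RUnif.shr (H : RUnif B G Leg ν D) (he : EB G e) :
    RUnif B (shr G e) (LegS Leg) ν (4 * D) where
  D1 := by linarith [H.D1]
  base := fun n => H.base n
  sub := fun n => H.sub n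
  nonempty := fun n => H.nonempty n
  refl := fun n k i hik j => by
    have h0 := H.refl n k i hik
    by_cases h6 : j = 6
    · subst h6; rw [shr_six, h0, h0]; ring
    by_cases h9 : j = 9
    · subst h9; rw [shr_nine, h0, h0]; ring
    · rw [shr_of_ne h6 h9]; exact h0 j
  symm := fun p hp ε hε => by
    have hD := H.D1
    have hDε : 0 < 2 * D * ε := by positivity
    filter_upwards [shr_loose H.base he hp.2.1 hp.2.2 hε, shr_loose H.base he hp.2.1 hp.2.2 hDε,
      H.symm p hp.1 (2 * ε) (by positivity)] with n h1 h2 h3 k i l hi hl hlo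
    have a1 := (h1 ε k i l hi).1 hlo
    have e1 : ε + ε = 2 * ε := by ring
    rw [e1] at a1
    have a2 := h3 k i l hi hl a1
    have a3 := (h2 _ k l i hl).2 a2
    have e2 : D * (2 * ε) + 2 * D * ε = 4 * D * ε := by ring
    rwa [e2] at a3
  tri := fun p hp ε hε => by
    have hD := H.D1
    have hDε : 0 < 2 * D * ε := by positivity
    filter_upwards [shr_loose H.base he hp.2.1 hp.2.2 hε, shr_loose H.base he hp.2.1 hp.2.2 hDε,
      H.tri p hp.1 (2 * ε) (by positivity)] with n h1 h2 h3 k i l m hi hl hm hil hlm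
    have e1 : ε + ε = 2 * ε := by ring
    have a1 := (h1 ε k i l hi).1 hil
    have a2 := (h1 ε k l m hl).1 hlm
    rw [e1] at a1 a2
    have a3 := (h2 _ k i m hi).2 (h3 k i l m hi hl hm a1 a2)
    have e2 : D * (2 * ε) + 2 * D * ε = 4 * D * ε := by ring
    rwa [e2] at a3
  low := fun p hp ε hε => by
    have hε2 : 0 < ε / 2 := by positivity
    filter_upwards [shr_loose H.base he hp.2.1 hp.2.2 hε2, H.low p hp.1 (ε / 2) hε2] with
      n h1 h2 i k hik
    have a1 := h2 i k hik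
    refine (rpow_anti B n (by linarith)).trans (a1.trans ?_)
    refine mod_cast card_le_card ?_
    intro l hl
    obtain ⟨b1, b2⟩ := RCfg.mem_box.1 hl
    refine RCfg.mem_box.2 ⟨b1, ?_⟩
    have := (h1 _ k i l hik).2 b2
    have e1 : ε / 2 + ε / 2 = ε := by ring
    rwa [e1] at this
  up := fun p hp ε hε => by
    have hD := H.D1
    filter_upwards [shr_loose H.base he hp.2.1 hp.2.2 hε, H.up p hp.1 (2 * ε) (by positivity)]
      with n h1 h2 i k hik
    have a1 := h2 i k hik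
    refine le_trans ?_ (a1.trans (rpow_anti B n (by nlinarith)))
    refine mod_cast card_le_card ?_
    intro l hl
    obtain ⟨b1, b2⟩ := RCfg.mem_box.1 hl
    refine RCfg.mem_box.2 ⟨b1, ?_⟩
    have := (h1 _ k i l hik).1 b2
    have e1 : ε + ε = 2 * ε := by ring
    rwa [e1] at this

/-- **the sheared model is a model** -/
theorem RModel.shr (H : RModel B G σ R Leg ν D) (he : EB G e) :
    RModel B (shr G e) σ R (LegS Leg) ν (4 * D) where
  toRUnif := RUnif.shr H.toRUnif he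
  σ_nonneg := H.σ_nonneg
  σ_le := H.σ_le
  line := H.line
  slice := H.slice
  frost := H.frost


open Classical in
/-- **no strips** in the sheared model -/
theorem noStr_shr (hb : ∀ n, (G n).ρ = B.d n) (he : EB G e) {p0 : Fin 11 → ℝ} (h9 : p0 9 ≤ p0 8)
    (h6 : p0 6 ≤ p0 5) {q R0 : ℝ} (h : NoStr B G p0 5 6 ν q R0) :
    NoStr B (shr G e) p0 5 6 ν q R0 := by
  obtain ⟨K, hK, h⟩ := h
  refine ⟨2 * K, by positivity, fun t ht htR ε hε => ?_⟩
  filter_upwards [h t ht htR (2 * ε) (by positivity), shr_loose hb he h9 h6 hε, he,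
    ev_const_le B hε 2] with n hn hlo hen h2 i k hik b hb'
  have hpow : ∀ t : ℝ, 0 < B.d n ^ t := fun t => rpos B n t
  obtain ⟨u, hu1, hu2⟩ := shear_dir (c5 := 0) (c6 := 0) (w := 0) hb' (hen k i hik) (by simp)
  have a1 := hn i k hik u hu1
  refine le_trans ?_ (a1.trans (rpow_anti B n (by linarith)))
  refine mod_cast card_le_card ?_
  intro l hl
  rw [mem_filter, RCfg.mem_box] at hl ⊢
  obtain ⟨⟨b1, b2⟩, b3⟩ := hl
  have b4 := (hlo ε k i l hik).1 b2
  have e1 : ε + ε = 2 * ε := by ring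
  rw [e1] at b4
  refine ⟨⟨b1, b4⟩, ?_⟩
  rw [shr_six, shr_of_ne (by decide) (by decide)] at b3
  have e2 : b 0 * (G n).rel k i l 5 + b 1 * ((G n).rel k i l 6 + e n k i * (G n).rel k i l 5) =
      (b 0 + b 1 * e n k i) * (G n).rel k i l 5 + b 1 * (G n).rel k i l 6 := by ring
  rw [e2] at b3
  refine (hu2 _ _ _ b3).trans ?_
  calc 2 * B.d n ^ (t - ε) ≤ B.d n ^ (-ε) * B.d n ^ (t - ε) :=
        mul_le_mul_of_nonneg_right h2 (hpow _).le
    _ = B.d n ^ (t - 2 * ε) := by rw [← rpow_add']; congr 1; ring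

end Crest.Agent.R136.C3b795
end

-- ▼ part R136/C3c_795

/-!
# R136: the model of case C3 and its lines (helper795)

`M3` : relative model with level slots `z`, (`F_b`,) `F_a`, additive slots `5, 6, 8, 9` (sheared),
multipliers `fa` of `X_a`, `fb` of `X_b` which are functions of the heights.

* `M3.block` : the block `(X_a, X_b)` is full.
* `M3.shift9`, `M3.shift8` : visible shifts of `X_b` resp. `X_a` into `N`.
* `M3.kappa_one` : the line `κ3 = 1` with only `F_a` tied.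
-/

set_option autoImplicit false
set_option linter.unusedVariables false
set_option linter.unusedSectionVars false

open Filter Topology Finset

namespace Crest.Agent.R136.C3c795

open Crest.Agent.R138.Ex926 (Base U)
open Crest.Agent.R136.Gf356
open Crest.Agent.R136.CD366
open Crest.Agent.R136.CV366 (NoStr unit_le)
open Crest.Agent.R136.C3a795
open Crest.Agent.R136.Fe1355 (RawTw shift_R)

/-- boxes in the slots `5, …, 10` -/
def b6 (c5 c6 c7 c8 c9 c10 : ℝ) : Fin 11 → ℝ := ![0, 0, 0, 0, 0, c5, c6, c7, c8, c9, c10]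

/-- evolution of the sheared slots: `u` = step of the height, `ga`, `gb` = own motions of `F_a`,
`F_b` -/
structure Ev3 (η u ga gb : ℝ) (x y : Fin 11 → ℝ) : Prop where
  e5 : |y 5 - x 5| ≤ η
  e6 : |y 6 - x 6| ≤ η
  e7 : |y 7 - (x 7 - ga * x 5 - gb * x 6)| ≤ η
  e8 : |y 8 - (x 8 + u * x 5)| ≤ η
  e9 : |y 9 - (x 9 + u * x 6)| ≤ η
  e10 : |y 10 - (x 10 + u * x 7 - ga * (x 8 + u * x 5) - gb * (x 9 + u * x 6))| ≤ η

/-- **the model of case C3** -/
structure M3 (B : Base) (G : ℕ → RCfg (Fin 11)) (Leg : Set (Fin 11 → ℝ)) (ν : (Fin 11 → ℝ) → ℝ)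
    (T D : ℝ) (fa fb : ℕ → ℕ → ℝ) : Prop where
  H : RModel B G 1 T Leg ν D
  T0 : 0 < T
  leg : ∀ c5 c6 c7 c8 c9 c10 : ℝ, 0 ≤ c5 → c5 ≤ T → 0 ≤ c6 → c6 ≤ c5 → 0 ≤ c7 → c7 ≤ T →
    0 ≤ c8 → c8 ≤ T → 0 ≤ c9 → c9 ≤ c8 → 0 ≤ c10 → c10 ≤ T → b6 c5 c6 c7 c8 c9 c10 ∈ Leg
  bd : ∀ᶠ n in (U : Filter ℕ), ∀ k ∈ (G n).Z, |(G n).z k| ≤ 1 ∧ |fa n k| ≤ 1 ∧ |fb n k| ≤ 1
  rb : ∀ᶠ n in (U : Filter ℕ), ∀ k i l, (i, k) ∈ (G n).I → (l, k) ∈ (G n).I → ∀ s,
    |(G n).rel k i l s| ≤ 1
  ev : ∀ ε : ℝ, 0 < ε → ∀ᶠ n in (U : Filter ℕ), ∀ k k' i l, (i, k) ∈ (G n).I →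
    (l, k) ∈ (G n).I → (i, k') ∈ (G n).I → (l, k') ∈ (G n).I →
    Ev3 (B.d n ^ (T - ε)) ((G n).z k' - (G n).z k) (fa n k' - fa n k) (fb n k' - fb n k)
      ((G n).rel k i l) ((G n).rel k' i l)
  ab : ∃ (A V : ℕ → ℕ → Fin 2 → ℝ) (Ca : ℝ),
    AbsC B G (b6 0 0 0 0 0 0) 8 9 5 6 T Ca A V (fun _ _ _ => 0)

variable {B : Base} {G : ℕ → RCfg (Fin 11)} {Leg : Set (Fin 11 → ℝ)} {ν : (Fin 11 → ℝ) → ℝ}
  {T D : ℝ} {fa fb : ℕ → ℕ → ℝ}

theorem absC_mono {p0 : Fin 11 → ℝ} {sA sB cA cB : Fin 11} {x x' Ca : ℝ}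
    {A V : ℕ → ℕ → Fin 2 → ℝ} {e : ℕ → ℕ → ℕ → ℝ} (h : AbsC B G p0 sA sB cA cB x Ca A V e)
    (hx : x' ≤ x) : AbsC B G p0 sA sB cA cB x' Ca A V e where
  Ca_pos := h.Ca_pos
  e_le := h.e_le
  pA := fun ε hε => by
    filter_upwards [h.pA ε hε] with n hn k i l h1 h2 h3
    exact (hn k i l h1 h2 h3).trans (rpow_anti B n (by linarith))
  pB := fun ε hε => by
    filter_upwards [h.pB ε hε] with n hn k i l h1 h2 h3
    exact (hn k i l h1 h2 h3).trans (rpow_anti B n (by linarith))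
  vA := fun ε hε => by
    filter_upwards [h.vA ε hε] with n hn k i l h1 h2 h3
    exact (hn k i l h1 h2 h3).trans (rpow_anti B n (by linarith))
  vB := fun ε hε => by
    filter_upwards [h.vB ε hε] with n hn k i l h1 h2 h3
    exact (hn k i l h1 h2 h3).trans (rpow_anti B n (by linarith))

namespace M3

variable (M : M3 B G Leg ν T D fa fb)

include M

theorem zero_leg : b6 0 0 0 0 0 0 ∈ Leg :=
  M.leg 0 0 0 0 0 0 le_rfl M.T0.le le_rfl le_rfl le_rfl M.T0.le le_rfl M.T0.le le_rfl le_rfl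
    le_rfl M.T0.le

/-- the class box is no condition -/
theorem loose0 {ε : ℝ} (hε : 0 < ε) : ∀ᶠ n in (U : Filter ℕ), ∀ k i l, (i, k) ∈ (G n).I →
    (l, k) ∈ (G n).I → (G n).loose (b6 0 0 0 0 0 0) ε k i l := by
  filter_upwards [M.rb] with n hn k i l hi hl s
  have e0 : b6 0 0 0 0 0 0 s = 0 := by fin_cases s <;> rfl
  rw [M.H.base n, e0]
  refine (hn k i l hi hl s).trans ?_
  exact Real.one_le_rpow_of_pos_of_le_one_of_nonpos (B.pos n) (B.lt n).le (by linarith)

theorem coEv : CoEv B G (b6 0 0 0 0 0 0) 1 := by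
  intro ε hε
  filter_upwards [M.loose0 hε] with n hn k₀ k i i' h1 h2 h3 h4 _
  rw [one_mul]
  exact hn k i i' h3 h4

/-- additivity of the velocities -/
theorem addT (pC : Fin 11 → ℝ) {t : ℝ} (ht : t ≤ T) :
    ∃ Ca : ℝ, 0 < Ca ∧ AddT B G (b6 0 0 0 0 0 0) pC 5 6 Ca t := by
  obtain ⟨A, V, Ca, h⟩ := M.ab
  have hCa := h.Ca_pos
  refine ⟨Ca + 1, by linarith, fun ε hε => ?_⟩
  filter_upwards [h.vA ε hε, h.vB ε hε, M.loose0 hε, ev_const_le B hε 3] with
    n hA hB hlo h3 k i l m hi hl hm _ _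
  have hpow : ∀ t : ℝ, 0 < B.d n ^ t := fun t => rpos B n t
  have e1 : 3 * B.d n ^ (T - Ca * ε) ≤ B.d n ^ (t - (Ca + 1) * ε) := by
    calc 3 * B.d n ^ (T - Ca * ε) ≤ B.d n ^ (-ε) * B.d n ^ (T - Ca * ε) :=
          mul_le_mul_of_nonneg_right h3 (hpow _).le
      _ = B.d n ^ (T - (Ca + 1) * ε) := by rw [← rpow_add']; congr 1; ring
      _ ≤ _ := rpow_anti B n (by linarith)
  have il := hlo k i l hi hl
  have lm := hlo k l m hl hm
  have im := hlo k i m hi hm
  constructor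
  · have a1 := abs_le.1 (hA k i l hi hl il)
    have a2 := abs_le.1 (hA k l m hl hm lm)
    have a3 := abs_le.1 (hA k i m hi hm im)
    refine le_trans ?_ e1
    rw [abs_le]
    constructor <;> linarith [a1.1, a1.2, a2.1, a2.2, a3.1, a3.2]
  · have a1 := hB k i l hi hl il
    have a2 := hB k l m hl hm lm
    have a3 := hB k i m hi hm im
    simp only [zero_mul, add_zero] at a1 a2 a3
    have a1 := abs_le.1 a1
    have a2 := abs_le.1 a2
    have a3 := abs_le.1 a3
    refine le_trans ?_ e1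
    rw [abs_le]
    constructor <;> linarith [a1.1, a1.2, a2.1, a2.2, a3.1, a3.2]

/-- **the block `(X_a, X_b)` is full** -/
theorem block (hKM : ∀ V : ℝ, Crest.Agent.R138.Tub70.KM32 V) {q R0 x : ℝ} (hq : 0 < q)
    (hR0 : 0 < R0) (hx : 0 < x) (hxT : x ≤ T) (hN : NoStr B G (b6 0 0 0 0 0 0) 5 6 ν q R0)
    (dec : ∀ t : ℝ, 0 ≤ t → t ≤ T → ν (b6 0 0 0 0 0 0) - ν (b6 t t 0 0 0 0) ≤
      ν (b6 0 0 0 x x 0) - ν (b6 t t 0 x x 0)) :
    2 * x ≤ ν (b6 0 0 0 0 0 0) - ν (b6 0 0 0 x x 0) := by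
  have hT := M.T0
  have hN' : NoStr B G (b6 0 0 0 0 0 0) 5 6 ν q (min R0 T) := by
    obtain ⟨K, hK, h⟩ := hN
    exact ⟨K, hK, fun t ht htR => h t ht (htR.trans (min_le_left _ _))⟩
  obtain ⟨A, V, Ca, h⟩ := M.ab
  refine block_strip hKM M.H (sA := 8) (sB := 9) (cA := 5) (cB := 6) (t0 := min R0 T)
    one_pos hx hxT (lt_min hR0 hT) hq ?_ M.zero_leg
    (M.leg 0 0 0 x x 0 le_rfl hT.le le_rfl le_rfl le_rfl hT.le hx.le hxT hx.le le_rfl le_rfl hT.le)
    ?_ ?_ rfl rfl (absC_mono h hxT) hN' ?_ M.coEv ?_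
  · intro s; fin_cases s <;> simp [b6]
  · intro s; fin_cases s <;> simp [b6] <;> exact hx.le
  · intro s h8 h9; fin_cases s <;> first | exact absurd rfl h8 | exact absurd rfl h9 | simp [b6]
  · filter_upwards [M.bd] with n hn k hk
    exact (hn k hk).1
  · intro t ht htt
    have htT : t ≤ T := htt.trans (min_le_right _ _)
    refine ⟨b6 t t 0 0 0 0, M.leg t t 0 0 0 0 ht.le htT ht.le le_rfl le_rfl hT.le le_rfl hT.le
      le_rfl le_rfl le_rfl hT.le, b6 t t 0 x x 0, M.leg t t 0 x x 0 ht.le htT ht.le le_rfl le_rfl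
      hT.le hx.le hxT hx.le le_rfl le_rfl hT.le, ?_, ?_, ?_, ?_, M.addT _ htT, dec t ht.le htT⟩
    · intro s; fin_cases s <;> simp [b6] <;> exact ht.le
    · simp [b6]
    · simp [b6]
    · intro s; fin_cases s <;> simp [b6]

/-- **visible shift of `X_b`**: `fb` has raw twist -/
theorem shift9 (htw : RawTw B G fun n k k' => fb n k' - fb n k) {y : ℝ} (hy : 0 ≤ y) (hyT : y ≤ T) :
    ν (b6 y y y y 0 y) - ν (b6 y y y y y y) ≤ ν (b6 y y y y 0 0) - ν (b6 y y y y 0 y) := by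
  have hT := M.T0
  refine shift_R M.H (b6 y y y y 0 y) (b6 y y y y y y) (b6 y y y y 0 0) (b6 y y y y 0 y)
    (M.leg y y y y 0 y hy hyT hy le_rfl hy hyT hy hyT le_rfl hy hy hyT)
    (M.leg y y y y y y hy hyT hy le_rfl hy hyT hy hyT hy le_rfl hy hyT)
    (M.leg y y y y 0 0 hy hyT hy le_rfl hy hyT hy hyT le_rfl hy le_rfl hT.le)
    (M.leg y y y y 0 y hy hyT hy le_rfl hy hyT hy hyT le_rfl hy hy hyT)
    (by intro s; fin_cases s <;> simp [b6] <;> exact hy) 9 10 (y := y) (by simp [b6])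
    (by intro s hs; fin_cases s <;> first | exact absurd rfl hs | simp [b6]) (by simp [b6])
    (fun n k k' => -(fb n k' - fb n k)) (by
      intro ε hε
      filter_upwards [htw ε hε] with n hn i hi S hS hq
      refine hn i hi S hS fun q hq' => ?_
      have := hq q hq'
      rwa [abs_neg] at this) ?_
  intro C0 hC0
  refine ⟨C0 + 1, by linarith, fun ε hε => ?_⟩
  have hC0ε : 0 < C0 * ε := by positivity
  filter_upwards [M.ev (C0 * ε) hC0ε, M.bd, M.rb, ev_const_le B hε 16] with n hev hbd hrb h16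
    k hk k' hk' i i' hi hi' hl hl' hlo
  have hpow : ∀ t : ℝ, 0 < B.d n ^ t := fun t => rpos B n t
  set b := B.d n ^ (y - C0 * ε) with hb
  have hb0 : 0 < b := hpow _
  have hfin : 16 * b ≤ B.d n ^ (y - (C0 + 1) * ε) := by
    calc 16 * b ≤ B.d n ^ (-ε) * b := mul_le_mul_of_nonneg_right h16 hb0.le
      _ = B.d n ^ (y - (C0 + 1) * ε) := by rw [hb, ← rpow_add']; congr 1; ring
  have E := hev k k' i i' hi hl hi' hl'
  have hη : B.d n ^ (T - C0 * ε) ≤ b := rpow_anti B n (by linarith)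
  obtain ⟨z1, a1, b1⟩ := hbd k hk
  obtain ⟨z2, a2, b2⟩ := hbd k' hk'
  have hu : |(G n).z k' - (G n).z k| ≤ 2 := (abs_sub _ _).trans (by linarith)
  have hga : |fa n k' - fa n k| ≤ 2 := (abs_sub _ _).trans (by linarith)
  have hgb : |fb n k' - fb n k| ≤ 2 := (abs_sub _ _).trans (by linarith)
  have x5 : |(G n).rel k i i' 5| ≤ b := by have := hlo 5; rwa [M.H.base n] at this
  have x6 : |(G n).rel k i i' 6| ≤ b := by have := hlo 6; rwa [M.H.base n] at this
  have x7 : |(G n).rel k i i' 7| ≤ b := by have := hlo 7; rwa [M.H.base n] at this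
  have x8 : |(G n).rel k i i' 8| ≤ b := by have := hlo 8; rwa [M.H.base n] at this
  have x10 : |(G n).rel k i i' 10| ≤ b := by have := hlo 10; rwa [M.H.base n] at this
  have mul2 : ∀ {g x c : ℝ}, |g| ≤ 2 → |x| ≤ c * b → |g * x| ≤ 2 * c * b := by
    intro g x c hg hx
    rw [abs_mul]
    calc |g| * |x| ≤ 2 * (c * b) := mul_le_mul hg hx (abs_nonneg _) (by norm_num)
      _ = 2 * c * b := by ring
  have one : ∀ {x : ℝ}, |x| ≤ b → |x| ≤ 1 * b := fun h => by rwa [one_mul]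
  have p5 := abs_le.1 (mul2 hga (one x5))
  have p6 := abs_le.1 (mul2 hgb (one x6))
  have q5 := abs_le.1 (mul2 hu (one x5))
  have q6a := mul2 hu (one x6)
  have q6 := abs_le.1 q6a
  have q7 := abs_le.1 (mul2 hu (one x7))
  have r8 := abs_le.1 (mul2 hga (one x8))
  have r5 := abs_le.1 (mul2 hga (mul2 hu (one x5)))
  have r6 := abs_le.1 (mul2 hgb (mul2 hu (one x6)))
  have n5 := abs_le.1 (E.e5.trans hη)
  have n6 := abs_le.1 (E.e6.trans hη)
  have n7 := abs_le.1 (E.e7.trans hη)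
  have n8 := abs_le.1 (E.e8.trans hη)
  have n10 := abs_le.1 (E.e10.trans hη)
  have w5 := abs_le.1 x5
  have w6 := abs_le.1 x6
  have w7 := abs_le.1 x7
  have w8 := abs_le.1 x8
  have w10 := abs_le.1 x10
  constructor
  · intro s
    rw [M.H.base n]
    have triv : ∀ s, b6 y y y y 0 0 s = 0 → |(G n).rel k' i i' s| ≤
        B.d n ^ (b6 y y y y 0 0 s - (C0 + 1) * ε) := by
      intro s hs
      rw [hs]
      refine (hrb k' i i' hi' hl' s).trans ?_
      exact Real.one_le_rpow_of_pos_of_le_one_of_nonpos (B.pos n) (B.lt n).le (by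
        have : 0 < (C0 + 1) * ε := by positivity
        linarith)
    fin_cases s
    · exact triv 0 rfl
    · exact triv 1 rfl
    · exact triv 2 rfl
    · exact triv 3 rfl
    · exact triv 4 rfl
    · show |(G n).rel k' i i' 5| ≤ B.d n ^ (y - (C0 + 1) * ε)
      refine le_trans ?_ hfin
      rw [abs_le]; constructor <;> linarith [n5.1, n5.2, w5.1, w5.2]
    · show |(G n).rel k' i i' 6| ≤ B.d n ^ (y - (C0 + 1) * ε)
      refine le_trans ?_ hfin
      rw [abs_le]; constructor <;> linarith [n6.1, n6.2, w6.1, w6.2]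
    · show |(G n).rel k' i i' 7| ≤ B.d n ^ (y - (C0 + 1) * ε)
      refine le_trans ?_ hfin
      rw [abs_le]
      constructor <;> linarith [n7.1, n7.2, w7.1, w7.2, p5.1, p5.2, p6.1, p6.2]
    · show |(G n).rel k' i i' 8| ≤ B.d n ^ (y - (C0 + 1) * ε)
      refine le_trans ?_ hfin
      rw [abs_le]; constructor <;> linarith [n8.1, n8.2, w8.1, w8.2, q5.1, q5.2]
    · exact triv 9 rfl
    · exact triv 10 rfl
  · refine le_trans ?_ hfin
    have e1 : (G n).rel k' i i' 10 - -(fb n k' - fb n k) * (G n).rel k i i' 9 =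
        ((G n).rel k' i i' 10 - ((G n).rel k i i' 10 + ((G n).z k' - (G n).z k) *
          (G n).rel k i i' 7 - (fa n k' - fa n k) * ((G n).rel k i i' 8 +
            ((G n).z k' - (G n).z k) * (G n).rel k i i' 5) - (fb n k' - fb n k) *
            ((G n).rel k i i' 9 + ((G n).z k' - (G n).z k) * (G n).rel k i i' 6))) +
        (G n).rel k i i' 10 + ((G n).z k' - (G n).z k) * (G n).rel k i i' 7 -
        (fa n k' - fa n k) * (G n).rel k i i' 8 -
        (fa n k' - fa n k) * (((G n).z k' - (G n).z k) * (G n).rel k i i' 5) -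
        (fb n k' - fb n k) * (((G n).z k' - (G n).z k) * (G n).rel k i i' 6) := by ring
    rw [e1, abs_le]
    constructor <;> linarith [n10.1, n10.2, w10.1, w10.2, q7.1, q7.2, r8.1, r8.2, r5.1, r5.2,
      r6.1, r6.2]

/-- **visible shift of `X_a`**: `F_b` not level, `fa` has raw twist -/
theorem shift8 (hfb : ∀ n k, fb n k = 0) (htw : RawTw B G fun n k k' => fa n k' - fa n k) {y : ℝ}
    (hy : 0 ≤ y) (hyT : y ≤ T) :
    ν (b6 y 0 y 0 0 y) - ν (b6 y 0 y y 0 y) ≤ ν (b6 y 0 y 0 0 0) - ν (b6 y 0 y 0 0 y) := by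
  have hT := M.T0
  refine shift_R M.H (b6 y 0 y 0 0 y) (b6 y 0 y y 0 y) (b6 y 0 y 0 0 0) (b6 y 0 y 0 0 y)
    (M.leg y 0 y 0 0 y hy hyT le_rfl hy hy hyT le_rfl hT.le le_rfl le_rfl hy hyT)
    (M.leg y 0 y y 0 y hy hyT le_rfl hy hy hyT hy hyT le_rfl hy hy hyT)
    (M.leg y 0 y 0 0 0 hy hyT le_rfl hy hy hyT le_rfl hT.le le_rfl le_rfl le_rfl hT.le)
    (M.leg y 0 y 0 0 y hy hyT le_rfl hy hy hyT le_rfl hT.le le_rfl le_rfl hy hyT)
    (by intro s; fin_cases s <;> simp [b6] <;> exact hy) 8 10 (y := y) (by simp [b6])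
    (by intro s hs; fin_cases s <;> first | exact absurd rfl hs | simp [b6]) (by simp [b6])
    (fun n k k' => -(fa n k' - fa n k)) (by
      intro ε hε
      filter_upwards [htw ε hε] with n hn i hi S hS hq
      refine hn i hi S hS fun q hq' => ?_
      have := hq q hq'
      rwa [abs_neg] at this) ?_
  intro C0 hC0
  refine ⟨C0 + 1, by linarith, fun ε hε => ?_⟩
  have hC0ε : 0 < C0 * ε := by positivity
  filter_upwards [M.ev (C0 * ε) hC0ε, M.bd, M.rb, ev_const_le B hε 16] with n hev hbd hrb h16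
    k hk k' hk' i i' hi hi' hl hl' hlo
  have hpow : ∀ t : ℝ, 0 < B.d n ^ t := fun t => rpos B n t
  set b := B.d n ^ (y - C0 * ε) with hb
  have hb0 : 0 < b := hpow _
  have hfin : 16 * b ≤ B.d n ^ (y - (C0 + 1) * ε) := by
    calc 16 * b ≤ B.d n ^ (-ε) * b := mul_le_mul_of_nonneg_right h16 hb0.le
      _ = B.d n ^ (y - (C0 + 1) * ε) := by rw [hb, ← rpow_add']; congr 1; ring
  have E := hev k k' i i' hi hl hi' hl'
  have hη : B.d n ^ (T - C0 * ε) ≤ b := rpow_anti B n (by linarith)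
  obtain ⟨z1, a1, b1⟩ := hbd k hk
  obtain ⟨z2, a2, b2⟩ := hbd k' hk'
  have hu : |(G n).z k' - (G n).z k| ≤ 2 := (abs_sub _ _).trans (by linarith)
  have hga : |fa n k' - fa n k| ≤ 2 := (abs_sub _ _).trans (by linarith)
  have hgb : fb n k' - fb n k = 0 := by rw [hfb, hfb, sub_zero]
  have x5 : |(G n).rel k i i' 5| ≤ b := by have := hlo 5; rwa [M.H.base n] at this
  have x7 : |(G n).rel k i i' 7| ≤ b := by have := hlo 7; rwa [M.H.base n] at this
  have x10 : |(G n).rel k i i' 10| ≤ b := by have := hlo 10; rwa [M.H.base n] at this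
  have mul2 : ∀ {g x c : ℝ}, |g| ≤ 2 → |x| ≤ c * b → |g * x| ≤ 2 * c * b := by
    intro g x c hg hx
    rw [abs_mul]
    calc |g| * |x| ≤ 2 * (c * b) := mul_le_mul hg hx (abs_nonneg _) (by norm_num)
      _ = 2 * c * b := by ring
  have one : ∀ {x : ℝ}, |x| ≤ b → |x| ≤ 1 * b := fun h => by rwa [one_mul]
  have p5 := abs_le.1 (mul2 hga (one x5))
  have q7 := abs_le.1 (mul2 hu (one x7))
  have r5 := abs_le.1 (mul2 hga (mul2 hu (one x5)))
  have E7 := E.e7
  have E10 := E.e10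
  rw [hgb] at E7 E10
  have n5 := abs_le.1 (E.e5.trans hη)
  have n7 := abs_le.1 (E7.trans hη)
  have n10 := abs_le.1 (E10.trans hη)
  have w5 := abs_le.1 x5
  have w7 := abs_le.1 x7
  have w10 := abs_le.1 x10
  constructor
  · intro s
    rw [M.H.base n]
    have triv : ∀ s, b6 y 0 y 0 0 0 s = 0 → |(G n).rel k' i i' s| ≤
        B.d n ^ (b6 y 0 y 0 0 0 s - (C0 + 1) * ε) := by
      intro s hs
      rw [hs]
      refine (hrb k' i i' hi' hl' s).trans ?_
      exact Real.one_le_rpow_of_pos_of_le_one_of_nonpos (B.pos n) (B.lt n).le (by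
        have : 0 < (C0 + 1) * ε := by positivity
        linarith)
    fin_cases s
    · exact triv 0 rfl
    · exact triv 1 rfl
    · exact triv 2 rfl
    · exact triv 3 rfl
    · exact triv 4 rfl
    · show |(G n).rel k' i i' 5| ≤ B.d n ^ (y - (C0 + 1) * ε)
      refine le_trans ?_ hfin
      rw [abs_le]; constructor <;> linarith [n5.1, n5.2, w5.1, w5.2]
    · exact triv 6 rfl
    · show |(G n).rel k' i i' 7| ≤ B.d n ^ (y - (C0 + 1) * ε)
      refine le_trans ?_ hfin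
      rw [abs_le]
      constructor <;> linarith [n7.1, n7.2, w7.1, w7.2, p5.1, p5.2]
    · exact triv 8 rfl
    · exact triv 9 rfl
    · exact triv 10 rfl
  · refine le_trans ?_ hfin
    have e1 : (G n).rel k' i i' 10 - -(fa n k' - fa n k) * (G n).rel k i i' 8 =
        ((G n).rel k' i i' 10 - ((G n).rel k i i' 10 + ((G n).z k' - (G n).z k) *
          (G n).rel k i i' 7 - (fa n k' - fa n k) * ((G n).rel k i i' 8 +
            ((G n).z k' - (G n).z k) * (G n).rel k i i' 5) - 0 *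
            ((G n).rel k i i' 9 + ((G n).z k' - (G n).z k) * (G n).rel k i i' 6))) +
        (G n).rel k i i' 10 + ((G n).z k' - (G n).z k) * (G n).rel k i i' 7 -
        (fa n k' - fa n k) * (((G n).z k' - (G n).z k) * (G n).rel k i i' 5) := by ring
    rw [e1, abs_le]
    constructor <;> linarith [n10.1, n10.2, w10.1, w10.2, q7.1, q7.2, r5.1, r5.2]

omit M in
theorem bx_b6 (y n p x c : ℝ) : bx ∅ 10 7 8 5 y n p x c = b6 c 0 p x 0 n := by
  funext s
  fin_cases s <;> simp [bx, b6]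

/-- **`κ3 = 1`, only `F_a` tied** : `N` is full -/
theorem kappa_one (hfb : ∀ n k, fb n k = 0) (htw : RawTw B G fun n k k' => fa n k' - fa n k)
    {a m : ℝ} (hm : 0 < m) (β : ℝ → ℝ → ℝ) (γ : ℝ → ℝ)
    (hν : ∀ c p x n : ℝ, 0 ≤ c → c ≤ T → 0 ≤ p → p ≤ T → 0 ≤ x → x ≤ T → 0 ≤ n → n ≤ T →
      ν (b6 c 0 p x 0 n) = ν (b6 0 0 0 0 0 0) - a * n - β p x - γ c)
    (hX : ∀ t : ℝ, 0 ≤ t → t ≤ T → t ≤ β 0 t) (hC : ∀ t : ℝ, 0 ≤ t → t ≤ T → m * t ≤ γ t) :
    1 ≤ a := by
  have hT := M.T0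
  have K : K1 B G Leg ν ∅ 10 7 8 5 fa T 1 a m (fun _ p x => β p x) (fun _ c => γ c) := by
    refine ⟨hT, le_rfl, hm, by decide, by decide, by decide, by decide, by decide, by decide,
      ?_, ?_, ?_, ?_, ?_, ?_⟩
    · intro y n p x c' hy0 hy hn0 hn hp0 hp hx0 hx hc0 hc
      rw [bx_b6]
      exact M.leg c' 0 p x 0 n hc0 (hc.trans hy) le_rfl hc0 hp0 (hp.trans hy) hx0 (hx.trans hy)
        le_rfl hx0 hn0 (hn.trans hy)
    · filter_upwards [M.bd] with n hn k hk
      exact ⟨(hn k hk).1, (hn k hk).2.1⟩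
    · intro y hy0 hy ε hε
      filter_upwards [M.ev ε hε, M.loose0 hε] with n hev hlo k₀ k i i' h1 h2 h3 h4 _
      rw [one_mul, bx_b6]
      refine ⟨hlo k i i' h3 h4, ?_⟩
      have E := (hev k₀ k i i' h1 h2 h3 h4).e10
      rw [hfb, hfb, sub_zero, zero_mul, sub_zero] at E
      exact E.trans (rpow_anti B n (by linarith))
    · intro y n p x c' hy0 hy hn0 hn hp0 hp hx0 hx hc0 hc
      rw [bx_b6, bx_b6]
      exact hν c' p x n hc0 (hc.trans hy) hp0 (hp.trans hy) hx0 (hx.trans hy) hn0 (hn.trans hy)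
    · intro y t ht hty hy
      exact hX t ht (hty.trans hy)
    · intro y t ht hty hy
      exact hC t ht (hty.trans hy)
  exact kappa_one_R M.H K htw le_rfl

end M3

end Crest.Agent.R136.C3c795
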