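import Crest.Agent.R136.C3c_795
import Crest.Agent.R136.Tb5_628
import Crest.Agent.R136.Rc8_146
import Crest.Agent.R136.C2w_400
import Crest.Agent.R136.Ev8_356

-- ▼ part R136/C3f_795
section

/-!
# R136, case (C3), scalar argument (helper795)

* `Slo` : slopes of the two planes (`τ = 1` natural plane, `τ = 0` slack `F_b`), `κ = κ3`.
* `TF` : facts on the tangent; `vv` : the boxes of the windows.
* `TF.grp_eq` : the loss depends only on the group which moves.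
* `TF.slope_v` : `lam a = A.1`; `TF.fhalf` : the F-half from the model `M3`.
-/

set_option autoImplicit false
set_option linter.unusedVariables false
set_option linter.unusedSectionVars false

open Filter Topology Finset

namespace Crest.Agent.R136.C3f795

open Crest.Agent.R138.Ex926 (Base U)
open Crest.Agent.R136.Gf356
open Crest.Agent.R136.Dg219 (gC dhC nC OutS gC_zero gC_eq gset lf)
open Crest.Agent.R136.NatR550 (coneN)
open Crest.Agent.R136.Tb628 (coneF)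
open Crest.Agent.R136.NatT550
open Crest.Agent.R136.C3a795 Crest.Agent.R136.C3b795 Crest.Agent.R136.C3c795
open Crest.Agent.R136.CV366 (NoStr)
open Crest.Agent.R136.Fe1355 (RawTw)

/-- slopes of the planes: `τ = 1` natural plane, `τ = 0` plane with slack `F_b` -/
structure Slo (a b : Fin 11 → ℝ) (κ τ : ℝ) : Prop where
  a0 : a 0 = 1
  a1 : a 1 = 0
  a2 : a 2 = 0
  a3 : a 3 = τ * κ
  a4 : a 4 = κ
  a5 : a 5 = 0
  a6 : a 6 = 0
  a7 : a 7 = κ
  a8 : a 8 = 1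
  a9 : a 9 = 1
  a10 : a 10 = 1 + κ
  b0 : b 0 = 0
  b4 : b 4 = 0
  b7 : b 7 = 1
  b8 : b 8 = 1
  b9 : b 9 = 1
  b10 : b 10 = 1

/-- the boxes -/
def vv (τ z f ca cb p xa xb n : ℝ) : Fin 11 → ℝ := ![z, 0, 0, τ * f, f, ca, cb, p, xa, xb, n]

/-- facts on the tangent -/
structure TF (L : Set (Fin 11 → ℝ)) (lam : (Fin 11 → ℝ) → ℝ) (a b : Fin 11 → ℝ) (A : ℝ × ℝ)
    (φ : ℕ → (Fin 11 → ℝ) → ℝ) (r : ℕ → ℝ) (κ τ m : ℝ) : Prop where
  κ0 : 0 < κ
  m0 : 0 < m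
  sl : Slo a b κ τ
  pl : (τ = 1 ∧ L = coneN ∧ b 3 = 0) ∨ (τ = 0 ∧ L = coneF)
  out : OutS (gC a b) L (dhC a b) (nC a b) lam A φ r
  zero : lam 0 = 0
  anti : ∀ c ∈ L, ∀ c' ∈ L, c ≤ c' → lam c' ≤ lam c
  sharp : ∀ c ∈ L, ∀ c' ∈ L, c ≤ c' → lam c - lam c' ≤ ∑ s, (c' s - c s)
  own : ∀ c ∈ L, 0 ≤ c → c 0 ≤ -lam c
  S1 : ∀ y : ℝ, 0 ≤ y → m * y ≤ -lam (vv τ 0 0 y 0 0 0 0 0)

theorem vv_le {τ z f ca cb p xa xb n z' f' ca' cb' p' xa' xb' n' : ℝ} (hτ : 0 ≤ τ) (h0 : z ≤ z')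
    (h1 : f ≤ f') (h3 : ca ≤ ca') (h4 : cb ≤ cb') (h5 : p ≤ p') (h6 : xa ≤ xa')
    (h7 : xb ≤ xb') (h8 : n ≤ n') :
    vv τ z f ca cb p xa xb n ≤ vv τ z' f' ca' cb' p' xa' xb' n' := by
  intro i
  fin_cases i <;> simp [vv] <;> first | assumption | exact mul_le_mul_of_nonneg_left h1 hτ

/-- slots of one group are parallel -/
theorem grp_par {a b : Fin 11 → ℝ} {i s : Fin 11} (hi : gC a b i = gC a b s) :
    (a i = 0 ↔ a s = 0) ∧ (a i ≠ 0 → b i * a s = b s * a i) := by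
  by_cases h1 : a s = 0
  · have h2 : gC a b i = 0 := by rw [hi]; exact gC_zero.2 h1
    have h3 : a i = 0 := gC_zero.1 h2
    exact ⟨⟨fun _ => h1, fun _ => h3⟩, fun h4 => absurd h3 h4⟩
  · have h3 : a i ≠ 0 := by
      intro h4
      have h5 : gC a b s = 0 := by rw [← hi]; exact gC_zero.2 h4
      exact h1 (gC_zero.1 h5)
    refine ⟨⟨fun h4 => absurd h4 h3, fun h4 => absurd h4 h1⟩, fun _ => ?_⟩
    have h5 := (gC_eq h3 h1).1 hi
    rw [div_eq_div_iff h3 h1] at h5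
    linarith

namespace TF

variable {L : Set (Fin 11 → ℝ)} {lam : (Fin 11 → ℝ) → ℝ} {a b : Fin 11 → ℝ} {A : ℝ × ℝ}
  {φ : ℕ → (Fin 11 → ℝ) → ℝ} {r : ℕ → ℝ} {κ τ m : ℝ}
  (h : TF L lam a b A φ r κ τ m)

include h

theorem τ0 : 0 ≤ τ := by
  rcases h.pl with ⟨h1, -⟩ | ⟨h1, -⟩ <;> rw [h1]
  norm_num

theorem vv_mem {z f ca cb p xa xb n : ℝ} (hcb : cb ≤ ca) (hp : p ≤ f + cb) (hxa : xa ≤ z + ca)
    (hxb : xb ≤ z + cb) (hx : xb ≤ xa) (hn1 : n ≤ z + p) (hn2 : n ≤ f + xb) :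
    vv τ z f ca cb p xa xb n ∈ L := by
  rcases h.pl with ⟨h1, h2, -⟩ | ⟨h1, h2⟩
  · rw [h1, h2]
    simp only [coneN, vv, Set.mem_ofPred_eq, Matrix.cons_val, Fin.isValue]
    refine ⟨?_, ?_, ?_, ?_, ?_, ?_, ?_, ?_, ?_, ?_⟩ <;> linarith
  · rw [h1, h2]
    simp only [coneF, vv, Set.mem_ofPred_eq, Matrix.cons_val, Fin.isValue]
    refine ⟨?_, ?_, ?_, ?_, ?_, ?_, ?_⟩ <;> linarith

/-- the loss depends only on the group which moves -/
theorem grp_eq (s : Fin 11) {c c' d d' : Fin 11 → ℝ} (hc : c ∈ L) (hc' : c' ∈ L) (hd : d ∈ L)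
    (hd' : d' ∈ L) (h1 : ∀ i, gC a b i ≠ gC a b s → c i = c' i)
    (h2 : ∀ i, gC a b i ≠ gC a b s → d i = d' i) (h3 : ∀ i, gC a b i = gC a b s → c i = d i)
    (h4 : ∀ i, gC a b i = gC a b s → c' i = d' i) : lam c - lam c' = lam d - lam d' := by
  have hk : gC a b s ∈ gset (gC a b) := by simp [gset]
  have key : ∀ {c c' : Fin 11 → ℝ}, c ∈ L → c' ∈ L →
      (∀ i, gC a b i ≠ gC a b s → c i = c' i) →
      lam c - lam c' = φ (gC a b s) c - φ (gC a b s) c' := by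
    intro c c' hc hc' he
    rw [h.out.sum _ hc, h.out.sum _ hc', ← sum_sub_distrib]
    rw [sum_eq_single (gC a b s)]
    · intro j _ hj
      rw [h.out.loc j c c' fun i hi => he i (by rw [hi]; exact hj), sub_self]
    · intro hk'; exact absurd hk hk'
  rw [key hc hc' h1, key hd hd' h2, h.out.loc _ c d h3, h.out.loc _ c' d' h4]

/-- one slot moves: `1`-Lipschitz -/
theorem sharp1 (s : Fin 11) {c c' : Fin 11 → ℝ} (hc : c ∈ L) (hc' : c' ∈ L)
    (h1 : ∀ i, i ≠ s → c' i = c i) (h5 : c s ≤ c' s) : lam c - lam c' ≤ c' s - c s := by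
  have h2 := h.sharp c hc c' hc' (fun i => by
    by_cases his : i = s
    · rw [his]; exact h5
    · rw [h1 i his])
  rw [sum_eq_single s (fun j _ hj => by rw [h1 j hj, sub_self])
    (fun hs => absurd (mem_univ s) hs)] at h2
  exact h2

theorem e89 : gC a b 9 = gC a b 8 := by
  have sl := h.sl
  refine (gC_eq (by rw [sl.a9]; norm_num) (by rw [sl.a8]; norm_num)).2 ?_
  rw [sl.a8, sl.a9, sl.b8, sl.b9]

theorem e87 (hκ : κ = 1) : gC a b 7 = gC a b 8 := by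
  have sl := h.sl
  refine (gC_eq (by rw [sl.a7, hκ]; norm_num) (by rw [sl.a8]; norm_num)).2 ?_
  rw [sl.a8, sl.a7, sl.b8, sl.b7, hκ]

theorem b3 (i : Fin 11) (hi : i = 3) (h0 : a i ≠ 0) : b i = 0 := by
  subst hi
  rcases h.pl with ⟨h1, -, h2⟩ | ⟨h1, -⟩
  · exact h2
  · refine absurd ?_ h0
    rw [h.sl.a3, h1, zero_mul]

/-- the group of `(X_a, X_b)` -/
theorem g8 {i : Fin 11} (hi : gC a b i = gC a b 8) : i = 8 ∨ i = 9 ∨ (i = 7 ∧ κ = 1) := by
  obtain ⟨g1, g2⟩ := grp_par hi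
  have sl := h.sl
  have hκ := h.κ0
  have e8 : a 8 ≠ 0 := by rw [sl.a8]; norm_num
  have g3 : a i ≠ 0 := fun h0 => e8 (g1.1 h0)
  have g4 := g2 g3
  rw [sl.a8, sl.b8, mul_one, one_mul] at g4
  by_cases h3 : i = 3
  · rw [h.b3 i h3 g3] at g4
    exact absurd g4.symm g3
  fin_cases i
  · simp [sl.a0, sl.b0] at g4
  · exact absurd sl.a1 g3
  · exact absurd sl.a2 g3
  · exact absurd rfl h3
  · simp [sl.a4, sl.b4] at g4; exact absurd g4.symm hκ.ne'
  · exact absurd sl.a5 g3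
  · exact absurd sl.a6 g3
  · simp [sl.a7, sl.b7] at g4 ⊢; exact g4.symm
  · simp
  · simp
  · simp [sl.a10, sl.b10] at g4; exact absurd g4 hκ.ne'

/-- the group of `N` -/
theorem g10 {i : Fin 11} (hi : gC a b i = gC a b 10) : i = 10 := by
  obtain ⟨g1, g2⟩ := grp_par hi
  have sl := h.sl
  have hκ := h.κ0
  have e8 : a 10 ≠ 0 := by rw [sl.a10]; linarith
  have g3 : a i ≠ 0 := fun h0 => e8 (g1.1 h0)
  have g4 := g2 g3
  rw [sl.a10, sl.b10, one_mul] at g4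
  by_cases h3 : i = 3
  · rw [h.b3 i h3 g3, zero_mul] at g4
    exact absurd g4.symm g3
  fin_cases i
  · simp [sl.a0, sl.b0] at g4
  · exact absurd sl.a1 g3
  · exact absurd sl.a2 g3
  · exact absurd rfl h3
  · simp [sl.a4, sl.b4] at g4; exact absurd g4.symm hκ.ne'
  · exact absurd sl.a5 g3
  · exact absurd sl.a6 g3
  · simp [sl.a7, sl.b7] at g4
  · simp [sl.a8, sl.b8] at g4; exact absurd g4 hκ.ne'
  · simp [sl.a9, sl.b9] at g4; exact absurd g4 hκ.ne'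
  · simp

/-- group `0` -/
theorem g5 {i : Fin 11} (hi : gC a b i = gC a b 5) : i = 1 ∨ i = 2 ∨ i = 3 ∨ i = 5 ∨ i = 6 := by
  obtain ⟨g1, g2⟩ := grp_par hi
  have sl := h.sl
  have hκ := h.κ0
  have g3 : a i = 0 := g1.2 sl.a5
  fin_cases i
  · simp [sl.a0] at g3
  · simp
  · simp
  · simp
  · simp [sl.a4] at g3; exact absurd g3.symm hκ.ne
  · simp
  · simp
  · simp [sl.a7] at g3; exact absurd g3.symm hκ.ne
  · simp [sl.a8] at g3
  · simp [sl.a9] at g3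
  · simp [sl.a10] at g3; linarith

theorem e56 : gC a b 6 = gC a b 5 := by
  rw [gC_zero.2 h.sl.a5, gC_zero.2 h.sl.a6]

/-- level slots -/
theorem g0 {i : Fin 11} (hi : gC a b i = gC a b 0) : i = 0 ∨ i = 3 ∨ i = 4 := by
  obtain ⟨g1, g2⟩ := grp_par hi
  have sl := h.sl
  have hκ := h.κ0
  have e8 : a 0 ≠ 0 := by rw [sl.a0]; norm_num
  have g3 : a i ≠ 0 := fun h0 => e8 (g1.1 h0)
  have g4 := g2 g3
  rw [sl.a0, sl.b0, zero_mul, mul_one] at g4
  fin_cases i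
  · simp
  · exact absurd sl.a1 g3
  · exact absurd sl.a2 g3
  · simp
  · simp
  · exact absurd sl.a5 g3
  · exact absurd sl.a6 g3
  · simp [sl.b7] at g4
  · simp [sl.b8] at g4
  · simp [sl.b9] at g4
  · simp [sl.b10] at g4

/-- **slope in the direction `v`** -/
theorem slope_v : lam (vv τ 1 κ 0 0 κ 1 1 (1 + κ)) = A.1 := by
  have sl := h.sl
  have hm : vv τ 1 κ 0 0 κ 1 1 (1 + κ) ∈ L := h.vv_mem (by linarith) (by linarith) (by linarith)
    (by linarith) (by linarith) (by linarith) (by linarith)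
  have ha : vv τ 1 κ 0 0 κ 1 1 (1 + κ) = a := by
    funext i
    fin_cases i <;> simp [vv, sl.a0, sl.a1, sl.a2, sl.a3, sl.a4, sl.a5, sl.a6, sl.a7, sl.a8,
      sl.a9, sl.a10]
  rw [ha] at hm ⊢
  have h1 := h.out.total (1, 0)
  have h2 : lf A (1, 0) = A.1 := by simp [lf]
  rw [h2] at h1
  rw [h.out.sum _ hm, h1, ← sum_neg_distrib]
  refine sum_congr rfl fun k hk => ?_
  obtain ⟨i, -, rfl⟩ := mem_image.1 hk
  by_cases hi : a i = 0
  · rw [gC_zero.2 hi, Crest.Agent.R136.Dg219.nC_zero]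
    rw [h.out.zero 0 _ fun j hj => gC_zero.1 hj]
    simp [lf]
  · rw [Crest.Agent.R136.Dg219.nC_of hi]
    rw [h.out.rate (gC a b i) _ hm 1 fun j hj => by
      have hj' : a j ≠ 0 := fun h0 => hi ((grp_par hj).1.1 h0)
      rw [dhC, if_neg hj', one_mul]]
    simp [lf]

/-- loss of `N`, linear -/
theorem lossN {z f ca cb p xa xb n : ℝ} (hcb : cb ≤ ca) (hp : p ≤ f + cb) (hxa : xa ≤ z + ca)
    (hxb : xb ≤ z + cb) (hx : xb ≤ xa) (h0 : 0 ≤ n) (hn1 : n ≤ z + p) (hn2 : n ≤ f + xb) :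
    lam (vv τ z f ca cb p xa xb 0) - lam (vv τ z f ca cb p xa xb n) =
      r (gC a b 10) / (1 + κ) * n := by
  have sl := h.sl
  have hκ := h.κ0
  have m1 : vv τ z f ca cb p xa xb 0 ∈ L :=
    h.vv_mem hcb hp hxa hxb hx (by linarith) (by linarith)
  have m2 : vv τ z f ca cb p xa xb n ∈ L := h.vv_mem hcb hp hxa hxb hx hn1 hn2
  have hk : gC a b 10 ∈ gset (gC a b) := by simp [gset]
  have key : lam (vv τ z f ca cb p xa xb 0) - lam (vv τ z f ca cb p xa xb n) =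
      φ (gC a b 10) (vv τ z f ca cb p xa xb 0) - φ (gC a b 10) (vv τ z f ca cb p xa xb n) := by
    rw [h.out.sum _ m1, h.out.sum _ m2, ← sum_sub_distrib]
    rw [sum_eq_single (gC a b 10)]
    · intro j _ hj
      rw [h.out.loc j (vv τ z f ca cb p xa xb 0) (vv τ z f ca cb p xa xb n) fun i hi => ?_,
        sub_self]
      have : i ≠ 10 := by rintro rfl; exact hj hi.symm
      fin_cases i <;> first | exact absurd rfl this | simp [vv]
    · intro hk'; exact absurd hk hk'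
  have dh : dhC a b 10 = 1 + κ := by
    unfold dhC
    rw [sl.a10, if_neg (by linarith)]
  rw [key, h.out.zero (gC a b 10) (vv τ z f ca cb p xa xb 0) (fun i hi => by
    rw [h.g10 hi]; simp [vv]), h.out.rate (gC a b 10) _ m2 (n / (1 + κ)) (fun i hi => by
    rw [h.g10 hi, dh]
    have : (1 : ℝ) + κ ≠ 0 := by linarith
    simp only [vv, Matrix.cons_val, Fin.isValue]
    field_simp)]
  ring

/-- loss of the group of `X`, given anything; `κ ≠ 1` -/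
theorem lossX (hκ1 : κ ≠ 1) {T ca cb p xa xb xa' xb' n : ℝ} (hT : 0 ≤ T) (hcb : cb ≤ ca)
    (hcb0 : 0 ≤ cb) (hp0 : 0 ≤ p) (hp : p ≤ T) (hxa : xa ≤ T) (hxb : 0 ≤ xb) (hx : xb ≤ xa)
    (hxa' : xa' ≤ T) (hxb' : 0 ≤ xb') (hx' : xb' ≤ xa') (hn : n ≤ T) :
    lam (vv τ T T ca cb p xa xb n) - lam (vv τ T T ca cb p xa' xb' n) =
      lam (vv τ T T 0 0 0 xa xb 0) - lam (vv τ T T 0 0 0 xa' xb' 0) := by
  have m : ∀ {ca cb p xa xb n : ℝ}, cb ≤ ca → 0 ≤ cb → 0 ≤ p → p ≤ T → xa ≤ T → 0 ≤ xb →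
      xb ≤ xa → n ≤ T → vv τ T T ca cb p xa xb n ∈ L := by
    intro ca cb p xa xb n h1 h2 h3 h4 h5 h6 h7 h8
    exact h.vv_mem h1 (by linarith) (by linarith) (by linarith) h7 (by linarith) (by linarith)
  refine h.grp_eq 8 (m hcb hcb0 hp0 hp hxa hxb hx hn) (m hcb hcb0 hp0 hp hxa' hxb' hx' hn)
    (m le_rfl le_rfl le_rfl hT hxa hxb hx hT) (m le_rfl le_rfl le_rfl hT hxa' hxb' hx' hT)
    ?_ ?_ ?_ ?_
  · intro i hi
    have h8 : i ≠ 8 := by rintro rfl; exact hi rfl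
    have h9 : i ≠ 9 := by rintro rfl; exact hi h.e89
    fin_cases i <;> first | exact absurd rfl h8 | exact absurd rfl h9 | simp [vv]
  · intro i hi
    have h8 : i ≠ 8 := by rintro rfl; exact hi rfl
    have h9 : i ≠ 9 := by rintro rfl; exact hi h.e89
    fin_cases i <;> first | exact absurd rfl h8 | exact absurd rfl h9 | simp [vv]
  · intro i hi
    rcases h.g8 hi with rfl | rfl | ⟨rfl, hk⟩
    · simp [vv]
    · simp [vv]
    · exact absurd hk hκ1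
  · intro i hi
    rcases h.g8 hi with rfl | rfl | ⟨rfl, hk⟩
    · simp [vv]
    · simp [vv]
    · exact absurd hk hκ1

end TF

/-- **model of one of the two planes**, read off the tangent `lam` -/
structure Mod (L : Set (Fin 11 → ℝ)) (lam : (Fin 11 → ℝ) → ℝ) (τ T : ℝ) (B : Base)
    (G : ℕ → RCfg (Fin 11)) (Leg : Set (Fin 11 → ℝ)) (ν : (Fin 11 → ℝ) → ℝ) (D : ℝ)
    (fa fb : ℕ → ℕ → ℝ) (q R0 : ℝ) : Prop where
  M : M3 B G Leg ν T D fa fb
  ν_eq : ∀ ca cb p xa xb n : ℝ, ν (b6 ca cb p xa xb n) =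
    lam (vv τ T T ca cb p xa xb n) - lam (fun _ => T)
  q0 : 0 < q
  R0p : 0 < R0
  ns : NoStr B G (b6 0 0 0 0 0 0) 5 6 ν q R0
  tw : (τ = 1 ∧ RawTw B G fun n k k' => fb n k' - fb n k) ∨
    (τ = 0 ∧ (∀ n k, fb n k = 0) ∧ RawTw B G fun n k k' => fa n k' - fa n k)

namespace TF

variable {L : Set (Fin 11 → ℝ)} {lam : (Fin 11 → ℝ) → ℝ} {a b : Fin 11 → ℝ} {A : ℝ × ℝ}
  {φ : ℕ → (Fin 11 → ℝ) → ℝ} {r : ℕ → ℝ} {κ τ m : ℝ}
  {T : ℝ} {B : Base} {G : ℕ → RCfg (Fin 11)} {Leg : Set (Fin 11 → ℝ)}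
  {ν : (Fin 11 → ℝ) → ℝ} {D : ℝ} {fa fb : ℕ → ℕ → ℝ} {q R0 : ℝ}
  (h : TF L lam a b A φ r κ τ m) (K : Mod L lam τ T B G Leg ν D fa fb q R0)

include h

theorem win_mem {ca cb p xa xb n : ℝ} (hcb : cb ≤ ca) (hcb0 : 0 ≤ cb) (hp0 : 0 ≤ p) (hp : p ≤ T)
    (hxa : xa ≤ T) (hxb : 0 ≤ xb) (hx : xb ≤ xa) (hn : n ≤ T) :
    vv τ T T ca cb p xa xb n ∈ L :=
  h.vv_mem hcb (by linarith) (by linarith) (by linarith) hx (by linarith) (by linarith)

include K

/-- splitting of the `C`-group -/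
theorem splitC {ca cb p xa xb n : ℝ} (hca : ca ≤ T) (hcb : cb ≤ ca) (hcb0 : 0 ≤ cb) (hp0 : 0 ≤ p)
    (hp : p ≤ T) (hxa : xa ≤ T) (hxb : 0 ≤ xb) (hx : xb ≤ xa) (hn : n ≤ T) :
    ν (b6 0 0 p xa xb n) - ν (b6 ca cb p xa xb n) = ν (b6 0 0 0 0 0 0) - ν (b6 ca cb 0 0 0 0) := by
  have hT := K.M.T0
  rw [K.ν_eq, K.ν_eq, K.ν_eq, K.ν_eq]
  have e := h.grp_eq 5 (h.win_mem (T := T) le_rfl le_rfl hp0 hp hxa hxb hx hn)
    (h.win_mem (T := T) hcb hcb0 hp0 hp hxa hxb hx hn)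
    (h.win_mem (T := T) le_rfl le_rfl le_rfl hT.le hT.le le_rfl le_rfl hT.le)
    (h.win_mem (T := T) hcb hcb0 le_rfl hT.le hT.le le_rfl le_rfl hT.le) ?_ ?_ ?_ ?_
  · linarith
  · intro i hi
    have h8 : i ≠ 5 := by rintro rfl; exact hi rfl
    have h9 : i ≠ 6 := by rintro rfl; exact hi h.e56
    fin_cases i <;> first | exact absurd rfl h8 | exact absurd rfl h9 | simp [vv]
  · intro i hi
    have h8 : i ≠ 5 := by rintro rfl; exact hi rfl
    have h9 : i ≠ 6 := by rintro rfl; exact hi h.e56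
    fin_cases i <;> first | exact absurd rfl h8 | exact absurd rfl h9 | simp [vv]
  · intro i hi
    rcases h.g5 hi with rfl | rfl | rfl | rfl | rfl <;> simp [vv]
  · intro i hi
    rcases h.g5 hi with rfl | rfl | rfl | rfl | rfl <;> simp [vv]

/-- linear loss of `N` -/
theorem splitN {ca cb p xa xb n : ℝ} (hcb : cb ≤ ca) (hcb0 : 0 ≤ cb) (hp0 : 0 ≤ p)
    (hp : p ≤ T) (hxa : xa ≤ T) (hxb : 0 ≤ xb) (hx : xb ≤ xa) (hn0 : 0 ≤ n) (hn : n ≤ T) :
    ν (b6 ca cb p xa xb 0) - ν (b6 ca cb p xa xb n) = r (gC a b 10) / (1 + κ) * n := by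
  have e := h.lossN (z := T) (f := T) hcb (by linarith : p ≤ T + cb) (by linarith) (by linarith)
    hx hn0 (by linarith) (by linarith)
  rw [K.ν_eq, K.ν_eq, ← e]
  ring

/-- the block is full -/
theorem block (hKM : ∀ V : ℝ, Crest.Agent.R138.Tub70.KM32 V) {x : ℝ} (hx : 0 ≤ x) (hxT : x ≤ T) :
    2 * x ≤ ν (b6 0 0 0 0 0 0) - ν (b6 0 0 0 x x 0) := by
  have hT := K.M.T0
  rcases hx.eq_or_lt with rfl | hx
  · linarith
  refine K.M.block hKM K.q0 K.R0p hx hxT K.ns fun t ht htT => ?_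
  have := h.splitC K (ca := t) (cb := t) (p := 0) (xa := x) (xb := x) (n := 0) htT le_rfl ht
    le_rfl hT.le hxT hx.le le_rfl hT.le
  linarith

/-- loss of `X_a` alone -/
theorem full_a (hKM : ∀ V : ℝ, Crest.Agent.R138.Tub70.KM32 V) {x : ℝ} (hx : 0 ≤ x) (hxT : x ≤ T) :
    x ≤ ν (b6 0 0 0 0 0 0) - ν (b6 0 0 0 x 0 0) := by
  have hT := K.M.T0
  have h1 := h.block K hKM hx hxT
  have h2 := h.sharp1 9 (h.win_mem (T := T) (ca := 0) (cb := 0) (p := 0) (xa := x) (xb := 0)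
      (n := 0) le_rfl le_rfl le_rfl hT.le hxT le_rfl hx hT.le)
    (h.win_mem (T := T) (ca := 0) (cb := 0) (p := 0) (xa := x) (xb := x)
      (n := 0) le_rfl le_rfl le_rfl hT.le hxT hx le_rfl hT.le)
    (by intro i hi; fin_cases i <;> first | exact absurd rfl hi | simp [vv])
    (by simpa [vv] using hx)
  rw [K.ν_eq, K.ν_eq] at h1 ⊢
  have e : (vv τ T T 0 0 0 x x 0 9 - vv τ T T 0 0 0 x 0 0 9 : ℝ) = x := by simp [vv]
  rw [e] at h2
  linarith

/-- loss of `X_b` given `X_a` -/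
theorem full_b (hKM : ∀ V : ℝ, Crest.Agent.R138.Tub70.KM32 V) {x : ℝ} (hx : 0 ≤ x) (hxT : x ≤ T) :
    x ≤ ν (b6 0 0 0 x 0 0) - ν (b6 0 0 0 x x 0) := by
  have hT := K.M.T0
  have h1 := h.block K hKM hx hxT
  have h2 := h.sharp1 8 (h.win_mem (T := T) (ca := 0) (cb := 0) (p := 0) (xa := 0) (xb := 0)
      (n := 0) le_rfl le_rfl le_rfl hT.le hT.le le_rfl le_rfl hT.le)
    (h.win_mem (T := T) (ca := 0) (cb := 0) (p := 0) (xa := x) (xb := 0)
      (n := 0) le_rfl le_rfl le_rfl hT.le hxT le_rfl hx hT.le)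
    (by intro i hi; fin_cases i <;> first | exact absurd rfl hi | simp [vv])
    (by simpa [vv] using hx)
  rw [K.ν_eq, K.ν_eq] at h1 ⊢
  have e : (vv τ T T 0 0 0 x 0 0 8 - vv τ T T 0 0 0 0 0 0 8 : ℝ) = x := by simp [vv]
  rw [e] at h2
  linarith

/-- **`κ ≠ 1`** : `N` is full -/
theorem n_full_ne (hKM : ∀ V : ℝ, Crest.Agent.R138.Tub70.KM32 V) (hκ1 : κ ≠ 1) :
    1 ≤ r (gC a b 10) / (1 + κ) := by
  have hT := K.M.T0
  have hT0 := hT.le
  rcases K.tw with ⟨hτ, htw⟩ | ⟨hτ, hfb, htw⟩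
  · have h1 := K.M.shift9 htw hT0 le_rfl
    have h2 := h.full_b K hKM hT0 le_rfl
    have h3 := h.lossX hκ1 (T := T) (ca := T) (cb := T) (p := T) (xa := T) (xb := 0) (xa' := T)
      (xb' := T) (n := T) hT0 le_rfl hT0 hT0 le_rfl le_rfl le_rfl hT0 le_rfl hT0 le_rfl le_rfl
    have h4 := h.splitN K (ca := T) (cb := T) (p := T) (xa := T) (xb := 0) (n := T) le_rfl hT0 hT0
      le_rfl le_rfl le_rfl hT0 hT0 le_rfl
    rw [h4, K.ν_eq, K.ν_eq] at h1
    rw [K.ν_eq, K.ν_eq] at h2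
    have : T * 1 ≤ T * (r (gC a b 10) / (1 + κ)) := by linarith
    exact le_of_mul_le_mul_left this hT
  · have h1 := K.M.shift8 hfb htw hT0 le_rfl
    have h2 := h.full_a K hKM hT0 le_rfl
    have h3 := h.lossX hκ1 (T := T) (ca := T) (cb := 0) (p := T) (xa := 0) (xb := 0) (xa' := T)
      (xb' := 0) (n := T) hT0 hT0 le_rfl hT0 le_rfl hT0 le_rfl le_rfl le_rfl le_rfl hT0 le_rfl
    have h4 := h.splitN K (ca := T) (cb := 0) (p := T) (xa := 0) (xb := 0) (n := T) hT0 le_rfl hT0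
      le_rfl hT0 le_rfl le_rfl hT0 le_rfl
    rw [h4, K.ν_eq, K.ν_eq] at h1
    rw [K.ν_eq, K.ν_eq] at h2
    have : T * 1 ≤ T * (r (gC a b 10) / (1 + κ)) := by linarith
    exact le_of_mul_le_mul_left this hT

/-- splitting of the group `(P, X_a, X_b)`, `κ = 1` -/
theorem splitX (hκ1 : κ = 1) {ca cb p xa xb : ℝ} (hca : ca ≤ T) (hcb : cb ≤ ca) (hcb0 : 0 ≤ cb)
    (hp0 : 0 ≤ p) (hp : p ≤ T) (hxa : xa ≤ T) (hxb : 0 ≤ xb) (hx : xb ≤ xa) :
    ν (b6 ca cb 0 0 0 0) - ν (b6 ca cb p xa xb 0) =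
      ν (b6 0 0 0 0 0 0) - ν (b6 0 0 p xa xb 0) := by
  have hT := K.M.T0
  rw [K.ν_eq, K.ν_eq, K.ν_eq, K.ν_eq]
  have e := h.grp_eq 8 (h.win_mem (T := T) hcb hcb0 le_rfl hT.le hT.le le_rfl le_rfl hT.le)
    (h.win_mem (T := T) hcb hcb0 hp0 hp hxa hxb hx hT.le)
    (h.win_mem (T := T) le_rfl le_rfl le_rfl hT.le hT.le le_rfl le_rfl hT.le)
    (h.win_mem (T := T) le_rfl le_rfl hp0 hp hxa hxb hx hT.le) ?_ ?_ ?_ ?_
  · linarith
  · intro i hi
    have h7 : i ≠ 7 := by rintro rfl; exact hi (h.e87 hκ1)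
    have h8 : i ≠ 8 := by rintro rfl; exact hi rfl
    have h9 : i ≠ 9 := by rintro rfl; exact hi h.e89
    fin_cases i <;> first | exact absurd rfl h7 | exact absurd rfl h8 | exact absurd rfl h9 |
      simp [vv]
  · intro i hi
    have h7 : i ≠ 7 := by rintro rfl; exact hi (h.e87 hκ1)
    have h8 : i ≠ 8 := by rintro rfl; exact hi rfl
    have h9 : i ≠ 9 := by rintro rfl; exact hi h.e89
    fin_cases i <;> first | exact absurd rfl h7 | exact absurd rfl h8 | exact absurd rfl h9 |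
      simp [vv]
  · intro i hi
    rcases h.g8 hi with rfl | rfl | ⟨rfl, -⟩ <;> simp [vv]
  · intro i hi
    rcases h.g8 hi with rfl | rfl | ⟨rfl, -⟩ <;> simp [vv]

/-- **total splitting**, `κ = 1` -/
theorem split1 (hκ1 : κ = 1) {ca cb p xa xb n : ℝ} (hca : ca ≤ T) (hcb : cb ≤ ca) (hcb0 : 0 ≤ cb)
    (hp0 : 0 ≤ p) (hp : p ≤ T) (hxa : xa ≤ T) (hxb : 0 ≤ xb) (hx : xb ≤ xa) (hn0 : 0 ≤ n)
    (hn : n ≤ T) :
    ν (b6 ca cb p xa xb n) = ν (b6 0 0 0 0 0 0) - r (gC a b 10) / (1 + κ) * n -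
      (ν (b6 0 0 0 0 0 0) - ν (b6 0 0 p xa xb 0)) -
      (ν (b6 0 0 0 0 0 0) - ν (b6 ca cb 0 0 0 0)) := by
  have h1 := h.splitX K hκ1 hca hcb hcb0 hp0 hp hxa hxb hx
  have h2 := h.splitN K hcb hcb0 hp0 hp hxa hxb hx hn0 hn
  linarith

/-- **`κ = 1`, slack `F_b`** : `N` is full -/
theorem n_full_0 (hKM : ∀ V : ℝ, Crest.Agent.R138.Tub70.KM32 V) (hκ1 : κ = 1) (hτ : τ = 0) :
    1 ≤ r (gC a b 10) / (1 + κ) := by
  have hT := K.M.T0
  have hT0 := hT.le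
  rcases K.tw with ⟨hτ1, -⟩ | ⟨-, hfb, htw⟩
  · rw [hτ] at hτ1; norm_num at hτ1
  refine K.M.kappa_one hfb htw h.m0
    (fun p x => ν (b6 0 0 0 0 0 0) - ν (b6 0 0 p x 0 0))
    (fun c => ν (b6 0 0 0 0 0 0) - ν (b6 c 0 0 0 0 0)) ?_ ?_ ?_
  · intro c p x n c0 c1 p0 p1 x0 x1 n0 n1
    exact h.split1 K hκ1 c1 c0 le_rfl p0 p1 x1 le_rfl x0 n0 n1
  · intro t ht htT
    exact h.full_a K hKM ht htT
  · intro t ht htT
    have h1 := h.S1 t ht
    show m * t ≤ ν (b6 0 0 0 0 0 0) - ν (b6 t 0 0 0 0 0)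
    rw [K.ν_eq, K.ν_eq]
    have e := h.grp_eq 5
      (h.win_mem (T := T) (ca := 0) (cb := 0) (p := 0) (xa := 0) (xb := 0) (n := 0) le_rfl le_rfl
        le_rfl hT0 hT0 le_rfl le_rfl hT0)
      (h.win_mem (T := T) (ca := t) (cb := 0) (p := 0) (xa := 0) (xb := 0) (n := 0) ht le_rfl
        le_rfl hT0 hT0 le_rfl le_rfl hT0)
      (d := vv τ 0 0 0 0 0 0 0 0) (d' := vv τ 0 0 t 0 0 0 0 0)
      (h.vv_mem le_rfl (by simp) (by simp) (by simp) le_rfl (by simp) (by simp))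
      (h.vv_mem ht (by simp) (by simpa using ht) (by simp) le_rfl (by simp) (by simp))
      ?_ ?_ ?_ ?_
    · have e0 : vv τ 0 0 0 0 0 0 0 0 = 0 := by
        funext i; fin_cases i <;> simp [vv]
      rw [e0, h.zero] at e
      linarith
    · intro i hi
      have h8 : i ≠ 5 := by rintro rfl; exact hi rfl
      fin_cases i <;> first | exact absurd rfl h8 | simp [vv]
    · intro i hi
      have h8 : i ≠ 5 := by rintro rfl; exact hi rfl
      fin_cases i <;> first | exact absurd rfl h8 | simp [vv]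
    · intro i hi
      rcases h.g5 hi with rfl | rfl | rfl | rfl | rfl <;> simp [vv, hτ]
    · intro i hi
      rcases h.g5 hi with rfl | rfl | rfl | rfl | rfl <;> simp [vv, hτ]

/-- **the F-half** from `N` full -/
theorem fhalf_of (hKM : ∀ V : ℝ, Crest.Agent.R138.Tub70.KM32 V) (hT1 : 1 ≤ T)
    (hN : 1 ≤ r (gC a b 10) / (1 + κ)) : A.1 ≤ -(4 + κ) := by
  have hκ := h.κ0
  have hT := K.M.T0
  have hT0 := hT.le
  have h1 := h.slope_v
  -- the levels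
  have c1 : vv τ 1 κ 0 0 0 0 0 0 ∈ L := h.vv_mem le_rfl (by linarith) (by linarith) (by linarith)
    le_rfl (by linarith) (by linarith)
  have l1 := h.own _ c1 (by
    intro i
    have := h.τ0
    have := mul_nonneg this hκ.le
    fin_cases i <;> simp [vv] <;> linarith)
  have e1 : vv τ 1 κ 0 0 0 0 0 0 0 = 1 := by simp [vv]
  rw [e1] at l1
  -- the block
  have c2 : vv τ 1 κ 0 0 0 1 1 0 ∈ L := h.vv_mem le_rfl (by linarith) (by linarith) (by linarith)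
    le_rfl (by linarith) (by linarith)
  have l2 := h.block K hKM (x := 1) zero_le_one hT1
  rw [K.ν_eq, K.ν_eq] at l2
  have e2 := h.grp_eq 8 c1 c2
    (h.win_mem (T := T) (ca := 0) (cb := 0) (p := 0) (xa := 0) (xb := 0) (n := 0) le_rfl le_rfl
      le_rfl hT0 hT0 le_rfl le_rfl hT0)
    (h.win_mem (T := T) (ca := 0) (cb := 0) (p := 0) (xa := 1) (xb := 1) (n := 0) le_rfl le_rfl
      le_rfl hT0 hT1 zero_le_one le_rfl hT0) (by
    intro i hi
    have h8 : i ≠ 8 := by rintro rfl; exact hi rfl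
    have h9 : i ≠ 9 := by rintro rfl; exact hi h.e89
    fin_cases i <;> first | exact absurd rfl h8 | exact absurd rfl h9 | simp [vv]) (by
    intro i hi
    have h8 : i ≠ 8 := by rintro rfl; exact hi rfl
    have h9 : i ≠ 9 := by rintro rfl; exact hi h.e89
    fin_cases i <;> first | exact absurd rfl h8 | exact absurd rfl h9 | simp [vv]) (by
    intro i hi
    rcases h.g8 hi with rfl | rfl | ⟨rfl, -⟩ <;> simp [vv]) (by
    intro i hi
    rcases h.g8 hi with rfl | rfl | ⟨rfl, -⟩ <;> simp [vv])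
  -- `P`
  have c3 : vv τ 1 κ 0 0 κ 1 1 0 ∈ L := h.vv_mem le_rfl (by linarith) (by linarith) (by linarith)
    le_rfl (by linarith) (by linarith)
  have l3 := h.anti _ c2 _ c3 (vv_le h.τ0 le_rfl le_rfl le_rfl le_rfl hκ.le le_rfl le_rfl le_rfl)
  -- `N`
  have l4 := h.lossN (z := 1) (f := κ) (ca := 0) (cb := 0) (p := κ) (xa := 1) (xb := 1)
    (n := 1 + κ) le_rfl (by linarith) (by linarith) (by linarith) le_rfl (by linarith)
    (by linarith) (by linarith)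
  have l5 : 1 * (1 + κ) ≤ r (gC a b 10) / (1 + κ) * (1 + κ) :=
    mul_le_mul_of_nonneg_right hN (by linarith)
  linarith

end TF

end Crest.Agent.R136.C3f795
end

-- ▼ part R136/C3d_795
section

/-!
# R136: the model of case C3 in the windows (helper795)

* `WC` : window with level slots `z, F_a` (and `F_b` on the natural plane), constant top `T`.
* `crd_eight`, `crd_nine`, `lineC` : absolute coordinates; `ev_of`, `ab_of`.
* `m3_of_win` : `M3` for the sheared configuration; `rawTw_gen` : raw twist.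
-/

set_option autoImplicit false
set_option linter.unusedVariables false
set_option linter.unusedSectionVars false

open Filter Topology Finset

namespace Crest.Agent.R136.C3d795

open Crest.Agent.R136.NetQ186 Crest.Agent.R136.Net191 Crest.Agent.R136.Qg926
open Crest.Agent.R136.Gf356 Crest.Agent.R136.Ev356 Crest.Agent.R136.Aw413
open Crest.Agent.R138.Ex926 (Base U)
open Crest.Agent.R136.C3a795 Crest.Agent.R136.C3b795 Crest.Agent.R136.C3c795
open Crest.Agent.R136.Fe1355 (RawTw)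
open Crest.Agent.R136.Ab356

variable {ι : ℕ → Type*} [∀ n, DecidableEq (ι n)] {W : Wnd 11 ι} {f : ∀ n, ι n → Fq4}
  {Ma : Mons 11} {E : ∀ n, Finset (ι n)} {T : ℝ}

/-! ### exact laws -/

section exact

variable (h : QWnd W f)

include h

theorem crd_eight {n : ℕ} (g : W.Good n) {x y z : ι n} (hx : x ∈ W.Cl n) (hy : y ∈ W.Cl n)
    (hz : z ∈ W.Cl n) :
    W.crd n x z 8 = W.crd n x y 8 + W.crd n y z 8 -
      cf W n 0 5 8 * (W.crd n x y 0 * W.crd n y z 5) := by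
  obtain ⟨p0, p1, p2, p3, p4, p5, p6, p7, p8, -⟩ := coQ_add (f n x) (f n y) (f n z)
  have hu := (h.un_pos n 8).ne'
  rw [h.crd_eq g hx hz, h.crd_eq g hx hy, h.crd_eq g hy hz, h.crd_eq g hx hy,
    h.crd_eq g hy hz] at p8
  have : un W n 8 * (W.crd n x y 8 + W.crd n y z 8 -
      cf W n 0 5 8 * (W.crd n x y 0 * W.crd n y z 5)) = un W n 8 * W.crd n x z 8 := by
    rw [p8]
    unfold cf
    field_simp
  exact (mul_left_cancel₀ hu this).symm

theorem crd_nine {n : ℕ} (g : W.Good n) {x y z : ι n} (hx : x ∈ W.Cl n) (hy : y ∈ W.Cl n)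
    (hz : z ∈ W.Cl n) :
    W.crd n x z 9 = W.crd n x y 9 + (W.crd n y z 9 -
      cf W n 0 6 9 * (W.crd n x y 0 * W.crd n y z 6)) +
      cf W n 2 8 9 * (W.crd n x y 2 * (W.crd n y z 8 -
        cf W n 0 5 8 * (W.crd n x y 0 * W.crd n y z 5))) := by
  obtain ⟨p0, p1, p2, p3, p4, p5, p6, p7, p8, p9, -⟩ := coQ_add (f n x) (f n y) (f n z)
  have hu := (h.un_pos n 9).ne'
  have hu8 := (h.un_pos n 8).ne'
  rw [h.crd_eq g hx hz, h.crd_eq g hx hy, h.crd_eq g hy hz, h.crd_eq g hx hy,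
    h.crd_eq g hy hz, h.crd_eq g hx hy, h.crd_eq g hy hz, h.crd_eq g hy hz] at p9
  have : un W n 9 * (W.crd n x y 9 + (W.crd n y z 9 -
      cf W n 0 6 9 * (W.crd n x y 0 * W.crd n y z 6)) +
      cf W n 2 8 9 * (W.crd n x y 2 * (W.crd n y z 8 -
        cf W n 0 5 8 * (W.crd n x y 0 * W.crd n y z 5)))) = un W n 9 * W.crd n x z 9 := by
    rw [p9]
    unfold cf
    field_simp
  exact (mul_left_cancel₀ hu this).symm

end exact

/-- **window of case C3** : natural plane (`3 ∈ S`) or slack `F_b` (`3 ∉ S`) -/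
structure WC (W : Wnd 11 ι) (f : ∀ n, ι n → Fq4) (Ma : Mons 11) (T : ℝ) : Prop where
  qa : QAt W f Ma
  kz : W.kz = 0
  top : W.top = fun _ => T
  T0 : 0 < T
  R' : W.R' = T
  Mw : W.Mw = Ma
  leg : ∀ c5 c6 c7 c8 c9 c10 : ℝ, 0 ≤ c5 → c5 ≤ T → 0 ≤ c6 → c6 ≤ c5 → 0 ≤ c7 → c7 ≤ T →
    0 ≤ c8 → c8 ≤ T → 0 ≤ c9 → c9 ≤ c8 → 0 ≤ c10 → c10 ≤ T →
    cut W.S (b6 c5 c6 c7 c8 c9 c10) (fun _ => T) ∈ coneM Ma
  S4 : (4 : Fin 11) ∈ W.S
  S2 : (2 : Fin 11) ∉ W.S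
  m256 : mv 2 5 ∈ Ma.mon 6
  m457 : mv 4 5 ∈ Ma.mon 7
  m058 : mv 0 5 ∈ Ma.mon 8
  m069 : mv 0 6 ∈ Ma.mon 9
  m289 : mv 2 8 ∈ Ma.mon 9
  m0710 : mv 0 7 ∈ Ma.mon 10
  m4810 : mv 4 8 ∈ Ma.mon 10
  h3 : ((3 : Fin 11) ∈ W.S ∧ mv 2 3 ∈ Ma.mon 4 ∧ mv 3 6 ∈ Ma.mon 7 ∧ mv 3 9 ∈ Ma.mon 10) ∨
    ((3 : Fin 11) ∉ W.S ∧ mv 2 3 ∉ Ma.mon 4 ∧ mv 3 6 ∉ Ma.mon 7 ∧ mv 3 9 ∉ Ma.mon 10)

/-- absolute `E`-coordinate of the line -/
noncomputable def eW (W : Wnd 11 ι) (n k i : ℕ) : ℝ := W.crd n (W.s₀ n) (W.rep n i k) 2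

/-- multiplier of `X_b` -/
noncomputable def fbW (W : Wnd 11 ι) (n k : ℕ) : ℝ := if (3 : Fin 11) ∈ W.S then flg W n k 3 else 0

/-- multiplier of `X_a` -/
noncomputable def faW (W : Wnd 11 ι) (n k : ℕ) : ℝ := flg W n k 4

/-- the hypothesis on the pruned set -/
def HC (W : Wnd 11 ι) (E : ∀ n, Finset (ι n)) : Prop :=
  ∀ᶠ n in (U : Filter ℕ), W.Good n ∧ E n ⊆ W.Cl n ∧ W.cfg E n = W.cfg0 n (E n)

namespace WC

variable (w : WC W f Ma T)

include w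

theorem cf1 {i j s : Fin 11} (hm : mv i j ∈ Ma.mon s) (hw : wtQ s = wtQ i + wtQ j) (n : ℕ) :
    cf W n i j s = 1 := by
  have hX : W.X n s = W.X n i + W.X n j := by
    have := w.qa.act s _ hm n
    rwa [sum_mv] at this
  rw [w.qa.q.cf_eq hX, w.qa.kap_mul hw]

theorem K14 (s : Fin 11) : W.K0 / W.kap s ≤ 1 / 4 := by
  have h1 := w.qa.q.ok.kap s
  rw [div_le_div_iff₀ h1 (by norm_num)]
  linarith [w.qa.kap4 s]

theorem own1 {n : ℕ} (g : W.Good n) {x y : ι n} (hx : x ∈ W.Cl n) (hy : y ∈ W.Cl n)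
    (hl : W.lc n x = W.lc n y) {s : Fin 11} (hs : s ∉ W.S) :
    |W.crd n x y s| ≤ W.B'.d n ^ T := by
  have h1 := w.qa.q.crd_own g hx hy hl hs (t := T) (by rw [w.top])
  have h2 := w.K14 s
  have h3 := Real.rpow_nonneg (W.B'.pos n).le T
  nlinarith

theorem lev1 {n : ℕ} (g : W.Good n) {x y : ι n} (hx : x ∈ W.Cl n) (hy : y ∈ W.Cl n)
    (hl : W.zc n x = W.zc n y) {s : Fin 11} (hs : s ∈ W.S) :
    |W.crd n x y s| ≤ W.B'.d n ^ T := by
  have h1 := w.qa.q.crd_lev g hx hy hl hs (t := T) (by rw [w.top])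
  have h2 := w.K14 s
  have h3 := Real.rpow_nonneg (W.B'.pos n).le T
  nlinarith

/-- `E` of a line -/
theorem eW_own {n : ℕ} (g : W.Good n) (hE : E n ⊆ W.Cl n) {k k' i : ℕ}
    (h1 : (i, k) ∈ (W.cfg0 n (E n)).I) (h2 : (i, k') ∈ (W.cfg0 n (E n)).I) :
    |eW W n k' i - eW W n k i| ≤ W.B'.d n ^ T := by
  obtain ⟨a1, a2, a3⟩ := rep_of_mem hE h1
  obtain ⟨b1, b2, b3⟩ := rep_of_mem hE h2
  have e1 := w.qa.q.crd_add g g.s0 a1 b1 (s := 2) (by simp)
  unfold eW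
  rw [e1]
  have e2 := w.own1 g a1 b1 (a2.trans b2.symm) w.S2
  rwa [add_sub_cancel_left]

theorem eW_le {n : ℕ} (g : W.Good n) (hE : E n ⊆ W.Cl n) {k i : ℕ}
    (h1 : (i, k) ∈ (W.cfg0 n (E n)).I) : |eW W n k i| ≤ 1 / 4 :=
  w.qa.crd4 g g.s0 (rep_of_mem hE h1).1 2

theorem eb (hc : HC W E) : EB (W.cfg E) (fun n k i => eW W n k i) := by
  filter_upwards [hc] with n hn k i hik
  obtain ⟨g, hE, hcfg⟩ := hn
  rw [hcfg] at hik
  exact (w.eW_le g hE hik).trans (by norm_num)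

/-- **own motions** -/
theorem own_eqs (hc : HC W E) : ∀ᶠ n in (U : Filter ℕ), ∀ k₀ k i,
    (i, k₀) ∈ (W.cfg E n).I → (i, k) ∈ (W.cfg E n).I →
    ownC (chi Ma) W n k₀ k (fsl W n i k₀ 2) (fsl W n i k₀ 3) 0 =
      (W.cfg E n).z k - (W.cfg E n).z k₀ ∧
    ownC (chi Ma) W n k₀ k (fsl W n i k₀ 2) (fsl W n i k₀ 3) 2 = 0 ∧
    ownC (chi Ma) W n k₀ k (fsl W n i k₀ 2) (fsl W n i k₀ 3) 3 = fbW W n k - fbW W n k₀ ∧
    |ownC (chi Ma) W n k₀ k (fsl W n i k₀ 2) (fsl W n i k₀ 3) 4 -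
      (faW W n k - faW W n k₀ + eW W n k₀ i * (fbW W n k - fbW W n k₀))| ≤ W.B'.d n ^ T := by
  filter_upwards [hc, w.qa.q.mot_eq hc, w.qa.q.z_eq w.kz hc, w.qa.capp T w.T0.le] with
    n hn hmot hz hca k₀ k i h1 h2
  obtain ⟨g, hE, hcfg⟩ := hn
  have hk0Z : k₀ ∈ (W.cfg E n).Z := by
    rw [hcfg] at h1 ⊢
    exact mem_image.2 (by obtain ⟨u, hu, -, h6⟩ := mem_cfg0 h1; exact ⟨u, hu, h6⟩)
  have hkZ : k ∈ (W.cfg E n).Z := by
    rw [hcfg] at h2 ⊢
    exact mem_image.2 (by obtain ⟨u, hu, -, h6⟩ := mem_cfg0 h2; exact ⟨u, hu, h6⟩)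
  obtain ⟨m1, m4⟩ := hmot k₀ hk0Z k hkZ
  rw [hcfg] at h1 h2
  have hη0 : 0 ≤ W.B'.d n ^ T := Real.rpow_nonneg (W.B'.pos n).le T
  have z1 := (zrep_of_mem hE (show k₀ ∈ (W.cfg0 n (E n)).Z by rwa [hcfg] at hk0Z)).1
  have z2 := (zrep_of_mem hE (show k ∈ (W.cfg0 n (E n)).Z by rwa [hcfg] at hkZ)).1
  obtain ⟨a1, a2, a3⟩ := rep_of_mem hE h1
  have f2 : fsl W n i k₀ 2 = W.crd n (W.zrep n k₀) (W.rep n i k₀) 2 := by
    unfold fsl; rw [if_neg w.S2]
  have e2 : eW W n k₀ i = flg W n k₀ 2 + fsl W n i k₀ 2 := by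
    rw [f2]; exact w.qa.q.crd_add g g.s0 z1 a1 (s := 2) (by simp)
  refine ⟨?_, ?_, ?_, ?_⟩
  · unfold ownC mot
    rw [if_neg (by decide), if_pos w.qa.S0, hz k, hz k₀]
    exact m1 0 (by simp)
  · unfold ownC mot
    rw [if_neg (by decide), if_neg w.S2]
  · unfold ownC mot fbW
    rw [if_neg (by decide)]
    split_ifs
    · exact m1 3 (by simp)
    · ring
  · have e4 : ownC (chi Ma) W n k₀ k (fsl W n i k₀ 2) (fsl W n i k₀ 3) 4 =
        W.crd n (W.zrep n k₀) (W.zrep n k) 4 + chi Ma 2 3 4 *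
        (fsl W n i k₀ 2 * mot W n k₀ k 3 + (fsl W n i k₀ 2 + mot W n k₀ k 2) *
          (W.crd n (W.zrep n k₀) (W.zrep n k) 3 - fsl W n i k₀ 3 - mot W n k₀ k 3)) := by
      unfold ownC
      rw [if_pos rfl, if_pos w.S4]
    rw [e4, m4, e2]
    rcases w.h3 with ⟨h3S, h34, -, -⟩ | ⟨h3S, h34, -, -⟩
    · have c1 : cf W n 2 3 4 = 1 := w.cf1 h34 (by decide) n
      have c2 : chi Ma 2 3 4 = 1 := if_pos h34
      have m3 : mot W n k₀ k 3 = flg W n k 3 - flg W n k₀ 3 := by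
        unfold mot; rw [if_pos h3S]; exact m1 3 (by simp)
      have f3 : fsl W n i k₀ 3 = 0 := by unfold fsl; rw [if_pos h3S]
      rw [c1, c2, m3, f3, m1 3 (by simp)]
      unfold faW fbW
      rw [if_pos h3S, if_pos h3S]
      have : flg W n k 4 - flg W n k₀ 4 + 1 * (flg W n k₀ 2 * (flg W n k 3 - flg W n k₀ 3)) +
        1 * (fsl W n i k₀ 2 * (flg W n k 3 - flg W n k₀ 3) + (fsl W n i k₀ 2 + mot W n k₀ k 2) *
          (flg W n k 3 - flg W n k₀ 3 - 0 - (flg W n k 3 - flg W n k₀ 3))) -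
        (flg W n k 4 - flg W n k₀ 4 + (flg W n k₀ 2 + fsl W n i k₀ 2) *
          (flg W n k 3 - flg W n k₀ 3)) = 0 := by ring
      rw [this, abs_zero]
      exact hη0
    · have c2 : chi Ma 2 3 4 = 0 := if_neg h34
      have c1 := hca.2.2.2.2.2.2.2.2.2.2.d
      rw [c2, sub_zero, one_mul] at c1
      have b2 : |flg W n k₀ 2| ≤ 1 / 4 := w.qa.crd4 g g.s0 z1 2
      have b3 : |flg W n k 3 - flg W n k₀ 3| ≤ 1 / 2 := by
        have x1 : |flg W n k 3| ≤ 1 / 4 := w.qa.crd4 g g.s0 z2 3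
        have x2 : |flg W n k₀ 3| ≤ 1 / 4 := w.qa.crd4 g g.s0 z1 3
        exact (abs_sub _ _).trans (by linarith)
      rw [c2]
      unfold faW fbW
      rw [if_neg h3S, if_neg h3S]
      have e5 : flg W n k 4 - flg W n k₀ 4 +
          cf W n 2 3 4 * (flg W n k₀ 2 * (flg W n k 3 - flg W n k₀ 3)) + 0 *
          (fsl W n i k₀ 2 * mot W n k₀ k 3 + (fsl W n i k₀ 2 + mot W n k₀ k 2) *
          (W.crd n (W.zrep n k₀) (W.zrep n k) 3 - fsl W n i k₀ 3 - mot W n k₀ k 3)) -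
          (flg W n k 4 - flg W n k₀ 4 + (flg W n k₀ 2 + fsl W n i k₀ 2) * (0 - 0)) =
          cf W n 2 3 4 * (flg W n k₀ 2 * (flg W n k 3 - flg W n k₀ 3)) := by ring
      rw [e5, abs_mul, abs_mul]
      have h5 : |flg W n k₀ 2| * |flg W n k 3 - flg W n k₀ 3| ≤ 1 / 4 * (1 / 2) :=
        mul_le_mul b2 b3 (abs_nonneg _) (by norm_num)
      calc |cf W n 2 3 4| * (|flg W n k₀ 2| * |flg W n k 3 - flg W n k₀ 3|)
          ≤ W.B'.d n ^ T * (1 / 4 * (1 / 2)) :=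
            mul_le_mul c1 h5 (by positivity) hη0
        _ ≤ W.B'.d n ^ T := by linarith

/-- **evolution of the sheared slots** -/
theorem ev_of (hc : HC W E) {ε : ℝ} (hε : 0 < ε) : ∀ᶠ n in (U : Filter ℕ), ∀ k k' i l,
    (i, k) ∈ (W.cfg E n).I → (l, k) ∈ (W.cfg E n).I → (i, k') ∈ (W.cfg E n).I →
    (l, k') ∈ (W.cfg E n).I →
    Ev3 (W.B'.d n ^ (T - ε)) ((W.cfg E n).z k' - (W.cfg E n).z k)
      (faW W n k' - faW W n k) (fbW W n k' - fbW W n k)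
      ((shr (W.cfg E) (eW W) n).rel k i l) ((shr (W.cfg E) (eW W) n).rel k' i l) := by
  have hε2 : 0 < ε / 2 := by positivity
  filter_upwards [hc, w.own_eqs hc, w.qa.evoX hc w.T0.le (fun s => by rw [w.top]) hε2,
    ev_const_le W.B' hε2 4] with n hn hown hevo h4 k k' i l h1 h2 h3 h5
  obtain ⟨o0, o2, o3, o4⟩ := hown k k' i h1 h3
  have hev := hevo k k' i l h1 h3 h2 h5
  obtain ⟨g, hE, hcfg⟩ := hn
  have hd0 : 0 < W.B'.d n := W.B'.pos n
  have hpow : ∀ t : ℝ, 0 < W.B'.d n ^ t := fun t => Real.rpow_pos_of_pos hd0 t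
  set o := ownC (chi Ma) W n k k' (fsl W n i k 2) (fsl W n i k 3) with ho
  set x := (W.cfg E n).rel k i l with hx
  set y := (W.cfg E n).rel k' i l with hy
  set u := (W.cfg E n).z k' - (W.cfg E n).z k with hu
  set ga := faW W n k' - faW W n k with hga
  set gb := fbW W n k' - fbW W n k with hgb
  -- bounds
  have rb : ∀ k i l, (i, k) ∈ (W.cfg E n).I → (l, k) ∈ (W.cfg E n).I → ∀ s,
      |(W.cfg E n).rel k i l s| ≤ 1 / 4 := by
    intro k i l a1 a2 s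
    rw [hcfg] at a1 a2 ⊢
    exact w.qa.rel_le g hE a1 a2 s
  have bx := rb k i l h1 h2
  have by' := rb k' i l h3 h5
  rw [← hx] at bx
  rw [← hy] at by'
  have he : |eW W n k' i - eW W n k i| ≤ W.B'.d n ^ T := by
    rw [hcfg] at h1 h3; exact w.eW_own g hE h1 h3
  have he1 : |eW W n k' i| ≤ 1 / 4 := by rw [hcfg] at h3; exact w.eW_le g hE h3
  have hu1 : |u| ≤ 1 / 2 := by
    rw [← o0, ho]
    unfold ownC
    rw [if_neg (by decide)]
    have a1 := h1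
    have a3 := h3
    rw [hcfg] at a1 a3
    exact ((w.qa.bds g hE a1 a3).1 0).trans (by norm_num)
  set η := W.B'.d n ^ (T - ε / 2) with hη
  have hη0 : 0 < η := hpow _
  have hTη : W.B'.d n ^ T ≤ η :=
    Real.rpow_le_rpow_of_exponent_ge hd0 (W.B'.lt n).le (by linarith)
  have hfin : ∀ {v : ℝ}, |v| ≤ 4 * η → |v| ≤ W.B'.d n ^ (T - ε) := by
    intro v hv
    refine hv.trans ?_
    have e1 : W.B'.d n ^ (T - ε) = W.B'.d n ^ (-(ε / 2)) * η := by
      rw [hη, ← Real.rpow_add hd0]; congr 1; ring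
    rw [e1]
    exact mul_le_mul_of_nonneg_right h4 hη0.le
  have hc0 : ∀ s, (s = 5 ∨ s = 6 ∨ s = 7 ∨ s = 8 ∨ s = 9 ∨ s = 10) → s ∉ W.S := by
    intro s hs
    exact w.qa.q.notMem (by tauto)
  have E5 := hev 5 (hc0 5 (by simp))
  have E6 := hev 6 (hc0 6 (by simp))
  have E7 := hev 7 (hc0 7 (by simp))
  have E8 := hev 8 (hc0 8 (by simp))
  have E9 := hev 9 (hc0 9 (by simp))
  have E10 := hev 10 (hc0 10 (by simp))
  have k256 : chi Ma 2 5 6 = 1 := if_pos w.m256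
  have k457 : chi Ma 4 5 7 = 1 := if_pos w.m457
  have k058 : chi Ma 0 5 8 = 1 := if_pos w.m058
  have k069 : chi Ma 0 6 9 = 1 := if_pos w.m069
  have k289 : chi Ma 2 8 9 = 1 := if_pos w.m289
  have k0710 : chi Ma 0 7 10 = 1 := if_pos w.m0710
  have k4810 : chi Ma 4 8 10 = 1 := if_pos w.m4810
  have k017 : chi Ma 0 1 7 = 0 := if_neg w.qa.r
  have k3 : chi Ma 3 6 7 * o 3 = gb ∧ chi Ma 3 9 10 * o 3 = gb := by
    rw [o3]
    rcases w.h3 with ⟨h3S, -, h37, h310⟩ | ⟨h3S, -, h37, h310⟩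
    · have c1 : chi Ma 3 6 7 = 1 := if_pos h37
      have c2 : chi Ma 3 9 10 = 1 := if_pos h310
      rw [c1, c2, one_mul]; exact ⟨rfl, rfl⟩
    · have c1 : chi Ma 3 6 7 = 0 := if_neg h37
      have c2 : chi Ma 3 9 10 = 0 := if_neg h310
      have : gb = 0 := by rw [hgb]; unfold fbW; rw [if_neg h3S, if_neg h3S, sub_zero]
      rw [c1, c2, this]; simp
  obtain ⟨k37, k310⟩ := k3
  simp only [evoC, Matrix.cons_val] at E5 E6 E7 E8 E9 E10
  rw [k256, o2] at E6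
  rw [k017, k457] at E7
  rw [k058, o0] at E8
  rw [k069, k289, k058, o0, o2] at E9
  rw [k0710, k017, k4810, k058, k069, o0] at E10
  have F6 : |y 6 - x 6| ≤ η := by
    have e : y 6 - (x 6 - 1 * (0 * x 5)) = y 6 - x 6 := by ring
    rwa [e] at E6
  have F7 : |y 7 - (x 7 - o 4 * x 5 - gb * x 6)| ≤ η := by
    have e : y 7 - (x 7 + 2 * (0 * (o 0 * x 1)) - 1 * (o 4 * x 5) - chi Ma 3 6 7 * (o 3 * x 6)) =
        y 7 - (x 7 - o 4 * x 5 - gb * x 6) := by rw [← k37]; ring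
    rwa [e] at E7
  have F8 : |y 8 - (x 8 + u * x 5)| ≤ η := by
    have e : y 8 - (x 8 + 1 * (u * x 5)) = y 8 - (x 8 + u * x 5) := by ring
    rwa [e] at E8
  have F9 : |y 9 - (x 9 + u * x 6)| ≤ η := by
    have e : y 9 - (x 9 + 1 * (u * x 6) - 1 * (0 * (x 8 + 1 * (u * x 5)))) =
        y 9 - (x 9 + u * x 6) := by ring
    rwa [e] at E9
  have F10 : |y 10 - (x 10 + u * x 7 - o 4 * (x 8 + u * x 5) - gb * (x 9 + u * x 6))| ≤ η := by
    have e : y 10 - (x 10 + 1 * (u * x 7) + 1 * (u * (0 * (u * x 1))) -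
        1 * (o 4 * (x 8 + 1 * (u * x 5))) - chi Ma 3 9 10 * (o 3 * (x 9 + 1 * (u * x 6)))) =
        y 10 - (x 10 + u * x 7 - o 4 * (x 8 + u * x 5) - gb * (x 9 + u * x 6)) := by
      rw [← k310]; ring
    rwa [e] at E10
  clear E6 E7 E8 E9 E10
  have o4' : |o 4 - (ga + eW W n k i * gb)| ≤ η := o4.trans hTη
  have he' := he.trans hTη
  have mulb : ∀ {p v c : ℝ}, |p| ≤ η → |v| ≤ c → |p * v| ≤ c * η := by
    intro p v c hp hv
    rw [abs_mul, mul_comm c]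
    exact mul_le_mul hp hv (abs_nonneg _) hη0.le
  have ux5 : |u * x 5| ≤ 1 / 4 := by
    rw [abs_mul]
    calc |u| * |x 5| ≤ 1 / 2 * (1 / 4) := mul_le_mul hu1 (bx 5) (abs_nonneg _) (by norm_num)
      _ ≤ 1 / 4 := by norm_num
  have x85 : |x 8 + u * x 5| ≤ 1 / 2 := (abs_add_le _ _).trans (by linarith [bx 8])
  have s5 : ∀ k i l, (shr (W.cfg E) (eW W) n).rel k i l 5 = (W.cfg E n).rel k i l 5 :=
    fun k i l => shr_of_ne (by decide) (by decide) n k i l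
  have s7 : ∀ k i l, (shr (W.cfg E) (eW W) n).rel k i l 7 = (W.cfg E n).rel k i l 7 :=
    fun k i l => shr_of_ne (by decide) (by decide) n k i l
  have s8 : ∀ k i l, (shr (W.cfg E) (eW W) n).rel k i l 8 = (W.cfg E n).rel k i l 8 :=
    fun k i l => shr_of_ne (by decide) (by decide) n k i l
  have s10 : ∀ k i l, (shr (W.cfg E) (eW W) n).rel k i l 10 = (W.cfg E n).rel k i l 10 :=
    fun k i l => shr_of_ne (by decide) (by decide) n k i l
  refine ⟨?_, ?_, ?_, ?_, ?_, ?_⟩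
  · rw [s5, s5]
    exact hfin (E5.trans (by linarith))
  · rw [shr_six, shr_six]
    apply hfin
    have e : y 6 + eW W n k' i * y 5 - (x 6 + eW W n k i * x 5) =
        (y 6 - x 6) + (y 5 - x 5) * eW W n k' i + (eW W n k' i - eW W n k i) * x 5 := by ring
    show |y 6 + eW W n k' i * y 5 - (x 6 + eW W n k i * x 5)| ≤ 4 * η
    rw [e]
    have a1 := mulb E5 he1
    have a2 := mulb he' (bx 5)
    have a3 := abs_add_le ((y 6 - x 6) + (y 5 - x 5) * eW W n k' i)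
      ((eW W n k' i - eW W n k i) * x 5)
    have a4 := abs_add_le (y 6 - x 6) ((y 5 - x 5) * eW W n k' i)
    linarith
  · rw [s7, s7, s5, shr_six]
    apply hfin
    have e : y 7 - (x 7 - ga * x 5 - gb * (x 6 + eW W n k i * x 5)) =
        (y 7 - (x 7 - o 4 * x 5 - gb * x 6)) - (o 4 - (ga + eW W n k i * gb)) * x 5 := by ring
    show |y 7 - (x 7 - ga * x 5 - gb * (x 6 + eW W n k i * x 5))| ≤ 4 * η
    rw [e]
    have a1 := mulb o4' (bx 5)
    have a2 := abs_sub (y 7 - (x 7 - o 4 * x 5 - gb * x 6)) ((o 4 - (ga + eW W n k i * gb)) * x 5)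
    linarith
  · rw [s8, s8, s5]
    exact hfin (F8.trans (by linarith))
  · rw [shr_nine, shr_nine, shr_six]
    apply hfin
    have e : y 9 + eW W n k' i * y 8 - (x 9 + eW W n k i * x 8 + u * (x 6 + eW W n k i * x 5)) =
        (y 9 - (x 9 + u * x 6)) + (y 8 - (x 8 + u * x 5)) * eW W n k' i +
          (eW W n k' i - eW W n k i) * (x 8 + u * x 5) := by ring
    show |y 9 + eW W n k' i * y 8 - (x 9 + eW W n k i * x 8 + u * (x 6 + eW W n k i * x 5))| ≤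
      4 * η
    rw [e]
    have a1 := mulb F8 he1
    have a2 := mulb he' x85
    have a3 := abs_add_le ((y 9 - (x 9 + u * x 6)) + (y 8 - (x 8 + u * x 5)) * eW W n k' i)
      ((eW W n k' i - eW W n k i) * (x 8 + u * x 5))
    have a4 := abs_add_le (y 9 - (x 9 + u * x 6)) ((y 8 - (x 8 + u * x 5)) * eW W n k' i)
    linarith
  · rw [s10, s10, s7, s8, s5, shr_nine, shr_six]
    apply hfin
    have e : y 10 - (x 10 + u * x 7 - ga * (x 8 + u * x 5) -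
          gb * (x 9 + eW W n k i * x 8 + u * (x 6 + eW W n k i * x 5))) =
        (y 10 - (x 10 + u * x 7 - o 4 * (x 8 + u * x 5) - gb * (x 9 + u * x 6))) -
          (o 4 - (ga + eW W n k i * gb)) * (x 8 + u * x 5) := by ring
    show |y 10 - (x 10 + u * x 7 - ga * (x 8 + u * x 5) -
          gb * (x 9 + eW W n k i * x 8 + u * (x 6 + eW W n k i * x 5)))| ≤ 4 * η
    rw [e]
    have a1 := mulb o4' x85
    have a2 := abs_sub (y 10 - (x 10 + u * x 7 - o 4 * (x 8 + u * x 5) - gb * (x 9 + u * x 6)))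
      ((o 4 - (ga + eW W n k i * gb)) * (x 8 + u * x 5))
    linarith

end WC

end Crest.Agent.R136.C3d795
end

-- ▼ part R136/C3e_795

/-!
# R136: the model of case C3 in the windows, part 2 (helper795)

* `lineC` : absolute coordinates of a line at two heights; `ab_of` : `AbsC`.
* `m3_of_win` : `M3` for the sheared configuration; `rawTw_gen`, `rawTw_fb`, `rawTw_fa`.
-/

set_option autoImplicit false
set_option linter.unusedVariables false
set_option linter.unusedSectionVars false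

open Filter Topology Finset

namespace Crest.Agent.R136.C3d795

open Crest.Agent.R136.NetQ186 Crest.Agent.R136.Net191 Crest.Agent.R136.Qg926
open Crest.Agent.R136.Gf356 Crest.Agent.R136.Ev356 Crest.Agent.R136.Aw413
open Crest.Agent.R138.Ex926 (Base U)
open Crest.Agent.R136.C3a795 Crest.Agent.R136.C3b795 Crest.Agent.R136.C3c795
open Crest.Agent.R136.Fe1355 (RawTw)
open Crest.Agent.R136.Ab356
open Crest.Agent.R136.CV366 (NoStr)

variable {ι : ℕ → Type*} [∀ n, DecidableEq (ι n)] {W : Wnd 11 ι} {f : ∀ n, ι n → Fq4}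
  {Ma : Mons 11} {E : ∀ n, Finset (ι n)} {T : ℝ}

open Classical in
/-- some height at which the line is alive -/
noncomputable def kk (W : Wnd 11 ι) (E : ∀ n, Finset (ι n)) (n i : ℕ) : ℕ :=
  if h : ∃ k, (i, k) ∈ (W.cfg0 n (E n)).I then h.choose else 0

theorem kk_mem {n i k : ℕ} (h : (i, k) ∈ (W.cfg0 n (E n)).I) :
    (i, kk W E n i) ∈ (W.cfg0 n (E n)).I := by
  have h' : ∃ k, (i, k) ∈ (W.cfg0 n (E n)).I := ⟨k, h⟩
  unfold kk
  rw [dif_pos h']
  exact h'.choose_spec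

/-- absolute coordinate of a line -/
noncomputable def aW (W : Wnd 11 ι) (n k i : ℕ) (s : Fin 11) : ℝ :=
  W.crd n (W.s₀ n) (W.rep n i k) s

/-- positions of the lines -/
noncomputable def AW (W : Wnd 11 ι) (E : ∀ n, Finset (ι n)) (n i : ℕ) (a : Fin 2) : ℝ :=
  if a = 0 then aW W n (kk W E n i) i 8 else aW W n (kk W E n i) i 9

/-- velocities of the lines -/
noncomputable def VW (W : Wnd 11 ι) (E : ∀ n, Finset (ι n)) (n i : ℕ) (a : Fin 2) : ℝ :=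
  if a = 0 then aW W n (kk W E n i) i 5 else aW W n (kk W E n i) i 6

namespace WC

variable (w : WC W f Ma T)

include w

/-- **absolute coordinates of a line at two heights** -/
theorem lineC {n : ℕ} (g : W.Good n) (hE : E n ⊆ W.Cl n) {k k' i : ℕ}
    (h1 : (i, k) ∈ (W.cfg0 n (E n)).I) (h2 : (i, k') ∈ (W.cfg0 n (E n)).I) :
    |aW W n k' i 5 - aW W n k i 5| ≤ 4 * W.B'.d n ^ T ∧
    |aW W n k' i 6 - aW W n k i 6| ≤ 4 * W.B'.d n ^ T ∧
    |aW W n k' i 8 - aW W n k i 8| ≤ 4 * W.B'.d n ^ T ∧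
    |aW W n k' i 9 - aW W n k i 9| ≤ 4 * W.B'.d n ^ T := by
  obtain ⟨a1, a2, a3⟩ := rep_of_mem hE h1
  obtain ⟨b1, b2, b3⟩ := rep_of_mem hE h2
  have hl := a2.trans b2.symm
  have hη0 : 0 ≤ W.B'.d n ^ T := Real.rpow_nonneg (W.B'.pos n).le T
  set η := W.B'.d n ^ T with hη
  set y := W.rep n i k with hy
  set z := W.rep n i k' with hz
  have nm : ∀ s, (s = 5 ∨ s = 6 ∨ s = 8 ∨ s = 9) → s ∉ W.S := fun s hs =>
    w.qa.q.notMem (by tauto)
  have o5 := w.own1 g a1 b1 hl (nm 5 (by simp))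
  have o6 := w.own1 g a1 b1 hl (nm 6 (by simp))
  have o8 := w.own1 g a1 b1 hl (nm 8 (by simp))
  have o9 := w.own1 g a1 b1 hl (nm 9 (by simp))
  have q0 := w.qa.crd4 g g.s0 a1 0
  have q2 := w.qa.crd4 g g.s0 a1 2
  have e5 := w.qa.q.crd_add g g.s0 a1 b1 (s := 5) (by simp)
  have e6 := w.qa.q.crd_six g g.s0 a1 b1
  have e8 := crd_eight w.qa.q g g.s0 a1 b1
  have e9 := crd_nine w.qa.q g g.s0 a1 b1
  rw [w.cf1 w.m256 (by decide) n, one_mul] at e6
  rw [w.cf1 w.m058 (by decide) n, one_mul] at e8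
  rw [w.cf1 w.m069 (by decide) n, w.cf1 w.m289 (by decide) n, w.cf1 w.m058 (by decide) n,
    one_mul, one_mul, one_mul] at e9
  have mulb : ∀ {p v c : ℝ}, |p| ≤ c → |v| ≤ η → |p * v| ≤ c * η := by
    intro p v c hp hv
    rw [abs_mul]
    exact mul_le_mul hp hv (abs_nonneg _) ((abs_nonneg _).trans hp)
  have p25 := mulb q2 o5
  have p05 := mulb q0 o5
  have p06 := mulb q0 o6
  have p28 := mulb q2 o8
  have p205 : |W.crd n (W.s₀ n) y 2 * (W.crd n (W.s₀ n) y 0 * W.crd n y z 5)| ≤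
      1 / 4 * (1 / 4 * η) := by
    rw [abs_mul]
    exact mul_le_mul q2 p05 (abs_nonneg _) (by norm_num)
  have n5 := abs_le.1 o5
  have n6 := abs_le.1 o6
  have n8 := abs_le.1 o8
  have n9 := abs_le.1 o9
  have m25 := abs_le.1 p25
  have m05 := abs_le.1 p05
  have m06 := abs_le.1 p06
  have m28 := abs_le.1 p28
  have m205 := abs_le.1 p205
  unfold aW
  refine ⟨?_, ?_, ?_, ?_⟩
  · rw [e5, abs_le]; constructor <;> linarith [n5.1, n5.2]
  · rw [e6, abs_le]; constructor <;> linarith [n6.1, n6.2, m25.1, m25.2]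
  · rw [e8, abs_le]; constructor <;> linarith [n8.1, n8.2, m05.1, m05.2]
  · have e : W.crd n (W.s₀ n) y 2 * (W.crd n y z 8 - W.crd n (W.s₀ n) y 0 * W.crd n y z 5) =
        W.crd n (W.s₀ n) y 2 * W.crd n y z 8 -
          W.crd n (W.s₀ n) y 2 * (W.crd n (W.s₀ n) y 0 * W.crd n y z 5) := by ring
    rw [e9, e, abs_le]
    constructor <;> linarith [n9.1, n9.2, m06.1, m06.2, m28.1, m28.2, m205.1, m205.2]

/-- **absolute coordinates** of the sheared configuration -/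
theorem ab_of (hc : HC W E) :
    AbsC W.B' (shr (W.cfg E) (eW W)) (b6 0 0 0 0 0 0) 8 9 5 6 T 1 (AW W E) (VW W E)
      (fun _ _ _ => 0) := by
  -- one statement at equal height
  have key : ∀ᶠ n in (U : Filter ℕ), ∀ k i l, (i, k) ∈ (W.cfg E n).I → (l, k) ∈ (W.cfg E n).I →
      |AW W E n l 0 - AW W E n i 0 + (W.cfg E n).z k * (VW W E n l 0 - VW W E n i 0) -
        (shr (W.cfg E) (eW W) n).rel k i l 8| ≤ 20 * W.B'.d n ^ T ∧
      |AW W E n l 1 - AW W E n i 1 + (W.cfg E n).z k * (VW W E n l 1 - VW W E n i 1) -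
        (shr (W.cfg E) (eW W) n).rel k i l 9| ≤ 20 * W.B'.d n ^ T ∧
      |VW W E n l 0 - VW W E n i 0 - (shr (W.cfg E) (eW W) n).rel k i l 5| ≤
        20 * W.B'.d n ^ T ∧
      |VW W E n l 1 - VW W E n i 1 - (shr (W.cfg E) (eW W) n).rel k i l 6| ≤
        20 * W.B'.d n ^ T := by
    filter_upwards [hc, w.qa.q.z_eq w.kz hc] with n hn hz k i l h1 h2
    obtain ⟨g, hE, hcfg⟩ := hn
    rw [hz k, shr_nine, shr_six, shr_of_ne (by decide) (by decide),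
      shr_of_ne (by decide) (by decide), hcfg]
    have hkZ : k ∈ (W.cfg0 n (E n)).Z := by
      rw [hcfg] at h1
      exact mem_image.2 (by obtain ⟨u, hu, -, h6⟩ := mem_cfg0 h1; exact ⟨u, hu, h6⟩)
    rw [hcfg] at h1 h2
    obtain ⟨a1, a2, a3⟩ := rep_of_mem hE h1
    obtain ⟨b1, b2, b3⟩ := rep_of_mem hE h2
    obtain ⟨z1, z2⟩ := zrep_of_mem hE hkZ
    have hη0 : 0 ≤ W.B'.d n ^ T := Real.rpow_nonneg (W.B'.pos n).le T
    obtain ⟨i5, i6, i8, i9⟩ := w.lineC g hE h1 (kk_mem h1)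
    obtain ⟨l5, l6, l8, l9⟩ := w.lineC g hE h2 (kk_mem h2)
    have nm : ∀ s, (s = 5 ∨ s = 6 ∨ s = 8 ∨ s = 9) → s ∉ W.S := fun s hs =>
      w.qa.q.notMem (by tauto)
    rw [rel_cfg0, rel_cfg0, rel_cfg0, rel_cfg0, if_neg (nm 5 (by simp)), if_neg (nm 6 (by simp)),
      if_neg (nm 8 (by simp)), if_neg (nm 9 (by simp))]
    set η := W.B'.d n ^ T with hη
    set y := W.rep n i k with hy
    set x := W.rep n l k with hx
    have e5 := w.qa.q.crd_add g g.s0 a1 b1 (s := 5) (by simp)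
    have e6 := w.qa.q.crd_six g g.s0 a1 b1
    have e8 := crd_eight w.qa.q g g.s0 a1 b1
    have e9 := crd_nine w.qa.q g g.s0 a1 b1
    rw [w.cf1 w.m256 (by decide) n, one_mul] at e6
    rw [w.cf1 w.m058 (by decide) n, one_mul] at e8
    rw [w.cf1 w.m069 (by decide) n, w.cf1 w.m289 (by decide) n, w.cf1 w.m058 (by decide) n,
      one_mul, one_mul, one_mul] at e9
    have q0 : |flg W n k 0| ≤ 1 / 4 := w.qa.crd4 g g.s0 z1 0
    have d0 : |flg W n k 0 - W.crd n (W.s₀ n) y 0| ≤ η := by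
      have e1 := w.qa.q.crd_add g g.s0 a1 z1 (s := 0) (by simp)
      have e2 := w.lev1 g a1 z1 (a3.trans z2.symm) w.qa.S0
      unfold flg
      rw [e1, add_sub_cancel_left]
      exact e2
    have c5 := w.qa.crd4 g a1 b1 5
    have c6 := w.qa.crd4 g a1 b1 6
    have q2 : |W.crd n (W.s₀ n) y 2| ≤ 1 / 4 := w.qa.crd4 g g.s0 a1 2
    -- names
    have vi5 : VW W E n i 0 = aW W n (kk W E n i) i 5 := by unfold VW; rw [if_pos rfl]
    have vi6 : VW W E n i 1 = aW W n (kk W E n i) i 6 := by unfold VW; rw [if_neg (by decide)]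
    have vl5 : VW W E n l 0 = aW W n (kk W E n l) l 5 := by unfold VW; rw [if_pos rfl]
    have vl6 : VW W E n l 1 = aW W n (kk W E n l) l 6 := by unfold VW; rw [if_neg (by decide)]
    have ai8 : AW W E n i 0 = aW W n (kk W E n i) i 8 := by unfold AW; rw [if_pos rfl]
    have ai9 : AW W E n i 1 = aW W n (kk W E n i) i 9 := by unfold AW; rw [if_neg (by decide)]
    have al8 : AW W E n l 0 = aW W n (kk W E n l) l 8 := by unfold AW; rw [if_pos rfl]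
    have al9 : AW W E n l 1 = aW W n (kk W E n l) l 9 := by unfold AW; rw [if_neg (by decide)]
    have wi : ∀ s, aW W n k i s = W.crd n (W.s₀ n) y s := fun s => rfl
    have wl : ∀ s, aW W n k l s = W.crd n (W.s₀ n) x s := fun s => rfl
    have we : eW W n k i = W.crd n (W.s₀ n) y 2 := rfl
    rw [vi5, vi6, vl5, vl6, ai8, ai9, al8, al9, we]
    rw [wi] at i5 i6 i8 i9
    rw [wl] at l5 l6 l8 l9
    set V5 := aW W n (kk W E n i) i 5
    set V6 := aW W n (kk W E n i) i 6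
    set V8 := aW W n (kk W E n i) i 8
    set V9 := aW W n (kk W E n i) i 9
    set L5 := aW W n (kk W E n l) l 5
    set L6 := aW W n (kk W E n l) l 6
    set L8 := aW W n (kk W E n l) l 8
    set L9 := aW W n (kk W E n l) l 9
    set Z := flg W n k 0
    set y0 := W.crd n (W.s₀ n) y 0
    set y2 := W.crd n (W.s₀ n) y 2
    set c5' := W.crd n y x 5
    set c6' := W.crd n y x 6
    set c8' := W.crd n y x 8
    set c9' := W.crd n y x 9
    have t5 : |(L5 - W.crd n (W.s₀ n) x 5) - (V5 - W.crd n (W.s₀ n) y 5)| ≤ 8 * η :=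
      (abs_sub _ _).trans (by linarith)
    have t6 : |(L6 - W.crd n (W.s₀ n) x 6) - (V6 - W.crd n (W.s₀ n) y 6)| ≤ 8 * η :=
      (abs_sub _ _).trans (by linarith)
    have t8 : |(L8 - W.crd n (W.s₀ n) x 8) - (V8 - W.crd n (W.s₀ n) y 8)| ≤ 8 * η :=
      (abs_sub _ _).trans (by linarith)
    have t9 : |(L9 - W.crd n (W.s₀ n) x 9) - (V9 - W.crd n (W.s₀ n) y 9)| ≤ 8 * η :=
      (abs_sub _ _).trans (by linarith)
    have Z5 : |Z * ((L5 - W.crd n (W.s₀ n) x 5) - (V5 - W.crd n (W.s₀ n) y 5))| ≤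
        1 / 4 * (8 * η) := by
      rw [abs_mul]; exact mul_le_mul q0 t5 (abs_nonneg _) (by norm_num)
    have Z6 : |Z * ((L6 - W.crd n (W.s₀ n) x 6) - (V6 - W.crd n (W.s₀ n) y 6))| ≤
        1 / 4 * (8 * η) := by
      rw [abs_mul]; exact mul_le_mul q0 t6 (abs_nonneg _) (by norm_num)
    have D5 : |(Z - y0) * c5'| ≤ η * (1 / 4) := by
      rw [abs_mul]; exact mul_le_mul d0 c5 (abs_nonneg _) hη0
    have D6 : |(Z - y0) * (c6' + y2 * c5')| ≤ η * 1 := by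
      rw [abs_mul]
      refine mul_le_mul d0 ?_ (abs_nonneg _) hη0
      have : |y2 * c5'| ≤ 1 / 4 * (1 / 4) := by
        rw [abs_mul]; exact mul_le_mul q2 c5 (abs_nonneg _) (by norm_num)
      exact (abs_add_le _ _).trans (by linarith)
    refine ⟨?_, ?_, ?_, ?_⟩
    · have e : L8 - V8 + Z * (L5 - V5) - c8' =
          ((L8 - W.crd n (W.s₀ n) x 8) - (V8 - W.crd n (W.s₀ n) y 8)) +
          Z * ((L5 - W.crd n (W.s₀ n) x 5) - (V5 - W.crd n (W.s₀ n) y 5)) +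
          (Z - y0) * c5' := by rw [e8, e5]; ring
      rw [e]
      refine (abs_add_le _ _).trans ?_
      have := abs_add_le ((L8 - W.crd n (W.s₀ n) x 8) - (V8 - W.crd n (W.s₀ n) y 8))
        (Z * ((L5 - W.crd n (W.s₀ n) x 5) - (V5 - W.crd n (W.s₀ n) y 5)))
      linarith
    · have e : L9 - V9 + Z * (L6 - V6) - (c9' + y2 * c8') =
          ((L9 - W.crd n (W.s₀ n) x 9) - (V9 - W.crd n (W.s₀ n) y 9)) +
          Z * ((L6 - W.crd n (W.s₀ n) x 6) - (V6 - W.crd n (W.s₀ n) y 6)) +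
          (Z - y0) * (c6' + y2 * c5') := by rw [e9, e6]; ring
      rw [e]
      refine (abs_add_le _ _).trans ?_
      have := abs_add_le ((L9 - W.crd n (W.s₀ n) x 9) - (V9 - W.crd n (W.s₀ n) y 9))
        (Z * ((L6 - W.crd n (W.s₀ n) x 6) - (V6 - W.crd n (W.s₀ n) y 6)))
      linarith
    · have e : L5 - V5 - c5' =
          (L5 - W.crd n (W.s₀ n) x 5) - (V5 - W.crd n (W.s₀ n) y 5) := by rw [e5]; ring
      rw [e]
      linarith
    · have e : L6 - V6 - (c6' + y2 * c5') =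
          (L6 - W.crd n (W.s₀ n) x 6) - (V6 - W.crd n (W.s₀ n) y 6) := by rw [e6]; ring
      rw [e]
      linarith
  have fin : ∀ ε : ℝ, 0 < ε → ∀ᶠ n in (U : Filter ℕ), 20 * W.B'.d n ^ T ≤
      W.B'.d n ^ (T - 1 * ε) := by
    intro ε hε
    filter_upwards [ev_const_le W.B' hε 20] with n hn
    have e1 : W.B'.d n ^ (T - 1 * ε) = W.B'.d n ^ (-ε) * W.B'.d n ^ T := by
      rw [← Real.rpow_add (W.B'.pos n)]; congr 1; ring
    rw [e1]
    exact mul_le_mul_of_nonneg_right hn (Real.rpow_nonneg (W.B'.pos n).le T)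
  refine ⟨one_pos, Eventually.of_forall fun n k i _ => by simp, ?_, ?_, ?_, ?_⟩
  · intro ε hε
    filter_upwards [key, fin ε hε] with n hn hf k i l h1 h2 _
    exact (hn k i l h1 h2).1.trans hf
  · intro ε hε
    filter_upwards [key, fin ε hε] with n hn hf k i l h1 h2 _
    rw [zero_mul, add_zero]
    exact (hn k i l h1 h2).2.1.trans hf
  · intro ε hε
    filter_upwards [key, fin ε hε] with n hn hf k i l h1 h2 _
    exact (hn k i l h1 h2).2.2.1.trans hf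
  · intro ε hε
    filter_upwards [key, fin ε hε] with n hn hf k i l h1 h2 _
    rw [zero_mul, add_zero]
    exact (hn k i l h1 h2).2.2.2.trans hf

/-- legality of the boxes -/
theorem legW_b6 {c5 c6 c7 c8 c9 c10 : ℝ} (h50 : 0 ≤ c5) (h5 : c5 ≤ T) (h60 : 0 ≤ c6)
    (h6 : c6 ≤ c5) (h70 : 0 ≤ c7) (h7 : c7 ≤ T) (h80 : 0 ≤ c8) (h8 : c8 ≤ T) (h90 : 0 ≤ c9)
    (h9 : c9 ≤ c8) (h100 : 0 ≤ c10) (h10 : c10 ≤ T) : b6 c5 c6 c7 c8 c9 c10 ∈ W.legW := by
  have hT := w.T0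
  have h6T := h6.trans h5
  have h9T := h9.trans h8
  have b0 : ∀ s, 0 ≤ b6 c5 c6 c7 c8 c9 c10 s := by
    intro s; fin_cases s <;> simp [b6] <;> assumption
  have b1 : ∀ s, b6 c5 c6 c7 c8 c9 c10 s ≤ T := by
    intro s; fin_cases s <;> simp [b6] <;> first | exact hT.le | assumption
  refine ⟨?_, fun s _ => ?_⟩
  · rw [w.top, w.Mw, w.R']
    refine ⟨⟨fun s => ?_, w.leg c5 c6 c7 c8 c9 c10 h50 h5 h60 h6 h70 h7 h80 h8 h90 h9 h100 h10⟩,
      fun s => ?_⟩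
    · by_cases hs : s ∈ W.S
      · rw [cut_of_mem hs]; exact hT.le
      · rw [cut_of_notMem hs]; exact b0 s
    · by_cases hs : s ∈ W.S
      · rw [cut_of_mem hs]
      · rw [cut_of_notMem hs]; exact b1 s
  · rw [w.top]; exact b1 s

/-- **the model of case C3 in a window** -/
theorem m3 (hc : HC W E) (H : RModel W.B' (W.cfg E) 1 T W.legW W.nu W.Dc) :
    M3 W.B' (shr (W.cfg E) (eW W)) (LegS W.legW) W.nu T (4 * W.Dc) (faW W) (fbW W) where
  H := RModel.shr H (w.eb hc)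
  T0 := w.T0
  leg := fun c5 c6 c7 c8 c9 c10 h50 h5 h60 h6 h70 h7 h80 h8 h90 h9 h100 h10 =>
    ⟨w.legW_b6 h50 h5 h60 h6 h70 h7 h80 h8 h90 h9 h100 h10, h9, h6⟩
  bd := by
    filter_upwards [hc, w.qa.q.z_eq w.kz hc] with n hn hz k hk
    obtain ⟨g, hE, hcfg⟩ := hn
    have hk' : k ∈ (W.cfg E n).Z := hk
    rw [hcfg] at hk'
    obtain ⟨z1, z2⟩ := zrep_of_mem hE hk'
    have b : ∀ s, |flg W n k s| ≤ 1 := fun s =>
      (w.qa.crd4 g g.s0 z1 s).trans (by norm_num)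
    refine ⟨?_, b 4, ?_⟩
    · show |(W.cfg E n).z k| ≤ 1
      rw [hz k]; exact b 0
    · unfold fbW
      split_ifs
      · exact b 3
      · rw [abs_zero]; norm_num
  rb := by
    filter_upwards [hc] with n hn k i l h1 h2 s
    obtain ⟨g, hE, hcfg⟩ := hn
    have h1' : (i, k) ∈ (W.cfg0 n (E n)).I := by rw [← hcfg]; exact h1
    have h2' : (l, k) ∈ (W.cfg0 n (E n)).I := by rw [← hcfg]; exact h2
    have rb : ∀ s, |(W.cfg E n).rel k i l s| ≤ 1 / 4 := by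
      intro s
      rw [hcfg]
      exact w.qa.rel_le g hE h1' h2' s
    have he : |eW W n k i| ≤ 1 / 4 := w.eW_le g hE h1'
    have key : ∀ a b : ℝ, |a| ≤ 1 / 4 → |b| ≤ 1 / 4 → |a + eW W n k i * b| ≤ 1 := by
      intro a b ha hb
      have : |eW W n k i * b| ≤ 1 / 4 * (1 / 4) := by
        rw [abs_mul]; exact mul_le_mul he hb (abs_nonneg _) (by norm_num)
      exact (abs_add_le _ _).trans (by linarith)
    by_cases h6 : s = 6
    · subst h6; rw [shr_six]; exact key _ _ (rb 6) (rb 5)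
    by_cases h9 : s = 9
    · subst h9; rw [shr_nine]; exact key _ _ (rb 9) (rb 8)
    · rw [shr_of_ne h6 h9]; exact (rb s).trans (by norm_num)
  ev := fun ε hε => w.ev_of hc hε
  ab := ⟨AW W E, VW W E, 1, w.ab_of hc⟩

end WC

/-- **raw twist**: own flag differences `s` = differences of a function of the heights -/
theorem rawTw_gen (hc : HC W E) {s : Fin 11} {T C : ℝ} (hT : 0 < T) {f : ℕ → ℕ → ℝ}
    (hf : ∀ᶠ n in (U : Filter ℕ), ∀ i k k', (i, k) ∈ (W.cfg E n).I → (i, k') ∈ (W.cfg E n).I →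
      |W.crd n (W.rep n i k) (W.rep n i k') s - (f n k' - f n k)| ≤ C * W.B'.d n ^ T)
    (hr : RawL W E s) : RawTw W.B' (W.cfg E) (fun n k k' => f n k' - f n k) := by
  intro ε hε
  set δ : ℝ := min (ε / 2) (T / 2) with hδ
  have hδ0 : 0 < δ := lt_min (by positivity) (by positivity)
  have hδε : δ < ε := lt_of_le_of_lt (min_le_left _ _) (by linarith)
  have hδT : δ < T := lt_of_le_of_lt (min_le_right _ _) (by linarith)
  filter_upwards [hf, hr δ hδ0 (1 / 2) (by norm_num),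
    ev_const_le W.B' (show 0 < ε - δ by linarith) 2,
    ev_const_le W.B' (show 0 < T - δ by linarith) (2 * |C|)] with n hfn hrn h2 h3
  intro i hi S hS hSm
  have hd0 : 0 < W.B'.d n := W.B'.pos n
  have hpow : ∀ t : ℝ, 0 < W.B'.d n ^ t := fun t => Real.rpow_pos_of_pos hd0 t
  have a1 : W.B'.d n ^ ε ≤ W.B'.d n ^ δ / 2 := by
    have : W.B'.d n ^ ε * W.B'.d n ^ (-(ε - δ)) = W.B'.d n ^ δ := by
      rw [← Real.rpow_add hd0]; congr 1; ring
    have h4 := mul_le_mul_of_nonneg_left h2 (hpow ε).le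
    rw [this] at h4
    linarith
  have a2 : |C| * W.B'.d n ^ T ≤ W.B'.d n ^ δ / 2 := by
    have : W.B'.d n ^ T * W.B'.d n ^ (-(T - δ)) = W.B'.d n ^ δ := by
      rw [← Real.rpow_add hd0]; congr 1; ring
    have h4 := mul_le_mul_of_nonneg_left h3 (hpow T).le
    rw [this] at h4
    linarith
  classical
  have hsub : S ⊆ ((W.cfg E n).hts i).biUnion fun k =>
      (((W.cfg E n).hts i).filter fun k' =>
        |W.crd n (W.rep n i k) (W.rep n i k') s| ≤ W.B'.d n ^ δ).image fun k' => (k, k') := by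
    intro q hq
    obtain ⟨q1, q2⟩ := mem_product.1 (hS hq)
    refine mem_biUnion.2 ⟨q.1, q1, mem_image.2 ⟨q.2, mem_filter.2 ⟨q2, ?_⟩, rfl⟩⟩
    have g1 := (RCfg.mem_hts.1 q1)
    have g2 := (RCfg.mem_hts.1 q2)
    have m2 := hfn i q.1 q.2 g1.2 g2.2
    have m3 := hSm q hq
    have m4 : C * W.B'.d n ^ T ≤ |C| * W.B'.d n ^ T :=
      mul_le_mul_of_nonneg_right (le_abs_self _) (hpow _).le
    have m5 := abs_sub_abs_le_abs_sub (W.crd n (W.rep n i q.1) (W.rep n i q.2) s)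
      (f n q.2 - f n q.1)
    have m6 : |f n q.2 - f n q.1| ≤ W.B'.d n ^ ε := m3
    linarith
  have hcard : (S.card : ℝ) ≤ ∑ k ∈ (W.cfg E n).hts i,
      1 / 2 * (((W.cfg E n).hts i).card : ℝ) := by
    have h5 : (S.card : ℝ) ≤ ∑ k ∈ (W.cfg E n).hts i,
        ((((W.cfg E n).hts i).filter fun k' =>
        |W.crd n (W.rep n i k) (W.rep n i k') s| ≤ W.B'.d n ^ δ).card : ℝ) := by
      have h6 := (card_le_card hsub).trans card_biUnion_le
      have h7 : ∑ k ∈ (W.cfg E n).hts i, ((((W.cfg E n).hts i).filter fun k' =>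
          |W.crd n (W.rep n i k) (W.rep n i k') s| ≤ W.B'.d n ^ δ).image
            fun k' => (k, k')).card ≤
          ∑ k ∈ (W.cfg E n).hts i, (((W.cfg E n).hts i).filter fun k' =>
          |W.crd n (W.rep n i k) (W.rep n i k') s| ≤ W.B'.d n ^ δ).card :=
        sum_le_sum fun k _ => card_image_le
      exact_mod_cast h6.trans h7
    exact h5.trans (sum_le_sum fun k hk => hrn i hi k hk)
  rw [sum_const, nsmul_eq_mul] at hcard
  nlinarith

namespace WC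

variable (w : WC W f Ma T)

include w

/-- raw twist of `F_b` (natural plane) -/
theorem rawTw_fb (hc : HC W E) (h3S : (3 : Fin 11) ∈ W.S) (hr : RawL W E 3) :
    RawTw W.B' (shr (W.cfg E) (eW W)) (fun n k k' => fbW W n k' - fbW W n k) := by
  refine rawTw_gen hc (s := 3) (C := 2) w.T0 (f := fun n k => fbW W n k) ?_ hr
  filter_upwards [hc, w.qa.q.mot_eq hc] with n hn hmot i k k' h1 h2
  obtain ⟨g, hE, hcfg⟩ := hn
  have Zm : ∀ {k}, (i, k) ∈ (W.cfg E n).I → k ∈ (W.cfg E n).Z := by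
    intro k hk
    rw [hcfg] at hk ⊢
    exact mem_image.2 (by obtain ⟨u, hu, -, h6⟩ := mem_cfg0 hk; exact ⟨u, hu, h6⟩)
  have m1 := (hmot k (Zm h1) k' (Zm h2)).1 3 (by simp)
  have zk := Zm h1
  have zk' := Zm h2
  rw [hcfg] at h1 h2 zk zk'
  obtain ⟨x1, x2, x3⟩ := rep_of_mem hE h1
  obtain ⟨y1, y2, y3⟩ := rep_of_mem hE h2
  obtain ⟨z1, z2⟩ := zrep_of_mem hE zk
  obtain ⟨z1', z2'⟩ := zrep_of_mem hE zk'
  have m2 := w.qa.q.own_add g x1 y1 z1 z1' (x3.trans z2.symm) (y3.trans z2'.symm) h3S (by simp)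
    (t := T) (by rw [w.top])
  rw [m1] at m2
  have e1 : fbW W n k' - fbW W n k = flg W n k' 3 - flg W n k 3 := by
    unfold fbW; rw [if_pos h3S, if_pos h3S]
  rw [e1]
  refine m2.trans ?_
  have h4 := w.K14 3
  have h5 : 2 * W.K0 / W.kap 3 = 2 * (W.K0 / W.kap 3) := by ring
  rw [h5]
  have := Real.rpow_nonneg (W.B'.pos n).le T
  nlinarith

/-- raw twist of `F_a` (slack plane) -/
theorem rawTw_fa (hc : HC W E) (h3S : (3 : Fin 11) ∉ W.S) (hr : RawL W E 4) :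
    RawTw W.B' (shr (W.cfg E) (eW W)) (fun n k k' => faW W n k' - faW W n k) := by
  have h34 : mv 2 3 ∉ Ma.mon 4 := by
    rcases w.h3 with ⟨h, -⟩ | ⟨-, h, -⟩
    · exact absurd h h3S
    · exact h
  refine rawTw_gen hc (s := 4) (C := 5) w.T0 (f := fun n k => faW W n k) ?_ hr
  filter_upwards [hc, w.qa.capp T w.T0.le] with n hn hca i k k' h1 h2
  obtain ⟨g, hE, hcfg⟩ := hn
  have c1 := hca.2.2.2.2.2.2.2.2.2.2.d
  have c2 : chi Ma 2 3 4 = 0 := if_neg h34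
  rw [c2, sub_zero, one_mul] at c1
  have Zm : ∀ {k}, (i, k) ∈ (W.cfg E n).I → k ∈ (W.cfg0 n (E n)).Z := by
    intro k hk
    rw [hcfg] at hk
    exact mem_image.2 (by obtain ⟨u, hu, -, h6⟩ := mem_cfg0 hk; exact ⟨u, hu, h6⟩)
  have zk := Zm h1
  have zk' := Zm h2
  rw [hcfg] at h1 h2
  obtain ⟨x1, x2, x3⟩ := rep_of_mem hE h1
  obtain ⟨y1, y2, y3⟩ := rep_of_mem hE h2
  obtain ⟨z1, z2⟩ := zrep_of_mem hE zk
  obtain ⟨z1', z2'⟩ := zrep_of_mem hE zk'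
  have hη0 : 0 ≤ W.B'.d n ^ T := Real.rpow_nonneg (W.B'.pos n).le T
  -- `flg k' 4 = crd s₀ x' 4 + crd x' z' 4 - cf ..` etc.
  have l1 := w.lev1 g x1 z1 (x3.trans z2.symm) w.S4
  have l2 := w.lev1 g y1 z1' (y3.trans z2'.symm) w.S4
  have e1 := w.qa.q.crd_four g g.s0 x1 z1
  have e2 := w.qa.q.crd_four g g.s0 y1 z1'
  have e3 := w.qa.q.crd_four g g.s0 x1 y1
  have pr : ∀ {u v u' v' : ι n}, u ∈ W.Cl n → v ∈ W.Cl n → u' ∈ W.Cl n → v' ∈ W.Cl n →
      |cf W n 2 3 4 * (W.crd n u v 2 * W.crd n u' v' 3)| ≤ W.B'.d n ^ T := by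
    intro u v u' v' hu hv hu' hv'
    rw [abs_mul, abs_mul]
    have b1 : |W.crd n u v 2| * |W.crd n u' v' 3| ≤ 1 / 4 * (1 / 4) :=
      mul_le_mul (w.qa.crd4 g hu hv 2) (w.qa.crd4 g hu' hv' 3) (abs_nonneg _) (by norm_num)
    calc |cf W n 2 3 4| * (|W.crd n u v 2| * |W.crd n u' v' 3|)
        ≤ W.B'.d n ^ T * (1 / 4 * (1 / 4)) := mul_le_mul c1 b1 (by positivity) hη0
      _ ≤ W.B'.d n ^ T := by linarith
  have p1 := abs_le.1 (pr g.s0 x1 x1 z1)
  have p2 := abs_le.1 (pr g.s0 y1 y1 z1')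
  have p3 := abs_le.1 (pr g.s0 x1 x1 y1)
  have l1' := abs_le.1 l1
  have l2' := abs_le.1 l2
  have f1 : faW W n k = W.crd n (W.s₀ n) (W.zrep n k) 4 := rfl
  have f2 : faW W n k' = W.crd n (W.s₀ n) (W.zrep n k') 4 := rfl
  rw [f1, f2, e1, e2, e3, abs_le]
  constructor <;> linarith [p1.1, p1.2, p2.1, p2.2, p3.1, p3.2, l1'.1, l1'.2, l2'.1, l2'.2]

end WC

end Crest.Agent.R136.C3d795
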