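import Crest.Agent.R136.GD7_186

-- ▼ part R136/GD8_186
section

/-!
# R136: D-max for sheared chart boxes of any shape (helper186)

`NearS` : box with shears `μ` (`b` against `a`), `lam` (`n` against `a`), `nu` (`n` against `b`);
`SQ` : true sizes of a chart box; `gD_any` : D-max for sheared boxes, the three sizes in any order;
`gD_shear` : the sizes in the usual order.
-/

set_option autoImplicit false
set_option linter.unusedVariables false

open Finset Filter Topology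

namespace Crest.Agent.R136.GeoQ186

open Crest.Agent.R138.Ex926 (Base U)
open Crest.Agent.R138.Mk163 (zc zl rho alive)
open Crest.Agent.R138.MkRef627 (lc kc)
open Crest.Agent.R138
open Crest.Agent.R136.MkA627
open Crest.Agent.R136.Net191
open Crest.Agent.R136.NetQ186
open Crest.Agent.R136.Sh605
open Crest.Agent.R136.Top484 (geo4)
open Crest.Agent.R136.PqG464 (pow_lev zc_near ev_const)
open Crest.Agent.R136.Wq638

/-! ### determinants -/

theorem det3_eq (f : Fin 3 → V3) : det3 f = -(Matrix.of f).det := by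
  rw [Matrix.det_fin_three]
  simp only [det3, dt, cr, Matrix.cons_val, Matrix.of_apply]
  ring

/-- permuted forms -/
theorem abs_det3_row (f : Fin 3 → V3) (σ : Equiv.Perm (Fin 3)) :
    |det3 fun k => f (σ k)| = |det3 f| := by
  rw [det3_eq, det3_eq, abs_neg, abs_neg]
  have h := Matrix.det_permute σ (Matrix.of f)
  have e1 : (Matrix.of f).submatrix σ id = Matrix.of fun k => f (σ k) := rfl
  rw [e1] at h
  rw [h, abs_mul]
  rcases Int.units_eq_one_or (Equiv.Perm.sign σ) with h1 | h1 <;> rw [h1] <;> simp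

/-- permuted coordinates -/
theorem abs_det3_col (f : Fin 3 → V3) (π : Equiv.Perm (Fin 3)) :
    |det3 fun k => pv π (f k)| = |det3 f| := by
  rw [det3_eq, det3_eq, abs_neg, abs_neg]
  have h := Matrix.det_permute' π (Matrix.of f)
  have e1 : (Matrix.of f).submatrix id π = Matrix.of fun k => pv π (f k) := rfl
  rw [e1] at h
  rw [h, abs_mul]
  rcases Int.units_eq_one_or (Equiv.Perm.sign π) with h1 | h1 <;> rw [h1] <;> simp

/-! ### the forms of a flag -/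

/-- the forms `0` = normal, `1` = wide, `2` = narrow, of the flag `(e, fa, fb)` -/
def frmQ (π : Equiv.Perm (Fin 3)) (e fa fb : ℝ) : Fin 3 → V3 :=
  fun k => pv π.symm ((![![1, -fa, -fb], ![0, 1, 0], ![0, -e, 1]] : Fin 3 → V3) k)

theorem frmQ_det (π : Equiv.Perm (Fin 3)) (e fa fb : ℝ) : |det3 (frmQ π e fa fb)| = 1 := by
  unfold frmQ
  rw [abs_det3_col]
  simp [det3, dt, cr]

theorem dt_frmQ0 (π : Equiv.Perm (Fin 3)) (e fa fb : ℝ) (x : V3) :
    dt (frmQ π e fa fb 0) x = x (π 0) - fa * x (π 1) - fb * x (π 2) := by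
  unfold frmQ
  rw [dt_pvs]
  simp only [dt, pv, Matrix.cons_val]
  ring

theorem dt_frmQ1 (π : Equiv.Perm (Fin 3)) (e fa fb : ℝ) (x : V3) :
    dt (frmQ π e fa fb 1) x = x (π 1) := by
  unfold frmQ
  rw [dt_pvs]
  simp only [dt, pv, Matrix.cons_val]
  ring

theorem dt_frmQ2 (π : Equiv.Perm (Fin 3)) (e fa fb : ℝ) (x : V3) :
    dt (frmQ π e fa fb 2) x = x (π 2) - e * x (π 1) := by
  unfold frmQ
  rw [dt_pvs]
  simp only [dt, pv, Matrix.cons_val]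
  ring

theorem frmQ_le {π : Equiv.Perm (Fin 3)} {e fa fb M : ℝ} (hM : 1 ≤ M) (he : |e| ≤ M)
    (ha : |fa| ≤ M) (hb : |fb| ≤ M) (k i : Fin 3) : |frmQ π e fa fb k i| ≤ M := by
  have hM0 : 0 ≤ M := by linarith
  have key : ∀ k j : Fin 3,
      |(![![1, -fa, -fb], ![0, 1, 0], ![0, -e, 1]] : Fin 3 → V3) k j| ≤ M := by
    intro k j
    fin_cases k <;> fin_cases j <;> simp <;> assumption
  exact key k (π.symm i)

/-! ### sheared boxes -/

/-- **sheared box**: `X_b - μ X_a`, `N - lam X_a - nu (X_b - μ X_a)` and the same for the velocities -/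
structure NearS (c : Fin 11 → ℝ) (d : ℝ) (p : Fin 11 → ℝ) (K μ lam nu : ℝ) : Prop where
  z : |c 0| ≤ K * d ^ p 0
  ca : |c 5| ≤ K * d ^ p 5
  cb : |c 6 - μ * c 5| ≤ K * d ^ p 6
  P : |c 7 - lam * c 5 - nu * (c 6 - μ * c 5)| ≤ K * d ^ p 7
  xa : |c 8| ≤ K * d ^ p 8
  xb : |c 9 - μ * c 8| ≤ K * d ^ p 9
  N : |c 10 - lam * c 8 - nu * (c 9 - μ * c 8)| ≤ K * d ^ p 10

/-- sizes of the box in the true units -/
noncomputable def Sz (d HH WA WB WY : ℝ) (p : Fin 11 → ℝ) (k : Fin 3) : ℝ :=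
  ![WY * d ^ p 10, WA * d ^ p 8, WB * d ^ p 9] k / HH

/-- finite part: a sheared chart box is a tube -/
theorem nearS_tube {π : Equiv.Perm (Fin 3)} {c t : Ln4} {zx zy e fa fb ey fay fby HH WA WB WY d K :
    ℝ} {p : Fin 11 → ℝ} {μ l nu : ℝ} (hd : 0 < d) (hd1 : d < 1) (hH : 0 < HH) (hA : 0 < WA)
    (hB : 0 < WB) (hY : 0 < WY) (hK : 0 ≤ K) (w8 : p 8 ≤ p 0 + p 5) (w9 : p 9 ≤ p 0 + p 6)
    (w10 : p 10 ≤ p 0 + p 7)
    (h : NearS (coQ (scl HH WA WB WY (mkT (cLn π c) zx e fa fb))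
      (scl HH WA WB WY (mkT (cLn π t) zy ey fay fby))) d p K (μ * (WA / WB)) (l * (WA / WY))
      (nu * (WB / WY))) :
    |zy - zx| ≤ K * (d ^ p 0 / HH) ∧ ∀ k,
      |dt (frmQ π (e + μ) (fa + l - nu * (e + μ)) (fb + nu) k) (t.pos zx - c.pos zx)| ≤
        K * Sz d HH WA WB WY p k ∧
      |dt (frmQ π (e + μ) (fa + l - nu * (e + μ)) (fb + nu) k) (t.v - c.v)| * (d ^ p 0 / HH) ≤
        K * Sz d HH WA WB WY p k := by
  obtain ⟨k0, k5, k6, k7, k8, k9, k10⟩ := h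
  simp only [coQ_scl hH.ne' hA.ne' hB.ne' hY.ne'] at k0 k5 k6 k7 k8 k9 k10
  obtain ⟨u, hu⟩ : ∃ u : V3, u = t.pos zx - c.pos zx := ⟨_, rfl⟩
  obtain ⟨v, hv⟩ : ∃ v : V3, v = t.v - c.v := ⟨_, rfl⟩
  obtain ⟨x, hx⟩ : ∃ x, x = mkT (cLn π c) zx e fa fb := ⟨_, rfl⟩
  obtain ⟨z, hz⟩ : ∃ z, z = mkT (cLn π t) zy ey fay fby := ⟨_, rfl⟩
  rw [← hx, ← hz] at k0 k5 k6 k7 k8 k9 k10
  have c0 : coQ x z 0 = zy - zx := by
    rw [hx, hz]; simp only [coQ, mkT, Matrix.cons_val]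
  have c5 : coQ x z 5 = v (π 1) := by
    rw [hx, hz, hv]; simp only [coQ, mkT, cLn, Matrix.cons_val, Pi.sub_apply]
  have c6 : coQ x z 6 = v (π 2) - e * v (π 1) := by
    rw [hx, hz, hv]; simp only [coQ, mkT, cLn, Matrix.cons_val, Pi.sub_apply]
  have c7 : coQ x z 7 = v (π 0) - fa * v (π 1) - fb * v (π 2) := by
    rw [hx, hz, hv]; simp only [coQ, mkT, cLn, Matrix.cons_val, Pi.sub_apply, Fq4.vy]; ring
  have c8 : coQ x z 8 = u (π 1) := by
    rw [hx, hz, hu]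
    simp only [coQ, mkT, cLn, Matrix.cons_val, Pi.sub_apply, Fq4.pa, Ln4.pos]
  have c9 : coQ x z 9 = u (π 2) - e * u (π 1) := by
    rw [hx, hz, hu]
    simp only [coQ, mkT, cLn, Matrix.cons_val, Pi.sub_apply, Fq4.pa, Fq4.pb, Ln4.pos]
  have c10 : coQ x z 10 = u (π 0) - fa * u (π 1) - fb * u (π 2) := by
    rw [hx, hz, hu]
    simp only [coQ, mkT, cLn, Matrix.cons_val, Pi.sub_apply, Fq4.pa, Fq4.pb, Fq4.py, Ln4.pos]
    ring
  rw [c0] at k0
  rw [c5] at k5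
  rw [c5, c6] at k6
  rw [c5, c6, c7] at k7
  rw [c8] at k8
  rw [c8, c9] at k9
  rw [c8, c9, c10] at k10
  simp only [sfac, Matrix.cons_val] at k0 k5 k6 k7 k8 k9 k10
  rw [← hu, ← hv]
  clear c0 c5 c6 c7 c8 c9 c10 hx hz hu hv
  have dp : ∀ a : ℝ, 0 < d ^ a := fun a => dpos hd a
  -- transport of one bound
  have pos : ∀ {W T Z y : ℝ}, 0 < W → T = HH / W * Z → |T| ≤ K * d ^ y →
      |Z| ≤ K * (W * d ^ y / HH) := by
    intro W T Z y hW hT hb
    have e1 : Z = W / HH * T := by rw [hT]; field_simp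
    rw [e1, abs_mul, abs_of_pos (div_pos hW hH)]
    calc W / HH * |T| ≤ W / HH * (K * d ^ y) :=
          mul_le_mul_of_nonneg_left hb (div_pos hW hH).le
      _ = _ := by ring
  have vel : ∀ {W T Z y y' : ℝ}, 0 < W → T = 1 / W * Z → |T| ≤ K * d ^ y → y' ≤ p 0 + y →
      |Z| * (d ^ p 0 / HH) ≤ K * (W * d ^ y' / HH) := by
    intro W T Z y y' hW hT hb hy
    have e1 : Z = W * T := by rw [hT]; field_simp
    rw [e1, abs_mul, abs_of_pos hW]
    calc W * |T| * (d ^ p 0 / HH) ≤ W * (K * d ^ y) * (d ^ p 0 / HH) :=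
          mul_le_mul_of_nonneg_right (mul_le_mul_of_nonneg_left hb hW.le)
            (div_pos (dp _) hH).le
      _ = K * (W * d ^ (p 0 + y) / HH) := by rw [Real.rpow_add hd]; ring
      _ ≤ _ := by
          refine mul_le_mul_of_nonneg_left (div_le_div_of_nonneg_right
            (mul_le_mul_of_nonneg_left (dle hd hd1 hy) hW.le) hH.le) hK
  refine ⟨?_, fun k => ?_⟩
  · rw [abs_mul, abs_of_pos hH] at k0
    rw [← mul_div_assoc, le_div_iff₀ hH]
    linarith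
  · fin_cases k
    · show |dt (frmQ π _ _ _ 0) u| ≤ K * (WY * d ^ p 10 / HH) ∧
        |dt (frmQ π _ _ _ 0) v| * (d ^ p 0 / HH) ≤ K * (WY * d ^ p 10 / HH)
      rw [dt_frmQ0, dt_frmQ0]
      exact ⟨pos hY (by field_simp; ring) k10, vel hY (by field_simp; ring) k7 w10⟩
    · show |dt (frmQ π _ _ _ 1) u| ≤ K * (WA * d ^ p 8 / HH) ∧
        |dt (frmQ π _ _ _ 1) v| * (d ^ p 0 / HH) ≤ K * (WA * d ^ p 8 / HH)
      rw [dt_frmQ1, dt_frmQ1]
      exact ⟨pos hA rfl k8, vel hA rfl k5 w8⟩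
    · show |dt (frmQ π _ _ _ 2) u| ≤ K * (WB * d ^ p 9 / HH) ∧
        |dt (frmQ π _ _ _ 2) v| * (d ^ p 0 / HH) ≤ K * (WB * d ^ p 9 / HH)
      rw [dt_frmQ2, dt_frmQ2]
      exact ⟨pos hB (by field_simp; ring) k9, vel hB (by field_simp; ring) k6 w9⟩

theorem NearS.mono {c : Fin 11 → ℝ} {d : ℝ} {p : Fin 11 → ℝ} {K K' μ lam nu : ℝ}
    (h : NearS c d p K μ lam nu) (hd : 0 < d) (hK : K ≤ K') : NearS c d p K' μ lam nu := by
  have key : ∀ {x y : ℝ}, |x| ≤ K * d ^ y → |x| ≤ K' * d ^ y := fun h =>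
    h.trans (mul_le_mul_of_nonneg_right hK (dpos hd _).le)
  exact ⟨key h.z, key h.ca, key h.cb, key h.P, key h.xa, key h.xb, key h.N⟩

/-- true sizes of the chart box with exponents `p`: `0` thickness, `1` wide, `2` narrow -/
noncomputable def SQ (B : Base) (lev : ℕ → ℚ → ℕ) (w : Fin 3 → ℕ → ℚ → ℝ) (w0 : ℝ)
    (p : Fin 11 → ℝ) (k : Fin 3) (n : ℕ) : ℝ :=
  ![uY B lev w w0 n * B.d n ^ p 10, uA B lev w w0 n * B.d n ^ p 8,
    uB B lev w w0 n * B.d n ^ p 9] k / uH B lev w0 n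

section

variable {B : Base} {I : ℕ → Finset (ℕ × ℝ)} {lev : ℕ → ℚ → ℕ}
    {A : ℕ → ℝ} {g s : ℝ} {τ : Fin 3 → ℝ → ℝ} {f : ℕ → ℚ → ℕ → ℤ → ℕ} {b : ℕ → ℚ → ℕ → K4.Plk4}
    {vm : ℕ → ℚ → ℝ} {w : Fin 3 → ℕ → ℚ → ℝ} {L : ℕ → ℕ → Ln4} {r0 : ℕ → ℝ}
    {wr cr : Fin 3 → ℕ → ℝ} {q : Fin 3 → ℝ}
    {π : Equiv.Perm (Fin 3)} {E Fa Fb : ℕ → ℕ × ℝ → ℝ} {w0 R : ℝ} {p : Fin 11 → ℝ}

theorem SQ_pos {n : ℕ} (h0 : 0 < w 0 n 0) (h1 : 0 < w 1 n 0) (h2 : 0 < w 2 n 0) (k : Fin 3) :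
    0 < SQ B lev w w0 p k n := by
  have a := uA_pos (B := B) (lev := lev) (w0 := w0) h1
  have b := uB_pos (B := B) (lev := lev) (w0 := w0) h2
  have y := uY_pos (B := B) (lev := lev) (w0 := w0) h0
  have H := uH_pos (B := B) (lev := lev) (w0 := w0) n
  have dp := fun a => Dp76.dpow_pos B n a
  unfold SQ
  refine div_pos ?_ H
  fin_cases k
  · exact mul_pos y (dp _)
  · exact mul_pos a (dp _)
  · exact mul_pos b (dp _)

/-- the length of the box -/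
theorem len_eq (n : ℕ) : B.d n ^ (p 0 - w0) * rho (lev n 0) = B.d n ^ p 0 / uH B lev w0 n := by
  unfold uH rho
  rw [sub_eq_add_neg, Dp76.dpow_add, Real.rpow_neg (B.pos n).le]
  have := (Dp76.dpow_pos B n w0).ne'
  field_simp

/-- the penalised size of the box -/
theorem tval_SQ {n : ℕ} (h0 : 0 < w 0 n 0) (h1 : 0 < w 1 n 0) (h2 : 0 < w 2 n 0)
    (hvm : vm n 0 = capQ q (rho (lev n 0)) (fun k => w k n 0)) :
    tval q (B.d n ^ (p 0 - w0) * rho (lev n 0)) (fun k => SQ B lev w w0 p k n) =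
      vm n 0 * B.d n ^ (-(9 * w0) - (3 * w0 * q 0 + w0 * q 1 + 2 * w0 * q 2) + Dp q p) := by
  have hd := B.pos n
  have hρ : 0 < rho (lev n 0) := rho_pos _
  have a := uA_pos (B := B) (lev := lev) (w0 := w0) h1
  have b := uB_pos (B := B) (lev := lev) (w0 := w0) h2
  have y := uY_pos (B := B) (lev := lev) (w0 := w0) h0
  have H := uH_pos (B := B) (lev := lev) (w0 := w0) n
  have dpp := fun a => Dp76.dpow_pos B n a
  rw [len_eq]
  -- first: in terms of `Vn`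
  have key : ∀ (k : Fin 3) (W x : ℝ), 0 < W →
      (W * B.d n ^ x / uH B lev w0 n / (B.d n ^ p 0 / uH B lev w0 n)) ^ q k =
        W ^ q k * B.d n ^ (q k * (x - p 0)) := by
    intro k W x hW
    have e1 : W * B.d n ^ x / uH B lev w0 n / (B.d n ^ p 0 / uH B lev w0 n) =
        W * B.d n ^ (x - p 0) := by
      rw [sub_eq_add_neg x, Dp76.dpow_add, Real.rpow_neg hd.le]
      have := (dpp (p 0)).ne'
      field_simp
    rw [e1, Real.mul_rpow hW.le (dpp _).le, ← Real.rpow_mul hd.le, mul_comm (q k)]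
  have eV : tval q (B.d n ^ p 0 / uH B lev w0 n) (fun k => SQ B lev w w0 p k n) =
      Vn q (uH B lev w0 n) (uA B lev w w0 n) (uB B lev w w0 n) (uY B lev w w0 n) *
        B.d n ^ Dp q p := by
    unfold tval SQ
    simp only [Matrix.cons_val]
    rw [key 0 _ _ y, key 1 _ _ a, key 2 _ _ b]
    have e2 : B.d n ^ Dp q p = B.d n ^ p 10 * B.d n ^ p 9 * B.d n ^ p 8 *
        (B.d n ^ (q 0 * (p 10 - p 0)) * B.d n ^ (q 1 * (p 8 - p 0)) *
          B.d n ^ (q 2 * (p 9 - p 0))) := by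
      unfold Dp
      rw [Dp76.dpow_add, Dp76.dpow_add, Dp76.dpow_add, Dp76.dpow_add, Dp76.dpow_add]
    rw [e2]
    unfold Vn
    field_simp
  rw [eV, Dp76.dpow_add, ← mul_assoc]
  congr 1
  have hr1 : ∀ (k : Fin 3) (c : ℝ), 0 < w k n 0 →
      (w k n 0 / rho (lev n 0) * B.d n ^ c) ^ q k =
        (w k n 0 / rho (lev n 0)) ^ q k * B.d n ^ (c * q k) := by
    intro k c hk
    rw [Real.mul_rpow (div_pos hk hρ).le (Dp76.dpow_pos B n _).le, ← Real.rpow_mul hd.le]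
  rw [hvm]
  unfold Vn capQ uA uB uY uH
  rw [hr1 0 _ h0, hr1 1 _ h1, hr1 2 _ h2]
  have e1 : B.d n ^ (-(9 * w0) - (3 * w0 * q 0 + w0 * q 1 + 2 * w0 * q 2)) =
      B.d n ^ (-w0) * B.d n ^ (-(2 * w0)) * B.d n ^ (-(3 * w0)) *
      (B.d n ^ (-w0) * B.d n ^ (-w0) * B.d n ^ (-w0)) *
      (B.d n ^ (-(3 * w0) * q 0) * B.d n ^ (-w0 * q 1) * B.d n ^ (-(2 * w0) * q 2)) := by
    rw [← Dp76.dpow_add, ← Dp76.dpow_add, ← Dp76.dpow_add, ← Dp76.dpow_add, ← Dp76.dpow_add,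
      ← Dp76.dpow_add, ← Dp76.dpow_add, ← Dp76.dpow_add]
    congr 1; ring
  have e2 : (B.d n ^ w0)⁻¹ = B.d n ^ (-w0) := (Real.rpow_neg hd.le _).symm
  have e3 : (2 : ℝ) ^ lev n 0 = (rho (lev n 0))⁻¹ := by unfold rho; simp
  rw [e1, e3]
  have e4 : (B.d n ^ w0 * (rho (lev n 0))⁻¹) ^ 3 = (B.d n ^ w0) ^ 3 / rho (lev n 0) ^ 3 := by
    field_simp
  rw [e4, ← e2]
  have hw0' := (Dp76.dpow_pos B n w0).ne'
  field_simp

theorem pow4_le {M : ℝ} (h : 4 ≤ M) : M ≤ M ^ 4 ∧ 1 + M ≤ M ^ 4 ∧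
    1 + M + M * (1 + M) ≤ M ^ 4 := by
  have h1 : 4 * M ≤ M ^ 2 := by nlinarith
  have h2 : 16 * M ^ 2 ≤ M ^ 4 := by
    have : 16 ≤ M ^ 2 := by nlinarith
    nlinarith [sq_nonneg M]
  refine ⟨by linarith, by linarith, ?_⟩
  have e : 1 + M + M * (1 + M) = 1 + 2 * M + M ^ 2 := by ring
  rw [e]
  linarith

/-- rank factor -/
noncomputable def rnk (q : Fin 3 → ℝ) (S : Fin 3 → ℝ) (σ : Equiv.Perm (Fin 3)) : ℝ :=
  ∏ k, (S (σ k) / S k) ^ q k

theorem rnk_one {q : Fin 3 → ℝ} {S : Fin 3 → ℝ} (hS : ∀ k, 0 < S k) : rnk q S 1 = 1 := by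
  unfold rnk
  refine Finset.prod_eq_one fun k _ => ?_
  rw [Equiv.Perm.one_apply, div_self (hS k).ne', Real.one_rpow]

theorem tval_perm {ρ : ℝ} (hρ : 0 < ρ) {S : Fin 3 → ℝ} (hS : ∀ k, 0 < S k)
    (σ : Equiv.Perm (Fin 3)) : tval q ρ (fun k => S (σ k)) = tval q ρ S * rnk q S σ := by
  have h1 : S (σ 0) * S (σ 2) * S (σ 1) = S 0 * S 2 * S 1 := by
    have := Equiv.prod_comp σ S
    simp only [Fin.prod_univ_three] at this
    linarith
  have h2 : ∀ k, (S (σ k) / ρ) ^ q k = (S k / ρ) ^ q k * (S (σ k) / S k) ^ q k := by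
    intro k
    rw [← Real.mul_rpow (div_pos (hS _) hρ).le (div_pos (hS _) (hS _)).le]
    congr 1
    have := (hS k).ne'
    field_simp
  unfold tval rnk
  rw [h1, h2 0, h2 1, h2 2, Fin.prod_univ_three]
  ring

open Classical in
/-- **D-max for sheared chart boxes, the three sizes in any order.** -/
theorem gD_any (hM : MkA B I (geo4 L r0 wr cr q) lev A (fun v => g * v) (fun v => s * v) τ f b vm w)
    (hq : ∀ j, 0 ≤ q j)
    (hE : ∀ n, ∀ x ∈ I n, |E n x| ≤ 1) (hFa : ∀ n, ∀ x ∈ I n, |Fa n x| ≤ 1)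
    (hFb : ∀ n, ∀ x ∈ I n, |Fb n x| ≤ 1) (σ : Equiv.Perm (Fin 3))
    (w8 : p 8 ≤ p 0 + p 5) (w9 : p 9 ≤ p 0 + p 6) (w10 : p 10 ≤ p 0 + p 7)
    (hp0 : w0 ≤ p 0) (hp1 : p 0 ≤ w0 + 1)
    (hX : TubeOk B r0 wr cr lev (p 0 - w0) (fun k => SQ B lev w w0 p (σ k))) {ε : ℝ} (hε : 0 < ε) :
    ∃ δ : ℝ, 0 < δ ∧ ∀ᶠ n in (U : Filter ℕ), ∀ x ∈ I n, ∀ μ lam nu : ℝ,
      |μ| * uB B lev w w0 n ≤ B.d n ^ (-δ) * uA B lev w w0 n →
      |lam| * uY B lev w w0 n ≤ B.d n ^ (-δ) * uA B lev w w0 n →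
      |nu| * uY B lev w w0 n ≤ B.d n ^ (-δ) * uB B lev w w0 n →
      (((I n).filter fun y => NearS (couQ B lev w w0 (incQ π L E Fa Fb) n x y) (B.d n) p
        (B.d n ^ (-δ)) μ lam nu).card : ℝ) ≤
      N0Q A vm n * B.d n ^ (-(DQ g s q w0 p + ε)) *
        rnk q (fun k => SQ B lev w w0 p k n) σ := by
  obtain ⟨δ, hδ, hdm⟩ := dmax_tube hM (flatGeo_geo4 L r0 wr cr q) hq (v := p 0 - w0) (by linarith)
    (by linarith) hX hε
  have hδ4 : 0 < δ / 4 := by linarith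
  refine ⟨δ / 4, hδ4, ?_⟩
  filter_upwards [hdm, hM.wpos 0 0 le_rfl zero_le_one, hM.wpos 1 0 le_rfl zero_le_one,
    hM.wpos 2 0 le_rfl zero_le_one, vm_eq hM le_rfl zero_le_one,
    ev_const B (c := 4) (by norm_num) hδ4] with n hn h0 h1 h2 hvm h4 x hx μ lam nu hμ hlam hnu
  have hd := B.pos n
  have hd1 := B.lt n
  have dpp := fun a => Dp76.dpow_pos B n a
  have a := uA_pos (B := B) (lev := lev) (w0 := w0) h1
  have b := uB_pos (B := B) (lev := lev) (w0 := w0) h2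
  have y := uY_pos (B := B) (lev := lev) (w0 := w0) h0
  have H := uH_pos (B := B) (lev := lev) (w0 := w0) n
  have hρ : 0 < rho (lev n 0) := rho_pos _
  have c4 := const_le h4
  obtain ⟨M, hM'⟩ : ∃ M, M = B.d n ^ (-(δ / 4)) := ⟨_, rfl⟩
  rw [← hM'] at c4 hμ hlam hnu
  have hM4 : M ^ 4 = B.d n ^ (-δ) := by
    rw [hM', ← Real.rpow_natCast, ← Real.rpow_mul hd.le]
    congr 1; push_cast; ring
  have hM0 : 0 < M := by linarith
  obtain ⟨hM1, h1M, h2M⟩ := pow4_le c4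
  -- the true shears
  obtain ⟨μ', hμ'⟩ : ∃ μ', μ' = μ * (uB B lev w w0 n / uA B lev w w0 n) := ⟨_, rfl⟩
  obtain ⟨l', hl'⟩ : ∃ l', l' = lam * (uY B lev w w0 n / uA B lev w w0 n) := ⟨_, rfl⟩
  obtain ⟨n', hn'⟩ : ∃ n', n' = nu * (uY B lev w w0 n / uB B lev w w0 n) := ⟨_, rfl⟩
  have bμ : |μ'| ≤ M := by
    rw [hμ', abs_mul, abs_of_pos (div_pos b a), ← mul_div_assoc, div_le_iff₀ a]
    exact hμ
  have bl : |l'| ≤ M := by
    rw [hl', abs_mul, abs_of_pos (div_pos y a), ← mul_div_assoc, div_le_iff₀ a]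
    exact hlam
  have bn : |n'| ≤ M := by
    rw [hn', abs_mul, abs_of_pos (div_pos y b), ← mul_div_assoc, div_le_iff₀ b]
    exact hnu
  obtain ⟨e', he'⟩ : ∃ e', e' = E n x + μ' := ⟨_, rfl⟩
  obtain ⟨fb', hfb'⟩ : ∃ fb', fb' = Fb n x + n' := ⟨_, rfl⟩
  obtain ⟨fa', hfa'⟩ : ∃ fa', fa' = Fa n x + l' - n' * e' := ⟨_, rfl⟩
  have be : |e'| ≤ 1 + M := by rw [he']; exact aux_a2 (hE n x hx) bμ
  have bfb : |fb'| ≤ 1 + M := by rw [hfb']; exact aux_a2 (hFb n x hx) bn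
  have bfa : |fa'| ≤ 1 + M + M * (1 + M) := by
    rw [hfa']; exact aux_s2 (aux_a2 (hFa n x hx) bl) (aux_m2 bn be)
  obtain ⟨F, hF⟩ : ∃ F, F = frmQ π e' fa' fb' := ⟨_, rfl⟩
  have hFle : ∀ k i, |F k i| ≤ B.d n ^ (-δ) := by
    intro k i
    rw [hF, ← hM4]
    exact frmQ_le (by linarith) (be.trans h1M) (bfa.trans h2M) (bfb.trans h1M) k i
  have hFdet : 1 ≤ B.d n ^ (-δ) * |det3 fun k => F (σ k)| := by
    rw [abs_det3_row, hF, frmQ_det, mul_one, ← hM4]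
    linarith
  have hcount := hn (L n x.1) x.2 (fun k => F (σ k)) _
    (Finset.filter_subset (fun y => NearS (couQ B lev w w0 (incQ π L E Fa Fb) n x y) (B.d n) p
      (B.d n ^ (-(δ / 4))) μ lam nu) (I n)) (fun k i => hFle (σ k) i) hFdet ?_
  · refine hcount.trans (le_of_eq ?_)
    rw [tval_perm (mul_pos (dpp _) hρ) (fun k => SQ_pos h0 h1 h2 k) σ, tval_SQ h0 h1 h2 hvm]
    have e5 : A n * (vm n 0 * B.d n ^ (-(9 * w0) - (3 * w0 * q 0 + w0 * q 1 + 2 * w0 * q 2) +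
        Dp q p) * rnk q (fun k => SQ B lev w w0 p k n) σ) *
        B.d n ^ (-(g * (p 0 - w0) + (1 - s) * (1 - (p 0 - w0)) + ε)) =
        A n * vm n 0 * (B.d n ^ (-(9 * w0) - (3 * w0 * q 0 + w0 * q 1 + 2 * w0 * q 2) +
        Dp q p) * B.d n ^ (-(g * (p 0 - w0) + (1 - s) * (1 - (p 0 - w0)) + ε))) *
        rnk q (fun k => SQ B lev w w0 p k n) σ := by ring
    rw [e5, ← Dp76.dpow_add]
    unfold N0Q
    congr 3
    unfold DQ Dp
    ring
  · intro z hz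
    rw [mem_filter] at hz
    obtain ⟨hzI, hz⟩ := hz
    have hS : ∀ k, SQ B lev w w0 p k n = Sz (B.d n) (uH B lev w0 n) (uA B lev w w0 n)
        (uB B lev w w0 n) (uY B lev w w0 n) p k := fun k => rfl
    have hz' : NearS (couQ B lev w w0 (incQ π L E Fa Fb) n x z) (B.d n) p (B.d n ^ (-δ))
        μ lam nu := by
      refine hz.mono hd ?_
      rw [← hM4, ← hM']
      exact hM1
    have e1 : μ = μ' * (uA B lev w w0 n / uB B lev w w0 n) := by rw [hμ']; field_simp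
    have e2 : lam = l' * (uA B lev w w0 n / uY B lev w w0 n) := by rw [hl']; field_simp
    have e3 : nu = n' * (uB B lev w w0 n / uY B lev w w0 n) := by rw [hn']; field_simp
    rw [e1, e2, e3] at hz'
    obtain ⟨g1, g2⟩ := nearS_tube hd hd1 H a b y (dpp _).le w8 w9 w10 hz'
    refine ⟨?_, fun k => ?_⟩
    · rw [len_eq]; exact g1
    · rw [len_eq, hF, hfa', he', hfb']
      exact g2 (σ k)

end

end Crest.Agent.R136.GeoQ186
end

-- ▼ part R136/GD9_186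
section

/-!
# R136: D-max for sheared chart boxes, exponents (helper186)

* `ord_W0` : the order of the sizes from the exponents of the level-`0` mark;
* `tubeOk_ord` : `TubeOk` of the chart box from `Ord`;
* `gD_shear` : **D-max for a sheared chart box** (strips, tilted sheets), usual order of the sizes.
-/

set_option autoImplicit false
set_option linter.unusedVariables false

open Finset Filter Topology

namespace Crest.Agent.R136.GeoQ186

open Crest.Agent.R138.Ex926 (Base U)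
open Crest.Agent.R138.Mk163 (zc zl rho alive)
open Crest.Agent.R138.MkRef627 (lc kc)
open Crest.Agent.R138
open Crest.Agent.R136.MkA627
open Crest.Agent.R136.Net191
open Crest.Agent.R136.NetQ186
open Crest.Agent.R136.Sh605
open Crest.Agent.R136.Top484 (geo4 Rng)
open Crest.Agent.R136.PqG464 (pow_lev zc_near ev_const)
open Crest.Agent.R136.Wq638

section

variable {B : Base} {lev : ℕ → ℚ → ℕ} {w : Fin 3 → ℕ → ℚ → ℝ} {r0 : ℕ → ℝ}
  {wr cr : Fin 3 → ℕ → ℝ} {w0 : ℝ} {p : Fin 11 → ℝ}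

/-- the order of the sizes; no wall is used -/
theorem ord_W0 {cab cby cr cc : ℝ} (h : W0 B r0 lev w cab cby cr cc)
    (h1 : p 8 + w0 ≤ p 9 + cab) (h2 : p 9 + w0 ≤ p 10 + cby) (h3 : p 10 ≤ cr + 4 * w0)
    (h4 : p 0 + w0 < p 8 + cc) :
    Ord B r0 (uH B lev w0) (uA B lev w w0) (uB B lev w w0) (uY B lev w w0) p := by
  -- `mem_PDQ` for a legal vector with the same entries `0, 8, 9, 10`
  obtain ⟨T, hT⟩ : ∃ T : ℝ, T = |p 0| + |p 8| + |p 9| + |p 10| + |w0| + 1 := ⟨_, rfl⟩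
  have dpp := fun n a => Dp76.dpow_pos B n a
  refine ⟨fun ε hε => ?_, fun ε hε => ?_, fun ε hε => ?_, ?_⟩
  · filter_upwards [h.ab ε hε, h.pos 1] with n hn h0
    have hρ : 0 < rho (lev n 0) := rho_pos _
    have hc : 0 < B.d n ^ (p 9 + -(2 * w0)) / rho (lev n 0) := div_pos (dpp n _) hρ
    calc uB B lev w w0 n * B.d n ^ p 9 =
          w 2 n 0 * (B.d n ^ (p 9 + -(2 * w0)) / rho (lev n 0)) := by
          unfold uB
          rw [Dp76.dpow_add]; ring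
      _ ≤ (B.d n ^ (cab - ε) * w 1 n 0) * (B.d n ^ (p 9 + -(2 * w0)) / rho (lev n 0)) :=
          mul_le_mul_of_nonneg_right hn hc.le
      _ = B.d n ^ (cab - ε + (p 9 + -(2 * w0))) * (w 1 n 0 / rho (lev n 0)) := by
          rw [Dp76.dpow_add B n (cab - ε)]; ring
      _ ≤ B.d n ^ (-ε + (-w0 + p 8)) * (w 1 n 0 / rho (lev n 0)) :=
          mul_le_mul_of_nonneg_right (Dp76.dpow_le B n (by linarith)) (div_pos h0 hρ).le
      _ = _ := by
          unfold uA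
          rw [Dp76.dpow_add, Dp76.dpow_add]; ring
  · filter_upwards [h.by' ε hε, h.pos 2] with n hn h0
    have hρ : 0 < rho (lev n 0) := rho_pos _
    have hc : 0 < B.d n ^ (p 10 + -(3 * w0)) / rho (lev n 0) := div_pos (dpp n _) hρ
    calc uY B lev w w0 n * B.d n ^ p 10 =
          w 0 n 0 * (B.d n ^ (p 10 + -(3 * w0)) / rho (lev n 0)) := by
          unfold uY
          rw [Dp76.dpow_add]; ring
      _ ≤ (B.d n ^ (cby - ε) * w 2 n 0) * (B.d n ^ (p 10 + -(3 * w0)) / rho (lev n 0)) :=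
          mul_le_mul_of_nonneg_right hn hc.le
      _ = B.d n ^ (cby - ε + (p 10 + -(3 * w0))) * (w 2 n 0 / rho (lev n 0)) := by
          rw [Dp76.dpow_add B n (cby - ε)]; ring
      _ ≤ B.d n ^ (-ε + (-(2 * w0) + p 9)) * (w 2 n 0 / rho (lev n 0)) :=
          mul_le_mul_of_nonneg_right (Dp76.dpow_le B n (by linarith)) (div_pos h0 hρ).le
      _ = _ := by
          unfold uB
          rw [Dp76.dpow_add, Dp76.dpow_add]; ring
  · filter_upwards [h.res ε hε, h.pos 0] with n hn h0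
    refine hn.trans ?_
    have hρ : rho (lev n 0) = ((2 : ℝ) ^ (lev n 0))⁻¹ := by unfold rho; rw [one_div]
    have e1 : B.d n ^ (-ε) * (uY B lev w w0 n / uH B lev w0 n * B.d n ^ p 10) =
        B.d n ^ (-ε + (-(3 * w0) + (-w0 + p 10))) * w 0 n 0 := by
      unfold uY uH
      have h5 : B.d n ^ (-w0) = (B.d n ^ w0)⁻¹ := Real.rpow_neg (B.pos n).le _
      rw [Dp76.dpow_add, Dp76.dpow_add, Dp76.dpow_add, h5, hρ]
      have h6 := (dpp n w0).ne'
      have h7 : ((2 : ℝ) ^ (lev n 0)) ≠ 0 := by positivity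
      field_simp
    rw [e1]
    exact mul_le_mul_of_nonneg_right (Dp76.dpow_le B n (by linarith)) h0.le
  · obtain ⟨δ, hδ⟩ : ∃ δ : ℝ, δ = (p 8 + cc - (p 0 + w0)) / 2 := ⟨_, rfl⟩
    have hδ0 : 0 < δ := by rw [hδ]; linarith
    refine ⟨δ, hδ0, ?_⟩
    filter_upwards [h.cap δ hδ0] with n hn
    have hρ : 0 < rho (lev n 0) := rho_pos _
    have h5 : w 1 n 0 / rho (lev n 0) ≤ B.d n ^ (cc - δ) := by
      rwa [div_le_iff₀ hρ]
    calc uA B lev w w0 n * B.d n ^ (p 8 - p 0 - δ) =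
          (w 1 n 0 / rho (lev n 0)) * B.d n ^ (-w0 + (p 8 - p 0 - δ)) := by
          unfold uA
          rw [Dp76.dpow_add]; ring
      _ ≤ B.d n ^ (cc - δ) * B.d n ^ (-w0 + (p 8 - p 0 - δ)) :=
          mul_le_mul_of_nonneg_right h5 (dpp n _).le
      _ = B.d n ^ (cc - δ + (-w0 + (p 8 - p 0 - δ))) := (Dp76.dpow_add _ _ _ _).symm
      _ ≤ B.d n ^ (0 : ℝ) := Dp76.dpow_le B n (by rw [hδ]; linarith)
      _ = 1 := Real.rpow_zero _

/-- explicit sizes -/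
theorem SQ_eq1 (n : ℕ) : SQ B lev w w0 p 1 n = w 1 n 0 * B.d n ^ (-w0 + p 8 - w0) := by
  have hd := B.pos n
  have hn : B.d n ^ (-w0) = (B.d n ^ w0)⁻¹ := Real.rpow_neg hd.le _
  have h5 := (Dp76.dpow_pos B n w0).ne'
  show w 1 n 0 / rho (lev n 0) * B.d n ^ (-w0) * B.d n ^ p 8 / uH B lev w0 n = _
  rw [sub_eq_add_neg, Dp76.dpow_add, Dp76.dpow_add, hn]
  unfold uH rho
  field_simp

/-- explicit sizes -/
theorem SQ_eq2 (n : ℕ) : SQ B lev w w0 p 2 n = w 2 n 0 * B.d n ^ (-(2 * w0) + p 9 - w0) := by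
  have hd := B.pos n
  have hn : B.d n ^ (-w0) = (B.d n ^ w0)⁻¹ := Real.rpow_neg hd.le _
  have h5 := (Dp76.dpow_pos B n w0).ne'
  show w 2 n 0 / rho (lev n 0) * B.d n ^ (-(2 * w0)) * B.d n ^ p 9 / uH B lev w0 n = _
  rw [sub_eq_add_neg, Dp76.dpow_add, Dp76.dpow_add, hn]
  unfold uH rho
  field_simp

/-- explicit sizes -/
theorem SQ_eq0 (n : ℕ) : SQ B lev w w0 p 0 n = w 0 n 0 * B.d n ^ (-(3 * w0) + p 10 - w0) := by
  have hd := B.pos n
  have hn : B.d n ^ (-w0) = (B.d n ^ w0)⁻¹ := Real.rpow_neg hd.le _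
  have h5 := (Dp76.dpow_pos B n w0).ne'
  show w 0 n 0 / rho (lev n 0) * B.d n ^ (-(3 * w0)) * B.d n ^ p 10 / uH B lev w0 n = _
  rw [sub_eq_add_neg, Dp76.dpow_add, Dp76.dpow_add, hn]
  unfold uH rho
  field_simp

/-- sizes against the range -/
theorem rng_SQ (hwr : Rng B wr cr w) (k : Fin 3) (C : ℝ) :
    ∀ᶠ n in (U : Filter ℕ), wr k n ≤ B.d n ^ C * SQ B lev w w0 p k n ∧
      SQ B lev w w0 p k n ≤ B.d n ^ C * cr k n := by
  obtain ⟨y, hy⟩ : ∃ y : ℝ, ∀ n, SQ B lev w w0 p k n = w k n 0 * B.d n ^ y := by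
    fin_cases k
    · exact ⟨_, SQ_eq0⟩
    · exact ⟨_, SQ_eq1⟩
    · exact ⟨_, SQ_eq2⟩
  filter_upwards [rng_mul hwr k (C + y), hwr (C - y) k 0 le_rfl zero_le_one] with n h h'
  rw [hy]
  refine ⟨h.1.trans (le_of_eq ?_), ?_⟩
  · rw [Dp76.dpow_add]; ring
  · have h2 := mul_le_mul_of_nonneg_right h'.2 (Dp76.dpow_pos B n y).le
    refine h2.trans (le_of_eq ?_)
    rw [mul_right_comm, ← Dp76.dpow_add, sub_add_cancel]

/-- the narrow resolution against the size `1`, the size `2` against the wide end -/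
theorem rng_SQ21 {cab cby cc cr' : ℝ} (h : W0 B r0 lev w cab cby cr' cc)
    (hwr : Rng B wr cr w) (C : ℝ) : ∀ᶠ n in (U : Filter ℕ),
      wr 2 n ≤ B.d n ^ C * SQ B lev w w0 p 1 n ∧ SQ B lev w w0 p 2 n ≤ B.d n ^ C * cr 1 n := by
  filter_upwards [hwr (C + (-w0 + p 8 - w0) - (cab - 1)) 2 0 le_rfl zero_le_one,
    hwr (C - (-(2 * w0) + p 9 - w0) - (cab - 1)) 1 0 le_rfl zero_le_one,
    h.ab 1 one_pos] with n h1 h1' h2
  have dpp := fun a => Dp76.dpow_pos B n a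
  constructor
  · have h3 := mul_le_mul_of_nonneg_left h2 (dpp (C + (-w0 + p 8 - w0) - (cab - 1))).le
    refine (h1.1.trans h3).trans (le_of_eq ?_)
    rw [SQ_eq1, ← mul_assoc, ← Dp76.dpow_add,
      show C + (-w0 + p 8 - w0) - (cab - 1) + (cab - 1) = C + (-w0 + p 8 - w0) by ring,
      Dp76.dpow_add B n C]
    ring
  · rw [SQ_eq2]
    have h3 := mul_le_mul_of_nonneg_right h2 (dpp (-(2 * w0) + p 9 - w0)).le
    have h4 := mul_le_mul_of_nonneg_left h1'.2 (dpp (cab - 1)).le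
    have h5 := mul_le_mul_of_nonneg_right h4 (dpp (-(2 * w0) + p 9 - w0)).le
    refine h3.trans (h5.trans (le_of_eq ?_))
    rw [← mul_assoc, ← Dp76.dpow_add, mul_right_comm, ← Dp76.dpow_add]
    congr 2
    ring

/-- `TubeOk` from `Ord` -/
theorem tubeOk_ord (hwr : Rng B wr cr w) (hpos : ∀ j, ∀ᶠ n in (U : Filter ℕ), 0 < w j n 0)
    (hO : Ord B r0 (uH B lev w0) (uA B lev w w0) (uB B lev w w0) (uY B lev w w0) p) :
    TubeOk B r0 wr cr lev (p 0 - w0)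
      (fun k => SQ B lev w w0 p ((1 : Equiv.Perm (Fin 3)) k)) where
  rn k C := rng_SQ hwr k C
  pos k := by
    filter_upwards [hpos 0, hpos 1, hpos 2] with n h0 h1 h2
    exact SQ_pos h0 h1 h2 _
  o02 ε hε := by
    filter_upwards [hO.by' ε hε] with n hn
    have H := uH_pos (B := B) (lev := lev) (w0 := w0) n
    show uY B lev w w0 n * B.d n ^ p 10 / uH B lev w0 n ≤
      B.d n ^ (-ε) * (uB B lev w w0 n * B.d n ^ p 9 / uH B lev w0 n)
    rw [← mul_div_assoc]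
    exact div_le_div_of_nonneg_right hn H.le
  o21 ε hε := by
    filter_upwards [hO.ab ε hε] with n hn
    have H := uH_pos (B := B) (lev := lev) (w0 := w0) n
    show uB B lev w w0 n * B.d n ^ p 9 / uH B lev w0 n ≤
      B.d n ^ (-ε) * (uA B lev w w0 n * B.d n ^ p 8 / uH B lev w0 n)
    rw [← mul_div_assoc]
    exact div_le_div_of_nonneg_right hn H.le
  res ε hε := by
    filter_upwards [hO.res ε hε] with n hn
    show r0 n ≤ B.d n ^ (-ε) * (uY B lev w w0 n * B.d n ^ p 10 / uH B lev w0 n)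
    refine hn.trans (le_of_eq ?_)
    ring
  cap := by
    obtain ⟨δ, hδ, h⟩ := hO.cap
    refine ⟨δ, hδ, ?_⟩
    filter_upwards [h] with n hn
    have H := uH_pos (B := B) (lev := lev) (w0 := w0) n
    have hd := Dp76.dpow_pos B n
    show uA B lev w w0 n * B.d n ^ p 8 / uH B lev w0 n ≤
      B.d n ^ (p 0 - w0 + δ) * rho (lev n 0)
    have e1 : B.d n ^ (p 0 - w0 + δ) * rho (lev n 0) = B.d n ^ (p 0 + δ) / uH B lev w0 n := by
      rw [show p 0 - w0 + δ = (p 0 - w0) + δ by ring, Dp76.dpow_add,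
        mul_right_comm, len_eq, Dp76.dpow_add]
      ring
    rw [e1]
    refine div_le_div_of_nonneg_right ?_ H.le
    have h2 := mul_le_mul_of_nonneg_right hn (hd (p 0 + δ)).le
    rw [one_mul, mul_assoc, ← Dp76.dpow_add, show p 8 - p 0 - δ + (p 0 + δ) = p 8 by ring] at h2
    exact h2

end

section

variable {B : Base} {I : ℕ → Finset (ℕ × ℝ)} {lev : ℕ → ℚ → ℕ}
    {A : ℕ → ℝ} {g s : ℝ} {τ : Fin 3 → ℝ → ℝ} {f : ℕ → ℚ → ℕ → ℤ → ℕ} {b : ℕ → ℚ → ℕ → K4.Plk4}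
    {vm : ℕ → ℚ → ℝ} {w : Fin 3 → ℕ → ℚ → ℝ} {L : ℕ → ℕ → Ln4} {r0 : ℕ → ℝ}
    {wr cr : Fin 3 → ℕ → ℝ} {q : Fin 3 → ℝ} {π : Equiv.Perm (Fin 3)} {E Fa Fb : ℕ → ℕ × ℝ → ℝ} {w0 R : ℝ} {p : Fin 11 → ℝ}


end

end Crest.Agent.R136.GeoQ186
end

-- ▼ part R136/GD10_186

/-!
# R136: D-max for chart boxes, final forms (helper186)

* `near_shear` : `Near` is a sheared box without shear;
* `gD_near` : D-max of a chart box, three walls and `Ord` only;
* `gD_perm` : the sizes in any (given) order;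
* `gD_ab` : **no order between the two in-plane sizes**, exponent
  `DQ + (q 1 - q 2) * max 0 (p 8 + w0 - cab - p 9)`; `gD_ab_shear` : the same with shears.
-/

set_option autoImplicit false
set_option linter.unusedVariables false

open Finset Filter Topology

namespace Crest.Agent.R136.GeoQ186

open Crest.Agent.R138.Ex926 (Base U)
open Crest.Agent.R138.Mk163 (zc zl rho alive)
open Crest.Agent.R138.MkRef627 (lc kc)
open Crest.Agent.R138
open Crest.Agent.R136.MkA627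
open Crest.Agent.R136.Net191
open Crest.Agent.R136.NetQ186
open Crest.Agent.R136.Sh605
open Crest.Agent.R136.Top484 (geo4 Rng)
open Crest.Agent.R136.PqG464 (pow_lev zc_near ev_const)
open Crest.Agent.R136.Wq638

theorem near_shear {co : ℕ × ℝ → ℕ × ℝ → Fin 11 → ℝ} {d : ℝ} {p : Fin 11 → ℝ} {K : ℝ}
    {x y : ℕ × ℝ} (h : Near co d p K x y) : NearS (co x y) d p K 0 0 0 := by
  refine ⟨h 0, h 5, ?_, ?_, h 8, ?_, ?_⟩
  · simpa using h 6
  · simpa using h 7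
  · simpa using h 9
  · simpa using h 10

section

variable {B : Base} {I : ℕ → Finset (ℕ × ℝ)} {lev : ℕ → ℚ → ℕ}
    {A : ℕ → ℝ} {g s : ℝ} {τ : Fin 3 → ℝ → ℝ} {f : ℕ → ℚ → ℕ → ℤ → ℕ} {b : ℕ → ℚ → ℕ → K4.Plk4}
    {vm : ℕ → ℚ → ℝ} {w : Fin 3 → ℕ → ℚ → ℝ} {L : ℕ → ℕ → Ln4} {r0 : ℕ → ℝ}
    {wr cR : Fin 3 → ℕ → ℝ} {q : Fin 3 → ℝ} {π : Equiv.Perm (Fin 3)} {E Fa Fb : ℕ → ℕ × ℝ → ℝ} {w0 R : ℝ} {p : Fin 11 → ℝ}

open Classical in
/-- **D-max of a sheared chart box, sizes in a given order.** -/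
theorem gD_perm_shear
    (hM : MkA B I (geo4 L r0 wr cR q) lev A (fun v => g * v) (fun v => s * v) τ f b vm w)
    (hq : ∀ j, 0 ≤ q j)
    (hE : ∀ n, ∀ x ∈ I n, |E n x| ≤ 1) (hFa : ∀ n, ∀ x ∈ I n, |Fa n x| ≤ 1)
    (hFb : ∀ n, ∀ x ∈ I n, |Fb n x| ≤ 1) (σ : Equiv.Perm (Fin 3))
    (w8 : p 8 ≤ p 0 + p 5) (w9 : p 9 ≤ p 0 + p 6) (w10 : p 10 ≤ p 0 + p 7)
    (hp0 : w0 ≤ p 0) (hp1 : p 0 ≤ w0 + 1)
    (hX : TubeOk B r0 wr cR lev (p 0 - w0) (fun k => SQ B lev w w0 p (σ k)))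
    {K ε : ℝ} (hK : 0 < K) (hε : 0 < ε) :
    ∃ δ : ℝ, 0 < δ ∧ ∀ᶠ n in (U : Filter ℕ), ∀ x ∈ I n, ∀ μ lam nu : ℝ,
      |μ| * uB B lev w w0 n ≤ B.d n ^ (-δ) * uA B lev w w0 n →
      |lam| * uY B lev w w0 n ≤ B.d n ^ (-δ) * uA B lev w w0 n →
      |nu| * uY B lev w w0 n ≤ B.d n ^ (-δ) * uB B lev w w0 n →
      (((I n).filter fun y => NearS (couQ B lev w w0 (incQ π L E Fa Fb) n x y) (B.d n) p
        (K * B.d n ^ (-δ)) μ lam nu).card : ℝ) ≤
      N0Q A vm n * B.d n ^ (-(DQ g s q w0 p + ε)) *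
        rnk q (fun k => SQ B lev w w0 p k n) σ := by
  have hpos : ∀ j, ∀ᶠ n in (U : Filter ℕ), 0 < w j n 0 := fun j => hM.wpos j 0 le_rfl zero_le_one
  obtain ⟨δ, hδ, h⟩ := gD_any (π := π) (E := E) (Fa := Fa) (Fb := Fb) hM hq hE hFa hFb σ w8 w9
    w10 hp0 hp1 hX hε
  have hδ2 : 0 < δ / 2 := by linarith
  refine ⟨δ / 2, hδ2, ?_⟩
  filter_upwards [h, hpos 0, hpos 1, hpos 2, ev_const B hK hδ2] with n hn h0 h1 h2 hKn x hx μ lam
    nu hμ hlam hnu
  have a := uA_pos (B := B) (lev := lev) (w0 := w0) h1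
  have b := uB_pos (B := B) (lev := lev) (w0 := w0) h2
  have dd : B.d n ^ (-(δ / 2)) ≤ B.d n ^ (-δ) := Dp76.dpow_le B n (by linarith)
  refine le_trans ?_ (hn x hx μ lam nu (hμ.trans (mul_le_mul_of_nonneg_right dd a.le))
    (hlam.trans (mul_le_mul_of_nonneg_right dd a.le))
    (hnu.trans (mul_le_mul_of_nonneg_right dd b.le)))
  norm_cast
  refine Finset.card_le_card fun y hy => ?_
  rw [mem_filter] at hy ⊢
  refine ⟨hy.1, hy.2.mono (B.pos n) ?_⟩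
  have h3 := const_le hKn
  calc K * B.d n ^ (-(δ / 2)) ≤ B.d n ^ (-(δ / 2)) * B.d n ^ (-(δ / 2)) :=
        mul_le_mul_of_nonneg_right h3 (Dp76.dpow_pos B n _).le
    _ = B.d n ^ (-δ) := by rw [← Dp76.dpow_add]; congr 1; ring

open Classical in
/-- from the sheared form to `Near` -/
theorem near_of_shear {N : ℕ → ℝ} {K : ℝ}
    (h : ∃ δ : ℝ, 0 < δ ∧ ∀ᶠ n in (U : Filter ℕ), ∀ x ∈ I n, ∀ μ lam nu : ℝ,
      |μ| * uB B lev w w0 n ≤ B.d n ^ (-δ) * uA B lev w w0 n →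
      |lam| * uY B lev w w0 n ≤ B.d n ^ (-δ) * uA B lev w w0 n →
      |nu| * uY B lev w w0 n ≤ B.d n ^ (-δ) * uB B lev w w0 n →
      (((I n).filter fun y => NearS (couQ B lev w w0 (incQ π L E Fa Fb) n x y) (B.d n) p
        (K * B.d n ^ (-δ)) μ lam nu).card : ℝ) ≤ N n) (hK : 0 ≤ K)
    (hpos : ∀ j, ∀ᶠ n in (U : Filter ℕ), 0 < w j n 0) :
    ∀ᶠ n in (U : Filter ℕ), ∀ x ∈ I n,
      (((I n).filter fun y => Near (couQ B lev w w0 (incQ π L E Fa Fb) n) (B.d n) p K x y).card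
        : ℝ) ≤ N n := by
  obtain ⟨δ, hδ, h⟩ := h
  filter_upwards [h, hpos 1, hpos 2] with n hn h1 h2 x hx
  have a := uA_pos (B := B) (lev := lev) (w0 := w0) h1
  have b := uB_pos (B := B) (lev := lev) (w0 := w0) h2
  have dp := Dp76.dpow_pos B n (-δ)
  have ha : |(0 : ℝ)| * uB B lev w w0 n ≤ B.d n ^ (-δ) * uA B lev w w0 n := by
    rw [abs_zero, zero_mul]; positivity
  have hb : |(0 : ℝ)| * uY B lev w w0 n ≤ B.d n ^ (-δ) * uA B lev w w0 n := by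
    rw [abs_zero, zero_mul]; positivity
  have hc : |(0 : ℝ)| * uY B lev w w0 n ≤ B.d n ^ (-δ) * uB B lev w w0 n := by
    rw [abs_zero, zero_mul]; positivity
  refine le_trans ?_ (hn x hx 0 0 0 ha hb hc)
  norm_cast
  refine Finset.card_le_card fun y hy => ?_
  rw [mem_filter] at hy ⊢
  refine ⟨hy.1, (near_shear hy.2).mono (B.pos n) ?_⟩
  have h3 : (1 : ℝ) ≤ B.d n ^ (-δ) := by
    have := Dp76.dpow_le B n (show -δ ≤ 0 by linarith)
    rwa [Real.rpow_zero] at this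
  exact le_mul_of_one_le_right hK h3


/-- sizes of the box in terms of the level-`0` mark -/
theorem SQ_le {cab cby cr cc : ℝ} (h : W0 B r0 lev w cab cby cr cc) {ε : ℝ} (hε : 0 < ε) :
    ∀ᶠ n in (U : Filter ℕ),
      SQ B lev w w0 p 2 n ≤ B.d n ^ (cab + p 9 - w0 - p 8 - ε) * SQ B lev w w0 p 1 n ∧
      SQ B lev w w0 p 0 n ≤ B.d n ^ (cby + p 10 - w0 - p 9 - ε) * SQ B lev w w0 p 2 n ∧
      r0 n ≤ B.d n ^ (cr + 4 * w0 - p 10 - ε) * SQ B lev w w0 p 0 n ∧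
      SQ B lev w w0 p 1 n ≤ B.d n ^ (cc + p 8 - 2 * w0 - ε) * rho (lev n 0) := by
  have dpp := fun n a => Dp76.dpow_pos B n a
  filter_upwards [h.ab ε hε, h.by' ε hε, h.res ε hε, h.cap ε hε, h.pos 0, h.pos 1, h.pos 2]
    with n ab by' res cap h0 h1 h2
  have hρ : 0 < rho (lev n 0) := rho_pos _
  have H := uH_pos (B := B) (lev := lev) (w0 := w0) n
  have hd := B.pos n
  have add : ∀ a b : ℝ, B.d n ^ (a + b) = B.d n ^ a * B.d n ^ b := fun a b => Dp76.dpow_add B n a b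
  -- explicit sizes
  have ew : ∀ (k : Fin 3) (c x : ℝ), w k n 0 / rho (lev n 0) * B.d n ^ c * B.d n ^ x /
      uH B lev w0 n = w k n 0 * B.d n ^ (c + x - w0) := by
    intro k c x
    have hn : B.d n ^ (-w0) = (B.d n ^ w0)⁻¹ := Real.rpow_neg hd.le _
    have h5 := (dpp n w0).ne'
    have h6 : ((2 : ℝ) ^ (lev n 0)) ≠ 0 := by positivity
    rw [sub_eq_add_neg, add, add, hn]
    unfold uH rho
    field_simp
  have s0 : SQ B lev w w0 p 0 n = w 0 n 0 * B.d n ^ (-(3 * w0) + p 10 - w0) := by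
    rw [← ew]; rfl
  have s1 : SQ B lev w w0 p 1 n = w 1 n 0 * B.d n ^ (-w0 + p 8 - w0) := by
    rw [← ew]; rfl
  have s2 : SQ B lev w w0 p 2 n = w 2 n 0 * B.d n ^ (-(2 * w0) + p 9 - w0) := by
    rw [← ew]; rfl
  rw [s0, s1, s2]
  refine ⟨?_, ?_, ?_, ?_⟩
  · calc _ ≤ (B.d n ^ (cab - ε) * w 1 n 0) * B.d n ^ (-(2 * w0) + p 9 - w0) :=
          mul_le_mul_of_nonneg_right ab (dpp n _).le
      _ = w 1 n 0 * (B.d n ^ (cab - ε) * B.d n ^ (-(2 * w0) + p 9 - w0)) := by ring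
      _ = w 1 n 0 * (B.d n ^ (cab + p 9 - w0 - p 8 - ε) * B.d n ^ (-w0 + p 8 - w0)) := by
          rw [← add, ← add]; congr 2; ring
      _ = _ := by ring
  · calc _ ≤ (B.d n ^ (cby - ε) * w 2 n 0) * B.d n ^ (-(3 * w0) + p 10 - w0) :=
          mul_le_mul_of_nonneg_right by' (dpp n _).le
      _ = w 2 n 0 * (B.d n ^ (cby - ε) * B.d n ^ (-(3 * w0) + p 10 - w0)) := by ring
      _ = w 2 n 0 * (B.d n ^ (cby + p 10 - w0 - p 9 - ε) *
            B.d n ^ (-(2 * w0) + p 9 - w0)) := by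
          rw [← add, ← add]; congr 2; ring
      _ = _ := by ring
  · refine res.trans (le_of_eq ?_)
    calc B.d n ^ (cr - ε) * w 0 n 0 =
        w 0 n 0 * B.d n ^ ((cr + 4 * w0 - p 10 - ε) + (-(3 * w0) + p 10 - w0)) := by
          rw [mul_comm]; congr 2; ring
      _ = _ := by rw [add]; ring
  · calc _ ≤ (B.d n ^ (cc - ε) * rho (lev n 0)) * B.d n ^ (-w0 + p 8 - w0) :=
          mul_le_mul_of_nonneg_right cap (dpp n _).le
      _ = rho (lev n 0) * (B.d n ^ (cc - ε) * B.d n ^ (-w0 + p 8 - w0)) := by ring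
      _ = rho (lev n 0) * B.d n ^ (cc + p 8 - 2 * w0 - ε) := by
          rw [← add]; congr 2; ring
      _ = _ := by ring

theorem rnk_swap {S : Fin 3 → ℝ} (hS : ∀ k, 0 < S k) :
    rnk q S (Equiv.swap 1 2) = (S 2 / S 1) ^ (q 1 - q 2) := by
  unfold rnk
  rw [Fin.prod_univ_three]
  have e0 : (Equiv.swap (1 : Fin 3) 2) 0 = 0 := by decide
  have e1 : (Equiv.swap (1 : Fin 3) 2) 1 = 2 := by decide
  have e2 : (Equiv.swap (1 : Fin 3) 2) 2 = 1 := by decide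
  rw [e0, e1, e2, div_self (hS 0).ne', Real.one_rpow, one_mul,
    Real.rpow_sub (div_pos (hS 2) (hS 1)), div_eq_mul_inv ((S 2 / S 1) ^ q 1),
    ← Real.inv_rpow (div_pos (hS 2) (hS 1)).le, inv_div]

open Classical in
/-- **D-max of a sheared chart box, no order between the two in-plane sizes.** -/
theorem gD_ab_shear
    (hM : MkA B I (geo4 L r0 wr cR q) lev A (fun v => g * v) (fun v => s * v) τ f b vm w)
    (hwr : Rng B wr cR w) (hq : ∀ j, 0 ≤ q j) (h12 : q 2 ≤ q 1)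
    (hE : ∀ n, ∀ x ∈ I n, |E n x| ≤ 1) (hFa : ∀ n, ∀ x ∈ I n, |Fa n x| ≤ 1)
    (hFb : ∀ n, ∀ x ∈ I n, |Fb n x| ≤ 1) {cab cby cr cc : ℝ}
    (h : W0 B r0 lev w cab cby cr cc)
    (w8 : p 8 ≤ p 0 + p 5) (w9 : p 9 ≤ p 0 + p 6) (w10 : p 10 ≤ p 0 + p 7)
    (hp0 : w0 ≤ p 0) (hp1 : p 0 ≤ w0 + 1)
    (h2 : p 9 + w0 ≤ p 10 + cby) (h1 : p 8 + 2 * w0 ≤ p 10 + cby + cab)
    (h3 : p 10 ≤ cr + 4 * w0) (h4 : p 0 + w0 < p 8 + cc) (h5 : p 0 + 2 * w0 < p 9 + cab + cc)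
    {K ε : ℝ} (hK : 0 < K) (hε : 0 < ε) :
    ∃ δ : ℝ, 0 < δ ∧ ∀ᶠ n in (U : Filter ℕ), ∀ x ∈ I n, ∀ μ lam nu : ℝ,
      |μ| * uB B lev w w0 n ≤ B.d n ^ (-δ) * uA B lev w w0 n →
      |lam| * uY B lev w w0 n ≤ B.d n ^ (-δ) * uA B lev w w0 n →
      |nu| * uY B lev w w0 n ≤ B.d n ^ (-δ) * uB B lev w w0 n →
      (((I n).filter fun y => NearS (couQ B lev w w0 (incQ π L E Fa Fb) n x y) (B.d n) p
        (K * B.d n ^ (-δ)) μ lam nu).card : ℝ) ≤
      N0Q A vm n * B.d n ^ (-(DQ g s q w0 p +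
        (q 1 - q 2) * max 0 (p 8 + w0 - cab - p 9) + ε)) := by
  have dpp := fun n a => Dp76.dpow_pos B n a
  have hm : 0 ≤ (q 1 - q 2) * max 0 (p 8 + w0 - cab - p 9) :=
    mul_nonneg (by linarith) (le_max_left _ _)
  have hpos : ∀ k, ∀ᶠ n in (U : Filter ℕ), 0 < SQ B lev w w0 p k n := fun k => by
    filter_upwards [h.pos 0, h.pos 1, h.pos 2] with n a b c
    exact SQ_pos a b c k
  -- the two cases
  rcases Ultrafilter.eventually_or.1 (Filter.Eventually.of_forall fun n =>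
    le_total (SQ B lev w w0 p 2 n) (SQ B lev w w0 p 1 n)) with hc | hc
  · -- usual order
    have hT : TubeOk B r0 wr cR lev (p 0 - w0)
        (fun k => SQ B lev w w0 p ((1 : Equiv.Perm (Fin 3)) k)) := by
      refine ⟨fun k => hpos _, fun ε' hε' => ?_, fun ε' hε' => ?_, fun ε' hε' => ?_, ?_,
        fun k C => rng_SQ hwr k C⟩
      · filter_upwards [SQ_le (w0 := w0) (p := p) h hε', hpos 2] with n a b
        exact a.2.1.trans (mul_le_mul_of_nonneg_right (Dp76.dpow_le B n (by linarith)) b.le)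
      · filter_upwards [hc, hpos 1] with n a b
        refine le_trans a (le_mul_of_one_le_left b.le ?_)
        have := Dp76.dpow_le B n (show -ε' ≤ 0 by linarith)
        rwa [Real.rpow_zero] at this
      · filter_upwards [SQ_le (w0 := w0) (p := p) h hε', hpos 0] with n a b
        exact a.2.2.1.trans (mul_le_mul_of_nonneg_right (Dp76.dpow_le B n (by linarith)) b.le)
      · refine ⟨(p 8 + cc - (p 0 + w0)) / 2, by linarith, ?_⟩
        filter_upwards [SQ_le (w0 := w0) (p := p) (ε := (p 8 + cc - (p 0 + w0)) / 2) h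
          (by linarith)] with n a
        exact a.2.2.2.trans (mul_le_mul_of_nonneg_right (Dp76.dpow_le B n (by linarith))
          (rho_pos _).le)
    obtain ⟨δ, hδ, hn⟩ := gD_perm_shear (π := π) (E := E) (Fa := Fa) (Fb := Fb) hM hq hE hFa hFb
      1 w8 w9 w10 hp0 hp1 hT hK hε
    refine ⟨δ, hδ, ?_⟩
    filter_upwards [hn, hpos 0, hpos 1, hpos 2, hM.vpos 0 le_rfl zero_le_one] with n hn a0 a1 a2 av
      x hx μ lam nu hμ hl hnu
    refine (hn x hx μ lam nu hμ hl hnu).trans ?_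
    rw [rnk_one (fun k => by fin_cases k <;> assumption), mul_one]
    refine mul_le_mul_of_nonneg_left (Dp76.dpow_le B n (by linarith)) ?_
    unfold N0Q
    exact mul_nonneg (hM.Apos n).le av.le
  · -- reversed order
    have e0 : (Equiv.swap (1 : Fin 3) 2) 0 = 0 := by decide
    have e1 : (Equiv.swap (1 : Fin 3) 2) 1 = 2 := by decide
    have e2 : (Equiv.swap (1 : Fin 3) 2) 2 = 1 := by decide
    have hT : TubeOk B r0 wr cR lev (p 0 - w0)
        (fun k => SQ B lev w w0 p ((Equiv.swap (1 : Fin 3) 2) k)) := by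
      have hrn : ∀ (k : Fin 3) (C : ℝ), ∀ᶠ n in (U : Filter ℕ),
          wr k n ≤ B.d n ^ C * SQ B lev w w0 p (Equiv.swap (1 : Fin 3) 2 k) n ∧
          SQ B lev w w0 p (Equiv.swap (1 : Fin 3) 2 k) n ≤ B.d n ^ C * cR k n := by
        intro k C
        fin_cases k
        · show ∀ᶠ n in (U : Filter ℕ),
            wr 0 n ≤ B.d n ^ C * SQ B lev w w0 p (Equiv.swap (1 : Fin 3) 2 0) n ∧
            SQ B lev w w0 p (Equiv.swap (1 : Fin 3) 2 0) n ≤ B.d n ^ C * cR 0 n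
          rw [e0]
          exact rng_SQ hwr 0 C
        · show ∀ᶠ n in (U : Filter ℕ),
            wr 1 n ≤ B.d n ^ C * SQ B lev w w0 p (Equiv.swap (1 : Fin 3) 2 1) n ∧
            SQ B lev w w0 p (Equiv.swap (1 : Fin 3) 2 1) n ≤ B.d n ^ C * cR 1 n
          rw [e1]
          filter_upwards [rng_SQ (lev := lev) (w0 := w0) (p := p) hwr 1 C,
            rng_SQ21 (w0 := w0) (p := p) h hwr C, hc] with n h1 h2 h3
          exact ⟨h1.1.trans (mul_le_mul_of_nonneg_left h3 (dpp n C).le), h2.2⟩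
        · show ∀ᶠ n in (U : Filter ℕ),
            wr 2 n ≤ B.d n ^ C * SQ B lev w w0 p (Equiv.swap (1 : Fin 3) 2 2) n ∧
            SQ B lev w w0 p (Equiv.swap (1 : Fin 3) 2 2) n ≤ B.d n ^ C * cR 2 n
          rw [e2]
          filter_upwards [rng_SQ (lev := lev) (w0 := w0) (p := p) hwr 2 C,
            rng_SQ21 (w0 := w0) (p := p) h hwr C, hc] with n h1 h2 h3
          exact ⟨h2.1, h3.trans h1.2⟩
      refine ⟨fun k => hpos _, fun ε' hε' => ?_, fun ε' hε' => ?_, fun ε' hε' => ?_, ?_, hrn⟩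
      · filter_upwards [SQ_le (w0 := w0) (p := p) h (show 0 < ε' / 2 by linarith), hpos 1,
          hpos 2] with n a b c
        show SQ B lev w w0 p (Equiv.swap (1 : Fin 3) 2 0) n ≤
          B.d n ^ (-ε') * SQ B lev w w0 p (Equiv.swap (1 : Fin 3) 2 2) n
        rw [e0, e2]
        refine a.2.1.trans ?_
        calc _ ≤ B.d n ^ (cby + p 10 - w0 - p 9 - ε' / 2) *
              (B.d n ^ (cab + p 9 - w0 - p 8 - ε' / 2) * SQ B lev w w0 p 1 n) :=
              mul_le_mul_of_nonneg_left a.1 (dpp n _).le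
          _ = B.d n ^ ((cby + p 10 - w0 - p 9 - ε' / 2) + (cab + p 9 - w0 - p 8 - ε' / 2)) *
              SQ B lev w w0 p 1 n := by
              rw [Dp76.dpow_add B n (cby + p 10 - w0 - p 9 - ε' / 2)]; ring
          _ ≤ _ := mul_le_mul_of_nonneg_right (Dp76.dpow_le B n (by linarith)) b.le
      · filter_upwards [hc, hpos 2] with n a b
        show SQ B lev w w0 p (Equiv.swap (1 : Fin 3) 2 2) n ≤
          B.d n ^ (-ε') * SQ B lev w w0 p (Equiv.swap (1 : Fin 3) 2 1) n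
        rw [e1, e2]
        refine le_trans a (le_mul_of_one_le_left b.le ?_)
        have := Dp76.dpow_le B n (show -ε' ≤ 0 by linarith)
        rwa [Real.rpow_zero] at this
      · filter_upwards [SQ_le (w0 := w0) (p := p) h hε', hpos 0] with n a b
        show r0 n ≤ B.d n ^ (-ε') * SQ B lev w w0 p (Equiv.swap (1 : Fin 3) 2 0) n
        rw [e0]
        exact a.2.2.1.trans (mul_le_mul_of_nonneg_right (Dp76.dpow_le B n (by linarith)) b.le)
      · obtain ⟨η, hη⟩ : ∃ η : ℝ, η = (p 9 + cab + cc - (p 0 + 2 * w0)) / 3 := ⟨_, rfl⟩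
        have hη0 : 0 < η := by rw [hη]; linarith
        refine ⟨η, hη0, ?_⟩
        filter_upwards [SQ_le (w0 := w0) (p := p) h hη0] with n a
        show SQ B lev w w0 p (Equiv.swap (1 : Fin 3) 2 1) n ≤
          B.d n ^ (p 0 - w0 + η) * rho (lev n 0)
        rw [e1]
        refine a.1.trans ?_
        calc _ ≤ B.d n ^ (cab + p 9 - w0 - p 8 - η) *
              (B.d n ^ (cc + p 8 - 2 * w0 - η) * rho (lev n 0)) :=
              mul_le_mul_of_nonneg_left a.2.2.2 (dpp n _).le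
          _ = B.d n ^ ((cab + p 9 - w0 - p 8 - η) + (cc + p 8 - 2 * w0 - η)) *
              rho (lev n 0) := by
              rw [Dp76.dpow_add B n (cab + p 9 - w0 - p 8 - η)]; ring
          _ ≤ _ := mul_le_mul_of_nonneg_right (Dp76.dpow_le B n (by rw [hη]; linarith))
              (rho_pos _).le
    have hε2 : 0 < ε / 2 := by linarith
    obtain ⟨δ, hδ, hn⟩ := gD_perm_shear (π := π) (E := E) (Fa := Fa) (Fb := Fb) hM hq hE hFa hFb
      (Equiv.swap 1 2) w8 w9 w10 hp0 hp1 hT hK hε2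
    refine ⟨δ, hδ, ?_⟩
    obtain ⟨η, hη⟩ : ∃ η : ℝ, η = ε / (2 * (q 1 - q 2 + 1)) := ⟨_, rfl⟩
    have hq1 : 0 < q 1 - q 2 + 1 := by linarith
    have hη0 : 0 < η := by rw [hη]; positivity
    have hηq : (q 1 - q 2) * η ≤ ε / 2 := by
      have : (q 1 - q 2 + 1) * η = ε / 2 := by rw [hη]; field_simp
      nlinarith
    filter_upwards [hn, hpos 0, hpos 1, hpos 2, hM.vpos 0 le_rfl zero_le_one,
      SQ_le (w0 := w0) (p := p) h hη0] with n hn a0 a1 a2 av ha x hx μ lam nu hμ hl hnu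
    refine (hn x hx μ lam nu hμ hl hnu).trans ?_
    rw [rnk_swap (fun k => by fin_cases k <;> assumption)]
    have hN : 0 ≤ N0Q A vm n := mul_nonneg (hM.Apos n).le av.le
    have h6 : SQ B lev w w0 p 2 n / SQ B lev w w0 p 1 n ≤
        B.d n ^ (-(max 0 (p 8 + w0 - cab - p 9)) - η) := by
      rw [div_le_iff₀ a1]
      refine ha.1.trans (mul_le_mul_of_nonneg_right (Dp76.dpow_le B n ?_) a1.le)
      have := le_max_right 0 (p 8 + w0 - cab - p 9)
      linarith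
    have h7 : (SQ B lev w w0 p 2 n / SQ B lev w w0 p 1 n) ^ (q 1 - q 2) ≤
        B.d n ^ (-((q 1 - q 2) * max 0 (p 8 + w0 - cab - p 9) + ε / 2)) := by
      refine (Real.rpow_le_rpow (div_pos a2 a1).le h6 (by linarith)).trans ?_
      rw [← Real.rpow_mul (B.pos n).le]
      refine Dp76.dpow_le B n ?_
      have e : (-(max 0 (p 8 + w0 - cab - p 9)) - η) * (q 1 - q 2) =
        -((q 1 - q 2) * max 0 (p 8 + w0 - cab - p 9)) - (q 1 - q 2) * η := by ring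
      rw [e]
      linarith
    calc N0Q A vm n * B.d n ^ (-(DQ g s q w0 p + ε / 2)) *
          (SQ B lev w w0 p 2 n / SQ B lev w w0 p 1 n) ^ (q 1 - q 2) ≤
        N0Q A vm n * B.d n ^ (-(DQ g s q w0 p + ε / 2)) *
          B.d n ^ (-((q 1 - q 2) * max 0 (p 8 + w0 - cab - p 9) + ε / 2)) :=
          mul_le_mul_of_nonneg_left h7 (mul_nonneg hN (dpp n _).le)
      _ = _ := by
          rw [mul_assoc, ← Dp76.dpow_add]
          congr 2; ring

open Classical in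
/-- **D-max of a chart box, no order between the two in-plane sizes** (628's `DS`). -/
theorem gD_ab
    (hM : MkA B I (geo4 L r0 wr cR q) lev A (fun v => g * v) (fun v => s * v) τ f b vm w)
    (hwr : Rng B wr cR w) (hq : ∀ j, 0 ≤ q j) (h12 : q 2 ≤ q 1)
    (hE : ∀ n, ∀ x ∈ I n, |E n x| ≤ 1) (hFa : ∀ n, ∀ x ∈ I n, |Fa n x| ≤ 1)
    (hFb : ∀ n, ∀ x ∈ I n, |Fb n x| ≤ 1) {cab cby cr cc : ℝ}
    (h : W0 B r0 lev w cab cby cr cc)
    (w8 : p 8 ≤ p 0 + p 5) (w9 : p 9 ≤ p 0 + p 6) (w10 : p 10 ≤ p 0 + p 7)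
    (hp0 : w0 ≤ p 0) (hp1 : p 0 ≤ w0 + 1)
    (h2 : p 9 + w0 ≤ p 10 + cby) (h1 : p 8 + 2 * w0 ≤ p 10 + cby + cab)
    (h3 : p 10 ≤ cr + 4 * w0) (h4 : p 0 + w0 < p 8 + cc) (h5 : p 0 + 2 * w0 < p 9 + cab + cc) :
    ∀ K : ℝ, 1 ≤ K → ∀ ε : ℝ, 0 < ε → ∀ᶠ n in (U : Filter ℕ), ∀ x ∈ I n,
      (((I n).filter fun y => Near (couQ B lev w w0 (incQ π L E Fa Fb) n) (B.d n) p K x y).card
        : ℝ) ≤ N0Q A vm n * B.d n ^ (-(DQ g s q w0 p +
          (q 1 - q 2) * max 0 (p 8 + w0 - cab - p 9) + ε)) := fun K hK ε hε =>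
  near_of_shear (gD_ab_shear hM hwr hq h12 hE hFa hFb h w8 w9 w10 hp0 hp1 h2 h1 h3 h4 h5 (by linarith)
    hε) (by linarith) h.pos

end

end Crest.Agent.R136.GeoQ186
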