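import Crest.Agent.R136.NSt3_107_Mg
import Crest.Agent.R136.Aw0_413
import Crest.Agent.R136.GD10_186
import Crest.Agent.R136.NatD_550
import Crest.Agent.R136.Tb5_628
import Crest.Agent.R136.Tb6_628
import Crest.Agent.R136.TopB_550
import Crest.Agent.R136.C3e_795_Mg

-- ▼ part R136/NSt4_107
section

/-!
# R136: strips in the models (helper107), part 4: windows of helper413

* `hd_rich` : `rich W` is a half-dense section.
* `wndL_ns` : `WndL` + rare heavy strips ⊢ windows (offset `c0`) with `NsW`.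
* `waTO_model_ns`, `wndL_model_ns` : one call, chart of helper186: model, raw twist, `NoStr`, `AddC`.
-/

set_option autoImplicit false
set_option linter.unusedSectionVars false
set_option linter.unusedVariables false

open Filter Topology

namespace Crest.Agent.R136.NSt107

open Finset Crest.Agent.R138.Ex926 Crest.Agent.R136.Net191 Crest.Agent.R136.Gf356
open Crest.Agent.R136.Qg926 Crest.Agent.R136.Qg4480 Crest.Agent.R136.NetQ186
open Crest.Agent.R136.Ev356 Crest.Agent.R136.CV366 Crest.Agent.R136.Aw413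

section

variable {m : ℕ} {ι : ℕ → Type*} [∀ n, DecidableEq (ι n)]

theorem hd_rich (W : Wnd m ι) : HD W (rich W) := Eventually.of_forall fun n =>
  ⟨rich_sub_sec n, fun Mx h0 h => card_le_rich h0 h⟩


end

section

variable {ι : ℕ → Type*} [∀ n, DecidableEq (ι n)]
variable {B : Base} {I J : ∀ n, Finset (ι n)} {co : ∀ n, ι n → ι n → Fin 11 → ℝ}
  {Ma : Mons 11} {C : ℝ} {lam : (Fin 11 → ℝ) → ℝ} {κ : Fin 11 → ℝ}
  {V Tw : Fin 11 → Prop} {f : ∀ n, ι n → Fq4}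


theorem qwnd_of_waT {st : WSt 11} {W : Wnd 11 ι}
    (h : WAt B I co monQ Ma C lam V Tw st W)
    (hco : ∀ n, ∀ i ∈ I n, ∀ j ∈ I n, co n i j = coQ (f n i) (f n j))
    (hS : ∀ s ∈ st.S, s = 0 ∨ s = 2 ∨ s = 3 ∨ s = 4) : QWnd W f where
  ok := h.ok
  hM := h.eM
  hco := fun n i hi j hj => by
    rw [h.eI] at hi hj
    rw [h.eco]
    exact hco n i hi j hj
  hS := fun s hs => hS s (by rw [← h.eS]; exact hs)


/-- **one call** (window at the point without heavy strips) -/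
theorem waT_model_ns {st : WSt 11} {W : Wnd 11 ι}
    (h : WAt B I co monQ Ma C lam V Tw st W)
    (hco : ∀ n, ∀ i ∈ I n, ∀ j ∈ I n, co n i j = coQ (f n i) (f n j))
    (hS : ∀ s ∈ st.S, s = 0 ∨ s = 2 ∨ s = 3 ∨ s = 4) (h2 : (2 : Fin 11) ∉ st.S)
    {q R0 : ℝ} (hq : 0 ≤ q) (h5 : R0 ≤ st.top 5) (h6 : R0 ≤ st.top 6)
    (hns : NsW W 5 6 q R0)
    {σ' R : ℝ} (hden : st.Dens lam σ' R)
    (ex : ℕ → ∀ n, ι n → ℕ) {g₀ : ℕ → ℝ} (hg₀ : Tendsto g₀ U atTop)
    (hV : ∀ k, V k → k ∈ st.S ∨ st.top k = 0) :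
    ∃ (E' : ∀ n, Finset (ι n)) (g : ℕ → ℝ), Wnd.Pruned W (rich W) E' g ex ∧
      (∀ᶠ n in (U : Filter ℕ), g n ≤ g₀ n) ∧
      RModel W.B' (W.cfg E') σ' R W.legW W.nu W.Dc ∧
      (∀ s ∈ st.S, Tw s → 0 < st.top s →
        (∃ e : ℝ, 0 < e ∧ cut st.S st.top (Pi.single s e) ∈ coneM Ma) → RawL W E' s) ∧
      (∀ p0 : Fin 11 → ℝ, W.nu 0 ≤ W.nu p0 → NoStr W.B' (W.cfg E') p0 5 6 W.nu q R0) ∧
      (∀ (p0 : Fin 11 → ℝ) (y : ℝ), y ≤ p0 2 → AddC W.B' (W.cfg E') p0 5 6 2 y) ∧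
      ∀ᶠ n in (U : Filter ℕ), W.Good n ∧ E' n ⊆ W.Cl n ∧ W.cfg E' n = W.cfg0 n (E' n) := by
  have hQ := qwnd_of_waT h hco hS
  obtain ⟨E', g, h1, h2', h3, h4⟩ := h.modelE (eok_rich h.ok) (hd_rich W) hden ex hg₀ hV
  have hP := ev_hP h.ok (eok_rich h.ok) h1
  refine ⟨E', g, h1, h2', h3, h4, fun p0 hp0 => noStr_Q hQ h1 ?_ hq ?_ ?_ hns hp0,
    fun p0 y hy => addC hQ ?_ hP hy, hP⟩
  · rw [h.elam, h.etop, h.eS]; exact hden.dens
  · rw [h.etop]; exact h5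
  · rw [h.etop]; exact h6
  · rw [h.eS]; exact h2


end

end Crest.Agent.R136.NSt107
end

-- ▼ part R136/GD11_186
section

/-!
# R136: D-max for tubes, uniformly also in the sizes (helper186)

`dmax_unif` : as `dmax_tube`, the sizes `X : Fin 3 → ℝ` are arbitrary numbers of stage `n`.
-/

set_option autoImplicit false
set_option linter.unusedVariables false

open Finset Filter Topology

namespace Crest.Agent.R136.GeoQ186

open Crest.Agent.R138.Ex926 (Base U)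
open Crest.Agent.R138.Mk163 (zc zl rho alive)
open Crest.Agent.R138.MkRef627 (lc kc)
open Crest.Agent.R138
open Crest.Agent.R136.MkA627
open Crest.Agent.R136.Net191
open Crest.Agent.R136.NetQ186
open Crest.Agent.R136.Sh605
open Crest.Agent.R136.Top484 (geo4)
open Crest.Agent.R136.PqG464 (pow_lev zc_near ev_const)
open Crest.Agent.R136.Wq638

section

variable {σ κ : Type*} {B : Base} {I : ℕ → Finset (ℕ × ℝ)} {G : Geo σ κ} {lev : ℕ → ℚ → ℕ}
    {A : ℕ → ℝ} {g s : ℝ} {τ : κ → ℝ → ℝ} {f : ℕ → ℚ → ℕ → ℤ → ℕ} {b : ℕ → ℚ → ℕ → σ}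
    {vm : ℕ → ℚ → ℝ} {w : κ → ℕ → ℚ → ℝ} {L : ℕ → ℕ → Ln4} {r0 : ℕ → ℝ} {wr cr : Fin 3 → ℕ → ℝ}
    {q : Fin 3 → ℝ} {CG : ℝ}

/-- **D-max for tubes, uniformly in the frame, the centre and the sizes.** -/
theorem dmax_unif (hM : MkA B I G lev A (fun v => g * v) (fun v => s * v) τ f b vm w)
    (hG : FlatGeo G L r0 wr cr q CG) (hq : ∀ j, 0 ≤ q j) {v : ℝ} (hv0 : 0 ≤ v) (hv1 : v ≤ 1)
    {δc : ℝ} (hδc : 0 < δc) {ε : ℝ} (hε : 0 < ε) :
    ∃ δ : ℝ, 0 < δ ∧ ∀ᶠ n in (U : Filter ℕ), ∀ (X : Fin 3 → ℝ), 0 < X 0 → 0 < X 1 → 0 < X 2 →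
      X 0 ≤ B.d n ^ (-δ) * X 2 → X 2 ≤ B.d n ^ (-δ) * X 1 → r0 n ≤ B.d n ^ (-δ) * X 0 →
      X 1 ≤ B.d n ^ (v + δc) * rho (lev n 0) →
      (∀ k, wr k n ≤ X k ∧ X k ≤ B.d n ^ δc * cr k n) →
      ∀ (c : Ln4) (z : ℝ) (F : Fin 3 → V3) (Q : Finset (ℕ × ℝ)), Q ⊆ I n →
      (∀ k i, |F k i| ≤ B.d n ^ (-δ)) → 1 ≤ B.d n ^ (-δ) * |det3 F| →
      (∀ y ∈ Q, InTube L n c z F (B.d n ^ v * rho (lev n 0)) X (B.d n ^ (-δ)) y) →
      (Q.card : ℝ) ≤ A n * tval q (B.d n ^ v * rho (lev n 0)) X *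
        B.d n ^ (-(g * v + (1 - s) * (1 - v) + ε)) := by
  obtain ⟨Cq, hCq⟩ : ∃ Cq : ℝ, Cq = q 0 + q 1 + q 2 := ⟨_, rfl⟩
  have hCq0 : 0 ≤ Cq := by have := hq 0; have := hq 1; have := hq 2; rw [hCq]; linarith
  obtain ⟨t, ht⟩ : ∃ t : ℝ, t = min ε δc / (40 + 15 * Cq + |g - (1 - s)|) := ⟨_, rfl⟩
  have hmin : 0 < min ε δc := lt_min hε hδc
  have hden : 0 < 40 + 15 * Cq + |g - (1 - s)| := by positivity
  have ht0 : 0 < t := by rw [ht]; exact div_pos hmin hden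
  have htm : (40 + 15 * Cq + |g - (1 - s)|) * t = min ε δc := by rw [ht]; field_simp
  have htε : (40 + 15 * Cq + |g - (1 - s)|) * t ≤ ε := by rw [htm]; exact min_le_left _ _
  have htδ : (40 + 15 * Cq + |g - (1 - s)|) * t ≤ δc := by rw [htm]; exact min_le_right _ _
  have hCt : 0 ≤ Cq * t := mul_nonneg hCq0 ht0.le
  have hgt : 0 ≤ |g - (1 - s)| * t := mul_nonneg (abs_nonneg _) ht0.le
  have ht40 : 40 * t ≤ δc := by
    have h8 : (40 + 15 * Cq + |g - (1 - s)|) * t = 40 * t + 15 * (Cq * t) +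
        |g - (1 - s)| * t := by ring
    rw [h8] at htδ
    linarith
  obtain ⟨u, hu0, hu1, hT0, hTt, hor⟩ := exists_level (y := v) (t := t) hv0 hv1 ht0
  -- the margin of the heights
  obtain ⟨δ, hδ0, hδt, hδ1⟩ : ∃ δ : ℝ, 0 < δ ∧ δ ≤ t ∧ ((u : ℝ) < v → 2 * δ ≤ v - u) := by
    rcases hor with h | ⟨h, h'⟩
    · refine ⟨min t ((v - u) / 2), lt_min ht0 (by linarith), min_le_left _ _, fun _ => ?_⟩
      have := min_le_right t ((v - u) / 2)
      linarith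
    · refine ⟨t, ht0, le_rfl, fun h1 => ?_⟩
      have h2 : (0 : ℝ) < v := by rw [h] at h1; simpa using h1
      linarith
  refine ⟨δ, hδ0, ?_⟩
  filter_upwards [count_core hM hu0 hu1 ht0, pow_lev hM u hu0 hu1 ht0, pow_lev hM u hu0 hu1 hδ0,
    ev_const B (c := 54) (by norm_num) ht0, ev_const B (c := |CG| + 1) (by positivity) ht0,
    hM.cell0]
    with n hcore hlev hlevδ h54 hCG hcell X hX0 hX1 hX2 h02' h21' hres' hcp hn c z F Q hQI hF
      hdet hQ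
  have hd := B.pos n
  have hd1 := B.lt n
  have dpp := fun a => Dp76.dpow_pos B n a
  have c54 := const_le h54
  have hCd : CG ≤ B.d n ^ (-t) := by linarith [const_le hCG, le_abs_self CG]
  have hρ0 : 0 < rho (lev n 0) := rho_pos _
  have hρi : 0 < rho (lev n u) := rho_pos _
  obtain ⟨ρv, hρv⟩ : ∃ ρv, ρv = B.d n ^ v * rho (lev n 0) := ⟨_, rfl⟩
  have hρv0 : 0 < ρv := by rw [hρv]; exact mul_pos (dpp _) hρ0
  have hlo := rho_lo hlev.1
  have hhi := rho_hi hlev.2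
  have dδ : B.d n ^ (-δ) ≤ B.d n ^ (-t) := Dp76.dpow_le B n (by linarith)
  have dt1 : 1 ≤ B.d n ^ (-t) := by linarith
  have h02 : X 0 ≤ B.d n ^ (-t) * X 2 := h02'.trans (mul_le_mul_of_nonneg_right dδ hX2.le)
  have h21 : X 2 ≤ B.d n ^ (-t) * X 1 := h21'.trans (mul_le_mul_of_nonneg_right dδ hX1.le)
  have hres : r0 n ≤ B.d n ^ (-t) * X 0 := hres'.trans (mul_le_mul_of_nonneg_right dδ hX0.le)
  have hρvi : ρv * B.d n ^ t ≤ rho (lev n u) := by
    refine le_trans ?_ hlo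
    have e1 : ρv * B.d n ^ t = B.d n ^ (v + t) * rho (lev n 0) := by
      rw [hρv, Dp76.dpow_add]; ring
    rw [e1]
    exact mul_le_mul_of_nonneg_right (Dp76.dpow_le B n (by linarith)) hρ0.le
  -- the frame
  obtain ⟨e, he, hfr⟩ := gs_frame dt1 (fun k i => (hF k i).trans dδ)
    (hdet.trans (mul_le_mul_of_nonneg_right dδ (abs_nonneg _)))
  -- the numbers
  obtain ⟨Y, hY⟩ : ∃ Y, Y = 3 * B.d n ^ (-(3 * t)) := ⟨_, rfl⟩
  have hY0 : 0 ≤ Y := by rw [hY]; exact mul_nonneg (by norm_num) (dpp _).le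
  obtain ⟨n0, n1, n2, o1, o2⟩ := tube_num hd hd1 ht0 hX0 hX1 hX2 h02 h21 c54 hY.le hY0
  -- the heights
  have hcellQ : ∃ J0 : ℤ, ∀ y ∈ Q, zc (lev n u) y.2 ∈ Finset.Icc (J0 - 1) (J0 + 1) := by
    rcases hor with hlt | ⟨h0, -⟩
    · refine ⟨zc (lev n u) z, fun y hy => zc_near ?_⟩
      have h1 := (hQ y hy).1
      calc |y.2 - z| * 2 ^ lev n u ≤
          (B.d n ^ (-δ) * (B.d n ^ v * rho (lev n 0))) * (2 ^ lev n 0 * B.d n ^ (-((u : ℝ) + δ))) :=
            mul_le_mul h1 hlevδ.1 (by positivity)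
              (mul_pos (dpp _) (mul_pos (dpp _) hρ0)).le
        _ = (B.d n ^ (-δ) * B.d n ^ v * B.d n ^ (-((u : ℝ) + δ))) *
            (rho (lev n 0) * 2 ^ lev n 0) := by ring
        _ = B.d n ^ (-δ + v + -((u : ℝ) + δ)) := by
            have : rho (lev n 0) * 2 ^ lev n 0 = 1 := by unfold rho; field_simp
            rw [this, mul_one, Dp76.dpow_add, Dp76.dpow_add]
        _ ≤ B.d n ^ (0 : ℝ) := Dp76.dpow_le B n (by have := hδ1 hlt; linarith)
        _ = 1 := Real.rpow_zero _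
    · rcases Q.eq_empty_or_nonempty with he | ⟨y0, hy0⟩
      · exact ⟨0, fun y hy => by rw [he] at hy; simp at hy⟩
      · refine ⟨zc (lev n u) y0.2, fun y hy => ?_⟩
        rw [h0, hcell y (hQI hy) y0 (hQI hy0), Finset.mem_Icc]
        constructor <;> linarith
  obtain ⟨J0, hJ0⟩ := hcellQ
  -- the sheet
  have hw1ρ : B.d n ^ (-(14 * t)) * X 1 ≤ rho (lev n u) := by
    refine le_trans ?_ hlo
    calc B.d n ^ (-(14 * t)) * X 1 ≤ B.d n ^ (-(14 * t)) * (B.d n ^ (v + δc) * rho (lev n 0)) :=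
          mul_le_mul_of_nonneg_left hcp (dpp _).le
      _ = B.d n ^ (-(14 * t) + (v + δc)) * rho (lev n 0) := by
          rw [Dp76.dpow_add B n (-(14 * t))]; ring
      _ ≤ _ := mul_le_mul_of_nonneg_right (Dp76.dpow_le B n (by linarith)) hρ0.le
  have hra : r0 n ≤ B.d n ^ (-(10 * t)) * X 0 :=
    hres.trans (mul_le_mul_of_nonneg_right (Dp76.dpow_le B n (by linarith)) hX0.le)
  have hval := tube_val (q := q) hd hd1 ht0 hX0 hX1 hX2 hq hρv0 hρi hρvi hG.C0 hCd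
  refine (hcore Q J0 (tval q ρv X *
    B.d n ^ (-((37 + 15 * (q 0 + q 1 + q 2)) * t))) hQI ?_ hJ0 fun J => ?_).trans ?_
  · have r0' := Real.rpow_nonneg (div_pos hX0 hρv0).le (q 0)
    have r1' := Real.rpow_nonneg (div_pos hX1 hρv0).le (q 1)
    have r2' := Real.rpow_nonneg (div_pos hX2 hρv0).le (q 2)
    have := dpp (-((37 + 15 * (q 0 + q 1 + q 2)) * t))
    unfold tval
    positivity
  · obtain ⟨S, hadm, hvl, hmem⟩ := hG.flat n (lev n u) J e c _ _ _ he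
      (mul_pos (dpp (-(10 * t))) hX0) hra o1 o2 hw1ρ
      (fun k => by
        have hk := hn k
        fin_cases k
        · exact ⟨hk.1.trans (le_mul_of_one_le_left hX0.le (one_le_dpow (by linarith))),
            (mul_le_mul_of_nonneg_right (Dp76.dpow_le B n (by linarith)) hX0.le).trans
              (hi_dpow hk.2)⟩
        · exact ⟨hk.1.trans (le_mul_of_one_le_left hX1.le (one_le_dpow (by linarith))),
            (mul_le_mul_of_nonneg_right (Dp76.dpow_le B n (by linarith)) hX1.le).trans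
              (hi_dpow hk.2)⟩
        · exact ⟨hk.1.trans (le_mul_of_one_le_left hX2.le (one_le_dpow (by linarith))),
            (mul_le_mul_of_nonneg_right (Dp76.dpow_le B n (by linarith)) hX2.le).trans
              (hi_dpow hk.2)⟩)
    refine ⟨S, hadm, hvl.trans hval, fun y hy hyJ => hmem _ fun z' hz0 hz1 => ?_⟩
    · -- membership
      obtain ⟨k1, k2⟩ := mem_cell hyJ
      obtain ⟨q1, q2⟩ := hQ y hy
      rw [← hρv] at q1 q2
      have h2 : |z' - y.2| ≤ rho (lev n u) := by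
        rw [abs_le]; constructor <;> linarith
      have h3 : |z' - z| ≤ |z' - y.2| + |y.2 - z| := by
        have := abs_add_le (z' - y.2) (y.2 - z)
        rwa [show z' - y.2 + (y.2 - z) = z' - z by ring] at this
      have hρiv : rho (lev n u) ≤ B.d n ^ (-(2 * t)) * ρv := by
        refine hhi.trans ?_
        rw [hρv, ← mul_assoc, ← Dp76.dpow_add]
        exact mul_le_mul_of_nonneg_right (Dp76.dpow_le B n (by linarith)) hρ0.le
      have h4 : |z' - z| ≤ 2 * B.d n ^ (-(2 * t)) * ρv := by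
        have h5 : B.d n ^ (-δ) * ρv ≤ B.d n ^ (-(2 * t)) * ρv :=
          mul_le_mul_of_nonneg_right (Dp76.dpow_le B n (by linarith)) hρv0.le
        linarith
      have hsz : ∀ k, 0 < X k → |dt (F k) ((L n y.1).pos z' - c.pos z')| ≤ Y * X k := by
        intro k hk
        obtain ⟨a1, a2⟩ := q2 k
        rw [dt_line (F k) (L n y.1) c z z']
        have a3 : |(z' - z) * dt (F k) ((L n y.1).v - c.v)| ≤
            2 * B.d n ^ (-(2 * t)) * (B.d n ^ (-t) * X k) := by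
          rw [abs_mul]
          calc |z' - z| * |dt (F k) ((L n y.1).v - c.v)| ≤
              (2 * B.d n ^ (-(2 * t)) * ρv) * |dt (F k) ((L n y.1).v - c.v)| :=
                mul_le_mul_of_nonneg_right h4 (abs_nonneg _)
            _ = 2 * B.d n ^ (-(2 * t)) * (|dt (F k) ((L n y.1).v - c.v)| * ρv) := by ring
            _ ≤ 2 * B.d n ^ (-(2 * t)) * (B.d n ^ (-δ) * X k) :=
                mul_le_mul_of_nonneg_left a2 (mul_nonneg (by norm_num) (dpp _).le)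
            _ ≤ _ := mul_le_mul_of_nonneg_left (mul_le_mul_of_nonneg_right dδ hk.le)
                (mul_nonneg (by norm_num) (dpp _).le)
        have a4 : B.d n ^ (-δ) * X k ≤ B.d n ^ (-(3 * t)) * X k :=
          mul_le_mul_of_nonneg_right (Dp76.dpow_le B n (by linarith)) hk.le
        have a5 : 2 * B.d n ^ (-(2 * t)) * (B.d n ^ (-t) * X k) =
            2 * (B.d n ^ (-(3 * t)) * X k) := by
          rw [show -(3 * t) = -(2 * t) + -t by ring, Dp76.dpow_add B n (-(2 * t))]; ring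
        refine (abs_add_le _ _).trans ?_
        rw [hY]
        linarith
      obtain ⟨b0, b1, b2⟩ := hfr ((L n y.1).pos z' - c.pos z') (fun k => Y * X k)
        (fun k => hsz k (by fin_cases k <;> assumption))
      exact ⟨b0.trans n0, b1.trans n1, b2.trans n2⟩
  · -- the exponents
    rw [← hρv]
    have hval0 : 0 ≤ tval q ρv X := by
      have r0' := Real.rpow_nonneg (div_pos hX0 hρv0).le (q 0)
      have r1' := Real.rpow_nonneg (div_pos hX1 hρv0).le (q 1)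
      have r2' := Real.rpow_nonneg (div_pos hX2 hρv0).le (q 2)
      unfold tval
      positivity
    have e1 : A n * (tval q ρv X *
        B.d n ^ (-((37 + 15 * (q 0 + q 1 + q 2)) * t))) *
        B.d n ^ (-(g * u + (1 - s) * (1 - u) + t)) =
        A n * tval q ρv X * B.d n ^ (-((37 + 15 * (q 0 + q 1 + q 2)) * t) +
          -(g * u + (1 - s) * (1 - u) + t)) := by
      rw [Dp76.dpow_add B n (-((37 + 15 * (q 0 + q 1 + q 2)) * t))]; ring
    rw [e1]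
    refine mul_le_mul_of_nonneg_left (Dp76.dpow_le B n ?_) (mul_nonneg (hM.Apos n).le hval0)
    rw [← hCq]
    have h5 : |(g - (1 - s)) * (v - u)| ≤ |g - (1 - s)| * t := by
      rw [abs_mul, abs_of_nonneg hT0]
      exact mul_le_mul_of_nonneg_left hTt (abs_nonneg _)
    have h6 := (abs_le.1 h5).1
    have h7 : (g - (1 - s)) * (v - u) = g * v + (1 - s) * (1 - v) -
        (g * u + (1 - s) * (1 - u)) := by ring
    have h8 : (40 + 15 * Cq + |g - (1 - s)|) * t = 40 * t + 15 * (Cq * t) +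
        |g - (1 - s)| * t := by ring
    have h9 : (37 + 15 * Cq) * t = 37 * t + 15 * (Cq * t) := by ring
    rw [h7] at h6
    rw [h8] at htε
    rw [h9]
    linarith

end

end Crest.Agent.R136.GeoQ186
end

-- ▼ part R136/Str1_186
section

/-!
# R136, strips of `(C_a, C_b)` are rare (helper186), part 1: the geometry of one strip

* `strip2` : a strip in a rectangle `Sa × Sb` lies in a parallelogram of sizes `r Sa`, `(Y/r) Sb`,
  `Y ≤ r ≤ M`.
-/

set_option autoImplicit false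
set_option linter.unusedVariables false

open Finset Filter Topology

namespace Crest.Agent.R136.Str186

open Crest.Agent.R138.Ex926 (Base U)
open Crest.Agent.R138.Mk163 (zc zl rho alive)
open Crest.Agent.R138
open Crest.Agent.R136.MkA627
open Crest.Agent.R136.Net191
open Crest.Agent.R136.NetQ186
open Crest.Agent.R136.GeoQ186
open Crest.Agent.R136.Sh605

/-- **a strip in a rectangle** -/
theorem strip2 {Sa Sb Y α β C M : ℝ} (hSa : 0 < Sa) (hSb : 0 < Sb) (hab : Sb ≤ M * Sa)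
    (hY : 0 < Y) (hY1 : Y ≤ 1) (hC : 1 ≤ C) (hM : 1 ≤ M)
    (hor : 1 ≤ C * |α| ∨ 1 ≤ C * |β|) :
    ∃ r : ℝ, 0 < r ∧ r ≤ M ∧ Y ≤ r ∧ (Y / r) * Sb ≤ M * (r * Sa) ∧ ∃ f1a f1b f2a f2b : ℝ,
      |f1a| ≤ 1 ∧ |f1b| ≤ 1 ∧ |f2a| ≤ 1 ∧ |f2b| ≤ 1 ∧ |f1a * f2b - f1b * f2a| = 1 ∧
      ∀ x y : ℝ, |x| ≤ C → |y| ≤ C → |α * x + β * y| ≤ C * Y →
        |f1a * (Sa * x) + f1b * (Sb * y)| ≤ 4 * C ^ 3 * M * (r * Sa) ∧
        |f2a * (Sa * x) + f2b * (Sb * y)| ≤ 4 * C ^ 3 * M * ((Y / r) * Sb) := by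
  have hC0 : 0 < C := by linarith
  have hM0 : 0 < M := by linarith
  have hC2 : C ≤ C ^ 2 := by nlinarith
  have hC3 : C ^ 2 ≤ C ^ 3 := by nlinarith [sq_nonneg C]
  have hC1 : 1 ≤ C ^ 3 := by nlinarith
  -- constants
  have c1 : C ≤ 4 * C ^ 3 * M := by nlinarith [mul_le_mul hC3 hM zero_le_one (by positivity)]
  have c2 : C ^ 2 ≤ 4 * C ^ 3 * M := by nlinarith [mul_le_mul hC3 hM zero_le_one (by positivity)]
  by_cases hcase : Y * |α| ≤ |β| ∧ |α| * Sb ≤ |β| * Sa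
  · -- graph over `a`
    obtain ⟨h1, h2⟩ := hcase
    rcases le_total |α| |β| with hr | hr
    · -- `|β|` is the maximum
      have hβ : 1 ≤ C * |β| := by
        rcases hor with h | h
        · exact h.trans (mul_le_mul_of_nonneg_left hr hC0.le)
        · exact h
      have hβ0 : 0 < |β| := by
        rcases (abs_nonneg β).lt_or_eq with h | h
        · exact h
        · rw [← h] at hβ; norm_num at hβ
      have hβne : β ≠ 0 := abs_pos.1 hβ0
      refine ⟨1, one_pos, hM, hY1, ?_, 1, 0, (α / β) * (Sb / Sa), 1, by simp, by simp, ?_, by simp,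
        by simp, fun x y hx hy hxy => ⟨?_, ?_⟩⟩
      · rw [div_one, one_mul]
        calc Y * Sb ≤ 1 * Sb := mul_le_mul_of_nonneg_right hY1 hSb.le
          _ ≤ _ := by rw [one_mul]; exact hab
      · rw [abs_mul, abs_div, abs_div, abs_of_pos hSa, abs_of_pos hSb, div_mul_div_comm,
          div_le_one (mul_pos hβ0 hSa)]
        exact h2
      · rw [one_mul, zero_mul, add_zero, one_mul, abs_mul, abs_of_pos hSa, mul_comm Sa]
        exact mul_le_mul_of_nonneg_right (hx.trans c1) hSa.le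
      · have e1 : (α / β) * (Sb / Sa) * (Sa * x) + 1 * (Sb * y) = Sb / β * (α * x + β * y) := by
          field_simp
        rw [e1, div_one, abs_mul, abs_div, abs_of_pos hSb]
        calc Sb / |β| * |α * x + β * y| ≤ Sb / |β| * (C * Y) :=
              mul_le_mul_of_nonneg_left hxy (div_pos hSb hβ0).le
          _ = (1 / |β|) * (C * (Y * Sb)) := by field_simp
          _ ≤ C * (C * (Y * Sb)) := by
              refine mul_le_mul_of_nonneg_right ?_ (by positivity)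
              rw [div_le_iff₀ hβ0]; exact hβ
          _ = C ^ 2 * (Y * Sb) := by ring
          _ ≤ _ := mul_le_mul_of_nonneg_right c2 (by positivity)
    · -- `|α|` is the maximum
      have hα : 1 ≤ C * |α| := by
        rcases hor with h | h
        · exact h
        · exact h.trans (mul_le_mul_of_nonneg_left hr hC0.le)
      have hα0 : 0 < |α| := by
        rcases (abs_nonneg α).lt_or_eq with h | h
        · exact h
        · rw [← h] at hα; norm_num at hα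
      have hβ0 : 0 < |β| := lt_of_lt_of_le (mul_pos hY hα0) h1
      have hβne : β ≠ 0 := abs_pos.1 hβ0
      have hαne : α ≠ 0 := abs_pos.1 hα0
      have hYβ : Y ≤ C * |β| := by
        calc Y = Y * 1 := (mul_one Y).symm
          _ ≤ Y * (C * |α|) := mul_le_mul_of_nonneg_left hα hY.le
          _ = C * (Y * |α|) := by ring
          _ ≤ _ := mul_le_mul_of_nonneg_left h1 hC0.le
      have iα : 1 / |α| ≤ C := by rw [div_le_iff₀ hα0]; exact hα
      refine ⟨|β| / |α|, div_pos hβ0 hα0, ?_, by rw [le_div_iff₀ hα0]; exact h1, ?_, 1, 0,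
        (α / β) * (Sb / Sa), 1, by simp, by simp,
        ?_, by simp, by simp, fun x y hx hy hxy => ⟨?_, ?_⟩⟩
      · exact ((div_le_one hα0).2 hr).trans hM
      · rw [div_div_eq_mul_div]
        have e1 : Y * |α| / |β| * Sb = (Y * |α|) * (Sb / |β|) := by ring
        have e2 : M * (|β| / |α| * Sa) = M * (|β| * (Sa / |α|)) := by ring
        rw [e1, e2]
        have e3 : Sb / |β| ≤ Sa / |α| := by
          rw [div_le_div_iff₀ hβ0 hα0]; linarith
        calc (Y * |α|) * (Sb / |β|) ≤ |β| * (Sa / |α|) :=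
              mul_le_mul h1 e3 (div_pos hSb hβ0).le hβ0.le
          _ ≤ _ := le_mul_of_one_le_left (by positivity) hM
      · rw [abs_mul, abs_div, abs_div, abs_of_pos hSa, abs_of_pos hSb, div_mul_div_comm,
          div_le_one (mul_pos hβ0 hSa)]
        exact h2
      · rw [one_mul, zero_mul, add_zero, abs_mul, abs_of_pos hSa]
        have h5 : |α| * |x| ≤ C * Y + C * |β| := by
          have h6 : |α * x| ≤ |α * x + β * y| + |β * y| := by
            have := abs_sub (α * x + β * y) (β * y)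
            rwa [add_sub_cancel_right] at this
          rw [abs_mul, abs_mul β] at h6
          have h7 : |β| * |y| ≤ |β| * C := mul_le_mul_of_nonneg_left hy hβ0.le
          linarith
        have h8 : |x| ≤ (1 / |α|) * (C * Y + C * |β|) := by
          rw [one_div, ← div_eq_inv_mul, le_div_iff₀ hα0]; linarith
        have h9 : C * Y + C * |β| ≤ 2 * C ^ 2 * |β| := by
          have := mul_le_mul_of_nonneg_left hYβ hC0.le
          have := mul_le_mul_of_nonneg_right hC2 hβ0.le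
          nlinarith
        have h10 : |x| ≤ 2 * C ^ 2 * (|β| / |α|) := by
          refine h8.trans ((mul_le_mul_of_nonneg_left h9 (by positivity)).trans (le_of_eq ?_))
          ring
        have h11 : 2 * C ^ 2 ≤ 4 * C ^ 3 * M := by
          nlinarith [mul_le_mul hC3 hM zero_le_one (by positivity)]
        calc Sa * |x| ≤ Sa * (2 * C ^ 2 * (|β| / |α|)) := mul_le_mul_of_nonneg_left h10 hSa.le
          _ = 2 * C ^ 2 * (|β| / |α| * Sa) := by ring
          _ ≤ _ := mul_le_mul_of_nonneg_right h11 (by positivity)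
      · have e1 : (α / β) * (Sb / Sa) * (Sa * x) + 1 * (Sb * y) = Sb / β * (α * x + β * y) := by
          field_simp
        rw [e1, abs_mul, abs_div, abs_of_pos hSb]
        calc Sb / |β| * |α * x + β * y| ≤ Sb / |β| * (C * Y) :=
              mul_le_mul_of_nonneg_left hxy (div_pos hSb hβ0).le
          _ = (1 / |α|) * (C * (Y / (|β| / |α|) * Sb)) := by field_simp
          _ ≤ C * (C * (Y / (|β| / |α|) * Sb)) := by
              refine mul_le_mul_of_nonneg_right iα (by positivity)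
          _ = C ^ 2 * (Y / (|β| / |α|) * Sb) := by ring
          _ ≤ _ := mul_le_mul_of_nonneg_right c2 (by positivity)
  · -- `|α|` is not small
    have hβα : |β| ≤ M * |α| := by
      rcases not_and_or.1 hcase with h | h
      · push Not at h
        have h3 : Y * |α| ≤ 1 * |α| := mul_le_mul_of_nonneg_right hY1 (abs_nonneg _)
        have h4 : 1 * |α| ≤ M * |α| := mul_le_mul_of_nonneg_right hM (abs_nonneg _)
        linarith
      · push Not at h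
        have h3 : |β| * Sa ≤ (M * |α|) * Sa := by
          have := mul_le_mul_of_nonneg_left hab (abs_nonneg α)
          linarith
        exact le_of_mul_le_mul_right h3 hSa
    have hα : 1 ≤ (C * M) * |α| := by
      rcases hor with h | h
      · refine h.trans (mul_le_mul_of_nonneg_right ?_ (abs_nonneg _))
        exact le_mul_of_one_le_right hC0.le hM
      · refine h.trans ?_
        rw [mul_assoc]
        exact mul_le_mul_of_nonneg_left hβα hC0.le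
    have hα0 : 0 < |α| := by
      rcases (abs_nonneg α).lt_or_eq with h | h
      · exact h
      · rw [← h] at hα; norm_num at hα
    have hαne : α ≠ 0 := abs_pos.1 hα0
    have iα : 1 / |α| ≤ C * M := by rw [div_le_iff₀ hα0]; exact hα
    rcases le_or_gt Sb (Y * Sa) with hs | hs
    · -- `Y Sa ≥ Sb`
      have hβY : |β| ≤ Y * |α| := by
        rcases not_and_or.1 hcase with h | h
        · push Not at h; exact h.le
        · push Not at h
          have h3 : |β| * Sa ≤ (Y * |α|) * Sa := by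
            have := mul_le_mul_of_nonneg_left hs (abs_nonneg α)
            linarith
          exact le_of_mul_le_mul_right h3 hSa
      refine ⟨Y, hY, hY1.trans hM, le_rfl, ?_, 1, 0, 0, 1, by simp, by simp, by simp, by simp, by simp,
        fun x y hx hy hxy => ⟨?_, ?_⟩⟩
      · rw [div_self hY.ne', one_mul]
        exact hs.trans (le_mul_of_one_le_left (by positivity) hM)
      · rw [one_mul, zero_mul, add_zero, abs_mul, abs_of_pos hSa]
        have h5 : |α| * |x| ≤ C * Y + C * |β| := by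
          have h6 : |α * x| ≤ |α * x + β * y| + |β * y| := by
            have := abs_sub (α * x + β * y) (β * y)
            rwa [add_sub_cancel_right] at this
          rw [abs_mul, abs_mul β] at h6
          have h7 : |β| * |y| ≤ |β| * C := mul_le_mul_of_nonneg_left hy (abs_nonneg _)
          linarith
        have h8 : |x| ≤ (1 / |α|) * (C * Y + C * |β|) := by
          rw [one_div, ← div_eq_inv_mul, le_div_iff₀ hα0]; linarith
        have h9 : (1 / |α|) * (C * Y + C * |β|) ≤ (1 / |α|) * (C * Y) + C * Y := by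
          rw [mul_add]
          refine add_le_add le_rfl ?_
          have := mul_le_mul_of_nonneg_left hβY hC0.le
          calc 1 / |α| * (C * |β|) ≤ 1 / |α| * (C * (Y * |α|)) :=
                mul_le_mul_of_nonneg_left this (by positivity)
            _ = C * Y := by field_simp
        have h10 : (1 / |α|) * (C * Y) ≤ (C * M) * (C * Y) :=
          mul_le_mul_of_nonneg_right iα (by positivity)
        have h11 : |x| ≤ 4 * C ^ 3 * M * Y := by
          have h12 : C * M * (C * Y) + C * Y = (C ^ 2 * M + C) * Y := by ring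
          have h13 : C ^ 2 * M + C ≤ 4 * C ^ 3 * M := by
            have := mul_le_mul_of_nonneg_right hC3 hM0.le
            nlinarith
          have := mul_le_mul_of_nonneg_right h13 hY.le
          linarith
        calc Sa * |x| ≤ Sa * (4 * C ^ 3 * M * Y) := mul_le_mul_of_nonneg_left h11 hSa.le
          _ = _ := by ring
      · rw [zero_mul, zero_add, one_mul, div_self hY.ne', one_mul, abs_mul, abs_of_pos hSb,
          mul_comm Sb]
        exact mul_le_mul_of_nonneg_right (hy.trans c1) hSb.le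
    · -- `Y Sa < Sb`
      have hκ : |β / α * (Sa / Sb)| ≤ 1 := by
        rw [abs_mul, abs_div, abs_div, abs_of_pos hSa, abs_of_pos hSb, div_mul_div_comm,
          div_le_one (mul_pos hα0 hSb)]
        rcases not_and_or.1 hcase with h | h
        · push Not at h
          calc |β| * Sa ≤ (Y * |α|) * Sa := mul_le_mul_of_nonneg_right h.le hSa.le
            _ = |α| * (Y * Sa) := by ring
            _ ≤ _ := mul_le_mul_of_nonneg_left hs.le hα0.le
        · push Not at h; exact h.le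
      refine ⟨Sb / Sa, div_pos hSb hSa, ?_, by rw [le_div_iff₀ hSa]; exact hs.le, ?_, 0, 1, 1, β / α * (Sa / Sb), by simp, by simp,
        by simp, hκ, by simp, fun x y hx hy hxy => ⟨?_, ?_⟩⟩
      · rw [div_le_iff₀ hSa]; exact hab
      · have e1 : Y / (Sb / Sa) * Sb = Y * Sa := by field_simp
        have e2 : M * (Sb / Sa * Sa) = M * Sb := by field_simp
        rw [e1, e2]
        exact hs.le.trans (le_mul_of_one_le_left hSb.le hM)
      · rw [zero_mul, zero_add, one_mul, abs_mul, abs_of_pos hSb]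
        have e2 : Sb / Sa * Sa = Sb := by field_simp
        rw [e2, mul_comm Sb]
        exact mul_le_mul_of_nonneg_right (hy.trans c1) hSb.le
      · have e0 : 1 * (Sa * x) + β / α * (Sa / Sb) * (Sb * y) = Sa / α * (α * x + β * y) := by
          field_simp
        have e1 : Y / (Sb / Sa) * Sb = Y * Sa := by field_simp
        rw [e0, e1, abs_mul, abs_div, abs_of_pos hSa]
        calc Sa / |α| * |α * x + β * y| ≤ Sa / |α| * (C * Y) :=
              mul_le_mul_of_nonneg_left hxy (div_pos hSa hα0).le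
          _ = (1 / |α|) * (C * (Y * Sa)) := by field_simp
          _ ≤ (C * M) * (C * (Y * Sa)) := mul_le_mul_of_nonneg_right iα (by positivity)
          _ = (C ^ 2 * M) * (Y * Sa) := by ring
          _ ≤ _ := by
              refine mul_le_mul_of_nonneg_right ?_ (by positivity)
              have := mul_le_mul_of_nonneg_right hC3 hM0.le
              nlinarith

end Crest.Agent.R136.Str186
end

-- ▼ part R136/Str2_186
section

/-!
# R136: strips of the velocities, counts on the marked family (helper186)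

`card_grp` : grouping; `strip_tube` : one group of a strip is a tube; `tval_strip` : its
penalised size.
-/

set_option autoImplicit false
set_option linter.unusedVariables false

open Finset Filter Topology

namespace Crest.Agent.R136.Str186

open Crest.Agent.R138.Ex926 (Base U)
open Crest.Agent.R138.Mk163 (zc zl rho alive)
open Crest.Agent.R138.MkRef627 (lc kc)
open Crest.Agent.R138
open Crest.Agent.R136.MkA627
open Crest.Agent.R136.Net191
open Crest.Agent.R136.NetQ186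
open Crest.Agent.R136.GeoQ186
open Crest.Agent.R136.Sh605
open Crest.Agent.R136.Top484 (geo4)
open Crest.Agent.R136.PqG464 (pow_lev zc_near ev_const)
open Crest.Agent.R136.Wq638

/-! ### finite part -/

open Classical in
/-- grouping by the value of a function -/
theorem card_grp {ι : Type*} (Q : Finset ι) (f : ι → ℝ) {Y K T : ℝ} (hY : 0 < Y) (hY1 : Y ≤ 1)
    (hK : 1 ≤ K) (hf : ∀ j ∈ Q, |f j| ≤ 2 * K ^ 2) (hT : 0 ≤ T)
    (h : ∀ Q' : Finset ι, Q' ⊆ Q → (∀ j ∈ Q', ∀ j1 ∈ Q', |f j - f j1| ≤ Y) →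
      (Q'.card : ℝ) ≤ T) : (Q.card : ℝ) ≤ 6 * K ^ 2 / Y * T := by
  have hK2 : 1 ≤ K ^ 2 := one_le_pow₀ hK
  obtain ⟨m, hm⟩ : ∃ m : ι → ℤ, m = fun j => ⌊f j / Y⌋ := ⟨_, rfl⟩
  have hsub : Q.image m ⊆ Finset.Icc ⌊-(2 * K ^ 2 / Y)⌋ ⌊2 * K ^ 2 / Y⌋ := by
    intro a ha
    obtain ⟨j, hj, rfl⟩ := Finset.mem_image.1 ha
    have h1 := abs_le.1 (hf j hj)
    rw [hm, Finset.mem_Icc]
    refine ⟨Int.floor_le_floor ?_, Int.floor_le_floor (div_le_div_of_nonneg_right h1.2 hY.le)⟩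
    rw [← neg_div]
    exact div_le_div_of_nonneg_right h1.1 hY.le
  have hcard : ((Q.image m).card : ℝ) ≤ 6 * K ^ 2 / Y := by
    have h1 := Finset.card_le_card hsub
    have h2 : (((Q.image m).card : ℕ) : ℝ) ≤
        ((Finset.Icc ⌊-(2 * K ^ 2 / Y)⌋ ⌊2 * K ^ 2 / Y⌋).card : ℝ) := by exact_mod_cast h1
    refine h2.trans ?_
    rw [Int.card_Icc]
    have h3 : (⌊-(2 * K ^ 2 / Y)⌋ : ℤ) ≤ ⌊2 * K ^ 2 / Y⌋ + 1 := by
      have : (⌊-(2 * K ^ 2 / Y)⌋ : ℤ) ≤ ⌊2 * K ^ 2 / Y⌋ := by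
        refine Int.floor_le_floor ?_
        have : 0 ≤ 2 * K ^ 2 / Y := by positivity
        linarith
      linarith
    have h4 : (((⌊2 * K ^ 2 / Y⌋ + 1 - ⌊-(2 * K ^ 2 / Y)⌋).toNat : ℕ) : ℝ) =
        (⌊2 * K ^ 2 / Y⌋ : ℝ) + 1 - (⌊-(2 * K ^ 2 / Y)⌋ : ℝ) := by
      have : (((⌊2 * K ^ 2 / Y⌋ + 1 - ⌊-(2 * K ^ 2 / Y)⌋).toNat : ℕ) : ℤ) =
          ⌊2 * K ^ 2 / Y⌋ + 1 - ⌊-(2 * K ^ 2 / Y)⌋ := Int.toNat_of_nonneg (by linarith)
      have h5 : ((((⌊2 * K ^ 2 / Y⌋ + 1 - ⌊-(2 * K ^ 2 / Y)⌋).toNat : ℕ) : ℤ) : ℝ) =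
          ((⌊2 * K ^ 2 / Y⌋ + 1 - ⌊-(2 * K ^ 2 / Y)⌋ : ℤ) : ℝ) := by rw [this]
      push_cast at h5
      exact h5
    rw [h4]
    have h5 := Int.floor_le (2 * K ^ 2 / Y)
    have h6 := Int.lt_floor_add_one (-(2 * K ^ 2 / Y))
    have h7 : 2 ≤ 2 * K ^ 2 / Y := by
      rw [le_div_iff₀ hY]
      nlinarith
    have h8 : 6 * K ^ 2 / Y = 3 * (2 * K ^ 2 / Y) := by ring
    rw [h8]
    linarith
  have h1 : (Q.card : ℝ) = ∑ a ∈ Q.image m, ((Q.filter fun j => m j = a).card : ℝ) := by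
    rw [Finset.card_eq_sum_card_image m Q]
    push_cast
    rfl
  rw [h1]
  calc ∑ a ∈ Q.image m, ((Q.filter fun j => m j = a).card : ℝ) ≤ ∑ a ∈ Q.image m, T := by
        refine Finset.sum_le_sum fun a ha => h _ (Finset.filter_subset _ _) ?_
        intro j hj j1 hj1
        have e1 := (Finset.mem_filter.1 hj).2
        have e2 := (Finset.mem_filter.1 hj1).2
        rw [hm] at e1 e2
        have a1 := Int.floor_le (f j / Y)
        have a2 := Int.lt_floor_add_one (f j / Y)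
        have b1 := Int.floor_le (f j1 / Y)
        have b2 := Int.lt_floor_add_one (f j1 / Y)
        simp only at e1 e2
        rw [e1] at a1 a2
        rw [e2] at b1 b2
        rw [le_div_iff₀ hY] at a1 b1
        rw [div_lt_iff₀ hY] at a2 b2
        rw [abs_le]
        constructor <;> nlinarith
    _ = ((Q.image m).card : ℝ) * T := by rw [Finset.sum_const, nsmul_eq_mul]
    _ ≤ _ := mul_le_mul_of_nonneg_right hcard hT

/-- entries `5, 6` of the chart -/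
theorem coQ_56 {π : Equiv.Perm (Fin 3)} {c t : Ln4} {zx zy e fa fb ey fay fby HH WA WB WY : ℝ}
    (hH : 0 < HH) (hA : 0 < WA) (hB : 0 < WB) (hY : 0 < WY) :
    coQ (scl HH WA WB WY (mkT (cLn π c) zx e fa fb))
      (scl HH WA WB WY (mkT (cLn π t) zy ey fay fby)) 5 =
        dt (frmQ π e fa fb 1) (t.v - c.v) / WA ∧
    coQ (scl HH WA WB WY (mkT (cLn π c) zx e fa fb))
      (scl HH WA WB WY (mkT (cLn π t) zy ey fay fby)) 6 =
        dt (frmQ π e fa fb 2) (t.v - c.v) / WB := by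
  rw [coQ_scl hH.ne' hA.ne' hB.ne' hY.ne', coQ_scl hH.ne' hA.ne' hB.ne' hY.ne']
  rw [dt_frmQ1, dt_frmQ2]
  constructor
  · simp only [coQ, mkT, cLn, sfac, Matrix.cons_val, Pi.sub_apply]
    ring
  · simp only [coQ, mkT, cLn, sfac, Matrix.cons_val, Pi.sub_apply]
    ring


/-- the combined form -/
def cmb (a b : ℝ) (f g : V3) : V3 := fun i => a * f i + b * g i

theorem dt_cmb (a b : ℝ) (f g x : V3) : dt (cmb a b f g) x = a * dt f x + b * dt g x := by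
  simp only [dt, cmb]; ring

theorem det3_cmb (F : Fin 3 → V3) (a b c d : ℝ) :
    det3 (![F 0, cmb a b (F 1) (F 2), cmb c d (F 1) (F 2)] : Fin 3 → V3) =
      (a * d - b * c) * det3 F := by
  simp only [det3, dt, cr, cmb, Matrix.cons_val]
  ring

theorem dt_sub_right (f x y : V3) : dt f (x - y) = dt f x - dt f y := by
  simp only [dt, Pi.sub_apply]; ring

/-- the penalised size of the strip -/
theorem tval_strip {q : Fin 3 → ℝ} {ρ Sy Sa Sb Y r M qm : ℝ} (hρ : 0 < ρ) (h0 : 0 < Sy)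
    (h1 : 0 < Sa) (h2 : 0 < Sb) (hY : 0 < Y) (hY1 : Y ≤ 1) (hr : 0 < r) (hrM : r ≤ M)
    (hYr : Y ≤ r) (hM : 1 ≤ M) (hm1 : qm ≤ q 1) (hm2 : qm ≤ q 2) :
    tval q ρ ![Sy, r * Sa, Y / r * Sb] ≤
      tval q ρ ![Sy, Sa, Sb] * (Y * Y ^ qm) * M ^ |q 1 - q 2| := by
  have e1 : tval q ρ ![Sy, r * Sa, Y / r * Sb] =
      tval q ρ ![Sy, Sa, Sb] * Y * (Y ^ q 2 * r ^ (q 1 - q 2)) := by
    unfold tval
    simp only [Matrix.cons_val]
    have a1 : (r * Sa / ρ) ^ q 1 = r ^ q 1 * (Sa / ρ) ^ q 1 := by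
      rw [mul_div_assoc, Real.mul_rpow hr.le (div_pos h1 hρ).le]
    have a2 : (Y / r * Sb / ρ) ^ q 2 = Y ^ q 2 / r ^ q 2 * (Sb / ρ) ^ q 2 := by
      rw [mul_div_assoc, Real.mul_rpow (div_pos hY hr).le (div_pos h2 hρ).le,
        Real.div_rpow hY.le hr.le]
    rw [a1, a2, Real.rpow_sub hr]
    have := (Real.rpow_pos_of_pos hr (q 2)).ne'
    field_simp
  have hM0 : 0 < M := by linarith
  have e2 : Y ^ q 2 * r ^ (q 1 - q 2) ≤ Y ^ qm * M ^ |q 1 - q 2| := by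
    rcases le_total (q 2) (q 1) with h | h
    · rw [abs_of_nonneg (by linarith)]
      exact mul_le_mul (Real.rpow_le_rpow_of_exponent_ge hY hY1 hm2)
        (Real.rpow_le_rpow hr.le hrM (by linarith)) (Real.rpow_nonneg hr.le _)
        (Real.rpow_nonneg hY.le _)
    · have a1 : r ^ (q 1 - q 2) ≤ Y ^ (q 1 - q 2) :=
        Real.rpow_le_rpow_of_nonpos hY hYr (by linarith)
      calc Y ^ q 2 * r ^ (q 1 - q 2) ≤ Y ^ q 2 * Y ^ (q 1 - q 2) :=
            mul_le_mul_of_nonneg_left a1 (Real.rpow_nonneg hY.le _)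
        _ = Y ^ q 1 := by rw [← Real.rpow_add hY]; congr 1; ring
        _ ≤ Y ^ qm := Real.rpow_le_rpow_of_exponent_ge hY hY1 hm1
        _ ≤ Y ^ qm * M ^ |q 1 - q 2| := le_mul_of_one_le_right (Real.rpow_nonneg hY.le _)
            (Real.one_le_rpow hM (abs_nonneg _))
  have hv : 0 ≤ tval q ρ ![Sy, Sa, Sb] := by
    unfold tval
    simp only [Matrix.cons_val]
    positivity
  rw [e1]
  calc _ ≤ tval q ρ ![Sy, Sa, Sb] * Y * (Y ^ qm * M ^ |q 1 - q 2|) :=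
        mul_le_mul_of_nonneg_left e2 (mul_nonneg hv hY.le)
    _ = _ := by ring

theorem mul_dv {x S : ℝ} (hS : 0 < S) : S * (x / S) = x := by field_simp

set_option maxHeartbeats 1000000 in
/-- **finite part**: one group of a strip is a tube. `F 0, F 1, F 2` = the forms of the base flag. -/
theorem strip_tube {F : Fin 3 → V3} {Sy Sa Sb R K Y α β : ℝ} (hy : 0 < Sy) (ha : 0 < Sa)
    (hb : 0 < Sb) (hR : 0 < R) (hK : 32 ≤ K) (hab : Sb ≤ K * Sa) (hY : 0 < Y) (hY1 : Y ≤ 1)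
    (hor : 1 ≤ K * |α| ∨ 1 ≤ K * |β|) (hF : ∀ k i, |F k i| ≤ 1) (hdet : |det3 F| = 1) :
    ∃ (r : ℝ) (G : Fin 3 → V3), 0 < r ∧ r ≤ K ∧ Y ≤ r ∧ Y / r * Sb ≤ K * (r * Sa) ∧
      (∀ k i, |G k i| ≤ K) ∧ |det3 G| = 1 ∧ ∀ (c t1 t : Ln4) (z : ℝ),
        (∀ s ∈ ({t1, t} : Set Ln4), |dt (F 0) (s.pos z - c.pos z)| ≤ K * Sy ∧
          |dt (F 1) (s.pos z - c.pos z)| ≤ K * Sa ∧ |dt (F 2) (s.pos z - c.pos z)| ≤ K * Sb ∧
          |dt (F 0) (s.v - c.v)| * R ≤ K * Sy ∧ |dt (F 1) (s.v - c.v)| * R ≤ K * Sa ∧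
          |dt (F 2) (s.v - c.v)| * R ≤ K * Sb ∧
          |α * (dt (F 1) (s.v - c.v) * R / Sa) + β * (dt (F 2) (s.v - c.v) * R / Sb)| ≤ K * Y) →
        |(α * (dt (F 1) (t.pos z - c.pos z) / Sa) + β * (dt (F 2) (t.pos z - c.pos z) / Sb)) -
          (α * (dt (F 1) (t1.pos z - c.pos z) / Sa) +
            β * (dt (F 2) (t1.pos z - c.pos z) / Sb))| ≤ Y →
        ∀ k, |dt (G k) (t.pos z - t1.pos z)| ≤ K ^ 8 * (![Sy, r * Sa, Y / r * Sb] : Fin 3 → ℝ) k ∧
          |dt (G k) (t.v - t1.v)| * R ≤ K ^ 8 * (![Sy, r * Sa, Y / r * Sb] : Fin 3 → ℝ) k := by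
  have hK1 : 1 ≤ K := by linarith
  have hK0 : 0 < K := by linarith
  have hC : 1 ≤ 2 * K ^ 2 := by nlinarith
  have hKC : 2 * K ≤ 2 * K ^ 2 := by nlinarith
  have hor' : 1 ≤ 2 * K ^ 2 * |α| ∨ 1 ≤ 2 * K ^ 2 * |β| := by
    rcases hor with h | h
    · left; exact h.trans (mul_le_mul_of_nonneg_right (by nlinarith) (abs_nonneg _))
    · right; exact h.trans (mul_le_mul_of_nonneg_right (by nlinarith) (abs_nonneg _))
  obtain ⟨r, hr, hrK, hYr, hrab, f1a, f1b, f2a, f2b, g1, g2, g3, g4, g5, g6⟩ :=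
    strip2 ha hb hab hY hY1 hC hK1 hor'
  obtain ⟨G, hG⟩ : ∃ G : Fin 3 → V3, G = ![F 0, cmb f1a f1b (F 1) (F 2), cmb f2a f2b (F 1) (F 2)] :=
    ⟨_, rfl⟩
  have hGle : ∀ k i, |G k i| ≤ K := by
    intro k i
    have key : ∀ a b : ℝ, |a| ≤ 1 → |b| ≤ 1 → |cmb a b (F 1) (F 2) i| ≤ K := by
      intro a b h1 h2
      unfold cmb
      calc |a * F 1 i + b * F 2 i| ≤ |a * F 1 i| + |b * F 2 i| := abs_add_le _ _
        _ = |a| * |F 1 i| + |b| * |F 2 i| := by rw [abs_mul, abs_mul]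
        _ ≤ 1 * 1 + 1 * 1 := add_le_add
            (mul_le_mul h1 (hF 1 i) (abs_nonneg _) zero_le_one)
            (mul_le_mul h2 (hF 2 i) (abs_nonneg _) zero_le_one)
        _ ≤ K := by linarith
    rw [hG]
    fin_cases k
    · exact (hF 0 i).trans hK1
    · exact key _ _ g1 g2
    · exact key _ _ g3 g4
  have hGdet : |det3 G| = 1 := by
    rw [hG, det3_cmb, abs_mul, g5, hdet, one_mul]
  refine ⟨r, G, hr, hrK, hYr, hrab, hGle, hGdet, ?_⟩
  intro c t1 t z hs hg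
  obtain ⟨a1, a2, a3, a4, a5, a6, a7⟩ := hs t1 (by simp)
  obtain ⟨b1, b2, b3, b4, b5, b6, b7⟩ := hs t (by simp)
  -- differences
  have ep : ∀ f : V3, dt f (t.pos z - t1.pos z) =
      dt f (t.pos z - c.pos z) - dt f (t1.pos z - c.pos z) := by
    intro f
    rw [← dt_sub_right]
    congr 1
    abel
  have ev : ∀ f : V3, dt f (t.v - t1.v) = dt f (t.v - c.v) - dt f (t1.v - c.v) := by
    intro f
    rw [← dt_sub_right]
    congr 1
    abel
  have two : ∀ {x y S : ℝ}, |x| ≤ K * S → |y| ≤ K * S → |y - x| ≤ 2 * K * S := by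
    intro x y S h1 h2
    calc |y - x| ≤ |y| + |x| := abs_sub _ _
      _ ≤ _ := by linarith
  have hK8 : 2 * K ≤ K ^ 8 := by
    have h1 : K ≤ K ^ 7 := by
      calc K = K ^ 1 := (pow_one K).symm
        _ ≤ K ^ 7 := pow_le_pow_right₀ hK1 (by norm_num)
    calc 2 * K ≤ K * K := by nlinarith
      _ ≤ K * K ^ 7 := mul_le_mul_of_nonneg_left h1 hK0.le
      _ = K ^ 8 := by ring
  have hK8' : 4 * (2 * K ^ 2) ^ 3 * K ≤ K ^ 8 := by
    have e : 4 * (2 * K ^ 2) ^ 3 * K = 32 * K ^ 7 := by ring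
    have e2 : K ^ 8 = K * K ^ 7 := by ring
    rw [e, e2]
    exact mul_le_mul_of_nonneg_right hK (by positivity)
  -- relative coordinates of the differences
  obtain ⟨xp, hxp⟩ : ∃ xp, xp = dt (F 1) (t.pos z - t1.pos z) / Sa := ⟨_, rfl⟩
  obtain ⟨yp, hyp⟩ : ∃ yp, yp = dt (F 2) (t.pos z - t1.pos z) / Sb := ⟨_, rfl⟩
  obtain ⟨xv, hxv⟩ : ∃ xv, xv = dt (F 1) (t.v - t1.v) * R / Sa := ⟨_, rfl⟩
  obtain ⟨yv, hyv⟩ : ∃ yv, yv = dt (F 2) (t.v - t1.v) * R / Sb := ⟨_, rfl⟩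
  have rel : ∀ {x S : ℝ}, 0 < S → |x| ≤ 2 * K * S → |x / S| ≤ 2 * K ^ 2 := by
    intro x S hS h
    rw [abs_div, abs_of_pos hS, div_le_iff₀ hS]
    exact h.trans (mul_le_mul_of_nonneg_right hKC hS.le)
  have hxp' : |xp| ≤ 2 * K ^ 2 := by rw [hxp, ep]; exact rel ha (two a2 b2)
  have hyp' : |yp| ≤ 2 * K ^ 2 := by rw [hyp, ep]; exact rel hb (two a3 b3)
  have absR : ∀ x : ℝ, |x * R| = |x| * R := fun x => by rw [abs_mul, abs_of_pos hR]
  have hxv' : |xv| ≤ 2 * K ^ 2 := by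
    rw [hxv, ev, sub_mul]
    exact rel ha (two (by rw [absR]; exact a5) (by rw [absR]; exact b5))
  have hyv' : |yv| ≤ 2 * K ^ 2 := by
    rw [hyv, ev, sub_mul]
    exact rel hb (two (by rw [absR]; exact a6) (by rw [absR]; exact b6))
  have hlp : |α * xp + β * yp| ≤ 2 * K ^ 2 * Y := by
    have e : α * xp + β * yp = (α * (dt (F 1) (t.pos z - c.pos z) / Sa) +
        β * (dt (F 2) (t.pos z - c.pos z) / Sb)) - (α * (dt (F 1) (t1.pos z - c.pos z) / Sa) +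
          β * (dt (F 2) (t1.pos z - c.pos z) / Sb)) := by
      rw [hxp, hyp, ep, ep]; ring
    rw [e]
    refine hg.trans ?_
    nlinarith
  have hlv : |α * xv + β * yv| ≤ 2 * K ^ 2 * Y := by
    have e : α * xv + β * yv = (α * (dt (F 1) (t.v - c.v) * R / Sa) +
        β * (dt (F 2) (t.v - c.v) * R / Sb)) - (α * (dt (F 1) (t1.v - c.v) * R / Sa) +
          β * (dt (F 2) (t1.v - c.v) * R / Sb)) := by
      rw [hxv, hyv, ev, ev]; ring
    rw [e]
    refine (two a7 b7).trans ?_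
    exact mul_le_mul_of_nonneg_right hKC hY.le
  have e1 : Sa * xp = dt (F 1) (t.pos z - t1.pos z) := by rw [hxp, mul_dv ha]
  have e2 : Sb * yp = dt (F 2) (t.pos z - t1.pos z) := by rw [hyp, mul_dv hb]
  have e3 : Sa * xv = dt (F 1) (t.v - t1.v) * R := by rw [hxv, mul_dv ha]
  have e4 : Sb * yv = dt (F 2) (t.v - t1.v) * R := by rw [hyv, mul_dv hb]
  obtain ⟨P1, P2⟩ := g6 xp yp hxp' hyp' hlp
  obtain ⟨Q1, Q2⟩ := g6 xv yv hxv' hyv' hlv
  rw [e1, e2] at P1 P2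
  rw [e3, e4] at Q1 Q2
  have hrS : 0 < r * Sa := mul_pos hr ha
  have hYS : 0 < Y / r * Sb := mul_pos (div_pos hY hr) hb
  intro k
  rw [hG]
  fin_cases k
  · refine ⟨?_, ?_⟩
    · show |dt (F 0) (t.pos z - t1.pos z)| ≤ K ^ 8 * Sy
      rw [ep]
      exact (two a1 b1).trans (mul_le_mul_of_nonneg_right hK8 hy.le)
    · show |dt (F 0) (t.v - t1.v)| * R ≤ K ^ 8 * Sy
      rw [← absR, ev, sub_mul]
      exact (two (by rw [absR]; exact a4) (by rw [absR]; exact b4)).trans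
        (mul_le_mul_of_nonneg_right hK8 hy.le)
  · refine ⟨?_, ?_⟩
    · show |dt (cmb f1a f1b (F 1) (F 2)) (t.pos z - t1.pos z)| ≤ K ^ 8 * (r * Sa)
      rw [dt_cmb]
      exact P1.trans (mul_le_mul_of_nonneg_right hK8' hrS.le)
    · show |dt (cmb f1a f1b (F 1) (F 2)) (t.v - t1.v)| * R ≤ K ^ 8 * (r * Sa)
      rw [dt_cmb, ← absR, add_mul, mul_assoc, mul_assoc]
      exact Q1.trans (mul_le_mul_of_nonneg_right hK8' hrS.le)
  · refine ⟨?_, ?_⟩
    · show |dt (cmb f2a f2b (F 1) (F 2)) (t.pos z - t1.pos z)| ≤ K ^ 8 * (Y / r * Sb)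
      rw [dt_cmb]
      exact P2.trans (mul_le_mul_of_nonneg_right hK8' hYS.le)
    · show |dt (cmb f2a f2b (F 1) (F 2)) (t.v - t1.v)| * R ≤ K ^ 8 * (Y / r * Sb)
      rw [dt_cmb, ← absR, add_mul, mul_assoc, mul_assoc]
      exact Q2.trans (mul_le_mul_of_nonneg_right hK8' hYS.le)

end Crest.Agent.R136.Str186
end

-- ▼ part R136/Str3_186
section

/-!
# R136: strips of the velocities, counts on the marked family (helper186)

`strip_count` : incidences of a chart box whose velocities lie in ONE strip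
`|α C_a + β C_b| ≤ Y` (relative units of the box) : `≤ N0Q d^-(DQ p + ε) Y^qm`, `qm ≤ q 1, q 2`, uniformly in `Y`
and in the strip.
-/

set_option autoImplicit false
set_option linter.unusedVariables false

open Finset Filter Topology

namespace Crest.Agent.R136.Str186

open Crest.Agent.R138.Ex926 (Base U)
open Crest.Agent.R138.Mk163 (zc zl rho alive)
open Crest.Agent.R138.MkRef627 (lc kc)
open Crest.Agent.R138
open Crest.Agent.R136.MkA627
open Crest.Agent.R136.Net191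
open Crest.Agent.R136.NetQ186
open Crest.Agent.R136.GeoQ186
open Crest.Agent.R136.Sh605
open Crest.Agent.R136.Top484 (geo4)
open Crest.Agent.R136.PqG464 (pow_lev zc_near ev_const)
open Crest.Agent.R136.Wq638

/-- relative units -/
theorem rel_unit {d HH W V p0 p5 p8 : ℝ} (hd : 0 < d) (hH : 0 < HH) (hW : 0 < W)
    (w : p8 = p0 + p5) : V * (d ^ p0 / HH) / (W * d ^ p8 / HH) = V / W / d ^ p5 := by
  have h0 := (dpos hd p0).ne'
  have h5 := (dpos hd p5).ne'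
  rw [w, Real.rpow_add hd]
  field_simp

/-- a chart box in the frame of its base flag -/
theorem near_frame {π : Equiv.Perm (Fin 3)} {c t : Ln4} {zx zy e fa fb ey fay fby HH WA WB WY d K :
    ℝ} {p : Fin 11 → ℝ} (hd : 0 < d) (hd1 : d < 1) (hH : 0 < HH) (hA : 0 < WA)
    (hB : 0 < WB) (hY : 0 < WY) (hK : 0 ≤ K) (w8 : p 8 = p 0 + p 5) (w9 : p 9 = p 0 + p 6)
    (w10 : p 10 ≤ p 0 + p 7) {co : Fin 11 → ℝ}
    (hco : co = coQ (scl HH WA WB WY (mkT (cLn π c) zx e fa fb))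
      (scl HH WA WB WY (mkT (cLn π t) zy ey fay fby)))
    (h : ∀ k, |co k| ≤ K * d ^ p k) {α β Y : ℝ}
    (hs : |α * (co 5 / d ^ p 5) + β * (co 6 / d ^ p 6)| ≤ K * Y) :
    |zy - zx| ≤ K * (d ^ p 0 / HH) ∧
      (|dt (frmQ π e fa fb 0) (t.pos zx - c.pos zx)| ≤ K * Sz d HH WA WB WY p 0 ∧
       |dt (frmQ π e fa fb 1) (t.pos zx - c.pos zx)| ≤ K * Sz d HH WA WB WY p 1 ∧
       |dt (frmQ π e fa fb 2) (t.pos zx - c.pos zx)| ≤ K * Sz d HH WA WB WY p 2 ∧
       |dt (frmQ π e fa fb 0) (t.v - c.v)| * (d ^ p 0 / HH) ≤ K * Sz d HH WA WB WY p 0 ∧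
       |dt (frmQ π e fa fb 1) (t.v - c.v)| * (d ^ p 0 / HH) ≤ K * Sz d HH WA WB WY p 1 ∧
       |dt (frmQ π e fa fb 2) (t.v - c.v)| * (d ^ p 0 / HH) ≤ K * Sz d HH WA WB WY p 2 ∧
       |α * (dt (frmQ π e fa fb 1) (t.v - c.v) * (d ^ p 0 / HH) / Sz d HH WA WB WY p 1) +
        β * (dt (frmQ π e fa fb 2) (t.v - c.v) * (d ^ p 0 / HH) / Sz d HH WA WB WY p 2)| ≤
          K * Y) := by
  have hS : NearS (coQ (scl HH WA WB WY (mkT (cLn π c) zx e fa fb))
      (scl HH WA WB WY (mkT (cLn π t) zy ey fay fby))) d p K (0 * (WA / WB)) (0 * (WA / WY))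
      (0 * (WB / WY)) := by
    rw [← hco]
    simp only [zero_mul]
    exact ⟨h 0, h 5, by simpa using h 6, by simpa using h 7, h 8, by simpa using h 9,
      by simpa using h 10⟩
  obtain ⟨g1, g2⟩ := nearS_tube hd hd1 hH hA hB hY hK w8.le w9.le w10 hS
  simp only [add_zero, zero_mul, sub_zero] at g2
  refine ⟨g1, (g2 0).1, (g2 1).1, (g2 2).1, (g2 0).2, (g2 1).2, (g2 2).2, ?_⟩
  obtain ⟨c5, c6⟩ := coQ_56 (π := π) (c := c) (t := t) (zx := zx) (zy := zy) (e := e) (fa := fa)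
    (fb := fb) (ey := ey) (fay := fay) (fby := fby) hH hA hB hY
  rw [← hco] at c5 c6
  have e1 : dt (frmQ π e fa fb 1) (t.v - c.v) * (d ^ p 0 / HH) / Sz d HH WA WB WY p 1 =
      co 5 / d ^ p 5 := by
    rw [c5]
    exact rel_unit hd hH hA w8
  have e2 : dt (frmQ π e fa fb 2) (t.v - c.v) * (d ^ p 0 / HH) / Sz d HH WA WB WY p 2 =
      co 6 / d ^ p 6 := by
    rw [c6]
    exact rel_unit hd hH hB w9
  rw [e1, e2]
  exact hs

section

variable {B : Base} {I : ℕ → Finset (ℕ × ℝ)} {lev : ℕ → ℚ → ℕ}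
    {A : ℕ → ℝ} {g s : ℝ} {τ : Fin 3 → ℝ → ℝ} {f : ℕ → ℚ → ℕ → ℤ → ℕ} {b : ℕ → ℚ → ℕ → K4.Plk4}
    {vm : ℕ → ℚ → ℝ} {w : Fin 3 → ℕ → ℚ → ℝ} {L : ℕ → ℕ → Ln4} {r0 : ℕ → ℝ}
    {wr cr : Fin 3 → ℕ → ℝ} {q : Fin 3 → ℝ} {π : Equiv.Perm (Fin 3)} {E Fa Fb : ℕ → ℕ × ℝ → ℝ} {w0 R : ℝ} {p : Fin 11 → ℝ}

open Classical in
set_option maxHeartbeats 1000000 in
/-- **incidences of a chart box with velocities in one strip** -/
theorem strip_count (hM : MkA B I (geo4 L r0 wr cr q) lev A (fun v => g * v) (fun v => s * v) τ f b vm w)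
    (C0 : ℝ) (hq : ∀ j, 0 ≤ q j) {qm : ℝ} (hm1 : qm ≤ q 1) (hm2 : qm ≤ q 2)
    (hE : ∀ n, ∀ x ∈ I n, |E n x| ≤ 1) (hFa : ∀ n, ∀ x ∈ I n, |Fa n x| ≤ 1)
    (hFb : ∀ n, ∀ x ∈ I n, |Fb n x| ≤ 1)
    (w8 : p 8 = p 0 + p 5) (w9 : p 9 = p 0 + p 6) (w10 : p 10 ≤ p 0 + p 7)
    (hp0 : w0 ≤ p 0) (hp1 : p 0 ≤ w0 + 1)
    (hX : TubeOk B r0 wr cr lev (p 0 - w0) (fun k => SQ B lev w w0 p k)) {ε : ℝ} (hε : 0 < ε) :
    ∃ δ : ℝ, 0 < δ ∧ ∀ᶠ n in (U : Filter ℕ), ∀ x ∈ I n, ∀ Y : ℝ, 0 < Y → Y ≤ 1 →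
      B.d n ^ C0 ≤ Y →
      SQ B lev w w0 p 0 n ≤ B.d n ^ (-δ) * (Y * SQ B lev w w0 p 2 n) → ∀ α β : ℝ,
      |α| ≤ B.d n ^ (-δ) → |β| ≤ B.d n ^ (-δ) →
      (1 ≤ B.d n ^ (-δ) * |α| ∨ 1 ≤ B.d n ^ (-δ) * |β|) →
      ∀ Q : Finset (ℕ × ℝ), Q ⊆ I n → (∀ j ∈ Q,
        Near (couQ B lev w w0 (incQ π L E Fa Fb) n) (B.d n) p (B.d n ^ (-δ)) x j ∧
        |α * (couQ B lev w w0 (incQ π L E Fa Fb) n x j 5 / B.d n ^ p 5) +
          β * (couQ B lev w w0 (incQ π L E Fa Fb) n x j 6 / B.d n ^ p 6)| ≤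
          B.d n ^ (-δ) * Y) →
      (Q.card : ℝ) ≤ N0Q A vm n * B.d n ^ (-(DQ g s q w0 p + ε)) * Y ^ qm := by
  obtain ⟨δc, hδc, hcap⟩ := hX.cap
  obtain ⟨δ1, hδ1, hdm⟩ := dmax_unif hM (flatGeo_geo4 L r0 wr cr q) hq (v := p 0 - w0) (by linarith)
    (by linarith) (half_pos hδc) (half_pos hε)
  obtain ⟨κ, hκ⟩ : ∃ κ : ℝ, κ = |q 1 - q 2| := ⟨_, rfl⟩
  have hκ0 : 0 ≤ κ := by rw [hκ]; exact abs_nonneg _
  obtain ⟨δ, hδ⟩ : ∃ δ : ℝ, δ = min (min (δ1 / 8) (δc / 2)) (ε / (2 * (3 + κ))) := ⟨_, rfl⟩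
  have hδ0 : 0 < δ := by
    rw [hδ]
    refine lt_min (lt_min (by linarith) (by linarith)) (div_pos hε (by linarith))
  have d1 : 8 * δ ≤ δ1 := by
    have : δ ≤ δ1 / 8 := by rw [hδ]; exact (min_le_left _ _).trans (min_le_left _ _)
    linarith
  have d2 : δ ≤ δc / 2 := by rw [hδ]; exact (min_le_left _ _).trans (min_le_right _ _)
  have d3 : δ * (3 + κ) ≤ ε / 2 := by
    have h1 : δ ≤ ε / (2 * (3 + κ)) := by rw [hδ]; exact min_le_right _ _
    rw [le_div_iff₀ (by linarith)] at h1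
    linarith
  clear hδ
  refine ⟨δ, hδ0, ?_⟩
  filter_upwards [hX.rn 1 C0, hX.rn 2 (C0 + δ), hX.rn 1 (δ + δc / 2), hX.rn 2 (δc / 2),
    hX.rn 0 0, hX.rn 0 (δc / 2), hdm, hcap, hX.o21 δ hδ0, hX.res δ hδ0, hM.wpos 0 0 le_rfl zero_le_one,
    hM.wpos 1 0 le_rfl zero_le_one, hM.wpos 2 0 le_rfl zero_le_one, vm_eq hM le_rfl zero_le_one,
    ev_const B (c := 32) (by norm_num) hδ0] with n hwr1 hwr2 hcr1 hcr2 hwr0 hcr0
    hn hcapn h21 hres h0 h1 h2 hvm h32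
    x hx Y hY hY1 hYC hYS α β hα hβ hor Q hQI hQ
  have hAp := hM.Apos n
  have hd := B.pos n
  have hd1 := B.lt n
  have dpp := fun a => Dp76.dpow_pos B n a
  have a := uA_pos (B := B) (lev := lev) (w0 := w0) h1
  have b := uB_pos (B := B) (lev := lev) (w0 := w0) h2
  have y := uY_pos (B := B) (lev := lev) (w0 := w0) h0
  have H := uH_pos (B := B) (lev := lev) (w0 := w0) n
  have hρ : 0 < rho (lev n 0) := rho_pos _
  have K32 := const_le h32
  obtain ⟨K, hK⟩ : ∃ K, K = B.d n ^ (-δ) := ⟨_, rfl⟩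
  rw [← hK] at K32 hα hβ hor hYS h21 hres hQ
  have hK0 : 0 < K := by linarith
  have hK1 : 1 ≤ K := by linarith
  have hK8 : K ^ 8 ≤ B.d n ^ (-δ1) := by
    rw [hK, ← Real.rpow_natCast, ← Real.rpow_mul hd.le]
    refine Dp76.dpow_le B n ?_
    push_cast
    linarith
  have hKδ : K ≤ B.d n ^ (-δ1) := by
    refine le_trans ?_ hK8
    calc K = K ^ 1 := (pow_one K).symm
      _ ≤ K ^ 8 := pow_le_pow_right₀ hK1 (by norm_num)
  have hK2δ : K * K ≤ B.d n ^ (-δ1) := by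
    refine le_trans ?_ hK8
    calc K * K = K ^ 2 := by ring
      _ ≤ K ^ 8 := pow_le_pow_right₀ hK1 (by norm_num)
  -- sizes
  obtain ⟨Sy, hSy⟩ : ∃ S, S = SQ B lev w w0 p 0 n := ⟨_, rfl⟩
  obtain ⟨Sa, hSa⟩ : ∃ S, S = SQ B lev w w0 p 1 n := ⟨_, rfl⟩
  obtain ⟨Sb, hSb⟩ : ∃ S, S = SQ B lev w w0 p 2 n := ⟨_, rfl⟩
  have hSy0 : 0 < Sy := by rw [hSy]; exact SQ_pos h0 h1 h2 0
  have hSa0 : 0 < Sa := by rw [hSa]; exact SQ_pos h0 h1 h2 1
  have hSb0 : 0 < Sb := by rw [hSb]; exact SQ_pos h0 h1 h2 2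
  rw [← hSy, ← hSb] at hYS
  rw [← hSa, ← hSb] at h21
  rw [← hSy] at hres
  rw [← hSa] at hcapn
  obtain ⟨Rr, hRr⟩ : ∃ Rr, Rr = B.d n ^ p 0 / uH B lev w0 n := ⟨_, rfl⟩
  have hRr0 : 0 < Rr := by rw [hRr]; exact div_pos (dpp _) H
  have hRe : B.d n ^ (p 0 - w0) * rho (lev n 0) = Rr := by rw [hRr, len_eq]
  obtain ⟨F, hF⟩ : ∃ F, F = frmQ π (E n x) (Fa n x) (Fb n x) := ⟨_, rfl⟩
  have hFle : ∀ k i, |F k i| ≤ 1 := by
    rw [hF]
    exact frmQ_le le_rfl (hE n x hx) (hFa n x hx) (hFb n x hx)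
  have hFdet : |det3 F| = 1 := by rw [hF]; exact frmQ_det _ _ _ _
  obtain ⟨r, G, hr, hrK, hYr, hrab, hGle, hGdet, hG⟩ := strip_tube (F := F) hSy0 hSa0 hSb0 hRr0 K32 h21
    hY hY1 hor hFle hFdet
  -- facts on the elements
  have fac : ∀ j ∈ Q, |j.2 - x.2| ≤ K * Rr ∧
      (|dt (F 0) ((L n j.1).pos x.2 - (L n x.1).pos x.2)| ≤ K * Sy ∧
       |dt (F 1) ((L n j.1).pos x.2 - (L n x.1).pos x.2)| ≤ K * Sa ∧
       |dt (F 2) ((L n j.1).pos x.2 - (L n x.1).pos x.2)| ≤ K * Sb ∧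
       |dt (F 0) ((L n j.1).v - (L n x.1).v)| * Rr ≤ K * Sy ∧
       |dt (F 1) ((L n j.1).v - (L n x.1).v)| * Rr ≤ K * Sa ∧
       |dt (F 2) ((L n j.1).v - (L n x.1).v)| * Rr ≤ K * Sb ∧
       |α * (dt (F 1) ((L n j.1).v - (L n x.1).v) * Rr / Sa) +
        β * (dt (F 2) ((L n j.1).v - (L n x.1).v) * Rr / Sb)| ≤ K * Y) := by
    intro j hj
    obtain ⟨q1, q2⟩ := hQ j hj
    rw [hF, hRr, hSy, hSa, hSb]
    exact near_frame hd hd1 H a b y hK0.le w8 w9 w10 rfl q1 q2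
  have hq1 : wr 1 n ≤ r * Sa := by
    rw [hSa]
    refine hwr1.1.trans (mul_le_mul_of_nonneg_right (hYC.trans hYr) ?_)
    rw [← hSa]; exact hSa0.le
  have hq2 : wr 2 n ≤ Y / r * Sb := by
    rw [hSb]
    refine hwr2.1.trans (mul_le_mul_of_nonneg_right ?_ ?_)
    · rw [le_div_iff₀ hr]
      calc B.d n ^ (C0 + δ) * r ≤ B.d n ^ (C0 + δ) * K :=
            mul_le_mul_of_nonneg_left hrK (dpp _).le
        _ = B.d n ^ C0 := by
            rw [hK, ← Dp76.dpow_add]; congr 1; ring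
        _ ≤ Y := hYC
    · rw [← hSb]; exact hSb0.le
  have hq3 : r * Sa ≤ B.d n ^ (δc / 2) * cr 1 n := by
    have h5 : Sa ≤ B.d n ^ (δ + δc / 2) * cr 1 n := by rw [hSa]; exact hcr1.2
    calc r * Sa ≤ K * (B.d n ^ (δ + δc / 2) * cr 1 n) := mul_le_mul hrK h5 hSa0.le hK0.le
      _ = B.d n ^ (δc / 2) * cr 1 n := by
          rw [hK, ← mul_assoc, ← Dp76.dpow_add]
          congr 2; ring
  have hq4 : Y / r * Sb ≤ B.d n ^ (δc / 2) * cr 2 n := by
    have h5 : Sb ≤ B.d n ^ (δc / 2) * cr 2 n := by rw [hSb]; exact hcr2.2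
    refine le_trans ?_ h5
    calc Y / r * Sb ≤ 1 * Sb := mul_le_mul_of_nonneg_right ((div_le_one hr).2 hYr) hSb0.le
      _ = Sb := one_mul _
  have hq5 : ∀ k, wr k n ≤ ![Sy, r * Sa, Y / r * Sb] k ∧
      ![Sy, r * Sa, Y / r * Sb] k ≤ B.d n ^ (δc / 2) * cr k n := by
    intro k
    fin_cases k
    · refine ⟨?_, ?_⟩
      · show wr 0 n ≤ Sy
        rw [hSy]
        have := hwr0.1
        rwa [Real.rpow_zero, one_mul] at this
      · show Sy ≤ B.d n ^ (δc / 2) * cr 0 n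
        rw [hSy]
        exact hcr0.2
    · exact ⟨hq1, hq3⟩
    · exact ⟨hq2, hq4⟩
  obtain ⟨T, hT⟩ : ∃ T, T = A n * tval q Rr ![Sy, r * Sa, Y / r * Sb] *
      B.d n ^ (-(g * (p 0 - w0) + (1 - s) * (1 - (p 0 - w0)) + ε / 2)) := ⟨_, rfl⟩
  have hrSa : 0 < r * Sa := mul_pos hr hSa0
  have hYrSb : 0 < Y / r * Sb := mul_pos (div_pos hY hr) hSb0
  have hT0 : 0 ≤ T := by
    rw [hT]
    have : 0 ≤ tval q Rr ![Sy, r * Sa, Y / r * Sb] := by
      unfold tval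
      simp only [Matrix.cons_val]
      positivity
    have := dpp (-(g * (p 0 - w0) + (1 - s) * (1 - (p 0 - w0)) + ε / 2))
    positivity
  have hgrp := card_grp Q (fun j => α * (dt (F 1) ((L n j.1).pos x.2 - (L n x.1).pos x.2) / Sa) +
      β * (dt (F 2) ((L n j.1).pos x.2 - (L n x.1).pos x.2) / Sb)) hY hY1 hK1 (fun j hj => by
        obtain ⟨-, -, q2, q3, -⟩ := fac j hj
        have m : ∀ {t u S : ℝ}, 0 < S → |t| ≤ K → |u| ≤ K * S → |t * (u / S)| ≤ K ^ 2 := by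
          intro t u S hS h1 h2
          rw [abs_mul, abs_div, abs_of_pos hS, pow_two]
          refine mul_le_mul h1 ?_ (by positivity) hK0.le
          rw [div_le_iff₀ hS]
          exact h2
        calc |_ + _| ≤ _ := abs_add_le _ _
          _ ≤ K ^ 2 + K ^ 2 := add_le_add (m hSa0 hα q2) (m hSb0 hβ q3)
          _ = 2 * K ^ 2 := by ring) hT0 (fun Q' hQ' hcl => by
        rcases Q'.eq_empty_or_nonempty with hemp | ⟨j1, hj1⟩
        · rw [hemp]; simpa using hT0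
        · have hsz : (∀ y ∈ Q', InTube L n (L n j1.1) x.2 G
              (B.d n ^ (p 0 - w0) * rho (lev n 0)) ![Sy, r * Sa, Y / r * Sb]
              (B.d n ^ (-δ1)) y) := by
            intro j hj
            have hk := hG (L n x.1) (L n j1.1) (L n j.1) x.2 (by
              intro s hs
              rcases hs with rfl | hs
              · exact (fac j1 (hQ' hj1)).2
              · rw [Set.mem_singleton_iff.1 hs]
                exact (fac j (hQ' hj)).2) (hcl j hj j1 hj1)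
            rw [hRe]
            refine ⟨(fac j (hQ' hj)).1.trans (mul_le_mul_of_nonneg_right hKδ hRr0.le),
              fun k => ?_⟩
            have hpos : 0 ≤ (![Sy, r * Sa, Y / r * Sb] : Fin 3 → ℝ) k := by
              fin_cases k
              · exact hSy0.le
              · exact hrSa.le
              · exact hYrSb.le
            exact ⟨(hk k).1.trans (mul_le_mul_of_nonneg_right hK8 hpos),
              (hk k).2.trans (mul_le_mul_of_nonneg_right hK8 hpos)⟩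
          have hcount := hn ![Sy, r * Sa, Y / r * Sb] hSy0 hrSa hYrSb ?_ ?_ ?_ ?_ hq5
            (L n j1.1) x.2 G Q' (hQ'.trans hQI) (fun k i => (hGle k i).trans hKδ) ?_ hsz
          · rw [hRe] at hcount
            rw [hT]
            exact hcount
          · -- thickness below the narrow width
            show Sy ≤ B.d n ^ (-δ1) * (Y / r * Sb)
            have e1 : Y * Sb ≤ K * (Y / r * Sb) := by
              have : Y * Sb = r * (Y / r * Sb) := by field_simp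
              rw [this]
              exact mul_le_mul_of_nonneg_right hrK hYrSb.le
            calc Sy ≤ K * (Y * Sb) := hYS
              _ ≤ K * (K * (Y / r * Sb)) := mul_le_mul_of_nonneg_left e1 hK0.le
              _ = K * K * (Y / r * Sb) := by ring
              _ ≤ _ := mul_le_mul_of_nonneg_right hK2δ hYrSb.le
          · show Y / r * Sb ≤ B.d n ^ (-δ1) * (r * Sa)
            exact hrab.trans (mul_le_mul_of_nonneg_right hKδ hrSa.le)
          · show r0 n ≤ B.d n ^ (-δ1) * Sy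
            exact hres.trans (mul_le_mul_of_nonneg_right hKδ hSy0.le)
          · show r * Sa ≤ B.d n ^ (p 0 - w0 + δc / 2) * rho (lev n 0)
            calc r * Sa ≤ K * (B.d n ^ (p 0 - w0 + δc) * rho (lev n 0)) :=
                  mul_le_mul hrK hcapn hSa0.le hK0.le
              _ = B.d n ^ (p 0 - w0 + δc - δ) * rho (lev n 0) := by
                  rw [hK, ← mul_assoc, ← Dp76.dpow_add]
                  congr 2; ring
              _ ≤ _ := mul_le_mul_of_nonneg_right (Dp76.dpow_le B n (by linarith)) hρ.le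
          · rw [hGdet, mul_one]
            exact hK1.trans hKδ)
  refine hgrp.trans ?_
  -- the value
  have hval := tval_strip (q := q) hRr0 hSy0 hSa0 hSb0 hY hY1 hr hrK hYr hK1 hm1 hm2
  have hvS : tval q Rr ![Sy, Sa, Sb] = vm n 0 *
      B.d n ^ (-(9 * w0) - (3 * w0 * q 0 + w0 * q 1 + 2 * w0 * q 2) + Dp q p) := by
    rw [← tval_SQ h0 h1 h2 hvm, hRe, hSy, hSa, hSb]
    unfold tval
    simp only [Matrix.cons_val]
  have hcst : 6 * K ^ 2 * K ^ |q 1 - q 2| ≤ B.d n ^ (-(ε / 2)) := by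
    have e1 : K ^ 3 * K ^ |q 1 - q 2| = B.d n ^ (-(δ * (3 + κ))) := by
      rw [hK, ← Real.rpow_natCast, ← Real.rpow_mul hd.le, ← Real.rpow_mul hd.le, ← Dp76.dpow_add,
        ← hκ]
      congr 1; push_cast; ring
    calc 6 * K ^ 2 * K ^ |q 1 - q 2| ≤ K ^ 3 * K ^ |q 1 - q 2| := by
          refine mul_le_mul_of_nonneg_right ?_ (Real.rpow_nonneg hK0.le _)
          have : K ^ 3 = K * K ^ 2 := by ring
          rw [this]
          exact mul_le_mul_of_nonneg_right (by linarith) (by positivity)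
      _ = B.d n ^ (-(δ * (3 + κ))) := e1
      _ ≤ _ := Dp76.dpow_le B n (by linarith)
  have hYq : 0 ≤ Y ^ qm := Real.rpow_nonneg hY.le _
  have hv0 : 0 ≤ tval q Rr ![Sy, Sa, Sb] := by
    unfold tval
    simp only [Matrix.cons_val]
    positivity
  rw [hT]
  calc 6 * K ^ 2 / Y * (A n * tval q Rr ![Sy, r * Sa, Y / r * Sb] *
        B.d n ^ (-(g * (p 0 - w0) + (1 - s) * (1 - (p 0 - w0)) + ε / 2)))
      ≤ 6 * K ^ 2 / Y * (A n * (tval q Rr ![Sy, Sa, Sb] * (Y * Y ^ qm) * K ^ |q 1 - q 2|) *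
        B.d n ^ (-(g * (p 0 - w0) + (1 - s) * (1 - (p 0 - w0)) + ε / 2))) := by
        refine mul_le_mul_of_nonneg_left ?_ (by positivity)
        exact mul_le_mul_of_nonneg_right (mul_le_mul_of_nonneg_left hval hAp.le) (dpp _).le
    _ = (6 * K ^ 2 * K ^ |q 1 - q 2|) * (A n * tval q Rr ![Sy, Sa, Sb] * Y ^ qm *
        B.d n ^ (-(g * (p 0 - w0) + (1 - s) * (1 - (p 0 - w0)) + ε / 2))) := by
        field_simp
    _ ≤ B.d n ^ (-(ε / 2)) * (A n * tval q Rr ![Sy, Sa, Sb] * Y ^ qm *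
        B.d n ^ (-(g * (p 0 - w0) + (1 - s) * (1 - (p 0 - w0)) + ε / 2))) := by
        refine mul_le_mul_of_nonneg_right hcst ?_
        have := dpp (-(g * (p 0 - w0) + (1 - s) * (1 - (p 0 - w0)) + ε / 2))
        positivity
    _ = N0Q A vm n * B.d n ^ (-(DQ g s q w0 p + ε)) * Y ^ qm := by
        rw [hvS]
        have e5 : B.d n ^ (-(ε / 2)) * (A n * (vm n 0 *
            B.d n ^ (-(9 * w0) - (3 * w0 * q 0 + w0 * q 1 + 2 * w0 * q 2) + Dp q p)) * Y ^ qm *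
            B.d n ^ (-(g * (p 0 - w0) + (1 - s) * (1 - (p 0 - w0)) + ε / 2))) =
            A n * vm n 0 * (B.d n ^ (-(ε / 2)) *
              B.d n ^ (-(9 * w0) - (3 * w0 * q 0 + w0 * q 1 + 2 * w0 * q 2) + Dp q p) *
              B.d n ^ (-(g * (p 0 - w0) + (1 - s) * (1 - (p 0 - w0)) + ε / 2))) * Y ^ qm := by
          ring
        rw [e5, ← Dp76.dpow_add, ← Dp76.dpow_add]
        unfold N0Q
        congr 3
        unfold DQ Dp
        ring

end

end Crest.Agent.R136.Str186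
end

-- ▼ part R136/Str4_186
section

/-!
# R136: heavy strips of the velocities are rare (helper186), (S1) of T.C3

* `HeavyS` : the class of `i` has a strip of relative width `d^y` which carries a share `d^δ`;
* `strip_rare` : over `NatT_550.Thick`, for every sub-family `J` of the sample.
-/

set_option autoImplicit false
set_option linter.unusedVariables false

open Finset Filter Topology

namespace Crest.Agent.R136.Str186

open Crest.Agent.R138.Ex926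
open Crest.Agent.R138.Mk163 (zc zl rho alive)
open Crest.Agent.R138
open Crest.Agent.R136.MkA627
open Crest.Agent.R136.Net191
open Crest.Agent.R136.NetQ186
open Crest.Agent.R136.GeoQ186
open Crest.Agent.R136.Wq638
open Crest.Agent.R136.Lq196
open Crest.Agent.R136.Top484
open Crest.Agent.R136.NatT550
open Crest.Agent.R136.NatR550
open Crest.Agent.R136.NatD550
open Crest.Agent.R136.PqG464 (pow_lev zc_near ev_const)

/-! ### finite part -/

open Classical in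
/-- choice of one heavy subset per label -/
theorem heavy_sum {ι κ : Type*} [DecidableEq ι] [DecidableEq κ] (I : Finset ι) (lab : ι → κ)
    (H : Finset ι) (hH : H ⊆ I) (S : κ → Finset ι) {θ : ℝ}
    (hθ : 0 ≤ θ) (hS : ∀ i ∈ H,
      θ * ((I.filter fun j => lab j = lab i).card : ℝ) ≤
        ((I.filter fun j => lab j = lab i ∧ j ∈ S (lab i)).card : ℝ)) :
    θ * (H.card : ℝ) ≤
      ((I.filter fun j => lab j ∈ H.image lab ∧ j ∈ S (lab j)).card : ℝ) := by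
  obtain ⟨J, hJ⟩ : ∃ J, J = I.filter fun j => lab j ∈ H.image lab ∧ j ∈ S (lab j) := ⟨_, rfl⟩
  rw [← hJ]
  have e1 : (H.card : ℝ) = ∑ c ∈ H.image lab, ((H.filter fun j => lab j = c).card : ℝ) := by
    rw [Finset.card_eq_sum_card_image lab H]
    push_cast; rfl
  have hmap : ∀ j ∈ J, lab j ∈ H.image lab := by
    intro j hj
    rw [hJ] at hj
    exact (mem_filter.1 hj).2.1
  have e2 : (J.card : ℝ) = ∑ c ∈ H.image lab, ((J.filter fun j => lab j = c).card : ℝ) := by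
    rw [Finset.card_eq_sum_card_fiberwise hmap]
    push_cast; rfl
  rw [e1, e2, Finset.mul_sum]
  refine Finset.sum_le_sum fun c hc => ?_
  obtain ⟨i, hi, rfl⟩ := mem_image.1 hc
  have h1 : ((H.filter fun j => lab j = lab i).card : ℝ) ≤
      ((I.filter fun j => lab j = lab i).card : ℝ) := by
    exact_mod_cast card_le_card (filter_subset_filter _ hH)
  refine (mul_le_mul_of_nonneg_left h1 hθ).trans ((hS i hi).trans ?_)
  exact_mod_cast card_le_card (by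
    intro j hj
    obtain ⟨a1, a2, a3⟩ := mem_filter.1 hj
    rw [mem_filter, hJ, mem_filter, a2]
    exact ⟨⟨a1, mem_image_of_mem _ hi, a3⟩, rfl⟩)

/-- one of the two coefficients is large -/
theorem coef_or {b0 b1 η K : ℝ} (hK : 1 ≤ K) (hb : b0 ^ 2 + b1 ^ 2 = 1) (hη : |η| ≤ K) :
    1 ≤ 8 * K * |b0 + b1 * η| ∨ 1 ≤ 8 * K * |b1| := by
  by_cases h : 1 ≤ 8 * K * |b1|
  · exact Or.inr h
  · left
    push Not at h
    have hb1 : |b1| < 1 / 8 := by
      have h1 : 8 * |b1| ≤ 8 * K * |b1| := by nlinarith [abs_nonneg b1]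
      linarith
    have hb1η : |b1 * η| ≤ 1 / 8 := by
      rw [abs_mul]
      have h2 : |b1| * |η| ≤ |b1| * K := mul_le_mul_of_nonneg_left hη (abs_nonneg _)
      nlinarith
    have hb0 : 1 / 2 ≤ |b0| := by
      have h3 : b1 ^ 2 ≤ (1 / 8) ^ 2 := by
        rw [← sq_abs b1]
        exact pow_le_pow_left₀ (abs_nonneg _) hb1.le 2
      have h4 : b0 ^ 2 = |b0| ^ 2 := (sq_abs b0).symm
      by_contra h5
      push Not at h5
      have h6 : |b0| ^ 2 ≤ (1 / 2) ^ 2 := pow_le_pow_left₀ (abs_nonneg _) h5.le 2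
      nlinarith
    have h7 : |b0| ≤ |b0 + b1 * η| + |b1 * η| := by
      calc |b0| = |(b0 + b1 * η) - b1 * η| := by ring_nf
        _ ≤ _ := abs_sub _ _
    have h8 : 3 / 8 ≤ |b0 + b1 * η| := by linarith
    nlinarith

/-- the linear form seen from another base point -/
theorem strip_base {c5 c6 d5 d6 e5 e6 u b0 b1 D5 D6 : ℝ} (h5 : D5 ≠ 0) (h6 : D6 ≠ 0)
    (a5 : e5 = c5 + d5) (a6 : e6 = c6 + d6 + u * d5) :
    (b0 * e5 / D5 + b1 * e6 / D6) - (b0 * c5 / D5 + b1 * c6 / D6) =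
      (b0 + b1 * (u * D5 / D6)) * (d5 / D5) + b1 * (d6 / D6) := by
  rw [a5, a6]
  field_simp
  ring

/-- exponents of a slot against a power -/
theorem div_dp {d K v x e : ℝ} (hd : 0 < d) (hd1 : d < 1) (hK : 0 ≤ K) (h : |v| ≤ K * d ^ x)
    (he : e ≤ x - 0) {y : ℝ} (hy : y + e ≤ x) : |v / d ^ e| ≤ K * d ^ y := by
  have hp := dpos hd e
  rw [abs_div, abs_of_pos hp, div_le_iff₀ hp]
  calc |v| ≤ K * d ^ x := h
    _ ≤ K * d ^ (y + e) := mul_le_mul_of_nonneg_left (dle hd hd1 hy) hK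
    _ = K * d ^ y * d ^ e := by rw [Real.rpow_add hd]; ring

/-! ### the theorem -/

open Classical in
/-- **the class of `i` has a heavy strip**: a strip of relative width `d ^ y` in the velocities seen
from some element `i1` of the class, with a share `≥ d ^ δ` of the class -/
def HeavyS {ι κ : Type*} (I : Finset ι) (co : ι → ι → Fin 11 → ℝ) (lab : ι → κ) (d : ℝ)
    (x : Fin 11 → ℝ) (y δ : ℝ) (i : ι) : Prop :=
  ∃ i1 ∈ I, lab i1 = lab i ∧ ∃ b : Fin 2 → ℝ, b 0 ^ 2 + b 1 ^ 2 = 1 ∧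
    d ^ δ * ((I.filter fun j => lab j = lab i).card : ℝ) ≤
      ((I.filter fun j => lab j = lab i ∧
        |b 0 * co i1 j 5 / d ^ x 5 + b 1 * co i1 j 6 / d ^ x 6| ≤ d ^ y).card : ℝ)

section

variable {η : ℝ} {p : Par4} {D : Dat4} {I1 : ℕ → Finset (ℕ × ℝ)} {π : Equiv.Perm (Fin 3)}
  {eE fA fB : ℕ → ℕ × ℝ → ℝ} {V T : Fin 11 → Prop} {w0 R T0 : ℝ} {PD : Set (Fin 11 → ℝ)}
  {ν own : (Fin 11 → ℝ) → ℝ} {c₀ : ℝ}

/-- the thickness is below the width of the strip -/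
theorem sq_strip {B : Base} {r0 : ℕ → ℝ} {lev : ℕ → ℚ → ℕ} {w : Fin 3 → ℕ → ℚ → ℝ}
    {cab cby cr cc : ℝ} (hW : W0 B r0 lev w cab cby cr cc) {rc : Fin 11 → ℝ} {y : ℝ}
    (o2 : rc 9 + y + w0 ≤ rc 10 + cby) {ε : ℝ} (hε : 0 < ε) : ∀ᶠ n in (U : Filter ℕ),
      SQ B lev w w0 rc 0 n ≤ B.d n ^ (-ε) * (B.d n ^ y * SQ B lev w w0 rc 2 n) := by
  filter_upwards [hW.by' ε hε, hW.pos 2] with n h1 h2
  have H := uH_pos (B := B) (lev := lev) (w0 := w0) n
  have hρ : 0 < rho (lev n 0) := rho_pos _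
  have dpp := fun a => Dp76.dpow_pos B n a
  show uY B lev w w0 n * B.d n ^ rc 10 / uH B lev w0 n ≤
    B.d n ^ (-ε) * (B.d n ^ y * (uB B lev w w0 n * B.d n ^ rc 9 / uH B lev w0 n))
  rw [← mul_div_assoc, ← mul_div_assoc]
  refine div_le_div_of_nonneg_right ?_ H.le
  unfold uY uB
  have c0 : 0 ≤ B.d n ^ (-(3 * w0)) * B.d n ^ rc 10 / rho (lev n 0) :=
    (div_pos (mul_pos (dpp _) (dpp _)) hρ).le
  calc w 0 n 0 / rho (lev n 0) * B.d n ^ (-(3 * w0)) * B.d n ^ rc 10 =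
        w 0 n 0 * (B.d n ^ (-(3 * w0)) * B.d n ^ rc 10 / rho (lev n 0)) := by ring
    _ ≤ B.d n ^ (cby - ε) * w 2 n 0 * (B.d n ^ (-(3 * w0)) * B.d n ^ rc 10 / rho (lev n 0)) :=
        mul_le_mul_of_nonneg_right h1 c0
    _ = B.d n ^ (cby - ε + -(3 * w0) + rc 10) * (w 2 n 0 / rho (lev n 0)) := by
        rw [Dp76.dpow_add, Dp76.dpow_add]; ring
    _ ≤ B.d n ^ (-ε + y + -(2 * w0) + rc 9) * (w 2 n 0 / rho (lev n 0)) :=
        mul_le_mul_of_nonneg_right (Dp76.dpow_le B n (by linarith)) (div_pos h2 hρ).le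
    _ = _ := by rw [Dp76.dpow_add, Dp76.dpow_add, Dp76.dpow_add]; ring

end

end Crest.Agent.R136.Str186
end

-- ▼ part R136/Str5_186
section

/-!
# R136: heavy strips of the velocities are rare (helper186), (S1) of T.C3

* `strip_fib` : count of one strip of a fine class of the sample;
* `strip_rare` : over `NatT_550.Thick`, for every sub-family `J` of the sample.
-/

set_option autoImplicit false
set_option linter.unusedVariables false

open Finset Filter Topology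

namespace Crest.Agent.R136.Str186

open Crest.Agent.R138.Ex926
open Crest.Agent.R138.Mk163 (zc zl rho alive)
open Crest.Agent.R138
open Crest.Agent.R136.MkA627
open Crest.Agent.R136.Net191
open Crest.Agent.R136.NetQ186
open Crest.Agent.R136.GeoQ186
open Crest.Agent.R136.Wq638
open Crest.Agent.R136.Lq196
open Crest.Agent.R136.Top484
open Crest.Agent.R136.NatT550
open Crest.Agent.R136.NatR550
open Crest.Agent.R136.NatD550
open Crest.Agent.R136.PqG464 (pow_lev zc_near ev_const)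

section

variable {η : ℝ} {p : Par4} {D : Dat4} {I1 : ℕ → Finset (ℕ × ℝ)} {π : Equiv.Perm (Fin 3)}
  {eE fA fB : ℕ → ℕ × ℝ → ℝ} {V T : Fin 11 → Prop} {w0 R T0 : ℝ} {PD : Set (Fin 11 → ℝ)}
  {ν own : (Fin 11 → ℝ) → ℝ} {c₀ : ℝ}

/-- additivity of the entries `2`, `5`, `6` -/
theorem cou_add (B : Base) (lev : ℕ → ℚ → ℕ) (w : Fin 3 → ℕ → ℚ → ℝ) (w0 : ℝ)
    (F : ℕ → ℕ × ℝ → Fq4) (n : ℕ) (i j l : ℕ × ℝ) :
    couQ B lev w w0 F n i l 5 = couQ B lev w w0 F n i j 5 + couQ B lev w w0 F n j l 5 ∧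
    couQ B lev w w0 F n i l 6 = couQ B lev w w0 F n i j 6 + couQ B lev w w0 F n j l 6 +
      couQ B lev w w0 F n i j 2 * couQ B lev w w0 F n j l 5 := by
  unfold couQ
  obtain ⟨-, -, -, -, -, a5, a6, -⟩ := coQ_add
    (scl (uH B lev w0 n) (uA B lev w w0 n) (uB B lev w w0 n) (uY B lev w w0 n) (F n i))
    (scl (uH B lev w0 n) (uA B lev w w0 n) (uB B lev w w0 n) (uY B lev w w0 n) (F n j))
    (scl (uH B lev w0 n) (uA B lev w w0 n) (uB B lev w w0 n) (uY B lev w w0 n) (F n l))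
  exact ⟨a5, a6⟩

open Classical in
set_option maxHeartbeats 1000000 in
/-- **one strip of a fine class** : `Q ⊆` sample inside one class at `rc` and one class at `x`,
all in one strip seen from an element `i1` of the class at `x` -/
theorem strip_fib (h : Thick η p D I1 π eE fA fB V T w0 R T0 PD ν own c₀) (hq : ∀ j, 0 ≤ p.q j)
    {qm : ℝ} (hm1 : qm ≤ p.q 1) (hm2 : qm ≤ p.q 2) {cab cby cr cc : ℝ} (hW : W0 D.B D.r0 D.lev D.w cab cby cr cc)
    {x rc : Fin 11 → ℝ} (hx : x ∈ Leg monQ R) (hrc : rc ∈ Leg monQ R) (hle : x ≤ rc)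
    (h5 : x 5 = rc 5) (h6 : x 6 = rc 6) (w8 : rc 8 = rc 0 + rc 5) (w9 : rc 9 = rc 0 + rc 6)
    (hp0 : w0 ≤ rc 0) (hp1 : rc 0 ≤ w0 + 1) {y : ℝ} (hy : 0 ≤ y)
    (o1 : rc 8 + w0 ≤ rc 9 + cab) (o2 : rc 9 + y + w0 ≤ rc 10 + cby) (o3 : rc 10 ≤ cr + 4 * w0)
    (o4 : rc 0 + w0 < rc 8 + cc) (y5 : y + rc 5 ≤ R) (y6 : y + rc 6 ≤ R) {ε : ℝ} (hε : 0 < ε) :
    ∀ᶠ n in (U : Filter ℕ), ∀ Q : Finset (ℕ × ℝ), Q ⊆ I1 n → ∀ j0 ∈ Q, ∀ i1 ∈ I1 n,
      ∀ b : Fin 2 → ℝ, b 0 ^ 2 + b 1 ^ 2 = 1 →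
      nlab D.B D.I (couQ D.B D.lev D.w w0 (incQ π D.L eE fA fB)) monQ 2 n x i1 =
        nlab D.B D.I (couQ D.B D.lev D.w w0 (incQ π D.L eE fA fB)) monQ 2 n x j0 →
      (∀ j ∈ Q, nlab D.B D.I (couQ D.B D.lev D.w w0 (incQ π D.L eE fA fB)) monQ 2 n rc j0 =
          nlab D.B D.I (couQ D.B D.lev D.w w0 (incQ π D.L eE fA fB)) monQ 2 n rc j ∧
        |b 0 * couQ D.B D.lev D.w w0 (incQ π D.L eE fA fB) n i1 j 5 / D.B.d n ^ x 5 +
          b 1 * couQ D.B D.lev D.w w0 (incQ π D.L eE fA fB) n i1 j 6 / D.B.d n ^ x 6| ≤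
            D.B.d n ^ y) →
      (Q.card : ℝ) ≤ D.B.d n ^ (-(c₀ + DQ p.g 0 p.q w0 rc - qm * y + 2 * ε)) := by
  obtain ⟨-, -, g6, -, -, -, -, -, -, w10, -, -⟩ := legalQ_iff.1 hrc.1
  obtain ⟨n0, -, x6, -⟩ := legalQ_iff.1 hx.1
  obtain ⟨δ1, hδ1, hsc⟩ := strip_count h.tp.pre.mka y hq hm1 hm2 (fun n y hy => (h.tp.flag n y hy).1)
    (fun n y hy => (h.tp.flag n y hy).2.1) (fun n y hy => (h.tp.flag n y hy).2.2) w8 w9 w10 hp0 hp1
    (tubeOk_ord h.tp.wrs hW.pos (ord_W0 hW o1 (by linarith) o3 o4)) hε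
  have hC : (0 : ℝ) ≤ 2 := by norm_num
  obtain ⟨K0, hK0e⟩ : ∃ K0, K0 = cK0 monQ 2 := ⟨_, rfl⟩
  have hK0 : 1 ≤ K0 := by rw [hK0e]; exact cK0_one hC
  obtain ⟨KR, hKRe⟩ : ∃ KR, KR = triC monQ 2 K0 := ⟨_, rfl⟩
  have hKR : K0 ≤ KR := by rw [hKRe]; exact triC_ge hC hK0
  have hKR1 : 1 ≤ KR := hK0.trans hKR
  obtain ⟨KT, hKTe⟩ : ∃ KT, KT = triC monQ 2 KR := ⟨_, rfl⟩
  have hKT : KR ≤ KT := by rw [hKTe]; exact triC_ge hC hKR1
  obtain ⟨K3, hK3⟩ : ∃ K3, K3 = 8 * KT + 2 + 2 * ((1 + K0) * KR) := ⟨_, rfl⟩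
  have hKT0 : 0 < KT := by linarith
  have hpp : 0 < (1 + K0) * KR := mul_pos (by linarith) (by linarith)
  have hK3KT : KT ≤ K3 := by
    rw [hK3]; linarith
  have hK3K0 : 8 * K0 ≤ K3 := by
    rw [hK3]; linarith
  have hK3pos : 0 < K3 := by linarith
  have hch := h.ext.chart
  filter_upwards [hsc, comb_count h hε, ev_const D.B (c := K3) hK3pos hδ1, sq_strip hW o2 hδ1]
    with n hscn hcc hK3n hsq Q hQ j0 hj0 i1 hi1 b hb hlab hQs
  have hd := D.B.pos n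
  have hd1 := D.B.lt n
  have dpp := fun a => Dp76.dpow_pos D.B n a
  have K3le := const_le hK3n
  obtain ⟨co, hco⟩ : ∃ co, co = couQ D.B D.lev D.w w0 (incQ π D.L eE fA fB) := ⟨_, rfl⟩
  rw [← hco] at hscn hcc hlab hQs hch
  have hadd : ∀ i j l, co n i l 5 = co n i j 5 + co n j l 5 ∧
      co n i l 6 = co n i j 6 + co n j l 6 + co n i j 2 * co n j l 5 := by
    intro i j l; rw [hco]; exact cou_add _ _ _ _ _ _ _ _ _
  have hIsub := h.ext.sub n
  have mj0 : j0 ∈ D.I n := hIsub (hQ hj0)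
  have mi1 : i1 ∈ D.I n := hIsub hi1
  -- base change
  have nx : Near (co n) (D.B.d n) x K0 i1 j0 := by
    rw [hK0e]; exact near_of_nlab hch hx.1 mi1 mj0 hlab
  obtain ⟨u, hu⟩ : ∃ u, u = co n i1 j0 2 := ⟨_, rfl⟩
  obtain ⟨α, hα⟩ : ∃ α, α = b 0 + b 1 * (u * D.B.d n ^ x 5 / D.B.d n ^ x 6) := ⟨_, rfl⟩
  have b0 : |b 0| ≤ 1 := by
    rw [← sq_le_one_iff_abs_le_one]; nlinarith [sq_nonneg (b 1)]
  have b1 : |b 1| ≤ 1 := by
    rw [← sq_le_one_iff_abs_le_one]; nlinarith [sq_nonneg (b 0)]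
  have hηb : |u * D.B.d n ^ x 5 / D.B.d n ^ x 6| ≤ K0 := by
    rw [abs_div, abs_mul, abs_of_pos (dpp (x 5)), abs_of_pos (dpp (x 6)), div_le_iff₀ (dpp _)]
    calc |u| * D.B.d n ^ x 5 ≤ K0 * D.B.d n ^ x 2 * D.B.d n ^ x 5 := by
          refine mul_le_mul_of_nonneg_right ?_ (dpp _).le
          rw [hu]; exact nx 2
      _ = K0 * D.B.d n ^ (x 2 + x 5) := by rw [Dp76.dpow_add]; ring
      _ ≤ K0 * D.B.d n ^ x 6 :=
          mul_le_mul_of_nonneg_left (Dp76.dpow_le D.B n x6) (by linarith)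
  have hαb : |α| ≤ 1 + K0 := by
    rw [hα]
    calc |_ + _| ≤ |b 0| + |b 1 * (u * D.B.d n ^ x 5 / D.B.d n ^ x 6)| := abs_add_le _ _
      _ ≤ 1 + 1 * K0 := by
          rw [abs_mul]
          exact add_le_add b0 (mul_le_mul b1 hηb (abs_nonneg _) zero_le_one)
      _ = 1 + K0 := by ring
  -- the strip seen from `j0`
  obtain ⟨ℓ, hℓ⟩ : ∃ ℓ : ℕ × ℝ → ℝ, ℓ = fun j => α * (co n j0 j 5 / D.B.d n ^ rc 5) +
      b 1 * (co n j0 j 6 / D.B.d n ^ rc 6) := ⟨_, rfl⟩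
  have hstrip : ∀ j ∈ Q, |ℓ j| ≤ 2 * D.B.d n ^ y := by
    intro j hj
    have e6 : co n i1 j 6 = co n i1 j0 6 + co n j0 j 6 + u * co n j0 j 5 := by
      rw [hu]; exact (hadd i1 j0 j).2
    have e := strip_base (b0 := b 0) (b1 := b 1) (u := u) (dpp (x 5)).ne' (dpp (x 6)).ne'
      (hadd i1 j0 j).1 e6
    have e2 : ℓ j = (b 0 * co n i1 j 5 / D.B.d n ^ x 5 + b 1 * co n i1 j 6 / D.B.d n ^ x 6) -
        (b 0 * co n i1 j0 5 / D.B.d n ^ x 5 + b 1 * co n i1 j0 6 / D.B.d n ^ x 6) := by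
      rw [e, hℓ, hα, ← h5, ← h6]
    rw [e2]
    calc |_ - _| ≤ _ := abs_sub _ _
      _ ≤ D.B.d n ^ y + D.B.d n ^ y := add_le_add (hQs j hj).2 (hQs j0 hj0).2
      _ = 2 * D.B.d n ^ y := by ring
  have hnrc : ∀ j ∈ Q, Near (co n) (D.B.d n) rc K0 j0 j := by
    intro j hj
    rw [hK0e]
    exact near_of_nlab hch hrc.1 mj0 (hIsub (hQ hj)) (hQs j hj).1
  obtain ⟨F, hF⟩ : ∃ F, F = (D.I n).filter fun j' => Near (co n) (D.B.d n) rc KT j0 j' ∧
      |ℓ j'| ≤ K3 * D.B.d n ^ y := ⟨_, rfl⟩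
  have hFc : (F.card : ℝ) ≤ N0Q D.A D.vm n *
      D.B.d n ^ (-(DQ p.g 0 p.q w0 rc + ε - qm * y)) := by
    have h8 : 8 * K0 ≤ D.B.d n ^ (-δ1) := hK3K0.trans K3le
    have hα' : |α| ≤ D.B.d n ^ (-δ1) := by
      refine hαb.trans (le_trans ?_ h8)
      linarith
    have hβ' : |b 1| ≤ D.B.d n ^ (-δ1) := b1.trans (le_trans (by linarith) h8)
    have hor : 1 ≤ D.B.d n ^ (-δ1) * |α| ∨ 1 ≤ D.B.d n ^ (-δ1) * |b 1| := by
      rcases coef_or hK0 hb hηb with hh | hh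
      · left
        rw [hα]
        exact hh.trans (mul_le_mul_of_nonneg_right h8 (abs_nonneg _))
      · right
        exact hh.trans (mul_le_mul_of_nonneg_right h8 (abs_nonneg _))
    have hY1 : D.B.d n ^ y ≤ 1 := Real.rpow_le_one hd.le hd1.le hy
    have := hscn j0 mj0 (D.B.d n ^ y) (dpp _) hY1 le_rfl hsq α (b 1) hα' hβ' hor F
      (by rw [hF]; exact filter_subset _ _) (fun j' hj' => by
        rw [hF] at hj'
        obtain ⟨-, a1, a2⟩ := mem_filter.1 hj'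
        refine ⟨a1.mono hd (hK3KT.trans K3le), ?_⟩
        rw [hℓ] at a2
        exact a2.trans (mul_le_mul_of_nonneg_right K3le (dpp _).le))
    refine this.trans (le_of_eq ?_)
    rw [← Real.rpow_mul hd.le, mul_assoc, ← Dp76.dpow_add]
    congr 2; ring
  have hfin := hcc Q hQ F (by rw [hF]; exact filter_subset _ _) (fun i hi j' hj' hnear hz => by
    rw [hF, mem_filter]
    have mi : i ∈ D.I n := hIsub (hQ hi)
    rw [← hK0e, ← hKRe] at hnear
    have hnear' : Near (co n) (D.B.d n) rc KR i j' :=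
      hnear.anti hd hd1.le (by linarith) (p := rc) (fun k => hrc.2 k)
    refine ⟨hj', ?_, ?_⟩
    · rw [hKTe]
      exact (hch n).tri hrc.1 hd hd1.le hKR1 mj0 mi hj' ((hnrc i hi).mono hd hKR) hnear'
    · -- the strip
      have a5 := (hadd j0 i j').1
      have a6 := (hadd j0 i j').2
      have e : ℓ j' = ℓ i + (α * (co n i j' 5 / D.B.d n ^ rc 5) +
          b 1 * (co n i j' 6 / D.B.d n ^ rc 6) +
          b 1 * (co n j0 i 2 * (co n i j' 5 / D.B.d n ^ rc 6))) := by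
        rw [hℓ]
        simp only
        rw [a5, a6]
        ring
      have t5 : |co n i j' 5 / D.B.d n ^ rc 5| ≤ KR * D.B.d n ^ y :=
        div_dp hd hd1 (by linarith) (hnear 5) (by linarith) y5
      have t6 : |co n i j' 6 / D.B.d n ^ rc 6| ≤ KR * D.B.d n ^ y :=
        div_dp hd hd1 (by linarith) (hnear 6) (by linarith) y6
      have t56 : |co n i j' 5 / D.B.d n ^ rc 6| ≤ KR * D.B.d n ^ y :=
        div_dp hd hd1 (by linarith) (hnear 5) (by linarith) y6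
      have t2 : |co n j0 i 2| ≤ K0 := by
        refine (hnrc i hi 2).trans ?_
        have : D.B.d n ^ rc 2 ≤ 1 := Real.rpow_le_one hd.le hd1.le (hrc.1.nonneg 2)
        nlinarith
      have hy0 := dpp y
      have s1 : |α * (co n i j' 5 / D.B.d n ^ rc 5)| ≤ (1 + K0) * (KR * D.B.d n ^ y) := by
        rw [abs_mul]
        exact mul_le_mul hαb t5 (abs_nonneg _) (by linarith)
      have s2 : |b 1 * (co n i j' 6 / D.B.d n ^ rc 6)| ≤ 1 * (KR * D.B.d n ^ y) := by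
        rw [abs_mul]
        exact mul_le_mul b1 t6 (abs_nonneg _) zero_le_one
      have s3 : |b 1 * (co n j0 i 2 * (co n i j' 5 / D.B.d n ^ rc 6))| ≤
          1 * (K0 * (KR * D.B.d n ^ y)) := by
        rw [abs_mul, abs_mul]
        exact mul_le_mul b1 (mul_le_mul t2 t56 (abs_nonneg _) (by linarith)) (by positivity)
          zero_le_one
      rw [e]
      calc |_ + _| ≤ |ℓ i| + |α * (co n i j' 5 / D.B.d n ^ rc 5) +
            b 1 * (co n i j' 6 / D.B.d n ^ rc 6) +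
            b 1 * (co n j0 i 2 * (co n i j' 5 / D.B.d n ^ rc 6))| := abs_add_le _ _
        _ ≤ 2 * D.B.d n ^ y + ((1 + K0) * (KR * D.B.d n ^ y) + 1 * (KR * D.B.d n ^ y) +
            1 * (K0 * (KR * D.B.d n ^ y))) := by
            refine add_le_add (hstrip i hi) ?_
            exact (abs_add_three _ _ _).trans (add_le_add (add_le_add s1 s2) s3)
        _ = (2 + 2 * ((1 + K0) * KR)) * D.B.d n ^ y := by ring
        _ ≤ K3 * D.B.d n ^ y := by
            refine mul_le_mul_of_nonneg_right ?_ hy0.le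
            rw [hK3]; linarith) _ hFc
  refine hfin.trans (le_of_eq ?_)
  congr 1; ring

end

end Crest.Agent.R136.Str186
end

-- ▼ part R136/Str6_186
section

/-!
# R136: heavy strips of the velocities are rare (helper186), (S1) of T.C3

* `strip_rare` : one width; `strip_rare_all` : all widths `0 ≤ y ≤ Ymax` at once;
* `strip_rare_rec` : the record box.
-/

set_option autoImplicit false
set_option linter.unusedVariables false

open Finset Filter Topology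

namespace Crest.Agent.R136.Str186

open Crest.Agent.R138.Ex926
open Crest.Agent.R138.Mk163 (zc zl rho alive)
open Crest.Agent.R138
open Crest.Agent.R136.MkA627
open Crest.Agent.R136.Net191
open Crest.Agent.R136.NetQ186
open Crest.Agent.R136.GeoQ186
open Crest.Agent.R136.Wq638
open Crest.Agent.R136.Lq196
open Crest.Agent.R136.Top484
open Crest.Agent.R136.NatT550
open Crest.Agent.R136.NatR550
open Crest.Agent.R136.NatD550
open Crest.Agent.R136.PqG464 (pow_lev zc_near ev_const)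

section

variable {η : ℝ} {p : Par4} {D : Dat4} {I1 : ℕ → Finset (ℕ × ℝ)} {π : Equiv.Perm (Fin 3)}
  {eE fA fB : ℕ → ℕ × ℝ → ℝ} {V T : Fin 11 → Prop} {w0 R T0 : ℝ} {PD : Set (Fin 11 → ℝ)}
  {ν own : (Fin 11 → ℝ) → ℝ} {c₀ : ℝ}

open Classical in
/-- pairs of labels at two comparable boxes -/
theorem pair_labels {B : Base} {I0 : ℕ → Finset (ℕ × ℝ)}
    {co : ∀ n : ℕ, ℕ × ℝ → ℕ × ℝ → Fin 11 → ℝ} {C : ℝ} (h : ∀ n, Chart (I0 n) (co n) monQ C)
    (h0 : 0 ≤ C) {x rc : Fin 11 → ℝ} (hx : Legal monQ x) (hrc : Legal monQ rc) (hle : x ≤ rc)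
    (n : ℕ) {J1 : Finset (ℕ × ℝ)} (hJ1 : J1 ⊆ I0 n) :
    (((J1.image fun j => (nlab B I0 co monQ C n rc j, nlab B I0 co monQ C n x j)).card : ℕ) : ℝ) ≤
      cN monQ C (cK0 monQ C) * ((J1.image (nlab B I0 co monQ C n rc)).card : ℝ) := by
  have hd := B.pos n
  have hd1 := B.lt n
  refine card_image_le_mul J1 _ _ fun j0 hj0 => ?_
  have hsub : (cls J1 (nlab B I0 co monQ C n rc) j0).image
      (fun j => (nlab B I0 co monQ C n rc j, nlab B I0 co monQ C n x j)) ⊆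
      (((I0 n).filter fun j => Near (co n) (B.d n) x (cK0 monQ C) j0 j).image
        (nlab B I0 co monQ C n x)).image (fun c => (nlab B I0 co monQ C n rc j0, c)) := by
    intro a ha
    obtain ⟨j, hj, rfl⟩ := mem_image.1 ha
    obtain ⟨hj1, hj2⟩ := mem_cls.1 hj
    refine mem_image.2 ⟨nlab B I0 co monQ C n x j, mem_image_of_mem _ (mem_filter.2
      ⟨hJ1 hj1, ?_⟩), by rw [hj2]⟩
    exact (near_of_nlab h hrc (hJ1 hj0) (hJ1 hj1) hj2.symm).anti hd hd1.le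
      (by have := cK0_one (M := monQ) h0; linarith) hle
  have h1 : (((cls J1 (nlab B I0 co monQ C n rc) j0).image
      (fun j => (nlab B I0 co monQ C n rc j, nlab B I0 co monQ C n x j))).card : ℝ) ≤
      ((((I0 n).filter fun j => Near (co n) (B.d n) x (cK0 monQ C) j0 j).image
        (nlab B I0 co monQ C n x)).card : ℝ) := by
    exact_mod_cast (card_le_card hsub).trans card_image_le
  refine h1.trans ?_
  have h2 := card_nlab_le (B := B) h hx hx le_rfl (cK0_one (M := monQ) h0) (hJ1 hj0)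
  refine h2.trans (le_of_eq ?_)
  simp

open Classical in
/-- **heavy strips of the velocities are rare.** -/
theorem strip_rare (h : Thick η p D I1 π eE fA fB V T w0 R T0 PD ν own c₀) (hq : ∀ j, 0 ≤ p.q j)
    {qm : ℝ} (hm1 : qm ≤ p.q 1) (hm2 : qm ≤ p.q 2) {cab cby cr cc : ℝ} (hW : W0 D.B D.r0 D.lev D.w cab cby cr cc)
    {x rc : Fin 11 → ℝ} (hx : x ∈ Leg monQ R) (hrc : rc ∈ Leg monQ R) (hle : x ≤ rc)
    (h5 : x 5 = rc 5) (h6 : x 6 = rc 6) (w8 : rc 8 = rc 0 + rc 5) (w9 : rc 9 = rc 0 + rc 6)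
    (hp0 : w0 ≤ rc 0) (hp1 : rc 0 ≤ w0 + 1) {y : ℝ} (hy : 0 ≤ y)
    (o1 : rc 8 + w0 ≤ rc 9 + cab) (o2 : rc 9 + y + w0 ≤ rc 10 + cby) (o3 : rc 10 ≤ cr + 4 * w0)
    (o4 : rc 0 + w0 < rc 8 + cc) (y5 : y + rc 5 ≤ R) (y6 : y + rc 6 ≤ R) {δ : ℝ}
    (hδ : δ + (c₀ + DQ p.g 0 p.q w0 rc - ν rc) < qm * y) :
    ∃ δ' : ℝ, 0 < δ' ∧ ∀ᶠ n in (U : Filter ℕ), ∀ J : Finset (ℕ × ℝ), J ⊆ I1 n →
      ((J.filter fun i => HeavyS J (couQ D.B D.lev D.w w0 (incQ π D.L eE fA fB) n)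
        (nlab D.B D.I (couQ D.B D.lev D.w w0 (incQ π D.L eE fA fB)) monQ 2 n x) (D.B.d n) x y δ
          i).card : ℝ) ≤ D.B.d n ^ δ' * ((I1 n).card : ℝ) := by
  obtain ⟨loss, hloss⟩ : ∃ loss : ℝ, loss = qm * y -
      (δ + (c₀ + DQ p.g 0 p.q w0 rc - ν rc)) := ⟨_, rfl⟩
  have hl0 : 0 < loss := by rw [hloss]; linarith
  have hε : 0 < loss / 8 := by linarith
  refine ⟨loss / 2, by linarith, ?_⟩
  have hC : (0 : ℝ) ≤ 2 := by norm_num
  have hcN : 0 < cN monQ 2 (cK0 monQ 2) := cN_pos monQ hC (cK0_one hC)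
  have hch := h.ext.chart
  filter_upwards [strip_fib h hq hm1 hm2 hW hx hrc hle h5 h6 w8 w9 hp0 hp1 hy o1 o2 o3 o4 y5 y6 hε,
    h.ext.prof.root _ hε, ev_const D.B (c := cN monQ 2 (cK0 monQ 2)) hcN hε]
    with n hfib hroot hKN J hJ
  have hroot' := hroot rc hrc
  have hKN' := const_le hKN
  have hd := D.B.pos n
  have hd1 := D.B.lt n
  have dpp := fun a => Dp76.dpow_pos D.B n a
  have hIsub := h.ext.sub n
  obtain ⟨co, hco⟩ : ∃ co, co = couQ D.B D.lev D.w w0 (incQ π D.L eE fA fB) := ⟨_, rfl⟩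
  rw [← hco] at hfib hch hroot'
  rw [← hco]
  obtain ⟨H, hH⟩ : ∃ H, H = J.filter fun i => HeavyS J (co n) (nlab D.B D.I co monQ 2 n x)
      (D.B.d n) x y δ i := ⟨_, rfl⟩
  rw [← hH]
  have hc : ∀ c : ℕ × ℝ, ∃ ib : (ℕ × ℝ) × (Fin 2 → ℝ),
      c ∈ H.image (nlab D.B D.I co monQ 2 n x) → ib.1 ∈ J ∧ nlab D.B D.I co monQ 2 n x ib.1 = c ∧
      ib.2 0 ^ 2 + ib.2 1 ^ 2 = 1 ∧
      D.B.d n ^ δ * ((J.filter fun j => nlab D.B D.I co monQ 2 n x j = c).card : ℝ) ≤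
        ((J.filter fun j => nlab D.B D.I co monQ 2 n x j = c ∧
          |ib.2 0 * co n ib.1 j 5 / D.B.d n ^ x 5 + ib.2 1 * co n ib.1 j 6 / D.B.d n ^ x 6| ≤
            D.B.d n ^ y).card : ℝ) := by
    intro c
    by_cases hc : c ∈ H.image (nlab D.B D.I co monQ 2 n x)
    · obtain ⟨i, hi, rfl⟩ := mem_image.1 hc
      rw [hH] at hi
      obtain ⟨-, i1, hi1, e, b, hb, hcount⟩ := mem_filter.1 hi
      exact ⟨(i1, b), fun _ => ⟨hi1, e, hb, by convert hcount⟩⟩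
    · exact ⟨((0, 0), 0), fun h => absurd h hc⟩
  choose ib hib using hc
  obtain ⟨S, hS⟩ : ∃ S : ℕ × ℝ → Finset (ℕ × ℝ), S = fun c => J.filter fun j =>
      |(ib c).2 0 * co n (ib c).1 j 5 / D.B.d n ^ x 5 +
        (ib c).2 1 * co n (ib c).1 j 6 / D.B.d n ^ x 6| ≤ D.B.d n ^ y := ⟨_, rfl⟩
  obtain ⟨J1, hJ1⟩ : ∃ J1, J1 = J.filter fun j => nlab D.B D.I co monQ 2 n x j ∈
      H.image (nlab D.B D.I co monQ 2 n x) ∧ j ∈ S (nlab D.B D.I co monQ 2 n x j) := ⟨_, rfl⟩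
  have s1 : D.B.d n ^ δ * (H.card : ℝ) ≤ (J1.card : ℝ) := by
    rw [hJ1]
    refine heavy_sum J (nlab D.B D.I co monQ 2 n x) H (by rw [hH]; exact filter_subset _ _) S
      (dpp δ).le fun i hi => ?_
    obtain ⟨-, -, -, h4⟩ := hib (nlab D.B D.I co monQ 2 n x i) (mem_image_of_mem _ hi)
    refine h4.trans ?_
    exact_mod_cast card_le_card (by
      intro j hj
      obtain ⟨a1, a2, a3⟩ := mem_filter.1 hj
      rw [mem_filter, hS]
      exact ⟨a1, a2, mem_filter.2 ⟨a1, a3⟩⟩)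
  have hJ1J : J1 ⊆ J := by rw [hJ1]; exact filter_subset _ _
  obtain ⟨pr, hpr⟩ : ∃ pr : ℕ × ℝ → (ℕ × ℝ) × (ℕ × ℝ), pr = fun j =>
      (nlab D.B D.I co monQ 2 n rc j, nlab D.B D.I co monQ 2 n x j) := ⟨_, rfl⟩
  obtain ⟨T1, hT1⟩ : ∃ T1, T1 = D.B.d n ^
      (-(c₀ + DQ p.g 0 p.q w0 rc - qm * y + 2 * (loss / 8))) := ⟨_, rfl⟩
  have hT10 : 0 < T1 := by rw [hT1]; exact dpp _
  have s2 : (J1.card : ℝ) ≤ ((J1.image pr).card : ℝ) * T1 := by
    rw [Finset.card_eq_sum_card_image pr J1]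
    push_cast
    rw [← nsmul_eq_mul, ← Finset.sum_const]
    refine Finset.sum_le_sum fun a ha => ?_
    obtain ⟨j0, hj0, rfl⟩ := mem_image.1 ha
    have hj0' := hj0
    rw [hJ1] at hj0'
    obtain ⟨-, m1, m2⟩ := mem_filter.1 hj0'
    obtain ⟨g1, g2, g3, -⟩ := hib _ m1
    rw [hT1]
    refine hfib (J1.filter fun j => pr j = pr j0) ((filter_subset _ _).trans (hJ1J.trans hJ)) j0
      (mem_filter.2 ⟨hj0, rfl⟩) (ib (nlab D.B D.I co monQ 2 n x j0)).1 (hJ g1)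
      (ib (nlab D.B D.I co monQ 2 n x j0)).2 g3 g2 fun j hj => ?_
    obtain ⟨k1, k2⟩ := mem_filter.1 hj
    rw [hpr] at k2
    simp only [Prod.mk.injEq] at k2
    refine ⟨k2.1.symm, ?_⟩
    rw [hJ1] at k1
    obtain ⟨-, -, k3⟩ := mem_filter.1 k1
    rw [k2.2, hS] at k3
    exact (mem_filter.1 k3).2
  have s3 : ((J1.image pr).card : ℝ) ≤ cN monQ 2 (cK0 monQ 2) *
      ((J1.image (nlab D.B D.I co monQ 2 n rc)).card : ℝ) := by
    rw [hpr]
    exact pair_labels hch hC hx.1 hrc.1 hle n (hJ1J.trans (hJ.trans hIsub))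
  have s4 : ((J1.image (nlab D.B D.I co monQ 2 n rc)).card : ℝ) ≤
      (I1 n).card * D.B.d n ^ (ν rc - loss / 8) := by
    refine le_trans ?_ hroot'
    refine le_trans ?_ (le_of_eq (by congr!))
    exact_mod_cast card_le_card (image_subset_image (hJ1J.trans hJ))
  have hI0 : (0 : ℝ) ≤ (I1 n).card := Nat.cast_nonneg _
  have s5 : D.B.d n ^ δ * (H.card : ℝ) ≤ D.B.d n ^ δ * (D.B.d n ^ (loss / 2) * (I1 n).card) := by
    calc D.B.d n ^ δ * (H.card : ℝ) ≤ ((J1.image pr).card : ℝ) * T1 := s1.trans s2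
      _ ≤ (cN monQ 2 (cK0 monQ 2) * ((I1 n).card * D.B.d n ^ (ν rc - loss / 8))) * T1 :=
          mul_le_mul_of_nonneg_right (s3.trans (mul_le_mul_of_nonneg_left s4 hcN.le)) hT10.le
      _ ≤ (D.B.d n ^ (-(loss / 8)) * ((I1 n).card * D.B.d n ^ (ν rc - loss / 8))) * T1 := by
          refine mul_le_mul_of_nonneg_right (mul_le_mul_of_nonneg_right hKN' ?_) hT10.le
          exact mul_nonneg hI0 (dpp _).le
      _ = D.B.d n ^ δ * (D.B.d n ^ (loss / 2) * (I1 n).card) := by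
          rw [hT1]
          have e1 : D.B.d n ^ (-(loss / 8)) * ((I1 n).card * D.B.d n ^ (ν rc - loss / 8)) *
              D.B.d n ^ (-(c₀ + DQ p.g 0 p.q w0 rc - qm * y + 2 * (loss / 8))) =
              (D.B.d n ^ (-(loss / 8)) * D.B.d n ^ (ν rc - loss / 8) *
              D.B.d n ^ (-(c₀ + DQ p.g 0 p.q w0 rc - qm * y + 2 * (loss / 8)))) *
                (I1 n).card := by ring
          rw [e1, ← Dp76.dpow_add, ← Dp76.dpow_add, ← mul_assoc, ← Dp76.dpow_add]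
          congr 2
          rw [hloss]; ring
  exact le_of_mul_le_mul_left s5 (dpp δ)

end

end Crest.Agent.R136.Str186
end

-- ▼ part R136/C3x_107
section

/-!
# R136: no heavy strips on the planes of the thick table (helper107)

* `StripUp` : rarity of heavy strips up to a fixed width; `gs_small_up`, `wndL_ns'`,
  `wndL_model_ns'` : the glue of parts 3 and 4 under this hypothesis.
* `stripUp_rec` : `Str186.strip_rare` with the record box; `stripUp_row` : at every point of a plane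
  through the record line with `a 5 = a 6 = 0`.
* `row_wndL` : windows with known base points at the point of a `RowPt`.
* `row_model_ns` : **one call**: `RowPt` ⊢ window, model, raw twist, `NoStr`, `AddC`.
-/

set_option autoImplicit false
set_option linter.unusedSectionVars false
set_option linter.unusedVariables false

open Filter Topology

namespace Crest.Agent.R136.NSt107

open Finset Crest.Agent.R138.Ex926 Crest.Agent.R136.Net191 Crest.Agent.R136.Gf356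
open Crest.Agent.R136.Qg926 Crest.Agent.R136.Qg4480 Crest.Agent.R136.NetQ186
open Crest.Agent.R136.Ev356 Crest.Agent.R136.CV366 Crest.Agent.R136.Aw413

/-! ### strips up to a fixed width -/

section generic

variable {m : ℕ} {ι : ℕ → Type*} [∀ n, DecidableEq (ι n)]

/-- classes with a heavy strip of relative width `d ^ y`, `y ≤ Y`, are rare -/
def StripUp (B : Base) (I J : ∀ n, Finset (ι n)) (co : ∀ n, ι n → ι n → Fin m → ℝ)
    (M : Mons m) (C : ℝ) (x : Fin m → ℝ) (cA cB : Fin m) (q Y : ℝ) : Prop :=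
  ∀ y : ℝ, 0 < y → y ≤ Y → ∀ δ : ℝ, δ < q * y → ∃ δ' : ℝ, 0 < δ' ∧ ∀ᶠ n in (U : Filter ℕ),
    ((heavy B I J co M C x cA cB y δ n).card : ℝ) ≤ B.d n ^ δ' * (J n).card

variable {B : Base} {I J : ∀ n, Finset (ι n)} {co : ∀ n, ι n → ι n → Fin m → ℝ}
  {M Ma : Mons m} {C : ℝ} {cA cB : Fin m} {q R0 : ℝ}

theorem StripUp.mono {x : Fin m → ℝ} {Y Y' : ℝ} (h : StripUp B I J co M C x cA cB q Y)
    (hY : Y' ≤ Y) : StripUp B I J co M C x cA cB q Y' :=
  fun y h0 h1 δ hδ => h y h0 (h1.trans hY) δ hδ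

/-- the bad incidences of a stage are few -/
theorem gs_small_up {x : ℕ → Fin m → ℝ} {w : ℕ → ℝ} {l : ℕ} (hw : 0 < w l) (hR0 : 0 < R0)
    (h : StripUp B I J co M C (x l) cA cB q (w l * R0)) (c : ℕ → ℝ) (hc : B.Sub c) :
    ∀ᶠ n in (U : Filter ℕ),
      c n * ((J n \ gs B I J co M C x w cA cB q R0 l n).card : ℝ) ≤ (J n).card := by
  classical
  have key : ∀ᶠ n in (U : Filter ℕ), ∀ j ∈ range (l + 1),
      (((l : ℝ) + 1) * c n) * ((heavy B I J co M C (x l) cA cB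
        (w l * (R0 * ((j : ℝ) + 1) / ((l : ℝ) + 1)))
        (w l * (q * (R0 * ((j : ℝ) + 1) / ((l : ℝ) + 1)) - 1 / ((l : ℝ) + 1))) n).card : ℝ) ≤
        (J n).card := by
    rw [Filter.eventually_all_finset]
    intro j hj
    have hjl : (j : ℝ) + 1 ≤ (l : ℝ) + 1 := by
      have : j + 1 ≤ l + 1 := by have := mem_range.1 hj; omega
      exact_mod_cast this
    have hl0 : (0 : ℝ) < (l : ℝ) + 1 := by positivity
    obtain ⟨δ', hδ', h1⟩ := h (w l * (R0 * ((j : ℝ) + 1) / ((l : ℝ) + 1))) (by positivity)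
      (mul_le_mul_of_nonneg_left (by
        rw [div_le_iff₀ hl0]
        exact mul_le_mul_of_nonneg_left hjl hR0.le) hw.le)
      (w l * (q * (R0 * ((j : ℝ) + 1) / ((l : ℝ) + 1)) - 1 / ((l : ℝ) + 1))) (by
        have : 0 < w l * (1 / ((l : ℝ) + 1)) := by positivity
        nlinarith)
    have hS : B.Sub (fun n => ((l : ℝ) + 1) * c n) :=
      (Base.Sub.const (by positivity)).mul hc
    filter_upwards [h1, hS.ev_le hδ'] with n h2 h3
    have h4 : ((l : ℝ) + 1) * c n ≤ B.d n ^ (-δ') := by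
      rw [← B.exp_eq, ← Real.log_le_iff_le_exp h3.1]
      exact h3.2
    have hJ : (0 : ℝ) ≤ (J n).card := Nat.cast_nonneg _
    calc (((l : ℝ) + 1) * c n) * ((heavy B I J co M C (x l) cA cB
        (w l * (R0 * ((j : ℝ) + 1) / ((l : ℝ) + 1)))
        (w l * (q * (R0 * ((j : ℝ) + 1) / ((l : ℝ) + 1)) - 1 / ((l : ℝ) + 1))) n).card : ℝ)
        ≤ (((l : ℝ) + 1) * c n) * (B.d n ^ δ' * (J n).card) :=
          mul_le_mul_of_nonneg_left h2 h3.1.le
      _ ≤ B.d n ^ (-δ') * (B.d n ^ δ' * (J n).card) :=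
          mul_le_mul_of_nonneg_right h4 (mul_nonneg (Real.rpow_nonneg (B.pos n).le _) hJ)
      _ = (B.d n ^ (-δ') * B.d n ^ δ') * (J n).card := by ring
      _ = (J n).card := by
          rw [← Real.rpow_add (B.pos n), neg_add_cancel, Real.rpow_zero, one_mul]
  have hc1 : ∀ᶠ n in (U : Filter ℕ), 0 < c n := (Base.Sub.iff.1 hc).1
  filter_upwards [key, hc1] with n hn hcn
  have h1 : J n \ gs B I J co M C x w cA cB q R0 l n ⊆ (range (l + 1)).biUnion fun j =>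
      heavy B I J co M C (x l) cA cB (w l * (R0 * ((j : ℝ) + 1) / ((l : ℝ) + 1)))
        (w l * (q * (R0 * ((j : ℝ) + 1) / ((l : ℝ) + 1)) - 1 / ((l : ℝ) + 1))) n := by
    intro i hi
    obtain ⟨h2, h3⟩ := mem_sdiff.1 hi
    unfold gs at h3
    rw [mem_filter, not_and] at h3
    have h4 := h3 h2
    push Not at h4
    obtain ⟨j, hj, hj'⟩ := h4
    exact mem_biUnion.2 ⟨j, hj, hj'⟩
  have h2 : ((J n \ gs B I J co M C x w cA cB q R0 l n).card : ℝ) ≤ ∑ j ∈ range (l + 1),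
      ((heavy B I J co M C (x l) cA cB (w l * (R0 * ((j : ℝ) + 1) / ((l : ℝ) + 1)))
        (w l * (q * (R0 * ((j : ℝ) + 1) / ((l : ℝ) + 1)) - 1 / ((l : ℝ) + 1))) n).card : ℝ) := by
    exact_mod_cast (card_le_card h1).trans card_biUnion_le
  have h3 : (((l : ℝ) + 1) * c n) *
      ((J n \ gs B I J co M C x w cA cB q R0 l n).card : ℝ) ≤ ((l : ℝ) + 1) * (J n).card := by
    calc _ ≤ (((l : ℝ) + 1) * c n) * ∑ j ∈ range (l + 1),
      ((heavy B I J co M C (x l) cA cB (w l * (R0 * ((j : ℝ) + 1) / ((l : ℝ) + 1)))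
        (w l * (q * (R0 * ((j : ℝ) + 1) / ((l : ℝ) + 1)) - 1 / ((l : ℝ) + 1))) n).card : ℝ) :=
          mul_le_mul_of_nonneg_left h2 (by positivity)
      _ = ∑ j ∈ range (l + 1), (((l : ℝ) + 1) * c n) *
      ((heavy B I J co M C (x l) cA cB (w l * (R0 * ((j : ℝ) + 1) / ((l : ℝ) + 1)))
        (w l * (q * (R0 * ((j : ℝ) + 1) / ((l : ℝ) + 1)) - 1 / ((l : ℝ) + 1))) n).card : ℝ) := by
          rw [mul_sum]
      _ ≤ ∑ j ∈ range (l + 1), ((J n).card : ℝ) := sum_le_sum hn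
      _ = ((l : ℝ) + 1) * (J n).card := by
          rw [sum_const, card_range, nsmul_eq_mul]; push_cast; ring
  rw [mul_assoc] at h3
  exact le_of_mul_le_mul_left h3 (by positivity)

/-- **windows without heavy strips** (any offset), strips up to a fixed width -/
theorem wndL_ns' {lam : (Fin m → ℝ) → ℝ} {kz : Fin m} {κ : Fin m → ℝ}
    {V Tw : Fin m → Prop} {y : ℕ → Fin m → ℝ} {w : ℕ → ℝ}
    (hL : WndL B B I J co M Ma C lam kz κ V Tw y w) (hw : ∀ l, 0 < w l)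
    {c0 : Fin m → ℝ} (hc0 : c0 ∈ coneM Ma) (st : WSt m) (hkz : st.kz = kz)
    (hst : st.Ok M {p | c0 + p ∈ coneM Ma}) (s : ℕ → ℕ → ℝ) (hs : ∀ i, B.Sub (s i))
    (E : ∀ n, Finset (ι n)) (Sd : ℕ → ℝ) (hE : ∀ᶠ n in (U : Filter ℕ), E n ⊆ J n)
    (hSd : B.Sub Sd) (hd : ∀ᶠ n in (U : Filter ℕ), ((J n).card : ℝ) ≤ Sd n * (E n).card)
    (hq : 0 ≤ q) (hR0 : 0 < R0)
    (hSR : ∀ᶠ l in atTop, StripUp B I J co M C (y l + w l • c0) cA cB q (w l * R0)) :
    ∃ k : ℕ → ℕ, Tendsto k U atTop ∧ ∀ k' : ℕ → ℕ, Tendsto k' U atTop →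
      (∀ᶠ n in (U : Filter ℕ), k' n ≤ k n) → ∃ W : Wnd m ι,
        WAtO B I co M Ma C lam κ V Tw c0 st W ∧ (∀ i, W.B'.Sub (s i)) ∧
        (W.X = fun n => y (k' n) + w (k' n) • c0) ∧ (W.w = fun n => w (k' n)) ∧ W.J = J ∧
        (∀ᶠ n in (U : Filter ℕ), W.s₀ n ∈ E n ∧ W.s₀ n ∈ W.Cl n) ∧
        NsW W cA cB q R0 ∧
        ((∀ k, V k → c0 k ≤ κ k * c0 st.kz) → (∀ k, V k → k ∈ st.S ∨ st.top k = 0) →
          ∃ Mx : ℕ → ℝ, ∀ j ∈ st.S, Tw j → 0 < st.top j → c0 j = κ j * c0 st.kz →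
            (∃ e : ℝ, 0 < e ∧ c0 + cut st.S st.top (Pi.single j e) ∈ coneM Ma) →
            Qg4480.Tw W {j} (consS Sd s) Mx) := by
  obtain ⟨l0, hl0⟩ := eventually_atTop.1 hSR
  obtain ⟨k, hk, hk2⟩ := hL c0 hc0 st hkz hst s hs E Sd hE hSd hd
    (fun l n => if l0 ≤ l then gs B I J co M C (fun l => y l + w l • c0) w cA cB q R0 l n else J n)
    (fun l c hc => by
      by_cases hl : l0 ≤ l
      · simp only [if_pos hl]
        exact gs_small_up (x := fun l => y l + w l • c0) (hw l) hR0 (hl0 l hl) c hc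
      · simp only [if_neg hl, sdiff_self]
        exact Eventually.of_forall fun n => by
          rw [Finset.bot_eq_empty, card_empty, Nat.cast_zero, mul_zero]
          exact Nat.cast_nonneg _)
  refine ⟨k, hk, fun k' hk' hle => ?_⟩
  obtain ⟨W, h1, h2, h3, h4, h5, h6, h7, h8⟩ := hk2 k' hk' hle
  refine ⟨W, h1, h2, h3, h4, h5, h6, ?_, h8⟩
  refine nsW_of_gs (B := B) (I := I) (J := J) (co := co) (M := M) (C := C)
    (x := fun l => y l + w l • c0) (w := w) W h1.ok h1.eB h1.eI h1.eco h1.eM h1.eC hk'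
    (fun n => by rw [h3]) (fun n => by rw [h1.dw n, h1.eB, h4]) hR0 hq ?_
  filter_upwards [h7, hk'.eventually_ge_atTop l0] with n hn hn0
  simpa only [if_pos hn0] using hn

end generic

section model

variable {ι : ℕ → Type*} [∀ n, DecidableEq (ι n)]
variable {B : Base} {I J : ∀ n, Finset (ι n)} {co : ∀ n, ι n → ι n → Fin 11 → ℝ}
  {Ma : Mons 11} {C : ℝ} {lam : (Fin 11 → ℝ) → ℝ} {κ : Fin 11 → ℝ}
  {V Tw : Fin 11 → Prop} {f : ∀ n, ι n → Fq4}

/-- **everything in one call, offset `0`**, strips up to a fixed width -/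
theorem wndL_model_ns' {kz : Fin 11} {y : ℕ → Fin 11 → ℝ} {w : ℕ → ℝ}
    (hL : WndL B B I J co monQ Ma C lam kz κ V Tw y w) (hw : ∀ l, 0 < w l) (hlam : lam 0 = 0)
    (hco : ∀ n, ∀ i ∈ I n, ∀ j ∈ I n, co n i j = coQ (f n i) (f n j))
    (st : WSt 11) (hkz : st.kz = kz) (hst : st.Ok monQ (coneM Ma))
    (hS : ∀ s ∈ st.S, s = 0 ∨ s = 2 ∨ s = 3 ∨ s = 4) (h2 : (2 : Fin 11) ∉ st.S)
    (s : ℕ → ℕ → ℝ) (hs : ∀ i, B.Sub (s i))
    {q R0 : ℝ} (hq : 0 ≤ q) (hR0 : 0 < R0) (h5 : R0 ≤ st.top 5) (h6 : R0 ≤ st.top 6)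
    (hSR : ∀ᶠ l in atTop, StripUp B I J co monQ C (y l) 5 6 q (w l * R0))
    {σ' R : ℝ} (hden : st.Dens lam σ' R)
    (ex : Wnd 11 ι → ℕ → ∀ n, ι n → ℕ) {g₀ : ℕ → ℝ} (hg₀ : Tendsto g₀ U atTop)
    (hV : ∀ k, V k → k ∈ st.S ∨ st.top k = 0) :
    ∃ W : Wnd 11 ι, WAt B I co monQ Ma C lam V Tw st W ∧ QWnd W f ∧ (∀ i, W.B'.Sub (s i)) ∧
      W.J = J ∧ NsW W 5 6 q R0 ∧
      ∃ (E' : ∀ n, Finset (ι n)) (g : ℕ → ℝ), Wnd.Pruned W (rich W) E' g (ex W) ∧
      (∀ᶠ n in (U : Filter ℕ), g n ≤ g₀ n) ∧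
      RModel W.B' (W.cfg E') σ' R W.legW W.nu W.Dc ∧
      (∀ s ∈ st.S, Tw s → 0 < st.top s →
        (∃ e : ℝ, 0 < e ∧ cut st.S st.top (Pi.single s e) ∈ coneM Ma) → RawL W E' s) ∧
      (∀ p0 : Fin 11 → ℝ, W.nu 0 ≤ W.nu p0 → NoStr W.B' (W.cfg E') p0 5 6 W.nu q R0) ∧
      (∀ (p0 : Fin 11 → ℝ) (y : ℝ), y ≤ p0 2 → AddC W.B' (W.cfg E') p0 5 6 2 y) ∧
      ∀ᶠ n in (U : Filter ℕ), W.Good n ∧ E' n ⊆ W.Cl n ∧ W.cfg E' n = W.cfg0 n (E' n) := by
  have e : {p : Fin 11 → ℝ | 0 + p ∈ coneM Ma} = coneM Ma := by ext p; simp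
  obtain ⟨k, hk, hk2⟩ := wndL_ns' hL hw (c0 := 0) (zero_mem (Ma := Ma)) st hkz
    (by rw [e]; exact hst) s hs J (fun _ => 1) (Eventually.of_forall fun n => Subset.refl _)
    (Base.Sub.const one_pos) (Eventually.of_forall fun n => by rw [one_mul]) hq hR0
    (cA := 5) (cB := 6) (R0 := R0) (by
      filter_upwards [hSR] with l hl
      rwa [smul_zero, add_zero])
  obtain ⟨W, h1, h3, -, -, h4, -, h7, -⟩ := hk2 k hk (Eventually.of_forall fun n => le_rfl)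
  have hA := h1.toWAt hlam
  exact ⟨W, hA, qwnd_of_waT hA hco hS, h3, h4, h7,
    waT_model_ns hA hco hS h2 hq h5 h6 h7 hden (ex W) hg₀ hV⟩

end model

/-! ### the planes of the thick table -/

section thick

open Crest.Agent.R136.NatT550 Crest.Agent.R136.NatR550 Crest.Agent.R136.Wq638
open Crest.Agent.R136.Lq196 Crest.Agent.R136.Tb628 Crest.Agent.R136.Dg219
open Crest.Agent.R136.Dg262 (X)
open Crest.Agent.R136.Top484 (Par4 Dat4)
open Crest.Agent.R136.GeoQ186 (W0 scl)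
open Crest.Agent.R138.Ex926 (Base U QProf IsTan)

variable {η : ℝ} {p : Par4} {D : Dat4} {I1 : ℕ → Finset (ℕ × ℝ)} {π : Equiv.Perm (Fin 3)}
  {eE gA gB : ℕ → ℕ × ℝ → ℝ} {V T : Fin 11 → Prop} {PD : Set (Fin 11 → ℝ)}
  {w0 R T0 cab cby cr cc c₀ : ℝ} {ν own : (Fin 11 → ℝ) → ℝ} {x0 a b : Fin 11 → ℝ}

/-- the normalised charts of the incidences -/
noncomputable def fQ (D : Dat4) (w0 : ℝ) (π : Equiv.Perm (Fin 3)) (eE gA gB : ℕ → ℕ × ℝ → ℝ)
    (n : ℕ) (i : ℕ × ℝ) : Fq4 :=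
  scl (uH D.B D.lev w0 n) (uA D.B D.lev D.w w0 n) (uB D.B D.lev D.w w0 n)
    (uY D.B D.lev D.w w0 n) (incQ π D.L eE gA gB n i)

theorem couQ_fQ (n : ℕ) (i j : ℕ × ℝ) :
    couQ D.B D.lev D.w w0 (incQ π D.L eE gA gB) n i j =
      coQ (fQ D w0 π eE gA gB n i) (fQ D w0 π eE gA gB n j) := rfl

/-- the record line has exactly the density `D` -/
theorem path_val (h : Thick η p D I1 π eE gA gB V T w0 R T0 PD ν own c₀) {v : ℝ} (h0 : 0 ≤ v)
    (h1 : v < 1) : ν (pathQ p.θ w0 R v) = c₀ + DQ p.g 0 p.q w0 (pathQ p.θ w0 R v) := by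
  have hb := h.tp.big
  have e1 := hb.T0
  have e2 := hb.w0T
  have e3 := hb.R0
  have e := rec_eq h (R1 := R) le_rfl (by linarith) h0 h1
  rw [pathQ_nat, e, DQ_DN]

open Classical in
/-- **`Str186.strip_rare` with the record box** -/
theorem stripUp_rec (h : Thick η p D I1 π eE gA gB V T w0 R T0 PD ν own c₀) (hη : 0 < η)
    {qm : ℝ} (hm1 : qm ≤ p.q 1) (hm2 : qm ≤ p.q 2)
    (hW : W0 D.B D.r0 D.lev D.w cab cby cr cc) {ξ : ℝ} (h0 : 0 ≤ ξ)
    (h1 : ξ < 1) {x : Fin 11 → ℝ} (hx : x ∈ Leg monQ R) (hle : x ≤ pathQ p.θ w0 R ξ)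
    (h5 : x 5 = pathQ p.θ w0 R ξ 5) (h6 : x 6 = pathQ p.θ w0 R ξ 6)
    (a1 : (p.θ 2 - p.θ 1) * ξ ≤ cab) (a3 : (1 - p.θ 0) * ξ ≤ cr) (a4 : p.θ 1 * ξ < cc)
    {Y : ℝ} (hY1 : Y ≤ 1) (hY : Y ≤ (p.θ 2 - p.θ 0) * ξ + cby) :
    StripUp D.B D.I I1 (couQ D.B D.lev D.w w0 (incQ π D.L eE gA gB)) monQ 2 x 5 6 qm Y := by
  intro y hy hyY δ hδ
  have hb := h.tp.big
  have hL := hb.path_leg h0 h1.le
  have b1 := hb.bd h0 h1.le 1
  have b2 := hb.bd h0 h1.le 2
  have e0 := hb.T0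
  have e1 := hb.w0T
  have e2 := hb.R0
  have hv := path_val h h0 h1
  obtain ⟨δ', hδ', H⟩ := Crest.Agent.R136.Str186.strip_rare h (q_nonneg h.tp.ok hη) hm1 hm2 hW hx hL
    hle
    h5 h6 (by simp only [pathQ, Matrix.cons_val]; ring) (by simp only [pathQ, Matrix.cons_val]; ring)
    (by simp only [pathQ, Matrix.cons_val]; linarith)
    (by simp only [pathQ, Matrix.cons_val]; linarith) hy.le
    (by simp only [pathQ, Matrix.cons_val]; linarith)
    (by simp only [pathQ, Matrix.cons_val]; linarith)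
    (by simp only [pathQ, Matrix.cons_val]; linarith)
    (by simp only [pathQ, Matrix.cons_val]; linarith)
    (by simp only [pathQ, Matrix.cons_val]; linarith [b1.1])
    (by simp only [pathQ, Matrix.cons_val]; linarith [b2.1]) (δ := δ)
    (by rw [hv]; linarith)
  refine ⟨δ', hδ', H.mono fun n hn => ?_⟩
  refine le_trans ?_ (hn (I1 n) (Subset.refl _))
  have hsub : heavy D.B D.I I1 (couQ D.B D.lev D.w w0 (incQ π D.L eE gA gB)) monQ 2 x 5 6 y δ n ⊆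
      (I1 n).filter fun i => Crest.Agent.R136.Str186.HeavyS (I1 n)
        (couQ D.B D.lev D.w w0 (incQ π D.L eE gA gB) n)
        (nlab D.B D.I (couQ D.B D.lev D.w w0 (incQ π D.L eE gA gB)) monQ 2 n x) (D.B.d n) x y δ
          i := by
    intro i hi
    unfold heavy at hi
    obtain ⟨hiJ, i1, hi1, f1, b', hb', hc⟩ := mem_filter.1 hi
    refine mem_filter.2 ⟨hiJ, i1, hi1, f1, b', hb', ?_⟩
    simp only [mul_div_assoc]
    convert hc using 4
    unfold cls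
    congr!
  convert (Nat.cast_le (α := ℝ)).2 (card_le_card hsub)

/-- record box minus a box of the plane -/
theorem plane_path {θ : Fin 3 → ℝ} (H : PlOk θ w0 R x0 a b) (h1 : 0 < θ 1) (ξ x : ℝ)
    {k : Fin 11} (hk : k ≠ 1) : pathQ θ w0 R ξ k - X x0 a b (pt θ ξ x) k = a k * x := by
  have e := H.path_sub h1.ne' hk (pt θ ξ x) 0 0
  have e1 : -((pt θ ξ x).2 / θ 1) - 0 / θ 1 = ξ := by
    simp only [pt]; field_simp; ring
  rw [e1, add_zero] at e
  rw [e]; simp only [pt]; ring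

theorem plane_le {θ : Fin 3 → ℝ} (H : PlOk θ w0 R x0 a b) (h1 : 0 < θ 1) {ξ x : ℝ} (hx : 0 ≤ x) :
    X x0 a b (pt θ ξ x) ≤ pathQ θ w0 R ξ := by
  intro k
  by_cases hk : k = 1
  · subst hk
    have e1 : X x0 a b (pt θ ξ x) 1 = x0 1 := by simp only [X, H.ra, H.rb]; ring
    rw [e1]
    exact H.r1.le
  · have e := plane_path H h1 ξ x hk
    have := mul_nonneg (H.a0 k) hx
    linarith

/-- **rarity of heavy strips at every point of a plane through the record line** on which the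
velocities `5`, `6` do not depend on `v` -/
theorem stripUp_row (h : Thick η p D I1 π eE gA gB V T w0 R T0 PD ν own c₀) (hη : 0 < η)
    {qm : ℝ} (hm1 : qm ≤ p.q 1) (hm2 : qm ≤ p.q 2) (H : PlOk p.θ w0 R x0 a b) (ha5 : a 5 = 0)
    (ha6 : a 6 = 0)
    (h20 : p.θ 0 < p.θ 2 ∨ Gap23 D) {ξ x : ℝ} {h' : ℕ → ℝ} {lam : (Fin 11 → ℝ) → ℝ} {A : ℝ × ℝ}
    {φ : ℕ → (Fin 11 → ℝ) → ℝ} {r : ℕ → ℝ}
    (P : RowPt D.B D.I I1 (couQ D.B D.lev D.w w0 (incQ π D.L eE gA gB)) p.θ w0 R ν V T x0 a b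
      ξ x h' lam A φ r) :
    ∃ Y : ℝ, 0 < Y ∧ StripUp D.B D.I I1 (couQ D.B D.lev D.w w0 (incQ π D.L eE gA gB)) monQ 2
      (X x0 a b (pt p.θ ξ x)) 5 6 qm Y := by
  have hθ := h.tp.ok.θ1
  have g0 := P.ξ0
  have g1 := P.ξ1
  have g2 := P.x0'
  have hx : X x0 a b (pt p.θ ξ x) ∈ Leg monQ R := by
    obtain ⟨l, hl⟩ := (P.tan 0 1 one_pos).exists
    have := (hl 0 (zero_mem (Ma := actM monQ x0 a b)) (by simp)).1
    rwa [smul_zero, add_zero] at this
  have e5 := plane_path H hθ ξ x (k := 5) (by decide)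
  have e6 := plane_path H hθ ξ x (k := 6) (by decide)
  rw [ha5, zero_mul] at e5
  rw [ha6, zero_mul] at e6
  have key : ∀ u : ℝ, u * ξ ≤ max u 0 := by
    intro u
    rcases le_total 0 u with hu | hu
    · rw [max_eq_left hu]; nlinarith
    · rw [max_eq_right hu]; nlinarith
  have key2 : ∀ u : ℝ, 0 ≤ u * ξ + max (-u) 0 := by
    intro u
    have := key (-u)
    linarith
  have base : ∀ cby : ℝ, W0 D.B D.r0 D.lev D.w (max (p.θ 2 - p.θ 1) 0) cby (max (1 - p.θ 0) 0)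
      (p.θ 1) → 0 < (p.θ 2 - p.θ 0) * ξ + cby →
      ∃ Y : ℝ, 0 < Y ∧ StripUp D.B D.I I1 (couQ D.B D.lev D.w w0 (incQ π D.L eE gA gB)) monQ 2
        (X x0 a b (pt p.θ ξ x)) 5 6 qm Y := by
    intro cby hW hpos
    exact ⟨min 1 ((p.θ 2 - p.θ 0) * ξ + cby), lt_min one_pos hpos,
      stripUp_rec h hη hm1 hm2 hW (by linarith) (by linarith) hx (plane_le H hθ g2.le) (by linarith)
        (by linarith) (key _) (key _) (by nlinarith) (min_le_left _ _) (min_le_right _ _)⟩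
  by_cases hg : Gap23 D
  · obtain ⟨γ, hγ, hW⟩ := Crest.Agent.R136.NatD550.w0_gap h hg
    refine base _ hW ?_
    rcases le_total 0 (p.θ 2 - p.θ 0) with hu | hu
    · have : 0 ≤ (p.θ 2 - p.θ 0) * ξ := mul_nonneg hu (by linarith)
      have := le_max_right (p.θ 0 - p.θ 2) γ
      linarith
    · rcases hu.eq_or_lt with hu | hu
      · have := le_max_right (p.θ 0 - p.θ 2) γ
        rw [hu, zero_mul, zero_add]; linarith
      · have := le_max_left (p.θ 0 - p.θ 2) γ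
        nlinarith
  · have h20' := h20.resolve_right hg
    refine base _ (Crest.Agent.R136.NatD550.w0_base h) ?_
    have : 0 < (p.θ 2 - p.θ 0) * ξ := mul_pos (by linarith) (by linarith)
    have := le_max_right (p.θ 0 - p.θ 2) 0
    linarith

/-- **windows with known base points at the point of a `RowPt`** -/
theorem row_wndL (h : Thick η p D I1 π eE gA gB V T w0 R T0 PD ν own c₀)
    (H : PlOk p.θ w0 R x0 a b) (ha0 : a 0 = 1) (hb0 : b 0 = 0) (hVb : ∀ k, V k → 0 ≤ b k)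
    {ξ x : ℝ} {h' : ℕ → ℝ} {lam : (Fin 11 → ℝ) → ℝ} {A : ℝ × ℝ}
    {φ : ℕ → (Fin 11 → ℝ) → ℝ} {r : ℕ → ℝ}
    (P : RowPt D.B D.I I1 (couQ D.B D.lev D.w w0 (incQ π D.L eE gA gB)) p.θ w0 R ν V T x0 a b
      ξ x h' lam A φ r) :
    WndL D.B D.B D.I I1 (couQ D.B D.lev D.w w0 (incQ π D.L eE gA gB)) monQ (actM monQ x0 a b) 2
      lam 0 (oS p.θ) (fun k => V k ∧ b k = 0) (fun k => T k ∧ b k = 0)
      (fun _ => X x0 a b (pt p.θ ξ x)) h' := by
  have g0 := P.ξ0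
  have g1 := P.ξ1
  have g2 := P.x0'
  have g3 := P.x1
  have hQ := ownP h.tp.slots H h.tp.ok.θ1 ha0 hb0 hVb g2 (by linarith) (by linarith) P.O
  have hV : locV 0 w0 (ownQ p.θ w0 R V) V (X x0 a b (pt p.θ ξ x)) = fun k => V k ∧ b k = 0 := by
    funext k; exact propext (hQ.loc k).symm
  have hB := bas_plane P.O P.hpos P.h0
  have hOB := ownB_plane P.h0 (fun k hk => ⟨(hQ.sub k hk).1, ((hQ.loc k).1 (hQ.sub k hk).2).1⟩)
    hQ.l0 hQ.l1 hQ.le (fun k hk => ((hQ.loc k).1 (hQ.sub k hk).2).2)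
  rw [hV] at hOB
  exact wndL_core (nprof h) hB P.tan hQ.nz
    fun c hc c' hc' hcc hV' hkz hk => drop_tan (ownF h) (ownPath p.θ w0 R V) hOB P.h0 P.hpos
      P.tan hc hc' hcc hV' hkz hk

/-- **one call at a `RowPt`** : window, pruned set of rich pairs, model, raw twist for every tied
level slot, no heavy strips, additivity -/
theorem row_model_ns (h : Thick η p D I1 π eE gA gB V T w0 R T0 PD ν own c₀) (hη : 0 < η)
    {qm : ℝ} (hm0 : 0 ≤ qm) (hm1 : qm ≤ p.q 1) (hm2 : qm ≤ p.q 2)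
    (h20 : p.θ 0 < p.θ 2 ∨ Gap23 D) (H : PlOk p.θ w0 R x0 a b) (ha0 : a 0 = 1) (hb0 : b 0 = 0)
    (ha5 : a 5 = 0) (ha6 : a 6 = 0)
    (hVb : ∀ k, V k → 0 ≤ b k)
    {ξ x : ℝ} {h' : ℕ → ℝ} {lam : (Fin 11 → ℝ) → ℝ} {A : ℝ × ℝ}
    {φ : ℕ → (Fin 11 → ℝ) → ℝ} {r : ℕ → ℝ}
    (P : RowPt D.B D.I I1 (couQ D.B D.lev D.w w0 (incQ π D.L eE gA gB)) p.θ w0 R ν V T x0 a b
      ξ x h' lam A φ r)
    (st : WSt 11) (hkz : st.kz = 0) (hst : st.Ok monQ (coneM (actM monQ x0 a b)))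
    (hS : ∀ s ∈ st.S, s = 0 ∨ s = 2 ∨ s = 3 ∨ s = 4) (h2 : (2 : Fin 11) ∉ st.S)
    (s : ℕ → ℕ → ℝ) (hs : ∀ i, D.B.Sub (s i))
    {R0 : ℝ} (hR0 : 0 < R0) (h5 : R0 ≤ st.top 5) (h6 : R0 ≤ st.top 6)
    {σ' R' : ℝ} (hden : st.Dens lam σ' R')
    (ex : Wnd 11 (fun _ : ℕ => ℕ × ℝ) → ℕ → ∀ n : ℕ, ℕ × ℝ → ℕ) {g₀ : ℕ → ℝ}
    (hg₀ : Tendsto g₀ U atTop) (hV : ∀ k, V k → b k = 0 → k ∈ st.S ∨ st.top k = 0) :
    ∃ W : Wnd 11 (fun _ : ℕ => ℕ × ℝ),
      WAt D.B D.I (couQ D.B D.lev D.w w0 (incQ π D.L eE gA gB)) monQ (actM monQ x0 a b) 2 lam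
        (fun k => V k ∧ b k = 0) (fun k => T k ∧ b k = 0) st W ∧
      QWnd W (fQ D w0 π eE gA gB) ∧ (∀ i, W.B'.Sub (s i)) ∧ W.J = I1 ∧ NsW W 5 6 qm R0 ∧
      ∃ (E' : ∀ n : ℕ, Finset (ℕ × ℝ)) (g : ℕ → ℝ), Wnd.Pruned W (rich W) E' g (ex W) ∧
      (∀ᶠ n in (U : Filter ℕ), g n ≤ g₀ n) ∧
      RModel W.B' (W.cfg E') σ' R' W.legW W.nu W.Dc ∧
      (∀ s ∈ st.S, (T s ∧ b s = 0) → 0 < st.top s →
        (∃ e : ℝ, 0 < e ∧ cut st.S st.top (Pi.single s e) ∈ coneM (actM monQ x0 a b)) →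
        RawL W E' s) ∧
      (∀ p0 : Fin 11 → ℝ, W.nu 0 ≤ W.nu p0 →
        NoStr W.B' (W.cfg E') p0 5 6 W.nu qm R0) ∧
      (∀ (p0 : Fin 11 → ℝ) (y : ℝ), y ≤ p0 2 → AddC W.B' (W.cfg E') p0 5 6 2 y) ∧
      ∀ᶠ n in (U : Filter ℕ), W.Good n ∧ E' n ⊆ W.Cl n ∧ W.cfg E' n = W.cfg0 n (E' n) := by
  obtain ⟨Y, hY, hSU⟩ := stripUp_row h hη hm1 hm2 H ha5 ha6 h20 P
  have hw : ∀ᶠ l in atTop, h' l * R0 ≤ Y := by
    have : Tendsto (fun l => h' l * R0) atTop (𝓝 0) := by simpa using P.h0.mul_const R0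
    exact (this.eventually_lt_const hY).mono fun l hl => hl.le
  exact wndL_model_ns' (row_wndL h H ha0 hb0 hVb P) P.hpos P.aew.zero
    (fun n i _ j _ => couQ_fQ n i j) st hkz hst hS h2 s hs hm0 hR0 h5 h6
    (hw.mono fun l hl => hSU.mono hl) hden ex hg₀ fun k hk => hV k hk.1 hk.2

end thick

end Crest.Agent.R136.NSt107
end

-- ▼ part R136/C3s_569
section

/-!
# R136, T.C3 (helper569): scalar half and final row

`FH3 η`, `FH4 η` : the F-halves over `Tb628.RowPt` (helper795):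

* `FH3` : 32 tied, natural plane, `κ = 0`, `κ3 = θ 1 - θ 0`; touching = tied slots `3` (and `4` if
  `V 4`);
* `FH4` : only 31 tied, plane with slack `F_b` (`kf = 0`); touching = tied slot `4`.

`caseC3_of` : `FH3 η → FH4 η → Dead η pC3`.
-/

set_option autoImplicit false
set_option linter.unusedVariables false

open Finset Filter Topology

namespace Crest.Agent.R136.C3s569

open Crest.Agent.R136.Net191
open Crest.Agent.R136.NetQ186
open Crest.Agent.R136.NatT550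
open Crest.Agent.R136.NatR550
open Crest.Agent.R136.Lq196
open Crest.Agent.R136.Wq638
open Crest.Agent.R136.Gf356
open Crest.Agent.R136.Dg219
open Crest.Agent.R136.Aw413
open Crest.Agent.R136.Tb628
open Crest.Agent.R136.TopB550
open Crest.Agent.R136.Top484 (Par4 Dat4)

/-- **F-half of C3, 32 tied** (31 tied or not): natural plane `s0, sA 0 κ3, sB θ 0 κ3` -/
def FH3 (η : ℝ) : Prop :=
  ∀ (p : Par4) (D : Dat4) (I1 : ℕ → Finset (ℕ × ℝ)) (π : Equiv.Perm (Fin 3))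
    (eE gA gB : ℕ → ℕ × ℝ → ℝ) (V T : Fin 11 → Prop) (w0 R T0 : ℝ) (PD : Set (Fin 11 → ℝ))
    (ν own : (Fin 11 → ℝ) → ℝ) (c₀ κ3 : ℝ),
    Thick η p D I1 π eE gA gB V T w0 R T0 PD ν own c₀ →
    ¬ V 2 → V 3 → p.θ 2 = p.θ 1 → κ3 = p.θ 1 - p.θ 0 → 0 < κ3 →
    RecS p.θ w0 R ν (eCa 1) (min (p.q 1) (p.q 2)) →
    RecS p.θ w0 R ν (eECb 1) (p.q 2) →
    coneM (actM monQ (s0 w0 (R - 1)) (sA 0 κ3) (sB p.θ 0 κ3)) = coneN →
    ∀ (ξ x : ℝ) (h : ℕ → ℝ) (lam : (Fin 11 → ℝ) → ℝ) (A : ℝ × ℝ)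
      (φ : ℕ → (Fin 11 → ℝ) → ℝ) (r : ℕ → ℝ),
      RowPt D.B D.I I1 (couQ D.B D.lev D.w w0 (incQ π D.L eE gA gB)) p.θ w0 R ν V T
        (s0 w0 (R - 1)) (sA 0 κ3) (sB p.θ 0 κ3) ξ x h lam A φ r →
      Hom (s0 w0 (R - 1)) (sA 0 κ3) (sB p.θ 0 κ3) φ →
      AeW D.B D.B D.I I1 (couQ D.B D.lev D.w w0 (incQ π D.L eE gA gB)) monQ
        (actM monQ (s0 w0 (R - 1)) (sA 0 κ3) (sB p.θ 0 κ3)) 2 lam (sA 0 κ3) (sB p.θ 0 κ3) A φ r
        0 1 (oS p.θ) (fun k => k = 3 ∨ (k = 4 ∧ V 4)) (fun k => k = 3 ∨ (k = 4 ∧ V 4)) →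
      A.1 ≤ -(4 + κ3)

/-- **F-half of C3, only 31 tied**: the plane with slack `F_b` (constant along `v`),
`s0, fA 0 κ3 0, fB θ 0 κ3 0` -/
def FH4 (η : ℝ) : Prop :=
  ∀ (p : Par4) (D : Dat4) (I1 : ℕ → Finset (ℕ × ℝ)) (π : Equiv.Perm (Fin 3))
    (eE gA gB : ℕ → ℕ × ℝ → ℝ) (V T : Fin 11 → Prop) (w0 R T0 : ℝ) (PD : Set (Fin 11 → ℝ))
    (ν own : (Fin 11 → ℝ) → ℝ) (c₀ κ3 : ℝ),
    Thick η p D I1 π eE gA gB V T w0 R T0 PD ν own c₀ →
    ¬ V 2 → ¬ V 3 → V 4 → p.θ 2 = p.θ 1 → κ3 = p.θ 1 - p.θ 0 → 0 < κ3 →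
    RecS p.θ w0 R ν (eCa 1) (min (p.q 1) (p.q 2)) →
    RecS p.θ w0 R ν (eECb 1) (p.q 2) →
    coneM (actM monQ (s0 w0 (R - 1)) (fA 0 κ3 0) (fB p.θ 0 κ3 0)) = coneF →
    ∀ (ξ x : ℝ) (h : ℕ → ℝ) (lam : (Fin 11 → ℝ) → ℝ) (A : ℝ × ℝ)
      (φ : ℕ → (Fin 11 → ℝ) → ℝ) (r : ℕ → ℝ),
      RowPt D.B D.I I1 (couQ D.B D.lev D.w w0 (incQ π D.L eE gA gB)) p.θ w0 R ν V T
        (s0 w0 (R - 1)) (fA 0 κ3 0) (fB p.θ 0 κ3 0) ξ x h lam A φ r →
      Hom (s0 w0 (R - 1)) (fA 0 κ3 0) (fB p.θ 0 κ3 0) φ →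
      AeW D.B D.B D.I I1 (couQ D.B D.lev D.w w0 (incQ π D.L eE gA gB)) monQ
        (actM monQ (s0 w0 (R - 1)) (fA 0 κ3 0) (fB p.θ 0 κ3 0)) 2 lam (fA 0 κ3 0) (fB p.θ 0 κ3 0)
        A φ r 0 1 (oS p.θ) (fun k => k = 4) (fun k => k = 4) →
      A.1 ≤ -(4 + κ3)

section

variable {η : ℝ} {p : Par4} {D : Dat4} {I1 : ℕ → Finset (ℕ × ℝ)} {π : Equiv.Perm (Fin 3)}
  {eE gA gB : ℕ → ℕ × ℝ → ℝ} {V T : Fin 11 → Prop} {PD : Set (Fin 11 → ℝ)}
  {w0 R T0 c₀ : ℝ} {ν own : (Fin 11 → ℝ) → ℝ}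

/-- no slot is capped if 21 is invisible -/
theorem tied_iff {θ : Fin 3 → ℝ} (sl : SlotOk θ V T) (h2 : ¬ V 2) (k : Fin 11) : T k ↔ V k := by
  refine ⟨sl.tied k, fun hk => ?_⟩
  by_contra hT
  exact h2 (sl.cap k hk hT).2.1

/-- `θ 0 < θ 1` in C3 -/
theorem th01 {θ : Fin 3 → ℝ} (sl : SlotOk θ V T) (h12 : θ 2 = θ 1) (h34 : V 3 ∨ V 4) :
    θ 0 < θ 1 := by
  rcases h34 with h | h
  · have := (sl.vis 3 h).2
    simp [btQ] at this
    linarith
  · have := (sl.vis 4 h).2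
    simp [btQ] at this
    linarith

/-- **T.C3 from the two F-halves** -/
theorem caseC3_of {η : ℝ} (hη1 : η ≤ 1 / 8) (F3 : FH3 η) (F4 : FH4 η) : Dead η pC3 := by
  intro p D I1 π eE gA gB V T w0 R T0 PD ν own c₀ h hp
  obtain ⟨h2, h34, h12⟩ := hp
  have ok := h.tp.ok
  have sl := h.tp.slots
  have hη := ok.η_pos
  have t0 : p.θ 0 < p.θ 1 := th01 sl h12 h34
  have hk3 : 0 < p.θ 1 - p.θ 0 := by linarith
  have hsl : p.q 2 * 0 + p.q 0 * (p.θ 1 - p.θ 0) < p.g :=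
    hsl_sub ok hη1 (i := 0) (j := 0) (k := 1) (l := 0) (abs_nonneg _) (le_abs_self _)
  have hA : RecS p.θ w0 R ν (eCa 1) (min (p.q 1) (p.q 2)) := recA_min h t0
  have h20 : p.θ 2 ≠ p.θ 0 := by rw [h12]; exact t0.ne'
  by_cases h3 : V 3
  · -- natural plane
    refine row_nat0 h hη le_rfl hk3.le (Or.inl rfl) (Or.inr (Or.inl h20)) hsl
      (fun h => absurd h h2) (fun _ => by rw [h12]; linarith) (fun _ => le_rfl) ?_
    intro _ hB hcone ξ x h' lam A φ r P hom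
    have e1 : (fun k => V k ∧ sB p.θ 0 (p.θ 1 - p.θ 0) k = 0) =
        fun k => k = 3 ∨ (k = 4 ∧ V 4) := by
      funext k
      refine propext ⟨fun hk => ?_, fun hk => ?_⟩
      · rcases (sl.vis k hk.1).1 with rfl | rfl | rfl
        · exact absurd hk.1 h2
        · exact Or.inl rfl
        · exact Or.inr ⟨rfl, hk.1⟩
      · rcases hk with rfl | ⟨rfl, hk⟩
        · exact ⟨h3, (sB_three0 ok.θ1.ne').2 (by rw [h12]; ring)⟩
        · exact ⟨hk, (sB_four0 ok.θ1.ne').2 rfl⟩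
    have e2 : (fun k => T k ∧ sB p.θ 0 (p.θ 1 - p.θ 0) k = 0) =
        fun k => k = 3 ∨ (k = 4 ∧ V 4) := by
      rw [← e1]
      funext k
      rw [tied_iff sl h2 k]
    have aew := P.aew
    rw [e1, e2] at aew
    have := F3 p D I1 π eE gA gB V T w0 R T0 PD ν own c₀ _ h h2 h3 h12 rfl hk3 hA
      (hB (Or.inl h20)) hcone ξ x h' lam A φ r P hom aew
    linarith
  · -- plane with slack `F_b`
    have h4 : V 4 := h34.resolve_left h3
    refine row_F0 h hη le_rfl hk3.le le_rfl (by linarith) (Or.inl rfl) (Or.inl h20) hsl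
      (fun h => absurd h h2) (fun h => absurd h h3) (fun _ => le_rfl) ?_
    intro _ hB hcone ξ x h' lam A φ r P hom
    have e1 : (fun k => V k ∧ fB p.θ 0 (p.θ 1 - p.θ 0) 0 k = 0) = fun k => k = 4 := by
      funext k
      refine propext ⟨fun hk => ?_, fun hk => ?_⟩
      · rcases (sl.vis k hk.1).1 with rfl | rfl | rfl
        · exact absurd hk.1 h2
        · exact absurd hk.1 h3
        · rfl
      · subst hk
        refine ⟨h4, ?_⟩
        rw [fB_of_ne (by decide)]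
        exact (sB_four0 ok.θ1.ne').2 rfl
    have e2 : (fun k => T k ∧ fB p.θ 0 (p.θ 1 - p.θ 0) 0 k = 0) = fun k => k = 4 := by
      rw [← e1]
      funext k
      rw [tied_iff sl h2 k]
    have aew := P.aew
    rw [e1, e2] at aew
    have := F4 p D I1 π eE gA gB V T w0 R T0 PD ν own c₀ _ h h2 h3 h4 h12 rfl hk3 hA
      hB hcone ξ x h' lam A φ r P hom aew
    linarith

end

end Crest.Agent.R136.C3s569
end

-- ▼ part R136/C3g_795

/-!
# R136, case (C3): tangent facts and models on the two planes (helper795)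

* `aC τ κ`, `bC β`, `xC` : the planes in numbers; `plane_nat`, `plane_F`.
* `Pln` : the cone, the active walls; `stC` : static data; `tf_of_pt : RowPt ⊢ TF`.
* `mod_of_pt : RowPt ⊢ Mod` (107's `row_model_ns`), `T = 1 + κ`.
-/

set_option autoImplicit false
set_option linter.unusedVariables false
set_option linter.unusedSectionVars false

open Filter Topology Finset

namespace Crest.Agent.R136.C3g795

open Crest.Agent.R138.Ex926 (Base U)
open Crest.Agent.R136.Net191 Crest.Agent.R136.NetQ186 Crest.Agent.R136.Qg926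
open Crest.Agent.R136.Gf356 Crest.Agent.R136.Ev356 Crest.Agent.R136.Aw413
open Crest.Agent.R136.NatT550 Crest.Agent.R136.NatR550 Crest.Agent.R136.Lq196
open Crest.Agent.R136.Wq638
open Crest.Agent.R136.Tb628
open Crest.Agent.R136.Top484 (Par4 Dat4)
open Crest.Agent.R136.Dg219 (gC dhC nC OutS gC_zero gC_eq gset lf)
open Crest.Agent.R136.C3a795 Crest.Agent.R136.C3b795 Crest.Agent.R136.C3c795
open Crest.Agent.R136.C3d795 Crest.Agent.R136.C3f795
open Crest.Agent.R136.NSt107 (row_model_ns)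
open Crest.Agent.R136.Fe1355 (RawTw)
open Crest.Agent.R136.CV366 (NoStr)

/-! ### the planes in numbers -/

def aC (τ κ : ℝ) : Fin 11 → ℝ := ![1, 0, 0, τ * κ, κ, 0, 0, κ, 1, 1, 1 + κ]
def bC (β : ℝ) : Fin 11 → ℝ := ![0, 0, 0, β, 0, 1, 1, 1, 1, 1, 1]
def xC (w0 R : ℝ) : Fin 11 → ℝ :=
  ![w0, R - 1, w0, w0, 2 * w0, w0, 2 * w0, 3 * w0, 2 * w0, 3 * w0, 4 * w0]

theorem s0_eq (w0 R : ℝ) : s0 w0 (R - 1) = xC w0 R := by
  funext i
  fin_cases i <;> simp [s0, nat4, xC]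

theorem sA_eq (κ : ℝ) : sA 0 κ = aC 1 κ := by
  funext i
  fin_cases i <;> simp [sA, nL, aC]

theorem sB_eq {θ : Fin 3 → ℝ} {κ : ℝ} (h1 : θ 1 ≠ 0) (h2 : θ 2 = θ 1) (h3 : κ = θ 1 - θ 0) :
    sB θ 0 κ = bC 0 := by
  have e1 : (θ 2 + 0) / θ 1 = 1 := by rw [add_zero, h2, div_self h1]
  have e2 : (θ 0 + κ) / θ 1 = 1 := by rw [h3, add_sub_cancel, div_self h1]
  unfold sB
  rw [e1, e2]
  funext i
  fin_cases i <;> simp [nL, bC]

theorem fA_eq (κ : ℝ) : fA 0 κ 0 = aC 0 κ := by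
  funext i
  by_cases h3 : i = 3
  · subst h3
    rw [fA, Function.update_self]; simp [aC]
  · rw [fA, Function.update_of_ne h3, sA_eq]
    fin_cases i <;> first | exact absurd rfl h3 | simp [aC]

theorem fB_eq {θ : Fin 3 → ℝ} {κ : ℝ} (h1 : θ 1 ≠ 0) (h2 : θ 2 = θ 1) (h3 : κ = θ 1 - θ 0) :
    fB θ 0 κ 0 = bC ((0 - (θ 2 - θ 0)) / θ 1) := by
  funext i
  by_cases h4 : i = 3
  · subst h4
    rw [fB, Function.update_self]; simp [bC]
  · rw [fB, Function.update_of_ne h4, sB_eq h1 h2 h3]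
    fin_cases i <;> first | exact absurd rfl h4 | simp [bC]

theorem slo_C {κ τ β : ℝ} : Slo (aC τ κ) (bC β) κ τ := by
  constructor <;> simp [aC, bC]

/-- the plane and its cone -/
structure Pln (x0 a b : Fin 11 → ℝ) (w0 R κ τ β : ℝ) : Prop where
  κ0 : 0 < κ
  ex : x0 = xC w0 R
  ea : a = aC τ κ
  eb : b = bC β
  pl : (τ = 1 ∧ coneM (actM monQ x0 a b) = coneN ∧ β = 0) ∨
    (τ = 0 ∧ coneM (actM monQ x0 a b) = coneF)

/-- level slots -/
noncomputable def SC (τ : ℝ) : Finset (Fin 11) := if τ = 1 then {0, 3, 4} else {0, 4}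

theorem SC_one : SC 1 = {0, 3, 4} := by unfold SC; rw [if_pos rfl]
theorem SC_zero : SC 0 = {0, 4} := by unfold SC; rw [if_neg (by norm_num)]

/-- static data -/
noncomputable def stC (τ T : ℝ) (Ma : Mons 11) : WSt 11 where
  S := SC τ
  kz := 0
  top := fun _ => T
  kap := fun s => (4 * cK0 monQ 2) ^ Ab356.wtQ s
  Mw := Ma
  R' := T

variable {x0 a b : Fin 11 → ℝ} {w0 R κ τ β T : ℝ}

/-- membership in the cone by the ten walls -/
theorem mem_cone (P : Pln x0 a b w0 R κ τ β) {c : Fin 11 → ℝ} (h4 : τ = 1 → c 4 ≤ c 2 + c 3)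
    (h6 : c 6 ≤ c 2 + c 5) (h7 : c 7 ≤ c 4 + c 5) (h7' : τ = 1 → c 7 ≤ c 3 + c 6)
    (h8 : c 8 ≤ c 0 + c 5) (h9 : c 9 ≤ c 0 + c 6) (h9' : c 9 ≤ c 2 + c 8)
    (h10 : c 10 ≤ c 0 + c 7) (h10' : c 10 ≤ c 4 + c 8) (h10'' : τ = 1 → c 10 ≤ c 3 + c 9) :
    c ∈ coneM (actM monQ x0 a b) := by
  rcases P.pl with ⟨e, e1, -⟩ | ⟨e, e1⟩
  · rw [e1]
    exact ⟨h4 e, h6, h7, h7' e, h8, h9, h9', h10, h10', h10'' e⟩
  · rw [e1]
    exact ⟨h6, h7, h8, h9, h9', h10, h10'⟩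

theorem stC_ok (P : Pln x0 a b w0 R κ τ β) (hT : 0 ≤ T) :
    (stC τ T (actM monQ x0 a b)).Ok monQ (coneM (actM monQ x0 a b)) := by
  have key : ∀ {c : Fin 11 → ℝ}, (∀ s, 0 ≤ c s) → (∀ s, c s ≤ T) →
      c ∈ coneM (actM monQ x0 a b) → c ∈ Leg (actM monQ x0 a b) T := fun {c} h0 h1 hc =>
    ⟨⟨h0, fun k e he => hc k e he⟩, h1⟩
  refine ⟨hT, leg_cone fun k => Finset.Subset.refl _, ?_, ?_, ?_, ?_, rfl, ?_, ?_⟩
  · show (fun _ => T) ∈ Leg (actM monQ x0 a b) T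
    refine key (fun _ => hT) (fun _ => le_rfl) (mem_cone P ?_ ?_ ?_ ?_ ?_ ?_ ?_ ?_ ?_ ?_) <;>
      simp <;> intros <;> linarith
  · show cut (SC τ) (fun _ => T) 0 ∈ Leg (actM monQ x0 a b) T
    rcases P.pl with ⟨e, -, -⟩ | ⟨e, -⟩
    · subst e
      rw [SC_one]
      refine key (fun s => ?_) (fun s => ?_) (mem_cone P ?_ ?_ ?_ ?_ ?_ ?_ ?_ ?_ ?_ ?_)
      · fin_cases s <;> simp [cut, hT]
      · fin_cases s <;> simp [cut, hT]
      all_goals simp [cut, hT]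
    · subst e
      rw [SC_zero]
      refine key (fun s => ?_) (fun s => ?_) (mem_cone P ?_ ?_ ?_ ?_ ?_ ?_ ?_ ?_ ?_ ?_)
      · fin_cases s <;> simp [cut, hT]
      · fin_cases s <;> simp [cut, hT]
      all_goals simp [cut, hT]
  · show cut (SC τ) 0 (fun _ => T) ∈ Leg (actM monQ x0 a b) T
    rcases P.pl with ⟨e, -, -⟩ | ⟨e, -⟩
    · subst e
      rw [SC_one]
      refine key (fun s => ?_) (fun s => ?_) (mem_cone P ?_ ?_ ?_ ?_ ?_ ?_ ?_ ?_ ?_ ?_)
      · fin_cases s <;> simp [cut, hT]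
      · fin_cases s <;> simp [cut, hT]
      all_goals simp [cut, hT]
    · subst e
      rw [SC_zero]
      refine key (fun s => ?_) (fun s => ?_) (mem_cone P ?_ ?_ ?_ ?_ ?_ ?_ ?_ ?_ ?_ ?_)
      · fin_cases s <;> simp [cut, hT]
      · fin_cases s <;> simp [cut, hT]
      all_goals simp [cut, hT]
  · show (0 : Fin 11) ∈ SC τ
    rcases P.pl with ⟨e, -, -⟩ | ⟨e, -⟩
    · rw [e, SC_one]; decide
    · rw [e, SC_zero]; decide
  · show (actM monQ x0 a b).mon 0 = ∅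
    refine Finset.subset_empty.1 fun e he => ?_
    exact (mem_actM.1 he).1
  · intro s
    show 0 < (4 * cK0 monQ 2) ^ Ab356.wtQ s
    have := cK0_one (M := monQ) (C := 2) (by norm_num)
    positivity

theorem mem_SC (P : Pln x0 a b w0 R κ τ β) (j : Fin 11) : j ∈ SC τ ↔ a j ≠ 0 ∧ b j = 0 := by
  have hκ := P.κ0
  rw [P.ea, P.eb]
  rcases P.pl with ⟨e, -, e2⟩ | ⟨e, -⟩
  · subst e; subst e2
    rw [SC_one]
    fin_cases j <;> simp [aC, bC, hκ.ne']
  · subst e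
    rw [SC_zero]
    fin_cases j <;> simp [aC, bC, hκ.ne']

/-! ### active walls -/

theorem act_of (P : Pln x0 a b w0 R κ τ β) {k i j : Fin 11} (hm : mv i j ∈ monQ.mon k)
    (h1 : xC w0 R k = xC w0 R i + xC w0 R j) (h2 : aC τ κ k = aC τ κ i + aC τ κ j)
    (h3 : bC β k = bC β i + bC β j) : mv i j ∈ (actM monQ x0 a b).mon k := by
  rw [mem_act]
  refine ⟨hm, ?_, ?_, ?_⟩
  · rw [P.ex]; exact h1
  · rw [P.ea]; exact h2
  · rw [P.eb]; exact h3

theorem not_act {k i j : Fin 11} (P : Pln x0 a b w0 R κ τ β)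
    (h : aC τ κ k ≠ aC τ κ i + aC τ κ j ∨ bC β k ≠ bC β i + bC β j) :
    mv i j ∉ (actM monQ x0 a b).mon k := by
  rw [mem_act]
  rintro ⟨-, -, h1, h2⟩
  rw [P.ea] at h1
  rw [P.eb] at h2
  rcases h with h | h
  · exact h h1
  · exact h h2

section wat

variable {ι : ℕ → Type*} [∀ n, DecidableEq (ι n)] {W : Wnd 11 ι} {f : ∀ n, ι n → Fq4}
  {B : Base} {I : ∀ n, Finset (ι n)} {co : ∀ n, ι n → ι n → Fin 11 → ℝ}
  {lam : (Fin 11 → ℝ) → ℝ} {V Tw : Fin 11 → Prop}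

/-- **the window of case C3** -/
theorem wc_of_wat (P : Pln x0 a b w0 R κ τ β) (hT : 0 < T)
    (hW : WAt B I co monQ (actM monQ x0 a b) 2 lam V Tw (stC τ T (actM monQ x0 a b)) W)
    (hQ : QWnd W f) : WC W f (actM monQ x0 a b) T := by
  have hS : W.S = SC τ := hW.eS
  have hκ := P.κ0
  refine
  { qa := QAt.of_wat hW hQ ?_ (fun s => rfl) (not_act P (Or.inr (by simp [bC])))
    kz := hW.ekz
    top := hW.etop
    T0 := hT
    R' := hW.eR
    Mw := hW.eMw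
    leg := ?_
    S4 := ?_
    S2 := ?_
    m256 := act_of P (by decide) (by simp [xC]; ring) (by simp [aC]) (by simp [bC])
    m457 := act_of P (by decide) (by simp [xC]; ring) (by simp [aC]) (by simp [bC])
    m058 := act_of P (by decide) (by simp [xC]; ring) (by simp [aC]) (by simp [bC])
    m069 := act_of P (by decide) (by simp [xC]; ring) (by simp [aC]) (by simp [bC])
    m289 := act_of P (by decide) (by simp [xC]; ring) (by simp [aC]) (by simp [bC])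
    m0710 := act_of P (by decide) (by simp [xC]; ring) (by simp [aC]) (by simp [bC])
    m4810 := act_of P (by decide) (by simp [xC]; ring) (by simp [aC]; ring) (by simp [bC])
    h3 := ?_ }
  · show (0 : Fin 11) ∈ SC τ
    rw [mem_SC P, P.ea, P.eb]; simp [aC, bC]
  · intro c5 c6 c7 c8 c9 c10 h50 h5 h60 h6 h70 h7 h80 h8 h90 h9 h100 h10
    rw [hS]
    rcases P.pl with ⟨e, -, -⟩ | ⟨e, -⟩
    · subst e
      rw [SC_one]
      refine mem_cone P ?_ ?_ ?_ ?_ ?_ ?_ ?_ ?_ ?_ ?_ <;> simp [cut, b6] <;> linarith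
    · subst e
      rw [SC_zero]
      refine mem_cone P ?_ ?_ ?_ ?_ ?_ ?_ ?_ ?_ ?_ ?_ <;> simp [cut, b6] <;> linarith
  · rw [hS, mem_SC P, P.ea, P.eb]; simp [aC, bC, hκ.ne']
  · rw [hS, mem_SC P, P.ea, P.eb]; simp [aC, bC]
  · rcases P.pl with ⟨e, -, e2⟩ | ⟨e, -⟩
    · left
      subst e; subst e2
      refine ⟨?_, act_of P (by decide) (by simp [xC]; ring) (by simp [aC]) (by simp [bC]),
        act_of P (by decide) (by simp [xC]; ring) (by simp [aC]) (by simp [bC]),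
        act_of P (by decide) (by simp [xC]; ring) (by simp [aC]; ring) (by simp [bC])⟩
      rw [hS, mem_SC P, P.ea, P.eb]; simp [aC, bC, hκ.ne']
    · right
      subst e
      refine ⟨?_, not_act P (Or.inl (by simp [aC, hκ.ne'])), not_act P (Or.inl
        (by simp [aC, hκ.ne'])), not_act P (Or.inl (by simp [aC]; linarith))⟩
      rw [hS, mem_SC P, P.ea, P.eb]; simp [aC, bC]

/-- values of the profile -/
theorem nu_of_wat (P : Pln x0 a b w0 R κ τ β)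
    (hW : WAt B I co monQ (actM monQ x0 a b) 2 lam V Tw (stC τ T (actM monQ x0 a b)) W)
    (ca cb p xa xb n : ℝ) : W.nu (b6 ca cb p xa xb n) =
      lam (vv τ T T ca cb p xa xb n) - lam (fun _ => T) := by
  have e1 : W.S = SC τ := hW.eS
  have e2 : W.top = fun _ => T := hW.etop
  unfold Wnd.nu
  rw [hW.elam, e1, e2]
  congr 2
  rcases P.pl with ⟨e, -, -⟩ | ⟨e, -⟩
  · subst e
    rw [SC_one]
    funext i; fin_cases i <;> simp [cut, b6, vv]
  · subst e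
    rw [SC_zero]
    funext i; fin_cases i <;> simp [cut, b6, vv]

end wat

/-! ### the facts at a point -/

section pt

variable {η : ℝ} {p : Par4} {D : Dat4} {I1 : ℕ → Finset (ℕ × ℝ)} {π : Equiv.Perm (Fin 3)}
  {eE gA gB : ℕ → ℕ × ℝ → ℝ} {V T' : Fin 11 → Prop} {PD : Set (Fin 11 → ℝ)} {T0 c₀ : ℝ}
  {ν own : (Fin 11 → ℝ) → ℝ} {ξ x : ℝ} {h' : ℕ → ℝ} {lam : (Fin 11 → ℝ) → ℝ} {A : ℝ × ℝ}
  {φ : ℕ → (Fin 11 → ℝ) → ℝ} {r : ℕ → ℝ} {m : ℝ}

theorem tf_of_pt (P : Pln x0 a b w0 R κ τ β)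
    (Pt : RowPt D.B D.I I1 (couQ D.B D.lev D.w w0 (incQ π D.L eE gA gB)) p.θ w0 R ν V T' x0 a b
      ξ x h' lam A φ r) (hm : 0 < m) (hS : RecS p.θ w0 R ν (eCa 1) m) :
    TF (coneM (actM monQ x0 a b)) lam a b A φ r κ τ m where
  κ0 := P.κ0
  m0 := hm
  sl := by rw [P.ea, P.eb]; exact slo_C
  pl := by
    rcases P.pl with ⟨e, e1, e2⟩ | ⟨e, e1⟩
    · refine Or.inl ⟨e, e1, ?_⟩
      rw [P.eb, e2]; simp [bC]
    · exact Or.inr ⟨e, e1⟩
  out := Pt.aew.out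
  zero := Pt.aew.zero
  anti := Pt.aew.anti
  sharp := Pt.aew.sharp
  own := fun c hc h0 => by
    have := Pt.aew.own 0 zero_mem c hc h0 (by simp)
    rw [Pt.aew.zero] at this
    simpa using this
  S1 := fun y hy => by
    have e : vv τ 0 0 y 0 0 0 0 0 = 0 + eCa y := by
      funext i; fin_cases i <;> simp [vv, eCa]
    have := Pt.S1 (by rw [P.ea]; simp [aC]) (by rw [P.eb]; simp [bC]) hS zero_mem hy (by
      refine mem_cone P ?_ ?_ ?_ ?_ ?_ ?_ ?_ ?_ ?_ ?_ <;> simp [eCa, hy]) (by simp)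
    rw [Pt.aew.zero] at this
    rw [e]
    linarith

/-- density of the heights -/
theorem dens_of_pt (P : Pln x0 a b w0 R κ τ β)
    (Pt : RowPt D.B D.I I1 (couQ D.B D.lev D.w w0 (incQ π D.L eE gA gB)) p.θ w0 R ν V T' x0 a b
      ξ x h' lam A φ r) {T : ℝ} (hT : 0 ≤ T) : (stC τ T (actM monQ x0 a b)).Dens lam 1 T := by
  refine Pt.aew.dens rfl (stC_ok P hT) ?_ zero_le_one le_rfl (le_refl T) ?_
  · intro i j hij hi
    have hi' : i ∈ SC τ := hi
    show j ∈ SC τ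
    rw [mem_SC P] at hi' ⊢
    obtain ⟨g1, g2⟩ := grp_par hij
    have g3 : a j ≠ 0 := fun h0 => hi'.1 (g1.2 h0)
    refine ⟨g3, ?_⟩
    have g4 := g2 hi'.1
    rw [hi'.2, zero_mul] at g4
    rcases mul_eq_zero.1 g4.symm with h | h
    · exact h
    · exact absurd h hi'.1
  · intro y hy _
    refine mem_cone P ?_ ?_ ?_ ?_ ?_ ?_ ?_ ?_ ?_ ?_ <;> simp [Pi.single_apply, hy]

/-- **the model at a point** -/
theorem mod_of_pt (h : Thick η p D I1 π eE gA gB V T' w0 R T0 PD ν own c₀) (hη : 0 < η)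
    (h20 : p.θ 0 < p.θ 2) (H : PlOk p.θ w0 R x0 a b) (P : Pln x0 a b w0 R κ τ β)
    (Pt : RowPt D.B D.I I1 (couQ D.B D.lev D.w w0 (incQ π D.L eE gA gB)) p.θ w0 R ν V T' x0 a b
      ξ x h' lam A φ r) (hVb : ∀ k, V k → 0 ≤ b k) (hV : ∀ k, V k → b k = 0 → k ∈ SC τ)
    (hTw : (τ = 1 ∧ T' 3) ∨ (τ = 0 ∧ T' 4)) {T : ℝ} (hT : 0 < T) :
    ∃ (B' : Base) (G : ℕ → RCfg (Fin 11)) (Leg : Set (Fin 11 → ℝ)) (ν' : (Fin 11 → ℝ) → ℝ)
      (D' : ℝ) (fa fb : ℕ → ℕ → ℝ),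
      Mod (coneM (actM monQ x0 a b)) lam τ T B' G Leg ν' D' fa fb (min (p.q 1) (p.q 2)) T := by
  have hqm := min_q_pos h.tp.ok
  have ea := P.ea
  have eb := P.eb
  obtain ⟨W, hW, hQ, -, -, -, E', g, -, -, hR, hL, hns, -, hc⟩ := row_model_ns h hη hqm.le
    (min_le_left _ _) (min_le_right _ _) (Or.inl h20) H (by rw [ea]; simp [aC])
    (by rw [eb]; simp [bC]) (by rw [ea]; simp [aC]) (by rw [ea]; simp [aC]) hVb Pt
    (stC τ T (actM monQ x0 a b)) rfl (stC_ok P hT.le) (by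
      intro s hs
      have hs' : s ∈ SC τ := hs
      rw [mem_SC P, ea, eb] at hs'
      fin_cases s <;> simp [aC, bC] at hs' ⊢) (by
      intro hs
      have hs' : (2 : Fin 11) ∈ SC τ := hs
      rw [mem_SC P, ea, eb] at hs'
      simp [aC] at hs') (fun _ _ => 1) (fun _ => Base.Sub.const one_pos) hT le_rfl le_rfl
    (dens_of_pt P Pt hT.le) (fun _ _ _ _ => 0) (g₀ := fun n => n)
    (tendsto_natCast_atTop_atTop.mono_left Crest.Agent.R138.Ex926.U_le_atTop) (fun k hk hb =>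
      Or.inl (hV k hk hb))
  have w := wc_of_wat P hT hW hQ
  have hc' : HC W E' := hc
  have e0 : b6 0 0 0 0 0 0 = 0 := by
    funext i; fin_cases i <;> simp [b6]
  refine ⟨W.B', shr (W.cfg E') (eW W), LegS W.legW, W.nu, 4 * W.Dc, faW W, fbW W, w.m3 hc' hR,
    nu_of_wat P hW, hqm, hT, ?_, ?_⟩
  · exact noStr_shr hR.base (w.eb hc') (by simp [b6]) (by simp [b6]) (hns _ (by rw [e0]))
  · rcases hTw with ⟨e, h3⟩ | ⟨e, h4⟩
    · left
      refine ⟨e, ?_⟩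
      subst e
      have hS3 : (3 : Fin 11) ∈ SC 1 := by rw [SC_one]; decide
      have h3S : (3 : Fin 11) ∈ W.S := by rw [hW.eS]; exact hS3
      refine w.rawTw_fb hc' h3S (hL 3 hS3 ⟨h3, ?_⟩ hT ⟨T, hT, ?_⟩)
      · rw [mem_SC P] at hS3
        exact hS3.2
      · show cut (SC 1) (fun _ => T) (Pi.single 3 T) ∈ _
        rw [SC_one]
        refine mem_cone P ?_ ?_ ?_ ?_ ?_ ?_ ?_ ?_ ?_ ?_ <;> simp [cut, Pi.single_apply, hT.le]
    · right
      subst e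
      have hS4 : (4 : Fin 11) ∈ SC 0 := by rw [SC_zero]; decide
      have h3S : (3 : Fin 11) ∉ W.S := by
        rw [hW.eS]
        show (3 : Fin 11) ∉ SC 0
        rw [SC_zero]; decide
      refine ⟨rfl, fun n k => by unfold fbW; rw [if_neg h3S], w.rawTw_fa hc' h3S
        (hL 4 hS4 ⟨h4, ?_⟩ hT ⟨T, hT, ?_⟩)⟩
      · rw [mem_SC P] at hS4
        exact hS4.2
      · show cut (SC 0) (fun _ => T) (Pi.single 4 T) ∈ _
        rw [SC_zero]
        refine mem_cone P ?_ ?_ ?_ ?_ ?_ ?_ ?_ ?_ ?_ ?_ <;> simp [cut, Pi.single_apply, hT.le]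

end pt

end Crest.Agent.R136.C3g795
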