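import Mathlib
import Crest.Agent.R136.Sh1_605
import Crest.Agent.R136.Fl1_808

-- ▼ part R136/Cbx_140
section

/-!
# R136 (U4, PLAN 2, (L4)): the crossing box (helper140)

Two planks `S`, `S''` of one system, both crossed by planks of the other system, meet in ONE box of side
`r = E / (α κ μ)` of the `(z, long)`-plane.

* `cramer` : the linear algebra;
* `Tube` : `T'` lies along `T` up to a multiple of the direction `d` and an error box `b`;
* `crossing_place`.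
-/

set_option autoImplicit false
set_option linter.unusedVariables false

namespace Crest.Agent.R136.Cbx140

open Crest.Agent.R136.Sh605

/-- Cramer's rule with bounds -/
theorem cramer {x y Λv Λ2 μv μ2 c E Λ μ κ : ℝ} (hc : 0 ≤ c) (hE : 0 ≤ E) (hΛ : 0 < Λ)
    (h1 : |x * Λv + y * Λ2| ≤ c) (h2 : |x * μv + y * μ2| ≤ c * E) (hΛv : |Λv| ≤ Λ)
    (hΛ2 : |Λ2| ≤ Λ) (hμv : |μv| ≤ μ) (hμ2 : |μ2| ≤ μ) (hμE : μ ≤ Λ * E)
    (hdet : κ * Λ * μ ≤ |Λv * μ2 - μv * Λ2|) :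
    |x| * (κ * μ) ≤ 2 * c * E ∧ |y| * (κ * μ) ≤ 2 * c * E := by
  have key : ∀ t R : ℝ, |t| * |Λv * μ2 - μv * Λ2| ≤ R → R ≤ 2 * c * E * Λ →
      |t| * (κ * μ) ≤ 2 * c * E := by
    intro t R ht hR
    have h3 : |t| * (κ * Λ * μ) ≤ 2 * c * E * Λ :=
      (mul_le_mul_of_nonneg_left hdet (abs_nonneg t)).trans (ht.trans hR)
    have h4 : (|t| * (κ * μ)) * Λ ≤ (2 * c * E) * Λ := by nlinarith
    exact le_of_mul_le_mul_right h4 hΛ
  have hμ : 0 ≤ μ := (abs_nonneg _).trans hμv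
  have hb : c * μ + c * E * Λ ≤ 2 * c * E * Λ := by nlinarith [mul_le_mul_of_nonneg_left hμE hc]
  constructor
  · refine key x (c * μ + c * E * Λ) ?_ hb
    rw [← abs_mul]
    have : x * (Λv * μ2 - μv * Λ2) = (x * Λv + y * Λ2) * μ2 - (x * μv + y * μ2) * Λ2 := by ring
    rw [this]
    refine (abs_sub _ _).trans (add_le_add ?_ ?_)
    · rw [abs_mul]; exact mul_le_mul h1 hμ2 (abs_nonneg _) hc
    · rw [abs_mul]; exact mul_le_mul h2 hΛ2 (abs_nonneg _) (by positivity)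
  · refine key y (c * μ + c * E * Λ) ?_ hb
    rw [← abs_mul]
    have : y * (Λv * μ2 - μv * Λ2) = (x * μv + y * μ2) * Λv - (x * Λv + y * Λ2) * μv := by ring
    rw [this]
    refine (abs_sub _ _).trans ?_
    rw [add_comm]
    refine add_le_add ?_ ?_
    · rw [abs_mul]; exact mul_le_mul h1 hμv (abs_nonneg _) hc
    · rw [abs_mul]; exact mul_le_mul h2 hΛv (abs_nonneg _) (by positivity)

/-- over the cell, `T' - T` is a multiple (affine in `z`) of the direction `d`, up to the box `b` in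
the frame `e` -/
def Tube (e : Fin 3 → V3) (d : V3) (T T' : Ln4) (τ0 τ1 : ℝ) (b : V3) (z0 ρ : ℝ) : Prop :=
  ∀ z, z0 ≤ z → z ≤ z0 + ρ → ∀ i, |dt (e i) (T'.pos z - T.pos z - (τ0 + τ1 * z) • d)| ≤ b i

theorem dt_add (x y z : V3) : dt x (y + z) = dt x y + dt x z := by
  simp only [dt, Pi.add_apply]; ring

theorem dt_sub (x y z : V3) : dt x (y - z) = dt x y - dt x z := by
  simp only [dt, Pi.sub_apply]; ring

theorem dt_smul (x y : V3) (c : ℝ) : dt x (c • y) = c * dt x y := by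
  simp only [dt, Pi.smul_apply, smul_eq_mul]; ring

theorem four {X m p r S k : ℝ} (h : X = -m + p + r + S) (hX : |X| ≤ k) (hm : |m| ≤ k)
    (hp : |p| ≤ k) (hr : |r| ≤ k) : |S| ≤ 4 * k := by
  rw [abs_le] at *
  constructor <;> linarith [hX.1, hX.2, hm.1, hm.2, hp.1, hp.2, hr.1, hr.2]

theorem five {X m p r S1 S2 k l : ℝ} (h : X = -m + p + r + (S1 + S2)) (hm : |m| ≤ k)
    (hp : |p| ≤ k) (hr : |r| ≤ k) (h1 : |S1| ≤ l) (h2 : |S2| ≤ l) : |X| ≤ 3 * k + 2 * l := by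
  rw [abs_le] at *
  constructor <;> linarith [hm.1, hm.2, hp.1, hp.2, hr.1, hr.2, h1.1, h1.2, h2.1, h2.2]

/-- **the crossing place** : `e` = frame of the plank `S` (`e 1` long, `e 2` narrow, `e 0` normal),
units `w1`, `w2`, `Y`; `d`, `d2` = long directions of the crossing plank and of `S''`. -/
theorem crossing_place {e : Fin 3 → V3} {T T2 T1 T12 : Ln4} {d d2 : V3}
    {τ0 τ1 s0 s1 z0 ρ zs z1 w1 w2 Y Λ μ E κ α c : ℝ}
    (hw1 : 0 < w1) (hw2 : 0 < w2) (hY : 0 < Y) (hρ : 0 < ρ) (hα : 0 < α) (hα4 : α ≤ 4) (hκ : 0 < κ)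
    (hμ : 0 < μ) (hΛ : 1 ≤ Λ) (hE : 1 ≤ E) (hμE : μ ≤ Λ * E) (hc : 1 ≤ c)
    (hd1 : |dt (e 1) d| ≤ 1) (hd21 : |dt (e 1) d2| ≤ 1)
    (hdB : |dt (e 2) d| * w1 ≤ Λ * w2) (hdY : |dt (e 0) d| * w1 ≤ μ * Y)
    (hd2B : |dt (e 2) d2| * w1 ≤ Λ * w2) (hd2Y : |dt (e 0) d2| * w1 ≤ μ * Y)
    (hdet : κ * Λ * μ * (w2 * Y) ≤ |dt (e 2) d * dt (e 0) d2 - dt (e 0) d * dt (e 2) d2| * w1 ^ 2)
    (hT2 : Tube e d T T2 τ0 τ1 ![c * E * Y, c * w1 / Λ, c * w2] z0 ρ)
    (hzs : |τ0 + τ1 * zs| ≤ c * w1 / Λ) (hτ1 : α * w1 ≤ |τ1| * ρ)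
    (hT12 : Tube e d2 T2 T12 s0 s1 ![c * E * Y, c * w1 / Λ, c * w2] z0 ρ)
    (hmeet : ∀ i, |dt (e i) (T12.pos z1 - T1.pos z1)| ≤ ![c * E * Y, c * w1 / Λ, c * w2] i)
    (hT1 : ∀ z, z0 ≤ z → z ≤ z0 + ρ → ∀ i, |dt (e i) (T1.pos z - T.pos z)| ≤
      ![c * E * Y, 2 * w1, c * w2] i)
    (hs : z0 ≤ zs ∧ zs ≤ z0 + ρ) (h1 : z0 ≤ z1 ∧ z1 ≤ z0 + ρ) :
    |z1 - zs| ≤ 10 * c * (E / (α * κ * μ)) * ρ ∧
      |dt (e 1) (T1.pos zs - T.pos zs)| ≤ 160 * c * (E / (α * κ * μ)) * w1 := by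
  have hΛ0 : 0 < Λ := by linarith
  have hE0 : 0 < E := by linarith
  have hc0 : 0 < c := by linarith
  set τ := τ0 + τ1 * z1 with hτ
  set s := s0 + s1 * z1 with hs'
  -- the decomposition at the height z1
  have dec : ∀ i, dt (e i) (T1.pos z1 - T.pos z1) =
      -dt (e i) (T12.pos z1 - T1.pos z1) + dt (e i) (T12.pos z1 - T2.pos z1 - s • d2)
        + dt (e i) (T2.pos z1 - T.pos z1 - τ • d) + (s * dt (e i) d2 + τ * dt (e i) d) := by
    intro i
    simp only [dt_sub, dt_smul]; ring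
  have a1 := hT2 z1 h1.1 h1.2
  have a2 := hT12 z1 h1.1 h1.2
  have a3 := hT1 z1 h1.1 h1.2
  have hB : |τ * dt (e 2) d + s * dt (e 2) d2| ≤ 4 * c * w2 := by
    have h3 := four (dec 2) (a3 2) (hmeet 2) (a2 2) (a1 2)
    have h4 : |s * dt (e 2) d2 + τ * dt (e 2) d| ≤ 4 * (c * w2) := h3
    rw [add_comm] at h4
    linarith
  have hN : |τ * dt (e 0) d + s * dt (e 0) d2| ≤ 4 * c * E * Y := by
    have h3 := four (dec 0) (a3 0) (hmeet 0) (a2 0) (a1 0)
    have h4 : |s * dt (e 0) d2 + τ * dt (e 0) d| ≤ 4 * (c * E * Y) := h3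
    rw [add_comm] at h4
    linarith
  -- Cramer in relative units
  have hcr := cramer (x := τ / w1) (y := s / w1) (Λv := dt (e 2) d * w1 / w2)
    (Λ2 := dt (e 2) d2 * w1 / w2) (μv := dt (e 0) d * w1 / Y) (μ2 := dt (e 0) d2 * w1 / Y)
    (c := 4 * c) (E := E) (Λ := Λ) (μ := μ) (κ := κ) (by positivity) hE0.le hΛ0
    (by
      have : τ / w1 * (dt (e 2) d * w1 / w2) + s / w1 * (dt (e 2) d2 * w1 / w2) =
          (τ * dt (e 2) d + s * dt (e 2) d2) / w2 := by field_simp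
      rw [this, abs_div, abs_of_pos hw2, div_le_iff₀ hw2]; exact hB)
    (by
      have : τ / w1 * (dt (e 0) d * w1 / Y) + s / w1 * (dt (e 0) d2 * w1 / Y) =
          (τ * dt (e 0) d + s * dt (e 0) d2) / Y := by field_simp
      rw [this, abs_div, abs_of_pos hY, div_le_iff₀ hY]; exact hN)
    (by rw [abs_div, abs_mul, abs_of_pos hw1, abs_of_pos hw2, div_le_iff₀ hw2]; exact hdB)
    (by rw [abs_div, abs_mul, abs_of_pos hw1, abs_of_pos hw2, div_le_iff₀ hw2]; exact hd2B)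
    (by rw [abs_div, abs_mul, abs_of_pos hw1, abs_of_pos hY, div_le_iff₀ hY]; exact hdY)
    (by rw [abs_div, abs_mul, abs_of_pos hw1, abs_of_pos hY, div_le_iff₀ hY]; exact hd2Y)
    hμE
    (by
      have : dt (e 2) d * w1 / w2 * (dt (e 0) d2 * w1 / Y) -
          dt (e 0) d * w1 / Y * (dt (e 2) d2 * w1 / w2) =
          (dt (e 2) d * dt (e 0) d2 - dt (e 0) d * dt (e 2) d2) * w1 ^ 2 / (w2 * Y) := by
        field_simp
      rw [this, abs_div, abs_mul, abs_of_pos (by positivity : 0 < w1 ^ 2),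
        abs_of_pos (by positivity : 0 < w2 * Y), le_div_iff₀ (by positivity)]
      exact hdet)
  -- κ ≤ 2
  have hκ2 : κ ≤ 2 := by
    have u1 : |dt (e 2) d * dt (e 0) d2 - dt (e 0) d * dt (e 2) d2| * w1 ^ 2 ≤
        2 * (Λ * μ * (w2 * Y)) := by
      have v1 : |dt (e 2) d * dt (e 0) d2 - dt (e 0) d * dt (e 2) d2| ≤
          |dt (e 2) d| * |dt (e 0) d2| + |dt (e 0) d| * |dt (e 2) d2| := by
        refine (abs_sub _ _).trans ?_
        rw [abs_mul, abs_mul]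
      have v2 : (|dt (e 2) d| * w1) * (|dt (e 0) d2| * w1) ≤ (Λ * w2) * (μ * Y) :=
        mul_le_mul hdB hd2Y (by positivity) (by positivity)
      have v3 : (|dt (e 0) d| * w1) * (|dt (e 2) d2| * w1) ≤ (μ * Y) * (Λ * w2) :=
        mul_le_mul hdY hd2B (by positivity) (by positivity)
      calc _ ≤ (|dt (e 2) d| * |dt (e 0) d2| + |dt (e 0) d| * |dt (e 2) d2|) * w1 ^ 2 :=
            mul_le_mul_of_nonneg_right v1 (by positivity)
        _ = (|dt (e 2) d| * w1) * (|dt (e 0) d2| * w1) +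
            (|dt (e 0) d| * w1) * (|dt (e 2) d2| * w1) := by ring
        _ ≤ (Λ * w2) * (μ * Y) + (μ * Y) * (Λ * w2) := add_le_add v2 v3
        _ = _ := by ring
    have u2 : κ * (Λ * μ * (w2 * Y)) ≤ 2 * (Λ * μ * (w2 * Y)) := by
      calc κ * (Λ * μ * (w2 * Y)) = κ * Λ * μ * (w2 * Y) := by ring
        _ ≤ _ := hdet.trans u1
    exact le_of_mul_le_mul_right u2 (by positivity)
  set R := E / (κ * μ) with hR
  have hR0 : 0 < R := by positivity
  have hRr : E / (α * κ * μ) = R / α := by rw [hR]; field_simp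
  have hΛR : 1 / Λ ≤ 2 * R := by
    rw [hR, div_le_iff₀ hΛ0]
    have : κ * μ ≤ 2 * (Λ * E) := by
      calc κ * μ ≤ 2 * μ := mul_le_mul_of_nonneg_right hκ2 hμ.le
        _ ≤ 2 * (Λ * E) := by linarith
    rw [show 2 * (E / (κ * μ)) * Λ = (2 * (Λ * E)) / (κ * μ) by field_simp,
      le_div_iff₀ (by positivity)]
    linarith
  have hτR : |τ| ≤ 8 * c * R * w1 := by
    have h3 := hcr.1
    rw [abs_div, abs_of_pos hw1, div_mul_eq_mul_div, div_le_iff₀ hw1] at h3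
    rw [hR, show 8 * c * (E / (κ * μ)) * w1 = (2 * (4 * c) * E * w1) / (κ * μ) by field_simp; ring,
      le_div_iff₀ (by positivity)]
    exact h3
  have hsR : |s| ≤ 8 * c * R * w1 := by
    have h3 := hcr.2
    rw [abs_div, abs_of_pos hw1, div_mul_eq_mul_div, div_le_iff₀ hw1] at h3
    rw [hR, show 8 * c * (E / (κ * μ)) * w1 = (2 * (4 * c) * E * w1) / (κ * μ) by field_simp; ring,
      le_div_iff₀ (by positivity)]
    exact h3
  have hcΛ : c * w1 / Λ ≤ 2 * c * R * w1 := by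
    have := mul_le_mul_of_nonneg_left hΛR (by positivity : 0 ≤ c * w1)
    calc c * w1 / Λ = c * w1 * (1 / Λ) := by ring
      _ ≤ c * w1 * (2 * R) := this
      _ = _ := by ring
  -- heights
  have hz : |z1 - zs| ≤ 10 * c * (R / α) * ρ := by
    have h3 : |τ1| * |z1 - zs| ≤ 10 * c * R * w1 := by
      rw [← abs_mul]
      have : τ1 * (z1 - zs) = τ - (τ0 + τ1 * zs) := by rw [hτ]; ring
      rw [this]
      refine (abs_sub _ _).trans ?_
      have := hzs.trans hcΛ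
      linarith
    have h4 : α * w1 * |z1 - zs| ≤ 10 * c * R * w1 * ρ := by
      calc α * w1 * |z1 - zs| ≤ |τ1| * ρ * |z1 - zs| :=
            mul_le_mul_of_nonneg_right hτ1 (abs_nonneg _)
        _ = |τ1| * |z1 - zs| * ρ := by ring
        _ ≤ 10 * c * R * w1 * ρ := mul_le_mul_of_nonneg_right h3 hρ.le
    have h5 : w1 * (α * |z1 - zs|) ≤ w1 * (10 * c * R * ρ) := by
      calc w1 * (α * |z1 - zs|) = α * w1 * |z1 - zs| := by ring
        _ ≤ 10 * c * R * w1 * ρ := h4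
        _ = _ := by ring
    have h6 := le_of_mul_le_mul_left h5 hw1
    rw [show 10 * c * (R / α) * ρ = (10 * c * R * ρ) / α by ring, le_div_iff₀ hα]
    linarith
  refine ⟨by rw [hRr]; exact hz, ?_⟩
  -- position at the height z1
  have hA1 : |dt (e 1) (T1.pos z1 - T.pos z1)| ≤ 22 * c * R * w1 := by
    have f1 : |s * dt (e 1) d2| ≤ 8 * c * R * w1 := by
      rw [abs_mul]
      calc |s| * |dt (e 1) d2| ≤ |s| * 1 := mul_le_mul_of_nonneg_left hd21 (abs_nonneg _)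
        _ ≤ _ := by rw [mul_one]; exact hsR
    have f2 : |τ * dt (e 1) d| ≤ 8 * c * R * w1 := by
      rw [abs_mul]
      calc |τ| * |dt (e 1) d| ≤ |τ| * 1 := mul_le_mul_of_nonneg_left hd1 (abs_nonneg _)
        _ ≤ _ := by rw [mul_one]; exact hτR
    have h3 := five (dec 1) (hmeet 1) (a2 1) (a1 1) f1 f2
    have h4 : |dt (e 1) (T1.pos z1 - T.pos z1)| ≤ 3 * (c * w1 / Λ) + 2 * (8 * c * R * w1) := h3
    linarith
  -- velocity
  set V := dt (e 1) (T1.v - T.v) with hV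
  have hlin : ∀ z z' : ℝ, dt (e 1) (T1.pos z - T.pos z) - dt (e 1) (T1.pos z' - T.pos z') =
      (z - z') * V := by
    intro z z'
    rw [hV]
    simp only [dt, Ln4.pos, Pi.sub_apply]; ring
  have hVb : |V| * ρ ≤ 4 * w1 := by
    have h3 : |dt (e 1) (T1.pos z0 - T.pos z0)| ≤ 2 * w1 := hT1 z0 le_rfl (by linarith) 1
    have h4 : |dt (e 1) (T1.pos (z0 + ρ) - T.pos (z0 + ρ))| ≤ 2 * w1 :=
      hT1 (z0 + ρ) (by linarith) le_rfl 1
    have h5 := hlin (z0 + ρ) z0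
    have h6 : ρ * V = dt (e 1) (T1.pos (z0 + ρ) - T.pos (z0 + ρ)) -
        dt (e 1) (T1.pos z0 - T.pos z0) := by rw [h5]; ring
    have h7 : |V| * ρ = |ρ * V| := by rw [abs_mul, abs_of_pos hρ, mul_comm]
    rw [h7, h6]
    refine (abs_sub _ _).trans ?_
    linarith
  have h8 : |dt (e 1) (T1.pos zs - T.pos zs)| ≤ 22 * c * R * w1 + |z1 - zs| * |V| := by
    have h9 := hlin zs z1
    have h10 : dt (e 1) (T1.pos zs - T.pos zs) =
        dt (e 1) (T1.pos z1 - T.pos z1) + (zs - z1) * V := by linarith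
    rw [h10]
    refine (abs_add_le _ _).trans ?_
    rw [abs_mul, abs_sub_comm zs z1]
    linarith
  have h11 : |z1 - zs| * |V| ≤ 40 * c * (R / α) * w1 := by
    calc |z1 - zs| * |V| ≤ (10 * c * (R / α) * ρ) * |V| :=
          mul_le_mul_of_nonneg_right hz (abs_nonneg _)
      _ = 10 * c * (R / α) * (|V| * ρ) := by ring
      _ ≤ 10 * c * (R / α) * (4 * w1) := mul_le_mul_of_nonneg_left hVb (by positivity)
      _ = _ := by ring
  have h12 : R ≤ 4 * (R / α) := by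
    calc R = α * (R / α) := by field_simp
      _ ≤ 4 * (R / α) := mul_le_mul_of_nonneg_right hα4 (by positivity)
  rw [hRr]
  have h13 : 22 * c * R * w1 ≤ 88 * c * (R / α) * w1 := by
    calc 22 * c * R * w1 = 22 * c * w1 * R := by ring
      _ ≤ 22 * c * w1 * (4 * (R / α)) := mul_le_mul_of_nonneg_left h12 (by positivity)
      _ = _ := by ring
  have h14 : 0 < c * (R / α) * w1 := by positivity
  linarith

end Crest.Agent.R136.Cbx140
end

-- ▼ part R136/Cbx2_140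

/-!
# R136 (U4, PLAN 2, (L4)): the crossing box for dyadic tilts (helper140)

* `Tb e f Y w1 w2 Λ E` : base tilt at most `Λ`, thickness tilt at most `E` (symmetric);
* `Tb.comp` : two steps;
* `place_tb` : two sheets `S`, `S''` (frames `e`, `g`) adjacent to a common `v` (frame `f`), all
  places where a `v'` crosses both lie in one box of side `r = C / (θ η Λ)` of `S`.
-/

set_option autoImplicit false
set_option linter.unusedVariables false

namespace Crest.Agent.R136.Cbx140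

open Crest.Agent.R136.Sh605
open Crest.Agent.R136.Fl808 (dt_expand abs_dt_le_one)

/-- base tilt at most `Λ`, thickness tilt at most `E` -/
structure Tb (e f : Fin 3 → V3) (Y w1 w2 Λ E : ℝ) : Prop where
  a12 : |dt (e 1) (f 2)| * w1 ≤ 2 * (Λ * w2)
  a21 : |dt (e 2) (f 1)| * w1 ≤ 2 * (Λ * w2)
  a10 : |dt (e 1) (f 0)| * w1 ≤ 2 * (Λ * w2)
  a01 : |dt (e 0) (f 1)| * w1 ≤ 2 * (Λ * w2)
  t10 : |dt (e 1) (f 0)| * w1 ≤ Λ * E * Y
  t01 : |dt (e 0) (f 1)| * w1 ≤ Λ * E * Y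
  t20 : |dt (e 2) (f 0)| * w2 ≤ E * Y
  t02 : |dt (e 0) (f 2)| * w2 ≤ E * Y

theorem Tb.symm {e f : Fin 3 → V3} {Y w1 w2 Λ E : ℝ} (h : Tb e f Y w1 w2 Λ E) :
    Tb f e Y w1 w2 Λ E :=
  ⟨by rw [dt_comm]; exact h.a21, by rw [dt_comm]; exact h.a12, by rw [dt_comm]; exact h.a01,
    by rw [dt_comm]; exact h.a10, by rw [dt_comm]; exact h.t01, by rw [dt_comm]; exact h.t10,
    by rw [dt_comm]; exact h.t02, by rw [dt_comm]; exact h.t20⟩

/-- the one sided bounds used by the crossing lemma -/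
structure Tw (e g : Fin 3 → V3) (Y w1 w2 Λ E K : ℝ) : Prop where
  a12 : |dt (e 1) (g 2)| * w1 ≤ K * (Λ * w2)
  a10 : |dt (e 1) (g 0)| * w1 ≤ K * (Λ * w2)
  a21 : |dt (e 2) (g 1)| * w1 ≤ K * (Λ * w2)
  t01 : |dt (e 0) (g 1)| * w1 ≤ K * (Λ * E * Y)
  t02 : |dt (e 0) (g 2)| * w2 ≤ K * (E * Y)

theorem Tb.tw {e f : Fin 3 → V3} {Y w1 w2 Λ E : ℝ} (h : Tb e f Y w1 w2 Λ E) (hΛ : 0 ≤ Λ)
    (hE : 0 ≤ E) (hY : 0 ≤ Y) : Tw e f Y w1 w2 Λ E 2 := by
  have p : 0 ≤ Λ * E * Y := by positivity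
  have p' : 0 ≤ E * Y := by positivity
  exact ⟨h.a12, h.a10, h.a21, by linarith [h.t01], by linarith [h.t02]⟩

theorem abs3 {x y z : ℝ} : |x + y + z| ≤ |x| + |y| + |z| :=
  (abs_add_le _ _).trans (add_le_add (abs_add_le _ _) le_rfl)

/-- composition of two steps -/
theorem Tb.comp {e f g : Fin 3 → V3} (he : Ortho e) (hf : Ortho f) (hg : Ortho g)
    {Y w1 w2 Λ E : ℝ} (hw1 : 0 < w1) (hw2 : 0 < w2) (hY : 0 < Y) (hΛ : 1 ≤ Λ) (hE : 1 ≤ E)
    (hlw : Λ * w2 ≤ 2 * w1) (h : Tb e f Y w1 w2 Λ E) (h' : Tb f g Y w1 w2 Λ E) :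
    Tw e g Y w1 w2 Λ E 10 := by
  have hΛ0 : 0 < Λ := by linarith
  have hE0 : 0 < E := by linarith
  have one : ∀ i j, |dt (e i) (f j)| ≤ 1 := fun i j => abs_dt_le_one hf he i j
  have one' : ∀ i j, |dt (f i) (g j)| ≤ 1 := fun i j => abs_dt_le_one hg hf i j
  have pB : 0 < Λ * w2 := by positivity
  have pN : 0 < Λ * E * Y := by positivity
  have pE : 0 < E * Y := by positivity
  -- product with one factor at most one
  have ml : ∀ {x y w K : ℝ}, |x| * w ≤ K → |y| ≤ 1 → 0 ≤ w → |x * y| * w ≤ K := by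
    intro x y w K hx hy hw
    rw [abs_mul]
    calc |x| * |y| * w = (|x| * w) * |y| := by ring
      _ ≤ (|x| * w) * 1 := mul_le_mul_of_nonneg_left hy (by positivity)
      _ ≤ K := by linarith
  have mr : ∀ {x y w K : ℝ}, |y| * w ≤ K → |x| ≤ 1 → 0 ≤ w → |x * y| * w ≤ K := by
    intro x y w K hy hx hw
    rw [mul_comm x y]; exact ml hy hx hw
  have add3 : ∀ {x y z w A B C : ℝ}, 0 ≤ w → |x| * w ≤ A → |y| * w ≤ B → |z| * w ≤ C →
      |x + y + z| * w ≤ A + B + C := by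
    intro x y z w A B C hw hx hy hz
    calc |x + y + z| * w ≤ (|x| + |y| + |z|) * w := mul_le_mul_of_nonneg_right abs3 hw
      _ = |x| * w + |y| * w + |z| * w := by ring
      _ ≤ _ := add_le_add (add_le_add hx hy) hz
  have hw1' := hw1.le
  have hw2' := hw2.le
  refine ⟨?_, ?_, ?_, ?_, ?_⟩
  · rw [dt_expand hf (e 1) (g 2)]
    have := add3 hw1' (ml h.a10 (one' 0 2) hw1') (mr h'.a12 (one 1 1) hw1')
      (ml h.a12 (one' 2 2) hw1')
    linarith
  · rw [dt_expand hf (e 1) (g 0)]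
    have := add3 hw1' (ml h.a10 (one' 0 0) hw1') (mr h'.a10 (one 1 1) hw1')
      (ml h.a12 (one' 2 0) hw1')
    linarith
  · rw [dt_expand hf (e 2) (g 1)]
    have := add3 hw1' (mr h'.a01 (one 2 0) hw1') (ml h.a21 (one' 1 1) hw1')
      (mr h'.a21 (one 2 2) hw1')
    linarith
  · rw [dt_expand hf (e 0) (g 1)]
    have h3 : |dt (e 0) (f 2) * dt (f 2) (g 1)| * w1 ≤ 2 * (Λ * E * Y) := by
      rw [abs_mul]
      have h4 : (|dt (e 0) (f 2)| * w2) * (|dt (f 2) (g 1)| * w1) ≤ (E * Y) * (2 * (Λ * w2)) :=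
        mul_le_mul h.t02 h'.a21 (by positivity) pE.le
      have h5 : (|dt (e 0) (f 2)| * |dt (f 2) (g 1)| * w1) * w2 ≤ (2 * (Λ * E * Y)) * w2 := by
        calc _ = (|dt (e 0) (f 2)| * w2) * (|dt (f 2) (g 1)| * w1) := by ring
          _ ≤ _ := h4
          _ = _ := by ring
      exact le_of_mul_le_mul_right h5 hw2
    have := add3 hw1' (mr h'.t01 (one 0 0) hw1') (ml h.t01 (one' 1 1) hw1') h3
    linarith
  · rw [dt_expand hf (e 0) (g 2)]
    have h3 : |dt (e 0) (f 1) * dt (f 1) (g 2)| * w2 ≤ 8 * (E * Y) := by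
      rw [abs_mul]
      have h4 : (|dt (e 0) (f 1)| * w1) * (|dt (f 1) (g 2)| * w1) ≤
          (Λ * E * Y) * (2 * (Λ * w2)) := mul_le_mul h.t01 h'.a12 (by positivity) pN.le
      have h5 : (|dt (e 0) (f 1)| * |dt (f 1) (g 2)| * w2) * w1 ^ 2 ≤
          (8 * (E * Y)) * w1 ^ 2 := by
        calc _ = w2 * ((|dt (e 0) (f 1)| * w1) * (|dt (f 1) (g 2)| * w1)) := by ring
          _ ≤ w2 * ((Λ * E * Y) * (2 * (Λ * w2))) := mul_le_mul_of_nonneg_left h4 hw2'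
          _ = 2 * (E * Y) * (Λ * w2) ^ 2 := by ring
          _ ≤ 2 * (E * Y) * (2 * w1) ^ 2 := by gcongr
          _ = _ := by ring
      exact le_of_mul_le_mul_right h5 (by positivity)
    have := add3 hw2' (mr h'.t02 (one 0 0) hw2') h3 (ml h.t02 (one' 2 2) hw2')
    linarith

/-- removing the long component in the frame `g` -/
theorem res {g : Fin 3 → V3} (hg : Ortho g) (x u : V3) :
    dt x (u - (dt (g 1) u) • g 1) = dt x (g 0) * dt (g 0) u + dt x (g 2) * dt (g 2) u := by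
  have h := dt_expand hg x u
  have e1 : dt x (u - (dt (g 1) u) • g 1) = dt x u - dt (g 1) u * dt x (g 1) := by
    simp only [dt, Pi.sub_apply, Pi.smul_apply, smul_eq_mul]; ring
  rw [e1, h]; ring

theorem box3 {x y z : ℝ} {F : Fin 3 → ℝ} (h0 : F 0 ≤ x) (h1 : F 1 ≤ y) (h2 : F 2 ≤ z) :
    ∀ i, F i ≤ ![x, y, z] i := by
  intro i
  fin_cases i
  · exact h0
  · exact h1
  · exact h2

/-- a difference of two lines of the sheet `g`, seen from the frame `e` -/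
theorem tube_tw {e g : Fin 3 → V3} (he : Ortho e) (hg : Ortho g) {Y w1 w2 Λ E K : ℝ}
    (hw1 : 0 < w1) (hw2 : 0 < w2) (hY : 0 < Y) (hYw : Y ≤ w2) (hΛ : 1 ≤ Λ) (hE : 1 ≤ E)
    (hK : 1 ≤ K) (hlw : Λ * w2 ≤ 2 * w1) (h : Tw e g Y w1 w2 Λ E K) {u : V3}
    (h0 : |dt (g 0) u| ≤ 2 * Y) (h2 : |dt (g 2) u| ≤ 2 * w2) :
    |dt (e 0) (u - (dt (g 1) u) • g 1)| ≤ 4 * K * (E * Y) ∧
    |dt (e 1) (u - (dt (g 1) u) • g 1)| ≤ 16 * K * (w1 / Λ) ∧
    |dt (e 2) (u - (dt (g 1) u) • g 1)| ≤ 4 * w2 := by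
  have hΛ0 : 0 < Λ := by linarith
  have hE0 : 0 < E := by linarith
  have hK0 : 0 < K := by linarith
  have one : ∀ i j, |dt (e i) (g j)| ≤ 1 := fun i j => abs_dt_le_one hg he i j
  have sum : ∀ i, |dt (e i) (u - (dt (g 1) u) • g 1)| ≤
      |dt (e i) (g 0)| * (2 * Y) + |dt (e i) (g 2)| * (2 * w2) := by
    intro i
    rw [res hg]
    refine (abs_add_le _ _).trans ?_
    rw [abs_mul, abs_mul]
    exact add_le_add (mul_le_mul_of_nonneg_left h0 (abs_nonneg _))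
      (mul_le_mul_of_nonneg_left h2 (abs_nonneg _))
  refine ⟨?_, ?_, ?_⟩
  · refine (sum 0).trans ?_
    have h3 : |dt (e 0) (g 0)| * (2 * Y) ≤ 1 * (2 * Y) :=
      mul_le_mul_of_nonneg_right (one 0 0) (by positivity)
    have h4 := h.t02
    have h5 : Y ≤ K * (E * Y) := by
      calc Y = 1 * (1 * Y) := by ring
        _ ≤ K * (E * Y) := by gcongr
    linarith
  · refine (sum 1).trans ?_
    have h3 : |dt (e 1) (g 0)| * (2 * Y) ≤ |dt (e 1) (g 0)| * (2 * w2) :=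
      mul_le_mul_of_nonneg_left (by linarith) (abs_nonneg _)
    have h4 : (|dt (e 1) (g 0)| * (2 * w2) + |dt (e 1) (g 2)| * (2 * w2)) * (w1 * Λ) ≤
        (16 * K * (w1 / Λ)) * (w1 * Λ) := by
      calc _ = (|dt (e 1) (g 0)| * w1 + |dt (e 1) (g 2)| * w1) * (2 * (Λ * w2)) := by ring
        _ ≤ (K * (Λ * w2) + K * (Λ * w2)) * (2 * (Λ * w2)) := by
            have := h.a10; have := h.a12; gcongr
        _ = 4 * K * (Λ * w2) ^ 2 := by ring
        _ ≤ 4 * K * (2 * w1) ^ 2 := by gcongr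
        _ = _ := by field_simp; ring
    have h5 := le_of_mul_le_mul_right h4 (by positivity : 0 < w1 * Λ)
    linarith
  · refine (sum 2).trans ?_
    have h3 : |dt (e 2) (g 0)| * (2 * Y) ≤ 1 * (2 * w2) :=
      mul_le_mul (one 2 0) (by linarith) (by positivity) (by norm_num)
    have h4 : |dt (e 2) (g 2)| * (2 * w2) ≤ 1 * (2 * w2) :=
      mul_le_mul_of_nonneg_right (one 2 2) (by positivity)
    linarith

/-- **the crossing place for dyadic tilts** -/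
theorem place_tb {e f g f' : Fin 3 → V3} (he : Ortho e) (hf : Ortho f) (hg : Ortho g)
    (hf' : Ortho f') {T T2 T1 T12 : Ln4} {Y w1 w2 Λ E θ η c z0 ρ zs z1 : ℝ}
    (hw1 : 0 < w1) (hw2 : 0 < w2) (hY : 0 < Y) (hYw : Y ≤ w2) (hΛ : 1 ≤ Λ) (hE : 1 ≤ E)
    (hlw : Λ * w2 ≤ 2 * w1) (hρ : 0 < ρ) (hc : 1 ≤ c) (hθ : 0 < θ) (hθ4 : θ ≤ 4) (hη : 0 < η)
    (hSv : Tb e f Y w1 w2 Λ E) (hvS : Tb f g Y w1 w2 Λ E) (hSv' : Tb e f' Y w1 w2 Λ E)
    (hTT2 : ∀ z, z0 ≤ z → z ≤ z0 + ρ →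
      |dt (f 0) (T2.pos z - T.pos z)| ≤ 2 * Y ∧ |dt (f 2) (T2.pos z - T.pos z)| ≤ 2 * w2)
    (hzs : |dt (f 1) (T2.pos zs - T.pos zs)| ≤ c * (w1 / Λ))
    (hθv : θ * w1 ≤ |dt (f 1) (T2.v - T.v)| * ρ)
    (hT12 : ∀ z, z0 ≤ z → z ≤ z0 + ρ →
      |dt (g 0) (T12.pos z - T2.pos z)| ≤ 2 * Y ∧ |dt (g 2) (T12.pos z - T2.pos z)| ≤ 2 * w2)
    (hm0 : |dt (f' 0) (T12.pos z1 - T1.pos z1)| ≤ 2 * Y)
    (hm1 : |dt (f' 1) (T12.pos z1 - T1.pos z1)| ≤ c * (w1 / Λ))
    (hm2 : |dt (f' 2) (T12.pos z1 - T1.pos z1)| ≤ 2 * w2)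
    (hT1 : ∀ z, z0 ≤ z → z ≤ z0 + ρ → |dt (e 0) (T1.pos z - T.pos z)| ≤ 2 * Y ∧
      |dt (e 1) (T1.pos z - T.pos z)| ≤ 2 * w1 ∧ |dt (e 2) (T1.pos z - T.pos z)| ≤ 2 * w2)
    (hs : z0 ≤ zs ∧ zs ≤ z0 + ρ) (h1 : z0 ≤ z1 ∧ z1 ≤ z0 + ρ)
    (hdet : η * (Λ ^ 2 * E * Y * w2) ≤
      |dt (e 2) (f 1) * dt (e 0) (g 1) - dt (e 0) (f 1) * dt (e 2) (g 1)| * w1 ^ 2) :
    |z1 - zs| ≤ 3200000 * (c / (θ * η * Λ)) * ρ ∧
      |dt (e 1) (T1.pos zs - T.pos zs)| ≤ 3200000 * (c / (θ * η * Λ)) * w1 := by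
  have hΛ0 : 0 < Λ := by linarith
  have hE0 : 0 < E := by linarith
  have hc0 : 0 < c := by linarith
  have hcomp := hSv.comp he hf hg hw1 hw2 hY hΛ hE hlw hvS
  have hw := hSv.tw hΛ0.le hE0.le hY.le
  have hw' := hSv'.tw hΛ0.le hE0.le hY.le
  have pq : 0 < w1 / Λ := by positivity
  have hEY : Y ≤ E * Y := by nlinarith
  have pEY : 0 < E * Y := by positivity
  have hcEY : E * Y ≤ c * (E * Y) := by nlinarith
  have hcw : w2 ≤ c * w2 := by nlinarith
  have hcq : w1 / Λ ≤ c * (w1 / Λ) := by nlinarith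
  have conv : 2000 * c * w1 / (10 * Λ) = 200 * (c * (w1 / Λ)) := by field_simp; ring
  -- the tubes
  have tub : ∀ {h : Fin 3 → V3} {K : ℝ} {A B : Ln4} (hh : Ortho h) (hK : 1 ≤ K) (hK' : K ≤ 10)
      (hTw : Tw e h Y w1 w2 Λ E K)
      (hAB : ∀ z, z0 ≤ z → z ≤ z0 + ρ →
        |dt (h 0) (B.pos z - A.pos z)| ≤ 2 * Y ∧ |dt (h 2) (B.pos z - A.pos z)| ≤ 2 * w2),
      Tube e (h 1) A B (dt (h 1) (B.p - A.p)) (dt (h 1) (B.v - A.v))
        ![2000 * c * E * Y, 2000 * c * w1 / (10 * Λ), 2000 * c * w2] z0 ρ := by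
    intro h K A B hh hK hK' hTw hAB z hz hz'
    have h3 := hAB z hz hz'
    have h4 := tube_tw he hh hw1 hw2 hY hYw hΛ hE hK hlw hTw h3.1 h3.2
    have e1 : dt (h 1) (B.p - A.p) + dt (h 1) (B.v - A.v) * z = dt (h 1) (B.pos z - A.pos z) := by
      simp only [dt, Ln4.pos, Pi.sub_apply]; ring
    rw [e1]
    refine box3 ?_ ?_ ?_
    · refine h4.1.trans ?_
      have : K * (E * Y) ≤ 10 * (E * Y) := by gcongr
      have : 2000 * c * E * Y = 2000 * (c * (E * Y)) := by ring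
      linarith
    · refine h4.2.1.trans ?_
      have : K * (w1 / Λ) ≤ 10 * (w1 / Λ) := by gcongr
      rw [conv]
      linarith
    · refine h4.2.2.trans ?_
      have : 2000 * c * w2 = 2000 * (c * w2) := by ring
      linarith
  have key := crossing_place (e := e) (T := T) (T2 := T2) (T1 := T1) (T12 := T12) (d := f 1)
    (d2 := g 1) (τ0 := dt (f 1) (T2.p - T.p)) (τ1 := dt (f 1) (T2.v - T.v))
    (s0 := dt (g 1) (T12.p - T2.p)) (s1 := dt (g 1) (T12.v - T2.v)) (z0 := z0) (ρ := ρ)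
    (zs := zs) (z1 := z1) (w1 := w1) (w2 := w2) (Y := Y) (Λ := 10 * Λ) (μ := 10 * Λ * E) (E := E)
    (κ := η / 100) (α := θ) (c := 2000 * c) hw1 hw2 hY hρ hθ hθ4 (by positivity) (by positivity)
    (by linarith) hE le_rfl (by linarith) (abs_dt_le_one hf he 1 1) (abs_dt_le_one hg he 1 1)
    (by have := hw.a21; have : 0 < Λ * w2 := by positivity
        linarith)
    (by have := hw.t01; have : 0 < Λ * E * Y := by positivity
        linarith)
    (by have := hcomp.a21; linarith) (by have := hcomp.t01; linarith)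
    (by
      refine le_trans (le_of_eq ?_) hdet
      ring)
    (tub hf (by norm_num) (by norm_num) hw hTT2)
    (by
      have e1 : dt (f 1) (T2.p - T.p) + dt (f 1) (T2.v - T.v) * zs =
          dt (f 1) (T2.pos zs - T.pos zs) := by
        simp only [dt, Ln4.pos, Pi.sub_apply]; ring
      rw [e1, conv]
      have : 0 < c * (w1 / Λ) := by positivity
      linarith)
    hθv
    (tub hg (by norm_num) le_rfl hcomp hT12)
    (by
      have h3 := tube_tw he hf' hw1 hw2 hY hYw hΛ hE (by norm_num) hlw hw' hm0 hm2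
      set u := T12.pos z1 - T1.pos z1 with hu
      have dec : ∀ i, |dt (e i) u| ≤ |dt (e i) (u - (dt (f' 1) u) • f' 1)| +
          |dt (e i) (f' 1)| * (c * (w1 / Λ)) := by
        intro i
        have e1 : dt (e i) u = dt (e i) (u - (dt (f' 1) u) • f' 1) +
            dt (e i) (f' 1) * dt (f' 1) u := by
          simp only [dt, Pi.sub_apply, Pi.smul_apply, smul_eq_mul]; ring
        calc |dt (e i) u| = |dt (e i) (u - (dt (f' 1) u) • f' 1) +
            dt (e i) (f' 1) * dt (f' 1) u| := by rw [← e1]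
          _ ≤ _ := (abs_add_le _ _).trans
              (add_le_add le_rfl (by rw [abs_mul]; exact mul_le_mul_of_nonneg_left hm1 (abs_nonneg _)))
      refine box3 ?_ ?_ ?_
      · refine (dec 0).trans ?_
        have h4 : |dt (e 0) (f' 1)| * (c * (w1 / Λ)) ≤ 2 * (c * (E * Y)) := by
          calc |dt (e 0) (f' 1)| * (c * (w1 / Λ)) = (|dt (e 0) (f' 1)| * w1) * (c / Λ) := by ring
            _ ≤ (2 * (Λ * E * Y)) * (c / Λ) := by have := hw'.t01; gcongr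
            _ = _ := by field_simp
        have h5 := h3.1
        have : 2000 * c * E * Y = 2000 * (c * (E * Y)) := by ring
        linarith
      · refine (dec 1).trans ?_
        have h4 : |dt (e 1) (f' 1)| * (c * (w1 / Λ)) ≤ 1 * (c * (w1 / Λ)) :=
          mul_le_mul_of_nonneg_right (abs_dt_le_one hf' he 1 1) (by positivity)
        have h5 := h3.2.1
        rw [conv]
        linarith
      · refine (dec 2).trans ?_
        have h4 : |dt (e 2) (f' 1)| * (c * (w1 / Λ)) ≤ 2 * (c * w2) := by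
          calc |dt (e 2) (f' 1)| * (c * (w1 / Λ)) = (|dt (e 2) (f' 1)| * w1) * (c / Λ) := by ring
            _ ≤ (2 * (Λ * w2)) * (c / Λ) := by have := hw'.a21; gcongr
            _ = _ := by field_simp
        have h5 := h3.2.2
        have : 2000 * c * w2 = 2000 * (c * w2) := by ring
        linarith)
    (by
      intro z hz hz'
      have h3 := hT1 z hz hz'
      refine box3 ?_ ?_ ?_
      · have : 2000 * c * E * Y = 2000 * (c * (E * Y)) := by ring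
        linarith [h3.1]
      · exact h3.2.1
      · have : 2000 * c * w2 = 2000 * (c * w2) := by ring
        linarith [h3.2.2])
    hs h1
  have hr : E / (θ * (η / 100) * (10 * Λ * E)) = 10 / (θ * η * Λ) := by field_simp; ring
  rw [hr] at key
  have p1 : 0 < c / (θ * η * Λ) := by positivity
  refine ⟨key.1.trans ?_, key.2.trans ?_⟩
  · have e1 : 10 * (2000 * c) * (10 / (θ * η * Λ)) * ρ = 200000 * ((c / (θ * η * Λ)) * ρ) := by ring
    have e2 : 3200000 * (c / (θ * η * Λ)) * ρ = 3200000 * ((c / (θ * η * Λ)) * ρ) := by ring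
    rw [e1, e2]
    have : 0 < (c / (θ * η * Λ)) * ρ := by positivity
    linarith
  · refine le_of_eq ?_
    ring

end Crest.Agent.R136.Cbx140
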