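import Crest.Agent.R136.Nde_372_Mg
import Crest.Agent.R136.Pl2b_860
import Crest.Agent.R136.Cmd_113
import Mathlib
import Crest.Agent.R136.Sh1_605
import Crest.Agent.R136.Pl2Def_860
import Crest.Agent.R136.Cs1_501
import Crest.Agent.R136.Ndl_372
import Crest.Agent.R136.Hl4_706

-- ▼ part R136/Cbg_372
section

/-!
# R136 (S0187), PLAN 2, leaf (C5): the core case of `TiltCore` (helper372)

`core_big` : `TCore` with one dyadic pair `j, k'` (`Λ = 2^j`, `E = 2^k'`), the robust crossing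
property (C2) with constants `B, θ, D` and the hull counts (C4) with constant `G` ⊢
`Λ ^ (qm 1 / 2) * (E Y / a) ^ (qm 2 / 2) ≤ 6 * 4^K * WW^5`,
`WW = D + 4 W + 16^(1 + qp 0) G + (B + 4 W) 800000 / θ`.
-/

set_option autoImplicit false
set_option linter.unusedVariables false

open Finset

namespace Crest.Agent.R136.Cbg372

open Crest.Agent.R136.Sh605 Crest.Agent.R136.Fl808
open Crest.Agent.R136.Cbx140 (Tb tb_of_dy)
open Crest.Agent.R136.Hl706 (det3 sh det3_frame)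
open Crest.Agent.R136.Ndl372 (reach join Nd)
open Crest.Agent.R136.Nde372
open Crest.Agent.R136.Cmd113
open Crest.Agent.R136.Pl2 (TCore)
open Crest.Agent.R136.Pl2W102 (Ex2)

/-- the normalised determinant is at most `4` -/
theorem det_le {e f g : Fin 3 → V3} (he : Ortho e) {Y w1 w2 Λ E : ℝ} (hY : 0 < Y) (hw2 : 0 < w2)
    (hw1 : 0 < w1) (hΛ : 0 < Λ) (hE : 0 < E) (hf : Tb e f Y w1 w2 Λ E) (hg : Tb e g Y w1 w2 Λ E) :
    |det3 (e 1) (f 1) (g 1)| * w1 ^ 2 / (Λ ^ 2 * E * Y * w2) ≤ 4 := by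
  rw [div_le_iff₀ (by positivity), det3_frame he]
  have h1 : |sh e (f 1) (g 1)| ≤ |dt (e 2) (f 1)| * |dt (e 0) (g 1)| +
      |dt (e 0) (f 1)| * |dt (e 2) (g 1)| := by
    unfold sh
    refine (abs_sub _ _).trans ?_
    rw [abs_mul, abs_mul]
  calc |sh e (f 1) (g 1)| * w1 ^ 2 ≤ (|dt (e 2) (f 1)| * |dt (e 0) (g 1)| +
      |dt (e 0) (f 1)| * |dt (e 2) (g 1)|) * w1 ^ 2 := by gcongr
    _ = (|dt (e 2) (f 1)| * w1) * (|dt (e 0) (g 1)| * w1) +
        (|dt (e 0) (f 1)| * w1) * (|dt (e 2) (g 1)| * w1) := by ring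
    _ ≤ (2 * (Λ * w2)) * (Λ * E * Y) + (Λ * E * Y) * (2 * (Λ * w2)) := by
        have a1 := hf.a21
        have a2 := hg.t01
        have a3 := hf.t01
        have a4 := hg.a21
        gcongr
    _ = 4 * (Λ ^ 2 * E * Y * w2) := by ring

section

variable {qm qp : Fin 3 → ℝ} {L : ℕ → Ln4} {P : Finset ℕ} {u v : ℕ → ℕ} {bu bv : ℕ → Ln4}
  {eu ev : ℕ → Fin 3 → V3} {W M a Y w1 w2 z0 ρ : ℝ}

/-- `aV ≤ 4` on pairs of one class -/
theorem aV_top (ov : ∀ t ∈ P, Ortho (ev (v t))) {Λ E : ℝ}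
    (hY : 0 < Y) (hw2 : 0 < w2) (hw1 : 0 < w1) (hΛ : 0 < Λ) (hE : 0 < E)
    (tb : ∀ t ∈ P, Tb (ev (v t)) (eu (u t)) Y w1 w2 Λ E) {s t : ℕ} (hs : s ∈ P) (ht : t ∈ P)
    (h : v s = v t) : aV u v eu ev Y w1 w2 Λ E s t ≤ 4 := by
  unfold aV
  rw [if_pos h, Hl706.det3_swap]
  have h1 := tb s hs
  rw [h] at h1
  exact det_le (ov t ht) hY hw2 hw1 hΛ hE h1 (tb t ht)

/-- the constant of `Nd` -/
noncomputable def WW (qp : Fin 3 → ℝ) (W B θ D G : ℝ) : ℝ :=
  D + 4 * W + 16 ^ (1 + qp 0) * G + (B + 4 * W) * (800000 / θ)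

open Classical in
theorem core_big {η : ℝ} (hx : Ex2 η qm qp) {K : ℕ} (hK : 8 ≤ K * qm 1)
    (H : TCore qm qp L P u v bu bv eu ev W M a Y w1 w2 z0 ρ) (hP : P.Nonempty) {j k' : ℕ}
    (hD : ∀ t ∈ P, Dy (eu (u t)) (ev (v t)) Y w1 w2 j k') (hW : W ≤ (2:ℝ) ^ j * 2 ^ k')
    {B θ D G : ℝ} (hB : 0 ≤ B) (hθ : 0 < θ) (hθ1 : θ ≤ 1) (hD1 : 1 ≤ D) (hG : 0 ≤ G)
    (crU : ∀ Q ⊆ P, P.card ≤ 4 * Q.card → (P.card : ℝ) * M ≤
      D * (((Q ×ˢ Q).filter fun p => u p.1 = u p.2 ∧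
        CrV L P v u ev eu w1 z0 ρ M (2 ^ j) B θ p.1 p.2).card : ℝ))
    (crV : ∀ Q ⊆ P, P.card ≤ 4 * Q.card → (P.card : ℝ) * M ≤
      D * (((Q ×ˢ Q).filter fun p => v p.1 = v p.2 ∧
        CrV L P u v eu ev w1 z0 ρ M (2 ^ j) B θ p.1 p.2).card : ℝ))
    (hU : ∀ (cu cv : ℕ → ℕ → Prop) (x : ℝ), 1 ≤ x * 2 ^ j → ∀ t0 ∈ P,
      ((reach P u v cu cv (aV v u ev eu Y w1 w2 (2 ^ j) (2 ^ k'))
        (aV u v eu ev Y w1 w2 (2 ^ j) (2 ^ k')) x t0).card : ℝ) ≤
        G * ((x * (2 ^ j * 2 ^ k') * (Y / a)) ^ (1 + qp 0) * ((2:ℝ) ^ j) ^ (1 + qp 2)))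
    (hV : ∀ (cu cv : ℕ → ℕ → Prop) (x : ℝ), 1 ≤ x * 2 ^ j → ∀ t0 ∈ P,
      ((reach P v u cv cu (aV u v eu ev Y w1 w2 (2 ^ j) (2 ^ k'))
        (aV v u ev eu Y w1 w2 (2 ^ j) (2 ^ k')) x t0).card : ℝ) ≤
        G * ((x * (2 ^ j * 2 ^ k') * (Y / a)) ^ (1 + qp 0) * ((2:ℝ) ^ j) ^ (1 + qp 2)))
    (h1 : ∀ (cu : ℕ → ℕ → Prop) (x : ℝ), 1 ≤ x * 2 ^ j → ∀ t0 ∈ P,
      ∀ (inst : DecidableEq ℕ) (inst' : DecidablePred fun t =>
      u t0 = u t ∧ cu t0 t ∧ aV v u ev eu Y w1 w2 (2 ^ j) (2 ^ k') t0 t ≤ x),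
      (((@Finset.image ℕ ℕ inst v (@Finset.filter ℕ (fun t => u t0 = u t ∧ cu t0 t ∧
        aV v u ev eu Y w1 w2 (2 ^ j) (2 ^ k') t0 t ≤ x) inst' P)).card : ℕ) : ℝ) ≤
        G * ((x * (2 ^ j * 2 ^ k') * (Y / a)) ^ (1 + qp 0) * ((2:ℝ) ^ j) ^ (1 + qp 2))) :
    ((2:ℝ) ^ j) ^ (qm 1 / 2) * ((2:ℝ) ^ k' * (Y / a)) ^ (qm 2 / 2) ≤
      6 * 4 ^ K * (WW qp W B θ D G) ^ 5 := by
  have hW1 := H.W1
  have hW0 : 0 < W := by linarith
  have hM := H.M0
  have ha := H.a0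
  have hY : 0 < Y := ha.trans_le H.aY
  have hw2 : 0 < w2 := hY.trans_le H.Yw
  have hw1 : 0 < w1 := hw2.trans_le H.ww
  have q0 := hx.le 0
  have q2 := hx.le 2
  have p00 : 0 ≤ qp 0 := q0.1.trans q0.2
  have p20 : 0 ≤ qp 2 := q2.1.trans q2.2
  have hm1 : 0 < qm 1 := by
    have := hx.e1; have := hx.pos; linarith [q2.2]
  set Λ : ℝ := (2:ℝ) ^ j with hΛd
  set E : ℝ := (2:ℝ) ^ k' with hEd
  have hΛ : 1 ≤ Λ := one_le_pow₀ (by norm_num)
  have hE : 1 ≤ E := one_le_pow₀ (by norm_num)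
  have hΛ0 : 0 < Λ := by linarith
  have hE0 : 0 < E := by linarith
  have hX : 1 ≤ Y / a := (one_le_div ha).2 H.aY
  have hEX : 1 ≤ E * (Y / a) := by nlinarith
  have hEX0 : 0 < E * (Y / a) := by linarith
  set Wc : ℝ := WW qp W B θ D G with hWc
  have t3 : 0 ≤ 16 ^ (1 + qp 0) * G := by positivity
  have t4 : 0 ≤ (B + 4 * W) * (800000 / θ) := by positivity
  have hWcD : D ≤ Wc := by rw [hWc, WW]; linarith
  have hWcW : 4 * W ≤ Wc := by rw [hWc, WW]; linarith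
  have hWcG : 16 ^ (1 + qp 0) * G ≤ Wc := by rw [hWc, WW]; linarith
  have hWcM : (B + 4 * W) * (800000 / θ) ≤ Wc := by rw [hWc, WW]; linarith
  have hWc0 : 0 < Wc := by linarith
  set x : ℕ → ℝ := fun k => 16 * xs Λ K k with hxd
  have hx16 : ∀ k, x k / 16 = xs Λ K k := fun k => by rw [hxd]; ring
  have hxs : ∀ k, 0 < xs Λ K k := fun k => xs_pos hΛ K k
  have hK0 : 0 < K := by
    rcases Nat.eq_zero_or_pos K with h0 | h0
    · rw [h0] at hK; norm_num at hK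
    · exact h0
  have hxk : ∀ k, k ≤ K → 1 ≤ x k * Λ := by
    intro k hk
    have h2 := xs_ge hΛ hK0 hk
    have : 1 ≤ xs Λ K k * Λ := by
      calc (1:ℝ) = Λ⁻¹ * Λ := by field_simp
        _ ≤ xs Λ K k * Λ := by gcongr
    rw [hxd]
    show 1 ≤ 16 * xs Λ K k * Λ
    nlinarith
  have hxk16 : ∀ k, x k ≤ 16 := by
    intro k
    have := xs_le_one hΛ K k
    rw [hxd]
    show 16 * xs Λ K k ≤ 16
    linarith
  have hxk0 : ∀ k, 0 < x k := fun k => by
    rw [hxd]; show 0 < 16 * xs Λ K k; have := hxs k; linarith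
  -- the hull count at scale `k`
  have hnum : ∀ k, G * ((x k * (Λ * E) * (Y / a)) ^ (1 + qp 0) * Λ ^ (1 + qp 2)) ≤
      Wc * Nh Λ (E * (Y / a)) (qp 0) (qp 2) (x k / 16) := by
    intro k
    rw [hx16, Nh]
    have e1 : x k * (Λ * E) * (Y / a) = 16 * (xs Λ K k * Λ * (E * (Y / a))) := by
      rw [hxd]; ring
    have e2 : 0 ≤ xs Λ K k * Λ * (E * (Y / a)) := by have := hxs k; positivity
    rw [e1, Real.mul_rpow (by norm_num) e2]
    have e3 : 0 ≤ (xs Λ K k * Λ * (E * (Y / a))) ^ (1 + qp 0) * Λ ^ (1 + qp 2) := by positivity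
    calc G * (16 ^ (1 + qp 0) * (xs Λ K k * Λ * (E * (Y / a))) ^ (1 + qp 0) * Λ ^ (1 + qp 2)) =
        (16 ^ (1 + qp 0) * G) *
          ((xs Λ K k * Λ * (E * (Y / a))) ^ (1 + qp 0) * Λ ^ (1 + qp 2)) := by ring
      _ ≤ _ := mul_le_mul_of_nonneg_right hWcG e3
  -- the meeting count at scale `k`
  have hmt : ∀ k, (B + 4 * W) * (12800000 / (θ * x k * Λ)) * M ≤
      Wc * (1 / (Λ * (x k / 16))) * M := by
    intro k
    have h2 := hxk0 k
    have e1 : (B + 4 * W) * (12800000 / (θ * x k * Λ)) =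
        ((B + 4 * W) * (800000 / θ)) * (1 / (Λ * (x k / 16))) := by
      field_simp; ring
    rw [e1]
    gcongr
  have tbu : ∀ t ∈ P, Tb (eu (u t)) (ev (v t)) Y w1 w2 Λ E := fun t ht =>
    tb_of_dy (hD t ht) (H.ou t ht) (H.ov t ht) hY H.Yw H.ww
  set σ : ℝ := W / (Λ ^ (1 + qm 1) * (E * (Y / a)) ^ (1 + qm 2)) with hσd
  have hσ0 : 0 ≤ σ := by rw [hσd]; positivity
  have hNd : Nd P u v (CrV L P v u ev eu w1 z0 ρ M Λ B θ) (CrV L P u v eu ev w1 z0 ρ M Λ B θ)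
      (aV v u ev eu Y w1 w2 Λ E) (aV u v eu ev Y w1 w2 Λ E) x K M Wc σ
      (fun x => Nh Λ (E * (Y / a)) (qp 0) (qp 2) (x / 16)) (fun x => 1 / (Λ * (x / 16))) := by
    refine
      { ne := hP
        W1 := by linarith
        M0 := hM
        σ0 := hσ0
        N0 := fun k => by
          show 0 ≤ Nh Λ (E * (Y / a)) (qp 0) (qp 2) (x k / 16)
          rw [hx16]; exact Nh_nonneg hΛ hEX (hxs k).le
        r0 := fun k => by
          show 0 ≤ 1 / (Λ * (x k / 16))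
          rw [hx16]; have := hxs k; positivity
        symU := fun s t h => h.symm
        symV := fun s t h => h.symm
        symAu := fun s t => aV_comm _ _ _ _ _ _ _ _ _ s t
        symAv := fun s t => aV_comm _ _ _ _ _ _ _ _ _ s t
        topU := fun s hs t ht h _ => by
          have h4 := aV_top (u := v) (v := u) (eu := ev) (ev := eu) H.ou hY hw2 hw1 hΛ0 hE0 tbu
            hs ht h
          have : x 0 = 16 := by rw [hxd]; show 16 * xs Λ K 0 = 16; rw [xs_zero]; ring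
          rw [this]; linarith
        topV := fun s hs t ht h _ => by
          have h4 := aV_top (u := u) (v := v) (eu := eu) (ev := ev) H.ov hY hw2 hw1 hΛ0 hE0
            (fun t ht => (tbu t ht).symm) hs ht h
          have : x 0 = 16 := by rw [hxd]; show 16 * xs Λ K 0 = 16; rw [xs_zero]; ring
          rw [this]; linarith
        size := fun c' => by
          have h4 := core_size' H c'
          have h5 : 4 * (W * M) ≤ Wc * M := by nlinarith
          refine le_trans (le_of_eq ?_) (h4.trans h5)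
          congr
        crU := fun Q hQ hc => by
          refine (crU Q hQ hc).trans (le_trans (le_of_eq ?_)
            (mul_le_mul_of_nonneg_right hWcD (Nat.cast_nonneg _)))
          congr
        crV := fun Q hQ hc => by
          refine (crV Q hQ hc).trans (le_trans (le_of_eq ?_)
            (mul_le_mul_of_nonneg_right hWcD (Nat.cast_nonneg _)))
          congr
        share := fun c c' => by
          rcases (P.filter fun t => u t = c ∧ v t = c').eq_empty_or_nonempty with h0 | ⟨t, ht⟩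
          · have : 0 ≤ σ * M := mul_nonneg hσ0 hM.le
            refine le_trans (le_of_eq ?_) this
            rw [← Nat.cast_zero, Nat.cast_inj, Finset.card_eq_zero]
            refine Eq.trans ?_ h0
            congr
          · rw [mem_filter] at ht
            obtain ⟨htP, htu, htv⟩ := ht
            have h4 := H.share t htP j k' (hD t htP) hW
            have h5 : W * M / (Λ ^ (1 + qm 1) * (E * (Y / a)) ^ (1 + qm 2)) = σ * M := by
              rw [hσd]; ring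
            rw [htu, htv] at h4
            refine le_trans (le_of_eq ?_) (h4.trans (le_of_eq h5))
            congr
        hullU := fun k hk t0 ht0 => (hU _ _ _ (hxk k hk.le) t0 ht0).trans (hnum k)
        hullV := fun k hk t0 ht0 => (hV _ _ _ (hxk k hk.le) t0 ht0).trans (hnum k)
        hull1 := fun t0 ht0 => (h1 _ _ (hxk K le_rfl) t0 ht0 _ _).trans (hnum K)
        meetU := fun k hk c c'' => (core_meet H hD hB hθ hθ1 c c'' (x (k + 1)) (hxk0 _)
          (hxk16 _)).trans (hmt (k + 1))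
        meetV := fun k hk c c'' => (core_meet' H hD hB hθ hθ1 c c'' (x (k + 1)) (hxk0 _)
          (hxk16 _)).trans (hmt (k + 1)) }
  refine nd_fin2 (s := 0) (m1 := qm 1) (m2 := qm 2) (p0 := qp 0) (p2 := qp 2) hΛ hEX p00 hm1
    hx.e1 hx.e02 le_rfl (by linarith) hK hNd ?_ ?_ ?_
  · intro k _
    show Nh Λ (E * (Y / a)) (qp 0) (qp 2) (x k / 16) ≤ _
    rw [hx16]
  · intro k _
    show 1 / (Λ * (x k / 16)) ≤ _
    rw [hx16, rs, sub_zero, Real.rpow_one]
  · rw [sg, hσd, Real.rpow_neg hΛ0.le, Real.rpow_neg hEX0.le, ← mul_inv, ← div_eq_mul_inv]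
    gcongr
    linarith

end

end Crest.Agent.R136.Cbg372
end

-- ▼ part R136/Gi0_524
section

/-!
# R136 (S0187), PLAN 2 (C2): good incidences of a planar class (helper524)

For a class `S` of planar lines `z ↦ f s + z * g s` in a strip of half-width `w1` with the tube
bounds `#tube (δ w1) ≤ W M δ^(1+q)` (`w2 ≤ 8 δ w1`), every line `t` is `r`-rich only at few of the
`2^m` heights, for all `r ∈ [1/Λ, 1]` at once.
-/

set_option autoImplicit false
set_option linter.unusedVariables false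

open Finset

namespace Crest.Agent.R136.Gin524

open Crest.Agent.R136.Pl860 (Meet planar_bad)

open Classical in
/-- one scale -/
theorem bad_scale {α : Type*} (S : Finset α) {p v : α → ℝ} {W M q : ℝ} {k m : ℕ} {T : α}
    (hq : 0 < q) (hW : 0 ≤ W) (hM : 0 < M)
    (hD : ∀ i, i ≤ k → ((S.filter fun s => |p s - p T| ≤ 2 * (1/2) ^ i ∧
      |v s - v T| ≤ (1/2) ^ i).card : ℝ) ≤ W * ((1/2 : ℝ) ^ i) ^ (1 + q) * M)
    (hv : ∀ s ∈ S, |v s - v T| ≤ 1) (hkm : k ≤ m) {B : ℝ} (hB : 0 ≤ B) :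
    (((range (2 ^ m)).filter fun i : ℕ => B * (1/2) ^ k * M <
      ((S.filter fun s => |(p s + v s * ((i:ℝ) / 2 ^ m)) - (p T + v T * ((i:ℝ) / 2 ^ m))| ≤
        (1/2) ^ k).card : ℝ)).card : ℝ) * B ≤ 2 ^ m * (6 * (W / (1 - (1/2 : ℝ) ^ q))) := by
  have hD' : ∀ i, i ≤ k → ((S.filter fun s => |p s - p T| ≤ (1 + 1) * (1/2) ^ i ∧
      |v s - v T| ≤ (1/2) ^ i).card : ℝ) ≤ W * ((1/2 : ℝ) ^ i) ^ (1 + q) * M := by
    intro i hi
    have := hD i hi
    norm_num at this ⊢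
    exact this
  have h1 := planar_bad S (p := p) (v := v) (K := 1) (B := B * (1/2) ^ k * M) (k := k) (T := T)
    hq le_rfl hW hM.le hD' hv
  set F := (range (2 ^ m)).filter fun i : ℕ => B * (1/2) ^ k * M <
      ((S.filter fun s => |(p s + v s * ((i:ℝ) / 2 ^ m)) - (p T + v T * ((i:ℝ) / 2 ^ m))| ≤
        (1/2) ^ k).card : ℝ) with hF
  set G := (range (2 ^ k)).filter fun j =>
      B * (1/2) ^ k * M < ((S.filter fun T' => Meet p v 1 ((1/2) ^ k) j T T').card : ℝ) with hG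
  have hmk : 2 ^ m = 2 ^ (m - k) * 2 ^ k := by rw [← pow_add]; congr 1; omega
  have hpos : 0 < 2 ^ (m - k) := by positivity
  have hmap : ∀ i ∈ F, i / 2 ^ (m - k) ∈ G := by
    intro i hi
    obtain ⟨hi1, hi2⟩ := mem_filter.1 hi
    have hi3 := mem_range.1 hi1
    refine mem_filter.2 ⟨mem_range.2 ?_, lt_of_lt_of_le hi2 ?_⟩
    · rw [Nat.div_lt_iff_lt_mul hpos, mul_comm, ← hmk]; exact hi3
    · have hsub : (S.filter fun s => |(p s + v s * ((i:ℝ) / 2 ^ m)) -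
          (p T + v T * ((i:ℝ) / 2 ^ m))| ≤ (1/2) ^ k) ⊆
          S.filter fun T' => Meet p v 1 ((1/2) ^ k) (i / 2 ^ (m - k)) T T' := by
        intro s hs
        obtain ⟨hs1, hs2⟩ := mem_filter.1 hs
        refine mem_filter.2 ⟨hs1, (i:ℝ) / 2 ^ m, ?_, ?_, ?_⟩
        · rw [le_div_iff₀ (by positivity)]
          have h2 : i / 2 ^ (m - k) * 2 ^ (m - k) ≤ i := Nat.div_mul_le_self _ _
          have h3 : (((i / 2 ^ (m - k) : ℕ) : ℝ)) * 2 ^ (m - k) ≤ i := by exact_mod_cast h2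
          have h4 : ((2:ℝ) ^ m) = 2 ^ (m - k) * 2 ^ k := by exact_mod_cast hmk
          have h5 : (1/2 : ℝ) ^ k * 2 ^ k = 1 := by rw [← mul_pow]; norm_num
          calc ((i / 2 ^ (m - k) : ℕ) : ℝ) * (1/2) ^ k * 2 ^ m
              = ((i / 2 ^ (m - k) : ℕ) : ℝ) * 2 ^ (m - k) * ((1/2) ^ k * 2 ^ k) := by
                rw [h4]; ring
            _ ≤ i := by rw [h5, mul_one]; exact h3
        · rw [div_le_iff₀ (by positivity)]
          have h2 : i < (i / 2 ^ (m - k) + 1) * 2 ^ (m - k) := by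
            have := Nat.lt_div_mul_add (a := i) hpos
            rw [add_mul, one_mul]; exact this
          have h3 : (i:ℝ) ≤ (((i / 2 ^ (m - k) : ℕ) : ℝ) + 1) * 2 ^ (m - k) := by
            exact_mod_cast h2.le
          have h4 : ((2:ℝ) ^ m) = 2 ^ (m - k) * 2 ^ k := by exact_mod_cast hmk
          have h5 : (1/2 : ℝ) ^ k * 2 ^ k = 1 := by rw [← mul_pow]; norm_num
          calc (i:ℝ) ≤ (((i / 2 ^ (m - k) : ℕ) : ℝ) + 1) * 2 ^ (m - k) * ((1/2) ^ k * 2 ^ k) := by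
                rw [h5, mul_one]; exact h3
            _ = _ := by rw [h4]; ring
        · rw [one_mul]; exact hs2
      exact_mod_cast card_le_card hsub
  have hcard : F.card ≤ G.card * 2 ^ (m - k) := by
    rw [mul_comm]
    refine card_le_mul_card_image_of_maps_to hmap _ fun j _ => ?_
    have hsub : (F.filter fun i => i / 2 ^ (m - k) = j) ⊆
        (Finset.Ico (j * 2 ^ (m - k)) ((j + 1) * 2 ^ (m - k))) := by
      intro i hi
      obtain ⟨_, hi2⟩ := mem_filter.1 hi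
      rw [Finset.mem_Ico]
      constructor
      · rw [← hi2]; exact Nat.div_mul_le_self _ _
      · rw [← hi2]
        have := Nat.lt_div_mul_add (a := i) hpos
        rw [add_mul, one_mul]; exact this
    refine (card_le_card hsub).trans (le_of_eq ?_)
    rw [Nat.card_Ico]
    have : (j + 1) * 2 ^ (m - k) = j * 2 ^ (m - k) + 2 ^ (m - k) := by ring
    omega
  have hcard' : (F.card : ℝ) ≤ G.card * 2 ^ (m - k) := by exact_mod_cast hcard
  have h5 : (1/2 : ℝ) ^ k * 2 ^ k = 1 := by rw [← mul_pow]; norm_num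
  have h4 : ((2:ℝ) ^ m) = 2 ^ (m - k) * 2 ^ k := by exact_mod_cast hmk
  -- `#G * B ≤ 2^k * 6 W / (1 - ..)`
  have h6 : (G.card : ℝ) * B ≤ 2 ^ k * (6 * (W / (1 - (1/2 : ℝ) ^ q))) := by
    have h7 : ((G.card : ℝ) * B) * M ≤ (2 ^ k * (6 * (W / (1 - (1/2 : ℝ) ^ q)))) * M := by
      have h8 : (G.card : ℝ) * (B * (1/2) ^ k * M) * 2 ^ k ≤
          (4 * 1 + 2) * (W * M / (1 - (1/2 : ℝ) ^ q)) * 2 ^ k :=
        mul_le_mul_of_nonneg_right h1 (by positivity)
      calc ((G.card : ℝ) * B) * M = (G.card : ℝ) * (B * (1/2) ^ k * M) * 2 ^ k := by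
            calc ((G.card : ℝ) * B) * M = (G.card : ℝ) * B * M * ((1/2) ^ k * 2 ^ k) := by
                  rw [h5, mul_one]
              _ = _ := by ring
        _ ≤ _ := h8
        _ = _ := by ring
    exact le_of_mul_le_mul_right h7 hM
  calc (F.card : ℝ) * B ≤ (G.card * 2 ^ (m - k)) * B := mul_le_mul_of_nonneg_right hcard' hB
    _ = (G.card * B) * 2 ^ (m - k) := by ring
    _ ≤ (2 ^ k * (6 * (W / (1 - (1/2 : ℝ) ^ q)))) * 2 ^ (m - k) :=
        mul_le_mul_of_nonneg_right h6 (by positivity)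
    _ = _ := by rw [h4]; ring

open Classical in
/-- all dyadic scales at once -/
theorem bad_scales {α : Type*} (S : Finset α) {p v : α → ℝ} {W M q : ℝ} {k0 m : ℕ} {T : α}
    (hq : 0 < q) (hW : 0 ≤ W) (hM : 0 < M)
    (hD : ∀ i, i ≤ k0 → ((S.filter fun s => |p s - p T| ≤ 2 * (1/2) ^ i ∧
      |v s - v T| ≤ (1/2) ^ i).card : ℝ) ≤ W * ((1/2 : ℝ) ^ i) ^ (1 + q) * M)
    (hv : ∀ s ∈ S, |v s - v T| ≤ 1) (hkm : k0 ≤ m) {B : ℝ} (hB0 : 0 < B)
    (hB : 24 * ((k0 : ℝ) + 1) * (W / (1 - (1/2 : ℝ) ^ q)) ≤ B) :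
    (((range (2 ^ m)).filter fun i : ℕ => ¬ ∀ k, k ≤ k0 →
      ((S.filter fun s => |(p s + v s * ((i:ℝ) / 2 ^ m)) - (p T + v T * ((i:ℝ) / 2 ^ m))| ≤
        (1/2) ^ k).card : ℝ) ≤ B * (1/2) ^ k * M).card : ℝ) ≤ 2 ^ m / 4 := by
  set F := (range (2 ^ m)).filter fun i : ℕ => ¬ ∀ k, k ≤ k0 →
      ((S.filter fun s => |(p s + v s * ((i:ℝ) / 2 ^ m)) - (p T + v T * ((i:ℝ) / 2 ^ m))| ≤
        (1/2) ^ k).card : ℝ) ≤ B * (1/2) ^ k * M with hF
  set Fk : ℕ → Finset ℕ := fun k => (range (2 ^ m)).filter fun i : ℕ => B * (1/2) ^ k * M <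
      ((S.filter fun s => |(p s + v s * ((i:ℝ) / 2 ^ m)) - (p T + v T * ((i:ℝ) / 2 ^ m))| ≤
        (1/2) ^ k).card : ℝ) with hFk
  have hsub : F ⊆ (range (k0 + 1)).biUnion Fk := by
    intro i hi
    obtain ⟨hi1, hi2⟩ := mem_filter.1 hi
    push Not at hi2
    obtain ⟨k, hk, hk2⟩ := hi2
    exact mem_biUnion.2 ⟨k, mem_range.2 (by omega), mem_filter.2 ⟨hi1, hk2⟩⟩
  have h1 : (F.card : ℝ) ≤ ∑ k ∈ range (k0 + 1), ((Fk k).card : ℝ) := by
    have := (card_le_card hsub).trans card_biUnion_le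
    exact_mod_cast this
  have h2 : (F.card : ℝ) * B ≤
      ((k0 : ℝ) + 1) * (2 ^ m * (6 * (W / (1 - (1/2 : ℝ) ^ q)))) := by
    calc (F.card : ℝ) * B ≤ (∑ k ∈ range (k0 + 1), ((Fk k).card : ℝ)) * B :=
          mul_le_mul_of_nonneg_right h1 hB0.le
      _ = ∑ k ∈ range (k0 + 1), ((Fk k).card : ℝ) * B := sum_mul _ _ _
      _ ≤ ∑ k ∈ range (k0 + 1), 2 ^ m * (6 * (W / (1 - (1/2 : ℝ) ^ q))) := by
          refine sum_le_sum fun k hk => ?_
          have hk' : k ≤ k0 := by have := mem_range.1 hk; omega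
          exact bad_scale S hq hW hM (fun i hi => hD i (hi.trans hk')) hv (hk'.trans hkm) hB0.le
      _ = _ := by rw [sum_const, card_range, nsmul_eq_mul]; push_cast; ring
  have h3 : (F.card : ℝ) * B ≤ (2 ^ m / 4) * B := by
    refine h2.trans ?_
    have h4 : (2:ℝ) ^ m / 4 * (24 * ((k0 : ℝ) + 1) * (W / (1 - (1/2 : ℝ) ^ q))) ≤
        2 ^ m / 4 * B := mul_le_mul_of_nonneg_left hB (by positivity)
    refine le_trans (le_of_eq ?_) h4
    ring
  exact le_of_mul_le_mul_right h3 hB0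

/-- an affine function which is small at both ends is small -/
theorem aff_le {a b z0 ρ D z : ℝ} (h0 : |a + z0 * b| ≤ D) (h1 : |a + (z0 + ρ) * b| ≤ D)
    (hz0 : z0 ≤ z) (hz1 : z ≤ z0 + ρ) (hρ : 0 < ρ) : |a + z * b| ≤ D := by
  rw [abs_le] at h0 h1 ⊢
  have hx0 : 0 ≤ (z - z0) / ρ := div_nonneg (by linarith) hρ.le
  have hx1 : (z - z0) / ρ ≤ 1 := by rw [div_le_one hρ]; linarith
  have e : a + z * b = (1 - (z - z0) / ρ) * (a + z0 * b) + ((z - z0) / ρ) * (a + (z0 + ρ) * b) := by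
    field_simp; ring
  rw [e]
  constructor <;> nlinarith

open Classical in
/-- **size of a class** from the tubes of width `w1` -/
theorem size_class {α : Type*} (S : Finset α) {f g : α → ℝ} {bf bg w1 z0 ρ N : ℝ} (hρ : 0 < ρ)
    (hb : ∀ s ∈ S, ∀ z, z0 ≤ z → z ≤ z0 + ρ → |(f s + z * g s) - (bf + z * bg)| ≤ w1)
    (hN : 0 ≤ N) (htube : ∀ t ∈ S, ((S.filter fun s => ∀ z, z0 ≤ z → z ≤ z0 + ρ →
      |(f s + z * g s) - (f t + z * g t)| ≤ w1).card : ℝ) ≤ N) :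
    (S.card : ℝ) ≤ 4 * N := by
  set F : α → Bool × Bool := fun s => (decide ((f s + z0 * g s) ≤ (bf + z0 * bg)),
    decide ((f s + (z0 + ρ) * g s) ≤ (bf + (z0 + ρ) * bg))) with hF
  have h1 : S.card = ∑ y ∈ (univ : Finset (Bool × Bool)), (S.filter fun s => F s = y).card :=
    card_eq_sum_card_fiberwise fun s _ => mem_univ _
  rw [h1]
  push_cast
  have h2 : ∀ y ∈ (univ : Finset (Bool × Bool)), ((S.filter fun s => F s = y).card : ℝ) ≤ N := by
    intro y _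
    rcases (S.filter fun s => F s = y).eq_empty_or_nonempty with h0 | ⟨t, ht⟩
    · rw [h0]; simpa using hN
    obtain ⟨ht1, ht2⟩ := mem_filter.1 ht
    refine le_trans ?_ (htube t ht1)
    have hsub : (S.filter fun s => F s = y) ⊆ S.filter fun s => ∀ z, z0 ≤ z → z ≤ z0 + ρ →
      |(f s + z * g s) - (f t + z * g t)| ≤ w1 := by
      intro s hs
      obtain ⟨hs1, hs2⟩ := mem_filter.1 hs
      refine mem_filter.2 ⟨hs1, fun z hz0 hz1 => ?_⟩
      have hst : F s = F t := hs2.trans ht2.symm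
      simp only [hF, Prod.mk.injEq, decide_eq_decide] at hst
      have a1 := abs_le.1 (hb s hs1 z0 le_rfl (by linarith))
      have a2 := abs_le.1 (hb t ht1 z0 le_rfl (by linarith))
      have b1 := abs_le.1 (hb s hs1 (z0 + ρ) (by linarith) le_rfl)
      have b2 := abs_le.1 (hb t ht1 (z0 + ρ) (by linarith) le_rfl)
      have key0 : |(f s - f t) + z0 * (g s - g t)| ≤ w1 := by
        rw [abs_le]
        by_cases h : f s + z0 * g s ≤ bf + z0 * bg
        · have h' := hst.1.1 h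
          constructor <;> linarith [a1.1, a1.2, a2.1, a2.2]
        · have h' : ¬ (f t + z0 * g t ≤ bf + z0 * bg) := fun h2 => h (hst.1.2 h2)
          push Not at h h'
          constructor <;> linarith [a1.1, a1.2, a2.1, a2.2]
      have key1 : |(f s - f t) + (z0 + ρ) * (g s - g t)| ≤ w1 := by
        rw [abs_le]
        by_cases h : f s + (z0 + ρ) * g s ≤ bf + (z0 + ρ) * bg
        · have h' := hst.2.1 h
          constructor <;> linarith [b1.1, b1.2, b2.1, b2.2]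
        · have h' : ¬ (f t + (z0 + ρ) * g t ≤ bf + (z0 + ρ) * bg) := fun h2 => h (hst.2.2 h2)
          push Not at h h'
          constructor <;> linarith [b1.1, b1.2, b2.1, b2.2]
      have := aff_le key0 key1 hz0 hz1 hρ
      have e : (f s + z * g s) - (f t + z * g t) = (f s - f t) + z * (g s - g t) := by ring
      rw [e]; exact this
    exact_mod_cast card_le_card hsub
  refine (sum_le_sum h2).trans (le_of_eq ?_)
  rw [sum_const, card_univ, nsmul_eq_mul]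
  norm_num

open Classical in
/-- **good heights of one line of a class**, all radii `r ∈ [1/Λ, 1]` at once. -/
theorem class_good {α : Type*} (S : Finset α) {f g : α → ℝ} {bf bg w1 w2 z0 ρ W M q : ℝ}
    {j m : ℕ} (hρ : 0 < ρ) (hw1 : 0 < w1) (hw2 : 0 < w2) (hw : w2 ≤ w1) (hq : 0 < q) (hW : 0 ≤ W)
    (hM : 0 < M)
    (hb : ∀ s ∈ S, ∀ z, z0 ≤ z → z ≤ z0 + ρ → |(f s + z * g s) - (bf + z * bg)| ≤ w1)
    (htube : ∀ t ∈ S, ∀ δ : ℝ, w2 ≤ 8 * (δ * w1) → δ ≤ 1 →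
      ((S.filter fun s => ∀ z, z0 ≤ z → z ≤ z0 + ρ →
      |(f s + z * g s) - (f t + z * g t)| ≤ δ * w1).card : ℝ) ≤ W * M * δ ^ (1 + q))
    (hj : (2:ℝ) ^ j * w2 ≤ 2 * w1) (hm : j ≤ m) {B : ℝ} (hB0 : 0 < B)
    (hB : 96 * 12 ^ (1 + q) * ((j : ℝ) + 1) * (W / (1 - (1/2 : ℝ) ^ q)) ≤ B) {t : α}
    (ht : t ∈ S) :
    (((range (2 ^ m)).filter fun i : ℕ => ¬ ∀ r : ℝ, 1 ≤ r * 2 ^ j → r ≤ 1 →
      ((S.filter fun s => |(f s + (z0 + ρ * ((i:ℝ) / 2 ^ m)) * g s) -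
        (f t + (z0 + ρ * ((i:ℝ) / 2 ^ m)) * g t)| ≤ r * w1).card : ℝ) ≤ B * r * M).card : ℝ) ≤
      2 ^ m / 4 := by
  have hD0 : 0 < 4 * w1 := by linarith
  set p : α → ℝ := fun s => (f s + z0 * g s) / (4 * w1) with hp
  set v : α → ℝ := fun s => ρ * g s / (4 * w1) with hv
  -- distances
  have hpv : ∀ (s : α) (x : ℝ), (p s + v s * x) - (p t + v t * x) =
      ((f s + (z0 + ρ * x) * g s) - (f t + (z0 + ρ * x) * g t)) / (4 * w1) := by
    intro s x; simp only [hp, hv]; field_simp; ring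
  have hsize : (S.card : ℝ) ≤ 4 * (W * M) := by
    refine size_class S hρ hb (mul_nonneg hW hM.le) fun t ht => ?_
    have := htube t ht 1 (by linarith) le_rfl
    rw [Real.one_rpow, mul_one] at this
    simpa only [one_mul] using this
  have hdiff : ∀ s ∈ S, ∀ z, z0 ≤ z → z ≤ z0 + ρ →
      |(f s + z * g s) - (f t + z * g t)| ≤ 2 * w1 := by
    intro s hs z h0 h1
    have a1 := abs_le.1 (hb s hs z h0 h1)
    have a2 := abs_le.1 (hb t ht z h0 h1)
    rw [abs_le]; constructor <;> linarith [a1.1, a1.2, a2.1, a2.2]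
  have hvv : ∀ s ∈ S, |v s - v t| ≤ 1 := by
    intro s hs
    have h0 := abs_le.1 (hdiff s hs z0 le_rfl (by linarith))
    have h1 := abs_le.1 (hdiff s hs (z0 + ρ) (by linarith) le_rfl)
    have e : v s - v t = (((f s + (z0 + ρ) * g s) - (f t + (z0 + ρ) * g t)) -
        ((f s + z0 * g s) - (f t + z0 * g t))) / (4 * w1) := by
      simp only [hv]; field_simp; ring
    rw [e, abs_div, abs_of_pos hD0, div_le_one hD0, abs_le]
    constructor <;> linarith [h0.1, h0.2, h1.1, h1.2]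
  have h12 : (0:ℝ) < 12 ^ (1 + q) := by positivity
  have hq1 : (0:ℝ) < 1 - (1/2 : ℝ) ^ q := by
    have := Real.rpow_lt_one (by norm_num : (0:ℝ) ≤ 1/2) (by norm_num) hq
    linarith
  -- tubes
  have hD : ∀ i, i ≤ j → ((S.filter fun s => |p s - p t| ≤ 2 * (1/2) ^ i ∧
      |v s - v t| ≤ (1/2) ^ i).card : ℝ) ≤
      (4 * 12 ^ (1 + q) * W) * ((1/2 : ℝ) ^ i) ^ (1 + q) * M := by
    intro i hi
    set δ : ℝ := 12 * (1/2) ^ i with hδ
    have hδ0 : 0 < δ := by positivity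
    have hδe : δ ^ (1 + q) = 12 ^ (1 + q) * ((1/2 : ℝ) ^ i) ^ (1 + q) := by
      rw [hδ, Real.mul_rpow (by norm_num) (by positivity)]
    have e1 : (4 * 12 ^ (1 + q) * W) * ((1/2 : ℝ) ^ i) ^ (1 + q) * M = 4 * (W * M) * δ ^ (1 + q) := by
      rw [hδe]; ring
    rw [e1]
    rcases le_or_gt δ 1 with h1 | h1
    · have hsub : (S.filter fun s => |p s - p t| ≤ 2 * (1/2) ^ i ∧ |v s - v t| ≤ (1/2) ^ i) ⊆
          S.filter fun s => ∀ z, z0 ≤ z → z ≤ z0 + ρ →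
            |(f s + z * g s) - (f t + z * g t)| ≤ δ * w1 := by
        intro s hs
        obtain ⟨hs1, hs2, hs3⟩ := mem_filter.1 hs
        refine mem_filter.2 ⟨hs1, fun z hz0 hz1 => ?_⟩
        have hx0 : 0 ≤ (z - z0) / ρ := div_nonneg (by linarith) hρ.le
        have hx1 : (z - z0) / ρ ≤ 1 := by rw [div_le_one hρ]; linarith
        have e2 := hpv s ((z - z0) / ρ)
        have e3 : z0 + ρ * ((z - z0) / ρ) = z := by field_simp; ring
        rw [e3] at e2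
        have h5 : |(p s + v s * ((z - z0) / ρ)) - (p t + v t * ((z - z0) / ρ))| ≤
            3 * (1/2) ^ i := by
          have e4 : (p s + v s * ((z - z0) / ρ)) - (p t + v t * ((z - z0) / ρ)) =
              (p s - p t) + (v s - v t) * ((z - z0) / ρ) := by ring
          rw [e4]
          refine (abs_add_le _ _).trans ?_
          rw [abs_mul, abs_of_nonneg hx0]
          have : |v s - v t| * ((z - z0) / ρ) ≤ (1/2) ^ i * 1 :=
            mul_le_mul hs3 hx1 hx0 (by positivity)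
          linarith
        rw [e2, abs_div, abs_of_pos hD0, div_le_iff₀ hD0] at h5
        refine h5.trans (le_of_eq ?_)
        rw [hδ]; ring
      have h3 : w2 ≤ 8 * (δ * w1) := by
        have h4 : (1/2 : ℝ) ^ j ≤ (1/2) ^ i :=
          pow_le_pow_of_le_one (by norm_num) (by norm_num) hi
        have h5 : (1/2 : ℝ) ^ j * 2 ^ j = 1 := by
          rw [← mul_pow]; norm_num
        have h6 : (1/2 : ℝ) ^ j * (2 ^ j * w2) ≤ (1/2) ^ j * (2 * w1) :=
          mul_le_mul_of_nonneg_left hj (by positivity)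
        have h7 : (1/2 : ℝ) ^ j * (2 * w1) ≤ (1/2) ^ i * (2 * w1) :=
          mul_le_mul_of_nonneg_right h4 (by positivity)
        have h8 : (1/2 : ℝ) ^ j * (2 ^ j * w2) = w2 := by rw [← mul_assoc, h5, one_mul]
        rw [h8] at h6
        have h9 : 0 ≤ (1/2 : ℝ) ^ i * w1 := by positivity
        rw [hδ]; linarith
      have h4 := htube t ht δ h3 h1
      have h5 : 0 ≤ W * M * δ ^ (1 + q) := by positivity
      refine (le_trans (by exact_mod_cast card_le_card hsub) h4).trans ?_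
      nlinarith
    · have h5 : (1:ℝ) ≤ δ ^ (1 + q) := Real.one_le_rpow h1.le (by linarith)
      have h6 : ((S.filter fun s => |p s - p t| ≤ 2 * (1/2) ^ i ∧
          |v s - v t| ≤ (1/2) ^ i).card : ℝ) ≤ S.card := by
        exact_mod_cast card_filter_le _ _
      have h7 : 0 ≤ 4 * (W * M) := by positivity
      calc _ ≤ (S.card : ℝ) := h6
        _ ≤ 4 * (W * M) := hsize
        _ ≤ 4 * (W * M) * δ ^ (1 + q) := le_mul_of_one_le_right h7 h5
  have hmain := bad_scales S (p := p) (v := v) (T := t) (k0 := j) (m := m) (B := B) hq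
    (by positivity : (0:ℝ) ≤ 4 * 12 ^ (1 + q) * W) hM hD hvv hm hB0 (by
      refine le_trans (le_of_eq ?_) hB
      ring)
  refine le_trans ?_ hmain
  have hsub : ((range (2 ^ m)).filter fun i : ℕ => ¬ ∀ r : ℝ, 1 ≤ r * 2 ^ j → r ≤ 1 →
      ((S.filter fun s => |(f s + (z0 + ρ * ((i:ℝ) / 2 ^ m)) * g s) -
        (f t + (z0 + ρ * ((i:ℝ) / 2 ^ m)) * g t)| ≤ r * w1).card : ℝ) ≤ B * r * M) ⊆
      (range (2 ^ m)).filter fun i : ℕ => ¬ ∀ k, k ≤ j →
      ((S.filter fun s => |(p s + v s * ((i:ℝ) / 2 ^ m)) - (p t + v t * ((i:ℝ) / 2 ^ m))| ≤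
        (1/2) ^ k).card : ℝ) ≤ B * (1/2) ^ k * M := by
    intro i hi
    obtain ⟨hi1, hi2⟩ := mem_filter.1 hi
    refine mem_filter.2 ⟨hi1, fun hall => hi2 fun r hr1 hr2 => ?_⟩
    have h2j : (0:ℝ) < 2 ^ j := by positivity
    have hr0 : 0 < r := by
      by_contra h
      push Not at h
      nlinarith
    -- dyadic `k` with `r/4 ≤ 2^-k ≤ r / 2`
    have hex : ∃ k, k ≤ j ∧ r / 4 ≤ (1/2 : ℝ) ^ k ∧ (1/2 : ℝ) ^ k ≤ r := by
      have hP : ∃ k, (1/2 : ℝ) ^ k ≤ r := by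
        obtain ⟨k, hk⟩ := exists_pow_lt_of_lt_one hr0 (by norm_num : (1/2 : ℝ) < 1)
        exact ⟨k, hk.le⟩
      refine ⟨Nat.find hP, ?_, ?_, Nat.find_spec hP⟩
      · refine Nat.find_min' hP (m := j) ?_
        have : (1/2 : ℝ) ^ j * 2 ^ j = 1 := by rw [← mul_pow]; norm_num
        have h5 : (1/2 : ℝ) ^ j * 2 ^ j ≤ r * 2 ^ j := by linarith
        exact le_of_mul_le_mul_right h5 h2j
      · rcases Nat.eq_zero_or_pos (Nat.find hP) with h | h
        · rw [h, pow_zero]; linarith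
        · have h1 := Nat.find_min hP (m := Nat.find hP - 1) (by omega)
          rw [not_le] at h1
          have h2 : (1/2 : ℝ) ^ (Nat.find hP) = 1/2 * (1/2) ^ (Nat.find hP - 1) := by
            rw [← pow_succ']; congr 1; omega
          rw [h2]; linarith
    obtain ⟨k, hk, hk1, hk2⟩ := hex
    have h5 := hall k hk
    have hsub2 : (S.filter fun s => |(f s + (z0 + ρ * ((i:ℝ) / 2 ^ m)) * g s) -
        (f t + (z0 + ρ * ((i:ℝ) / 2 ^ m)) * g t)| ≤ r * w1) ⊆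
        S.filter fun s => |(p s + v s * ((i:ℝ) / 2 ^ m)) - (p t + v t * ((i:ℝ) / 2 ^ m))| ≤
        (1/2) ^ k := by
      intro s hs
      obtain ⟨hs1, hs2⟩ := mem_filter.1 hs
      refine mem_filter.2 ⟨hs1, ?_⟩
      rw [hpv s, abs_div, abs_of_pos hD0, div_le_iff₀ hD0]
      have : r * w1 ≤ (1/2) ^ k * (4 * w1) := by nlinarith
      exact hs2.trans this
    calc _ ≤ ((S.filter fun s => |(p s + v s * ((i:ℝ) / 2 ^ m)) -
          (p t + v t * ((i:ℝ) / 2 ^ m))| ≤ (1/2) ^ k).card : ℝ) := by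
          exact_mod_cast card_le_card hsub2
      _ ≤ B * (1/2) ^ k * M := h5
      _ ≤ B * r * M := by
          refine mul_le_mul_of_nonneg_right ?_ hM.le
          exact mul_le_mul_of_nonneg_left hk2 hB0.le
  exact_mod_cast card_le_card hsub

end Crest.Agent.R136.Gin524
end

-- ▼ part R136/Gin_524
section

/-!
# R136 (S0187), PLAN 2 (C2): good incidences over `TCore` (helper524)

`good_v` : `TCore`, `2 ^ j * w2 ≤ 2 * w1` ⊢ every line of `P` has a planar-good incidence (`GoodI` of the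
`u`-class, all radii in `[1/Λ, 1]`) at three quarters of the heights `z0 + ρ i / 2^m`, `m ≥ j`;
`good_u` = the same for the `v`-classes.
-/

set_option autoImplicit false
set_option linter.unusedVariables false

open Finset

namespace Crest.Agent.R136.Gin524

open Crest.Agent.R136.Sh605 Crest.Agent.R136.Fl808
open Crest.Agent.R136.Pl2 (TCore)
open Crest.Agent.R136.Cmd113 (GoodI)

/-- the constant of the good incidences -/
noncomputable def Kq (q : ℝ) : ℝ := 384 * 12 ^ (1 + q) / (1 - (1/2 : ℝ) ^ q)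

theorem Kq_pos {q : ℝ} (hq : 0 < q) : 0 < Kq q := by
  have := Real.rpow_lt_one (by norm_num : (0:ℝ) ≤ 1/2) (by norm_num) hq
  have h : (0:ℝ) < 1 - (1/2 : ℝ) ^ q := by linarith
  unfold Kq
  positivity

/-- the number of scales -/
theorem j_le {W w1 w2 a : ℝ} {j : ℕ} (hW : 1 ≤ W) (ha : 0 < a) (ha2 : a ≤ w2) (hw2 : w2 ≤ w1)
    (hlg : Real.log (w1 / a) ≤ W) (hj : (2:ℝ) ^ j * w2 ≤ 2 * w1) : (j : ℝ) + 1 ≤ 4 * W := by
  have h1 : (2:ℝ) ^ j ≤ 2 * (w1 / a) := by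
    rw [← mul_div_assoc, le_div_iff₀ ha]
    refine le_trans ?_ hj
    exact mul_le_mul_of_nonneg_left ha2 (by positivity)
  have hwa : 0 < w1 / a := div_pos (by linarith) ha
  have h2 := Real.log_le_log (by positivity) h1
  rw [Real.log_pow, Real.log_mul (by norm_num) hwa.ne'] at h2
  have h3 : (0.6931471803 : ℝ) < Real.log 2 := Real.log_two_gt_d9
  have h4 : Real.log 2 < 0.6931471808 := Real.log_two_lt_d9
  have h5 : (j : ℝ) * 0.69 ≤ (j : ℝ) * Real.log 2 :=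
    mul_le_mul_of_nonneg_left (by linarith) (Nat.cast_nonneg j)
  linarith

open Classical in
/-- one system, all lines -/
theorem good_sys {L : ℕ → Ln4} {P : Finset ℕ} {u : ℕ → ℕ} {e : ℕ → Fin 3 → V3} {bu : ℕ → Ln4}
    {W M a w1 w2 z0 ρ q : ℝ} {j m : ℕ} (hW : 1 ≤ W) (hM : 0 < M) (hq : 0 < q) (ha : 0 < a)
    (ha2 : a ≤ w2) (hw : w2 ≤ w1) (hlg : Real.log (w1 / a) ≤ W)
    (hj : (2:ℝ) ^ j * w2 ≤ 2 * w1) (hρ : 0 < ρ)
    (tube : ∀ t ∈ P, ∀ δ : ℝ, w2 ≤ 8 * (δ * w1) → δ ≤ 1 →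
      ((P.filter fun s => u s = u t ∧ ∀ z, z0 ≤ z → z ≤ z0 + ρ →
        |dt (e (u t) 1) ((L s).pos z - (L t).pos z)| ≤ δ * w1).card : ℝ) ≤ W * M * δ ^ (1 + q))
    (hmem : ∀ t ∈ P, ∀ z, z0 ≤ z → z ≤ z0 + ρ →
      |dt (e (u t) 1) ((L t).pos z - (bu (u t)).pos z)| ≤ w1)
    (hm : j ≤ m) {B : ℝ} (hB : Kq q * W ^ 2 ≤ B) :
    ∀ t ∈ P, 4 * ((range (2 ^ m)).filter fun i : ℕ =>
      ¬ GoodI L P u e w1 M (2 ^ j) B t (z0 + ρ * ((i : ℝ) / ((2 ^ m : ℕ) : ℝ)))).card ≤ 2 ^ m := by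
  intro t ht
  have hK := Kq_pos hq
  have hB0 : 0 < B := lt_of_lt_of_le (by positivity) hB
  have hw2 : 0 < w2 := by linarith
  have hw1 : 0 < w1 := by linarith
  have hq1 : (0:ℝ) < 1 - (1/2 : ℝ) ^ q := by
    have := Real.rpow_lt_one (by norm_num : (0:ℝ) ≤ 1/2) (by norm_num) hq
    linarith
  have key : ∀ (s s' : ℕ) (z : ℝ), dt (e (u t) 1) ((L s).pos z - (L s').pos z) =
      (dt (e (u t) 1) (L s).p + z * dt (e (u t) 1) (L s).v) -
      (dt (e (u t) 1) (L s').p + z * dt (e (u t) 1) (L s').v) := by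
    intro s s' z; simp only [dt, Ln4.pos, Pi.sub_apply]; ring
  have keyb : ∀ (s : ℕ) (z : ℝ), dt (e (u t) 1) ((L s).pos z - (bu (u t)).pos z) =
      (dt (e (u t) 1) (L s).p + z * dt (e (u t) 1) (L s).v) -
      (dt (e (u t) 1) (bu (u t)).p + z * dt (e (u t) 1) (bu (u t)).v) := by
    intro s z; simp only [dt, Ln4.pos, Pi.sub_apply]; ring
  have hmain := class_good (P.filter fun s => u s = u t)
    (f := fun s => dt (e (u t) 1) (L s).p) (g := fun s => dt (e (u t) 1) (L s).v)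
    (bf := dt (e (u t) 1) (bu (u t)).p) (bg := dt (e (u t) 1) (bu (u t)).v)
    (w1 := w1) (w2 := w2) (z0 := z0) (ρ := ρ) (W := W) (M := M) (q := q) (j := j) (m := m)
    hρ hw1 hw2 hw hq (by linarith) hM
    (by
      intro s hs z h0 h1
      obtain ⟨hs1, hs2⟩ := mem_filter.1 hs
      have := hmem s hs1 z h0 h1
      rw [hs2, keyb] at this
      exact this)
    (by
      intro t' ht' δ h1 h2
      obtain ⟨ht1, ht2⟩ := mem_filter.1 ht'
      have := tube t' ht1 δ h1 h2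
      rw [filter_filter]
      refine le_trans (le_of_eq ?_) this
      congr 2
      refine filter_congr fun s _ => ?_
      rw [ht2]
      refine and_congr_right fun _ => ?_
      refine forall_congr' fun z => ?_
      rw [key])
    hj hm hB0
    (by
      refine le_trans ?_ hB
      have h1 := j_le hW ha ha2 hw hlg hj
      have h2 : 0 ≤ W / (1 - (1/2 : ℝ) ^ q) := by positivity
      have h3 : (0:ℝ) ≤ 96 * 12 ^ (1 + q) := by positivity
      calc 96 * 12 ^ (1 + q) * ((j : ℝ) + 1) * (W / (1 - (1/2 : ℝ) ^ q))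
          ≤ 96 * 12 ^ (1 + q) * (4 * W) * (W / (1 - (1/2 : ℝ) ^ q)) :=
            mul_le_mul_of_nonneg_right (mul_le_mul_of_nonneg_left h1 h3) h2
        _ = _ := by unfold Kq; ring)
    (t := t) (mem_filter.2 ⟨ht, rfl⟩)
  have hcast : ((2 ^ m : ℕ) : ℝ) = 2 ^ m := by push_cast; rfl
  have hfil : ((range (2 ^ m)).filter fun i : ℕ =>
      ¬ GoodI L P u e w1 M (2 ^ j) B t (z0 + ρ * ((i : ℝ) / ((2 ^ m : ℕ) : ℝ)))) ⊆
      (range (2 ^ m)).filter fun i : ℕ => ¬ ∀ r : ℝ, 1 ≤ r * 2 ^ j → r ≤ 1 →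
      ((((P.filter fun s => u s = u t).filter fun s =>
        |(dt (e (u t) 1) (L s).p + (z0 + ρ * ((i:ℝ) / 2 ^ m)) * dt (e (u t) 1) (L s).v) -
        (dt (e (u t) 1) (L t).p + (z0 + ρ * ((i:ℝ) / 2 ^ m)) * dt (e (u t) 1) (L t).v)| ≤
          r * w1).card : ℝ)) ≤ B * r * M := by
    intro i hi
    obtain ⟨hi1, hi2⟩ := mem_filter.1 hi
    refine mem_filter.2 ⟨hi1, fun hall => hi2 fun r hr1 hr2 => ?_⟩
    have h1 := hall r hr1 hr2
    rw [filter_filter] at h1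
    rw [hcast]
    refine le_trans (le_of_eq ?_) h1
    congr 2
    refine filter_congr fun s _ => ?_
    rw [key]
  have h5 := (Nat.cast_le (α := ℝ)).2 (card_le_card hfil)
  have h6 : (4:ℝ) * (((range (2 ^ m)).filter fun i : ℕ =>
      ¬ GoodI L P u e w1 M (2 ^ j) B t (z0 + ρ * ((i : ℝ) / ((2 ^ m : ℕ) : ℝ)))).card : ℝ) ≤
      2 ^ m := by
    have := h5.trans hmain
    linarith
  exact_mod_cast h6

variable {qm qp : Fin 3 → ℝ} {L : ℕ → Ln4} {P : Finset ℕ} {u v : ℕ → ℕ} {bu bv : ℕ → Ln4}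
  {eu ev : ℕ → Fin 3 → V3} {W M a Y w1 w2 z0 ρ : ℝ}

open Classical in
/-- **good incidences** with respect to the `u`-classes (used in the crossing pairs of `v`-classes) -/
theorem good_u (h : TCore qm qp L P u v bu bv eu ev W M a Y w1 w2 z0 ρ) (hq : 0 < qm 1) {j m : ℕ}
    (hj : (2:ℝ) ^ j * w2 ≤ 2 * w1) (hm : j ≤ m) {B : ℝ} (hB : Kq (qm 1) * W ^ 2 ≤ B) :
    ∀ t ∈ P, 4 * ((range (2 ^ m)).filter fun i : ℕ =>
      ¬ GoodI L P u eu w1 M (2 ^ j) B t (z0 + ρ * ((i : ℝ) / ((2 ^ m : ℕ) : ℝ)))).card ≤ 2 ^ m :=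
  good_sys h.W1 h.M0 hq h.a0 (h.aY.trans h.Yw) h.ww h.lg hj h.ρ0 h.tubeu
    (fun t ht z h0 h1 => by simpa using h.mu t ht z h0 h1 1) hm hB

open Classical in
/-- **good incidences** with respect to the `v`-classes -/
theorem good_v (h : TCore qm qp L P u v bu bv eu ev W M a Y w1 w2 z0 ρ) (hq : 0 < qm 1) {j m : ℕ}
    (hj : (2:ℝ) ^ j * w2 ≤ 2 * w1) (hm : j ≤ m) {B : ℝ} (hB : Kq (qm 1) * W ^ 2 ≤ B) :
    ∀ t ∈ P, 4 * ((range (2 ^ m)).filter fun i : ℕ =>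
      ¬ GoodI L P v ev w1 M (2 ^ j) B t (z0 + ρ * ((i : ℝ) / ((2 ^ m : ℕ) : ℝ)))).card ≤ 2 ^ m :=
  good_sys h.W1 h.M0 hq h.a0 (h.aY.trans h.Yw) h.ww h.lg hj h.ρ0 h.tubev
    (fun t ht z h0 h1 => by simpa using h.mv t ht z h0 h1 1) hm hB

end Crest.Agent.R136.Gin524
end

-- ▼ part R136/Cr3_18
section

/-! helper18, PLAN 2 leaf (L3): crossing pairs of one class, with good incidences. -/

set_option autoImplicit false

open Finset

namespace Crest.Agent.R136.Cr318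

variable {ι : Type*}

/-- index of the `1/n`-box of the planar line `A t + α t z` at the height `i/n` -/
noncomputable def bx (n : ℕ) (A α : ι → ℝ) (i : ℕ) (t : ι) : ℤ :=
  ⌊(A t + α t * ((i : ℝ) / n)) * n⌋

theorem bx_close {n : ℕ} (hn : 0 < n) {A α : ι → ℝ} {i : ℕ} {t t' : ι}
    (h : bx n A α i t = bx n A α i t') :
    |(A t' - A t) + (α t' - α t) * ((i : ℝ) / n)| < 1 / n := by
  have hn' : (0 : ℝ) < n := by exact_mod_cast hn
  unfold bx at h
  have h1 := Int.abs_sub_lt_one_of_floor_eq_floor h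
  rw [lt_div_iff₀ hn']
  calc |(A t' - A t) + (α t' - α t) * ((i : ℝ) / n)| * n
      = |((A t' - A t) + (α t' - α t) * ((i : ℝ) / n)) * n| := by
        rw [abs_mul, abs_of_pos hn']
    _ = |(A t + α t * ((i : ℝ) / n)) * n - (A t' + α t' * ((i : ℝ) / n)) * n| := by
        rw [← abs_neg]; congr 1; ring
    _ < 1 := h1

/-- number of heights at which two lines with velocity difference `> d` are in one box -/
theorem card_heights {n : ℕ} (hn : 0 < n) {A α : ι → ℝ} {t t' : ι} {d : ℝ} (hd : 0 < d)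
    (hα : d ≤ |α t' - α t|) (P : ℕ → Prop) [DecidablePred P]
    (hP : ∀ i, P i → bx n A α i t = bx n A α i t') :
    (((range n).filter P).card : ℝ) ≤ 2 / d + 1 := by
  have hn' : (0 : ℝ) < n := by exact_mod_cast hn
  set F := (range n).filter P with hF
  rcases F.eq_empty_or_nonempty with h0 | h0
  · rw [h0]; simp only [card_empty, Nat.cast_zero]; positivity
  · set a := F.min' h0 with ha
    have haF : a ∈ F := F.min'_mem h0
    have hsub : F ⊆ Finset.Icc a (a + ⌊2 / d⌋₊) := by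
      intro i hi
      have h1 := bx_close hn (hP i (mem_filter.1 hi).2)
      have h2 := bx_close hn (hP a (mem_filter.1 haF).2)
      have hai : a ≤ i := F.min'_le i hi
      have h3 : |(α t' - α t) * (((i : ℝ) - a) / n)| < 2 / n := by
        have : (α t' - α t) * (((i : ℝ) - a) / n)
            = ((A t' - A t) + (α t' - α t) * ((i : ℝ) / n))
              - ((A t' - A t) + (α t' - α t) * ((a : ℝ) / n)) := by ring
        rw [this]
        calc _ ≤ |(A t' - A t) + (α t' - α t) * ((i : ℝ) / n)|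
              + |(A t' - A t) + (α t' - α t) * ((a : ℝ) / n)| := abs_sub _ _
          _ < 1 / n + 1 / n := by linarith
          _ = 2 / n := by ring
      have hia : (0 : ℝ) ≤ (i : ℝ) - a := by
        have : (a : ℝ) ≤ i := by exact_mod_cast hai
        linarith
      rw [abs_mul, abs_of_nonneg (div_nonneg hia hn'.le)] at h3
      have h4 : d * ((i : ℝ) - a) < 2 := by
        have h5 : d * (((i : ℝ) - a) / n) ≤ |α t' - α t| * (((i : ℝ) - a) / n) :=
          mul_le_mul_of_nonneg_right hα (div_nonneg hia hn'.le)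
        have h6 : d * (((i : ℝ) - a) / n) < 2 / n := lt_of_le_of_lt h5 h3
        have h7 : d * (((i : ℝ) - a) / n) * n < 2 / n * n := mul_lt_mul_of_pos_right h6 hn'
        have h8 : d * (((i : ℝ) - a) / n) * n = d * ((i : ℝ) - a) := by field_simp
        have h9 : (2 : ℝ) / n * n = 2 := by field_simp
        linarith
      have h10 : (i : ℝ) - a ≤ 2 / d := by
        rw [le_div_iff₀ hd]; nlinarith
      rw [Finset.mem_Icc]
      refine ⟨hai, ?_⟩
      have h11 : ((i - a : ℕ) : ℝ) ≤ 2 / d := by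
        rw [Nat.cast_sub hai]; exact h10
      have h12 : i - a ≤ ⌊2 / d⌋₊ := Nat.le_floor h11
      omega
    have hc : F.card ≤ ⌊2 / d⌋₊ + 1 := by
      calc F.card ≤ (Finset.Icc a (a + ⌊2 / d⌋₊)).card := card_le_card hsub
        _ = ⌊2 / d⌋₊ + 1 := by rw [Nat.card_Icc]; omega
    calc (F.card : ℝ) ≤ (⌊2 / d⌋₊ + 1 : ℕ) := by exact_mod_cast hc
      _ = (⌊2 / d⌋₊ : ℝ) + 1 := by push_cast; ring
      _ ≤ 2 / d + 1 := by
        have := Nat.floor_le (show (0 : ℝ) ≤ 2 / d by positivity)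
        linarith

/-- one pair: the number of common heights is at most a dyadic sum -/
theorem pair_dyadic {n : ℕ} (hn : 0 < n) {A α : ι → ℝ} {t t' : ι} {θ : ℝ} (hθ1 : θ ≤ 1)
    (hα : |α t' - α t| ≤ θ) :
    (((range n).filter fun i => bx n A α i t = bx n A α i t').card : ℝ) ≤
      ∑ k ∈ range (Nat.clog 2 ⌈(n : ℝ) * θ⌉₊ + 1),
        if |A t' - A t| ≤ (2 : ℝ) ^ (k + 1) / n ∧ |α t' - α t| ≤ (2 : ℝ) ^ (k + 1) / n then
          6 * n / (2 : ℝ) ^ k else 0 := by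
  classical
  have hn' : (0 : ℝ) < n := by exact_mod_cast hn
  have hnn : ∀ k : ℕ, (0 : ℝ) ≤
      if |A t' - A t| ≤ (2 : ℝ) ^ (k + 1) / n ∧ |α t' - α t| ≤ (2 : ℝ) ^ (k + 1) / n then
          6 * n / (2 : ℝ) ^ k else 0 := by
    intro k; split_ifs <;> positivity
  set F := (range n).filter fun i => bx n A α i t = bx n A α i t' with hF
  rcases F.eq_empty_or_nonempty with h0 | ⟨i, hi⟩
  · rw [h0]; simp only [card_empty, Nat.cast_zero]
    exact sum_nonneg fun k _ => hnn k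
  · have hi' := bx_close hn (mem_filter.1 hi).2
    have hin : ((i : ℝ) / n) ≤ 1 := by
      rw [div_le_one hn']
      have := mem_range.1 (mem_filter.1 hi).1
      exact_mod_cast this.le
    have hin0 : (0 : ℝ) ≤ (i : ℝ) / n := by positivity
    have hA : |A t' - A t| ≤ 1 / n + |α t' - α t| := by
      have h1 : A t' - A t = ((A t' - A t) + (α t' - α t) * ((i : ℝ) / n))
          - (α t' - α t) * ((i : ℝ) / n) := by ring
      rw [h1]
      calc _ ≤ |(A t' - A t) + (α t' - α t) * ((i : ℝ) / n)|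
            + |(α t' - α t) * ((i : ℝ) / n)| := abs_sub _ _
        _ ≤ 1 / n + |α t' - α t| := by
          rw [abs_mul, abs_of_nonneg hin0]
          have := mul_le_mul_of_nonneg_left hin (abs_nonneg (α t' - α t))
          linarith
    set x : ℝ := n * |α t' - α t| with hx
    set k := Nat.clog 2 ⌈x⌉₊ with hk
    have hkK : k ∈ range (Nat.clog 2 ⌈(n : ℝ) * θ⌉₊ + 1) := by
      rw [mem_range]
      have : k ≤ Nat.clog 2 ⌈(n : ℝ) * θ⌉₊ := by
        apply Nat.clog_mono_right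
        apply Nat.ceil_mono
        exact mul_le_mul_of_nonneg_left hα hn'.le
      omega
    have hxk : x ≤ (2 : ℝ) ^ k := by
      have h1 : ⌈x⌉₊ ≤ 2 ^ k := Nat.le_pow_clog (by norm_num) _
      calc x ≤ ⌈x⌉₊ := Nat.le_ceil x
        _ ≤ ((2 ^ k : ℕ) : ℝ) := by exact_mod_cast h1
        _ = (2 : ℝ) ^ k := by push_cast; ring
    have hαk : |α t' - α t| ≤ (2 : ℝ) ^ k / n := by
      rw [le_div_iff₀ hn', mul_comm]; exact hxk
    have h1k : (1 : ℝ) ≤ 2 ^ k := one_le_pow₀ (by norm_num)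
    have hcond : |A t' - A t| ≤ (2 : ℝ) ^ (k + 1) / n ∧
        |α t' - α t| ≤ (2 : ℝ) ^ (k + 1) / n := by
      have h2 : (2 : ℝ) ^ (k + 1) / n = (2 : ℝ) ^ k / n + (2 : ℝ) ^ k / n := by
        rw [pow_succ]; ring
      have h3 : (0 : ℝ) ≤ (2 : ℝ) ^ k / n := by positivity
      have h4 : (1 : ℝ) / n ≤ (2 : ℝ) ^ k / n := div_le_div_of_nonneg_right h1k hn'.le
      constructor
      · rw [h2]; linarith
      · rw [h2]; linarith
    have hFn : (F.card : ℝ) ≤ n := by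
      have : F.card ≤ (range n).card := card_le_card (filter_subset _ _)
      rw [card_range] at this
      exact_mod_cast this
    have hmain : (F.card : ℝ) ≤ 6 * n / (2 : ℝ) ^ k := by
      rcases Nat.eq_zero_or_pos k with hk0 | hk0
      · rw [hk0, pow_zero, div_one]
        linarith
      · have h5 : 1 < ⌈x⌉₊ := by
          by_contra hcon
          have : Nat.clog 2 ⌈x⌉₊ = 0 := Nat.clog_of_right_le_one (by omega) 2
          omega
        have h6 : 2 ^ (k - 1) < ⌈x⌉₊ := by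
          have := Nat.pow_pred_clog_lt_self (b := 2) (by norm_num) h5
          simpa [hk, Nat.pred_eq_sub_one] using this
        have h7 : (2 : ℝ) ^ (k - 1) < x := by
          have := Nat.lt_ceil.1 h6
          push_cast at this
          exact this
        have h8 : (2 : ℝ) ^ k = 2 * 2 ^ (k - 1) := by
          obtain ⟨m, hm⟩ : ∃ m, k = m + 1 := ⟨k - 1, by omega⟩
          rw [hm, Nat.add_sub_cancel, pow_succ]; ring
        have hd : 0 < (2 : ℝ) ^ (k - 1) / n := by positivity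
        have h9 : (2 : ℝ) ^ (k - 1) / n ≤ |α t' - α t| := by
          rw [div_le_iff₀ hn', mul_comm]; exact h7.le
        have h10 := card_heights hn hd h9 (fun i => bx n A α i t = bx n A α i t')
          (fun i hi => hi)
        have h11 : (2 : ℝ) / ((2 : ℝ) ^ (k - 1) / n) = 4 * n / (2 : ℝ) ^ k := by
          rw [h8]; field_simp; norm_num
        have h12 : (2 : ℝ) ^ k ≤ 2 * n * |α t' - α t| := by rw [h8]; nlinarith
        have h13 : (2 : ℝ) ^ k ≤ 2 * n := by nlinarith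
        have h14 : (1 : ℝ) ≤ 2 * n / (2 : ℝ) ^ k := by
          rw [le_div_iff₀ (by positivity)]; linarith
        have h15 : (6 : ℝ) * n / 2 ^ k = 4 * n / 2 ^ k + 2 * n / 2 ^ k := by ring
        rw [h15]
        calc (F.card : ℝ) ≤ 2 / ((2 : ℝ) ^ (k - 1) / n) + 1 := h10
          _ ≤ _ := by rw [h11]; linarith
    calc (F.card : ℝ) ≤ 6 * n / (2 : ℝ) ^ k := hmain
      _ = if |A t' - A t| ≤ (2 : ℝ) ^ (k + 1) / n ∧ |α t' - α t| ≤ (2 : ℝ) ^ (k + 1) / n then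
          6 * n / (2 : ℝ) ^ k else 0 := by rw [if_pos hcond]
      _ ≤ _ := single_le_sum (f := fun k : ℕ =>
          if |A t' - A t| ≤ (2 : ℝ) ^ (k + 1) / n ∧ |α t' - α t| ≤ (2 : ℝ) ^ (k + 1) / n then
          6 * n / (2 : ℝ) ^ k else 0) (fun k _ => hnn k) hkK

/-- the constant of the angular sum -/
noncomputable def Cq (q : ℝ) : ℝ := 12 * 4 ^ q / (1 - 2 ^ (-q))

theorem Cq_pos {q : ℝ} (hq : 0 < q) : 0 < Cq q := by
  unfold Cq
  have h1 : (2 : ℝ) ^ (-q) < 1 := Real.rpow_lt_one_of_one_lt_of_neg (by norm_num) (by linarith)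
  have h2 : (0 : ℝ) < 4 ^ q := Real.rpow_pos_of_pos (by norm_num) _
  apply div_pos (by positivity) (by linarith)

/-- dyadic geometric sum -/
theorem geo_sum {q : ℝ} (hq : 0 < q) (n : ℝ) (hn : 0 < n) (K : ℕ) :
    ∑ k ∈ range (K + 1), ((2 : ℝ) ^ k / n) ^ q ≤ ((2 : ℝ) ^ K / n) ^ q / (1 - 2 ^ (-q)) := by
  have h1 : (2 : ℝ) ^ (-q) < 1 := Real.rpow_lt_one_of_one_lt_of_neg (by norm_num) (by linarith)
  have h0 : (0 : ℝ) < 2 ^ (-q) := Real.rpow_pos_of_pos (by norm_num) _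
  induction K with
  | zero =>
    simp only [zero_add, range_one, sum_singleton, pow_zero]
    have h3 : (0 : ℝ) ≤ (1 / n) ^ q := by positivity
    rw [le_div_iff₀ (by linarith)]
    nlinarith
  | succ K ih =>
    rw [sum_range_succ]
    have h4 : ((2 : ℝ) ^ (K + 1) / n) ^ q * 2 ^ (-q) = ((2 : ℝ) ^ K / n) ^ q := by
      have h5 : (2 : ℝ) ^ K / n = ((2 : ℝ) ^ (K + 1) / n) * 2⁻¹ := by rw [pow_succ]; ring
      rw [h5, Real.mul_rpow (by positivity) (by norm_num), Real.rpow_neg (by norm_num),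
        Real.inv_rpow (by norm_num)]
    rw [← h4] at ih
    have h6 : (0 : ℝ) ≤ ((2 : ℝ) ^ (K + 1) / n) ^ q := by positivity
    have hne : (1 : ℝ) - 2 ^ (-q) ≠ 0 := by linarith
    calc _ ≤ ((2 : ℝ) ^ (K + 1) / n) ^ q * 2 ^ (-q) / (1 - 2 ^ (-q))
          + ((2 : ℝ) ^ (K + 1) / n) ^ q := by linarith
      _ = _ := by field_simp; ring

/-- D-max of one class in the planar chart -/
def DM (S : Finset ι) (A α : ι → ℝ) (n : ℕ) (W q : ℝ) : Prop :=
  ∀ t ∈ S, ∀ k : ℕ, (2 : ℝ) ^ k ≤ 4 * n →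
    ((S.filter fun t' => |A t' - A t| ≤ (2 : ℝ) ^ k / n ∧
      |α t' - α t| ≤ (2 : ℝ) ^ k / n).card : ℝ) ≤ W * ((2 : ℝ) ^ k / n) ^ (1 + q) * S.card

/-- small angles, one line -/
theorem small_one {S : Finset ι} {A α : ι → ℝ} {n : ℕ} (hn : 0 < n) {W q θ : ℝ} (hW : 0 ≤ W)
    (hq : 0 < q) (hD : DM S A α n W q) (hθ : 1 ≤ θ * n) (hθ1 : θ ≤ 1) {t : ι} (ht : t ∈ S) :
    ∑ t' ∈ S.filter (fun t' => |α t' - α t| ≤ θ),
      (((range n).filter fun i => bx n A α i t = bx n A α i t').card : ℝ) ≤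
      Cq q * W * θ ^ q * S.card := by
  classical
  have hn' : (0 : ℝ) < n := by exact_mod_cast hn
  have hθ0 : 0 < θ := by
    by_contra h
    have : θ * n ≤ 0 := mul_nonpos_of_nonpos_of_nonneg (not_lt.1 h) hn'.le
    linarith
  set K := Nat.clog 2 ⌈(n : ℝ) * θ⌉₊ with hK
  have hnθ : (n : ℝ) * θ ≤ n := by nlinarith
  have hK2 : (2 : ℝ) ^ K ≤ 2 * (n * θ) := by
    rcases Nat.eq_zero_or_pos K with h0 | h0
    · rw [h0, pow_zero]; linarith
    · have h5 : 1 < ⌈(n : ℝ) * θ⌉₊ := by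
        by_contra hcon
        have : Nat.clog 2 ⌈(n : ℝ) * θ⌉₊ = 0 := Nat.clog_of_right_le_one (by omega) 2
        omega
      have h6 : 2 ^ (K - 1) < ⌈(n : ℝ) * θ⌉₊ := by
        have := Nat.pow_pred_clog_lt_self (b := 2) (by norm_num) h5
        simpa [hK, Nat.pred_eq_sub_one] using this
      have h7 : (2 : ℝ) ^ (K - 1) < n * θ := by
        have := Nat.lt_ceil.1 h6
        push_cast at this
        exact this
      have h8 : (2 : ℝ) ^ K = 2 * 2 ^ (K - 1) := by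
        obtain ⟨m, hm⟩ : ∃ m, K = m + 1 := ⟨K - 1, by omega⟩
        rw [hm, Nat.add_sub_cancel, pow_succ]; ring
      rw [h8]; linarith
  have hstep : ∑ t' ∈ S.filter (fun t' => |α t' - α t| ≤ θ),
      (((range n).filter fun i => bx n A α i t = bx n A α i t').card : ℝ) ≤
      ∑ k ∈ range (K + 1), 6 * n / (2 : ℝ) ^ k *
        (S.filter fun t' => |A t' - A t| ≤ (2 : ℝ) ^ (k + 1) / n ∧
          |α t' - α t| ≤ (2 : ℝ) ^ (k + 1) / n).card := by
    calc _ ≤ ∑ t' ∈ S.filter (fun t' => |α t' - α t| ≤ θ), ∑ k ∈ range (K + 1),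
          (if |A t' - A t| ≤ (2 : ℝ) ^ (k + 1) / n ∧ |α t' - α t| ≤ (2 : ℝ) ^ (k + 1) / n then
          6 * n / (2 : ℝ) ^ k else 0) :=
          sum_le_sum fun t' h => pair_dyadic hn hθ1 (mem_filter.1 h).2
      _ ≤ ∑ t' ∈ S, ∑ k ∈ range (K + 1),
          (if |A t' - A t| ≤ (2 : ℝ) ^ (k + 1) / n ∧ |α t' - α t| ≤ (2 : ℝ) ^ (k + 1) / n then
          6 * n / (2 : ℝ) ^ k else 0) := by
          apply sum_le_sum_of_subset_of_nonneg (filter_subset _ _)
          intro t' _ _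
          apply sum_nonneg
          intro k _
          split_ifs <;> positivity
      _ = ∑ k ∈ range (K + 1), ∑ t' ∈ S,
          (if |A t' - A t| ≤ (2 : ℝ) ^ (k + 1) / n ∧ |α t' - α t| ≤ (2 : ℝ) ^ (k + 1) / n then
          6 * n / (2 : ℝ) ^ k else 0) := sum_comm
      _ = _ := by
          apply sum_congr rfl
          intro k _
          rw [← sum_filter, sum_const, nsmul_eq_mul, mul_comm]
  refine hstep.trans ?_
  have hterm : ∀ k ∈ range (K + 1), 6 * n / (2 : ℝ) ^ k *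
        (S.filter fun t' => |A t' - A t| ≤ (2 : ℝ) ^ (k + 1) / n ∧
          |α t' - α t| ≤ (2 : ℝ) ^ (k + 1) / n).card ≤
        12 * 2 ^ q * W * S.card * ((2 : ℝ) ^ k / n) ^ q := by
    intro k hk
    have hkK : k ≤ K := by have := mem_range.1 hk; omega
    have h1 : (2 : ℝ) ^ (k + 1) ≤ 4 * n := by
      have h2 : (2 : ℝ) ^ k ≤ 2 ^ K := pow_le_pow_right₀ (by norm_num) hkK
      rw [pow_succ]; nlinarith
    have h3 := hD t ht (k + 1) h1
    have h4 : (0 : ℝ) < (2 : ℝ) ^ k := by positivity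
    have h5 : ((2 : ℝ) ^ (k + 1) / n) ^ (1 + q) = (2 * 2 ^ q) * ((2 : ℝ) ^ k / n) *
        ((2 : ℝ) ^ k / n) ^ q := by
      have h6 : (2 : ℝ) ^ (k + 1) / n = 2 * ((2 : ℝ) ^ k / n) := by rw [pow_succ]; ring
      have h7 : (0 : ℝ) < (2 : ℝ) ^ k / n := by positivity
      rw [h6, Real.mul_rpow (by norm_num) h7.le, Real.rpow_add (by norm_num),
        Real.rpow_add h7, Real.rpow_one, Real.rpow_one]
      ring
    rw [h5] at h3
    calc _ ≤ 6 * n / (2 : ℝ) ^ k * (W * ((2 * 2 ^ q) * ((2 : ℝ) ^ k / n) *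
        ((2 : ℝ) ^ k / n) ^ q) * S.card) :=
          mul_le_mul_of_nonneg_left h3 (by positivity)
      _ = _ := by field_simp; ring
  calc _ ≤ ∑ k ∈ range (K + 1), 12 * 2 ^ q * W * S.card * ((2 : ℝ) ^ k / n) ^ q :=
        sum_le_sum hterm
    _ = 12 * 2 ^ q * W * S.card * ∑ k ∈ range (K + 1), ((2 : ℝ) ^ k / n) ^ q := by
        rw [mul_sum]
    _ ≤ 12 * 2 ^ q * W * S.card * (((2 : ℝ) ^ K / n) ^ q / (1 - 2 ^ (-q))) := by
        apply mul_le_mul_of_nonneg_left (geo_sum hq _ hn' K)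
        have : (0 : ℝ) < 2 ^ q := Real.rpow_pos_of_pos (by norm_num) _
        positivity
    _ ≤ 12 * 2 ^ q * W * S.card * ((2 ^ q * θ ^ q) / (1 - 2 ^ (-q))) := by
        have h1 : (2 : ℝ) ^ (-q) < 1 :=
          Real.rpow_lt_one_of_one_lt_of_neg (by norm_num) (by linarith)
        have h2 : ((2 : ℝ) ^ K / n) ^ q ≤ 2 ^ q * θ ^ q := by
          rw [← Real.mul_rpow (by norm_num) hθ0.le]
          apply Real.rpow_le_rpow (by positivity) _ hq.le
          rw [div_le_iff₀ hn']; nlinarith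
        have : (0 : ℝ) < 2 ^ q := Real.rpow_pos_of_pos (by norm_num) _
        apply mul_le_mul_of_nonneg_left _ (by positivity)
        exact div_le_div_of_nonneg_right h2 (by linarith)
    _ = Cq q * W * θ ^ q * S.card := by
        unfold Cq
        have h4 : (4 : ℝ) ^ q = 2 ^ q * 2 ^ q := by
          rw [← Real.mul_rpow (by norm_num) (by norm_num)]; norm_num
        rw [h4]; ring

open Classical in
/-- Cauchy-Schwarz over the boxes of one height -/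
theorem cs_one {S : Finset ι} {A α : ι → ℝ} {n : ℕ} (hn : 0 < n) (hA : ∀ t ∈ S, |A t| ≤ 1)
    (hα : ∀ t ∈ S, |α t| ≤ 1) {i : ℕ} (hi : i < n) (P : ι → Prop) :
    (((S.filter P).card : ℝ)) ^ 2 ≤ 5 * n *
      (((S ×ˢ S).filter fun p => P p.1 ∧ P p.2 ∧
        bx n A α i p.1 = bx n A α i p.2).card : ℝ) := by
  have hn' : (0 : ℝ) < n := by exact_mod_cast hn
  set Γ := S.filter P with hΓ
  set B : Finset ℤ := Finset.Icc (-(2 * n : ℤ)) (2 * n) with hB
  have hmem : ∀ t ∈ Γ, bx n A α i t ∈ B := by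
    intro t ht
    have htS := (mem_filter.1 ht).1
    have h1 := hA t htS
    have h2 := hα t htS
    have hin : ((i : ℝ) / n) ≤ 1 := by
      rw [div_le_one hn']; exact_mod_cast hi.le
    have hin0 : (0 : ℝ) ≤ (i : ℝ) / n := by positivity
    have h3 : |α t * ((i : ℝ) / n)| ≤ 1 := by
      rw [abs_mul, abs_of_nonneg hin0]
      nlinarith [abs_nonneg (α t)]
    have h4 : |A t + α t * ((i : ℝ) / n)| ≤ 2 := (abs_add_le _ _).trans (by linarith)
    rw [abs_le] at h4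
    have h5 : (-(2 * n : ℤ) : ℝ) ≤ (A t + α t * ((i : ℝ) / n)) * n := by
      push_cast; nlinarith [h4.1]
    have h6 : (A t + α t * ((i : ℝ) / n)) * n ≤ ((2 * n : ℤ) : ℝ) := by
      push_cast; nlinarith [h4.2]
    rw [hB, Finset.mem_Icc]
    constructor
    · unfold bx
      apply Int.le_floor.2
      push_cast at h5 ⊢
      exact h5
    · unfold bx
      have := (Int.floor_le ((A t + α t * ((i : ℝ) / n)) * n)).trans h6
      exact_mod_cast this
  have hcardB : (B.card : ℝ) ≤ 5 * n := by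
    have h1 : B.card = 4 * n + 1 := by
      rw [hB, Int.card_Icc]; omega
    rw [h1]
    have h2 : (1 : ℝ) ≤ n := by exact_mod_cast hn
    push_cast; linarith
  have h1 : Γ.card = ∑ b ∈ B, (Γ.filter fun t => bx n A α i t = b).card :=
    card_eq_sum_card_fiberwise hmem
  have h2 : ((S ×ˢ S).filter fun p => P p.1 ∧ P p.2 ∧
        bx n A α i p.1 = bx n A α i p.2).card =
      ∑ b ∈ B, ((Γ.filter fun t => bx n A α i t = b).card) ^ 2 := by
    rw [card_eq_sum_card_fiberwise (f := fun p : ι × ι => bx n A α i p.1) (t := B)]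
    · apply sum_congr rfl
      intro b _
      rw [sq, ← card_product]
      congr 1
      ext p
      simp only [mem_filter, mem_product, hΓ]
      constructor
      · rintro ⟨⟨⟨h1, h2⟩, h3, h4, h5⟩, h6⟩
        exact ⟨⟨⟨h1, h3⟩, h6⟩, ⟨h2, h4⟩, by rw [← h5, h6]⟩
      · rintro ⟨⟨⟨h1, h3⟩, h6⟩, ⟨h2, h4⟩, h7⟩
        exact ⟨⟨⟨h1, h2⟩, h3, h4, by rw [h6, h7]⟩, h6⟩
    · intro p hp
      have := (mem_filter.1 hp)
      exact hmem p.1 (mem_filter.2 ⟨(mem_product.1 this.1).1, this.2.1⟩)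
  have h3 := sq_sum_le_card_mul_sum_sq (s := B)
    (f := fun b => ((Γ.filter fun t => bx n A α i t = b).card : ℝ))
  have h4 : ((Γ.card : ℝ)) = ∑ b ∈ B, ((Γ.filter fun t => bx n A α i t = b).card : ℝ) := by
    exact_mod_cast h1
  have h5 : ((((S ×ˢ S).filter fun p => P p.1 ∧ P p.2 ∧
        bx n A α i p.1 = bx n A α i p.2).card : ℕ) : ℝ) =
      ∑ b ∈ B, ((Γ.filter fun t => bx n A α i t = b).card : ℝ) ^ 2 := by
    exact_mod_cast h2
  rw [h4, h5]
  refine h3.trans ?_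
  exact mul_le_mul_of_nonneg_right hcardB (sum_nonneg fun _ _ => sq_nonneg _)

open Classical in
/-- (L3) crossing pairs at good incidences -/
theorem cross_good {S : Finset ι} {A α : ι → ℝ} {n : ℕ} (hn : 0 < n) {W q θ c : ℝ}
    (hW : 0 ≤ W) (hq : 0 < q) (hA : ∀ t ∈ S, |A t| ≤ 1) (hα : ∀ t ∈ S, |α t| ≤ 1)
    (hD : DM S A α n W q) (G : ι → ℕ → Prop) (hc : 0 ≤ c)
    (hG : c * n * S.card ≤ (((S ×ˢ range n).filter fun p => G p.1 p.2).card : ℝ))
    (hθ : 1 ≤ θ * n) (hθ1 : θ ≤ 1) (hsm : Cq q * W * θ ^ q ≤ c ^ 2 / 10) :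
    c ^ 2 / 30 * θ * (S.card : ℝ) ^ 2 ≤
      (((S ×ˢ S).filter fun p => ∃ i < n, G p.1 i ∧ G p.2 i ∧
        bx n A α i p.1 = bx n A α i p.2 ∧ θ < |α p.2 - α p.1|).card : ℝ) := by
  have hn' : (0 : ℝ) < n := by exact_mod_cast hn
  have hθ0 : 0 < θ := by
    by_contra h
    have : θ * n ≤ 0 := mul_nonpos_of_nonpos_of_nonneg (not_lt.1 h) hn'.le
    linarith
  set M : ℝ := (S.card : ℝ) with hM
  have hM0 : 0 ≤ M := by positivity
  -- number of good incidences, height by height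
  have h1 : (((S ×ˢ range n).filter fun p => G p.1 p.2).card : ℝ) =
      ∑ i ∈ range n, ((S.filter fun t => G t i).card : ℝ) := by
    have : ((S ×ˢ range n).filter fun p => G p.1 p.2).card =
        ∑ i ∈ range n, (S.filter fun t => G t i).card := by
      rw [card_filter, sum_product_right]
      apply sum_congr rfl
      intro i _
      rw [card_filter]
    exact_mod_cast this
  rw [h1] at hG
  have h2 : (c * n * M) ^ 2 ≤ n * ∑ i ∈ range n, ((S.filter fun t => G t i).card : ℝ) ^ 2 := by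
    have h3 := sq_sum_le_card_mul_sum_sq (s := range n)
      (f := fun i => ((S.filter fun t => G t i).card : ℝ))
    rw [card_range] at h3
    refine le_trans ?_ h3
    exact pow_le_pow_left₀ (by positivity) hG 2
  set Lf : ℕ → ℝ := fun i => (((S ×ˢ S).filter fun p => G p.1 i ∧ G p.2 i ∧
        bx n A α i p.1 = bx n A α i p.2).card : ℝ) with hLf
  have h3 : ∑ i ∈ range n, ((S.filter fun t => G t i).card : ℝ) ^ 2 ≤
      ∑ i ∈ range n, 5 * n * Lf i :=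
    sum_le_sum fun i hi => cs_one hn hA hα (mem_range.1 hi) (fun t => G t i)
  rw [← mul_sum] at h3
  have h4 : c ^ 2 / 5 * M ^ 2 ≤ ∑ i ∈ range n, Lf i := by
    have h5 : (c * n * M) ^ 2 ≤ n * (5 * n * ∑ i ∈ range n, Lf i) :=
      h2.trans (mul_le_mul_of_nonneg_left h3 hn'.le)
    have h6 : (n : ℝ) ^ 2 * (c ^ 2 * M ^ 2) ≤ n ^ 2 * (5 * ∑ i ∈ range n, Lf i) := by
      nlinarith
    have h7 := le_of_mul_le_mul_left h6 (by positivity)
    linarith
  -- exchange the sums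
  have h5 : ∑ i ∈ range n, Lf i = ∑ p ∈ S ×ˢ S,
      (((range n).filter fun i => G p.1 i ∧ G p.2 i ∧
        bx n A α i p.1 = bx n A α i p.2).card : ℝ) := by
    have : ∑ i ∈ range n, ((S ×ˢ S).filter fun p => G p.1 i ∧ G p.2 i ∧
        bx n A α i p.1 = bx n A α i p.2).card = ∑ p ∈ S ×ˢ S,
      ((range n).filter fun i => G p.1 i ∧ G p.2 i ∧
        bx n A α i p.1 = bx n A α i p.2).card := by
      simp_rw [card_filter]
      exact sum_comm
    have h55 : ∑ i ∈ range n, Lf i = ((∑ i ∈ range n, ((S ×ˢ S).filter fun p => G p.1 i ∧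
        G p.2 i ∧ bx n A α i p.1 = bx n A α i p.2).card : ℕ) : ℝ) := by
      rw [Nat.cast_sum]
    rw [h55, this, Nat.cast_sum]
  -- small angles
  have h6 : ∑ p ∈ (S ×ˢ S).filter (fun p => |α p.2 - α p.1| ≤ θ),
      (((range n).filter fun i => G p.1 i ∧ G p.2 i ∧
        bx n A α i p.1 = bx n A α i p.2).card : ℝ) ≤ c ^ 2 / 10 * M ^ 2 := by
    calc _ ≤ ∑ p ∈ (S ×ˢ S).filter (fun p => |α p.2 - α p.1| ≤ θ),
          (((range n).filter fun i => bx n A α i p.1 = bx n A α i p.2).card : ℝ) := by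
          apply sum_le_sum
          intro p _
          exact_mod_cast card_le_card (fun i hi => by
            rw [mem_filter] at hi ⊢
            exact ⟨hi.1, hi.2.2.2⟩)
      _ = ∑ t ∈ S, ∑ t' ∈ S.filter (fun t' => |α t' - α t| ≤ θ),
          (((range n).filter fun i => bx n A α i t = bx n A α i t').card : ℝ) := by
          rw [sum_filter, sum_product]
          apply sum_congr rfl
          intro t _
          rw [sum_filter]
      _ ≤ ∑ t ∈ S, Cq q * W * θ ^ q * S.card :=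
          sum_le_sum fun t ht => small_one hn hW hq hD hθ hθ1 ht
      _ = Cq q * W * θ ^ q * M ^ 2 := by
          rw [sum_const, nsmul_eq_mul]; ring
      _ ≤ c ^ 2 / 10 * M ^ 2 := mul_le_mul_of_nonneg_right hsm (by positivity)
  -- large angles
  set Q := (S ×ˢ S).filter fun p => ∃ i < n, G p.1 i ∧ G p.2 i ∧
        bx n A α i p.1 = bx n A α i p.2 ∧ θ < |α p.2 - α p.1| with hQ
  have h7 : ∑ p ∈ (S ×ˢ S).filter (fun p => ¬ |α p.2 - α p.1| ≤ θ),
      (((range n).filter fun i => G p.1 i ∧ G p.2 i ∧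
        bx n A α i p.1 = bx n A α i p.2).card : ℝ) ≤ Q.card * (3 / θ) := by
    calc _ ≤ ∑ p ∈ Q, (3 / θ : ℝ) := by
          rw [← sum_filter_add_sum_filter_not ((S ×ˢ S).filter
            (fun p => ¬ |α p.2 - α p.1| ≤ θ)) (fun p => p ∈ Q)]
          have hz : ∑ p ∈ ((S ×ˢ S).filter (fun p => ¬ |α p.2 - α p.1| ≤ θ)).filter
              (fun p => ¬ p ∈ Q), (((range n).filter fun i => G p.1 i ∧ G p.2 i ∧
              bx n A α i p.1 = bx n A α i p.2).card : ℝ) = 0 := by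
            apply sum_eq_zero
            intro p hp
            rw [mem_filter, mem_filter] at hp
            have : ((range n).filter fun i => G p.1 i ∧ G p.2 i ∧
              bx n A α i p.1 = bx n A α i p.2) = ∅ := by
              rw [filter_eq_empty_iff]
              rintro i hi ⟨ha, hb, hcc⟩
              exact hp.2 (mem_filter.2 ⟨hp.1.1, i, mem_range.1 hi, ha, hb, hcc,
                not_le.1 hp.1.2⟩)
            rw [this]; simp
          rw [hz, add_zero]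
          have hsub : ((S ×ˢ S).filter (fun p => ¬ |α p.2 - α p.1| ≤ θ)).filter
              (fun p => p ∈ Q) ⊆ Q := fun p hp => (mem_filter.1 hp).2
          calc _ ≤ ∑ p ∈ (((S ×ˢ S).filter (fun p => ¬ |α p.2 - α p.1| ≤ θ)).filter
                (fun p => p ∈ Q)), (3 / θ : ℝ) := by
                apply sum_le_sum
                intro p hp
                rw [mem_filter, mem_filter] at hp
                have h8 := card_heights hn hθ0 (not_le.1 hp.1.2).le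
                  (fun i => G p.1 i ∧ G p.2 i ∧ bx n A α i p.1 = bx n A α i p.2)
                  (fun i hi => hi.2.2)
                have h9 : (1 : ℝ) ≤ 1 / θ := by rw [le_div_iff₀ hθ0]; linarith
                have h10 : (3 : ℝ) / θ = 2 / θ + 1 / θ := by ring
                rw [h10]; linarith
            _ ≤ ∑ p ∈ Q, (3 / θ : ℝ) := by
                apply sum_le_sum_of_subset_of_nonneg hsub
                intro _ _ _
                positivity
      _ = Q.card * (3 / θ) := by rw [sum_const, nsmul_eq_mul]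
  have h8 : c ^ 2 / 10 * M ^ 2 ≤ Q.card * (3 / θ) := by
    rw [h5, ← sum_filter_add_sum_filter_not (S ×ˢ S) (fun p => |α p.2 - α p.1| ≤ θ)] at h4
    linarith
  have h9 : (Q.card : ℝ) * (3 / θ) * (θ / 3) = Q.card := by field_simp
  calc c ^ 2 / 30 * θ * M ^ 2 = c ^ 2 / 10 * M ^ 2 * (θ / 3) := by ring
    _ ≤ Q.card * (3 / θ) * (θ / 3) := mul_le_mul_of_nonneg_right h8 (by positivity)
    _ = Q.card := h9


end Crest.Agent.R136.Cr318
end

-- ▼ part R136/Cr4_18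
section

/-!
# R136, PLAN 2, (C2): transversal crossing pairs in the classes of one system (helper18)

`cross_core` : one system (labels `v`, frames `e`), any goodness `G t z` of incidences which holds for
three quarters of the heights of every line; every quarter `Q` of the lines contains
`≥ θ / (4000 W) * #P * M` crossing pairs.  `same_core` : the trivial version.
-/

set_option autoImplicit false
set_option linter.unusedVariables false

open Finset

namespace Crest.Agent.R136.Cr418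

open Crest.Agent.R136.Sh605 Crest.Agent.R136.Cr318

/-- abstract form -/
theorem rich_aux {I N : Finset ℕ} {m : ℕ → ℝ} {p x W M : ℝ} (hW0 : 0 < W) (hM : 0 < M)
    (hIN : I ⊆ N) (h1 : (N.card : ℝ) * M ≤ W * p)
    (hx : x = ∑ c ∈ I, m c) (hp : p ≤ 4 * x) (hm : ∀ c, 0 ≤ m c)
    [DecidablePred fun c => M ≤ 8 * W * m c] :
    p * M ≤ 64 * W * ∑ c ∈ I.filter (fun c => M ≤ 8 * W * m c), m c ^ 2 := by
  set R := I.filter (fun c => M ≤ 8 * W * m c) with hR
  set Z := I.filter (fun c => ¬ M ≤ 8 * W * m c) with hZ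
  have h3 : ∑ c ∈ R, m c + ∑ c ∈ Z, m c = ∑ c ∈ I, m c :=
    sum_filter_add_sum_filter_not _ _ _
  have h4 : 8 * W * ∑ c ∈ Z, m c ≤ W * p := by
    rw [mul_sum]
    calc ∑ c ∈ Z, 8 * W * m c ≤ ∑ _c ∈ Z, M :=
          sum_le_sum fun c hc => (not_le.1 (mem_filter.1 hc).2).le
      _ = (Z.card : ℝ) * M := by rw [sum_const, nsmul_eq_mul]
      _ ≤ (N.card : ℝ) * M := by
          apply mul_le_mul_of_nonneg_right _ hM.le
          exact_mod_cast card_le_card ((filter_subset _ _).trans hIN)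
      _ ≤ W * p := h1
  have h5 : 8 * ∑ c ∈ Z, m c ≤ p := by
    refine le_of_mul_le_mul_left ?_ hW0
    calc W * (8 * ∑ c ∈ Z, m c) = 8 * W * ∑ c ∈ Z, m c := by ring
      _ ≤ _ := h4
  have h7 : p ≤ 8 * ∑ c ∈ R, m c := by
    rw [← h3] at hx
    linarith
  calc p * M ≤ (8 * ∑ c ∈ R, m c) * M := mul_le_mul_of_nonneg_right h7 hM.le
    _ = 8 * ∑ c ∈ R, M * m c := by rw [← mul_sum]; ring
    _ ≤ 8 * ∑ c ∈ R, 8 * W * m c ^ 2 := by
        apply mul_le_mul_of_nonneg_left _ (by norm_num)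
        refine sum_le_sum fun c hc => ?_
        have h8 := (mem_filter.1 hc).2
        calc M * m c ≤ (8 * W * m c) * m c := mul_le_mul_of_nonneg_right h8 (hm c)
          _ = _ := by ring
    _ = _ := by rw [← mul_sum]; ring

open Classical in
/-- the lines of `Q` in the classes which are poor in `Q` are at most half of `Q` -/
theorem rich {P Q : Finset ℕ} {v : ℕ → ℕ} {W M : ℝ} (hW : 1 ≤ W) (hM : 0 < M)
    (hf : ∀ t ∈ P, M ≤ W * ((P.filter fun s => v s = v t).card : ℝ)) (hQ : Q ⊆ P)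
    (hc : P.card ≤ 4 * Q.card) :
    (P.card : ℝ) * M ≤ 64 * W * ∑ c ∈ (Q.image v).filter
      (fun c => M ≤ 8 * W * ((Q.filter fun t => v t = c).card : ℝ)),
        ((Q.filter fun t => v t = c).card : ℝ) ^ 2 := by
  set I := Q.image v with hI
  have hQI : (Q.card : ℝ) = ∑ c ∈ I, ((Q.filter fun t => v t = c).card : ℝ) := by
    have h2 : Q.card = ∑ c ∈ I, (Q.filter fun t => v t = c).card := card_eq_sum_card_image v Q
    exact_mod_cast h2
  have hW0 : 0 < W := by linarith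
  have hIP : I ⊆ P.image v := image_subset_image hQ
  have h1 : ((P.image v).card : ℝ) * M ≤ W * P.card := by
    have h2 : P.card = ∑ c ∈ P.image v, (P.filter fun t => v t = c).card :=
      card_eq_sum_card_image v P
    have h3 : (P.card : ℝ) = ∑ c ∈ P.image v, ((P.filter fun t => v t = c).card : ℝ) := by
      exact_mod_cast h2
    rw [h3, mul_sum, ← nsmul_eq_mul, ← sum_const]
    refine sum_le_sum fun c hcc => ?_
    obtain ⟨t, ht, rfl⟩ := mem_image.1 hcc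
    exact hf t ht
  exact rich_aux (I := I) (N := P.image v) (m := fun c => ((Q.filter fun t => v t = c).card : ℝ))
    hW0 hM hIP h1 hQI (by exact_mod_cast hc) (fun c => by positivity)

open Classical in
/-- pairs inside the classes, class by class -/
theorem pairs_ge {Q : Finset ℕ} {v : ℕ → ℕ} (R : Finset ℕ) (C : ℕ → ℕ → Prop) {κ : ℝ}
    (h : ∀ c ∈ R, κ * ((Q.filter fun t => v t = c).card : ℝ) ^ 2 ≤
      ((((Q.filter fun t => v t = c) ×ˢ (Q.filter fun t => v t = c)).filter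
        fun p => C p.1 p.2).card : ℝ)) :
    κ * ∑ c ∈ R, ((Q.filter fun t => v t = c).card : ℝ) ^ 2 ≤
      (((Q ×ˢ Q).filter fun p => v p.1 = v p.2 ∧ C p.1 p.2).card : ℝ) := by
  have h1 : (R.biUnion fun c => ((Q.filter fun t => v t = c) ×ˢ (Q.filter fun t => v t = c)).filter
        fun p => C p.1 p.2) ⊆ (Q ×ˢ Q).filter fun p => v p.1 = v p.2 ∧ C p.1 p.2 := by
    intro p hp
    obtain ⟨c, hc, hp⟩ := mem_biUnion.1 hp
    rw [mem_filter, mem_product, mem_filter, mem_filter] at hp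
    rw [mem_filter, mem_product]
    exact ⟨⟨hp.1.1.1, hp.1.2.1⟩, hp.1.1.2.trans hp.1.2.2.symm, hp.2⟩
  have h2 := card_le_card h1
  rw [card_biUnion] at h2
  · calc _ = ∑ c ∈ R, κ * ((Q.filter fun t => v t = c).card : ℝ) ^ 2 := by rw [mul_sum]
      _ ≤ ∑ c ∈ R, ((((Q.filter fun t => v t = c) ×ˢ (Q.filter fun t => v t = c)).filter
        fun p => C p.1 p.2).card : ℝ) := sum_le_sum h
      _ ≤ _ := by exact_mod_cast h2
  · intro c _ c' _ hcc
    rw [Function.onFun, disjoint_left]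
    intro p hp hp'
    rw [mem_filter, mem_product, mem_filter] at hp hp'
    exact hcc (hp.1.1.2.symm.trans hp'.1.1.2)


/-- affine function of the height -/
theorem pos_lin (e : V3) (s b : Ln4) (z z0 : ℝ) :
    dt e (s.pos z - b.pos z) = dt e (s.pos z0 - b.pos z0) + (z - z0) * dt e (s.v - b.v) := by
  simp only [dt, Ln4.pos, Pi.sub_apply]; ring

/-- planar coordinates of a class, units `2 w1` and `ρ` -/
noncomputable def cA (L : ℕ → Ln4) (e : V3) (b : Ln4) (w1 z0 : ℝ) (t : ℕ) : ℝ :=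
  dt e ((L t).pos z0 - b.pos z0) / (2 * w1)

noncomputable def cV (L : ℕ → Ln4) (e : V3) (b : Ln4) (w1 ρ : ℝ) (t : ℕ) : ℝ :=
  ρ * dt e ((L t).v - b.v) / (2 * w1)

theorem cA_sub (L : ℕ → Ln4) (e : V3) (b : Ln4) {w1 : ℝ} (z0 : ℝ) (hw : 0 < w1) (s t : ℕ) :
    (cA L e b w1 z0 s - cA L e b w1 z0 t) * (2 * w1) =
      dt e ((L s).pos z0 - (L t).pos z0) := by
  unfold cA
  field_simp
  simp only [dt, Pi.sub_apply]; ring

theorem cV_sub (L : ℕ → Ln4) (e : V3) (b : Ln4) {w1 : ℝ} (ρ : ℝ) (hw : 0 < w1) (s t : ℕ) :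
    (cV L e b w1 ρ s - cV L e b w1 ρ t) * (2 * w1) =
      ρ * dt e ((L s).v - (L t).v) := by
  unfold cV
  field_simp
  simp only [dt, Pi.sub_apply]; ring

/-- the difference of two lines at the height `z0 + ρ x` -/
theorem c_at (L : ℕ → Ln4) (e : V3) (b : Ln4) {w1 : ℝ} (z0 ρ : ℝ) (hw : 0 < w1) (s t : ℕ)
    (x : ℝ) :
    ((cA L e b w1 z0 s - cA L e b w1 z0 t) + (cV L e b w1 ρ s - cV L e b w1 ρ t) * x) *
      (2 * w1) = dt e ((L s).pos (z0 + ρ * x) - (L t).pos (z0 + ρ * x)) := by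
  have h1 := cA_sub L e b z0 hw s t
  have h2 := cV_sub L e b ρ hw s t
  have h3 := pos_lin e (L s) (L t) (z0 + ρ * x) z0
  rw [h3]
  calc _ = (cA L e b w1 z0 s - cA L e b w1 z0 t) * (2 * w1) +
        ((cV L e b w1 ρ s - cV L e b w1 ρ t) * (2 * w1)) * x := by ring
    _ = _ := by rw [h1, h2]; ring

open Classical in
/-- D-max of one class in the planar chart -/
theorem dm_class {L : ℕ → Ln4} {P Q : Finset ℕ} {v : ℕ → ℕ} {e : ℕ → Fin 3 → V3} {bv : ℕ → Ln4}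
    {W M w1 w2 z0 ρ q : ℝ} {j : ℕ} (hW : 1 ≤ W) (hM : 0 < M) (hq : 0 < q) (hw1 : 0 < w1)
    (hjw : 2 ^ j * w2 ≤ 2 * w1) (hρ : 0 < ρ)
    (tube : ∀ t ∈ P, ∀ δ : ℝ, w2 ≤ 8 * (δ * w1) → δ ≤ 1 →
      ((P.filter fun s => v s = v t ∧ ∀ z, z0 ≤ z → z ≤ z0 + ρ →
        |dt (e (v t) 1) ((L s).pos z - (L t).pos z)| ≤ δ * w1).card : ℝ) ≤ W * M * δ ^ (1 + q))
    (hQ : Q ⊆ P) {c : ℕ} (hc : M ≤ 8 * W * ((Q.filter fun t => v t = c).card : ℝ)) :
    DM (Q.filter fun t => v t = c) (cA L (e c 1) (bv c) w1 z0) (cV L (e c 1) (bv c) w1 ρ)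
      (2 ^ (j + 1)) (8 * 4 ^ (1 + q) * W ^ 2) q := by
  intro t ht k _
  rw [mem_filter] at ht
  obtain ⟨htQ, htc⟩ := ht
  subst htc
  set S := Q.filter fun s => v s = v t with hS
  set x : ℝ := (2 : ℝ) ^ k / ((2 ^ (j + 1) : ℕ) : ℝ) with hx
  have hx0 : 0 < x := by positivity
  have hxj : 1 ≤ x * (2 * 2 ^ j) := by
    have h1 : (1 : ℝ) ≤ 2 ^ k := one_le_pow₀ (by norm_num)
    have h2 : x * (2 * 2 ^ j) = 2 ^ k := by
      rw [hx]; push_cast; rw [pow_succ]; field_simp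
    rw [h2]; exact h1
  have hS0 : (0 : ℝ) ≤ S.card := by positivity
  have hxq : (0 : ℝ) ≤ x ^ (1 + q) := by positivity
  have h4q : (0 : ℝ) < 4 ^ (1 + q) := Real.rpow_pos_of_pos (by norm_num) _
  have h4x : (4 * x) ^ (1 + q) = 4 ^ (1 + q) * x ^ (1 + q) :=
    Real.mul_rpow (by norm_num) hx0.le
  rcases le_or_gt (4 * x) 1 with h | h
  · have h1 : w2 ≤ 8 * (4 * x * w1) := by
      have h2 : w2 * 1 ≤ w2 * (x * (2 * 2 ^ j)) ∨ w2 < 0 := by
        rcases le_or_gt 0 w2 with h3 | h3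
        · exact Or.inl (mul_le_mul_of_nonneg_left hxj h3)
        · exact Or.inr h3
      rcases h2 with h2 | h2
      · calc w2 = w2 * 1 := (mul_one _).symm
          _ ≤ w2 * (x * (2 * 2 ^ j)) := h2
          _ = 2 * x * (2 ^ j * w2) := by ring
          _ ≤ 2 * x * (2 * w1) := mul_le_mul_of_nonneg_left hjw (by positivity)
          _ ≤ _ := by nlinarith [mul_pos hx0 hw1]
      · nlinarith [mul_pos hx0 hw1]
    have h2 := tube t (hQ htQ) (4 * x) h1 h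
    have h3 : ((S.filter fun t' => |cA L (e (v t) 1) (bv (v t)) w1 z0 t' -
        cA L (e (v t) 1) (bv (v t)) w1 z0 t| ≤ x ∧ |cV L (e (v t) 1) (bv (v t)) w1 ρ t' -
        cV L (e (v t) 1) (bv (v t)) w1 ρ t| ≤ x).card : ℝ) ≤
        ((P.filter fun s => v s = v t ∧ ∀ z, z0 ≤ z → z ≤ z0 + ρ →
        |dt (e (v t) 1) ((L s).pos z - (L t).pos z)| ≤ 4 * x * w1).card : ℝ) := by
      refine Nat.cast_le.2 (card_le_card fun s hs => ?_)
      rw [mem_filter, hS, mem_filter] at hs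
      obtain ⟨⟨hsQ, hsv⟩, hsA, hsV⟩ := hs
      rw [mem_filter]
      refine ⟨hQ hsQ, hsv, fun z hz hz' => ?_⟩
      obtain ⟨y, hy0, hy1, rfl⟩ : ∃ y : ℝ, 0 ≤ y ∧ y ≤ 1 ∧ z = z0 + ρ * y :=
        ⟨(z - z0) / ρ, div_nonneg (by linarith) hρ.le, by rw [div_le_one hρ]; linarith,
          by field_simp; ring⟩
      rw [← c_at L (e (v t) 1) (bv (v t)) z0 ρ hw1 s t y, abs_mul,
        abs_of_pos (by positivity : 0 < 2 * w1)]
      have h5 : |(cA L (e (v t) 1) (bv (v t)) w1 z0 s - cA L (e (v t) 1) (bv (v t)) w1 z0 t) +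
          (cV L (e (v t) 1) (bv (v t)) w1 ρ s - cV L (e (v t) 1) (bv (v t)) w1 ρ t) * y| ≤
          x + x * 1 := by
        refine (abs_add_le _ _).trans (add_le_add hsA ?_)
        rw [abs_mul, abs_of_nonneg hy0]
        exact mul_le_mul hsV hy1 hy0 hx0.le
      calc _ ≤ (x + x * 1) * (2 * w1) := mul_le_mul_of_nonneg_right h5 (by positivity)
        _ = _ := by ring
    calc _ ≤ W * M * (4 * x) ^ (1 + q) := h3.trans h2
      _ ≤ W * (8 * W * (S.card : ℝ)) * (4 * x) ^ (1 + q) := by gcongr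
      _ = _ := by rw [h4x]; ring
  · have h1 : (1 : ℝ) ≤ (4 * x) ^ (1 + q) := Real.one_le_rpow h.le (by linarith)
    have h2 : ((S.filter fun t' => |cA L (e (v t) 1) (bv (v t)) w1 z0 t' -
        cA L (e (v t) 1) (bv (v t)) w1 z0 t| ≤ x ∧ |cV L (e (v t) 1) (bv (v t)) w1 ρ t' -
        cV L (e (v t) 1) (bv (v t)) w1 ρ t| ≤ x).card : ℝ) ≤ S.card :=
      Nat.cast_le.2 (card_le_card (filter_subset _ _))
    have h3 : 1 ≤ 8 * W ^ 2 := by nlinarith
    calc _ ≤ 1 * 1 * (S.card : ℝ) := by rw [one_mul, one_mul]; exact h2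
      _ ≤ 8 * W ^ 2 * (4 * x) ^ (1 + q) * (S.card : ℝ) := by gcongr
      _ = _ := by rw [h4x]; ring

theorem fin_aux {x y z W θ : ℝ} (hW0 : 0 < W) (hθ0 : 0 < θ) (h1 : x ≤ 64 * W * y)
    (h2 : (3 / 4) ^ 2 / 30 * θ * y ≤ z) (hz : 0 ≤ z) : x ≤ 4000 * W / θ * z := by
  have h3 : y ≤ z * (160 / (3 * θ)) := by
    rw [mul_div_assoc', le_div_iff₀ (by positivity)]
    nlinarith
  calc x ≤ 64 * W * y := h1
    _ ≤ 64 * W * (z * (160 / (3 * θ))) := mul_le_mul_of_nonneg_left h3 (by positivity)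
    _ = 10240 / 3 * (W / θ * z) := by field_simp; ring
    _ ≤ 4000 * (W / θ * z) := by
        have : 0 ≤ W / θ * z := by positivity
        linarith
    _ = _ := by ring

set_option maxHeartbeats 1000000 in
open Classical in
/-- **crossing pairs in every quarter of the lines** (one system, any goodness) -/
theorem cross_core {L : ℕ → Ln4} {P Q : Finset ℕ} {v : ℕ → ℕ} {e : ℕ → Fin 3 → V3} {bv : ℕ → Ln4}
    {W M w1 w2 z0 ρ q θ : ℝ} {j : ℕ} (hW : 1 ≤ W) (hM : 0 < M) (hq : 0 < q) (hw1 : 0 < w1)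
    (hjw : 2 ^ j * w2 ≤ 2 * w1) (hρ : 0 < ρ)
    (tube : ∀ t ∈ P, ∀ δ : ℝ, w2 ≤ 8 * (δ * w1) → δ ≤ 1 →
      ((P.filter fun s => v s = v t ∧ ∀ z, z0 ≤ z → z ≤ z0 + ρ →
        |dt (e (v t) 1) ((L s).pos z - (L t).pos z)| ≤ δ * w1).card : ℝ) ≤ W * M * δ ^ (1 + q))
    (hm : ∀ t ∈ P, ∀ z, z0 ≤ z → z ≤ z0 + ρ →
      |dt (e (v t) 1) ((L t).pos z - (bv (v t)).pos z)| ≤ w1)
    (hf : ∀ t ∈ P, M ≤ W * ((P.filter fun s => v s = v t).card : ℝ))
    (G : ℕ → ℝ → Prop)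
    (hG : ∀ t ∈ P, 4 * ((range (2 ^ (j + 1))).filter fun i : ℕ =>
      ¬ G t (z0 + ρ * ((i : ℝ) / ((2 ^ (j + 1) : ℕ) : ℝ)))).card ≤ 2 ^ (j + 1))
    (hθ : 1 ≤ θ * 2 ^ (j + 1)) (hθ1 : θ ≤ 1)
    (hsm : Cq q * (8 * 4 ^ (1 + q) * W ^ 2) * θ ^ q ≤ 9 / 160)
    (hQ : Q ⊆ P) (hc : P.card ≤ 4 * Q.card) :
    (P.card : ℝ) * M ≤ 4000 * W / θ *
      (((Q ×ˢ Q).filter fun p => v p.1 = v p.2 ∧ ∃ z, z0 ≤ z ∧ z ≤ z0 + ρ ∧
        |dt (e (v p.2) 1) ((L p.1).pos z - (L p.2).pos z)| ≤ w1 / 2 ^ j ∧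
        θ * w1 ≤ |dt (e (v p.2) 1) ((L p.1).v - (L p.2).v)| * ρ ∧
        G p.1 z ∧ G p.2 z).card : ℝ) := by
  have hW0 : 0 < W := by linarith
  have hj0 : (0 : ℝ) < 2 ^ (j + 1) := by positivity
  have hθ0 : 0 < θ := by
    by_contra h
    have : θ * 2 ^ (j + 1) ≤ 0 := mul_nonpos_of_nonpos_of_nonneg (not_lt.1 h) hj0.le
    linarith
  set n : ℕ := 2 ^ (j + 1) with hn
  have hn0 : 0 < n := by positivity
  have hn0' : (0 : ℝ) < n := by exact_mod_cast hn0
  have hnj : (n : ℝ) = 2 ^ (j + 1) := by rw [hn]; push_cast; rfl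
  have hr := rich hW hM hf hQ hc
  set R := (Q.image v).filter
      (fun c => M ≤ 8 * W * ((Q.filter fun t => v t = c).card : ℝ)) with hR
  have key := pairs_ge (Q := Q) (v := v) R (fun s t => ∃ z, z0 ≤ z ∧ z ≤ z0 + ρ ∧
        |dt (e (v t) 1) ((L s).pos z - (L t).pos z)| ≤ w1 / 2 ^ j ∧
        θ * w1 ≤ |dt (e (v t) 1) ((L s).v - (L t).v)| * ρ ∧
        G s z ∧ G t z) (κ := (3 / 4) ^ 2 / 30 * θ) ?_
  · exact fin_aux hW0 hθ0 hr key (by positivity)
  · intro c hcR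
    obtain ⟨hcI, hcM⟩ := mem_filter.1 hcR
    set S := Q.filter fun t => v t = c with hS
    have hmS : ∀ t ∈ S, t ∈ P ∧ v t = c := fun t ht =>
      ⟨hQ (mem_filter.1 ht).1, (mem_filter.1 ht).2⟩
    have hD := dm_class (L := L) (e := e) (bv := bv) hW hM hq hw1 hjw hρ tube hQ hcM
    have hA : ∀ t ∈ S, |cA L (e c 1) (bv c) w1 z0 t| ≤ 1 := by
      intro t ht
      obtain ⟨htP, htc⟩ := hmS t ht
      subst htc
      unfold cA
      rw [abs_div, abs_of_pos (by positivity : 0 < 2 * w1), div_le_one (by positivity)]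
      have := hm t htP z0 le_rfl (by linarith)
      linarith
    have hV : ∀ t ∈ S, |cV L (e c 1) (bv c) w1 ρ t| ≤ 1 := by
      intro t ht
      obtain ⟨htP, htc⟩ := hmS t ht
      subst htc
      unfold cV
      rw [abs_div, abs_of_pos (by positivity : 0 < 2 * w1), div_le_one (by positivity)]
      have h1 := hm t htP z0 le_rfl (by linarith)
      have h2 := hm t htP (z0 + ρ) (by linarith) le_rfl
      have h3 := pos_lin (e (v t) 1) (L t) (bv (v t)) (z0 + ρ) z0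
      have h4 : ρ * dt (e (v t) 1) ((L t).v - (bv (v t)).v) =
          dt (e (v t) 1) ((L t).pos (z0 + ρ) - (bv (v t)).pos (z0 + ρ)) -
          dt (e (v t) 1) ((L t).pos z0 - (bv (v t)).pos z0) := by rw [h3]; ring
      rw [h4]
      exact (abs_sub _ _).trans (by linarith)
    have hGS : 3 / 4 * (n : ℝ) * S.card ≤ (((S ×ˢ range n).filter fun p =>
        G p.1 (z0 + ρ * ((p.2 : ℝ) / (n : ℝ)))).card : ℝ) := by
      have h1 : (((S ×ˢ range n).filter fun p =>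
        G p.1 (z0 + ρ * ((p.2 : ℝ) / (n : ℝ)))).card : ℝ) =
          ∑ t ∈ S, (((range n).filter fun i : ℕ => G t (z0 + ρ * ((i : ℝ) / (n : ℝ)))).card : ℝ) := by
        have : ((S ×ˢ range n).filter fun p =>
        G p.1 (z0 + ρ * ((p.2 : ℝ) / (n : ℝ)))).card =
          ∑ t ∈ S, ((range n).filter fun i : ℕ => G t (z0 + ρ * ((i : ℝ) / (n : ℝ)))).card := by
          rw [card_filter, sum_product]
          refine sum_congr rfl fun t _ => ?_
          rw [card_filter]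
        exact_mod_cast this
      rw [h1]
      calc 3 / 4 * (n : ℝ) * S.card = ∑ _t ∈ S, 3 / 4 * (n : ℝ) := by
            rw [sum_const, nsmul_eq_mul]; ring
        _ ≤ _ := sum_le_sum fun t ht => by
          have h2 := hG t (hmS t ht).1
          have h3 := card_filter_add_card_filter_not (s := range n)
            (fun i : ℕ => G t (z0 + ρ * ((i : ℝ) / (n : ℝ))))
          rw [card_range] at h3
          have h4 : (4 : ℝ) * (((range n).filter fun i : ℕ =>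
            ¬ G t (z0 + ρ * ((i : ℝ) / (n : ℝ)))).card : ℝ) ≤ n := by
            exact_mod_cast h2
          have h5 : (((range n).filter fun i : ℕ => G t (z0 + ρ * ((i : ℝ) / (n : ℝ)))).card : ℝ) +
            (((range n).filter fun i : ℕ => ¬ G t (z0 + ρ * ((i : ℝ) / (n : ℝ)))).card : ℝ) = n := by
            exact_mod_cast h3
          linarith
    have hcg := cross_good (S := S) hn0 (by positivity : 0 ≤ 8 * 4 ^ (1 + q) * W ^ 2) hq hA hV hD
      (fun t i => G t (z0 + ρ * ((i : ℝ) / (n : ℝ)))) (by norm_num : (0:ℝ) ≤ 3 / 4) hGS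
      (by rw [hnj]; exact hθ) hθ1 (by norm_num at hsm ⊢; exact hsm)
    refine hcg.trans (Nat.cast_le.2 (card_le_card fun p hp => ?_))
    rw [mem_filter, mem_product] at hp
    obtain ⟨⟨hp1, hp2⟩, i, hi, hg1, hg2, hb, hθα⟩ := hp
    rw [mem_filter, mem_product]
    refine ⟨⟨hp1, hp2⟩, ?_⟩
    have hc2 := (hmS _ hp2).2
    have hin : (0:ℝ) ≤ (i : ℝ) / n := by positivity
    have hin1 : (i : ℝ) / n ≤ 1 := by
      rw [div_le_one hn0']; exact_mod_cast hi.le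
    refine ⟨z0 + ρ * ((i : ℝ) / n), by nlinarith, by nlinarith, ?_, ?_, hg1, hg2⟩
    · rw [hc2, ← c_at L (e c 1) (bv c) z0 ρ hw1 p.1 p.2 ((i : ℝ) / n), abs_mul,
        abs_of_pos (by positivity : 0 < 2 * w1)]
      have h1 := bx_close hn0 hb.symm
      calc _ ≤ 1 / (n : ℝ) * (2 * w1) := mul_le_mul_of_nonneg_right h1.le (by positivity)
        _ = w1 / 2 ^ j := by rw [hnj, pow_succ]; field_simp
    · rw [hc2]
      have h1 := cV_sub L (e c 1) (bv c) ρ hw1 p.1 p.2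
      have h2 : |dt (e c 1) ((L p.1).v - (L p.2).v)| * ρ =
          |cV L (e c 1) (bv c) w1 ρ p.1 - cV L (e c 1) (bv c) w1 ρ p.2| * (2 * w1) := by
        have h5 : |cV L (e c 1) (bv c) w1 ρ p.1 - cV L (e c 1) (bv c) w1 ρ p.2| * |2 * w1| =
            |ρ| * |dt (e c 1) ((L p.1).v - (L p.2).v)| := by
          rw [← abs_mul, h1, abs_mul]
        rw [abs_of_pos (by positivity : 0 < 2 * w1), abs_of_pos hρ] at h5
        rw [h5]; ring
      rw [h2]
      rw [abs_sub_comm] at hθα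
      have h3 : 0 ≤ |cV L (e c 1) (bv c) w1 ρ p.1 - cV L (e c 1) (bv c) w1 ρ p.2| := abs_nonneg _
      nlinarith

end Crest.Agent.R136.Cr418
end

-- ▼ part R136/Cs5_123
section

/-!
# R136 (S0187), PLAN 2, leaf (C5): the one-step count of the base tilt theorem (helper123)

`one_core` : in `TCore`, all pairs of tilts `Λ = 2^j`, `E = 2^k'`, the classes of the second system
which meet one class of the first system lie in one flat box: no crossing, no rotation.  This is the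
case in which `Λ` is at most a power of `W` and `E` is large.
-/

set_option autoImplicit false
set_option linter.unusedVariables false

namespace Crest.Agent.R136.Cs5123

open Finset
open Crest.Agent.R136.Sh605 Crest.Agent.R136.Fl808
open Crest.Agent.R136.Pl2

/-- components in the frame `e` of a vector which is small in the frame `e'` -/
theorem comp_le {e e' : Fin 3 → V3} (he' : Ortho e') (i : Fin 3) (x : V3)
    {s0 s1 s2 : ℝ} (h0 : |dt (e' 0) x| ≤ s0) (h1 : |dt (e' 1) x| ≤ s1) (h2 : |dt (e' 2) x| ≤ s2) :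
    |dt (e i) x| ≤ |dt (e' 0) (e i)| * s0 + |dt (e' 1) (e i)| * s1 + |dt (e' 2) (e i)| * s2 := by
  have h := dt_expand he' (e i) x
  rw [h]
  calc |dt (e i) (e' 0) * dt (e' 0) x + dt (e i) (e' 1) * dt (e' 1) x +
        dt (e i) (e' 2) * dt (e' 2) x|
      ≤ |dt (e i) (e' 0) * dt (e' 0) x + dt (e i) (e' 1) * dt (e' 1) x| +
        |dt (e i) (e' 2) * dt (e' 2) x| := abs_add_le _ _
    _ ≤ |dt (e i) (e' 0) * dt (e' 0) x| + |dt (e i) (e' 1) * dt (e' 1) x| +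
        |dt (e i) (e' 2) * dt (e' 2) x| := by gcongr; exact abs_add_le _ _
    _ = |dt (e' 0) (e i)| * |dt (e' 0) x| + |dt (e' 1) (e i)| * |dt (e' 1) x| +
        |dt (e' 2) (e i)| * |dt (e' 2) x| := by
        rw [abs_mul, abs_mul, abs_mul, dt_comm (e i) (e' 0), dt_comm (e i) (e' 1),
          dt_comm (e i) (e' 2)]
    _ ≤ _ := by gcongr

/-- one-step hull in the frame of the first box -/
theorem hull_one {e e' : Fin 3 → V3} (he : Ortho e) (he' : Ortho e') {Y w1 w2 z0 ρ : ℝ}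
    {j k' : ℕ} (hY : 0 < Y) (hYw : Y ≤ w2) (hw : w2 ≤ w1) (H : Dy e e' Y w1 w2 j k')
    {b b' t t2 : Ln4} (ht : InB t b e ![Y, w1, w2] z0 ρ) (ht' : InB t b' e' ![Y, w1, w2] z0 ρ)
    (h2 : InB t2 b' e' ![Y, w1, w2] z0 ρ) :
    InB t2 b e ![7 * (2 ^ j * 2 ^ k' * Y), 7 * w1, 9 * (2 ^ j * w2)] z0 ρ := by
  intro z hz0 hz1 i
  have hw2 : 0 < w2 := hY.trans_le hYw
  have hw1 : 0 < w1 := hw2.trans_le hw
  have p := ht z hz0 hz1
  have p' := ht' z hz0 hz1
  have p2 := h2 z hz0 hz1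
  have hj : (1:ℝ) ≤ 2 ^ j := one_le_pow₀ (by norm_num)
  have hk : (1:ℝ) ≤ 2 ^ k' := one_le_pow₀ (by norm_num)
  have hjk : (1:ℝ) ≤ 2 ^ j * 2 ^ k' := by nlinarith
  have hx : t2.pos z - b.pos z = (t2.pos z - b'.pos z) - (t.pos z - b'.pos z) +
      (t.pos z - b.pos z) := by abel
  -- bound of `dt (e i) x` for `x` in the box of `e'`
  have key : ∀ x : V3, (∀ l, |dt (e' l) x| ≤ ![Y, w1, w2] l) → |dt (e i) x| ≤
      ![3 * (2 ^ j * 2 ^ k' * Y), 3 * w1, 4 * (2 ^ j * w2)] i := by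
    intro x hx
    have c := comp_le (e := e) he' i x (s0 := Y) (s1 := w1) (s2 := w2)
      (by simpa using hx 0) (by simpa using hx 1) (by simpa using hx 2)
    refine c.trans ?_
    have a0 := abs_dt_le_one he he' 0 i
    have a1 := abs_dt_le_one he he' 1 i
    have a2 := abs_dt_le_one he he' 2 i
    fin_cases i
    · simp only [Fin.zero_eta, Matrix.cons_val_zero] at *
      have e10 := H.t10
      have e20 := H.t20
      have e20' : |dt (e' 2) (e 0)| * w2 ≤ 2 ^ j * 2 ^ k' * Y := by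
        have : |dt (e' 2) (e 0)| * w2 ≤ 2 ^ j * (|dt (e' 2) (e 0)| * w2) := by
          have h0 : 0 ≤ |dt (e' 2) (e 0)| * w2 := by positivity
          nlinarith
        nlinarith
      have e00 : |dt (e' 0) (e 0)| * Y ≤ 2 ^ j * 2 ^ k' * Y := by nlinarith
      nlinarith
    · simp only [Fin.mk_one, Matrix.cons_val_one, Matrix.cons_val_zero] at *
      have e0 : |dt (e' 0) (e 1)| * Y ≤ w1 := by nlinarith
      have e1 : |dt (e' 1) (e 1)| * w1 ≤ w1 := by nlinarith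
      have e2 : |dt (e' 2) (e 1)| * w2 ≤ w1 := by nlinarith
      linarith
    · simp only [Fin.reduceFinMk, Matrix.cons_val] at *
      have e12 := H.b12 he he' hY hYw hw
      have hjw : w2 ≤ 2 ^ j * w2 := by nlinarith
      have e0 : |dt (e' 0) (e 2)| * Y ≤ 2 ^ j * w2 := by nlinarith
      have e2 : |dt (e' 2) (e 2)| * w2 ≤ 2 ^ j * w2 := by nlinarith
      linarith
  have k1 := key _ p2
  have k2 := key _ p'
  have k3 := p i
  have hd : dt (e i) (t2.pos z - b.pos z) = dt (e i) (t2.pos z - b'.pos z) -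
      dt (e i) (t.pos z - b'.pos z) + dt (e i) (t.pos z - b.pos z) := by
    rw [hx]; simp only [dt, Pi.add_apply, Pi.sub_apply]; ring
  rw [hd]
  have h3 : |dt (e i) (t2.pos z - b'.pos z) - dt (e i) (t.pos z - b'.pos z) +
      dt (e i) (t.pos z - b.pos z)| ≤ |dt (e i) (t2.pos z - b'.pos z)| +
      |dt (e i) (t.pos z - b'.pos z)| + |dt (e i) (t.pos z - b.pos z)| :=
    (abs_add_le _ _).trans (add_le_add (abs_sub _ _) le_rfl)
  refine h3.trans ?_
  fin_cases i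
  · simp only [Fin.zero_eta, Matrix.cons_val_zero] at *
    nlinarith
  · simp only [Fin.mk_one, Matrix.cons_val_one, Matrix.cons_val_zero] at *
    linarith
  · simp only [Fin.reduceFinMk, Matrix.cons_val] at *
    nlinarith

/-- number of elements of a set all of whose fibres are small -/
theorem card_ge_fib {ι κ : Type*} [DecidableEq κ] (A : Finset ι) (f : ι → κ) {m : ℝ}
    (hm : ∀ c ∈ A.image f, ((A.filter fun s => f s = c).card : ℝ) ≤ m) :
    (A.card : ℝ) ≤ (A.image f).card * m := by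
  have h1 : A.card = ∑ c ∈ A.image f, (A.filter fun s => f s = c).card :=
    card_eq_sum_card_image f A
  rw [h1]; push_cast
  calc ∑ c ∈ A.image f, ((A.filter fun s => f s = c).card : ℝ) ≤ ∑ _c ∈ A.image f, m :=
        sum_le_sum hm
    _ = _ := by rw [sum_const, nsmul_eq_mul]

/-- number of classes whose lines lie in a set `B` -/
theorem card_le_fib {ι κ : Type*} [DecidableEq ι] [DecidableEq κ] (B : Finset ι) (f : ι → κ) (I : Finset κ) {m : ℝ}
    (hm : ∀ c ∈ I, m ≤ ((B.filter fun s => f s = c).card : ℝ)) :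
    (I.card : ℝ) * m ≤ B.card := by
  have h1 : ∑ c ∈ I, ((B.filter fun s => f s = c).card) ≤ B.card := by
    rw [← card_biUnion]
    · refine card_le_card fun x hx => ?_
      rw [mem_biUnion] at hx
      obtain ⟨c, _, h⟩ := hx
      exact (mem_filter.1 h).1
    · intro c _ c' _ hcc
      rw [Function.onFun, disjoint_left]
      intro x h h'
      exact hcc ((mem_filter.1 h).2.symm.trans (mem_filter.1 h').2)
  calc (I.card : ℝ) * m = ∑ _c ∈ I, m := by rw [sum_const, nsmul_eq_mul]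
    _ ≤ ∑ c ∈ I, ((B.filter fun s => f s = c).card : ℝ) := sum_le_sum hm
    _ ≤ _ := by exact_mod_cast h1

open Classical in
/-- **the one-step count** -/
theorem one_core {qm qp : Fin 3 → ℝ} {L : ℕ → Ln4} {P : Finset ℕ} {u v : ℕ → ℕ} {bu bv : ℕ → Ln4}
    {eu ev : ℕ → Fin 3 → V3} {W M a Y w1 w2 z0 ρ : ℝ}
    (H : TCore qm qp L P u v bu bv eu ev W M a Y w1 w2 z0 ρ) {t0 : ℕ} (ht0 : t0 ∈ P) {j k' : ℕ}
    (hD : ∀ t ∈ P, Dy (eu (u t)) (ev (v t)) Y w1 w2 j k') (hW : W ≤ (2:ℝ) ^ j * 2 ^ k') :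
    ((2:ℝ) ^ j) ^ (1 + qm 1) * ((2:ℝ) ^ k' * (Y / a)) ^ (1 + qm 2) ≤
      W ^ 4 * ((7 * (2 ^ j * 2 ^ k' * Y) / a) ^ (1 + qp 0) *
        ((56 * (2 ^ j * w2)) / w2) ^ (1 + qp 2)) := by
  have ha := H.a0
  have hY : 0 < Y := ha.trans_le H.aY
  have hw2 : 0 < w2 := hY.trans_le H.Yw
  have hw1 : 0 < w1 := hw2.trans_le H.ww
  have hW0 : 0 < W := lt_of_lt_of_le one_pos H.W1
  have hM := H.M0
  have hj : (1:ℝ) ≤ 2 ^ j := one_le_pow₀ (by norm_num)
  have hk : (1:ℝ) ≤ 2 ^ k' := one_le_pow₀ (by norm_num)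
  have hjk : (1:ℝ) ≤ 2 ^ j * 2 ^ k' := by nlinarith
  set F : ℝ := ((2:ℝ) ^ j) ^ (1 + qm 1) * ((2:ℝ) ^ k' * (Y / a)) ^ (1 + qm 2) with hF
  have hF0 : 0 < F := by positivity
  set G : ℝ := (7 * (2 ^ j * 2 ^ k' * Y) / a) ^ (1 + qp 0) *
        ((56 * (2 ^ j * w2)) / w2) ^ (1 + qp 2) with hG
  -- the class of `t0`
  set A := P.filter fun s => u s = u t0 with hA
  set I := A.image v with hI
  have hfu : M ≤ W * (A.card : ℝ) := H.fu t0 ht0
  have hsh : (A.card : ℝ) ≤ I.card * (W * M / F) := by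
    refine card_ge_fib A v fun c hc => ?_
    obtain ⟨t, ht, rfl⟩ := mem_image.1 hc
    rw [hA, mem_filter] at ht
    have h1 := H.share t ht.1 j k' (hD t ht.1) hW
    refine le_trans (Nat.cast_le.2 (card_le_card ?_)) h1
    intro s hs
    rw [hA, mem_filter, mem_filter] at hs
    rw [mem_filter]
    exact ⟨hs.1.1, hs.1.2.trans ht.2.symm, hs.2⟩
  -- the hull
  set B := P.filter fun t => InB (L t) (bu (u t0)) (eu (u t0))
    ![7 * (2 ^ j * 2 ^ k' * Y), 10 ^ 6 * w1, 56 * (2 ^ j * w2)] z0 ρ with hB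
  have hleg := (hD t0 ht0).hleg (H.ou t0 ht0) (H.ov t0 ht0) hY H.Yw H.ww
  have hlw := (hD t0 ht0).hlw (H.ou t0 ht0) (H.ov t0 ht0) hY H.Yw H.ww
  have hbox : (B.card : ℝ) ≤ W * M * G := by
    refine H.hull (bu (u t0)) (eu (u t0)) _ _ (H.ou t0 ht0) ?_ ?_ ?_ ?_
    · have := H.aY
      nlinarith
    · nlinarith
    · have : (2:ℝ) ^ j * (Y * 2 ^ k') ≤ 2 ^ j * (8 * w2) := by gcongr
      nlinarith
    · linarith
  have hcl : (I.card : ℝ) * (M / W) ≤ B.card := by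
    refine card_le_fib B v I fun c hc => ?_
    obtain ⟨t, ht, rfl⟩ := mem_image.1 hc
    rw [hA, mem_filter] at ht
    have h1 := H.fv t ht.1
    rw [div_le_iff₀ hW0]
    refine h1.trans ?_
    rw [mul_comm]
    have hsub : (P.filter fun s => v s = v t) ⊆ B.filter fun s => v s = v t := by
      intro s hs
      rw [mem_filter] at hs
      rw [mem_filter, hB, mem_filter]
      refine ⟨⟨hs.1, ?_⟩, hs.2⟩
      have m1 := H.mu t ht.1
      have m2 := H.mv t ht.1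
      have m3 := H.mv s hs.1
      rw [hs.2] at m3
      rw [ht.2] at m1
      have hDt := hD t ht.1
      rw [ht.2] at hDt
      have h5 := hull_one (H.ou t0 ht0) (H.ov t ht.1) hY H.Yw H.ww hDt m1 m2 m3
      intro z hz0 hz1 i
      refine (h5 z hz0 hz1 i).trans ?_
      fin_cases i
      · simp
      · simp only [Fin.mk_one, Matrix.cons_val_one, Matrix.cons_val_zero]
        linarith
      · simp only [Fin.reduceFinMk, Matrix.cons_val]
        nlinarith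
    have h6 : ((P.filter fun s => v s = v t).card : ℝ) ≤
        ((B.filter fun s => v s = v t).card : ℝ) := Nat.cast_le.2 (card_le_card hsub)
    exact mul_le_mul_of_nonneg_right h6 hW0.le
  -- conclusion
  have hG0 : 0 < G := by positivity
  have c1 : (I.card : ℝ) ≤ W ^ 2 * G := by
    have h7 : (I.card : ℝ) * (M / W) ≤ W * M * G := hcl.trans hbox
    have h8 : (I.card : ℝ) * M ≤ (W ^ 2 * G) * M := by
      have : (I.card : ℝ) * M = (I.card : ℝ) * (M / W) * W := by field_simp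
      rw [this]
      nlinarith
    exact le_of_mul_le_mul_right h8 hM
  have c2 : M ≤ W * (W ^ 2 * G * (W * M / F)) := by
    refine hfu.trans ?_
    have : (A.card : ℝ) ≤ W ^ 2 * G * (W * M / F) :=
      hsh.trans (mul_le_mul_of_nonneg_right c1 (by positivity))
    exact mul_le_mul_of_nonneg_left this hW0.le
  have c3 : W * (W ^ 2 * G * (W * M / F)) = M * (W ^ 4 * G) / F := by
    field_simp
  rw [c3, le_div_iff₀ hF0] at c2
  exact le_of_mul_le_mul_left c2 hM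

/-- exponent of the case `Λ ≤ (2 W)^c` -/
noncomputable def cS (qm qp : Fin 3 → ℝ) (c : ℝ) : ℝ :=
  c + (4 + 3 * (1 + qp 0) + 6 * (1 + qp 2) + c * (1 + qp 0 + qp 2)) / (qm 2 - qp 0)

theorem cS_nonneg {qm qp : Fin 3 → ℝ} {c : ℝ} (h0 : 0 ≤ qp 0) (h2 : 0 ≤ qp 2)
    (hs : 0 < qm 2 - qp 0) (hc : 0 ≤ c) : 0 ≤ cS qm qp c := by
  unfold cS
  positivity

/-- pure exponents: the inequality of `one_core` with `Λ ≤ (2 W)^c` bounds `Λ E`, and `E X` -/
theorem small_num {qm qp : Fin 3 → ℝ} {W Λ E X c : ℝ} (hW : 1 ≤ W) (hΛ : 1 ≤ Λ) (hE : 1 ≤ E)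
    (hX : 1 ≤ X) (h0 : 0 ≤ qp 0) (h2 : 0 ≤ qp 2) (h1 : 0 ≤ qm 1) (hs : 0 < qm 2 - qp 0)
    (hc : Λ ≤ (2 * W) ^ c)
    (h : Λ ^ (1 + qm 1) * (E * X) ^ (1 + qm 2) ≤
      W ^ 4 * ((7 * (Λ * E * X)) ^ (1 + qp 0) * (56 * Λ) ^ (1 + qp 2))) :
    Λ * E ≤ (2 * W) ^ cS qm qp c := by
  have hW0 : 0 < W := lt_of_lt_of_le one_pos hW
  have h7 : (7 * (Λ * E * X)) ^ (1 + qp 0) ≤ (2 ^ (3:ℝ) * (Λ * E * X)) ^ (1 + qp 0) := by
    apply Real.rpow_le_rpow (by positivity) _ (by linarith)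
    have : (0:ℝ) < Λ * E * X := by positivity
    norm_num
    linarith
  have h56 : (56 * Λ) ^ (1 + qp 2) ≤ (2 ^ (6:ℝ) * Λ) ^ (1 + qp 2) := by
    apply Real.rpow_le_rpow (by positivity) _ (by linarith)
    have : (0:ℝ) < Λ := by positivity
    norm_num
    linarith
  have h3 : Λ ^ (1 + qm 1) * (E * X) ^ (1 + qm 2) ≤ W ^ (4:ℝ) *
      ((2 ^ (3:ℝ) * (Λ * E * X)) ^ (1 + qp 0) * (2 ^ (6:ℝ) * Λ) ^ (1 + qp 2)) := by
    refine h.trans ?_
    rw [show (W:ℝ) ^ (4:ℕ) = W ^ (4:ℝ) from by rw [← Real.rpow_natCast]; norm_num]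
    gcongr
  obtain ⟨w, hw, hwe⟩ : ∃ t : ℝ, 0 ≤ t ∧ W = Real.exp t :=
    ⟨Real.log W, Real.log_nonneg hW, (Real.exp_log hW0).symm⟩
  obtain ⟨l, hl, hle⟩ : ∃ t : ℝ, 0 ≤ t ∧ Λ = Real.exp t :=
    ⟨Real.log Λ, Real.log_nonneg hΛ, (Real.exp_log (by linarith)).symm⟩
  obtain ⟨e, he, hee⟩ : ∃ t : ℝ, 0 ≤ t ∧ E = Real.exp t :=
    ⟨Real.log E, Real.log_nonneg hE, (Real.exp_log (by linarith)).symm⟩
  obtain ⟨x, hx, hxe⟩ : ∃ t : ℝ, 0 ≤ t ∧ X = Real.exp t :=
    ⟨Real.log X, Real.log_nonneg hX, (Real.exp_log (by linarith)).symm⟩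
  obtain ⟨b, hb, hbe⟩ : ∃ t : ℝ, 0 ≤ t ∧ (2:ℝ) = Real.exp t :=
    ⟨Real.log 2, Real.log_nonneg (by norm_num), (Real.exp_log (by norm_num)).symm⟩
  rw [hbe, hwe, hle] at hc
  rw [hbe, hwe, hle, hee, hxe] at h3
  rw [hbe, hwe, hle, hee]
  simp only [← Real.exp_add, ← Real.exp_mul] at hc h3 ⊢
  rw [Real.exp_le_exp] at hc h3 ⊢
  -- l (1 + qm1) + (e + x)(1 + qm2) ≤ 4 w + (3b + l + e + x)(1 + qp0) + (6b + l)(1 + qp2)
  have k1 : (e + x) * (qm 2 - qp 0) ≤ 4 * w + b * (3 * (1 + qp 0) + 6 * (1 + qp 2)) +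
      l * (1 + qp 0 + qp 2) := by
    nlinarith [mul_nonneg hl h1]
  have k2 : e * (qm 2 - qp 0) ≤ (b + w) * (4 + 3 * (1 + qp 0) + 6 * (1 + qp 2) +
      c * (1 + qp 0 + qp 2)) := by
    have a1 : 0 ≤ x * (qm 2 - qp 0) := mul_nonneg hx hs.le
    have a2 : l * (1 + qp 0 + qp 2) ≤ ((b + w) * c) * (1 + qp 0 + qp 2) :=
      mul_le_mul_of_nonneg_right hc (by linarith)
    have a3 : 0 ≤ w * (3 * (1 + qp 0) + 6 * (1 + qp 2)) := by positivity
    nlinarith
  unfold cS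
  have k3 : e ≤ (b + w) * ((4 + 3 * (1 + qp 0) + 6 * (1 + qp 2) +
      c * (1 + qp 0 + qp 2)) / (qm 2 - qp 0)) := by
    rw [← mul_div_assoc, le_div_iff₀ hs]
    exact k2
  linarith

/-- **the case `Λ ≤ (2 W)^c`** -/
theorem small_lam {η : ℝ} {qm qp : Fin 3 → ℝ} (hq : Pl2W102.Ex2 η qm qp) {L : ℕ → Ln4}
    {P : Finset ℕ} {u v : ℕ → ℕ} {bu bv : ℕ → Ln4} {eu ev : ℕ → Fin 3 → V3}
    {W M a Y w1 w2 z0 ρ : ℝ} (H : TCore qm qp L P u v bu bv eu ev W M a Y w1 w2 z0 ρ)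
    (hP : P.Nonempty) {j k' : ℕ} (hD : ∀ t ∈ P, Dy (eu (u t)) (ev (v t)) Y w1 w2 j k')
    (hW : W ≤ (2:ℝ) ^ j * 2 ^ k') {c : ℝ} (hc : (2:ℝ) ^ j ≤ (2 * W) ^ c) :
    (2:ℝ) ^ j * 2 ^ k' ≤ (2 * W) ^ cS qm qp c := by
  obtain ⟨t0, ht0⟩ := hP
  have h := one_core H ht0 hD hW
  have ha := H.a0
  have hY : 0 < Y := ha.trans_le H.aY
  have hw2 : 0 < w2 := hY.trans_le H.Yw
  have q0 := hq.le 0
  have q1 := hq.le 1
  have q2 := hq.le 2
  refine small_num (X := Y / a) H.W1 (one_le_pow₀ (by norm_num)) (one_le_pow₀ (by norm_num))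
    ((one_le_div ha).2 H.aY) (q0.1.trans q0.2) (q2.1.trans q2.2) q1.1 ?_ hc ?_
  · have := hq.e02
    have := hq.pos
    have := q0.1.trans q0.2
    linarith
  · have e1 : 7 * (2 ^ j * 2 ^ k' * Y) / a = 7 * (2 ^ j * 2 ^ k' * (Y / a)) := by ring
    have e2 : 56 * (2 ^ j * w2) / w2 = 56 * 2 ^ j := by field_simp
    rw [e1, e2] at h
    exact h

end Crest.Agent.R136.Cs5123
end

-- ▼ part R136/Cs2_501
section

/-!
# R136 (S0187), PLAN 2, leaf (C1) (helper501): `core_sel`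

One pair of dyadic tilts `j, k'` for all lines of a non-empty part, on which all classes of both
systems are still full up to `(2 W)^8`.
-/

set_option autoImplicit false
set_option linter.unusedVariables false

open Finset

namespace Crest.Agent.R136.Cs501

open Crest.Agent.R136.Sh605 Crest.Agent.R136.Fl808
open Crest.Agent.R136.Pl2

variable {qm qp : Fin 3 → ℝ} {L : ℕ → Ln4} {P : Finset ℕ} {u v : ℕ → ℕ} {bu bv : ℕ → Ln4}
  {eu ev : ℕ → Fin 3 → V3} {W M a Y w1 w2 z0 ρ : ℝ}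

theorem TCore.w20 (h : TCore qm qp L P u v bu bv eu ev W M a Y w1 w2 z0 ρ) : 0 < w2 :=
  lt_of_lt_of_le h.a0 (h.aY.trans h.Yw)

theorem TCore.w10 (h : TCore qm qp L P u v bu bv eu ev W M a Y w1 w2 z0 ρ) : 0 < w1 :=
  lt_of_lt_of_le (TCore.w20 h) h.ww

theorem TCore.Y0 (h : TCore qm qp L P u v bu bv eu ev W M a Y w1 w2 z0 ρ) : 0 < Y :=
  lt_of_lt_of_le h.a0 h.aY

open Classical in
/-- **restriction**: `TCore` passes to a part of the lines and to a larger loss, if the classes stay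
full. -/
theorem TCore.restr (h : TCore qm qp L P u v bu bv eu ev W M a Y w1 w2 z0 ρ) {P' : Finset ℕ}
    (hP' : P' ⊆ P) {W' : ℝ} (hW : W ≤ W')
    (fu : ∀ t ∈ P', M ≤ W' * ((P'.filter fun s => u s = u t).card : ℝ))
    (fv : ∀ t ∈ P', M ≤ W' * ((P'.filter fun s => v s = v t).card : ℝ)) :
    TCore qm qp L P' u v bu bv eu ev W' M a Y w1 w2 z0 ρ := by
  have hM := h.M0
  have ha := h.a0
  have hw2 := TCore.w20 h
  have hY := TCore.Y0 h
  have hWM : W * M ≤ W' * M := mul_le_mul_of_nonneg_right hW hM.le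
  have hsub : ∀ (q : ℕ → Prop) [DecidablePred q],
      ((P'.filter q).card : ℝ) ≤ ((P.filter q).card : ℝ) := by
    intro q _
    exact_mod_cast Finset.card_le_card (Finset.filter_subset_filter _ hP')
  refine ⟨h.W1.trans hW, hM, h.ρ0, ha, h.aY, h.Yw, h.ww, h.lg.trans hW,
    fun t ht => h.ou t (hP' ht), fun t ht => h.ov t (hP' ht), fun t ht => h.mu t (hP' ht),
    fun t ht => h.mv t (hP' ht), fu, fv, ?_, ?_, ?_, ?_⟩
  · intro b f X0 X2 hf h0 h2 h02 h2w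
    refine (hsub _).trans ((h.hull b f X0 X2 hf h0 h2 h02 h2w).trans ?_)
    refine mul_le_mul_of_nonneg_right hWM (mul_nonneg ?_ ?_)
    · exact Real.rpow_nonneg (div_nonneg (ha.le.trans h0) ha.le) _
    · exact Real.rpow_nonneg (div_nonneg (hw2.le.trans h2) hw2.le) _
  · intro t ht δ hδ hδ1
    have hδ0 : 0 ≤ δ := by
      have hw1 := TCore.w10 h
      by_contra hcon
      push Not at hcon
      nlinarith
    refine (hsub _).trans ((h.tubeu t (hP' ht) δ hδ hδ1).trans ?_)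
    exact mul_le_mul_of_nonneg_right hWM (Real.rpow_nonneg hδ0 _)
  · intro t ht δ hδ hδ1
    have hδ0 : 0 ≤ δ := by
      have hw1 := TCore.w10 h
      by_contra hcon
      push Not at hcon
      nlinarith
    refine (hsub _).trans ((h.tubev t (hP' ht) δ hδ hδ1).trans ?_)
    exact mul_le_mul_of_nonneg_right hWM (Real.rpow_nonneg hδ0 _)
  · intro t ht j k' hD hWj
    refine (hsub _).trans ((h.share t (hP' ht) j k' hD (hW.trans hWj)).trans ?_)
    refine div_le_div_of_nonneg_right hWM (mul_nonneg ?_ ?_)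
    · exact Real.rpow_nonneg (by positivity) _
    · exact Real.rpow_nonneg (by positivity) _

/-- a power of two below `C w1 / a` has an exponent of size `W` -/
theorem exp_le {W x C : ℝ} {c j : ℕ} (hW : 1 ≤ W) (hx : 0 < x) (hlg : Real.log x ≤ W)
    (hj : (2:ℝ) ^ j ≤ 2 ^ c * x) : (j : ℝ) ≤ c + 2 * W := by
  have h2 : (0:ℝ) < 2 ^ j := by positivity
  have h1 := Real.log_le_log h2 hj
  rw [Real.log_mul (by positivity) hx.ne', Real.log_pow, Real.log_pow] at h1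
  have h3 : (0.6931471803 : ℝ) < Real.log 2 := Real.log_two_gt_d9
  have h4 : ((j : ℝ) - c) * Real.log 2 ≤ W := by linarith
  by_contra hcon
  push Not at hcon
  have h5 : 2 * W < (j : ℝ) - c := by linarith
  nlinarith

open Classical in
/-- **(C1) `core_sel`** -/
theorem core_sel (h : TCore qm qp L P u v bu bv eu ev W M a Y w1 w2 z0 ρ) (hP : P.Nonempty) :
    ∃ P' ⊆ P, P'.Nonempty ∧ ∃ j k' : ℕ,
      (∀ t ∈ P', Dy (eu (u t)) (ev (v t)) Y w1 w2 j k') ∧ (2:ℝ) ^ j * w2 ≤ 2 * w1 ∧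
      Y * (2:ℝ) ^ k' ≤ 8 * w2 ∧
      (P.card : ℝ) ≤ (2 * W) ^ 8 * (P'.card : ℝ) ∧
      TCore qm qp L P' u v bu bv eu ev ((2 * W) ^ 8) M a Y w1 w2 z0 ρ := by
  have hW := h.W1
  have hM := h.M0
  have ha := h.a0
  have hw2 := TCore.w20 h
  have hw1 := TCore.w10 h
  have hY := TCore.Y0 h
  have hx : 0 < w1 / a := div_pos hw1 ha
  -- tilts of a line
  have hdy : ∀ t, ∃ q : ℕ × ℕ, t ∈ P → Dy (eu (u t)) (ev (v t)) Y w1 w2 q.1 q.2 := by
    intro t
    obtain ⟨j, k', hjk⟩ := exists_dy (eu (u t)) (ev (v t)) (a := Y) (w1 := w1) (w2 := w2) hY hw2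
    exact ⟨(j, k'), fun _ => hjk⟩
  choose c hc using hdy
  have hj1 : ∀ t ∈ P, (2:ℝ) ^ (c t).1 * w2 ≤ 2 * w1 := fun t ht =>
    (hc t ht).hlw (h.ou t ht) (h.ov t ht) hY h.Yw h.ww
  have hk1 : ∀ t ∈ P, Y * (2:ℝ) ^ (c t).2 ≤ 8 * w2 := fun t ht =>
    (hc t ht).hleg (h.ou t ht) (h.ov t ht) hY h.Yw h.ww
  set J : ℕ := ⌊3 + 2 * W⌋₊ with hJ
  have hbound : ∀ t ∈ P, (c t).1 ≤ J ∧ (c t).2 ≤ J := by
    intro t ht
    constructor
    · refine Nat.le_floor ?_
      have h1 : (2:ℝ) ^ (c t).1 ≤ 2 ^ 1 * (w1 / a) := by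
        have h2 := hj1 t ht
        have h3 : a * (2:ℝ) ^ (c t).1 ≤ 2 * w1 := by
          refine le_trans ?_ h2
          rw [mul_comm]
          exact mul_le_mul_of_nonneg_left (h.aY.trans h.Yw) (by positivity)
        rw [pow_one, ← mul_div_assoc, le_div_iff₀ ha]
        linarith
      have h4 := exp_le (C := 1) hW hx h.lg h1
      push_cast at h4
      linarith
    · refine Nat.le_floor ?_
      have h1 : (2:ℝ) ^ (c t).2 ≤ 2 ^ 3 * (w1 / a) := by
        have h2 := hk1 t ht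
        have h3 : a * (2:ℝ) ^ (c t).2 ≤ 8 * w1 := by
          refine le_trans (mul_le_mul_of_nonneg_right h.aY (by positivity)) (h2.trans ?_)
          linarith [h.ww]
        rw [← mul_div_assoc, le_div_iff₀ ha]
        norm_num
        linarith
      have h4 := exp_le (C := 1) hW hx h.lg h1
      push_cast at h4
      linarith
  obtain ⟨k, hk, P', hP', hne, hcol, hcard, hu, hv⟩ := sel_prune P hP u v c
    (Finset.range (J + 1) ×ˢ Finset.range (J + 1)) (fun t ht => by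
      obtain ⟨h1, h2⟩ := hbound t ht
      rw [Finset.mem_product, Finset.mem_range, Finset.mem_range]
      omega) (W := W) (M := M) (N := 36 * W ^ 2) (by linarith) hM (by
      rw [Finset.card_product, Finset.card_range]
      push_cast
      have h1 : (J : ℝ) ≤ 3 + 2 * W := Nat.floor_le (by positivity)
      have h2 : (J : ℝ) + 1 ≤ 6 * W := by linarith
      have h3 : (0:ℝ) ≤ (J : ℝ) + 1 := by positivity
      nlinarith) h.fu h.fv
  have hbig : 4 * W * (36 * W ^ 2) ≤ (2 * W) ^ 8 := by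
    have h1 : W ^ 3 ≤ W ^ 8 := pow_le_pow_right₀ hW (by norm_num)
    have h2 : 0 ≤ W ^ 3 := by positivity
    have e1 : (2 * W) ^ 8 = 256 * W ^ 8 := by ring
    rw [e1]
    nlinarith
  have hbig2 : 2 * (36 * W ^ 2) ≤ (2 * W) ^ 8 := by
    have h1 : W ^ 2 ≤ W ^ 8 := pow_le_pow_right₀ hW (by norm_num)
    have h2 : 0 ≤ W ^ 2 := by positivity
    have e1 : (2 * W) ^ 8 = 256 * W ^ 8 := by ring
    rw [e1]
    nlinarith
  have hWbig : W ≤ (2 * W) ^ 8 := by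
    have h1 : W ^ 1 ≤ W ^ 8 := pow_le_pow_right₀ hW (by norm_num)
    rw [pow_one] at h1
    have e1 : (2 * W) ^ 8 = 256 * W ^ 8 := by ring
    rw [e1]
    nlinarith
  obtain ⟨t0, ht0⟩ := hne
  refine ⟨P', hP', ⟨t0, ht0⟩, k.1, k.2, fun t ht => ?_, ?_, ?_, ?_, ?_⟩
  · have h1 := hc t (hP' ht)
    rwa [hcol t ht] at h1
  · have h1 := hj1 t0 (hP' ht0)
    rwa [hcol t0 ht0] at h1
  · have h1 := hk1 t0 (hP' ht0)
    rwa [hcol t0 ht0] at h1
  · exact hcard.trans (mul_le_mul_of_nonneg_right hbig2 (Nat.cast_nonneg _))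
  · refine TCore.restr h hP' hWbig (fun t ht => ?_) (fun t ht => ?_)
    · exact (hu t ht).trans (mul_le_mul_of_nonneg_right hbig (Nat.cast_nonneg _))
    · exact (hv t ht).trans (mul_le_mul_of_nonneg_right hbig (Nat.cast_nonneg _))

end Crest.Agent.R136.Cs501
end

-- ▼ part R136/Tc5_123
section

/-!
# R136 (S0187), PLAN 2, leaf (C5): assembly of `TiltCore` (helper123)

`CoreBig` : the case of large base tilt (helper372's `core_big`).
`tiltCore_of : CoreBig → TiltCore` : selection (501) + small base tilt (`Cs5123.small_lam`) + large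
base tilt.
-/

set_option autoImplicit false
set_option linter.unusedVariables false

namespace Crest.Agent.R136.Tc5123

open Finset
open Crest.Agent.R136.Sh605 Crest.Agent.R136.Fl808
open Crest.Agent.R136.Pl2
open Crest.Agent.R136.Pl2W102 (Ex2)

/-- the case of large base tilt `2^j` -/
def CoreBig : Prop := ∀ (η : ℝ) (qm qp : Fin 3 → ℝ), Ex2 η qm qp → ∃ C : ℝ, 0 ≤ C ∧
  ∀ (L : ℕ → Ln4) (P : Finset ℕ) (u v : ℕ → ℕ) (bu bv : ℕ → Ln4) (eu ev : ℕ → Fin 3 → V3)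
    (W M a Y w1 w2 z0 ρ : ℝ) (j k' : ℕ), TCore qm qp L P u v bu bv eu ev W M a Y w1 w2 z0 ρ →
    P.Nonempty → (∀ t ∈ P, Dy (eu (u t)) (ev (v t)) Y w1 w2 j k') → W ≤ (2:ℝ) ^ j * 2 ^ k' →
    (2 * W) ^ C ≤ (2:ℝ) ^ j →
    ((2:ℝ) ^ j) ^ (qm 1 / 2) * ((2:ℝ) ^ k' * (Y / a)) ^ (qm 2 / 2) ≤ (2 * W) ^ C

theorem root_le {x s B : ℝ} (hx : 1 ≤ x) (hs : 0 < s) (h : x ^ s ≤ B) : x ≤ B ^ (1 / s) := by
  have hx0 : 0 ≤ x := by linarith
  have h1 : (x ^ s) ^ (1 / s) ≤ B ^ (1 / s) :=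
    Real.rpow_le_rpow (Real.rpow_nonneg hx0 s) h (by positivity)
  rwa [← Real.rpow_mul hx0, mul_one_div_cancel hs.ne', Real.rpow_one] at h1

theorem tiltCore_of (big : CoreBig) : TiltCore := by
  intro η qm qp hq
  obtain ⟨Cb, hCb, hbig⟩ := big η qm qp hq
  have q0 := hq.le 0
  have q1 := hq.le 1
  have q2 := hq.le 2
  have hq2 : 0 < qm 2 := hq.pos
  have hq1 : 0 < qm 1 := by
    have := hq.e1
    have := q0.1.trans q0.2
    linarith
  have hs : 0 < qm 2 - qp 0 := by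
    have := hq.e02
    have := q0.1.trans q0.2
    linarith
  have hS := Cs5123.cS_nonneg (q0.1.trans q0.2) (q2.1.trans q2.2) hs hCb
  set c1 : ℝ := Cs5123.cS qm qp Cb with hc1
  set c2 : ℝ := Cb * (1 / (qm 1 / 2)) + Cb * (1 / (qm 2 / 2)) with hc2
  have hc20 : 0 ≤ c2 := by positivity
  refine ⟨8 + 9 * (c1 + c2), by positivity, ?_⟩
  intro L P u v bu bv eu ev W M a Y w1 w2 z0 ρ H hP
  obtain ⟨P', hPP, hP', j, k', hD, -, -, -, H'⟩ := Cs501.core_sel H hP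
  obtain ⟨t, ht⟩ := hP'
  refine ⟨t, hPP ht, j, k', hD t ht, ?_⟩
  have hW1 : 1 ≤ W := H.W1
  have h2W : 1 ≤ 2 * W := by linarith
  have h2W0 : 0 < 2 * W := by linarith
  set W1 : ℝ := (2 * W) ^ 8 with hW1d
  have hW11 : 1 ≤ W1 := one_le_pow₀ h2W
  have hj : (1:ℝ) ≤ 2 ^ j := one_le_pow₀ (by norm_num)
  have hk : (1:ℝ) ≤ 2 ^ k' := one_le_pow₀ (by norm_num)
  -- powers of `2 * W1`
  have hpow : ∀ c : ℝ, 0 ≤ c → (2 * W1) ^ c ≤ (2 * W) ^ (9 * c) := by
    intro c hc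
    have h1 : 2 * W1 ≤ (2 * W) ^ (9:ℝ) := by
      rw [show (9:ℝ) = ((9:ℕ) : ℝ) from by norm_num, Real.rpow_natCast, hW1d]
      have : (2 * W) ^ 9 = (2 * W) * (2 * W) ^ 8 := by ring
      rw [this]
      have h0 : 0 ≤ (2 * W) ^ 8 := by positivity
      nlinarith
    calc (2 * W1) ^ c ≤ ((2 * W) ^ (9:ℝ)) ^ c :=
          Real.rpow_le_rpow (by positivity) h1 hc
      _ = (2 * W) ^ (9 * c) := by rw [← Real.rpow_mul h2W0.le]
  have hmono : ∀ x y : ℝ, x ≤ y → (2 * W) ^ x ≤ (2 * W) ^ y := fun x y h =>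
    Real.rpow_le_rpow_of_exponent_le h2W h
  by_cases hA : W1 ≤ (2:ℝ) ^ j * 2 ^ k'
  · by_cases hB : (2:ℝ) ^ j ≤ (2 * W1) ^ Cb
    · have h1 := Cs5123.small_lam hq H' ⟨t, ht⟩ hD hA hB
      refine h1.trans ((hpow _ hS).trans (hmono _ _ ?_))
      nlinarith
    · have h1 := hbig L P' u v bu bv eu ev W1 M a Y w1 w2 z0 ρ j k' H' ⟨t, ht⟩ hD hA
        (not_le.1 hB).le
      have ha := H.a0
      have hX : 1 ≤ Y / a := (one_le_div ha).2 H.aY
      have hkX : (1:ℝ) ≤ 2 ^ k' * (Y / a) := by nlinarith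
      have hx1 : 1 ≤ ((2:ℝ) ^ j) ^ (qm 1 / 2) := Real.one_le_rpow hj (by positivity)
      have hx2 : 1 ≤ ((2:ℝ) ^ k' * (Y / a)) ^ (qm 2 / 2) := Real.one_le_rpow hkX (by positivity)
      have b1 : ((2:ℝ) ^ j) ^ (qm 1 / 2) ≤ (2 * W1) ^ Cb := by
        refine le_trans ?_ h1
        exact le_mul_of_one_le_right (by linarith) hx2
      have b2 : ((2:ℝ) ^ k' * (Y / a)) ^ (qm 2 / 2) ≤ (2 * W1) ^ Cb := by
        refine le_trans ?_ h1
        exact le_mul_of_one_le_left (by linarith) hx1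
      have d1 := root_le hj (by positivity) b1
      have d2 := root_le hkX (by positivity) b2
      have h2W1 : 0 < 2 * W1 := by linarith
      rw [← Real.rpow_mul h2W1.le] at d1 d2
      have d3 : (2:ℝ) ^ k' ≤ 2 ^ k' * (Y / a) := le_mul_of_one_le_right (by linarith) hX
      have d4 : (2:ℝ) ^ j * 2 ^ k' ≤ (2 * W1) ^ c2 := by
        rw [hc2, Real.rpow_add h2W1]
        exact mul_le_mul d1 (d3.trans d2) (by positivity) (by positivity)
      refine d4.trans ((hpow _ hc20).trans (hmono _ _ ?_))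
      nlinarith
  · refine (not_le.1 hA).le.trans ?_
    rw [hW1d, show (2 * W) ^ 8 = (2 * W) ^ (8:ℝ) from by
      rw [show (8:ℝ) = ((8:ℕ) : ℝ) from by norm_num, Real.rpow_natCast]]
    exact hmono _ _ (by nlinarith)

end Crest.Agent.R136.Tc5123
end

-- ▼ part R136/Chg_372
section

/-!
# R136 (S0187), PLAN 2, leaf (C4) `core_hull`, constants without upper bounds of `qp` (helper89's
proof of `Chl_89`, constants generalised by helper372)

From the hull box of a path `S - v - S''` (`hull_dy`, helper706) and the hull D-max of `TCore` to the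
fields `hullU`, `hullV`, `hull1` of `Ndl372.Nd`, with the determinants `aV` of helper113.
-/

set_option autoImplicit false
set_option linter.unusedVariables false
set_option linter.unusedSectionVars false

open Finset

namespace Crest.Agent.R136.Chg372

open Crest.Agent.R136.Sh605 Crest.Agent.R136.Fl808 Crest.Agent.R136.Hl706 Crest.Agent.R136.Pl2

/-- the constant of the hull count -/
noncomputable def cH (qp : Fin 3 → ℝ) : ℝ := 4896 ^ (1 + qp 0) * 130000 ^ (1 + qp 2)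

/-- both systems, in a symmetric form -/
structure SC (qp : Fin 3 → ℝ) (L : ℕ → Ln4) (P : Finset ℕ) (u v : ℕ → ℕ) (bu bv : ℕ → Ln4)
    (eu ev : ℕ → Fin 3 → V3) (W M a Y w1 w2 z0 ρ : ℝ) (j k' : ℕ) : Prop where
  W1 : 1 ≤ W
  M0 : 0 < M
  a0 : 0 < a
  aY : a ≤ Y
  Yw : Y ≤ w2
  ww : w2 ≤ w1
  ou : ∀ t ∈ P, Ortho (eu (u t))
  ov : ∀ t ∈ P, Ortho (ev (v t))
  mu : ∀ t ∈ P, InB (L t) (bu (u t)) (eu (u t)) ![Y, w1, w2] z0 ρ
  mv : ∀ t ∈ P, InB (L t) (bv (v t)) (ev (v t)) ![Y, w1, w2] z0 ρ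
  fu : ∀ t ∈ P, M ≤ W * ((P.filter fun s => u s = u t).card : ℝ)
  fv : ∀ t ∈ P, M ≤ W * ((P.filter fun s => v s = v t).card : ℝ)
  hull : ∀ (b : Ln4) (f : Fin 3 → V3) (X0 X2 : ℝ), Ortho f → a ≤ X0 → w2 ≤ X2 → X0 ≤ X2 →
    X2 ≤ 10 ^ 6 * w1 →
    ∀ B ⊆ P, (∀ t ∈ B, InB (L t) b f ![X0, 10 ^ 6 * w1, X2] z0 ρ) → (B.card : ℝ) ≤
      W * M * ((X0 / a) ^ (1 + qp 0) * (X2 / w2) ^ (1 + qp 2))
  dd : ∀ t ∈ P, Dys (eu (u t)) (ev (v t)) Y w1 w2 j k'

section

variable {qm qp : Fin 3 → ℝ} {L : ℕ → Ln4} {P : Finset ℕ} {u v : ℕ → ℕ} {bu bv : ℕ → Ln4}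
  {eu ev : ℕ → Fin 3 → V3} {W M a Y w1 w2 z0 ρ : ℝ} {j k' : ℕ}

theorem SC.swap (H : SC qp L P u v bu bv eu ev W M a Y w1 w2 z0 ρ j k') :
    SC qp L P v u bv bu ev eu W M a Y w1 w2 z0 ρ j k' :=
  ⟨H.W1, H.M0, H.a0, H.aY, H.Yw, H.ww, H.ov, H.ou, H.mv, H.mu, H.fv, H.fu, H.hull,
    fun t ht => (H.dd t ht).symm⟩

theorem of_core (H : TCore qm qp L P u v bu bv eu ev W M a Y w1 w2 z0 ρ)
    (hD : ∀ t ∈ P, Dy (eu (u t)) (ev (v t)) Y w1 w2 j k') :
    SC qp L P u v bu bv eu ev W M a Y w1 w2 z0 ρ j k' := by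
  classical
  refine ⟨H.W1, H.M0, H.a0, H.aY, H.Yw, H.ww, H.ou, H.ov, H.mu, H.mv, H.fu, H.fv, ?_,
    fun t ht => Or.inl (hD t ht)⟩
  intro b f X0 X2 hf h1 h2 h3 h4 B hB hI
  refine le_trans (Nat.cast_le.2 (card_le_card fun t ht => ?_)) (H.hull b f X0 X2 hf h1 h2 h3 h4)
  exact mem_filter.2 ⟨hB ht, hI t ht⟩

/-- number of classes all of whose lines are in `B` -/
theorem num_classes {N B : Finset ℕ} (hW : 0 < W)
    (fu : ∀ c ∈ N, M ≤ W * ((P.filter fun s => u s = c).card : ℝ))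
    (h : ∀ c ∈ N, ∀ s ∈ P, u s = c → s ∈ B) : (N.card : ℝ) * M ≤ W * (B.card : ℝ) := by
  have h1 : (∑ c ∈ N, (P.filter fun s => u s = c).card) ≤ B.card := by
    rw [← card_biUnion]
    · refine card_le_card fun s hs => ?_
      rw [mem_biUnion] at hs
      obtain ⟨c, hc, hs⟩ := hs
      rw [mem_filter] at hs
      exact h c hc s hs.1 hs.2
    · intro c _ c' _ hcc
      rw [Function.onFun, disjoint_left]
      intro s hs hs'
      exact hcc ((mem_filter.1 hs).2.symm.trans (mem_filter.1 hs').2)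
  have h2 : (∑ c ∈ N, ((P.filter fun s => u s = c).card : ℝ)) ≤ (B.card : ℝ) := by
    exact_mod_cast h1
  calc (N.card : ℝ) * M = ∑ _c ∈ N, M := by rw [sum_const, nsmul_eq_mul]
    _ ≤ ∑ c ∈ N, W * ((P.filter fun s => u s = c).card : ℝ) := sum_le_sum fu
    _ = W * ∑ c ∈ N, ((P.filter fun s => u s = c).card : ℝ) := by rw [mul_sum]
    _ ≤ _ := by gcongr

/-- from the box to the number of classes -/
theorem SC.num (H : SC qp L P u v bu bv eu ev W M a Y w1 w2 z0 ρ j k')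
    {x : ℝ} (hx : 1 ≤ x * 2 ^ j) (hlw : (2:ℝ) ^ j * w2 ≤ 2 * w1)
    (q0 : 0 ≤ qp 0) (q2 : 0 ≤ qp 2)
    {N : Finset ℕ} {w : ℕ → ℕ} (fw : ∀ c ∈ N, M ≤ W * ((P.filter fun s => w s = c).card : ℝ))
    {b : Ln4} {f : Fin 3 → V3} (hf : Ortho f)
    (hI : ∀ c ∈ N, ∀ s ∈ P, w s = c → InB (L s) b f
      ![tH Y w2 (2 ^ j) (2 ^ k') x, 260000 * w1, 130000 * (2 ^ j * w2)] z0 ρ) :
    (N.card : ℝ) ≤ cH qp * W ^ 2 *
      ((x * (2 ^ j * 2 ^ k') * (Y / a)) ^ (1 + qp 0) * ((2:ℝ) ^ j) ^ (1 + qp 2)) := by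
  classical
  have hW0 : 0 < W := by have := H.W1; linarith
  have ha := H.a0
  have hY0 : 0 < Y := ha.trans_le H.aY
  have hw2 : 0 < w2 := hY0.trans_le H.Yw
  have hw1 : 0 < w1 := hw2.trans_le H.ww
  have hj : (1:ℝ) ≤ 2 ^ j := one_le_pow₀ (by norm_num)
  have hk : (1:ℝ) ≤ 2 ^ k' := one_le_pow₀ (by norm_num)
  have hj0 : (0:ℝ) < 2 ^ j := by positivity
  have hk0 : (0:ℝ) < 2 ^ k' := by positivity
  have hx0 : 0 < x := by
    by_contra hc
    have : x * 2 ^ j ≤ 0 := mul_nonpos_of_nonpos_of_nonneg (not_lt.1 hc) hj0.le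
    linarith
  set X0 : ℝ := tH Y w2 (2 ^ j) (2 ^ k') x with hX0
  set X2 : ℝ := 130000 * (2 ^ j * w2) with hX2
  have c1 : a ≤ X0 := H.aY.trans (tH_ge hY0 H.Yw hj hk hx0.le)
  have c2 : w2 ≤ X2 := by
    have h1 : w2 ≤ 2 ^ j * w2 := le_mul_of_one_le_left hw2.le hj
    rw [hX2]; linarith
  have c3 : X0 ≤ X2 := tH_le2 _ _ _ _ _
  have c4 : X2 ≤ 10 ^ 6 * w1 := by rw [hX2]; linarith
  have hX01 : X0 ≤ 4896 * (x * (2 ^ j * 2 ^ k') * Y) := by
    refine (tH_le1 _ _ _ _ _).trans ?_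
    have e1 : (x + 1 / (2:ℝ) ^ j) * (2 ^ j * 2 ^ k' * Y) =
        (x * 2 ^ j + 1) * (2 ^ k' * Y) := by field_simp
    have e2 : 4896 * (x * (2 ^ j * 2 ^ k') * Y) = 2448 * ((2 * (x * 2 ^ j)) * (2 ^ k' * Y)) := by
      ring
    rw [e1, e2]
    have h3 : (0:ℝ) < 2 ^ k' * Y := by positivity
    have h4 : (x * 2 ^ j + 1) * (2 ^ k' * Y) ≤ (2 * (x * 2 ^ j)) * (2 ^ k' * Y) := by
      apply mul_le_mul_of_nonneg_right _ h3.le
      linarith
    linarith
  set B : Finset ℕ := P.filter fun s => w s ∈ N with hB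
  have hIn : ∀ t ∈ B, InB (L t) b f ![X0, 10 ^ 6 * w1, X2] z0 ρ := by
    intro t ht z hz hz' i
    rw [hB, mem_filter] at ht
    have h1 := hI (w t) ht.2 t ht.1 rfl z hz hz'
    fin_cases i
    · exact h1 0
    · have h10 : |dt (f 1) ((L t).pos z - b.pos z)| ≤ 260000 * w1 := h1 1
      show |dt (f 1) ((L t).pos z - b.pos z)| ≤ 10 ^ 6 * w1
      linarith
    · exact h1 2
  have hcap := H.hull b f X0 X2 hf c1 c2 c3 c4 B (filter_subset _ _) hIn
  have hnum := num_classes (u := w) (N := N) (B := B) hW0 fw (fun c hc s hs hsc =>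
    mem_filter.2 ⟨hs, by rw [hsc]; exact hc⟩)
  have hX0p : 0 ≤ X0 := ha.le.trans c1
  have hX2p : 0 ≤ X2 := hw2.le.trans c2
  -- sizes
  have d0 : (X0 / a) ^ (1 + qp 0) ≤
      4896 ^ (1 + qp 0) * (x * (2 ^ j * 2 ^ k') * (Y / a)) ^ (1 + qp 0) := by
    have e1 : X0 / a ≤ 4896 * (x * (2 ^ j * 2 ^ k') * (Y / a)) := by
      rw [div_le_iff₀ ha]
      have : 4896 * (x * (2 ^ j * 2 ^ k') * (Y / a)) * a = 4896 * (x * (2 ^ j * 2 ^ k') * Y) := by
        field_simp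
      rw [this]; exact hX01
    calc (X0 / a) ^ (1 + qp 0) ≤ (4896 * (x * (2 ^ j * 2 ^ k') * (Y / a))) ^ (1 + qp 0) :=
          Real.rpow_le_rpow (by positivity) e1 (by linarith)
      _ = 4896 ^ (1 + qp 0) * (x * (2 ^ j * 2 ^ k') * (Y / a)) ^ (1 + qp 0) :=
          Real.mul_rpow (by positivity) (by positivity)
  have d2 : (X2 / w2) ^ (1 + qp 2) ≤ 130000 ^ (1 + qp 2) * ((2:ℝ) ^ j) ^ (1 + qp 2) := by
    have e1 : X2 / w2 ≤ 130000 * 2 ^ j := by
      rw [div_le_iff₀ hw2]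
      rw [hX2]; linarith
    calc (X2 / w2) ^ (1 + qp 2) ≤ (130000 * 2 ^ j) ^ (1 + qp 2) :=
          Real.rpow_le_rpow (by positivity) e1 (by linarith)
      _ = 130000 ^ (1 + qp 2) * ((2:ℝ) ^ j) ^ (1 + qp 2) :=
          Real.mul_rpow (by positivity) (by positivity)
  set n0 : ℝ := (x * (2 ^ j * 2 ^ k') * (Y / a)) ^ (1 + qp 0) with hn0
  set n2 : ℝ := ((2:ℝ) ^ j) ^ (1 + qp 2) with hn2
  have hn0p : 0 ≤ n0 := by rw [hn0]; positivity
  have hn2p : 0 ≤ n2 := by rw [hn2]; positivity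
  have hM := H.M0
  have d3 : (X0 / a) ^ (1 + qp 0) * (X2 / w2) ^ (1 + qp 2) ≤ cH qp * (n0 * n2) := by
    calc (X0 / a) ^ (1 + qp 0) * (X2 / w2) ^ (1 + qp 2) ≤
        (4896 ^ (1 + qp 0) * n0) * (130000 ^ (1 + qp 2) * n2) := by gcongr
      _ = (4896 ^ (1 + qp 0) * 130000 ^ (1 + qp 2)) * (n0 * n2) := by ring
      _ = _ := rfl
  have hfin : (N.card : ℝ) * M ≤ (cH qp * W ^ 2 * (n0 * n2)) * M := by
    calc (N.card : ℝ) * M ≤ W * (B.card : ℝ) := hnum
      _ ≤ W * (W * M * ((X0 / a) ^ (1 + qp 0) * (X2 / w2) ^ (1 + qp 2))) := by gcongr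
      _ ≤ W * (W * M * (cH qp * (n0 * n2))) := by gcongr
      _ = _ := by ring
  exact le_of_mul_le_mul_right hfin hM

theorem mem_reach {cu cv : ℕ → ℕ → Prop} {au av : ℕ → ℕ → ℝ} {x : ℝ} {t0 c'' : ℕ}
    (h : c'' ∈ Ndl372.reach P u v cu cv au av x t0) : ∃ t'' ∈ P, (∃ t ∈ P, u t0 = u t ∧
      cu t0 t ∧ au t0 t ≤ x ∧ v t'' = v t ∧ cv t t'' ∧ av t t'' ≤ x) ∧ u t'' = c'' := by
  unfold Ndl372.reach at h
  simp only [mem_image, mem_filter] at h
  obtain ⟨t'', ⟨h1, h2⟩, h3⟩ := h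
  exact ⟨t'', h1, h2, h3⟩

/-- two steps -/
theorem SC.reach (H : SC qp L P u v bu bv eu ev W M a Y w1 w2 z0 ρ j k')
    {x : ℝ} (hx : 1 ≤ x * 2 ^ j)
    (q0 : 0 ≤ qp 0) (q2 : 0 ≤ qp 2)
    {cu cv : ℕ → ℕ → Prop} {au av : ℕ → ℕ → ℝ}
    (hau : ∀ s ∈ P, ∀ t ∈ P, u s = u t →
      |det3 (eu (u s) 1) (ev (v s) 1) (ev (v t) 1)| * (w1 * w1) ≤
        au s t * (((2:ℝ) ^ j) ^ 2 * 2 ^ k' * (Y * w2)))
    (hav : ∀ s ∈ P, ∀ t ∈ P, v s = v t →
      |det3 (eu (u s) 1) (ev (v s) 1) (eu (u t) 1)| * (w1 * w1) ≤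
        av s t * (((2:ℝ) ^ j) ^ 2 * 2 ^ k' * (Y * w2)))
    {t0 : ℕ} (ht0 : t0 ∈ P) :
    ((Ndl372.reach P u v cu cv au av x t0).card : ℝ) ≤ cH qp * W ^ 2 *
      ((x * (2 ^ j * 2 ^ k') * (Y / a)) ^ (1 + qp 0) * ((2:ℝ) ^ j) ^ (1 + qp 2)) := by
  classical
  have ha := H.a0
  have hY0 : 0 < Y := ha.trans_le H.aY
  have hw2 : 0 < w2 := hY0.trans_le H.Yw
  have hj0 : (0:ℝ) < 2 ^ j := by positivity
  have hx0 : 0 < x := by
    by_contra hc
    have : x * 2 ^ j ≤ 0 := mul_nonpos_of_nonpos_of_nonneg (not_lt.1 hc) hj0.le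
    linarith
  have hU : (0:ℝ) < ((2:ℝ) ^ j) ^ 2 * 2 ^ k' * (Y * w2) := by positivity
  obtain ⟨n, hn, hbox⟩ := hull_dy (z0 := z0) (ρ := ρ) (H.ou t0 ht0) (H.ov t0 ht0) hY0 H.Yw H.ww
    (H.dd t0 ht0)
  have path : ∀ c'' ∈ Ndl372.reach P u v cu cv au av x t0, ∀ s ∈ P, u s = c'' →
      ∃ t ∈ P, ∃ t'' ∈ P, u t0 = u t ∧ au t0 t ≤ x ∧ v t'' = v t ∧ av t t'' ≤ x ∧ u t'' = u s := by
    intro c'' hc s hs hsc
    obtain ⟨t'', h1, ⟨t, h2, h3, _, h4, h5, _, h6⟩, hu⟩ := mem_reach hc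
    exact ⟨t, h2, t'', h1, h3, h4, h5, h6, hu.trans hsc.symm⟩
  refine H.num (w := u) (b := bu (u t0)) (f := n) hx
    ((H.dd t0 ht0).lw (H.ou t0 ht0) (H.ov t0 ht0) hY0 H.Yw H.ww) q0 q2 ?_ hn ?_
  · intro c'' hc
    obtain ⟨t'', h1, _, hu⟩ := mem_reach hc
    rw [← hu]
    exact H.fu t'' h1
  · intro c'' hc s' hs' hsc
    obtain ⟨t, ht, t'', ht'', p1, p2, p3, p4, p5⟩ := path c'' hc s' hs' hsc
    have m1 := H.mu t ht
    have m2 := H.mv t ht
    have m3 := H.mv t'' ht''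
    have m4 := H.mu t'' ht''
    have m5 := H.mu s' hs'
    rw [← p1] at m1
    rw [p3] at m3
    rw [← p5] at m5
    have d1 := hau t0 ht0 t ht p1
    have d2 := hav t ht t'' ht'' p3.symm
    rw [← p1] at d2
    have o2 := H.dd t ht
    rw [← p1] at o2
    have o3 := H.dd t'' ht''
    rw [p3] at o3
    exact hbox x (ev (v t)) (eu (u t'')) (bu (u t0)) (bv (v t)) (bu (u t'')) (L t) (L t'') (L s')
      hx0.le (H.ov t ht) (H.ou t'' ht'') o2 o3.symm
      (d1.trans (mul_le_mul_of_nonneg_right p2 hU.le))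
      (d2.trans (mul_le_mul_of_nonneg_right p4 hU.le)) m1 m2 m3 m4 m5

/-- one step -/
theorem SC.one (H : SC qp L P u v bu bv eu ev W M a Y w1 w2 z0 ρ j k')
    {x : ℝ} (hx : 1 ≤ x * 2 ^ j)
    (q0 : 0 ≤ qp 0) (q2 : 0 ≤ qp 2)
    {cu : ℕ → ℕ → Prop} {au : ℕ → ℕ → ℝ}
    (hau : ∀ s ∈ P, ∀ t ∈ P, u s = u t →
      |det3 (eu (u s) 1) (ev (v s) 1) (ev (v t) 1)| * (w1 * w1) ≤
        au s t * (((2:ℝ) ^ j) ^ 2 * 2 ^ k' * (Y * w2)))
    {t0 : ℕ} (ht0 : t0 ∈ P) (inst : DecidableEq ℕ)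
    (inst' : DecidablePred fun t => u t0 = u t ∧ cu t0 t ∧ au t0 t ≤ x) :
    (((@Finset.image ℕ ℕ inst v (@Finset.filter ℕ
      (fun t => u t0 = u t ∧ cu t0 t ∧ au t0 t ≤ x) inst' P)).card : ℕ) : ℝ) ≤
      cH qp * W ^ 2 *
      ((x * (2 ^ j * 2 ^ k') * (Y / a)) ^ (1 + qp 0) * ((2:ℝ) ^ j) ^ (1 + qp 2)) := by
  have ha := H.a0
  have hY0 : 0 < Y := ha.trans_le H.aY
  have hw2 : 0 < w2 := hY0.trans_le H.Yw
  have hj0 : (0:ℝ) < 2 ^ j := by positivity
  have hx0 : 0 < x := by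
    by_contra hc
    have : x * 2 ^ j ≤ 0 := mul_nonpos_of_nonpos_of_nonneg (not_lt.1 hc) hj0.le
    linarith
  have hU : (0:ℝ) < ((2:ℝ) ^ j) ^ 2 * 2 ^ k' * (Y * w2) := by positivity
  obtain ⟨n, hn, hbox⟩ := hull_dy1 (z0 := z0) (ρ := ρ) (H.ou t0 ht0) (H.ov t0 ht0) hY0 H.Yw H.ww
    (H.dd t0 ht0)
  have path : ∀ c'' ∈ @Finset.image ℕ ℕ inst v (@Finset.filter ℕ
      (fun t => u t0 = u t ∧ cu t0 t ∧ au t0 t ≤ x) inst' P),
      ∃ t ∈ P, u t0 = u t ∧ au t0 t ≤ x ∧ v t = c'' := by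
    intro c'' hc
    rw [mem_image] at hc
    obtain ⟨t, ht, hu⟩ := hc
    rw [mem_filter] at ht
    obtain ⟨h1, h3, _, h4⟩ := ht
    exact ⟨t, h1, h3, h4, hu⟩
  refine H.num (w := v) (b := bu (u t0)) (f := n) hx
    ((H.dd t0 ht0).lw (H.ou t0 ht0) (H.ov t0 ht0) hY0 H.Yw H.ww) q0 q2 ?_ hn ?_
  · intro c'' hc
    obtain ⟨t, ht, _, _, hu⟩ := path c'' hc
    rw [← hu]
    exact H.fv t ht
  · intro c'' hc s' hs' hsc
    obtain ⟨t, ht, p1, p2, p3⟩ := path c'' hc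
    have p3' : v t = v s' := p3.trans hsc.symm
    have m1 := H.mu t ht
    have m2 := H.mv t ht
    have m5 := H.mv s' hs'
    rw [← p1] at m1
    rw [← p3'] at m5
    have d1 := hau t0 ht0 t ht p1
    have o2 := H.dd t ht
    rw [← p1] at o2
    exact hbox x (ev (v t)) (bu (u t0)) (bv (v t)) (L t) (L s')
      hx0.le (H.ov t ht) o2 (d1.trans (mul_le_mul_of_nonneg_right p2 hU.le)) m1 m2 m5

/-! ### the determinants of helper113 -/

open Crest.Agent.R136.Cmd113 (aV)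

theorem aV_le (hY : 0 < Y) (hw2 : 0 < w2) {s t : ℕ} (h : v s = v t) :
    |det3 (eu (u s) 1) (ev (v s) 1) (eu (u t) 1)| * (w1 * w1) ≤
      aV u v eu ev Y w1 w2 (2 ^ j) (2 ^ k') s t * (((2:ℝ) ^ j) ^ 2 * 2 ^ k' * (Y * w2)) := by
  have hj0 : (0:ℝ) < 2 ^ j := by positivity
  have hk0 : (0:ℝ) < 2 ^ k' := by positivity
  unfold aV
  rw [if_pos h, h]
  refine le_of_eq ?_
  field_simp

theorem aV_le' (hY : 0 < Y) (hw2 : 0 < w2) {s t : ℕ} (h : u s = u t) :
    |det3 (eu (u s) 1) (ev (v s) 1) (ev (v t) 1)| * (w1 * w1) ≤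
      aV v u ev eu Y w1 w2 (2 ^ j) (2 ^ k') s t * (((2:ℝ) ^ j) ^ 2 * 2 ^ k' * (Y * w2)) := by
  have h1 := aV_le (u := v) (v := u) (eu := ev) (ev := eu) (w1 := w1) (j := j) (k' := k') hY hw2 h
  rwa [Hl706.det3_swap] at h1

/-- **(C4)**, `hullU` of `Ndl372.Nd` (with `N x = (x Λ E Y / a)^(1 + qp 0) Λ^(1 + qp 2)`). -/
theorem hullUg (H : TCore qm qp L P u v bu bv eu ev W M a Y w1 w2 z0 ρ)
    (hD : ∀ t ∈ P, Dy (eu (u t)) (ev (v t)) Y w1 w2 j k') {x : ℝ} (hx : 1 ≤ x * 2 ^ j)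
    (q0 : 0 ≤ qp 0) (q2 : 0 ≤ qp 2) (cu cv : ℕ → ℕ → Prop)
    {t0 : ℕ} (ht0 : t0 ∈ P) :
    ((Ndl372.reach P u v cu cv (aV v u ev eu Y w1 w2 (2 ^ j) (2 ^ k'))
      (aV u v eu ev Y w1 w2 (2 ^ j) (2 ^ k')) x t0).card : ℝ) ≤ cH qp * W ^ 2 *
      ((x * (2 ^ j * 2 ^ k') * (Y / a)) ^ (1 + qp 0) * ((2:ℝ) ^ j) ^ (1 + qp 2)) := by
  have hY0 : 0 < Y := H.a0.trans_le H.aY
  have hw2 : 0 < w2 := hY0.trans_le H.Yw
  exact (of_core H hD).reach hx q0 q2 (fun s _ t _ h => aV_le' hY0 hw2 h)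
    (fun s _ t _ h => aV_le hY0 hw2 h) ht0

/-- **(C4)**, `hullV` -/
theorem hullVg (H : TCore qm qp L P u v bu bv eu ev W M a Y w1 w2 z0 ρ)
    (hD : ∀ t ∈ P, Dy (eu (u t)) (ev (v t)) Y w1 w2 j k') {x : ℝ} (hx : 1 ≤ x * 2 ^ j)
    (q0 : 0 ≤ qp 0) (q2 : 0 ≤ qp 2) (cu cv : ℕ → ℕ → Prop)
    {t0 : ℕ} (ht0 : t0 ∈ P) :
    ((Ndl372.reach P v u cv cu (aV u v eu ev Y w1 w2 (2 ^ j) (2 ^ k'))
      (aV v u ev eu Y w1 w2 (2 ^ j) (2 ^ k')) x t0).card : ℝ) ≤ cH qp * W ^ 2 *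
      ((x * (2 ^ j * 2 ^ k') * (Y / a)) ^ (1 + qp 0) * ((2:ℝ) ^ j) ^ (1 + qp 2)) := by
  have hY0 : 0 < Y := H.a0.trans_le H.aY
  have hw2 : 0 < w2 := hY0.trans_le H.Yw
  exact (of_core H hD).swap.reach hx q0 q2 (fun s _ t _ h => aV_le' hY0 hw2 h)
    (fun s _ t _ h => aV_le hY0 hw2 h) ht0

/-- **(C4)**, `hull1` (generic instances: `hull1g .. _ _`) -/
theorem hull1g (H : TCore qm qp L P u v bu bv eu ev W M a Y w1 w2 z0 ρ)
    (hD : ∀ t ∈ P, Dy (eu (u t)) (ev (v t)) Y w1 w2 j k') {x : ℝ} (hx : 1 ≤ x * 2 ^ j)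
    (q0 : 0 ≤ qp 0) (q2 : 0 ≤ qp 2) (cu : ℕ → ℕ → Prop)
    {t0 : ℕ} (ht0 : t0 ∈ P) (inst : DecidableEq ℕ) (inst' : DecidablePred fun t =>
      u t0 = u t ∧ cu t0 t ∧ aV v u ev eu Y w1 w2 (2 ^ j) (2 ^ k') t0 t ≤ x) :
    (((@Finset.image ℕ ℕ inst v (@Finset.filter ℕ (fun t => u t0 = u t ∧ cu t0 t ∧
      aV v u ev eu Y w1 w2 (2 ^ j) (2 ^ k') t0 t ≤ x) inst' P)).card : ℕ) : ℝ) ≤
      cH qp * W ^ 2 *
      ((x * (2 ^ j * 2 ^ k') * (Y / a)) ^ (1 + qp 0) * ((2:ℝ) ^ j) ^ (1 + qp 2)) := by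
  have hY0 : 0 < Y := H.a0.trans_le H.aY
  have hw2 : 0 < w2 := hY0.trans_le H.Yw
  exact (of_core H hD).one hx q0 q2 (fun s _ t _ h => aV_le' hY0 hw2 h) ht0 inst inst'

end

end Crest.Agent.R136.Chg372
end

-- ▼ part R136/Cbc_372

/-!
# R136 (S0187), PLAN 2: `TiltCore` (helper372)

* `cross_v`, `cross_u` : (C2) from `Cr418.cross_core` (helper18) and `Gin524.good_u`, `good_v`
  (helper524);
* `coreBig : Tc5123.CoreBig`, `tiltCore : Pl2.TiltCore`.
-/

set_option autoImplicit false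
set_option linter.unusedVariables false

open Finset

namespace Crest.Agent.R136.Cbc372

open Crest.Agent.R136.Sh605 Crest.Agent.R136.Fl808
open Crest.Agent.R136.Ndl372 (reach join Nd)
open Crest.Agent.R136.Cmd113
open Crest.Agent.R136.Pl2 (TCore TiltCore)
open Crest.Agent.R136.Pl2W102 (Ex2)
open Crest.Agent.R136.Cbg372 (WW core_big)
open Crest.Agent.R136.Cr318 (Cq Cq_pos)
open Crest.Agent.R136.Gin524 (Kq Kq_pos good_u good_v)

/-- constant of the slope threshold -/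
noncomputable def c0 (q : ℝ) : ℝ := Cq q * (8 * 4 ^ (1 + q)) * (160 / 9) + 1

/-- the slope threshold -/
noncomputable def th (q W : ℝ) : ℝ := (c0 q * W ^ 2) ^ (-(1 / q))

theorem c0_ge {q : ℝ} (hq : 0 < q) : 1 ≤ c0 q := by
  have h := Cq_pos hq
  have : 0 ≤ Cq q * (8 * 4 ^ (1 + q)) * (160 / 9) := by positivity
  unfold c0; linarith

theorem cW_ge {q W : ℝ} (hq : 0 < q) (hW : 1 ≤ W) : 1 ≤ c0 q * W ^ 2 := by
  have h := c0_ge hq
  have h2 : 1 ≤ W ^ 2 := one_le_pow₀ hW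
  nlinarith

theorem th_pos {q W : ℝ} (hq : 0 < q) (hW : 1 ≤ W) : 0 < th q W := by
  have h := cW_ge hq hW
  unfold th
  exact Real.rpow_pos_of_pos (by linarith) _

theorem th_le {q W : ℝ} (hq : 0 < q) (hW : 1 ≤ W) : th q W ≤ 1 :=
  Real.rpow_le_one_of_one_le_of_nonpos (cW_ge hq hW) (by
    have : 0 < 1 / q := by positivity
    linarith)

theorem th_inv {q W : ℝ} (hq : 0 < q) (hW : 1 ≤ W) : (th q W)⁻¹ = (c0 q * W ^ 2) ^ (1 / q) := by
  have h := cW_ge hq hW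
  rw [th, Real.rpow_neg (by linarith), inv_inv]

theorem th_pow {q W : ℝ} (hq : 0 < q) (hW : 1 ≤ W) : (th q W) ^ q = (c0 q * W ^ 2)⁻¹ := by
  have h := cW_ge hq hW
  rw [th, ← Real.rpow_mul (by linarith), neg_mul, one_div_mul_cancel hq.ne', Real.rpow_neg_one]

theorem th_small {q W : ℝ} (hq : 0 < q) (hW : 1 ≤ W) :
    Cq q * (8 * 4 ^ (1 + q) * W ^ 2) * (th q W) ^ q ≤ 9 / 160 := by
  have h := cW_ge hq hW
  have hC := Cq_pos hq
  rw [th_pow hq hW, ← div_eq_mul_inv, div_le_iff₀ (by linarith)]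
  unfold c0
  have h2 : 0 ≤ W ^ 2 := by positivity
  nlinarith

section

variable {qm qp : Fin 3 → ℝ} {L : ℕ → Ln4} {P : Finset ℕ} {u v : ℕ → ℕ} {bu bv : ℕ → Ln4}
  {eu ev : ℕ → Fin 3 → V3} {W M a Y w1 w2 z0 ρ : ℝ}

open Classical in
/-- **(C2)**, second system -/
theorem cross_v (H : TCore qm qp L P u v bu bv eu ev W M a Y w1 w2 z0 ρ) (hq : 0 < qm 1) {j : ℕ}
    (hj : (2:ℝ) ^ j * w2 ≤ 2 * w1) (hθ : 1 ≤ th (qm 1) W * 2 ^ (j + 1)) :
    ∀ Q ⊆ P, P.card ≤ 4 * Q.card → (P.card : ℝ) * M ≤ 4000 * W / th (qm 1) W *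
      (((Q ×ˢ Q).filter fun p => v p.1 = v p.2 ∧ CrV L P u v eu ev w1 z0 ρ M (2 ^ j)
        (Kq (qm 1) * W ^ 2) (th (qm 1) W) p.1 p.2).card : ℝ) := by
  intro Q hQ hc
  have hW := H.W1
  have hw2 : 0 < w2 := (H.a0.trans_le H.aY).trans_le H.Yw
  have hw1 : 0 < w1 := hw2.trans_le H.ww
  have ht := th_pos hq hW
  have h1 := Cr418.cross_core (e := ev) (bv := bv) hW H.M0 hq hw1 hj H.ρ0 H.tubev
    (fun t ht z h0 h1 => by simpa using H.mv t ht z h0 h1 1) H.fv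
    (GoodI L P u eu w1 M (2 ^ j) (Kq (qm 1) * W ^ 2))
    (fun t ht => good_u H hq hj (Nat.le_succ j) le_rfl t ht) hθ (th_le hq hW)
    (th_small hq hW) hQ hc
  refine h1.trans (mul_le_mul_of_nonneg_left (Nat.cast_le.2 (card_le_card ?_)) (by positivity))
  intro p hp
  rw [mem_filter] at hp ⊢
  obtain ⟨hpQ, hv, z, a1, a2, a3, a4, a5, a6⟩ := hp
  refine ⟨hpQ, hv, hv, z, a1, a2, a3.trans ?_, a4, a5, a6⟩
  have : 0 < w1 / 2 ^ j := by positivity
  linarith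

open Classical in
/-- **(C2)**, first system -/
theorem cross_u (H : TCore qm qp L P u v bu bv eu ev W M a Y w1 w2 z0 ρ) (hq : 0 < qm 1) {j : ℕ}
    (hj : (2:ℝ) ^ j * w2 ≤ 2 * w1) (hθ : 1 ≤ th (qm 1) W * 2 ^ (j + 1)) :
    ∀ Q ⊆ P, P.card ≤ 4 * Q.card → (P.card : ℝ) * M ≤ 4000 * W / th (qm 1) W *
      (((Q ×ˢ Q).filter fun p => u p.1 = u p.2 ∧ CrV L P v u ev eu w1 z0 ρ M (2 ^ j)
        (Kq (qm 1) * W ^ 2) (th (qm 1) W) p.1 p.2).card : ℝ) := by
  intro Q hQ hc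
  have hW := H.W1
  have hw2 : 0 < w2 := (H.a0.trans_le H.aY).trans_le H.Yw
  have hw1 : 0 < w1 := hw2.trans_le H.ww
  have ht := th_pos hq hW
  have h1 := Cr418.cross_core (e := eu) (bv := bu) hW H.M0 hq hw1 hj H.ρ0 H.tubeu
    (fun t ht z h0 h1 => by simpa using H.mu t ht z h0 h1 1) H.fu
    (GoodI L P v ev w1 M (2 ^ j) (Kq (qm 1) * W ^ 2))
    (fun t ht => good_v H hq hj (Nat.le_succ j) le_rfl t ht) hθ (th_le hq hW)
    (th_small hq hW) hQ hc
  refine h1.trans (mul_le_mul_of_nonneg_left (Nat.cast_le.2 (card_le_card ?_)) (by positivity))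
  intro p hp
  rw [mem_filter] at hp ⊢
  obtain ⟨hpQ, hv, z, a1, a2, a3, a4, a5, a6⟩ := hp
  refine ⟨hpQ, hv, hv, z, a1, a2, a3.trans ?_, a4, a5, a6⟩
  have : 0 < w1 / 2 ^ j := by positivity
  linarith

end

/-- a constant as a power of `2 W` -/
theorem const_le {c W : ℝ} (hc : 1 ≤ c) (hW : 1 ≤ W) :
    c ≤ (2 * W) ^ (Real.log c / Real.log 2) := by
  have hl2 : 0 < Real.log 2 := Real.log_pos (by norm_num)
  have h2 : 0 < 2 * W := by linarith
  rw [← Real.log_le_log_iff (by linarith) (by positivity), Real.log_rpow h2,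
    div_mul_eq_mul_div, le_div_iff₀ hl2]
  exact mul_le_mul_of_nonneg_left (Real.log_le_log (by norm_num) (by linarith))
    (Real.log_nonneg hc)

/-- exponent of `θ⁻¹` -/
noncomputable def Cth (q : ℝ) : ℝ := (Real.log (c0 q) / Real.log 2 + 2) * (1 / q)

theorem Cth_nonneg {q : ℝ} (hq : 0 < q) : 0 ≤ Cth q := by
  have := Real.log_nonneg (c0_ge hq)
  have hl2 : 0 < Real.log 2 := Real.log_pos (by norm_num)
  unfold Cth; positivity

theorem th_inv_le {q W : ℝ} (hq : 0 < q) (hW : 1 ≤ W) : (th q W)⁻¹ ≤ (2 * W) ^ Cth q := by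
  have h2 : 0 < 2 * W := by linarith
  rw [th_inv hq hW, Cth, Real.rpow_mul h2.le]
  refine Real.rpow_le_rpow (by have := cW_ge hq hW; linarith) ?_ (by positivity)
  rw [Real.rpow_add h2]
  have h3 := const_le (c0_ge hq) hW
  have h4 : W ^ 2 ≤ (2 * W) ^ (2:ℝ) := by
    rw [Real.rpow_two]; nlinarith
  gcongr

/-- the constant of `core_big` -/
theorem WW_le {qp : Fin 3 → ℝ} {q W G : ℝ} (hq : 0 < q) (hW : 1 ≤ W) (hG : 0 ≤ G) :
    WW qp W (Kq q * W ^ 2) (th q W) (4000 * W / th q W) (G * W ^ 2) ≤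
      (4000 + 4 + 16 ^ (1 + qp 0) * G + (Kq q + 4) * 800000) * (2 * W) ^ (2 + Cth q) := by
  have h2 : 0 < 2 * W := by linarith
  have hK := Kq_pos hq
  set β : ℝ := (2 * W) ^ Cth q with hβ
  have hβ1 : 1 ≤ β := Real.one_le_rpow (by linarith) (Cth_nonneg hq)
  have hti : (th q W)⁻¹ ≤ β := th_inv_le hq hW
  have hti0 : 0 < (th q W)⁻¹ := inv_pos.2 (th_pos hq hW)
  have e0 : (2 * W) ^ (2 + Cth q) = (2 * W) ^ 2 * β := by
    rw [Real.rpow_add h2, Real.rpow_two]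
  rw [e0, WW, div_eq_mul_inv, div_eq_mul_inv]
  set τ : ℝ := (th q W)⁻¹ with hτ
  have hW2 : W ≤ W ^ 2 := by nlinarith
  have hT : W ^ 2 ≤ (2 * W) ^ 2 := by nlinarith
  have hT1 : (1:ℝ) ≤ (2 * W) ^ 2 := by nlinarith
  set T : ℝ := (2 * W) ^ 2 with hTd
  have hT0 : 0 < T := by linarith
  have i1 : 4000 * W * τ ≤ 4000 * (T * β) := by
    have : W * τ ≤ T * β := mul_le_mul (hW2.trans hT) hti hti0.le hT0.le
    nlinarith
  have i2 : 4 * W ≤ 4 * (T * β) := by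
    have : W * 1 ≤ T * β := mul_le_mul (hW2.trans hT) hβ1 (by norm_num) hT0.le
    linarith
  have i3 : 16 ^ (1 + qp 0) * (G * W ^ 2) ≤ 16 ^ (1 + qp 0) * G * (T * β) := by
    have h3 : W ^ 2 * 1 ≤ T * β := mul_le_mul hT hβ1 (by norm_num) hT0.le
    have h4 : 0 ≤ (16:ℝ) ^ (1 + qp 0) * G := by positivity
    calc 16 ^ (1 + qp 0) * (G * W ^ 2) = 16 ^ (1 + qp 0) * G * (W ^ 2 * 1) := by ring
      _ ≤ _ := mul_le_mul_of_nonneg_left h3 h4
  have i4 : (Kq q * W ^ 2 + 4 * W) * (800000 * τ) ≤ (Kq q + 4) * 800000 * (T * β) := by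
    have h3 : Kq q * W ^ 2 + 4 * W ≤ (Kq q + 4) * T := by
      have : Kq q * W ^ 2 ≤ Kq q * T := mul_le_mul_of_nonneg_left hT hK.le
      nlinarith
    calc (Kq q * W ^ 2 + 4 * W) * (800000 * τ) ≤ ((Kq q + 4) * T) * (800000 * β) := by
          apply mul_le_mul h3 (by linarith) (by positivity) (by positivity)
      _ = _ := by ring
  linarith

/-- **the case of large base tilt** -/
theorem coreBig : Tc5123.CoreBig := by
  classical
  intro η qm qp hx
  have q0 := hx.le 0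
  have q2 := hx.le 2
  have p00 : 0 ≤ qp 0 := q0.1.trans q0.2
  have p20 : 0 ≤ qp 2 := q2.1.trans q2.2
  have hq : 0 < qm 1 := by
    have := hx.e1; have := hx.pos; linarith [q2.2]
  obtain ⟨K, hK⟩ := exists_nat_ge (8 / qm 1)
  have hKm : 8 ≤ (K : ℝ) * qm 1 := by rwa [div_le_iff₀ hq] at hK
  set G : ℝ := Chg372.cH qp with hGd
  have hG : 0 ≤ G := by rw [hGd]; unfold Chg372.cH; positivity
  have hKq := Kq_pos hq
  set c1 : ℝ := 4000 + 4 + 16 ^ (1 + qp 0) * G + (Kq (qm 1) + 4) * 800000 with hc1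
  have hc11 : 1 ≤ c1 := by
    have : 0 ≤ 16 ^ (1 + qp 0) * G := by positivity
    rw [hc1]; nlinarith
  have h4K : (1:ℝ) ≤ 4 ^ K := one_le_pow₀ (by norm_num)
  have hc2 : 1 ≤ 6 * 4 ^ K * c1 ^ 5 := by
    have : 1 ≤ c1 ^ 5 := one_le_pow₀ hc11
    nlinarith
  set c2 : ℝ := 6 * 4 ^ K * c1 ^ 5 with hc2d
  have hCt := Cth_nonneg hq
  have hl2 : 0 < Real.log 2 := Real.log_pos (by norm_num)
  have hlc := Real.log_nonneg hc2
  have hlc' : 0 ≤ Real.log c2 / Real.log 2 := by positivity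
  refine ⟨Cth (qm 1) + (Real.log c2 / Real.log 2 + 5 * (2 + Cth (qm 1))), by linarith, ?_⟩
  intro L P u v bu bv eu ev W M a Y w1 w2 z0 ρ j k' H hP hD hW2 hbig
  have hW := H.W1
  have h2W : 1 ≤ 2 * W := by linarith
  have h2W0 : 0 < 2 * W := by linarith
  have hY : 0 < Y := H.a0.trans_le H.aY
  obtain ⟨t0, ht0⟩ := hP
  have hlw := (hD t0 ht0).hlw (H.ou t0 ht0) (H.ov t0 ht0) hY H.Yw H.ww
  have htp := th_pos hq hW
  have hθ : 1 ≤ th (qm 1) W * 2 ^ (j + 1) := by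
    have h1 : (th (qm 1) W)⁻¹ ≤ (2:ℝ) ^ j := by
      refine (th_inv_le hq hW).trans (le_trans ?_ hbig)
      exact Real.rpow_le_rpow_of_exponent_le h2W (by linarith)
    have h2 : (1:ℝ) ≤ th (qm 1) W * 2 ^ j := by
      rw [inv_le_iff_one_le_mul₀ htp] at h1
      linarith
    have h3 : th (qm 1) W * 2 ^ (j + 1) = 2 * (th (qm 1) W * 2 ^ j) := by ring
    rw [h3]; linarith
  have hD1 : 1 ≤ 4000 * W / th (qm 1) W := by
    rw [le_div_iff₀ htp]
    have := th_le hq hW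
    linarith
  have h1 := core_big hx hKm H ⟨t0, ht0⟩ hD hW2 (B := Kq (qm 1) * W ^ 2) (θ := th (qm 1) W)
    (D := 4000 * W / th (qm 1) W) (G := G * W ^ 2) (by positivity) htp (th_le hq hW) hD1
    (by positivity) (cross_u H hq hlw hθ) (cross_v H hq hlw hθ)
    (fun cu cv x hx1 t ht => Chg372.hullUg H hD hx1 p00 p20 cu cv ht)
    (fun cu cv x hx1 t ht => Chg372.hullVg H hD hx1 p00 p20 cu cv ht)
    (fun cu x hx1 t ht inst inst' => Chg372.hull1g H hD hx1 p00 p20 cu ht inst inst')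
  have h2 := WW_le (qp := qp) hq hW hG
  have h3 : 0 ≤ WW qp W (Kq (qm 1) * W ^ 2) (th (qm 1) W) (4000 * W / th (qm 1) W)
      (G * W ^ 2) := by
    unfold WW; positivity
  refine h1.trans ?_
  calc 6 * 4 ^ K * WW qp W (Kq (qm 1) * W ^ 2) (th (qm 1) W) (4000 * W / th (qm 1) W)
        (G * W ^ 2) ^ 5 ≤ 6 * 4 ^ K * (c1 * (2 * W) ^ (2 + Cth (qm 1))) ^ 5 := by gcongr
    _ = c2 * ((2 * W) ^ (2 + Cth (qm 1))) ^ 5 := by rw [hc2d]; ring
    _ ≤ (2 * W) ^ (Real.log c2 / Real.log 2) * ((2 * W) ^ (2 + Cth (qm 1))) ^ 5 := by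
        gcongr
        exact const_le hc2 hW
    _ = (2 * W) ^ (Real.log c2 / Real.log 2 + 5 * (2 + Cth (qm 1))) := by
        rw [← Real.rpow_natCast, ← Real.rpow_mul h2W0.le, ← Real.rpow_add h2W0]
        congr 1
        push_cast; ring
    _ ≤ _ := Real.rpow_le_rpow_of_exponent_le h2W (by linarith)

/-- **TARGET 1** of `Pl2Def_860` -/
theorem tiltCore : TiltCore := Tc5123.tiltCore_of coreBig

end Crest.Agent.R136.Cbc372
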