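import Crest.Agent.R136.AlD_601
import Crest.Agent.R136.Chm_862
import Crest.Agent.R136.Asm1_102
import Crest.Agent.R136.KapP_335

-- ▼ part R136/Chm2_862
section

/-!
# R136 (U4, PLAN 2 (3) = (AL)): transition between the charts of two sheets (helper862)

* `co e w x`  : coordinates of `x` in the frame `w k • e k`.
* `Tr K S S'` : the dimensions and the long axes of `S`, `S'` are comparable.
* `tr S S' ρ` : linear part of the transition from the chart of `S` to the chart of `S'`.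
* `jt_tr`     : the jet in the chart of `S` from the jet in the chart of `S'`.
* `jt_shift`  : the jet at another point.
-/

set_option autoImplicit false

namespace Crest.Agent.R136.Chm862

open Crest.Agent.R136.Sh605
open Crest.Agent.R136.Rk601
open Crest.Agent.R136.AlD601
open Crest.Agent.R136.K4 (Plk4)
open Crest.Agent.R136.Tlt51 (Shp InP)
open Crest.Agent.R136.Tl102 (cmb fr angC dt_cmb_fr)
open Crest.Agent.R136.Deep51 (dt_exp abs_dt_exp abs_dt_unit)

/-- coordinates of `x` in the frame `w k • e k` -/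
noncomputable def co (e : Fin 3 → V3) (w : V3) (x : V3) : V3 := fun k => dt (e k) x / w k

theorem cmb_co {e : Fin 3 → V3} {w : V3} (he : Ortho e) (hw : ∀ i, 0 < w i) (x : V3) :
    cmb (fr e w) (co e w x) = x := by
  funext j
  have h := he.expand x j
  simp only [cmb, fr, co, Pi.smul_apply, smul_eq_mul]
  rw [h]
  have h0 := (hw 0).ne'
  have h1 := (hw 1).ne'
  have h2 := (hw 2).ne'
  field_simp

theorem co_add (e : Fin 3 → V3) (w : V3) (x y : V3) (k : Fin 3) :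
    co e w (x + y) k = co e w x k + co e w y k := by
  simp only [co, dt_add, add_div]

theorem co_smul (e : Fin 3 → V3) (w : V3) (c : ℝ) (x : V3) (k : Fin 3) :
    co e w (c • x) k = c * co e w x k := by
  simp only [co, dt, Pi.smul_apply, smul_eq_mul]; ring


/-- comparable dimensions and long axes -/
structure Tr (K : ℝ) (S S' : Plk4) : Prop where
  K1 : 1 ≤ K
  o : Ortho S.e
  o' : Ortho S'.e
  w0 : 0 < S.w 0
  w0' : 0 < S'.w 0
  w02 : S.w 0 ≤ S.w 2
  w02' : S'.w 0 ≤ S'.w 2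
  w21 : S.w 2 ≤ S.w 1
  w21' : S'.w 2 ≤ S'.w 1
  c1 : S.w 1 ≤ K * S'.w 1
  c2 : S.w 2 ≤ K * S'.w 2
  an2 : |dt (S'.e 2) (S.e 1)| * S.w 1 ≤ K * S'.w 2
  an0 : |dt (S'.e 0) (S.e 1)| * S.w 1 ≤ K * S'.w 2

section

variable {K K' : ℝ} {S S' S'' : Plk4}

theorem Tr.pos (H : Tr K S S') (i : Fin 3) : 0 < S.w i := by
  have h2 := H.w0.trans_le H.w02
  fin_cases i
  · exact H.w0
  · exact h2.trans_le H.w21
  · exact h2

theorem Tr.pos' (H : Tr K S S') (i : Fin 3) : 0 < S'.w i := by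
  have h2 := H.w0'.trans_le H.w02'
  fin_cases i
  · exact H.w0'
  · exact h2.trans_le H.w21'
  · exact h2

theorem Tr.mono (H : Tr K S S') (h : K ≤ K') : Tr K' S S' := by
  have p1 := H.pos' 1
  have p2 := H.pos' 2
  exact { H with
    K1 := H.K1.trans h
    c1 := H.c1.trans (mul_le_mul_of_nonneg_right h p1.le)
    c2 := H.c2.trans (mul_le_mul_of_nonneg_right h p2.le)
    an2 := H.an2.trans (mul_le_mul_of_nonneg_right h p2.le)
    an0 := H.an0.trans (mul_le_mul_of_nonneg_right h p2.le) }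

/-- from the dimensions and the angle of the long axes -/
theorem Tr.of_ang {w1 w2 z0 ρ r : ℝ} (hK : 1 ≤ K) (hr : 0 < r) (hS : Shp S z0 ρ r)
    (hS' : Shp S' z0 ρ r) (h1 : w1 ≤ K * S.w 1 ∧ S.w 1 ≤ K * w1)
    (h2 : w2 ≤ K * S.w 2 ∧ S.w 2 ≤ K * w2) (h1' : w1 ≤ K * S'.w 1 ∧ S'.w 1 ≤ K * w1)
    (h2' : w2 ≤ K * S'.w 2 ∧ S'.w 2 ≤ K * w2) (ha : angC S S' * w1 ≤ K * w2) :
    Tr (K ^ 3) S S' ∧ Tr (K ^ 3) S' S := by
  have hK0 : (0 : ℝ) < K := by linarith
  have w0 : 0 < S.w 0 := (hr.trans_le hS.r0_le).trans_le hS.a_le0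
  have w0' : 0 < S'.w 0 := (hr.trans_le hS'.r0_le).trans_le hS'.a_le0
  have w2p : 0 < S.w 2 := w0.trans_le hS.w0_le
  have w1p : 0 < S.w 1 := w2p.trans_le hS.w_le
  have w2p' : 0 < S'.w 2 := w0'.trans_le hS'.w0_le
  have w1p' : 0 < S'.w 1 := w2p'.trans_le hS'.w_le
  have hK3 : 1 ≤ K ^ 3 := one_le_pow₀ hK
  have hK23 : K ^ 2 ≤ K ^ 3 := pow_le_pow_right₀ hK (by norm_num)
  have a1 : |dt (S.e 1) (S'.e 0)| ≤ angC S S' := (le_max_left _ _).trans (le_max_left _ _)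
  have a2 : |dt (S.e 1) (S'.e 2)| ≤ angC S S' := (le_max_right _ _).trans (le_max_left _ _)
  have a3 : |dt (S.e 0) (S'.e 1)| ≤ angC S S' := (le_max_left _ _).trans (le_max_right _ _)
  have a4 : |dt (S.e 2) (S'.e 1)| ≤ angC S S' := (le_max_right _ _).trans (le_max_right _ _)
  have hA : 0 ≤ angC S S' := (abs_nonneg _).trans a1
  have hw1 : 0 ≤ w1 := by nlinarith [h1.2]
  have key : ∀ x y1 y2 : ℝ, x ≤ angC S S' → 0 ≤ x → y1 ≤ K * w1 → w2 ≤ K * y2 →
      x * y1 ≤ K ^ 3 * y2 := by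
    intro x y1 y2 hx hx0 hy1 hy2
    calc x * y1 ≤ x * (K * w1) := mul_le_mul_of_nonneg_left hy1 hx0
      _ ≤ angC S S' * (K * w1) := mul_le_mul_of_nonneg_right hx (by positivity)
      _ = K * (angC S S' * w1) := by ring
      _ ≤ K * (K * w2) := mul_le_mul_of_nonneg_left ha hK0.le
      _ ≤ K * (K * (K * y2)) := by gcongr
      _ = _ := by ring
  have c : ∀ x y : ℝ, ∀ wd : ℝ, 0 < y → x ≤ K * wd → wd ≤ K * y → x ≤ K ^ 3 * y := by
    intro x y wd hy hx hwd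
    calc x ≤ K * wd := hx
      _ ≤ K * (K * y) := mul_le_mul_of_nonneg_left hwd hK0.le
      _ = K ^ 2 * y := by ring
      _ ≤ K ^ 3 * y := mul_le_mul_of_nonneg_right hK23 hy.le
  refine ⟨⟨hK3, hS.ortho, hS'.ortho, w0, w0', hS.w0_le, hS'.w0_le, hS.w_le, hS'.w_le,
    c _ _ _ w1p' h1.2 h1'.1, c _ _ _ w2p' h2.2 h2'.1, ?_, ?_⟩,
    ⟨hK3, hS'.ortho, hS.ortho, w0', w0, hS'.w0_le, hS.w0_le, hS'.w_le, hS.w_le,
    c _ _ _ w1p h1'.2 h1.1, c _ _ _ w2p h2'.2 h2.1, ?_, ?_⟩⟩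
  · rw [dt_comm]; exact key _ _ _ a2 (abs_nonneg _) h1.2 h2'.1
  · rw [dt_comm]; exact key _ _ _ a1 (abs_nonneg _) h1.2 h2'.1
  · exact key _ _ _ a4 (abs_nonneg _) h1'.2 h2.1
  · exact key _ _ _ a3 (abs_nonneg _) h1'.2 h2.1

/-- composition -/
theorem Tr.trans (H : Tr K S S') (H' : Tr K' S' S'') : Tr (3 * K * K') S S'' := by
  have hK := H.K1
  have hK' := H'.K1
  have hK0 : (0 : ℝ) < K := by linarith
  have hK0' : (0 : ℝ) < K' := by linarith
  have hKK : 1 ≤ K * K' := by nlinarith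
  have p1 := H'.pos' 1
  have p2 := H'.pos' 2
  have s1 := H.pos 1
  have key : ∀ i, (|dt (S''.e i) (S'.e 1)| * S'.w 1 ≤ K' * S''.w 2) →
      |dt (S''.e i) (S.e 1)| * S.w 1 ≤ 3 * K * K' * S''.w 2 := by
    intro i hi
    have h := abs_dt_exp H'.o' H.o' i (S.e 1)
    have u0 := abs_dt_unit H'.o' H.o' i 0
    have u2 := abs_dt_unit H'.o' H.o' i 2
    have u1 := abs_dt_unit H.o' H.o 1 1
    have k0 : |dt (S''.e i) (S'.e 0)| * |dt (S'.e 0) (S.e 1)| * S.w 1 ≤ K * K' * S''.w 2 := by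
      calc _ ≤ 1 * |dt (S'.e 0) (S.e 1)| * S.w 1 := by gcongr
        _ = |dt (S'.e 0) (S.e 1)| * S.w 1 := by ring
        _ ≤ K * S'.w 2 := H.an0
        _ ≤ K * (K' * S''.w 2) := mul_le_mul_of_nonneg_left H'.c2 hK0.le
        _ = _ := by ring
    have k2 : |dt (S''.e i) (S'.e 2)| * |dt (S'.e 2) (S.e 1)| * S.w 1 ≤ K * K' * S''.w 2 := by
      calc _ ≤ 1 * |dt (S'.e 2) (S.e 1)| * S.w 1 := by gcongr
        _ = |dt (S'.e 2) (S.e 1)| * S.w 1 := by ring
        _ ≤ K * S'.w 2 := H.an2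
        _ ≤ K * (K' * S''.w 2) := mul_le_mul_of_nonneg_left H'.c2 hK0.le
        _ = _ := by ring
    have k1 : |dt (S''.e i) (S'.e 1)| * |dt (S'.e 1) (S.e 1)| * S.w 1 ≤ K * K' * S''.w 2 := by
      calc _ ≤ |dt (S''.e i) (S'.e 1)| * 1 * (K * S'.w 1) := by gcongr; exact H.c1
        _ = K * (|dt (S''.e i) (S'.e 1)| * S'.w 1) := by ring
        _ ≤ K * (K' * S''.w 2) := mul_le_mul_of_nonneg_left hi hK0.le
        _ = _ := by ring
    calc |dt (S''.e i) (S.e 1)| * S.w 1 ≤ _ * S.w 1 := mul_le_mul_of_nonneg_right h s1.le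
      _ = |dt (S''.e i) (S'.e 0)| * |dt (S'.e 0) (S.e 1)| * S.w 1 +
          |dt (S''.e i) (S'.e 1)| * |dt (S'.e 1) (S.e 1)| * S.w 1 +
          |dt (S''.e i) (S'.e 2)| * |dt (S'.e 2) (S.e 1)| * S.w 1 := by ring
      _ ≤ _ := by linarith
  refine ⟨by linarith, H.o, H'.o', H.w0, H'.w0', H.w02, H'.w02', H.w21, H'.w21', ?_, ?_,
    key 2 H'.an2, key 0 H'.an0⟩
  · calc S.w 1 ≤ K * S'.w 1 := H.c1
      _ ≤ K * (K' * S''.w 1) := mul_le_mul_of_nonneg_left H'.c1 hK0.le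
      _ ≤ 3 * K * K' * S''.w 1 := by nlinarith [mul_pos (mul_pos hK0 hK0') p1]
  · calc S.w 2 ≤ K * S'.w 2 := H.c2
      _ ≤ K * (K' * S''.w 2) := mul_le_mul_of_nonneg_left H'.c2 hK0.le
      _ ≤ 3 * K * K' * S''.w 2 := by nlinarith [mul_pos (mul_pos hK0 hK0') p2]

/-- entries of the transition matrix -/
theorem Tr.ent (H : Tr K S S') (i k : Fin 3) (hk : k ≠ 0) :
    |co S'.e S'.w (fr S.e S.w i) k| ≤ K := by
  have hK := H.K1
  have hK0 : (0 : ℝ) < K := by linarith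
  have e1 : co S'.e S'.w (fr S.e S.w i) k = S.w i * dt (S'.e k) (S.e i) / S'.w k := by
    simp only [co, fr, dt, Pi.smul_apply, smul_eq_mul]; ring
  have pk := H.pos' k
  have pi := H.pos i
  have u := abs_dt_unit H.o' H.o k i
  rw [e1, abs_div, abs_of_pos pk, div_le_iff₀ pk, abs_mul, abs_of_pos pi]
  have w2 : S'.w 2 ≤ S'.w k := by
    fin_cases k
    · exact absurd rfl hk
    · exact H.w21'
    · exact le_rfl
  have h2 : K * S'.w 2 ≤ K * S'.w k := mul_le_mul_of_nonneg_left w2 hK0.le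
  have triv : ∀ x : ℝ, 0 ≤ x → x * |dt (S'.e k) (S.e i)| ≤ x := fun x hx =>
    mul_le_of_le_one_right hx u
  fin_cases i
  · exact (triv _ pi.le).trans (H.w02.trans (H.c2.trans h2))
  · fin_cases k
    · exact absurd rfl hk
    · exact (triv _ pi.le).trans H.c1
    · have := H.an2
      rw [mul_comm] at this
      exact this
  · exact (triv _ pi.le).trans (H.c2.trans h2)

/-- boxes -/
theorem Tr.box (H : Tr K S S') {x : V3} {m : ℝ} (hm : ∀ i, |dt (S.e i) x| ≤ m * S.w i) (k : Fin 3)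
    (hk : k ≠ 0) : |co S'.e S'.w x k| ≤ 3 * (K * m) := by
  have hx : x = (dt (S.e 0) x / S.w 0) • fr S.e S.w 0 + (dt (S.e 1) x / S.w 1) • fr S.e S.w 1 +
      (dt (S.e 2) x / S.w 2) • fr S.e S.w 2 := by
    have := cmb_co H.o H.pos x
    conv_lhs => rw [← this]
    funext j
    simp only [cmb, co, Pi.add_apply, Pi.smul_apply, smul_eq_mul]
  have hb : ∀ i, |dt (S.e i) x / S.w i| ≤ m := fun i => by
    rw [abs_div, abs_of_pos (H.pos i), div_le_iff₀ (H.pos i)]; exact hm i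
  have m0 : 0 ≤ m := (abs_nonneg _).trans (hb 0)
  have hK0 : (0 : ℝ) < K := by have := H.K1; linarith
  conv_lhs => rw [hx]
  rw [co_add, co_add, co_smul, co_smul, co_smul]
  have t : ∀ i, |dt (S.e i) x / S.w i * co S'.e S'.w (fr S.e S.w i) k| ≤ m * K := fun i => by
    rw [abs_mul]
    exact mul_le_mul (hb i) (H.ent i k hk) (abs_nonneg _) m0
  refine (abs_add_three _ _ _).trans ?_
  linarith [t 0, t 1, t 2]

/-- relative velocity of a line in a sheet -/
theorem vel_InP {T : Ln4} {z0 ρ : ℝ} (hρ : 0 ≤ ρ) (h : InP T S z0 ρ) (i : Fin 3) :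
    |dt (S.e i) (ρ • (T.v - S.c.v))| ≤ 2 * S.w i := by
  have h1 := (h z0 le_rfl (by linarith)).1 i
  have h2 := (h (z0 + ρ) (by linarith) le_rfl).1 i
  have e : dt (S.e i) (ρ • (T.v - S.c.v)) = dt (S.e i) (T.pos (z0 + ρ) - S.c.pos (z0 + ρ)) -
      dt (S.e i) (T.pos z0 - S.c.pos z0) := by
    simp only [dt, Ln4.pos, Pi.smul_apply, Pi.sub_apply, smul_eq_mul]
    ring
  rw [e]
  refine (abs_sub _ _).trans ?_
  linarith

/-- the relative shear of the two charts, through two lines `T ∈ S ∩ V`, `T' ∈ V ∩ S'` -/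
theorem Tr.shear {V : Plk4} (H : Tr K S S') (H' : Tr K V S') {T T' : Ln4} {z0 ρ : ℝ} (hρ : 0 ≤ ρ)
    (h1 : InP T S z0 ρ) (h2 : InP T V z0 ρ) (h3 : InP T' V z0 ρ) (h4 : InP T' S' z0 ρ) (k : Fin 3)
    (hk : k ≠ 0) : |co S'.e S'.w (ρ • (S.c.v - S'.c.v)) k| ≤ 20 * K := by
  have hK := H.K1
  have e : co S'.e S'.w (ρ • (S.c.v - S'.c.v)) k = -co S'.e S'.w (ρ • (T.v - S.c.v)) k +
      co S'.e S'.w (ρ • (T.v - V.c.v)) k + -co S'.e S'.w (ρ • (T'.v - V.c.v)) k +
      co S'.e S'.w (ρ • (T'.v - S'.c.v)) k := by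
    simp only [co, dt, Pi.smul_apply, Pi.sub_apply, smul_eq_mul]
    ring
  rw [e]
  have b1 := H.box (vel_InP hρ h1) k hk
  have b2 := H'.box (vel_InP hρ h2) k hk
  have b3 := H'.box (vel_InP hρ h3) k hk
  have b4 : |co S'.e S'.w (ρ • (T'.v - S'.c.v)) k| ≤ 2 := by
    have pk := H.pos' k
    unfold co
    rw [abs_div, abs_of_pos pk, div_le_iff₀ pk]
    exact vel_InP hρ h4 k
  rw [abs_le] at *
  constructor <;> linarith [b1.1, b1.2, b2.1, b2.2, b3.1, b3.2, b4.1, b4.2]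

end

/-! ### transition map -/

/-- linear part of the transition from the chart of `S` to the chart of `S'` -/
noncomputable def tr (S S' : Plk4) (ρ : ℝ) : Lm where
  m00 := co S'.e S'.w (fr S.e S.w 0) 0
  mC := ![0, co S'.e S'.w (fr S.e S.w 0) 1, co S'.e S'.w (fr S.e S.w 0) 2]
  mR := ![co S'.e S'.w (ρ • (S.c.v - S'.c.v)) 0, co S'.e S'.w (fr S.e S.w 1) 0,
    co S'.e S'.w (fr S.e S.w 2) 0]
  mm := ![![1, 0, 0], ![co S'.e S'.w (ρ • (S.c.v - S'.c.v)) 1, co S'.e S'.w (fr S.e S.w 1) 1,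
    co S'.e S'.w (fr S.e S.w 2) 1], ![co S'.e S'.w (ρ • (S.c.v - S'.c.v)) 2,
    co S'.e S'.w (fr S.e S.w 1) 2, co S'.e S'.w (fr S.e S.w 2) 2]]

theorem pull_sym {c : ℝ} {L : Lm} {G : Jt} (h : G.Sym) : (pull c L G).Sym := by
  intro i j
  simp only [pull]
  rw [hs_symm h]

theorem jet_tr {S S' : Plk4} {q : ℝ → V3 → ℝ} {z : ℝ} {X : V3} {ρ : ℝ} {J : Jt}
    (ho : Ortho S'.e) (hw : ∀ i, 0 < S'.w i)
    (h : JetAt q (fr S'.e S'.w) S'.c.v z X ρ J) (hsy : J.Sym) :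
    JetAt q (fr S.e S.w) S.c.v z X ρ (pull 1 (tr S S' ρ) J) := by
  intro y ζ u v
  set D := co S'.e S'.w (ρ • (S.c.v - S'.c.v)) with hD
  set A := co S'.e S'.w (fr S.e S.w 0) with hA
  set B := co S'.e S'.w (fr S.e S.w 1) with hB
  set C := co S'.e S'.w (fr S.e S.w 2) with hC
  have eD : cmb (fr S'.e S'.w) D = ρ • (S.c.v - S'.c.v) := cmb_co ho hw _
  have eA : cmb (fr S'.e S'.w) A = fr S.e S.w 0 := cmb_co ho hw _
  have eB : cmb (fr S'.e S'.w) B = fr S.e S.w 1 := cmb_co ho hw _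
  have eC : cmb (fr S'.e S'.w) C = fr S.e S.w 2 := cmb_co ho hw _
  have hX : X + (ρ * ζ) • S.c.v + cmb (fr S.e S.w) ![y, u, v] =
      X + (ρ * ζ) • S'.c.v + cmb (fr S'.e S'.w) ![ζ * D 0 + y * A 0 + u * B 0 + v * C 0,
        ζ * D 1 + y * A 1 + u * B 1 + v * C 1, ζ * D 2 + y * A 2 + u * B 2 + v * C 2] := by
    funext i
    have d := congrFun eD i
    have a := congrFun eA i
    have b := congrFun eB i
    have c := congrFun eC i
    simp only [cmb, Pi.add_apply, Pi.smul_apply, Pi.sub_apply, smul_eq_mul, Matrix.cons_val]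
      at d a b c ⊢
    linear_combination (-ζ) * d - y * a - u * b - v * c
  rw [hX, h]
  have s10 := hsy 1 0
  have s20 := hsy 2 0
  have s21 := hsy 2 1
  simp only [pull, tr, gr, hs, dp, qf, Fin.sum_univ_three, Matrix.cons_val, ← hD, ← hA, ← hB, ← hC]
  rw [s10, s20, s21]
  ring

/-- **change of the chart** -/
theorem jt_tr {S S' : Plk4} {q : ℝ → V3 → ℝ} (hq : IsQ q) (ho : Ortho S'.e) (hw : ∀ i, 0 < S'.w i)
    (z : ℝ) (X : V3) (ρ : ℝ) : jt q (fr S.e S.w) S.c.v z X ρ =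
      pull 1 (tr S S' ρ) (jt q (fr S'.e S'.w) S'.c.v z X ρ) := by
  obtain ⟨h, hs⟩ := jt_jet hq (fr S'.e S'.w) S'.c.v z X ρ
  exact jt_eq (jet_tr ho hw h hs) (pull_sym hs)

/-- **the jet at another point at the same height** -/
theorem jt_shift {q : ℝ → V3 → ℝ} (hq : IsQ q) (f : Fin 3 → V3) (V : V3) (z : ℝ) (X : V3) (ρ : ℝ)
    (y u v : ℝ) : jt q f V z (X + cmb f ![y, u, v]) ρ = (jt q f V z X ρ).shift y ![0, u, v] := by
  obtain ⟨h, hs⟩ := jt_jet hq f V z X ρ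
  have h1 := jet_shift h hs y 0 u v
  have e1 : z + ρ * 0 = z := by ring
  have e2 : X + (ρ * 0) • V + cmb f ![y, u, v] = X + cmb f ![y, u, v] := by simp
  rw [e1, e2] at h1
  exact jt_eq h1 hs

/-- derivative along a vector does not depend on the chart -/
theorem gr_inv {q : ℝ → V3 → ℝ} (hq : IsQ q) {f f' : Fin 3 → V3} {V V' : V3} {z : ℝ} {X : V3}
    {ρ y u v y' u' v' : ℝ} (h : cmb f ![y, u, v] = cmb f' ![y', u', v']) :
    gr (jt q f V z X ρ) y ![0, u, v] = gr (jt q f' V' z X ρ) y' ![0, u', v'] := by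
  obtain ⟨h1, -⟩ := jt_jet hq f V z X ρ
  obtain ⟨h2, -⟩ := jt_jet hq f' V' z X ρ
  have hn : cmb f ![-y, -u, -v] = cmb f' ![-y', -u', -v'] := by
    have e1 : cmb f ![-y, -u, -v] = -cmb f ![y, u, v] := by
      funext i; simp only [cmb, Pi.neg_apply, Matrix.cons_val]; ring
    have e2 : cmb f' ![-y', -u', -v'] = -cmb f' ![y', u', v'] := by
      funext i; simp only [cmb, Pi.neg_apply, Matrix.cons_val]; ring
    rw [e1, e2, h]
  have a1 := h1 y 0 u v
  have a2 := h1 (-y) 0 (-u) (-v)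
  have b1 := h2 y' 0 u' v'
  have b2 := h2 (-y') 0 (-u') (-v')
  simp only [mul_zero, add_zero, zero_smul] at a1 a2 b1 b2
  rw [h] at a1
  rw [hn] at a2
  rw [a1] at b1
  rw [a2] at b2
  simp only [dp, qf, gr, Fin.sum_univ_three, Matrix.cons_val] at b1 b2 ⊢
  linarith

end Crest.Agent.R136.Chm862
end

-- ▼ part R136/Chm3_862

/-!
# R136 (U4, PLAN 2 (3) = (AL)): jets of a sheet on its own lines (helper862)

* `quad_along` : `q` along a line of the sheet.
* `own_T`      : jet of `S.q` in the chart moving with the line.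
* `own`        : jet of `S.q` in the chart of `S` (`jS S S.q`).
-/

set_option autoImplicit false

namespace Crest.Agent.R136.Chm862

open Crest.Agent.R136.Sh605
open Crest.Agent.R136.Rk601
open Crest.Agent.R136.AlD601
open Crest.Agent.R136.Gbx862 (zj)
open Crest.Agent.R136.K4 (Plk4)
open Crest.Agent.R136.Tlt51 (Shp InP)
open Crest.Agent.R136.Tl102
open Crest.Agent.R136.KapP335 (kapP expP expP_spec)

/-- `q` along a line is a quadratic polynomial -/
theorem quad_along {q : ℝ → V3 → ℝ} (hq : IsQ q) (T : Ln4) (z0 ρ : ℝ) :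
    ∃ c1 c2 : ℝ, ∀ ζ, q (z0 + ρ * ζ) (T.pos (z0 + ρ * ζ)) = q z0 (T.pos z0) + c1 * ζ +
      c2 * ζ ^ 2 := by
  obtain ⟨h, -⟩ := jt_jet hq (fun _ => 0) T.v z0 (T.pos z0) ρ
  refine ⟨(jt q (fun _ => 0) T.v z0 (T.pos z0) ρ).a 0,
    1 / 2 * (jt q (fun _ => 0) T.v z0 (T.pos z0) ρ).h 0 0, fun ζ => ?_⟩
  have h1 := h 0 ζ 0 0
  have e : T.pos z0 + (ρ * ζ) • T.v + cmb (fun _ => 0) ![0, 0, 0] = T.pos (z0 + ρ * ζ) := by
    funext i
    simp only [cmb, Ln4.pos, Pi.add_apply, Pi.smul_apply, Pi.zero_apply, smul_eq_mul]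
    ring
  rw [e] at h1
  rw [h1]
  simp only [dp, qf, Fin.sum_univ_three, Matrix.cons_val]
  ring

/-- bounds for a quadratic polynomial on `[0, 1]` -/
theorem quad_bd {f0 c1 c2 a : ℝ} (h : ∀ ζ, 0 ≤ ζ → ζ ≤ 1 → |f0 + c1 * ζ + c2 * ζ ^ 2| ≤ a) :
    |c1| ≤ 8 * a ∧ |c2| ≤ 8 * a := by
  have h0 := h 0 le_rfl zero_le_one
  have h1 := h (1 / 2) (by norm_num) (by norm_num)
  have h2 := h 1 zero_le_one le_rfl
  rw [abs_le] at h0 h1 h2
  refine ⟨?_, ?_⟩ <;> rw [abs_le] <;> constructor <;>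
    linarith [h0.1, h0.2, h1.1, h1.2, h2.1, h2.2]

/-- bounds of the jet of a sheet function; `w` = half-width, `k` = curvature -/
structure Own (C w k : ℝ) (J : Jt) : Prop where
  sy : J.Sym
  lo : w / 2 ≤ J.a0
  hi : J.a0 ≤ 2 * w
  s : ∀ i, |sl J i| ≤ C
  g : ∀ i, |gm J J i| ≤ C * w
  h00 : |J.h00| ≤ 2 * w
  lf : ∀ i j, |lf J (sl J) i j| ≤ C * k

/-- pull-back by a map which preserves the normal direction -/
theorem gm_pull0 {c : ℝ} {L : Lm} {G P : Jt} (hc : c ≠ 0) (h0 : G.a0 ≠ 0)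
    (h : (pull c L G).a0 ≠ 0) (hC : L.mC = 0) (i : Fin 3) :
    gm (pull c L G) (pull c L P) i = c * L.m00 * ∑ k, L.mm k i * gm G P k := by
  have e := im_tan hc h0 h i
  have e2 : ∀ k, tm c L G k i = L.mm k i := fun k => by
    simp only [tm, hC, Pi.zero_apply, zero_mul, add_zero]
  simp only [e2] at e
  have e3 : gm (pull c L G) (pull c L P) i = c * L.m00 *
      (P.h00 * (L.mR i + sl (pull c L G) i * L.m00) + ∑ k, P.h0 k * L.mm k i) := by
    simp only [gm, pull, hs, hC, Pi.zero_apply, Fin.sum_univ_three]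
    ring
  rw [e3, e]
  simp only [gm, Fin.sum_univ_three]
  ring

section

variable {S : Plk4} {T : Ln4} {z0 ρ r : ℝ}

/-- the chart moving with the line -/
def mv (S : Plk4) (T : Ln4) : Plk4 := { S with c := T }


theorem co_fr (hS : Ortho S.e) (hw : ∀ i, 0 < S.w i) (i k : Fin 3) :
    co S.e S.w (fr S.e S.w i) k = if k = i then 1 else 0 := by
  have h : dt (S.e k) (S.e i) = if k = i then 1 else 0 := hS k i
  have e : co S.e S.w (fr S.e S.w i) k = S.w i * dt (S.e k) (S.e i) / S.w k := by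
    simp only [co, fr, dt, Pi.smul_apply, smul_eq_mul]; ring
  rw [e, h]
  split_ifs with hh
  · rw [hh, mul_one, div_self (hw i).ne']
  · simp

theorem tr_mv (hS : Ortho S.e) (hw : ∀ i, 0 < S.w i) (ρ : ℝ) :
    tr S (mv S T) ρ = (⟨1, ![co S.e S.w (ρ • (S.c.v - T.v)) 0, 0, 0], 0,
      ![![1, 0, 0], ![co S.e S.w (ρ • (S.c.v - T.v)) 1, 1, 0],
        ![co S.e S.w (ρ • (S.c.v - T.v)) 2, 0, 1]]⟩ : Lm) := by
  have h := fun i k => co_fr hS hw i k
  simp only [tr, mv]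
  rw [h 0 0, h 0 1, h 0 2, h 1 0, h 1 1, h 1 2, h 2 0, h 2 1, h 2 2]
  simp only [Lm.mk.injEq]
  refine ⟨by simp, by simp, ?_, by simp⟩
  funext i; fin_cases i <;> simp

theorem shear_mv (hρ : 0 ≤ ρ) (hw : ∀ i, 0 < S.w i) (hT : InP T S z0 ρ) (k : Fin 3) :
    |co S.e S.w (ρ • (S.c.v - T.v)) k| ≤ 2 := by
  have h := vel_InP hρ hT k
  have e : dt (S.e k) (ρ • (S.c.v - T.v)) = -dt (S.e k) (ρ • (T.v - S.c.v)) := by
    simp only [dt, Pi.smul_apply, Pi.sub_apply, smul_eq_mul]; ring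
  unfold co
  rw [e, abs_div, abs_neg, abs_of_pos (hw k), div_le_iff₀ (hw k)]
  exact h

/-- from the chart moving with the line to the chart of the sheet -/
theorem Own.pull_mv {C w k : ℝ} {J : Jt} (hC : 1 ≤ C) (hw' : 0 < w) (h : Own C w k J)
    (hρ : 0 ≤ ρ) (hS : Ortho S.e) (hw : ∀ i, 0 < S.w i) (hT : InP T S z0 ρ) :
    Own (36 * C) w k (pull 1 (tr S (mv S T) ρ) J) := by
  have a0 : J.a0 ≠ 0 := by have := h.lo; intro h0; rw [h0] at this; linarith
  have e0 : (pull 1 (tr S (mv S T) ρ) J).a0 = J.a0 := by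
    rw [tr_mv hS hw]; simp [pull, gr]
  have hne : (pull 1 (tr S (mv S T) ρ) J).a0 ≠ 0 := by rw [e0]; exact a0
  have hmC : (tr S (mv S T) ρ).mC = 0 := by rw [tr_mv hS hw]
  have hm00 : (tr S (mv S T) ρ).m00 = 1 := by rw [tr_mv hS hw]
  have htm : ∀ k i, tm 1 (tr S (mv S T) ρ) J k i = (tr S (mv S T) ρ).mm k i := fun k i => by
    simp only [tm, hmC, Pi.zero_apply, zero_mul, add_zero]
  have sv := shear_mv hρ hw hT
  have hmm : ∀ k i, |(tr S (mv S T) ρ).mm k i| ≤ 2 := by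
    intro k i
    rw [tr_mv hS hw]
    have s1 := sv 1
    have s2 := sv 2
    fin_cases k <;> fin_cases i <;> simp <;> first | exact s1 | exact s2 | norm_num
  have hmR : ∀ i, |(tr S (mv S T) ρ).mR i| ≤ 2 := by
    intro i
    rw [tr_mv hS hw]
    have s0 := sv 0
    fin_cases i <;> simp <;> exact s0
  have hsl : ∀ i, |sl (pull 1 (tr S (mv S T) ρ) J) i| ≤ 36 * C := by
    intro i
    have e := im_tan one_ne_zero a0 hne i
    rw [hm00, mul_one] at e
    have e2 : sl (pull 1 (tr S (mv S T) ρ) J) i = ∑ k, sl J k * tm 1 (tr S (mv S T) ρ) J k i -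
        (tr S (mv S T) ρ).mR i := by linarith
    rw [e2]
    have h1 : |∑ k, sl J k * tm 1 (tr S (mv S T) ρ) J k i| ≤ 3 * (C * 2) := by
      refine sum3_le fun k => ?_
      rw [abs_mul, htm]
      exact mul_le_mul (h.s k) (hmm k i) (abs_nonneg _) (by linarith)
    have h2 := hmR i
    refine (abs_sub _ _).trans ?_
    linarith
  refine ⟨pull_sym h.sy, by rw [e0]; exact h.lo, by rw [e0]; exact h.hi, hsl, fun i => ?_, ?_,
    fun i j => ?_⟩
  · rw [gm_pull0 one_ne_zero a0 hne hmC, hm00, one_mul, one_mul]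
    have h1 : |∑ k, (tr S (mv S T) ρ).mm k i * gm J J k| ≤ 3 * (2 * (C * w)) := by
      refine sum3_le fun k => ?_
      rw [abs_mul]
      exact mul_le_mul (hmm k i) (h.g k) (abs_nonneg _) (by norm_num)
    refine h1.trans ?_
    nlinarith [mul_pos (lt_of_lt_of_le one_pos hC) hw']
  · have e1 : (pull 1 (tr S (mv S T) ρ) J).h00 = J.h00 := by
      rw [tr_mv hS hw]; simp [pull, hs]
    rw [e1]; exact h.h00
  · rw [lf_pull h.sy one_ne_zero a0 hne, one_mul]
    have h1 : |∑ k, ∑ l, tm 1 (tr S (mv S T) ρ) J k i * tm 1 (tr S (mv S T) ρ) J l j *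
        Rk601.lf J (sl J) k l| ≤ 9 * (2 * 2 * (C * k)) := by
      refine sum33_le fun a b => ?_
      rw [abs_mul, abs_mul, htm, htm]
      exact mul_le_mul (mul_le_mul (hmm _ _) (hmm _ _) (abs_nonneg _) (by norm_num)) (h.lf a b)
        (abs_nonneg _) (by norm_num)
    refine h1.trans (le_of_eq ?_)
    ring

set_option maxHeartbeats 1000000 in
/-- explicit jet with small curvature -/
theorem own_expl {w κ b0 b1 b2 c0 c1 c2 yy yu yv uu uv vv k1 k2 a ζ : ℝ} (hw : 0 < w)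
    (hζ : 0 ≤ ζ) (hζ1 : ζ ≤ 1) (hκ : 0 ≤ κ) (ha : 0 ≤ a) (haw : a ≤ w) (haκ : a ≤ κ * w)
    (lo : 1 / 2 ≤ b0 + ζ * c0) (hi : b0 + ζ * c0 ≤ 2) (lo0 : 1 / 2 ≤ b0) (hc0 : |c0| ≤ 2)
    (hb1 : |b1| ≤ 1) (hb2 : |b2| ≤ 1)
    (hyy : |yy| ≤ 1) (hyu : |yu| ≤ 1) (hyv : |yv| ≤ 1)
    (s1 : |c1 - b1 / b0 * c0| ≤ κ) (s2 : |c2 - b2 / b0 * c0| ≤ κ)
    (guu : |uu - b1 / b0 * yu + (b1 / b0) ^ 2 * yy| ≤ κ)
    (gvv : |vv - b2 / b0 * yv + (b2 / b0) ^ 2 * yy| ≤ κ)
    (guv : |uv - b1 / b0 * yv - b2 / b0 * yu + 2 * (b1 / b0) * (b2 / b0) * yy| ≤ κ)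
    (hκ1 : κ ≤ 20) (hk1 : |k1| ≤ 24 * a) (hk2 : |k2| ≤ 8 * a) :
    Own 100000 w (κ * w)
      { a0 := w * (b0 + ζ * c0)
        a := ![k1, w * (b1 + ζ * c1), w * (b2 + ζ * c2)]
        h00 := 2 * (w * yy)
        h0 := ![w * c0, w * yu, w * yv]
        h := ![![2 * k2, w * c1, w * c2], ![w * c1, 2 * (w * uu), w * uv],
          ![w * c2, w * uv, 2 * (w * vv)]] } := by
  set A := b0 + ζ * c0 with hA
  have A0 : 0 < A := by linarith
  have B0 : 0 < b0 := by linarith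
  have pr : ∀ {p q P Q : ℝ}, |p| ≤ P → |q| ≤ Q → |p * q| ≤ P * Q := by
    intro p q P Q hp hq
    rw [abs_mul]
    exact mul_le_mul hp hq (abs_nonneg _) ((abs_nonneg _).trans hp)
  have hAi : |1 / A| ≤ 2 := by
    rw [abs_of_pos (by positivity), div_le_iff₀ A0]; linarith
  have hBi : |1 / b0| ≤ 2 := by
    rw [abs_of_pos (by positivity), div_le_iff₀ B0]; linarith
  set σ1 := b1 / b0 with hσ1
  set σ2 := b2 / b0 with hσ2
  have σ1b : |σ1| ≤ 2 := by
    rw [hσ1, div_eq_mul_one_div]; exact (pr hb1 hBi).trans (by norm_num)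
  have σ2b : |σ2| ≤ 2 := by
    rw [hσ2, div_eq_mul_one_div]; exact (pr hb2 hBi).trans (by norm_num)
  set J : Jt := { a0 := w * A
                  a := ![k1, w * (b1 + ζ * c1), w * (b2 + ζ * c2)]
                  h00 := 2 * (w * yy)
                  h0 := ![w * c0, w * yu, w * yv]
                  h := ![![2 * k2, w * c1, w * c2], ![w * c1, 2 * (w * uu), w * uv],
                    ![w * c2, w * uv, 2 * (w * vv)]] } with hJ
  set t0 := sl J 0 with ht0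
  set t1 := sl J 1 + σ1 with ht1
  set t2 := sl J 2 + σ2 with ht2
  have e0 : t0 = -(k1 / w) * (1 / A) := by
    show -k1 / (w * A) = _
    field_simp
  have e1 : t1 = -(ζ * (c1 - σ1 * c0)) * (1 / A) := by
    show -(w * (b1 + ζ * c1)) / (w * A) + σ1 = _
    rw [hσ1, hA]
    have : b0 + ζ * c0 ≠ 0 := by rw [← hA]; exact A0.ne'
    field_simp
    ring
  have e2 : t2 = -(ζ * (c2 - σ2 * c0)) * (1 / A) := by
    show -(w * (b2 + ζ * c2)) / (w * A) + σ2 = _
    rw [hσ2, hA]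
    have : b0 + ζ * c0 ≠ 0 := by rw [← hA]; exact A0.ne'
    field_simp
    ring
  have ζb : |ζ| ≤ 1 := by rw [abs_of_nonneg hζ]; exact hζ1
  have t1b : |t1| ≤ 2 * κ := by
    rw [e1]
    have := pr (p := -(ζ * (c1 - σ1 * c0))) (q := 1 / A) (P := 1 * κ) (Q := 2)
      (by rw [abs_neg]; exact pr ζb s1) hAi
    linarith
  have t2b : |t2| ≤ 2 * κ := by
    rw [e2]
    have := pr (p := -(ζ * (c2 - σ2 * c0))) (q := 1 / A) (P := 1 * κ) (Q := 2)
      (by rw [abs_neg]; exact pr ζb s2) hAi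
    linarith
  have k1w : |k1 / w| ≤ 24 * κ := by
    rw [abs_div, abs_of_pos hw, div_le_iff₀ hw]; nlinarith
  have k1w' : |k1 / w| ≤ 24 := by
    rw [abs_div, abs_of_pos hw, div_le_iff₀ hw]; linarith
  have t0b : |t0| ≤ 48 * κ := by
    rw [e0]
    have := pr (p := -(k1 / w)) (q := 1 / A) (P := 24 * κ) (Q := 2) (by rw [abs_neg]; exact k1w) hAi
    linarith
  have t0b' : |t0| ≤ 48 := by
    rw [e0]
    have := pr (p := -(k1 / w)) (q := 1 / A) (P := 24) (Q := 2) (by rw [abs_neg]; exact k1w') hAi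
    linarith
  have t1b' : |t1| ≤ 40 := by linarith
  have t2b' : |t2| ≤ 40 := by linarith
  have sl1 : sl J 1 = t1 - σ1 := by rw [ht1]; ring
  have sl2 : sl J 2 = t2 - σ2 := by rw [ht2]; ring
  have s1b : |sl J 1| ≤ 42 := by
    rw [sl1]; exact (abs_sub _ _).trans (by linarith)
  have s2b : |sl J 2| ≤ 42 := by
    rw [sl2]; exact (abs_sub _ _).trans (by linarith)
  have hslb : ∀ i, |sl J i| ≤ 48 := by
    intro i; fin_cases i
    · exact t0b'
    · exact s1b.trans (by norm_num)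
    · exact s2b.trans (by norm_num)
  have wb : |w| ≤ w := by rw [abs_of_pos hw]
  have hyy2 : |2 * (w * yy)| ≤ 2 * w := by
    have := pr (p := 2 * w) (q := yy) (P := 2 * w) (Q := 1) (by rw [abs_of_pos (by linarith)]) hyy
    rw [mul_one] at this
    rw [← mul_assoc]; exact this
  have hsy : J.Sym := by
    intro i j
    fin_cases i <;> fin_cases j <;> rfl
  have h0b : ∀ i, |J.h0 i| ≤ 2 * w := by
    intro i; fin_cases i
    · show |w * c0| ≤ 2 * w
      have := pr wb hc0; linarith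
    · show |w * yu| ≤ 2 * w
      have := pr wb hyu; linarith
    · show |w * yv| ≤ 2 * w
      have := pr wb hyv; linarith
  refine ⟨hsy, ?_, ?_, fun i => (hslb i).trans (by norm_num), fun i => ?_, hyy2, ?_⟩
  · show w / 2 ≤ w * A
    nlinarith
  · show w * A ≤ 2 * w
    nlinarith
  · unfold gm
    have h1 := pr (hslb i) hyy2
    have h2 := h0b i
    refine (abs_add_le _ _).trans ?_
    have h3 : |sl J i * J.h00| ≤ 48 * (2 * w) := h1
    linarith
  · -- second form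
    have κw : 0 ≤ κ * w := by positivity
    have κκ : κ * κ ≤ 20 * κ := by nlinarith
    have m0 : ∀ {x X : ℝ}, |x| ≤ X → |w * x| ≤ w * X := fun h => pr wb h
    have b00 : |lf J (sl J) 0 0| ≤ 100000 * (κ * w) := by
      have e : lf J (sl J) 0 0 = 2 * k2 + w * (2 * (c0 * t0)) + w * (2 * (yy * (t0 * t0))) := by
        simp only [lf, hJ, ht0, Matrix.cons_val]; ring
      have a1 : |2 * k2| ≤ 16 * (κ * w) := by
        rw [abs_mul, abs_two]; linarith
      have a2 : |w * (2 * (c0 * t0))| ≤ w * (2 * (2 * (48 * κ))) :=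
        m0 (by rw [abs_mul, abs_two]; exact mul_le_mul_of_nonneg_left (pr hc0 t0b) (by norm_num))
      have a3 : |w * (2 * (yy * (t0 * t0)))| ≤ w * (2 * (1 * (48 * κ * 48))) :=
        m0 (by
          rw [abs_mul, abs_two]
          exact mul_le_mul_of_nonneg_left (pr hyy (pr t0b t0b')) (by norm_num))
      rw [e]
      refine (abs_add_three _ _ _).trans ?_
      linarith
    have b0k : ∀ (ck yk sk tk σk : ℝ), sk = tk - σk → |ck - σk * c0| ≤ κ → |tk| ≤ 2 * κ →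
        |sk| ≤ 42 → |yk| ≤ 1 →
        |w * ck + w * c0 * sk + w * yk * t0 + 2 * (w * yy) * (t0 * sk)| ≤
          100000 * (κ * w) := by
      intro ck yk sk tk σk hs h1 h2 h3 h4
      have e : w * ck + w * c0 * sk + w * yk * t0 + 2 * (w * yy) * (t0 * sk) =
          w * (ck - σk * c0) + w * (c0 * tk) + (w * (yk * t0) + w * (2 * (yy * (t0 * sk)))) := by
        rw [hs]; ring
      have a1 := m0 h1
      have a2 := m0 (pr hc0 h2)
      have a3 := m0 (pr h4 t0b)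
      have a4 : |w * (2 * (yy * (t0 * sk)))| ≤ w * (2 * (1 * (48 * κ * 42))) :=
        m0 (by
          rw [abs_mul, abs_two]
          exact mul_le_mul_of_nonneg_left (pr hyy (pr t0b h3)) (by norm_num))
      rw [e]
      refine (abs_add_three _ _ _).trans ?_
      have a5 := abs_add_le (w * (yk * t0)) (w * (2 * (yy * (t0 * sk))))
      linarith
    have bkk : ∀ (g yk sk tk σk : ℝ), sk = tk - σk → |g - σk * yk + σk ^ 2 * yy| ≤ κ →
        |tk| ≤ 2 * κ → |tk| ≤ 40 → |σk| ≤ 2 → |yk| ≤ 1 →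
        |2 * (w * g) + w * yk * sk + w * yk * sk + 2 * (w * yy) * (sk * sk)| ≤
          100000 * (κ * w) := by
      intro g yk sk tk σk hs h1 h2 h2' h3 h4
      have e : 2 * (w * g) + w * yk * sk + w * yk * sk + 2 * (w * yy) * (sk * sk) =
          w * (2 * (g - σk * yk + σk ^ 2 * yy)) + w * (2 * (yk * tk)) +
            (w * (2 * (yy * (tk * tk))) + w * (-4 * (yy * (tk * σk)))) := by
        rw [hs]; ring
      have a1 : |w * (2 * (g - σk * yk + σk ^ 2 * yy))| ≤ w * (2 * κ) :=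
        m0 (by rw [abs_mul, abs_two]; exact mul_le_mul_of_nonneg_left h1 (by norm_num))
      have a2 : |w * (2 * (yk * tk))| ≤ w * (2 * (1 * (2 * κ))) :=
        m0 (by rw [abs_mul, abs_two]; exact mul_le_mul_of_nonneg_left (pr h4 h2) (by norm_num))
      have a3 : |w * (2 * (yy * (tk * tk)))| ≤ w * (2 * (1 * (2 * κ * 40))) :=
        m0 (by
          rw [abs_mul, abs_two]
          exact mul_le_mul_of_nonneg_left (pr hyy (pr h2 h2')) (by norm_num))
      have a4 : |w * (-4 * (yy * (tk * σk)))| ≤ w * (4 * (1 * (2 * κ * 2))) :=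
        m0 (by
          rw [abs_mul, abs_neg, abs_of_pos (by norm_num : (0:ℝ) < 4)]
          exact mul_le_mul_of_nonneg_left (pr hyy (pr h2 h3)) (by norm_num))
      rw [e]
      refine (abs_add_three _ _ _).trans ?_
      have a5 := abs_add_le (w * (2 * (yy * (tk * tk)))) (w * (-4 * (yy * (tk * σk))))
      linarith
    have b12 : |w * uv + w * yu * sl J 2 + w * yv * sl J 1 + 2 * (w * yy) * (sl J 1 * sl J 2)| ≤
        100000 * (κ * w) := by
      have e : w * uv + w * yu * sl J 2 + w * yv * sl J 1 + 2 * (w * yy) * (sl J 1 * sl J 2) =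
          w * (uv - σ1 * yv - σ2 * yu + 2 * σ1 * σ2 * yy) + (w * (yu * t2) + w * (yv * t1)) +
            (w * (2 * (yy * (t1 * t2))) + (w * (-2 * (yy * (t1 * σ2))) +
              w * (-2 * (yy * (t2 * σ1))))) := by
        rw [sl1, sl2]; ring
      have a1 := m0 guv
      have a2 := m0 (pr hyu t2b)
      have a3 := m0 (pr hyv t1b)
      have a4 : |w * (2 * (yy * (t1 * t2)))| ≤ w * (2 * (1 * (2 * κ * 40))) :=
        m0 (by
          rw [abs_mul, abs_two]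
          exact mul_le_mul_of_nonneg_left (pr hyy (pr t1b t2b')) (by norm_num))
      have a5 : |w * (-2 * (yy * (t1 * σ2)))| ≤ w * (2 * (1 * (2 * κ * 2))) :=
        m0 (by
          rw [abs_mul, abs_neg, abs_of_pos (by norm_num : (0:ℝ) < 2)]
          exact mul_le_mul_of_nonneg_left (pr hyy (pr t1b σ2b)) (by norm_num))
      have a6 : |w * (-2 * (yy * (t2 * σ1)))| ≤ w * (2 * (1 * (2 * κ * 2))) :=
        m0 (by
          rw [abs_mul, abs_neg, abs_of_pos (by norm_num : (0:ℝ) < 2)]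
          exact mul_le_mul_of_nonneg_left (pr hyy (pr t2b σ1b)) (by norm_num))
      rw [e]
      refine (abs_add_three _ _ _).trans ?_
      have a7 := abs_add_le (w * (yu * t2)) (w * (yv * t1))
      have a8 := abs_add_three (w * (2 * (yy * (t1 * t2)))) (w * (-2 * (yy * (t1 * σ2))))
        (w * (-2 * (yy * (t2 * σ1))))
      rw [add_assoc] at a8
      linarith
    have c1k := b0k c1 yu (sl J 1) t1 σ1 sl1 s1 t1b s1b hyu
    have c2k := b0k c2 yv (sl J 2) t2 σ2 sl2 s2 t2b s2b hyv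
    have d11 := bkk uu yu (sl J 1) t1 σ1 sl1 guu t1b t1b' σ1b hyu
    have d22 := bkk vv yv (sl J 2) t2 σ2 sl2 gvv t2b t2b' σ2b hyv
    have ls : ∀ i j, lf J (sl J) i j = lf J (sl J) j i := by
      intro i j
      unfold lf
      rw [hsy i j]; ring
    have b01 : |lf J (sl J) 0 1| ≤ 100000 * (κ * w) := c1k
    have b02 : |lf J (sl J) 0 2| ≤ 100000 * (κ * w) := c2k
    have b11 : |lf J (sl J) 1 1| ≤ 100000 * (κ * w) := d11
    have b22 : |lf J (sl J) 2 2| ≤ 100000 * (κ * w) := d22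
    have b12' : |lf J (sl J) 1 2| ≤ 100000 * (κ * w) := b12
    intro i j
    fin_cases i <;> fin_cases j
    · exact b00
    · exact b01
    · exact b02
    · show |lf J (sl J) 1 0| ≤ _
      rw [ls]; exact b01
    · exact b11
    · exact b12'
    · show |lf J (sl J) 2 0| ≤ _
      rw [ls]; exact b02
    · show |lf J (sl J) 2 1| ≤ _
      rw [ls]; exact b12'
    · exact b22

/-- **own jets in the chart moving with the line** -/
theorem own_T {H j : ℕ} (hr : 0 < r) (hρ : 0 ≤ ρ) (hS : Shp S z0 ρ r) (hT : InP T S z0 ρ)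
    (hj : j ≤ H) (hk : S.a ≤ kapP S z0 ρ T) :
    Own 100000 (S.w 0) (kapP S z0 ρ T)
      (jt S.q (fr S.e S.w) T.v (zj z0 ρ H j) (T.pos (zj z0 ρ H j)) ρ) := by
  have a0 : 0 < S.a := hr.trans_le hS.r0_le
  have w0 : 0 < S.w 0 := a0.trans_le hS.a_le0
  have hexp := expP_spec (S := S) hS.isQ w0.ne' z0 ρ T
  have N := IsExp.nrmC (StP.of_shN hS w0) hρ (fun z h1 h2 => (hT z h1 h2).1) hexp
  have hkap : kapP S z0 ρ T = S.w 0 * kap (expP S z0 ρ T).1 (expP S z0 ρ T).2.1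
    (expP S z0 ρ T).2.2 := rfl
  set b0 := (expP S z0 ρ T).1
  set b1 := (expP S z0 ρ T).2.1
  set G := (expP S z0 ρ T).2.2
  have κ0 := kap_nonneg b0 b1 G
  have κ13 := kap_le N
  set κ := kap b0 b1 G with hκ
  have ζ0 : (0 : ℝ) ≤ (j : ℝ) / H := by positivity
  have ζ1 : (j : ℝ) / H ≤ 1 := by
    rcases Nat.eq_zero_or_pos H with h | h
    · rw [h]; simp
    · rw [div_le_one (by exact_mod_cast h)]; exact_mod_cast hj
  obtain ⟨c1, c2, hq⟩ := quad_along hS.isQ T z0 ρ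
  have bd := quad_bd (a := S.a) (f0 := S.q z0 (T.pos z0)) (c1 := c1) (c2 := c2) (fun ζ h1 h2 => by
    rw [← hq ζ]
    refine (hT _ ?_ ?_).2
    · nlinarith
    · nlinarith)
  set z := (j : ℝ) / H with hz
  have hk2 : ∀ ζ, S.q (z0 + ρ * (z + ζ)) (T.pos (z0 + ρ * (z + ζ))) =
      S.q (z0 + ρ * z) (T.pos (z0 + ρ * z)) + (c1 + 2 * c2 * z) * ζ + c2 * ζ ^ 2 := by
    intro ζ
    rw [hq, hq]; ring
  have J := jet_exp hexp hk2
  have e0 : zj z0 ρ H j = z0 + ρ * z := rfl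
  have hsy : ({ a0 := S.w 0 * (b0 0 + z * b1 0)
                a := ![c1 + 2 * c2 * z, S.w 0 * (b0 1 + z * b1 1), S.w 0 * (b0 2 + z * b1 2)]
                h00 := 2 * (S.w 0 * G.yy)
                h0 := ![S.w 0 * b1 0, S.w 0 * G.yu, S.w 0 * G.yv]
                h := ![![2 * c2, S.w 0 * b1 1, S.w 0 * b1 2],
                  ![S.w 0 * b1 1, 2 * (S.w 0 * G.uu), S.w 0 * G.uv],
                  ![S.w 0 * b1 2, S.w 0 * G.uv, 2 * (S.w 0 * G.vv)]] } : Jt).Sym := by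
    intro a b
    fin_cases a <;> fin_cases b <;> rfl
  rw [e0, jt_eq J hsy, hkap, mul_comm (S.w 0) κ]
  have st := N.st z ζ0 ζ1 0 0 0 (by norm_num) (by norm_num) (by norm_num)
  have st0 := N.st 0 le_rfl zero_le_one 0 0 0 (by norm_num) (by norm_num) (by norm_num)
  have st1 := N.st 1 zero_le_one le_rfl 0 0 0 (by norm_num) (by norm_num) (by norm_num)
  simp only [mul_zero, add_zero, zero_mul, one_mul] at st st0 st1
  obtain ⟨k1, k2⟩ := bd
  have m1 : |shB1 b0 b1 1| ≤ κ := (le_max_left _ _).trans (le_max_left _ _)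
  have m2 : |shB1 b0 b1 2| ≤ κ := (le_max_right _ _).trans (le_max_left _ _)
  have m3 : |(shG b0 G).uu| ≤ κ :=
    ((le_max_left _ _).trans (le_max_left _ _)).trans (le_max_right _ _)
  have m4 : |(shG b0 G).uv| ≤ κ :=
    ((le_max_right _ _).trans (le_max_left _ _)).trans (le_max_right _ _)
  have m5 : |(shG b0 G).vv| ≤ κ := (le_max_right _ _).trans (le_max_right _ _)
  have hc0 : |b1 0| ≤ 2 := by
    rw [abs_le]; constructor <;> linarith [st0.1, st0.2, st1.1, st1.2]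
  have G1 := N.G_le
  refine own_expl w0 ζ0 ζ1 κ0 a0.le hS.a_le0 ?_ st.1 st.2 st0.1 hc0 N.b01 N.b02
    G1.1 G1.2.1 G1.2.2.1 m1 m2 m3 m5 ?_ (by linarith) ?_ k2
  · rw [mul_comm]; rw [← hkap]; exact hk
  · have e : G.uv - b0 1 / b0 0 * G.yv - b0 2 / b0 0 * G.yu +
        2 * (b0 1 / b0 0) * (b0 2 / b0 0) * G.yy = (shG b0 G).uv := by
      simp only [shG]; ring
    rw [e]; exact m4
  · have h1 : |2 * c2 * z| ≤ 2 * (8 * S.a) * 1 := by
      rw [abs_mul, abs_mul, abs_two, abs_of_nonneg ζ0]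
      exact mul_le_mul (mul_le_mul_of_nonneg_left k2 (by norm_num)) ζ1 ζ0 (by positivity)
    have h2 := abs_add_le c1 (2 * c2 * z)
    linarith

/-- **own jets** : `jS S S.q` -/
theorem own {H j : ℕ} (hr : 0 < r) (hρ : 0 ≤ ρ) (hS : Shp S z0 ρ r) (hT : InP T S z0 ρ)
    (hj : j ≤ H) (hk : S.a ≤ kapP S z0 ρ T) :
    Own 3600000 (S.w 0) (kapP S z0 ρ T) (jS S S.q z0 ρ H j T) := by
  have a0 : 0 < S.a := hr.trans_le hS.r0_le
  have w0 : 0 < S.w 0 := a0.trans_le hS.a_le0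
  have w2 : 0 < S.w 2 := w0.trans_le hS.w0_le
  have w1 : 0 < S.w 1 := w2.trans_le hS.w_le
  have hw : ∀ i, 0 < S.w i := by intro i; fin_cases i <;> assumption
  have h := own_T (H := H) (j := j) hr hρ hS hT hj hk
  have h2 := h.pull_mv (T := T) (by norm_num) w0 hρ hS.ortho hw hT
  have e := jt_tr (S := S) (S' := mv S T) hS.isQ hS.ortho hw (zj z0 ρ H j) (T.pos (zj z0 ρ H j)) ρ
  unfold jS
  rw [e]
  have e3 : (36 : ℝ) * 100000 = 3600000 := by norm_num
  rw [e3] at h2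
  exact h2

end

end Crest.Agent.R136.Chm862
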