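import Crest.Agent.R136.Stk4_464_Mg

-- ▼ part R136/StcS_321
section

/-!
# R136, U6 thin side, stage C (helper321): the level `0` function is a second function of every mark
-/

set_option autoImplicit false
set_option linter.unusedVariables false

open Finset Filter Topology

namespace Crest.Agent.R136.Stc321

open Crest.Agent.R138
open Crest.Agent.R138.Ex926 (Base U)
open Crest.Agent.R138.Dp76 (dpow_pos dpow_add dpow_le dpow_le_one)
open Crest.Agent.R138.Mk163 (zc zl rho)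
open Crest.Agent.R136.MkA627
open Crest.Agent.R136.Sh605
open Crest.Agent.R136.K4
open Crest.Agent.R136.Top484
open Crest.Agent.R136.ArgA163 (tau_zero le_of_log)
open Crest.Agent.R136.Tlt51 (Close mk4 zx rh Shp InP)
open Crest.Agent.R136.KapP335 (kapP DetP kapP_eq)
open Crest.Agent.R136.Tl102 (QF kap IsExp OmB)
open Crest.Agent.R136.Thn768 (ThinW Own Snd Tay exists_tay)
open Crest.Agent.R136.TL650 (own_of snd_of_close)
open Crest.Agent.R136.Stk464 (mk_facts rho_pos')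

/-- cells are nested -/
theorem cell_in {i j : ℕ} (h : i ≤ j) (z : ℝ) : zl i (zc i z) ≤ zl j (zc j z) ∧
    zl j (zc j z) + rho j ≤ zl i (zc i z) + rho i := by
  have hp : (0:ℝ) < 2 ^ i := by positivity
  have hq : (0:ℝ) < 2 ^ j := by positivity
  have e0 : (2:ℝ) ^ j = 2 ^ (j - i) * 2 ^ i := by rw [← pow_add]; congr 1; omega
  have e1 : 2 ^ (j - i) * zc i z ≤ zc j z := by
    unfold zc
    rw [Int.le_floor]
    push_cast
    rw [e0, mul_assoc]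
    exact mul_le_mul_of_nonneg_left (Int.floor_le _) (by positivity)
  have e2 : zc j z + 1 ≤ 2 ^ (j - i) * (zc i z + 1) := by
    have h3 : zc j z < 2 ^ (j - i) * (zc i z + 1) := by
      unfold zc
      rw [Int.floor_lt]
      push_cast
      rw [e0, mul_assoc]
      exact mul_lt_mul_of_pos_left (Int.lt_floor_add_one _) (by positivity)
    omega
  have e3 : (2:ℝ) ^ (j - i) * (zc i z : ℝ) ≤ zc j z := by exact_mod_cast e1
  have e4 : (zc j z : ℝ) + 1 ≤ 2 ^ (j - i) * ((zc i z : ℝ) + 1) := by exact_mod_cast e2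
  unfold zl rho
  constructor
  · rw [div_le_div_iff₀ hp hq, e0]
    nlinarith
  · rw [← add_div, ← add_div, div_le_div_iff₀ hq hp, e0]
    nlinarith

/-- the level `0` function is a second function of every mark -/
def SndLev (D : Dat4) : Prop := ∃ Cs : ℝ, ∀ v : ℚ, 0 ≤ v → v ≤ 1 → ∀ M : ℝ,
  ∀ᶠ n in (U : Filter ℕ), ∀ x ∈ D.I n, ∀ (b0 b1 : V3) (G : QF),
    Own (mk4 D n v x) (D.L n x.1) (zx D n v x) (rh D n v) (D.B.d n ^ (1 / 100 : ℝ)) b0 b1 G →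
    ∃ (X : ℝ) (N R : V3) (H : QF),
      Snd (mk4 D n v x) (D.L n x.1) (zx D n v x) (rh D n v) b0 b1 G X (mk4 D n 0 x).q N R H ∧
      X ≤ D.B.d n ^ M ∧ 0 ≤ X ∧
      (mk4 D n v x).w 0 * kap b0 b1 G * X ≤ D.B.d n ^ (-Cs) * D.w 0 n 0

/-- widths of two levels -/
theorem wid_two {p : Par4} {D : Dat4} (mka : MkA D.B D.I (D.G p) D.lev D.A (fun v => p.g * v)
    (fun v => 0 * v) (fun j v => p.θ j * (1 - v)) D.f D.b D.vm D.w) (k : Fin 3) {v : ℚ}
    (h0 : 0 ≤ v) (h1 : v ≤ 1) : ∀ᶠ n in (U : Filter ℕ), 0 < D.w k n 0 ∧ 0 < D.w k n v ∧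
      D.w k n v ≤ D.w k n 0 * D.B.d n ^ (-(|1 - p.θ k| + 1)) ∧
      D.w k n 0 ≤ D.w k n v * D.B.d n ^ (-(|1 - p.θ k| + 1)) := by
  have v0 : (0 : ℝ) ≤ v := by exact_mod_cast h0
  have v1 : (v : ℝ) ≤ 1 := by exact_mod_cast h1
  have hb : |(1 - p.θ k) * (v : ℝ)| ≤ |1 - p.θ k| := by
    rw [abs_mul, abs_of_nonneg v0]
    exact mul_le_of_le_one_right (abs_nonneg _) v1
  have hb' := abs_le.1 hb
  have t1 := (tau_zero mka k h0 h1).eventually_const_lt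
    (show -(|1 - p.θ k| + 1) < (1 - p.θ k) * (v : ℝ) by linarith [hb'.1])
  have t2 := (tau_zero mka k h0 h1).eventually_lt_const
    (show (1 - p.θ k) * (v : ℝ) < |1 - p.θ k| + 1 by linarith [hb'.2])
  filter_upwards [t1, t2, mka.wpos k v h0 h1, mka.wpos k 0 le_rfl zero_le_one] with n a1 a2 a3 a4
  refine ⟨a4, a3, le_of_log a3 a4 ?_, le_of_log a4 a3 ?_⟩
  · rw [Real.log_div a4.ne' a3.ne']; exact a1.le
  · rw [Real.log_div a3.ne' a4.ne']
    have e : (Real.log (D.w k n v) - Real.log (D.w k n 0)) / D.B.L n =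
        -((Real.log (D.w k n 0) - Real.log (D.w k n v)) / D.B.L n) := by ring
    rw [e]; linarith

theorem sndLev_of {p : Par4} {D : Dat4} (h : ThinW p D) : SndLev D := by
  obtain ⟨Ct, hCt, ht⟩ := h.tilt
  set W : ℝ := |1 - p.θ 0| + 1 with hW
  have W0 : 0 ≤ W := by have := abs_nonneg (1 - p.θ 0); linarith
  refine ⟨Ct + W + 3, fun v v0 v1 M => ?_⟩
  rcases v0.eq_or_lt with hv | hv
  · subst hv
    filter_upwards [mk_facts h.mka le_rfl zero_le_one] with n a1 x hx b0 b1 G O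
    obtain ⟨f1, f2, f3, f4, f5⟩ := a1.2 x hx
    obtain ⟨N, R, H, hT⟩ := exists_tay f2.isQ (D.L n x.1)
    refine ⟨0, N, R, H, O.snd hT, (dpow_pos D.B n M).le, le_rfl, ?_⟩
    rw [mul_zero]
    exact mul_nonneg (dpow_pos D.B n _).le a1.1.le
  · set M1 : ℝ := |M| + Ct + W + 5 with hM1
    filter_upwards [mk_facts h.mka le_rfl zero_le_one, mk_facts h.mka v0 v1,
      ht 0 v le_rfl hv v1 1 one_pos, h.thin v v0 v1 M1, wid_two h.mka 0 v0 v1,
      h.mka.lev_mono 0 v le_rfl v0 v1,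
      Wcn464.ev_le D.B (10 ^ 20) (show (0 : ℝ) < 1 by norm_num)]
      with n a1 a2 a3 a4 a5 a6 a7 x hx b0 b1 G O
    obtain ⟨f1, f2, f3, f4, f5⟩ := a2.2 x hx
    obtain ⟨g1, g2, g3, g4, g5⟩ := a1.2 x hx
    have dp := dpow_pos D.B n
    rw [Real.rpow_zero] at a7
    obtain ⟨w0, wv, wl, wl'⟩ := a5
    have hYe := O.Ye0
    have hw0' : 0 < (mk4 D n 0 x).w 0 := by
      have := g2.a_le0
      rw [g3] at this
      exact w0.trans_le this
    have hkp := a4 x hx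
    rw [kapP_eq (O.pos 0).ne' O.exp, f3] at hkp
    set Ye := (mk4 D n v x).w 0 * kap b0 b1 G with hYed
    have v0' : (0 : ℝ) < (v : ℝ) := by exact_mod_cast hv
    have v1' : (v : ℝ) ≤ 1 := by exact_mod_cast v1
    set E : ℝ := D.B.d n ^ (-(Ct * ((v : ℝ) - (0 : ℚ))) - 1) * max (D.w 0 n 0) (D.w 0 n v) with hE
    have p8 : (D.B.d n ^ (1 / 100 : ℝ)) ^ 8 = D.B.d n ^ (8 / 100 : ℝ) := by
      rw [← Real.rpow_natCast, ← Real.rpow_mul (D.B.pos n).le]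
      congr 1; norm_num
    have hdW : 1 ≤ D.B.d n ^ (-W) :=
      Real.one_le_rpow_of_pos_of_le_one_of_nonpos (D.B.pos n) (D.B.lt n).le (by linarith)
    have hcv : Ct * (v : ℝ) ≤ Ct := mul_le_of_le_one_right hCt v1'
    have hcv0 : 0 ≤ Ct * (v : ℝ) := mul_nonneg hCt v0'.le
    have m1 : max (D.w 0 n 0) (D.w 0 n v) ≤ D.w 0 n v * D.B.d n ^ (-W) :=
      max_le wl' (le_mul_of_one_le_right wv.le hdW)
    have m2 : max (D.w 0 n 0) (D.w 0 n v) ≤ D.w 0 n 0 * D.B.d n ^ (-W) :=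
      max_le (le_mul_of_one_le_right w0.le hdW) wl
    have e0 : D.B.d n ^ (-(Ct * ((v : ℝ) - (0 : ℚ))) - 1) ≤ D.B.d n ^ (-Ct - 1) :=
      dpow_le D.B n (by push_cast; linarith)
    have E1 : E ≤ D.B.d n ^ (-Ct - 1 - W) * D.w 0 n v := by
      calc E ≤ D.B.d n ^ (-Ct - 1) * (D.w 0 n v * D.B.d n ^ (-W)) :=
            mul_le_mul e0 m1 (w0.le.trans (le_max_left _ _)) (dp _).le
        _ = D.B.d n ^ (-Ct - 1) * D.B.d n ^ (-W) * D.w 0 n v := by ring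
        _ = _ := by rw [← dpow_add]; congr 2
    have E2 : E ≤ D.B.d n ^ (-Ct - 1 - W) * D.w 0 n 0 := by
      calc E ≤ D.B.d n ^ (-Ct - 1) * (D.w 0 n 0 * D.B.d n ^ (-W)) :=
            mul_le_mul e0 m2 (w0.le.trans (le_max_left _ _)) (dp _).le
        _ = D.B.d n ^ (-Ct - 1) * D.B.d n ^ (-W) * D.w 0 n 0 := by ring
        _ = _ := by rw [← dpow_add]; congr 2
    have E3 : E ≤ D.B.d n ^ (|M| + 4) * Ye := by
      calc E ≤ D.B.d n ^ (-Ct - 1 - W) * (D.B.d n ^ M1 * Ye) :=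
            E1.trans (mul_le_mul_of_nonneg_left hkp (dp _).le)
        _ = D.B.d n ^ (-Ct - 1 - W) * D.B.d n ^ M1 * Ye := by ring
        _ = _ := by rw [← dpow_add]; congr 2; rw [hM1]; ring
    have hE0 : 0 ≤ E := mul_nonneg (dp _).le (w0.le.trans (le_max_left _ _))
    have hsm : 10 ^ 20 * E ≤ (D.B.d n ^ (1 / 100 : ℝ)) ^ 8 * Ye := by
      rw [p8]
      calc 10 ^ 20 * E ≤ 10 ^ 20 * (D.B.d n ^ (|M| + 4) * Ye) :=
            mul_le_mul_of_nonneg_left E3 (by norm_num)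
        _ = 10 ^ 20 * D.B.d n ^ (1 : ℝ) * (D.B.d n ^ (|M| + 3) * Ye) := by
            have : D.B.d n ^ (|M| + 4) = D.B.d n ^ (1 : ℝ) * D.B.d n ^ (|M| + 3) := by
              rw [← dpow_add]; congr 1; ring
            rw [this]; ring
        _ ≤ 1 * (D.B.d n ^ (|M| + 3) * Ye) :=
            mul_le_mul_of_nonneg_right a7 (mul_nonneg (dp _).le hYe.le)
        _ ≤ D.B.d n ^ (8 / 100 : ℝ) * Ye := by
            rw [one_mul]
            refine mul_le_mul_of_nonneg_right (dpow_le D.B n ?_) hYe.le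
            have := abs_nonneg M
            linarith
    obtain ⟨c1, c2⟩ := cell_in a6 x.2
    obtain ⟨N, R, H, hS⟩ := snd_of_close O f2 f1 g2 hw0' c1 c2 g1 (a3 x hx) hsm
    have hX0 : 0 ≤ 10 ^ 19 * E / (D.B.d n ^ (1 / 100 : ℝ)) ^ 8 / Ye := by
      have := dp (1 / 100 : ℝ)
      positivity
    have k8 : 10 ^ 19 / (D.B.d n ^ (1 / 100 : ℝ)) ^ 8 ≤ D.B.d n ^ (-(2 : ℝ)) := by
      rw [p8, div_le_iff₀ (dp _), ← dpow_add]
      have e : D.B.d n ^ (1 : ℝ) * D.B.d n ^ (-(1 : ℝ)) = 1 := by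
        rw [← dpow_add]; simp
      have h3 := mul_le_mul_of_nonneg_right a7 (dp (-(1 : ℝ))).le
      rw [mul_assoc, e] at h3
      have h4 : D.B.d n ^ (-(1 : ℝ)) ≤ D.B.d n ^ (-(2 : ℝ) + 8 / 100) :=
        dpow_le D.B n (by norm_num)
      linarith
    have k9 : 10 ^ 19 * E / (D.B.d n ^ (1 / 100 : ℝ)) ^ 8 ≤ D.B.d n ^ (-(2 : ℝ)) * E := by
      have := mul_le_mul_of_nonneg_right k8 hE0
      refine le_trans (le_of_eq (by ring)) this
    refine ⟨_, N, R, H, hS, ?_, hX0, ?_⟩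
    · rw [div_le_iff₀ hYe]
      refine k9.trans ?_
      calc D.B.d n ^ (-(2 : ℝ)) * E ≤ D.B.d n ^ (-(2 : ℝ)) * (D.B.d n ^ (|M| + 4) * Ye) :=
            mul_le_mul_of_nonneg_left E3 (dp _).le
        _ = D.B.d n ^ (|M| + 2) * Ye := by
            rw [← mul_assoc, ← dpow_add]; congr 2; ring
        _ ≤ D.B.d n ^ M * Ye := by
            refine mul_le_mul_of_nonneg_right (dpow_le D.B n ?_) hYe.le
            have := le_abs_self M
            linarith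
    · have e : Ye * (10 ^ 19 * E / (D.B.d n ^ (1 / 100 : ℝ)) ^ 8 / Ye) =
          10 ^ 19 * E / (D.B.d n ^ (1 / 100 : ℝ)) ^ 8 := by field_simp
      rw [e]
      refine k9.trans ?_
      calc D.B.d n ^ (-(2 : ℝ)) * E ≤ D.B.d n ^ (-(2 : ℝ)) *
            (D.B.d n ^ (-Ct - 1 - W) * D.w 0 n 0) := mul_le_mul_of_nonneg_left E2 (dp _).le
        _ = D.B.d n ^ (-(Ct + W + 3)) * D.w 0 n 0 := by
            rw [← mul_assoc, ← dpow_add]; congr 2; ring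

end Crest.Agent.R136.Stc321
end

-- ▼ part R136/Stc9_321

/-!
# R136, U6 thin side, stage C (helper321), part 9: the data of the levels

`lev_data_of` : every good incidence has the data `LvD` at every level.
-/

set_option autoImplicit false
set_option linter.unusedVariables false

open Finset Filter Topology

namespace Crest.Agent.R136.Stc321

open Crest.Agent.R138
open Crest.Agent.R138.Ex926 (Base U)
open Crest.Agent.R138.Dp76 (dpow_pos dpow_add dpow_le dpow_le_one)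
open Crest.Agent.R138.ArgM163 (ev_const)
open Crest.Agent.R138.Mk163 (zc zl rho)
open Crest.Agent.R138.MkRef627 (lc kc)
open Crest.Agent.R136.MkA627
open Crest.Agent.R136.Sh605
open Crest.Agent.R136.K4
open Crest.Agent.R136.NetW191
open Crest.Agent.R136.GeoN778
open Crest.Agent.R136.Wit321
open Crest.Agent.R136.Top484
open Crest.Agent.R136.Tlt51 (Close mk4 zx rh Shp InP)
open Crest.Agent.R136.KapP335 (kapP DetP)
open Crest.Agent.R136.Tl102 (QF kap IsExp OmB)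
open Crest.Agent.R136.Fw650 (z0N zhN rhN)
open Crest.Agent.R136.Thn768 (ThinW Frm Own Snd Tay)
open Crest.Agent.R136.TL650 (own_of)
open Crest.Agent.R136.Stk464 (StcK mk_facts rho_pos' zh_le uzh_eq cell_v)

theorem Nr.mono {Q : Qd} {t : Ln4} {z1 κ ν R η η' : ℝ} (h : Nr Q t z1 κ ν R η) (hη : η ≤ η') :
    Nr Q t z1 κ ν R η' := by
  have hν := abs_nonneg ν
  have k := mul_le_mul_of_nonneg_left hη hν
  exact ⟨h.g0.trans k, h.g1, h.g2, h.d0.trans k, h.d1.trans k, h.d2.trans k, fun X B hX =>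
    (h.hh X B hX).trans (mul_le_mul_of_nonneg_left
      (mul_le_mul_of_nonneg_right hη (sq_nonneg B)) hν)⟩

/-- a constant against a power -/
theorem cpow_le (B : Base) (c : ℝ) {a b : ℝ} (hab : b < a) :
    ∀ᶠ n in (U : Filter ℕ), c * B.d n ^ a ≤ B.d n ^ b := Wcn464.ev_le B c hab

theorem cube_le {a b : ℝ} (ha : 0 ≤ a) (hb : 0 ≤ b) (h : a ^ 3 ≤ b ^ 3) : a ≤ b :=
  le_of_pow_le_pow_left₀ (by norm_num) hb h

set_option maxHeartbeats 1000000 in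
/-- **the data of the levels** -/
theorem lev_data_of {p : Par4} {D : Dat4} {K : ℕ → CtD} {x0 : ℕ → ℕ × ℝ} (h : ThinW p D)
    (hk : StcK p D K x0) (hs : SndLev D) (C : ℝ) {v : ℚ} (v0 : 0 ≤ v) (v1 : v ≤ 1) :
    ∃ C2 : ℝ, 0 ≤ C2 ∧ ∀ ε : ℝ, 0 < ε → ∀ M : ℝ, 4 * C2 + 10 ≤ M →
      ∀ᶠ n in (U : Filter ℕ), ∀ x ∈ D.I n, Gd D K C n x →
        LvD D K n v x (D.B.d n ^ ε) (D.B.d n ^ (-C2)) (D.B.d n ^ M) := by
  obtain ⟨Cs, hs⟩ := hs
  set C0 : ℝ := max C 0 with hC0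
  have c00 : 0 ≤ C0 := le_max_right _ _
  have cC0 : C ≤ C0 := le_max_left _ _
  set C2 : ℝ := max (C0 + 1) Cs with hC2
  have c21 : C0 + 1 ≤ C2 := le_max_left _ _
  have c2s : Cs ≤ C2 := le_max_right _ _
  refine ⟨C2, by linarith, fun ε hε M hM => ?_⟩
  set MX : ℝ := M + ε + 1 with hMX
  set MP : ℝ := M + C2 + 1 with hMP
  filter_upwards [hs v v0 v1 MX, mk_facts h.mka v0 v1, mk_facts h.mka le_rfl zero_le_one,
    h.nd v v0 v1 ε hε, h.nd v v0 v1 (1 / 100) (by norm_num), h.nd v v0 v1 (ε / 2) (by linarith),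
    h.nd 0 le_rfl zero_le_one 1 one_pos, hk.sm MP, hk.σs (MP + C0), hk.YB M, hk.kp0, hk.frm,
    zh_le hk, cell_v h.mka hk v0 v1, hk.bal v v0 v1 (ε / 4) (by linarith),
    cpow_le D.B (10 ^ 6) (show (0 : ℝ) < 1 by norm_num),
    cpow_le D.B (10 ^ 18) (show (0 : ℝ) < ε / 2 by linarith),
    hk.H] with n hs mf mf0 nd nd1 nd2 nd0 sm σs YB kp0 frm zhl cv bal k1 k2 hH x hx hg
  have dp := dpow_pos D.B n
  have d1 : ∀ {s : ℝ}, 0 ≤ s → D.B.d n ^ s ≤ 1 := fun hs => dpow_le_one D.B n hs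
  rw [Real.rpow_zero] at k1 k2
  obtain ⟨f1, f2, f3, f4, f5⟩ := mf.2 x hx
  obtain ⟨g1, g2, g3, g4, g5⟩ := mf0.2 x hx
  have ha : 0 < (mk4 D n v x).a := by rw [f3]; exact mf.1
  have ha0 : 0 < (mk4 D n 0 x).a := by rw [g3]; exact mf0.1
  have hρ : 0 < rh D n v := rho_pos' _
  obtain ⟨b0, b1, G, O⟩ := own_of f2 ha f1 hρ (dp ε) (nd x hx)
  obtain ⟨c0, c1, G0, O0⟩ := own_of g2 ha0 g1 (rho_pos' _) (dp 1) (nd0 x hx)
  have O1 : Own (mk4 D n v x) (D.L n x.1) (zx D n v x) (rh D n v) (D.B.d n ^ (1 / 100 : ℝ))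
      b0 b1 G := ⟨O.ortho, O.pos, O.w02, O.w21, O.hρ, O.exp, O.nrm, O.k0, dp _, nd1 x hx⟩
  have O2 : Own (mk4 D n v x) (D.L n x.1) (zx D n v x) (rh D n v) (D.B.d n ^ (ε / 2))
      b0 b1 G := ⟨O.ortho, O.pos, O.w02, O.w21, O.hρ, O.exp, O.nrm, O.k0, dp _, nd2 x hx⟩
  obtain ⟨X, N, R', H, hS, hX1, hX0, hX2⟩ := hs x hx b0 b1 G O1
  have hq0 := (Stk464.qdOf_spec g2.isQ).1
  have hSQ : Snd (mk4 D n v x) (D.L n x.1) (zx D n v x) (rh D n v) b0 b1 G X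
      (qdOf (mk4 D n 0 x).q).ev N R' H := by rw [← hq0]; exact hS
  obtain ⟨b0p, b1p, Gp, hE, m1, m2', hO⟩ := hSQ.ex
  -- numbers
  set Rr : ℝ := D.B.d n ^ (-C2) with hRr
  set η : ℝ := D.B.d n ^ M with hη
  have R1 : 1 ≤ Rr := Real.one_le_rpow_of_pos_of_le_one_of_nonpos (D.B.pos n) (D.B.lt n).le
    (by linarith)
  have η0 : 0 < η := dp _
  set Γ : ℝ := D.B.d n ^ (-C) with hΓ
  set P1 : ℝ := D.B.d n ^ MP with hP1
  have hP10 : 0 < P1 := dp _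
  have e1 : P1 * Rr = η * D.B.d n ^ (1 : ℝ) := by
    rw [hP1, hRr, hη, ← dpow_add, ← dpow_add]; congr 1; rw [hMP]; ring
  have σ0 := hk.σ0 n
  have hσΓ : (K n).σ * Γ ≤ P1 := by
    calc (K n).σ * Γ ≤ D.B.d n ^ (MP + C0) * D.B.d n ^ (-C) :=
          mul_le_mul_of_nonneg_right σs (dp _).le
      _ = D.B.d n ^ (MP + C0 - C) := by rw [← dpow_add]; congr 1
      _ ≤ P1 := dpow_le D.B n (by linarith)
  have hσΓ0 : 0 ≤ (K n).σ * Γ := mul_nonneg σ0.le (dp _).le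
  have hd1 : D.B.d n ^ (1 : ℝ) ≤ 1 / 10 ^ 6 := by
    rw [le_div_iff₀ (by norm_num)]; linarith
  have hP1s : P1 ≤ 1 / 10 ^ 6 := by
    refine le_trans (dpow_le D.B n (show (1 : ℝ) ≤ MP by rw [hMP]; linarith)) hd1
  have hηs : η ≤ 1 / 10 ^ 6 := le_trans (dpow_le D.B n (show (1 : ℝ) ≤ M by linarith)) hd1
  have hRη : Rr ^ 4 * η ≤ 1 / 10 ^ 6 := by
    have e : Rr ^ 4 = D.B.d n ^ (-(4 * C2)) := by
      rw [hRr, ← Real.rpow_natCast, ← Real.rpow_mul (D.B.pos n).le]; congr 1; push_cast; ring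
    rw [e, hη, ← dpow_add]
    exact le_trans (dpow_le D.B n (by linarith)) hd1
  have hR4 : Rr ≤ Rr ^ 4 := by
    have : Rr ^ 1 ≤ Rr ^ 4 := pow_le_pow_right₀ R1 (by norm_num)
    rwa [pow_one] at this
  have hRη1 : Rr * η ≤ 1 / 10 ^ 6 := (mul_le_mul_of_nonneg_right hR4 η0.le).trans hRη
  -- positions
  obtain ⟨gl, gb, gf⟩ := hg
  have hC2' : D.B.d n ^ (-C0) * 2 ≤ Rr := by
    have a : 2 ≤ D.B.d n ^ (-(1 : ℝ)) := by
      have e : D.B.d n ^ (1 : ℝ) * D.B.d n ^ (-(1 : ℝ)) = 1 := by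
        rw [← dpow_add]; simp
      have h3 := mul_le_mul_of_nonneg_right hd1 (dp (-(1 : ℝ))).le
      rw [e] at h3
      linarith
    calc D.B.d n ^ (-C0) * 2 ≤ D.B.d n ^ (-C0) * D.B.d n ^ (-(1 : ℝ)) :=
          mul_le_mul_of_nonneg_left a (dp _).le
      _ = D.B.d n ^ (-C0 + -1) := (dpow_add D.B n _ _).symm
      _ ≤ Rr := dpow_le D.B n (by linarith)
  have hΓC : Γ ≤ D.B.d n ^ (-C0) := dpow_le D.B n (by linarith)
  set t := (K n).t (D.L n x.1) with ht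
  have tp : ∀ k, |t.p k| ≤ D.B.d n ^ (-C0) := fun k => (gl k).1.trans hΓC
  have tvb : ∀ k, |t.v k| ≤ D.B.d n ^ (-C0) := fun k => (gl k).2.trans hΓC
  have dC0 := dp (-C0)
  have tpR : ∀ k, |t.p k| ≤ Rr := fun k => (tp k).trans (by linarith)
  have tvR : ∀ k, |t.v k| ≤ Rr := fun k => (tvb k).trans (by linarith)
  have pos : ∀ z, |z| ≤ 1 → ∀ k, |t.pos z k| ≤ Rr := by
    intro z hz k
    have := a2 (tp k) (m2 hz (tvb k))
    show |t.p k + z * t.v k| ≤ _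
    linarith
  have zz0 : |(K n).u.zh (zx D n v x)| ≤ 1 := by
    refine cv.2.2 x hx _ (le_of_eq ?_) ?_
    · rw [uzh_eq]; rfl
    · rw [uzh_eq]
      show z0N D.lev (hzS K) (zsS K) v n (zc (D.lev n v) x.2) ≤ _
      have : 0 < rhN D.lev (hzS K) n v := lt_of_lt_of_le (dp _) cv.1
      linarith
  have zz1 : |(K n).u.zh x.2| ≤ 1 := by
    rw [uzh_eq]
    have := zhl x hx
    show |zhN (hzS K) (zsS K) n x| ≤ 1
    linarith
  -- near the model
  have nr : ∀ z, |z| ≤ 1 → Nr ((K n).Qh (mk4 D n 0 x).q) t z (K n).κ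
      (((K n).Q (mk4 D n 0 x).q).b 0) Rr η := by
    intro z hz
    have hb1 : Rr * (24 * P1 + (K n).σ * Γ) ≤ 25 * (P1 * Rr) := by
      have := mul_le_mul_of_nonneg_left (show 24 * P1 + (K n).σ * Γ ≤ 25 * P1 by linarith)
        (by linarith : 0 ≤ Rr)
      linarith
    have hb2 : 25 * (P1 * Rr) ≤ η / 9 := by
      rw [e1]
      have := mul_le_mul_of_nonneg_left hd1 η0.le
      linarith
    have := nr_good (z1 := z) sm (by linarith) σ0 (hk.kp1 n) gb gf (by linarith) (t := t) R1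
      (hz.trans R1) (pos z hz) tvR (by linarith)
    exact this.mono (by linarith)
  -- multiplier
  have hzl := GR650.zl_le (D.lev n 0) x.2
  have hnu := nu_good (c := (K n).c) O0 (hk.ortho n) (hk.ok n) hq0 (z := x.2) hzl.1 hzl.2
    (frm x hx) (nr _ zz1) η0.le (by linarith)
  obtain ⟨nu1, nu2⟩ := hnu
  have hWY := (hk.ok n).Y0
  have hWA := (hk.ok n).A0
  have hWB := (hk.ok n).B0
  have hHp := (hk.ok n).H0
  have hrh : rh D n v / (K n).u.H = rhN D.lev (hzS K) n v := by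
    show rho (D.lev n v) / (K n).u.H = 1 / (K n).u.H * rho (D.lev n v)
    ring
  have hXη : X ≤ η := hX1.trans (dpow_le D.B n (by rw [hMX]; linarith))
  have hOη := hO.mono hXη hXη hXη
  have hRη' : 6000 * (η * Rr ^ 4) ≤ 1 := by
    have : η * Rr ^ 4 = Rr ^ 4 * η := mul_comm _ _
    rw [this]; linarith
  have hBas := bas_of (c := (K n).c) O (hk.ortho n) (hk.ok n) hE m1 m2' hOη η0.le (by linarith)
    (nr _ zz0) (hk.kp1 n) R1 (tvR 1) η0.le (by linarith)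
    (by
      have : rh D n v / (K n).u.H ≤ 1 := by rw [hrh]; linarith [cv.2.1]
      rwa [div_le_one hHp] at this) (by linarith) (by linarith) YB
  -- curvature extent
  have hX9 : X ≤ D.B.d n ^ (ε / 2) / 10 ^ 9 := by
    rw [le_div_iff₀ (by norm_num)]
    have e : D.B.d n ^ MX = D.B.d n ^ (ε / 2) * D.B.d n ^ (M + ε / 2 + 1) := by
      rw [← dpow_add]; congr 1; rw [hMX]; ring
    have e2 : D.B.d n ^ (M + ε / 2 + 1) ≤ D.B.d n ^ (2 : ℝ) := dpow_le D.B n (by linarith)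
    have e3 : D.B.d n ^ (2 : ℝ) ≤ 1 / 10 ^ 6 * (1 / 10 ^ 6) := by
      have e4 : D.B.d n ^ (2 : ℝ) = D.B.d n ^ (1 : ℝ) * D.B.d n ^ (1 : ℝ) := by
        rw [← dpow_add]; norm_num
      rw [e4]
      exact mul_le_mul hd1 hd1 (dp _).le (by norm_num)
    have e5 : D.B.d n ^ MX ≤ D.B.d n ^ (ε / 2) * (1 / 10 ^ 6 * (1 / 10 ^ 6)) := by
      rw [e]; exact mul_le_mul_of_nonneg_left (e2.trans e3) (dp _).le
    have := dp (ε / 2)
    nlinarith
  have up := ye_up (c := (K n).c) O2 hSQ (d1 (by linarith)) hX9 (hk.ortho n) (hk.ok n) (nr _ zz0)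
    (hk.kp1 n) kp0 R1 (tvR 1) η0.le hRη' nu1 nu2
  set A := (mk4 D n v x).w 1 / (K n).u.WA with hA
  have hA0 : 0 < A := div_pos (O.pos 1) hWA
  have hYe := O.Ye0
  have hup : D.B.d n ^ ε * ((mk4 D n v x).w 0 * kap b0 b1 G) ≤ (K n).u.WY * A ^ 2 := by
    have e : D.B.d n ^ ε = D.B.d n ^ (ε / 2) * D.B.d n ^ (ε / 2) := by
      rw [← dpow_add]; congr 1; ring
    have hp : 0 < (K n).u.WY * A ^ 2 := by positivity
    calc D.B.d n ^ ε * ((mk4 D n v x).w 0 * kap b0 b1 G) =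
          D.B.d n ^ (ε / 2) * (D.B.d n ^ (ε / 2) * ((mk4 D n v x).w 0 * kap b0 b1 G)) := by
            rw [e]; ring
      _ ≤ D.B.d n ^ (ε / 2) * (10 ^ 18 * ((K n).u.WY * A ^ 2)) :=
          mul_le_mul_of_nonneg_left up (dp _).le
      _ = 10 ^ 18 * D.B.d n ^ (ε / 2) * ((K n).u.WY * A ^ 2) := by ring
      _ ≤ 1 * ((K n).u.WY * A ^ 2) := mul_le_mul_of_nonneg_right k2 hp.le
      _ = _ := one_mul _
  have hbb : D.B.d n ^ (ε / 4) * A ^ 2 ≤
      rh D n v / (K n).u.H * ((mk4 D n v x).w 2 / (K n).u.WB) := by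
    have b2 := bal.2
    have e : wBS D K n v = A ^ 2 / rhN D.lev (hzS K) n v := by
      rw [hA, f4]; rfl
    have hr0 : 0 < rhN D.lev (hzS K) n v := lt_of_lt_of_le (dp _) cv.1
    rw [e] at b2
    rw [hrh, f5]
    have e3 : D.B.d n ^ (ε / 4) * D.B.d n ^ (-(ε / 4)) = 1 := by rw [← dpow_add]; simp
    have b3 := mul_le_mul_of_nonneg_left b2
      (div_nonneg (mul_nonneg (dp (ε / 4)).le hr0.le) hWB.le)
    have e4 : D.B.d n ^ (ε / 4) * rhN D.lev (hzS K) n v / (K n).u.WB *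
        ((K n).u.WB * (A ^ 2 / rhN D.lev (hzS K) n v)) = D.B.d n ^ (ε / 4) * A ^ 2 := by
      field_simp
    have e5 : D.B.d n ^ (ε / 4) * rhN D.lev (hzS K) n v / (K n).u.WB *
        (D.w 2 n v * D.B.d n ^ (-(ε / 4))) = (D.B.d n ^ (ε / 4) * D.B.d n ^ (-(ε / 4))) *
          (rhN D.lev (hzS K) n v * (D.w 2 n v / (K n).u.WB)) := by ring
    rw [e4, e5, e3, one_mul] at b3
    exact b3
  have low := ye_low (c := (K n).c) O2 hSQ (d1 (by linarith)) hX9 (hk.ortho n) (hk.ok n)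
    (nr _ zz0) (hk.kp1 n) kp0 R1 (tvR 1) η0.le hRη' nu1 (dp (ε / 4)) hbb
  have hlow : D.B.d n ^ ε * ((K n).u.WY * A ^ 2) ≤ (mk4 D n v x).w 0 * kap b0 b1 G := by
    refine cube_le (mul_nonneg (dp _).le (by positivity)) hYe.le ?_
    have e : (D.B.d n ^ ε * ((K n).u.WY * A ^ 2)) ^ 3 =
        D.B.d n ^ (5 * ε / 2) * ((D.B.d n ^ (ε / 4)) ^ 2 * ((K n).u.WY * A ^ 2) ^ 3) := by
      rw [mul_pow, ← mul_assoc]
      congr 1
      rw [← Real.rpow_natCast, ← Real.rpow_mul (D.B.pos n).le, ← Real.rpow_natCast,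
        ← Real.rpow_mul (D.B.pos n).le, ← dpow_add]
      congr 1; push_cast; ring
    rw [e]
    have k3 : D.B.d n ^ (5 * ε / 2) * 10 ^ 17 ≤ 1 := by
      have : D.B.d n ^ (5 * ε / 2) ≤ D.B.d n ^ (ε / 2) := dpow_le D.B n (by linarith)
      have := dp (ε / 2)
      linarith
    calc D.B.d n ^ (5 * ε / 2) * ((D.B.d n ^ (ε / 4)) ^ 2 * ((K n).u.WY * A ^ 2) ^ 3) ≤
          D.B.d n ^ (5 * ε / 2) * (10 ^ 17 * ((mk4 D n v x).w 0 * kap b0 b1 G) ^ 3) :=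
          mul_le_mul_of_nonneg_left low (dp _).le
      _ = D.B.d n ^ (5 * ε / 2) * 10 ^ 17 * ((mk4 D n v x).w 0 * kap b0 b1 G) ^ 3 := by ring
      _ ≤ 1 * ((mk4 D n v x).w 0 * kap b0 b1 G) ^ 3 :=
          mul_le_mul_of_nonneg_right k3 (pow_pos hYe 3).le
      _ = _ := one_mul _
  refine ⟨b0, b1, G, b0p, b1p, Gp, O, hE, m1, m2', hOη, nu1, nu2, nr _ zz0, hBas, hup, hlow,
    fun k => ⟨tpR k, tvR k⟩, zz0, X, hX0, hXη, ?_, hO⟩
  refine hX2.trans (mul_le_mul_of_nonneg_right (dpow_le D.B n (by linarith)) ?_)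
  exact mf0.1.le

/-- **`lev_data`** -/
theorem lev_data {p : Par4} {D : Dat4} {K : ℕ → CtD} {x0 : ℕ → ℕ × ℝ} (h : ThinW p D)
    (hk : StcK p D K x0) (C : ℝ) {v : ℚ} (v0 : 0 ≤ v) (v1 : v ≤ 1) :
    ∃ C2 : ℝ, 0 ≤ C2 ∧ ∀ ε : ℝ, 0 < ε → ∀ M : ℝ, 4 * C2 + 10 ≤ M →
      ∀ᶠ n in (U : Filter ℕ), ∀ x ∈ D.I n, Gd D K C n x →
        LvD D K n v x (D.B.d n ^ ε) (D.B.d n ^ (-C2)) (D.B.d n ^ M) :=
  lev_data_of h hk (sndLev_of h) C v0 v1

end Crest.Agent.R136.Stc321
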