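import Crest.Agent.R136.GR1_650
import Crest.Agent.R136.Geo3_186

-- ▼ part R136/GR2_650
section

/-!
# R136, L15, record closeness (helper650), part 2: the straight chart

`rS` : the record path of the straight chart (186's `coQ` in anisotropic units `scl`), widths with
linear exponents `θ j (1 - v)`, any units.  `gR_straight` : field `gR` of `Lq196.PreQ`.
-/

set_option autoImplicit false
set_option linter.unusedVariables false

open Finset Filter Topology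

namespace Crest.Agent.R136.GR650

open Crest.Agent.R138.Ex926 (Base U)
open Crest.Agent.R138.Mk163 (zc zl rho alive)
open Crest.Agent.R138.MkRef627 (lc kc)
open Crest.Agent.R138.Dp76 (dpow_pos dpow_add dpow_le dpow_le_one)
open Crest.Agent.R138.ArgM163 (ev_const log_dpow)
open Crest.Agent.R136.Net191
open Crest.Agent.R136.NetQ186
open Crest.Agent.R136.GeoQ186
open Crest.Agent.R136.Sh605

/-! ### exponents -/

/-- two-sided estimate from a limit of logarithms -/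
theorem of_lim {B : Base} {X : ℕ → ℝ} {T : ℝ} (hX : ∀ᶠ n in (U : Filter ℕ), 0 < X n)
    (h : Tendsto (fun n => Real.log (X n) / B.L n) U (𝓝 T)) {t : ℝ} (ht : 0 < t) :
    ∀ᶠ n in (U : Filter ℕ), B.d n ^ (-T + t) ≤ X n ∧ X n ≤ B.d n ^ (-T - t) := by
  have h1 := h.eventually_const_lt (show T - t < T by linarith)
  have h2 := h.eventually_lt_const (show T < T + t by linarith)
  filter_upwards [hX, h1, h2] with n h0 a b
  have hL := B.L_pos n
  rw [lt_div_iff₀ hL] at a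
  rw [div_lt_iff₀ hL] at b
  constructor
  · rw [← Real.log_le_log_iff (dpow_pos B n _) h0, log_dpow]
    nlinarith
  · rw [← Real.log_le_log_iff h0 (dpow_pos B n _), log_dpow]
    nlinarith

theorem rho_pos (i : ℕ) : 0 < rho i := by unfold rho; positivity

/-- ratio of two cell lengths -/
theorem ev_rho {B : Base} {lev : ℕ → ℚ → ℕ} {u v : ℚ}
    (h : Tendsto (fun n => ((lev n v : ℝ) - lev n u) * Real.log 2 / B.L n) U (𝓝 ((v : ℝ) - u)))
    {t : ℝ} (ht : 0 < t) : ∀ᶠ n in (U : Filter ℕ),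
      B.d n ^ ((v : ℝ) - u + t) ≤ rho (lev n v) / rho (lev n u) ∧
      rho (lev n v) / rho (lev n u) ≤ B.d n ^ ((v : ℝ) - u - t) := by
  have h1 : Tendsto (fun n => Real.log (rho (lev n v) / rho (lev n u)) / B.L n) U
      (𝓝 (-((v : ℝ) - u))) := by
    refine h.neg.congr fun n => ?_
    rw [Real.log_div (rho_pos _).ne' (rho_pos _).ne']
    have e : ∀ i : ℕ, Real.log (rho i) = -(i * Real.log 2) := fun i => by
      unfold rho
      rw [one_div, Real.log_inv, Real.log_pow]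
    rw [e, e]
    ring
  have h2 := of_lim (Eventually.of_forall fun n => div_pos (rho_pos _) (rho_pos _)) h1 ht
  filter_upwards [h2] with n hn
  rw [neg_neg] at hn
  exact hn

/-- ratio of two angular widths -/
theorem ev_ang {B : Base} {lev : ℕ → ℚ → ℕ} {w : ℕ → ℚ → ℝ} {v : ℚ} {T : ℝ}
    (hv : ∀ᶠ n in (U : Filter ℕ), 0 < w n v) (h1 : ∀ᶠ n in (U : Filter ℕ), 0 < w n 1)
    (h : Tendsto (fun n => Real.log ((rho (lev n v) / w n v) / (rho (lev n 1) / w n 1)) / B.L n) U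
      (𝓝 T)) {t : ℝ} (ht : 0 < t) : ∀ᶠ n in (U : Filter ℕ),
      B.d n ^ (T + t) ≤ (w n v / rho (lev n v)) / (w n 1 / rho (lev n 1)) ∧
      (w n v / rho (lev n v)) / (w n 1 / rho (lev n 1)) ≤ B.d n ^ (T - t) := by
  have h2 : Tendsto (fun n => Real.log ((w n v / rho (lev n v)) / (w n 1 / rho (lev n 1))) /
      B.L n) U (𝓝 (-T)) := by
    refine h.neg.congr' ?_
    filter_upwards [hv, h1] with n a b
    have p := rho_pos (lev n v)
    have q := rho_pos (lev n 1)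
    have e1 : (w n v / rho (lev n v)) / (w n 1 / rho (lev n 1)) =
        ((rho (lev n v) / w n v) / (rho (lev n 1) / w n 1))⁻¹ := by field_simp
    rw [e1, Real.log_inv]
    ring
  have h3 := of_lim (by
    filter_upwards [hv, h1] with n a b
    have p := rho_pos (lev n v)
    have q := rho_pos (lev n 1)
    positivity) h2 ht
  filter_upwards [h3] with n hn
  rw [neg_neg] at hn
  exact hn

/-! ### the record path -/

/-- record path of the straight chart.  `θ 0, θ 1, θ 2` = exponents of thickness, wide and narrow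
width; `w0` shift of the height, `sa, sb, sy` shifts of the angular units, `R1` exponent of the slot
`R`. -/
def rS (θ : Fin 3 → ℝ) (w0 sa sb sy R1 v : ℝ) : Fin 11 → ℝ :=
  ![w0 + v, R1, (θ 2 - θ 1) * (1 - v) + (sb - sa), (θ 0 - θ 2) * (1 - v) + (sy - sb),
    (θ 0 - θ 1) * (1 - v) + (sy - sa), θ 1 * (1 - v) + sa, θ 2 * (1 - v) + sb,
    θ 0 * (1 - v) + sy, w0 + v + (θ 1 * (1 - v) + sa), w0 + v + (θ 2 * (1 - v) + sb),
    w0 + v + (θ 0 * (1 - v) + sy)]

/-- the units are large enough: all exponents of the record path are positive -/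
structure Units (θ : Fin 3 → ℝ) (w0 sa sb sy R1 : ℝ) : Prop where
  w0p : 0 < w0
  a0 : 0 < sa
  a1 : 0 < θ 1 + sa
  e0 : 0 < sb - sa
  e1 : 0 < (θ 2 - θ 1) + (sb - sa)
  f0 : 0 < sy - sb
  f1 : 0 < (θ 0 - θ 2) + (sy - sb)
  r1 : sy + |θ 0| ≤ R1

namespace Units

variable {θ : Fin 3 → ℝ} {w0 sa sb sy R1 : ℝ}

/-- a positive lower bound of an affine function on `[0,1]` -/
theorem aff_ge {a b v : ℝ} (h0 : 0 ≤ v) (h1 : v ≤ 1) : min b (a + b) ≤ a * (1 - v) + b := by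
  rcases le_total 0 a with h | h
  · exact (min_le_left _ _).trans (by nlinarith)
  · exact (min_le_right _ _).trans (by nlinarith)

/-- all exponents are bounded below -/
theorem pos (h : Units θ w0 sa sb sy R1) : ∃ δ : ℝ, 0 < δ ∧ ∀ v : ℝ, 0 ≤ v → v ≤ 1 →
    ∀ k, δ ≤ rS θ w0 sa sb sy R1 v k := by
  obtain ⟨w0p, a0, a1, e0, e1, f0, f1, r1⟩ := h
  set δ := min w0 (min (min sa (θ 1 + sa)) (min (min (sb - sa) ((θ 2 - θ 1) + (sb - sa)))
    (min (sy - sb) ((θ 0 - θ 2) + (sy - sb))))) with hδ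
  have d0 : 0 < δ := lt_min w0p (lt_min (lt_min a0 a1) (lt_min (lt_min e0 e1) (lt_min f0 f1)))
  have m0 : δ ≤ w0 := min_le_left _ _
  have m1 : δ ≤ min sa (θ 1 + sa) := (min_le_right _ _).trans (min_le_left _ _)
  have m2 : δ ≤ min (sb - sa) ((θ 2 - θ 1) + (sb - sa)) :=
    (min_le_right _ _).trans ((min_le_right _ _).trans (min_le_left _ _))
  have m3 : δ ≤ min (sy - sb) ((θ 0 - θ 2) + (sy - sb)) :=
    (min_le_right _ _).trans ((min_le_right _ _).trans (min_le_right _ _))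
  refine ⟨δ, d0, fun v v0 v1 => ?_⟩
  have ca : δ ≤ θ 1 * (1 - v) + sa := m1.trans (aff_ge v0 v1)
  have ce : δ ≤ (θ 2 - θ 1) * (1 - v) + (sb - sa) := m2.trans (aff_ge v0 v1)
  have cf : δ ≤ (θ 0 - θ 2) * (1 - v) + (sy - sb) := m3.trans (aff_ge v0 v1)
  have cb : 2 * δ ≤ θ 2 * (1 - v) + sb := by nlinarith
  have cy : 3 * δ ≤ θ 0 * (1 - v) + sy := by nlinarith
  have cr : δ ≤ R1 := by
    have : θ 0 * (1 - v) ≤ |θ 0| := by
      have h1 := le_abs_self (θ 0)
      have h2 := abs_nonneg (θ 0)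
      nlinarith
    linarith
  intro k
  fin_cases k
  · show δ ≤ w0 + v; linarith
  · exact cr
  · exact ce
  · exact cf
  · show δ ≤ (θ 0 - θ 1) * (1 - v) + (sy - sa); nlinarith
  · exact ca
  · show δ ≤ θ 2 * (1 - v) + sb; linarith
  · show δ ≤ θ 0 * (1 - v) + sy; linarith
  · show δ ≤ w0 + v + (θ 1 * (1 - v) + sa); linarith
  · show δ ≤ w0 + v + (θ 2 * (1 - v) + sb); linarith
  · show δ ≤ w0 + v + (θ 0 * (1 - v) + sy); linarith

/-- **the record path is legal** -/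
theorem legal (h : Units θ w0 sa sb sy R1) {v : ℝ} (v0 : 0 ≤ v) (v1 : v ≤ 1) :
    Legal monQ (rS θ w0 sa sb sy R1 v) := by
  obtain ⟨δ, hδ, hp⟩ := h.pos
  have hw := h.w0p
  have r1 := h.r1
  have hθ : θ 0 * (1 - v) ≤ |θ 0| := by
    have h1 := le_abs_self (θ 0)
    have h2 := abs_nonneg (θ 0)
    nlinarith
  rw [legalQ_iff]
  refine ⟨fun k => hδ.le.trans (hp v v0 v1 k), ?_, ?_, ?_, ?_, ?_, ?_, ?_, ?_, ?_, ?_, ?_⟩ <;>
    simp only [rS, Matrix.cons_val] <;> nlinarith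


end Units


end Crest.Agent.R136.GR650
end

-- ▼ part R136/GR3_650

/-!
# R136, L15, record closeness (helper650), part 3: `gR` for the straight chart
-/

set_option autoImplicit false
set_option linter.unusedVariables false

open Finset Filter Topology

namespace Crest.Agent.R136.GR650

open Crest.Agent.R138.Ex926 (Base U)
open Crest.Agent.R138.Mk163 (zc zl rho alive)
open Crest.Agent.R138.MkRef627 (lc kc)
open Crest.Agent.R138.Dp76 (dpow_pos dpow_add dpow_le dpow_le_one)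
open Crest.Agent.R138.ArgM163 (ev_const log_dpow)
open Crest.Agent.R136.Net191
open Crest.Agent.R136.NetQ186
open Crest.Agent.R136.GeoQ186
open Crest.Agent.R136.Sh605

/-- the height lies in its cell -/
theorem zl_le (i : ℕ) (z : ℝ) : zl i (zc i z) ≤ z ∧ z ≤ zl i (zc i z) + rho i := by
  have hp : (0 : ℝ) < 2 ^ i := by positivity
  have h1 := Int.floor_le ((2 : ℝ) ^ i * z)
  have h2 := (Int.lt_floor_add_one ((2 : ℝ) ^ i * z)).le
  constructor
  · unfold zl zc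
    rw [div_le_iff₀ hp]
    linarith
  · unfold zl zc rho
    rw [← add_div, le_div_iff₀ hp]
    linarith

/-- finite form: sizes of the scaled coordinates, from ratios.  `Za`, ... = bounds of the ratios. -/
theorem size_le {H Wa Wb Wy ρ w0 w1 w2 e : ℝ} (hH : 0 < H) (ha : 0 < Wa) (hb : 0 < Wb)
    (hy : 0 < Wy) (hρ : 0 < ρ) (h0 : 0 < w0) (h2 : 0 < w2) (h1 : 0 < w1) (he : 1 ≤ e)
    (h02 : w0 ≤ w2) (h21 : w2 ≤ w1) {x : Fin 11 → ℝ}
    (x0 : |x 0| ≤ ρ) (x1 : x 1 = 0) (x2 : |x 2| ≤ w2 / w1 * e) (x3 : |x 3| ≤ w0 / w2 * e)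
    (x4 : |x 4| ≤ w0 / w1 * e) (x5 : |x 5| ≤ 2 * (w0 * e + w1 * e + w2 * e) / ρ)
    (x6 : |x 6| ≤ 2 * (2 * (w0 * e + w2 * e)) / ρ) (x7 : |x 7| ≤ 2 * (2 * (w0 * e)) / ρ)
    (x8 : |x 8| ≤ w0 * e + w1 * e + w2 * e) (x9 : |x 9| ≤ 2 * (w0 * e + w2 * e))
    (x10 : |x 10| ≤ 2 * (w0 * e)) (k : Fin 11) :
    |sfac H Wa Wb Wy k * x k| ≤ 8 * e *
      ![H * ρ, 0, (w2 / ρ / Wb) / (w1 / ρ / Wa), (w0 / ρ / Wy) / (w2 / ρ / Wb),
        (w0 / ρ / Wy) / (w1 / ρ / Wa), w1 / ρ / Wa, w2 / ρ / Wb, w0 / ρ / Wy,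
        H * ρ * (w1 / ρ / Wa), H * ρ * (w2 / ρ / Wb), H * ρ * (w0 / ρ / Wy)] k := by
  have he0 : 0 < e := by linarith
  have mul : ∀ {s y b c : ℝ}, 0 < s → |y| ≤ b → s * b ≤ c → |s * y| ≤ c := by
    intro s y b c hs hy hc
    rw [abs_mul, abs_of_pos hs]
    exact (mul_le_mul_of_nonneg_left hy hs.le).trans hc
  have q01 : w0 ≤ w1 := h02.trans h21
  fin_cases k
  · show |H * x 0| ≤ 8 * e * (H * ρ)
    refine mul hH x0 ?_
    have : 0 < H * ρ := by positivity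
    nlinarith
  · show |1 / (H * Wy) * x 1| ≤ 8 * e * 0
    rw [x1, mul_zero, mul_zero, abs_zero]
  · show |Wa / Wb * x 2| ≤ 8 * e * ((w2 / ρ / Wb) / (w1 / ρ / Wa))
    refine mul (by positivity) x2 ?_
    have e1 : (w2 / ρ / Wb) / (w1 / ρ / Wa) = Wa / Wb * (w2 / w1) := by field_simp
    rw [e1]
    have : 0 < Wa / Wb * (w2 / w1) := by positivity
    nlinarith [mul_pos this he0]
  · show |Wb / Wy * x 3| ≤ 8 * e * ((w0 / ρ / Wy) / (w2 / ρ / Wb))
    refine mul (by positivity) x3 ?_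
    have e1 : (w0 / ρ / Wy) / (w2 / ρ / Wb) = Wb / Wy * (w0 / w2) := by field_simp
    rw [e1]
    have : 0 < Wb / Wy * (w0 / w2) := by positivity
    nlinarith [mul_pos this he0]
  · show |Wa / Wy * x 4| ≤ 8 * e * ((w0 / ρ / Wy) / (w1 / ρ / Wa))
    refine mul (by positivity) x4 ?_
    have e1 : (w0 / ρ / Wy) / (w1 / ρ / Wa) = Wa / Wy * (w0 / w1) := by field_simp
    rw [e1]
    have : 0 < Wa / Wy * (w0 / w1) := by positivity
    nlinarith [mul_pos this he0]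
  · show |1 / Wa * x 5| ≤ 8 * e * (w1 / ρ / Wa)
    refine mul (by positivity) x5 ?_
    have e1 : 1 / Wa * (2 * (w0 * e + w1 * e + w2 * e) / ρ) =
        2 * e * ((w0 + w1 + w2) / (ρ * Wa)) := by field_simp
    have e2 : 8 * e * (w1 / ρ / Wa) = 2 * e * (4 * w1 / (ρ * Wa)) := by field_simp; ring
    rw [e1, e2]
    refine mul_le_mul_of_nonneg_left ?_ (by positivity)
    exact div_le_div_of_nonneg_right (by linarith) (by positivity)
  · show |1 / Wb * x 6| ≤ 8 * e * (w2 / ρ / Wb)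
    refine mul (by positivity) x6 ?_
    have e1 : 1 / Wb * (2 * (2 * (w0 * e + w2 * e)) / ρ) =
        4 * e * ((w0 + w2) / (ρ * Wb)) := by field_simp; ring
    have e2 : 8 * e * (w2 / ρ / Wb) = 4 * e * (2 * w2 / (ρ * Wb)) := by field_simp; ring
    rw [e1, e2]
    refine mul_le_mul_of_nonneg_left ?_ (by positivity)
    exact div_le_div_of_nonneg_right (by linarith) (by positivity)
  · show |1 / Wy * x 7| ≤ 8 * e * (w0 / ρ / Wy)
    refine mul (by positivity) x7 ?_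
    have e1 : 1 / Wy * (2 * (2 * (w0 * e)) / ρ) = 4 * e * (w0 / ρ / Wy) := by
      field_simp; ring
    rw [e1]
    have : 0 < e * (w0 / ρ / Wy) := by positivity
    nlinarith
  · show |H / Wa * x 8| ≤ 8 * e * (H * ρ * (w1 / ρ / Wa))
    refine mul (by positivity) x8 ?_
    have e1 : H / Wa * (w0 * e + w1 * e + w2 * e) = e * (H / Wa) * (w0 + w1 + w2) := by ring
    have e2 : 8 * e * (H * ρ * (w1 / ρ / Wa)) = e * (H / Wa) * (8 * w1) := by field_simp
    rw [e1, e2]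
    exact mul_le_mul_of_nonneg_left (by linarith) (by positivity)
  · show |H / Wb * x 9| ≤ 8 * e * (H * ρ * (w2 / ρ / Wb))
    refine mul (by positivity) x9 ?_
    have e1 : H / Wb * (2 * (w0 * e + w2 * e)) = e * (H / Wb) * (2 * (w0 + w2)) := by ring
    have e2 : 8 * e * (H * ρ * (w2 / ρ / Wb)) = e * (H / Wb) * (8 * w2) := by field_simp
    rw [e1, e2]
    exact mul_le_mul_of_nonneg_left (by linarith) (by positivity)
  · show |H / Wy * x 10| ≤ 8 * e * (H * ρ * (w0 / ρ / Wy))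
    refine mul (by positivity) x10 ?_
    have e1 : H / Wy * (2 * (w0 * e)) = e * (H / Wy) * (2 * w0) := by ring
    have e2 : 8 * e * (H * ρ * (w0 / ρ / Wy)) = e * (H / Wy) * (8 * w0) := by field_simp
    rw [e1, e2]
    exact mul_le_mul_of_nonneg_left (by linarith) (by positivity)

section

variable {B : Base} {I : ℕ → Finset (ℕ × ℝ)} {lev : ℕ → ℚ → ℕ} {f : ℕ → ℚ → ℕ → ℤ → ℕ}
  {w : Fin 3 → ℕ → ℚ → ℝ} {θ : Fin 3 → ℝ} {w0 sa sb sy R1 : ℝ}

/-- unit of the heights -/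
noncomputable def uH (B : Base) (lev : ℕ → ℚ → ℕ) (w0 : ℝ) (n : ℕ) : ℝ :=
  B.d n ^ w0 * 2 ^ (lev n 0)

/-- angular unit of the width `j`, shift `s` -/
noncomputable def uW (B : Base) (lev : ℕ → ℚ → ℕ) (w : Fin 3 → ℕ → ℚ → ℝ) (j : Fin 3) (s : ℝ)
    (n : ℕ) : ℝ := w j n 1 / rho (lev n 1) * B.d n ^ (-s)

/-- linear widths -/
structure LinW (B : Base) (lev : ℕ → ℚ → ℕ) (w : Fin 3 → ℕ → ℚ → ℝ) (θ : Fin 3 → ℝ) : Prop where
  lev_lim : ∀ u v : ℚ, 0 ≤ u → u ≤ v → v ≤ 1 →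
    Tendsto (fun n => ((lev n v : ℝ) - lev n u) * Real.log 2 / B.L n) U (𝓝 ((v : ℝ) - u))
  wpos : ∀ j, ∀ v : ℚ, 0 ≤ v → v ≤ 1 → ∀ᶠ n in (U : Filter ℕ), 0 < w j n v
  tau : ∀ j, ∀ v : ℚ, 0 ≤ v → v ≤ 1 →
    Tendsto (fun n => Real.log ((rho (lev n v) / w j n v) / (rho (lev n 1) / w j n 1)) / B.L n) U
      (𝓝 (θ j * (1 - v)))
  ord : ∀ v : ℚ, 0 ≤ v → v ≤ 1 → ∀ᶠ n in (U : Filter ℕ), w 0 n v ≤ w 2 n v ∧ w 2 n v ≤ w 1 n v

/-- sizes of the record box, in the units -/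
theorem LinW.sizes (h : LinW B lev w θ) {u : ℚ} (u0 : 0 ≤ u) (u1 : u ≤ 1) {t : ℝ} (ht : 0 < t) :
    ∀ᶠ n in (U : Filter ℕ), ∀ k : Fin 11, k ≠ 1 →
      ![uH B lev w0 n * rho (lev n u), 0,
        (w 2 n u / rho (lev n u) / uW B lev w 2 sb n) / (w 1 n u / rho (lev n u) / uW B lev w 1 sa n),
        (w 0 n u / rho (lev n u) / uW B lev w 0 sy n) / (w 2 n u / rho (lev n u) / uW B lev w 2 sb n),
        (w 0 n u / rho (lev n u) / uW B lev w 0 sy n) / (w 1 n u / rho (lev n u) / uW B lev w 1 sa n),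
        w 1 n u / rho (lev n u) / uW B lev w 1 sa n, w 2 n u / rho (lev n u) / uW B lev w 2 sb n,
        w 0 n u / rho (lev n u) / uW B lev w 0 sy n,
        uH B lev w0 n * rho (lev n u) * (w 1 n u / rho (lev n u) / uW B lev w 1 sa n),
        uH B lev w0 n * rho (lev n u) * (w 2 n u / rho (lev n u) / uW B lev w 2 sb n),
        uH B lev w0 n * rho (lev n u) * (w 0 n u / rho (lev n u) / uW B lev w 0 sy n)] k ≤
      B.d n ^ (rS θ w0 sa sb sy R1 u k - t) := by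
  have h2 : (0 : ℝ) < t / 2 := by positivity
  have hz := ev_rho (h.lev_lim 0 u le_rfl u0 u1) h2
  have ang : ∀ j, ∀ᶠ n in (U : Filter ℕ),
      B.d n ^ (θ j * (1 - u) + t / 2) ≤
        (w j n u / rho (lev n u)) / (w j n 1 / rho (lev n 1)) ∧
      (w j n u / rho (lev n u)) / (w j n 1 / rho (lev n 1)) ≤ B.d n ^ (θ j * (1 - u) - t / 2) :=
    fun j => ev_ang (h.wpos j u u0 u1) (h.wpos j 1 zero_le_one le_rfl) (h.tau j u u0 u1) h2
  filter_upwards [hz, ang 0, ang 1, ang 2, h.wpos 0 1 zero_le_one le_rfl,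
    h.wpos 1 1 zero_le_one le_rfl, h.wpos 2 1 zero_le_one le_rfl, h.wpos 0 u u0 u1,
    h.wpos 1 u u0 u1, h.wpos 2 u u0 u1] with n hz a0 a1 a2 p0 p1 p2 q0 q1 q2 k hk
  have add : ∀ a b : ℝ, B.d n ^ a * B.d n ^ b = B.d n ^ (a + b) := fun a b => (dpow_add B n a b).symm
  have dp := dpow_pos B n
  have hρ := rho_pos (lev n u)
  have hρ1 := rho_pos (lev n 1)
  -- the angular ratios
  have key : ∀ (j : Fin 3) (s : ℝ), 0 < w j n u → 0 < w j n 1 →
      B.d n ^ (θ j * (1 - u) + t / 2) ≤ (w j n u / rho (lev n u)) / (w j n 1 / rho (lev n 1)) →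
      (w j n u / rho (lev n u)) / (w j n 1 / rho (lev n 1)) ≤ B.d n ^ (θ j * (1 - u) - t / 2) →
      B.d n ^ (θ j * (1 - u) + s + t / 2) ≤ w j n u / rho (lev n u) / uW B lev w j s n ∧
      w j n u / rho (lev n u) / uW B lev w j s n ≤ B.d n ^ (θ j * (1 - u) + s - t / 2) := by
    intro j s hu h1 a b
    have e1 : w j n u / rho (lev n u) / uW B lev w j s n =
        (w j n u / rho (lev n u)) / (w j n 1 / rho (lev n 1)) * B.d n ^ s := by
      unfold uW
      rw [Real.rpow_neg (B.pos n).le]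
      have := dp s
      field_simp
    rw [e1]
    constructor
    · calc B.d n ^ (θ j * (1 - u) + s + t / 2) = B.d n ^ (θ j * (1 - u) + t / 2) * B.d n ^ s := by
            rw [add]; congr 1; ring
        _ ≤ _ := mul_le_mul_of_nonneg_right a (dp s).le
    · calc _ ≤ B.d n ^ (θ j * (1 - u) - t / 2) * B.d n ^ s :=
            mul_le_mul_of_nonneg_right b (dp s).le
        _ = _ := by rw [add]; congr 1; ring
  obtain ⟨ly, hy⟩ := key 0 sy q0 p0 a0.1 a0.2
  obtain ⟨la, ha⟩ := key 1 sa q1 p1 a1.1 a1.2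
  obtain ⟨lb, hb⟩ := key 2 sb q2 p2 a2.1 a2.2
  -- the height
  have hH : uH B lev w0 n * rho (lev n u) ≤ B.d n ^ (w0 + u - t / 2) := by
    have e1 : uH B lev w0 n * rho (lev n u) =
        B.d n ^ w0 * (rho (lev n u) / rho (lev n 0)) := by
      unfold uH
      have : rho (lev n 0) = ((2 : ℝ) ^ (lev n 0))⁻¹ := by unfold rho; rw [one_div]
      rw [this, div_inv_eq_mul]; ring
    rw [e1]
    calc B.d n ^ w0 * (rho (lev n u) / rho (lev n 0)) ≤
          B.d n ^ w0 * B.d n ^ ((u : ℝ) - (0 : ℚ) - t / 2) :=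
          mul_le_mul_of_nonneg_left hz.2 (dp w0).le
      _ = _ := by rw [add]; congr 1; push_cast; ring
  have hH0 : 0 ≤ uH B lev w0 n * rho (lev n u) := by
    unfold uH; have := dp w0; positivity
  generalize uH B lev w0 n * rho (lev n u) = Z at hH hH0 ⊢
  generalize w 0 n u / rho (lev n u) / uW B lev w 0 sy n = Y at ly hy ⊢
  generalize w 1 n u / rho (lev n u) / uW B lev w 1 sa n = A at la ha ⊢
  generalize w 2 n u / rho (lev n u) / uW B lev w 2 sb n = Q at lb hb ⊢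
  have hY0 : 0 < Y := (dp _).trans_le ly
  have hA0 : 0 < A := (dp _).trans_le la
  have hQ0 : 0 < Q := (dp _).trans_le lb
  have quo : ∀ {X Y a b c : ℝ}, 0 ≤ X → X ≤ B.d n ^ a → B.d n ^ b ≤ Y → c ≤ a - b →
      X / Y ≤ B.d n ^ c := by
    intro X Y a b c h0 h1 h2 h3
    calc X / Y ≤ B.d n ^ a / B.d n ^ b := div_le_div₀ (dp a).le h1 (dp b) h2
      _ = B.d n ^ (a - b) := by rw [← Real.rpow_sub (B.pos n)]
      _ ≤ _ := dpow_le B n h3
  have prd : ∀ {X Y a b c : ℝ}, 0 ≤ X → X ≤ B.d n ^ a → Y ≤ B.d n ^ b → 0 ≤ Y → c ≤ a + b →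
      X * Y ≤ B.d n ^ c := by
    intro X Y a b c h0 h1 h2 h4 h3
    calc X * Y ≤ B.d n ^ a * B.d n ^ b := mul_le_mul h1 h2 h4 (dp a).le
      _ = B.d n ^ (a + b) := add a b
      _ ≤ _ := dpow_le B n h3
  fin_cases k
  · show Z ≤ B.d n ^ (w0 + u - t)
    exact hH.trans (dpow_le B n (by linarith))
  · exact absurd rfl hk
  · show Q / A ≤ B.d n ^ ((θ 2 - θ 1) * (1 - u) + (sb - sa) - t)
    exact quo hQ0.le hb la (by linarith)
  · show Y / Q ≤ B.d n ^ ((θ 0 - θ 2) * (1 - u) + (sy - sb) - t)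
    exact quo hY0.le hy lb (by linarith)
  · show Y / A ≤ B.d n ^ ((θ 0 - θ 1) * (1 - u) + (sy - sa) - t)
    exact quo hY0.le hy la (by linarith)
  · show A ≤ B.d n ^ (θ 1 * (1 - u) + sa - t)
    exact ha.trans (dpow_le B n (by linarith))
  · show Q ≤ B.d n ^ (θ 2 * (1 - u) + sb - t)
    exact hb.trans (dpow_le B n (by linarith))
  · show Y ≤ B.d n ^ (θ 0 * (1 - u) + sy - t)
    exact hy.trans (dpow_le B n (by linarith))
  · show Z * A ≤ B.d n ^ (w0 + u + (θ 1 * (1 - u) + sa) - t)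
    exact prd hH0 hH ha hA0.le (by linarith)
  · show Z * Q ≤ B.d n ^ (w0 + u + (θ 2 * (1 - u) + sb) - t)
    exact prd hH0 hH hb hQ0.le (by linarith)
  · show Z * Y ≤ B.d n ^ (w0 + u + (θ 0 * (1 - u) + sy) - t)
    exact prd hH0 hH hy hY0.le (by linarith)


end

end Crest.Agent.R136.GR650
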