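import Crest.Agent.R136.GW8_650
import Crest.Agent.R136.FlW1_464
import Crest.Agent.R136.Ut2_627
import Crest.Agent.R136.PrW2_464
import Crest.Agent.R136.GR3_650

-- ▼ part R136/Fw1_650
section

/-!
# R136, flags of the W-chart (helper650), part 1: one line, bounds

* `iv_bd`, `quad_coef`, `evY_bd`;
* `FW1_bd` : the flag `FlW464.FW1` (own slots from two sheets, exact on the line) is polynomially
  bounded;
* `prN_le` : graded and natural precisions.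
-/

set_option autoImplicit false
set_option linter.unusedVariables false

open Finset Filter Topology

namespace Crest.Agent.R136.Fw650

open Crest.Agent.R136.Sh605
open Crest.Agent.R136.Net191
open Crest.Agent.R136.NetW191
open Crest.Agent.R136.GeoW778 (TrueW qS)
open Crest.Agent.R136.FlW464
open Crest.Agent.R136.GW650 (sz3 sz3_pos sz3_mono sz3_scale unW_nat sizeW)
open Crest.Agent.R136.PrW464 (unW)

/-! ### crude bounds -/

/-- bound of the inverse frame -/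
theorem iv_bd {κ : ℝ} (hκ : |κ| ≤ 1) {g : Fin 4 → ℝ} {Γ : ℝ} (h1 : 1 ≤ Γ)
    (hg : ∀ i, |g i| ≤ Γ) (i : Fin 4) : |iv κ g i| ≤ 8 * Γ ^ 3 := by
  have p2 : Γ ≤ Γ ^ 3 := by
    calc Γ = Γ ^ 1 := (pow_one _).symm
      _ ≤ Γ ^ 3 := pow_le_pow_right₀ h1 (by norm_num)
  have p3 : Γ ^ 2 ≤ Γ ^ 3 := pow_le_pow_right₀ h1 (by norm_num)
  have p0 : 0 ≤ Γ ^ 3 := by positivity
  have b0 := hg 0
  have b1 := hg 1
  have b2 := hg 2
  have b3 := hg 3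
  have m10 : |g 1 * g 0| ≤ Γ ^ 2 := by
    rw [abs_mul, sq]; exact mul_le_mul b1 b0 (abs_nonneg _) (by linarith)
  have m12 : |g 1 * g 2| ≤ Γ ^ 2 := by
    rw [abs_mul, sq]; exact mul_le_mul b1 b2 (abs_nonneg _) (by linarith)
  have m110 : |g 1 * (g 1 * g 0)| ≤ Γ ^ 3 := by
    rw [abs_mul, pow_succ']; exact mul_le_mul b1 m10 (abs_nonneg _) (by linarith)
  have k1 : ∀ {x X : ℝ}, |x| ≤ X → |κ * x| ≤ X := fun {x X} h => by
    rw [abs_mul]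
    exact (mul_le_of_le_one_left (abs_nonneg _) hκ).trans h
  fin_cases i
  · show |0 - g 0| ≤ _
    rw [zero_sub, abs_neg]; linarith
  · show |0 - g 1| ≤ _
    rw [zero_sub, abs_neg]; linarith
  · show |0 - g 2 - g 1 * (0 - g 0)| ≤ _
    have e : 0 - g 2 - g 1 * (0 - g 0) = -g 2 + g 1 * g 0 := by ring
    rw [e]
    refine (abs_add_le _ _).trans ?_
    rw [abs_neg]; linarith
  · show |0 - g 3 + 2 * κ * g 1 * (0 - g 2 - g 1 * (0 - g 0)) + κ * g 1 ^ 2 * (0 - g 0)| ≤ _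
    have e : 0 - g 3 + 2 * κ * g 1 * (0 - g 2 - g 1 * (0 - g 0)) + κ * g 1 ^ 2 * (0 - g 0) =
        -g 3 + (-2 * (κ * (g 1 * g 2)) + κ * (g 1 * (g 1 * g 0))) := by ring
    rw [e]
    refine (abs_add_le _ _).trans ?_
    have e1 := abs_add_le (-2 * (κ * (g 1 * g 2))) (κ * (g 1 * (g 1 * g 0)))
    have e2 : |-2 * (κ * (g 1 * g 2))| = 2 * |κ * (g 1 * g 2)| := by
      rw [abs_mul]; norm_num
    have e3 := k1 m12
    have e4 := k1 m110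
    rw [abs_neg]
    linarith

/-- coefficients of a quadratic polynomial from its values at three points -/
theorem quad_coef {r0 r1 r2 z0 ρ m R : ℝ} (hρ : 0 < ρ) (hz : |z0| ≤ R) (hR : 1 ≤ R) (hρR : ρ ≤ R)
    (h : ∀ z, z0 ≤ z → z ≤ z0 + ρ → |r0 + r1 * z + r2 * z ^ 2| ≤ m) :
    |r2| ≤ 8 * m / ρ ^ 2 ∧ |r1| ≤ 40 * m * R / ρ ^ 2 ∧ |r0| ≤ 49 * m * R ^ 2 / ρ ^ 2 := by
  have a0 := h z0 le_rfl (by linarith)
  have a1 := h (z0 + ρ / 2) (by linarith) (by linarith)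
  have a2 := h (z0 + ρ) (by linarith) le_rfl
  have m0 : 0 ≤ m := (abs_nonneg _).trans a0
  have R0 : 0 ≤ R := by linarith
  set f0 := r0 + r1 * z0 + r2 * z0 ^ 2 with hf0
  set f1 := r0 + r1 * (z0 + ρ / 2) + r2 * (z0 + ρ / 2) ^ 2 with hf1
  set f2 := r0 + r1 * (z0 + ρ) + r2 * (z0 + ρ) ^ 2 with hf2
  have hr : ρ ^ 2 ≠ 0 := by positivity
  have e2 : r2 * ρ ^ 2 = 2 * (f2 - 2 * f1 + f0) := by rw [hf0, hf1, hf2]; ring
  have e1 : (r1 + 2 * r2 * z0) * ρ = -3 * f0 + 4 * f1 - f2 := by rw [hf0, hf1, hf2]; ring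
  have b2 : |r2 * ρ ^ 2| ≤ 8 * m := by
    rw [e2]
    rw [abs_le] at a0 a1 a2 ⊢
    constructor <;> linarith
  have b1 : |(r1 + 2 * r2 * z0) * ρ| ≤ 8 * m := by
    rw [e1]
    rw [abs_le] at a0 a1 a2 ⊢
    constructor <;> linarith
  have p : 0 < ρ ^ 2 := by positivity
  have c2 : |r2| ≤ 8 * m / ρ ^ 2 := by
    rw [abs_mul, abs_of_pos p] at b2
    rwa [le_div_iff₀ p]
  have c1' : |r1 + 2 * r2 * z0| ≤ 8 * m * R / ρ ^ 2 := by
    rw [abs_mul, abs_of_pos hρ] at b1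
    rw [le_div_iff₀ p]
    have : |r1 + 2 * r2 * z0| * ρ ^ 2 = (|r1 + 2 * r2 * z0| * ρ) * ρ := by ring
    rw [this]
    exact mul_le_mul b1 hρR hρ.le (by positivity)
  have c1 : |r1| ≤ 40 * m * R / ρ ^ 2 := by
    have e : r1 = (r1 + 2 * r2 * z0) - 2 * r2 * z0 := by ring
    have e3 : |2 * r2 * z0| ≤ 16 * m * R / ρ ^ 2 := by
      rw [abs_mul, abs_mul, abs_two]
      calc 2 * |r2| * |z0| ≤ 2 * (8 * m / ρ ^ 2) * R :=
            mul_le_mul (mul_le_mul_of_nonneg_left c2 (by norm_num)) hz (abs_nonneg _)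
              (by positivity)
        _ = _ := by ring
    rw [e]
    refine (abs_sub _ _).trans ?_
    have e4 : 8 * m * R / ρ ^ 2 + 16 * m * R / ρ ^ 2 ≤ 40 * m * R / ρ ^ 2 := by
      rw [← add_div]
      exact div_le_div_of_nonneg_right (by nlinarith [mul_nonneg m0 R0]) p.le
    linarith
  refine ⟨c2, c1, ?_⟩
  have e : r0 = f0 - r1 * z0 - r2 * z0 ^ 2 := by rw [hf0]; ring
  have e5 : |r1 * z0| ≤ 40 * m * R ^ 2 / ρ ^ 2 := by
    rw [abs_mul]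
    calc |r1| * |z0| ≤ 40 * m * R / ρ ^ 2 * R := mul_le_mul c1 hz (abs_nonneg _) (by positivity)
      _ = _ := by ring
  have e6 : |r2 * z0 ^ 2| ≤ 8 * m * R ^ 2 / ρ ^ 2 := by
    rw [abs_mul, abs_pow]
    calc |r2| * |z0| ^ 2 ≤ 8 * m / ρ ^ 2 * R ^ 2 :=
          mul_le_mul c2 (pow_le_pow_left₀ (abs_nonneg _) hz 2) (by positivity) (by positivity)
      _ = _ := by ring
  have e7 : m ≤ m * R ^ 2 / ρ ^ 2 := by
    rw [le_div_iff₀ p]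
    exact mul_le_mul_of_nonneg_left (pow_le_pow_left₀ hρ.le hρR 2) m0
  rw [e]
  have e8 := abs_sub (f0 - r1 * z0) (r2 * z0 ^ 2)
  have e9 := abs_sub f0 (r1 * z0)
  have e10 : 49 * m * R ^ 2 / ρ ^ 2 = m * R ^ 2 / ρ ^ 2 + 40 * m * R ^ 2 / ρ ^ 2 +
      8 * m * R ^ 2 / ρ ^ 2 := by ring
  rw [e10]
  linarith


theorem evY_bd {w : Fin 14 → ℝ} {W X z A B Y : ℝ} (hX : 1 ≤ X) (hw : ∀ k, |w k| ≤ W)
    (hz : |z| ≤ X) (hA : |A| ≤ X) (hB : |B| ≤ X) (hY : |Y| ≤ X) :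
    |evY w z A B Y| ≤ 14 * W * X ^ 2 := by
  have W0 : 0 ≤ W := (abs_nonneg _).trans (hw 0)
  have X0 : 0 ≤ X := by linarith
  have x1 : X ≤ X ^ 2 := by nlinarith
  have x0 : 1 ≤ X ^ 2 := by nlinarith
  have m2 : ∀ {a b c : ℝ}, |a| ≤ W → |b| ≤ X → |c| ≤ X → |a * (b * c)| ≤ W * X ^ 2 := by
    intro a b c ha hb hc
    rw [abs_mul, abs_mul, sq]
    exact mul_le_mul ha (mul_le_mul hb hc (abs_nonneg _) X0) (by positivity) W0
  have m1 : ∀ {a b : ℝ}, |a| ≤ W → |b| ≤ X → |a * b| ≤ W * X ^ 2 := by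
    intro a b ha hb
    rw [abs_mul]
    exact mul_le_mul ha (hb.trans x1) (abs_nonneg _) W0
  have m0 : ∀ {a : ℝ}, |a| ≤ W → |a| ≤ W * X ^ 2 := fun ha =>
    ha.trans (le_mul_of_one_le_right W0 x0)
  have t0 : |w 0 * Y ^ 2| ≤ W * X ^ 2 := by rw [sq]; exact m2 (hw 0) hY hY
  have t1 := m2 (hw 1) hB hY
  have t2 := m2 (hw 2) hA hY
  have t3 : |w 3 * B ^ 2| ≤ W * X ^ 2 := by rw [sq]; exact m2 (hw 3) hB hB
  have t4 := m2 (hw 4) hz hY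
  have t5 := m2 (hw 5) hA hB
  have t6 : |w 6 * A ^ 2| ≤ W * X ^ 2 := by rw [sq]; exact m2 (hw 6) hA hA
  have t7 := m2 (hw 7) hz hB
  have t8 := m2 (hw 8) hz hA
  have t9 : |w 9 * z ^ 2| ≤ W * X ^ 2 := by rw [sq]; exact m2 (hw 9) hz hz
  have t10 := m1 (hw 10) hB
  have t11 := m1 (hw 11) hA
  have t12 := m1 (hw 12) hz
  have t13 := m0 (hw 13)
  unfold evY
  rw [abs_le] at *
  constructor <;> linarith

/-- bound of the exact flag -/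
theorem fix_bd {κ σ : ℝ} {t : Ln4} {G₀ : Fin 14 → ℝ} {z0 ρ Γ : ℝ} (hΓ : 1 ≤ Γ) (hρ : 0 < ρ)
    (hρΓ : ρ ≤ Γ) (hρ' : 1 ≤ Γ * ρ) (hz : |z0| ≤ Γ) (hG : ∀ k, |G₀ k| ≤ Γ)
    (h : ∀ z, z0 ≤ z → z ≤ z0 + ρ → |erW κ σ t G₀ z| ≤ Γ) (k : Fin 14) :
    |fixW κ σ t G₀ k| ≤ 50 * Γ ^ 5 := by
  have hq := quad_coef (r0 := erW κ σ t G₀ 0) (r1 := (erW κ σ t G₀ 1 - erW κ σ t G₀ (-1)) / 2)
    (r2 := (erW κ σ t G₀ 1 + erW κ σ t G₀ (-1)) / 2 - erW κ σ t G₀ 0) (m := Γ) hρ hz hΓ hρΓ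
    (fun z h1 h2 => by
      have e := erW_quad κ σ t G₀ z
      have := h z h1 h2
      rw [e] at this
      refine le_trans (le_of_eq ?_) this
      congr 1; ring)
  obtain ⟨q2, q1, q0⟩ := hq
  have p : 0 < ρ ^ 2 := by positivity
  have G0 : 0 < Γ := by linarith
  have inv : 1 / ρ ^ 2 ≤ Γ ^ 2 := by
    rw [div_le_iff₀ p, ← mul_pow]
    exact one_le_pow₀ hρ'
  have g1 : Γ ≤ Γ ^ 5 := by
    calc Γ = Γ ^ 1 := (pow_one _).symm
      _ ≤ Γ ^ 5 := pow_le_pow_right₀ hΓ (by norm_num)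
  have g3 : Γ ^ 3 ≤ Γ ^ 5 := pow_le_pow_right₀ hΓ (by norm_num)
  have g4 : Γ ^ 4 ≤ Γ ^ 5 := pow_le_pow_right₀ hΓ (by norm_num)
  have b2 : 8 * Γ / ρ ^ 2 ≤ 49 * Γ ^ 5 := by
    have : 8 * Γ / ρ ^ 2 = 8 * Γ * (1 / ρ ^ 2) := by ring
    rw [this]
    have := mul_le_mul_of_nonneg_left inv (show 0 ≤ 8 * Γ by linarith)
    have e : 8 * Γ * Γ ^ 2 = 8 * Γ ^ 3 := by ring
    have : 0 ≤ Γ ^ 5 := by positivity
    linarith
  have b1 : 40 * Γ * Γ / ρ ^ 2 ≤ 49 * Γ ^ 5 := by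
    have : 40 * Γ * Γ / ρ ^ 2 = 40 * Γ * Γ * (1 / ρ ^ 2) := by ring
    rw [this]
    have := mul_le_mul_of_nonneg_left inv (show 0 ≤ 40 * Γ * Γ by positivity)
    have e : 40 * Γ * Γ * Γ ^ 2 = 40 * Γ ^ 4 := by ring
    have : 0 ≤ Γ ^ 5 := by positivity
    linarith
  have b0 : 49 * Γ * Γ ^ 2 / ρ ^ 2 ≤ 49 * Γ ^ 5 := by
    have : 49 * Γ * Γ ^ 2 / ρ ^ 2 = 49 * Γ * Γ ^ 2 * (1 / ρ ^ 2) := by ring
    rw [this]
    have := mul_le_mul_of_nonneg_left inv (show 0 ≤ 49 * Γ * Γ ^ 2 by positivity)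
    have e : 49 * Γ * Γ ^ 2 * Γ ^ 2 = 49 * Γ ^ 5 := by ring
    linarith
  have hc : |crW κ σ t G₀ k| ≤ 49 * Γ ^ 5 := by
    have z : (0 : ℝ) ≤ 49 * Γ ^ 5 := by positivity
    unfold crW
    fin_cases k <;> first
      | (show |(0 : ℝ)| ≤ _; rw [abs_zero]; exact z)
      | exact q2.trans b2
      | exact q1.trans b1
      | exact q0.trans b0
  show |G₀ k + crW κ σ t G₀ k| ≤ _
  refine (abs_add_le _ _).trans ?_
  have := hG k
  linarith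

/-- **the exact composite flag is bounded** -/
theorem FW1_bd {κ σ : ℝ} (hκ : |κ| ≤ 1) (hσ : 0 < σ) {S : Fin 14 → Prop} {t : Ln4} {z : ℝ}
    {a b : Fin 14 → ℝ} {z0 ρ Γ : ℝ} (hΓ : 1 ≤ Γ) (hρ : 0 < ρ) (hρΓ : ρ ≤ Γ) (hρ' : 1 ≤ Γ * ρ)
    (hg : ∀ i, |frW t z i| ≤ Γ) (ha : ∀ k, |a k| ≤ Γ) (hb : ∀ k, |b k| ≤ Γ)
    (hz : ∀ z, z0 ≤ z → z ≤ z0 + ρ → |z| ≤ Γ)
    (hX : ∀ z, z0 ≤ z → z ≤ z0 + ρ → ∀ k, |t.pos z k| ≤ Γ)
    (hq : ∀ z, z0 ≤ z → z ≤ z0 + ρ →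
      |ht κ z (t.pos z 1) (t.pos z 2) (t.pos z 0) -
        σ * evY a z (t.pos z 1) (t.pos z 2) (t.pos z 0)| ≤ σ * Γ) (k : Fin 14) :
    |(FW1 κ σ S t z a b).G k| ≤ 50 * (10 ^ 30 * Γ ^ 80) ^ 5 := by
  have G0 : 0 < Γ := by linarith
  -- own entries
  have s1 : ∀ k, |tr κ (frW t z) a k| ≤ 470 * Γ ^ 7 := tr_size1 hκ hΓ hg ha
  have s2 : ∀ k, |tr κ (frW t z) b k| ≤ 470 * Γ ^ 7 := tr_size1 hκ hΓ hg hb
  set H := mixW S (tr κ (frW t z) a) (tr κ (frW t z) b) with hH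
  have s3 : ∀ k, |H k| ≤ 470 * Γ ^ 7 := by
    intro k
    rw [hH]; unfold mixW
    split_ifs
    · exact s1 k
    · exact s2 k
  have s4 : ∀ i, |iv κ (frW t z) i| ≤ 470 * Γ ^ 7 := by
    intro i
    refine (iv_bd hκ hΓ hg i).trans ?_
    have : Γ ^ 3 ≤ Γ ^ 7 := pow_le_pow_right₀ hΓ (by norm_num)
    have : 0 ≤ Γ ^ 7 := by positivity
    linarith
  have k1 : (1 : ℝ) ≤ 470 * Γ ^ 7 := by
    have := one_le_pow₀ hΓ (n := 7)
    linarith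
  have s5 : ∀ k, |tr κ (iv κ (frW t z)) H k| ≤ 470 * (470 * Γ ^ 7) ^ 7 := tr_size1 hκ k1 s4 s3
  have s6 : 470 * (470 * Γ ^ 7) ^ 7 ≤ 10 ^ 22 * Γ ^ 49 := by
    have e : 470 * (470 * Γ ^ 7) ^ 7 = (470 : ℝ) ^ 8 * Γ ^ 49 := by ring
    rw [e]
    refine mul_le_mul_of_nonneg_right (by norm_num) (by positivity)
  set G₀ := tr κ (iv κ (frW t z)) H with hG₀
  have p49 : Γ ^ 49 ≤ Γ ^ 80 := pow_le_pow_right₀ hΓ (by norm_num)
  have p51 : Γ ^ 51 ≤ Γ ^ 80 := pow_le_pow_right₀ hΓ (by norm_num)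
  have p1 : Γ ≤ Γ ^ 80 := by
    calc Γ = Γ ^ 1 := (pow_one _).symm
      _ ≤ Γ ^ 80 := pow_le_pow_right₀ hΓ (by norm_num)
  have q0 : 0 ≤ Γ ^ 80 := by positivity
  have hGG : ∀ k, |G₀ k| ≤ 10 ^ 30 * Γ ^ 80 := by
    intro k
    refine ((s5 k).trans s6).trans ?_
    have : (10 : ℝ) ^ 22 * Γ ^ 49 ≤ 10 ^ 22 * Γ ^ 80 := mul_le_mul_of_nonneg_left p49 (by norm_num)
    have : (10 : ℝ) ^ 22 * Γ ^ 80 ≤ 10 ^ 30 * Γ ^ 80 :=
      mul_le_mul_of_nonneg_right (by norm_num) q0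
    linarith
  have big : (1 : ℝ) ≤ 10 ^ 30 * Γ ^ 80 := by
    have := one_le_pow₀ hΓ (n := 80)
    have h30 : (1 : ℝ) ≤ 10 ^ 30 := by norm_num
    nlinarith
  have gle : Γ ≤ 10 ^ 30 * Γ ^ 80 := p1.trans (le_mul_of_one_le_left q0 (by norm_num))
  refine fix_bd (t := t) (z0 := z0) (ρ := ρ) (Γ := 10 ^ 30 * Γ ^ 80) big hρ (hρΓ.trans gle) ?_
    ((hz z0 le_rfl (by linarith)).trans gle) hGG ?_ k
  · refine hρ'.trans (mul_le_mul_of_nonneg_right gle hρ.le)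
  · intro y h1 h2
    have e1 : erW κ σ t G₀ y = (ht κ y (t.pos y 1) (t.pos y 2) (t.pos y 0) -
        σ * evY a y (t.pos y 1) (t.pos y 2) (t.pos y 0)) / σ +
        evY (a - G₀) y (t.pos y 1) (t.pos y 2) (t.pos y 0) := by
      rw [GeoW778.evY_sub]
      unfold erW
      field_simp
      ring
    have e2 : |(ht κ y (t.pos y 1) (t.pos y 2) (t.pos y 0) -
        σ * evY a y (t.pos y 1) (t.pos y 2) (t.pos y 0)) / σ| ≤ Γ := by
      rw [abs_div, abs_of_pos hσ, div_le_iff₀ hσ, mul_comm Γ]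
      exact hq y h1 h2
    have e3 : ∀ k, |(a - G₀) k| ≤ 2 * (10 ^ 22 * Γ ^ 49) := by
      intro k
      rw [Pi.sub_apply]
      refine (abs_sub _ _).trans ?_
      have h3 := (s5 k).trans s6
      have h4 : Γ ≤ 10 ^ 22 * Γ ^ 49 := by
        have : Γ ≤ Γ ^ 49 := by
          calc Γ = Γ ^ 1 := (pow_one _).symm
            _ ≤ Γ ^ 49 := pow_le_pow_right₀ hΓ (by norm_num)
        exact this.trans (le_mul_of_one_le_left (by positivity) (by norm_num))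
      have := (ha k).trans h4
      linarith
    have e4 := evY_bd hΓ e3 (hz y h1 h2) (hX y h1 h2 1) (hX y h1 h2 2) (hX y h1 h2 0)
    rw [e1]
    refine (abs_add_le _ _).trans ?_
    have e5 : 14 * (2 * (10 ^ 22 * Γ ^ 49)) * Γ ^ 2 = 28 * 10 ^ 22 * Γ ^ 51 := by ring
    rw [e5] at e4
    have e6 : (28 : ℝ) * 10 ^ 22 * Γ ^ 51 ≤ 28 * 10 ^ 22 * Γ ^ 80 :=
      mul_le_mul_of_nonneg_left p51 (by norm_num)
    have e7 : Γ ^ 80 + 28 * 10 ^ 22 * Γ ^ 80 ≤ 10 ^ 30 * Γ ^ 80 := by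
      have : Γ ^ 80 + 28 * 10 ^ 22 * Γ ^ 80 = (1 + 28 * 10 ^ 22) * Γ ^ 80 := by ring
      rw [this]
      exact mul_le_mul_of_nonneg_right (by norm_num) q0
    linarith

/-! ### graded and natural precisions -/

/-- graded precision of a balanced box against the natural one -/
theorem prN_le {e ρ wA wB a : ℝ} (he : 1 ≤ e) (hρ : 0 < ρ) (hA : 0 < wA) (hB : 0 < wB)
    (ha : 0 < a) (h2 : wB ≤ e * (wA ^ 2 / ρ)) (k : Fin 14) (h9 : k ≠ 9) (h12 : k ≠ 12)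
    (h13 : k ≠ 13) :
    unW ρ (wA / ρ) a (Fin.natAdd 4 k) ≤ e ^ 2 * (a / sz3 ρ wA wB k) := by
  have hβ : 0 < wA ^ 2 / ρ := by positivity
  have p1 := sz3_pos hρ hA hB k
  have p2 := sz3_pos hρ hA hβ k
  have h3 : sz3 ρ wA wB k ≤ e ^ 2 * sz3 ρ wA (wA ^ 2 / ρ) k :=
    (sz3_mono hρ hA hB h2 k).trans (sz3_scale he hρ hA hβ k)
  have h4 : unW ρ (wA / ρ) a (Fin.natAdd 4 k) = a / sz3 ρ wA (wA ^ 2 / ρ) k := by
    rw [unW_nat hρ hA ha]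
    unfold sizeW
    rw [Fin.append_right]
    fin_cases k <;> first | rfl | exact absurd rfl h9 | exact absurd rfl h12 | exact absurd rfl h13
  rw [h4, ← mul_div_assoc, div_le_div_iff₀ p2 p1]
  nlinarith [mul_le_mul_of_nonneg_left h3 ha.le]

end Crest.Agent.R136.Fw650
end

-- ▼ part R136/Fw2_650
section

/-!
# R136, flags of the W-chart (helper650), part 2: the data of the first thin window

* `ThinG` : the marks of all levels in normal coordinates, without flags of the incidences;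
* `flW` : the flagged incidences (`FlW464.FW1`): slots of rate `≤ 0` from the mark of level `0`, the
  others from the mark of level `1`, exact on the line;
* `TiltG` : tilt of the flag slots in the frame of the incidence; `exists_flagsE` : everywhere on a
  dense part; `flG_close` : closeness of the flags to the marks of every level.
-/

set_option autoImplicit false
set_option linter.unusedVariables false

open Finset Filter Topology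

namespace Crest.Agent.R136.Fw650

open Crest.Agent.R138.Ex926 (Base U)
open Crest.Agent.R138.Mk163 (zc zl rho alive Negl)
open Crest.Agent.R138.MkRef627 (lc kc)
open Crest.Agent.R138.Dp76
open Crest.Agent.R138.NatTw76 (exists_avoid)
open Crest.Agent.R136.Sh605
open Crest.Agent.R136.Net191
open Crest.Agent.R136.NetW191
open Crest.Agent.R136.MkA627
open Crest.Agent.R136.TD627
open Crest.Agent.R136.Ut627 (closeR lvl)
open Crest.Agent.R136.ArgA163 (PrLin)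
open Crest.Agent.R136.GW650
open Crest.Agent.R136.FlW464
open Crest.Agent.R136.PrW464 (unW unW_pos grW wz wc wn tdW tdW_d WData)

/-- normal height of an incidence -/
def zhN (hz zs : ℕ → ℝ) (n : ℕ) (x : ℕ × ℝ) : ℝ := hz n * x.2 - zs n

/-- left end of the cell `J` of level `v` in normal heights -/
noncomputable def z0N (lev : ℕ → ℚ → ℕ) (hz zs : ℕ → ℝ) (v : ℚ) (n : ℕ) (J : ℤ) : ℝ :=
  hz n * zl (lev n v) J - zs n

/-- length of the cells of level `v` in normal heights -/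
noncomputable def rhN (lev : ℕ → ℚ → ℕ) (hz : ℕ → ℝ) (n : ℕ) (v : ℚ) : ℝ :=
  hz n * rho (lev n v)

theorem cellN {lev : ℕ → ℚ → ℕ} {hz zs : ℕ → ℝ} {n : ℕ} (h : 0 < hz n) (v : ℚ) (x : ℕ × ℝ) :
    z0N lev hz zs v n (zc (lev n v) x.2) ≤ zhN hz zs n x ∧
      zhN hz zs n x ≤ z0N lev hz zs v n (zc (lev n v) x.2) + rhN lev hz n v := by
  obtain ⟨h1, h2⟩ := GR650.zl_le (lev n v) x.2
  unfold z0N zhN rhN
  constructor <;> nlinarith

/-- **the marks of all levels in normal coordinates, without flags of the incidences.** -/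
structure ThinG (B : Base) (I : ℕ → Finset (ℕ × ℝ)) (lev : ℕ → ℚ → ℕ)
    (f : ℕ → ℚ → ℕ → ℤ → ℕ) (kp σ hz zs : ℕ → ℝ) (L : ℕ → ℕ → Ln4) (wA wB a : ℕ → ℚ → ℝ)
    (Mk : ℚ → ℕ → ℕ × ℤ → Fin 14 → ℝ) (E : ℚ → ℕ → ℕ × ℤ → ℝ) : Prop where
  kp1 : ∀ n, |kp n| ≤ 1
  σ0 : ∀ n, 0 < σ n
  hz0 : ∀ n, 0 < hz n
  σs : ∀ M : ℝ, ∀ᶠ n in (U : Filter ℕ), σ n ≤ B.d n ^ M
  zb : ∀ᶠ n in (U : Filter ℕ), ∀ x ∈ I n, |zhN hz zs n x| ≤ 1
  Lb : ∃ C : ℝ, ∀ᶠ n in (U : Filter ℕ), ∀ x ∈ I n, ∀ k,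
    |(L n x.1).v k| ≤ B.d n ^ (-C) ∧ |(L n x.1).p k| ≤ B.d n ^ (-C)
  rb : ∃ C : ℝ, ∀ᶠ n in (U : Filter ℕ), B.d n ^ C ≤ rhN lev hz n 0 ∧
    rhN lev hz n 0 ≤ B.d n ^ (-C)
  top : ∃ C : ℝ, ∀ᶠ n in (U : Filter ℕ), a n 0 ≤ B.d n ^ (-C) ∧ wA n 0 ≤ B.d n ^ (-C)
  Mb : ∀ v : ℚ, 0 ≤ v → v ≤ 1 → ∃ C : ℝ, ∀ᶠ n in (U : Filter ℕ), ∀ x ∈ I n, ∀ k,
    |Mk v n (kc (lev n v) (f n v) x) k| ≤ B.d n ^ (-C)
  A0 : ∀ v : ℚ, 0 ≤ v → v ≤ 1 → ∀ᶠ n in (U : Filter ℕ), 0 < wA n v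
  low : ∀ v : ℚ, 0 ≤ v → v ≤ 1 → ∃ C : ℝ, ∀ᶠ n in (U : Filter ℕ), B.d n ^ C ≤ a n v ∧
    B.d n ^ C ≤ wB n v
  /-- thickness -/
  q : ∀ v : ℚ, 0 ≤ v → v ≤ 1 → ∀ ε : ℝ, 0 < ε → ∀ᶠ n in (U : Filter ℕ), ∀ x ∈ I n, ∀ z,
    z0N lev hz zs v n (zc (lev n v) x.2) ≤ z →
    z ≤ z0N lev hz zs v n (zc (lev n v) x.2) + rhN lev hz n v →
      |ht (kp n) z ((L n x.1).pos z 1) ((L n x.1).pos z 2) ((L n x.1).pos z 0) -
        σ n * evY (Mk v n (kc (lev n v) (f n v) x)) z ((L n x.1).pos z 1) ((L n x.1).pos z 2)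
          ((L n x.1).pos z 0)| ≤ σ n * (a n v * B.d n ^ (-ε))
  /-- lateral extent -/
  lat : ∀ v : ℚ, 0 ≤ v → v ≤ 1 → ∀ ε : ℝ, 0 < ε → ∀ᶠ n in (U : Filter ℕ), ∀ x ∈ I n, ∀ y ∈ I n,
    kc (lev n v) (f n v) y = kc (lev n v) (f n v) x → ∀ z,
      z0N lev hz zs v n (zc (lev n v) x.2) ≤ z →
      z ≤ z0N lev hz zs v n (zc (lev n v) x.2) + rhN lev hz n v →
        |(L n y.1).pos z 1 - (L n x.1).pos z 1| ≤ wA n v * B.d n ^ (-ε) ∧
        |((L n y.1).pos z 2 - (L n x.1).pos z 2) - E v n (kc (lev n v) (f n v) x) *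
            ((L n y.1).pos z 1 - (L n x.1).pos z 1)| ≤ wB n v * B.d n ^ (-ε)
  /-- the wide axis is the tangent of the null cone -/
  ax : ∀ v : ℚ, 0 ≤ v → v ≤ 1 → ∀ ε : ℝ, 0 < ε → ∀ᶠ n in (U : Filter ℕ), ∀ x ∈ I n,
    |E v n (kc (lev n v) (f n v) x) + 2 * kp n * (L n x.1).v 1| ≤
      wB n v / wA n v * B.d n ^ (-ε)
  /-- balance -/
  bal : ∀ v : ℚ, 0 ≤ v → v ≤ 1 → ∀ ε : ℝ, 0 < ε → ∀ᶠ n in (U : Filter ℕ),
    wA n v ^ 2 / rhN lev hz n v ≤ wB n v * B.d n ^ (-ε) ∧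
      wB n v ≤ wA n v ^ 2 / rhN lev hz n v * B.d n ^ (-ε)

/-- slots which are read at level `0` -/
def S0 (χ ν : ℝ) (k : Fin 14) : Prop := grW 1 χ ν (Fin.natAdd 4 k) ≤ 0

theorem shiftOk_S0 (χ ν : ℝ) : ShiftOk (S0 χ ν) := by
  have e : ∀ k : Fin 14, grW 1 χ ν (Fin.natAdd 4 k) =
      (![-4, -3, -3, -2, -3, -2, -2, -2, -2, -2, -1, -1, -1, 0] k : ℝ) +
      (![-4, -4, -3, -4, -2, -3, -2, -2, -1, 0, -2, -1, 0, 0] k : ℝ) * χ + ν := by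
    intro k
    fin_cases k <;> simp [grW, wz, wc, wn]
  unfold ShiftOk S0
  simp only [e, Matrix.cons_val]
  refine ⟨fun h => by linarith, fun h => ⟨by linarith, by linarith⟩, fun h => by linarith,
    fun h => by linarith, fun h => by linarith, fun h => ⟨by linarith, by linarith⟩,
    fun h => by linarith⟩

/-- **the flagged incidences** -/
noncomputable def flW (kp σ hz zs : ℕ → ℝ) (L : ℕ → ℕ → Ln4) (lev : ℕ → ℚ → ℕ)
    (f : ℕ → ℚ → ℕ → ℤ → ℕ) (Mk : ℚ → ℕ → ℕ × ℤ → Fin 14 → ℝ) (χ ν : ℝ) (n : ℕ) (x : ℕ × ℝ) :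
    FW :=
  FW1 (kp n) (σ n) (S0 χ ν) (L n x.1) (zhN hz zs n x) (Mk 0 n (kc (lev n 0) (f n 0) x))
    (Mk 1 n (kc (lev n 1) (f n 1) x))

/-- entry `k` of the mark of level `v` in the frame of the incidence -/
noncomputable def hW (kp hz zs : ℕ → ℝ) (L : ℕ → ℕ → Ln4) (lev : ℕ → ℚ → ℕ)
    (f : ℕ → ℚ → ℕ → ℤ → ℕ) (Mk : ℚ → ℕ → ℕ × ℤ → Fin 14 → ℝ) (k : Fin 14) (n : ℕ) (v : ℚ)
    (x : ℕ × ℝ) : ℝ :=
  tr (kp n) (FlW464.frW (L n x.1) (zhN hz zs n x)) (Mk v n (kc (lev n v) (f n v) x)) k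

section

variable {σ' κ' : Type*} {G : Geo σ' κ'} {B : Base} {I : ℕ → Finset (ℕ × ℝ)} {lev : ℕ → ℚ → ℕ}
    {A : ℕ → ℝ} {f : ℕ → ℚ → ℕ → ℤ → ℕ} {b : ℕ → ℚ → ℕ → σ'} {vm : ℕ → ℚ → ℝ}
    {w : κ' → ℕ → ℚ → ℝ} {kp σ hz zs : ℕ → ℝ} {L : ℕ → ℕ → Ln4} {wA wB a : ℕ → ℚ → ℝ}
    {Mk : ℚ → ℕ → ℕ × ℤ → Fin 14 → ℝ} {E : ℚ → ℕ → ℕ × ℤ → ℝ}

theorem flW_g (χ ν : ℝ) (n : ℕ) (x : ℕ × ℝ) :
    (flW kp σ hz zs L lev f Mk χ ν n x).g = FlW464.frW (L n x.1) (zhN hz zs n x) := rfl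

theorem flW_true {n : ℕ} (hσ : 0 < σ n) (χ ν : ℝ) (x : ℕ × ℝ) :
    GeoW778.TrueW (kp n) (σ n) (flW kp σ hz zs L lev f Mk χ ν n x) (L n x.1) :=
  trueW_FW1 hσ _ _ _ _ _

/-- own entries against the entries of a mark -/
theorem flW_sub (χ ν : ℝ) (n : ℕ) (x : ℕ × ℝ) (v : ℚ) (k : Fin 14) (h9 : k ≠ 9) (h12 : k ≠ 12)
    (h13 : k ≠ 13) :
    tr (kp n) (flW kp σ hz zs L lev f Mk χ ν n x).g ((flW kp σ hz zs L lev f Mk χ ν n x).G -
      Mk v n (kc (lev n v) (f n v) x)) k =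
    hW kp hz zs L lev f Mk k n (lvl (grW 1 χ ν (Fin.natAdd 4 k))) x -
      hW kp hz zs L lev f Mk k n v x := by
  have h := own_sub (kp n) (σ n) (S0 χ ν) (L n x.1) (zhN hz zs n x)
    (Mk 0 n (kc (lev n 0) (f n 0) x)) (Mk 1 n (kc (lev n 1) (f n 1) x))
    (Mk v n (kc (lev n v) (f n v) x)) k h9 h12 h13
  refine Eq.trans h ?_
  unfold mixW lvl S0
  by_cases hk : grW 1 χ ν (Fin.natAdd 4 k) ≤ 0
  · rw [if_pos hk, if_neg (not_lt.2 hk)]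
    rfl
  · rw [if_neg hk, if_pos (not_le.1 hk)]
    rfl

/-- tilt of the flag slots, in the frame of the incidence, outside negligible sets -/
def TiltG (B : Base) (I : ℕ → Finset (ℕ × ℝ)) (h : Fin 14 → ℕ → ℚ → ℕ × ℝ → ℝ)
    (pr : Fin 18 → ℕ → ℚ → ℝ) (C : ℝ) : Prop :=
  ∀ k : Fin 14, k ≠ 9 → k ≠ 12 → k ≠ 13 → ∀ u v : ℚ, 0 ≤ u → u < v → v ≤ 1 → ∀ ε : ℝ, 0 < ε →
    Negl B I fun n x => max (pr (Fin.natAdd 4 k) n u) (pr (Fin.natAdd 4 k) n v) *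
      B.d n ^ (-(C * ((v : ℝ) - u)) - ε) ≤ |h k n v x - h k n u x|

/-- the same everywhere -/
def TiltGE (B : Base) (I : ℕ → Finset (ℕ × ℝ)) (h : Fin 14 → ℕ → ℚ → ℕ × ℝ → ℝ)
    (pr : Fin 18 → ℕ → ℚ → ℝ) (C : ℝ) : Prop :=
  ∀ k : Fin 14, k ≠ 9 → k ≠ 12 → k ≠ 13 → ∀ u v : ℚ, 0 ≤ u → u < v → v ≤ 1 → ∀ ε : ℝ, 0 < ε →
    ∀ᶠ n in (U : Filter ℕ), ∀ x ∈ I n, |h k n v x - h k n u x| ≤
      max (pr (Fin.natAdd 4 k) n u) (pr (Fin.natAdd 4 k) n v) *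
        B.d n ^ (-(C * ((v : ℝ) - u)) - ε)

open Classical in
/-- **tilt everywhere on a dense part** -/
theorem exists_flagsE {C : ℝ} {c Λ : ℝ → ℝ} {τ : κ' → ℝ → ℝ}
    (hM : MkA B I G lev A c Λ τ f b vm w) {h : Fin 14 → ℕ → ℚ → ℕ × ℝ → ℝ}
    {pr : Fin 18 → ℕ → ℚ → ℝ}
    (hp : ∀ k, ∀ v : ℚ, 0 ≤ v → v ≤ 1 → ∀ᶠ n in (U : Filter ℕ), 0 < pr k n v)
    (hT : TiltG B I h pr C) :
    ∃ J : ℕ → Finset (ℕ × ℝ), (∀ n, J n ⊆ I n) ∧ Dense B J I ∧ MkA B J G lev A c Λ τ f b vm w ∧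
      TiltGE B J h pr C := by
  have : Nonempty (Fin 14 × (ℚ × ℚ) × ℕ) := ⟨(0, (0, 0), 0)⟩
  obtain ⟨en, hen⟩ := exists_surjective_nat (Fin 14 × (ℚ × ℚ) × ℕ)
  have hN : ∀ k, Negl B I fun n x =>
      (((en k).1 ≠ 9 ∧ (en k).1 ≠ 12 ∧ (en k).1 ≠ 13) ∧
        0 ≤ (en k).2.1.1 ∧ (en k).2.1.1 < (en k).2.1.2 ∧ (en k).2.1.2 ≤ 1) ∧
      max (pr (Fin.natAdd 4 (en k).1) n (en k).2.1.1) (pr (Fin.natAdd 4 (en k).1) n (en k).2.1.2) *
          B.d n ^ (-(C * (((en k).2.1.2 : ℝ) - (en k).2.1.1)) -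
            (1 / (((en k).2.2 : ℝ) + 1))) ≤
        |h (en k).1 n (en k).2.1.2 x - h (en k).1 n (en k).2.1.1 x| := by
    intro k
    by_cases h : ((en k).1 ≠ 9 ∧ (en k).1 ≠ 12 ∧ (en k).1 ≠ 13) ∧
        0 ≤ (en k).2.1.1 ∧ (en k).2.1.1 < (en k).2.1.2 ∧ (en k).2.1.2 ≤ 1
    · exact (hT (en k).1 h.1.1 h.1.2.1 h.1.2.2 (en k).2.1.1 (en k).2.1.2 h.2.1 h.2.2.1 h.2.2.2
        (1 / (((en k).2.2 : ℝ) + 1)) (by positivity)).mono
          (Eventually.of_forall fun n x _ hx => hx.2)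
    · exact Negl.false.mono (Eventually.of_forall fun n x _ hx => h hx.1)
  obtain ⟨J0, hJ0I, hJ0d, hJ0⟩ := exists_avoid (B := B) (I := I) _ hN
  obtain ⟨J, hJs, hJd, -, hJ⟩ := MkA.refine' hM hJ0d
  refine ⟨J, fun n => (hJs n).trans (hJ0I n), hJd.trans hJ0d, hJ, ?_⟩
  intro j h9 h12 h13 u v h0 huv h1 ε hε
  obtain ⟨K, hK⟩ := exists_nat_one_div_lt hε
  obtain ⟨k, hk⟩ := hen (j, (u, v), K)
  have h2 := hJ0 k
  rw [hk] at h2
  filter_upwards [h2, hp (Fin.natAdd 4 j) u h0 (huv.le.trans h1)] with n a1 a2 x hx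
  have a3 := a1 x (hJs n hx)
  have a4 : ¬ max (pr (Fin.natAdd 4 j) n u) (pr (Fin.natAdd 4 j) n v) *
      B.d n ^ (-(C * ((v : ℝ) - u)) - (1 / ((K : ℝ) + 1))) ≤ |h j n v x - h j n u x| :=
    fun hc => a3 ⟨⟨⟨h9, h12, h13⟩, h0, huv, h1⟩, hc⟩
  refine (not_le.1 a4).le.trans ?_
  refine mul_le_mul_of_nonneg_left (dpow_le B n ?_) (a2.le.trans (le_max_left _ _))
  linarith

/-- **closeness of the value at the level `lvl β` to the values at all levels** -/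
theorem flG_close {J : ℕ → Finset (ℕ × ℝ)} {h : Fin 14 → ℕ → ℚ → ℕ × ℝ → ℝ}
    {pr : Fin 18 → ℕ → ℚ → ℝ} {C : ℝ} (hC : 0 ≤ C) {β : Fin 18 → ℝ}
    (hpr : ∀ k, PrLin B pr k (β k)) (hT : TiltGE B J h pr C) {k : Fin 14} (h9 : k ≠ 9)
    (h12 : k ≠ 12) (h13 : k ≠ 13) {v : ℚ} (h0 : 0 ≤ v) (h1 : v ≤ 1) {ε : ℝ} (hε : 0 < ε) :
    ∀ᶠ n in (U : Filter ℕ), ∀ x ∈ J n,
      |h k n v x - h k n (lvl (β (Fin.natAdd 4 k))) x| ≤
        pr (Fin.natAdd 4 k) n v * B.d n ^ (-ε) :=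
  closeR (h := h k) (pr := fun _ => pr (Fin.natAdd 4 k)) (j := 0) hC
    (fun u v h0 huv h1 ε hε => hT k h9 h12 h13 u v h0 huv h1 ε hε)
    ⟨(hpr (Fin.natAdd 4 k)).1, (hpr (Fin.natAdd 4 k)).2⟩ h0 h1 hε

end

end Crest.Agent.R136.Fw650
end

-- ▼ part R136/Fw3_650
section

/-!
# R136, flags of the W-chart (helper650), part 3: assembly

`ThinG.mono`, `ThinG.base` (polynomial bounds), `ThinG.markW` : `MarkW` at every rational level for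
the flagged incidences `flW`; `ThinG.marksW`, `ThinG.wdata`.
-/

set_option autoImplicit false
set_option linter.unusedVariables false

open Finset Filter Topology

namespace Crest.Agent.R136.Fw650

open Crest.Agent.R138.Ex926 (Base U)
open Crest.Agent.R138.Mk163 (zc zl rho alive Negl)
open Crest.Agent.R138.MkRef627 (lc kc)
open Crest.Agent.R138.Dp76
open Crest.Agent.R138.ArgM163 (ev_const)
open Crest.Agent.R136.Sh605
open Crest.Agent.R136.Net191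
open Crest.Agent.R136.NetW191
open Crest.Agent.R136.MkA627
open Crest.Agent.R136.TD627
open Crest.Agent.R136.Ut627 (closeR lvl)
open Crest.Agent.R136.ArgA163 (PrLin rho_pos)
open Crest.Agent.R136.GW650
open Crest.Agent.R136.FlW464
open Crest.Agent.R136.PrW464 (unW unW_pos grW wz wc wn tdW tdW_d WData)

/-- a constant is absorbed by one more power -/
theorem ev_abs (B : Base) (c : ℝ) (hc : 0 < c) (a : ℝ) :
    ∀ᶠ n in (U : Filter ℕ), c * B.d n ^ a ≤ B.d n ^ (a - 1) := by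
  filter_upwards [ev_const B hc one_pos] with n h
  have e : B.d n ^ (a - 1) = B.d n ^ (-(1 : ℝ)) * B.d n ^ a := by
    rw [← dpow_add]; congr 1; ring
  rw [e]
  exact mul_le_mul_of_nonneg_right h (dpow_pos B n _).le

section

variable {σ' κ' : Type*} {G : Geo σ' κ'} {B : Base} {I : ℕ → Finset (ℕ × ℝ)} {lev : ℕ → ℚ → ℕ}
    {A : ℕ → ℝ} {f : ℕ → ℚ → ℕ → ℤ → ℕ} {b : ℕ → ℚ → ℕ → σ'} {vm : ℕ → ℚ → ℝ}
    {w : κ' → ℕ → ℚ → ℝ} {kp σ hz zs : ℕ → ℝ} {L : ℕ → ℕ → Ln4} {wA wB a : ℕ → ℚ → ℝ}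
    {Mk : ℚ → ℕ → ℕ × ℤ → Fin 14 → ℝ} {E : ℚ → ℕ → ℕ × ℤ → ℝ}

theorem ThinG.mono (h : ThinG B I lev f kp σ hz zs L wA wB a Mk E) {J : ℕ → Finset (ℕ × ℝ)}
    (hJ : ∀ n, J n ⊆ I n) : ThinG B J lev f kp σ hz zs L wA wB a Mk E where
  kp1 := h.kp1
  σ0 := h.σ0
  hz0 := h.hz0
  σs := h.σs
  zb := by filter_upwards [h.zb] with n hn x hx using hn x (hJ n hx)
  Lb := by
    obtain ⟨C, hC⟩ := h.Lb
    exact ⟨C, by filter_upwards [hC] with n hn x hx using hn x (hJ n hx)⟩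
  rb := h.rb
  top := h.top
  Mb := fun v h0 h1 => by
    obtain ⟨C, hC⟩ := h.Mb v h0 h1
    exact ⟨C, by filter_upwards [hC] with n hn x hx using hn x (hJ n hx)⟩
  A0 := h.A0
  low := h.low
  q := fun v h0 h1 ε hε => by
    filter_upwards [h.q v h0 h1 ε hε] with n hn x hx using hn x (hJ n hx)
  lat := fun v h0 h1 ε hε => by
    filter_upwards [h.lat v h0 h1 ε hε] with n hn x hx y hy using hn x (hJ n hx) y (hJ n hy)
  ax := fun v h0 h1 ε hε => by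
    filter_upwards [h.ax v h0 h1 ε hε] with n hn x hx using hn x (hJ n hx)
  bal := h.bal

theorem rhN_pos (h : ∀ n, 0 < hz n) (n : ℕ) (v : ℚ) : 0 < rhN lev hz n v :=
  mul_pos (h n) (rho_pos _)

/-- the cells of level `v` are shorter than those of level `0` -/
theorem rhN_le (hz0 : ∀ n, 0 < hz n) {c Λ : ℝ → ℝ} {τ : κ' → ℝ → ℝ}
    (hM : MkA B I G lev A c Λ τ f b vm w) {v : ℚ} (h0 : 0 ≤ v) (h1 : v ≤ 1) :
    ∀ᶠ n in (U : Filter ℕ), rhN lev hz n v ≤ rhN lev hz n 0 := by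
  filter_upwards [hM.lev_mono 0 v le_rfl h0 h1] with n hn
  unfold rhN
  refine mul_le_mul_of_nonneg_left ?_ (hz0 n).le
  unfold rho
  exact one_div_pow_le_one_div_pow_of_le one_le_two hn

/-- **polynomial bounds** -/
theorem ThinG.base (h : ThinG B I lev f kp σ hz zs L wA wB a Mk E) {c Λ : ℝ → ℝ}
    {τ : κ' → ℝ → ℝ} (hM : MkA B I G lev A c Λ τ f b vm w) (χ ν : ℝ) :
    ∃ D : ℝ, 0 ≤ D ∧ ∀ᶠ n in (U : Filter ℕ), 1 ≤ B.d n ^ (-D) ∧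
      (∀ v : ℚ, rhN lev hz n v ≤ rhN lev hz n 0 → ∀ x ∈ I n, ∀ z,
        z0N lev hz zs v n (zc (lev n v) x.2) ≤ z →
        z ≤ z0N lev hz zs v n (zc (lev n v) x.2) + rhN lev hz n v →
          |z| ≤ B.d n ^ (-D) ∧ ∀ k, |(L n x.1).pos z k| ≤ B.d n ^ (-D)) ∧
      (∀ x ∈ I n, ∀ k, |(L n x.1).v k| ≤ B.d n ^ (-D) ∧ |(L n x.1).p k| ≤ B.d n ^ (-D)) ∧
      (∀ x ∈ I n, ∀ k, |(flW kp σ hz zs L lev f Mk χ ν n x).G k| ≤ B.d n ^ (-D)) ∧
      (∀ x ∈ I n, ∀ i, |FlW464.frW (L n x.1) (zhN hz zs n x) i| ≤ B.d n ^ (-D)) ∧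
      (∀ x ∈ I n, ∀ k, |Mk 0 n (kc (lev n 0) (f n 0) x) k| ≤ B.d n ^ (-D) ∧
        |Mk 1 n (kc (lev n 1) (f n 1) x) k| ≤ B.d n ^ (-D)) := by
  obtain ⟨C1, h1⟩ := h.Lb
  obtain ⟨C2, h2⟩ := h.rb
  obtain ⟨C3, h3⟩ := h.top
  obtain ⟨C4, h4⟩ := h.Mb 0 le_rfl zero_le_one
  obtain ⟨C5, h5⟩ := h.Mb 1 zero_le_one le_rfl
  set D0 : ℝ := max (max C1 C2) (max (max C3 C4) (max C5 0)) with hD0
  have d1 : C1 ≤ D0 := (le_max_left _ _).trans (le_max_left _ _)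
  have d2 : C2 ≤ D0 := (le_max_right _ _).trans (le_max_left _ _)
  have d3 : C3 ≤ D0 := ((le_max_left _ _).trans (le_max_left _ _)).trans (le_max_right _ _)
  have d4 : C4 ≤ D0 := ((le_max_right _ _).trans (le_max_left _ _)).trans (le_max_right _ _)
  have d5 : C5 ≤ D0 := ((le_max_left _ _).trans (le_max_right _ _)).trans (le_max_right _ _)
  have d0 : 0 ≤ D0 := ((le_max_right _ _).trans (le_max_right _ _)).trans (le_max_right _ _)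
  -- `Γ = d ^ (-(2 D0 + 1))`
  set D1 : ℝ := 2 * D0 + 1 with hD1
  refine ⟨400 * D1 + 1, by positivity, ?_⟩
  filter_upwards [h1, h2, h3, h4, h5, h.zb, ev_abs B 3 (by norm_num) (-(2 * D0)),
    h.q 0 le_rfl zero_le_one 1 one_pos, ev_abs B (50 * (10 ^ 30) ^ 5) (by positivity)
      (-(400 * D1))] with n h1 h2 h3 h4 h5 hzb e3 hq e50
  have dp := dpow_pos B n
  have hσ := h.σ0 n
  have g0 : 1 ≤ B.d n ^ (-D0) := by
    have := dpow_le B n (show -D0 ≤ (0 : ℝ) by linarith)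
    rwa [Real.rpow_zero] at this
  have hle : ∀ {C : ℝ}, C ≤ D0 → B.d n ^ (-C) ≤ B.d n ^ (-D0) := fun h =>
    dpow_le B n (by linarith)
  have e3' : 3 * (B.d n ^ (-D0)) ^ 2 ≤ B.d n ^ (-D1) := by
    have e : (B.d n ^ (-D0)) ^ 2 = B.d n ^ (-(2 * D0)) := by
      rw [← Real.rpow_natCast, ← Real.rpow_mul (B.pos n).le]
      congr 1; push_cast; ring
    rw [e, show -D1 = -(2 * D0) - 1 by rw [hD1]; ring]
    exact e3
  set Γ0 := B.d n ^ (-D0) with hΓ0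
  set Γ := B.d n ^ (-D1) with hΓ
  have g02 : Γ0 ≤ Γ0 ^ 2 := by nlinarith
  have gΓ : Γ0 ≤ Γ := by nlinarith
  have g1 : 1 ≤ Γ := g0.trans gΓ
  -- bounds
  have bL : ∀ x ∈ I n, ∀ k, |(L n x.1).v k| ≤ Γ0 ∧ |(L n x.1).p k| ≤ Γ0 := fun x hx k =>
    ⟨(h1 x hx k).1.trans (hle d1), (h1 x hx k).2.trans (hle d1)⟩
  have br : rhN lev hz n 0 ≤ Γ0 := h2.2.trans (hle d2)
  have br' : 1 ≤ Γ0 * rhN lev hz n 0 := by
    have e : B.d n ^ (-D0) * B.d n ^ D0 = 1 := by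
      rw [← dpow_add, neg_add_cancel, Real.rpow_zero]
    have e2 : B.d n ^ D0 ≤ rhN lev hz n 0 := (dpow_le B n d2).trans h2.1
    calc (1 : ℝ) = Γ0 * B.d n ^ D0 := e.symm
      _ ≤ _ := mul_le_mul_of_nonneg_left e2 (by linarith)
  have bz : ∀ v : ℚ, rhN lev hz n v ≤ rhN lev hz n 0 → ∀ x ∈ I n, ∀ z,
      z0N lev hz zs v n (zc (lev n v) x.2) ≤ z →
      z ≤ z0N lev hz zs v n (zc (lev n v) x.2) + rhN lev hz n v →
        |z| ≤ 2 * Γ0 ∧ ∀ k, |(L n x.1).pos z k| ≤ 3 * Γ0 ^ 2 := by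
    intro v hv x hx z z1 z2
    obtain ⟨c1, c2⟩ := cellN (lev := lev) (zs := zs) (h.hz0 n) v x
    have hb := hzb x hx
    have hz : |z| ≤ 2 * Γ0 := by
      rw [abs_le] at hb ⊢
      constructor <;> linarith
    refine ⟨hz, fun k => ?_⟩
    show |(L n x.1).p k + z * (L n x.1).v k| ≤ _
    refine (abs_add_le _ _).trans ?_
    rw [abs_mul]
    have p1 := mul_le_mul hz (bL x hx k).1 (abs_nonneg _) (by linarith)
    have p2 := (bL x hx k).2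
    nlinarith
  have bz' : ∀ v : ℚ, rhN lev hz n v ≤ rhN lev hz n 0 → ∀ x ∈ I n, ∀ z,
      z0N lev hz zs v n (zc (lev n v) x.2) ≤ z →
      z ≤ z0N lev hz zs v n (zc (lev n v) x.2) + rhN lev hz n v →
        |z| ≤ Γ ∧ ∀ k, |(L n x.1).pos z k| ≤ Γ := by
    intro v hv x hx z z1 z2
    obtain ⟨q1, q2⟩ := bz v hv x hx z z1 z2
    exact ⟨q1.trans (by nlinarith), fun k => (q2 k).trans e3'⟩
  have bM : ∀ x ∈ I n, ∀ k, |Mk 0 n (kc (lev n 0) (f n 0) x) k| ≤ Γ ∧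
      |Mk 1 n (kc (lev n 1) (f n 1) x) k| ≤ Γ := fun x hx k =>
    ⟨((h4 x hx k).trans (hle d4)).trans gΓ, ((h5 x hx k).trans (hle d5)).trans gΓ⟩
  have bfr : ∀ x ∈ I n, ∀ i, |FlW464.frW (L n x.1) (zhN hz zs n x) i| ≤ Γ := by
    intro x hx i
    obtain ⟨c1, c2⟩ := cellN (lev := lev) (zs := zs) (h.hz0 n) 0 x
    have hp := (bz' 0 le_rfl x hx _ c1 c2).2
    fin_cases i
    · exact (hzb x hx).trans g1
    · exact (bL x hx 1).1.trans gΓ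
    · exact hp 1
    · exact hp 2
  have bG : ∀ x ∈ I n, ∀ k, |(flW kp σ hz zs L lev f Mk χ ν n x).G k| ≤
      50 * (10 ^ 30 * Γ ^ 80) ^ 5 := by
    intro x hx k
    have hr := rhN_pos (lev := lev) h.hz0 n 0
    refine FW1_bd (h.kp1 n) hσ (z0 := z0N lev hz zs 0 n (zc (lev n 0) x.2))
      (ρ := rhN lev hz n 0) g1 hr (br.trans gΓ) ?_ (bfr x hx) (fun k => (bM x hx k).1)
      (fun k => (bM x hx k).2) (fun z z1 z2 => (bz' 0 le_rfl x hx z z1 z2).1)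
      (fun z z1 z2 => (bz' 0 le_rfl x hx z z1 z2).2) (fun z z1 z2 => ?_) k
    · exact br'.trans (mul_le_mul_of_nonneg_right gΓ hr.le)
    · refine (hq x hx z z1 z2).trans (mul_le_mul_of_nonneg_left ?_ hσ.le)
      have e1 : a n 0 ≤ Γ0 := h3.1.trans (hle d3)
      calc a n 0 * B.d n ^ (-(1 : ℝ)) ≤ Γ0 * B.d n ^ (-(1 : ℝ)) :=
            mul_le_mul_of_nonneg_right e1 (dp _).le
        _ = B.d n ^ (-D0 - 1) := by rw [hΓ0, ← dpow_add]; congr 1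
        _ ≤ Γ := dpow_le B n (by rw [hD1]; linarith)
  -- the final bound
  have hfin : 50 * (10 ^ 30 * Γ ^ 80) ^ 5 ≤ B.d n ^ (-(400 * D1 + 1)) := by
    have e : Γ ^ 400 = B.d n ^ (-(400 * D1)) := by
      rw [hΓ, ← Real.rpow_natCast, ← Real.rpow_mul (B.pos n).le]
      congr 1; push_cast; ring
    have e2 : 50 * (10 ^ 30 * Γ ^ 80) ^ 5 = 50 * (10 ^ 30) ^ 5 * Γ ^ 400 := by ring
    rw [e2, e, show -(400 * D1 + 1) = -(400 * D1) - 1 by ring]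
    exact e50
  have gfin : Γ ≤ B.d n ^ (-(400 * D1 + 1)) := by
    rw [hΓ]
    refine dpow_le B n ?_
    have : 0 ≤ D1 := by positivity
    linarith
  refine ⟨g1.trans gfin, fun v hv x hx z z1 z2 => ?_, fun x hx k => ?_,
    fun x hx k => (bG x hx k).trans hfin, fun x hx i => (bfr x hx i).trans gfin,
    fun x hx k => ⟨(bM x hx k).1.trans gfin, (bM x hx k).2.trans gfin⟩⟩
  · obtain ⟨q1, q2⟩ := bz' v hv x hx z z1 z2
    exact ⟨q1.trans gfin, fun k => (q2 k).trans gfin⟩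
  · exact ⟨((bL x hx k).1.trans gΓ).trans gfin, ((bL x hx k).2.trans gΓ).trans gfin⟩

/-- graded precision against the natural precision, sequences -/
theorem ThinG.prN (h : ThinG B I lev f kp σ hz zs L wA wB a Mk E) {v : ℚ} (h0 : 0 ≤ v)
    (h1 : v ≤ 1) {ε : ℝ} (hε : 0 < ε) : ∀ᶠ n in (U : Filter ℕ), ∀ k : Fin 14, k ≠ 9 → k ≠ 12 →
      k ≠ 13 → prG (rhN lev hz) wA a (Fin.natAdd 4 k) n v ≤
        a n v / sz3 (rhN lev hz n v) (wA n v) (wB n v) k * B.d n ^ (-ε) := by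
  have e2 : 0 < ε / 2 := by positivity
  obtain ⟨C, hC⟩ := h.low v h0 h1
  filter_upwards [h.A0 v h0 h1, hC, h.bal v h0 h1 _ e2] with n hA hC hb k h9 h12 h13
  have he : 1 ≤ B.d n ^ (-(ε / 2)) := by
    have := dpow_le B n (show -(ε / 2) ≤ (0 : ℝ) by linarith)
    rwa [Real.rpow_zero] at this
  have a0 : 0 < a n v := (dpow_pos B n C).trans_le hC.1
  have B0 : 0 < wB n v := (dpow_pos B n C).trans_le hC.2
  refine (prN_le he (rhN_pos h.hz0 n v) hA B0 a0 (by rw [mul_comm]; exact hb.2) k h9 h12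
    h13).trans (le_of_eq ?_)
  rw [sq, ← dpow_add, mul_comm]
  congr 2; ring

/-- **`MarkW` at the level `v`** -/
theorem ThinG.markW (h : ThinG B I lev f kp σ hz zs L wA wB a Mk E) {c Λ : ℝ → ℝ}
    {τ : κ' → ℝ → ℝ} (hM : MkA B I G lev A c Λ τ f b vm w) {χ ν C : ℝ} (hC : 0 ≤ C)
    (hpr : ∀ k, PrLin B (prG (rhN lev hz) wA a) k (grW 1 χ ν k))
    (hT : TiltGE B I (hW kp hz zs L lev f Mk) (prG (rhN lev hz) wA a) C) {v : ℚ} (h0 : 0 ≤ v)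
    (h1 : v ≤ 1) :
    MarkW B I lev f v kp σ (flW kp σ hz zs L lev f Mk χ ν) L (z0N lev hz zs v)
      (fun n => rhN lev hz n v) (Mk v) (E v) (fun n => wA n v) (fun n => wB n v)
      (fun n => a n v) (fun n k => a n v / sz3 (rhN lev hz n v) (wA n v) (wB n v) k) where
  bd := by
    obtain ⟨D, D0, hD⟩ := h.base hM χ ν
    refine ⟨D, ?_⟩
    filter_upwards [hD, rhN_le h.hz0 hM h0 h1] with n hn hr x hx
    obtain ⟨g1, bz, bL, bG, bfr, bM⟩ := hn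
    obtain ⟨c1, c2⟩ := cellN (lev := lev) (zs := zs) (h.hz0 n) v x
    exact
      { true := flW_true (h.σ0 n) χ ν x
        G := bG x hx
        V := fun k => (bL x hx k).1
        X := fun z z1 z2 => (bz v hr x hx z z1 z2).2
        z := fun z z1 z2 => (bz v hr x hx z z1 z2).1
        i0 := c1
        i1 := c2 }
  Mbd := h.Mb v h0 h1
  ρ0 := Eventually.of_forall fun n => rhN_pos h.hz0 n v
  ρ1 := by
    obtain ⟨C, hC⟩ := h.rb
    exact ⟨C, by filter_upwards [hC, rhN_le h.hz0 hM h0 h1] with n a b using b.trans a.2⟩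
  A0 := h.A0 v h0 h1
  low := h.low v h0 h1
  pr0 := by
    obtain ⟨C, hC⟩ := h.low v h0 h1
    filter_upwards [hC, h.A0 v h0 h1] with n hn hA k
    exact (div_pos ((dpow_pos B n C).trans_le hn.1)
      (sz3_pos (rhN_pos h.hz0 n v) hA ((dpow_pos B n C).trans_le hn.2) k)).le
  q := h.q v h0 h1
  fl := fun ε hε => by
    have e2 : 0 < ε / 2 := by positivity
    have hk : ∀ k : Fin 14, k ≠ 9 → k ≠ 12 → k ≠ 13 → ∀ᶠ n in (U : Filter ℕ), ∀ x ∈ I n,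
        |tr (kp n) (flW kp σ hz zs L lev f Mk χ ν n x).g
          ((flW kp σ hz zs L lev f Mk χ ν n x).G - Mk v n (kc (lev n v) (f n v) x)) k| ≤
        a n v / sz3 (rhN lev hz n v) (wA n v) (wB n v) k * B.d n ^ (-ε) := by
      intro k h9 h12 h13
      filter_upwards [flG_close hC hpr hT h9 h12 h13 h0 h1 e2, h.prN h0 h1 e2] with n hn hp x hx
      rw [flW_sub χ ν n x v k h9 h12 h13, abs_sub_comm]
      refine (hn x hx).trans ((mul_le_mul_of_nonneg_right (hp k h9 h12 h13)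
        (dpow_pos B n _).le).trans (le_of_eq ?_))
      rw [mul_assoc, ← dpow_add]; congr 2; ring
    have hall : ∀ᶠ n in (U : Filter ℕ), ∀ k : Fin 14, k ≠ 9 → k ≠ 12 → k ≠ 13 → ∀ x ∈ I n,
        |tr (kp n) (flW kp σ hz zs L lev f Mk χ ν n x).g
          ((flW kp σ hz zs L lev f Mk χ ν n x).G - Mk v n (kc (lev n v) (f n v) x)) k| ≤
        a n v / sz3 (rhN lev hz n v) (wA n v) (wB n v) k * B.d n ^ (-ε) := by
      rw [Filter.eventually_all]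
      intro k
      by_cases h9 : k = 9
      · exact Eventually.of_forall fun n h => absurd h9 h
      by_cases h12 : k = 12
      · exact Eventually.of_forall fun n _ h => absurd h12 h
      by_cases h13 : k = 13
      · exact Eventually.of_forall fun n _ _ h => absurd h13 h
      filter_upwards [hk k h9 h12 h13] with n hn _ _ _ using hn
    filter_upwards [hall] with n hn x hx k h9 h12 h13 using hn k h9 h12 h13 x hx
  lat := h.lat v h0 h1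
  ax := h.ax v h0 h1

/-- **all levels** -/
theorem ThinG.marksW (h : ThinG B I lev f kp σ hz zs L wA wB a Mk E) {c Λ : ℝ → ℝ}
    {τ : κ' → ℝ → ℝ} (hM : MkA B I G lev A c Λ τ f b vm w) {χ ν C : ℝ} (hC : 0 ≤ C)
    (hpr : ∀ k, PrLin B (prG (rhN lev hz) wA a) k (grW 1 χ ν k))
    (hT : TiltGE B I (hW kp hz zs L lev f Mk) (prG (rhN lev hz) wA a) C) :
    MarksW B I lev f kp σ (flW kp σ hz zs L lev f Mk χ ν) L (fun v => z0N lev hz zs v)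
      (rhN lev hz) wA wB a Mk E where
  kp1 := h.kp1
  σ0 := Eventually.of_forall h.σ0
  σ1 := h.σs
  mark := fun v h0 h1 => h.markW hM hC hpr hT h0 h1
  bal := h.bal

/-- **464's data** -/
theorem ThinG.wdata (h : ThinG B I lev f kp σ hz zs L wA wB a Mk E) {c Λ : ℝ → ℝ}
    {τ : κ' → ℝ → ℝ} (hM : MkA B I G lev A c Λ τ f b vm w) (χ ν : ℝ) :
    WData B I kp σ hz zs L (flW kp σ hz zs L lev f Mk χ ν) where
  kp1 := h.kp1
  sg0 := h.σ0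
  hz0 := h.hz0
  sgs := h.σs
  gz := fun n x => rfl
  zb := h.zb
  tru := Eventually.of_forall fun n x hx => flW_true (h.σ0 n) χ ν x
  bd := by
    obtain ⟨D, D0, hD⟩ := h.base hM χ ν
    refine ⟨D, D0, ?_⟩
    filter_upwards [hD] with n hn x hx
    exact ⟨hn.2.2.2.1 x hx, fun k => (hn.2.2.1 x hx k).1, fun k => (hn.2.2.1 x hx k).2⟩

end

end Crest.Agent.R136.Fw650
end

-- ▼ part R136/Fw4_650

/-!
# R136, flags of the W-chart (helper650), part 4: conclusion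

* `ThinG.inv` : the flag slots of rate `≤ 0` do not move along the lines;
* `ThinG.lowS` : the scales of level `0` are polynomial;
* **`flags_of`** : `ThinG` + linear marked sequence + tilt of the flag slots ⊢ `FlagsW` on a dense
  part.
-/

set_option autoImplicit false
set_option linter.unusedVariables false

open Finset Filter Topology

namespace Crest.Agent.R136.Fw650

open Crest.Agent.R138.Ex926 (Base U)
open Crest.Agent.R138.Mk163 (zc zl rho alive Negl)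
open Crest.Agent.R138.MkRef627 (lc kc)
open Crest.Agent.R138.Dp76
open Crest.Agent.R138.ArgM163 (ev_const)
open Crest.Agent.R136.Sh605
open Crest.Agent.R136.Net191
open Crest.Agent.R136.NetW191
open Crest.Agent.R136.MkA627
open Crest.Agent.R136.TD627
open Crest.Agent.R136.Ut627 (closeR lvl)
open Crest.Agent.R136.ArgA163 (PrLin rho_pos)
open Crest.Agent.R136.GW650
open Crest.Agent.R136.FlW464
open Crest.Agent.R136.PrW464 (unW unW_pos grW wz wc wn tdW tdW_d WData)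

/-- zpow of a polynomially bounded quantity -/
theorem zpow_low {B : Base} {n : ℕ} {u C : ℝ} (hC : 0 ≤ C) (h1 : B.d n ^ C ≤ u)
    (h2 : u ≤ B.d n ^ (-C)) (m : ℤ) (hm : |m| ≤ 4) : B.d n ^ (4 * C) ≤ u ^ m := by
  have dp := dpow_pos B n
  have u0 : 0 < u := (dp C).trans_le h1
  have key : ∀ (y : ℝ) (k : ℕ), B.d n ^ C ≤ y → k ≤ 4 → B.d n ^ (4 * C) ≤ y ^ k := by
    intro y k hy hk
    calc B.d n ^ (4 * C) ≤ B.d n ^ ((k : ℝ) * C) := by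
          refine dpow_le B n ?_
          have : (k : ℝ) ≤ 4 := by exact_mod_cast hk
          exact mul_le_mul_of_nonneg_right this hC
      _ = (B.d n ^ C) ^ k := by
          rw [← Real.rpow_natCast, ← Real.rpow_mul (B.pos n).le, mul_comm]
      _ ≤ y ^ k := pow_le_pow_left₀ (dp C).le hy k
  obtain ⟨k, rfl | rfl⟩ := Int.eq_nat_or_neg m
  · rw [zpow_natCast]
    refine key u k h1 ?_
    rw [abs_of_nonneg (Int.natCast_nonneg k)] at hm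
    exact_mod_cast hm
  · rw [zpow_neg, zpow_natCast, ← inv_pow]
    refine key u⁻¹ k ?_ ?_
    · rw [le_inv_comm₀ (dp C) u0, ← Real.rpow_neg (B.pos n).le]
      exact h2
    · rw [abs_neg, abs_of_nonneg (Int.natCast_nonneg k)] at hm
      exact_mod_cast hm

section

variable {σ' κ' : Type*} {G : Geo σ' κ'} {B : Base} {I : ℕ → Finset (ℕ × ℝ)} {lev : ℕ → ℚ → ℕ}
    {A : ℕ → ℝ} {f : ℕ → ℚ → ℕ → ℤ → ℕ} {b : ℕ → ℚ → ℕ → σ'} {vm : ℕ → ℚ → ℝ}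
    {w : κ' → ℕ → ℚ → ℝ} {kp σ hz zs : ℕ → ℝ} {L : ℕ → ℕ → Ln4} {wA wB a : ℕ → ℚ → ℝ}
    {Mk : ℚ → ℕ → ℕ × ℤ → Fin 14 → ℝ} {E : ℚ → ℕ → ℕ × ℤ → ℝ}

/-- **the flag slots of rate `≤ 0` do not move along the lines** -/
theorem ThinG.inv (h : ThinG B I lev f kp σ hz zs L wA wB a Mk E) {c Λ : ℝ → ℝ}
    {τ : κ' → ℝ → ℝ} (hM : MkA B I G lev A c Λ τ f b vm w) {χ ν : ℝ} {k : Fin 14}
    (hk : grW 1 χ ν (Fin.natAdd 4 k) ≤ 0) (h9 : k ≠ 9) (h12 : k ≠ 12) (h13 : k ≠ 13) (M : ℝ) :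
    ∀ᶠ n in (U : Filter ℕ), ∀ x ∈ I n, ∀ y ∈ I n, y.1 = x.1 →
      |coW (kp n) (flW kp σ hz zs L lev f Mk χ ν n x) (flW kp σ hz zs L lev f Mk χ ν n y)
        (Fin.natAdd 4 k)| ≤ B.d n ^ M := by
  obtain ⟨D, D0, hD⟩ := h.base hM χ ν
  have hw := h.wdata hM χ ν
  filter_upwards [hD, hM.cell0, h.zb, hw.small 20 (-(3 * D)) 0 (by norm_num),
    hw.small (940 * 470 ^ 7 * 20) (-(52 * D)) M (by norm_num)] with n hn hc hzb hs1 hs2 x hx y hy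
    hxy
  obtain ⟨g1, bz, bL, bG, bfr, bM⟩ := hn
  set Γ := B.d n ^ (-D) with hΓ
  have G0 : 0 < Γ := by linarith
  have hσ := h.σ0 n
  -- the two flags
  have eL : L n y.1 = L n x.1 := by rw [hxy]
  have e0 : kc (lev n 0) (f n 0) y = kc (lev n 0) (f n 0) x := by
    unfold kc
    rw [hxy, hc x hx y hy]
  have eF : flW kp σ hz zs L lev f Mk χ ν n y =
      FW1 (kp n) (σ n) (S0 χ ν) (L n x.1) (zhN hz zs n y)
        (Mk 0 n (kc (lev n 0) (f n 0) x)) (Mk 1 n (kc (lev n 1) (f n 1) y)) := by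
    unfold flW
    rw [eL, e0]
  -- drift
  have hdr : |drW (kp n) (L n x.1)| ≤ σ n * (10 * Γ ^ 3) := by
    have h1 := (flW_true (kp := kp) (zs := zs) (hz := hz) (L := L) (lev := lev) (f := f)
      (Mk := Mk) hσ χ ν x).drift_bound hσ.le (Γ := Γ) (V := Γ) (bG x hx)
      (fun k => (bL x hx k).1)
    refine le_trans ?_ (h1.trans (mul_le_mul_of_nonneg_left ?_ hσ.le))
    · exact le_of_eq rfl
    · have p2 : Γ ≤ Γ ^ 2 := by nlinarith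
      have p3 : Γ ^ 2 ≤ Γ ^ 3 := pow_le_pow_right₀ g1 (by norm_num)
      nlinarith [mul_le_mul_of_nonneg_left p2 G0.le]
  have hzz : |zhN hz zs n y - zhN hz zs n x| ≤ 2 := by
    have a1 := hzb x hx
    have a2 := hzb y hy
    rw [abs_le] at a1 a2 ⊢
    constructor <;> linarith
  have hd : |drW (kp n) (L n x.1) * (zhN hz zs n y - zhN hz zs n x)| ≤ σ n * (20 * Γ ^ 3) := by
    rw [abs_mul]
    calc _ ≤ σ n * (10 * Γ ^ 3) * 2 := mul_le_mul hdr hzz (abs_nonneg _) (by positivity)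
      _ = _ := by ring
  have e3 : Γ ^ 3 = B.d n ^ (-(3 * D)) := by
    rw [hΓ, ← Real.rpow_natCast, ← Real.rpow_mul (B.pos n).le]; congr 1; push_cast; ring
  have e52 : Γ ^ 52 = B.d n ^ (-(52 * D)) := by
    rw [hΓ, ← Real.rpow_natCast, ← Real.rpow_mul (B.pos n).le]; congr 1; push_cast; ring
  have hK : (1 : ℝ) ≤ 470 * Γ ^ 7 := by
    have := one_le_pow₀ g1 (n := 7)
    linarith
  have hd1 : |drW (kp n) (L n x.1) * (zhN hz zs n y - zhN hz zs n x)| ≤ 470 * Γ ^ 7 := by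
    refine (hd.trans ?_).trans hK
    rw [e3]
    rwa [Real.rpow_zero] at hs1
  have hfin := inv_FW1 (σ := σ n) (h.kp1 n) (shiftOk_S0 χ ν) (L n x.1) (z := zhN hz zs n x)
    (z' := zhN hz zs n y) (a := Mk 0 n (kc (lev n 0) (f n 0) x))
    (b := Mk 1 n (kc (lev n 1) (f n 1) x)) (b' := Mk 1 n (kc (lev n 1) (f n 1) y))
    (K := 470 * Γ ^ 7) hK (hzz.trans (by
      have := one_le_pow₀ g1 (n := 7)
      linarith)) hd1
    (fun q => tr_size1 (h.kp1 n) g1 (bfr x hx) (fun k => (bM x hx k).1) q)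
    (fun q => tr_size1 (h.kp1 n) g1 (bfr x hx) (fun k => (bM x hx k).2) q) k hk h9 h12 h13
  rw [eF]
  refine hfin.trans (le_trans (mul_le_mul_of_nonneg_left hd (by positivity)) ?_)
  have e : 940 * (470 * Γ ^ 7) ^ 7 * (σ n * (20 * Γ ^ 3)) =
      σ n * (940 * 470 ^ 7 * 20 * Γ ^ 52) := by ring
  rw [e, e52]
  exact hs2

/-- **the scales of level `0` are polynomial** -/
theorem ThinG.lowS (h : ThinG B I lev f kp σ hz zs L wA wB a Mk E) :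
    ∃ C : ℝ, ∀ᶠ n in (U : Filter ℕ), ∀ k,
      B.d n ^ C ≤ ps (prG (rhN lev hz) wA a) 0 k n := by
  obtain ⟨C2, h2⟩ := h.rb
  obtain ⟨C3, h3⟩ := h.top
  obtain ⟨C4, h4⟩ := h.low 0 le_rfl zero_le_one
  set D : ℝ := max (max C2 C3) (max C4 0) with hD
  have d2 : C2 ≤ D := (le_max_left _ _).trans (le_max_left _ _)
  have d3 : C3 ≤ D := (le_max_right _ _).trans (le_max_left _ _)
  have d4 : C4 ≤ D := (le_max_left _ _).trans (le_max_right _ _)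
  have d0 : 0 ≤ D := (le_max_right _ _).trans (le_max_right _ _)
  refine ⟨4 * (3 * D + 1) + 4 * (3 * D + 1) + 4 * (3 * D + 1), ?_⟩
  filter_upwards [h2, h3, h4, h.A0 0 le_rfl zero_le_one, h.bal 0 le_rfl zero_le_one 1 one_pos]
    with n h2 h3 h4 hA hb k
  have dp := dpow_pos B n
  have hr := rhN_pos (lev := lev) h.hz0 n 0
  have a0 : 0 < a n 0 := (dp _).trans_le h4.1
  have hp : 0 < prG (rhN lev hz) wA a k n 0 := unW_pos hr (div_pos hA hr) a0 k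
  rw [ps_eq hp]
  -- bounds with the exponent `D' = 3 D + 1`
  have up : ∀ {x C : ℝ}, C ≤ D → x ≤ B.d n ^ (-C) → x ≤ B.d n ^ (-(3 * D + 1)) :=
    fun hC hx => hx.trans (dpow_le B n (by linarith))
  have lo : ∀ {x C : ℝ}, C ≤ D → B.d n ^ C ≤ x → B.d n ^ (3 * D + 1) ≤ x :=
    fun hC hx => (dpow_le B n (by linarith)).trans hx
  have wAlo : B.d n ^ (D + 1 / 2) ≤ wA n 0 := by
    have e1 : wB n 0 * rhN lev hz n 0 ≤ wA n 0 ^ 2 * B.d n ^ (-(1 : ℝ)) := by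
      have := hb.2
      rw [div_mul_eq_mul_div, le_div_iff₀ hr] at this
      exact this
    have e2 : B.d n ^ (D + D) ≤ wB n 0 * rhN lev hz n 0 := by
      rw [dpow_add]
      exact mul_le_mul ((dpow_le B n d4).trans h4.2) ((dpow_le B n d2).trans h2.1) (dp _).le
        ((dp C4).le.trans h4.2)
    have e3 : B.d n ^ (D + D + 1) ≤ wA n 0 ^ 2 := by
      have e4 := e2.trans e1
      calc B.d n ^ (D + D + 1) = B.d n ^ (D + D) * B.d n ^ (1 : ℝ) := dpow_add B n _ _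
        _ ≤ wA n 0 ^ 2 * B.d n ^ (-(1 : ℝ)) * B.d n ^ (1 : ℝ) :=
            mul_le_mul_of_nonneg_right e4 (dp _).le
        _ = wA n 0 ^ 2 := by
            rw [mul_assoc, ← dpow_add, neg_add_cancel, Real.rpow_zero, mul_one]
    have e5 : (B.d n ^ (D + 1 / 2)) ^ 2 ≤ wA n 0 ^ 2 := by
      refine le_trans (le_of_eq ?_) e3
      rw [sq, ← dpow_add]; congr 1; ring
    exact (pow_le_pow_iff_left₀ (dp _).le hA.le two_ne_zero).1 e5
  have c1 : B.d n ^ (3 * D + 1) ≤ wA n 0 / rhN lev hz n 0 := by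
    rw [le_div_iff₀ hr]
    have e1 : rhN lev hz n 0 ≤ B.d n ^ (-D) := h2.2.trans (dpow_le B n (by linarith))
    calc B.d n ^ (3 * D + 1) * rhN lev hz n 0 ≤ B.d n ^ (3 * D + 1) * B.d n ^ (-D) :=
          mul_le_mul_of_nonneg_left e1 (dp _).le
      _ = B.d n ^ (2 * D + 1) := by rw [← dpow_add]; congr 1; ring
      _ ≤ B.d n ^ (D + 1 / 2) := dpow_le B n (by linarith)
      _ ≤ wA n 0 := wAlo
  have c2 : wA n 0 / rhN lev hz n 0 ≤ B.d n ^ (-(3 * D + 1)) := by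
    rw [div_le_iff₀ hr]
    have e1 : B.d n ^ D ≤ rhN lev hz n 0 := (dpow_le B n d2).trans h2.1
    calc wA n 0 ≤ B.d n ^ (-D) := h3.2.trans (dpow_le B n (by linarith))
      _ ≤ B.d n ^ (-(2 * D + 1)) := dpow_le B n (by linarith)
      _ = B.d n ^ (-(3 * D + 1)) * B.d n ^ D := by rw [← dpow_add]; congr 1; ring
      _ ≤ _ := mul_le_mul_of_nonneg_left e1 (dp _).le
  have D1 : 0 ≤ 3 * D + 1 := by linarith
  have z1 : |wz k| ≤ 4 := (by decide : ∀ k, |wz k| ≤ 4) k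
  have z2 : |wc k| ≤ 4 := (by decide : ∀ k, |wc k| ≤ 4) k
  have z3 : |wn k| ≤ 4 := (by decide : ∀ k, |wn k| ≤ 4) k
  unfold prG unW
  rw [dpow_add, dpow_add]
  refine mul_le_mul (mul_le_mul (zpow_low D1 (lo d2 h2.1) (up d2 h2.2) _ z1)
    (zpow_low D1 c1 c2 _ z2) (dp _).le (zpow_pos hr _).le)
    (zpow_low D1 (lo d4 h4.1) (up d3 h3.1) _ z3) (dp _).le
    (mul_pos (zpow_pos hr _) (zpow_pos (div_pos hA hr) _)).le

/-- **output of the flags of the thin window** -/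
structure FlagsW (G : Geo σ' κ') (g s : ℝ) (θ : κ' → ℝ) (χ ν : ℝ) (B : Base)
    (I : ℕ → Finset (ℕ × ℝ)) (lev : ℕ → ℚ → ℕ) (A : ℕ → ℝ) (f : ℕ → ℚ → ℕ → ℤ → ℕ)
    (b : ℕ → ℚ → ℕ → σ') (vm : ℕ → ℚ → ℝ) (w : κ' → ℕ → ℚ → ℝ) (kp σ hz zs : ℕ → ℝ)
    (hκ : ∀ n, |kp n| ≤ 1) (L : ℕ → ℕ → Ln4) (F : ℕ → ℕ × ℝ → FW) (wA wB a : ℕ → ℚ → ℝ)
    (Mk : ℚ → ℕ → ℕ × ℤ → Fin 14 → ℝ) (E : ℚ → ℕ → ℕ × ℤ → ℝ) : Prop where
  wd : WData B I kp σ hz zs L F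
  marks : MarksW B I lev f kp σ F L (fun v => z0N lev hz zs v) (rhN lev hz) wA wB a Mk E
  sys : TSys (tdW kp hκ) G g s θ (grW 1 χ ν) B I lev A f b vm w (GW650.frW lev f Mk F)
    (prG (rhN lev hz) wA a) F (ps (prG (rhN lev hz) wA a) 0)
  alt : ∀ k, InvT (tdW kp hκ) B I k F (ps (prG (rhN lev hz) wA a) 0 k) ∨ 0 < grW 1 χ ν k
  low : ∃ C : ℝ, ∀ᶠ n in (U : Filter ℕ), ∀ k, B.d n ^ C ≤ ps (prG (rhN lev hz) wA a) 0 k n

/-- **the flags of the thin window** -/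
theorem flags_of {g s : ℝ} {θ : κ' → ℝ} (h : ThinG B I lev f kp σ hz zs L wA wB a Mk E)
    (hM : MkA B I G lev A (fun v => g * v) (fun v => s * v) (fun j v => θ j * (1 - v)) f b vm w)
    {χ ν C : ℝ} (hC : 0 ≤ C) (hA : Lin B wA (1 + χ)) (ha : Lin B a ν)
    (hT : TiltG B I (hW kp hz zs L lev f Mk) (prG (rhN lev hz) wA a) C) :
    ∃ J : ℕ → Finset (ℕ × ℝ), (∀ n, J n ⊆ I n) ∧ Dense B J I ∧
      MkA B J G lev A (fun v => g * v) (fun v => s * v) (fun j v => θ j * (1 - v)) f b vm w ∧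
      ThinG B J lev f kp σ hz zs L wA wB a Mk E ∧
      FlagsW G g s θ χ ν B J lev A f b vm w kp σ hz zs h.kp1 L
        (flW kp σ hz zs L lev f Mk χ ν) wA wB a Mk E := by
  have hρ : Lin B (rhN lev hz) 1 := lin_rho hM h.hz0
  have hpr := fun k => prLin_gr hρ hA ha k
  obtain ⟨J, hJ, hJd, hJM, hJT⟩ := exists_flagsE hM (fun k => (hpr k).1) hT
  have hJ' := h.mono hJ
  have hm := hJ'.marksW hJM hC hpr hJT
  have hw := hJ'.wdata hJM χ ν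
  obtain ⟨D, hD⟩ := hJ'.lowS
  have hinv : ∀ k, (∀ M : ℝ, ∀ᶠ n in (U : Filter ℕ), ∀ x ∈ J n, ∀ y ∈ J n, y.1 = x.1 →
      |coW (kp n) (flW kp σ hz zs L lev f Mk χ ν n x) (flW kp σ hz zs L lev f Mk χ ν n y) k| ≤
        B.d n ^ M) → InvT (tdW kp h.kp1) B J k (flW kp σ hz zs L lev f Mk χ ν)
          (ps (prG (rhN lev hz) wA a) 0 k) := by
    intro k hk M
    filter_upwards [hk (D + M), hD] with n h1 h2 x hx y hy hxy
    rw [tdW_d]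
    refine (h1 x hx y hy hxy).trans ?_
    rw [dpow_add]
    exact mul_le_mul_of_nonneg_right (h2 k) (dpow_pos B n M).le
  refine ⟨J, hJ, hJd, hJM, hJ', hw, hm, tsysW hJM hm hρ hA ha, fun k => ?_, ⟨D, hD⟩⟩
  refine Fin.addCases (m := 4) (n := 14) (fun i => ?_) (fun q => ?_) k
  · fin_cases i
    · right
      show 0 < grW 1 χ ν 0
      simp [grW, wz, wc, wn]
    · left; exact hinv 1 (hw.inv_line 1 (by decide))
    · left; exact hinv 2 (hw.inv_line 2 (by decide))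
    · left; exact hinv 3 (hw.inv_line 3 (by decide))
  · by_cases h9 : q = 9
    · subst h9; left; exact hinv 13 (hw.inv_line 13 (by decide))
    by_cases h12 : q = 12
    · subst h12; left; exact hinv 16 (hw.inv_line 16 (by decide))
    by_cases h13 : q = 13
    · subst h13; left; exact hinv 17 (hw.inv_line 17 (by decide))
    rcases le_or_gt (grW 1 χ ν (Fin.natAdd 4 q)) 0 with hq | hq
    · left; exact hinv _ (hJ'.inv hJM hq h9 h12 h13)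
    · exact Or.inr hq

end

end Crest.Agent.R136.Fw650
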