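import Crest.Agent.R136.GW5_650
import Crest.Agent.R136.FlW1_464
import Crest.Agent.R136.PrW3_464
import Crest.Agent.R136.GW8_650
import Crest.Agent.R136.Fw4_650

-- ▼ part R136/TwL1_327
section

/-!
# R136, U6 thin (helper327): closeness of two sheets on a box ⊢ closeness of the flag slots

`sidesW_unW` : graded sizes satisfy the walls; **`slots_of_close`** : two sheets which are close on the
box of the quadric around the line, at the middle height, have close slots in the frame of the line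
at every height of the cell.
-/

set_option autoImplicit false
set_option linter.unusedVariables false

namespace Crest.Agent.R136.Tn327

open Crest.Agent.R136.Sh605
open Crest.Agent.R136.NetW191
open Crest.Agent.R136.GeoW778
open Crest.Agent.R136.GW650 (sz3 sz3_pos fl_of_sup)
open Crest.Agent.R136.FlW464 (frW drW rel_fr)
open Crest.Agent.R136.EvW938 (SidesW tr_size)
open Crest.Agent.R136.PrW464 (unW unW_pos unW_list)

theorem sidesW_unW {uz uc un : ℝ} (hz : 0 < uz) (hc : 0 < uc) (hn : 0 < un) :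
    SidesW (unW uz uc un) where
  pos := fun k => (unW_pos hz hc hn k).le
  wall := fun k l hl => (unW_list hz hc hn k l hl).le

/-- closeness of two sheets in the box `|z| ≤ r`, `|A| ≤ α`, `|B| ≤ β` of the quadric in the frame `g` -/
def CloseW (κ : ℝ) (g : Fin 4 → ℝ) (r α β D : ℝ) (G G' : Fin 14 → ℝ) : Prop :=
  ∀ z a b : ℝ, |z| ≤ r → |a| ≤ α → |b| ≤ β →
    |evY G (fz g z) (fA g z a) (fB κ g z a b)
        (fz g z * fB κ g z a b + κ * fA g z a ^ 2) -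
      evY G' (fz g z) (fA g z a) (fB κ g z a b)
        (fz g z * fB κ g z a b + κ * fA g z a ^ 2)| ≤ D

theorem CloseW.nonneg {κ : ℝ} {g : Fin 4 → ℝ} {r α β D : ℝ} {G G' : Fin 14 → ℝ}
    (h : CloseW κ g r α β D G G') (hr : 0 ≤ r) (hα : 0 ≤ α) (hβ : 0 ≤ β) : 0 ≤ D :=
  (abs_nonneg _).trans (h 0 0 0 (by rwa [abs_zero]) (by rwa [abs_zero]) (by rwa [abs_zero]))

theorem unW_left (uz uc un : ℝ) (i : Fin 4) :
    unW uz uc un (Fin.castAdd 14 i) = ![uz, uc, uz * uc, uz * uc ^ 2] i := by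
  fin_cases i <;> simp [unW, PrW464.wz, PrW464.wc, PrW464.wn]

theorem unW_right {r α D : ℝ} (hr : 0 < r) (hα : 0 < α) (k : Fin 14) :
    unW r (α / r) D (Fin.natAdd 4 k) = D / sz3 r α (α ^ 2 / r) k := by
  have h1 := hr.ne'
  have h2 := hα.ne'
  have e1 : (α / r) ^ (-1 : ℤ) = r / α := by rw [zpow_neg_one, inv_div]
  fin_cases k
  · show r ^ (-4 : ℤ) * (α / r) ^ (-4 : ℤ) * D ^ (1 : ℤ) = D / (r * (α ^ 2 / r)) ^ 2
    rw [zpow_neg, zpow_neg, zpow_one]
    norm_cast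
    field_simp
  · show r ^ (-3 : ℤ) * (α / r) ^ (-4 : ℤ) * D ^ (1 : ℤ) = D / ((α ^ 2 / r) * (r * (α ^ 2 / r)))
    rw [zpow_neg, zpow_neg, zpow_one]
    norm_cast
    field_simp
  · show r ^ (-3 : ℤ) * (α / r) ^ (-3 : ℤ) * D ^ (1 : ℤ) = D / (α * (r * (α ^ 2 / r)))
    rw [zpow_neg, zpow_neg, zpow_one]
    norm_cast
    field_simp
  · show r ^ (-2 : ℤ) * (α / r) ^ (-4 : ℤ) * D ^ (1 : ℤ) = D / (α ^ 2 / r) ^ 2
    rw [zpow_neg, zpow_neg, zpow_one]
    norm_cast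
    field_simp
  · show r ^ (-3 : ℤ) * (α / r) ^ (-2 : ℤ) * D ^ (1 : ℤ) = D / (r * (r * (α ^ 2 / r)))
    rw [zpow_neg, zpow_neg, zpow_one]
    norm_cast
    field_simp
  · show r ^ (-2 : ℤ) * (α / r) ^ (-3 : ℤ) * D ^ (1 : ℤ) = D / (α * (α ^ 2 / r))
    rw [zpow_neg, zpow_neg, zpow_one]
    norm_cast
    field_simp
  · show r ^ (-2 : ℤ) * (α / r) ^ (-2 : ℤ) * D ^ (1 : ℤ) = D / (α ^ 2)
    rw [zpow_neg, zpow_neg, zpow_one]
    norm_cast
    field_simp
  · show r ^ (-2 : ℤ) * (α / r) ^ (-2 : ℤ) * D ^ (1 : ℤ) = D / (r * (α ^ 2 / r))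
    rw [zpow_neg, zpow_neg, zpow_one]
    norm_cast
    field_simp
  · show r ^ (-2 : ℤ) * (α / r) ^ (-1 : ℤ) * D ^ (1 : ℤ) = D / (r * α)
    rw [zpow_neg, e1, zpow_one]
    norm_cast
    field_simp
  · show r ^ (-2 : ℤ) * (α / r) ^ (0 : ℤ) * D ^ (1 : ℤ) = D / (r ^ 2)
    rw [zpow_neg, zpow_zero, zpow_one]
    norm_cast
    field_simp
  · show r ^ (-1 : ℤ) * (α / r) ^ (-2 : ℤ) * D ^ (1 : ℤ) = D / (α ^ 2 / r)
    rw [zpow_neg_one, zpow_neg, zpow_one]
    norm_cast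
    field_simp
  · show r ^ (-1 : ℤ) * (α / r) ^ (-1 : ℤ) * D ^ (1 : ℤ) = D / α
    rw [zpow_neg_one, e1, zpow_one]
    field_simp
  · show r ^ (-1 : ℤ) * (α / r) ^ (0 : ℤ) * D ^ (1 : ℤ) = D / r
    rw [zpow_neg_one, zpow_zero, zpow_one]
    field_simp
  · show r ^ (0 : ℤ) * (α / r) ^ (0 : ℤ) * D ^ (1 : ℤ) = D / 1
    rw [zpow_zero, zpow_zero, zpow_one]
    simp

/-- **closeness on the box at the middle height bounds the slots at every height of the cell** -/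
theorem slots_of_close' {κ : ℝ} (hκ : |κ| ≤ 1) (M : Ln4) {zm zh r α D K : ℝ} (hr : 0 < r)
    (hα : 0 < α) (hK : 6 ≤ K) {G G' : Fin 14 → ℝ}
    (h : CloseW κ (frW M zm) r α (α ^ 2 / r) D G G')
    (hz : |zh - zm| ≤ K * r) (hd : |drW κ M * (zh - zm)| ≤ K * (α ^ 2 / r)) (k : Fin 14) :
    |tr κ (frW M zh) (G - G') k| ≤ 470 * K ^ 7 * unW r (α / r) D (Fin.natAdd 4 k) := by
  have hβ : 0 < α ^ 2 / r := by positivity
  have hD := h.nonneg hr.le hα.le hβ.le
  have hc : 0 < α / r := by positivity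
  have e2 : r * (α / r) ^ 2 = α ^ 2 / r := by field_simp
  have b1 : ∀ q, |tr κ (frW M zm) (G - G') q| ≤ 6 * D / sz3 r α (α ^ 2 / r) q := fun q =>
    fl_of_sup hr hα hβ (by
      have : r * (α ^ 2 / r) = α ^ 2 := by field_simp
      rw [this]
      exact mul_le_of_le_one_left (sq_nonneg _) hκ) ⟨frW M zm, G⟩ G' h q
  have e3 : tr κ (frW M zh) (G - G') =
      tr κ (rel κ (frW M zm) (frW M zh)) (tr κ (frW M zm) (G - G')) := (tr_rel κ _ _ _)
  rw [e3, rel_fr]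
  rcases hD.eq_or_lt with h0 | h0
  · have w0 : tr κ (frW M zm) (G - G') = 0 := by
      funext q
      have := b1 q
      rw [← h0, mul_zero, zero_div] at this
      exact abs_nonpos_iff.1 this
    rw [w0, tr_zero, Pi.zero_apply, abs_zero, unW_right hr hα, ← h0, zero_div, mul_zero]
  · have hX := sidesW_unW hr hc h0
    refine tr_size (h := ![zh - zm, 0, 0, drW κ M * (zh - zm)])
      (w := tr κ (frW M zm) (G - G')) hκ hX (K := K) (by linarith)
      (fun i => by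
        rw [unW_left]
        have hK0 : 0 ≤ K := by linarith
        fin_cases i
        · exact hz
        · show |(0 : ℝ)| ≤ K * (α / r)
          rw [abs_zero]; positivity
        · show |(0 : ℝ)| ≤ K * (r * (α / r))
          rw [abs_zero]; positivity
        · show |drW κ M * (zh - zm)| ≤ K * (r * (α / r) ^ 2)
          rw [e2]; exact hd)
      (fun q => by
        refine (b1 q).trans ?_
        rw [unW_right hr hα, mul_div_assoc]
        exact mul_le_mul_of_nonneg_right hK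
          (div_nonneg hD (sz3_pos hr hα hβ q).le)) k


end Crest.Agent.R136.Tn327
end

-- ▼ part R136/TwL2_327
section

/-!
# R136, U6 thin (helper327): closeness of the level sheets, sequence form ⊢ 650's input TILT

* `lin_two` : two-sided power bounds from `GW650.Lin`;
* `ClW` : closeness of the sheets of two levels on the box of the finer level;
* **`tiltW`** : the flag slots of the difference.
-/

set_option autoImplicit false
set_option linter.unusedVariables false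

open Finset Filter Topology

namespace Crest.Agent.R136.Tn327

open Crest.Agent.R138.Ex926 (Base U)
open Crest.Agent.R138.Mk163 (zc zl rho alive Negl)
open Crest.Agent.R138.MkRef627 (lc kc)
open Crest.Agent.R138.Dp76 (dpow_pos dpow_add dpow_le dpow_le_one)
open Crest.Agent.R138.ArgM163 (ev_const ev_const_mul)
open Crest.Agent.R136.Sh605
open Crest.Agent.R136.NetW191
open Crest.Agent.R136.GeoW778
open Crest.Agent.R136.GW650 (Lin prG)
open Crest.Agent.R136.FlW464 (frW drW)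
open Crest.Agent.R136.PrW464 (unW unW_pos)

/-- two-sided power bounds from a linear exponent -/
theorem lin_two {B : Base} {x : ℕ → ℚ → ℝ} {β : ℝ} (h : Lin B x β) {u v : ℚ} (hu0 : 0 ≤ u)
    (hu1 : u ≤ 1) (hv0 : 0 ≤ v) (hv1 : v ≤ 1) {ε : ℝ} (hε : 0 < ε) :
    ∀ᶠ n in (U : Filter ℕ), 0 < x n u ∧ 0 < x n v ∧
      x n u * B.d n ^ (β * ((v : ℝ) - u) + ε) ≤ x n v ∧
      x n v ≤ x n u * B.d n ^ (β * ((v : ℝ) - u) - ε) := by
  have hl : Tendsto (fun n => (Real.log (x n u) - Real.log (x n v)) / B.L n) U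
      (𝓝 (β * ((v : ℝ) - u))) := by
    have e1 : β * ((v : ℝ) - u) = β * v - β * u := by ring
    rw [e1]
    refine ((h.2 v hv0 hv1).sub (h.2 u hu0 hu1)).congr' (Eventually.of_forall fun n => ?_)
    show _ = _
    rw [← sub_div]
    congr 1
    ring
  have h1 := hl.eventually (lt_mem_nhds (show β * ((v : ℝ) - u) - ε < β * ((v : ℝ) - u) by linarith))
  have h2 := hl.eventually (gt_mem_nhds (show β * ((v : ℝ) - u) < β * ((v : ℝ) - u) + ε by linarith))
  filter_upwards [h1, h2, h.1 u hu0 hu1, h.1 v hv0 hv1] with n a1 a2 pu pv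
  have L0 := B.L_pos n
  rw [lt_div_iff₀ L0] at a1
  rw [div_lt_iff₀ L0] at a2
  have eL : B.L n = - Real.log (B.d n) := rfl
  have key : ∀ s : ℝ, x n u * B.d n ^ s = Real.exp (Real.log (x n u) - s * B.L n) := by
    intro s
    rw [Real.exp_sub, Real.exp_log pu, Real.rpow_def_of_pos (B.pos n), div_eq_mul_inv,
      ← Real.exp_neg, eL]
    congr 2
    ring
  refine ⟨pu, pv, ?_, ?_⟩
  · rw [key]
    conv_rhs => rw [← Real.exp_log pv]
    refine Real.exp_le_exp.2 ?_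
    linarith
  · rw [key]
    conv_lhs => rw [← Real.exp_log pv]
    refine Real.exp_le_exp.2 ?_
    linarith

theorem wn_right (k : Fin 14) : PrW464.wn (Fin.natAdd 4 k) = 1 := by
  fin_cases k <;> rfl

theorem wz_right (k : Fin 14) : -4 ≤ PrW464.wz (Fin.natAdd 4 k) := by
  fin_cases k <;> decide

/-- flag sizes under shrinking -/
theorem unW_shrink {uz uc un s t : ℝ} (hz : 0 < uz) (hc : 0 < uc) (hn : 0 < un) (hs : 0 < s)
    (hs1 : s ≤ 1) (ht : 0 ≤ t) (k : Fin 14) :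
    unW (uz * s) uc (un * t) (Fin.natAdd 4 k) ≤
      s ^ (-4 : ℤ) * t * unW uz uc un (Fin.natAdd 4 k) := by
  unfold unW
  rw [wn_right, zpow_one, zpow_one, mul_zpow]
  have h1 : s ^ PrW464.wz (Fin.natAdd 4 k) ≤ s ^ (-4 : ℤ) :=
    zpow_le_zpow_right_of_le_one₀ hs hs1 (wz_right k)
  have h2 : 0 < uz ^ PrW464.wz (Fin.natAdd 4 k) := zpow_pos hz _
  have h3 : 0 < uc ^ PrW464.wc (Fin.natAdd 4 k) := zpow_pos hc _
  calc uz ^ PrW464.wz (Fin.natAdd 4 k) * s ^ PrW464.wz (Fin.natAdd 4 k) *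
        uc ^ PrW464.wc (Fin.natAdd 4 k) * (un * t) =
        s ^ PrW464.wz (Fin.natAdd 4 k) * (uz ^ PrW464.wz (Fin.natAdd 4 k) *
        uc ^ PrW464.wc (Fin.natAdd 4 k) * (un * t)) := by ring
    _ ≤ s ^ (-4 : ℤ) * (uz ^ PrW464.wz (Fin.natAdd 4 k) *
        uc ^ PrW464.wc (Fin.natAdd 4 k) * (un * t)) :=
        mul_le_mul_of_nonneg_right h1 (by positivity)
    _ = _ := by ring

/-- **closeness of the sheets of two levels** on the box `|z| ≤ ρ`, `|A| ≤ wA`, `|B| ≤ wA ^ 2 / ρ` of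
the finer level (shrunk by `d ^ ε`), in the frame of the line at the height `zm v n x` (middle of the
cell of the finer level) -/
def ClW (B : Base) (I : ℕ → Finset (ℕ × ℝ)) (lev : ℕ → ℚ → ℕ) (f : ℕ → ℚ → ℕ → ℤ → ℕ)
    (kp : ℕ → ℝ) (L : ℕ → ℕ → Ln4) (zm : ℚ → ℕ → ℕ × ℝ → ℝ) (ρ wA a : ℕ → ℚ → ℝ)
    (Mk : ℚ → ℕ → ℕ × ℤ → Fin 14 → ℝ) : Prop :=
  ∃ C : ℝ, ∀ u v : ℚ, 0 ≤ u → u < v → v ≤ 1 → ∀ ε : ℝ, 0 < ε → Negl B I fun n x =>
    ¬ CloseW (kp n) (frW (L n x.1) (zm v n x)) (ρ n v * B.d n ^ ε) (wA n v * B.d n ^ ε)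
      (wA n v ^ 2 / ρ n v * B.d n ^ ε)
      (max (a n u) (a n v) * B.d n ^ (-(C * ((v : ℝ) - u)) - ε))
      (Mk v n (kc (lev n v) (f n v) x)) (Mk u n (kc (lev n u) (f n u) x))

/-- **650's TILT from the closeness of the level sheets** -/
theorem tiltW {B : Base} {I : ℕ → Finset (ℕ × ℝ)} {lev : ℕ → ℚ → ℕ} {f : ℕ → ℚ → ℕ → ℤ → ℕ}
    {kp : ℕ → ℝ} {L : ℕ → ℕ → Ln4} {zh : ℕ → ℕ × ℝ → ℝ} {zm : ℚ → ℕ → ℕ × ℝ → ℝ}
    {ρ wA a : ℕ → ℚ → ℝ} {Mk : ℚ → ℕ → ℕ × ℤ → Fin 14 → ℝ} {χ ν : ℝ}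
    (hκ : ∀ n, |kp n| ≤ 1) (hρ : Lin B ρ 1) (hA : Lin B wA (1 + χ)) (ha : Lin B a ν)
    (hz : ∀ v : ℚ, 0 ≤ v → v ≤ 1 → ∀ᶠ n in (U : Filter ℕ), ∀ x ∈ I n,
      |zh n x - zm v n x| ≤ ρ n v)
    (hd : ∀ v : ℚ, 0 ≤ v → v ≤ 1 → ∀ᶠ n in (U : Filter ℕ), ∀ x ∈ I n,
      |drW (kp n) (L n x.1)| * ρ n v ≤ wA n v ^ 2 / ρ n v)
    (h : ClW B I lev f kp L zm ρ wA a Mk) :
    ∃ C : ℝ, ∀ k : Fin 14, k ≠ 9 → k ≠ 12 → k ≠ 13 → ∀ u v : ℚ, 0 ≤ u → u < v → v ≤ 1 →
      ∀ ε : ℝ, 0 < ε → Negl B I fun n x =>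
        max (prG ρ wA a (Fin.natAdd 4 k) n u) (prG ρ wA a (Fin.natAdd 4 k) n v) *
            B.d n ^ (-(C * ((v : ℝ) - u)) - ε) ≤
          |tr (kp n) (frW (L n x.1) (zh n x))
            (Mk v n (kc (lev n v) (f n v) x) - Mk u n (kc (lev n u) (f n u) x)) k| := by
  obtain ⟨C, hC⟩ := h
  refine ⟨C + |ν|, fun k _ _ _ u v u0 uv v1 ε hε => ?_⟩
  set η : ℝ := ε / 16 with hη
  have η0 : 0 < η := by positivity
  have u1 : u ≤ 1 := (uv.trans_le v1).le
  have v0 : 0 ≤ v := u0.trans uv.le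
  have uv' : (0 : ℝ) < (v : ℝ) - u := by
    have : (u : ℝ) < v := by exact_mod_cast uv
    linarith
  refine (hC u v u0 uv v1 η η0).mono ?_
  filter_upwards [lin_two ha u0 u1 v0 v1 η0, hρ.1 v v0 v1, hA.1 v v0 v1, hz v v0 v1, hd v v0 v1,
    ev_const_mul B (show (0 : ℝ) < 470 * 6 ^ 7 by norm_num) (η := η) η0] with n ha1 r0 A0 hz1 hd1
    hc x hx
  obtain ⟨au, av, a2, -⟩ := ha1
  intro hbad hcl
  have dp := dpow_pos B n
  have hη' := dp η
  set s := B.d n ^ η with hs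
  have s1 : s ≤ 1 := dpow_le_one B n η0.le
  have si : s * B.d n ^ (-η) = 1 := by rw [hs, ← dpow_add]; simp
  have sK : 1 ≤ B.d n ^ (-η) := by
    have := dpow_le B n (show -η ≤ (0 : ℝ) by linarith)
    rwa [Real.rpow_zero] at this
  have hr : 0 < ρ n v * s := mul_pos r0 hη'
  have hα : 0 < wA n v * s := mul_pos A0 hη'
  have eβ : (wA n v * s) ^ 2 / (ρ n v * s) = wA n v ^ 2 / ρ n v * s := by
    field_simp
  have ec : wA n v * s / (ρ n v * s) = wA n v / ρ n v := by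
    field_simp
  have hc0 : 0 < wA n v / ρ n v := div_pos A0 r0
  rw [← eβ] at hcl
  have main := slots_of_close' (hκ n) (L n x.1) (K := 6 * B.d n ^ (-η)) (zh := zh n x) hr hα
    (by linarith) hcl
    (by
      calc |zh n x - zm v n x| ≤ ρ n v := hz1 x hx
        _ ≤ 6 * ρ n v := by linarith
        _ = 6 * B.d n ^ (-η) * (ρ n v * s) := by linear_combination -(6 * ρ n v) * si)
    (by
      rw [eβ, abs_mul]
      have p0 : 0 < wA n v ^ 2 / ρ n v := by positivity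
      calc |drW (kp n) (L n x.1)| * |zh n x - zm v n x| ≤ |drW (kp n) (L n x.1)| * ρ n v :=
            mul_le_mul_of_nonneg_left (hz1 x hx) (abs_nonneg _)
        _ ≤ wA n v ^ 2 / ρ n v := hd1 x hx
        _ ≤ 6 * (wA n v ^ 2 / ρ n v) := by linarith
        _ = 6 * B.d n ^ (-η) * (wA n v ^ 2 / ρ n v * s) := by
            linear_combination -(6 * (wA n v ^ 2 / ρ n v)) * si) k
  rw [ec] at main
  -- the closeness parameter in terms of the thickness of the finer level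
  have hau : a n u ≤ a n v * B.d n ^ (-(|ν| * ((v : ℝ) - u)) - η) := by
    have e1 : B.d n ^ (ν * ((v : ℝ) - u) + η) * B.d n ^ (-(ν * ((v : ℝ) - u)) - η) = 1 := by
      rw [← dpow_add, show ν * ((v : ℝ) - u) + η + (-(ν * ((v : ℝ) - u)) - η) = 0 by ring,
        Real.rpow_zero]
    calc a n u = a n u * B.d n ^ (ν * ((v : ℝ) - u) + η) *
          B.d n ^ (-(ν * ((v : ℝ) - u)) - η) := by rw [mul_assoc, e1, mul_one]
      _ ≤ a n v * B.d n ^ (-(ν * ((v : ℝ) - u)) - η) :=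
          mul_le_mul_of_nonneg_right a2 (dp _).le
      _ ≤ _ := mul_le_mul_of_nonneg_left (dpow_le B n (by
          have := mul_le_mul_of_nonneg_right (le_abs_self ν) uv'.le
          linarith)) av.le
  have hav : a n v ≤ a n v * B.d n ^ (-(|ν| * ((v : ℝ) - u)) - η) := by
    refine le_mul_of_one_le_right av.le ?_
    have := dpow_le B n (show -(|ν| * ((v : ℝ) - u)) - η ≤ (0 : ℝ) by
      have := mul_nonneg (abs_nonneg ν) uv'.le
      linarith)
    rwa [Real.rpow_zero] at this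
  have hmax := max_le hau hav
  have hD : max (a n u) (a n v) * B.d n ^ (-(C * ((v : ℝ) - u)) - η) ≤
      a n v * B.d n ^ (-((C + |ν|) * ((v : ℝ) - u)) - 2 * η) := by
    calc _ ≤ a n v * B.d n ^ (-(|ν| * ((v : ℝ) - u)) - η) *
          B.d n ^ (-(C * ((v : ℝ) - u)) - η) := mul_le_mul_of_nonneg_right hmax (dp _).le
      _ = _ := by
          rw [mul_assoc, ← dpow_add]
          congr 2
          ring
  set P := unW (ρ n v) (wA n v / ρ n v) (a n v) (Fin.natAdd 4 k) with hP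
  have P0 : 0 < P := unW_pos r0 hc0 av _
  set t := B.d n ^ (-((C + |ν|) * ((v : ℝ) - u)) - 2 * η) with ht
  have t0 : 0 < t := dp _
  have D0 : 0 < max (a n u) (a n v) * B.d n ^ (-(C * ((v : ℝ) - u)) - η) :=
    mul_pos (lt_max_of_lt_left au) (dp _)
  have hP2 : unW (ρ n v * s) (wA n v / ρ n v)
      (max (a n u) (a n v) * B.d n ^ (-(C * ((v : ℝ) - u)) - η)) (Fin.natAdd 4 k) ≤
      s ^ (-4 : ℤ) * t * P := by
    refine le_trans ?_ (unW_shrink r0 hc0 av hη' s1 t0.le k)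
    unfold unW
    rw [wn_right, zpow_one, zpow_one]
    exact mul_le_mul_of_nonneg_left hD (mul_pos (zpow_pos hr _) (zpow_pos hc0 _)).le
  have e4 : s ^ (-4 : ℤ) = B.d n ^ (-(4 * η)) := by
    rw [hs, ← Real.rpow_intCast, ← Real.rpow_mul (B.pos n).le]
    congr 1
    push_cast
    ring
  have e7 : (B.d n ^ (-η)) ^ 7 = B.d n ^ (-(7 * η)) := by
    rw [← Real.rpow_natCast, ← Real.rpow_mul (B.pos n).le]
    congr 1
    push_cast
    ring
  have hb1 : P * B.d n ^ (-((C + |ν|) * ((v : ℝ) - u)) - ε) ≤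
      470 * (6 * B.d n ^ (-η)) ^ 7 * (s ^ (-4 : ℤ) * t * P) := by
    calc P * B.d n ^ (-((C + |ν|) * ((v : ℝ) - u)) - ε) ≤
          max (prG ρ wA a (Fin.natAdd 4 k) n u) (prG ρ wA a (Fin.natAdd 4 k) n v) *
            B.d n ^ (-((C + |ν|) * ((v : ℝ) - u)) - ε) :=
          mul_le_mul_of_nonneg_right (le_max_right _ _) (dp _).le
      _ ≤ _ := hbad
      _ ≤ _ := main
      _ ≤ _ := mul_le_mul_of_nonneg_left hP2 (by have := dp (-η); positivity)
  have e5 : 470 * (6 * B.d n ^ (-η)) ^ 7 * (s ^ (-4 : ℤ) * t * P) =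
      (470 * 6 ^ 7 * s) * B.d n ^ (2 * η) *
        (P * B.d n ^ (-((C + |ν|) * ((v : ℝ) - u)) - ε)) := by
    have e6 : B.d n ^ (-(7 * η)) * (B.d n ^ (-(4 * η)) * t) =
        s * B.d n ^ (2 * η) * B.d n ^ (-((C + |ν|) * ((v : ℝ) - u)) - ε) := by
      rw [hs, ht, ← dpow_add, ← dpow_add, ← dpow_add, ← dpow_add]
      congr 1
      rw [hη]
      ring
    rw [mul_pow, e7, e4]
    linear_combination (470 * 6 ^ 7 * P) * e6
  rw [e5] at hb1
  set X := P * B.d n ^ (-((C + |ν|) * ((v : ℝ) - u)) - ε) with hX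
  have X0 : 0 < X := mul_pos P0 (dp _)
  have l2 : B.d n ^ (2 * η) < 1 := Real.rpow_lt_one (B.pos n).le (B.lt n) (by positivity)
  have l3 : 470 * 6 ^ 7 * s * B.d n ^ (2 * η) < 1 :=
    (mul_le_of_le_one_left (dp _).le hc).trans_lt l2
  have l4 : 470 * 6 ^ 7 * s * B.d n ^ (2 * η) * X < 1 * X := mul_lt_mul_of_pos_right l3 X0
  linarith

end Crest.Agent.R136.Tn327
end

-- ▼ part R136/TwL3_327

/-!
# R136, U6 thin (helper327): `TiltG` (hypothesis of 650's `flags_of`) from the closeness of the level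
sheets

* `dr_small` : the drift of the lines is infinitely small; `zmN` : middle of the cell;
* **`tiltG_of_clW`**.
-/

set_option autoImplicit false
set_option linter.unusedVariables false

open Finset Filter Topology

namespace Crest.Agent.R136.Tn327

open Crest.Agent.R138.Ex926 (Base U)
open Crest.Agent.R138.Mk163 (zc zl rho alive Negl)
open Crest.Agent.R138.MkRef627 (lc kc)
open Crest.Agent.R138.Dp76 (dpow_pos dpow_add dpow_le dpow_le_one)
open Crest.Agent.R138.ArgM163 (ev_const ev_const_mul)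
open Crest.Agent.R136.Sh605
open Crest.Agent.R136.NetW191
open Crest.Agent.R136.GeoW778
open Crest.Agent.R136.MkA627
open Crest.Agent.R136.GW650 (Lin prG lin_rho prLin_gr)
open Crest.Agent.R136.ArgA163 (rho_pos)
open Crest.Agent.R136.FlW464 (drW)
open Crest.Agent.R136.Fw650
open Crest.Agent.R136.PrW464 (WData)

/-- **the drift of the lines is infinitely small** -/
theorem dr_small {B : Base} {I : ℕ → Finset (ℕ × ℝ)} {kp sg hz zs : ℕ → ℝ} {L : ℕ → ℕ → Ln4}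
    {F : ℕ → ℕ × ℝ → FW} (h : WData B I kp sg hz zs L F) (M : ℝ) :
    ∀ᶠ n in (U : Filter ℕ), ∀ x ∈ I n, |drW (kp n) (L n x.1)| ≤ B.d n ^ M := by
  obtain ⟨C, C0, hC⟩ := h.bd
  filter_upwards [hC, h.tru, h.small 10 (-(3 * C)) M (by norm_num)] with n h1 h2 h3 x hx
  obtain ⟨bG, bV, -⟩ := h1 x hx
  set Γ := B.d n ^ (-C) with hΓ
  have g1 : 1 ≤ Γ := by
    have := dpow_le B n (show -C ≤ (0 : ℝ) by linarith)
    rwa [Real.rpow_zero] at this
  have hσ := h.sg0 n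
  have hb := (h2 x hx).drift_bound hσ.le (Γ := Γ) (V := Γ) bG bV
  have p2 : Γ ≤ Γ ^ 2 := by nlinarith
  have p3 : Γ ^ 2 ≤ Γ ^ 3 := pow_le_pow_right₀ g1 (by norm_num)
  have e3 : Γ ^ 3 = B.d n ^ (-(3 * C)) := by
    rw [hΓ, ← Real.rpow_natCast, ← Real.rpow_mul (B.pos n).le]; congr 1; push_cast; ring
  refine le_trans (le_of_eq ?_) (hb.trans (le_trans (mul_le_mul_of_nonneg_left ?_ hσ.le) h3))
  · unfold drW dB
    rw [(h2 x hx).c]
  · rw [← e3]
    nlinarith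

/-- middle of the cell of level `v` of the incidence, in normal heights -/
noncomputable def zmN (lev : ℕ → ℚ → ℕ) (hz zs : ℕ → ℝ) (v : ℚ) (n : ℕ) (x : ℕ × ℝ) : ℝ :=
  z0N lev hz zs v n (zc (lev n v) x.2) + rhN lev hz n v / 2

theorem abs_zh_zm {lev : ℕ → ℚ → ℕ} {hz zs : ℕ → ℝ} {n : ℕ} (h : 0 < hz n) (v : ℚ)
    (x : ℕ × ℝ) : |zhN hz zs n x - zmN lev hz zs v n x| ≤ rhN lev hz n v := by
  obtain ⟨h1, h2⟩ := cellN (lev := lev) (zs := zs) h v x
  have h3 : 0 < rhN lev hz n v := mul_pos h (rho_pos _)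
  unfold zmN
  rw [abs_le]
  constructor <;> linarith

section

variable {σ' κ' : Type*} {G : Geo σ' κ'} {B : Base} {I : ℕ → Finset (ℕ × ℝ)} {lev : ℕ → ℚ → ℕ}
    {A : ℕ → ℝ} {f : ℕ → ℚ → ℕ → ℤ → ℕ} {b : ℕ → ℚ → ℕ → σ'} {vm : ℕ → ℚ → ℝ}
    {w : κ' → ℕ → ℚ → ℝ} {kp σ hz zs : ℕ → ℝ} {L : ℕ → ℕ → Ln4} {wA wB a : ℕ → ℚ → ℝ}
    {Mk : ℚ → ℕ → ℕ × ℤ → Fin 14 → ℝ} {E : ℚ → ℕ → ℕ × ℤ → ℝ}

/-- **`TiltG` from the closeness of the level sheets** -/
theorem tiltG_of_clW {g s : ℝ} {θ : κ' → ℝ} (h : ThinG B I lev f kp σ hz zs L wA wB a Mk E)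
    (hM : MkA B I G lev A (fun v => g * v) (fun v => s * v) (fun j v => θ j * (1 - v)) f b vm w)
    {χ ν : ℝ} (hA : Lin B wA (1 + χ)) (ha : Lin B a ν)
    (hcl : ClW B I lev f kp L (zmN lev hz zs) (rhN lev hz) wA a Mk) :
    ∃ C : ℝ, 0 ≤ C ∧ TiltG B I (hW kp hz zs L lev f Mk) (prG (rhN lev hz) wA a) C := by
  have hρ : Lin B (rhN lev hz) 1 := lin_rho hM h.hz0
  have hw := h.wdata hM χ ν
  obtain ⟨C, hC⟩ := tiltW (zh := zhN hz zs) (zm := zmN lev hz zs) h.kp1 hρ hA ha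
    (fun v _ _ => Eventually.of_forall fun n x _ => abs_zh_zm (h.hz0 n) v x)
    (fun v v0 v1 => by
      obtain ⟨C1, h1⟩ := h.rb
      have hl := lin_two hρ le_rfl zero_le_one v0 v1 one_pos
      obtain ⟨C2, h2⟩ := h.low v v0 v1
      have v0' : (0 : ℝ) ≤ v := by exact_mod_cast v0
      filter_upwards [dr_small hw (C1 + C2 + 2), h1, hl, h2, h.bal v v0 v1 1 one_pos]
        with n a1 a2 a3 a4 a5 x hx
      have dp := dpow_pos B n
      have e1 : rhN lev hz n v ≤ B.d n ^ (-C1 - 1) := by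
        calc rhN lev hz n v ≤ rhN lev hz n 0 * B.d n ^ (1 * ((v : ℝ) - (0 : ℚ)) - 1) := a3.2.2.2
          _ ≤ B.d n ^ (-C1) * B.d n ^ (-1 : ℝ) :=
            mul_le_mul a2.2 (dpow_le B n (by push_cast; linarith)) (dp _).le (dp _).le
          _ = _ := by rw [← dpow_add]; congr 1
      have e2 : B.d n ^ (C2 + 1) ≤ wA n v ^ 2 / rhN lev hz n v := by
        have e3 : B.d n ^ (-1 : ℝ) * B.d n ^ (1 : ℝ) = 1 := by
          rw [← dpow_add, neg_add_cancel, Real.rpow_zero]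
        calc B.d n ^ (C2 + 1) = B.d n ^ C2 * B.d n ^ (1 : ℝ) := dpow_add B n _ _
          _ ≤ wB n v * B.d n ^ (1 : ℝ) := mul_le_mul_of_nonneg_right a4.2 (dp _).le
          _ ≤ wA n v ^ 2 / rhN lev hz n v * B.d n ^ (-1 : ℝ) * B.d n ^ (1 : ℝ) :=
            mul_le_mul_of_nonneg_right a5.2 (dp _).le
          _ = _ := by rw [mul_assoc, e3, mul_one]
      refine le_trans ?_ e2
      calc |drW (kp n) (L n x.1)| * rhN lev hz n v ≤ B.d n ^ (C1 + C2 + 2) * B.d n ^ (-C1 - 1) :=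
            mul_le_mul (a1 x hx) e1 a3.2.1.le (dp _).le
        _ = B.d n ^ (C2 + 1) := by rw [← dpow_add]; congr 1; ring) hcl
  refine ⟨max C 0, le_max_right _ _, fun k h9 h12 h13 u v u0 uv v1 ε hε => ?_⟩
  have hp := prLin_gr hρ hA ha (Fin.natAdd 4 k)
  refine (hC k h9 h12 h13 u v u0 uv v1 ε hε).mono ?_
  filter_upwards [hp.1 v (u0.trans uv.le) v1] with n hn x hx hb
  have uv' : (0 : ℝ) ≤ (v : ℝ) - u := by
    have : (u : ℝ) < v := by exact_mod_cast uv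
    linarith
  have e1 : |hW kp hz zs L lev f Mk k n v x - hW kp hz zs L lev f Mk k n u x| =
      |tr (kp n) (FlW464.frW (L n x.1) (zhN hz zs n x))
        (Mk v n (kc (lev n v) (f n v) x) - Mk u n (kc (lev n u) (f n u) x)) k| := by
    rw [tr_sub, Pi.sub_apply]
    rfl
  rw [e1] at hb
  refine le_trans (mul_le_mul_of_nonneg_left (dpow_le B n ?_) ?_) hb
  · have := mul_le_mul_of_nonneg_right (le_max_left C 0) uv'
    linarith
  · exact hn.le.trans (le_max_right _ _)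

end

end Crest.Agent.R136.Tn327
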