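import Crest.Agent.R136.GeoWD_778
import Crest.Agent.R136.ThrH_464
import Crest.Agent.R136.GR1_650
import Crest.Agent.R136.NetW3_191
import Crest.Agent.R136.PqG_464
import Mathlib

-- ▼ part R136/GW1_650
section

/-!
# R136, GEO-R in the W-chart (helper650), part 1: finite geometry

* `q_dist` : the value of the sheet of `i` along the true line of `j` = null-line value
  `N + P (z - z_j) + R (z - z_j)²` (slots `17, 16, 13`) up to `σ² EW`;
* `npr_of_mark` : a true line inside `|q| ≤ σ a` over a window of length `ρ` has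
  `N ≤ 12 a'`, `P ≤ 24 a'/ρ`, `R ≤ 12 a'/ρ²`, `a' = a + σ EW`;
* `rel_of_lat` : relative frames of two true lines which are laterally close over the window;
* `same` : the pseudo-incidences of one mark seen from its incidences.
-/

set_option autoImplicit false
set_option linter.unusedVariables false

namespace Crest.Agent.R136.GW650

open Crest.Agent.R136.Sh605
open Crest.Agent.R136.NetW191
open Crest.Agent.R136.GeoW778
open Crest.Agent.R136.ThrH464 (quad_win)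

/-- **distance between the sheet value along the true line and along the null line** -/
theorem q_dist {κ σ : ℝ} {i j : FW} {t' : Ln4} (ht' : TrueW κ σ j t')
    (hσ : 0 ≤ σ) {Γ V R X ρ' : ℝ} (hGi : ∀ k, |i.G k| ≤ Γ) (hGj : ∀ k, |j.G k| ≤ Γ)
    (hV : ∀ k, |t'.v k| ≤ V) {z : ℝ} (hz : |z| ≤ R) (hX : ∀ k, |t'.pos z k| ≤ X)
    (hzj : |z - j.g 0| ≤ ρ') (hsm : σ * DW Γ R X V ρ' ≤ 1) :
    |qS κ σ i z (t'.pos z) -
        σ * (coW κ i j 17 + (z - j.g 0) * coW κ i j 16 + (z - j.g 0) ^ 2 * coW κ i j 13)| ≤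
      σ * (σ * EW Γ R X V ρ') := by
  have hR0 : 0 ≤ R := (abs_nonneg _).trans hz
  have hX0 : 0 ≤ X := (abs_nonneg _).trans (hX 0)
  have hV0 : 0 ≤ V := (abs_nonneg _).trans (hV 0)
  have hΓ0 : 0 ≤ Γ := (abs_nonneg _).trans (hGi 0)
  have hρ0 : 0 ≤ ρ' := (abs_nonneg _).trans hzj
  have hh := ht'.ht_eq z
  set x := t'.pos z with hx
  set B0 := j.g 3 - κ * j.g 1 ^ 2 * (z - j.g 0) with hB0
  set Y0 := z * B0 + κ * (j.g 2 + j.g 1 * (z - j.g 0)) ^ 2 with hY0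
  have hA : x 1 = j.g 2 + j.g 1 * (z - j.g 0) := ht'.posA z
  have hB : x 2 - B0 = dB κ j t' * (z - j.g 0) := by
    rw [hx, ht'.posB z, hB0]; ring
  have hY : x 0 - Y0 = ht κ z (x 1) (x 2) (x 0) + z * (x 2 - B0) := by
    simp only [ht, hY0, ← hA]; ring
  have bB : |x 2 - B0| ≤ σ * (Γ * (1 + 3 * V + 6 * V ^ 2) * ρ') := by
    rw [hB]
    refine (m2 (ht'.drift_bound hσ hGj hV) hzj).trans (le_of_eq ?_)
    ring
  have bh : |ht κ z (x 1) (x 2) (x 0)| ≤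
      σ * (Γ * (1 + R + 2 * X + R ^ 2 + 3 * (R * X) + 6 * X ^ 2)) := by
    rw [hh, abs_mul, abs_of_nonneg hσ, ← evW_eq]
    exact mul_le_mul_of_nonneg_left (evW_bound hGj hz hX) hσ
  have bY : |x 0 - Y0| ≤ σ * (Γ * (1 + R + 2 * X + R ^ 2 + 3 * (R * X) + 6 * X ^ 2)) +
      R * (σ * (Γ * (1 + 3 * V + 6 * V ^ 2) * ρ')) := by
    rw [hY]
    exact a2 bh (m2 hz bB)
  have bsum : |x 0 - Y0| + |x 2 - B0| ≤ σ * DW Γ R X V ρ' := by
    refine (add_le_add bY bB).trans (le_of_eq ?_)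
    simp only [DW]; ring
  have n0 := abs_nonneg (x 0 - Y0)
  have n2 := abs_nonneg (x 2 - B0)
  have hx0 : ∀ k, |(![Y0, x 1, B0] : V3) k| ≤ X + 1 := by
    intro k
    fin_cases k
    · show |Y0| ≤ X + 1
      have := abs_sub (x 0) (x 0 - Y0)
      rw [sub_sub_cancel] at this
      linarith [hX 0]
    · show |x 1| ≤ X + 1
      linarith [hX 1]
    · show |B0| ≤ X + 1
      have := abs_sub (x 2) (x 2 - B0)
      rw [sub_sub_cancel] at this
      linarith [hX 2]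
  have hGd : ∀ k, |(j.G - i.G) k| ≤ 2 * Γ := by
    intro k
    rw [Pi.sub_apply]
    linarith [s2 (hGj k) (hGi k)]
  have hl := evY_lip (x := x) (x' := ![Y0, x 1, B0]) hGd hz
    (fun k => (hX k).trans (by linarith)) hx0
  simp only [Matrix.cons_val, sub_self, abs_zero, add_zero] at hl
  have hn := q_null κ i j z
  rw [← hB0, ← hY0, ← hA] at hn
  have e : qS κ σ i z x = σ * (evY (j.G - i.G) z (x 1) B0 Y0 +
      (evY (j.G - i.G) z (x 1) (x 2) (x 0) - evY (j.G - i.G) z (x 1) B0 Y0)) := by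
    simp only [qS, hh, evY_sub]
    ring
  have e2 : qS κ σ i z x -
      σ * (coW κ i j 17 + (z - j.g 0) * coW κ i j 16 + (z - j.g 0) ^ 2 * coW κ i j 13) =
      σ * (evY (j.G - i.G) z (x 1) (x 2) (x 0) - evY (j.G - i.G) z (x 1) B0 Y0) := by
    rw [e, hn]; ring
  rw [e2, abs_mul, abs_of_nonneg hσ]
  refine mul_le_mul_of_nonneg_left (hl.trans ?_) hσ
  have hc : 0 ≤ 2 * Γ * (1 + R + 4 * (X + 1)) := by positivity
  calc 2 * Γ * (1 + R + 4 * (X + 1)) * (|x 0 - Y0| + |x 2 - B0|)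
      ≤ 2 * Γ * (1 + R + 4 * (X + 1)) * (σ * DW Γ R X V ρ') :=
        mul_le_mul_of_nonneg_left bsum hc
    _ = σ * EW Γ R X V ρ' := by simp only [EW]; ring

/-- **slots `N, P, R` of a line inside a sheet** `|q_i| ≤ σ a` over a window `[z0, z0 + ρ]` which
contains the height of the incidence. -/
theorem npr_of_mark {κ σ : ℝ} {i j : FW} {t' : Ln4} (ht' : TrueW κ σ j t')
    (hσ : 0 < σ) {Γ V R X : ℝ} (hGi : ∀ k, |i.G k| ≤ Γ) (hGj : ∀ k, |j.G k| ≤ Γ)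
    (hV : ∀ k, |t'.v k| ≤ V) {z0 ρ a : ℝ} (hρ : 0 < ρ)
    (hj0 : z0 ≤ j.g 0) (hj1 : j.g 0 ≤ z0 + ρ)
    (hz : ∀ z, z0 ≤ z → z ≤ z0 + ρ → |z| ≤ R)
    (hX : ∀ z, z0 ≤ z → z ≤ z0 + ρ → ∀ k, |t'.pos z k| ≤ X)
    (hsm : σ * DW Γ R X V ρ ≤ 1)
    (hq : ∀ z, z0 ≤ z → z ≤ z0 + ρ → |qS κ σ i z (t'.pos z)| ≤ σ * a) :
    |coW κ i j 17| ≤ 12 * (a + σ * EW Γ R X V ρ) ∧
    |coW κ i j 16| ≤ 24 * (a + σ * EW Γ R X V ρ) / ρ ∧
    |coW κ i j 13| ≤ 12 * (a + σ * EW Γ R X V ρ) / ρ ^ 2 := by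
  have hw : ∀ z, z0 ≤ z → z ≤ z0 + ρ → |z - j.g 0| ≤ 1 * ρ := by
    intro z h0 h1
    rw [one_mul, abs_le]
    constructor <;> linarith
  have key : ∀ z, z0 ≤ z → z ≤ z0 + ρ →
      |coW κ i j 17 + coW κ i j 16 * (z - j.g 0) + coW κ i j 13 * (z - j.g 0) ^ 2| ≤
        a + σ * EW Γ R X V ρ := by
    intro z h0 h1
    have h2 := q_dist ht' hσ.le hGi hGj hV (hz z h0 h1) (hX z h0 h1)
      ((hw z h0 h1).trans (one_mul ρ).le) hsm
    have h3 := hq z h0 h1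
    set T := coW κ i j 17 + (z - j.g 0) * coW κ i j 16 + (z - j.g 0) ^ 2 * coW κ i j 13 with hT
    have e1 : coW κ i j 17 + coW κ i j 16 * (z - j.g 0) + coW κ i j 13 * (z - j.g 0) ^ 2 = T := by
      rw [hT]; ring
    rw [e1]
    have h4 : |σ * T| ≤ σ * a + σ * (σ * EW Γ R X V ρ) := by
      have e2 : σ * T = qS κ σ i z (t'.pos z) - (qS κ σ i z (t'.pos z) - σ * T) := by ring
      rw [e2]
      exact s2 h3 h2
    rw [abs_mul, abs_of_pos hσ] at h4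
    have h5 : σ * |T| ≤ σ * (a + σ * EW Γ R X V ρ) := by linarith
    exact le_of_mul_le_mul_left h5 hσ
  obtain ⟨b0, b1, b2⟩ := quad_win hρ hw key
  refine ⟨b0.trans (le_of_eq (by ring)), b1.trans (le_of_eq (by ring)), b2⟩

/-- affine functions on a window -/
theorem slope_win {p v ρ A z0 : ℝ} (hρ : 0 < ρ)
    (h : ∀ z, z0 ≤ z → z ≤ z0 + ρ → |p + z * v| ≤ A) : |v| ≤ 2 * A / ρ := by
  have h0 := h z0 le_rfl (by linarith)
  have h1 := h (z0 + ρ) (by linarith) le_rfl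
  have e1 : v * ρ = (p + (z0 + ρ) * v) - (p + z0 * v) := by ring
  have h2 : |v * ρ| ≤ A + A := by
    rw [e1]
    exact (abs_sub _ _).trans (add_le_add h1 h0)
  rw [abs_mul, abs_of_pos hρ] at h2
  rw [le_div_iff₀ hρ]
  linarith

/-- **relative frame of two true lines which are laterally close over a window**: `e` = slope of
the wide axis in the `(A, B)`-plane, `-2 κ c_i` up to `εe`. -/
theorem rel_of_lat {κ σ : ℝ} {i j : FW} {t t' : Ln4} (ht : TrueW κ σ i t) (ht' : TrueW κ σ j t')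
    (hσ : 0 ≤ σ) {Γ V : ℝ} (hGi : ∀ k, |i.G k| ≤ Γ) (hV : ∀ k, |t.v k| ≤ V)
    {z0 ρ Ra Rb e εe : ℝ} (hρ : 0 < ρ)
    (hi0 : z0 ≤ i.g 0) (hi1 : i.g 0 ≤ z0 + ρ) (hj0 : z0 ≤ j.g 0) (hj1 : j.g 0 ≤ z0 + ρ)
    (hA : ∀ z, z0 ≤ z → z ≤ z0 + ρ → |t'.pos z 1 - t.pos z 1| ≤ Ra)
    (hB : ∀ z, z0 ≤ z → z ≤ z0 + ρ →
      |(t'.pos z 2 - t.pos z 2) - e * (t'.pos z 1 - t.pos z 1)| ≤ Rb)
    (he : |e + 2 * κ * i.g 1| ≤ εe) :
    |coW κ i j 0| ≤ ρ ∧ |coW κ i j 1| ≤ 2 * Ra / ρ ∧ |coW κ i j 2| ≤ Ra ∧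
      |coW κ i j 3| ≤ Rb + εe * Ra + σ * (Γ * (1 + 3 * V + 6 * V ^ 2)) * ρ := by
  have hz : |j.g 0 - i.g 0| ≤ ρ := by rw [abs_le]; constructor <;> linarith
  have e0 : coW κ i j 0 = j.g 0 - i.g 0 := by
    have := coW_left κ i j 0
    simpa [rel] using this
  refine ⟨?_, ?_, ?_, ?_⟩
  · rw [e0]; exact hz
  · refine slope_win (p := coW κ i j 2 - j.g 0 * coW κ i j 1) (z0 := z0) hρ fun z h0 h1 => ?_
    have h2 := hA z h0 h1
    rw [ra_eq ht ht'] at h2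
    refine le_trans (le_of_eq ?_) h2
    congr 1; ring
  · have h2 := hA (j.g 0) hj0 hj1
    rw [ra_eq ht ht', sub_self, zero_mul, add_zero] at h2
    exact h2
  · have h2 := rb_eq ht ht' (j.g 0)
    have h3 := hB (j.g 0) hj0 hj1
    have h4 := hA (j.g 0) hj0 hj1
    set DA := t'.pos (j.g 0) 1 - t.pos (j.g 0) 1 with hDA
    set DB := t'.pos (j.g 0) 2 - t.pos (j.g 0) 2 with hDB
    have h5 : coW κ i j 3 = (DB - e * DA) + (e + 2 * κ * i.g 1) * DA +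
        dB κ i t * (j.g 0 - i.g 0) := by
      rw [sub_self] at h2
      linear_combination -h2
    rw [h5]
    exact a2 (a2 h3 (m2 he h4)) (m2 (ht.drift_bound hσ hGi hV) hz)

/-- the pseudo-incidence of a mark with sheet `M`, in the frame of the incidence `i` -/
def mkS (M : Fin 14 → ℝ) (i : FW) : FW := ⟨i.g, M⟩

theorem rel_self (κ : ℝ) (g : Fin 4 → ℝ) : rel κ g g = 0 := by
  funext k
  fin_cases k <;> simp [rel]

theorem tr_zero (κ : ℝ) (g : Fin 4 → ℝ) : tr κ g 0 = 0 := by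
  funext k
  fin_cases k <;> simp [tr]

/-- slots `0..3` between a mark and its incidence vanish -/
theorem coW_mkS_left (κ : ℝ) (M : Fin 14 → ℝ) (i : FW) (k : Fin 4) :
    coW κ (mkS M i) i (Fin.castAdd 14 k) = 0 := by
  have := coW_left κ (mkS M i) i k
  rw [this]
  show rel κ i.g i.g k = 0
  rw [rel_self]; rfl

/-- flag slots between a mark and its incidence -/
theorem coW_mkS_right (κ : ℝ) (M : Fin 14 → ℝ) (i : FW) (k : Fin 14) :
    coW κ (mkS M i) i (Fin.natAdd 4 k) = tr κ i.g (i.G - M) k := coW_right κ (mkS M i) i k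

/-- flag slots between two pseudo-incidences of one mark vanish -/
theorem coW_mkS_mkS_right (κ : ℝ) (M : Fin 14 → ℝ) (i j : FW) (k : Fin 14) :
    coW κ (mkS M i) (mkS M j) (Fin.natAdd 4 k) = 0 := by
  have := coW_right κ (mkS M i) (mkS M j) k
  rw [this]
  show tr κ j.g (M - M) k = 0
  rw [sub_self, tr_zero]; rfl

/-- the frame slots between two pseudo-incidences are those of the incidences -/
theorem coW_mkS_mkS_left (κ : ℝ) (M : Fin 14 → ℝ) (i j : FW) (k : Fin 4) :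
    coW κ (mkS M i) (mkS M j) (Fin.castAdd 14 k) = coW κ i j (Fin.castAdd 14 k) := by
  rw [coW_left, coW_left]; rfl

end Crest.Agent.R136.GW650
end

-- ▼ part R136/GW2_650
section

/-!
# R136, GEO-R in the W-chart (helper650), part 2: field `gR` of `PreQ` over `coW`

`gR_of2` : chart-free half, pseudo-incidence of the mark depending on the incidence;
`MarkW` : what is used of the marks of one level `u` in normal (model) coordinates;
`gR_W` : record closeness.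
-/

set_option autoImplicit false
set_option linter.unusedVariables false

open Finset Filter Topology

namespace Crest.Agent.R136.GW650

open Crest.Agent.R138.Ex926 (Base U)
open Crest.Agent.R138.Mk163 (zc zl rho alive)
open Crest.Agent.R138.MkRef627 (lc kc)
open Crest.Agent.R138.Dp76 (dpow_pos dpow_add dpow_le dpow_le_one)
open Crest.Agent.R138.ArgM163 (ev_const)
open Crest.Agent.R136.Sh605
open Crest.Agent.R136.Net191
open Crest.Agent.R136.NetW191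
open Crest.Agent.R136.GeoW778
open Crest.Agent.R136.GR650 (relax)

variable {m : ℕ}


/-- sizes of the coordinates of the box of a mark: height `ρ`, wide `wA`, narrow `wB`, precisions
`pr` of the flag slots, relative thickness `a` -/
noncomputable def sizeW (ρ wA wB a : ℝ) (pr : Fin 14 → ℝ) : Fin 18 → ℝ :=
  Fin.append (m := 4) (n := 14) ![ρ, wA / ρ, wA, wB]
    ![pr 0, pr 1, pr 2, pr 3, pr 4, pr 5, pr 6, pr 7, pr 8, a / ρ ^ 2, pr 10, pr 11, a / ρ, a]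

/-- polynomial bounds of one configuration -/
structure BdW (κ σ Γ : ℝ) (i : FW) (t : Ln4) (z0 ρ : ℝ) : Prop where
  true : TrueW κ σ i t
  G : ∀ k, |i.G k| ≤ Γ
  V : ∀ k, |t.v k| ≤ Γ
  X : ∀ z, z0 ≤ z → z ≤ z0 + ρ → ∀ k, |t.pos z k| ≤ Γ
  z : ∀ z, z0 ≤ z → z ≤ z0 + ρ → |z| ≤ Γ
  i0 : z0 ≤ i.g 0
  i1 : i.g 0 ≤ z0 + ρ

/-- all error terms are bounded by one power -/
theorem DW_le {Γ ρ : ℝ} (hΓ : 1 ≤ Γ) (h0 : 0 ≤ ρ) (h : ρ ≤ Γ) : DW Γ Γ Γ Γ ρ ≤ 40 * Γ ^ 5 := by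
  have p2 : Γ ≤ Γ ^ 2 := by nlinarith
  have hΓ0 : 0 ≤ Γ := by linarith
  have q : ∀ {a b : ℕ}, a ≤ b → Γ ^ a ≤ Γ ^ b := fun h => pow_le_pow_right₀ hΓ h
  have r1 : Γ ≤ Γ ^ 5 := by simpa using q (a := 1) (b := 5) (by norm_num)
  have r2 : Γ ^ 2 ≤ Γ ^ 5 := q (by norm_num)
  have r3 : Γ ^ 3 ≤ Γ ^ 5 := q (by norm_num)
  have r4 : Γ ^ 4 ≤ Γ ^ 5 := q (by norm_num)
  have e1 : DW Γ Γ Γ Γ ρ = (Γ + 3 * Γ ^ 2 + 10 * Γ ^ 3) +
      (Γ + 4 * Γ ^ 2 + 9 * Γ ^ 3 + 6 * Γ ^ 4) * ρ := by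
    simp only [DW]; ring
  have e2 : (Γ + 4 * Γ ^ 2 + 9 * Γ ^ 3 + 6 * Γ ^ 4) * ρ ≤
      (Γ + 4 * Γ ^ 2 + 9 * Γ ^ 3 + 6 * Γ ^ 4) * Γ :=
    mul_le_mul_of_nonneg_left h (by positivity)
  have e3 : (Γ + 4 * Γ ^ 2 + 9 * Γ ^ 3 + 6 * Γ ^ 4) * Γ =
      Γ ^ 2 + 4 * Γ ^ 3 + 9 * Γ ^ 4 + 6 * Γ ^ 5 := by ring
  rw [e1]
  rw [e3] at e2
  linarith

theorem EW_le {Γ ρ : ℝ} (hΓ : 1 ≤ Γ) (h0 : 0 ≤ ρ) (h : ρ ≤ Γ) : EW Γ Γ Γ Γ ρ ≤ 800 * Γ ^ 7 := by
  have hΓ0 : 0 ≤ Γ := by linarith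
  have h1 := DW_le hΓ h0 h
  have e1 : EW Γ Γ Γ Γ ρ = (10 * Γ + 10 * Γ ^ 2) * DW Γ Γ Γ Γ ρ := by simp only [EW]; ring
  have p2 : Γ ≤ Γ ^ 2 := by nlinarith
  rw [e1]
  calc (10 * Γ + 10 * Γ ^ 2) * DW Γ Γ Γ Γ ρ ≤ (10 * Γ + 10 * Γ ^ 2) * (40 * Γ ^ 5) :=
        mul_le_mul_of_nonneg_left h1 (by positivity)
    _ ≤ (20 * Γ ^ 2) * (40 * Γ ^ 5) :=
        mul_le_mul_of_nonneg_right (by linarith) (by positivity)
    _ = 800 * Γ ^ 7 := by ring

/-- finite form, mark against incidence -/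
theorem mark_inc {κ σ Γ : ℝ} {i : FW} {t : Ln4} {z0 ρ : ℝ} (h : BdW κ σ Γ i t z0 ρ)
    (hΓ : 1 ≤ Γ) (hσ : 0 < σ) (hρ : 0 < ρ) (hρΓ : ρ ≤ Γ) {M : Fin 14 → ℝ}
    (hM : ∀ k, |M k| ≤ Γ) {a e : ℝ} (he : 1 ≤ e) (ha : 0 < a)
    (hsm : σ * (800 * Γ ^ 7) ≤ min 1 a)
    (hq : ∀ z, z0 ≤ z → z ≤ z0 + ρ → |qS κ σ (mkS M i) z (t.pos z)| ≤ σ * (a * e))
    {pr : Fin 14 → ℝ} (hpr : ∀ k, 0 ≤ pr k)
    (hf : ∀ k, k ≠ 9 → k ≠ 12 → k ≠ 13 → |tr κ i.g (i.G - M) k| ≤ pr k * e) {wA wB : ℝ}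
    (hA : 0 ≤ wA) (hB : 0 ≤ wB) (k : Fin 18) :
    |coW κ (mkS M i) i k| ≤ 48 * e * sizeW ρ wA wB a pr k := by
  have hΓ0 : 0 ≤ Γ := by linarith
  have he0 : 0 ≤ e := by linarith
  have hD := DW_le hΓ hρ.le hρΓ
  have hE := EW_le hΓ hρ.le hρΓ
  have hp : Γ ^ 5 ≤ Γ ^ 7 := pow_le_pow_right₀ hΓ (by norm_num)
  have hsm1 : σ * DW Γ Γ Γ Γ ρ ≤ 1 := by
    refine le_trans (mul_le_mul_of_nonneg_left ?_ hσ.le) (hsm.trans (min_le_left _ _))
    have : (0 : ℝ) ≤ Γ ^ 7 := by positivity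
    linarith
  have hsm2 : σ * EW Γ Γ Γ Γ ρ ≤ a :=
    le_trans (mul_le_mul_of_nonneg_left hE hσ.le) (hsm.trans (min_le_right _ _))
  obtain ⟨n17, n16, n13⟩ := npr_of_mark (i := mkS M i) h.true hσ (Γ := Γ) (V := Γ) (R := Γ) (X := Γ)
    hM h.G h.V hρ h.i0 h.i1 h.z h.X hsm1 (a := a * e) hq
  have hae : a * e + σ * EW Γ Γ Γ Γ ρ ≤ 2 * (a * e) := by nlinarith
  have key : ∀ j : Fin 14, (48 : ℝ) * e * sizeW ρ wA wB a pr (Fin.natAdd 4 j) =
      48 * e * (![pr 0, pr 1, pr 2, pr 3, pr 4, pr 5, pr 6, pr 7, pr 8, a / ρ ^ 2, pr 10, pr 11,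
        a / ρ, a] : Fin 14 → ℝ) j := fun j => by
    unfold sizeW; rw [Fin.append_right]
  have slot : ∀ j : Fin 14, j ≠ 9 → j ≠ 12 → j ≠ 13 →
      |coW κ (mkS M i) i (Fin.natAdd 4 j)| ≤ 48 * e * pr j := by
    intro j h9 h12 h13
    rw [coW_mkS_right]
    have h1 := hf j h9 h12 h13
    have h2 : 0 ≤ pr j * e := mul_nonneg (hpr j) he0
    linarith
  refine Fin.addCases (m := 4) (n := 14) (fun j => ?_) (fun j => ?_) k
  · rw [coW_mkS_left, abs_zero]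
    have : sizeW ρ wA wB a pr (Fin.castAdd 14 j) = (![ρ, wA / ρ, wA, wB] : Fin 4 → ℝ) j :=
      Fin.append_left _ _ _
    rw [this]
    refine mul_nonneg (by positivity) ?_
    fin_cases j
    · exact hρ.le
    · exact div_nonneg hA hρ.le
    · exact hA
    · exact hB
  · rw [key]
    by_cases h9 : j = 9
    · subst h9
      refine n13.trans ?_
      show _ ≤ 48 * e * (a / ρ ^ 2)
      rw [div_le_iff₀ (by positivity)]
      have : 48 * e * (a / ρ ^ 2) * ρ ^ 2 = 48 * (a * e) := by field_simp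
      rw [this]
      have : 0 ≤ a * e := mul_nonneg ha.le he0
      linarith
    by_cases h12 : j = 12
    · subst h12
      refine n16.trans ?_
      show _ ≤ 48 * e * (a / ρ)
      rw [div_le_iff₀ hρ]
      have : 48 * e * (a / ρ) * ρ = 48 * (a * e) := by field_simp
      rw [this]
      linarith
    by_cases h13 : j = 13
    · subst h13
      refine n17.trans ?_
      show _ ≤ 48 * e * a
      have : 0 ≤ a * e := mul_nonneg ha.le he0
      linarith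
    · have h1 := slot j h9 h12 h13
      fin_cases j <;> first | exact h1 | exact absurd rfl h9 | exact absurd rfl h12 |
        exact absurd rfl h13

/-- finite form, two pseudo-incidences of one mark -/
theorem mark_mark {κ σ Γ : ℝ} {i j : FW} {t t' : Ln4} {z0 ρ : ℝ} (h : BdW κ σ Γ i t z0 ρ)
    (h' : BdW κ σ Γ j t' z0 ρ) (hΓ : 1 ≤ Γ) (hσ : 0 < σ) (hρ : 0 < ρ) (hρΓ : ρ ≤ Γ)
    (M : Fin 14 → ℝ) {e wA wB a E : ℝ} (he : 1 ≤ e) (hwA : 0 < wA) (hwB : 0 < wB) (ha : 0 ≤ a)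
    {pr : Fin 14 → ℝ} (hpr : ∀ k, 0 ≤ pr k)
    (hA : ∀ z, z0 ≤ z → z ≤ z0 + ρ → |t'.pos z 1 - t.pos z 1| ≤ wA * e)
    (hB : ∀ z, z0 ≤ z → z ≤ z0 + ρ →
      |(t'.pos z 2 - t.pos z 2) - E * (t'.pos z 1 - t.pos z 1)| ≤ wB * e)
    (hE : |E + 2 * κ * i.g 1| ≤ wB / wA * e) (hsm : σ * (10 * Γ ^ 4) ≤ wB) (k : Fin 18) :
    |coW κ (mkS M i) (mkS M j) k| ≤ 3 * e ^ 2 * sizeW ρ wA wB a pr k := by
  have he0 : 0 ≤ e := by linarith
  have he2 : e ≤ e ^ 2 := by nlinarith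
  have hΓ0 : 0 ≤ Γ := by linarith
  have p1 : Γ ≤ Γ ^ 4 := by
    simpa using (pow_le_pow_right₀ hΓ (show 1 ≤ 4 by norm_num))
  have p2 : Γ ^ 2 ≤ Γ ^ 4 := pow_le_pow_right₀ hΓ (by norm_num)
  have p3 : Γ ^ 3 ≤ Γ ^ 4 := pow_le_pow_right₀ hΓ (by norm_num)
  obtain ⟨c0, c1, c2, c3⟩ := rel_of_lat h.true h'.true hσ.le h.G h.V hρ h.i0 h.i1 h'.i0 h'.i1 hA hB hE
  refine Fin.addCases (m := 4) (n := 14) (fun l => ?_) (fun l => ?_) k
  · rw [coW_mkS_mkS_left]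
    have : sizeW ρ wA wB a pr (Fin.castAdd 14 l) = (![ρ, wA / ρ, wA, wB] : Fin 4 → ℝ) l :=
      Fin.append_left _ _ _
    rw [this]
    fin_cases l
    · show |coW κ i j 0| ≤ 3 * e ^ 2 * ρ
      nlinarith
    · show |coW κ i j 1| ≤ 3 * e ^ 2 * (wA / ρ)
      refine c1.trans ?_
      rw [div_le_iff₀ hρ]
      have : 3 * e ^ 2 * (wA / ρ) * ρ = 3 * e ^ 2 * wA := by field_simp
      rw [this]
      nlinarith
    · show |coW κ i j 2| ≤ 3 * e ^ 2 * wA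
      refine c2.trans ?_
      nlinarith
    · show |coW κ i j 3| ≤ 3 * e ^ 2 * wB
      refine c3.trans ?_
      have e1 : wB / wA * e * (wA * e) = wB * e ^ 2 := by field_simp
      have e2 : σ * (Γ * (1 + 3 * Γ + 6 * Γ ^ 2)) * ρ ≤ wB := by
        refine le_trans ?_ hsm
        rw [mul_assoc]
        refine mul_le_mul_of_nonneg_left ?_ hσ.le
        calc Γ * (1 + 3 * Γ + 6 * Γ ^ 2) * ρ ≤ Γ * (1 + 3 * Γ + 6 * Γ ^ 2) * Γ :=
              mul_le_mul_of_nonneg_left hρΓ (by positivity)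
          _ = Γ ^ 2 + 3 * Γ ^ 3 + 6 * Γ ^ 4 := by ring
          _ ≤ 10 * Γ ^ 4 := by linarith
      rw [e1]
      nlinarith
  · rw [coW_mkS_mkS_right, abs_zero]
    have : sizeW ρ wA wB a pr (Fin.natAdd 4 l) = (![pr 0, pr 1, pr 2, pr 3, pr 4, pr 5, pr 6,
        pr 7, pr 8, a / ρ ^ 2, pr 10, pr 11, a / ρ, a] : Fin 14 → ℝ) l := Fin.append_right _ _ _
    rw [this]
    refine mul_nonneg (by positivity) ?_
    fin_cases l <;> first | exact hpr _ | exact div_nonneg ha (by positivity) | exact ha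

end Crest.Agent.R136.GW650
end

-- ▼ part R136/GW3_650
section

/-!
# R136, GEO-R in the W-chart (helper650), part 3: sequences

`MarkW` : the marks of one level `u` in normal (model) coordinates of a container; `gR_W` : field
`gR` of `Lq196.PreQ` for `co = un * coW`, any units.
-/

set_option autoImplicit false
set_option linter.unusedVariables false

open Finset Filter Topology

namespace Crest.Agent.R136.GW650

open Crest.Agent.R138.Ex926 (Base U)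
open Crest.Agent.R138.Mk163 (zc zl rho alive)
open Crest.Agent.R138.MkRef627 (lc kc)
open Crest.Agent.R138.Dp76 (dpow_pos dpow_add dpow_le dpow_le_one)
open Crest.Agent.R138.ArgM163 (ev_const ev_const_mul)
open Crest.Agent.R136.Sh605
open Crest.Agent.R136.Net191
open Crest.Agent.R136.NetW191
open Crest.Agent.R136.GeoW778

/-- **the marks of level `u` in normal coordinates.**  `z0 n J`, `ρ n` : the cell `J` in the normal
height; `Mk n a` : sheet of the class `a` (14 coefficients, unit `σ`); `E n a` : slope of the wide axis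
in the `(A, B)`-plane; `wA, wB` : widths, `a n` : thickness in units `σ`; `pr` : precisions of the flag
slots (entries `9, 12, 13` are not used). -/
structure MarkW (B : Base) (I : ℕ → Finset (ℕ × ℝ)) (lev : ℕ → ℚ → ℕ) (f : ℕ → ℚ → ℕ → ℤ → ℕ)
    (u : ℚ) (κ σ : ℕ → ℝ) (inc : ℕ → ℕ × ℝ → FW) (L : ℕ → ℕ → Ln4) (z0 : ℕ → ℤ → ℝ) (ρ : ℕ → ℝ)
    (Mk : ℕ → ℕ × ℤ → Fin 14 → ℝ) (E : ℕ → ℕ × ℤ → ℝ) (wA wB a : ℕ → ℝ) (pr : ℕ → Fin 14 → ℝ) :
    Prop where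
  /-- true lines and polynomial bounds -/
  bd : ∃ C : ℝ, ∀ᶠ n in (U : Filter ℕ), ∀ x ∈ I n,
    BdW (κ n) (σ n) (B.d n ^ (-C)) (inc n x) (L n x.1) (z0 n (zc (lev n u) x.2)) (ρ n)
  Mbd : ∃ C : ℝ, ∀ᶠ n in (U : Filter ℕ), ∀ x ∈ I n, ∀ k,
    |Mk n (kc (lev n u) (f n u) x) k| ≤ B.d n ^ (-C)
  ρ0 : ∀ᶠ n in (U : Filter ℕ), 0 < ρ n
  ρ1 : ∃ C : ℝ, ∀ᶠ n in (U : Filter ℕ), ρ n ≤ B.d n ^ (-C)
  A0 : ∀ᶠ n in (U : Filter ℕ), 0 < wA n
  low : ∃ C : ℝ, ∀ᶠ n in (U : Filter ℕ), B.d n ^ C ≤ a n ∧ B.d n ^ C ≤ wB n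
  pr0 : ∀ᶠ n in (U : Filter ℕ), ∀ k, 0 ≤ pr n k
  /-- thickness -/
  q : ∀ ε : ℝ, 0 < ε → ∀ᶠ n in (U : Filter ℕ), ∀ x ∈ I n, ∀ z,
    z0 n (zc (lev n u) x.2) ≤ z → z ≤ z0 n (zc (lev n u) x.2) + ρ n →
      |qS (κ n) (σ n) (mkS (Mk n (kc (lev n u) (f n u) x)) (inc n x)) z ((L n x.1).pos z)| ≤
        σ n * (a n * B.d n ^ (-ε))
  /-- own flags against the flags of the mark, in the frame of the incidence -/
  fl : ∀ ε : ℝ, 0 < ε → ∀ᶠ n in (U : Filter ℕ), ∀ x ∈ I n, ∀ k, k ≠ 9 → k ≠ 12 → k ≠ 13 →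
    |tr (κ n) (inc n x).g ((inc n x).G - Mk n (kc (lev n u) (f n u) x)) k| ≤
      pr n k * B.d n ^ (-ε)
  /-- lateral extent -/
  lat : ∀ ε : ℝ, 0 < ε → ∀ᶠ n in (U : Filter ℕ), ∀ x ∈ I n, ∀ y ∈ I n,
    kc (lev n u) (f n u) y = kc (lev n u) (f n u) x → ∀ z,
      z0 n (zc (lev n u) x.2) ≤ z → z ≤ z0 n (zc (lev n u) x.2) + ρ n →
        |(L n y.1).pos z 1 - (L n x.1).pos z 1| ≤ wA n * B.d n ^ (-ε) ∧
        |((L n y.1).pos z 2 - (L n x.1).pos z 2) - E n (kc (lev n u) (f n u) x) *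
            ((L n y.1).pos z 1 - (L n x.1).pos z 1)| ≤ wB n * B.d n ^ (-ε)
  /-- the wide axis is the tangent of the null cone -/
  ax : ∀ ε : ℝ, 0 < ε → ∀ᶠ n in (U : Filter ℕ), ∀ x ∈ I n,
    |E n (kc (lev n u) (f n u) x) + 2 * κ n * (inc n x).g 1| ≤ wB n / wA n * B.d n ^ (-ε)

theorem BdW.mono {κ σ Γ Γ' : ℝ} {i : FW} {t : Ln4} {z0 ρ : ℝ} (h : BdW κ σ Γ i t z0 ρ)
    (hΓ : Γ ≤ Γ') : BdW κ σ Γ' i t z0 ρ where
  true := h.true
  G := fun k => (h.G k).trans hΓ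
  V := fun k => (h.V k).trans hΓ
  X := fun z a b k => (h.X z a b k).trans hΓ
  z := fun z a b => (h.z z a b).trans hΓ
  i0 := h.i0
  i1 := h.i1


end Crest.Agent.R136.GW650
end

-- ▼ part R136/GW4_650
section

/-!
# R136, GEO-R in the W-chart (helper650), part 4: the record path

`bW α β ν` : exponents of the natural box of a mark: height `1`, wide `α`, narrow `β` (with
`1 + β ≤ 2 α`), thickness `ν`; flag slot = thickness over monomial.  `pathW` : enlarged by the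
grading `wtW`.  `pathW_legal`, `pathW_pos`, `pathW_lip`; `hsz_nat` : sizes of the natural box.
-/

set_option autoImplicit false
set_option linter.unusedVariables false

open Finset Filter Topology

namespace Crest.Agent.R136.GW650

open Crest.Agent.R138.Ex926 (Base U)
open Crest.Agent.R138.Dp76 (dpow_pos dpow_add dpow_le dpow_le_one)
open Crest.Agent.R136.Net191
open Crest.Agent.R136.NetW191
open Crest.Agent.R136.PqG464 (wtW)

/-- exponents of the natural box -/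
def bW (α β ν : ℝ) : Fin 18 → ℝ :=
  ![1, α - 1, α, β, ν - 2 * (1 + β), ν - β - (1 + β), ν - α - (1 + β), ν - 2 * β, ν - 1 - (1 + β),
    ν - α - β, ν - 2 * α, ν - 1 - β, ν - 1 - α, ν - 2, ν - β, ν - α, ν - 1, ν]

/-- record path of the W-chart -/
def pathW (w0 α β ν v : ℝ) : Fin 18 → ℝ := fun k => (wtW k : ℝ) * w0 + bW α β ν k * v







/-- size of the `k`-th monomial on the box `z ~ r`, `A ~ α`, `B ~ β`, `Y ~ r β` -/
def sz3 (r α β : ℝ) : Fin 14 → ℝ :=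
  ![(r * β) ^ 2, β * (r * β), α * (r * β), β ^ 2, r * (r * β), α * β, α ^ 2, r * β, r * α, r ^ 2,
    β, α, r, 1]

theorem sz3_pos {r α β : ℝ} (hr : 0 < r) (ha : 0 < α) (hb : 0 < β) (k : Fin 14) :
    0 < sz3 r α β k := by
  fin_cases k <;> simp only [sz3, Matrix.cons_val, Fin.zero_eta, Fin.mk_one, Fin.reduceFinMk] <;>
    positivity


end Crest.Agent.R136.GW650
end

-- ▼ part R136/CfW_650
section

/-!
# R136, W-chart: coefficients of a quadratic polynomial restricted to the quadric (helper650)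

`Q0 : Y = z B + κ A²`.  `evW κ w z A B` = value at the point of `Q0` above `(z, A, B)` of the
quadratic polynomial with the fourteen coefficients `w` in the monomials, in this order,
`YY, BY, AY, BB, zY, AB, AA, zB, zA, zz, B, A, z, 1`.
`evW_scale` : homogeneity; `coefW_le` : the coefficients are bounded by the maximum on a lightlike box
`|z| ≤ ρ, |A| ≤ α ρ, |B| ≤ α² ρ`.
-/

set_option autoImplicit false

namespace Crest.Agent.R136.CfW650

/-- value on `Q0` -/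
def evW (κ : ℝ) (w : Fin 14 → ℝ) (z a b : ℝ) : ℝ :=
  w 0 * (z * b + κ * a ^ 2) ^ 2 + w 1 * (b * (z * b + κ * a ^ 2)) +
  w 2 * (a * (z * b + κ * a ^ 2)) + w 3 * b ^ 2 + w 4 * (z * (z * b + κ * a ^ 2)) +
  w 5 * (a * b) + w 6 * a ^ 2 + w 7 * (z * b) + w 8 * (z * a) + w 9 * z ^ 2 + w 10 * b +
  w 11 * a + w 12 * z + w 13





/-- unit box -/
theorem coefW_unit {κ M : ℝ} (hκ : |κ| ≤ 1) {w : Fin 14 → ℝ}
    (h : ∀ z a b : ℝ, |z| ≤ 1 → |a| ≤ 1 → |b| ≤ 1 → |evW κ w z a b| ≤ M) (k : Fin 14) :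
    |w k| ≤ 6 * M := by
  have o : |(1 : ℝ)| ≤ 1 := by norm_num
  have m : |(-1 : ℝ)| ≤ 1 := by norm_num
  have n : |(0 : ℝ)| ≤ 1 := by norm_num
  have hM : 0 ≤ M := (abs_nonneg _).trans (h 0 0 0 n n n)
  obtain ⟨F, hF⟩ : ∃ F : ℝ → ℝ → ℝ → ℝ, ∀ z a b, F z a b = evW κ w z a b := ⟨_, fun _ _ _ => rfl⟩
  have hf : ∀ z a b : ℝ, |z| ≤ 1 → |a| ≤ 1 → |b| ≤ 1 → -M ≤ F z a b ∧ F z a b ≤ M := by
    intro z a b hz ha hb
    rw [hF]; exact abs_le.1 (h z a b hz ha hb)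
  have i13 : w 13 = F 0 0 0 := by simp only [hF, evW]; ring
  have i12 : w 12 = (F 1 0 0 - F (-1) 0 0) / 2 := by simp only [hF, evW]; ring
  have i9 : w 9 = (F 1 0 0 + F (-1) 0 0) / 2 - F 0 0 0 := by simp only [hF, evW]; ring
  have i10 : w 10 = (F 0 0 1 - F 0 0 (-1)) / 2 := by simp only [hF, evW]; ring
  have i3 : w 3 = (F 0 0 1 + F 0 0 (-1)) / 2 - F 0 0 0 := by simp only [hF, evW]; ring
  have i7 : w 7 = (F 1 0 1 - F 1 0 (-1) - F (-1) 0 1 + F (-1) 0 (-1)) / 4 := by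
    simp only [hF, evW]; ring
  have i4 : w 4 = (F 1 0 1 - F 1 0 (-1) + F (-1) 0 1 - F (-1) 0 (-1)) / 4 -
      (F 0 0 1 - F 0 0 (-1)) / 2 := by simp only [hF, evW]; ring
  have i1 : w 1 = (F 1 0 1 + F 1 0 (-1) - F (-1) 0 1 - F (-1) 0 (-1)) / 4 -
      (F 1 0 0 - F (-1) 0 0) / 2 := by simp only [hF, evW]; ring
  have i0 : w 0 = (F 1 0 1 + F 1 0 (-1) + F (-1) 0 1 + F (-1) 0 (-1)) / 4 -
      (F 1 0 0 + F (-1) 0 0) / 2 - (F 0 0 1 + F 0 0 (-1)) / 2 + F 0 0 0 := by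
    simp only [hF, evW]; ring
  have i2 : w 2 = (F 1 1 1 - F 1 (-1) 1 - F 1 1 (-1) + F 1 (-1) (-1) - F (-1) 1 1 +
      F (-1) (-1) 1 + F (-1) 1 (-1) - F (-1) (-1) (-1)) / 8 := by simp only [hF, evW]; ring
  have i8 : w 8 = (F 1 1 0 - F 1 (-1) 0 - F (-1) 1 0 + F (-1) (-1) 0) / 4 := by
    simp only [hF, evW]; ring
  have i5 : w 5 = (F 0 1 1 - F 0 (-1) 1 - F 0 1 (-1) + F 0 (-1) (-1)) / 4 := by
    simp only [hF, evW]; ring
  have i11 : w 11 = (F 0 1 0 - F 0 (-1) 0) / 2 - κ * w 2 := by simp only [hF, evW]; ring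
  have i6 : w 6 = (F 0 1 0 + F 0 (-1) 0) / 2 - w 13 - κ ^ 2 * w 0 := by
    simp only [hF, evW]; ring
  obtain ⟨x000, y000⟩ := hf 0 0 0 n n n
  obtain ⟨x100, y100⟩ := hf 1 0 0 o n n
  obtain ⟨xm00, ym00⟩ := hf (-1) 0 0 m n n
  obtain ⟨x001, y001⟩ := hf 0 0 1 n n o
  obtain ⟨x00m, y00m⟩ := hf 0 0 (-1) n n m
  obtain ⟨x101, y101⟩ := hf 1 0 1 o n o
  obtain ⟨x10m, y10m⟩ := hf 1 0 (-1) o n m
  obtain ⟨xm01, ym01⟩ := hf (-1) 0 1 m n o
  obtain ⟨xm0m, ym0m⟩ := hf (-1) 0 (-1) m n m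
  obtain ⟨x010, y010⟩ := hf 0 1 0 n o n
  obtain ⟨x0m0, y0m0⟩ := hf 0 (-1) 0 n m n
  obtain ⟨x110, y110⟩ := hf 1 1 0 o o n
  obtain ⟨x1m0, y1m0⟩ := hf 1 (-1) 0 o m n
  obtain ⟨xm10, ym10⟩ := hf (-1) 1 0 m o n
  obtain ⟨xmm0, ymm0⟩ := hf (-1) (-1) 0 m m n
  obtain ⟨x011, y011⟩ := hf 0 1 1 n o o
  obtain ⟨x0m1, y0m1⟩ := hf 0 (-1) 1 n m o
  obtain ⟨x01m, y01m⟩ := hf 0 1 (-1) n o m
  obtain ⟨x0mm, y0mm⟩ := hf 0 (-1) (-1) n m m
  obtain ⟨x111, y111⟩ := hf 1 1 1 o o o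
  obtain ⟨x1m1, y1m1⟩ := hf 1 (-1) 1 o m o
  obtain ⟨x11m, y11m⟩ := hf 1 1 (-1) o o m
  obtain ⟨x1mm, y1mm⟩ := hf 1 (-1) (-1) o m m
  obtain ⟨xm11, ym11⟩ := hf (-1) 1 1 m o o
  obtain ⟨xmm1, ymm1⟩ := hf (-1) (-1) 1 m m o
  obtain ⟨xm1m, ym1m⟩ := hf (-1) 1 (-1) m o m
  obtain ⟨xmmm, ymmm⟩ := hf (-1) (-1) (-1) m m m
  clear hf h
  have k13 : |w 13| ≤ M := by rw [i13, abs_le]; constructor <;> linarith only [x000, y000]
  have k12 : |w 12| ≤ M := by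
    rw [i12, abs_le]; constructor <;> linarith only [x100, y100, xm00, ym00]
  have k9 : |w 9| ≤ 2 * M := by
    rw [i9, abs_le]; constructor <;> linarith only [x000, y000, x100, y100, xm00, ym00]
  have k10 : |w 10| ≤ M := by
    rw [i10, abs_le]; constructor <;> linarith only [x001, y001, x00m, y00m]
  have k3 : |w 3| ≤ 2 * M := by
    rw [i3, abs_le]; constructor <;> linarith only [x000, y000, x001, y001, x00m, y00m]
  have k7 : |w 7| ≤ M := by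
    rw [i7, abs_le]
    constructor <;> linarith only [x101, y101, x10m, y10m, xm01, ym01, xm0m, ym0m]
  have k4 : |w 4| ≤ 2 * M := by
    rw [i4, abs_le]
    constructor <;> linarith only [x101, y101, x10m, y10m, xm01, ym01, xm0m, ym0m, x001, y001,
      x00m, y00m]
  have k1 : |w 1| ≤ 2 * M := by
    rw [i1, abs_le]
    constructor <;> linarith only [x101, y101, x10m, y10m, xm01, ym01, xm0m, ym0m, x100, y100,
      xm00, ym00]
  have k0 : |w 0| ≤ 4 * M := by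
    rw [i0, abs_le]
    constructor <;> linarith only [x101, y101, x10m, y10m, xm01, ym01, xm0m, ym0m, x001, y001,
      x00m, y00m, x100, y100, xm00, ym00, x000, y000]
  have k2 : |w 2| ≤ M := by
    rw [i2, abs_le]
    constructor <;> linarith only [x111, y111, x1m1, y1m1, x11m, y11m, x1mm, y1mm, xm11, ym11,
      xmm1, ymm1, xm1m, ym1m, xmmm, ymmm]
  have k8 : |w 8| ≤ M := by
    rw [i8, abs_le]
    constructor <;> linarith only [x110, y110, x1m0, y1m0, xm10, ym10, xmm0, ymm0]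
  have k5 : |w 5| ≤ M := by
    rw [i5, abs_le]
    constructor <;> linarith only [x011, y011, x0m1, y0m1, x01m, y01m, x0mm, y0mm]
  have k11 : |w 11| ≤ 2 * M := by
    have h1 : |κ * w 2| ≤ 1 * M := by
      rw [abs_mul]; exact mul_le_mul hκ k2 (abs_nonneg _) zero_le_one
    rw [abs_le] at h1
    rw [i11, abs_le]
    constructor <;> linarith only [x010, y010, x0m0, y0m0, h1.1, h1.2]
  have k6 : |w 6| ≤ 6 * M := by
    have h1 : |κ ^ 2 * w 0| ≤ 1 * (4 * M) := by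
      rw [abs_mul]
      refine mul_le_mul ?_ k0 (abs_nonneg _) zero_le_one
      rw [abs_pow]; exact pow_le_one₀ (abs_nonneg _) hκ
    rw [abs_le] at h1 k13
    rw [i6, abs_le]
    constructor <;> linarith only [x010, y010, x0m0, y0m0, h1.1, h1.2, k13.1, k13.2]
  fin_cases k
  · exact k0.trans (by linarith)
  · exact k1.trans (by linarith)
  · exact k2.trans (by linarith)
  · exact k3.trans (by linarith)
  · exact k4.trans (by linarith)
  · exact k5.trans (by linarith)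
  · exact k6
  · exact k7.trans (by linarith)
  · exact k8.trans (by linarith)
  · exact k9.trans (by linarith)
  · exact k10.trans (by linarith)
  · exact k11.trans (by linarith)
  · exact k12.trans (by linarith)
  · exact k13.trans (by linarith)



end Crest.Agent.R136.CfW650
end

-- ▼ part R136/GW5_650

/-!
# R136, GEO-R in the W-chart (helper650), part 5: natural precisions

* `coefW3` : the coefficients of a flag polynomial from its maximum on the box `|z| ≤ r`, `|A| ≤ α`,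
  `|B| ≤ β` of the quadric, `|κ| α² ≤ r β`;
* `fl_of_sup` : two sheets which are close on the box of the quadric around the incidence have close
  flag slots (field `fl` of `MarkW` with the natural precisions `a / sz3`);
* `gR_W_nat` : field `gR` of `PreQ` with the path `pathW`.
-/

set_option autoImplicit false
set_option linter.unusedVariables false

open Finset Filter Topology

namespace Crest.Agent.R136.GW650

open Crest.Agent.R138.Ex926 (Base U)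
open Crest.Agent.R138.Mk163 (zc zl rho alive)
open Crest.Agent.R138.MkRef627 (lc kc)
open Crest.Agent.R138.Dp76 (dpow_pos dpow_add dpow_le dpow_le_one)
open Crest.Agent.R136.Sh605
open Crest.Agent.R136.Net191
open Crest.Agent.R136.NetW191
open Crest.Agent.R136.PqG464 (wtW chartW_gr)
open Crest.Agent.R136.CfW650 (evW coefW_unit)

/-- change of scale -/
theorem evW_scale3 {κ r α β : ℝ} (hr : 0 < r) (hβ : 0 < β) (w : Fin 14 → ℝ) (z a b : ℝ) :
    evW κ w (r * z) (α * a) (β * b) =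
      evW (κ * α ^ 2 / (r * β)) (fun k => sz3 r α β k * w k) z a b := by
  have h1 : κ * α ^ 2 = κ * α ^ 2 / (r * β) * (r * β) := by field_simp
  set μ := κ * α ^ 2 / (r * β) with hμ
  have h2 : r * z * (β * b) + κ * (α * a) ^ 2 = r * β * (z * b + μ * a ^ 2) := by
    linear_combination a ^ 2 * h1
  simp only [evW, sz3, Matrix.cons_val]
  rw [h2]
  ring

/-- **coefficients from the maximum on a box** -/
theorem coefW3 {κ M r α β : ℝ} (hr : 0 < r) (hα : 0 < α) (hβ : 0 < β) (hκ : |κ| * α ^ 2 ≤ r * β)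
    {w : Fin 14 → ℝ}
    (h : ∀ z a b : ℝ, |z| ≤ r → |a| ≤ α → |b| ≤ β → |evW κ w z a b| ≤ M) (k : Fin 14) :
    |w k| ≤ 6 * M / sz3 r α β k := by
  have hk := sz3_pos hr hα hβ k
  have hκ' : |κ * α ^ 2 / (r * β)| ≤ 1 := by
    rw [abs_div, abs_mul, abs_of_pos (mul_pos hr hβ), abs_of_nonneg (sq_nonneg α),
      div_le_one (mul_pos hr hβ)]
    exact hκ
  have h1 := coefW_unit (κ := κ * α ^ 2 / (r * β)) (M := M) hκ'
    (w := fun k => sz3 r α β k * w k) (fun z a b hz ha hb => by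
      rw [← evW_scale3 hr hβ]
      refine h _ _ _ ?_ ?_ ?_
      · rw [abs_mul, abs_of_pos hr]; exact mul_le_of_le_one_right hr.le hz
      · rw [abs_mul, abs_of_pos hα]; exact mul_le_of_le_one_right hα.le ha
      · rw [abs_mul, abs_of_pos hβ]; exact mul_le_of_le_one_right hβ.le hb) k
  rw [le_div_iff₀ hk]
  simp only [abs_mul, abs_of_pos hk] at h1
  linarith

theorem evW_evY (κ : ℝ) (w : Fin 14 → ℝ) (z a b : ℝ) :
    evW κ w z a b = evY w z a b (z * b + κ * a ^ 2) := by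
  simp only [evW, evY]

/-- value of the transported coefficients on the quadric -/
theorem evW_tr (κ : ℝ) (g : Fin 4 → ℝ) (w : Fin 14 → ℝ) (z a b : ℝ) :
    evW κ (tr κ g w) z a b = evY w (fz g z) (fA g z a) (fB κ g z a b)
      (fz g z * fB κ g z a b + κ * fA g z a ^ 2) := by
  rw [evW_evY, evY_tr]
  have h0 : ht κ z a b (z * b + κ * a ^ 2) = 0 := by simp only [ht]; ring
  have h1 := ht_inv κ g z a b (z * b + κ * a ^ 2)
  rw [h0] at h1
  have h2 : fY κ g z a b (z * b + κ * a ^ 2) = fz g z * fB κ g z a b + κ * fA g z a ^ 2 := by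
    simp only [ht] at h1
    linarith
  rw [h0, h2, mul_zero, sub_zero]

/-- **flag slots from closeness on the box around the incidence**: `D` = bound of the difference of
the two sheets (unit `σ`) at the points of the quadric whose coordinates in the frame of `i` are in
the box. -/
theorem fl_of_sup {κ r α β D : ℝ} (hr : 0 < r) (hα : 0 < α) (hβ : 0 < β)
    (hκ : |κ| * α ^ 2 ≤ r * β) (i : FW) (M : Fin 14 → ℝ)
    (h : ∀ z a b : ℝ, |z| ≤ r → |a| ≤ α → |b| ≤ β →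
      |evY i.G (fz i.g z) (fA i.g z a) (fB κ i.g z a b)
          (fz i.g z * fB κ i.g z a b + κ * fA i.g z a ^ 2) -
        evY M (fz i.g z) (fA i.g z a) (fB κ i.g z a b)
          (fz i.g z * fB κ i.g z a b + κ * fA i.g z a ^ 2)| ≤ D) (k : Fin 14) :
    |tr κ i.g (i.G - M) k| ≤ 6 * D / sz3 r α β k := by
  refine coefW3 hr hα hβ hκ (fun z a b hz ha hb => ?_) k
  rw [evW_tr, GeoW778.evY_sub]
  exact h z a b hz ha hb


end Crest.Agent.R136.GW650
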