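import Crest.Agent.R136.Sh6_605
import Crest.Agent.R136.GeoWD_778

-- ▼ part R136/GeoN1_778
section

/-!
# R136: sheets of class C* from gradient bounds; moving frames (helper778)

* `Qd` : quadratic polynomials in `(z, x)` by their coefficients, `Qd.ev`, derivative `Qd.D`,
  midpoint rule `Qd.ev_line`.
* `shN_of_grad` : a sheet of class C* from bounds of the gradient on the doubled box.
* `phi`, `rl`, `fo` : coordinates in a moving orthonormal frame; `shN_move`, `inSheet_move`.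
-/

set_option autoImplicit false
set_option linter.unusedVariables false

namespace Crest.Agent.R136.GeoN778

open Crest.Agent.R136.Sh605

/-- quadratic polynomials in `(z, x)` -/
structure Qd where
  /-- constant -/
  c0 : ℝ
  /-- `z` -/
  c1 : ℝ
  /-- `z²` -/
  c2 : ℝ
  /-- `x i` -/
  b : V3
  /-- `z x i` -/
  d : V3
  /-- `x i x j` -/
  g : Fin 3 → Fin 3 → ℝ

/-- value -/
def Qd.ev (Q : Qd) (z : ℝ) (x : V3) : ℝ :=
  Q.c0 + Q.c1 * z + Q.c2 * z ^ 2 + ∑ i, (Q.b i + Q.d i * z) * x i +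
    ∑ i, ∑ j, Q.g i j * (x i * x j)

/-- derivative in the direction `e` at the point `x` -/
def Qd.D (Q : Qd) (z : ℝ) (x e : V3) : ℝ :=
  ∑ i, (Q.b i + Q.d i * z) * e i + ∑ i, ∑ j, Q.g i j * (x i * e j + e i * x j)

theorem Qd.isQ (Q : Qd) : IsQ Q.ev := ⟨Q.c0, Q.c1, Q.c2, Q.b, Q.d, Q.g, fun _ _ => rfl⟩

/-- a quadratic polynomial of `Sh605` is of this form -/
theorem exists_Qd {q : ℝ → V3 → ℝ} (h : IsQ q) : ∃ Q : Qd, q = Q.ev := by
  obtain ⟨c0, c1, c2, b, d, g, h⟩ := h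
  exact ⟨⟨c0, c1, c2, b, d, g⟩, funext fun z => funext fun x => h z x⟩

/-- midpoint rule -/
theorem Qd.ev_line (Q : Qd) (z : ℝ) (x e : V3) (τ : ℝ) :
    Q.ev z (x + τ • e) - Q.ev z x = τ * Q.D z (x + (τ / 2) • e) e := by
  simp only [Qd.ev, Qd.D, Fin.sum_univ_three, Pi.add_apply, Pi.smul_apply, smul_eq_mul]
  ring

theorem inK_mid {e : Fin 3 → V3} {c : Ln4} {w : V3} {z τ : ℝ} {x f : V3} (h : InK e c w z x)
    (h' : InK e c w z (x + τ • f)) : InK e c w z (x + (τ / 2) • f) := by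
  intro i
  have h1 := h i
  have h2 := h' i
  have e1 : dt (e i) (x + (τ / 2) • f - c.pos z) =
      1 / 2 * dt (e i) (x - c.pos z) + 1 / 2 * dt (e i) (x + τ • f - c.pos z) := by
    simp only [dt, Pi.sub_apply, Pi.add_apply, Pi.smul_apply, smul_eq_mul]
    ring
  rw [e1]
  rw [abs_le] at h1 h2 ⊢
  constructor <;> linarith [h1.1, h1.2, h2.1, h2.2]

/-- **the class `ShN` (`w 0` free) from gradient bounds** -/
theorem shC_of_grad {e : Fin 3 → V3} {c : Ln4} {w : V3} {Q : Qd} {a z0 ρ r0 : ℝ} (he : Ortho e)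
    (ha : a ≤ w 0) (w0 : w 0 ≤ w 2) (hw : w 2 ≤ w 1) (hr : r0 ≤ a)
    (h0 : ∀ z, z0 ≤ z → z ≤ z0 + ρ → ∀ x : V3, InK e c (dbl3 w) z x →
      1 / 2 ≤ Q.D z x (e 0) ∧ Q.D z x (e 0) ≤ 2)
    (h1 : ∀ z, z0 ≤ z → z ≤ z0 + ρ → ∀ x : V3, InK e c (dbl3 w) z x →
      |Q.D z x (e 1)| ≤ w 0 / w 1)
    (h2 : ∀ z, z0 ≤ z → z ≤ z0 + ρ → ∀ x : V3, InK e c (dbl3 w) z x →
      |Q.D z x (e 2)| ≤ w 0 / w 2) : ShN e c w Q.ev a z0 ρ r0 where
  ortho := he
  isQ := Q.isQ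
  a_le0 := ha
  w0_le := w0
  w_le := hw
  r0_le := hr
  st0 := by
    intro z hz hz' x τ hτ hx hx'
    have := h0 z hz hz' _ (inK_mid hx hx')
    rw [Q.ev_line]
    constructor <;> nlinarith [this.1, this.2]
  sl1 := by
    intro z hz hz' x τ hτ hx hx'
    have := h1 z hz hz' _ (inK_mid hx hx')
    rw [Q.ev_line, abs_mul, abs_of_nonneg hτ, mul_comm]
    exact mul_le_mul_of_nonneg_right this hτ
  sl2 := by
    intro z hz hz' x τ hτ hx hx'
    have := h2 z hz hz' _ (inK_mid hx hx')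
    rw [Q.ev_line, abs_mul, abs_of_nonneg hτ, mul_comm]
    exact mul_le_mul_of_nonneg_right this hτ



/-! ### moving frames -/

section move

variable (f : Fin 3 → V3) (c : Ln4)

/-- coordinates of `x` in the frame `f` moving along the line `c` -/
def phi (z : ℝ) (x : V3) : V3 := fun k => dt (f k) (x - c.pos z)

/-- the line `t` in the moving frame -/
def rl (t : Ln4) : Ln4 := ⟨fun k => dt (f k) (t.p - c.p), fun k => dt (f k) (t.v - c.v)⟩

theorem rl_pos (t : Ln4) (z : ℝ) : (rl f c t).pos z = phi f c z (t.pos z) := by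
  funext k
  simp only [rl, phi, Ln4.pos, dt, Pi.sub_apply]
  ring

/-- a frame with components `e` in the frame `f` -/
def fo (e : Fin 3 → V3) : Fin 3 → V3 :=
  fun k => e k 0 • f 0 + e k 1 • f 1 + e k 2 • f 2

/-- the function in the original coordinates -/
def qo (q : ℝ → V3 → ℝ) : ℝ → V3 → ℝ := fun z x => q z (phi f c z x)

variable {f c}

theorem dt_fo (e : Fin 3 → V3) (k : Fin 3) (x : V3) :
    dt (fo f e k) x = dt (e k) (fun j => dt (f j) x) := by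
  simp only [fo, dt, Pi.add_apply, Pi.smul_apply, smul_eq_mul]
  ring

theorem dt_f_fo (hf : Ortho f) (e : Fin 3 → V3) (j k : Fin 3) : dt (f j) (fo f e k) = e k j := by
  have h0 := hf j 0
  have h1 := hf j 1
  have h2 := hf j 2
  have e1 : dt (f j) (fo f e k) =
      e k 0 * dt (f j) (f 0) + e k 1 * dt (f j) (f 1) + e k 2 * dt (f j) (f 2) := by
    simp only [fo, dt, Pi.add_apply, Pi.smul_apply, smul_eq_mul]
    ring
  rw [e1, h0, h1, h2]
  fin_cases j <;> simp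

theorem fo_ortho (hf : Ortho f) {e : Fin 3 → V3} (he : Ortho e) : Ortho (fo f e) := by
  intro i j
  rw [dt_fo]
  have : (fun l => dt (f l) (fo f e j)) = e j := by
    funext l; exact dt_f_fo hf e l j
  rw [this]
  exact he i j

theorem dt_fo_sub (e : Fin 3 → V3) (t : Ln4) (k : Fin 3) (z : ℝ) (x : V3) :
    dt (fo f e k) (x - t.pos z) = dt (e k) (phi f c z x - (rl f c t).pos z) := by
  rw [dt_fo]
  congr 1
  funext j
  rw [rl_pos]
  simp only [phi, dt, Pi.sub_apply]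
  ring

theorem inK_move {e : Fin 3 → V3} {t : Ln4} {w : V3} {z : ℝ} {x : V3} :
    InK (fo f e) t w z x ↔ InK e (rl f c t) w z (phi f c z x) := by
  unfold InK
  simp only [dt_fo_sub (c := c)]

theorem phi_add (hf : Ortho f) (e : Fin 3 → V3) (k : Fin 3) (z τ : ℝ) (x : V3) :
    phi f c z (x + τ • fo f e k) = phi f c z x + τ • e k := by
  funext j
  have h := dt_f_fo hf e j k
  simp only [dt] at h
  simp only [phi, dt, Pi.add_apply, Pi.smul_apply, Pi.sub_apply, smul_eq_mul]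
  rw [← h]
  ring

/-- affine substitutions -/
theorem isQ_comp {q : ℝ → V3 → ℝ} (h : IsQ q) (α β : V3) (M : Fin 3 → V3) :
    IsQ fun z x => q z (fun k => α k + β k * z + (M k 0 * x 0 + M k 1 * x 1 + M k 2 * x 2)) := by
  obtain ⟨c0, c1, c2, b, d, g, hq⟩ := h
  refine ⟨c0 + ∑ k, b k * α k + ∑ k, ∑ l, g k l * (α k * α l),
    c1 + ∑ k, (b k * β k + d k * α k) + ∑ k, ∑ l, g k l * (α k * β l + β k * α l),
    c2 + ∑ k, d k * β k + ∑ k, ∑ l, g k l * (β k * β l),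
    fun j => ∑ k, b k * M k j + ∑ k, ∑ l, g k l * (α k * M l j + M k j * α l),
    fun j => ∑ k, d k * M k j + ∑ k, ∑ l, g k l * (β k * M l j + M k j * β l),
    fun i j => ∑ k, ∑ l, g k l * (M k i * M l j), ?_⟩
  intro z x
  show q z (fun k => α k + β k * z + (M k 0 * x 0 + M k 1 * x 1 + M k 2 * x 2)) = _
  rw [hq]
  simp only [Fin.sum_univ_three]
  ring

theorem isQ_move {q : ℝ → V3 → ℝ} (h : IsQ q) : IsQ (qo f c q) := by
  have h1 := isQ_comp h (fun k => -dt (f k) c.p) (fun k => -dt (f k) c.v) f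
  refine (congrArg IsQ ?_).mp h1
  funext z x
  simp only [qo]
  congr 1
  funext k
  simp only [phi, dt, Ln4.pos, Pi.sub_apply]
  ring

/-- **a sheet in a moving frame** -/
theorem shN_move (hf : Ortho f) {e : Fin 3 → V3} {t : Ln4} {w : V3} {q : ℝ → V3 → ℝ}
    {a z0 ρ r0 : ℝ} (h : ShN e (rl f c t) w q a z0 ρ r0) :
    ShN (fo f e) t w (qo f c q) a z0 ρ r0 where
  ortho := fo_ortho hf h.ortho
  isQ := isQ_move h.isQ
  a_le0 := h.a_le0
  w0_le := h.w0_le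
  w_le := h.w_le
  r0_le := h.r0_le
  st0 := by
    intro z hz hz' x τ hτ hx hx'
    have := h.st0 z hz hz' (phi f c z x) τ hτ (inK_move.1 hx)
      (by rw [← phi_add hf]; exact inK_move.1 hx')
    simp only [qo, phi_add hf]
    exact this
  sl1 := by
    intro z hz hz' x τ hτ hx hx'
    have := h.sl1 z hz hz' (phi f c z x) τ hτ (inK_move.1 hx)
      (by rw [← phi_add hf]; exact inK_move.1 hx')
    simp only [qo, phi_add hf]
    exact this
  sl2 := by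
    intro z hz hz' x τ hτ hx hx'
    have := h.sl2 z hz hz' (phi f c z x) τ hτ (inK_move.1 hx)
      (by rw [← phi_add hf]; exact inK_move.1 hx')
    simp only [qo, phi_add hf]
    exact this

theorem inSheet_move {e : Fin 3 → V3} {t t' : Ln4} {w : V3} {q : ℝ → V3 → ℝ} {a z0 ρ : ℝ} :
    InSheet t' (fo f e) t w (qo f c q) a z0 ρ ↔
      InSheet (rl f c t') e (rl f c t) w q a z0 ρ := by
  unfold InSheet
  refine forall_congr' fun z => forall_congr' fun _ => forall_congr' fun _ => ?_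
  rw [inK_move (c := c), rl_pos]
  rfl

end move

end Crest.Agent.R136.GeoN778
end

-- ▼ part R136/GeoN2_778
section

/-!
# R136: class C* sheets close to the model quadric, in anisotropic units (helper778)

Coordinates `(Y, A, B)`, units `WY ≤ WB ≤ WA`, heights `ẑ = (z - zc) / H`.  `Qt : Qd` is a quadratic
function in the unit coordinates whose gradient is `(1, -2κ x₁, -ẑ)` up to `η`.

* `Qd.gr` : gradient; `Qd.scl` : the function in the original units.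
* `fr`, `fr_ortho` : orthonormal frame with slopes `Fa, Fb, E` (as in `GeoQ186.fr`).
* `shN_near` : the function is a sheet of class C* around a line `T`.
* `box_near` : lines in the box.
-/

set_option autoImplicit false
set_option linter.unusedVariables false

namespace Crest.Agent.R136.GeoN778

open Crest.Agent.R136.Sh605

theorem m2 {a b u w : ℝ} (ha : |a| ≤ u) (hb : |b| ≤ w) : |a * b| ≤ u * w := by
  rw [abs_mul]
  exact mul_le_mul ha hb (abs_nonneg _) ((abs_nonneg _).trans ha)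

theorem a2 {a b u w : ℝ} (ha : |a| ≤ u) (hb : |b| ≤ w) : |a + b| ≤ u + w :=
  (abs_add_le _ _).trans (add_le_add ha hb)

theorem s2 {a b u w : ℝ} (ha : |a| ≤ u) (hb : |b| ≤ w) : |a - b| ≤ u + w :=
  (abs_sub _ _).trans (add_le_add ha hb)

/-- gradient -/
def Qd.gr (Q : Qd) (z : ℝ) (x : V3) : V3 :=
  fun k => Q.b k + Q.d k * z + ∑ j, (Q.g k j + Q.g j k) * x j

theorem Qd.D_eq (Q : Qd) (z : ℝ) (x e : V3) : Q.D z x e = dt (Q.gr z x) e := by
  simp only [Qd.D, Qd.gr, dt, Fin.sum_univ_three]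
  ring

/-- change of units: `m Q ((z - zc) / H) (x / W)` -/
noncomputable def Qd.scl (Q : Qd) (m zc H : ℝ) (W : V3) : Qd where
  c0 := m * (Q.c0 - Q.c1 * (zc / H) + Q.c2 * (zc / H) ^ 2)
  c1 := m * (Q.c1 / H - 2 * Q.c2 * zc / H ^ 2)
  c2 := m * (Q.c2 / H ^ 2)
  b := fun i => m * ((Q.b i - Q.d i * (zc / H)) / W i)
  d := fun i => m * (Q.d i / (H * W i))
  g := fun i j => m * (Q.g i j / (W i * W j))

theorem Qd.scl_ev (Q : Qd) {m zc H : ℝ} {W : V3} (hH : H ≠ 0) (hW : ∀ i, W i ≠ 0) (z : ℝ)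
    (x : V3) : (Q.scl m zc H W).ev z x = m * Q.ev ((z - zc) / H) (fun i => x i / W i) := by
  have h0 := hW 0
  have h1 := hW 1
  have h2 := hW 2
  simp only [Qd.scl, Qd.ev, Fin.sum_univ_three]
  field_simp
  ring

theorem Qd.scl_gr (Q : Qd) {m zc H : ℝ} {W : V3} (hH : H ≠ 0) (hW : ∀ i, W i ≠ 0) (z : ℝ)
    (x : V3) (k : Fin 3) : (Q.scl m zc H W).gr z x k =
      m * (Q.gr ((z - zc) / H) (fun i => x i / W i) k / W k) := by
  have h0 := hW 0
  have h1 := hW 1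
  have h2 := hW 2
  have hk := hW k
  simp only [Qd.scl, Qd.gr, Fin.sum_univ_three]
  field_simp
  ring

/-! ### the frame -/

/-- norm of the normal -/
noncomputable def nn (Fa Fb : ℝ) : ℝ := Real.sqrt (1 + Fa ^ 2 + Fb ^ 2)
/-- norm of the wide axis -/
noncomputable def nm (Fa Fb E : ℝ) : ℝ := Real.sqrt ((Fa + Fb * E) ^ 2 + 1 + E ^ 2)

theorem nn_sq (Fa Fb : ℝ) : nn Fa Fb ^ 2 = 1 + Fa ^ 2 + Fb ^ 2 := Real.sq_sqrt (by positivity)
theorem nm_sq (Fa Fb E : ℝ) : nm Fa Fb E ^ 2 = (Fa + Fb * E) ^ 2 + 1 + E ^ 2 :=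
  Real.sq_sqrt (by positivity)
theorem nn_pos (Fa Fb : ℝ) : 0 < nn Fa Fb := Real.sqrt_pos.2 (by positivity)
theorem nm_pos (Fa Fb E : ℝ) : 0 < nm Fa Fb E := Real.sqrt_pos.2 (by positivity)

theorem one_le_nn (Fa Fb : ℝ) : 1 ≤ nn Fa Fb := by
  have h := nn_sq Fa Fb
  have h0 := nn_pos Fa Fb
  nlinarith [sq_nonneg Fa, sq_nonneg Fb]

theorem one_le_nm (Fa Fb E : ℝ) : 1 ≤ nm Fa Fb E := by
  have h := nm_sq Fa Fb E
  have h0 := nm_pos Fa Fb E
  nlinarith [sq_nonneg (Fa + Fb * E), sq_nonneg E]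

/-- the orthonormal frame with slopes `Fa, Fb, E` -/
noncomputable def fr (Fa Fb E : ℝ) : Fin 3 → V3 :=
  ![![1 / nn Fa Fb, -Fa / nn Fa Fb, -Fb / nn Fa Fb],
    ![(Fa + Fb * E) / nm Fa Fb E, 1 / nm Fa Fb E, E / nm Fa Fb E],
    ![(-Fa * E + Fb) / (nn Fa Fb * nm Fa Fb E),
      (-Fb * (Fa + Fb * E) - E) / (nn Fa Fb * nm Fa Fb E),
      (1 + Fa * (Fa + Fb * E)) / (nn Fa Fb * nm Fa Fb E)]]

theorem fr_ortho (Fa Fb E : ℝ) : Ortho (fr Fa Fb E) := by
  have h1 := nn_sq Fa Fb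
  have h2 := nm_sq Fa Fb E
  have p1 := (nn_pos Fa Fb).ne'
  have p2 := (nm_pos Fa Fb E).ne'
  set ν := nn Fa Fb with hν
  set μ := nm Fa Fb E with hμ
  have k00 : 1 / ν * (1 / ν) + -Fa / ν * (-Fa / ν) + -Fb / ν * (-Fb / ν) = 1 := by
    field_simp
    linarith
  have k01 : 1 / ν * ((Fa + Fb * E) / μ) + -Fa / ν * (1 / μ) + -Fb / ν * (E / μ) = 0 := by
    field_simp
    ring
  have k02 : 1 / ν * ((-Fa * E + Fb) / (ν * μ)) +
      -Fa / ν * ((-Fb * (Fa + Fb * E) - E) / (ν * μ)) +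
      -Fb / ν * ((1 + Fa * (Fa + Fb * E)) / (ν * μ)) = 0 := by
    field_simp
    ring
  have k11 : (Fa + Fb * E) / μ * ((Fa + Fb * E) / μ) + 1 / μ * (1 / μ) + E / μ * (E / μ) = 1 := by
    field_simp
    linarith
  have k12 : (Fa + Fb * E) / μ * ((-Fa * E + Fb) / (ν * μ)) +
      1 / μ * ((-Fb * (Fa + Fb * E) - E) / (ν * μ)) +
      E / μ * ((1 + Fa * (Fa + Fb * E)) / (ν * μ)) = 0 := by
    field_simp
    ring
  have k22 : (-Fa * E + Fb) / (ν * μ) * ((-Fa * E + Fb) / (ν * μ)) +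
      (-Fb * (Fa + Fb * E) - E) / (ν * μ) * ((-Fb * (Fa + Fb * E) - E) / (ν * μ)) +
      (1 + Fa * (Fa + Fb * E)) / (ν * μ) * ((1 + Fa * (Fa + Fb * E)) / (ν * μ)) = 1 := by
    have e1 : (-Fa * E + Fb) ^ 2 + (-Fb * (Fa + Fb * E) - E) ^ 2 + (1 + Fa * (Fa + Fb * E)) ^ 2 =
        ν ^ 2 * μ ^ 2 := by rw [h1, h2]; ring
    field_simp
    linarith
  intro i j
  fin_cases i <;> fin_cases j <;>
    simp only [fr, dt, Fin.zero_eta, Fin.mk_one, Fin.reduceFinMk, Matrix.cons_val,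
      Fin.isValue, if_true, Fin.reduceEq, if_false, ← hν, ← hμ]
  · exact k00
  · exact k01
  · exact k02
  · linarith
  · exact k11
  · exact k12
  · linarith
  · linarith
  · exact k22

/-- entries of an orthonormal frame -/
theorem ortho_le {e : Fin 3 → V3} (he : Ortho e) (i j : Fin 3) : |e i j| ≤ 1 := by
  have h := he i i
  simp only [dt, if_true] at h
  rw [abs_le_one_iff_mul_self_le_one]
  fin_cases j
  · show e i 0 * e i 0 ≤ 1
    nlinarith [mul_self_nonneg (e i 1), mul_self_nonneg (e i 2)]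
  · show e i 1 * e i 1 ≤ 1
    nlinarith [mul_self_nonneg (e i 0), mul_self_nonneg (e i 2)]
  · show e i 2 * e i 2 ≤ 1
    nlinarith [mul_self_nonneg (e i 0), mul_self_nonneg (e i 1)]


/-! ### the gradient in the frame -/

/-- the gradient is close to the model gradient -/
def NearG (Q : Qd) (κ η z : ℝ) (x : V3) : Prop :=
  |Q.gr z x 0 - 1| ≤ η ∧ |Q.gr z x 1 + 2 * κ * x 1| ≤ η ∧ |Q.gr z x 2 + z| ≤ η

theorem two_mul_le_sq {a b : ℝ} : 2 * |a| ≤ 1 + a ^ 2 + b ^ 2 := by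
  have h1 : 0 ≤ (|a| - 1) ^ 2 := sq_nonneg _
  have h2 : |a| ^ 2 = a ^ 2 := sq_abs a
  nlinarith [sq_nonneg b]

section core

variable {α β Fa Fb E E' κ η θ θ' p0 p1 p2 x1 z : ℝ}


theorem core1 (hα : 0 ≤ α) (hE : β * E' = α * E)
    (h0 : |p0 - 1| ≤ η) (h1 : |p1 + 2 * κ * x1| ≤ η) (h2 : |p2 + z| ≤ η) :
    |dt ![p0 / nn (α * Fa) (β * Fb), α * p1 / nn (α * Fa) (β * Fb),
      β * p2 / nn (α * Fa) (β * Fb)] (fr (α * Fa) (β * Fb) E' 1)| ≤
      α * (|(2 * κ * x1 - Fa) + E * (z - Fb)| + η * (1 + |Fa| + |E| + |Fb| * |E|)) := by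
  have hp := nn_pos (α * Fa) (β * Fb)
  have hp1 := one_le_nn (α * Fa) (β * Fb)
  have hm := nm_pos (α * Fa) (β * Fb) E'
  have hm1 := one_le_nm (α * Fa) (β * Fb) E'
  set ν := nn (α * Fa) (β * Fb) with hνdef
  set μ := nm (α * Fa) (β * Fb) E' with hμdef
  have e1 : dt ![p0 / ν, α * p1 / ν, β * p2 / ν] (fr (α * Fa) (β * Fb) E' 1) =
      α * (-((2 * κ * x1 - Fa) + E * (z - Fb)) +
        ((p0 - 1) * (Fa + Fb * E) + (p1 + 2 * κ * x1) + E * (p2 + z))) / (ν * μ) := by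
    simp only [dt, fr, ← hνdef, ← hμdef, Matrix.cons_val]
    have e2 : α * Fa + β * Fb * E' = α * (Fa + Fb * E) := by
      have : β * Fb * E' = Fb * (β * E') := by ring
      rw [this, hE]; ring
    rw [e2]
    have e3 : β * p2 / ν * (E' / μ) = (β * E') * p2 / (ν * μ) := by
      field_simp
    rw [e3, hE]
    field_simp
    ring
  have hνμ : 1 ≤ ν * μ := by nlinarith
  have hη : 0 ≤ η := (abs_nonneg _).trans h0
  have b1 : |(p0 - 1) * (Fa + Fb * E) + (p1 + 2 * κ * x1) + E * (p2 + z)| ≤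
      η * (1 + |Fa| + |E| + |Fb| * |E|) := by
    have h3 : |Fa + Fb * E| ≤ |Fa| + |Fb| * |E| := a2 le_rfl (m2 le_rfl le_rfl)
    have := a2 (a2 (m2 h0 h3) h1) (m2 (le_refl |E|) h2)
    linarith
  have b2 : |-((2 * κ * x1 - Fa) + E * (z - Fb))| ≤ |(2 * κ * x1 - Fa) + E * (z - Fb)| := by
    rw [abs_neg]
  rw [e1, abs_div, abs_of_pos (by positivity : 0 < ν * μ), abs_mul, abs_of_nonneg hα,
    div_le_iff₀ (by positivity)]
  have h5 := a2 b2 b1
  have h6 := mul_le_mul_of_nonneg_left h5 hα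
  have h7 : 0 ≤ α * (|(2 * κ * x1 - Fa) + E * (z - Fb)| + η * (1 + |Fa| + |E| + |Fb| * |E|)) :=
    (mul_nonneg hα (abs_nonneg _)).trans h6
  nlinarith


end core

end Crest.Agent.R136.GeoN778
end

-- ▼ part R136/GeoN3_778
section

/-!
# R136: test sheets of class C* for the W-chart (helper778)

`Un` : anisotropic units.  `shN_near` : a quadratic function whose gradient (in the unit coordinates)
is `(1, -2κ x₁, -ẑ)` up to `η` on the image of the doubled box defines a sheet of class C* around a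
line `T` with `A`-coordinate `Am + cA (ẑ - zm)`.  `box_near` : lines in this sheet.
-/

set_option autoImplicit false
set_option linter.unusedVariables false

namespace Crest.Agent.R136.GeoN778

open Crest.Agent.R136.Sh605

/-- units: `WY ≤ WB ≤ WA`, unit of height `H`, origin of height `zc` -/
structure Un where
  /-- unit of `Y` -/
  WY : ℝ
  /-- unit of `A` -/
  WA : ℝ
  /-- unit of `B` -/
  WB : ℝ
  /-- origin of the heights -/
  zc : ℝ
  /-- unit of the heights -/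
  H : ℝ

/-- ordered positive units -/
structure Un.Ok (u : Un) : Prop where
  Y0 : 0 < u.WY
  YB : u.WY ≤ u.WB
  BA : u.WB ≤ u.WA
  H0 : 0 < u.H

namespace Un

variable (u : Un)

/-- the units as a vector -/
def W : V3 := ![u.WY, u.WA, u.WB]

/-- unit height -/
noncomputable def zh (z : ℝ) : ℝ := (z - u.zc) / u.H

/-- unit position -/
noncomputable def xh (x : V3) : V3 := fun k => x k / u.W k

/-- the frame of a line with `A`-position `Am` at the unit height `zm` and slope `cA` -/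
noncomputable def fr (κ Am zm cA : ℝ) : Fin 3 → V3 :=
  GeoN778.fr (u.WY / u.WA * (2 * κ * Am)) (u.WY / u.WB * zm) (-2 * κ * cA * (u.WB / u.WA))

/-- norm of the normal -/
noncomputable def nu (κ Am zm : ℝ) : ℝ := nn (u.WY / u.WA * (2 * κ * Am)) (u.WY / u.WB * zm)

/-- the function in the original units -/
noncomputable def q (κ Am zm : ℝ) (Q : Qd) : Qd := Q.scl (u.WY / u.nu κ Am zm) u.zc u.H u.W

variable {u}

theorem Ok.B0 (h : u.Ok) : 0 < u.WB := lt_of_lt_of_le h.Y0 h.YB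
theorem Ok.A0 (h : u.Ok) : 0 < u.WA := lt_of_lt_of_le h.B0 h.BA

theorem Ok.W0 (h : u.Ok) (k : Fin 3) : 0 < u.W k := by
  fin_cases k
  · exact h.Y0
  · exact h.A0
  · exact h.B0

theorem Ok.ev (h : u.Ok) (κ Am zm : ℝ) (Q : Qd) (z : ℝ) (x : V3) :
    (u.q κ Am zm Q).ev z x = u.WY / u.nu κ Am zm * Q.ev (u.zh z) (u.xh x) :=
  Q.scl_ev h.H0.ne' (fun i => (h.W0 i).ne') z x

theorem Ok.gr (h : u.Ok) (κ Am zm : ℝ) (Q : Qd) (z : ℝ) (x : V3) :
    (u.q κ Am zm Q).gr z x = ![Q.gr (u.zh z) (u.xh x) 0 / u.nu κ Am zm,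
      u.WY / u.WA * Q.gr (u.zh z) (u.xh x) 1 / u.nu κ Am zm,
      u.WY / u.WB * Q.gr (u.zh z) (u.xh x) 2 / u.nu κ Am zm] := by
  have hY := h.Y0.ne'
  have hA := h.A0.ne'
  have hB := h.B0.ne'
  have hn : u.nu κ Am zm ≠ 0 := (nn_pos _ _).ne'
  funext k
  have e := Q.scl_gr (m := u.WY / u.nu κ Am zm) (zc := u.zc) h.H0.ne'
    (fun i => (h.W0 i).ne') z x k
  have e' : (u.q κ Am zm Q).gr z x k =
      u.WY / u.nu κ Am zm * (Q.gr (u.zh z) (u.xh x) k / u.W k) := e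
  rw [e']
  fin_cases k
  · show u.WY / u.nu κ Am zm * (Q.gr (u.zh z) (u.xh x) 0 / u.WY) =
      Q.gr (u.zh z) (u.xh x) 0 / u.nu κ Am zm
    field_simp
  · show u.WY / u.nu κ Am zm * (Q.gr (u.zh z) (u.xh x) 1 / u.WA) =
      u.WY / u.WA * Q.gr (u.zh z) (u.xh x) 1 / u.nu κ Am zm
    field_simp
  · show u.WY / u.nu κ Am zm * (Q.gr (u.zh z) (u.xh x) 2 / u.WB) =
      u.WY / u.WB * Q.gr (u.zh z) (u.xh x) 2 / u.nu κ Am zm
    field_simp

end Un

open Un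

variable {u : Un}

/-- `(WY/WB) E' = (WY/WA) E` -/
theorem slope_id (h : u.Ok) (E : ℝ) :
    u.WY / u.WB * (E * (u.WB / u.WA)) = u.WY / u.WA * E := by
  have hA := h.A0.ne'
  have hB := h.B0.ne'
  field_simp



/-! ### lines in the sheet -/

theorem Qd.ev_diff (Q : Qd) (z : ℝ) (x x' : V3) : Q.ev z x' - Q.ev z x =
    dt (Q.gr z fun k => (x k + x' k) / 2) fun k => x' k - x k := by
  simp only [Qd.ev, Qd.gr, dt, Fin.sum_univ_three]
  ring

section lat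

variable {Fa Fb E : ℝ}

theorem lat0 (u : V3) :
    |dt (GeoN778.fr Fa Fb E 0) u| ≤ |u 0 - Fa * u 1 - Fb * u 2| := by
  have hp := nn_pos Fa Fb
  have h1 := one_le_nn Fa Fb
  have e1 : dt (GeoN778.fr Fa Fb E 0) u = (u 0 - Fa * u 1 - Fb * u 2) / nn Fa Fb := by
    simp only [dt, GeoN778.fr, Matrix.cons_val]
    field_simp
    ring
  rw [e1, abs_div, abs_of_pos hp]
  exact div_le_self (abs_nonneg _) h1

theorem lat1 (u : V3) :
    |dt (GeoN778.fr Fa Fb E 1) u| ≤ |u 0 - Fa * u 1 - Fb * u 2| + nm Fa Fb E * |u 1| +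
      (1 + |Fb|) * |u 2 - E * u 1| := by
  have hp := nm_pos Fa Fb E
  have h1 := one_le_nm Fa Fb E
  have hs := nm_sq Fa Fb E
  set μ := nm Fa Fb E with hμ
  have e1 : dt (GeoN778.fr Fa Fb E 1) u = ((Fa + Fb * E) * (u 0 - Fa * u 1 - Fb * u 2) +
      μ ^ 2 * u 1 + ((Fa + Fb * E) * Fb + E) * (u 2 - E * u 1)) / μ := by
    rw [hs]
    simp only [dt, GeoN778.fr, Matrix.cons_val, ← hμ]
    field_simp
    ring
  have g1 : |Fa + Fb * E| ≤ μ := by
    refine abs_le_of_sq_le_sq' ?_ hp.le |> abs_le.2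
    nlinarith [sq_nonneg E]
  have g2 : |E| ≤ μ := by
    refine abs_le_of_sq_le_sq' ?_ hp.le |> abs_le.2
    nlinarith [sq_nonneg (Fa + Fb * E)]
  have g3 : |(Fa + Fb * E) * Fb + E| ≤ μ * (1 + |Fb|) := by
    have := a2 (m2 g1 (le_refl |Fb|)) g2
    linarith
  rw [e1, abs_div, abs_of_pos hp, div_le_iff₀ hp]
  have h2 : |μ ^ 2| ≤ μ ^ 2 := by rw [abs_of_pos (by positivity)]
  refine (a2 (a2 (m2 g1 (le_refl _)) (m2 h2 (le_refl |u 1|))) (m2 g3 (le_refl _))).trans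
    (le_of_eq ?_)
  ring

theorem lat2 (u : V3) :
    |dt (GeoN778.fr Fa Fb E 2) u| ≤ |u 0 - Fa * u 1 - Fb * u 2| +
      nn Fa Fb * |u 2 - E * u 1| := by
  have hp := nn_pos Fa Fb
  have h1 := one_le_nn Fa Fb
  have hs := nn_sq Fa Fb
  have hpm := nm_pos Fa Fb E
  have h1m := one_le_nm Fa Fb E
  have hsm := nm_sq Fa Fb E
  set ν := nn Fa Fb with hν
  set μ := nm Fa Fb E with hμ
  have e1 : dt (GeoN778.fr Fa Fb E 2) u = ((Fb - Fa * E) * (u 0 - Fa * u 1 - Fb * u 2) +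
      ν ^ 2 * (u 2 - E * u 1)) / (ν * μ) := by
    rw [hs]
    simp only [dt, GeoN778.fr, Matrix.cons_val, ← hμ, ← hν]
    field_simp
    ring
  have g1 : |Fb - Fa * E| ≤ ν * μ := by
    refine abs_le_of_sq_le_sq' ?_ (by positivity) |> abs_le.2
    rw [mul_pow, hs, hsm]
    have : (Fb - Fa * E) ^ 2 ≤ (Fa ^ 2 + Fb ^ 2) * (1 + E ^ 2) := by
      nlinarith [sq_nonneg (Fa + Fb * E)]
    nlinarith [sq_nonneg (Fa + Fb * E), sq_nonneg E, sq_nonneg Fa, sq_nonneg Fb,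
      mul_nonneg (add_nonneg (sq_nonneg Fa) (sq_nonneg Fb)) (sq_nonneg (Fa + Fb * E))]
  have hνμ : 0 < ν * μ := by positivity
  rw [e1, abs_div, abs_of_pos hνμ, div_le_iff₀ hνμ]
  have h2 : |ν ^ 2| ≤ ν ^ 2 := by rw [abs_of_pos (by positivity)]
  refine (a2 (m2 g1 (le_refl _)) (m2 h2 (le_refl |u 2 - E * u 1|))).trans ?_
  have h3 : 0 ≤ |u 2 - E * u 1| := abs_nonneg _
  have h4 : ν ^ 2 * |u 2 - E * u 1| ≤ ν ^ 2 * |u 2 - E * u 1| * μ := by
    have : 0 ≤ ν ^ 2 * |u 2 - E * u 1| := by positivity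
    nlinarith
  nlinarith

theorem nn_le {Ga Gb : ℝ} (ha : |Fa| ≤ Ga) (hb : |Fb| ≤ Gb) : nn Fa Fb ≤ 1 + Ga + Gb := by
  have hs := nn_sq Fa Fb
  have hp := nn_pos Fa Fb
  have h0 : 0 ≤ Ga := (abs_nonneg _).trans ha
  have h0' : 0 ≤ Gb := (abs_nonneg _).trans hb
  refine abs_le_of_sq_le_sq' (a := nn Fa Fb) ?_ (by positivity) |>.2
  rw [hs]
  have h1 : Fa ^ 2 ≤ Ga ^ 2 := by rw [← sq_abs]; exact pow_le_pow_left₀ (abs_nonneg _) ha 2
  have h2 : Fb ^ 2 ≤ Gb ^ 2 := by rw [← sq_abs Fb]; exact pow_le_pow_left₀ (abs_nonneg _) hb 2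
  nlinarith [mul_nonneg h0 h0']

theorem nm_le {G1 G2 : ℝ} (ha : |Fa + Fb * E| ≤ G1) (hb : |E| ≤ G2) :
    nm Fa Fb E ≤ 1 + G1 + G2 := by
  have hs := nm_sq Fa Fb E
  have hp := nm_pos Fa Fb E
  have h0 : 0 ≤ G1 := (abs_nonneg _).trans ha
  have h0' : 0 ≤ G2 := (abs_nonneg _).trans hb
  refine abs_le_of_sq_le_sq' (a := nm Fa Fb E) ?_ (by positivity) |>.2
  rw [hs]
  have h1 : (Fa + Fb * E) ^ 2 ≤ G1 ^ 2 := by
    rw [← sq_abs]; exact pow_le_pow_left₀ (abs_nonneg _) ha 2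
  have h2 : E ^ 2 ≤ G2 ^ 2 := by rw [← sq_abs E]; exact pow_le_pow_left₀ (abs_nonneg _) hb 2
  nlinarith [mul_nonneg h0 h0']

end lat


end Crest.Agent.R136.GeoN778
end

-- ▼ part R136/GeoN4_778

/-!
# R136, [GEO-D] for the W-chart in the original coordinates (helper778)

`Bent` : the point at height `z` of a true line `L` (moving-frame coordinates) corresponds to a point
of the model line `M` at a height `z'` close to `ẑ` (projective straightening of the container).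
`boxM_inSheet`, **`gdW`** : a legal box of `coW` is contained in one sheet of class C*.
-/

set_option autoImplicit false
set_option linter.unusedVariables false

namespace Crest.Agent.R136.GeoN778

open Crest.Agent.R136.Sh605
open Crest.Agent.R136.NetW191
open Crest.Agent.R136.GeoW778 (qS TrueW dB DW EW)

/-- the point of the line `L` at height `z` against the model line `M` -/
def Bent (u : Un) (Q : Qd) (κ σ : ℝ) (i : FW) (η₁ : ℝ) (L M : Ln4) (z : ℝ) : Prop :=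
  ∃ z', |z' - u.zh z| ≤ η₁ ∧ (∀ k, |u.xh (L.pos z) k - M.pos z' k| ≤ η₁) ∧
    |Q.ev (u.zh z) (u.xh (L.pos z))| ≤ 4 * |qS κ σ i z' (M.pos z')|

theorem pos_shift (M : Ln4) (z z' : ℝ) (k : Fin 3) :
    M.pos z' k = M.pos z k + (z' - z) * M.v k := by
  simp only [Ln4.pos]; ring

/-- lateral displacements of two bent lines -/
theorem lat_bent {u : Un} {Q : Qd} {κ σ : ℝ} {i j : FW} {η₁ η₂ : ℝ} {L L' M M' : Ln4}
    {z : ℝ} (hM : TrueW κ σ i M) (hM' : TrueW κ σ j M') (hκ : |κ| ≤ 1) (hσ : 0 ≤ σ)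
    {Γ V ρ' cA G : ℝ} (hGi : ∀ k, |i.G k| ≤ Γ) (hGj : ∀ k, |j.G k| ≤ Γ)
    (hV : ∀ k, |M.v k| ≤ V) (hV' : ∀ k, |M'.v k| ≤ V) (hc : |cA - i.g 1| ≤ η₂)
    (hG : |i.g 1| ≤ G)
    (hb : Bent u Q κ σ i η₁ L M z) (hb' : Bent u Q κ σ i η₁ L' M' z)
    (hzi : |u.zh z - i.g 0| + η₁ ≤ ρ') (hzj : |u.zh z - j.g 0| + η₁ ≤ ρ') {s : Fin 18 → ℝ}
    (hs : ∀ k, |coW κ i j k| ≤ s k) {Ra Rb : ℝ}
    (hRa : s 2 + ρ' * s 1 + 2 * η₁ * (1 + V) ≤ Ra)
    (hRb : s 3 + ρ' * s 1 ^ 2 + 2 * (σ * (Γ * (1 + 3 * V + 6 * V ^ 2)) * ρ') +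
      2 * η₁ * (1 + V) * (1 + 2 * G) + 2 * η₂ * Ra ≤ Rb) :
    |u.xh (L'.pos z) 1 - u.xh (L.pos z) 1| ≤ Ra ∧
    |(u.xh (L'.pos z) 2 - u.xh (L.pos z) 2) -
      (-2 * κ * cA) * (u.xh (L'.pos z) 1 - u.xh (L.pos z) 1)| ≤ Rb := by
  obtain ⟨z1, b1, bb, -⟩ := hb
  obtain ⟨z2, c1, cc, -⟩ := hb'
  have b2 := bb 1
  have b3 := bb 2
  have c2 := cc 1
  have c3 := cc 2
  have hη : 0 ≤ η₁ := (abs_nonneg _).trans b1
  have hV0 : 0 ≤ V := (abs_nonneg _).trans (hV 0)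
  have hG0 : 0 ≤ G := (abs_nonneg _).trans hG
  have t1 : |z1 - i.g 0| ≤ ρ' := by
    have := a2 b1 (le_refl |u.zh z - i.g 0|)
    rw [sub_add_sub_cancel] at this
    linarith
  have t2 : |z1 - j.g 0| ≤ ρ' := by
    have := a2 b1 (le_refl |u.zh z - j.g 0|)
    rw [sub_add_sub_cancel] at this
    linarith
  have t12 : |z2 - z1| ≤ 2 * η₁ := by
    have := s2 c1 b1
    rw [sub_sub_sub_cancel_right] at this
    linarith
  have hra := GeoW778.ra_bound hM hM' t2 hs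
  have hrb := GeoW778.rb_bound hM hM' hκ hσ hGi hGj hV hV' t1 t2 hs
  -- errors
  set eA := (u.xh (L'.pos z) 1 - u.xh (L.pos z) 1) - (M'.pos z1 1 - M.pos z1 1) with heA
  set eB := (u.xh (L'.pos z) 2 - u.xh (L.pos z) 2) - (M'.pos z1 2 - M.pos z1 2) with heB
  have hA : |eA| ≤ 2 * η₁ * (1 + V) := by
    have e1 : eA = (u.xh (L'.pos z) 1 - M'.pos z2 1) - (u.xh (L.pos z) 1 - M.pos z1 1) +
        (z2 - z1) * M'.v 1 := by
      rw [heA, pos_shift M' z1 z2 1]; ring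
    rw [e1]
    have := a2 (s2 c2 b2) (m2 t12 (hV' 1))
    linarith
  have hB : |eB| ≤ 2 * η₁ * (1 + V) := by
    have e1 : eB = (u.xh (L'.pos z) 2 - M'.pos z2 2) - (u.xh (L.pos z) 2 - M.pos z1 2) +
        (z2 - z1) * M'.v 2 := by
      rw [heB, pos_shift M' z1 z2 2]; ring
    rw [e1]
    have := a2 (s2 c3 b3) (m2 t12 (hV' 2))
    linarith
  have hA1 : |u.xh (L'.pos z) 1 - u.xh (L.pos z) 1| ≤ Ra := by
    have e1 : u.xh (L'.pos z) 1 - u.xh (L.pos z) 1 = (M'.pos z1 1 - M.pos z1 1) + eA := by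
      rw [heA]; ring
    rw [e1]
    exact (a2 hra hA).trans hRa
  refine ⟨hA1, ?_⟩
  have e1 : (u.xh (L'.pos z) 2 - u.xh (L.pos z) 2) -
      (-2 * κ * cA) * (u.xh (L'.pos z) 1 - u.xh (L.pos z) 1) =
      ((M'.pos z1 2 - M.pos z1 2) - (-2 * κ * i.g 1) * (M'.pos z1 1 - M.pos z1 1)) +
      (eB - (-2 * κ * i.g 1) * eA) + 2 * κ * (cA - i.g 1) *
        (u.xh (L'.pos z) 1 - u.xh (L.pos z) 1) := by
    rw [heA, heB]; ring
  have k1 : |-2 * κ * i.g 1| ≤ 2 * G := by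
    have : -2 * κ * i.g 1 = -(2 * κ * i.g 1) := by ring
    rw [this, abs_neg, abs_mul, abs_mul, abs_two]
    have := mul_le_mul hκ hG (abs_nonneg _) zero_le_one
    nlinarith [abs_nonneg κ, abs_nonneg (i.g 1)]
  have k2 : |2 * κ * (cA - i.g 1)| ≤ 2 * η₂ := by
    rw [abs_mul, abs_mul, abs_two]
    have := mul_le_mul hκ hc (abs_nonneg _) zero_le_one
    nlinarith
  rw [e1]
  have := a2 (a2 hrb (s2 hB (m2 k1 hA))) (m2 k2 hA1)
  refine this.trans (le_trans (le_of_eq ?_) hRb)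
  ring

/-- value of the sheet along a bent line -/
theorem val_bent {u : Un} {Q : Qd} {κ σ : ℝ} {i j : FW} {η₁ : ℝ} {L' M' : Ln4}
    {z : ℝ} (hM' : TrueW κ σ j M') (hσ : 0 ≤ σ)
    {Γ V R X ρ' : ℝ} (hGi : ∀ k, |i.G k| ≤ Γ) (hGj : ∀ k, |j.G k| ≤ Γ)
    (hV' : ∀ k, |M'.v k| ≤ V)
    (hb' : Bent u Q κ σ i η₁ L' M' z) (hz : |u.zh z| + η₁ ≤ R)
    (hzj : |u.zh z - j.g 0| + η₁ ≤ ρ') {s : Fin 18 → ℝ}
    (hs : ∀ k, |coW κ i j k| ≤ s k) (hX : ∀ z', |z' - u.zh z| ≤ η₁ → ∀ k, |M'.pos z' k| ≤ X)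
    (hsm : σ * DW Γ R X V ρ' ≤ 1) :
    |Q.ev (u.zh z) (u.xh (L'.pos z))| ≤
      4 * (σ * (s 17 + ρ' * s 16 + ρ' ^ 2 * s 13 + σ * EW Γ R X V ρ')) := by
  obtain ⟨z2, c1, -, c4⟩ := hb'
  have t1 : |z2| ≤ R := by
    have := a2 c1 (le_refl |u.zh z|)
    rw [sub_add_cancel] at this
    linarith
  have t2 : |z2 - j.g 0| ≤ ρ' := by
    have := a2 c1 (le_refl |u.zh z - j.g 0|)
    rw [sub_add_sub_cancel] at this
    linarith
  exact c4.trans (mul_le_mul_of_nonneg_left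
    (GeoW778.q_bound hM' hσ hGi hGj hV' t1 (hX z2 c1) t2 hs hsm) (by norm_num))


end Crest.Agent.R136.GeoN778
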