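import Crest.Agent.R136.Sh1_605
import Crest.Agent.R136.GeoN4_778
import Crest.Agent.R136.GW5_650

-- ▼ part R136/Wit1_321
section

/-!
# R136: projective straightening of a quadric (helper321)

Points `(z, x)`, `x = (Y, A, B)`.  `Pj` : unipotent projective maps
`(z, Y, A, B) ↦ (z + a A + b B + y Y, Y, A, B + g Y + h A) / (1 + s A + r Y)`.

* `Pj.inv`, `Pj.line` (image of a line), `line_pos`;
* `pull` : `T² · q ∘ ψ`, again a polynomial of degree at most `2` (`pull_isQ`);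
* `Wq` : the general quadratic polynomial which vanishes on the `z`-axis, with
  gradient `(1 + γ z) dY - z dB - ζ z dA` there; `Wq.witt` : it is `T² ·` model `∘ ψ` **exactly**,
  model `= Y - z B - κ' A²`.
-/

set_option autoImplicit false
set_option linter.unusedVariables false

namespace Crest.Agent.R136.Wit321

open Crest.Agent.R136.Sh605

/-- a unipotent projective map: `T = 1 + s A + r Y`, `z' = z + a A + b B + y Y`,
`B' = B + g Y + h A` -/
structure Pj where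
  g : ℝ
  h : ℝ
  a : ℝ
  b : ℝ
  y : ℝ
  s : ℝ
  r : ℝ

namespace Pj

/-- the inverse map -/
def inv (P : Pj) : Pj := ⟨-P.g, -P.h, -(P.a - P.b * P.h), -P.b, -(P.y - P.b * P.g), -P.s, -P.r⟩

theorem inv_inv (P : Pj) : P.inv.inv = P := by
  cases P
  simp only [inv, Pj.mk.injEq]
  refine ⟨by ring, by ring, by ring, by ring, by ring, by ring, by ring⟩

/-- denominator -/
def T (P : Pj) (x : V3) : ℝ := 1 + P.s * x 1 + P.r * x 0

/-- homogeneous height -/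
def Z (P : Pj) (z : ℝ) (x : V3) : ℝ := z + P.a * x 1 + P.b * x 2 + P.y * x 0

/-- homogeneous position -/
def X (P : Pj) (x : V3) : V3 := ![x 0, x 1, x 2 + P.g * x 0 + P.h * x 1]

/-- new height -/
noncomputable def ht (P : Pj) (z : ℝ) (x : V3) : ℝ := P.Z z x / P.T x

/-- new position -/
noncomputable def pt (P : Pj) (x : V3) : V3 := fun i => P.X x i / P.T x

@[simp] theorem X_0 (P : Pj) (x : V3) : P.X x 0 = x 0 := rfl
@[simp] theorem X_1 (P : Pj) (x : V3) : P.X x 1 = x 1 := rfl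
@[simp] theorem X_2 (P : Pj) (x : V3) : P.X x 2 = x 2 + P.g * x 0 + P.h * x 1 := rfl

theorem inv_T (P : Pj) {x : V3} (h : P.T x ≠ 0) : P.inv.T (P.pt x) = 1 / P.T x := by
  simp only [T, inv, pt, X_0, X_1] at h ⊢
  field_simp
  ring

theorem inv_ht (P : Pj) {z : ℝ} {x : V3} (h : P.T x ≠ 0) : P.inv.ht (P.ht z x) (P.pt x) = z := by
  have h1 := P.inv_T h
  have h2 : P.inv.Z (P.ht z x) (P.pt x) = z / P.T x := by
    simp only [Z, inv, pt, ht, X_0, X_1, X_2]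
    field_simp
    ring
  unfold ht at h2 ⊢
  rw [h2, h1]
  field_simp

theorem inv_pt (P : Pj) {x : V3} (h : P.T x ≠ 0) : P.inv.pt (P.pt x) = x := by
  have h1 := P.inv_T h
  funext i
  change P.inv.X (P.pt x) i / P.inv.T (P.pt x) = x i
  rw [h1]
  have h3 : P.inv.X (P.pt x) i = x i / P.T x := by
    fin_cases i <;> simp only [Fin.zero_eta, Fin.mk_one, Fin.reduceFinMk, X_0, X_1, X_2, pt]
    simp only [inv]
    ring
  rw [h3]
  field_simp

/-! ### lines -/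

/-- `T` along the line: value at height `0` -/
def T0 (P : Pj) (t : Ln4) : ℝ := 1 + P.s * t.p 1 + P.r * t.p 0
/-- `T` along the line: slope -/
def T1 (P : Pj) (t : Ln4) : ℝ := P.s * t.v 1 + P.r * t.v 0
/-- `z'` along the line: value at height `0` -/
def Z0 (P : Pj) (t : Ln4) : ℝ := P.a * t.p 1 + P.b * t.p 2 + P.y * t.p 0
/-- `z'` along the line: slope -/
def Z1 (P : Pj) (t : Ln4) : ℝ := 1 + P.a * t.v 1 + P.b * t.v 2 + P.y * t.v 0
/-- the determinant -/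
def D (P : Pj) (t : Ln4) : ℝ := P.T0 t * P.Z1 t - P.T1 t * P.Z0 t

theorem T_pos (P : Pj) (t : Ln4) (z : ℝ) : P.T (t.pos z) = P.T0 t + z * P.T1 t := by
  simp only [T, T0, T1, Ln4.pos]; ring

theorem Z_pos (P : Pj) (t : Ln4) (z : ℝ) : P.Z z (t.pos z) = P.Z0 t + z * P.Z1 t := by
  simp only [Z, Z0, Z1, Ln4.pos]; ring

theorem X_pos (P : Pj) (t : Ln4) (z : ℝ) (i : Fin 3) :
    P.X (t.pos z) i = P.X t.p i + z * P.X t.v i := by
  fin_cases i <;> simp only [Fin.zero_eta, Fin.mk_one, Fin.reduceFinMk, X_0, X_1, X_2, Ln4.pos]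
  ring

/-- the image line -/
noncomputable def line (P : Pj) (t : Ln4) : Ln4 where
  p := fun i => (P.X t.p i * P.Z1 t - P.X t.v i * P.Z0 t) / P.D t
  v := fun i => (P.X t.v i * P.T0 t - P.X t.p i * P.T1 t) / P.D t

/-- the image line passes through the image points -/
theorem line_pos (P : Pj) {t : Ln4} {z : ℝ} (hD : P.D t ≠ 0) (hT : P.T (t.pos z) ≠ 0) :
    (P.line t).pos (P.ht z (t.pos z)) = P.pt (t.pos z) := by
  funext i
  have e1 : P.ht z (t.pos z) = (P.Z0 t + z * P.Z1 t) / P.T (t.pos z) := by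
    rw [ht, Z_pos]
  change (P.line t).p i + P.ht z (t.pos z) * (P.line t).v i = P.X (t.pos z) i / P.T (t.pos z)
  rw [e1, X_pos]
  simp only [line]
  rw [div_add' _ _ _ hD, div_eq_div_iff hD hT]
  have hT' := P.T_pos t z
  have hT2 : P.T0 t + z * P.T1 t ≠ 0 := by rw [← hT']; exact hT
  rw [hT']
  field_simp
  unfold D
  ring

end Pj

/-! ### quadratic polynomials -/

/-- affine functions -/
def IsA (f : ℝ → V3 → ℝ) : Prop :=
  ∃ (c0 c1 : ℝ) (b : V3), ∀ z x, f z x = c0 + c1 * z + ∑ i, b i * x i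

theorem IsA.mul {f h : ℝ → V3 → ℝ} (hf : IsA f) (hh : IsA h) : IsQ fun z x => f z x * h z x := by
  obtain ⟨c0, c1, b, hf⟩ := hf
  obtain ⟨k0, k1, d, hh⟩ := hh
  refine ⟨c0 * k0, c0 * k1 + c1 * k0, c1 * k1, fun i => c0 * d i + k0 * b i,
    fun i => c1 * d i + k1 * b i, fun i j => b i * d j, fun z x => ?_⟩
  simp only [hf, hh, Fin.sum_univ_three]
  ring







/-- pull back of a quadratic polynomial -/
noncomputable def pull (P : Pj) (q : ℝ → V3 → ℝ) (z : ℝ) (x : V3) : ℝ :=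
  P.T x ^ 2 * q (P.ht z x) (P.pt x)


/-! ### straightening -/

/-- quadratic polynomials vanishing on the `z`-axis with gradient
`(1 + γ z) dY - z dB - ζ z dA` there -/
structure Wq where
  γ : ℝ
  ζ : ℝ
  κ : ℝ
  c1 : ℝ
  c2 : ℝ
  c3 : ℝ
  c4 : ℝ
  c5 : ℝ

/-- the polynomial, `x = (Y, A, B)` -/
def Wq.q (w : Wq) (z : ℝ) (x : V3) : ℝ :=
  x 0 + w.γ * (z * x 0) - z * x 2 - w.ζ * (z * x 1) - w.κ * x 1 ^ 2 + w.c1 * (x 1 * x 2) +
    w.c2 * x 2 ^ 2 + w.c3 * (x 1 * x 0) + w.c4 * (x 2 * x 0) + w.c5 * x 0 ^ 2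

/-- curvature of the straightened quadric -/
def Wq.κ' (w : Wq) : ℝ := w.κ + w.c1 * w.ζ - w.c2 * w.ζ ^ 2

/-- the model quadric -/
def model (κ : ℝ) (z : ℝ) (x : V3) : ℝ := x 0 - z * x 2 - κ * x 1 ^ 2

/-- the straightening map -/
def Wq.pj (w : Wq) : Pj where
  g := -w.γ
  h := w.ζ
  a := -w.c1 + w.c2 * w.ζ
  b := -w.c2
  y := -(w.c4 + w.γ * w.c2)
  s := w.c3 + w.γ * w.c1 - 2 * w.c2 * w.ζ * w.γ - w.c4 * w.ζ
  r := w.c5 + w.γ * w.c4 + w.γ ^ 2 * w.c2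

/-- **Witt straightening** -/
theorem Wq.witt (w : Wq) (z : ℝ) (x : V3) :
    w.q z x = w.pj.T x * w.pj.X x 0 - w.pj.Z z x * w.pj.X x 2 - w.κ' * w.pj.X x 1 ^ 2 := by
  simp only [Wq.q, Wq.κ', Wq.pj, Pj.T, Pj.Z, Pj.X_0, Pj.X_1, Pj.X_2]
  ring

/-- **Witt straightening**, projective form -/
theorem Wq.witt' (w : Wq) {z : ℝ} {x : V3} (hT : w.pj.T x ≠ 0) :
    w.q z x = w.pj.T x ^ 2 * model w.κ' (w.pj.ht z x) (w.pj.pt x) := by
  rw [w.witt]
  simp only [model, Pj.ht, Pj.pt]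
  field_simp

end Crest.Agent.R136.Wit321
end

-- ▼ part R136/Wit2_321
section

/-!
# R136: estimates for the straightening map (helper321)

`Pj.Sm P η` : all coefficients of the projective map are at most `η`.

* `ht_near`, `pt_near`, `T_le` : the map is close to the identity; `D_near`, `line_near`.
* `pullQ` : pull back of a quadratic polynomial given by its coefficients; `pullQ_ev`;
  `pullQ_cl` : it is close to the polynomial; `nearG_pull` : gradient close to the model.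
* `ul` : a line in anisotropic units; `bent` : 778's `Bent` for the image line.
* `mkF`, `mkF_true` : the flag of a line, three coefficients adjusted.
-/

set_option autoImplicit false
set_option linter.unusedVariables false

namespace Crest.Agent.R136.Wit321

open Crest.Agent.R136.Sh605
open Crest.Agent.R136.NetW191
open Crest.Agent.R136.GeoN778
open Crest.Agent.R136.GeoW778 (qS TrueW evW_eq)

/-- all coefficients are at most `η` -/
structure Pj.Sm (P : Pj) (η : ℝ) : Prop where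
  g : |P.g| ≤ η
  h : |P.h| ≤ η
  a : |P.a| ≤ η
  b : |P.b| ≤ η
  y : |P.y| ≤ η
  s : |P.s| ≤ η
  r : |P.r| ≤ η

namespace Pj

variable {P : Pj} {η R : ℝ}

theorem Sm.nn (h : P.Sm η) : 0 ≤ η := (abs_nonneg _).trans h.g

theorem T_near (h : P.Sm η) {x : V3} (hx : ∀ k, |x k| ≤ R) : |P.T x - 1| ≤ 2 * (η * R) := by
  have e : P.T x - 1 = P.s * x 1 + P.r * x 0 := by simp only [T]; ring
  rw [e]
  exact (a2 (m2 h.s (hx 1)) (m2 h.r (hx 0))).trans (le_of_eq (by ring))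

theorem T_half (h : P.Sm η) {x : V3} (hx : ∀ k, |x k| ≤ R) (hη : 4 * (η * R) ≤ 1) :
    1 / 2 ≤ P.T x ∧ P.T x ≤ 3 / 2 := by
  have := abs_le.1 (T_near h hx)
  constructor <;> linarith [this.1, this.2]

theorem Z_near (h : P.Sm η) {z : ℝ} {x : V3} (hx : ∀ k, |x k| ≤ R) :
    |P.Z z x - z| ≤ 3 * (η * R) := by
  have e : P.Z z x - z = P.a * x 1 + P.b * x 2 + P.y * x 0 := by simp only [Z]; ring
  rw [e]
  exact (a2 (a2 (m2 h.a (hx 1)) (m2 h.b (hx 2))) (m2 h.y (hx 0))).trans (le_of_eq (by ring))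

theorem X_near (h : P.Sm η) {x : V3} (hx : ∀ k, |x k| ≤ R) (k : Fin 3) :
    |P.X x k - x k| ≤ 2 * (η * R) := by
  have hR : 0 ≤ η * R := mul_nonneg h.nn ((abs_nonneg _).trans (hx 0))
  fin_cases k
  · show |P.X x 0 - x 0| ≤ 2 * (η * R)
    rw [X_0, sub_self, abs_zero]; linarith
  · show |P.X x 1 - x 1| ≤ 2 * (η * R)
    rw [X_1, sub_self, abs_zero]; linarith
  · show |P.X x 2 - x 2| ≤ 2 * (η * R)
    rw [X_2]
    have e : x 2 + P.g * x 0 + P.h * x 1 - x 2 = P.g * x 0 + P.h * x 1 := by ring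
    rw [e]
    exact (a2 (m2 h.g (hx 0)) (m2 h.h (hx 1))).trans (le_of_eq (by ring))

/-- a quotient close to its numerator -/
theorem quot_near {N T u δ ε M : ℝ} (hN : |N - u| ≤ δ) (hT : |T - 1| ≤ ε) (hT' : 1 / 2 ≤ T)
    (hu : |u| ≤ M) : |N / T - u| ≤ 2 * (δ + M * ε) := by
  have hp : 0 < T := by linarith
  have e : N / T - u = ((N - u) - u * (T - 1)) / T := by field_simp; ring
  rw [e, abs_div, abs_of_pos hp, div_le_iff₀ hp]
  have := s2 hN (m2 hu hT)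
  have h0 := abs_nonneg ((N - u) - u * (T - 1))
  nlinarith

theorem ht_near (h : P.Sm η) {z : ℝ} {x : V3} (hx : ∀ k, |x k| ≤ R) (hz : |z| ≤ R) (hR : 1 ≤ R)
    (hη : 4 * (η * R) ≤ 1) : |P.ht z x - z| ≤ 10 * (η * R ^ 2) := by
  have := quot_near (Z_near h hx) (T_near h hx) (T_half h hx hη).1 hz
  refine this.trans ?_
  have := h.nn
  nlinarith [mul_nonneg this (sub_nonneg.2 hR), mul_nonneg (mul_nonneg this (sub_nonneg.2 hR))
    (by linarith : (0:ℝ) ≤ R)]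

theorem pt_near (h : P.Sm η) {x : V3} (hx : ∀ k, |x k| ≤ R) (hR : 1 ≤ R)
    (hη : 4 * (η * R) ≤ 1) (k : Fin 3) : |P.pt x k - x k| ≤ 8 * (η * R ^ 2) := by
  have := quot_near (X_near h hx k) (T_near h hx) (T_half h hx hη).1 (hx k)
  refine this.trans ?_
  have := h.nn
  nlinarith [mul_nonneg this (sub_nonneg.2 hR), mul_nonneg (mul_nonneg this (sub_nonneg.2 hR))
    (by linarith : (0:ℝ) ≤ R)]

/-! ### lines -/

variable {t : Ln4}

theorem lc (h : P.Sm η) (hp : ∀ k, |t.p k| ≤ R) (hv : ∀ k, |t.v k| ≤ R) :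
    |P.T0 t - 1| ≤ 2 * (η * R) ∧ |P.T1 t| ≤ 2 * (η * R) ∧ |P.Z0 t| ≤ 3 * (η * R) ∧
      |P.Z1 t - 1| ≤ 3 * (η * R) := by
  refine ⟨?_, ?_, ?_, ?_⟩
  · have e : P.T0 t - 1 = P.s * t.p 1 + P.r * t.p 0 := by simp only [T0]; ring
    rw [e]
    exact (a2 (m2 h.s (hp 1)) (m2 h.r (hp 0))).trans (le_of_eq (by ring))
  · exact (a2 (m2 h.s (hv 1)) (m2 h.r (hv 0))).trans (le_of_eq (by ring))
  · exact (a2 (a2 (m2 h.a (hp 1)) (m2 h.b (hp 2))) (m2 h.y (hp 0))).trans (le_of_eq (by ring))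
  · have e : P.Z1 t - 1 = P.a * t.v 1 + P.b * t.v 2 + P.y * t.v 0 := by simp only [Z1]; ring
    rw [e]
    exact (a2 (a2 (m2 h.a (hv 1)) (m2 h.b (hv 2))) (m2 h.y (hv 0))).trans (le_of_eq (by ring))

theorem D_near (h : P.Sm η) (hp : ∀ k, |t.p k| ≤ R) (hv : ∀ k, |t.v k| ≤ R)
    (hη : 20 * (η * R) ≤ 1) : |P.D t - 1| ≤ 6 * (η * R) := by
  obtain ⟨h0, h1, h2, h3⟩ := lc h hp hv
  have e : P.D t - 1 = (P.T0 t - 1) * (P.Z1 t - 1) + (P.T0 t - 1) + (P.Z1 t - 1) -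
      P.T1 t * P.Z0 t := by simp only [D]; ring
  rw [e]
  refine (s2 (a2 (a2 (m2 h0 h3) h0) h3) (m2 h1 h2)).trans ?_
  have hn : 0 ≤ η * R := by
    have := (abs_nonneg _).trans h1; linarith
  nlinarith

theorem D_half (h : P.Sm η) (hp : ∀ k, |t.p k| ≤ R) (hv : ∀ k, |t.v k| ≤ R)
    (hη : 20 * (η * R) ≤ 1) : 1 / 2 ≤ P.D t := by
  have := abs_le.1 (D_near h hp hv hη)
  have hn : 0 ≤ η * R := by
    have := (abs_nonneg _).trans (lc h hp hv).2.1; linarith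
  linarith [this.1]

theorem line_p (h : P.Sm η) (hp : ∀ k, |t.p k| ≤ R) (hv : ∀ k, |t.v k| ≤ R) (hR : 1 ≤ R)
    (hη : 20 * (η * R) ≤ 1) (k : Fin 3) : |(P.line t).p k - t.p k| ≤ 40 * (η * R ^ 2) := by
  obtain ⟨h0, h1, h2, h3⟩ := lc h hp hv
  have hn : 0 ≤ η * R := by
    have := (abs_nonneg _).trans h1; linarith
  have x1 := X_near h hp k
  have x2 := X_near h hv k
  have x2' : |P.X t.v k| ≤ 2 * R := by
    have e : P.X t.v k = (P.X t.v k - t.v k) + t.v k := by ring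
    rw [e]
    refine (a2 x2 (hv k)).trans ?_
    nlinarith
  have e : P.X t.p k * P.Z1 t - P.X t.v k * P.Z0 t - t.p k =
      (P.X t.p k - t.p k) * (P.Z1 t - 1) + (P.X t.p k - t.p k) + t.p k * (P.Z1 t - 1) -
        P.X t.v k * P.Z0 t := by ring
  have hN : |P.X t.p k * P.Z1 t - P.X t.v k * P.Z0 t - t.p k| ≤
      2 * (η * R) * (3 * (η * R)) + 2 * (η * R) + R * (3 * (η * R)) + 2 * R * (3 * (η * R)) := by
    rw [e]
    exact s2 (a2 (a2 (m2 x1 h3) x1) (m2 (hp k) h3)) (m2 x2' h2)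
  have := quot_near hN (D_near h hp hv hη) (D_half h hp hv hη) (hp k)
  refine this.trans ?_
  have e1 : 2 * (η * R) * (3 * (η * R)) ≤ η * R := by nlinarith
  have e2 : η * R ≤ η * R ^ 2 := by
    have := mul_le_mul_of_nonneg_left hR hn
    nlinarith
  have e3 : R * (3 * (η * R)) = 3 * (η * R ^ 2) := by ring
  have e4 : 2 * R * (3 * (η * R)) = 6 * (η * R ^ 2) := by ring
  have e5 : R * (6 * (η * R)) = 6 * (η * R ^ 2) := by ring
  rw [e3, e4, e5]
  nlinarith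

theorem line_v (h : P.Sm η) (hp : ∀ k, |t.p k| ≤ R) (hv : ∀ k, |t.v k| ≤ R) (hR : 1 ≤ R)
    (hη : 20 * (η * R) ≤ 1) (k : Fin 3) : |(P.line t).v k - t.v k| ≤ 40 * (η * R ^ 2) := by
  obtain ⟨h0, h1, h2, h3⟩ := lc h hp hv
  have hn : 0 ≤ η * R := by
    have := (abs_nonneg _).trans h1; linarith
  have x1 := X_near h hp k
  have x2 := X_near h hv k
  have x1' : |P.X t.p k| ≤ 2 * R := by
    have e : P.X t.p k = (P.X t.p k - t.p k) + t.p k := by ring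
    rw [e]
    refine (a2 x1 (hp k)).trans ?_
    nlinarith
  have e : P.X t.v k * P.T0 t - P.X t.p k * P.T1 t - t.v k =
      (P.X t.v k - t.v k) * (P.T0 t - 1) + (P.X t.v k - t.v k) + t.v k * (P.T0 t - 1) -
        P.X t.p k * P.T1 t := by ring
  have hN : |P.X t.v k * P.T0 t - P.X t.p k * P.T1 t - t.v k| ≤
      2 * (η * R) * (2 * (η * R)) + 2 * (η * R) + R * (2 * (η * R)) + 2 * R * (2 * (η * R)) := by
    rw [e]
    exact s2 (a2 (a2 (m2 x2 h0) x2) (m2 (hv k) h0)) (m2 x1' h1)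
  have := quot_near hN (D_near h hp hv hη) (D_half h hp hv hη) (hv k)
  refine this.trans ?_
  have e1 : 2 * (η * R) * (2 * (η * R)) ≤ η * R := by nlinarith
  have e2 : η * R ≤ η * R ^ 2 := by
    have := mul_le_mul_of_nonneg_left hR hn
    nlinarith
  have e3 : R * (2 * (η * R)) = 2 * (η * R ^ 2) := by ring
  have e4 : 2 * R * (2 * (η * R)) = 4 * (η * R ^ 2) := by ring
  have e5 : R * (6 * (η * R)) = 6 * (η * R ^ 2) := by ring
  rw [e3, e4, e5]
  nlinarith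

/-- the inverse map is small -/
theorem Sm.inv (h : P.Sm η) (hη : η ≤ 1) : P.inv.Sm (2 * η) := by
  have h0 := h.nn
  refine ⟨?_, ?_, ?_, ?_, ?_, ?_, ?_⟩
  · show |-P.g| ≤ 2 * η
    rw [abs_neg]; linarith [h.g]
  · show |-P.h| ≤ 2 * η
    rw [abs_neg]; linarith [h.h]
  · show |-(P.a - P.b * P.h)| ≤ 2 * η
    rw [abs_neg]
    refine (s2 h.a (m2 h.b h.h)).trans ?_
    nlinarith
  · show |-P.b| ≤ 2 * η
    rw [abs_neg]; linarith [h.b]
  · show |-(P.y - P.b * P.g)| ≤ 2 * η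
    rw [abs_neg]
    refine (s2 h.y (m2 h.b h.g)).trans ?_
    nlinarith
  · show |-P.s| ≤ 2 * η
    rw [abs_neg]; linarith [h.s]
  · show |-P.r| ≤ 2 * η
    rw [abs_neg]; linarith [h.r]

end Pj

/-! ### pull back, coefficients -/

/-- linear part of the denominator -/
def Pj.τ (P : Pj) : V3 := ![P.r, P.s, 0]
/-- linear part of the new height -/
def Pj.ζ (P : Pj) : V3 := ![P.y, P.a, P.b]
/-- matrix of the new position -/
def Pj.ξ (P : Pj) : Fin 3 → V3 := ![![1, 0, 0], ![0, 1, 0], ![P.g, P.h, 1]]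

/-- `ξ 2` off the diagonal -/
def Pj.χ (P : Pj) : V3 := ![P.g, P.h, 0]

/-- coefficients of `T² · Q ∘ ψ` -/
def pullQ (P : Pj) (Q : Qd) : Qd where
  c0 := Q.c0
  c1 := Q.c1
  c2 := Q.c2
  b := fun i => 2 * Q.c0 * P.τ i + Q.c1 * P.ζ i + ∑ k, Q.b k * P.ξ k i
  d := fun i => Q.c1 * P.τ i + 2 * Q.c2 * P.ζ i + ∑ k, Q.d k * P.ξ k i
  g := fun i j => Q.c0 * (P.τ i * P.τ j) + Q.c1 * (P.ζ i * P.τ j) + Q.c2 * (P.ζ i * P.ζ j) +
    ∑ k, (Q.b k * (P.ξ k i * P.τ j) + Q.d k * (P.ζ i * P.ξ k j)) +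
    ∑ k, ∑ l, Q.g k l * (P.ξ k i * P.ξ l j)

theorem pullQ_ev (P : Pj) (Q : Qd) {z : ℝ} {x : V3} (hT : P.T x ≠ 0) :
    (pullQ P Q).ev z x = P.T x ^ 2 * Q.ev (P.ht z x) (P.pt x) := by
  have e1 : P.T x ^ 2 * Q.ev (P.ht z x) (P.pt x) =
      Q.c0 * P.T x ^ 2 + Q.c1 * (P.Z z x * P.T x) + Q.c2 * P.Z z x ^ 2 +
        ∑ i, (Q.b i * P.T x + Q.d i * P.Z z x) * P.X x i +
        ∑ i, ∑ j, Q.g i j * (P.X x i * P.X x j) := by
    simp only [Qd.ev, Pj.ht, Pj.pt, Fin.sum_univ_three]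
    field_simp
  rw [e1]
  simp only [Qd.ev, pullQ, Pj.τ, Pj.ζ, Pj.ξ, Pj.T, Pj.Z, Pj.X_0, Pj.X_1, Pj.X_2,
    Fin.sum_univ_three, Matrix.cons_val]
  ring

/-- the coefficients of `Q` and `Q'` differ by at most `δ` -/
structure Cl (Q Q' : Qd) (δ : ℝ) : Prop where
  c0 : |Q.c0 - Q'.c0| ≤ δ
  c1 : |Q.c1 - Q'.c1| ≤ δ
  c2 : |Q.c2 - Q'.c2| ≤ δ
  b : ∀ i, |Q.b i - Q'.b i| ≤ δ
  d : ∀ i, |Q.d i - Q'.d i| ≤ δ
  g : ∀ i j, |Q.g i j - Q'.g i j| ≤ δ

/-- the coefficients of `Q` are at most `K` -/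
structure Sz (Q : Qd) (K : ℝ) : Prop where
  c0 : |Q.c0| ≤ K
  c1 : |Q.c1| ≤ K
  c2 : |Q.c2| ≤ K
  b : ∀ i, |Q.b i| ≤ K
  d : ∀ i, |Q.d i| ≤ K
  g : ∀ i j, |Q.g i j| ≤ K

theorem Cl.trans {Q Q' Q'' : Qd} {δ δ' : ℝ} (h : Cl Q Q' δ) (h' : Cl Q' Q'' δ') :
    Cl Q Q'' (δ + δ') where
  c0 := by have := a2 h.c0 h'.c0; rwa [sub_add_sub_cancel] at this
  c1 := by have := a2 h.c1 h'.c1; rwa [sub_add_sub_cancel] at this
  c2 := by have := a2 h.c2 h'.c2; rwa [sub_add_sub_cancel] at this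
  b := fun i => by have := a2 (h.b i) (h'.b i); rwa [sub_add_sub_cancel] at this
  d := fun i => by have := a2 (h.d i) (h'.d i); rwa [sub_add_sub_cancel] at this
  g := fun i j => by have := a2 (h.g i j) (h'.g i j); rwa [sub_add_sub_cancel] at this

theorem Cl.gr {Q Q' : Qd} {δ : ℝ} (h : Cl Q Q' δ) {z R : ℝ} {x : V3} (hz : |z| ≤ R)
    (hx : ∀ k, |x k| ≤ R) (k : Fin 3) : |Q.gr z x k - Q'.gr z x k| ≤ δ * (1 + 7 * R) := by
  have e : Q.gr z x k - Q'.gr z x k = (Q.b k - Q'.b k) + (Q.d k - Q'.d k) * z +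
      (((Q.g k 0 - Q'.g k 0) + (Q.g 0 k - Q'.g 0 k)) * x 0 +
      ((Q.g k 1 - Q'.g k 1) + (Q.g 1 k - Q'.g 1 k)) * x 1 +
      ((Q.g k 2 - Q'.g k 2) + (Q.g 2 k - Q'.g 2 k)) * x 2) := by
    simp only [Qd.gr, Fin.sum_univ_three]; ring
  rw [e]
  refine (a2 (a2 (h.b k) (m2 (h.d k) hz)) (a2 (a2 (m2 (a2 (h.g k 0) (h.g 0 k)) (hx 0))
    (m2 (a2 (h.g k 1) (h.g 1 k)) (hx 1))) (m2 (a2 (h.g k 2) (h.g 2 k)) (hx 2)))).trans ?_
  exact le_of_eq (by ring)

section pull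

variable {P : Pj} {η K : ℝ} {Q : Qd}

theorem tau_le (h : P.Sm η) (i : Fin 3) : |P.τ i| ≤ η := by
  fin_cases i
  · exact h.r
  · exact h.s
  · show |(0 : ℝ)| ≤ η
    rw [abs_zero]; exact h.nn

theorem zeta_le (h : P.Sm η) (i : Fin 3) : |P.ζ i| ≤ η := by
  fin_cases i
  · exact h.y
  · exact h.a
  · exact h.b

theorem xi_le (h : P.Sm η) (hη : η ≤ 1) (k i : Fin 3) : |P.ξ k i| ≤ 1 := by
  have := h.g
  have := h.h
  fin_cases k <;> fin_cases i <;> simp [Pj.ξ] <;> linarith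

theorem chi_le (h : P.Sm η) (i : Fin 3) : |P.χ i| ≤ η := by
  fin_cases i
  · exact h.g
  · exact h.h
  · show |(0 : ℝ)| ≤ η
    rw [abs_zero]; exact h.nn

/-- **the pull back is close to the polynomial** -/
theorem pullQ_cl (h : P.Sm η) (hη : η ≤ 1) (hQ : Sz Q K) : Cl (pullQ P Q) Q (12 * (η * K)) := by
  have χ := chi_le h
  have h0 := h.nn
  have hK : 0 ≤ K := (abs_nonneg _).trans hQ.c0
  have hηK : 0 ≤ η * K := mul_nonneg h0 hK
  have hg := h.g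
  have t := tau_le h
  have s := zeta_le h
  have x := xi_le h hη
  -- products
  have two : |(2 : ℝ)| ≤ 2 := by norm_num
  refine ⟨?_, ?_, ?_, ?_, ?_, ?_⟩
  · show |Q.c0 - Q.c0| ≤ _
    rw [sub_self, abs_zero]; positivity
  · show |Q.c1 - Q.c1| ≤ _
    rw [sub_self, abs_zero]; positivity
  · show |Q.c2 - Q.c2| ≤ _
    rw [sub_self, abs_zero]; positivity
  · intro i
    have e : (pullQ P Q).b i - Q.b i = 2 * Q.c0 * P.τ i + Q.c1 * P.ζ i + Q.b 2 * P.χ i := by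
      fin_cases i <;> simp [pullQ, Pj.ξ, Pj.χ, Fin.sum_univ_three] <;> ring
    rw [e]
    refine (a2 (a2 (m2 (m2 two hQ.c0) (t i)) (m2 hQ.c1 (s i))) (m2 (hQ.b 2) (χ i))).trans ?_
    nlinarith
  · intro i
    have e : (pullQ P Q).d i - Q.d i = Q.c1 * P.τ i + 2 * Q.c2 * P.ζ i + Q.d 2 * P.χ i := by
      fin_cases i <;> simp [pullQ, Pj.ξ, Pj.χ, Fin.sum_univ_three] <;> ring
    rw [e]
    refine (a2 (a2 (m2 hQ.c1 (t i)) (m2 (m2 two hQ.c2) (s i))) (m2 (hQ.d 2) (χ i))).trans ?_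
    nlinarith
  · intro i j
    have e : (pullQ P Q).g i j - Q.g i j = Q.c0 * (P.τ i * P.τ j) + Q.c1 * (P.ζ i * P.τ j) +
        Q.c2 * (P.ζ i * P.ζ j) + (Q.b 0 * (P.ξ 0 i * P.τ j) + Q.b 1 * (P.ξ 1 i * P.τ j) +
        Q.b 2 * (P.ξ 2 i * P.τ j)) + (Q.d 0 * (P.ζ i * P.ξ 0 j) + Q.d 1 * (P.ζ i * P.ξ 1 j) +
        Q.d 2 * (P.ζ i * P.ξ 2 j)) + (Q.g 2 j * P.χ i + Q.g i 2 * P.χ j +
        Q.g 2 2 * (P.χ i * P.χ j)) := by
      fin_cases i <;> fin_cases j <;>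
        simp [pullQ, Pj.ξ, Pj.χ, Fin.sum_univ_three] <;> ring
    have e3 := m2 (hQ.g 2 j) (χ i)
    have e4 := m2 (hQ.g i 2) (χ j)
    have e5 := m2 (hQ.g 2 2) (m2 (χ i) (χ j))
    rw [e]
    refine (a2 (a2 (a2 (a2 (a2 (m2 hQ.c0 (m2 (t i) (t j))) (m2 hQ.c1 (m2 (s i) (t j))))
      (m2 hQ.c2 (m2 (s i) (s j))))
      (a2 (a2 (m2 (hQ.b 0) (m2 (x 0 i) (t j))) (m2 (hQ.b 1) (m2 (x 1 i) (t j))))
        (m2 (hQ.b 2) (m2 (x 2 i) (t j)))))
      (a2 (a2 (m2 (hQ.d 0) (m2 (s i) (x 0 j))) (m2 (hQ.d 1) (m2 (s i) (x 1 j))))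
        (m2 (hQ.d 2) (m2 (s i) (x 2 j)))))
      (a2 (a2 e3 e4) e5)).trans ?_
    have : K * (η * η) ≤ K * η := by
      refine mul_le_mul_of_nonneg_left ?_ hK
      nlinarith
    nlinarith

end pull

/-! ### the model -/

/-- coefficients of `qS` -/
def qSd (κ σ : ℝ) (f : FW) : Qd where
  c0 := -(σ * f.G 13)
  c1 := -(σ * f.G 12)
  c2 := -(σ * f.G 9)
  b := ![1, -(σ * f.G 11), -(σ * f.G 10)]
  d := ![-(σ * f.G 4), -(σ * f.G 8), -1 - σ * f.G 7]
  g := ![![-(σ * f.G 0), -(σ * f.G 2), -(σ * f.G 1)], ![0, -κ - σ * f.G 6, -(σ * f.G 5)],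
    ![0, 0, -(σ * f.G 3)]]

theorem qSd_ev (κ σ : ℝ) (f : FW) (z : ℝ) (x : V3) : (qSd κ σ f).ev z x = qS κ σ f z x := by
  simp only [Qd.ev, qSd, qS, ht, evY, Fin.sum_univ_three, Matrix.cons_val]
  ring

/-- coefficients of the model quadric -/
def mod (κ : ℝ) : Qd where
  c0 := 0
  c1 := 0
  c2 := 0
  b := ![1, 0, 0]
  d := ![0, 0, -1]
  g := ![![0, 0, 0], ![0, -κ, 0], ![0, 0, 0]]


theorem mod_gr (κ z : ℝ) (x : V3) : (mod κ).gr z x = ![1, -2 * κ * x 1, -z] := by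
  funext k
  fin_cases k <;> simp [Qd.gr, mod, Fin.sum_univ_three] <;> ring

theorem qSd_cl {κ σ Γ : ℝ} {f : FW} (hσ : 0 ≤ σ) (hG : ∀ k, |f.G k| ≤ Γ) :
    Cl (qSd κ σ f) (mod κ) (σ * Γ) := by
  have hΓ : 0 ≤ Γ := (abs_nonneg _).trans (hG 0)
  have hn : 0 ≤ σ * Γ := mul_nonneg hσ hΓ
  have k : ∀ j, |-(σ * f.G j)| ≤ σ * Γ := by
    intro j
    rw [abs_neg, abs_mul, abs_of_nonneg hσ]
    exact mul_le_mul_of_nonneg_left (hG j) hσ
  have z : |(0 : ℝ)| ≤ σ * Γ := by rw [abs_zero]; exact hn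
  refine ⟨?_, ?_, ?_, ?_, ?_, ?_⟩
  · simpa [qSd, mod] using k 13
  · simpa [qSd, mod] using k 12
  · simpa [qSd, mod] using k 9
  · intro i
    fin_cases i
    · simpa [qSd, mod] using hn
    · simpa [qSd, mod] using k 11
    · simpa [qSd, mod] using k 10
  · intro i
    fin_cases i
    · simpa [qSd, mod] using k 4
    · simpa [qSd, mod] using k 8
    · have e : (qSd κ σ f).d 2 - (mod κ).d 2 = -(σ * f.G 7) := by simp [qSd, mod]; ring
      exact e ▸ k 7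
  · intro i j
    fin_cases i <;> fin_cases j
    · simpa [qSd, mod] using k 0
    · simpa [qSd, mod] using k 2
    · simpa [qSd, mod] using k 1
    · simpa [qSd, mod] using hn
    · have e : (qSd κ σ f).g 1 1 - (mod κ).g 1 1 = -(σ * f.G 6) := by simp [qSd, mod]; ring
      exact e ▸ k 6
    · simpa [qSd, mod] using k 5
    · simpa [qSd, mod] using hn
    · simpa [qSd, mod] using hn
    · simpa [qSd, mod] using k 3

theorem mod_sz {κ : ℝ} (hκ : |κ| ≤ 1) : Sz (mod κ) 1 := by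
  have z : |(0 : ℝ)| ≤ 1 := by norm_num
  refine ⟨z, z, z, ?_, ?_, ?_⟩
  · intro i; fin_cases i <;> simp [mod]
  · intro i; fin_cases i <;> simp [mod]
  · intro i j; fin_cases i <;> fin_cases j <;> simp [mod, hκ]

theorem Cl.sz {Q Q' : Qd} {δ K : ℝ} (h : Cl Q Q' δ) (h' : Sz Q' K) : Sz Q (δ + K) where
  c0 := by have := a2 h.c0 h'.c0; rwa [sub_add_cancel] at this
  c1 := by have := a2 h.c1 h'.c1; rwa [sub_add_cancel] at this
  c2 := by have := a2 h.c2 h'.c2; rwa [sub_add_cancel] at this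
  b := fun i => by have := a2 (h.b i) (h'.b i); rwa [sub_add_cancel] at this
  d := fun i => by have := a2 (h.d i) (h'.d i); rwa [sub_add_cancel] at this
  g := fun i j => by have := a2 (h.g i j) (h'.g i j); rwa [sub_add_cancel] at this

/-- polynomials close to the model have a gradient close to the model gradient -/
theorem Cl.nearG {Q : Qd} {κ δ : ℝ} (h : Cl Q (mod κ) δ) {z R η : ℝ} {x : V3} (hz : |z| ≤ R)
    (hx : ∀ k, |x k| ≤ R) (hη : δ * (1 + 7 * R) ≤ η) : NearG Q κ η z x := by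
  have k := fun j => (h.gr hz hx j).trans hη
  have e := mod_gr κ z x
  refine ⟨?_, ?_, ?_⟩
  · have := k 0
    rw [e] at this
    exact this
  · have := k 1
    rw [e] at this
    have e2 : Q.gr z x 1 + 2 * κ * x 1 = Q.gr z x 1 - (![1, -2 * κ * x 1, -z] : V3) 1 := by
      simp only [Matrix.cons_val]; ring
    rw [e2]
    exact this
  · have := k 2
    rw [e] at this
    have e2 : Q.gr z x 2 + z = Q.gr z x 2 - (![1, -2 * κ * x 1, -z] : V3) 2 := by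
      simp only [Matrix.cons_val]; ring
    rw [e2]
    exact this

/-- **the pull back of a flagged sheet is close to the model** -/
theorem pull_cl {P : Pj} {η κ σ Γ : ℝ} (h : P.Sm η) (hη : η ≤ 1) (hκ : |κ| ≤ 1) {f : FW}
    (hσ : 0 ≤ σ) (hG : ∀ k, |f.G k| ≤ Γ) (hs : σ * Γ ≤ 1) :
    Cl (pullQ P (qSd κ σ f)) (mod κ) (24 * η + σ * Γ) := by
  have h1 := qSd_cl (κ := κ) hσ hG
  have h2 := pullQ_cl h hη (h1.sz (mod_sz hκ))
  have h3 := h2.trans h1
  have h0 := h.nn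
  refine ⟨?_, ?_, ?_, fun i => ?_, fun i => ?_, fun i j => ?_⟩
  · exact h3.c0.trans (by nlinarith)
  · exact h3.c1.trans (by nlinarith)
  · exact h3.c2.trans (by nlinarith)
  · exact (h3.b i).trans (by nlinarith)
  · exact (h3.d i).trans (by nlinarith)
  · exact (h3.g i j).trans (by nlinarith)

/-! ### lines in anisotropic units -/

/-- a line in the units `u` -/
noncomputable def ul (u : Un) (t : Ln4) : Ln4 where
  p := fun k => (t.p k + u.zc * t.v k) / u.W k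
  v := fun k => u.H * t.v k / u.W k

theorem ul_pos {u : Un} (hu : u.Ok) (t : Ln4) (z : ℝ) : (ul u t).pos (u.zh z) = u.xh (t.pos z) := by
  funext k
  have hW := (hu.W0 k).ne'
  have hH := hu.H0.ne'
  simp only [ul, Ln4.pos, Un.zh, Un.xh]
  field_simp
  ring

/-- **bent lines**: the image line of a line of the container, and the pull back of a flagged
sheet. -/
theorem bent {u : Un} (hu : u.Ok) {P : Pj} {η R κ σ : ℝ} (h : P.Sm η) (hR : 1 ≤ R)
    (hη : 20 * (η * R) ≤ 1) {i : FW} {L : Ln4} {z : ℝ} (hz : |u.zh z| ≤ R)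
    (hp : ∀ k, |(ul u L).p k| ≤ R) (hv : ∀ k, |(ul u L).v k| ≤ R)
    (hx : ∀ k, |u.xh (L.pos z) k| ≤ R) :
    Bent u (pullQ P (qSd κ σ i)) κ σ i (10 * (η * R ^ 2)) L (P.line (ul u L)) z := by
  have h0 := h.nn
  have hn : 0 ≤ η * R := by positivity
  have h4 : 4 * (η * R) ≤ 1 := by linarith
  obtain ⟨t1, t2⟩ := Pj.T_half h hx h4
  have hT : P.T (u.xh (L.pos z)) ≠ 0 := by
    have : 0 < P.T (u.xh (L.pos z)) := by linarith
    exact this.ne'
  have hD : P.D (ul u L) ≠ 0 := by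
    have := Pj.D_half h hp hv hη
    have : 0 < P.D (ul u L) := by linarith
    exact this.ne'
  have hl := ul_pos hu L z
  have hpos : (P.line (ul u L)).pos (P.ht (u.zh z) (u.xh (L.pos z))) = P.pt (u.xh (L.pos z)) := by
    have := P.line_pos (t := ul u L) (z := u.zh z) hD (by rw [hl]; exact hT)
    rwa [hl] at this
  refine ⟨P.ht (u.zh z) (u.xh (L.pos z)), Pj.ht_near h hx hz hR h4, fun k => ?_, ?_⟩
  · rw [hpos, abs_sub_comm]
    refine (Pj.pt_near h hx hR h4 k).trans ?_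
    have : 0 ≤ η * R ^ 2 := by positivity
    linarith
  · rw [pullQ_ev P _ hT, qSd_ev, hpos, abs_mul]
    refine mul_le_mul_of_nonneg_right ?_ (abs_nonneg _)
    rw [abs_of_nonneg (sq_nonneg _)]
    nlinarith

/-! ### the flag of a line -/




end Crest.Agent.R136.Wit321
end

-- ▼ part R136/Wit4_321
section

/-!
# R136: classification of the sheets close to the container (helper321)

* `rem κ Q` : the fourteen coefficients of `Q - ν · model`, `ν = Q.b 0`; `ev_rem`, `rem_le`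
  (bounded by the values on the model quadric over the unit box).
* `flg κ σ Q` : the flag coefficients, `ev_flg` : `Q = ν (ht - σ evY (flg κ σ Q))`.
* `flg_le` : `|Q| ≤ δ` on the model quadric over the unit box gives `|flg| ≤ 6 δ / (ν σ)`.
* `lift_pt` : a point of the model quadric can be moved in the `Y` direction onto a flagged sheet.
* `sup_of_close` : two flagged sheets `M₁, M₂`; if `q₂` is small at the points of the sheet `M₁`,
  then `evY (M₁ - M₂)` is small at the points of the model quadric.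
-/

set_option autoImplicit false
set_option linter.unusedVariables false

namespace Crest.Agent.R136.Wit321

open Crest.Agent.R136.Sh605
open Crest.Agent.R136.NetW191
open Crest.Agent.R136.GeoN778
open Crest.Agent.R136.GeoW778 (qS TrueW evW_eq evY_sub evY_lip evW_bound)
open Crest.Agent.R136.CfW650 (coefW_unit)

/-- coefficients of `Q - ν · model` -/
def rem (κ : ℝ) (Q : Qd) : Fin 14 → ℝ :=
  ![Q.g 0 0, Q.g 0 2 + Q.g 2 0, Q.g 0 1 + Q.g 1 0, Q.g 2 2, Q.d 0, Q.g 1 2 + Q.g 2 1,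
    Q.g 1 1 + κ * Q.b 0, Q.d 2 + Q.b 0, Q.d 1, Q.c2, Q.b 2, Q.b 1, Q.c1, Q.c0]

theorem ev_rem (κ : ℝ) (Q : Qd) (z : ℝ) (x : V3) :
    Q.ev z x = Q.b 0 * ht κ z (x 1) (x 2) (x 0) + evY (rem κ Q) z (x 1) (x 2) (x 0) := by
  simp only [Qd.ev, rem, ht, evY, Fin.sum_univ_three, Matrix.cons_val]
  ring

/-- a point of the model quadric -/
def q0 (κ z a b : ℝ) : V3 := ![z * b + κ * a ^ 2, a, b]

theorem ht_q0 (κ z a b : ℝ) : ht κ z (q0 κ z a b 1) (q0 κ z a b 2) (q0 κ z a b 0) = 0 := by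
  simp only [ht, q0, Matrix.cons_val]; ring

theorem ev_q0 (κ : ℝ) (Q : Qd) (z a b : ℝ) :
    Q.ev z (q0 κ z a b) = CfW650.evW κ (rem κ Q) z a b := by
  rw [ev_rem, ht_q0, GW650.evW_evY]
  simp only [q0, Matrix.cons_val, mul_zero, zero_add]

/-- the remainder is bounded by the values on the model quadric -/
theorem rem_le {κ δ : ℝ} (hκ : |κ| ≤ 1) {Q : Qd}
    (h : ∀ z a b : ℝ, |z| ≤ 1 → |a| ≤ 1 → |b| ≤ 1 → |Q.ev z (q0 κ z a b)| ≤ δ) (k : Fin 14) :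
    |rem κ Q k| ≤ 6 * δ :=
  coefW_unit hκ (fun z a b hz ha hb => by rw [← ev_q0]; exact h z a b hz ha hb) k


/-- flag coefficients of a sheet -/
noncomputable def flg (κ σ : ℝ) (Q : Qd) : Fin 14 → ℝ := fun k => -rem κ Q k / (Q.b 0 * σ)

theorem evY_smul (c : ℝ) (G : Fin 14 → ℝ) (z A B Y : ℝ) :
    evY (fun k => c * G k) z A B Y = c * evY G z A B Y := by
  simp only [evY]; ring

theorem ev_flg {κ σ : ℝ} {Q : Qd} (hσ : σ ≠ 0) (hν : Q.b 0 ≠ 0) (z : ℝ) (x : V3) :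
    Q.ev z x = Q.b 0 * (ht κ z (x 1) (x 2) (x 0) - σ * evY (flg κ σ Q) z (x 1) (x 2) (x 0)) := by
  have e : evY (flg κ σ Q) z (x 1) (x 2) (x 0) =
      -(1 / (Q.b 0 * σ)) * evY (rem κ Q) z (x 1) (x 2) (x 0) := by
    rw [← evY_smul]
    congr 1
    funext k
    simp only [flg]
    ring
  rw [ev_rem κ, e]
  field_simp
  ring





end Crest.Agent.R136.Wit321
end

-- ▼ part R136/Wit3_321

/-!
# R136: bridge from the original geometry to normal coordinates, finite part (helper321)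

* `movQ f c Q` : the polynomial in the coordinates of a moving frame; `unQ u Q` : in anisotropic
  units; `hatQ_ev`.
* `wqOf`, `ev_wqOf` : a polynomial with adapted frame and units is `Wq`; `Wq.Sm` : small
  coefficients, `Wq.Sm.pj`, `Wq.Sm.kap`.
* `ev_pull_inv`, `nrm_thick` : thickness of a mark in normal coordinates.
* `nrm_lat` : lateral extents in normal coordinates.
* `close_pt` : closeness of two sheets at a point, in normal coordinates.
* `bdW_of` : 650's `BdW`.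
-/

set_option autoImplicit false
set_option linter.unusedVariables false

namespace Crest.Agent.R136.Wit321

open Crest.Agent.R136.Sh605
open Crest.Agent.R136.NetW191
open Crest.Agent.R136.GeoN778
open Crest.Agent.R136.GeoW778 (qS TrueW)

/-! ### change of coordinates -/

/-- the polynomial in the coordinates of the frame `f` moving along `c` -/
def movQ (f : Fin 3 → V3) (c : Ln4) (Q : Qd) : Qd where
  c0 := Q.c0 + ∑ i, Q.b i * c.p i + ∑ i, ∑ j, Q.g i j * (c.p i * c.p j)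
  c1 := Q.c1 + ∑ i, (Q.b i * c.v i + Q.d i * c.p i) +
    ∑ i, ∑ j, Q.g i j * (c.p i * c.v j + c.v i * c.p j)
  c2 := Q.c2 + ∑ i, Q.d i * c.v i + ∑ i, ∑ j, Q.g i j * (c.v i * c.v j)
  b := fun k => ∑ i, Q.b i * f k i + ∑ i, ∑ j, Q.g i j * (c.p i * f k j + f k i * c.p j)
  d := fun k => ∑ i, Q.d i * f k i + ∑ i, ∑ j, Q.g i j * (c.v i * f k j + f k i * c.v j)
  g := fun k l => ∑ i, ∑ j, Q.g i j * (f k i * f l j)

theorem movQ_ev (f : Fin 3 → V3) (c : Ln4) (Q : Qd) (z : ℝ) (y : V3) :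
    (movQ f c Q).ev z y =
      Q.ev z (fun i => c.pos z i + (y 0 * f 0 i + y 1 * f 1 i + y 2 * f 2 i)) := by
  simp only [movQ, Qd.ev, Ln4.pos, Fin.sum_univ_three]
  ring

theorem movQ_phi {f : Fin 3 → V3} (hf : Ortho f) (c : Ln4) (Q : Qd) (z : ℝ) (x : V3) :
    (movQ f c Q).ev z (phi f c z x) = Q.ev z x := by
  rw [movQ_ev]
  congr 1
  funext i
  have := hf.expand (x - c.pos z) i
  simp only [Pi.sub_apply] at this
  simp only [phi]
  linarith

/-- the polynomial in the units `u` -/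
noncomputable def unQ (u : Un) (Q : Qd) : Qd :=
  Q.scl 1 (-(u.zc / u.H)) (1 / u.H) (fun k => 1 / u.W k)

theorem unQ_ev {u : Un} (hu : u.Ok) (Q : Qd) (z : ℝ) (x : V3) :
    (unQ u Q).ev (u.zh z) (u.xh x) = Q.ev z x := by
  have hH := hu.H0.ne'
  have hW := fun k => (hu.W0 k).ne'
  unfold unQ
  rw [Q.scl_ev (one_div_ne_zero hH) (fun i => one_div_ne_zero (hW i)), one_mul]
  have e1 : (u.zh z - -(u.zc / u.H)) / (1 / u.H) = z := by
    simp only [Un.zh]; field_simp; ring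
  have e2 : (fun i => u.xh x i / (1 / u.W i)) = x := by
    funext i
    have := hW i
    simp only [Un.xh]
    field_simp
  rw [e1, e2]

/-- the polynomial in container coordinates -/
noncomputable def hatQ (f : Fin 3 → V3) (c : Ln4) (u : Un) (Q : Qd) : Qd := unQ u (movQ f c Q)

theorem hatQ_ev {f : Fin 3 → V3} (hf : Ortho f) (c : Ln4) {u : Un} (hu : u.Ok) (Q : Qd) (z : ℝ)
    (x : V3) : (hatQ f c u Q).ev (u.zh z) (u.xh (phi f c z x)) = Q.ev z x := by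
  unfold hatQ
  rw [unQ_ev hu, movQ_phi hf]

/-- along a line -/
theorem hatQ_line {f : Fin 3 → V3} (hf : Ortho f) (c : Ln4) {u : Un} (hu : u.Ok) (Q : Qd) (z : ℝ)
    (t : Ln4) : (hatQ f c u Q).ev (u.zh z) ((ul u (rl f c t)).pos (u.zh z)) =
      Q.ev z (t.pos z) := by
  rw [ul_pos hu, rl_pos, hatQ_ev hf c hu]

/-! ### adapted coordinates -/

/-- the normalised coefficients -/
noncomputable def wqOf (Q : Qd) : Wq where
  γ := Q.d 0 / Q.b 0
  ζ := -(Q.d 1 / Q.b 0)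
  κ := -(Q.g 1 1 / Q.b 0)
  c1 := (Q.g 1 2 + Q.g 2 1) / Q.b 0
  c2 := Q.g 2 2 / Q.b 0
  c3 := (Q.g 0 1 + Q.g 1 0) / Q.b 0
  c4 := (Q.g 0 2 + Q.g 2 0) / Q.b 0
  c5 := Q.g 0 0 / Q.b 0


/-- all coefficients but `κ` are small -/
structure Wq.Sm (w : Wq) (η : ℝ) : Prop where
  γ : |w.γ| ≤ η
  ζ : |w.ζ| ≤ η
  c1 : |w.c1| ≤ η
  c2 : |w.c2| ≤ η
  c3 : |w.c3| ≤ η
  c4 : |w.c4| ≤ η
  c5 : |w.c5| ≤ η

theorem Wq.Sm.pj {w : Wq} {η : ℝ} (h : w.Sm η) (hη : η ≤ 1) : w.pj.Sm (5 * η) := by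
  have h0 : 0 ≤ η := (abs_nonneg _).trans h.γ
  have q2 : η * η ≤ η := by nlinarith
  have q3 : η * η * η ≤ η := by nlinarith [mul_nonneg h0 h0]
  have two : |(2 : ℝ)| ≤ 2 := by norm_num
  refine ⟨?_, ?_, ?_, ?_, ?_, ?_, ?_⟩
  · show |-w.γ| ≤ _
    rw [abs_neg]; linarith [h.γ]
  · show |w.ζ| ≤ _
    linarith [h.ζ]
  · show |-w.c1 + w.c2 * w.ζ| ≤ _
    have hc : |-w.c1| ≤ η := by rw [abs_neg]; exact h.c1
    refine (a2 hc (m2 h.c2 h.ζ)).trans ?_
    linarith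
  · show |-w.c2| ≤ _
    rw [abs_neg]; linarith [h.c2]
  · show |-(w.c4 + w.γ * w.c2)| ≤ _
    rw [abs_neg]
    refine (a2 h.c4 (m2 h.γ h.c2)).trans ?_
    linarith
  · show |w.c3 + w.γ * w.c1 - 2 * w.c2 * w.ζ * w.γ - w.c4 * w.ζ| ≤ _
    refine (s2 (s2 (a2 h.c3 (m2 h.γ h.c1)) (m2 (m2 (m2 two h.c2) h.ζ) h.γ))
      (m2 h.c4 h.ζ)).trans ?_
    nlinarith
  · show |w.c5 + w.γ * w.c4 + w.γ ^ 2 * w.c2| ≤ _
    have g2 : |w.γ ^ 2| ≤ η * η := by rw [sq]; exact m2 h.γ h.γ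
    refine (a2 (a2 h.c5 (m2 h.γ h.c4)) (m2 g2 h.c2)).trans ?_
    linarith

theorem Wq.Sm.kap {w : Wq} {η : ℝ} (h : w.Sm η) (hη : η ≤ 1) : |w.κ' - w.κ| ≤ 2 * η := by
  have h0 : 0 ≤ η := (abs_nonneg _).trans h.γ
  have q2 : η * η ≤ η := by nlinarith
  have q3 : η * (η * η) ≤ η := by nlinarith [mul_nonneg h0 h0]
  have e : w.κ' - w.κ = w.c1 * w.ζ - w.c2 * w.ζ ^ 2 := by simp only [Wq.κ']; ring
  have g2 : |w.ζ ^ 2| ≤ η * η := by rw [sq]; exact m2 h.ζ h.ζ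
  rw [e]
  refine (s2 (m2 h.c1 h.ζ) (m2 h.c2 g2)).trans ?_
  linarith

/-! ### sheets in normal coordinates -/

theorem ev_pull_inv (P : Pj) (Q : Qd) {z : ℝ} {x : V3} (hT : P.T x ≠ 0) :
    (pullQ P.inv Q).ev (P.ht z x) (P.pt x) = Q.ev z x / P.T x ^ 2 := by
  have h1 := P.inv_T hT
  have h2 : P.inv.T (P.pt x) ≠ 0 := by rw [h1]; exact one_div_ne_zero hT
  rw [pullQ_ev _ _ h2, P.inv_ht hT, P.inv_pt hT, h1]
  field_simp

/-- values of a quadratic polynomial between and near its values at three points -/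
theorem quad_ext {p0 p1 p2 A s t w L z : ℝ} (hL : 0 < L) (hst : 3 / 8 * L ≤ t - s)
    (htw : 3 / 8 * L ≤ w - t) (h1 : |p0 + p1 * s + p2 * s ^ 2| ≤ A)
    (h2 : |p0 + p1 * t + p2 * t ^ 2| ≤ A) (h3 : |p0 + p1 * w + p2 * w ^ 2| ≤ A)
    (z1 : |z - s| ≤ 17 / 16 * L) (z2 : |z - t| ≤ 17 / 16 * L) (z3 : |z - w| ≤ 17 / 16 * L) :
    |p0 + p1 * z + p2 * z ^ 2| ≤ 25 * A := by
  have hA : 0 ≤ A := (abs_nonneg _).trans h1
  have e1 : 0 < t - s := by linarith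
  have e2 : 0 < w - t := by linarith
  have e3 : 0 < w - s := by linarith
  have n1 : t - s ≠ 0 := e1.ne'
  have n2 : w - t ≠ 0 := e2.ne'
  have n3 : w - s ≠ 0 := e3.ne'
  have id : p0 + p1 * z + p2 * z ^ 2 =
      (p0 + p1 * s + p2 * s ^ 2) * ((z - t) * (z - w) / ((t - s) * (w - s))) +
      (p0 + p1 * t + p2 * t ^ 2) * (-((z - s) * (z - w) / ((t - s) * (w - t)))) +
      (p0 + p1 * w + p2 * w ^ 2) * ((z - s) * (z - t) / ((w - s) * (w - t))) := by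
    field_simp
    ring
  have key : ∀ {a b c d : ℝ}, |a| ≤ 17 / 16 * L → |b| ≤ 17 / 16 * L → 3 / 8 * L ≤ c →
      3 / 8 * L ≤ d → |a * b / (c * d)| ≤ 25 / 3 := by
    intro a b c d ha hb hc hd
    have hc0 : 0 < c := by linarith
    have hd0 : 0 < d := by linarith
    rw [abs_div, abs_of_pos (mul_pos hc0 hd0), div_le_iff₀ (mul_pos hc0 hd0)]
    have := m2 ha hb
    have h4 : 3 / 8 * L * (3 / 8 * L) ≤ c * d := mul_le_mul hc hd (by positivity) hc0.le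
    nlinarith
  rw [id]
  have k1 := key z2 z3 hst (by linarith : 3 / 8 * L ≤ w - s)
  have k2 := key z1 z3 hst htw
  have k3 := key z1 z2 (by linarith : 3 / 8 * L ≤ w - s) htw
  rw [← abs_neg] at k2
  refine (a2 (a2 (m2 h1 k1) (m2 h2 k2)) (m2 h3 k3)).trans (le_of_eq (by ring))

/-- along a line a quadratic polynomial is quadratic -/
theorem Qd.ev_along (Q : Qd) (t : Ln4) : ∃ p0 p1 p2 : ℝ, ∀ z, Q.ev z (t.pos z) =
    p0 + p1 * z + p2 * z ^ 2 := by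
  refine ⟨Q.c0 + ∑ i, Q.b i * t.p i + ∑ i, ∑ j, Q.g i j * (t.p i * t.p j),
    Q.c1 + ∑ i, (Q.b i * t.v i + Q.d i * t.p i) +
      ∑ i, ∑ j, Q.g i j * (t.p i * t.v j + t.v i * t.p j),
    Q.c2 + ∑ i, Q.d i * t.v i + ∑ i, ∑ j, Q.g i j * (t.v i * t.v j), fun z => ?_⟩
  simp only [Qd.ev, Ln4.pos, Fin.sum_univ_three]
  ring

/-- **thickness in normal coordinates**: a line `t` (unit coordinates) lies in `{|Q| ≤ a}` over the
heights `[α, α + L]`; then its image lies in `{|pullQ P.inv Q| ≤ 100 a}` over the same heights. -/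
theorem nrm_thick {P : Pj} {η R α L a : ℝ} (h : P.Sm η) (hR : 1 ≤ R) (hη : 20 * (η * R) ≤ 1)
    (hL : 0 < L) (hη' : 160 * (η * R ^ 2) ≤ L) {Q : Qd} {t : Ln4} (hp : ∀ k, |t.p k| ≤ R)
    (hv : ∀ k, |t.v k| ≤ R)
    (hz : ∀ z, α ≤ z → z ≤ α + L → |z| ≤ R ∧ (∀ k, |t.pos z k| ≤ R) ∧ |Q.ev z (t.pos z)| ≤ a)
    {z : ℝ} (z0 : α ≤ z) (z1 : z ≤ α + L) :
    |(pullQ P.inv Q).ev z ((P.line t).pos z)| ≤ 100 * a := by
  have h0 := h.nn
  have hn : 0 ≤ η * R := by positivity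
  have h4 : 4 * (η * R) ≤ 1 := by linarith
  have hD : P.D t ≠ 0 := by
    have := Pj.D_half h hp hv hη
    have : 0 < P.D t := by linarith
    exact this.ne'
  obtain ⟨p0, p1, p2, hq⟩ := Qd.ev_along (pullQ P.inv Q) (P.line t)
  have node : ∀ s, α ≤ s → s ≤ α + L → |P.ht s (t.pos s) - s| ≤ L / 16 ∧
      |p0 + p1 * P.ht s (t.pos s) + p2 * P.ht s (t.pos s) ^ 2| ≤ 4 * a := by
    intro s s0 s1
    obtain ⟨b1, b2, b3⟩ := hz s s0 s1
    obtain ⟨t1, t2⟩ := Pj.T_half h b2 h4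
    have hT0 : 0 < P.T (t.pos s) := by linarith
    refine ⟨(Pj.ht_near h b2 b1 hR h4).trans (by linarith), ?_⟩
    rw [← hq, P.line_pos hD hT0.ne', ev_pull_inv P Q hT0.ne', abs_div,
      abs_of_pos (by positivity : 0 < P.T (t.pos s) ^ 2), div_le_iff₀ (by positivity)]
    have ha : 0 ≤ a := (abs_nonneg _).trans b3
    have h5 : 1 / 4 ≤ P.T (t.pos s) ^ 2 := by nlinarith
    nlinarith
  obtain ⟨u0, v0⟩ := node α le_rfl (by linarith)
  obtain ⟨u1, v1⟩ := node (α + L / 2) (by linarith) (by linarith)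
  obtain ⟨u2, v2⟩ := node (α + L) (by linarith) le_rfl
  rw [abs_le] at u0 u1 u2
  rw [hq]
  refine (quad_ext hL (by linarith [u0.2, u1.1]) (by linarith [u1.2, u2.1]) v0 v1 v2
    (abs_le.2 ⟨by linarith [u0.1, u0.2], by linarith [u0.1, u0.2]⟩)
    (abs_le.2 ⟨by linarith [u1.1, u1.2], by linarith [u1.1, u1.2]⟩)
    (abs_le.2 ⟨by linarith [u2.1, u2.2], by linarith [u2.1, u2.2]⟩)).trans (le_of_eq (by ring))


/-- **lateral extents in normal coordinates** -/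
theorem nrm_lat {P : Pj} {η R E wA wB : ℝ} (h : P.Sm η) (hR : 1 ≤ R) (hη : 20 * (η * R) ≤ 1)
    {t t' : Ln4} (hp : ∀ k, |t.p k| ≤ R) (hv : ∀ k, |t.v k| ≤ R) (hp' : ∀ k, |t'.p k| ≤ R)
    (hv' : ∀ k, |t'.v k| ≤ R) {z : ℝ} (hz : |z| ≤ R)
    (hA : |t'.pos z 1 - t.pos z 1| ≤ wA)
    (hB : |(t'.pos z 2 - t.pos z 2) - E * (t'.pos z 1 - t.pos z 1)| ≤ wB) :
    |(P.line t').pos z 1 - (P.line t).pos z 1| ≤ wA + 160 * (η * R ^ 3) ∧
    |((P.line t').pos z 2 - (P.line t).pos z 2) - E * ((P.line t').pos z 1 - (P.line t).pos z 1)| ≤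
      wB + 160 * (η * R ^ 3) * (1 + |E|) := by
  have h0 := h.nn
  have near : ∀ (s : Ln4), (∀ k, |s.p k| ≤ R) → (∀ k, |s.v k| ≤ R) → ∀ k,
      |(P.line s).pos z k - s.pos z k| ≤ 80 * (η * R ^ 3) := by
    intro s hs hs' k
    have e : (P.line s).pos z k - s.pos z k =
        ((P.line s).p k - s.p k) + z * ((P.line s).v k - s.v k) := by
      simp only [Ln4.pos]; ring
    rw [e]
    refine (a2 (Pj.line_p h hs hs' hR hη k) (m2 hz (Pj.line_v h hs hs' hR hη k))).trans ?_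
    have h1 : 0 ≤ η * R ^ 2 := by positivity
    have h2 : η * R ^ 2 ≤ η * R ^ 3 := by
      have : η * R ^ 3 = η * R ^ 2 * R := by ring
      rw [this]
      nlinarith
    have h3 : R * (40 * (η * R ^ 2)) = 40 * (η * R ^ 3) := by ring
    linarith
  have k1 := near t hp hv 1
  have k2 := near t hp hv 2
  have k1' := near t' hp' hv' 1
  have k2' := near t' hp' hv' 2
  constructor
  · have e : (P.line t').pos z 1 - (P.line t).pos z 1 = (t'.pos z 1 - t.pos z 1) +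
        (((P.line t').pos z 1 - t'.pos z 1) - ((P.line t).pos z 1 - t.pos z 1)) := by ring
    rw [e]
    exact (a2 hA (s2 k1' k1)).trans (le_of_eq (by ring))
  · have e : ((P.line t').pos z 2 - (P.line t).pos z 2) -
        E * ((P.line t').pos z 1 - (P.line t).pos z 1) =
        ((t'.pos z 2 - t.pos z 2) - E * (t'.pos z 1 - t.pos z 1)) +
        ((((P.line t').pos z 2 - t'.pos z 2) - ((P.line t).pos z 2 - t.pos z 2)) -
          E * (((P.line t').pos z 1 - t'.pos z 1) - ((P.line t).pos z 1 - t.pos z 1))) := by ring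
    rw [e]
    exact (a2 hB (s2 (s2 k2' k2) (m2 (le_refl |E|) (s2 k1' k1)))).trans (le_of_eq (by ring))



end Crest.Agent.R136.Wit321
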