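import Crest.Agent.R136.GD2_186
import Crest.Agent.R136.Lq1_196
import Crest.Agent.R136.PqG_464
import Crest.Agent.R136.Wq2_638
import Crest.Agent.R136.TopD_484

-- ▼ part R136/GD3_186
section

/-!
# R136, [GEO-D] for the straight chart, sequence form (helper186)

`FlatGeo` : the geometry contains the flat orthonormal boxes; `coS` : the scaled chart of the
incidences; `gd_geo` : the lines of a legal chart box, alive in a cell, lie in one admissible test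
set of the expected penalised size.
-/

set_option autoImplicit false
set_option linter.unusedVariables false

open Finset Filter Topology

namespace Crest.Agent.R136.GeoQ186

open Crest.Agent.R138.Ex926 (Base U)
open Crest.Agent.R138.Mk163 (zc zl rho)
open Crest.Agent.R136.MkA627
open Crest.Agent.R136.Net191
open Crest.Agent.R136.NetQ186
open Crest.Agent.R136.Sh605

/-- the line number `t` of stage `n` runs in the flat box over the cell `J` of level `i` -/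
def InFlat (L : ℕ → ℕ → Ln4) (n i : ℕ) (J : ℤ) (e : Fin 3 → V3) (c : Ln4) (a w1 w2 : ℝ)
    (t : ℕ) : Prop :=
  ∀ z, zl i J ≤ z → z ≤ zl i J + rho i →
    |dt (e 0) ((L n t).pos z - c.pos z)| ≤ a ∧ |dt (e 1) ((L n t).pos z - c.pos z)| ≤ w1 ∧
      |dt (e 2) ((L n t).pos z - c.pos z)| ≤ w2

/-- the geometry contains the flat boxes `a ≤ w2 ≤ w1 ≤ ρ`, `q 0` = reward of the thickness,
`q 1` = wide width, `q 2` = narrow width; `wr`, `cr` = range of the widths -/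
structure FlatGeo {σ κ : Type*} (G : Geo σ κ) (L : ℕ → ℕ → Ln4) (r0 : ℕ → ℝ)
    (wr cr : Fin 3 → ℕ → ℝ) (q : Fin 3 → ℝ) (C : ℝ) : Prop where
  C0 : 0 ≤ C
  flat : ∀ (n i : ℕ) (J : ℤ) (e : Fin 3 → V3) (c : Ln4) (a w1 w2 : ℝ), Ortho e → 0 < a →
    r0 n ≤ a → a ≤ w2 → w2 ≤ w1 → w1 ≤ rho i →
    (∀ k : Fin 3, wr k n ≤ ![a, w1, w2] k ∧ ![a, w1, w2] k ≤ cr k n) →
    ∃ s : σ, G.adm n i J s ∧
      G.val n i J s ≤ C * (a * w2 * w1 *
        ((a / rho i) ^ q 0 * (w1 / rho i) ^ q 1 * (w2 / rho i) ^ q 2)) ∧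
      ∀ t, InFlat L n i J e c a w1 w2 t → G.mem n i J s t

/-- the incidence `x` in the scaled straight chart -/
noncomputable def incS (π : Equiv.Perm (Fin 3)) (L : ℕ → ℕ → Ln4) (E Fa Fb : ℕ → ℕ × ℝ → ℝ)
    (H Wa Wb Wy : ℕ → ℝ) (n : ℕ) (x : ℕ × ℝ) : Fq4 :=
  scl (H n) (Wa n) (Wb n) (Wy n) (mkT (cLn π (L n x.1)) x.2 (E n x) (Fa n x) (Fb n x))

/-- the scaled straight chart -/
noncomputable def coS (π : Equiv.Perm (Fin 3)) (L : ℕ → ℕ → Ln4) (E Fa Fb : ℕ → ℕ × ℝ → ℝ)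
    (H Wa Wb Wy : ℕ → ℝ) (n : ℕ) (x y : ℕ × ℝ) : Fin 11 → ℝ :=
  coQ (incS π L E Fa Fb H Wa Wb Wy n x) (incS π L E Fa Fb H Wa Wb Wy n y)


/-- the height coordinate -/
theorem coS_z (π : Equiv.Perm (Fin 3)) (L : ℕ → ℕ → Ln4) (E Fa Fb : ℕ → ℕ × ℝ → ℝ)
    (H Wa Wb Wy : ℕ → ℝ) (n : ℕ) (x y : ℕ × ℝ) :
    coS π L E Fa Fb H Wa Wb Wy n x y 0 = H n * (y.2 - x.2) := by
  simp only [coS, incS, coQ, scl, mkT, Matrix.cons_val]
  ring

/-- the height coordinate, in the form of `PreQ.zco` -/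
theorem coS_zco (π : Equiv.Perm (Fin 3)) (L : ℕ → ℕ → Ln4) (E Fa Fb : ℕ → ℕ × ℝ → ℝ)
    (B : Base) (lev : ℕ → ℚ → ℕ) (w0 : ℝ) (Wa Wb Wy : ℕ → ℝ) (n : ℕ) (x y : ℕ × ℝ) :
    coS π L E Fa Fb (fun n => B.d n ^ w0 * 2 ^ lev n 0) Wa Wb Wy n x y 0 =
      B.d n ^ w0 * ((y.2 - x.2) * 2 ^ lev n 0) := by
  rw [coS_z]; ring

theorem mem_cell {i : ℕ} {J : ℤ} {z : ℝ} (h : zc i z = J) : zl i J ≤ z ∧ z ≤ zl i J + rho i := by
  have hp : (0 : ℝ) < 2 ^ i := by positivity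
  have h1 := Int.floor_le ((2 : ℝ) ^ i * z)
  have h2 := Int.lt_floor_add_one ((2 : ℝ) ^ i * z)
  unfold zc at h
  rw [h] at h1 h2
  unfold zl rho
  constructor
  · rw [div_le_iff₀ hp]; linarith
  · rw [← add_div, le_div_iff₀ hp]; linarith

/-- expected penalised size of the box with exponents `p`, in the units of the chart -/
noncomputable def Vn (q : Fin 3 → ℝ) (H Wa Wb Wy : ℝ) : ℝ :=
  Wy * Wb * Wa / H ^ 3 * (Wy ^ q 0 * Wa ^ q 1 * Wb ^ q 2)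

/-- exponent of the penalised size -/
def Dp (q : Fin 3 → ℝ) (p : Fin 11 → ℝ) : ℝ :=
  p 10 + p 9 + p 8 + (q 0 * (p 10 - p 0) + q 1 * (p 8 - p 0) + q 2 * (p 9 - p 0))

/-- the three sizes are ordered and above the resolution, up to `d^-ε` -/
structure Ord (B : Base) (r0 H Wa Wb Wy : ℕ → ℝ) (p : Fin 11 → ℝ) : Prop where
  ab : ∀ ε : ℝ, 0 < ε → ∀ᶠ n in (U : Filter ℕ),
    Wb n * B.d n ^ p 9 ≤ B.d n ^ (-ε) * (Wa n * B.d n ^ p 8)
  by' : ∀ ε : ℝ, 0 < ε → ∀ᶠ n in (U : Filter ℕ),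
    Wy n * B.d n ^ p 10 ≤ B.d n ^ (-ε) * (Wb n * B.d n ^ p 9)
  res : ∀ ε : ℝ, 0 < ε → ∀ᶠ n in (U : Filter ℕ),
    r0 n ≤ B.d n ^ (-ε) * (Wy n / H n * B.d n ^ p 10)
  cap : ∃ δ : ℝ, 0 < δ ∧ ∀ᶠ n in (U : Filter ℕ), Wa n * B.d n ^ (p 8 - p 0 - δ) ≤ 1

section aux

variable {d : ℝ}

theorem dpos (hd : 0 < d) (u : ℝ) : 0 < d ^ u := Real.rpow_pos_of_pos hd u

theorem dle (hd : 0 < d) (hd1 : d < 1) {u u' : ℝ} (h : u ≤ u') : d ^ u' ≤ d ^ u :=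
  Real.rpow_le_rpow_of_exponent_ge hd hd1.le h

/-- lateral size over the cell -/
theorem sz_lin (hd : 0 < d) (hd1 : d < 1) {K T t p0 v pX pC : ℝ} (wl : pX ≤ p0 + pC) (hT : 0 ≤ T)
    (ht : 0 < t) (hv : p0 = v + T) (hK : 1 ≤ K) (hKd : 8 * K ^ 3 ≤ d ^ (-t)) :
    K * d ^ pX + 2 * K * d ^ (v - t) * (K * d ^ pC) ≤ d ^ (pX - (2 * T + 3 * t)) := by
  have hK0 : 0 < K := by linarith
  have h1 : d ^ (v - t) * d ^ pC = d ^ (v - t + pC) := (Real.rpow_add hd _ _).symm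
  have h2 : d ^ (v - t + pC) ≤ d ^ (pX - (2 * T + 2 * t)) := dle hd hd1 (by linarith)
  have h3 : d ^ pX ≤ d ^ (pX - (2 * T + 2 * t)) := dle hd hd1 (by linarith)
  have h4 : d ^ (pX - (2 * T + 3 * t)) = d ^ (-t) * d ^ (pX - (2 * T + 2 * t)) := by
    rw [← Real.rpow_add hd]; congr 1; ring
  have h6 := dpos hd (pX - (2 * T + 2 * t))
  have hK1 : K ≤ K ^ 3 := by nlinarith [sq_nonneg K, mul_pos hK0 hK0]
  have hK2 : K ^ 2 ≤ K ^ 3 := by nlinarith [mul_pos hK0 hK0]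
  rw [h4]
  calc K * d ^ pX + 2 * K * d ^ (v - t) * (K * d ^ pC) =
      K * d ^ pX + 2 * K ^ 2 * (d ^ (v - t) * d ^ pC) := by ring
    _ ≤ K ^ 3 * d ^ (pX - (2 * T + 2 * t)) + 2 * K ^ 3 * d ^ (pX - (2 * T + 2 * t)) := by
        rw [h1]
        exact add_le_add (mul_le_mul hK1 h3 (dpos hd _).le (by positivity))
          (mul_le_mul (by linarith) h2 (dpos hd _).le (by positivity))
    _ = 3 * K ^ 3 * d ^ (pX - (2 * T + 2 * t)) := by ring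
    _ ≤ d ^ (-t) * d ^ (pX - (2 * T + 2 * t)) := by
        refine mul_le_mul_of_nonneg_right (le_trans ?_ hKd) h6.le
        have : 0 < K ^ 3 := by positivity
        linarith

/-- normal size over the cell -/
theorem sz_quad (hd : 0 < d) (hd1 : d < 1) {K T t p0 v pN pP pR : ℝ} (w10 : pN ≤ p0 + pP)
    (w7 : pP ≤ p0 + pR) (hT : 0 ≤ T) (ht : 0 < t) (hv : p0 = v + T) (hK : 1 ≤ K)
    (hKd : 8 * K ^ 3 ≤ d ^ (-t)) :
    K * d ^ pN + 2 * K * d ^ (v - t) * (K * d ^ pP) + (2 * K * d ^ (v - t)) ^ 2 * (K * d ^ pR) ≤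
      d ^ (pN - (2 * T + 3 * t)) := by
  have hK0 : 0 < K := by linarith
  have h1 : d ^ (v - t) * d ^ pP = d ^ (v - t + pP) := (Real.rpow_add hd _ _).symm
  have h1' : d ^ (v - t) * d ^ (v - t) * d ^ pR = d ^ (v - t + (v - t) + pR) := by
    rw [Real.rpow_add hd, Real.rpow_add hd]
  have h2 : d ^ (v - t + pP) ≤ d ^ (pN - (2 * T + 2 * t)) := dle hd hd1 (by linarith)
  have h2' : d ^ (v - t + (v - t) + pR) ≤ d ^ (pN - (2 * T + 2 * t)) :=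
    dle hd hd1 (by linarith)
  have h3 : d ^ pN ≤ d ^ (pN - (2 * T + 2 * t)) := dle hd hd1 (by linarith)
  have h4 : d ^ (pN - (2 * T + 3 * t)) = d ^ (-t) * d ^ (pN - (2 * T + 2 * t)) := by
    rw [← Real.rpow_add hd]; congr 1; ring
  have h6 := dpos hd (pN - (2 * T + 2 * t))
  have hK1 : K ≤ K ^ 3 := by nlinarith [sq_nonneg K, mul_pos hK0 hK0]
  have hK2 : K ^ 2 ≤ K ^ 3 := by nlinarith [mul_pos hK0 hK0]
  rw [h4]
  calc K * d ^ pN + 2 * K * d ^ (v - t) * (K * d ^ pP) +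
        (2 * K * d ^ (v - t)) ^ 2 * (K * d ^ pR) =
      K * d ^ pN + 2 * K ^ 2 * (d ^ (v - t) * d ^ pP) +
        4 * K ^ 3 * (d ^ (v - t) * d ^ (v - t) * d ^ pR) := by ring
    _ ≤ K ^ 3 * d ^ (pN - (2 * T + 2 * t)) + 2 * K ^ 3 * d ^ (pN - (2 * T + 2 * t)) +
        4 * K ^ 3 * d ^ (pN - (2 * T + 2 * t)) := by
        rw [h1, h1']
        exact add_le_add (add_le_add (mul_le_mul hK1 h3 (dpos hd _).le (by positivity))
          (mul_le_mul (by linarith) h2 (dpos hd _).le (by positivity)))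
          (mul_le_mul_of_nonneg_left h2' (by positivity))
    _ = 7 * K ^ 3 * d ^ (pN - (2 * T + 2 * t)) := by ring
    _ ≤ d ^ (-t) * d ^ (pN - (2 * T + 2 * t)) := by
        refine mul_le_mul_of_nonneg_right (le_trans ?_ hKd) h6.le
        have : 0 < K ^ 3 := by positivity
        linarith

/-- the order of two sizes, shifted -/
theorem ord_shift (hd : 0 < d) {W W' H t x y : ℝ} (hH : 0 < H)
    (h : W * d ^ x ≤ d ^ (-t) * (W' * d ^ y)) (u : ℝ) :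
    W / H * d ^ (x - u) ≤ W' / H * d ^ (y - u - t) := by
  have e1 : W / H * d ^ (x - u) = (W * d ^ x) * (d ^ (-u) / H) := by
    rw [sub_eq_add_neg, Real.rpow_add hd]; ring
  have e2 : W' / H * d ^ (y - u - t) = (d ^ (-t) * (W' * d ^ y)) * (d ^ (-u) / H) := by
    rw [show y - u - t = y + -u + -t by ring, Real.rpow_add hd, Real.rpow_add hd]; ring
  rw [e1, e2]
  exact mul_le_mul_of_nonneg_right h (by have := dpos hd (-u); positivity)

/-- quotient by the length of the cell -/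
theorem quo_bd (hd : 0 < d) (hd1 : d < 1) {H ρ v t p0 T W : ℝ} (hH : 0 < H) (hρ : 0 < ρ)
    (hlo : d ^ (v + t) ≤ H * ρ) (hv : p0 = v + T) (hT : 0 ≤ T) (hW : 0 < W) (u : ℝ) :
    W / H * d ^ u / ρ ≤ W * d ^ (u - p0 - t) := by
  have e1 : W / H * d ^ u / ρ = W * d ^ u / (H * ρ) := by field_simp
  rw [e1, div_le_iff₀ (mul_pos hH hρ)]
  have h1 : W * d ^ (u - p0 - t) * d ^ (v + t) ≤ W * d ^ (u - p0 - t) * (H * ρ) :=
    mul_le_mul_of_nonneg_left hlo (by have := dpos hd (u - p0 - t); positivity)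
  refine le_trans ?_ h1
  rw [mul_assoc, ← Real.rpow_add hd]
  exact mul_le_mul_of_nonneg_left (dle hd hd1 (by linarith)) hW.le

/-- one factor of the reward -/
theorem rew_bd (hd : 0 < d) {W X q u : ℝ} (hW : 0 < W) (hX : 0 ≤ X) (hq : 0 ≤ q)
    (h : X ≤ W * d ^ u) : X ^ q ≤ W ^ q * d ^ (u * q) := by
  refine (Real.rpow_le_rpow hX h hq).trans (le_of_eq ?_)
  rw [Real.mul_rpow hW.le (dpos hd _).le, ← Real.rpow_mul hd.le]

/-- the penalised size -/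
theorem val_bd (hd : 0 < d) (hd1 : d < 1) {H ρ v t p0 T Wy Wa Wb : ℝ} {q : Fin 3 → ℝ}
    (hq : ∀ j, 0 ≤ q j) (hH : 0 < H) (hρ : 0 < ρ) (hlo : d ^ (v + t) ≤ H * ρ) (hv : p0 = v + T)
    (hT : 0 ≤ T) (ht : 0 < t) (hy : 0 < Wy) (ha : 0 < Wa) (hb : 0 < Wb) {CG : ℝ} (hC0 : 0 ≤ CG)
    (hC : CG ≤ d ^ (-t)) (x0 x1 x2 lam : ℝ) :
    CG * ((Wy / H * d ^ (x0 - lam - t)) * (Wb / H * d ^ (x2 - lam - 3 * t)) *
      (Wa / H * d ^ (x1 - lam - 5 * t)) *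
      (((Wy / H * d ^ (x0 - lam - t)) / ρ) ^ q 0 * ((Wa / H * d ^ (x1 - lam - 5 * t)) / ρ) ^ q 1 *
        ((Wb / H * d ^ (x2 - lam - 3 * t)) / ρ) ^ q 2)) ≤
    Vn q H Wa Wb Wy * d ^ (x0 + x2 + x1 + (q 0 * (x0 - p0) + q 1 * (x1 - p0) + q 2 * (x2 - p0)) -
      ((3 + (q 0 + q 1 + q 2)) * lam + (10 + 6 * (q 0 + q 1 + q 2)) * t)) := by
  have d0 := dpos hd (x0 - lam - t)
  have d1 := dpos hd (x1 - lam - 5 * t)
  have d2 := dpos hd (x2 - lam - 3 * t)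
  have q0 := quo_bd hd hd1 hH hρ hlo hv hT hy (x0 - lam - t)
  have q1 := quo_bd hd hd1 hH hρ hlo hv hT ha (x1 - lam - 5 * t)
  have q2 := quo_bd hd hd1 hH hρ hlo hv hT hb (x2 - lam - 3 * t)
  have b0 := rew_bd hd hy (X := (Wy / H * d ^ (x0 - lam - t)) / ρ)
    (u := x0 - p0 - lam - 6 * t) (by positivity) (hq 0)
    (q0.trans (mul_le_mul_of_nonneg_left (dle hd hd1 (by linarith)) hy.le))
  have b1 := rew_bd hd ha (X := (Wa / H * d ^ (x1 - lam - 5 * t)) / ρ)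
    (u := x1 - p0 - lam - 6 * t) (by positivity) (hq 1)
    (q1.trans (mul_le_mul_of_nonneg_left (dle hd hd1 (by linarith)) ha.le))
  have b2 := rew_bd hd hb (X := (Wb / H * d ^ (x2 - lam - 3 * t)) / ρ)
    (u := x2 - p0 - lam - 6 * t) (by positivity) (hq 2)
    (q2.trans (mul_le_mul_of_nonneg_left (dle hd hd1 (by linarith)) hb.le))
  have n0 : 0 ≤ ((Wy / H * d ^ (x0 - lam - t)) / ρ) ^ q 0 := Real.rpow_nonneg (by positivity) _
  have n1 : 0 ≤ ((Wa / H * d ^ (x1 - lam - 5 * t)) / ρ) ^ q 1 := Real.rpow_nonneg (by positivity) _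
  have n2 : 0 ≤ ((Wb / H * d ^ (x2 - lam - 3 * t)) / ρ) ^ q 2 := Real.rpow_nonneg (by positivity) _
  have hprod := mul_le_mul (mul_le_mul b0 b1 n1 (n0.trans b0)) b2 n2
    (mul_nonneg (n0.trans b0) (n1.trans b1))
  have hX : 0 ≤ (Wy / H * d ^ (x0 - lam - t)) * (Wb / H * d ^ (x2 - lam - 3 * t)) *
      (Wa / H * d ^ (x1 - lam - 5 * t)) := by positivity
  refine (mul_le_mul hC (mul_le_mul_of_nonneg_left hprod hX)
    (mul_nonneg hX (mul_nonneg (mul_nonneg n0 n1) n2)) (dpos hd _).le).trans (le_of_eq ?_)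
  have e1 : d ^ (x0 + x2 + x1 + (q 0 * (x0 - p0) + q 1 * (x1 - p0) + q 2 * (x2 - p0)) -
      ((3 + (q 0 + q 1 + q 2)) * lam + (10 + 6 * (q 0 + q 1 + q 2)) * t)) =
      d ^ (-t) * d ^ (x0 - lam - t) * d ^ (x2 - lam - 3 * t) * d ^ (x1 - lam - 5 * t) *
      d ^ ((x0 - p0 - lam - 6 * t) * q 0) * d ^ ((x1 - p0 - lam - 6 * t) * q 1) *
      d ^ ((x2 - p0 - lam - 6 * t) * q 2) := by
    rw [← Real.rpow_add hd, ← Real.rpow_add hd, ← Real.rpow_add hd, ← Real.rpow_add hd,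
      ← Real.rpow_add hd, ← Real.rpow_add hd]
    congr 1
    ring
  rw [e1]
  unfold Vn
  ring

end aux

section fin

variable {σ κ : Type*} {G : Geo σ κ} {L : ℕ → ℕ → Ln4} {r0 : ℕ → ℝ} {wr cr : Fin 3 → ℕ → ℝ}
  {q : Fin 3 → ℝ} {CG : ℝ}
  {π : Equiv.Perm (Fin 3)} {E Fa Fb : ℕ → ℕ × ℝ → ℝ} {H Wa Wb Wy : ℕ → ℝ} {n i : ℕ}
  {d K T t δ v : ℝ} {p : Fin 11 → ℝ} {x : ℕ × ℝ}

/-- distance of the heights -/
theorem win_dist (hd : 0 < d) (hd1 : d < 1) (hH : 0 < H n) (hT : 0 ≤ T) (ht : 0 < t)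
    (hv : p 0 = v + T) (hK : 1 ≤ K) (hhi : H n * rho i ≤ d ^ (v - t)) {J : ℤ} {y : ℕ × ℝ}
    (hnear : Near (coS π L E Fa Fb H Wa Wb Wy n) d p K x y) (hyJ : zc i y.2 = J) {z : ℝ}
    (hz0 : zl i J ≤ z) (hz1 : z ≤ zl i J + rho i) : |z - x.2| ≤ 2 * K * d ^ (v - t) / H n := by
  obtain ⟨k1, k2⟩ := mem_cell hyJ
  have h1 := hnear 0
  rw [coS_z, abs_mul, abs_of_pos hH, hv] at h1
  have h2 : |z - y.2| ≤ rho i := by
    rw [abs_le]; constructor <;> linarith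
  have h3 : |z - x.2| ≤ |z - y.2| + |y.2 - x.2| := by
    have := abs_add_le (z - y.2) (y.2 - x.2)
    rwa [show z - y.2 + (y.2 - x.2) = z - x.2 by ring] at this
  rw [le_div_iff₀ hH]
  have h5 : K * d ^ (v + T) ≤ K * d ^ (v - t) :=
    mul_le_mul_of_nonneg_left (dle hd hd1 (by linarith)) (by linarith)
  have h6 : |z - y.2| * H n ≤ d ^ (v - t) := by
    refine le_trans ?_ hhi
    rw [mul_comm (H n)]
    exact mul_le_mul_of_nonneg_right h2 hH.le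
  have h7 : d ^ (v - t) ≤ K * d ^ (v - t) := le_mul_of_one_le_left (dpos hd _).le hK
  have h8 := mul_le_mul_of_nonneg_right h3 hH.le
  linarith

/-- finite form, all exponents explicit. `v = w0 + v'`, `p 0 = v + T`. -/
theorem gd_fin (hG : FlatGeo G L r0 wr cr q CG) (hq : ∀ j, 0 ≤ q j) (hd : 0 < d) (hd1 : d < 1)
    (hE : |E n x| ≤ 1) (hFa : |Fa n x| ≤ 1) (hFb : |Fb n x| ≤ 1) (hH : 0 < H n) (ha : 0 < Wa n)
    (hb : 0 < Wb n) (hy : 0 < Wy n)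
    (w8 : p 8 ≤ p 0 + p 5) (w9 : p 9 ≤ p 0 + p 6) (w10 : p 10 ≤ p 0 + p 7) (w7 : p 7 ≤ p 0 + p 1)
    (hT : 0 ≤ T) (ht : 0 < t) (hv : p 0 = v + T) (hK : 1 ≤ K)
    (hlo : d ^ (v + t) ≤ H n * rho i) (hhi : H n * rho i ≤ d ^ (v - t))
    (hKd : 8 * K ^ 3 ≤ d ^ (-t))
    (hab : Wb n * d ^ p 9 ≤ d ^ (-t) * (Wa n * d ^ p 8))
    (hby : Wy n * d ^ p 10 ≤ d ^ (-t) * (Wb n * d ^ p 9))
    (hres : r0 n ≤ d ^ (-t) * (Wy n / H n * d ^ p 10))
    (hn0 : wr 0 n ≤ Wy n / H n * d ^ p 10)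
    (hn1 : wr 1 n ≤ Wa n / H n * d ^ p 8) (hn2 : wr 2 n ≤ Wb n / H n * d ^ p 9)
    (hx0 : Wy n / H n * d ^ (p 10 - δ) ≤ cr 0 n)
    (hx1 : Wa n / H n * d ^ (p 8 - δ) ≤ cr 1 n) (hx2 : Wb n / H n * d ^ (p 9 - δ) ≤ cr 2 n)
    (hcap : Wa n * d ^ (p 8 - p 0 - δ) ≤ 1) (hδ : 2 * T + 9 * t ≤ δ)
    (hC : CG ≤ d ^ (-t)) (J : ℤ) :
    ∃ s : σ, G.adm n i J s ∧
      G.val n i J s ≤ Vn q (H n) (Wa n) (Wb n) (Wy n) *
        d ^ (Dp q p - ((3 + (q 0 + q 1 + q 2)) * (2 * T + 3 * t) +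
          (10 + 6 * (q 0 + q 1 + q 2)) * t)) ∧
      ∀ y : ℕ × ℝ, Near (coS π L E Fa Fb H Wa Wb Wy n) d p K x y → zc i y.2 = J →
        G.mem n i J s y.1 := by
  have hρ : 0 < rho i := by unfold rho; positivity
  have ordby := ord_shift hd hH hby
  have ordab := ord_shift hd hH hab
  have pa : 0 < Wy n / H n * d ^ (p 10 - (2 * T + 3 * t) - t) :=
    mul_pos (div_pos hy hH) (dpos hd _)
  have haw : Wy n / H n * d ^ (p 10 - (2 * T + 3 * t) - t) ≤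
      Wb n / H n * d ^ (p 9 - (2 * T + 3 * t) - 3 * t) := by
    have h1 := ordby ((2 * T + 3 * t) + t)
    rw [show p 10 - ((2 * T + 3 * t) + t) = p 10 - (2 * T + 3 * t) - t by ring] at h1
    exact h1.trans (mul_le_mul_of_nonneg_left (dle hd hd1 (by linarith)) (by positivity))
  have hww : Wb n / H n * d ^ (p 9 - (2 * T + 3 * t) - 3 * t) ≤
      Wa n / H n * d ^ (p 8 - (2 * T + 3 * t) - 5 * t) := by
    have h1 := ordab ((2 * T + 3 * t) + 3 * t)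
    rw [show p 9 - ((2 * T + 3 * t) + 3 * t) = p 9 - (2 * T + 3 * t) - 3 * t by ring] at h1
    exact h1.trans (mul_le_mul_of_nonneg_left (dle hd hd1 (by linarith)) (by positivity))
  have hra : r0 n ≤ Wy n / H n * d ^ (p 10 - (2 * T + 3 * t) - t) := by
    refine hres.trans (le_of_eq_of_le (b := Wy n / H n * d ^ (p 10 - t)) ?_ ?_)
    · rw [sub_eq_add_neg, Real.rpow_add hd]; ring
    · exact mul_le_mul_of_nonneg_left (dle hd hd1 (by linarith)) (by positivity)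
  have hw1ρ : Wa n / H n * d ^ (p 8 - (2 * T + 3 * t) - 5 * t) ≤ rho i := by
    have h1 := quo_bd hd hd1 hH hρ hlo hv hT ha (p 8 - (2 * T + 3 * t) - 5 * t)
    have h2 : Wa n * d ^ (p 8 - (2 * T + 3 * t) - 5 * t - p 0 - t) ≤ Wa n * d ^ (p 8 - p 0 - δ) :=
      mul_le_mul_of_nonneg_left (dle hd hd1 (by linarith)) ha.le
    have h3 := h1.trans (h2.trans hcap)
    rwa [div_le_one hρ] at h3
  obtain ⟨s, hadm, hval, hmem⟩ := hG.flat n i J (fpv π (fr (Fa n x) (Fb n x) (E n x)))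
    (L n x.1) _ _ _ (fr_adm π hFa hFb hE).ortho pa hra haw hww hw1ρ
    (fun k => by
      fin_cases k
      · exact ⟨hn0.trans (mul_le_mul_of_nonneg_left (dle hd hd1 (by linarith)) (by positivity)),
          (mul_le_mul_of_nonneg_left (dle hd hd1 (by linarith)) (by positivity)).trans hx0⟩
      · exact ⟨hn1.trans (mul_le_mul_of_nonneg_left (dle hd hd1 (by linarith)) (by positivity)),
          (mul_le_mul_of_nonneg_left (dle hd hd1 (by linarith)) (by positivity)).trans hx1⟩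
      · exact ⟨hn2.trans (mul_le_mul_of_nonneg_left (dle hd hd1 (by linarith)) (by positivity)),
          (mul_le_mul_of_nonneg_left (dle hd hd1 (by linarith)) (by positivity)).trans hx2⟩)
  refine ⟨s, hadm, hval.trans ?_, ?_⟩
  · exact val_bd hd hd1 hq hH hρ hlo hv hT ht hy ha hb hG.C0 hC (p 10) (p 8) (p 9) (2 * T + 3 * t)
  · -- membership
    intro y hnear hyJ
    refine hmem _ fun z hz0 hz1 => ?_
    have hdist := win_dist hd hd1 hH hT ht hv hK hhi hnear hyJ hz0 hz1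
    have hHη : H n * (2 * K * d ^ (v - t) / H n) = 2 * K * d ^ (v - t) := by field_simp
    obtain ⟨m0, m1, m2⟩ := gd_flat (π := π) (c := L n x.1) (t := L n y.1) (zi := x.2)
      (b := fun k => K * d ^ p k) (ρ' := 2 * K * d ^ (v - t) / H n) (z := z) hE hFa hFb hH ha hb
      hy hdist (zj := y.2) (ej := E n y) (Ga := Fa n y) (Gb := Fb n y)
      (A1 := Wa n / H n * d ^ (p 8 - (2 * T + 3 * t)))
      (A2 := Wb n / H n * d ^ (p 9 - (2 * T + 3 * t)))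
      (A0 := Wy n / H n * d ^ (p 10 - (2 * T + 3 * t))) (fun k => hnear k)
      (by
        rw [hHη]
        exact mul_le_mul_of_nonneg_left (sz_lin hd hd1 w8 hT ht hv hK hKd) (by positivity))
      (by
        rw [hHη]
        exact mul_le_mul_of_nonneg_left (sz_lin hd hd1 w9 hT ht hv hK hKd) (by positivity))
      (by
        rw [hHη]
        exact mul_le_mul_of_nonneg_left (sz_quad hd hd1 w10 w7 hT ht hv hK hKd) (by positivity))
    have c8 : 8 ≤ d ^ (-t) := by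
      refine le_trans ?_ hKd
      have : 1 ≤ K ^ 3 := one_le_pow₀ hK
      linarith
    -- comparison with `a, w1, w2`
    have o1 := ordby (2 * T + 3 * t)
    have o2 : Wb n / H n * d ^ (p 9 - (2 * T + 3 * t) - t) ≤
        Wa n / H n * d ^ (p 8 - (2 * T + 3 * t) - 2 * t) := by
      have := ordab ((2 * T + 3 * t) + t)
      rwa [show p 9 - ((2 * T + 3 * t) + t) = p 9 - (2 * T + 3 * t) - t by ring,
        show p 8 - ((2 * T + 3 * t) + t) - t = p 8 - (2 * T + 3 * t) - 2 * t by ring] at this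
    have g2 : Wb n / H n * d ^ (p 9 - (2 * T + 3 * t)) ≤
        Wb n / H n * d ^ (p 9 - (2 * T + 3 * t) - t) :=
      mul_le_mul_of_nonneg_left (dle hd hd1 (by linarith)) (by positivity)
    have g1 : Wa n / H n * d ^ (p 8 - (2 * T + 3 * t)) ≤
        Wa n / H n * d ^ (p 8 - (2 * T + 3 * t) - 2 * t) :=
      mul_le_mul_of_nonneg_left (dle hd hd1 (by linarith)) (by positivity)
    have W2 : 0 < Wb n / H n * d ^ (p 9 - (2 * T + 3 * t) - t) := mul_pos (div_pos hb hH) (dpos hd _)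
    have W1 : 0 < Wa n / H n * d ^ (p 8 - (2 * T + 3 * t) - 2 * t) :=
      mul_pos (div_pos ha hH) (dpos hd _)
    have dt1 : 1 ≤ d ^ (-t) := by linarith
    have hw2' : 8 * (Wb n / H n * d ^ (p 9 - (2 * T + 3 * t) - t)) ≤
        Wb n / H n * d ^ (p 9 - (2 * T + 3 * t) - 3 * t) := by
      have e1 : Wb n / H n * d ^ (p 9 - (2 * T + 3 * t) - 3 * t) =
          (d ^ (-t) * d ^ (-t)) * (Wb n / H n * d ^ (p 9 - (2 * T + 3 * t) - t)) := by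
        rw [show p 9 - (2 * T + 3 * t) - 3 * t = p 9 - (2 * T + 3 * t) - t + (-t) + (-t) by ring,
          Real.rpow_add hd, Real.rpow_add hd]; ring
      rw [e1]
      refine mul_le_mul_of_nonneg_right ?_ W2.le
      have := mul_le_mul c8 dt1 zero_le_one (by linarith)
      linarith
    have hw1' : 8 * (Wa n / H n * d ^ (p 8 - (2 * T + 3 * t) - 2 * t)) ≤
        Wa n / H n * d ^ (p 8 - (2 * T + 3 * t) - 5 * t) := by
      have e1 : Wa n / H n * d ^ (p 8 - (2 * T + 3 * t) - 5 * t) =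
          (d ^ (-t) * (d ^ (-t) * d ^ (-t))) *
            (Wa n / H n * d ^ (p 8 - (2 * T + 3 * t) - 2 * t)) := by
        rw [show p 8 - (2 * T + 3 * t) - 5 * t =
          p 8 - (2 * T + 3 * t) - 2 * t + (-t) + (-t) + (-t) by ring,
          Real.rpow_add hd, Real.rpow_add hd, Real.rpow_add hd]; ring
      rw [e1]
      refine mul_le_mul_of_nonneg_right ?_ W1.le
      have h2 := mul_le_mul dt1 dt1 zero_le_one (by linarith)
      have := mul_le_mul c8 h2 (by linarith) (by linarith)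
      linarith
    refine ⟨?_, ?_, ?_⟩
    · refine m0.trans ?_
      exact mul_le_mul_of_nonneg_left (dle hd hd1 (by linarith)) (by positivity)
    · refine m1.trans (le_trans ?_ hw1')
      linarith
    · refine m2.trans (le_trans ?_ hw2')
      linarith

end fin

end Crest.Agent.R136.GeoQ186
end

-- ▼ part R136/GD4_186

/-!
# R136, [GEO-D] for the straight chart, final form (helper186)

* `flatGeo_geo4` : the geometry of sheets of the class `C*` contains the flat boxes;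
* `boxIn_coS` : 464's `BoxIn`; `PDQ` : the exponents of the boxes which are one sheet;
* `gD_couQ` : the field `gD` of `PreQ` in 638's units.
-/

set_option autoImplicit false
set_option linter.unusedVariables false

open Finset Filter Topology

namespace Crest.Agent.R136.GeoQ186

open Crest.Agent.R138.Ex926 (Base U)
open Crest.Agent.R138.Mk163 (zc zl rho alive)
open Crest.Agent.R138
open Crest.Agent.R136.MkA627
open Crest.Agent.R136.Net191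
open Crest.Agent.R136.NetQ186
open Crest.Agent.R136.Sh605
open Crest.Agent.R136.Top484 (geo4 Rng)
open Crest.Agent.R136.PqG464
open Crest.Agent.R136.Wq638

/-! ### flat boxes are sheets of the class `C*` -/

/-- the function of a flat box -/
def qflat (e : Fin 3 → V3) (c : Ln4) : ℝ → V3 → ℝ := fun z x => dt (e 0) (x - c.pos z)

theorem qflat_add (e : Fin 3 → V3) (c : Ln4) (z : ℝ) (x : V3) (τ : ℝ) (u : V3) :
    qflat e c z (x + τ • u) - qflat e c z x = τ * dt (e 0) u := by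
  simp only [qflat, dt, Pi.sub_apply, Pi.add_apply, Pi.smul_apply, smul_eq_mul]
  ring

/-- **flat orthonormal boxes are in the class `C*`** -/
theorem flat_ShN0 {e : Fin 3 → V3} (he : Ortho e) (c : Ln4) {a w1 w2 z0 ρ r0 : ℝ} (ha : 0 < a)
    (hr : r0 ≤ a) (h2 : a ≤ w2) (h1 : w2 ≤ w1) :
    ShN0 e c ![w2, w1, w2] (qflat e c) a z0 ρ r0 where
  ortho := he
  isQ := by
    refine ⟨-(dt (e 0) c.p), -(dt (e 0) c.v), 0, e 0, 0, 0, fun z x => ?_⟩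
    simp only [qflat, dt, Pi.sub_apply, Ln4.pos, Fin.sum_univ_three, Pi.zero_apply]
    ring
  w0_eq := rfl
  a_le := h2
  w_le := h1
  r0_le := hr
  st0 := by
    intro z _ _ x τ hτ _ _
    have h := he 0 0
    rw [if_pos rfl] at h
    rw [qflat_add, h, mul_one]
    constructor <;> linarith
  st1 := by
    intro z _ _ x τ hτ _ _
    have h := he 0 1
    rw [if_neg (by decide)] at h
    rw [qflat_add, h, mul_zero, abs_zero]
    have p2 : 0 < w2 := lt_of_lt_of_le ha h2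
    have p1 : 0 < w1 := lt_of_lt_of_le p2 h1
    exact mul_nonneg (div_pos p2 p1).le hτ
  st2 := by
    intro z _ _ x τ hτ _ _
    have h := he 0 2
    rw [if_neg (by decide)] at h
    rw [qflat_add, h, mul_zero, abs_zero]
    exact hτ

/-- **flat orthonormal boxes are in the class `C*`** -/
theorem flat_ShN {e : Fin 3 → V3} (he : Ortho e) (c : Ln4) {a w1 w2 z0 ρ r0 : ℝ} (ha : 0 < a)
    (hr : r0 ≤ a) (h2 : a ≤ w2) (h1 : w2 ≤ w1) :
    ShN e c ![w2, w1, w2] (qflat e c) a z0 ρ r0 := (flat_ShN0 he c ha hr h2 h1).toN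

/-- **the official geometry contains the flat boxes** -/
theorem flatGeo_geo4 (L : ℕ → ℕ → Ln4) (r0 : ℕ → ℝ) (wr cr : Fin 3 → ℕ → ℝ) (q : Fin 3 → ℝ) :
    FlatGeo (geo4 L r0 wr cr q) L r0 wr cr q 1 where
  C0 := zero_le_one
  flat := by
    intro n i J e c a w1 w2 he ha hr h2 h1 hρ hn
    refine ⟨⟨J, e, c, ![w2, w1, w2], qflat e c, a⟩,
      ⟨flat_ShN he c ha hr h2 h1, hρ, fun k => ?_⟩, ?_, ?_⟩
    · have := hn k
      fin_cases k <;> exact this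
    · rw [one_mul]
      exact le_rfl
    · intro t ht z hz0 hz1
      obtain ⟨m0, m1, m2⟩ := ht z hz0 hz1
      refine ⟨fun k => ?_, m0⟩
      fin_cases k
      · exact m0.trans h2
      · exact m1
      · exact m2

/-! ### `BoxIn` -/

theorem arith1 {Q t T ε : ℝ} (hQ : 0 ≤ Q) (ht : 0 < t) (hT : T ≤ t)
    (h : 40 * (1 + Q) * t ≤ ε) : (3 + Q) * (2 * T + 3 * t) + (10 + 6 * Q) * t ≤ ε := by
  have h1 : (3 + Q) * (2 * T + 3 * t) ≤ (3 + Q) * (5 * t) :=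
    mul_le_mul_of_nonneg_left (by linarith) (by linarith)
  have h2 : (3 + Q) * (5 * t) = 15 * t + 5 * (Q * t) := by ring
  have h3 : (10 + 6 * Q) * t = 10 * t + 6 * (Q * t) := by ring
  have h4 : 40 * (1 + Q) * t = 40 * t + 40 * (Q * t) := by ring
  have h5 : 0 ≤ Q * t := mul_nonneg hQ ht.le
  linarith

theorem arith2 {Q t δ : ℝ} (hQ : 0 ≤ Q) (ht : 0 < t) (h : 40 * (1 + Q) * t ≤ δ) :
    11 * t ≤ δ := by
  have h4 : 40 * (1 + Q) * t = 40 * t + 40 * (Q * t) := by ring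
  have h5 : 0 ≤ Q * t := mul_nonneg hQ ht.le
  linarith

/-- constants are absorbed -/
theorem const_le {B : Base} {n : ℕ} {c t : ℝ} (h : c * B.d n ^ t ≤ 1) : c ≤ B.d n ^ (-t) := by
  have h1 : B.d n ^ (-t) * B.d n ^ t = 1 := by
    rw [← Dp76.dpow_add, neg_add_cancel, Real.rpow_zero]
  have h2 := mul_le_mul_of_nonneg_left h (Dp76.dpow_pos B n (-t)).le
  calc c = B.d n ^ (-t) * B.d n ^ t * c := by rw [h1, one_mul]
    _ = B.d n ^ (-t) * (c * B.d n ^ t) := by ring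
    _ ≤ B.d n ^ (-t) * 1 := h2
    _ = _ := mul_one _

theorem H_lo {B : Base} {n i0 i : ℕ} {w0 u t : ℝ}
    (h : (2 : ℝ) ^ i ≤ (2 : ℝ) ^ i0 * B.d n ^ (-(u + t))) :
    B.d n ^ (w0 + u + t) ≤ B.d n ^ w0 * 2 ^ i0 * rho i := by
  have hp2 : (0 : ℝ) < 2 ^ i := by positivity
  have hr : rho i = 1 / 2 ^ i := rfl
  rw [hr, mul_one_div, le_div_iff₀ hp2, add_assoc, Dp76.dpow_add]
  have h5 := mul_le_mul_of_nonneg_left h
    (mul_pos (Dp76.dpow_pos B n w0) (Dp76.dpow_pos B n (u + t))).le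
  refine h5.trans (le_of_eq ?_)
  have : B.d n ^ (u + t) * B.d n ^ (-(u + t)) = 1 := by
    rw [← Dp76.dpow_add, add_neg_cancel, Real.rpow_zero]
  calc B.d n ^ w0 * B.d n ^ (u + t) * (2 ^ i0 * B.d n ^ (-(u + t))) =
      B.d n ^ w0 * 2 ^ i0 * (B.d n ^ (u + t) * B.d n ^ (-(u + t))) := by ring
    _ = _ := by rw [this, mul_one]

theorem H_hi {B : Base} {n i0 i : ℕ} {w0 u t : ℝ}
    (h : (2 : ℝ) ^ i0 * B.d n ^ (-(u - t)) ≤ (2 : ℝ) ^ i) :
    B.d n ^ w0 * 2 ^ i0 * rho i ≤ B.d n ^ (w0 + u - t) := by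
  have hp2 : (0 : ℝ) < 2 ^ i := by positivity
  have hr : rho i = 1 / 2 ^ i := rfl
  rw [hr, mul_one_div, div_le_iff₀ hp2, show w0 + u - t = w0 + (u - t) by ring, Dp76.dpow_add]
  have h5 := mul_le_mul_of_nonneg_left h
    (mul_pos (Dp76.dpow_pos B n w0) (Dp76.dpow_pos B n (u - t))).le
  refine le_trans (le_of_eq ?_) h5
  have : B.d n ^ (u - t) * B.d n ^ (-(u - t)) = 1 := by
    rw [← Dp76.dpow_add, add_neg_cancel, Real.rpow_zero]
  calc B.d n ^ w0 * 2 ^ i0 =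
      B.d n ^ w0 * 2 ^ i0 * (B.d n ^ (u - t) * B.d n ^ (-(u - t))) := by rw [this, mul_one]
    _ = _ := by ring

/-- the rational level -/
theorem exists_level {y t : ℝ} (hy : 0 ≤ y) (hy1 : y ≤ 1) (ht : 0 < t) :
    ∃ u : ℚ, 0 ≤ u ∧ u ≤ 1 ∧ (0 : ℝ) ≤ y - u ∧ y - u ≤ t ∧ ((u : ℝ) < y ∨ (u = 0 ∧ y ≤ 0)) := by
  rcases le_or_gt y 0 with h | h
  · refine ⟨0, le_rfl, zero_le_one, ?_, ?_, Or.inr ⟨rfl, h⟩⟩
    · rw [Rat.cast_zero]; linarith
    · rw [Rat.cast_zero]; linarith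
  · obtain ⟨u, h1, h2⟩ := exists_rat_btwn (show max 0 (y - t) < y from max_lt h (by linarith))
    have h3 : (0 : ℝ) < u := lt_of_le_of_lt (le_max_left _ _) h1
    have h4 : y - t < u := lt_of_le_of_lt (le_max_right _ _) h1
    refine ⟨u, ?_, ?_, by linarith, by linarith, Or.inl h2⟩
    · exact_mod_cast h3.le
    · have : (u : ℝ) < 1 := by linarith
      exact_mod_cast this.le

theorem Vn_nonneg {q : Fin 3 → ℝ} {H Wa Wb Wy : ℝ} (hH : 0 < H) (ha : 0 < Wa) (hb : 0 < Wb)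
    (hy : 0 < Wy) : 0 < Vn q H Wa Wb Wy := by
  unfold Vn
  have := Real.rpow_pos_of_pos hy (q 0)
  have := Real.rpow_pos_of_pos ha (q 1)
  have := Real.rpow_pos_of_pos hb (q 2)
  positivity

section box

variable {σ κ : Type*} {B : Base} {I : ℕ → Finset (ℕ × ℝ)} {G : Geo σ κ} {lev : ℕ → ℚ → ℕ}
    {A : ℕ → ℝ} {g s : ℝ} {τ : κ → ℝ → ℝ} {f : ℕ → ℚ → ℕ → ℤ → ℕ} {b : ℕ → ℚ → ℕ → σ}
    {vm : ℕ → ℚ → ℝ} {w : κ → ℕ → ℚ → ℝ} {L : ℕ → ℕ → Ln4} {r0 : ℕ → ℝ} {wr cr : Fin 3 → ℕ → ℝ}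
    {q : Fin 3 → ℝ} {CG : ℝ}
    {π : Equiv.Perm (Fin 3)} {E Fa Fb : ℕ → ℕ × ℝ → ℝ} {Wa Wb Wy : ℕ → ℝ} {w0 : ℝ}

/-- **[GEO-D], geometric hypothesis**, for the scaled straight chart. -/
theorem boxIn_coS (hM : MkA B I G lev A (fun v => g * v) (fun v => s * v) τ f b vm w)
    (hG : FlatGeo G L r0 wr cr q CG) (hq : ∀ j, 0 ≤ q j)
    (hE : ∀ n, ∀ x ∈ I n, |E n x| ≤ 1) (hFa : ∀ n, ∀ x ∈ I n, |Fa n x| ≤ 1)
    (hFb : ∀ n, ∀ x ∈ I n, |Fb n x| ≤ 1)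
    (ha : ∀ᶠ n in (U : Filter ℕ), 0 < Wa n) (hb : ∀ᶠ n in (U : Filter ℕ), 0 < Wb n)
    (hy : ∀ᶠ n in (U : Filter ℕ), 0 < Wy n)
    {p : Fin 11 → ℝ} (hp : Legal monQ p) (hp0 : w0 ≤ p 0) (hp1 : p 0 ≤ w0 + 1)
    (hO : Ord B r0 (fun n => B.d n ^ w0 * 2 ^ lev n 0) Wa Wb Wy p)
    (hn0 : ∀ x : ℝ, ∀ᶠ n in (U : Filter ℕ),
      wr 0 n ≤ Wy n / (B.d n ^ w0 * 2 ^ lev n 0) * B.d n ^ x ∧
        Wy n / (B.d n ^ w0 * 2 ^ lev n 0) * B.d n ^ x ≤ cr 0 n)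
    (hn1 : ∀ x : ℝ, ∀ᶠ n in (U : Filter ℕ),
      wr 1 n ≤ Wa n / (B.d n ^ w0 * 2 ^ lev n 0) * B.d n ^ x ∧
        Wa n / (B.d n ^ w0 * 2 ^ lev n 0) * B.d n ^ x ≤ cr 1 n)
    (hn2 : ∀ x : ℝ, ∀ᶠ n in (U : Filter ℕ),
      wr 2 n ≤ Wb n / (B.d n ^ w0 * 2 ^ lev n 0) * B.d n ^ x ∧
        Wb n / (B.d n ^ w0 * 2 ^ lev n 0) * B.d n ^ x ≤ cr 2 n) :
    BoxIn B I G lev (coS π L E Fa Fb (fun n => B.d n ^ w0 * 2 ^ lev n 0) Wa Wb Wy) 0 w0
      (fun n => Vn q (B.d n ^ w0 * 2 ^ lev n 0) (Wa n) (Wb n) (Wy n)) p (Dp q p) := by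
  intro K hK ε hε
  obtain ⟨δ, hδ, hcap⟩ := hO.cap
  obtain ⟨-, -, -, w7, -, -, w8, w9, -, w10, -, -⟩ := legalQ_iff.1 hp
  obtain ⟨Q, hQ⟩ : ∃ Q : ℝ, Q = q 0 + q 1 + q 2 := ⟨_, rfl⟩
  have hQ0 : 0 ≤ Q := by have := hq 0; have := hq 1; have := hq 2; rw [hQ]; linarith
  obtain ⟨t, ht⟩ : ∃ t : ℝ, t = min ε δ / (40 * (1 + Q)) := ⟨_, rfl⟩
  have hmin : 0 < min ε δ := lt_min hε hδ
  have hc : 0 < 40 * (1 + Q) := by positivity
  have ht0 : 0 < t := by rw [ht]; exact div_pos hmin hc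
  have htm : 40 * (1 + Q) * t = min ε δ := by rw [ht]; field_simp
  have htε : 40 * (1 + Q) * t ≤ ε := by rw [htm]; exact min_le_left _ _
  have htδ : 40 * (1 + Q) * t ≤ δ := by rw [htm]; exact min_le_right _ _
  obtain ⟨u, hu0, hu1, hT0, hTt, hor⟩ :=
    exists_level (y := p 0 - w0) (t := t) (by linarith) (by linarith) ht0
  have h11 := arith2 hQ0 ht0 htε
  have h11' := arith2 hQ0 ht0 htδ
  refine ⟨u, hu0, hu1, by linarith, hor, ?_⟩
  filter_upwards [pow_lev hM u hu0 hu1 ht0, ev_const B (c := 8 * K ^ 3) (by positivity) ht0,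
    ev_const B (c := |CG| + 1) (by positivity) ht0, hO.ab t ht0, hO.by' t ht0, hO.res t ht0,
    hcap, ha, hb, hy, hn0 (p 10), hn1 (p 8), hn2 (p 9), hn0 (p 10 - δ), hn1 (p 8 - δ),
    hn2 (p 9 - δ)]
    with n h1 h2 h3 hab hby hres hcp ha hb hy hn0 hn1 hn2 hx0 hx1 hx2 x hx J
  have hd := B.pos n
  have hd1 := B.lt n
  have hH : 0 < B.d n ^ w0 * 2 ^ lev n 0 := mul_pos (Dp76.dpow_pos B n _) (by positivity)
  have hKd := const_le h2
  have hCd : CG ≤ B.d n ^ (-t) := by linarith [const_le h3, le_abs_self CG]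
  have hlo := H_lo (w0 := w0) h1.1
  have hhi := H_hi (w0 := w0) h1.2
  obtain ⟨S, hadm, hval, hmem⟩ := gd_fin (L := L) (n := n) (i := lev n u) (π := π) (E := E)
    (Fa := Fa) (Fb := Fb) (H := fun n => B.d n ^ w0 * 2 ^ lev n 0) (Wa := Wa) (Wb := Wb)
    (Wy := Wy) (d := B.d n) (K := K) (T := p 0 - w0 - u) (t := t) (δ := δ) (v := w0 + u) (p := p)
    (x := x) hG hq hd hd1 (hE n x hx) (hFa n x hx) (hFb n x hx) hH ha hb hy w8 w9 w10 w7 hT0 ht0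
    (by ring) hK hlo hhi hKd hab hby hres hn0.1 hn1.1 hn2.1 hx0.2 hx1.2
    hx2.2 hcp (by linarith) hCd J
  refine ⟨S, hadm, hval.trans ?_, fun y _ hy1 hy2 => hmem y hy1 hy2⟩
  refine mul_le_mul_of_nonneg_left (Dp76.dpow_le B n ?_) (Vn_nonneg hH ha hb hy).le
  have h6 := arith1 hQ0 ht0 hTt htε
  rw [hQ] at h6
  linarith

end box

/-! ### the field `gD` in 638's units -/

/-- **exponents of the boxes which are one sheet** -/
def PDQ (B : Base) (r0 : ℕ → ℝ) (lev : ℕ → ℚ → ℕ) (w : Fin 3 → ℕ → ℚ → ℝ) (w0 R : ℝ) :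
    Set (Fin 11 → ℝ) :=
  {p | p ∈ Leg monQ R ∧ w0 ≤ p 0 ∧ p 0 ≤ w0 + 1 ∧
    Ord B r0 (uH B lev w0) (uA B lev w w0) (uB B lev w w0) (uY B lev w w0) p}

theorem PDQ_leg {B : Base} {r0 : ℕ → ℝ} {lev : ℕ → ℚ → ℕ} {w : Fin 3 → ℕ → ℚ → ℝ} {w0 R : ℝ} :
    PDQ B r0 lev w w0 R ⊆ Leg monQ R := fun _ h => h.1

section final

variable {B : Base} {I : ℕ → Finset (ℕ × ℝ)} {lev : ℕ → ℚ → ℕ}
    {A : ℕ → ℝ} {g s : ℝ} {τ : Fin 3 → ℝ → ℝ} {f : ℕ → ℚ → ℕ → ℤ → ℕ} {b : ℕ → ℚ → ℕ → K4.Plk4}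
    {vm : ℕ → ℚ → ℝ} {w : Fin 3 → ℕ → ℚ → ℝ} {L : ℕ → ℕ → Ln4} {r0 : ℕ → ℝ}
    {wr cr : Fin 3 → ℕ → ℝ} {q : Fin 3 → ℝ}
    {π : Equiv.Perm (Fin 3)} {E Fa Fb : ℕ → ℕ × ℝ → ℝ} {w0 R : ℝ}

/-- the size of the marks of level `v` -/
theorem vm_eq (hM : MkA B I (geo4 L r0 wr cr q) lev A (fun v => g * v) (fun v => s * v) τ f b vm w)
    {v : ℚ} (hv0 : 0 ≤ v) (hv1 : v ≤ 1) : ∀ᶠ n in (U : Filter ℕ),
      vm n v = capQ q (rho (lev n v)) (fun k => w k n v) := by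
  filter_upwards [hM.ne, hM.mark v hv0 hv1] with n hne hmk
  obtain ⟨x, hx⟩ := hne
  have hal : x.1 ∈ alive (I n) (lev n v) (zc (lev n v) x.2) :=
    MkRef627.mem_alive.2 ⟨x, hx, rfl, rfl⟩
  obtain ⟨-, -, h3, h4⟩ := hmk _ _ hal
  have w0' := h4 0
  have w1' := h4 1
  have w2' := h4 2
  simp only [geo4, Matrix.cons_val] at h3 w0' w1' w2'
  rw [← h3, w0', w1', w2']
  rfl

theorem rng_eq (n : ℕ) (x y a : ℝ) : a * B.d n ^ (x - y - w0) =
    a / rho (lev n 0) * B.d n ^ (-y) / (B.d n ^ w0 * 2 ^ lev n 0) * B.d n ^ x := by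
  have hd := B.pos n
  have e0 : B.d n ^ (x - y - w0) = B.d n ^ x * B.d n ^ (-y) * (B.d n ^ w0)⁻¹ := by
    rw [← Real.rpow_neg hd.le, ← Dp76.dpow_add, ← Dp76.dpow_add]
    congr 1
  have e3 : (2 : ℝ) ^ lev n 0 = (rho (lev n 0))⁻¹ := by unfold rho; simp
  have hρ : 0 < rho (lev n 0) := rho_pos _
  have hw0' := (Dp76.dpow_pos B n w0).ne'
  rw [e0, e3]
  field_simp

theorem rng_mul (hwr : Rng B wr cr w) (k : Fin 3) (y : ℝ) :
    ∀ᶠ n in (U : Filter ℕ), wr k n ≤ w k n 0 * B.d n ^ y ∧ w k n 0 * B.d n ^ y ≤ cr k n := by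
  filter_upwards [hwr y k 0 le_rfl zero_le_one, hwr (-y) k 0 le_rfl zero_le_one] with n h h'
  refine ⟨h.1.trans (le_of_eq (mul_comm _ _)), ?_⟩
  have h2 := mul_le_mul_of_nonneg_right h'.2 (Dp76.dpow_pos B n y).le
  refine h2.trans (le_of_eq ?_)
  rw [mul_right_comm, ← Dp76.dpow_add, neg_add_cancel, Real.rpow_zero, one_mul]

theorem rng_uA (hwr : Rng B wr cr w) (x : ℝ) : ∀ᶠ n in (U : Filter ℕ),
    wr 1 n ≤ uA B lev w w0 n / (B.d n ^ w0 * 2 ^ lev n 0) * B.d n ^ x ∧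
      uA B lev w w0 n / (B.d n ^ w0 * 2 ^ lev n 0) * B.d n ^ x ≤ cr 1 n := by
  filter_upwards [rng_mul hwr 1 (x - w0 - w0)] with n h
  unfold uA
  rw [← rng_eq]
  exact h

theorem rng_uB (hwr : Rng B wr cr w) (x : ℝ) : ∀ᶠ n in (U : Filter ℕ),
    wr 2 n ≤ uB B lev w w0 n / (B.d n ^ w0 * 2 ^ lev n 0) * B.d n ^ x ∧
      uB B lev w w0 n / (B.d n ^ w0 * 2 ^ lev n 0) * B.d n ^ x ≤ cr 2 n := by
  filter_upwards [rng_mul hwr 2 (x - 2 * w0 - w0)] with n h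
  unfold uB
  rw [← rng_eq]
  exact h

theorem rng_uY (hwr : Rng B wr cr w) (x : ℝ) : ∀ᶠ n in (U : Filter ℕ),
    wr 0 n ≤ uY B lev w w0 n / (B.d n ^ w0 * 2 ^ lev n 0) * B.d n ^ x ∧
      uY B lev w w0 n / (B.d n ^ w0 * 2 ^ lev n 0) * B.d n ^ x ≤ cr 0 n := by
  filter_upwards [rng_mul hwr 0 (x - 3 * w0 - w0)] with n h
  unfold uY
  rw [← rng_eq]
  exact h

open Classical in
/-- **[GEO-D]: the field `gD` of `PreQ`**, straight chart, 638's units. -/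
theorem gD_couQ (hM : MkA B I (geo4 L r0 wr cr q) lev A (fun v => g * v) (fun v => s * v) τ f b vm w)
    (hwr : Rng B wr cr w) (hq : ∀ j, 0 ≤ q j)
    (hE : ∀ n, ∀ x ∈ I n, |E n x| ≤ 1) (hFa : ∀ n, ∀ x ∈ I n, |Fa n x| ≤ 1)
    (hFb : ∀ n, ∀ x ∈ I n, |Fb n x| ≤ 1) :
    ∀ p ∈ PDQ B r0 lev w w0 R, ∀ K : ℝ, 1 ≤ K → ∀ ε : ℝ, 0 < ε →
      ∀ᶠ n in (U : Filter ℕ), ∀ x ∈ I n,
        (((I n).filter fun y => Near (couQ B lev w w0 (incQ π L E Fa Fb) n) (B.d n) p K x y).card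
          : ℝ) ≤ N0Q A vm n * B.d n ^ (-(DQ g s q w0 p + ε)) := by
  rintro p ⟨hpL, hp0, hp1, hO⟩ K hK ε hε
  have hw : ∀ j, ∀ᶠ n in (U : Filter ℕ), 0 < w j n 0 := fun j => hM.wpos j 0 le_rfl zero_le_one
  have ha : ∀ᶠ n in (U : Filter ℕ), 0 < uA B lev w w0 n := (hw 1).mono fun n h => uA_pos h
  have hb : ∀ᶠ n in (U : Filter ℕ), 0 < uB B lev w w0 n := (hw 2).mono fun n h => uB_pos h
  have hy : ∀ᶠ n in (U : Filter ℕ), 0 < uY B lev w w0 n := (hw 0).mono fun n h => uY_pos h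
  have hBx := boxIn_coS (π := π) (E := E) (Fa := Fa) (Fb := Fb) hM (flatGeo_geo4 L r0 wr cr q) hq
    hE hFa hFb ha hb hy hpL.1 hp0 hp1 hO (rng_uY hwr) (rng_uA hwr) (rng_uB hwr)
  have hV : ∀ᶠ n in (U : Filter ℕ), 0 < Vn q (B.d n ^ w0 * 2 ^ lev n 0) (uA B lev w w0 n)
      (uB B lev w w0 n) (uY B lev w w0 n) := by
    filter_upwards [ha, hb, hy] with n ha hb hy
    exact Vn_nonneg (mul_pos (Dp76.dpow_pos B n _) (by positivity)) ha hb hy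
  have hcore := gD_of hM (fun n x _ y _ => coS_zco π L E Fa Fb B lev w0 (uA B lev w w0)
    (uB B lev w w0) (uY B lev w w0) n x y) hV hBx
    (D := (g - (1 - s)) * max (p 0 - w0) 0 - Dp q p) rfl K hK ε hε
  filter_upwards [hcore, vm_eq hM le_rfl zero_le_one, hw 0, hw 1, hw 2] with n hn hvm h0 h1 h2 x hx
  refine (hn x hx).trans (le_of_eq ?_)
  have hd := B.pos n
  have hρ : 0 < rho (lev n 0) := rho_pos _
  have p2 : (0 : ℝ) < 2 ^ lev n 0 := by positivity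
  -- the unit volume
  have hr1 : ∀ (k : Fin 3) (c : ℝ), 0 < w k n 0 →
      (w k n 0 / rho (lev n 0) * B.d n ^ c) ^ q k =
        (w k n 0 / rho (lev n 0)) ^ q k * B.d n ^ (c * q k) := by
    intro k c hk
    rw [Real.mul_rpow (div_pos hk hρ).le (Dp76.dpow_pos B n _).le, ← Real.rpow_mul hd.le]
  have hVn : Vn q (B.d n ^ w0 * 2 ^ lev n 0) (uA B lev w w0 n) (uB B lev w w0 n)
      (uY B lev w w0 n) = vm n 0 *
        B.d n ^ (-(9 * w0) - (3 * w0 * q 0 + w0 * q 1 + 2 * w0 * q 2)) := by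
    rw [hvm]
    unfold Vn capQ uA uB uY
    rw [hr1 0 _ h0, hr1 1 _ h1, hr1 2 _ h2]
    have e1 : B.d n ^ (-(9 * w0) - (3 * w0 * q 0 + w0 * q 1 + 2 * w0 * q 2)) =
        B.d n ^ (-w0) * B.d n ^ (-(2 * w0)) * B.d n ^ (-(3 * w0)) *
        (B.d n ^ (-w0) * B.d n ^ (-w0) * B.d n ^ (-w0)) *
        (B.d n ^ (-(3 * w0) * q 0) * B.d n ^ (-w0 * q 1) * B.d n ^ (-(2 * w0) * q 2)) := by
      rw [← Dp76.dpow_add, ← Dp76.dpow_add, ← Dp76.dpow_add, ← Dp76.dpow_add, ← Dp76.dpow_add,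
        ← Dp76.dpow_add, ← Dp76.dpow_add, ← Dp76.dpow_add]
      congr 1; ring
    have e2 : (B.d n ^ w0)⁻¹ = B.d n ^ (-w0) := (Real.rpow_neg hd.le _).symm
    have e3 : (2 : ℝ) ^ lev n 0 = (rho (lev n 0))⁻¹ := by unfold rho; simp
    rw [e1, e3]
    have e4 : (B.d n ^ w0 * (rho (lev n 0))⁻¹) ^ 3 = (B.d n ^ w0) ^ 3 / rho (lev n 0) ^ 3 := by
      field_simp
    rw [e4, ← e2]
    have hw0' := (Dp76.dpow_pos B n w0).ne'
    field_simp
  rw [hVn, max_eq_left (by linarith)]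
  have e5 : A n * (vm n 0 * B.d n ^ (-(9 * w0) - (3 * w0 * q 0 + w0 * q 1 + 2 * w0 * q 2))) *
      B.d n ^ (-(1 - s)) * B.d n ^ (-((g - (1 - s)) * (p 0 - w0) - Dp q p + ε)) =
      A n * vm n 0 * (B.d n ^ (-(9 * w0) - (3 * w0 * q 0 + w0 * q 1 + 2 * w0 * q 2)) *
      B.d n ^ (-(1 - s)) * B.d n ^ (-((g - (1 - s)) * (p 0 - w0) - Dp q p + ε))) := by ring
  rw [e5, ← Dp76.dpow_add, ← Dp76.dpow_add]
  unfold N0Q
  congr 2
  unfold DQ Dp
  ring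

end final

end Crest.Agent.R136.GeoQ186
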