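import Crest.Agent.R136.GR3_650
import Crest.Agent.R136.Wq2_638
import Crest.Agent.R136.GD4_186
import Crest.Agent.R136.NatT_550

-- ▼ part R136/GR4_650
section

/-!
# R136, L15, record closeness (helper650), part 4: `gR` in the literal units of `Wq638`

`gR_couQ` : field `gR` of `Lq196.PreQ` for `co = couQ B lev w w0 (incQ ..)`, `r = pathQ θ w0 R`.
-/

set_option autoImplicit false
set_option linter.unusedVariables false

open Finset Filter Topology

namespace Crest.Agent.R136.GR650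

open Crest.Agent.R138.Ex926 (Base U)
open Crest.Agent.R138.Mk163 (zc zl rho alive)
open Crest.Agent.R138.MkRef627 (lc kc)
open Crest.Agent.R138.Dp76 (dpow_pos dpow_add dpow_le dpow_le_one)
open Crest.Agent.R138.ArgM163 (ev_const log_dpow)
open Crest.Agent.R136.Net191
open Crest.Agent.R136.NetQ186
open Crest.Agent.R136.GeoQ186
open Crest.Agent.R136.Sh605
open Crest.Agent.R136.Wq638 (uA uB uY couQ incQ pathQ BigQ)

section

variable {B : Base} {I : ℕ → Finset (ℕ × ℝ)} {lev : ℕ → ℚ → ℕ} {f : ℕ → ℚ → ℕ → ℤ → ℕ}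
  {w : Fin 3 → ℕ → ℚ → ℝ} {θ : Fin 3 → ℝ} {w0 R T : ℝ}

/-- angular widths relative to level `0` -/
theorem LinW.ang0 (h : LinW B lev w θ) (j : Fin 3) {u : ℚ} (u0 : 0 ≤ u) (u1 : u ≤ 1) {t : ℝ}
    (ht : 0 < t) : ∀ᶠ n in (U : Filter ℕ),
      B.d n ^ (-(θ j * u) + t) ≤ (w j n u / rho (lev n u)) / (w j n 0 / rho (lev n 0)) ∧
      (w j n u / rho (lev n u)) / (w j n 0 / rho (lev n 0)) ≤ B.d n ^ (-(θ j * u) - t) := by
  have h2 : (0 : ℝ) < t / 2 := by positivity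
  filter_upwards [ev_ang (h.wpos j u u0 u1) (h.wpos j 1 zero_le_one le_rfl) (h.tau j u u0 u1) h2,
    ev_ang (h.wpos j 0 le_rfl zero_le_one) (h.wpos j 1 zero_le_one le_rfl)
      (h.tau j 0 le_rfl zero_le_one) h2, h.wpos j 0 le_rfl zero_le_one,
    h.wpos j 1 zero_le_one le_rfl, h.wpos j u u0 u1] with n a b p0 p1 pu
  have dp := dpow_pos B n
  have r0 := rho_pos (lev n 0)
  have r1 := rho_pos (lev n 1)
  have ru := rho_pos (lev n u)
  have e1 : (w j n u / rho (lev n u)) / (w j n 0 / rho (lev n 0)) =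
      ((w j n u / rho (lev n u)) / (w j n 1 / rho (lev n 1))) /
      ((w j n 0 / rho (lev n 0)) / (w j n 1 / rho (lev n 1))) := by field_simp
  rw [e1]
  constructor
  · calc B.d n ^ (-(θ j * u) + t) =
          B.d n ^ (θ j * (1 - u) + t / 2) / B.d n ^ (θ j * (1 - ((0 : ℚ) : ℝ)) - t / 2) := by
          rw [← Real.rpow_sub (B.pos n)]; congr 1; push_cast; ring
      _ ≤ _ := div_le_div₀ (by positivity) a.1 (by positivity) b.2
  · calc _ ≤ B.d n ^ (θ j * (1 - u) - t / 2) /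
          B.d n ^ (θ j * (1 - ((0 : ℚ) : ℝ)) + t / 2) := div_le_div₀ (dp _).le a.2 (dp _) b.1
      _ = _ := by rw [← Real.rpow_sub (B.pos n)]; congr 1; push_cast; ring

/-- sizes of the record box, in the units of level `0` -/
theorem LinW.sizes0 (h : LinW B lev w θ) {u : ℚ} (u0 : 0 ≤ u) (u1 : u ≤ 1) {t : ℝ} (ht : 0 < t) :
    ∀ᶠ n in (U : Filter ℕ), ∀ k : Fin 11, k ≠ 1 →
      ![Wq638.uH B lev w0 n * rho (lev n u), 0,
        (w 2 n u / rho (lev n u) / uB B lev w w0 n) / (w 1 n u / rho (lev n u) / uA B lev w w0 n),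
        (w 0 n u / rho (lev n u) / uY B lev w w0 n) / (w 2 n u / rho (lev n u) / uB B lev w w0 n),
        (w 0 n u / rho (lev n u) / uY B lev w w0 n) / (w 1 n u / rho (lev n u) / uA B lev w w0 n),
        w 1 n u / rho (lev n u) / uA B lev w w0 n, w 2 n u / rho (lev n u) / uB B lev w w0 n,
        w 0 n u / rho (lev n u) / uY B lev w w0 n,
        Wq638.uH B lev w0 n * rho (lev n u) * (w 1 n u / rho (lev n u) / uA B lev w w0 n),
        Wq638.uH B lev w0 n * rho (lev n u) * (w 2 n u / rho (lev n u) / uB B lev w w0 n),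
        Wq638.uH B lev w0 n * rho (lev n u) * (w 0 n u / rho (lev n u) / uY B lev w w0 n)] k ≤
      B.d n ^ (pathQ θ w0 R u k - t) := by
  have h2 : (0 : ℝ) < t / 2 := by positivity
  have hz := ev_rho (h.lev_lim 0 u le_rfl u0 u1) h2
  filter_upwards [hz, h.ang0 0 u0 u1 h2, h.ang0 1 u0 u1 h2, h.ang0 2 u0 u1 h2,
    h.wpos 0 0 le_rfl zero_le_one, h.wpos 1 0 le_rfl zero_le_one, h.wpos 2 0 le_rfl zero_le_one,
    h.wpos 0 u u0 u1, h.wpos 1 u u0 u1, h.wpos 2 u u0 u1] with n hz a0 a1 a2 p0 p1 p2 q0 q1 q2 k hk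
  have add : ∀ a b : ℝ, B.d n ^ a * B.d n ^ b = B.d n ^ (a + b) := fun a b => (dpow_add B n a b).symm
  have dp := dpow_pos B n
  have hρ := rho_pos (lev n u)
  have hρ0 := rho_pos (lev n 0)
  have key : ∀ (j : Fin 3) (s W : ℝ), W = w j n 0 / rho (lev n 0) * B.d n ^ (-s) →
      0 < w j n u → 0 < w j n 0 →
      B.d n ^ (-(θ j * u) + t / 2) ≤ (w j n u / rho (lev n u)) / (w j n 0 / rho (lev n 0)) →
      (w j n u / rho (lev n u)) / (w j n 0 / rho (lev n 0)) ≤ B.d n ^ (-(θ j * u) - t / 2) →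
      B.d n ^ (s - θ j * u + t / 2) ≤ w j n u / rho (lev n u) / W ∧
      w j n u / rho (lev n u) / W ≤ B.d n ^ (s - θ j * u - t / 2) := by
    intro j s W hW hu h1 a b
    have e1 : w j n u / rho (lev n u) / W =
        (w j n u / rho (lev n u)) / (w j n 0 / rho (lev n 0)) * B.d n ^ s := by
      rw [hW, Real.rpow_neg (B.pos n).le]
      have := dp s
      field_simp
    rw [e1]
    constructor
    · calc B.d n ^ (s - θ j * u + t / 2) = B.d n ^ (-(θ j * u) + t / 2) * B.d n ^ s := by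
            rw [add]; congr 1; ring
        _ ≤ _ := mul_le_mul_of_nonneg_right a (dp s).le
    · calc _ ≤ B.d n ^ (-(θ j * u) - t / 2) * B.d n ^ s :=
            mul_le_mul_of_nonneg_right b (dp s).le
        _ = _ := by rw [add]; congr 1; ring
  obtain ⟨ly, hy⟩ := key 0 (3 * w0) (uY B lev w w0 n) rfl q0 p0 a0.1 a0.2
  obtain ⟨la, ha⟩ := key 1 w0 (uA B lev w w0 n) rfl q1 p1 a1.1 a1.2
  obtain ⟨lb, hb⟩ := key 2 (2 * w0) (uB B lev w w0 n) rfl q2 p2 a2.1 a2.2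
  have hH : Wq638.uH B lev w0 n * rho (lev n u) ≤ B.d n ^ (w0 + u - t / 2) := by
    have e1 : Wq638.uH B lev w0 n * rho (lev n u) =
        B.d n ^ w0 * (rho (lev n u) / rho (lev n 0)) := by
      unfold Wq638.uH
      have : rho (lev n 0) = ((2 : ℝ) ^ (lev n 0))⁻¹ := by unfold rho; rw [one_div]
      rw [this, div_inv_eq_mul]; ring
    rw [e1]
    calc B.d n ^ w0 * (rho (lev n u) / rho (lev n 0)) ≤
          B.d n ^ w0 * B.d n ^ ((u : ℝ) - (0 : ℚ) - t / 2) :=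
          mul_le_mul_of_nonneg_left hz.2 (dp w0).le
      _ = _ := by rw [add]; congr 1; push_cast; ring
  have hH0 : 0 ≤ Wq638.uH B lev w0 n * rho (lev n u) :=
    mul_nonneg (Wq638.uH_pos n).le hρ.le
  generalize Wq638.uH B lev w0 n * rho (lev n u) = Z at hH hH0 ⊢
  generalize w 0 n u / rho (lev n u) / uY B lev w w0 n = Y at ly hy ⊢
  generalize w 1 n u / rho (lev n u) / uA B lev w w0 n = A at la ha ⊢
  generalize w 2 n u / rho (lev n u) / uB B lev w w0 n = Q at lb hb ⊢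
  have hY0 : 0 < Y := (dp _).trans_le ly
  have hA0 : 0 < A := (dp _).trans_le la
  have hQ0 : 0 < Q := (dp _).trans_le lb
  have quo : ∀ {X Y a b c : ℝ}, 0 ≤ X → X ≤ B.d n ^ a → B.d n ^ b ≤ Y → c ≤ a - b →
      X / Y ≤ B.d n ^ c := by
    intro X Y a b c h0 h1 h2 h3
    calc X / Y ≤ B.d n ^ a / B.d n ^ b := div_le_div₀ (dp a).le h1 (dp b) h2
      _ = B.d n ^ (a - b) := by rw [← Real.rpow_sub (B.pos n)]
      _ ≤ _ := dpow_le B n h3
  have prd : ∀ {X Y a b c : ℝ}, 0 ≤ X → X ≤ B.d n ^ a → Y ≤ B.d n ^ b → 0 ≤ Y → c ≤ a + b →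
      X * Y ≤ B.d n ^ c := by
    intro X Y a b c h0 h1 h2 h4 h3
    calc X * Y ≤ B.d n ^ a * B.d n ^ b := mul_le_mul h1 h2 h4 (dp a).le
      _ = B.d n ^ (a + b) := add a b
      _ ≤ _ := dpow_le B n h3
  fin_cases k
  · show Z ≤ B.d n ^ (w0 + u - t)
    exact hH.trans (dpow_le B n (by linarith))
  · exact absurd rfl hk
  · show Q / A ≤ B.d n ^ (w0 + (θ 1 - θ 2) * u - t)
    exact quo hQ0.le hb la (by linarith)
  · show Y / Q ≤ B.d n ^ (w0 + (θ 2 - θ 0) * u - t)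
    exact quo hY0.le hy lb (by linarith)
  · show Y / A ≤ B.d n ^ (2 * w0 + (θ 1 - θ 0) * u - t)
    exact quo hY0.le hy la (by linarith)
  · show A ≤ B.d n ^ (w0 - θ 1 * u - t)
    exact ha.trans (dpow_le B n (by linarith))
  · show Q ≤ B.d n ^ (2 * w0 - θ 2 * u - t)
    exact hb.trans (dpow_le B n (by linarith))
  · show Y ≤ B.d n ^ (3 * w0 - θ 0 * u - t)
    exact hy.trans (dpow_le B n (by linarith))
  · show Z * A ≤ B.d n ^ (2 * w0 + (1 - θ 1) * u - t)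
    exact prd hH0 hH ha hA0.le (by linarith)
  · show Z * Q ≤ B.d n ^ (3 * w0 + (1 - θ 2) * u - t)
    exact prd hH0 hH hb hQ0.le (by linarith)
  · show Z * Y ≤ B.d n ^ (4 * w0 + (1 - θ 0) * u - t)
    exact prd hH0 hH hy hY0.le (by linarith)

/-- **`gR` of the straight chart**, literal form.  Marks: box `(E, c, w)` over the cell; own flags
close to the slopes of the mark, up to the precisions. -/
theorem gR_couQ (h : LinW B lev w θ) (hu : BigQ θ w0 R T)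
    {L : ℕ → ℕ → Ln4} {π : Equiv.Perm (Fin 3)} {eE fA fB : ℕ → ℕ × ℝ → ℝ}
    {E : ℕ → ℚ → ℕ × ℤ → Fin 3 → V3} {c : ℕ → ℚ → ℕ × ℤ → Ln4}
    (hadm : ∀ u : ℚ, 0 ≤ u → u ≤ 1 → ∀ᶠ n in (U : Filter ℕ), ∀ x ∈ I n,
      Adm π (E n u (kc (lev n u) (f n u) x)))
    (hin : ∀ u : ℚ, 0 ≤ u → u ≤ 1 → ∀ ε : ℝ, 0 < ε → ∀ᶠ n in (U : Filter ℕ), ∀ x ∈ I n, ∀ z,
      zl (lev n u) (zc (lev n u) x.2) ≤ z → z ≤ zl (lev n u) (zc (lev n u) x.2) + rho (lev n u) →
        InK (E n u (kc (lev n u) (f n u) x)) (c n u (kc (lev n u) (f n u) x))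
          (fun j => w j n u * B.d n ^ (-ε)) z ((L n x.1).pos z))
    (hfl : ∀ u : ℚ, 0 ≤ u → u ≤ 1 → ∀ ε : ℝ, 0 < ε → ∀ᶠ n in (U : Filter ℕ), ∀ x ∈ I n,
      |eE n x - sE π (E n u (kc (lev n u) (f n u) x))| ≤ w 2 n u / w 1 n u * B.d n ^ (-ε) ∧
      |fB n x - sB π (E n u (kc (lev n u) (f n u) x))| ≤ w 0 n u / w 2 n u * B.d n ^ (-ε) ∧
      |(fA n x - sA π (E n u (kc (lev n u) (f n u) x))) +
        sE π (E n u (kc (lev n u) (f n u) x)) *
          (fB n x - sB π (E n u (kc (lev n u) (f n u) x)))| ≤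
        w 0 n u / w 1 n u * B.d n ^ (-ε))
    (u : ℚ) (u0 : 0 ≤ u) (u1 : u ≤ 1) (ε : ℝ) (hε : 0 < ε) :
    ∀ᶠ n in (U : Filter ℕ), ∀ x ∈ I n, ∀ y ∈ I n,
      kc (lev n u) (f n u) y = kc (lev n u) (f n u) x → ∀ k,
        |couQ B lev w w0 (incQ π L eE fA fB) n x y k| ≤ B.d n ^ (pathQ θ w0 R u k - ε) := by
  have u0' : (0 : ℝ) ≤ u := by exact_mod_cast u0
  have u1' : (u : ℝ) ≤ 1 := by exact_mod_cast u1
  refine gR_of (Φ := Fq4) (M := monQ) (C := 2) (inc := incQ π L eE fA fB)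
    (cF := fun n i j => coQ (scl (Wq638.uH B lev w0 n) (uA B lev w w0 n) (uB B lev w w0 n)
      (uY B lev w w0 n) i) (scl (Wq638.uH B lev w0 n) (uA B lev w w0 n) (uB B lev w w0 n)
      (uY B lev w w0 n) j))
    (fun n J => chartQ J _) (hu.path_leg u0' u1').1 one_pos (fun k => (hu.path_bd u0' u1' k).1)
    (cen := fun n u a => mkF π (c n u a) (zl (lev n u) a.2) (E n u a)) ?_ hε
  intro ε hε
  have h3 : 0 < ε / 3 := by positivity
  filter_upwards [hadm u u0 u1, hin u u0 u1 _ h3, hfl u u0 u1 _ h3,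
    h.sizes0 (w0 := w0) (R := R) u0 u1 h3,
    ev_const B (show (0 : ℝ) < 8 by norm_num) h3, h.ord u u0 u1,
    h.wpos 0 0 le_rfl zero_le_one, h.wpos 1 0 le_rfl zero_le_one, h.wpos 2 0 le_rfl zero_le_one,
    h.wpos 0 u u0 u1, h.wpos 1 u u0 u1, h.wpos 2 u u0 u1]
    with n hadm hin hfl hsz h8 hord p0 p1 p2 q0 q1 q2 x hx k
  have dp := dpow_pos B n
  have hρ := rho_pos (lev n u)
  set a := kc (lev n u) (f n u) x with ha
  have ha2 : a.2 = zc (lev n u) x.2 := rfl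
  have hH : 0 < Wq638.uH B lev w0 n := Wq638.uH_pos n
  have hWa : 0 < uA B lev w w0 n := Wq638.uA_pos p1
  have hWb : 0 < uB B lev w w0 n := Wq638.uB_pos p2
  have hWy : 0 < uY B lev w w0 n := Wq638.uY_pos p0
  have he : 1 ≤ B.d n ^ (-(ε / 3)) := by linarith
  obtain ⟨z1, z2⟩ := zl_le (lev n u) x.2
  set S : Fq4 := mkF π (c n u a) (zl (lev n u) a.2) (E n u a) with hS
  set X : Fq4 := incQ π L eE fA fB n x with hX
  have hpl := plank_co (j := X) (hadm x hx) hρ (zm := zl (lev n u) a.2) (z0 := zl (lev n u) a.2)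
    le_rfl (by linarith) (hin x hx) ⟨x.2, eE n x, fA n x, fB n x, rfl⟩
  rw [← hS] at hpl
  obtain ⟨c1, c5, c6, c7, c8, c9, c10⟩ := hpl
  obtain ⟨f2, f3, f4⟩ := hfl x hx
  have c0 : |coQ S X 0| ≤ rho (lev n u) := by
    show |x.2 - zl (lev n u) a.2| ≤ rho (lev n u)
    rw [ha2, abs_le]
    constructor <;> linarith
  have hs := size_le hH hWa hWb hWy hρ q0 q2 q1 he hord.1 hord.2 (x := coQ S X) c0 c1 f2 f3 f4
    c5 c6 c7 c8 c9 c10 k
  show |coQ (scl _ _ _ _ S) (scl _ _ _ _ X) k| ≤ B.d n ^ (pathQ θ w0 R u k - ε)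
  rw [coQ_scl hH.ne' hWa.ne' hWb.ne' hWy.ne']
  by_cases hk : k = 1
  · subst hk
    rw [c1, mul_zero, abs_zero]
    exact (dp _).le
  · refine hs.trans ?_
    have h5 := hsz k hk
    calc _ ≤ (B.d n ^ (-(ε / 3)) * B.d n ^ (-(ε / 3))) *
          B.d n ^ (pathQ θ w0 R u k - ε / 3) := by
          refine mul_le_mul (mul_le_mul_of_nonneg_right h8 (dp _).le) h5 ?_ (by
            have := dp (-(ε / 3)); positivity)
          fin_cases k <;> simp only [Fin.zero_eta, Fin.mk_one, Fin.reduceFinMk, Matrix.cons_val] <;>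
            positivity
      _ = _ := by rw [← dpow_add, ← dpow_add]; congr 1; ring

end

end Crest.Agent.R136.GR650
end

-- ▼ part R136/GD5_186

/-!
# R136: when is a chart box one sheet (helper186)

`mem_PDQ` : membership in `PDQ` from the exponents of the sizes of the level-`0` mark;
`W0` : these exponents; `w0_of_mk` : they are given by a marked sequence of `geo4` with linear
`τ`; `path_PDQ`, `nat4_PDQ` : the record path and the natural boxes.
-/

set_option autoImplicit false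
set_option linter.unusedVariables false

open Finset Filter Topology

namespace Crest.Agent.R136.GeoQ186

open Crest.Agent.R138.Ex926 (Base U)
open Crest.Agent.R138.Mk163 (zc zl rho alive)
open Crest.Agent.R138.MkRef627 (lc kc)
open Crest.Agent.R138
open Crest.Agent.R136.MkA627
open Crest.Agent.R136.Net191
open Crest.Agent.R136.NetQ186
open Crest.Agent.R136.Sh605
open Crest.Agent.R136.Top484 (geo4)
open Crest.Agent.R136.PqG464 (pow_lev zc_near ev_const)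
open Crest.Agent.R136.Wq638
open Crest.Agent.R136.NatT550 (nat4 pathQ_nat nat4_legal)

/-! ### membership in `PDQ` -/

section mem

variable {B : Base} {lev : ℕ → ℚ → ℕ} {w : Fin 3 → ℕ → ℚ → ℝ} {r0 : ℕ → ℝ} {w0 R : ℝ}
  {p : Fin 11 → ℝ}

/-- sizes of the level-`0` mark: `w₂/w₁ ≤ d^cab`, `a/w₂ ≤ d^cby`, `r₀/a ≤ d^cr`, `w₁/ρ ≤ d^cc`,
all up to `d^-ε` -/
structure W0 (B : Base) (r0 : ℕ → ℝ) (lev : ℕ → ℚ → ℕ) (w : Fin 3 → ℕ → ℚ → ℝ)
    (cab cby cr cc : ℝ) : Prop where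
  pos : ∀ j, ∀ᶠ n in (U : Filter ℕ), 0 < w j n 0
  ab : ∀ ε : ℝ, 0 < ε → ∀ᶠ n in (U : Filter ℕ), w 2 n 0 ≤ B.d n ^ (cab - ε) * w 1 n 0
  by' : ∀ ε : ℝ, 0 < ε → ∀ᶠ n in (U : Filter ℕ), w 0 n 0 ≤ B.d n ^ (cby - ε) * w 2 n 0
  res : ∀ ε : ℝ, 0 < ε → ∀ᶠ n in (U : Filter ℕ), r0 n ≤ B.d n ^ (cr - ε) * w 0 n 0
  cap : ∀ ε : ℝ, 0 < ε → ∀ᶠ n in (U : Filter ℕ), w 1 n 0 ≤ B.d n ^ (cc - ε) * rho (lev n 0)

/-- smaller exponents are allowed -/
theorem W0.mono {cab cby cr cc cab' cby' cr' cc' : ℝ} (h : W0 B r0 lev w cab cby cr cc)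
    (h1 : cab' ≤ cab) (h2 : cby' ≤ cby) (h3 : cr' ≤ cr) (h4 : cc' ≤ cc) :
    W0 B r0 lev w cab' cby' cr' cc' where
  pos := h.pos
  ab ε hε := by
    filter_upwards [h.ab ε hε, h.pos 1] with n hn h0
    exact hn.trans (mul_le_mul_of_nonneg_right (Dp76.dpow_le B n (by linarith)) h0.le)
  by' ε hε := by
    filter_upwards [h.by' ε hε, h.pos 2] with n hn h0
    exact hn.trans (mul_le_mul_of_nonneg_right (Dp76.dpow_le B n (by linarith)) h0.le)
  res ε hε := by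
    filter_upwards [h.res ε hε, h.pos 0] with n hn h0
    exact hn.trans (mul_le_mul_of_nonneg_right (Dp76.dpow_le B n (by linarith)) h0.le)
  cap ε hε := by
    filter_upwards [h.cap ε hε] with n hn
    exact hn.trans (mul_le_mul_of_nonneg_right (Dp76.dpow_le B n (by linarith)) (rho_pos _).le)

/-- the best of two readings -/
theorem W0.mix {cab cby cr cc cab' cby' cr' cc' : ℝ} (h : W0 B r0 lev w cab cby cr cc)
    (h' : W0 B r0 lev w cab' cby' cr' cc') :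
    W0 B r0 lev w (max cab cab') (max cby cby') (max cr cr') (max cc cc') where
  pos := h.pos
  ab := by rcases max_choice cab cab' with e | e <;> rw [e] <;> [exact h.ab; exact h'.ab]
  by' := by rcases max_choice cby cby' with e | e <;> rw [e] <;> [exact h.by'; exact h'.by']
  res := by rcases max_choice cr cr' with e | e <;> rw [e] <;> [exact h.res; exact h'.res]
  cap := by rcases max_choice cc cc' with e | e <;> rw [e] <;> [exact h.cap; exact h'.cap]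

/-- **when is a box one sheet** -/
theorem mem_PDQ {cab cby cr cc : ℝ} (h : W0 B r0 lev w cab cby cr cc)
    (hp : p ∈ Leg monQ R) (hp0 : w0 ≤ p 0) (hp1 : p 0 ≤ w0 + 1)
    (h1 : p 8 + w0 ≤ p 9 + cab) (h2 : p 9 + w0 ≤ p 10 + cby) (h3 : p 10 ≤ cr + 4 * w0)
    (h4 : p 0 + w0 < p 8 + cc) : p ∈ PDQ B r0 lev w w0 R := by
  have dpp := fun n a => Dp76.dpow_pos B n a
  refine ⟨hp, hp0, hp1, ⟨fun ε hε => ?_, fun ε hε => ?_, fun ε hε => ?_, ?_⟩⟩
  · filter_upwards [h.ab ε hε, h.pos 1] with n hn h0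
    have hρ : 0 < rho (lev n 0) := rho_pos _
    have hc : 0 < B.d n ^ (p 9 + -(2 * w0)) / rho (lev n 0) := div_pos (dpp n _) hρ
    calc uB B lev w w0 n * B.d n ^ p 9 =
          w 2 n 0 * (B.d n ^ (p 9 + -(2 * w0)) / rho (lev n 0)) := by
          unfold uB
          rw [Dp76.dpow_add]; ring
      _ ≤ (B.d n ^ (cab - ε) * w 1 n 0) * (B.d n ^ (p 9 + -(2 * w0)) / rho (lev n 0)) :=
          mul_le_mul_of_nonneg_right hn hc.le
      _ = B.d n ^ (cab - ε + (p 9 + -(2 * w0))) * (w 1 n 0 / rho (lev n 0)) := by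
          rw [Dp76.dpow_add B n (cab - ε)]; ring
      _ ≤ B.d n ^ (-ε + (-w0 + p 8)) * (w 1 n 0 / rho (lev n 0)) :=
          mul_le_mul_of_nonneg_right (Dp76.dpow_le B n (by linarith)) (div_pos h0 hρ).le
      _ = _ := by
          unfold uA
          rw [Dp76.dpow_add, Dp76.dpow_add]; ring
  · filter_upwards [h.by' ε hε, h.pos 2] with n hn h0
    have hρ : 0 < rho (lev n 0) := rho_pos _
    have hc : 0 < B.d n ^ (p 10 + -(3 * w0)) / rho (lev n 0) := div_pos (dpp n _) hρ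
    calc uY B lev w w0 n * B.d n ^ p 10 =
          w 0 n 0 * (B.d n ^ (p 10 + -(3 * w0)) / rho (lev n 0)) := by
          unfold uY
          rw [Dp76.dpow_add]; ring
      _ ≤ (B.d n ^ (cby - ε) * w 2 n 0) * (B.d n ^ (p 10 + -(3 * w0)) / rho (lev n 0)) :=
          mul_le_mul_of_nonneg_right hn hc.le
      _ = B.d n ^ (cby - ε + (p 10 + -(3 * w0))) * (w 2 n 0 / rho (lev n 0)) := by
          rw [Dp76.dpow_add B n (cby - ε)]; ring
      _ ≤ B.d n ^ (-ε + (-(2 * w0) + p 9)) * (w 2 n 0 / rho (lev n 0)) :=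
          mul_le_mul_of_nonneg_right (Dp76.dpow_le B n (by linarith)) (div_pos h0 hρ).le
      _ = _ := by
          unfold uB
          rw [Dp76.dpow_add, Dp76.dpow_add]; ring
  · filter_upwards [h.res ε hε, h.pos 0] with n hn h0
    refine hn.trans ?_
    have hρ : rho (lev n 0) = ((2 : ℝ) ^ (lev n 0))⁻¹ := by unfold rho; rw [one_div]
    have e1 : B.d n ^ (-ε) * (uY B lev w w0 n / uH B lev w0 n * B.d n ^ p 10) =
        B.d n ^ (-ε + (-(3 * w0) + (-w0 + p 10))) * w 0 n 0 := by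
      unfold uY uH
      have h5 : B.d n ^ (-w0) = (B.d n ^ w0)⁻¹ := Real.rpow_neg (B.pos n).le _
      rw [Dp76.dpow_add, Dp76.dpow_add, Dp76.dpow_add, h5, hρ]
      have h6 := (dpp n w0).ne'
      have h7 : ((2 : ℝ) ^ (lev n 0)) ≠ 0 := by positivity
      field_simp
    rw [e1]
    exact mul_le_mul_of_nonneg_right (Dp76.dpow_le B n (by linarith)) h0.le
  · obtain ⟨δ, hδ⟩ : ∃ δ : ℝ, δ = (p 8 + cc - (p 0 + w0)) / 2 := ⟨_, rfl⟩
    have hδ0 : 0 < δ := by rw [hδ]; linarith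
    refine ⟨δ, hδ0, ?_⟩
    filter_upwards [h.cap δ hδ0] with n hn
    have hρ : 0 < rho (lev n 0) := rho_pos _
    have h5 : w 1 n 0 / rho (lev n 0) ≤ B.d n ^ (cc - δ) := by
      rwa [div_le_iff₀ hρ]
    calc uA B lev w w0 n * B.d n ^ (p 8 - p 0 - δ) =
          (w 1 n 0 / rho (lev n 0)) * B.d n ^ (-w0 + (p 8 - p 0 - δ)) := by
          unfold uA
          rw [Dp76.dpow_add]; ring
      _ ≤ B.d n ^ (cc - δ) * B.d n ^ (-w0 + (p 8 - p 0 - δ)) :=
          mul_le_mul_of_nonneg_right h5 (dpp n _).le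
      _ = B.d n ^ (cc - δ + (-w0 + (p 8 - p 0 - δ))) := (Dp76.dpow_add _ _ _ _).symm
      _ ≤ B.d n ^ (0 : ℝ) := Dp76.dpow_le B n (by rw [hδ]; linarith)
      _ = 1 := Real.rpow_zero _

/-- the record path -/
theorem path_PDQ {cab cby cr cc : ℝ} {θ : Fin 3 → ℝ} (h : W0 B r0 lev w cab cby cr cc)
    {v : ℝ}
    (hp : pathQ θ w0 R v ∈ Leg monQ R) (h0 : 0 ≤ v) (h1 : v ≤ 1)
    (hab : (θ 2 - θ 1) * v ≤ cab) (hby : (θ 0 - θ 2) * v ≤ cby) (hr : (1 - θ 0) * v ≤ cr)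
    (hc : θ 1 * v < cc) : pathQ θ w0 R v ∈ PDQ B r0 lev w w0 R := by
  refine mem_PDQ h hp ?_ ?_ ?_ ?_ ?_ ?_ <;> simp only [pathQ, Matrix.cons_val]
  all_goals linarith


end mem

/-! ### the exponents of the level-`0` mark -/

section mk

variable {B : Base} {I : ℕ → Finset (ℕ × ℝ)} {lev : ℕ → ℚ → ℕ}
    {A : ℕ → ℝ} {g s : ℝ} {τ : Fin 3 → ℝ → ℝ} {f : ℕ → ℚ → ℕ → ℤ → ℕ} {b : ℕ → ℚ → ℕ → K4.Plk4}
    {vm : ℕ → ℚ → ℝ} {w : Fin 3 → ℕ → ℚ → ℝ} {L : ℕ → ℕ → Ln4} {r0 : ℕ → ℝ}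
    {wr cr : Fin 3 → ℕ → ℝ} {q : Fin 3 → ℝ} {θ : Fin 3 → ℝ}

/-- the widths of the marks are ordered -/
theorem mark_ord (hM : MkA B I (geo4 L r0 wr cr q) lev A (fun v => g * v) (fun v => s * v) τ f b vm w)
    {v : ℚ} (hv0 : 0 ≤ v) (hv1 : v ≤ 1) : ∀ᶠ n in (U : Filter ℕ),
      r0 n ≤ w 0 n v ∧ w 0 n v ≤ w 2 n v ∧ w 2 n v ≤ w 1 n v ∧ w 1 n v ≤ rho (lev n v) := by
  filter_upwards [hM.ne, hM.mark v hv0 hv1] with n hne hmk
  obtain ⟨x, hx⟩ := hne
  have hal : x.1 ∈ alive (I n) (lev n v) (zc (lev n v) x.2) :=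
    MkRef627.mem_alive.2 ⟨x, hx, rfl, rfl⟩
  obtain ⟨-, h2, -, h4⟩ := hmk _ _ hal
  have w0' := h4 0
  have w1' := h4 1
  have w2' := h4 2
  simp only [geo4, Matrix.cons_val] at h2 w0' w1' w2'
  obtain ⟨hs, hc, -⟩ := h2
  rw [← w0', ← w1', ← w2']
  exact ⟨hs.r0_le, hs.a_le, hs.w_le, hc⟩

/-- **the exponents, read at the rational level `u`** -/
theorem w0_of_mk (hM : MkA B I (geo4 L r0 wr cr q) lev A (fun v => g * v) (fun v => s * v)
    (fun j v => θ j * (1 - v)) f b vm w) {u : ℚ} (u0 : 0 ≤ u) (u1 : u ≤ 1) :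
    W0 B r0 lev w ((θ 2 - θ 1) * u) ((θ 0 - θ 2) * u) ((1 - θ 0) * u) (θ 1 * u) := by
  have hLW : GR650.LinW B lev w θ := ⟨hM.lev_lim, fun j v => hM.wpos j v, fun j v => hM.tau j v,
    fun v v0 v1 => (mark_ord hM v0 v1).mono fun n h => ⟨h.2.1, h.2.2.1⟩⟩
  have dpp := fun n a => Dp76.dpow_pos B n a
  -- the width at level `0` against the width at level `u`
  have key : ∀ (j : Fin 3) {t : ℝ}, 0 < t → ∀ᶠ n in (U : Filter ℕ),
      B.d n ^ (-(θ j * u) + t) * (w j n 0 / rho (lev n 0)) ≤ w j n u / rho (lev n u) ∧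
      w j n u / rho (lev n u) ≤ B.d n ^ (-(θ j * u) - t) * (w j n 0 / rho (lev n 0)) := by
    intro j t ht
    filter_upwards [hLW.ang0 j u0 u1 ht, hM.wpos j 0 le_rfl zero_le_one] with n hn h0
    have hp : 0 < w j n 0 / rho (lev n 0) := div_pos h0 (rho_pos _)
    exact ⟨(le_div_iff₀ hp).1 hn.1, (div_le_iff₀ hp).1 hn.2⟩
  -- comparison of two widths
  have cmp : ∀ (j k : Fin 3), (∀ᶠ n in (U : Filter ℕ), w j n u ≤ w k n u) → ∀ ε : ℝ, 0 < ε →
      ∀ᶠ n in (U : Filter ℕ), w j n 0 ≤ B.d n ^ ((θ j - θ k) * u - ε) * w k n 0 := by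
    intro j k hjk ε hε
    filter_upwards [key j (half_pos hε), key k (half_pos hε), hjk] with n a b c
    have hρ := rho_pos (lev n u)
    have hρ0 := rho_pos (lev n 0)
    have h1 : B.d n ^ (-(θ j * u) + ε / 2) * (w j n 0 / rho (lev n 0)) ≤
        B.d n ^ (-(θ k * u) - ε / 2) * (w k n 0 / rho (lev n 0)) :=
      a.1.trans ((div_le_div_of_nonneg_right c hρ.le).trans b.2)
    have h2 : B.d n ^ (-(θ j * u) + ε / 2) * w j n 0 ≤
        B.d n ^ (-(θ k * u) - ε / 2) * w k n 0 := by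
      have := mul_le_mul_of_nonneg_right h1 hρ0.le
      rwa [mul_assoc, mul_assoc, div_mul_cancel₀ _ hρ0.ne', div_mul_cancel₀ _ hρ0.ne'] at this
    have h3 := mul_le_mul_of_nonneg_left h2 (dpp n (θ j * u - ε / 2)).le
    rw [← mul_assoc, ← mul_assoc, ← Dp76.dpow_add, ← Dp76.dpow_add,
      show θ j * u - ε / 2 + (-(θ j * u) + ε / 2) = 0 by ring, Real.rpow_zero, one_mul] at h3
    rwa [show (θ j - θ k) * u - ε = θ j * u - ε / 2 + (-(θ k * u) - ε / 2) by ring]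
  refine ⟨fun j => hM.wpos j 0 le_rfl zero_le_one,
    cmp 2 1 ((mark_ord hM u0 u1).mono fun n h => h.2.2.1),
    cmp 0 2 ((mark_ord hM u0 u1).mono fun n h => h.2.1), fun ε hε => ?_, fun ε hε => ?_⟩
  · filter_upwards [key 0 (half_pos hε), (mark_ord hM u0 u1),
      pow_lev hM u u0 u1 (half_pos hε), hM.wpos 0 0 le_rfl zero_le_one] with n a c e hw0
    refine c.1.trans ?_
    have hρ := rho_pos (lev n u)
    have hρ0 := rho_pos (lev n 0)
    have h1 : w 0 n u ≤ B.d n ^ (-(θ 0 * u) - ε / 2) * (w 0 n 0 / rho (lev n 0)) * rho (lev n u) :=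
      (div_le_iff₀ hρ).1 a.2
    refine h1.trans ?_
    -- the ratio of the two lengths
    have h2 : rho (lev n u) ≤ B.d n ^ ((u : ℝ) - ε / 2) * rho (lev n 0) := by
      unfold rho
      rw [← mul_div_assoc, mul_one, div_le_div_iff₀ (by positivity) (by positivity), one_mul]
      have h3 := mul_le_mul_of_nonneg_left e.2 (dpp n ((u : ℝ) - ε / 2)).le
      have h4 : B.d n ^ ((u : ℝ) - ε / 2) * (2 ^ lev n 0 * B.d n ^ (-((u : ℝ) - ε / 2))) =
          2 ^ lev n 0 := by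
        have : B.d n ^ ((u : ℝ) - ε / 2) * B.d n ^ (-((u : ℝ) - ε / 2)) = 1 := by
          rw [← Dp76.dpow_add, add_neg_cancel, Real.rpow_zero]
        calc _ = 2 ^ lev n 0 * (B.d n ^ ((u : ℝ) - ε / 2) * B.d n ^ (-((u : ℝ) - ε / 2))) := by
              ring
          _ = _ := by rw [this, mul_one]
      linarith
    calc B.d n ^ (-(θ 0 * u) - ε / 2) * (w 0 n 0 / rho (lev n 0)) * rho (lev n u) ≤
          B.d n ^ (-(θ 0 * u) - ε / 2) * (w 0 n 0 / rho (lev n 0)) *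
            (B.d n ^ ((u : ℝ) - ε / 2) * rho (lev n 0)) :=
          mul_le_mul_of_nonneg_left h2 (mul_pos (dpp n _) (div_pos hw0 hρ0)).le
      _ = B.d n ^ (-(θ 0 * u) - ε / 2) * B.d n ^ ((u : ℝ) - ε / 2) * w 0 n 0 := by
          field_simp
      _ = _ := by
          rw [← Dp76.dpow_add]
          congr 2; ring
  · filter_upwards [key 1 hε, (mark_ord hM u0 u1), hM.wpos 1 0 le_rfl zero_le_one] with n a c hw1
    have hρ := rho_pos (lev n u)
    have hρ0 := rho_pos (lev n 0)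
    have h1 : w 1 n u / rho (lev n u) ≤ 1 := (div_le_one hρ).2 c.2.2.2
    have h2 := mul_le_mul_of_nonneg_left (a.1.trans h1) (dpp n (θ 1 * u - ε)).le
    rw [← mul_assoc, ← Dp76.dpow_add, show θ 1 * u - ε + (-(θ 1 * u) + ε) = 0 by ring,
      Real.rpow_zero, one_mul, mul_one] at h2
    exact (div_le_iff₀ hρ0).1 h2

/-- read at the level `1` -/
theorem w0_one (hM : MkA B I (geo4 L r0 wr cr q) lev A (fun v => g * v) (fun v => s * v)
    (fun j v => θ j * (1 - v)) f b vm w) :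
    W0 B r0 lev w (θ 2 - θ 1) (θ 0 - θ 2) (1 - θ 0) (θ 1) := by
  have h := w0_of_mk hM zero_le_one le_rfl
  rwa [Rat.cast_one, mul_one, mul_one, mul_one, mul_one] at h

/-- read at the level `0` -/
theorem w0_zero (hM : MkA B I (geo4 L r0 wr cr q) lev A (fun v => g * v) (fun v => s * v)
    (fun j v => θ j * (1 - v)) f b vm w) : W0 B r0 lev w 0 0 0 0 := by
  have h := w0_of_mk hM le_rfl zero_le_one
  rwa [Rat.cast_zero, mul_zero, mul_zero, mul_zero, mul_zero] at h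

end mk

end Crest.Agent.R136.GeoQ186
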