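import Crest.Agent.R136.GeoN4_778
import Crest.Agent.R136.GD4_186
import Crest.Agent.R136.PrW4_464
import Crest.Agent.R136.GD5_186
import Crest.Agent.R136.TD5_627

-- ▼ part R136/GeoM1_778
section

/-!
# R136: sheets with free chart width close to the model quadric (helper778)

Gradient bounds in the frame for the class `ShN` with `w 0` free; only the physical slopes of the
frame have to be bounded, the unit coordinates of the line may be large.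
-/

set_option autoImplicit false
set_option linter.unusedVariables false
set_option maxHeartbeats 400000

namespace Crest.Agent.R136.GeoN778

open Crest.Agent.R136.Sh605

/-! ### the gradient in the frame -/

section core

variable {α β Fa Fb E E' κ η θ θ' p0 p1 p2 x1 z : ℝ}

/-- steepness; `θ`, `θ'` bound the turning in the original units -/
theorem core0' (hα : 0 ≤ α) (hα1 : α ≤ 1) (hβ : 0 ≤ β) (hβ1 : β ≤ 1)
    (h0 : |p0 - 1| ≤ η) (h1 : |p1 + 2 * κ * x1| ≤ η) (h2 : |p2 + z| ≤ η)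
    (hz : |β * (z - Fb)| ≤ θ) (hx : |α * (2 * κ * x1 - Fa)| ≤ θ') :
    |dt ![p0 / nn (α * Fa) (β * Fb), α * p1 / nn (α * Fa) (β * Fb),
      β * p2 / nn (α * Fa) (β * Fb)] (fr (α * Fa) (β * Fb) E' 0) - 1| ≤
      2 * η + (θ + θ') / 2 := by
  have hν := nn_sq (α * Fa) (β * Fb)
  have hp := nn_pos (α * Fa) (β * Fb)
  set ν := nn (α * Fa) (β * Fb) with hνdef
  have hν2 : 1 ≤ ν ^ 2 := by rw [hν]; nlinarith [sq_nonneg (α * Fa), sq_nonneg (β * Fb)]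
  have hη : 0 ≤ η := (abs_nonneg _).trans h0
  have hθ : 0 ≤ θ := (abs_nonneg _).trans hz
  have hθ' : 0 ≤ θ' := (abs_nonneg _).trans hx
  have e1 : dt ![p0 / ν, α * p1 / ν, β * p2 / ν] (fr (α * Fa) (β * Fb) E' 0) - 1 =
      ((p0 - 1) + ((α * Fa) * (α * (2 * κ * x1 - Fa) - α * (p1 + 2 * κ * x1)) +
        (β * Fb) * (β * (z - Fb) - β * (p2 + z)))) / ν ^ 2 := by
    simp only [dt, fr, ← hνdef, Matrix.cons_val]
    field_simp
    rw [hν]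
    ring
  have hαa : |α| ≤ 1 := by rw [abs_of_nonneg hα]; exact hα1
  have hβa : |β| ≤ 1 := by rw [abs_of_nonneg hβ]; exact hβ1
  have b1 : |α * (2 * κ * x1 - Fa) - α * (p1 + 2 * κ * x1)| ≤ θ' + 1 * η := s2 hx (m2 hαa h1)
  have b2 : |β * (z - Fb) - β * (p2 + z)| ≤ θ + 1 * η := s2 hz (m2 hβa h2)
  have c1 : |α * Fa| ≤ ν ^ 2 / 2 := by
    have := two_mul_le_sq (a := α * Fa) (b := β * Fb)
    rw [← hν] at this
    linarith
  have c2 : |β * Fb| ≤ ν ^ 2 / 2 := by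
    have := two_mul_le_sq (a := β * Fb) (b := α * Fa)
    have h4 : 1 + (β * Fb) ^ 2 + (α * Fa) ^ 2 = ν ^ 2 := by rw [hν]; ring
    rw [h4] at this
    linarith
  rw [e1, abs_div, abs_of_pos (by positivity : 0 < ν ^ 2), div_le_iff₀ (by positivity)]
  refine (a2 h0 (a2 (m2 c1 b1) (m2 c2 b2))).trans ?_
  nlinarith

/-- slope along the narrow axis -/
theorem core2' (hα : 0 ≤ α) (hβ : 0 ≤ β) (hαβ : α ≤ β)
    (h0 : |p0 - 1| ≤ η) (h1 : |p1 + 2 * κ * x1| ≤ η) (h2 : |p2 + z| ≤ η) (hz : |z - Fb| ≤ θ)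
    (hx : |α * (2 * κ * x1 - Fa)| ≤ θ') {G0 : ℝ}
    (hf : |β * Fb - α * Fa * E'| ≤ β * G0) :
    |dt ![p0 / nn (α * Fa) (β * Fb), α * p1 / nn (α * Fa) (β * Fb),
      β * p2 / nn (α * Fa) (β * Fb)] (fr (α * Fa) (β * Fb) E' 2)| ≤
      β * (η * (G0 + 2) + θ) + θ' := by
  have hp := nn_pos (α * Fa) (β * Fb)
  have hp1 := one_le_nn (α * Fa) (β * Fb)
  have hm := nm_pos (α * Fa) (β * Fb) E'
  have hm1 := one_le_nm (α * Fa) (β * Fb) E'
  have hη : 0 ≤ η := (abs_nonneg _).trans h0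
  have hθ : 0 ≤ θ := (abs_nonneg _).trans hz
  have hθ' : 0 ≤ θ' := (abs_nonneg _).trans hx
  have ho := fr_ortho (α * Fa) (β * Fb) E'
  have h21 := ortho_le ho 2 1
  have h22 := ortho_le ho 2 2
  have hd := ho 0 2
  set ν := nn (α * Fa) (β * Fb) with hνdef
  set μ := nm (α * Fa) (β * Fb) E' with hμdef
  have hid : fr (α * Fa) (β * Fb) E' 2 0 - α * Fa * fr (α * Fa) (β * Fb) E' 2 1 -
      β * Fb * fr (α * Fa) (β * Fb) E' 2 2 = 0 := by
    have e0 : fr (α * Fa) (β * Fb) E' 0 0 = 1 / ν := rfl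
    have e1 : fr (α * Fa) (β * Fb) E' 0 1 = -(α * Fa) / ν := rfl
    have e2 : fr (α * Fa) (β * Fb) E' 0 2 = -(β * Fb) / ν := rfl
    simp only [dt, e0, e1, e2] at hd
    have hne : ν ≠ 0 := hp.ne'
    have h3 : (if (0 : Fin 3) = 2 then (1 : ℝ) else 0) = 0 := by simp
    rw [h3] at hd
    field_simp at hd
    linarith
  have h20 : |fr (α * Fa) (β * Fb) E' 2 0| ≤ β * G0 := by
    have e : fr (α * Fa) (β * Fb) E' 2 0 = (β * Fb - α * Fa * E') / (ν * μ) := by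
      show (-(α * Fa) * E' + β * Fb) / (nn (α * Fa) (β * Fb) * nm (α * Fa) (β * Fb) E') = _
      congr 1; ring
    have hνμ : 1 ≤ ν * μ := by nlinarith
    rw [e, abs_div, abs_of_pos (by positivity : 0 < ν * μ), div_le_iff₀ (by positivity)]
    have h4 : 0 ≤ β * G0 := (abs_nonneg _).trans hf
    nlinarith
  set f := fr (α * Fa) (β * Fb) E' 2 with hfd
  have e1 : dt ![p0 / ν, α * p1 / ν, β * p2 / ν] f =
      ((p0 - 1) * f 0 + (α * (p1 + 2 * κ * x1) - α * (2 * κ * x1 - Fa)) * f 1 +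
        β * ((p2 + z) - (z - Fb)) * f 2) / ν := by
    have : dt ![p0 / ν, α * p1 / ν, β * p2 / ν] f =
      ((p0 - 1) * f 0 + (α * (p1 + 2 * κ * x1) - α * (2 * κ * x1 - Fa)) * f 1 +
        β * ((p2 + z) - (z - Fb)) * f 2) / ν + (f 0 - α * Fa * f 1 - β * Fb * f 2) / ν := by
      simp only [dt, Matrix.cons_val]
      field_simp
      ring
    rw [this, hid, zero_div, add_zero]
  have hαa : |α| ≤ β := by rw [abs_of_nonneg hα]; exact hαβ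
  have hβa : |β| ≤ β := by rw [abs_of_nonneg hβ]
  have b := a2 (a2 (m2 h0 h20) (m2 (s2 (m2 hαa h1) hx) h21)) (m2 (m2 hβa (s2 h2 hz)) h22)
  rw [e1, abs_div, abs_of_pos hp, div_le_iff₀ hp]
  have h6 : 0 ≤ β * (η * (G0 + 2) + θ) + θ' := by
    refine le_trans (abs_nonneg _) (b.trans (le_of_eq ?_))
    ring
  refine (b.trans (le_of_eq ?_)).trans (le_mul_of_one_le_right h6 hp1)
  ring

end core

/-- image of the doubled box in the unit coordinates, `w 0` free -/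
theorem boxM_comp {u : Un} (h : u.Ok) {κ Am zm cA S : ℝ} {T : Ln4} {w : V3} {z : ℝ} {x : V3}
    (h00 : 0 ≤ w 0) (h02 : w 0 ≤ w 2) (hw : w 2 ≤ w 1)
    (hS : |2 * κ * cA| * (u.WB / u.WA) ≤ S)
    (hx : InK (u.fr κ Am zm cA) T (dbl3 w) z x) :
    |u.xh x 1 - u.xh (T.pos z) 1| ≤ 6 * (w 1 / u.WA) ∧
    |u.xh x 2 - u.xh (T.pos z) 2| ≤ 4 * (w 2 / u.WB) + 2 * |2 * κ * cA| * (w 1 / u.WA) ∧
    |u.xh x 0 - u.xh (T.pos z) 0| ≤ 2 * (w 0 / u.WY) +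
      2 * (|2 * κ * Am| + |zm| * |2 * κ * cA|) * (w 1 / u.WA) +
      2 * (|zm| + |2 * κ * Am| * S) * (w 2 / u.WB) := by
  have hY := h.Y0
  have hA := h.A0
  have hB := h.B0
  have hw2 : 0 ≤ w 2 := h00.trans h02
  set e := u.fr κ Am zm cA with he
  have ho : Ortho e := fr_ortho _ _ _
  have hm1 := one_le_nm (u.WY / u.WA * (2 * κ * Am)) (u.WY / u.WB * zm)
    (-2 * κ * cA * (u.WB / u.WA))
  have hm0 := nm_pos (u.WY / u.WA * (2 * κ * Am)) (u.WY / u.WB * zm)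
    (-2 * κ * cA * (u.WB / u.WA))
  have hn1 := one_le_nn (u.WY / u.WA * (2 * κ * Am)) (u.WY / u.WB * zm)
  have hn0 := nn_pos (u.WY / u.WA * (2 * κ * Am)) (u.WY / u.WB * zm)
  set μ := nm (u.WY / u.WA * (2 * κ * Am)) (u.WY / u.WB * zm) (-2 * κ * cA * (u.WB / u.WA))
    with hμ
  set ν := nn (u.WY / u.WA * (2 * κ * Am)) (u.WY / u.WB * zm) with hν
  have k0 : |dt (e 0) (x - T.pos z)| ≤ 2 * w 0 := hx 0
  have k1 : |dt (e 1) (x - T.pos z)| ≤ 2 * w 1 := hx 1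
  have k2 : |dt (e 2) (x - T.pos z)| ≤ 2 * w 2 := hx 2
  have hw1 : 0 ≤ w 1 := hw2.trans hw
  have ex := fun j => ho.expand (x - T.pos z) j
  have habs : |-2 * κ * cA * (u.WB / u.WA)| = |2 * κ * cA| * (u.WB / u.WA) := by
    rw [abs_mul, abs_of_pos (div_pos hB hA)]
    congr 1
    rw [← abs_neg]; congr 1; ring
  refine ⟨?_, ?_, ?_⟩
  · have e1 : u.xh x 1 - u.xh (T.pos z) 1 = (x - T.pos z) 1 / u.WA := by
      show x 1 / u.WA - T.pos z 1 / u.WA = _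
      rw [Pi.sub_apply]; ring
    rw [e1, abs_div, abs_of_pos hA, ex 1]
    have b := a2 (a2 (m2 k0 (ortho_le ho 0 1)) (m2 k1 (ortho_le ho 1 1)))
      (m2 k2 (ortho_le ho 2 1))
    rw [div_le_iff₀ hA]
    have e2 : 6 * (w 1 / u.WA) * u.WA = 6 * w 1 := by field_simp
    rw [e2]
    linarith
  · have e1 : u.xh x 2 - u.xh (T.pos z) 2 = (x - T.pos z) 2 / u.WB := by
      show x 2 / u.WB - T.pos z 2 / u.WB = _
      rw [Pi.sub_apply]; ring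
    have c1 : |e 1 2| ≤ |2 * κ * cA| * (u.WB / u.WA) := by
      have : e 1 2 = -2 * κ * cA * (u.WB / u.WA) / μ := rfl
      rw [this, abs_div, abs_of_pos hm0, div_le_iff₀ hm0, habs]
      have h4 : 0 ≤ |2 * κ * cA| * (u.WB / u.WA) := by positivity
      nlinarith
    rw [e1, abs_div, abs_of_pos hB, ex 2]
    have b := a2 (a2 (m2 k0 (ortho_le ho 0 2)) (m2 k1 c1)) (m2 k2 (ortho_le ho 2 2))
    rw [div_le_iff₀ hB]
    have e2 : (4 * (w 2 / u.WB) + 2 * |2 * κ * cA| * (w 1 / u.WA)) * u.WB =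
        4 * w 2 + 2 * w 1 * (|2 * κ * cA| * (u.WB / u.WA)) := by field_simp
    rw [e2]
    linarith
  · have e1 : u.xh x 0 - u.xh (T.pos z) 0 = (x - T.pos z) 0 / u.WY := by
      show x 0 / u.WY - T.pos z 0 / u.WY = _
      rw [Pi.sub_apply]; ring
    have c1 : |e 1 0| ≤ (|2 * κ * Am| + |zm| * |2 * κ * cA|) * (u.WY / u.WA) := by
      have h5 : e 1 0 = (u.WY / u.WA * (2 * κ * Am) +
          u.WY / u.WB * zm * (-2 * κ * cA * (u.WB / u.WA))) / μ := rfl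
      have h6 : u.WY / u.WA * (2 * κ * Am) +
          u.WY / u.WB * zm * (-2 * κ * cA * (u.WB / u.WA)) =
          (2 * κ * Am - zm * (2 * κ * cA)) * (u.WY / u.WA) := by
        field_simp
        ring
      have h7 : |(2 * κ * Am - zm * (2 * κ * cA)) * (u.WY / u.WA)| ≤
          (|2 * κ * Am| + |zm| * |2 * κ * cA|) * (u.WY / u.WA) :=
        m2 (s2 le_rfl (m2 le_rfl le_rfl)) (by rw [abs_of_pos (div_pos hY hA)])
      rw [h5, h6, abs_div, abs_of_pos hm0, div_le_iff₀ hm0]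
      refine h7.trans ?_
      have h8 : 0 ≤ (|2 * κ * Am| + |zm| * |2 * κ * cA|) * (u.WY / u.WA) := by positivity
      nlinarith
    have c2 : |e 2 0| ≤ (|zm| + |2 * κ * Am| * S) * (u.WY / u.WB) := by
      have h5 : e 2 0 = (-(u.WY / u.WA * (2 * κ * Am)) * (-2 * κ * cA * (u.WB / u.WA)) +
          u.WY / u.WB * zm) / (ν * μ) := rfl
      have hνμ : 1 ≤ ν * μ := by nlinarith
      have hγ : u.WY / u.WA ≤ u.WY / u.WB :=
        div_le_div_of_nonneg_left hY.le hB h.BA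
      have h6 : |-(u.WY / u.WA * (2 * κ * Am)) * (-2 * κ * cA * (u.WB / u.WA)) +
          u.WY / u.WB * zm| ≤ u.WY / u.WB * |2 * κ * Am| * S + u.WY / u.WB * |zm| := by
        refine a2 (m2 ?_ (habs.le.trans hS)) ?_
        · rw [abs_neg, abs_mul, abs_of_pos (div_pos hY hA)]
          exact mul_le_mul_of_nonneg_right hγ (abs_nonneg _)
        · rw [abs_mul, abs_of_pos (div_pos hY hB)]
      rw [h5, abs_div, abs_of_pos (by positivity : 0 < ν * μ), div_le_iff₀ (by positivity)]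
      have h8 : 0 ≤ (|zm| + |2 * κ * Am| * S) * (u.WY / u.WB) := by
        have := (abs_nonneg _).trans h6
        linarith
      have h9 : (|zm| + |2 * κ * Am| * S) * (u.WY / u.WB) ≤
          (|zm| + |2 * κ * Am| * S) * (u.WY / u.WB) * (ν * μ) :=
        le_mul_of_one_le_right h8 hνμ
      linarith
    rw [e1, abs_div, abs_of_pos hY, ex 0]
    have b := a2 (a2 (m2 k0 (ortho_le ho 0 0)) (m2 k1 c1)) (m2 k2 c2)
    rw [div_le_iff₀ hY]
    have e2 : (2 * (w 0 / u.WY) + 2 * (|2 * κ * Am| + |zm| * |2 * κ * cA|) * (w 1 / u.WA) +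
        2 * (|zm| + |2 * κ * Am| * S) * (w 2 / u.WB)) *
        u.WY = 2 * w 0 + 2 * w 1 * ((|2 * κ * Am| + |zm| * |2 * κ * cA|) *
        (u.WY / u.WA)) + 2 * w 2 * ((|zm| + |2 * κ * Am| * S) * (u.WY / u.WB)) := by field_simp
    rw [e2]
    linarith

end Crest.Agent.R136.GeoN778
end

-- ▼ part R136/GeoM2_778
section

/-!
# R136: sheets with free chart width close to the model quadric, II (helper778)

`shM_near` : the sheet; `boxM_near` : lines in the sheet.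
-/

set_option autoImplicit false
set_option linter.unusedVariables false
set_option maxHeartbeats 400000

namespace Crest.Agent.R136.GeoN778

open Crest.Agent.R136.Sh605

variable {u : Un}

theorem two_abs (κ : ℝ) : |2 * κ| = 2 * |κ| := by rw [abs_mul, abs_two]

/-- **a sheet close to the model quadric** -/
theorem shM_near (h : u.Ok) {Q : Qd} {κ η Am zm cA S θ : ℝ} {T : Ln4} {w : V3}
    {a z0 ρ r0 : ℝ} (hT : ∀ z, u.xh (T.pos z) 1 = Am + cA * (u.zh z - zm))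
    (ha0 : 0 < a) (ha : a ≤ w 0) (h02 : w 0 ≤ w 2) (hw : w 2 ≤ w 1) (hr : r0 ≤ a)
    (hη0 : 0 ≤ η) (hθ0 : 0 ≤ θ) (hS0 : 0 ≤ S)
    (hS : |2 * κ * cA| * (u.WB / u.WA) ≤ S)
    (hθ : ∀ z, z0 ≤ z → z ≤ z0 + ρ → |u.zh z - zm| ≤ θ)
    (hN : ∀ z, z0 ≤ z → z ≤ z0 + ρ → ∀ x : V3,
      |x 1 - u.xh (T.pos z) 1| ≤ 6 * (w 1 / u.WA) →
      |x 2 - u.xh (T.pos z) 2| ≤ 4 * (w 2 / u.WB) + 2 * |2 * κ * cA| * (w 1 / u.WA) →
      |x 0 - u.xh (T.pos z) 0| ≤ 2 * (w 0 / u.WY) +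
        2 * (|2 * κ * Am| + |zm| * |2 * κ * cA|) * (w 1 / u.WA) +
        2 * (|zm| + |2 * κ * Am| * S) * (w 2 / u.WB) → NearG Q κ η (u.zh z) x)
    (h2 : 2 * η + ((1 + S) * θ + w 0 / w 1) / 2 ≤ 1 / 2)
    (h4 : (12 * |κ| * (w 1 / u.WA) +
      η * (1 + |2 * κ * Am| + |2 * κ * cA| + |zm| * |2 * κ * cA|)) * (w 1 / u.WA) ≤
        w 0 / u.WY)
    (h5 : (η * (|zm| + |2 * κ * Am| * S + 2) + (1 + S) * θ) * (w 2 / u.WB) +
      12 * |κ| * (w 1 / u.WA) ^ 2 ≤ w 0 / u.WY) :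
    ShN (u.fr κ Am zm cA) T w (u.q κ Am zm Q).ev a z0 ρ r0 := by
  have hY := h.Y0
  have hA := h.A0
  have hB := h.B0
  have hα : 0 ≤ u.WY / u.WA := by positivity
  have hα1 : u.WY / u.WA ≤ 1 := (div_le_one hA).2 (h.YB.trans h.BA)
  have hβ : 0 ≤ u.WY / u.WB := by positivity
  have hβ1 : u.WY / u.WB ≤ 1 := (div_le_one hB).2 h.YB
  have hαβ : u.WY / u.WA ≤ u.WY / u.WB := div_le_div_of_nonneg_left hY.le hB h.BA
  have hw0 : 0 < w 0 := ha0.trans_le ha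
  have hw2 : 0 < w 2 := hw0.trans_le h02
  have hw1 : 0 < w 1 := hw2.trans_le hw
  have hk := abs_nonneg κ
  -- the turning of the `A`-slope
  have hαc : u.WY / u.WA * |2 * κ * cA| ≤ u.WY / u.WB * S := by
    have e1 : u.WY / u.WA * |2 * κ * cA| = u.WY / u.WB * (|2 * κ * cA| * (u.WB / u.WA)) := by
      field_simp
    rw [e1]
    exact mul_le_mul_of_nonneg_left hS hβ
  -- `12 |κ| (WY / WA) ŵ1`
  obtain ⟨D, hD⟩ : ∃ D : ℝ, D = u.WY / u.WA * (12 * |κ| * (w 1 / u.WA)) := ⟨_, rfl⟩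
  have hD0 : 0 ≤ D := by rw [hD]; positivity
  have key : ∀ z, z0 ≤ z → z ≤ z0 + ρ → ∀ x : V3, InK (u.fr κ Am zm cA) T (dbl3 w) z x →
      NearG Q κ η (u.zh z) (u.xh x) ∧
        |u.WY / u.WA * (2 * κ * u.xh x 1 - 2 * κ * Am)| ≤ u.WY / u.WB * (S * θ) + D ∧
        |(2 * κ * u.xh x 1 - 2 * κ * Am) + (-2 * κ * cA) * (u.zh z - zm)| ≤
          12 * |κ| * (w 1 / u.WA) := by
    intro z hz hz' x hx
    obtain ⟨b1, b2, b0⟩ := boxM_comp h hw0.le h02 hw hS hx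
    have hθz := hθ z hz hz'
    refine ⟨hN z hz hz' _ b1 b2 b0, ?_, ?_⟩
    · have e1 : u.WY / u.WA * (2 * κ * u.xh x 1 - 2 * κ * Am) =
          u.WY / u.WA * (2 * κ * cA) * (u.zh z - zm) +
            u.WY / u.WA * (2 * κ * (u.xh x 1 - u.xh (T.pos z) 1)) := by
        rw [hT]; ring
      have c1 : |u.WY / u.WA * (2 * κ * cA)| ≤ u.WY / u.WB * S := by
        rw [abs_mul, abs_of_nonneg hα]; exact hαc
      have c2 : |u.WY / u.WA * (2 * κ * (u.xh x 1 - u.xh (T.pos z) 1))| ≤ D := by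
        rw [abs_mul, abs_of_nonneg hα, hD]
        refine mul_le_mul_of_nonneg_left ?_ hα
        have := m2 (two_abs κ).le b1
        linarith
      rw [e1]
      have := a2 (m2 c1 hθz) c2
      linarith
    · have e1 : (2 * κ * u.xh x 1 - 2 * κ * Am) + (-2 * κ * cA) * (u.zh z - zm) =
          2 * κ * (u.xh x 1 - u.xh (T.pos z) 1) := by
        rw [hT]; ring
      rw [e1]
      have := m2 (two_abs κ).le b1
      linarith
  -- comparison of `D` with the slopes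
  have hP0 : 0 ≤ η * (1 + |2 * κ * Am| + |2 * κ * cA| + |zm| * |2 * κ * cA|) := by positivity
  have hw1A : 0 < w 1 / u.WA := div_pos hw1 hA
  have hDw1 : D ≤ w 0 / w 1 := by
    have i1 : 12 * |κ| * (w 1 / u.WA) ^ 2 ≤ w 0 / u.WY := by
      have := mul_nonneg hP0 hw1A.le
      nlinarith
    have e1 : D = 12 * |κ| * (w 1 / u.WA) ^ 2 * (u.WY / w 1) := by
      rw [hD]; field_simp
    have e2 : w 0 / w 1 = w 0 / u.WY * (u.WY / w 1) := by field_simp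
    rw [e1, e2]
    exact mul_le_mul_of_nonneg_right i1 (by positivity)
  refine shC_of_grad (fr_ortho _ _ _) ha h02 hw hr ?_ ?_ ?_
  · intro z hz hz' x hx
    obtain ⟨⟨n0, n1, n2⟩, hx', -⟩ := key z hz hz' x hx
    have hz2 : |u.WY / u.WB * (u.zh z - zm)| ≤ θ := by
      rw [abs_mul, abs_of_nonneg hβ]
      exact (mul_le_of_le_one_left (abs_nonneg _) hβ1).trans (hθ z hz hz')
    have hx2 : |u.WY / u.WA * (2 * κ * u.xh x 1 - 2 * κ * Am)| ≤ S * θ + w 0 / w 1 := by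
      refine hx'.trans (add_le_add ?_ hDw1)
      exact mul_le_of_le_one_left (mul_nonneg hS0 hθ0) hβ1
    have hc := core0' (E' := -2 * κ * cA * (u.WB / u.WA)) hα hα1 hβ hβ1 n0 n1 n2 hz2 hx2
    rw [Qd.D_eq, h.gr]
    have h5' : 2 * η + (θ + (S * θ + w 0 / w 1)) / 2 ≤ 1 / 2 := by linarith
    have h6 := abs_le.1 (hc.trans h5')
    constructor
    · have := h6.1
      show 1 / 2 ≤ dt _ (fr _ _ _ 0)
      simp only [Un.nu]
      linarith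
    · have := h6.2
      show dt _ (fr _ _ _ 0) ≤ 2
      simp only [Un.nu]
      linarith
  · intro z hz hz' x hx
    obtain ⟨⟨n0, n1, n2⟩, hx', hx''⟩ := key z hz hz' x hx
    have hE : u.WY / u.WB * (-2 * κ * cA * (u.WB / u.WA)) = u.WY / u.WA * (-2 * κ * cA) :=
      slope_id h _
    have hc := core1 (Fa := 2 * κ * Am) (Fb := zm) (E := -2 * κ * cA) hα hE n0 n1 n2
    rw [Qd.D_eq, h.gr]
    show |dt _ (fr _ _ _ 1)| ≤ _
    simp only [Un.nu]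
    refine hc.trans ?_
    have e3 : |-2 * κ * cA| = |2 * κ * cA| := by
      rw [← abs_neg]; congr 1; ring
    rw [e3]
    obtain ⟨X, hX⟩ : ∃ X : ℝ, X = 12 * |κ| * (w 1 / u.WA) +
      η * (1 + |2 * κ * Am| + |2 * κ * cA| + |zm| * |2 * κ * cA|) := ⟨_, rfl⟩
    rw [← hX] at h4
    have h7 : |2 * κ * u.xh x 1 - 2 * κ * Am + -2 * κ * cA * (u.zh z - zm)| +
        η * (1 + |2 * κ * Am| + |2 * κ * cA| + |zm| * |2 * κ * cA|) ≤ X := by
      rw [hX]; linarith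
    calc u.WY / u.WA * _ ≤ u.WY / u.WA * X := mul_le_mul_of_nonneg_left h7 hα
      _ = X * (w 1 / u.WA) * (u.WY / w 1) := by field_simp
      _ ≤ w 0 / u.WY * (u.WY / w 1) := mul_le_mul_of_nonneg_right h4 (by positivity)
      _ = w 0 / w 1 := by field_simp
  · intro z hz hz' x hx
    obtain ⟨⟨n0, n1, n2⟩, hx', -⟩ := key z hz hz' x hx
    have hG0 : |u.WY / u.WB * zm - u.WY / u.WA * (2 * κ * Am) * (-2 * κ * cA * (u.WB / u.WA))| ≤
        u.WY / u.WB * (|zm| + |2 * κ * Am| * S) := by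
      have i1 : |u.WY / u.WA * (2 * κ * Am)| ≤ u.WY / u.WB * |2 * κ * Am| := by
        rw [abs_mul, abs_of_nonneg hα]
        exact mul_le_mul_of_nonneg_right hαβ (abs_nonneg _)
      have i2 : |-2 * κ * cA * (u.WB / u.WA)| ≤ S := by
        refine le_trans (le_of_eq ?_) hS
        rw [abs_mul, abs_of_pos (div_pos hB hA)]
        congr 1
        rw [← abs_neg]; congr 1; ring
      have i3 : |u.WY / u.WB * zm| ≤ u.WY / u.WB * |zm| := by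
        rw [abs_mul, abs_of_nonneg hβ]
      have := s2 i3 (m2 i1 i2)
      linarith
    have hc := core2' hα hβ hαβ n0 n1 n2 (hθ z hz hz') hx' hG0
    rw [Qd.D_eq, h.gr]
    show |dt _ (fr _ _ _ 2)| ≤ _
    simp only [Un.nu]
    refine hc.trans ?_
    have hDb : D ≤ 12 * |κ| * (w 1 / u.WA) ^ 2 * (u.WY / w 2) := by
      have e1 : D = 12 * |κ| * (w 1 / u.WA) ^ 2 * (u.WY / w 1) := by
        rw [hD]; field_simp
      rw [e1]
      refine mul_le_mul_of_nonneg_left ?_ (by positivity)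
      exact div_le_div_of_nonneg_left hY.le hw2 hw
    have e4 : u.WY / u.WB * (η * (|zm| + |2 * κ * Am| * S + 2) + θ) +
        (u.WY / u.WB * (S * θ) + D) ≤
        ((η * (|zm| + |2 * κ * Am| * S + 2) + (1 + S) * θ) * (w 2 / u.WB) +
          12 * |κ| * (w 1 / u.WA) ^ 2) * (u.WY / w 2) := by
      have e5 : (η * (|zm| + |2 * κ * Am| * S + 2) + (1 + S) * θ) * (w 2 / u.WB) *
          (u.WY / w 2) = u.WY / u.WB * (η * (|zm| + |2 * κ * Am| * S + 2) + θ) +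
          u.WY / u.WB * (S * θ) := by
        field_simp
        ring
      rw [add_mul, e5]
      linarith
    refine e4.trans ((mul_le_mul_of_nonneg_right h5 (by positivity)).trans (le_of_eq ?_))
    field_simp

end Crest.Agent.R136.GeoN778
end

-- ▼ part R136/GeoM3_778
section

/-!
# R136: sheets with free chart width close to the model quadric, III (helper778)

`boxM_near` : lines in the sheet; **`gdM`** : a legal box of `coW` is contained in one sheet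
(original coordinates, `w 0` free, large unit coordinates).
-/

set_option autoImplicit false
set_option linter.unusedVariables false
set_option maxHeartbeats 400000

namespace Crest.Agent.R136.GeoN778

open Crest.Agent.R136.Sh605
open Crest.Agent.R136.NetW191
open Crest.Agent.R136.GeoW778 (qS TrueW dB DW EW)

variable {u : Un}

/-- **a line in the sheet**, slopes bounded by `S` -/
theorem boxM_near (h : u.Ok) {Q : Qd} {κ η Am zm cA θ S : ℝ} {T t' : Ln4} {w : V3}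
    {a z0 ρ Ra Rb An Rn : ℝ} (hT : ∀ z, u.xh (T.pos z) 1 = Am + cA * (u.zh z - zm))
    (hη : η ≤ 1 / 2)
    (hθ : ∀ z, z0 ≤ z → z ≤ z0 + ρ → |u.zh z - zm| ≤ θ)
    (hN : ∀ z, z0 ≤ z → z ≤ z0 + ρ →
      NearG Q κ η (u.zh z) fun k => (u.xh (T.pos z) k + u.xh (t'.pos z) k) / 2)
    (hA : ∀ z, z0 ≤ z → z ≤ z0 + ρ → |u.xh (t'.pos z) 1 - u.xh (T.pos z) 1| ≤ Ra)
    (hB : ∀ z, z0 ≤ z → z ≤ z0 + ρ → |(u.xh (t'.pos z) 2 - u.xh (T.pos z) 2) -
      (-2 * κ * cA) * (u.xh (t'.pos z) 1 - u.xh (T.pos z) 1)| ≤ Rb)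
    (hq : ∀ z, z0 ≤ z → z ≤ z0 + ρ → |Q.ev (u.zh z) (u.xh (t'.pos z))| ≤ An)
    (hq' : ∀ z, z0 ≤ z → z ≤ z0 + ρ → |Q.ev (u.zh z) (u.xh (T.pos z))| ≤ An)
    (hS0 : 0 ≤ S) (hSE : |2 * κ * cA| * (u.WB / u.WA) ≤ S)
    (hSA : u.WY / u.WA * |2 * κ * Am| ≤ S)
    (hRn : 2 * (2 * An + θ * Rb + |κ| * Ra ^ 2 + η * ((1 + |2 * κ * Am|) * Ra +
      (1 + |zm|) * (Rb + |2 * κ * cA| * Ra))) ≤ Rn)
    (h0 : u.WY * Rn ≤ w 0)
    (h1 : u.WY * Rn + (1 + (S + |zm| * S) + S) * (u.WA * Ra) +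
      (1 + |zm|) * (u.WB * Rb) ≤ w 1)
    (h2 : u.WY * Rn + (1 + S + |zm|) * (u.WB * Rb) ≤ w 2)
    (ha : u.WY * An ≤ a) :
    InSheet t' (u.fr κ Am zm cA) T w (u.q κ Am zm Q).ev a z0 ρ := by
  intro z hz hz'
  have hY := h.Y0
  have hWA := h.A0
  have hWB := h.B0
  obtain ⟨n0, n1, n2⟩ := hN z hz hz'
  have hA' := hA z hz hz'
  have hB' := hB z hz hz'
  have hq1 := hq z hz hz'
  have hq2 := hq' z hz hz'
  have hθ' := hθ z hz hz'
  have hTz := hT z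
  have hη0 : 0 ≤ η := (abs_nonneg _).trans n0
  have hAn : 0 ≤ An := (abs_nonneg _).trans hq1
  set X := u.xh (T.pos z) with hX
  set X' := u.xh (t'.pos z) with hX'
  set d : V3 := fun k => X' k - X k with hd
  set G := Q.gr (u.zh z) fun k => (X k + X' k) / 2 with hG
  have hdiff : Q.ev (u.zh z) X' - Q.ev (u.zh z) X = dt G d := Q.ev_diff _ _ _
  set N := d 0 - 2 * κ * Am * d 1 - zm * d 2 with hNdef
  set ub := d 2 - (-2 * κ * cA) * d 1 with hub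
  have dA : |d 1| ≤ Ra := hA'
  have dB : |ub| ≤ Rb := hB'
  have hd2 : |d 2| ≤ Rb + |2 * κ * cA| * Ra := by
    have e1 : d 2 = ub + -(2 * κ * cA) * d 1 := by rw [hub]; ring
    rw [e1]
    refine a2 dB (m2 ?_ dA)
    rw [abs_neg]
  have hd0 : |d 0| ≤ |N| + |2 * κ * Am| * Ra + |zm| * (Rb + |2 * κ * cA| * Ra) := by
    have e1 : d 0 = N + 2 * κ * Am * d 1 + zm * d 2 := by rw [hNdef]; ring
    rw [e1]
    exact a2 (a2 le_rfl (m2 le_rfl dA)) (m2 le_rfl hd2)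
  have hNid : N = (Q.ev (u.zh z) X' - Q.ev (u.zh z) X) + (u.zh z - zm) * ub + κ * (d 1 * d 1) -
      (G 0 - 1) * d 0 - (G 1 + 2 * κ * ((X 1 + X' 1) / 2)) * d 1 - (G 2 + u.zh z) * d 2 := by
    rw [hdiff]
    have e1 : X' 1 = X 1 + d 1 := by simp [hd]
    rw [e1, hTz, hNdef, hub]
    simp only [dt]
    ring
  have hNb : |N| ≤ 2 * An + θ * Rb + |κ| * Ra ^ 2 + η * (|d 0| + |d 1| + |d 2|) := by
    have hκ2 : |d 1 * d 1| ≤ Ra ^ 2 := by rw [sq]; exact m2 dA dA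
    have b := s2 (s2 (s2 (a2 (a2 (s2 hq1 hq2) (m2 hθ' dB)) (m2 (le_refl |κ|) hκ2))
      (m2 n0 (le_refl |d 0|))) (m2 n1 (le_refl |d 1|))) (m2 n2 (le_refl |d 2|))
    rw [← hNid] at b
    linarith
  have hRa0 : 0 ≤ Ra := (abs_nonneg _).trans dA
  have hRb0 : 0 ≤ Rb := (abs_nonneg _).trans dB
  have hθ0 : 0 ≤ θ := (abs_nonneg _).trans hθ'
  have hNR : |N| ≤ Rn := by
    have i1 : η * (|d 0| + |d 1| + |d 2|) ≤ η * (|N| + ((1 + |2 * κ * Am|) * Ra +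
        (1 + |zm|) * (Rb + |2 * κ * cA| * Ra))) := by
      refine mul_le_mul_of_nonneg_left ?_ hη0
      linarith
    have i2 : η * |N| ≤ 1 / 2 * |N| := mul_le_mul_of_nonneg_right hη (abs_nonneg _)
    have i3 : η * (|N| + ((1 + |2 * κ * Am|) * Ra + (1 + |zm|) * (Rb + |2 * κ * cA| * Ra))) =
        η * |N| + η * ((1 + |2 * κ * Am|) * Ra + (1 + |zm|) * (Rb + |2 * κ * cA| * Ra)) := by
      ring
    linarith
  -- the displacement in the original units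
  set U : V3 := t'.pos z - T.pos z with hU
  have U0 : U 0 = u.WY * d 0 := by
    show t'.pos z 0 - T.pos z 0 = u.WY * (t'.pos z 0 / u.WY - T.pos z 0 / u.WY)
    field_simp
  have U1 : U 1 = u.WA * d 1 := by
    show t'.pos z 1 - T.pos z 1 = u.WA * (t'.pos z 1 / u.WA - T.pos z 1 / u.WA)
    field_simp
  have U2 : U 2 = u.WB * d 2 := by
    show t'.pos z 2 - T.pos z 2 = u.WB * (t'.pos z 2 / u.WB - T.pos z 2 / u.WB)
    field_simp
  have UN : U 0 - u.WY / u.WA * (2 * κ * Am) * U 1 - u.WY / u.WB * zm * U 2 = u.WY * N := by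
    rw [U0, U1, U2, hNdef]
    field_simp
  have Ub : U 2 - -2 * κ * cA * (u.WB / u.WA) * U 1 = u.WB * ub := by
    rw [U1, U2, hub]
    field_simp
  have bN : |U 0 - u.WY / u.WA * (2 * κ * Am) * U 1 - u.WY / u.WB * zm * U 2| ≤ u.WY * Rn := by
    rw [UN, abs_mul, abs_of_pos hY]
    exact mul_le_mul_of_nonneg_left hNR hY.le
  have bU1 : |U 1| ≤ u.WA * Ra := by
    rw [U1, abs_mul, abs_of_pos hWA]
    exact mul_le_mul_of_nonneg_left dA hWA.le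
  have bUb : |U 2 - -2 * κ * cA * (u.WB / u.WA) * U 1| ≤ u.WB * Rb := by
    rw [Ub, abs_mul, abs_of_pos hWB]
    exact mul_le_mul_of_nonneg_left dB hWB.le
  have hα : 0 ≤ u.WY / u.WA := by positivity
  have hβ : 0 ≤ u.WY / u.WB := by positivity
  have hβ1 : u.WY / u.WB ≤ 1 := (div_le_one hWB).2 h.YB
  have hγ : 0 ≤ u.WB / u.WA := by positivity
  have sFb : |u.WY / u.WB * zm| ≤ |zm| := by
    rw [abs_mul, abs_of_nonneg hβ]
    exact mul_le_of_le_one_left (abs_nonneg _) hβ1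
  have sFa : |u.WY / u.WA * (2 * κ * Am)| ≤ S := by
    rw [abs_mul, abs_of_nonneg hα]
    exact hSA
  have sE : |-2 * κ * cA * (u.WB / u.WA)| ≤ S := by
    rw [abs_mul, abs_of_nonneg hγ]
    have : |-2 * κ * cA| = |2 * κ * cA| := by rw [← abs_neg]; congr 1; ring
    rw [this]
    exact hSE
  have sg : |u.WY / u.WA * (2 * κ * Am) + u.WY / u.WB * zm * (-2 * κ * cA * (u.WB / u.WA))| ≤
      S + |zm| * S := a2 sFa (m2 sFb sE)
  refine ⟨?_, ?_⟩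
  · intro k
    fin_cases k
    · exact (lat0 U).trans (bN.trans h0)
    · refine (lat1 U).trans (le_trans ?_ h1)
      have hm := nm_le sg sE
      have i1 : nm (u.WY / u.WA * (2 * κ * Am)) (u.WY / u.WB * zm)
          (-2 * κ * cA * (u.WB / u.WA)) * |U 1| ≤
          (1 + (S + |zm| * S) + S) * (u.WA * Ra) :=
        mul_le_mul hm bU1 (abs_nonneg _) (by positivity)
      have i2 : (1 + |u.WY / u.WB * zm|) * |U 2 - -2 * κ * cA * (u.WB / u.WA) * U 1| ≤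
          (1 + |zm|) * (u.WB * Rb) :=
        mul_le_mul (by linarith) bUb (abs_nonneg _) (by positivity)
      exact add_le_add (add_le_add bN i1) i2
    · refine (lat2 U).trans (le_trans ?_ h2)
      have hn := nn_le sFa sFb
      have i2 : nn (u.WY / u.WA * (2 * κ * Am)) (u.WY / u.WB * zm) *
          |U 2 - -2 * κ * cA * (u.WB / u.WA) * U 1| ≤
          (1 + S + |zm|) * (u.WB * Rb) :=
        mul_le_mul hn bUb (abs_nonneg _) (by positivity)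
      exact add_le_add bN i2
  · rw [h.ev]
    have hν : 0 < u.nu κ Am zm := nn_pos _ _
    have hν1 : 1 ≤ u.nu κ Am zm := one_le_nn _ _
    rw [abs_mul, abs_of_pos (div_pos hY hν)]
    have i1 : u.WY / u.nu κ Am zm ≤ u.WY := div_le_self hY.le hν1
    exact (mul_le_mul i1 hq1 (abs_nonneg _) hY.le).trans ha

/-- position of the midpoint -/
theorem mid_pos {x y p : V3} {Y : ℝ} (k : Fin 3) (h : |y k - x k| ≤ Y) :
    |(x k + y k) / 2 - x k| ≤ Y := by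
  have e1 : (x k + y k) / 2 - x k = (y k - x k) / 2 := by ring
  have h0 := abs_nonneg (y k - x k)
  rw [e1, abs_div, abs_two]
  linarith

/-- **[GEO-D] for the W-chart, finite form, original coordinates, `w 0` free** -/
theorem gdM {f : Fin 3 → V3} (hf : Ortho f) {c T M : Ln4} (hu : u.Ok) {Q : Qd}
    {κ σ : ℝ} {i : FW} (hM : TrueW κ σ i M) (hκ : |κ| ≤ 1) (hσ : 0 ≤ σ)
    {Γ V R X ρ' G η η₁ η₂ Am zm cA θ z0 ρ r0 a w0 w1 w2 Ra Rb An Rn X0 X1 X2 S : ℝ}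
    {s : Fin 18 → ℝ}
    (hGi : ∀ k, |i.G k| ≤ Γ) (hV : ∀ k, |M.v k| ≤ V) (hG : |i.g 1| ≤ G)
    (hc : |cA - i.g 1| ≤ η₂) (hη₁ : 0 ≤ η₁) (hη0 : 0 ≤ η) (hθ0 : 0 ≤ θ) (hρ : 0 ≤ ρ)
    (hT : ∀ z, u.xh ((rl f c T).pos z) 1 = Am + cA * (u.zh z - zm))
    (hb : ∀ z, z0 ≤ z → z ≤ z0 + ρ → Bent u Q κ σ i η₁ (rl f c T) M z)
    (hz : ∀ z, z0 ≤ z → z ≤ z0 + ρ → |u.zh z| + η₁ ≤ R ∧ |u.zh z - zm| ≤ θ ∧
      |u.zh z - i.g 0| + η₁ ≤ ρ')
    (hMX : ∀ z', |z'| ≤ R → ∀ k, |M.pos z' k| ≤ X)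
    (hsm : σ * DW Γ R X V ρ' ≤ 1)
    -- physical slopes
    (hS0 : 0 ≤ S) (hSE : |2 * κ * cA| * (u.WB / u.WA) ≤ S)
    (hSA : u.WY / u.WA * |2 * κ * Am| ≤ S)
    -- closeness to the model gradient
    (hN : ∀ z, z0 ≤ z → z ≤ z0 + ρ → ∀ x : V3, |x 1 - u.xh ((rl f c T).pos z) 1| ≤ X1 →
      |x 2 - u.xh ((rl f c T).pos z) 2| ≤ X2 → |x 0 - u.xh ((rl f c T).pos z) 0| ≤ X0 →
      NearG Q κ η (u.zh z) x)
    (hX1 : 6 * (w1 / u.WA) ≤ X1) (hX1' : Ra ≤ X1)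
    (hX2 : 4 * (w2 / u.WB) + 2 * |2 * κ * cA| * (w1 / u.WA) ≤ X2)
    (hX2' : Rb + |2 * κ * cA| * Ra ≤ X2)
    (hX0 : 2 * (w0 / u.WY) + 2 * (|2 * κ * Am| + |zm| * |2 * κ * cA|) * (w1 / u.WA) +
      2 * (|zm| + |2 * κ * Am| * S) * (w2 / u.WB) ≤ X0)
    (hX0' : 2 * (X + η₁) ≤ X0)
    -- smallness
    (h2 : 2 * η + ((1 + S) * θ + w0 / w1) / 2 ≤ 1 / 2) (hη : η ≤ 1 / 2)
    (h4 : (12 * |κ| * (w1 / u.WA) +
      η * (1 + |2 * κ * Am| + |2 * κ * cA| + |zm| * |2 * κ * cA|)) * (w1 / u.WA) ≤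
        w0 / u.WY)
    (h5 : (η * (|zm| + |2 * κ * Am| * S + 2) + (1 + S) * θ) * (w2 / u.WB) +
      12 * |κ| * (w1 / u.WA) ^ 2 ≤ w0 / u.WY)
    -- sizes
    (hRa : s 2 + ρ' * s 1 + 2 * η₁ * (1 + V) ≤ Ra)
    (hRb : s 3 + ρ' * s 1 ^ 2 + 2 * (σ * (Γ * (1 + 3 * V + 6 * V ^ 2)) * ρ') +
      2 * η₁ * (1 + V) * (1 + 2 * G) + 2 * η₂ * Ra ≤ Rb)
    (hAn : 4 * (σ * (s 17 + ρ' * s 16 + ρ' ^ 2 * s 13 + σ * EW Γ R X V ρ')) ≤ An)
    (hRn : 2 * (2 * An + θ * Rb + |κ| * Ra ^ 2 + η * ((1 + |2 * κ * Am|) * Ra +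
      (1 + |zm|) * (Rb + |2 * κ * cA| * Ra))) ≤ Rn)
    (k0 : u.WY * Rn ≤ w0)
    (k1 : u.WY * Rn + (1 + (S + |zm| * S) + S) * (u.WA * Ra) +
      (1 + |zm|) * (u.WB * Rb) ≤ w1)
    (k2 : u.WY * Rn + (1 + S + |zm|) * (u.WB * Rb) ≤ w2)
    (hAn0 : 0 ≤ An) (ha : u.WY * An ≤ a) (ha0 : 0 < a) (haw : a ≤ w0) (h02 : w0 ≤ w2)
    (hw : w2 ≤ w1) (hr : r0 ≤ a) :
    ∃ (e : Fin 3 → V3) (w : V3) (q : ℝ → V3 → ℝ), w 0 = w0 ∧ w 1 = w1 ∧ w 2 = w2 ∧
      ShN e T w q a z0 ρ r0 ∧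
      ∀ (t' M' : Ln4) (j : FW), TrueW κ σ j M' → (∀ k, |j.G k| ≤ Γ) → (∀ k, |M'.v k| ≤ V) →
        (∀ z, z0 ≤ z → z ≤ z0 + ρ → Bent u Q κ σ i η₁ (rl f c t') M' z ∧
          |u.zh z - j.g 0| + η₁ ≤ ρ') →
        (∀ z', |z'| ≤ R → ∀ k, |M'.pos z' k| ≤ X) →
        (∀ k, |coW κ i j k| ≤ s k) → InSheet t' e T w q a z0 ρ := by
  refine ⟨fo f (u.fr κ Am zm cA), ![w0, w1, w2], qo f c (u.q κ Am zm Q).ev, rfl, rfl, rfl,
    ?_, ?_⟩
  · refine shN_move hf (shM_near (η := η) (θ := θ) (S := S) hu hT ha0 haw h02 hw hr hη0 hθ0 hS0 hSE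
      (fun z h0 h1 => (hz z h0 h1).2.1) ?_ h2 h4 h5)
    intro z h0 h1 x b1 b2 b0
    exact hN z h0 h1 x (b1.trans hX1) (b2.trans hX2) (b0.trans hX0)
  · intro t' M' j hM' hGj hV' hb' hMX' hs
    rw [inSheet_move]
    have hlat : ∀ z, z0 ≤ z → z ≤ z0 + ρ →
        |u.xh ((rl f c t').pos z) 1 - u.xh ((rl f c T).pos z) 1| ≤ Ra ∧
        |(u.xh ((rl f c t').pos z) 2 - u.xh ((rl f c T).pos z) 2) -
          (-2 * κ * cA) * (u.xh ((rl f c t').pos z) 1 - u.xh ((rl f c T).pos z) 1)| ≤ Rb :=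
      fun z h0 h1 => lat_bent hM hM' hκ hσ hGi hGj hV hV' hc hG (hb z h0 h1) (hb' z h0 h1).1
        (hz z h0 h1).2.2 (hb' z h0 h1).2 hs hRa hRb
    refine boxM_near (η := η) (θ := θ) (Ra := Ra) (Rb := Rb) (An := An) (Rn := Rn) (S := S) hu hT
      hη (fun z h0 h1 => (hz z h0 h1).2.1) ?_ (fun z h0 h1 => (hlat z h0 h1).1)
      (fun z h0 h1 => (hlat z h0 h1).2) ?_ ?_ hS0 hSE hSA hRn k0 k1 k2 ha
    · -- the midpoint
      intro z h0 h1
      obtain ⟨hA, hB⟩ := hlat z h0 h1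
      obtain ⟨z1, b1, bb, -⟩ := hb z h0 h1
      obtain ⟨z2, c1, cc, -⟩ := (hb' z h0 h1).1
      have r1 : |z1| ≤ R := by
        have := a2 b1 (le_refl |u.zh z|)
        rw [sub_add_cancel] at this
        linarith [(hz z h0 h1).1]
      have r2 : |z2| ≤ R := by
        have := a2 c1 (le_refl |u.zh z|)
        rw [sub_add_cancel] at this
        linarith [(hz z h0 h1).1]
      refine hN z h0 h1 _ ?_ ?_ ?_
      · exact mid_pos (p := 0) 1 (hA.trans hX1')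
      · refine mid_pos (p := 0) 2 ?_
        have e1 : u.xh ((rl f c t').pos z) 2 - u.xh ((rl f c T).pos z) 2 =
            ((u.xh ((rl f c t').pos z) 2 - u.xh ((rl f c T).pos z) 2) -
              (-2 * κ * cA) * (u.xh ((rl f c t').pos z) 1 - u.xh ((rl f c T).pos z) 1)) +
            -(2 * κ * cA) * (u.xh ((rl f c t').pos z) 1 - u.xh ((rl f c T).pos z) 1) := by
          ring
        rw [e1]
        exact (a2 hB (m2 (le_of_eq (abs_neg (2 * κ * cA))) hA)).trans hX2'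
      · refine mid_pos (p := 0) 0 ?_
        have e1 : u.xh ((rl f c t').pos z) 0 - u.xh ((rl f c T).pos z) 0 =
            ((u.xh ((rl f c t').pos z) 0 - M'.pos z2 0) - (u.xh ((rl f c T).pos z) 0 -
              M.pos z1 0)) + (M'.pos z2 0 - M.pos z1 0) := by ring
        rw [e1]
        have := a2 (s2 (cc 0) (bb 0)) (s2 (hMX' z2 r2 0) (hMX z1 r1 0))
        linarith
    · intro z h0 h1
      refine (val_bent hM' hσ hGi hGj hV' (hb' z h0 h1).1 (hz z h0 h1).1 (hb' z h0 h1).2 hs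
        (fun z' hz' k => hMX' z' ?_ k) hsm).trans hAn
      have := a2 hz' (le_refl |u.zh z|)
      rw [sub_add_cancel] at this
      linarith [(hz z h0 h1).1]
    · intro z h0 h1
      obtain ⟨z1, b1, bb, b4⟩ := hb z h0 h1
      rw [hM.on z1, abs_zero, mul_zero] at b4
      exact b4.trans hAn0

end Crest.Agent.R136.GeoN778
end

-- ▼ part R136/GDW1_778
section

/-!
# R136, [GEO-D] for the W-chart, numerical form (helper778)

`NumW` : the sizes of the box and their relations; `gdM_num` : `gdM` for these sizes.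
-/

set_option autoImplicit false
set_option linter.unusedVariables false
set_option maxHeartbeats 400000

namespace Crest.Agent.R136.GeoN778

open Crest.Agent.R136.Sh605
open Crest.Agent.R136.NetW191
open Crest.Agent.R136.GeoW778 (qS TrueW dB DW EW)

/-- the `k`-coordinate of a line is affine in the unit height -/
theorem xh_aff {u : Un} (hu : u.Ok) (T : Ln4) (zm : ℝ) (k : Fin 3) : ∃ Am cA : ℝ,
    ∀ z, u.xh (T.pos z) k = Am + cA * (u.zh z - zm) := by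
  refine ⟨(T.p k + u.zc * T.v k) / u.W k + T.v k * u.H / u.W k * zm, T.v k * u.H / u.W k, ?_⟩
  intro z
  have h1 := hu.H0.ne'
  have h2 := (hu.W0 k).ne'
  simp only [Un.xh, Un.zh, Ln4.pos]
  field_simp
  ring

/-- slope and position of a bent line -/
theorem slope_bent {u : Un} {Q : Qd} {κ σ : ℝ} {i : FW} {η X : ℝ} {T M : Ln4} (hη1 : η ≤ 1)
    (hX : 1 ≤ X) (hV : ∀ k, |M.v k| ≤ X) {Am cA zm za zb zc' : ℝ}
    (hT : ∀ z, u.xh (T.pos z) 1 = Am + cA * (u.zh z - zm))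
    (ha : Bent u Q κ σ i η T M za) (hb : Bent u Q κ σ i η T M zb)
    (hab : u.zh zb - u.zh za = 1) (hc : Bent u Q κ σ i η T M zc') (hcm : u.zh zc' = zm)
    (hMX : ∀ z', |z' - zm| ≤ 1 → ∀ k, |M.pos z' k| ≤ X) :
    |cA - M.v 1| ≤ 4 * η * X ∧ |cA| ≤ 5 * X ∧ |Am| ≤ 5 * X := by
  obtain ⟨z1, h1, h2, -⟩ := ha
  obtain ⟨z2, k1, k2, -⟩ := hb
  obtain ⟨z3, l1, l2, -⟩ := hc
  have hη : 0 ≤ η := (abs_nonneg _).trans h1
  have hX0 : 0 ≤ X := by linarith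
  have e1 := h2 1
  have e2 := k2 1
  have e3 := l2 1
  rw [hT] at e1 e2 e3
  rw [hcm] at l1 e3
  simp only [Ln4.pos] at e1 e2
  have hv := hV 1
  have key : cA - M.v 1 = ((Am + cA * (u.zh zb - zm) - (M.p 1 + z2 * M.v 1)) -
      (Am + cA * (u.zh za - zm) - (M.p 1 + z1 * M.v 1))) +
      ((z2 - u.zh zb) - (z1 - u.zh za)) * M.v 1 := by
    have : u.zh zb = u.zh za + 1 := by linarith
    rw [this]; ring
  have hηX : η ≤ η * X := le_mul_of_one_le_right hη hX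
  have hηX' : η * X ≤ X := mul_le_of_le_one_left hX0 hη1
  have hcA : |cA - M.v 1| ≤ 4 * η * X := by
    rw [key]
    have := a2 (s2 e2 e1) (m2 (s2 k1 h1) hv)
    linarith
  refine ⟨hcA, ?_, ?_⟩
  · have := abs_add_le (cA - M.v 1) (M.v 1)
    rw [sub_add_cancel] at this
    linarith
  · have m := hMX z3 (l1.trans hη1) 1
    rw [sub_self, mul_zero, add_zero] at e3
    have := abs_add_le (Am - M.pos z3 1) (M.pos z3 1)
    rw [sub_add_cancel] at this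
    linarith

/-- the sizes of a box: `b2`, `b3` = sizes of the slots `A`, `B`, `n17` = size of the last slot,
`P` = length of the cell, `Z` = a large factor, `S` = bound of the physical slopes,
`X`, `Γ` = bounds of the coordinates and flags -/
structure NumW (u : Un) (κ σ Γ X S η K Z P b2 b3 n17 : ℝ) (s : Fin 18 → ℝ) : Prop where
  κ1 : |κ| ≤ 1
  σ0 : 0 < σ
  Γ0 : 0 ≤ Γ
  K1 : 1 ≤ K
  X1 : 1 ≤ X
  S1 : 1 ≤ S
  KS : 1000 * (K ^ 3 * S) ≤ Z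
  P0 : 0 ≤ P
  PZ : P * Z ^ 3 ≤ 1
  η0 : 0 ≤ η
  b20 : 0 < b2
  b30 : 0 < b3
  n0 : 0 < n17
  s1 : 0 ≤ s 1
  hs2 : s 2 ≤ K * b2
  hs1 : P * s 1 ≤ K * b2
  hs3 : s 3 ≤ K * b3
  hs1' : P * s 1 ^ 2 ≤ K ^ 2 * b3
  hs17 : s 17 ≤ K * n17
  hs16 : P * s 16 ≤ K * n17
  hs13 : P ^ 2 * s 13 ≤ K * n17
  e1 : 100 * X ^ 2 * η ≤ b2
  e2 : 100 * X ^ 2 * η ≤ b3
  e3 : 20 * X ^ 2 * (Γ * σ) ≤ b3
  e4 : σ * EW Γ 3 X X 1 ≤ n17
  e5 : σ * DW Γ 3 X X 1 ≤ 1
  e6 : σ * n17 ≤ b3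
  e7 : 100 * X * η * (b2 * Z ^ 8) ≤ P * b3
  e8 : 100 * X * S * η ≤ P
  g1 : b2 ^ 2 * Z ^ 12 ≤ b3
  g2 : u.WB * b3 ≤ Z * (u.WA * b2)
  g3 : b2 * Z ^ 8 ≤ X
  g4 : b3 * Z ^ 6 ≤ X

/-- the normal extent of the box -/
def YW (σ Z P b2 b3 n17 : ℝ) : ℝ := b2 ^ 2 * Z ^ 17 + P * b3 * Z ^ 8 + σ * n17 * Z ^ 4

namespace NumW

variable {u : Un} {κ σ Γ X S η K Z P b2 b3 n17 : ℝ} {s : Fin 18 → ℝ}

theorem K3 (h : NumW u κ σ Γ X S η K Z P b2 b3 n17 s) : 1 ≤ K ^ 3 := one_le_pow₀ h.K1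

theorem ZK (h : NumW u κ σ Γ X S η K Z P b2 b3 n17 s) : 1000 * K ^ 3 ≤ Z := by
  have h1 := h.K3
  have h2 := h.S1
  have h3 := h.KS
  nlinarith

theorem ZS (h : NumW u κ σ Γ X S η K Z P b2 b3 n17 s) : 1000 * S ≤ Z := by
  have h1 := h.K3
  have h2 := h.S1
  have h3 := h.KS
  nlinarith

theorem Zl (h : NumW u κ σ Γ X S η K Z P b2 b3 n17 s) : 1000 ≤ Z := by
  linarith [h.K3, h.ZK]

theorem Z0 (h : NumW u κ σ Γ X S η K Z P b2 b3 n17 s) : 0 < Z := by linarith [h.Zl]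

theorem mulZ (h : NumW u κ σ Γ X S η K Z P b2 b3 n17 s) {y : ℝ} (hy : 0 ≤ y) :
    1000 * y ≤ Z * y := mul_le_mul_of_nonneg_right h.Zl hy

/-- a power of `Z` gains a factor `1000` -/
theorem pw (h : NumW u κ σ Γ X S η K Z P b2 b3 n17 s) {y : ℝ} (hy : 0 ≤ y) (m : ℕ) :
    1000 * (y * Z ^ m) ≤ y * Z ^ (m + 1) := by
  have := h.mulZ (mul_nonneg hy (pow_nonneg h.Z0.le m))
  refine this.trans (le_of_eq ?_)
  ring

theorem pw' (h : NumW u κ σ Γ X S η K Z P b2 b3 n17 s) {y : ℝ} (hy : 0 ≤ y) {m k : ℕ}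
    (hmk : m ≤ k) : y * Z ^ m ≤ y * Z ^ k :=
  mul_le_mul_of_nonneg_left (pow_le_pow_right₀ (by linarith [h.Zl]) hmk) hy

theorem PZ1 (h : NumW u κ σ Γ X S η K Z P b2 b3 n17 s) : 1000 * (P * Z) ≤ 1 := by
  have h1 := h.pw h.P0 1
  have h2 := h.pw' h.P0 (show 1 + 1 ≤ 3 by norm_num)
  rw [pow_one] at h1
  linarith [h.PZ]

theorem PZK (h : NumW u κ σ Γ X S η K Z P b2 b3 n17 s) : 1000 * (K * (P * Z)) ≤ 1 := by
  have h1 := h.K3
  have hK0 : 0 < K := by linarith [h.K1]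
  have h2 : K ≤ K ^ 3 := by nlinarith [h.K1, mul_pos hK0 hK0]
  have h3 : 1000 * K ≤ Z := by linarith [h.ZK]
  have h4 := mul_le_mul_of_nonneg_right h3 (mul_nonneg h.P0 h.Z0.le)
  have h5 : Z * (P * Z) = P * Z ^ 2 := by ring
  have h6 := h.pw' h.P0 (show 2 ≤ 3 by norm_num)
  linarith [h.PZ]

theorem PZS (h : NumW u κ σ Γ X S η K Z P b2 b3 n17 s) : 1000 * (S * (P * Z)) ≤ 1 := by
  have h4 := mul_le_mul_of_nonneg_right h.ZS (mul_nonneg h.P0 h.Z0.le)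
  have h5 : Z * (P * Z) = P * Z ^ 2 := by ring
  have h6 := h.pw' h.P0 (show 2 ≤ 3 by norm_num)
  linarith [h.PZ]

theorem P1 (h : NumW u κ σ Γ X S η K Z P b2 b3 n17 s) : 1000000 * P ≤ 1 := by
  have h1 := h.PZ1
  have h2 := mul_le_mul_of_nonneg_left h.Zl h.P0
  linarith

theorem ηX (h : NumW u κ σ Γ X S η K Z P b2 b3 n17 s) : 100 * (X * η) ≤ P := by
  have h1 := h.e8
  have h2 : X * η ≤ X * η * S :=
    le_mul_of_one_le_right (mul_nonneg (by linarith [h.X1]) h.η0) h.S1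
  nlinarith

theorem η1 (h : NumW u κ σ Γ X S η K Z P b2 b3 n17 s) : 100 * η ≤ P := by
  have h1 := h.ηX
  have h2 : η ≤ X * η := le_mul_of_one_le_left h.η0 h.X1
  linarith

theorem YW_pos (h : NumW u κ σ Γ X S η K Z P b2 b3 n17 s) : 0 < YW σ Z P b2 b3 n17 := by
  have h0 := h.P0
  have h1 := h.b20
  have h2 := h.b30
  have h3 := h.n0
  have h4 := h.σ0
  have h5 := h.Z0
  unfold YW
  positivity

/-- the normal extent is at most `3 b3 Z^5` -/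
theorem YW_le (h : NumW u κ σ Γ X S η K Z P b2 b3 n17 s) :
    YW σ Z P b2 b3 n17 ≤ 3 * (b3 * Z ^ 5) := by
  have hz := h.Z0
  have a1 : b2 ^ 2 * Z ^ 17 ≤ b3 * Z ^ 5 := by
    have := mul_le_mul_of_nonneg_right h.g1 (pow_nonneg hz.le 5)
    refine le_trans (le_of_eq ?_) this
    ring
  have a2 : P * b3 * Z ^ 8 ≤ b3 * Z ^ 5 := by
    have := mul_le_mul_of_nonneg_right h.PZ (mul_nonneg h.b30.le (pow_nonneg hz.le 5))
    rw [one_mul] at this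
    refine le_trans (le_of_eq ?_) this
    ring
  have a3 : σ * n17 * Z ^ 4 ≤ b3 * Z ^ 5 := by
    have h1 := mul_le_mul_of_nonneg_right h.e6 (pow_nonneg hz.le 4)
    exact h1.trans (h.pw' h.b30.le (by norm_num))
  unfold YW
  linarith

theorem YW_le6 (h : NumW u κ σ Γ X S η K Z P b2 b3 n17 s) :
    300 * YW σ Z P b2 b3 n17 ≤ b3 * Z ^ 6 := by
  have h1 := h.YW_le
  have h2 : 1000 * (b3 * Z ^ 5) ≤ b3 * Z ^ 6 := h.pw h.b30.le 5
  have h3 : 0 ≤ b3 * Z ^ 5 := mul_nonneg h.b30.le (pow_nonneg h.Z0.le 5)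
  linarith

theorem hRa (h : NumW u κ σ Γ X S η K Z P b2 b3 n17 s) :
    s 2 + 3 * (K * (P * Z)) * s 1 + 2 * η * (1 + X) ≤ b2 * Z ^ 3 := by
  have hK := h.K1
  have hK0 : 0 < K := by linarith
  have hz := h.Z0
  have hb := h.b20
  have hx := h.X1
  have h1 : 3 * (K * (P * Z)) * s 1 = 3 * K * Z * (P * s 1) := by ring
  have h2 : 3 * K * Z * (P * s 1) ≤ 3 * K * Z * (K * b2) :=
    mul_le_mul_of_nonneg_left h.hs1 (by positivity)
  have h3 : 2 * η * (1 + X) ≤ b2 := by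
    have i1 : 1 + X ≤ 2 * X ^ 2 := by nlinarith
    have i2 := mul_le_mul_of_nonneg_left i1 (mul_nonneg (by norm_num : (0 : ℝ) ≤ 2) h.η0)
    have i3 : 0 ≤ X ^ 2 * η := mul_nonneg (sq_nonneg _) h.η0
    linarith [h.e1]
  have K2 : K ^ 2 ≤ K ^ 3 := pow_le_pow_right₀ hK (by norm_num)
  have K1' : K ≤ K ^ 3 := by
    have := pow_le_pow_right₀ hK (show 1 ≤ 3 by norm_num)
    rwa [pow_one] at this
  have h4 : K * b2 ≤ K ^ 3 * b2 := mul_le_mul_of_nonneg_right K1' hb.le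
  have h4' : 1 * b2 ≤ K ^ 3 * b2 := mul_le_mul_of_nonneg_right h.K3 hb.le
  have h5 : K ^ 2 * (b2 * Z) ≤ K ^ 3 * (b2 * Z) :=
    mul_le_mul_of_nonneg_right K2 (by positivity)
  have h6 : K ^ 3 * b2 ≤ K ^ 3 * b2 * Z := le_mul_of_one_le_right (by positivity) (by linarith [h.Zl])
  have h7 := mul_le_mul_of_nonneg_right h.ZK (show 0 ≤ b2 * Z by positivity)
  have h8 : Z * (b2 * Z) = b2 * Z ^ 2 := by ring
  have h9 := h.pw' hb.le (show 2 ≤ 3 by norm_num)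
  have h10 := h.hs2
  rw [h1]
  linarith

theorem hRb (h : NumW u κ σ Γ X S η K Z P b2 b3 n17 s) :
    s 3 + 3 * (K * (P * Z)) * s 1 ^ 2 +
      2 * (σ * (Γ * (1 + 3 * X + 6 * X ^ 2)) * (3 * (K * (P * Z)))) +
      2 * η * (1 + X) * (1 + 2 * X) + 2 * (4 * η * X) * (b2 * Z ^ 3) ≤ b3 * Z ^ 3 := by
  have hK := h.K1
  have hK0 : 0 < K := by linarith
  have hz := h.Z0
  have hb := h.b30
  have hx := h.X1
  have hs := h.σ0
  have hg := h.Γ0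
  have he := h.η0
  have h1 : 3 * (K * (P * Z)) * s 1 ^ 2 = 3 * K * Z * (P * s 1 ^ 2) := by ring
  have h2 : 3 * K * Z * (P * s 1 ^ 2) ≤ 3 * K * Z * (K ^ 2 * b3) :=
    mul_le_mul_of_nonneg_left h.hs1' (by positivity)
  have h3 : 2 * (σ * (Γ * (1 + 3 * X + 6 * X ^ 2)) * (3 * (K * (P * Z)))) ≤ b3 := by
    have q1 : σ * (Γ * (1 + 3 * X + 6 * X ^ 2)) * (3 * (K * (P * Z))) ≤
        σ * (Γ * (1 + 3 * X + 6 * X ^ 2)) * 1 :=
      mul_le_mul_of_nonneg_left (by linarith [h.PZK]) (by positivity)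
    have q2 : Γ * σ * (1 + 3 * X + 6 * X ^ 2) ≤ Γ * σ * (10 * X ^ 2) :=
      mul_le_mul_of_nonneg_left (by nlinarith) (by positivity)
    linarith [h.e3]
  have h3' : 2 * η * (1 + X) * (1 + 2 * X) ≤ b3 := by
    have q1 : (1 + X) * (1 + 2 * X) ≤ 6 * X ^ 2 := by nlinarith
    have q2 := mul_le_mul_of_nonneg_left q1 (show 0 ≤ 2 * η by positivity)
    have q3 : 0 ≤ X ^ 2 * η := mul_nonneg (sq_nonneg _) he
    linarith [h.e2]
  have h3'' : 2 * (4 * η * X) * (b2 * Z ^ 3) ≤ b3 := by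
    have q1 : b2 * Z ^ 3 ≤ b2 * Z ^ 8 := h.pw' h.b20.le (by norm_num)
    have q2 := mul_le_mul_of_nonneg_left q1 (show 0 ≤ X * η by positivity)
    have q3 : 0 ≤ X * η * (b2 * Z ^ 3) := by have := h.b20; positivity
    have q4 : P * b3 ≤ 1 * b3 := mul_le_mul_of_nonneg_right (by linarith [h.P1, h.P0]) hb.le
    linarith [h.e7]
  have K1' : K ≤ K ^ 3 := by
    have := pow_le_pow_right₀ hK (show 1 ≤ 3 by norm_num)
    rwa [pow_one] at this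
  have h4 : K * b3 ≤ K ^ 3 * b3 := mul_le_mul_of_nonneg_right K1' hb.le
  have h4' : 1 * b3 ≤ K ^ 3 * b3 := mul_le_mul_of_nonneg_right h.K3 hb.le
  have h5 : 3 * K * Z * (K ^ 2 * b3) = 3 * (K ^ 3 * b3 * Z) := by ring
  have h6 : K ^ 3 * b3 ≤ K ^ 3 * b3 * Z := le_mul_of_one_le_right (by positivity) (by linarith [h.Zl])
  have h7 := mul_le_mul_of_nonneg_right h.ZK (show 0 ≤ b3 * Z by positivity)
  have h8 : Z * (b3 * Z) = b3 * Z ^ 2 := by ring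
  have h9 := h.pw' hb.le (show 2 ≤ 3 by norm_num)
  have h10 := h.hs3
  rw [h1]
  linarith

theorem DWm (h : NumW u κ σ Γ X S η K Z P b2 b3 n17 s) :
    DW Γ 3 X X (3 * (K * (P * Z))) ≤ DW Γ 3 X X 1 := by
  have hx := h.X1
  have hg := h.Γ0
  have h1 : 0 ≤ Γ * (1 + 3 * X + 6 * X ^ 2) := by positivity
  have := mul_le_mul_of_nonneg_left (show 3 * (K * (P * Z)) ≤ 1 by linarith [h.PZK]) h1
  simp only [GeoW778.DW]
  linarith

theorem EWm (h : NumW u κ σ Γ X S η K Z P b2 b3 n17 s) :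
    EW Γ 3 X X (3 * (K * (P * Z))) ≤ EW Γ 3 X X 1 := by
  have hx := h.X1
  have hg := h.Γ0
  simp only [GeoW778.EW]
  exact mul_le_mul_of_nonneg_left h.DWm (by positivity)

theorem hsm (h : NumW u κ σ Γ X S η K Z P b2 b3 n17 s) :
    σ * DW Γ 3 X X (3 * (K * (P * Z))) ≤ 1 :=
  (mul_le_mul_of_nonneg_left h.DWm h.σ0.le).trans h.e5

theorem hAn (h : NumW u κ σ Γ X S η K Z P b2 b3 n17 s) :
    4 * (σ * (s 17 + 3 * (K * (P * Z)) * s 16 + (3 * (K * (P * Z))) ^ 2 * s 13 +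
      σ * EW Γ 3 X X (3 * (K * (P * Z))))) ≤ σ * n17 * Z ^ 3 := by
  have hK := h.K1
  have hK0 : 0 < K := by linarith
  have hz := h.Z0
  have hn := h.n0
  have h1 : 3 * (K * (P * Z)) * s 16 = 3 * K * Z * (P * s 16) := by ring
  have h2 : 3 * K * Z * (P * s 16) ≤ 3 * K * Z * (K * n17) :=
    mul_le_mul_of_nonneg_left h.hs16 (by positivity)
  have h1' : (3 * (K * (P * Z))) ^ 2 * s 13 = 9 * K ^ 2 * Z ^ 2 * (P ^ 2 * s 13) := by ring
  have h2' : 9 * K ^ 2 * Z ^ 2 * (P ^ 2 * s 13) ≤ 9 * K ^ 2 * Z ^ 2 * (K * n17) :=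
    mul_le_mul_of_nonneg_left h.hs13 (by positivity)
  have h3 : σ * EW Γ 3 X X (3 * (K * (P * Z))) ≤ n17 :=
    (mul_le_mul_of_nonneg_left h.EWm h.σ0.le).trans h.e4
  have K2 : K ^ 2 ≤ K ^ 3 := pow_le_pow_right₀ hK (by norm_num)
  have K1' : K ≤ K ^ 3 := by
    have := pow_le_pow_right₀ hK (show 1 ≤ 3 by norm_num)
    rwa [pow_one] at this
  have q0 : 0 ≤ K ^ 3 * n17 := by positivity
  have z1 : K ^ 3 * n17 * Z ≤ K ^ 3 * n17 * Z ^ 2 := by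
    have := h.pw' q0 (show 1 ≤ 2 by norm_num)
    rwa [pow_one] at this
  have z0 : K ^ 3 * n17 ≤ K ^ 3 * n17 * Z ^ 2 := le_mul_of_one_le_right q0
    (one_le_pow₀ (by linarith [h.Zl]))
  have q1 : K * n17 ≤ K ^ 3 * n17 := mul_le_mul_of_nonneg_right K1' hn.le
  have q4 : 1 * n17 ≤ K ^ 3 * n17 := mul_le_mul_of_nonneg_right h.K3 hn.le
  have q2 : K ^ 2 * (n17 * Z) ≤ K ^ 3 * (n17 * Z) :=
    mul_le_mul_of_nonneg_right K2 (by positivity)
  have q3 : 9 * K ^ 2 * Z ^ 2 * (K * n17) = 9 * (K ^ 3 * n17 * Z ^ 2) := by ring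
  have q5 := mul_le_mul_of_nonneg_right h.ZK (show 0 ≤ n17 * Z ^ 2 by positivity)
  have q7 : Z * (n17 * Z ^ 2) = n17 * Z ^ 3 := by ring
  have h17 := h.hs17
  rw [h1, h1']
  have q6 : 4 * (s 17 + 3 * K * Z * (P * s 16) + 9 * K ^ 2 * Z ^ 2 * (P ^ 2 * s 13) +
      σ * EW Γ 3 X X (3 * (K * (P * Z)))) ≤ n17 * Z ^ 3 := by linarith
  have := mul_le_mul_of_nonneg_left q6 h.σ0.le
  linarith

section coef

variable {Am cA zm : ℝ}

theorem c1 (h : NumW u κ σ Γ X S η K Z P b2 b3 n17 s) (hc : |cA| ≤ 5 * X) :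
    |2 * κ * cA| ≤ 10 * X := by
  rw [abs_mul, abs_mul, abs_two]
  have h1 := mul_le_mul h.κ1 hc (abs_nonneg _) zero_le_one
  linarith

theorem c3 (h : NumW u κ σ Γ X S η K Z P b2 b3 n17 s) (hc : |cA| ≤ 5 * X) (hz : |zm| ≤ 2) :
    |zm| * |2 * κ * cA| ≤ 20 * X := by
  have := mul_le_mul hz (h.c1 hc) (abs_nonneg _) (by norm_num)
  linarith

/-- the normal displacement -/
noncomputable def RnW (κ σ η Z P b2 b3 n17 Am cA zm : ℝ) : ℝ :=
  2 * (2 * (σ * n17 * Z ^ 3) + P * Z * (b3 * Z ^ 3) + |κ| * (b2 * Z ^ 3) ^ 2 +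
    η * ((1 + |2 * κ * Am|) * (b2 * Z ^ 3) +
      (1 + |zm|) * (b3 * Z ^ 3 + |2 * κ * cA| * (b2 * Z ^ 3))))

theorem RnW_le (h : NumW u κ σ Γ X S η K Z P b2 b3 n17 s) (hc : |cA| ≤ 5 * X)
    (hA : |Am| ≤ 5 * X) (hz : |zm| ≤ 2) :
    RnW κ σ η Z P b2 b3 n17 Am cA zm ≤ YW σ Z P b2 b3 n17 := by
  have hX := h.X1
  have hz0 := h.Z0
  have hb2 := h.b20
  have hb3 := h.b30
  have hP := h.P0
  have b2Z : 0 < b2 * Z ^ 3 := by positivity
  have b3Z : 0 < b3 * Z ^ 3 := by positivity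
  have t1 : 4 * (σ * n17 * Z ^ 3) ≤ σ * n17 * Z ^ 4 := by
    have h1 : 1000 * (σ * n17 * Z ^ 3) ≤ σ * n17 * Z ^ 4 :=
      h.pw (mul_pos h.σ0 h.n0).le 3
    have h2 : 0 ≤ σ * n17 * Z ^ 3 := by have := h.σ0; have := h.n0; positivity
    linarith
  have t2 : 1000 * (P * Z * (b3 * Z ^ 3)) ≤ P * b3 * Z ^ 8 := by
    have h1 : 1000 * (P * b3 * Z ^ 4) ≤ P * b3 * Z ^ 5 := h.pw (by positivity) 4
    have h2 : P * b3 * Z ^ 5 ≤ P * b3 * Z ^ 8 := h.pw' (by positivity) (by norm_num)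
    have h3 : P * Z * (b3 * Z ^ 3) = P * b3 * Z ^ 4 := by ring
    rw [h3]; linarith
  have t3 : 1000 * (|κ| * (b2 * Z ^ 3) ^ 2) ≤ b2 ^ 2 * Z ^ 17 := by
    have h1 : |κ| * (b2 * Z ^ 3) ^ 2 ≤ 1 * (b2 * Z ^ 3) ^ 2 :=
      mul_le_mul_of_nonneg_right h.κ1 (sq_nonneg _)
    have h2 : 1000 * (b2 ^ 2 * Z ^ 6) ≤ b2 ^ 2 * Z ^ 7 := h.pw (sq_nonneg _) 6
    have h3 : b2 ^ 2 * Z ^ 7 ≤ b2 ^ 2 * Z ^ 17 := h.pw' (sq_nonneg _) (by norm_num)
    have h4 : (b2 * Z ^ 3) ^ 2 = b2 ^ 2 * Z ^ 6 := by ring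
    rw [h4] at h1 ⊢
    linarith
  have t4 : (1 + |2 * κ * Am|) * (b2 * Z ^ 3) ≤ 11 * X * (b2 * Z ^ 3) :=
    mul_le_mul_of_nonneg_right (by linarith [h.c1 hA]) b2Z.le
  have t5 : |2 * κ * cA| * (b2 * Z ^ 3) ≤ 10 * X * (b2 * Z ^ 3) :=
    mul_le_mul_of_nonneg_right (h.c1 hc) b2Z.le
  have t6 : (1 + |zm|) * (b3 * Z ^ 3 + |2 * κ * cA| * (b2 * Z ^ 3)) ≤
      3 * (b3 * Z ^ 3 + 10 * X * (b2 * Z ^ 3)) :=
    mul_le_mul (by linarith) (by linarith)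
      (add_nonneg b3Z.le (mul_nonneg (abs_nonneg _) b2Z.le)) (by norm_num)
  have t7 : η * ((1 + |2 * κ * Am|) * (b2 * Z ^ 3) +
      (1 + |zm|) * (b3 * Z ^ 3 + |2 * κ * cA| * (b2 * Z ^ 3))) ≤
      η * (41 * X * (b2 * Z ^ 3) + 3 * (b3 * Z ^ 3)) :=
    mul_le_mul_of_nonneg_left (by linarith) h.η0
  have t8 : 100 * (X * η * (b2 * Z ^ 3)) ≤ P * b3 := by
    have q1 : b2 * Z ^ 3 ≤ b2 * Z ^ 8 := h.pw' hb2.le (by norm_num)
    have q2 := mul_le_mul_of_nonneg_left q1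
      (mul_nonneg (by linarith : (0 : ℝ) ≤ X) h.η0)
    linarith [h.e7]
  have t9 : 100 * (η * (b3 * Z ^ 3)) ≤ P * b3 * Z ^ 3 := by
    have := mul_le_mul_of_nonneg_right h.η1 b3Z.le
    linarith
  have t10 : P * b3 ≤ P * b3 * Z ^ 8 := le_mul_of_one_le_right (mul_nonneg hP hb3.le)
    (one_le_pow₀ (by linarith [h.Zl]))
  have t11 : P * b3 * Z ^ 3 ≤ P * b3 * Z ^ 8 := h.pw' (mul_nonneg hP hb3.le) (by norm_num)
  have t12 : 0 ≤ P * b3 * Z ^ 8 := by positivity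
  have t13 : 0 ≤ b2 ^ 2 * Z ^ 17 := by positivity
  unfold RnW YW
  linarith

/-- `h4` of `gdM` -/
theorem hh4 (h : NumW u κ σ Γ X S η K Z P b2 b3 n17 s) (hc : |cA| ≤ 5 * X)
    (hA : |Am| ≤ 5 * X) (hz : |zm| ≤ 2) : (12 * |κ| * (b2 * Z ^ 8) +
      η * (1 + |2 * κ * Am| + |2 * κ * cA| + |zm| * |2 * κ * cA|)) * (b2 * Z ^ 8) ≤
        YW σ Z P b2 b3 n17 := by
  have hX := h.X1
  have hz0 := h.Z0
  have hb2 := h.b20
  have hb3 := h.b30
  have hP := h.P0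
  have b2Z : 0 < b2 * Z ^ 8 := by positivity
  have t1 : 12 * |κ| * (b2 * Z ^ 8) * (b2 * Z ^ 8) ≤ b2 ^ 2 * Z ^ 17 := by
    have h1 : |κ| * (b2 * Z ^ 8 * (b2 * Z ^ 8)) ≤ 1 * (b2 * Z ^ 8 * (b2 * Z ^ 8)) :=
      mul_le_mul_of_nonneg_right h.κ1 (by positivity)
    have h2 : 1000 * (b2 ^ 2 * Z ^ 16) ≤ b2 ^ 2 * Z ^ 17 := h.pw (sq_nonneg _) 16
    have h3 : b2 * Z ^ 8 * (b2 * Z ^ 8) = b2 ^ 2 * Z ^ 16 := by ring
    have h4 : 0 ≤ b2 ^ 2 * Z ^ 16 := by positivity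
    rw [h3] at h1
    have h5 : 12 * |κ| * (b2 * Z ^ 8) * (b2 * Z ^ 8) = 12 * (|κ| * (b2 ^ 2 * Z ^ 16)) := by ring
    rw [h5]
    linarith
  have t2 : η * (1 + |2 * κ * Am| + |2 * κ * cA| + |zm| * |2 * κ * cA|) ≤ η * (41 * X) :=
    mul_le_mul_of_nonneg_left (by linarith [h.c1 hA, h.c1 hc, h.c3 hc hz]) h.η0
  have t3 := mul_le_mul_of_nonneg_right t2 b2Z.le
  have t8 := h.e7
  have t9 : 0 ≤ X * η * (b2 * Z ^ 8) :=
    mul_nonneg (mul_nonneg (by linarith) h.η0) b2Z.le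
  have t10 : P * b3 ≤ P * b3 * Z ^ 8 := le_mul_of_one_le_right (mul_nonneg hP hb3.le)
    (one_le_pow₀ (by linarith [h.Zl]))
  have t11 : 0 ≤ σ * n17 * Z ^ 4 := by have := h.σ0; have := h.n0; positivity
  have t12 : 0 ≤ P * b3 := mul_nonneg hP hb3.le
  have e : (12 * |κ| * (b2 * Z ^ 8) +
      η * (1 + |2 * κ * Am| + |2 * κ * cA| + |zm| * |2 * κ * cA|)) * (b2 * Z ^ 8) =
      12 * |κ| * (b2 * Z ^ 8) * (b2 * Z ^ 8) +
      η * (1 + |2 * κ * Am| + |2 * κ * cA| + |zm| * |2 * κ * cA|) * (b2 * Z ^ 8) := by ring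
  rw [e]
  unfold YW
  linarith

/-- `h5` of `gdM` -/
theorem hh5 (h : NumW u κ σ Γ X S η K Z P b2 b3 n17 s) (hA : |Am| ≤ 5 * X) (hz : |zm| ≤ 2) :
    (η * (|zm| + |2 * κ * Am| * S + 2) + (1 + S) * (P * Z)) * (b3 * Z ^ 6) +
      12 * |κ| * (b2 * Z ^ 8) ^ 2 ≤ YW σ Z P b2 b3 n17 := by
  have hX := h.X1
  have hS := h.S1
  have hz0 := h.Z0
  have hb2 := h.b20
  have hb3 := h.b30
  have hP := h.P0
  have b3Z : 0 < b3 * Z ^ 6 := by positivity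
  have t1 : 12 * |κ| * (b2 * Z ^ 8) ^ 2 ≤ b2 ^ 2 * Z ^ 17 := by
    have h1 : |κ| * (b2 * Z ^ 8) ^ 2 ≤ 1 * (b2 * Z ^ 8) ^ 2 :=
      mul_le_mul_of_nonneg_right h.κ1 (by positivity)
    have h2 : 1000 * (b2 ^ 2 * Z ^ 16) ≤ b2 ^ 2 * Z ^ 17 := h.pw (sq_nonneg _) 16
    have h3 : (b2 * Z ^ 8) ^ 2 = b2 ^ 2 * Z ^ 16 := by ring
    have h4 : 0 ≤ b2 ^ 2 * Z ^ 16 := by positivity
    rw [h3] at h1 ⊢
    have h5 : 12 * |κ| * (b2 ^ 2 * Z ^ 16) = 12 * (|κ| * (b2 ^ 2 * Z ^ 16)) := by ring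
    rw [h5]
    linarith
  have XS : 1 ≤ X * S := by nlinarith
  have t2 : |2 * κ * Am| * S ≤ 10 * X * S :=
    mul_le_mul_of_nonneg_right (h.c1 hA) (by linarith)
  have t3 : η * (|zm| + |2 * κ * Am| * S + 2) ≤ η * (14 * (X * S)) :=
    mul_le_mul_of_nonneg_left (by linarith) h.η0
  have t4 : η * (14 * (X * S)) ≤ P := by
    have := h.e8
    have h2 : 0 ≤ η * (X * S) := mul_nonneg h.η0 (by linarith)
    linarith
  have t5 : (1 + S) * (P * Z) ≤ P * Z ^ 2 / 2 := by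
    have h1 : 2 * (1 + S) ≤ Z := by linarith [h.ZS]
    have h2 := mul_le_mul_of_nonneg_right h1 (mul_nonneg hP hz0.le)
    have h3 : Z * (P * Z) = P * Z ^ 2 := by ring
    linarith
  have t6 : P ≤ P * Z ^ 2 / 2 := by
    have h1 : 1000 * (P * Z) ≤ P * Z ^ 2 := by
      have := h.pw hP 1
      rwa [pow_one] at this
    have h2 : P ≤ P * Z := le_mul_of_one_le_right hP (by linarith [h.Zl])
    linarith
  have t7 : (η * (|zm| + |2 * κ * Am| * S + 2) + (1 + S) * (P * Z)) * (b3 * Z ^ 6) ≤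
      P * Z ^ 2 * (b3 * Z ^ 6) := mul_le_mul_of_nonneg_right (by linarith) b3Z.le
  have t8 : P * Z ^ 2 * (b3 * Z ^ 6) = P * b3 * Z ^ 8 := by ring
  have t11 : 0 ≤ σ * n17 * Z ^ 4 := by have := h.σ0; have := h.n0; positivity
  unfold YW
  linarith

end coef

/-- quotients -/
theorem w1A (h : NumW u κ σ Γ X S η K Z P b2 b3 n17 s) (hu : u.Ok) :
    u.WA * (b2 * Z ^ 8) / u.WA = b2 * Z ^ 8 := by
  have := hu.A0.ne'
  field_simp

theorem w2B (h : NumW u κ σ Γ X S η K Z P b2 b3 n17 s) (hu : u.Ok) :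
    u.WB * (b3 * Z ^ 6) / u.WB = b3 * Z ^ 6 := by
  have := hu.B0.ne'
  field_simp

theorem w0Y (h : NumW u κ σ Γ X S η K Z P b2 b3 n17 s) (hu : u.Ok) :
    u.WY * YW σ Z P b2 b3 n17 / u.WY = YW σ Z P b2 b3 n17 := by
  have := hu.Y0.ne'
  field_simp

theorem h02 (h : NumW u κ σ Γ X S η K Z P b2 b3 n17 s) (hu : u.Ok) :
    300 * (u.WY * YW σ Z P b2 b3 n17) ≤ u.WB * (b3 * Z ^ 6) := by
  have h1 := mul_le_mul_of_nonneg_left h.YW_le6 hu.B0.le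
  have h2 := mul_le_mul_of_nonneg_right hu.YB h.YW_pos.le
  linarith

theorem hw (h : NumW u κ σ Γ X S η K Z P b2 b3 n17 s) (hu : u.Ok) :
    u.WB * (b3 * Z ^ 6) ≤ u.WA * (b2 * Z ^ 8) := by
  have hz := h.Z0
  have hA := hu.A0
  have hb := h.b20
  have h1 := mul_le_mul_of_nonneg_right h.g2 (pow_nonneg hz.le 6)
  have h2 : 1000 * (u.WA * b2 * Z ^ 7) ≤ u.WA * b2 * Z ^ 8 := h.pw (by positivity) 7
  have h3 : 0 ≤ u.WA * b2 * Z ^ 7 := by positivity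
  have h4 : Z * (u.WA * b2) * Z ^ 6 = u.WA * b2 * Z ^ 7 := by ring
  have h5 : u.WA * (b2 * Z ^ 8) = u.WA * b2 * Z ^ 8 := by ring
  linarith

theorem w01 (h : NumW u κ σ Γ X S η K Z P b2 b3 n17 s) (hu : u.Ok) :
    u.WY * YW σ Z P b2 b3 n17 / (u.WA * (b2 * Z ^ 8)) ≤ 1 / 300 := by
  have hz := h.Z0
  have hA := hu.A0
  have hb := h.b20
  rw [div_le_iff₀ (by positivity)]
  linarith [h.h02 hu, h.hw hu]

theorem hk1 (h : NumW u κ σ Γ X S η K Z P b2 b3 n17 s) (hu : u.Ok) {zm R : ℝ} (hz : |zm| ≤ 2)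
    (hR : R ≤ YW σ Z P b2 b3 n17) :
    u.WY * R + (1 + (S + |zm| * S) + S) * (u.WA * (b2 * Z ^ 3)) +
      (1 + |zm|) * (u.WB * (b3 * Z ^ 3)) ≤ u.WA * (b2 * Z ^ 8) := by
  have hZ := h.Z0
  have hA := hu.A0
  have hB := hu.B0
  have hb := h.b20
  have hb3 := h.b30
  have hS := h.S1
  have a0 := mul_le_mul_of_nonneg_left hR hu.Y0.le
  have a1 := h.h02 hu
  have a2 := h.hw hu
  have a3 : u.WB * b3 * Z ^ 3 ≤ u.WB * b3 * Z ^ 5 := h.pw' (by positivity) (by norm_num)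
  have a4 : 1000 * (u.WB * b3 * Z ^ 5) ≤ u.WB * b3 * Z ^ 6 := h.pw (by positivity) 5
  have a5 : 1000 * (u.WA * b2 * Z ^ 7) ≤ u.WA * b2 * Z ^ 8 := h.pw (by positivity) 7
  have a6 : u.WA * b2 * Z ^ 4 ≤ u.WA * b2 * Z ^ 7 := h.pw' (by positivity) (by norm_num)
  have a7 : 0 < u.WB * b3 * Z ^ 3 := by positivity
  have a8 : 0 < u.WA * b2 * Z ^ 3 := by positivity
  have a9 : |zm| * S ≤ 2 * S := mul_le_mul_of_nonneg_right hz (by linarith)
  have b1 : (1 + (S + |zm| * S) + S) * (u.WA * b2 * Z ^ 3) ≤ Z * (u.WA * b2 * Z ^ 3) :=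
    mul_le_mul_of_nonneg_right (by linarith [h.ZS]) a8.le
  have b2' : (1 + |zm|) * (u.WB * b3 * Z ^ 3) ≤ 3 * (u.WB * b3 * Z ^ 3) :=
    mul_le_mul_of_nonneg_right (by linarith) a7.le
  have e1 : u.WA * (b2 * Z ^ 8) = u.WA * b2 * Z ^ 8 := by ring
  have e2 : u.WA * (b2 * Z ^ 3) = u.WA * b2 * Z ^ 3 := by ring
  have e3 : u.WB * (b3 * Z ^ 3) = u.WB * b3 * Z ^ 3 := by ring
  have e4 : u.WB * (b3 * Z ^ 6) = u.WB * b3 * Z ^ 6 := by ring
  have e5 : Z * (u.WA * b2 * Z ^ 3) = u.WA * b2 * Z ^ 4 := by ring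
  rw [e1] at a2 ⊢
  rw [e2, e3]
  rw [e4] at a1 a2
  linarith

theorem hk2 (h : NumW u κ σ Γ X S η K Z P b2 b3 n17 s) (hu : u.Ok) {zm R : ℝ} (hz : |zm| ≤ 2)
    (hR : R ≤ YW σ Z P b2 b3 n17) :
    u.WY * R + (1 + S + |zm|) * (u.WB * (b3 * Z ^ 3)) ≤ u.WB * (b3 * Z ^ 6) := by
  have hZ := h.Z0
  have hB := hu.B0
  have hb3 := h.b30
  have hS := h.S1
  have a0 := mul_le_mul_of_nonneg_left hR hu.Y0.le
  have a1 := h.h02 hu
  have a4 : 1000 * (u.WB * b3 * Z ^ 5) ≤ u.WB * b3 * Z ^ 6 := h.pw (by positivity) 5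
  have a5 : u.WB * b3 * Z ^ 4 ≤ u.WB * b3 * Z ^ 5 := h.pw' (by positivity) (by norm_num)
  have a7 : 0 < u.WB * b3 * Z ^ 3 := by positivity
  have b1 : (1 + S + |zm|) * (u.WB * b3 * Z ^ 3) ≤ Z * (u.WB * b3 * Z ^ 3) :=
    mul_le_mul_of_nonneg_right (by linarith [h.ZS]) a7.le
  have e3 : u.WB * (b3 * Z ^ 3) = u.WB * b3 * Z ^ 3 := by ring
  have e4 : u.WB * (b3 * Z ^ 6) = u.WB * b3 * Z ^ 6 := by ring
  have e5 : Z * (u.WB * b3 * Z ^ 3) = u.WB * b3 * Z ^ 4 := by ring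
  rw [e4] at a1 ⊢
  rw [e3]
  have a8 : 0 < u.WB * b3 * Z ^ 6 := by positivity
  linarith

end NumW

/-- **[GEO-D] for the W-chart, numerical form** -/
theorem gdM_num {f : Fin 3 → V3} (hf : Ortho f) {c T M : Ln4} {u : Un} (hu : u.Ok) {Q : Qd}
    {κ σ : ℝ} {i : FW} (hM : TrueW κ σ i M)
    {Γ X S η K Z P b2 b3 n17 z0 ρ r0 zm Am cA : ℝ} {s : Fin 18 → ℝ}
    (h : NumW u κ σ Γ X S η K Z P b2 b3 n17 s) (hρ : 0 ≤ ρ)
    (hGi : ∀ k, |i.G k| ≤ Γ) (hV : ∀ k, |M.v k| ≤ X)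
    (hMX : ∀ z', |z'| ≤ 3 → ∀ k, |M.pos z' k| ≤ X)
    (hT : ∀ z, u.xh ((rl f c T).pos z) 1 = Am + cA * (u.zh z - zm))
    (hc : |cA - i.g 1| ≤ 4 * η * X) (hcA : |cA| ≤ 5 * X) (hAm : |Am| ≤ 5 * X)
    (hzm : |zm| ≤ 2)
    (hSE : |2 * κ * cA| * (u.WB / u.WA) ≤ S) (hSA : u.WY / u.WA * |2 * κ * Am| ≤ S)
    (hb : ∀ z, z0 ≤ z → z ≤ z0 + ρ → Bent u Q κ σ i η (rl f c T) M z)
    (hz : ∀ z, z0 ≤ z → z ≤ z0 + ρ → |u.zh z| ≤ 2 ∧ |u.zh z - zm| ≤ P * Z ∧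
      |u.zh z - i.g 0| ≤ 2 * (K * (P * Z)))
    (hN : ∀ z, z0 ≤ z → z ≤ z0 + ρ → ∀ x : V3, (∀ k, |x k| ≤ 200 * X ^ 2 * S) →
      NearG Q κ η (u.zh z) x)
    (hr : r0 ≤ u.WY * (σ * n17 * Z ^ 4)) :
    ∃ (e : Fin 3 → V3) (w : V3) (q : ℝ → V3 → ℝ), w 0 = u.WY * YW σ Z P b2 b3 n17 ∧
      w 1 = u.WA * (b2 * Z ^ 8) ∧ w 2 = u.WB * (b3 * Z ^ 6) ∧
      ShN e T w q (u.WY * (σ * n17 * Z ^ 4)) z0 ρ r0 ∧
      ∀ (t' M' : Ln4) (j : FW), TrueW κ σ j M' → (∀ k, |j.G k| ≤ Γ) → (∀ k, |M'.v k| ≤ X) →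
        (∀ z, z0 ≤ z → z ≤ z0 + ρ → Bent u Q κ σ i η (rl f c t') M' z ∧
          |u.zh z - j.g 0| ≤ P * Z) →
        (∀ z', |z'| ≤ 3 → ∀ k, |M'.pos z' k| ≤ X) →
        (∀ k, |coW κ i j k| ≤ s k) →
        InSheet t' e T w q (u.WY * (σ * n17 * Z ^ 4)) z0 ρ := by
  have hX := h.X1
  have hS := h.S1
  have hZ := h.Z0
  have hY := hu.Y0
  have hb2 := h.b20
  have hb3 := h.b30
  have hη := h.η0
  have hη1 : 100000000 * η ≤ 1 := by linarith [h.η1, h.P1]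
  have hXη : X * η ≤ 1 := by linarith [h.ηX, h.P1, h.P0]
  have hKη : η ≤ K * (P * Z) := by
    have i1 : P ≤ P * Z := le_mul_of_one_le_right h.P0 (by linarith [h.Zl])
    have i2 : P * Z ≤ K * (P * Z) := le_mul_of_one_le_left (mul_nonneg h.P0 hZ.le) h.K1
    linarith [h.η1, h.P0]
  have hPZK : P * Z ≤ K * (P * Z) := le_mul_of_one_le_left (mul_nonneg h.P0 hZ.le) h.K1
  have XX : X ≤ X ^ 2 := by nlinarith
  have X2S : X ^ 2 ≤ X ^ 2 * S := le_mul_of_one_le_right (sq_nonneg _) hS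
  have hG1 : |i.g 1| ≤ X := by
    rw [← hM.c]; exact hV 1
  have c1 := h.c1 hcA
  have c2 := h.c1 hAm
  have c3 := h.c3 hcA hzm
  have w8 : 0 < b2 * Z ^ 8 := by positivity
  have w6 : 0 < b3 * Z ^ 6 := by positivity
  have w8' : b2 * Z ^ 3 ≤ b2 * Z ^ 8 := h.pw' hb2.le (by norm_num)
  have w6' : b3 * Z ^ 3 ≤ b3 * Z ^ 6 := h.pw' hb3.le (by norm_num)
  have p1 : |2 * κ * cA| * (b2 * Z ^ 8) ≤ 10 * X ^ 2 := by
    have := mul_le_mul c1 h.g3 w8.le (by linarith)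
    linarith
  have p2 : |2 * κ * Am| * (b2 * Z ^ 8) ≤ 10 * X ^ 2 := by
    have := mul_le_mul c2 h.g3 w8.le (by linarith)
    linarith
  have p3 : |zm| * |2 * κ * cA| * (b2 * Z ^ 8) ≤ 20 * X ^ 2 := by
    have := mul_le_mul c3 h.g3 w8.le (by linarith)
    linarith
  have p4 : |zm| * (b3 * Z ^ 6) ≤ 2 * X := mul_le_mul hzm h.g4 w6.le (by norm_num)
  have p5 : |2 * κ * Am| * S * (b3 * Z ^ 6) ≤ 10 * X ^ 2 * S := by
    have i1 := mul_le_mul c2 h.g4 w6.le (by linarith)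
    have i2 := mul_le_mul_of_nonneg_right i1 (show 0 ≤ S by linarith)
    linarith
  obtain ⟨e, w, q, r1, r2, r3, r4, r5⟩ := gdM hf (c := c) (T := T) (M := M) hu (Q := Q) hM h.κ1
    h.σ0.le
    (Γ := Γ) (V := X) (R := 3) (X := X) (ρ' := 3 * (K * (P * Z))) (G := X) (η := η) (η₁ := η)
    (η₂ := 4 * η * X) (Am := Am) (zm := zm) (cA := cA) (θ := P * Z) (z0 := z0)
    (ρ := ρ) (r0 := r0) (a := u.WY * (σ * n17 * Z ^ 4)) (w0 := u.WY * YW σ Z P b2 b3 n17)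
    (w1 := u.WA * (b2 * Z ^ 8)) (w2 := u.WB * (b3 * Z ^ 6)) (Ra := b2 * Z ^ 3)
    (Rb := b3 * Z ^ 3) (An := σ * n17 * Z ^ 3)
    (Rn := NumW.RnW κ σ η Z P b2 b3 n17 Am cA zm) (X0 := 110 * X ^ 2 * S)
    (X1 := 6 * X) (X2 := 24 * X ^ 2) (S := S) (s := s)
    hGi hV hG1 hc hη hη (mul_nonneg h.P0 hZ.le) hρ hT hb
    (by
      intro z h0 h1
      obtain ⟨q1, q2, q3⟩ := hz z h0 h1
      exact ⟨by linarith, q2, by linarith⟩)
    hMX h.hsm (by linarith) hSE hSA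
    (by
      intro z h0 h1 x q1 q2 q0
      obtain ⟨z', m1, m2, -⟩ := hb z h0 h1
      have mz : |z'| ≤ 3 := by
        have := a2 m1 (hz z h0 h1).1
        rw [sub_add_cancel] at this
        linarith
      have mk : ∀ k, |u.xh ((rl f c T).pos z) k| ≤ 2 * X := by
        intro k
        have := a2 (m2 k) (hMX z' mz k)
        rw [sub_add_cancel] at this
        linarith
      have mx : ∀ k (Y : ℝ), |x k - u.xh ((rl f c T).pos z) k| ≤ Y → |x k| ≤ Y + 2 * X := by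
        intro k Y hk
        have := a2 hk (mk k)
        rwa [sub_add_cancel] at this
      refine hN z h0 h1 x fun k => ?_
      fin_cases k
      · have := mx 0 _ q0; show |x 0| ≤ _; linarith
      · have := mx 1 _ q1; show |x 1| ≤ _; linarith
      · have := mx 2 _ q2; show |x 2| ≤ _; linarith)
    (by rw [h.w1A hu]; linarith [h.g3])
    (by linarith [h.g3])
    (by
      rw [h.w1A hu, h.w2B hu]
      linarith [h.g4])
    (by
      have : |2 * κ * cA| * (b2 * Z ^ 3) ≤ |2 * κ * cA| * (b2 * Z ^ 8) :=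
        mul_le_mul_of_nonneg_left w8' (abs_nonneg _)
      linarith [h.g4])
    (by
      rw [h.w1A hu, h.w2B hu, h.w0Y hu]
      have i1 : YW σ Z P b2 b3 n17 ≤ X := by linarith [h.YW_le6, h.YW_pos, h.g4]
      have i2 : 2 * (|2 * κ * Am| + |zm| * |2 * κ * cA|) * (b2 * Z ^ 8) =
        2 * (|2 * κ * Am| * (b2 * Z ^ 8)) + 2 * (|zm| * |2 * κ * cA| * (b2 * Z ^ 8)) := by ring
      have i3 : 2 * (|zm| + |2 * κ * Am| * S) * (b3 * Z ^ 6) =
        2 * (|zm| * (b3 * Z ^ 6)) + 2 * (|2 * κ * Am| * S * (b3 * Z ^ 6)) := by ring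
      rw [i2, i3]
      linarith)
    (by linarith)
    (by
      have i1 := h.w01 hu
      have i2 : (1 + S) * (P * Z) ≤ 1 / 100 := by
        have := h.PZS
        have := h.PZ1
        have e : (1 + S) * (P * Z) = P * Z + S * (P * Z) := by ring
        rw [e]; linarith
      linarith)
    (by linarith)
    (by rw [h.w1A hu, h.w0Y hu]; exact h.hh4 hcA hAm hzm)
    (by rw [h.w1A hu, h.w2B hu, h.w0Y hu]; exact h.hh5 hAm hzm)
    h.hRa h.hRb h.hAn le_rfl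
    (mul_le_mul_of_nonneg_left (h.RnW_le hcA hAm hzm) hY.le)
    (h.hk1 hu hzm (h.RnW_le hcA hAm hzm))
    (h.hk2 hu hzm (h.RnW_le hcA hAm hzm))
    (by have := h.σ0; have := h.n0; positivity)
    (mul_le_mul_of_nonneg_left (h.pw' (mul_pos h.σ0 h.n0).le (by norm_num)) hY.le)
    (by have := h.σ0; have := h.n0; positivity)
    (by
      refine mul_le_mul_of_nonneg_left ?_ hY.le
      have i1 : 0 ≤ b2 ^ 2 * Z ^ 17 := by positivity
      have i2 : 0 ≤ P * b3 * Z ^ 8 := by have := h.P0; positivity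
      unfold YW
      linarith)
    (by
      have := h.h02 hu
      have : 0 < u.WY * YW σ Z P b2 b3 n17 := mul_pos hY h.YW_pos
      linarith)
    (h.hw hu) hr
  refine ⟨e, w, q, r1, r2, r3, r4, ?_⟩
  intro t' M' j hM' hGj hV' hb' hMX' hs
  refine r5 t' M' j hM' hGj hV' (fun z h0 h1 => ⟨(hb' z h0 h1).1, ?_⟩) hMX' hs
  have h2 := (hb' z h0 h1).2
  linarith


end Crest.Agent.R136.GeoN778
end

-- ▼ part R136/GDW2_778
section

/-!
# R136, [GEO-D] for the W-chart, one cell (helper778)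

* `numW_of` : the sizes `NumW` from one large number `X` and one tiny number `m`;
* `StW` : the facts about one stage of the straightened container; `StW.cell` : the lines of a
  legal chart box in one cell lie in one sheet.
-/

set_option autoImplicit false
set_option linter.unusedVariables false
set_option maxHeartbeats 400000

namespace Crest.Agent.R136.GeoN778

open Crest.Agent.R136.Sh605
open Crest.Agent.R136.NetW191
open Crest.Agent.R136.GeoW778 (qS TrueW dB DW EW)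

/-! ### the sizes -/

section num

variable {X m : ℝ}

/-- tiny numbers -/
theorem tiny (hX : 10 ≤ X) (hm0 : 0 ≤ m) (hm : m * X ^ 20 ≤ 1) {c : ℝ} {k l : ℕ}
    (hc0 : 0 ≤ c) (hc : c ≤ 10 ^ 4) (hk : k + l ≤ 16) : c * X ^ k * m * X ^ l ≤ 1 := by
  have hX0 : 0 < X := by linarith
  have h1 : c ≤ X ^ 4 := hc.trans (pow_le_pow_left₀ (by norm_num) hX 4)
  have h2 : X ^ (4 + (k + l)) ≤ X ^ 20 := pow_le_pow_right₀ (by linarith) (by omega)
  calc c * X ^ k * m * X ^ l = c * (m * X ^ (k + l)) := by rw [pow_add]; ring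
    _ ≤ X ^ 4 * (m * X ^ (k + l)) := mul_le_mul_of_nonneg_right h1 (by positivity)
    _ = m * X ^ (4 + (k + l)) := by rw [pow_add X 4]; ring
    _ ≤ m * X ^ 20 := mul_le_mul_of_nonneg_left h2 hm0
    _ ≤ 1 := hm

/-- from `1 ≤ b X^l` and `c X^k m X^l ≤ 1` to `c X^k m ≤ b` -/
theorem le_of_tiny (hX : 10 ≤ X) (hm0 : 0 ≤ m) (hm : m * X ^ 20 ≤ 1) {c b : ℝ} {k l : ℕ}
    (hc0 : 0 ≤ c) (hc : c ≤ 10 ^ 4) (hk : k + l ≤ 16) (hb : 1 ≤ b * X ^ l) :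
    c * X ^ k * m ≤ b := by
  have hX0 : 0 < X := by linarith
  have h := (tiny hX hm0 hm hc0 hc hk).trans hb
  exact le_of_mul_le_mul_right h (pow_pos hX0 l)

end num

/-- **the sizes of a box** from one large number `X` and one tiny number `m` -/
theorem numW_of {u : Un} {κ σ X S K Z P b2 b3 n17 m : ℝ} {s : Fin 18 → ℝ}
    (κ1 : |κ| ≤ 1) (σ0 : 0 < σ) (hX : 10 ≤ X) (hm0 : 0 ≤ m) (hm : m * X ^ 20 ≤ 1) (hσ : σ ≤ m)
    (K1 : 1 ≤ K) (S1 : 1 ≤ S) (SX : S ≤ X) (KS : 1000 * (K ^ 3 * S) ≤ Z) (PZ : P * Z ^ 3 ≤ 1)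
    (P1 : 1 ≤ P * X) (b21 : 1 ≤ b2 * X) (b31 : 1 ≤ b3 * X) (n1 : 1 ≤ n17 * X) (nX : n17 ≤ X)
    (s1 : 0 ≤ s 1) (hs2 : s 2 ≤ K * b2) (hs1 : P * s 1 ≤ K * b2) (hs3 : s 3 ≤ K * b3)
    (hs1' : P * s 1 ^ 2 ≤ K ^ 2 * b3) (hs17 : s 17 ≤ K * n17) (hs16 : P * s 16 ≤ K * n17)
    (hs13 : P ^ 2 * s 13 ≤ K * n17) (g1 : b2 ^ 2 * Z ^ 12 ≤ b3)
    (g2 : u.WB * b3 ≤ Z * (u.WA * b2)) (g3 : b2 * Z ^ 8 ≤ X) (g4 : b3 * Z ^ 6 ≤ X) :
    NumW u κ σ X X S m K Z P b2 b3 n17 s := by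
  have hX0 : 0 < X := by linarith
  have pos : ∀ b : ℝ, 1 ≤ b * X → 0 < b := fun b hb => by
    by_contra h
    have : b * X ≤ 0 := mul_nonpos_of_nonpos_of_nonneg (not_lt.1 h) hX0.le
    linarith
  have P0 := pos P P1
  have b20 := pos b2 b21
  have b30 := pos b3 b31
  have n0 := pos n17 n1
  have b2' : 1 ≤ b2 * X ^ 1 := by rwa [pow_one]
  have b3' : 1 ≤ b3 * X ^ 1 := by rwa [pow_one]
  have n' : 1 ≤ n17 * X ^ 1 := by rwa [pow_one]
  have P' : 1 ≤ P * X ^ 1 := by rwa [pow_one]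
  have Pb : 1 ≤ (P * b3) * X ^ 2 := by
    calc (1 : ℝ) ≤ (P * X) * (b3 * X) := one_le_mul_of_one_le_of_one_le P1 b31
      _ = (P * b3) * X ^ 2 := by ring
  have hDW : DW X 3 X X 1 ≤ 200 * X ^ 3 := by
    have y2 : X ≤ X ^ 2 := by nlinarith
    have y3 : X ^ 2 ≤ X ^ 3 := by nlinarith [mul_pos hX0 hX0]
    simp only [GeoW778.DW]
    nlinarith
  have hDW0 : 0 ≤ DW X 3 X X 1 := by simp only [GeoW778.DW]; positivity
  have hEW : EW X 3 X X 1 ≤ 10000 * X ^ 5 := by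
    have e1 : EW X 3 X X 1 = 2 * X * (8 + 4 * X) * DW X 3 X X 1 := by
      simp only [GeoW778.EW]; ring
    rw [e1]
    have e2 : 2 * X * (8 + 4 * X) ≤ 24 * X ^ 2 := by nlinarith
    calc 2 * X * (8 + 4 * X) * DW X 3 X X 1
        ≤ (24 * X ^ 2) * (200 * X ^ 3) := mul_le_mul e2 hDW hDW0 (by positivity)
      _ ≤ 10000 * X ^ 5 := by nlinarith [pow_pos hX0 5]
  exact
  { κ1 := κ1
    σ0 := σ0
    Γ0 := hX0.le
    K1 := K1
    X1 := by linarith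
    S1 := S1
    KS := KS
    P0 := P0.le
    PZ := PZ
    η0 := hm0
    b20 := b20
    b30 := b30
    n0 := n0
    s1 := s1
    hs2 := hs2
    hs1 := hs1
    hs3 := hs3
    hs1' := hs1'
    hs17 := hs17
    hs16 := hs16
    hs13 := hs13
    e1 := le_of_tiny hX hm0 hm (by norm_num) (by norm_num) (by norm_num) b2'
    e2 := le_of_tiny hX hm0 hm (by norm_num) (by norm_num) (by norm_num) b3'
    e3 := by
      have h := le_of_tiny (c := 20) (k := 3) hX hm0 hm (by norm_num) (by norm_num)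
        (by norm_num) b3'
      refine le_trans ?_ h
      have : X ^ 2 * (X * σ) ≤ X ^ 2 * (X * m) :=
        mul_le_mul_of_nonneg_left (mul_le_mul_of_nonneg_left hσ hX0.le) (by positivity)
      calc 20 * X ^ 2 * (X * σ) = 20 * (X ^ 2 * (X * σ)) := by ring
        _ ≤ 20 * (X ^ 2 * (X * m)) := by linarith
        _ = 20 * X ^ 3 * m := by ring
    e4 := by
      have h := le_of_tiny (c := 10000) (k := 5) hX hm0 hm (by norm_num) (by norm_num)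
        (by norm_num) n'
      refine le_trans ?_ h
      calc σ * EW X 3 X X 1 ≤ σ * (10000 * X ^ 5) := mul_le_mul_of_nonneg_left hEW σ0.le
        _ ≤ m * (10000 * X ^ 5) := mul_le_mul_of_nonneg_right hσ (by positivity)
        _ = 10000 * X ^ 5 * m := by ring
    e5 := by
      have h := tiny (c := 200) (k := 3) (l := 0) hX hm0 hm (by norm_num) (by norm_num)
        (by norm_num)
      rw [pow_zero, mul_one] at h
      refine le_trans ?_ h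
      calc σ * DW X 3 X X 1 ≤ σ * (200 * X ^ 3) := mul_le_mul_of_nonneg_left hDW σ0.le
        _ ≤ m * (200 * X ^ 3) := mul_le_mul_of_nonneg_right hσ (by positivity)
        _ = 200 * X ^ 3 * m := by ring
    e6 := by
      have h := le_of_tiny (c := 1) (k := 1) hX hm0 hm (by norm_num) (by norm_num)
        (by norm_num) b3'
      refine le_trans ?_ h
      calc σ * n17 ≤ m * X := mul_le_mul hσ nX n0.le hm0
        _ = 1 * X ^ 1 * m := by ring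
    e7 := by
      have h := le_of_tiny (c := 100) (k := 2) hX hm0 hm (by norm_num) (by norm_num)
        (by norm_num) Pb
      refine le_trans ?_ h
      calc 100 * X * m * (b2 * Z ^ 8) ≤ 100 * X * m * X :=
            mul_le_mul_of_nonneg_left g3 (by positivity)
        _ = 100 * X ^ 2 * m := by ring
    e8 := by
      have h := le_of_tiny (c := 100) (k := 2) hX hm0 hm (by norm_num) (by norm_num)
        (by norm_num) P'
      refine le_trans ?_ h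
      calc 100 * X * S * m = 100 * X * m * S := by ring
        _ ≤ 100 * X * m * X := mul_le_mul_of_nonneg_left SX (by positivity)
        _ = 100 * X ^ 2 * m := by ring
    g1 := g1
    g2 := g2
    g3 := g3
    g4 := g4 }

/-! ### one stage -/

/-- facts about one stage of the straightened container -/
structure StW (I : Finset (ℕ × ℝ)) (f : Fin 3 → V3) (c : Ln4) (u : Un) (κ σ hz X S S1 η : ℝ)
    (F : ℕ × ℝ → FW) (L0 L : ℕ → Ln4) (Q : ℕ × ℝ → Qd) : Prop where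
  ortho : Ortho f
  ok : u.Ok
  hz0 : 0 < hz
  zh : ∀ z z', u.zh z - u.zh z' = hz * (z - z')
  gz : ∀ x ∈ I, (F x).g 0 = u.zh x.2
  zb : ∀ x ∈ I, |(F x).g 0| ≤ 1
  tru : ∀ x ∈ I, TrueW κ σ (F x) (L x.1)
  bG : ∀ x ∈ I, ∀ k, |(F x).G k| ≤ X
  bV : ∀ x ∈ I, ∀ k, |(L x.1).v k| ≤ X
  bX : ∀ x ∈ I, ∀ z', |z'| ≤ 3 → ∀ k, |(L x.1).pos z' k| ≤ X
  near : ∀ x ∈ I, ∀ z, |z| ≤ 2 → ∀ y : V3, (∀ k, |y k| ≤ 200 * X ^ 2 * S) →
    NearG (Q x) κ η z y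
  bent : ∀ x ∈ I, ∀ y ∈ I, ∀ z, |u.zh z| ≤ 2 →
    Bent u (Q x) κ σ (F x) η (rl f c (L0 y.1)) (L y.1) z
  slc : ∀ x ∈ I, |2 * κ * (F x).g 1| * u.WB ≤ S1 * u.WA
  slA : ∀ x ∈ I, |2 * κ * (F x).g 2| * u.WY ≤ S1 * u.WA
  S10 : 0 ≤ S1
  SS : 5 * S1 + 1 ≤ S

namespace StW

variable {I : Finset (ℕ × ℝ)} {f : Fin 3 → V3} {c : Ln4} {u : Un} {κ σ hz X S S1 η : ℝ}
    {F : ℕ × ℝ → FW} {L0 L : ℕ → Ln4} {Q : ℕ × ℝ → Qd}

/-- a height with given unit height -/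
theorem exists_zh (hu : u.Ok) (r : ℝ) : ∃ z, u.zh z = r := by
  refine ⟨u.zc + u.H * r, ?_⟩
  have := hu.H0.ne'
  simp only [Un.zh]
  field_simp
  ring

/-- the physical slopes of the frame of a line -/
theorem slopes (h : StW I f c u κ σ hz X S S1 η F L0 L Q) (κ1 : |κ| ≤ 1) (hX : 1 ≤ X)
    (hη : 100 * (X * η) ≤ 1) (hη0 : 0 ≤ η) {x : ℕ × ℝ} (hx : x ∈ I) {zm : ℝ} (hzm : |zm| ≤ 2) :
    ∃ Am cA : ℝ, (∀ z, u.xh ((rl f c (L0 x.1)).pos z) 1 = Am + cA * (u.zh z - zm)) ∧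
      |cA - (F x).g 1| ≤ 4 * η * X ∧ |cA| ≤ 5 * X ∧ |Am| ≤ 5 * X ∧
      |2 * κ * cA| * (u.WB / u.WA) ≤ S ∧ u.WY / u.WA * |2 * κ * Am| ≤ S := by
  have hA := h.ok.A0
  have hB := h.ok.B0
  have hY := h.ok.Y0
  have hX0 : 0 < X := by linarith
  have hηX : η ≤ X * η := le_mul_of_one_le_left hη0 hX
  obtain ⟨Am, cA, hT⟩ := xh_aff h.ok (rl f c (L0 x.1)) zm 1
  obtain ⟨za, ha⟩ := exists_zh h.ok 0
  obtain ⟨zb, hb⟩ := exists_zh h.ok 1
  obtain ⟨zc', hc⟩ := exists_zh h.ok zm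
  have Ba := h.bent x hx x hx za (by rw [ha, abs_zero]; norm_num)
  have Bb := h.bent x hx x hx zb (by rw [hb, abs_one]; norm_num)
  have Bc := h.bent x hx x hx zc' (by rw [hc]; exact hzm)
  have hM := h.tru x hx
  obtain ⟨q1, q2, q3⟩ := slope_bent (by linarith : η ≤ 1) hX (h.bV x hx) hT Ba Bb
    (by rw [ha, hb]; ring) Bc hc (fun z' hz' k => h.bX x hx z' (by
      have := a2 hz' hzm
      rw [sub_add_cancel] at this
      linarith) k)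
  rw [hM.c] at q1
  refine ⟨Am, cA, hT, q1, q2, q3, ?_, ?_⟩
  · have e1 : |2 * κ * cA| ≤ |2 * κ * (F x).g 1| + 8 * (X * η) := by
      have e : 2 * κ * cA = 2 * κ * (F x).g 1 + 2 * (κ * (cA - (F x).g 1)) := by ring
      rw [e]
      refine a2 le_rfl ?_
      rw [abs_mul, abs_two]
      have := m2 κ1 q1
      linarith
    have e2 : |2 * κ * (F x).g 1| * (u.WB / u.WA) ≤ S1 := by
      rw [← mul_div_assoc, div_le_iff₀ hA]
      exact h.slc x hx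
    have e3 : u.WB / u.WA ≤ 1 := (div_le_one hA).2 h.ok.BA
    have e4 : 0 ≤ u.WB / u.WA := by positivity
    have e5 := mul_le_mul_of_nonneg_right e1 e4
    have e6 : 8 * (X * η) * (u.WB / u.WA) ≤ 8 * (X * η) * 1 :=
      mul_le_mul_of_nonneg_left e3 (by positivity)
    have := h.SS
    have := h.S10
    rw [add_mul] at e5
    linarith
  · obtain ⟨z3, l1, l2, -⟩ := Bc
    have l2' := l2 1
    rw [hT, hc, sub_self, mul_zero, add_zero, hM.posA] at l2'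
    have l3 : |z3 - (F x).g 0| ≤ 4 := by
      have e : z3 - (F x).g 0 = (z3 - zm) + zm - (F x).g 0 := by ring
      rw [hc] at l1
      rw [e]
      have := s2 (a2 l1 hzm) (h.zb x hx)
      linarith
    have e1 : |2 * κ * Am| ≤ 1 + |2 * κ * (F x).g 2| + |2 * κ * (F x).g 1| * 4 := by
      have e : 2 * κ * Am = 2 * (κ * (Am - ((F x).g 2 + (F x).g 1 * (z3 - (F x).g 0)))) +
          2 * κ * (F x).g 2 + 2 * κ * (F x).g 1 * (z3 - (F x).g 0) := by ring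
      rw [e]
      refine a2 (a2 ?_ le_rfl) (m2 le_rfl l3)
      rw [abs_mul, abs_two]
      have := m2 κ1 l2'
      linarith
    have e2 : u.WY / u.WA * |2 * κ * (F x).g 2| ≤ S1 := by
      have := h.slA x hx
      rw [div_mul_eq_mul_div, div_le_iff₀ hA, mul_comm]
      exact this
    have e3 : u.WY / u.WA * |2 * κ * (F x).g 1| ≤ S1 := by
      have h1 := h.slc x hx
      have h2 := mul_le_mul_of_nonneg_left h.ok.YB (abs_nonneg (2 * κ * (F x).g 1))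
      rw [div_mul_eq_mul_div, div_le_iff₀ hA, mul_comm]
      linarith
    have e4 : u.WY / u.WA ≤ 1 := (div_le_one hA).2 (h.ok.YB.trans h.ok.BA)
    have e5 : 0 ≤ u.WY / u.WA := by positivity
    have e6 := mul_le_mul_of_nonneg_left e1 e5
    have e7 : u.WY / u.WA * (1 + |2 * κ * (F x).g 2| + |2 * κ * (F x).g 1| * 4) =
        u.WY / u.WA + u.WY / u.WA * |2 * κ * (F x).g 2| +
          4 * (u.WY / u.WA * |2 * κ * (F x).g 1|) := by ring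
    have := h.SS
    have := h.S10
    rw [e7] at e6
    linarith

/-- **the lines of a legal chart box in one cell lie in one sheet** -/
theorem cell (h : StW I f c u κ σ hz X S S1 η F L0 L Q) {K Z P b2 b3 n17 : ℝ}
    {s : Fin 18 → ℝ} (hN : NumW u κ σ X X S η K Z P b2 b3 n17 s) {x : ℕ × ℝ} (hx : x ∈ I)
    {z0 ρ r0 : ℝ} (hρ : 0 ≤ ρ) (hρP : hz * ρ ≤ P * Z) (hs0 : s 0 ≤ K * (P * Z))
    (hr : r0 ≤ u.WY * (σ * n17 * Z ^ 4)) :
    ∃ (e : Fin 3 → V3) (T : Ln4) (w : V3) (q : ℝ → V3 → ℝ), w 1 = u.WA * (b2 * Z ^ 8) ∧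
      w 2 = u.WB * (b3 * Z ^ 6) ∧ ShN e T w q (u.WY * (σ * n17 * Z ^ 4)) z0 ρ r0 ∧
      ∀ y ∈ I, z0 ≤ y.2 → y.2 ≤ z0 + ρ → (∀ k, |coW κ (F x) (F y) k| ≤ s k) →
        InSheet (L0 y.1) e T w q (u.WY * (σ * n17 * Z ^ 4)) z0 ρ := by
  have hZ := hN.Z0
  have hX := hN.X1
  have hP := hN.P0
  have hPZ : 0 ≤ P * Z := mul_nonneg hP hZ.le
  have hPZK : P * Z ≤ K * (P * Z) := le_mul_of_one_le_left hPZ hN.K1
  by_cases hex : ∃ y0 ∈ I, z0 ≤ y0.2 ∧ y0.2 ≤ z0 + ρ ∧ (∀ k, |coW κ (F x) (F y0) k| ≤ s k)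
  · obtain ⟨y0, hy0, y01, y02, y03⟩ := hex
    have cellz : ∀ z z', z0 ≤ z → z ≤ z0 + ρ → z0 ≤ z' → z' ≤ z0 + ρ →
        |u.zh z - u.zh z'| ≤ P * Z := by
      intro z z' a1 a2 b1 b2
      rw [h.zh, abs_mul, abs_of_pos h.hz0]
      refine le_trans (mul_le_mul_of_nonneg_left ?_ h.hz0.le) hρP
      rw [abs_le]; constructor <;> linarith
    have hz2 : ∀ z, z0 ≤ z → z ≤ z0 + ρ → |u.zh z| ≤ 2 := by
      intro z a1 a3
      have h1 := cellz z y0.2 a1 a3 y01 y02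
      have h2 := h.zb y0 hy0
      rw [h.gz y0 hy0] at h2
      have := a2 h1 h2
      rw [sub_add_cancel] at this
      linarith [hN.PZ1]
    set zm : ℝ := u.zh (z0 + ρ / 2) with hzm
    have hzm2 : |zm| ≤ 2 := hz2 _ (by linarith) (by linarith)
    have hηX : 100 * (X * η) ≤ 1 := by linarith [hN.ηX, hN.P1]
    obtain ⟨Am, cA, hT, q1, q2, q3, q4, q5⟩ := h.slopes hN.κ1 hX hηX hN.η0 hx hzm2
    have key := gdM_num (S := S) (r0 := r0) h.ortho (c := c) (T := L0 x.1) (M := L x.1) h.ok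
      (Q := Q x) (h.tru x hx) hN hρ (h.bG x hx) (h.bV x hx) (h.bX x hx) hT q1 q2 q3 hzm2 q4 q5
      (fun z a1 a2 => h.bent x hx x hx z (hz2 z a1 a2))
      (by
        intro z a1 a3
        refine ⟨hz2 z a1 a3, cellz z _ a1 a3 (by linarith) (by linarith), ?_⟩
        have h1 := cellz z y0.2 a1 a3 y01 y02
        have h2 := y03 0
        rw [PrW464.coW_zero, h.gz y0 hy0] at h2
        have e : u.zh z - (F x).g 0 = (u.zh z - u.zh y0.2) + (u.zh y0.2 - (F x).g 0) := by ring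
        rw [e]
        have := a2 h1 (h2.trans hs0)
        linarith)
      (fun z a1 a2 y hy => h.near x hx _ (hz2 z a1 a2) y hy) hr
    obtain ⟨e, w, q, -, r1, r2, r3, r4⟩ := key
    refine ⟨e, L0 x.1, w, q, r1, r2, r3, ?_⟩
    intro y hy y1 y2 hsy
    refine r4 (L0 y.1) (L y.1) (F y) (h.tru y hy) (h.bG y hy) (h.bV y hy) ?_ (h.bX y hy) hsy
    intro z a1 a2
    refine ⟨h.bent x hx y hy z (hz2 z a1 a2), ?_⟩
    rw [h.gz y hy]
    exact cellz z y.2 a1 a2 y1 y2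
  · refine ⟨f, L0 x.1, ![u.WB * (b3 * Z ^ 6), u.WA * (b2 * Z ^ 8), u.WB * (b3 * Z ^ 6)],
      GeoQ186.qflat f (L0 x.1), rfl, rfl, GeoQ186.flat_ShN h.ortho _ ?_ hr ?_ (hN.hw h.ok), ?_⟩
    · have := h.ok.Y0
      have := hN.σ0
      have := hN.n0
      positivity
    · have i0 := hN.h02 h.ok
      have i1 : u.WY * (σ * n17 * Z ^ 4) ≤ u.WY * YW σ Z P b2 b3 n17 := by
        refine mul_le_mul_of_nonneg_left ?_ h.ok.Y0.le
        have j1 : 0 ≤ b2 ^ 2 * Z ^ 17 := by positivity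
        have j2 : 0 ≤ P * b3 * Z ^ 8 := by have := hN.b30; positivity
        unfold YW
        linarith
      have : 0 < u.WY * YW σ Z P b2 b3 n17 := mul_pos h.ok.Y0 hN.YW_pos
      linarith
    · intro y hy y1 y2 hsy
      exact absurd ⟨y, hy, y1, y2, hsy⟩ hex

end StW

end Crest.Agent.R136.GeoN778
end

-- ▼ part R136/GDW3_778

/-!
# R136, [GEO-D] for the W-chart, the data (helper778)

* `WCon` : the straightened container of the first thin window (original lines `L0`, true lines `L`,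
  flags `F`, quadrics `Q n x` of the flagged sheets in unit coordinates);
* `Qw` : the facts about one level (widths of the marks, physical slopes), to be carried by zooming;
* `WLev` : these facts at the level `0` of the final window, in terms of the units of the chart;
* `OrdW`, `PDW` : the exponents of the boxes which are one sheet;
* `SheetGeo` : the geometry contains the sheets of the class `ShN` (sizes between `wr` and `cr`).
-/

set_option autoImplicit false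
set_option linter.unusedVariables false
set_option maxHeartbeats 400000

open Finset Filter Topology

namespace Crest.Agent.R136.GeoN778

open Crest.Agent.R138
open Crest.Agent.R138.Ex926 (Base U)
open Crest.Agent.R138.Dp76 (dpow_pos dpow_add dpow_le dpow_le_one)
open Crest.Agent.R138.Mk163 (zc zl rho alive)
open Crest.Agent.R136.MkA627
open Crest.Agent.R136.Net191
open Crest.Agent.R136.NetW191
open Crest.Agent.R136.Sh605
open Crest.Agent.R136.GeoW778 (qS TrueW dB DW EW)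
open Crest.Agent.R136.Wq638 (capQ N0Q)
open Crest.Agent.R136.PrW464 (WData unW unW_pos couW UnitW)
open Crest.Agent.R136.TD627 (CarryH)
open Crest.Agent.R136.ArgA163 (rho_pos)

/-! ### the container -/

/-- **the straightened container of a window with base `B0`** : original coordinates = frame `f n`,
origin `c n`, units `u n`; `Q n x` = quadric of the flagged sheet of `x` in the unit coordinates -/
structure WCon (B0 : Base) (I : ℕ → Finset (ℕ × ℝ)) (kp sg hz zs : ℕ → ℝ)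
    (F : ℕ → ℕ × ℝ → FW) (L0 L : ℕ → ℕ → Ln4) (f : ℕ → Fin 3 → V3) (c : ℕ → Ln4)
    (u : ℕ → Un) (Q : ℕ → ℕ × ℝ → Qd) : Prop where
  ortho : ∀ᶠ n in (U : Filter ℕ), Ortho (f n)
  ok : ∀ᶠ n in (U : Filter ℕ), (u n).Ok
  zh : ∀ᶠ n in (U : Filter ℕ), ∀ z, (u n).zh z = hz n * z - zs n
  near : ∀ C M : ℝ, ∀ᶠ n in (U : Filter ℕ), ∀ x ∈ I n, ∀ z, |z| ≤ 2 → ∀ y : V3,
    (∀ k, |y k| ≤ B0.d n ^ (-C)) → NearG (Q n x) (kp n) (B0.d n ^ M) z y
  bent : ∀ M : ℝ, ∀ᶠ n in (U : Filter ℕ), ∀ x ∈ I n, ∀ y ∈ I n, ∀ z, |(u n).zh z| ≤ 2 →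
    Bent (u n) (Q n x) (kp n) (sg n) (F n x) (B0.d n ^ M) (rl (f n) (c n) (L0 n y.1))
      (L n y.1) z

/-- smaller sets -/
theorem WCon.mono {B0 : Base} {I J : ℕ → Finset (ℕ × ℝ)} {kp sg hz zs : ℕ → ℝ}
    {F : ℕ → ℕ × ℝ → FW} {L0 L : ℕ → ℕ → Ln4} {f : ℕ → Fin 3 → V3} {c : ℕ → Ln4}
    {u : ℕ → Un} {Q : ℕ → ℕ × ℝ → Qd} (h : WCon B0 I kp sg hz zs F L0 L f c u Q)
    (hJ : ∀ᶠ n in (U : Filter ℕ), J n ⊆ I n) : WCon B0 J kp sg hz zs F L0 L f c u Q where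
  ortho := h.ortho
  ok := h.ok
  zh := h.zh
  near C M := by
    filter_upwards [h.near C M, hJ] with n hn hs x hx using hn x (hs hx)
  bent M := by
    filter_upwards [h.bent M, hJ] with n hn hs x hx y hy using hn x (hs hx) y (hs hy)

/-! ### the level -/

/-- two-sided comparison with a loss -/
def Cmp (e x y : ℝ) : Prop := e * y ≤ x ∧ e * x ≤ y

/-- **the facts about one level `v` with loss `d^-δ`** (first window; `ρ n v = hz n * rho (lev n v)`,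
`wA`, `a` : 650's precisions) -/
def Qw (B0 : Base) (I : ℕ → Finset (ℕ × ℝ)) (w : Fin 3 → ℕ → ℚ → ℝ) (kp sg : ℕ → ℝ)
    (F : ℕ → ℕ × ℝ → FW) (u : ℕ → Un) (ρ wA a : ℕ → ℚ → ℝ) (C : ℝ) : ℕ → ℕ → ℚ → ℝ → Prop
  | 0, n, v, δ => 0 < (u n).WA * wA n v ∧ Cmp (B0.d n ^ δ) (w 1 n v) ((u n).WA * wA n v)
  | 1, n, v, δ => 0 < (u n).WB * (wA n v ^ 2 / ρ n v) ∧
      Cmp (B0.d n ^ δ) (w 2 n v) ((u n).WB * (wA n v ^ 2 / ρ n v))
  | 2, n, v, δ => 0 < (u n).WY * (sg n * a n v) ∧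
      Cmp (B0.d n ^ δ) (w 0 n v) ((u n).WY * (sg n * a n v))
  | 3, n, _, δ => 0 < (u n).WA ∧
      (∀ x ∈ I n, |2 * kp n * (F n x).g 1| * (u n).WB ≤ B0.d n ^ (-δ) * (u n).WA) ∧
      ∀ x ∈ I n, |2 * kp n * (F n x).g 2| * (u n).WY ≤ B0.d n ^ (-δ) * (u n).WA
  | 4, n, v, _ => ρ n v ≤ 1 ∧ wA n v ≤ B0.d n ^ (-C) ∧ a n v ≤ B0.d n ^ (-C)
  | _ + 5, _, _, _ => True

theorem Cmp.mono {e e' x y : ℝ} (h : Cmp e x y) (h0 : 0 ≤ e) (he : e' ≤ e) (hy : 0 < y) :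
    Cmp e' x y := by
  have hx : 0 ≤ x := (mul_nonneg h0 hy.le).trans h.1
  exact ⟨(mul_le_mul_of_nonneg_right he hy.le).trans h.1,
    (mul_le_mul_of_nonneg_right he hx).trans h.2⟩

/-- the facts are carried by zooming -/
theorem carry_Qw {B0 : Base} {I : ℕ → Finset (ℕ × ℝ)} {w : Fin 3 → ℕ → ℚ → ℝ} {kp sg : ℕ → ℝ}
    {F : ℕ → ℕ × ℝ → FW} {u : ℕ → Un} {ρ wA a : ℕ → ℚ → ℝ} {C : ℝ}
    (h : ∀ i, ∀ v : ℚ, 0 ≤ v → v ≤ 1 → ∀ δ : ℝ, 0 < δ → ∀ᶠ n in (U : Filter ℕ),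
      Qw B0 I w kp sg F u ρ wA a C i n v δ) :
    CarryH (Qw B0 I w kp sg F u ρ wA a C) := by
  refine ⟨?_, h⟩
  intro i n v δ δ' hδ hq
  have hd := dpow_le B0 n hδ
  have hd' := dpow_le B0 n (show -δ' ≤ -δ by linarith)
  match i, hq with
  | 0, hq => exact ⟨hq.1, hq.2.mono (dpow_pos B0 n _).le hd hq.1⟩
  | 1, hq => exact ⟨hq.1, hq.2.mono (dpow_pos B0 n _).le hd hq.1⟩
  | 2, hq => exact ⟨hq.1, hq.2.mono (dpow_pos B0 n _).le hd hq.1⟩
  | 3, hq => exact ⟨hq.1,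
      fun x hx => (hq.2.1 x hx).trans (mul_le_mul_of_nonneg_right hd' hq.1.le),
      fun x hx => (hq.2.2 x hx).trans (mul_le_mul_of_nonneg_right hd' hq.1.le)⟩
  | 4, hq => exact hq
  | _ + 5, hq => exact hq

/-- **the facts about the level `0` of the final window** -/
structure WLev (B0 B : Base) (I : ℕ → Finset (ℕ × ℝ)) (lev : ℕ → ℚ → ℕ) (w : Fin 3 → ℕ → ℚ → ℝ)
    (kp sg hz : ℕ → ℝ) (F : ℕ → ℕ × ℝ → FW) (u : ℕ → Un) (uz uc un : ℕ → ℝ) (w0 : ℝ) : Prop where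
  base : ∀ n, B0.d n ≤ B.d n
  z0 : ∀ n, 0 < uz n
  c0 : ∀ n, 0 < uc n
  n0 : ∀ n, 0 < un n
  hz0 : ∀ n, 0 < hz n
  hz : ∀ n, uz n * hz n = B.d n ^ w0 * 2 ^ lev n 0
  /-- the unit height of level `0` is at most `1` -/
  zc : ∀ᶠ n in (U : Filter ℕ), B.d n ^ w0 ≤ uz n
  low : ∃ C : ℝ, ∀ᶠ n in (U : Filter ℕ), uz n ≤ B0.d n ^ (-C) ∧ uc n ≤ B0.d n ^ (-C) ∧
    un n ≤ B0.d n ^ (-C)
  top : ∃ C : ℝ, ∀ᶠ n in (U : Filter ℕ), B0.d n ^ C ≤ uz n * uc n ∧ B0.d n ^ C ≤ un n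
  wA : ∀ ε : ℝ, 0 < ε → ∀ᶠ n in (U : Filter ℕ), Cmp (B.d n ^ ε) (w 1 n 0)
    ((u n).WA * (B.d n ^ (2 * w0) / (uz n * uc n)))
  wB : ∀ ε : ℝ, 0 < ε → ∀ᶠ n in (U : Filter ℕ), Cmp (B.d n ^ ε) (w 2 n 0)
    ((u n).WB * (B.d n ^ (3 * w0) / (uz n * uc n ^ 2)))
  wY : ∀ ε : ℝ, 0 < ε → ∀ᶠ n in (U : Filter ℕ), Cmp (B.d n ^ ε) (w 0 n 0)
    ((u n).WY * (sg n * (B.d n ^ (9 * w0) / un n)))
  slc : ∀ ε : ℝ, 0 < ε → ∀ᶠ n in (U : Filter ℕ), ∀ x ∈ I n,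
    |2 * kp n * (F n x).g 1| * (u n).WB ≤ B.d n ^ (-ε) * (u n).WA
  slA : ∀ ε : ℝ, 0 < ε → ∀ᶠ n in (U : Filter ℕ), ∀ x ∈ I n,
    |2 * kp n * (F n x).g 2| * (u n).WY ≤ B.d n ^ (-ε) * (u n).WA

/-- **from the carried facts to `WLev`** -/
theorem wlev_of {B0 B : Base} {I0 I : ℕ → Finset (ℕ × ℝ)} {lev : ℕ → ℚ → ℕ}
    {w : Fin 3 → ℕ → ℚ → ℝ} {kp sg hz : ℕ → ℝ} {F : ℕ → ℕ × ℝ → FW} {u : ℕ → Un}
    {uz uc un : ℕ → ℝ} {w0 : ℝ} {ρ wA a : ℕ → ℚ → ℝ} {C : ℝ} {H : ℕ → ℝ} {mm : ℕ → ℚ → ℚ}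
    {sc : Fin 18 → ℕ → ℝ} (hz0 : ∀ n, 0 < hz n) (base : ∀ n, B0.d n ≤ B.d n)
    (hB : ∀ n, B.d n = B0.d n ^ H n) (hI : ∀ᶠ n in (U : Filter ℕ), I n ⊆ I0 n)
    (hρ : ∀ n v, ρ n v = hz n * rho (lev n v))
    (hQ : CarryH fun i n v δ => Qw B0 I0 w kp sg F u ρ wA a C i n (mm n v) (H n * δ))
    (hU : UnitW B (fun n v => lev n (mm n v)) hz uz uc un w0 sc)
    (low : ∃ C : ℝ, ∀ᶠ n in (U : Filter ℕ), ∀ k, B0.d n ^ C ≤ sc k n)
    (hu : ∀ᶠ n in (U : Filter ℕ), uz n = B.d n ^ w0 / (hz n * rho (lev n (mm n 0))) ∧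
        uc n = B.d n ^ w0 / (wA n (mm n 0) / ρ n (mm n 0)) ∧
        un n = B.d n ^ (9 * w0) / a n (mm n 0) ∧ 0 < wA n (mm n 0) ∧ 0 < a n (mm n 0)) :
    WLev B0 B I (fun n v => lev n (mm n v)) (fun j n v => w j n (mm n v)) kp sg hz F u uz uc un
      w0 := by
  have hd : ∀ n (a : ℝ), B.d n ^ a = B0.d n ^ (H n * a) := fun n a => by
    rw [hB, ← Real.rpow_mul (B0.pos n).le]
  have hρ0 : ∀ n v, 0 < ρ n v := fun n v => by
    rw [hρ]; exact mul_pos (hz0 n) (Crest.Agent.R136.ArgA163.rho_pos _)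
  have q4 := hQ.2 4 0 le_rfl zero_le_one 1 one_pos
  have e1 : ∀ᶠ n in (U : Filter ℕ), B.d n ^ (2 * w0) / (uz n * uc n) = wA n (mm n 0) := by
    filter_upwards [hu] with n hn
    obtain ⟨h1, h2, -, h4, -⟩ := hn
    have := hρ0 n (mm n 0)
    have := (dpow_pos B n w0).ne'
    rw [h1, h2, ← hρ, show (2 : ℝ) * w0 = w0 + w0 by ring, dpow_add]
    field_simp
  have e2 : ∀ᶠ n in (U : Filter ℕ), B.d n ^ (3 * w0) / (uz n * uc n ^ 2) =
      wA n (mm n 0) ^ 2 / ρ n (mm n 0) := by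
    filter_upwards [hu] with n hn
    obtain ⟨h1, h2, -, h4, -⟩ := hn
    have := hρ0 n (mm n 0)
    have := (dpow_pos B n w0).ne'
    rw [h1, h2, ← hρ, show (3 : ℝ) * w0 = w0 + w0 + w0 by ring, dpow_add, dpow_add]
    field_simp
  have e3 : ∀ᶠ n in (U : Filter ℕ), B.d n ^ (9 * w0) / un n = a n (mm n 0) := by
    filter_upwards [hu] with n hn
    obtain ⟨-, -, h3, -, h5⟩ := hn
    have := (dpow_pos B n (9 * w0)).ne'
    rw [h3]
    field_simp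
  refine ⟨base, hU.z0, hU.c0, hU.n0, hz0, hU.hz, ?_, ?_, ?_, ?_, ?_, ?_, ?_, ?_⟩
  · filter_upwards [hu, q4] with n hn h4
    have h1 : uz n = B.d n ^ w0 / ρ n (mm n 0) := by rw [hn.1, hρ]
    rw [h1, le_div_iff₀ (hρ0 n _)]
    exact mul_le_of_le_one_right (dpow_pos B n _).le h4.1
  · obtain ⟨C1, hC1⟩ := low
    refine ⟨C1 + 1 + |w0| + |9 * w0|, ?_⟩
    filter_upwards [hC1, hU.sc 0 1 one_pos, hU.sc 1 1 one_pos, hU.sc 17 1 one_pos]
      with n h1 h2 h3 h4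
    have main : ∀ (k : Fin 18) (x y : ℝ), 0 < x → y - 1 ≤ |w0| + |9 * w0| + 1 →
        -(|w0| + |9 * w0| + 1) ≤ y - 1 →
        x * sc k n ≤ B.d n ^ (y - 1) → x ≤ B0.d n ^ (-(C1 + 1 + |w0| + |9 * w0|)) := by
      intro k x y hx hy1 hy2 h
      have g1 : x * B0.d n ^ C1 ≤ B.d n ^ (y - 1) :=
        (mul_le_mul_of_nonneg_left (h1 k) hx.le).trans h
      have g2 : B.d n ^ (y - 1) ≤ B0.d n ^ (-(|w0| + |9 * w0| + 1)) := by
        refine (dpow_le B n hy2).trans ?_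
        exact Real.rpow_le_rpow_of_nonpos (B0.pos n) (base n) (by
          have := abs_nonneg w0; have := abs_nonneg (9 * w0); linarith)
      have g3 := mul_le_mul_of_nonneg_right (g1.trans g2) (dpow_pos B0 n (-C1)).le
      rw [mul_assoc, ← dpow_add, add_neg_cancel, Real.rpow_zero, mul_one, ← dpow_add] at g3
      refine g3.trans (le_of_eq ?_)
      congr 1; ring
    have a1 := abs_nonneg w0
    have a2 := le_abs_self w0
    have a3 := neg_abs_le w0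
    have b1 := abs_nonneg (9 * w0)
    have b2 := le_abs_self (9 * w0)
    have b3 := neg_abs_le (9 * w0)
    refine ⟨?_, ?_, ?_⟩
    · have h := h2.2
      rw [PrW464.unW_zero, show PrW464.wtR 0 * w0 = w0 by
        simp [PrW464.wtR, PrW464.grW, PrW464.wz, PrW464.wc, PrW464.wn]] at h
      exact main 0 _ w0 (hU.z0 n) (by linarith) (by linarith) h
    · have h := h3.2
      rw [show unW (uz n) (uc n) (un n) 1 = uc n by
        simp [unW, PrW464.wz, PrW464.wc, PrW464.wn], show PrW464.wtR 1 * w0 = w0 by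
        simp [PrW464.wtR, PrW464.grW, PrW464.wz, PrW464.wc, PrW464.wn]] at h
      exact main 1 _ w0 (hU.c0 n) (by linarith) (by linarith) h
    · have h := h4.2
      rw [show unW (uz n) (uc n) (un n) 17 = un n by
        simp [unW, PrW464.wz, PrW464.wc, PrW464.wn], show PrW464.wtR 17 * w0 = 9 * w0 by
        simp [PrW464.wtR, PrW464.grW, PrW464.wz, PrW464.wc, PrW464.wn]] at h
      exact main 17 _ (9 * w0) (hU.n0 n) (by linarith) (by linarith) h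
  · refine ⟨C + |2 * w0| + |9 * w0|, ?_⟩
    filter_upwards [e1, e3, q4, hu] with n g1 g3 h4 hn
    have main : ∀ x y z : ℝ, 0 < x → 0 < z → B.d n ^ y / x = z → z ≤ B0.d n ^ (-C) →
        y ≤ |2 * w0| + |9 * w0| → B0.d n ^ (C + |2 * w0| + |9 * w0|) ≤ x := by
      intro x y z hx hz h1 h2 h3
      have i1 : B.d n ^ y = z * x := by rw [← h1]; field_simp
      have i2 : B0.d n ^ (|2 * w0| + |9 * w0|) ≤ B.d n ^ y := by
        have hnn : 0 ≤ |2 * w0| + |9 * w0| := by positivity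
        refine (Real.rpow_le_rpow (B0.pos n).le (base n) hnn).trans ?_
        exact dpow_le B n h3
      have i3 : B0.d n ^ (|2 * w0| + |9 * w0|) ≤ B0.d n ^ (-C) * x := by
        rw [i1] at i2
        exact i2.trans (mul_le_mul_of_nonneg_right h2 hx.le)
      have i4 := mul_le_mul_of_nonneg_left i3 (dpow_pos B0 n C).le
      rw [← mul_assoc, ← dpow_add, ← dpow_add, add_neg_cancel, Real.rpow_zero, one_mul] at i4
      rwa [add_assoc]
    refine ⟨main _ (2 * w0) _ (mul_pos (hU.z0 n) (hU.c0 n)) hn.2.2.2.1 g1 h4.2.1 ?_,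
      main _ (9 * w0) _ (hU.n0 n) hn.2.2.2.2 g3 h4.2.2 ?_⟩
    · linarith [le_abs_self (2 * w0), abs_nonneg (9 * w0)]
    · linarith [le_abs_self (9 * w0), abs_nonneg (2 * w0)]
  · intro ε hε
    filter_upwards [e1, hQ.2 0 0 le_rfl zero_le_one ε hε] with n g1 h1
    rw [g1, hd]
    exact h1.2
  · intro ε hε
    filter_upwards [e2, hQ.2 1 0 le_rfl zero_le_one ε hε] with n g1 h1
    rw [g1, hd]
    exact h1.2
  · intro ε hε
    filter_upwards [e3, hQ.2 2 0 le_rfl zero_le_one ε hε] with n g1 h1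
    rw [g1, hd]
    exact h1.2
  · intro ε hε
    filter_upwards [hQ.2 3 0 le_rfl zero_le_one ε hε, hI] with n h1 hs x hx
    rw [hd, mul_neg]
    exact h1.2.1 x (hs hx)
  · intro ε hε
    filter_upwards [hQ.2 3 0 le_rfl zero_le_one ε hε, hI] with n h1 hs x hx
    rw [hd, mul_neg]
    exact h1.2.2 x (hs hx)

/-! ### the exponents -/

/-- the three sizes are ordered and above the resolution, up to `d^-ε` -/
structure OrdW (B : Base) (r0 : ℕ → ℝ) (lev : ℕ → ℚ → ℕ) (w : Fin 3 → ℕ → ℚ → ℝ) (w0 : ℝ)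
    (p : Fin 18 → ℝ) : Prop where
  ab : ∀ ε : ℝ, 0 < ε → ∀ᶠ n in (U : Filter ℕ), w 2 n 0 * B.d n ^ (p 3 - 3 * w0) ≤
    B.d n ^ (-ε) * (w 1 n 0 * B.d n ^ (p 2 - 2 * w0))
  res : ∀ ε : ℝ, 0 < ε → ∀ᶠ n in (U : Filter ℕ),
    r0 n ≤ B.d n ^ (-ε) * (w 0 n 0 * B.d n ^ (p 17 - 9 * w0))
  cap : ∃ δ : ℝ, 0 < δ ∧ ∀ᶠ n in (U : Filter ℕ),
    w 1 n 0 * B.d n ^ (p 2 - 2 * w0) ≤ rho (lev n 0) * B.d n ^ (p 0 - w0 + δ)

/-- **exponents of the boxes which are one sheet** -/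
def PDW (B : Base) (r0 : ℕ → ℝ) (lev : ℕ → ℚ → ℕ) (w : Fin 3 → ℕ → ℚ → ℝ) (w0 R : ℝ) :
    Set (Fin 18 → ℝ) :=
  {p | p ∈ Leg monW R ∧ w0 < p 0 ∧ p 0 ≤ w0 + 1 ∧ p 3 < 2 * p 2 - w0 ∧ OrdW B r0 lev w w0 p}


/-- **when is a box one sheet** -/
theorem mem_PDW {B : Base} {lev : ℕ → ℚ → ℕ} {w : Fin 3 → ℕ → ℚ → ℝ} {r0 : ℕ → ℝ} {w0 R : ℝ}
    {p : Fin 18 → ℝ} {cab cby cr cc : ℝ} (h : GeoQ186.W0 B r0 lev w cab cby cr cc)
    (hp : p ∈ Leg monW R) (hp0 : w0 < p 0) (hp1 : p 0 ≤ w0 + 1) (hp3 : p 3 < 2 * p 2 - w0)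
    (h1 : p 2 - 2 * w0 ≤ p 3 - 3 * w0 + cab) (h2 : p 17 - 9 * w0 ≤ cr)
    (h3 : p 0 - w0 < cc + (p 2 - 2 * w0)) : p ∈ PDW B r0 lev w w0 R := by
  have dpp := fun n a => Dp76.dpow_pos B n a
  refine ⟨hp, hp0, hp1, hp3, fun ε hε => ?_, fun ε hε => ?_, ?_⟩
  · filter_upwards [h.ab ε hε, h.pos 1] with n hn h0
    calc w 2 n 0 * B.d n ^ (p 3 - 3 * w0)
        ≤ (B.d n ^ (cab - ε) * w 1 n 0) * B.d n ^ (p 3 - 3 * w0) :=
          mul_le_mul_of_nonneg_right hn (dpp n _).le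
      _ = B.d n ^ (cab - ε + (p 3 - 3 * w0)) * w 1 n 0 := by rw [Dp76.dpow_add]; ring
      _ ≤ B.d n ^ (-ε + (p 2 - 2 * w0)) * w 1 n 0 :=
          mul_le_mul_of_nonneg_right (Dp76.dpow_le B n (by linarith)) h0.le
      _ = _ := by rw [Dp76.dpow_add]; ring
  · filter_upwards [h.res ε hε, h.pos 0] with n hn h0
    refine hn.trans ?_
    calc B.d n ^ (cr - ε) * w 0 n 0 ≤ B.d n ^ (-ε + (p 17 - 9 * w0)) * w 0 n 0 :=
          mul_le_mul_of_nonneg_right (Dp76.dpow_le B n (by linarith)) h0.le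
      _ = _ := by rw [Dp76.dpow_add]; ring
  · obtain ⟨δ, hδ⟩ : ∃ δ : ℝ, δ = (cc + (p 2 - 2 * w0) - (p 0 - w0)) / 2 := ⟨_, rfl⟩
    have hδ0 : 0 < δ := by rw [hδ]; linarith
    refine ⟨δ, hδ0, ?_⟩
    filter_upwards [h.cap δ hδ0] with n hn
    have hρ : 0 < rho (lev n 0) := rho_pos _
    calc w 1 n 0 * B.d n ^ (p 2 - 2 * w0)
        ≤ (B.d n ^ (cc - δ) * rho (lev n 0)) * B.d n ^ (p 2 - 2 * w0) :=
          mul_le_mul_of_nonneg_right hn (dpp n _).le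
      _ = rho (lev n 0) * B.d n ^ (cc - δ + (p 2 - 2 * w0)) := by rw [Dp76.dpow_add]; ring
      _ ≤ _ := mul_le_mul_of_nonneg_left (Dp76.dpow_le B n (by rw [hδ]; linarith)) hρ.le

/-! ### the geometry -/

/-- the geometry contains the sheets of the class `ShN` with sizes between `wr` and `cr` -/
structure SheetGeo {τ κ : Type*} (G : Geo τ κ) (L : ℕ → ℕ → Ln4) (r0 : ℕ → ℝ)
    (wr cr : Fin 3 → ℕ → ℝ) (q : Fin 3 → ℝ) : Prop where
  sheet : ∀ (n i : ℕ) (J : ℤ) (e : Fin 3 → V3) (c : Ln4) (w : V3) (F : ℝ → V3 → ℝ) (a : ℝ),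
    ShN e c w F a (zl i J) (rho i) (r0 n) → w 1 ≤ rho i →
    (∀ k : Fin 3, wr k n ≤ (![a, w 1, w 2] : Fin 3 → ℝ) k ∧
      (![a, w 1, w 2] : Fin 3 → ℝ) k ≤ cr k n) →
    ∃ s : τ, G.adm n i J s ∧ G.val n i J s = capQ q (rho i) ![a, w 1, w 2] ∧
      ∀ t, InSheet (L n t) e c w F a (zl i J) (rho i) → G.mem n i J s t

/-- the official geometry -/
theorem sheetGeo_geo4 (L : ℕ → ℕ → Ln4) (r0 : ℕ → ℝ) (wr cr : Fin 3 → ℕ → ℝ) (q : Fin 3 → ℝ) :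
    SheetGeo (Top484.geo4 L r0 wr cr q) L r0 wr cr q where
  sheet := fun n i J e c w F a h h1 hk =>
    ⟨⟨J, e, c, w, F, a⟩, ⟨h, h1, hk⟩, rfl, fun t ht => ht⟩

end Crest.Agent.R136.GeoN778
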