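import Crest.Agent.R136.Stc7_321
import Crest.Agent.R136.Own_650
import Crest.Agent.R136.ThnD_768
import Crest.Agent.R136.StcD_321
import Crest.Agent.R136.Stk1_464
import Crest.Agent.R136.Wcn2_464
import Crest.Agent.R136.Wcn3_464

-- ▼ part R136/Stc8_321
section

/-!
# R136, U6 thin side, stage C (helper321), part 8: size of the multiplier and of the curvature extent

`nu_good` : `WY / 8 ≤ |ν| ≤ 8 WY` from `Own` at level `0` and `Frm`; `ye_up`, `ye_low`.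
-/

set_option autoImplicit false
set_option linter.unusedVariables false

namespace Crest.Agent.R136.Stc321

open Crest.Agent.R136.Sh605
open Crest.Agent.R136.K4
open Crest.Agent.R136.NetW191
open Crest.Agent.R136.GeoN778
open Crest.Agent.R136.Wit321
open Crest.Agent.R136.Tl102 (QF Fq bz fan shB0 scB1 scG shG shB1 kap NrmC IsExp fr cmb StP OmB)
open Crest.Agent.R136.Thn768 (Own Snd Tay cr dtm nm D3 Frm exists_tay abs_dt_unit dt_frame)

section

variable {S : Plk4} {T : Ln4} {z0 ρ δ : ℝ} {b0 b1 : V3} {G : QF} {f : Fin 3 → V3} {c : Ln4} {u : Un}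
  {Q : Qd} {κ ν R η z1 : ℝ} {N R' : V3} {H : QF}

/-- the gradient along the line in the frame of the plank -/
theorem grad_plank (O : Own S T z0 ρ δ b0 b1 G) (hT : Tay S.q T N R' H) (ζ : ℝ) (y : V3) :
    dt (N + (z0 + ρ * ζ) • R') (cmb (fr S.e S.w) y) = S.w 0 * dt (bz b0 b1 ζ) y := by
  have key : ∀ y : V3, Fq N R' H (z0 + ρ * ζ) (cmb (fr S.e S.w) y) = S.w 0 * Fq b0 b1 G ζ y := by
    intro y
    have h1 := O.exp ζ y
    have h2 := hT (z0 + ρ * ζ) (cmb (fr S.e S.w) y)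
    linarith
  have h1 := key y
  have h2 := key (fun k => -y k)
  have e0 : cmb (fr S.e S.w) (fun k => -y k) = fun k => -cmb (fr S.e S.w) y k := by
    funext k; simp only [cmb]; ring
  rw [e0] at h2
  have e1 : ∀ x : V3, Fq N R' H (z0 + ρ * ζ) x = dt (N + (z0 + ρ * ζ) • R') x + H.ev x := by
    intro x
    simp only [Fq, dt, bz, Pi.add_apply, Pi.smul_apply, smul_eq_mul]
  have e2 : ∀ x : V3, dt (N + (z0 + ρ * ζ) • R') (fun k => -x k) =
      -dt (N + (z0 + ρ * ζ) • R') x := by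
    intro x; simp only [dt]; ring
  have e3 : ∀ x : V3, H.ev (fun k => -x k) = H.ev x := by
    intro x; simp only [QF.ev]; ring
  have e4 : Fq b0 b1 G ζ (fun k => -y k) = -dt (bz b0 b1 ζ) y + G.ev y := by
    simp only [Fq, dt, QF.ev]; ring
  have e5 : Fq b0 b1 G ζ y = dt (bz b0 b1 ζ) y + G.ev y := rfl
  rw [e1, e5] at h1
  rw [e1, e2, e3, e4] at h2
  linarith

/-- **size of the multiplier** -/
theorem nu_good (O : Own S T z0 ρ δ b0 b1 G) (hf : Ortho f) (hu : u.Ok) (hq : S.q = Q.ev)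
    {z : ℝ} (hz0 : z0 ≤ z) (hz1 : z ≤ z0 + ρ) (hF : Frm S T z f)
    (hN : Nr (hatQ f c u Q) (ul u (rl f c T)) (u.zh z) κ ν R η) (hη0 : 0 ≤ η) (hη : η ≤ 1 / 10) :
    u.WY / 8 ≤ |ν| ∧ |ν| ≤ 8 * u.WY := by
  have hY := hu.Y0
  have hρ := O.hρ
  have w0 := O.pos 0
  have w1 := O.pos 1
  have w2 := O.pos 2
  obtain ⟨N, R', H, hT⟩ := exists_tay (q := S.q) (by rw [hq]; exact Q.isQ) T
  set ζ := (z - z0) / ρ with hζ
  have ez : z0 + ρ * ζ = z := by rw [hζ]; field_simp; ring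
  have ζ0 : 0 ≤ ζ := div_nonneg (by linarith) hρ.le
  have ζ1 : ζ ≤ 1 := by rw [hζ, div_le_one hρ]; linarith
  set g := N + z • R' with hg
  have gp : ∀ y : V3, dt g (cmb (fr S.e S.w) y) = S.w 0 * dt (bz b0 b1 ζ) y := by
    intro y
    have := grad_plank O hT ζ y
    rwa [ez] at this
  -- components in the frame of the plank
  have k0 : dt g (S.e 0) = b0 0 + ζ * b1 0 := by
    have h := gp ![1, 0, 0]
    have e1 : dt g (cmb (fr S.e S.w) ![1, 0, 0]) = S.w 0 * dt g (S.e 0) := by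
      simp [dt, cmb, Tl102.fr]; ring
    have e2 : dt (bz b0 b1 ζ) ![1, 0, 0] = b0 0 + ζ * b1 0 := by simp [dt, bz]
    rw [e1, e2] at h
    exact mul_left_cancel₀ w0.ne' h
  have kk : ∀ {w a : ℝ}, 0 < w → S.w 0 ≤ w → w * dt g (S.e 1) = S.w 0 * a → |a| ≤ 1 →
      |dt g (S.e 1)| ≤ 1 := by
    intro w a hw hww h1 h2
    have : |w * dt g (S.e 1)| ≤ w * 1 := by
      rw [h1, abs_mul, abs_of_pos w0]
      exact mul_le_mul hww h2 (abs_nonneg _) hw.le
    rw [abs_mul, abs_of_pos hw] at this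
    exact le_of_mul_le_mul_left this hw
  have kk2 : ∀ {w a : ℝ}, 0 < w → S.w 0 ≤ w → w * dt g (S.e 2) = S.w 0 * a → |a| ≤ 1 →
      |dt g (S.e 2)| ≤ 1 := by
    intro w a hw hww h1 h2
    have : |w * dt g (S.e 2)| ≤ w * 1 := by
      rw [h1, abs_mul, abs_of_pos w0]
      exact mul_le_mul hww h2 (abs_nonneg _) hw.le
    rw [abs_mul, abs_of_pos hw] at this
    exact le_of_mul_le_mul_left this hw
  have conv : ∀ {a b : ℝ}, |a| ≤ 1 → |a + b| ≤ 1 → |a + ζ * b| ≤ 1 := by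
    intro a b h1 h2
    have e : a + ζ * b = (1 - ζ) * a + ζ * (a + b) := by ring
    rw [e]
    have i1 : |1 - ζ| ≤ 1 - ζ := by rw [abs_of_nonneg (by linarith)]
    have i2 : |ζ| ≤ ζ := (abs_of_nonneg ζ0).le
    refine (a2 (m2 i1 h1) (m2 i2 h2)).trans (le_of_eq (by ring))
  have k1 : |dt g (S.e 1)| ≤ 1 := by
    have h := gp ![0, 1, 0]
    have e1 : dt g (cmb (fr S.e S.w) ![0, 1, 0]) = S.w 1 * dt g (S.e 1) := by
      simp [dt, cmb, Tl102.fr]; ring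
    have e2 : dt (bz b0 b1 ζ) ![0, 1, 0] = b0 1 + ζ * b1 1 := by simp [dt, bz]
    rw [e1, e2] at h
    exact kk w1 (O.w02.trans O.w21) h (conv O.nrm.b01 O.nrm.b11)
  have k2 : |dt g (S.e 2)| ≤ 1 := by
    have h := gp ![0, 0, 1]
    have e1 : dt g (cmb (fr S.e S.w) ![0, 0, 1]) = S.w 2 * dt g (S.e 2) := by
      simp [dt, cmb, Tl102.fr]; ring
    have e2 : dt (bz b0 b1 ζ) ![0, 0, 1] = b0 2 + ζ * b1 2 := by simp [dt, bz]
    rw [e1, e2] at h
    exact kk2 w2 O.w02 h (conv O.nrm.b02 O.nrm.b12)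
  have s0 := O.nrm.st ζ ζ0 ζ1 0 0 0 (by simp) (by simp) (by simp)
  simp only [mul_zero, add_zero] at s0
  rw [← k0] at s0
  -- the norm in both frames
  have cm : ∀ i, dt (S.e i) g = dt g (S.e i) := fun i => by simp only [dt]; ring
  have cf : ∀ i, dt (f i) g = dt g (f i) := fun i => by simp only [dt]; ring
  have n1 := dt_frame O.ortho g g
  have n2 := dt_frame hf g g
  rw [cm, cm, cm] at n1
  rw [cf, cf, cf] at n2
  obtain ⟨f1, f2, -, -⟩ := hF N R' H hT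
  rw [← hg] at f1 f2
  set x0 := dt g (f 0) with hx0
  have q1 : dt g (f 1) * dt g (f 1) ≤ x0 * x0 / 100 := by
    have := mul_le_mul f1 f1 (abs_nonneg _) (by positivity)
    rw [← abs_mul, abs_mul_self] at this
    refine this.trans (le_of_eq ?_)
    have e : |x0| / 10 * (|x0| / 10) = |x0| * |x0| / 100 := by ring
    rw [e, abs_mul_abs_self]
  have q2 : dt g (f 2) * dt g (f 2) ≤ x0 * x0 / 100 := by
    have := mul_le_mul f2 f2 (abs_nonneg _) (by positivity)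
    rw [← abs_mul, abs_mul_self] at this
    refine this.trans (le_of_eq ?_)
    have e : |x0| / 10 * (|x0| / 10) = |x0| * |x0| / 100 := by ring
    rw [e, abs_mul_abs_self]
  have r1 : dt g (S.e 1) * dt g (S.e 1) ≤ 1 := by
    have := mul_le_mul k1 k1 (abs_nonneg _) zero_le_one
    rw [← abs_mul, abs_mul_self] at this; linarith
  have r2 : dt g (S.e 2) * dt g (S.e 2) ≤ 1 := by
    have := mul_le_mul k2 k2 (abs_nonneg _) zero_le_one
    rw [← abs_mul, abs_mul_self] at this; linarith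
  have v1 := mul_self_nonneg (dt g (S.e 1))
  have v2 := mul_self_nonneg (dt g (S.e 2))
  have v3 := mul_self_nonneg (dt g (f 1))
  have v4 := mul_self_nonneg (dt g (f 2))
  have v5 := s0.1
  have v6 := s0.2
  have v7 : 1 / 4 ≤ dt g (S.e 0) * dt g (S.e 0) := by nlinarith
  have v8 : dt g (S.e 0) * dt g (S.e 0) ≤ 4 := by nlinarith
  have lo : 1 / 5 ≤ x0 * x0 := by linarith
  have hi : x0 * x0 ≤ 6 := by linarith
  have hxa : |x0| * |x0| = x0 * x0 := abs_mul_abs_self x0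
  have hx0' := abs_nonneg x0
  have lo' : 2 / 5 ≤ |x0| := by
    by_contra hn
    push Not at hn
    have := mul_lt_mul'' hn hn hx0' hx0'
    rw [hxa] at this
    linarith
  have hi' : |x0| ≤ 5 / 2 := by
    by_contra hn
    push Not at hn
    have := mul_lt_mul'' hn hn (by norm_num) (by norm_num)
    rw [hxa] at this
    linarith
  -- container coordinates
  have hTQ : Tay Q.ev T N R' H := by rw [← hq]; exact hT
  have h1 := (tay_hat (c := c) hf hu hTQ z ![1, 0, 0]).1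
  have e1 : dt (N + z • R') (cmb (fW f u) ![1, 0, 0]) = u.WY * x0 := by
    have W0 : u.W 0 = u.WY := rfl
    simp [dt, cmb, fW, hx0, hg, W0]; ring
  have e2 : ∀ a : V3, dt a ![1, 0, 0] = a 0 := by intro a; simp [dt]
  rw [e1, e2] at h1
  have h2 := hN.g0
  rw [← h1] at h2
  have hν := abs_nonneg ν
  have t1 : |u.WY * x0| ≤ |ν| * (11 / 10) := by
    have e : u.WY * x0 = (u.WY * x0 - ν) + ν := by ring
    rw [e]
    refine (a2 h2 le_rfl).trans ?_
    have := mul_le_mul_of_nonneg_left hη hν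
    linarith
  have t2 : |ν| ≤ |u.WY * x0| + |ν| * (1 / 10) := by
    have e : ν = u.WY * x0 - (u.WY * x0 - ν) := by ring
    have := s2 (le_refl |u.WY * x0|) h2
    rw [← e] at this
    have := mul_le_mul_of_nonneg_left hη hν
    linarith
  rw [abs_mul, abs_of_pos hY] at t1 t2
  have t3 := mul_le_mul_of_nonneg_left lo' hY.le
  have t4 := mul_le_mul_of_nonneg_left hi' hY.le
  constructor <;> linarith

/-- upper bound of the curvature extent -/
theorem ye_up (O : Own S T z0 ρ δ b0 b1 G) {X : ℝ} (hS : Snd S T z0 ρ b0 b1 G X Q.ev N R' H)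
    (hδ1 : δ ≤ 1) (hX : X ≤ δ / 10 ^ 9) (hf : Ortho f) (hu : u.Ok)
    (hN : Nr (hatQ f c u Q) (ul u (rl f c T)) z1 κ ν R η) (hκ1 : |κ| ≤ 1) (hκ2 : 1 / 5 ≤ |κ|)
    (hR : 1 ≤ R) (hv : |(ul u (rl f c T)).v 1| ≤ R) (hη0 : 0 ≤ η) (hs : 6000 * (η * R ^ 4) ≤ 1)
    (hν1 : u.WY / 8 ≤ |ν|) (hν2 : |ν| ≤ 8 * u.WY) :
    δ * (S.w 0 * kap b0 b1 G) ≤ 10 ^ 18 * (u.WY * (S.w 1 / u.WA) ^ 2) := by
  have hY := hu.Y0
  have hA := hu.A0
  have hB := hu.B0
  have hH := hu.H0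
  have hρ := O.hρ
  have w1 := O.pos 1
  have w2 := O.pos 2
  have hν : 0 < |ν| := by linarith
  have c1 := hN.crs_le hκ1 hR hv hη0 (by linarith)
  have c2 := hN.crs_ge hκ1 hR hv hη0 (by linarith)
  have e1 := D3_hat (c := c) hf hu hS.tay z1
  have e2 := Om_hat (c := c) hf hu hS.tay z1
  have k1 := (hS.D O hX hδ1).1
  have k2 := hS.om_le O (by linarith)
  have hYe := O.Ye0
  have om := abs_dt_unit hf 1 (cr N R')
  have := Y_up (P := ρ * (S.w 1 * S.w 2)) (C := 10 ^ 5) (δ := δ)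
    (Ye := S.w 0 * kap b0 b1 G) (w1 := S.w 1) (D := D3 N R' H) (Om := dt (f 1) (cr N R')) hν hH hY
    hA hB (by norm_num) hYe w1.le (by positivity)
    (by rw [e1, abs_mul, abs_of_nonneg (sq_nonneg _)]) e2 c1 c2.1
    (by
      refine k1.trans ?_
      have : 0 ≤ |D3 N R' H| * (ρ * (S.w 1 * S.w 2)) ^ 2 := by positivity
      linarith)
    (by
      refine le_trans ?_ k2
      exact mul_le_mul_of_nonneg_right om (by positivity))
  refine this.trans ?_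
  have h3 : 0 ≤ (S.w 1 / u.WA) ^ 2 := sq_nonneg _
  have h4 := mul_le_mul_of_nonneg_right hν2 h3
  have h5 : 0 ≤ u.WY * (S.w 1 / u.WA) ^ 2 := by positivity
  calc 104 * (10 ^ 5 : ℝ) ^ 3 * (|ν| * (S.w 1 / u.WA) ^ 2) ≤
        104 * (10 ^ 5 : ℝ) ^ 3 * (8 * u.WY * (S.w 1 / u.WA) ^ 2) :=
        mul_le_mul_of_nonneg_left h4 (by norm_num)
    _ ≤ _ := by
        have e : 104 * (10 ^ 5 : ℝ) ^ 3 * (8 * u.WY * (S.w 1 / u.WA) ^ 2) =
          832 * 10 ^ 15 * (u.WY * (S.w 1 / u.WA) ^ 2) := by ring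
        rw [e]
        exact mul_le_mul_of_nonneg_right (by norm_num) h5

/-- lower bound of the curvature extent -/
theorem ye_low (O : Own S T z0 ρ δ b0 b1 G) {X : ℝ} (hS : Snd S T z0 ρ b0 b1 G X Q.ev N R' H)
    (hδ1 : δ ≤ 1) (hX : X ≤ δ / 10 ^ 9) (hf : Ortho f) (hu : u.Ok)
    (hN : Nr (hatQ f c u Q) (ul u (rl f c T)) z1 κ ν R η) (hκ1 : |κ| ≤ 1) (hκ2 : 1 / 5 ≤ |κ|)
    (hR : 1 ≤ R) (hv : |(ul u (rl f c T)).v 1| ≤ R) (hη0 : 0 ≤ η) (hs : 6000 * (η * R ^ 4) ≤ 1)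
    (hν1 : u.WY / 8 ≤ |ν|) {b : ℝ} (hb0 : 0 < b)
    (hb : b * (S.w 1 / u.WA) ^ 2 ≤ ρ / u.H * (S.w 2 / u.WB)) :
    b ^ 2 * (u.WY * (S.w 1 / u.WA) ^ 2) ^ 3 ≤ 10 ^ 17 * (S.w 0 * kap b0 b1 G) ^ 3 := by
  have hY := hu.Y0
  have hA := hu.A0
  have hB := hu.B0
  have hH := hu.H0
  have hρ := O.hρ
  have w1 := O.pos 1
  have w2 := O.pos 2
  have hν : 0 < |ν| := by linarith
  have c2 := hN.crs_ge hκ1 hR hv hη0 (by linarith)
  have e1 := D3_hat (c := c) hf hu hS.tay z1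
  have k1 := (hS.D O hX hδ1).2
  have h := Y_low (ρ := ρ) (w1 := S.w 1) (w2 := S.w 2) (C := 10 ^ 10) (κ := |κ|)
    (Ye := S.w 0 * kap b0 b1 G) (D := D3 N R' H) hν hH hY hA hB (by norm_num)
    (by rw [e1, abs_mul, abs_of_nonneg (sq_nonneg _)]) c2.2 k1
  set A := S.w 1 / u.WA with hAd
  set Bd := S.w 2 / u.WB with hBd
  have hA0 : 0 < A := by positivity
  have eAB : S.w 1 * S.w 2 / (u.WA * u.WB) = A * Bd := by rw [hAd, hBd]; field_simp
  rw [eAB] at h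
  have p1 : (1 / 8 : ℝ) ≤ |ν| / u.WY := by rw [le_div_iff₀ hY]; linarith
  have p2 : (1 / 64 : ℝ) ≤ (|ν| / u.WY) ^ 2 := by
    have := pow_le_pow_left₀ (by norm_num) p1 2
    norm_num at this ⊢; exact this
  have p3 : u.WY ^ 3 / 512 ≤ |ν| ^ 3 := by
    have := pow_le_pow_left₀ (by positivity) hν1 3
    refine le_trans (le_of_eq (by ring)) this
  have p4 : b * A ^ 3 ≤ ρ / u.H * (A * Bd) := by
    have := mul_le_mul_of_nonneg_right hb hA0.le
    refine le_trans (le_of_eq (by ring)) (this.trans (le_of_eq (by ring)))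
  have p5 : b ^ 2 * A ^ 6 ≤ (ρ / u.H * (A * Bd)) ^ 2 := by
    have := pow_le_pow_left₀ (by positivity) p4 2
    refine le_trans (le_of_eq (by ring)) this
  have p6 : (1 / 5 / (8 * 10 ^ 10) : ℝ) ≤ |κ| / (8 * 10 ^ 10) :=
    div_le_div_of_nonneg_right hκ2 (by norm_num)
  have p7 : 1 / 5 / (8 * 10 ^ 10) * (1 / 64) * (b ^ 2 * A ^ 6) * (u.WY ^ 3 / 512) ≤
      |κ| / (8 * 10 ^ 10) * (|ν| / u.WY) ^ 2 * (ρ / u.H * (A * Bd)) ^ 2 * |ν| ^ 3 := by
    refine mul_le_mul (mul_le_mul (mul_le_mul p6 p2 (by norm_num) (by positivity)) p5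
      (by positivity) (by positivity)) p3 (by positivity) (by positivity)
  have p8 := p7.trans h
  have hp : 0 ≤ b ^ 2 * (u.WY * A ^ 2) ^ 3 := by positivity
  have e3 : 1 / 5 / (8 * 10 ^ 10) * (1 / 64) * (b ^ 2 * A ^ 6) * (u.WY ^ 3 / 512) =
      1 / 5 / (8 * 10 ^ 10) * (1 / 64) * (1 / 512) * (b ^ 2 * (u.WY * A ^ 2) ^ 3) := by ring
  rw [e3] at p8
  have p9 : (1 : ℝ) / 10 ^ 17 ≤ 1 / 5 / (8 * 10 ^ 10) * (1 / 64) * (1 / 512) := by norm_num
  have p10 := (mul_le_mul_of_nonneg_right p9 hp).trans p8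
  have : b ^ 2 * (u.WY * A ^ 2) ^ 3 = 10 ^ 17 * (1 / 10 ^ 17 * (b ^ 2 * (u.WY * A ^ 2) ^ 3)) := by
    ring
  rw [this]
  exact mul_le_mul_of_nonneg_left p10 (by norm_num)

end

end Crest.Agent.R136.Stc321
end

-- ▼ part R136/StcL_321
section

/-!
# R136, U6 thin side, stage C (helper321): the data of the level `v` mark of a good incidence

`LvD D K n v x δ R η`.
-/

set_option autoImplicit false
set_option linter.unusedVariables false

open Finset Filter Topology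

namespace Crest.Agent.R136.Stc321

open Crest.Agent.R136.Sh605
open Crest.Agent.R136.K4
open Crest.Agent.R136.NetW191
open Crest.Agent.R136.GeoN778
open Crest.Agent.R136.Wit321
open Crest.Agent.R136.Top484
open Crest.Agent.R136.Tlt51 (Close mk4 zx rh)
open Crest.Agent.R136.Tl102 (QF kap IsExp OmB)
open Crest.Agent.R136.Thn768 (Own)

/-- **data of the level `v` mark of an incidence, in container coordinates** -/
structure LvD (D : Dat4) (K : ℕ → CtD) (n : ℕ) (v : ℚ) (x : ℕ × ℝ) (δ R η : ℝ) : Prop where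
  ex : ∃ (b0 b1 : V3) (G : QF) (b0p b1p : V3) (Gp : QF),
    Own (mk4 D n v x) (D.L n x.1) (zx D n v x) (rh D n v) δ b0 b1 G ∧
    IsExp (qdOf (mk4 D n 0 x).q).ev (mk4 D n v x).e (mk4 D n v x).w (D.L n x.1) (zx D n v x)
      (rh D n v) b0p b1p Gp ∧
    1 / 16 ≤ |b0p 0 / b0 0| ∧ |b0p 0 / b0 0| ≤ 16 ∧
    OmB (kap b0 b1 G) η η η b0 b1 G b0p b1p Gp ∧
    (K n).u.WY / 8 ≤ |((K n).Q (mk4 D n 0 x).q).b 0| ∧
    |((K n).Q (mk4 D n 0 x).q).b 0| ≤ 8 * (K n).u.WY ∧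
    Nr ((K n).Qh (mk4 D n 0 x).q) ((K n).t (D.L n x.1)) ((K n).u.zh (zx D n v x)) (K n).κ
      (((K n).Q (mk4 D n 0 x).q).b 0) R η ∧
    Bas (fun k => ((K n).Qh (mk4 D n 0 x).q).gr ((K n).u.zh (zx D n v x))
        (((K n).t (D.L n x.1)).pos ((K n).u.zh (zx D n v x))) k / ((K n).Q (mk4 D n 0 x).q).b 0)
      (fun k => gd ((K n).Qh (mk4 D n 0 x).q) ((K n).t (D.L n x.1)) k /
        ((K n).Q (mk4 D n 0 x).q).b 0)
      (φb (K n).f (K n).u (mk4 D n v x).e (mk4 D n v x).w (kap b0 b1 G) b0) (K n).κ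
      (((K n).t (D.L n x.1)).v 1) R η (rh D n v / (K n).u.H)
      ((mk4 D n v x).w 0 * kap b0 b1 G / |((K n).Q (mk4 D n 0 x).q).b 0|) η
      ((mk4 D n v x).w 1 / (K n).u.WA) ((mk4 D n v x).w 2 / (K n).u.WA)
      ((mk4 D n v x).w 1 / (K n).u.WA * ((mk4 D n v x).w 2 / (K n).u.WB)) ∧
    δ * ((mk4 D n v x).w 0 * kap b0 b1 G) ≤
      (K n).u.WY * ((mk4 D n v x).w 1 / (K n).u.WA) ^ 2 ∧
    δ * ((K n).u.WY * ((mk4 D n v x).w 1 / (K n).u.WA) ^ 2) ≤
      (mk4 D n v x).w 0 * kap b0 b1 G ∧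
    (∀ k, |((K n).t (D.L n x.1)).p k| ≤ R ∧ |((K n).t (D.L n x.1)).v k| ≤ R) ∧
    |(K n).u.zh (zx D n v x)| ≤ 1 ∧
    ∃ X : ℝ, 0 ≤ X ∧ X ≤ η ∧ (mk4 D n v x).w 0 * kap b0 b1 G * X ≤ R * D.w 0 n 0 ∧
      OmB (kap b0 b1 G) X X X b0 b1 G b0p b1p Gp

end Crest.Agent.R136.Stc321
end

-- ▼ part R136/Stk2_464
section

/-!
# R136, U6 thin side, stage C (helper464): data of the container, part 2

`StcK p D K x0` : the fields of 321's `StcA` which belong to the container (all but `mate`, `Mb`,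
`thick`, `lat`, `clw`) and the container itself (`cont`); `exists_stk` : `ThinW ⊢ ∃ K x0, StcK`.
-/

set_option autoImplicit false
set_option linter.unusedVariables false

open Finset Filter Topology

namespace Crest.Agent.R136.Stk464

open Crest.Agent.R138
open Crest.Agent.R138.Ex926 (Base U)
open Crest.Agent.R138.Dp76 (dpow_pos dpow_add dpow_le dpow_le_one)
open Crest.Agent.R138.ArgM163 (ev_const)
open Crest.Agent.R138.Mk163 (zc zl rho alive)
open Crest.Agent.R138.MkRef627 (lc kc mem_alive)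
open Crest.Agent.R136.MkA627
open Crest.Agent.R136.Sh605
open Crest.Agent.R136.NetW191
open Crest.Agent.R136.GeoN778
open Crest.Agent.R136.Wit321
open Crest.Agent.R136.Top484
open Crest.Agent.R136.Stc321
open Crest.Agent.R136.Tl102 (QF kap)
open Crest.Agent.R136.Tlt51 (Close mk4 zx rh Shp InP)
open Crest.Agent.R136.KapP335 (kapP DetP kapP_eq)
open Crest.Agent.R136.Fw650 (z0N zhN rhN)
open Crest.Agent.R136.Thn768 (ThinW Frm Cont Own Snd Tay D3 nm cr exists_tay abs_dt_unit)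
open Crest.Agent.R136.TL650 (own_of)

/-- **data of the container** : fields of `StcA` -/
structure StcK (p : Par4) (D : Dat4) (K : ℕ → CtD) (x0 : ℕ → ℕ × ℝ) : Prop where
  kp1 : ∀ n, |(K n).κ| ≤ 1
  σ0 : ∀ n, 0 < (K n).σ
  ok : ∀ n, (K n).u.Ok
  ortho : ∀ n, Ortho (K n).f
  kp0 : ∀ᶠ n in (U : Filter ℕ), 1 / 5 ≤ |(K n).κ|
  sm : ∀ M : ℝ, ∀ᶠ n in (U : Filter ℕ), (K n).P.Sm (D.B.d n ^ M)
  σs : ∀ M : ℝ, ∀ᶠ n in (U : Filter ℕ), (K n).σ ≤ D.B.d n ^ M
  YB : ∀ M : ℝ, ∀ᶠ n in (U : Filter ℕ), (K n).u.WY ≤ D.B.d n ^ M * (K n).u.WB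
  BA : ∀ M : ℝ, ∀ᶠ n in (U : Filter ℕ), (K n).u.WB ≤ D.B.d n ^ M * (K n).u.WA
  σw : ∀ᶠ n in (U : Filter ℕ), (K n).u.WY * (K n).σ = D.w 0 n 0
  H : ∀ᶠ n in (U : Filter ℕ), (K n).u.H = 2 * rho (D.lev n 0)
  zcc : ∀ᶠ n in (U : Filter ℕ), ∀ x ∈ D.I n, (K n).u.zc = zx D n 0 x + rho (D.lev n 0) / 2
  wid : ∀ ε : ℝ, 0 < ε → ∀ᶠ n in (U : Filter ℕ),
    D.B.d n ^ ε * (K n).u.WA ≤ D.w 1 n 0 ∧ D.w 1 n 0 ≤ D.B.d n ^ (-ε) * (K n).u.WA ∧
    D.B.d n ^ ε * (K n).u.WB ≤ D.w 2 n 0 ∧ D.w 2 n 0 ≤ D.B.d n ^ (-ε) * (K n).u.WB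
  frm : ∀ᶠ n in (U : Filter ℕ), ∀ x ∈ D.I n, Frm (mk4 D n 0 x) (D.L n x.1) x.2 (K n).f
  cen : ∀ᶠ n in (U : Filter ℕ), x0 n ∈ D.I n
  cenG : ∃ C : ℝ, ∀ᶠ n in (U : Filter ℕ), Gd D K C n (x0 n)
  bal : ∀ v : ℚ, 0 ≤ v → v ≤ 1 → ∀ ε : ℝ, 0 < ε → ∀ᶠ n in (U : Filter ℕ),
    D.w 2 n v ≤ (K n).u.WB * (wBS D K n v * D.B.d n ^ (-ε)) ∧
      (K n).u.WB * wBS D K n v ≤ D.w 2 n v * D.B.d n ^ (-ε)
  /-- the container is the level-`0` mark of `x0` -/
  cont : ∃ η : ℕ → ℝ, (∀ M : ℝ, ∀ᶠ n in (U : Filter ℕ), η n ≤ D.B.d n ^ M) ∧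
    ∀ᶠ n in (U : Filter ℕ),
      Cont (mk4 D n 0 (x0 n)) (D.L n (x0 n).1) (zx D n 0 (x0 n)) (rh D n 0) (K n).f (K n).u
        (qdOf (mk4 D n 0 (x0 n)).q) (η n) ∧
      (K n).c = D.L n (x0 n).1 ∧
      (K n).P = (wqOf (hatQ (K n).f (K n).c (K n).u (qdOf (mk4 D n 0 (x0 n)).q))).pj ∧
      (K n).κ = (wqOf (hatQ (K n).f (K n).c (K n).u (qdOf (mk4 D n 0 (x0 n)).q))).κ'


/-! ### the thickness in units of the container -/

theorem shp_self {S : K4.Plk4} {z0 ρ r : ℝ} (h : Shp S z0 ρ r) : Shp S z0 ρ S.a :=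
  { ortho := h.ortho
    isQ := h.isQ
    a_le0 := h.a_le0
    w0_le := h.w0_le
    w_le := h.w_le
    r0_le := le_rfl
    st0 := h.st0
    sl1 := h.sl1
    sl2 := h.sl2 }

/-- curvature extent of the container -/
theorem ext_num {S : K4.Plk4} {T : Ln4} {z0 ρ η δ : ℝ} {b0 b1 : V3} {G : QF} {f : Fin 3 → V3}
    {u : Un} {Q : Qd} (O : Own S T z0 ρ δ b0 b1 G) (hδ1 : δ ≤ 1) (hC : Cont S T z0 ρ f u Q η)
    (hη : η ≤ 1 / 4) :
    δ * (S.w 0 * kap b0 b1 G) ≤ 10 ^ 18 * (u.WY * (S.w 1 / u.WA) ^ 2) := by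
  obtain ⟨N, R, H, hT⟩ := exists_tay (q := S.q) (by rw [hC.q]; exact Q.isQ) T
  have hT' : Tay Q.ev T N R H := by rw [← hC.q]; exact hT
  have hY := hC.ok.Y0
  have hA := hC.ok.A0
  have hB := hC.ok.B0
  have hν : (hatQ f T u Q).b 0 ≠ 0 := by
    intro e
    have := hC.b0.1
    rw [e, abs_zero] at this
    linarith
  have hS := O.snd hT
  have d1 := (hS.D O (div_nonneg O.δ0.le (by norm_num)) hδ1).1
  have d2 := hS.om_le O zero_le_one
  have e1 := D3_hat (c := T) hC.ortho hC.ok hT' 0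
  have e2 := Om_hat (c := T) hC.ortho hC.ok hT' 0
  rw [ul_self] at e1 e2
  have e3 := hes_cont hν hC.b1 hC.b2 hC.d2
  have e4 := crs_cont hC.b1 hC.b2 hC.d2
  have w1 := O.pos 1
  have w2 := O.pos 2
  have hρ := O.hρ
  have hκ : |(wqOf (hatQ f T u Q)).κ'| ≤ 1 := by
    have k1 := hC.sm.kap (by linarith)
    have k2 := hC.kap.2
    have e : (wqOf (hatQ f T u Q)).κ' = ((wqOf (hatQ f T u Q)).κ' - (wqOf (hatQ f T u Q)).κ) +
      (wqOf (hatQ f T u Q)).κ := by ring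
    rw [e]
    refine (abs_add_le _ _).trans ?_
    linarith
  have key := Y_up (ν := (hatQ f T u Q).b 0) (H := u.H) (WY := u.WY) (WA := u.WA) (WB := u.WB)
    (P := ρ * (S.w 1 * S.w 2)) (C := 10 ^ 5) (δ := δ) (Ye := S.w 0 * kap b0 b1 G) (w1 := S.w 1)
    (D := D3 N R H) (Om := dt (f 1) (cr N R))
    (h := hes (hatQ f T u Q) (crs (gd (hatQ f T u Q) ⟨fun _ => 0, fun _ => 0⟩)
      ((hatQ f T u Q).gr 0 ((⟨fun _ => 0, fun _ => 0⟩ : Ln4).pos 0))))
    (cr1 := crs (gd (hatQ f T u Q) ⟨fun _ => 0, fun _ => 0⟩)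
      ((hatQ f T u Q).gr 0 ((⟨fun _ => 0, fun _ => 0⟩ : Ln4).pos 0)) 1)
    (abs_pos.2 hν) hC.ok.H0 hY hA hB (by positivity) O.Ye0 w1.le (by positivity) ?_ e2 ?_ ?_ ?_ ?_
  · refine key.trans ?_
    have h4 := hC.b0.2
    have h5 : 0 ≤ (S.w 1 / u.WA) ^ 2 := by positivity
    calc 104 * ((10 : ℝ) ^ 5) ^ 3 * (|(hatQ f T u Q).b 0| * (S.w 1 / u.WA) ^ 2)
        ≤ 104 * ((10 : ℝ) ^ 5) ^ 3 * ((4 * u.WY) * (S.w 1 / u.WA) ^ 2) := by
          refine mul_le_mul_of_nonneg_left (mul_le_mul_of_nonneg_right h4 h5) (by positivity)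
      _ ≤ 10 ^ 18 * (u.WY * (S.w 1 / u.WA) ^ 2) := by
          have : 0 ≤ u.WY * (S.w 1 / u.WA) ^ 2 := by positivity
          nlinarith
  · rw [e1, abs_mul, abs_of_nonneg (by positivity)]
  · rw [e3, abs_neg, abs_mul, abs_pow]
    have : 0 ≤ |(hatQ f T u Q).b 0| ^ 5 := by positivity
    nlinarith
  · rw [e4]
    simp only [Matrix.cons_val]
    rw [abs_neg, abs_pow]
    have : 0 ≤ |(hatQ f T u Q).b 0| ^ 2 := by positivity
    linarith
  · refine d1.trans ?_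
    have : 0 ≤ |D3 N R H| * (ρ * (S.w 1 * S.w 2)) ^ 2 := by positivity
    linarith
  · refine le_trans ?_ d2
    exact mul_le_mul_of_nonneg_right (abs_dt_unit hC.ortho 1 _) (by positivity)

section

variable {p : Par4} {D : Dat4}

/-- marks of the incidences -/
theorem mk_facts {p : Par4} {D : Dat4} (mka : MkA D.B D.I (D.G p) D.lev D.A (fun v => p.g * v)
    (fun v => 0 * v) (fun j v => p.θ j * (1 - v)) D.f D.b D.vm D.w) {v : ℚ} (h0 : 0 ≤ v)
    (h1 : v ≤ 1) : ∀ᶠ n in (U : Filter ℕ), 0 < D.w 0 n v ∧ ∀ x ∈ D.I n,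
      InP (D.L n x.1) (mk4 D n v x) (zx D n v x) (rh D n v) ∧
      Shp (mk4 D n v x) (zx D n v x) (rh D n v) (mk4 D n v x).a ∧
      (mk4 D n v x).a = D.w 0 n v ∧ (mk4 D n v x).w 1 = D.w 1 n v ∧
        (mk4 D n v x).w 2 = D.w 2 n v := by
  filter_upwards [mka.mark v h0 h1, mka.wpos 0 v h0 h1] with n a1 a2
  refine ⟨a2, fun x hx => ?_⟩
  obtain ⟨m1, m2, m3, m4⟩ := a1 (zc (D.lev n v) x.2) x.1 (mem_alive.2 ⟨x, hx, rfl, rfl⟩)
  exact ⟨m1, shp_self m2.1, m4 0, m4 1, m4 2⟩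

theorem rho_pos' (m : ℕ) : 0 < rho m := by unfold rho; positivity

/-- **the thickness is infinitely small in units of the container** -/
theorem sig_le (h : ThinW p D) {x0 : ℕ → ℕ × ℝ} {f : ℕ → Fin 3 → V3} {u : ℕ → Un} {Q : ℕ → Qd}
    {η : ℕ → ℝ} (hc : ∀ᶠ n in (U : Filter ℕ), x0 n ∈ D.I n ∧
      Cont (mk4 D n 0 (x0 n)) (D.L n (x0 n).1) (zx D n 0 (x0 n)) (rh D n 0) (f n) (u n) (Q n)
        (η n)) (hη : ∀ M : ℝ, ∀ᶠ n in (U : Filter ℕ), η n ≤ D.B.d n ^ M)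
    (hw : ∀ ε : ℝ, 0 < ε → ∀ᶠ n in (U : Filter ℕ),
      D.B.d n ^ ε * (u n).WA ≤ D.w 1 n 0 ∧ D.w 1 n 0 ≤ D.B.d n ^ (-ε) * (u n).WA ∧
      D.B.d n ^ ε * (u n).WB ≤ D.w 2 n 0 ∧ D.w 2 n 0 ≤ D.B.d n ^ (-ε) * (u n).WB) (M : ℝ) :
    ∀ᶠ n in (U : Filter ℕ), D.w 0 n 0 ≤ D.B.d n ^ M * (u n).WY := by
  filter_upwards [hc, hη 1, hw 1 one_pos, h.thin 0 le_rfl zero_le_one (M + 4),
    h.nd 0 le_rfl zero_le_one 1 one_pos, mk_facts h.mka le_rfl zero_le_one,
    ev_const D.B (C := 10 ^ 18) (by norm_num) one_pos, ev_const D.B (C := 4) (by norm_num) one_pos]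
    with n a1 a2 a3 a4 a5 a6 a7 a8
  obtain ⟨hx, hC⟩ := a1
  obtain ⟨m0, m⟩ := a6
  obtain ⟨m1, m2, m3, m4, m5⟩ := m _ hx
  have dp := dpow_pos D.B n
  have ha : 0 < (mk4 D n 0 (x0 n)).a := by rw [m3]; exact m0
  obtain ⟨b0, b1, G, O⟩ := own_of m2 ha m1 (rho_pos' _) (dp 1) (a5 _ hx)
  have hd1 : D.B.d n ^ (1 : ℝ) ≤ 1 := dpow_le_one D.B n zero_le_one
  have hη4 : η n ≤ 1 / 4 := by
    refine a2.trans ?_
    have e : D.B.d n ^ (1 : ℝ) * D.B.d n ^ (-(1 : ℝ)) = 1 := by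
      rw [← dpow_add]; simp
    have := mul_le_mul_of_nonneg_left a8 (dp 1).le
    linarith
  have k1 := ext_num O hd1 hC hη4
  have k2 := a4 _ hx
  rw [kapP_eq (O.pos 0).ne' O.exp] at k2
  rw [m3] at k2
  rw [m4] at k1
  have hWA := hC.ok.A0
  have hWY := hC.ok.Y0
  have w1 : 0 < D.w 1 n 0 := by rw [← m4]; exact O.pos 1
  have k3 : D.w 1 n 0 / (u n).WA ≤ D.B.d n ^ (-(1 : ℝ)) := by
    rw [div_le_iff₀ hWA]; exact a3.2.1
  have k4 : (D.w 1 n 0 / (u n).WA) ^ 2 ≤ D.B.d n ^ (-(2 : ℝ)) := by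
    have := pow_le_pow_left₀ (div_pos w1 hWA).le k3 2
    refine this.trans (le_of_eq ?_)
    rw [sq, ← dpow_add]; norm_num
  have k5 : D.B.d n ^ (1 : ℝ) * ((mk4 D n 0 (x0 n)).w 0 * kap b0 b1 G) ≤
      D.B.d n ^ (-(1 : ℝ)) * ((u n).WY * D.B.d n ^ (-(2 : ℝ))) := by
    refine k1.trans ?_
    exact mul_le_mul a7 (mul_le_mul_of_nonneg_left k4 hWY.le) (by positivity) (dp _).le
  have k6 := mul_le_mul_of_nonneg_left k5 (dp (M + 3)).le
  have e1 : D.B.d n ^ (M + 3) * (D.B.d n ^ (1 : ℝ) * ((mk4 D n 0 (x0 n)).w 0 * kap b0 b1 G)) =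
      D.B.d n ^ (M + 4) * ((mk4 D n 0 (x0 n)).w 0 * kap b0 b1 G) := by
    rw [← mul_assoc, ← dpow_add]; congr 2; ring
  have e2 : D.B.d n ^ (M + 3) * (D.B.d n ^ (-(1 : ℝ)) * ((u n).WY * D.B.d n ^ (-(2 : ℝ)))) =
      D.B.d n ^ M * (u n).WY := by
    have : D.B.d n ^ M = D.B.d n ^ (M + 3) * D.B.d n ^ (-(1 : ℝ)) * D.B.d n ^ (-(2 : ℝ)) := by
      rw [← dpow_add, ← dpow_add]; congr 1; ring
    rw [this]; ring
  rw [e1, e2] at k6
  exact k2.trans k6

end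

end Crest.Agent.R136.Stk464
end

-- ▼ part R136/Stk3_464
section

/-!
# R136, U6 thin side, stage C (helper464): data of the container, part 3

`exists_stk` : `ThinW ⊢ ∃ K x0, StcK`.
-/

set_option autoImplicit false
set_option linter.unusedVariables false

open Finset Filter Topology

namespace Crest.Agent.R136.Stk464

open Crest.Agent.R138
open Crest.Agent.R138.Ex926 (Base U)
open Crest.Agent.R138.Dp76 (dpow_pos dpow_add dpow_le dpow_le_one)
open Crest.Agent.R138.ArgM163 (ev_const)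
open Crest.Agent.R138.Mk163 (zc zl rho alive)
open Crest.Agent.R138.MkRef627 (lc kc mem_alive)
open Crest.Agent.R136.MkA627
open Crest.Agent.R136.Sh605
open Crest.Agent.R136.NetW191
open Crest.Agent.R136.GeoN778
open Crest.Agent.R136.Wit321
open Crest.Agent.R136.Top484
open Crest.Agent.R136.Stc321
open Crest.Agent.R136.Tl102 (QF kap)
open Crest.Agent.R136.Tlt51 (Close mk4 zx rh Shp InP)
open Crest.Agent.R136.KapP335 (kapP DetP kapP_eq)
open Crest.Agent.R136.Fw650 (z0N zhN rhN)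
open Crest.Agent.R136.Thn768 (ThinW Frm Cont Own Snd Tay D3 nm cr exists_tay abs_dt_unit)
open Crest.Agent.R136.Wcn464 (qw_of)

/-- standard frame -/
theorem ortho_unit : Ortho (fun i : Fin 3 => (Pi.single i 1 : V3)) := by
  intro i j
  fin_cases i <;> fin_cases j <;> simp [dt]

/-- default data -/
noncomputable def dflt : CtD where
  f := fun i : Fin 3 => (Pi.single i 1 : V3)
  c := ⟨fun _ => 0, fun _ => 0⟩
  u := ⟨1, 1, 1, 0, 1⟩
  P := ⟨0, 0, 0, 0, 0, 0, 0⟩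
  κ := 0
  σ := 1

theorem Sm.mono {P : Pj} {η η' : ℝ} (h : P.Sm η) (hη : η ≤ η') : P.Sm η' :=
  ⟨h.g.trans hη, h.h.trans hη, h.a.trans hη, h.b.trans hη, h.y.trans hη, h.s.trans hη,
    h.r.trans hη⟩

/-- **data of the container** -/
theorem exists_stk {p : Par4} {D : Dat4} (h : ThinW p D) :
    ∃ (K : ℕ → CtD) (x0 : ℕ → ℕ × ℝ), StcK p D K x0 := by
  classical
  obtain ⟨x0, f, u, Q, η, hc, hη, hw, hfr⟩ := h.cont
  set q : ℕ → Qd := fun n => hatQ (f n) (D.L n (x0 n).1) (u n) (qdOf (mk4 D n 0 (x0 n)).q) with hq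
  set good : ℕ → Prop := fun n => Ortho (f n) ∧ (u n).Ok ∧ 0 < D.w 0 n 0 ∧
    |(wqOf (q n)).κ'| ≤ 1 with hgood
  set K : ℕ → CtD := fun n => if good n then
    ⟨f n, D.L n (x0 n).1, u n, (wqOf (q n)).pj, (wqOf (q n)).κ', D.w 0 n 0 / (u n).WY⟩
    else dflt with hKd
  have dp := dpow_pos D.B
  have hc' : ∀ᶠ n in (U : Filter ℕ), x0 n ∈ D.I n ∧
      Cont (mk4 D n 0 (x0 n)) (D.L n (x0 n).1) (zx D n 0 (x0 n)) (rh D n 0) (f n) (u n)
        (qdOf (mk4 D n 0 (x0 n)).q) (η n) := hc.mono fun n h => ⟨h.1, cont_qdOf h.2⟩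
  have hsm : ∀ ε : ℝ, 0 < ε → ∀ᶠ n in (U : Filter ℕ), η n ≤ ε := fun ε hε => by
    filter_upwards [hη 1, ev_const D.B (C := 1 / ε) (by positivity) one_pos] with n a1 a2
    refine a1.trans ?_
    have e : D.B.d n ^ (1 : ℝ) * D.B.d n ^ (-(1 : ℝ)) = 1 := by
      rw [← dpow_add]; simp
    have k := mul_le_mul_of_nonneg_left a2 (dp n 1).le
    rw [e, mul_one_div, div_le_iff₀ hε, one_mul] at k
    exact k
  have hkap : ∀ᶠ n in (U : Filter ℕ), 1 / 5 ≤ |(wqOf (q n)).κ'| ∧ |(wqOf (q n)).κ'| ≤ 1 := by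
    filter_upwards [hc', hsm (1 / 40) (by norm_num)] with n a1 a2
    have k1 := a1.2.sm.kap (by linarith)
    have k2 := a1.2.kap
    change 1 / 4 ≤ |(wqOf (q n)).κ| ∧ |(wqOf (q n)).κ| ≤ 1 / 2 at k2
    change |(wqOf (q n)).κ' - (wqOf (q n)).κ| ≤ 2 * η n at k1
    constructor
    · have e := abs_sub_abs_le_abs_sub (wqOf (q n)).κ (wqOf (q n)).κ'
      rw [abs_sub_comm] at e
      linarith [k2.1]
    · have e := abs_sub_abs_le_abs_sub (wqOf (q n)).κ' (wqOf (q n)).κ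
      linarith [k2.2]
  have hg : ∀ᶠ n in (U : Filter ℕ), good n := by
    filter_upwards [hc', hkap, h.mka.wpos 0 0 le_rfl zero_le_one] with n a1 a2 a3
    exact ⟨a1.2.ortho, a1.2.ok, a3, a2.2⟩
  have hK : ∀ᶠ n in (U : Filter ℕ), K n =
      ⟨f n, D.L n (x0 n).1, u n, (wqOf (q n)).pj, (wqOf (q n)).κ', D.w 0 n 0 / (u n).WY⟩ :=
    hg.mono fun n h => if_pos h
  have hall : ∀ n, |(K n).κ| ≤ 1 ∧ 0 < (K n).σ ∧ (K n).u.Ok ∧ Ortho (K n).f := by
    intro n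
    by_cases hn : good n
    · have e : K n = _ := if_pos hn
      rw [e]
      exact ⟨hn.2.2.2, div_pos hn.2.2.1 hn.2.1.Y0, hn.2.1, hn.1⟩
    · have e : K n = dflt := if_neg hn
      rw [e]
      refine ⟨?_, ?_, ⟨?_, ?_, ?_, ?_⟩, ortho_unit⟩ <;> simp [dflt]
  have hσw : ∀ᶠ n in (U : Filter ℕ), (K n).u.WY * (K n).σ = D.w 0 n 0 := by
    filter_upwards [hK, hc'] with n a1 a2
    rw [a1]
    have := a2.2.ok.Y0.ne'
    simp only
    field_simp
  have hσs : ∀ M : ℝ, ∀ᶠ n in (U : Filter ℕ), (K n).σ ≤ D.B.d n ^ M := fun M => by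
    filter_upwards [hK, hc', sig_le h hc hη hw M] with n a1 a2 a3
    rw [a1]
    simp only
    rw [div_le_iff₀ a2.2.ok.Y0]
    exact a3
  have hwid : ∀ ε : ℝ, 0 < ε → ∀ᶠ n in (U : Filter ℕ),
      D.B.d n ^ ε * (K n).u.WA ≤ D.w 1 n 0 ∧ D.w 1 n 0 ≤ D.B.d n ^ (-ε) * (K n).u.WA ∧
      D.B.d n ^ ε * (K n).u.WB ≤ D.w 2 n 0 ∧ D.w 2 n 0 ≤ D.B.d n ^ (-ε) * (K n).u.WB :=
    fun ε hε => by
      filter_upwards [hK, hw ε hε] with n a1 a2
      rw [a1]
      exact a2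
  have hH : ∀ᶠ n in (U : Filter ℕ), (K n).u.H = 2 * rho (D.lev n 0) := by
    filter_upwards [hK, hc'] with n a1 a2
    rw [a1]
    exact a2.2.H
  refine ⟨K, x0, ⟨fun n => (hall n).1, fun n => (hall n).2.1, fun n => (hall n).2.2.1,
    fun n => (hall n).2.2.2, ?_, ?_, hσs, ?_, ?_, hσw, hH, ?_, hwid, ?_, ?_, ?_, ?_, ?_⟩⟩
  · filter_upwards [hK, hkap] with n a1 a2
    rw [a1]
    exact a2.1
  · intro M
    filter_upwards [hK, hc', hη (M + 1), hsm 1 one_pos,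
      ev_const D.B (C := 5) (by norm_num) one_pos] with n a1 a2 a3 a4 a5
    rw [a1]
    refine Sm.mono (a2.2.sm.pj a4) ?_
    have e : D.B.d n ^ (M + 1) * D.B.d n ^ (-(1 : ℝ)) = D.B.d n ^ M := by
      rw [← dpow_add]; congr 1; ring
    rw [← e]
    have k := mul_le_mul_of_nonneg_left a5 (dp n (M + 1)).le
    linarith
  · intro M
    filter_upwards [hK, hc', hη M] with n a1 a2 a3
    rw [a1]
    exact a2.2.YB.trans (mul_le_mul_of_nonneg_right a3 a2.2.ok.B0.le)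
  · intro M
    filter_upwards [hK, hc', hη M] with n a1 a2 a3
    rw [a1]
    exact a2.2.BA.trans (mul_le_mul_of_nonneg_right a3 a2.2.ok.A0.le)
  · filter_upwards [hK, hc', h.mka.cell0] with n a1 a2 a3 x hx
    rw [a1]
    have e : zx D n 0 x = zx D n 0 (x0 n) := by
      unfold Tlt51.zx
      rw [a3 x hx _ a2.1]
    rw [e]
    exact a2.2.zc
  · filter_upwards [hK, hfr] with n a1 a2 x hx
    rw [a1]
    exact a2 x hx
  · exact hc'.mono fun n h => h.1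
  · -- the container is good
    refine ⟨1, ?_⟩
    filter_upwards [hK, hc', hsm (1 / 40) (by norm_num), mk_facts h.mka le_rfl zero_le_one, hσw,
      sig_le h hc hη hw 1, ev_const D.B (C := 10 ^ 4) (by norm_num) one_pos]
      with n a1 a2 a3 a4 a5 a6 a7
    obtain ⟨hx, hC⟩ := a2
    obtain ⟨m0, m⟩ := a4
    obtain ⟨m1, m2, m3, m4, m5⟩ := m _ hx
    have ha : 0 < (mk4 D n 0 (x0 n)).a := by rw [m3]; exact m0
    rw [a1] at a5
    simp only at a5
    have hY := hC.ok.Y0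
    have hd : 10 ^ 4 * D.B.d n ^ (1 : ℝ) ≤ 1 := by
      have e : D.B.d n ^ (1 : ℝ) * D.B.d n ^ (-(1 : ℝ)) = 1 := by
        rw [← dpow_add]; simp
      have := mul_le_mul_of_nonneg_left a7 (dp n 1).le
      linarith
    have h4 : 4000 * (mk4 D n 0 (x0 n)).a ≤ (u n).WY := by
      rw [m3]
      have := mul_le_mul_of_nonneg_right hd hY.le
      have k0 := m0.le
      nlinarith
    obtain ⟨f1, f2⟩ := flags_cont (σ := D.w 0 n 0 / (u n).WY) hC a3 (rho_pos' _)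
      (fun z z1 z2 => (m1 z z1 z2).2) ha h4 (by rw [a5, m3])
    refine ⟨fun k => ?_, ?_, fun k => ?_⟩
    · have e : (K n).t (D.L n (x0 n).1) = ⟨fun _ => 0, fun _ => 0⟩ := by
        rw [a1]
        exact ul_self _ _ _
      rw [e]
      simp only [abs_zero]
      exact ⟨(dp n _).le, (dp n _).le⟩
    · rw [a1]
      exact f1
    · rw [a1]
      exact (f2 k).trans a7
  · -- balance
    intro v h0 h1 ε hε
    obtain ⟨C, hQw⟩ := qw_of (kp := fun _ => 0) (sg := fun n => (K n).σ)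
      (F := fun _ _ => ⟨fun _ => 0, fun _ => 0⟩)
      (u := fun n => (K n).u) (hz := hzS K) (wA := wAS D K)
      (a := aS D) h.mka h.θ2 (Eventually.of_forall fun n => (hall n).2.2.1)
      (fun n => one_div_pos.2 (hall n).2.2.1.H0)
      (fun v _ _ => Eventually.of_forall fun n => by
        have := (hall n).2.2.1.A0.ne'
        show (K n).u.WA * (D.w 1 n v / (K n).u.WA) = _
        field_simp)
      (fun v _ _ => by
        filter_upwards [hσw, h.mka.wpos 0 0 le_rfl zero_le_one] with n a1 a2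
        show (K n).u.WY * ((K n).σ * (D.w 0 n v / D.w 0 n 0)) = _
        rw [← mul_assoc, a1]
        have := a2.ne'
        field_simp)
      hσw
      (by
        filter_upwards [hH] with n a1
        show 1 / (K n).u.H * rho (D.lev n 0) = 1 / 2
        rw [a1]
        have := (rho_pos' (D.lev n 0)).ne'
        field_simp)
      hwid
      (fun δ hδ => Eventually.of_forall fun n x hx => by
        have k1 := (hall n).2.2.1.A0
        have k2 := dp n (-δ)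
        simp only [mul_zero, zero_mul, abs_zero]
        exact ⟨by positivity, by positivity⟩)
    filter_upwards [hQw 1 v h0 h1 ε hε] with n a1
    obtain ⟨k0, k1, k2⟩ := a1
    have e : D.B.d n ^ ε * D.B.d n ^ (-ε) = 1 := by rw [← dpow_add]; simp
    have d1 := dp n (-ε)
    have k3 : D.B.d n ^ ε * D.w 2 n v ≤ (K n).u.WB * wBS D K n v := k2
    have k4 : D.B.d n ^ ε * ((K n).u.WB * wBS D K n v) ≤ D.w 2 n v := k1
    have key : ∀ {x y : ℝ}, D.B.d n ^ ε * x ≤ y → x ≤ y * D.B.d n ^ (-ε) := by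
      intro x y hxy
      have := mul_le_mul_of_nonneg_right hxy d1.le
      have e2 : D.B.d n ^ ε * x * D.B.d n ^ (-ε) = x * (D.B.d n ^ ε * D.B.d n ^ (-ε)) := by ring
      rw [e2, e, mul_one] at this
      exact this
    constructor
    · have := key k3
      linarith
    · exact key k4
  · refine ⟨η, hη, ?_⟩
    filter_upwards [hK, hc'] with n a1 a2
    rw [a1]
    exact ⟨a2.2, rfl, rfl, rfl⟩

end Crest.Agent.R136.Stk464
end

-- ▼ part R136/Stk4_464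

/-!
# R136, U6 thin side, stage C (helper464): level lemmas of `StcA`, thickness

* `grad_nm` : the gradient of a mark has length between `1/2` and `10`;
* `b0_num`, `b0_ge` : `WY / 4 ≤ |b 0| ≤ 16 WY` for the marks in normal coordinates;
* `thick_of` : the field `thick` of `StcA` from `ThinW`, `StcK` and `Mb`.
-/

set_option autoImplicit false
set_option linter.unusedVariables false

open Finset Filter Topology

namespace Crest.Agent.R136.Stk464

open Crest.Agent.R138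
open Crest.Agent.R138.Ex926 (Base U)
open Crest.Agent.R138.Dp76 (dpow_pos dpow_add dpow_le dpow_le_one)
open Crest.Agent.R138.ArgM163 (ev_const)
open Crest.Agent.R138.Mk163 (zc zl rho alive)
open Crest.Agent.R138.MkRef627 (lc kc mem_alive)
open Crest.Agent.R136.MkA627
open Crest.Agent.R136.Sh605
open Crest.Agent.R136.NetW191
open Crest.Agent.R136.GeoN778
open Crest.Agent.R136.Wit321
open Crest.Agent.R136.Top484
open Crest.Agent.R136.Stc321
open Crest.Agent.R136.Tl102 (QF kap Fq bz cmb fr IsExp)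
open Crest.Agent.R136.Tlt51 (Close mk4 zx rh Shp InP)
open Crest.Agent.R136.KapP335 (kapP DetP kapP_eq)
open Crest.Agent.R136.Fw650 (z0N zhN rhN)
open Crest.Agent.R136.Thn768 (ThinW Frm Cont Own Snd Tay D3 nm cr exists_tay abs_dt_unit nm_le_sum)
open Crest.Agent.R136.TL650 (own_of)
open Crest.Agent.R136.Wcn464 (gr_near tay_gr)

/-- **length of the gradient of a mark** -/
theorem grad_nm {S : K4.Plk4} {T : Ln4} {z0 ρ δ : ℝ} {b0 b1 : V3} {G : QF}
    (O : Own S T z0 ρ δ b0 b1 G) {N R : V3} {H : QF} (hT : Tay S.q T N R H) :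
    1 / 2 ≤ nm (N + z0 • R) ∧ nm (N + z0 • R) ≤ 10 := by
  have key : ∀ x : V3, Fq N R H z0 (cmb (fr S.e S.w) x) = S.w 0 * Fq b0 b1 G 0 x := by
    intro x
    have h1 := O.exp 0 x
    have e : z0 + ρ * 0 = z0 := by ring
    rw [e] at h1
    have h2 := hT z0 (cmb (fr S.e S.w) x)
    linarith
  have lin : ∀ x : V3, dt (N + z0 • R) (cmb (fr S.e S.w) x) = S.w 0 * dt b0 x := by
    intro x
    have h1 := key x
    have h2 := key (fun k => -x k)
    have e0 : cmb (fr S.e S.w) (fun k => -x k) = fun k => -cmb (fr S.e S.w) x k := by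
      funext k; simp only [cmb]; ring
    rw [e0] at h2
    set y := cmb (fr S.e S.w) x with hy
    have e1 : Fq N R H z0 y = dt (N + z0 • R) y + H.ev y := by
      simp only [Fq, dt, bz, Pi.add_apply, Pi.smul_apply, smul_eq_mul]
    have e2 : Fq N R H z0 (fun k => -y k) = -dt (N + z0 • R) y + H.ev y := by
      simp only [Fq, dt, bz, QF.ev, Pi.add_apply, Pi.smul_apply, smul_eq_mul]; ring
    have e3 : Fq b0 b1 G 0 x = dt b0 x + G.ev x := by
      simp only [Fq, dt, bz]; ring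
    have e4 : Fq b0 b1 G 0 (fun k => -x k) = -dt b0 x + G.ev x := by
      simp only [Fq, dt, bz, QF.ev]; ring
    rw [e1, e3] at h1
    rw [e2, e4] at h2
    linarith
  have comp : ∀ k, S.w k * dt (S.e k) (N + z0 • R) = S.w 0 * b0 k := by
    intro k
    have h := lin (Pi.single k 1)
    have e1 : dt (N + z0 • R) (cmb (fr S.e S.w) (Pi.single k 1)) =
        S.w k * dt (S.e k) (N + z0 • R) := by
      fin_cases k <;> simp [dt, cmb, Tl102.fr] <;> ring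
    have e2 : dt b0 (Pi.single k 1) = b0 k := by
      fin_cases k <;> simp [dt]
    rwa [e1, e2] at h
  obtain ⟨g1, g2, -, -, -, -, -, s1, s2⟩ := O.nrm.b1_le
  have w0 := O.pos 0
  have w1 := O.pos 1
  have w2 := O.pos 2
  have c0 : dt (S.e 0) (N + z0 • R) = b0 0 := by
    have := comp 0
    exact mul_left_cancel₀ w0.ne' this
  have b00 : 0 < b0 0 := by linarith
  have hb : ∀ k, |b0 k / b0 0| ≤ 2 → |b0 k| ≤ 4 := by
    intro k h
    rw [abs_div, abs_of_pos b00, div_le_iff₀ b00] at h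
    linarith
  have cc : ∀ k, S.w 0 ≤ S.w k → 0 < S.w k → |b0 k| ≤ 4 → |dt (S.e k) (N + z0 • R)| ≤ 4 := by
    intro k h h' hk
    have h3 := congrArg abs (comp k)
    rw [abs_mul, abs_mul, abs_of_pos h', abs_of_pos w0] at h3
    have h4 : S.w 0 * |b0 k| ≤ S.w k * 4 := mul_le_mul h hk (abs_nonneg _) h'.le
    rw [← h3] at h4
    exact le_of_mul_le_mul_left h4 h'
  have c1 := cc 1 (O.w02.trans O.w21) w1 (hb 1 s1)
  have c2 := cc 2 O.w02 w2 (hb 2 s2)
  constructor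
  · have := abs_dt_unit O.ortho 0 (N + z0 • R)
    rw [c0, abs_of_pos b00] at this
    linarith
  · refine (nm_le_sum O.ortho _).trans ?_
    rw [c0, abs_of_pos b00]
    linarith

/-- **size of `b 0` of a mark in normal coordinates** -/
theorem b0_num {S : K4.Plk4} {T : Ln4} {z0 ρ δ : ℝ} {b0 b1 : V3} {G : QF}
    (O : Own S T z0 ρ δ b0 b1 G) {f : Fin 3 → V3} (hf : Ortho f) (c : Ln4) {u : Un}
    (hu : u.Ok) {Q : Qd} (hQ : S.q = Q.ev) {P : Pj} {η κ σ Γ R : ℝ} (hP : P.Sm η) (hη1 : η ≤ 1)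
    (hκ : |κ| ≤ 1) (hσ : 0 < σ) {i : FW} (hG : ∀ k, |i.G k| ≤ Γ) (hs : σ * Γ ≤ 1)
    (hi : i.G = flg κ σ (pullQ P.inv (hatQ f c u Q)))
    (hm : (pullQ P.inv (hatQ f c u Q)).b 0 ≠ 0) (hR : 1 ≤ R)
    (hp : ∀ k, |(ul u (rl f c T)).p k| ≤ R) (hv : ∀ k, |(ul u (rl f c T)).v k| ≤ R)
    (hz : |u.zh z0| ≤ 1) (hη : 4 * (η * (2 * R + 1)) ≤ 1)
    (he : 100 * ((24 * η + σ * Γ) * (1 + 7 * (2 * R))) ≤ 1) (hYB : u.WY ≤ η * u.WB)
    (hηR : 1000 * (η * R) ≤ 1) :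
    u.WY / 4 ≤ |(pullQ P.inv (hatQ f c u Q)).b 0| ∧
      |(pullQ P.inv (hatQ f c u Q)).b 0| ≤ 16 * u.WY := by
  set t : Ln4 := ul u (rl f c T) with ht
  set ζ : ℝ := u.zh z0 with hζ
  obtain ⟨N, R', H, hT⟩ := exists_tay (by rw [hQ]; exact Q.isQ : IsQ S.q) T
  obtain ⟨n1, n2⟩ := grad_nm O hT
  rw [hQ] at hT
  have x1 : ∀ k, |t.pos ζ k| ≤ 2 * R := fun k => by
    have := a2 (hp k) (m2 hz (hv k))
    show |t.p k + ζ * t.v k| ≤ _
    linarith
  obtain ⟨e0, e1, e2, k0, k1, k2, g0, g1, g2⟩ := gr_near (R := 2 * R) hP hη1 hκ hσ hG hs hi hm hη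
    (z := ζ) (hz.trans (by linarith)) (x := t.pos ζ) x1
  set m := (pullQ P.inv (hatQ f c u Q)).b 0 with hmd
  set e := (24 * η + σ * Γ) * (1 + 7 * (2 * R)) with hed
  have he0 : 0 ≤ e := (abs_nonneg _).trans k0
  have hWY := hu.Y0
  have hWB := hu.B0
  have hWA := hu.A0
  have hYA : u.WY ≤ η * u.WA := hYB.trans (mul_le_mul_of_nonneg_left hu.BA hP.nn)
  have hmp : 0 < |m| := abs_pos.2 hm
  have A : ∀ k, dt (f k) (N + z0 • R') = (hatQ f c u Q).gr ζ (t.pos ζ) k / u.W k := fun k => by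
    have := tay_gr hf c hu hT z0 k
    rw [← this]
    simp only [dt]; ring
  have W0 : u.W 0 = u.WY := rfl
  have W1 : u.W 1 = u.WA := rfl
  have W2 : u.W 2 = u.WB := rfl
  -- the components
  set y := |m| / u.WY with hy
  have hy0 : 0 < y := div_pos hmp hWY
  have c0 : |dt (f 0) (N + z0 • R')| ≤ y * (101 / 100) ∧
      y * (99 / 100) ≤ |dt (f 0) (N + z0 • R')| := by
    rw [A 0, g0, W0, abs_div, abs_mul, abs_of_pos hWY]
    have := abs_le.1 k0
    have e3 : |m| * |1 + e0| / u.WY = y * |1 + e0| := by rw [hy]; ring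
    rw [e3, abs_of_pos (by linarith [this.1] : 0 < 1 + e0)]
    constructor
    · exact mul_le_mul_of_nonneg_left (by linarith [this.2]) hy0.le
    · exact mul_le_mul_of_nonneg_left (by linarith [this.1]) hy0.le
  have small : ∀ {W b M : ℝ}, 0 < W → u.WY ≤ η * W → |b| ≤ M → M * η ≤ 1 / 100 →
      |m * b / W| ≤ y * (1 / 100) := by
    intro W b M hW h1 h2 h3
    rw [abs_div, abs_mul, abs_of_pos hW, div_le_iff₀ hW]
    have h4 : |m| = y * u.WY := by rw [hy]; field_simp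
    rw [h4]
    have hM : 0 ≤ M := (abs_nonneg _).trans h2
    calc y * u.WY * |b| ≤ y * (η * W) * M :=
          mul_le_mul (mul_le_mul_of_nonneg_left h1 hy0.le) h2 (abs_nonneg _)
            (mul_nonneg hy0.le (mul_nonneg hP.nn hW.le))
      _ = (y * W) * (M * η) := by ring
      _ ≤ (y * W) * (1 / 100) := mul_le_mul_of_nonneg_left h3 (by positivity)
      _ = y * (1 / 100) * W := by ring
  have c1 : |dt (f 1) (N + z0 • R')| ≤ y * (1 / 100) := by
    rw [A 1, g1, W1]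
    refine small (M := 5 * R) hWA hYA ?_ (by linarith)
    have e3 : |2 * κ * t.pos ζ 1| ≤ 4 * R := by
      have := m2 (m2 (le_of_eq abs_two : |(2 : ℝ)| ≤ 2) hκ) (x1 1)
      linarith
    rw [← abs_neg] at e3
    exact (a2 e3 k1).trans (by linarith)
  have c2 : |dt (f 2) (N + z0 • R')| ≤ y * (1 / 100) := by
    rw [A 2, g2, W2]
    refine small (M := 2 * R) hWB hYB ?_ (by linarith)
    have e3 : |(-ζ)| ≤ 1 := by rw [abs_neg]; exact hz
    exact (a2 e3 k2).trans (by linarith)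
  have s1 := nm_le_sum hf (N + z0 • R')
  have s2 := abs_dt_unit hf 0 (N + z0 • R')
  have y1 : 1 / 4 ≤ y := by linarith [c0.1]
  have y2 : y ≤ 16 := by linarith [c0.2]
  rw [hy, le_div_iff₀ hWY] at y1
  rw [hy, div_le_iff₀ hWY] at y2
  constructor <;> linarith

section seq

variable {p : Par4} {D : Dat4} {K : ℕ → CtD} {x0 : ℕ → ℕ × ℝ}

/-- normal heights of the incidences -/
theorem zh_le (hK : StcK p D K x0) : ∀ᶠ n in (U : Filter ℕ), ∀ x ∈ D.I n,
    |zhN (hzS K) (zsS K) n x| ≤ 1 / 4 := by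
  filter_upwards [hK.H, hK.zcc] with n h1 h2 x hx
  have hr := rho_pos' (D.lev n 0)
  obtain ⟨l1, l2⟩ := GR650.zl_le (D.lev n 0) x.2
  have h3 := h2 x hx
  have e : zhN (hzS K) (zsS K) n x = (x.2 - (K n).u.zc) / (K n).u.H := by
    show 1 / (K n).u.H * x.2 - (K n).u.zc / (K n).u.H = _
    ring
  have e2 : zx D n 0 x = zl (D.lev n 0) (zc (D.lev n 0) x.2) := rfl
  rw [e, h1, h3, e2, abs_div, abs_of_pos (show (0 : ℝ) < 2 * rho (D.lev n 0) by linarith),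
    div_le_iff₀ (by linarith), abs_le]
  constructor <;> linarith

theorem uzh_eq (K : ℕ → CtD) (n : ℕ) (z : ℝ) : (K n).u.zh z = hzS K n * z - zsS K n := by
  show (z - (K n).u.zc) / (K n).u.H = 1 / (K n).u.H * z - (K n).u.zc / (K n).u.H
  ring

/-- cells of level `v` in normal heights -/
theorem cell_v (hD : MkA D.B D.I (D.G p) D.lev D.A (fun v => p.g * v) (fun v => 0 * v)
      (fun j v => p.θ j * (1 - v)) D.f D.b D.vm D.w) (hK : StcK p D K x0) {v : ℚ} (h0 : 0 ≤ v)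
    (h1 : v ≤ 1) : ∀ᶠ n in (U : Filter ℕ), D.B.d n ^ ((v : ℝ) + 1) ≤ rhN D.lev (hzS K) n v ∧
      rhN D.lev (hzS K) n v ≤ 1 / 2 ∧ ∀ x ∈ D.I n, ∀ z,
        z0N D.lev (hzS K) (zsS K) v n (zc (D.lev n v) x.2) ≤ z →
        z ≤ z0N D.lev (hzS K) (zsS K) v n (zc (D.lev n v) x.2) + rhN D.lev (hzS K) n v →
        |z| ≤ 1 := by
  have t := (hD.lev_lim 0 v le_rfl h0 h1).eventually_lt_const
    (show (v : ℝ) - (0 : ℚ) < v + 1 / 2 by push_cast; linarith)
  filter_upwards [hK.H, zh_le hK, hD.lev_mono 0 v le_rfl h0 h1, t,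
    ev_const D.B (C := 2) (by norm_num) (show (0 : ℝ) < 1 / 2 by norm_num)] with n a1 a2 a3 a4 a5
  have hr := rho_pos' (D.lev n 0)
  have hH : 0 < (K n).u.H := (hK.ok n).H0
  have hz : 0 < hzS K n := one_div_pos.2 hH
  have e0 : hzS K n * rho (D.lev n 0) = 1 / 2 := by
    show 1 / (K n).u.H * rho (D.lev n 0) = 1 / 2
    rw [a1]; field_simp
  have hle : rhN D.lev (hzS K) n v ≤ 1 / 2 := by
    rw [← e0]
    refine mul_le_mul_of_nonneg_left ?_ hz.le
    unfold rho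
    exact one_div_le_one_div_of_le (by positivity) (pow_le_pow_right₀ (by norm_num) a3)
  refine ⟨?_, hle, fun x hx z z1 z2 => ?_⟩
  · have hL := D.B.L_pos n
    rw [div_lt_iff₀ hL] at a4
    have e1 : rhN D.lev (hzS K) n v = 1 / 2 * (rho (D.lev n v) / rho (D.lev n 0)) := by
      rw [← e0]
      show hzS K n * rho (D.lev n v) = _
      field_simp
    have k1 : D.B.d n ^ ((v : ℝ) + 1 / 2) ≤ rho (D.lev n v) / rho (D.lev n 0) := by
      have hp : 0 < rho (D.lev n v) / rho (D.lev n 0) := div_pos (rho_pos' _) hr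
      rw [← Real.log_le_log_iff (dpow_pos D.B n _) hp,
        Real.log_div (rho_pos' _).ne' hr.ne', ArgM163.log_dpow, ArgA163.log_rho,
        ArgA163.log_rho]
      linarith
    have k2 : D.B.d n ^ ((v : ℝ) + 1) * 2 ≤ D.B.d n ^ ((v : ℝ) + 1 / 2) := by
      have := mul_le_mul_of_nonneg_left a5 (dpow_pos D.B n ((v : ℝ) + 1)).le
      refine this.trans (le_of_eq ?_)
      rw [← dpow_add]; congr 1; ring
    rw [e1]
    linarith
  · obtain ⟨c1, c2⟩ := Fw650.cellN (lev := D.lev) (zs := zsS K) hz v x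
    have := abs_le.1 (a2 x hx)
    rw [abs_le]
    constructor <;> linarith [this.1, this.2]

/-- **`b 0` of the marks in normal coordinates** -/
theorem b0_ge (h : ThinW p D) (hK : StcK p D K x0) {C C' : ℝ} {v : ℚ} (h0 : 0 ≤ v) (h1 : v ≤ 1)
    (Mb : ∀ᶠ n in (U : Filter ℕ), ∀ x ∈ D.I n,
      Gd D K C n x → ((K n).Q (mk4 D n v x).q).b 0 ≠ 0 ∧
        ∀ k, |MkS D K v n (kc (D.lev n v) (D.f n v) x) k| ≤ D.B.d n ^ (-C')) :
    ∀ᶠ n in (U : Filter ℕ), ∀ x ∈ D.I n, Gd D K C n x →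
      (K n).u.WY / 4 ≤ |((K n).Q (mk4 D n v x).q).b 0| ∧
        |((K n).Q (mk4 D n v x).q).b 0| ≤ 16 * (K n).u.WY := by
  set E : ℝ := max (max C C') 1 with hE
  have d1 : C ≤ E := (le_max_left _ _).trans (le_max_left _ _)
  have d2 : C' ≤ E := (le_max_right _ _).trans (le_max_left _ _)
  have d3 : 1 ≤ E := le_max_right _ _
  filter_upwards [Mb, mk_facts h.mka h0 h1, h.nd v h0 h1 1 one_pos, cell_v h.mka hK h0 h1,
    hK.sm (E + 1), hK.σs (2 * E + 1), hK.YB (E + 1),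
    ev_const D.B (C := 40000) (by norm_num) one_pos] with n a1 a2 a3 a4 a5 a6 a7 a8 x hx hg
  obtain ⟨m0, m⟩ := a2
  obtain ⟨m1, m2', m3, m4, m5⟩ := m x hx
  obtain ⟨hb, hG⟩ := a1 x hx hg
  have ha : 0 < (mk4 D n v x).a := by rw [m3]; exact m0
  have dp := dpow_pos D.B n
  obtain ⟨b0, b1, G, O⟩ := own_of m2' ha m1 (rho_pos' _) (dp 1) (a3 x hx)
  set X : ℝ := D.B.d n ^ (-E) with hX
  have X1 : 1 ≤ X := Real.one_le_rpow_of_pos_of_le_one_of_nonpos (D.B.pos n) (D.B.lt n).le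
    (by linarith)
  set η : ℝ := D.B.d n ^ (E + 1) with hη
  have η0 : 0 < η := dp _
  have ed : 40000 * D.B.d n ^ (1 : ℝ) ≤ 1 := by
    have e : D.B.d n ^ (1 : ℝ) * D.B.d n ^ (-(1 : ℝ)) = 1 := by rw [← dpow_add]; simp
    have := mul_le_mul_of_nonneg_left a8 (dp 1).le
    linarith
  have e2 : η * X = D.B.d n ^ (1 : ℝ) := by
    rw [hη, hX, ← dpow_add]; congr 1; ring
  have e3 : η ≤ η * X := le_mul_of_one_le_right η0.le X1
  have hσX : (K n).σ * X ≤ η := by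
    calc (K n).σ * X ≤ D.B.d n ^ (2 * E + 1) * D.B.d n ^ (-E) :=
          mul_le_mul_of_nonneg_right a6 (by linarith)
      _ = η := by rw [hη, ← dpow_add]; congr 1; ring
  have hzz : |(K n).u.zh (zx D n v x)| ≤ 1 := by
    refine a4.2.2 x hx _ (le_of_eq ?_) ?_
    · rw [uzh_eq]; rfl
    · rw [uzh_eq]
      show z0N D.lev (hzS K) (zsS K) v n (zc (D.lev n v) x.2) ≤ _
      have : 0 < rhN D.lev (hzS K) n v := lt_of_lt_of_le (dp _) a4.1
      linarith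
  exact b0_num (R := X) (Γ := X) (i := ⟨fun _ => 0, (K n).M (mk4 D n v x).q⟩) O (hK.ortho n)
    (K n).c (hK.ok n) (qdOf_spec m2'.isQ).1 a5 (by linarith) (hK.kp1 n) (hK.σ0 n)
    (fun k => (hG k).trans (dpow_le D.B n (by linarith))) (by linarith) rfl hb X1
    (fun k => (hg.1 k).1.trans (dpow_le D.B n (by linarith)))
    (fun k => (hg.1 k).2.trans (dpow_le D.B n (by linarith))) hzz (by nlinarith)
    (by
      have q1 : (24 * η + (K n).σ * X) * (1 + 7 * (2 * X)) ≤ (25 * η) * (15 * X) :=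
        mul_le_mul (by linarith) (by linarith) (by linarith) (by positivity)
      have q2 : 100 * (25 * η * (15 * X)) = 37500 * (η * X) := by ring
      linarith) a7 (by linarith)

/-- **thickness of the marks in normal coordinates** : the field `thick` of `StcA` -/
theorem thick_of (h : ThinW p D) (hK : StcK p D K x0)
    (Mb : ∀ C : ℝ, ∀ v : ℚ, 0 ≤ v → v ≤ 1 → ∃ C' : ℝ, ∀ᶠ n in (U : Filter ℕ), ∀ x ∈ D.I n,
      Gd D K C n x → ((K n).Q (mk4 D n v x).q).b 0 ≠ 0 ∧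
        ∀ k, |MkS D K v n (kc (D.lev n v) (D.f n v) x) k| ≤ D.B.d n ^ (-C')) :
    ∀ C : ℝ, ∀ v : ℚ, 0 ≤ v → v ≤ 1 → ∀ ε : ℝ, 0 < ε → ∀ᶠ n in (U : Filter ℕ),
    ∀ x ∈ D.I n, Gd D K C n x → ∀ z, z0N D.lev (hzS K) (zsS K) v n (zc (D.lev n v) x.2) ≤ z →
      z ≤ z0N D.lev (hzS K) (zsS K) v n (zc (D.lev n v) x.2) + rhN D.lev (hzS K) n v →
      |ht (K n).κ z ((LS D K n x.1).pos z 1) ((LS D K n x.1).pos z 2) ((LS D K n x.1).pos z 0) -
        (K n).σ * evY (MkS D K v n (kc (D.lev n v) (D.f n v) x)) z ((LS D K n x.1).pos z 1)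
          ((LS D K n x.1).pos z 2) ((LS D K n x.1).pos z 0)| ≤
        (K n).σ * (aS D n v * D.B.d n ^ (-ε)) := by
  intro C v h0 h1 ε hε
  obtain ⟨C', hMb⟩ := Mb C v h0 h1
  set E : ℝ := max C 1 with hE
  have d1 : C ≤ E := le_max_left _ _
  have d3 : 1 ≤ E := le_max_right _ _
  filter_upwards [hMb, b0_ge h hK h0 h1 hMb, mk_facts h.mka h0 h1, cell_v h.mka hK h0 h1,
    hK.sm (2 * E + (v : ℝ) + 3), hK.σw, h.mka.wpos 0 0 le_rfl zero_le_one,
    ev_const D.B (C := 1000) (by norm_num) one_pos, ev_const D.B (C := 400) (by norm_num) hε]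
    with n a0 a1 a2 a4 a5 a6 a7 a8 a9 x hx hg z z1 z2
  obtain ⟨m0, m⟩ := a2
  obtain ⟨m1, m2', m3, m4, m5⟩ := m x hx
  obtain ⟨hb, hG⟩ := a0 x hx hg
  obtain ⟨b1, b2⟩ := a1 x hx hg
  have dp := dpow_pos D.B n
  set X : ℝ := D.B.d n ^ (-E) with hX
  have X1 : 1 ≤ X := Real.one_le_rpow_of_pos_of_le_one_of_nonpos (D.B.pos n) (D.B.lt n).le
    (by linarith)
  set η : ℝ := D.B.d n ^ (2 * E + (v : ℝ) + 3) with hη
  have η0 : 0 < η := dp _
  have ed : 1000 * D.B.d n ^ (1 : ℝ) ≤ 1 := by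
    have e : D.B.d n ^ (1 : ℝ) * D.B.d n ^ (-(1 : ℝ)) = 1 := by rw [← dpow_add]; simp
    have := mul_le_mul_of_nonneg_left a8 (dp 1).le
    linarith
  have v0 : (0 : ℝ) ≤ v := by exact_mod_cast h0
  have e2 : η * X ^ 2 = D.B.d n ^ ((v : ℝ) + 1) * D.B.d n ^ (2 : ℝ) := by
    rw [hη, hX, sq, ← dpow_add, ← dpow_add, ← dpow_add]; congr 1; ring
  have e3 : D.B.d n ^ (2 : ℝ) ≤ D.B.d n ^ (1 : ℝ) := dpow_le D.B n (by norm_num)
  have e4 : D.B.d n ^ ((v : ℝ) + 1) ≤ 1 := dpow_le_one D.B n (by linarith)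
  have e5 : η * X ^ 2 ≤ D.B.d n ^ (1 : ℝ) := by
    rw [e2]
    calc D.B.d n ^ ((v : ℝ) + 1) * D.B.d n ^ (2 : ℝ) ≤ 1 * D.B.d n ^ (1 : ℝ) :=
          mul_le_mul e4 e3 (dp _).le zero_le_one
      _ = _ := one_mul _
  have e6 : η * X ≤ η * X ^ 2 := by
    have : η * X * 1 ≤ η * X * X := mul_le_mul_of_nonneg_left X1 (by positivity)
    calc η * X = η * X * 1 := by ring
      _ ≤ η * X * X := this
      _ = η * X ^ 2 := by ring
  set L := rhN D.lev (hzS K) n v with hL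
  have hL0 : 0 < L := lt_of_lt_of_le (dp _) a4.1
  have hH := (hK.ok n).H0
  have hWY := (hK.ok n).Y0
  have hQs := (qdOf_spec m2'.isQ).1
  have hp : ∀ k, |((K n).t (D.L n x.1)).p k| ≤ X := fun k =>
    (hg.1 k).1.trans (dpow_le D.B n (by linarith))
  have hv : ∀ k, |((K n).t (D.L n x.1)).v k| ≤ X := fun k =>
    (hg.1 k).2.trans (dpow_le D.B n (by linarith))
  have key := nrm_thick (P := (K n).P) (η := η) (R := 2 * X)
    (α := z0N D.lev (hzS K) (zsS K) v n (zc (D.lev n v) x.2)) (L := L)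
    (a := (mk4 D n v x).a) a5 (by linarith) (by nlinarith) hL0 (by
      have q1 : 160 * (η * (2 * X) ^ 2) = 640 * (D.B.d n ^ ((v : ℝ) + 1) * D.B.d n ^ (2 : ℝ)) := by
        rw [← e2]; ring
      rw [q1]
      have q2 : 640 * (D.B.d n ^ ((v : ℝ) + 1) * D.B.d n ^ (2 : ℝ)) ≤ D.B.d n ^ ((v : ℝ) + 1) := by
        have := mul_le_mul_of_nonneg_left (show 640 * D.B.d n ^ (2 : ℝ) ≤ 1 by linarith)
          (dp ((v : ℝ) + 1)).le
        linarith
      exact q2.trans a4.1) (Q := (K n).Qh (mk4 D n v x).q) (t := (K n).t (D.L n x.1))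
    (fun k => (hp k).trans (by linarith)) (fun k => (hv k).trans (by linarith)) (by
      intro y y1 y2
      have hy := a4.2.2 x hx y y1 y2
      refine ⟨hy.trans (by linarith), fun k => ?_, ?_⟩
      · have := a2 (hp k) (m2 hy (hv k))
        show |((K n).t (D.L n x.1)).p k + y * ((K n).t (D.L n x.1)).v k| ≤ _
        linarith
      · set zr : ℝ := (K n).u.zc + (K n).u.H * y with hzr
        have ez : (K n).u.zh zr = y := by
          simp only [Un.zh, hzr]; field_simp; ring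
        have e := hatQ_line (hK.ortho n) (K n).c (hK.ok n) (qdOf (mk4 D n v x).q) zr (D.L n x.1)
        rw [ez] at e
        have e' : ((K n).Qh (mk4 D n v x).q).ev y (((K n).t (D.L n x.1)).pos y) =
            (mk4 D n v x).q zr ((D.L n x.1).pos zr) := e.trans (by rw [← hQs])
        rw [e']
        have eu := uzh_eq K n zr
        rw [ez] at eu
        unfold z0N at y1 y2
        rw [eu] at y1 y2
        refine (m1 zr ?_ ?_).2
        · have q : hzS K n * zl (D.lev n v) (zc (D.lev n v) x.2) - zsS K n ≤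
              hzS K n * zr - zsS K n := y1
          have hz : 0 < hzS K n := one_div_pos.2 hH
          refine le_of_mul_le_mul_left (a := hzS K n) ?_ hz
          show hzS K n * zl (D.lev n v) (zc (D.lev n v) x.2) ≤ hzS K n * zr
          linarith
        · have q : hzS K n * zr - zsS K n ≤
              (hzS K n * zl (D.lev n v) (zc (D.lev n v) x.2) - zsS K n) +
                hzS K n * rho (D.lev n v) := y2
          have hz : 0 < hzS K n := one_div_pos.2 hH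
          refine le_of_mul_le_mul_left (a := hzS K n) ?_ hz
          show hzS K n * zr ≤ hzS K n * (zl (D.lev n v) (zc (D.lev n v) x.2) + rho (D.lev n v))
          linarith) z1 z2
  have e7 := ev_flg (hK.σ0 n).ne' hb (κ := (K n).κ) z ((LS D K n x.1).pos z)
  have e8 : (pullQ (K n).P.inv ((K n).Qh (mk4 D n v x).q)).ev z
      (((K n).P.line ((K n).t (D.L n x.1))).pos z) =
      ((K n).Q (mk4 D n v x).q).ev z ((LS D K n x.1).pos z) := rfl
  rw [e8, e7, abs_mul] at key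
  have e9 : flg (K n).κ (K n).σ ((K n).Q (mk4 D n v x).q) =
      MkS D K v n (kc (D.lev n v) (D.f n v) x) := rfl
  rw [e9] at key
  set Y := |ht (K n).κ z ((LS D K n x.1).pos z 1) ((LS D K n x.1).pos z 2)
    ((LS D K n x.1).pos z 0) - (K n).σ * evY (MkS D K v n (kc (D.lev n v) (D.f n v) x)) z
      ((LS D K n x.1).pos z 1) ((LS D K n x.1).pos z 2) ((LS D K n x.1).pos z 0)| with hY
  have Y0 : 0 ≤ Y := abs_nonneg _
  have k1 : (K n).u.WY / 4 * Y ≤ 100 * D.w 0 n v := by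
    rw [← m3]
    exact (mul_le_mul_of_nonneg_right b1 Y0).trans key
  have k2 : (K n).u.WY * ((K n).σ * aS D n v) = D.w 0 n v := by
    rw [← mul_assoc, a6]
    show D.w 0 n 0 * (D.w 0 n v / D.w 0 n 0) = _
    have := a7.ne'
    field_simp
  have k3 : (K n).u.WY * Y ≤ (K n).u.WY * ((K n).σ * aS D n v * 400) := by
    have : (K n).u.WY * ((K n).σ * aS D n v * 400) = 400 * D.w 0 n v := by rw [← k2]; ring
    rw [this]; linarith
  have k4 := le_of_mul_le_mul_left k3 hWY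
  have k5 : 0 ≤ (K n).σ * aS D n v := by
    have : 0 < (K n).u.WY * ((K n).σ * aS D n v) := by rw [k2]; exact m0
    exact ((mul_pos_iff_of_pos_left hWY).1 this).le
  calc Y ≤ (K n).σ * aS D n v * 400 := k4
    _ ≤ (K n).σ * aS D n v * D.B.d n ^ (-ε) := mul_le_mul_of_nonneg_left a9 k5
    _ = _ := by ring

end seq

end Crest.Agent.R136.Stk464
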