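import Crest.Agent.R136.Stc5_321
import Crest.Agent.R136.Wit5_321

-- ▼ part R136/Stc6_321
section

/-!
# R136, U6 thin side, stage C (helper321), part 6: flags and closeness to the model

* `sym` : symmetrised coefficients; `Nr.congr` : `Nr` depends on the values only.
* `nr_good` : bounded flags in normal coordinates ⊢ `Nr` in container coordinates.
-/

set_option autoImplicit false
set_option linter.unusedVariables false

namespace Crest.Agent.R136.Stc321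

open Crest.Agent.R136.Sh605
open Crest.Agent.R136.NetW191
open Crest.Agent.R136.GeoN778
open Crest.Agent.R136.Wit321

/-- symmetrised coefficients -/
noncomputable def sym (Q : Qd) : Qd where
  c0 := Q.c0
  c1 := Q.c1
  c2 := Q.c2
  b := Q.b
  d := Q.d
  g := fun i j => (Q.g i j + Q.g j i) / 2

theorem sym_ev (Q : Qd) (z : ℝ) (x : V3) : (sym Q).ev z x = Q.ev z x := by
  simp only [Qd.ev, sym, Fin.sum_univ_three]; ring

theorem sym_gr (Q : Qd) (z : ℝ) (x : V3) (k : Fin 3) : (sym Q).gr z x k = Q.gr z x k := by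
  simp only [Qd.gr, sym, Fin.sum_univ_three]; ring

theorem sym_gd (Q : Qd) (t : Ln4) (k : Fin 3) : gd (sym Q) t k = gd Q t k := by
  simp only [gd, sym, Fin.sum_univ_three]; ring

theorem sym_hes (Q : Qd) (X : V3) : hes (sym Q) X = hes Q X := by
  simp only [hes, sym, Fin.sum_univ_three]; ring

theorem sym_cl {Q Q' : Qd} {δ : ℝ} (h : Cl Q Q' δ) : Cl (sym Q) (sym Q') δ where
  c0 := h.c0
  c1 := h.c1
  c2 := h.c2
  b := h.b
  d := h.d
  g := fun i j => by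
    have e : (sym Q).g i j - (sym Q').g i j =
        1 / 2 * (Q.g i j - Q'.g i j) + 1 / 2 * (Q.g j i - Q'.g j i) := by simp only [sym]; ring
    rw [e]
    have half : |(1 / 2 : ℝ)| ≤ 1 / 2 := by norm_num
    refine (a2 (m2 half (h.g i j)) (m2 half (h.g j i))).trans (le_of_eq (by ring))

/-- values determine gradient, derivative, second order part -/
theorem gr_of_ev {Q Q' : Qd}
    (h : ∀ z x, |z| ≤ 1 → (∀ k, |x k| ≤ 1) → Q.ev z x = Q'.ev z x) :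
    (∀ z x k, Q.gr z x k = Q'.gr z x k) ∧ (∀ t k, gd Q t k = gd Q' t k) ∧
      (∀ X, hes Q X = hes Q' X) := by
  have h0 : ∀ z x, |z| ≤ 1 → (∀ k, |x k| ≤ 1) → (dif Q Q').ev z x = 0 := by
    intro z x hz hx
    rw [dif_ev, h z x hz hx, sub_self]
  have g := gr_zero h0
  have g1 : ∀ z x k, Q.gr z x k = Q'.gr z x k := by
    intro z x k
    have := g z x k
    rw [dif_gr] at this
    linarith
  have g2 : ∀ t k, gd Q t k = gd Q' t k := by
    intro t k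
    have a := gr_along Q t 0 1 k
    have b := gr_along Q' t 0 1 k
    rw [g1, g1 0] at a
    linarith
  refine ⟨g1, g2, fun X => ?_⟩
  have e : ∀ Q : Qd, hes Q X = (dt (Q.gr 0 X) X - dt (Q.gr 0 0) X) / 2 := by
    intro Q
    simp only [hes, dt, Qd.gr, Fin.sum_univ_three, Pi.zero_apply]; ring
  rw [e, e]
  simp only [dt, g1]

theorem Nr.congr {Q Q' : Qd} {t : Ln4} {z1 κ ν R η : ℝ} (h : Nr Q t z1 κ ν R η)
    (h1 : ∀ z x k, Q.gr z x k = Q'.gr z x k) (h2 : ∀ t k, gd Q t k = gd Q' t k)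
    (h3 : ∀ X, hes Q X = hes Q' X) : Nr Q' t z1 κ ν R η := by
  refine ⟨?_, ?_, ?_, ?_, ?_, ?_, ?_⟩
  · rw [← h1]; exact h.g0
  · rw [← h1]; exact h.g1
  · rw [← h1]; exact h.g2
  · rw [← h2]; exact h.d0
  · rw [← h2]; exact h.d1
  · rw [← h2]; exact h.d2
  · intro X B hX
    rw [← h3]; exact h.hh X B hX

/-- small flags: the polynomial is near the model -/
theorem cl_of_rem {κ δ : ℝ} {Q : Qd} (h : ∀ k, |rem κ Q k| ≤ δ) :
    Cl (sym Q) (Wit321.mul (Q.b 0) (mod κ)) δ := by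
  have hδ : 0 ≤ δ := (abs_nonneg _).trans (h 0)
  have half : |(1 / 2 : ℝ)| ≤ 1 / 2 := by norm_num
  have hf : ∀ {a : ℝ}, |a| ≤ δ → |1 / 2 * a| ≤ δ := fun ha => (m2 half ha).trans (by linarith)
  have r13 : |Q.c0| ≤ δ := h 13
  have r12 : |Q.c1| ≤ δ := h 12
  have r9 : |Q.c2| ≤ δ := h 9
  have r11 : |Q.b 1| ≤ δ := h 11
  have r10 : |Q.b 2| ≤ δ := h 10
  have r4 : |Q.d 0| ≤ δ := h 4
  have r8 : |Q.d 1| ≤ δ := h 8
  refine ⟨?_, ?_, ?_, ?_, ?_, ?_⟩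
  · simpa [sym, Wit321.mul, mod] using r13
  · simpa [sym, Wit321.mul, mod] using r12
  · simpa [sym, Wit321.mul, mod] using r9
  · intro i
    fin_cases i
    · simpa [sym, Wit321.mul, mod] using hδ
    · simpa [sym, Wit321.mul, mod] using r11
    · simpa [sym, Wit321.mul, mod] using r10
  · intro i
    fin_cases i
    · simpa [sym, Wit321.mul, mod] using r4
    · simpa [sym, Wit321.mul, mod] using r8
    · have e : (sym Q).d 2 - (Wit321.mul (Q.b 0) (mod κ)).d 2 = rem κ Q 7 := by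
        simp [sym, Wit321.mul, mod, rem]
      show |(sym Q).d 2 - (Wit321.mul (Q.b 0) (mod κ)).d 2| ≤ δ
      rw [e]; exact h 7
  · intro i j
    fin_cases i <;> fin_cases j
    · have e : (sym Q).g 0 0 - (Wit321.mul (Q.b 0) (mod κ)).g 0 0 = rem κ Q 0 := by
        simp [sym, Wit321.mul, mod, rem]
      show |(sym Q).g 0 0 - (Wit321.mul (Q.b 0) (mod κ)).g 0 0| ≤ δ
      rw [e]; exact h 0
    · have e : (sym Q).g 0 1 - (Wit321.mul (Q.b 0) (mod κ)).g 0 1 = 1 / 2 * rem κ Q 2 := by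
        simp [sym, Wit321.mul, mod, rem]; ring
      show |(sym Q).g 0 1 - (Wit321.mul (Q.b 0) (mod κ)).g 0 1| ≤ δ
      rw [e]; exact hf (h 2)
    · have e : (sym Q).g 0 2 - (Wit321.mul (Q.b 0) (mod κ)).g 0 2 = 1 / 2 * rem κ Q 1 := by
        simp [sym, Wit321.mul, mod, rem]; ring
      show |(sym Q).g 0 2 - (Wit321.mul (Q.b 0) (mod κ)).g 0 2| ≤ δ
      rw [e]; exact hf (h 1)
    · have e : (sym Q).g 1 0 - (Wit321.mul (Q.b 0) (mod κ)).g 1 0 = 1 / 2 * rem κ Q 2 := by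
        simp [sym, Wit321.mul, mod, rem]; ring
      show |(sym Q).g 1 0 - (Wit321.mul (Q.b 0) (mod κ)).g 1 0| ≤ δ
      rw [e]; exact hf (h 2)
    · have e : (sym Q).g 1 1 - (Wit321.mul (Q.b 0) (mod κ)).g 1 1 = rem κ Q 6 := by
        simp [sym, Wit321.mul, mod, rem]; ring
      show |(sym Q).g 1 1 - (Wit321.mul (Q.b 0) (mod κ)).g 1 1| ≤ δ
      rw [e]; exact h 6
    · have e : (sym Q).g 1 2 - (Wit321.mul (Q.b 0) (mod κ)).g 1 2 = 1 / 2 * rem κ Q 5 := by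
        simp [sym, Wit321.mul, mod, rem]; ring
      show |(sym Q).g 1 2 - (Wit321.mul (Q.b 0) (mod κ)).g 1 2| ≤ δ
      rw [e]; exact hf (h 5)
    · have e : (sym Q).g 2 0 - (Wit321.mul (Q.b 0) (mod κ)).g 2 0 = 1 / 2 * rem κ Q 1 := by
        simp [sym, Wit321.mul, mod, rem]; ring
      show |(sym Q).g 2 0 - (Wit321.mul (Q.b 0) (mod κ)).g 2 0| ≤ δ
      rw [e]; exact hf (h 1)
    · have e : (sym Q).g 2 1 - (Wit321.mul (Q.b 0) (mod κ)).g 2 1 = 1 / 2 * rem κ Q 5 := by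
        simp [sym, Wit321.mul, mod, rem]; ring
      show |(sym Q).g 2 1 - (Wit321.mul (Q.b 0) (mod κ)).g 2 1| ≤ δ
      rw [e]; exact hf (h 5)
    · have e : (sym Q).g 2 2 - (Wit321.mul (Q.b 0) (mod κ)).g 2 2 = rem κ Q 3 := by
        simp [sym, Wit321.mul, mod, rem]
      show |(sym Q).g 2 2 - (Wit321.mul (Q.b 0) (mod κ)).g 2 2| ≤ δ
      rw [e]; exact h 3

theorem mod_sz {κ ν : ℝ} (hκ : |κ| ≤ 1) : Sz (Wit321.mul ν (mod κ)) |ν| := by
  have h0 := abs_nonneg ν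
  refine ⟨?_, ?_, ?_, ?_, ?_, ?_⟩
  · simp [Wit321.mul, mod]
  · simp [Wit321.mul, mod]
  · simp [Wit321.mul, mod]
  · intro i; fin_cases i <;> simp [Wit321.mul, mod]
  · intro i; fin_cases i <;> simp [Wit321.mul, mod]
  · intro i j
    fin_cases i <;> fin_cases j <;> simp [Wit321.mul, mod, abs_mul]
    exact mul_le_of_le_one_right h0 hκ

/-- flags and remainders -/
theorem rem_le_of_flg {κ σ Γ : ℝ} {Q : Qd} (hσ : 0 < σ) (hν : Q.b 0 ≠ 0)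
    (h : ∀ k, |flg κ σ Q k| ≤ Γ) (k : Fin 14) : |rem κ Q k| ≤ |Q.b 0| * (σ * Γ) := by
  have e : rem κ Q k = -(Q.b 0 * (σ * flg κ σ Q k)) := by
    simp only [flg]; field_simp
  rw [e, abs_neg]
  exact m2 le_rfl (m2 (abs_of_pos hσ).le (h k))

theorem flg_le_of_rem {κ σ Γ : ℝ} {Q : Qd} (hσ : 0 < σ) (hν : Q.b 0 ≠ 0)
    (h : ∀ k, |rem κ Q k| ≤ |Q.b 0| * (σ * Γ)) (k : Fin 14) : |flg κ σ Q k| ≤ Γ := by
  have hp : 0 < |Q.b 0| * σ := mul_pos (abs_pos.2 hν) hσ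
  simp only [flg]
  rw [abs_div, abs_neg, abs_mul, abs_of_pos hσ, div_le_iff₀ hp]
  refine (h k).trans (le_of_eq (by ring))

/-- **bounded flags in normal coordinates: near the model in container coordinates** -/
theorem nr_good {P : Pj} {η Γ σ κ R z1 : ℝ} (hP : P.Sm η) (hη : 16 * η ≤ 1) {Q : Qd}
    (hσ : 0 < σ) (hκ : |κ| ≤ 1) (hν : (pullQ P.inv Q).b 0 ≠ 0)
    (hf : ∀ k, |flg κ σ (pullQ P.inv Q) k| ≤ Γ) (hΓ : σ * Γ ≤ 1) {t : Ln4} (hR : 1 ≤ R)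
    (hz : |z1| ≤ R) (hp : ∀ k, |t.pos z1 k| ≤ R) (hv : ∀ k, |t.v k| ≤ R)
    (hs : 8 * (R * (24 * η + σ * Γ)) ≤ 1) :
    Nr Q t z1 κ ((pullQ P.inv Q).b 0) R (9 * (R * (24 * η + σ * Γ))) := by
  set Q' := pullQ P.inv Q with hQ'
  have hη0 : 0 ≤ η := hP.nn
  have hΓ0 : 0 ≤ Γ := (abs_nonneg _).trans (hf 0)
  set ν := Q'.b 0 with hνd
  have hrem := rem_le_of_flg hσ hν hf
  rw [← hνd] at hrem
  have h1 := cl_of_rem hrem
  have ms := mod_sz (ν := ν) hκ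
  rw [← hνd] at h1
  -- size of `sym Q'`
  have h2 : Sz (sym Q') (|ν| * (σ * Γ) + |ν|) := h1.sz ms
  -- pull back
  have hev : ∀ z x, |z| ≤ 1 → (∀ k, |x k| ≤ 1) → (pullQ P (sym Q')).ev z x = Q.ev z x := by
    intro z x hz hx
    have hT := Pj.T_half hP hx (by linarith)
    have hT0 : P.T x ≠ 0 := by
      have : 0 < P.T x := by linarith [hT.1]
      exact this.ne'
    rw [pullQ_ev _ _ hT0, sym_ev, hQ', ev_pull_inv P Q hT0]
    field_simp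
  have h2' : Sz (sym Q') (2 * |ν|) := by
    have hK : |ν| * (σ * Γ) + |ν| ≤ 2 * |ν| := by
      have := mul_le_of_le_one_right (abs_nonneg ν) hΓ
      linarith
    exact ⟨h2.c0.trans hK, h2.c1.trans hK, h2.c2.trans hK, fun i => (h2.b i).trans hK,
      fun i => (h2.d i).trans hK, fun i j => (h2.g i j).trans hK⟩
  have h3 := pullQ_cl hP (by linarith) h2'
  have h4 := sym_cl (h3.trans h1)
  have e5 : sym (Wit321.mul ν (mod κ)) = Wit321.mul ν (mod κ) := by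
    have : ∀ i j, (Wit321.mul ν (mod κ)).g i j = (Wit321.mul ν (mod κ)).g j i := by
      intro i j
      fin_cases i <;> fin_cases j <;> simp [Wit321.mul, mod]
    have h8 : (fun i j => ((Wit321.mul ν (mod κ)).g i j + (Wit321.mul ν (mod κ)).g j i) / 2) =
        (Wit321.mul ν (mod κ)).g := by
      funext i j
      have := this j i
      linarith
    unfold sym
    rw [h8]
  rw [e5] at h4
  have e6 : 12 * (η * (2 * |ν|)) + |ν| * (σ * Γ) = |ν| * (24 * η + σ * Γ) := by ring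
  rw [e6] at h4
  have h7 := Nr.of_cl h4 hκ hR hz hp hv hs
  obtain ⟨k1, k2, k3⟩ := gr_of_ev hev
  refine h7.congr ?_ ?_ ?_
  · intro z x k; rw [sym_gr, k1]
  · intro t k; rw [sym_gd, k2]
  · intro X; rw [sym_hes, k3]

end Crest.Agent.R136.Stc321
end

-- ▼ part R136/Stc7_321

/-!
# R136, U6 thin side, stage C (helper321), part 7: the difference of the functions of two sheets

`omq m Q2 Qv = Q2 - m Qv`; sizes on the adapted basis, coefficients, values.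
-/

set_option autoImplicit false
set_option linter.unusedVariables false

namespace Crest.Agent.R136.Stc321

open Crest.Agent.R136.Sh605
open Crest.Agent.R136.K4
open Crest.Agent.R136.NetW191
open Crest.Agent.R136.GeoN778
open Crest.Agent.R136.Wit321
open Crest.Agent.R136.Tl102 (QF Fq bz fan shB0 scB1 scG shG shB1 kap NrmC IsExp fr cmb StP OmB om0
  om1 omM tv pv gl gM sD yc cmb_pv Fq_comb Fq_g)

/-- the difference -/
def omq (m : ℝ) (Q2 Qv : Qd) : Qd := dif Q2 (Wit321.mul m Qv)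

theorem omq_ev (m : ℝ) (Q2 Qv : Qd) (z : ℝ) (x : V3) :
    (omq m Q2 Qv).ev z x = Q2.ev z x - m * Qv.ev z x := by
  unfold omq; rw [dif_ev, mul_ev]

theorem omq_exp {Q2 Qv : Qd} {e : Fin 3 → V3} {w : V3} {T : Ln4} {z0 ρ : ℝ} {b0 b1 b0' b1' : V3}
    {G G' : QF} (hE : IsExp Qv.ev e w T z0 ρ b0 b1 G) (hE2 : IsExp Q2.ev e w T z0 ρ b0' b1' G')
    (m : ℝ) : IsExp (omq m Q2 Qv).ev e w T z0 ρ (fun k => b0' k - m * b0 k)
      (fun k => b1' k - m * b1 k) (QF.comb m G' G) := by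
  intro ζ x
  rw [omq_ev, omq_ev, hE ζ x, hE2 ζ x, Fq_comb]
  ring

/-- coordinates in the adapted basis -/
theorem tv_φ {f e : Fin 3 → V3} (he : Ortho e) {u : Un} {w b0 : V3} (hw : ∀ k, w k ≠ 0)
    {κs : ℝ} (hκ : κs ≠ 0) (Z : V3) (k : Fin 3) :
    dt (f k) Z / u.W k = tv κs b0 e w Z 0 * φb f u e w κs b0 0 k +
      tv κs b0 e w Z 1 * φb f u e w κs b0 1 k + tv κs b0 e w Z 2 * φb f u e w κs b0 2 k := by
  have h := cmb_pv he hw Z
  set y := pv e w Z with hy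
  have t0 : tv κs b0 e w Z 0 = (y 0 + b0 1 / b0 0 * y 1 + b0 2 / b0 0 * y 2) / κs := rfl
  have t1 : tv κs b0 e w Z 1 = y 1 := rfl
  have t2 : tv κs b0 e w Z 2 = y 2 := rfl
  have e1 : y = fun j => (tv κs b0 e w Z 0 * tb κs b0 0 j + tv κs b0 e w Z 1 * tb κs b0 1 j) +
      tv κs b0 e w Z 2 * tb κs b0 2 j := by
    funext j
    rw [t0, t1, t2]
    fin_cases j
    · simp [tb, tE]; field_simp; ring
    · simp [tb, tE]
    · simp [tb, tE]
  have e2 : dt (f k) Z / u.W k = mh f u e w y k := by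
    unfold mh; rw [h]
  rw [e2, e1]
  simp only [φb, mh, dt, cmb, Tl102.fr, Pi.smul_apply, smul_eq_mul]
  ring

/-- every vector has coordinates -/
theorem exists_τ {f e : Fin 3 → V3} (hf : Ortho f) (he : Ortho e) {u : Un} (hu : u.Ok) {w b0 : V3}
    (hw : ∀ k, w k ≠ 0) {κs : ℝ} (hκ : κs ≠ 0) (V : V3) : ∃ τ : V3, ∀ k,
    V k = τ 0 * φb f u e w κs b0 0 k + τ 1 * φb f u e w κs b0 1 k +
      τ 2 * φb f u e w κs b0 2 k := by
  refine ⟨tv κs b0 e w (cmb (fW f u) V), fun k => ?_⟩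
  rw [← tv_φ he hw hκ, dt_cmb_fW hf]
  have := (hu.W0 k).ne'
  field_simp

section om

variable {f e : Fin 3 → V3} {c : Ln4} {u : Un} {w : V3} {T : Ln4} {z0 ρ κs X : ℝ}
  {b0 b1 b0' b1' : V3} {G G' : QF} {Q2 Qv : Qd}

/-- sizes on the adapted basis -/
theorem om_basis (hf : Ortho f) (hu : u.Ok) (hw0 : 0 < w 0) (hκ : 0 < κs) (hb0 : b0 0 ≠ 0)
    (hE : IsExp Qv.ev e w T z0 ρ b0 b1 G) (hE2 : IsExp Q2.ev e w T z0 ρ b0' b1' G')
    (hX0 : 0 ≤ X) (hO : OmB κs X X X b0 b1 G b0' b1' G') (i : Fin 3) :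
    |dt ((hatQ f c u (omq (b0' 0 / b0 0) Q2 Qv)).gr (u.zh z0)
      ((ul u (rl f c T)).pos (u.zh z0))) (φb f u e w κs b0 i)| ≤ w 0 * κs * X ∧
    |ρ / u.H * dt (gd (hatQ f c u (omq (b0' 0 / b0 0) Q2 Qv)) (ul u (rl f c T)))
      (φb f u e w κs b0 i)| ≤ w 0 * κs * X := by
  have hEω := omq_exp hE hE2 (b0' 0 / b0 0)
  have hx := exp_hat (c := c) hf hu hEω
  have hYe : 0 < w 0 * κs := by positivity
  have φe : ∀ k, φb f u e w κs b0 k = mh f u e w (tb κs b0 k) := fun k => rfl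
  have t0 : ∀ b : V3, dt b (tb κs b0 0) = κs * b 0 := by
    intro b; simp only [dt, tb, Matrix.cons_val]; ring
  have t1 : ∀ b : V3, dt b (tb κs b0 1) = b 1 - b0 1 / b0 0 * b 0 := by
    intro b; simp only [dt, tb, tE, Matrix.cons_val]; simp; ring
  have t2 : ∀ b : V3, dt b (tb κs b0 2) = b 2 - b0 2 / b0 0 * b 0 := by
    intro b; simp only [dt, tb, tE, Matrix.cons_val]; simp; ring
  have f0 : ∀ {a x : ℝ}, a = w 0 * κs * x → |x| ≤ X → |a| ≤ w 0 * κs * X := by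
    intro a x h1 h2
    rw [h1, abs_mul, abs_of_pos hYe]
    exact mul_le_mul_of_nonneg_left h2 hYe.le
  have g0 := hx (tb κs b0 i)
  rw [φe, ← g0.1, ← g0.2.1]
  fin_cases i
  · refine ⟨f0 (x := 0) ?_ (by rw [abs_zero]; exact hX0), f0 (x := om1 κs b0 b1 b0' b1' 0) ?_ hO.y1⟩
    · show w 0 * dt _ (tb κs b0 0) = _
      rw [t0]; field_simp; ring
    · show w 0 * dt _ (tb κs b0 0) = _
      rw [t0]
      change _ = w 0 * κs * (b1' 0 - b0' 0 / b0 0 * b1 0)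
      ring
  · refine ⟨f0 (x := om0 κs b0 b0' 1) ?_ hO.h01, f0 (x := om1 κs b0 b1 b0' b1' 1) ?_ hO.h11⟩
    · show w 0 * dt _ (tb κs b0 1) = _
      rw [t1]
      change _ = w 0 * κs * ((b0' 1 - b0' 0 / b0 0 * b0 1 -
        b0 1 / b0 0 * (b0' 0 - b0' 0 / b0 0 * b0 0)) / κs)
      field_simp
    · show w 0 * dt _ (tb κs b0 1) = _
      rw [t1]
      change _ = w 0 * κs * ((b1' 1 - b0' 0 / b0 0 * b1 1 -
        b0 1 / b0 0 * (b1' 0 - b0' 0 / b0 0 * b1 0)) / κs)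
      field_simp
  · refine ⟨f0 (x := om0 κs b0 b0' 2) ?_ hO.h02, f0 (x := om1 κs b0 b1 b0' b1' 2) ?_ hO.h12⟩
    · show w 0 * dt _ (tb κs b0 2) = _
      rw [t2]
      change _ = w 0 * κs * ((b0' 2 - b0' 0 / b0 0 * b0 2 -
        b0 2 / b0 0 * (b0' 0 - b0' 0 / b0 0 * b0 0)) / κs)
      field_simp
    · show w 0 * dt _ (tb κs b0 2) = _
      rw [t2]
      change _ = w 0 * κs * ((b1' 2 - b0' 0 / b0 0 * b1 2 -
        b0 2 / b0 0 * (b1' 0 - b0' 0 / b0 0 * b1 0)) / κs)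
      field_simp

theorem omM_le {κ X B : ℝ} (hX0 : 0 ≤ X) (hO : OmB κ X X X b0 b1 G b0' b1' G') {τ : V3}
    (hτ : ∀ k, |τ k| ≤ B) : |(omM κ b0 G b0' G').ev τ| ≤ 6 * (X * B ^ 2) := by
  have e : (omM κ b0 G b0' G').ev τ = (omM κ b0 G b0' G').yy * (τ 0 * τ 0) +
      (omM κ b0 G b0' G').yu * (τ 0 * τ 1) + (omM κ b0 G b0' G').yv * (τ 0 * τ 2) +
      (omM κ b0 G b0' G').uu * (τ 1 * τ 1) + (omM κ b0 G b0' G').uv * (τ 1 * τ 2) +
      (omM κ b0 G b0' G').vv * (τ 2 * τ 2) := by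
    simp only [QF.ev]; ring
  rw [e]
  have p := fun i j => m2 (hτ i) (hτ j)
  refine (a2 (a2 (a2 (a2 (a2 (m2 hO.yy (p 0 0)) (m2 hO.yu (p 0 1))) (m2 hO.yv (p 0 2)))
    (m2 hO.uu (p 1 1))) (m2 hO.uv (p 1 2))) (m2 hO.vv (p 2 2))).trans (le_of_eq (by ring))

theorem om_hes (hf : Ortho f) (hu : u.Ok) (hw0 : 0 < w 0) (hκ : 0 < κs) (hb0 : b0 0 ≠ 0)
    (hE : IsExp Qv.ev e w T z0 ρ b0 b1 G) (hE2 : IsExp Q2.ev e w T z0 ρ b0' b1' G')
    (hX0 : 0 ≤ X) (hO : OmB κs X X X b0 b1 G b0' b1' G') {τ V : V3} {B : ℝ}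
    (hV : ∀ k, V k = τ 0 * φb f u e w κs b0 0 k + τ 1 * φb f u e w κs b0 1 k +
      τ 2 * φb f u e w κs b0 2 k) (hτ : ∀ k, |τ k| ≤ B) :
    |hes (hatQ f c u (omq (b0' 0 / b0 0) Q2 Qv)) V| ≤ 6 * (w 0 * κs * X * B ^ 2) := by
  have hEω := omq_exp hE hE2 (b0' 0 / b0 0)
  set x : V3 := ![κs * τ 0 - b0 1 / b0 0 * τ 1 - b0 2 / b0 0 * τ 2, τ 1, τ 2] with hx
  have e1 : V = mh f u e w x := by
    funext k
    rw [hV k]
    simp only [φb, mh, dt, cmb, Tl102.fr, Pi.smul_apply, smul_eq_mul, tb, tE, hx, Matrix.cons_val]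
    simp
    ring
  have h1 := (exp_hat (c := c) hf hu hEω x).2.2
  rw [e1, ← h1]
  have h2 := Fq_g (s₁ := b0 1 / b0 0) (s₂ := b0 2 / b0 0) hκ.ne' 0 0
    (QF.comb (b0' 0 / b0 0) G' G) 0 (τ 0) (τ 1) (τ 2)
  have e2 : ∀ (M : QF) (y : V3) (s1 s2 : ℝ), Fq (gl κs s1 s2 0) (gl κs s1 s2 0) M 0 y = M.ev y := by
    intro M y s1 s2
    simp [Fq, dt, bz, gl]
  have e3 : ∀ (M : QF) (y : V3), Fq 0 0 M 0 y = M.ev y := by
    intro M y
    simp [Fq, dt, bz]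
  rw [e2, e3] at h2
  have e4 : (![τ 0, τ 1, τ 2] : V3) = τ := by
    funext k; fin_cases k <;> rfl
  rw [e4] at h2
  rw [hx, h2]
  have h3 := omM_le (κ := κs) hX0 hO hτ
  have hYe : 0 < w 0 * κs := by positivity
  have e5 : w 0 * (κs * (gM κs (b0 1 / b0 0) (b0 2 / b0 0) (QF.comb (b0' 0 / b0 0) G' G)).ev τ) =
      w 0 * κs * (omM κs b0 G b0' G').ev τ := by
    unfold omM; ring
  rw [e5, abs_mul, abs_of_pos hYe]
  refine (mul_le_mul_of_nonneg_left h3 hYe.le).trans (le_of_eq (by ring))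

/-- **value of the difference at a point of the box** -/
theorem om_le (he : Ortho e) (hw0 : 0 < w 0) (hw : ∀ k, w k ≠ 0) (hκ : 0 < κs) (hb0 : b0 0 ≠ 0)
    (hE : IsExp Qv.ev e w T z0 ρ b0 b1 G) (hE2 : IsExp Q2.ev e w T z0 ρ b0' b1' G')
    (hX0 : 0 ≤ X) (hO : OmB κs X X X b0 b1 G b0' b1' G') {ζ : ℝ} (h0 : 0 ≤ ζ) (h1 : ζ ≤ 1)
    {P : V3} {B : ℝ} (hB : 1 ≤ B)
    (hτ : ∀ k, |tv κs b0 e w (P - T.pos (z0 + ρ * ζ)) k| ≤ B) :
    |Q2.ev (z0 + ρ * ζ) P - Q2.ev (z0 + ρ * ζ) (T.pos (z0 + ρ * ζ)) - b0' 0 / b0 0 *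
      (Qv.ev (z0 + ρ * ζ) P - Qv.ev (z0 + ρ * ζ) (T.pos (z0 + ρ * ζ)))| ≤
      12 * (w 0 * κs * X * B ^ 2) := by
  rw [Tl102.om_val he hw hE hE2 hκ.ne' ζ P]
  set τ := tv κs b0 e w (P - T.pos (z0 + ρ * ζ)) with hτd
  have hYe : 0 < w 0 * κs := by positivity
  have e : Fq (om0 κs b0 b0') (om1 κs b0 b1 b0' b1') (omM κs b0 G b0' G') ζ τ =
      ((om0 κs b0 b0' 0 + ζ * om1 κs b0 b1 b0' b1' 0) * τ 0 +
      (om0 κs b0 b0' 1 + ζ * om1 κs b0 b1 b0' b1' 1) * τ 1 +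
      (om0 κs b0 b0' 2 + ζ * om1 κs b0 b1 b0' b1' 2) * τ 2) + (omM κs b0 G b0' G').ev τ := by
    simp only [Fq, dt, bz]
  have hζ : |ζ| ≤ 1 := by rw [abs_of_nonneg h0]; exact h1
  have o0 : |om0 κs b0 b0' 0| ≤ X := by
    rw [Tl102.om0_zero κs hb0, abs_zero]; exact hX0
  have c0 := a2 o0 (m2 hζ hO.y1)
  have c1 := a2 hO.h01 (m2 hζ hO.h11)
  have c2 := a2 hO.h02 (m2 hζ hO.h12)
  have h2 := a2 (a2 (a2 (m2 c0 (hτ 0)) (m2 c1 (hτ 1))) (m2 c2 (hτ 2))) (omM_le hX0 hO hτ)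
  rw [← e] at h2
  rw [abs_mul, abs_of_pos hYe]
  have h3 : |Fq (om0 κs b0 b0') (om1 κs b0 b1 b0' b1') (omM κs b0 G b0' G') ζ τ| ≤
      12 * (X * B ^ 2) := by
    refine h2.trans ?_
    have hBB : B ≤ B ^ 2 := by nlinarith
    have := mul_le_mul_of_nonneg_left hBB hX0
    linarith
  refine (mul_le_mul_of_nonneg_left h3 hYe.le).trans (le_of_eq (by ring))

end om

/-- **coefficients of a polynomial from its sizes on a basis** -/
theorem coef_of_basis {W : Qd} (hs : ∀ i j, W.g i j = W.g j i) {t : Ln4} {z1 rh : ℝ}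
    (hrh : 0 < rh) {φ : Fin 3 → V3} {K τm : ℝ} (hK : 0 ≤ K)
    (h1 : ∀ i, |dt (W.gr z1 (t.pos z1)) (φ i)| ≤ K) (h2 : ∀ i, |rh * dt (gd W t) (φ i)| ≤ K)
    (h3 : ∀ (τ V : V3) (B : ℝ), (∀ k, V k = τ 0 * φ 0 k + τ 1 * φ 1 k + τ 2 * φ 2 k) →
      (∀ k, |τ k| ≤ B) → |hes W V| ≤ 6 * (K * B ^ 2))
    (hinv : ∀ V : V3, (∀ k, |V k| ≤ 1) → ∃ τ : V3, (∀ k, |τ k| ≤ τm) ∧
      ∀ k, V k = τ 0 * φ 0 k + τ 1 * φ 1 k + τ 2 * φ 2 k) :
    (∀ k, |W.gr z1 (t.pos z1) k| ≤ 3 * (τm * K)) ∧ (∀ k, |gd W t k| ≤ 3 * (τm * K) / rh) ∧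
      ∀ i j, |W.g i j| ≤ 18 * (K * τm ^ 2) := by
  -- unit vectors
  set ee : Fin 3 → V3 := ![![1, 0, 0], ![0, 1, 0], ![0, 0, 1]] with hee
  have he1 : ∀ j k, |ee j k| ≤ 1 := by
    intro j k; fin_cases j <;> fin_cases k <;> simp [hee]
  have hdt : ∀ (a : V3) j, dt a (ee j) = a j := by
    intro a j; fin_cases j <;> simp [hee, dt]
  have hsum : ∀ (a : V3) (τ V : V3), (∀ k, V k = τ 0 * φ 0 k + τ 1 * φ 1 k + τ 2 * φ 2 k) →
      dt a V = τ 0 * dt a (φ 0) + τ 1 * dt a (φ 1) + τ 2 * dt a (φ 2) := by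
    intro a τ V h
    simp only [dt, h]; ring
  refine ⟨?_, ?_, ?_⟩
  · intro k
    obtain ⟨τ, hτ, hV⟩ := hinv (ee k) (he1 k)
    rw [← hdt (W.gr z1 (t.pos z1)) k, hsum _ τ _ hV]
    refine (a2 (a2 (m2 (hτ 0) (h1 0)) (m2 (hτ 1) (h1 1))) (m2 (hτ 2) (h1 2))).trans
      (le_of_eq (by ring))
  · intro k
    obtain ⟨τ, hτ, hV⟩ := hinv (ee k) (he1 k)
    rw [le_div_iff₀ hrh, ← hdt (gd W t) k]
    have e : |dt (gd W t) (ee k)| * rh = |rh * dt (gd W t) (ee k)| := by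
      rw [abs_mul, abs_of_pos hrh, mul_comm]
    rw [e, hsum _ τ _ hV]
    have e2 : rh * (τ 0 * dt (gd W t) (φ 0) + τ 1 * dt (gd W t) (φ 1) + τ 2 * dt (gd W t) (φ 2)) =
        τ 0 * (rh * dt (gd W t) (φ 0)) + τ 1 * (rh * dt (gd W t) (φ 1)) +
          τ 2 * (rh * dt (gd W t) (φ 2)) := by ring
    rw [e2]
    refine (a2 (a2 (m2 (hτ 0) (h2 0)) (m2 (hτ 1) (h2 1))) (m2 (hτ 2) (h2 2))).trans
      (le_of_eq (by ring))
  · intro i j
    obtain ⟨τ, hτ, hV⟩ := hinv (ee i) (he1 i)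
    obtain ⟨τ', hτ', hV'⟩ := hinv (ee j) (he1 j)
    have a1 := h3 τ (ee i) τm hV hτ
    have a3 := h3 τ' (ee j) τm hV' hτ'
    have a4 := h3 (fun k => τ k + τ' k) (fun k => ee i k + ee j k) (τm + τm)
      (fun k => by rw [hV k, hV' k]; ring) (fun k => a2 (hτ k) (hτ' k))
    have e : 2 * W.g i j = hes W (fun k => ee i k + ee j k) - hes W (ee i) - hes W (ee j) := by
      have e1 : hes W (fun k => ee i k + ee j k) - hes W (ee i) - hes W (ee j) =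
          W.g i j + W.g j i := by
        fin_cases i <;> fin_cases j <;> simp [hes, hee, Fin.sum_univ_three] <;> ring
      rw [e1, ← hs i j]; ring
    have h5 := s2 (s2 a4 a1) a3
    rw [← e, abs_mul, abs_two] at h5
    nlinarith

end Crest.Agent.R136.Stc321
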