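import Crest.Agent.R136.Stk4_464_Mg
import Crest.Agent.R136.Szo_327

/-!
# R136, U6 thin side, stage C (helper464): level lemmas of `StcA`, flags of all levels

* `om_sz` : all coefficients of the difference of two sheets (container coordinates);
* `flags_v` : flags of one sheet from those of the other;
* `Mb_of` : the field `Mb` of `StcA` from `ThinW`, `StcK` and the level data `LvD`.
-/

set_option autoImplicit false
set_option linter.unusedVariables false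

open Finset Filter Topology

namespace Crest.Agent.R136.Stk464

open Crest.Agent.R138
open Crest.Agent.R138.Ex926 (Base U)
open Crest.Agent.R138.Dp76 (dpow_pos dpow_add dpow_le dpow_le_one)
open Crest.Agent.R138.ArgM163 (ev_const)
open Crest.Agent.R138.Mk163 (zc zl rho alive)
open Crest.Agent.R138.MkRef627 (lc kc mem_alive)
open Crest.Agent.R136.MkA627
open Crest.Agent.R136.Sh605
open Crest.Agent.R136.NetW191
open Crest.Agent.R136.GeoN778
open Crest.Agent.R136.Wit321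
open Crest.Agent.R136.Top484
open Crest.Agent.R136.Stc321
open Crest.Agent.R136.Tl102 (QF kap Fq bz cmb fr IsExp OmB)
open Crest.Agent.R136.Tlt51 (Close mk4 zx rh Shp InP)
open Crest.Agent.R136.KapP335 (kapP DetP kapP_eq)
open Crest.Agent.R136.Fw650 (z0N zhN rhN)
open Crest.Agent.R136.Thn768 (ThinW Frm Cont Own Snd Tay D3 nm cr exists_tay abs_dt_unit nm_le_sum)
open Crest.Agent.R136.ArgA163 (tau_zero le_of_log)

/-- symmetric coefficients in container coordinates -/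
theorem hatQ_sym {f : Fin 3 → V3} {c : Ln4} {u : Un} {Q : Qd} (h : ∀ i j, Q.g i j = Q.g j i)
    (i j : Fin 3) : (hatQ f c u Q).g i j = (hatQ f c u Q).g j i := by
  have h01 := h 0 1
  have h02 := h 0 2
  have h12 := h 1 2
  simp only [hatQ, unQ, movQ, Qd.scl, Fin.sum_univ_three, ← h01, ← h02, ← h12]
  rw [mul_comm (1 / u.W j) (1 / u.W i)]
  ring

/-- **size of the difference of the functions of two sheets** -/
theorem om_sz {S : K4.Plk4} {T : Ln4} {z0 ρ δ : ℝ} {b0 b1 : V3} {G : QF}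
    (O : Own S T z0 ρ δ b0 b1 G) {f : Fin 3 → V3} (hf : Ortho f) {c : Ln4} {u : Un} (hu : u.Ok)
    {Q2 Qv : Qd} (hQ : S.q = Qv.ev) (s2 : ∀ i j, Q2.g i j = Q2.g j i)
    (sv : ∀ i j, Qv.g i j = Qv.g j i) {b0' b1' : V3} {G' : QF}
    (hE : IsExp Q2.ev S.e S.w T z0 ρ b0' b1' G') {X : ℝ} (hX0 : 0 ≤ X)
    (hO : OmB (kap b0 b1 G) X X X b0 b1 G b0' b1' G')
    {gg gg' : V3} {κ v1 R η Y X' A1 A2 α : ℝ}
    (hB : Bas gg gg' (φb f u S.e S.w (kap b0 b1 G) b0) κ v1 R η (ρ / u.H) Y X' A1 A2 α)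
    (hp : ∀ k, |(ul u (rl f c T)).p k| ≤ R) (hv : ∀ k, |(ul u (rl f c T)).v k| ≤ R)
    (hz : |u.zh z0| ≤ R) {K τm : ℝ} (hK : S.w 0 * kap b0 b1 G * X ≤ K)
    (hc : ∀ z, z0 ≤ z → z ≤ z0 + ρ → |Q2.ev z (T.pos z) - b0' 0 / b0 0 * Qv.ev z (T.pos z)| ≤ K)
    (hτ : 1200 * (1 * (200 * Y + Bas.sz R (ρ / u.H) Y A1) ^ 2) / (Y * α) ≤ τm) (hτ1 : 1 ≤ τm) :
    Sz (hatQ f c u (omq (b0' 0 / b0 0) Q2 Qv))
      (10 ^ 4 * R ^ 4 * (18 * (K * τm ^ 2) / (ρ / u.H)) / (ρ / u.H) ^ 2) := by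
  have hrh := hB.rh0
  have hrh1 := hB.rh1
  have hH := hu.H0
  have w0 := O.pos 0
  have hk := O.k0
  obtain ⟨n1, n2, -⟩ := NrmC.base O.nrm
  have hb0 : b0 0 ≠ 0 := by linarith
  have hEv : IsExp Qv.ev S.e S.w T z0 ρ b0 b1 G := by rw [← hQ]; exact O.exp
  set W := hatQ f c u (omq (b0' 0 / b0 0) Q2 Qv) with hW
  have hX : 0 ≤ S.w 0 * kap b0 b1 G * X := by positivity
  have hK0 : 0 ≤ K := hX.trans hK
  have hsW : ∀ i j, W.g i j = W.g j i := by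
    refine hatQ_sym fun i j => ?_
    simp only [omq, dif, Wit321.mul]
    rw [s2 i j, sv i j]
  obtain ⟨c1, c2, c3⟩ := coef_of_basis (W := W) hsW (t := ul u (rl f c T)) (z1 := u.zh z0) hrh
    (φ := φb f u S.e S.w (kap b0 b1 G) b0) (K := K) (τm := τm) hK0
    (fun i => ((om_basis (c := c) hf hu w0 hk hb0 hEv hE hX0 hO i).1).trans hK)
    (fun i => ((om_basis (c := c) hf hu w0 hk hb0 hEv hE hX0 hO i).2).trans hK)
    (fun τ V B hV hτ => by
      refine (om_hes (c := c) hf hu w0 hk hb0 hEv hE hX0 hO hV hτ).trans ?_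
      have := mul_le_mul_of_nonneg_right hK (sq_nonneg B)
      linarith)
    (fun V hV => by
      obtain ⟨τ, h⟩ := exists_τ hf O.ortho hu (b0 := b0) (fun k => (O.pos k).ne') hk.ne' V
      exact ⟨τ, fun k => (hB.inv h hV k).trans hτ, h⟩)
  have q0 : 0 ≤ K * τm ^ 2 := by positivity
  have q1 : K * τm ≤ K * τm ^ 2 := mul_le_mul_of_nonneg_left (by nlinarith) hK0
  have q2 : 18 * (K * τm ^ 2) ≤ 18 * (K * τm ^ 2) / (ρ / u.H) := by
    rw [le_div_iff₀ hrh]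
    have := mul_le_mul_of_nonneg_left hrh1 (show 0 ≤ 18 * (K * τm ^ 2) by positivity)
    linarith
  have q3 : K ≤ K * τm := by
    have := mul_le_mul_of_nonneg_left hτ1 hK0
    linarith
  refine Szo327.sz_of hsW (t := ul u (rl f c T)) (z1 := u.zh z0) (α := u.zh z0) hB.R1 hp hv hz
    (fun k => (c1 k).trans (by linarith)) (fun k => (c2 k).trans ?_)
    (fun i j => (c3 i j).trans (by linarith)) hrh hrh1 hz (fun z z1 z2 => ?_)
  · refine div_le_div_of_nonneg_right ?_ hrh.le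
    linarith
  · set zr : ℝ := u.zc + u.H * z with hzr
    have ez : u.zh zr = z := by
      simp only [Un.zh, hzr]; field_simp; ring
    have e := hatQ_line hf c hu (omq (b0' 0 / b0 0) Q2 Qv) zr T
    rw [ez] at e
    rw [hW, e, omq_ev]
    refine (hc zr ?_ ?_).trans (by linarith)
    · have : (z0 - u.zc) / u.H ≤ z := z1
      rw [div_le_iff₀ hH] at this
      rw [hzr]; linarith
    · have : z ≤ (z0 - u.zc) / u.H + ρ / u.H := z2
      rw [← add_div, le_div_iff₀ hH] at this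
      rw [hzr]; linarith

/-- sizes in normal coordinates -/
theorem pull_sz {P : Pj} {η Kw : ℝ} (hP : P.Sm η) (hη : 12 * η ≤ 1) {W : Qd} (hW : Sz W Kw) {κ : ℝ}
    (hκ : |κ| ≤ 1) : |(pullQ P W).b 0| ≤ 2 * Kw ∧ ∀ k, |rem κ (pullQ P W) k| ≤ 4 * Kw := by
  have hm : (0 : ℝ) ≤ Kw := (abs_nonneg _).trans hW.c0
  have hη0 := hP.nn
  have h := pullQ_cl hP (by linarith) hW
  have hle : 12 * (η * Kw) ≤ Kw := by nlinarith
  have ad : ∀ {a b : ℝ}, |a - b| ≤ 12 * (η * Kw) → |b| ≤ Kw → |a| ≤ 2 * Kw := by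
    intro a b h1 h2
    have e : a = (a - b) + b := by ring
    rw [e]
    exact (abs_add_le _ _).trans (by linarith)
  have kb : ∀ i, |(pullQ P W).b i| ≤ 2 * Kw := fun i => ad (h.b i) (hW.b i)
  have kd : ∀ i, |(pullQ P W).d i| ≤ 2 * Kw := fun i => ad (h.d i) (hW.d i)
  have kg : ∀ i j, |(pullQ P W).g i j| ≤ 2 * Kw := fun i j => ad (h.g i j) (hW.g i j)
  have k0 : |(pullQ P W).c0| ≤ 2 * Kw := ad h.c0 hW.c0
  have k1 : |(pullQ P W).c1| ≤ 2 * Kw := ad h.c1 hW.c1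
  have k2 : |(pullQ P W).c2| ≤ 2 * Kw := ad h.c2 hW.c2
  refine ⟨kb 0, fun k => ?_⟩
  have one : ∀ {x : ℝ}, |x| ≤ 2 * Kw → |x| ≤ 4 * Kw := fun h => h.trans (by linarith)
  have two : ∀ {x y : ℝ}, |x| ≤ 2 * Kw → |y| ≤ 2 * Kw → |x + y| ≤ 4 * Kw :=
    fun h h' => (abs_add_le _ _).trans (by linarith)
  fin_cases k
  · exact one (kg 0 0)
  · exact two (kg 0 2) (kg 2 0)
  · exact two (kg 0 1) (kg 1 0)
  · exact one (kg 2 2)
  · exact one (kd 0)
  · exact two (kg 1 2) (kg 2 1)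
  · refine two (kg 1 1) ?_
    rw [abs_mul]
    calc |κ| * |(pullQ P W).b 0| ≤ 1 * (2 * Kw) :=
          mul_le_mul hκ (kb 0) (abs_nonneg _) zero_le_one
      _ = _ := one_mul _
  · exact two (kd 2) (kb 0)
  · exact one (kd 1)
  · exact one k2
  · exact one (kb 2)
  · exact one (kb 1)
  · exact one k1
  · exact one k0

/-- **flags of a sheet from the flags of another one** -/
theorem flags_v {P : Pj} {η : ℝ} (hP : P.Sm η) (hη : 12 * η ≤ 1) {f : Fin 3 → V3} {c : Ln4} {u : Un}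
    {Q0 Qv : Qd} {κ σ m Kw Γ WY : ℝ} (hκ : |κ| ≤ 1) (hσ : 0 < σ) (hWY : 0 < WY)
    (hW : Sz (hatQ f c u (omq m Q0 Qv)) Kw) (m1 : 1 / 16 ≤ |m|) (m2 : |m| ≤ 16)
    (hν1 : WY / 8 ≤ |(pullQ P (hatQ f c u Q0)).b 0|)
    (hν2 : |(pullQ P (hatQ f c u Q0)).b 0| ≤ 8 * WY)
    (hΓ : ∀ k, |flg κ σ (pullQ P (hatQ f c u Q0)) k| ≤ Γ) (hKw : 100 * Kw ≤ WY) :
    WY / 200 ≤ |(pullQ P (hatQ f c u Qv)).b 0| ∧
      ∀ k, |flg κ σ (pullQ P (hatQ f c u Qv)) k| ≤ 3200 * (8 * Γ + 4 * (Kw / (WY * σ))) := by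
  obtain ⟨w1, w2⟩ := pull_sz hP hη hW hκ
  have e0 : hatQ f c u (omq m Q0 Qv) = dif (hatQ f c u Q0) (Wit321.mul m (hatQ f c u Qv)) :=
    Szo327.dif_mul_hat f c u m Q0 Qv
  rw [e0] at w1 w2
  rw [Szo327.b_pull_lin] at w1
  set A := pullQ P (hatQ f c u Q0) with hA
  set B := pullQ P (hatQ f c u Qv) with hB
  have mp : 0 < |m| := by linarith
  have hν : A.b 0 ≠ 0 := by
    intro e; rw [e, abs_zero] at hν1; linarith
  have k1 : WY / 10 ≤ |m| * |B.b 0| := by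
    rw [← abs_mul]
    have h1 := abs_sub_abs_le_abs_sub (A.b 0) (m * B.b 0)
    linarith
  have k2 : WY / 200 ≤ |B.b 0| := by
    have := mul_le_mul_of_nonneg_right m2 (abs_nonneg (B.b 0))
    linarith
  have hB0 : B.b 0 ≠ 0 := by
    intro e; rw [e, abs_zero] at k2; linarith
  refine ⟨k2, ?_⟩
  refine flg_le_of_rem hσ hB0 fun k => ?_
  have r1 := rem_le_of_flg hσ hν hΓ k
  have r2 := w2 k
  rw [Szo327.rem_pull_lin] at r2
  have hΓ0 : 0 ≤ Γ := (abs_nonneg _).trans (hΓ 0)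
  have hKw0 : 0 ≤ Kw := (abs_nonneg _).trans hW.c0
  have r3 : |m * rem κ B k| ≤ |A.b 0| * (σ * Γ) + 4 * Kw := by
    have e : m * rem κ B k = rem κ A k - (rem κ A k - m * rem κ B k) := by ring
    rw [e]
    exact (abs_sub _ _).trans (add_le_add r1 r2)
  rw [abs_mul] at r3
  have r4 : |rem κ B k| ≤ 16 * (8 * WY * (σ * Γ) + 4 * Kw) := by
    have h1 := mul_le_mul_of_nonneg_right m1 (abs_nonneg (rem κ B k))
    have h2 := mul_le_mul_of_nonneg_right hν2 (mul_nonneg hσ.le hΓ0)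
    linarith
  refine r4.trans ?_
  have e2 : σ * (3200 * (8 * Γ + 4 * (Kw / (WY * σ)))) = 3200 * (8 * (σ * Γ) + 4 * Kw / WY) := by
    field_simp
  rw [e2]
  have h3 : 0 ≤ 3200 * (8 * (σ * Γ) + 4 * Kw / WY) := by positivity
  have h4 := mul_le_mul_of_nonneg_right k2 h3
  refine le_trans (le_of_eq ?_) h4
  field_simp
  ring

/-- **the other direction** -/
theorem flags_0 {P : Pj} {η : ℝ} (hP : P.Sm η) (hη : 12 * η ≤ 1) {f : Fin 3 → V3} {c : Ln4} {u : Un}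
    {Q0 Qv : Qd} {κ σ m Kw Γ WY : ℝ} (hκ : |κ| ≤ 1) (hσ : 0 < σ) (hWY : 0 < WY)
    (hW : Sz (hatQ f c u (omq m Q0 Qv)) Kw) (m1 : 1 / 16 ≤ |m|) (m2' : |m| ≤ 16)
    (hν1 : WY / 200 ≤ |(pullQ P (hatQ f c u Qv)).b 0|)
    (hν2 : |(pullQ P (hatQ f c u Qv)).b 0| ≤ 200 * WY)
    (hΓ : ∀ k, |flg κ σ (pullQ P (hatQ f c u Qv)) k| ≤ Γ) (hKw : 10 ^ 4 * Kw ≤ WY) :
    WY / 10 ^ 4 ≤ |(pullQ P (hatQ f c u Q0)).b 0| ∧
      ∀ k, |flg κ σ (pullQ P (hatQ f c u Q0)) k| ≤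
        10 ^ 4 * (3200 * Γ + 4 * (Kw / (WY * σ))) := by
  obtain ⟨w1, w2⟩ := pull_sz hP hη hW hκ
  have e0 : hatQ f c u (omq m Q0 Qv) = dif (hatQ f c u Q0) (Wit321.mul m (hatQ f c u Qv)) :=
    Szo327.dif_mul_hat f c u m Q0 Qv
  rw [e0] at w1 w2
  rw [Szo327.b_pull_lin] at w1
  set A := pullQ P (hatQ f c u Q0) with hA
  set B := pullQ P (hatQ f c u Qv) with hB
  have mp : 0 < |m| := by linarith
  have hν : B.b 0 ≠ 0 := by
    intro e; rw [e, abs_zero] at hν1; linarith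
  have k1 : WY / 3200 ≤ |m * B.b 0| := by
    rw [abs_mul]
    calc WY / 3200 = 1 / 16 * (WY / 200) := by ring
      _ ≤ |m| * |B.b 0| := mul_le_mul m1 hν1 (by positivity) (abs_nonneg _)
  have k2 : WY / 10 ^ 4 ≤ |A.b 0| := by
    have h1 := abs_sub_abs_le_abs_sub (m * B.b 0) (A.b 0)
    rw [abs_sub_comm] at h1
    have h2 : WY / 3200 - 2 * Kw ≤ |A.b 0| := by linarith
    have h3 : WY / 10 ^ 4 + 2 * (WY / 10 ^ 4) ≤ WY / 3200 := by linarith
    have h4 : Kw ≤ WY / 10 ^ 4 := by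
      rw [le_div_iff₀ (by norm_num)]; linarith
    linarith
  have hA0 : A.b 0 ≠ 0 := by
    intro e
    rw [e, abs_zero] at k2
    have : 0 < WY / 10 ^ 4 := by positivity
    linarith
  refine ⟨k2, ?_⟩
  refine flg_le_of_rem hσ hA0 fun k => ?_
  have r1 := rem_le_of_flg hσ hν hΓ k
  have r2 := w2 k
  rw [Szo327.rem_pull_lin] at r2
  have hΓ0 : 0 ≤ Γ := (abs_nonneg _).trans (hΓ 0)
  have hKw0 : 0 ≤ Kw := (abs_nonneg _).trans hW.c0
  have r3 : |rem κ A k| ≤ 16 * (200 * WY * (σ * Γ)) + 4 * Kw := by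
    have e : rem κ A k = m * rem κ B k + (rem κ A k - m * rem κ B k) := by ring
    rw [e]
    refine (abs_add_le _ _).trans (add_le_add ?_ r2)
    rw [abs_mul]
    refine mul_le_mul m2' ?_ (abs_nonneg _) (by norm_num)
    exact r1.trans (mul_le_mul_of_nonneg_right hν2 (mul_nonneg hσ.le hΓ0))
  refine r3.trans ?_
  have e2 : σ * (10 ^ 4 * (3200 * Γ + 4 * (Kw / (WY * σ)))) =
      10 ^ 4 * (3200 * (σ * Γ) + 4 * Kw / WY) := by
    field_simp
  rw [e2]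
  have h3 : 0 ≤ 10 ^ 4 * (3200 * (σ * Γ) + 4 * Kw / WY) := by positivity
  have h4 := mul_le_mul_of_nonneg_right k2 h3
  refine le_trans (le_of_eq ?_) h4
  field_simp
  ring

/-- cells are nested -/
theorem cell_nest {i j : ℕ} (h : i ≤ j) (z : ℝ) : zl i (zc i z) ≤ zl j (zc j z) ∧
    zl j (zc j z) + rho j ≤ zl i (zc i z) + rho i := by
  have hp : (0:ℝ) < 2 ^ i := by positivity
  have hq : (0:ℝ) < 2 ^ j := by positivity
  have e0 : (2:ℝ) ^ j = 2 ^ (j - i) * 2 ^ i := by rw [← pow_add]; congr 1; omega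
  have e1 : 2 ^ (j - i) * zc i z ≤ zc j z := by
    unfold zc
    rw [Int.le_floor]
    push_cast
    rw [e0, mul_assoc]
    exact mul_le_mul_of_nonneg_left (Int.floor_le _) (by positivity)
  have e2 : zc j z + 1 ≤ 2 ^ (j - i) * (zc i z + 1) := by
    have h3 : zc j z < 2 ^ (j - i) * (zc i z + 1) := by
      unfold zc
      rw [Int.floor_lt]
      push_cast
      rw [e0, mul_assoc]
      exact mul_lt_mul_of_pos_left (Int.lt_floor_add_one _) (by positivity)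
    omega
  have e3 : (2:ℝ) ^ (j - i) * (zc i z : ℝ) ≤ zc j z := by exact_mod_cast e1
  have e4 : (zc j z : ℝ) + 1 ≤ 2 ^ (j - i) * ((zc i z : ℝ) + 1) := by exact_mod_cast e2
  unfold zl rho
  constructor
  · rw [div_le_div_iff₀ hp hq, e0]
    nlinarith
  · rw [← add_div, ← add_div, div_le_div_iff₀ hq hp, e0]
    nlinarith

/-- numbers -/
theorem mb_num {t R Y r A1 α : ℝ} (ht : 10 ^ 6 ≤ t) (hR1 : 1 ≤ R) (hR : R ≤ t) (hY0 : 0 < Y)
    (hY1 : Y ≤ t ^ 2) (hY2 : 1 ≤ t ^ 2 * Y) (hr : 0 < r) (hr' : 1 ≤ t * r) (hA0 : 0 ≤ A1)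
    (hA : A1 ≤ t) (hα : 0 < α) (hα' : 1 ≤ t ^ 2 * α) :
    1200 * (1 * (200 * Y + Bas.sz R r Y A1) ^ 2) / (Y * α) ≤ t ^ 15 ∧
      ∀ K, 0 ≤ K → 10 ^ 4 * R ^ 4 * (18 * (K * (t ^ 15) ^ 2) / r) / r ^ 2 ≤ K * t ^ 38 := by
  have t0 : 0 < t := by linarith
  have t1 : 1 ≤ t := by linarith
  constructor
  · have s1 : R * Y / r ≤ t ^ 4 := by
      rw [div_le_iff₀ hr]
      calc R * Y ≤ t * t ^ 2 := mul_le_mul hR hY1 hY0.le t0.le
        _ = t ^ 3 * 1 := by ring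
        _ ≤ t ^ 3 * (t * r) := mul_le_mul_of_nonneg_left hr' (by positivity)
        _ = t ^ 4 * r := by ring
    have s2 : R ^ 2 * A1 ≤ t ^ 4 := by
      calc R ^ 2 * A1 ≤ t ^ 2 * t :=
            mul_le_mul (pow_le_pow_left₀ (by linarith) hR 2) hA hA0 (by positivity)
        _ = t ^ 3 := by ring
        _ ≤ t ^ 4 := pow_le_pow_right₀ t1 (by norm_num)
    have s3 : Y ≤ t ^ 4 := hY1.trans (pow_le_pow_right₀ t1 (by norm_num))
    have s4 : 200 * Y + Bas.sz R r Y A1 ≤ t ^ 5 := by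
      unfold Bas.sz
      have k1 : 414 * t ^ 4 ≤ t * t ^ 4 :=
        mul_le_mul_of_nonneg_right (by linarith) (by positivity)
      have k2 : t * t ^ 4 = t ^ 5 := by ring
      linarith
    have s5 : 0 ≤ 200 * Y + Bas.sz R r Y A1 := by unfold Bas.sz; positivity
    rw [div_le_iff₀ (by positivity)]
    have s6 := pow_le_pow_left₀ s5 s4 2
    have s7 : 1 ≤ t ^ 2 * Y * (t ^ 2 * α) := one_le_mul_of_one_le_of_one_le hY2 hα'
    calc 1200 * (1 * (200 * Y + Bas.sz R r Y A1) ^ 2) ≤ 1200 * (1 * (t ^ 5) ^ 2) := by linarith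
      _ = 1200 * t ^ 10 := by ring
      _ ≤ t * t ^ 10 := mul_le_mul_of_nonneg_right (by linarith) (by positivity)
      _ = t ^ 11 * 1 := by ring
      _ ≤ t ^ 11 * (t ^ 2 * Y * (t ^ 2 * α)) := mul_le_mul_of_nonneg_left s7 (by positivity)
      _ = t ^ 15 * (Y * α) := by ring
  · intro K hK
    have e : 10 ^ 4 * R ^ 4 * (18 * (K * (t ^ 15) ^ 2) / r) / r ^ 2 =
        180000 * (R ^ 4 * (K * t ^ 30)) / r ^ 3 := by
      field_simp
      ring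
    rw [e, div_le_iff₀ (by positivity)]
    have s1 : R ^ 4 ≤ t ^ 4 := pow_le_pow_left₀ (by linarith) hR 4
    have s2 : R ^ 4 * (K * t ^ 30) ≤ t ^ 4 * (K * t ^ 30) :=
      mul_le_mul_of_nonneg_right s1 (by positivity)
    have s3 : (1 : ℝ) ≤ (t * r) ^ 3 := one_le_pow₀ hr'
    calc 180000 * (R ^ 4 * (K * t ^ 30)) ≤ t * (t ^ 4 * (K * t ^ 30)) :=
          mul_le_mul (by linarith) s2 (by positivity) t0.le
      _ = K * t ^ 35 * 1 := by ring
      _ ≤ K * t ^ 35 * (t * r) ^ 3 := mul_le_mul_of_nonneg_left s3 (by positivity)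
      _ = K * t ^ 38 * r ^ 3 := by ring

/-- decay of a width -/
theorem wid_ge {σ' : Type*} {G : Geo σ' (Fin 3)} {B : Base} {I : ℕ → Finset (ℕ × ℝ)}
    {lev : ℕ → ℚ → ℕ} {A : ℕ → ℝ} {c Λ : ℝ → ℝ} {θ : Fin 3 → ℝ} {f : ℕ → ℚ → ℕ → ℤ → ℕ}
    {b : ℕ → ℚ → ℕ → σ'} {vm : ℕ → ℚ → ℝ} {w : Fin 3 → ℕ → ℚ → ℝ}
    (h : MkA B I G lev A c Λ (fun j v => θ j * (1 - v)) f b vm w) (k : Fin 3) {v : ℚ}
    (h0 : 0 ≤ v) (h1 : v ≤ 1) : ∀ᶠ n in (U : Filter ℕ),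
      w k n 0 ≤ w k n v * B.d n ^ (-(|1 - θ k| + 1)) := by
  have ht := (tau_zero h k h0 h1).eventually_lt_const
    (show (1 - θ k) * (v : ℝ) < (1 - θ k) * v + 1 by linarith)
  filter_upwards [ht, h.wpos k v h0 h1, h.wpos k 0 le_rfl zero_le_one] with n a1 a2 a3
  refine le_of_log a3 a2 ?_
  rw [Real.log_div a2.ne' a3.ne']
  have e : (Real.log (w k n v) - Real.log (w k n 0)) / B.L n =
      -((Real.log (w k n 0) - Real.log (w k n v)) / B.L n) := by ring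
  rw [e]
  have v0 : (0 : ℝ) ≤ v := by exact_mod_cast h0
  have v1 : (v : ℝ) ≤ 1 := by exact_mod_cast h1
  have : (1 - θ k) * v ≤ |1 - θ k| := by
    have e := le_abs_self ((1 - θ k) * (v : ℝ))
    rw [abs_mul, abs_of_nonneg v0] at e
    have : |1 - θ k| * (v : ℝ) ≤ |1 - θ k| * 1 := mul_le_mul_of_nonneg_left v1 (abs_nonneg _)
    linarith
  linarith

section seq

variable {p : Par4} {D : Dat4} {K : ℕ → CtD} {x0 : ℕ → ℕ × ℝ}

set_option maxHeartbeats 1600000 in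
/-- **flags of all levels** : the field `Mb` of `StcA` -/
theorem Mb_of (h : ThinW p D) (hK : StcK p D K x0)
    (lv : ∀ C : ℝ, ∀ v : ℚ, 0 ≤ v → v ≤ 1 → ∃ C2 M : ℝ,
      ∀ᶠ n in (U : Filter ℕ), ∀ x ∈ D.I n, Gd D K C n x →
        LvD D K n v x (D.B.d n ^ (1 : ℝ)) (D.B.d n ^ (-C2)) (D.B.d n ^ M)) :
    ∀ C : ℝ, ∀ v : ℚ, 0 ≤ v → v ≤ 1 → ∃ C' : ℝ, ∀ᶠ n in (U : Filter ℕ), ∀ x ∈ D.I n,
      Gd D K C n x → ((K n).Q (mk4 D n v x).q).b 0 ≠ 0 ∧
        ∀ k, |MkS D K v n (kc (D.lev n v) (D.f n v) x) k| ≤ D.B.d n ^ (-C') := by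
  intro C v h0 h1
  obtain ⟨C2, M, hC2⟩ := lv C v h0 h1
  set a : ℝ := |1 - p.θ 0| + |1 - p.θ 1| + |1 - p.θ 2| with ha
  set e : ℝ := max (max C C2) 0 + a + 4 with he
  have a0 := abs_nonneg (1 - p.θ 0)
  have a1 := abs_nonneg (1 - p.θ 1)
  have a2' := abs_nonneg (1 - p.θ 2)
  have m0 : 0 ≤ max (max C C2) 0 := le_max_right _ _
  have eC : C ≤ e := by
    have : C ≤ max (max C C2) 0 := (le_max_left _ _).trans (le_max_left _ _)
    linarith
  have eC2 : C2 ≤ e := by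
    have : C2 ≤ max (max C C2) 0 := (le_max_right _ _).trans (le_max_left _ _)
    linarith
  have e4 : 4 ≤ e := by linarith
  have ep : 0 < e := by linarith
  refine ⟨41 * e, ?_⟩
  filter_upwards [hC2, mk_facts h.mka h0 h1, mk_facts h.mka le_rfl zero_le_one,
    cell_v h.mka hK h0 h1, hK.sm 1, hK.σs (41 * e), hK.σw, hK.wid 1 one_pos,
    Wcn464.wid_le h.mka 0 h0 h1, Wcn464.wid_le h.mka 1 h0 h1, wid_ge h.mka 1 h0 h1,
    wid_ge h.mka 2 h0 h1, h.mka.lev_mono 0 v le_rfl h0 h1, ev_const D.B (C := 10 ^ 6) (by norm_num) ep,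
    ev_const D.B (C := 1000) (by norm_num) one_pos] with n b1 b2 b3 b4 b5 b6 b7 b8 c0 c1 c2 c3 b9
      b10 b11 x hx hg
  obtain ⟨B0, B1, G, B0p, B1p, Gp, O, hE, q1, q2, -, q3, q4, hN, hB, y1, y2, hpv, hzh, X, X0, -, X2,
    hO⟩ := (b1 x hx hg).ex
  obtain ⟨mv0, mv⟩ := b2
  obtain ⟨v1, v2, v3, v4, v5⟩ := mv x hx
  obtain ⟨mo0, mo⟩ := b3
  obtain ⟨o1, o2, o3, o4, o5⟩ := mo x hx
  have dp := dpow_pos D.B n
  have hWA := (hK.ok n).A0
  have hWB := (hK.ok n).B0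
  have hWY := (hK.ok n).Y0
  have hH := (hK.ok n).H0
  set t : ℝ := D.B.d n ^ (-e) with ht
  have t0 : 0 < t := dp _
  have t1 : 1 ≤ t := by linarith
  set dd : ℝ := D.B.d n ^ (1 : ℝ) with hdd
  have dd0 : 0 < dd := dp _
  have ed : D.B.d n ^ (-(1 : ℝ)) * dd = 1 := by rw [hdd, ← dpow_add]; simp
  have hd1 : 1000 * dd ≤ 1 := by
    have := mul_le_mul_of_nonneg_right b11 dd0.le
    linarith
  -- the widths
  set s1 : ℝ := D.B.d n ^ (-(|1 - p.θ 1| + 2)) with hs1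
  set s2 : ℝ := D.B.d n ^ (-(|1 - p.θ 2| + 2)) with hs2
  have s10 : 0 < s1 := dp _
  have s20 : 0 < s2 := dp _
  have es1 : s1 * D.B.d n ^ (-(1 : ℝ)) ≤ t := by
    rw [hs1, ← dpow_add]
    exact dpow_le D.B n (by linarith)
  have es2 : s2 ≤ t := dpow_le D.B n (by linarith)
  have es1' : s1 ≤ t := dpow_le D.B n (by linarith)
  set A1 : ℝ := (mk4 D n v x).w 1 / (K n).u.WA with hA1
  set A2 : ℝ := (mk4 D n v x).w 2 / (K n).u.WB with hA2
  have A10 : 0 < A1 := div_pos (O.pos 1) hWA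
  have A20 : 0 < A2 := div_pos (O.pos 2) hWB
  have A1u : A1 ≤ s1 := by
    rw [hA1, div_le_iff₀ hWA, v4]
    have k1 := mul_le_mul_of_nonneg_right b8.2.1 (dp (-(|1 - p.θ 1| + 1))).le
    refine (c1.trans k1).trans (le_of_eq ?_)
    have e1 : s1 = D.B.d n ^ (-(1 : ℝ)) * D.B.d n ^ (-(|1 - p.θ 1| + 1)) := by
      rw [hs1, ← dpow_add]; congr 1; ring
    rw [e1]; ring
  have low : ∀ {w0 wv W E : ℝ}, 0 < W → dd * W ≤ w0 → w0 ≤ wv * D.B.d n ^ (-(E + 1)) →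
      1 ≤ D.B.d n ^ (-(E + 2)) * (wv / W) := by
    intro w0 wv W E hW k1 k2
    have e1 : D.B.d n ^ (-(E + 2)) = D.B.d n ^ (-(1 : ℝ)) * D.B.d n ^ (-(E + 1)) := by
      rw [← dpow_add]; congr 1; ring
    have k3 := mul_le_mul_of_nonneg_left (k1.trans k2) (dp (-(1 : ℝ))).le
    rw [← mul_assoc, ed, one_mul] at k3
    have e2 : D.B.d n ^ (-(E + 2)) * (wv / W) =
        D.B.d n ^ (-(1 : ℝ)) * (wv * D.B.d n ^ (-(E + 1))) / W := by rw [e1]; ring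
    rw [e2, le_div_iff₀ hW, one_mul]
    exact k3
  have A1l : 1 ≤ s1 * A1 := by
    rw [hA1, v4]; exact low hWA b8.1 c2
  have A2l : 1 ≤ s2 * A2 := by
    rw [hA2, v5]; exact low hWB b8.2.2.1 c3
  have hα : 0 < A1 * A2 := mul_pos A10 A20
  have hα' : 1 ≤ t ^ 2 * (A1 * A2) := by
    calc (1 : ℝ) ≤ s1 * A1 * (s2 * A2) := one_le_mul_of_one_le_of_one_le A1l A2l
      _ ≤ t * A1 * (t * A2) := mul_le_mul (mul_le_mul_of_nonneg_right es1' A10.le)
          (mul_le_mul_of_nonneg_right es2 A20.le) (by positivity) (by positivity)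
      _ = t ^ 2 * (A1 * A2) := by ring
  -- the curvature extent
  set ν := ((K n).Q (mk4 D n 0 x).q).b 0 with hν
  have hν0 : 0 < |ν| := by linarith
  set Ye : ℝ := (mk4 D n v x).w 0 * kap B0 B1 G with hYe
  have Ye0 : 0 < Ye := O.Ye0
  set Y : ℝ := Ye / |ν| with hY
  have Y0 : 0 < Y := div_pos Ye0 hν0
  have Y1 : Y ≤ t ^ 2 := by
    rw [hY, div_le_iff₀ hν0]
    have k1 : dd * Ye ≤ (K n).u.WY * s1 ^ 2 := by
      refine y1.trans ?_
      exact mul_le_mul_of_nonneg_left (pow_le_pow_left₀ A10.le A1u 2) hWY.le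
    have k2 := mul_le_mul_of_nonneg_left k1 (dp (-(1 : ℝ))).le
    rw [← mul_assoc, ed, one_mul] at k2
    have k3 : t ^ 2 * ((K n).u.WY / 8) ≤ t ^ 2 * |ν| := mul_le_mul_of_nonneg_left q3 (by positivity)
    refine le_trans ?_ k3
    have k4 : (s1 * D.B.d n ^ (-(1 : ℝ))) ^ 2 ≤ t ^ 2 :=
      pow_le_pow_left₀ (mul_pos s10 (dp _)).le es1 2
    have k5 := mul_le_mul_of_nonneg_right k4 (show 0 ≤ (K n).u.WY / 8 by positivity)
    refine le_trans ?_ k5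
    refine k2.trans ?_
    have k6 : 8 * (D.B.d n ^ (-(1 : ℝ)) * ((K n).u.WY * s1 ^ 2)) ≤
        D.B.d n ^ (-(1 : ℝ)) * (D.B.d n ^ (-(1 : ℝ)) * ((K n).u.WY * s1 ^ 2)) :=
      mul_le_mul_of_nonneg_right (by linarith) (mul_pos (dp _) (by positivity)).le
    have e1 : (s1 * D.B.d n ^ (-(1 : ℝ))) ^ 2 * ((K n).u.WY / 8) =
        D.B.d n ^ (-(1 : ℝ)) * (D.B.d n ^ (-(1 : ℝ)) * ((K n).u.WY * s1 ^ 2)) / 8 := by ring
    rw [e1]
    linarith
  have Y2 : 1 ≤ t ^ 2 * Y := by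
    have k1 : dd * ((K n).u.WY * A1 ^ 2) ≤ Ye := y2
    have k2 : dd * A1 ^ 2 / 8 ≤ Y := by
      rw [hY, le_div_iff₀ hν0]
      have k3 := mul_le_mul_of_nonneg_left q4 (show 0 ≤ dd * A1 ^ 2 / 8 by positivity)
      refine k3.trans (le_trans (le_of_eq ?_) k1)
      ring
    have k4 : (s1 * D.B.d n ^ (-(1 : ℝ))) ^ 2 ≤ t ^ 2 :=
      pow_le_pow_left₀ (mul_pos s10 (dp _)).le es1 2
    have k5 : (s1 * D.B.d n ^ (-(1 : ℝ))) ^ 2 * (dd * A1 ^ 2 / 8) ≤ t ^ 2 * Y :=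
      mul_le_mul k4 k2 (by positivity) (by positivity)
    refine le_trans ?_ k5
    have e1 : (s1 * D.B.d n ^ (-(1 : ℝ))) ^ 2 * (dd * A1 ^ 2 / 8) =
        (s1 * A1) ^ 2 * (D.B.d n ^ (-(1 : ℝ)) * (D.B.d n ^ (-(1 : ℝ)) * dd) / 8) := by ring
    rw [e1, ed, mul_one]
    have k6 : (1 : ℝ) ≤ (s1 * A1) ^ 2 := one_le_pow₀ A1l
    exact one_le_mul_of_one_le_of_one_le k6 (by linarith)
  -- the cell
  have hr := hB.rh0
  have erh : rh D n v / (K n).u.H = rhN D.lev (hzS K) n v := by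
    show rho (D.lev n v) / (K n).u.H = 1 / (K n).u.H * rho (D.lev n v)
    ring
  have hv1 : (v : ℝ) ≤ 1 := by exact_mod_cast h1
  have hr' : 1 ≤ t * (rh D n v / (K n).u.H) := by
    rw [erh]
    have k1 := mul_le_mul_of_nonneg_left b4.1 t0.le
    refine le_trans ?_ k1
    rw [ht, ← dpow_add]
    exact Real.one_le_rpow_of_pos_of_le_one_of_nonpos (D.B.pos n) (D.B.lt n).le (by linarith)
  have hR : D.B.d n ^ (-C2) ≤ t := dpow_le D.B n (by linarith)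
  obtain ⟨n1, n2⟩ := mb_num b10 hB.R1 hR Y0 Y1 Y2 hr hr' A10.le (A1u.trans es1') hα hα'
  -- values on the cell
  have hsv := qdOf_spec v2.isQ
  have hs0 := qdOf_spec o2.isQ
  set Kk : ℝ := D.w 0 n 0 * t ^ 2 with hKk
  have tt : t ≤ t ^ 2 := le_self_pow₀ t1 (by norm_num)
  have hKX : Ye * X ≤ Kk := by
    refine X2.trans ?_
    rw [hKk, mul_comm]
    exact mul_le_mul_of_nonneg_left (hR.trans tt) mo0.le
  have hwv : D.w 0 n v ≤ D.w 0 n 0 * t :=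
    c0.trans (mul_le_mul_of_nonneg_left (dpow_le D.B n (by linarith)) mo0.le)
  have cell : ∀ z, zx D n v x ≤ z → z ≤ zx D n v x + rh D n v →
      |(qdOf (mk4 D n 0 x).q).ev z ((D.L n x.1).pos z) - B0p 0 / B0 0 *
        (qdOf (mk4 D n v x).q).ev z ((D.L n x.1).pos z)| ≤ Kk := by
    intro z z1 z2
    rw [← hsv.1, ← hs0.1]
    obtain ⟨u1, u2⟩ := cell_nest b9 x.2
    have k1 := (v1 z z1 z2).2
    have k2 := (o1 z (u1.trans z1) (z2.trans u2)).2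
    rw [v3] at k1
    rw [o3] at k2
    refine (abs_sub _ _).trans ?_
    rw [abs_mul]
    have k3 : |B0p 0 / B0 0| * |(mk4 D n v x).q z ((D.L n x.1).pos z)| ≤ 16 * D.w 0 n v :=
      mul_le_mul q2 k1 (abs_nonneg _) (by norm_num)
    have k4 : D.w 0 n 0 ≤ D.w 0 n 0 * t := le_mul_of_one_le_right mo0.le t1
    have k5 : 17 * (D.w 0 n 0 * t) ≤ t * (D.w 0 n 0 * t) :=
      mul_le_mul_of_nonneg_right (by linarith) (by positivity)
    have k6 : t * (D.w 0 n 0 * t) = Kk := by rw [hKk]; ring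
    linarith
  have Kk0 : 0 ≤ Kk := by rw [hKk]; positivity
  have hW := om_sz O (hK.ortho n) (c := (K n).c) (hK.ok n) hsv.1 hs0.2 hsv.2 hE X0 hO hB
    (fun k => (hpv k).1) (fun k => (hpv k).2) (hzh.trans hB.R1) hKX cell n1
    (one_le_pow₀ t1)
  have hKw := n2 Kk Kk0
  set Kw : ℝ := 10 ^ 4 * (D.B.d n ^ (-C2)) ^ 4 * (18 * (Kk * (t ^ 15) ^ 2) /
    (rh D n v / (K n).u.H)) / (rh D n v / (K n).u.H) ^ 2 with hKwd
  have k40 : Kw ≤ D.w 0 n 0 * t ^ 40 := by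
    refine hKw.trans (le_of_eq ?_)
    rw [hKk]; ring
  have t40 : t ^ 40 = D.B.d n ^ (-(40 * e)) := by
    rw [ht, ← Real.rpow_natCast, ← Real.rpow_mul (D.B.pos n).le]; congr 1; push_cast; ring
  have t41 : t ^ 41 = D.B.d n ^ (-(41 * e)) := by
    rw [ht, ← Real.rpow_natCast, ← Real.rpow_mul (D.B.pos n).le]; congr 1; push_cast; ring
  have hσ := hK.σ0 n
  have hσt : (K n).σ * t ^ 41 ≤ 1 := by
    have k1 := mul_le_mul_of_nonneg_right b6 (show 0 ≤ t ^ 41 by positivity)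
    refine k1.trans (le_of_eq ?_)
    rw [t41, ← dpow_add]; simp
  have k100 : 100 * Kw ≤ (K n).u.WY := by
    have k1 : 100 * (D.w 0 n 0 * t ^ 40) ≤ t * (D.w 0 n 0 * t ^ 40) :=
      mul_le_mul_of_nonneg_right (by linarith) (by positivity)
    have k2 : t * (D.w 0 n 0 * t ^ 40) = (K n).u.WY * ((K n).σ * t ^ 41) := by
      rw [← b7]; ring
    have k3 := mul_le_mul_of_nonneg_left hσt hWY.le
    linarith
  obtain ⟨r1, r2⟩ := flags_v (Γ := t) (b5.inv (by linarith)) (by linarith) (hK.kp1 n) hσ hWY hW q1 q2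
    q3 q4 (fun k => (hg.2.2 k).trans (dpow_le D.B n (by linarith))) k100
  refine ⟨fun e0 => ?_, fun k => (r2 k).trans ?_⟩
  · have r1' : (K n).u.WY / 200 ≤ |((K n).Q (mk4 D n v x).q).b 0| := r1
    rw [e0, abs_zero] at r1'
    linarith
  · rw [← t41]
    have k1 : Kw / ((K n).u.WY * (K n).σ) ≤ t ^ 40 := by
      rw [b7, div_le_iff₀ mo0]
      linarith
    have k2 : t ≤ t ^ 40 := le_self_pow₀ t1 (by norm_num)
    have k3 : 38400 * t ^ 40 ≤ t * t ^ 40 :=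
      mul_le_mul_of_nonneg_right (by linarith) (by positivity)
    have k4 : t * t ^ 40 = t ^ 41 := by ring
    linarith

end seq

end Crest.Agent.R136.Stk464
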