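import Crest.Agent.R136.Stc5_321
import Crest.Agent.R136.StcD_321
import Crest.Agent.R136.Szo_327
import Crest.Agent.R136.Stc7_321
import Crest.Agent.R136.Stk5_464
import Crest.Agent.R136.Lat2_327
import Crest.Agent.R136.Stc9_321

-- ▼ part R136/Clw1_768
section

/-!
# R136, U6 thin side, stage C (helper768): closeness of the sheets of two levels, finite part 1

`om_pt` : values of `q' - m q` at a point near the line, in container coordinates;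
`dsp` : displacement of a point of the model quadric from the line, through the straightening map.
-/

set_option autoImplicit false
set_option linter.unusedVariables false

namespace Crest.Agent.R136.Clw768

open Crest.Agent.R136.Sh605
open Crest.Agent.R136.K4
open Crest.Agent.R136.NetW191
open Crest.Agent.R136.GeoN778
open Crest.Agent.R136.Wit321
open Crest.Agent.R136.Tl102 (QF Fq bz fan shB0 scB1 scG shG shB1 kap NrmC IsExp fr cmb StP OmB om0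
  om1 omM tv pv gl om_val cmb_pv sD)
open Crest.Agent.R136.Thn768 (Own Snd Tay cr dtm ev_le bs)
open Crest.Agent.R136.Stc321

/-- values of `ω` in own coordinates -/
theorem fq_om_le {κ X : ℝ} {b0 b1 : V3} {G : QF} {b0' b1' : V3} {G' : QF} (hb : b0 0 ≠ 0)
    (O : OmB κ X X X b0 b1 G b0' b1' G') {ζ : ℝ} (h0 : 0 ≤ ζ) (h1 : ζ ≤ 1) {τ : V3}
    (hτ : ∀ k, |τ k| ≤ 1) :
    |Fq (om0 κ b0 b0') (om1 κ b0 b1 b0' b1') (omM κ b0 G b0' G') ζ τ| ≤ 11 * X := by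
  have hX : 0 ≤ X := O.nonneg.1
  have hζ : |ζ| ≤ 1 := by rw [abs_of_nonneg h0]; exact h1
  have z0 : om0 κ b0 b0' 0 = 0 := Tl102.om0_zero κ hb b0'
  have hM : (omM κ b0 G b0' G').Le X := ⟨O.yy, O.yu, O.yv, O.uu, O.uv, O.vv⟩
  have h2 := ev_le hM hτ
  have k0 : |om1 κ b0 b1 b0' b1' 0| ≤ X := O.y1
  have e : dt (bz (om0 κ b0 b0') (om1 κ b0 b1 b0' b1') ζ) τ =
      (ζ * om1 κ b0 b1 b0' b1' 0) * τ 0 + (om0 κ b0 b0' 1 + ζ * om1 κ b0 b1 b0' b1' 1) * τ 1 +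
        (om0 κ b0 b0' 2 + ζ * om1 κ b0 b1 b0' b1' 2) * τ 2 := by
    simp only [dt, bz, z0]; ring
  unfold Fq
  rw [e]
  have a0 := m2 (m2 hζ k0) (hτ 0)
  have a1 := m2 (a2 O.h01 (m2 hζ O.h11)) (hτ 1)
  have a2' := m2 (a2 O.h02 (m2 hζ O.h12)) (hτ 2)
  refine (a2 (a2 (a2 a0 a1) a2') h2).trans (le_of_eq (by ring))

section pt

variable {S : Plk4} {T : Ln4} {z0 ρ δ : ℝ} {b0 b1 : V3} {G : QF} {f : Fin 3 → V3} {c : Ln4} {u : Un}

/-- own coordinates of a vector given in container coordinates -/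
noncomputable def tc (f : Fin 3 → V3) (u : Un) (S : Plk4) (b0 b1 : V3) (G : QF) (V : V3) : V3 :=
  tv (kap b0 b1 G) b0 S.e S.w (cmb (fW f u) V)

/-- a vector is a combination of the adapted basis -/
theorem tc_spec (O : Own S T z0 ρ δ b0 b1 G) (hf : Ortho f) (hu : u.Ok) (V : V3) (k : Fin 3) :
    V k = tc f u S b0 b1 G V 0 * φb f u S.e S.w (kap b0 b1 G) b0 0 k +
      tc f u S b0 b1 G V 1 * φb f u S.e S.w (kap b0 b1 G) b0 1 k +
      tc f u S b0 b1 G V 2 * φb f u S.e S.w (kap b0 b1 G) b0 2 k := by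
  set κs := kap b0 b1 G with hκs
  set τ := tc f u S b0 b1 G V with hτ
  have hW : u.W k ≠ 0 := (hu.W0 k).ne'
  have h1 : cmb (bs S.e S.w b0 κs) τ = cmb (fW f u) V := O.cmb_tv (cmb (fW f u) V)
  have h2 : dt (f k) (cmb (fW f u) V) = u.W k * V k := dt_cmb_fW hf u V k
  have h3 : V k = dt (f k) (cmb (fW f u) V) / u.W k := by
    rw [h2]; field_simp
  have h4 : ∀ i, φb f u S.e S.w κs b0 i k = dt (f k) (bs S.e S.w b0 κs i) / u.W k := by
    intro i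
    have e : cmb (fr S.e S.w) (tb κs b0 i) = bs S.e S.w b0 κs i := by
      funext j
      fin_cases i
      · simp [cmb, Tl102.fr, tb, bs]; ring
      · simp [cmb, Tl102.fr, tb, tE, bs]; ring
      · simp [cmb, Tl102.fr, tb, tE, bs]; ring
    show dt (f k) (cmb (fr S.e S.w) (tb κs b0 i)) / u.W k = _
    rw [e]
  rw [h4, h4, h4, h3, ← h1]
  simp only [dt, cmb]
  ring

/-- **values of `q' - m q` near the line**, container coordinates -/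
theorem om_pt (O : Own S T z0 ρ δ b0 b1 G) (hf : Ortho f) (hu : u.Ok) {Qv Qu : Qd}
    (hv : S.q = Qv.ev) {b0' b1' : V3} {G' : QF} {X : ℝ}
    (hE : IsExp Qu.ev S.e S.w T z0 ρ b0' b1' G')
    (hO : OmB (kap b0 b1 G) X X X b0 b1 G b0' b1' G') {ζ : ℝ} (ζ0 : 0 ≤ ζ) (ζ1 : ζ ≤ 1) {V : V3}
    (hτ : ∀ k, |tc f u S b0 b1 G V k| ≤ 1) {tv' tu' M : ℝ} (hm : |b0' 0 / b0 0| ≤ M)
    (h1 : |Qv.ev (z0 + ρ * ζ) (T.pos (z0 + ρ * ζ))| ≤ tv')
    (h2 : |Qu.ev (z0 + ρ * ζ) (T.pos (z0 + ρ * ζ))| ≤ tu') :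
    |(hatQ f c u Qu).ev (u.zh (z0 + ρ * ζ))
        (fun k => (ul u (rl f c T)).pos (u.zh (z0 + ρ * ζ)) k + V k) -
      b0' 0 / b0 0 * (hatQ f c u Qv).ev (u.zh (z0 + ρ * ζ))
        (fun k => (ul u (rl f c T)).pos (u.zh (z0 + ρ * ζ)) k + V k)| ≤
      11 * (X * (S.w 0 * kap b0 b1 G)) + tu' + M * tv' := by
  set z := z0 + ρ * ζ with hz
  set κs := kap b0 b1 G with hκs
  obtain ⟨n1, n2, n3, n4, n5, n6, n7⟩ := NrmC.base O.nrm
  have hb0 : b0 0 ≠ 0 := by linarith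
  have hκ : κs ≠ 0 := O.k0.ne'
  have hw : ∀ k, S.w k ≠ 0 := fun k => (O.pos k).ne'
  have e1 : (fun k => (ul u (rl f c T)).pos (u.zh z) k + V k) =
      u.xh (phi f c z (T.pos z + cmb (fW f u) V)) := (xh_fW hf hu T z V).symm
  rw [e1, hatQ_ev hf c hu, hatQ_ev hf c hu]
  have hEv : IsExp Qv.ev S.e S.w T z0 ρ b0 b1 G := by rw [← hv]; exact O.exp
  have h3 := om_val O.ortho hw hEv hE hκ ζ (T.pos z + cmb (fW f u) V)
  rw [← hz] at h3
  have e2 : T.pos z + cmb (fW f u) V - T.pos z = cmb (fW f u) V := by abel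
  rw [e2] at h3
  have h4 := fq_om_le hb0 hO ζ0 ζ1 hτ
  have hYe : 0 < S.w 0 * κs := mul_pos (O.pos 0) O.k0
  have e3 : Qu.ev z (T.pos z + cmb (fW f u) V) - b0' 0 / b0 0 * Qv.ev z (T.pos z + cmb (fW f u) V) =
      S.w 0 * κs * Fq (om0 κs b0 b0') (om1 κs b0 b1 b0' b1') (omM κs b0 G b0' G') ζ
        (tv κs b0 S.e S.w (cmb (fW f u) V)) + Qu.ev z (T.pos z) -
        b0' 0 / b0 0 * Qv.ev z (T.pos z) := by
    rw [← h3]; ring
  rw [e3]
  have h5 : |S.w 0 * κs * Fq (om0 κs b0 b0') (om1 κs b0 b1 b0' b1') (omM κs b0 G b0' G') ζ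
        (tv κs b0 S.e S.w (cmb (fW f u) V))| ≤ 11 * (X * (S.w 0 * κs)) := by
    rw [abs_mul, abs_of_pos hYe]
    have := mul_le_mul_of_nonneg_left h4 hYe.le
    refine this.trans (le_of_eq (by ring))
  exact s2 (a2 h5 h2) (m2 hm h1)

end pt

/-- displacement of a point from the line, through the straightening map -/
theorem dsp {P : Pj} {η R : ℝ} (h : P.Sm η) (hR : 1 ≤ R) (hη : 20 * (η * R) ≤ 1) {t : Ln4}
    (hp : ∀ k, |t.p k| ≤ R) (hv : ∀ k, |t.v k| ≤ R) {z : ℝ} {x : V3} (hz : |z| ≤ R)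
    (hx : ∀ k, |x k| ≤ R) :
    |P.inv.ht z x - z| ≤ 20 * (η * R ^ 2) ∧
      (∀ k, |t.pos (P.inv.ht z x) k - (P.line t).pos z k| ≤ 120 * (η * R ^ 3)) ∧
      ∀ k, |(P.inv.pt x k - t.pos (P.inv.ht z x) k) - (x k - (P.line t).pos z k)| ≤
        120 * (η * R ^ 3) := by
  have hη0 := h.nn
  have hRη : 0 ≤ η * R := by positivity
  have hη1 : η ≤ 1 := by
    have : η ≤ η * R := le_mul_of_one_le_right hη0 hR
    linarith
  have hi := h.inv hη1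
  have h4 : 4 * (2 * η * R) ≤ 1 := by linarith
  have a := Pj.ht_near hi hx hz hR h4
  have b := Pj.pt_near hi hx hR h4
  have lp := Pj.line_p h hp hv hR hη
  have lv := Pj.line_v h hp hv hR hη
  have R0 : 0 ≤ R := by linarith
  have e1 : η * R ^ 2 ≤ η * R ^ 3 := mul_le_mul_of_nonneg_left (pow_le_pow_right₀ hR (by norm_num)) hη0
  have e3 : 10 * (2 * η * R ^ 2) * R = 20 * (η * R ^ 3) := by ring
  have e2 : R * (40 * (η * R ^ 2)) = 40 * (η * R ^ 3) := by ring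
  have c1 := fun k => m2 hz (lv k)
  have c2 := fun k => m2 a (hv k)
  have e5 : 0 ≤ η * R ^ 3 := by positivity
  refine ⟨a.trans (le_of_eq (by ring)), fun k => ?_, fun k => ?_⟩
  · have e : t.pos (P.inv.ht z x) k - (P.line t).pos z k = (P.inv.ht z x - z) * t.v k -
        (((P.line t).p k - t.p k) + z * ((P.line t).v k - t.v k)) := by
      simp only [Ln4.pos]; ring
    rw [e]
    refine (s2 (c2 k) (a2 (lp k) (c1 k))).trans ?_
    rw [e2, e3]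
    linarith
  · have e : (P.inv.pt x k - t.pos (P.inv.ht z x) k) - (x k - (P.line t).pos z k) =
        (P.inv.pt x k - x k) + (((P.line t).p k - t.p k) + z * ((P.line t).v k - t.v k) -
          (P.inv.ht z x - z) * t.v k) := by
      simp only [Ln4.pos]; ring
    rw [e]
    refine (a2 (b k) (s2 (a2 (lp k) (c1 k)) (c2 k))).trans ?_
    rw [e2, e3]
    linarith

/-- **a point of the model quadric near the line, in container coordinates** -/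
theorem geo_pt {P : Pj} {η R κ η' : ℝ} (h : P.Sm η) (hκ : |κ| ≤ 1) (hR : 1 ≤ R)
    (hη : 20 * (η * R) ≤ 1) {t : Ln4} (hp : ∀ k, |t.p k| ≤ R) (hv : ∀ k, |t.v k| ≤ R)
    {z a b e α β hh : ℝ} (hz : |z| ≤ R)
    (hx : ∀ k, |q0 κ z (a + (P.line t).pos z 1)
      (b - 2 * κ * (P.line t).v 1 * a - e + (P.line t).pos z 2) k| ≤ R)
    (ha : |a| ≤ α) (hα : α ≤ R) (hb : |b| + |e| ≤ β)
    (hh1 : |ht κ z ((P.line t).pos z 1) ((P.line t).pos z 2) ((P.line t).pos z 0)| ≤ hh)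
    {x : V3} (hxd : x = q0 κ z (a + (P.line t).pos z 1)
      (b - 2 * κ * (P.line t).v 1 * a - e + (P.line t).pos z 2))
    {V : V3} (hV : ∀ k, V k = P.inv.pt x k - t.pos (P.inv.ht z x) k) :
    |V 1| ≤ α + 120 * (η * R ^ 3) ∧
    |V 2 + 2 * κ * t.v 1 * V 1| ≤ β + 480 * (η * R ^ 4) ∧
    ∀ γ : V3, |γ 0 - 1| ≤ η' → |γ 1 + 2 * κ * t.pos (P.inv.ht z x) 1| ≤ η' →
      |γ 2 + P.inv.ht z x| ≤ η' →
      |dt γ V| ≤ α ^ 2 + hh + 5200 * (η * R ^ 5) + 39 * (R ^ 2 * η') := by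
  rw [← hxd] at hx
  obtain ⟨d1, d2, d3⟩ := dsp h hR hη hp hv hz hx
  have lp := Pj.line_p h hp hv hR hη
  have lv := Pj.line_v h hp hv hR hη
  have hη0 := h.nn
  have R0 : 0 ≤ R := by linarith
  set M := P.line t with hM
  set E := 120 * (η * R ^ 3) with hE
  have hE0 : 0 ≤ E := by rw [hE]; positivity
  have hR2 : 1 ≤ R ^ 2 := one_le_pow₀ hR
  have E6 : E ≤ 6 * R ^ 2 := by
    rw [hE]
    have e : 120 * (η * R ^ 3) = 6 * R ^ 2 * (20 * (η * R)) := by ring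
    rw [e]
    exact mul_le_of_le_one_right (by positivity) hη
  have Mp : ∀ k, |M.pos z k| ≤ 6 * R ^ 2 := by
    intro k
    have e : M.pos z k = (M.p k - t.p k) + t.p k + z * ((M.v k - t.v k) + t.v k) := by
      simp only [Ln4.pos]; ring
    rw [e]
    have e40 : 40 * (η * R ^ 2) ≤ 2 * R := by
      have e : 40 * (η * R ^ 2) = 2 * R * (20 * (η * R)) := by ring
      rw [e]
      exact mul_le_of_le_one_right (by positivity) hη
    refine (a2 (a2 ((lp k).trans e40) (hp k)) (m2 hz (a2 ((lv k).trans e40) (hv k)))).trans ?_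
    nlinarith
  have x0 : x 0 = z * x 2 + κ * x 1 ^ 2 := by rw [hxd]; rfl
  have x1 : x 1 = a + M.pos z 1 := by rw [hxd]; rfl
  have x2 : x 2 = b - 2 * κ * M.v 1 * a - e + M.pos z 2 := by rw [hxd]; rfl
  have Vd : ∀ k, |V k - (x k - M.pos z k)| ≤ E := by
    intro k; rw [hV k]; exact d3 k
  have Vs : ∀ k, |V k| ≤ 13 * R ^ 2 := by
    intro k
    have e : V k = (V k - (x k - M.pos z k)) + (x k - M.pos z k) := by ring
    rw [e]
    refine (a2 ((Vd k).trans E6) (s2 (hx k) (Mp k))).trans ?_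
    nlinarith
  have two : |(2 : ℝ)| ≤ 2 := by norm_num
  have hα0 : 0 ≤ α := (abs_nonneg _).trans ha
  refine ⟨?_, ?_, ?_⟩
  · have e : V 1 = (x 1 - M.pos z 1) + (V 1 - (x 1 - M.pos z 1)) := by ring
    rw [e]
    refine a2 ?_ (Vd 1)
    rw [x1, add_sub_cancel_right]
    exact ha
  · have e1 : V 2 + 2 * κ * t.v 1 * V 1 = (b - e) + (V 2 - (x 2 - M.pos z 2)) +
        2 * κ * t.v 1 * (V 1 - (x 1 - M.pos z 1)) + 2 * κ * (t.v 1 - M.v 1) * a := by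
      rw [x1, x2]; ring
    rw [e1]
    have k1 : |t.v 1 - M.v 1| ≤ 40 * (η * R ^ 2) := by rw [abs_sub_comm]; exact lv 1
    have k2 : |b - e| ≤ β := (abs_sub _ _).trans hb
    refine (a2 (a2 (a2 k2 (Vd 2)) (m2 (m2 (m2 two hκ) (hv 1)) (Vd 1)))
      (m2 (m2 (m2 two hκ) k1) (ha.trans hα))).trans ?_
    have e2 : 2 * 1 * (40 * (η * R ^ 2)) * R = 80 * (η * R ^ 3) := by ring
    have e3 : 2 * 1 * R * E = 240 * (η * R ^ 4) := by rw [hE]; ring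
    have e4 : η * R ^ 3 ≤ η * R ^ 4 :=
      mul_le_mul_of_nonneg_left (pow_le_pow_right₀ hR (by norm_num)) hη0
    rw [e2, e3, hE]
    have : 0 ≤ η * R ^ 4 := by positivity
    linarith
  · intro γ g0 g1 g2
    set zz := P.inv.ht z x with hzz
    have hm : |V 0 - 2 * κ * t.pos zz 1 * V 1 - zz * V 2| ≤ α ^ 2 + hh + 43 * (R ^ 2 * E) := by
      have e1 : V 0 - 2 * κ * t.pos zz 1 * V 1 - zz * V 2 =
          (κ * a ^ 2 - ht κ z (M.pos z 1) (M.pos z 2) (M.pos z 0)) +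
          (V 0 - (x 0 - M.pos z 0)) - 2 * κ * (t.pos zz 1 - M.pos z 1) * V 1 -
          2 * κ * M.pos z 1 * (V 1 - (x 1 - M.pos z 1)) - (zz - z) * V 2 -
          z * (V 2 - (x 2 - M.pos z 2)) := by
        rw [x0]
        have : x 1 = a + M.pos z 1 := x1
        simp only [ht]
        rw [x1]
        ring
      rw [e1]
      have ka : |κ * a ^ 2| ≤ α ^ 2 := by
        have := m2 hκ (m2 ha ha)
        rw [← pow_two, ← pow_two, one_mul] at this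
        exact this
      have kd : |zz - z| ≤ E / 6 := by
        refine d1.trans ?_
        rw [hE]
        have e4 : η * R ^ 2 ≤ η * R ^ 3 :=
          mul_le_mul_of_nonneg_left (pow_le_pow_right₀ hR (by norm_num)) hη0
        linarith
      refine (s2 (s2 (s2 (s2 (a2 (s2 ka hh1) (Vd 0)) (m2 (m2 (m2 two hκ) (d2 1)) (Vs 1)))
        (m2 (m2 (m2 two hκ) (Mp 1)) (Vd 1))) (m2 kd (Vs 2))) (m2 hz (Vd 2))).trans ?_
      have r1 : E ≤ R ^ 2 * E := le_mul_of_one_le_left hE0 hR2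
      have r2 : R * E ≤ R ^ 2 * E := by
        refine mul_le_mul_of_nonneg_right ?_ hE0
        nlinarith
      have r3 : 0 ≤ R ^ 2 * E := by positivity
      nlinarith
    have e2 : dt γ V = (γ 0 - 1) * V 0 + (γ 1 + 2 * κ * t.pos zz 1) * V 1 + (γ 2 + zz) * V 2 +
        (V 0 - 2 * κ * t.pos zz 1 * V 1 - zz * V 2) := by
      simp only [dt]; ring
    rw [e2]
    refine (a2 (a2 (a2 (m2 g0 (Vs 0)) (m2 g1 (Vs 1))) (m2 g2 (Vs 2))) hm).trans ?_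
    have e3 : 43 * (R ^ 2 * E) = 5160 * (η * R ^ 5) := by rw [hE]; ring
    rw [e3]
    have : 0 ≤ η * R ^ 5 := by positivity
    nlinarith

end Crest.Agent.R136.Clw768
end

-- ▼ part R136/Clw2_768
section

/-!
# R136, U6 thin side, stage C (helper768): closeness of the sheets of two levels, finite part 2

`gr_good` : gradient of a polynomial with bounded flags; `coord_small` : small coordinates in the
adapted basis; `val_fin` : values of `q' - m q` on the box of the model quadric;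
`flg_close` : closeness of the flags.
-/

set_option autoImplicit false
set_option linter.unusedVariables false

namespace Crest.Agent.R136.Clw768

open Crest.Agent.R136.Sh605
open Crest.Agent.R136.K4
open Crest.Agent.R136.NetW191
open Crest.Agent.R136.GeoN778
open Crest.Agent.R136.Wit321
open Crest.Agent.R136.Tl102 (QF Fq bz fan shB0 scB1 scG shG shB1 kap NrmC IsExp fr cmb StP OmB om0
  om1 omM tv pv gl om_val cmb_pv sD)
open Crest.Agent.R136.Thn768 (Own Snd Tay cr dtm ev_le bs)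
open Crest.Agent.R136.Stc321
open Crest.Agent.R136.FlW464 (frW drW)
open Crest.Agent.R136.Tn327 (CloseW)

/-- **bounded flags in normal coordinates: the gradient in container coordinates** -/
theorem gr_good {P : Pj} {η Γ σ κ R : ℝ} (hP : P.Sm η) (hη : 16 * η ≤ 1) {Q : Qd}
    (hσ : 0 < σ) (hκ : |κ| ≤ 1) (hν : (pullQ P.inv Q).b 0 ≠ 0)
    (hf : ∀ k, |flg κ σ (pullQ P.inv Q) k| ≤ Γ) (hΓ : σ * Γ ≤ 1) {z : ℝ} {x : V3}
    (hz : |z| ≤ R) (hx : ∀ k, |x k| ≤ R) (k : Fin 3) :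
    |Q.gr z x k - (pullQ P.inv Q).b 0 * (mod κ).gr z x k| ≤
      |(pullQ P.inv Q).b 0| * (24 * η + σ * Γ) * (1 + 7 * R) := by
  set Q' := pullQ P.inv Q with hQ'
  have hη0 : 0 ≤ η := hP.nn
  have hΓ0 : 0 ≤ Γ := (abs_nonneg _).trans (hf 0)
  set ν := Q'.b 0 with hνd
  have hrem := rem_le_of_flg hσ hν hf
  rw [← hνd] at hrem
  have h1 := cl_of_rem hrem
  have ms := Stc321.mod_sz (ν := ν) hκ
  rw [← hνd] at h1
  have h2 : Sz (sym Q') (|ν| * (σ * Γ) + |ν|) := h1.sz ms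
  have hev : ∀ z x, |z| ≤ 1 → (∀ k, |x k| ≤ 1) → (pullQ P (sym Q')).ev z x = Q.ev z x := by
    intro z x hz hx
    have hT := Pj.T_half hP hx (by linarith)
    have hT0 : P.T x ≠ 0 := by
      have : 0 < P.T x := by linarith [hT.1]
      exact this.ne'
    rw [pullQ_ev _ _ hT0, sym_ev, hQ', ev_pull_inv P Q hT0]
    field_simp
  have h2' : Sz (sym Q') (2 * |ν|) := by
    have hK : |ν| * (σ * Γ) + |ν| ≤ 2 * |ν| := by
      have := mul_le_of_le_one_right (abs_nonneg ν) hΓ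
      linarith
    exact ⟨h2.c0.trans hK, h2.c1.trans hK, h2.c2.trans hK, fun i => (h2.b i).trans hK,
      fun i => (h2.d i).trans hK, fun i j => (h2.g i j).trans hK⟩
  have h3 := pullQ_cl hP (by linarith) h2'
  have h4 := h3.trans h1
  have e6 : 12 * (η * (2 * |ν|)) + |ν| * (σ * Γ) = |ν| * (24 * η + σ * Γ) := by ring
  rw [e6] at h4
  obtain ⟨k1, k2, k3⟩ := gr_of_ev hev
  have h5 := h4.gr hz hx k
  rw [k1, mul_gr] at h5
  exact h5

/-- **small coordinates in the adapted basis** -/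
theorem coord_small {g g' : V3} {φ : Fin 3 → V3} {κ v1 R η rh Y X A1 A2 α : ℝ}
    (h : Bas g g' φ κ v1 R η rh Y X A1 A2 α)
    (hs : 10 ^ 6 * (Y * (η * Bas.sz R rh Y A1)) ≤ α)
    (hs2 : 2 ^ 27 * (400 * (Y * η * Bas.rt R η rh Y A1) + 3600 * (A1 * R * (Y * η))) ≤ α)
    {μ θ : ℝ} (hμ : 0 < μ) (hμ1 : μ ≤ 1) (hθ : 0 ≤ θ) (hθμ : 4 * 10 ^ 10 * θ ≤ μ ^ 2)
    (hα : μ * (A1 * (A1 ^ 2 / rh)) ≤ α) (hY1 : μ * A1 ^ 2 ≤ 8 * Y) (hY2 : μ * Y ≤ 8 * A1 ^ 2)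
    (hsz : 3 * (η * Bas.sz R rh Y A1) ≤ A1 ^ 2 / rh)
    {τ : V3} {V : V3} (hV : ∀ k, V k = τ 0 * φ 0 k + τ 1 * φ 1 k + τ 2 * φ 2 k) {ζ : ℝ}
    (ha : |V 1| ≤ 2 * (A1 * θ)) (hb : |V 2 + 2 * κ * v1 * V 1| ≤ 2 * (A1 ^ 2 / rh * θ))
    (ζ0 : 0 ≤ ζ) (ζ1 : ζ ≤ 1) (hc : |dt g V + ζ * (rh * dt g' V)| ≤ 2 * (A1 ^ 2 * θ))
    (k : Fin 3) : |τ k| ≤ 1 := by
  have hrh := h.rh0
  have hY := h.Y0
  have hA1 : 0 < A1 := h.A0.trans_le h.A12
  set B1 := A1 ^ 2 / rh with hB1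
  have hB10 : 0 < B1 := by positivity
  have hα0 := h.α0
  have hc' : |dt g V + ζ * (rh * dt g' V)| ≤ Y * (16 * (θ / μ)) := by
    refine hc.trans ?_
    have e : Y * (16 * (θ / μ)) = 2 * (8 * Y * θ) / μ := by ring
    rw [e, le_div_iff₀ hμ]
    have := mul_le_mul_of_nonneg_right hY1 hθ
    linarith
  obtain ⟨t1, t0⟩ := h.coord hs hs2 hV ha hb ζ0 ζ1 hc'
  have hrt : Bas.rt R η rh Y A1 ≤ 137 * (B1 / μ) := by
    have e1 : 17 * (Y / rh) ≤ 136 * (B1 / μ) := by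
      rw [hB1, ← mul_div_assoc, ← mul_div_assoc, div_le_div_iff₀ hrh hμ]
      have e : 136 * (A1 ^ 2 / rh) * rh = 136 * A1 ^ 2 := by field_simp
      rw [e]
      linarith
    have e2 : B1 ≤ B1 / μ := by
      rw [le_div_iff₀ hμ]
      exact mul_le_of_le_one_right hB10.le hμ1
    unfold Bas.rt
    linarith
  have hrt0 : 0 ≤ Bas.rt R η rh Y A1 := h.rt0
  have hT : 30000 / α * (2 * (2 * (A1 * θ) * Bas.rt R η rh Y A1) + 6 * (A1 * (2 * (B1 * θ)))) ≤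
      168 * 10 ^ 5 * (θ / μ ^ 2) := by
    have e1 : 2 * (2 * (A1 * θ) * Bas.rt R η rh Y A1) + 6 * (A1 * (2 * (B1 * θ))) ≤
        560 * (A1 * B1 * θ / μ) := by
      have f1 : 2 * (2 * (A1 * θ) * Bas.rt R η rh Y A1) ≤ 2 * (2 * (A1 * θ) * (137 * (B1 / μ))) := by
        have : 0 ≤ 2 * (A1 * θ) := by positivity
        have := mul_le_mul_of_nonneg_left hrt this
        linarith
      have f2 : A1 * B1 * θ ≤ A1 * B1 * θ / μ := by
        rw [le_div_iff₀ hμ]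
        exact mul_le_of_le_one_right (by positivity) hμ1
      have f3 : 2 * (2 * (A1 * θ) * (137 * (B1 / μ))) = 548 * (A1 * B1 * θ / μ) := by ring
      have f4 : 6 * (A1 * (2 * (B1 * θ))) = 12 * (A1 * B1 * θ) := by ring
      rw [f4]
      linarith
    have e2 : 30000 / α ≤ 30000 / (μ * (A1 * B1)) :=
      div_le_div_of_nonneg_left (by norm_num) (by positivity) hα
    have e3 : 0 ≤ 560 * (A1 * B1 * θ / μ) := by positivity
    calc 30000 / α * (2 * (2 * (A1 * θ) * Bas.rt R η rh Y A1) + 6 * (A1 * (2 * (B1 * θ))))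
        ≤ 30000 / α * (560 * (A1 * B1 * θ / μ)) :=
          mul_le_mul_of_nonneg_left e1 (by positivity)
      _ ≤ 30000 / (μ * (A1 * B1)) * (560 * (A1 * B1 * θ / μ)) :=
          mul_le_mul_of_nonneg_right e2 e3
      _ = 168 * 10 ^ 5 * (θ / μ ^ 2) := by field_simp; ring
  have hq : θ / μ ^ 2 ≤ 1 / (4 * 10 ^ 10) := by
    rw [div_le_div_iff₀ (by positivity) (by norm_num)]
    linarith
  have hq0 : 0 ≤ θ / μ ^ 2 := by positivity
  have hc2 : 16 * (θ / μ) ≤ 16 * (θ / μ ^ 2) := by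
    have : θ / μ ≤ θ / μ ^ 2 := by
      refine div_le_div_of_nonneg_left hθ (by positivity) ?_
      rw [pow_two]
      exact mul_le_of_le_one_left hμ.le hμ1
    linarith
  have a1 := abs_nonneg (τ 1)
  have a2' := abs_nonneg (τ 2)
  fin_cases k
  · show |τ 0| ≤ 1
    linarith
  · show |τ 1| ≤ 1
    linarith
  · show |τ 2| ≤ 1
    linarith

/-- values of a flag polynomial -/
theorem evY_le {G : Fin 14 → ℝ} {Γ R z A B Y : ℝ} (hG : ∀ k, |G k| ≤ Γ) (hR : 1 ≤ R)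
    (hz : |z| ≤ R) (hA : |A| ≤ R) (hB : |B| ≤ R) (hY : |Y| ≤ R) :
    |evY G z A B Y| ≤ 14 * (Γ * R ^ 2) := by
  have hΓ : 0 ≤ Γ := (abs_nonneg _).trans (hG 0)
  have R0 : 0 ≤ R := by linarith
  have q : ∀ {x y : ℝ}, |x| ≤ R → |y| ≤ R → ∀ k, |G k * (x * y)| ≤ Γ * R ^ 2 := by
    intro x y hx hy k
    refine (m2 (hG k) (m2 hx hy)).trans (le_of_eq (by ring))
  have q2 : ∀ {x : ℝ}, |x| ≤ R → ∀ k, |G k * x ^ 2| ≤ Γ * R ^ 2 := by
    intro x hx k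
    have := q hx hx k
    rwa [← pow_two] at this
  have q1 : ∀ {x : ℝ}, |x| ≤ R → ∀ k, |G k * x| ≤ Γ * R ^ 2 := by
    intro x hx k
    refine (m2 (hG k) hx).trans (mul_le_mul_of_nonneg_left ?_ hΓ)
    nlinarith
  have qc : |G 13| ≤ Γ * R ^ 2 := (hG 13).trans (le_mul_of_one_le_right hΓ (one_le_pow₀ hR))
  unfold evY
  refine (a2 (a2 (a2 (a2 (a2 (a2 (a2 (a2 (a2 (a2 (a2 (a2 (a2 (q2 hY 0) (q hB hY 1)) (q hA hY 2))
    (q2 hB 3)) (q hz hY 4)) (q hA hB 5)) (q2 hA 6)) (q hz hB 7)) (q hz hA 8)) (q2 hz 9))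
    (q1 hB 10)) (q1 hA 11)) (q1 hz 12)) qc).trans (le_of_eq (by ring))

/-- sizes of a point of the box -/
theorem box_pt {P : Pj} {ηP R κ : ℝ} (hP : P.Sm ηP) (hκ : |κ| ≤ 1) (hR : 1 ≤ R) {t : Ln4}
    (hp : ∀ k, |t.p k| ≤ R) (hv : ∀ k, |t.v k| ≤ R) {y0 rh θ A B zm z' a b : ℝ} (hrh0 : 0 < rh)
    (hrh1 : rh ≤ 1) (s5 : 80 * (ηP * (100 * R ^ 2) ^ 2) ≤ rh) (hy : |y0| ≤ 1)
    (hzm : zm = y0 + rh / 2) (hθ : 0 ≤ θ) (hθ1 : θ ≤ 1 / 4) (hz' : |z'| ≤ rh * θ)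
    (hA : A ≤ R) (hB0 : 0 ≤ B) (hB : B ≤ R) (ha : |a| ≤ A * θ) (hb : |b| ≤ B * θ)
    (s3 : 2 * |drW κ (P.line t)| ≤ B * θ) {x : V3}
    (hxd : x = q0 κ (fz (frW (P.line t) zm) z') (fA (frW (P.line t) zm) z' a)
      (fB κ (frW (P.line t) zm) z' a b)) :
    |z'| ≤ rh / 4 ∧ |z' + zm| ≤ 2 ∧ (∀ k, |x k| ≤ 100 * R ^ 2) ∧
      x = q0 κ (z' + zm) (a + (P.line t).pos (z' + zm) 1)
        (b - 2 * κ * (P.line t).v 1 * a - drW κ (P.line t) * z' + (P.line t).pos (z' + zm) 2) ∧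
      |b| + |drW κ (P.line t) * z'| ≤ 3 / 2 * (B * θ) := by
  have R0 : 0 ≤ R := by linarith
  have hηP := hP.nn
  have hR2 : R ≤ R ^ 2 := by nlinarith
  have hη20' : 20 * (ηP * R) ≤ 1 := by
    have h1 : ηP * R ≤ ηP * (100 * R ^ 2) ^ 2 := by
      refine mul_le_mul_of_nonneg_left ?_ hηP
      nlinarith
    have h2 : 0 ≤ ηP * (100 * R ^ 2) ^ 2 := by positivity
    linarith
  have hη40 : 40 * (ηP * R ^ 2) ≤ R := by
    have h1 : ηP * R ^ 2 ≤ ηP * (100 * R ^ 2) ^ 2 := by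
      refine mul_le_mul_of_nonneg_left ?_ hηP
      nlinarith [sq_nonneg (R ^ 2)]
    linarith
  have lp := Pj.line_p hP hp hv hR hη20'
  have lv := Pj.line_v hP hp hv hR hη20'
  obtain ⟨M, hM⟩ : ∃ M : Ln4, M = P.line t := ⟨_, rfl⟩
  rw [← hM] at hxd s3 lp lv ⊢
  have Mp : ∀ k, |M.p k| ≤ 2 * R := by
    intro k
    have e : M.p k = (M.p k - t.p k) + t.p k := by ring
    rw [e]
    refine (a2 ((lp k).trans hη40) (hp k)).trans (by linarith)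
  have Mv : ∀ k, |M.v k| ≤ 2 * R := by
    intro k
    have e : M.v k = (M.v k - t.v k) + t.v k := by ring
    rw [e]
    refine (a2 ((lv k).trans hη40) (hv k)).trans (by linarith)
  have hz'' : |z'| ≤ rh / 4 := by
    refine hz'.trans ?_
    have := mul_le_mul_of_nonneg_left hθ1 hrh0.le
    linarith
  obtain ⟨zl, zu⟩ := abs_le.1 hz''
  obtain ⟨yl, yu⟩ := abs_le.1 hy
  obtain ⟨z, hz⟩ : ∃ z : ℝ, z = z' + zm := ⟨_, rfl⟩
  rw [← hz]
  have z2 : |z| ≤ 2 := abs_le.2 ⟨by rw [hz, hzm]; linarith, by rw [hz, hzm]; linarith⟩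
  have Mpos : ∀ k, |M.pos z k| ≤ 6 * R := by
    intro k
    refine (a2 (Mp k) (m2 z2 (Mv k))).trans (by linarith)
  have hθ1' : θ ≤ 1 := by linarith
  have ha1 : |a| ≤ R := ha.trans (by
    have := mul_le_mul hA hθ1' hθ R0
    linarith)
  have hbR : B * θ ≤ R := by
    have := mul_le_mul hB hθ1' hθ R0
    linarith
  have hb1 : |b| ≤ R := hb.trans hbR
  obtain ⟨e, he⟩ : ∃ e : ℝ, e = drW κ M * z' := ⟨_, rfl⟩
  rw [← he]
  have he1 : |e| ≤ B * θ / 2 := by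
    rw [he, abs_mul]
    have h2 : |z'| ≤ 1 := hz''.trans (by linarith)
    have h3 := mul_le_mul_of_nonneg_left h2 (abs_nonneg (drW κ M))
    linarith
  have he2 : |e| ≤ R := he1.trans (by
    have := mul_nonneg hB0 hθ
    linarith)
  have hxd' : x = q0 κ z (a + M.pos z 1) (b - 2 * κ * M.v 1 * a - e + M.pos z 2) := by
    have e1 : fz (frW M zm) z' = z := by rw [hz]; rfl
    have e2 : fA (frW M zm) z' a = a + M.pos z 1 := by
      show a + M.v 1 * z' + M.pos zm 1 = _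
      simp only [Ln4.pos, hz]; ring
    have e3 : fB κ (frW M zm) z' a b = b - 2 * κ * M.v 1 * a - e + M.pos z 2 := by
      show b - 2 * κ * M.v 1 * a - κ * M.v 1 ^ 2 * z' + M.pos zm 2 = _
      simp only [Ln4.pos, hz, he, drW]; ring
    rw [hxd, e1, e2, e3]
  have two : |(2 : ℝ)| ≤ 2 := by norm_num
  have hx1 : |x 1| ≤ 7 * R := by
    have : x 1 = a + M.pos z 1 := by rw [hxd']; rfl
    rw [this]
    refine (a2 ha1 (Mpos 1)).trans (by linarith)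
  have hx2 : |x 2| ≤ 12 * R ^ 2 := by
    have : x 2 = b - 2 * κ * M.v 1 * a - e + M.pos z 2 := by rw [hxd']; rfl
    rw [this]
    refine (a2 (s2 (s2 hb1 (m2 (m2 (m2 two hκ) (Mv 1)) ha1)) he2) (Mpos 2)).trans ?_
    have e5 : 2 * 1 * (2 * R) * R = 4 * R ^ 2 := by ring
    rw [e5]
    linarith
  have hx0 : |x 0| ≤ 100 * R ^ 2 := by
    have : x 0 = z * x 2 + κ * x 1 ^ 2 := by rw [hxd']; rfl
    rw [this]
    have h1 : |x 1 ^ 2| ≤ (7 * R) ^ 2 := by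
      rw [abs_pow]; exact pow_le_pow_left₀ (abs_nonneg _) hx1 2
    refine (a2 (m2 z2 hx2) (m2 hκ h1)).trans ?_
    have e5 : 1 * (7 * R) ^ 2 = 49 * R ^ 2 := by ring
    rw [e5]
    linarith [sq_nonneg R]
  refine ⟨hz'', z2, ?_, hxd', by linarith⟩
  intro k
  fin_cases k
  · exact hx0
  · exact hx1.trans (by linarith)
  · exact hx2.trans (by linarith [sq_nonneg R])

/-- **displacement of a point of the box** -/
theorem dsp_pt {P : Pj} {ηP R κ η' : ℝ} (hP : P.Sm ηP) (hκ : |κ| ≤ 1) (hR : 1 ≤ R) {t : Ln4}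
    (hp : ∀ k, |t.p k| ≤ R) (hv : ∀ k, |t.v k| ≤ R) {y0 rh θ A B zm z' a b hh : ℝ}
    (hrh0 : 0 < rh)
    (hrh1 : rh ≤ 1) (s5 : 80 * (ηP * (100 * R ^ 2) ^ 2) ≤ rh) (hy : |y0| ≤ 1)
    (hzm : zm = y0 + rh / 2) (hθ : 0 ≤ θ) (hθ1 : θ ≤ 1 / 4) (hz' : |z'| ≤ rh * θ)
    (hA : A ≤ R) (hB0 : 0 ≤ B) (hB : B ≤ R) (ha : |a| ≤ A * θ) (hb : |b| ≤ B * θ)
    (s3 : 2 * |drW κ (P.line t)| ≤ B * θ)
    (s1 : 120 * (ηP * (100 * R ^ 2) ^ 3) ≤ A * θ)
    (s2' : 960 * (ηP * (100 * R ^ 2) ^ 4) ≤ B * θ)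
    (s4 : hh + 5200 * (ηP * (100 * R ^ 2) ^ 5) + 39 * ((100 * R ^ 2) ^ 2 * η') ≤ A ^ 2 * θ)
    (hh1 : ∀ z, y0 ≤ z → z ≤ y0 + rh →
      |ht κ z ((P.line t).pos z 1) ((P.line t).pos z 2) ((P.line t).pos z 0)| ≤ hh) {x : V3}
    (hxd : x = q0 κ (fz (frW (P.line t) zm) z') (fA (frW (P.line t) zm) z' a)
      (fB κ (frW (P.line t) zm) z' a b)) {V : V3}
    (hV : ∀ k, V k = P.inv.pt x k - t.pos (P.inv.ht (z' + zm) x) k) :
    |z' + zm| ≤ 2 ∧ (∀ k, |x k| ≤ 100 * R ^ 2) ∧ y0 ≤ P.inv.ht (z' + zm) x ∧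
      P.inv.ht (z' + zm) x ≤ y0 + rh ∧ |P.inv.ht (z' + zm) x| ≤ 3 * (100 * R ^ 2) ^ 2 ∧
      (∀ k, |t.pos (P.inv.ht (z' + zm) x) k| ≤ 3 * (100 * R ^ 2) ^ 2) ∧
      |V 1| ≤ 2 * (A * θ) ∧ |V 2 + 2 * κ * t.v 1 * V 1| ≤ 2 * (B * θ) ∧
      ∀ γ : V3, |γ 0 - 1| ≤ η' → |γ 1 + 2 * κ * t.pos (P.inv.ht (z' + zm) x) 1| ≤ η' →
        |γ 2 + P.inv.ht (z' + zm) x| ≤ η' → |dt γ V| ≤ 2 * (A ^ 2 * θ) := by
  obtain ⟨hz'', z2, hx, hxd', hbe⟩ := box_pt hP hκ hR hp hv hrh0 hrh1 s5 hy hzm hθ hθ1 hz' hA hB0 hB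
    ha hb s3 hxd
  have R0 : 0 ≤ R := by linarith
  have hηP := hP.nn
  obtain ⟨Rb, hRb⟩ : ∃ Rb : ℝ, Rb = 100 * R ^ 2 := ⟨_, rfl⟩
  have hR2 : R ≤ R ^ 2 := by nlinarith
  have hRRb : R ≤ Rb := by rw [hRb]; linarith
  have Rb1 : 1 ≤ Rb := hR.trans hRRb
  have Rb0 : 0 ≤ Rb := by linarith
  have Rb100 : 100 ≤ Rb := by rw [hRb]; nlinarith
  rw [← hRb] at s5 s1 s2' s4 hx ⊢
  have hη20 : 20 * (ηP * Rb) ≤ 1 := by
    have h2 : ηP * Rb ≤ ηP * Rb ^ 2 := mul_le_mul_of_nonneg_left (by nlinarith) hηP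
    have h3 : 0 ≤ ηP * Rb := by positivity
    linarith
  have hp' : ∀ k, |t.p k| ≤ Rb := fun k => (hp k).trans hRRb
  have hv' : ∀ k, |t.v k| ≤ Rb := fun k => (hv k).trans hRRb
  obtain ⟨zl, zu⟩ := abs_le.1 hz''
  obtain ⟨z, hz⟩ : ∃ z : ℝ, z = z' + zm := ⟨_, rfl⟩
  rw [← hz] at z2 hxd' hV ⊢
  have zlo : y0 ≤ z := by rw [hz, hzm]; linarith
  have zhi : z ≤ y0 + rh := by rw [hz, hzm]; linarith
  have hzR : |z| ≤ Rb := z2.trans (by linarith)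
  have hAθ : A * θ ≤ Rb := by
    have h1 : θ ≤ 1 := by linarith
    have := mul_le_mul hA h1 hθ R0
    linarith
  have hx' : ∀ k, |q0 κ z (a + (P.line t).pos z 1)
      (b - 2 * κ * (P.line t).v 1 * a - drW κ (P.line t) * z' + (P.line t).pos z 2) k| ≤ Rb := by
    intro k
    have := hx k
    rw [hxd'] at this
    exact this
  obtain ⟨g1, g2, g3⟩ := geo_pt (P := P) (η := ηP) (R := Rb) (κ := κ) (t := t) (z := z) (a := a)
    (b := b) (e := drW κ (P.line t) * z') (α := A * θ) (β := 3 / 2 * (B * θ)) (hh := hh)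
    (η' := η') hP hκ Rb1 hη20
    hp' hv' hzR hx' ha hAθ hbe (hh1 z zlo zhi) (x := x) hxd' (V := V) hV
  obtain ⟨d1, d2, d3⟩ := dsp hP Rb1 hη20 hp' hv' hzR hx
  obtain ⟨zz, hzz⟩ : ∃ zz : ℝ, zz = P.inv.ht z x := ⟨_, rfl⟩
  rw [← hzz] at g3 d1 d2 hV ⊢
  have d1' : |zz - z| ≤ rh / 4 := by linarith
  obtain ⟨wl, wu⟩ := abs_le.1 d1'
  have h3 : |zz| ≤ 3 := by
    have : zz = (zz - z) + z := by ring
    rw [this]
    refine (a2 d1' z2).trans (by linarith)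
  have hRb2 : Rb ≤ Rb ^ 2 := by nlinarith
  refine ⟨z2, hx, ?_, ?_, h3.trans (by linarith), ?_, ?_, ?_, ?_⟩
  · have : y0 + rh / 4 ≤ z := by rw [hz, hzm]; linarith only [zl]
    linarith only [this, wl]
  · have : z ≤ y0 + rh * (3 / 4) := by rw [hz, hzm]; linarith only [zu]
    linarith only [this, wu]
  · intro k
    refine (a2 (hp k) (m2 h3 (hv k))).trans ?_
    have h4 : R * 100 ≤ Rb := by rw [hRb]; linarith only [hR2]
    linarith only [h4, hRb2, R0]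
  · exact g1.trans (by linarith only [s1])
  · exact g2.trans (by linarith only [s2'])
  · intro γ h0 h1 h2
    refine (g3 γ h0 h1 h2).trans ?_
    have h5 : (A * θ) ^ 2 ≤ A ^ 2 * θ := by
      rw [mul_pow]
      refine mul_le_mul_of_nonneg_left ?_ (sq_nonneg _)
      rw [pow_two]
      exact mul_le_of_le_one_left hθ (by linarith only [hθ1])
    linarith only [h5, s4]

section fin

/-- data at one incidence: own plank `S`, polynomial `Qv` of the plank, second polynomial `Qu`,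
polynomial `Q2` near the model -/
structure CwD (S : Plk4) (T : Ln4) (z0 ρ δ : ℝ) (b0 b1 : V3) (G : QF) (f : Fin 3 → V3) (c : Ln4)
    (u : Un) (Qv Qu Q2 : Qd) (b0' b1' : V3) (G' : QF) (X : ℝ) (P : Pj)
    (κ σ Γ R η ηP Y X' A1 A2 α μ θ tv' tu' hh : ℝ) : Prop where
  O : Own S T z0 ρ δ b0 b1 G
  hf : Ortho f
  hu : u.Ok
  hv : S.q = Qv.ev
  hE : IsExp Qu.ev S.e S.w T z0 ρ b0' b1' G'
  m1 : |b0' 0 / b0 0| ≤ 16
  hO : OmB (kap b0 b1 G) X X X b0 b1 G b0' b1' G'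
  hκ : |κ| ≤ 1
  hσ : 0 < σ
  hν0 : (pullQ P.inv (hatQ f c u Q2)).b 0 ≠ 0
  hfl : ∀ k, |flg κ σ (pullQ P.inv (hatQ f c u Q2)) k| ≤ Γ
  hΓ : σ * Γ ≤ 1
  bas : Bas (fun k => (hatQ f c u Q2).gr (u.zh z0) ((ul u (rl f c T)).pos (u.zh z0)) k /
      (pullQ P.inv (hatQ f c u Q2)).b 0)
    (fun k => gd (hatQ f c u Q2) (ul u (rl f c T)) k / (pullQ P.inv (hatQ f c u Q2)).b 0)
    (φb f u S.e S.w (kap b0 b1 G) b0) κ ((ul u (rl f c T)).v 1) R η (ρ / u.H) Y X' A1 A2 α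
  hs : 10 ^ 6 * (Y * (η * Bas.sz R (ρ / u.H) Y A1)) ≤ α
  hs2 : 2 ^ 27 * (400 * (Y * η * Bas.rt R η (ρ / u.H) Y A1) + 3600 * (A1 * R * (Y * η))) ≤ α
  hμ : 0 < μ
  hμ1 : μ ≤ 1
  hθ : 0 ≤ θ
  hθμ : 4 * 10 ^ 10 * θ ≤ μ ^ 2
  hα : μ * (A1 * (A1 ^ 2 / (ρ / u.H))) ≤ α
  hY1 : μ * A1 ^ 2 ≤ 8 * Y
  hY2 : μ * Y ≤ 8 * A1 ^ 2
  hsz : 3 * (η * Bas.sz R (ρ / u.H) Y A1) ≤ A1 ^ 2 / (ρ / u.H)
  A1' : A1 ≤ R
  B1' : A1 ^ 2 / (ρ / u.H) ≤ R
  hP : P.Sm ηP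
  th : ∀ z, z0 ≤ z → z ≤ z0 + ρ → |Qv.ev z (T.pos z)| ≤ tv' ∧ |Qu.ev z (T.pos z)| ≤ tu'
  tp : ∀ k, |(ul u (rl f c T)).p k| ≤ R
  tv : ∀ k, |(ul u (rl f c T)).v k| ≤ R
  z1 : |u.zh z0| ≤ 1
  s1 : 120 * (ηP * (100 * R ^ 2) ^ 3) ≤ A1 * θ
  s2 : 960 * (ηP * (100 * R ^ 2) ^ 4) ≤ A1 ^ 2 / (ρ / u.H) * θ
  s3 : 2 * |drW κ (P.line (ul u (rl f c T)))| ≤ A1 ^ 2 / (ρ / u.H) * θ
  s4 : hh + 5200 * (ηP * (100 * R ^ 2) ^ 5) + 39 * ((100 * R ^ 2) ^ 2 *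
    ((24 * ηP + σ * Γ) * (1 + 7 * (3 * (100 * R ^ 2) ^ 2)))) ≤ A1 ^ 2 * θ
  s5 : 80 * (ηP * (100 * R ^ 2) ^ 2) ≤ ρ / u.H
  hh1 : ∀ z, u.zh z0 ≤ z → z ≤ u.zh z0 + ρ / u.H →
    |ht κ z ((P.line (ul u (rl f c T))).pos z 1) ((P.line (ul u (rl f c T))).pos z 2)
      ((P.line (ul u (rl f c T))).pos z 0)| ≤ hh

variable {S : Plk4} {T : Ln4} {z0 ρ δ : ℝ} {b0 b1 : V3} {G : QF} {f : Fin 3 → V3} {c : Ln4} {u : Un}
  {Qv Qu Q2 : Qd} {b0' b1' : V3} {G' : QF} {X : ℝ} {P : Pj}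
  {κ σ Γ R η ηP Y X' A1 A2 α μ θ tv' tu' hh : ℝ}

/-- gradient of the second polynomial -/
theorem CwD.grad (D : CwD S T z0 ρ δ b0 b1 G f c u Qv Qu Q2 b0' b1' G' X P κ σ Γ R η ηP Y X' A1 A2 α
      μ θ tv' tu' hh) (hη : 16 * ηP ≤ 1) {z Rz : ℝ} (hz : |z| ≤ Rz)
      (ht : ∀ k, |(ul u (rl f c T)).pos z k| ≤ Rz) {γ : V3}
      (hγ : ∀ k, γ k = (hatQ f c u Q2).gr z ((ul u (rl f c T)).pos z) k /
        (pullQ P.inv (hatQ f c u Q2)).b 0) :
    |γ 0 - 1| ≤ (24 * ηP + σ * Γ) * (1 + 7 * Rz) ∧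
      |γ 1 + 2 * κ * (ul u (rl f c T)).pos z 1| ≤ (24 * ηP + σ * Γ) * (1 + 7 * Rz) ∧
      |γ 2 + z| ≤ (24 * ηP + σ * Γ) * (1 + 7 * Rz) := by
  have hνn := D.hν0
  have hνp := abs_pos.2 hνn
  have hgr : ∀ k, |γ k - (mod κ).gr z ((ul u (rl f c T)).pos z) k| ≤
      (24 * ηP + σ * Γ) * (1 + 7 * Rz) := by
    intro k
    have h1 := gr_good D.hP hη D.hσ D.hκ D.hν0 D.hfl D.hΓ hz ht k
    have e : γ k - (mod κ).gr z ((ul u (rl f c T)).pos z) k =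
        ((hatQ f c u Q2).gr z ((ul u (rl f c T)).pos z) k - (pullQ P.inv (hatQ f c u Q2)).b 0 *
          (mod κ).gr z ((ul u (rl f c T)).pos z) k) / (pullQ P.inv (hatQ f c u Q2)).b 0 := by
      rw [hγ k]; field_simp
    rw [e, abs_div, div_le_iff₀ hνp]
    refine h1.trans (le_of_eq (by ring))
  refine ⟨?_, ?_, ?_⟩
  · have := hgr 0
    rw [mod_gr] at this
    exact this
  · have := hgr 1
    rw [mod_gr] at this
    have e : γ 1 + 2 * κ * (ul u (rl f c T)).pos z 1 = γ 1 -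
        ![1, -2 * κ * (ul u (rl f c T)).pos z 1, -z] 1 := by
      show _ = γ 1 - (-2 * κ * (ul u (rl f c T)).pos z 1)
      ring
    rw [e]; exact this
  · have := hgr 2
    rw [mod_gr] at this
    have e : γ 2 + z = γ 2 - ![1, -2 * κ * (ul u (rl f c T)).pos z 1, -z] 2 := by
      show γ 2 + z = γ 2 - (-z)
      ring
    rw [e]; exact this

/-- coordinates of a point of the box -/
theorem CwD.crd (D : CwD S T z0 ρ δ b0 b1 G f c u Qv Qu Q2 b0' b1' G' X P κ σ Γ R η ηP Y X' A1 A2 α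
      μ θ tv' tu' hh) {zz : ℝ} (h0 : u.zh z0 ≤ zz) (h1 : zz ≤ u.zh z0 + ρ / u.H) {V : V3}
      (g1 : |V 1| ≤ 2 * (A1 * θ))
      (g2 : |V 2 + 2 * κ * (ul u (rl f c T)).v 1 * V 1| ≤ 2 * (A1 ^ 2 / (ρ / u.H) * θ))
      {γ : V3} (hγ : ∀ k, γ k = (hatQ f c u Q2).gr zz ((ul u (rl f c T)).pos zz) k /
        (pullQ P.inv (hatQ f c u Q2)).b 0) (g3 : |dt γ V| ≤ 2 * (A1 ^ 2 * θ)) :
    |(hatQ f c u Qu).ev zz (fun k => (ul u (rl f c T)).pos zz k + V k) -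
      b0' 0 / b0 0 * (hatQ f c u Qv).ev zz (fun k => (ul u (rl f c T)).pos zz k + V k)| ≤
      11 * (X * (S.w 0 * kap b0 b1 G)) + tu' + 16 * tv' := by
  have hrh0 : 0 < ρ / u.H := D.bas.rh0
  obtain ⟨ζ, hζ⟩ : ∃ ζ : ℝ, ζ = (zz - u.zh z0) / (ρ / u.H) := ⟨_, rfl⟩
  have ζ0 : 0 ≤ ζ := by rw [hζ]; exact div_nonneg (by linarith) hrh0.le
  have ζ1 : ζ ≤ 1 := by rw [hζ, div_le_one hrh0]; linarith
  have hd : zz - u.zh z0 = ζ * (ρ / u.H) := by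
    rw [hζ, div_mul_cancel₀ _ hrh0.ne']
  have ezz : u.zh (z0 + ρ * ζ) = zz := by
    rw [zh_add]; linarith
  have hgg : dt (fun k => (hatQ f c u Q2).gr (u.zh z0) ((ul u (rl f c T)).pos (u.zh z0)) k /
        (pullQ P.inv (hatQ f c u Q2)).b 0) V +
      ζ * (ρ / u.H * dt (fun k => gd (hatQ f c u Q2) (ul u (rl f c T)) k /
        (pullQ P.inv (hatQ f c u Q2)).b 0) V) = dt γ V := by
    have h1 : ∀ k, (hatQ f c u Q2).gr zz ((ul u (rl f c T)).pos zz) k =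
        (hatQ f c u Q2).gr (u.zh z0) ((ul u (rl f c T)).pos (u.zh z0)) k +
        (zz - u.zh z0) * gd (hatQ f c u Q2) (ul u (rl f c T)) k :=
      fun k => gr_along (hatQ f c u Q2) (ul u (rl f c T)) (u.zh z0) zz k
    simp only [dt, hγ, h1, hd]
    ring
  have hVτ := tc_spec D.O D.hf D.hu V
  have hτ1 : ∀ k, |tc f u S b0 b1 G V k| ≤ 1 := by
    intro k
    refine coord_small D.bas D.hs D.hs2 D.hμ D.hμ1 D.hθ D.hθμ D.hα D.hY1 D.hY2 D.hsz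
      (τ := tc f u S b0 b1 G V) (V := V) hVτ (ζ := ζ) g1 g2 ζ0 ζ1 ?_ k
    rw [hgg]; exact g3
  have zr0 : z0 ≤ z0 + ρ * ζ := by
    have := mul_nonneg D.O.hρ.le ζ0
    linarith
  have zr1 : z0 + ρ * ζ ≤ z0 + ρ := by
    have := mul_le_mul_of_nonneg_left ζ1 D.O.hρ.le
    linarith
  obtain ⟨t1, t2⟩ := D.th (z0 + ρ * ζ) zr0 zr1
  have key := om_pt D.O D.hf D.hu (c := c) D.hv D.hE D.hO ζ0 ζ1 (V := V) hτ1 D.m1 t1 t2
  rw [ezz] at key
  exact key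

/-- **values of `q' - m q` on the box of the model quadric** -/
theorem val_fin (D : CwD S T z0 ρ δ b0 b1 G f c u Qv Qu Q2 b0' b1' G' X P κ σ Γ R η ηP Y X' A1 A2 α
      μ θ tv' tu' hh) {zm z' a b : ℝ} (hzm : zm = u.zh z0 + ρ / u.H / 2)
    (hz' : |z'| ≤ ρ / u.H * θ) (ha : |a| ≤ A1 * θ) (hb : |b| ≤ A1 ^ 2 / (ρ / u.H) * θ)
    {x : V3} (hxd : x = q0 κ (fz (frW (P.line (ul u (rl f c T))) zm) z')
      (fA (frW (P.line (ul u (rl f c T))) zm) z' a)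
      (fB κ (frW (P.line (ul u (rl f c T))) zm) z' a b)) :
    |z' + zm| ≤ 2 ∧ (∀ k, |x k| ≤ 100 * R ^ 2) ∧
      |(pullQ P.inv (hatQ f c u Qu)).ev (z' + zm) x -
        b0' 0 / b0 0 * (pullQ P.inv (hatQ f c u Qv)).ev (z' + zm) x| ≤
        3 * (11 * (X * (S.w 0 * kap b0 b1 G)) + tu' + 16 * tv') := by
  have hrh0 : 0 < ρ / u.H := D.bas.rh0
  have hR := D.bas.R1
  have hηP := D.hP.nn
  have hθ1 : θ ≤ 1 / 4 := by
    have h1 := D.hθμ
    have h2 : μ ^ 2 ≤ 1 := pow_le_one₀ D.hμ.le D.hμ1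
    linarith
  have hB0 : 0 ≤ A1 ^ 2 / (ρ / u.H) := by positivity
  obtain ⟨V, hV⟩ : ∃ V : V3, V = fun k => P.inv.pt x k -
    (ul u (rl f c T)).pos (P.inv.ht (z' + zm) x) k := ⟨_, rfl⟩
  obtain ⟨z2, hx, k1, k2, k3, k4, g1, g2, g3⟩ := dsp_pt D.hP D.hκ hR D.tp D.tv hrh0 D.bas.rh1 D.s5
    D.z1 hzm D.hθ hθ1 hz' D.A1' hB0 D.B1' ha hb D.s3 D.s1 D.s2 D.s4 D.hh1 hxd (V := V)
    (fun k => by rw [hV])
  have hη1 : 16 * (ηP * (100 * R ^ 2)) ≤ 1 := by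
    have h1 := D.s5
    have h2 : ηP * (100 * R ^ 2) ≤ ηP * (100 * R ^ 2) ^ 2 :=
      mul_le_mul_of_nonneg_left (le_self_pow₀ (by nlinarith) (by norm_num)) hηP
    have h3 := D.bas.rh1
    have h4 : 0 ≤ ηP * (100 * R ^ 2) := by positivity
    linarith
  have hη16 : 16 * ηP ≤ 1 := by
    have : ηP ≤ ηP * (100 * R ^ 2) := le_mul_of_one_le_right hηP (by nlinarith)
    linarith
  obtain ⟨c0, c1, c2⟩ := D.grad hη16 k3 k4 (γ := fun k => (hatQ f c u Q2).gr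
    (P.inv.ht (z' + zm) x) ((ul u (rl f c T)).pos (P.inv.ht (z' + zm) x)) k /
        (pullQ P.inv (hatQ f c u Q2)).b 0) (fun k => rfl)
  have key := D.crd k1 k2 g1 g2 (fun k => rfl) (g3 _ c0 c1 c2)
  refine ⟨z2, hx, ?_⟩
  have ex : (fun k => (ul u (rl f c T)).pos (P.inv.ht (z' + zm) x) k + V k) = P.inv.pt x := by
    funext k
    rw [hV]
    ring
  rw [ex] at key
  have hi := D.hP.inv (by linarith)
  have hT := Pj.T_half hi hx (by linarith)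
  have hT0 : P.inv.T x ≠ 0 := by
    have : 0 < P.inv.T x := by linarith [hT.1]
    exact this.ne'
  rw [pullQ_ev _ _ hT0, pullQ_ev _ _ hT0]
  have eT : P.inv.T x ^ 2 * (hatQ f c u Qu).ev (P.inv.ht (z' + zm) x) (P.inv.pt x) -
      b0' 0 / b0 0 * (P.inv.T x ^ 2 * (hatQ f c u Qv).ev (P.inv.ht (z' + zm) x) (P.inv.pt x)) =
      P.inv.T x ^ 2 * ((hatQ f c u Qu).ev (P.inv.ht (z' + zm) x) (P.inv.pt x) -
        b0' 0 / b0 0 * (hatQ f c u Qv).ev (P.inv.ht (z' + zm) x) (P.inv.pt x)) := by ring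
  rw [eT]
  have hT2 : |P.inv.T x ^ 2| ≤ 3 := by
    rw [abs_of_nonneg (sq_nonneg _)]
    have h1 := hT.1
    have h2 := hT.2
    nlinarith
  exact m2 hT2 key

end fin

end Crest.Agent.R136.Clw768
end

-- ▼ part R136/Clw3_768
section

/-!
# R136, U6 thin side, stage C (helper768): closeness of the sheets of two levels, finite part 3

`closeW_fin` : `CloseW` of the flags of two levels; `nums`, `nums2` : numerical hypotheses;
`drift_le` : drift of a line near the model quadric.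
-/

set_option autoImplicit false
set_option linter.unusedVariables false

namespace Crest.Agent.R136.Clw768

open Crest.Agent.R136.Sh605
open Crest.Agent.R136.K4
open Crest.Agent.R136.NetW191
open Crest.Agent.R136.GeoN778
open Crest.Agent.R136.Wit321
open Crest.Agent.R136.Tl102 (QF kap IsExp OmB)
open Crest.Agent.R136.Thn768 (Own)
open Crest.Agent.R136.Stc321
open Crest.Agent.R136.FlW464 (frW drW)
open Crest.Agent.R136.Tn327 (CloseW)

section fin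

variable {S : Plk4} {T : Ln4} {z0 ρ δ : ℝ} {b0 b1 : V3} {G : QF} {f : Fin 3 → V3} {c : Ln4} {u : Un}
  {Qv Qu Q2 : Qd} {b0' b1' : V3} {G' : QF} {X : ℝ} {P : Pj}
  {κ σ Γ R η ηP Y X' A1 A2 α μ θ tv' tu' hh : ℝ}

/-- **closeness of the flags of two levels** -/
theorem closeW_fin (D : CwD S T z0 ρ δ b0 b1 G f c u Qv Qu Q2 b0' b1' G' X P κ σ Γ R η ηP Y X' A1 A2
      α μ θ tv' tu' hh) {zm Γv Kb W : ℝ} (hzm : zm = u.zh z0 + ρ / u.H / 2)
    (hv0 : (pullQ P.inv (hatQ f c u Qv)).b 0 ≠ 0) (hW0 : 0 < W)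
    (hW : W ≤ |(pullQ P.inv (hatQ f c u Qu)).b 0|)
    (hΓv : ∀ k, |flg κ σ (pullQ P.inv (hatQ f c u Qv)) k| ≤ Γv)
    (hb : |(pullQ P.inv (hatQ f c u Qu)).b 0 -
      b0' 0 / b0 0 * (pullQ P.inv (hatQ f c u Qv)).b 0| ≤ Kb) :
    CloseW κ (frW (P.line (ul u (rl f c T))) zm) (ρ / u.H * θ) (A1 * θ) (A1 ^ 2 / (ρ / u.H) * θ)
      ((3 * (11 * (X * (S.w 0 * kap b0 b1 G)) + tu' + 16 * tv') / σ +
        Kb * (14 * (Γv * (100 * R ^ 2) ^ 2))) / W)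
      (flg κ σ (pullQ P.inv (hatQ f c u Qv))) (flg κ σ (pullQ P.inv (hatQ f c u Qu))) := by
  intro z' a b hz' ha hb'
  obtain ⟨x, hx⟩ : ∃ x : V3, x = q0 κ (fz (frW (P.line (ul u (rl f c T))) zm) z')
      (fA (frW (P.line (ul u (rl f c T))) zm) z' a)
      (fB κ (frW (P.line (ul u (rl f c T))) zm) z' a b) := ⟨_, rfl⟩
  obtain ⟨z2, hxx, key⟩ := val_fin D hzm hz' ha hb' hx
  have hu0 : (pullQ P.inv (hatQ f c u Qu)).b 0 ≠ 0 := by
    intro h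
    rw [h, abs_zero] at hW
    linarith
  obtain ⟨z, hz⟩ : ∃ z : ℝ, z = z' + zm := ⟨_, rfl⟩
  have hz0 : fz (frW (P.line (ul u (rl f c T))) zm) z' = z := by rw [hz]; rfl
  have x0 : x 0 = fz (frW (P.line (ul u (rl f c T))) zm) z' *
      fB κ (frW (P.line (ul u (rl f c T))) zm) z' a b +
      κ * fA (frW (P.line (ul u (rl f c T))) zm) z' a ^ 2 := by rw [hx]; rfl
  have x1 : x 1 = fA (frW (P.line (ul u (rl f c T))) zm) z' a := by rw [hx]; rfl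
  have x2 : x 2 = fB κ (frW (P.line (ul u (rl f c T))) zm) z' a b := by rw [hx]; rfl
  rw [← x0, ← x1, ← x2, hz0]
  rw [← hz] at key z2
  have hht : ht κ z (x 1) (x 2) (x 0) = 0 := by
    rw [hx, hz0]; exact ht_q0 κ z _ _
  obtain ⟨bu, hbu⟩ : ∃ bu : ℝ, bu = (pullQ P.inv (hatQ f c u Qu)).b 0 := ⟨_, rfl⟩
  obtain ⟨bv, hbv⟩ : ∃ bv : ℝ, bv = (pullQ P.inv (hatQ f c u Qv)).b 0 := ⟨_, rfl⟩
  have hσ := D.hσ
  rw [ev_flg hσ.ne' hu0, ev_flg hσ.ne' hv0, hht, ← hbu, ← hbv] at key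
  rw [← hbu, ← hbv] at hb
  rw [← hbu] at hW
  have hR := D.bas.R1
  have hRb : (1 : ℝ) ≤ 100 * R ^ 2 := by nlinarith
  have hzb : |z| ≤ 100 * R ^ 2 := z2.trans (by nlinarith)
  have hev := evY_le hΓv hRb hzb (hxx 1) (hxx 2) (hxx 0)
  obtain ⟨eu, heu⟩ : ∃ eu : ℝ, eu = evY (flg κ σ (pullQ P.inv (hatQ f c u Qu))) z (x 1) (x 2)
    (x 0) := ⟨_, rfl⟩
  obtain ⟨ev, hev'⟩ : ∃ ev : ℝ, ev = evY (flg κ σ (pullQ P.inv (hatQ f c u Qv))) z (x 1) (x 2)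
    (x 0) := ⟨_, rfl⟩
  rw [← heu, ← hev'] at key ⊢
  rw [← hev'] at hev
  obtain ⟨L, hL⟩ : ∃ L : ℝ, L = 3 * (11 * (X * (S.w 0 * kap b0 b1 G)) + tu' + 16 * tv') :=
    ⟨_, rfl⟩
  obtain ⟨m, hm⟩ : ∃ m : ℝ, m = b0' 0 / b0 0 := ⟨_, rfl⟩
  rw [← hm] at key hb
  rw [← hL] at key ⊢
  have hbu0 : 0 < |bu| := hW0.trans_le hW
  have e1 : σ * (bu * (ev - eu)) = (bu * (0 - σ * eu) - m * (bv * (0 - σ * ev))) +
      σ * ((bu - m * bv) * ev) := by ring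
  have h1 : |σ * (bu * (ev - eu))| ≤ L + σ * (Kb * (14 * (Γv * (100 * R ^ 2) ^ 2))) := by
    rw [e1]
    refine a2 key ?_
    rw [abs_mul, abs_of_pos hσ]
    exact mul_le_mul_of_nonneg_left (m2 hb hev) hσ.le
  rw [abs_mul, abs_of_pos hσ, abs_mul] at h1
  have h2 : |bu| * |ev - eu| ≤ L / σ + Kb * (14 * (Γv * (100 * R ^ 2) ^ 2)) := by
    rw [← mul_le_mul_iff_right₀ hσ]
    refine h1.trans (le_of_eq ?_)
    field_simp
  rw [le_div_iff₀ hW0]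
  have h3 : |ev - eu| * W ≤ |ev - eu| * |bu| := mul_le_mul_of_nonneg_left hW (abs_nonneg _)
  linarith

end fin

/-- numerical hypotheses of `coord_small` -/
theorem nums {R η μ Y A1 rh α : ℝ} (hR : 1 ≤ R) (hη : 0 ≤ η) (hηR : 10 ^ 24 * (η * R ^ 22) ≤ 1)
    (hμ : 0 < μ) (hRμ : 1 ≤ R * μ) (hY : 0 < Y) (hA : 0 < A1) (hA1 : A1 ≤ R) (hA2 : 1 ≤ R * A1)
    (hrh : 0 < rh) (hrh1 : rh ≤ 1) (hrh2 : 1 ≤ R * rh) (hY2 : μ * Y ≤ 8 * A1 ^ 2)
    (hα : μ * (A1 * (A1 ^ 2 / rh)) ≤ α) :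
    10 ^ 6 * (Y * (η * Bas.sz R rh Y A1)) ≤ α ∧
    2 ^ 27 * (400 * (Y * η * Bas.rt R η rh Y A1) + 3600 * (A1 * R * (Y * η))) ≤ α ∧
    3 * (η * Bas.sz R rh Y A1) ≤ A1 ^ 2 / rh ∧ 1 ≤ R ^ 2 * (A1 ^ 2 / rh) ∧
    A1 ^ 2 / rh ≤ R ^ 3 := by
  have R0 : 0 < R := by linarith
  have hYR : Y ≤ 8 * R ^ 3 := by
    have h1 : Y ≤ R * μ * Y := le_mul_of_one_le_left hY.le hRμ
    have h2 : R * (μ * Y) ≤ R * (8 * A1 ^ 2) := mul_le_mul_of_nonneg_left hY2 R0.le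
    have h3 : A1 ^ 2 ≤ R ^ 2 := pow_le_pow_left₀ hA.le hA1 2
    have h4 : R * (8 * A1 ^ 2) ≤ R * (8 * R ^ 2) := by
      refine mul_le_mul_of_nonneg_left ?_ R0.le
      linarith
    calc Y ≤ R * μ * Y := h1
      _ = R * (μ * Y) := by ring
      _ ≤ R * (8 * R ^ 2) := h2.trans h4
      _ = 8 * R ^ 3 := by ring
  have hinv : 1 / rh ≤ R := by rw [div_le_iff₀ hrh]; linarith
  have hYrh : Y / rh ≤ 8 * R ^ 4 := by
    have : Y / rh = Y * (1 / rh) := by ring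
    rw [this]
    calc Y * (1 / rh) ≤ 8 * R ^ 3 * R := mul_le_mul hYR hinv (by positivity) (by positivity)
      _ = 8 * R ^ 4 := by ring
  have hsz : Bas.sz R rh Y A1 ≤ 1200 * R ^ 5 := by
    unfold Bas.sz
    have h1 : R * Y / rh ≤ 8 * R ^ 5 := by
      have : R * Y / rh = R * (Y / rh) := by ring
      rw [this]
      calc R * (Y / rh) ≤ R * (8 * R ^ 4) := mul_le_mul_of_nonneg_left hYrh R0.le
        _ = 8 * R ^ 5 := by ring
    have h2 : R ^ 2 * A1 ≤ R ^ 5 := by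
      calc R ^ 2 * A1 ≤ R ^ 2 * R := mul_le_mul_of_nonneg_left hA1 (by positivity)
        _ = R ^ 3 := by ring
        _ ≤ R ^ 5 := pow_le_pow_right₀ hR (by norm_num)
    have h3 : 0 ≤ R ^ 5 := by positivity
    linarith
  have hsz0 : 0 ≤ Bas.sz R rh Y A1 := by unfold Bas.sz; positivity
  have hB1 : 1 ≤ R ^ 2 * (A1 ^ 2 / rh) := by
    have h1 : 1 ≤ (R * A1) ^ 2 := one_le_pow₀ hA2
    have h2 : A1 ^ 2 ≤ A1 ^ 2 / rh := by
      rw [le_div_iff₀ hrh]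
      exact mul_le_of_le_one_right (by positivity) hrh1
    have h3 := mul_le_mul_of_nonneg_left h2 (by positivity : 0 ≤ R ^ 2)
    have h4 : (R * A1) ^ 2 = R ^ 2 * A1 ^ 2 := by ring
    linarith
  have hB2 : A1 ^ 2 / rh ≤ R ^ 3 := by
    have : A1 ^ 2 / rh = A1 ^ 2 * (1 / rh) := by ring
    rw [this]
    calc A1 ^ 2 * (1 / rh) ≤ R ^ 2 * R :=
          mul_le_mul (pow_le_pow_left₀ hA.le hA1 2) hinv (by positivity) (by positivity)
      _ = R ^ 3 := by ring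
  have hα1 : 1 ≤ R ^ 4 * α := by
    have h1 : 1 ≤ (R * μ) * (R * A1) * (R ^ 2 * (A1 ^ 2 / rh)) := by
      have := mul_le_mul hRμ hA2 zero_le_one (by positivity : 0 ≤ R * μ)
      rw [one_mul] at this
      have := mul_le_mul this hB1 zero_le_one (by positivity)
      linarith
    have h2 := mul_le_mul_of_nonneg_left hα (by positivity : 0 ≤ R ^ 4)
    have h3 : (R * μ) * (R * A1) * (R ^ 2 * (A1 ^ 2 / rh)) =
      R ^ 4 * (μ * (A1 * (A1 ^ 2 / rh))) := by ring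
    linarith
  have hp : ∀ k : ℕ, k ≤ 22 → 10 ^ 24 * (η * R ^ k) ≤ 1 := by
    intro k hk
    have h1 : η * R ^ k ≤ η * R ^ 22 :=
      mul_le_mul_of_nonneg_left (pow_le_pow_right₀ hR hk) hη
    linarith
  have fin : ∀ {s : ℝ}, R ^ 4 * s ≤ 1 → s ≤ α := by
    intro s hs
    have h1 : R ^ 4 * s ≤ R ^ 4 * α := hs.trans hα1
    exact le_of_mul_le_mul_left h1 (by positivity)
  refine ⟨fin ?_, fin ?_, ?_, hB1, hB2⟩
  · have h1 : Y * (η * Bas.sz R rh Y A1) ≤ 8 * R ^ 3 * (η * (1200 * R ^ 5)) := by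
      refine mul_le_mul hYR (mul_le_mul_of_nonneg_left hsz hη) (by positivity) (by positivity)
    have h2 : R ^ 4 * (10 ^ 6 * (Y * (η * Bas.sz R rh Y A1))) ≤
        R ^ 4 * (10 ^ 6 * (8 * R ^ 3 * (η * (1200 * R ^ 5)))) := by
      refine mul_le_mul_of_nonneg_left ?_ (by positivity)
      linarith
    have h3 : R ^ 4 * (10 ^ 6 * (8 * R ^ 3 * (η * (1200 * R ^ 5)))) =
        96 * 10 ^ 8 * (η * R ^ 12) := by ring
    have h4 := hp 12 (by norm_num)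
    have h5 : 0 ≤ η * R ^ 12 := by positivity
    linarith
  · have hrt : Bas.rt R η rh Y A1 ≤ 140 * R ^ 4 := by
      unfold Bas.rt
      have h1 : η * Bas.sz R rh Y A1 ≤ 1 / 10 := by
        have h2 : η * Bas.sz R rh Y A1 ≤ η * (1200 * R ^ 5) := mul_le_mul_of_nonneg_left hsz hη
        have h3 := hp 5 (by norm_num)
        have h4 : 0 ≤ η * R ^ 5 := by positivity
        linarith
      have h5 : 1 ≤ R ^ 4 := one_le_pow₀ hR
      linarith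
    have hrt0 : 0 ≤ Bas.rt R η rh Y A1 := by unfold Bas.rt; positivity
    have h1 : Y * η * Bas.rt R η rh Y A1 ≤ 8 * R ^ 3 * η * (140 * R ^ 4) :=
      mul_le_mul (mul_le_mul_of_nonneg_right hYR hη) hrt hrt0 (by positivity)
    have h2 : A1 * R * (Y * η) ≤ R * R * (8 * R ^ 3 * η) :=
      mul_le_mul (mul_le_mul_of_nonneg_right hA1 R0.le) (mul_le_mul_of_nonneg_right hYR hη)
        (by positivity) (by positivity)
    have h3 : R ^ 4 * (2 ^ 27 * (400 * (Y * η * Bas.rt R η rh Y A1) +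
        3600 * (A1 * R * (Y * η)))) ≤ R ^ 4 * (2 ^ 27 * (400 * (8 * R ^ 3 * η * (140 * R ^ 4)) +
        3600 * (R * R * (8 * R ^ 3 * η)))) := by
      refine mul_le_mul_of_nonneg_left ?_ (by positivity)
      linarith
    have h4 : R ^ 4 * (2 ^ 27 * (400 * (8 * R ^ 3 * η * (140 * R ^ 4)) +
        3600 * (R * R * (8 * R ^ 3 * η)))) =
        2 ^ 27 * (448000 * (η * R ^ 11) + 28800 * (η * R ^ 9)) := by ring
    have h5 := hp 11 (by norm_num)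
    have h6 := hp 9 (by norm_num)
    have h7 : 0 ≤ η * R ^ 11 := by positivity
    have h8 : 0 ≤ η * R ^ 9 := by positivity
    linarith
  · have h1 : 3 * (η * Bas.sz R rh Y A1) ≤ 3600 * (η * R ^ 5) := by
      have := mul_le_mul_of_nonneg_left hsz hη
      linarith
    have h2 : R ^ 2 * (3 * (η * Bas.sz R rh Y A1)) ≤ 1 := by
      have h3 := mul_le_mul_of_nonneg_left h1 (by positivity : 0 ≤ R ^ 2)
      have h4 : R ^ 2 * (3600 * (η * R ^ 5)) = 3600 * (η * R ^ 7) := by ring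
      have h5 := hp 7 (by norm_num)
      have h6 : 0 ≤ η * R ^ 7 := by positivity
      linarith
    exact le_of_mul_le_mul_left (h2.trans hB1) (by positivity)

/-- smallness of the straightening map and of the flags -/
theorem nums2 {R ηP μ A1 rh θ hh σΓ : ℝ} (hR : 1 ≤ R) (hηP : 0 ≤ ηP)
    (hη : 10 ^ 24 * (ηP * R ^ 22) ≤ 1) (hA : 0 < A1) (hA2 : 1 ≤ R * A1)
    (hrh : 0 < rh) (hrh2 : 1 ≤ R * rh) (hRθ : 1 ≤ R * θ) (hθ : 0 < θ)
    (hB1 : 1 ≤ R ^ 2 * (A1 ^ 2 / rh)) (hh0 : 10 * (hh * R ^ 3) ≤ 1) (hσ0 : 0 ≤ σΓ)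
    (hσ : 10 ^ 24 * (σΓ * R ^ 22) ≤ 1) :
    120 * (ηP * (100 * R ^ 2) ^ 3) ≤ A1 * θ ∧
    960 * (ηP * (100 * R ^ 2) ^ 4) ≤ A1 ^ 2 / rh * θ ∧
    hh + 5200 * (ηP * (100 * R ^ 2) ^ 5) + 39 * ((100 * R ^ 2) ^ 2 *
      ((24 * ηP + σΓ) * (1 + 7 * (3 * (100 * R ^ 2) ^ 2)))) ≤ A1 ^ 2 * θ ∧
    80 * (ηP * (100 * R ^ 2) ^ 2) ≤ rh := by
  have R0 : 0 < R := by linarith
  have hp : ∀ k : ℕ, k ≤ 22 → 10 ^ 24 * (ηP * R ^ k) ≤ 1 := by
    intro k hk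
    have h1 : ηP * R ^ k ≤ ηP * R ^ 22 :=
      mul_le_mul_of_nonneg_left (pow_le_pow_right₀ hR hk) hηP
    linarith
  have hq : ∀ k : ℕ, k ≤ 22 → 10 ^ 24 * (σΓ * R ^ k) ≤ 1 := by
    intro k hk
    have h1 : σΓ * R ^ k ≤ σΓ * R ^ 22 :=
      mul_le_mul_of_nonneg_left (pow_le_pow_right₀ hR hk) hσ0
    linarith
  have hAθ : 1 ≤ R ^ 2 * (A1 * θ) := by
    have := mul_le_mul hA2 hRθ zero_le_one (by positivity)
    linarith
  have hBθ : 1 ≤ R ^ 3 * (A1 ^ 2 / rh * θ) := by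
    have := mul_le_mul hB1 hRθ zero_le_one (by positivity)
    linarith
  have hAAθ : 1 ≤ R ^ 3 * (A1 ^ 2 * θ) := by
    have h1 := mul_le_mul hA2 hA2 zero_le_one (by positivity)
    have := mul_le_mul h1 hRθ (by norm_num) (by positivity)
    linarith
  refine ⟨?_, ?_, ?_, ?_⟩
  · refine le_of_mul_le_mul_left (a := R ^ 2) ?_ (by positivity)
    have e : R ^ 2 * (120 * (ηP * (100 * R ^ 2) ^ 3)) = 12 * 10 ^ 7 * (ηP * R ^ 8) := by ring
    have := hp 8 (by norm_num)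
    have : 0 ≤ ηP * R ^ 8 := by positivity
    linarith
  · refine le_of_mul_le_mul_left (a := R ^ 3) ?_ (by positivity)
    have e : R ^ 3 * (960 * (ηP * (100 * R ^ 2) ^ 4)) = 96 * 10 ^ 9 * (ηP * R ^ 11) := by ring
    have := hp 11 (by norm_num)
    have : 0 ≤ ηP * R ^ 11 := by positivity
    linarith
  · refine le_of_mul_le_mul_left (a := R ^ 3) ?_ (by positivity)
    have e : R ^ 3 * (hh + 5200 * (ηP * (100 * R ^ 2) ^ 5) + 39 * ((100 * R ^ 2) ^ 2 *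
      ((24 * ηP + σΓ) * (1 + 7 * (3 * (100 * R ^ 2) ^ 2))))) =
      hh * R ^ 3 + 52 * 10 ^ 12 * (ηP * R ^ 13) +
        39 * 10 ^ 4 * (24 * (ηP * R ^ 7) + σΓ * R ^ 7) +
        39 * 10 ^ 4 * (21 * 10 ^ 4) * (24 * (ηP * R ^ 11) + σΓ * R ^ 11) := by ring
    rw [e]
    have a1 := hp 13 (by norm_num)
    have a2' := hp 7 (by norm_num)
    have a3 := hp 11 (by norm_num)
    have a4 := hq 7 (by norm_num)
    have a5 := hq 11 (by norm_num)
    have b1 : 0 ≤ ηP * R ^ 13 := by positivity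
    have b2 : 0 ≤ ηP * R ^ 7 := by positivity
    have b3 : 0 ≤ ηP * R ^ 11 := by positivity
    have b4 : 0 ≤ σΓ * R ^ 7 := by positivity
    have b5 : 0 ≤ σΓ * R ^ 11 := by positivity
    linarith
  · refine le_of_mul_le_mul_left (a := R) ?_ R0
    have e : R * (80 * (ηP * (100 * R ^ 2) ^ 2)) = 8 * 10 ^ 5 * (ηP * R ^ 5) := by ring
    have := hp 5 (by norm_num)
    have : 0 ≤ ηP * R ^ 5 := by positivity
    linarith

/-- **drift of a line near the model quadric** -/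
theorem drift_le {κ y rh hh : ℝ} {M : Ln4} (hrh : 0 < rh)
    (h : ∀ z, y ≤ z → z ≤ y + rh → |ht κ z (M.pos z 1) (M.pos z 2) (M.pos z 0)| ≤ hh) :
    |drW κ M| ≤ 8 * hh / rh ^ 2 := by
  have h0 := h y le_rfl (by linarith)
  have h1 := h (y + rh / 2) (by linarith) (by linarith)
  have h2 := h (y + rh) (by linarith) le_rfl
  have e : drW κ M * rh ^ 2 = 2 * (2 * ht κ (y + rh / 2) (M.pos (y + rh / 2) 1)
      (M.pos (y + rh / 2) 2) (M.pos (y + rh / 2) 0) -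
      ht κ y (M.pos y 1) (M.pos y 2) (M.pos y 0) -
      ht κ (y + rh) (M.pos (y + rh) 1) (M.pos (y + rh) 2) (M.pos (y + rh) 0)) := by
    simp only [drW, ht, Ln4.pos]; ring
  rw [le_div_iff₀ (by positivity)]
  have e2 : |drW κ M| * rh ^ 2 = |drW κ M * rh ^ 2| := by
    rw [abs_mul, abs_of_nonneg (sq_nonneg rh)]
  rw [e2, e]
  have two : |(2 : ℝ)| ≤ 2 := by norm_num
  refine (m2 two (s2 (s2 (m2 two h1) h0) h2)).trans (le_of_eq (by ring))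

end Crest.Agent.R136.Clw768
end

-- ▼ part R136/Clw4_768

/-!
# R136, U6 thin side, stage C (helper768): closeness of the sheets of two levels, sequences

`clw_of_snd` : the field `clw` of `StcA` from the level data, `Mb`, `thick` and the expansions of the
level-`u` function on the level-`v` marks (`SndUV`).
-/

set_option autoImplicit false
set_option linter.unusedVariables false

open Finset Filter Topology

namespace Crest.Agent.R136.Clw768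

open Crest.Agent.R138
open Crest.Agent.R138.Ex926 (Base U)
open Crest.Agent.R138.Dp76 (dpow_pos dpow_add dpow_le dpow_le_one)
open Crest.Agent.R138.ArgM163 (ev_const)
open Crest.Agent.R138.Mk163 (zc zl rho alive)
open Crest.Agent.R138.MkRef627 (lc kc mem_alive)
open Crest.Agent.R136.MkA627
open Crest.Agent.R136.Sh605
open Crest.Agent.R136.K4
open Crest.Agent.R136.NetW191
open Crest.Agent.R136.GeoN778
open Crest.Agent.R136.Wit321
open Crest.Agent.R136.Top484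
open Crest.Agent.R136.Stc321
open Crest.Agent.R136.Stk464 (StcK mk_facts cell_v b0_ge om_sz mb_num pull_sz cell_nest uzh_eq)
open Crest.Agent.R136.Tl102 (QF kap IsExp OmB)
open Crest.Agent.R136.Tlt51 (Close mk4 zx rh Shp InP)
open Crest.Agent.R136.Fw650 (z0N zhN rhN)
open Crest.Agent.R136.Thn768 (ThinW Own)
open Crest.Agent.R136.Tn327 (CloseW zmN)
open Crest.Agent.R136.FlW464 (frW drW)
open Crest.Agent.R136.Lat327 (wA_bd bas_mono)

/-- expansions of the level-`u` function on the level-`v` marks -/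
def SndUV (D : Dat4) : Prop := ∃ Ct : ℝ, 0 ≤ Ct ∧ ∀ u v : ℚ, 0 ≤ u → u < v → v ≤ 1 → ∀ ε : ℝ,
  0 < ε → ∀ᶠ n in (U : Filter ℕ), ∀ x ∈ D.I n, ∀ (b0 b1 : V3) (G : QF),
    Own (mk4 D n v x) (D.L n x.1) (zx D n v x) (rh D n v) (D.B.d n ^ (ε / 16)) b0 b1 G →
    ∃ (X : ℝ) (b0p b1p : V3) (Gp : QF),
      IsExp (mk4 D n u x).q (mk4 D n v x).e (mk4 D n v x).w (D.L n x.1) (zx D n v x) (rh D n v)
        b0p b1p Gp ∧ 1 / 16 ≤ |b0p 0 / b0 0| ∧ |b0p 0 / b0 0| ≤ 16 ∧ 0 ≤ X ∧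
      OmB (kap b0 b1 G) X X X b0 b1 G b0p b1p Gp ∧
      X * ((mk4 D n v x).w 0 * kap b0 b1 G) ≤
        D.B.d n ^ (-(Ct * ((v : ℝ) - u)) - ε) * max (D.w 0 n u) (D.w 0 n v)

/-- more numerical facts -/
theorem nums3 {R μ Y A1 rh α : ℝ} (hR : 8 ≤ R) (hμ : 0 < μ) (hRμ : 1 ≤ R * μ) (hY : 0 < Y)
    (hA : 0 < A1) (hA1 : A1 ≤ R) (hA2 : 1 ≤ R * A1) (hrh : 0 < rh) (hrh1 : rh ≤ 1)
    (hY1 : μ * A1 ^ 2 ≤ 8 * Y) (hY2 : μ * Y ≤ 8 * A1 ^ 2)
    (hα : μ * (A1 * (A1 ^ 2 / rh)) ≤ α) :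
    Y ≤ (R ^ 4) ^ 2 ∧ 1 ≤ (R ^ 4) ^ 2 * Y ∧ 1 ≤ (R ^ 4) ^ 2 * α := by
  have R0 : 0 < R := by linarith
  have R1 : 1 ≤ R := by linarith
  refine ⟨?_, ?_, ?_⟩
  · have h1 : Y ≤ R * μ * Y := le_mul_of_one_le_left hY.le hRμ
    have h2 : R * (μ * Y) ≤ R * (8 * A1 ^ 2) := mul_le_mul_of_nonneg_left hY2 R0.le
    have h3 : A1 ^ 2 ≤ R ^ 2 := pow_le_pow_left₀ hA.le hA1 2
    have h4 : R * (8 * A1 ^ 2) ≤ R * (8 * R ^ 2) := by
      refine mul_le_mul_of_nonneg_left ?_ R0.le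
      linarith
    have h5 : R * (8 * R ^ 2) ≤ R * (R * R ^ 2) := by
      refine mul_le_mul_of_nonneg_left ?_ R0.le
      exact mul_le_mul_of_nonneg_right hR (by positivity)
    have h6 : R * (R * R ^ 2) ≤ (R ^ 4) ^ 2 := by
      have e1 : R * (R * R ^ 2) = R ^ 4 := by ring
      rw [e1]
      exact le_self_pow₀ (one_le_pow₀ R1) (by norm_num)
    linarith
  · have h1 : 1 ≤ (R * A1) ^ 2 := one_le_pow₀ hA2
    have h2 : 1 ≤ (R * μ) * (R * A1) ^ 2 := by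
      have := mul_le_mul hRμ h1 zero_le_one (by positivity)
      linarith
    have h3 : (R * μ) * (R * A1) ^ 2 = R ^ 3 * (μ * A1 ^ 2) := by ring
    have h4 := mul_le_mul_of_nonneg_left hY1 (by positivity : 0 ≤ R ^ 3)
    have h5 : R ^ 3 * (8 * Y) ≤ (R ^ 4) ^ 2 * Y := by
      have h6 : R ^ 3 * 8 ≤ R ^ 3 * R := mul_le_mul_of_nonneg_left hR (by positivity)
      have h7 : R ^ 3 * R ≤ (R ^ 4) ^ 2 := by
        have e1 : R ^ 3 * R = R ^ 4 := by ring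
        rw [e1]
        exact le_self_pow₀ (one_le_pow₀ R1) (by norm_num)
      have h8 := mul_le_mul_of_nonneg_right (h6.trans h7) hY.le
      linarith
    linarith
  · have h1 : 1 ≤ (R * A1) ^ 2 := one_le_pow₀ hA2
    have h2 : A1 ^ 2 ≤ A1 ^ 2 / rh := by
      rw [le_div_iff₀ hrh]
      exact mul_le_of_le_one_right (by positivity) hrh1
    have h3 : 1 ≤ (R * μ) * (R * A1) * (R ^ 2 * (A1 ^ 2 / rh)) := by
      have k1 := mul_le_mul hRμ hA2 zero_le_one (by positivity : 0 ≤ R * μ)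
      rw [one_mul] at k1
      have k2 : 1 ≤ R ^ 2 * (A1 ^ 2 / rh) := by
        have := mul_le_mul_of_nonneg_left h2 (by positivity : 0 ≤ R ^ 2)
        have e1 : (R * A1) ^ 2 = R ^ 2 * A1 ^ 2 := by ring
        linarith
      have := mul_le_mul k1 k2 zero_le_one (by positivity)
      linarith
    have h4 : (R * μ) * (R * A1) * (R ^ 2 * (A1 ^ 2 / rh)) =
      R ^ 4 * (μ * (A1 * (A1 ^ 2 / rh))) := by ring
    have h5 := mul_le_mul_of_nonneg_left hα (by positivity : 0 ≤ R ^ 4)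
    have hα0 : 0 ≤ α := le_trans (by positivity) hα
    have h6 : R ^ 4 * α ≤ (R ^ 4) ^ 2 * α :=
      mul_le_mul_of_nonneg_right (le_self_pow₀ (one_le_pow₀ R1) (by norm_num)) hα0
    linarith

/-- positions of the image line -/
theorem pos_le {P : Pj} {ηP R : ℝ} (hP : P.Sm ηP) (hR : 1 ≤ R) {t : Ln4}
    (hp : ∀ k, |t.p k| ≤ R) (hv : ∀ k, |t.v k| ≤ R) (hη : 40 * (ηP * R) ≤ 1) {z : ℝ}
    (hz : |z| ≤ 1) (k : Fin 3) : |(P.line t).pos z k| ≤ 4 * R := by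
  have hηP := hP.nn
  have R0 : 0 ≤ R := by linarith
  have h0 : 0 ≤ ηP * R := by positivity
  have lp := Pj.line_p hP hp hv hR (by linarith) k
  have lv := Pj.line_v hP hp hv hR (by linarith) k
  have e40 : 40 * (ηP * R ^ 2) ≤ R := by
    have e : 40 * (ηP * R ^ 2) = R * (40 * (ηP * R)) := by ring
    rw [e]
    exact mul_le_of_le_one_right R0 hη
  have e : (P.line t).pos z k = ((P.line t).p k - t.p k) + t.p k +
      z * (((P.line t).v k - t.v k) + t.v k) := by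
    simp only [Ln4.pos]; ring
  rw [e]
  refine (a2 (a2 (lp.trans e40) (hp k)) (m2 hz (a2 (lv.trans e40) (hv k)))).trans ?_
  linarith

/-- the last inequality -/
theorem last_num {L w0 WY σ K E Kb Γv R t : ℝ} (hw0 : 0 < w0) (hWY : 0 < WY) (hσ : 0 < σ)
    (hσw : WY * σ = w0) (hL : L ≤ 84 * E) (hK : K ≤ 18 * E) (hK0 : 0 ≤ K) (hE : 0 ≤ E)
    (hKb : Kb ≤ 2 * (K * t ^ 38)) (ht : 1 ≤ t) (hΓ0 : 0 ≤ Γv) (hΓ : Γv ≤ t) (hR : R ≤ t)
    (hR0 : 0 ≤ R) (hσt : 10 ^ 8 * (σ * t ^ 43) ≤ 1) :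
    (L / σ + Kb * (14 * (Γv * (100 * R ^ 2) ^ 2))) / (WY / 4) ≤ 440 * (E / w0) := by
  have t0 : 0 < t := by linarith
  have h1 : Kb * (14 * (Γv * (100 * R ^ 2) ^ 2)) ≤ 2 * (K * t ^ 38) * (14 * (t * (100 * t ^ 2) ^ 2)) := by
    have k1 : 14 * (Γv * (100 * R ^ 2) ^ 2) ≤ 14 * (t * (100 * t ^ 2) ^ 2) := by
      have k2 : (100 * R ^ 2) ^ 2 ≤ (100 * t ^ 2) ^ 2 := by
        refine pow_le_pow_left₀ (by positivity) ?_ 2
        have := pow_le_pow_left₀ hR0 hR 2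
        linarith
      have := mul_le_mul hΓ k2 (by positivity) t0.le
      linarith
    refine (mul_le_mul_of_nonneg_right hKb (by positivity)).trans ?_
    exact mul_le_mul_of_nonneg_left k1 (by positivity)
  have h2 : 2 * (K * t ^ 38) * (14 * (t * (100 * t ^ 2) ^ 2)) = 28 * 10 ^ 4 * (K * t ^ 43) := by ring
  have h3 : σ * (28 * 10 ^ 4 * (K * t ^ 43)) ≤ K := by
    have e : σ * (28 * 10 ^ 4 * (K * t ^ 43)) = 28 * 10 ^ 4 * (K * (σ * t ^ 43)) := by ring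
    have := mul_le_mul_of_nonneg_left hσt hK0
    have : 0 ≤ K * (σ * t ^ 43) := by positivity
    linarith
  rw [div_le_iff₀ (by positivity)]
  have e4 : 440 * (E / w0) * (WY / 4) = 110 * E / σ := by
    rw [← hσw]; field_simp; ring
  rw [e4, le_div_iff₀ hσ]
  have e5 : (L / σ + Kb * (14 * (Γv * (100 * R ^ 2) ^ 2))) * σ =
      L + σ * (Kb * (14 * (Γv * (100 * R ^ 2) ^ 2))) := by field_simp
  rw [e5]
  have h4 := mul_le_mul_of_nonneg_left h1 hσ.le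
  rw [h2] at h4
  linarith

set_option maxHeartbeats 1000000 in
/-- **closeness of two levels**, from the expansions of the level-`u` function -/
theorem clw_of_snd {p : Par4} {D : Dat4} {K : ℕ → CtD} {x0 : ℕ → ℕ × ℝ} (h : ThinW p D)
    (hK : StcK p D K x0) (hS : SndUV D)
    (Mb : ∀ C : ℝ, ∀ v : ℚ, 0 ≤ v → v ≤ 1 → ∃ C' : ℝ, ∀ᶠ n in (U : Filter ℕ), ∀ x ∈ D.I n,
      Gd D K C n x → ((K n).Q (mk4 D n v x).q).b 0 ≠ 0 ∧
        ∀ k, |MkS D K v n (kc (D.lev n v) (D.f n v) x) k| ≤ D.B.d n ^ (-C'))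
    (thk : ∀ C : ℝ, ∀ v : ℚ, 0 ≤ v → v ≤ 1 → ∀ ε : ℝ, 0 < ε → ∀ᶠ n in (U : Filter ℕ),
    ∀ x ∈ D.I n, Gd D K C n x → ∀ z, z0N D.lev (hzS K) (zsS K) v n (zc (D.lev n v) x.2) ≤ z →
      z ≤ z0N D.lev (hzS K) (zsS K) v n (zc (D.lev n v) x.2) + rhN D.lev (hzS K) n v →
      |ht (K n).κ z ((LS D K n x.1).pos z 1) ((LS D K n x.1).pos z 2) ((LS D K n x.1).pos z 0) -
        (K n).σ * evY (MkS D K v n (kc (D.lev n v) (D.f n v) x)) z ((LS D K n x.1).pos z 1)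
          ((LS D K n x.1).pos z 2) ((LS D K n x.1).pos z 0)| ≤
        (K n).σ * (aS D n v * D.B.d n ^ (-ε))) :
    ∃ C0 : ℝ, 0 ≤ C0 ∧ ∀ C : ℝ, ∀ u v : ℚ, 0 ≤ u → u < v → v ≤ 1 → ∀ ε : ℝ, 0 < ε →
    ∀ᶠ n in (U : Filter ℕ), ∀ x ∈ D.I n, Gd D K C n x →
      CloseW (K n).κ (frW (LS D K n x.1) (zmN D.lev (hzS K) (zsS K) v n x))
        (rhN D.lev (hzS K) n v * D.B.d n ^ ε) (wAS D K n v * D.B.d n ^ ε)
        (wAS D K n v ^ 2 / rhN D.lev (hzS K) n v * D.B.d n ^ ε)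
        (max (aS D n u) (aS D n v) * D.B.d n ^ (-(C0 * ((v : ℝ) - u)) - ε))
        (MkS D K v n (kc (D.lev n v) (D.f n v) x))
        (MkS D K u n (kc (D.lev n u) (D.f n u) x)) := by
  obtain ⟨Ct, Ct0, hS⟩ := hS
  refine ⟨Ct, Ct0, fun C u v u0 uv v1 ε hε => ?_⟩
  have v0 : 0 ≤ v := u0.trans uv.le
  have u1 : u ≤ 1 := uv.le.trans v1
  obtain ⟨Cv, Mv⟩ := Mb C v v0 v1
  obtain ⟨Cu, Mu⟩ := Mb C u u0 u1
  obtain ⟨C2, C20, hL⟩ := lev_data h hK C v0 v1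
  set a : ℝ := |1 - p.θ 0| + |1 - p.θ 1| + |1 - p.θ 2| with ha
  set e : ℝ := |C| + |Cv| + C2 + 2 * a + ε + 8 with he
  have a0 := abs_nonneg (1 - p.θ 0)
  have a1 := abs_nonneg (1 - p.θ 1)
  have a2' := abs_nonneg (1 - p.θ 2)
  have c0 := abs_nonneg C
  have c0' := abs_nonneg Cv
  have eC : C ≤ e := by have := le_abs_self C; linarith
  have eCv : Cv ≤ e := by have := le_abs_self Cv; linarith
  have eC2 : C2 ≤ e := by linarith
  have ep : 0 < e := by linarith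
  have vr0 : (0 : ℝ) ≤ v := by exact_mod_cast v0
  have vr1 : (v : ℝ) ≤ 1 := by exact_mod_cast v1
  have uvr : (0 : ℝ) ≤ (v : ℝ) - u := by
    have : (u : ℝ) ≤ v := by exact_mod_cast uv.le
    linarith
  filter_upwards [hL (ε / 2 / 16) (by positivity) (30 * e + 10) (by linarith),
    hS u v u0 uv v1 (ε / 2) (by positivity), mk_facts h.mka v0 v1, mk_facts h.mka u0 u1,
    mk_facts h.mka le_rfl zero_le_one, cell_v h.mka hK v0 v1, wA_bd h.mka hK v0 v1,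
    hK.sm (30 * e + 10), hK.σs (200 * e), hK.σw, hK.bal v v0 v1 (ε / 4) (by positivity),
    b0_ge h hK u0 u1 Mu, Mv, thk C v v0 v1 1 one_pos, h.mka.lev_mono u v u0 uv.le v1,
    Wcn464.wid_le h.mka 0 v0 v1, ev_const D.B (C := 10 ^ 24) (by norm_num) one_pos,
    ev_const D.B (C := 4 * 10 ^ 10) (by norm_num) (show 0 < ε / 2 by positivity)] with n
    f1 f2 f3 f4 f5 f6 f7 f8 f9 g1 g2 g3 g4 g5 g6 g7 g8 g9 x hx hg
  obtain ⟨b0, b1, G, b0p, b1p, Gp, O, -, -, -, -, q3, q4, -, hB, y1, y2, hpv, hzh, -⟩ :=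
    (f1 x hx hg).ex
  obtain ⟨X, c0p, c1p, Cp, hE, m1, m2', X0, hO, hX⟩ := f2 x hx b0 b1 G O
  obtain ⟨mv0, mv⟩ := f3
  obtain ⟨i1, i2, i3, i4, i5⟩ := mv x hx
  obtain ⟨mu0, mu⟩ := f4
  obtain ⟨j1, j2, j3, j4, j5⟩ := mu x hx
  obtain ⟨mo0, mo⟩ := f5
  obtain ⟨o1, o2, o3, o4, o5⟩ := mo x hx
  obtain ⟨bu1, bu2⟩ := g3 x hx hg
  obtain ⟨bv0, hΓv⟩ := g4 x hx hg
  have thx := g5 x hx hg
  have dp := dpow_pos D.B n
  have hWA := (hK.ok n).A0
  have hWB := (hK.ok n).B0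
  have hWY := (hK.ok n).Y0
  have hH := (hK.ok n).H0
  have hσ := hK.σ0 n
  have hκ := hK.kp1 n
  -- powers
  obtain ⟨R, hR⟩ : ∃ R : ℝ, R = D.B.d n ^ (-e) := ⟨_, rfl⟩
  have R0 : 0 < R := by rw [hR]; exact dp _
  have one_le : ∀ {a : ℝ}, 0 ≤ a → (1 : ℝ) ≤ D.B.d n ^ (-a) := fun ha =>
    Real.one_le_rpow_of_pos_of_le_one_of_nonpos (D.B.pos n) (D.B.lt n).le (by linarith)
  have R24 : 10 ^ 24 ≤ R := by
    rw [hR]; exact g8.trans (dpow_le D.B n (by linarith))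
  have R1 : 1 ≤ R := by linarith
  have Rk : ∀ k : ℕ, R ^ k = D.B.d n ^ (-(k * e)) := by
    intro k
    rw [hR, ← Real.rpow_natCast, ← Real.rpow_mul (D.B.pos n).le]; congr 1; ring
  have sml : ∀ (k : ℕ) {M s : ℝ}, (k : ℝ) * e + 1 ≤ M → 0 ≤ s → s ≤ D.B.d n ^ M →
      10 ^ 24 * (s * R ^ k) ≤ 1 := by
    intro k M s hM hs0 hs
    have h1 : s * R ^ k ≤ D.B.d n ^ (1 : ℝ) := by
      rw [Rk]
      refine (mul_le_mul_of_nonneg_right hs (dp _).le).trans ?_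
      rw [← dpow_add]
      exact dpow_le D.B n (by linarith)
    have h2 : 10 ^ 24 * D.B.d n ^ (1 : ℝ) ≤ D.B.d n ^ (-(1 : ℝ)) * D.B.d n ^ (1 : ℝ) :=
      mul_le_mul_of_nonneg_right g8 (dp _).le
    rw [← dpow_add, neg_add_cancel, Real.rpow_zero] at h2
    have h3 := mul_le_mul_of_nonneg_left h1 (by norm_num : (0 : ℝ) ≤ 10 ^ 24)
    linarith
  have hge : ∀ {b t : ℝ}, b ≤ e → D.B.d n ^ b ≤ t → 1 ≤ R * t := by
    intro b t hb ht
    have h1 : (1 : ℝ) ≤ R * D.B.d n ^ b := by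
      rw [hR, ← dpow_add]
      exact Real.one_le_rpow_of_pos_of_le_one_of_nonpos (D.B.pos n) (D.B.lt n).le (by linarith)
    exact h1.trans (mul_le_mul_of_nonneg_left ht R0.le)
  obtain ⟨η, hη⟩ : ∃ η : ℝ, η = D.B.d n ^ (30 * e + 10) := ⟨_, rfl⟩
  have η0 : 0 < η := by rw [hη]; exact dp _
  have ηR : 10 ^ 24 * (η * R ^ 22) ≤ 1 :=
    sml 22 (M := 30 * e + 10) (by push_cast; linarith) η0.le hη.le
  have hRC : D.B.d n ^ (-C2) ≤ R := by rw [hR]; exact dpow_le D.B n (by linarith)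
  have hR22 : R ≤ R ^ 22 := le_self_pow₀ R1 (by norm_num)
  have hRη : 40 * (R * η) ≤ 1 := by
    have h1 := mul_le_mul_of_nonneg_left hR22 η0.le
    have h2 : 0 < η * R ^ 22 := by positivity
    linarith
  rw [← hη] at hB f8
  have hB' := bas_mono hB hRC hRη
  -- sizes
  have hρH : rh D n v / (K n).u.H = rhN D.lev (hzS K) n v := by
    show rho (D.lev n v) / (K n).u.H = 1 / (K n).u.H * rho (D.lev n v)
    ring
  have hAe : (mk4 D n v x).w 1 / (K n).u.WA = wAS D K n v := by rw [i4]; rfl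
  obtain ⟨A1, hA1⟩ : ∃ A1 : ℝ, A1 = (mk4 D n v x).w 1 / (K n).u.WA := ⟨_, rfl⟩
  obtain ⟨r, hr⟩ : ∃ r : ℝ, r = rh D n v / (K n).u.H := ⟨_, rfl⟩
  have hA0 : 0 < A1 := by rw [hA1]; exact hB'.A1p
  have hA1R : A1 ≤ R := by
    rw [hA1, hAe, hR]
    exact f7.2.trans (dpow_le D.B n (by linarith))
  have hA1R' : 1 ≤ R * A1 := by
    rw [hA1, hAe]
    exact hge (b := |1 - p.θ 1| + 2) (by linarith) f7.1
  have hr0 : 0 < r := by rw [hr]; exact hB'.rh0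
  have hr1 : r ≤ 1 := by rw [hr]; exact hB'.rh1
  have hrR : 1 ≤ R * r := by
    rw [hr, hρH]
    exact hge (b := (v : ℝ) + 1) (by linarith) f6.1
  obtain ⟨μ, hμ⟩ : ∃ μ : ℝ, μ = D.B.d n ^ (ε / 4) := ⟨_, rfl⟩
  have μ0 : 0 < μ := by rw [hμ]; exact dp _
  have μ1 : μ ≤ 1 := by rw [hμ]; exact dpow_le_one D.B n (by positivity)
  have μR : 1 ≤ R * μ := hge (b := ε / 4) (by linarith) hμ.ge
  obtain ⟨θ, hθ⟩ : ∃ θ : ℝ, θ = D.B.d n ^ ε := ⟨_, rfl⟩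
  have θ0 : 0 < θ := by rw [hθ]; exact dp _
  have θR : 1 ≤ R * θ := hge (b := ε) (by linarith) hθ.ge
  have hθμ : 4 * 10 ^ 10 * θ ≤ μ ^ 2 := by
    have h1 := mul_le_mul_of_nonneg_right g9 θ0.le
    have h2 : D.B.d n ^ (-(ε / 2)) * θ = μ ^ 2 := by
      rw [hθ, hμ, pow_two, ← dpow_add, ← dpow_add]; congr 1; ring
    rw [h2] at h1
    exact h1
  obtain ⟨ν, hν⟩ : ∃ ν : ℝ, ν = ((K n).Q (mk4 D n 0 x).q).b 0 := ⟨_, rfl⟩
  rw [← hν] at q3 q4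
  have ν0 : 0 < |ν| := by linarith
  obtain ⟨Ye, hYe⟩ : ∃ Ye : ℝ, Ye = (mk4 D n v x).w 0 * kap b0 b1 G := ⟨_, rfl⟩
  have Ye0 : 0 < Ye := by rw [hYe]; exact O.Ye0
  have δμ : μ ≤ D.B.d n ^ (ε / 2 / 16) := by rw [hμ]; exact dpow_le D.B n (by linarith)
  rw [← hYe, ← hA1] at y1 y2
  have hY0 : 0 < Ye / |ν| := div_pos Ye0 ν0
  have hY1 : μ * A1 ^ 2 ≤ 8 * (Ye / |ν|) := by
    have h1 : μ * ((K n).u.WY * A1 ^ 2) ≤ Ye :=
      (mul_le_mul_of_nonneg_right δμ (by positivity)).trans y2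
    rw [← mul_div_assoc, le_div_iff₀ ν0]
    have h2 := mul_le_mul_of_nonneg_left q4 (show 0 ≤ μ * A1 ^ 2 by positivity)
    have e1 : μ * A1 ^ 2 * (8 * (K n).u.WY) = 8 * (μ * ((K n).u.WY * A1 ^ 2)) := by ring
    linarith
  have hY2 : μ * (Ye / |ν|) ≤ 8 * A1 ^ 2 := by
    have h1 : μ * Ye ≤ (K n).u.WY * A1 ^ 2 :=
      (mul_le_mul_of_nonneg_right δμ Ye0.le).trans y1
    rw [mul_div_assoc', div_le_iff₀ ν0]
    have h2 := mul_le_mul_of_nonneg_left q3 (show 0 ≤ 8 * A1 ^ 2 by positivity)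
    have e1 : 8 * A1 ^ 2 * ((K n).u.WY / 8) = (K n).u.WY * A1 ^ 2 := by ring
    linarith
  obtain ⟨α, hα⟩ : ∃ α : ℝ, α = (mk4 D n v x).w 1 / (K n).u.WA * ((mk4 D n v x).w 2 / (K n).u.WB) :=
    ⟨_, rfl⟩
  have hαμ : μ * (A1 * (A1 ^ 2 / r)) ≤ α := by
    have h1 : (K n).u.WB * wBS D K n v ≤ D.w 2 n v * D.B.d n ^ (-(ε / 4)) := g2.2
    have h2 : wBS D K n v = A1 ^ 2 / r := by rw [hA1, hr, hρH, hAe]; rfl
    rw [h2] at h1
    have h3 : μ * (A1 ^ 2 / r) ≤ D.w 2 n v / (K n).u.WB := by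
      rw [le_div_iff₀ hWB]
      have h4 := mul_le_mul_of_nonneg_left h1 μ0.le
      have h5 : μ * (D.w 2 n v * D.B.d n ^ (-(ε / 4))) = D.w 2 n v := by
        rw [hμ]
        calc _ = D.w 2 n v * (D.B.d n ^ (ε / 4) * D.B.d n ^ (-(ε / 4))) := by ring
          _ = _ := by rw [← dpow_add, add_neg_cancel, Real.rpow_zero, mul_one]
      rw [h5] at h4
      linarith
    rw [hα, ← hA1, i5]
    calc μ * (A1 * (A1 ^ 2 / r)) = A1 * (μ * (A1 ^ 2 / r)) := by ring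
      _ ≤ A1 * (D.w 2 n v / (K n).u.WB) := mul_le_mul_of_nonneg_left h3 hA0.le
  obtain ⟨n1, n2, n3, n4, n5⟩ := nums R1 η0.le ηR μ0 μR hY0 hA0 hA1R hA1R' hr0 hr1 hrR hY2 hαμ
  obtain ⟨l1, l2, l3⟩ := nums3 (by linarith) μ0 μR hY0 hA0 hA1R hA1R' hr0 hr1 hY1 hY2 hαμ
  -- the flags
  have hΓ0 : ∀ k, |(K n).M (mk4 D n 0 x).q k| ≤ R := fun k =>
    (hg.2.2 k).trans (by rw [hR]; exact dpow_le D.B n (by linarith))
  have hΓv' : ∀ k, |(K n).M (mk4 D n v x).q k| ≤ R := fun k =>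
    (hΓv k).trans (by rw [hR]; exact dpow_le D.B n (by linarith))
  have hpR : ∀ k, |((K n).t (D.L n x.1)).p k| ≤ R := fun k => (hpv k).1.trans hRC
  have hvR : ∀ k, |((K n).t (D.L n x.1)).v k| ≤ R := fun k => (hpv k).2.trans hRC
  have σk : ∀ k : ℕ, k ≤ 190 → 10 ^ 24 * ((K n).σ * R ^ k) ≤ 1 := by
    intro k hk
    refine sml k (M := 200 * e) ?_ hσ.le f9
    have : (k : ℝ) ≤ 190 := by exact_mod_cast hk
    have := mul_le_mul_of_nonneg_right this ep.le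
    linarith
  obtain ⟨hh, hhd⟩ : ∃ hh : ℝ, hh = (K n).σ * R ^ 4 := ⟨_, rfl⟩
  -- the cell in normal heights
  have ezh : (K n).u.zh (zx D n v x) = z0N D.lev (hzS K) (zsS K) v n (zc (D.lev n v) x.2) :=
    uzh_eq K n (zx D n v x)
  have hηR40 : 40 * (η * R) ≤ 1 := by linarith
  have hh1 : ∀ z, (K n).u.zh (zx D n v x) ≤ z → z ≤ (K n).u.zh (zx D n v x) + r →
      |ht (K n).κ z (((K n).P.line ((K n).t (D.L n x.1))).pos z 1)
        (((K n).P.line ((K n).t (D.L n x.1))).pos z 2)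
        (((K n).P.line ((K n).t (D.L n x.1))).pos z 0)| ≤ hh := by
    intro z z1 z2
    rw [ezh] at z1 z2
    rw [hr, hρH] at z2
    have k1 := thx z z1 z2
    have k2 := f6.2.2 x hx z z1 z2
    have k3 : ∀ k, |(LS D K n x.1).pos z k| ≤ 4 * R := fun k =>
      pos_le f8 R1 hpR hvR hηR40 k2 k
    have k4 := evY_le (G := MkS D K v n (kc (D.lev n v) (D.f n v) x)) (Γ := R) (R := 4 * R)
      hΓv' (by linarith) (k2.trans (by linarith)) (k3 1) (k3 2) (k3 0)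
    have k5 : aS D n v * D.B.d n ^ (-(1 : ℝ)) ≤ R := by
      have k6 : aS D n v ≤ D.B.d n ^ (-(|1 - p.θ 0| + 1)) := by
        show D.w 0 n v / D.w 0 n 0 ≤ _
        rw [div_le_iff₀ mo0, mul_comm]
        exact g7
      refine (mul_le_mul_of_nonneg_right k6 (dp _).le).trans ?_
      rw [← dpow_add, hR]
      exact dpow_le D.B n (by linarith)
    have k7 : ht (K n).κ z ((LS D K n x.1).pos z 1) ((LS D K n x.1).pos z 2)
        ((LS D K n x.1).pos z 0) = (ht (K n).κ z ((LS D K n x.1).pos z 1)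
        ((LS D K n x.1).pos z 2) ((LS D K n x.1).pos z 0) -
        (K n).σ * evY (MkS D K v n (kc (D.lev n v) (D.f n v) x)) z ((LS D K n x.1).pos z 1)
          ((LS D K n x.1).pos z 2) ((LS D K n x.1).pos z 0)) +
        (K n).σ * evY (MkS D K v n (kc (D.lev n v) (D.f n v) x)) z ((LS D K n x.1).pos z 1)
          ((LS D K n x.1).pos z 2) ((LS D K n x.1).pos z 0) := by ring
    show |ht (K n).κ z ((LS D K n x.1).pos z 1) ((LS D K n x.1).pos z 2)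
        ((LS D K n x.1).pos z 0)| ≤ hh
    rw [k7]
    have k8 : |(K n).σ * evY (MkS D K v n (kc (D.lev n v) (D.f n v) x)) z
        ((LS D K n x.1).pos z 1) ((LS D K n x.1).pos z 2) ((LS D K n x.1).pos z 0)| ≤
        (K n).σ * (14 * (R * (4 * R) ^ 2)) := by
      rw [abs_mul, abs_of_pos hσ]
      exact mul_le_mul_of_nonneg_left k4 hσ.le
    refine (a2 (k1.trans (mul_le_mul_of_nonneg_left k5 hσ.le)) k8).trans ?_
    rw [hhd, ← mul_add]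
    refine mul_le_mul_of_nonneg_left ?_ hσ.le
    have k9 : 225 * R ^ 3 ≤ R * R ^ 3 := mul_le_mul_of_nonneg_right (by linarith) (by positivity)
    have k10 : R ≤ R ^ 3 := le_self_pow₀ R1 (by norm_num)
    have e1 : 14 * (R * (4 * R) ^ 2) = 224 * R ^ 3 := by ring
    have e2 : R * R ^ 3 = R ^ 4 := by ring
    linarith
  have hh0 : 0 ≤ hh := by rw [hhd]; positivity
  have hdr := drift_le hr0 hh1
  have s3 : 2 * |drW (K n).κ ((K n).P.line ((K n).t (D.L n x.1)))| ≤ A1 ^ 2 / r * θ := by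
    have k1 : 8 * hh / r ^ 2 ≤ 8 * hh * R ^ 2 := by
      rw [div_le_iff₀ (by positivity)]
      have k2 : 1 ≤ (R * r) ^ 2 := one_le_pow₀ hrR
      have k3 := mul_le_mul_of_nonneg_left k2 (show 0 ≤ 8 * hh by positivity)
      have e1 : 8 * hh * R ^ 2 * r ^ 2 = 8 * hh * (R * r) ^ 2 := by ring
      linarith
    have k4 : 1 ≤ R ^ 3 * (A1 ^ 2 / r * θ) := by
      have := mul_le_mul n4 θR zero_le_one (by positivity)
      linarith
    refine le_of_mul_le_mul_left (a := R ^ 3) ?_ (by positivity)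
    have k5 : R ^ 3 * (2 * |drW (K n).κ ((K n).P.line ((K n).t (D.L n x.1)))|) ≤
        R ^ 3 * (2 * (8 * hh * R ^ 2)) := by
      refine mul_le_mul_of_nonneg_left ?_ (by positivity)
      linarith
    have e2 : R ^ 3 * (2 * (8 * hh * R ^ 2)) = 16 * ((K n).σ * R ^ 9) := by rw [hhd]; ring
    have k6 := σk 9 (by norm_num)
    have k7 : 0 ≤ (K n).σ * R ^ 9 := by positivity
    linarith
  obtain ⟨p1, p2, p3, p4⟩ := nums2 (μ := μ) (hh := hh) (σΓ := (K n).σ * R) R1 η0.le ηR hA0 hA1R' hr0 hrR θR θ0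
    n4 (by
      have e1 : 10 * (hh * R ^ 3) = 10 * ((K n).σ * R ^ 7) := by rw [hhd]; ring
      rw [e1]
      have k6 := σk 7 (by norm_num)
      have k7 : 0 ≤ (K n).σ * R ^ 7 := by positivity
      linarith) (by positivity) (by
      have e1 : (K n).σ * R * R ^ 22 = (K n).σ * R ^ 23 := by ring
      rw [e1]; exact σk 23 (by norm_num))
  -- polynomials
  have hsv := Stk464.qdOf_spec i2.isQ
  have hsu := Stk464.qdOf_spec j2.isQ
  have hs0 := Stk464.qdOf_spec o2.isQ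
  rw [hsu.1] at hE
  have hcell : ∀ z, zx D n v x ≤ z → z ≤ zx D n v x + rh D n v →
      |(qdOf (mk4 D n v x).q).ev z ((D.L n x.1).pos z)| ≤ D.w 0 n v ∧
        |(qdOf (mk4 D n u x).q).ev z ((D.L n x.1).pos z)| ≤ D.w 0 n u := by
    intro z z1 z2
    rw [← hsv.1, ← hsu.1]
    obtain ⟨u1, u2⟩ := cell_nest g6 x.2
    have k1 := (i1 z z1 z2).2
    have k2 := (j1 z (u1.trans z1) (z2.trans u2)).2
    rw [i3] at k1
    rw [j3] at k2
    exact ⟨k1, k2⟩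
  have hBR : A1 ^ 2 / r ≤ R := by
    have k1 : A1 ≤ D.B.d n ^ (-(|1 - p.θ 1| + 2)) := by rw [hA1, hAe]; exact f7.2
    have k2 : A1 ^ 2 ≤ D.B.d n ^ (-(2 * (|1 - p.θ 1| + 2))) := by
      have e9 : (D.B.d n ^ (-(|1 - p.θ 1| + 2))) ^ 2 =
          D.B.d n ^ (-(2 * (|1 - p.θ 1| + 2))) := by
        rw [← Real.rpow_natCast, ← Real.rpow_mul (D.B.pos n).le]
        congr 1; push_cast; ring
      rw [← e9]
      exact pow_le_pow_left₀ hA0.le k1 2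
    rw [div_le_iff₀ hr0]
    have k3 : D.B.d n ^ ((v : ℝ) + 1) ≤ r := by rw [hr, hρH]; exact f6.1
    have k4 : D.B.d n ^ (-(2 * (|1 - p.θ 1| + 2))) ≤ R * D.B.d n ^ ((v : ℝ) + 1) := by
      rw [hR, ← dpow_add]
      exact dpow_le D.B n (by linarith)
    exact (k2.trans k4).trans (mul_le_mul_of_nonneg_left k3 R0.le)
  have hσR : (K n).σ * R ≤ 1 := by
    have k1 := σk 1 (by norm_num)
    rw [pow_one] at k1
    have k2 : 0 ≤ (K n).σ * R := by positivity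
    linarith
  rw [← hYe, ← hα, ← hA1, ← hr] at hB'
  have hcw : CwD (mk4 D n v x) (D.L n x.1) (zx D n v x) (rh D n v) (D.B.d n ^ (ε / 2 / 16)) b0 b1
      G (K n).f (K n).c (K n).u (qdOf (mk4 D n v x).q) (qdOf (mk4 D n u x).q)
      (qdOf (mk4 D n 0 x).q) c0p c1p Cp X (K n).P (K n).κ (K n).σ R R η η (Ye / |ν|) η A1
      ((mk4 D n v x).w 2 / (K n).u.WA) α μ θ (D.w 0 n v) (D.w 0 n u) hh :=
    { O := O
      hf := hK.ortho n
      hu := hK.ok n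
      hv := hsv.1
      hE := hE
      m1 := m2'
      hO := hO
      hκ := hκ
      hσ := hσ
      hν0 := hg.2.1
      hfl := hΓ0
      hΓ := hσR
      bas := by
        rw [← hr, hν]
        exact hB'
      hs := by rw [← hr]; exact n1
      hs2 := by rw [← hr]; exact n2
      hμ := μ0
      hμ1 := μ1
      hθ := θ0.le
      hθμ := hθμ
      hα := by rw [← hr]; exact hαμ
      hY1 := hY1
      hY2 := hY2
      hsz := by rw [← hr]; exact n3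
      A1' := hA1R
      B1' := by rw [← hr]; exact hBR
      hP := f8
      th := hcell
      tp := hpR
      tv := hvR
      z1 := hzh
      s1 := p1
      s2 := by rw [← hr]; exact p2
      s3 := by rw [← hr]; exact s3
      s4 := p3
      s5 := by rw [← hr]; exact p4
      hh1 := by rw [← hr]; exact hh1 }
  -- the coefficient of `Y`
  obtain ⟨t, ht⟩ : ∃ t : ℝ, t = R ^ 4 := ⟨_, rfl⟩
  have hRt : R ≤ t := by rw [ht]; exact le_self_pow₀ R1 (by norm_num)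
  have t1 : 1 ≤ t := R1.trans hRt
  have t6 : 10 ^ 6 ≤ t := by linarith
  rw [← ht] at l1 l2 l3
  have hα0 : 0 < α := lt_of_lt_of_le (by positivity) hαμ
  obtain ⟨r1', r2'⟩ := mb_num t6 R1 hRt hY0 l1 l2 hr0
    (hrR.trans (mul_le_mul_of_nonneg_right hRt hr0.le)) hA0.le (hA1R.trans hRt) hα0 l3
  obtain ⟨Kk, hKk⟩ : ∃ Kk : ℝ, Kk = Ye * X + D.w 0 n u + 16 * D.w 0 n v := ⟨_, rfl⟩
  have hYX : 0 ≤ Ye * X := mul_nonneg Ye0.le X0
  have Kk0 : 0 ≤ Kk := by rw [hKk]; positivity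
  have hcell' : ∀ z, zx D n v x ≤ z → z ≤ zx D n v x + rh D n v →
      |(qdOf (mk4 D n u x).q).ev z ((D.L n x.1).pos z) - c0p 0 / b0 0 *
        (qdOf (mk4 D n v x).q).ev z ((D.L n x.1).pos z)| ≤ Kk := by
    intro z z1 z2
    obtain ⟨k1, k2⟩ := hcell z z1 z2
    refine (s2 k2 (m2 m2' k1)).trans ?_
    rw [hKk]; linarith
  have hW := om_sz O (hK.ortho n) (c := (K n).c) (hK.ok n) hsv.1 hsu.2 hsv.2 hE X0 hO hcw.bas
    hpR hvR (hzh.trans R1) (K := Kk) (τm := t ^ 15) (by rw [← hYe, hKk]; linarith [mv0, mu0])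
    hcell' (by rw [← hr]; exact r1') (one_le_pow₀ t1)
  rw [← hr] at hW
  have hη1 : η ≤ 1 / 24 := by
    have : η ≤ η * R := le_mul_of_one_le_right η0.le R1
    linarith
  have hi := f8.inv (by linarith)
  obtain ⟨w1, -⟩ := pull_sz hi (by linarith) hW hκ
  have e0 : hatQ (K n).f (K n).c (K n).u
      (omq (c0p 0 / b0 0) (qdOf (mk4 D n u x).q) (qdOf (mk4 D n v x).q)) =
      dif (hatQ (K n).f (K n).c (K n).u (qdOf (mk4 D n u x).q))
        (Wit321.mul (c0p 0 / b0 0) (hatQ (K n).f (K n).c (K n).u (qdOf (mk4 D n v x).q))) :=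
    Szo327.dif_mul_hat _ _ _ _ _ _
  rw [e0, Szo327.b_pull_lin] at w1
  have hzm : zmN D.lev (hzS K) (zsS K) v n x =
      (K n).u.zh (zx D n v x) + rh D n v / (K n).u.H / 2 := by
    rw [ezh, hρH]; rfl
  have key := closeW_fin hcw hzm bv0 (show 0 < (K n).u.WY / 4 by positivity) bu1 hΓv' w1
  rw [hρH, hA1, hAe] at key
  have e1 : wAS D K n v = D.w 1 n v / (K n).u.WA := rfl
  rw [hθ] at key
  intro z' a' b' hz' ha' hb'
  refine (key z' a' b' hz' ha' hb').trans ?_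
  -- numbers
  obtain ⟨E, hEd⟩ : ∃ E : ℝ, E = D.B.d n ^ (-(Ct * ((v : ℝ) - u)) - ε / 2) *
    max (D.w 0 n u) (D.w 0 n v) := ⟨_, rfl⟩
  have hmx : 0 < max (D.w 0 n u) (D.w 0 n v) := lt_max_of_lt_left mu0
  have hd1 : (1 : ℝ) ≤ D.B.d n ^ (-(Ct * ((v : ℝ) - u)) - ε / 2) := by
    refine Real.one_le_rpow_of_pos_of_le_one_of_nonpos (D.B.pos n) (D.B.lt n).le ?_
    have := mul_nonneg Ct0 uvr
    linarith
  have hmE : max (D.w 0 n u) (D.w 0 n v) ≤ E := by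
    rw [hEd]; exact le_mul_of_one_le_left hmx.le hd1
  have hwu : D.w 0 n u ≤ E := (le_max_left _ _).trans hmE
  have hwv : D.w 0 n v ≤ E := (le_max_right _ _).trans hmE
  have hE0 : 0 ≤ E := hmx.le.trans hmE
  rw [← hYe] at hX
  rw [← hEd] at hX
  have hσw : (K n).u.WY * (K n).σ = D.w 0 n 0 := g1
  have hfin := last_num (L := 3 * (11 * (X * Ye) + D.w 0 n u + 16 * D.w 0 n v)) (w0 := D.w 0 n 0)
    (WY := (K n).u.WY) (σ := (K n).σ) (K := Kk) (E := E)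
    (Kb := 2 * (10 ^ 4 * R ^ 4 * (18 * (Kk * (t ^ 15) ^ 2) / r) / r ^ 2)) (Γv := R) (R := R)
    (t := t) mo0 hWY hσ hσw (by linarith) (by rw [hKk]; linarith) Kk0 hE0
    (by have := r2' Kk Kk0; linarith) t1 R0.le hRt hRt R0.le (by
      have k1 := σk 172 (by norm_num)
      have e2 : t ^ 43 = R ^ 172 := by rw [ht, ← pow_mul]
      rw [e2]
      have k2 : 0 ≤ (K n).σ * R ^ 172 := by positivity
      linarith)
  rw [← hYe]
  refine hfin.trans ?_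
  have e2 : max (aS D n u) (aS D n v) = max (D.w 0 n u) (D.w 0 n v) / D.w 0 n 0 := by
    show max (D.w 0 n u / D.w 0 n 0) (D.w 0 n v / D.w 0 n 0) = _
    exact max_div_div_right mo0.le _ _
  rw [e2]
  have e3 : D.B.d n ^ (-(Ct * ((v : ℝ) - u)) - ε) = D.B.d n ^ (-(ε / 2)) *
      D.B.d n ^ (-(Ct * ((v : ℝ) - u)) - ε / 2) := by
    rw [← dpow_add]; congr 1; ring
  rw [e3]
  have k400 : (440 : ℝ) ≤ D.B.d n ^ (-(ε / 2)) := le_trans (by norm_num) g9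
  have k5 : 0 ≤ E / D.w 0 n 0 := div_nonneg hE0 mo0.le
  have k6 := mul_le_mul_of_nonneg_right k400 k5
  refine k6.trans (le_of_eq ?_)
  rw [hEd]; ring

end Crest.Agent.R136.Clw768
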