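import Crest.Agent.R136.Adj4_214
import Crest.Agent.R136.Coi1_102
import Crest.Agent.R136.Pl2Def_860

/-!
# R136 (S0187), U4 (AL): points of the chart at a line, closeness from a division (helper501)

* `cx` : helper214's chart at a line `T` of a curved sheet (`y` in units of `κ`, tangent shear).
* `chart_pt` : points near `T` with a small value of `q` are chart points, `y` small.
* `close_of_div` : `q' - μ q = Λ P` with a bounded jet `P` gives a bound of `q'` there.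
-/

set_option autoImplicit false
set_option linter.unusedVariables false

namespace Crest.Agent.R136.Cod501

open Crest.Agent.R136.Sh605
open Crest.Agent.R136.K4 (Plk4)
open Crest.Agent.R136.Tlt51 (Shp InP)
open Crest.Agent.R136.KapP335 (kapP expP DetP expP_spec)
open Crest.Agent.R136.Tl102
open Crest.Agent.R136.Deep51 (CloseC)
open Crest.Agent.R136.Rk601 (Jt dp qf)
open Crest.Agent.R136.Adj214 (ev JB)

/-- curvature of the sheet along `T`, in units of `w 0` -/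
noncomputable def kS (S : Plk4) (z0 ρ : ℝ) (T : Ln4) : ℝ :=
  kap (expP S z0 ρ T).1 (expP S z0 ρ T).2.1 (expP S z0 ρ T).2.2

/-- **the chart** at the line `T` : `y` in units of `κ / 256`, `u, v` in units `w k / 256` -/
noncomputable def cx (S : Plk4) (z0 ρ : ℝ) (T : Ln4) (ζ y u v : ℝ) : V3 :=
  T.pos (z0 + ρ * ζ) + cmb (fr S.e S.w)
    (unsh (expP S z0 ρ T).1 (kS S z0 ρ T * (1 / 256 * y)) (1 / 256 * u) (1 / 256 * v))

theorem kapP_eq (S : Plk4) (z0 ρ : ℝ) (T : Ln4) : kapP S z0 ρ T = S.w 0 * kS S z0 ρ T := rfl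


/-- **points near `T` are chart points** -/
theorem chart_pt {S : Plk4} {z0 ρ r0 : ℝ} {T : Ln4} (hr0 : 0 < r0) (hρ : 0 ≤ ρ)
    (hS : Shp S z0 ρ r0) (hT : InP T S z0 ρ) (hκ : 0 < kapP S z0 ρ T) {ζ : ℝ} (hζ : 0 ≤ ζ)
    (hζ' : ζ ≤ 1) {X : V3} {A s : ℝ} (hs : s ≤ 1 / 8)
    (hX0 : |dt (S.e 0) (X - T.pos (z0 + ρ * ζ))| ≤ S.w 0 / 8)
    (hX1 : |dt (S.e 1) (X - T.pos (z0 + ρ * ζ))| ≤ s * S.w 1)
    (hX2 : |dt (S.e 2) (X - T.pos (z0 + ρ * ζ))| ≤ s * S.w 2)
    (hq : |S.q (z0 + ρ * ζ) X| ≤ A) :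
    ∃ y u v : ℝ, X = cx S z0 ρ T ζ y u v ∧ |u| ≤ 256 * s ∧ |v| ≤ 256 * s ∧
      |y| ≤ 512 * ((A + S.a) / kapP S z0 ρ T) + 1280 * s := by
  have ha : 0 < S.a := hr0.trans_le hS.r0_le
  have hw0 : 0 < S.w 0 := ha.trans_le hS.a_le0
  have hP := StP.of_shN hS hw0
  have hE := expP_spec hP.isQ hw0.ne' z0 ρ T
  have hwp := hP.pos
  have hwne : ∀ i, S.w i ≠ 0 := fun i => (hwp i).ne'
  have hTK : ∀ z, z0 ≤ z → z ≤ z0 + ρ → InK S.e S.c S.w z (T.pos z) := fun z h1 h2 => (hT z h1 h2).1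
  have z1 : z0 ≤ z0 + ρ * ζ := by nlinarith
  have z2 : z0 + ρ * ζ ≤ z0 + ρ := by nlinarith
  set z := z0 + ρ * ζ with hz
  set b0 := (expP S z0 ρ T).1 with hb0
  set x := pc S.e S.w T z X with hx
  have hs0 : 0 ≤ s := by
    have h1 := (abs_nonneg _).trans hX1
    by_contra hc
    push Not at hc
    have := mul_neg_of_neg_of_pos hc (hwp 1)
    linarith
  have hx1 : |x 1| ≤ s := by
    change |dt (S.e 1) (X - T.pos z) / S.w 1| ≤ s
    rw [abs_div, abs_of_pos (hwp 1), div_le_iff₀ (hwp 1)]; exact hX1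
  have hx2 : |x 2| ≤ s := by
    change |dt (S.e 2) (X - T.pos z) / S.w 2| ≤ s
    rw [abs_div, abs_of_pos (hwp 2), div_le_iff₀ (hwp 2)]; exact hX2
  have hXd : InK S.e S.c (dbl3 S.w) z X := by
    intro i
    have h1 := hTK z z1 z2 i
    have h2 : |dt (S.e i) (X - T.pos z)| ≤ S.w i := by
      have k0 : |dt (S.e 0) (X - T.pos z)| ≤ S.w 0 := hX0.trans (by linarith)
      have k1 : |dt (S.e 1) (X - T.pos z)| ≤ S.w 1 := hX1.trans (by nlinarith [hwp 1])
      have k2 : |dt (S.e 2) (X - T.pos z)| ≤ S.w 2 := hX2.trans (by nlinarith [hwp 2])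
      fin_cases i
      · exact k0
      · exact k1
      · exact k2
    have e1 : dt (S.e i) (X - S.c.pos z) = dt (S.e i) (X - T.pos z) +
        dt (S.e i) (T.pos z - S.c.pos z) := by
      simp only [dt, Pi.sub_apply]; ring
    rw [e1]
    refine (abs_add_le _ _).trans ?_
    change _ ≤ 2 * S.w i
    linarith
  have hy := yc_le2 hP hρ hTK hE hζ hζ' hXd hs hx1 hx2
  rw [← hz, ← hx] at hy
  have hTq := (hT z z1 z2).2
  have hkS : 0 < kS S z0 ρ T := by
    rw [kapP_eq] at hκ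
    exact (mul_pos_iff_of_pos_left hw0).1 hκ
  have hκe : S.w 0 * kap b0 (expP S z0 ρ T).2.1 (expP S z0 ρ T).2.2 = kapP S z0 ρ T := rfl
  rw [hκe] at hy
  have hy' : S.w 0 * |yc b0 x| ≤ 2 * (A + S.a) + 5 * s * kapP S z0 ρ T := by
    linarith
  refine ⟨256 * (yc b0 x / kS S z0 ρ T), 256 * x 1, 256 * x 2, ?_, ?_, ?_, ?_⟩
  · have h1 := cmb_pc hP.ortho hwne T z X
    rw [← hx] at h1
    rw [← h1]
    unfold cx
    rw [← hz]
    congr 2
    have e1 : kS S z0 ρ T * (1 / 256 * (256 * (yc b0 x / kS S z0 ρ T))) = yc b0 x := by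
      field_simp
    have e2 : (1 / 256 * (256 * x 1) : ℝ) = x 1 := by ring
    have e3 : (1 / 256 * (256 * x 2) : ℝ) = x 2 := by ring
    rw [e1, e2, e3]
    exact (unsh_yc b0 x).symm
  · rw [abs_mul, abs_of_pos (by norm_num : (0:ℝ) < 256)]; linarith
  · rw [abs_mul, abs_of_pos (by norm_num : (0:ℝ) < 256)]; linarith
  · rw [abs_mul, abs_of_pos (by norm_num : (0:ℝ) < 256), abs_div, abs_of_pos hkS]
    have e1 : |yc b0 x| / kS S z0 ρ T = S.w 0 * |yc b0 x| / kapP S z0 ρ T := by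
      rw [kapP_eq, mul_div_mul_left _ _ hw0.ne']
    rw [e1]
    have e2 : S.w 0 * |yc b0 x| / kapP S z0 ρ T ≤ 2 * ((A + S.a) / kapP S z0 ρ T) + 5 * s := by
      rw [div_le_iff₀ hκ]
      have e3 : (2 * ((A + S.a) / kapP S z0 ρ T) + 5 * s) * kapP S z0 ρ T =
          2 * (A + S.a) + 5 * s * kapP S z0 ρ T := by
        field_simp
      rw [e3]; exact hy'
    linarith





end Crest.Agent.R136.Cod501
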