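import Crest.Agent.R136.EvW1_938

/-!
# The W-chart (helper191), part 7: corrected labels (re-centring of a resonant slot)

`iv` inverse frame.  `FW.cor κ E f` : the flag of `f` plus the quadratic polynomial whose
coefficients in the frame of `f` are `E`.  `coW_cor` : the relative coordinates of corrected flags
(exact).  `fake_rot` : if the corrected flags of one line at two heights agree then the own rotation
of the original flags is `tr (sh u) E - E` (rows `fake_*`).  `colzA .. colYY`, `tr_zA .. tr_YY` : the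
six monomials which contain the height, in a new frame.
-/

set_option autoImplicit false
set_option linter.unusedSimpArgs false
set_option linter.unreachableTactic false
set_option linter.unusedTactic false

namespace Crest.Agent.R136.NetW191

open Finset Crest.Agent.R136.Net191

/-! ### inverse frames -/

/-- inverse frame -/
def iv (κ : ℝ) (g : Fin 4 → ℝ) : Fin 4 → ℝ := rel κ g 0

lemma mul_iv (κ : ℝ) (g : Fin 4 → ℝ) : mul κ (iv κ g) g = 0 := by
  funext k
  fin_cases k <;> simp [mul, iv, rel]
  ring

lemma mul_iv' (κ : ℝ) (g : Fin 4 → ℝ) : mul κ g (iv κ g) = 0 := mul_rel κ g 0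

lemma tr_id (κ : ℝ) (w : Fin 14 → ℝ) : tr κ 0 w = w := by
  funext k
  fin_cases k
  · change tr κ 0 w 0 = w 0
    simp [tr0]
  · change tr κ 0 w 1 = w 1
    simp [tr1]
  · change tr κ 0 w 2 = w 2
    simp [tr2]
  · change tr κ 0 w 3 = w 3
    simp [tr3]
  · change tr κ 0 w 4 = w 4
    simp [tr4]
  · change tr κ 0 w 5 = w 5
    simp [tr5]
  · change tr κ 0 w 6 = w 6
    simp [tr6]
  · change tr κ 0 w 7 = w 7
    simp [tr7]
  · change tr κ 0 w 8 = w 8
    simp [tr8]
  · change tr κ 0 w 9 = w 9
    simp [tr9]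
  · change tr κ 0 w 10 = w 10
    simp [tr10]
  · change tr κ 0 w 11 = w 11
    simp [tr11]
  · change tr κ 0 w 12 = w 12
    simp [tr12]
  · change tr κ 0 w 13 = w 13
    simp [tr13]

theorem tr_iv (κ : ℝ) (g : Fin 4 → ℝ) (w : Fin 14 → ℝ) : tr κ g (tr κ (iv κ g) w) = w := by
  rw [← tr_mul, mul_iv, tr_id]

theorem iv_tr (κ : ℝ) (g : Fin 4 → ℝ) (w : Fin 14 → ℝ) : tr κ (iv κ g) (tr κ g w) = w := by
  rw [← tr_mul, mul_iv', tr_id]

/-- change of frame -/
lemma tr_rel (κ : ℝ) (g g' : Fin 4 → ℝ) (w : Fin 14 → ℝ) :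
    tr κ g' w = tr κ (rel κ g g') (tr κ g w) := by
  rw [← tr_mul, mul_rel]

/-- `tr κ h w q - w q` is small if `h` is small, exact form -/
lemma tr_smul (κ c : ℝ) (h : Fin 4 → ℝ) (w : Fin 14 → ℝ) : tr κ h (c • w) = c • tr κ h w := by
  funext q
  have e : ∀ L : List Tm, (L.map (Tm.ev κ h (c • w))).sum = c * (L.map (Tm.ev κ h w)).sum := by
    intro L
    induction L with
    | nil => simp
    | cons a L ih =>
      simp only [List.map_cons, List.sum_cons, ih, mul_add]
      congr 1
      simp only [Tm.ev, Pi.smul_apply, smul_eq_mul]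
      ring
  rw [Pi.smul_apply, smul_eq_mul, tr_tms, tr_tms, e, Pi.smul_apply, smul_eq_mul]
  ring

/-! ### corrected flags -/

/-- **corrected flag**: add the polynomial with coefficients `E` in the frame of `f` -/
def FW.cor (κ : ℝ) (E : Fin 14 → ℝ) (f : FW) : FW := ⟨f.g, f.G + tr κ (iv κ f.g) E⟩

@[simp] lemma FW.cor_g (κ : ℝ) (E : Fin 14 → ℝ) (f : FW) : (f.cor κ E).g = f.g := rfl











/-! ### the fake rotation -/


section

variable (κ u ψ : ℝ)







end

/-! ### the six monomials which contain the height -/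













end Crest.Agent.R136.NetW191
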