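import Crest.Agent.R136.EvW3_938
import Crest.Agent.R136.NetW7_191
import Crest.Agent.R136.FlW1_464
import Crest.Agent.R136.PinX_851

-- ▼ part R136/Cra_544
section

/-!
# R136, specials of the thin pins, rows (helper544), part 1: normalised flags and pairs

* `tr_scale`, `coW_nf` : multiplicative units, the normalised flag `nf κ u f0 f` relative to `f0`
* `shf`, `coW_shf` : base frame at another height
* `pair_main` : relative coordinates of two close flags in the base frame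
-/

set_option autoImplicit false
set_option linter.unusedVariables false

namespace Crest.Agent.R136.Cr544

open Crest.Agent.R136.NetW191 Crest.Agent.R136.EvW938

section alg

variable {u : Fin 18 → ℝ}

theorem GrU.w2 (hu : GrU u) : u 2 = u 1 * u 0 := by
  have := hu.mul 2 [1, 0] (by decide)
  simpa using this.symm

theorem GrU.w3 (hu : GrU u) : u 3 = u 1 * u 2 := by
  have := hu.mul 3 [1, 2] (by decide)
  simpa using this.symm

theorem list_div {ι : Type*} (h v : ι → ℝ) (l : List ι) :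
    (l.map fun i => h i / v i).prod = (l.map h).prod / (l.map v).prod := by
  induction l with
  | nil => simp
  | cons a l ih => simp only [List.map_cons, List.prod_cons, ih]; rw [mul_div_mul_comm]

/-- **scaling of the substitution** -/
theorem tr_scale (hu : GrU u) (κ : ℝ) (h : Fin 4 → ℝ) (w : Fin 14 → ℝ) (q : Fin 14) :
    tr κ (fun i => h i / u (Fin.castAdd 14 i)) (fun q => w q / u (Fin.natAdd 4 q)) q =
      tr κ h w q / u (Fin.natAdd 4 q) := by
  rw [tr_tms, tr_tms, add_div]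
  congr 1
  have key : ∀ L : List Tm, (∀ t ∈ L, t ∈ tms q) →
      (L.map (Tm.ev κ (fun i => h i / u (Fin.castAdd 14 i))
        (fun q => w q / u (Fin.natAdd 4 q)))).sum = (L.map (Tm.ev κ h w)).sum /
          u (Fin.natAdd 4 q) := by
    intro L
    induction L with
    | nil => intro _; simp
    | cons t L ih =>
      intro hL
      simp only [List.map_cons, List.sum_cons]
      rw [ih fun t ht => hL t (List.mem_cons_of_mem _ ht), add_div]
      congr 1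
      have h1 : (t.idx.map u).prod = u (Fin.natAdd 4 q) := by
        refine hu.mul _ _ ?_
        rw [mlW_right]
        exact List.mem_map_of_mem (hL t List.mem_cons_self)
      have h2 : (t.idx.map u).prod = (t.hl.map fun i => u (Fin.castAdd 14 i)).prod *
          u (Fin.natAdd 4 t.s) := by
        unfold Tm.idx
        rw [List.map_append, List.prod_append, List.map_map, List.map_singleton,
          List.prod_singleton]
        rfl
      unfold Tm.ev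
      rw [list_div, ← h1, h2, mul_div_mul_comm]
      ring
  exact key _ fun t ht => ht

theorem rel_scale (hu : GrU u) (κ : ℝ) (g h : Fin 4 → ℝ) (i : Fin 4) :
    rel κ (fun i => g i / u (Fin.castAdd 14 i)) (fun i => h i / u (Fin.castAdd 14 i)) i =
      rel κ g h i / u (Fin.castAdd 14 i) := by
  have p0 := hu.pos 0
  have p1 := hu.pos 1
  have e2 := GrU.w2 hu
  have e3 := GrU.w3 hu
  rw [e2] at e3
  have c0 : (Fin.castAdd 14 (0 : Fin 4) : Fin 18) = 0 := rfl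
  have c1 : (Fin.castAdd 14 (1 : Fin 4) : Fin 18) = 1 := rfl
  have c2 : (Fin.castAdd 14 (2 : Fin 4) : Fin 18) = 2 := rfl
  have c3 : (Fin.castAdd 14 (3 : Fin 4) : Fin 18) = 3 := rfl
  fin_cases i
  · change h 0 / u 0 - g 0 / u 0 = (h 0 - g 0) / u 0
    ring
  · change h 1 / u 1 - g 1 / u 1 = (h 1 - g 1) / u 1
    ring
  · change h 2 / u 2 - g 2 / u 2 - g 1 / u 1 * (h 0 / u 0 - g 0 / u 0) =
      (h 2 - g 2 - g 1 * (h 0 - g 0)) / u 2
    rw [e2]
    field_simp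
  · change h 3 / u 3 - g 3 / u 3 + 2 * κ * (g 1 / u 1) * (h 2 / u 2 - g 2 / u 2 -
        g 1 / u 1 * (h 0 / u 0 - g 0 / u 0)) + κ * (g 1 / u 1) ^ 2 * (h 0 / u 0 - g 0 / u 0) =
      (h 3 - g 3 + 2 * κ * g 1 * (h 2 - g 2 - g 1 * (h 0 - g 0)) + κ * g 1 ^ 2 * (h 0 - g 0)) / u 3
    rw [e3, e2]
    field_simp

/-- left translations -/
theorem rel_left (κ : ℝ) (a g g' : Fin 4 → ℝ) : rel κ (rel κ a g) (rel κ a g') = rel κ g g' :=
  rel_of_mul (rel_rel κ a g g').symm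

/-- normalised coordinates -/
noncomputable def cn (κ : ℝ) (u : Fin 18 → ℝ) (f0 f : FW) : Fin 18 → ℝ :=
  fun s => coW κ f0 f s / u s

/-- **normalised flag** -/
noncomputable def nf (κ : ℝ) (u : Fin 18 → ℝ) (f0 f : FW) : FW where
  g := frm (cn κ u f0 f)
  G := tr κ (iv κ (frm (cn κ u f0 f))) (flg (cn κ u f0 f))

theorem coW_flg (κ : ℝ) (f f' : FW) (q : Fin 14) :
    coW κ f f' (Fin.natAdd 4 q) = tr κ f'.g f'.G q - tr κ (rel κ f.g f'.g) (tr κ f.g f.G) q := by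
  rw [coW_right, tr_sub, Pi.sub_apply, ← tr_rel]

theorem coW_nf (hu : GrU u) (κ : ℝ) (f0 f f' : FW) (s : Fin 18) :
    coW κ (nf κ u f0 f) (nf κ u f0 f') s = coW κ f f' s / u s := by
  have hg : ∀ f : FW, frm (cn κ u f0 f) = fun i => rel κ f0.g f.g i / u (Fin.castAdd 14 i) := by
    intro f; funext i
    change cn κ u f0 f (Fin.castAdd 14 i) = _
    unfold cn
    rw [coW_left]
  have hr : rel κ (nf κ u f0 f).g (nf κ u f0 f').g =
      fun i => rel κ f.g f'.g i / u (Fin.castAdd 14 i) := by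
    funext i
    change rel κ (frm (cn κ u f0 f)) (frm (cn κ u f0 f')) i = _
    rw [hg, hg, rel_scale hu, rel_left]
  refine Fin.addCases (m := 4) (n := 14)
    (motive := fun s : Fin 18 => coW κ (nf κ u f0 f) (nf κ u f0 f') s = coW κ f f' s / u s)
    (fun i => ?_) (fun q => ?_) s
  · rw [coW_left, coW_left, hr]
  · rw [coW_flg, hr]
    have h1 : ∀ f : FW, tr κ (nf κ u f0 f).g (nf κ u f0 f).G = flg (cn κ u f0 f) := fun f =>
      tr_iv κ _ _
    rw [h1, h1]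
    have h2 : ∀ f : FW, flg (cn κ u f0 f) =
        fun q => tr κ f.g (f.G - f0.G) q / u (Fin.natAdd 4 q) := by
      intro f; funext q
      change cn κ u f0 f (Fin.natAdd 4 q) = _
      unfold cn
      rw [coW_right]
    rw [h2, h2, tr_scale hu, ← sub_div, ← tr_rel, coW_right]
    rw [← Pi.sub_apply, ← tr_sub, sub_sub_sub_cancel_right]

/-- base frame at the height `z` -/
noncomputable def shf (κ z : ℝ) (f : FW) : FW where
  g := rel κ (sh z) f.g
  G := tr κ (sh z) f.G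



end alg

end Crest.Agent.R136.Cr544
end

-- ▼ part R136/Crb_544
section

/-!
# R136, specials of the thin pins, rows (helper544), part 2: pairs of `34`

Two flags `P, P'` with almost equal height in the base frame, the slots `Y², BY, BB` of the pair
narrow.
-/

set_option autoImplicit false
set_option linter.unusedVariables false

namespace Crest.Agent.R136.Cr544

open Crest.Agent.R136.NetW191 Crest.Agent.R136.EvW938

/-- the constant of the pairs -/
def CP (K : ℝ) : ℝ := 2350 * (2 * K) ^ 7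

/-- a sum of products with small second factors -/
theorem sum_small {A e : ℝ} (hA : 0 ≤ A) (l : List (ℝ × ℝ)) (h : ∀ p ∈ l, |p.1| ≤ A ∧ |p.2| ≤ e) :
    |(l.map fun p => p.1 * p.2).sum| ≤ l.length * (A * e) := by
  induction l with
  | nil => simp
  | cons a l ih =>
    have h1 := ih fun p hp => h p (List.mem_cons_of_mem _ hp)
    obtain ⟨h2, h3⟩ := h a List.mem_cons_self
    have h4 : |a.1 * a.2| ≤ A * e := by
      rw [abs_mul]; exact mul_le_mul h2 h3 (abs_nonneg _) hA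
    simp only [List.map_cons, List.sum_cons, List.length_cons]
    refine (abs_add_le _ _).trans ((add_le_add h4 h1).trans (le_of_eq ?_))
    push_cast
    ring

/-- **data of a pair** (normalised) -/
structure Pr (κ K τ : ℝ) (P P' : FW) : Prop where
  hκ : |κ| ≤ 1
  K1 : 1 ≤ K
  τ0 : 0 ≤ τ
  τ1 : τ ≤ 1
  g : ∀ i, |P.g i| ≤ K
  g' : ∀ i, |P'.g i| ≤ K
  G : ∀ q, |P.G q| ≤ K
  G' : ∀ q, |P'.G q| ≤ K
  t : |P.g 0| ≤ τ
  t' : |P'.g 0| ≤ τ
  d4 : |coW κ P P' 4| ≤ τ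
  d5 : |coW κ P P' 5| ≤ τ
  d7 : |coW κ P P' 7| ≤ τ

variable {κ K τ : ℝ} {P P' : FW}

/-- difference of the flags in the base frame -/
def dl (P P' : FW) : Fin 14 → ℝ := P'.G - P.G

/-- main part of the flag difference -/
def dl0 (P P' : FW) : Fin 14 → ℝ := fun q => if q = 0 ∨ q = 1 ∨ q = 3 then 0 else dl P P' q

/-- main part of the frame -/
def fr0 (P' : FW) : Fin 4 → ℝ := ![0, P'.g 1, P'.g 2, P'.g 3]

theorem Pr.main (H : Pr κ K τ P P') (q : Fin 14) :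
    |coW κ P P' (Fin.natAdd 4 q) - tr κ (fr0 P') (dl0 P P') q| ≤ CP K * τ := by
  obtain ⟨hκ, hK, hτ, hτ1, g, g', G, G', t, t', d4, d5, d7⟩ := H
  have hdl : ∀ q, |dl P P' q| ≤ 2 * K := fun q => by
    have h := abs_sub (P'.G q) (P.G q)
    have e : dl P P' q = P'.G q - P.G q := rfl
    rw [e]
    have := G q; have := G' q
    linarith
  have c4 : coW κ P P' 4 = dl P P' 0 := by
    have := coW_right κ P P' 0
    rw [tr0] at this
    exact this
  have c5 : coW κ P P' 5 = dl P P' 1 + 2 * P'.g 0 * dl P P' 0 := by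
    have := coW_right κ P P' 1
    rw [tr1] at this
    exact this
  have c7 : coW κ P P' 7 = dl P P' 3 + P'.g 0 ^ 2 * dl P P' 0 + P'.g 0 * dl P P' 1 := by
    have := coW_right κ P P' 3
    rw [tr3] at this
    exact this
  have a0 : |dl P P' 0| ≤ τ := by rw [← c4]; exact d4
  have a00 : |P'.g 0 * dl P P' 0| ≤ τ := by
    rw [abs_mul]
    calc _ ≤ τ * τ := mul_le_mul t' a0 (abs_nonneg _) hτ
      _ ≤ _ := by nlinarith
  have a1 : |dl P P' 1| ≤ 3 * τ := by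
    have e : dl P P' 1 = coW κ P P' 5 - 2 * (P'.g 0 * dl P P' 0) := by rw [c5]; ring
    rw [e]
    refine (abs_sub _ _).trans ?_
    rw [abs_mul, abs_two]
    linarith
  have a01 : |P'.g 0 * dl P P' 1| ≤ 3 * τ := by
    rw [abs_mul]
    calc _ ≤ τ * (3 * τ) := mul_le_mul t' a1 (abs_nonneg _) hτ
      _ ≤ _ := by nlinarith
  have a000 : |P'.g 0 * (P'.g 0 * dl P P' 0)| ≤ τ := by
    rw [abs_mul]
    calc _ ≤ τ * τ := mul_le_mul t' a00 (abs_nonneg _) hτ
      _ ≤ _ := by nlinarith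
  have a3 : |dl P P' 3| ≤ 5 * τ := by
    have e : dl P P' 3 = coW κ P P' 7 - P'.g 0 * (P'.g 0 * dl P P' 0) - P'.g 0 * dl P P' 1 := by
      rw [c7]; ring
    rw [e]
    have h1 := abs_sub (coW κ P P' 7 - P'.g 0 * (P'.g 0 * dl P P' 0)) (P'.g 0 * dl P P' 1)
    have h2 := abs_sub (coW κ P P' 7) (P'.g 0 * (P'.g 0 * dl P P' 0))
    linarith
  have K2 : (1 : ℝ) ≤ 2 * K := by linarith
  have hr : coW κ P P' (Fin.natAdd 4 q) = tr κ P'.g (dl P P') q := coW_right _ _ _ _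
  rw [hr]
  have h5 : (0 : ℝ) ≤ 5 * τ := by linarith
  have hbig : 5 * τ ≤ 2 * K * (5 * τ) * 1 := by nlinarith
  have h := tr_lip (κ := κ) (h := P'.g) (h' := fr0 P') (w := dl P P') (w' := dl0 P P')
    (X := fun _ => 1) hκ FlW464.sidesW_one (K := 2 * K) (τ := 5 * τ) K2 h5
    (fun i => by have := g' i; simp only [mul_one]; linarith)
    (fun i => by
      simp only [mul_one]
      fin_cases i
      · change |(0 : ℝ)| ≤ _
        rw [abs_zero]; linarith
      · have := g' 1; change |P'.g 1| ≤ _; linarith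
      · have := g' 2; change |P'.g 2| ≤ _; linarith
      · have := g' 3; change |P'.g 3| ≤ _; linarith)
    (fun i => by
      fin_cases i
      · change |P'.g 0 - 0| ≤ _
        rw [sub_zero]; linarith
      · change |P'.g 1 - P'.g 1| ≤ _
        rw [sub_self, abs_zero]; linarith
      · change |P'.g 2 - P'.g 2| ≤ _
        rw [sub_self, abs_zero]; linarith
      · change |P'.g 3 - P'.g 3| ≤ _
        rw [sub_self, abs_zero]; linarith)
    (fun q => by simp only [mul_one]; exact hdl q)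
    (fun q => by
      unfold dl0
      split_ifs with h
      · rw [sub_zero]
        rcases h with rfl | rfl | rfl <;> linarith
      · rw [sub_self, abs_zero]; linarith) q
  refine h.trans (le_of_eq ?_)
  unfold CP
  ring

/-! ### the functions of `34` -/

/-- `β` -/
def fB (κ : ℝ) (P : FW) : ℝ := P.g 3 + 2 * κ * (P.g 1 * P.g 2)
/-- `Y` -/
def fY (P : FW) : ℝ := 3 * P.G 2
/-- `Q` -/
def fQ (P : FW) : ℝ := 2 * P.G 10 + 4 * (P.g 2 * P.G 5)
/-- `K` -/
def fK (κ : ℝ) (P : FW) : ℝ := 2 * P.G 6 - 4 * κ * (P.g 1 * P.G 5)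
/-- `Φ` -/
def fP (κ : ℝ) (P : FW) : ℝ := P.G 11 - 2 * κ * (P.g 1 * P.G 10)

/-- all small quantities of a pair -/
theorem Pr.errs (H : Pr κ K τ P P') :
    |coW κ P P' 6 - dl P P' 2| ≤ CP K * τ ∧
    |coW κ P P' 9 - dl P P' 5| ≤ CP K * τ ∧
    |coW κ P P' 10 - (dl P P' 6 + 3 * κ * P'.g 2 * dl P P' 2 - 2 * κ * P'.g 1 * dl P P' 5)| ≤
      CP K * τ ∧
    |coW κ P P' 14 - (dl P P' 10 + P'.g 2 * dl P P' 5)| ≤ CP K * τ ∧
    |coW κ P P' 15 - (dl P P' 11 + 3 * κ * P'.g 2 ^ 2 * dl P P' 2 -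
      2 * κ * P'.g 1 * P'.g 2 * dl P P' 5 + P'.g 3 * dl P P' 5 + 2 * P'.g 2 * dl P P' 6 -
      2 * κ * P'.g 1 * dl P P' 10)| ≤ CP K * τ := by
  have h2 := H.main 2
  have h5 := H.main 5
  have h6 := H.main 6
  have h10 := H.main 10
  have h11 := H.main 11
  have z0 : fr0 P' 0 = 0 := rfl
  have z1 : fr0 P' 1 = P'.g 1 := rfl
  have z2 : fr0 P' 2 = P'.g 2 := rfl
  have z3 : fr0 P' 3 = P'.g 3 := rfl
  have d0 : dl0 P P' 0 = 0 := by simp [dl0]
  have d1 : dl0 P P' 1 = 0 := by simp [dl0]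
  have d3 : dl0 P P' 3 = 0 := by simp [dl0]
  have dd : ∀ q : Fin 14, q ≠ 0 → q ≠ 1 → q ≠ 3 → dl0 P P' q = dl P P' q := by
    intro q a b c
    simp [dl0, a, b, c]
  have d2 := dd 2 (by decide) (by decide) (by decide)
  have d4 := dd 4 (by decide) (by decide) (by decide)
  have d5 := dd 5 (by decide) (by decide) (by decide)
  have d6 := dd 6 (by decide) (by decide) (by decide)
  have d7 := dd 7 (by decide) (by decide) (by decide)
  have d8 := dd 8 (by decide) (by decide) (by decide)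
  have d10 := dd 10 (by decide) (by decide) (by decide)
  have d11 := dd 11 (by decide) (by decide) (by decide)
  rw [tr2, z0, z1, z2, d0, d1, d2] at h2
  rw [tr5, z0, z1, z2, d0, d1, d2, d3, d5] at h5
  rw [tr6, z0, z1, z2, z3, d0, d1, d2, d3, d4, d5, d6] at h6
  rw [tr10, z0, z2, z3, d0, d1, d2, d3, d4, d5, d7, d10] at h10
  rw [tr11, z0, z1, z2, z3, d0, d1, d2, d3, d4, d5, d6, d7, d8, d10, d11] at h11
  refine ⟨?_, ?_, ?_, ?_, ?_⟩
  · refine le_trans (le_of_eq ?_) h2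
    congr 1
    change coW κ P P' 6 - _ = coW κ P P' 6 - _
    ring
  · refine le_trans (le_of_eq ?_) h5
    congr 1
    change coW κ P P' 9 - _ = coW κ P P' 9 - _
    ring
  · refine le_trans (le_of_eq ?_) h6
    congr 1
    change coW κ P P' 10 - _ = coW κ P P' 10 - _
    ring
  · refine le_trans (le_of_eq ?_) h10
    congr 1
    change coW κ P P' 14 - _ = coW κ P P' 14 - _
    ring
  · refine le_trans (le_of_eq ?_) h11
    congr 1
    change coW κ P P' 15 - _ = coW κ P P' 15 - _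
    ring

/-- the frames of a pair -/
theorem frames (κ : ℝ) (P P' : FW) : coW κ P P' 0 = P'.g 0 - P.g 0 ∧
    P'.g 1 = P.g 1 + coW κ P P' 1 ∧ P'.g 2 = P.g 2 + coW κ P P' 2 + P.g 1 * coW κ P P' 0 ∧
    P'.g 3 = P.g 3 + coW κ P P' 3 - 2 * κ * P.g 1 * coW κ P P' 2 -
      κ * P.g 1 ^ 2 * coW κ P P' 0 := by
  have h0 := coW_left κ P P' 0
  have h1 := coW_left κ P P' 1
  have h2 := coW_left κ P P' 2
  have h3 := coW_left κ P P' 3
  have e0 : coW κ P P' 0 = P'.g 0 - P.g 0 := h0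
  have e1 : coW κ P P' 1 = P'.g 1 - P.g 1 := h1
  have e2 : coW κ P P' 2 = P'.g 2 - P.g 2 - P.g 1 * (P'.g 0 - P.g 0) := h2
  have e3 : coW κ P P' 3 = P'.g 3 - P.g 3 + 2 * κ * P.g 1 * (P'.g 2 - P.g 2 -
    P.g 1 * (P'.g 0 - P.g 0)) + κ * P.g 1 ^ 2 * (P'.g 0 - P.g 0) := h3
  refine ⟨e0, ?_, ?_, ?_⟩
  · rw [e1]; ring
  · rw [e2, e0]; ring
  · rw [e3, e2, e0]; ring

/-- the constant of the rows -/
def CR (K : ℝ) : ℝ := 12 * (100 * K ^ 4 * (1 + CP K))

theorem one_CP (hK : 1 ≤ K) : 2 ≤ CP K := by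
  unfold CP
  have : (1 : ℝ) ≤ (2 * K) ^ 7 := one_le_pow₀ (by linarith)
  linarith

theorem rowc {A e : ℝ} (hK : 1 ≤ K) (hτ : 0 ≤ τ) (hA : A = 100 * K ^ 4) (he : e = (1 + CP K) * τ)
    {R : ℝ} (l : List (ℝ × ℝ)) (hl : l.length ≤ 12) (hR : R = (l.map fun p => p.1 * p.2).sum)
    (h : ∀ p ∈ l, |p.1| ≤ A ∧ |p.2| ≤ e) : |R| ≤ CR K * τ := by
  have hC := one_CP hK
  have hA0 : 0 ≤ A := by rw [hA]; positivity
  have he0 : 0 ≤ e := by rw [he]; nlinarith
  rw [hR]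
  refine (sum_small hA0 l h).trans ?_
  have h1 : (l.length : ℝ) ≤ 12 := by exact_mod_cast hl
  calc (l.length : ℝ) * (A * e) ≤ 12 * (A * e) :=
        mul_le_mul_of_nonneg_right h1 (mul_nonneg hA0 he0)
    _ = CR K * τ := by rw [hA, he, CR]; ring

end Crest.Agent.R136.Cr544
end

-- ▼ part R136/Crc_544
section

/-!
# R136, specials of the thin pins, rows (helper544), part 3: the rows of a pair, `34`
-/

set_option autoImplicit false
set_option linter.unusedVariables false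

namespace Crest.Agent.R136.Cr544

open Crest.Agent.R136.NetW191 Crest.Agent.R136.EvW938

variable {κ K τ : ℝ} {P P' : FW}

/-- bound with a power of `K` -/
def Bd (K s : ℝ) (i : ℕ) (x : ℝ) : Prop := |x| ≤ s * K ^ i

theorem Bd.mul {s t x y : ℝ} {i j : ℕ} (hK : 1 ≤ K) (hs : 0 ≤ s) (hx : Bd K s i x)
    (hy : Bd K t j y) : Bd K (s * t) (i + j) (x * y) := by
  unfold Bd at *
  rw [abs_mul, pow_add]
  calc |x| * |y| ≤ (s * K ^ i) * (t * K ^ j) :=
        mul_le_mul hx hy (abs_nonneg _) (mul_nonneg hs (by positivity))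
    _ = _ := by ring

theorem Bd.fin {s x : ℝ} {i : ℕ} (hK : 1 ≤ K) (hx : Bd K s i x) (hs : s ≤ 25) (hi : i ≤ 4) :
    |x| ≤ 25 * K ^ 4 := by
  refine hx.trans ?_
  have h1 : K ^ i ≤ K ^ 4 := pow_le_pow_right₀ hK hi
  have h0 : 0 ≤ K ^ i := by positivity
  nlinarith

theorem b0 {n s : ℝ} (h : |n| ≤ s) : Bd K s 0 n := by
  unfold Bd; rw [pow_zero, mul_one]; exact h

theorem b1 {x : ℝ} (h : |x| ≤ K) : Bd K 1 1 x := by
  unfold Bd; rw [pow_one, one_mul]; exact h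

/-- monomials -/
theorem mon0 (hK : 1 ≤ K) {n : ℝ} (hn : |n| ≤ 6) : |n| ≤ 25 * K ^ 4 :=
  (b0 (K := K) hn).fin hK (by norm_num) (by norm_num)

theorem mon1 (hK : 1 ≤ K) {n x : ℝ} (hn : |n| ≤ 6) (hx : |x| ≤ K) : |n * x| ≤ 25 * K ^ 4 :=
  ((b0 (K := K) hn).mul hK (by norm_num) (b1 hx)).fin hK (by norm_num) (by norm_num)

theorem mon2 (hK : 1 ≤ K) {n x y : ℝ} (hn : |n| ≤ 6) (hx : |x| ≤ K) (hy : |y| ≤ K) :
    |n * (x * y)| ≤ 25 * K ^ 4 :=
  ((b0 (K := K) hn).mul hK (by norm_num) ((b1 hx).mul hK (by norm_num) (b1 hy))).fin hK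
    (by norm_num) (by norm_num)

theorem mon3 (hK : 1 ≤ K) {n x y z : ℝ} (hn : |n| ≤ 6) (hx : |x| ≤ K) (hy : |y| ≤ K)
    (hz : |z| ≤ K) : |n * (x * y * z)| ≤ 25 * K ^ 4 :=
  ((b0 (K := K) hn).mul hK (by norm_num) (((b1 hx).mul hK (by norm_num) (b1 hy)).mul hK
    (by norm_num) (b1 hz))).fin hK (by norm_num) (by norm_num)

theorem mon4 (hK : 1 ≤ K) {n x y z t : ℝ} (hn : |n| ≤ 6) (hx : |x| ≤ K) (hy : |y| ≤ K)
    (hz : |z| ≤ K) (ht : |t| ≤ K) : |n * (x * y * z * t)| ≤ 25 * K ^ 4 :=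
  ((b0 (K := K) hn).mul hK (by norm_num) ((((b1 hx).mul hK (by norm_num) (b1 hy)).mul hK
    (by norm_num) (b1 hz)).mul hK (by norm_num) (b1 ht))).fin hK (by norm_num) (by norm_num)

/-- common data of the rows -/
structure Dt (κ K τ e : ℝ) (P P' : FW) : Prop where
  H : Pr κ K τ P P'
  he : e = (1 + CP K) * τ
  κK : |κ| ≤ K
  τe : τ ≤ e
  D0 : |coW κ P P' 0| ≤ e
  e2 : |coW κ P P' 6 - dl P P' 2| ≤ e
  e5 : |coW κ P P' 9 - dl P P' 5| ≤ e
  e6 : |coW κ P P' 10 - (dl P P' 6 + 3 * κ * P'.g 2 * dl P P' 2 - 2 * κ * P'.g 1 * dl P P' 5)| ≤ e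
  e10 : |coW κ P P' 14 - (dl P P' 10 + P'.g 2 * dl P P' 5)| ≤ e
  e11 : |coW κ P P' 15 - (dl P P' 11 + 3 * κ * P'.g 2 ^ 2 * dl P P' 2 -
      2 * κ * P'.g 1 * P'.g 2 * dl P P' 5 + P'.g 3 * dl P P' 5 + 2 * P'.g 2 * dl P P' 6 -
      2 * κ * P'.g 1 * dl P P' 10)| ≤ e

theorem Pr.dt (H : Pr κ K τ P P') : Dt κ K τ ((1 + CP K) * τ) P P' := by
  have hC := one_CP H.K1
  have hτ := H.τ0
  have h1 : CP K * τ ≤ (1 + CP K) * τ := by nlinarith
  obtain ⟨e2, e5, e6, e10, e11⟩ := H.errs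
  obtain ⟨f0, -⟩ := frames κ P P'
  refine ⟨H, rfl, H.hκ.trans H.K1, by nlinarith, ?_, e2.trans h1, e5.trans h1, e6.trans h1,
    e10.trans h1, e11.trans h1⟩
  rw [f0]
  have := abs_sub (P'.g 0) (P.g 0)
  have := H.t
  have := H.t'
  nlinarith

theorem Dt.row {e : ℝ} (D : Dt κ K τ e P P') {R : ℝ} (l : List (ℝ × ℝ)) (hl : l.length ≤ 12)
    (hR : R = (l.map fun p => p.1 * p.2).sum) (h : ∀ p ∈ l, |p.1| ≤ 100 * K ^ 4 ∧ |p.2| ≤ e) :
    |R| ≤ CR K * τ :=
  rowc D.H.K1 D.H.τ0 rfl D.he l hl hR h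

theorem up4 (hK : 1 ≤ K) {x : ℝ} (h : |x| ≤ 25 * K ^ 4) : |x| ≤ 100 * K ^ 4 := by
  have : 0 ≤ K ^ 4 := by positivity
  linarith

theorem up4' (hK : 1 ≤ K) {x y : ℝ} (h : |x| ≤ 25 * K ^ 4) (h' : |y| ≤ 25 * K ^ 4) :
    |x + y| ≤ 100 * K ^ 4 := by
  have : 0 ≤ K ^ 4 := by positivity
  have := abs_add_le x y
  linarith

/-- `a` -/
theorem Dt.ra {e : ℝ} (D : Dt κ K τ e P P') (d2 : |coW κ P P' 2| ≤ τ) :
    |P'.g 2 - P.g 2| ≤ CR K * τ := by
  have hK := D.H.K1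
  obtain ⟨f0, f1, f2, f3⟩ := frames κ P P'
  refine D.row [(1, coW κ P P' 2), (P.g 1, coW κ P P' 0)] (by simp) ?_ ?_
  · simp only [List.map_cons, List.map_nil, List.sum_cons, List.sum_nil]
    rw [f2]; ring
  · simp only [List.forall_mem_cons, List.not_mem_nil, false_implies, implies_true, and_true]
    refine ⟨⟨up4 hK (mon0 hK (by norm_num)), d2.trans D.τe⟩, ?_, D.D0⟩
    have := mon1 hK (n := 1) (by norm_num) (D.H.g 1)
    rw [one_mul] at this
    exact up4 hK this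

/-- `F` -/
theorem Dt.rF {e : ℝ} (D : Dt κ K τ e P P') (d9 : |coW κ P P' 9| ≤ τ) :
    |P'.G 5 - P.G 5| ≤ CR K * τ := by
  have hK := D.H.K1
  refine D.row [(1, coW κ P P' 9), (-1, coW κ P P' 9 - dl P P' 5)] (by simp) ?_ ?_
  · simp only [List.map_cons, List.map_nil, List.sum_cons, List.sum_nil]
    have : dl P P' 5 = P'.G 5 - P.G 5 := rfl
    rw [this]; ring
  · simp only [List.forall_mem_cons, List.not_mem_nil, false_implies, implies_true, and_true]
    exact ⟨⟨up4 hK (mon0 hK (by norm_num)), d9.trans D.τe⟩,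
      up4 hK (mon0 hK (by rw [abs_neg]; norm_num)), D.e5⟩

/-- `Y` -/
theorem Dt.rY {e : ℝ} (D : Dt κ K τ e P P') (d6 : |coW κ P P' 6| ≤ τ) :
    |fY P' - fY P| ≤ CR K * τ := by
  have hK := D.H.K1
  refine D.row [(3, coW κ P P' 6), (-3, coW κ P P' 6 - dl P P' 2)] (by simp) ?_ ?_
  · simp only [List.map_cons, List.map_nil, List.sum_cons, List.sum_nil]
    have : dl P P' 2 = P'.G 2 - P.G 2 := rfl
    rw [this]; unfold fY; ring
  · simp only [List.forall_mem_cons, List.not_mem_nil, false_implies, implies_true, and_true]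
    exact ⟨⟨up4 hK (mon0 hK (by norm_num)), d6.trans D.τe⟩,
      up4 hK (mon0 hK (by rw [abs_neg]; norm_num)), D.e2⟩

/-- `Q` -/
theorem Dt.rQ {e : ℝ} (D : Dt κ K τ e P P') (d2 : |coW κ P P' 2| ≤ τ)
    (d9 : |coW κ P P' 9| ≤ τ) (d14 : |coW κ P P' 14| ≤ τ) : |fQ P' - fQ P| ≤ CR K * τ := by
  have hK := D.H.K1
  obtain ⟨f0, f1, f2, f3⟩ := frames κ P P'
  refine D.row [(2, coW κ P P' 14), (-2, coW κ P P' 14 - (dl P P' 10 + P'.g 2 * dl P P' 5)),
    (2 * P'.g 2, coW κ P P' 9), (-2 * P'.g 2, coW κ P P' 9 - dl P P' 5),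
    (4 * P.G 5, coW κ P P' 2), (4 * (P.G 5 * P.g 1), coW κ P P' 0)] (by simp) ?_ ?_
  · simp only [List.map_cons, List.map_nil, List.sum_cons, List.sum_nil]
    have h5 : dl P P' 5 = P'.G 5 - P.G 5 := rfl
    have h10 : dl P P' 10 = P'.G 10 - P.G 10 := rfl
    rw [h5, h10]; unfold fQ
    linear_combination (4 * P.G 5) * f2
  · simp only [List.forall_mem_cons, List.not_mem_nil, false_implies, implies_true, and_true]
    exact ⟨⟨up4 hK (mon0 hK (by norm_num)), d14.trans D.τe⟩,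
      ⟨up4 hK (mon0 hK (by rw [abs_neg]; norm_num)), D.e10⟩,
      ⟨up4 hK (mon1 hK (by norm_num) (D.H.g' 2)), d9.trans D.τe⟩,
      ⟨up4 hK (mon1 hK (by rw [abs_neg]; norm_num) (D.H.g' 2)), D.e5⟩,
      ⟨up4 hK (mon1 hK (by norm_num) (D.H.G 5)), d2.trans D.τe⟩,
      up4 hK (mon2 hK (by norm_num) (D.H.G 5) (D.H.g 1)), D.D0⟩

/-- the big row of the positions -/
theorem Dt.rp {e : ℝ} (D : Dt κ K τ e P P') (d2 : |coW κ P P' 2| ≤ τ)
    (d9 : |coW κ P P' 9| ≤ τ) (d14 : |coW κ P P' 14| ≤ τ) (d15 : |coW κ P P' 15| ≤ τ) :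
    |(fP κ P' + κ * P'.g 2 ^ 2 * fY P' + P'.g 2 * fK κ P' + κ * (P'.g 1 * fQ P')) -
      (fP κ P + κ * P.g 2 ^ 2 * fY P + P.g 2 * fK κ P + κ * (P.g 1 * fQ P))| ≤ CR K * τ := by
  have hK := D.H.K1
  obtain ⟨f0, f1, f2, f3⟩ := frames κ P P'
  refine D.row [(1, coW κ P P' 15), (-1, coW κ P P' 15 - (dl P P' 11 +
      3 * κ * P'.g 2 ^ 2 * dl P P' 2 - 2 * κ * P'.g 1 * P'.g 2 * dl P P' 5 +
      P'.g 3 * dl P P' 5 + 2 * P'.g 2 * dl P P' 6 - 2 * κ * P'.g 1 * dl P P' 10)),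
    (-1 * P'.g 3, coW κ P P' 9), (1 * P'.g 3, coW κ P P' 9 - dl P P' 5),
    (2 * (κ * P'.g 1), coW κ P P' 14),
    (-2 * (κ * P'.g 1), coW κ P P' 14 - (dl P P' 10 + P'.g 2 * dl P P' 5)),
    (3 * (κ * P'.g 2 * P.G 2) + 3 * (κ * P.g 2 * P.G 2), coW κ P P' 2),
    (2 * P.G 6, coW κ P P' 2),
    (3 * (κ * P'.g 2 * P.G 2 * P.g 1) + 3 * (κ * P.g 2 * P.G 2 * P.g 1), coW κ P P' 0),
    (2 * (P.G 6 * P.g 1), coW κ P P' 0)] (by simp) ?_ ?_
  · simp only [List.map_cons, List.map_nil, List.sum_cons, List.sum_nil]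
    have h2 : dl P P' 2 = P'.G 2 - P.G 2 := rfl
    have h5 : dl P P' 5 = P'.G 5 - P.G 5 := rfl
    have h6 : dl P P' 6 = P'.G 6 - P.G 6 := rfl
    have h10 : dl P P' 10 = P'.G 10 - P.G 10 := rfl
    have h11 : dl P P' 11 = P'.G 11 - P.G 11 := rfl
    rw [h2, h5, h6, h10, h11]; unfold fP fY fK fQ
    linear_combination (3 * κ * (P'.g 2 + P.g 2) * P.G 2 + 2 * P.G 6) * f2
  · simp only [List.forall_mem_cons, List.not_mem_nil, false_implies, implies_true, and_true]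
    exact ⟨⟨up4 hK (mon0 hK (by norm_num)), d15.trans D.τe⟩,
      ⟨up4 hK (mon0 hK (by rw [abs_neg]; norm_num)), D.e11⟩,
      ⟨up4 hK (mon1 hK (by rw [abs_neg]; norm_num) (D.H.g' 3)), d9.trans D.τe⟩,
      ⟨up4 hK (mon1 hK (by norm_num) (D.H.g' 3)), D.e5⟩,
      ⟨up4 hK (mon2 hK (by norm_num) D.κK (D.H.g' 1)), d14.trans D.τe⟩,
      ⟨up4 hK (mon2 hK (by rw [abs_neg]; norm_num) D.κK (D.H.g' 1)), D.e10⟩,
      ⟨up4' hK (mon3 hK (by norm_num) D.κK (D.H.g' 2) (D.H.G 2))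
        (mon3 hK (by norm_num) D.κK (D.H.g 2) (D.H.G 2)), d2.trans D.τe⟩,
      ⟨up4 hK (mon1 hK (by norm_num) (D.H.G 6)), d2.trans D.τe⟩,
      ⟨up4' hK (mon4 hK (by norm_num) D.κK (D.H.g' 2) (D.H.G 2) (D.H.g 1))
        (mon4 hK (by norm_num) D.κK (D.H.g 2) (D.H.G 2) (D.H.g 1)), D.D0⟩,
      up4 hK (mon2 hK (by norm_num) (D.H.G 6) (D.H.g 1)), D.D0⟩

/-- `c` -/
theorem Dt.rc {e : ℝ} (D : Dt κ K τ e P P') (d1 : |coW κ P P' 1| ≤ τ) :
    |P'.g 1 - P.g 1| ≤ CR K * τ := by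
  have hK := D.H.K1
  obtain ⟨f0, f1, f2, f3⟩ := frames κ P P'
  refine D.row [(1, coW κ P P' 1)] (by simp) ?_ ?_
  · simp only [List.map_cons, List.map_nil, List.sum_cons, List.sum_nil]
    rw [f1]; ring
  · simp only [List.forall_mem_cons, List.not_mem_nil, false_implies, implies_true, and_true]
    exact ⟨up4 hK (mon0 hK (by norm_num)), d1.trans D.τe⟩

/-- the coordinate `A` of the pair is bounded -/
theorem Dt.D2 {e : ℝ} (D : Dt κ K τ e P P') : |2 * (κ * coW κ P P' 2)| ≤ 25 * K ^ 4 := by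
  have hK := D.H.K1
  obtain ⟨f0, f1, f2, f3⟩ := frames κ P P'
  have h1 : |coW κ P P' 2| ≤ 4 * K ^ 2 := by
    have e1 : coW κ P P' 2 = P'.g 2 - P.g 2 - P.g 1 * (P'.g 0 - P.g 0) := by
      rw [f2, f0]; ring
    rw [e1]
    have h1 := abs_sub (P'.g 2 - P.g 2) (P.g 1 * (P'.g 0 - P.g 0))
    have h2 := abs_sub (P'.g 2) (P.g 2)
    have h3 : |P.g 1 * (P'.g 0 - P.g 0)| ≤ K * 2 := by
      rw [abs_mul]
      refine mul_le_mul (D.H.g 1) ?_ (abs_nonneg _) (by linarith)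
      have := abs_sub (P'.g 0) (P.g 0)
      have := D.H.t
      have := D.H.t'
      have := D.H.τ1
      linarith
    have := D.H.g 2
    have := D.H.g' 2
    nlinarith
  rw [abs_mul, abs_mul, abs_two]
  have h2 := D.H.hκ
  have h3 : |κ| * |coW κ P P' 2| ≤ 1 * (4 * K ^ 2) :=
    mul_le_mul h2 h1 (abs_nonneg _) (by norm_num)
  have h4 : K ^ 2 ≤ K ^ 4 := pow_le_pow_right₀ hK (by norm_num)
  nlinarith

/-- `β` on a cell of the velocities -/
theorem Dt.rB {e : ℝ} (D : Dt κ K τ e P P') (d1 : |coW κ P P' 1| ≤ τ) (d3 : |coW κ P P' 3| ≤ τ) :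
    |fB κ P' - fB κ P| ≤ CR K * τ := by
  have hK := D.H.K1
  obtain ⟨f0, f1, f2, f3⟩ := frames κ P P'
  refine D.row [(1, coW κ P P' 3), (2 * (κ * coW κ P P' 2) + 2 * (κ * P.g 2), coW κ P P' 1),
    (2 * (κ * P'.g 1 * P.g 1) + -1 * (κ * P.g 1 * P.g 1), coW κ P P' 0)] (by simp) ?_ ?_
  · simp only [List.map_cons, List.map_nil, List.sum_cons, List.sum_nil]
    unfold fB
    rw [f3, f2, f1]; ring
  · simp only [List.forall_mem_cons, List.not_mem_nil, false_implies, implies_true, and_true]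
    exact ⟨⟨up4 hK (mon0 hK (by norm_num)), d3.trans D.τe⟩,
      ⟨up4' hK D.D2 (mon2 hK (by norm_num) D.κK (D.H.g 2)), d1.trans D.τe⟩,
      up4' hK (mon3 hK (by norm_num) D.κK (D.H.g' 1) (D.H.g 1))
        (mon3 hK (by rw [abs_neg]; norm_num) D.κK (D.H.g 1) (D.H.g 1)), D.D0⟩

/-- `K` on a cell of the velocities -/
theorem Dt.rK {e : ℝ} (D : Dt κ K τ e P P') (d1 : |coW κ P P' 1| ≤ τ) (d6 : |coW κ P P' 6| ≤ τ)
    (d10 : |coW κ P P' 10| ≤ τ) : |fK κ P' - fK κ P| ≤ CR K * τ := by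
  have hK := D.H.K1
  obtain ⟨f0, f1, f2, f3⟩ := frames κ P P'
  refine D.row [(2, coW κ P P' 10), (-2, coW κ P P' 10 - (dl P P' 6 +
      3 * κ * P'.g 2 * dl P P' 2 - 2 * κ * P'.g 1 * dl P P' 5)),
    (-6 * (κ * P'.g 2), coW κ P P' 6), (6 * (κ * P'.g 2), coW κ P P' 6 - dl P P' 2),
    (-4 * (κ * P.G 5), coW κ P P' 1)] (by simp) ?_ ?_
  · simp only [List.map_cons, List.map_nil, List.sum_cons, List.sum_nil]
    have h2 : dl P P' 2 = P'.G 2 - P.G 2 := rfl
    have h5 : dl P P' 5 = P'.G 5 - P.G 5 := rfl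
    have h6 : dl P P' 6 = P'.G 6 - P.G 6 := rfl
    rw [h2, h5, h6]; unfold fK
    linear_combination (-4 * κ * P.G 5) * f1
  · simp only [List.forall_mem_cons, List.not_mem_nil, false_implies, implies_true, and_true]
    exact ⟨⟨up4 hK (mon0 hK (by norm_num)), d10.trans D.τe⟩,
      ⟨up4 hK (mon0 hK (by rw [abs_neg]; norm_num)), D.e6⟩,
      ⟨up4 hK (mon2 hK (by rw [abs_neg]; norm_num) D.κK (D.H.g' 2)), d6.trans D.τe⟩,
      ⟨up4 hK (mon2 hK (by norm_num) D.κK (D.H.g' 2)), D.e2⟩,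
      up4 hK (mon2 hK (by rw [abs_neg]; norm_num) D.κK (D.H.G 5)), d1.trans D.τe⟩

/-- the big row of the velocities -/
theorem Dt.rv {e : ℝ} (D : Dt κ K τ e P P') (d1 : |coW κ P P' 1| ≤ τ) (d3 : |coW κ P P' 3| ≤ τ)
    (d6 : |coW κ P P' 6| ≤ τ) (d10 : |coW κ P P' 10| ≤ τ) (d15 : |coW κ P P' 15| ≤ τ) :
    |(fP κ P' + fB κ P' * P'.G 5) - (fP κ P + fB κ P * P.G 5)| ≤ 2 * (CR K * τ) := by
  have hK := D.H.K1
  obtain ⟨f0, f1, f2, f3⟩ := frames κ P P'
  -- without the change of `β`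
  have h1 : |(fP κ P' + fB κ P' * P'.G 5) - (fP κ P + fB κ P * P.G 5) -
      P.G 5 * (fB κ P' - fB κ P)| ≤ CR K * τ := by
    refine D.row [(1, coW κ P P' 15), (-1, coW κ P P' 15 - (dl P P' 11 +
        3 * κ * P'.g 2 ^ 2 * dl P P' 2 - 2 * κ * P'.g 1 * P'.g 2 * dl P P' 5 +
        P'.g 3 * dl P P' 5 + 2 * P'.g 2 * dl P P' 6 - 2 * κ * P'.g 1 * dl P P' 10)),
      (3 * (κ * P'.g 2 * P'.g 2), coW κ P P' 6),
      (-3 * (κ * P'.g 2 * P'.g 2), coW κ P P' 6 - dl P P' 2),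
      (-2 * P'.g 2, coW κ P P' 10), (2 * P'.g 2, coW κ P P' 10 - (dl P P' 6 +
        3 * κ * P'.g 2 * dl P P' 2 - 2 * κ * P'.g 1 * dl P P' 5)),
      (-2 * (κ * P.G 10), coW κ P P' 1)] (by simp) ?_ ?_
    · simp only [List.map_cons, List.map_nil, List.sum_cons, List.sum_nil]
      have h2 : dl P P' 2 = P'.G 2 - P.G 2 := rfl
      have h5 : dl P P' 5 = P'.G 5 - P.G 5 := rfl
      have h6 : dl P P' 6 = P'.G 6 - P.G 6 := rfl
      have h10 : dl P P' 10 = P'.G 10 - P.G 10 := rfl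
      have h11 : dl P P' 11 = P'.G 11 - P.G 11 := rfl
      rw [h2, h5, h6, h10, h11]; unfold fP fB
      linear_combination (-2 * κ * P.G 10) * f1
    · simp only [List.forall_mem_cons, List.not_mem_nil, false_implies, implies_true, and_true]
      exact ⟨⟨up4 hK (mon0 hK (by norm_num)), d15.trans D.τe⟩,
        ⟨up4 hK (mon0 hK (by rw [abs_neg]; norm_num)), D.e11⟩,
        ⟨up4 hK (mon3 hK (by norm_num) D.κK (D.H.g' 2) (D.H.g' 2)), d6.trans D.τe⟩,
        ⟨up4 hK (mon3 hK (by rw [abs_neg]; norm_num) D.κK (D.H.g' 2) (D.H.g' 2)), D.e2⟩,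
        ⟨up4 hK (mon1 hK (by rw [abs_neg]; norm_num) (D.H.g' 2)), d10.trans D.τe⟩,
        ⟨up4 hK (mon1 hK (by norm_num) (D.H.g' 2)), D.e6⟩,
        up4 hK (mon2 hK (by rw [abs_neg]; norm_num) D.κK (D.H.G 10)), d1.trans D.τe⟩
  have h2 : |P.G 5 * (fB κ P' - fB κ P)| ≤ CR K * τ := by
    refine D.row [(1 * P.G 5, coW κ P P' 3), (P.G 5 * (2 * (κ * coW κ P P' 2)) +
        2 * (κ * P.g 2 * P.G 5), coW κ P P' 1),
      (2 * (κ * P'.g 1 * P.g 1 * P.G 5) + -1 * (κ * P.g 1 * P.g 1 * P.G 5), coW κ P P' 0)]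
      (by simp) ?_ ?_
    · simp only [List.map_cons, List.map_nil, List.sum_cons, List.sum_nil]
      unfold fB
      rw [f3, f2, f1]; ring
    · simp only [List.forall_mem_cons, List.not_mem_nil, false_implies, implies_true, and_true]
      refine ⟨⟨up4 hK (mon1 hK (by norm_num) (D.H.G 5)), d3.trans D.τe⟩,
        ⟨up4' hK ?_ (mon3 hK (by norm_num) D.κK (D.H.g 2) (D.H.G 5)), d1.trans D.τe⟩,
        up4' hK (mon4 hK (by norm_num) D.κK (D.H.g' 1) (D.H.g 1) (D.H.G 5))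
          (mon4 hK (by rw [abs_neg]; norm_num) D.κK (D.H.g 1) (D.H.g 1) (D.H.G 5)), D.D0⟩
      have h1 : |2 * (κ * coW κ P P' 2)| ≤ 8 * K ^ 2 := by
        have e1 : coW κ P P' 2 = P'.g 2 - P.g 2 - P.g 1 * (P'.g 0 - P.g 0) := by
          rw [f2, f0]; ring
        have h1 := abs_sub (P'.g 2 - P.g 2) (P.g 1 * (P'.g 0 - P.g 0))
        have h2 := abs_sub (P'.g 2) (P.g 2)
        have h3 : |P.g 1 * (P'.g 0 - P.g 0)| ≤ K * 2 := by
          rw [abs_mul]
          refine mul_le_mul (D.H.g 1) ?_ (abs_nonneg _) (by linarith)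
          have := abs_sub (P'.g 0) (P.g 0)
          have := D.H.t
          have := D.H.t'
          have := D.H.τ1
          linarith
        have g1 := D.H.g 2
        have g2 := D.H.g' 2
        have h4 : |coW κ P P' 2| ≤ 4 * K ^ 2 := by rw [e1]; nlinarith
        rw [abs_mul, abs_mul, abs_two]
        have h5 : |κ| * |coW κ P P' 2| ≤ 1 * (4 * K ^ 2) :=
          mul_le_mul D.H.hκ h4 (abs_nonneg _) (by norm_num)
        linarith
      rw [abs_mul]
      calc |P.G 5| * |2 * (κ * coW κ P P' 2)| ≤ K * (8 * K ^ 2) :=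
            mul_le_mul (D.H.G 5) h1 (abs_nonneg _) (by linarith)
        _ ≤ 25 * K ^ 4 := by
            have : K ^ 3 ≤ K ^ 4 := pow_le_pow_right₀ hK (by norm_num)
            nlinarith [show 0 ≤ K ^ 4 by positivity]
  have e1 : (fP κ P' + fB κ P' * P'.G 5) - (fP κ P + fB κ P * P.G 5) =
      ((fP κ P' + fB κ P' * P'.G 5) - (fP κ P + fB κ P * P.G 5) -
      P.G 5 * (fB κ P' - fB κ P)) + P.G 5 * (fB κ P' - fB κ P) := by ring
  rw [e1]
  refine (abs_add_le _ _).trans ?_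
  linarith

/-- `β` on a cell of the sheet -/
theorem Dt.rBz {e : ℝ} (D : Dt κ K τ e P P') (d1 : |coW κ P P' 1| ≤ 6 * K)
    (d2 : |coW κ P P' 2| ≤ τ) (d3 : |coW κ P P' 3| ≤ τ) :
    |(fB κ P - fB κ P') - 2 * κ * P.g 2 * (P.g 1 - P'.g 1)| ≤ CR K * τ := by
  have hK := D.H.K1
  obtain ⟨f0, f1, f2, f3⟩ := frames κ P P'
  refine D.row [(-1, coW κ P P' 3), (-2 * (κ * coW κ P P' 1), coW κ P P' 2),
    (-2 * (κ * P'.g 1 * P.g 1) + 1 * (κ * P.g 1 * P.g 1), coW κ P P' 0)] (by simp) ?_ ?_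
  · simp only [List.map_cons, List.map_nil, List.sum_cons, List.sum_nil]
    unfold fB
    rw [f3, f2, f1]; ring
  · simp only [List.forall_mem_cons, List.not_mem_nil, false_implies, implies_true, and_true]
    refine ⟨⟨up4 hK (mon0 hK (by rw [abs_neg]; norm_num)), d3.trans D.τe⟩,
      ⟨?_, d2.trans D.τe⟩,
      up4' hK (mon3 hK (by rw [abs_neg]; norm_num) D.κK (D.H.g' 1) (D.H.g 1))
        (mon3 hK (by norm_num) D.κK (D.H.g 1) (D.H.g 1)), D.D0⟩
    rw [abs_mul, abs_mul, abs_neg, abs_two]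
    have h5 : |κ| * |coW κ P P' 1| ≤ 1 * (6 * K) :=
      mul_le_mul D.H.hκ d1 (abs_nonneg _) (by norm_num)
    have : K ≤ K ^ 4 := by
      calc K = K ^ 1 := (pow_one K).symm
        _ ≤ K ^ 4 := pow_le_pow_right₀ hK (by norm_num)
    linarith

/-- the row of the sheet -/
theorem Dt.rz {e : ℝ} (D : Dt κ K τ e P P') (d2 : |coW κ P P' 2| ≤ τ)
    (d9 : |coW κ P P' 9| ≤ τ) (d10 : |coW κ P P' 10| ≤ τ) :
    |(fK κ P' + 4 * κ * P'.g 1 * P'.G 5 + 2 * κ * P'.g 2 * fY P') -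
      (fK κ P + 4 * κ * P.g 1 * P.G 5 + 2 * κ * P.g 2 * fY P)| ≤ CR K * τ := by
  have hK := D.H.K1
  obtain ⟨f0, f1, f2, f3⟩ := frames κ P P'
  refine D.row [(2, coW κ P P' 10), (-2, coW κ P P' 10 - (dl P P' 6 +
      3 * κ * P'.g 2 * dl P P' 2 - 2 * κ * P'.g 1 * dl P P' 5)),
    (4 * (κ * P'.g 1), coW κ P P' 9), (-4 * (κ * P'.g 1), coW κ P P' 9 - dl P P' 5),
    (6 * (κ * P.G 2), coW κ P P' 2), (6 * (κ * P.G 2 * P.g 1), coW κ P P' 0)] (by simp) ?_ ?_
  · simp only [List.map_cons, List.map_nil, List.sum_cons, List.sum_nil]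
    have h2 : dl P P' 2 = P'.G 2 - P.G 2 := rfl
    have h5 : dl P P' 5 = P'.G 5 - P.G 5 := rfl
    have h6 : dl P P' 6 = P'.G 6 - P.G 6 := rfl
    rw [h2, h5, h6]; unfold fK fY
    linear_combination (6 * κ * P.G 2) * f2
  · simp only [List.forall_mem_cons, List.not_mem_nil, false_implies, implies_true, and_true]
    exact ⟨⟨up4 hK (mon0 hK (by norm_num)), d10.trans D.τe⟩,
      ⟨up4 hK (mon0 hK (by rw [abs_neg]; norm_num)), D.e6⟩,
      ⟨up4 hK (mon2 hK (by norm_num) D.κK (D.H.g' 1)), d9.trans D.τe⟩,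
      ⟨up4 hK (mon2 hK (by rw [abs_neg]; norm_num) D.κK (D.H.g' 1)), D.e5⟩,
      ⟨up4 hK (mon2 hK (by norm_num) D.κK (D.H.G 2)), d2.trans D.τe⟩,
      up4 hK (mon3 hK (by norm_num) D.κK (D.H.G 2) (D.H.g 1)), D.D0⟩


/-- backwards: slot `B` -/
theorem Dt.sb {e : ℝ} (D : Dt κ K τ e P P') (d1 : |coW κ P P' 1| ≤ τ) :
    |coW κ P P' 3 - (fB κ P' - fB κ P)| ≤ CR K * τ := by
  have hK := D.H.K1
  obtain ⟨f0, f1, f2, f3⟩ := frames κ P P'
  refine D.row [(-1 * (2 * (κ * coW κ P P' 2)) + -2 * (κ * P.g 2), coW κ P P' 1),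
    (-2 * (κ * P'.g 1 * P.g 1) + 1 * (κ * P.g 1 * P.g 1), coW κ P P' 0)] (by simp) ?_ ?_
  · simp only [List.map_cons, List.map_nil, List.sum_cons, List.sum_nil]
    unfold fB
    rw [f3, f2, f1]; ring
  · simp only [List.forall_mem_cons, List.not_mem_nil, false_implies, implies_true, and_true]
    refine ⟨⟨up4' hK ?_ (mon2 hK (by rw [abs_neg]; norm_num) D.κK (D.H.g 2)), d1.trans D.τe⟩,
      up4' hK (mon3 hK (by rw [abs_neg]; norm_num) D.κK (D.H.g' 1) (D.H.g 1))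
        (mon3 hK (by norm_num) D.κK (D.H.g 1) (D.H.g 1)), D.D0⟩
    rw [abs_mul, abs_neg, abs_one, one_mul]
    exact D.D2

/-- backwards: slot `AY` -/
theorem Dt.sY {e : ℝ} (D : Dt κ K τ e P P') :
    |coW κ P P' 6 - (fY P' - fY P) / 3| ≤ CR K * τ := by
  have hK := D.H.K1
  refine D.row [(1, coW κ P P' 6 - dl P P' 2)] (by simp) ?_ ?_
  · simp only [List.map_cons, List.map_nil, List.sum_cons, List.sum_nil]
    have : dl P P' 2 = P'.G 2 - P.G 2 := rfl
    rw [this]; unfold fY; ring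
  · simp only [List.forall_mem_cons, List.not_mem_nil, false_implies, implies_true, and_true]
    exact ⟨up4 hK (mon0 hK (by norm_num)), D.e2⟩

/-- backwards: slot `AB` -/
theorem Dt.sF {e : ℝ} (D : Dt κ K τ e P P') :
    |coW κ P P' 9 - (P'.G 5 - P.G 5)| ≤ CR K * τ := by
  have hK := D.H.K1
  refine D.row [(1, coW κ P P' 9 - dl P P' 5)] (by simp) ?_ ?_
  · simp only [List.map_cons, List.map_nil, List.sum_cons, List.sum_nil]
    have : dl P P' 5 = P'.G 5 - P.G 5 := rfl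
    rw [this]; ring
  · simp only [List.forall_mem_cons, List.not_mem_nil, false_implies, implies_true, and_true]
    exact ⟨up4 hK (mon0 hK (by norm_num)), D.e5⟩

end Crest.Agent.R136.Cr544
end

-- ▼ part R136/Crd_544
section

/-!
# R136, specials of the thin pins, rows (helper544), part 4: the flags of a window

`PWin` : all walls are tight, so the sides of the window are units (`vv`) off the slot `4`;
`PP n k l` : flag of the line `l` at the height `k`, normalised with the flag of one line alive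
at this height.
-/

set_option autoImplicit false
set_option linter.unusedSectionVars false
set_option linter.unusedVariables false

open Filter Topology

namespace Crest.Agent.R136.Cr544

open Finset Crest.Agent.R136.NetW191 Crest.Agent.R136.EvW938 Crest.Agent.R136.PrW464
open Crest.Agent.R136.Net191 Crest.Agent.R136.Qg926 Crest.Agent.R136.Pin851
open Crest.Agent.R136.Gf356
open Crest.Agent.R138.Ex926 (Base U)

theorem GrU.times {a b : Fin 18 → ℝ} (ha : GrU a) (hb : GrU b) : GrU fun s => a s * b s where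
  pos s := mul_pos (ha.pos s) (hb.pos s)
  mul k l hl := by rw [List.prod_map_mul, ha.mul k l hl, hb.mul k l hl]

theorem GrU.dv {a b : Fin 18 → ℝ} (ha : GrU a) (hb : GrU b) : GrU fun s => a s / b s where
  pos s := div_pos (ha.pos s) (hb.pos s)
  mul k l hl := by rw [list_div, ha.mul k l hl, hb.mul k l hl]

variable {ι : ℕ → Type*} [∀ n, DecidableEq (ι n)]

/-- constants of the units -/
noncomputable def th (W : Wnd 18 ι) (s : Fin 18) : ℝ := unW (W.kap 0) 1 1 s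

/-- weights -/
noncomputable def gw (W : Wnd 18 ι) (n : ℕ) (s : Fin 18) : ℝ :=
  grW (W.X n 0) (W.X n 1) (W.X n 5 + 3 * W.X n 0 + 4 * W.X n 1) s

/-- units -/
noncomputable def vv (W : Wnd 18 ι) (u : ℕ → Fin 18 → ℝ) (n : ℕ) (s : Fin 18) : ℝ :=
  th W s * (W.B.d n ^ gw W n s / u n s)

/-- constants of a slot -/
noncomputable def tS (W : Wnd 18 ι) (s : Fin 18) : ℝ :=
  W.K0 / th W s + W.kap s / th W s + th W s / W.kap s + CW W.K0 / th W s + CW W.K0 / W.kap s +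
    W.K0 / W.kap s

/-- constant of the evolution of the slots `5`, `7` -/
noncomputable def kB (W : Wnd 18 ι) : ℝ :=
  2 * (([0, 4].map W.kap).prod / W.kap 5 * (W.K0 / W.kap 0)) +
    ([0, 0, 4].map W.kap).prod / W.kap 7 * (W.K0 / W.kap 0) ^ 2 +
    ([0, 5].map W.kap).prod / W.kap 7 * (W.K0 / W.kap 0)

/-- the constant -/
noncomputable def KK (W : Wnd 18 ι) : ℝ := 2 + 4 * ∑ s, tS W s + kB W

open Classical in
/-- a line alive at the height `k` -/
noncomputable def lk (W : Wnd 18 ι) (E : ∀ n, Finset (ι n)) (n k : ℕ) : ℕ :=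
  if h : ∃ l, (l, k) ∈ (W.cfg0 n (E n)).I then h.choose else 0

/-- **the normalised flags** -/
noncomputable def PP (W : Wnd 18 ι) (E : ∀ n, Finset (ι n)) (κ : ℕ → ℝ) (u : ℕ → Fin 18 → ℝ)
    (f : ∀ n, ι n → FW) (n k l : ℕ) : FW :=
  nf (κ n) (vv W u n) (f n (W.rep n (lk W E n k) k)) (f n (W.rep n l k))

section

variable {W : Wnd 18 ι} {E : ∀ n, Finset (ι n)} {κ : ℕ → ℝ} {u : ℕ → Fin 18 → ℝ}
  {f : ∀ n, ι n → FW} {lam : (Fin 18 → ℝ) → ℝ} {x : ℝ}

theorem lk_mem {n k l : ℕ} (h : (l, k) ∈ (W.cfg0 n (E n)).I) :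
    (lk W E n k, k) ∈ (W.cfg0 n (E n)).I := by
  have h' : ∃ l, (l, k) ∈ (W.cfg0 n (E n)).I := ⟨l, h⟩
  unfold lk
  rw [dif_pos h']
  exact h'.choose_spec

theorem gru_th (hW : PWin W E κ u f {4} lam x) : GrU (th W) :=
  GrU.unW (hW.ww.ok.kap 0) one_pos one_pos

theorem gru_v (hW : PWin W E κ u f {4} lam x) (n : ℕ) : GrU (vv W u n) := by
  have h2 : GrU (fun s => W.B.d n ^ gw W n s) := by
    have h := GrU.unW (Real.rpow_pos_of_pos (W.B.pos n) (W.X n 0))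
      (Real.rpow_pos_of_pos (W.B.pos n) (W.X n 1))
      (Real.rpow_pos_of_pos (W.B.pos n) (W.X n 5 + 3 * W.X n 0 + 4 * W.X n 1))
    have e : unW (W.B.d n ^ W.X n 0) (W.B.d n ^ W.X n 1)
      (W.B.d n ^ (W.X n 5 + 3 * W.X n 0 + 4 * W.X n 1)) = fun s => W.B.d n ^ gw W n s :=
      funext fun s => unW_rpow (W.B.pos n) _ _ _ s
    rwa [e] at h
  exact GrU.times (gru_th hW) (GrU.dv h2 (hW.ww.hl n))

/-- all sides off the slot `4` are natural -/
theorem X_eq (hW : PWin W E κ u f {4} lam x) (n : ℕ) : ∀ s, s ≠ 4 → W.X n s = gw W n s := by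
  have key : ∀ k, k ≠ 4 → ∀ l ∈ mlW k, (∀ s ∈ l, s ≠ 4) → (∀ s ∈ l, W.X n s = gw W n s) →
      W.X n k = gw W n k := by
    intro k hk l hl h4 hs
    rw [hW.tight k (by simpa using hk) l hl (fun s hs => by simpa using h4 s hs) n]
    have : l.map (W.X n) = l.map (gw W n) := List.map_congr_left hs
    rw [this]
    exact grW_list _ _ _ k l hl
  have x0 : W.X n 0 = gw W n 0 := by simp [gw, grW, wz, wc, wn]
  have x1 : W.X n 1 = gw W n 1 := by simp [gw, grW, wz, wc, wn]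
  have x5 : W.X n 5 = gw W n 5 := by
    simp [gw, grW, wz, wc, wn]; ring
  have x2 := key 2 (by decide) [1, 0] (by decide) (by decide) (by
    simp only [List.forall_mem_cons, List.not_mem_nil, false_implies, implies_true, and_true]
    exact ⟨x1, x0⟩)
  have x3 := key 3 (by decide) [1, 2] (by decide) (by decide) (by
    simp only [List.forall_mem_cons, List.not_mem_nil, false_implies, implies_true, and_true]
    exact ⟨x1, x2⟩)
  have x6 := key 6 (by decide) [1, 5] (by decide) (by decide) (by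
    simp only [List.forall_mem_cons, List.not_mem_nil, false_implies, implies_true, and_true]
    exact ⟨x1, x5⟩)
  have x7 := key 7 (by decide) [0, 5] (by decide) (by decide) (by
    simp only [List.forall_mem_cons, List.not_mem_nil, false_implies, implies_true, and_true]
    exact ⟨x0, x5⟩)
  have x8 := key 8 (by decide) [1, 6] (by decide) (by decide) (by
    simp only [List.forall_mem_cons, List.not_mem_nil, false_implies, implies_true, and_true]
    exact ⟨x1, x6⟩)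
  have x9 := key 9 (by decide) [2, 5] (by decide) (by decide) (by
    simp only [List.forall_mem_cons, List.not_mem_nil, false_implies, implies_true, and_true]
    exact ⟨x2, x5⟩)
  have x10 := key 10 (by decide) [3, 5] (by decide) (by decide) (by
    simp only [List.forall_mem_cons, List.not_mem_nil, false_implies, implies_true, and_true]
    exact ⟨x3, x5⟩)
  have x11 := key 11 (by decide) [3, 5] (by decide) (by decide) (by
    simp only [List.forall_mem_cons, List.not_mem_nil, false_implies, implies_true, and_true]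
    exact ⟨x3, x5⟩)
  have x12 := key 12 (by decide) [3, 1, 5] (by decide) (by decide) (by
    simp only [List.forall_mem_cons, List.not_mem_nil, false_implies, implies_true, and_true]
    exact ⟨x3, x1, x5⟩)
  have x13 := key 13 (by decide) [3, 1, 1, 5] (by decide) (by decide) (by
    simp only [List.forall_mem_cons, List.not_mem_nil, false_implies, implies_true, and_true]
    exact ⟨x3, x1, x1, x5⟩)
  have x14 := key 14 (by decide) [2, 2, 5] (by decide) (by decide) (by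
    simp only [List.forall_mem_cons, List.not_mem_nil, false_implies, implies_true, and_true]
    exact ⟨x2, x2, x5⟩)
  have x15 := key 15 (by decide) [2, 3, 5] (by decide) (by decide) (by
    simp only [List.forall_mem_cons, List.not_mem_nil, false_implies, implies_true, and_true]
    exact ⟨x2, x3, x5⟩)
  have x16 := key 16 (by decide) [2, 3, 1, 5] (by decide) (by decide) (by
    simp only [List.forall_mem_cons, List.not_mem_nil, false_implies, implies_true, and_true]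
    exact ⟨x2, x3, x1, x5⟩)
  have x17 := key 17 (by decide) [2, 2, 3, 5] (by decide) (by decide) (by
    simp only [List.forall_mem_cons, List.not_mem_nil, false_implies, implies_true, and_true]
    exact ⟨x2, x2, x3, x5⟩)
  intro s hs
  fin_cases s
  · exact x0
  · exact x1
  · exact x2
  · exact x3
  · exact absurd rfl hs
  · exact x5
  · exact x6
  · exact x7
  · exact x8
  · exact x9
  · exact x10
  · exact x11
  · exact x12
  · exact x13
  · exact x14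
  · exact x15
  · exact x16
  · exact x17

theorem v_eq (hW : PWin W E κ u f {4} lam x) (n : ℕ) {s : Fin 18} (hs : s ≠ 4) :
    vv W u n s = th W s * sd W u n s := by
  unfold vv sd
  rw [X_eq hW n s hs]

theorem v_ge (hW : PWin W E κ u f {4} lam x) {n : ℕ} (g : W.Good n) (s : Fin 18) :
    th W s * sd W u n s ≤ vv W u n s := by
  by_cases hs : s = 4
  · subst hs
    have h1 : sd W u n 0 * sd W u n 4 ≤ sd W u n 5 := by
      simpa using (hW.ww.sides g).wall 5 [0, 4] (by decide)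
    have h2 : vv W u n 0 * vv W u n 4 = vv W u n 5 := by
      simpa using (gru_v hW n).mul 5 [0, 4] (by decide)
    have h3 : th W 0 * th W 4 = th W 5 := by
      simpa using (gru_th hW).mul 5 [0, 4] (by decide)
    have e0 := v_eq hW n (s := 0) (by decide)
    have e5 := v_eq hW n (s := 5) (by decide)
    have p0 := (gru_v hW n).pos 0
    have p5 := (gru_th hW).pos 5
    refine le_of_mul_le_mul_left ?_ p0
    rw [h2, e0, e5, ← h3]
    have := mul_le_mul_of_nonneg_left h1 p5.le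
    rw [← h3] at this
    linarith
  · exact (v_eq hW n hs).ge

/-! ### the constants -/

theorem tS_parts (hW : PWin W E κ u f {4} lam x) (s : Fin 18) : 0 ≤ W.K0 / th W s ∧
    0 ≤ W.kap s / th W s ∧ 0 ≤ th W s / W.kap s ∧ 0 ≤ CW W.K0 / th W s ∧
    0 ≤ CW W.K0 / W.kap s ∧ 0 ≤ W.K0 / W.kap s := by
  have h1 := (gru_th hW).pos s
  have h2 := hW.ww.ok.kap s
  have h3 := hW.ww.ok.K0_one
  have h4 : 0 ≤ W.K0 := by linarith
  have h5 : 0 ≤ CW W.K0 := by unfold CW; positivity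
  refine ⟨?_, ?_, ?_, ?_, ?_, ?_⟩ <;> positivity

theorem kB_nonneg (hW : PWin W E κ u f {4} lam x) : 0 ≤ kB W := by
  have k0 := hW.ww.ok.kap 0
  have k4 := hW.ww.ok.kap 4
  have k5 := hW.ww.ok.kap 5
  have k7 := hW.ww.ok.kap 7
  have h3 := hW.ww.ok.K0_one
  have h4 : 0 ≤ W.K0 := by linarith
  unfold kB
  simp only [List.map_cons, List.map_nil, List.prod_cons, List.prod_nil, mul_one]
  positivity

theorem tS_le (hW : PWin W E κ u f {4} lam x) (s : Fin 18) : 0 ≤ tS W s ∧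
    2 + 4 * tS W s + kB W ≤ KK W := by
  have h0 : ∀ s, 0 ≤ tS W s := fun s => by
    obtain ⟨a1, a2, a3, a4, a5, a6⟩ := tS_parts hW s
    unfold tS; linarith
  have h1 := Finset.single_le_sum (f := tS W) (fun s _ => h0 s) (Finset.mem_univ s)
  refine ⟨h0 s, ?_⟩
  unfold KK
  linarith

/-- what the constant dominates -/
theorem KK_ge (hW : PWin W E κ u f {4} lam x) (s : Fin 18) : 2 ≤ KK W ∧ W.K0 / th W s ≤ KK W ∧
    W.kap s / th W s ≤ KK W ∧ th W s / W.kap s ≤ KK W ∧ CW W.K0 / th W s ≤ KK W ∧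
    2 * (W.K0 / W.kap s) ≤ KK W ∧ 1 + kB W + CW W.K0 / W.kap s ≤ KK W := by
  obtain ⟨a1, a2, a3, a4, a5, a6⟩ := tS_parts hW s
  obtain ⟨h0, h1⟩ := tS_le hW s
  have hb := kB_nonneg hW
  unfold tS at h1
  refine ⟨?_, ?_, ?_, ?_, ?_, ?_, ?_⟩ <;> linarith

/-! ### coordinates in units -/

variable {n : ℕ}

/-- from raw to units -/
theorem to_v (hW : PWin W E κ u f {4} lam x) (g : W.Good n) {s : Fin 18} {a D : ℝ}
    (h : |a| ≤ D * sd W u n s) (hD : 0 ≤ D) : |a / vv W u n s| ≤ D / th W s := by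
  have hv := (gru_v hW n).pos s
  have ht := (gru_th hW).pos s
  rw [abs_div, abs_of_pos hv, div_le_div_iff₀ hv ht]
  have := mul_le_mul_of_nonneg_left (v_ge hW g s) hD
  have h2 := mul_le_mul_of_nonneg_right h ht.le
  linarith

theorem co_bd (hW : PWin W E κ u f {4} lam x) (g : W.Good n) {X Y : ι n} (hX : X ∈ W.Cl n)
    (hY : Y ∈ W.Cl n) (s : Fin 18) : |coW (κ n) (f n X) (f n Y) s / vv W u n s| ≤ KK W :=
  (to_v hW g (hW.ww.bnd g hX hY s) (by have := hW.ww.ok.K0_one; linarith)).trans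
    (KK_ge hW s).2.1

/-- coordinates in units and normalised coordinates -/
theorem co_crd (hW : PWin W E κ u f {4} lam x) (g : W.Good n) {X Y : ι n} (hX : X ∈ W.Cl n)
    (hY : Y ∈ W.Cl n) (s : Fin 18) :
    |coW (κ n) (f n X) (f n Y) s / vv W u n s| ≤ KK W * |W.crd n X Y s| := by
  have hk := hW.ww.ok.kap s
  have h1 : |coW (κ n) (f n X) (f n Y) s| ≤ (W.kap s * |W.crd n X Y s|) * sd W u n s := by
    rw [hW.ww.crd_eq g hX hY]
    exact hW.ww.raw_le le_rfl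
  refine (to_v hW g h1 (by positivity)).trans ?_
  have h2 := mul_le_mul_of_nonneg_right (KK_ge hW s).2.2.1 (abs_nonneg (W.crd n X Y s))
  refine le_trans (le_of_eq ?_) h2
  ring

/-- backwards, off the slot `4` -/
theorem crd_co (hW : PWin W E κ u f {4} lam x) (g : W.Good n) {X Y : ι n} (hX : X ∈ W.Cl n)
    (hY : Y ∈ W.Cl n) {s : Fin 18} (hs : s ≠ 4) :
    |W.crd n X Y s| ≤ KK W * |coW (κ n) (f n X) (f n Y) s / vv W u n s| := by
  have hk := hW.ww.ok.kap s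
  have ht := (gru_th hW).pos s
  have hsd := hW.ww.sd_pos n s
  have h1 : W.crd n X Y s = th W s / W.kap s *
      (coW (κ n) (f n X) (f n Y) s / vv W u n s) := by
    rw [hW.ww.crd_eq g hX hY, v_eq hW n hs]
    unfold un
    field_simp
  rw [h1, abs_mul, abs_of_pos (div_pos ht hk)]
  exact mul_le_mul_of_nonneg_right (KK_ge hW s).2.2.2.1 (abs_nonneg _)

/-- the height slot in units -/
theorem co_zero (hW : PWin W E κ u f {4} lam x) (g : W.Good n) {X Y : ι n} (hX : X ∈ W.Cl n)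
    (hY : Y ∈ W.Cl n) : coW (κ n) (f n X) (f n Y) 0 / vv W u n 0 = W.crd n X Y 0 := by
  have hk := hW.ww.ok.kap 0
  have hsd := hW.ww.sd_pos n 0
  have e : th W 0 = W.kap 0 := unW_zero _ _ _
  rw [hW.ww.crd_eq g hX hY, v_eq hW n (by decide), e]
  unfold un
  field_simp

/-! ### the flags -/

theorem PP_co (hW : PWin W E κ u f {4} lam x) (k l l' : ℕ) (s : Fin 18) :
    coW (κ n) (PP W E κ u f n k l) (PP W E κ u f n k l') s =
      coW (κ n) (f n (W.rep n l k)) (f n (W.rep n l' k)) s / vv W u n s :=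
  coW_nf (gru_v hW n) _ _ _ _ _

theorem nf_self (κ : ℝ) (hκ : |κ| ≤ 1) (v : Fin 18 → ℝ) (f0 : FW) :
    (nf κ v f0 f0).g = 0 ∧ (nf κ v f0 f0).G = 0 := by
  have h : cn κ v f0 f0 = 0 := by
    funext s
    unfold cn
    rw [coW_refl κ hκ, zero_div, Pi.zero_apply]
  constructor
  · change frm (cn κ v f0 f0) = 0
    rw [h]; rfl
  · change tr κ (iv κ (frm (cn κ v f0 f0))) (flg (cn κ v f0 f0)) = 0
    have : flg (cn κ v f0 f0) = 0 := by rw [h]; rfl
    rw [this]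
    have h1 := tr_smul κ 0 (iv κ (frm (cn κ v f0 f0))) 0
    simpa using h1

theorem PP_g (hW : PWin W E κ u f {4} lam x) (k l : ℕ) (i : Fin 4) :
    (PP W E κ u f n k l).g i = coW (κ n) (f n (W.rep n (lk W E n k) k)) (f n (W.rep n l k))
      (Fin.castAdd 14 i) / vv W u n (Fin.castAdd 14 i) := rfl

theorem PP_G (hW : PWin W E κ u f {4} lam x) (k l : ℕ) (q : Fin 14) :
    (PP W E κ u f n k l).G q = -(coW (κ n) (f n (W.rep n l k)) (f n (W.rep n (lk W E n k) k))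
      (Fin.natAdd 4 q) / vv W u n (Fin.natAdd 4 q)) := by
  have h := PP_co (E := E) (κ := κ) (f := f) (n := n) hW k l (lk W E n k) (Fin.natAdd 4 q)
  rw [← h, coW_right]
  obtain ⟨h1, h2⟩ := nf_self (κ n) (hW.ww.hκ n) (vv W u n) (f n (W.rep n (lk W E n k) k))
  have e1 : (PP W E κ u f n k (lk W E n k)).g = 0 := h1
  have e2 : (PP W E κ u f n k (lk W E n k)).G = 0 := h2
  rw [e1, e2, tr_id, zero_sub, Pi.neg_apply, neg_neg]

end

end Crest.Agent.R136.Cr544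
end

-- ▼ part R136/Cre_544

/-!
# R136, specials of the thin pins, rows (helper544), part 5: pairs and evolution in a window
-/

set_option autoImplicit false
set_option linter.unusedSectionVars false
set_option linter.unusedVariables false

open Filter Topology

namespace Crest.Agent.R136.Cr544

open Finset Crest.Agent.R136.NetW191 Crest.Agent.R136.EvW938 Crest.Agent.R136.PrW464
open Crest.Agent.R136.Net191 Crest.Agent.R136.Qg926 Crest.Agent.R136.Pin851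
open Crest.Agent.R136.Gf356
open Crest.Agent.R138.Ex926 (Base U)

theorem mm {x y a b : ℝ} (h1 : |x| ≤ a) (h2 : |y| ≤ b) : |x * y| ≤ a * b := by
  rw [abs_mul]; exact mul_le_mul h1 h2 (abs_nonneg _) ((abs_nonneg _).trans h1)

/-! ### crude bounds -/

/-- a bounded flag -/
structure Bn (κ K : ℝ) (P : FW) : Prop where
  hκ : |κ| ≤ 1
  K1 : 1 ≤ K
  g : ∀ i, |P.g i| ≤ K
  G : ∀ q, |P.G q| ≤ K

section crude

variable {κ K : ℝ} {P : FW} (H : Bn κ K P)

include H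

theorem Bn.K2 : K ≤ K ^ 2 ∧ K ^ 2 ≤ K ^ 4 ∧ K ^ 3 ≤ K ^ 4 ∧ 1 ≤ K ^ 2 := by
  have := H.K1
  refine ⟨by nlinarith, pow_le_pow_right₀ this (by norm_num),
    pow_le_pow_right₀ this (by norm_num), one_le_pow₀ this⟩

theorem Bn.Y : |fY P| ≤ 3 * K := by
  unfold fY
  rw [abs_mul, abs_of_pos (by norm_num : (0:ℝ) < 3)]
  exact mul_le_mul_of_nonneg_left (H.G 2) (by norm_num)

theorem Bn.κ2 : |2 * κ| ≤ 2 := by
  rw [abs_mul, abs_two]; linarith [H.hκ]

theorem Bn.κ4 : |4 * κ| ≤ 4 := by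
  rw [abs_mul, abs_of_pos (by norm_num : (0:ℝ) < 4)]; linarith [H.hκ]

theorem Bn.B : |fB κ P| ≤ 3 * K ^ 2 := by
  unfold fB
  have h1 := mm H.κ2 (mm (H.g 1) (H.g 2))
  have h2 := abs_add_le (P.g 3) (2 * κ * (P.g 1 * P.g 2))
  have h3 := H.g 3
  have h4 := H.K2.1
  nlinarith

theorem Bn.Q : |fQ P| ≤ 6 * K ^ 2 := by
  unfold fQ
  have h1 : |4 * (P.g 2 * P.G 5)| ≤ 4 * (K * K) :=
    mm (by rw [abs_of_pos (by norm_num : (0:ℝ) < 4)]) (mm (H.g 2) (H.G 5))
  have h5 : |2 * P.G 10| ≤ 2 * K := mm (by rw [abs_two]) (H.G 10)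
  have h2 := abs_add_le (2 * P.G 10) (4 * (P.g 2 * P.G 5))
  have h4 := H.K2.1
  nlinarith

theorem Bn.kk : |fK κ P| ≤ 6 * K ^ 2 := by
  unfold fK
  have h1 := mm H.κ4 (mm (H.g 1) (H.G 5))
  have h5 : |2 * P.G 6| ≤ 2 * K := mm (by rw [abs_two]) (H.G 6)
  have h2 := abs_sub (2 * P.G 6) (4 * κ * (P.g 1 * P.G 5))
  have h4 := H.K2.1
  nlinarith

theorem Bn.pp : |fP κ P| ≤ 3 * K ^ 2 := by
  unfold fP
  have h1 := mm H.κ2 (mm (H.g 1) (H.G 10))
  have h2 := abs_sub (P.G 11) (2 * κ * (P.g 1 * P.G 10))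
  have h3 := H.G 11
  have h4 := H.K2.1
  nlinarith

/-- the big row of the positions -/
theorem Bn.pos : |fP κ P + κ * P.g 2 ^ 2 * fY P + P.g 2 * fK κ P + κ * (P.g 1 * fQ P)| ≤
    18 * K ^ 4 := by
  obtain ⟨k1, k2, k3, k4⟩ := H.K2
  have a1 := H.pp
  have a2 : |κ * P.g 2 ^ 2 * fY P| ≤ 1 * (K * K) * (3 * K) := by
    have h := mm (mm H.hκ (mm (H.g 2) (H.g 2))) H.Y
    rwa [← sq] at h
  have a3 := mm (H.g 2) H.kk
  have a4 := mm H.hκ (mm (H.g 1) H.Q)
  have b1 := abs_add_le (fP κ P + κ * P.g 2 ^ 2 * fY P + P.g 2 * fK κ P) (κ * (P.g 1 * fQ P))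
  have b2 := abs_add_le (fP κ P + κ * P.g 2 ^ 2 * fY P) (P.g 2 * fK κ P)
  have b3 := abs_add_le (fP κ P) (κ * P.g 2 ^ 2 * fY P)
  have e1 : 1 * (K * K) * (3 * K) = 3 * K ^ 3 := by ring
  have e2 : K * (6 * K ^ 2) = 6 * K ^ 3 := by ring
  rw [e1] at a2
  rw [e2] at a3 a4
  linarith

/-- the big row of the velocities -/
theorem Bn.vel : |fP κ P + fB κ P * P.G 5| ≤ 18 * K ^ 4 := by
  obtain ⟨k1, k2, k3, k4⟩ := H.K2
  have a1 := H.pp
  have a2 := mm H.B (H.G 5)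
  have b1 := abs_add_le (fP κ P) (fB κ P * P.G 5)
  have e1 : 3 * K ^ 2 * K = 3 * K ^ 3 := by ring
  rw [e1] at a2
  linarith [pow_nonneg (zero_le_one.trans H.K1) 4]

/-- the row of the sheet -/
theorem Bn.sheet : |fK κ P + 4 * κ * P.g 1 * P.G 5 + 2 * κ * P.g 2 * fY P| ≤ 18 * K ^ 4 := by
  obtain ⟨k1, k2, k3, k4⟩ := H.K2
  have a1 := H.kk
  have a2 := mm (mm H.κ4 (H.g 1)) (H.G 5)
  have a3 := mm (mm H.κ2 (H.g 2)) H.Y
  have b1 := abs_add_le (fK κ P + 4 * κ * P.g 1 * P.G 5) (2 * κ * P.g 2 * fY P)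
  have b2 := abs_add_le (fK κ P) (4 * κ * P.g 1 * P.G 5)
  have e1 : 4 * K * K = 4 * K ^ 2 := by ring
  have e2 : 2 * K * (3 * K) = 6 * K ^ 2 := by ring
  rw [e1] at a2
  rw [e2] at a3
  linarith [pow_nonneg (zero_le_one.trans H.K1) 4]

theorem Bn.low : |P.g 2| ≤ 18 * K ^ 4 ∧ |P.G 5| ≤ 18 * K ^ 4 ∧ |fQ P| ≤ 18 * K ^ 4 ∧
    |P.g 1| ≤ 18 * K ^ 4 ∧ |fB κ P| ≤ 18 * K ^ 4 ∧ |fY P| ≤ 18 * K ^ 4 ∧
    |fK κ P| ≤ 18 * K ^ 4 := by
  obtain ⟨k1, k2, k3, k4⟩ := H.K2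
  have := H.K1
  have h1 := H.g 2
  have h2 := H.G 5
  have h3 := H.Q
  have h4 := H.g 1
  have h5 := H.B
  have h6 := H.Y
  have h7 := H.kk
  refine ⟨?_, ?_, ?_, ?_, ?_, ?_, ?_⟩ <;> linarith

end crude

theorem crude2 {a b c : ℝ} (h1 : |a| ≤ c) (h2 : |b| ≤ c) : |a - b| ≤ 2 * c := by
  have := abs_sub a b; linarith

/-! ### the evolution of the slots -/

theorem evoW_flag (κ : ℝ) (a b : Fin 18 → ℝ) (q : Fin 14) :
    evoW κ {0} a b (Fin.natAdd 4 q) = tr κ (sh (a 0)) (flg b) q := by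
  have hq : ∀ q : Fin 14, (Fin.natAdd 4 q : Fin 18) ∉ ({0} : Finset (Fin 18)) := by decide
  have e1 : offS {0} (flg b) = flg b := funext fun q => if_neg (hq q)
  have e2 : onS {0} (flg a) = 0 := funext fun q => if_neg (hq q)
  have e3 : tr κ (frE κ (a 0) b) 0 = 0 := by
    have h1 := tr_smul κ 0 (frE κ (a 0) b) 0
    simpa using h1
  have e4 : evoW κ {0} a b (Fin.natAdd 4 q) =
      (tr κ (sh (a 0)) (offS {0} (flg b)) - tr κ (frE κ (a 0) b) (onS {0} (flg a))) q :=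
    Fin.append_right _ _ _
  rw [e4, e1, e2, e3, sub_zero]

theorem evoW4 (κ : ℝ) (a b : Fin 18 → ℝ) : evoW κ {0} a b 4 = b 4 := by
  have h := evoW_flag κ a b 0
  rw [tr0] at h
  exact h

theorem evoW5 (κ : ℝ) (a b : Fin 18 → ℝ) : evoW κ {0} a b 5 = b 5 + 2 * a 0 * b 4 := by
  have h := evoW_flag κ a b 1
  rw [tr1] at h
  exact h

theorem evoW7 (κ : ℝ) (a b : Fin 18 → ℝ) :
    evoW κ {0} a b 7 = b 7 + a 0 ^ 2 * b 4 + a 0 * b 5 := by
  have h := evoW_flag κ a b 3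
  rw [tr3] at h
  exact h

theorem evoW9 (κ : ℝ) (a b : Fin 18 → ℝ) : evoW κ {0} a b 9 = b 9 + a 0 * b 6 := by
  have h := evoW_flag κ a b 5
  rw [tr_sh5] at h
  exact h

variable {ι : ℕ → Type*} [∀ n, DecidableEq (ι n)]

section

variable {W : Wnd 18 ι} {E : ∀ n, Finset (ι n)} {κ : ℕ → ℝ} {u : ℕ → Fin 18 → ℝ}
  {f : ∀ n, ι n → FW} {lam : (Fin 18 → ℝ) → ℝ} {x : ℝ} {n : ℕ}

theorem evoC4 (hW : PWin W E κ u f {4} lam x) (a b : Fin 18 → ℝ) :
    evoC W κ u n a b 4 = b 4 := by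
  have := (hW.ww.un_pos n 4).ne'
  unfold evoC
  rw [hW.S, evoW4]
  field_simp

theorem evoC5 (hW : PWin W E κ u f {4} lam x) (a b : Fin 18 → ℝ) :
    evoC W κ u n a b 5 = b 5 + 2 * (cfl W u n [0, 4] 5 * (a 0 * b 4)) := by
  have := (hW.ww.un_pos n 5).ne'
  unfold evoC cfl
  rw [hW.S, evoW5]
  simp only [List.map_cons, List.map_nil, List.prod_cons, List.prod_nil, mul_one]
  field_simp

theorem evoC7 (hW : PWin W E κ u f {4} lam x) (a b : Fin 18 → ℝ) :
    evoC W κ u n a b 7 = b 7 + cfl W u n [0, 0, 4] 7 * (a 0 ^ 2 * b 4) +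
      cfl W u n [0, 5] 7 * (a 0 * b 5) := by
  have := (hW.ww.un_pos n 7).ne'
  unfold evoC cfl
  rw [hW.S, evoW7]
  simp only [List.map_cons, List.map_nil, List.prod_cons, List.prod_nil, mul_one]
  field_simp

/-- **the slots `Y², BY, BB` at another height** -/
theorem base_slot (hW : PWin W E κ u f {4} lam x) (g : W.Good n) (hE : E n ⊆ W.Cl n)
    {k k' l l' : ℕ} (h1 : (l, k) ∈ (W.cfg0 n (E n)).I) (h2 : (l, k') ∈ (W.cfg0 n (E n)).I)
    (h3 : (l', k) ∈ (W.cfg0 n (E n)).I) (h4 : (l', k') ∈ (W.cfg0 n (E n)).I) {δ : ℝ}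
    (hδ : W.B'.d n ^ x ≤ δ)
    (hs : ∀ s : Fin 18, s = 4 ∨ s = 5 ∨ s = 7 → |(W.cfg0 n (E n)).rel k l l' s| ≤ δ) :
    ∀ s : Fin 18, s = 4 ∨ s = 5 ∨ s = 7 → |(W.cfg0 n (E n)).rel k' l l' s| ≤ KK W * δ := by
  have hS : ∀ s : Fin 18, s ≠ 0 → s ∉ W.S := fun s h => by rw [hW.S]; simpa using h
  have hδ0 : 0 ≤ δ := (Real.rpow_nonneg (W.B'.pos n).le x).trans hδ
  have ev : ∀ s : Fin 18, s ≠ 0 → |(W.cfg0 n (E n)).rel k' l l' s -
      evoC W κ u n (ownC W n l k k') ((W.cfg0 n (E n)).rel k l l') s| ≤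
      CW W.K0 / W.kap s * δ := fun s h => by
    refine (hW.ww.evo_cfg g hE h1 h2 h3 h4 (t := x) (fun s => (hW.top s).ge) s (hS s h)).trans ?_
    have := (tS_parts hW s).2.2.2.2.1
    have h5 := mul_le_mul_of_nonneg_left hδ this
    refine le_trans (le_of_eq ?_) h5
    ring
  have ha : |ownC W n l k k' 0| ≤ W.K0 / W.kap 0 := hW.ww.own_le g hE h1 h2 0
  have hA0 := (abs_nonneg _).trans ha
  have k1 := KK_ge hW
  have r4 := hs 4 (Or.inl rfl)
  have r5 := hs 5 (Or.inr (Or.inl rfl))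
  have r7 := hs 7 (Or.inr (Or.inr rfl))
  have c5 := hW.ww.cfl_le g (l := [0, 4]) (s := 5) (by decide)
  have c7 := hW.ww.cfl_le g (l := [0, 0, 4]) (s := 7) (by decide)
  have c7' := hW.ww.cfl_le g (l := [0, 5]) (s := 7) (by decide)
  have p5 := hW.ww.cfl_pos n [0, 4] 5
  have p7 := hW.ww.cfl_pos n [0, 0, 4] 7
  have p7' := hW.ww.cfl_pos n [0, 5] 7
  have t5 : |cfl W u n [0, 4] 5 * (ownC W n l k k' 0 * (W.cfg0 n (E n)).rel k l l' 4)| ≤
      ([0, 4].map W.kap).prod / W.kap 5 * (W.K0 / W.kap 0 * δ) :=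
    mm (by rw [abs_of_pos p5]; exact c5) (mm ha r4)
  have t7 : |cfl W u n [0, 0, 4] 7 * (ownC W n l k k' 0 ^ 2 *
      (W.cfg0 n (E n)).rel k l l' 4)| ≤
      ([0, 0, 4].map W.kap).prod / W.kap 7 * ((W.K0 / W.kap 0) ^ 2 * δ) := by
    refine mm (by rw [abs_of_pos p7]; exact c7) (mm ?_ r4)
    rw [abs_pow]
    exact pow_le_pow_left₀ (abs_nonneg _) ha 2
  have t7' : |cfl W u n [0, 5] 7 * (ownC W n l k k' 0 * (W.cfg0 n (E n)).rel k l l' 5)| ≤
      ([0, 5].map W.kap).prod / W.kap 7 * (W.K0 / W.kap 0 * δ) :=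
    mm (by rw [abs_of_pos p7']; exact c7') (mm ha r5)
  have e1 : 2 * (([0, 4].map W.kap).prod / W.kap 5 * (W.K0 / W.kap 0 * δ)) +
      ([0, 0, 4].map W.kap).prod / W.kap 7 * ((W.K0 / W.kap 0) ^ 2 * δ) +
      ([0, 5].map W.kap).prod / W.kap 7 * (W.K0 / W.kap 0 * δ) = kB W * δ := by
    unfold kB; ring
  have a5 := (abs_nonneg _).trans t5
  have a7 := (abs_nonneg _).trans t7
  have a7' := (abs_nonneg _).trans t7'
  have hB : 0 ≤ kB W * δ := mul_nonneg (kB_nonneg hW) hδ0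
  have fin : ∀ s : Fin 18, (1 + kB W + CW W.K0 / W.kap s) * δ ≤ KK W * δ := fun s =>
    mul_le_mul_of_nonneg_right (k1 s).2.2.2.2.2.2 hδ0
  rintro s (rfl | rfl | rfl)
  · have h := ev 4 (by decide)
    rw [evoC4 hW] at h
    have h5 := abs_add_le ((W.cfg0 n (E n)).rel k' l l' 4 - (W.cfg0 n (E n)).rel k l l' 4)
      ((W.cfg0 n (E n)).rel k l l' 4)
    rw [sub_add_cancel] at h5
    have := fin 4
    linarith
  · have h := ev 5 (by decide)
    rw [evoC5 hW] at h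
    have h5 := abs_add_le ((W.cfg0 n (E n)).rel k' l l' 5 - ((W.cfg0 n (E n)).rel k l l' 5 +
      2 * (cfl W u n [0, 4] 5 * (ownC W n l k k' 0 * (W.cfg0 n (E n)).rel k l l' 4))))
      ((W.cfg0 n (E n)).rel k l l' 5 +
      2 * (cfl W u n [0, 4] 5 * (ownC W n l k k' 0 * (W.cfg0 n (E n)).rel k l l' 4)))
    rw [sub_add_cancel] at h5
    have h6 := abs_add_le ((W.cfg0 n (E n)).rel k l l' 5)
      (2 * (cfl W u n [0, 4] 5 * (ownC W n l k k' 0 * (W.cfg0 n (E n)).rel k l l' 4)))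
    rw [abs_mul 2, abs_two] at h6
    have := fin 5
    linarith
  · have h := ev 7 (by decide)
    rw [evoC7 hW] at h
    have h5 := abs_add_le ((W.cfg0 n (E n)).rel k' l l' 7 - ((W.cfg0 n (E n)).rel k l l' 7 +
      cfl W u n [0, 0, 4] 7 * (ownC W n l k k' 0 ^ 2 * (W.cfg0 n (E n)).rel k l l' 4) +
      cfl W u n [0, 5] 7 * (ownC W n l k k' 0 * (W.cfg0 n (E n)).rel k l l' 5)))
      ((W.cfg0 n (E n)).rel k l l' 7 +
      cfl W u n [0, 0, 4] 7 * (ownC W n l k k' 0 ^ 2 * (W.cfg0 n (E n)).rel k l l' 4) +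
      cfl W u n [0, 5] 7 * (ownC W n l k k' 0 * (W.cfg0 n (E n)).rel k l l' 5))
    rw [sub_add_cancel] at h5
    have h6 := abs_add_le ((W.cfg0 n (E n)).rel k l l' 7 +
      cfl W u n [0, 0, 4] 7 * (ownC W n l k k' 0 ^ 2 * (W.cfg0 n (E n)).rel k l l' 4))
      (cfl W u n [0, 5] 7 * (ownC W n l k k' 0 * (W.cfg0 n (E n)).rel k l l' 5))
    have h7 := abs_add_le ((W.cfg0 n (E n)).rel k l l' 7)
      (cfl W u n [0, 0, 4] 7 * (ownC W n l k k' 0 ^ 2 * (W.cfg0 n (E n)).rel k l l' 4))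
    have := fin 7
    linarith

/-- bounds of the flags -/
theorem PP_bn (hW : PWin W E κ u f {4} lam x) (g : W.Good n) (hE : E n ⊆ W.Cl n) {k l : ℕ}
    (hl : (l, k) ∈ (W.cfg0 n (E n)).I) : Bn (κ n) (KK W) (PP W E κ u f n k l) := by
  have h1 := (Wnd.rep_of_mem hE hl).1
  have h2 := (Wnd.rep_of_mem hE (lk_mem hl)).1
  refine ⟨hW.ww.hκ n, by linarith [(KK_ge hW 0).1], fun i => ?_, fun q => ?_⟩
  · rw [PP_g hW]
    exact co_bd hW g h2 h1 _
  · rw [PP_G hW, abs_neg]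
    exact co_bd hW g h1 h2 _

theorem PP_g0 (hW : PWin W E κ u f {4} lam x) (g : W.Good n) (hE : E n ⊆ W.Cl n) {k l : ℕ}
    (hl : (l, k) ∈ (W.cfg0 n (E n)).I) :
    |(PP W E κ u f n k l).g 0| ≤ KK W * W.B'.d n ^ x := by
  have h1 := Wnd.rep_of_mem hE hl
  have h2 := Wnd.rep_of_mem hE (lk_mem hl)
  have e : (PP W E κ u f n k l).g 0 = W.crd n (W.rep n (lk W E n k) k) (W.rep n l k) 0 :=
    co_zero hW g h2.1 h1.1
  rw [e]
  have h0 : (0 : Fin 18) ∈ W.S := by rw [hW.S]; exact mem_singleton_self _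
  refine (hW.ww.crd_lev g h2.1 h1.1 (h2.2.2.trans h1.2.2.symm) h0 (t := x) (hW.top 0).ge).trans ?_
  have hp := Real.rpow_nonneg (W.B'.pos n).le x
  have h3 : W.K0 / W.kap 0 ≤ KK W := by
    have := (KK_ge hW 0).2.2.2.2.2.1
    have h6 := (tS_parts hW 0).2.2.2.2.2
    linarith
  have h4 := mul_le_mul_of_nonneg_right h3 hp
  refine le_trans (le_of_eq ?_) h4
  ring

/-- slots of a pair -/
theorem pair_slot (hW : PWin W E κ u f {4} lam x) (g : W.Good n) (hE : E n ⊆ W.Cl n)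
    {k l l' : ℕ} (hl : (l, k) ∈ (W.cfg0 n (E n)).I) (hl' : (l', k) ∈ (W.cfg0 n (E n)).I)
    {s : Fin 18} (hs : s ≠ 0) :
    |coW (κ n) (PP W E κ u f n k l) (PP W E κ u f n k l') s| ≤
      KK W * |(W.cfg0 n (E n)).rel k l l' s| := by
  rw [PP_co hW, hW.ww.rel_eq l l' k (by rw [hW.S]; simpa using hs)]
  exact co_crd hW g (Wnd.rep_of_mem hE hl).1 (Wnd.rep_of_mem hE hl').1 s

theorem slot_pair (hW : PWin W E κ u f {4} lam x) (g : W.Good n) (hE : E n ⊆ W.Cl n)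
    {k l l' : ℕ} (hl : (l, k) ∈ (W.cfg0 n (E n)).I) (hl' : (l', k) ∈ (W.cfg0 n (E n)).I)
    {s : Fin 18} (hs : s ≠ 0) (hs4 : s ≠ 4) :
    |(W.cfg0 n (E n)).rel k l l' s| ≤
      KK W * |coW (κ n) (PP W E κ u f n k l) (PP W E κ u f n k l') s| := by
  rw [PP_co hW, hW.ww.rel_eq l l' k (by rw [hW.S]; simpa using hs)]
  exact crd_co hW g (Wnd.rep_of_mem hE hl).1 (Wnd.rep_of_mem hE hl').1 hs4

/-- **evolution of a pair** -/
theorem evo_pp (hW : PWin W E κ u f {4} lam x) (g : W.Good n) (hE : E n ⊆ W.Cl n)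
    {k k' l l' : ℕ} (h1 : (l, k) ∈ (W.cfg0 n (E n)).I) (h2 : (l, k') ∈ (W.cfg0 n (E n)).I)
    (h3 : (l', k) ∈ (W.cfg0 n (E n)).I) (h4 : (l', k') ∈ (W.cfg0 n (E n)).I) :
    |coW (κ n) (PP W E κ u f n k' l) (PP W E κ u f n k' l') 1 -
      coW (κ n) (PP W E κ u f n k l) (PP W E κ u f n k l') 1| ≤ KK W * W.B'.d n ^ x ∧
    |coW (κ n) (PP W E κ u f n k' l) (PP W E κ u f n k' l') 2 -
      (coW (κ n) (PP W E κ u f n k l) (PP W E κ u f n k l') 2 + ownC W n l k k' 0 *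
        coW (κ n) (PP W E κ u f n k l) (PP W E κ u f n k l') 1)| ≤ KK W * W.B'.d n ^ x ∧
    |coW (κ n) (PP W E κ u f n k' l) (PP W E κ u f n k' l') 9 -
      (coW (κ n) (PP W E κ u f n k l) (PP W E κ u f n k l') 9 + ownC W n l k k' 0 *
        coW (κ n) (PP W E κ u f n k l) (PP W E κ u f n k l') 6)| ≤ KK W * W.B'.d n ^ x := by
  obtain ⟨a1, a2, a3⟩ := Wnd.rep_of_mem hE h1
  obtain ⟨b1, b2, b3⟩ := Wnd.rep_of_mem hE h2
  obtain ⟨c1, c2, c3⟩ := Wnd.rep_of_mem hE h3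
  obtain ⟨d1, d2, d3⟩ := Wnd.rep_of_mem hE h4
  have hp := Real.rpow_nonneg (W.B'.pos n).le x
  have hv := gru_v hW n
  have ev : ∀ s : Fin 18, s ≠ 0 → |(coW (κ n) (f n (W.rep n l k')) (f n (W.rep n l' k')) s -
      evoW (κ n) {0} (coW (κ n) (f n (W.rep n l k)) (f n (W.rep n l k')))
        (coW (κ n) (f n (W.rep n l k)) (f n (W.rep n l' k))) s) / vv W u n s| ≤
      KK W * W.B'.d n ^ x := by
    intro s hs
    have h5 := hW.ww.evoR g a1 b1 c1 d1 (a2.trans b2.symm) (c2.trans d2.symm)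
      (a3.trans c3.symm) (b3.trans d3.symm) (t := x) (fun s => (hW.top s).ge) s
      (by rw [hW.S]; simpa using hs)
    rw [hW.S] at h5
    have hC : 0 ≤ CW W.K0 := by
      have := hW.ww.ok.K0_one
      unfold CW; positivity
    refine (to_v hW g h5 (mul_nonneg hC hp)).trans ?_
    have h6 := mul_le_mul_of_nonneg_right (KK_ge hW s).2.2.2.2.1 hp
    refine le_trans (le_of_eq ?_) h6
    ring
  have e0 : ownC W n l k k' 0 = coW (κ n) (f n (W.rep n l k)) (f n (W.rep n l k')) 0 /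
      vv W u n 0 := (co_zero hW g a1 b1).symm
  have v2 := GrU.w2 hv
  have v9 : vv W u n 9 = vv W u n 0 * vv W u n 6 := by
    have := hv.mul 9 [0, 6] (by decide)
    simpa using this.symm
  have p0 := (hv.pos 0).ne'
  have p1 := (hv.pos 1).ne'
  have p6 := (hv.pos 6).ne'
  simp only [PP_co hW]
  refine ⟨?_, ?_, ?_⟩
  · have h := ev 1 (by decide)
    rw [evoW1, sub_div] at h
    exact h
  · have h := ev 2 (by decide)
    rw [evoW2] at h
    refine le_trans (le_of_eq ?_) h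
    congr 1
    rw [e0, v2]
    field_simp
  · have h := ev 9 (by decide)
    rw [evoW9] at h
    refine le_trans (le_of_eq ?_) h
    congr 1
    rw [e0, v9]
    field_simp

end

end Crest.Agent.R136.Cr544
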