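import Crest.Agent.R136.AwJ_774
import Crest.Agent.R136.AwZ_146
import Crest.Agent.R136.ExtZ_779
import Crest.Agent.R136.LadG1_697

-- ▼ part R136/AwK_146
section

/-!
# R136 (helper146): the ladder over an outer window (after a gauge step)

* `SrcZ` : 774's `Src` over an outer window `ZWin` at tight base points.
* **`aewZ_of_jt`** : joint tangent of the window profile + splitting ⊢ `AeW B B₁ ..`.
* **`flemA_of_aewZ`**, `flem_of_aewZ` : F-halves over `AeW B B₁ ..` are inputs of the rungs.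
* `ownF_of_ext`, `prf_of_ext`, **`SrcZ.of_ext`** : everything from 779's `ExtZ`.
-/

set_option autoImplicit false
set_option linter.unusedSectionVars false
set_option linter.unusedVariables false

open Filter Topology

namespace Crest.Agent.R136.AwK146

open Finset Crest.Agent.R138.Ex926 Crest.Agent.R136.Net191 Crest.Agent.R136.Gf356
open Crest.Agent.R136.Qg926 Crest.Agent.R136.Dg219 Crest.Agent.R136.Aw413
open Crest.Agent.R136.Rc146 (OutA)
open Crest.Agent.R136.Dg262 (X)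
open Crest.Agent.R136.K2S774 (cn Prf JT Stage RecD RungD BaseOk FLem)
open Crest.Agent.R136.K2A146 (FLemA)
open Crest.Agent.R136.AwJ774 Crest.Agent.R136.AwZ146

variable {m : ℕ} {ι : ℕ → Type} [∀ n, DecidableEq (ι n)] [∀ n, Nonempty (ι n)]
  {B B₁ : Base} {I J : ∀ n, Finset (ι n)} {co : ∀ n, ι n → ι n → Fin m → ℝ}
  {M Mw : Mons m} {C R : ℝ} {Xo : ℕ → Fin m → ℝ} {wx : ℕ → ℝ} {Tz : ℕ → ℝ}
  {ν own lam lo lam' lo' : (Fin m → ℝ) → ℝ} {r0 T : Fin m → ℝ} {x : ℕ → Fin m → ℝ}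
  {h : ℕ → ℝ} {Tie : Set (Fin m)} {kz : Fin m} {w0 s : ℝ} {κ : Fin m → ℝ}
  {ow : ℝ → Fin m → ℝ} {T0 Tw : Fin m → Prop} {a b : Fin m → ℝ} {AA : ℝ × ℝ}
  {φ : ℕ → (Fin m → ℝ) → ℝ} {rt : ℕ → ℝ} {A : Wt Mw → Prop}

/-- **what the window wrapper needs to know**, over an outer window with base points `Xo n`, scale
`wx n`, kept walls `Mw` (all tight at `Xo n`) -/
structure SrcZ (B B₁ : Base) (I J : ∀ n, Finset (ι n)) (co : ∀ n, ι n → ι n → Fin m → ℝ)
    (M Mw : Mons m) (C R : ℝ) (Xo : ℕ → Fin m → ℝ) (wx Tz : ℕ → ℝ) (kz : Fin m) (w0 s : ℝ)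
    (ow : ℝ → Fin m → ℝ) (T0 : Fin m → Prop) (ν own : (Fin m → ℝ) → ℝ) (Tie : Set (Fin m))
    (κ r0 : Fin m → ℝ) : Prop where
  win : ZWin B B₁ I J co M C Xo wx (Leg Mw R) Tz ν
  R0 : 0 ≤ R
  pos : BasX M Mw Mw Xo wx
  ownF : OwnF Mw R kz w0 s ow T0 ν own
  path : OwnPath ow kz w0 R (· ∈ Tie) κ
  rpos : ∀ k, 0 < r0 k
  ownR : OwnR kz w0 ow Tie r0

theorem BasX.mono {Ma : Mons m} (H : BasX M Mw Mw Xo wx) (hM : ∀ k, Ma.mon k ⊆ Mw.mon k) :
    BasX M Mw Ma Xo wx where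
  sub := fun k e he => H.sub k (hM k he)
  act := fun k e he n => H.act k e (hM k he) n
  gap := H.gap

/-- **`AeW` at the base points of a joint tangent of a window profile** -/
theorem aewZ_of_jt (S : SrcZ B B₁ I J co M Mw C R Xo wx Tz kz w0 s ow T0 ν own Tie κ r0)
    (hJ : JT (mw Mw) A (Leg Mw R) ν own r0 x h lam' lo')
    (hB : BaseOk Tie kz κ T r0 x h) (hT : ∀ i ∈ Tie, κ i * T kz ≤ T i)
    (hTw : ∀ k, Tw k → T0 k ∧ locT Tie kz κ T k) (hTkz : ¬ Tw kz)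
    (out : OutS (gC a b) (cn (mw Mw) A) (dhC a b) (nC a b) lam' AA φ rt) :
    AeW B B₁ I J co M (mA Mw A) C lam' a b AA φ rt kz (1 - s) κ (locT Tie kz κ T) Tw := by
  have hBas := bas_of_jt hJ S.rpos
  have hO := ownB_of_jt hJ hB S.path S.ownR hT hTw
  have ht := hJ.tan
  rw [← coneM_mA] at ht out
  exact aewZ_core S.win S.R0 (BasX.mono S.pos mA_sub) hBas ht out
    (own_tan S.ownF S.path hO hJ.zero hJ.pos ht) hTkz
    fun c hc c' hc' hcc hV hkz hk => drop_tan S.ownF S.path hO hJ.zero hJ.pos ht hc hc' hcc hV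
      hkz hk



end Crest.Agent.R136.AwK146

namespace Crest.Agent.R136.AwK146

open Finset Crest.Agent.R138.Ex926 Crest.Agent.R136.Net191 Crest.Agent.R136.Gf356
open Crest.Agent.R136.Qg926 Crest.Agent.R136.Dg219 Crest.Agent.R136.Aw413
open Crest.Agent.R136.K2S774 (Prf)
open Crest.Agent.R136.AwJ774 Crest.Agent.R136.AwZ146

section ext

variable {m : ℕ} {B B' : Base} {I0 I : ℕ → Finset (ℕ × ℝ)}
  {co : ∀ n : ℕ, ℕ × ℝ → ℕ × ℝ → Fin m → ℝ} {M : Mons m} {C : ℝ} {Xo : ℕ → Fin m → ℝ}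
  {w : ℕ → ℝ} {Mw : Mons m} {R : ℝ} {Tn To : ℕ → ℝ} {kz : Fin m} {w0 s : ℝ}
  {PD : Set (Fin m → ℝ)} {D : (Fin m → ℝ) → ℝ} {r o : ℝ → Fin m → ℝ} {E : ℝ → ℝ}
  {T : Fin m → Prop} {ν own : (Fin m → ℝ) → ℝ} {c₀ : ℝ}

theorem ownF_of_ext (H : Zpr779.ExtZ B B' I0 I co M C Xo w Mw R Tn To kz w0 s PD D r o E T ν own c₀) :
    OwnF Mw R kz w0 s o T ν own where
  s0 := H.s0
  s1 := H.s1
  own_le := H.own_le
  own_rot := H.own_rot
  own_up := H.own_up
  own_tw := H.own_tw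


/-- **the ladder over an extremal window** -/
theorem SrcZ.of_ext
    (H : Zpr779.ExtZ B B' I0 I co M C Xo w Mw R Tn To kz w0 s PD D r o E T ν own c₀)
    (hX : BasX M Mw Mw Xo w) {Tie : Set (Fin m)} {κ r0 : Fin m → ℝ}
    (hP : OwnPath o kz w0 R (· ∈ Tie) κ) (hr : ∀ k, 0 < r0 k) (hO : OwnR kz w0 o Tie r0) :
    SrcZ B B' I0 I co M Mw C R Xo w Tn kz w0 s o T ν own Tie κ r0 where
  win := H.win
  R0 := H.R0
  pos := hX
  ownF := ownF_of_ext H
  path := hP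
  rpos := hr
  ownR := hO

end ext

end Crest.Agent.R136.AwK146
end

-- ▼ part R136/CtxZ_830

/-!
# R136, thin branch (helper830): the context of a `ZW`

* `srcZ_of_zw` : 146's source over an outer window
* **`seamCtx`** : `SeamCtx` of 697
-/

set_option autoImplicit false
set_option linter.unusedVariables false

open Finset Filter Topology

namespace Crest.Agent.R136.CtxZ830

open Crest.Agent.R138.Ex926
open Crest.Agent.R136.Net191
open Crest.Agent.R136.NetW191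
open Crest.Agent.R136.PrW464
open Crest.Agent.R136.NatW697
open Crest.Agent.R136.LadW697
open Crest.Agent.R136.Lq196
open Crest.Agent.R136.Top484
open Crest.Agent.R136.NatT550
open Crest.Agent.R136.ThS830
open Crest.Agent.R136.Zpr779
open Crest.Agent.R136.EvW938
open Crest.Agent.R136.Qg926
open Crest.Agent.R136.Aw413
open Crest.Agent.R136.AwJ774
open Crest.Agent.R136.AwK146
open Crest.Agent.R136.LadG697

variable {θ : Fin 3 → ℝ} {g : ℝ} {q : Fin 3 → ℝ} {V T : Set (Fin 18)} {w0 R T0 : ℝ}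
  {B B' : Base} {I0 I : ℕ → Finset (ℕ × ℝ)} {κ : ℕ → ℝ} {u : ℕ → Fin 18 → ℝ}
  {F : ℕ → ℕ × ℝ → FW} {X : ℕ → Fin 18 → ℝ} {w : ℕ → ℝ} {Tn To : ℕ → ℝ}
  {PD : Set (Fin 18 → ℝ)} {ν own : (Fin 18 → ℝ) → ℝ} {c₀ : ℝ}

/-- **the source of the ladder over a `ZW`** -/
theorem srcZ_of_zw (H : ZW θ g q V T w0 R T0 B B' I0 I κ u F X w Tn To PD ν own c₀) {v1 : ℝ}
    (h0 : 0 < v1) (h1 : v1 < 1) :
    SrcZ B B' I0 I (coU u κ F) monW monW 67 R X w Tn 0 w0 0 (ownW θ w0 R fun k => k ∈ V)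
      (fun k => k ∈ T) ν own V (btW θ) (pathW θ w0 v1) := by
  have hne : ∀ k, k ∈ V → k ≠ 0 := fun k hk hk0 => by
    have := (H.vis k hk).1.1
    rw [hk0] at this; exact absurd this (by decide)
  have hrp : ∀ k, 0 < pathW θ w0 v1 k :=
    fun k => lt_of_lt_of_le one_pos (H.big.path_ge h0.le h1.le k)
  refine SrcZ.of_ext H.ext H.bas (ownPathW θ w0 R (fun k => k ∈ V) hne) hrp ?_
  have e : pathW θ w0 v1 0 - w0 = v1 := by rw [path_zero]; ring
  refine ⟨by rw [e]; exact h0, by rw [e]; exact h1, fun k hk => ?_⟩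
  rw [e]
  simp only [ownW, if_neg (hne k hk), if_pos hk]

/-- **context of a `ZW`** -/
theorem seamCtx : SeamCtx := by
  intro θ g q V T w0 R T0 B B' I0 I κ u F X w Tn To PD ν own c₀ H hS v1 h0 h1
  have S := srcZ_of_zw H h0 h1
  refine ⟨H.th1, H.q1, H.q2, H.q0, H.qg, H.qθ, hS, B, B', I0, I, coU u κ F, 67, κ, u, F,
    fun n i j k => rfl, H.u0, H.κ1, H.κ0, H.ext.win.ne, ?_⟩
  intro A x' h' lam' lo' Tr a b AA φ rt Tw hJ hB hT hTw hTk out
  have := aewZ_of_jt S hJ hB hT hTw hTk out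
  rwa [sub_zero] at this

end Crest.Agent.R136.CtxZ830
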