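import Crest.Agent.R136.Qd5_329

-- ▼ part R136/Qd6_329
section

/-!
# R136: the bilinear rigidity (helper329), part 6: one height of an `RUnif`

`QRow` = rows of the sheet at one height (position boxes, velocity boxes, constancy of the
bilinear form), `QProf` = the five facts about the profile.  `quad_one` : affine positions and
quadratic velocities on a `ρ^ε`-part of the lines alive at one height.
-/

set_option autoImplicit false

open Filter Topology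

namespace Crest.Agent.R136.Qd329

open Finset
open Crest.Agent.R138.Ex926 (Base U)
open Crest.Agent.R136.Gf356

variable {κ : Type}

/-- rows of the bilinear pair positions / velocities at one height -/
structure QRow (B : Base) (G : ℕ → RCfg κ) (x M C : ℝ) (p0 pA pp pv pP vP : κ → ℝ)
    (pc : ℝ → κ → ℝ) (a b c s β ζ Z Φ : ℕ → ℕ → ℕ → ℝ) (kp : ℕ → ℝ) : Prop where
  x0 : 0 < x
  M1 : 1 ≤ M
  C1 : 1 ≤ C
  kp1 : ∀ n, |kp n| ≤ 1
  kpl : ∀ ε : ℝ, 0 < ε → ∀ᶠ n in (U : Filter ℕ), B.d n ^ ε ≤ |kp n|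
  bd : ∀ᶠ n in (U : Filter ℕ), ∀ k l, (l, k) ∈ (G n).I → |a n k l| ≤ M ∧ |b n k l| ≤ M ∧
    |c n k l| ≤ M ∧ |s n k l| ≤ M ∧ |β n k l| ≤ M ∧ |ζ n k l| ≤ M ∧ |Z n k l| ≤ M
  pcl : ∀ ε : ℝ, 0 < ε → ∀ᶠ n in (U : Filter ℕ), ∀ k l l', (l, k) ∈ (G n).I →
    (l', k) ∈ (G n).I → (G n).loose pp ε k l l' →
      |a n k l - a n k l'| ≤ B.d n ^ (x - C * ε) ∧ |b n k l - b n k l'| ≤ B.d n ^ (x - C * ε) ∧
      |s n k l - s n k l'| ≤ B.d n ^ (x - C * ε) ∧ |β n k l - β n k l'| ≤ B.d n ^ (x - C * ε)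
  vcl : ∀ ε : ℝ, 0 < ε → ∀ᶠ n in (U : Filter ℕ), ∀ k l l', (l, k) ∈ (G n).I →
    (l', k) ∈ (G n).I → (G n).loose pv ε k l l' →
      |c n k l - c n k l'| ≤ B.d n ^ (x - C * ε) ∧ |ζ n k l - ζ n k l'| ≤ B.d n ^ (x - C * ε) ∧
      |Z n k l - Z n k l'| ≤ B.d n ^ (x - C * ε)
  pPr : ∀ ε : ℝ, 0 < ε → ∀ᶠ n in (U : Filter ℕ), ∀ k l l', (l, k) ∈ (G n).I →
    (l', k) ∈ (G n).I → (G n).loose pP ε k l l' →
      |(Φ n k l - c n k l * s n k l + kp n * c n k l ^ 2 * β n k l) -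
        (Φ n k l' - c n k l' * s n k l' + kp n * c n k l' ^ 2 * β n k l')| ≤ B.d n ^ (x - C * ε)
  vPr : ∀ ε : ℝ, 0 < ε → ∀ᶠ n in (U : Filter ℕ), ∀ k l l', (l, k) ∈ (G n).I →
    (l', k) ∈ (G n).I → (G n).loose vP ε k l l' →
      |(Φ n k l - ζ n k l * b n k l - Z n k l * a n k l) -
        (Φ n k l' - ζ n k l' * b n k l' - Z n k l' * a n k l')| ≤ B.d n ^ (x - C * ε)
  all : ∀ ε : ℝ, 0 < ε → ∀ᶠ n in (U : Filter ℕ), ∀ k l l', (l, k) ∈ (G n).I →
    (l', k) ∈ (G n).I → (G n).loose p0 ε k l l'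
  acl : ∀ ε : ℝ, 0 < ε → ∀ᶠ n in (U : Filter ℕ), ∀ k l l', (l, k) ∈ (G n).I →
    (l', k) ∈ (G n).I → |a n k l' - a n k l| ≤ B.d n ^ x → |b n k l' - b n k l| ≤ B.d n ^ x →
      (G n).loose pA ε k l l'
  ccl : ∀ y : ℝ, 0 ≤ y → y ≤ x → ∀ ε : ℝ, 0 < ε → ∀ᶠ n in (U : Filter ℕ), ∀ k l l',
    (l, k) ∈ (G n).I → (l', k) ∈ (G n).I → |c n k l' - c n k l| ≤ B.d n ^ y →
      (G n).loose (pc y) ε k l l'

/-- the five facts about the profile -/
structure QProf (Leg : Set (κ → ℝ)) (ν : (κ → ℝ) → ℝ) (x m : ℝ)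
    (p0 pA pp pv ppv pP vP : κ → ℝ) (pc : ℝ → κ → ℝ) : Prop where
  m0 : 0 < m
  l0 : p0 ∈ Leg
  lA : pA ∈ Leg
  lp : pp ∈ Leg
  lv : pv ∈ Leg
  lpv : ppv ∈ Leg
  lpP : pP ∈ Leg
  lvP : vP ∈ Leg
  lc : ∀ y, 0 ≤ y → y ≤ x → pc y ∈ Leg
  por : ∀ j, ppv j = pp j ∨ ppv j = pv j
  pge : ∀ j, pp j ≤ pP j
  vge : ∀ j, pv j ≤ vP j
  H1 : ν pp ≤ ν pP
  H2 : ν pv ≤ ν vP
  H3 : ν p0 + ν ppv ≤ ν pp + ν pv
  H4 : 2 * x ≤ ν p0 - ν pA
  H5 : ∀ y, 0 ≤ y → y ≤ x → m * y ≤ ν p0 - ν (pc y)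

/-- affine positions, quadratic velocities -/
def QRel (kp l1 l2 m1 m2 e : ℝ) (a b c s β ζ Z : ℕ → ℝ) (l l' : ℕ) : Prop :=
  |(s l - s l') - l1 * (b l - b l') - l2 * (a l - a l')| ≤ e ∧
  |(β l - β l') - m1 * (b l - b l') - m2 * (a l - a l')| ≤ e ∧
  |(ζ l - ζ l') - l1 * (c l - c l') + kp * m1 * (c l ^ 2 - c l' ^ 2)| ≤ e ∧
  |(Z l - Z l') - l2 * (c l - c l') + kp * m2 * (c l ^ 2 - c l' ^ 2)| ≤ e

section

variable {B : Base} {G : ℕ → RCfg κ} {Leg : Set (κ → ℝ)} {ν : (κ → ℝ) → ℝ} {D x M C m : ℝ}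
  {p0 pA pp pv ppv pP vP : κ → ℝ} {pc : ℝ → κ → ℝ} {a b c s β ζ Z Φ : ℕ → ℕ → ℕ → ℝ} {kp : ℕ → ℝ}

/-- **cells and dense part** -/
theorem cells (H : RUnif B G Leg ν D) (Q : QRow B G x M C p0 pA pp pv pP vP pc a b c s β ζ Z Φ kp)
    (P : QProf Leg ν x m p0 pA pp pv ppv pP vP pc) {ε : ℝ} (hε : 0 < ε) :
    ∀ᶠ n in (U : Filter ℕ), ∀ k, ((G n).slice k).Nonempty → ∃ lp lv : ℕ → ℕ,
      ∃ L ⊆ (G n).slice k,
      B.d n ^ (4 * D ^ 7 * ε) * (((G n).slice k).card : ℝ) ≤ L.card ∧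
      (∀ l ∈ L, ∀ l' ∈ L, lp l = lp l' → (G n).loose pP (D ^ 10 * ε) k l l') ∧
      (∀ l ∈ L, ∀ l' ∈ L, lv l = lv l' → (G n).loose vP (D ^ 10 * ε) k l l') ∧
      (∀ t ∈ (G n).slice k, lp t ∈ (G n).slice k ∧ (G n).loose pp (D ^ 3 * ε) k (lp t) t) ∧
      (∀ t ∈ (G n).slice k, lv t ∈ (G n).slice k ∧ (G n).loose pv (D ^ 3 * ε) k (lv t) t) ∧
      (∀ A ⊆ ((G n).slice k).image lp, (A.card : ℝ) * B.d n ^ (-ν pp + ε) ≤
        (((A.biUnion fun e => (G n).box pp ε e k)).card : ℝ)) ∧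
      (∀ A ⊆ ((G n).slice k).image lv, (A.card : ℝ) * B.d n ^ (-ν pv + ε) ≤
        (((A.biUnion fun e => (G n).box pv ε e k)).card : ℝ)) ∧
      B.d n ^ (-ν p0 + ν pp + 2 * D ^ 6 * ε) ≤ ((((G n).slice k).image lp).card : ℝ) ∧
      B.d n ^ (-ν p0 + ν pv + 2 * D ^ 6 * ε) ≤ ((((G n).slice k).image lv).card : ℝ) ∧
      (∀ e f, ((L.filter fun l => lp l = e ∧ lv l = f).card : ℝ) ≤
        B.d n ^ (-ν ppv - D ^ 6 * ε)) ∧
      B.d n ^ (8 * D ^ 7 * ε) * B.d n ^ (-ν ppv - D ^ 6 * ε) * (((G n).slice k).image lp).card *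
        (((G n).slice k).image lv).card ≤ L.card := by
  classical
  have hD := H.D1
  have hD0 : 0 < D := by linarith
  have h5 : 0 < D ^ 5 * ε := by positivity
  filter_upwards [net_facts H p0 pp P.l0 P.lp Q.all hε, net_facts H p0 pv P.l0 P.lv Q.all hε,
    popular H pp pP P.lp P.lpP P.pge h5, popular H pv vP P.lv P.lvP P.vge h5,
    H.up ppv P.lpv _ h5, H.up p0 P.l0 ε hε, Q.all ε hε] with
    n np nv qp qv hup hup0 hall k hne
  obtain ⟨lp, a1, a2, a3, a4, a5⟩ := np k hne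
  obtain ⟨lv, b1, b2, b3, b4, b5⟩ := nv k hne
  have hpos : ∀ t : ℝ, 0 < B.d n ^ t := fun t => rpos B n t
  have hp1 : ∀ j : ℕ, 1 ≤ D ^ j := fun j => one_le_pow₀ hD
  obtain ⟨T1, hT1, c1, d1⟩ := qp k _ (Subset.refl _) lp a2
  obtain ⟨T2, hT2, c2, d2⟩ := qv k T1 hT1 lv fun t ht t' ht' => b2 t (hT1 ht) t' (hT1 ht')
  have e10 : D ^ 5 * (D ^ 5 * ε) = D ^ 10 * ε := by ring
  rw [e10] at d1 d2
  have e7 : 2 * ((D ^ 2 + 1) * (D ^ 5 * ε)) ≤ 4 * D ^ 7 * ε := by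
    have : (D ^ 2 + 1) * D ^ 5 ≤ 2 * D ^ 7 := by
      have h2 : D ^ 5 ≤ D ^ 7 := pow_le_pow_right₀ hD (by norm_num)
      nlinarith
    nlinarith
  have hdens : B.d n ^ (4 * D ^ 7 * ε) * (((G n).slice k).card : ℝ) ≤ T2.card := by
    have f1 : B.d n ^ ((D ^ 2 + 1) * (D ^ 5 * ε)) * (((G n).slice k).card : ℝ) ≤ T1.card := by
      refine le_trans (mul_le_mul_of_nonneg_right (rpow_anti B n ?_) (Nat.cast_nonneg _)) c1
      linarith [P.H1]
    have f2 : B.d n ^ ((D ^ 2 + 1) * (D ^ 5 * ε)) * (T1.card : ℝ) ≤ T2.card := by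
      refine le_trans (mul_le_mul_of_nonneg_right (rpow_anti B n ?_) (Nat.cast_nonneg _)) c2
      linarith [P.H2]
    refine le_trans ?_ ((mul_le_mul_of_nonneg_left f1 (hpos _).le).trans f2)
    rw [← mul_assoc, ← rpow_add']
    refine mul_le_mul_of_nonneg_right (rpow_anti B n ?_) (Nat.cast_nonneg _)
    linarith
  have h66 : (D ^ 6 + 1) * ε ≤ 2 * D ^ 6 * ε := by
    have := hp1 6
    nlinarith
  have hpI : ∀ l ∈ T2, l ∈ (G n).slice k := fun l hl => hT1 (hT2 hl)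
  refine ⟨lp, lv, T2, fun l hl => hpI l hl, hdens,
    fun l hl l' hl' => d1 l (hT2 hl) l' (hT2 hl'), d2, a1, b1, a3, b3,
    (rpow_anti B n (by linarith)).trans a5, (rpow_anti B n (by linarith)).trans b5, ?_, ?_⟩
  · intro e f
    rcases (T2.filter fun l => lp l = e ∧ lv l = f).eq_empty_or_nonempty with h | ⟨l0, hl0⟩
    · rw [h, card_empty, Nat.cast_zero]; exact (hpos _).le
    · obtain ⟨g1, g2, g3⟩ := mem_filter.1 hl0
      have g4 := hup l0 k (H.memSlice.1 (hpI l0 g1))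
      refine le_trans (Nat.cast_le.2 (card_le_card ?_)) (g4.trans (rpow_anti B n ?_))
      · intro l hl
        obtain ⟨i1, i2, i3⟩ := mem_filter.1 hl
        refine RCfg.mem_box.2 ⟨hpI l i1, fun j => ?_⟩
        rcases P.por j with hj | hj
        · rw [hj]; exact a2 l0 (hpI l0 g1) l (hpI l i1) (g2.trans i2.symm) j
        · rw [hj]; exact b2 l0 (hpI l0 g1) l (hpI l i1) (g3.trans i3.symm) j
      · have : D * (D ^ 5 * ε) = D ^ 6 * ε := by ring
        linarith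
  · -- density
    set S : ℝ := (((G n).slice k).card : ℝ) with hS
    have hS0 : 0 ≤ S := Nat.cast_nonneg _
    have hSle : S ≤ B.d n ^ (-ν p0 - D * ε) := by
      obtain ⟨l0, hl0⟩ := hne
      have hl0I := H.memSlice.1 hl0
      refine le_trans (Nat.cast_le.2 (card_le_card ?_)) (hup0 l0 k hl0I)
      intro l hl
      exact RCfg.mem_box.2 ⟨hl, hall k l0 l hl0I (H.memSlice.1 hl)⟩
    refine le_trans ?_ hdens
    calc B.d n ^ (8 * D ^ 7 * ε) * B.d n ^ (-ν ppv - D ^ 6 * ε) *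
          (((G n).slice k).image lp).card * (((G n).slice k).image lv).card
        ≤ B.d n ^ (8 * D ^ 7 * ε) * B.d n ^ (-ν ppv - D ^ 6 * ε) *
          (B.d n ^ (ν pp - ε) * S) * (B.d n ^ (ν pv - ε) * B.d n ^ (-ν p0 - D * ε)) := by
          have g1 := b4.trans (mul_le_mul_of_nonneg_left hSle (hpos _).le)
          have := hpos (8 * D ^ 7 * ε)
          have := hpos (-ν ppv - D ^ 6 * ε)
          have := hpos (ν pp - ε)
          gcongr
      _ = B.d n ^ (8 * D ^ 7 * ε + (-ν ppv - D ^ 6 * ε) + (ν pp - ε) + (ν pv - ε) +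
          (-ν p0 - D * ε)) * S := by
          simp only [rpow_add']
          ring
      _ ≤ B.d n ^ (4 * D ^ 7 * ε) * S := by
          refine mul_le_mul_of_nonneg_right (rpow_anti B n ?_) hS0
          have i1 : D ^ 6 ≤ D ^ 7 := pow_le_pow_right₀ hD (by norm_num)
          have i2 : D ≤ D ^ 7 := by
            calc D = D ^ 1 := (pow_one D).symm
              _ ≤ D ^ 7 := pow_le_pow_right₀ hD (by norm_num)
          have i3 := hp1 7
          have i4 := mul_le_mul_of_nonneg_right i1 hε.le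
          have i5 := mul_le_mul_of_nonneg_right i2 hε.le
          have i6 := mul_le_mul_of_nonneg_right i3 hε.le
          have i7 := P.H3
          nlinarith

/-- **velocity cells with close `c` are few** -/
theorem few_c (H : RUnif B G Leg ν D) (Q : QRow B G x M C p0 pA pp pv pP vP pc a b c s β ζ Z Φ kp)
    (P : QProf Leg ν x m p0 pA pp pv ppv pP vP pc) {e : ℝ} (he : 0 < e)
    (hx1 : 101 * D ^ 7 * e / m ≤ x / 4) (hx2 : C * D ^ 10 * e + e ≤ x / 4) :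
    ∀ᶠ n in (U : Filter ℕ), ∀ k, ∀ lv : ℕ → ℕ, ∀ L ⊆ (G n).slice k,
      (∀ t ∈ (G n).slice k, lv t ∈ (G n).slice k ∧ (G n).loose pv (D ^ 3 * e) k (lv t) t) →
      (∀ A ⊆ ((G n).slice k).image lv, (A.card : ℝ) * B.d n ^ (-ν pv + e) ≤
        (((A.biUnion fun e' => (G n).box pv e e' k)).card : ℝ)) →
      B.d n ^ (-ν p0 + ν pv + 2 * D ^ 6 * e) ≤ ((((G n).slice k).image lv).card : ℝ) →
      ∀ t : ℝ, ∀ A ⊆ ((G n).slice k).image lv,
        (∀ v ∈ A, ∃ l ∈ L, lv l = v ∧ |c n k l - t| ≤ 2 * (B.d n ^ (101 * D ^ 7 * e / m) / 6)) →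
        (A.card : ℝ) ≤ B.d n ^ (97 * D ^ 7 * e) * (((G n).slice k).image lv).card := by
  classical
  have hD := H.D1
  have hD0 : 0 < D := by linarith
  have hm := P.m0
  have hC := Q.C1
  set y := 101 * D ^ 7 * e / m with hy
  have hy0 : 0 ≤ y := by positivity
  have hyx : y ≤ x := by have := Q.x0; linarith
  filter_upwards [Q.vcl _ (show 0 < D ^ 3 * e by positivity), Q.vcl e he,
    Q.ccl y hy0 hyx e he, H.up _ (P.lc y hy0 hyx) e he, ev_const_le B he 12] with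
    n v3 v1 hcc hup h12 k lv L hL hlv hA hV t A hAV hcl
  have hpos : ∀ t : ℝ, 0 < B.d n ^ t := fun t => rpos B n t
  rcases A.eq_empty_or_nonempty with rfl | ⟨v0, hv0⟩
  · rw [card_empty, Nat.cast_zero]
    exact mul_nonneg (hpos _).le (Nat.cast_nonneg _)
  have hδ : 12 * B.d n ^ (x - C * D ^ 10 * e) ≤ B.d n ^ y := by
    have h1 := mul_le_mul_of_nonneg_right h12 (hpos (x - C * D ^ 10 * e)).le
    refine h1.trans ?_
    rw [← rpow_add']
    exact rpow_anti B n (by linarith)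
  have h103 : D ^ 3 * e ≤ D ^ 10 * e :=
    mul_le_mul_of_nonneg_right (pow_le_pow_right₀ hD (by norm_num)) he.le
  have h1010 : e ≤ D ^ 10 * e := by
    have : 1 ≤ D ^ 10 := one_le_pow₀ hD
    nlinarith
  -- all lines of the small boxes
  have hall : ∀ m' ∈ A.biUnion fun e' => (G n).box pv e e' k,
      (m', k) ∈ (G n).I ∧ |c n k m' - t| ≤ 3 * (B.d n ^ y / 6) := by
    intro m' hm'
    obtain ⟨e', he', hme⟩ := mem_biUnion.1 hm'
    obtain ⟨i1, i2⟩ := RCfg.mem_box.1 hme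
    obtain ⟨l, hl, hle, hlt⟩ := hcl e' he'
    have hlS := hL hl
    obtain ⟨j1, j2⟩ := hlv l hlS
    rw [hle] at j1 j2
    have k1 := (v3 k e' l (H.memSlice.1 j1) (H.memSlice.1 hlS) j2).1
    have k2 := (v1 k e' m' (H.memSlice.1 j1) (H.memSlice.1 i1) i2).1
    have k3 : B.d n ^ (x - C * (D ^ 3 * e)) ≤ B.d n ^ (x - C * D ^ 10 * e) :=
      rpow_anti B n (by nlinarith)
    have k4 : B.d n ^ (x - C * e) ≤ B.d n ^ (x - C * D ^ 10 * e) :=
      rpow_anti B n (by nlinarith)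
    refine ⟨H.memSlice.1 i1, ?_⟩
    have e1 : c n k m' - t = (c n k l - t) + (c n k e' - c n k l) - (c n k e' - c n k m') := by ring
    rw [e1]
    have q1 := abs_sub ((c n k l - t) + (c n k e' - c n k l)) (c n k e' - c n k m')
    have q2 := abs_add_le (c n k l - t) (c n k e' - c n k l)
    linarith
  have hcard : (((A.biUnion fun e' => (G n).box pv e e' k)).card : ℝ) ≤
      B.d n ^ (m * y - ν p0 - D * e) := by
    rcases (A.biUnion fun e' => (G n).box pv e e' k).eq_empty_or_nonempty with h | ⟨m0, hm0⟩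
    · rw [h, card_empty, Nat.cast_zero]; exact (hpos _).le
    · obtain ⟨g1, g2⟩ := hall m0 hm0
      refine le_trans (Nat.cast_le.2 (card_le_card (t := (G n).box (pc y) e m0 k) ?_))
        ((hup m0 k g1).trans (rpow_anti B n ?_))
      · intro m' hm'
        obtain ⟨i1, i2⟩ := hall m' hm'
        refine RCfg.mem_box.2 ⟨H.memSlice.2 i1, hcc k m0 m' g1 i1 ?_⟩
        have e1 : c n k m' - c n k m0 = (c n k m' - t) - (c n k m0 - t) := by ring
        rw [e1]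
        have := abs_sub (c n k m' - t) (c n k m0 - t)
        linarith
      · have := P.H5 y hy0 hyx
        linarith
  have h1 := (hA A hAV).trans hcard
  have h2 : (A.card : ℝ) ≤ B.d n ^ (m * y - ν p0 - D * e) * B.d n ^ (ν pv - e) := by
    have h3 := mul_le_mul_of_nonneg_right h1 (hpos (ν pv - e)).le
    refine le_trans (le_of_eq ?_) h3
    rw [mul_assoc, ← rpow_add']
    have : -ν pv + e + (ν pv - e) = 0 := by ring
    rw [this, Real.rpow_zero, mul_one]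
  refine h2.trans ?_
  have hmy : m * y = 101 * D ^ 7 * e := by rw [hy]; field_simp
  calc B.d n ^ (m * y - ν p0 - D * e) * B.d n ^ (ν pv - e)
      ≤ B.d n ^ (97 * D ^ 7 * e) * B.d n ^ (-ν p0 + ν pv + 2 * D ^ 6 * e) := by
        rw [← rpow_add', ← rpow_add']
        refine rpow_anti B n ?_
        rw [hmy]
        have i1 : D ^ 6 * e ≤ D ^ 7 * e :=
          mul_le_mul_of_nonneg_right (pow_le_pow_right₀ hD (by norm_num)) he.le
        have i2 : D * e ≤ D ^ 7 * e := by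
          refine mul_le_mul_of_nonneg_right ?_ he.le
          calc D = D ^ 1 := (pow_one D).symm
            _ ≤ D ^ 7 := pow_le_pow_right₀ hD (by norm_num)
        have i3 : e ≤ D ^ 7 * e := by
          have : 1 ≤ D ^ 7 := one_le_pow₀ hD
          nlinarith
        nlinarith
    _ ≤ _ := mul_le_mul_of_nonneg_left hV (hpos _).le

/-- **position cells in a strip are few** -/
theorem few_s (H : RUnif B G Leg ν D) (Q : QRow B G x M C p0 pA pp pv pP vP pc a b c s β ζ Z Φ kp)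
    (P : QProf Leg ν x m p0 pA pp pv ppv pP vP pc) {e : ℝ} (he : 0 < e)
    (hx1 : 103 * D ^ 7 * e + e ≤ x / 4) (hx2 : C * D ^ 10 * e + e ≤ x / 4) :
    ∀ᶠ n in (U : Filter ℕ), ∀ k, ∀ lp : ℕ → ℕ, ∀ L ⊆ (G n).slice k,
      (∀ t ∈ (G n).slice k, lp t ∈ (G n).slice k ∧ (G n).loose pp (D ^ 3 * e) k (lp t) t) →
      (∀ A ⊆ ((G n).slice k).image lp, (A.card : ℝ) * B.d n ^ (-ν pp + e) ≤
        (((A.biUnion fun e' => (G n).box pp e e' k)).card : ℝ)) →
      B.d n ^ (-ν p0 + ν pp + 2 * D ^ 6 * e) ≤ ((((G n).slice k).image lp).card : ℝ) →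
      ∀ n1 n2 t : ℝ, (|n1| = 1 ∨ |n2| = 1) → ∀ A ⊆ ((G n).slice k).image lp,
        (∀ v ∈ A, ∃ l ∈ L, lp l = v ∧
          |n1 * b n k l + n2 * a n k l - t| ≤ B.d n ^ (103 * D ^ 7 * e)) →
        (A.card : ℝ) ≤ B.d n ^ (97 * D ^ 7 * e) * (((G n).slice k).image lp).card := by
  classical
  have hD := H.D1
  have hD0 : 0 < D := by linarith
  have hC := Q.C1
  have hM := Q.M1
  have hx := Q.x0
  filter_upwards [Q.pcl _ (show 0 < D ^ 3 * e by positivity), Q.pcl e he, Q.bd,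
    Q.acl e he, H.up _ P.lA e he, ev_const_le B he (48 * M)] with
    n v3 v1 hbd hac hup h48 k lp L hL hlp hA hV n1 n2 t hn A hAV hcl
  have hpos : ∀ t : ℝ, 0 < B.d n ^ t := fun t => rpos B n t
  have h103 : D ^ 3 * e ≤ D ^ 10 * e :=
    mul_le_mul_of_nonneg_right (pow_le_pow_right₀ hD (by norm_num)) he.le
  have h1010 : e ≤ D ^ 10 * e := by
    have : 1 ≤ D ^ 10 := one_le_pow₀ hD
    nlinarith
  have hδ : 4 * B.d n ^ (x - C * D ^ 10 * e) ≤ B.d n ^ (103 * D ^ 7 * e) := by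
    have h1 := mul_le_mul_of_nonneg_right ((by linarith : (4 : ℝ) ≤ 48 * M).trans h48)
      (hpos (x - C * D ^ 10 * e)).le
    refine h1.trans ?_
    rw [← rpow_add']
    exact rpow_anti B n (by linarith)
  -- normalisation
  set N := max |n1| |n2| with hN
  have hN1 : 1 ≤ N := by
    rcases hn with h | h
    · rw [← h]; exact le_max_left _ _
    · rw [← h]; exact le_max_right _ _
  have hN0 : 0 < N := by linarith
  have c1 : |n1 / N| ≤ 1 := by
    rw [abs_div, abs_of_pos hN0]; exact (div_le_one hN0).2 (le_max_left _ _)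
  have c2 : |n2 / N| ≤ 1 := by
    rw [abs_div, abs_of_pos hN0]; exact (div_le_one hN0).2 (le_max_right _ _)
  have c3 : 1 ≤ |n1 / N| ∨ 1 ≤ |n2 / N| := by
    rcases max_cases |n1| |n2| with ⟨h, -⟩ | ⟨h, -⟩
    · left; rw [abs_div, abs_of_pos hN0, hN, h, div_self]; rw [← h]; exact hN0.ne'
    · right; rw [abs_div, abs_of_pos hN0, hN, h, div_self]; rw [← h]; exact hN0.ne'
  set q := B.d n ^ (103 * D ^ 7 * e) with hq
  have hall : ∀ m' ∈ A.biUnion fun e' => (G n).box pp e e' k,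
      (m', k) ∈ (G n).I ∧ |n1 / N * b n k m' + n2 / N * a n k m' - t / N| ≤ 2 * q := by
    intro m' hm'
    obtain ⟨e', he', hme⟩ := mem_biUnion.1 hm'
    obtain ⟨i1, i2⟩ := RCfg.mem_box.1 hme
    obtain ⟨l, hl, hle, hlt⟩ := hcl e' he'
    have hlS := hL hl
    obtain ⟨j1, j2⟩ := hlp l hlS
    rw [hle] at j1 j2
    obtain ⟨a1, b1, -, -⟩ := v3 k e' l (H.memSlice.1 j1) (H.memSlice.1 hlS) j2
    obtain ⟨a2, b2, -, -⟩ := v1 k e' m' (H.memSlice.1 j1) (H.memSlice.1 i1) i2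
    have k3 : B.d n ^ (x - C * (D ^ 3 * e)) ≤ B.d n ^ (x - C * D ^ 10 * e) :=
      rpow_anti B n (by nlinarith)
    have k4 : B.d n ^ (x - C * e) ≤ B.d n ^ (x - C * D ^ 10 * e) :=
      rpow_anti B n (by nlinarith)
    refine ⟨H.memSlice.1 i1, ?_⟩
    set δ := B.d n ^ (x - C * D ^ 10 * e) with hδd
    have da : |a n k m' - a n k l| ≤ 2 * δ := by
      have e1 : a n k m' - a n k l = (a n k e' - a n k l) - (a n k e' - a n k m') := by ring
      rw [e1]
      have := abs_sub (a n k e' - a n k l) (a n k e' - a n k m')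
      linarith
    have db : |b n k m' - b n k l| ≤ 2 * δ := by
      have e1 : b n k m' - b n k l = (b n k e' - b n k l) - (b n k e' - b n k m') := by ring
      rw [e1]
      have := abs_sub (b n k e' - b n k l) (b n k e' - b n k m')
      linarith
    have h0 : |n1 / N * b n k l + n2 / N * a n k l - t / N| ≤ q := by
      have e1 : n1 / N * b n k l + n2 / N * a n k l - t / N =
          (n1 * b n k l + n2 * a n k l - t) / N := by ring
      rw [e1, abs_div, abs_of_pos hN0, div_le_iff₀ hN0]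
      refine hlt.trans ?_
      have : 0 < q := hpos _
      nlinarith
    have e1 : n1 / N * b n k m' + n2 / N * a n k m' - t / N =
        (n1 / N * b n k l + n2 / N * a n k l - t / N) + n1 / N * (b n k m' - b n k l) +
        n2 / N * (a n k m' - a n k l) := by ring
    rw [e1]
    have q1 := abs_add_le ((n1 / N * b n k l + n2 / N * a n k l - t / N) +
      n1 / N * (b n k m' - b n k l)) (n2 / N * (a n k m' - a n k l))
    have q2 := abs_add_le (n1 / N * b n k l + n2 / N * a n k l - t / N)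
      (n1 / N * (b n k m' - b n k l))
    have q3 : |n1 / N * (b n k m' - b n k l)| ≤ 1 * (2 * δ) := by
      rw [abs_mul]; exact mul_le_mul c1 db (abs_nonneg _) zero_le_one
    have q4 : |n2 / N * (a n k m' - a n k l)| ≤ 1 * (2 * δ) := by
      rw [abs_mul]; exact mul_le_mul c2 da (abs_nonneg _) zero_le_one
    linarith
  have hq2 : 2 * q ≤ 1 := by
    have h1 := mul_le_mul_of_nonneg_right ((by linarith : (2 : ℝ) ≤ 48 * M).trans h48)
      (hpos (103 * D ^ 7 * e)).le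
    refine h1.trans ?_
    rw [← rpow_add', ← Real.rpow_zero (B.d n)]
    refine rpow_anti B n ?_
    have : 1 ≤ D ^ 7 := one_le_pow₀ hD
    nlinarith
  have hwq : B.d n ^ x ≤ 2 * q := by
    have : B.d n ^ x ≤ q := rpow_anti B n (by linarith)
    have : 0 < q := hpos _
    linarith
  have hcard := strip_lines (A.biUnion fun e' => (G n).box pp e e' k) (a n k) (b n k) hM
    (hpos x) hwq hq2 (fun l hl => (hbd k l (hall l hl).1).1)
    (fun l hl => (hbd k l (hall l hl).1).2.1) (hpos (-ν pA - D * e)).le (fun l0 hl0 => by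
      have g1 := (hall l0 hl0).1
      refine le_trans (Nat.cast_le.2 (card_le_card ?_)) (hup l0 k g1)
      intro l hl
      obtain ⟨i1, i2, i3⟩ := mem_filter.1 hl
      have i4 := (hall l i1).1
      exact RCfg.mem_box.2 ⟨H.memSlice.2 i4, hac k l0 l g1 i4 i2 i3⟩)
    c3 (fun l hl => (hall l hl).2)
  have h1 := (hA A hAV).trans hcard
  have h2 : (A.card : ℝ) ≤ 24 * M * (2 * q) / (B.d n ^ x) ^ 2 * B.d n ^ (-ν pA - D * e) *
      B.d n ^ (ν pp - e) := by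
    have h3 := mul_le_mul_of_nonneg_right h1 (hpos (ν pp - e)).le
    refine le_trans (le_of_eq ?_) h3
    rw [mul_assoc, ← rpow_add']
    have : -ν pp + e + (ν pp - e) = 0 := by ring
    rw [this, Real.rpow_zero, mul_one]
  refine h2.trans ?_
  have e3 : 24 * M * (2 * q) / (B.d n ^ x) ^ 2 * B.d n ^ (-ν pA - D * e) * B.d n ^ (ν pp - e) =
      48 * M * (B.d n ^ (103 * D ^ 7 * e) * B.d n ^ (-2 * x) * B.d n ^ (-ν pA - D * e) *
        B.d n ^ (ν pp - e)) := by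
    have e4 : B.d n ^ (-2 * x) = ((B.d n ^ x) ^ 2)⁻¹ := by
      rw [← Real.rpow_natCast, ← Real.rpow_mul (B.pos n).le, ← Real.rpow_neg (B.pos n).le]
      congr 1
      push_cast
      ring
    rw [e4, hq]
    ring
  rw [e3, ← rpow_add', ← rpow_add', ← rpow_add']
  refine (mul_le_mul_of_nonneg_right h48 (hpos _).le).trans ?_
  rw [← rpow_add']
  refine le_trans (rpow_anti B n (s := 97 * D ^ 7 * e + (-ν p0 + ν pp + 2 * D ^ 6 * e)) ?_) ?_
  · have i1 : D ^ 6 * e ≤ D ^ 7 * e :=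
      mul_le_mul_of_nonneg_right (pow_le_pow_right₀ hD (by norm_num)) he.le
    have i2 : D * e ≤ D ^ 7 * e := by
      refine mul_le_mul_of_nonneg_right ?_ he.le
      calc D = D ^ 1 := (pow_one D).symm
        _ ≤ D ^ 7 := pow_le_pow_right₀ hD (by norm_num)
    have i3 : e ≤ D ^ 7 * e := by
      have : 1 ≤ D ^ 7 := one_le_pow₀ hD
      nlinarith
    have i4 := P.H4
    nlinarith
  · rw [rpow_add']
    exact mul_le_mul_of_nonneg_left hV (hpos _).le

end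

end Crest.Agent.R136.Qd329
end

-- ▼ part R136/Qd7_329
section

/-!
# R136: the bilinear rigidity (helper329), part 7: `quad_one`
-/

set_option autoImplicit false

open Filter Topology

namespace Crest.Agent.R136.Qd329

open Finset
open Crest.Agent.R138.Ex926 (Base U)
open Crest.Agent.R136.Gf356

variable {κ : Type} {B : Base} {G : ℕ → RCfg κ} {Leg : Set (κ → ℝ)} {ν : (κ → ℝ) → ℝ}
  {D x M C m : ℝ} {p0 pA pp pv ppv pP vP : κ → ℝ} {pc : ℝ → κ → ℝ}
  {a b c s β ζ Z Φ : ℕ → ℕ → ℕ → ℝ} {kp : ℕ → ℝ}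

/-- numerical bounds -/
theorem pow_bounds (B : Base) (n : ℕ) {M e y ε x E F : ℝ} (hM : 1 ≤ M) (he : 0 < e)
    (hF : 0 ≤ F) (hE : 0 ≤ E) (hy : 0 ≤ y) (hK : 2 ^ 30 * M ^ 6 ≤ B.d n ^ (-e))
    (hε : E + 210 * F + 2 * y + 3 * e ≤ ε) :
    10 * M ^ 2 / (B.d n ^ e * (B.d n ^ y / 6) ^ 2) ≤ B.d n ^ (-ε) ∧
    4 * M / (B.d n ^ e * (B.d n ^ y / 6) ^ 2) ≤ B.d n ^ (-ε) ∧
    400 * M ^ 3 * B.d n ^ (x - E) / (B.d n ^ e * (B.d n ^ y / 6) ^ 2) ≤ B.d n ^ (x - ε) ∧
    160 * M ^ 3 * (400 * M ^ 3 * B.d n ^ (x - E) / (B.d n ^ e * (B.d n ^ y / 6) ^ 2)) /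
      (B.d n ^ (103 * F)) ^ 2 ≤ B.d n ^ (x - ε) := by
  have hpos : ∀ t : ℝ, 0 < B.d n ^ t := fun t => rpos B n t
  have hcst : ∀ w t : ℝ, w ≤ 2 ^ 30 * M ^ 6 → ∀ t', t + e ≤ t' → w * B.d n ^ t' ≤ B.d n ^ t := by
    intro w t hw t' ht
    calc w * B.d n ^ t' ≤ B.d n ^ (-e) * B.d n ^ t' :=
          mul_le_mul_of_nonneg_right (hw.trans hK) (hpos _).le
      _ = B.d n ^ (-e + t') := by rw [rpow_add']
      _ ≤ _ := rpow_anti B n (by linarith)
  have hM1 : 1 ≤ M ^ 6 := one_le_pow₀ hM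
  have hM2 : M ^ 2 ≤ M ^ 6 := pow_le_pow_right₀ hM (by norm_num)
  have hM3 : M ≤ M ^ 6 := by
    calc M = M ^ 1 := (pow_one M).symm
      _ ≤ M ^ 6 := pow_le_pow_right₀ hM (by norm_num)
  have hM4 : M ^ 3 ≤ M ^ 6 := pow_le_pow_right₀ hM (by norm_num)
  have hr2 : B.d n ^ e * (B.d n ^ y / 6) ^ 2 = B.d n ^ (e + 2 * y) / 36 := by
    have e1 : (B.d n ^ y) ^ 2 = B.d n ^ (2 * y) := by
      rw [← Real.rpow_natCast, ← Real.rpow_mul (B.pos n).le]
      congr 1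
      push_cast
      ring
    rw [div_pow, e1, rpow_add']
    ring
  have hdiv : ∀ w t : ℝ, w * t / (B.d n ^ e * (B.d n ^ y / 6) ^ 2) =
      36 * w * (t * B.d n ^ (-(e + 2 * y))) := by
    intro w t
    rw [hr2, Real.rpow_neg (B.pos n).le]
    have := (hpos (e + 2 * y)).ne'
    field_simp
  have hq2 : (B.d n ^ (103 * F)) ^ 2 = B.d n ^ (206 * F) := by
    rw [← Real.rpow_natCast, ← Real.rpow_mul (B.pos n).le]
    congr 1
    push_cast
    ring
  refine ⟨?_, ?_, ?_, ?_⟩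
  · have h := hdiv (10 * M ^ 2) 1
    rw [mul_one, one_mul] at h
    rw [h]
    exact hcst _ _ (by linarith) _ (by linarith)
  · have h := hdiv (4 * M) 1
    rw [mul_one, one_mul] at h
    rw [h]
    exact hcst _ _ (by linarith) _ (by linarith)
  · rw [hdiv (400 * M ^ 3), ← rpow_add']
    exact hcst _ _ (by linarith) _ (by linarith)
  · rw [hdiv (400 * M ^ 3), ← rpow_add', hq2]
    have e3 : 160 * M ^ 3 * (36 * (400 * M ^ 3) *
        B.d n ^ (x - E + -(e + 2 * y))) / B.d n ^ (206 * F) =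
        (160 * 36 * 400 * M ^ 6) * (B.d n ^ (x - E + -(e + 2 * y)) *
        B.d n ^ (-(206 * F))) := by
      rw [Real.rpow_neg (B.pos n).le (206 * F)]
      ring
    rw [e3, ← rpow_add']
    exact hcst _ _ (by linarith) _ (by linarith)

set_option maxHeartbeats 1000000 in
/-- one height, fixed small parameter -/
theorem quad_fix (H : RUnif B G Leg ν D)
    (Q : QRow B G x M C p0 pA pp pv pP vP pc a b c s β ζ Z Φ kp)
    (P : QProf Leg ν x m p0 pA pp pv ppv pP vP pc) {e ε : ℝ} (he : 0 < e)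
    (h1 : 101 * D ^ 7 * e / m ≤ x / 16) (h2 : 103 * D ^ 7 * e + e ≤ x / 16)
    (h3 : C * D ^ 10 * e + e ≤ x / 4)
    (hε : C * D ^ 10 * e + 210 * D ^ 7 * e + 202 * D ^ 7 * e / m + 3 * e ≤ ε) :
    ∀ᶠ n in (U : Filter ℕ), ∀ k, ((G n).slice k).Nonempty → ∃ l1 l2 m1 m2 : ℝ,
      |l1| ≤ B.d n ^ (-ε) ∧ |l2| ≤ B.d n ^ (-ε) ∧ |m1| ≤ B.d n ^ (-ε) ∧ |m2| ≤ B.d n ^ (-ε) ∧
      ∃ L2 ⊆ (G n).slice k, B.d n ^ ε * (((G n).slice k).card : ℝ) ≤ L2.card ∧
        ∀ l ∈ L2, ∀ l' ∈ L2, QRel (kp n) l1 l2 m1 m2 (B.d n ^ (x - ε)) (a n k) (b n k) (c n k)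
          (s n k) (β n k) (ζ n k) (Z n k) l l' := by
  have hD := H.D1
  have hD0 : 0 < D := by linarith
  have hC := Q.C1
  have hM := Q.M1
  have hx := Q.x0
  have hm := P.m0
  have p7 : e ≤ D ^ 7 * e := by
    have : 1 ≤ D ^ 7 := one_le_pow₀ hD
    nlinarith
  have p10 : e ≤ C * D ^ 10 * e := by
    have h4 : 1 ≤ D ^ 10 := one_le_pow₀ hD
    have h5 : 1 ≤ C * D ^ 10 := by nlinarith
    nlinarith
  have h107 : D ^ 7 * e ≤ D ^ 10 * e :=
    mul_le_mul_of_nonneg_right (pow_le_pow_right₀ hD (by norm_num)) he.le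
  filter_upwards [cells H Q P he, few_c H Q P he (by linarith) (by linarith),
    few_s H Q P he (by linarith) (by linarith), Q.kpl e he, Q.bd,
    Q.pcl _ (show 0 < D ^ 10 * e by positivity), Q.vcl _ (show 0 < D ^ 10 * e by positivity),
    Q.pPr _ (show 0 < D ^ 10 * e by positivity), Q.vPr _ (show 0 < D ^ 10 * e by positivity),
    ev_const_le B he (2 ^ 30 * M ^ 6)] with n hcell hfc hfs hkp hbd hpc hvc hpP hvP hK k hne
  have hpos : ∀ t : ℝ, 0 < B.d n ^ t := fun t => rpos B n t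
  have hanti : ∀ s t : ℝ, s ≤ t → B.d n ^ t ≤ B.d n ^ s := fun s t h => rpow_anti B n h
  have hcst : ∀ w t : ℝ, w ≤ 2 ^ 30 * M ^ 6 → ∀ t', t + e ≤ t' → w * B.d n ^ t' ≤ B.d n ^ t := by
    intro w t hw t' ht
    calc w * B.d n ^ t' ≤ B.d n ^ (-e) * B.d n ^ t' :=
          mul_le_mul_of_nonneg_right (hw.trans hK) (hpos _).le
      _ = B.d n ^ (-e + t') := by rw [rpow_add']
      _ ≤ _ := hanti _ _ (by linarith)
  have hM1 : 1 ≤ M ^ 6 := one_le_pow₀ hM
  have hM2 : M ^ 2 ≤ M ^ 6 := pow_le_pow_right₀ hM (by norm_num)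
  have hM3 : M ≤ M ^ 6 := by
    calc M = M ^ 1 := (pow_one M).symm
      _ ≤ M ^ 6 := pow_le_pow_right₀ hM (by norm_num)
  have hM4 : M ^ 3 ≤ M ^ 6 := pow_le_pow_right₀ hM (by norm_num)
  obtain ⟨lp, lv, L, hLS, hLc, hLp, hLv, f1, f2, g1, g2, i1, i2, hfib, hdens⟩ := hcell k hne
  have hS0 : (0 : ℝ) < (((G n).slice k).card : ℝ) := by exact_mod_cast hne.card_pos
  have hLne : L.Nonempty := by
    rw [← card_pos]
    have : (0 : ℝ) < L.card := lt_of_lt_of_le (mul_pos (hpos _) hS0) hLc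
    exact_mod_cast this
  set δ := B.d n ^ (x - C * D ^ 10 * e) with hδ
  have ecd : C * (D ^ 10 * e) = C * D ^ 10 * e := by ring
  rw [ecd] at hpc hvc hpP hvP
  have hI : ∀ l ∈ L, (l, k) ∈ (G n).I := fun l hl => H.memSlice.1 (hLS hl)
  -- the grid
  have hG : Grid L lp lv (a n k) (b n k) (c n k) (s n k) (β n k) (ζ n k) (Z n k) (Φ n k) (kp n)
      M δ := by
    refine ⟨hM, (hpos _).le, Q.kp1 n, fun l hl => hbd k l (hI l hl), ?_, ?_, ?_, ?_⟩
    · intro l hl l' hl' hll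
      refine hpc k l l' (hI l hl) (hI l' hl') (H.loose_mono P.pge le_rfl (hLp l hl l' hl' hll))
    · intro l hl l' hl' hll
      refine hvc k l l' (hI l hl) (hI l' hl') (H.loose_mono P.vge le_rfl (hLv l hl l' hl' hll))
    · intro l hl l' hl' hll
      exact hpP k l l' (hI l hl) (hI l' hl') (hLp l hl l' hl' hll)
    · intro l hl l' hl' hll
      exact hvP k l l' (hI l hl) (hI l' hl') (hLv l hl l' hl' hll)
  have hcnt : GCnt L lp lv (a n k) (b n k) (c n k) (((G n).slice k).image lp)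
      (((G n).slice k).image lv) (B.d n ^ (-ν ppv - D ^ 6 * e)) (B.d n ^ (8 * D ^ 7 * e))
      (B.d n ^ (101 * D ^ 7 * e / m) / 6) (B.d n ^ (103 * D ^ 7 * e))
      (B.d n ^ (97 * D ^ 7 * e)) := by
    refine ⟨fun l hl => mem_image_of_mem _ (hLS hl), fun l hl => mem_image_of_mem _ (hLS hl),
      hpos _, hfib, (hpos _).le, ?_, ?_⟩
    · intro t A hA h
      exact hfc k lv L hLS f2 g2 i2 t A hA h
    · intro n1 n2 t hn A hA h
      exact hfs k lp L hLS f1 g1 i1 n1 n2 t hn A hA h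
  set y := 101 * D ^ 7 * e / m with hy
  have hy0 : 0 ≤ y := by positivity
  have hy2 : 202 * D ^ 7 * e / m = 2 * y := by rw [hy]; ring
  rw [hy2] at hε
  set q := B.d n ^ (103 * D ^ 7 * e) with hq
  set r := B.d n ^ y / 6 with hr
  have hr0 : 0 < r := by have := hpos y; positivity
  have hDpow : ∀ (j : ℕ) (t : ℝ), 8 * D ^ 7 * e * j = t →
      (B.d n ^ (8 * D ^ 7 * e)) ^ j = B.d n ^ t := by
    intro j t ht
    rw [← Real.rpow_natCast, ← Real.rpow_mul (B.pos n).le, ht]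
  have hD3 := hDpow 3 (24 * D ^ 7 * e) (by push_cast; ring)
  have hD12 := hDpow 12 (96 * D ^ 7 * e) (by push_cast; ring)
  have hD15 := hDpow 15 (120 * D ^ 7 * e) (by push_cast; ring)
  have hr1 : r ≤ 1 := by
    have : B.d n ^ y ≤ 1 := Real.rpow_le_one (B.pos n).le (B.lt n).le hy0
    rw [hr]; linarith
  have hδr : δ ≤ r := by
    have := hcst 6 y (by linarith) (x - C * D ^ 10 * e) (by linarith)
    rw [hr]; linarith
  have hk01 : B.d n ^ e ≤ 1 := Real.rpow_le_one (B.pos n).le (B.lt n).le he.le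
  have hη : 3 * B.d n ^ (97 * D ^ 7 * e) ≤ (B.d n ^ (8 * D ^ 7 * e)) ^ 3 / 16 := by
    rw [hD3]
    have := hcst 48 (24 * D ^ 7 * e) (by linarith) (97 * D ^ 7 * e) (by linarith)
    linarith only [this]
  have hδq : 2 * δ ≤ q :=
    hcst 2 _ (by linarith) _ (by linarith)
  have hq2 : q ^ 2 = B.d n ^ (206 * D ^ 7 * e) := by
    rw [hq, ← Real.rpow_natCast, ← Real.rpow_mul (B.pos n).le]
    congr 1
    push_cast
    ring
  have hδω : 64 * M * δ ≤ q ^ 2 := by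
    rw [hq2]
    exact hcst _ _ (by linarith) _ (by linarith)
  have hη2 : 2 * B.d n ^ (97 * D ^ 7 * e) ≤ ((B.d n ^ (8 * D ^ 7 * e)) ^ 4 / 32) ^ 3 / 16 := by
    have e1 : ((B.d n ^ (8 * D ^ 7 * e)) ^ 4 / 32) ^ 3 / 16 =
        (B.d n ^ (8 * D ^ 7 * e)) ^ 12 / (32 ^ 3 * 16) := by ring
    rw [e1, hD12, le_div_iff₀ (by norm_num)]
    have := hcst (2 * (32 ^ 3 * 16)) (96 * D ^ 7 * e) (by linarith)
      (97 * D ^ 7 * e) (by linarith)
    linarith only [this]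
  obtain ⟨l1, l2, m1, m2, hl1, hl2, hm1, hm2, L2, hL2, hc2, hrel⟩ :=
    grid_quad hG hcnt hLne (hpos _) hdens hr0 hr1 hδr (hpos e) hk01 hkp hη (hpos _) hδq hδω hη2
  -- bounds
  obtain ⟨b10, b4, e1, e2⟩ := pow_bounds B n (M := M) (e := e) (y := y) (ε := ε) (x := x)
    (E := C * D ^ 10 * e) (F := D ^ 7 * e) hM he (by positivity) (by positivity) hy0 hK
    (by linarith)
  have e103 : 103 * (D ^ 7 * e) = 103 * D ^ 7 * e := by ring
  rw [e103] at e2
  refine ⟨l1, l2, m1, m2, hl1.trans b10, hl2.trans b10, hm1.trans b4, hm2.trans b4, L2,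
    hL2.trans hLS, ?_, ?_⟩
  · refine le_trans ?_ (le_trans (mul_le_mul_of_nonneg_left hLc ?_) hc2)
    · have e1 : ((B.d n ^ (8 * D ^ 7 * e)) ^ 4 / 32) ^ 3 / 32 *
          ((B.d n ^ (8 * D ^ 7 * e)) ^ 3 / 32) *
          (B.d n ^ (4 * D ^ 7 * e) * (((G n).slice k).card : ℝ)) =
          ((B.d n ^ (8 * D ^ 7 * e)) ^ 15 * B.d n ^ (4 * D ^ 7 * e) / 32 ^ 5) *
          (((G n).slice k).card : ℝ) := by ring
      rw [e1, hD15, ← rpow_add']
      refine mul_le_mul_of_nonneg_right ?_ hS0.le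
      rw [le_div_iff₀ (by norm_num)]
      have := hcst (32 ^ 5) (120 * D ^ 7 * e + 4 * D ^ 7 * e) (by linarith)
        ε (by linarith)
      linarith only [this]
    · have := hpos (8 * D ^ 7 * e)
      positivity
  · intro l hl l' hl'
    obtain ⟨k1, k2, k3, k4⟩ := hrel l hl l' hl'
    exact ⟨k1.trans e1, k2.trans e1, k3.trans e2, k4.trans e2⟩

/-- **one height** -/
theorem quad_one (H : RUnif B G Leg ν D)
    (Q : QRow B G x M C p0 pA pp pv pP vP pc a b c s β ζ Z Φ kp)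
    (P : QProf Leg ν x m p0 pA pp pv ppv pP vP pc) {ε : ℝ} (hε : 0 < ε) :
    ∀ᶠ n in (U : Filter ℕ), ∀ k, ((G n).slice k).Nonempty → ∃ l1 l2 m1 m2 : ℝ,
      |l1| ≤ B.d n ^ (-ε) ∧ |l2| ≤ B.d n ^ (-ε) ∧ |m1| ≤ B.d n ^ (-ε) ∧ |m2| ≤ B.d n ^ (-ε) ∧
      ∃ L2 ⊆ (G n).slice k, B.d n ^ ε * (((G n).slice k).card : ℝ) ≤ L2.card ∧
        ∀ l ∈ L2, ∀ l' ∈ L2, QRel (kp n) l1 l2 m1 m2 (B.d n ^ (x - ε)) (a n k) (b n k) (c n k)
          (s n k) (β n k) (ζ n k) (Z n k) l l' := by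
  have hD := H.D1
  have hC := Q.C1
  have hx := Q.x0
  have hm := P.m0
  set t := min x ε with ht
  have ht0 : 0 < t := lt_min hx hε
  set K := 10000 * (C * D ^ 10 + D ^ 7 + D ^ 7 / m + 1) with hK
  have hD7 : 1 ≤ D ^ 7 := one_le_pow₀ hD
  have hD10 : 1 ≤ D ^ 10 := one_le_pow₀ hD
  have hCD : 1 ≤ C * D ^ 10 := by nlinarith
  have hDm : 0 < D ^ 7 / m := by positivity
  have hK0 : 0 < K := by positivity
  set e := t / K with he
  have he0 : 0 < e := by positivity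
  have heK : K * e = t := by rw [he]; field_simp
  have htx : t ≤ x := min_le_left _ _
  have htε : t ≤ ε := min_le_right _ _
  have q1 : 0 ≤ C * D ^ 10 * e := by positivity
  have q2 : 0 ≤ D ^ 7 * e := by positivity
  have q3 : 0 ≤ D ^ 7 / m * e := by positivity
  have hexp : K * e = 10000 * (C * D ^ 10 * e) + 10000 * (D ^ 7 * e) +
      10000 * (D ^ 7 / m * e) + 10000 * e := by rw [hK]; ring
  have e1 : 101 * D ^ 7 * e / m = 101 * (D ^ 7 / m * e) := by ring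
  have e2 : 202 * D ^ 7 * e / m = 202 * (D ^ 7 / m * e) := by ring
  refine quad_fix H Q P he0 ?_ ?_ ?_ ?_
  · rw [e1]; linarith
  · linarith
  · linarith
  · rw [e2]; linarith

end Crest.Agent.R136.Qd329
end

-- ▼ part R136/Qd8_329

/-!
# R136: the bilinear rigidity (helper329), part 8: the second height, `quad_model`
-/

set_option autoImplicit false

open Filter Topology

namespace Crest.Agent.R136.Qd329

open Finset
open Crest.Agent.R138.Ex926 (Base U)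
open Crest.Agent.R136.Gf356

variable {κ : Type} {B : Base} {G : ℕ → RCfg κ} {Leg : Set (κ → ℝ)} {ν : (κ → ℝ) → ℝ}
  {D σ R x M C m : ℝ} {p0 pA pp pv ppv pP vP : κ → ℝ} {pc : ℝ → κ → ℝ}
  {a b c s β ζ Z Φ : ℕ → ℕ → ℕ → ℝ} {kp : ℕ → ℝ}

/-- rows of the evolution -/
structure QEvo (B : Base) (G : ℕ → RCfg κ) (x M : ℝ) (a b c β ζ : ℕ → ℕ → ℕ → ℝ) (kp : ℕ → ℝ) :
    Prop where
  zbd : ∀ᶠ n in (U : Filter ℕ), ∀ k ∈ (G n).Z, ∀ k' ∈ (G n).Z, |(G n).z k' - (G n).z k| ≤ M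
  evo : ∀ ε : ℝ, 0 < ε → ∀ᶠ n in (U : Filter ℕ), ∀ k k' l, (l, k) ∈ (G n).I → (l, k') ∈ (G n).I →
    |a n k' l - (a n k l + ((G n).z k' - (G n).z k) * c n k l)| ≤ B.d n ^ (x - ε) ∧
    |b n k' l - (b n k l - kp n * ((G n).z k' - (G n).z k) * c n k l ^ 2)| ≤ B.d n ^ (x - ε) ∧
    |c n k' l - c n k l| ≤ B.d n ^ (x - ε) ∧
    |β n k' l - (β n k l + ((G n).z k' - (G n).z k) * ζ n k l)| ≤ B.d n ^ (x - ε)

/-- a second height with many lines -/
theorem second_height (H : RModel B G σ R Leg ν D) (hσ : 0 < σ) {e : ℝ} (he : 0 < e)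
    (heR : 4 * e / σ ≤ R) :
    ∀ᶠ n in (U : Filter ℕ), ∀ k0, ∀ L2 ⊆ (G n).slice k0, k0 ∈ (G n).Z → L2.Nonempty →
      ∃ k1 ∈ (G n).Z, B.d n ^ (4 * e / σ) < |(G n).z k1 - (G n).z k0| ∧
        B.d n ^ (2 * e) * (L2.card : ℝ) ≤ ((L2.filter fun l => (l, k1) ∈ (G n).I).card : ℝ) := by
  classical
  filter_upwards [H.line e he, H.frost (4 * e / σ) (by positivity) heR e he,
    ev_const_le B he 2] with n hline hfr h2 k0 L2 hL2 hk0 hne
  have hpos : ∀ t : ℝ, 0 < B.d n ^ t := fun t => rpos B n t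
  by_contra hcon
  push Not at hcon
  have hL0 : (0 : ℝ) < L2.card := by exact_mod_cast hne.card_pos
  have hZ0 : (0 : ℝ) < (G n).Z.card := by exact_mod_cast card_pos.2 ⟨k0, hk0⟩
  -- double count
  have h3 : ∑ l ∈ L2, (((G n).hts l).card : ℝ) =
      ∑ k ∈ (G n).Z, ((L2.filter fun l => (l, k) ∈ (G n).I).card : ℝ) := by
    have : ∑ l ∈ L2, ((G n).hts l).card =
        ∑ k ∈ (G n).Z, (L2.filter fun l => (l, k) ∈ (G n).I).card := by
      simp only [RCfg.hts, card_filter]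
      exact sum_comm
    exact_mod_cast this
  have h4 : B.d n ^ e * (G n).Z.card * L2.card ≤ ∑ l ∈ L2, (((G n).hts l).card : ℝ) := by
    calc B.d n ^ e * (G n).Z.card * L2.card = ∑ _l ∈ L2, B.d n ^ e * ((G n).Z.card : ℝ) := by
          rw [sum_const, nsmul_eq_mul]; ring
      _ ≤ _ := sum_le_sum fun l hl => hline l (RCfg.mem_slice.1 (hL2 hl)).1
  have h5 := hfr k0 hk0
  have e1 : σ * (4 * e / σ) - e = 3 * e := by field_simp; ring
  rw [e1] at h5
  have h6 : ∑ k ∈ (G n).Z, ((L2.filter fun l => (l, k) ∈ (G n).I).card : ℝ) ≤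
      B.d n ^ (3 * e) * (G n).Z.card * L2.card + (G n).Z.card * (B.d n ^ (2 * e) * L2.card) := by
    have h7 : (G n).Z = (G n).hbox (4 * e / σ) k0 ∪
        ((G n).Z.filter fun k => k ∉ (G n).hbox (4 * e / σ) k0) := by
      ext k
      simp only [mem_union, mem_filter, RCfg.hbox]
      tauto
    have h8 : ∑ k ∈ (G n).Z, ((L2.filter fun l => (l, k) ∈ (G n).I).card : ℝ) ≤
        ∑ k ∈ (G n).hbox (4 * e / σ) k0, ((L2.filter fun l => (l, k) ∈ (G n).I).card : ℝ) +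
        ∑ k ∈ (G n).Z.filter fun k => k ∉ (G n).hbox (4 * e / σ) k0,
          ((L2.filter fun l => (l, k) ∈ (G n).I).card : ℝ) := by
      conv_lhs => rw [h7]
      rw [← sum_union_inter]
      have : 0 ≤ ∑ k ∈ (G n).hbox (4 * e / σ) k0 ∩
          ((G n).Z.filter fun k => k ∉ (G n).hbox (4 * e / σ) k0),
          ((L2.filter fun l => (l, k) ∈ (G n).I).card : ℝ) :=
        sum_nonneg fun _ _ => Nat.cast_nonneg _
      linarith
    have h9 : ∑ k ∈ (G n).hbox (4 * e / σ) k0, ((L2.filter fun l => (l, k) ∈ (G n).I).card : ℝ) ≤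
        B.d n ^ (3 * e) * (G n).Z.card * L2.card := by
      calc _ ≤ ∑ _k ∈ (G n).hbox (4 * e / σ) k0, (L2.card : ℝ) :=
            sum_le_sum fun k _ => Nat.cast_le.2 (card_le_card (filter_subset _ _))
        _ = ((G n).hbox (4 * e / σ) k0).card * L2.card := by rw [sum_const, nsmul_eq_mul]
        _ ≤ _ := mul_le_mul_of_nonneg_right h5 hL0.le
    have h10 : ∑ k ∈ (G n).Z.filter fun k => k ∉ (G n).hbox (4 * e / σ) k0,
          ((L2.filter fun l => (l, k) ∈ (G n).I).card : ℝ) ≤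
        (G n).Z.card * (B.d n ^ (2 * e) * L2.card) := by
      calc _ ≤ ∑ _k ∈ (G n).Z.filter fun k => k ∉ (G n).hbox (4 * e / σ) k0,
            (B.d n ^ (2 * e) * (L2.card : ℝ)) := by
            refine sum_le_sum fun k hk => ?_
            obtain ⟨i1, i2⟩ := mem_filter.1 hk
            refine (hcon k i1 ?_).le
            by_contra hle
            exact i2 (mem_filter.2 ⟨i1, by rw [H.base n]; exact not_lt.1 hle⟩)
        _ = ((G n).Z.filter fun k => k ∉ (G n).hbox (4 * e / σ) k0).card *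
            (B.d n ^ (2 * e) * L2.card) := by rw [sum_const, nsmul_eq_mul]
        _ ≤ _ := mul_le_mul_of_nonneg_right (Nat.cast_le.2 (card_le_card (filter_subset _ _)))
          (mul_nonneg (hpos _).le hL0.le)
    linarith
  -- contradiction
  have h11 : B.d n ^ e * ((G n).Z.card * L2.card) ≤
      (B.d n ^ (3 * e) + B.d n ^ (2 * e)) * ((G n).Z.card * L2.card) := by
    have := h4.trans (h3.le.trans h6)
    nlinarith
  have hZL : (0 : ℝ) < (G n).Z.card * L2.card := mul_pos hZ0 hL0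
  have h12 := le_of_mul_le_mul_right h11 hZL
  have h13 : B.d n ^ (3 * e) < B.d n ^ (2 * e) :=
    Real.rpow_lt_rpow_of_exponent_gt (B.pos n) (B.lt n) (by linarith)
  have h14 : 2 * B.d n ^ (2 * e) ≤ B.d n ^ e := by
    have := mul_le_mul_of_nonneg_right h2 (hpos (2 * e)).le
    refine this.trans (le_of_eq ?_)
    rw [← rpow_add']
    congr 1
    ring
  linarith

set_option maxHeartbeats 600000 in
/-- **two lines of a position cell with separated `c`** -/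
theorem sep_pair (H : RUnif B G Leg ν D)
    (Q : QRow B G x M C p0 pA pp pv pP vP pc a b c s β ζ Z Φ kp)
    (P : QProf Leg ν x m p0 pA pp pv ppv pP vP pc) {e : ℝ} (he : 0 < e)
    (hx1 : 101 * D ^ 7 * e / m ≤ x / 4) (hx2 : C * D ^ 10 * e + e ≤ x / 4) :
    ∀ᶠ n in (U : Filter ℕ), ∀ k, ∀ T ⊆ (G n).slice k, T.Nonempty →
      B.d n ^ (4 * e) * (((G n).slice k).card : ℝ) ≤ T.card →
      ∃ l ∈ T, ∃ l' ∈ T, (G n).loose pp (D ^ 5 * e) k l l' ∧
        B.d n ^ (101 * D ^ 7 * e / m) / 3 < |c n k l' - c n k l| := by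
  classical
  have hD := H.D1
  have hD0 : 0 < D := by linarith
  filter_upwards [net_facts H p0 pp P.l0 P.lp Q.all he, net_facts H p0 pv P.l0 P.lv Q.all he,
    few_c H Q P he hx1 hx2, H.up ppv P.lpv (D ^ 5 * e) (by positivity), H.up p0 P.l0 e he,
    Q.all e he] with n np nv hfc hup hup0 hall k T hT hTne hTc
  have hpos : ∀ t : ℝ, 0 < B.d n ^ t := fun t => rpos B n t
  have hSne : ((G n).slice k).Nonempty := hTne.mono hT
  have hS0 : (0 : ℝ) < (((G n).slice k).card : ℝ) := by exact_mod_cast hSne.card_pos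
  obtain ⟨lp, a1, a2, a3, a4, a5⟩ := np k hSne
  obtain ⟨lv, b1, b2, b3, b4, b5⟩ := nv k hSne
  set S : ℝ := (((G n).slice k).card : ℝ) with hS
  have hSle : S ≤ B.d n ^ (-ν p0 - D * e) := by
    obtain ⟨l0, hl0⟩ := hSne
    have hl0I := H.memSlice.1 hl0
    refine le_trans (Nat.cast_le.2 (card_le_card ?_)) (hup0 l0 k hl0I)
    intro l hl
    exact RCfg.mem_box.2 ⟨hl, hall k l0 l hl0I (H.memSlice.1 hl)⟩
  have h66 : (D ^ 6 + 1) * e ≤ 2 * D ^ 6 * e := by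
    have : 1 ≤ D ^ 6 := one_le_pow₀ hD
    nlinarith
  have hV := (rpow_anti B n (s := -ν p0 + ν pv + (D ^ 6 + 1) * e)
    (t := -ν p0 + ν pv + 2 * D ^ 6 * e) (by linarith)).trans b5
  -- popular position cell
  obtain ⟨v, hv⟩ := pop1 T lp (N := B.d n ^ (ν pp - e) * S)
    (le_trans (Nat.cast_le.2 (card_le_card (image_subset_image hT))) a4)
  set F := T.filter fun t => lp t = v with hF
  have hFlow : B.d n ^ (5 * e - ν pp) ≤ F.card := by
    have h1 : B.d n ^ (4 * e) * S ≤ (B.d n ^ (ν pp - e) * S) * F.card := hTc.trans hv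
    have h2 : B.d n ^ (4 * e) ≤ B.d n ^ (ν pp - e) * F.card := by
      refine le_of_mul_le_mul_right (le_trans h1 (le_of_eq ?_)) hS0
      ring
    have h3 := mul_le_mul_of_nonneg_left h2 (hpos (-(ν pp - e))).le
    calc B.d n ^ (5 * e - ν pp) = B.d n ^ (-(ν pp - e)) * B.d n ^ (4 * e) := by
          rw [← rpow_add']; congr 1; ring
      _ ≤ B.d n ^ (-(ν pp - e)) * (B.d n ^ (ν pp - e) * F.card) := h3
      _ = F.card := by
          rw [← mul_assoc, ← rpow_add']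
          have : -(ν pp - e) + (ν pp - e) = 0 := by ring
          rw [this, Real.rpow_zero, one_mul]
  have hFne : F.Nonempty := by
    rw [← card_pos]
    have : (0 : ℝ) < F.card := lt_of_lt_of_le (hpos _) hFlow
    exact_mod_cast this
  obtain ⟨l, hl⟩ := hFne
  obtain ⟨hlT, hlv⟩ := mem_filter.1 hl
  by_contra hcon
  push Not at hcon
  have hFc : ∀ l' ∈ F, |c n k l' - c n k l| ≤ B.d n ^ (101 * D ^ 7 * e / m) / 3 := by
    intro l' hl'
    obtain ⟨i1, i2⟩ := mem_filter.1 hl'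
    exact hcon l hlT l' i1 (a2 l (hT hlT) l' (hT i1) (hlv.trans i2.symm))
  have hAc := hfc k lv ((G n).slice k) (Subset.refl _) b1 b3 hV (c n k l) (F.image lv)
    (image_subset_image ((filter_subset _ _).trans hT)) (by
      intro w hw
      obtain ⟨l', hl', rfl⟩ := mem_image.1 hw
      refine ⟨l', hT (mem_filter.1 hl').1, rfl, (hFc l' hl').trans (le_of_eq (by ring))⟩)
  have hFup : (F.card : ℝ) ≤ (B.d n ^ (97 * D ^ 7 * e) * (((G n).slice k).image lv).card) *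
      B.d n ^ (-ν ppv - D * (D ^ 5 * e)) := by
    refine card_le_img F lv hAc (hpos _).le fun w hw => ?_
    obtain ⟨l0, hl0, hw0⟩ := mem_image.1 hw
    obtain ⟨i1, i2⟩ := mem_filter.1 hl0
    refine le_trans (Nat.cast_le.2 (card_le_card ?_)) (hup l0 k (H.memSlice.1 (hT i1)))
    intro l' hl'
    obtain ⟨j1, j2⟩ := mem_filter.1 hl'
    obtain ⟨j3, j4⟩ := mem_filter.1 j1
    refine RCfg.mem_box.2 ⟨hT j3, fun j => ?_⟩
    rcases P.por j with hj | hj
    · rw [hj]; exact a2 l0 (hT i1) l' (hT j3) (i2.trans j4.symm) j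
    · rw [hj]; exact b2 l0 (hT i1) l' (hT j3) (hw0.trans j2.symm) j
  have hfin : (F.card : ℝ) ≤ B.d n ^ (90 * D ^ 7 * e - ν pp) := by
    refine hFup.trans ?_
    calc (B.d n ^ (97 * D ^ 7 * e) * (((G n).slice k).image lv).card) *
          B.d n ^ (-ν ppv - D * (D ^ 5 * e))
        ≤ (B.d n ^ (97 * D ^ 7 * e) * (B.d n ^ (ν pv - e) * B.d n ^ (-ν p0 - D * e))) *
          B.d n ^ (-ν ppv - D * (D ^ 5 * e)) := by
          have g1 := b4.trans (mul_le_mul_of_nonneg_left hSle (hpos _).le)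
          have := hpos (97 * D ^ 7 * e)
          have := hpos (-ν ppv - D * (D ^ 5 * e))
          gcongr
      _ = B.d n ^ (97 * D ^ 7 * e + ((ν pv - e) + (-ν p0 - D * e)) +
          (-ν ppv - D * (D ^ 5 * e))) := by
          simp only [rpow_add']
      _ ≤ _ := by
          refine rpow_anti B n ?_
          have i1 : D * (D ^ 5 * e) ≤ D ^ 7 * e := by
            have : D * (D ^ 5 * e) = D ^ 6 * e := by ring
            rw [this]
            exact mul_le_mul_of_nonneg_right (pow_le_pow_right₀ hD (by norm_num)) he.le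
          have i2 : D * e ≤ D ^ 7 * e := by
            refine mul_le_mul_of_nonneg_right ?_ he.le
            calc D = D ^ 1 := (pow_one D).symm
              _ ≤ D ^ 7 := pow_le_pow_right₀ hD (by norm_num)
          have i3 : e ≤ D ^ 7 * e := by
            have : 1 ≤ D ^ 7 := one_le_pow₀ hD
            nlinarith
          have i4 := P.H3
          linarith
  have hlt : B.d n ^ (90 * D ^ 7 * e - ν pp) < B.d n ^ (5 * e - ν pp) := by
    refine Real.rpow_lt_rpow_of_exponent_gt (B.pos n) (B.lt n) ?_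
    have : 1 ≤ D ^ 7 := one_le_pow₀ hD
    nlinarith
  linarith

/-- the second height, real numbers -/
theorem second_key {u l1 m1 m2 k M Λ δ : ℝ} {a b c β ζ a' b' c' β' ζ' A A' Bb Bb' E E' : ℝ}
    (hM : 1 ≤ M) (hΛ : 1 ≤ Λ) (hδ : 0 ≤ δ) (hu : |u| ≤ M) (hm1 : |m1| ≤ Λ) (hm2 : |m2| ≤ Λ)
    (pa : |A - A'| ≤ δ) (pb : |Bb - Bb'| ≤ δ) (pE : |E - E'| ≤ δ)
    (ea : |A - (a + u * c)| ≤ δ) (ea' : |A' - (a' + u * c')| ≤ δ)
    (eb : |Bb - (b - k * u * c ^ 2)| ≤ δ) (eb' : |Bb' - (b' - k * u * c' ^ 2)| ≤ δ)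
    (ee : |E - (β + u * ζ)| ≤ δ) (ee' : |E' - (β' + u * ζ')| ≤ δ)
    (rb : |(β - β') - m1 * (b - b') - m2 * (a - a')| ≤ δ)
    (rz : |(ζ - ζ') - l1 * (c - c') + k * m1 * (c ^ 2 - c' ^ 2)| ≤ δ) :
    |u * (l1 - m2) * (c - c')| ≤ 20 * M * Λ * δ := by
  have id1 : u * (l1 - m2) * (c - c') =
      (E - E') - m1 * (Bb - Bb') - m2 * (A - A') - ((E - (β + u * ζ)) - (E' - (β' + u * ζ'))) +
      m1 * ((Bb - (b - k * u * c ^ 2)) - (Bb' - (b' - k * u * c' ^ 2))) +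
      m2 * ((A - (a + u * c)) - (A' - (a' + u * c'))) -
      ((β - β') - m1 * (b - b') - m2 * (a - a')) -
      u * ((ζ - ζ') - l1 * (c - c') + k * m1 * (c ^ 2 - c' ^ 2)) := by ring
  have hδΛ : δ ≤ Λ * δ := by nlinarith
  have hΛδ : 0 ≤ Λ * δ := by positivity
  have t1 : ∀ p q : ℝ, |p| ≤ δ → |q| ≤ δ → |p - q| ≤ 2 * δ := by
    intro p q hp hq
    have := abs_sub p q
    linarith
  have t2 : ∀ p q : ℝ, |p| ≤ Λ → |q| ≤ 2 * δ → |p * q| ≤ 2 * (Λ * δ) := by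
    intro p q hp hq
    rw [abs_mul]
    calc |p| * |q| ≤ Λ * (2 * δ) := mul_le_mul hp hq (abs_nonneg _) (by linarith)
      _ = _ := by ring
  have s1 : |E - E'| ≤ 2 * (Λ * δ) := by linarith
  have s2 : |m1 * (Bb - Bb')| ≤ 2 * (Λ * δ) := t2 _ _ hm1 (by linarith)
  have s3 : |m2 * (A - A')| ≤ 2 * (Λ * δ) := t2 _ _ hm2 (by linarith)
  have s4 := t1 _ _ ee ee'
  have s5 := t2 _ _ hm1 (t1 _ _ eb eb')
  have s6 := t2 _ _ hm2 (t1 _ _ ea ea')
  have s8 : |u * ((ζ - ζ') - l1 * (c - c') + k * m1 * (c ^ 2 - c' ^ 2))| ≤ M * δ := by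
    rw [abs_mul]
    exact mul_le_mul hu rz (abs_nonneg _) (by linarith)
  have hMΛ : Λ * δ ≤ M * (Λ * δ) := by nlinarith
  have hMδ : M * δ ≤ M * (Λ * δ) := by nlinarith
  rw [id1]
  have tri : ∀ p1 p2 p3 p4 p5 p6 p7 p8 : ℝ, |p1 - p2 - p3 - p4 + p5 + p6 - p7 - p8| ≤
      |p1| + |p2| + |p3| + |p4| + |p5| + |p6| + |p7| + |p8| := by
    intro p1 p2 p3 p4 p5 p6 p7 p8
    have := abs_sub (p1 - p2 - p3 - p4 + p5 + p6 - p7) p8
    have := abs_sub (p1 - p2 - p3 - p4 + p5 + p6) p7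
    have := abs_add_le (p1 - p2 - p3 - p4 + p5) p6
    have := abs_add_le (p1 - p2 - p3 - p4) p5
    have := abs_sub (p1 - p2 - p3) p4
    have := abs_sub (p1 - p2) p3
    have := abs_sub p1 p2
    linarith
  refine (tri _ _ _ _ _ _ _ _).trans ?_
  linarith

/-- from the second height to the difference of the slopes -/
theorem second_div (B : Base) (n : ℕ) {M e E w y x ε d : ℝ} (hM : 1 ≤ M)
    (hK : 1000 * M ^ 2 ≤ B.d n ^ (-e)) {uu cc : ℝ} (hd : 0 ≤ d) (hu : B.d n ^ w ≤ uu)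
    (hc : B.d n ^ y / 6 ≤ cc)
    (key : uu * d * cc ≤ 20 * M * B.d n ^ (-e) * B.d n ^ (x - (E + e)))
    (hε : w + y + E + 3 * e ≤ ε) : d ≤ B.d n ^ (x - ε) := by
  have hpos : ∀ t : ℝ, 0 < B.d n ^ t := fun t => rpos B n t
  have hMM : M ≤ M ^ 2 := by nlinarith
  have hy0 := hpos y
  have hw0 := hpos w
  have h1 : B.d n ^ w * d * (B.d n ^ y / 6) ≤
      20 * M * B.d n ^ (-e) * B.d n ^ (x - (E + e)) := by
    refine le_trans ?_ key
    exact mul_le_mul (mul_le_mul_of_nonneg_right hu hd) hc (by positivity)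
      (mul_nonneg (hw0.le.trans hu) hd)
  have h2 : B.d n ^ (w + y) * d ≤ 120 * M * B.d n ^ (-e + (x - (E + e))) := by
    rw [rpow_add', rpow_add']
    have h5 : B.d n ^ w * B.d n ^ y * d = 6 * (B.d n ^ w * d * (B.d n ^ y / 6)) := by
      ring
    rw [h5]
    calc _ ≤ 6 * (20 * M * B.d n ^ (-e) * B.d n ^ (x - (E + e))) :=
          mul_le_mul_of_nonneg_left h1 (by norm_num)
      _ = _ := by ring
  have h3 := mul_le_mul_of_nonneg_left h2 (hpos (-(w + y))).le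
  rw [← mul_assoc, ← rpow_add', neg_add_cancel, Real.rpow_zero, one_mul] at h3
  refine h3.trans ?_
  have h4 : B.d n ^ (-(w + y)) * (120 * M * B.d n ^ (-e + (x - (E + e)))) =
      120 * M * B.d n ^ (-(w + y) + (-e + (x - (E + e)))) := by
    rw [rpow_add' B n (-(w + y))]
    ring
  rw [h4]
  calc 120 * M * B.d n ^ (-(w + y) + (-e + (x - (E + e))))
      ≤ B.d n ^ (-e) * B.d n ^ (-(w + y) + (-e + (x - (E + e)))) :=
        mul_le_mul_of_nonneg_right ((by linarith : 120 * M ≤ 1000 * M ^ 2).trans hK) (hpos _).le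
    _ = B.d n ^ (-e + (-(w + y) + (-e + (x - (E + e))))) := (rpow_add' B n _ _).symm
    _ ≤ _ := rpow_anti B n (by linarith)

set_option maxHeartbeats 1000000 in
/-- **one relation for positions and velocities on a dense part of all lines** -/
theorem quad_model (H : RModel B G σ R Leg ν D) (hσ : 0 < σ) (hR : 0 < R)
    (Q : QRow B G x M C p0 pA pp pv pP vP pc a b c s β ζ Z Φ kp)
    (V : QEvo B G x M a b c β ζ kp)
    (P : QProf Leg ν x m p0 pA pp pv ppv pP vP pc) {ε : ℝ} (hε : 0 < ε) :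
    ∀ᶠ n in (U : Filter ℕ), ∃ k ∈ (G n).Z, ∃ l1 l2 m1 m2 : ℝ,
      |l1| ≤ B.d n ^ (-ε) ∧ |l2| ≤ B.d n ^ (-ε) ∧ |m1| ≤ B.d n ^ (-ε) ∧ |m2| ≤ B.d n ^ (-ε) ∧
      |l1 - m2| ≤ B.d n ^ (x - ε) ∧
      ∃ L2 ⊆ (G n).slice k, B.d n ^ ε * ((G n).L.card : ℝ) ≤ L2.card ∧
        ∀ l ∈ L2, ∀ l' ∈ L2, QRel (kp n) l1 l2 m1 m2 (B.d n ^ (x - ε)) (a n k) (b n k) (c n k)
          (s n k) (β n k) (ζ n k) (Z n k) l l' := by
  classical
  have hD := H.D1
  have hC := Q.C1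
  have hx := Q.x0
  have hm := P.m0
  have hM := Q.M1
  set t := min (min x ε) R with ht
  have ht0 : 0 < t := lt_min (lt_min hx hε) hR
  set K := 10000 * (C * D ^ 10 + D ^ 7 + D ^ 7 / m + 1 + 1 / σ) with hK
  have hD7 : 1 ≤ D ^ 7 := one_le_pow₀ hD
  have hD10 : 1 ≤ D ^ 10 := one_le_pow₀ hD
  have hCD : 1 ≤ C * D ^ 10 := by nlinarith
  have hDm : 0 < D ^ 7 / m := by positivity
  have hσ1 : 0 < 1 / σ := by positivity
  have hK0 : 0 < K := by positivity
  set e := t / K with he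
  have he0 : 0 < e := by positivity
  have heK : K * e = t := by rw [he]; field_simp
  have htx : t ≤ x := (min_le_left _ _).trans (min_le_left _ _)
  have htε : t ≤ ε := (min_le_left _ _).trans (min_le_right _ _)
  have htR : t ≤ R := min_le_right _ _
  have q1 : 0 ≤ C * D ^ 10 * e := by positivity
  have q2 : 0 ≤ D ^ 7 * e := by positivity
  have q3 : 0 ≤ D ^ 7 / m * e := by positivity
  have q4 : 0 ≤ 1 / σ * e := by positivity
  have hexp : K * e = 10000 * (C * D ^ 10 * e) + 10000 * (D ^ 7 * e) +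
      10000 * (D ^ 7 / m * e) + 10000 * e + 10000 * (1 / σ * e) := by rw [hK]; ring
  have e1 : 101 * D ^ 7 * e / m = 101 * (D ^ 7 / m * e) := by ring
  have e3 : 4 * e / σ = 4 * (1 / σ * e) := by ring
  set y := 101 * D ^ 7 * e / m with hy
  set w := 4 * e / σ with hw
  have h510 : C * (D ^ 5 * e) ≤ C * D ^ 10 * e := by
    have h5 : D ^ 5 ≤ D ^ 10 := pow_le_pow_right₀ hD (by norm_num)
    have h6 := mul_le_mul_of_nonneg_right h5 he0.le
    have h7 := mul_le_mul_of_nonneg_left h6 (by linarith : (0 : ℝ) ≤ C)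
    linarith
  filter_upwards [quad_one H.toRUnif Q P he0,
    second_height H hσ he0 (by rw [← hw, e3]; linarith),
    sep_pair H.toRUnif Q P he0 (by rw [← hy, e1]; linarith) (by linarith),
    H.slice e he0, V.zbd, V.evo e he0, Q.bd, Q.pcl _ (show 0 < D ^ 5 * e by positivity),
    ev_const_le B he0 (1000 * M ^ 2)] with n hone hsec hsep hsl hzb hevo hbd hpc hK2
  have hpos : ∀ t : ℝ, 0 < B.d n ^ t := fun t => rpos B n t
  have hcst : ∀ w t : ℝ, w ≤ 1000 * M ^ 2 → ∀ t', t + e ≤ t' → w * B.d n ^ t' ≤ B.d n ^ t := by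
    intro w t hw t' ht
    calc w * B.d n ^ t' ≤ B.d n ^ (-e) * B.d n ^ t' :=
          mul_le_mul_of_nonneg_right (hw.trans hK2) (hpos _).le
      _ = B.d n ^ (-e + t') := by rw [rpow_add']
      _ ≤ _ := rpow_anti B n (by linarith)
  have hM2 : 1 ≤ M ^ 2 := one_le_pow₀ hM
  have hMM : M ≤ M ^ 2 := by nlinarith
  obtain ⟨⟨i0, k0⟩, hik⟩ := H.nonempty n
  have hk0 : k0 ∈ (G n).Z := H.memZ hik
  have hSne : ((G n).slice k0).Nonempty := ⟨i0, H.memSlice.2 hik⟩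
  obtain ⟨l1, l2, m1, m2, hl1, hl2, hm1, hm2, L2, hL2, hc2, hrel⟩ := hone k0 hSne
  have hLL : (0 : ℝ) < (G n).L.card := by exact_mod_cast card_pos.2 ⟨i0, H.memL hik⟩
  have hS0 : (0 : ℝ) < (((G n).slice k0).card : ℝ) := by exact_mod_cast hSne.card_pos
  have hL2ne : L2.Nonempty := by
    rw [← card_pos]
    have : (0 : ℝ) < L2.card := lt_of_lt_of_le (mul_pos (hpos _) hS0) hc2
    exact_mod_cast this
  have hL2c : B.d n ^ (2 * e) * ((G n).L.card : ℝ) ≤ L2.card := by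
    have h1 := mul_le_mul_of_nonneg_left (hsl k0 hk0) (hpos e).le
    refine le_trans (le_of_eq ?_) (h1.trans hc2)
    rw [← mul_assoc, ← rpow_add']
    congr 2
    ring
  obtain ⟨k1, hk1, hu, hT⟩ := hsec k0 L2 hL2 hk0 hL2ne
  set T := L2.filter fun l => (l, k1) ∈ (G n).I with hTd
  have hTS : T ⊆ (G n).slice k1 := fun l hl => H.memSlice.2 (mem_filter.1 hl).2
  have hTne : T.Nonempty := by
    rw [← card_pos]
    have hL0 : (0 : ℝ) < L2.card := by exact_mod_cast hL2ne.card_pos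
    have : (0 : ℝ) < T.card := lt_of_lt_of_le (mul_pos (hpos _) hL0) hT
    exact_mod_cast this
  have hTc : B.d n ^ (4 * e) * (((G n).slice k1).card : ℝ) ≤ T.card := by
    have h1 := mul_le_mul_of_nonneg_left hL2c (hpos (2 * e)).le
    have h2 : (((G n).slice k1).card : ℝ) ≤ (G n).L.card :=
      Nat.cast_le.2 (card_le_card (filter_subset _ _))
    refine le_trans (mul_le_mul_of_nonneg_left h2 (hpos _).le) (le_trans (le_of_eq ?_)
      (h1.trans hT))
    rw [← mul_assoc, ← rpow_add']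
    congr 2
    ring
  obtain ⟨l, hl, l', hl', hloose, hsepc⟩ := hsep k1 T hTS hTne hTc
  obtain ⟨hlL, hlI1⟩ := mem_filter.1 hl
  obtain ⟨hlL', hlI1'⟩ := mem_filter.1 hl'
  have hlI0 := H.memSlice.1 (hL2 hlL)
  have hlI0' := H.memSlice.1 (hL2 hlL')
  obtain ⟨pa, pb, -, pβ⟩ := hpc k1 l l' hlI1 hlI1' hloose
  obtain ⟨ea, eb, ec, eβ⟩ := hevo k0 k1 l hlI0 hlI1
  obtain ⟨ea', eb', ec', eβ'⟩ := hevo k0 k1 l' hlI0' hlI1'
  obtain ⟨-, rβ, rζ, -⟩ := hrel l hlL l' hlL'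
  set u := (G n).z k1 - (G n).z k0 with hud
  have huM : |u| ≤ M := hzb k0 hk0 k1 hk1
  -- all errors
  set δ := B.d n ^ (x - (C * D ^ 10 * e + e)) with hδ
  have hδ0 : 0 < δ := hpos _
  have m1' : B.d n ^ (x - C * (D ^ 5 * e)) ≤ δ := rpow_anti B n (by linarith)
  have m2' : B.d n ^ (x - e) ≤ δ := rpow_anti B n (by linarith)
  set Λ := B.d n ^ (-e) with hΛ
  have hΛ1 : 1 ≤ Λ := by
    have := hcst 1 (-e) (by linarith) 0 (by linarith)
    rwa [Real.rpow_zero, mul_one] at this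
  have key : |u * (l1 - m2) * (c n k0 l - c n k0 l')| ≤ 20 * M * Λ * δ :=
    second_key hM hΛ1 hδ0.le huM hm1 hm2 (pa.trans m1') (pb.trans m1') (pβ.trans m1')
      (ea.trans m2') (ea'.trans m2') (eb.trans m2') (eb'.trans m2') (eβ.trans m2')
      (eβ'.trans m2') (rβ.trans m2') (rζ.trans m2')
  have hcsep : B.d n ^ y / 6 ≤ |c n k0 l - c n k0 l'| := by
    have h1 : c n k1 l' - c n k1 l = -(c n k0 l - c n k0 l') + (c n k1 l' - c n k0 l') -
        (c n k1 l - c n k0 l) := by ring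
    have h2 := abs_sub (-(c n k0 l - c n k0 l') + (c n k1 l' - c n k0 l')) (c n k1 l - c n k0 l)
    have h3 := abs_add_le (-(c n k0 l - c n k0 l')) (c n k1 l' - c n k0 l')
    rw [abs_neg] at h3
    rw [h1] at hsepc
    have h4 := hcst 12 y (by linarith) (x - e) (by rw [e1]; linarith)
    linarith
  refine ⟨k0, hk0, l1, l2, m1, m2, hl1.trans (rpow_anti B n (by linarith)),
    hl2.trans (rpow_anti B n (by linarith)), hm1.trans (rpow_anti B n (by linarith)),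
    hm2.trans (rpow_anti B n (by linarith)), ?_, L2, hL2,
    le_trans (mul_le_mul_of_nonneg_right (rpow_anti B n (by linarith)) hLL.le) hL2c, ?_⟩
  · rw [abs_mul, abs_mul] at key
    refine second_div B n hM hK2 (abs_nonneg _) hu.le hcsep key ?_
    have e4 : 4 * e / σ = w := hw.symm
    linarith
  · intro l hl l' hl'
    obtain ⟨k1, k2, k3, k4⟩ := hrel l hl l' hl'
    have h1 : B.d n ^ (x - e) ≤ B.d n ^ (x - ε) := rpow_anti B n (by linarith)
    exact ⟨k1.trans h1, k2.trans h1, k3.trans h1, k4.trans h1⟩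

end Crest.Agent.R136.Qd329
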