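import Crest.Agent.R136.Qd3_329
import Crest.Agent.R136.Qd8_329

-- ▼ part R136/Cub1_191
section

/-!
# R136, the specials of the thin pins (helper191), part 1: finite form

`CGrid` : lines at one height with position cells `pc` (data `a, F, Q`), velocity cells `vc` (data
`c, β, Y, K`) and a function `Φ` such that `Φ + κ a² Y + a K + κ c Q` is constant on position cells
and `Φ + β F` is constant on velocity cells.

* `lonely_card` : few lines have no partner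
* `CGrid.rel3`, `CGrid.slopes` : the relation of two velocity cells which meet the same position cells
* `cgrid` : on a dense part `F` is affine in `a`, `Y` is affine in `c`, and `K` is known
-/

set_option autoImplicit false

namespace Crest.Agent.R136.Cub191

open Finset Crest.Agent.R136.Qd329

open Classical in
/-- **few lines have no partner** -/
theorem lonely_card {α γ : Type*} (L : Finset α) (key : α → γ) (S : Finset γ)
    (hS : ∀ l ∈ L, key l ∈ S) (R : α → α → Prop) {W2 : ℝ} (hW : 0 ≤ W2)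
    (h : ∀ l0 ∈ L, ((L.filter fun l => key l = key l0 ∧ R l0 l).card : ℝ) ≤ W2)
    {L1 : Finset α} (hL1 : L1 ⊆ L) :
    ((L1.filter fun l => ∀ l' ∈ L1, key l' = key l → R l l').card : ℝ) ≤ W2 * S.card := by
  set B := L1.filter fun l => ∀ l' ∈ L1, key l' = key l → R l l' with hB
  have h1 : B.card = ∑ s ∈ S, (B.filter fun l => key l = s).card := by
    refine card_eq_sum_card_fiberwise fun l hl => ?_
    exact mem_coe.2 (hS l (hL1 (mem_filter.1 (mem_coe.1 hl)).1))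
  rw [h1]
  push_cast
  have h2 : ∀ s ∈ S, (((B.filter fun l => key l = s).card : ℕ) : ℝ) ≤ W2 := by
    intro s _
    rcases (B.filter fun l => key l = s).eq_empty_or_nonempty with h0 | ⟨l0, hl0⟩
    · rw [h0, card_empty, Nat.cast_zero]; exact hW
    · obtain ⟨a1, a2⟩ := mem_filter.1 hl0
      obtain ⟨a3, a4⟩ := mem_filter.1 a1
      refine le_trans ?_ (h l0 (hL1 a3))
      refine Nat.cast_le.2 (card_le_card fun l hl => ?_)
      obtain ⟨b1, b2⟩ := mem_filter.1 hl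
      obtain ⟨b3, b4⟩ := mem_filter.1 b1
      exact mem_filter.2 ⟨hL1 b3, b2.trans a2.symm, a4 l b3 (b2.trans a2.symm)⟩
  calc _ ≤ ∑ s ∈ S, W2 := sum_le_sum h2
    _ = W2 * S.card := by rw [sum_const, nsmul_eq_mul]; ring

open Classical in
/-- **most lines have a partner** -/
theorem partner_card {α γ : Type*} (L : Finset α) (key : α → γ) (S : Finset γ)
    (hS : ∀ l ∈ L, key l ∈ S) (R : α → α → Prop) {W2 : ℝ} (hW : 0 ≤ W2)
    (h : ∀ l0 ∈ L, ((L.filter fun l => key l = key l0 ∧ R l0 l).card : ℝ) ≤ W2)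
    {L1 : Finset α} (hL1 : L1 ⊆ L) (hd : W2 * S.card ≤ (L1.card : ℝ) / 2) :
    ∃ L2 ⊆ L1, (L1.card : ℝ) / 2 ≤ L2.card ∧
      ∀ l ∈ L2, ∃ l' ∈ L1, key l' = key l ∧ ¬ R l l' := by
  refine ⟨L1.filter fun l => ¬ ∀ l' ∈ L1, key l' = key l → R l l', filter_subset _ _, ?_, ?_⟩
  · have h1 := card_filter_add_card_filter_not (s := L1)
      (fun l => ∀ l' ∈ L1, key l' = key l → R l l')
    have h2 := lonely_card L key S hS R hW h hL1
    have h3 : ((L1.filter fun l => ∀ l' ∈ L1, key l' = key l → R l l').card : ℝ) +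
        ((L1.filter fun l => ¬ ∀ l' ∈ L1, key l' = key l → R l l').card : ℝ) = L1.card := by
      exact_mod_cast h1
    linarith
  · intro l hl
    have h1 := (mem_filter.1 hl).2
    push Not at h1
    exact h1

/-- lines at one height with position cells and velocity cells -/
structure CGrid {α : Type*} (L : Finset α) (pc vc : α → ℕ) (a F Q c β Y K Φ : α → ℝ)
    (κ M δ : ℝ) : Prop where
  M1 : 1 ≤ M
  δ0 : 0 ≤ δ
  κ1 : |κ| ≤ 1
  bd : ∀ l ∈ L, |a l| ≤ M ∧ |F l| ≤ M ∧ |Q l| ≤ M ∧ |c l| ≤ M ∧ |β l| ≤ M ∧ |Y l| ≤ M ∧ |K l| ≤ M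
  pcl : ∀ l ∈ L, ∀ l' ∈ L, pc l = pc l' →
    |a l - a l'| ≤ δ ∧ |F l - F l'| ≤ δ ∧ |Q l - Q l'| ≤ δ
  vcl : ∀ l ∈ L, ∀ l' ∈ L, vc l = vc l' →
    |c l - c l'| ≤ δ ∧ |β l - β l'| ≤ δ ∧ |Y l - Y l'| ≤ δ ∧ |K l - K l'| ≤ δ
  pP : ∀ l ∈ L, ∀ l' ∈ L, pc l = pc l' →
    |(Φ l + κ * a l ^ 2 * Y l + a l * K l + κ * (c l * Q l)) -
      (Φ l' + κ * a l' ^ 2 * Y l' + a l' * K l' + κ * (c l' * Q l'))| ≤ δ
  vP : ∀ l ∈ L, ∀ l' ∈ L, vc l = vc l' → |(Φ l + β l * F l) - (Φ l' + β l' * F l')| ≤ δ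

variable {α : Type*} {L : Finset α} {pc vc : α → ℕ} {a F Q c β Y K Φ : α → ℝ} {κ M δ : ℝ}

theorem CGrid.rel3 (G : CGrid L pc vc a F Q c β Y K Φ κ M δ) {l k t r t1 r1 : α} (hl : l ∈ L)
    (hk : k ∈ L) (ht : t ∈ L) (hr : r ∈ L) (ht1 : t1 ∈ L) (hr1 : r1 ∈ L) (v1 : vc t = vc l)
    (v2 : vc t1 = vc l) (v3 : vc r = vc k) (v4 : vc r1 = vc k) (p1 : pc t = pc r)
    (p2 : pc t1 = pc r1) :
    |κ * (a r ^ 2 - a r1 ^ 2) * (Y l - Y k) + (a r - a r1) * (K l - K k) +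
      κ * ((c l - c k) * (Q r - Q r1)) - (β l - β k) * (F r - F r1)| ≤ 50 * M ^ 2 * δ := by
  have hM := G.M1
  have hδ := G.δ0
  have hMM : M * δ ≤ M ^ 2 * δ := mul_le_mul_of_nonneg_right (by nlinarith) hδ
  have hM1 : δ ≤ M * δ := by nlinarith
  -- position cells
  have P : ∀ t r : α, t ∈ L → r ∈ L → vc t = vc l → vc r = vc k → pc t = pc r →
      |(Φ t - Φ r) + κ * a r ^ 2 * (Y l - Y k) + a r * (K l - K k) +
        κ * ((c l - c k) * Q r)| ≤ 15 * M ^ 2 * δ := by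
    intro t r ht hr w1 w2 w3
    obtain ⟨t1, t2, t3, t4, t5, t6, t7⟩ := G.bd t ht
    obtain ⟨r1, r2, r3, r4, r5, r6, r7⟩ := G.bd r hr
    obtain ⟨l1, l2, l3, l4, l5, l6, l7⟩ := G.bd l hl
    obtain ⟨k1, k2, k3, k4, k5, k6, k7⟩ := G.bd k hk
    obtain ⟨x1, x2, x3, x4⟩ := G.vcl t ht l hl w1
    obtain ⟨y1, y2, y3, y4⟩ := G.vcl r hr k hk w2
    obtain ⟨z1, z2, z3⟩ := G.pcl t ht r hr w3
    have h0 := G.pP t ht r hr w3
    have z0 : |a r - a r| ≤ δ := by rw [sub_self, abs_zero]; exact hδ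
    have q0 : |Q r - Q r| ≤ δ := by rw [sub_self, abs_zero]; exact hδ
    have a1 := sq_close G.κ1 hM z1 x3 t1 r1 l6
    have a2 := mul_close z1 x4 t1 l7
    have a3 := mul_close x1 z3 t4 r3
    have b1 := sq_close G.κ1 hM z0 y3 r1 r1 k6
    have b2 := mul_close z0 y4 r1 k7
    have b3 := mul_close y1 q0 r4 r3
    have a3' : |κ * (c t * Q t - c l * Q r)| ≤ 2 * M * δ := by
      rw [abs_mul]
      calc _ ≤ 1 * (2 * M * δ) := mul_le_mul G.κ1 a3 (abs_nonneg _) zero_le_one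
        _ = _ := one_mul _
    have b3' : |κ * (c r * Q r - c k * Q r)| ≤ 2 * M * δ := by
      rw [abs_mul]
      calc _ ≤ 1 * (2 * M * δ) := mul_le_mul G.κ1 b3 (abs_nonneg _) zero_le_one
        _ = _ := one_mul _
    have e : (Φ t - Φ r) + κ * a r ^ 2 * (Y l - Y k) + a r * (K l - K k) +
        κ * ((c l - c k) * Q r) =
        ((Φ t + κ * a t ^ 2 * Y t + a t * K t + κ * (c t * Q t)) -
          (Φ r + κ * a r ^ 2 * Y r + a r * K r + κ * (c r * Q r))) -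
        (κ * a t ^ 2 * Y t - κ * a r ^ 2 * Y l) - (a t * K t - a r * K l) -
        κ * (c t * Q t - c l * Q r) + (κ * a r ^ 2 * Y r - κ * a r ^ 2 * Y k) +
        (a r * K r - a r * K k) + κ * (c r * Q r - c k * Q r) := by ring
    rw [e]
    rw [abs_le] at h0 a1 a2 a3' b1 b2 b3' ⊢
    constructor <;> linarith [h0.1, h0.2, a1.1, a1.2, a2.1, a2.2, a3'.1, a3'.2, b1.1, b1.2, b2.1,
      b2.2, b3'.1, b3'.2]
  -- velocity cells
  have Vv : ∀ m : α, m ∈ L → ∀ t t1 r r1 : α, t ∈ L → t1 ∈ L → r ∈ L → r1 ∈ L → vc t = vc m →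
      vc t1 = vc m → pc t = pc r → pc t1 = pc r1 →
      |(Φ t - Φ t1) + β m * (F r - F r1)| ≤ 5 * M * δ := by
    intro m hm t t1 r r1 ht ht1 hr hr1 w1 w2 w3 w4
    obtain ⟨_, s2, _, _, s5, _, _⟩ := G.bd t ht
    obtain ⟨_, s2', _, _, s5', _, _⟩ := G.bd t1 ht1
    obtain ⟨_, u2, _, _, u5, _, _⟩ := G.bd r hr
    obtain ⟨_, u2', _, _, u5', _, _⟩ := G.bd r1 hr1
    obtain ⟨_, x2, _, _⟩ := G.vcl t ht m hm w1
    obtain ⟨_, y2, _, _⟩ := G.vcl t1 ht1 m hm w2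
    obtain ⟨_, z2, _⟩ := G.pcl t ht r hr w3
    obtain ⟨_, z2', _⟩ := G.pcl t1 ht1 r1 hr1 w4
    have h0 := G.vP t ht t1 ht1 (w1.trans w2.symm)
    have a1 := mul_close x2 z2 s5 u2
    have a2 := mul_close y2 z2' s5' u2'
    have e : (Φ t - Φ t1) + β m * (F r - F r1) = ((Φ t + β t * F t) - (Φ t1 + β t1 * F t1)) -
        (β t * F t - β m * F r) + (β t1 * F t1 - β m * F r1) := by ring
    rw [e]
    rw [abs_le] at h0 a1 a2 ⊢
    constructor <;> linarith [h0.1, h0.2, a1.1, a1.2, a2.1, a2.2]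
  have g1 := P t r ht hr v1 v3 p1
  have g2 := P t1 r1 ht1 hr1 v2 v4 p2
  have g3 := Vv l hl t t1 r r1 ht ht1 hr hr1 v1 v2 p1 p2
  have g4 := Vv k hk r r1 r r1 hr hr1 hr hr1 v3 v4 rfl rfl
  have e : κ * (a r ^ 2 - a r1 ^ 2) * (Y l - Y k) + (a r - a r1) * (K l - K k) +
      κ * ((c l - c k) * (Q r - Q r1)) - (β l - β k) * (F r - F r1) =
      ((Φ t - Φ r) + κ * a r ^ 2 * (Y l - Y k) + a r * (K l - K k) + κ * ((c l - c k) * Q r)) -
      ((Φ t1 - Φ r1) + κ * a r1 ^ 2 * (Y l - Y k) + a r1 * (K l - K k) +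
        κ * ((c l - c k) * Q r1)) -
      ((Φ t - Φ t1) + β l * (F r - F r1)) + ((Φ r - Φ r1) + β k * (F r - F r1)) := by ring
  rw [e]
  rw [abs_le] at g1 g2 g3 g4 ⊢
  constructor <;> linarith [g1.1, g1.2, g2.1, g2.2, g3.1, g3.2, g4.1, g4.2]

/-- division of an estimate by a number which is not small -/
theorem div_le_of {x y e r : ℝ} (hr : 0 < r) (he : 0 ≤ e) (hy : r ≤ |y|) (h : |x| ≤ e) :
    |x / y| ≤ e / r := by
  rw [abs_div]
  exact div_le_div₀ he h hr hy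

/-- slope between two points -/
noncomputable def dd (x1 x2 y1 y2 : ℝ) : ℝ := (y2 - y1) / (x2 - x1)

theorem slopes {a1 a2 a3 F1 F2 F3 Q1 Q2 Q3 ΔY ΔK Δc Δβ κ κ0 r e : ℝ} (hr : 0 < r) (hκ0 : 0 < κ0)
    (hκ : κ0 ≤ |κ|) (he : 0 ≤ e) (h2 : r ≤ |a2 - a1|) (h3 : r ≤ |a3 - a1|) (h32 : r ≤ |a3 - a2|)
    (R2 : |κ * (a2 ^ 2 - a1 ^ 2) * ΔY + (a2 - a1) * ΔK + κ * (Δc * (Q2 - Q1)) - Δβ * (F2 - F1)| ≤ e)
    (R3 : |κ * (a3 ^ 2 - a1 ^ 2) * ΔY + (a3 - a1) * ΔK + κ * (Δc * (Q3 - Q1)) - Δβ * (F3 - F1)| ≤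
      e) :
    |ΔK + κ * (a1 + a2) * ΔY + κ * dd a1 a2 Q1 Q2 * Δc - dd a1 a2 F1 F2 * Δβ| ≤ e / r ∧
    |ΔY + dd a2 a3 (dd a1 a2 Q1 Q2) (dd a1 a3 Q1 Q3) * Δc -
      dd a2 a3 (dd a1 a2 F1 F2) (dd a1 a3 F1 F3) / κ * Δβ| ≤ 2 * e / (κ0 * r ^ 2) := by
  have n2 : a2 - a1 ≠ 0 := fun h => by rw [h, abs_zero] at h2; linarith
  have n3 : a3 - a1 ≠ 0 := fun h => by rw [h, abs_zero] at h3; linarith
  have n32 : a3 - a2 ≠ 0 := fun h => by rw [h, abs_zero] at h32; linarith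
  have nκ : κ ≠ 0 := fun h => by rw [h, abs_zero] at hκ; linarith
  have d2 := div_le_of hr he h2 R2
  have d3 := div_le_of hr he h3 R3
  have e2 : (κ * (a2 ^ 2 - a1 ^ 2) * ΔY + (a2 - a1) * ΔK + κ * (Δc * (Q2 - Q1)) -
      Δβ * (F2 - F1)) / (a2 - a1) =
      ΔK + κ * (a1 + a2) * ΔY + κ * dd a1 a2 Q1 Q2 * Δc - dd a1 a2 F1 F2 * Δβ := by
    unfold dd; field_simp; ring
  have e3 : (κ * (a3 ^ 2 - a1 ^ 2) * ΔY + (a3 - a1) * ΔK + κ * (Δc * (Q3 - Q1)) -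
      Δβ * (F3 - F1)) / (a3 - a1) =
      ΔK + κ * (a1 + a3) * ΔY + κ * dd a1 a3 Q1 Q3 * Δc - dd a1 a3 F1 F3 * Δβ := by
    unfold dd; field_simp; ring
  rw [e2] at d2
  rw [e3] at d3
  refine ⟨d2, ?_⟩
  set q2 := dd a1 a2 Q1 Q2 with hq2
  set q3 := dd a1 a3 Q1 Q3 with hq3
  set f2 := dd a1 a2 F1 F2 with hf2
  set f3 := dd a1 a3 F1 F3 with hf3
  have h4 : |κ * (a3 - a2) * ΔY + κ * (q3 - q2) * Δc - (f3 - f2) * Δβ| ≤ 2 * (e / r) := by
    have e4 : κ * (a3 - a2) * ΔY + κ * (q3 - q2) * Δc - (f3 - f2) * Δβ =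
      (ΔK + κ * (a1 + a3) * ΔY + κ * q3 * Δc - f3 * Δβ) -
      (ΔK + κ * (a1 + a2) * ΔY + κ * q2 * Δc - f2 * Δβ) := by ring
    rw [e4]
    have := abs_sub (ΔK + κ * (a1 + a3) * ΔY + κ * q3 * Δc - f3 * Δβ)
      (ΔK + κ * (a1 + a2) * ΔY + κ * q2 * Δc - f2 * Δβ)
    linarith
  have h5 : κ0 * r ≤ |κ * (a3 - a2)| := by
    rw [abs_mul]; exact mul_le_mul hκ h32 hr.le (abs_nonneg _)
  have h6 := div_le_of (by positivity : 0 < κ0 * r) (by positivity : 0 ≤ 2 * (e / r)) h5 h4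
  have e5 : (κ * (a3 - a2) * ΔY + κ * (q3 - q2) * Δc - (f3 - f2) * Δβ) / (κ * (a3 - a2)) =
      ΔY + dd a2 a3 q2 q3 * Δc - dd a2 a3 f2 f3 / κ * Δβ := by
    unfold dd; field_simp
  rw [e5] at h6
  refine h6.trans (le_of_eq ?_)
  field_simp

theorem dd_le {x1 x2 y1 y2 r M : ℝ} (hr : 0 < r) (h : r ≤ |x2 - x1|) (h1 : |y1| ≤ M)
    (h2 : |y2| ≤ M) : |dd x1 x2 y1 y2| ≤ 2 * M / r := by
  have hM : 0 ≤ M := (abs_nonneg _).trans h1
  refine div_le_of hr (by linarith) h ?_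
  have := abs_sub y2 y1
  linarith

/-- counting hypotheses -/
structure CCnt {α : Type*} (L : Finset α) (pc vc cc : α → ℕ) (a c β Y : α → ℝ)
    (P V Cc : Finset ℕ) (W W2 δ r q η : ℝ) : Prop where
  hp : ∀ l ∈ L, pc l ∈ P
  hv : ∀ l ∈ L, vc l ∈ V
  hcc : ∀ l ∈ L, cc l ∈ Cc
  W0 : 0 < W
  W20 : 0 ≤ W2
  fib : ∀ p v, ((L.filter fun l => pc l = p ∧ vc l = v).card : ℝ) ≤ W
  η0 : 0 ≤ η
  hs : ∀ t : ℝ, ∀ A ⊆ P, (∀ p ∈ A, ∃ l ∈ L, pc l = p ∧ |a l - t| ≤ 2 * r) →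
    (A.card : ℝ) ≤ η * P.card
  ccl : ∀ l ∈ L, ∀ l' ∈ L, cc l = cc l' → |c l - c l'| ≤ δ ∧ |Y l - Y l'| ≤ δ
  fib2 : ∀ l0 ∈ L, ((L.filter fun l => (pc l, cc l) = (pc l0, cc l0) ∧ |β l0 - β l| < q).card : ℝ) ≤
    W2

open Classical in
theorem badA_card (G : CGrid L pc vc a F Q c β Y K Φ κ M δ) {cc : α → ℕ} {P V Cc : Finset ℕ}
    {W W2 D r q η : ℝ} (C : CCnt L pc vc cc a c β Y P V Cc W W2 δ r q η) (hδr : δ ≤ r)
    (hη : 3 * η ≤ D ^ 3 / 16) :
    (((P ×ˢ P ×ˢ P).filter fun t => BadV L pc a r t.1 t.2.1 t.2.2).card : ℝ) ≤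
      D ^ 3 / 16 * (P.card : ℝ) ^ 3 := by
  have hclc : ∀ v1, ∀ A ⊆ P, (∀ v ∈ A, ClP L pc a r v1 v) → (A.card : ℝ) ≤ η * P.card := by
    intro v1 A hA hcA
    rcases A.eq_empty_or_nonempty with h | ⟨v0, hv0⟩
    · rw [h, card_empty, Nat.cast_zero]
      have := C.η0
      positivity
    · obtain ⟨k, hk, -, -, hkv, -, -⟩ := hcA v0 hv0
      refine C.hs (a k) A hA fun v hv => ?_
      obtain ⟨l, hl, l', hl', e1, e2, e3⟩ := hcA v hv
      refine ⟨l', hl', e2, ?_⟩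
      have h1 := (G.pcl l hl k hk (e1.trans hkv.symm)).1
      have e4 : a l' - a k = (a l - a k) - (a l - a l') := by ring
      rw [e4]
      have := abs_sub (a l - a k) (a l - a l')
      linarith
  have h1 := bad_card P (ClP L pc a r) (BadV L pc a r) (η := η) (η' := 2 * η)
    (by linarith [C.η0])
    (fun v1 _ => hclc v1 _ (filter_subset _ _) fun v hv => (mem_filter.1 hv).2)
    (fun v1 _ v2 _ hn => by
      have h2 : (P.filter fun v3 => BadV L pc a r v1 v2 v3) ⊆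
          (P.filter fun v3 => ClP L pc a r v1 v3) ∪ (P.filter fun v3 => ClP L pc a r v2 v3) := by
        intro v3 hv3
        obtain ⟨a1, a2⟩ := mem_filter.1 hv3
        rcases a2 with a2 | a2 | a2
        · exact absurd a2 hn
        · exact mem_union_left _ (mem_filter.2 ⟨a1, a2⟩)
        · exact mem_union_right _ (mem_filter.2 ⟨a1, a2⟩)
      have h3 := (card_le_card h2).trans (card_union_le _ _)
      have h4 : (((P.filter fun v3 => BadV L pc a r v1 v2 v3).card : ℕ) : ℝ) ≤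
          ((P.filter fun v3 => ClP L pc a r v1 v3).card : ℝ) +
          ((P.filter fun v3 => ClP L pc a r v2 v3).card : ℝ) := by
        exact_mod_cast h3
      have h5 := hclc v1 (P.filter fun v3 => ClP L pc a r v1 v3) (filter_subset _ _)
        fun v hv => (mem_filter.1 hv).2
      have h6 := hclc v2 (P.filter fun v3 => ClP L pc a r v2 v3) (filter_subset _ _)
        fun v hv => (mem_filter.1 hv).2
      linarith)
  refine h1.trans ?_
  have : 0 ≤ (P.card : ℝ) ^ 3 := by positivity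
  nlinarith

end Crest.Agent.R136.Cub191
end

-- ▼ part R136/Cub2_191
section

/-!
# R136, the specials of the thin pins (helper191), part 2: `cgrid`
-/

set_option autoImplicit false

namespace Crest.Agent.R136.Cub191

open Finset Crest.Agent.R136.Qd329

variable {α : Type*} {L : Finset α} {pc vc : α → ℕ} {a F Q c β Y K Φ : α → ℝ} {κ M δ : ℝ}

/-- output of `cgrid` -/
structure COut (L2 : Finset α) (a F c β Y K : α → ℝ) (κ a1 a2 a3 F1 F2 F3 Q1 Q2 Q3 E : ℝ) :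
    Prop where
  oY : ∀ l ∈ L2, ∀ l' ∈ L2,
    |(Y l - Y l') + dd a2 a3 (dd a1 a2 Q1 Q2) (dd a1 a3 Q1 Q3) * (c l - c l')| ≤ E
  oF : ∀ l ∈ L2, ∀ l' ∈ L2, |(F l - F l') - dd a1 a2 F1 F2 * (a l - a l')| ≤ E
  oK : ∀ l ∈ L2, ∀ l' ∈ L2, |(K l - K l') + κ * (a1 + a2) * (Y l - Y l') +
    κ * dd a1 a2 Q1 Q2 * (c l - c l') - dd a1 a2 F1 F2 * (β l - β l')| ≤ E
  og : |dd a2 a3 (dd a1 a2 F1 F2) (dd a1 a3 F1 F3)| ≤ E

set_option maxHeartbeats 1600000 in
open Classical in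
/-- **the bilinear rigidity of the specials** -/
theorem cgrid (G : CGrid L pc vc a F Q c β Y K Φ κ M δ) {cc : α → ℕ} {P V Cc : Finset ℕ}
    {W W2 D r q η κ0 : ℝ} (C : CCnt L pc vc cc a c β Y P V Cc W W2 δ r q η) (hL : L.Nonempty)
    (hD : 0 < D) (dens : D * W * P.card * V.card ≤ L.card) (hη : 3 * η ≤ D ^ 3 / 16)
    (dens2 : W2 * (P.card * Cc.card) ≤ D ^ 3 / 64 * (L.card : ℝ)) (hδr : δ ≤ r) (hr : 0 < r)
    (hr1 : r ≤ 1) (hq : 0 < q) (hq1 : q ≤ 1) (hκ0 : 0 < κ0) (hκ01 : κ0 ≤ 1) (hκ : κ0 ≤ |κ|) :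
    ∃ r1 ∈ L, ∃ r2 ∈ L, ∃ r3 ∈ L, r ≤ |a r2 - a r1| ∧ r ≤ |a r3 - a r1| ∧ r ≤ |a r3 - a r2| ∧
      ∃ L2 ⊆ L, D ^ 3 / 64 * (L.card : ℝ) ≤ L2.card ∧
        COut L2 a F c β Y K κ (a r1) (a r2) (a r3) (F r1) (F r2) (F r3) (Q r1) (Q r2) (Q r3)
          (1000 * M ^ 3 * δ / (κ0 * r ^ 2 * q)) := by
  have hM := G.M1
  have hδ := G.δ0
  have hL0 : (0 : ℝ) < L.card := by exact_mod_cast hL.card_pos
  have dens' : D * W * V.card * P.card ≤ L.card := by
    have e : D * W * V.card * P.card = D * W * P.card * V.card := by ring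
    rw [e]; exact dens
  obtain ⟨p1, -, p2, -, p3, -, hgood, L1, hL1, hcard, hcomp⟩ :=
    triple_pigeon L vc pc V P C.hv C.hp C.W0 hD (fun v p => by
      refine le_trans ?_ (C.fib p v)
      refine Nat.cast_le.2 (card_le_card fun l hl => ?_)
      obtain ⟨x1, x2, x3⟩ := mem_filter.1 hl
      exact mem_filter.2 ⟨x1, x3, x2⟩) hL dens' _ (badA_card G C hδr hη)
  have hL1ne : L1.Nonempty := by
    rw [← card_pos]
    have : (0 : ℝ) < L1.card := lt_of_lt_of_le (by positivity) hcard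
    exact_mod_cast this
  obtain ⟨k, hk⟩ := hL1ne
  obtain ⟨⟨r1, hr1L, er1, fr1⟩, ⟨r2, hr2L, er2, fr2⟩, ⟨r3, hr3L, er3, fr3⟩⟩ := hcomp k hk
  have s12 : r ≤ |a r2 - a r1| := by
    rw [abs_sub_comm]
    by_contra h
    exact hgood (Or.inl ⟨r1, hr1L, r2, hr2L, fr1, fr2, not_le.1 h⟩)
  have s13 : r ≤ |a r3 - a r1| := by
    rw [abs_sub_comm]
    by_contra h
    exact hgood (Or.inr (Or.inl ⟨r1, hr1L, r3, hr3L, fr1, fr3, not_le.1 h⟩))
  have s23 : r ≤ |a r3 - a r2| := by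
    rw [abs_sub_comm]
    by_contra h
    exact hgood (Or.inr (Or.inr ⟨r2, hr2L, r3, hr3L, fr2, fr3, not_le.1 h⟩))
  have he0 : 0 ≤ 50 * M ^ 2 * δ := by positivity
  set q2 := dd (a r1) (a r2) (Q r1) (Q r2) with hq2
  set f2 := dd (a r1) (a r2) (F r1) (F r2) with hf2
  set q' := dd (a r2) (a r3) q2 (dd (a r1) (a r3) (Q r1) (Q r3)) with hq'
  set g := dd (a r2) (a r3) f2 (dd (a r1) (a r3) (F r1) (F r3)) with hg
  -- against the line k
  have base : ∀ l ∈ L1,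
      |(K l - K k) + κ * (a r1 + a r2) * (Y l - Y k) + κ * q2 * (c l - c k) - f2 * (β l - β k)| ≤
        50 * M ^ 2 * δ / r ∧
      |(Y l - Y k) + q' * (c l - c k) - g / κ * (β l - β k)| ≤
        2 * (50 * M ^ 2 * δ) / (κ0 * r ^ 2) := by
    intro l hl
    obtain ⟨⟨t1, ht1, e1, f1⟩, ⟨t2, ht2, e2, f2'⟩, ⟨t3, ht3, e3, f3⟩⟩ := hcomp l hl
    have R2 := G.rel3 (hL1 hl) (hL1 hk) ht2 hr2L ht1 hr1L e2 e1 er2 er1 (f2'.trans fr2.symm)
      (f1.trans fr1.symm)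
    have R3 := G.rel3 (hL1 hl) (hL1 hk) ht3 hr3L ht1 hr1L e3 e1 er3 er1 (f3.trans fr3.symm)
      (f1.trans fr1.symm)
    exact slopes hr hκ0 hκ he0 s12 s13 s23 R2 R3
  obtain ⟨eK, heK⟩ : ∃ x, x = 50 * M ^ 2 * δ / r := ⟨_, rfl⟩
  obtain ⟨eY, heY⟩ : ∃ x, x = 2 * (50 * M ^ 2 * δ) / (κ0 * r ^ 2) := ⟨_, rfl⟩
  have pairK : ∀ l ∈ L1, ∀ l' ∈ L1,
      |(K l - K l') + κ * (a r1 + a r2) * (Y l - Y l') + κ * q2 * (c l - c l') -
        f2 * (β l - β l')| ≤ 2 * eK := by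
    intro l hl l' hl'
    have k1 := (base l hl).1
    have k2 := (base l' hl').1
    rw [← heK] at k1 k2
    rw [abs_le] at k1 k2 ⊢
    constructor <;> linarith only [k1.1, k1.2, k2.1, k2.2]
  have pairY : ∀ l ∈ L1, ∀ l' ∈ L1,
      |(Y l - Y l') + q' * (c l - c l') - g / κ * (β l - β l')| ≤ 2 * eY := by
    intro l hl l' hl'
    have k1 := (base l hl).2
    have k2 := (base l' hl').2
    rw [← heY] at k1 k2
    rw [abs_le] at k1 k2 ⊢
    constructor <;> linarith only [k1.1, k1.2, k2.1, k2.2]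
  -- sizes
  obtain ⟨ba1, bF1, bQ1, -, -, -, -⟩ := G.bd r1 hr1L
  obtain ⟨ba2, bF2, bQ2, -, -, -, -⟩ := G.bd r2 hr2L
  obtain ⟨ba3, bF3, bQ3, -, -, -, -⟩ := G.bd r3 hr3L
  have bq2 : |q2| ≤ 2 * M / r := dd_le hr s12 bQ1 bQ2
  have bf2 : |f2| ≤ 2 * M / r := dd_le hr s12 bF1 bF2
  have bq' : |q'| ≤ 2 * (2 * M / r) / r := dd_le hr s23 bq2 (dd_le hr s13 bQ1 bQ3)
  -- partners
  obtain ⟨L2, hL2, hc2, hpart⟩ := partner_card L (fun l => (pc l, cc l)) (P ×ˢ Cc)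
    (fun l hl => mem_product.2 ⟨C.hp l hl, C.hcc l hl⟩) (fun l l' => |β l - β l'| < q) C.W20
    (fun l0 hl0 => by convert C.fib2 l0 hl0) hL1 (by
      rw [card_product]
      push_cast
      refine dens2.trans ?_
      linarith)
  have hL2c : D ^ 3 / 64 * (L.card : ℝ) ≤ L2.card := by linarith
  have hL2ne : L2.Nonempty := by
    rw [← card_pos]
    have : (0 : ℝ) < L2.card := lt_of_lt_of_le (by positivity) hL2c
    exact_mod_cast this
  have hpart' : ∀ l ∈ L2, ∃ l' ∈ L1, pc l' = pc l ∧ |c l' - c l| ≤ δ ∧ |Y l' - Y l| ≤ δ ∧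
      q ≤ |β l' - β l| := by
    intro l hl
    obtain ⟨l', hl', e1, e2⟩ := hpart l hl
    have e3 : pc l' = pc l := (Prod.mk.inj e1).1
    have e4 : cc l' = cc l := (Prod.mk.inj e1).2
    obtain ⟨x1, x2⟩ := C.ccl l' (hL1 hl') l (hL1 (hL2 hl)) e4
    exact ⟨l', hl', e3, x1, x2, by rw [abs_sub_comm]; exact not_lt.1 e2⟩
  -- the coefficient of β
  have hκpos : 0 < κ0 * r ^ 2 := by positivity
  have hE1 : eY = 100 * M ^ 2 * δ / (κ0 * r ^ 2) := by rw [heY]; ring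
  have dE : ∀ x : ℝ, 0 ≤ x → x ≤ x / (κ0 * r ^ 2) := by
    intro x hx
    rw [le_div_iff₀ hκpos]
    have : κ0 * r ^ 2 ≤ 1 := by
      have h1 : r ^ 2 ≤ 1 := by nlinarith
      nlinarith
    nlinarith
  have dR : ∀ x : ℝ, 0 ≤ x → x / r ≤ x / (κ0 * r ^ 2) := by
    intro x hx
    refine div_le_div_of_nonneg_left hx hκpos ?_
    nlinarith
  have dR2 : ∀ x : ℝ, 0 ≤ x → x / r / r ≤ x / (κ0 * r ^ 2) := by
    intro x hx
    rw [div_div]
    refine div_le_div_of_nonneg_left hx hκpos ?_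
    nlinarith [sq_nonneg r]
  obtain ⟨U, hU⟩ : ∃ U, U = δ / (κ0 * r ^ 2) := ⟨_, rfl⟩
  have hU0 : 0 ≤ U := by rw [hU]; positivity
  have hM2 : 1 ≤ M ^ 2 := by nlinarith
  have hMM2 : M ≤ M ^ 2 := by nlinarith
  have hM23 : M ^ 2 ≤ M ^ 3 := by nlinarith [sq_nonneg M]
  have xδ : δ ≤ U := by rw [hU]; exact dE δ hδ
  have xMr : 2 * (2 * M / r) / r * δ ≤ 4 * M * U := by
    have h1 := dR2 (4 * M * δ) (by positivity)
    have e1 : 2 * (2 * M / r) / r * δ = 4 * M * δ / r / r := by ring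
    have e2 : 4 * M * δ / (κ0 * r ^ 2) = 4 * M * U := by rw [hU]; ring
    rw [e1, ← e2]; exact h1
  have xY : eY = 100 * M ^ 2 * U := by rw [hE1, hU]; ring
  have xK : eK ≤ 50 * M ^ 2 * U := by
    have h1 := dR (50 * M ^ 2 * δ) he0
    have e2 : 50 * M ^ 2 * δ / (κ0 * r ^ 2) = 50 * M ^ 2 * U := by rw [hU]; ring
    rw [heK, ← e2]; exact h1
  have hgκ : |g / κ| ≤ 205 * M ^ 2 * U / q := by
    obtain ⟨l, hl⟩ := hL2ne
    obtain ⟨l', hl', -, x1, x2, x3⟩ := hpart' l hl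
    have k1 := pairY l' hl' l (hL2 hl)
    have k2 : |g / κ * (β l' - β l)| ≤ 2 * eY + δ + 2 * (2 * M / r) / r * δ := by
      have e : g / κ * (β l' - β l) = ((Y l' - Y l) + q' * (c l' - c l)) -
        ((Y l' - Y l) + q' * (c l' - c l) - g / κ * (β l' - β l)) := by ring
      rw [e]
      have h1 : |q' * (c l' - c l)| ≤ 2 * (2 * M / r) / r * δ := by
        rw [abs_mul]; exact mul_le_mul bq' x1 (abs_nonneg _) (by positivity)
      have h2 := abs_sub ((Y l' - Y l) + q' * (c l' - c l))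
        ((Y l' - Y l) + q' * (c l' - c l) - g / κ * (β l' - β l))
      have h3 := abs_add_le (Y l' - Y l) (q' * (c l' - c l))
      linarith only [h1, h2, h3, k1, x2]
    have k3 : |g / κ| * q ≤ 205 * M ^ 2 * U := by
      rw [abs_mul] at k2
      have h1 : |g / κ| * q ≤ |g / κ| * |β l' - β l| :=
        mul_le_mul_of_nonneg_left x3 (abs_nonneg _)
      have h2 : M * U ≤ M ^ 2 * U := mul_le_mul_of_nonneg_right hMM2 hU0
      have h3 : U ≤ M ^ 2 * U := le_mul_of_one_le_left hU0 hM2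
      rw [xY] at k2
      linarith only [h1, h2, h3, k2, xδ, xMr]
    rw [le_div_iff₀ hq]; exact k3
  obtain ⟨T, hT⟩ : ∃ T, T = U / q := ⟨_, rfl⟩
  have hT0 : 0 ≤ T := by rw [hT]; positivity
  have hUT : U ≤ T := by
    rw [hT, le_div_iff₀ hq]
    nlinarith
  have hE : 1000 * M ^ 3 * δ / (κ0 * r ^ 2 * q) = 1000 * M ^ 3 * T := by
    rw [hT, hU]; field_simp
  have hgκ' : |g / κ| ≤ 205 * M ^ 2 * T := by
    refine hgκ.trans (le_of_eq ?_)
    rw [hT]; ring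
  have m23T : M ^ 2 * T ≤ M ^ 3 * T := mul_le_mul_of_nonneg_right hM23 hT0
  have m2UT : M ^ 2 * U ≤ M ^ 2 * T := mul_le_mul_of_nonneg_left hUT (by positivity)
  refine ⟨r1, hr1L, r2, hr2L, r3, hr3L, s12, s13, s23, L2, hL2.trans hL1, hL2c, ?_⟩
  rw [hE]
  refine ⟨?_, ?_, ?_, ?_⟩
  · intro l hl l' hl'
    have k1 := pairY l (hL2 hl) l' (hL2 hl')
    obtain ⟨-, -, -, -, b1, -, -⟩ := G.bd l (hL1 (hL2 hl))
    obtain ⟨-, -, -, -, b2, -, -⟩ := G.bd l' (hL1 (hL2 hl'))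
    have h1 : |g / κ * (β l - β l')| ≤ 205 * M ^ 2 * T * (2 * M) := by
      rw [abs_mul]
      refine mul_le_mul hgκ' ?_ (abs_nonneg _) (by positivity)
      have := abs_sub (β l) (β l')
      linarith
    have e : (Y l - Y l') + q' * (c l - c l') = ((Y l - Y l') + q' * (c l - c l') -
      g / κ * (β l - β l')) + g / κ * (β l - β l') := by ring
    rw [e]
    refine (abs_add_le _ _).trans ?_
    rw [xY] at k1
    have e2 : 205 * M ^ 2 * T * (2 * M) = 410 * M ^ 3 * T := by ring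
    rw [e2] at h1
    have y7 : 0 ≤ M ^ 3 * T := by positivity
    linarith only [k1, h1, y7, m23T, m2UT]
  · -- F
    have fk1 : ∀ l ∈ L2, |(F l - F r1) - f2 * (a l - a r1)| ≤ 300 * M ^ 3 * T := by
      intro l hl
      obtain ⟨l', hl', ep, x1, x2, x3⟩ := hpart' l hl
      have hlL1 := hL2 hl
      have hlL := hL1 hlL1
      have hlL' := hL1 hl'
      obtain ⟨⟨c1, hc1, ev1, fv1⟩, -, -⟩ := hcomp l hlL1
      obtain ⟨⟨c1', hc1', ev1', fv1'⟩, -, -⟩ := hcomp l' hl'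
      have k1 := G.rel3 hlL' hlL hlL' hlL hc1' hc1 rfl ev1' rfl ev1 ep (fv1'.trans fv1.symm)
      have k2 := pairK l' hl' l hlL1
      obtain ⟨z1, z2, -⟩ := G.pcl c1 hc1 r1 hr1L (fv1.trans fr1.symm)
      obtain ⟨al, Fl, Ql, -, -, -, -⟩ := G.bd l hlL
      obtain ⟨ac, Fc, Qc, -, -, -, -⟩ := G.bd c1 hc1
      have t1 : |κ * (a l ^ 2 - a c1 ^ 2) * (Y l' - Y l)| ≤ 2 * M ^ 2 * δ := by
        rw [abs_mul, abs_mul]
        have h1 : |a l ^ 2 - a c1 ^ 2| ≤ 2 * M ^ 2 := by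
          have y1 : |a l ^ 2| ≤ M ^ 2 := by
            rw [abs_pow]; exact pow_le_pow_left₀ (abs_nonneg _) al 2
          have y2 : |a c1 ^ 2| ≤ M ^ 2 := by
            rw [abs_pow]; exact pow_le_pow_left₀ (abs_nonneg _) ac 2
          have := abs_sub (a l ^ 2) (a c1 ^ 2)
          linarith
        have h2 : |κ| * |a l ^ 2 - a c1 ^ 2| ≤ 1 * (2 * M ^ 2) :=
          mul_le_mul G.κ1 h1 (abs_nonneg _) zero_le_one
        rw [one_mul] at h2
        exact mul_le_mul h2 x2 (abs_nonneg _) (by positivity)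
      have t2 : |κ * ((c l' - c l) * (Q l - Q c1))| ≤ 2 * M * δ := by
        rw [abs_mul, abs_mul]
        have h1 : |Q l - Q c1| ≤ 2 * M := by have := abs_sub (Q l) (Q c1); linarith
        have h2 : |c l' - c l| * |Q l - Q c1| ≤ δ * (2 * M) :=
          mul_le_mul x1 h1 (abs_nonneg _) hδ
        calc _ ≤ 1 * (δ * (2 * M)) := mul_le_mul G.κ1 h2 (by positivity) zero_le_one
          _ = _ := by ring
      have t3 : |κ * (a r1 + a r2) * (Y l' - Y l)| ≤ 2 * M * δ := by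
        rw [abs_mul, abs_mul]
        have h1 : |a r1 + a r2| ≤ 2 * M := (abs_add_le _ _).trans (by linarith)
        have h2 : |κ| * |a r1 + a r2| ≤ 1 * (2 * M) :=
          mul_le_mul G.κ1 h1 (abs_nonneg _) zero_le_one
        rw [one_mul] at h2
        exact mul_le_mul h2 x2 (abs_nonneg _) (by linarith)
      have t4 : |κ * q2 * (c l' - c l)| ≤ 2 * M / r * δ := by
        rw [abs_mul, abs_mul]
        have h2 : |κ| * |q2| ≤ 1 * (2 * M / r) := mul_le_mul G.κ1 bq2 (abs_nonneg _) zero_le_one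
        rw [one_mul] at h2
        exact mul_le_mul h2 x1 (abs_nonneg _) (by positivity)
      have xr : 2 * M / r * δ ≤ 2 * M * U := by
        have h1 := dR (2 * M * δ) (by positivity)
        have e1 : 2 * M / r * δ = 2 * M * δ / r := by ring
        have e2 : 2 * M * δ / (κ0 * r ^ 2) = 2 * M * U := by rw [hU]; ring
        rw [e1, ← e2]; exact h1
      -- K
      have k3 : |(K l' - K l) - f2 * (β l' - β l)| ≤ 2 * eK + 2 * M * δ + 2 * M * U := by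
        have e : (K l' - K l) - f2 * (β l' - β l) = ((K l' - K l) +
          κ * (a r1 + a r2) * (Y l' - Y l) + κ * q2 * (c l' - c l) - f2 * (β l' - β l)) -
          κ * (a r1 + a r2) * (Y l' - Y l) - κ * q2 * (c l' - c l) := by ring
        rw [e]
        rw [abs_le] at k2 t3 t4 ⊢
        constructor <;> linarith only [k2.1, k2.2, t3.1, t3.2, t4.1, t4.2, xr]
      have k4 : |(a l - a c1) * ((K l' - K l) - f2 * (β l' - β l))| ≤
          2 * M * (2 * eK + 2 * M * δ + 2 * M * U) := by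
        rw [abs_mul]
        refine mul_le_mul ?_ k3 (abs_nonneg _) (by linarith)
        have := abs_sub (a l) (a c1)
        linarith
      have k5 : |(β l' - β l) * ((F l - F c1) - f2 * (a l - a c1))| ≤
          50 * M ^ 2 * δ + 2 * M ^ 2 * δ + 2 * M * δ + 2 * M * (2 * eK + 2 * M * δ + 2 * M * U) := by
        have e : (β l' - β l) * ((F l - F c1) - f2 * (a l - a c1)) =
          -(κ * (a l ^ 2 - a c1 ^ 2) * (Y l' - Y l) + (a l - a c1) * (K l' - K l) +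
            κ * ((c l' - c l) * (Q l - Q c1)) - (β l' - β l) * (F l - F c1)) +
          κ * (a l ^ 2 - a c1 ^ 2) * (Y l' - Y l) + κ * ((c l' - c l) * (Q l - Q c1)) +
          (a l - a c1) * ((K l' - K l) - f2 * (β l' - β l)) := by ring
        rw [e]
        rw [abs_le] at k1 t1 t2 k4 ⊢
        constructor <;> linarith only [k1.1, k1.2, t1.1, t1.2, t2.1, t2.2, k4.1, k4.2]
      have k6 : |(F l - F c1) - f2 * (a l - a c1)| * q ≤ 262 * M ^ 3 * U := by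
        rw [abs_mul] at k5
        have h1 : |(F l - F c1) - f2 * (a l - a c1)| * q ≤
            |β l' - β l| * |(F l - F c1) - f2 * (a l - a c1)| := by
          rw [mul_comm]
          exact mul_le_mul_of_nonneg_right x3 (abs_nonneg _)
        have y1 : M ^ 2 * δ ≤ M ^ 2 * U := mul_le_mul_of_nonneg_left xδ (by positivity)
        have y2 : M ^ 2 * U ≤ M ^ 3 * U := mul_le_mul_of_nonneg_right hM23 hU0
        have y3 : M * δ ≤ M ^ 2 * U := mul_le_mul hMM2 xδ hδ (by positivity)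
        have y4 : M * eK ≤ 50 * M ^ 3 * U := by
          calc M * eK ≤ M * (50 * M ^ 2 * U) := mul_le_mul_of_nonneg_left xK (by linarith)
            _ = _ := by ring
        have e9 : 2 * M * (2 * eK + 2 * M * δ + 2 * M * U) =
          4 * (M * eK) + 4 * (M ^ 2 * δ) + 4 * (M ^ 2 * U) := by ring
        rw [e9] at k5
        linarith only [h1, k5, y1, y2, y3, y4]
      have k7 : |(F l - F c1) - f2 * (a l - a c1)| ≤ 262 * M ^ 3 * T := by
        have e : 262 * M ^ 3 * T = 262 * M ^ 3 * U / q := by rw [hT]; ring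
        rw [e, le_div_iff₀ hq]; exact k6
      have k8 : |f2 * (a c1 - a r1)| ≤ 2 * M * U := by
        rw [abs_mul]
        exact (mul_le_mul bf2 z1 (abs_nonneg _) (by positivity)).trans xr
      have e : (F l - F r1) - f2 * (a l - a r1) = ((F l - F c1) - f2 * (a l - a c1)) +
        (F c1 - F r1) - f2 * (a c1 - a r1) := by ring
      rw [e]
      have y5 : M * U ≤ M ^ 3 * T := by
        have : M * U ≤ M ^ 3 * U := mul_le_mul_of_nonneg_right (by linarith) hU0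
        exact this.trans (mul_le_mul_of_nonneg_left hUT (by positivity))
      have y7 : 0 ≤ M ^ 3 * T := by positivity
      have y6 : δ ≤ M ^ 3 * T := by
        refine (xδ.trans hUT).trans (le_mul_of_one_le_left hT0 ?_)
        exact one_le_pow₀ hM
      rw [abs_le] at k7 z2 k8 ⊢
      constructor <;> linarith only [k7.1, k7.2, z2.1, z2.2, k8.1, k8.2, y5, y6, y7]
    intro l hl l' hl'
    have k1 := fk1 l hl
    have k2 := fk1 l' hl'
    have y7 : 0 ≤ M ^ 3 * T := by positivity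
    rw [abs_le] at k1 k2 ⊢
    constructor <;> linarith only [k1.1, k1.2, k2.1, k2.2, y7]
  · intro l hl l' hl'
    refine (pairK l (hL2 hl) l' (hL2 hl')).trans ?_
    have y7 : 0 ≤ M ^ 3 * T := by positivity
    linarith only [y7, xK, m23T, m2UT]
  · have h1 : |g| ≤ |g / κ| := by
      have nκ : κ ≠ 0 := fun h => by rw [h, abs_zero] at hκ; linarith
      have e : g = g / κ * κ := by field_simp
      conv_lhs => rw [e]
      rw [abs_mul]
      calc |g / κ| * |κ| ≤ |g / κ| * 1 := mul_le_mul_of_nonneg_left G.κ1 (abs_nonneg _)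
        _ = _ := mul_one _
    have y7 : 0 ≤ M ^ 3 * T := by positivity
    linarith only [h1, hgκ', m23T, y7]

end Crest.Agent.R136.Cub191
end

-- ▼ part R136/Cub4_191

/-!
# R136, the specials of the thin pins (helper191), part 4: one height of an `RUnif`

`SRow` : rows of the sheet at one height, `SProf` : the facts of the profile.
`cub_one` : the relations `COut` on a `ρ^ε`-part of the lines alive at one height.
-/

set_option autoImplicit false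
set_option linter.unusedVariables false

open Filter Topology

namespace Crest.Agent.R136.Cub191

open Finset
open Crest.Agent.R136.Qd329
open Crest.Agent.R138.Ex926 (Base U)
open Crest.Agent.R136.Gf356

variable {κ : Type}

/-- rows of the special pair positions / velocities at one height -/
structure SRow (B : Base) (G : ℕ → RCfg κ) (x M C : ℝ) (p0 pp pv pc : κ → ℝ)
    (pa pb pq : ℝ → κ → ℝ) (a F Q c β Y K Φ : ℕ → ℕ → ℕ → ℝ) (kp : ℕ → ℝ) : Prop where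
  x0 : 0 < x
  M1 : 1 ≤ M
  C1 : 1 ≤ C
  kp1 : ∀ n, |kp n| ≤ 1
  kpl : ∀ ε : ℝ, 0 < ε → ∀ᶠ n in (U : Filter ℕ), B.d n ^ ε ≤ |kp n|
  bd : ∀ᶠ n in (U : Filter ℕ), ∀ k l, (l, k) ∈ (G n).I → |a n k l| ≤ M ∧ |F n k l| ≤ M ∧
    |Q n k l| ≤ M ∧ |c n k l| ≤ M ∧ |β n k l| ≤ M ∧ |Y n k l| ≤ M ∧ |K n k l| ≤ M
  pcl : ∀ ε : ℝ, 0 < ε → ∀ᶠ n in (U : Filter ℕ), ∀ k l l', (l, k) ∈ (G n).I →
    (l', k) ∈ (G n).I → (G n).loose pp ε k l l' →
      |a n k l - a n k l'| ≤ B.d n ^ (x - C * ε) ∧ |F n k l - F n k l'| ≤ B.d n ^ (x - C * ε) ∧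
      |Q n k l - Q n k l'| ≤ B.d n ^ (x - C * ε) ∧
      |(Φ n k l + kp n * a n k l ^ 2 * Y n k l + a n k l * K n k l +
          kp n * (c n k l * Q n k l)) -
        (Φ n k l' + kp n * a n k l' ^ 2 * Y n k l' + a n k l' * K n k l' +
          kp n * (c n k l' * Q n k l'))| ≤ B.d n ^ (x - C * ε)
  vcl : ∀ ε : ℝ, 0 < ε → ∀ᶠ n in (U : Filter ℕ), ∀ k l l', (l, k) ∈ (G n).I →
    (l', k) ∈ (G n).I → (G n).loose pv ε k l l' →
      |c n k l - c n k l'| ≤ B.d n ^ (x - C * ε) ∧ |β n k l - β n k l'| ≤ B.d n ^ (x - C * ε) ∧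
      |Y n k l - Y n k l'| ≤ B.d n ^ (x - C * ε) ∧ |K n k l - K n k l'| ≤ B.d n ^ (x - C * ε) ∧
      |(Φ n k l + β n k l * F n k l) - (Φ n k l' + β n k l' * F n k l')| ≤ B.d n ^ (x - C * ε)
  ccl : ∀ ε : ℝ, 0 < ε → ∀ᶠ n in (U : Filter ℕ), ∀ k l l', (l, k) ∈ (G n).I →
    (l', k) ∈ (G n).I → (G n).loose pc ε k l l' →
      |c n k l - c n k l'| ≤ B.d n ^ (x - C * ε) ∧ |Y n k l - Y n k l'| ≤ B.d n ^ (x - C * ε)
  acl : ∀ y : ℝ, 0 ≤ y → y ≤ x → ∀ ε : ℝ, 0 < ε → ∀ᶠ n in (U : Filter ℕ), ∀ k l l',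
    (l, k) ∈ (G n).I → (l', k) ∈ (G n).I → (G n).loose p0 ε k l l' →
      |a n k l' - a n k l| ≤ B.d n ^ y → (G n).loose (pa y) ε k l l'
  bcl : ∀ y : ℝ, 0 ≤ y → ∀ ε : ℝ, 0 < ε → y + C * ε ≤ x → ∀ᶠ n in (U : Filter ℕ), ∀ k l l',
    (l, k) ∈ (G n).I → (l', k) ∈ (G n).I → (G n).loose pp ε k l l' → (G n).loose pc ε k l l' →
      |β n k l' - β n k l| ≤ B.d n ^ y → (G n).loose (pb y) ε k l l'
  qcl : ∀ y : ℝ, 0 ≤ y → y ≤ x → ∀ ε : ℝ, 0 < ε → ∀ᶠ n in (U : Filter ℕ), ∀ k l l',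
    (l, k) ∈ (G n).I → (l', k) ∈ (G n).I → (G n).loose pp ε k l l' →
      |c n k l' - c n k l| ≤ B.d n ^ y → (G n).loose (pq y) ε k l l'

/-- the facts about the profile -/
structure SProf (Leg : Set (κ → ℝ)) (ν : (κ → ℝ) → ℝ) (x m : ℝ)
    (p0 pp pv pc ppv : κ → ℝ) (pa pb pq : ℝ → κ → ℝ) : Prop where
  m0 : 0 < m
  l0 : p0 ∈ Leg
  lp : pp ∈ Leg
  lv : pv ∈ Leg
  lc : pc ∈ Leg
  lpv : ppv ∈ Leg
  la : ∀ y, 0 ≤ y → y ≤ x → pa y ∈ Leg
  lb : ∀ y, 0 ≤ y → y ≤ x → pb y ∈ Leg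
  lq : ∀ y, 0 ≤ y → y ≤ x → pq y ∈ Leg
  por : ∀ j, ppv j = pp j ∨ ppv j = pv j
  pge : ∀ j, p0 j ≤ pp j
  vge : ∀ j, p0 j ≤ pv j
  cge : ∀ j, p0 j ≤ pc j
  H1 : ν p0 + ν ppv ≤ ν pp + ν pv
  H2 : ∀ y, 0 ≤ y → y ≤ x → ν p0 + ν (pb y) + m * y ≤ ν pp + ν pc
  H3 : ∀ y, 0 ≤ y → y ≤ x → m * y ≤ ν p0 - ν (pa y)
  H4 : ∀ y, 0 ≤ y → y ≤ x → m * y ≤ ν pp - ν (pq y)

section

variable {B : Base} {G : ℕ → RCfg κ} {Leg : Set (κ → ℝ)} {ν : (κ → ℝ) → ℝ} {D x M C m : ℝ}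
  {p0 pp pv pc ppv : κ → ℝ} {pa pb pq : ℝ → κ → ℝ} {a F Q c β Y K Φ : ℕ → ℕ → ℕ → ℝ} {kp : ℕ → ℝ}

theorem D_pows (hD : 1 ≤ D) {e : ℝ} (he : 0 < e) (i j : ℕ) (hij : i ≤ j) :
    D ^ i * e ≤ D ^ j * e :=
  mul_le_mul_of_nonneg_right (pow_le_pow_right₀ hD hij) he.le

/-- **cells of a local set** -/
theorem loc_net (H : RUnif B G Leg ν D) (h0 : p0 ∈ Leg) {r : κ → ℝ} (hr : r ∈ Leg)
    (hge : ∀ j, p0 j ≤ r j) {e : ℝ} (he : 0 < e) :
    ∀ᶠ n in (U : Filter ℕ), ∀ k, ∃ lab : ℕ → ℕ,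
      (∀ t ∈ (G n).slice k, ∀ t' ∈ (G n).slice k, lab t = lab t' →
        (G n).loose r (D ^ 5 * e) k t t') ∧
      ∀ S ⊆ (G n).slice k, (∀ l ∈ S, ∀ l' ∈ S, (G n).loose p0 e k l l') →
        (∀ A ⊆ S.image lab, ∃ T ⊆ (G n).slice k, (A.card : ℝ) * B.d n ^ (-ν r + e) ≤ T.card ∧
          (∀ m' ∈ T, ∃ v ∈ A, ∀ t ∈ S, lab t = v → (G n).loose r (D ^ 5 * e) k t m') ∧
          ∀ m' ∈ T, ∀ l0 ∈ S, (G n).loose p0 (D ^ 6 * e) k l0 m') ∧
        ((S.image lab).card : ℝ) ≤ B.d n ^ (ν r - ν p0 - 2 * D ^ 7 * e) := by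
  classical
  have hD := H.D1
  have hD0 : 0 < D := by linarith
  filter_upwards [voronoi H r hr he, H.symm r hr (D ^ 3 * e) (by positivity),
    H.tri r hr (D ^ 4 * e) (by positivity), H.tri p0 h0 (D ^ 5 * e) (by positivity),
    H.up p0 h0 (D ^ 6 * e) (by positivity)] with n hv s3 t4 t5 hup k
  have hpos : ∀ t : ℝ, 0 < B.d n ^ t := fun t => rpos B n t
  obtain ⟨lab, a1, a2, a3⟩ := hv k
  refine ⟨lab, a2, fun S hS hSl => ?_⟩
  have hI : ∀ t ∈ (G n).slice k, (t, k) ∈ (G n).I := fun t ht => H.memSlice.1 ht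
  have key : ∀ A ⊆ S.image lab, ∃ T ⊆ (G n).slice k, (A.card : ℝ) * B.d n ^ (-ν r + e) ≤ T.card ∧
          (∀ m' ∈ T, ∃ v ∈ A, ∀ t ∈ S, lab t = v → (G n).loose r (D ^ 5 * e) k t m') ∧
          ∀ m' ∈ T, ∀ l0 ∈ S, (G n).loose p0 (D ^ 6 * e) k l0 m' := by
    intro A hA
    have hstep : ∀ v ∈ A, ∀ m' ∈ (G n).box r e v k, ∀ t ∈ S, lab t = v →
        (G n).loose r (D ^ 5 * e) k t m' := by
      intro v hv m' hm' t ht hlt
      obtain ⟨q1, q2⟩ := RCfg.mem_box.1 hm'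
      obtain ⟨q3, q4⟩ := a1 t (hS ht)
      rw [hlt] at q3 q4
      have q5 := s3 k _ t (hI _ q3) (hI t (hS ht)) q4
      have e1 : D * (D ^ 3 * e) = D ^ 4 * e := by ring
      rw [e1] at q5
      have q6 : (G n).loose r (D ^ 4 * e) k v m' := by
        refine H.loose_mono (fun _ => le_rfl) ?_ q2
        have := D_pows hD he 0 4 (by norm_num)
        rwa [pow_zero, one_mul] at this
      have q7 := t4 k t v m' (hI t (hS ht)) (hI v q3) (hI m' q1) q5 q6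
      have e2 : D * (D ^ 4 * e) = D ^ 5 * e := by ring
      rwa [e2] at q7
    refine ⟨A.biUnion fun e' => (G n).box r e e' k, ?_, a3 A (hA.trans (image_subset_image hS)),
      ?_, ?_⟩
    · intro m' hm'
      obtain ⟨v, hv, hm⟩ := mem_biUnion.1 hm'
      exact (RCfg.mem_box.1 hm).1
    · intro m' hm'
      obtain ⟨v, hv, hm⟩ := mem_biUnion.1 hm'
      exact ⟨v, hv, hstep v hv m' hm⟩
    · intro m' hm' l0 hl0
      obtain ⟨v, hv, hm⟩ := mem_biUnion.1 hm'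
      obtain ⟨t, ht, rfl⟩ := mem_image.1 (hA hv)
      have q1 := hstep _ hv m' hm t ht rfl
      have q2 : (G n).loose p0 (D ^ 5 * e) k t m' := H.loose_mono hge le_rfl q1
      have q3 : (G n).loose p0 (D ^ 5 * e) k l0 t := by
        refine H.loose_mono (fun _ => le_rfl) ?_ (hSl l0 hl0 t ht)
        have := D_pows hD he 0 5 (by norm_num)
        rwa [pow_zero, one_mul] at this
      have q4 := t5 k l0 t m' (hI l0 (hS hl0)) (hI t (hS ht)) (hI m' (RCfg.mem_box.1 hm).1) q3 q2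
      have e2 : D * (D ^ 5 * e) = D ^ 6 * e := by ring
      rwa [e2] at q4
  refine ⟨key, ?_⟩
  rcases S.eq_empty_or_nonempty with rfl | ⟨l0, hl0⟩
  · rw [image_empty, card_empty, Nat.cast_zero]; exact (hpos _).le
  obtain ⟨T, hT, hc, -, hT2⟩ := key (S.image lab) (Subset.refl _)
  have hTc : (T.card : ℝ) ≤ B.d n ^ (-ν p0 - D * (D ^ 6 * e)) := by
    refine le_trans (Nat.cast_le.2 (card_le_card ?_)) (hup l0 k (hI l0 (hS hl0)))
    intro m' hm'
    exact RCfg.mem_box.2 ⟨hT hm', hT2 m' hm' l0 hl0⟩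
  have h1 := mul_le_mul_of_nonneg_right (hc.trans hTc) (hpos (ν r - e)).le
  have e1 : ((S.image lab).card : ℝ) * B.d n ^ (-ν r + e) * B.d n ^ (ν r - e) =
      (S.image lab).card := by
    rw [mul_assoc, ← rpow_add']
    have : -ν r + e + (ν r - e) = 0 := by ring
    rw [this, Real.rpow_zero, mul_one]
  rw [e1, ← rpow_add'] at h1
  refine h1.trans (rpow_anti B n ?_)
  have e2 : D * (D ^ 6 * e) = D ^ 7 * e := by ring
  have := D_pows hD he 0 7 (by norm_num)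
  rw [pow_zero, one_mul] at this
  rw [e2]
  linarith

/-- a local set has a lower bound of its cells -/
theorem loc_low (H : RUnif B G Leg ν D) {r : κ → ℝ} (hr : r ∈ Leg) {e : ℝ} (he : 0 < e) :
    ∀ᶠ n in (U : Filter ℕ), ∀ k, ∀ lab : ℕ → ℕ,
      (∀ t ∈ (G n).slice k, ∀ t' ∈ (G n).slice k, lab t = lab t' →
        (G n).loose r (D ^ 5 * e) k t t') →
      ∀ S ⊆ (G n).slice k, (S.card : ℝ) * B.d n ^ (ν r + D ^ 6 * e) ≤ ((S.image lab).card : ℝ) := by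
  classical
  have hD := H.D1
  have hD0 : 0 < D := by linarith
  filter_upwards [H.up r hr (D ^ 5 * e) (by positivity)] with n hup k lab hlab S hS
  have hpos : ∀ t : ℝ, 0 < B.d n ^ t := fun t => rpos B n t
  have e6 : D * (D ^ 5 * e) = D ^ 6 * e := by ring
  have h1 : (S.card : ℝ) ≤ ((S.image lab).card : ℝ) * B.d n ^ (-ν r - D ^ 6 * e) := by
    refine card_le_img S lab le_rfl (hpos _).le fun v hv => ?_
    obtain ⟨t, ht, rfl⟩ := mem_image.1 hv
    rw [← e6]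
    refine le_trans (Nat.cast_le.2 (card_le_card ?_)) (hup t k (H.memSlice.1 (hS ht)))
    intro l hl
    obtain ⟨q1, q2⟩ := mem_filter.1 hl
    exact RCfg.mem_box.2 ⟨hS q1, hlab t (hS ht) l (hS q1) q2.symm⟩
  have h2 := mul_le_mul_of_nonneg_right h1 (hpos (ν r + D ^ 6 * e)).le
  refine h2.trans (le_of_eq ?_)
  rw [mul_assoc, ← rpow_add']
  have : -ν r - D ^ 6 * e + (ν r + D ^ 6 * e) = 0 := by ring
  rw [this, Real.rpow_zero, mul_one]

/-- **the cells and the counts of a local set** -/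
theorem scells (H : RUnif B G Leg ν D) (S : SRow B G x M C p0 pp pv pc pa pb pq a F Q c β Y K Φ kp)
    (P : SProf Leg ν x m p0 pp pv pc ppv pa pb pq) {e : ℝ} (he : 0 < e)
    (hx1 : 105 * D ^ 9 * e / m ≤ x / 4) (hx2 : C * D ^ 10 * e + e ≤ x / 4) :
    ∀ᶠ n in (U : Filter ℕ), ∀ k, ∀ L ⊆ (G n).slice k, L.Nonempty →
      (∀ l ∈ L, ∀ l' ∈ L, (G n).loose p0 e k l l') → B.d n ^ (-ν p0 + e) ≤ (L.card : ℝ) →
      ∃ lp lv lc : ℕ → ℕ,
      (∀ l ∈ L, ∀ l' ∈ L, lp l = lp l' → (G n).loose pp (D ^ 10 * e) k l l') ∧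
      (∀ l ∈ L, ∀ l' ∈ L, lv l = lv l' → (G n).loose pv (D ^ 10 * e) k l l') ∧
      (∀ l ∈ L, ∀ l' ∈ L, lc l = lc l' → (G n).loose pc (D ^ 10 * e) k l l') ∧
      (∀ e1 f1, ((L.filter fun l => lp l = e1 ∧ lv l = f1).card : ℝ) ≤
        B.d n ^ (-ν ppv - D ^ 6 * e)) ∧
      (∀ t : ℝ, ∀ A ⊆ L.image lp,
        (∀ v ∈ A, ∃ l ∈ L, lp l = v ∧
          |a n k l - t| ≤ 2 * (B.d n ^ (105 * D ^ 9 * e / m) / 6)) →
        (A.card : ℝ) ≤ B.d n ^ (97 * D ^ 9 * e) * (L.image lp).card) ∧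
      B.d n ^ (8 * D ^ 9 * e) * B.d n ^ (-ν ppv - D ^ 6 * e) * (L.image lp).card *
        (L.image lv).card ≤ L.card ∧
      (∀ l0 ∈ L, ((L.filter fun l => (lp l, lc l) = (lp l0, lc l0) ∧
        |β n k l0 - β n k l| < B.d n ^ (105 * D ^ 9 * e / m)).card : ℝ) ≤
        B.d n ^ (-ν (pb (105 * D ^ 9 * e / m)) - D ^ 6 * e)) ∧
      B.d n ^ (-ν (pb (105 * D ^ 9 * e / m)) - D ^ 6 * e) *
        ((L.image lp).card * (L.image lc).card) ≤ B.d n ^ (97 * D ^ 9 * e) * L.card := by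
  classical
  have hD := H.D1
  have hD0 : 0 < D := by linarith
  have hm := P.m0
  have hC := S.C1
  set y := 105 * D ^ 9 * e / m with hy
  have hy0 : 0 ≤ y := by positivity
  have hyx : y ≤ x := by have := S.x0; linarith
  have i0 := D_pows hD he 0 9 (by norm_num)
  have i6 := D_pows hD he 6 9 (by norm_num)
  have i7 := D_pows hD he 7 9 (by norm_num)
  have i5 := D_pows hD he 5 10 (by norm_num)
  have i8 := D_pows hD he 8 10 (by norm_num)
  rw [pow_zero, one_mul] at i0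
  have hmy : m * y = 105 * D ^ 9 * e := by rw [hy]; field_simp
  have h510 : C * (D ^ 5 * e) ≤ C * D ^ 10 * e := by
    have := mul_le_mul_of_nonneg_left i5 (by linarith : (0:ℝ) ≤ C)
    linarith
  filter_upwards [loc_net H P.l0 P.lp P.pge he, loc_net H P.l0 P.lv P.vge he,
    loc_net H P.l0 P.lc P.cge he, loc_low H P.lp he,
    H.up ppv P.lpv _ (show 0 < D ^ 5 * e by positivity),
    S.pcl _ (show 0 < D ^ 5 * e by positivity),
    S.acl y hy0 hyx _ (show 0 < D ^ 8 * e by positivity),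
    H.symm p0 P.l0 (D ^ 6 * e) (by positivity), H.tri p0 P.l0 (D ^ 7 * e) (by positivity),
    H.up _ (P.la y hy0 hyx) _ (show 0 < D ^ 8 * e by positivity),
    S.bcl y hy0 _ (show 0 < D ^ 5 * e by positivity) (by linarith),
    H.up _ (P.lb y hy0 hyx) _ (show 0 < D ^ 5 * e by positivity), ev_const_le B he 12] with
    n np nv nc nlow hup hpc hac hsy htr hupa hbc hupb h12 k L hL hne hLl hLc
  have hpos : ∀ t : ℝ, 0 < B.d n ^ t := fun t => rpos B n t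
  obtain ⟨lp, a2, a3⟩ := np k
  obtain ⟨lv, b2, b3⟩ := nv k
  obtain ⟨lc, c2, c3⟩ := nc k
  obtain ⟨aT, aU⟩ := a3 L hL hLl
  obtain ⟨-, bU⟩ := b3 L hL hLl
  obtain ⟨-, cU⟩ := c3 L hL hLl
  have aL := nlow k lp a2 L hL
  have hI : ∀ t ∈ (G n).slice k, (t, k) ∈ (G n).I := fun t ht => H.memSlice.1 ht
  have e6 : D * (D ^ 5 * e) = D ^ 6 * e := by ring
  have mono : ∀ {r : κ → ℝ} {l l' : ℕ}, (G n).loose r (D ^ 5 * e) k l l' →
      (G n).loose r (D ^ 10 * e) k l l' := fun h => H.loose_mono (fun _ => le_rfl) i5 h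
  refine ⟨lp, lv, lc, fun l hl l' hl' h => mono (a2 l (hL hl) l' (hL hl') h),
    fun l hl l' hl' h => mono (b2 l (hL hl) l' (hL hl') h),
    fun l hl l' hl' h => mono (c2 l (hL hl) l' (hL hl') h), ?_, ?_, ?_, ?_, ?_⟩
  · intro e1 f1
    rcases (L.filter fun l => lp l = e1 ∧ lv l = f1).eq_empty_or_nonempty with h | ⟨l0, hl0⟩
    · rw [h, card_empty, Nat.cast_zero]; exact (hpos _).le
    · obtain ⟨g1, g2, g3⟩ := mem_filter.1 hl0
      have g4 := hup l0 k (hI _ (hL g1))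
      refine le_trans (Nat.cast_le.2 (card_le_card ?_)) (g4.trans (rpow_anti B n ?_))
      · intro l hl
        obtain ⟨q1, q2, q3⟩ := mem_filter.1 hl
        refine RCfg.mem_box.2 ⟨hL q1, fun j => ?_⟩
        rcases P.por j with hj | hj
        · rw [hj]; exact a2 l0 (hL g1) l (hL q1) (g2.trans q2.symm) j
        · rw [hj]; exact b2 l0 (hL g1) l (hL q1) (g3.trans q3.symm) j
      · linarith
  · -- few cells with close `a`
    intro t A hA hcl
    obtain ⟨T, hT, hTc, hT1, hT2⟩ := aT A hA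
    have hδ : 12 * B.d n ^ (x - C * D ^ 10 * e) ≤ B.d n ^ y := by
      have h1 := mul_le_mul_of_nonneg_right h12 (hpos (x - C * D ^ 10 * e)).le
      refine h1.trans ?_
      rw [← rpow_add']
      exact rpow_anti B n (by linarith)
    have hall : ∀ m' ∈ T, |a n k m' - t| ≤ 3 * (B.d n ^ y / 6) := by
      intro m' hm'
      obtain ⟨v, hv, hv2⟩ := hT1 m' hm'
      obtain ⟨l, hl, hlv, hlt⟩ := hcl v hv
      have k1 := (hpc k l m' (hI _ (hL hl)) (hI _ (hT hm')) (hv2 l hl hlv)).1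
      have k3 : B.d n ^ (x - C * (D ^ 5 * e)) ≤ B.d n ^ (x - C * D ^ 10 * e) :=
        rpow_anti B n (by linarith)
      have e1 : a n k m' - t = (a n k l - t) - (a n k l - a n k m') := by ring
      rw [e1]
      have q1 := abs_sub (a n k l - t) (a n k l - a n k m')
      have q2 := hpos y
      linarith
    obtain ⟨l0, hl0⟩ := hne
    have hcard : (T.card : ℝ) ≤ B.d n ^ (-ν (pa y) - D ^ 9 * e) := by
      rcases T.eq_empty_or_nonempty with h | ⟨m0, hm0⟩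
      · rw [h, card_empty, Nat.cast_zero]; exact (hpos _).le
      · refine le_trans (Nat.cast_le.2 (card_le_card (t := (G n).box (pa y) (D ^ 8 * e) m0 k) ?_))
          ((hupa m0 k (hI _ (hT hm0))).trans (rpow_anti B n (le_of_eq ?_)))
        · intro m' hm'
          have q1 := hsy k l0 m0 (hI _ (hL hl0)) (hI _ (hT hm0)) (hT2 m0 hm0 l0 hl0)
          have e1 : D * (D ^ 6 * e) = D ^ 7 * e := by ring
          rw [e1] at q1
          have q2 : (G n).loose p0 (D ^ 7 * e) k l0 m' :=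
            H.loose_mono (fun _ => le_rfl) (D_pows hD he 6 7 (by norm_num)) (hT2 m' hm' l0 hl0)
          have q3 := htr k m0 l0 m' (hI _ (hT hm0)) (hI _ (hL hl0)) (hI _ (hT hm')) q1 q2
          have e2 : D * (D ^ 7 * e) = D ^ 8 * e := by ring
          rw [e2] at q3
          refine RCfg.mem_box.2 ⟨hT hm', hac k m0 m' (hI _ (hT hm0)) (hI _ (hT hm')) q3 ?_⟩
          have i1 := hall m' hm'
          have i2 := hall m0 hm0
          have e1 : a n k m' - a n k m0 = (a n k m' - t) - (a n k m0 - t) := by ring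
          rw [e1]
          have := abs_sub (a n k m' - t) (a n k m0 - t)
          linarith
        · ring
    have h1 := mul_le_mul_of_nonneg_right (hTc.trans hcard) (hpos (ν pp - e)).le
    have e1 : (A.card : ℝ) * B.d n ^ (-ν pp + e) * B.d n ^ (ν pp - e) = A.card := by
      rw [mul_assoc, ← rpow_add']
      have : -ν pp + e + (ν pp - e) = 0 := by ring
      rw [this, Real.rpow_zero, mul_one]
    rw [e1, ← rpow_add'] at h1
    refine h1.trans ?_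
    have h2 := mul_le_mul_of_nonneg_right hLc (hpos (ν pp + D ^ 6 * e)).le
    refine le_trans ?_ (mul_le_mul_of_nonneg_left (h2.trans aL) (hpos _).le)
    rw [← rpow_add', ← rpow_add']
    refine rpow_anti B n ?_
    have h3 := P.H3 y hy0 hyx
    rw [hmy] at h3
    linarith
  · calc B.d n ^ (8 * D ^ 9 * e) * B.d n ^ (-ν ppv - D ^ 6 * e) *
          (L.image lp).card * (L.image lv).card
        ≤ B.d n ^ (8 * D ^ 9 * e) * B.d n ^ (-ν ppv - D ^ 6 * e) *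
          B.d n ^ (ν pp - ν p0 - 2 * D ^ 7 * e) * B.d n ^ (ν pv - ν p0 - 2 * D ^ 7 * e) := by
          have := hpos (8 * D ^ 9 * e)
          have := hpos (-ν ppv - D ^ 6 * e)
          have := hpos (ν pp - ν p0 - 2 * D ^ 7 * e)
          gcongr
      _ = B.d n ^ (8 * D ^ 9 * e + (-ν ppv - D ^ 6 * e) + (ν pp - ν p0 - 2 * D ^ 7 * e) +
          (ν pv - ν p0 - 2 * D ^ 7 * e)) := by
          simp only [rpow_add']
      _ ≤ B.d n ^ (-ν p0 + e) := by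
          refine rpow_anti B n ?_
          have := P.H1
          linarith
      _ ≤ _ := hLc
  · intro l0 hl0
    refine le_trans (Nat.cast_le.2 (card_le_card (t := (G n).box (pb y) (D ^ 5 * e) l0 k) ?_))
      ((hupb l0 k (hI _ (hL hl0))).trans (rpow_anti B n (by linarith)))
    intro l hl
    obtain ⟨q1, q2, q3⟩ := mem_filter.1 hl
    have q4 : lp l = lp l0 := congrArg Prod.fst q2
    have q5 : lc l = lc l0 := congrArg Prod.snd q2
    refine RCfg.mem_box.2 ⟨hL q1, hbc k l0 l (hI _ (hL hl0)) (hI _ (hL q1))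
      (a2 l0 (hL hl0) l (hL q1) q4.symm) (c2 l0 (hL hl0) l (hL q1) q5.symm) ?_⟩
    rw [abs_sub_comm]; exact q3.le
  · calc B.d n ^ (-ν (pb y) - D ^ 6 * e) * ((L.image lp).card * (L.image lc).card)
        ≤ B.d n ^ (-ν (pb y) - D ^ 6 * e) *
          (B.d n ^ (ν pp - ν p0 - 2 * D ^ 7 * e) * B.d n ^ (ν pc - ν p0 - 2 * D ^ 7 * e)) := by
          have := hpos (-ν (pb y) - D ^ 6 * e)
          have := hpos (ν pp - ν p0 - 2 * D ^ 7 * e)
          gcongr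
      _ = B.d n ^ ((-ν (pb y) - D ^ 6 * e) + ((ν pp - ν p0 - 2 * D ^ 7 * e) +
          (ν pc - ν p0 - 2 * D ^ 7 * e))) := by
          simp only [rpow_add']
      _ ≤ B.d n ^ (97 * D ^ 9 * e + (-ν p0 + e)) := by
          refine rpow_anti B n ?_
          have i7 := P.H2 y hy0 hyx
          rw [hmy] at i7
          linarith
      _ = B.d n ^ (97 * D ^ 9 * e) * B.d n ^ (-ν p0 + e) := rpow_add' B n _ _
      _ ≤ _ := mul_le_mul_of_nonneg_left hLc (hpos _).le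

end

end Crest.Agent.R136.Cub191
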