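import Crest.Agent.R136.PinX_851
import Crest.Agent.R136.CubN_851
import Crest.Agent.R136.CubZ_848
import Crest.Agent.R136.Cub6_191

-- ▼ part R136/CubR_851
section

/-!
# R136, the specials of the thin pins (helper851): three lines at one height

* `Tri` : base line, two lines, raw bounds
* `Apx` : normalised composition rules
* `Tri.apx` : the rules
-/

set_option autoImplicit false
set_option linter.unusedSectionVars false
set_option linter.unusedVariables false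

open Filter Topology

namespace Crest.Agent.R136.Pin851

open Finset Crest.Agent.R136.Net191
open Crest.Agent.R136.NetW191 Crest.Agent.R136.EvW938

variable {κ K τ : ℝ} {σ : Fin 18 → ℝ} {f0 fx fy : FW}

/-- units: the walls, tight away from the slot `4` -/
structure Uni (σ : Fin 18 → ℝ) : Prop where
  side : SidesW σ
  pos : ∀ s, 0 < σ s
  tight : ∀ k, k ≠ 4 → ∀ l ∈ mlW k, (4 : Fin 18) ∉ l → (l.map σ).prod = σ k

/-- base line, two lines at one height -/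
structure Tri (κ : ℝ) (σ : Fin 18 → ℝ) (K τ : ℝ) (f0 fx fy : FW) : Prop where
  κ1 : |κ| ≤ 1
  K1 : 1 ≤ K
  τ0 : 0 ≤ τ
  uni : Uni σ
  b0x : ∀ s, |coW κ f0 fx s| ≤ K * σ s
  b0y : ∀ s, |coW κ f0 fy s| ≤ K * σ s
  bx0 : ∀ s, |coW κ fx f0 s| ≤ K * σ s
  by0 : ∀ s, |coW κ fy f0 s| ≤ K * σ s
  z0x : |coW κ f0 fx 0| ≤ K * τ * σ 0
  z0y : |coW κ f0 fy 0| ≤ K * τ * σ 0
  h4 : |coW κ fx fy 4| ≤ K * τ * σ 4

/-- normalised composition rules -/
structure Apx (κ K E : ℝ) (H H' V V' R : Fin 18 → ℝ) : Prop where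
  κ1 : |κ| ≤ 1
  K1 : 1 ≤ K
  E0 : 0 ≤ E
  bH : ∀ s, |H s| ≤ K
  bH' : ∀ s, |H' s| ≤ K
  bV : ∀ s, |V s| ≤ K
  bV' : ∀ s, |V' s| ≤ K
  r1 : |R 1 - (H' 1 - H 1)| ≤ E
  r2 : |R 2 - (H' 2 - H 2)| ≤ E
  r3 : |R 3 - (H' 3 - H 3 + 2 * κ * H 1 * (H' 2 - H 2))| ≤ E
  r5 : |R 5 - (V' 5 - V 5)| ≤ E
  r6 : |R 6 - ((V' 6 - V 6) - 2 * κ * H' 1 * (V' 5 - V 5))| ≤ E
  r7 : |R 7 - (V' 7 - V 7)| ≤ E
  r9 : |R 9 - ((V' 9 - V 9) + 2 * κ * H' 2 * (V' 5 - V 5) - 4 * κ * H' 1 * (V' 7 - V 7))| ≤ E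
  r10 : |R 10 - ((V' 10 - V 10) - 4 * κ ^ 2 * H' 1 * H' 2 * (V' 5 - V 5) +
    κ * H' 3 * (V' 5 - V 5) + 3 * κ * H' 2 * (V' 6 - V 6) +
    4 * κ ^ 2 * H' 1 ^ 2 * (V' 7 - V 7) - 2 * κ * H' 1 * (V' 9 - V 9))| ≤ E
  r14 : |R 14 - ((V' 14 - V 14) + κ * H' 2 ^ 2 * (V' 5 - V 5) + 2 * H' 3 * (V' 7 - V 7) +
    H' 2 * (V' 9 - V 9))| ≤ E
  r15 : |R 15 - ((V' 15 - V 15) - 2 * κ ^ 2 * H' 1 * H' 2 ^ 2 * (V' 5 - V 5) +
    2 * κ * H' 2 * H' 3 * (V' 5 - V 5) + 3 * κ * H' 2 ^ 2 * (V' 6 - V 6) -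
    4 * κ * H' 1 * H' 3 * (V' 7 - V 7) - 2 * κ * H' 1 * H' 2 * (V' 9 - V 9) +
    H' 3 * (V' 9 - V 9) + 2 * H' 2 * (V' 10 - V 10) - 2 * κ * H' 1 * (V' 14 - V 14))| ≤ E

/-- frames seen from the base -/
noncomputable def Hc (κ : ℝ) (σ : Fin 18 → ℝ) (f0 fx : FW) (s : Fin 18) : ℝ := coW κ f0 fx s / σ s

/-- flags seen from the base -/
noncomputable def Vc (κ : ℝ) (σ : Fin 18 → ℝ) (f0 fx : FW) (s : Fin 18) : ℝ :=
  -(coW κ fx f0 s / σ s)

/-- the error -/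
def Er (K τ : ℝ) : ℝ := 470 * (2 * K) ^ 7 * τ

theorem flag_raw (κ : ℝ) (f0 fx fy : FW) (q : Fin 14) :
    coW κ fx fy (Fin.natAdd 4 q) =
      tr κ (frm (coW κ f0 fy)) (flg (coW κ fx f0) - flg (coW κ fy f0)) q := by
  have h1 := congrFun (cocycle κ fx f0 fy) q
  have h2 := congrFun (cocycle κ fy f0 fy) q
  rw [sub_self, tr_zero] at h2
  rw [coW_right, h1, frm_coW, flg_coW, flg_coW]
  have e : tr κ f0.g (f0.G - fx.G) - tr κ f0.g (f0.G - fy.G) =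
      tr κ f0.g (f0.G - fx.G) + -tr κ f0.g (f0.G - fy.G) := sub_eq_add_neg _ _
  have h3 : tr κ (rel κ f0.g fy.g) (tr κ f0.g (f0.G - fx.G)) =
      tr κ (rel κ f0.g fy.g) (tr κ f0.g (f0.G - fx.G) - tr κ f0.g (f0.G - fy.G)) +
        tr κ (rel κ f0.g fy.g) (tr κ f0.g (f0.G - fy.G)) := by
    rw [← tr_add, sub_add_cancel]
  have h4 := congrFun h3 q
  simp only [Pi.add_apply, Pi.zero_apply] at h2 h4 ⊢
  linarith

theorem div_main {X Y y s C : ℝ} (hs : 0 < s) (h : |X - Y| ≤ C * s) (hY : Y = s * y) :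
    |X / s - y| ≤ C := by
  have e : X / s - y = (X - Y) / s := by rw [hY]; field_simp
  rw [e, abs_div, abs_of_pos hs, div_le_iff₀ hs]
  exact h

namespace Tri

variable (T : Tri κ σ K τ f0 fx fy)

include T

theorem K0 : 0 ≤ K := zero_le_one.trans T.K1

theorem lip (q : Fin 14) :
    |coW κ fx fy (Fin.natAdd 4 q) -
      tr κ ![0, coW κ f0 fy 1, coW κ f0 fy 2, coW κ f0 fy 3]
        (Function.update (flg (coW κ fx f0) - flg (coW κ fy f0)) 0 0) q| ≤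
      Er K τ * σ (Fin.natAdd 4 q) := by
  rw [flag_raw κ f0 fx fy q]
  have hK := T.K0
  have hp : ∀ s, 0 ≤ σ s := fun s => (T.uni.pos s).le
  refine tr_lip T.κ1 T.uni.side (by linarith [T.K1]) T.τ0 (fun i => ?_) (fun i => ?_)
    (fun i => ?_) (fun q => ?_) (fun q => ?_) q
  · refine (T.b0y _).trans ?_
    have := mul_nonneg hK (hp (Fin.castAdd 14 i))
    linarith
  · have hi : ∀ j : Fin 4, 0 ≤ 2 * K * σ (Fin.castAdd 14 j) := fun j =>
      mul_nonneg (by linarith) (hp _)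
    have hb : ∀ j : Fin 4, |coW κ f0 fy (Fin.castAdd 14 j)| ≤ 2 * K * σ (Fin.castAdd 14 j) :=
      fun j => (T.b0y _).trans (by have := mul_nonneg hK (hp (Fin.castAdd 14 j)); linarith)
    fin_cases i
    · show |(0 : ℝ)| ≤ _
      rw [abs_zero]; exact hi 0
    · exact hb 1
    · exact hb 2
    · exact hb 3
  · have hi : ∀ j : Fin 4, 0 ≤ 2 * K * τ * σ (Fin.castAdd 14 j) := fun j =>
      mul_nonneg (mul_nonneg (by linarith) T.τ0) (hp _)
    fin_cases i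
    · show |coW κ f0 fy 0 - 0| ≤ _
      rw [sub_zero]
      refine T.z0y.trans ?_
      have : 0 ≤ K * τ * σ 0 := mul_nonneg (mul_nonneg hK T.τ0) (hp 0)
      show K * τ * σ 0 ≤ 2 * K * τ * σ 0
      linarith
    · show |coW κ f0 fy 1 - coW κ f0 fy 1| ≤ _
      rw [sub_self, abs_zero]; exact hi 1
    · show |coW κ f0 fy 2 - coW κ f0 fy 2| ≤ _
      rw [sub_self, abs_zero]; exact hi 2
    · show |coW κ f0 fy 3 - coW κ f0 fy 3| ≤ _
      rw [sub_self, abs_zero]; exact hi 3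
  · show |coW κ fx f0 (Fin.natAdd 4 q) - coW κ fy f0 (Fin.natAdd 4 q)| ≤ _
    refine (abs_sub _ _).trans ?_
    have h1 := T.bx0 (Fin.natAdd 4 q)
    have h2 := T.by0 (Fin.natAdd 4 q)
    linarith
  · by_cases hq : q = 0
    · subst hq
      rw [Function.update_self, sub_zero]
      have e : (flg (coW κ fx f0) - flg (coW κ fy f0)) 0 = coW κ fx fy 4 := by
        have := flag_raw κ f0 fx fy 0
        rw [tr0] at this
        exact this.symm
      rw [e]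
      refine T.h4.trans ?_
      have : 0 ≤ K * τ * σ 4 := mul_nonneg (mul_nonneg hK T.τ0) (hp 4)
      show K * τ * σ 4 ≤ 2 * K * τ * σ 4
      linarith
    · rw [Function.update_of_ne hq, sub_self, abs_zero]
      exact mul_nonneg (mul_nonneg (by linarith) T.τ0) (hp _)

theorem er0 : 0 ≤ Er K τ := by
  have := T.K0
  have := T.τ0
  unfold Er
  positivity

theorem er_ge : 470 * K ^ 3 * τ ≤ Er K τ := by
  have h1 := T.K1
  have h2 := T.τ0
  unfold Er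
  have h3 : K ^ 3 ≤ (2 * K) ^ 7 := by
    calc K ^ 3 ≤ K ^ 7 := pow_le_pow_right₀ h1 (by norm_num)
      _ ≤ (2 * K) ^ 7 := by
        refine pow_le_pow_left₀ (by linarith) (by linarith) 7
  nlinarith [mul_le_mul_of_nonneg_right h3 h2]

/-- raw value of a slot from the normalised one -/
theorem hs (s : Fin 18) : coW κ f0 fy s = σ s * Hc κ σ f0 fy s := by
  have := (T.uni.pos s).ne'
  unfold Hc; field_simp

theorem hs' (s : Fin 18) : coW κ f0 fx s = σ s * Hc κ σ f0 fx s := by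
  have := (T.uni.pos s).ne'
  unfold Hc; field_simp

theorem vs (s : Fin 18) : coW κ fx f0 s - coW κ fy f0 s =
    σ s * (Vc κ σ f0 fy s - Vc κ σ f0 fx s) := by
  have := (T.uni.pos s).ne'
  unfold Vc; field_simp; ring

theorem apx : Apx κ K (Er K τ) (Hc κ σ f0 fx) (Hc κ σ f0 fy) (Vc κ σ f0 fx) (Vc κ σ f0 fy)
    (fun s => coW κ fx fy s / σ s) := by
  have hp := T.uni.pos
  have hK := T.K0
  have hK1 := T.K1
  have hτ := T.τ0
  have hE := T.er_ge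
  have hE0 := T.er0
  have hn : ∀ {u s : ℝ}, 0 < s → |u| ≤ K * s → |u / s| ≤ K := by
    intro u s hs h
    rw [abs_div, abs_of_pos hs, div_le_iff₀ hs]; exact h
  have tg := fun k hk l hl h4 => T.uni.tight k hk l hl h4
  have t2 : σ 1 * σ 0 = σ 2 := by
    simpa using tg 2 (by decide) [1, 0] (by decide) (by decide)
  have t3 : σ 1 * σ 2 = σ 3 := by
    simpa using tg 3 (by decide) [1, 2] (by decide) (by decide)
  have t6 : σ 1 * σ 5 = σ 6 := by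
    simpa using tg 6 (by decide) [1, 5] (by decide) (by decide)
  have t9a : σ 2 * σ 5 = σ 9 := by
    simpa using tg 9 (by decide) [2, 5] (by decide) (by decide)
  have t9b : σ 1 * σ 7 = σ 9 := by
    simpa using tg 9 (by decide) [1, 7] (by decide) (by decide)
  have t10a : σ 1 * σ 9 = σ 10 := by
    simpa using tg 10 (by decide) [1, 9] (by decide) (by decide)
  have t14a : σ 3 * σ 7 = σ 14 := by
    simpa using tg 14 (by decide) [3, 7] (by decide) (by decide)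
  have t14b : σ 2 * σ 9 = σ 14 := by
    simpa using tg 14 (by decide) [2, 9] (by decide) (by decide)
  have t15a : σ 2 * σ 10 = σ 15 := by
    simpa using tg 15 (by decide) [2, 10] (by decide) (by decide)
  have t15b : σ 1 * σ 14 = σ 15 := by
    simpa using tg 15 (by decide) [1, 14] (by decide) (by decide)
  have t15c : σ 3 * σ 9 = σ 15 := by
    simpa using tg 15 (by decide) [3, 9] (by decide) (by decide)
  have z1 : |coW κ f0 fy 0 - coW κ f0 fx 0| ≤ 2 * K * τ * σ 0 := by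
    refine (abs_sub _ _).trans ?_
    linarith [T.z0x, T.z0y]
  have f1 : coW κ fx fy 1 = coW κ f0 fy 1 - coW κ f0 fx 1 := by
    show fy.g 1 - fx.g 1 = (fy.g 1 - f0.g 1) - (fx.g 1 - f0.g 1)
    ring
  have f2 : coW κ fx fy 2 = coW κ f0 fy 2 - coW κ f0 fx 2 -
      coW κ f0 fx 1 * (coW κ f0 fy 0 - coW κ f0 fx 0) := by
    show fy.g 2 - fx.g 2 - fx.g 1 * (fy.g 0 - fx.g 0) =
      (fy.g 2 - f0.g 2 - f0.g 1 * (fy.g 0 - f0.g 0)) -
      (fx.g 2 - f0.g 2 - f0.g 1 * (fx.g 0 - f0.g 0)) -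
      (fx.g 1 - f0.g 1) * ((fy.g 0 - f0.g 0) - (fx.g 0 - f0.g 0))
    ring
  have f3 : coW κ fx fy 3 = coW κ f0 fy 3 - coW κ f0 fx 3 +
      2 * κ * coW κ f0 fx 1 * (coW κ f0 fy 2 - coW κ f0 fx 2) -
      κ * coW κ f0 fx 1 ^ 2 * (coW κ f0 fy 0 - coW κ f0 fx 0) := by
    show fy.g 3 - fx.g 3 + 2 * κ * fx.g 1 * (fy.g 2 - fx.g 2 - fx.g 1 * (fy.g 0 - fx.g 0)) +
        κ * fx.g 1 ^ 2 * (fy.g 0 - fx.g 0) =
      (fy.g 3 - f0.g 3 + 2 * κ * f0.g 1 * (fy.g 2 - f0.g 2 - f0.g 1 * (fy.g 0 - f0.g 0)) +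
        κ * f0.g 1 ^ 2 * (fy.g 0 - f0.g 0)) -
      (fx.g 3 - f0.g 3 + 2 * κ * f0.g 1 * (fx.g 2 - f0.g 2 - f0.g 1 * (fx.g 0 - f0.g 0)) +
        κ * f0.g 1 ^ 2 * (fx.g 0 - f0.g 0)) +
      2 * κ * (fx.g 1 - f0.g 1) * ((fy.g 2 - f0.g 2 - f0.g 1 * (fy.g 0 - f0.g 0)) -
        (fx.g 2 - f0.g 2 - f0.g 1 * (fx.g 0 - f0.g 0))) -
      κ * (fx.g 1 - f0.g 1) ^ 2 * ((fy.g 0 - f0.g 0) - (fx.g 0 - f0.g 0))
    ring
  have hK3 : K ^ 2 ≤ K ^ 3 := pow_le_pow_right₀ hK1 (by norm_num)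
  have g2 : |coW κ fx fy 2 - (coW κ f0 fy 2 - coW κ f0 fx 2)| ≤ Er K τ * σ 2 := by
    rw [f2]
    have e : coW κ f0 fy 2 - coW κ f0 fx 2 - coW κ f0 fx 1 * (coW κ f0 fy 0 - coW κ f0 fx 0) -
        (coW κ f0 fy 2 - coW κ f0 fx 2) =
        -(coW κ f0 fx 1 * (coW κ f0 fy 0 - coW κ f0 fx 0)) := by ring
    rw [e, abs_neg, abs_mul]
    calc |coW κ f0 fx 1| * |coW κ f0 fy 0 - coW κ f0 fx 0|
        ≤ (K * σ 1) * (2 * K * τ * σ 0) :=
          mul_le_mul (T.b0x 1) z1 (abs_nonneg _) (mul_nonneg hK (hp 1).le)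
      _ = 2 * K ^ 2 * τ * σ 2 := by rw [← t2]; ring
      _ ≤ Er K τ * σ 2 := by
        refine mul_le_mul_of_nonneg_right ?_ (hp 2).le
        nlinarith [mul_le_mul_of_nonneg_right hK3 hτ, mul_nonneg (pow_nonneg hK 3) hτ]
  have g3 : |coW κ fx fy 3 - (coW κ f0 fy 3 - coW κ f0 fx 3 +
      2 * κ * coW κ f0 fx 1 * (coW κ f0 fy 2 - coW κ f0 fx 2))| ≤ Er K τ * σ 3 := by
    rw [f3]
    have e : coW κ f0 fy 3 - coW κ f0 fx 3 +
        2 * κ * coW κ f0 fx 1 * (coW κ f0 fy 2 - coW κ f0 fx 2) -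
        κ * coW κ f0 fx 1 ^ 2 * (coW κ f0 fy 0 - coW κ f0 fx 0) -
        (coW κ f0 fy 3 - coW κ f0 fx 3 +
          2 * κ * coW κ f0 fx 1 * (coW κ f0 fy 2 - coW κ f0 fx 2)) =
        -(κ * (coW κ f0 fx 1 * (coW κ f0 fx 1 * (coW κ f0 fy 0 - coW κ f0 fx 0)))) := by ring
    rw [e, abs_neg, abs_mul, abs_mul, abs_mul]
    calc |κ| * (|coW κ f0 fx 1| * (|coW κ f0 fx 1| * |coW κ f0 fy 0 - coW κ f0 fx 0|))
        ≤ 1 * ((K * σ 1) * ((K * σ 1) * (2 * K * τ * σ 0))) := by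
          have a1 := T.κ1
          have a2 := T.b0x 1
          have a3 := abs_nonneg (coW κ f0 fx 1)
          have a4 := abs_nonneg (coW κ f0 fy 0 - coW κ f0 fx 0)
          have a5 : 0 ≤ K * σ 1 := mul_nonneg hK (hp 1).le
          gcongr
      _ = 2 * K ^ 3 * τ * σ 3 := by rw [← t3, ← t2]; ring
      _ ≤ Er K τ * σ 3 := by
        refine mul_le_mul_of_nonneg_right ?_ (hp 3).le
        nlinarith [mul_nonneg (pow_nonneg hK 3) hτ]
  have H1 := T.hs 1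
  have H2 := T.hs 2
  have H3 := T.hs 3
  have G1 := T.hs' 1
  have G2 := T.hs' 2
  have G3 := T.hs' 3
  set hv : Fin 4 → ℝ := ![0, coW κ f0 fy 1, coW κ f0 fy 2, coW κ f0 fy 3] with hhv
  set wv : Fin 14 → ℝ := Function.update (flg (coW κ fx f0) - flg (coW κ fy f0)) 0 0 with hwv
  have L : ∀ q : Fin 14, |coW κ fx fy (Fin.natAdd 4 q) - tr κ hv wv q| ≤
      Er K τ * σ (Fin.natAdd 4 q) := T.lip
  have a0 : hv 0 = 0 := rfl
  have a1 : hv 1 = σ 1 * Hc κ σ f0 fy 1 := H1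
  have a2 : hv 2 = σ 2 * Hc κ σ f0 fy 2 := H2
  have a3 : hv 3 = σ 3 * Hc κ σ f0 fy 3 := H3
  have w0 : wv 0 = 0 := rfl
  have w1 : wv 1 = σ 5 * (Vc κ σ f0 fy 5 - Vc κ σ f0 fx 5) := T.vs 5
  have w2 : wv 2 = σ 6 * (Vc κ σ f0 fy 6 - Vc κ σ f0 fx 6) := T.vs 6
  have w3 : wv 3 = σ 7 * (Vc κ σ f0 fy 7 - Vc κ σ f0 fx 7) := T.vs 7
  have w4 : wv 4 = σ 8 * (Vc κ σ f0 fy 8 - Vc κ σ f0 fx 8) := T.vs 8
  have w5 : wv 5 = σ 9 * (Vc κ σ f0 fy 9 - Vc κ σ f0 fx 9) := T.vs 9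
  have w6 : wv 6 = σ 10 * (Vc κ σ f0 fy 10 - Vc κ σ f0 fx 10) := T.vs 10
  have w7 : wv 7 = σ 11 * (Vc κ σ f0 fy 11 - Vc κ σ f0 fx 11) := T.vs 11
  have w8 : wv 8 = σ 12 * (Vc κ σ f0 fy 12 - Vc κ σ f0 fx 12) := T.vs 12
  have w10 : wv 10 = σ 14 * (Vc κ σ f0 fy 14 - Vc κ σ f0 fx 14) := T.vs 14
  have w11 : wv 11 = σ 15 * (Vc κ σ f0 fy 15 - Vc κ σ f0 fx 15) := T.vs 15
  refine
    { κ1 := T.κ1
      K1 := T.K1
      E0 := hE0
      bH := fun s => hn (hp s) (T.b0x s)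
      bH' := fun s => hn (hp s) (T.b0y s)
      bV := fun s => by unfold Vc; rw [abs_neg]; exact hn (hp s) (T.bx0 s)
      bV' := fun s => by unfold Vc; rw [abs_neg]; exact hn (hp s) (T.by0 s)
      r1 := ?_
      r2 := div_main (hp 2) g2 (by rw [H2, G2]; ring)
      r3 := div_main (hp 3) g3 (by rw [H3, G3, G1, H2, G2, ← t3]; ring)
      r5 := div_main (hp 5) (L 1) ?_
      r6 := div_main (hp 6) (L 2) ?_
      r7 := div_main (hp 7) (L 3) ?_
      r9 := div_main (hp 9) (L 5) ?_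
      r10 := div_main (hp 10) (L 6) ?_
      r14 := div_main (hp 14) (L 10) ?_
      r15 := div_main (hp 15) (L 11) ?_ }
  · have e : (fun s => coW κ fx fy s / σ s) 1 - (Hc κ σ f0 fy 1 - Hc κ σ f0 fx 1) = 0 := by
      show coW κ fx fy 1 / σ 1 - (coW κ f0 fy 1 / σ 1 - coW κ f0 fx 1 / σ 1) = 0
      rw [f1]; ring
    rw [e, abs_zero]; exact hE0
  · rw [tr1, a0, w0, w1]; ring
  · rw [tr2, a0, a1, a2, w0, w1, w2]
    linear_combination (-(2 * κ * Hc κ σ f0 fy 1 * (Vc κ σ f0 fy 5 - Vc κ σ f0 fx 5))) * t6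
  · rw [tr3, a0, w0, w1, w3]; ring
  · rw [tr5, a0, a1, a2, w0, w1, w2, w3, w5]
    linear_combination (2 * κ * Hc κ σ f0 fy 2 * (Vc κ σ f0 fy 5 - Vc κ σ f0 fx 5)) * t9a -
      (4 * κ * Hc κ σ f0 fy 1 * (Vc κ σ f0 fy 7 - Vc κ σ f0 fx 7)) * t9b
  · rw [tr6, a0, a1, a2, a3, w0, w1, w2, w3, w5, w6]
    linear_combination (-(4 * κ ^ 2 * Hc κ σ f0 fy 1 * Hc κ σ f0 fy 2 *
        (Vc κ σ f0 fy 5 - Vc κ σ f0 fx 5))) * (σ 1 * t9a + t10a) +
      (κ * Hc κ σ f0 fy 3 * (Vc κ σ f0 fy 5 - Vc κ σ f0 fx 5)) *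
        (-σ 5 * t3 + σ 1 * t9a + t10a) +
      (3 * κ * Hc κ σ f0 fy 2 * (Vc κ σ f0 fy 6 - Vc κ σ f0 fx 6)) *
        (-σ 2 * t6 + σ 1 * t9a + t10a) +
      (4 * κ ^ 2 * Hc κ σ f0 fy 1 ^ 2 * (Vc κ σ f0 fy 7 - Vc κ σ f0 fx 7)) *
        (σ 1 * t9b + t10a) -
      (2 * κ * Hc κ σ f0 fy 1 * (Vc κ σ f0 fy 9 - Vc κ σ f0 fx 9)) * t10a
  · rw [tr10, a0, a2, a3, w0, w1, w2, w3, w4, w5, w7, w10]
    linear_combination (κ * Hc κ σ f0 fy 2 ^ 2 * (Vc κ σ f0 fy 5 - Vc κ σ f0 fx 5)) *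
        (σ 2 * t9a + t14b) +
      (2 * Hc κ σ f0 fy 3 * (Vc κ σ f0 fy 7 - Vc κ σ f0 fx 7)) * t14a +
      (Hc κ σ f0 fy 2 * (Vc κ σ f0 fy 9 - Vc κ σ f0 fx 9)) * t14b
  · rw [tr11, a0, a1, a2, a3, w0, w1, w2, w3, w4, w5, w6, w7, w8, w10, w11]
    linear_combination (-(2 * κ ^ 2 * Hc κ σ f0 fy 1 * Hc κ σ f0 fy 2 ^ 2 *
        (Vc κ σ f0 fy 5 - Vc κ σ f0 fx 5))) * (σ 1 * (σ 2 * t9a + t14b) + t15b) +
      (2 * κ * Hc κ σ f0 fy 2 * Hc κ σ f0 fy 3 * (Vc κ σ f0 fy 5 - Vc κ σ f0 fx 5)) *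
        (σ 3 * t9a + t15c) +
      (3 * κ * Hc κ σ f0 fy 2 ^ 2 * (Vc κ σ f0 fy 6 - Vc κ σ f0 fx 6)) *
        (-σ 2 ^ 2 * t6 + σ 1 * (σ 2 * t9a + t14b) + t15b) -
      (4 * κ * Hc κ σ f0 fy 1 * Hc κ σ f0 fy 3 * (Vc κ σ f0 fy 7 - Vc κ σ f0 fx 7)) *
        (σ 1 * t14a + t15b) -
      (2 * κ * Hc κ σ f0 fy 1 * Hc κ σ f0 fy 2 * (Vc κ σ f0 fy 9 - Vc κ σ f0 fx 9)) *
        (σ 1 * t14b + t15b) +
      (Hc κ σ f0 fy 3 * (Vc κ σ f0 fy 9 - Vc κ σ f0 fx 9)) * t15c +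
      (2 * Hc κ σ f0 fy 2 * (Vc κ σ f0 fy 10 - Vc κ σ f0 fx 10)) * t15a -
      (2 * κ * Hc κ σ f0 fy 1 * (Vc κ σ f0 fy 14 - Vc κ σ f0 fx 14)) * t15b

end Tri

end Crest.Agent.R136.Pin851
end

-- ▼ part R136/CubQ_851
section

/-!
# R136, the specials of the thin pins (helper851): the rows from the composition rules
-/

set_option autoImplicit false
set_option linter.unusedSectionVars false
set_option linter.unusedVariables false

open Filter Topology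

namespace Crest.Agent.R136.Pin851

open Finset Crest.Agent.R136.Net191
open Crest.Agent.R136.NetW191 Crest.Agent.R136.EvW938

/-- constant of the rows -/
def NK (K : ℝ) : ℝ := 400 * K ^ 5

section

variable {B B' N N' η c c' x y : ℝ}

theorem s_add (h : |x| ≤ N * η) (h' : |y| ≤ N' * η) : |x + y| ≤ (N + N') * η := by
  rw [add_mul]; exact (abs_add_le _ _).trans (add_le_add h h')

theorem s_sub (h : |x| ≤ N * η) (h' : |y| ≤ N' * η) : |x - y| ≤ (N + N') * η := by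
  rw [add_mul]; exact (abs_sub _ _).trans (add_le_add h h')

theorem s_mul (hc : |c| ≤ B) (h : |x| ≤ N * η) : |c * x| ≤ (B * N) * η := by
  rw [abs_mul, mul_assoc]
  exact mul_le_mul hc h (abs_nonneg _) ((abs_nonneg _).trans hc)

theorem c_mul (hc : |c| ≤ B) (h : |c'| ≤ B') : |c * c'| ≤ B * B' := by
  rw [abs_mul]
  exact mul_le_mul hc h (abs_nonneg _) ((abs_nonneg _).trans hc)

theorem c_add (hc : |c| ≤ B) (h : |c'| ≤ B') : |c + c'| ≤ B + B' :=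
  (abs_add_le _ _).trans (add_le_add hc h)

theorem s_near (h : |x - y| ≤ N * η) (h' : |x| ≤ N' * η) : |y| ≤ (N' + N) * η := by
  have := s_sub h' h
  rwa [sub_sub_cancel] at this

end

/-- powers of `K` -/
theorem Kpow {K : ℝ} (h : 1 ≤ K) : 1 ≤ K ^ 5 ∧ K ≤ K ^ 5 ∧ K ^ 2 ≤ K ^ 5 ∧ K ^ 3 ≤ K ^ 5 ∧
    K ^ 4 ≤ K ^ 5 := by
  refine ⟨one_le_pow₀ h, ?_, pow_le_pow_right₀ h (by norm_num), pow_le_pow_right₀ h (by norm_num),
    pow_le_pow_right₀ h (by norm_num)⟩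
  calc K = K ^ 1 := (pow_one K).symm
    _ ≤ K ^ 5 := pow_le_pow_right₀ h (by norm_num)

/-- slope `β` -/
def Bt (κ : ℝ) (H : Fin 18 → ℝ) : ℝ := H 3 + 2 * κ * (H 1 * H 2)

namespace Apx

variable {κ K E η t : ℝ} {H H' V V' R : Fin 18 → ℝ}

section base

variable (A : Apx κ K E H H' V V' R) (hE : E ≤ 1 * η)

include A

theorem n0 : 0 ≤ K := zero_le_one.trans A.K1

theorem k2 : |2 * κ| ≤ 2 := by
  rw [abs_mul, abs_of_pos (by norm_num : (0:ℝ) < 2)]; linarith [A.κ1]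

include hE

theorem η0 : 0 ≤ η := by linarith [A.E0]

theorem fin {N x : ℝ} (h : |x| ≤ N * η) (hN : N ≤ NK K) : |x| ≤ NK K * η :=
  h.trans (mul_le_mul_of_nonneg_right hN (A.η0 hE))

theorem d1 (h1 : |R 1| ≤ 1 * η) : |H' 1 - H 1| ≤ 2 * η := by
  have := s_near (A.r1.trans hE) h1
  linarith

theorem d2 (h2 : |R 2| ≤ 1 * η) : |H' 2 - H 2| ≤ 2 * η := by
  have := s_near (A.r2.trans hE) h2
  linarith

theorem x3 (h3 : |R 3| ≤ 1 * η) :
    |H' 3 - H 3 + 2 * κ * H 1 * (H' 2 - H 2)| ≤ 2 * η := by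
  have := s_near (A.r3.trans hE) h3
  linarith

theorem d5 (h5 : |R 5| ≤ 1 * η) : |V' 5 - V 5| ≤ 2 * η := by
  have := s_near (A.r5.trans hE) h5
  linarith


theorem d7 (h7 : |R 7| ≤ 1 * η) : |V' 7 - V 7| ≤ 2 * η := by
  have := s_near (A.r7.trans hE) h7
  linarith

theorem x9 (h9 : |R 9| ≤ 1 * η) : |(V' 9 - V 9) + 2 * κ * H' 2 * (V' 5 - V 5) -
    4 * κ * H' 1 * (V' 7 - V 7)| ≤ 2 * η := by
  have := s_near (A.r9.trans hE) h9
  linarith


theorem x14 (h : |R 14| ≤ 1 * η) : |(V' 14 - V 14) + κ * H' 2 ^ 2 * (V' 5 - V 5) +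
    2 * H' 3 * (V' 7 - V 7) + H' 2 * (V' 9 - V 9)| ≤ 2 * η := by
  have := s_near (A.r14.trans hE) h
  linarith


/-- `β` -/
theorem bt (h1 : |R 1| ≤ 1 * η) (h3 : |R 3| ≤ 1 * η) : |Bt κ H' - Bt κ H| ≤ (2 + 2 * K * 2) * η := by
  have e : Bt κ H' - Bt κ H = (H' 3 - H 3 + 2 * κ * H 1 * (H' 2 - H 2)) +
      (2 * κ) * H' 2 * (H' 1 - H 1) := by unfold Bt; ring
  rw [e]
  exact s_add (A.x3 hE h3) (s_mul (c_mul A.k2 (A.bH' 2)) (A.d1 hE h1))


/-! ### `b = 5` -/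

theorem p35 (h2 : |R 2| ≤ 1 * η) (h7 : |R 7| ≤ 1 * η) (h14 : |R 14| ≤ 1 * η) :
    |H' 2 - H 2| ≤ NK K * η ∧ |2 * V' 7 - 2 * V 7| ≤ NK K * η ∧
    |2 * H' 2 * (2 * V' 7) - 2 * H 2 * (2 * V 7)| ≤ NK K * η ∧
    |(V' 14 + κ * H' 2 ^ 2 * V' 5 + H' 2 * (V' 9 - 4 * κ * (H' 1 * V' 7)) +
        κ * (H' 1 * (2 * H' 2 * (2 * V' 7)))) -
      (V 14 + κ * H 2 ^ 2 * V 5 + H 2 * (V 9 - 4 * κ * (H 1 * V 7)) +
        κ * (H 1 * (2 * H 2 * (2 * V 7))))| ≤ NK K * η := by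
  obtain ⟨k0, k1, k2, k3, k4⟩ := Kpow A.K1
  have m2 : |(2 : ℝ)| ≤ 2 := by norm_num
  have m4 : |(4 : ℝ)| ≤ 4 := by norm_num
  have D2 := A.d2 hE h2
  have D7 := A.d7 hE h7
  have X := A.x14 hE h14
  refine ⟨A.fin hE D2 (by unfold NK; linarith), ?_, ?_, ?_⟩
  · have e : 2 * V' 7 - 2 * V 7 = 2 * (V' 7 - V 7) := by ring
    rw [e]
    exact A.fin hE (s_mul m2 D7) (by unfold NK; linarith)
  · have e : 2 * H' 2 * (2 * V' 7) - 2 * H 2 * (2 * V 7) =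
        4 * H' 2 * (V' 7 - V 7) + 4 * V 7 * (H' 2 - H 2) := by ring
    rw [e]
    exact A.fin hE (s_add (s_mul (c_mul m4 (A.bH' 2)) D7) (s_mul (c_mul m4 (A.bV 7)) D2))
      (by unfold NK; linarith)
  · have e : (V' 14 + κ * H' 2 ^ 2 * V' 5 + H' 2 * (V' 9 - 4 * κ * (H' 1 * V' 7)) +
        κ * (H' 1 * (2 * H' 2 * (2 * V' 7)))) -
      (V 14 + κ * H 2 ^ 2 * V 5 + H 2 * (V 9 - 4 * κ * (H 1 * V 7)) +
        κ * (H 1 * (2 * H 2 * (2 * V 7)))) =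
        ((V' 14 - V 14) + κ * H' 2 ^ 2 * (V' 5 - V 5) + 2 * H' 3 * (V' 7 - V 7) +
          H' 2 * (V' 9 - V 9)) - 2 * H' 3 * (V' 7 - V 7) +
        κ * (H' 2 + H 2) * V 5 * (H' 2 - H 2) + V 9 * (H' 2 - H 2) := by ring
    rw [e]
    exact A.fin hE (s_add (s_add (s_sub X (s_mul (c_mul m2 (A.bH' 3)) D7))
      (s_mul (c_mul (c_mul A.κ1 (c_add (A.bH' 2) (A.bH 2))) (A.bV 5)) D2))
      (s_mul (A.bV 9) D2)) (by unfold NK; linarith)

theorem v35 (h1 : |R 1| ≤ 1 * η) (h3 : |R 3| ≤ 1 * η) (h5 : |R 5| ≤ 1 * η) (h9 : |R 9| ≤ 1 * η)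
    (h14 : |R 14| ≤ 1 * η) :
    |H' 1 - H 1| ≤ NK K * η ∧ |Bt κ H' - Bt κ H| ≤ NK K * η ∧ |V' 5 - V 5| ≤ NK K * η ∧
    |(V' 9 - 4 * κ * (H' 1 * V' 7)) - (V 9 - 4 * κ * (H 1 * V 7))| ≤ NK K * η ∧
    |(V' 14 + Bt κ H' * (2 * V' 7)) - (V 14 + Bt κ H * (2 * V 7))| ≤ NK K * η := by
  obtain ⟨k0, k1, k2, k3, k4⟩ := Kpow A.K1
  have m2 : |(2 : ℝ)| ≤ 2 := by norm_num
  have m4 : |(4 : ℝ)| ≤ 4 := by norm_num
  have D1 := A.d1 hE h1
  have D5 := A.d5 hE h5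
  have X9 := A.x9 hE h9
  have X := A.x14 hE h14
  have B := A.bt hE h1 h3
  refine ⟨A.fin hE D1 (by unfold NK; linarith), A.fin hE B (by unfold NK; linarith),
    A.fin hE D5 (by unfold NK; linarith), ?_, ?_⟩
  · have e : (V' 9 - 4 * κ * (H' 1 * V' 7)) - (V 9 - 4 * κ * (H 1 * V 7)) =
        ((V' 9 - V 9) + 2 * κ * H' 2 * (V' 5 - V 5) - 4 * κ * H' 1 * (V' 7 - V 7)) -
        2 * κ * H' 2 * (V' 5 - V 5) - 4 * κ * V 7 * (H' 1 - H 1) := by ring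
    rw [e]
    exact A.fin hE (s_sub (s_sub X9 (s_mul (c_mul (c_mul m2 A.κ1) (A.bH' 2)) D5))
      (s_mul (c_mul (c_mul m4 A.κ1) (A.bV 7)) D1)) (by unfold NK; linarith)
  · have e : (V' 14 + Bt κ H' * (2 * V' 7)) - (V 14 + Bt κ H * (2 * V 7)) =
        ((V' 14 - V 14) + κ * H' 2 ^ 2 * (V' 5 - V 5) + 2 * H' 3 * (V' 7 - V 7) +
          H' 2 * (V' 9 - V 9)) -
        H' 2 * ((V' 9 - V 9) + 2 * κ * H' 2 * (V' 5 - V 5) - 4 * κ * H' 1 * (V' 7 - V 7)) +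
        κ * H' 2 * H' 2 * (V' 5 - V 5) + 2 * V 7 * (Bt κ H' - Bt κ H) := by
      unfold Bt; ring
    rw [e]
    exact A.fin hE (s_add (s_add (s_sub X (s_mul (A.bH' 2) X9))
      (s_mul (c_mul (c_mul A.κ1 (A.bH' 2)) (A.bH' 2)) D5))
      (s_mul (c_mul m2 (A.bV 7)) B)) (by unfold NK; nlinarith)

/-! ### `b = 4` -/






end base

end Apx

end Crest.Agent.R136.Pin851
end

-- ▼ part R136/CubW_851
section

/-!
# R136, the specials of the thin pins (helper851): the wiring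

* `Rows35`, `Rows34` : the rows of the sheets over a window
* `spec35_of`, `spec34_of` : `Spec35`, `Spec34` from them
-/

set_option autoImplicit false
set_option linter.unusedSectionVars false
set_option linter.unusedVariables false

open Filter Topology

namespace Crest.Agent.R136.Pin851

open Finset Crest.Agent.R138.Ex926 Crest.Agent.R136.Net191 Crest.Agent.R136.Gf356 Crest.Agent.R136.Qg926
open Crest.Agent.R136.NetW191 Crest.Agent.R136.EvW938 Crest.Agent.R136.PrW464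
open Crest.Agent.R136.LadW697 Crest.Agent.R136.LfW619 Crest.Agent.R136.RowW619
open Crest.Agent.R136.NatW697 Crest.Agent.R136.Qd329
open Crest.Agent.R136.Cub191 (SProf SRow SEvo SSlope slope35 slope34 spec_fin)
open Crest.Agent.R136.K2S774 (cn ind1)

/-- rows of the sheet of `b = 5` over the windows -/
def Rows35 : Prop :=
  ∀ (W : Wnd 18 fun _ => ℕ × ℝ) (E : ∀ n : ℕ, Finset (ℕ × ℝ)) (κ : ℕ → ℝ)
    (u : ℕ → Fin 18 → ℝ) (f : ℕ → ℕ × ℝ → FW) (lam : (Fin 18 → ℝ) → ℝ) (x : ℝ),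
    PWin W E κ u f {4} lam x → 0 < x →
    ∃ (M C μ : ℝ) (a F Q c β Y K Φ : ℕ → ℕ → ℕ → ℝ), 0 ≤ μ ∧ μ ≤ 2 ∧
      SRow W.B' (W.cfg E) x M C (ind {0, 4} x) (ind {0, 2, 4, 7, 14} x)
        (ind {0, 1, 3, 4, 5, 9, 14} x) (ind {0, 1, 4, 5} x)
        (fun y => Function.update (ind {0, 4} x) 2 y)
        (fun y => Function.update (ind {0, 1, 2, 4, 5, 7, 14} x) 3 y)
        (fun y => Function.update (ind {0, 2, 4, 7, 14} x) 1 y) a F Q c β Y K Φ κ ∧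
      SEvo W.B' (W.cfg E) x M C μ (ind {0, 4} x) a F c Y ∧
      (∀ n k l, Q n k l = 2 * a n k l * F n k l) ∧
      ∀ ε : ℝ, 0 < ε → ∀ᶠ n in (U : Filter ℕ), ∀ k l l', (l, k) ∈ (W.cfg E n).I →
        (l', k) ∈ (W.cfg E n).I → (W.cfg E n).loose (ind {0, 4} x) ε k l l' →
        |Y n k l' - Y n k l| ≤ W.B'.d n ^ (x - ε) →
        (W.cfg E n).loose (ind {0, 4, 5} x) (2 * ε) k l l'

/-- rows of the sheet of `b = 4` over the windows -/
def Rows34 : Prop :=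
  ∀ (W : Wnd 18 fun _ => ℕ × ℝ) (E : ∀ n : ℕ, Finset (ℕ × ℝ)) (κ : ℕ → ℝ)
    (u : ℕ → Fin 18 → ℝ) (f : ℕ → ℕ × ℝ → FW) (lam : (Fin 18 → ℝ) → ℝ) (x : ℝ),
    PWin W E κ u f {4} lam x → 0 < x →
    ∃ (M C : ℝ) (a F Q c β Y K Φ : ℕ → ℕ → ℕ → ℝ),
      SRow W.B' (W.cfg E) x M C (ind {0, 4, 5, 7} x) (ind {0, 2, 4, 5, 7, 9, 14, 15} x)
        (ind {0, 1, 3, 4, 5, 6, 7, 10, 15} x) (ind {0, 1, 4, 5, 6, 7} x)
        (fun y => Function.update (ind {0, 4, 5, 7} x) 2 y)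
        (fun y => Function.update (ind {0, 1, 2, 4, 5, 6, 7, 9, 14, 15} x) 3 y)
        (fun y => Function.update (ind {0, 2, 4, 5, 7, 9, 14, 15} x) 1 y) a F Q c β Y K Φ κ ∧
      SEvo W.B' (W.cfg E) x M C (1 / 3) (ind {0, 4, 5, 7} x) a F c Y ∧
      (∀ y : ℝ, 0 ≤ y → y ≤ x → ∀ ε : ℝ, 0 < ε → ∀ᶠ n in (U : Filter ℕ), ∀ k l l',
        (l, k) ∈ (W.cfg E n).I → (l', k) ∈ (W.cfg E n).I →
        (W.cfg E n).loose (ind {0, 2, 3, 4, 5, 7, 9, 10} x) ε k l l' →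
        |c n k l' - c n k l| ≤ W.B'.d n ^ y →
        (W.cfg E n).loose (Function.update (ind {0, 2, 3, 4, 5, 7, 9, 10} x) 1 y) ε k l l') ∧
      (∀ ε : ℝ, 0 < ε → ∀ᶠ n in (U : Filter ℕ), ∀ k l l', (l, k) ∈ (W.cfg E n).I →
        (l', k) ∈ (W.cfg E n).I →
        (W.cfg E n).loose (ind {0, 2, 3, 4, 5, 7, 9, 10} x) ε k l l' →
        |a n k l - a n k l'| ≤ W.B'.d n ^ (x - C * ε) ∧
        |F n k l - F n k l'| ≤ W.B'.d n ^ (x - C * ε) ∧
        |(β n k l - β n k l') - 2 * κ n * a n k l * (c n k l - c n k l')| ≤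
          W.B'.d n ^ (x - C * ε) ∧
        |(K n k l + 4 * κ n * c n k l * F n k l + 2 * κ n * a n k l * Y n k l) -
          (K n k l' + 4 * κ n * c n k l' * F n k l' + 2 * κ n * a n k l' * Y n k l')| ≤
          W.B'.d n ^ (x - C * ε)) ∧
      ∀ ε : ℝ, 0 < ε → ∀ᶠ n in (U : Filter ℕ), ∀ k l l', (l, k) ∈ (W.cfg E n).I →
        (l', k) ∈ (W.cfg E n).I → (W.cfg E n).loose (ind {0, 4, 5, 7} x) ε k l l' →
        |Y n k l' - Y n k l| ≤ W.B'.d n ^ (x - ε) →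
        (W.cfg E n).loose (ind {0, 4, 5, 6, 7} x) (2 * ε) k l l'

section

variable {W : Wnd 18 fun _ => ℕ × ℝ} {E : ∀ n : ℕ, Finset (ℕ × ℝ)} {κ : ℕ → ℝ}
  {u : ℕ → Fin 18 → ℝ} {f : ℕ → ℕ × ℝ → FW} {lam : (Fin 18 → ℝ) → ℝ} {x m : ℝ}
  {c p0 pp pv pc ppv : Fin 18 → ℝ} {pa pb pq : ℝ → Fin 18 → ℝ}

theorem upd0 (hc : c ∈ LegP x) : Function.update c 0 x = c := by
  conv_rhs => rw [← Function.update_eq_self 0 c]
  rw [hc.2.2.2]

theorem PWin.leg_of (h : PWin W E κ u f {4} lam x) (hc : c ∈ LegP x) : c ∈ W.legW :=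
  h.leg c (by rw [upd0 hc]; exact hc.1) hc.2.1 hc.2.2.1

theorem PWin.nu_of (h : PWin W E κ u f {4} lam x) (hc : c ∈ LegP x) :
    W.nu c = lam c - lam (fun _ => x) := by rw [h.nu, upd0 hc]

/-- the numbers over a window -/
theorem PWin.sprof (h : PWin W E κ u f {4} lam x)
    (P : SProf (LegP x) lam x m p0 pp pv pc ppv pa pb pq) :
    SProf W.legW W.nu x m p0 pp pv pc ppv pa pb pq where
  m0 := P.m0
  l0 := h.leg_of P.l0
  lp := h.leg_of P.lp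
  lv := h.leg_of P.lv
  lc := h.leg_of P.lc
  lpv := h.leg_of P.lpv
  la := fun y hy hyx => h.leg_of (P.la y hy hyx)
  lb := fun y hy hyx => h.leg_of (P.lb y hy hyx)
  lq := fun y hy hyx => h.leg_of (P.lq y hy hyx)
  por := P.por
  pge := P.pge
  vge := P.vge
  cge := P.cge
  H1 := by
    rw [h.nu_of P.l0, h.nu_of P.lp, h.nu_of P.lv, h.nu_of P.lpv]
    have := P.H1
    linarith
  H2 := fun y hy hyx => by
    rw [h.nu_of P.l0, h.nu_of P.lp, h.nu_of P.lc, h.nu_of (P.lb y hy hyx)]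
    have := P.H2 y hy hyx
    linarith
  H3 := fun y hy hyx => by
    rw [h.nu_of P.l0, h.nu_of (P.la y hy hyx)]
    have := P.H3 y hy hyx
    linarith
  H4 := fun y hy hyx => by
    rw [h.nu_of P.lp, h.nu_of (P.lq y hy hyx)]
    have := P.H4 y hy hyx
    linarith

end

/-- **the special `b = 5`** -/
theorem spec35_of (R : Rows35) : Spec35 := by
  intro T G m lam κ u f H hG hA hB hi hwin hv
  by_contra hn
  obtain ⟨x, hx, hlt⟩ := end35 H hi hv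
  obtain ⟨W, E, hW⟩ := hwin x hx
  obtain ⟨M, C, μ, a, F, Q, c, β, Y, K, Φ, hμ, hμ1, S, V, hQ, ycl⟩ := R W E κ u f lam x hW hx
  have P0 := num35 H hG hA hB hi hn hx
  have P := hW.sprof P0
  have h1 := spec_fin hW.mod one_pos hx S P V hμ hμ1 (s := 2) (by norm_num)
    (slope35 S hW.mod.toRUnif hQ) (hW.leg_of (leg35 hx.le)) ycl
  rw [hW.nu_of P0.l0, hW.nu_of (leg35 hx.le)] at h1
  linarith

/-- **the special `b = 4`** -/
theorem spec34_of (R : Rows34) : Spec34 := by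
  intro T G m lam κ u f H hG hA hB hi hwin hF hv
  by_contra hn
  obtain ⟨x, hx, hlt⟩ := end34 H hG hi hv
  obtain ⟨W, E, hW⟩ := hwin x hx
  obtain ⟨M, C, a, F, Q, c, β, Y, K, Φ, S, V, zcl, zrow, ycl⟩ := R W E κ u f lam x hW hx
  have P0 := num34 H hG hA hB hF hi hn hx
  have P := hW.sprof P0
  obtain ⟨z1, z2, z3⟩ := num34_Z H hG hF hi hx
  have hsl := slope34 (x := x) (pqz := fun y => Function.update (ind {0, 2, 3, 4, 5, 7, 9, 10} x) 1 y)
    hW.mod.toRUnif S P (hW.leg_of z1) (ind_mono_set (by decide) hx.le)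
    (fun y hy hyx => hW.leg_of (z3 y hy hyx).1) (fun y hy hyx => by
      rw [hW.nu_of z1, hW.nu_of (z3 y hy hyx).1]
      have := (z3 y hy hyx).2
      linarith) zcl zrow
  have h1 := spec_fin hW.mod one_pos hx S P V (by norm_num) (by norm_num) (s := 3) (by norm_num)
    hsl (hW.leg_of z2) ycl
  rw [hW.nu_of P0.l0, hW.nu_of z2] at h1
  linarith

end Crest.Agent.R136.Pin851
end

-- ▼ part R136/CubC_848
section

/-!
# R136, the specials of the thin pins (helper848): closures of the rows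

Over `PWin W E κ u f {4} lam x`, base of the height `k` = `W.zrep n k`:
`cf` = normalised frame coordinates, `cw` = normalised flags.
`raw` : the exact relations at one height;
`acl_of`, `bcl_of`, `qcl_of`, `ycl35_of`, `ycl34_of` : the closures (`SRow`, `spec_fin`).
-/

set_option autoImplicit false
set_option linter.unusedVariables false
set_option linter.unusedSectionVars false

open Filter Topology

namespace Crest.Agent.R136.CubC848

open Finset Crest.Agent.R138.Ex926 Crest.Agent.R136.Net191 Crest.Agent.R136.Gf356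
open Crest.Agent.R136.Qg926 Crest.Agent.R136.NetW191 Crest.Agent.R136.EvW938
open Crest.Agent.R136.Ht887 Crest.Agent.R136.Pin851
open Crest.Agent.R136.PqG464 (wtW)

/-! ### exact relations -/

/-- frames with a base -/
theorem fr_eq (κ : ℝ) (o a b : FW) :
    coW κ a b 0 = coW κ o b 0 - coW κ o a 0 ∧ coW κ a b 1 = coW κ o b 1 - coW κ o a 1 ∧
    coW κ a b 2 = coW κ o b 2 - coW κ o a 2 - coW κ o a 1 * (coW κ o b 0 - coW κ o a 0) ∧
    coW κ a b 3 = (coW κ o b 3 + 2 * κ * coW κ o b 1 * coW κ o b 2) -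
      (coW κ o a 3 + 2 * κ * coW κ o a 1 * coW κ o a 2) -
      2 * κ * coW κ o b 2 * coW κ a b 1 - κ * coW κ o a 1 ^ 2 * (coW κ o b 0 - coW κ o a 0) := by
  have hid := rel_rel κ o.g a.g b.g
  have i0 := congrFun hid 0
  have i1 := congrFun hid 1
  have i2 := congrFun hid 2
  have i3 := congrFun hid 3
  simp only [mul0, mul1, mul2, mul3] at i0 i1 i2 i3
  change coW κ o a 0 + coW κ a b 0 = coW κ o b 0 at i0
  change coW κ o a 1 + coW κ a b 1 = coW κ o b 1 at i1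
  change coW κ o a 2 + coW κ a b 2 + coW κ o a 1 * coW κ a b 0 = coW κ o b 2 at i2
  change coW κ o a 3 + coW κ a b 3 - 2 * κ * coW κ o a 1 * coW κ a b 2 -
    κ * coW κ o a 1 ^ 2 * coW κ a b 0 = coW κ o b 3 at i3
  have e0 : coW κ a b 0 = coW κ o b 0 - coW κ o a 0 := by linarith
  have e1 : coW κ a b 1 = coW κ o b 1 - coW κ o a 1 := by linarith
  have e2 : coW κ a b 2 = coW κ o b 2 - coW κ o a 2 -
      coW κ o a 1 * (coW κ o b 0 - coW κ o a 0) := by rw [← e0]; linarith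
  refine ⟨e0, e1, e2, ?_⟩
  have e3 : coW κ a b 3 = coW κ o b 3 - coW κ o a 3 + 2 * κ * coW κ o a 1 * coW κ a b 2 +
    κ * coW κ o a 1 ^ 2 * coW κ a b 0 := by linarith
  rw [e3, e2, e1, e0]
  ring

/-- flags with a base -/
theorem fl_eq (κ : ℝ) (o a b : FW) (q : Fin 14) :
    coW κ a b (Fin.natAdd 4 q) = tr κ (frm (coW κ o b))
      (fun j => -coW κ b o (Fin.natAdd 4 j) - -coW κ a o (Fin.natAdd 4 j)) q := by
  have e : (fun j => -coW κ b o (Fin.natAdd 4 j) - -coW κ a o (Fin.natAdd 4 j)) =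
      tr κ o.g (b.G - a.G) := by
    funext j
    rw [coW_right, coW_right]
    have h1 := congrFun (tr_sub κ o.g (o.G - a.G) (o.G - b.G)) j
    have h2 : o.G - a.G - (o.G - b.G) = b.G - a.G := by abel
    rw [h2, Pi.sub_apply] at h1
    rw [h1]
    ring
  rw [e, coW_right, frm_coW, ← tr_mul, mul_rel]

variable {ι : ℕ → Type*} [∀ n, DecidableEq (ι n)] {W : Wnd 18 ι} {E : ∀ n, Finset (ι n)}
  {κ : ℕ → ℝ} {u : ℕ → Fin 18 → ℝ} {f : ∀ n, ι n → FW} {lam : (Fin 18 → ℝ) → ℝ} {x : ℝ}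

/-- raw coordinates of the incidence `(l, k)` seen from the base of the height -/
noncomputable def rf (W : Wnd 18 ι) (κ : ℕ → ℝ) (f : ∀ n, ι n → FW) (n k l : ℕ) (s : Fin 18) : ℝ :=
  coW (κ n) (f n (W.zrep n k)) (f n (W.rep n l k)) s

/-- raw flags of the incidence `(l, k)` in the base frame -/
noncomputable def rw' (W : Wnd 18 ι) (κ : ℕ → ℝ) (f : ∀ n, ι n → FW) (n k l : ℕ) (s : Fin 18) : ℝ :=
  -coW (κ n) (f n (W.rep n l k)) (f n (W.zrep n k)) s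

/-- **raw data of a pair at one height** -/
structure RawP (κ : ℝ) (σ : Fin 18 → ℝ) (K τ : ℝ) (p p' r w w' : Fin 18 → ℝ) : Prop where
  hκ : |κ| ≤ 1
  sd : SidesW σ
  K1 : 1 ≤ K
  τ0 : 0 ≤ τ
  τ1 : τ ≤ 1
  hp : ∀ s, |p s| ≤ K * σ s
  hp' : ∀ s, |p' s| ≤ K * σ s
  p0 : |p 0| ≤ K * τ * σ 0
  p0' : |p' 0| ≤ K * τ * σ 0
  hw : ∀ s, |w s| ≤ K * σ s
  hw' : ∀ s, |w' s| ≤ K * σ s
  r1 : r 1 = p' 1 - p 1
  r2 : r 2 = p' 2 - p 2 - p 1 * (p' 0 - p 0)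
  r3 : r 3 = (p' 3 + 2 * κ * p' 1 * p' 2) - (p 3 + 2 * κ * p 1 * p 2) -
      2 * κ * p' 2 * r 1 - κ * p 1 ^ 2 * (p' 0 - p 0)
  rq : ∀ q : Fin 14, r (Fin.natAdd 4 q) = tr κ (frm p')
      (fun j => w' (Fin.natAdd 4 j) - w (Fin.natAdd 4 j)) q

theorem raw (hW : PWin W E κ u f {4} lam x) (hx : 0 < x) : ∀ᶠ n in (U : Filter ℕ), ∀ k l l',
    (l, k) ∈ (W.cfg E n).I → (l', k) ∈ (W.cfg E n).I →
    RawP (κ n) (sd W u n) W.K0 (W.B'.d n ^ x) (rf W κ f n k l) (rf W κ f n k l')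
      (fun s => coW (κ n) (f n (W.rep n l k)) (f n (W.rep n l' k)) s)
      (rw' W κ f n k l) (rw' W κ f n k l') ∧
    ∀ s, s ≠ 0 → coW (κ n) (f n (W.rep n l k)) (f n (W.rep n l' k)) s =
      un W u n s * (W.cfg E n).rel k l l' s := by
  have h := hW.ww
  filter_upwards [hW.ev] with n hn k l l' hl hl'
  obtain ⟨g, hsub, heq⟩ := hn
  rw [heq] at hl hl' ⊢
  obtain ⟨a1, a2, a3⟩ := Wnd.rep_of_mem hsub hl
  obtain ⟨b1, b2, b3⟩ := Wnd.rep_of_mem hsub hl'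
  have hkZ : k ∈ (W.cfg0 n (E n)).Z := by
    obtain ⟨y, hy, hy1, hy2⟩ := Wnd.mem_I.1 hl
    exact mem_image.2 ⟨y, hy, hy2⟩
  obtain ⟨z1, z2⟩ := zrep_mem hsub hkZ
  have hfr := fr_eq (κ n) (f n (W.zrep n k)) (f n (W.rep n l k)) (f n (W.rep n l' k))
  have h0S : (0 : Fin 18) ∈ W.S := h.h0
  have ht0 : x ≤ W.top 0 := (hW.top 0).ge
  refine ⟨⟨h.hκ n, h.sides g, h.ok.K0_one, (Real.rpow_pos_of_pos (W.B'.pos n) _).le,
    Real.rpow_le_one (W.B'.pos n).le (W.B'.lt n).le hx.le, fun s => h.bnd g z1 a1 s,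
    fun s => h.bnd g z1 b1 s, h.lev_small g z1 a1 (z2.trans a3.symm) h0S ht0,
    h.lev_small g z1 b1 (z2.trans b3.symm) h0S ht0, fun s => ?_, fun s => ?_, hfr.2.1,
    hfr.2.2.1, hfr.2.2.2, fun q => fl_eq (κ n) _ _ _ q⟩, fun s hs => ?_⟩
  · unfold rw'; rw [abs_neg]; exact h.bnd g a1 z1 s
  · unfold rw'; rw [abs_neg]; exact h.bnd g b1 z1 s
  · have hsS : s ∉ W.S := by rw [hW.S]; simpa using hs
    rw [h.rel_eq l l' k hsS]
    exact h.crd_eq g a1 b1 s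

/-! ### numeric lemmas -/

section num

variable {kp K τ : ℝ} {σ p p' r w w' : Fin 18 → ℝ}

namespace RawP

variable (h : RawP kp σ K τ p p' r w w')

include h

theorem wl : σ 1 * σ 0 ≤ σ 2 ∧ σ 1 * σ 2 ≤ σ 3 ∧ σ 0 * σ 4 ≤ σ 5 ∧ σ 2 * σ 4 ≤ σ 6 ∧
    σ 1 * σ 5 ≤ σ 6 := by
  have w2 := h.sd.wall 2 [1, 0] (by decide)
  have w3 := h.sd.wall 3 [1, 2] (by decide)
  have w5 := h.sd.wall 5 [0, 4] (by decide)
  have w6 := h.sd.wall 6 [2, 4] (by decide)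
  have w6' := h.sd.wall 6 [1, 5] (by decide)
  simp only [List.map_cons, List.map_nil, List.prod_cons, List.prod_nil, mul_one] at w2 w3 w5 w6 w6'
  exact ⟨w2, w3, w5, w6, w6'⟩

theorem km {y D : ℝ} (hy : |y| ≤ D) : |kp * y| ≤ D := by
  rw [abs_mul]
  calc |kp| * |y| ≤ 1 * |y| := mul_le_mul_of_nonneg_right h.hκ (abs_nonneg _)
    _ ≤ D := by linarith

theorem d0 : |p' 0 - p 0| ≤ (2 * K * τ) * σ 0 := by
  refine (abs_sub _ _).trans ?_
  have := h.p0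
  have := h.p0'
  linarith

theorem m2 {δ : ℝ} (hd : |p' 2 - p 2| ≤ δ * σ 2) : |r 2| ≤ (δ + 2 * K ^ 2 * τ) * σ 2 := by
  have K1 := h.K1
  have K0 : 0 ≤ K := by linarith
  have τ0 := h.τ0
  have g := bm (h.hp 1) h.d0 K0 (by positivity) (h.sd.pos 1) h.wl.1
  rw [h.r2]
  have g1 := abs_sub (p' 2 - p 2) (p 1 * (p' 0 - p 0))
  have e : (δ + 2 * K ^ 2 * τ) * σ 2 = δ * σ 2 + K * (2 * K * τ) * σ 2 := by ring
  rw [e]
  linarith

theorem m3 {δ η : ℝ} (hη : 0 ≤ η) (h1 : |r 1| ≤ η * σ 1)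
    (hd : |(p' 3 + 2 * kp * p' 1 * p' 2) - (p 3 + 2 * kp * p 1 * p 2)| ≤ δ * σ 3) :
    |r 3| ≤ (δ + 2 * K * η + 2 * K ^ 3 * τ) * σ 3 := by
  have K1 := h.K1
  have K0 : 0 ≤ K := by linarith
  have τ0 := h.τ0
  have s1 := h.sd.pos 1
  have g1 : |p' 2 * r 1| ≤ (K * η) * σ 3 := by
    refine bm (h.hp' 2) h1 K0 hη (h.sd.pos 2) ?_
    rw [mul_comm]; exact h.wl.2.1
  have g2 : |p 1 * (p' 0 - p 0)| ≤ (K * (2 * K * τ)) * σ 2 :=
    bm (h.hp 1) h.d0 K0 (by positivity) s1 h.wl.1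
  have g3 : |p 1 * (p 1 * (p' 0 - p 0))| ≤ (K * (K * (2 * K * τ))) * σ 3 :=
    bm (h.hp 1) g2 K0 (by positivity) s1 h.wl.2.1
  have k1 := h.km g1
  have k3 := h.km g3
  have e : r 3 = ((p' 3 + 2 * kp * p' 1 * p' 2) - (p 3 + 2 * kp * p 1 * p 2)) -
      2 * (kp * (p' 2 * r 1)) - kp * (p 1 * (p 1 * (p' 0 - p 0))) := by
    rw [h.r3]; ring
  rw [e]
  have a1 := abs_sub ((p' 3 + 2 * kp * p' 1 * p' 2) - (p 3 + 2 * kp * p 1 * p 2) -
      2 * (kp * (p' 2 * r 1))) (kp * (p 1 * (p 1 * (p' 0 - p 0))))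
  have a2 := abs_sub ((p' 3 + 2 * kp * p' 1 * p' 2) - (p 3 + 2 * kp * p 1 * p 2))
    (2 * (kp * (p' 2 * r 1)))
  have a3 : |2 * (kp * (p' 2 * r 1))| = 2 * |kp * (p' 2 * r 1)| := by
    rw [abs_mul, abs_of_pos (by norm_num : (0:ℝ) < 2)]
  have e2 : (δ + 2 * K * η + 2 * K ^ 3 * τ) * σ 3 = δ * σ 3 + 2 * (K * η * σ 3) +
      K * (K * (2 * K * τ)) * σ 3 := by ring
  rw [e2]
  linarith

theorem q4 : r 4 = w' 4 - w 4 := h.rq 0

theorem q5 : r 5 = (w' 5 - w 5) + 2 * p' 0 * (w' 4 - w 4) := h.rq 1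

theorem q6 : r 6 = (w' 6 - w 6) + 4 * kp * p' 2 * (w' 4 - w 4) -
    4 * kp * p' 0 * p' 1 * (w' 4 - w 4) - 2 * kp * p' 1 * (w' 5 - w 5) := h.rq 2

theorem dw (s : Fin 18) : |w' s - w s| ≤ (2 * K) * σ s := by
  refine (abs_sub _ _).trans ?_
  have := h.hw s
  have := h.hw' s
  linarith

theorem m5' {a : ℝ} (ha : 0 ≤ a) (h4 : |w' 4 - w 4| ≤ a * σ 4) :
    |p' 0 * (w' 4 - w 4)| ≤ (K * τ * a) * σ 5 :=
  bm h.p0' h4 (mul_nonneg (by linarith [h.K1]) h.τ0) ha (h.sd.pos 0) h.wl.2.2.1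

theorem m5 {δ : ℝ} (hd : |w' 5 - w 5| ≤ δ * σ 5) : |r 5| ≤ (δ + 4 * K ^ 2 * τ) * σ 5 := by
  have K1 := h.K1
  have g := h.m5' (by linarith) (h.dw 4)
  rw [h.q5]
  have e : 2 * p' 0 * (w' 4 - w 4) = 2 * (p' 0 * (w' 4 - w 4)) := by ring
  rw [e]
  have a1 := abs_add_le (w' 5 - w 5) (2 * (p' 0 * (w' 4 - w 4)))
  have a3 : |2 * (p' 0 * (w' 4 - w 4))| = 2 * |p' 0 * (w' 4 - w 4)| := by
    rw [abs_mul, abs_of_pos (by norm_num : (0:ℝ) < 2)]
  have e2 : (δ + 4 * K ^ 2 * τ) * σ 5 = δ * σ 5 + 2 * (K * τ * (2 * K) * σ 5) := by ring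
  rw [e2]
  linarith

set_option maxHeartbeats 1000000 in
theorem m6 {δ a b : ℝ} (ha : 0 ≤ a) (hb : 0 ≤ b) (h4 : |r 4| ≤ a * σ 4) (h5 : |r 5| ≤ b * σ 5)
    (hd : |w' 6 - w 6| ≤ δ * σ 6) : |r 6| ≤ (δ + 12 * K ^ 2 * (a + b)) * σ 6 := by
  have K1 := h.K1
  have K0 : 0 ≤ K := by linarith
  have τ0 := h.τ0
  have τ1 := h.τ1
  obtain ⟨w2, w3, w5, w6, w6'⟩ := h.wl
  have s0 := h.sd.pos 0
  have s1 := h.sd.pos 1
  have s2 := h.sd.pos 2
  have s4 := h.sd.pos 4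
  have s5 := h.sd.pos 5
  have s6 := h.sd.pos 6
  have f4 : |w' 4 - w 4| ≤ a * σ 4 := by rw [← h.q4]; exact h4
  have g5 := h.m5' ha f4
  have f5 : |w' 5 - w 5| ≤ (b + 2 * (K * τ * a)) * σ 5 := by
    have e : w' 5 - w 5 = r 5 - 2 * (p' 0 * (w' 4 - w 4)) := by rw [h.q5]; ring
    rw [e]
    have a1 := abs_sub (r 5) (2 * (p' 0 * (w' 4 - w 4)))
    have a3 : |2 * (p' 0 * (w' 4 - w 4))| = 2 * |p' 0 * (w' 4 - w 4)| := by
      rw [abs_mul, abs_of_pos (by norm_num : (0:ℝ) < 2)]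
    have e2 : (b + 2 * (K * τ * a)) * σ 5 = b * σ 5 + 2 * (K * τ * a * σ 5) := by ring
    rw [e2]
    linarith
  have hKτa : 0 ≤ K * τ * a := by positivity
  have g1 : |p' 2 * (w' 4 - w 4)| ≤ (K * a) * σ 6 := bm (h.hp' 2) f4 K0 ha s2 w6
  have g2 : |p' 1 * (p' 0 * (w' 4 - w 4))| ≤ (K * (K * τ * a)) * σ 6 :=
    bm (h.hp' 1) g5 K0 hKτa s1 w6'
  have g3 : |p' 1 * (w' 5 - w 5)| ≤ (K * (b + 2 * (K * τ * a))) * σ 6 :=
    bm (h.hp' 1) f5 K0 (by positivity) s1 w6'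
  have k1 := h.km g1
  have k2 := h.km g2
  have k3 := h.km g3
  have e : r 6 = (w' 6 - w 6) + 4 * (kp * (p' 2 * (w' 4 - w 4))) -
      4 * (kp * (p' 1 * (p' 0 * (w' 4 - w 4)))) - 2 * (kp * (p' 1 * (w' 5 - w 5))) := by
    rw [h.q6]; ring
  rw [e]
  have a1 := abs_sub ((w' 6 - w 6) + 4 * (kp * (p' 2 * (w' 4 - w 4))) -
      4 * (kp * (p' 1 * (p' 0 * (w' 4 - w 4))))) (2 * (kp * (p' 1 * (w' 5 - w 5))))
  have a2 := abs_sub ((w' 6 - w 6) + 4 * (kp * (p' 2 * (w' 4 - w 4))))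
      (4 * (kp * (p' 1 * (p' 0 * (w' 4 - w 4)))))
  have a3 := abs_add_le (w' 6 - w 6) (4 * (kp * (p' 2 * (w' 4 - w 4))))
  have b1 : |4 * (kp * (p' 2 * (w' 4 - w 4)))| = 4 * |kp * (p' 2 * (w' 4 - w 4))| := by
    rw [abs_mul, abs_of_pos (by norm_num : (0:ℝ) < 4)]
  have b2 : |4 * (kp * (p' 1 * (p' 0 * (w' 4 - w 4))))| =
      4 * |kp * (p' 1 * (p' 0 * (w' 4 - w 4)))| := by
    rw [abs_mul, abs_of_pos (by norm_num : (0:ℝ) < 4)]
  have b3 : |2 * (kp * (p' 1 * (w' 5 - w 5)))| = 2 * |kp * (p' 1 * (w' 5 - w 5))| := by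
    rw [abs_mul, abs_of_pos (by norm_num : (0:ℝ) < 2)]
  rw [b1] at a3
  rw [b2] at a2
  rw [b3] at a1
  have t1 : K * τ * a ≤ K * a := by
    have : K * τ * a ≤ K * 1 * a :=
      mul_le_mul_of_nonneg_right (mul_le_mul_of_nonneg_left τ1 K0) ha
    linarith
  have t2 : K * (K * τ * a) ≤ K * (K * a) := mul_le_mul_of_nonneg_left t1 K0
  have t3 : K * a ≤ K ^ 2 * a := mul_le_mul_of_nonneg_right (by nlinarith) ha
  have t4 : K * b ≤ K ^ 2 * b := mul_le_mul_of_nonneg_right (by nlinarith) hb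
  have key : δ + 4 * (K * a) + 4 * (K * (K * τ * a)) + 2 * (K * (b + 2 * (K * τ * a))) ≤
      δ + 12 * K ^ 2 * (a + b) := by
    have n1 : 0 ≤ K ^ 2 * b := by positivity
    have t5 : K * (K * a) = K ^ 2 * a := by ring
    have e1 : 2 * (K * (b + 2 * (K * τ * a))) = 2 * (K * b) + 4 * (K * (K * τ * a)) := by ring
    have e2 : 12 * K ^ 2 * (a + b) = 12 * (K ^ 2 * a) + 12 * (K ^ 2 * b) := by ring
    rw [e1, e2]
    linarith
  have key2 := mul_le_mul_of_nonneg_right key s6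
  have e3 : (δ + 4 * (K * a) + 4 * (K * (K * τ * a)) + 2 * (K * (b + 2 * (K * τ * a)))) * σ 6 =
    δ * σ 6 + 4 * (K * a * σ 6) + 4 * (K * (K * τ * a) * σ 6) +
      2 * (K * (b + 2 * (K * τ * a)) * σ 6) := by ring
  rw [e3] at key2
  linarith

end RawP

end num

/-! ### the closures -/

/-- unit of the normalised coordinates -/
noncomputable def sg (W : Wnd 18 ι) (u : ℕ → Fin 18 → ℝ) (n : ℕ) (s : Fin 18) : ℝ :=
  W.kap 0 ^ wtW s * sd W u n s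

/-- normalised frame coordinates -/
noncomputable def cf (W : Wnd 18 ι) (κ : ℕ → ℝ) (u : ℕ → Fin 18 → ℝ) (f : ∀ n, ι n → FW)
    (n k l : ℕ) (s : Fin 18) : ℝ := rf W κ f n k l s / sg W u n s

/-- normalised flags -/
noncomputable def cw (W : Wnd 18 ι) (κ : ℕ → ℝ) (u : ℕ → Fin 18 → ℝ) (f : ∀ n, ι n → FW)
    (n k l : ℕ) (s : Fin 18) : ℝ := rw' W κ f n k l s / sg W u n s

theorem kp0 (hW : PWin W E κ u f {4} lam x) (s : Fin 18) : 0 < W.kap 0 ^ wtW s :=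
  pow_pos (hW.ww.ok.kap 0) _

theorem sg_pos (hW : PWin W E κ u f {4} lam x) (n : ℕ) (s : Fin 18) : 0 < sg W u n s :=
  mul_pos (kp0 hW s) (hW.ww.sd_pos n s)

/-- differences: from normalised to raw -/
theorem dif_le (hW : PWin W E κ u f {4} lam x) {n : ℕ} {s : Fin 18} {a b t : ℝ}
    (h : |a / sg W u n s - b / sg W u n s| ≤ t) :
    |a - b| ≤ (W.kap 0 ^ wtW s * t) * sd W u n s := by
  have h1 := sg_pos hW n s
  have e : a - b = (a / sg W u n s - b / sg W u n s) * sg W u n s := by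
    field_simp
  rw [e, abs_mul, abs_of_pos h1]
  refine (mul_le_mul_of_nonneg_right h h1.le).trans (le_of_eq ?_)
  unfold sg
  ring

theorem fin_le (hW : PWin W E κ u f {4} lam x) {n : ℕ} {s : Fin 18} {r D y e : ℝ}
    (hr : |un W u n s * r| ≤ D * sd W u n s) (hD : D / W.kap s ≤ W.B'.d n ^ (-e) * W.B'.d n ^ y) :
    |r| ≤ W.B'.d n ^ (y - e) := by
  have h := hW.ww
  have h1 := h.un_pos n s
  have hk := h.ok.kap s
  have hs := h.sd_pos n s
  have h2 := h.norm_le hr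
  rw [mul_div_cancel_left₀ _ h1.ne'] at h2
  refine h2.trans (hD.trans (le_of_eq ?_))
  rw [← Real.rpow_add (W.B'.pos n)]
  congr 1
  ring

theorem sd3 (hW : PWin W E κ u f {4} lam x) (n : ℕ) : sd W u n 3 = sd W u n 1 * sd W u n 2 := by
  have h := hW.ww
  have ht := hW.tight 3 (by decide) [1, 2] (by decide) (by decide) n
  have hl := (h.hl n).mul 3 [1, 2] (by decide)
  simp only [List.map_cons, List.map_nil, List.prod_cons, List.prod_nil, mul_one, List.sum_cons,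
    List.sum_nil, add_zero] at ht hl
  unfold sd
  rw [ht, ← hl, Real.rpow_add (W.B.pos n)]
  have h1 := ((h.hl n).pos 1).ne'
  have h2 := ((h.hl n).pos 2).ne'
  field_simp

theorem sg3 (hW : PWin W E κ u f {4} lam x) (n : ℕ) : sg W u n 3 = sg W u n 1 * sg W u n 2 := by
  unfold sg
  rw [sd3 hW n, show wtW 3 = wtW 1 + wtW 2 by decide, pow_add]
  ring

/-- `loose` after an update of one slot -/
theorem loose_upd {n : ℕ} {p : Fin 18 → ℝ} {e ε y : ℝ} {j : Fin 18} {k l l' : ℕ}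
    (hle : e ≤ ε) (h : (W.cfg E n).loose p e k l l') (hρ : (W.cfg E n).ρ = W.B'.d n)
    (h1 : |(W.cfg E n).rel k l l' j| ≤ W.B'.d n ^ (y - ε)) :
    (W.cfg E n).loose (Function.update p j y) ε k l l' := by
  intro s
  by_cases hs : s = j
  · subst hs; rw [Function.update_self, hρ]; exact h1
  · rw [Function.update_of_ne hs, hρ]
    refine (h s).trans ?_
    rw [hρ]
    exact Real.rpow_le_rpow_of_exponent_ge (W.B'.pos n) (W.B'.lt n).le (by linarith)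

/-- the base of the configuration -/
theorem rho (hW : PWin W E κ u f {4} lam x) : ∀ᶠ n in (U : Filter ℕ),
    (W.cfg E n).ρ = W.B'.d n := by
  filter_upwards [hW.ev] with n hn
  rw [hn.2.2]; rfl


/-- **acl** -/
theorem acl_of (hW : PWin W E κ u f {4} lam x) (hx : 0 < x) (p : Fin 18 → ℝ) :
    ∀ y : ℝ, 0 ≤ y → y ≤ x → ∀ ε : ℝ, 0 < ε → ∀ᶠ n in (U : Filter ℕ), ∀ k l l',
      (l, k) ∈ (W.cfg E n).I → (l', k) ∈ (W.cfg E n).I → (W.cfg E n).loose p ε k l l' →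
      |cf W κ u f n k l' 2 - cf W κ u f n k l 2| ≤ W.B'.d n ^ y →
      (W.cfg E n).loose (Function.update p 2 y) ε k l l' := by
  intro y hy0 hyx ε hε
  have hK1 := hW.ww.ok.K0_one
  set c := W.kap 0 ^ wtW 2 with hcd
  have hc0 : 0 < c := kp0 hW 2
  filter_upwards [raw hW hx, rho hW, ev_const_le W.B' hε ((c + 2 * W.K0 ^ 2) / W.kap 2)]
    with n hn hρ hc k l l' hl hl' hlo hd
  obtain ⟨R, hr⟩ := hn k l l' hl hl'
  have hτ : W.B'.d n ^ x ≤ W.B'.d n ^ y :=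
    Real.rpow_le_rpow_of_exponent_ge (W.B'.pos n) (W.B'.lt n).le hyx
  have hy := Real.rpow_pos_of_pos (W.B'.pos n) y
  have h1 := dif_le hW hd
  have h2 := R.m2 h1
  rw [hr 2 (by decide)] at h2
  refine loose_upd le_rfl hlo hρ (fin_le hW h2 ?_)
  have hk := hW.ww.ok.kap 2
  calc (c * W.B'.d n ^ y + 2 * W.K0 ^ 2 * W.B'.d n ^ x) / W.kap 2
      ≤ ((c + 2 * W.K0 ^ 2) * W.B'.d n ^ y) / W.kap 2 := by
        refine div_le_div_of_nonneg_right ?_ hk.le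
        nlinarith [mul_le_mul_of_nonneg_left hτ (by positivity : 0 ≤ 2 * W.K0 ^ 2)]
    _ = (c + 2 * W.K0 ^ 2) / W.kap 2 * W.B'.d n ^ y := by ring
    _ ≤ _ := mul_le_mul_of_nonneg_right hc hy.le

/-- **qcl / zcl** -/
theorem qcl_of (hW : PWin W E κ u f {4} lam x) (hx : 0 < x) (p : Fin 18 → ℝ) :
    ∀ y : ℝ, 0 ≤ y → y ≤ x → ∀ ε : ℝ, 0 < ε → ∀ᶠ n in (U : Filter ℕ), ∀ k l l',
      (l, k) ∈ (W.cfg E n).I → (l', k) ∈ (W.cfg E n).I → (W.cfg E n).loose p ε k l l' →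
      |cf W κ u f n k l' 1 - cf W κ u f n k l 1| ≤ W.B'.d n ^ y →
      (W.cfg E n).loose (Function.update p 1 y) ε k l l' := by
  intro y hy0 hyx ε hε
  set c := W.kap 0 ^ wtW 1 with hcd
  have hc0 : 0 < c := kp0 hW 1
  filter_upwards [raw hW hx, rho hW, ev_const_le W.B' hε (c / W.kap 1)]
    with n hn hρ hc k l l' hl hl' hlo hd
  obtain ⟨R, hr⟩ := hn k l l' hl hl'
  have hy := Real.rpow_pos_of_pos (W.B'.pos n) y
  have h1 := dif_le hW hd
  rw [← R.r1, hr 1 (by decide)] at h1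
  refine loose_upd le_rfl hlo hρ (fin_le hW h1 ?_)
  calc c * W.B'.d n ^ y / W.kap 1 = c / W.kap 1 * W.B'.d n ^ y := by ring
    _ ≤ _ := mul_le_mul_of_nonneg_right hc hy.le

/-- **bcl** -/
theorem bcl_of (hW : PWin W E κ u f {4} lam x) (hx : 0 < x) {C : ℝ} (hC : 1 ≤ C)
    {pp pc pb : Fin 18 → ℝ} (h1 : pc 1 = x) (hpb : ∀ j, j ≠ 3 → pb j ≤ pp j ∨ pb j ≤ pc j) :
    ∀ y : ℝ, 0 ≤ y → ∀ ε : ℝ, 0 < ε → y + C * ε ≤ x → ∀ᶠ n in (U : Filter ℕ), ∀ k l l',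
      (l, k) ∈ (W.cfg E n).I → (l', k) ∈ (W.cfg E n).I → (W.cfg E n).loose pp ε k l l' →
      (W.cfg E n).loose pc ε k l l' →
      |(cf W κ u f n k l' 3 + 2 * κ n * cf W κ u f n k l' 1 * cf W κ u f n k l' 2) -
        (cf W κ u f n k l 3 + 2 * κ n * cf W κ u f n k l 1 * cf W κ u f n k l 2)| ≤
        W.B'.d n ^ y → (W.cfg E n).loose (Function.update pb 3 y) ε k l l' := by
  intro y hy0 ε hε hyx
  have hK1 := hW.ww.ok.K0_one
  have hk1 := hW.ww.ok.kap 1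
  set c := W.kap 0 ^ wtW 3 with hcd
  have hc0 : 0 < c := kp0 hW 3
  filter_upwards [raw hW hx, rho hW, ev_const_le W.B' hε
    ((c + 2 * W.K0 * W.kap 1 + 2 * W.K0 ^ 3) / W.kap 3)]
    with n hn hρ hc k l l' hl hl' hlp hlc hd
  obtain ⟨R, hr⟩ := hn k l l' hl hl'
  have hsg3 := sg3 hW n
  have anti : ∀ {s t : ℝ}, s ≤ t → W.B'.d n ^ t ≤ W.B'.d n ^ s := fun hst =>
    Real.rpow_le_rpow_of_exponent_ge (W.B'.pos n) (W.B'.lt n).le hst
  have hy := Real.rpow_pos_of_pos (W.B'.pos n) y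
  have hεC : ε ≤ C * ε := by nlinarith
  have g1 : |coW (κ n) (f n (W.rep n l k)) (f n (W.rep n l' k)) 1| ≤
      (W.kap 1 * W.B'.d n ^ y) * sd W u n 1 := by
    rw [hr 1 (by decide)]
    have a := hlc 1
    rw [h1, hρ] at a
    have a2 : |(W.cfg E n).rel k l l' 1| ≤ W.B'.d n ^ y := a.trans (anti (by linarith))
    exact hW.ww.raw_le a2
  have g3 : |(rf W κ f n k l' 3 + 2 * κ n * rf W κ f n k l' 1 * rf W κ f n k l' 2) -
      (rf W κ f n k l 3 + 2 * κ n * rf W κ f n k l 1 * rf W κ f n k l 2)| ≤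
      (c * W.B'.d n ^ y) * sd W u n 3 := by
    refine dif_le hW ?_
    have c1 : ∀ l, cf W κ u f n k l 3 + 2 * κ n * cf W κ u f n k l 1 * cf W κ u f n k l 2 =
        (rf W κ f n k l 3 + 2 * κ n * rf W κ f n k l 1 * rf W κ f n k l 2) / sg W u n 3 := by
      intro l
      have n1 := (sg_pos hW n 1).ne'
      have n2 := (sg_pos hW n 2).ne'
      unfold cf
      rw [hsg3]
      field_simp
    rw [← c1, ← c1]
    exact hd
  have h3 := R.m3 (by positivity) g1 g3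
  rw [hr 3 (by decide)] at h3
  have hpbl : (W.cfg E n).loose (Function.update pb 3 y) ε k l l' := by
    intro s
    by_cases hs : s = 3
    · subst hs
      rw [Function.update_self, hρ]
      refine fin_le hW h3 ?_
      have hτ : W.B'.d n ^ x ≤ W.B'.d n ^ y := anti (by linarith)
      have hk := hW.ww.ok.kap 3
      calc (c * W.B'.d n ^ y + 2 * W.K0 * (W.kap 1 * W.B'.d n ^ y) +
            2 * W.K0 ^ 3 * W.B'.d n ^ x) / W.kap 3
          ≤ ((c + 2 * W.K0 * W.kap 1 + 2 * W.K0 ^ 3) * W.B'.d n ^ y) / W.kap 3 := by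
            refine div_le_div_of_nonneg_right ?_ hk.le
            nlinarith [mul_le_mul_of_nonneg_left hτ (by positivity : 0 ≤ 2 * W.K0 ^ 3)]
        _ = (c + 2 * W.K0 * W.kap 1 + 2 * W.K0 ^ 3) / W.kap 3 * W.B'.d n ^ y := by ring
        _ ≤ _ := mul_le_mul_of_nonneg_right hc hy.le
    · rw [Function.update_of_ne hs, hρ]
      rcases hpb s hs with h | h
      · refine (hlp s).trans ?_
        rw [hρ]; exact anti (by linarith)
      · refine (hlc s).trans ?_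
        rw [hρ]; exact anti (by linarith)
  exact hpbl

/-- **ycl, 35** : `Y = w 1 / σ 5` -/
theorem ycl35_of (hW : PWin W E κ u f {4} lam x) (hx : 0 < x) (p : Fin 18 → ℝ) :
    ∀ ε : ℝ, 0 < ε → ∀ᶠ n in (U : Filter ℕ), ∀ k l l', (l, k) ∈ (W.cfg E n).I →
      (l', k) ∈ (W.cfg E n).I → (W.cfg E n).loose p ε k l l' →
      |cw W κ u f n k l' 5 - cw W κ u f n k l 5| ≤ W.B'.d n ^ (x - ε) →
      (W.cfg E n).loose (Function.update p 5 x) (2 * ε) k l l' := by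
  intro ε hε
  have hK1 := hW.ww.ok.K0_one
  set c := W.kap 0 ^ wtW 5 with hcd
  have hc0 : 0 < c := kp0 hW 5
  filter_upwards [raw hW hx, rho hW, ev_const_le W.B' hε ((c + 4 * W.K0 ^ 2) / W.kap 5)]
    with n hn hρ hc k l l' hl hl' hlo hd
  obtain ⟨R, hr⟩ := hn k l l' hl hl'
  have hτ : W.B'.d n ^ x ≤ W.B'.d n ^ (x - ε) :=
    Real.rpow_le_rpow_of_exponent_ge (W.B'.pos n) (W.B'.lt n).le (by linarith)
  have hy := Real.rpow_pos_of_pos (W.B'.pos n) (x - ε)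
  have h1 := dif_le hW hd
  have h2 := R.m5 h1
  rw [hr 5 (by decide)] at h2
  refine loose_upd (by linarith) hlo hρ ?_
  have h3 := fin_le (y := x - ε) (e := ε) hW h2 ?_
  · refine h3.trans (le_of_eq ?_)
    congr 1; ring
  have hk := hW.ww.ok.kap 5
  calc (c * W.B'.d n ^ (x - ε) + 4 * W.K0 ^ 2 * W.B'.d n ^ x) / W.kap 5
      ≤ ((c + 4 * W.K0 ^ 2) * W.B'.d n ^ (x - ε)) / W.kap 5 := by
        refine div_le_div_of_nonneg_right ?_ hk.le
        nlinarith [mul_le_mul_of_nonneg_left hτ (by positivity : 0 ≤ 4 * W.K0 ^ 2)]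
    _ = (c + 4 * W.K0 ^ 2) / W.kap 5 * W.B'.d n ^ (x - ε) := by ring
    _ ≤ _ := mul_le_mul_of_nonneg_right hc hy.le


/-! ### the literals of `Rows35`, `Rows34` -/

theorem ind_upd (S : Finset (Fin 18)) (k : Fin 18) (x : ℝ) :
    Function.update (ind S x) k x = ind (insert k S) x := by
  funext s
  by_cases hs : s = k
  · subst hs
    rw [Function.update_self]
    unfold ind
    rw [if_pos (mem_insert_self _ _)]
  · rw [Function.update_of_ne hs]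
    unfold ind
    simp only [mem_insert, hs, false_or]

theorem ind_or {A B S : Finset (Fin 18)} (h : ∀ j ∈ S, j ≠ 3 → j ∈ A ∨ j ∈ B) (hx : 0 ≤ x)
    (j : Fin 18) (hj : j ≠ 3) : ind S x j ≤ ind A x j ∨ ind S x j ≤ ind B x j := by
  by_cases hS : j ∈ S
  · rcases h j hS hj with h1 | h1
    · left; unfold ind; rw [if_pos hS, if_pos h1]
    · right; unfold ind; rw [if_pos hS, if_pos h1]
  · left; unfold ind; rw [if_neg hS]; split_ifs; exacts [hx, le_rfl]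






theorem bcl35 (hW : PWin W E κ u f {4} lam x) (hx : 0 < x) {C : ℝ} (hC : 1 ≤ C) :
    ∀ y : ℝ, 0 ≤ y → ∀ ε : ℝ, 0 < ε → y + C * ε ≤ x → ∀ᶠ n in (U : Filter ℕ), ∀ k l l',
      (l, k) ∈ (W.cfg E n).I → (l', k) ∈ (W.cfg E n).I →
      (W.cfg E n).loose (ind {0, 2, 4, 7, 14} x) ε k l l' →
      (W.cfg E n).loose (ind {0, 1, 4, 5} x) ε k l l' →
      |(cf W κ u f n k l' 3 + 2 * κ n * cf W κ u f n k l' 1 * cf W κ u f n k l' 2) -
        (cf W κ u f n k l 3 + 2 * κ n * cf W κ u f n k l 1 * cf W κ u f n k l 2)| ≤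
        W.B'.d n ^ y →
      (W.cfg E n).loose (Function.update (ind {0, 1, 2, 4, 5, 7, 14} x) 3 y) ε k l l' :=
  bcl_of hW hx hC (by unfold ind; rw [if_pos (by decide)]) (ind_or (by decide) hx.le)


theorem ycl35 (hW : PWin W E κ u f {4} lam x) (hx : 0 < x) :
    ∀ ε : ℝ, 0 < ε → ∀ᶠ n in (U : Filter ℕ), ∀ k l l', (l, k) ∈ (W.cfg E n).I →
      (l', k) ∈ (W.cfg E n).I → (W.cfg E n).loose (ind {0, 4} x) ε k l l' →
      |cw W κ u f n k l' 5 - cw W κ u f n k l 5| ≤ W.B'.d n ^ (x - ε) →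
      (W.cfg E n).loose (ind {0, 4, 5} x) (2 * ε) k l l' := by
  have h := ycl35_of hW hx (ind {0, 4} x)
  rw [ind_upd] at h
  have e : insert (5 : Fin 18) ({0, 4} : Finset (Fin 18)) = {0, 4, 5} := by decide
  rwa [e] at h


end Crest.Agent.R136.CubC848
end

-- ▼ part R136/CubT_851
section

/-!
# R136, the specials of the thin pins (helper851): the rows over a window

* `sg` : units; `uni_sg`; `hT`, `vT`, `rT` : normalised frames, flags, relative coordinates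
* `PWin.tri`, `PWin.near` : the composition rules for two lines of one height
* `pcl35`, `vcl35`, `ccl35`, `pcl34`, `vcl34`, `ccl34`, `zrow34`
-/

set_option autoImplicit false
set_option linter.unusedSectionVars false
set_option linter.unusedVariables false

open Filter Topology

namespace Crest.Agent.R136.Pin851

open Finset Crest.Agent.R138.Ex926 Crest.Agent.R136.Net191 Crest.Agent.R136.Gf356
open Crest.Agent.R136.Qg926
open Crest.Agent.R136.NetW191 Crest.Agent.R136.EvW938 Crest.Agent.R136.PrW464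
open Crest.Agent.R136.LadW697 Crest.Agent.R136.LfW619 Crest.Agent.R136.RowW619
open Crest.Agent.R136.NatW697 Crest.Agent.R136.Qd329
open Crest.Agent.R136.PqG464 (wtW wtW_list)
open Crest.Agent.R136.Cub191 (SProf SRow SEvo SSlope)
open Crest.Agent.R136.K2S774 (cn ind1)

/-- units, multiplicative along the walls, `sg 0 = kap 0 * sd 0` -/
noncomputable def sg (W : Wnd 18 fun _ => ℕ × ℝ) (u : ℕ → Fin 18 → ℝ) (n : ℕ) (s : Fin 18) : ℝ :=
  W.kap 0 ^ wtW s * sd W u n s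

/-- normalised frames seen from the base of the height -/
noncomputable def hT (W : Wnd 18 fun _ => ℕ × ℝ) (κ : ℕ → ℝ) (u : ℕ → Fin 18 → ℝ)
    (f : ℕ → ℕ × ℝ → FW) (n k l : ℕ) : Fin 18 → ℝ :=
  Hc (κ n) (sg W u n) (f n (W.zrep n k)) (f n (W.rep n l k))

/-- normalised flags seen from the base of the height -/
noncomputable def vT (W : Wnd 18 fun _ => ℕ × ℝ) (κ : ℕ → ℝ) (u : ℕ → Fin 18 → ℝ)
    (f : ℕ → ℕ × ℝ → FW) (n k l : ℕ) : Fin 18 → ℝ :=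
  Vc (κ n) (sg W u n) (f n (W.zrep n k)) (f n (W.rep n l k))

/-- normalised relative coordinates -/
noncomputable def rT (W : Wnd 18 fun _ => ℕ × ℝ) (κ : ℕ → ℝ) (u : ℕ → Fin 18 → ℝ)
    (f : ℕ → ℕ × ℝ → FW) (n k l l' : ℕ) : Fin 18 → ℝ :=
  fun s => coW (κ n) (f n (W.rep n l k)) (f n (W.rep n l' k)) s / sg W u n s

/-- ratio of the units -/
noncomputable def chi (W : Wnd 18 fun _ => ℕ × ℝ) (s : Fin 18) : ℝ := W.kap s / W.kap 0 ^ wtW s

/-- one constant -/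
noncomputable def KM (W : Wnd 18 fun _ => ℕ × ℝ) : ℝ :=
  W.K0 + ∑ s, (W.K0 / W.kap 0 ^ wtW s + chi W s + (chi W s)⁻¹)

section

variable {W : Wnd 18 fun _ => ℕ × ℝ} {E : ∀ n : ℕ, Finset (ℕ × ℝ)} {κ : ℕ → ℝ}
  {u : ℕ → Fin 18 → ℝ} {f : ℕ → ℕ × ℝ → FW} {lam : (Fin 18 → ℝ) → ℝ} {x τ : ℝ}
  {V : Finset (Fin 18)} {n k l l' : ℕ}

theorem PWin.kap0 (h : PWin W E κ u f {4} lam x) (s : Fin 18) : 0 < W.kap s := h.ww.ok.kap s

theorem PWin.chi0 (h : PWin W E κ u f {4} lam x) (s : Fin 18) : 0 < chi W s :=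
  div_pos (h.kap0 s) (pow_pos (h.kap0 0) _)

theorem PWin.KM_le (h : PWin W E κ u f {4} lam x) (s : Fin 18) :
    W.K0 / W.kap 0 ^ wtW s ≤ KM W ∧ chi W s ≤ KM W ∧ (chi W s)⁻¹ ≤ KM W := by
  have h1 := h.ww.ok.K0_one
  have hp : ∀ s, 0 ≤ W.K0 / W.kap 0 ^ wtW s := fun s =>
    div_nonneg (by linarith) (pow_pos (h.kap0 0) _).le
  have hc : ∀ s, 0 ≤ chi W s := fun s => (h.chi0 s).le
  have hc' : ∀ s, 0 ≤ (chi W s)⁻¹ := fun s => inv_nonneg.2 (hc s)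
  have h2 : W.K0 / W.kap 0 ^ wtW s + chi W s + (chi W s)⁻¹ ≤
      ∑ s, (W.K0 / W.kap 0 ^ wtW s + chi W s + (chi W s)⁻¹) :=
    Finset.single_le_sum (f := fun s => W.K0 / W.kap 0 ^ wtW s + chi W s + (chi W s)⁻¹)
      (fun i _ => by have := hp i; have := hc i; have := hc' i; positivity) (mem_univ s)
  unfold KM
  have := hp s
  have := hc s
  have := hc' s
  refine ⟨?_, ?_, ?_⟩ <;> linarith

theorem PWin.KM1 (h : PWin W E κ u f {4} lam x) : 1 ≤ KM W := by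
  have h1 := h.ww.ok.K0_one
  have h2 : 0 ≤ ∑ s, (W.K0 / W.kap 0 ^ wtW s + chi W s + (chi W s)⁻¹) :=
    Finset.sum_nonneg fun s _ => by
      have := h.chi0 s
      have := pow_pos (h.kap0 0) (wtW s)
      positivity
  unfold KM; linarith

theorem PWin.sg0 (h : PWin W E κ u f {4} lam x) (n : ℕ) (s : Fin 18) : 0 < sg W u n s :=
  mul_pos (pow_pos (h.kap0 0) _) (h.ww.sd_pos n s)

theorem prod_sg (h : PWin W E κ u f {4} lam x) (n : ℕ) (L : List (Fin 18)) :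
    (L.map (sg W u n)).prod = W.kap 0 ^ (L.map wtW).sum * (L.map (sd W u n)).prod := by
  induction L with
  | nil => simp
  | cons a L ih =>
    simp only [List.map_cons, List.prod_cons, List.sum_cons, ih, pow_add]
    unfold sg
    ring

theorem prod_sd (h : PWin W E κ u f {4} lam x) (n : ℕ) (L : List (Fin 18)) :
    (L.map (sd W u n)).prod = W.B.d n ^ (L.map (W.X n)).sum / (L.map (u n)).prod := by
  induction L with
  | nil => simp
  | cons a L ih =>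
    simp only [List.map_cons, List.prod_cons, List.sum_cons, ih]
    rw [Real.rpow_add (W.B.pos n)]
    unfold sd
    have := ((h.ww.hl n).pos a).ne'
    field_simp

/-- the units of the window -/
theorem PWin.uni (h : PWin W E κ u f {4} lam x) (g : W.Good n) : Uni (sg W u n) where
  pos := h.sg0 n
  side :=
    { pos := fun s => (h.sg0 n s).le
      wall := fun k L hL => by
        rw [prod_sg h, wtW_list k L hL]
        exact mul_le_mul_of_nonneg_left ((h.ww.sides g).wall k L hL) (pow_pos (h.kap0 0) _).le }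
  tight := fun k hk L hL h4 => by
    rw [prod_sg h, wtW_list k L hL, prod_sd h,
      ← h.tight k (by simpa using hk) L hL (fun s hs h4' => h4 (by
        rw [mem_singleton] at h4'; exact h4' ▸ hs)) n, (h.ww.hl n).mul k L hL]
    rfl

/-- bounds of all coordinates -/
theorem PWin.bnd (h : PWin W E κ u f {4} lam x) (g : W.Good n) {a b : ℕ × ℝ} (ha : a ∈ W.Cl n)
    (hb : b ∈ W.Cl n) (s : Fin 18) :
    |coW (κ n) (f n a) (f n b) s| ≤ KM W * sg W u n s := by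
  refine (h.ww.bnd g ha hb s).trans ?_
  have h1 := (h.KM_le s).1
  have h2 := h.sg0 n s
  have h3 : 0 < W.kap 0 ^ wtW s := pow_pos (h.kap0 0) _
  have e : W.K0 * sd W u n s = W.K0 / W.kap 0 ^ wtW s * sg W u n s := by
    unfold sg; field_simp
  rw [e]
  exact mul_le_mul_of_nonneg_right h1 h2.le

/-- heights of one cell -/
theorem PWin.lev (h : PWin W E κ u f {4} lam x) (g : W.Good n) {a b : ℕ × ℝ} (ha : a ∈ W.Cl n)
    (hb : b ∈ W.Cl n) (hz : W.zc n a = W.zc n b) (hτ : W.B'.d n ^ x ≤ τ) :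
    |coW (κ n) (f n a) (f n b) 0| ≤ KM W * τ * sg W u n 0 := by
  refine (h.ww.lev_small g ha hb hz h.ww.h0 (by rw [h.top])).trans ?_
  have h1 := (h.KM_le 0).1
  have h2 := h.sg0 n 0
  have h3 : 0 < W.kap 0 ^ wtW 0 := pow_pos (h.kap0 0) _
  have h4 : 0 < W.B'.d n ^ x := Real.rpow_pos_of_pos (W.B'.pos n) _
  have e : W.K0 * W.B'.d n ^ x * sd W u n 0 =
      W.K0 / W.kap 0 ^ wtW 0 * W.B'.d n ^ x * sg W u n 0 := by
    unfold sg; field_simp
  rw [e]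
  refine mul_le_mul_of_nonneg_right (mul_le_mul h1 hτ h4.le ?_) h2.le
  exact (zero_le_one.trans h.KM1)

/-- the two normalisations -/
theorem PWin.rT_eq (h : PWin W E κ u f {4} lam x) (g : W.Good n) {F : Finset (ℕ × ℝ)}
    (hF : F ⊆ W.Cl n) (hl : (l, k) ∈ (W.cfg0 n F).I) (hl' : (l', k) ∈ (W.cfg0 n F).I) {s : Fin 18}
    (hs : s ≠ 0) : rT W κ u f n k l l' s = chi W s * (W.cfg0 n F).rel k l l' s := by
  have a1 := (Wnd.rep_of_mem hF hl).1
  have a2 := (Wnd.rep_of_mem hF hl').1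
  have hS : s ∉ W.S := by rw [h.S]; simpa using hs
  rw [h.ww.rel_eq l l' k hS]
  unfold rT chi
  rw [h.ww.crd_eq g a1 a2]
  unfold sg un
  have h1 := (h.ww.sd_pos n s).ne'
  have h2 := (pow_pos (h.kap0 0) (wtW s)).ne'
  field_simp

theorem PWin.rT_le (h : PWin W E κ u f {4} lam x) (g : W.Good n) {F : Finset (ℕ × ℝ)}
    (hF : F ⊆ W.Cl n) (hl : (l, k) ∈ (W.cfg0 n F).I) (hl' : (l', k) ∈ (W.cfg0 n F).I) {s : Fin 18}
    (hs : s ≠ 0) (ht : |(W.cfg0 n F).rel k l l' s| ≤ τ) :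
    |rT W κ u f n k l l' s| ≤ KM W * τ := by
  rw [h.rT_eq g hF hl hl' hs, abs_mul, abs_of_pos (h.chi0 s)]
  exact mul_le_mul (h.KM_le s).2.1 ht (abs_nonneg _) (zero_le_one.trans h.KM1)


/-- base of a height -/
theorem zrep_mem {F : Finset (ℕ × ℝ)} (hF : F ⊆ W.Cl n) (hl : (l, k) ∈ (W.cfg0 n F).I) :
    W.zrep n k ∈ W.Cl n ∧ W.zc n (W.zrep n k) = k := by
  obtain ⟨y, hy, -, h2⟩ := Wnd.mem_I.1 hl
  have := W.zrep_spec (hF hy)
  rwa [h2] at this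

/-- **three lines** -/
theorem PWin.tri (h : PWin W E κ u f {4} lam x) (g : W.Good n) {F : Finset (ℕ × ℝ)}
    (hF : F ⊆ W.Cl n) (hl : (l, k) ∈ (W.cfg0 n F).I) (hl' : (l', k) ∈ (W.cfg0 n F).I)
    (hτ : W.B'.d n ^ x ≤ τ) (h4 : |(W.cfg0 n F).rel k l l' 4| ≤ τ) :
    Tri (κ n) (sg W u n) (KM W) τ (f n (W.zrep n k)) (f n (W.rep n l k))
      (f n (W.rep n l' k)) := by
  obtain ⟨a1, -, a3⟩ := Wnd.rep_of_mem hF hl
  obtain ⟨b1, -, b3⟩ := Wnd.rep_of_mem hF hl'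
  obtain ⟨c1, c3⟩ := zrep_mem hF hl
  have h5 := h.rT_le g hF hl hl' (by decide : (4 : Fin 18) ≠ 0) h4
  exact
    { κ1 := h.ww.hκ n
      K1 := h.KM1
      τ0 := (Real.rpow_nonneg (W.B'.pos n).le x).trans hτ
      uni := h.uni g
      b0x := h.bnd g c1 a1
      b0y := h.bnd g c1 b1
      bx0 := h.bnd g a1 c1
      by0 := h.bnd g b1 c1
      z0x := h.lev g c1 a1 (c3.trans a3.symm) hτ
      z0y := h.lev g c1 b1 (c3.trans b3.symm) hτ
      h4 := by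
        unfold rT at h5
        have h6 := h.sg0 n 4
        rwa [abs_div, abs_of_pos h6, div_le_iff₀ h6] at h5 }

/-- data of two lines of one height, near in the slots of `V` -/
structure NearD (W : Wnd 18 fun _ => ℕ × ℝ) (κ : ℕ → ℝ) (u : ℕ → Fin 18 → ℝ)
    (f : ℕ → ℕ × ℝ → FW) (V : Finset (Fin 18)) (n k l l' : ℕ) (η : ℝ) : Prop where
  apx : ∃ E', E' ≤ 1 * η ∧ Apx (κ n) (KM W) E' (hT W κ u f n k l) (hT W κ u f n k l')
    (vT W κ u f n k l) (vT W κ u f n k l') (rT W κ u f n k l l')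
  r : ∀ s ∈ V, s ≠ 0 → |rT W κ u f n k l l' s| ≤ 1 * η

/-- **two lines of one height** -/
theorem PWin.near (h : PWin W E κ u f {4} lam x) (hV : 4 ∈ V) : ∀ ε : ℝ, 0 < ε →
    ∀ᶠ n in (U : Filter ℕ), ∀ k l l', (l, k) ∈ (W.cfg E n).I → (l', k) ∈ (W.cfg E n).I →
      (W.cfg E n).loose (ind V x) ε k l l' →
      ∃ η, NK (KM W) * η ≤ W.B'.d n ^ (x - 2 * ε) ∧ NearD W κ u f V n k l l' η := by
  intro ε hε
  have hK1 := h.KM1
  have hK0 : 0 ≤ KM W := zero_le_one.trans hK1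
  filter_upwards [h.ev, ev_const_le W.B' hε (NK (KM W) * (470 * (2 * KM W) ^ 7))] with
    n ⟨g, hF, he⟩ hc k l l' hl hl' hlo
  rw [he] at hl hl' hlo
  have hpos : 0 < W.B'.d n ^ (x - ε) := Real.rpow_pos_of_pos (W.B'.pos n) _
  have hr : ∀ s ∈ V, |(W.cfg0 n (E n)).rel k l l' s| ≤ W.B'.d n ^ (x - ε) := fun s hs => by
    have := hlo s
    rwa [ind_mem hs] at this
  have T := h.tri g hF hl hl' (τ := W.B'.d n ^ (x - ε))
    (Real.rpow_le_rpow_of_exponent_ge (W.B'.pos n) (W.B'.lt n).le (by linarith)) (hr 4 hV)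
  have hK7 : KM W ≤ 470 * (2 * KM W) ^ 7 := by
    have h1 : KM W ≤ (2 * KM W) ^ 7 := by
      calc KM W ≤ 2 * KM W := by linarith
        _ = (2 * KM W) ^ 1 := (pow_one _).symm
        _ ≤ (2 * KM W) ^ 7 := pow_le_pow_right₀ (by linarith) (by norm_num)
    linarith [h1, hK0.trans h1]
  refine ⟨470 * (2 * KM W) ^ 7 * W.B'.d n ^ (x - ε), ?_, ⟨_, ?_, T.apx⟩, fun s hs hs0 => ?_⟩
  · calc NK (KM W) * (470 * (2 * KM W) ^ 7 * W.B'.d n ^ (x - ε)) =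
        (NK (KM W) * (470 * (2 * KM W) ^ 7)) * W.B'.d n ^ (x - ε) := by ring
      _ ≤ W.B'.d n ^ (-ε) * W.B'.d n ^ (x - ε) := mul_le_mul_of_nonneg_right hc hpos.le
      _ = W.B'.d n ^ (x - 2 * ε) := by
        rw [← Real.rpow_add (W.B'.pos n)]; congr 1; ring
  · rw [one_mul]; exact le_refl _
  · rw [one_mul]
    exact (h.rT_le g hF hl hl' hs0 (hr s hs)).trans
      (mul_le_mul_of_nonneg_right hK7 hpos.le)

end

end Crest.Agent.R136.Pin851
end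

-- ▼ part R136/CubS_851
section

/-!
# R136, the specials of the thin pins (helper851): the rows `pcl`, `vcl`, `ccl`, `zrow`, `bd`
-/

set_option autoImplicit false
set_option linter.unusedSectionVars false
set_option linter.unusedVariables false

open Filter Topology

namespace Crest.Agent.R136.Pin851

open Finset Crest.Agent.R138.Ex926 Crest.Agent.R136.Net191 Crest.Agent.R136.Gf356
open Crest.Agent.R136.Qg926
open Crest.Agent.R136.NetW191 Crest.Agent.R136.EvW938 Crest.Agent.R136.PrW464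
open Crest.Agent.R136.LadW697 Crest.Agent.R136.LfW619 Crest.Agent.R136.RowW619
open Crest.Agent.R136.NatW697 Crest.Agent.R136.Qd329
open Crest.Agent.R136.PqG464 (wtW wtW_list)
open Crest.Agent.R136.Cub191 (SProf SRow SEvo SSlope)
open Crest.Agent.R136.K2S774 (cn ind1)

section

variable (W : Wnd 18 fun _ => ℕ × ℝ) (κ : ℕ → ℝ) (u : ℕ → Fin 18 → ℝ) (f : ℕ → ℕ × ℝ → FW)

/-- `A` -/
noncomputable def aT (n k l : ℕ) : ℝ := hT W κ u f n k l 2

/-- `c` -/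
noncomputable def cT (n k l : ℕ) : ℝ := hT W κ u f n k l 1

/-- `β` -/
noncomputable def bT (n k l : ℕ) : ℝ := Bt (κ n) (hT W κ u f n k l)

/-- `b = 5` -/
noncomputable def F5 (n k l : ℕ) : ℝ := 2 * vT W κ u f n k l 7

noncomputable def Y5 (n k l : ℕ) : ℝ := vT W κ u f n k l 5

noncomputable def Q5 (n k l : ℕ) : ℝ := 2 * hT W κ u f n k l 2 * (2 * vT W κ u f n k l 7)

noncomputable def K5 (n k l : ℕ) : ℝ :=
  vT W κ u f n k l 9 - 4 * κ n * (hT W κ u f n k l 1 * vT W κ u f n k l 7)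

noncomputable def P5 (n k l : ℕ) : ℝ := vT W κ u f n k l 14






end

section

variable {W : Wnd 18 fun _ => ℕ × ℝ} {E : ∀ n : ℕ, Finset (ℕ × ℝ)} {κ : ℕ → ℝ}
  {u : ℕ → Fin 18 → ℝ} {f : ℕ → ℕ × ℝ → FW} {lam : (Fin 18 → ℝ) → ℝ} {x : ℝ}

theorem flip {N η t p q : ℝ} (h : |q - p| ≤ N * η) (h' : N * η ≤ t) : |p - q| ≤ t := by
  rw [abs_sub_comm]; exact h.trans h'

/-- bounds of frames and flags -/
theorem PWin.hv_le (h : PWin W E κ u f {4} lam x) {n k l : ℕ} (g : W.Good n)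
    {F : Finset (ℕ × ℝ)} (hF : F ⊆ W.Cl n) (hl : (l, k) ∈ (W.cfg0 n F).I) (s : Fin 18) :
    |hT W κ u f n k l s| ≤ KM W ∧ |vT W κ u f n k l s| ≤ KM W := by
  obtain ⟨a1, -, -⟩ := Wnd.rep_of_mem hF hl
  obtain ⟨c1, -⟩ := zrep_mem hF hl
  have h1 := h.bnd g c1 a1 s
  have h2 := h.bnd g a1 c1 s
  have h3 := h.sg0 n s
  constructor
  · show |_ / _| ≤ _
    rw [abs_div, abs_of_pos h3, div_le_iff₀ h3]; exact h1
  · show |-(_ / _)| ≤ _
    rw [abs_neg, abs_div, abs_of_pos h3, div_le_iff₀ h3]; exact h2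

/-- bound -/
noncomputable def MM (W : Wnd 18 fun _ => ℕ × ℝ) : ℝ := 10 * KM W ^ 2

theorem PWin.KM2 (h : PWin W E κ u f {4} lam x) : 1 ≤ KM W ^ 2 ∧ KM W ≤ KM W ^ 2 := by
  have h1 := h.KM1
  constructor
  · exact one_le_pow₀ h1
  · nlinarith

theorem PWin.MM1 (h : PWin W E κ u f {4} lam x) : 1 ≤ MM W := by
  have := h.KM2.1
  unfold MM; linarith

/-! ### `b = 5` -/

theorem PWin.bd5 (h : PWin W E κ u f {4} lam x) : ∀ᶠ n in (U : Filter ℕ), ∀ k l,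
    (l, k) ∈ (W.cfg E n).I → |aT W κ u f n k l| ≤ MM W ∧ |F5 W κ u f n k l| ≤ MM W ∧
    |Q5 W κ u f n k l| ≤ MM W ∧ |cT W κ u f n k l| ≤ MM W ∧ |bT W κ u f n k l| ≤ MM W ∧
    |Y5 W κ u f n k l| ≤ MM W ∧ |K5 W κ u f n k l| ≤ MM W := by
  have hK1 := h.KM1
  obtain ⟨k1, k2⟩ := h.KM2
  filter_upwards [h.ev] with n ⟨g, hF, he⟩ k l hl
  rw [he] at hl
  have hH := fun s => (h.hv_le g hF hl s).1
  have hV := fun s => (h.hv_le g hF hl s).2
  have hκ := h.ww.hκ n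
  have m2 : |(2 : ℝ)| ≤ 2 := by norm_num
  have m4 : |(4 : ℝ)| ≤ 4 := by norm_num
  refine ⟨(hH 2).trans ?_, (c_mul m2 (hV 7)).trans ?_,
    (c_mul (c_mul m2 (hH 2)) (c_mul m2 (hV 7))).trans ?_, (hH 1).trans ?_,
    (c_add (hH 3) (c_mul (c_mul m2 hκ) (c_mul (hH 1) (hH 2)))).trans ?_, (hV 5).trans ?_, ?_⟩
  · unfold MM; linarith
  · unfold MM; linarith
  · unfold MM; nlinarith
  · unfold MM; linarith
  · unfold MM; nlinarith
  · unfold MM; linarith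
  · refine (abs_sub _ _).trans ((add_le_add (hV 9)
      (c_mul (c_mul m4 hκ) (c_mul (hH 1) (hV 7)))).trans ?_)
    unfold MM; nlinarith

theorem PWin.pcl5 (h : PWin W E κ u f {4} lam x) : ∀ ε : ℝ, 0 < ε → ∀ᶠ n in (U : Filter ℕ),
    ∀ k l l', (l, k) ∈ (W.cfg E n).I → (l', k) ∈ (W.cfg E n).I →
    (W.cfg E n).loose (ind {0, 2, 4, 7, 14} x) ε k l l' →
      |aT W κ u f n k l - aT W κ u f n k l'| ≤ W.B'.d n ^ (x - 2 * ε) ∧
      |F5 W κ u f n k l - F5 W κ u f n k l'| ≤ W.B'.d n ^ (x - 2 * ε) ∧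
      |Q5 W κ u f n k l - Q5 W κ u f n k l'| ≤ W.B'.d n ^ (x - 2 * ε) ∧
      |(P5 W κ u f n k l + κ n * aT W κ u f n k l ^ 2 * Y5 W κ u f n k l +
          aT W κ u f n k l * K5 W κ u f n k l +
          κ n * (cT W κ u f n k l * Q5 W κ u f n k l)) -
        (P5 W κ u f n k l' + κ n * aT W κ u f n k l' ^ 2 * Y5 W κ u f n k l' +
          aT W κ u f n k l' * K5 W κ u f n k l' +
          κ n * (cT W κ u f n k l' * Q5 W κ u f n k l'))| ≤ W.B'.d n ^ (x - 2 * ε) := by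
  intro ε hε
  filter_upwards [h.near (V := {0, 2, 4, 7, 14}) (by decide) ε hε] with n hn k l l' hl hl' hlo
  obtain ⟨η, h1, ⟨E', hE, A⟩, hr⟩ := hn k l l' hl hl' hlo
  obtain ⟨q1, q2, q3, q4⟩ := A.p35 hE (hr 2 (by decide) (by decide)) (hr 7 (by decide) (by decide))
    (hr 14 (by decide) (by decide))
  exact ⟨flip q1 h1, flip q2 h1, flip q3 h1, flip q4 h1⟩

theorem PWin.vcl5 (h : PWin W E κ u f {4} lam x) : ∀ ε : ℝ, 0 < ε → ∀ᶠ n in (U : Filter ℕ),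
    ∀ k l l', (l, k) ∈ (W.cfg E n).I → (l', k) ∈ (W.cfg E n).I →
    (W.cfg E n).loose (ind {0, 1, 3, 4, 5, 9, 14} x) ε k l l' →
      |cT W κ u f n k l - cT W κ u f n k l'| ≤ W.B'.d n ^ (x - 2 * ε) ∧
      |bT W κ u f n k l - bT W κ u f n k l'| ≤ W.B'.d n ^ (x - 2 * ε) ∧
      |Y5 W κ u f n k l - Y5 W κ u f n k l'| ≤ W.B'.d n ^ (x - 2 * ε) ∧
      |K5 W κ u f n k l - K5 W κ u f n k l'| ≤ W.B'.d n ^ (x - 2 * ε) ∧
      |(P5 W κ u f n k l + bT W κ u f n k l * F5 W κ u f n k l) -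
        (P5 W κ u f n k l' + bT W κ u f n k l' * F5 W κ u f n k l')| ≤
        W.B'.d n ^ (x - 2 * ε) := by
  intro ε hε
  filter_upwards [h.near (V := {0, 1, 3, 4, 5, 9, 14}) (by decide) ε hε] with
    n hn k l l' hl hl' hlo
  obtain ⟨η, h1, ⟨E', hE, A⟩, hr⟩ := hn k l l' hl hl' hlo
  obtain ⟨q1, q2, q3, q4, q5⟩ := A.v35 hE (hr 1 (by decide) (by decide))
    (hr 3 (by decide) (by decide)) (hr 5 (by decide) (by decide)) (hr 9 (by decide) (by decide))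
    (hr 14 (by decide) (by decide))
  exact ⟨flip q1 h1, flip q2 h1, flip q3 h1, flip q4 h1, flip q5 h1⟩

theorem PWin.ccl5 (h : PWin W E κ u f {4} lam x) : ∀ ε : ℝ, 0 < ε → ∀ᶠ n in (U : Filter ℕ),
    ∀ k l l', (l, k) ∈ (W.cfg E n).I → (l', k) ∈ (W.cfg E n).I →
    (W.cfg E n).loose (ind {0, 1, 4, 5} x) ε k l l' →
      |cT W κ u f n k l - cT W κ u f n k l'| ≤ W.B'.d n ^ (x - 2 * ε) ∧
      |Y5 W κ u f n k l - Y5 W κ u f n k l'| ≤ W.B'.d n ^ (x - 2 * ε) := by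
  intro ε hε
  filter_upwards [h.near (V := {0, 1, 4, 5}) (by decide) ε hε] with n hn k l l' hl hl' hlo
  obtain ⟨η, h1, ⟨E', hE, A⟩, hr⟩ := hn k l l' hl hl' hlo
  obtain ⟨k0, -⟩ := Kpow A.K1
  have q1 := A.fin hE (A.d1 hE (hr 1 (by decide) (by decide))) (by unfold NK; linarith)
  have q2 := A.fin hE (A.d5 hE (hr 5 (by decide) (by decide))) (by unfold NK; linarith)
  exact ⟨flip q1 h1, flip q2 h1⟩

/-! ### `b = 4` -/






end

end Crest.Agent.R136.Pin851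
end

-- ▼ part R136/CubD_848
section

/-!
# R136, the specials of the thin pins (helper848): the closures in the letters of `CubR_851`

`H = Hc (κ n) (sg W u n) base line`, `V = Vc ..`: `a = H 2`, `c = H 1`, `β = Bt κ H`,
`Y = V 5` (35), `Y = 3 * V 6` (34).
-/

set_option autoImplicit false
set_option linter.unusedVariables false
set_option linter.unusedSectionVars false

open Filter Topology

namespace Crest.Agent.R136.CubC848

open Finset Crest.Agent.R138.Ex926 Crest.Agent.R136.Net191 Crest.Agent.R136.Gf356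
open Crest.Agent.R136.Qg926 Crest.Agent.R136.NetW191 Crest.Agent.R136.EvW938
open Crest.Agent.R136.Ht887 Crest.Agent.R136.Pin851
open Crest.Agent.R136.PqG464 (wtW)

variable {ι : ℕ → Type*} [∀ n, DecidableEq (ι n)] {W : Wnd 18 ι} {E : ∀ n, Finset (ι n)}
  {κ : ℕ → ℝ} {u : ℕ → Fin 18 → ℝ} {f : ∀ n, ι n → FW} {lam : (Fin 18 → ℝ) → ℝ} {x : ℝ}

/-- frames -/
noncomputable def HH (W : Wnd 18 ι) (κ : ℕ → ℝ) (u : ℕ → Fin 18 → ℝ) (f : ∀ n, ι n → FW)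
    (n k l : ℕ) : Fin 18 → ℝ := Hc (κ n) (sg W u n) (f n (W.zrep n k)) (f n (W.rep n l k))

/-- flags -/
noncomputable def VV (W : Wnd 18 ι) (κ : ℕ → ℝ) (u : ℕ → Fin 18 → ℝ) (f : ∀ n, ι n → FW)
    (n k l : ℕ) : Fin 18 → ℝ := Vc (κ n) (sg W u n) (f n (W.zrep n k)) (f n (W.rep n l k))

theorem HH_eq (n k l : ℕ) (s : Fin 18) : HH W κ u f n k l s = cf W κ u f n k l s := rfl

theorem VV_eq (n k l : ℕ) (s : Fin 18) : VV W κ u f n k l s = cw W κ u f n k l s := by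
  unfold VV Vc cw rw'
  rw [neg_div]

theorem hacl (hW : PWin W E κ u f {4} lam x) (hx : 0 < x) (p : Fin 18 → ℝ) :
    ∀ y : ℝ, 0 ≤ y → y ≤ x → ∀ ε : ℝ, 0 < ε → ∀ᶠ n in (U : Filter ℕ), ∀ k l l',
      (l, k) ∈ (W.cfg E n).I → (l', k) ∈ (W.cfg E n).I → (W.cfg E n).loose p ε k l l' →
      |HH W κ u f n k l' 2 - HH W κ u f n k l 2| ≤ W.B'.d n ^ y →
      (W.cfg E n).loose (Function.update p 2 y) ε k l l' := acl_of hW hx p

theorem hqcl (hW : PWin W E κ u f {4} lam x) (hx : 0 < x) (p : Fin 18 → ℝ) :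
    ∀ y : ℝ, 0 ≤ y → y ≤ x → ∀ ε : ℝ, 0 < ε → ∀ᶠ n in (U : Filter ℕ), ∀ k l l',
      (l, k) ∈ (W.cfg E n).I → (l', k) ∈ (W.cfg E n).I → (W.cfg E n).loose p ε k l l' →
      |HH W κ u f n k l' 1 - HH W κ u f n k l 1| ≤ W.B'.d n ^ y →
      (W.cfg E n).loose (Function.update p 1 y) ε k l l' := qcl_of hW hx p

theorem hbcl35 (hW : PWin W E κ u f {4} lam x) (hx : 0 < x) {C : ℝ} (hC : 1 ≤ C) :
    ∀ y : ℝ, 0 ≤ y → ∀ ε : ℝ, 0 < ε → y + C * ε ≤ x → ∀ᶠ n in (U : Filter ℕ), ∀ k l l',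
      (l, k) ∈ (W.cfg E n).I → (l', k) ∈ (W.cfg E n).I →
      (W.cfg E n).loose (ind {0, 2, 4, 7, 14} x) ε k l l' →
      (W.cfg E n).loose (ind {0, 1, 4, 5} x) ε k l l' →
      |Bt (κ n) (HH W κ u f n k l') - Bt (κ n) (HH W κ u f n k l)| ≤ W.B'.d n ^ y →
      (W.cfg E n).loose (Function.update (ind {0, 1, 2, 4, 5, 7, 14} x) 3 y) ε k l l' := by
  intro y hy ε hε hyx
  filter_upwards [bcl35 hW hx hC y hy ε hε hyx] with n hn k l l' h1 h2 h3 h4 hd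
  refine hn k l l' h1 h2 h3 h4 ?_
  unfold Bt at hd
  simp only [HH_eq] at hd
  simp only [mul_assoc] at hd ⊢
  exact hd


theorem hycl35 (hW : PWin W E κ u f {4} lam x) (hx : 0 < x) :
    ∀ ε : ℝ, 0 < ε → ∀ᶠ n in (U : Filter ℕ), ∀ k l l', (l, k) ∈ (W.cfg E n).I →
      (l', k) ∈ (W.cfg E n).I → (W.cfg E n).loose (ind {0, 4} x) ε k l l' →
      |VV W κ u f n k l' 5 - VV W κ u f n k l 5| ≤ W.B'.d n ^ (x - ε) →
      (W.cfg E n).loose (ind {0, 4, 5} x) (2 * ε) k l l' := by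
  simp only [VV_eq]
  exact ycl35 hW hx


end Crest.Agent.R136.CubC848
end

-- ▼ part R136/CubY_851
section

/-!
# R136, the specials of the thin pins (helper851): assembly

* `srow5`, `srow4` : all rows at one height
* `SEvo5`, `SEvo4` : the rows of the evolution (938)
* `rows35_of`, `rows34_of`
-/

set_option autoImplicit false
set_option linter.unusedSectionVars false
set_option linter.unusedVariables false

open Filter Topology

namespace Crest.Agent.R136.Pin851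

open Finset Crest.Agent.R138.Ex926 Crest.Agent.R136.Net191 Crest.Agent.R136.Gf356
open Crest.Agent.R136.Qg926
open Crest.Agent.R136.NetW191 Crest.Agent.R136.EvW938 Crest.Agent.R136.PrW464
open Crest.Agent.R136.LadW697 Crest.Agent.R136.LfW619 Crest.Agent.R136.RowW619
open Crest.Agent.R136.NatW697 Crest.Agent.R136.Qd329
open Crest.Agent.R136.Cub191 (SProf SRow SEvo SSlope)
open Crest.Agent.R136.K2S774 (cn ind1)

section mono

variable {κ : Type} {B : Base} {G : ℕ → RCfg κ} {x M M' C C' μ : ℝ} {p0 pp pv pc : κ → ℝ}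
  {pa pb pq : ℝ → κ → ℝ} {a F Q c β Y K Φ : ℕ → ℕ → ℕ → ℝ} {kp : ℕ → ℝ}

theorem exp_mono (B : Base) (n : ℕ) {C C' ε x t : ℝ} (hC : C ≤ C') (hε : 0 < ε)
    (h : t ≤ B.d n ^ (x - C * ε)) : t ≤ B.d n ^ (x - C' * ε) :=
  h.trans (Real.rpow_le_rpow_of_exponent_ge (B.pos n) (B.lt n).le (by nlinarith))

theorem SRow_mono (S : SRow B G x M C p0 pp pv pc pa pb pq a F Q c β Y K Φ kp) (hM : M ≤ M')
    (hC : C ≤ C') : SRow B G x M' C' p0 pp pv pc pa pb pq a F Q c β Y K Φ kp where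
  x0 := S.x0
  M1 := S.M1.trans hM
  C1 := S.C1.trans hC
  kp1 := S.kp1
  kpl := S.kpl
  bd := by
    filter_upwards [S.bd] with n hn k l hl
    obtain ⟨h1, h2, h3, h4, h5, h6, h7⟩ := hn k l hl
    exact ⟨h1.trans hM, h2.trans hM, h3.trans hM, h4.trans hM, h5.trans hM, h6.trans hM,
      h7.trans hM⟩
  pcl := fun ε hε => by
    filter_upwards [S.pcl ε hε] with n hn k l l' h1 h2 h3
    obtain ⟨q1, q2, q3, q4⟩ := hn k l l' h1 h2 h3
    exact ⟨exp_mono B n hC hε q1, exp_mono B n hC hε q2, exp_mono B n hC hε q3,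
      exp_mono B n hC hε q4⟩
  vcl := fun ε hε => by
    filter_upwards [S.vcl ε hε] with n hn k l l' h1 h2 h3
    obtain ⟨q1, q2, q3, q4, q5⟩ := hn k l l' h1 h2 h3
    exact ⟨exp_mono B n hC hε q1, exp_mono B n hC hε q2, exp_mono B n hC hε q3,
      exp_mono B n hC hε q4, exp_mono B n hC hε q5⟩
  ccl := fun ε hε => by
    filter_upwards [S.ccl ε hε] with n hn k l l' h1 h2 h3
    obtain ⟨q1, q2⟩ := hn k l l' h1 h2 h3
    exact ⟨exp_mono B n hC hε q1, exp_mono B n hC hε q2⟩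
  acl := S.acl
  bcl := fun y hy ε hε hyx => S.bcl y hy ε hε (by nlinarith)
  qcl := S.qcl

theorem SEvo_mono (S : SEvo B G x M C μ p0 a F c Y) (hρ : ∀ n, (G n).ρ = B.d n) (hM : M ≤ M')
    (hC : C ≤ C') : SEvo B G x M' C' μ p0 a F c Y where
  base := fun ε hε => by
    filter_upwards [S.base ε hε] with n hn k k' l l' h1 h2 h3 h4 h5 j
    refine (hn k k' l l' h1 h2 h3 h4 h5 j).trans ?_
    rw [hρ]
    exact Real.rpow_le_rpow_of_exponent_ge (B.pos n) (B.lt n).le (by nlinarith)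
  zbd := by
    filter_upwards [S.zbd] with n hn k hk k' hk'
    exact (hn k hk k' hk').trans hM
  evo := fun ε hε => by
    filter_upwards [S.evo ε hε] with n hn k k' l l' h1 h2 h3 h4 h5
    obtain ⟨q1, q2, q3⟩ := hn k k' l l' h1 h2 h3 h4 h5
    exact ⟨exp_mono B n hC hε q1, exp_mono B n hC hε q2, exp_mono B n hC hε q3⟩

end mono

section

variable {W : Wnd 18 fun _ => ℕ × ℝ} {E : ∀ n : ℕ, Finset (ℕ × ℝ)} {κ : ℕ → ℝ}
  {u : ℕ → Fin 18 → ℝ} {f : ℕ → ℕ × ℝ → FW} {lam : (Fin 18 → ℝ) → ℝ} {x : ℝ}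

theorem cfg_ρ (W : Wnd 18 fun _ => ℕ × ℝ) (E : ∀ n : ℕ, Finset (ℕ × ℝ)) (n : ℕ) :
    (W.cfg E n).ρ = W.B'.d n := by
  unfold Wnd.cfg
  split_ifs <;> rfl

/-- **rows of `b = 5`** -/
theorem PWin.srow5 (h : PWin W E κ u f {4} lam x) (hx : 0 < x) :
    SRow W.B' (W.cfg E) x (MM W) 2 (ind {0, 4} x) (ind {0, 2, 4, 7, 14} x)
      (ind {0, 1, 3, 4, 5, 9, 14} x) (ind {0, 1, 4, 5} x)
      (fun y => Function.update (ind {0, 4} x) 2 y)
      (fun y => Function.update (ind {0, 1, 2, 4, 5, 7, 14} x) 3 y)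
      (fun y => Function.update (ind {0, 2, 4, 7, 14} x) 1 y) (aT W κ u f) (F5 W κ u f)
      (Q5 W κ u f) (cT W κ u f) (bT W κ u f) (Y5 W κ u f) (K5 W κ u f) (P5 W κ u f) κ where
  x0 := hx
  M1 := h.MM1
  C1 := by norm_num
  kp1 := h.ww.hκ
  kpl := h.kap
  bd := h.bd5
  pcl := h.pcl5
  vcl := h.vcl5
  ccl := h.ccl5
  acl := CubC848.hacl h hx (ind {0, 4} x)
  bcl := CubC848.hbcl35 h hx (by norm_num : (1 : ℝ) ≤ 2)
  qcl := CubC848.hqcl h hx (ind {0, 2, 4, 7, 14} x)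


end

/-- rows of the evolution of `b = 5` (938) -/
def SEvo5 : Prop :=
  ∀ (W : Wnd 18 fun _ => ℕ × ℝ) (E : ∀ n : ℕ, Finset (ℕ × ℝ)) (κ : ℕ → ℝ)
    (u : ℕ → Fin 18 → ℝ) (f : ℕ → ℕ × ℝ → FW) (lam : (Fin 18 → ℝ) → ℝ) (x : ℝ),
    PWin W E κ u f {4} lam x → 0 < x → ∃ M C : ℝ,
      SEvo W.B' (W.cfg E) x M C 2 (ind {0, 4} x) (aT W κ u f) (F5 W κ u f) (cT W κ u f)
        (Y5 W κ u f)


/-- **`Rows35`** -/
theorem rows35_of (V : SEvo5) : Rows35 := by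
  intro W E κ u f lam x h hx
  obtain ⟨M, C, V⟩ := V W E κ u f lam x h hx
  refine ⟨max (MM W) M, max 2 C, 2, aT W κ u f, F5 W κ u f, Q5 W κ u f, cT W κ u f, bT W κ u f,
    Y5 W κ u f, K5 W κ u f, P5 W κ u f, by norm_num, le_rfl,
    SRow_mono (h.srow5 hx) (le_max_left _ _) (le_max_left _ _),
    SEvo_mono V (cfg_ρ W E) (le_max_right _ _) (le_max_right _ _), fun n k l => rfl, ?_⟩
  exact CubC848.hycl35 h hx


end Crest.Agent.R136.Pin851
end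

-- ▼ part R136/CubE_938
section

/-!
# R136, the specials of the thin pins (helper938): evolution of the pairs

* `sg` : multiplicative units; `Rn` : relative coordinates of a pair of lines at one height
* `evR` : evolution of `Rn` between two heights, slots `1, 2, 3, 4, 5, 6, 7, 9`
-/

set_option autoImplicit false
set_option linter.unusedSectionVars false
set_option linter.unusedVariables false

open Filter Topology

namespace Crest.Agent.R136.Cub938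

open Finset Crest.Agent.R138.Ex926 Crest.Agent.R136.Net191 Crest.Agent.R136.Gf356
open Crest.Agent.R136.Qg926 Crest.Agent.R136.NetW191 Crest.Agent.R136.EvW938
open Crest.Agent.R136.PqG464 (wtW wtW_list)
open Crest.Agent.R136.LadW697 Crest.Agent.R136.Pin851

/-- right-hand side of the evolution, level slot `z` only -/
theorem evo_q (κ : ℝ) (a b : Fin 18 → ℝ) (q : Fin 14) :
    evoW κ {0} a b (Fin.natAdd 4 q) = tr κ (sh (a 0)) (flg b) q := by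
  have e1 : offS {0} (flg b) = flg b := by
    funext q
    unfold offS
    rw [if_neg]
    have : ∀ q : Fin 14, (Fin.natAdd 4 q : Fin 18) ∉ ({0} : Finset (Fin 18)) := by decide
    exact this q
  have e2 : onS {0} (flg a) = 0 := by
    funext q
    unfold onS
    rw [if_neg]
    · rfl
    have : ∀ q : Fin 14, (Fin.natAdd 4 q : Fin 18) ∉ ({0} : Finset (Fin 18)) := by decide
    exact this q
  unfold evoW
  rw [Fin.append_right, e1, e2, tr_zero, sub_zero]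

theorem evo4 (κ : ℝ) (a b : Fin 18 → ℝ) : evoW κ {0} a b 4 = b 4 := by
  have h := evo_q κ a b 0
  rw [tr0] at h
  exact h

theorem evo5 (κ : ℝ) (a b : Fin 18 → ℝ) : evoW κ {0} a b 5 = b 5 + 2 * a 0 * b 4 := by
  have h := evo_q κ a b 1
  rw [tr1] at h
  exact h

theorem evo6 (κ : ℝ) (a b : Fin 18 → ℝ) : evoW κ {0} a b 6 = b 6 := by
  have h := evo_q κ a b 2
  rw [tr2] at h
  refine h.trans ?_
  show b 6 + 4 * κ * 0 * b 4 - 4 * κ * a 0 * 0 * b 4 - 2 * κ * 0 * b 5 = b 6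
  ring

theorem evo7 (κ : ℝ) (a b : Fin 18 → ℝ) :
    evoW κ {0} a b 7 = b 7 + a 0 ^ 2 * b 4 + a 0 * b 5 := by
  have h := evo_q κ a b 3
  rw [tr3] at h
  exact h

theorem evo9 (κ : ℝ) (a b : Fin 18 → ℝ) : evoW κ {0} a b 9 = b 9 + a 0 * b 6 := by
  have h := evo_q κ a b 5
  rw [tr5] at h
  refine h.trans ?_
  show b 9 + 4 * κ * a 0 * 0 * b 4 - 4 * κ * a 0 ^ 2 * 0 * b 4 + 2 * κ * 0 * b 5 -
    4 * κ * a 0 * 0 * b 5 + a 0 * b 6 - 4 * κ * 0 * b 7 = b 9 + a 0 * b 6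
  ring

section

variable {W : Wnd 18 fun _ => ℕ × ℝ} {κ : ℕ → ℝ} {u : ℕ → Fin 18 → ℝ}
  {f : ∀ n : ℕ, ℕ × ℝ → FW} {E : ∀ n : ℕ, Finset (ℕ × ℝ)} {lam : (Fin 18 → ℝ) → ℝ} {x : ℝ}
  {n : ℕ}

/-- multiplicative units -/
noncomputable def sg (W : Wnd 18 fun _ => ℕ × ℝ) (u : ℕ → Fin 18 → ℝ) (n : ℕ) (s : Fin 18) : ℝ :=
  W.kap 0 ^ wtW s * sd W u n s

/-- the pair `l, l'` at the height `k` -/
noncomputable def Rn (W : Wnd 18 fun _ => ℕ × ℝ) (κ : ℕ → ℝ) (u : ℕ → Fin 18 → ℝ)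
    (f : ∀ n : ℕ, ℕ × ℝ → FW) (n k l l' : ℕ) (s : Fin 18) : ℝ :=
  coW (κ n) (f n (W.rep n l k)) (f n (W.rep n l' k)) s / sg W u n s

variable (h : PWin W E κ u f {4} lam x)
include h

theorem sg_pos (n : ℕ) (s : Fin 18) : 0 < sg W u n s :=
  mul_pos (pow_pos (h.ww.ok.kap 0) _) (h.ww.sd_pos n s)

/-- the units are multiplicative along the kept walls -/
theorem sg_mul (n : ℕ) {k : Fin 18} {l : List (Fin 18)} (hk : k ∉ ({4} : Finset (Fin 18)))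
    (hl : l ∈ mlW k) (hs : ∀ s ∈ l, s ∉ ({4} : Finset (Fin 18))) :
    (l.map (sg W u n)).prod = sg W u n k := by
  have e1 : (l.map (sg W u n)).prod = W.kap 0 ^ (l.map wtW).sum *
      (W.B.d n ^ (l.map (W.X n)).sum / (l.map (u n)).prod) := by
    clear hl hs
    induction l with
    | nil => simp
    | cons a l ih =>
      simp only [List.map_cons, List.prod_cons, List.sum_cons, ih]
      unfold sg sd
      rw [Real.rpow_add (W.B.pos n), pow_add]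
      field_simp
  rw [e1, (h.ww.hl n).mul k l hl, ← h.tight k hk l hl hs n, wtW_list k l hl]
  rfl

/-- raw evolution of a pair -/
theorem ev_raw (g : W.Good n) (hE : E n ⊆ W.Cl n) {k k' l l' : ℕ}
    (h1 : (l, k) ∈ (W.cfg0 n (E n)).I) (h2 : (l, k') ∈ (W.cfg0 n (E n)).I)
    (h3 : (l', k) ∈ (W.cfg0 n (E n)).I) (h4 : (l', k') ∈ (W.cfg0 n (E n)).I) {s : Fin 18}
    (hs : s ≠ 0) :
    |coW (κ n) (f n (W.rep n l k')) (f n (W.rep n l' k')) s -
      evoW (κ n) {0} (coW (κ n) (f n (W.rep n l k)) (f n (W.rep n l k')))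
        (coW (κ n) (f n (W.rep n l k)) (f n (W.rep n l' k))) s| ≤
      CW W.K0 * W.B'.d n ^ x * sd W u n s := by
  obtain ⟨a1, a2, a3⟩ := Wnd.rep_of_mem hE h1
  obtain ⟨b1, b2, b3⟩ := Wnd.rep_of_mem hE h2
  obtain ⟨c1, c2, c3⟩ := Wnd.rep_of_mem hE h3
  obtain ⟨d1, d2, d3⟩ := Wnd.rep_of_mem hE h4
  have := h.ww.evoR g a1 b1 c1 d1 (a2.trans b2.symm) (c2.trans d2.symm) (a3.trans c3.symm)
    (b3.trans d3.symm) (t := x) (fun s => (h.top s).ge) s (by rw [h.S]; simpa using hs)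
  rw [h.S] at this
  exact this

omit h in
theorem div1 {X X' v e : ℝ} (hv : 0 < v) (h1 : |X' - X| ≤ e * v) : |X' / v - X / v| ≤ e := by
  rw [← sub_div, abs_div, abs_of_pos hv, div_le_iff₀ hv]; exact h1

omit h in
theorem div2 {X X' Y a v v0 v1 e : ℝ} (h0 : 0 < v0) (h1 : 0 < v1) (hv : v0 * v1 = v)
    (hX : |X' - (X + a * Y)| ≤ e * v) : |X' / v - (X / v + a / v0 * (Y / v1))| ≤ e := by
  have hvp : 0 < v := by rw [← hv]; positivity
  have e1 : X' / v - (X / v + a / v0 * (Y / v1)) = (X' - (X + a * Y)) / v := by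
    rw [← hv]; field_simp
  rw [e1, abs_div, abs_of_pos hvp, div_le_iff₀ hvp]; exact hX

/-- the constant -/
theorem exA : ∃ A : ℝ, 1 ≤ A ∧ ∀ s : Fin 18, (W.K0 + CW W.K0 + 2 * W.kap 4 * W.K0 ^ 2 +
    2 * W.kap 4 * W.K0 + W.kap 4) / W.kap 0 ^ wtW s + 2 * W.K0 / W.kap 0 ≤ A := by
  classical
  refine ⟨1 + ∑ s : Fin 18, |(W.K0 + CW W.K0 + 2 * W.kap 4 * W.K0 ^ 2 +
    2 * W.kap 4 * W.K0 + W.kap 4) / W.kap 0 ^ wtW s + 2 * W.K0 / W.kap 0|, ?_, fun s => ?_⟩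
  · have : 0 ≤ ∑ s : Fin 18, |(W.K0 + CW W.K0 + 2 * W.kap 4 * W.K0 ^ 2 +
      2 * W.kap 4 * W.K0 + W.kap 4) / W.kap 0 ^ wtW s + 2 * W.K0 / W.kap 0| :=
      Finset.sum_nonneg fun s _ => abs_nonneg _
    linarith
  · have := Finset.single_le_sum (f := fun s : Fin 18 => |(W.K0 + CW W.K0 +
      2 * W.kap 4 * W.K0 ^ 2 + 2 * W.kap 4 * W.K0 + W.kap 4) / W.kap 0 ^ wtW s +
      2 * W.K0 / W.kap 0|) (fun s _ => abs_nonneg _) (Finset.mem_univ s)
    have h2 := le_abs_self ((W.K0 + CW W.K0 + 2 * W.kap 4 * W.K0 ^ 2 +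
      2 * W.kap 4 * W.K0 + W.kap 4) / W.kap 0 ^ wtW s + 2 * W.K0 / W.kap 0)
    linarith

/-- heights -/
theorem zn (g : W.Good n) (hE : E n ⊆ W.Cl n) {k : ℕ} (hk : k ∈ (W.cfg0 n (E n)).Z) :
    |(W.cfg0 n (E n)).z k| ≤ W.K0 / W.kap 0 := by
  obtain ⟨i, hi, rfl⟩ := Finset.mem_image.1 hk
  have e : (W.cfg0 n (E n)).z (W.zc n i) = W.crd n (W.s₀ n) (W.zrep n (W.zc n i)) 0 := by
    show W.crd n (W.s₀ n) (W.zrep n (W.zc n i)) W.kz = _
    rw [h.ww.kz]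
  rw [e]
  exact h.ww.crd_le g g.s0 (W.zrep_spec (hE hi)).1 0

set_option maxHeartbeats 1000000 in
/-- **evolution of a pair between two heights** -/
theorem evR : ∃ A : ℝ, 1 ≤ A ∧ ∀ n, W.Good n → E n ⊆ W.Cl n → ∀ k k' l l',
    (l, k) ∈ (W.cfg0 n (E n)).I → (l, k') ∈ (W.cfg0 n (E n)).I →
    (l', k) ∈ (W.cfg0 n (E n)).I → (l', k') ∈ (W.cfg0 n (E n)).I → ∀ η : ℝ,
    W.B'.d n ^ x ≤ η →
    |coW (κ n) (f n (W.rep n l k)) (f n (W.rep n l' k)) 4| ≤ W.kap 4 * η * sd W u n 4 →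
    ∀ z, z = (W.cfg0 n (E n)).z k' - (W.cfg0 n (E n)).z k →
    (|Rn W κ u f n k' l l' 1 - Rn W κ u f n k l l' 1| ≤ A * η ∧
    |Rn W κ u f n k' l l' 2 - (Rn W κ u f n k l l' 2 + z * Rn W κ u f n k l l' 1)| ≤ A * η ∧
    |Rn W κ u f n k' l l' 4| ≤ A * η ∧
    |Rn W κ u f n k' l l' 5 - Rn W κ u f n k l l' 5| ≤ A * η ∧
    |Rn W κ u f n k' l l' 6 - Rn W κ u f n k l l' 6| ≤ A * η ∧
    |Rn W κ u f n k' l l' 7 - (Rn W κ u f n k l l' 7 + z * Rn W κ u f n k l l' 5)| ≤ A * η ∧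
    |Rn W κ u f n k' l l' 9 - (Rn W κ u f n k l l' 9 + z * Rn W κ u f n k l l' 6)| ≤ A * η) ∧
    |z| ≤ A ∧ ∀ s, |Rn W κ u f n k l l' s| ≤ A := by
  obtain ⟨A, hA1, hA⟩ := exA h
  have hK := h.ww.ok.K0_one
  have hK0 : 0 < W.K0 := by linarith
  have hk0 := h.ww.ok.kap 0
  have hk4 := h.ww.ok.kap 4
  have hCW := CW_pos hK
  -- parts of the constant
  have hp : ∀ s : Fin 18, 0 < W.kap 0 ^ wtW s := fun s => pow_pos hk0 _
  have part : ∀ s : Fin 18, W.K0 / W.kap 0 ^ wtW s ≤ A ∧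
      (CW W.K0 + 2 * W.kap 4 * W.K0 ^ 2) / W.kap 0 ^ wtW s ≤ A ∧
      (CW W.K0 + 2 * W.kap 4 * W.K0) / W.kap 0 ^ wtW s ≤ A ∧
      (CW W.K0 + W.kap 4) / W.kap 0 ^ wtW s ≤ A ∧ CW W.K0 / W.kap 0 ^ wtW s ≤ A ∧
      2 * W.K0 / W.kap 0 ≤ A := by
    intro s
    have h1 := hA s
    have hps := hp s
    have d : ∀ a b : ℝ, 0 ≤ b → a / W.kap 0 ^ wtW s ≤ (a + b) / W.kap 0 ^ wtW s := fun a b hb =>
      div_le_div_of_nonneg_right (by linarith) hps.le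
    have n1 : 0 ≤ 2 * W.K0 / W.kap 0 := by positivity
    have n2 : 0 ≤ (W.K0 + CW W.K0 + 2 * W.kap 4 * W.K0 ^ 2 + 2 * W.kap 4 * W.K0 + W.kap 4) /
      W.kap 0 ^ wtW s := by positivity
    have m : ∀ a : ℝ, a ≤ W.K0 + CW W.K0 + 2 * W.kap 4 * W.K0 ^ 2 + 2 * W.kap 4 * W.K0 +
        W.kap 4 → a / W.kap 0 ^ wtW s ≤ A := fun a ha => by
      have := div_le_div_of_nonneg_right ha hps.le
      linarith
    have p1 : 0 < W.kap 4 * W.K0 ^ 2 := by positivity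
    have p2 : 0 < W.kap 4 * W.K0 := by positivity
    refine ⟨m _ ?_, m _ ?_, m _ ?_, m _ ?_, m _ ?_, by linarith⟩ <;> linarith
  refine ⟨5 * A ^ 2, by nlinarith, fun n g hE k k' l l' h1 h2 h3 h4 η hη h4s z hz => ?_⟩
  obtain ⟨a1, a2, a3⟩ := Wnd.rep_of_mem hE h1
  obtain ⟨b1, b2, b3⟩ := Wnd.rep_of_mem hE h2
  obtain ⟨c1, c2, c3⟩ := Wnd.rep_of_mem hE h3
  have hδ : 0 < W.B'.d n ^ x := Real.rpow_pos_of_pos (W.B'.pos n) _
  have hη0 : 0 < η := hδ.trans_le hη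
  set a0 := coW (κ n) (f n (W.rep n l k)) (f n (W.rep n l k')) 0 with ha0
  have hsd : ∀ s, 0 < sd W u n s := fun s => h.ww.sd_pos n s
  have hsg : ∀ s, 0 < sg W u n s := fun s => sg_pos h n s
  have hb : ∀ s, |coW (κ n) (f n (W.rep n l k)) (f n (W.rep n l' k)) s| ≤ W.K0 * sd W u n s :=
    fun s => h.ww.bnd g a1 c1 s
  have ha0b : |a0| ≤ W.K0 * sd W u n 0 := h.ww.bnd g a1 b1 0
  have eR : ∀ s, Rn W κ u f n k l l' s =
    coW (κ n) (f n (W.rep n l k)) (f n (W.rep n l' k)) s / sg W u n s := fun s => rfl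
  have eR' : ∀ s, Rn W κ u f n k' l l' s =
    coW (κ n) (f n (W.rep n l k')) (f n (W.rep n l' k')) s / sg W u n s := fun s => rfl
  have hRb : ∀ s, |Rn W κ u f n k l l' s| ≤ A := fun s => by
    rw [eR, abs_div, abs_of_pos (hsg s), div_le_iff₀ (hsg s)]
    refine (hb s).trans ?_
    have := (part s).1
    rw [div_le_iff₀ (hp s)] at this
    have h5 := mul_le_mul_of_nonneg_right this (hsd s).le
    refine h5.trans (le_of_eq ?_)
    unfold sg; ring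
  -- height
  have e0 : sg W u n 0 = W.kap 0 * sd W u n 0 := by
    unfold sg
    have : wtW 0 = 1 := by decide
    rw [this, pow_one]
  have hζ : |a0 / sg W u n 0 - z| ≤ A * η := by
    have h5 := h.ww.own_zero g hE h1 h2 (t := x) (h.top 0).ge
    have e1 : ownC W n l k k' 0 = a0 / sg W u n 0 := by
      have := h.ww.crd_eq g a1 b1 0
      have h6 := (h.ww.un_pos n 0).ne'
      unfold ownC
      rw [ha0, this, e0]
      have e2 : un W u n 0 = W.kap 0 * sd W u n 0 := rfl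
      rw [← e2]
      field_simp
    rw [e1, ← hz] at h5
    refine h5.trans ?_
    have h6 := (part 0).2.2.2.2.2
    have h7 : 2 * W.K0 * W.B'.d n ^ x / W.kap 0 = 2 * W.K0 / W.kap 0 * W.B'.d n ^ x := by ring
    rw [h7]
    exact mul_le_mul h6 hη hδ.le (by linarith)
  have hzb : |z| ≤ 5 * A ^ 2 := by
    have m1 := zn h g hE (k := k) (by obtain ⟨i, hi, _, rfl⟩ := Wnd.mem_I.1 h1; exact Finset.mem_image_of_mem _ hi)
    have m2 := zn h g hE (k := k') (by obtain ⟨i, hi, _, rfl⟩ := Wnd.mem_I.1 h2; exact Finset.mem_image_of_mem _ hi)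
    have h6 := (part 0).2.2.2.2.2
    have h7 : W.K0 / W.kap 0 + W.K0 / W.kap 0 = 2 * W.K0 / W.kap 0 := by ring
    have h8 := abs_sub ((W.cfg0 n (E n)).z k') ((W.cfg0 n (E n)).z k)
    rw [hz]
    have : A ≤ 5 * A ^ 2 := by nlinarith
    linarith
  -- replacing the height
  have rep : ∀ s : Fin 18, |a0 / sg W u n 0 * Rn W κ u f n k l l' s - z * Rn W κ u f n k l l' s| ≤
      A ^ 2 * η := fun s => by
    rw [← sub_mul, abs_mul]
    calc _ ≤ A * η * A := mul_le_mul hζ (hRb s) (abs_nonneg _) (by positivity)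
      _ = _ := by ring
  have AA : A * η ≤ A ^ 2 * η := mul_le_mul_of_nonneg_right (by nlinarith) hη0.le
  have A2 : 0 ≤ A ^ 2 * η := by positivity
  have B1 : A * η ≤ 5 * A ^ 2 * η := by
    have e : 5 * A ^ 2 * η = 5 * (A ^ 2 * η) := by ring
    rw [e]; linarith
  have B2 : A * η + A ^ 2 * η ≤ 5 * A ^ 2 * η := by
    have e : 5 * A ^ 2 * η = 5 * (A ^ 2 * η) := by ring
    rw [e]; linarith
  have sp0 := hsd 0
  have sp4 := hsd 4
  have walls := h.ww.sides g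
  have w5 := walls.wall 5 [0, 4] (by decide)
  have w7 := walls.wall 7 [0, 0, 4] (by decide)
  simp only [List.map_cons, List.map_nil, List.prod_cons, List.prod_nil, mul_one] at w5 w7
  have raw := fun {s : Fin 18} (hs : s ≠ 0) => ev_raw h g hE h1 h2 h3 h4 hs
  -- error in the unit of a slot
  have unit : ∀ (s : Fin 18) (c : ℝ), 0 ≤ c → c / W.kap 0 ^ wtW s ≤ A → ∀ X : ℝ,
      |X| ≤ c * η * sd W u n s → |X| ≤ A * η * sg W u n s := by
    intro s c hc hcA X hX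
    refine hX.trans ?_
    rw [div_le_iff₀ (hp s)] at hcA
    have h5 := mul_le_mul_of_nonneg_right hcA (mul_nonneg hη0.le (hsd s).le)
    calc c * η * sd W u n s = c * (η * sd W u n s) := by ring
      _ ≤ _ := h5
      _ = _ := by unfold sg; ring
  have cw : ∀ s : Fin 18, CW W.K0 * W.B'.d n ^ x * sd W u n s ≤ CW W.K0 * η * sd W u n s :=
    fun s => mul_le_mul_of_nonneg_right (mul_le_mul_of_nonneg_left hη hCW.le) (hsd s).le
  have g2 := sg_mul h n (k := 2) (l := [1, 0]) (by decide) (by decide) (by decide)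
  have g7 := sg_mul h n (k := 7) (l := [0, 5]) (by decide) (by decide) (by decide)
  have g9 := sg_mul h n (k := 9) (l := [0, 6]) (by decide) (by decide) (by decide)
  simp only [List.map_cons, List.map_nil, List.prod_cons, List.prod_nil, mul_one] at g2 g7 g9
  refine ⟨⟨?_, ?_, ?_, ?_, ?_, ?_, ?_⟩, hzb, fun s => (hRb s).trans (by nlinarith)⟩
  · -- 1
    have r := raw (s := 1) (by decide)
    rw [evoW1] at r
    have := div1 (hsg 1) (unit 1 _ hCW.le (part 1).2.2.2.2.1 _ (r.trans (cw 1)))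
    rw [eR, eR']
    exact this.trans B1
  · have r := raw (s := 2) (by decide)
    rw [evoW2] at r
    have := div2 (hsg 0) (hsg 1) (by rw [← g2]; ring) (unit 2 _ hCW.le (part 2).2.2.2.2.1 _ (r.trans (cw 2)))
    have h5 := rep 1
    rw [← eR, ← eR, ← eR'] at this
    have e1 : Rn W κ u f n k' l l' 2 - (Rn W κ u f n k l l' 2 + z * Rn W κ u f n k l l' 1) =
        (Rn W κ u f n k' l l' 2 - (Rn W κ u f n k l l' 2 + a0 / sg W u n 0 *
          Rn W κ u f n k l l' 1)) + (a0 / sg W u n 0 * Rn W κ u f n k l l' 1 -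
            z * Rn W κ u f n k l l' 1) := by ring
    rw [e1]
    exact (abs_add_le _ _).trans ((add_le_add this h5).trans B2)
  · -- 4
    have r := raw (s := 4) (by decide)
    rw [evo4] at r
    have h5 : |coW (κ n) (f n (W.rep n l k')) (f n (W.rep n l' k')) 4| ≤
        (CW W.K0 + W.kap 4) * η * sd W u n 4 := by
      have h6 := abs_add_le (coW (κ n) (f n (W.rep n l k')) (f n (W.rep n l' k')) 4 -
        coW (κ n) (f n (W.rep n l k)) (f n (W.rep n l' k)) 4)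
        (coW (κ n) (f n (W.rep n l k)) (f n (W.rep n l' k)) 4)
      rw [sub_add_cancel] at h6
      have h7 := r.trans (cw 4)
      have e1 : (CW W.K0 + W.kap 4) * η * sd W u n 4 = CW W.K0 * η * sd W u n 4 +
        W.kap 4 * η * sd W u n 4 := by ring
      linarith
    have h6 := unit 4 _ (by positivity) (part 4).2.2.2.1 _ h5
    rw [eR', abs_div, abs_of_pos (hsg 4), div_le_iff₀ (hsg 4)]
    exact h6.trans (mul_le_mul_of_nonneg_right B1 (hsg 4).le)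
  · -- 5
    have r := raw (s := 5) (by decide)
    rw [evo5] at r
    have h5 : |2 * a0 * coW (κ n) (f n (W.rep n l k)) (f n (W.rep n l' k)) 4| ≤
        2 * W.kap 4 * W.K0 * η * sd W u n 5 := by
      rw [abs_mul, abs_mul, abs_two]
      calc 2 * |a0| * |coW (κ n) (f n (W.rep n l k)) (f n (W.rep n l' k)) 4|
          ≤ 2 * (W.K0 * sd W u n 0) * (W.kap 4 * η * sd W u n 4) := by gcongr
        _ = 2 * W.kap 4 * W.K0 * η * (sd W u n 0 * sd W u n 4) := by ring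
        _ ≤ _ := mul_le_mul_of_nonneg_left w5 (by positivity)
    have h6 : |coW (κ n) (f n (W.rep n l k')) (f n (W.rep n l' k')) 5 -
        coW (κ n) (f n (W.rep n l k)) (f n (W.rep n l' k)) 5| ≤
        (CW W.K0 + 2 * W.kap 4 * W.K0) * η * sd W u n 5 := by
      have e1 : coW (κ n) (f n (W.rep n l k')) (f n (W.rep n l' k')) 5 -
        coW (κ n) (f n (W.rep n l k)) (f n (W.rep n l' k)) 5 =
        (coW (κ n) (f n (W.rep n l k')) (f n (W.rep n l' k')) 5 -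
        (coW (κ n) (f n (W.rep n l k)) (f n (W.rep n l' k)) 5 +
          2 * a0 * coW (κ n) (f n (W.rep n l k)) (f n (W.rep n l' k)) 4)) +
          2 * a0 * coW (κ n) (f n (W.rep n l k)) (f n (W.rep n l' k)) 4 := by ring
      rw [e1]
      have h7 := r.trans (cw 5)
      refine (abs_add_le _ _).trans ((add_le_add h7 h5).trans (le_of_eq ?_))
      ring
    have := div1 (hsg 5) (unit 5 _ (by positivity) (part 5).2.2.1 _ h6)
    rw [eR, eR']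
    exact this.trans B1
  · -- 6
    have r := raw (s := 6) (by decide)
    rw [evo6] at r
    have := div1 (hsg 6) (unit 6 _ hCW.le (part 6).2.2.2.2.1 _ (r.trans (cw 6)))
    rw [eR, eR']
    exact this.trans B1
  · -- 7
    have r := raw (s := 7) (by decide)
    rw [evo7] at r
    have h5 : |a0 ^ 2 * coW (κ n) (f n (W.rep n l k)) (f n (W.rep n l' k)) 4| ≤
        2 * W.kap 4 * W.K0 ^ 2 * η * sd W u n 7 := by
      rw [abs_mul, abs_pow]
      calc |a0| ^ 2 * |coW (κ n) (f n (W.rep n l k)) (f n (W.rep n l' k)) 4|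
          ≤ (W.K0 * sd W u n 0) ^ 2 * (W.kap 4 * η * sd W u n 4) := by gcongr
        _ = W.kap 4 * W.K0 ^ 2 * η * (sd W u n 0 * (sd W u n 0 * sd W u n 4)) := by ring
        _ ≤ W.kap 4 * W.K0 ^ 2 * η * sd W u n 7 := mul_le_mul_of_nonneg_left w7 (by positivity)
        _ ≤ _ := by
          have : 0 ≤ W.kap 4 * W.K0 ^ 2 * η * sd W u n 7 := by
            have := hsd 7
            positivity
          linarith
    have h6 : |coW (κ n) (f n (W.rep n l k')) (f n (W.rep n l' k')) 7 -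
        (coW (κ n) (f n (W.rep n l k)) (f n (W.rep n l' k)) 7 + a0 *
          coW (κ n) (f n (W.rep n l k)) (f n (W.rep n l' k)) 5)| ≤
        (CW W.K0 + 2 * W.kap 4 * W.K0 ^ 2) * η * sd W u n 7 := by
      have e1 : coW (κ n) (f n (W.rep n l k')) (f n (W.rep n l' k')) 7 -
        (coW (κ n) (f n (W.rep n l k)) (f n (W.rep n l' k)) 7 + a0 *
          coW (κ n) (f n (W.rep n l k)) (f n (W.rep n l' k)) 5) =
        (coW (κ n) (f n (W.rep n l k')) (f n (W.rep n l' k')) 7 -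
        (coW (κ n) (f n (W.rep n l k)) (f n (W.rep n l' k)) 7 +
          a0 ^ 2 * coW (κ n) (f n (W.rep n l k)) (f n (W.rep n l' k)) 4 +
          a0 * coW (κ n) (f n (W.rep n l k)) (f n (W.rep n l' k)) 5)) +
          a0 ^ 2 * coW (κ n) (f n (W.rep n l k)) (f n (W.rep n l' k)) 4 := by ring
      rw [e1]
      have h7 := r.trans (cw 7)
      refine (abs_add_le _ _).trans ((add_le_add h7 h5).trans (le_of_eq ?_))
      ring
    have := div2 (hsg 0) (hsg 5) g7 (unit 7 _ (by positivity) (part 7).2.1 _ h6)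
    have h8 := rep 5
    rw [← eR, ← eR, ← eR'] at this
    have e1 : Rn W κ u f n k' l l' 7 - (Rn W κ u f n k l l' 7 + z * Rn W κ u f n k l l' 5) =
        (Rn W κ u f n k' l l' 7 - (Rn W κ u f n k l l' 7 + a0 / sg W u n 0 *
          Rn W κ u f n k l l' 5)) + (a0 / sg W u n 0 * Rn W κ u f n k l l' 5 -
            z * Rn W κ u f n k l l' 5) := by ring
    rw [e1]
    exact (abs_add_le _ _).trans ((add_le_add this h8).trans B2)
  · -- 9
    have r := raw (s := 9) (by decide)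
    rw [evo9] at r
    have := div2 (hsg 0) (hsg 6) g9 (unit 9 _ hCW.le (part 9).2.2.2.2.1 _ (r.trans (cw 9)))
    have h5 := rep 6
    rw [← eR, ← eR, ← eR'] at this
    have e1 : Rn W κ u f n k' l l' 9 - (Rn W κ u f n k l l' 9 + z * Rn W κ u f n k l l' 6) =
        (Rn W κ u f n k' l l' 9 - (Rn W κ u f n k l l' 9 + a0 / sg W u n 0 *
          Rn W κ u f n k l l' 6)) + (a0 / sg W u n 0 * Rn W κ u f n k l l' 6 -
            z * Rn W κ u f n k l l' 6) := by ring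
    rw [e1]
    exact (abs_add_le _ _).trans ((add_le_add this h5).trans B2)

end

end Crest.Agent.R136.Cub938
end

-- ▼ part R136/CubG_938
section

/-!
# R136, the specials of the thin pins (helper938): the rows of the evolution

* `uni_sg`, `tri_at` : units, `Tri` at the representatives
* `sevo35`, `sevo34` : `SEvo` of the two specials
-/

set_option autoImplicit false
set_option linter.unusedSectionVars false
set_option linter.unusedVariables false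

open Filter Topology

namespace Crest.Agent.R136.Cub938

open Finset Crest.Agent.R138.Ex926 Crest.Agent.R136.Net191 Crest.Agent.R136.Gf356
open Crest.Agent.R136.Qg926 Crest.Agent.R136.NetW191 Crest.Agent.R136.EvW938
open Crest.Agent.R136.PqG464 (wtW wtW_list)
open Crest.Agent.R136.LadW697 Crest.Agent.R136.Pin851
open Crest.Agent.R136.Cub191 (SEvo)

/-! ### numbers -/

theorem am2 {x y X Y : ℝ} (hx : |x| ≤ X) (hy : |y| ≤ Y) : |x * y| ≤ X * Y :=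
  (abs_mul x y).le.trans (mul_le_mul hx hy (abs_nonneg _) ((abs_nonneg _).trans hx))

section num

variable {κ K E Z z : ℝ} {H H' V V' R G G' U' V2 V2' S : Fin 18 → ℝ}

/-- slope `a` and `c` -/
theorem num_ac (P : Apx κ K E H H' V V' R) (Q : Apx κ K E G G' V2 V2' S) (hz : |z| ≤ Z)
    (e1 : |S 1 - R 1| ≤ E) (e2 : |S 2 - (R 2 + z * R 1)| ≤ E) :
    |(G 2 - G' 2) - ((H 2 - H' 2) + z * (H 1 - H' 1))| ≤ (3 + Z) * E ∧
    |(G 1 - G' 1) - (H 1 - H' 1)| ≤ 3 * E := by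
  have h1 := am2 hz P.r1
  constructor
  · have e : (G 2 - G' 2) - ((H 2 - H' 2) + z * (H 1 - H' 1)) =
        (S 2 - (G' 2 - G 2)) - (S 2 - (R 2 + z * R 1)) - (R 2 - (H' 2 - H 2)) -
          z * (R 1 - (H' 1 - H 1)) := by ring
    have h2 := Q.r2
    have h3 := P.r2
    rw [e, show (3 + Z) * E = 3 * E + Z * E by ring]
    rw [abs_le] at *
    constructor <;> linarith
  · have e : (G 1 - G' 1) - (H 1 - H' 1) =
        (S 1 - (G' 1 - G 1)) - (S 1 - R 1) - (R 1 - (H' 1 - H 1)) := by ring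
    have h2 := Q.r1
    have h3 := P.r1
    rw [e]
    rw [abs_le] at *
    constructor <;> linarith

/-- `F` of the special `35` -/
theorem num_F35 (P : Apx κ K E H H' V V' R) (Q : Apx κ K E G G' V2 V2' S) (hz : |z| ≤ Z)
    (e7 : |S 7 - (R 7 + z * R 5)| ≤ E) :
    |(2 * V2 7 - 2 * V2' 7) - ((2 * V 7 - 2 * V' 7) + 2 * z * (V 5 - V' 5))| ≤
      2 * (3 + Z) * E := by
  have h1 := am2 hz P.r5
  have e : (2 * V2 7 - 2 * V2' 7) - ((2 * V 7 - 2 * V' 7) + 2 * z * (V 5 - V' 5)) =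
      2 * ((S 7 - (V2' 7 - V2 7)) - (S 7 - (R 7 + z * R 5)) - (R 7 - (V' 7 - V 7)) -
        z * (R 5 - (V' 5 - V 5))) := by ring
  have h2 := Q.r7
  have h3 := P.r7
  rw [e, show 2 * (3 + Z) * E = 2 * (3 * E + Z * E) by ring, abs_mul, abs_two]
  refine mul_le_mul_of_nonneg_left ?_ (by norm_num)
  rw [abs_le] at *
  constructor <;> linarith

/-- `F` of the special `34` -/
theorem num_F34 (P : Apx κ K E H H' V V' R) (Q : Apx κ K E G G' V2 V2' S) (hz : |z| ≤ Z)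
    (e9 : |S 9 - (R 9 + z * R 6)| ≤ E) {N : ℝ} (hN : 0 ≤ N) (n5 : |R 5| ≤ N) (n7 : |R 7| ≤ N)
    (m5 : |S 5| ≤ N) (m7 : |S 7| ≤ N) :
    |(V2 9 - V2' 9) - ((V 9 - V' 9) + 1 / 3 * z * (3 * V 6 - 3 * V' 6))| ≤
      (3 + Z) * E + (12 + 2 * Z) * K * (N + E) := by
  have hK := P.K1
  have hE := P.E0
  have hκ := P.κ1
  have hK0 : 0 ≤ K := by linarith
  have hZ : 0 ≤ Z := (abs_nonneg _).trans hz
  -- small flag slots
  have s5 : |V' 5 - V 5| ≤ N + E := by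
    have h := P.r5
    have e : V' 5 - V 5 = R 5 - (R 5 - (V' 5 - V 5)) := by ring
    rw [e]; exact (abs_sub _ _).trans (by linarith)
  have s7 : |V' 7 - V 7| ≤ N + E := by
    have h := P.r7
    have e : V' 7 - V 7 = R 7 - (R 7 - (V' 7 - V 7)) := by ring
    rw [e]; exact (abs_sub _ _).trans (by linarith)
  have t5 : |V2' 5 - V2 5| ≤ N + E := by
    have h := Q.r5
    have e : V2' 5 - V2 5 = S 5 - (S 5 - (V2' 5 - V2 5)) := by ring
    rw [e]; exact (abs_sub _ _).trans (by linarith)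
  have t7 : |V2' 7 - V2 7| ≤ N + E := by
    have h := Q.r7
    have e : V2' 7 - V2 7 = S 7 - (S 7 - (V2' 7 - V2 7)) := by ring
    rw [e]; exact (abs_sub _ _).trans (by linarith)
  have b2 : ∀ {X D : ℝ}, |X| ≤ K → |D| ≤ N + E → |κ * (X * D)| ≤ K * (N + E) := by
    intro X D hX hD
    refine (am2 hκ (am2 hX hD)).trans (le_of_eq ?_)
    ring
  have p1 := b2 (P.bH' 2) s5
  have p2 := b2 (P.bH' 1) s7
  have q1 := b2 (Q.bH' 2) t5
  have q2 := b2 (Q.bH' 1) t7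
  have p3 := am2 hz (b2 (P.bH' 1) s5)
  have h6 := am2 hz P.r6
  have e : (V2 9 - V2' 9) - ((V 9 - V' 9) + 1 / 3 * z * (3 * V 6 - 3 * V' 6)) =
      (S 9 - ((V2' 9 - V2 9) + 2 * κ * G' 2 * (V2' 5 - V2 5) - 4 * κ * G' 1 * (V2' 7 - V2 7))) -
      (S 9 - (R 9 + z * R 6)) -
      (R 9 - ((V' 9 - V 9) + 2 * κ * H' 2 * (V' 5 - V 5) - 4 * κ * H' 1 * (V' 7 - V 7))) -
      z * (R 6 - ((V' 6 - V 6) - 2 * κ * H' 1 * (V' 5 - V 5))) +
      2 * (κ * (G' 2 * (V2' 5 - V2 5))) - 4 * (κ * (G' 1 * (V2' 7 - V2 7))) -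
      2 * (κ * (H' 2 * (V' 5 - V 5))) + 4 * (κ * (H' 1 * (V' 7 - V 7))) +
      2 * (z * (κ * (H' 1 * (V' 5 - V 5)))) := by ring
  have h2 := Q.r9
  have h3 := P.r9
  rw [e, show (3 + Z) * E + (12 + 2 * Z) * K * (N + E) = 3 * E + Z * E + 12 * (K * (N + E)) +
    2 * (Z * (K * (N + E))) by ring]
  rw [abs_le] at *
  constructor <;> linarith

end num

/-! ### the window -/

section

variable {W : Wnd 18 fun _ => ℕ × ℝ} {κ : ℕ → ℝ} {u : ℕ → Fin 18 → ℝ}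
  {f : ∀ n : ℕ, ℕ × ℝ → FW} {E : ∀ n : ℕ, Finset (ℕ × ℝ)} {lam : (Fin 18 → ℝ) → ℝ} {x : ℝ}
  {n : ℕ}

variable (h : PWin W E κ u f {4} lam x)
include h

/-- the units -/
theorem uni_sg (g : W.Good n) : Uni (sg W u n) where
  side := by
    have hs := h.ww.sides g
    have e1 : ∀ l : List (Fin 18), (l.map (sg W u n)).prod =
        W.kap 0 ^ (l.map wtW).sum * (l.map (sd W u n)).prod := by
      intro l
      induction l with
      | nil => simp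
      | cons a l ih =>
        simp only [List.map_cons, List.prod_cons, List.sum_cons, ih]
        unfold sg
        rw [pow_add]
        ring
    refine ⟨fun s => (sg_pos h n s).le, fun k l hl => ?_⟩
    rw [e1, wtW_list k l hl]
    exact mul_le_mul_of_nonneg_left (hs.wall k l hl) (pow_pos (h.ww.ok.kap 0) _).le
  pos := fun s => sg_pos h n s
  tight := fun k hk l hl h4 => sg_mul h n (by simpa using hk) hl fun s hs => by
    simp only [mem_singleton]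
    rintro rfl
    exact h4 hs

/-- a common constant -/
theorem exC : ∃ A : ℝ, 1 ≤ A ∧ ∀ s : Fin 18, W.K0 ≤ A * W.kap 0 ^ wtW s ∧
    W.kap s ≤ A * W.kap 0 ^ wtW s ∧ W.kap 0 ^ wtW s ≤ A * W.kap s ∧ W.K0 ≤ A * W.kap s := by
  classical
  have hk0 := h.ww.ok.kap 0
  set F : Fin 18 → ℝ := fun s => |(W.K0 + W.kap s) / W.kap 0 ^ wtW s| +
    |(W.kap 0 ^ wtW s + W.K0) / W.kap s| with hF
  have hF0 : ∀ s, 0 ≤ F s := fun s => add_nonneg (abs_nonneg _) (abs_nonneg _)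
  refine ⟨1 + ∑ s : Fin 18, F s, ?_, fun s => ?_⟩
  · have : 0 ≤ ∑ s : Fin 18, F s := Finset.sum_nonneg fun s _ => hF0 s
    linarith
  · have hs := Finset.single_le_sum (f := F) (fun s _ => hF0 s) (Finset.mem_univ s)
    have hp : 0 < W.kap 0 ^ wtW s := pow_pos hk0 _
    have hks := h.ww.ok.kap s
    have hK := h.ww.ok.K0_one
    have a1 : (W.K0 + W.kap s) / W.kap 0 ^ wtW s ≤ 1 + ∑ s : Fin 18, F s := by
      have := le_abs_self ((W.K0 + W.kap s) / W.kap 0 ^ wtW s)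
      have h2 := abs_nonneg ((W.kap 0 ^ wtW s + W.K0) / W.kap s)
      have h3 : F s = |(W.K0 + W.kap s) / W.kap 0 ^ wtW s| +
        |(W.kap 0 ^ wtW s + W.K0) / W.kap s| := rfl
      linarith
    have a2 : (W.kap 0 ^ wtW s + W.K0) / W.kap s ≤ 1 + ∑ s : Fin 18, F s := by
      have := le_abs_self ((W.kap 0 ^ wtW s + W.K0) / W.kap s)
      have h2 := abs_nonneg ((W.K0 + W.kap s) / W.kap 0 ^ wtW s)
      have h3 : F s = |(W.K0 + W.kap s) / W.kap 0 ^ wtW s| +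
        |(W.kap 0 ^ wtW s + W.K0) / W.kap s| := rfl
      linarith
    rw [div_le_iff₀ hp] at a1
    rw [div_le_iff₀ hks] at a2
    exact ⟨by linarith, by linarith, by linarith, by linarith⟩

/-- `Tri` at the representatives -/
theorem tri_at {A : ℝ} (hA1 : 1 ≤ A) (hA : ∀ s : Fin 18, W.K0 ≤ A * W.kap 0 ^ wtW s ∧
    W.kap s ≤ A * W.kap 0 ^ wtW s ∧ W.kap 0 ^ wtW s ≤ A * W.kap s ∧ W.K0 ≤ A * W.kap s)
    (g : W.Good n) (hE : E n ⊆ W.Cl n) {k l l' : ℕ} (h1 : (l, k) ∈ (W.cfg0 n (E n)).I)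
    (h2 : (l', k) ∈ (W.cfg0 n (E n)).I) {η : ℝ} (hη : W.B'.d n ^ x ≤ η)
    (h4 : |(W.cfg0 n (E n)).rel k l l' 4| ≤ η) :
    Tri (κ n) (sg W u n) A η (f n (W.zrep n k)) (f n (W.rep n l k)) (f n (W.rep n l' k)) := by
  obtain ⟨a1, a2, a3⟩ := Wnd.rep_of_mem hE h1
  obtain ⟨b1, b2, b3⟩ := Wnd.rep_of_mem hE h2
  have hz : W.zrep n k ∈ W.Cl n ∧ W.zc n (W.zrep n k) = k := by
    obtain ⟨i, hi, _, rfl⟩ := Wnd.mem_I.1 h1
    exact W.zrep_spec (hE hi)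
  have hδ : 0 < W.B'.d n ^ x := Real.rpow_pos_of_pos (W.B'.pos n) _
  have hη0 : 0 < η := hδ.trans_le hη
  have hsd : ∀ s, 0 < sd W u n s := fun s => h.ww.sd_pos n s
  have up : ∀ s, W.K0 * sd W u n s ≤ A * sg W u n s := fun s => by
    refine (mul_le_mul_of_nonneg_right (hA s).1 (hsd s).le).trans (le_of_eq ?_)
    unfold sg; ring
  have lev : ∀ {y : ℕ × ℝ}, y ∈ W.Cl n → W.zc n y = k →
      |coW (κ n) (f n (W.zrep n k)) (f n y) 0| ≤ A * η * sg W u n 0 := by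
    intro y hy hyk
    have h5 := h.ww.lev_small g hz.1 hy (hz.2.trans hyk.symm) (t := x) (s := 0) h.ww.h0
      (h.top 0).ge
    refine h5.trans ?_
    have h6 := up 0
    calc W.K0 * W.B'.d n ^ x * sd W u n 0 = W.B'.d n ^ x * (W.K0 * sd W u n 0) := by ring
      _ ≤ η * (A * sg W u n 0) := mul_le_mul hη h6 (by have := hsd 0; have := h.ww.ok.K0_one; positivity) hη0.le
      _ = _ := by ring
  refine
    { κ1 := h.ww.hκ n
      K1 := hA1
      τ0 := hη0.le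
      uni := uni_sg h g
      b0x := fun s => (h.ww.bnd g hz.1 a1 s).trans (up s)
      b0y := fun s => (h.ww.bnd g hz.1 b1 s).trans (up s)
      bx0 := fun s => (h.ww.bnd g a1 hz.1 s).trans (up s)
      by0 := fun s => (h.ww.bnd g b1 hz.1 s).trans (up s)
      z0x := lev a1 a3
      z0y := lev b1 b3
      h4 := ?_ }
  have hs4 : (4 : Fin 18) ∉ W.S := by rw [h.S]; decide
  have e1 : (W.cfg0 n (E n)).rel k l l' 4 = W.crd n (W.rep n l k) (W.rep n l' k) 4 := if_neg hs4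
  rw [e1] at h4
  rw [h.ww.crd_eq g a1 b1, abs_mul, abs_of_pos (h.ww.un_pos n 4)]
  calc un W u n 4 * |W.crd n (W.rep n l k) (W.rep n l' k) 4| ≤ un W u n 4 * η :=
        mul_le_mul_of_nonneg_left h4 (h.ww.un_pos n 4).le
    _ = W.kap 4 * (sd W u n 4 * η) := by unfold un; ring
    _ ≤ A * W.kap 0 ^ wtW 4 * (sd W u n 4 * η) :=
        mul_le_mul_of_nonneg_right (hA 4).2.1 (mul_nonneg (hsd 4).le hη0.le)
    _ = _ := by unfold sg; ring

/-- `rel` and `Rn` -/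
theorem rel_Rn {A : ℝ} (hA1 : 1 ≤ A) (hA : ∀ s : Fin 18, W.K0 ≤ A * W.kap 0 ^ wtW s ∧
    W.kap s ≤ A * W.kap 0 ^ wtW s ∧ W.kap 0 ^ wtW s ≤ A * W.kap s ∧ W.K0 ≤ A * W.kap s)
    (g : W.Good n) (hE : E n ⊆ W.Cl n) {k l l' : ℕ} (h1 : (l, k) ∈ (W.cfg0 n (E n)).I)
    (h2 : (l', k) ∈ (W.cfg0 n (E n)).I) {s : Fin 18} (hs : s ≠ 0) :
    |Rn W κ u f n k l l' s| ≤ A * |(W.cfg0 n (E n)).rel k l l' s| ∧
    |(W.cfg0 n (E n)).rel k l l' s| ≤ A * |Rn W κ u f n k l l' s| := by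
  obtain ⟨a1, a2, a3⟩ := Wnd.rep_of_mem hE h1
  obtain ⟨b1, b2, b3⟩ := Wnd.rep_of_mem hE h2
  have hs4 : s ∉ W.S := by rw [h.S]; simpa using hs
  have e1 : (W.cfg0 n (E n)).rel k l l' s = W.crd n (W.rep n l k) (W.rep n l' k) s := if_neg hs4
  have hsd := h.ww.sd_pos n s
  have hp : 0 < W.kap 0 ^ wtW s := pow_pos (h.ww.ok.kap 0) _
  have hks := h.ww.ok.kap s
  have e2 : Rn W κ u f n k l l' s * W.kap 0 ^ wtW s = W.kap s * (W.cfg0 n (E n)).rel k l l' s := by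
    unfold Rn
    rw [e1, h.ww.crd_eq g a1 b1]
    unfold sg un
    field_simp
  have e3 : |Rn W κ u f n k l l' s| * W.kap 0 ^ wtW s =
      W.kap s * |(W.cfg0 n (E n)).rel k l l' s| := by
    have := congrArg abs e2
    rwa [abs_mul, abs_mul, abs_of_pos hp, abs_of_pos hks] at this
  obtain ⟨c1, c2, c3, c4⟩ := hA s
  have n1 := abs_nonneg (Rn W κ u f n k l l' s)
  have n2 := abs_nonneg ((W.cfg0 n (E n)).rel k l l' s)
  constructor
  · refine le_of_mul_le_mul_right ?_ hp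
    calc |Rn W κ u f n k l l' s| * W.kap 0 ^ wtW s = W.kap s * |(W.cfg0 n (E n)).rel k l l' s| := e3
      _ ≤ A * W.kap 0 ^ wtW s * |(W.cfg0 n (E n)).rel k l l' s| :=
          mul_le_mul_of_nonneg_right c2 n2
      _ = _ := by ring
  · refine le_of_mul_le_mul_right ?_ hks
    calc |(W.cfg0 n (E n)).rel k l l' s| * W.kap s =
        |Rn W κ u f n k l l' s| * W.kap 0 ^ wtW s := by rw [e3]; ring
      _ ≤ |Rn W κ u f n k l l' s| * (A * W.kap s) := mul_le_mul_of_nonneg_left c3 n1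
      _ = _ := by ring

/-- a close slot at one height, raw -/
theorem raw4 (g : W.Good n) (hE : E n ⊆ W.Cl n) {k l l' : ℕ} (h1 : (l, k) ∈ (W.cfg0 n (E n)).I)
    (h2 : (l', k) ∈ (W.cfg0 n (E n)).I) {η : ℝ} (h4 : |(W.cfg0 n (E n)).rel k l l' 4| ≤ η) :
    |coW (κ n) (f n (W.rep n l k)) (f n (W.rep n l' k)) 4| ≤ W.kap 4 * η * sd W u n 4 := by
  obtain ⟨a1, a2, a3⟩ := Wnd.rep_of_mem hE h1
  obtain ⟨b1, b2, b3⟩ := Wnd.rep_of_mem hE h2
  have hs4 : (4 : Fin 18) ∉ W.S := by rw [h.S]; decide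
  have e1 : (W.cfg0 n (E n)).rel k l l' 4 = W.crd n (W.rep n l k) (W.rep n l' k) 4 := if_neg hs4
  rw [e1] at h4
  rw [h.ww.crd_eq g a1 b1, abs_mul, abs_of_pos (h.ww.un_pos n 4)]
  calc un W u n 4 * |W.crd n (W.rep n l k) (W.rep n l' k) 4| ≤ un W u n 4 * η :=
        mul_le_mul_of_nonneg_left h4 (h.ww.un_pos n 4).le
    _ = _ := by unfold un; ring

omit h in
theorem absorb2 (B : Base) {P x ε C : ℝ} {n : ℕ} (hε : 0 < ε) (hC : 2 ≤ C)
    (hP : P ≤ B.d n ^ (-ε)) : P * B.d n ^ (x - ε) ≤ B.d n ^ (x - C * ε) := by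
  refine (mul_le_mul_of_nonneg_right hP (Real.rpow_pos_of_pos (B.pos n) _).le).trans ?_
  rw [← Real.rpow_add (B.pos n)]
  exact Real.rpow_le_rpow_of_exponent_ge (B.pos n) (B.lt n).le (by nlinarith)

/-- frames of the line `l` seen from the base of the height `k` -/
noncomputable def Hn (W : Wnd 18 fun _ => ℕ × ℝ) (κ : ℕ → ℝ) (u : ℕ → Fin 18 → ℝ)
    (f : ∀ n : ℕ, ℕ × ℝ → FW) (n k l : ℕ) : Fin 18 → ℝ :=
  Hc (κ n) (sg W u n) (f n (W.zrep n k)) (f n (W.rep n l k))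

/-- flags of the line `l` seen from the base of the height `k` -/
noncomputable def Vn (W : Wnd 18 fun _ => ℕ × ℝ) (κ : ℕ → ℝ) (u : ℕ → Fin 18 → ℝ)
    (f : ∀ n : ℕ, ℕ × ℝ → FW) (n k l : ℕ) : Fin 18 → ℝ :=
  Vc (κ n) (sg W u n) (f n (W.zrep n k)) (f n (W.rep n l k))

set_option maxHeartbeats 2000000 in
/-- **all the facts of a pair at two heights**, one `n` -/
theorem pair_n : ∃ P : ℝ, 1 ≤ P ∧ ∀ n, W.Good n → E n ⊆ W.Cl n → ∀ k k' l l',
    (l, k) ∈ (W.cfg0 n (E n)).I → (l, k') ∈ (W.cfg0 n (E n)).I →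
    (l', k) ∈ (W.cfg0 n (E n)).I → (l', k') ∈ (W.cfg0 n (E n)).I → ∀ η : ℝ,
    W.B'.d n ^ x ≤ η → |(W.cfg0 n (E n)).rel k l l' 4| ≤ η →
    ∀ z, z = (W.cfg0 n (E n)).z k' - (W.cfg0 n (E n)).z k →
    (|(Hn W κ u f n k' l 2 - Hn W κ u f n k' l' 2) - ((Hn W κ u f n k l 2 - Hn W κ u f n k l' 2) +
      z * (Hn W κ u f n k l 1 - Hn W κ u f n k l' 1))| ≤ P * η ∧
    |(Hn W κ u f n k' l 1 - Hn W κ u f n k' l' 1) -
      (Hn W κ u f n k l 1 - Hn W κ u f n k l' 1)| ≤ P * η ∧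
    |(2 * Vn W κ u f n k' l 7 - 2 * Vn W κ u f n k' l' 7) -
      ((2 * Vn W κ u f n k l 7 - 2 * Vn W κ u f n k l' 7) +
        2 * z * (Vn W κ u f n k l 5 - Vn W κ u f n k l' 5))| ≤ P * η ∧
    |(W.cfg0 n (E n)).rel k' l l' 4| ≤ P * η) ∧
    (|(W.cfg0 n (E n)).rel k l l' 5| ≤ η → |(W.cfg0 n (E n)).rel k l l' 7| ≤ η →
      |(Vn W κ u f n k' l 9 - Vn W κ u f n k' l' 9) -
        ((Vn W κ u f n k l 9 - Vn W κ u f n k l' 9) +
          1 / 3 * z * (3 * Vn W κ u f n k l 6 - 3 * Vn W κ u f n k l' 6))| ≤ P * η ∧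
      |(W.cfg0 n (E n)).rel k' l l' 5| ≤ P * η ∧ |(W.cfg0 n (E n)).rel k' l l' 7| ≤ P * η) ∧
    |z| ≤ P := by
  obtain ⟨A1, hA1, hev⟩ := evR h
  obtain ⟨A2, hA2, hC⟩ := exC h
  obtain ⟨E0, hE0⟩ : ∃ E0, E0 = 470 * (2 * A2) ^ 7 * (A1 * A2) := ⟨_, rfl⟩
  have hA12 : 1 ≤ A1 * A2 := by nlinarith
  have h27 : 1 ≤ (2 * A2) ^ 7 := one_le_pow₀ (by linarith)
  have hE1 : A1 * A2 ≤ E0 := by rw [hE0]; nlinarith
  have hE10 : 0 < E0 := by linarith
  obtain ⟨P, hP⟩ : ∃ P, P = 2 * (3 + A1) * E0 + (12 + 2 * A1) * A2 * (3 * (A1 * A2) + E0) +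
    3 * (A1 * A2) * A2 + A1 := ⟨_, rfl⟩
  have hA10 : 0 < A1 := by linarith
  have hA20 : 0 < A2 := by linarith
  have p1 : 0 < (3 + A1) * E0 := by positivity
  have p2 : 0 < (12 + 2 * A1) * A2 * (3 * (A1 * A2) + E0) := by positivity
  have p3 : 0 < 3 * (A1 * A2) * A2 := by positivity
  refine ⟨P, by rw [hP]; linarith, ?_⟩
  intro n g hE k k' l l' h1 h2 h3 h4 η hη hr4 z hz
  have hδ : 0 < W.B'.d n ^ x := Real.rpow_pos_of_pos (W.B'.pos n) _
  have hη0 : 0 < η := hδ.trans_le hη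
  obtain ⟨⟨r1, r2, r4, r5, r6, r7, r9⟩, hzA, hRb⟩ := hev n g hE k k' l l' h1 h2 h3 h4 η hη
    (raw4 h g hE h1 h3 hr4) z hz
  set τ := A1 * A2 * η with hτ
  have hητ : η ≤ τ := by rw [hτ]; nlinarith
  have hτδ : W.B'.d n ^ x ≤ τ := hη.trans hητ
  have hr4' : |(W.cfg0 n (E n)).rel k' l l' 4| ≤ τ := by
    have := (rel_Rn h hA2 hC g hE h2 h4 (s := 4) (by decide)).2
    refine this.trans ?_
    calc A2 * |Rn W κ u f n k' l l' 4| ≤ A2 * (A1 * η) := mul_le_mul_of_nonneg_left r4 hA20.le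
      _ = _ := by rw [hτ]; ring
  have T := (tri_at h hA2 hC g hE h1 h3 hτδ (hr4.trans hητ)).apx
  have T' := (tri_at h hA2 hC g hE h2 h4 hτδ hr4').apx
  have eE : Er A2 τ = E0 * η := by unfold Er; rw [hτ, hE0]; ring
  rw [eE] at T T'
  have hAE : A1 * η ≤ E0 * η := mul_le_mul_of_nonneg_right (by nlinarith) hη0.le
  have ac := num_ac T T' hzA (r1.trans hAE) (r2.trans hAE)
  have F35 := num_F35 T T' hzA (r7.trans hAE)
  have hPη : ∀ {c : ℝ}, c ≤ P → c * η ≤ P * η := fun hc => mul_le_mul_of_nonneg_right hc hη0.le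
  have hEη : 0 < E0 * η := by positivity
  have c1 : (3 + A1) * (E0 * η) ≤ P * η := by
    have := hPη (c := (3 + A1) * E0) (by rw [hP]; linarith)
    linarith
  have c2 : 2 * (3 + A1) * (E0 * η) ≤ P * η := by
    have := hPη (c := 2 * (3 + A1) * E0) (by rw [hP]; linarith)
    linarith
  have c3 : 3 * (E0 * η) ≤ P * η := by
    have : 0 < A1 * (E0 * η) := by positivity
    have e : (3 + A1) * (E0 * η) = 3 * (E0 * η) + A1 * (E0 * η) := by ring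
    linarith
  refine ⟨⟨ac.1.trans c1, ac.2.trans c3, F35.trans c2, ?_⟩, fun n5 n7 => ?_, ?_⟩
  · refine hr4'.trans ?_
    refine hPη ?_
    rw [hP]
    nlinarith
  · have q5 : |Rn W κ u f n k l l' 5| ≤ A2 * η :=
      (rel_Rn h hA2 hC g hE h1 h3 (s := 5) (by decide)).1.trans
        (mul_le_mul_of_nonneg_left n5 hA20.le)
    have q7 : |Rn W κ u f n k l l' 7| ≤ A2 * η :=
      (rel_Rn h hA2 hC g hE h1 h3 (s := 7) (by decide)).1.trans
        (mul_le_mul_of_nonneg_left n7 hA20.le)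
    have hA1η : A1 * η ≤ A1 * A2 * η := mul_le_mul_of_nonneg_right (by nlinarith) hη0.le
    have hA2η : A2 * η ≤ A1 * A2 * η := mul_le_mul_of_nonneg_right (by nlinarith) hη0.le
    have t5 : |Rn W κ u f n k' l l' 5| ≤ 3 * (A1 * A2) * η := by
      have e : Rn W κ u f n k' l l' 5 = (Rn W κ u f n k' l l' 5 - Rn W κ u f n k l l' 5) +
        Rn W κ u f n k l l' 5 := by ring
      rw [e]
      refine (abs_add_le _ _).trans ?_
      have : 0 < A1 * A2 * η := by positivity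
      linarith
    have t7 : |Rn W κ u f n k' l l' 7| ≤ 3 * (A1 * A2) * η := by
      have e : Rn W κ u f n k' l l' 7 = (Rn W κ u f n k' l l' 7 - (Rn W κ u f n k l l' 7 +
        z * Rn W κ u f n k l l' 5)) + Rn W κ u f n k l l' 7 + z * Rn W κ u f n k l l' 5 := by ring
      rw [e]
      have h5 := am2 hzA q5
      have h6 := abs_add_le ((Rn W κ u f n k' l l' 7 - (Rn W κ u f n k l l' 7 +
        z * Rn W κ u f n k l l' 5)) + Rn W κ u f n k l l' 7) (z * Rn W κ u f n k l l' 5)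
      have h7 := abs_add_le (Rn W κ u f n k' l l' 7 - (Rn W κ u f n k l l' 7 +
        z * Rn W κ u f n k l l' 5)) (Rn W κ u f n k l l' 7)
      linarith
    have hN : 0 ≤ 3 * (A1 * A2) * η := by positivity
    have F34 := num_F34 T T' hzA (r9.trans hAE) hN (by
        show |Rn W κ u f n k l l' 5| ≤ _
        have : 0 < A1 * A2 * η := by positivity
        linarith) (by
        show |Rn W κ u f n k l l' 7| ≤ _
        have : 0 < A1 * A2 * η := by positivity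
        linarith) t5 t7
    refine ⟨F34.trans ?_, ?_, ?_⟩
    · have e : (3 + A1) * (E0 * η) + (12 + 2 * A1) * A2 * (3 * (A1 * A2) * η + E0 * η) =
        ((3 + A1) * E0 + (12 + 2 * A1) * A2 * (3 * (A1 * A2) + E0)) * η := by ring
      rw [e]
      refine hPη ?_
      rw [hP]
      linarith
    · refine (rel_Rn h hA2 hC g hE h2 h4 (s := 5) (by decide)).2.trans ?_
      refine (mul_le_mul_of_nonneg_left t5 hA20.le).trans ?_
      have e : A2 * (3 * (A1 * A2) * η) = 3 * (A1 * A2) * A2 * η := by ring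
      rw [e]
      refine hPη ?_
      rw [hP]
      linarith
    · refine (rel_Rn h hA2 hC g hE h2 h4 (s := 7) (by decide)).2.trans ?_
      refine (mul_le_mul_of_nonneg_left t7 hA20.le).trans ?_
      have e : A2 * (3 * (A1 * A2) * η) = 3 * (A1 * A2) * A2 * η := by ring
      rw [e]
      refine hPη ?_
      rw [hP]
      linarith
  · refine hzA.trans ?_
    rw [hP]
    linarith

end

end Crest.Agent.R136.Cub938
end

-- ▼ part R136/CubH_938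

/-!
# R136, the specials of the thin pins (helper938): the rows of the evolution

* `sevo35`, `sevo34` : `SEvo` of the two specials over a window
-/

set_option autoImplicit false
set_option linter.unusedSectionVars false
set_option linter.unusedVariables false

open Filter Topology

namespace Crest.Agent.R136.Cub938

open Finset Crest.Agent.R138.Ex926 Crest.Agent.R136.Net191 Crest.Agent.R136.Gf356
open Crest.Agent.R136.Qg926 Crest.Agent.R136.NetW191 Crest.Agent.R136.EvW938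
open Crest.Agent.R136.PqG464 (wtW wtW_list)
open Crest.Agent.R136.LadW697 Crest.Agent.R136.Pin851
open Crest.Agent.R136.Cub191 (SEvo)

section

variable {W : Wnd 18 fun _ => ℕ × ℝ} {κ : ℕ → ℝ} {u : ℕ → Fin 18 → ℝ}
  {f : ℕ → ℕ × ℝ → FW} {E : ∀ n : ℕ, Finset (ℕ × ℝ)} {lam : (Fin 18 → ℝ) → ℝ} {x : ℝ}
  {n : ℕ}

variable (h : PWin W E κ u f {4} lam x)
include h

/-- all slots are bounded -/
theorem rel_ub {A : ℝ} (hA0 : 0 ≤ A) (hA : ∀ s : Fin 18, W.K0 ≤ A * W.kap s)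
    (g : W.Good n) (hE : E n ⊆ W.Cl n) {k l l' : ℕ} (h1 : (l, k) ∈ (W.cfg0 n (E n)).I)
    (h2 : (l', k) ∈ (W.cfg0 n (E n)).I) (s : Fin 18) :
    |(W.cfg0 n (E n)).rel k l l' s| ≤ A := by
  obtain ⟨a1, a2, a3⟩ := Wnd.rep_of_mem hE h1
  obtain ⟨b1, b2, b3⟩ := Wnd.rep_of_mem hE h2
  by_cases hs : s ∈ W.S
  · have e1 : (W.cfg0 n (E n)).rel k l l' s = 0 := if_pos hs
    rw [e1, abs_zero]; exact hA0
  · have e1 : (W.cfg0 n (E n)).rel k l l' s = W.crd n (W.rep n l k) (W.rep n l' k) s := if_neg hs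
    rw [e1]
    refine (h.ww.crd_le g a1 b1 s).trans ?_
    rw [div_le_iff₀ (h.ww.ok.kap s)]
    exact hA s

/-- slot `0` -/
theorem rel_0 (k l l' : ℕ) : (W.cfg0 n (E n)).rel k l l' 0 = 0 :=
  if_pos (by rw [h.S]; simp)

/-- heights -/
theorem zbd_h {M : ℝ} (hM : 2 * (W.K0 / W.kap 0) ≤ M) : ∀ᶠ n in (U : Filter ℕ),
    ∀ k ∈ (W.cfg E n).Z, ∀ k' ∈ (W.cfg E n).Z, |(W.cfg E n).z k' - (W.cfg E n).z k| ≤ M := by
  filter_upwards [h.ev] with n ⟨g, hE, he⟩ k hk k' hk'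
  rw [he] at hk hk' ⊢
  refine (abs_sub _ _).trans ((add_le_add (zn h g hE hk') (zn h g hE hk)).trans ?_)
  linarith

omit h in
theorem absorb0 (B : Base) {A ε C : ℝ} {n : ℕ} (hε : 0 < ε) (hC : 2 ≤ C)
    (hA : A ≤ B.d n ^ (-ε)) : A ≤ B.d n ^ (0 - C * ε) :=
  hA.trans (Real.rpow_le_rpow_of_exponent_ge (B.pos n) (B.lt n).le (by nlinarith))

/-- **evolution, `b = 5`** -/
theorem sevo35 {M C : ℝ} (hM : 2 * (W.K0 / W.kap 0) ≤ M) (hC : 2 ≤ C) :
    SEvo W.B' (W.cfg E) x M C 2 (ind {0, 4} x) (aT W κ u f) (F5 W κ u f) (cT W κ u f)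
      (Y5 W κ u f) := by
  obtain ⟨P, hP1, hP⟩ := pair_n h
  obtain ⟨A, hA1, hA⟩ := exC h
  refine ⟨fun ε hε => ?_, zbd_h h hM, fun ε hε => ?_⟩
  · filter_upwards [h.ev, ev_const_le W.B' hε P, ev_const_le W.B' hε A] with n ⟨g, hE, he⟩ hc hc'
      k k' l l' h1 h2 h3 h4 hlo
    rw [he] at h1 h2 h3 h4 hlo ⊢
    have r4 : |(W.cfg0 n (E n)).rel k l l' 4| ≤ W.B'.d n ^ (x - ε) := by
      have := hlo 4
      rwa [ind_mem (by decide)] at this
    have hη : W.B'.d n ^ x ≤ W.B'.d n ^ (x - ε) :=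
      Real.rpow_le_rpow_of_exponent_ge (W.B'.pos n) (W.B'.lt n).le (by linarith)
    obtain ⟨⟨q1, q2, q3, q4⟩, -, -⟩ := hP n g hE k k' l l' h1 h2 h3 h4 _ hη r4 _ rfl
    intro s
    by_cases hs : s ∈ ({0, 4} : Finset (Fin 18))
    · rw [ind_mem hs]
      simp only [mem_insert, mem_singleton] at hs
      rcases hs with rfl | rfl
      · rw [rel_0 h, abs_zero]
        exact (Real.rpow_pos_of_pos (W.B'.pos n) _).le
      · exact q4.trans (absorb2 W.B' hε hC hc)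
    · rw [ind_notMem hs]
      exact (rel_ub h (by linarith) (fun s => (hA s).2.2.2) g hE h2 h4 s).trans
        (absorb0 W.B' hε hC hc')
  · filter_upwards [h.ev, ev_const_le W.B' hε P] with n ⟨g, hE, he⟩ hc k k' l l' h1 h2 h3 h4 hlo
    rw [he] at h1 h2 h3 h4 hlo ⊢
    have r4 : |(W.cfg0 n (E n)).rel k l l' 4| ≤ W.B'.d n ^ (x - ε) := by
      have := hlo 4
      rwa [ind_mem (by decide)] at this
    have hη : W.B'.d n ^ x ≤ W.B'.d n ^ (x - ε) :=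
      Real.rpow_le_rpow_of_exponent_ge (W.B'.pos n) (W.B'.lt n).le (by linarith)
    obtain ⟨⟨q1, q2, q3, q4⟩, -, -⟩ := hP n g hE k k' l l' h1 h2 h3 h4 _ hη r4 _ rfl
    exact ⟨q1.trans (absorb2 W.B' hε hC hc), q3.trans (absorb2 W.B' hε hC hc),
      q2.trans (absorb2 W.B' hε hC hc)⟩


end

end Crest.Agent.R136.Cub938
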