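import Crest.Agent.R136.BaseW_619
import Crest.Agent.R136.Vw3_848
import Crest.Agent.R136.Aw0_413

-- ▼ part R136/DLw1_619
section

/-!
# R136: `deadlow`, part 1 (helper619): window facts, level slots `{z, v}`, `v = 15` or `14`

Everything is narrow in the base boxes except `B` (slot 3) and the slots of the link.

* `htP` : height link `P → N` (`v = 15`), `freeP` : `N` not full ⊢ `P` costs nothing.
* `leafA15` : leaf `A → N` with the flag `15` (`v = 14`).
-/

set_option autoImplicit false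
set_option linter.unusedSectionVars false
set_option linter.unusedVariables false

open Filter Topology

namespace Crest.Agent.R136.DLow619

open Finset Crest.Agent.R136.NetW191 Crest.Agent.R136.Net191 Crest.Agent.R136.Qg926
open Crest.Agent.R136.EvW938 Crest.Agent.R136.RowW619 Crest.Agent.R136.Lf400
open Crest.Agent.R136.LfW619 Crest.Agent.R136.Ht887 Crest.Agent.R136.BaseW619
open Crest.Agent.R138.Ex926 (Base U)
open Crest.Agent.R136.Gf356

variable {ι : ℕ → Type*} [∀ n, DecidableEq (ι n)] {W : Wnd 18 ι} {κ : ℕ → ℝ}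
  {lam : ℕ → Fin 18 → ℝ} {f : ∀ n, ι n → FW}

/-- base box: `B` coarse, everything else narrow -/
def bB (x : ℝ) : Fin 18 → ℝ := fun s => if s = 3 then 0 else x

/-- narrow slots (composition at one height) -/
def NP : Finset (Fin 18) := univ.filter fun s => s ≠ 3 ∧ s ≠ 16 ∧ s ≠ 17

/-- narrow flags and lateral frames (shift) -/
def NP1 : Finset (Fin 18) := univ.filter fun s => s ≠ 0 ∧ s ≠ 16 ∧ s ≠ 17

/-- narrow slots (own part) -/
def NP2 : Finset (Fin 18) := univ.filter fun s => s ≠ 3 ∧ s ≠ 15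

theorem live_NP : ∀ q : Fin 14, live NP q = [] := by decide
theorem live_NP1 : ∀ q : Fin 14, q ≠ 13 → live NP1 q = [] := by decide
theorem live_NP1N : live NP1 13 = [⟨1, 0, [0], 12⟩] := by decide
theorem live_NP2 : ∀ q : Fin 14, live NP2 q = [] := by decide


section win

variable (h : WWnd W κ lam f)

include h

/-- the own part of a flag row: everything narrow but `B` and the own flag `15` -/
theorem row_dead {n : ℕ} (g : W.Good n) {E : Finset (ι n)} (hE : E ⊆ W.Cl n) {i l k k' : ℕ}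
    (hi : (i, k) ∈ (W.cfg0 n E).I) (hi' : (i, k') ∈ (W.cfg0 n E).I)
    (hl : (l, k) ∈ (W.cfg0 n E).I) (hl' : (l, k') ∈ (W.cfg0 n E).I)
    (hS : W.S = {0, 15}) {x : ℝ} (htop : ∀ s, x ≤ W.top s) {δ : ℝ} (hδ : 0 ≤ δ)
    (hb : ∀ s, s ∈ NP → |(W.cfg0 n E).rel k i l s| ≤ δ) {q : Fin 14}
    (hq : Fin.natAdd 4 q ∉ W.S) :
    |(W.cfg0 n E).rel k' i l (Fin.natAdd 4 q) -
      ((W.cfg0 n E).rel k i l (Fin.natAdd 4 q) + ((live NP1 q).map
        (tmN W κ lam n q (offV W.S ((W.cfg0 n E).rel k i l)) (shF (ownC W n i k k')))).sum)| ≤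
      CX W * (W.B'.d n ^ x + (1 + CfW W * MW W) * δ) := by
  have hM := (MW_le h).1
  have hC := (CfW_le h).1
  have hη : 0 ≤ (1 + CfW W * MW W) * δ := by
    have : 0 ≤ CfW W * MW W := mul_nonneg (by linarith) (by linarith)
    positivity
  have hδη : δ ≤ (1 + CfW W * MW W) * δ := by
    have : 0 ≤ CfW W * MW W * δ := mul_nonneg (mul_nonneg (by linarith) (by linarith)) hδ
    linarith
  have key := evo_row h g hE hi hi' hl hl' htop hq (N1 := NP1) (N2 := NP2) hη (by decide)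
    (fun q' h1 h2 => ?_) (fun q' h1 h2 => ?_) (fun i' h0 h1 => ?_)
  · rw [live_NP2 q, List.map_nil, List.sum_nil, sub_zero] at key
    exact key
  · refine (hb _ ?_).trans hδη
    clear h2
    revert h1; revert q'; decide
  · exfalso
    rw [hS] at h2
    revert h2; revert h1; revert q'; decide
  · have h12 : i' = 1 ∨ i' = 2 := by revert h1; revert h0; revert i'; decide
    rcases h12 with rfl | rfl
    · show |evF W κ lam n (ownC W n i k k') ((W.cfg0 n E).rel k i l) 1| ≤ _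
      have e1 : evF W κ lam n (ownC W n i k k') ((W.cfg0 n E).rel k i l) 1 =
          (W.cfg0 n E).rel k i l 1 := by
        unfold evF
        rw [if_neg (by decide), h.evoC1]
      rw [e1]
      exact (hb 1 (by decide)).trans hδη
    · show |evF W κ lam n (ownC W n i k k') ((W.cfg0 n E).rel k i l) 2| ≤ _
      have e1 : evF W κ lam n (ownC W n i k k') ((W.cfg0 n E).rel k i l) 2 =
          (W.cfg0 n E).rel k i l 2 + cfl W lam n [1, 0] 2 *
            (ownC W n i k k' 0 * (W.cfg0 n E).rel k i l 1) := by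
        unfold evF
        rw [if_neg (by decide), h.evoC2]
      rw [e1]
      have b1 := hb 1 (by decide)
      have b2 := hb 2 (by decide)
      have o0 := own_MW' h g hE hi hi' 0
      have c0 := (h.cfl_pos n [1, 0] 2).le
      have h3 : |cfl W lam n [1, 0] 2 * (ownC W n i k k' 0 * (W.cfg0 n E).rel k i l 1)| ≤
          CfW W * (MW W * δ) := by
        rw [abs_mul, abs_mul, abs_of_nonneg c0]
        exact mul_le_mul (cfl2_CfW h g) (mul_le_mul o0 b1 (abs_nonneg _) (by linarith))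
          (mul_nonneg (abs_nonneg _) (abs_nonneg _)) (by linarith)
      refine (abs_add_le _ _).trans ((add_le_add b2 h3).trans (le_of_eq ?_))
      ring

set_option maxHeartbeats 1000000 in
/-- **the height link `P → N`** in a window with the level slots `z, 15` -/
theorem htP {E : ∀ n, Finset (ι n)} (hE : EvG W E) {Leg : Set (Fin 18 → ℝ)}
    {ν : (Fin 18 → ℝ) → ℝ} {D : ℝ} (H : RUnif W.B' (W.cfg E) Leg ν D) (hS : W.S = {0, 15})
    {x : ℝ} (hx : 0 ≤ x) (htop : ∀ s, x ≤ W.top s)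
    (ht : ∀ᶠ n in (U : Filter ℕ), W.X n 17 = W.X n 0 + W.X n 16)
    (hp : b2 (bB x) 16 17 0 0 ∈ Leg) :
    HtLink W.B' (W.cfg E) (b2 (bB x) 16 17 0 0) 16 17 x (fun n => cfl W lam n [0, 16] 17)
      (D ^ 2 + 2) := by
  have hD := H.D1
  have hM := (MW_le h).1
  have hC := (CfW_le h).1
  have hCX := (CX_pos h).1
  have hC1 : 1 ≤ D ^ 2 + 2 := by nlinarith
  have hpN : ∀ s ∈ NP, b2 (bB x) 16 17 0 0 s = x := by
    intro s hs
    have h1 : s ≠ 3 ∧ s ≠ 16 ∧ s ≠ 17 := by
      revert hs; revert s; decide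
    unfold b2 bB
    rw [if_neg h1.2.1, if_neg h1.2.2, if_neg h1.1]
  have hpC : ∀ s, s ∉ NP → b2 (bB x) 16 17 0 0 s = 0 := by
    intro s hs
    have h1 : s = 3 ∨ s = 16 ∨ s = 17 := by
      revert hs; revert s; decide
    rcases h1 with rfl | rfl | rfl
    · rfl
    · rfl
    · rfl
  have n16 : (16 : Fin 18) ∉ W.S := h.n16
  have n17 : (17 : Fin 18) ∉ W.S := h.n17
  have hSN : W.S ⊆ NP := by rw [hS]; decide
  refine ⟨hC1, ?_, ?_, ?_, ?_⟩
  · refine cf_ok h (by decide) ?_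
    filter_upwards [ht] with n hn
    rw [hn]; simp
  · intro ε hε
    filter_upwards [hE, ev_const_le W.B' hε (2 * MW W)] with n hn h1 k hk k' hk'
    obtain ⟨g, hsub, heq⟩ := hn
    rw [heq] at hk hk' ⊢
    refine (abs_sub _ _).trans (le_trans ?_ h1)
    have := z_le h g hsub hk
    have := z_le h g hsub hk'
    linarith
  · intro ε hε
    filter_upwards [hE, narrow_two h H hp hε,
      ev_const_le W.B' hε (67 * (CfW W * (MW W ^ 6 * MW W)))] with n hn hnar hk k i l l' hi hl1 hl2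
      h1 h2
    obtain ⟨g, hsub, heq⟩ := hn
    obtain ⟨n1, n2⟩ := hnar k i l l' hi hl1 hl2 h1 h2
    rw [heq] at hi hl1 hl2 n1 n2 ⊢
    have hpos : ∀ t : ℝ, 0 < W.B'.d n ^ t := fun t => Real.rpow_pos_of_pos (W.B'.pos n) _
    have anti : ∀ {s t : ℝ}, s ≤ t → W.B'.d n ^ t ≤ W.B'.d n ^ s := fun hst =>
      Real.rpow_le_rpow_of_exponent_ge (W.B'.pos n) (W.B'.lt n).le hst
    have hDε : 0 ≤ D ^ 2 * ε := by positivity
    have a2 := (hpos (x - D ^ 2 * ε)).le
    have a3 : W.B'.d n ^ (x - D ^ 2 * ε) ≤ MW W * W.B'.d n ^ (x - D ^ 2 * ε) := by nlinarith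
    have hfin : 67 * (CfW W * (MW W ^ 6 * (MW W * W.B'.d n ^ (x - D ^ 2 * ε)))) ≤
        W.B'.d n ^ (x - (D ^ 2 + 2) * ε) := by
      have := mul_le_mul_of_nonneg_right hk (hpos (x - D ^ 2 * ε)).le
      rw [← Real.rpow_add (W.B'.pos n)] at this
      have e1 : W.B'.d n ^ (-ε + (x - D ^ 2 * ε)) ≤ W.B'.d n ^ (x - (D ^ 2 + 2) * ε) :=
        anti (by linarith)
      refine le_trans (le_of_eq ?_) (this.trans e1)
      ring
    have key := fun (q : Fin 14) (hq : Fin.natAdd 4 q ∉ W.S) =>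
      comp_live h g hsub hi hl1 hl2 (q := q) hq hSN (t := x)
      (η := MW W * W.B'.d n ^ (x - D ^ 2 * ε)) (fun s _ => htop s)
      (mul_le_mul_of_nonneg_left (anti (by linarith)) (by linarith))
      (fun s hs hsS => (n1 s).trans ((le_of_eq (by rw [hpN s hs])).trans a3))
      (fun s hs hsS => (n2 s).trans ((le_of_eq (by rw [hpN s hs])).trans a3))
    have k13 := key 13 n17
    have k12 := key 12 n16
    rw [live_NP, List.map_nil, List.sum_nil, sub_zero] at k13 k12
    exact ⟨k13.trans hfin, k12.trans hfin⟩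
  · intro ε hε
    set C0 : ℝ := 1 + CfW W * MW W with hC0
    have hC01 : 1 ≤ C0 := by
      have : 0 ≤ CfW W * MW W := mul_nonneg (by linarith) (by linarith)
      linarith
    filter_upwards [hE, ev_const_le W.B' hε (MW W),
      const_pow h (1 + CX W * (1 + C0)) hε (x - ε),
      const_pow h (1 + C0 + CW W.K0 / W.kap 1) hε (x - ε),
      const_pow h (1 + C0 + CW W.K0 / W.kap 2) hε (x - ε),
      const_pow h (CX W * (1 + C0) + CfW W * (2 * W.K0 / W.kap 0 * MW W)) hε (x - ε)]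
      with n hn h1 h2 h3 h4 h5 k k' i l hi hi' hl hl' hlo
    obtain ⟨g, hsub, heq⟩ := hn
    rw [heq] at hi hi' hl hl' hlo ⊢
    have hρ : (W.cfg0 n (E n)).ρ = W.B'.d n := rfl
    have hpos : ∀ t : ℝ, 0 < W.B'.d n ^ t := fun t => Real.rpow_pos_of_pos (W.B'.pos n) _
    have anti : ∀ {s t : ℝ}, s ≤ t → W.B'.d n ^ t ≤ W.B'.d n ^ s := fun hst =>
      Real.rpow_le_rpow_of_exponent_ge (W.B'.pos n) (W.B'.lt n).le hst
    have hx1 : W.B'.d n ^ x ≤ W.B'.d n ^ (x - ε) := anti (by linarith)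
    have hδ0 := (hpos (x - ε)).le
    have hb : ∀ s, s ∈ NP → |(W.cfg0 n (E n)).rel k i l s| ≤ W.B'.d n ^ (x - ε) := by
      intro s hs
      have := hlo s
      rwa [hpN s hs] at this
    have hfin : W.B'.d n ^ (x - ε - ε) ≤ W.B'.d n ^ (x - (D ^ 2 + 2) * ε) :=
      anti (by nlinarith [mul_nonneg (sq_nonneg D) hε.le])
    have hrow := fun (q : Fin 14) (hq : Fin.natAdd 4 q ∉ W.S) =>
      row_dead h g hsub hi hi' hl hl' hS htop hδ0 hb (q := q) hq
    have hCXb : CX W * (W.B'.d n ^ x + C0 * W.B'.d n ^ (x - ε)) ≤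
        CX W * (1 + C0) * W.B'.d n ^ (x - ε) := by
      have := mul_le_mul_of_nonneg_left (add_le_add_left hx1 (C0 * W.B'.d n ^ (x - ε))) hCX
      linarith
    constructor
    · intro s
      rw [hρ]
      by_cases hsN : s ∈ NP
      · rw [hpN s hsN]
        refine le_trans ?_ hfin
        by_cases hsS : s ∈ W.S
        · have : (W.cfg0 n (E n)).rel k' i l s = 0 := if_pos hsS
          rw [this, abs_zero]
          exact (hpos _).le
        have hK := (CW_pos h.ok.K0_one).le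
        have hcase : s = 1 ∨ s = 2 ∨ ∃ q : Fin 14, q ≠ 13 ∧ s = Fin.natAdd 4 q := by
          have hs0 : s ≠ 0 := by rintro rfl; exact hsS h.h0
          clear hsS
          revert hs0; revert hsN; revert s; decide
        rcases hcase with rfl | rfl | ⟨q, hq13, rfl⟩
        · have e1 := h.evo_cfg g hsub hi hi' hl hl' htop 1 h.n1
          rw [h.evoC1] at e1
          have b1 := hb 1 hsN
          have e2 : (W.cfg0 n (E n)).rel k' i l 1 = ((W.cfg0 n (E n)).rel k' i l 1 -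
              (W.cfg0 n (E n)).rel k i l 1) + (W.cfg0 n (E n)).rel k i l 1 := by ring
          rw [e2]
          refine (abs_add_le _ _).trans ((add_le_add e1 b1).trans (le_trans ?_ h3))
          have k1 := h.ok.kap 1
          have e3 : CW W.K0 * W.B'.d n ^ x / W.kap 1 ≤ CW W.K0 / W.kap 1 * W.B'.d n ^ (x - ε) := by
            rw [mul_div_right_comm]
            exact mul_le_mul_of_nonneg_left hx1 (by positivity)
          have e4 : 0 ≤ C0 * W.B'.d n ^ (x - ε) := by positivity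
          nlinarith
        · have e1 := h.evo_cfg g hsub hi hi' hl hl' htop 2 h.n2
          rw [h.evoC2] at e1
          have b1 := hb 1 (by decide)
          have b2 := hb 2 hsN
          have o0 := own_MW' h g hsub hi hi' 0
          have c0 := (h.cfl_pos n [1, 0] 2).le
          have h3' : |cfl W lam n [1, 0] 2 * (ownC W n i k k' 0 *
              (W.cfg0 n (E n)).rel k i l 1)| ≤ CfW W * (MW W * W.B'.d n ^ (x - ε)) := by
            rw [abs_mul, abs_mul, abs_of_nonneg c0]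
            exact mul_le_mul (cfl2_CfW h g) (mul_le_mul o0 b1 (abs_nonneg _) (by linarith))
              (mul_nonneg (abs_nonneg _) (abs_nonneg _)) (by linarith)
          have e2 : (W.cfg0 n (E n)).rel k' i l 2 = ((W.cfg0 n (E n)).rel k' i l 2 -
              ((W.cfg0 n (E n)).rel k i l 2 + cfl W lam n [1, 0] 2 * (ownC W n i k k' 0 *
              (W.cfg0 n (E n)).rel k i l 1))) + ((W.cfg0 n (E n)).rel k i l 2 +
              cfl W lam n [1, 0] 2 * (ownC W n i k k' 0 *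
              (W.cfg0 n (E n)).rel k i l 1)) := by ring
          rw [e2]
          refine (abs_add_le _ _).trans ((add_le_add e1 ((abs_add_le _ _).trans
            (add_le_add b2 h3'))).trans (le_trans ?_ h4))
          have k1 := h.ok.kap 2
          have e3 : CW W.K0 * W.B'.d n ^ x / W.kap 2 ≤ CW W.K0 / W.kap 2 * W.B'.d n ^ (x - ε) := by
            rw [mul_div_right_comm]
            exact mul_le_mul_of_nonneg_left hx1 (by positivity)
          have e4 : (1 + C0 + CW W.K0 / W.kap 2) * W.B'.d n ^ (x - ε) =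
            W.B'.d n ^ (x - ε) + C0 * W.B'.d n ^ (x - ε) +
              CW W.K0 / W.kap 2 * W.B'.d n ^ (x - ε) := by ring
          have e5 : C0 * W.B'.d n ^ (x - ε) = W.B'.d n ^ (x - ε) +
              CfW W * (MW W * W.B'.d n ^ (x - ε)) := by rw [hC0]; ring
          linarith
        · have e1 := hrow q hsS
          rw [live_NP1 q hq13, List.map_nil, List.sum_nil, add_zero] at e1
          have b1 := hb _ hsN
          have e2 : (W.cfg0 n (E n)).rel k' i l (Fin.natAdd 4 q) =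
              ((W.cfg0 n (E n)).rel k' i l (Fin.natAdd 4 q) -
              (W.cfg0 n (E n)).rel k i l (Fin.natAdd 4 q)) +
              (W.cfg0 n (E n)).rel k i l (Fin.natAdd 4 q) := by ring
          rw [e2]
          refine (abs_add_le _ _).trans ((add_le_add (e1.trans hCXb) b1).trans (le_trans
            (le_of_eq ?_) h2))
          ring
      · rw [hpC s hsN]
        refine (rel_MW' h g hsub hi' hl' s).trans (h1.trans (anti ?_))
        nlinarith [mul_nonneg (sq_nonneg D) hε.le]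
    · have e1 := hrow 13 n17
      rw [live_NP1N] at e1
      have e2 : ((([⟨1, 0, [0], 12⟩] : List Tm).map (tmN W κ lam n 13 (offV W.S
          ((W.cfg0 n (E n)).rel k i l)) (shF (ownC W n i k k')))).sum) =
          cfl W lam n [0, 16] 17 * (ownC W n i k k' 0 * (W.cfg0 n (E n)).rel k i l 16) := by
        have e3 : offV W.S ((W.cfg0 n (E n)).rel k i l) 16 = (W.cfg0 n (E n)).rel k i l 16 :=
          if_neg n16
        simp only [List.map_cons, List.map_nil, List.sum_cons, List.sum_nil, add_zero, tmN]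
        have e4 : offV W.S ((W.cfg0 n (E n)).rel k i l) (Fin.natAdd 4 (12 : Fin 14)) =
          (W.cfg0 n (E n)).rel k i l 16 := e3
        have e5 : shF (ownC W n i k k') (Fin.castAdd 14 (0 : Fin 4)) = ownC W n i k k' 0 := rfl
        rw [e4, List.prod_cons, List.prod_nil, e5]
        have e6 : cfl W lam n (Tm.idx ⟨1, 0, [0], 12⟩) (Fin.natAdd 4 (13 : Fin 14)) =
          cfl W lam n [0, 16] 17 := rfl
        rw [e6]
        norm_num
      rw [e2] at e1
      have e3 := h.own_zero g hsub hi hi' (htop 0)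
      have e4 := rel_MW' h g hsub hi hl 16
      have e5 : cfl W lam n [0, 16] 17 ≤ CfW W :=
        cfl_CfW h g (q := 13) (t := ⟨1, 0, [0], 12⟩) (by decide)
      have e6 := (h.cfl_pos n [0, 16] 17).le
      have hK := h.ok.K0_one
      have hk0 := h.ok.kap 0
      have e7 : |cfl W lam n [0, 16] 17 * ((ownC W n i k k' 0 -
          ((W.cfg0 n (E n)).z k' - (W.cfg0 n (E n)).z k)) * (W.cfg0 n (E n)).rel k i l 16)| ≤
          CfW W * (2 * W.K0 * W.B'.d n ^ x / W.kap 0 * MW W) := by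
        rw [abs_mul, abs_mul, abs_of_nonneg e6]
        exact mul_le_mul e5 (mul_le_mul e3 e4 (abs_nonneg _) (div_nonneg (mul_nonneg
          (mul_nonneg zero_le_two (by linarith)) (hpos x).le) hk0.le))
          (mul_nonneg (abs_nonneg _) (abs_nonneg _)) (by linarith)
      have e8 : (W.cfg0 n (E n)).rel k' i l 17 - (W.cfg0 n (E n)).rel k i l 17 -
          cfl W lam n [0, 16] 17 * ((W.cfg0 n (E n)).z k' - (W.cfg0 n (E n)).z k) *
            (W.cfg0 n (E n)).rel k i l 16 =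
          ((W.cfg0 n (E n)).rel k' i l 17 - ((W.cfg0 n (E n)).rel k i l 17 +
            cfl W lam n [0, 16] 17 * (ownC W n i k k' 0 * (W.cfg0 n (E n)).rel k i l 16))) +
          cfl W lam n [0, 16] 17 * ((ownC W n i k k' 0 -
          ((W.cfg0 n (E n)).z k' - (W.cfg0 n (E n)).z k)) * (W.cfg0 n (E n)).rel k i l 16) := by
        ring
      rw [e8]
      refine (abs_add_le _ _).trans ((add_le_add (e1.trans hCXb) e7).trans (le_trans ?_
        (h5.trans hfin)))
      have e9 : CfW W * (2 * W.K0 * W.B'.d n ^ x / W.kap 0 * MW W) ≤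
          CfW W * (2 * W.K0 / W.kap 0 * MW W) * W.B'.d n ^ (x - ε) := by
        have e10 : CfW W * (2 * W.K0 * W.B'.d n ^ x / W.kap 0 * MW W) =
          CfW W * (2 * W.K0 / W.kap 0 * MW W) * W.B'.d n ^ x := by ring
        rw [e10]
        refine mul_le_mul_of_nonneg_left hx1 ?_
        exact mul_nonneg (by linarith) (mul_nonneg (div_nonneg (mul_nonneg zero_le_two
          (by linarith)) hk0.le) (by linarith))
      rw [add_mul]
      linarith

end win

end Crest.Agent.R136.DLow619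
end

-- ▼ part R136/DLw2_619

/-!
# R136: `deadlow`, part 2 (helper619): consequences in the window

* `freeP`  : `N` not full ⊢ `P` costs nothing (`B` coarse), level slots `z, 15`.
* `free15` : `N` not full ⊢ `15` costs nothing (`B` coarse), level slots `z, 14`.
* `raw_pairs` : raw twist of one slot, pairs of heights; `twPI`, `twCI` : multipliers of the rows.
* `rowI`, `rowII` : `c` costs at most `P`, `15`.
-/

set_option autoImplicit false
set_option linter.unusedSectionVars false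
set_option linter.unusedVariables false

open Filter Topology

namespace Crest.Agent.R136.DLow619

open Finset Crest.Agent.R136.NetW191 Crest.Agent.R136.Net191 Crest.Agent.R136.Qg926
open Crest.Agent.R136.EvW938 Crest.Agent.R136.RowW619 Crest.Agent.R136.Lf400
open Crest.Agent.R136.LfW619 Crest.Agent.R136.Ht887 Crest.Agent.R136.BaseW619
open Crest.Agent.R136.TrI938 Crest.Agent.R136.Vw848
open Crest.Agent.R136.Aw413 (RawL)
open Crest.Agent.R138.Ex926 (Base U)
open Crest.Agent.R136.Gf356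

variable {ι : ℕ → Type*} [∀ n, DecidableEq (ι n)] {W : Wnd 18 ι} {κ : ℕ → ℝ}
  {lam : ℕ → Fin 18 → ℝ} {f : ∀ n, ι n → FW}

/-- **raw twist of one slot, pairs of heights** -/
theorem raw_pairs {E : ∀ n, Finset (ι n)} {v : Fin 18} (hR : RawL W E v) :
    ∀ ε : ℝ, 0 < ε → ∀ᶠ n in (U : Filter ℕ), ∀ i ∈ (W.cfg E n).L,
      ∃ T ⊆ ((W.cfg E n).hts i) ×ˢ ((W.cfg E n).hts i),
        (∀ q ∈ T, W.B'.d n ^ ε < |ownC W n i q.1 q.2 v|) ∧
        1 / 2 * (((W.cfg E n).hts i).card : ℝ) ^ 2 ≤ (T.card : ℝ) := by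
  classical
  intro ε hε
  filter_upwards [hR ε hε (1 / 2) (by norm_num)] with n hn i hi
  set Hs := (W.cfg E n).hts i with hHs
  refine ⟨(Hs ×ˢ Hs).filter fun q => W.B'.d n ^ ε < |ownC W n i q.1 q.2 v|,
    Finset.filter_subset _ _, fun q hq => (Finset.mem_filter.1 hq).2, ?_⟩
  have h1 : (((Hs ×ˢ Hs).filter fun q => ¬ W.B'.d n ^ ε < |ownC W n i q.1 q.2 v|).card : ℝ) ≤
      1 / 2 * (Hs.card : ℝ) ^ 2 := by
    have e1 : ((Hs ×ˢ Hs).filter fun q => ¬ W.B'.d n ^ ε < |ownC W n i q.1 q.2 v|).card =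
        ∑ k ∈ Hs, (Hs.filter fun k' => ¬ W.B'.d n ^ ε < |ownC W n i k k' v|).card := by
      rw [Finset.card_eq_sum_card_fiberwise (f := Prod.fst) (t := Hs) (fun q hq => by
        have := (Finset.mem_filter.1 hq).1
        exact (Finset.mem_product.1 this).1)]
      refine Finset.sum_congr rfl fun k hk => ?_
      refine Finset.card_bij (fun q _ => q.2) ?_ ?_ ?_
      · intro q hq
        obtain ⟨a1, a2⟩ := Finset.mem_filter.1 hq
        obtain ⟨a3, a4⟩ := Finset.mem_filter.1 a1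
        rw [← a2]
        exact Finset.mem_filter.2 ⟨(Finset.mem_product.1 a3).2, a4⟩
      · intro q hq q' hq' heq
        have a2 := (Finset.mem_filter.1 hq).2
        have a2' := (Finset.mem_filter.1 hq').2
        exact Prod.ext (a2.trans a2'.symm) heq
      · intro k' hk'
        obtain ⟨a1, a2⟩ := Finset.mem_filter.1 hk'
        exact ⟨(k, k'), Finset.mem_filter.2 ⟨Finset.mem_filter.2
          ⟨Finset.mem_product.2 ⟨hk, a1⟩, a2⟩, rfl⟩, rfl⟩
    rw [e1]
    push_cast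
    calc ∑ k ∈ Hs, ((Hs.filter fun k' => ¬ W.B'.d n ^ ε < |ownC W n i k k' v|).card : ℝ)
        ≤ ∑ _k ∈ Hs, 1 / 2 * (Hs.card : ℝ) := by
          refine Finset.sum_le_sum fun k hk => ?_
          have := hn i hi k hk
          refine le_trans (le_of_eq ?_) this
          congr 2
          ext k'
          simp only [Finset.mem_filter, not_lt]
          rfl
      _ = 1 / 2 * (Hs.card : ℝ) ^ 2 := by
          rw [Finset.sum_const, nsmul_eq_mul]; ring
  have h2 := Finset.card_filter_add_card_filter_not (s := Hs ×ˢ Hs)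
    fun q => W.B'.d n ^ ε < |ownC W n i q.1 q.2 v|
  rw [Finset.card_product] at h2
  have h3 : ((((Hs ×ˢ Hs).filter fun q => W.B'.d n ^ ε < |ownC W n i q.1 q.2 v|).card : ℝ) +
      (((Hs ×ˢ Hs).filter fun q => ¬ W.B'.d n ^ ε < |ownC W n i q.1 q.2 v|).card : ℝ)) =
      (Hs.card : ℝ) * Hs.card := by exact_mod_cast h2
  nlinarith

section win

variable (h : WWnd W κ lam f)

include h

/-- **`P` costs nothing** if `N` is not full -/
theorem freeP {E : ∀ n, Finset (ι n)} (hE : EvG W E) {Leg : Set (Fin 18 → ℝ)}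
    {ν : (Fin 18 → ℝ) → ℝ} {R D : ℝ} (H : RModel W.B' (W.cfg E) 1 R Leg ν D)
    (hS : W.S = {0, 15}) {x j : ℝ} (hx : 0 < x) (hxR : x ≤ R) (hj : 0 ≤ j) (hjx : j ≤ x)
    (htop : ∀ s, x ≤ W.top s)
    (ht : ∀ᶠ n in (U : Filter ℕ), W.X n 17 = W.X n 0 + W.X n 16)
    (hdx : ∀ t : ℝ, 0 ≤ t → t ≤ x → b2 (bB x) 16 17 t x ∈ Leg)
    (hdiag : ∀ t : ℝ, 0 ≤ t → t ≤ x → b2 (bB x) 16 17 t t ∈ Leg)
    (hN : ν (b2 (bB x) 16 17 0 0) - ν (b2 (bB x) 16 17 0 x) < x - j) :
    ν (b2 (bB x) 16 17 0 x) ≤ ν (b2 (bB x) 16 17 j x) := by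
  by_contra hcon
  push Not at hcon
  have := height_pos_R H (bB x) (by decide) hx hxR hj hjx hdx hdiag
    (htP h hE H.toRUnif hS hx.le htop ht (hdiag 0 le_rfl hx.le)) hcon
  linarith

/-- narrow slots of the leaf `A → N` with the flag `15` -/
def N15 : Finset (Fin 18) := univ.filter fun s => s ≠ 2 ∧ s ≠ 3 ∧ s ≠ 15 ∧ s ≠ 17


/-- **`15` costs nothing** if `N` is not full, `A` full -/
theorem free15 {E : ∀ n, Finset (ι n)} (hE : EvG W E) {Leg : Set (Fin 18 → ℝ)}
    {ν : (Fin 18 → ℝ) → ℝ} {D : ℝ} (H : RUnif W.B' (W.cfg E) Leg ν D)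
    (hS : W.S = {0, 14}) {x j : ℝ} (hj : 0 ≤ j) (hjx : j ≤ x) (htop : ∀ s, x ≤ W.top s)
    (ht : ∀ᶠ n in (U : Filter ℕ), W.X n 17 = W.X n 2 + W.X n 15)
    (hl : LeafLeg Leg (bB x) 2 15 17 x j)
    (hXf : x ≤ ν (bx (bB x) 2 15 17 0 x x) - ν (bx (bB x) 2 15 17 x x x))
    (hN : ν (bx (bB x) 2 15 17 0 0 0) - ν (bx (bB x) 2 15 17 x 0 x) < 2 * x - j) :
    ν (bx (bB x) 2 15 17 x 0 x) ≤ ν (bx (bB x) 2 15 17 x j x) := by
  by_contra hcon
  push Not at hcon
  have hd : LeafDat W.S N15 2 11 13 1 0 := by rw [hS]; decide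
  have hcf := cLf_ok h hd (by norm_num) (fun h0 => absurd rfl h0) (by
    filter_upwards [ht] with n hn
    exact hn)
  have := leafW_loss2 h hE H hd (b := bB x) hj hjx (fun s _ => htop s) (fun s hs _ => by
    have h3 : s ≠ 3 := by rintro rfl; revert hs; decide
    unfold bB; rw [if_neg h3]) hcf hl hXf hcon
  have h2 : 2 * x - j ≤ ν (bx (bB x) 2 15 17 0 0 0) - ν (bx (bB x) 2 15 17 x 0 x) := this
  linarith

/-- raw twist of the multiplier `phiP` -/
theorem twPI {E : ∀ n, Finset (ι n)} (hE : EvG W E) (hR : RawL W E 15) {t : ℝ} (ht0 : 0 < t)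
    (ht : ∀ s, t ≤ W.top s)
    (htg : ∀ᶠ n in (U : Filter ℕ), W.X n 16 = W.X n 1 + W.X n 15) :
    RawTwI W.B' (W.cfg E) (phiP W lam) := by
  refine twP h hE ht0 ht fun ε hε => ?_
  have hcf := cf_ok h (l := [1, 15]) (s := 16) (by decide) (by
    filter_upwards [htg] with n hn
    rw [hn]; simp)
  filter_upwards [raw_pairs hR (ε / 2) (by positivity), hcf (ε / 2) (by positivity),
    ev_const_le W.B' hε 2] with n h1 h2 h3 i hi
  obtain ⟨T, hT1, hT2, hT3⟩ := h1 i hi
  have hpos : ∀ t : ℝ, 0 < W.B'.d n ^ t := fun t => Real.rpow_pos_of_pos (W.B'.pos n) _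
  refine ⟨T, hT1, fun q hq => Or.inl ?_, ?_⟩
  · have a1 := hT2 q hq
    have a2 := h2.1
    rw [abs_of_pos (h.cfl_pos n _ _)] at a2
    have e : W.B'.d n ^ ε = W.B'.d n ^ (ε / 2) * W.B'.d n ^ (ε / 2) := by
      rw [← Real.rpow_add (W.B'.pos n)]; congr 1; ring
    rw [e]
    calc W.B'.d n ^ (ε / 2) * W.B'.d n ^ (ε / 2) < W.B'.d n ^ (ε / 2) * |ownC W n i q.1 q.2 15| :=
          mul_lt_mul_of_pos_left a1 (hpos _)
      _ ≤ _ := mul_le_mul_of_nonneg_right a2 (abs_nonneg _)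
  · refine le_trans (mul_le_mul_of_nonneg_right ?_ (sq_nonneg _)) hT3
    have a3 : W.B'.d n ^ ε * W.B'.d n ^ (-ε) = 1 := by
      rw [← Real.rpow_add (W.B'.pos n), add_neg_cancel, Real.rpow_zero]
    have a4 := hpos ε
    nlinarith

/-- raw twist of the multiplier of the slot `15`, own rotation of weight `2` -/
theorem twCI {E : ∀ n, Finset (ι n)} (hE : EvG W E) (hS : W.S = {0, 14}) (hR : RawL W E 14)
    {t : ℝ} (ht0 : 0 < t) (ht : ∀ s, t ≤ W.top s)
    (hk : ∀ ε : ℝ, 0 < ε → ∀ᶠ n in (U : Filter ℕ), W.B'.d n ^ ε ≤ |κ n|)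
    (htg : ∀ᶠ n in (U : Filter ℕ), W.X n 15 = W.X n 1 + W.X n 14) :
    RawTwI W.B' (W.cfg E) fun n i k k' =>
      max |Vw848.phiC W κ lam 2 n i k k' 11| |Vw848.phiC W κ lam 2 n i k k' 11| := by
  intro ε0 hε0
  set ε := min ε0 (t / 2) with hεdef
  have hε : 0 < ε := lt_min hε0 (by linarith)
  have hεt : 2 * ε ≤ t := by
    have := min_le_right ε0 (t / 2); linarith
  have hcf := cf_ok h (l := [1, 14]) (s := 15) (by decide) (by
    filter_upwards [htg] with n hn
    rw [hn]; simp)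
  have hM := (MW_le h).1
  have hC := (CfW_le h).1
  have hK := h.ok.K0_one
  filter_upwards [hE, raw_pairs hR (ε / 4) (by positivity), hcf (ε / 4) (by positivity),
    hk (ε / 4) (by positivity), ev_const_le W.B' (show 0 < ε / 4 by positivity)
      (2 + 2 * (CfW W * CfW W * MW W * (W.K0 / W.kap 10)))] with n hn h1 h2 hkn h3 i hi
  obtain ⟨T, hT1, hT2, hT3⟩ := h1 i hi
  obtain ⟨g, hsub, heq⟩ := hn
  have hpos : ∀ t : ℝ, 0 < W.B'.d n ^ t := fun t => Real.rpow_pos_of_pos (W.B'.pos n) _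
  have anti : ∀ {s t : ℝ}, s ≤ t → W.B'.d n ^ t ≤ W.B'.d n ^ s := fun hst =>
    Real.rpow_le_rpow_of_exponent_ge (W.B'.pos n) (W.B'.lt n).le hst
  have hadd : ∀ s t : ℝ, W.B'.d n ^ s * W.B'.d n ^ t = W.B'.d n ^ (s + t) := fun s t =>
    (Real.rpow_add (W.B'.pos n) s t).symm
  have hCc : 0 ≤ 2 * (CfW W * CfW W * MW W * (W.K0 / W.kap 10)) := by
    have := h.ok.kap 10
    have : 0 ≤ W.K0 / W.kap 10 := div_nonneg (by linarith) this.le
    have : 0 ≤ CfW W := by linarith
    have : 0 ≤ MW W := by linarith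
    positivity
  have ha3 : W.B'.d n ^ (ε / 4) * W.B'.d n ^ (-(ε / 4)) = 1 := by
    rw [hadd, add_neg_cancel, Real.rpow_zero]
  have hsm : W.B'.d n ^ (ε / 4) ≤ 1 / 2 := by
    have a4 := hpos (ε / 4)
    nlinarith
  refine ⟨T, hT1, fun q hq => ?_, ?_⟩
  · have a1 := hT2 q hq
    have a2 := h2.1
    rw [abs_of_pos (h.cfl_pos n _ _)] at a2
    have hqm := Finset.mem_product.1 (hT1 hq)
    rw [heq] at hqm
    have hI1 : (i, q.1) ∈ (W.cfg0 n (E n)).I := (RCfg.mem_hts.1 hqm.1).2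
    have hI2 : (i, q.2) ∈ (W.cfg0 n (E n)).I := (RCfg.mem_hts.1 hqm.2).2
    obtain ⟨c1, c2, c3⟩ := Wnd.rep_of_mem hsub hI1
    obtain ⟨d1, d2, d3⟩ := Wnd.rep_of_mem hsub hI2
    have h10 : (10 : Fin 18) ∉ W.S := by rw [hS]; decide
    have o10 : |ownC W n i q.1 q.2 10| ≤ W.K0 / W.kap 10 * W.B'.d n ^ t := by
      refine (h.crd_own g c1 d1 (c2.trans d2.symm) h10 (ht 10)).trans (le_of_eq ?_)
      ring
    have o0 := own_MW' h g hsub hI1 hI2 0
    -- the multiplier
    have e1 : Vw848.phiC W κ lam 2 n i q.1 q.2 11 =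
        2 * κ n * cfl W lam n [1, 14] 15 * ownC W n i q.1 q.2 14 -
        2 * (cfl W lam n [1, 0] 2 * cfl W lam n [2, 10] 15) *
          (ownC W n i q.1 q.2 0 * ownC W n i q.1 q.2 10) := by
      have u0 := (h.un_pos n 0).ne'
      have u1 := (h.un_pos n 1).ne'
      have u2 := (h.un_pos n 2).ne'
      have u15 : un W lam n 15 ≠ 0 := (h.un_pos n 15).ne'
      unfold Vw848.phiC
      rw [row2a]
      have g1 : ownR W lam n i q.1 q.2 6 = un W lam n 10 * ownC W n i q.1 q.2 10 := rfl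
      have g2 : ownR W lam n i q.1 q.2 10 = un W lam n 14 * ownC W n i q.1 q.2 14 := rfl
      have g3 : un W lam n (Fin.natAdd 4 (11 : Fin 14)) = un W lam n 15 := rfl
      rw [g1, g2, g3]
      unfold cfl
      simp only [List.map_cons, List.map_nil, List.prod_cons, List.prod_nil, mul_one]
      field_simp
      ring
    have hcfa : cfl W lam n [1, 0] 2 ≤ CfW W := cfl2_CfW h g
    have hcfb : cfl W lam n [2, 10] 15 ≤ CfW W :=
      cfl_CfW h g (q := 11) (t := ⟨2, 0, [2], 6⟩) (by decide)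
    have p1 := (h.cfl_pos n [1, 0] 2).le
    have p2 := (h.cfl_pos n [2, 10] 15).le
    have hk0 : 0 ≤ W.K0 / W.kap 10 := div_nonneg (by linarith) (h.ok.kap 10).le
    have s2 : |2 * (cfl W lam n [1, 0] 2 * cfl W lam n [2, 10] 15) *
          (ownC W n i q.1 q.2 0 * ownC W n i q.1 q.2 10)| ≤
        2 * (CfW W * CfW W * MW W * (W.K0 / W.kap 10)) * W.B'.d n ^ t := by
      rw [abs_mul, abs_mul, abs_mul (ownC W n i q.1 q.2 0), abs_two, abs_of_nonneg
        (mul_nonneg p1 p2)]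
      calc 2 * (cfl W lam n [1, 0] 2 * cfl W lam n [2, 10] 15) *
          (|ownC W n i q.1 q.2 0| * |ownC W n i q.1 q.2 10|)
          ≤ 2 * (CfW W * CfW W) * (MW W * (W.K0 / W.kap 10 * W.B'.d n ^ t)) := by
            refine mul_le_mul (mul_le_mul_of_nonneg_left (mul_le_mul hcfa hcfb p2
              (by linarith)) zero_le_two) (mul_le_mul o0 o10 (abs_nonneg _) (by linarith))
              (mul_nonneg (abs_nonneg _) (abs_nonneg _)) ?_
            have : 0 ≤ CfW W := by linarith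
            positivity
        _ = _ := by ring
    have s1 : 2 * W.B'.d n ^ (ε / 4 + ε / 4 + ε / 4) ≤
        |2 * κ n * cfl W lam n [1, 14] 15 * ownC W n i q.1 q.2 14| := by
      rw [abs_mul, abs_mul, abs_mul, abs_two, abs_of_pos (h.cfl_pos n [1, 14] 15), ← hadd, ← hadd]
      calc 2 * (W.B'.d n ^ (ε / 4) * W.B'.d n ^ (ε / 4) * W.B'.d n ^ (ε / 4)) =
          2 * W.B'.d n ^ (ε / 4) * W.B'.d n ^ (ε / 4) * W.B'.d n ^ (ε / 4) := by ring
        _ ≤ 2 * |κ n| * cfl W lam n [1, 14] 15 * |ownC W n i q.1 q.2 14| := by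
            refine mul_le_mul (mul_le_mul (mul_le_mul_of_nonneg_left hkn zero_le_two) a2
              (hpos _).le (by positivity)) a1.le (hpos _).le ?_
            have := (h.cfl_pos n [1, 14] 15).le
            positivity
    have s3 : 2 * (CfW W * CfW W * MW W * (W.K0 / W.kap 10)) * W.B'.d n ^ t ≤
        W.B'.d n ^ (ε / 4 + ε / 4 + ε / 4) * (W.B'.d n ^ (ε / 4)) := by
      have b1 : W.B'.d n ^ t ≤ W.B'.d n ^ (ε / 4 + ε / 4 + ε / 4) * (W.B'.d n ^ (ε / 4) *
          W.B'.d n ^ (ε / 4)) := by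
        rw [hadd, hadd]
        exact anti (by linarith)
      have b2 : 2 * (CfW W * CfW W * MW W * (W.K0 / W.kap 10)) * W.B'.d n ^ (ε / 4) ≤ 1 := by
        have := hpos (ε / 4)
        nlinarith
      calc 2 * (CfW W * CfW W * MW W * (W.K0 / W.kap 10)) * W.B'.d n ^ t
          ≤ 2 * (CfW W * CfW W * MW W * (W.K0 / W.kap 10)) *
            (W.B'.d n ^ (ε / 4 + ε / 4 + ε / 4) * (W.B'.d n ^ (ε / 4) * W.B'.d n ^ (ε / 4))) :=
            mul_le_mul_of_nonneg_left b1 hCc
        _ = (2 * (CfW W * CfW W * MW W * (W.K0 / W.kap 10)) * W.B'.d n ^ (ε / 4)) *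
            (W.B'.d n ^ (ε / 4 + ε / 4 + ε / 4) * W.B'.d n ^ (ε / 4)) := by ring
        _ ≤ 1 * (W.B'.d n ^ (ε / 4 + ε / 4 + ε / 4) * W.B'.d n ^ (ε / 4)) :=
            mul_le_mul_of_nonneg_right b2 (mul_nonneg (hpos _).le (hpos _).le)
        _ = _ := one_mul _
    have hbig : W.B'.d n ^ ε0 < |Vw848.phiC W κ lam 2 n i q.1 q.2 11| := by
      have e2 : W.B'.d n ^ ε0 ≤ W.B'.d n ^ ε := anti (min_le_left _ _)
      have e3 : W.B'.d n ^ ε = W.B'.d n ^ (ε / 4 + ε / 4 + ε / 4) * W.B'.d n ^ (ε / 4) := by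
        rw [hadd]; congr 1; ring
      have e4 := abs_sub_abs_le_abs_sub (2 * κ n * cfl W lam n [1, 14] 15 * ownC W n i q.1 q.2 14)
        (2 * (cfl W lam n [1, 0] 2 * cfl W lam n [2, 10] 15) *
          (ownC W n i q.1 q.2 0 * ownC W n i q.1 q.2 10))
      rw [← e1] at e4
      have e5 := hpos (ε / 4 + ε / 4 + ε / 4)
      have e6 : W.B'.d n ^ (ε / 4 + ε / 4 + ε / 4) * W.B'.d n ^ (ε / 4) ≤
          1 / 2 * W.B'.d n ^ (ε / 4 + ε / 4 + ε / 4) := by nlinarith
      rw [e3] at e2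
      linarith
    rw [max_self, abs_abs]
    exact hbig
  · refine le_trans (mul_le_mul_of_nonneg_right ?_ (sq_nonneg _)) hT3
    have e2 : W.B'.d n ^ ε0 ≤ W.B'.d n ^ (ε / 4) := anti (by
      have := min_le_left ε0 (t / 2)
      linarith)
    linarith

/-- lateral slots of the rows -/
def pC (y : ℝ) : Fin 18 → ℝ := fun s => if s = 1 then 0 else y

/-- all flags narrow -/
def pTP (y : ℝ) : Fin 18 → ℝ := fun s =>
  if s = 1 ∨ s = 2 ∨ s = 3 ∨ s = 13 ∨ s = 16 ∨ s = 17 then 0 else y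

/-- all flags narrow, `P` narrow -/
def rTP (y : ℝ) : Fin 18 → ℝ := fun s =>
  if s = 1 ∨ s = 2 ∨ s = 3 ∨ s = 13 ∨ s = 17 then 0 else y

/-- **row (i)**: `c` costs at most `P` -/
theorem rowI {E : ∀ n, Finset (ι n)} (hE : EvG W E) {Leg : Set (Fin 18 → ℝ)}
    {ν : (Fin 18 → ℝ) → ℝ} {σ R D : ℝ} (H : RModel W.B' (W.cfg E) σ R Leg ν D) {y : ℝ}
    (hy : 0 < y) (hyt : ∀ s, y ≤ W.top s) (hS : W.S = {0, 15}) (hR : RawL W E 15)
    (htg : ∀ᶠ n in (U : Filter ℕ), W.X n 16 = W.X n 1 + W.X n 15)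
    (hp : pC y ∈ Leg) (hp' : (fun _ => y) ∈ Leg) (hpT : pTP y ∈ Leg) (hr : rTP y ∈ Leg) :
    ν (pC y) - ν (fun _ => y) ≤ ν (pTP y) - ν (rTP y) := by
  refine rowP_shift h hE H hyt (fun ε hε => Eventually.of_forall fun n i k k' _ _ s hs h0 h12 h15
    => ?_) (twPI h hE hR hy hyt htg) (pC y) (fun _ => y) (pTP y) (rTP y) hp hp' hpT hr
    (fun j => ?_) le_rfl (fun j hj => ?_) (fun s hs h1 => ?_) (fun s hs => ?_) (fun s hs => ?_) ?_
  · exfalso
    rw [hS] at hs
    simp only [Finset.mem_insert, Finset.mem_singleton] at hs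
    rcases hs with rfl | rfl
    · exact h0 rfl
    · exact h15 rfl
  · unfold pTP rTP
    split_ifs with h1 h2 h2
    · exact le_rfl
    · exact hy.le
    · exfalso; apply h1; tauto
    · exact le_rfl
  · unfold pC; rw [if_neg hj]
  · unfold pC; rw [if_neg h1]
  · unfold pTP; rw [if_pos hs]
  · unfold pTP; split_ifs
    · exact hy.le
    · exact le_rfl
  · unfold rTP; rw [if_neg (by decide)]

/-- flags of weight `≥ 2` narrow -/
def pTA (y : ℝ) : Fin 18 → ℝ := fun s =>
  if s = 0 ∨ s = 1 ∨ s = 2 ∨ s = 3 ∨ s = 12 ∨ s = 13 ∨ s = 15 ∨ s = 16 ∨ s = 17 then 0 else y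

/-- flags of weight `≥ 2` and `15` narrow -/
def rTA (y : ℝ) : Fin 18 → ℝ := fun s =>
  if s = 0 ∨ s = 1 ∨ s = 2 ∨ s = 3 ∨ s = 12 ∨ s = 13 ∨ s = 16 ∨ s = 17 then 0 else y

theorem rowII {E : ∀ n, Finset (ι n)} (hE : EvG W E) {Leg : Set (Fin 18 → ℝ)}
    {ν : (Fin 18 → ℝ) → ℝ} {σ R D : ℝ} (H : RModel W.B' (W.cfg E) σ R Leg ν D) {y : ℝ}
    (hy : 0 < y) (hyt : ∀ s, y ≤ W.top s) (hS : W.S = {0, 14}) (hR : RawL W E 14)
    (hk : ∀ ε : ℝ, 0 < ε → ∀ᶠ n in (U : Filter ℕ), W.B'.d n ^ ε ≤ |κ n|)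
    (htg : ∀ᶠ n in (U : Filter ℕ), W.X n 15 = W.X n 1 + W.X n 14)
    (hp : pC y ∈ Leg) (hp' : (fun _ => y) ∈ Leg) (hpT : pTA y ∈ Leg) (hr : rTA y ∈ Leg) :
    ν (pC y) - ν (fun _ => y) ≤ ν (pTA y) - ν (rTA y) := by
  have h15 : Fin.natAdd 4 (11 : Fin 14) ∉ W.S := by rw [hS]; decide
  refine rowC_shift h hE H hyt (w := 2) (by norm_num) (q1 := 11) (q2 := 11) rfl rfl h15 h15
    (fun ε hε => Eventually.of_forall fun n i k k' _ _ q hq hqw => ?_)
    (twCI h hE hS hR hy hyt hk htg) (pC y) (fun _ => y) (pTA y) (rTA y) hp hp' hpT hr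
    (fun j => ?_) le_rfl (fun j hj => ?_) (fun s hs h1 => ?_) (fun i => ?_) (fun q hq hqw => ?_)
    (fun s hs => ?_) ?_ ?_
  · exfalso
    rw [hS] at hq
    revert hqw; revert hq; revert q; decide
  · unfold pTA rTA
    split_ifs with h1 h2 h2
    · exact le_rfl
    · exact hy.le
    · exfalso; apply h1; tauto
    · exact le_rfl
  · unfold pC; rw [if_neg hj]
  · unfold pC; rw [if_neg h1]
  · unfold pTA
    have : ∀ i : Fin 4, (Fin.castAdd 14 i : Fin 18) = 0 ∨ (Fin.castAdd 14 i : Fin 18) = 1 ∨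
      (Fin.castAdd 14 i : Fin 18) = 2 ∨ (Fin.castAdd 14 i : Fin 18) = 3 ∨ False := by decide
    rw [if_pos]
    have := this i
    tauto
  · have h1 : (Fin.natAdd 4 q : Fin 18) = 12 ∨ (Fin.natAdd 4 q : Fin 18) = 13 ∨
        (Fin.natAdd 4 q : Fin 18) = 15 ∨ (Fin.natAdd 4 q : Fin 18) = 16 ∨
        (Fin.natAdd 4 q : Fin 18) = 17 := by
      clear hq
      revert hqw; revert q; decide
    unfold pTA
    rw [if_pos]
    tauto
  · unfold pTA; split_ifs
    · exact hy.le
    · exact le_rfl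
  · unfold rTA; rw [if_neg (by decide)]
  · unfold rTA; rw [if_neg (by decide)]

end win

end Crest.Agent.R136.DLow619
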