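import Mathlib
import Crest.Agent.R116.XcF_794

/-!
# R136 U4, pure penalty: X1-C chain with FULL own counts, part 1 (helper953)

Port of helper794's `R116/XcDef, Xc1, Xc2` to configurations with full own counts
(`2^((1-δ) M) ≤ nu`): then the own profile is `Λ = 0` and the gap is `D1 ≤ 2^((b+η) M) D0`.

* `UBF`, `RwdF` (parameter bound `Qm`), `ChsF`, `XOutF`;
* `cfg_lowF`, `low_seqF` : LOW (the density exponent is `∃ e > 0`).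
-/

set_option autoImplicit false
set_option linter.unusedSectionVars false

open Finset Filter Topology

namespace Crest.Agent.R136.Yc953

open Crest.Agent.R138.Ex926 Crest.Agent.R138.Dp76 Crest.Agent.R138.Ps627
open Crest.Agent.R138.Ps926 (dpow_small)
open Crest.Agent.R138.Mk163 (zc zl rho alive own)
open Crest.Agent.R138.MkRef627 (lc kc own_one alive_mono mem_alive card_class own_lower)
open Crest.Agent.R138.MkZoom779 (zc_nested)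
open Crest.Agent.R136.MkA627 (Geo MkA)
open Crest.Agent.R116.Xa794 (TS)
open Crest.Agent.R116.Xa2794 (lc_nested class_fib_ge class_fib_le)
open Crest.Agent.R116.Xa3794
open Crest.Agent.R116.Xc794 Crest.Agent.R116.Xc1794

variable {Ln ι S : Type} [Fintype ι]

/-- the zero own profile -/
def Zf : ℝ → ℝ := fun _ => 0

theorem Zf_apply (v : ℝ) : Zf v = 0 := rfl

/-- the gap of all FULL configurations with the reward `Ψ` is at most `b`. -/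
def UBF (𝒯 : Set (TS Ln ι S)) (Ψ : ℝ → (ι → ℝ) → ℝ) (b : ℝ) : Prop :=
  ∀ η : ℝ, 0 < η → ∃ δ : ℝ, 0 < δ ∧ ∃ M0 : ℕ, ∀ T ∈ 𝒯, ∀ F : Cfg Ln ι S, F.Ok T Ψ → M0 ≤ F.M →
    Real.log (F.I.card : ℝ) ≤ (2 : ℝ) ^ (δ * F.M) → (F.N : ℝ) ≤ (2 : ℝ) ^ (δ * F.M) →
    (2 : ℝ) ^ ((1 - δ) * F.M) ≤ F.nu →
      F.D1 ≤ (2 : ℝ) ^ ((b + η) * F.M) * F.D0


/-- properties of the reward family `P q len x` (`Rwd` of 794 with the parameter bound `Qm`). -/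
structure RwdF (P : ℝ → ℝ → (ι → ℝ) → ℝ) (ψ : ℝ → (ι → ℝ) → ℝ) (q0 Qm : ℝ) : Prop where
  q0pos : 0 < q0
  /-- one parameter -/
  aff : ∀ q l x, P q l x = P 0 l x + q * ψ l x
  le : ∀ l x, 0 ≤ l → ψ l x ≤ l
  hom : ∀ q c l x, 0 ≤ q → 0 ≤ c → 0 ≤ l → P q (c * l) (fun j => c * x j) = c * P q l x
  homψ : ∀ c l x, 0 ≤ c → 0 ≤ l → ψ (c * l) (fun j => c * x j) = c * ψ l x
  zero : ∀ q, P q 0 (fun _ => 0) = 0
  contψ : Continuous (fun z : ℝ × (ι → ℝ) => ψ z.1 z.2)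
  sup : ∀ q l l' x x', 0 ≤ q → 0 ≤ l → 0 ≤ l' → P q l x + P q l' x' ≤ P q (l + l') (fun j => x j + x' j)
  /-- coercivity : `ψ ≥ c l` bounds `x` -/
  coe : ∀ c : ℝ, 0 < c → ∃ R : ℝ, 0 < R ∧ ∀ l x, 0 ≤ l → c * l ≤ ψ l x → ∀ j, |x j| ≤ R * l
  /-- equality case with modulus (`x` bounded, `x'` arbitrary), uniform in the lengths -/
  eqc : ∀ l0 R ε : ℝ, 0 < l0 → 0 < ε → ∃ δ : ℝ, 0 < δ ∧ ∀ q l l' x x', q0 ≤ q → q ≤ Qm →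
    l0 ≤ l → l ≤ 2 → l0 ≤ l' → l' ≤ 2 → (∀ j, |x j| ≤ R) →
    P q (l + l') (fun j => x j + x' j) ≤ P q l x + P q l' x' + δ →
      ∀ j, |(x j + x' j) - (l + l') / l * x j| ≤ ε

/-- **the choice of the parameter**: `q` fixed, `β(q) = g`, drop rate `κ`. -/
structure ChsF (𝒯 : Set (TS Ln ι S)) (P : ℝ → ℝ → (ι → ℝ) → ℝ) (q0 Qm κ δ0 q g : ℝ) : Prop where
  κpos : 0 < κ
  δ0pos : 0 < δ0
  qlo : q0 ≤ q
  qhi : q + δ0 ≤ Qm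
  low : ∀ b : ℝ, b < g → ¬ UBF 𝒯 (P q) b
  ub : UBF 𝒯 (P q) g
  drop : ∀ δ : ℝ, 0 < δ → δ ≤ δ0 → UBF 𝒯 (P (q + δ)) (g - κ * δ)

/-- **the output with full own counts** (`Λ = 0`), true top, shapes `a n v` of the marks. -/
def XOutF (𝒯 : Set (TS Ln ι S)) (Ψ ψ : ℝ → (ι → ℝ) → ℝ) (κ g : ℝ) (θ : ι → ℝ) : Prop :=
  ∃ (B : Base) (I : ℕ → Finset (ℕ × ℝ)) (T : ℕ → TS Ln ι S) (L : ℕ → ℕ → Ln) (lev : ℕ → ℚ → ℕ)
    (A : ℕ → ℝ) (f : ℕ → ℚ → ℕ → ℤ → ℕ) (b : ℕ → ℚ → ℕ → (ι → ℕ) × S)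
    (vm : ℕ → ℚ → ℝ) (w : ι → ℕ → ℚ → ℝ) (atop : ℕ → ι → ℕ) (N : ℕ → ℕ) (a : ℕ → ℚ → ι → ℕ),
    (∀ n, T n ∈ 𝒯) ∧ (∀ n i J s, (T n).adm i J s → ∀ j, s.1 j ≤ N n) ∧
    (∀ ε : ℝ, 0 < ε → ∀ᶠ n in (U : Filter ℕ), (N n : ℝ) ≤ B.d n ^ (-ε)) ∧
    κ ≤ ψ 1 θ ∧
    MkA B I (geoP T Ψ (fun n => lev n 1) atop L)
      lev A (fun v => g * v) (fun v => 0 * v) (fun j v => θ j * (1 - v)) f b vm w ∧
    (∀ n, a n 1 = atop n) ∧ (∀ n v j, w j n v = (1 / 2 : ℝ) ^ (a n v j)) ∧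
    (∀ n v, vm n v = capP (T n) Ψ (lev n 1) (atop n) (lev n v) (a n v)) ∧
    (∀ v : ℚ, 0 ≤ v → v ≤ 1 → ∀ᶠ n in (U : Filter ℕ), ∃ (J : ℤ) (s : (ι → ℕ) × S),
      (T n).adm (lev n v) J s ∧ s.1 = a n v)


section

variable {B : Base} {I : ℕ → Finset (ℕ × ℝ)} {lev : ℕ → ℚ → ℕ}


end

end Crest.Agent.R136.Yc953
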