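import Mathlib
import Crest.Agent.R116.Rv1_883
import Crest.Agent.R136.Yc1_953

-- ▼ part R136/Pen2_325
section

/-!
# R136 (U4): choice of the parameter for the reward with penalty, abstract form (helper325)

* `exists_t` : a nondecreasing function on `[t0, t1]` with `h t1 - h t0 < K (t1 - t0)` has a point
  `t` with `h (t + δ) ≤ h t + K δ` for all small `δ ≥ 0` (elementary, no differentiation).
* `exists_q_pen` : the form for `β` with `β + id` nondecreasing: drop rate `1 - K`.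
* `exists_chsU` : `U q b` = "the gap with parameter `q` is at most `b`": `low`, `ub`, `drop`.
* `penW`, `penW_slope`, `penW_growth` : equal weights `w_j = ε / Q`: slopes within `ε`, growth
  within `card ε`.
* `PenP_slope`, `PenP_lip`.
-/

set_option autoImplicit false

open Finset

namespace Crest.Agent.R136.Pen325

open Crest.Agent.R116.Psi635




section

variable {ι : Type} [Fintype ι]






theorem nr_lip_x (l x x' : ℝ) : |nr l x' - nr l x| ≤ |x' - x| := by
  have h1 := nr_add l x 0 (x' - x)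
  have h2 := nr_add l x' 0 (x - x')
  have h3 := nr_le 0 (x' - x)
  have h4 := nr_le 0 (x - x')
  rw [abs_zero, zero_add] at h3 h4
  rw [show x + (x' - x) = x' by ring, add_zero] at h1
  rw [show x' + (x - x') = x by ring, add_zero] at h2
  rw [abs_sub_comm x x'] at h4
  rw [abs_le]
  constructor <;> linarith

theorem nr_lip_len (l l' x : ℝ) : |nr l' x - nr l x| ≤ |l' - l| := by
  have h1 := nr_add l x (l' - l) 0
  have h2 := nr_add l' x (l - l') 0
  have h3 := nr_le (l' - l) 0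
  have h4 := nr_le (l - l') 0
  rw [abs_zero, add_zero] at h3 h4
  rw [show l + (l' - l) = l' by ring, add_zero] at h1
  rw [show l' + (l - l') = l by ring, add_zero] at h2
  rw [abs_sub_comm l l'] at h4
  rw [abs_le]
  constructor <;> linarith




end

end Crest.Agent.R136.Pen325
end

-- ▼ part R136/Pen3_325

/-!
# R136 (U4): the general reward with penalty, `RwdF` instances (helper325)

`psiG s a b l x = s l + ∑ (a_j x_j - b_j (nr l x_j - l))`, `nr l x = √(l² + x²)`;
`RG s0 s p n a b q l x = psiG s0 p n l x + q * psiG s a b l x`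
`= (s0 + q s) l + ∑ ((p_j + q a_j) x_j - (n_j + q b_j) (nr l x_j - l))`.

* `rwdG` : `RwdF (RG ..) (psiG s a b) q0 Qm` for `0 ≤ n_j`, `|a_j| < b_j`, `psiG s a b ≤ l`;
* `psiG_le` : the last condition from `s + ∑ |a_j| ≤ 1`; `psiG_le'` : the sharp form;
* `linAtG`, `dlG_*`, `dwG_*` : linearisation and its bounds;
* `psiG_theta` : `κ ≤ psiG s a b 1 θ` bounds `θ`;
* `rwdPF` : the special case `PenP`.
-/

set_option autoImplicit false

open Finset

namespace Crest.Agent.R136.Pen325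

open Crest.Agent.R116.Psi635
open Crest.Agent.R116.Xu79 (brk)
open Crest.Agent.R116.Zl139 (LinAt)
open Crest.Agent.R116.Rv883 (dlen dwid linAt_Psi dlen_nonneg dlen_le dwid_ge dwid_le brl brx)
open Crest.Agent.R136.Yc953 (RwdF)

section

variable {ι : Type} [Fintype ι]

/-- the general concave homogeneous reward with separable penalty -/
noncomputable def psiG (s : ℝ) (a b : ι → ℝ) (l : ℝ) (x : ι → ℝ) : ℝ :=
  s * l + ∑ j, (a j * x j - b j * (nr l (x j) - l))

/-- the family of rewards with one parameter -/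
noncomputable def RG (s0 s : ℝ) (p n a b : ι → ℝ) (q l : ℝ) (x : ι → ℝ) : ℝ :=
  psiG s0 p n l x + q * psiG s a b l x

theorem RG_eq (s0 s : ℝ) (p n a b : ι → ℝ) (q l : ℝ) (x : ι → ℝ) :
    RG s0 s p n a b q l x =
      psiG (s0 + q * s) (fun j => p j + q * a j) (fun j => n j + q * b j) l x := by
  unfold RG psiG
  have e : ∑ j, ((p j + q * a j) * x j - (n j + q * b j) * (nr l (x j) - l)) =
      (∑ j, (p j * x j - n j * (nr l (x j) - l))) +
        q * ∑ j, (a j * x j - b j * (nr l (x j) - l)) := by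
    rw [Finset.mul_sum, ← Finset.sum_add_distrib]
    exact Finset.sum_congr rfl fun j _ => by ring
  rw [e]; ring

theorem psiG_Psi (s : ℝ) (a b : ι → ℝ) (l : ℝ) (x : ι → ℝ) :
    psiG s a b l x = s * l + Psi a b 1 1 l x := by
  unfold psiG Psi psi
  have e : ∑ j, (a j * x j - b j * (nr l (x j) - l)) =
      (∑ j, a j * x j) + ∑ j, b j * brk 1 l (x j) := by
    rw [← Finset.sum_add_distrib]
    refine Finset.sum_congr rfl fun j _ => ?_
    rw [brk_eq]; ring
  rw [e]; ring



/-! ### elementary facts -/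

theorem N_nonneg {l x : ℝ} : 0 ≤ nr l x - l := by
  have h1 := le_nr_l l x
  have h2 := le_abs_self l
  linarith

theorem psiG_term {l x a b : ℝ} :
    a * x - b * (nr l x - l) ≤ |a| * l - (b - |a|) * (nr l x - l) := by
  have h1 : a * x ≤ |a| * nr l x := by
    calc a * x ≤ |a * x| := le_abs_self _
      _ = |a| * |x| := abs_mul _ _
      _ ≤ |a| * nr l x := mul_le_mul_of_nonneg_left (le_nr_x l x) (abs_nonneg a)
  nlinarith

theorem psiG_bound (s : ℝ) (a b : ι → ℝ) (l : ℝ) (x : ι → ℝ) :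
    psiG s a b l x ≤ (s + ∑ j, |a j|) * l - ∑ j, (b j - |a j|) * (nr l (x j) - l) := by
  unfold psiG
  have h : ∑ j, (a j * x j - b j * (nr l (x j) - l)) ≤
      ∑ j, (|a j| * l - (b j - |a j|) * (nr l (x j) - l)) :=
    Finset.sum_le_sum fun j _ => psiG_term
  have e : ∑ j, (|a j| * l - (b j - |a j|) * (nr l (x j) - l)) =
      (∑ j, |a j|) * l - ∑ j, (b j - |a j|) * (nr l (x j) - l) := by
    rw [Finset.sum_sub_distrib, ← Finset.sum_mul]
  rw [e] at h
  linarith




theorem psiG_hom (s : ℝ) (a b : ι → ℝ) {c : ℝ} (hc : 0 ≤ c) (l : ℝ) (x : ι → ℝ) :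
    psiG s a b (c * l) (fun j => c * x j) = c * psiG s a b l x := by
  unfold psiG
  rw [mul_add, Finset.mul_sum]
  congr 1
  · ring
  · refine Finset.sum_congr rfl fun j _ => ?_
    rw [nr_hom hc]; ring

theorem psiG_zero (s : ℝ) (a b : ι → ℝ) : psiG s a b 0 (fun _ => 0) = 0 := by
  have h := psiG_hom s a b le_rfl 0 (fun _ => (0 : ℝ))
  simpa using h

theorem psiG_sup (s : ℝ) (a : ι → ℝ) {b : ι → ℝ} (hb : ∀ j, 0 ≤ b j) (l l' : ℝ) (x x' : ι → ℝ) :
    psiG s a b l x + psiG s a b l' x' ≤ psiG s a b (l + l') (fun j => x j + x' j) := by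
  unfold psiG
  have h : (∑ j, (a j * x j - b j * (nr l (x j) - l))) +
      ∑ j, (a j * x' j - b j * (nr l' (x' j) - l')) ≤
      ∑ j, (a j * (x j + x' j) - b j * (nr (l + l') (x j + x' j) - (l + l'))) := by
    rw [← Finset.sum_add_distrib]
    refine Finset.sum_le_sum fun j _ => ?_
    have h1 := nr_add l (x j) l' (x' j)
    nlinarith [hb j, mul_le_mul_of_nonneg_left h1 (hb j)]
  linarith

theorem nr_cont : Continuous (fun z : ℝ × ℝ => nr z.1 z.2) := by
  unfold nr; fun_prop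

theorem psiG_cont (s : ℝ) (a b : ι → ℝ) :
    Continuous (fun z : ℝ × (ι → ℝ) => psiG s a b z.1 z.2) := by
  unfold psiG
  refine (continuous_const.mul continuous_fst).add (continuous_finsetSum _ fun j _ => ?_)
  have h1 : Continuous (fun z : ℝ × (ι → ℝ) => nr z.1 (z.2 j)) :=
    nr_cont.comp (continuous_fst.prodMk ((continuous_apply j).comp continuous_snd))
  exact (continuous_const.mul ((continuous_apply j).comp continuous_snd)).sub
    (continuous_const.mul (h1.sub continuous_fst))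

/-- `ψ ≥ c l` bounds every exponent -/
theorem psiG_abs {s : ℝ} {a b : ι → ℝ} (hab : ∀ j, |a j| < b j) {c l : ℝ} {x : ι → ℝ}
    (h : c ≤ psiG s a b l x) (j : ι) :
    |x j| ≤ l + ((s + ∑ i, |a i|) * l - c) / (b j - |a j|) := by
  have hj : 0 < b j - |a j| := by have := hab j; linarith
  have h1 := psiG_bound s a b l x
  have h2 : (b j - |a j|) * (nr l (x j) - l) ≤ ∑ i, (b i - |a i|) * (nr l (x i) - l) :=
    Finset.single_le_sum (f := fun i => (b i - |a i|) * (nr l (x i) - l))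
      (fun i _ => mul_nonneg (by have := hab i; linarith) N_nonneg) (Finset.mem_univ j)
  have h3 : nr l (x j) - l ≤ ((s + ∑ i, |a i|) * l - c) / (b j - |a j|) := by
    rw [le_div_iff₀ hj]; linarith
  have h4 := le_nr_x l (x j)
  linarith


theorem psiG_coe {s : ℝ} {a b : ι → ℝ} (hab : ∀ j, |a j| < b j) {c : ℝ} (hc : 0 < c) :
    ∃ R : ℝ, 0 < R ∧ ∀ l (x : ι → ℝ), 0 ≤ l → c * l ≤ psiG s a b l x → ∀ j, |x j| ≤ R * l := by
  refine ⟨1 + ∑ j, abs (s + ∑ i, |a i|) / (b j - |a j|), ?_, ?_⟩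
  · have : 0 ≤ ∑ j, abs (s + ∑ i, |a i|) / (b j - |a j|) := Finset.sum_nonneg fun j _ => by
      have := hab j
      exact div_nonneg (abs_nonneg _) (by linarith)
    linarith
  · intro l x hl hx j
    have h1 := psiG_abs hab hx j
    have hj : 0 < b j - |a j| := by have := hab j; linarith
    have h2 : ((s + ∑ i, |a i|) * l - c * l) / (b j - |a j|) ≤
        abs (s + ∑ i, |a i|) / (b j - |a j|) * l := by
      rw [div_mul_eq_mul_div]
      refine div_le_div_of_nonneg_right ?_ hj.le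
      have h3 : (s + ∑ i, |a i|) * l ≤ abs (s + ∑ i, |a i|) * l :=
        mul_le_mul_of_nonneg_right (le_abs_self _) hl
      have : 0 ≤ c * l := by positivity
      linarith
    have h3 : abs (s + ∑ i, |a i|) / (b j - |a j|) ≤ ∑ j, abs (s + ∑ i, |a i|) / (b j - |a j|) :=
      Finset.single_le_sum (f := fun j => abs (s + ∑ i, |a i|) / (b j - |a j|))
        (fun i _ => div_nonneg (abs_nonneg _) (by have := hab i; linarith)) (Finset.mem_univ j)
    have h4 := mul_le_mul_of_nonneg_right h3 hl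
    linarith

/-- **equality modulus** of the general family -/
theorem RG_eqc {s0 s : ℝ} {p n a b : ι → ℝ} (hn : ∀ j, 0 ≤ n j) (hb : ∀ j, 0 < b j) {q0 : ℝ}
    (hq0 : 0 < q0) {l0 R ε : ℝ} (hl0 : 0 < l0) (hε : 0 < ε) :
    ∃ δ : ℝ, 0 < δ ∧ ∀ q l l' (x x' : ι → ℝ), q0 ≤ q →
      l0 ≤ l → l ≤ 2 → l0 ≤ l' → l' ≤ 2 → (∀ j, |x j| ≤ R) →
      RG s0 s p n a b q (l + l') (fun j => x j + x' j) ≤
        RG s0 s p n a b q l x + RG s0 s p n a b q l' x' + δ →
        ∀ j, |(x j + x' j) - (l + l') / l * x j| ≤ ε := by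
  obtain ⟨δ, hδ, h⟩ := modulus (l0 := l0) (R := R) (ε := ε) hl0 hε
  obtain ⟨c, hc, hcw⟩ : ∃ c : ℝ, 0 < c ∧ ∀ j, c ≤ b j := by
    by_cases hne : Nonempty ι
    · obtain ⟨j0, hj0⟩ := Finite.exists_min b
      exact ⟨b j0, hb j0, hj0⟩
    · exact ⟨1, one_pos, fun j => absurd ⟨j⟩ hne⟩
  refine ⟨q0 * (c * δ), by positivity, ?_⟩
  intro q l l' x x' hq hl hl2 hl' hl2' hx hdef j
  refine h l l' (x j) (x' j) hl hl2 hl' hl2' (hx j) ?_
  have hqp : 0 < q := hq0.trans_le hq
  set E : ι → ℝ := fun j => nr l (x j) + nr l' (x' j) - nr (l + l') (x j + x' j) with hE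
  have hE0 : ∀ j, 0 ≤ E j := fun j => by
    have := nr_add l (x j) l' (x' j)
    simp only [hE]; linarith
  have h1 : ∑ j, (n j + q * b j) * E j ≤ q0 * (c * δ) := by
    rw [RG_eq, RG_eq, RG_eq] at hdef
    unfold psiG at hdef
    have e : ∑ j, (n j + q * b j) * E j =
        (∑ j, ((p j + q * a j) * (x j + x' j) -
          (n j + q * b j) * (nr (l + l') (x j + x' j) - (l + l')))) -
        (∑ j, ((p j + q * a j) * x j - (n j + q * b j) * (nr l (x j) - l))) -
        ∑ j, ((p j + q * a j) * x' j - (n j + q * b j) * (nr l' (x' j) - l')) := by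
      rw [← Finset.sum_sub_distrib, ← Finset.sum_sub_distrib]
      refine Finset.sum_congr rfl fun j _ => ?_
      simp only [hE]; ring
    rw [e]
    linarith
  have h3 : (n j + q * b j) * E j ≤ ∑ j, (n j + q * b j) * E j :=
    Finset.single_le_sum (f := fun j => (n j + q * b j) * E j)
      (fun i _ => mul_nonneg (add_nonneg (hn i) (mul_pos hqp (hb i)).le) (hE0 i))
      (Finset.mem_univ j)
  have h6 : q0 * c ≤ n j + q * b j := by
    have h7 : q0 * c ≤ q * b j := mul_le_mul hq (hcw j) hc.le hqp.le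
    have := hn j
    linarith
  have h8 : q0 * c * E j ≤ (n j + q * b j) * E j := mul_le_mul_of_nonneg_right h6 (hE0 j)
  have h10 : E j ≤ δ := by
    have hpos : 0 < q0 * c := mul_pos hq0 hc
    have h11 : (q0 * c) * E j ≤ (q0 * c) * δ := by linarith
    exact le_of_mul_le_mul_left h11 hpos
  simp only [hE] at h10
  linarith

/-- **`RwdF` for the general family.** -/
theorem rwdG {s0 s : ℝ} {p n a b : ι → ℝ} {q0 : ℝ} (hn : ∀ j, 0 ≤ n j)
    (hab : ∀ j, |a j| < b j) (hle : ∀ l (x : ι → ℝ), 0 ≤ l → psiG s a b l x ≤ l) (hq0 : 0 < q0)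
    (Qm : ℝ) :
    RwdF (RG s0 s p n a b) (psiG s a b) q0 Qm where
  q0pos := hq0
  aff := by
    intro q l x
    unfold RG
    ring
  le := hle
  hom := by
    intro q c l x _ hc _
    rw [RG_eq, RG_eq, psiG_hom _ _ _ hc]
  homψ := fun c l x hc _ => psiG_hom _ _ _ hc l x
  zero := fun q => by rw [RG_eq, psiG_zero]
  contψ := psiG_cont _ _ _
  sup := by
    intro q l l' x x' hq _ _
    rw [RG_eq, RG_eq, RG_eq]
    refine psiG_sup _ _ (fun j => ?_) l l' x x'
    have h1 := hn j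
    have h2 : 0 ≤ b j := (abs_nonneg _).trans (hab j).le
    positivity
  coe := fun c hc => psiG_coe hab hc
  eqc := by
    intro l0 R ε hl0 hε
    obtain ⟨δ, hδ, h⟩ := RG_eqc (s0 := s0) (s := s) (p := p) (a := a) hn
      (fun j => (abs_nonneg _).trans_lt (hab j)) hq0 (R := R) hl0 hε
    exact ⟨δ, hδ, fun q l l' x x' hq _ => h q l l' x x' hq⟩


/-! ### linearisation -/

/-- growth of the linearisation of `psiG s a b` at `(1, θ)` -/
noncomputable def dlG (s : ℝ) (b : ι → ℝ) (θ : ι → ℝ) : ℝ :=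
  s + ∑ j, b j * (1 - (√(1 + θ j ^ 2))⁻¹)

/-- slopes of the linearisation of `psiG s a b` at `(1, θ)` -/
noncomputable def dwG (a b : ι → ℝ) (θ : ι → ℝ) (j : ι) : ℝ :=
  a j - b j * (θ j * (√(1 + θ j ^ 2))⁻¹)

theorem dlG_eq (s : ℝ) (b θ : ι → ℝ) : dlG s b θ = s + dlen b 1 1 θ := by
  unfold dlG dlen brl
  rw [one_mul]
  congr 1
  refine Finset.sum_congr rfl fun j _ => ?_
  ring

omit [Fintype ι] in
theorem dwG_eq (a b θ : ι → ℝ) (j : ι) : dwG a b θ j = dwid a b 1 1 θ j := by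
  unfold dwG dwid brx
  ring

theorem dlG_ge {s : ℝ} {b : ι → ℝ} (hb : ∀ j, 0 ≤ b j) (θ : ι → ℝ) : s ≤ dlG s b θ := by
  have := dlen_nonneg (w := b) (μ := 1) (q := 1) hb zero_le_one zero_le_one θ
  rw [dlG_eq]; linarith


omit [Fintype ι] in
theorem dwG_ge {a b : ι → ℝ} {j : ι} (hb : 0 ≤ b j) (θ : ι → ℝ) : a j - b j ≤ dwG a b θ j := by
  have := dwid_ge (p := a) (w := b) (μ := 1) (q := 1) (j := j) hb zero_le_one zero_le_one θ
  rw [dwG_eq]; linarith

omit [Fintype ι] in
theorem dwG_le {a b : ι → ℝ} {j : ι} (hb : 0 ≤ b j) (θ : ι → ℝ) : dwG a b θ j ≤ a j + b j := by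
  have := dwid_le (p := a) (w := b) (μ := 1) (q := 1) (j := j) hb zero_le_one zero_le_one θ
  rw [dwG_eq]; linarith


/-- **linearisation near the ray `(1, θ)`.** -/
theorem linAtG (s : ℝ) (a b : ι → ℝ) (θ : ι → ℝ) :
    LinAt (psiG s a b) θ (dlG s b θ) (dwG a b θ) := by
  intro ε hε
  obtain ⟨δ, hδ, h⟩ := linAt_Psi (p := a) (w := b) (μ := 1) (q := 1) zero_le_one θ ε hε
  refine ⟨δ, hδ, fun l l' x x' hl hl' hx hx' => ?_⟩
  have h1 := h l l' x x' hl hl' hx hx'
  rw [psiG_Psi, psiG_Psi, dlG_eq]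
  have e2 : ∑ j, dwG a b θ j * (x j - x' j) = ∑ j, dwid a b 1 1 θ j * (x j - x' j) :=
    Finset.sum_congr rfl fun j _ => by rw [dwG_eq]
  rw [e2]
  have e : s * l + Psi a b 1 1 l x - (s * l' + Psi a b 1 1 l' x') -
      (s + dlen b 1 1 θ) * (l - l') - ∑ j, dwid a b 1 1 θ j * (x j - x' j) =
      Psi a b 1 1 l x - Psi a b 1 1 l' x' - dlen b 1 1 θ * (l - l') -
      ∑ j, dwid a b 1 1 θ j * (x j - x' j) := by ring
  rw [e]
  exact h1


/-! ### slopes -/

/-- change of the exponents -/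
theorem psiG_slope {s : ℝ} {a b : ι → ℝ} (hb : ∀ j, 0 ≤ b j) (l : ℝ) (x x' : ι → ℝ) :
    |psiG s a b l x' - psiG s a b l x - ∑ j, a j * (x' j - x j)| ≤ ∑ j, b j * |x' j - x j| := by
  have e : psiG s a b l x' - psiG s a b l x - ∑ j, a j * (x' j - x j) =
      -∑ j, b j * (nr l (x' j) - nr l (x j)) := by
    unfold psiG
    rw [add_sub_add_left_eq_sub, ← Finset.sum_sub_distrib, ← Finset.sum_sub_distrib,
      ← Finset.sum_neg_distrib]
    exact Finset.sum_congr rfl fun j _ => by ring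
  rw [e, abs_neg]
  refine (Finset.abs_sum_le_sum_abs _ _).trans (Finset.sum_le_sum fun j _ => ?_)
  rw [abs_mul, abs_of_nonneg (hb j)]
  exact mul_le_mul_of_nonneg_left (nr_lip_x _ _ _) (hb j)


end

end Crest.Agent.R136.Pen325
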