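import Mathlib
import Crest.Agent.R136.Deep4_51

/-!
# R136 (U5 TILT): the numbers of the deep count (helper51)

`tilt_num` : `tilt_stage` with D-max at two deep levels, all deficits in one number `X`.
-/

set_option autoImplicit false
set_option linter.unusedVariables false

open Finset

namespace Crest.Agent.R136.Deep51

open Crest.Agent.R136.Sh605 Crest.Agent.R136.Sh321 Crest.Agent.R136.K4
open Crest.Agent.R138.Mk163 (zc zl rho alive own)

/-- value of a box over a cell of length `r` -/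
noncomputable def valr (q : Fin 3 → ℝ) (r a w1 w2 : ℝ) : ℝ :=
  a * w2 * w1 * ((a / r) ^ q 0 * (w1 / r) ^ q 1 * (w2 / r) ^ q 2)


/-- comparison of values -/
theorem valr_le {q : Fin 3 → ℝ} (hq : ∀ k, 0 ≤ q k) {r r' a b c a' b' c' α β γ α' β' γ' : ℝ}
    (hr : 0 < r) (hr' : 0 < r') (ha : 0 < a) (hb : 0 < b) (hc : 0 < c) (ha' : 0 ≤ a')
    (hb' : 0 ≤ b') (hc' : 0 ≤ c') (hα : 0 ≤ α) (hβ : 0 ≤ β) (hγ : 0 ≤ γ) (hα' : 0 ≤ α')
    (hβ' : 0 ≤ β') (hγ' : 0 ≤ γ') (k1 : a' ≤ α * a) (k2 : b' ≤ β * b) (k3 : c' ≤ γ * c)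
    (l1 : a' / r' ≤ α' * (a / r)) (l2 : b' / r' ≤ β' * (b / r)) (l3 : c' / r' ≤ γ' * (c / r)) :
    valr q r' a' b' c' ≤ (α * β * γ) * (α' ^ q 0 * β' ^ q 1 * γ' ^ q 2) * valr q r a b c := by
  unfold valr
  have e1 : a' * c' * b' ≤ (α * a) * (γ * c) * (β * b) := by gcongr
  have p1 : (a' / r') ^ q 0 ≤ α' ^ q 0 * (a / r) ^ q 0 := by
    rw [← Real.mul_rpow hα' (by positivity)]
    exact Real.rpow_le_rpow (by positivity) l1 (hq 0)
  have p2 : (b' / r') ^ q 1 ≤ β' ^ q 1 * (b / r) ^ q 1 := by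
    rw [← Real.mul_rpow hβ' (by positivity)]
    exact Real.rpow_le_rpow (by positivity) l2 (hq 1)
  have p3 : (c' / r') ^ q 2 ≤ γ' ^ q 2 * (c / r) ^ q 2 := by
    rw [← Real.mul_rpow hγ' (by positivity)]
    exact Real.rpow_le_rpow (by positivity) l3 (hq 2)
  have e2 : (a' / r') ^ q 0 * (b' / r') ^ q 1 * (c' / r') ^ q 2 ≤
      (α' ^ q 0 * (a / r) ^ q 0) * (β' ^ q 1 * (b / r) ^ q 1) * (γ' ^ q 2 * (c / r) ^ q 2) := by
    gcongr
  calc a' * c' * b' * ((a' / r') ^ q 0 * (b' / r') ^ q 1 * (c' / r') ^ q 2)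
      ≤ ((α * a) * (γ * c) * (β * b)) *
        ((α' ^ q 0 * (a / r) ^ q 0) * (β' ^ q 1 * (b / r) ^ q 1) * (γ' ^ q 2 * (c / r) ^ q 2)) := by
        gcongr
    _ = _ := by ring





end Crest.Agent.R136.Deep51
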