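import Crest.Agent.R136.Rc8_146
import Crest.Agent.R136.K2A_146

-- ▼ part R136/Lift_146
section

/-!
# R136 (helper146): from the homogeneous zoom back to every scale

For one group `k` with positive `dh` of an additive splitting (`OutA`): `uS dh S` = natural amounts
on `S`, `0` elsewhere.

* `GA` : data of one group function, `OutA.ga`, `GF.ga`.
* `GA.super` : `M_S(y) = -φ (y • u_S)` is superadditive.
* `GA.ge_zoom` : `M_S(y) ≥ y * (loss of u_S in the zoom at 0)`.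
* `GA.lift`, `GA.lift_inc` : `S` full in the zoom ⊢ `S` full at every scale, in every order.
* `GA.rate_ge` : `-φ c ≤ r * y` for legal `c ≤ y • dh`.
* `GA.rate_of_asym` : one more slot with an asymptotically full loss.
-/

set_option autoImplicit false
set_option linter.unusedSectionVars false
set_option linter.unusedVariables false

open Set Filter Topology

namespace Crest.Agent.R136.Lift146

open Dg219 Rc146

variable {ι κ : Type*} [Fintype ι] [DecidableEq ι] [DecidableEq κ]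

/-- data of one group function with additivity -/
structure GA (grp : ι → κ) (L : Set (ι → ℝ)) (a b dh : ι → ℝ) (n : κ → ℝ × ℝ) (k : κ)
    (φ : (ι → ℝ) → ℝ) (r : ℝ) : Prop where
  smul : ∀ c ∈ L, ∀ t : ℝ, 0 ≤ t → t • c ∈ L
  addm : ∀ c ∈ L, ∀ d ∈ L, c + d ∈ L
  nat : ∀ z, Tn a b z ∈ L
  eq : ∀ z i, grp i = k → Tn a b z i = lf (n k) z * dh i
  nk : n k ≠ 0
  pos : ∀ i, grp i = k → 0 < dh i
  loc : ∀ c c', (∀ i, grp i = k → c i = c' i) → φ c = φ c'
  zero : φ 0 = 0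
  mono : ∀ c ∈ L, ∀ c' ∈ L, (∀ i, grp i = k → c i ≤ c' i) → 0 ≤ φ c - φ c' ∧
    φ c - φ c' ≤ ∑ i ∈ Finset.univ.filter (fun i => grp i = k), (c' i - c i)
  smod : ∀ p ∈ L, ∀ q ∈ L, ∀ s ∈ L, ∀ t ∈ L,
    (∀ i, grp i = k → s i = min (p i) (q i)) → (∀ i, grp i = k → t i = max (p i) (q i)) →
    φ p + φ q ≤ φ t + φ s
  rate : ∀ c ∈ L, ∀ u : ℝ, (∀ i, grp i = k → c i = u * dh i) → φ c = -(r * u)
  add : ∀ z, ∀ c ∈ L, φ (Tn a b z + c) = φ (Tn a b z) + φ c

variable {grp : ι → κ} {L : Set (ι → ℝ)} {a b dh : ι → ℝ} {n : κ → ℝ × ℝ} {k : κ}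
  {φ : (ι → ℝ) → ℝ} {r : ℝ}


/-- the group functions of `OutA` -/
theorem ga_of_outA {lam : (ι → ℝ) → ℝ} {A : ℝ × ℝ} {Φ : κ → (ι → ℝ) → ℝ} {ρ : κ → ℝ}
    (H : OutA grp L a b dh n lam A Φ ρ) (hd : DirS grp a b n dh)
    (hsm : ∀ c ∈ L, ∀ t : ℝ, 0 ≤ t → t • c ∈ L) (had : ∀ c ∈ L, ∀ d ∈ L, c + d ∈ L)
    (hnat : ∀ z, Tn a b z ∈ L) {i0 : ι} (hi0 : grp i0 = k) (hpos : ∀ i, grp i = k → 0 < dh i) :
    GA grp L a b dh n k (Φ k) (ρ k) where
  smul := hsm
  addm := had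
  nat := hnat
  eq := fun z i hi => by rw [hd.Tn_eq, hi]
  nk := by rw [← hi0]; exact hd.ne i0
  pos := hpos
  loc := H.loc k
  zero := H.zero k 0 fun i _ => rfl
  mono := H.mono k
  smod := H.smods k
  rate := H.rate k
  add := fun z c hc => H.add k hpos z c hc

/-- natural amounts on `S` -/
def uS (dh : ι → ℝ) (S : Finset ι) : ι → ℝ := fun i => if i ∈ S then dh i else 0

theorem uS_in {S : Finset ι} {i : ι} (h : i ∈ S) : uS dh S i = dh i := by
  unfold uS; rw [if_pos h]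

theorem uS_off {S : Finset ι} {i : ι} (h : i ∉ S) : uS dh S i = 0 := by
  unfold uS; rw [if_neg h]

/-- the natural position `u` of the group -/
theorem GA.nt_i (H : GA grp L a b dh n k φ r) (u : ℝ) {i : ι} (hi : grp i = k) :
    nt a b n k u i = u * dh i := by
  unfold nt; rw [H.eq _ i hi, lf_zz H.nk]

theorem GA.nt_mem (H : GA grp L a b dh n k φ r) (u : ℝ) : nt a b n k u ∈ L := H.nat _

theorem GA.zero_mem (H : GA grp L a b dh n k φ r) : (0 : ι → ℝ) ∈ L := by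
  have := H.nat 0
  have e : Tn a b (0 : ℝ × ℝ) = 0 := by
    funext i; simp [Tn]
  rwa [e] at this

/-- **superadditivity** -/
theorem GA.super (H : GA grp L a b dh n k φ r) {S : Finset ι} (hS : uS dh S ∈ L) {y1 y2 : ℝ}
    (h1 : 0 ≤ y1) (h2 : 0 ≤ y2) :
    -φ (y1 • uS dh S) + -φ (y2 • uS dh S) ≤ -φ ((y1 + y2) • uS dh S) := by
  have hN := H.nt_mem y1
  have hm := fun (y : ℝ) (hy : 0 ≤ y) => H.smul _ hS y hy
  have key := H.smod _ hN _ (hm (y1 + y2) (by linarith)) _ (hm y1 h1) _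
    (H.addm _ hN _ (hm y2 h2))
    (fun i hi => by
      have hp := H.pos i hi
      rw [H.nt_i y1 hi, Pi.smul_apply, Pi.smul_apply, smul_eq_mul, smul_eq_mul]
      by_cases hiS : i ∈ S
      · rw [uS_in hiS, min_eq_left]; nlinarith
      · rw [uS_off hiS, mul_zero, mul_zero, min_eq_right]; positivity)
    (fun i hi => by
      have hp := H.pos i hi
      rw [Pi.add_apply, H.nt_i y1 hi, Pi.smul_apply, Pi.smul_apply, smul_eq_mul, smul_eq_mul]
      by_cases hiS : i ∈ S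
      · rw [uS_in hiS, max_eq_right]
        · ring
        · nlinarith
      · rw [uS_off hiS, mul_zero, mul_zero, max_eq_left]
        · ring
        · positivity)
  have e := H.add (zz (n k) y1) _ (hm y2 h2)
  have e' : φ (nt a b n k y1 + y2 • uS dh S) = φ (nt a b n k y1) + φ (y2 • uS dh S) := e
  rw [e'] at key
  linarith

theorem GA.super_nat (H : GA grp L a b dh n k φ r) {S : Finset ι} (hS : uS dh S ∈ L) {t : ℝ}
    (ht : 0 ≤ t) (N : ℕ) : N * -φ (t • uS dh S) ≤ -φ ((N * t) • uS dh S) := by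
  induction N with
  | zero => simp [H.zero]
  | succ N ih =>
    have h := H.super hS (y1 := N * t) (y2 := t) (by positivity) ht
    push_cast
    have e : ((N : ℝ) + 1) * t = N * t + t := by ring
    rw [e]
    linarith

/-- monotone in the scale -/
theorem GA.mono_y (H : GA grp L a b dh n k φ r) {S : Finset ι} (hS : uS dh S ∈ L) {y1 y2 : ℝ}
    (h1 : 0 ≤ y1) (h2 : y1 ≤ y2) : -φ (y1 • uS dh S) ≤ -φ (y2 • uS dh S) := by
  have := (H.mono _ (H.smul _ hS y1 h1) _ (H.smul _ hS y2 (h1.trans h2)) fun i hi => by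
    rw [Pi.smul_apply, Pi.smul_apply, smul_eq_mul, smul_eq_mul]
    have hp := H.pos i hi
    have : 0 ≤ uS dh S i := by
      unfold uS; split_ifs
      · exact hp.le
      · exact le_rfl
    exact mul_le_mul_of_nonneg_right h2 this).1
  linarith

/-- **the zoom at `0` bounds the loss from below at every scale** -/
theorem GA.ge_zoom (H : GA grp L a b dh n k φ r) {S : Finset ι} (hS : uS dh S ∈ L) {t : ℕ → ℝ}
    (ht : ∀ l, 0 < t l) (ht0 : Tendsto t atTop (𝓝 0)) {e : ℝ}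
    (hlim : Tendsto (fun l => φ (t l • uS dh S) / t l) atTop (𝓝 e)) {y : ℝ} (hy : 0 ≤ y) :
    y * -e ≤ -φ (y • uS dh S) := by
  have h1 : ∀ l, (y - t l) * -(φ (t l • uS dh S) / t l) ≤ -φ (y • uS dh S) := by
    intro l
    have htl := ht l
    set N := ⌊y / t l⌋₊ with hN
    have n1 : (N : ℝ) * t l ≤ y := by
      have := Nat.floor_le (div_nonneg hy htl.le)
      rw [le_div_iff₀ htl] at this
      exact this
    have n2 : y - t l ≤ N * t l := by
      have := Nat.lt_floor_add_one (y / t l)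
      rw [div_lt_iff₀ htl] at this
      linarith
    have a1 := H.super_nat hS htl.le N
    have a2 := H.mono_y hS (by positivity) n1
    have a3 : 0 ≤ -φ (t l • uS dh S) := by
      have := H.mono_y hS le_rfl htl.le
      rw [zero_smul, H.zero, neg_zero] at this
      exact this
    have a4 : 0 ≤ -(φ (t l • uS dh S) / t l) := by
      rw [← neg_div]; exact div_nonneg a3 htl.le
    calc (y - t l) * -(φ (t l • uS dh S) / t l)
        ≤ (N * t l) * -(φ (t l • uS dh S) / t l) := mul_le_mul_of_nonneg_right n2 a4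
      _ = N * -φ (t l • uS dh S) := by field_simp
      _ ≤ _ := a1.trans a2
  have h2 : Tendsto (fun l => (y - t l) * -(φ (t l • uS dh S) / t l)) atTop
      (𝓝 ((y - 0) * -e)) := (tendsto_const_nhds.sub ht0).mul hlim.neg
  rw [sub_zero] at h2
  exact le_of_tendsto h2 (Eventually.of_forall h1)

/-- total of the natural amounts -/
theorem sum_uS {S : Finset ι} (hSk : ∀ i ∈ S, grp i = k) (y : ℝ) :
    ∑ i ∈ Finset.univ.filter (fun i => grp i = k), (y • uS dh S) i = y * ∑ i ∈ S, dh i := by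
  have h : ∑ i ∈ S, (y • uS dh S) i =
      ∑ i ∈ Finset.univ.filter (fun i => grp i = k), (y • uS dh S) i := by
    refine Finset.sum_subset (fun i hi => Finset.mem_filter.2 ⟨Finset.mem_univ i, hSk i hi⟩) ?_
    intro i _ hi
    rw [Pi.smul_apply, smul_eq_mul, uS_off hi, mul_zero]
  rw [← h, Finset.mul_sum]
  exact Finset.sum_congr rfl fun i hi => by
    rw [Pi.smul_apply, smul_eq_mul, uS_in hi]

/-- **lift**: a set `S` of slots which is full in the zoom is full at every scale -/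
theorem GA.lift (H : GA grp L a b dh n k φ r) {S : Finset ι} (hSk : ∀ i ∈ S, grp i = k)
    (hS : uS dh S ∈ L) {t : ℕ → ℝ} (ht : ∀ l, 0 < t l) (ht0 : Tendsto t atTop (𝓝 0)) {e : ℝ}
    (hlim : Tendsto (fun l => φ (t l • uS dh S) / t l) atTop (𝓝 e))
    (he : e ≤ -∑ i ∈ S, dh i) {y : ℝ} (hy : 0 ≤ y) :
    φ (y • uS dh S) = -(y * ∑ i ∈ S, dh i) := by
  have h1 := H.ge_zoom hS ht ht0 hlim hy
  have h2 := (H.mono 0 H.zero_mem _ (H.smul _ hS y hy) fun i hi => by
    rw [Pi.smul_apply, smul_eq_mul, Pi.zero_apply]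
    have hp := H.pos i hi
    have : 0 ≤ uS dh S i := by
      unfold uS; split_ifs
      · exact hp.le
      · exact le_rfl
    positivity).2
  rw [H.zero] at h2
  simp only [Pi.zero_apply, sub_zero] at h2
  rw [sum_uS hSk] at h2
  have h3 : y * ∑ i ∈ S, dh i ≤ y * -e := mul_le_mul_of_nonneg_left (by linarith) hy
  linarith




end Crest.Agent.R136.Lift146
end

-- ▼ part R136/K2B_146

/-!
# R136 (helper146): homogeneous zoom of a joint tangent

* `exists_hom` : in the context of 774's F-lemma (`FLemA`) : the zoom at `0` of `(lam', lo')` is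
  again a joint tangent of `(ν, own)`, with the same rates, and its groups with positive `dh` are
  homogeneous.
* `FLemH`, `flemA_of_hom` : for the last rung (`V = True`) it suffices to prove the F-lemma for
  homogeneous group functions.
* `cn_ga` : the group functions of `OutA` on `cn Q A` are `GA` (`Lift_146`).
-/

set_option autoImplicit false
set_option linter.unusedSectionVars false
set_option linter.unusedVariables false

open Set Filter Topology Metric MeasureTheory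

namespace Crest.Agent.R136.K2B146

open Dg262 (X X_cont SupOn LegU)
open Dg219 (Tn BUp Walls OutS gC dhC nC gset)
open Rc146 (OutA)
open K2S774 K2A146 Lift146
open Crest.Agent.R138

variable {m : ℕ} {W : Type*} [Fintype W] {Q : Walls (Fin m) W} {A : W → Prop}

/-- the walls `A` are active everywhere on a natural plane through `0` -/
theorem wl_L {a b : Fin m → ℝ} (na : Nat Q A a) (nb : Nat Q A b) :
    (wl Q A).L 0 a b = cn Q A := by
  have hAct : ∀ w, (wl Q A).Act 0 a b w := fun w => by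
    refine ⟨?_, na w.1 w.2, nb w.1 w.2⟩
    show (0 : Fin m → ℝ) (Q.hd w.1) = Q.rhs w.1 0 + 0
    rw [add_zero]; exact (K2S774.Nat.zero (Q := Q) (A := A)) w.1 w.2
  ext c
  exact ⟨fun h w hw => h ⟨w, hw⟩ (hAct _), fun h w _ => h w.1 w.2⟩

/-- natural vectors of the plane are in the cone -/
theorem cn_nat {a b : Fin m → ℝ} (na : Nat Q A a) (nb : Nat Q A b) (z : ℝ × ℝ) :
    Tn a b z ∈ cn Q A := by
  have h : Tn a b z = z.1 • a + z.2 • b := by
    funext i; simp [Tn]; ring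
  rw [h]
  exact ((na.smul _).add (nb.smul _)).mem

/-- the group functions of `OutA` on a cone `cn Q A` -/
theorem cn_ga {a b : Fin m → ℝ} (na : Nat Q A a) (nb : Nat Q A b) {lam : (Fin m → ℝ) → ℝ}
    {A0 : ℝ × ℝ} {φ : ℕ → (Fin m → ℝ) → ℝ} {r : ℕ → ℝ}
    (H : OutA (gC a b) (cn Q A) a b (dhC a b) (nC a b) lam A0 φ r) {k : ℕ} {i0 : Fin m}
    (hi0 : gC a b i0 = k) (hpos : ∀ i, gC a b i = k → 0 < dhC a b i) :
    GA (gC a b) (cn Q A) a b (dhC a b) (nC a b) k (φ k) (r k) :=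
  ga_of_outA H Dg219.dirC (fun c hc t ht => cn_smul hc ht) (fun c hc d hd => cn_add hc hd)
    (cn_nat na nb) hi0 hpos

/-- **zoom at `0`, on `cn Q A`** -/
theorem cn_zoom {lam lo : (Fin m → ℝ) → ℝ} {K : ℝ} (H : Prf (cn Q A) lam lo K)
    (hF : ∀ w, A w → ∃ s, Q.co w s ≠ 0) {a b : Fin m → ℝ} (ha : ∀ i, 0 ≤ a i)
    (na : Nat Q A a) (nb : Nat Q A b) {A0 : ℝ × ℝ} {φ : ℕ → (Fin m → ℝ) → ℝ} {r : ℕ → ℝ}
    (HO : OutA (gC a b) (cn Q A) a b (dhC a b) (nC a b) lam A0 φ r) {t : ℕ → ℝ}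
    {lam2 : (Fin m → ℝ) → ℝ} (B : BUp (cn Q A) (cn Q A) lam 0 t lam2) :
    ∃ φ2 : ℕ → (Fin m → ℝ) → ℝ,
      OutA (gC a b) (cn Q A) a b (dhC a b) (nC a b) lam2 A0 φ2 r ∧
      (∀ k, (∀ i, gC a b i = k → 0 < dhC a b i) → ∀ c ∈ cn Q A, ∀ s : ℝ, 0 ≤ s →
        φ2 k (s • c) = s * φ2 k c) ∧
      ∀ k ∈ gset (gC a b), ∀ c ∈ cn Q A,
        Tendsto (fun l => φ k (t l • c) / t l) atTop (𝓝 (φ2 k c)) := by
  classical
  obtain ⟨wv, hGr⟩ := Dg219.exists_grpC (b := b) ha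
  have hL := wl_L na nb
  have hgeo := Walls.geoG (Q := wl Q A) (x0 := 0) hGr
    (Dg219.Walls.full_of_co fun w => hF w.1 w.2) (fun _ _ => Iff.rfl)
  have h := OutA.zoom (wl Q A) (x0 := 0) (a := a) (b := b) hgeo Dg219.dirC
    (lam := lam) (lam2 := lam2) (φ := φ) (r := r) (A := A0) (K := K) (t := t)
  rw [hL] at h
  exact h HO H.K0 (fun p hp q hq => by rw [dist_eq_norm]; exact H.lip p hp q hq)
    (fun p hp q hq hpq => ⟨sub_nonneg.2 (H.mono p hp q hq hpq), H.sharp p hp q hq hpq⟩)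
    (fun p hp q hq h1 h2 => H.sup p hp q hq h1 h2) B

variable {P : Set (Fin m → ℝ)} {ν own : (Fin m → ℝ) → ℝ} {K : ℝ}
  {r0 ρ : Fin m → ℝ} {Dl : (Fin m → ℝ) →ₗ[ℝ] ℝ} {Qd : Set (Fin m → ℝ)} {Z Tie : Set (Fin m)}
  {kz : Fin m} {o : Fin m → ℝ} {τ : ℝ} {Dr : Set (Fin m)}
  {lam lo : (Fin m → ℝ) → ℝ}

/-- **homogeneous zoom of a joint tangent** -/
theorem exists_hom (hF : ∀ w, A w → ∃ s, Q.co w s ≠ 0) {T b : Fin m → ℝ} (hT0 : ∀ i, 0 ≤ T i)
    (hT : Nat Q A T) (hb : Nat Q A b) {x' : ℕ → Fin m → ℝ} {h' : ℕ → ℝ}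
    {lam' lo' : (Fin m → ℝ) → ℝ} (HJ : JT Q A P ν own r0 x' h' lam' lo')
    (HP : Prf (cn Q A) lam' lo' K) (HB : BaseOk Tie kz o T r0 x' h') {A0 : ℝ × ℝ}
    {φ : ℕ → (Fin m → ℝ) → ℝ} {rt : ℕ → ℝ}
    (HO : OutA (gC T b) (cn Q A) T b (dhC T b) (nC T b) lam' A0 φ rt) :
    ∃ (t : ℕ → ℝ) (lam2 lo2 : (Fin m → ℝ) → ℝ) (x2 : ℕ → Fin m → ℝ) (h2 : ℕ → ℝ)
      (φ2 : ℕ → (Fin m → ℝ) → ℝ), (∀ l, 0 < t l) ∧ Tendsto t atTop (𝓝 0) ∧
      Ex926.IsTan (cn Q A) (cn Q A) lam' (fun _ => 0) t lam2 ∧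
      Ex926.IsTan (cn Q A) (cn Q A) lo' (fun _ => 0) t lo2 ∧
      JT Q A P ν own r0 x2 h2 lam2 lo2 ∧ BaseOk Tie kz o T r0 x2 h2 ∧ Prf (cn Q A) lam2 lo2 K ∧
      OutA (gC T b) (cn Q A) T b (dhC T b) (nC T b) lam2 A0 φ2 rt ∧
      (∀ k, (∀ i, gC T b i = k → 0 < dhC T b i) → ∀ c ∈ cn Q A, ∀ s : ℝ, 0 ≤ s →
        φ2 k (s • c) = s * φ2 k c) ∧
      ∀ k ∈ gset (gC T b), ∀ c ∈ cn Q A,
        Tendsto (fun l => φ k (t l • c) / t l) atTop (𝓝 (φ2 k c)) := by
  obtain ⟨ψ, hψ, lam2, lo2, H1, H2⟩ := exists_joint HP cn_closed cn_zero (y := 0)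
    (fun C => ⟨1, one_pos, fun h hh _ c hc _ => by rw [zero_add]; exact cn_smul hc hh.le⟩)
    (k := fun l => 1 / ((l : ℝ) + 1)) (fun l => by positivity)
    tendsto_one_div_add_atTop_nhds_zero_nat
  set t : ℕ → ℝ := fun l => 1 / ((ψ l : ℕ) + 1 : ℝ) with ht
  have tpos : ∀ l, 0 < t l := fun l => by positivity
  have t0 : Tendsto t atTop (𝓝 0) :=
    tendsto_one_div_add_atTop_nhds_zero_nat.comp hψ.tendsto_atTop
  obtain ⟨χ, hχ, hJ⟩ := HJ.comp (fun _ h => h) cn_zero K2S774.Nat.zero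
    (fun w hw h => absurd hw h) tpos t0 H1 H2
  obtain ⟨φ2, hO, hhom, hlim⟩ := cn_zoom HP hF hT0 hT hb HO (Dg219.bup_of_tan tpos t0 H1)
  have hP2 := HP.tan (x := fun _ => 0) tpos H1 H2
  refine ⟨t, lam2, lo2, _, _, φ2, tpos, t0, H1, H2, hJ, ⟨fun l i hi hT' => ?_, fun l i hi hT' => ?_,
    fun i hi hT' R => ?_⟩, hP2, hO, hhom, hlim⟩
  · simp only [smul_zero, add_zero]
    exact HB.eq _ i hi hT'
  · simp only [smul_zero, add_zero]
    exact HB.le _ i hi hT'
  · have hχt : Tendsto χ atTop atTop := tendsto_atTop_mono hχ tendsto_id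
    filter_upwards [hχt.eventually (HB.slack i hi hT' |R|),
      t0.eventually (eventually_le_nhds one_pos)] with l hl hl1
    simp only [smul_zero, add_zero]
    have h1 := HJ.pos (χ l)
    have h2 : R * (h' (χ l) * t l) ≤ |R| * h' (χ l) := by
      have a1 : R * (h' (χ l) * t l) ≤ |R| * (h' (χ l) * t l) :=
        mul_le_mul_of_nonneg_right (le_abs_self R) (mul_nonneg h1.le (tpos l).le)
      have a2 : |R| * (h' (χ l) * t l) ≤ |R| * (h' (χ l) * 1) :=
        mul_le_mul_of_nonneg_left (mul_le_mul_of_nonneg_left hl1 h1.le) (abs_nonneg R)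
      linarith
    linarith



end Crest.Agent.R136.K2B146
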