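import Crest.Agent.R136.Xb2_403
import Crest.Agent.R136.Ev13_356
import Crest.Agent.R136.LdF4_511

-- ▼ part R136/Xb3_403
section

/-!
# R136: the base row for `21` tied in a window of helper413, partial resolution (helper403)

* `ne_of_pq` : `NE` from 356's `PQ`.
* **`ne_of_wat`** : `WAt` with static data `stP S Rs (4 * cK0 monQ C) T Ma`, `2 ∈ S` ⊢ pruned set,
  `NE`, raw twist of `E`.
* `bwT_val` : the boxes for `S = {0, 2}`, `Rs = {0, 2, 5, 6, 8, 9}`.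
-/

set_option autoImplicit false
set_option linter.unusedVariables false
set_option linter.unusedSectionVars false

open Filter Topology

namespace Crest.Agent.R136.Xb403

open Finset Crest.Agent.R136.NetQ186 Crest.Agent.R136.Net191 Crest.Agent.R136.Qg926
open Crest.Agent.R136.Gf356 Crest.Agent.R136.Ev356 Crest.Agent.R136.Aw413
open Crest.Agent.R136.Wq400 Crest.Agent.R136.Fe1355
open Crest.Agent.R138.Ex926 (Base U)

variable {ι : ℕ → Type*} [∀ n, DecidableEq (ι n)]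

section prod

variable {W : Wnd 11 ι} {f : ∀ n, ι n → Fq4} {E : ∀ n, Finset (ι n)} {T : ℝ}

/-- **`NE` in a window of 356's class `PQ`** -/
theorem ne_of_pq {Rs : Finset (Fin 11)} {Ma : Mons 11} (P : PQ W f Rs T fun _ => chi Ma)
    (hM : MaE Ma) (hkz : W.kz = 0) (h2S : (2 : Fin 11) ∈ W.S)
    (hRs : (5 : Fin 11) ∈ Rs ∧ (6 : Fin 11) ∈ Rs ∧ (8 : Fin 11) ∈ Rs ∧ (9 : Fin 11) ∈ Rs)
    (hc : ∀ᶠ n in (U : Filter ℕ), W.Good n ∧ E n ⊆ W.Cl n ∧ W.cfg E n = W.cfg0 n (E n))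
    (T0 : 0 < T)
    (leg : ∀ ca cb xa xb : ℝ, 0 ≤ ca → ca ≤ T → 0 ≤ cb → cb ≤ T → 0 ≤ xa → xa ≤ T → 0 ≤ xb →
      xb ≤ T → bw ca cb xa xb ∈ W.legW)
    (H : RModel W.B' (W.cfg E) 1 T W.legW W.nu W.Dc) :
    NE W.B' (W.cfg E) W.legW W.nu T W.Dc (fun n k => flg W n k 2) := by
  have hK0 := P.q.ok.K0_one
  refine ne_of_ev P.q hkz P.S0 h2S (fun s => by have := P.kap4 s; linarith) hc T0 leg H
    (χ := chi Ma) (if_pos hM.m256) (if_pos hM.m058) (if_pos hM.m069) (if_pos hM.m289) ?_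
  intro ε hε
  filter_upwards [P.evo hc hε] with n hn k₀ k i l h1 h2 h3 h4 s hs
  have hsR : s ∈ Rs := by
    rcases hs with rfl | rfl | rfl | rfl
    exacts [hRs.1, hRs.2.1, hRs.2.2.1, hRs.2.2.2]
  refine hn k₀ k i l h1 h2 h3 h4 s hsR (P.q.notMem ?_)
  rcases hs with rfl | rfl | rfl | rfl <;> simp

end prod

section wat

variable {W : Wnd 11 ι} {f : ∀ n, ι n → Fq4} {T : ℝ} {B : Base} {I : ∀ n, Finset (ι n)}
  {co : ∀ n, ι n → ι n → Fin 11 → ℝ} {Ma : Mons 11} {C : ℝ} {lam : (Fin 11 → ℝ) → ℝ}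
  {V Tw : Fin 11 → Prop} {S Rs : Finset (Fin 11)}

/-- **the base row in a window of `AeW`** -/
theorem ne_of_wat (hSR : POk S Rs)
    (hRs : (5 : Fin 11) ∈ Rs ∧ (6 : Fin 11) ∈ Rs ∧ (8 : Fin 11) ∈ Rs ∧ (9 : Fin 11) ∈ Rs)
    (h2S : (2 : Fin 11) ∈ S)
    (h : WAt B I co monQ Ma C lam V Tw (stP S Rs (4 * cK0 monQ C) T Ma) W)
    (hco : ∀ n, ∀ i ∈ I n, ∀ j ∈ I n, co n i j = coQ (f n i) (f n j))
    (hM : MaE Ma) (hsub : ∀ k, Ma.mon k ⊆ monQ.mon k) (hclo : CloM Rs Ma) (hT : 0 < T)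
    (hV : ∀ k, V k → k ∈ S ∨ k ∉ Rs) (hTw : Tw 2)
    (hdens : lam (fun s => if s ∈ Rs then T else 0) ≤
      lam (cut S (fun s => if s ∈ Rs then T else 0) 0) +
        lam (cut S 0 fun s => if s ∈ Rs then T else 0))
    (hfr : ∀ y, 0 ≤ y → y ≤ T → lam (Pi.single 0 y) ≤ -y) :
    ∃ (E' : ∀ n, Finset (ι n)),
      NE W.B' (W.cfg E') W.legW W.nu T W.Dc (fun n k => flg W n k 2) ∧
      RawTw W.B' (W.cfg E') (fun n k k' => flg W n k' 2 - flg W n k 2) := by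
  have hT0 := hT.le
  have h0R : (0 : Fin 11) ∈ Rs := hSR.SR hSR.h0
  have h2R : (2 : Fin 11) ∈ Rs := hSR.SR h2S
  have hden : (stP S Rs (4 * cK0 monQ C) T Ma).Dens lam 1 T :=
    { dens := hdens
      σ0 := zero_le_one
      σ1 := le_rfl
      hR := by
        show T ≤ if (0 : Fin 11) ∈ Rs then T else 0
        rw [if_pos h0R]
      frost := fun y hy hyT => by
        rw [one_mul]; exact hfr y hy hyT }
  have hVt : ∀ k, V k → k ∈ (stP S Rs (4 * cK0 monQ C) T Ma).S ∨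
      (stP S Rs (4 * cK0 monQ C) T Ma).top k = 0 := fun k hk => (hV k hk).imp id fun hk' => if_neg hk'
  obtain ⟨E', g, hP, -, H, htw⟩ := h.model (σ' := 1) (R := T) hden (fun _ _ _ => 0)
    (g₀ := fun n => n) (tendsto_natCast_atTop_atTop.mono_left Crest.Agent.R138.Ex926.U_le_atTop)
    hVt
  have hq : QWnd W f := qwnd_of_wat h hco hSR.sub
  have hc := hcQ hq hP
  have eS : W.S = S := h.eS
  have etop : W.top = fun s => if s ∈ Rs then T else 0 := h.etop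
  have hA : QAt W f Ma := QAt.of_wat h hq hSR.h0 (fun s => by
    fin_cases s <;> rfl) hM.r
  have hsT : ∀ s ∈ Rs, T ≤ W.top s := fun s hs => by
    rw [etop]
    show T ≤ if s ∈ Rs then T else 0
    rw [if_pos hs]
  have hPQ : PQ W f Rs T fun _ => chi Ma := PQ.of_at hA hT0 (by rw [eS]; exact hSR.SR) hsT hclo
  have t0 : W.top 0 = T := by rw [etop]; exact if_pos h0R
  have t2 : W.top 2 = T := by rw [etop]; exact if_pos h2R
  refine ⟨E', ne_of_pq hPQ hM h.ekz (by rw [eS]; exact h2S) hRs hc hT ?_ H, ?_⟩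
  · intro ca cb xa xb ca0 ca1 cb0 cb1 xa0 xa1 xb0 xb1
    refine legW_bw (T := T) (by rw [eS]; exact hSR.h0) (by rw [eS]; exact h2S)
      (by rw [eS]; exact hSR.sub) t0 t2 h.ok.lev_leg (hsT 5 hRs.1) (hsT 6 hRs.2.1)
      (hsT 8 hRs.2.2.1) (hsT 9 hRs.2.2.2) (fun s => ?_) ?_ ?_ ca0 ca1 cb0 cb1 xa0 xa1 xb0 xb1
    · rw [etop]
      show 0 ≤ if s ∈ Rs then T else 0
      split_ifs
      · exact hT0
      · exact le_rfl
    · rw [h.eR]; exact le_rfl
    · rw [h.eMw]; exact hsub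
  · refine Crest.Agent.R136.C2w400.rawTw_of_rawL hq hc (s := 2) (by rw [eS]; exact h2S) (by simp)
      hT (hsT 2 h2R) (htw 2 h2S hTw (by
        show 0 < if (2 : Fin 11) ∈ Rs then T else 0
        rw [if_pos h2R]; exact hT) ⟨T, hT, ?_⟩)
    show cut S (fun s => if s ∈ Rs then T else 0) (Pi.single 2 T) ∈ coneM Ma
    intro k e he
    have hv : ∀ s, 0 ≤ cut S (fun s => if s ∈ Rs then T else 0) (Pi.single (2 : Fin 11) T) s ∧
        cut S (fun s => if s ∈ Rs then T else 0) (Pi.single (2 : Fin 11) T) s ≤ T := fun s => by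
      by_cases hs : s ∈ S
      · rw [cut_of_mem hs]
        by_cases hs2 : s = 2
        · subst hs2; rw [Pi.single_eq_same]; exact ⟨hT0, le_rfl⟩
        · rw [Pi.single_eq_of_ne hs2]; exact ⟨le_rfl, hT0⟩
      · rw [cut_of_notMem hs]
        show 0 ≤ (if s ∈ Rs then T else 0) ∧ (if s ∈ Rs then T else 0) ≤ T
        split_ifs <;> constructor <;> linarith
    by_cases hk : k ∈ Rs ∧ k ∉ S
    · obtain ⟨s, hs, hsS, hs'⟩ := hSR.lin k e (hsub k he) hk.1 hk.2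
      refine (hv k).2.trans (wall_of (fun s => (hv s).1) hs' ?_)
      rw [cut_of_notMem hsS]
      show T ≤ if s ∈ Rs then T else 0
      rw [if_pos hs]
    · have hz : cut S (fun s => if s ∈ Rs then T else 0) (Pi.single (2 : Fin 11) T) k = 0 := by
        by_cases hkS : k ∈ S
        · rw [cut_of_mem hkS]
          refine Pi.single_eq_of_ne ?_ _
          rintro rfl
          have h2e : monQ.mon 2 = ∅ := rfl
          have := hsub 2 he
          rw [h2e] at this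
          exact absurd this (Finset.notMem_empty e)
        · rw [cut_of_notMem hkS]
          exact if_neg fun hk' => hk ⟨hk', hkS⟩
      rw [hz]
      exact wall_zero fun s => (hv s).1

end wat

/-- the resolution for the base row -/
theorem top_base (T : ℝ) : (fun s : Fin 11 => if s ∈ ({0, 2, 5, 6, 8, 9} : Finset (Fin 11)) then T
    else 0) = ![T, 0, T, 0, 0, T, T, 0, T, T, 0] := by
  funext s; fin_cases s <;> simp

/-- the boxes of the base row -/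
theorem bwT_base (T ca cb xa xb : ℝ) : bwT {0, 2}
    (fun s : Fin 11 => if s ∈ ({0, 2, 5, 6, 8, 9} : Finset (Fin 11)) then T else 0) ca cb xa xb =
      ![T, 0, T, 0, 0, ca, cb, 0, xa, xb, 0] := by
  funext s; fin_cases s <;> simp [bwT, cut, bw]

/-- cuts of the resolution for the base row -/
theorem cut_base (T : ℝ) : cut {0, 2}
    (fun s : Fin 11 => if s ∈ ({0, 2, 5, 6, 8, 9} : Finset (Fin 11)) then T else 0) 0 =
      ![0, 0, 0, 0, 0, T, T, 0, T, T, 0] := by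
  funext s; fin_cases s <;> simp [cut]

theorem cut_base' (T : ℝ) : cut {0, 2} 0
    (fun s : Fin 11 => if s ∈ ({0, 2, 5, 6, 8, 9} : Finset (Fin 11)) then T else 0) =
      ![T, 0, T, 0, 0, 0, 0, 0, 0, 0, 0] := by
  funext s; fin_cases s <;> simp [cut]

/-- the four walls are closed in the resolved slots -/
theorem cloM_base (Ma : Mons 11) : CloM {0, 2, 5, 6, 8, 9} Ma where
  w4 := fun h => absurd h (by decide)
  w6 := fun _ => Or.inr (by decide)
  w7a := fun h => absurd h (by decide)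
  w7b := fun h => absurd h (by decide)
  w8 := fun _ => Or.inr (by decide)
  w9a := fun _ => Or.inr (by decide)
  w9b := fun _ => Or.inr (by decide)
  w10a := fun h => absurd h (by decide)
  w10b := fun h => absurd h (by decide)
  w10c := fun h => absurd h (by decide)


end Crest.Agent.R136.Xb403
end

-- ▼ part R136/LdF5_511

/-!
# R136: the base row for `21` tied at one a.e. point (helper511)

`PlE a b κ` : natural plane with `z ∥ E` (slopes `1, κ`), `C_a` constant along the ray.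
`full_of_NE` : homogeneous group functions, `C_a` costs something, a window model `NE` (403) ⊢
the single slots `X_a`, `X_b` are full.
`rates_of_full` : rates of the groups of `z`, `X_a`, `X_b`: `≥ 1, 1, 1 + κ`.
-/

set_option autoImplicit false
set_option linter.unusedVariables false

open Finset Filter Topology

namespace Crest.Agent.R136.LdF5511

open Crest.Agent.R138.Ex926 (Base U)
open Crest.Agent.R136.Net191
open Crest.Agent.R136.NetQ186
open Crest.Agent.R136.Gf356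
open Crest.Agent.R136.Fe1355 (RawTw)
open Crest.Agent.R136.Xb403 (NE bw)
open Crest.Agent.R136.LdF4511
open Dg219 (mw Walls Tn OutS gC dhC nC gset lf mem_gset gC_zero gC_eq nC_zero nC_of)

/-! ### splitting -/

section split

variable {ι : Type*} [Fintype ι] [DecidableEq ι] {grp : ι → ℕ} {L : Set (ι → ℝ)} {dh : ι → ℝ}
  {nn : ℕ → ℝ × ℝ} {lam : (ι → ℝ) → ℝ} {A : ℝ × ℝ} {φ : ℕ → (ι → ℝ) → ℝ} {r : ℕ → ℝ}

/-- boxes which differ in one group only -/
theorem one_grp (h : OutS grp L dh nn lam A φ r) {c c' : ι → ℝ} (hc : c ∈ L) (hc' : c' ∈ L) (k : ℕ)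
    (hcc : ∀ i, grp i ≠ k → c i = c' i) : lam c - lam c' = φ k c - φ k c' := by
  rw [h.sum c hc, h.sum c' hc', ← Finset.sum_sub_distrib]
  by_cases hk : k ∈ gset grp
  · rw [Finset.sum_eq_single k]
    · intro j _ hj
      rw [h.loc j c c' fun i hi => hcc i (by rw [hi]; exact hj), sub_self]
    · exact fun h => absurd hk h
  · have hno : ∀ i, grp i ≠ k := fun i hi => hk (by rw [← hi]; exact mem_gset i)
    rw [h.loc k c c' fun i hi => absurd hi (hno i), sub_self]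
    refine Finset.sum_eq_zero fun j _ => ?_
    rw [h.loc j c c' fun i _ => hcc i (hno i), sub_self]

/-- increments in different groups are independent -/
theorem split2 (h : OutS grp L dh nn lam A φ r) {c0 cu cv cuv : ι → ℝ} (h0 : c0 ∈ L)
    (hu : cu ∈ L) (hv : cv ∈ L) (huv : cuv ∈ L)
    (hd : ∀ k, (∀ i, grp i = k → cu i = c0 i ∧ cuv i = cv i) ∨
      ∀ i, grp i = k → cv i = c0 i ∧ cuv i = cu i) :
    lam cuv - lam cv = lam cu - lam c0 := by
  rw [h.sum _ h0, h.sum _ hu, h.sum _ hv, h.sum _ huv, ← Finset.sum_sub_distrib,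
    ← Finset.sum_sub_distrib]
  refine Finset.sum_congr rfl fun k _ => ?_
  rcases hd k with h1 | h1
  · rw [h.loc k cu c0 fun i hi => (h1 i hi).1, h.loc k cuv cv fun i hi => (h1 i hi).2, sub_self,
      sub_self]
  · rw [h.loc k cv c0 fun i hi => (h1 i hi).1, h.loc k cuv cu fun i hi => (h1 i hi).2]

end split

/-! ### the plane -/

/-- natural plane with `z ∥ E`, `C_a` constant along the ray -/
structure PlE (a b : Fin 11 → ℝ) (κ : ℝ) : Prop where
  κ0 : 0 < κ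
  nn : ∀ i, 0 ≤ a i
  a0 : a 0 = 1
  a2 : a 2 = κ
  a5 : a 5 = 0
  a6 : a 6 = κ
  a8 : a 8 = 1
  a9 : a 9 = 1 + κ
  b5 : b 5 ≠ 0
  b2 : b 2 = κ * b 0
  b6 : b 6 = b 2 + b 5
  b8 : b 8 = b 0 + b 5
  b9 : b 9 = b 0 + b 6

namespace PlE

variable {a b : Fin 11 → ℝ} {κ : ℝ} (h : PlE a b κ)

include h

theorem n0 : a 0 ≠ 0 := by rw [h.a0]; exact one_ne_zero
theorem n2 : a 2 ≠ 0 := by rw [h.a2]; exact h.κ0.ne'
theorem n6 : a 6 ≠ 0 := by rw [h.a6]; exact h.κ0.ne'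
theorem n8 : a 8 ≠ 0 := by rw [h.a8]; exact one_ne_zero
theorem n9 : a 9 ≠ 0 := by rw [h.a9]; linarith [h.κ0]

theorem g5 : gC a b 5 = 0 := gC_zero.2 h.a5
theorem g0 : gC a b 0 ≠ 0 := fun e => h.n0 (gC_zero.1 e)
theorem g6 : gC a b 6 ≠ 0 := fun e => h.n6 (gC_zero.1 e)
theorem g8 : gC a b 8 ≠ 0 := fun e => h.n8 (gC_zero.1 e)
theorem g9 : gC a b 9 ≠ 0 := fun e => h.n9 (gC_zero.1 e)

/-- `z ∥ E` -/
theorem g02 : gC a b 0 = gC a b 2 := by
  rw [gC_eq h.n0 h.n2, h.a0, h.a2, h.b2]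
  have := h.κ0.ne'
  field_simp

theorem g08 : gC a b 0 ≠ gC a b 8 := by
  rw [Ne, gC_eq h.n0 h.n8, h.a0, h.a8, h.b8]
  intro e
  apply h.b5
  linarith

theorem g09 : gC a b 0 ≠ gC a b 9 := by
  rw [Ne, gC_eq h.n0 h.n9, h.a0, h.a9, h.b9, h.b6, h.b2]
  have hκ := h.κ0
  have h1 : 1 + κ ≠ 0 := by linarith
  intro e
  apply h.b5
  field_simp at e
  linarith

theorem g89 : gC a b 8 ≠ gC a b 9 := by
  rw [Ne, gC_eq h.n8 h.n9, h.a8, h.a9, h.b9, h.b8, h.b6, h.b2]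
  have hκ := h.κ0
  have h1 : 1 + κ ≠ 0 := by linarith
  intro e
  have h2 : κ * b 5 = 0 := by
    field_simp at e
    linarith
  rcases mul_eq_zero.1 h2 with h3 | h3
  · exact hκ.ne' h3
  · exact h.b5 h3

theorem g06 : gC a b 0 ≠ gC a b 6 := by
  rw [Ne, gC_eq h.n0 h.n6, h.a0, h.a6, h.b6, h.b2]
  have hκ := h.κ0
  intro e
  apply h.b5
  field_simp at e
  linarith

theorem g69 : gC a b 6 ≠ gC a b 9 := by
  rw [Ne, gC_eq h.n6 h.n9, h.a6, h.a9, h.b9, h.b6, h.b2]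
  have hκ := h.κ0
  have h1 : 1 + κ ≠ 0 := by linarith
  intro e
  apply h.b5
  field_simp at e
  linarith

end PlE

/-! ### boxes -/

/-- level slots `z, E : T` and `C_a, C_b, X_a, X_b` -/
def bl (T ca cb xa xb : ℝ) : Fin 11 → ℝ := ![T, 0, T, 0, 0, ca, cb, 0, xa, xb, 0]

theorem bl_smul (s T ca cb xa xb : ℝ) :
    s • bl T ca cb xa xb = bl (s * T) (s * ca) (s * cb) (s * xa) (s * xb) := by
  funext j
  fin_cases j <;> simp [bl]

theorem bl_legal {T ca cb xa xb : ℝ} (hT : 0 ≤ T) (h1 : 0 ≤ ca) (h2 : 0 ≤ cb) (h2' : cb ≤ T)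
    (h3 : 0 ≤ xa) (h3' : xa ≤ T) (h4 : 0 ≤ xb) (h4' : xb ≤ T) : Legal monQ (bl T ca cb xa xb) := by
  refine legalQ_iff.2 ⟨fun k => ?_, ?_, ?_, ?_, ?_, ?_, ?_, ?_, ?_, ?_, ?_, ?_⟩
  · fin_cases k <;>
      simp only [bl, Matrix.cons_val, Fin.zero_eta, Fin.mk_one, Fin.reduceFinMk, Fin.isValue] <;>
      linarith
  all_goals
    simp only [bl, Matrix.cons_val, Fin.isValue]
    linarith

/-! ### fullness from a window model -/

section full

variable {a b : Fin 11 → ℝ} {κ : ℝ} {L : Set (Fin 11 → ℝ)} {lam : (Fin 11 → ℝ) → ℝ} {A : ℝ × ℝ}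
  {φ : ℕ → (Fin 11 → ℝ) → ℝ} {r : ℕ → ℝ}

/-- value of a box at the level `T` -/
theorem lam_bl (hL : ∀ p, Legal monQ p → p ∈ L)
    (h : OutS (gC a b) L (dhC a b) (nC a b) lam A φ r) (P : PlE a b κ) {T ca cb xa xb : ℝ}
    (hT : 0 ≤ T) (h1 : 0 ≤ ca) (h2 : 0 ≤ cb) (h2' : cb ≤ T) (h3 : 0 ≤ xa) (h3' : xa ≤ T)
    (h4 : 0 ≤ xb) (h4' : xb ≤ T) :
    lam (bl T ca cb xa xb) = lam (bl T 0 0 0 0) - (lam (bl T 0 0 0 0) - lam (bl T 0 0 0 xb)) -
      (lam (bl T 0 0 0 0) - lam (bl T 0 cb xa 0)) -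
      (lam (bl T 0 0 0 0) - lam (bl T ca 0 0 0)) := by
  have m0 : bl T 0 0 0 0 ∈ L := hL _ (bl_legal hT le_rfl le_rfl hT le_rfl hT le_rfl hT)
  have m1 : bl T 0 cb xa 0 ∈ L := hL _ (bl_legal hT le_rfl h2 h2' h3 h3' le_rfl hT)
  have m2 : bl T 0 0 0 xb ∈ L := hL _ (bl_legal hT le_rfl le_rfl hT le_rfl hT h4 h4')
  have m3 : bl T ca 0 0 0 ∈ L := hL _ (bl_legal hT h1 le_rfl hT le_rfl hT le_rfl hT)
  have m4 : bl T 0 cb xa xb ∈ L := hL _ (bl_legal hT le_rfl h2 h2' h3 h3' h4 h4')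
  have m5 : bl T ca cb xa xb ∈ L := hL _ (bl_legal hT h1 h2 h2' h3 h3' h4 h4')
  -- `X_b` against `(C_b, X_a)`
  have s1 := split2 h m0 m2 m1 m4 (by
    intro k
    by_cases hk : k = gC a b 9
    · right
      intro i hi
      have h8 : i ≠ 8 := fun e => P.g89 (by rw [← e, hi, hk])
      have h6 : i ≠ 6 := fun e => P.g69 (by rw [← e, hi, hk])
      fin_cases i <;> simp [bl] at h8 h6 ⊢
    · left
      intro i hi
      have h9 : i ≠ 9 := fun e => hk (by rw [← hi, e])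
      fin_cases i <;> simp [bl] at h9 ⊢)
  -- `C_a` against the rest
  have s2 := split2 h m0 m4 m3 m5 (by
    intro k
    by_cases hk : k = 0
    · left
      intro i hi
      have h6 : i ≠ 6 := fun e => P.g6 (by rw [← e, hi, hk])
      have h8 : i ≠ 8 := fun e => P.g8 (by rw [← e, hi, hk])
      have h9 : i ≠ 9 := fun e => P.g9 (by rw [← e, hi, hk])
      fin_cases i <;> simp [bl] at h6 h8 h9 ⊢
    · right
      intro i hi
      have h5 : i ≠ 5 := fun e => hk (by rw [← hi, e, P.g5])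
      fin_cases i <;> simp [bl] at h5 ⊢)
  linarith

/-- one slot at the level `T` -/
theorem lam_bl8 (hL : ∀ p, Legal monQ p → p ∈ L)
    (h : OutS (gC a b) L (dhC a b) (nC a b) lam A φ r) (P : PlE a b κ) {T xa : ℝ}
    (hT : 0 ≤ T) (h3 : 0 ≤ xa) (h3' : xa ≤ T) :
    lam (bl T 0 0 0 0) - lam (bl T 0 0 xa 0) = -φ (gC a b 8) (Pi.single 8 xa) := by
  have m0 : bl T 0 0 0 0 ∈ L := hL _ (bl_legal hT le_rfl le_rfl hT le_rfl hT le_rfl hT)
  have m1 : bl T 0 0 xa 0 ∈ L := hL _ (bl_legal hT le_rfl le_rfl hT h3 h3' le_rfl hT)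
  rw [one_grp h m0 m1 (gC a b 8) (fun i hi => by
    have h8 : i ≠ 8 := fun e => hi (by rw [e])
    fin_cases i <;> simp [bl] at h8 ⊢)]
  have key : ∀ i, gC a b i = gC a b 8 → i ≠ 0 ∧ i ≠ 2 := fun i hi =>
    ⟨fun e => P.g08 (by rw [← e, hi]), fun e => P.g08 (by rw [P.g02, ← e, hi])⟩
  rw [h.zero _ (bl T 0 0 0 0) (fun i hi => by
      obtain ⟨h0, h2⟩ := key i hi
      fin_cases i <;> simp [bl] at h0 h2 ⊢),
    h.loc _ (bl T 0 0 xa 0) (Pi.single 8 xa) (fun i hi => by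
      obtain ⟨h0, h2⟩ := key i hi
      fin_cases i <;> simp [bl] at h0 h2 ⊢)]
  ring

theorem lam_bl9 (hL : ∀ p, Legal monQ p → p ∈ L)
    (h : OutS (gC a b) L (dhC a b) (nC a b) lam A φ r) (P : PlE a b κ) {T xb : ℝ}
    (hT : 0 ≤ T) (h3 : 0 ≤ xb) (h3' : xb ≤ T) :
    lam (bl T 0 0 0 0) - lam (bl T 0 0 0 xb) = -φ (gC a b 9) (Pi.single 9 xb) := by
  have m0 : bl T 0 0 0 0 ∈ L := hL _ (bl_legal hT le_rfl le_rfl hT le_rfl hT le_rfl hT)
  have m1 : bl T 0 0 0 xb ∈ L := hL _ (bl_legal hT le_rfl le_rfl hT le_rfl hT h3 h3')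
  rw [one_grp h m0 m1 (gC a b 9) (fun i hi => by
    have h9 : i ≠ 9 := fun e => hi (by rw [e])
    fin_cases i <;> simp [bl] at h9 ⊢)]
  have key : ∀ i, gC a b i = gC a b 9 → i ≠ 0 ∧ i ≠ 2 := fun i hi =>
    ⟨fun e => P.g09 (by rw [← e, hi]), fun e => P.g09 (by rw [P.g02, ← e, hi])⟩
  rw [h.zero _ (bl T 0 0 0 0) (fun i hi => by
      obtain ⟨h0, h2⟩ := key i hi
      fin_cases i <;> simp [bl] at h0 h2 ⊢),
    h.loc _ (bl T 0 0 0 xb) (Pi.single 9 xb) (fun i hi => by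
      obtain ⟨h0, h2⟩ := key i hi
      fin_cases i <;> simp [bl] at h0 h2 ⊢)]
  ring

/-- homogeneity of a single slot, the box need not be legal -/
theorem hom_single (hL : ∀ p, Legal monQ p → p ∈ L)
    (h : OutS (gC a b) L (dhC a b) (nC a b) lam A φ r)
    (hom : ∀ k, k ≠ 0 → ∀ c ∈ L, ∀ s : ℝ, 0 ≤ s → φ k (s • c) = s * φ k c) {j : Fin 11}
    (hj : gC a b j ≠ 0) {c1 : Fin 11 → ℝ} (hc1 : c1 ∈ L)
    (hc : ∀ i, gC a b i = gC a b j → c1 i = if i = j then 1 else 0) {y : ℝ} (hy : 0 ≤ y) :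
    φ (gC a b j) (Pi.single j y) = y * φ (gC a b j) (Pi.single j 1) := by
  have e1 : φ (gC a b j) (Pi.single j 1) = φ (gC a b j) c1 := h.loc _ _ _ fun i hi => by
    rw [hc i hi, Pi.single_apply]
  have e2 : φ (gC a b j) (Pi.single j y) = φ (gC a b j) (y • c1) := h.loc _ _ _ fun i hi => by
    rw [Pi.smul_apply, hc i hi, Pi.single_apply]
    split_ifs <;> simp
  rw [e1, e2, hom _ hj c1 hc1 y hy]

/-- **fullness of `X_a` and `X_b`** from a window model at the level `1` -/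
theorem full_of_NE (hL : ∀ p, Legal monQ p → p ∈ L)
    (h : OutS (gC a b) L (dhC a b) (nC a b) lam A φ r) (P : PlE a b κ)
    (sharp : ∀ c ∈ L, ∀ c' ∈ L, c ≤ c' → lam c - lam c' ≤ ∑ s, (c' s - c s))
    (hom : ∀ k, k ≠ 0 → ∀ c ∈ L, ∀ s : ℝ, 0 ≤ s → φ k (s • c) = s * φ k c)
    {m : ℝ} (hm : 0 < m)
    (sw : ∀ t xa : ℝ, 0 ≤ t → t ≤ 1 → 0 ≤ xa → xa ≤ 1 →
      m * t ≤ lam (bl 1 0 0 xa 0) - lam (bl 1 t 0 xa 0))
    {B : Base} {G : ℕ → RCfg (Fin 11)} {Leg : Set (Fin 11 → ℝ)} {ν : (Fin 11 → ℝ) → ℝ} {D : ℝ}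
    {f : ℕ → ℕ → ℝ} (H : NE B G Leg ν 1 D f) (htw : RawTw B G fun n k k' => f n k' - f n k)
    {c₁ : ℝ} (hν : ∀ ca cb xa xb : ℝ, ν (bw ca cb xa xb) = lam (bl 1 ca cb xa xb) - c₁) :
    φ (gC a b 8) (Pi.single 8 1) ≤ -1 ∧ φ (gC a b 9) (Pi.single 9 1) ≤ -1 := by
  have hmem : ∀ ca cb xa xb : ℝ, 0 ≤ ca → 0 ≤ cb → cb ≤ 1 → 0 ≤ xa → xa ≤ 1 → 0 ≤ xb → xb ≤ 1 →
      bl 1 ca cb xa xb ∈ L := fun ca cb xa xb h1 h2 h3 h4 h5 h6 h7 =>
    hL _ (bl_legal zero_le_one h1 h2 h3 h4 h5 h6 h7)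
  have c1 : bl 1 0 0 1 0 ∈ L := hmem 0 0 1 0 le_rfl le_rfl zero_le_one zero_le_one le_rfl le_rfl
    zero_le_one
  have c2 : bl 1 0 0 0 1 ∈ L := hmem 0 0 0 1 le_rfl le_rfl zero_le_one le_rfl zero_le_one
    zero_le_one le_rfl
  have hom8 : ∀ y : ℝ, 0 ≤ y → φ (gC a b 8) (Pi.single 8 y) = y * φ (gC a b 8) (Pi.single 8 1) :=
    fun y hy => hom_single hL h hom P.g8 c1 (fun i hi => by
      have h0 : i ≠ 0 := fun e => P.g08 (by rw [← e, hi])
      have h2 : i ≠ 2 := fun e => P.g08 (by rw [P.g02, ← e, hi])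
      fin_cases i <;> simp [bl] at h0 h2 ⊢) hy
  have hom9 : ∀ y : ℝ, 0 ≤ y → φ (gC a b 9) (Pi.single 9 y) = y * φ (gC a b 9) (Pi.single 9 1) :=
    fun y hy => hom_single hL h hom P.g9 c2 (fun i hi => by
      have h0 : i ≠ 0 := fun e => P.g09 (by rw [← e, hi])
      have h2 : i ≠ 2 := fun e => P.g09 (by rw [P.g02, ← e, hi])
      fin_cases i <;> simp [bl] at h0 h2 ⊢) hy
  -- `X_a`
  have xa_full : ∀ y : ℝ, 0 < y → y ≤ 1 → y ≤ lam (bl 1 0 0 0 0) - lam (bl 1 0 0 y 0) := by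
    intro y hy hy1
    have := H.xa (y := y) (c := m) hy hy1 hm (by
      intro t ht hty
      rw [hν, hν]
      have := sw t t ht (hty.trans hy1) ht (hty.trans hy1)
      linarith) (by
      intro t ht hty
      rw [hν, hν]
      have h1 := sharp _ (hmem 0 0 t 0 le_rfl le_rfl zero_le_one ht (hty.trans hy1) le_rfl
        zero_le_one) _ (hmem 0 0 y 0 le_rfl le_rfl zero_le_one hy.le hy1 le_rfl zero_le_one)
        (by intro i; fin_cases i <;> simp [bl, hty])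
      have h2 : ∑ s, (bl 1 0 0 y 0 s - bl 1 0 0 t 0 s) = y - t := by
        simp [Fin.sum_univ_succ, bl]
      linarith)
    rw [hν, hν] at this
    linarith
  have h8 : φ (gC a b 8) (Pi.single 8 1) ≤ -1 := by
    have h1 := xa_full 1 one_pos le_rfl
    rw [lam_bl8 hL h P zero_le_one zero_le_one le_rfl] at h1
    linarith
  refine ⟨h8, ?_⟩
  -- `X_b`
  have key := H.kappa_one (a := -φ (gC a b 9) (Pi.single 9 1)) (m := m)
    (β := fun cb xa => lam (bl 1 0 0 0 0) - lam (bl 1 0 cb xa 0))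
    (γ := fun ca => lam (bl 1 0 0 0 0) - lam (bl 1 ca 0 0 0)) hm htw (by
      intro ca cb xa xb h1 _ h2 h2' h3 h3' h4 h4'
      rw [hν, hν, lam_bl hL h P zero_le_one h1 h2 h2' h3 h3' h4 h4',
        lam_bl9 hL h P zero_le_one h4 h4', hom9 xb h4]
      ring) (by
      intro t ht ht1
      rcases ht.eq_or_lt with rfl | ht0
      · simp
      · exact xa_full t ht0 ht1) (by
      intro t ht ht1
      exact sw t 0 ht ht1 le_rfl zero_le_one)
  linarith

/-- **rates of the groups of `z`, `X_a`, `X_b`** -/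
theorem rates_of_full (hL : ∀ p, Legal monQ p → p ∈ L)
    (h : OutS (gC a b) L (dhC a b) (nC a b) lam A φ r) (P : PlE a b κ) (haL : a ∈ L)
    (hom : ∀ k, k ≠ 0 → ∀ c ∈ L, ∀ s : ℝ, 0 ≤ s → φ k (s • c) = s * φ k c)
    (own : ∀ c ∈ L, ∀ c' ∈ L, c ≤ c' → (∀ i, c i = 0) → c' 0 - c 0 ≤ lam c - lam c')
    (h8 : φ (gC a b 8) (Pi.single 8 1) ≤ -1) (h9 : φ (gC a b 9) (Pi.single 9 1) ≤ -1) :
    1 ≤ r (gC a b 0) ∧ 1 ≤ r (gC a b 8) ∧ 1 + κ ≤ r (gC a b 9) := by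
  have hκ := P.κ0
  have m0 : (0 : Fin 11 → ℝ) ∈ L := by
    refine hL _ (legalQ_iff.2 ⟨fun k => le_rfl, ?_, ?_, ?_, ?_, ?_, ?_, ?_, ?_, ?_, ?_, ?_⟩) <;> simp
  have e0 : Legal monQ (Pi.single 0 1 : Fin 11 → ℝ) := by
    refine legalQ_iff.2 ⟨fun k => ?_, ?_, ?_, ?_, ?_, ?_, ?_, ?_, ?_, ?_, ?_, ?_⟩
    · by_cases hk : k = 0
      · subst hk; simp
      · rw [Pi.single_eq_of_ne hk]
    all_goals simp [Pi.single_apply]
  have a1 : (1:ℝ) • a ∈ L := by rw [one_smul]; exact haL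
  refine ⟨?_, ?_, ?_⟩
  · have h1 := own 0 m0 _ (hL _ e0) (by
      intro k
      by_cases hk : k = 0
      · subst hk; simp
      · rw [Pi.single_eq_of_ne hk]; exact le_rfl) (fun _ => rfl)
    rw [one_grp h m0 (hL _ e0) (gC a b 0) (fun i hi => by
      have : i ≠ 0 := fun e => hi (by rw [e])
      rw [Pi.single_eq_of_ne this]; rfl), h.zero _ 0 (fun i _ => rfl)] at h1
    have h2 := rt_ge h P.nn P.g0 haL (hL _ e0) (u := 1) a1 (fun i hi => by
      by_cases hi0 : i = 0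
      · subst hi0; simp [P.a0]
      · rw [Pi.single_eq_of_ne hi0, one_mul]; exact P.nn i)
    simp at h1
    linarith
  · have m1 : bl 1 0 0 1 0 ∈ L := hL _ (bl_legal zero_le_one le_rfl le_rfl zero_le_one zero_le_one
      le_rfl le_rfl zero_le_one)
    have key : ∀ i, gC a b i = gC a b 8 → i ≠ 0 ∧ i ≠ 2 := fun i hi =>
      ⟨fun e => P.g08 (by rw [← e, hi]), fun e => P.g08 (by rw [P.g02, ← e, hi])⟩
    have e1 : φ (gC a b 8) (bl 1 0 0 1 0) = φ (gC a b 8) (Pi.single 8 1) :=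
      h.loc _ _ _ fun i hi => by
        obtain ⟨h0, h2⟩ := key i hi
        fin_cases i <;> simp [bl] at h0 h2 ⊢
    have h2 := rt_ge h P.nn P.g8 haL m1 (u := 1) a1 (fun i hi => by
      obtain ⟨h0, h2⟩ := key i hi
      rw [one_mul]
      by_cases hi8 : i = 8
      · subst hi8; rw [P.a8]; simp [bl]
      · refine le_trans (le_of_eq ?_) (P.nn i)
        fin_cases i <;> simp [bl] at h0 h2 hi8 ⊢)
    linarith
  · have m1 : bl (1 + κ) 0 0 0 (1 + κ) ∈ L := hL _ (bl_legal (by linarith) le_rfl le_rfl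
      (by linarith) le_rfl (by linarith) (by linarith) le_rfl)
    have m2 : bl 1 0 0 0 1 ∈ L := hL _ (bl_legal zero_le_one le_rfl le_rfl zero_le_one le_rfl
      zero_le_one zero_le_one le_rfl)
    have key : ∀ i, gC a b i = gC a b 9 → i ≠ 0 ∧ i ≠ 2 := fun i hi =>
      ⟨fun e => P.g09 (by rw [← e, hi]), fun e => P.g09 (by rw [P.g02, ← e, hi])⟩
    have e1 : φ (gC a b 9) (bl (1 + κ) 0 0 0 (1 + κ)) = (1 + κ) * φ (gC a b 9) (Pi.single 9 1) := by
      have e2 : (1 + κ) • bl 1 0 0 0 1 = bl (1 + κ) 0 0 0 (1 + κ) := by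
        rw [bl_smul]; simp
      rw [← e2, hom _ P.g9 _ m2 _ (by linarith)]
      congr 1
      exact h.loc _ _ _ fun i hi => by
        obtain ⟨h0, h2⟩ := key i hi
        fin_cases i <;> simp [bl] at h0 h2 ⊢
    have h2 := rt_ge h P.nn P.g9 haL m1 (u := 1) a1 (fun i hi => by
      obtain ⟨h0, h2⟩ := key i hi
      rw [one_mul]
      by_cases hi9 : i = 9
      · subst hi9; rw [P.a9]; simp [bl]
      · refine le_trans (le_of_eq ?_) (P.nn i)
        fin_cases i <;> simp [bl] at h0 h2 hi9 ⊢)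
    have h3 : (1 + κ) * φ (gC a b 9) (Pi.single 9 1) ≤ (1 + κ) * -1 :=
      mul_le_mul_of_nonneg_left h9 (by linarith)
    linarith

end full

/-! ### the row at an a.e. point -/

section row

open Crest.Agent.R136.Net191 (cK0)
open Crest.Agent.R136.Qg926 Crest.Agent.R136.Wq400
open Crest.Agent.R136.Aw413 (AeW WAt coneM zero_mem)
open Crest.Agent.R136.Xb403 (MaE stP stP_ok pok_base ne_of_wat cloM_base nu_bw bwT_base top_base
  cut_base cut_base')

variable {ι : ℕ → Type*} [∀ n, DecidableEq (ι n)] {B Bo : Base} {I J : ∀ n, Finset (ι n)}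
  {co : ∀ n, ι n → ι n → Fin 11 → ℝ} {Ma : Mons 11} {C : ℝ} {lam : (Fin 11 → ℝ) → ℝ}
  {a b : Fin 11 → ℝ} {κ : ℝ} {A : ℝ × ℝ} {φ : ℕ → (Fin 11 → ℝ) → ℝ} {r : ℕ → ℝ}
  {κo : Fin 11 → ℝ} {V Tw : Fin 11 → Prop} {f : ∀ n, ι n → Fq4}

/-- **the base row**: rates of the groups of `z`, `X_a`, `X_b`, full slots `X_a`, `X_b` -/
theorem base_row (h : AeW B Bo I J co monQ Ma C lam a b A φ r 0 1 κo V Tw)
    (hco : ∀ n, ∀ i ∈ I n, ∀ j ∈ I n, co n i j = coQ (f n i) (f n j))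
    (hne : ∀ᶠ n in (U : Filter ℕ), (J n).Nonempty) (hM : MaE Ma) (P : PlE a b κ)
    (haL : a ∈ coneM Ma) (hV : ∀ k, V k → k = 2 ∨ k = 3 ∨ k = 4) (hTw : Tw 2) (hC : 0 ≤ C)
    (hom : ∀ k, k ≠ 0 → ∀ c ∈ coneM Ma, ∀ s : ℝ, 0 ≤ s → φ k (s • c) = s * φ k c)
    {m : ℝ} (hm : 0 < m)
    (sw : ∀ t xa : ℝ, 0 ≤ t → t ≤ 1 → 0 ≤ xa → xa ≤ 1 →
      m * t ≤ lam (bl 1 0 0 xa 0) - lam (bl 1 t 0 xa 0)) :
    1 ≤ r (gC a b 0) ∧ 1 ≤ r (gC a b 8) ∧ 1 + κ ≤ r (gC a b 9) ∧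
      φ (gC a b 8) (Pi.single 8 1) ≤ -1 ∧ φ (gC a b 9) (Pi.single 9 1) ≤ -1 := by
  have hK0 : 1 ≤ cK0 monQ C := cK0_one hC
  have hL : ∀ p, Legal monQ p → p ∈ coneM Ma := fun p hp k e he => hp.wall k e (h.sub k he)
  have hok := stP_ok (K := 4 * cK0 monQ C) (T := 1) pok_base (by linarith) zero_le_one h.sub
  obtain ⟨W, hW, -, -⟩ := h.wnd (stP {0, 2} {0, 2, 5, 6, 8, 9} (4 * cK0 monQ C) 1 Ma) rfl hok
    (fun _ _ => 1) (fun _ => Crest.Agent.R138.Ex926.Base.Sub.const one_pos) J (fun _ => 1)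
    (Eventually.of_forall fun n => Finset.Subset.refl _) hne
    (Crest.Agent.R138.Ex926.Base.Sub.const one_pos)
    (Eventually.of_forall fun n => by rw [one_mul])
  have own : ∀ c ∈ coneM Ma, ∀ c' ∈ coneM Ma, c ≤ c' → (∀ i, c i = 0) →
      c' 0 - c 0 ≤ lam c - lam c' := fun c hc c' hc' hcc h0 => by
    have := h.own c hc c' hc' hcc fun k _ => by rw [h0, h0, mul_zero]
    linarith
  -- density
  have hdens : lam (fun s => if s ∈ ({0, 2, 5, 6, 8, 9} : Finset (Fin 11)) then (1:ℝ) else 0) ≤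
      lam (Qg926.cut {0, 2}
        (fun s => if s ∈ ({0, 2, 5, 6, 8, 9} : Finset (Fin 11)) then (1:ℝ) else 0) 0) +
      lam (Qg926.cut {0, 2} 0
        fun s => if s ∈ ({0, 2, 5, 6, 8, 9} : Finset (Fin 11)) then (1:ℝ) else 0) := by
    rw [cut_base, cut_base', top_base]
    have m1 : (![1, 0, 1, 0, 0, 1, 1, 0, 1, 1, 0] : Fin 11 → ℝ) ∈ coneM Ma :=
      hL _ (bl_legal zero_le_one zero_le_one zero_le_one le_rfl zero_le_one le_rfl zero_le_one
        le_rfl)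
    have m2 : (![1, 0, 1, 0, 0, 0, 0, 0, 0, 0, 0] : Fin 11 → ℝ) ∈ coneM Ma :=
      hL _ (bl_legal zero_le_one le_rfl le_rfl zero_le_one le_rfl zero_le_one le_rfl zero_le_one)
    have m3 : (![0, 0, 0, 0, 0, 1, 1, 0, 1, 1, 0] : Fin 11 → ℝ) ∈ coneM Ma := by
      refine hL _ (legalQ_iff.2 ⟨fun k => ?_, ?_, ?_, ?_, ?_, ?_, ?_, ?_, ?_, ?_, ?_, ?_⟩)
      · fin_cases k <;> simp
      all_goals simp
    have hs := split2 h.out (zero_mem (Ma := Ma)) m3 m2 m1 (by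
      intro k
      by_cases hk : k = gC a b 0
      · left
        intro i hi
        rw [hk] at hi
        have h5 : i ≠ 5 := fun e => P.g0 (by rw [← hi, e, P.g5])
        have h6 : i ≠ 6 := fun e => P.g06 (by rw [← hi, e])
        have h8 : i ≠ 8 := fun e => P.g08 (by rw [← hi, e])
        have h9 : i ≠ 9 := fun e => P.g09 (by rw [← hi, e])
        fin_cases i <;> simp at h5 h6 h8 h9 ⊢
      · right
        intro i hi
        have h0 : i ≠ 0 := fun e => hk (by rw [← hi, e])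
        have h2 : i ≠ 2 := fun e => hk (by rw [← hi, e, P.g02])
        fin_cases i <;> simp at h0 h2 ⊢)
    rw [h.zero] at hs
    linarith
  obtain ⟨E', hNE, htw⟩ := ne_of_wat pok_base ⟨by decide, by decide, by decide, by decide⟩
    (by decide) hW hco hM h.sub (cloM_base Ma) one_pos (fun k hk => by
      rcases hV k hk with rfl | rfl | rfl
      · left; decide
      · right; decide
      · right; decide) hTw hdens (fun y hy _ => by
      have m1 : Pi.single 0 y ∈ coneM Ma := hL _ (by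
        refine legalQ_iff.2 ⟨fun k => ?_, ?_, ?_, ?_, ?_, ?_, ?_, ?_, ?_, ?_, ?_, ?_⟩
        · by_cases hk : k = 0
          · subst hk; simpa using hy
          · rw [Pi.single_eq_of_ne hk]
        all_goals simp [Pi.single_apply, hy])
      have h1 := own 0 zero_mem _ m1 (by
        intro k
        by_cases hk : k = 0
        · subst hk; simpa using hy
        · rw [Pi.single_eq_of_ne hk]; exact le_rfl) (fun _ => rfl)
      rw [h.zero] at h1
      simp at h1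
      linarith)
  have hν : ∀ ca cb xa xb : ℝ, W.nu (bw ca cb xa xb) = lam (bl 1 ca cb xa xb) - lam W.top := by
    intro ca cb xa xb
    rw [nu_bw, hW.elam, hW.eS, hW.etop]
    show lam (Xb403.bwT {0, 2} (fun s : Fin 11 => if s ∈ ({0, 2, 5, 6, 8, 9} : Finset (Fin 11))
      then (1:ℝ) else 0) ca cb xa xb) - _ = _
    rw [bwT_base]
    rfl
  obtain ⟨h8, h9⟩ := full_of_NE hL h.out P h.sharp hom hm sw hNE htw hν
  obtain ⟨r0, r8, r9⟩ := rates_of_full hL h.out P haL hom own h8 h9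
  exact ⟨r0, r8, r9, h8, h9⟩

end row

end Crest.Agent.R136.LdF5511
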