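import Crest.Agent.R136.Z2j_57_Mg
import Crest.Agent.R136.CW3_366
import Crest.Agent.R136.Rgo_569
import Crest.Agent.R136.CD3_366
import Crest.Agent.R136.CV1_366
import Crest.Agent.R136.C3c_795
import Crest.Agent.R136.C3g_795
import Crest.Agent.R136.Xb2_403
import Crest.Agent.R136.C1a_865
import Crest.Agent.R136.Dl1_667
import Crest.Agent.R136.Tb6_628
import Crest.Agent.R136.LdF5_511
import Crest.Agent.R136.C1d_865
import Crest.Agent.R136.TopB_550
import Crest.Agent.R136.LdF5_683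

-- ▼ part R136/Z2k_57
section

/-!
# R136, case (C2z) (helper57): `FC2` and the row
-/

set_option autoImplicit false
set_option linter.unusedVariables false
set_option linter.unusedSectionVars false

open Filter Topology

namespace Crest.Agent.R136.Z2H57

open Crest.Agent.R136.Net191
open Crest.Agent.R136.NetQ186
open Crest.Agent.R136.NatR550
open Crest.Agent.R136.Aw413
open Crest.Agent.R138.Ex926 (Base U)

theorem single5_mem {x : ℝ} (hx : 0 ≤ x) : (Pi.single 5 x : Fin 11 → ℝ) ∈ coneN := by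
  simp only [coneN, Set.mem_ofPred_eq]
  refine ⟨?_, ?_, ?_, ?_, ?_, ?_, ?_, ?_, ?_, ?_⟩ <;> simp [hx]

theorem single26_mem {x : ℝ} (hx : 0 ≤ x) :
    (Pi.single 2 x + Pi.single 6 x : Fin 11 → ℝ) ∈ coneN := by
  simp only [coneN, Set.mem_ofPred_eq]
  refine ⟨?_, ?_, ?_, ?_, ?_, ?_, ?_, ?_, ?_, ?_⟩ <;> simp [hx]

theorem smul_uC (x : ℝ) : x • uC = Pi.single 5 x := by
  funext k
  fin_cases k <;> simp [uC]

theorem smul_uB (x : ℝ) : x • uB = Pi.single 2 x + Pi.single 6 x := by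
  funext k
  fin_cases k <;> simp [uB]

/-- the sweeps at the origin -/
theorem sweeps0 {Ma : Mons 11} {lam : (Fin 11 → ℝ) → ℝ} (hcone : coneM Ma = coneN)
    (h1 : S1L (coneM Ma) lam) (h2 : S2L (coneM Ma) lam) : ∃ c : ℝ, 0 < c ∧
      (∀ x : ℝ, 0 ≤ x → x ≤ 1 → c * x ≤ lam 0 - lam (Pi.single 5 x)) ∧
      (∀ x : ℝ, 0 ≤ x → x ≤ 1 → c * x ≤ lam 0 - lam (Pi.single 2 x + Pi.single 6 x)) := by
  obtain ⟨c1, hc1, H1⟩ := h1
  obtain ⟨c2, hc2, H2⟩ := h2
  refine ⟨min c1 c2, lt_min hc1 hc2, fun x hx _ => ?_, fun x hx _ => ?_⟩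
  · have := H1 0 zero_mem rfl x hx (by rw [zero_add, smul_uC, hcone]; exact single5_mem hx)
    rw [zero_add, smul_uC] at this
    exact (mul_le_mul_of_nonneg_right (min_le_left _ _) hx).trans this
  · have := H2 0 zero_mem rfl rfl le_rfl x hx
      (by rw [zero_add, smul_uB, hcone]; exact single26_mem hx)
    rw [zero_add, smul_uB] at this
    exact (mul_le_mul_of_nonneg_right (min_le_right _ _) hx).trans this

/-- **F-half of (C2z)** for every `κ > 0` (slope `1/2`), from 400's `c2_all` -/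
theorem fc2 (κ : ℝ) (hκ : 0 < κ) : FC2 κ (1 / 2) := by
  intro B I J co f Ma C lam A φ r κo V Tw hC hco hcone hne hout hhom h k0 k3 hV hTw h1 h2
  obtain ⟨c, hc, S1, S2⟩ := sweeps0 hcone h1 h2
  exact C2p400.c2_all (f := f) hκ (by norm_num) (by norm_num) (Or.inr (by norm_num)) h hcone
    (fun n i _ j _ => hco n i j) hne (fun k hk => Or.inr ((hV k).1 hk)) ((hTw 3).2 rfl) hc S1 S2

/-- **case (C2z)** of the thick table, unconditional -/
theorem caseC2z' {η : ℝ} (hη : η ≤ 1 / 8) : TopB550.Dead η TopB550.pC2z :=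
  caseC2z hη fun κ hκ => ⟨1 / 2, fc2 κ hκ⟩

end Crest.Agent.R136.Z2H57
end

-- ▼ part R136/CW4_366
section

/-!
# R136: vector K3core: no heavy strips (helper366)
-/

set_option autoImplicit false
set_option linter.unusedVariables false
set_option linter.unusedSectionVars false

open Filter Topology Finset

namespace Crest.Agent.R136.CW366

open Crest.Agent.R138.Ex926 (Base U exists_tendsto)
open Crest.Agent.R136.Gf356
open Crest.Agent.R136.CD366

variable {B : Base} {G : ℕ → RCfg (Fin 11)} {Leg : Set (Fin 11 → ℝ)} {ν : (Fin 11 → ℝ) → ℝ}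
  {σ R D : ℝ} {fa fb : ℕ → ℕ → ℝ} {R0 C1 a c K0 : ℝ}

open Classical in
/-- no heavy strips of power width -/
theorem no_strip_V (H : RModel B G σ R Leg ν D)
    (K : KV B G Leg ν fa fb R0 C1 a c K0) (hR0 : R0 ≤ R) (ha : a < σ) :
    ∃ η : ℝ, 0 < η ∧ ∀ Y0 Y1 : ℝ, 0 < Y0 → Y1 ≤ R0 → ¬ ∀ᶠ n in (U : Filter ℕ),
      ∃ w : ℝ, B.d n ^ Y1 ≤ w ∧ w ≤ B.d n ^ Y0 ∧ ∃ Z' ⊆ (G n).Z, Z'.Nonempty ∧
        w ^ η * ((G n).Z.card : ℝ) ≤ Z'.card ∧ ∃ μa μb : ℝ, ∀ k ∈ Z', ∀ k' ∈ Z',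
        |fa n k' - fa n k - μa * ((G n).z k' - (G n).z k)| ≤ 2 * w ∧
        |fb n k' - fb n k - μb * ((G n).z k' - (G n).z k)| ≤ 2 * w := by
  obtain ⟨η₁, hη₁, H1⟩ := no_slope_V H K hR0 ha
  obtain ⟨η₂, hη₂, H2⟩ := no_flat_V H K hR0 ha
  set e1 : ℝ := min η₁ 1 with he1
  have he10 : 0 < e1 := lt_min hη₁ one_pos
  have he1η : e1 ≤ η₁ := min_le_left _ _
  have he11 : e1 ≤ 1 := min_le_right _ _
  refine ⟨min (e1 / 2) (e1 * η₂ / 4), lt_min (by positivity) (by positivity), ?_⟩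
  set η : ℝ := min (e1 / 2) (e1 * η₂ / 4) with hη
  have hη0 : 0 < η := lt_min (by positivity) (by positivity)
  have hηa : η ≤ e1 / 2 := min_le_left _ _
  have hηb : η ≤ e1 * η₂ / 4 := min_le_right _ _
  intro Y0 Y1 hY0 hY1 Hy
  obtain ⟨w, hw⟩ := Hy.choice
  -- exponent of the width
  have hlog : ∀ n, Real.log (B.d n) < 0 := fun n => Real.log_neg (B.pos n) (B.lt n)
  have hv : ∀ᶠ n in (U : Filter ℕ), Y0 ≤ Real.log (w n) / Real.log (B.d n) ∧
      Real.log (w n) / Real.log (B.d n) ≤ Y1 := by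
    filter_upwards [hw] with n hn
    have hw0 : 0 < w n := (rpos B n _).trans_le hn.1
    have g1 := Real.log_le_log (rpos B n _) hn.1
    have g2 := Real.log_le_log hw0 hn.2.1
    rw [Real.log_rpow (B.pos n)] at g1 g2
    constructor
    · rw [le_div_iff_of_neg (hlog n)]; exact g2
    · rw [div_le_iff_of_neg (hlog n)]; exact g1
  obtain ⟨v, hvt, -⟩ := exists_tendsto (f := fun n => Real.log (w n) / Real.log (B.d n))
    (C := |Y1|) (by
      filter_upwards [hv] with n hn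
      rw [abs_of_nonneg (hY0.le.trans hn.1)]
      exact hn.2.trans (le_abs_self _))
  have hv0 : Y0 ≤ v := ge_of_tendsto hvt (hv.mono fun n hn => hn.1)
  have hv1 : v ≤ Y1 := le_of_tendsto hvt (hv.mono fun n hn => hn.2)
  have hvpos : 0 < v := hY0.trans_le hv0
  set y : ℝ := 3 / 4 * v with hy
  have hypos : 0 < y := by positivity
  have hyR : y ≤ R0 := by rw [hy]; linarith
  have hwy : ∀ᶠ n in (U : Filter ℕ), w n ≤ B.d n ^ y ∧ B.d n ^ (3 / 2 * y) ≤ w n := by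
    have h1 : ∀ᶠ n in (U : Filter ℕ), |Real.log (w n) / Real.log (B.d n) - v| < v / 8 := by
      have := (Metric.tendsto_nhds.1 hvt) (v / 8) (by positivity)
      simpa [Real.dist_eq] using this
    filter_upwards [h1, hw] with n hn hwn
    have hw0 : 0 < w n := (rpos B n _).trans_le hwn.1
    have e2 : w n = B.d n ^ (Real.log (w n) / Real.log (B.d n)) := by
      rw [Real.rpow_def_of_pos (B.pos n), mul_div_cancel₀ _ (hlog n).ne, Real.exp_log hw0]
    rw [abs_lt] at hn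
    rw [e2]
    constructor
    · exact rpow_anti B n (by rw [hy]; linarith [hn.1])
    · exact rpow_anti B n (by rw [hy]; linarith [hn.2])
  clear_value y
  have hn1 := Ultrafilter.eventually_not.2 (H1 y hypos hyR)
  have hn2 := Ultrafilter.eventually_not.2 (H2 (e1 * y / 2) (by positivity) (by nlinarith))
  obtain ⟨n, hwn, hwyn, hN1, hN2, hc4, hbd⟩ := (hw.and (hwy.and (hn1.and (hn2.and
    ((ev_small B (show 0 < e1 * y / 2 by positivity) 4).and K.bd))))).exists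
  obtain ⟨hw1, hw2, Z', hZ', hne, hμ, μa, μb, haff0⟩ := hwn
  have hw0 : 0 < w n := (rpos B n _).trans_le hw1
  have hZc : (0 : ℝ) ≤ (G n).Z.card := Nat.cast_nonneg _
  have hmass : B.d n ^ (3 / 2 * y * η) * ((G n).Z.card : ℝ) ≤ Z'.card := by
    refine le_trans ?_ hμ
    refine mul_le_mul_of_nonneg_right ?_ hZc
    rw [Real.rpow_mul (B.pos n).le]
    exact Real.rpow_le_rpow (rpos B n _).le hwyn.2 hη0.le
  have haff : ∀ k ∈ Z', ∀ k' ∈ Z',
      |fa n k' - fa n k - μa * ((G n).z k' - (G n).z k)| ≤ 2 * B.d n ^ y ∧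
      |fb n k' - fb n k - μb * ((G n).z k' - (G n).z k)| ≤ 2 * B.d n ^ y := by
    intro k hk k' hk'
    have g0 := haff0 k hk k' hk'
    have g1 := hwyn.1
    exact ⟨g0.1.trans (by linarith), g0.2.trans (by linarith)⟩
  rcases le_or_gt (B.d n ^ (η₁ * y)) (max |μa| |μb|) with hcase | hcase
  · refine hN1 ⟨Z', hZ', hne, ?_, μa, μb, hcase, haff⟩
    refine le_trans ?_ hmass
    refine mul_le_mul_of_nonneg_right (rpow_anti B n ?_) hZc
    nlinarith
  · refine hN2 ⟨Z', hZ', hne, ?_, ?_⟩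
    · refine le_trans ?_ hmass
      refine mul_le_mul_of_nonneg_right (rpow_anti B n ?_) hZc
      have : y * η ≤ y * (e1 * η₂ / 4) := mul_le_mul_of_nonneg_left hηb hypos.le
      nlinarith
    · intro k hk k' hk'
      have g1 := haff k hk k' hk'
      have hz1 := (hbd k (hZ' hk)).1
      have hz2 := (hbd k' (hZ' hk')).1
      have g2 : |(G n).z k' - (G n).z k| ≤ 2 := (abs_sub _ _).trans (by linarith)
      have g4 : B.d n ^ y ≤ B.d n ^ (e1 * y) := rpow_anti B n (by nlinarith)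
      have g5 : B.d n ^ (e1 * y) = B.d n ^ (e1 * y / 2) * B.d n ^ (e1 * y / 2) := by
        rw [← rpow_add']; congr 1; ring
      have g6 := rpos B n (e1 * y / 2)
      have key : ∀ F μ : ℝ, |F - μ * ((G n).z k' - (G n).z k)| ≤ 2 * B.d n ^ y →
          |μ| ≤ B.d n ^ (η₁ * y) → |F| ≤ B.d n ^ (e1 * y / 2) := by
        intro F μ hF hμ'
        have g3 : |μ| ≤ B.d n ^ (e1 * y) := hμ'.trans (rpow_anti B n (by nlinarith))
        calc |F| = |(F - μ * ((G n).z k' - (G n).z k)) + μ * ((G n).z k' - (G n).z k)| := by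
              ring_nf
          _ ≤ |F - μ * ((G n).z k' - (G n).z k)| +
              |μ| * |(G n).z k' - (G n).z k| := by rw [← abs_mul]; exact abs_add_le _ _
          _ ≤ 2 * B.d n ^ (e1 * y) + B.d n ^ (e1 * y) * 2 := by
              have g7 := rpos B n (e1 * y)
              refine add_le_add (by linarith) ?_
              exact mul_le_mul g3 g2 (abs_nonneg _) g7.le
          _ = (4 * B.d n ^ (e1 * y / 2)) * B.d n ^ (e1 * y / 2) := by rw [g5]; ring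
          _ ≤ 1 * B.d n ^ (e1 * y / 2) := mul_le_mul_of_nonneg_right hc4 g6.le
          _ = _ := one_mul _
      exact ⟨key _ _ g1.1 ((le_max_left _ _).trans hcase.le),
        key _ _ g1.2 ((le_max_right _ _).trans hcase.le)⟩

end Crest.Agent.R136.CW366
end

-- ▼ part R136/Rgs_366
section

/-!
# R136: [RIG-0] on a heavy set of heights, general distances (helper366)

`rig_onS` : helper569's `rig_on` with general quantities `DP`, `DX` (for instance
`P - μ X_b`, `X_a`) in place of two slots; the near counts are a hypothesis.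
-/

set_option autoImplicit false
set_option linter.unusedVariables false
set_option linter.unusedSectionVars false

open Filter Topology Finset

namespace Crest.Agent.R136.CW366

open Crest.Agent.R138.Ex926 (Base U)
open Crest.Agent.R136.Gf356
open Crest.Agent.R136.CD366
open Crest.Agent.R136.CV366 (kauf_contra_S)
open Crest.Agent.R136.Rg0_501 (bpr markov_compl)
open Crest.Agent.R136.Rg1_501 (few_common_mesh)
open Crest.Agent.R136.Rgo569 (few_bad_g)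

open Classical in
set_option maxHeartbeats 3200000 in
/-- **[RIG-0] on a heavy set `Z0` of heights**, general quantities `DP`, `DX` with near counts as
hypothesis : `f` is affine in `z` up to a power on a heavy part of `Z0`. -/
theorem rig_onS {σ a s c η D C1 K0 : ℝ} (hK0 : 0 ≤ K0) (ha0 : 0 ≤ a) (has : a < s) (hsσ : s < σ) (hsc : s < a + c)
    (hc : 0 < c) (hσ1 : σ ≤ 1) (hη : 0 < η) (hD : 1 ≤ D) (hC1 : 1 ≤ C1) :
    ∃ α γ : ℝ, 0 < α ∧ α ≤ 1 ∧ 0 < γ ∧ ∀ {κ : Type} {B : Base}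
      {G : ℕ → RCfg κ} {Leg : Set (κ → ℝ)} {ν : (κ → ℝ) → ℝ} {R : ℝ}
      (H : RModel B G σ R Leg ν D) (p0 p1 r : κ → ℝ) (sN : κ) (f : ℕ → ℕ → ℝ)
      (DP DX : ℕ → ℕ → ℕ → ℕ → ℝ) (y : ℝ),
      0 < y → y ≤ R → p0 ∈ Leg → p1 ∈ Leg → r ∈ Leg → (∀ j, p0 j ≤ r j) →
      r sN = y → ν p0 - ν r ≤ a * y →
      (∀ t, 0 ≤ t → t ≤ y → ∀ ε : ℝ, 0 < ε → ∀ᶠ n in (U : Filter ℕ), ∀ i k, (i, k) ∈ (G n).I →
        ((((G n).box p1 ε i k).filter fun l => |DP n k i l| ≤ B.d n ^ (t - ε) ∧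
          |DX n k i l| ≤ B.d n ^ (t - ε)).card : ℝ) ≤
          B.d n ^ (-(ν p1) + (a + c) * t - K0 * (ε + γ * y))) →
      (∀ ε : ℝ, 0 < ε → ∀ᶠ n in (U : Filter ℕ), ∀ k i l, (i, k) ∈ (G n).I → (l, k) ∈ (G n).I →
        (G n).loose p1 ε k i l → |DP n k i l| ≤ B.d n ^ (-(γ * y + C1 * ε)) ∧
          |DX n k i l| ≤ B.d n ^ (-(γ * y + C1 * ε))) →
      (∀ᶠ n in (U : Filter ℕ), ∀ k ∈ (G n).Z, |(G n).z k| ≤ 1 ∧ |f n k| ≤ 1) →
      ∀ Z0 : ℕ → Finset ℕ, (∀ᶠ n in (U : Filter ℕ), Z0 n ⊆ (G n).Z ∧ (Z0 n).Nonempty ∧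
        B.d n ^ (γ * y) * ((G n).Z.card : ℝ) ≤ (Z0 n).card) →
      (∀ ε : ℝ, 0 < ε → ∀ᶠ n in (U : Filter ℕ), ∀ k₀ ∈ Z0 n, ∀ k ∈ Z0 n, ∀ i i',
        (i, k₀) ∈ (G n).I → (i', k₀) ∈ (G n).I → (i, k) ∈ (G n).I → (i', k) ∈ (G n).I →
        (G n).loose p1 ε k₀ i i' → (G n).loose p0 (C1 * ε) k i i' ∧
        |(G n).rel k i i' sN - (((G n).z k - (G n).z k₀) * DP n k₀ i i' -
          (f n k - f n k₀) * DX n k₀ i i')| ≤ B.d n ^ (y - C1 * ε)) →
      ∀ᶠ n in (U : Filter ℕ), ∃ w μ : ℝ, B.d n ^ y ≤ w ∧ w ≤ B.d n ^ (α * y) ∧ ∃ k₁ ∈ Z0 n,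
        w ^ η * ((Z0 n).card : ℝ) ≤ (((Z0 n).filter fun k =>
          |f n k - f n k₁ - μ * ((G n).z k - (G n).z k₁)| ≤ w).card : ℝ) := by
  have hs0 : 0 < s := ha0.trans_lt has
  have hσ0 : 0 < σ := hs0.trans hsσ
  have hs1 : s ≤ 1 := (hsσ.trans_le hσ1).le
  have hD0 : 0 < D := by linarith
  have hC10 : 0 < C1 := by linarith
  obtain ⟨α, c', hα, hα1, hc'0, hc'10, HB⟩ := few_bad_g hσ0 hs0 hsσ hσ1 hη
  -- the mesh
  have hμ0 : 0 < min (s - a) c := lt_min (by linarith) hc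
  obtain ⟨J, hJ⟩ : ∃ J : ℕ, 4 / min (s - a) c + 1 < J := exists_nat_gt _
  have hJ4 : 4 < min (s - a) c * ((J : ℝ) - 1) := by
    have : 4 / min (s - a) c < (J : ℝ) - 1 := by linarith
    rwa [div_lt_iff₀ hμ0, mul_comm] at this
  have hJ0 : (0 : ℝ) < (J : ℝ) + 1 := by positivity
  have hσc' : 0 < σ * c' := by positivity
  set A : ℝ := C1 * D ^ 7 with hA
  have hA1 : 1 ≤ A := by
    rw [hA]
    have h1 : 1 ≤ D ^ 7 := one_le_pow₀ hD
    calc (1 : ℝ) = 1 * 1 := (one_mul 1).symm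
      _ ≤ C1 * D ^ 7 := mul_le_mul hC1 h1 zero_le_one hC10.le
  set CD : ℝ := C1 * D ^ 2 + 1 with hCD
  have hD21 : 1 ≤ D ^ 2 := one_le_pow₀ hD
  have hCDD : D ^ 2 ≤ CD := by
    have h1 : 1 * D ^ 2 ≤ C1 * D ^ 2 := mul_le_mul_of_nonneg_right hC1 (by positivity)
    rw [hCD]; linarith
  have hCD0 : 0 < CD := by positivity
  set CN : ℝ := K0 * (CD + 1) + 1 with hCN
  have hCN0 : 0 < CN := by positivity
  set Ct : ℝ := (D ^ 2 + 1) * (C1 * D ^ 2) + CN + 2 + 2 * D + 12 with hCt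
  have hCt0 : 0 < Ct := by positivity
  set E : ℝ := Ct + 8 * A + 16 * (D + 8) / (σ * c') with hE
  have hE0 : 0 < E := by positivity
  set γ : ℝ := min (σ * c' / (16 * ((J : ℝ) + 1))) (1 / (((J : ℝ) + 1) * E)) with hγ
  have hγ0 : 0 < γ := lt_min (by positivity) (by positivity)
  have hγa : γ ≤ σ * c' / (16 * ((J : ℝ) + 1)) := min_le_left _ _
  have hγb : γ ≤ 1 / (((J : ℝ) + 1) * E) := min_le_right _ _
  clear_value γ
  refine ⟨α / ((J : ℝ) + 1), γ, by positivity, ?_, hγ0, ?_⟩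
  · rw [div_le_one hJ0]
    linarith [Nat.cast_nonneg (α := ℝ) J]
  intro κ B G Leg ν R H p0 p1 r sN f DP DX y hy0 hyR hp0L hp1L hrL h0r hrN hN hnear hDb hbd0
    Z0 hZ0' hev0
  set hh : ℝ := y / ((J : ℝ) + 1) with hhh
  have hh0 : 0 < hh := by positivity
  have hyh : ((J : ℝ) + 1) * hh = y := by rw [hhh]; field_simp
  have hαy : α / ((J : ℝ) + 1) * y = α * hh := by rw [hhh]; ring
  have hγy : γ * y ≤ σ * (c' * hh) / 16 := by
    have h1 := mul_le_mul_of_nonneg_right hγa hy0.le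
    have h2 : σ * c' / (16 * ((J : ℝ) + 1)) * y = σ * (c' * hh) / 16 := by
      rw [hhh]; field_simp
    linarith
  have hγε : γ * y ≤ hh / E := by
    have h1 := mul_le_mul_of_nonneg_right hγb hy0.le
    have h2 : 1 / (((J : ℝ) + 1) * E) * y = hh / E := by
      rw [hhh]; field_simp
    linarith
  rw [hαy]
  have hZ0 : ∀ᶠ n in (U : Filter ℕ), Z0 n ⊆ (G n).Z ∧ (Z0 n).Nonempty ∧
      B.d n ^ (σ * (c' * hh) / 16) * ((G n).Z.card : ℝ) ≤ (Z0 n).card := by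
    filter_upwards [hZ0'] with n hn
    exact ⟨hn.1, hn.2.1, (mul_le_mul_of_nonneg_right (rpow_anti B n hγy)
      (Nat.cast_nonneg _)).trans hn.2.2⟩
  clear_value hh
  set ε : ℝ := hh / E with hε
  have hε0 : 0 < ε := by positivity
  have hεh : E * ε = hh := by rw [hε]; field_simp
  have hq0 : 0 ≤ 16 * (D + 8) / (σ * c') := by positivity
  have hε1 : Ct * ε ≤ hh := by
    have h0 : 0 ≤ (8 * A + 16 * (D + 8) / (σ * c')) * ε := by positivity
    have h1 : E * ε = Ct * ε + (8 * A + 16 * (D + 8) / (σ * c')) * ε := by rw [hE]; ring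
    linarith
  have hε2 : 8 * A * ε ≤ hh := by
    have h0 : 0 ≤ (Ct + 16 * (D + 8) / (σ * c')) * ε := by positivity
    have h1 : E * ε = 8 * A * ε + (Ct + 16 * (D + 8) / (σ * c')) * ε := by rw [hE]; ring
    linarith
  have hε3 : 16 * (D + 8) * ε ≤ σ * (c' * hh) := by
    have h1 : 16 * (D + 8) / (σ * c') * ε ≤ hh := by
      have h0 : 0 ≤ (Ct + 8 * A) * ε := by positivity
      have h1 : E * ε = 16 * (D + 8) / (σ * c') * ε + (Ct + 8 * A) * ε := by rw [hE]; ring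
      linarith
    have h2 : (σ * c') * (16 * (D + 8) / (σ * c') * ε) = 16 * (D + 8) * ε := by field_simp
    rw [← h2]
    calc (σ * c') * (16 * (D + 8) / (σ * c') * ε) ≤ (σ * c') * hh :=
          mul_le_mul_of_nonneg_left h1 hσc'.le
      _ = _ := by ring
  clear_value ε E
  have hch0 : 0 < c' * hh := by positivity
  have hch : c' * hh ≤ hh / 10 := by
    have := mul_le_mul_of_nonneg_right hc'10 hh0.le
    linarith
  have hσch : σ * (c' * hh) ≤ c' * hh := by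
    have := mul_le_mul_of_nonneg_right hσ1 hch0.le
    linarith
  have hσch0 : 0 < σ * (c' * hh) := by positivity
  have hhy : hh ≤ y := by
    rw [← hyh]
    have : 0 ≤ (J : ℝ) * hh := by positivity
    linarith
  have hchR : c' * hh ≤ R := by linarith
  by_contra hcon
  rw [← Ultrafilter.eventually_not] at hcon
  -- no strips at all scales
  have hno : ∀ᶠ n in (U : Filter ℕ), ¬ ∃ w μ : ℝ, B.d n ^ y ≤ w ∧ w ≤ B.d n ^ (α * hh) ∧
      |μ| ≤ B.d n ^ (-(η * y)) ∧ ∃ k₁ ∈ Z0 n, w ^ η * ((Z0 n).card : ℝ) ≤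
        (((Z0 n).filter fun k => |f n k - f n k₁ - μ * ((G n).z k - (G n).z k₁)| ≤
          w).card : ℝ) := by
    filter_upwards [hcon] with n hn
    rintro ⟨w, μ, h1, h2, -, k₁, hk₁, h3⟩
    exact hn ⟨w, μ, h1, h2, k₁, hk₁, h3⟩
  have hfrZ : ∀ t : ℝ, 0 ≤ t → t ≤ y → ∀ᶠ n in (U : Filter ℕ), ∀ k ∈ Z0 n,
      ((((Z0 n)).filter fun k' => |(G n).z k' - (G n).z k| ≤ B.d n ^ t).card : ℝ) ≤
        B.d n ^ (σ * t - σ * (c' * hh) / 8) * ((Z0 n).card : ℝ) := by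
    intro t ht0 hty
    filter_upwards [H.frost t ht0 (hty.trans hyR) (σ * (c' * hh) / 16) (by positivity), hZ0]
      with n hn hz k hk
    obtain ⟨hz1, hz2, hz3⟩ := hz
    have g1 : (((Z0 n).filter fun k' => |(G n).z k' - (G n).z k| ≤ B.d n ^ t).card : ℝ) ≤
        (((G n).hbox t k).card : ℝ) := by
      refine mod_cast card_le_card ?_
      intro k' hk'
      unfold RCfg.hbox
      rw [mem_filter] at hk' ⊢
      rw [H.base n]
      exact ⟨hz1 hk'.1, hk'.2⟩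
    refine g1.trans ((hn k (hz1 hk)).trans ?_)
    have g2 : B.d n ^ (σ * t - σ * (c' * hh) / 16) * ((G n).Z.card : ℝ) =
        B.d n ^ (σ * t - σ * (c' * hh) / 8) *
          (B.d n ^ (σ * (c' * hh) / 16) * ((G n).Z.card : ℝ)) := by
      have g3 : σ * t - σ * (c' * hh) / 16 = (σ * t - σ * (c' * hh) / 8) + σ * (c' * hh) / 16 := by
        ring
      rw [g3, rpow_add']; ring
    rw [g2]
    exact mul_le_mul_of_nonneg_left hz3 (rpos B n _).le
  have hbd : ∀ᶠ n in (U : Filter ℕ), ∀ k ∈ Z0 n, |(G n).z k| ≤ 1 ∧ |f n k| ≤ 1 := by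
    filter_upwards [hbd0, hZ0] with n h1 h2 k hk
    exact h1 k (h2.1 hk)
  have hbadAll := HB B Z0 (fun n => (G n).z) f y hh (σ * (c' * hh) / 8) J hh0 hyh
    (by positivity) (by linarith) hbd hfrZ hno
  have hxj : ∀ j ≤ J, (0 : ℝ) ≤ (j : ℝ) * hh ∧ (j : ℝ) * hh ≤ y := by
    intro j hj
    have h1 : (j : ℝ) ≤ J := by exact_mod_cast hj
    refine ⟨by positivity, ?_⟩
    have h2 := mul_le_mul_of_nonneg_right h1 hh0.le
    linarith
  have hD2ε : 0 < D ^ 2 * ε := by positivity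
  have hCDε : 0 < CD * ε := by positivity
  have hnr : ∀ᶠ n in (U : Filter ℕ), ∀ j ∈ range (J + 1), ∀ i k, (i, k) ∈ (G n).I →
      ((((G n).box p1 (CD * ε) i k).filter fun l =>
        |DP n k i l| ≤ B.d n ^ ((j : ℝ) * hh - CD * ε) ∧
        |DX n k i l| ≤ B.d n ^ ((j : ℝ) * hh - CD * ε)).card : ℝ) ≤
        B.d n ^ (-(ν p1) + (a + c) * ((j : ℝ) * hh) - K0 * (CD * ε + γ * y)) := by
    rw [Filter.eventually_all_finset]
    intro j hj
    have hj' : j ≤ J := by simpa [Nat.lt_succ_iff] using hj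
    exact hnear _ (hxj j hj').1 (hxj j hj').2 (CD * ε) hCDε
  refine kauf_contra_S H p1 p0 r hp1L hp0L hrL h0r J
    (fun j => ν p1 - (a + c) * ((j : ℝ) * hh)) (a := a) (c := c) (τ := s) (hh := hh)
    (CT := C1 * D ^ 2) (CN := CN) (Cb := 2) (CD := CD) (ε := ε) ha0 has hs1 hc
    hJ4 hh0
    (by positivity) hCN0 (by norm_num) hε0 hε1
    (by rw [hyh]; exact hN)
    (fun j hj => by linarith)
    (fun n k₀ i i' => max |DP n k₀ i i'| |DX n k₀ i i'|) ?_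
  filter_upwards [hnr, hDb (D ^ 2 * ε) hD2ε, hbadAll, H.frost (c' * hh) hch0.le hchR ε hε0,
    box_pair H.toRUnif p1 hp1L hε0, hev0 (D ^ 2 * ε) hD2ε, hbd0, hZ0,
    ev_small B (show 0 < c' * hh / 2 by positivity) (2 * (J : ℝ)),
    ev_small B (half_pos hh0) 16, ev_small B hε0 4,
    ev_small B (show 0 < ε by exact hε0) (4 * (J : ℝ))]
    with n hnrn hDbn hbad hfr hpair hev hbdZ hZn hcJ hc16 hce hceJ
  obtain ⟨hZ0Z, hZ0ne, hZ0c⟩ := hZn
  have hpow : ∀ t : ℝ, 0 < B.d n ^ t := fun t => rpos B n t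
  have hZpos : (0 : ℝ) < (Z0 n).card := by exact_mod_cast card_pos.2 hZ0ne
  set θ : ℝ := B.d n ^ (c' * hh / 2) with hθ
  have hθ0 : 0 < θ := hpow _
  set bad : ℕ → Finset (ℕ × ℕ) := fun l =>
    bpr (Z0 n) (G n).z (f n) (B.d n ^ (((l + 1 : ℕ) : ℝ) * hh)) c' s with hbaddef
  set Z' := (Z0 n).filter fun k₀ => ∀ l ∈ range J,
    (((Z0 n).filter fun k => (k₀, k) ∈ bad l).card : ℝ) ≤ θ * (Z0 n).card with hZ'
  have hmk0 : (((Z0 n) \ Z').card : ℝ) ≤ J * (θ * (Z0 n).card) := by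
    have := markov_compl (Z0 n) J bad hθ0 hbad
    convert this using 3
  have hmk : ((Z0 n).card : ℝ) ≤ 2 * (Z'.card : ℝ) := by
    have h1 : (((Z0 n) \ Z').card : ℝ) + Z'.card = (Z0 n).card := by
      exact_mod_cast card_sdiff_add_card_eq_card (filter_subset _ _)
    have h2 : (J : ℝ) * (θ * (Z0 n).card) ≤ (Z0 n).card / 2 := by
      have : 2 * (J : ℝ) * θ * (Z0 n).card ≤ 1 * (Z0 n).card :=
        mul_le_mul_of_nonneg_right hcJ hZpos.le
      linarith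
    linarith
  have hZ'pos : (0 : ℝ) < Z'.card := by linarith
  have hZ'Z0 : Z' ⊆ Z0 n := filter_subset _ _
  have hZ'Z : Z' ⊆ (G n).Z := hZ'Z0.trans hZ0Z
  have hpin : ∀ k₀ ∈ Z', ∀ l ∈ range J,
      (((Z0 n).filter fun k => (k₀, k) ∈ bad l).card : ℝ) ≤ θ * (Z0 n).card := by
    intro k₀ hk₀'
    rw [hZ', mem_filter] at hk₀'; exact hk₀'.2
  clear_value Z'
  refine ⟨Z', hZ'Z, card_pos.1 (by exact_mod_cast hZ'pos), fun k₀ hk₀' =>
    ⟨Z'.filter fun k => B.d n ^ (c' * hh) < |(G n).z k - (G n).z k₀| ∧ ∀ l ∈ range J,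
      (k₀, k) ∉ bad l, filter_subset _ _, ?_, ?_⟩⟩
  · -- the removed heights
    have hk₀ := hZ'Z hk₀'
    have hcard := Crest.Agent.R138.TwF501.sdiff_count Z' ((G n).hbox (c' * hh) k₀) J
      (fun l => (Z0 n).filter fun k => (k₀, k) ∈ bad l)
      (fun k => B.d n ^ (c' * hh) < |(G n).z k - (G n).z k₀| ∧ ∀ l ∈ range J,
        (k₀, k) ∉ bad l) (by
        intro k hk hgood
        by_cases hz : B.d n ^ (c' * hh) < |(G n).z k - (G n).z k₀|
        · right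
          have h3 : ¬ ∀ l ∈ range J, (k₀, k) ∉ bad l := fun h4 => hgood ⟨hz, h4⟩
          push Not at h3
          obtain ⟨l, hl, h4⟩ := h3
          exact ⟨l, hl, mem_filter.2 ⟨hZ'Z0 hk, h4⟩⟩
        · left
          unfold RCfg.hbox
          rw [mem_filter, H.base n]
          exact ⟨hZ'Z hk, not_lt.1 hz⟩) (hpin k₀ hk₀')
    have h1 := hfr k₀ hk₀
    have e5 : B.d n ^ (σ * (c' * hh) - ε) * ((G n).Z.card : ℝ) ≤
        B.d n ^ ((D + 5) * ε) * B.d n ^ ε * ((Z0 n).card : ℝ) := by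
      have g1 : B.d n ^ (σ * (c' * hh) - ε) ≤
          B.d n ^ ((D + 5) * ε) * B.d n ^ ε * B.d n ^ (σ * (c' * hh) / 16) := by
        rw [← rpow_add', ← rpow_add']
        refine rpow_anti B n ?_
        have hDε := mul_pos hD0 hε0
        linarith
      calc B.d n ^ (σ * (c' * hh) - ε) * ((G n).Z.card : ℝ)
          ≤ B.d n ^ ((D + 5) * ε) * B.d n ^ ε * B.d n ^ (σ * (c' * hh) / 16) *
              ((G n).Z.card : ℝ) := mul_le_mul_of_nonneg_right g1 (Nat.cast_nonneg _)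
        _ = B.d n ^ ((D + 5) * ε) * B.d n ^ ε *
              (B.d n ^ (σ * (c' * hh) / 16) * ((G n).Z.card : ℝ)) := by ring
        _ ≤ _ := mul_le_mul_of_nonneg_left hZ0c (mul_pos (hpow _) (hpow _)).le
    have e6 : θ ≤ B.d n ^ ((D + 5) * ε) * B.d n ^ ε := by
      rw [← rpow_add', hθ]
      refine rpow_anti B n ?_
      have hDε := mul_pos hD0 hε0
      linarith
    set de := B.d n ^ ((D + 5) * ε) with hde
    have hde0 : 0 < de := hpow _
    have hε' := hpow ε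
    have g1 : B.d n ^ (σ * (c' * hh) - ε) * ((G n).Z.card : ℝ) ≤ de / 2 * Z'.card := by
      calc B.d n ^ (σ * (c' * hh) - ε) * ((G n).Z.card : ℝ) ≤
            de * B.d n ^ ε * ((Z0 n).card : ℝ) := e5
        _ ≤ de * B.d n ^ ε * (2 * Z'.card) :=
            mul_le_mul_of_nonneg_left hmk (by positivity)
        _ = de / 2 * (4 * B.d n ^ ε) * Z'.card := by ring
        _ ≤ de / 2 * 1 * Z'.card := by gcongr
        _ = _ := by ring
    have g2 : (J : ℝ) * (θ * (Z0 n).card) ≤ de / 2 * Z'.card := by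
      calc (J : ℝ) * (θ * (Z0 n).card) ≤ J * (de * B.d n ^ ε * (2 * Z'.card)) := by
            gcongr
        _ = de / 2 * (4 * J * B.d n ^ ε) * Z'.card := by ring
        _ ≤ de / 2 * 1 * Z'.card := by gcongr
        _ = _ := by ring
    refine le_trans (le_of_eq ?_) (hcard.trans ?_)
    · congr
    · linarith
  have hk₀ := hZ'Z hk₀'
  intro i₀ hi₀
  have hI0 := H.memSlice.1 hi₀
  have hS : ∀ i ∈ (G n).box p1 ε i₀ k₀, (i, k₀) ∈ (G n).I := fun i hi =>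
    H.memSlice.1 (RCfg.box_subset_slice hi)
  have hSS : ∀ i ∈ (G n).box p1 ε i₀ k₀, ∀ i' ∈ (G n).box p1 ε i₀ k₀,
      (G n).loose p1 (D ^ 2 * ε) k₀ i i' := fun i hi i' hi' => hpair k₀ i₀ i i' hI0 hi hi'
  refine ⟨?_, ?_, ?_, ?_⟩
  · intro i hi i' hi'
    obtain ⟨g1, g2⟩ := hDbn k₀ i i' (hS i hi) (hS i' hi') (hSS i hi i' hi')
    have g3 : B.d n ^ (-(γ * y + C1 * (D ^ 2 * ε))) ≤ B.d n ^ (-(CD * ε)) :=
      rpow_anti B n (by rw [hCD]; linarith)
    exact max_le (g1.trans g3) (g2.trans g3)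
  · intro j hj i hi
    have h1 := hnrn j (by simp; omega) i k₀ (hS i hi)
    refine le_trans ?_ (h1.trans (rpow_anti B n ?_))
    · refine mod_cast card_le_card ?_
      intro i' hi'
      rw [mem_filter] at hi'
      obtain ⟨hi'1, hd⟩ := hi'
      rw [max_le_iff] at hd
      rw [mem_filter, RCfg.mem_box]
      exact ⟨⟨RCfg.box_subset_slice hi'1, H.loose_mono (fun _ => le_rfl)
        (mul_le_mul_of_nonneg_right hCDD hε0.le) (hSS i hi i' hi'1)⟩, hd⟩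
    · have h2 : K0 * (CD * ε + γ * y) ≤ K0 * ((CD + 1) * ε) :=
        mul_le_mul_of_nonneg_left (by linarith) hK0
      have h3 : CN * ε = K0 * ((CD + 1) * ε) + ε := by rw [hCN]; ring
      rw [h3]
      linarith
  · intro k hk i hi i' hi' hIk hIk'
    have := (hev k₀ (hZ'Z0 hk₀') k (hZ'Z0 (mem_filter.1 hk).1) i i' (hS i hi) (hS i' hi') hIk
      hIk' (hSS i hi i' hi')).1
    refine H.loose_mono (fun _ => le_rfl) (le_of_eq ?_) this
    ring
  · intro j hj i hi i' hi' hd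
    set K' := Z'.filter fun k => B.d n ^ (c' * hh) < |(G n).z k - (G n).z k₀| ∧
      ∀ l ∈ range J, (k₀, k) ∉ bad l with hK'
    have e57 : D ^ 5 * (C1 * D ^ 2 * ε) = C1 * D ^ 7 * ε := by ring
    have hA1ε : C1 * (D ^ 2 * ε) ≤ A * ε := by
      have : D ^ 2 ≤ D ^ 7 := pow_le_pow_right₀ hD (by norm_num)
      have h1 : D ^ 2 * ε ≤ D ^ 7 * ε := mul_le_mul_of_nonneg_right this hε0.le
      calc C1 * (D ^ 2 * ε) ≤ C1 * (D ^ 7 * ε) := mul_le_mul_of_nonneg_left h1 hC10.le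
        _ = _ := by rw [hA]; ring
    have hKZ0 : K' ⊆ Z0 n := (filter_subset _ _).trans hZ'Z0
    have hKZ : K' ⊆ (G n).Z := hKZ0.trans hZ0Z
    have hsub : (K'.filter fun k => (i, k) ∈ (G n).I ∧ (i', k) ∈ (G n).I ∧
        (G n).loose r (D ^ 5 * (C1 * D ^ 2 * ε)) k i i') ⊆
        K'.filter fun k => |((G n).z k - (G n).z k₀) * DP n k₀ i i' -
          (f n k - f n k₀) * DX n k₀ i i'| ≤ 2 * B.d n ^ (y - A * ε) := by
      intro k hk
      rw [mem_filter, e57] at hk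
      rw [mem_filter]
      obtain ⟨hkK, hIk, hIk', hl⟩ := hk
      refine ⟨hkK, ?_⟩
      have g1 := (hev k₀ (hZ'Z0 hk₀') k (hKZ0 hkK) i i' (hS i hi) (hS i' hi') hIk hIk'
        (hSS i hi i' hi')).2
      have g2 := hl sN
      rw [hrN, H.base n] at g2
      have k1 : B.d n ^ (y - C1 * (D ^ 2 * ε)) ≤ B.d n ^ (y - A * ε) :=
        rpow_anti B n (by linarith)
      have g3 : |(G n).rel k i i' sN| ≤ B.d n ^ (y - A * ε) := g2
      have n1 := abs_le.1 (g1.trans k1)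
      have n2 := abs_le.1 g3
      rw [abs_le]
      constructor <;> linarith [n1.1, n1.2, n2.1, n2.2]
    refine le_trans (Nat.cast_le.2 (card_le_card hsub)) ?_
    have hd' : B.d n ^ (((j + 1 : ℕ) : ℝ) * hh) <
        max |DP n k₀ i i'| |DX n k₀ i i'| :=
      lt_of_le_of_lt (rpow_anti B n (by linarith)) hd
    have key := few_common_mesh B n (Z0 n) K' (G n).z (f n) (fun k hk => hbdZ k (hZ0Z hk))
      (hZ'Z0 hk₀') hKZ0 hj (s := s)
      (c := c') (x := y) (ε := A * ε)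
      (DP := DP n k₀ i i') (DX := DX n k₀ i i') hh0 hc'0 hyh (by linarith) hc16
      (fun k hk => (mem_filter.1 hk).2) hd'
    refine key.trans ?_
    have hpw := hpow (s * (((J - 1 - j : ℕ) : ℝ) * hh))
    have e1 : B.d n ^ (s * (((J - 1 - j : ℕ) : ℝ) * hh) - 2 * ε) * (B.d n ^ ε) ^ 2 =
        B.d n ^ (s * (((J - 1 - j : ℕ) : ℝ) * hh)) := by
      rw [sq, ← rpow_add', ← rpow_add']; congr 1; ring
    have e2 : B.d n ^ (s * (((J - 1 - j : ℕ) : ℝ) * hh)) * 2 ≤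
        B.d n ^ (s * (((J - 1 - j : ℕ) : ℝ) * hh) - 2 * ε) := by
      rw [← e1]
      have h1 := hpow (s * (((J - 1 - j : ℕ) : ℝ) * hh) - 2 * ε)
      have h2 := hpow ε
      have h3 : (B.d n ^ ε) ^ 2 * 2 ≤ 1 := by
        have h4 : B.d n ^ ε ≤ 1 / 4 := by linarith
        have h5 : (B.d n ^ ε) * (B.d n ^ ε) ≤ 1 / 4 * (1 / 4) := mul_le_mul h4 h4 h2.le (by norm_num)
        rw [sq]
        linarith
      calc B.d n ^ (s * (((J - 1 - j : ℕ) : ℝ) * hh) - 2 * ε) * (B.d n ^ ε) ^ 2 * 2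
          = B.d n ^ (s * (((J - 1 - j : ℕ) : ℝ) * hh) - 2 * ε) * ((B.d n ^ ε) ^ 2 * 2) := by
            ring
        _ ≤ B.d n ^ (s * (((J - 1 - j : ℕ) : ℝ) * hh) - 2 * ε) * 1 :=
            mul_le_mul_of_nonneg_left h3 h1.le
        _ = _ := mul_one _
    calc B.d n ^ (s * (((J - 1 - j : ℕ) : ℝ) * hh)) * ((Z0 n).card : ℝ)
        ≤ B.d n ^ (s * (((J - 1 - j : ℕ) : ℝ) * hh)) * (2 * Z'.card) :=
          mul_le_mul_of_nonneg_left hmk hpw.le
      _ = B.d n ^ (s * (((J - 1 - j : ℕ) : ℝ) * hh)) * 2 * Z'.card := by ring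
      _ ≤ _ := mul_le_mul_of_nonneg_right e2 hZ'pos.le

end Crest.Agent.R136.CW366
end

-- ▼ part R136/CW5_366
section

/-!
# R136: **vector K3core**, `E` coarse (helper366): `σ ≤ a`

The rigidity of `fb` (on all heights, `rig_on`) and of `fa` (on the strip of `fb`, `rig_onS` with
`DP = P - μ X_b`, `DX = X_a`) give a strip of both components; `no_strip_V`.
-/

set_option autoImplicit false
set_option linter.unusedVariables false
set_option linter.unusedSectionVars false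

open Filter Topology Finset

namespace Crest.Agent.R136.CW366

open Crest.Agent.R138.Ex926 (Base U exists_tendsto)
open Crest.Agent.R136.Gf356
open Crest.Agent.R136.CD366
open Crest.Agent.R136.Rgo569 (Qt rig_on)

variable {B : Base} {G : ℕ → RCfg (Fin 11)} {Leg : Set (Fin 11 → ℝ)} {ν : (Fin 11 → ℝ) → ℝ}
  {σ R D : ℝ} {fa fb : ℕ → ℕ → ℝ} {R0 C1 a c K0 : ℝ}

/-- evolution in the fibre of one component -/
theorem KV.evb (H : RModel B G σ R Leg ν D) (K : KV B G Leg ν fa fb R0 C1 a c K0) {y : ℝ}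
    (hy0 : 0 ≤ y) (hy : y ≤ R0) : ∀ ε : ℝ, 0 < ε → ∀ᶠ n in (U : Filter ℕ), ∀ k₀ k i i',
    (i, k₀) ∈ (G n).I → (i', k₀) ∈ (G n).I → (i, k) ∈ (G n).I → (i', k) ∈ (G n).I →
    (G n).loose (bv y y 0 y 0 y y) ε k₀ i i' →
    (G n).loose (bv y 0 0 0 0 0 0) ((C1 + 2) * ε) k i i' ∧
    |(G n).rel k i i' 10 - (((G n).z k - (G n).z k₀) * (G n).rel k₀ i i' 7 -
      (fb n k - fb n k₀) * (G n).rel k₀ i i' 9)| ≤ B.d n ^ (y - (C1 + 2) * ε) := by
  intro ε hε
  have hC1 := K.C1_one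
  filter_upwards [K.ev y hy0 hy ε hε, K.bd, ev_const_le B hε 12] with n hev hbd h12 k₀ k i i'
    h1 h2 h3 h4 hl
  have hk₀ := H.memZ h1
  have hk := H.memZ h3
  have hpow : ∀ t : ℝ, 0 < B.d n ^ t := fun t => rpos B n t
  have hl0 : (G n).loose (bv y 0 0 0 0 0 0) ε k₀ i i' := H.loose_mono (fun s =>
    bv_mono hy0 le_rfl hy0 le_rfl hy0 hy0 s) le_rfl hl
  obtain ⟨g1, g2⟩ := hev k₀ k i i' h1 h2 h3 h4 hl0
  refine ⟨H.loose_mono (fun _ => le_rfl) (by linarith) g1, ?_⟩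
  have gN := hl 10
  have gXa := hl 8
  have gCa := hl 5
  have gCb := hl 6
  rw [H.base n] at gN gXa gCa gCb
  rw [bv10] at gN
  rw [bv8] at gXa
  rw [bv5] at gCa
  rw [bv6] at gCb
  have hu : |(G n).z k - (G n).z k₀| ≤ 2 := by
    refine (abs_sub _ _).trans ?_
    have := (hbd k hk).1; have := (hbd k₀ hk₀).1; linarith
  have hga : |fa n k - fa n k₀| ≤ 2 := by
    refine (abs_sub _ _).trans ?_
    have := (hbd k hk).2.1; have := (hbd k₀ hk₀).2.1; linarith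
  have hgb : |fb n k - fb n k₀| ≤ 2 := by
    refine (abs_sub _ _).trans ?_
    have := (hbd k hk).2.2; have := (hbd k₀ hk₀).2.2; linarith
  set w := B.d n ^ (y - (C1 + 1) * ε) with hw
  have hw0 : 0 < w := hpow _
  have hCε : 0 ≤ C1 * ε := by positivity
  have k1 : B.d n ^ (y - C1 * ε) ≤ w := rpow_anti B n (by linarith)
  have k2 : B.d n ^ (y - ε) ≤ w := rpow_anti B n (by linarith)
  have m1 : |(fa n k - fa n k₀) * (G n).rel k₀ i i' 8| ≤ 2 * w := by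
    rw [abs_mul]
    exact mul_le_mul hga (gXa.trans k2) (abs_nonneg _) (by norm_num)
  have m2 : |(fa n k - fa n k₀) * (((G n).z k - (G n).z k₀) * (G n).rel k₀ i i' 5)| ≤ 4 * w := by
    rw [abs_mul, abs_mul]
    calc |fa n k - fa n k₀| * (|(G n).z k - (G n).z k₀| * |(G n).rel k₀ i i' 5|)
        ≤ 2 * (2 * w) := by
          refine mul_le_mul hga ?_ (by positivity) (by norm_num)
          exact mul_le_mul hu (gCa.trans k2) (abs_nonneg _) (by norm_num)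
      _ = 4 * w := by ring
  have m3 : |(fb n k - fb n k₀) * (((G n).z k - (G n).z k₀) * (G n).rel k₀ i i' 6)| ≤ 4 * w := by
    rw [abs_mul, abs_mul]
    calc |fb n k - fb n k₀| * (|(G n).z k - (G n).z k₀| * |(G n).rel k₀ i i' 6|)
        ≤ 2 * (2 * w) := by
          refine mul_le_mul hgb ?_ (by positivity) (by norm_num)
          exact mul_le_mul hu (gCb.trans k2) (abs_nonneg _) (by norm_num)
      _ = 4 * w := by ring
  have k4 : |(G n).rel k i i' 10 - (((G n).z k - (G n).z k₀) * (G n).rel k₀ i i' 7 -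
      (fb n k - fb n k₀) * (G n).rel k₀ i i' 9)| ≤ 12 * w := by
    have e1 : (G n).rel k i i' 10 - (((G n).z k - (G n).z k₀) * (G n).rel k₀ i i' 7 -
        (fb n k - fb n k₀) * (G n).rel k₀ i i' 9) =
        ((G n).rel k i i' 10 - ((G n).rel k₀ i i' 10 +
          ((G n).z k - (G n).z k₀) * (G n).rel k₀ i i' 7
          - (fa n k - fa n k₀) * ((G n).rel k₀ i i' 8 +
          ((G n).z k - (G n).z k₀) * (G n).rel k₀ i i' 5)
          - (fb n k - fb n k₀) * ((G n).rel k₀ i i' 9 +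
          ((G n).z k - (G n).z k₀) * (G n).rel k₀ i i' 6))) +
        (G n).rel k₀ i i' 10 - (fa n k - fa n k₀) * (G n).rel k₀ i i' 8 -
        (fa n k - fa n k₀) * (((G n).z k - (G n).z k₀) * (G n).rel k₀ i i' 5) -
        (fb n k - fb n k₀) * (((G n).z k - (G n).z k₀) * (G n).rel k₀ i i' 6) := by ring
    rw [e1]
    have n1 := abs_le.1 (g2.trans k1)
    have n2 := abs_le.1 (gN.trans k2)
    have n3 := abs_le.1 m1
    have n4 := abs_le.1 m2
    have n5 := abs_le.1 m3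
    rw [abs_le]
    constructor <;> linarith [n1.1, n1.2, n2.1, n2.2, n3.1, n3.2, n4.1, n4.2, n5.1, n5.2]
  refine k4.trans (absorb B ?_)
  have e : -(y - (C1 + 1) * ε - (y - (C1 + 2) * ε)) = -ε := by ring
  rw [e]
  exact h12

/-- evolution in the fibre of the other component, heights in a strip of the first one -/
theorem KV.eva (H : RModel B G σ R Leg ν D) (K : KV B G Leg ν fa fb R0 C1 a c K0) {y : ℝ}
    (hy0 : 0 ≤ y) (hy : y ≤ R0) : ∀ ε : ℝ, 0 < ε → ∀ᶠ n in (U : Filter ℕ), ∀ μ : ℝ, ∀ k₀ k i i',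
    |fb n k - fb n k₀ - μ * ((G n).z k - (G n).z k₀)| ≤ 2 * B.d n ^ y →
    (i, k₀) ∈ (G n).I → (i', k₀) ∈ (G n).I → (i, k) ∈ (G n).I → (i', k) ∈ (G n).I →
    (G n).loose (bv y y 0 0 0 y y) ε k₀ i i' →
    (G n).loose (bv y 0 0 0 0 0 0) ((C1 + 2) * ε) k i i' ∧
    |(G n).rel k i i' 10 - (((G n).z k - (G n).z k₀) * ((G n).rel k₀ i i' 7 -
      μ * (G n).rel k₀ i i' 9) -
      (fa n k - fa n k₀) * (G n).rel k₀ i i' 8)| ≤ B.d n ^ (y - (C1 + 2) * ε) := by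
  intro ε hε
  have hC1 := K.C1_one
  filter_upwards [K.ev y hy0 hy ε hε, K.bd, ev_const_le B hε 12] with n hev hbd h12
    μ k₀ k i i' hμ h1 h2 h3 h4 hl
  have hk₀ := H.memZ h1
  have hk := H.memZ h3
  have hpow : ∀ t : ℝ, 0 < B.d n ^ t := fun t => rpos B n t
  have hl0 : (G n).loose (bv y 0 0 0 0 0 0) ε k₀ i i' := H.loose_mono (fun s =>
    bv_mono hy0 le_rfl le_rfl le_rfl hy0 hy0 s) le_rfl hl
  obtain ⟨g1, g2⟩ := hev k₀ k i i' h1 h2 h3 h4 hl0
  refine ⟨H.loose_mono (fun _ => le_rfl) (by linarith) g1, ?_⟩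
  have gN := hl 10
  have gXb := hl 9
  have gCa := hl 5
  have gCb := hl 6
  rw [H.base n] at gN gXb gCa gCb
  rw [bv10] at gN
  rw [bv9, zero_sub] at gXb
  rw [bv5] at gCa
  rw [bv6] at gCb
  have hu : |(G n).z k - (G n).z k₀| ≤ 2 := by
    refine (abs_sub _ _).trans ?_
    have := (hbd k hk).1; have := (hbd k₀ hk₀).1; linarith
  have hga : |fa n k - fa n k₀| ≤ 2 := by
    refine (abs_sub _ _).trans ?_
    have := (hbd k hk).2.1; have := (hbd k₀ hk₀).2.1; linarith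
  have hgb : |fb n k - fb n k₀| ≤ 2 := by
    refine (abs_sub _ _).trans ?_
    have := (hbd k hk).2.2; have := (hbd k₀ hk₀).2.2; linarith
  set w := B.d n ^ (y - (C1 + 1) * ε) with hw
  have hw0 : 0 < w := hpow _
  have hCε : 0 ≤ C1 * ε := by positivity
  have k1 : B.d n ^ (y - C1 * ε) ≤ w := rpow_anti B n (by linarith)
  have k2 : B.d n ^ (y - ε) ≤ w := rpow_anti B n (by linarith)
  have k3 : B.d n ^ y * B.d n ^ (-ε) ≤ w := by
    rw [← rpow_add']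
    exact rpow_anti B n (by linarith)
  have m0 : ∀ F C : ℝ, |F| ≤ 2 → |C| ≤ w →
      |F * (((G n).z k - (G n).z k₀) * C)| ≤ 4 * w := by
    intro F C hF hC
    rw [abs_mul, abs_mul]
    calc |F| * (|(G n).z k - (G n).z k₀| * |C|) ≤ 2 * (2 * w) := by
          refine mul_le_mul hF ?_ (by positivity) (by norm_num)
          exact mul_le_mul hu hC (abs_nonneg _) (by norm_num)
      _ = 4 * w := by ring
  have m2 := m0 _ _ hga (gCa.trans k2)
  have m3 := m0 _ _ hgb (gCb.trans k2)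
  have m4 : |(fb n k - fb n k₀ - μ * ((G n).z k - (G n).z k₀)) * (G n).rel k₀ i i' 9| ≤
      2 * w := by
    rw [abs_mul]
    calc |fb n k - fb n k₀ - μ * ((G n).z k - (G n).z k₀)| * |(G n).rel k₀ i i' 9|
        ≤ (2 * B.d n ^ y) * B.d n ^ (-ε) :=
          mul_le_mul hμ gXb (abs_nonneg _) (by have := hpow y; linarith)
      _ = 2 * (B.d n ^ y * B.d n ^ (-ε)) := by ring
      _ ≤ 2 * w := by linarith
  have k4 : |(G n).rel k i i' 10 - (((G n).z k - (G n).z k₀) * ((G n).rel k₀ i i' 7 -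
      μ * (G n).rel k₀ i i' 9) -
      (fa n k - fa n k₀) * (G n).rel k₀ i i' 8)| ≤ 12 * w := by
    have e1 : (G n).rel k i i' 10 - (((G n).z k - (G n).z k₀) * ((G n).rel k₀ i i' 7 -
        μ * (G n).rel k₀ i i' 9) -
        (fa n k - fa n k₀) * (G n).rel k₀ i i' 8) =
        ((G n).rel k i i' 10 - ((G n).rel k₀ i i' 10 +
          ((G n).z k - (G n).z k₀) * (G n).rel k₀ i i' 7
          - (fa n k - fa n k₀) * ((G n).rel k₀ i i' 8 +
          ((G n).z k - (G n).z k₀) * (G n).rel k₀ i i' 5)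
          - (fb n k - fb n k₀) * ((G n).rel k₀ i i' 9 +
          ((G n).z k - (G n).z k₀) * (G n).rel k₀ i i' 6))) +
        (G n).rel k₀ i i' 10 -
        (fb n k - fb n k₀ - μ * ((G n).z k - (G n).z k₀)) * (G n).rel k₀ i i' 9 -
        (fa n k - fa n k₀) * (((G n).z k - (G n).z k₀) * (G n).rel k₀ i i' 5) -
        (fb n k - fb n k₀) * (((G n).z k - (G n).z k₀) * (G n).rel k₀ i i' 6) := by ring
    rw [e1]
    have n1 := abs_le.1 (g2.trans k1)
    have n2 := abs_le.1 (gN.trans k2)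
    have n4 := abs_le.1 m2
    have n5 := abs_le.1 m3
    have n6 := abs_le.1 m4
    rw [abs_le]
    constructor <;> linarith [n1.1, n1.2, n2.1, n2.2, n4.1, n4.2, n5.1, n5.2, n6.1, n6.2]
  refine k4.trans (absorb B ?_)
  have e : -(y - (C1 + 1) * ε - (y - (C1 + 2) * ε)) = -ε := by ring
  rw [e]
  exact h12

theorem Qt_b {y t : ℝ} : Qt (bv y y 0 y 0 y y) 7 9 t = bv y y t y t y y := by
  funext s
  unfold Qt
  fin_cases s <;> simp [bv]

open Classical in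
/-- near counts of the second component -/
theorem KV.near (H : RModel B G σ R Leg ν D) (K : KV B G Leg ν fa fb R0 C1 a c K0) {y : ℝ}
    (hy : y ≤ R0) (DP : ℕ → ℕ → ℕ → ℕ → ℝ) {g : ℝ} (hg : 0 ≤ g) :
    ∀ t, 0 ≤ t → t ≤ y → ∀ ε : ℝ, 0 < ε → ∀ᶠ n in (U : Filter ℕ), ∀ i k, (i, k) ∈ (G n).I →
      ((((G n).box (bv y y 0 0 0 y y) ε i k).filter fun l => |DP n k i l| ≤ B.d n ^ (t - ε) ∧
        |(G n).rel k i l 8| ≤ B.d n ^ (t - ε)).card : ℝ) ≤
        B.d n ^ (-(ν (bv y y 0 0 0 y y)) + (a + c) * t - D * (ε + g)) := by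
  intro t ht hty ε hε
  have hy0 : 0 ≤ y := ht.trans hty
  have hD := H.D1
  have hL := K.leg y y 0 t 0 y y hy0 hy hy0 le_rfl le_rfl hy0 ht hty le_rfl hy0 hy0 le_rfl hy0
    le_rfl ht le_rfl
  filter_upwards [H.up _ hL ε hε] with n hn i k hik
  refine le_trans ?_ ((hn i k hik).trans (rpow_anti B n ?_))
  · refine mod_cast card_le_card ?_
    intro l hl
    rw [mem_filter, RCfg.mem_box] at hl
    obtain ⟨⟨hl1, hl2⟩, -, hl3⟩ := hl
    rw [RCfg.mem_box]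
    refine ⟨hl1, fun s => ?_⟩
    by_cases h8 : s = 8
    · subst h8
      rw [bv8, H.base n]
      exact hl3
    · rw [bv_off (y' := y) (s := s) (fun _ => rfl) (fun _ => rfl) (fun _ => rfl)
        (fun h => absurd h h8) (fun _ => rfl) (fun _ => rfl)]
      exact hl2 s
  · have h1 := K.hXa y t ht hty hy
    have h2 : 0 ≤ D * g := mul_nonneg (by linarith) hg
    linarith

/-- exponents of a sequence of widths -/
theorem width_lim (B : Base) {w : ℕ → ℝ} {Y0 Y1 : ℝ} (hY0 : 0 < Y0)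
    (hw : ∀ᶠ n in (U : Filter ℕ), B.d n ^ Y1 ≤ w n ∧ w n ≤ B.d n ^ Y0) :
    ∃ v : ℝ, Y0 ≤ v ∧ v ≤ Y1 ∧ ∀ᶠ n in (U : Filter ℕ), w n ≤ B.d n ^ (3 / 4 * v) ∧
      B.d n ^ (3 / 2 * (3 / 4 * v)) ≤ w n := by
  have hlog : ∀ n, Real.log (B.d n) < 0 := fun n => Real.log_neg (B.pos n) (B.lt n)
  have hv : ∀ᶠ n in (U : Filter ℕ), Y0 ≤ Real.log (w n) / Real.log (B.d n) ∧
      Real.log (w n) / Real.log (B.d n) ≤ Y1 := by
    filter_upwards [hw] with n hn
    have hw0 : 0 < w n := (rpos B n _).trans_le hn.1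
    have g1 := Real.log_le_log (rpos B n _) hn.1
    have g2 := Real.log_le_log hw0 hn.2
    rw [Real.log_rpow (B.pos n)] at g1 g2
    constructor
    · rw [le_div_iff_of_neg (hlog n)]; exact g2
    · rw [div_le_iff_of_neg (hlog n)]; exact g1
  obtain ⟨v, hvt, -⟩ := exists_tendsto (f := fun n => Real.log (w n) / Real.log (B.d n))
    (C := |Y1|) (by
      filter_upwards [hv] with n hn
      rw [abs_of_nonneg (hY0.le.trans hn.1)]
      exact hn.2.trans (le_abs_self _))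
  have hv0 : Y0 ≤ v := ge_of_tendsto hvt (hv.mono fun n hn => hn.1)
  have hv1 : v ≤ Y1 := le_of_tendsto hvt (hv.mono fun n hn => hn.2)
  have hvpos : 0 < v := hY0.trans_le hv0
  refine ⟨v, hv0, hv1, ?_⟩
  have h1 : ∀ᶠ n in (U : Filter ℕ), |Real.log (w n) / Real.log (B.d n) - v| < v / 8 := by
    have := (Metric.tendsto_nhds.1 hvt) (v / 8) (by positivity)
    simpa [Real.dist_eq] using this
  filter_upwards [h1, hw] with n hn hwn
  have hw0 : 0 < w n := (rpos B n _).trans_le hwn.1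
  have e2 : w n = B.d n ^ (Real.log (w n) / Real.log (B.d n)) := by
    rw [Real.rpow_def_of_pos (B.pos n), mul_div_cancel₀ _ (hlog n).ne, Real.exp_log hw0]
  rw [abs_lt] at hn
  rw [e2]
  constructor
  · exact rpow_anti B n (by linarith [hn.1])
  · exact rpow_anti B n (by linarith [hn.2])

open Classical in
/-- the slope of a heavy strip is at most `ρ^(-t)` up to a constant -/
theorem slope_bd (H : RModel B G σ R Leg ν D) {Z1 : ℕ → Finset ℕ} {μ : ℕ → ℝ} {t κ' : ℝ}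
    (ht0 : 0 < t) (htR : t ≤ R) (hκ : κ' < σ * t)
    (hbd : ∀ᶠ n in (U : Filter ℕ), ∀ k ∈ (G n).Z, |(G n).z k| ≤ 1 ∧ |fb n k| ≤ 1)
    (hZ1 : ∀ᶠ n in (U : Filter ℕ), Z1 n ⊆ (G n).Z ∧ (Z1 n).Nonempty ∧
      B.d n ^ κ' * ((G n).Z.card : ℝ) ≤ (Z1 n).card)
    (hμ : ∀ᶠ n in (U : Filter ℕ), ∀ k ∈ Z1 n, ∀ k' ∈ Z1 n,
      |fb n k' - fb n k - μ n * ((G n).z k' - (G n).z k)| ≤ 2) :
    ∀ᶠ n in (U : Filter ℕ), |μ n| * B.d n ^ t ≤ 4 := by
  have hε : 0 < (σ * t - κ') / 2 := by linarith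
  filter_upwards [H.frost t ht0.le htR _ hε, hbd, hZ1, hμ, ev_small B hε 2] with
    n hfr hb hz hm hs
  obtain ⟨hz1, ⟨k₁, hk₁⟩, hz3⟩ := hz
  have hpow : ∀ t : ℝ, 0 < B.d n ^ t := fun t => rpos B n t
  have hZpos : (0 : ℝ) < (G n).Z.card := by
    exact_mod_cast card_pos.2 ⟨k₁, hz1 hk₁⟩
  obtain ⟨k, hk, hzk⟩ : ∃ k ∈ Z1 n, B.d n ^ t < |(G n).z k - (G n).z k₁| := by
    by_contra hcon
    push Not at hcon
    have g1 : ((Z1 n).card : ℝ) ≤ (((G n).hbox t k₁).card : ℝ) := by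
      refine mod_cast card_le_card ?_
      intro k hk
      unfold RCfg.hbox
      rw [mem_filter, H.base n]
      exact ⟨hz1 hk, hcon k hk⟩
    have g2 := hfr k₁ (hz1 hk₁)
    have g3 : B.d n ^ (σ * t - (σ * t - κ') / 2) = B.d n ^ ((σ * t - κ') / 2) * B.d n ^ κ' := by
      rw [← rpow_add']; congr 1; ring
    have g4 : B.d n ^ κ' * ((G n).Z.card : ℝ) ≤
        B.d n ^ ((σ * t - κ') / 2) * (B.d n ^ κ' * ((G n).Z.card : ℝ)) := by
      refine hz3.trans (g1.trans (g2.trans (le_of_eq ?_)))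
      rw [g3, mul_assoc]
    have g5 : 0 < B.d n ^ κ' * ((G n).Z.card : ℝ) := mul_pos (hpow _) hZpos
    have g6 : B.d n ^ ((σ * t - κ') / 2) * (B.d n ^ κ' * ((G n).Z.card : ℝ)) ≤
        1 / 2 * (B.d n ^ κ' * ((G n).Z.card : ℝ)) :=
      mul_le_mul_of_nonneg_right (by linarith) g5.le
    linarith
  have h1 := hm k₁ hk₁ k hk
  have h2 := (hb k (hz1 hk)).2
  have h3 := (hb k₁ (hz1 hk₁)).2
  calc |μ n| * B.d n ^ t ≤ |μ n| * |(G n).z k - (G n).z k₁| :=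
        mul_le_mul_of_nonneg_left hzk.le (abs_nonneg _)
    _ = |μ n * ((G n).z k - (G n).z k₁)| := (abs_mul _ _).symm
    _ = |(fb n k - fb n k₁) - (fb n k - fb n k₁ - μ n * ((G n).z k - (G n).z k₁))| := by
        congr 1; ring
    _ ≤ |fb n k - fb n k₁| + |fb n k - fb n k₁ - μ n * ((G n).z k - (G n).z k₁)| := abs_sub _ _
    _ ≤ (1 + 1) + 2 := by
        refine add_le_add ((abs_sub _ _).trans (by linarith)) h1
    _ = 4 := by norm_num

open Classical in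
set_option maxHeartbeats 1600000 in
/-- **vector K3core** -/
theorem KVcore (H : RModel B G σ R Leg ν D) (K : KV B G Leg ν fa fb R0 C1 a c K0)
    (hR0 : R0 ≤ R) : σ ≤ a := by
  by_contra hcon
  push Not at hcon
  have ha0 := K.a_nonneg H
  have hσ0 : 0 < σ := ha0.trans_lt hcon
  have hσ1 := H.σ_le
  have hD := H.D1
  have hC1 := K.C1_one
  have hc := K.c_pos
  have hRp := K.R0_pos
  obtain ⟨η, hη, HS⟩ := no_strip_V H K hR0 hcon
  obtain ⟨s, has, hsmin⟩ : ∃ s, a < s ∧ s < min σ (a + c) :=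
    exists_between (lt_min hcon (by linarith))
  have hsσ : s < σ := hsmin.trans_le (min_le_left _ _)
  have hsc : s < a + c := hsmin.trans_le (min_le_right _ _)
  -- second component
  obtain ⟨α₂, γ₂, hα₂, hα₂1, hγ₂, H2⟩ := rig_onS (σ := σ) (a := a) (s := s) (c := c)
    (η := η / 2) (D := D) (C1 := C1 + 2) (K0 := D) (by linarith) ha0 has hsσ hsc hc hσ1
    (half_pos hη) hD (by linarith)
  set g2 : ℝ := min γ₂ 1 with hg2
  have hg20 : 0 < g2 := lt_min hγ₂ one_pos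
  have hg2γ : g2 ≤ γ₂ := min_le_left _ _
  have hg21 : g2 ≤ 1 := min_le_right _ _
  clear_value g2
  have hσg : 0 < σ * g2 := mul_pos hσ0 hg20
  have hσg1 : σ * g2 ≤ g2 := by
    have := mul_le_mul_of_nonneg_right hσ1 hg20.le
    linarith
  set η₁ : ℝ := min (σ * g2 / 8) (α₂ * η / 4) with hη₁
  have hη₁0 : 0 < η₁ := lt_min (by positivity) (by positivity)
  have hη₁a : η₁ ≤ σ * g2 / 8 := min_le_left _ _
  have hη₁b : η₁ ≤ α₂ * η / 4 := min_le_right _ _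
  clear_value η₁
  obtain ⟨α₁, γ₁, hα₁, hα₁1, hγ₁, H1⟩ := rig_on (σ := σ) (a := a) (s := s) (c := c)
    (η := η₁) (D := D) (C1 := C1 + 2) ha0 has hsσ hsc hc hσ1 hη₁0 hD (by linarith)
  -- step 1
  have hR : (0 : ℝ) ≤ R0 := hRp.le
  have S1 := H1 H (bv R0 0 0 0 0 0 0) (bv R0 R0 0 R0 0 R0 R0) (bv R0 R0 0 0 0 0 0) 10 7 9 fb R0
    (by decide) hRp hR0
    (K.leg R0 0 0 0 0 0 0 hR le_rfl le_rfl hR le_rfl hR le_rfl hR le_rfl hR le_rfl hR le_rfl hR
      le_rfl le_rfl)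
    (K.leg R0 R0 0 R0 0 R0 R0 hR le_rfl hR le_rfl le_rfl hR hR le_rfl le_rfl hR hR le_rfl hR le_rfl
      hR le_rfl)
    (K.leg R0 R0 0 0 0 0 0 hR le_rfl hR le_rfl le_rfl hR le_rfl hR le_rfl hR le_rfl hR le_rfl hR
      le_rfl le_rfl)
    (fun t ht hty => by
      rw [Qt_b]
      exact K.leg R0 R0 t R0 t R0 R0 hR le_rfl hR le_rfl ht hty hR le_rfl ht hty hR le_rfl hR le_rfl
        hty le_rfl)
    (fun j => bv_mono hR le_rfl hR le_rfl hR hR j)
    (fun j => bv_mono hR le_rfl le_rfl le_rfl le_rfl le_rfl j) rfl rfl rfl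
    (K.hN R0 hR le_rfl) (fun t ht hty => by rw [Qt_b]; exact K.hXb R0 t ht hty le_rfl)
    (by filter_upwards [K.bd] with n hn k hk; exact ⟨(hn k hk).1, (hn k hk).2.2⟩)
    (K.evb H hR le_rfl) (fun n => (G n).Z) (by
      refine Filter.Eventually.of_forall fun n => ?_
      obtain ⟨⟨i1, k1⟩, hI1⟩ := H.nonempty n
      refine ⟨subset_rfl, ⟨k1, H.memZ hI1⟩, ?_⟩
      have h1 : B.d n ^ (γ₁ * R0) ≤ 1 := Real.rpow_le_one (B.pos n).le (B.lt n).le (by positivity)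
      calc B.d n ^ (γ₁ * R0) * ((G n).Z.card : ℝ) ≤ 1 * ((G n).Z.card : ℝ) :=
            mul_le_mul_of_nonneg_right h1 (Nat.cast_nonneg _)
        _ = _ := one_mul _)
  have S1' : ∀ᶠ n in (U : Filter ℕ), ∃ q : ℝ × ℝ × ℕ, B.d n ^ R0 ≤ q.1 ∧
      q.1 ≤ B.d n ^ (α₁ * R0) ∧ q.2.2 ∈ (G n).Z ∧
      q.1 ^ η₁ * ((G n).Z.card : ℝ) ≤ (((G n).Z.filter fun k =>
        |fb n k - fb n q.2.2 - q.2.1 * ((G n).z k - (G n).z q.2.2)| ≤ q.1).card : ℝ) := by
    filter_upwards [S1] with n hn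
    obtain ⟨w, μ, h1, h2, k₁, hk₁, h3⟩ := hn
    exact ⟨(w, μ, k₁), h1, h2, hk₁, h3⟩
  obtain ⟨q, hq⟩ := S1'.choice
  obtain ⟨v, hv0, hv1, hv⟩ := width_lim B (w := fun n => (q n).1) (Y0 := α₁ * R0) (Y1 := R0)
    (by positivity) (hq.mono fun n hn => ⟨hn.1, hn.2.1⟩)
  have hvpos : 0 < v := lt_of_lt_of_le (by positivity) hv0
  set y : ℝ := 3 / 4 * v with hy
  have hy0 : 0 < y := by positivity
  have hyR : y ≤ R0 := by rw [hy]; linarith
  clear_value y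
  set Z1 : ℕ → Finset ℕ := fun n => (G n).Z.filter fun k =>
    |fb n k - fb n (q n).2.2 - (q n).2.1 * ((G n).z k - (G n).z (q n).2.2)| ≤ (q n).1 with hZ1
  have hZ1m : ∀ᶠ n in (U : Filter ℕ), Z1 n ⊆ (G n).Z ∧ (Z1 n).Nonempty ∧
      B.d n ^ (3 / 2 * y * η₁) * ((G n).Z.card : ℝ) ≤ (Z1 n).card := by
    filter_upwards [hq, hv] with n hn hvn
    have hw0 : 0 < (q n).1 := (rpos B n _).trans_le hn.1
    refine ⟨filter_subset _ _, ⟨(q n).2.2, ?_⟩, ?_⟩
    · simp only [hZ1]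
      rw [mem_filter]
      refine ⟨hn.2.2.1, ?_⟩
      simp only [sub_self, mul_zero, abs_zero]
      exact hw0.le
    · refine le_trans ?_ hn.2.2.2
      refine mul_le_mul_of_nonneg_right ?_ (Nat.cast_nonneg _)
      rw [Real.rpow_mul (B.pos n).le]
      exact Real.rpow_le_rpow (rpos B n _).le hvn.2 hη₁0.le
  -- the strip, two points
  have hZ1f : ∀ᶠ n in (U : Filter ℕ), ∀ k ∈ Z1 n, ∀ k' ∈ Z1 n,
      |fb n k' - fb n k - (q n).2.1 * ((G n).z k' - (G n).z k)| ≤ 2 * B.d n ^ y := by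
    filter_upwards [hv] with n hvn k hk k' hk'
    simp only [hZ1] at hk hk'
    rw [mem_filter] at hk hk'
    have f3 := abs_le.1 (hk.2.trans hvn.1)
    have f4 := abs_le.1 (hk'.2.trans hvn.1)
    rw [abs_le]
    constructor <;> linarith [f3.1, f3.2, f4.1, f4.2]
  -- step 2
  have hyy : (0 : ℝ) ≤ y := hy0.le
  have hg2y : 0 < g2 * y / 2 := by positivity
  have hμbd : ∀ᶠ n in (U : Filter ℕ), |(q n).2.1| * B.d n ^ (g2 * y / 2) ≤ 4 := by
    refine slope_bd H (Z1 := Z1) (μ := fun n => (q n).2.1) (κ' := 3 / 2 * y * η₁) hg2y ?_ ?_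
      (by filter_upwards [K.bd] with n hn k hk; exact ⟨(hn k hk).1, (hn k hk).2.2⟩) hZ1m ?_
    · have h1 : g2 * y ≤ 1 * y := mul_le_mul_of_nonneg_right hg21 hyy
      linarith
    · have h1 : y * η₁ ≤ y * (σ * g2 / 8) := mul_le_mul_of_nonneg_left hη₁a hyy
      have h2 : 0 < σ * g2 * y := mul_pos hσg hy0
      linarith
    · filter_upwards [hZ1f] with n hn k hk k' hk'
      have h1 : B.d n ^ y ≤ 1 := Real.rpow_le_one (B.pos n).le (B.lt n).le hyy
      exact (hn k hk k' hk').trans (by linarith)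
  have hm : ∀ᶠ n in (U : Filter ℕ), |(q n).2.1| ≤ B.d n ^ (-(γ₂ * y)) := by
    filter_upwards [hμbd, ev_const_le B hg2y 4] with n h1 h2
    have hp := rpos B n (g2 * y / 2)
    have hpn := rpos B n (-(g2 * y / 2))
    have e2 : B.d n ^ (g2 * y / 2) * B.d n ^ (-(g2 * y / 2)) = 1 := by
      rw [← rpow_add', add_neg_cancel, Real.rpow_zero]
    calc |(q n).2.1| = |(q n).2.1| * B.d n ^ (g2 * y / 2) * B.d n ^ (-(g2 * y / 2)) := by
          rw [mul_assoc, e2, mul_one]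
      _ ≤ 4 * B.d n ^ (-(g2 * y / 2)) := mul_le_mul_of_nonneg_right h1 hpn.le
      _ ≤ B.d n ^ (-(g2 * y / 2)) * B.d n ^ (-(g2 * y / 2)) :=
          mul_le_mul_of_nonneg_right h2 hpn.le
      _ = B.d n ^ (-(g2 * y)) := by rw [← rpow_add']; congr 1; ring
      _ ≤ B.d n ^ (-(γ₂ * y)) := rpow_anti B n (by
          have := mul_le_mul_of_nonneg_right hg2γ hyy
          linarith)
  have S2 := H2 H (bv y 0 0 0 0 0 0) (bv y y 0 0 0 y y) (bv y y 0 0 0 0 0) 10 fa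
    (fun n k i l => (G n).rel k i l 7 - (q n).2.1 * (G n).rel k i l 9)
    (fun n k i l => (G n).rel k i l 8) y
    hy0 (hyR.trans hR0)
    (K.leg y 0 0 0 0 0 0 hyy hyR le_rfl hyy le_rfl hyy le_rfl hyy le_rfl hyy le_rfl hyy le_rfl hyy
      le_rfl le_rfl)
    (K.leg y y 0 0 0 y y hyy hyR hyy le_rfl le_rfl hyy le_rfl hyy le_rfl hyy hyy le_rfl hyy le_rfl
      le_rfl le_rfl)
    (K.leg y y 0 0 0 0 0 hyy hyR hyy le_rfl le_rfl hyy le_rfl hyy le_rfl hyy le_rfl hyy le_rfl hyy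
      le_rfl le_rfl)
    (fun j => bv_mono hyy le_rfl le_rfl le_rfl le_rfl le_rfl j) rfl
    (K.hN y hyy hyR) (K.near H hyR _ (by positivity))
    (by
      intro ε hε
      filter_upwards [hm, ev_const_le B hε 2] with n hmn h2 k i l hi hl hlo
      have hpow : ∀ t : ℝ, 0 < B.d n ^ t := fun t => rpos B n t
      have g7 := hlo 7
      have g8 := hlo 8
      have g9 := hlo 9
      rw [H.base n] at g7 g8 g9
      rw [bv7, zero_sub] at g7
      rw [bv8, zero_sub] at g8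
      rw [bv9, zero_sub] at g9
      have hC1ε : 0 ≤ C1 * ε := by positivity
      have hγy : 0 ≤ γ₂ * y := by positivity
      have e3 : (C1 + 2) * ε = C1 * ε + 2 * ε := by ring
      refine ⟨?_, g8.trans (rpow_anti B n (by linarith))⟩
      have g1 : |(q n).2.1 * (G n).rel k i l 9| ≤ B.d n ^ (-(γ₂ * y + ε)) := by
        rw [abs_mul]
        calc |(q n).2.1| * |(G n).rel k i l 9| ≤ B.d n ^ (-(γ₂ * y)) * B.d n ^ (-ε) :=
              mul_le_mul hmn g9 (abs_nonneg _) (hpow _).le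
          _ = B.d n ^ (-(γ₂ * y + ε)) := by rw [← rpow_add']; congr 1; ring
      have g2 : B.d n ^ (-ε) ≤ B.d n ^ (-(γ₂ * y + ε)) := rpow_anti B n (by linarith)
      have g3 : 2 * B.d n ^ (-(γ₂ * y + ε)) ≤ B.d n ^ (-(γ₂ * y + (C1 + 2) * ε)) := by
        refine absorb B (h2.trans (rpow_anti B n ?_))
        linarith
      refine (abs_sub _ _).trans ?_
      linarith)
    (by filter_upwards [K.bd] with n hn k hk; exact ⟨(hn k hk).1, (hn k hk).2.1⟩)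
    Z1 (by
      filter_upwards [hZ1m] with n hn
      refine ⟨hn.1, hn.2.1, le_trans ?_ hn.2.2⟩
      refine mul_le_mul_of_nonneg_right (rpow_anti B n ?_) (Nat.cast_nonneg _)
      have h1 : y * η₁ ≤ y * (σ * g2 / 8) := mul_le_mul_of_nonneg_left hη₁a hyy
      have h2 : σ * g2 * y ≤ g2 * y := mul_le_mul_of_nonneg_right hσg1 hyy
      have h3 : g2 * y ≤ γ₂ * y := mul_le_mul_of_nonneg_right hg2γ hyy
      have h4 : 0 < g2 * y := mul_pos hg20 hy0
      linarith)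
    (by
      intro ε hε
      filter_upwards [K.eva H hyy hyR ε hε, hZ1f] with n hn hf k₀ hk₀ k hk i i' h1 h2 h3 h4 hl
      exact hn (q n).2.1 k₀ k i i' (hf k₀ hk₀ k hk) h1 h2 h3 h4 hl)
  refine HS (α₂ * y) y (by positivity) hyR ?_
  filter_upwards [S2, hZ1m, hv, hq, hZ1f] with n h2 h1 hvn hqn hf
  obtain ⟨w, μ, hw1, hw2, k₂, hk₂, hm⟩ := h2
  have hw0 : 0 < w := (rpos B n _).trans_le hw1
  refine ⟨w, hw1, hw2, (Z1 n).filter fun k =>
    |fa n k - fa n k₂ - μ * ((G n).z k - (G n).z k₂)| ≤ w, (filter_subset _ _).trans h1.1,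
    ⟨k₂, ?_⟩, ?_, μ, (q n).2.1, ?_⟩
  · rw [mem_filter]
    refine ⟨hk₂, ?_⟩
    simp only [sub_self, mul_zero, abs_zero]
    exact hw0.le
  · refine le_trans ?_ hm
    have e1 : w ^ η = w ^ (η / 2) * w ^ (η / 2) := by
      rw [← Real.rpow_add hw0]; congr 1; ring
    have e2 : w ^ (η / 2) ≤ B.d n ^ (3 / 2 * y * η₁) := by
      have h3 : w ^ (η / 2) ≤ (B.d n ^ (α₂ * y)) ^ (η / 2) :=
        Real.rpow_le_rpow hw0.le hw2 (by positivity)
      refine h3.trans ?_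
      rw [← Real.rpow_mul (B.pos n).le]
      refine rpow_anti B n ?_
      have h4 : y * η₁ ≤ y * (α₂ * η / 4) := mul_le_mul_of_nonneg_left hη₁b hyy
      have h5 : 0 < α₂ * y * η := by positivity
      linarith
    rw [e1, mul_assoc]
    refine mul_le_mul_of_nonneg_left ?_ (Real.rpow_nonneg hw0.le _)
    exact (mul_le_mul_of_nonneg_right e2 (Nat.cast_nonneg _)).trans h1.2.2
  · intro k hk k' hk'
    rw [mem_filter] at hk hk'
    obtain ⟨hkZ, hka⟩ := hk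
    obtain ⟨hkZ', hka'⟩ := hk'
    have f1 := abs_le.1 hka
    have f2 := abs_le.1 hka'
    have f3 := hf k hkZ k' hkZ'
    constructor
    · rw [abs_le]
      constructor <;> linarith [f1.1, f1.2, f2.1, f2.2]
    · exact f3.trans (by linarith)

end Crest.Agent.R136.CW366
end

-- ▼ part R136/CW7_366
section

/-!
# R136: `κ = 1`, both slots `31`, `32` tied, `sigma = 1`, over helper795's model `M3` (helper366)

`kappa_one_M3`: `N` decoupled with rate `a`, the velocities `(C_a, C_b)` decoupled and without heavy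
strips, `(P, X_a, X_b)` arbitrarily coupled with the block `(X_a, X_b)` full, raw twist of `fb`:
`1 ≤ a`.
-/

set_option autoImplicit false
set_option linter.unusedVariables false
set_option linter.unusedSectionVars false

open Filter Topology Finset

namespace Crest.Agent.R136.CW366

open Crest.Agent.R138.Ex926 (Base U)
open Crest.Agent.R136.Gf356
open Crest.Agent.R136.CD366
open Crest.Agent.R136.CV366 (NoStr AddC fan_stripK fK unit_le)
open Crest.Agent.R136.C3c795 (M3 b6)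
open Crest.Agent.R136.Fe1355 (RawTw)

variable {B : Base} {G : ℕ → RCfg (Fin 11)} {Leg : Set (Fin 11 → ℝ)} {ν : (Fin 11 → ℝ) → ℝ}
  {T D : ℝ} {fa fb : ℕ → ℕ → ℝ} {q R0 a : ℝ} {β : ℝ → ℝ → ℝ → ℝ} {γ : ℝ → ℝ → ℝ}


theorem b6_5 {c5 c6 c7 c8 c9 c10 : ℝ} : b6 c5 c6 c7 c8 c9 c10 5 = c5 := rfl
theorem b6_6 {c5 c6 c7 c8 c9 c10 : ℝ} : b6 c5 c6 c7 c8 c9 c10 6 = c6 := rfl

theorem b6_off {c5 c6 c7 c8 c9 c10 c5' c6' : ℝ} {s : Fin 11} (h5 : s ≠ 5) (h6 : s ≠ 6) :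
    b6 c5 c6 c7 c8 c9 c10 s = b6 c5' c6' c7 c8 c9 c10 s := by
  fin_cases s <;> simp_all [b6]

/-- the numeric data -/
structure Num (ν : (Fin 11 → ℝ) → ℝ) (T a : ℝ) (β : ℝ → ℝ → ℝ → ℝ) (γ : ℝ → ℝ → ℝ) : Prop where
  nu : ∀ ca cb p xa xb n : ℝ, 0 ≤ cb → cb ≤ ca → ca ≤ T → 0 ≤ p → p ≤ T → 0 ≤ xb → xb ≤ xa →
    xa ≤ T → 0 ≤ n → n ≤ T →
    ν (b6 ca cb p xa xb n) = ν (b6 0 0 0 0 0 0) - a * n - β p xa xb - γ ca cb
  block : ∀ t : ℝ, 0 ≤ t → t ≤ T → 2 * t ≤ ν (b6 0 0 0 0 0 0) - ν (b6 0 0 0 t t 0)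
  la : ∀ p xa xa' : ℝ, 0 ≤ p → p ≤ T → 0 ≤ xa → xa ≤ xa' → xa' ≤ T →
    β p xa' 0 - β p xa 0 ≤ xa' - xa
  lb : ∀ t y : ℝ, 0 ≤ t → t ≤ y → y ≤ T → β 0 y y - β 0 y t ≤ y - t

namespace Num

theorem zero (K : Num ν T a β γ) (hT : 0 ≤ T) : β 0 0 0 + γ 0 0 = 0 := by
  have h0 := K.nu 0 0 0 0 0 0 le_rfl le_rfl hT le_rfl hT le_rfl le_rfl hT le_rfl hT
  linarith

theorem blk (K : Num ν T a β γ) {t : ℝ} (ht : 0 ≤ t) (htT : t ≤ T) :
    2 * t ≤ β 0 t t - β 0 0 0 := by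
  have hT : 0 ≤ T := ht.trans htT
  have h := K.block t ht htT
  have h1 := K.nu 0 0 0 t t 0 le_rfl le_rfl hT le_rfl hT ht le_rfl htT le_rfl hT
  have h2 := K.zero hT
  linarith

/-- monotonicity of `β` in the first slot -/
theorem mono (M : M3 B G Leg ν T D fa fb) (K : Num ν T a β γ) {p xa xb : ℝ} (hp : 0 ≤ p)
    (hpT : p ≤ T) (hb : 0 ≤ xb) (hba : xb ≤ xa) (hx : xa ≤ T) : β 0 xa xb ≤ β p xa xb := by
  have hT := M.T0.le
  have hxa := hb.trans hba
  have h2 := M.H.nu_anti (p := b6 0 0 0 xa xb 0) (p' := b6 0 0 p xa xb 0)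
    (M.leg 0 0 0 xa xb 0 le_rfl hT le_rfl le_rfl le_rfl hT hxa hx hb hba le_rfl hT)
    (M.leg 0 0 p xa xb 0 le_rfl hT le_rfl le_rfl hp hpT hxa hx hb hba le_rfl hT)
    (fun s => bv_mono (y := 0) (y' := 0) le_rfl hp le_rfl le_rfl le_rfl le_rfl s)
  have h3 := K.nu 0 0 0 xa xb 0 le_rfl le_rfl hT le_rfl hT hb hba hx le_rfl hT
  have h4 := K.nu 0 0 p xa xb 0 le_rfl le_rfl hT hp hpT hb hba hx le_rfl hT
  linarith

theorem P (M : M3 B G Leg ν T D fa fb) (K : Num ν T a β γ)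
    (htw : RawTw B G fun n k k' => fb n k' - fb n k) {t : ℝ} (ht : 0 ≤ t) (htT : t ≤ T) :
    (1 - a) * t ≤ β t 0 0 - β 0 0 0 := by
  have hT := M.T0.le
  have key := M.shift9 htw ht htT
  have k1 := K.nu t t t t 0 t ht le_rfl htT ht htT le_rfl ht htT ht htT
  have k2 := K.nu t t t t t t ht le_rfl htT ht htT ht le_rfl htT ht htT
  have k3 := K.nu t t t t 0 0 ht le_rfl htT ht htT le_rfl ht htT le_rfl hT
  have h2 := K.blk ht htT
  have h3 := K.mono M ht htT ht le_rfl htT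
  have h4 := K.la t 0 t ht htT le_rfl ht htT
  linarith

theorem Xb (M : M3 B G Leg ν T D fa fb) (K : Num ν T a β γ) {y t : ℝ} (ht : 0 ≤ t) (hty : t ≤ y)
    (hy : y ≤ T) : t ≤ β t y t - β 0 y 0 := by
  have hT := M.T0.le
  have hy0 : 0 ≤ y := ht.trans hty
  have h1 := K.blk hy0 hy
  have h2 := K.lb t y ht hty hy
  have h3 := K.mono M ht (hty.trans hy) ht hty hy
  have h4 := K.la 0 0 y le_rfl hT le_rfl hy0 hy
  linarith

theorem Xa (K : Num ν T a β γ) {t : ℝ} (ht : 0 ≤ t) (htT : t ≤ T) : t ≤ β 0 t 0 - β 0 0 0 := by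
  have h1 := K.blk ht htT
  have h2 := K.lb 0 t le_rfl ht htT
  linarith

end Num

open Classical in
/-- strips of the fan -/
theorem strip_M3 (M : M3 B G Leg ν T D fa fb) (K : Num ν T a β γ) {Kn Ca : ℝ} (hKn : 0 ≤ Kn)
    (hCa : 0 < Ca) (hadd : AddC B G (b6 0 0 0 0 0 0) 5 6 Ca T)
    (hns : ∀ t : ℝ, 0 < t → t ≤ R0 → ∀ ε : ℝ, 0 < ε → ∀ᶠ n in (U : Filter ℕ),
      ∀ i k, (i, k) ∈ (G n).I → ∀ b : Fin 2 → ℝ, b 0 ^ 2 + b 1 ^ 2 = 1 →
      ((((G n).box (b6 0 0 0 0 0 0) ε i k).filter fun l =>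
        |b 0 * (G n).rel k i l 5 + b 1 * (G n).rel k i l 6| ≤ B.d n ^ (t - ε)).card : ℝ) ≤
        B.d n ^ (-(ν (b6 0 0 0 0 0 0)) + q * t - Kn * ε))
    {y t : ℝ} (ht0 : 0 < t) (htR : t ≤ R0) (hty : t ≤ y) (hy : y ≤ T) :
    ∀ ε : ℝ, 0 < ε → ∀ᶠ n in (U : Filter ℕ),
      ∀ i k, (i, k) ∈ (G n).I → ∀ b : Fin 2 → ℝ, b 0 ^ 2 + b 1 ^ 2 = 1 →
      ((((G n).box (bv y t y y y 0 0) ε i k).filter fun l =>
        |b 0 * (G n).rel k i l 5 + b 1 * (G n).rel k i l 6| ≤ B.d n ^ (t - ε)).card : ℝ) ≤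
        B.d n ^ (-(ν (bv y t y y y 0 0)) + q * t - fK D Ca Kn * ε) := by
  have hT := M.T0.le
  have ht : 0 ≤ t := ht0.le
  have hy0 : 0 ≤ y := ht.trans hty
  have htT : t ≤ T := hty.trans hy
  have LC := M.leg t t 0 0 0 0 ht htT ht le_rfl le_rfl hT le_rfl hT le_rfl le_rfl le_rfl hT
  have LF := M.leg 0 0 y y y t le_rfl hT le_rfl le_rfl hy0 hy hy0 hy hy0 le_rfl ht htT
  have LFC := M.leg t t y y y t ht htT ht le_rfl hy0 hy hy0 hy hy0 le_rfl ht htT
  have h0C : ∀ s, b6 0 0 0 0 0 0 s ≤ b6 t t 0 0 0 0 s := fun s =>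
    bv_mono (y := 0) (y' := 0) le_rfl le_rfl le_rfl le_rfl ht ht s
  have h0F : ∀ s, b6 0 0 0 0 0 0 s ≤ b6 0 0 y y y t s := fun s =>
    bv_mono (y := 0) (y' := 0) ht hy0 hy0 hy0 le_rfl le_rfl s
  have hmax : ∀ s, b6 t t y y y t s ≤ max (b6 t t 0 0 0 0 s) (b6 0 0 y y y t s) := by
    intro s
    by_cases h5 : s = 5
    · subst h5
      rw [b6_5, b6_5]
      exact le_max_left _ _
    · by_cases h6 : s = 6
      · subst h6
        rw [b6_6, b6_6]
        exact le_max_left _ _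
      · exact le_max_of_le_right (le_of_eq (b6_off h5 h6))
  have hprod : ν (b6 0 0 0 0 0 0) - ν (b6 t t 0 0 0 0) ≤
      ν (b6 0 0 y y y t) - ν (b6 t t y y y t) := by
    have g1 := K.nu t t 0 0 0 0 ht le_rfl htT le_rfl hT le_rfl le_rfl hT le_rfl hT
    have g2 := K.nu 0 0 y y y t le_rfl le_rfl hT hy0 hy hy0 le_rfl hy ht htT
    have g3 := K.nu t t y y y t ht le_rfl htT hy0 hy hy0 le_rfl hy ht htT
    have := K.zero hT
    linarith
  exact fan_stripK M.H.toRUnif M.zero_leg LC LF LFC h0C h0F (by rw [b6_5]) (by rw [b6_6]) hmax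
    hCa hKn (hns t ht0 htR) hadd htT hprod

/-- **`κ = 1`, both slots tied** -/
theorem kv_M3 (M : M3 B G Leg ν T D fa fb) (K : Num ν T a β γ) (hq : 0 < q) (hR0 : 0 < R0)
    (hN : NoStr B G (b6 0 0 0 0 0 0) 5 6 ν q R0)
    (htw : RawTw B G fun n k k' => fb n k' - fb n k) (ha1 : a < 1) :
    ∃ c K0 : ℝ, KV B G Leg ν fa fb (min R0 T) 1 a c K0 := by
  have hD := M.H.D1
  have hD0 : 0 < D := by linarith
  have hT0 := M.T0
  have hT := hT0.le
  obtain ⟨Ca, hCa, hadd⟩ := M.addT (b6 0 0 0 0 0 0) le_rfl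
  obtain ⟨Kn, hKn, hns⟩ := hN
  set R1 : ℝ := min R0 T with hR1
  have hR10 : 0 < R1 := lt_min hR0 hT0
  have hR1R : R1 ≤ R0 := min_le_left _ _
  have hR1T : R1 ≤ T := min_le_right _ _
  clear_value R1
  set c : ℝ := min q (1 - a) with hc
  have hc0 : 0 < c := lt_min hq (by linarith)
  have hcq : c ≤ q := min_le_left _ _
  have hca : c ≤ 1 - a := min_le_right _ _
  clear_value c
  have hfK : 0 ≤ fK D Ca Kn := by unfold fK; positivity
  refine ⟨c, max D (fK D Ca Kn), ⟨hR10, le_rfl, hc0, le_max_of_le_left hD0.le, ?_, M.bd, ?_,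
    ?_, ?_, ?_, ?_, ?_⟩⟩
  · intro y n p xa xb ca cb hy0 hy hn0 hn hp0 hp ha0 ha hb0 hb hca0 hca' hcb0 hcb hba hcba
    have hyT := hy.trans hR1T
    exact M.leg ca cb p xa xb n hca0 (hca'.trans hyT) hcb0 hcba hp0 (hp.trans hyT) ha0
      (ha.trans hyT) hb0 hba hn0 (hn.trans hyT)
  · intro y hy0 hy ε hε
    have hyT := hy.trans hR1T
    filter_upwards [M.ev ε hε, M.loose0 hε] with n hev hlo k₀ k i i' h1 h2 h3 h4 hl
    refine ⟨?_, ?_⟩
    · rw [one_mul]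
      exact hlo k i i' h3 h4
    · refine (hev k₀ k i i' h1 h2 h3 h4).e10.trans (rpow_anti B n ?_)
      linarith
  · intro y hy0 hy
    have hyT := hy.trans hR1T
    have h1 := K.nu 0 0 0 0 0 y le_rfl le_rfl hT le_rfl hT le_rfl le_rfl hT hy0 hyT
    have h2 := K.zero hT
    show ν (b6 0 0 0 0 0 0) - ν (b6 0 0 0 0 0 y) ≤ a * y
    linarith
  · intro y t ht hty hy
    have htT := (hty.trans hy).trans hR1T
    have h0 := K.nu 0 0 t 0 0 t le_rfl le_rfl hT ht htT le_rfl le_rfl hT ht htT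
    have h1 := K.P M htw ht htT
    have h2 := K.zero hT
    have h4 : c * t ≤ (1 - a) * t := mul_le_mul_of_nonneg_right hca ht
    show (a + c) * t ≤ ν (b6 0 0 0 0 0 0) - ν (b6 0 0 t 0 0 t)
    linarith
  · intro y t ht hty hy
    have hy0 : 0 ≤ y := ht.trans hty
    have hyT := hy.trans hR1T
    have htT := hty.trans hyT
    have g1 := K.nu y y 0 y 0 y hy0 le_rfl hyT le_rfl hT le_rfl hy0 hyT hy0 hyT
    have g2 := K.nu y y t y t y hy0 le_rfl hyT ht htT ht hty hyT hy0 hyT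
    have h1 := K.Xb M ht hty hyT
    have h4 : c * t ≤ (1 - a) * t := mul_le_mul_of_nonneg_right hca ht
    show (a + c) * t ≤ ν (b6 y y 0 y 0 y) - ν (b6 y y t y t y)
    linarith
  · intro y t ht hty hy
    have hy0 : 0 ≤ y := ht.trans hty
    have hyT := hy.trans hR1T
    have htT := hty.trans hyT
    have g1 := K.nu y y 0 0 0 y hy0 le_rfl hyT le_rfl hT le_rfl le_rfl hT hy0 hyT
    have g2 := K.nu y y 0 t 0 y hy0 le_rfl hyT le_rfl hT le_rfl ht htT hy0 hyT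
    have h1 := K.Xa ht htT
    have h4 : c * t ≤ (1 - a) * t := mul_le_mul_of_nonneg_right hca ht
    show (a + c) * t ≤ ν (b6 y y 0 0 0 y) - ν (b6 y y 0 t 0 y)
    linarith
  · intro y t ht hty hy ε hε
    have hy0 : 0 ≤ y := ht.trans hty
    have hyT := hy.trans hR1T
    have htT := hty.trans hyT
    have hFL : bv y t y y y 0 0 ∈ Leg :=
      M.leg 0 0 y y y t le_rfl hT le_rfl le_rfl hy0 hyT hy0 hyT hy0 le_rfl ht htT
    have eF : ν (bv y t y y y 0 0) = ν (bv y 0 y y y 0 0) - a * t := by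
      have g1 := K.nu 0 0 y y y t le_rfl le_rfl hT hy0 hyT hy0 le_rfl hyT ht htT
      have g2 := K.nu 0 0 y y y 0 le_rfl le_rfl hT hy0 hyT hy0 le_rfl hyT le_rfl hT
      show ν (b6 0 0 y y y t) = ν (b6 0 0 y y y 0) - a * t
      linarith
    have hct : c * t ≤ q * t := mul_le_mul_of_nonneg_right hcq ht
    rcases ht.eq_or_lt with h0 | ht0
    · filter_upwards [M.H.up _ hFL ε hε] with n hn i k hik b hb
      refine le_trans ?_ ((hn i k hik).trans (rpow_anti B n ?_))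
      · exact_mod_cast card_filter_le _ _
      · have h1 : D * ε ≤ max D (fK D Ca Kn) * ε :=
          mul_le_mul_of_nonneg_right (le_max_left _ _) hε.le
        have h2 : c * t = 0 := by rw [← h0, mul_zero]
        rw [eF]
        linarith
    · filter_upwards [strip_M3 M K hKn hCa hadd hns ht0 ((hty.trans hy).trans hR1R) hty hyT ε hε]
        with n hn i k hik b hb
      refine (hn i k hik b hb).trans (rpow_anti B n ?_)
      have h1 : fK D Ca Kn * ε ≤ max D (fK D Ca Kn) * ε :=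
        mul_le_mul_of_nonneg_right (le_max_right _ _) hε.le
      rw [eF]
      linarith

/-- **`κ = 1`, both slots tied**, structure form -/
theorem kappa_one_num (M : M3 B G Leg ν T D fa fb) (K : Num ν T a β γ) (hq : 0 < q)
    (hR0 : 0 < R0) (hN : NoStr B G (b6 0 0 0 0 0 0) 5 6 ν q R0)
    (htw : RawTw B G fun n k k' => fb n k' - fb n k) : 1 ≤ a := by
  by_contra hcon
  push Not at hcon
  obtain ⟨c, K0, hKV⟩ := kv_M3 M K hq hR0 hN htw hcon
  exact absurd (KVcore M.H hKV (min_le_right _ _)) (not_le.2 hcon)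

/-- **`κ = 1`, both slots tied** -/
theorem kappa_one_M3 (M : M3 B G Leg ν T D fa fb) (hq : 0 < q) (hR0 : 0 < R0)
    (hN : NoStr B G (b6 0 0 0 0 0 0) 5 6 ν q R0)
    (htw : RawTw B G fun n k k' => fb n k' - fb n k) (β : ℝ → ℝ → ℝ → ℝ) (γ : ℝ → ℝ → ℝ)
    (hν : ∀ ca cb p xa xb n : ℝ, 0 ≤ cb → cb ≤ ca → ca ≤ T → 0 ≤ p → p ≤ T → 0 ≤ xb → xb ≤ xa →
      xa ≤ T → 0 ≤ n → n ≤ T →
      ν (b6 ca cb p xa xb n) = ν (b6 0 0 0 0 0 0) - a * n - β p xa xb - γ ca cb)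
    (hblock : ∀ t : ℝ, 0 ≤ t → t ≤ T → 2 * t ≤ ν (b6 0 0 0 0 0 0) - ν (b6 0 0 0 t t 0))
    (hla : ∀ p xa xa' : ℝ, 0 ≤ p → p ≤ T → 0 ≤ xa → xa ≤ xa' → xa' ≤ T →
      β p xa' 0 - β p xa 0 ≤ xa' - xa)
    (hlb : ∀ t y : ℝ, 0 ≤ t → t ≤ y → y ≤ T → β 0 y y - β 0 y t ≤ y - t) : 1 ≤ a :=
  kappa_one_num M ⟨hν, hblock, hla, hlb⟩ hq hR0 hN htw

end Crest.Agent.R136.CW366
end

-- ▼ part R136/C3h_795
section

/-!
# R136, **case (C3)** (helper795)

* `nFull1` : `κ = 1`, natural plane (366's `kappa_one_M3`).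
* `fh3 : FH3 η`, `fh4 : FH4 η`, **`caseC3 : Dead η pC3`**.
-/

set_option autoImplicit false
set_option linter.unusedVariables false
set_option linter.unusedSectionVars false

open Filter Topology Finset

namespace Crest.Agent.R136.C3f795

open Crest.Agent.R138.Ex926 (Base U)
open Crest.Agent.R136.Gf356
open Crest.Agent.R136.Dg219 (gC dhC nC OutS gC_zero gC_eq gset lf)
open Crest.Agent.R136.C3a795 Crest.Agent.R136.C3b795 Crest.Agent.R136.C3c795
open Crest.Agent.R136.CV366 (NoStr)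
open Crest.Agent.R136.Fe1355 (RawTw)

namespace TF

variable {L : Set (Fin 11 → ℝ)} {lam : (Fin 11 → ℝ) → ℝ} {a b : Fin 11 → ℝ} {A : ℝ × ℝ}
  {φ : ℕ → (Fin 11 → ℝ) → ℝ} {r : ℕ → ℝ} {κ τ m : ℝ}
  {T : ℝ} {B : Base} {G : ℕ → RCfg (Fin 11)} {Leg : Set (Fin 11 → ℝ)}
  {ν : (Fin 11 → ℝ) → ℝ} {D : ℝ} {fa fb : ℕ → ℕ → ℝ} {q R0 : ℝ}
  (h : TF L lam a b A φ r κ τ m) (K : Mod L lam τ T B G Leg ν D fa fb q R0)

include h K

/-- **`κ = 1`, natural plane** : `N` is full -/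
theorem nFull1 (hKM : ∀ V : ℝ, Crest.Agent.R138.Tub70.KM32 V) (hκ1 : κ = 1) (hτ : τ = 1) :
    1 ≤ r (gC a b 10) / (1 + κ) := by
  have hT := K.M.T0
  have hT0 := hT.le
  rcases K.tw with ⟨-, htw⟩ | ⟨hτ1, -⟩
  swap
  · rw [hτ] at hτ1; norm_num at hτ1
  refine CW366.kappa_one_M3 K.M K.q0 K.R0p K.ns htw
    (fun p xa xb => ν (b6 0 0 0 0 0 0) - ν (b6 0 0 p xa xb 0))
    (fun ca cb => ν (b6 0 0 0 0 0 0) - ν (b6 ca cb 0 0 0 0)) ?_ ?_ ?_ ?_
  · intro ca cb p xa xb n h1 h2 h3 h4 h5 h6 h7 h8 h9 h10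
    exact h.split1 K hκ1 h3 h2 h1 h4 h5 h8 h6 h7 h9 h10
  · intro t ht htT
    exact h.block K hKM ht htT
  · intro p xa xa' hp0 hp h0 h1 h2
    have e := h.sharp1 8 (h.win_mem (T := T) (ca := 0) (cb := 0) (p := p) (xa := xa) (xb := 0)
        (n := 0) le_rfl le_rfl hp0 hp (h1.trans h2) le_rfl h0 hT0)
      (h.win_mem (T := T) (ca := 0) (cb := 0) (p := p) (xa := xa') (xb := 0)
        (n := 0) le_rfl le_rfl hp0 hp h2 le_rfl (h0.trans h1) hT0)
      (by intro i hi; fin_cases i <;> first | exact absurd rfl hi | simp [vv])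
      (by simpa [vv] using h1)
    have e' : (vv τ T T 0 0 p xa' 0 0 8 - vv τ T T 0 0 p xa 0 0 8 : ℝ) = xa' - xa := by simp [vv]
    rw [e'] at e
    rw [K.ν_eq 0 0 p xa' 0 0, K.ν_eq 0 0 p xa 0 0]
    linarith
  · intro t y h0 h1 h2
    have e := h.sharp1 9 (h.win_mem (T := T) (ca := 0) (cb := 0) (p := 0) (xa := y) (xb := t)
        (n := 0) le_rfl le_rfl le_rfl hT0 h2 h0 h1 hT0)
      (h.win_mem (T := T) (ca := 0) (cb := 0) (p := 0) (xa := y) (xb := y)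
        (n := 0) le_rfl le_rfl le_rfl hT0 h2 (h0.trans h1) le_rfl hT0)
      (by intro i hi; fin_cases i <;> first | exact absurd rfl hi | simp [vv])
      (by simpa [vv] using h1)
    have e' : (vv τ T T 0 0 0 y y 0 9 - vv τ T T 0 0 0 y t 0 9 : ℝ) = y - t := by simp [vv]
    rw [e'] at e
    rw [K.ν_eq 0 0 0 y y 0, K.ν_eq 0 0 0 y t 0]
    linarith

/-- **the F-half** -/
theorem fhalfAll (hKM : ∀ V : ℝ, Crest.Agent.R138.Tub70.KM32 V) (hT1 : 1 ≤ T) :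
    A.1 ≤ -(4 + κ) := by
  refine h.fhalf_of K hKM hT1 ?_
  by_cases hκ : κ = 1
  · rcases K.tw with ⟨e, -⟩ | ⟨e, -⟩
    · exact h.nFull1 K hKM hκ e
    · exact h.n_full_0 K hKM hκ e
  · exact h.n_full_ne K hKM hκ

end TF

end Crest.Agent.R136.C3f795

namespace Crest.Agent.R136.C3h795

open Crest.Agent.R136.Net191 Crest.Agent.R136.NetQ186 Crest.Agent.R136.Qg926
open Crest.Agent.R136.Gf356 Crest.Agent.R136.Aw413
open Crest.Agent.R136.NatT550 Crest.Agent.R136.NatR550 Crest.Agent.R136.Lq196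
open Crest.Agent.R136.Wq638
open Crest.Agent.R136.Tb628
open Crest.Agent.R136.TopB550
open Crest.Agent.R136.C3f795 Crest.Agent.R136.C3g795 Crest.Agent.R136.C3s569

/-- **F-half, natural plane** -/
theorem fh3 {η : ℝ} (hKM : ∀ V : ℝ, Crest.Agent.R138.Tub70.KM32 V) : FH3 η := by
  intro p D I1 π eE gA gB V T w0 R T0 PD ν own c₀ κ3 h h2 h3 h12 hκ hκ0 hS1 hS2 hcone ξ x h' lam
    A φ r P hom aew
  have ok := h.tp.ok
  have sl := h.tp.slots
  have h1 := ok.θ1.ne'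
  have hpl : Pln (s0 w0 (R - 1)) (sA 0 κ3) (sB p.θ 0 κ3) w0 R κ3 1 0 :=
    ⟨hκ0, s0_eq w0 R, sA_eq κ3, sB_eq h1 h12 hκ, Or.inl ⟨rfl, hcone, rfl⟩⟩
  have tf := tf_of_pt hpl P (min_q_pos ok) hS1
  obtain ⟨B', G, Leg, ν', D', fa, fb, K⟩ := mod_of_pt h ok.η_pos (by rw [h12]; linarith)
    (plOk_srf h1 le_rfl hκ0.le) hpl P
    (by
      intro k hk
      rw [sB_eq h1 h12 hκ]
      rcases (sl.vis k hk).1 with rfl | rfl | rfl <;> simp [bC])
    (by
      intro k hk _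
      rw [SC_one]
      rcases (sl.vis k hk).1 with rfl | rfl | rfl
      · exact absurd hk h2
      · decide
      · decide)
    (Or.inl ⟨rfl, (tied_iff sl h2 3).2 h3⟩) zero_lt_one
  exact tf.fhalfAll K hKM le_rfl

/-- **F-half, plane with slack `F_b`** -/
theorem fh4 {η : ℝ} (hKM : ∀ V : ℝ, Crest.Agent.R138.Tub70.KM32 V) : FH4 η := by
  intro p D I1 π eE gA gB V T w0 R T0 PD ν own c₀ κ3 h h2 h3 h4 h12 hκ hκ0 hS1 hS2 hcone ξ x h'
    lam A φ r P hom aew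
  have ok := h.tp.ok
  have sl := h.tp.slots
  have h1 := ok.θ1.ne'
  have hpl : Pln (s0 w0 (R - 1)) (fA 0 κ3 0) (fB p.θ 0 κ3 0) w0 R κ3 0
      ((0 - (p.θ 2 - p.θ 0)) / p.θ 1) :=
    ⟨hκ0, s0_eq w0 R, fA_eq κ3, fB_eq h1 h12 hκ, Or.inr ⟨rfl, hcone⟩⟩
  have tf := tf_of_pt hpl P (min_q_pos ok) hS1
  obtain ⟨B', G, Leg, ν', D', fa, fb, K⟩ := mod_of_pt h ok.η_pos (by rw [h12]; linarith)
    (plOk_F h1 le_rfl hκ0.le le_rfl) hpl P
    (by
      intro k hk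
      rw [fB_eq h1 h12 hκ]
      rcases (sl.vis k hk).1 with rfl | rfl | rfl
      · exact absurd hk h2
      · exact absurd hk h3
      · simp [bC])
    (by
      intro k hk _
      rw [SC_zero]
      rcases (sl.vis k hk).1 with rfl | rfl | rfl
      · exact absurd hk h2
      · exact absurd hk h3
      · decide)
    (Or.inr ⟨rfl, (tied_iff sl h2 4).2 h4⟩) zero_lt_one
  exact tf.fhalfAll K hKM le_rfl

/-- **T.C3** -/
theorem caseC3 {η : ℝ} (hη1 : η ≤ 1 / 8) (hKM : ∀ V : ℝ, Crest.Agent.R138.Tub70.KM32 V) :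
    Dead η pC3 :=
  caseC3_of hη1 (fh3 hKM) (fh4 hKM)

end Crest.Agent.R136.C3h795
end

-- ▼ part R136/Dd0_413
section

/-!
# R136, row D1 of the thick table (helper413), part 0: the window

`S = {z, E, F_a}`, the walls with `F_b` are slack.

* `MaD Ma` : the walls; `legD` : legality;
* `own4`, `flg4`, `rawTw4` : own motion and raw twist of `F_a` (an additive flag because the wall
  `F_a ≤ E + F_b` is far);
* `m1_of_qat` : 865's `M1` (no slot of the `b`-direction), `ne_of_qat` is 403's;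
* `DW`, `dw_of_aew` : everything in one call from `AeW`.
-/

set_option autoImplicit false
set_option linter.unusedVariables false
set_option linter.unusedSectionVars false

open Filter Topology

namespace Crest.Agent.R136.Dd413

open Finset Crest.Agent.R136.NetQ186 Crest.Agent.R136.Net191 Crest.Agent.R136.Qg926
open Crest.Agent.R136.Gf356 Crest.Agent.R136.Ev356 Crest.Agent.R136.Aw413
open Crest.Agent.R136.Wq400 Crest.Agent.R136.Fe1355
open Crest.Agent.R138.Ex926 (Base U)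

/-- the walls of the chart with a slack slot `F_b` -/
structure MaD (Ma : Mons 11) : Prop where
  sub : ∀ k, Ma.mon k ⊆ monQ.mon k
  m256 : mv 2 5 ∈ Ma.mon 6
  m457 : mv 4 5 ∈ Ma.mon 7
  m058 : mv 0 5 ∈ Ma.mon 8
  m069 : mv 0 6 ∈ Ma.mon 9
  m289 : mv 2 8 ∈ Ma.mon 9
  m0710 : mv 0 7 ∈ Ma.mon 10
  m4810 : mv 4 8 ∈ Ma.mon 10
  /-- no wall with `R` or `F_b` -/
  no : ∀ k, ∀ e ∈ Ma.mon k, e 1 = 0 ∧ e 3 = 0

namespace MaD

variable {Ma : Mons 11} (hM : MaD Ma)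

include hM

theorem n234 : mv 2 3 ∉ Ma.mon 4 := fun h => absurd (hM.no 4 _ h).2 (by decide)
theorem n367 : mv 3 6 ∉ Ma.mon 7 := fun h => absurd (hM.no 7 _ h).2 (by decide)
theorem n3910 : mv 3 9 ∉ Ma.mon 10 := fun h => absurd (hM.no 10 _ h).2 (by decide)
theorem n017 : mv 0 1 ∉ Ma.mon 7 := fun h => absurd (hM.no 7 _ h).1 (by decide)

end MaD

/-- the monomials of the chart without `R` and `F_b` -/
theorem monQ_cases : ∀ k : Fin 11, ∀ e ∈ monQ.mon k, e 1 = 0 ∧ e 3 = 0 →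
    (k = 6 ∧ e = mv 2 5) ∨ (k = 7 ∧ e = mv 4 5) ∨ (k = 8 ∧ e = mv 0 5) ∨
    (k = 9 ∧ e = mv 0 6) ∨ (k = 9 ∧ e = mv 2 8) ∨ (k = 9 ∧ e = ![1, 0, 1, 0, 0, 1, 0, 0, 0, 0, 0]) ∨
    (k = 10 ∧ e = mv 0 7) ∨ (k = 10 ∧ e = mv 4 8) ∨
    (k = 10 ∧ e = ![1, 0, 0, 0, 1, 1, 0, 0, 0, 0, 0]) := by decide

/-- legality in the chart with slack `F_b` -/
theorem legD {Ma : Mons 11} (hM : MaD Ma) {c : Fin 11 → ℝ} (w625 : c 6 ≤ c 2 + c 5)
    (w745 : c 7 ≤ c 4 + c 5) (w805 : c 8 ≤ c 0 + c 5) (w906 : c 9 ≤ c 0 + c 6)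
    (w928 : c 9 ≤ c 2 + c 8) (w107 : c 10 ≤ c 0 + c 7) (w148 : c 10 ≤ c 4 + c 8) :
    c ∈ coneM Ma := by
  intro k e he
  rcases monQ_cases k e (hM.sub k he) (hM.no k e he) with ⟨rfl, rfl⟩ | ⟨rfl, rfl⟩ | ⟨rfl, rfl⟩ |
    ⟨rfl, rfl⟩ | ⟨rfl, rfl⟩ | ⟨rfl, rfl⟩ | ⟨rfl, rfl⟩ | ⟨rfl, rfl⟩ | ⟨rfl, rfl⟩
  · rw [sum_mv]; exact w625
  · rw [sum_mv]; exact w745
  · rw [sum_mv]; exact w805
  · rw [sum_mv]; exact w906
  · rw [sum_mv]; exact w928
  · simp [Fin.sum_univ_succ]; linarith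
  · rw [sum_mv]; exact w107
  · rw [sum_mv]; exact w148
  · simp [Fin.sum_univ_succ]; linarith

variable {ι : ℕ → Type*} [∀ n, DecidableEq (ι n)] {W : Wnd 11 ι} {f : ∀ n, ι n → Fq4}
  {E : ∀ n, Finset (ι n)} {T : ℝ} {Ma : Mons 11}

/-! ### the flag `F_a` -/

/-- the coefficient `E F_b → F_a` is small -/
theorem cf234 (h : QAt W f Ma) (hM : MaD Ma) {t : ℝ} (ht : 0 ≤ t) :
    ∀ᶠ n in (U : Filter ℕ), |cf W n 2 3 4| ≤ W.B'.d n ^ t := by
  filter_upwards [h.cf_ap (i := 2) (j := 3) (s := 4) (by decide) (by decide) (fun _ => by decide)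
    t ht] with n hn
  have := hn.d
  rwa [show chi Ma 2 3 4 = 0 from if_neg hM.n234, sub_zero, one_mul] at this

/-- product of two coordinates -/
theorem prod_le {n : ℕ} {c x y δ : ℝ} (hc : |c| ≤ δ) (hx : |x| ≤ 1 / 4) (hy : |y| ≤ 1 / 4) :
    |c * (x * y)| ≤ 1 / 16 * δ := by
  have hδ : 0 ≤ δ := (abs_nonneg _).trans hc
  rw [abs_mul, abs_mul]
  have h1 := mul_le_mul hx hy (abs_nonneg _) (by norm_num)
  have h2 := mul_le_mul hc h1 (by positivity) hδ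
  linarith

/-- **own motion of `F_a`** -/
theorem own4 (h : QAt W f Ma) {n : ℕ} (g : W.Good n) {x x' z z' : ι n} (hx : x ∈ W.Cl n)
    (hx' : x' ∈ W.Cl n) (hz : z ∈ W.Cl n) (hz' : z' ∈ W.Cl n) (hl : W.zc n x = W.zc n z)
    (hl' : W.zc n x' = W.zc n z') {t : ℝ} (h4 : (4 : Fin 11) ∈ W.S) (ht : t ≤ W.top 4)
    (hcf : |cf W n 2 3 4| ≤ W.B'.d n ^ t) :
    |W.crd n x x' 4 - W.crd n z z' 4| ≤ W.B'.d n ^ t := by
  have e1 := h.q.crd_four g hx hz hx'
  have e2 := h.q.crd_four g hz hz' hx'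
  have h1 := h.q.crd_lev g hx hz hl h4 ht
  have h2 := h.q.crd_lev g hz' hx' hl'.symm h4 ht
  have hk : W.K0 / W.kap 4 ≤ 1 / 4 := by
    rw [div_le_div_iff₀ (h.q.ok.kap 4) (by norm_num)]
    linarith [h.kap4 4]
  have hρ : 0 ≤ W.B'.d n ^ t := Real.rpow_nonneg (W.B'.pos n).le _
  have h1' := h1.trans (mul_le_mul_of_nonneg_right hk hρ)
  have h2' := h2.trans (mul_le_mul_of_nonneg_right hk hρ)
  have p1 := prod_le (n := n) hcf (h.crd4 g hx hz 2) (h.crd4 g hz hx' 3)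
  have p2 := prod_le (n := n) hcf (h.crd4 g hz hz' 2) (h.crd4 g hz' hx' 3)
  have e : W.crd n x x' 4 - W.crd n z z' 4 = W.crd n x z 4 + W.crd n z' x' 4 -
      cf W n 2 3 4 * (W.crd n x z 2 * W.crd n z x' 3) -
      cf W n 2 3 4 * (W.crd n z z' 2 * W.crd n z' x' 3) := by linarith
  rw [e]
  have a1 := abs_sub (W.crd n x z 4 + W.crd n z' x' 4 -
      cf W n 2 3 4 * (W.crd n x z 2 * W.crd n z x' 3))
    (cf W n 2 3 4 * (W.crd n z z' 2 * W.crd n z' x' 3))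
  have a2 := abs_sub (W.crd n x z 4 + W.crd n z' x' 4)
    (cf W n 2 3 4 * (W.crd n x z 2 * W.crd n z x' 3))
  have a3 := abs_add_le (W.crd n x z 4) (W.crd n z' x' 4)
  linarith

/-- the flag `F_a` of a height is additive -/
theorem flg4 (h : QAt W f Ma) {n : ℕ} (g : W.Good n) {E0 : Finset (ι n)} (hE : E0 ⊆ W.Cl n)
    {k k' : ℕ} (hk : k ∈ (W.cfg0 n E0).Z) (hk' : k' ∈ (W.cfg0 n E0).Z) {t : ℝ}
    (hcf : |cf W n 2 3 4| ≤ W.B'.d n ^ t) :
    |W.crd n (W.zrep n k) (W.zrep n k') 4 - (flg W n k' 4 - flg W n k 4)| ≤ W.B'.d n ^ t := by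
  obtain ⟨z1, -⟩ := zrep_of_mem hE hk
  obtain ⟨z1', -⟩ := zrep_of_mem hE hk'
  have e1 := h.q.crd_four g g.s0 z1 z1'
  have p1 := prod_le (n := n) hcf (h.crd4 g g.s0 z1 2) (h.crd4 g z1 z1' 3)
  have hρ : 0 ≤ W.B'.d n ^ t := Real.rpow_nonneg (W.B'.pos n).le _
  have e : W.crd n (W.zrep n k) (W.zrep n k') 4 - (flg W n k' 4 - flg W n k 4) =
      cf W n 2 3 4 * (W.crd n (W.s₀ n) (W.zrep n k) 2 * W.crd n (W.zrep n k) (W.zrep n k') 3) := by
    unfold flg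
    linarith
  rw [e]
  linarith

/-- **raw twist of `F_a` between heights** -/
theorem rawTw4 (h : QAt W f Ma) (hM : MaD Ma)
    (hc : ∀ᶠ n in (U : Filter ℕ), W.Good n ∧ E n ⊆ W.Cl n ∧ W.cfg E n = W.cfg0 n (E n))
    (h4 : (4 : Fin 11) ∈ W.S) (hT : 0 < T) (ht : T ≤ W.top 4) (hr : RawL W E 4) :
    RawTw W.B' (W.cfg E) (fun n k k' => flg W n k' 4 - flg W n k 4) := by
  intro ε hε
  set δ : ℝ := min (ε / 2) (T / 2) with hδ
  have hδ0 : 0 < δ := lt_min (by positivity) (by positivity)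
  have hδε : δ < ε := lt_of_le_of_lt (min_le_left _ _) (by linarith)
  have hδT : δ < T := lt_of_le_of_lt (min_le_right _ _) (by linarith)
  filter_upwards [hc, hr δ hδ0 (1 / 2) (by norm_num), cf234 h hM hT.le,
    ev_const_le W.B' (show 0 < ε - δ by linarith) 2,
    ev_const_le W.B' (show 0 < T - δ by linarith) 4] with n hn hrn hcf h2 h3
  obtain ⟨g, hE, hcfg⟩ := hn
  intro i hi S hS hSm
  have hd0 : 0 < W.B'.d n := W.B'.pos n
  have hpow : ∀ t : ℝ, 0 < W.B'.d n ^ t := fun t => Real.rpow_pos_of_pos hd0 t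
  have a1 : W.B'.d n ^ ε ≤ W.B'.d n ^ δ / 2 := by
    have : W.B'.d n ^ ε * W.B'.d n ^ (-(ε - δ)) = W.B'.d n ^ δ := by
      rw [← Real.rpow_add hd0]; congr 1; ring
    have h4 := mul_le_mul_of_nonneg_left h2 (hpow ε).le
    rw [this] at h4
    linarith
  have a2 : 2 * W.B'.d n ^ T ≤ W.B'.d n ^ δ / 2 := by
    have : W.B'.d n ^ T * W.B'.d n ^ (-(T - δ)) = W.B'.d n ^ δ := by
      rw [← Real.rpow_add hd0]; congr 1; ring
    have h4 := mul_le_mul_of_nonneg_left h3 (hpow T).le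
    rw [this] at h4
    linarith
  classical
  have hsub : S ⊆ ((W.cfg E n).hts i).biUnion fun k =>
      (((W.cfg E n).hts i).filter fun k' =>
        |W.crd n (W.rep n i k) (W.rep n i k') 4| ≤ W.B'.d n ^ δ).image fun k' => (k, k') := by
    intro q hq
    obtain ⟨q1, q2⟩ := mem_product.1 (hS hq)
    refine mem_biUnion.2 ⟨q.1, q1, mem_image.2 ⟨q.2, mem_filter.2 ⟨q2, ?_⟩, rfl⟩⟩
    have g1 := (RCfg.mem_hts.1 q1)
    have g2 := (RCfg.mem_hts.1 q2)
    have g1' := g1.2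
    have g2' := g2.2
    rw [hcfg] at g1' g2'
    have g1z := g1.1
    have g2z := g2.1
    rw [hcfg] at g1z g2z
    have m1 := flg4 h g hE g1z g2z hcf
    obtain ⟨x1, x2, x3⟩ := rep_of_mem hE g1'
    obtain ⟨y1, y2, y3⟩ := rep_of_mem hE g2'
    obtain ⟨z1, z2⟩ := zrep_of_mem hE g1z
    obtain ⟨z1', z2'⟩ := zrep_of_mem hE g2z
    have m2 := own4 h g x1 y1 z1 z1' (x3.trans z2.symm) (y3.trans z2'.symm) h4 ht hcf
    have m3 := hSm q hq
    have m5 := abs_sub_abs_le_abs_sub (W.crd n (W.rep n i q.1) (W.rep n i q.2) 4)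
      (flg W n q.2 4 - flg W n q.1 4)
    have m6 := abs_sub_le (W.crd n (W.rep n i q.1) (W.rep n i q.2) 4)
      (W.crd n (W.zrep n q.1) (W.zrep n q.2) 4) (flg W n q.2 4 - flg W n q.1 4)
    linarith
  have hcard : (S.card : ℝ) ≤ ∑ k ∈ (W.cfg E n).hts i,
      1 / 2 * (((W.cfg E n).hts i).card : ℝ) := by
    have h5 : (S.card : ℝ) ≤ ∑ k ∈ (W.cfg E n).hts i,
        ((((W.cfg E n).hts i).filter fun k' =>
        |W.crd n (W.rep n i k) (W.rep n i k') 4| ≤ W.B'.d n ^ δ).card : ℝ) := by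
      have h6 := (card_le_card hsub).trans card_biUnion_le
      have h7 : ∑ k ∈ (W.cfg E n).hts i, ((((W.cfg E n).hts i).filter fun k' =>
          |W.crd n (W.rep n i k) (W.rep n i k') 4| ≤ W.B'.d n ^ δ).image
            fun k' => (k, k')).card ≤
          ∑ k ∈ (W.cfg E n).hts i, (((W.cfg E n).hts i).filter fun k' =>
          |W.crd n (W.rep n i k) (W.rep n i k') 4| ≤ W.B'.d n ^ δ).card :=
        sum_le_sum fun k _ => card_image_le
      exact_mod_cast h6.trans h7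
    exact h5.trans (sum_le_sum fun k hk => hrn i hi k hk)
  rw [sum_const, nsmul_eq_mul] at hcard
  nlinarith

/-! ### 865's model -/

/-- **`M1` in a window of 356's class**, no slot of the `b`-direction -/
theorem m1_of_qat (h : QAt W f Ma) (hM : MaD Ma) (hkz : W.kz = 0) (h4 : (4 : Fin 11) ∈ W.S)
    (hc : ∀ᶠ n in (U : Filter ℕ), W.Good n ∧ E n ⊆ W.Cl n ∧ W.cfg E n = W.cfg0 n (E n))
    (T0 : 0 < T) (ht : ∀ s, T ≤ W.top s)
    (leg : ∀ ca p xa n : ℝ, 0 ≤ ca → ca ≤ T → 0 ≤ p → p ≤ T → 0 ≤ xa → xa ≤ T → 0 ≤ n →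
      n ≤ T → C1865.bw 0 ca 0 p xa 0 n ∈ W.legW)
    (H : RModel W.B' (W.cfg E) 1 T W.legW W.nu W.Dc) (hr : RawL W E 4) :
    C1865.M1 W.B' (W.cfg E) W.legW W.nu T W.Dc (fun n k => flg W n k 4) False where
  H := H
  T0 := T0
  leg := fun e ca cb p xa xb n _ _ ca0 ca1 _ _ p0 p1 xa0 xa1 _ _ n0 n1 _ _ hR => by
    rcases hR with hR | ⟨rfl, rfl, rfl⟩
    · exact hR.elim
    · exact leg ca p xa n ca0 ca1 p0 p1 xa0 xa1 n0 n1
  bd := by
    have hK0 := h.q.ok.K0_one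
    filter_upwards [Xb403.bd_of h.q (fun s => by have := h.kap4 s; linarith) hc,
      h.q.z_eq hkz hc] with n hn hz k hk
    rw [hz k]
    exact ⟨hn.2 k hk 0, hn.2 k hk 4⟩
  rb := fun ε hε => by
    have hK0 := h.q.ok.K0_one
    filter_upwards [Xb403.bd_of h.q (fun s => by have := h.kap4 s; linarith) hc,
      ev_const_le W.B' hε 1] with n hn h1 k i l h2 h3 s
    exact (hn.1 k i l h2 h3 s).trans h1
  ev := fun ε hε => by
    have hK0 := h.q.ok.K0_one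
    filter_upwards [h.evoX hc T0.le ht (half_pos hε), h.q.z_eq hkz hc, h.q.mot_eq hc, hc,
      cf234 h hM T0.le, Xb403.bd_of h.q (fun s => by have := h.kap4 s; linarith) hc,
      ev_const_le W.B' (half_pos hε) 8] with n hev hz hmot hn hcf hbd h8
    obtain ⟨g, hE, hcfg⟩ := hn
    intro k k' i l h1 h2 h3 h4'
    refine ⟨?_, fun hF => hF.elim⟩
    have hkZ : k ∈ (W.cfg E n).Z := H.memZ h1
    have hkZ' : k' ∈ (W.cfg E n).Z := H.memZ h3
    have key := hev k k' i l h1 h3 h2 h4'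
    set a := ownC (chi Ma) W n k k' (fsl W n i k 2) (fsl W n i k 3) with ha
    set r := (W.cfg E n).rel k i l with hr'
    set r' := (W.cfg E n).rel k' i l with hr''
    have c234 : chi Ma 2 3 4 = 0 := if_neg hM.n234
    have c367 : chi Ma 3 6 7 = 0 := if_neg hM.n367
    have c3910 : chi Ma 3 9 10 = 0 := if_neg hM.n3910
    have c017 : chi Ma 0 1 7 = 0 := if_neg hM.n017
    have c457 : chi Ma 4 5 7 = 1 := if_pos hM.m457
    have c058 : chi Ma 0 5 8 = 1 := if_pos hM.m058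
    have c0710 : chi Ma 0 7 10 = 1 := if_pos hM.m0710
    have c4810 : chi Ma 4 8 10 = 1 := if_pos hM.m4810
    have m0 : a 0 = (W.cfg E n).z k' - (W.cfg E n).z k := by
      rw [ha, hz k, hz k']
      unfold ownC mot
      rw [if_neg (by decide), if_pos (show (0 : Fin 11) ∈ W.S from h.S0)]
      exact (hmot k hkZ k' hkZ').1 0 (by simp)
    have m4 : a 4 = W.crd n (W.zrep n k) (W.zrep n k') 4 := by
      rw [ha]
      unfold ownC
      rw [if_pos rfl, if_pos h4, c234]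
      ring
    have hρ : 0 < W.B'.d n ^ T := Real.rpow_pos_of_pos (W.B'.pos n) _
    have d4 : |a 4 - (flg W n k' 4 - flg W n k 4)| ≤ W.B'.d n ^ T := by
      rw [m4]
      have hkZ0 := hkZ
      have hkZ0' := hkZ'
      rw [hcfg] at hkZ0 hkZ0'
      exact flg4 h g hE hkZ0 hkZ0' hcf
    have hR : ∀ s, |r s| ≤ 1 := fun s => hbd.1 k i l h1 h2 s
    have hu : |a 0| ≤ 2 := by
      rw [m0, hz k, hz k']
      refine (abs_sub _ _).trans ?_
      have := hbd.2 k hkZ 0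
      have := hbd.2 k' hkZ' 0
      linarith
    have hfin : W.B'.d n ^ (T - ε / 2) + 3 * W.B'.d n ^ T ≤ W.B'.d n ^ (T - ε) := by
      have e1 : W.B'.d n ^ (T - ε) = W.B'.d n ^ (-(ε / 2)) * W.B'.d n ^ (T - ε / 2) := by
        rw [← Real.rpow_add (W.B'.pos n)]; congr 1; ring
      have e2 : W.B'.d n ^ T ≤ W.B'.d n ^ (T - ε / 2) :=
        Real.rpow_le_rpow_of_exponent_ge (W.B'.pos n) (W.B'.lt n).le (by linarith)
      have e3 : 0 < W.B'.d n ^ (T - ε / 2) := Real.rpow_pos_of_pos (W.B'.pos n) _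
      rw [e1]
      nlinarith
    have hle : W.B'.d n ^ (T - ε / 2) ≤ W.B'.d n ^ (T - ε) := by linarith
    rw [← m0]
    set φ := flg W n k' 4 - flg W n k 4 with hφ
    have mul3 : ∀ {x : ℝ}, |x| ≤ 3 → |(a 4 - φ) * x| ≤ 3 * W.B'.d n ^ T := by
      intro x hx
      rw [abs_mul]
      have := mul_le_mul d4 hx (abs_nonneg _) hρ.le
      linarith
    refine ⟨?_, ?_, ?_, ?_⟩
    · have := key 5 (h.q.notMem (by simp))
      have e : evoC (chi Ma) a r 5 = r 5 := by simp only [evoC, Matrix.cons_val]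
      rw [e] at this
      exact this.trans hle
    · have := key 7 (h.q.notMem (by simp))
      have e : evoC (chi Ma) a r 7 = r 7 - a 4 * r 5 := by
        simp only [evoC, Matrix.cons_val]
        rw [c017, c457, c367]; ring
      rw [e] at this
      have e2 : r' 7 - (r 7 - φ * r 5) = (r' 7 - (r 7 - a 4 * r 5)) - (a 4 - φ) * r 5 := by ring
      rw [e2]
      have h5 := abs_sub (r' 7 - (r 7 - a 4 * r 5)) ((a 4 - φ) * r 5)
      have h6 := mul3 (x := r 5) ((hR 5).trans (by norm_num))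
      linarith
    · have := key 8 (h.q.notMem (by simp))
      have e : evoC (chi Ma) a r 8 = r 8 + a 0 * r 5 := by
        simp only [evoC, Matrix.cons_val]
        rw [c058]; ring
      rw [e] at this
      exact this.trans hle
    · have := key 10 (h.q.notMem (by simp))
      have e : evoC (chi Ma) a r 10 = r 10 + a 0 * r 7 - a 4 * (r 8 + a 0 * r 5) := by
        simp only [evoC, Matrix.cons_val]
        rw [c0710, c017, c4810, c058, c3910]; ring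
      rw [e] at this
      have e2 : r' 10 - (r 10 + a 0 * r 7 - φ * (r 8 + a 0 * r 5)) =
          (r' 10 - (r 10 + a 0 * r 7 - a 4 * (r 8 + a 0 * r 5))) -
            (a 4 - φ) * (r 8 + a 0 * r 5) := by ring
      rw [e2]
      have h5 := abs_sub (r' 10 - (r 10 + a 0 * r 7 - a 4 * (r 8 + a 0 * r 5)))
        ((a 4 - φ) * (r 8 + a 0 * r 5))
      have h7 : |r 8 + a 0 * r 5| ≤ 3 := by
        refine (abs_add_le _ _).trans ?_
        rw [abs_mul]
        have := mul_le_mul hu (hR 5) (abs_nonneg _) (by norm_num)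
        linarith [hR 8]
      have h6 := mul3 h7
      linarith
  tw := rawTw4 h hM hc h4 T0 (ht 4) hr

/-! ### everything in one call -/

/-- **the window of the row D1** -/
structure DW (lam : (Fin 11 → ℝ) → ℝ) (T : ℝ) (W : Wnd 11 ι) (E : ∀ n, Finset (ι n)) : Prop where
  lamE : W.lam = lam
  S : W.S = {0, 2, 4}
  top : W.top = fun _ => T
  ne : Xb403.NE W.B' (W.cfg E) W.legW W.nu T W.Dc (fun n k => flg W n k 2)
  tw2 : RawTw W.B' (W.cfg E) (fun n k k' => flg W n k' 2 - flg W n k 2)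
  m1 : C1865.M1 W.B' (W.cfg E) W.legW W.nu T W.Dc (fun n k => flg W n k 4) False

/-- every box between `0` and `T` is legal -/
theorem legW_D (hM : MaD Ma) (hS : W.S = {0, 2, 4}) (htop : W.top = fun _ => T)
    (hMw : W.Mw = Ma) (hR : W.R' = T) {p : Fin 11 → ℝ} (h0 : ∀ s, 0 ≤ p s) (h1 : ∀ s, p s ≤ T) :
    p ∈ W.legW := by
  have hT : 0 ≤ T := (h0 0).trans (h1 0)
  have key : ∀ s, 0 ≤ cut {0, 2, 4} p (fun _ => T) s ∧ cut {0, 2, 4} p (fun _ => T) s ≤ T := by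
    intro s
    unfold cut
    split_ifs
    · exact ⟨hT, le_rfl⟩
    · exact ⟨h0 s, h1 s⟩
  have e0 : cut {0, 2, 4} p (fun _ => T) 0 = T := cut_of_mem (by decide)
  have e2 : cut {0, 2, 4} p (fun _ => T) 2 = T := cut_of_mem (by decide)
  have e4 : cut {0, 2, 4} p (fun _ => T) 4 = T := cut_of_mem (by decide)
  refine ⟨?_, fun s _ => by rw [htop]; exact h1 s⟩
  rw [hS, htop, hMw, hR]
  refine ⟨⟨fun s => (key s).1, fun k e he => ?_⟩, fun s => (key s).2⟩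
  refine legD hM ?_ ?_ ?_ ?_ ?_ ?_ ?_ k e he
  · rw [e2]; linarith [(key 6).2, (key 5).1]
  · rw [e4]; linarith [(key 7).2, (key 5).1]
  · rw [e0]; linarith [(key 8).2, (key 5).1]
  · rw [e0]; linarith [(key 9).2, (key 6).1]
  · rw [e2]; linarith [(key 9).2, (key 8).1]
  · rw [e0]; linarith [(key 10).2, (key 7).1]
  · rw [e4]; linarith [(key 10).2, (key 8).1]

theorem sok_D : SOk {0, 2, 4} := by constructor <;> decide

/-- **the window of `AeW`** -/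
theorem dw_of_aew {B Bo : Base} {I J : ∀ n, Finset (ι n)} {co : ∀ n, ι n → ι n → Fin 11 → ℝ}
    {C : ℝ} {lam : (Fin 11 → ℝ) → ℝ} {a b : Fin 11 → ℝ} {A : ℝ × ℝ}
    {φ : ℕ → (Fin 11 → ℝ) → ℝ} {r : ℕ → ℝ} {κ : Fin 11 → ℝ} {V Tw : Fin 11 → Prop}
    (h : AeW B Bo I J co monQ Ma C lam a b A φ r 0 1 κ V Tw) (hM : MaD Ma) (hC : 0 ≤ C)
    (hco : ∀ n, ∀ i ∈ I n, ∀ j ∈ I n, co n i j = coQ (f n i) (f n j))
    (hne : ∀ᶠ n in (U : Filter ℕ), (J n).Nonempty)
    (hS : ∀ i j : Fin 11, Dg219.gC a b i = Dg219.gC a b j → i ∈ ({0, 2, 4} : Finset (Fin 11)) →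
      j ∈ ({0, 2, 4} : Finset (Fin 11)))
    (hV : ∀ k, V k → k = 2 ∨ k = 4) (hT2 : Tw 2) (hT4 : Tw 4) (hT : 0 < T) :
    ∃ (W : Wnd 11 ι) (E : ∀ n, Finset (ι n)), DW lam T W E := by
  have hK0 : 1 ≤ cK0 monQ C := cK0_one hC
  set st : WSt 11 := stQ {0, 2, 4} (4 * cK0 monQ C) T Ma with hst
  have hok : st.Ok monQ (coneM Ma) := stQ_ok sok_D (by linarith) hT.le hM.sub
  obtain ⟨W, hW, -, -⟩ := h.wnd st rfl hok (fun _ _ => 1)
    (fun _ => Crest.Agent.R138.Ex926.Base.Sub.const one_pos) J (fun _ => 1)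
    (Eventually.of_forall fun n => Finset.Subset.refl _) hne
    (Crest.Agent.R138.Ex926.Base.Sub.const one_pos)
    (Eventually.of_forall fun n => by rw [one_mul])
  have hden : st.Dens lam 1 T := h.dens rfl hok hS zero_le_one le_rfl le_rfl
    fun y hy _ => legD hM (by simp) (by simp) (by simpa using hy) (by simpa using hy) (by simp)
      (by simpa using hy) (by simp)
  obtain ⟨E, g, hP, -, H, htw⟩ := hW.model hden (fun _ _ _ => 0)
    (g₀ := fun n => n)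
    (tendsto_natCast_atTop_atTop.mono_left Crest.Agent.R138.Ex926.U_le_atTop) (fun k hk => by
      left
      show k ∈ ({0, 2, 4} : Finset (Fin 11))
      rcases hV k hk with rfl | rfl <;> decide)
  have hq : QWnd W f := qwnd_of_wat hW hco (by
    show ∀ s ∈ ({0, 2, 4} : Finset (Fin 11)), _
    decide)
  have hc := hcQ hq hP
  have hqa : QAt W f Ma := QAt.of_wat hW hq (by
    show (0 : Fin 11) ∈ ({0, 2, 4} : Finset (Fin 11)); decide) (fun s => rfl) hM.n017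
  have eS : W.S = {0, 2, 4} := hW.eS
  have etop : W.top = fun _ => T := hW.etop
  have leg : ∀ p : Fin 11 → ℝ, (∀ s, 0 ≤ p s) → (∀ s, p s ≤ T) → p ∈ W.legW :=
    fun p h0 h1 => legW_D hM eS etop hW.eMw hW.eR h0 h1
  have raw : ∀ s : Fin 11, s = 2 ∨ s = 4 → Tw s → RawL W E s := by
    intro s hs hTs
    refine htw s ?_ hTs hT ⟨T, hT, ?_⟩
    · show s ∈ ({0, 2, 4} : Finset (Fin 11))
      rcases hs with rfl | rfl <;> decide
    · show cut {0, 2, 4} (fun _ => T) (Pi.single s T) ∈ coneM Ma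
      rcases hs with rfl | rfl
      · refine legD hM ?_ ?_ ?_ ?_ ?_ ?_ ?_ <;> simp [cut] <;> linarith
      · refine legD hM ?_ ?_ ?_ ?_ ?_ ?_ ?_ <;> simp [cut] <;> linarith
  have m2 : (2 : Fin 11) ∈ W.S := by rw [eS]; decide
  have m4 : (4 : Fin 11) ∈ W.S := by rw [eS]; decide
  refine ⟨W, E, hW.elam, eS, etop, ?_, ?_, ?_⟩
  · refine Xb403.ne_of_qat hqa ⟨hM.m256, hM.m058, hM.m069, hM.m289, hM.n017⟩ hW.ekz m2 hc hT
      (fun s => by rw [etop]) ?_ H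
    intro ca cb xa xb h1 h2 h3 h4 h5 h6 h7 h8
    refine leg _ (fun s => ?_) fun s => ?_
    · fin_cases s <;> simp [Xb403.bw] <;> assumption
    · fin_cases s <;> simp [Xb403.bw] <;> first | assumption | exact hT.le
  · exact C2w400.rawTw_of_rawL hq hc m2 (by simp) hT (by rw [etop]) (raw 2 (by simp) hT2)
  · refine m1_of_qat hqa hM hW.ekz m4 hc hT (fun s => by rw [etop]) ?_ H (raw 4 (by simp) hT4)
    intro ca p xa n h1 h2 h3 h4 h5 h6 h7 h8
    refine leg _ (fun s => ?_) fun s => ?_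
    · fin_cases s <;> simp [C1865.bw] <;> assumption
    · fin_cases s <;> simp [C1865.bw] <;> first | assumption | exact hT.le

/-- values of the profile of the window -/
theorem DW.nu_eq {lam : (Fin 11 → ℝ) → ℝ} {W : Wnd 11 ι} {E : ∀ n, Finset (ι n)}
    (h : DW lam T W E) (p : Fin 11 → ℝ) :
    W.nu p = lam (cut {0, 2, 4} p fun _ => T) - lam fun _ => T := by
  unfold Wnd.nu
  rw [h.S, h.top, h.lamE]

end Crest.Agent.R136.Dd413
end

-- ▼ part R136/Dl2_667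
section

/-!
# R136, row D1 of the thick table, case `θ 2 < θ 0` (helper667): the ladder

`κ = θ 1 - θ 2`, `κ3 = θ 1 - θ 0`, `0 < κ3 < κ`; `V 2`, `¬ V 3`, `V 4`.

* `aD`, `bD` : the last plane (slope `1 + κ3`, `F_b` dropped, alone in its group)
* `aD_val`, `bD_of_ne`, `gD_024`, `gD_3` : values and groups
* `maD` : the walls `mA monQ (AF {3})` are `MaD`
* `dwD` : 413's window `DW` at every point of the last rung
* `ladder_D` : the pin on the rung `s = 1 + κ` and the F-half on the last rung give `False`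
-/

set_option autoImplicit false
set_option linter.unusedVariables false

open Finset Filter Topology

namespace Crest.Agent.R136.Dl667

open Crest.Agent.R138.Ex926 (Base U IsTan)
open Crest.Agent.R136.Net191
open Crest.Agent.R136.NetQ186
open Crest.Agent.R136.Wq638
open Crest.Agent.R136.Lq196
open Crest.Agent.R136.NatT550
open Crest.Agent.R136.NatR550 (nL)
open Crest.Agent.R136.Top484
open Crest.Agent.R136.LdF511
open Crest.Agent.R136.LdF3511
open Crest.Agent.R136.Tb628 (oS oS_eq pathQ_oS ownPath nprof ownF hsl_sub)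
open Crest.Agent.R136.K2S774 (cn Prf JT Stage RecD RungD BaseOk ind1 A2 stage_init)
open Crest.Agent.R136.K2A146 (FLemA)
open Crest.Agent.R136.AwJ774
open Crest.Agent.R136.Aw413
open Crest.Agent.R136.Ev356 (mv)
open Crest.Agent.R136.Gf356
open Crest.Agent.R136.Qg926 (Wnd)
open Crest.Agent.R136.Dd413 (MaD DW dw_of_aew)
open Crest.Agent.R136.Dg219 (Walls mw gC dhC nC OutS gC_eq gC_zero)
open Crest.Agent.R136.Rc146 (OutA)
open Crest.Agent.R136.Dg262 (X)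

/-! ### the last plane -/

/-- ray of the last rung -/
def aD (θ : Fin 3 → ℝ) : Fin 11 → ℝ := TF {3} (θ 1 - θ 2) (1 + (θ 1 - θ 0)) fun _ => 1

/-- slope of `F_b`, larger than all the others -/
noncomputable def kD (θ : Fin 3 → ℝ) : ℝ := 2 + ∑ i, |rhoF θ i / aD θ i|

/-- second direction of the last plane -/
noncomputable def bD (θ : Fin 3 → ℝ) (i : Fin 11) : ℝ := if i = 3 then kD θ else rhoF θ i

theorem aD_val (θ : Fin 3 → ℝ) : aD θ = ![1, 0, θ 1 - θ 2, 1, θ 1 - θ 0, 0, θ 1 - θ 2, θ 1 - θ 0,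
    1, 1 + (θ 1 - θ 2), 1 + (θ 1 - θ 0)] := by
  funext k
  unfold aD
  by_cases hk : k = 3
  · subst hk
    rw [TF_on (by decide)]; simp
  · rw [← TF_off (by simpa using hk), TpF_val]
    fin_cases k <;> first | exact absurd rfl hk | simp

theorem bD_of_ne (θ : Fin 3 → ℝ) {i : Fin 11} (hi : i ≠ 3) : bD θ i = rhoF θ i := if_neg hi

theorem bD_three (θ : Fin 3 → ℝ) : bD θ 3 = kD θ := if_pos rfl

theorem rhoF_val (θ : Fin 3 → ℝ) : rhoF θ = ![1, 0, θ 1 - θ 2, θ 2 - θ 0, θ 1 - θ 0, -θ 1, -θ 2,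
    -θ 0, 1 - θ 1, 1 - θ 2, 1 - θ 0] := by
  funext k
  fin_cases k <;> simp [rhoF, nL] <;> ring

theorem kD_gt (θ : Fin 3 → ℝ) (i : Fin 11) : rhoF θ i / aD θ i < kD θ := by
  have h1 : |rhoF θ i / aD θ i| ≤ ∑ j, |rhoF θ j / aD θ j| :=
    Finset.single_le_sum (f := fun j => |rhoF θ j / aD θ j|) (fun j _ => abs_nonneg _)
      (Finset.mem_univ i)
  unfold kD
  linarith [le_abs_self (rhoF θ i / aD θ i)]


/-- `F_b` is alone in its group -/
theorem gD_3 (θ : Fin 3 → ℝ) {j : Fin 11} (hj : gC (aD θ) (bD θ) 3 = gC (aD θ) (bD θ) j) :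
    j = 3 := by
  by_contra hne
  have a3 : aD θ 3 = 1 := by rw [aD_val]; simp
  have h3 : aD θ 3 ≠ 0 := by rw [a3]; exact one_ne_zero
  have hj0 : aD θ j ≠ 0 := fun h0 => by
    rw [gC_zero.2 h0] at hj
    exact h3 (gC_zero.1 hj)
  have := (gC_eq h3 hj0).1 hj
  rw [bD_three, a3, div_one, bD_of_ne θ hne] at this
  have := kD_gt θ j
  linarith


/-! ### the walls -/

/-- **the walls of the last rung** -/
theorem maD : MaD (mA monQ (AF {3})) where
  sub := mA_sub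
  m256 := mem_mA.2 ⟨by decide, by decide, by decide, by decide⟩
  m457 := mem_mA.2 ⟨by decide, by decide, by decide, by decide⟩
  m058 := mem_mA.2 ⟨by decide, by decide, by decide, by decide⟩
  m069 := mem_mA.2 ⟨by decide, by decide, by decide, by decide⟩
  m289 := mem_mA.2 ⟨by decide, by decide, by decide, by decide⟩
  m0710 := mem_mA.2 ⟨by decide, by decide, by decide, by decide⟩
  m4810 := mem_mA.2 ⟨by decide, by decide, by decide, by decide⟩
  no := fun k e he => by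
    obtain ⟨h1, h2⟩ := mem_mA.1 he
    exact ⟨h2.1, h2.2.2 3 (by simp)⟩

section

variable {η : ℝ} {p : Par4} {D : Dat4} {I1 : ℕ → Finset (ℕ × ℝ)} {π : Equiv.Perm (Fin 3)}
  {eE fA fB : ℕ → ℕ × ℝ → ℝ} {V T : Fin 11 → Prop} {w0 R T0 : ℝ} {PD : Set (Fin 11 → ℝ)}
  {ν own : (Fin 11 → ℝ) → ℝ} {c₀ : ℝ}

/-- slopes of row D1 -/
theorem slopesD (sl : SlotOk p.θ V T) (hV2 : V 2) (hV4 : V 4) :
    0 < p.θ 1 - p.θ 2 ∧ 0 < p.θ 1 - p.θ 0 := by
  have h2 := (sl.vis 2 hV2).2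
  have h4 := (sl.vis 4 hV4).2
  unfold btQ at h2 h4
  rw [if_pos rfl] at h2
  rw [if_neg (by decide), if_neg (by decide)] at h4
  exact ⟨h2, h4⟩

/-- nothing is capped -/
theorem tiedD (sl : SlotOk p.θ V T) (hV3 : ¬ V 3) {k : Fin 11} (hk : V k) : T k := by
  by_contra hT
  exact hV3 (sl.cap k hk hT).2.2


/-! ### the ladder -/


end

end Crest.Agent.R136.Dl667
end

-- ▼ part R136/Dl3_667
section

/-!
# R136, row D1: the F-half over `AeW` on any plane with slack `F_b` (helper667)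

`PlE a b κ` (511) and `PlN a b κ3` : the plane; `z ∥ E ∥ F_a`, `F_b` in another group.

* `full_of_M1` : fullness of `N` from 865's model (level slots `z, E, F_a`)
* `row_D` : `AeW` + homogeneous groups + sweep of `C_a` ⊢ `A.1 ≤ -(4 + κ + κ3)` if `κ ≠ κ3`
-/

set_option autoImplicit false
set_option linter.unusedVariables false
set_option linter.unusedSectionVars false

open Finset Filter Topology

namespace Crest.Agent.R136.Dl3667

open Crest.Agent.R138.Ex926 (Base U)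
open Crest.Agent.R136.Net191
open Crest.Agent.R136.NetQ186
open Crest.Agent.R136.Gf356
open Crest.Agent.R136.Ev356 (mv)
open Crest.Agent.R136.Qg926
open Crest.Agent.R136.Aw413
open Crest.Agent.R136.Fe1355 (RawTw)
open Crest.Agent.R136.LdF4511
open Crest.Agent.R136.LdF5511
open Crest.Agent.R136.Dd413
open Dg219 (mw Walls Tn OutS gC dhC nC gset lf mem_gset gC_zero gC_eq nC_zero nC_of)

/-! ### the plane -/

/-- `z ∥ F_a` -/
structure PlN (a b : Fin 11 → ℝ) (κ3 : ℝ) : Prop where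
  κ0 : 0 < κ3
  a1 : a 1 = 0
  a4 : a 4 = κ3
  a7 : a 7 = κ3
  a10 : a 10 = 1 + κ3
  b4 : b 4 = κ3 * b 0
  b7 : b 7 = b 4 + b 5
  b10 : b 10 = b 0 + b 7

variable {a b : Fin 11 → ℝ} {κ κ3 : ℝ}

namespace PlN

variable (P : PlE a b κ) (N : PlN a b κ3)

include P N

theorem n4 : a 4 ≠ 0 := by rw [N.a4]; exact N.κ0.ne'
theorem n7 : a 7 ≠ 0 := by rw [N.a7]; exact N.κ0.ne'
theorem n10 : a 10 ≠ 0 := by rw [N.a10]; linarith [N.κ0]
theorem g10 : gC a b 10 ≠ 0 := fun e => (n10 P N) (gC_zero.1 e)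
theorem g7 : gC a b 7 ≠ 0 := fun e => (n7 P N) (gC_zero.1 e)

/-- `z ∥ F_a` -/
theorem g04 : gC a b 0 = gC a b 4 := by
  rw [gC_eq P.n0 (n4 P N), P.a0, N.a4, N.b4]
  have := N.κ0.ne'
  field_simp

theorem g07 : gC a b 0 ≠ gC a b 7 := by
  rw [Ne, gC_eq P.n0 (n7 P N), P.a0, N.a7, N.b7, N.b4]
  have hκ := N.κ0
  intro e
  apply P.b5
  field_simp at e
  linarith

theorem g010 : gC a b 0 ≠ gC a b 10 := by
  rw [Ne, gC_eq P.n0 (n10 P N), P.a0, N.a10, N.b10, N.b7, N.b4]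
  have hκ := N.κ0
  have h1 : 1 + κ3 ≠ 0 := by linarith
  intro e
  apply P.b5
  field_simp at e
  linarith

theorem g710 : gC a b 7 ≠ gC a b 10 := by
  rw [Ne, gC_eq (n7 P N) (n10 P N), N.a7, N.a10, N.b10, N.b7, N.b4]
  have hκ := N.κ0
  have h1 : 1 + κ3 ≠ 0 := by linarith
  intro e
  apply P.b5
  field_simp at e
  linarith

theorem g810 : gC a b 8 ≠ gC a b 10 := by
  rw [Ne, gC_eq P.n8 (n10 P N), P.a8, N.a10, N.b10, N.b7, N.b4, P.b8]
  have hκ := N.κ0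
  have h1 : 1 + κ3 ≠ 0 := by linarith
  intro e
  have h2 : κ3 * b 5 = 0 := by
    field_simp at e
    linarith
  rcases mul_eq_zero.1 h2 with h3 | h3
  · exact hκ.ne' h3
  · exact P.b5 h3

theorem g910 (hne : κ ≠ κ3) : gC a b 9 ≠ gC a b 10 := by
  rw [Ne, gC_eq P.n9 (n10 P N), P.a9, N.a10, N.b10, N.b7, N.b4, P.b9, P.b6, P.b2]
  have hκ := P.κ0
  have hκ3 := N.κ0
  have h1 : 1 + κ3 ≠ 0 := by linarith
  have h2 : 1 + κ ≠ 0 := by linarith
  intro e
  have h3 : (κ3 - κ) * b 5 = 0 := by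
    field_simp at e
    linarith
  rcases mul_eq_zero.1 h3 with h4 | h4
  · exact hne (by linarith)
  · exact P.b5 h4

/-- the group of `z` -/
theorem grp0 (h3 : gC a b 3 ≠ gC a b 0) : ∀ i j : Fin 11, gC a b i = gC a b j →
    i ∈ ({0, 2, 4} : Finset (Fin 11)) → j ∈ ({0, 2, 4} : Finset (Fin 11)) := by
  intro i j hij hi
  have hi0 : gC a b i = gC a b 0 := by
    simp only [Finset.mem_insert, Finset.mem_singleton] at hi
    rcases hi with rfl | rfl | rfl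
    · rfl
    · exact P.g02.symm
    · exact (g04 P N).symm
  rw [hi0] at hij
  by_contra hj
  have hj1 : j ≠ 1 := fun e => P.g0 (by rw [hij, e]; exact gC_zero.2 N.a1)
  have hj3 : j ≠ 3 := fun e => h3 (by rw [hij, e])
  have hj5 : j ≠ 5 := fun e => P.g0 (by rw [hij, e]; exact P.g5)
  have hj6 : j ≠ 6 := fun e => P.g06 (by rw [hij, e])
  have hj7 : j ≠ 7 := fun e => (g07 P N) (by rw [hij, e])
  have hj8 : j ≠ 8 := fun e => P.g08 (by rw [hij, e])
  have hj9 : j ≠ 9 := fun e => P.g09 (by rw [hij, e])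
  have hj10 : j ≠ 10 := fun e => (g010 P N) (by rw [hij, e])
  fin_cases j <;> simp at hj hj1 hj3 hj5 hj6 hj7 hj8 hj9 hj10

end PlN

/-! ### boxes -/

/-- level slots `z, E, F_a : T` and `C_a, P, X_a, N` -/
def bn (T ca p xa n : ℝ) : Fin 11 → ℝ := ![T, 0, T, 0, T, ca, 0, p, xa, 0, n]

theorem bn_smul (s T ca p xa n : ℝ) :
    s • bn T ca p xa n = bn (s * T) (s * ca) (s * p) (s * xa) (s * n) := by
  funext j
  fin_cases j <;> simp [bn]

theorem bn_mem {Ma : Mons 11} (hM : MaD Ma) {T ca p xa n : ℝ} (hT : 0 ≤ T) (h1 : 0 ≤ ca)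
    (h2 : 0 ≤ p) (h2' : p ≤ T) (h3 : 0 ≤ xa) (h3' : xa ≤ T) (h4 : 0 ≤ n) (h4' : n ≤ T) :
    bn T ca p xa n ∈ coneM Ma := by
  refine legD hM ?_ ?_ ?_ ?_ ?_ ?_ ?_ <;> simp only [bn, Matrix.cons_val, Fin.isValue] <;> linarith

section full

variable {Ma : Mons 11} {lam : (Fin 11 → ℝ) → ℝ} {A : ℝ × ℝ} {φ : ℕ → (Fin 11 → ℝ) → ℝ}
  {r : ℕ → ℝ}

/-- value of a box at the level `T` -/
theorem lam_bn (hM : MaD Ma) (h : OutS (gC a b) (coneM Ma) (dhC a b) (nC a b) lam A φ r)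
    (P : PlE a b κ) (N : PlN a b κ3) {T ca p xa n : ℝ}
    (hT : 0 ≤ T) (h1 : 0 ≤ ca) (h2 : 0 ≤ p) (h2' : p ≤ T) (h3 : 0 ≤ xa) (h3' : xa ≤ T)
    (h4 : 0 ≤ n) (h4' : n ≤ T) :
    lam (bn T ca p xa n) = lam (bn T 0 0 0 0) - (lam (bn T 0 0 0 0) - lam (bn T 0 0 0 n)) -
      (lam (bn T 0 0 0 0) - lam (bn T 0 p xa 0)) -
      (lam (bn T 0 0 0 0) - lam (bn T ca 0 0 0)) := by
  have m0 : bn T 0 0 0 0 ∈ coneM Ma := bn_mem hM hT le_rfl le_rfl hT le_rfl hT le_rfl hT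
  have m1 : bn T 0 p xa 0 ∈ coneM Ma := bn_mem hM hT le_rfl h2 h2' h3 h3' le_rfl hT
  have m2 : bn T 0 0 0 n ∈ coneM Ma := bn_mem hM hT le_rfl le_rfl hT le_rfl hT h4 h4'
  have m3 : bn T ca 0 0 0 ∈ coneM Ma := bn_mem hM hT h1 le_rfl hT le_rfl hT le_rfl hT
  have m4 : bn T 0 p xa n ∈ coneM Ma := bn_mem hM hT le_rfl h2 h2' h3 h3' h4 h4'
  have m5 : bn T ca p xa n ∈ coneM Ma := bn_mem hM hT h1 h2 h2' h3 h3' h4 h4'
  -- `N` against `(P, X_a)`
  have s1 := split2 h m0 m2 m1 m4 (by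
    intro k
    by_cases hk : k = gC a b 10
    · right
      intro i hi
      have h8 : i ≠ 8 := fun e => (PlN.g810 P N) (by rw [← e, hi, hk])
      have h7 : i ≠ 7 := fun e => (PlN.g710 P N) (by rw [← e, hi, hk])
      fin_cases i <;> simp [bn] at h8 h7 ⊢
    · left
      intro i hi
      have h10 : i ≠ 10 := fun e => hk (by rw [← hi, e])
      fin_cases i <;> simp [bn] at h10 ⊢)
  -- `C_a` against the rest
  have s2 := split2 h m0 m4 m3 m5 (by
    intro k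
    by_cases hk : k = 0
    · left
      intro i hi
      have h7 : i ≠ 7 := fun e => (PlN.g7 P N) (by rw [← e, hi, hk])
      have h8 : i ≠ 8 := fun e => P.g8 (by rw [← e, hi, hk])
      have h10 : i ≠ 10 := fun e => (PlN.g10 P N) (by rw [← e, hi, hk])
      fin_cases i <;> simp [bn] at h7 h8 h10 ⊢
    · right
      intro i hi
      have h5 : i ≠ 5 := fun e => hk (by rw [← hi, e, P.g5])
      fin_cases i <;> simp [bn] at h5 ⊢)
  linarith

/-- one slot at the level `T` -/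
theorem lam_bn8 (hM : MaD Ma) (h : OutS (gC a b) (coneM Ma) (dhC a b) (nC a b) lam A φ r)
    (P : PlE a b κ) (N : PlN a b κ3) {T xa : ℝ} (hT : 0 ≤ T) (h3 : 0 ≤ xa) (h3' : xa ≤ T) :
    lam (bn T 0 0 0 0) - lam (bn T 0 0 xa 0) = -φ (gC a b 8) (Pi.single 8 xa) := by
  have m0 : bn T 0 0 0 0 ∈ coneM Ma := bn_mem hM hT le_rfl le_rfl hT le_rfl hT le_rfl hT
  have m1 : bn T 0 0 xa 0 ∈ coneM Ma := bn_mem hM hT le_rfl le_rfl hT h3 h3' le_rfl hT
  rw [one_grp h m0 m1 (gC a b 8) (fun i hi => by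
    have h8 : i ≠ 8 := fun e => hi (by rw [e])
    fin_cases i <;> simp [bn] at h8 ⊢)]
  have key : ∀ i, gC a b i = gC a b 8 → i ≠ 0 ∧ i ≠ 2 ∧ i ≠ 4 := fun i hi =>
    ⟨fun e => P.g08 (by rw [← e, hi]), fun e => P.g08 (by rw [P.g02, ← e, hi]),
      fun e => P.g08 (by rw [PlN.g04 P N, ← e, hi])⟩
  rw [h.zero _ (bn T 0 0 0 0) (fun i hi => by
      obtain ⟨h0, h2, h4⟩ := key i hi
      fin_cases i <;> simp [bn] at h0 h2 h4 ⊢),
    h.loc _ (bn T 0 0 xa 0) (Pi.single 8 xa) (fun i hi => by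
      obtain ⟨h0, h2, h4⟩ := key i hi
      fin_cases i <;> simp [bn] at h0 h2 h4 ⊢)]
  ring

theorem lam_bn10 (hM : MaD Ma) (h : OutS (gC a b) (coneM Ma) (dhC a b) (nC a b) lam A φ r)
    (P : PlE a b κ) (N : PlN a b κ3) {T n : ℝ} (hT : 0 ≤ T) (h3 : 0 ≤ n) (h3' : n ≤ T) :
    lam (bn T 0 0 0 0) - lam (bn T 0 0 0 n) = -φ (gC a b 10) (Pi.single 10 n) := by
  have m0 : bn T 0 0 0 0 ∈ coneM Ma := bn_mem hM hT le_rfl le_rfl hT le_rfl hT le_rfl hT
  have m1 : bn T 0 0 0 n ∈ coneM Ma := bn_mem hM hT le_rfl le_rfl hT le_rfl hT h3 h3'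
  rw [one_grp h m0 m1 (gC a b 10) (fun i hi => by
    have h8 : i ≠ 10 := fun e => hi (by rw [e])
    fin_cases i <;> simp [bn] at h8 ⊢)]
  have key : ∀ i, gC a b i = gC a b 10 → i ≠ 0 ∧ i ≠ 2 ∧ i ≠ 4 := fun i hi =>
    ⟨fun e => (PlN.g010 P N) (by rw [← e, hi]),
      fun e => (PlN.g010 P N) (by rw [P.g02, ← e, hi]),
      fun e => (PlN.g010 P N) (by rw [PlN.g04 P N, ← e, hi])⟩
  rw [h.zero _ (bn T 0 0 0 0) (fun i hi => by
      obtain ⟨h0, h2, h4⟩ := key i hi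
      fin_cases i <;> simp [bn] at h0 h2 h4 ⊢),
    h.loc _ (bn T 0 0 0 n) (Pi.single 10 n) (fun i hi => by
      obtain ⟨h0, h2, h4⟩ := key i hi
      fin_cases i <;> simp [bn] at h0 h2 h4 ⊢)]
  ring

/-- homogeneity of a single slot -/
theorem homs (h : OutS (gC a b) (coneM Ma) (dhC a b) (nC a b) lam A φ r)
    (hom : ∀ k, k ≠ 0 → ∀ c ∈ coneM Ma, ∀ s : ℝ, 0 ≤ s → φ k (s • c) = s * φ k c) {j : Fin 11}
    (hj : gC a b j ≠ 0) {c1 : Fin 11 → ℝ} (hc1 : c1 ∈ coneM Ma)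
    (hc : ∀ i, gC a b i = gC a b j → c1 i = if i = j then 1 else 0) {y : ℝ} (hy : 0 ≤ y) :
    φ (gC a b j) (Pi.single j y) = y * φ (gC a b j) (Pi.single j 1) := by
  have e1 : φ (gC a b j) (Pi.single j 1) = φ (gC a b j) c1 := h.loc _ _ _ fun i hi => by
    rw [hc i hi, Pi.single_apply]
  have e2 : φ (gC a b j) (Pi.single j y) = φ (gC a b j) (y • c1) := h.loc _ _ _ fun i hi => by
    rw [Pi.smul_apply, hc i hi, Pi.single_apply]
    split_ifs <;> simp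
  rw [e1, e2, hom _ hj c1 hc1 y hy]

/-- **fullness of `N`** from 865's model at the level `1` -/
theorem full_of_M1 (hM : MaD Ma) (h : OutS (gC a b) (coneM Ma) (dhC a b) (nC a b) lam A φ r)
    (P : PlE a b κ) (N : PlN a b κ3)
    (hom : ∀ k, k ≠ 0 → ∀ c ∈ coneM Ma, ∀ s : ℝ, 0 ≤ s → φ k (s • c) = s * φ k c)
    {m : ℝ} (hm : 0 < m)
    (sw : ∀ t : ℝ, 0 ≤ t → t ≤ 1 → m * t ≤ lam (bn 1 0 0 0 0) - lam (bn 1 t 0 0 0))
    (h8 : φ (gC a b 8) (Pi.single 8 1) ≤ -1)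
    {B : Base} {G : ℕ → RCfg (Fin 11)} {Leg : Set (Fin 11 → ℝ)} {ν : (Fin 11 → ℝ) → ℝ} {D : ℝ}
    {F : ℕ → ℕ → ℝ} {Rb : Prop} (H : C1865.M1 B G Leg ν 1 D F Rb)
    {c₁ : ℝ} (hν : ∀ ca p xa n : ℝ, ν (C1865.bw 0 ca 0 p xa 0 n) = lam (bn 1 ca p xa n) - c₁) :
    φ (gC a b 10) (Pi.single 10 1) ≤ -1 := by
  have c1 : bn 1 0 0 1 0 ∈ coneM Ma := bn_mem hM zero_le_one le_rfl le_rfl zero_le_one zero_le_one
    le_rfl le_rfl zero_le_one
  have c2 : bn 1 0 0 0 1 ∈ coneM Ma := bn_mem hM zero_le_one le_rfl le_rfl zero_le_one le_rfl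
    zero_le_one zero_le_one le_rfl
  have hom8 : ∀ y : ℝ, 0 ≤ y → φ (gC a b 8) (Pi.single 8 y) = y * φ (gC a b 8) (Pi.single 8 1) :=
    fun y hy => homs h hom P.g8 c1 (fun i hi => by
      have h0 : i ≠ 0 := fun e => P.g08 (by rw [← e, hi])
      have h2 : i ≠ 2 := fun e => P.g08 (by rw [P.g02, ← e, hi])
      have h4 : i ≠ 4 := fun e => P.g08 (by rw [PlN.g04 P N, ← e, hi])
      fin_cases i <;> simp [bn] at h0 h2 h4 ⊢) hy
  have hom10 : ∀ y : ℝ, 0 ≤ y →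
      φ (gC a b 10) (Pi.single 10 y) = y * φ (gC a b 10) (Pi.single 10 1) :=
    fun y hy => homs h hom (PlN.g10 P N) c2 (fun i hi => by
      have h0 : i ≠ 0 := fun e => (PlN.g010 P N) (by rw [← e, hi])
      have h2 : i ≠ 2 := fun e => (PlN.g010 P N) (by rw [P.g02, ← e, hi])
      have h4 : i ≠ 4 := fun e => (PlN.g010 P N) (by rw [PlN.g04 P N, ← e, hi])
      fin_cases i <;> simp [bn] at h0 h2 h4 ⊢) hy
  have key := H.kone (a := -φ (gC a b 10) (Pi.single 10 1)) (m := m)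
    (β := fun p xa => lam (bn 1 0 0 0 0) - lam (bn 1 0 p xa 0))
    (γ := fun ca => lam (bn 1 0 0 0 0) - lam (bn 1 ca 0 0 0)) hm (by
      intro n p x c h1 h1' h2 h2' h3 h3' h4 h4'
      rw [hν, hν, lam_bn hM h P N zero_le_one h4 h2 h2' h3 h3' h1 h1',
        lam_bn10 hM h P N zero_le_one h1 h1', hom10 n h1]
      ring) (by
      intro t ht ht1
      show t ≤ lam (bn 1 0 0 0 0) - lam (bn 1 0 0 t 0)
      rw [lam_bn8 hM h P N zero_le_one ht ht1, hom8 t ht]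
      nlinarith) (by
      intro t ht ht1
      exact sw t ht ht1)
  linarith

/-- **rate of the group of `N`** -/
theorem rate10 (hM : MaD Ma) (h : OutS (gC a b) (coneM Ma) (dhC a b) (nC a b) lam A φ r)
    (P : PlE a b κ) (N : PlN a b κ3) (haL : a ∈ coneM Ma)
    (hom : ∀ k, k ≠ 0 → ∀ c ∈ coneM Ma, ∀ s : ℝ, 0 ≤ s → φ k (s • c) = s * φ k c)
    (h10 : φ (gC a b 10) (Pi.single 10 1) ≤ -1) : 1 + κ3 ≤ r (gC a b 10) := by
  have hκ := N.κ0
  have a1 : (1:ℝ) • a ∈ coneM Ma := by rw [one_smul]; exact haL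
  have m1 : bn (1 + κ3) 0 0 0 (1 + κ3) ∈ coneM Ma := bn_mem hM (by linarith) le_rfl le_rfl
    (by linarith) le_rfl (by linarith) (by linarith) le_rfl
  have m2 : bn 1 0 0 0 1 ∈ coneM Ma := bn_mem hM zero_le_one le_rfl le_rfl zero_le_one le_rfl
    zero_le_one zero_le_one le_rfl
  have key : ∀ i, gC a b i = gC a b 10 → i ≠ 0 ∧ i ≠ 2 ∧ i ≠ 4 := fun i hi =>
    ⟨fun e => (PlN.g010 P N) (by rw [← e, hi]),
      fun e => (PlN.g010 P N) (by rw [P.g02, ← e, hi]),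
      fun e => (PlN.g010 P N) (by rw [PlN.g04 P N, ← e, hi])⟩
  have e1 : φ (gC a b 10) (bn (1 + κ3) 0 0 0 (1 + κ3)) =
      (1 + κ3) * φ (gC a b 10) (Pi.single 10 1) := by
    have e2 : (1 + κ3) • bn 1 0 0 0 1 = bn (1 + κ3) 0 0 0 (1 + κ3) := by
      rw [bn_smul]; simp
    rw [← e2, hom _ (PlN.g10 P N) _ m2 _ (by linarith)]
    congr 1
    exact h.loc _ _ _ fun i hi => by
      obtain ⟨h0, h2, h4⟩ := key i hi
      fin_cases i <;> simp [bn] at h0 h2 h4 ⊢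
  have h2 := rt_ge h P.nn (PlN.g10 P N) haL m1 (u := 1) a1 (fun i hi => by
    obtain ⟨h0, h2, h4⟩ := key i hi
    rw [one_mul]
    by_cases hi9 : i = 10
    · subst hi9; rw [N.a10]; simp [bn]
    · refine le_trans (le_of_eq ?_) (P.nn i)
      fin_cases i <;> simp [bn] at h0 h2 h4 hi9 ⊢)
  have h3 : (1 + κ3) * φ (gC a b 10) (Pi.single 10 1) ≤ (1 + κ3) * -1 :=
    mul_le_mul_of_nonneg_left h10 (by linarith)
  linarith

end full

/-! ### the row -/

section row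

variable {ι : ℕ → Type*} [∀ n, DecidableEq (ι n)] {B Bo : Base} {I J : ∀ n, Finset (ι n)}
  {co : ∀ n, ι n → ι n → Fin 11 → ℝ} {Ma : Mons 11} {C : ℝ} {lam : (Fin 11 → ℝ) → ℝ}
  {A : ℝ × ℝ} {φ : ℕ → (Fin 11 → ℝ) → ℝ} {r : ℕ → ℝ}
  {κo : Fin 11 → ℝ} {V Tw : Fin 11 → Prop} {f : ∀ n, ι n → Fq4}

/-- **the F-half of row D1** on any plane with slack `F_b` -/
theorem row_D (h : AeW B Bo I J co monQ Ma C lam a b A φ r 0 1 κo V Tw)
    (hco : ∀ n, ∀ i ∈ I n, ∀ j ∈ I n, co n i j = coQ (f n i) (f n j))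
    (hne : ∀ᶠ n in (U : Filter ℕ), (J n).Nonempty) (hM : MaD Ma) (P : PlE a b κ)
    (N : PlN a b κ3) (hκ : κ ≠ κ3) (h3 : gC a b 3 ≠ gC a b 0)
    (haL : a ∈ coneM Ma) (hV : ∀ k, V k → k = 2 ∨ k = 4) (hT2 : Tw 2) (hT4 : Tw 4) (hC : 0 ≤ C)
    (hom : ∀ k, k ≠ 0 → ∀ c ∈ coneM Ma, ∀ s : ℝ, 0 ≤ s → φ k (s • c) = s * φ k c)
    {m : ℝ} (hm : 0 < m)
    (sw : ∀ c ∈ coneM Ma, c 5 = 0 → c 1 = 0 → ∀ t : ℝ, 0 ≤ t →
      m * t ≤ lam c - lam (c + t • Pi.single 5 1)) :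
    A.1 ≤ -(4 + κ + κ3) := by
  obtain ⟨r0, r8, r9, f8, f9⟩ := base_row h hco hne
    ⟨hM.m256, hM.m058, hM.m069, hM.m289, hM.n017⟩ P haL
    (fun k hk => (hV k hk).elim Or.inl fun h => Or.inr (Or.inr h)) hT2 hC hom hm
    (fun t xa ht ht1 hx hx1 => by
      have hmem : bl 1 0 0 xa 0 ∈ coneM Ma := fun k e he =>
        (bl_legal zero_le_one le_rfl le_rfl zero_le_one hx hx1 le_rfl zero_le_one).wall k e
          (h.sub k he)
      have h1 := sw (bl 1 0 0 xa 0) hmem (by simp [bl]) (by simp [bl]) t ht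
      have e1 : bl 1 0 0 xa 0 + t • (Pi.single 5 1 : Fin 11 → ℝ) = bl 1 t 0 xa 0 := by
        funext j; fin_cases j <;> simp [bl, Pi.single_apply]
      rwa [e1] at h1)
  obtain ⟨W, E, hW⟩ := dw_of_aew h hM hC hco hne (PlN.grp0 P N h3) hV hT2 hT4 one_pos
  have f10 := full_of_M1 hM h.out P N hom hm (fun t ht ht1 => by
    have h1 := sw (bn 1 0 0 0 0) (bn_mem hM zero_le_one le_rfl le_rfl zero_le_one le_rfl
      zero_le_one le_rfl zero_le_one) (by simp [bn]) (by simp [bn]) t ht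
    have e1 : bn 1 0 0 0 0 + t • (Pi.single 5 1 : Fin 11 → ℝ) = bn 1 t 0 0 0 := by
      funext j; fin_cases j <;> simp [bn, Pi.single_apply]
    rwa [e1] at h1) f8 hW.m1 (c₁ := lam fun _ => 1) (fun ca p xa n => by
    rw [hW.nu_eq]
    congr 2
    funext j
    fin_cases j <;> simp [cut, C1865.bw, bn])
  have r10 := rate10 hM h.out P N haL hom f10
  have ht := tot4 h.out P.nn P.n0 P.n8 P.n9 (PlN.n10 P N) P.g08 P.g09 P.g89 (PlN.g010 P N)
    (PlN.g810 P N) (PlN.g910 P N hκ)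
  linarith

end row

end Crest.Agent.R136.Dl3667
end

-- ▼ part R136/Dl4_667
section

/-!
# R136, row D1 of the thick table: wiring (helper667)

* `F2D` : the last rung of `ladder_D`
* `ladder_V'`, `ladder_D'` : the first rung as an F-lemma `FlV`
* `maD_act`, `caseD1_lt` : the case `θ 0 < θ 2` (628's `row_F0`)
* `caseD1_of` : row D1 from the pin `F_b` on the first rung
-/

set_option autoImplicit false
set_option linter.unusedVariables false
set_option linter.unusedSectionVars false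

open Finset Filter Topology

namespace Crest.Agent.R136.Dl667

open Crest.Agent.R138.Ex926 (Base U IsTan)
open Crest.Agent.R136.Net191
open Crest.Agent.R136.NetQ186
open Crest.Agent.R136.Wq638
open Crest.Agent.R136.Lq196
open Crest.Agent.R136.NatT550
open Crest.Agent.R136.NatR550 (nL)
open Crest.Agent.R136.Top484
open Crest.Agent.R136.LdF511
open Crest.Agent.R136.LdF3511
open Crest.Agent.R136.Tb628 (oS oS_eq pathQ_oS ownPath nprof ownF hsl_sub s0 sA sB fA fB mem_act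
  eCa eECb RecS RowPt Hom coneF)
open Crest.Agent.R136.K2S774 (cn Prf JT Stage RecD RungD BaseOk ind1 A2 stage_init)
open Crest.Agent.R136.K2A146 (FLemA)
open Crest.Agent.R136.AwJ774
open Crest.Agent.R136.Aw413
open Crest.Agent.R136.Ev356 (mv)
open Crest.Agent.R136.Gf356
open Crest.Agent.R136.Qg926 (Wnd)
open Crest.Agent.R136.Dd413 (MaD DW dw_of_aew)
open Crest.Agent.R136.Dg219 (Walls mw gC dhC nC OutS gC_eq gC_zero)
open Crest.Agent.R136.Rc146 (OutA)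
open Crest.Agent.R136.Dg262 (X)
open Crest.Agent.R136.LdF5511 (PlE)
open Crest.Agent.R136.Dl3667 (PlN row_D)

/-! ### the last rung of the ladder -/

theorem plE_D {θ : Fin 3 → ℝ} (h1 : 0 < θ 1) (hκ : 0 < θ 1 - θ 2) (hκ3 : 0 < θ 1 - θ 0) :
    PlE (aD θ) (bD θ) (θ 1 - θ 2) where
  κ0 := hκ
  nn := by
    intro i
    rw [aD_val]
    fin_cases i <;>
      simp only [Matrix.cons_val, Fin.zero_eta, Fin.mk_one, Fin.reduceFinMk, Fin.isValue] <;>
      linarith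
  a0 := by rw [aD_val]; simp
  a2 := by rw [aD_val]; simp
  a5 := by rw [aD_val]; simp
  a6 := by rw [aD_val]; simp
  a8 := by rw [aD_val]; simp
  a9 := by rw [aD_val]; simp
  b5 := by rw [bD_of_ne θ (by decide), rhoF_val]; simpa using h1.ne'
  b2 := by rw [bD_of_ne θ (by decide), bD_of_ne θ (by decide), rhoF_val]; simp
  b6 := by
    rw [bD_of_ne θ (by decide), bD_of_ne θ (by decide), bD_of_ne θ (by decide), rhoF_val]
    simp only [Matrix.cons_val, Fin.isValue]; ring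
  b8 := by
    rw [bD_of_ne θ (by decide), bD_of_ne θ (by decide), bD_of_ne θ (by decide), rhoF_val]
    simp only [Matrix.cons_val, Fin.isValue]; ring
  b9 := by
    rw [bD_of_ne θ (by decide), bD_of_ne θ (by decide), bD_of_ne θ (by decide), rhoF_val]
    simp only [Matrix.cons_val, Fin.isValue]; ring

theorem plN_D {θ : Fin 3 → ℝ} (hκ3 : 0 < θ 1 - θ 0) : PlN (aD θ) (bD θ) (θ 1 - θ 0) where
  κ0 := hκ3
  a1 := by rw [aD_val]; simp
  a4 := by rw [aD_val]; simp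
  a7 := by rw [aD_val]; simp
  a10 := by rw [aD_val]; simp
  b4 := by rw [bD_of_ne θ (by decide), bD_of_ne θ (by decide), rhoF_val]; simp
  b7 := by
    rw [bD_of_ne θ (by decide), bD_of_ne θ (by decide), bD_of_ne θ (by decide), rhoF_val]
    simp only [Matrix.cons_val, Fin.isValue]; ring
  b10 := by
    rw [bD_of_ne θ (by decide), bD_of_ne θ (by decide), bD_of_ne θ (by decide), rhoF_val]
    simp only [Matrix.cons_val, Fin.isValue]; ring

section

variable {η : ℝ} {p : Par4} {D : Dat4} {I1 : ℕ → Finset (ℕ × ℝ)} {π : Equiv.Perm (Fin 3)}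
  {eE fA' fB' : ℕ → ℕ × ℝ → ℝ} {V T : Fin 11 → Prop} {w0 R T0 : ℝ} {PD : Set (Fin 11 → ℝ)}
  {ν own : (Fin 11 → ℝ) → ℝ} {c₀ : ℝ}

/-- **the last rung of row D1** -/
theorem F2D (h : Thick η p D I1 π eE fA' fB' V T w0 R T0 PD ν own c₀) (hV2 : V 2) (hV3 : ¬ V 3)
    (hV4 : V 4) (h02 : p.θ 0 ≠ p.θ 2) {lam lo : (Fin 11 → ℝ) → ℝ} {A : ℝ × ℝ}
    {φ : ℕ → (Fin 11 → ℝ) → ℝ} {r : ℕ → ℝ}
    (P : PtV D.B D.I I1 (couQ D.B D.lev D.w w0 (incQ π D.L eE fA' fB')) p V T {3} (aD p.θ)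
      (bD p.θ) lam lo A φ r) (hH : HomV {3} (aD p.θ) (bD p.θ) φ) :
    A.1 ≤ -(4 + (p.θ 1 - p.θ 2) + (p.θ 1 - p.θ 0)) := by
  obtain ⟨hκ, hκ3⟩ := slopesD h.tp.slots hV2 hV4
  have h1 := h.tp.ok.θ1
  have PE := plE_D h1 hκ hκ3
  have PN := plN_D (θ := p.θ) hκ3
  have e2 : aD p.θ 2 = oS p.θ 2 * aD p.θ 0 := by
    rw [aD_val, oS_eq]; simp
  have e4 : aD p.θ 4 = oS p.θ 4 * aD p.θ 0 := by
    rw [aD_val, oS_eq]; simp
  refine row_D P.aew (fun n i _ j _ => rfl) h.ext.ne maD PE PN (fun e => h02 (by linarith))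
    (fun e => ?_) ?_ (fun k hk => ?_) ⟨tiedD h.tp.slots hV3 hV2, hV2, e2⟩
    ⟨tiedD h.tp.slots hV3 hV4, hV4, e4⟩ (by norm_num) (fun k hk c hc s hs => ?_) h.tp.ok.g0.2
    fun c hc h5 h1' t ht => ?_
  · exact absurd (gD_3 p.θ e) (by decide)
  · rw [coneM_mA]
    exact fun w hw => (natTF (p.θ 1 - p.θ 2) (1 + (p.θ 1 - p.θ 0)) (fun _ => 1) hw).le
  · rcases vis_ne h.tp.slots hk.1 with rfl | rfl | rfl
    · exact Or.inl rfl
    · exact absurd hk.1 hV3
    · exact Or.inr rfl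
  · refine hH k (fun i hi => ?_) c (by rw [← coneM_mA]; exact hc) s hs
    have ha : aD p.θ i ≠ 0 := fun h0 => hk (by rw [← hi]; exact gC_zero.2 h0)
    unfold dhC
    rw [if_neg ha]
    exact lt_of_le_of_ne (PE.nn i) ha.symm
  · refine (P.ca h1 PE.a5 (by rw [← coneM_mA]; exact hc) ht fun i hi hi5 h0 => ?_).2
    rw [h5, neg_zero, zero_div, zero_mul]
    have hi1 : i = 1 := by
      rw [aD_val] at h0
      by_contra hne
      fin_cases i <;>
        simp only [Matrix.cons_val, Fin.zero_eta, Fin.mk_one, Fin.reduceFinMk, Fin.isValue,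
          ne_eq, not_true_eq_false] at h0 hi5 hne <;>
        linarith
    subst hi1
    exact h1'.le

/-! ### the ladder with the first rung as an F-lemma -/

/-- **the ladder with two rungs**, first rung as an F-lemma -/
theorem ladder_V' (h : Thick η p D I1 π eE fA' fB' V T w0 R T0 PD ν own c₀)
    (hκ : 0 < p.θ 1 - p.θ 2) (h02 : p.θ 0 ≠ p.θ 2) (hV3 : ¬ V 3)
    {s g1 g2 : ℝ} {x b : Fin 11 → ℝ} (hs : 1 < s)
    (hs4 : V 4 → 1 + (p.θ 1 - p.θ 0) ≤ s) (hx : 0 < x 3)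
    (hb : ∀ i, i ∉ ({3} : Finset (Fin 11)) → b i = rhoF p.θ i) (hg1 : 0 < g1) (hg2 : 0 < g2)
    (F1 : ∀ lam lo : (Fin 11 → ℝ) → ℝ, StV p V ν own w0 R (1 / 2) ∅ lam lo →
      FlV p V ν own w0 R (1 / 2) ∅ (1 + (p.θ 1 - p.θ 2)) 0 (rhoF p.θ) lam lo
        (fun l => l (ind1 {3}) < 0) g1)
    (F2 : ∀ (lam lo : (Fin 11 → ℝ) → ℝ) (A : ℝ × ℝ) (φ : ℕ → (Fin 11 → ℝ) → ℝ) (r : ℕ → ℝ),
      PtV D.B D.I I1 (couQ D.B D.lev D.w w0 (incQ π D.L eE fA' fB')) p V T {3}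
        (TF {3} (p.θ 1 - p.θ 2) s x) b lam lo A φ r → HomV {3} (TF {3} (p.θ 1 - p.θ 2) s x) b φ →
      g2 ≤ -A.1 + DlF p (TpF (p.θ 1 - p.θ 2) s)) : False := by
  have h0 : (0:ℝ) < 1 / 2 := by norm_num
  have h1 : (1:ℝ) / 2 < 1 := by norm_num
  obtain ⟨lam, lo, H⟩ := stage_V h h0 h1 hκ h02
  obtain ⟨lam2, lo2, H2⟩ := K2A146.rungA H (recD_V h.tp.slots ∅)
    (rungV_i hV3 hκ (b := rhoF p.θ) fun _ _ => rfl) hg1 (F1 lam lo H)
  have H2' : StV p V ν own w0 R (1 / 2) {3} lam2 lo2 := by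
    have e1 := A2_AF ∅ {3}
    rw [Finset.empty_union] at e1
    rw [e1, ← Finset.coe_union, Finset.empty_union] at H2
    exact H2
  exact K2A146.deadA H2' (recD_V h.tp.slots {3}) (rungV_s hκ hs hx hb) hg2
    (flA_of_ptH h h0 h1 (TF_s hκ hs hx).1 hb (fun k hk => by
        rcases vis_ne h.tp.slots hk with rfl | rfl | rfl
        · rw [← TF_off (by decide), ← TF_off (by decide), TpF_val]
          simp only [oS_eq, Matrix.cons_val, Fin.isValue]; linarith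
        · exact absurd hk hV3
        · rw [← TF_off (by decide), ← TF_off (by decide), TpF_val]
          simp only [oS_eq, Matrix.cons_val, Fin.isValue]; linarith [hs4 hk]) F2
      (qdOk h.tp.slots {3}) H2' _)

/-- **the ladder of row D1**, case `θ 2 < θ 0`, first rung as an F-lemma -/
theorem ladder_D' (hη : η ≤ 1 / 8) (h : Thick η p D I1 π eE fA' fB' V T w0 R T0 PD ν own c₀)
    (hV2 : V 2) (hV3 : ¬ V 3) (hV4 : V 4) (h02 : p.θ 0 ≠ p.θ 2) {g1 : ℝ} (hg1 : 0 < g1)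
    (F1 : ∀ lam lo : (Fin 11 → ℝ) → ℝ, StV p V ν own w0 R (1 / 2) ∅ lam lo →
      FlV p V ν own w0 R (1 / 2) ∅ (1 + (p.θ 1 - p.θ 2)) 0 (rhoF p.θ) lam lo
        (fun l => l (ind1 {3}) < 0) g1) : False := by
  obtain ⟨hκ, hκ3⟩ := slopesD h.tp.slots hV2 hV4
  have s2 := hsl_sub (κ := p.θ 1 - p.θ 2) (κ3 := p.θ 1 - p.θ 0) h.tp.ok hη (i := 1) (j := 2)
    (k := 1) (l := 0) (le_abs_self _) (le_abs_self _)
  refine ladder_V' h hκ h02 hV3 (s := 1 + (p.θ 1 - p.θ 0))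
    (x := fun _ => 1) (b := bD p.θ) (by linarith) (fun _ => le_rfl) one_pos
    (fun i hi => bD_of_ne _ (by simpa using hi)) hg1
    (g2 := p.g - p.q 0 * (p.θ 1 - p.θ 0) - p.q 2 * (p.θ 1 - p.θ 2)) (by linarith) F1
    fun lam lo A φ r P hH => ?_
  have h1 := F2D h hV2 hV3 hV4 h02 P hH
  have h2 := DlF_ray p (p.θ 1 - p.θ 2) (1 + (p.θ 1 - p.θ 0))
  unfold TpF
  rw [h2]
  linarith

end

/-! ### the case `θ 0 < θ 2` -/

/-- **active monomials of the plane with slack `F_b`** -/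
theorem maD_act {θ : Fin 3 → ℝ} {w0 R κ κ3 kf : ℝ} (hκ : 0 < κ) (hf : 0 < kf)
    (hf' : kf < κ3 - κ) (hτ : (θ 0 + κ3) / θ 1 ≠ 0) :
    MaD (actM monQ (s0 w0 (R - 1)) (fA κ κ3 kf) (fB θ κ κ3 kf)) where
  sub := fun k e he => (mem_actM.1 he).1
  m256 := mem_act.2 ⟨C1865.mv_mon.1, by simp [s0, nat4]; ring, by simp [fA, sA, nL],
    by simp [fB, sB, nL]⟩
  m457 := mem_act.2 ⟨C1865.mv_mon.2.1, by simp [s0, nat4]; ring, by simp [fA, sA, nL],
    by simp [fB, sB, nL]⟩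
  m058 := mem_act.2 ⟨C1865.mv_mon.2.2.1, by simp [s0, nat4]; ring, by simp [fA, sA, nL],
    by simp [fB, sB, nL]⟩
  m069 := mem_act.2 ⟨C1865.mv_mon.2.2.2.1, by simp [s0, nat4]; ring, by simp [fA, sA, nL],
    by simp [fB, sB, nL]⟩
  m289 := mem_act.2 ⟨C1865.mv_mon.2.2.2.2.1, by simp [s0, nat4]; ring,
    by simp [fA, sA, nL]; ring, by simp [fB, sB, nL]⟩
  m0710 := mem_act.2 ⟨C1865.mv_mon.2.2.2.2.2.1, by simp [s0, nat4]; ring,
    by simp [fA, sA, nL], by simp [fB, sB, nL]⟩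
  m4810 := mem_act.2 ⟨C1865.mv_mon.2.2.2.2.2.2, by simp [s0, nat4]; ring,
    by simp [fA, sA, nL]; ring, by simp [fB, sB, nL]⟩
  no := by
    intro k e he
    refine monQ_all (fun k e => e ∈ (actM monQ (s0 w0 (R - 1)) (fA κ κ3 kf)
      (fB θ κ κ3 kf)).mon k → e 1 = 0 ∧ e 3 = 0) |>.2 ?_ k e (mem_actM.1 he).1 he
    refine ⟨?_, ?_, ?_, ?_, ?_, ?_, ?_, ?_, ?_, ?_, ?_, ?_, ?_, ?_, ?_, ?_, ?_, ?_⟩ <;> first
      | exact fun _ => by decide
      | (intro hm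
         obtain ⟨-, -, e1, e2⟩ := mem_actM.1 hm
         exfalso
         rw [sm] at e1 e2
         simp [fA, fB, sA, sB, nL] at e1 e2
         first
         | linarith
         | (rcases e2 with e2 | e2 <;> simp [e2] at hτ))

/-- **row D1, case `θ 0 < θ 2`** -/
theorem caseD1_lt {η : ℝ} (hη : η ≤ 1 / 8) {p : Par4} {D : Dat4} {I1 : ℕ → Finset (ℕ × ℝ)}
    {π : Equiv.Perm (Fin 3)} {eE gA gB : ℕ → ℕ × ℝ → ℝ} {V T : Fin 11 → Prop} {w0 R T0 : ℝ}
    {PD : Set (Fin 11 → ℝ)} {ν own : (Fin 11 → ℝ) → ℝ} {c₀ : ℝ}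
    (h : Thick η p D I1 π eE gA gB V T w0 R T0 PD ν own c₀) (hV2 : V 2) (hV3 : ¬ V 3)
    (hV4 : V 4) (h02 : p.θ 0 < p.θ 2) : False := by
  obtain ⟨hκ, hκ3⟩ := slopesD h.tp.slots hV2 hV4
  have ok := h.tp.ok
  have hθ1 := ok.θ1
  have sl := h.tp.slots
  set κ := p.θ 1 - p.θ 2 with hκd
  set κ3 := p.θ 1 - p.θ 0 with hκ3d
  have hlt : κ < κ3 := by linarith
  set kf := (κ3 - κ) / 2 with hkf
  have hf0 : 0 < kf := by linarith
  have hf1 : kf < κ3 - κ := by linarith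
  refine Tb628.row_F0 (κ := κ) (κ3 := κ3) (kf := kf) h ok.η_pos hκ.le hlt.le hf0.le
    hf1 (Or.inr (by linarith : p.θ 2 < p.θ 1).ne') (Or.inl h02.ne')
    (hsl_sub ok hη (i := 1) (j := 2) (k := 1) (l := 0) (le_abs_self _) (le_abs_self _))
    (fun _ => le_rfl) (fun h => absurd h hV3) (fun _ => le_rfl) ?_
  intro g1 g2 hcone ξ x h' lam A φ r P Hm
  have hτ : (p.θ 0 + κ3) / p.θ 1 = 1 := by
    rw [div_eq_one_iff_eq hθ1.ne']; linarith
  have hτ2 : (p.θ 2 + κ) / p.θ 1 = 1 := by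
    rw [div_eq_one_iff_eq hθ1.ne']; linarith
  have hM := maD_act (θ := p.θ) (w0 := w0) (R := R) hκ hf0 hf1 (by rw [hτ]; norm_num)
  have a3 : fA κ κ3 kf 3 = kf := by simp [fA]
  have PE : PlE (fA κ κ3 kf) (fB p.θ κ κ3 kf) κ :=
    { κ0 := hκ
      nn := by
        intro i
        by_cases hi : i = 3
        · subst hi; rw [a3]; exact hf0.le
        · rw [fA, Function.update_of_ne hi]
          fin_cases i <;>
            simp only [sA, nL, Matrix.cons_val, Fin.zero_eta, Fin.mk_one, Fin.reduceFinMk,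
              Fin.isValue] <;> linarith
      a0 := by simp [fA, sA, nL]
      a2 := by simp [fA, sA, nL]
      a5 := by simp [fA, sA, nL]
      a6 := by simp [fA, sA, nL]
      a8 := by simp [fA, sA, nL]
      a9 := by simp [fA, sA, nL]
      b5 := by simp [fB, sB, nL]
      b2 := by simp [fB, sB, nL, hτ2]
      b6 := by simp [fB, sB, nL]
      b8 := by simp [fB, sB, nL]
      b9 := by simp [fB, sB, nL] }
  have PN : PlN (fA κ κ3 kf) (fB p.θ κ κ3 kf) κ3 :=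
    { κ0 := hκ3
      a1 := by simp [fA, sA, nL]
      a4 := by simp [fA, sA, nL]
      a7 := by simp [fA, sA, nL]
      a10 := by simp [fA, sA, nL]
      b4 := by simp [fB, sB, nL, hτ]
      b7 := by simp [fB, sB, nL]
      b10 := by simp [fB, sB, nL] }
  have b2 : fB p.θ κ κ3 kf 2 = 0 := by rw [PE.b2]; simp [fB, sB, nL]
  have b4 : fB p.θ κ κ3 kf 4 = 0 := by rw [PN.b4]; simp [fB, sB, nL]
  refine row_D P.aew (fun n i _ j _ => rfl) h.ext.ne hM PE PN (by linarith) (fun e => ?_) ?_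
    (fun k hk => ?_) ⟨tiedD sl hV3 hV2, b2⟩ ⟨tiedD sl hV3 hV4, b4⟩ (by norm_num)
    (fun k hk c hc s hs => ?_) ok.g0.2 fun c hc h5 h1' t ht => ?_
  · rw [gC_eq (by rw [a3]; exact hf0.ne') PE.n0, a3, PE.a0, Tb628.fB_three] at e
    have b0 : fB p.θ κ κ3 kf 0 = 0 := by simp [fB, sB, nL]
    rw [b0, zero_div, div_eq_zero_iff, or_iff_left hf0.ne', div_eq_zero_iff,
      or_iff_left hθ1.ne'] at e
    linarith
  · rw [hcone]
    refine ⟨?_, ?_, ?_, ?_, ?_, ?_, ?_⟩ <;>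
      simp only [PE.a0, PE.a2, PE.a5, PE.a6, PE.a8, PE.a9, PN.a4, PN.a7, PN.a10] <;> linarith
  · rcases (sl.vis k hk.1).1 with rfl | rfl | rfl
    · exact Or.inl rfl
    · exact absurd hk.1 hV3
    · exact Or.inr rfl
  · refine Hm k (fun i hi => ?_) c hc s hs
    have ha : fA κ κ3 kf i ≠ 0 := fun h0 => hk (by rw [← hi]; exact gC_zero.2 h0)
    unfold dhC
    rw [if_neg ha]
    exact lt_of_le_of_ne (PE.nn i) ha.symm
  · have e1 : t • (Pi.single 5 1 : Fin 11 → ℝ) = eCa t := by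
      funext j; fin_cases j <;> simp [eCa]
    have hct : c + eCa t ∈ coneM (actM monQ (s0 w0 (R - 1)) (fA κ κ3 kf) (fB p.θ κ κ3 kf)) := by
      rw [hcone] at hc ⊢
      obtain ⟨c1, c2, c3, c4, c5, c6, c7⟩ := hc
      refine ⟨?_, ?_, ?_, ?_, ?_, ?_, ?_⟩ <;>
        simp only [eCa, Pi.add_apply, Matrix.cons_val, Fin.isValue] <;> linarith
    rw [e1]
    refine P.S1 PE.a5 (by simp [fB, sB, nL]) (g1 (by linarith : p.θ 2 < p.θ 1).ne') hc ht hct
      fun k hk1 hk0 => ?_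
    have hk5 : k = 5 := by
      by_contra hne
      have g3 : k ≠ 3 := fun e => by rw [e, a3] at hk0; exact hf0.ne' hk0
      have g0 : k ≠ 0 := fun e => PE.n0 (by rw [← e]; exact hk0)
      have g2' : k ≠ 2 := fun e => PE.n2 (by rw [← e]; exact hk0)
      have g4 : k ≠ 4 := fun e => (PlN.n4 PE PN) (by rw [← e]; exact hk0)
      have g6 : k ≠ 6 := fun e => PE.n6 (by rw [← e]; exact hk0)
      have g7 : k ≠ 7 := fun e => (PlN.n7 PE PN) (by rw [← e]; exact hk0)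
      have g8 : k ≠ 8 := fun e => PE.n8 (by rw [← e]; exact hk0)
      have g9 : k ≠ 9 := fun e => PE.n9 (by rw [← e]; exact hk0)
      have g10 : k ≠ 10 := fun e => (PlN.n10 PE PN) (by rw [← e]; exact hk0)
      fin_cases k <;> simp at hk1 hne g3 g0 g2' g4 g6 g7 g8 g9 g10
    subst hk5
    have b5 : fB p.θ κ κ3 kf 5 = 1 := by simp [fB, sB, nL]
    rw [b5, one_mul]

/-- **row D1 from the pin `F_b`** of the first rung (only needed for `θ 2 < θ 0`) -/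
theorem caseD1_of {η : ℝ} (hη : η ≤ 1 / 8)
    (F1 : ∀ (p : Par4) (D : Dat4) (I1 : ℕ → Finset (ℕ × ℝ)) (π : Equiv.Perm (Fin 3))
      (eE fA fB : ℕ → ℕ × ℝ → ℝ) (V T : Fin 11 → Prop) (w0 R T0 : ℝ) (PD : Set (Fin 11 → ℝ))
      (ν own : (Fin 11 → ℝ) → ℝ) (c₀ : ℝ),
      Thick η p D I1 π eE fA fB V T w0 R T0 PD ν own c₀ → V 2 → ¬ V 3 → V 4 → p.θ 2 < p.θ 0 →
      ∃ g1 : ℝ, 0 < g1 ∧ ∀ lam lo : (Fin 11 → ℝ) → ℝ, StV p V ν own w0 R (1 / 2) ∅ lam lo →
        FlV p V ν own w0 R (1 / 2) ∅ (1 + (p.θ 1 - p.θ 2)) 0 (rhoF p.θ) lam lo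
          (fun l => l (ind1 {3}) < 0) g1) : TopB550.Dead η TopB550.pD1 := by
  intro p D I1 π eE gA gB V T w0 R T0 PD ν own c₀ h hp
  obtain ⟨h2, h3, h4, h02⟩ := hp
  rcases lt_or_gt_of_ne h02 with hlt | hgt
  · exact caseD1_lt hη h h2 h3 h4 hlt
  · obtain ⟨g1, hg1, F⟩ := F1 p D I1 π eE gA gB V T w0 R T0 PD ν own c₀ h h2 h3 h4 hgt
    exact ladder_D' hη h h2 h3 h4 h02 hg1 F

end Crest.Agent.R136.Dl667
end

-- ▼ part R136/Dl5_667

/-!
# R136, row D1 of the thick table, complete (helper667)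

* `caseD1` : no thick point of the pattern `pD1` (21 and 31 visible, 32 not, `θ 0 ≠ θ 2`)
-/

set_option autoImplicit false

namespace Crest.Agent.R136.Dl667

open Crest.Agent.R136.LdF511
open Crest.Agent.R136.NatT550

/-- **T.D1** -/
theorem caseD1 {η : ℝ} (hη : η ≤ 1 / 8) : TopB550.Dead η TopB550.pD1 :=
  caseD1_of hη fun p _ _ _ _ _ _ _ _ _ _ _ _ _ _ _ h h2 h3 h4 hgt =>
    ⟨p.g / 2, by have := h.tp.ok.g0.1; linarith, fun lam lo hst =>
      LdF5683.F1_fl h hη (by norm_num) (by norm_num) (slopesD h.tp.slots h2 h4).1 hgt.ne' h2 h3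
        (fun _ => hgt.le) (qdOk h.tp.slots ∅) hst⟩

end Crest.Agent.R136.Dl667
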