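import Crest.Agent.R136.Sh4_605

/-!
# R136 (S0187): the plank hypothesis of Lemma A_Q, thin case (helper605)
-/

set_option autoImplicit false
set_option linter.unusedVariables false

namespace Crest.Agent.R136.Sh605

open Finset Crest.Agent.R136.LmQ861

theorem dt_eq_sum (x y : V3) : dt x y = ∑ i, x i * y i := by
  rw [Fin.sum_univ_three]; rfl

/-- the frame `(n, E 0, E 1)` -/
def frm (n : V3) (E : Fin 2 → V3) : Fin 3 → V3 := ![n, E 0, E 1]

theorem frm_ortho {n : V3} {E : Fin 2 → V3} (hn : ∑ i, n i ^ 2 = 1)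
    (hE : ∀ a b, ∑ i, E a i * E b i = if a = b then 1 else 0) (hEn : ∀ a, ∑ i, E a i * n i = 0) :
    Ortho (frm n E) := by
  have h00 : dt n n = 1 := by
    rw [dt_eq_sum, ← hn]; exact sum_congr rfl fun i _ => by ring
  have h11 : dt (E 0) (E 0) = 1 := by rw [dt_eq_sum]; simpa using hE 0 0
  have h22 : dt (E 1) (E 1) = 1 := by rw [dt_eq_sum]; simpa using hE 1 1
  have h12 : dt (E 0) (E 1) = 0 := by rw [dt_eq_sum]; simpa using hE 0 1
  have h21 : dt (E 1) (E 0) = 0 := by rw [dt_eq_sum]; simpa using hE 1 0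
  have h10 : dt (E 0) n = 0 := by rw [dt_eq_sum]; exact hEn 0
  have h20 : dt (E 1) n = 0 := by rw [dt_eq_sum]; exact hEn 1
  have h01 : dt n (E 0) = 0 := by rw [dt_comm]; exact h10
  have h02 : dt n (E 1) = 0 := by rw [dt_comm]; exact h20
  intro i j
  fin_cases i <;> fin_cases j <;> simp [frm, h00, h11, h22, h12, h21, h10, h20, h01, h02]


end Crest.Agent.R136.Sh605
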