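import Crest.Agent.R136.End2_882_Mg
import Crest.Agent.R136.Sh5_605
import Crest.Agent.R136.HR2_829
import Crest.Agent.R136.End4_882

-- ▼ part R136/End6_882
section

/-!
# R136 (S0187): END, part 6 (helper882): test sheets of the class `ShN`

`dmaxF` : D-max for `ShN` bounds the number of lines in a box of the normalised coordinates of an
explicit quadratic function (`FQ`).
-/

set_option autoImplicit false
set_option linter.unusedVariables false

namespace Crest.Agent.R136.End882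

open Finset
open Crest.Agent.R136.LmQ861 Crest.Agent.R136.Sh605

section FQ

variable {e : Fin 3 → V3} {y : Ln4} {q : ℝ → V3 → ℝ} {zc s1 s2 m1 m2 k11 k12 k22 : ℝ}

/-- rotation of the base -/
theorem FQ.rot (hF : FQ e y q zc s1 s2 m1 m2 k11 k12 k22) {α β : ℝ} (h : α ^ 2 + β ^ 2 = 1) :
    FQ (rot e α β) y q zc (α * s1 + β * s2) (-β * s1 + α * s2) (α * m1 + β * m2)
      (-β * m1 + α * m2) (α ^ 2 * k11 + α * β * k12 + β ^ 2 * k22)
      (-2 * (α * β) * k11 + (α ^ 2 - β ^ 2) * k12 + 2 * (α * β) * k22)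
      (β ^ 2 * k11 - α * β * k12 + α ^ 2 * k22) := by
  intro z x
  rw [hF z x]
  simp only [rot_zero, rot_one, rot_two, add_dt, smul_dt]
  set u1 := dt (e 1) (x - y.pos z)
  set u2 := dt (e 2) (x - y.pos z)
  have k1 : u1 = α * (α * u1 + β * u2) - β * (-β * u1 + α * u2) := by
    linear_combination (-u1) * h
  have k2 : u2 = β * (α * u1 + β * u2) + α * (-β * u1 + α * u2) := by
    linear_combination (-u2) * h
  generalize hv1 : α * u1 + β * u2 = v1 at k1 k2 ⊢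
  generalize hv2 : -β * u1 + α * u2 = v2 at k1 k2 ⊢
  rw [k1, k2]
  ring

/-- the function of the test sheet -/
theorem FQ.tq (hF : FQ e y q zc s1 s2 m1 m2 k11 k12 k22) (w : V3) (a : ℝ) (n : V3) :
    FQ e y (tq e w q a y n) zc (s1 - a / n 0 * (n 1 / w 1)) (s2 - a / n 0 * (n 2 / w 2)) m1 m2
      k11 k12 k22 := by
  intro z x
  simp only [Sh605.tq, add_dt, smul_dt]
  rw [hF z x]
  have e0 : ∀ i, dt (e i) (y.pos z - y.pos z) = 0 := by
    intro i; simp [dt]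
  rw [e0, e0]
  ring

end FQ

section real

variable {α β A B S σ w1 w2 a ρ s1 s2 m1 m2 k11 k12 k22 l1 l2 : ℝ}

theorem abs_unit (h : α ^ 2 + β ^ 2 = 1) : |α| ≤ 1 ∧ |β| ≤ 1 :=
  ⟨abs_le_one_iff_mul_self_le_one.2 (by nlinarith [sq_nonneg β]),
    abs_le_one_iff_mul_self_le_one.2 (by nlinarith [sq_nonneg α])⟩

theorem aux_lin {α β x y X : ℝ} (hα : |α| ≤ 1) (hβ : |β| ≤ 1) (h : |x| + |y| ≤ X) :
    |α * x + β * y| ≤ X := by
  refine (abs_add_le _ _).trans ?_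
  have := aux3 hα (le_refl |x|)
  have := aux3 hβ (le_refl |y|)
  linarith

/-- the second order part on a small rotated box -/
theorem flat_rot (h : α ^ 2 + β ^ 2 = 1) (hw2 : 0 < w2) (hw : w2 ≤ w1) (hA0 : 0 < A)
    (hB0 : 0 < B) (hS0 : 0 < S)
    (hA : A ≤ 3 * S * w1) (hAb : A * |β| ≤ 3 * S * w2) (hB : B ≤ 6 * S * w2) (hBs : σ * w2 ≤ B)
    (hBA : B ≤ A) (hSσ : 32000 * S ^ 2 ≤ σ) (hSs : 20000 * S ≤ 1) (hρ : 0 ≤ ρ)
    (hm1 : |m1| * ρ * w1 ≤ S * w2) (hm2 : |m2| * ρ ≤ S) (hk11 : |k11| * w1 ^ 2 ≤ w2)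
    (hk12 : |k12| * w1 ≤ 1) (hk22 : |k22| * w2 ≤ 1) :
    Flat (1 / 1024) ρ A B (α * m1 + β * m2) (-β * m1 + α * m2)
      (α ^ 2 * k11 + α * β * k12 + β ^ 2 * k22)
      (-2 * (α * β) * k11 + (α ^ 2 - β ^ 2) * k12 + 2 * (α * β) * k22)
      (β ^ 2 * k11 - α * β * k12 + α ^ 2 * k22) := by
  obtain ⟨hα1, hβ1⟩ := abs_unit h
  have hw1 : 0 < w1 := hw2.trans_le hw
  have hβn : |-β| ≤ 1 := by rwa [abs_neg]
  have hB2 : 32000 * S ^ 2 * w2 ≤ B := (mul_le_mul_of_nonneg_right hSσ hw2.le).trans hBs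
  have p11 : |k11| * w1 ≤ 1 := by
    have : |k11| * w1 * w1 ≤ 1 * w1 := by
      calc |k11| * w1 * w1 = |k11| * w1 ^ 2 := by ring
        _ ≤ w2 := hk11
        _ ≤ 1 * w1 := by linarith
    exact le_of_mul_le_mul_right this hw1
  have pm : |m1| * ρ ≤ S := by
    have : |m1| * ρ * w1 ≤ S * w1 := hm1.trans (by gcongr)
    exact le_of_mul_le_mul_right this hw1
  have hα2 : α ^ 2 ≤ 1 := by nlinarith [sq_nonneg β]
  have hβ2 : β ^ 2 ≤ 1 := by nlinarith [sq_nonneg α]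
  constructor
  · -- m1
    have e1 : |α * m1 + β * m2| ≤ |m1| + |β| * |m2| := by
      refine (abs_add_le _ _).trans ?_
      rw [abs_mul, abs_mul]
      have : |α| * |m1| ≤ 1 * |m1| := by gcongr
      linarith
    calc |α * m1 + β * m2| * ρ * A ≤ (|m1| + |β| * |m2|) * ρ * A := by gcongr
      _ = |m1| * ρ * A + |m2| * ρ * (A * |β|) := by ring
      _ ≤ |m1| * ρ * (3 * S * w1) + S * (3 * S * w2) := by gcongr
      _ = 3 * S * (|m1| * ρ * w1) + 3 * S ^ 2 * w2 := by ring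
      _ ≤ 3 * S * (S * w2) + 3 * S ^ 2 * w2 := by gcongr
      _ ≤ 1 / 1024 * B := by nlinarith
  · -- m2
    have e1 : |-β * m1 + α * m2| ≤ |m1| + |m2| := aux_lin hβn hα1 le_rfl
    calc |-β * m1 + α * m2| * ρ ≤ (|m1| + |m2|) * ρ := by gcongr
      _ = |m1| * ρ + |m2| * ρ := by ring
      _ ≤ 1 / 1024 := by linarith
  · -- k11
    have e1 : |α ^ 2 * k11 + α * β * k12 + β ^ 2 * k22| ≤ |k11| + |β| * |k12| + |β| ^ 2 * |k22| := by
      refine (abs_add_le _ _).trans (add_le_add ((abs_add_le _ _).trans (add_le_add ?_ ?_)) ?_)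
      · rw [abs_mul, abs_of_nonneg (sq_nonneg α)]
        have := mul_le_mul_of_nonneg_right hα2 (abs_nonneg k11)
        linarith
      · rw [abs_mul, abs_mul]
        have : |α| * |β| * |k12| ≤ 1 * |β| * |k12| := by gcongr
        linarith
      · rw [abs_mul, abs_pow]
    calc |α ^ 2 * k11 + α * β * k12 + β ^ 2 * k22| * A ^ 2 ≤
        (|k11| + |β| * |k12| + |β| ^ 2 * |k22|) * A ^ 2 := by gcongr
      _ = |k11| * A ^ 2 + |k12| * A * (A * |β|) + |k22| * (A * |β|) ^ 2 := by ring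
      _ ≤ |k11| * (3 * S * w1) ^ 2 + |k12| * (3 * S * w1) * (3 * S * w2) +
          |k22| * (3 * S * w2) ^ 2 := by gcongr
      _ = 9 * S ^ 2 * (|k11| * w1 ^ 2) + 9 * S ^ 2 * w2 * (|k12| * w1) +
          9 * S ^ 2 * w2 * (|k22| * w2) := by ring
      _ ≤ 9 * S ^ 2 * w2 + 9 * S ^ 2 * w2 * 1 + 9 * S ^ 2 * w2 * 1 := by gcongr
      _ ≤ 1 / 1024 * B := by nlinarith
  · -- k12
    have hab : |-2 * (α * β) * k11| ≤ 2 * |k11| := by
      rw [abs_mul, abs_mul, abs_mul, abs_neg, abs_two]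
      have : |α| * |β| ≤ 1 * 1 := by gcongr
      have := mul_le_mul_of_nonneg_right this (abs_nonneg k11)
      linarith
    have hab2 : |(α ^ 2 - β ^ 2) * k12| ≤ |k12| := by
      refine aux3 ?_ le_rfl
      rw [abs_le]; constructor <;> nlinarith [sq_nonneg α, sq_nonneg β]
    have hab3 : |2 * (α * β) * k22| ≤ 2 * |β| * |k22| := by
      rw [abs_mul, abs_mul, abs_mul, abs_two]
      have : |α| * |β| ≤ 1 * |β| := by gcongr
      have := mul_le_mul_of_nonneg_right this (abs_nonneg k22)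
      linarith
    have e1 := (abs_add_le (-2 * (α * β) * k11 + (α ^ 2 - β ^ 2) * k12) (2 * (α * β) * k22)).trans
      (add_le_add ((abs_add_le _ _).trans (add_le_add hab hab2)) hab3)
    calc |-2 * (α * β) * k11 + (α ^ 2 - β ^ 2) * k12 + 2 * (α * β) * k22| * A ≤
        (2 * |k11| + |k12| + 2 * |β| * |k22|) * A := by gcongr
      _ = 2 * (|k11| * A) + |k12| * A + 2 * |k22| * (A * |β|) := by ring
      _ ≤ 2 * (|k11| * (3 * S * w1)) + |k12| * (3 * S * w1) + 2 * |k22| * (3 * S * w2) := by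
          gcongr
      _ = 6 * S * (|k11| * w1) + 3 * S * (|k12| * w1) + 6 * S * (|k22| * w2) := by ring
      _ ≤ 6 * S * 1 + 3 * S * 1 + 6 * S * 1 := by gcongr
      _ ≤ 1 / 1024 := by linarith
  · -- k22
    have e1 : |β ^ 2 * k11 - α * β * k12 + α ^ 2 * k22| ≤ |k11| + |k12| + |k22| := by
      refine (abs_add_le _ _).trans (add_le_add ((abs_sub _ _).trans (add_le_add ?_ ?_)) ?_)
      · rw [abs_mul, abs_of_nonneg (sq_nonneg β)]
        have := mul_le_mul_of_nonneg_right hβ2 (abs_nonneg k11)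
        linarith
      · rw [abs_mul, abs_mul]
        have : |α| * |β| * |k12| ≤ 1 * 1 * |k12| := by gcongr
        linarith
      · rw [abs_mul, abs_of_nonneg (sq_nonneg α)]
        have := mul_le_mul_of_nonneg_right hα2 (abs_nonneg k22)
        linarith
    have q11 : |k11| * w2 ≤ 1 := (mul_le_mul_of_nonneg_left hw (abs_nonneg _)).trans p11
    have q12 : |k12| * w2 ≤ 1 := (mul_le_mul_of_nonneg_left hw (abs_nonneg _)).trans hk12
    calc |β ^ 2 * k11 - α * β * k12 + α ^ 2 * k22| * B ≤ (|k11| + |k12| + |k22|) * B := by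
          gcongr
      _ ≤ (|k11| + |k12| + |k22|) * (6 * S * w2) := by gcongr
      _ = 6 * S * (|k11| * w2) + 6 * S * (|k12| * w2) + 6 * S * (|k22| * w2) := by ring
      _ ≤ 6 * S * 1 + 6 * S * 1 + 6 * S * 1 := by gcongr
      _ ≤ 1 / 1024 := by linarith

end real

open Classical in
/-- D-max for the sheets whose widths satisfy `Cl w a` -/
def DMaxK {ι : Type} (A : Finset ι) (L : ι → Ln4) (z0 ρ D : ℝ) (R : ℝ → ℝ → ℝ → ℝ) (r0 : ℝ)
    (Cl : V3 → ℝ → Prop) : Prop :=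
  ∀ (e : Fin 3 → V3) (c : Ln4) (w : V3) (q : ℝ → V3 → ℝ) (a : ℝ), ShN e c w q a z0 ρ r0 →
    Cl w a →
    ((A.filter fun t => InSheet (L t) e c w q a z0 ρ).card : ℝ) ≤
      D * (a * w 2 * w 1 * R a (w 2) (w 1))


/-- the long side of the rectangle of a box -/
theorem cov_A {n : Fin 3 → V3} (hn : Ortho n) {s : V3} {W1 W2 : ℝ} (hW1 : 0 ≤ W1) {i0 : Fin 3}
    {α β A B σ : ℝ} (hC : Cov n s W1 W2 i0 α β A B) (hσ : 0 ≤ σ) (hσs : ∀ i, σ ≤ s i) :
    σ * W1 ≤ 2 * A := by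
  have hu : ∀ i, |dt (n i) (![0, σ, 0] : V3)| ≤ s i := by
    intro i
    have h1 := hn.abs_le_one i 1
    have : dt (n i) (![0, σ, 0] : V3) = n i 1 * σ := by simp [dt]
    rw [this]
    exact (aux3 h1 (abs_of_nonneg hσ).le).trans (hσs i)
  have h1 := hC.in1 _ hu
  have h2 := hC.in2 _ hu
  simp only [Matrix.cons_val, mul_zero, add_zero] at h1 h2
  rw [abs_mul, abs_of_nonneg (mul_nonneg hW1 hσ)] at h1 h2
  rw [abs_neg] at h2
  have h3 : 1 ≤ |α| + |β| := by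
    have h4 := hC.unit
    nlinarith [abs_nonneg α, abs_nonneg β, sq_abs α, sq_abs β]
  have h5 : W1 * σ ≤ (|α| + |β|) * (W1 * σ) := le_mul_of_one_le_left (mul_nonneg hW1 hσ) h3
  have := hC.BA
  nlinarith

open Classical in
set_option maxHeartbeats 800000 in
/-- **D-max for the boxes of the normalised coordinates** of an explicit quadratic function, from
D-max for the class `ShN`. -/
theorem dmaxF {ι : Type} (T : Finset ι) (L : ι → Ln4) {e : Fin 3 → V3} {y : Ln4} {w : V3}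
    {q : ℝ → V3 → ℝ} {zc s1 s2 m1 m2 k11 k12 k22 a z0 ρ r0 D : ℝ} {Rw : ℝ → ℝ → ℝ → ℝ}
    {Cl : V3 → ℝ → Prop}
    (he : Ortho e) (hq : IsQ q) (hF : FQ e y q zc s1 s2 m1 m2 k11 k12 k22)
    (hs1 : |s1| ≤ 13 / 8) (hs2 : |s2| ≤ 13 / 8) (hz0 : z0 ≤ zc) (hz1 : zc ≤ z0 + ρ) (ha : 0 < a)
    (haw : a ≤ w 2) (hw : w 2 ≤ w 1) (hD : 0 ≤ D)
    (hR0 : ∀ x y z, 0 ≤ x → 0 ≤ y → 0 ≤ z → 0 ≤ Rw x y z)
    (hRm : ∀ x y z x' y' z', 0 ≤ x → 0 ≤ y → 0 ≤ z → x ≤ x' → y ≤ y' → z ≤ z' →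
      Rw x y z ≤ Rw x' y' z')
    (hmax : DMaxK T L z0 ρ D Rw r0 Cl)
    {n : Fin 3 → V3} (hn : Ortho n) {s : V3} (hs : ∀ i, 0 < s i) {S σ : ℝ}
    (hsS : ∀ i, s i ≤ S) (hσs : ∀ i, σ ≤ s i) (hσ : 0 < σ) (hthin : 6 * S * a ≤ σ * w 2)
    (hSσ : 32000 * S ^ 2 ≤ σ) (hSs : 20000 * S ≤ 1)
    (hm1 : |m1| * ρ * w 1 ≤ S * w 2) (hm2 : |m2| * ρ ≤ S) (hk11 : |k11| * w 1 ^ 2 ≤ w 2)
    (hk12 : |k12| * w 1 ≤ 1) (hk22 : |k22| * w 2 ≤ 1)
    (hr : 2 * r0 ≤ a * σ)
    (hCl : ∀ A B a', σ * w 1 ≤ 2 * A → A ≤ 3 * S * w 1 → σ * w 2 ≤ B → B ≤ 6 * S * w 2 →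
      σ * a ≤ 2 * a' → a' ≤ 6 * S * a → Cl (wFQ A B) a') :
    ((T.filter fun t => ∀ z, z0 ≤ z → z ≤ z0 + ρ → ∀ i,
      |dt (n i) (nrm e w q a y (L t) z)| ≤ s i).card : ℝ) ≤
      3240 * D * (s 0 * s 1 * s 2) *
        (a * w 2 * w 1 * Rw (60 * S * a) (60 * S * w 2) (60 * S * w 1)) := by
  have hS0 : 0 < S := (hs 0).trans_le (hsS 0)
  have hw2 : 0 < w 2 := ha.trans_le haw
  have hw1 : 0 < w 1 := hw2.trans_le hw
  obtain ⟨i0, α, β, A, B, hC⟩ := exists_cov hn hs hw2 hw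
  have hA0 : 0 < A := hC.Bpos.trans_le hC.BA
  obtain ⟨hα1, hβ1⟩ := abs_unit hC.unit
  have hnn : 0 < |n i0 0| := abs_pos.2 hC.n0
  have hsi := hs i0
  set b : ℝ := s i0 / |n i0 0| with hb
  have hb0 : 0 < b := by positivity
  have hb2 : b ≤ 2 * S := hC.a_le S hsS
  have hsb : s i0 ≤ b := hC.le_a
  -- slopes of the test function
  have hinv : a / |n i0 0| ≤ 1 / 3 * w 2 := by
    have h1 : 1 / |n i0 0| ≤ 2 * S / σ := by
      rw [div_le_div_iff₀ hnn hσ]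
      have h2 : s i0 ≤ 2 * S * |n i0 0| := by rwa [hb, div_le_iff₀ hnn] at hb2
      have h3 := hσs i0
      linarith
    calc a / |n i0 0| = a * (1 / |n i0 0|) := by ring
      _ ≤ a * (2 * S / σ) := by gcongr
      _ = 1 / 3 * (6 * S * a / σ) := by ring
      _ ≤ 1 / 3 * w 2 := by
          gcongr
          rw [div_le_iff₀ hσ]; linarith
  have hl : ∀ (k : Fin 3) (W : ℝ), w 2 ≤ W → |a / n i0 0 * (n i0 k / W)| ≤ 1 / 3 := by
    intro k W hW
    have hW0 : 0 < W := hw2.trans_le hW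
    have h6 := hn.abs_le_one i0 k
    rw [abs_mul, abs_div, abs_div, abs_of_pos ha, abs_of_pos hW0]
    calc a / |n i0 0| * (|n i0 k| / W) ≤ (1 / 3 * w 2) * (1 / W) := by gcongr
      _ = 1 / 3 * (w 2 / W) := by ring
      _ ≤ 1 / 3 * 1 := by
          gcongr
          rwa [div_le_one hW0]
      _ = 1 / 3 := by ring
  have hl1 := hl 1 (w 1) hw
  have hl2 := hl 2 (w 2) le_rfl
  have hF' := (hF.tq w a (n i0)).rot hC.unit
  have hqt : IsQ (tq e w q a y (n i0)) := tq_isQ hq _ _ _ _ _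
  have t1 : |s1 - a / n i0 0 * (n i0 1 / w 1)| ≤ 2 := (abs_sub _ _).trans (by linarith)
  have t2 : |s2 - a / n i0 0 * (n i0 2 / w 2)| ≤ 2 := (abs_sub _ _).trans (by linarith)
  have u1 := aux_lin hα1 hβ1 ((add_le_add t1 t2).trans (by norm_num : (2 : ℝ) + 2 ≤ 4))
  have u2 := aux_lin (by rwa [abs_neg] : |-β| ≤ 1) hα1
    ((add_le_add t1 t2).trans (by norm_num : (2 : ℝ) + 2 ≤ 4))
  have hA3 := hC.A_le S hsS
  have hAb := hC.Ab_le S hsS
  have hB6 := hC.B_le S hsS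
  have hBσ := hC.le_B σ hσs
  have hρ : 0 ≤ ρ := by linarith
  have hfl := flat_rot hC.unit hw2 hw hA0 hC.Bpos hS0 hA3 hAb hB6 hBσ hC.BA hSσ hSs hρ hm1 hm2
    hk11 hk12 hk22
  have ha3 : 0 < 3 * (a * b) := by positivity
  have haB : 3 * (a * b) ≤ B := by
    calc 3 * (a * b) ≤ 3 * (a * (2 * S)) := by gcongr
      _ = 6 * S * a := by ring
      _ ≤ σ * w 2 := hthin
      _ ≤ B := hBσ
  have hr6 : 6 * r0 ≤ 3 * (a * b) := by
    have h1 : a * σ ≤ a * b := mul_le_mul_of_nonneg_left ((hσs i0).trans hsb) ha.le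
    linarith
  have hsh := shN_of_FQ (rot_ortho he hC.unit) hqt hF' u1 u2 hz0 hz1 ha3 haB hC.BA hfl hr6
  set ν := nuT (α * (s1 - a / n i0 0 * (n i0 1 / w 1)) + β * (s2 - a / n i0 0 * (n i0 2 / w 2)))
    (-β * (s1 - a / n i0 0 * (n i0 1 / w 1)) + α * (s2 - a / n i0 0 * (n i0 2 / w 2))) with hν
  have hν1 : 1 ≤ ν := nuT_ge _ _
  have hν6 : ν ≤ 6 := nuT_le u1 u2
  have hν0 : 0 < ν := by linarith
  have hσb : σ ≤ b := (hσs i0).trans hsb
  have h1 := hmax _ _ _ _ _ hsh.toN (hCl A B (3 * (a * b) / ν) (cov_A hn hw1.le hC hσ.le hσs)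
    hA3 hBσ hB6 (by
      have h2 : σ * a ≤ a * b := by
        calc σ * a = a * σ := mul_comm _ _
          _ ≤ a * b := by gcongr
      have h3 : a * b ≤ 2 * (3 * (a * b) / ν) := by
        have h4 : 0 < a * b := by positivity
        have h5 : 2 * (3 * (a * b) / ν) = 6 * (a * b) / ν := by ring
        rw [h5, le_div_iff₀ hν0]
        nlinarith
      exact h2.trans h3)
    ((div_le_self ha3.le hν1).trans (by
      calc 3 * (a * b) ≤ 3 * (a * (2 * S)) := by gcongr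
        _ = 6 * S * a := by ring)))
  -- membership
  have h2 : (T.filter fun t => ∀ z, z0 ≤ z → z ≤ z0 + ρ → ∀ i,
      |dt (n i) (nrm e w q a y (L t) z)| ≤ s i) ⊆ T.filter fun t =>
      InSheet (L t) (tilt (rot e α β)
        (α * (s1 - a / n i0 0 * (n i0 1 / w 1)) + β * (s2 - a / n i0 0 * (n i0 2 / w 2)))
        (-β * (s1 - a / n i0 0 * (n i0 1 / w 1)) + α * (s2 - a / n i0 0 * (n i0 2 / w 2)))) y
        (wFQ A B) (fun z x => tq e w q a y (n i0) z x / ν) (3 * (a * b) / ν) z0 ρ := by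
    intro t ht
    rw [mem_filter] at ht ⊢
    refine ⟨ht.1, mem_of_FQ hF' u1 u2 hz0 hz1 ha3 haB hC.BA hfl ?_ ?_⟩
    · intro z _ _
      have : tq e w q a y (n i0) z (y.pos z) = 0 := by
        simp [tq, dt]
      rw [this, abs_zero]; exact ha3.le
    · intro z h3 h4
      have hu := ht.2 z h3 h4
      set u := nrm e w q a y (L t) z with hud
      have hu1 : w 1 * u 1 = dt (e 1) ((L t).pos z - y.pos z) := by
        rw [hud, nrm_one]; field_simp
      have hu2 : w 2 * u 2 = dt (e 2) ((L t).pos z - y.pos z) := by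
        rw [hud, nrm_two]; field_simp
      have c1 := hC.in1 u hu
      have c2 := hC.in2 u hu
      rw [hu1, hu2] at c1 c2
      refine ⟨?_, ?_, ?_⟩
      · rw [rot_one, add_dt, smul_dt, smul_dt]; exact c1
      · rw [rot_two, add_dt, smul_dt, smul_dt]; exact c2
      · rw [tq_apply e w q ha.ne' y (L t) (n i0) hC.n0 z, ← hud, abs_mul, abs_div, abs_of_pos ha]
        calc a / |n i0 0| * |dt (n i0) u| ≤ a / |n i0 0| * s i0 := by
              gcongr
              exact hu i0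
          _ = a * b := by rw [hb]; ring
          _ ≤ _ := by
              have : 0 < a * b := by positivity
              linarith
  have h3 : ((T.filter fun t => ∀ z, z0 ≤ z → z ≤ z0 + ρ → ∀ i,
      |dt (n i) (nrm e w q a y (L t) z)| ≤ s i).card : ℝ) ≤ _ :=
    Nat.cast_le.2 (card_le_card h2)
  refine (h3.trans h1).trans ?_
  change D * (3 * (a * b) / ν * (10 * B) * (12 * A) * Rw (3 * (a * b) / ν) (10 * B) (12 * A)) ≤ _
  have hνd : 3 * (a * b) / ν ≤ 3 * (a * b) := div_le_self ha3.le hν1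
  have hBp := hC.Bpos
  have h4 : Rw (3 * (a * b) / ν) (10 * B) (12 * A) ≤
      Rw (60 * S * a) (60 * S * w 2) (60 * S * w 1) := by
    apply hRm _ _ _ _ _ _ (by positivity) (by positivity) (by positivity)
    · calc 3 * (a * b) / ν ≤ 3 * (a * (2 * S)) := hνd.trans (by gcongr)
        _ = 6 * S * a := by ring
        _ ≤ 60 * S * a := by gcongr; norm_num
    · linarith
    · have : 0 < S * w 1 := by positivity
      linarith
  have h5 : 3 * (a * b) / ν * (10 * B) * (12 * A) ≤ 3240 * (s 0 * s 1 * s 2) * (a * w 2 * w 1) := by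
    calc 3 * (a * b) / ν * (10 * B) * (12 * A) ≤ 3 * (a * b) * (10 * B) * (12 * A) := by gcongr
      _ = 360 * a * (A * B * b) := by ring
      _ ≤ 360 * a * (9 * (w 1 * w 2) * (s 0 * s 1 * s 2)) := by
          have := hC.vol
          gcongr
      _ = _ := by ring
  have h6 : 0 ≤ Rw (60 * S * a) (60 * S * w 2) (60 * S * w 1) :=
    hR0 _ _ _ (by positivity) (by positivity) (by positivity)
  have h8 : 0 ≤ 3 * (a * b) / ν * (10 * B) * (12 * A) := by positivity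
  calc D * (3 * (a * b) / ν * (10 * B) * (12 * A) * Rw (3 * (a * b) / ν) (10 * B) (12 * A)) ≤
      D * (3240 * (s 0 * s 1 * s 2) * (a * w 2 * w 1) *
        Rw (60 * S * a) (60 * S * w 2) (60 * S * w 1)) :=
        mul_le_mul_of_nonneg_left ((mul_le_mul_of_nonneg_left h4 h8).trans
          (mul_le_mul_of_nonneg_right h5 h6)) hD
    _ = _ := by ring

end Crest.Agent.R136.End882
end

-- ▼ part R136/End7_882
section

/-!
# R136 (S0187): END, part 7 (helper882): planks of a sample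

`FQ.move` : another reference line; `plk_box` : a plank of 861 is a box of normalised differences;
`sample_planks` : number of lines of the sample in a plank, from D-max of the ambient lines.
-/

set_option autoImplicit false
set_option linter.unusedVariables false

namespace Crest.Agent.R136.End882

open Finset
open Crest.Agent.R136.LmQ861 Crest.Agent.R136.Sh605
open Crest.Agent.R138.Mk163 (zc zl rho alive own)

section move

variable {e : Fin 3 → V3} {y : Ln4} {q : ℝ → V3 → ℝ} {z0 s1 s2 m1 m2 k11 k12 k22 : ℝ}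

/-- another reference line -/
theorem FQ.move (hF : FQ e y q z0 s1 s2 m1 m2 k11 k12 k22) (y' : Ln4) (z1 : ℝ) :
    FQ e y' q z1
      (s1 + m1 * (z1 - z0) + 2 * k11 * dt (e 1) (y'.pos z1 - y.pos z1) +
        k12 * dt (e 2) (y'.pos z1 - y.pos z1))
      (s2 + m2 * (z1 - z0) + k12 * dt (e 1) (y'.pos z1 - y.pos z1) +
        2 * k22 * dt (e 2) (y'.pos z1 - y.pos z1))
      (m1 + 2 * k11 * dt (e 1) (y'.v - y.v) + k12 * dt (e 2) (y'.v - y.v))
      (m2 + k12 * dt (e 1) (y'.v - y.v) + 2 * k22 * dt (e 2) (y'.v - y.v)) k11 k12 k22 := by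
  intro z x
  have h1 := hF z x
  have h2 := hF z (y'.pos z)
  have hb : ∀ k, dt (e k) (y'.pos z - y.pos z) =
      dt (e k) (y'.pos z1 - y.pos z1) + (z - z1) * dt (e k) (y'.v - y.v) := by
    intro k
    rw [dt_sub, dt_sub, dt_sub, dt_pos, dt_pos, dt_pos, dt_pos]; ring
  have hs : ∀ k, dt (e k) (x - y.pos z) = dt (e k) (x - y'.pos z) + dt (e k) (y'.pos z - y.pos z) := by
    intro k
    rw [dt_sub, dt_sub, dt_sub]; ring
  rw [h1, h2, hs 0, hs 1, hs 2, hb 1, hb 2]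
  ring

end move

/-- half-widths of the box of a plank -/
noncomputable def sPlk (R : ℝ) (H : ℕ) (wd : Fin 2 → ℝ) : V3 :=
  ![2718 / R, 2718 * wd 0 * H / R, 2718 * wd 1 * H / R]

section plk

variable {R : ℝ} {H : ℕ} {wd : Fin 2 → ℝ}

theorem sPlk_pos (hR : 0 < R) (hH : 0 < H) (hw : ∀ a, 1 / (H : ℝ) ≤ wd a ∧ wd a ≤ 1) (i : Fin 3) :
    0 < sPlk R H wd i := by
  have hH0 : (0 : ℝ) < H := by exact_mod_cast hH
  have hwd : ∀ k, 0 < wd k := fun k => lt_of_lt_of_le (by positivity) (hw k).1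
  have := hwd 0
  have := hwd 1
  fin_cases i
  · change 0 < 2718 / R; positivity
  · change 0 < 2718 * wd 0 * H / R; positivity
  · change 0 < 2718 * wd 1 * H / R; positivity

theorem sPlk_ge (hR : 0 < R) (hH : 0 < H) (hw : ∀ a, 1 / (H : ℝ) ≤ wd a ∧ wd a ≤ 1) (i : Fin 3) :
    2718 / R ≤ sPlk R H wd i := by
  have hH0 : (0 : ℝ) < H := by exact_mod_cast hH
  have hwdH : ∀ k, 1 ≤ wd k * H := fun k => by
    have := (hw k).1
    rwa [div_le_iff₀ hH0] at this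
  fin_cases i
  · exact le_rfl
  · change 2718 / R ≤ 2718 * wd 0 * H / R
    have := hwdH 0
    gcongr
    linarith
  · change 2718 / R ≤ 2718 * wd 1 * H / R
    have := hwdH 1
    gcongr
    linarith

theorem sPlk_le (hR : 0 < R) (hH : 0 < H) (hw : ∀ a, 1 / (H : ℝ) ≤ wd a ∧ wd a ≤ 1) (i : Fin 3) :
    sPlk R H wd i ≤ 2718 * H / R := by
  have hH1 : (1 : ℝ) ≤ H := by exact_mod_cast hH
  fin_cases i
  · change 2718 / R ≤ 2718 * H / R
    gcongr
    linarith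
  · change 2718 * wd 0 * H / R ≤ 2718 * H / R
    have := (hw 0).2
    gcongr
    nlinarith
  · change 2718 * wd 1 * H / R ≤ 2718 * H / R
    have := (hw 1).2
    gcongr
    nlinarith

theorem sPlk_prod : sPlk R H wd 0 * sPlk R H wd 1 * sPlk R H wd 2 =
    2718 ^ 3 / R ^ 3 * (wd 0 * wd 1) * (H : ℝ) ^ 2 := by
  change 2718 / R * (2718 * wd 0 * H / R) * (2718 * wd 1 * H / R) = _
  ring

end plk

/-- **a plank is a box of normalised differences** over every window near its height -/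
theorem plk_box {ι : Type} (L : ι → Ln4) {e : Fin 3 → V3} {c : Ln4} {w : V3}
    {q : ℝ → V3 → ℝ} {a z0 ρ zc lam z1 ρ1 : ℝ} (hq : IsQ q) (ha : 0 < a) (hw1 : 0 < w 1)
    (hw2 : 0 < w 2) (hz0 : z0 = zc - lam) (hρ : ρ = 2 * lam) (hlam : 0 < lam) {x : ι × ℤ}
    (hx : InSheet (L x.1) e c w q a z0 ρ) {R : ℝ} {H : ℕ} (hH : 0 < H) (hR : 0 < R)
    (hHR : (H : ℝ) ^ 2 ≤ R)
    (hnear : ∀ z, z1 ≤ z → z ≤ z1 + ρ1 → |z - (zc + lam * ((x.2 : ℝ) / R))| ≤ 2 * lam * H / R)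
    {n : Fin 3 → ℝ} (hn : ∑ i, n i ^ 2 = 1) {E : Fin 2 → Fin 3 → ℝ}
    (hE : ∀ a b, ∑ i, E a i * E b i = if a = b then 1 else 0) (hEn : ∀ a, ∑ i, E a i * n i = 0)
    {wd : Fin 2 → ℝ} (hw : ∀ a, 1 / (H : ℝ) ≤ wd a ∧ wd a ≤ 1) {t : ι}
    (htS : InSheet (L t) e c w q a z0 ρ)
    (ht : Plk (fun l => gam e c w q a zc lam (L l))
      (fun l => vel e c w q a zc lam (L l)) R H n E wd x (t, x.2)) :
    ∀ z, z1 ≤ z → z ≤ z1 + ρ1 → ∀ i,
      |dt (frm n E i) (nrm e w q a (L x.1) (L t) z)| ≤ sPlk R H wd i := by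
  have hH0 : (0 : ℝ) < H := by exact_mod_cast hH
  have hH1 : (1 : ℝ) ≤ H := by exact_mod_cast hH
  have hwd : ∀ k, 0 < wd k := fun k => lt_of_lt_of_le (by positivity) (hw k).1
  have hwdH : ∀ k, 1 ≤ wd k * H := fun k => by
    have := (hw k).1
    rwa [div_le_iff₀ hH0] at this
  obtain ⟨hp1, hp2, hp3⟩ := ht
  intro z hz hz'
  set u0 : ℝ := (x.2 : ℝ) / R with hu0
  obtain ⟨u, hu⟩ : ∃ u, z = zc + lam * u := ⟨(z - zc) / lam, by field_simp; ring⟩
  have hnz := hnear z hz hz'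
  have hun : |u - u0| ≤ 2 * (H / R) := by
    have e1 : z - (zc + lam * u0) = lam * (u - u0) := by rw [hu]; ring
    rw [e1, abs_mul, abs_of_pos hlam] at hnz
    have e2 : 2 * lam * H / R = lam * (2 * (H / R)) := by ring
    rw [e2] at hnz
    exact le_of_mul_le_mul_left hnz hlam
  have hO := frm_ortho hn hE hEn
  have hq4 : 4 * |u - u0| ^ 2 ≤ 16 / R := by
    have e1 : |u - u0| ^ 2 ≤ (2 * (H / R)) ^ 2 := by gcongr
    have e2 : (2 * ((H : ℝ) / R)) ^ 2 = 4 * (H ^ 2 / R ^ 2) := by ring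
    have e3 : (H : ℝ) ^ 2 / R ^ 2 ≤ 1 / R := by
      rw [div_le_div_iff₀ (by positivity) hR]
      nlinarith
    have e4 : (16 : ℝ) / R = 16 * (1 / R) := by ring
    rw [e4]
    linarith
  have g0 : |dt n (nrm e w q a (L x.1) (L t) z)| ≤ 2718 / R := by
    rw [hu]
    refine (nrm_near hq ha hw1 hw2 hz0 hρ hlam.le hx htS (hO.abs_le_one 0 0)
      hp1 hp2).trans ?_
    have e1 : 9 * (100 / (H : ℝ)) * |u - u0| ≤ 9 * (100 / (H : ℝ)) * (2 * (H / R)) := by
      gcongr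
    have e2 : 9 * (100 / (H : ℝ)) * (2 * (H / R)) = 1800 / R := by field_simp; norm_num
    have e3 : 9 * (100 / R) = 900 / R := by ring
    have e4 : (900 : ℝ) / R + 1800 / R + 16 / R ≤ 2718 / R := by
      rw [← add_div, ← add_div]
      gcongr
      norm_num
    linarith
  have g1 : ∀ k, |dt (E k) (nrm e w q a (L x.1) (L t) z)| ≤ 2718 * wd k * H / R := by
    intro k
    have hk1 := (hp3 k).1
    have hk2 := (hp3 k).2
    have hE1 : |E k 0| ≤ 1 := by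
      fin_cases k
      · exact hO.abs_le_one 1 0
      · exact hO.abs_le_one 2 0
    rw [hu]
    refine (nrm_near hq ha hw1 hw2 hz0 hρ hlam.le hx htS hE1
      hk1 hk2).trans ?_
    have hwk := hwd k
    have e1 : 9 * (100 * wd k) * |u - u0| ≤ 9 * (100 * wd k) * (2 * (H / R)) := by
      gcongr
    have e2 : (16 : ℝ) / R ≤ 16 * wd k * H / R := by
      have := hwdH k
      gcongr
      linarith
    have e4 : 9 * (100 * wd k * H / R) + 9 * (100 * wd k) * (2 * (H / R)) + 16 * wd k * H / R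
        ≤ 2718 * wd k * H / R := by
      have e5 : 0 ≤ wd k * H / R := by positivity
      calc _ = 2716 * (wd k * H / R) := by ring
        _ ≤ 2718 * (wd k * H / R) := by gcongr; norm_num
        _ = _ := by ring
    linarith
  intro i
  fin_cases i
  · exact g0
  · exact g1 0
  · exact g1 1

/-- the normalised difference is additive -/
theorem nrm_add (e : Fin 3 → V3) (w : V3) (q : ℝ → V3 → ℝ) (a : ℝ) (x t y : Ln4) (z : ℝ) :
    nrm e w q a x y z = nrm e w q a x t z + nrm e w q a t y z := by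
  funext k
  rw [Pi.add_apply]
  match k with
  | 0 => rw [nrm_zero, nrm_zero, nrm_zero]; ring
  | 1 => rw [nrm_one, nrm_one, nrm_one, dt_sub, dt_sub, dt_sub]; ring
  | 2 => rw [nrm_two, nrm_two, nrm_two, dt_sub, dt_sub, dt_sub]; ring

/-- neighbours stay in the doubled box -/
theorem box_nbr {e : Fin 3 → V3} {w : V3} {q : ℝ → V3 → ℝ} {a : ℝ} {x t y : Ln4} {z : ℝ} {s δ : ℝ}
    {u : V3} (hu : ∀ j, |u j| ≤ 1) (h1 : |dt u (nrm e w q a x t z)| ≤ s)
    (h2 : ∀ b, |nrm e w q a t y z b| ≤ δ) (hδ : 3 * δ ≤ s) :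
    |dt u (nrm e w q a x y z)| ≤ 2 * s := by
  rw [nrm_add e w q a x t y z, dt_add]
  have h3 := abs_dt_le hu (nrm e w q a t y z)
  have := abs_add_le (dt u (nrm e w q a x t z)) (dt u (nrm e w q a t y z))
  have := h2 0
  have := h2 1
  have := h2 2
  linarith

theorem mem_alive {I : Finset (ℕ × ℝ)} {m : ℕ} {j : ℤ} {t : ℕ} :
    t ∈ alive I m j ↔ ∃ y ∈ I, y.1 = t ∧ zc m y.2 = j := by
  classical
  unfold alive
  rw [mem_image]
  constructor
  · rintro ⟨y, hy, rfl⟩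
    rw [mem_filter] at hy
    exact ⟨y, hy.1, rfl, hy.2⟩
  · rintro ⟨y, hy, rfl, h⟩
    exact ⟨y, mem_filter.2 ⟨hy, h⟩, rfl⟩

open Classical in
/-- **from lines of a sample to ambient lines** -/
theorem sample_count (F I0 : Finset (ℕ × ℝ)) (nb : ℕ × ℝ → ℕ × ℝ → Prop) (l : ℕ) (c : ℤ)
    {K nF n0 Kc : ℝ} (hK : 0 ≤ K) (hKc : 0 ≤ Kc) (hn0 : 0 ≤ n0)
    (hlow : ∀ x ∈ F, nF ≤ K * ((F.filter fun y => y.1 = x.1 ∧ zc l y.2 = zc l x.2).card : ℝ))
    (hup : ∀ x ∈ I0, ((I0.filter fun y => y.1 = x.1 ∧ zc l y.2 = zc l x.2).card : ℝ) ≤ K * n0)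
    (hcomb : ∀ P ⊆ F, ∀ P' ⊆ I0, (∀ x ∈ P, ∀ y ∈ I0, nb x y → y ∈ P') →
      Kc * (P.card : ℝ) ≤ K * (P'.card : ℝ))
    (P T : Finset ℕ) (hP : P ⊆ alive F l c)
    (hnb : ∀ x ∈ F, zc l x.2 = c → x.1 ∈ P → ∀ y ∈ I0, nb x y → zc l y.2 = c ∧ y.1 ∈ T) :
    Kc * nF * (P.card : ℝ) ≤ K ^ 3 * n0 * (T.card : ℝ) := by
  set P1 := F.filter fun y => zc l y.2 = c ∧ y.1 ∈ P with hP1
  set P2 := I0.filter fun y => zc l y.2 = c ∧ y.1 ∈ T with hP2
  have h1 : nF * (P.card : ℝ) ≤ K * (P1.card : ℝ) := by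
    have e1 : P1.card = ∑ t ∈ P, (P1.filter fun y => y.1 = t).card :=
      card_eq_sum_card_fiberwise fun y hy => (mem_filter.1 hy).2.2
    have e2 : ∀ t ∈ P, nF ≤ K * ((P1.filter fun y => y.1 = t).card : ℝ) := by
      intro t ht
      obtain ⟨y, hy, rfl, hyc⟩ := mem_alive.1 (hP ht)
      refine (hlow y hy).trans (mul_le_mul_of_nonneg_left ?_ hK)
      refine Nat.cast_le.2 (card_le_card fun y' hy' => ?_)
      rw [mem_filter] at hy'
      rw [mem_filter, hP1, mem_filter]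
      exact ⟨⟨hy'.1, hy'.2.2.trans hyc, by rw [hy'.2.1]; exact ht⟩, hy'.2.1⟩
    calc nF * (P.card : ℝ) = ∑ _t ∈ P, nF := by rw [sum_const, nsmul_eq_mul, mul_comm]
      _ ≤ ∑ t ∈ P, K * ((P1.filter fun y => y.1 = t).card : ℝ) := sum_le_sum e2
      _ = K * (P1.card : ℝ) := by rw [← mul_sum, e1]; push_cast; rfl
  have h2 : Kc * (P1.card : ℝ) ≤ K * (P2.card : ℝ) := by
    refine hcomb P1 (filter_subset _ _) P2 (filter_subset _ _) fun x hx y hy hxy => ?_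
    rw [hP1, mem_filter] at hx
    rw [hP2, mem_filter]
    exact ⟨hy, hnb x hx.1 hx.2.1 hx.2.2 y hy hxy⟩
  have h3 : (P2.card : ℝ) ≤ K * n0 * (T.card : ℝ) := by
    have e1 : P2.card = ∑ t ∈ T, (P2.filter fun y => y.1 = t).card :=
      card_eq_sum_card_fiberwise fun y hy => (mem_filter.1 hy).2.2
    have hn : 0 ≤ K * n0 := mul_nonneg hK hn0
    have e2 : ∀ t ∈ T, ((P2.filter fun y => y.1 = t).card : ℝ) ≤ K * n0 := by
      intro t ht
      rcases (P2.filter fun y => y.1 = t).eq_empty_or_nonempty with h | ⟨y, hy⟩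
      · rw [h, card_empty, Nat.cast_zero]; exact hn
      · rw [mem_filter, hP2, mem_filter] at hy
        obtain ⟨⟨hy1, hy2, -⟩, rfl⟩ := hy
        refine le_trans (Nat.cast_le.2 (card_le_card fun y' hy' => ?_)) (hup y hy1)
        rw [mem_filter, hP2, mem_filter] at hy'
        exact mem_filter.2 ⟨hy'.1.1, hy'.2, hy'.1.2.1.trans hy2.symm⟩
    calc (P2.card : ℝ) = ∑ t ∈ T, ((P2.filter fun y => y.1 = t).card : ℝ) := by
          rw [e1]; push_cast; rfl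
      _ ≤ ∑ _t ∈ T, K * n0 := sum_le_sum e2
      _ = K * n0 * (T.card : ℝ) := by rw [sum_const, nsmul_eq_mul, mul_comm]
  calc Kc * nF * (P.card : ℝ) = Kc * (nF * (P.card : ℝ)) := by ring
    _ ≤ Kc * (K * (P1.card : ℝ)) := mul_le_mul_of_nonneg_left h1 hKc
    _ = K * (Kc * (P1.card : ℝ)) := by ring
    _ ≤ K * (K * (P2.card : ℝ)) := mul_le_mul_of_nonneg_left h2 hK
    _ ≤ K * (K * (K * n0 * (T.card : ℝ))) := by gcongr
    _ = K ^ 3 * n0 * (T.card : ℝ) := by ring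

section cont

variable {e : Fin 3 → V3} {c : Ln4} {w : V3} {q : ℝ → V3 → ℝ}
    {z0 s1 s2 m1 m2 k11 k12 k22 a Z P : ℝ}

/-- velocity of a line of the container relative to the centre -/
theorem vel_bd {t : Ln4} (ht : InSheet t e c w q a Z P) (hP : 0 ≤ P) (k : Fin 3) :
    |dt (e k) (t.v - c.v)| * P ≤ 2 * w k := by
  have h1 := (ht Z le_rfl (by linarith)).1 k
  have h2 := (ht (Z + P) (by linarith) le_rfl).1 k
  have e1 : dt (e k) (t.pos (Z + P) - c.pos (Z + P)) = dt (e k) (t.pos Z - c.pos Z) +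
      P * dt (e k) (t.v - c.v) := by
    rw [dt_sub, dt_sub, dt_sub, dt_pos, dt_pos, dt_pos, dt_pos]; ring
  rw [e1] at h2
  have e2 : |dt (e k) (t.v - c.v)| * P = |P * dt (e k) (t.v - c.v)| := by
    rw [abs_mul, abs_of_nonneg hP, mul_comm]
  rw [e2]
  have := abs_sub (dt (e k) (t.pos Z - c.pos Z) + P * dt (e k) (t.v - c.v))
    (dt (e k) (t.pos Z - c.pos Z))
  rw [add_sub_cancel_left] at this
  linarith

/-- slopes of `q` around a line of the container -/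
theorem slope_bd {κ : ℝ} (hfl : Flat κ P (w 1) (w 2) m1 m2 k11 k12 k22) (hw2 : 0 < w 2)
    (hw : w 2 ≤ w 1) {z1 b1 b2 : ℝ} (hz : |z1 - z0| ≤ P) (hb1 : |b1| ≤ w 1) (hb2 : |b2| ≤ w 2) :
    |m1 * (z1 - z0) + 2 * k11 * b1 + k12 * b2| ≤ 4 * κ ∧
    |m2 * (z1 - z0) + k12 * b1 + 2 * k22 * b2| ≤ 4 * κ := by
  have hw1 : 0 < w 1 := hw2.trans_le hw
  have hP : 0 ≤ P := (abs_nonneg _).trans hz
  have hκ : 0 ≤ κ := (mul_nonneg (abs_nonneg _) hP).trans hfl.m2
  have p1 : |m1| * P ≤ κ := by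
    have : |m1| * P * w 1 ≤ κ * w 1 := hfl.m1.trans (by gcongr)
    exact le_of_mul_le_mul_right this hw1
  have p11 : |k11| * w 1 ≤ κ := by
    have : |k11| * w 1 * w 1 ≤ κ * w 1 := by
      calc |k11| * w 1 * w 1 = |k11| * w 1 ^ 2 := by ring
        _ ≤ κ * w 2 := hfl.k11
        _ ≤ κ * w 1 := by gcongr
    exact le_of_mul_le_mul_right this hw1
  have p12 : |k12| * w 2 ≤ κ := (mul_le_mul_of_nonneg_left hw (abs_nonneg _)).trans hfl.k12
  have t1 : |m1 * (z1 - z0)| ≤ κ := by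
    rw [abs_mul]; exact (mul_le_mul_of_nonneg_left hz (abs_nonneg _)).trans p1
  have t2 : |m2 * (z1 - z0)| ≤ κ := by
    rw [abs_mul]; exact (mul_le_mul_of_nonneg_left hz (abs_nonneg _)).trans hfl.m2
  have t3 : |2 * k11 * b1| ≤ 2 * κ := by
    rw [abs_mul, abs_mul, abs_two]
    have := mul_le_mul_of_nonneg_left hb1 (abs_nonneg k11)
    linarith
  have t4 : |k12 * b2| ≤ κ := by
    rw [abs_mul]; exact (mul_le_mul_of_nonneg_left hb2 (abs_nonneg _)).trans p12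
  have t5 : |k12 * b1| ≤ κ := by
    rw [abs_mul]; exact (mul_le_mul_of_nonneg_left hb1 (abs_nonneg _)).trans hfl.k12
  have t6 : |2 * k22 * b2| ≤ 2 * κ := by
    rw [abs_mul, abs_mul, abs_two]
    have := mul_le_mul_of_nonneg_left hb2 (abs_nonneg k22)
    have := hfl.k22
    linarith
  constructor
  · refine (abs_add_le _ _).trans ?_
    have := abs_add_le (m1 * (z1 - z0)) (2 * k11 * b1)
    linarith
  · refine (abs_add_le _ _).trans ?_
    have := abs_add_le (m2 * (z1 - z0)) (k12 * b1)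
    linarith

/-- rates of the slopes along a line of the container -/
theorem rate_bd {κ : ℝ} (hfl : Flat κ P (w 1) (w 2) m1 m2 k11 k12 k22) (hw2 : 0 < w 2)
    (hw : w 2 ≤ w 1) (hP : 0 ≤ P) {v1 v2 : ℝ} (hv1 : |v1| * P ≤ 2 * w 1) (hv2 : |v2| * P ≤ 2 * w 2) :
    |m1 + 2 * k11 * v1 + k12 * v2| * P * w 1 ≤ 7 * κ * w 2 ∧
    |m2 + k12 * v1 + 2 * k22 * v2| * P ≤ 7 * κ := by
  have hw1 : 0 < w 1 := hw2.trans_le hw
  have hκ : 0 ≤ κ := (mul_nonneg (abs_nonneg _) hP).trans hfl.m2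
  constructor
  · have h1 : |m1 + 2 * k11 * v1 + k12 * v2| ≤ |m1| + 2 * |k11| * |v1| + |k12| * |v2| := by
      refine (abs_add_le _ _).trans (add_le_add ((abs_add_le _ _).trans ?_) (abs_mul _ _).le)
      rw [abs_mul, abs_mul, abs_two]
    calc |m1 + 2 * k11 * v1 + k12 * v2| * P * w 1 ≤
        (|m1| + 2 * |k11| * |v1| + |k12| * |v2|) * P * w 1 := by gcongr
      _ = |m1| * P * w 1 + 2 * |k11| * w 1 * (|v1| * P) + |k12| * w 1 * (|v2| * P) := by ring
      _ ≤ κ * w 2 + 2 * |k11| * w 1 * (2 * w 1) + |k12| * w 1 * (2 * w 2) := by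
          have := hfl.m1
          gcongr
      _ = κ * w 2 + 4 * (|k11| * w 1 ^ 2) + 2 * (|k12| * w 1) * w 2 := by ring
      _ ≤ κ * w 2 + 4 * (κ * w 2) + 2 * κ * w 2 := by
          have := hfl.k11
          have := hfl.k12
          gcongr
      _ = 7 * κ * w 2 := by ring
  · have h1 : |m2 + k12 * v1 + 2 * k22 * v2| ≤ |m2| + |k12| * |v1| + 2 * |k22| * |v2| := by
      refine (abs_add_le _ _).trans (add_le_add ((abs_add_le _ _).trans ?_) ?_)
      · rw [abs_mul]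
      · rw [abs_mul, abs_mul, abs_two]
    calc |m2 + k12 * v1 + 2 * k22 * v2| * P ≤ (|m2| + |k12| * |v1| + 2 * |k22| * |v2|) * P := by
          gcongr
      _ = |m2| * P + |k12| * (|v1| * P) + 2 * |k22| * (|v2| * P) := by ring
      _ ≤ κ + |k12| * (2 * w 1) + 2 * |k22| * (2 * w 2) := by
          have := hfl.m2
          gcongr
      _ = κ + 2 * (|k12| * w 1) + 4 * (|k22| * w 2) := by ring
      _ ≤ κ + 2 * κ + 4 * κ := by
          have := hfl.k12
          have := hfl.k22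
          gcongr
      _ = 7 * κ := by ring

end cont

end Crest.Agent.R136.End882
end

-- ▼ part R136/End8_882
section

/-!
# R136 (S0187): END, part 8 (helper882): finite form for one explicit container

`sample_planks` : number of lines of the sample in a plank.
-/

set_option autoImplicit false
set_option linter.unusedVariables false

namespace Crest.Agent.R136.End882

open Finset
open Crest.Agent.R136.LmQ861 Crest.Agent.R136.Sh605 Crest.Agent.R136.HR829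
open Crest.Agent.R138.Mk163 (zc zl rho alive own)

open Classical in
set_option maxHeartbeats 1000000 in
/-- **number of lines of the sample in a plank** -/
theorem sample_planks (F I0 : Finset (ℕ × ℝ)) (L : ℕ → Ln4) (nb : ℕ × ℝ → ℕ × ℝ → Prop)
    {e : Fin 3 → V3} {c : Ln4} {w : V3} {q : ℝ → V3 → ℝ}
    {z0 s1 s2 m1 m2 k11 k12 k22 a r0 D K nF n0 Kc R : ℝ} {Rw : ℝ → ℝ → ℝ → ℝ}
    {Cl : V3 → ℝ → Prop} {i l H : ℕ} {J0 cl : ℤ}
    (he : Ortho e) (hq : IsQ q) (hF : FQ e c q z0 s1 s2 m1 m2 k11 k12 k22)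
    (hs1 : |s1| ≤ 3 / 2) (hs2 : |s2| ≤ 3 / 2) (hz0 : zl i J0 ≤ z0) (hz1 : z0 ≤ zl i J0 + rho i)
    (ha : 0 < a) (haw : a ≤ w 2) (hw : w 2 ≤ w 1)
    (hfl : Flat (1 / 1000) (rho i) (w 1) (w 2) m1 m2 k11 k12 k22)
    (hin : ∀ x ∈ F, InSheet (L x.1) e c w q a (zl i J0) (rho i))
    (hD : 0 ≤ D) (hR0 : ∀ x y z, 0 ≤ x → 0 ≤ y → 0 ≤ z → 0 ≤ Rw x y z)
    (hRm : ∀ x y z x' y' z', 0 ≤ x → 0 ≤ y → 0 ≤ z → x ≤ x' → y ≤ y' → z ≤ z' →
      Rw x y z ≤ Rw x' y' z')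
    (hmax : DMaxK (alive I0 l cl) L (zl l cl) (rho l) D Rw r0 Cl)
    (hH : 0 < H) (hR : 0 < R) (hHR : 200000000 * (H : ℝ) ^ 2 ≤ R) (hlen : rho l * R ≤ H * rho i)
    (h01 : zl i J0 ≤ zl l cl) (h11 : zl l cl + rho l ≤ zl i J0 + rho i)
    (hK : 0 ≤ K) (hKc : 0 ≤ Kc) (hn0 : 0 ≤ n0)
    (hlow : ∀ x ∈ F, nF ≤ K * ((F.filter fun y => y.1 = x.1 ∧ zc l y.2 = zc l x.2).card : ℝ))
    (hup : ∀ x ∈ I0, ((I0.filter fun y => y.1 = x.1 ∧ zc l y.2 = zc l x.2).card : ℝ) ≤ K * n0)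
    (hcomb : ∀ P ⊆ F, ∀ P' ⊆ I0, (∀ x ∈ P, ∀ y ∈ I0, nb x y → y ∈ P') →
      Kc * (P.card : ℝ) ≤ K * (P'.card : ℝ))
    (hnb : ∀ x ∈ F, ∀ y ∈ I0, nb x y → zc l y.2 = zc l x.2 ∧
      ∀ z, zl i J0 ≤ z → z ≤ zl i J0 + rho i → ∀ b, |nrm e w q a (L x.1) (L y.1) z b| ≤ 1 / R)
    (hthin : 6 * H * a ≤ w 2) (hr : r0 * R ≤ 2718 * a)
    (hCl : ∀ A B a', 2718 / R * w 1 ≤ A → A ≤ 16308 * (H / R) * w 1 → 2718 / R * w 2 ≤ B →
      B ≤ 32616 * (H / R) * w 2 → 2718 / R * a ≤ a' → a' ≤ 32616 * (H / R) * a → Cl (wFQ A B) a')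
    {x : ℕ × ℝ} (hx : x ∈ F) (jx : ℤ)
    (hnear : ∀ z, zl l cl ≤ z → z ≤ zl l cl + rho l →
      |z - (zm i J0 + rho i / 2 * ((jx : ℝ) / R))| ≤ 2 * (rho i / 2) * H / R)
    {n : Fin 3 → ℝ} (hn : ∑ i, n i ^ 2 = 1) {E : Fin 2 → Fin 3 → ℝ}
    (hE : ∀ a b, ∑ i, E a i * E b i = if a = b then 1 else 0) (hEn : ∀ a, ∑ i, E a i * n i = 0)
    {wd : Fin 2 → ℝ} (hwd : ∀ a, 1 / (H : ℝ) ≤ wd a ∧ wd a ≤ 1) :
    Kc * nF * (((alive F l cl).filter fun t =>
      Plk (fun l => gam e c w q a (zm i J0) (rho i / 2) (L l))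
        (fun l => vel e c w q a (zm i J0) (rho i / 2) (L l)) R H n E wd (x.1, jx)
        (t, jx)).card : ℝ) ≤
      K ^ 3 * n0 * (25920 * D * (2718 ^ 3 / R ^ 3 * (wd 0 * wd 1) * (H : ℝ) ^ 2) *
        (a * w 2 * w 1 *
          Rw (326160 * (H / R) * a) (326160 * (H / R) * w 2) (326160 * (H / R) * w 1))) := by
  have hw2 : 0 < w 2 := ha.trans_le haw
  have hw1 : 0 < w 1 := hw2.trans_le hw
  have hH0 : (0 : ℝ) < H := by exact_mod_cast hH
  have hH1 : (1 : ℝ) ≤ H := by exact_mod_cast hH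
  have hρi : 0 < rho i := HR829.rho_pos i
  have hρl : 0 < rho l := HR829.rho_pos l
  have hzm : zl i J0 = zm i J0 - rho i / 2 := by unfold zm; ring
  have hρ2 : rho i = 2 * (rho i / 2) := by ring
  have hH2 : (H : ℝ) ^ 2 ≤ R := by nlinarith
  have hHR1 : (H : ℝ) ≤ H ^ 2 := by nlinarith
  set s : V3 := sPlk R H wd with hs
  have hs0 := sPlk_pos hR hH hwd
  have hsge := sPlk_ge hR hH hwd
  have hsle := sPlk_le hR hH hwd
  have hO := frm_ortho hn hE hEn
  set P := (alive F l cl).filter fun t =>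
      Plk (fun l => gam e c w q a (zm i J0) (rho i / 2) (L l))
        (fun l => vel e c w q a (zm i J0) (rho i / 2) (L l)) R H n E wd (x.1, jx)
        (t, jx) with hP
  set T := (alive I0 l cl).filter fun t => ∀ z, zl l cl ≤ z → z ≤ zl l cl + rho l → ∀ b,
      |dt (frm n E b) (nrm e w q a (L x.1) (L t) z)| ≤ (fun b => 2 * s b) b with hT
  have hcount := sample_count F I0 nb l cl hK hKc hn0 hlow hup hcomb P T (filter_subset _ _) (by
    intro x' hx' hc' hxP y hy hxy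
    obtain ⟨g1, g2⟩ := hnb x' hx' y hy hxy
    have hyc : zc l y.2 = cl := g1.trans hc'
    refine ⟨hyc, ?_⟩
    rw [hT, mem_filter]
    refine ⟨mem_alive.2 ⟨y, hy, rfl, hyc⟩, fun z h1 h2 b => ?_⟩
    rw [hP, mem_filter] at hxP
    have hb := plk_box (x := (x.1, jx)) L hq ha hw1 hw2 hzm hρ2 (by positivity) (hin x hx) hH hR
      hH2 hnear hn hE hEn hwd (hin x' hx') hxP.2 z h1 h2 b
    refine box_nbr (hO.abs_le_one b) hb (g2 z (h01.trans h1) (h2.trans h11)) ?_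
    refine le_trans ?_ (hsge b)
    rw [← mul_div_assoc, mul_one]
    gcongr
    norm_num)
  refine hcount.trans (mul_le_mul_of_nonneg_left ?_ (by positivity))
  -- D-max for the ambient lines
  set z1 := zl l cl with hz1d
  set t := rho l / rho i with ht
  have hz1b : |z1 - z0| ≤ rho i := by
    rw [abs_le]; constructor <;> linarith
  have hxS := hin x hx
  have hxk := (hxS z1 h01 (by linarith)).1
  obtain ⟨sl1, sl2⟩ := slope_bd hfl hw2 hw hz1b (hxk 1) (hxk 2)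
  obtain ⟨rt1, rt2⟩ := rate_bd hfl hw2 hw hρi.le (vel_bd hxS hρi.le 1) (vel_bd hxS hρi.le 2)
  have hF' := hF.move (L x.1) z1
  have htR : rho l ≤ H / R * rho i := by
    rw [div_mul_eq_mul_div, le_div_iff₀ hR]; linarith
  have hHRp : 0 < H / R := by positivity
  have hfin := dmaxF (alive I0 l cl) L (w := w) (a := a) (z0 := z1) (ρ := rho l) (r0 := r0)
    (n := frm n E) (s := fun b => 2 * s b) (S := 5436 * (H / R)) (σ := 5436 / R) he hq hF'
    (by
      have := abs_add_le s1 (m1 * (z1 - z0) + 2 * k11 * dt (e 1) ((L x.1).pos z1 - c.pos z1) +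
        k12 * dt (e 2) ((L x.1).pos z1 - c.pos z1))
      rw [← add_assoc, ← add_assoc] at this
      linarith)
    (by
      have := abs_add_le s2 (m2 * (z1 - z0) + k12 * dt (e 1) ((L x.1).pos z1 - c.pos z1) +
        2 * k22 * dt (e 2) ((L x.1).pos z1 - c.pos z1))
      rw [← add_assoc, ← add_assoc] at this
      linarith)
    le_rfl (by linarith) ha haw hw hD hR0 hRm hmax hO
    (fun b => by have := hs0 b; positivity)
    (fun b => by
      have := hsle b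
      calc 2 * s b ≤ 2 * (2718 * H / R) := by gcongr
        _ = 5436 * (H / R) := by ring)
    (fun b => by
      have := hsge b
      calc 5436 / R = 2 * (2718 / R) := by ring
        _ ≤ 2 * s b := by gcongr)
    (by positivity)
    (by
      calc 6 * (5436 * (H / R)) * a = 5436 / R * (6 * H * a) := by ring
        _ ≤ 5436 / R * w 2 := by gcongr)
    (by
      have e1 : 32000 * (5436 * ((H : ℝ) / R)) ^ 2 = 5436 / R * (173952000 * H ^ 2 / R) := by
        field_simp; norm_num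
      rw [e1]
      have e2 : 173952000 * (H : ℝ) ^ 2 / R ≤ 1 := by
        rw [div_le_one hR]; nlinarith
      have : 0 < 5436 / R := by positivity
      nlinarith)
    (by
      rw [← mul_assoc, ← mul_div_assoc, div_le_one hR]
      nlinarith)
    (by
      calc |m1 + 2 * k11 * dt (e 1) ((L x.1).v - c.v) + k12 * dt (e 2) ((L x.1).v - c.v)| *
            rho l * w 1 ≤
          |m1 + 2 * k11 * dt (e 1) ((L x.1).v - c.v) + k12 * dt (e 2) ((L x.1).v - c.v)| *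
            (H / R * rho i) * w 1 := by gcongr
        _ = H / R * (|m1 + 2 * k11 * dt (e 1) ((L x.1).v - c.v) +
            k12 * dt (e 2) ((L x.1).v - c.v)| * rho i * w 1) := by ring
        _ ≤ H / R * (7 * (1 / 1000) * w 2) := by gcongr
        _ ≤ 5436 * (H / R) * w 2 := by
            have : 0 < H / R * w 2 := by positivity
            nlinarith)
    (by
      calc |m2 + k12 * dt (e 1) ((L x.1).v - c.v) + 2 * k22 * dt (e 2) ((L x.1).v - c.v)| *
            rho l ≤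
          |m2 + k12 * dt (e 1) ((L x.1).v - c.v) + 2 * k22 * dt (e 2) ((L x.1).v - c.v)| *
            (H / R * rho i) := by gcongr
        _ = H / R * (|m2 + k12 * dt (e 1) ((L x.1).v - c.v) +
            2 * k22 * dt (e 2) ((L x.1).v - c.v)| * rho i) := by ring
        _ ≤ H / R * (7 * (1 / 1000)) := by gcongr
        _ ≤ 5436 * (H / R) := by nlinarith)
    (hfl.k11.trans (by linarith)) (hfl.k12.trans (by norm_num)) (hfl.k22.trans (by norm_num))
    (by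
      rw [← mul_div_assoc, le_div_iff₀ hR]
      linarith)
    (fun A B a' h1 h2 h3 h4 h5 h6 => hCl A B a'
      (by
        have e1 : 2718 / R * w 1 = 5436 / R * w 1 / 2 := by ring
        rw [e1]; linarith)
      (h2.trans (le_of_eq (by ring)))
      (by
        have e1 : 2718 / R * w 2 = 5436 / R * w 2 / 2 := by ring
        have : 0 < 5436 / R * w 2 := by positivity
        rw [e1]; linarith)
      (h4.trans (le_of_eq (by ring)))
      (by
        have e1 : 2718 / R * a = 5436 / R * a / 2 := by ring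
        rw [e1]; linarith)
      (h6.trans (le_of_eq (by ring))))
  refine hfin.trans (le_of_eq ?_)
  have e1 : (fun b => 2 * s b) 0 * (fun b => 2 * s b) 1 * (fun b => 2 * s b) 2 =
      8 * (2718 ^ 3 / R ^ 3 * (wd 0 * wd 1) * (H : ℝ) ^ 2) := by
    rw [← sPlk_prod, hs]
    ring
  have e2 : ∀ v : ℝ, 60 * (5436 * ((H : ℝ) / R)) * v = 326160 * (H / R) * v := by intro v; ring
  rw [e1, e2, e2, e2]
  ring

end Crest.Agent.R136.End882
end

-- ▼ part R136/End9_882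
section

/-!
# R136 (S0187): END, part 9 (helper882): finite form for one explicit container, final

`end_fin`.
-/

set_option autoImplicit false
set_option linter.unusedVariables false

namespace Crest.Agent.R136.End882

open Finset
open Crest.Agent.R136.LmQ861 Crest.Agent.R136.Sh605 Crest.Agent.R136.HR829
open Crest.Agent.R138.Mk163 (zc zl rho alive own)

/-- reward of a sheet of level `m` (`a` thickness, `w2` narrow, `w1` wide) -/
noncomputable def Rq (q : Fin 3 → ℝ) (m : ℕ) (a w2 w1 : ℝ) : ℝ :=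
  (a / rho m) ^ q 0 * (w1 / rho m) ^ q 1 * (w2 / rho m) ^ q 2

section

variable {q : Fin 3 → ℝ} {m : ℕ}

theorem Rq_nonneg {x y z : ℝ} (hx : 0 ≤ x) (hy : 0 ≤ y) (hz : 0 ≤ z) : 0 ≤ Rq q m x y z := by
  have := HR829.rho_pos m
  unfold Rq
  positivity

theorem Rq_pos {x y z : ℝ} (hx : 0 < x) (hy : 0 < y) (hz : 0 < z) : 0 < Rq q m x y z := by
  have := HR829.rho_pos m
  unfold Rq
  positivity

theorem Rq_mono (hq : ∀ k, 0 ≤ q k) {x y z x' y' z' : ℝ} (hx : 0 ≤ x) (hy : 0 ≤ y) (hz : 0 ≤ z)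
    (h1 : x ≤ x') (h2 : y ≤ y') (h3 : z ≤ z') : Rq q m x y z ≤ Rq q m x' y' z' := by
  have hρ := HR829.rho_pos m
  have := hq 0
  have := hq 1
  have := hq 2
  unfold Rq
  have a1 : (x / rho m) ^ q 0 ≤ (x' / rho m) ^ q 0 :=
    Real.rpow_le_rpow (by positivity) (div_le_div_of_nonneg_right h1 hρ.le) (hq 0)
  have a2 : (z / rho m) ^ q 1 ≤ (z' / rho m) ^ q 1 :=
    Real.rpow_le_rpow (by positivity) (div_le_div_of_nonneg_right h3 hρ.le) (hq 1)
  have a3 : (y / rho m) ^ q 2 ≤ (y' / rho m) ^ q 2 :=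
    Real.rpow_le_rpow (by positivity) (div_le_div_of_nonneg_right h2 hρ.le) (hq 2)
  have b1 : 0 ≤ (x / rho m) ^ q 0 := by positivity
  have b2 : 0 ≤ (z / rho m) ^ q 1 := by positivity
  have b3 : 0 ≤ (y / rho m) ^ q 2 := by positivity
  exact mul_le_mul (mul_le_mul a1 a2 b2 (b1.trans a1)) a3 b3 (mul_nonneg (b1.trans a1) (b2.trans a2))

/-- scaling of the reward -/
theorem Rq_scale {i : ℕ} {t C x y z : ℝ} (hC : 0 < C) (ht : C * rho m = t * rho i) (hti : 0 < t)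
    (hx : 0 < x) (hy : 0 < y) (hz : 0 < z) :
    Rq q m (t * x) (t * y) (t * z) = C ^ (q 0 + q 1 + q 2) * Rq q i x y z := by
  have hm := HR829.rho_pos m
  have hi := HR829.rho_pos i
  have e : ∀ v : ℝ, t * v / rho m = C * (v / rho i) := by
    intro v
    rw [mul_div_assoc', div_eq_div_iff hm.ne' hi.ne']
    calc t * v * rho i = t * rho i * v := by ring
      _ = C * rho m * v := by rw [ht]
      _ = C * v * rho m := by ring
  unfold Rq
  rw [e, e, e, Real.mul_rpow hC.le (by positivity), Real.mul_rpow hC.le (by positivity),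
    Real.mul_rpow hC.le (by positivity), Real.rpow_add hC, Real.rpow_add hC]
  ring

end

theorem Flat.mono {κ κ' ρ A B m1 m2 k11 k12 k22 : ℝ} (h : Flat κ ρ A B m1 m2 k11 k12 k22)
    (hκ : κ ≤ κ') (hB : 0 ≤ B) : Flat κ' ρ A B m1 m2 k11 k12 k22 where
  m1 := h.m1.trans (by gcongr)
  m2 := h.m2.trans hκ
  k11 := h.k11.trans (by gcongr)
  k12 := h.k12.trans hκ
  k22 := h.k22.trans hκ

theorem Flat.double {κ ρ A B m1 m2 k11 k12 k22 : ℝ} (h : Flat κ ρ A B m1 m2 k11 k12 k22)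
    (hκ : 0 ≤ κ) (hB : 0 ≤ B) : Flat (2 * κ) ρ (2 * A) (2 * B) m1 m2 k11 k12 k22 where
  m1 := by
    have := h.m1
    have h2 : 0 ≤ κ * B := mul_nonneg hκ hB
    calc |m1| * ρ * (2 * A) = 2 * (|m1| * ρ * A) := by ring
      _ ≤ 2 * (κ * B) := by linarith
      _ ≤ 2 * κ * (2 * B) := by linarith
  m2 := h.m2.trans (by linarith)
  k11 := by
    have := h.k11
    calc |k11| * (2 * A) ^ 2 = 4 * (|k11| * A ^ 2) := by ring
      _ ≤ 4 * (κ * B) := by linarith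
      _ = 2 * κ * (2 * B) := by ring
  k12 := by
    have := h.k12
    calc |k12| * (2 * A) = 2 * (|k12| * A) := by ring
      _ ≤ 2 * κ := by linarith
  k22 := by
    have := h.k22
    calc |k22| * (2 * B) = 2 * (|k22| * B) := by ring
      _ ≤ 2 * κ := by linarith

open Classical in
/-- **number of lines of the sample in the container** -/
theorem sample_lines (F I0 : Finset (ℕ × ℝ)) (L : ℕ → Ln4) (nb : ℕ × ℝ → ℕ × ℝ → Prop)
    {e : Fin 3 → V3} {c : Ln4} {w : V3} {q : ℝ → V3 → ℝ}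
    {z0 s1 s2 m1 m2 k11 k12 k22 a r0 D K nF n0 Kc : ℝ} {qq : Fin 3 → ℝ}
    {Cl : V3 → ℝ → Prop} {i : ℕ} {J0 : ℤ} (hqq : ∀ k, 0 ≤ qq k)
    (he : Ortho e) (hq : IsQ q) (hF : FQ e c q z0 s1 s2 m1 m2 k11 k12 k22)
    (hs1 : |s1| ≤ 3 / 2) (hs2 : |s2| ≤ 3 / 2) (hz0 : zl i J0 ≤ z0) (hz1 : z0 ≤ zl i J0 + rho i)
    (ha : 0 < a) (haw : a ≤ w 2) (hw : w 2 ≤ w 1)
    (hfl : Flat (1 / 2048) (rho i) (w 1) (w 2) m1 m2 k11 k12 k22)
    (hin : ∀ x ∈ F, InSheet (L x.1) e c w q a (zl i J0) (rho i))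
    (hcc : ∀ z, zl i J0 ≤ z → z ≤ zl i J0 + rho i → |q z (c.pos z)| ≤ a)
    (hD : 0 ≤ D) (hmax : DMaxK (alive I0 i J0) L (zl i J0) (rho i) D (Rq qq i) r0 Cl)
    (hK : 0 ≤ K) (hKc : 0 ≤ Kc) (hn0 : 0 ≤ n0) (hJ : ∀ x ∈ F, zc i x.2 = J0)
    (hlow : ∀ x ∈ F, nF ≤ K * ((F.filter fun y => y.1 = x.1 ∧ zc i y.2 = zc i x.2).card : ℝ))
    (hup : ∀ x ∈ I0, ((I0.filter fun y => y.1 = x.1 ∧ zc i y.2 = zc i x.2).card : ℝ) ≤ K * n0)
    (hcomb : ∀ P ⊆ F, ∀ P' ⊆ I0, (∀ x ∈ P, ∀ y ∈ I0, nb x y → y ∈ P') →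
      Kc * (P.card : ℝ) ≤ K * (P'.card : ℝ))
    (hnb : ∀ x ∈ F, ∀ y ∈ I0, nb x y → zc i y.2 = zc i x.2 ∧
      ∀ z, zl i J0 ≤ z → z ≤ zl i J0 + rho i → ∀ b, |nrm e w q a (L x.1) (L y.1) z b| ≤ 1)
    (hr : 3 * r0 ≤ a)
    (hCl : ∀ a', a ≤ 3 * a' → a' ≤ 2 * a → Cl (wFQ (2 * w 1) (2 * w 2)) a') :
    Kc * nF * ((F.image Prod.fst).card : ℝ) ≤
      K ^ 3 * n0 * (960 * 24 ^ (qq 0 + qq 1 + qq 2) * D * (a * w 2 * w 1 * Rq qq i a (w 2) (w 1))) := by
  have hw2 : 0 < w 2 := ha.trans_le haw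
  have hw1 : 0 < w 1 := hw2.trans_le hw
  have hρi : 0 < rho i := HR829.rho_pos i
  have hfl2 : Flat (1 / 1024) (rho i) (2 * w 1) (2 * w 2) m1 m2 k11 k12 k22 := by
    have := hfl.double (by norm_num) hw2.le
    norm_num at this ⊢
    exact this
  have hsh := shN_of_FQ (a := 2 * a) (A := 2 * w 1) (B := 2 * w 2) (r0 := r0) he hq hF
    (by linarith) (by linarith) hz0 hz1 (by linarith) (by linarith) (by linarith) hfl2 (by linarith)
  set ν := nuT s1 s2 with hν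
  have hν1 : 1 ≤ ν := nuT_ge _ _
  have hν6 : ν ≤ 6 := nuT_le (by linarith) (by linarith)
  have hν0 : 0 < ν := by linarith
  have h1 := hmax _ _ _ _ _ hsh.toN (hCl _ (by
      rw [← mul_div_assoc, le_div_iff₀ hν0]
      nlinarith) (div_le_self (by linarith) hν1))
  set T := (alive I0 i J0).filter fun t => InSheet (L t) (tilt e s1 s2) c (wFQ (2 * w 1) (2 * w 2))
    (fun z x => q z x / ν) (2 * a / ν) (zl i J0) (rho i) with hT
  have hcount := sample_count F I0 nb i J0 hK hKc hn0 hlow hup hcomb (F.image Prod.fst) T (by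
    intro t ht
    obtain ⟨x, hx, rfl⟩ := mem_image.1 ht
    exact mem_alive.2 ⟨x, hx, rfl, hJ x hx⟩) (by
    intro x hx hc' hxP y hy hxy
    obtain ⟨g1, g2⟩ := hnb x hx y hy hxy
    have hyc : zc i y.2 = J0 := g1.trans hc'
    refine ⟨hyc, ?_⟩
    rw [hT, mem_filter]
    refine ⟨mem_alive.2 ⟨y, hy, rfl, hyc⟩, ?_⟩
    refine mem_of_FQ hF (by linarith) (by linarith) hz0 hz1 (by linarith) (by linarith)
      (by linarith) hfl2 (fun z h1 h2 => (hcc z h1 h2).trans (by linarith)) ?_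
    intro z h1 h2
    have hx1 := (hin x hx z h1 h2).1 1
    have hx2 := (hin x hx z h1 h2).1 2
    have hx3 := (hin x hx z h1 h2).2
    have n0 := g2 z h1 h2 0
    have n1 := g2 z h1 h2 1
    have n2 := g2 z h1 h2 2
    rw [nrm_zero, abs_div, abs_of_pos ha, div_le_one ha] at n0
    rw [nrm_one, abs_div, abs_of_pos hw1, div_le_one hw1] at n1
    rw [nrm_two, abs_div, abs_of_pos hw2, div_le_one hw2] at n2
    have e1 : ∀ k, dt (e k) ((L y.1).pos z - c.pos z) =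
        dt (e k) ((L y.1).pos z - (L x.1).pos z) + dt (e k) ((L x.1).pos z - c.pos z) := by
      intro k; rw [dt_sub, dt_sub, dt_sub]; ring
    refine ⟨?_, ?_, ?_⟩
    · rw [e1]; exact (abs_add_le _ _).trans (by linarith)
    · rw [e1]; exact (abs_add_le _ _).trans (by linarith)
    · have e2 : q z ((L y.1).pos z) = (q z ((L y.1).pos z) - q z ((L x.1).pos z)) +
          q z ((L x.1).pos z) := by ring
      rw [e2]; exact (abs_add_le _ _).trans (by linarith))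
  refine hcount.trans (mul_le_mul_of_nonneg_left ?_ (by positivity))
  refine h1.trans ?_
  change D * (2 * a / ν * (10 * (2 * w 2)) * (12 * (2 * w 1)) *
    Rq qq i (2 * a / ν) (10 * (2 * w 2)) (12 * (2 * w 1))) ≤ _
  have e3 : 2 * a / ν ≤ 2 * a := div_le_self (by linarith) hν1
  have e4 : Rq qq i (2 * a / ν) (10 * (2 * w 2)) (12 * (2 * w 1)) ≤
      Rq qq i (24 * a) (24 * w 2) (24 * w 1) :=
    Rq_mono hqq (by positivity) (by positivity) (by positivity) (by linarith) (by linarith)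
      (by linarith)
  have e5 : Rq qq i (24 * a) (24 * w 2) (24 * w 1) =
      24 ^ (qq 0 + qq 1 + qq 2) * Rq qq i a (w 2) (w 1) :=
    Rq_scale (by norm_num) rfl (by norm_num) ha hw2 hw1
  rw [e5] at e4
  have e6 : 0 ≤ Rq qq i (2 * a / ν) (10 * (2 * w 2)) (12 * (2 * w 1)) :=
    Rq_nonneg (by positivity) (by positivity) (by positivity)
  calc D * (2 * a / ν * (10 * (2 * w 2)) * (12 * (2 * w 1)) *
        Rq qq i (2 * a / ν) (10 * (2 * w 2)) (12 * (2 * w 1))) ≤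
      D * (2 * a * (10 * (2 * w 2)) * (12 * (2 * w 1)) *
        (24 ^ (qq 0 + qq 1 + qq 2) * Rq qq i a (w 2) (w 1))) := by gcongr
    _ = _ := by ring

theorem rho_window {i M k : ℕ} (hk : k ≤ M) :
    rho (i + M + 1 - k) = rho i * 2 ^ k / 2 ^ (M + 1) := by
  unfold rho
  have h : (2 : ℝ) ^ (i + M + 1 - k) * 2 ^ k = 2 ^ i * 2 ^ (M + 1) := by
    rw [← pow_add, ← pow_add]; congr 1; omega
  field_simp
  linarith

open Classical in
set_option maxHeartbeats 1000000 in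
/-- **END, finite form.** -/
theorem end_fin (hKM : ∀ V : ℝ, Crest.Agent.R138.Tub70.KM32 V) {g : ℝ} (hg : 0 < g)
    {qq : Fin 3 → ℝ} (hqq : ∀ k, 0 ≤ qq k) {η₁ : ℝ} (hη₁ : 0 < η₁) :
    ∃ η κ : ℝ, ∃ M₀ : ℕ, 0 < η ∧ η ≤ η₁ ∧ η ≤ 1 / 4 ∧ 0 < κ ∧
    ∀ (F I0 : Finset (ℕ × ℝ)) (L : ℕ → Ln4) (nb : ℕ × ℝ → ℕ × ℝ → Prop)
      (e : Fin 3 → V3) (c : Ln4) (w : V3) (q : ℝ → V3 → ℝ)
      (z0 s1 s2 m1 m2 k11 k12 k22 a r0 K nn n0 Kc D : ℝ) (Cl Cl' : V3 → ℝ → Prop)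
      (i j M k : ℕ) (J0 : ℤ),
      F.Nonempty → M₀ ≤ M → η / 2 * M ≤ k → (k : ℝ) ≤ η * M → i + M + 1 ≤ j →
      1 ≤ K → K ≤ (2 : ℝ) ^ (κ * M) → 0 < nn → 0 < n0 → 0 < Kc → 0 < D →
      (∀ x ∈ F, zc i x.2 = J0) →
      Ortho e → IsQ q → FQ e c q z0 s1 s2 m1 m2 k11 k12 k22 → |s1| ≤ 3 / 2 → |s2| ≤ 3 / 2 →
      zl i J0 ≤ z0 → z0 ≤ zl i J0 + rho i → 0 < a → w 2 ≤ w 1 → 6 * 2 ^ k * a ≤ w 2 →
      Flat (1 / 2048) (rho i) (w 1) (w 2) m1 m2 k11 k12 k22 →
      (∀ x ∈ F, InSheet (L x.1) e c w q a (zl i J0) (rho i)) →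
      (∀ z, zl i J0 ≤ z → z ≤ zl i J0 + rho i → |q z (c.pos z)| ≤ a) →
      -- own counts of the sample
      (∀ x ∈ F, nn ≤ K * ((F.filter fun y => y.1 = x.1 ∧ zc i y.2 = zc i x.2).card : ℝ)) →
      (∀ x ∈ F, nn / 2 ^ (M + 1 - k) ≤ K * ((F.filter fun y => y.1 = x.1 ∧
        zc (i + M + 1 - k) y.2 = zc (i + M + 1 - k) x.2).card : ℝ)) →
      (∀ x ∈ F, ((F.filter fun y => y.1 = x.1 ∧ zc (i + M + 1) y.2 = zc (i + M + 1) x.2).card : ℝ)
        ≤ K * (nn / 2 ^ (M + 1))) →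
      -- own counts of the ambient family
      (∀ x ∈ I0, ((I0.filter fun y => y.1 = x.1 ∧ zc i y.2 = zc i x.2).card : ℝ) ≤ K * n0) →
      (∀ x ∈ I0, ((I0.filter fun y => y.1 = x.1 ∧
        zc (i + M + 1 - k) y.2 = zc (i + M + 1 - k) x.2).card : ℝ) ≤
          K * (n0 / 2 ^ (M + 1 - k))) →
      -- comb
      (∀ P ⊆ F, ∀ P' ⊆ I0, (∀ x ∈ P, ∀ y ∈ I0, nb x y → y ∈ P') →
        Kc * (P.card : ℝ) ≤ K * (P'.card : ℝ)) →
      (∀ x ∈ F, ∀ y ∈ I0, nb x y → zc (i + M + 1 - k) y.2 = zc (i + M + 1 - k) x.2 ∧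
        ∀ z, zl i J0 ≤ z → z ≤ zl i J0 + rho i →
          ∀ b, |nrm e w q a (L x.1) (L y.1) z b| ≤ 1 / 2 ^ M) →
      -- D-max
      DMaxK (alive I0 i J0) L (zl i J0) (rho i) (K * D) (Rq qq i) r0 Cl →
      (∀ a', a ≤ 3 * a' → a' ≤ 2 * a → Cl (wFQ (2 * w 1) (2 * w 2)) a') →
      (∀ cl : ℤ, DMaxK (alive I0 (i + M + 1 - k) cl) L (zl (i + M + 1 - k) cl)
        (rho (i + M + 1 - k)) (K * (D * 2 ^ (g * ((M : ℝ) + 1 - k)))) (Rq qq (i + M + 1 - k))
        r0 Cl') →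
      (∀ A B a', 2718 / 2 ^ M * w 1 ≤ A → A ≤ 16308 * (2 ^ k / 2 ^ M) * w 1 →
        2718 / 2 ^ M * w 2 ≤ B → B ≤ 32616 * (2 ^ k / 2 ^ M) * w 2 →
        2718 / 2 ^ M * a ≤ a' → a' ≤ 32616 * (2 ^ k / 2 ^ M) * a → Cl' (wFQ A B) a') →
      r0 * 2 ^ M ≤ 2718 * a → 3 * r0 ≤ a →
      -- rich
      (∀ x ∈ F, ∃ z : ℝ, zc j z = zc j x.2 ∧
        n0 / (Kc * nn) * (D * (a * w 2 * w 1 * Rq qq i a (w 2) (w 1))) *
          (2 : ℝ) ^ (-(3 - g) * M) ≤
        K * (((alive F j (zc j x.2)).filter fun t =>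
          ∀ b, |nrm e w q a (L x.1) (L t) z b| ≤ 1 / 2 / 2 ^ M).card : ℝ)) → False := by
  obtain ⟨η, κe, M₀, hη, hηη, hη1, hκe, key⟩ := end_arith hKM hg hη₁ 200000000
  set Q : ℝ := qq 0 + qq 1 + qq 2 with hQ
  have hQ0 : 0 ≤ Q := by
    have := hqq 0
    have := hqq 1
    have := hqq 2
    positivity
  set CC : ℝ := 25920 * 2 ^ g * 2718 ^ 3 * 652320 ^ Q with hCC
  have hg1 : (1 : ℝ) ≤ 2 ^ g := Real.one_le_rpow (by norm_num) hg.le
  have hQ1 : (1 : ℝ) ≤ 652320 ^ Q := Real.one_le_rpow (by norm_num) hQ0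
  have hCC1 : 1 ≤ CC := by
    rw [hCC]
    have h1 : (1 : ℝ) ≤ 25920 * 2 ^ g * 2718 ^ 3 := by nlinarith
    nlinarith
  have hCC2 : 960 * 24 ^ Q ≤ CC := by
    have h1 : (24 : ℝ) ^ Q ≤ 652320 ^ Q := Real.rpow_le_rpow (by norm_num) (by norm_num) hQ0
    rw [hCC]
    have h2 : (960 : ℝ) ≤ 25920 * 2 ^ g * 2718 ^ 3 := by nlinarith
    have h3 : (0 : ℝ) ≤ 24 ^ Q := by positivity
    exact mul_le_mul h2 h1 h3 (by positivity)
  refine ⟨η, κe / 8, max M₀ (Nat.ceil (2 * Real.logb 2 CC / κe)), hη, hηη, hη1, by positivity, ?_⟩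
  intro F I0 L nb e c w q z0 s1 s2 m1 m2 k11 k12 k22 a r0 K nn n0 Kc D Cl Cl' i j M k J0 hFne hM' hk1
    hk2 hij hK1 hK hnn hn0 hKc hD hJ he hq hF hs1 hs2 hz0 hz1 ha hw hthin hfl hin hcc hown hwin hup
    hupi hupl hcomb hnb hmaxi hCli hmaxl hCll hr0 hr3 hrich
  have hM : M₀ ≤ M := (le_max_left _ _).trans hM'
  have hMC : 2 * Real.logb 2 CC / κe ≤ M :=
    (Nat.le_ceil _).trans (by exact_mod_cast (le_max_right _ _).trans hM')
  have hCM : CC ≤ (2 : ℝ) ^ (κe / 2 * M) := by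
    rw [div_le_iff₀ hκe] at hMC
    have h1 : Real.logb 2 CC ≤ κe / 2 * M := by linarith
    exact (Real.logb_le_iff_le_rpow (by norm_num) (by linarith)).1 h1
  have hK0 : 0 < K := by linarith
  have hKe : CC * K ^ 4 ≤ (2 : ℝ) ^ (κe * M) := by
    have h4 : K ^ 4 ≤ (2 : ℝ) ^ (κe / 2 * M) := by
      calc K ^ 4 ≤ ((2 : ℝ) ^ (κe / 8 * M)) ^ 4 := by gcongr
        _ = (2 : ℝ) ^ (κe / 2 * M) := by
          rw [← Real.rpow_natCast, ← Real.rpow_mul (by norm_num)]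
          congr 1; push_cast; ring
    calc CC * K ^ 4 ≤ (2 : ℝ) ^ (κe / 2 * M) * (2 : ℝ) ^ (κe / 2 * M) := by gcongr
      _ = (2 : ℝ) ^ (κe * M) := by
        rw [← Real.rpow_add (by norm_num)]; congr 1; ring
  have hKK : K ≤ CC * K ^ 4 := by
    have h1 : K ≤ K ^ 4 := le_self_pow₀ hK1 (by norm_num)
    nlinarith [pow_pos hK0 4]
  have hKe1 : 1 ≤ CC * K ^ 4 := hK1.trans hKK
  have hkM : k ≤ M := by
    have : (k : ℝ) ≤ M := by
      have h1 : η * M ≤ 1 / 4 * M := by gcongr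
      have : (0 : ℝ) ≤ M := Nat.cast_nonneg _
      linarith
    exact_mod_cast this
  have haw : a ≤ w 2 := by
    have h1 : (1 : ℝ) ≤ 2 ^ k := one_le_pow₀ (by norm_num)
    nlinarith
  have hw2 : 0 < w 2 := ha.trans_le haw
  have hw1 : 0 < w 1 := hw2.trans_le hw
  set cost : ℝ := a * w 2 * w 1 * Rq qq i a (w 2) (w 1) with hcost
  have hcost0 : 0 < cost := by
    have := Rq_pos (q := qq) (m := i) ha hw2 hw1
    positivity
  set Dc : ℝ := n0 / (Kc * nn) * (D * cost) with hDc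
  have hDc0 : 0 < Dc := by positivity
  have hM2 : (0 : ℝ) < 2 ^ M := by positivity
  have hk0 : (0 : ℝ) < 2 ^ k := by positivity
  have hnK : ∀ (t : ℝ), 0 ≤ t → K * t ≤ CC * K ^ 4 * t := fun t ht =>
    mul_le_mul_of_nonneg_right hKK ht
  refine key F L e c w q a i j M k J0 (CC * K ^ 4) nn Dc hFne hM hk1 hk2 hij hKe1 hKe hnn hDc0 hJ hq
    ha hw1 hw2 hin ?_ ?_ ?_ ?_ ?_ ?_
  · intro x hx
    exact (hown x hx).trans (hnK _ (Nat.cast_nonneg _))
  · intro x hx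
    exact (hwin x hx).trans (hnK _ (Nat.cast_nonneg _))
  · intro x hx
    exact (hup x hx).trans (hnK _ (by positivity))
  · intro x hx
    obtain ⟨z, hz, h⟩ := hrich x hx
    exact ⟨z, hz, h.trans (hnK _ (Nat.cast_nonneg _))⟩
  · -- planks
    intro x hx y hy hbig h01 h11 hnear n hn E hE hEn wd hwd
    have hRl := rho_window (i := i) hkM
    have hρi := HR829.rho_pos i
    have hbig' : 200000000 * (((2 ^ k : ℕ) : ℝ)) ^ 2 ≤ 2 ^ M := hbig
    have hmain := sample_planks F I0 L nb (Rw := Rq qq (i + M + 1 - k)) (r0 := r0) (Cl := Cl')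
      (nF := nn / 2 ^ (M + 1 - k)) (n0 := n0 / 2 ^ (M + 1 - k)) (Kc := Kc) (K := K)
      (R := 2 ^ M) (H := 2 ^ k) he hq hF hs1 hs2 hz0 hz1 ha haw hw
      (hfl.mono (by norm_num) hw2.le) hin
      (by positivity) (fun x y z h1 h2 h3 => Rq_nonneg h1 h2 h3)
      (fun x y z x' y' z' h1 h2 h3 h4 h5 h6 => Rq_mono hqq h1 h2 h3 h4 h5 h6)
      (hmaxl (zc (i + M + 1 - k) y.2)) (by positivity) hM2 hbig'
      (by
        rw [hRl, pow_succ]
        push_cast
        have : rho i * 2 ^ k / (2 ^ M * 2) * 2 ^ M = rho i * 2 ^ k / 2 := by field_simp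
        rw [this]
        have : 0 < rho i * 2 ^ k := by positivity
        linarith)
      h01 h11 hK0.le hKc.le (by positivity) hwin hupl hcomb hnb
      (by
        push_cast
        exact hthin)
      hr0
      (by
        intro A B a' h1 h2 h3 h4 h5 h6
        push_cast at h2 h4 h6
        exact hCll A B a' h1 h2 h3 h4 h5 h6)
      hx (ix M J0 (zc (i + M + 1) x.2)) hnear hn hE hEn (wd := wd)
      (by push_cast; exact hwd)
    -- evaluate the reward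
    have hscale : Rq qq (i + M + 1 - k) (326160 * (2 ^ k / 2 ^ M) * a)
        (326160 * (2 ^ k / 2 ^ M) * w 2) (326160 * (2 ^ k / 2 ^ M) * w 1) =
        652320 ^ Q * Rq qq i a (w 2) (w 1) := by
      refine Rq_scale (by norm_num) ?_ (by positivity) ha hw2 hw1
      rw [hRl, pow_succ]
      field_simp
      norm_num
    push_cast at hmain
    rw [hscale] at hmain
    set X : ℝ := (((alive F (i + M + 1 - k) (zc (i + M + 1 - k) y.2)).filter fun t =>
          Plk (fun l => gam e c w q a (zm i J0) (rho i / 2) (L l))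
            (fun l => vel e c w q a (zm i J0) (rho i / 2) (L l)) (2 ^ M) (2 ^ k) n E wd
            (x.1, ix M J0 (zc (i + M + 1) x.2))
            (t, ix M J0 (zc (i + M + 1) x.2))).card : ℝ) with hX
    have hpow : (2 : ℝ) ^ (-(3 : ℝ) * M + g * (M - k)) = (2 : ℝ) ^ (g * ((M : ℝ) - k)) / (2 ^ M) ^ 3 := by
      rw [Real.rpow_add (by norm_num), neg_mul, Real.rpow_neg (by norm_num),
        Real.rpow_mul (by norm_num), Real.rpow_natCast]
      have : ((2 : ℝ) ^ (3 : ℝ)) ^ M = (2 ^ M) ^ 3 := by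
        rw [← pow_mul, mul_comm M 3, pow_mul]
        norm_num
      rw [this]
      ring
    have hpow2 : (2 : ℝ) ^ (g * ((M : ℝ) + 1 - k)) = 2 ^ g * 2 ^ (g * ((M : ℝ) - k)) := by
      rw [← Real.rpow_add (by norm_num)]; congr 1; ring
    rw [hpow2] at hmain
    rw [hpow]
    have hwd0 : 0 ≤ wd 0 := le_trans (by positivity) (hwd 0).1
    have hwd1 : 0 ≤ wd 1 := le_trans (by positivity) (hwd 1).1
    have hpl : (0 : ℝ) < 2 ^ (M + 1 - k) := by positivity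
    -- cancel
    have hfin : Kc * nn * X ≤ K ^ 4 * n0 * CC * (D * cost) * ((2 : ℝ) ^ (g * ((M : ℝ) - k)) /
        (2 ^ M) ^ 3) * (wd 0 * wd 1) * (2 ^ k) ^ 2 := by
      have h1 := mul_le_mul_of_nonneg_right hmain hpl.le
      have e1 : Kc * (nn / 2 ^ (M + 1 - k)) * X * 2 ^ (M + 1 - k) = Kc * nn * X := by
        field_simp
      rw [e1] at h1
      refine h1.trans (le_of_eq ?_)
      rw [hCC, hcost]
      field_simp
    have hKn : 0 < Kc * nn := by positivity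
    have e2 : CC * K ^ 4 * (Dc * ((2 : ℝ) ^ (g * ((M : ℝ) - k)) / (2 ^ M) ^ 3)) *
        (wd 0 * wd 1) * (2 ^ k) ^ 2 = (K ^ 4 * n0 * CC * (D * cost) *
        ((2 : ℝ) ^ (g * ((M : ℝ) - k)) / (2 ^ M) ^ 3) * (wd 0 * wd 1) * (2 ^ k) ^ 2) / (Kc * nn) := by
      rw [hDc]
      field_simp
    rw [e2, le_div_iff₀ hKn]
    linarith
  · -- lines
    have hM1 : (1 : ℝ) ≤ 2 ^ M := one_le_pow₀ (by norm_num)
    have h1 := sample_lines F I0 L nb (nF := nn) (n0 := n0) (Kc := Kc) (K := K) (D := K * D) hqq he hq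
      hF hs1 hs2 hz0 hz1 ha haw hw hfl hin hcc (by positivity) hmaxi hK0.le hKc.le hn0.le hJ hown
      hupi hcomb (fun x hx y hy hxy => by
        obtain ⟨g1, g2⟩ := hnb x hx y hy hxy
        refine ⟨zc_nest (by omega) g1, fun z h1 h2 b => (g2 z h1 h2 b).trans ?_⟩
        rw [div_le_one hM2]; exact hM1) hr3 hCli
    have hKn : 0 < Kc * nn := by positivity
    have e2 : CC * K ^ 4 * Dc = (K ^ 3 * n0 * (CC * (K * D) * cost)) / (Kc * nn) := by
      rw [hDc]; field_simp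
    rw [e2, le_div_iff₀ hKn]
    calc ((F.image Prod.fst).card : ℝ) * (Kc * nn) = Kc * nn * ((F.image Prod.fst).card : ℝ) := by
          ring
      _ ≤ K ^ 3 * n0 * (960 * 24 ^ Q * (K * D) * cost) := h1
      _ ≤ K ^ 3 * n0 * (CC * (K * D) * cost) := by gcongr

end Crest.Agent.R136.End882
end

-- ▼ part R136/End10_882

/-!
# R136 (S0187): END, part 10 (helper882): finite form in the gauge chart of helper186

`FQ_qf` : the function of an incidence is explicit around every true line;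
`end_chart` : END for a family of incidences which are pairwise near in one box.
-/

set_option autoImplicit false
set_option linter.unusedVariables false

namespace Crest.Agent.R136.End882

open Finset
open Crest.Agent.R136.NetQ186
open Crest.Agent.R136.GeoQ186
open Crest.Agent.R136.LmQ861 Crest.Agent.R136.HR829
open Crest.Agent.R136.Sh605 hiding frm
open Crest.Agent.R138.Mk163 (zc zl rho alive own)

/-- the standard frame -/
def std : Fin 3 → V3 := ![![1, 0, 0], ![0, 1, 0], ![0, 0, 1]]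

theorem dt_std (k : Fin 3) (x : V3) : dt (std k) x = x k := by
  fin_cases k <;> simp [std, dt]

/-- the function of an incidence around a true line, standard frame -/
theorem FQ_qf_std {g : Fin 6 → ℝ} {i j : Fq4} {t : Ln4} (h : TrueLn g j t) (z1 : ℝ) :
    FQ std t (qf g i) z1 (gA g z1 (j.pa z1) (j.pb z1) + i.fa) (gB g z1 (j.pa z1) (j.pb z1) + i.fb)
      (g 1 + 2 * g 3 * j.ca + g 4 * j.cb) (g 2 + g 4 * j.ca + 2 * g 5 * j.cb) (g 3) (g 4) (g 5) := by
  intro z x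
  obtain ⟨h0, h1, h2⟩ := h z
  simp only [dt_std, Pi.sub_apply, qf, h0, h1, h2]
  have e0 : x 1 = j.pa z + (x 1 - j.pa z) := by ring
  have e1 : x 2 = j.pb z + (x 2 - j.pb z) := by ring
  generalize hu : x 1 - j.pa z = u at e0 ⊢
  generalize hv : x 2 - j.pb z = v at e1 ⊢
  rw [e0, e1]
  simp only [gau, gA, gB, Fq4.pa, Fq4.pb]
  ring

theorem rot_std (E : ℝ) : rot std (1 / nu E) (E / nu E) = frm E := by
  funext k j
  fin_cases k <;> fin_cases j <;> simp [rot, std, frm, neg_div]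

theorem unit_nu (E : ℝ) : (1 / nu E) ^ 2 + (E / nu E) ^ 2 = 1 := by
  have h := nu_sq E
  have hp := (nu_pos E).ne'
  field_simp
  linarith

/-- coefficients of the function of an incidence in the frame `frm E` -/
structure QCo (g : Fin 6 → ℝ) (i : Fq4) (E z1 s1 s2 m1 m2 k11 k12 k22 : ℝ) : Prop where
  s1 : s1 = 1 / nu E * (gA g z1 (i.pa z1) (i.pb z1) + i.fa) +
    E / nu E * (gB g z1 (i.pa z1) (i.pb z1) + i.fb)
  s2 : s2 = -(E / nu E) * (gA g z1 (i.pa z1) (i.pb z1) + i.fa) +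
    1 / nu E * (gB g z1 (i.pa z1) (i.pb z1) + i.fb)
  m1 : m1 = 1 / nu E * (g 1 + 2 * g 3 * i.ca + g 4 * i.cb) +
    E / nu E * (g 2 + g 4 * i.ca + 2 * g 5 * i.cb)
  m2 : m2 = -(E / nu E) * (g 1 + 2 * g 3 * i.ca + g 4 * i.cb) +
    1 / nu E * (g 2 + g 4 * i.ca + 2 * g 5 * i.cb)
  k11 : k11 = (1 / nu E) ^ 2 * g 3 + 1 / nu E * (E / nu E) * g 4 + (E / nu E) ^ 2 * g 5
  k12 : k12 = -2 * (1 / nu E * (E / nu E)) * g 3 + ((1 / nu E) ^ 2 - (E / nu E) ^ 2) * g 4 +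
    2 * (1 / nu E * (E / nu E)) * g 5
  k22 : k22 = (E / nu E) ^ 2 * g 3 - 1 / nu E * (E / nu E) * g 4 + (1 / nu E) ^ 2 * g 5

theorem FQ_qf {g : Fin 6 → ℝ} {i : Fq4} {t : Ln4} (h : TrueLn g i t) {E z1 s1 s2 m1 m2 k11 k12 k22 : ℝ}
    (hc : QCo g i E z1 s1 s2 m1 m2 k11 k12 k22) :
    FQ (frm E) t (qf g i) z1 s1 s2 m1 m2 k11 k12 k22 := by
  have := (FQ_qf_std (i := i) h z1).rot (unit_nu E)
  rw [rot_std] at this
  rw [hc.s1, hc.s2, hc.m1, hc.m2, hc.k11, hc.k12, hc.k22]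
  exact this

/-- slopes at the incidence itself = true flags -/
theorem slope_qf {g : Fin 6 → ℝ} {i : Fq4} {E z1 s1 s2 m1 m2 k11 k12 k22 : ℝ}
    (hc : QCo g i E z1 s1 s2 m1 m2 k11 k12 k22)
    (hA : |gA g z1 (i.pa z1) (i.pb z1) + i.fa| ≤ 1)
    (hB : |gB g z1 (i.pa z1) (i.pb z1) + i.fb| ≤ 1) : |s1| ≤ 3 / 2 ∧ |s2| ≤ 3 / 2 := by
  set X := gA g z1 (i.pa z1) (i.pb z1) + i.fa
  set Y := gB g z1 (i.pa z1) (i.pb z1) + i.fb
  have hu := unit_nu E
  set α := 1 / nu E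
  set β := E / nu E
  have hX : X ^ 2 ≤ 1 := by rw [← sq_abs]; nlinarith [abs_nonneg X]
  have hY : Y ^ 2 ≤ 1 := by rw [← sq_abs]; nlinarith [abs_nonneg Y]
  have key : s1 ^ 2 + s2 ^ 2 ≤ 2 := by
    rw [hc.s1, hc.s2]
    have : (α * X + β * Y) ^ 2 + (-β * X + α * Y) ^ 2 = (α ^ 2 + β ^ 2) * (X ^ 2 + Y ^ 2) := by ring
    rw [this, hu]; linarith
  constructor
  · refine abs_le_of_sq_le_sq ?_ (by norm_num)
    nlinarith [sq_nonneg s2]
  · refine abs_le_of_sq_le_sq ?_ (by norm_num)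
    nlinarith [sq_nonneg s1]

/-- lateral differences of two true lines in the frame of `i` -/
theorem frm_diff {g : Fin 6 → ℝ} {i j l : Fq4} {tj tl : Ln4} (hj : TrueLn g j tj)
    (hl : TrueLn g l tl) (he : |i.e| ≤ 1) {z X Y : ℝ} (hX : |l.pa z - j.pa z| ≤ X)
    (hY : |(l.pb z - j.pb z) - i.e * (l.pa z - j.pa z)| ≤ Y) :
    |dt (frm i.e 1) (tl.pos z - tj.pos z)| ≤ 3 / 2 * X + Y ∧
    |dt (frm i.e 2) (tl.pos z - tj.pos z)| ≤ Y := by
  obtain ⟨h0, h1, h2⟩ := hj z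
  obtain ⟨g0, g1, g2⟩ := hl z
  have hn := nu_ge i.e
  have hp := nu_pos i.e
  have hs := nu_sq i.e
  have hnl := nu_le he
  set p := l.pa z - j.pa z with hpd
  set r := (l.pb z - j.pb z) - i.e * (l.pa z - j.pa z) with hrd
  rw [dt_frm1, dt_frm2]
  simp only [Pi.sub_apply, h1, h2, g1, g2]
  have hX0 : 0 ≤ X := (abs_nonneg _).trans hX
  have hY0 : 0 ≤ Y := (abs_nonneg _).trans hY
  constructor
  · have e1 : (l.pa z - j.pa z + i.e * (l.pb z - j.pb z)) / nu i.e = nu i.e * p + i.e * r / nu i.e := by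
      rw [hpd, hrd]
      field_simp
      rw [hs]; ring
    rw [e1]
    refine (abs_add_le _ _).trans (add_le_add ?_ ?_)
    · rw [abs_mul, abs_of_pos hp]
      exact mul_le_mul hnl hX (abs_nonneg _) (by norm_num)
    · rw [abs_div, abs_of_pos hp, div_le_iff₀ hp, abs_mul]
      calc |i.e| * |r| ≤ 1 * Y := mul_le_mul he hY (abs_nonneg _) (by norm_num)
        _ = Y := one_mul _
        _ ≤ Y * nu i.e := le_mul_of_one_le_right hY0 hn
  · have e1 : (l.pb z - j.pb z - i.e * (l.pa z - j.pa z)) / nu i.e = r / nu i.e := by rw [hrd]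
    rw [e1, abs_div, abs_of_pos hp, div_le_iff₀ hp]
    exact hY.trans (le_mul_of_one_le_right hY0 hn)

/-- moving inside a box, all slots scaled -/
theorem move_box {x y : Fq4} {K lam w1 w2 a : ℝ} (hlam : 0 < lam)
    (hxy : ∀ k, |coQ x y k| ≤ K * sbox lam w1 w2 a k) {z : ℝ} (hz : |z - x.z| ≤ lam) :
    |ra x y z| ≤ 2 * K * w1 ∧ |rb x y z| ≤ 2 * K * w2 ∧ |rn x y z| ≤ 3 * K * a := by
  have h := move_small (ρ := 1) hlam one_pos (by simpa using hxy) (by simpa using hz)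
  simpa using h

/-- neighbours are close over the whole cell -/
theorem nbr_nrm {g : Fin 6 → ℝ} {i x y : Fq4} {tx ty : Ln4} (hx : TrueLn g x tx)
    (hy : TrueLn g y ty) (he : |i.e| ≤ 1) {K δ lam w1 w2 a W0 : ℝ} (hK : 1 ≤ K) (hδ : 0 ≤ δ)
    (hlam : 0 < lam) (hw2 : 0 < w2) (hw : w2 ≤ w1) (ha : 0 < a)
    (hix : ∀ k, |coQ i x k| ≤ K * sbox lam w1 w2 a k)
    (hxy : ∀ k, |coQ x y k| ≤ δ * sbox lam w1 w2 a k) {z : ℝ}
    (hz : |z - x.z| ≤ lam) (k : Fin 3) :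
    |nrm (frm i.e) ![W0, 6 * K * w1, 2 * K * w2] (qf g i) (3 * K * a) tx ty z k| ≤ 3 * K * δ := by
  have hK0 : 0 < K := by linarith
  have hw1 : 0 < w1 := hw2.trans_le hw
  obtain ⟨ma, mb, mn⟩ := move_box hlam hxy hz
  have c2 : |x.e - i.e| ≤ K * (w2 / w1) := hix 2
  have c3 : |x.fb - i.fb| ≤ K * (a / w2) := hix 3
  have c4 : |coQ i x 4| ≤ K * (a / w1) := hix 4
  have hr : |(y.pb z - x.pb z) - i.e * (y.pa z - x.pa z)| ≤ 4 * K * δ * w2 := by
    have e1 : (y.pb z - x.pb z) - i.e * (y.pa z - x.pa z) = rb x y z + (x.e - i.e) * ra x y z := by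
      simp only [rb, ra]; ring
    rw [e1]
    refine (aux_a2 mb (aux_m2 c2 ma)).trans ?_
    have e2 : K * (w2 / w1) * (2 * δ * w1) = 2 * K * δ * w2 := by field_simp
    rw [e2]
    have : δ * w2 ≤ K * (δ * w2) := le_mul_of_one_le_left (by positivity) hK
    linarith
  have hfd := frm_diff (i := i) hx hy he (z := z) (X := 2 * δ * w1) ma hr
  match k with
  | 0 =>
    rw [nrm_zero, qf_line hy, qf_line hx, rn_sub, abs_div, abs_of_pos (by positivity : 0 < 3 * K * a),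
      div_le_iff₀ (by positivity)]
    have e1 : K * (w2 / w1) * (K * (a / w2)) = K ^ 2 * (a / w1) := by field_simp
    have b1 : |coQ i x 4 + (x.e - i.e) * (x.fb - i.fb)| ≤ 2 * K ^ 2 * (a / w1) := by
      refine (aux_a2 c4 (aux_m2 c2 c3)).trans ?_
      rw [e1]
      have hK2 : K ≤ K ^ 2 := by nlinarith
      have : K * (a / w1) ≤ K ^ 2 * (a / w1) := mul_le_mul_of_nonneg_right hK2 (by positivity)
      linarith
    refine (aux_a2 (aux_a2 mn (aux_m2 b1 ma)) (aux_m2 c3 mb)).trans ?_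
    have e2 : 2 * K ^ 2 * (a / w1) * (2 * δ * w1) = 4 * K ^ 2 * (δ * a) := by
      field_simp; ring
    have e3 : K * (a / w2) * (2 * δ * w2) = 2 * K * (δ * a) := by field_simp
    have e4 : 3 * K * δ * (3 * K * a) = 9 * K ^ 2 * (δ * a) := by ring
    have e5 : 3 * δ * a = 3 * (δ * a) := by ring
    rw [e2, e3, e4, e5, ← add_mul, ← add_mul]
    refine mul_le_mul_of_nonneg_right ?_ (by positivity)
    nlinarith
  | 1 =>
    rw [nrm_one]
    change |_ / (6 * K * w1)| ≤ _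
    rw [abs_div, abs_of_pos (by positivity : 0 < 6 * K * w1), div_le_iff₀ (by positivity)]
    refine hfd.1.trans ?_
    have h1 : δ * w1 ≤ K * (δ * w1) := le_mul_of_one_le_left (by positivity) hK
    have h2 : K * (δ * w2) ≤ K * (δ * w1) := by gcongr
    have h3 : K * (δ * w1) ≤ K ^ 2 * (δ * w1) := by
      have : 0 ≤ δ * w1 := by positivity
      nlinarith
    have h4 : 3 * K * δ * (6 * K * w1) = 18 * (K ^ 2 * (δ * w1)) := by ring
    rw [h4]
    have h5 : 0 ≤ K ^ 2 * (δ * w1) := by positivity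
    linarith
  | 2 =>
    rw [nrm_two]
    change |_ / (2 * K * w2)| ≤ _
    rw [abs_div, abs_of_pos (by positivity : 0 < 2 * K * w2), div_le_iff₀ (by positivity)]
    refine hfd.2.trans ?_
    have h4 : 3 * K * δ * (2 * K * w2) = 6 * K * (K * (δ * w2)) := by ring
    have h5 : 4 * K * δ * w2 = 4 * K * (δ * w2) := by ring
    rw [h4, h5]
    have h6 : δ * w2 ≤ K * (δ * w2) := le_mul_of_one_le_left (by positivity) hK
    have h7 : 0 ≤ δ * w2 := by positivity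
    nlinarith

/-- width of the chart range -/
theorem exists_W0 (F : Finset (ℕ × ℝ)) (L : ℕ → Ln4) (e : Fin 3 → V3) (c : Ln4) (z0 ρ : ℝ)
    (hρ : 0 ≤ ρ) : ∃ W : ℝ, ∀ x ∈ F, ∀ z, z0 ≤ z → z ≤ z0 + ρ →
      |dt (e 0) ((L x.1).pos z - c.pos z)| ≤ W := by
  refine ⟨∑ x ∈ F, (|dt (e 0) ((L x.1).pos z0 - c.pos z0)| + ρ * |dt (e 0) ((L x.1).v - c.v)|), ?_⟩
  intro x hx z h1 h2
  have e1 : dt (e 0) ((L x.1).pos z - c.pos z) = dt (e 0) ((L x.1).pos z0 - c.pos z0) +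
      (z - z0) * dt (e 0) ((L x.1).v - c.v) := by
    rw [dt_sub, dt_sub, dt_sub, dt_pos, dt_pos, dt_pos, dt_pos]; ring
  rw [e1]
  refine (abs_add_le _ _).trans ?_
  rw [abs_mul, abs_of_nonneg (by linarith : 0 ≤ z - z0)]
  have h3 : (z - z0) * |dt (e 0) ((L x.1).v - c.v)| ≤ ρ * |dt (e 0) ((L x.1).v - c.v)| := by
    gcongr; linarith
  have h4 := single_le_sum (f := fun x : ℕ × ℝ => |dt (e 0) ((L x.1).pos z0 - c.pos z0)| +
    ρ * |dt (e 0) ((L x.1).v - c.v)|) (fun y _ => by positivity) hx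
  linarith

end Crest.Agent.R136.End882
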