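import Crest.Agent.R136.Geo2_186

/-!
# R136: gauge algebra of the lightlike case (helper66)

`GRel s0 e0 q0 be mu dE dC dF i` : the incidence `i` (straight chart, `y2 = 0`) satisfies
`e = e0 - s0 ca`, `cb = q0 + e0 ca - s0 ca²/2`, `fb = be + mu z` up to `dE, dC, dF`.
`gg s0 e0 mu` : the gauge `-mu e0 zA + mu zB + mu s0/2 A²`.

* `slot_R`, `slot_Fb` : the slots `1` (`R`) and `3` (`F_b`) of the gauged pair are small;
* `slot_Fa`, `slot_P`, `slot_N` : exact formulas of the slots `4, 7, 10`;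
* `slot_E`, `slot_Cb` : the slots `2, 6` are functions of the slot `5`;
* `gau_box` : a box of the straight chart (exponent walls between the sides) is contained in the
  same box of the gauge chart, up to a constant;
* `box_gau` : conversely.
-/

set_option autoImplicit false
set_option linter.unusedVariables false

namespace Crest.Agent.R136.Gau66

open Crest.Agent.R136.NetQ186
open Crest.Agent.R136.Sh605
open Crest.Agent.R136.GeoQ186

/-- relations of a rigid lightlike class -/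
structure GRel (s0 e0 q0 be mu dE dC dF : ℝ) (i : Fq4) : Prop where
  str : i.y2 = 0
  hE : |i.e - (e0 - s0 * i.ca)| ≤ dE
  hC : |i.cb - (q0 + e0 * i.ca - s0 * i.ca ^ 2 / 2)| ≤ dC
  hF : |i.fb - (be + mu * i.z)| ≤ dF

/-- the gauge of a rigid lightlike class -/
noncomputable def gg (s0 e0 mu : ℝ) : Fin 6 → ℝ := ![0, -(mu * e0), mu, mu * s0 / 2, 0, 0]

section

variable {s0 e0 q0 be mu dE dC dF : ℝ} {i j : Fq4}

theorem GRel.mono {dE' dC' dF' : ℝ} (h : GRel s0 e0 q0 be mu dE dC dF i) (h1 : dE ≤ dE')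
    (h2 : dC ≤ dC') (h3 : dF ≤ dF') : GRel s0 e0 q0 be mu dE' dC' dF' i :=
  ⟨h.str, h.hE.trans h1, h.hC.trans h2, h.hF.trans h3⟩


/-- slot `R` : exact -/
theorem slot_R_eq (hi : i.y2 = 0) (hj : j.y2 = 0) :
    coQ (rg (gg s0 e0 mu) i) (rg (gg s0 e0 mu) j) 1 =
      -mu * ((j.cb - (q0 + e0 * j.ca - s0 * j.ca ^ 2 / 2)) -
        (i.cb - (q0 + e0 * i.ca - s0 * i.ca ^ 2 / 2))) := by
  obtain ⟨-, h1, -⟩ := coQ_rg (gg s0 e0 mu) i j
  rw [h1]
  simp only [gg, coQ, Matrix.cons_val, hi, hj]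
  ring

theorem slot_R (hi : GRel s0 e0 q0 be mu dE dC dF i) (hj : GRel s0 e0 q0 be mu dE dC dF j) :
    |coQ (rg (gg s0 e0 mu) i) (rg (gg s0 e0 mu) j) 1| ≤ 2 * |mu| * dC := by
  rw [slot_R_eq (q0 := q0) hi.str hj.str, abs_mul, abs_neg]
  have h := abs_sub (j.cb - (q0 + e0 * j.ca - s0 * j.ca ^ 2 / 2))
    (i.cb - (q0 + e0 * i.ca - s0 * i.ca ^ 2 / 2))
  have h1 := hi.hC
  have h2 := hj.hC
  calc |mu| * |(j.cb - (q0 + e0 * j.ca - s0 * j.ca ^ 2 / 2)) -
        (i.cb - (q0 + e0 * i.ca - s0 * i.ca ^ 2 / 2))| ≤ |mu| * (dC + dC) :=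
        mul_le_mul_of_nonneg_left (by linarith) (abs_nonneg _)
    _ = 2 * |mu| * dC := by ring

/-- slot `F_b` : exact -/
theorem slot_Fb_eq : coQ (rg (gg s0 e0 mu) i) (rg (gg s0 e0 mu) j) 3 =
    (j.fb - (be + mu * j.z)) - (i.fb - (be + mu * i.z)) := by
  obtain ⟨-, -, -, h3, -⟩ := coQ_rg (gg s0 e0 mu) i j
  rw [h3, gB_move]
  simp only [gg, coQ, Matrix.cons_val]
  ring

theorem slot_Fb (hi : GRel s0 e0 q0 be mu dE dC dF i) (hj : GRel s0 e0 q0 be mu dE dC dF j) :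
    |coQ (rg (gg s0 e0 mu) i) (rg (gg s0 e0 mu) j) 3| ≤ 2 * dF := by
  rw [slot_Fb_eq (be := be)]
  have h := abs_sub (j.fb - (be + mu * j.z)) (i.fb - (be + mu * i.z))
  have h1 := hi.hF
  have h2 := hj.hF
  linarith






/-- sides of a box of the straight chart, with the walls used by the gauge; `mu`, `s0` are at most
`D` times natural -/
structure GWall (s : Fin 11 → ℝ) (D mu s0 dE : ℝ) : Prop where
  D1 : 1 ≤ D
  pos : ∀ k, 0 ≤ s k
  hmu : |mu| * s 0 ≤ D * s 3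
  hs0 : |s0| * s 5 ≤ D * s 2
  hdE : dE ≤ D * s 2
  w4 : s 2 * s 3 ≤ D * s 4
  w8 : s 8 = s 0 * s 5
  w9 : s 9 = s 0 * s 6
  w7b : s 3 * s 6 ≤ D * s 7
  w7a : s 2 * s 3 * s 5 ≤ D * s 7
  w10 : s 2 * s 3 * s 8 ≤ D * s 10






end

end Crest.Agent.R136.Gau66
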