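import Crest.Agent.R136.Gz1_779
import Crest.Agent.R136.Gau2_66

/-!
# R136: the gauge stage (helper779)

`gauIn_of_rel` : 66's relations `GRel` with natural sizes give `GauIn`; `gauIn_flat` : `h = 0`.
`dmax_of_old` : D-max of gauge boxes from the old profile.
`exists_extG` : **RIG class + gauge ⊢ `ExtZ` in the gauge chart**, all hypotheses in profile form.
`extG_zero` : the slots `R`, `F_b` are zero slots of both profiles.
-/

set_option autoImplicit false
set_option linter.unusedSectionVars false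
set_option linter.unusedVariables false

open Filter Topology

namespace Crest.Agent.R136.Gz779

open Finset Crest.Agent.R138.Ex926 Crest.Agent.R136.Net191 Crest.Agent.R136.Qg926
open Crest.Agent.R136.NetQ186 Crest.Agent.R136.GeoQ186 Crest.Agent.R136.Zpr779
open Crest.Agent.R136.Gau66

/-- exact walls of the base exponents -/
structure TightQ (X : Fin 11 → ℝ) : Prop where
  nn : ∀ k, 0 ≤ X k
  h07 : X 0 ≤ X 7
  w4 : X 4 = X 2 + X 3
  w6 : X 6 = X 2 + X 5
  w7 : X 7 = X 4 + X 5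
  w8 : X 8 = X 0 + X 5
  w9 : X 9 = X 0 + X 6
  w10 : X 10 = X 4 + X 8

theorem legal_XG {X : ℕ → Fin 11 → ℝ} {n : ℕ} (h : TightQ (X n)) : Legal monQ (XG X n) := by
  obtain ⟨nn, h07, w4, w6, w7, w8, w9, w10⟩ := h
  have e1 : XG X n 1 = X n 7 - X n 0 := if_pos rfl
  have e0 : XG X n 0 = X n 0 := XG_of_ne (by decide)
  have e2 : XG X n 2 = X n 2 := XG_of_ne (by decide)
  have e3 : XG X n 3 = X n 3 := XG_of_ne (by decide)
  have e4 : XG X n 4 = X n 4 := XG_of_ne (by decide)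
  have e5 : XG X n 5 = X n 5 := XG_of_ne (by decide)
  have e6 : XG X n 6 = X n 6 := XG_of_ne (by decide)
  have e7 : XG X n 7 = X n 7 := XG_of_ne (by decide)
  have e8 : XG X n 8 = X n 8 := XG_of_ne (by decide)
  have e9 : XG X n 9 = X n 9 := XG_of_ne (by decide)
  have e10 : XG X n 10 = X n 10 := XG_of_ne (by decide)
  rw [legalQ_iff]
  refine ⟨fun k => ?_, ?_, ?_, ?_, ?_, ?_, ?_, ?_, ?_, ?_, ?_, ?_⟩
  · by_cases hk : k = 1
    · subst hk; rw [e1]; linarith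
    · rw [XG_of_ne hk]; exact nn k
  all_goals simp only [e0, e1, e2, e3, e4, e5, e6, e7, e8, e9, e10]; linarith

theorem legal_add_smul {m : ℕ} {M : Mons m} {p c : Fin m → ℝ} (hp : Legal M p) (hc : Legal M c)
    {t : ℝ} (ht : 0 ≤ t) : Legal M (p + t • c) where
  nonneg := fun k => add_nonneg (hp.nonneg k) (mul_nonneg ht (hc.nonneg k))
  wall := fun k e he => by
    have h1 := hp.wall k e he
    have h2 := mul_le_mul_of_nonneg_left (hc.wall k e he) ht
    have e1 : ∑ s, (e s : ℝ) * (p + t • c) s =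
        ∑ s, (e s : ℝ) * p s + t * ∑ s, (e s : ℝ) * c s := by
      rw [mul_sum, ← sum_add_distrib]
      refine sum_congr rfl fun s _ => ?_
      simp only [Pi.add_apply, Pi.smul_apply, smul_eq_mul]; ring
    rw [e1]
    simp only [Pi.add_apply, Pi.smul_apply, smul_eq_mul]
    linarith

variable {B B' : Base} {E : ℕ → Finset (ℕ × ℝ)} {F : ℕ → ℕ × ℝ → Fq4} {h : ℕ → Fin 6 → ℝ}
  {X : ℕ → Fin 11 → ℝ} {η : ℕ → ℝ} {x xF : ℝ}

/-- **66's relations with natural sizes give `GauIn`** -/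
theorem gauIn_of_rel {s0 e0 q0 be mu dE dC dF : ℕ → ℝ} (ht : ∀ n, TightQ (X n))
    (hrel : ∀ᶠ n in (U : Filter ℕ), ∀ i ∈ E n,
      GRel (s0 n) (e0 n) (q0 n) (be n) (mu n) (dE n) (dC n) (dF n) (F n i))
    (hdE0 : ∀ n, 0 ≤ dE n)
    (hmu : ∀ ε : ℝ, 0 < ε → ∀ᶠ n in (U : Filter ℕ),
      |mu n| * B.d n ^ X n 0 ≤ B'.d n ^ (-ε) * B.d n ^ X n 3)
    (hs0 : ∀ ε : ℝ, 0 < ε → ∀ᶠ n in (U : Filter ℕ),
      |s0 n| * B.d n ^ X n 5 ≤ B'.d n ^ (-ε) * B.d n ^ X n 2)
    (hdE : ∀ ε : ℝ, 0 < ε → ∀ᶠ n in (U : Filter ℕ), dE n ≤ B'.d n ^ (x - ε) * B.d n ^ X n 2)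
    (hdC : ∀ ε : ℝ, 0 < ε → ∀ᶠ n in (U : Filter ℕ), dC n ≤ B'.d n ^ (x - ε) * B.d n ^ X n 6)
    (hdF : ∀ ε : ℝ, 0 < ε → ∀ᶠ n in (U : Filter ℕ), dF n ≤ B'.d n ^ (xF - ε) * B.d n ^ X n 3) :
    GauIn B B' E F (fun n => gg (s0 n) (e0 n) (mu n)) X (fun n => |mu n| * dE n) x xF := by
  have hd : ∀ n, ∀ t : ℝ, 0 < B'.d n ^ t := fun n t => Real.rpow_pos_of_pos (B'.pos n) t
  have hB : ∀ n, ∀ t : ℝ, 0 < B.d n ^ t := fun n t => Real.rpow_pos_of_pos (B.pos n) t
  have hBa : ∀ n, ∀ s t : ℝ, B.d n ^ s * B.d n ^ t = B.d n ^ (s + t) := fun n s t =>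
    (Real.rpow_add (B.pos n) s t).symm
  have hda : ∀ n, ∀ s t : ℝ, B'.d n ^ s * B'.d n ^ t = B'.d n ^ (s + t) := fun n s t =>
    (Real.rpow_add (B'.pos n) s t).symm
  have h1ε : ∀ ε : ℝ, 0 < ε → ∀ n, 1 ≤ B'.d n ^ (-ε) := fun ε hε n =>
    Real.one_le_rpow_of_pos_of_le_one_of_nonpos (B'.pos n) (B'.lt n).le (by linarith)
  have hwall : ∀ (n : ℕ) (a b c : Fin 11), X n c = X n a + X n b → ∀ ε : ℝ, 0 < ε →
      B.d n ^ X n a * B.d n ^ X n b ≤ B'.d n ^ (-ε) * B.d n ^ X n c := by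
    intro n a b c habc ε hε
    rw [hBa, ← habc]
    exact le_mul_of_one_le_left (hB n _).le (h1ε ε hε n)
  have hwall' : ∀ (n : ℕ) (a b c : Fin 11), X n c = X n a + X n b → ∀ ε : ℝ, 0 < ε →
      B.d n ^ X n c ≤ B'.d n ^ (-ε) * (B.d n ^ X n a * B.d n ^ X n b) := by
    intro n a b c habc ε hε
    rw [hBa, ← habc]
    exact le_mul_of_one_le_left (hB n _).le (h1ε ε hε n)
  have hg2 : ∀ n, gg (s0 n) (e0 n) (mu n) 2 = mu n := fun n => rfl
  have hg3 : ∀ n, gg (s0 n) (e0 n) (mu n) 3 = mu n * s0 n / 2 := fun n => rfl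
  refine
    { h4 := fun n => rfl, h5 := fun n => rfl
      η0 := fun n => mul_nonneg (abs_nonneg _) (hdE0 n)
      tau := ?_, b2 := fun ε hε => ?_, b3 := fun ε hε => ?_, bη := fun ε hε => ?_
      s1 := fun ε hε => ?_, s3 := fun ε hε => ?_
      n6 := fun ε hε => Eventually.of_forall fun n => hwall n 3 6 7 (by
        have := ht n; linarith [this.w7, this.w4, this.w6]) ε hε
      n7 := fun ε hε => Eventually.of_forall fun n => hwall n 4 5 7 (ht n).w7 ε hε
      n8 := fun ε hε => Eventually.of_forall fun n => hwall n 0 5 8 (ht n).w8 ε hε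
      n8' := fun ε hε => Eventually.of_forall fun n => hwall' n 0 5 8 (ht n).w8 ε hε
      n9 := fun ε hε => Eventually.of_forall fun n => hwall' n 0 6 9 (ht n).w9 ε hε
      n10 := fun ε hε => Eventually.of_forall fun n => hwall n 4 8 10 (ht n).w10 ε hε }
  · filter_upwards [hrel] with n hn i hi
    have h1 := (hn i hi).hE
    have e1 : tau (gg (s0 n) (e0 n) (mu n)) (F n i) =
        mu n * ((F n i).e - (e0 n - s0 n * (F n i).ca)) := by
      simp only [tau, gg, Matrix.cons_val]; ring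
    rw [e1, abs_mul]
    exact mul_le_mul_of_nonneg_left h1 (abs_nonneg _)
  · filter_upwards [hmu ε hε] with n h1
    rw [hg2]; exact h1
  · filter_upwards [hmu (ε / 2) (by positivity), hs0 (ε / 2) (by positivity)] with n h1 h2
    have htn := ht n
    have e8 : B.d n ^ X n 8 = B.d n ^ X n 0 * B.d n ^ X n 5 := by rw [hBa, htn.w8]
    have e4 : B.d n ^ X n 4 = B.d n ^ X n 2 * B.d n ^ X n 3 := by rw [hBa, htn.w4]
    have hm := abs_nonneg (mu n)
    have hs := abs_nonneg (s0 n)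
    rw [hg3, abs_div, abs_mul, abs_of_pos (by norm_num : (0 : ℝ) < 2), e8, e4]
    calc |mu n| * |s0 n| / 2 * (B.d n ^ X n 0 * B.d n ^ X n 5)
        = ((|mu n| * B.d n ^ X n 0) * (|s0 n| * B.d n ^ X n 5)) / 2 := by ring
      _ ≤ (|mu n| * B.d n ^ X n 0) * (|s0 n| * B.d n ^ X n 5) := by
          have : 0 ≤ (|mu n| * B.d n ^ X n 0) * (|s0 n| * B.d n ^ X n 5) :=
            mul_nonneg (mul_nonneg hm (hB n _).le) (mul_nonneg hs (hB n _).le)
          linarith
      _ ≤ (B'.d n ^ (-(ε / 2)) * B.d n ^ X n 3) * (B'.d n ^ (-(ε / 2)) * B.d n ^ X n 2) :=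
          mul_le_mul h1 h2 (mul_nonneg hs (hB n _).le) (mul_nonneg (hd n _).le (hB n _).le)
      _ = (B'.d n ^ (-(ε / 2)) * B'.d n ^ (-(ε / 2))) * (B.d n ^ X n 2 * B.d n ^ X n 3) := by ring
      _ = _ := by rw [hda]; congr 2; ring
  · filter_upwards [hmu (ε / 2) (by positivity), hdE (ε / 2) (by positivity)] with n h1 h2
    have e4 : B.d n ^ X n 4 = B.d n ^ X n 2 * B.d n ^ X n 3 := by rw [hBa, (ht n).w4]
    rw [e4]
    calc |mu n| * dE n * B.d n ^ X n 0 = (|mu n| * B.d n ^ X n 0) * dE n := by ring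
      _ ≤ (B'.d n ^ (-(ε / 2)) * B.d n ^ X n 3) * (B'.d n ^ (x - ε / 2) * B.d n ^ X n 2) :=
          mul_le_mul h1 h2 (hdE0 n) (mul_nonneg (hd n _).le (hB n _).le)
      _ = (B'.d n ^ (-(ε / 2)) * B'.d n ^ (x - ε / 2)) * (B.d n ^ X n 2 * B.d n ^ X n 3) := by
          ring
      _ = _ := by rw [hda]; congr 2; ring
  · filter_upwards [hrel, hmu (ε / 3) (by positivity), hdC (ε / 3) (by positivity),
      ev_const_le B' (c := 2) (by norm_num) (ε := ε / 3) (by positivity)] with n h0 h1 h2 h3 i hi j hj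
    have e7 : B.d n ^ X n 7 = B.d n ^ X n 3 * B.d n ^ X n 6 := by
      rw [hBa]; congr 1; have := ht n; linarith [this.w7, this.w4, this.w6]
    have h4 := slot_R (h0 i hi) (h0 j hj)
    have h5 : |coG F (fun n => gg (s0 n) (e0 n) (mu n)) n i j 1| ≤ 2 * |mu n| * dC n := h4
    have hdC0 : 0 ≤ dC n := (abs_nonneg _).trans (h0 i hi).hC
    have hm := abs_nonneg (mu n)
    rw [e7]
    calc |coG F (fun n => gg (s0 n) (e0 n) (mu n)) n i j 1| * B.d n ^ X n 0
        ≤ (2 * |mu n| * dC n) * B.d n ^ X n 0 := mul_le_mul_of_nonneg_right h5 (hB n _).le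
      _ = 2 * ((|mu n| * B.d n ^ X n 0) * dC n) := by ring
      _ ≤ B'.d n ^ (-(ε / 3)) * ((B'.d n ^ (-(ε / 3)) * B.d n ^ X n 3) *
          (B'.d n ^ (x - ε / 3) * B.d n ^ X n 6)) := by
          refine mul_le_mul h3 (mul_le_mul h1 h2 hdC0 (mul_nonneg (hd n _).le (hB n _).le))
            (mul_nonneg (mul_nonneg hm (hB n _).le) hdC0) (hd n _).le
      _ = (B'.d n ^ (-(ε / 3)) * (B'.d n ^ (-(ε / 3)) * B'.d n ^ (x - ε / 3))) *
          (B.d n ^ X n 3 * B.d n ^ X n 6) := by ring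
      _ = _ := by rw [hda, hda]; congr 2; ring
  · filter_upwards [hrel, hdF (ε / 2) (by positivity),
      ev_const_le B' (c := 2) (by norm_num) (ε := ε / 2) (by positivity)] with n h0 h2 h3 i hi j hj
    have h4 := slot_Fb (h0 i hi) (h0 j hj)
    have h5 : |coG F (fun n => gg (s0 n) (e0 n) (mu n)) n i j 3| ≤ 2 * dF n := h4
    have hdF0 : 0 ≤ dF n := (abs_nonneg _).trans (h0 i hi).hF
    calc |coG F (fun n => gg (s0 n) (e0 n) (mu n)) n i j 3| ≤ 2 * dF n := h5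
      _ ≤ B'.d n ^ (-(ε / 2)) * (B'.d n ^ (xF - ε / 2) * B.d n ^ X n 3) :=
          mul_le_mul h3 h2 hdF0 (hd n _).le
      _ = (B'.d n ^ (-(ε / 2)) * B'.d n ^ (xF - ε / 2)) * B.d n ^ X n 3 := by ring
      _ = _ := by rw [hda]; congr 2; ring

/-- **no gauge** (branch `F_b` constant): `h = 0` -/
theorem gauIn_flat (ht : ∀ n, TightQ (X n))
    (hstr : ∀ᶠ n in (U : Filter ℕ), ∀ i ∈ E n, ∀ j ∈ E n, coF F n i j 1 = 0)
    (hfb : ∀ ε : ℝ, 0 < ε → ∀ᶠ n in (U : Filter ℕ), ∀ i ∈ E n, ∀ j ∈ E n,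
      |coF F n i j 3| ≤ B'.d n ^ (xF - ε) * B.d n ^ X n 3) :
    GauIn B B' E F (fun _ => 0) X (fun _ => 0) x xF := by
  have hd : ∀ n, ∀ t : ℝ, 0 < B'.d n ^ t := fun n t => Real.rpow_pos_of_pos (B'.pos n) t
  have hB : ∀ n, ∀ t : ℝ, 0 < B.d n ^ t := fun n t => Real.rpow_pos_of_pos (B.pos n) t
  have hBa : ∀ n, ∀ s t : ℝ, B.d n ^ s * B.d n ^ t = B.d n ^ (s + t) := fun n s t =>
    (Real.rpow_add (B.pos n) s t).symm
  have h1ε : ∀ ε : ℝ, 0 < ε → ∀ n, 1 ≤ B'.d n ^ (-ε) := fun ε hε n =>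
    Real.one_le_rpow_of_pos_of_le_one_of_nonpos (B'.pos n) (B'.lt n).le (by linarith)
  have hwall : ∀ (n : ℕ) (a b c : Fin 11), X n c = X n a + X n b → ∀ ε : ℝ, 0 < ε →
      B.d n ^ X n a * B.d n ^ X n b ≤ B'.d n ^ (-ε) * B.d n ^ X n c := by
    intro n a b c habc ε hε
    rw [hBa, ← habc]
    exact le_mul_of_one_le_left (hB n _).le (h1ε ε hε n)
  have hwall' : ∀ (n : ℕ) (a b c : Fin 11), X n c = X n a + X n b → ∀ ε : ℝ, 0 < ε →
      B.d n ^ X n c ≤ B'.d n ^ (-ε) * (B.d n ^ X n a * B.d n ^ X n b) := by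
    intro n a b c habc ε hε
    rw [hBa, ← habc]
    exact le_mul_of_one_le_left (hB n _).le (h1ε ε hε n)
  have hsl := fun n i j => rg_slots (h := (0 : Fin 6 → ℝ)) rfl rfl (F n i) (F n j)
  refine
    { h4 := fun n => rfl, h5 := fun n => rfl
      η0 := fun n => le_rfl
      tau := Eventually.of_forall fun n i hi => by simp [tau]
      b2 := fun ε hε => Eventually.of_forall fun n => by
        simp only [Pi.zero_apply, abs_zero, zero_mul]
        exact mul_nonneg (hd n _).le (hB n _).le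
      b3 := fun ε hε => Eventually.of_forall fun n => by
        simp only [Pi.zero_apply, abs_zero, zero_mul]
        exact mul_nonneg (hd n _).le (hB n _).le
      bη := fun ε hε => Eventually.of_forall fun n => by
        rw [zero_mul]
        exact mul_nonneg (hd n _).le (hB n _).le
      s1 := fun ε hε => ?_, s3 := fun ε hε => ?_
      n6 := fun ε hε => Eventually.of_forall fun n => hwall n 3 6 7 (by
        have := ht n; linarith [this.w7, this.w4, this.w6]) ε hε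
      n7 := fun ε hε => Eventually.of_forall fun n => hwall n 4 5 7 (ht n).w7 ε hε
      n8 := fun ε hε => Eventually.of_forall fun n => hwall n 0 5 8 (ht n).w8 ε hε
      n8' := fun ε hε => Eventually.of_forall fun n => hwall' n 0 5 8 (ht n).w8 ε hε
      n9 := fun ε hε => Eventually.of_forall fun n => hwall' n 0 6 9 (ht n).w9 ε hε
      n10 := fun ε hε => Eventually.of_forall fun n => hwall n 4 8 10 (ht n).w10 ε hε }
  · filter_upwards [hstr] with n h1 i hi j hj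
    have e1 : coG F (fun _ => (0 : Fin 6 → ℝ)) n i j 1 = coF F n i j 1 := by
      have := (hsl n i j).2.1
      simp only [tau, Pi.zero_apply, zero_mul, mul_zero, add_zero, sub_zero] at this
      exact this
    rw [e1, h1 i hi j hj, abs_zero, zero_mul]
    exact mul_nonneg (hd n _).le (hB n _).le
  · filter_upwards [hfb ε hε] with n h1 i hi j hj
    have e1 : coG F (fun _ => (0 : Fin 6 → ℝ)) n i j 3 = coF F n i j 3 := by
      have := (hsl n i j).2.2.2.1
      simp only [Pi.zero_apply, zero_mul, sub_zero] at this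
      exact this
    rw [e1]
    exact h1 i hi j hj

theorem PBox.zero (hx : 0 ≤ x) : PBox x (0 : Fin 11 → ℝ) := by
  constructor <;> simp [hx]


section Ext

variable {I₁ J₁ Cl : ℕ → Finset (ℕ × ℝ)} {co₁ : ∀ n : ℕ, ℕ × ℝ → ℕ × ℝ → Fin 11 → ℝ}
  {w : ℕ → ℝ} {D₁ P₁ : Set (Fin 11 → ℝ)} {T₁ To : ℕ → ℝ} {lam₁ own₁ : (Fin 11 → ℝ) → ℝ}
  {s₀ : ℕ → ℕ × ℝ}

/-- a set with small fibres -/
theorem card_le_fib {α β : Type*} [DecidableEq α] [DecidableEq β] (A : Finset α) (f : α → β)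
    {K : ℝ} (h : ∀ x ∈ A, ((A.filter fun y => f y = f x).card : ℝ) ≤ K) :
    (A.card : ℝ) ≤ K * (A.image f).card := by
  have h1 : (A.card : ℝ) = ∑ b ∈ A.image f, ((A.filter fun i => f i = b).card : ℝ) := by
    rw [card_eq_sum_card_image f A]; push_cast; rfl
  rw [h1]
  refine (sum_le_card_nsmul _ _ K fun b hb => ?_).trans (le_of_eq (by rw [nsmul_eq_mul, mul_comm]))
  obtain ⟨x, hx, rfl⟩ := mem_image.1 hb
  exact h x hx




end Ext

/-- own profiles: raising small slots -/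
theorem zero_slot_own {m : ℕ} {ι : ℕ → Type*} [∀ n, DecidableEq (ι n)]
    {I J : ∀ n, Finset (ι n)} {co : ∀ n, ι n → ι n → Fin m → ℝ} {M : Mons m} {C : ℝ}
    {X : ℕ → Fin m → ℝ} {w : ℕ → ℝ} {P : Set (Fin m → ℝ)} {T : ℕ → ℝ} {lam : (Fin m → ℝ) → ℝ}
    (h : ∀ n, Chart (I n) (co n) M C) (hb : ∀ n, B'.d n = B.d n ^ w n)
    (hsub : ∀ᶠ n in (U : Filter ℕ), J n ⊆ I n) (hne : ∀ᶠ n in (U : Filter ℕ), (J n).Nonempty)
    {line : ∀ n, ι n → ℕ}
    (hν : TProf B' J (fun n p x => (line n x, zlab B I co M C X w n p x)) P T lam)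
    {p q : Fin m → ℝ} (hp : p ∈ P) (hq : q ∈ P)
    (hlp : ∀ᶠ n in (U : Filter ℕ), Legal M (X n + w n • p))
    (hlq : ∀ᶠ n in (U : Filter ℕ), Legal M (X n + w n • q)) (hpq : p ≤ q)
    (hz : ∀ ε : ℝ, 0 < ε → ∀ᶠ n in (U : Filter ℕ), ∀ i ∈ J n, ∀ j ∈ J n,
      wbox B B' co X n p (cK0 M C) i j → ∀ k, p k < q k →
        |co n i j k| ≤ B'.d n ^ (-ε) * (B.d n ^ X n k * B'.d n ^ q k)) :
    lam p = lam q := by
  have hC0 := (h 0).C0
  have hK0 : 0 < cK0 M C := lt_of_lt_of_le one_pos (cK0_one hC0)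
  have hTT : ∀ ε : ℝ, 0 < ε → ∀ᶠ n in (U : Filter ℕ), T n ≤ T n * B'.d n ^ (-((0 : ℝ) + ε)) := by
    intro ε hε
    filter_upwards with n
    refine le_mul_of_one_le_right (hν.pos n).le ?_
    exact Real.one_le_rpow_of_pos_of_le_one_of_nonpos (B'.pos n) (B'.lt n).le (by linarith)
  have hd : ∀ n, ∀ t : ℝ, 0 < B'.d n ^ t := fun n t => Real.rpow_pos_of_pos (B'.pos n) t
  refine le_antisymm ?_ ?_
  · have h1 := le_net_own (B := B) (B' := B') (c := 0) hν h hb hsub hne hν hp hq hlq hTT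
      (Eventually.of_forall fun n i hi j hj he => congrArg Prod.fst he) (by
        intro ε hε
        filter_upwards [hz ε hε, hsub, hlp, ev_const_le B' hK0 hε] with n a1 a2 a3 a4 i hi j hj he k
        have h2 := wbox_of_zlab (B' := B') h hb a3 (a2 hi) (a2 hj) (congrArg Prod.snd he)
        rcases (hpq k).lt_or_eq with hk | hk
        · exact a1 i hi j hj h2 k hk
        · rw [← hk]
          exact (h2 k).trans (mul_le_mul_of_nonneg_right a4 (wside_pos B B' X n p k).le))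
    linarith
  · have h1 := le_net_own (B := B) (B' := B') (c := 0) hν h hb hsub hne hν hq hp hlp hTT
      (Eventually.of_forall fun n i hi j hj he => congrArg Prod.fst he) (by
        intro ε hε
        filter_upwards [hsub, hlq, ev_const_le B' hK0 hε] with n a2 a3 a4 i hi j hj he k
        have h2 := wbox_of_zlab (B' := B') h hb a3 (a2 hi) (a2 hj) (congrArg Prod.snd he)
        refine (h2 k).trans ?_
        refine mul_le_mul a4 ?_ (wside_pos B B' X n q k).le (hd n _).le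
        refine mul_le_mul_of_nonneg_left ?_ (Real.rpow_nonneg (B.pos n).le _)
        exact Real.rpow_le_rpow_of_exponent_ge (B'.pos n) (B'.lt n).le (hpq k))
    linarith


end Crest.Agent.R136.Gz779
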