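import Crest.Agent.R136.End10_882
import Crest.Agent.R136.Gz2_779
import Crest.Agent.R136.Geo3_186

-- ▼ part R136/End11_882
section

/-!
# R136 (S0187): END, part 11 (helper882): `end_chart`
-/

set_option autoImplicit false
set_option linter.unusedVariables false

namespace Crest.Agent.R136.End882

open Finset
open Crest.Agent.R136.NetQ186
open Crest.Agent.R136.GeoQ186
open Crest.Agent.R136.LmQ861 Crest.Agent.R136.HR829
open Crest.Agent.R136.Sh605 hiding frm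
open Crest.Agent.R138.Mk163 (zc zl rho alive own)

theorem DMaxK.mono {ι : Type} {A : Finset ι} {L : ι → Ln4} {z0 ρ D D' : ℝ} {qq : Fin 3 → ℝ}
    {m : ℕ} {r0 : ℝ} {Cl : V3 → ℝ → Prop} (h : DMaxK A L z0 ρ D (Rq qq m) r0 Cl) (hr0 : 0 < r0)
    (hD : D ≤ D') : DMaxK A L z0 ρ D' (Rq qq m) r0 Cl := by
  intro e c w q a hS hC
  refine (h e c w q a hS hC).trans ?_
  have ha : 0 < a := hr0.trans_le hS.r0_le
  have hw2 : 0 < w 2 := ha.trans_le hS.a_le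
  have hw1 : 0 < w 1 := hw2.trans_le hS.w_le
  have := Rq_pos (q := qq) (m := m) ha hw2 hw1
  exact mul_le_mul_of_nonneg_right hD (by positivity)

/-- powers of the loss -/
theorem pow_loss {C : ℝ} (hC : 1 ≤ C) {κe : ℝ} (hκe : 0 < κe) {B : ℕ} (hB : 0 < B) :
    ∃ κ : ℝ, ∃ M₁ : ℕ, 0 < κ ∧ ∀ (K : ℝ) (M : ℕ), M₁ ≤ M → 1 ≤ K → K ≤ (2 : ℝ) ^ (κ * M) →
      C * K ^ B ≤ (2 : ℝ) ^ (κe * M) := by
  have hB0 : (0 : ℝ) < B := by exact_mod_cast hB
  refine ⟨κe / (2 * B), Nat.ceil (2 * Real.logb 2 C / κe), by positivity, ?_⟩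
  intro K M hM hK1 hK
  have hMC : 2 * Real.logb 2 C / κe ≤ M := (Nat.le_ceil _).trans (by exact_mod_cast hM)
  have hCM : C ≤ (2 : ℝ) ^ (κe / 2 * M) := by
    rw [div_le_iff₀ hκe] at hMC
    have h1 : Real.logb 2 C ≤ κe / 2 * M := by linarith
    exact (Real.logb_le_iff_le_rpow (by norm_num) (by linarith)).1 h1
  have h4 : K ^ B ≤ (2 : ℝ) ^ (κe / 2 * M) := by
    calc K ^ B ≤ ((2 : ℝ) ^ (κe / (2 * B) * M)) ^ B := by gcongr
      _ = (2 : ℝ) ^ (κe / 2 * M) := by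
        rw [← Real.rpow_natCast, ← Real.rpow_mul (by norm_num)]
        congr 1; field_simp
  calc C * K ^ B ≤ (2 : ℝ) ^ (κe / 2 * M) * (2 : ℝ) ^ (κe / 2 * M) := by gcongr
    _ = (2 : ℝ) ^ (κe * M) := by
      rw [← Real.rpow_add (by norm_num)]; congr 1; ring

open Classical in
/-- lines of a class of incidences in one cell -/
theorem class_lines (G : Finset (ℕ × ℝ)) (j : ℕ) (cj : ℤ) (hG : ∀ y ∈ G, zc j y.2 = cj) {N : ℝ}
    (hN : ∀ y ∈ G, ((G.filter fun y' => y'.1 = y.1 ∧ zc j y'.2 = zc j y.2).card : ℝ) ≤ N) :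
    (G.card : ℝ) ≤ N * ((G.image Prod.fst).card : ℝ) := by
  have e1 : G.card = ∑ t ∈ G.image Prod.fst, (G.filter fun y => y.1 = t).card :=
    card_eq_sum_card_fiberwise fun y hy => mem_image_of_mem _ hy
  have e2 : ∀ t ∈ G.image Prod.fst, ((G.filter fun y => y.1 = t).card : ℝ) ≤ N := by
    intro t ht
    obtain ⟨y, hy, rfl⟩ := mem_image.1 ht
    refine le_trans (Nat.cast_le.2 (card_le_card fun y' hy' => ?_)) (hN y hy)
    rw [mem_filter] at hy' ⊢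
    exact ⟨hy'.1, hy'.2, (hG y' hy'.1).trans (hG y hy).symm⟩
  rw [e1]
  push_cast
  calc ∑ t ∈ G.image Prod.fst, ((G.filter fun y => y.1 = t).card : ℝ) ≤
      ∑ _t ∈ G.image Prod.fst, N := sum_le_sum e2
    _ = N * ((G.image Prod.fst).card : ℝ) := by rw [sum_const, nsmul_eq_mul, mul_comm]

theorem fin_cancel {x : ℝ} (hx : x ≠ 0) (A P1 P2 N : ℝ) :
    A * P1 / x * (P2 * x * N) = A * (P1 * P2) * N := by
  field_simp

open Classical in
set_option maxHeartbeats 4000000 in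
/-- **END in the gauge chart.** -/
theorem end_chart (hKM : ∀ V : ℝ, Crest.Agent.R138.Tub70.KM32 V) {g : ℝ} (hg : 0 < g)
    {qq : Fin 3 → ℝ} (hqq : ∀ k, 0 ≤ qq k) {η₁ : ℝ} (hη₁ : 0 < η₁) :
    ∃ η κ : ℝ, ∃ M₀ : ℕ, 0 < η ∧ η ≤ η₁ ∧ η ≤ 1 / 4 ∧ 0 < κ ∧
    ∀ (F I0 : Finset (ℕ × ℝ)) (L : ℕ → Ln4) (nb rc : ℕ × ℝ → ℕ × ℝ → Prop) (gg : Fin 6 → ℝ)
      (f : ℕ × ℝ → Fq4) (w1 w2 a r0 K Kp δ ρ nn n0 Kc D Tr : ℝ) (Cl Cl' : V3 → ℝ → Prop)
      (i j M k : ℕ) (J0 : ℤ) (i0 : ℕ × ℝ),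
      i0 ∈ F → M₀ ≤ M → η / 2 * M ≤ k → (k : ℝ) ≤ η * M → i + M + 1 ≤ j →
      1 ≤ Kp → Kp ≤ K → K ≤ (2 : ℝ) ^ (κ * M) → 0 ≤ δ → 3 * Kp * δ * 2 ^ M ≤ 1 → 0 < ρ →
      6 * Kp ^ 2 * ρ * 2 ^ M ≤ 1 → 0 < nn → 0 < n0 → 0 < Kc → 0 < D → 0 < r0 →
      (∀ x ∈ F, zc i x.2 = J0) →
      (∀ x ∈ F, TrueLn gg (f x) (L x.1) ∧ (f x).z = x.2 ∧ |(f x).e| ≤ 1) →
      (∀ y ∈ I0, TrueLn gg (f y) (L y.1)) →
      |gA gg i0.2 ((f i0).pa i0.2) ((f i0).pb i0.2) + (f i0).fa| ≤ 1 →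
      |gB gg i0.2 ((f i0).pa i0.2) ((f i0).pb i0.2) + (f i0).fb| ≤ 1 →
      0 < a → w2 ≤ w1 → 9 * 2 ^ k * a ≤ w2 →
      (∀ s1 s2 m1 m2 k11 k12 k22 : ℝ, QCo gg (f i0) (f i0).e i0.2 s1 s2 m1 m2 k11 k12 k22 →
        Flat (1 / 2048) (rho i) (6 * Kp * w1) (2 * Kp * w2) m1 m2 k11 k12 k22) →
      (∀ x ∈ F, ∀ y ∈ F, ∀ s, |coQ (f x) (f y) s| ≤ Kp * sbox (rho i) w1 w2 a s) →
      -- own counts of the sample
      (∀ x ∈ F, nn ≤ K * ((F.filter fun y => y.1 = x.1 ∧ zc i y.2 = zc i x.2).card : ℝ)) →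
      (∀ x ∈ F, nn / 2 ^ (M + 1 - k) ≤ K * ((F.filter fun y => y.1 = x.1 ∧
        zc (i + M + 1 - k) y.2 = zc (i + M + 1 - k) x.2).card : ℝ)) →
      (∀ x ∈ F, ((F.filter fun y => y.1 = x.1 ∧ zc (i + M + 1) y.2 = zc (i + M + 1) x.2).card : ℝ)
        ≤ K * (nn / 2 ^ (M + 1))) →
      (∀ x ∈ F, ((F.filter fun y => y.1 = x.1 ∧ zc j y.2 = zc j x.2).card : ℝ)
        ≤ K * (nn / 2 ^ (j - i))) →
      -- own counts of the ambient family
      (∀ x ∈ I0, ((I0.filter fun y => y.1 = x.1 ∧ zc i y.2 = zc i x.2).card : ℝ) ≤ K * n0) →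
      (∀ x ∈ I0, ((I0.filter fun y => y.1 = x.1 ∧
        zc (i + M + 1 - k) y.2 = zc (i + M + 1 - k) x.2).card : ℝ) ≤
          K * (n0 / 2 ^ (M + 1 - k))) →
      -- comb
      (∀ P ⊆ F, ∀ P' ⊆ I0, (∀ x ∈ P, ∀ y ∈ I0, nb x y → y ∈ P') →
        Kc * (P.card : ℝ) ≤ K * (P'.card : ℝ)) →
      (∀ x ∈ F, ∀ y ∈ I0, nb x y → zc (i + M + 1 - k) y.2 = zc (i + M + 1 - k) x.2 ∧
        ∀ s, |coQ (f x) (f y) s| ≤ δ * sbox (rho i) w1 w2 a s) →
      -- D-max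
      DMaxK (alive I0 i J0) L (zl i J0) (rho i) (K * D) (Rq qq i) r0 Cl →
      (∀ A B a', w1 ≤ A → A ≤ 12 * K * w1 → w2 ≤ B → B ≤ 4 * K * w2 → a ≤ a' → a' ≤ 6 * K * a →
        Cl (wFQ A B) a') →
      (∀ cl : ℤ, DMaxK (alive I0 (i + M + 1 - k) cl) L (zl (i + M + 1 - k) cl)
        (rho (i + M + 1 - k)) (K * (D * 2 ^ (g * ((M : ℝ) + 1 - k)))) (Rq qq (i + M + 1 - k))
        r0 Cl') →
      (∀ A B a', w1 / 2 ^ M ≤ A → A ≤ 100000 * K * (2 ^ k / 2 ^ M) * w1 →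
        w2 / 2 ^ M ≤ B → B ≤ 100000 * K * (2 ^ k / 2 ^ M) * w2 →
        a / 2 ^ M ≤ a' → a' ≤ 100000 * K * (2 ^ k / 2 ^ M) * a → Cl' (wFQ A B) a') →
      r0 * 2 ^ M ≤ a →
      -- record
      (∀ x ∈ F, Tr ≤ K * ((F.filter fun y => rc x y).card : ℝ)) →
      (∀ x ∈ F, ∀ y ∈ F, rc x y → zc j y.2 = zc j x.2 ∧
        ∀ s, |coQ (f x) (f y) s| ≤ Kp * sbox (ρ * rho i) (ρ * w1) (ρ * w2) (ρ * a) s) →
      n0 * (D * (a * w2 * w1 * Rq qq i a w2 w1)) * (2 : ℝ) ^ (-(3 - g) * M) ≤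
        K * (Kc * (Tr * 2 ^ (j - i))) → False := by
  obtain ⟨η, κe, M₀, hη, hηη, hη1, hκe, key⟩ := end_fin hKM hg hqq hη₁
  set Q : ℝ := qq 0 + qq 1 + qq 2 with hQ
  have hQ0 : 0 ≤ Q := by
    have := hqq 0
    have := hqq 1
    have := hqq 2
    positivity
  set CC : ℝ := 36 * 6 ^ Q with hCC
  have h6Q : (1 : ℝ) ≤ 6 ^ Q := Real.one_le_rpow (by norm_num) hQ0
  have hCC1 : 1 ≤ CC := by rw [hCC]; linarith
  set B : ℕ := 7 + Nat.ceil Q with hBd
  obtain ⟨κ, M₁, hκ, hpow⟩ := pow_loss hCC1 hκe (B := B) (by omega)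
  refine ⟨η, κ, max M₀ M₁, hη, hηη, hη1, hκ, ?_⟩
  intro F I0 L nb rc gg f w1 w2 a r0 K Kp δ ρ nn n0 Kc D Tr Cl Cl' i j M k J0 i0 hi0 hM' hk1 hk2 hij
    hp1 hpK hK hδ hδM hρ hρM hnn hn0 hKc hD hr0p hJ htl htl0 hFa hFb ha hw hthin hflat hnear hown hwin
    hup hupj hupi hupl hcomb hnb hmaxi hCli hmaxl hCll hr0 hTr hrc hrecd
  have hM : M₀ ≤ M := (le_max_left _ _).trans hM'
  have hM1 : M₁ ≤ M := (le_max_right _ _).trans hM'
  have hK1 : 1 ≤ K := hp1.trans hpK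
  have hKe := hpow K M hM1 hK1 hK
  have hK0 : 0 < K := by linarith
  have hp0 : 0 < Kp := by linarith
  set Kf : ℝ := CC * K ^ B with hKf
  have hKB : ∀ b : ℕ, b ≤ B → K ^ b ≤ Kf := by
    intro b hb
    calc K ^ b ≤ K ^ B := pow_le_pow_right₀ hK1 hb
      _ ≤ CC * K ^ B := le_mul_of_one_le_left (by positivity) hCC1
  have hKKf : K ≤ Kf := by simpa using hKB 1 (by omega)
  have hKf1 : 1 ≤ Kf := hK1.trans hKKf
  have hM2 : (0 : ℝ) < 2 ^ M := by positivity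
  have hk0 : (0 : ℝ) < 2 ^ k := by positivity
  have hk1' : (1 : ℝ) ≤ 2 ^ k := one_le_pow₀ (by norm_num)
  have hM1' : (1 : ℝ) ≤ 2 ^ M := one_le_pow₀ (by norm_num)
  have haw : a ≤ w2 := by nlinarith
  have hw2 : 0 < w2 := ha.trans_le haw
  have hw1 : 0 < w1 := hw2.trans_le hw
  have hρi := HR829.rho_pos i
  obtain ⟨hti0, hzi0, hei0⟩ := htl i0 hi0
  have hcell : ∀ x ∈ F, ∀ z, zl i J0 ≤ z → z ≤ zl i J0 + rho i → |z - (f x).z| ≤ rho i := by
    intro x hx z h1 h2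
    have h3 := HR829.zc_mem i x.2
    rw [hJ x hx] at h3
    rw [(htl x hx).2.1, abs_le]
    constructor <;> linarith [h3.1, h3.2]
  obtain ⟨W0, hW0⟩ := exists_W0 F L (GeoQ186.frm (f i0).e) (L i0.1) (zl i J0) (rho i) hρi.le
  -- coefficients
  set q : ℝ → V3 → ℝ := qf gg (f i0) with hqd
  have hco : QCo gg (f i0) (f i0).e i0.2 _ _ _ _ _ _ _ := ⟨rfl, rfl, rfl, rfl, rfl, rfl, rfl⟩
  have hFQ := FQ_qf hti0 hco
  obtain ⟨hs1, hs2⟩ := slope_qf hco hFa hFb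
  have hfl := hflat _ _ _ _ _ _ _ hco
  have hin : ∀ x ∈ F, InSheet (L x.1) (GeoQ186.frm (f i0).e) (L i0.1)
      ![W0, 6 * Kp * w1, 2 * Kp * w2] q (3 * Kp * a) (zl i J0) (rho i) := by
    intro x hx z h1 h2
    obtain ⟨ma, mb, mn⟩ := move_box hρi (hnear i0 hi0 x hx) (hcell i0 hi0 z h1 h2)
    have hfd := frm_diff (i := f i0) hti0 (htl x hx).1 hei0 (z := z) ma mb
    refine ⟨?_, ?_⟩
    · intro b
      fin_cases b
      · exact hW0 x hx z h1 h2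
      · refine hfd.1.trans ?_
        change 3 / 2 * (2 * Kp * w1) + 2 * Kp * w2 ≤ 6 * Kp * w1
        have : Kp * w2 ≤ Kp * w1 := mul_le_mul_of_nonneg_left hw hp0.le
        nlinarith
      · exact hfd.2
    · rw [hqd, qf_line (htl x hx).1]
      exact mn
  have hcost : 3 * Kp * a * (2 * Kp * w2) * (6 * Kp * w1) *
      Rq qq i (3 * Kp * a) (2 * Kp * w2) (6 * Kp * w1) ≤
      CC * K ^ (3 + Nat.ceil Q) * (a * w2 * w1 * Rq qq i a w2 w1) := by
    have e0 : 3 * Kp * a * (2 * Kp * w2) * (6 * Kp * w1) *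
        Rq qq i (3 * Kp * a) (2 * Kp * w2) (6 * Kp * w1) ≤
        3 * K * a * (2 * K * w2) * (6 * K * w1) * Rq qq i (3 * K * a) (2 * K * w2) (6 * K * w1) := by
      have r1 : Rq qq i (3 * Kp * a) (2 * Kp * w2) (6 * Kp * w1) ≤
          Rq qq i (3 * K * a) (2 * K * w2) (6 * K * w1) :=
        Rq_mono hqq (by positivity) (by positivity) (by positivity) (by gcongr) (by gcongr)
          (by gcongr)
      have r2 := Rq_pos (q := qq) (m := i) (x := 3 * Kp * a) (y := 2 * Kp * w2)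
        (z := 6 * Kp * w1) (by positivity) (by positivity) (by positivity)
      exact mul_le_mul (by gcongr) r1 r2.le (by positivity)
    refine e0.trans ?_
    have e1 : Rq qq i (3 * K * a) (2 * K * w2) (6 * K * w1) ≤
        Rq qq i (6 * K * a) (6 * K * w2) (6 * K * w1) :=
      Rq_mono hqq (by positivity) (by positivity) (by positivity)
        (by have : 0 < K * a := by positivity
            linarith)
        (by have : 0 < K * w2 := by positivity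
            linarith) le_rfl
    have e2 : Rq qq i (6 * K * a) (6 * K * w2) (6 * K * w1) =
        (6 * K) ^ Q * Rq qq i a w2 w1 := Rq_scale (by positivity) rfl (by positivity) ha hw2 hw1
    have e3 : (6 * K) ^ Q ≤ 6 ^ Q * K ^ (Nat.ceil Q) := by
      rw [Real.mul_rpow (by norm_num) hK0.le]
      refine mul_le_mul_of_nonneg_left ?_ (by positivity)
      rw [← Real.rpow_natCast]
      exact Real.rpow_le_rpow_of_exponent_le hK1 (Nat.le_ceil _)
    have e4 := Rq_pos (q := qq) (m := i) ha hw2 hw1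
    calc 3 * K * a * (2 * K * w2) * (6 * K * w1) * Rq qq i (3 * K * a) (2 * K * w2) (6 * K * w1) ≤
        3 * K * a * (2 * K * w2) * (6 * K * w1) * (6 ^ Q * K ^ (Nat.ceil Q) * Rq qq i a w2 w1) := by
          refine mul_le_mul_of_nonneg_left (e1.trans ?_) (by positivity)
          rw [e2]
          exact mul_le_mul_of_nonneg_right e3 e4.le
      _ = CC * K ^ (3 + Nat.ceil Q) * (a * w2 * w1 * Rq qq i a w2 w1) := by
          rw [hCC, pow_add]; ring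
  have hnK : ∀ (t : ℝ), 0 ≤ t → K * t ≤ Kf * t := fun t ht =>
    mul_le_mul_of_nonneg_right hKKf ht
  have hzi := HR829.zc_mem i i0.2
  rw [hJ i0 hi0] at hzi
  refine key F I0 L nb (GeoQ186.frm (f i0).e) (L i0.1) ![W0, 6 * Kp * w1, 2 * Kp * w2] q i0.2 _ _ _
    _ _ _ _ (3 * Kp * a) r0 Kf nn n0 Kc D Cl Cl' i j M k J0 ⟨i0, hi0⟩ hM hk1 hk2 hij hKf1 hKe hnn hn0
    hKc hD hJ (frm_ortho _) (qf_isQ _ _) hFQ hs1 hs2 hzi.1 hzi.2.le (by positivity) ?_ ?_ hfl hin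
    ?_ ?_ ?_ ?_ ?_ ?_ ?_ ?_ ?_ ?_ ?_ ?_ ?_ ?_ ?_
  · change 2 * Kp * w2 ≤ 6 * Kp * w1
    have : Kp * w2 ≤ Kp * w1 := mul_le_mul_of_nonneg_left hw hp0.le
    nlinarith
  · change 6 * 2 ^ k * (3 * Kp * a) ≤ 2 * Kp * w2
    nlinarith
  · intro z _ _
    have : q z ((L i0.1).pos z) = 0 := by
      rw [hqd, qf_line hti0]
      simp [rn]
    rw [this, abs_zero]; positivity
  · intro x hx
    exact (hown x hx).trans (hnK _ (Nat.cast_nonneg _))
  · intro x hx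
    exact (hwin x hx).trans (hnK _ (Nat.cast_nonneg _))
  · intro x hx
    exact (hup x hx).trans (hnK _ (by positivity))
  · intro x hx
    exact (hupi x hx).trans (hnK _ hn0.le)
  · intro x hx
    exact (hupl x hx).trans (hnK _ (by positivity))
  · intro P hP P' hP' h
    exact (hcomb P hP P' hP' h).trans (hnK _ (Nat.cast_nonneg _))
  · intro x hx y hy hxy
    obtain ⟨g1, g2⟩ := hnb x hx y hy hxy
    refine ⟨g1, fun z h1 h2 b => ?_⟩
    refine (nbr_nrm (htl x hx).1 (htl0 y hy) hei0 hp1 hδ hρi hw2 hw ha (hnear i0 hi0 x hx) g2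
      (hcell x hx z h1 h2) b).trans ?_
    rw [le_div_iff₀ hM2]; exact hδM
  · exact hmaxi.mono hr0p (mul_le_mul_of_nonneg_right hKKf hD.le)
  · intro a' h1 h2
    have hKw1 : 0 < Kp * w1 := by positivity
    have hKw2 : 0 < Kp * w2 := by positivity
    have hKa : 0 < Kp * a := by positivity
    have g1 : w1 ≤ Kp * w1 := le_mul_of_one_le_left hw1.le hp1
    have g2 : w2 ≤ Kp * w2 := le_mul_of_one_le_left hw2.le hp1
    have g3 : a ≤ Kp * a := le_mul_of_one_le_left ha.le hp1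
    have k1 : Kp * w1 ≤ K * w1 := mul_le_mul_of_nonneg_right hpK hw1.le
    have k2 : Kp * w2 ≤ K * w2 := mul_le_mul_of_nonneg_right hpK hw2.le
    have k3 : Kp * a ≤ K * a := mul_le_mul_of_nonneg_right hpK ha.le
    refine hCli (2 * (6 * Kp * w1)) (2 * (2 * Kp * w2)) a' ?_ ?_ ?_ ?_ ?_ ?_ <;> linarith
  · intro cl
    exact (hmaxl cl).mono hr0p (mul_le_mul_of_nonneg_right hKKf (by positivity))
  · intro A B a' h1 h2 h3 h4 h5 h6
    change 2718 / 2 ^ M * (6 * Kp * w1) ≤ A at h1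
    change A ≤ 16308 * (2 ^ k / 2 ^ M) * (6 * Kp * w1) at h2
    change 2718 / 2 ^ M * (2 * Kp * w2) ≤ B at h3
    change B ≤ 32616 * (2 ^ k / 2 ^ M) * (2 * Kp * w2) at h4
    have lo : ∀ v c : ℝ, 0 < v → 1 ≤ c → v / 2 ^ M ≤ 2718 / 2 ^ M * (c * Kp * v) := by
      intro v c hv hc
      rw [div_mul_eq_mul_div]
      refine div_le_div_of_nonneg_right ?_ hM2.le
      have h1 : v ≤ Kp * v := le_mul_of_one_le_left hv.le hp1
      have h2 : 0 < Kp * v := by positivity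
      nlinarith
    have hi' : ∀ v c C : ℝ, 0 < v → 0 < c → c * C ≤ 100000 → 0 ≤ C →
        C * (2 ^ k / 2 ^ M) * (c * Kp * v) ≤ 100000 * K * (2 ^ k / 2 ^ M) * v := by
      intro v c C hv hc hcC hC0
      have r0 : 0 ≤ c * C := mul_nonneg hc.le hC0
      calc C * (2 ^ k / 2 ^ M) * (c * Kp * v) = (c * C) * (Kp * (2 ^ k / 2 ^ M) * v) := by ring
        _ ≤ 100000 * (K * (2 ^ k / 2 ^ M) * v) := by gcongr
        _ = _ := by ring
    exact hCll A B a' ((lo w1 6 hw1 (by norm_num)).trans h1)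
      (h2.trans (hi' w1 6 16308 hw1 (by norm_num) (by norm_num) (by norm_num)))
      ((lo w2 2 hw2 (by norm_num)).trans h3)
      (h4.trans (hi' w2 2 32616 hw2 (by norm_num) (by norm_num) (by norm_num)))
      ((lo a 3 ha (by norm_num)).trans h5)
      (h6.trans (hi' a 3 32616 ha (by norm_num) (by norm_num) (by norm_num)))
  · have : 0 < Kp * a := by positivity
    have g3 : a ≤ Kp * a := le_mul_of_one_le_left ha.le hp1
    nlinarith
  · have g3 : a ≤ Kp * a := le_mul_of_one_le_left ha.le hp1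
    have : r0 ≤ r0 * 2 ^ M := le_mul_of_one_le_right hr0p.le hM1'
    nlinarith
  · -- rich
    intro x hx
    refine ⟨x.2, rfl, ?_⟩
    set G := F.filter fun y => rc x y with hG
    have hGj : ∀ y ∈ G, zc j y.2 = zc j x.2 := by
      intro y hy
      rw [hG, mem_filter] at hy
      exact (hrc x hx y hy.1 hy.2).1
    have hGl := class_lines G j (zc j x.2) hGj (N := K * (nn / 2 ^ (j - i))) (by
      intro y hy
      refine le_trans (Nat.cast_le.2 (card_le_card ?_)) (hupj y (mem_filter.1 hy).1)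
      exact filter_subset_filter _ (filter_subset _ _))
    have hsub : G.image Prod.fst ⊆ (alive F j (zc j x.2)).filter fun t =>
        ∀ b, |nrm (GeoQ186.frm (f i0).e) ![W0, 6 * Kp * w1, 2 * Kp * w2] q (3 * Kp * a) (L x.1) (L t)
          x.2 b| ≤ 1 / 2 / 2 ^ M := by
      intro t ht
      obtain ⟨y, hy, rfl⟩ := mem_image.1 ht
      rw [hG, mem_filter] at hy
      obtain ⟨g1, g2⟩ := hrc x hx y hy.1 hy.2
      rw [mem_filter]
      refine ⟨mem_alive.2 ⟨y, hy.1, rfl, g1⟩, fun b => ?_⟩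
      have h1 := near_nrm (Λ := 0) (htl x hx).1 (htl y hy.1).1 hei0 (htl x hx).2.2 hp1 hρi hρ hw2 hw
        ha (hnear i0 hi0 x hx) g2 (z := x.2) (by
          rw [(htl x hx).2.1, sub_self, abs_zero]; positivity) b
      have h2 : |nrm (GeoQ186.frm (f i0).e) ![W0, 6 * Kp * w1, 2 * Kp * w2] q (3 * Kp * a) (L x.1)
          (L y.1) x.2 b| ≤ 3 * Kp ^ 2 * ρ := h1
      refine h2.trans ?_
      rw [div_div, le_div_iff₀ (mul_pos two_pos hM2)]
      calc 3 * Kp ^ 2 * ρ * (2 * 2 ^ M) = 6 * Kp ^ 2 * ρ * 2 ^ M := by ring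
        _ ≤ 1 := hρM
    have hcard : ((G.image Prod.fst).card : ℝ) ≤ (((alive F j (zc j x.2)).filter fun t =>
        ∀ b, |nrm (GeoQ186.frm (f i0).e) ![W0, 6 * Kp * w1, 2 * Kp * w2] q (3 * Kp * a) (L x.1) (L t)
          x.2 b| ≤ 1 / 2 / 2 ^ M).card : ℝ) := by exact_mod_cast card_le_card hsub
    refine le_trans ?_ (mul_le_mul_of_nonneg_left hcard (zero_le_one.trans hKf1))
    set N := ((G.image Prod.fst).card : ℝ) with hN
    have hN0 : 0 ≤ N := Nat.cast_nonneg _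
    have hp : (0 : ℝ) < 2 ^ (j - i) := by positivity
    have h1 : n0 * (D * (a * w2 * w1 * Rq qq i a w2 w1)) * (2 : ℝ) ^ (-(3 - g) * M) ≤
        K ^ 3 * (Kc * nn) * N := by
      have e1 : Tr * 2 ^ (j - i) ≤ K * (K * nn * N) := by
        have e2 := (hTr x hx).trans (mul_le_mul_of_nonneg_left hGl hK0.le)
        calc Tr * 2 ^ (j - i) ≤ K * (K * (nn / 2 ^ (j - i)) * N) * 2 ^ (j - i) := by gcongr
          _ = K * (K * nn * N) := by field_simp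
      calc n0 * (D * (a * w2 * w1 * Rq qq i a w2 w1)) * (2 : ℝ) ^ (-(3 - g) * M) ≤
          K * (Kc * (Tr * 2 ^ (j - i))) := hrecd
        _ ≤ K * (Kc * (K * (K * nn * N))) := by gcongr
        _ = K ^ 3 * (Kc * nn) * N := by ring
    change n0 / (Kc * nn) * (D * (3 * Kp * a * (2 * Kp * w2) * (6 * Kp * w1) *
      Rq qq i (3 * Kp * a) (2 * Kp * w2) (6 * Kp * w1))) * (2 : ℝ) ^ (-(3 - g) * M) ≤ Kf * N
    have h2 : (0 : ℝ) < 2 ^ (-(3 - g) * M) := by positivity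
    calc n0 / (Kc * nn) * (D * (3 * Kp * a * (2 * Kp * w2) * (6 * Kp * w1) *
          Rq qq i (3 * Kp * a) (2 * Kp * w2) (6 * Kp * w1))) * (2 : ℝ) ^ (-(3 - g) * M) ≤
        n0 / (Kc * nn) * (D * (CC * K ^ (3 + Nat.ceil Q) * (a * w2 * w1 * Rq qq i a w2 w1))) *
          (2 : ℝ) ^ (-(3 - g) * M) := by gcongr
      _ = CC * K ^ (3 + Nat.ceil Q) / (Kc * nn) *
          (n0 * (D * (a * w2 * w1 * Rq qq i a w2 w1)) * (2 : ℝ) ^ (-(3 - g) * M)) := by ring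
      _ ≤ CC * K ^ (3 + Nat.ceil Q) / (Kc * nn) * (K ^ 3 * (Kc * nn) * N) := by gcongr
      _ = CC * (K ^ (3 + Nat.ceil Q) * K ^ 3) * N := fin_cancel (mul_pos hKc hnn).ne' _ _ _ _
      _ ≤ CC * K ^ B * N := by
          rw [← pow_add]
          have hBe : 3 + Nat.ceil Q + 3 ≤ B := by omega
          exact mul_le_mul_of_nonneg_right (mul_le_mul_of_nonneg_left
            (pow_le_pow_right₀ hK1 hBe) (by linarith)) hN0

end Crest.Agent.R136.End882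
end

-- ▼ part R136/End12_882

/-!
# R136 (S0187): END, part 12 (helper882): units

`gR` : the gauge in real units, `rg_scl`; `kbm u v t` : exponents of the container box; `sbox_win` :
its real sides; `flat_gau` : flatness of the container.
-/

set_option autoImplicit false
set_option linter.unusedVariables false

namespace Crest.Agent.R136.End882

open Finset
open Crest.Agent.R136.NetQ186
open Crest.Agent.R136.GeoQ186
open Crest.Agent.R136.Net191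
open Crest.Agent.R136.Gz779
open Crest.Agent.R136.LmQ861 Crest.Agent.R136.HR829
open Crest.Agent.R136.Sh605 hiding frm

/-- the gauge in real units -/
noncomputable def gR (H Wa Wb Wy : ℝ) (h : Fin 6 → ℝ) : Fin 6 → ℝ :=
  ![h 0 * (H * Wy), h 1 * (H * Wy / Wa), h 2 * (H * Wy / Wb), h 3 * (H * Wy / Wa ^ 2),
    h 4 * (H * Wy / (Wa * Wb)), h 5 * (H * Wy / Wb ^ 2)]

theorem rg_scl {H Wa Wb Wy : ℝ} (hH : H ≠ 0) (ha : Wa ≠ 0) (hb : Wb ≠ 0) (hy : Wy ≠ 0)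
    (h : Fin 6 → ℝ) (i : Fq4) :
    rg h (scl H Wa Wb Wy i) = scl H Wa Wb Wy (rg (gR H Wa Wb Wy h) i) := by
  cases i
  simp only [rg, scl, gR, gA, gB, Fq4.pa, Fq4.pb, Fq4.mk.injEq, true_and, Matrix.cons_val]
  refine ⟨?_, ?_, ?_, ?_, ?_⟩ <;> field_simp

theorem tau_scl {H Wa Wb Wy : ℝ} (hH : H ≠ 0) (ha : Wa ≠ 0) (hb : Wb ≠ 0) (hy : Wy ≠ 0)
    (h : Fin 6 → ℝ) (i : Fq4) :
    tau h (scl H Wa Wb Wy i) * (H * Wy / Wa) = tau (gR H Wa Wb Wy h) i := by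
  simp only [tau, scl, gR, Matrix.cons_val]
  field_simp

/-- exponents of the container box (`z : u`, slots of the record `v`, wide angle `t`) -/
def kbm (u v t : ℝ) : Fin 11 → ℝ :=
  ![u, 2 * t + v - u, t, v, t + v, t, 2 * t, 2 * t + v, t + u, 2 * t + u, 2 * t + u + v]

/-- exponents of a box with the slot `R` natural -/
def xg (X : Fin 11 → ℝ) (k : Fin 11) : ℝ := if k = 1 then X 7 - X 0 else X k

/-- real side of the slot `k` -/
noncomputable def sd (d : ℝ) (X : Fin 11 → ℝ) (H Wa Wb Wy : ℝ) (k : Fin 11) : ℝ :=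
  d ^ xg X k / sfac H Wa Wb Wy k

/-- **real sides of the container box** -/
theorem sbox_win {d e : ℝ} (hd : 0 < d) (he : 0 < e) {X : Fin 11 → ℝ} (hX : TightQ X)
    {H Wa Wb Wy : ℝ} (hH : 0 < H) (ha : 0 < Wa) (hb : 0 < Wb) (hy : 0 < Wy) (u v t : ℝ)
    (k : Fin 11) :
    sbox (sd d X H Wa Wb Wy 0 * e ^ u) (sd d X H Wa Wb Wy 8 * e ^ (t + u))
      (sd d X H Wa Wb Wy 9 * e ^ (2 * t + u)) (sd d X H Wa Wb Wy 10 * e ^ (2 * t + u + v)) k =
      sd d X H Wa Wb Wy k * e ^ kbm u v t k := by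
  obtain ⟨nn, h07, w4, w6, w7, w8, w9, w10⟩ := hX
  have hdp : ∀ s : ℝ, 0 < d ^ s := fun s => Real.rpow_pos_of_pos hd s
  have hep : ∀ s : ℝ, 0 < e ^ s := fun s => Real.rpow_pos_of_pos he s
  have d0 := hdp (X 0)
  have d2 := hdp (X 2)
  have d3 := hdp (X 3)
  have d5 := hdp (X 5)
  have x0 : xg X 0 = X 0 := rfl
  have x1 : xg X 1 = X 2 + X 3 + X 5 - X 0 := by
    have : xg X 1 = X 7 - X 0 := rfl
    rw [this]; linarith
  have x2 : xg X 2 = X 2 := rfl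
  have x3 : xg X 3 = X 3 := rfl
  have x4 : xg X 4 = X 2 + X 3 := by
    have : xg X 4 = X 4 := rfl
    rw [this]; linarith
  have x5 : xg X 5 = X 5 := rfl
  have x6 : xg X 6 = X 2 + X 5 := by
    have : xg X 6 = X 6 := rfl
    rw [this]; linarith
  have x7 : xg X 7 = X 2 + X 3 + X 5 := by
    have : xg X 7 = X 7 := rfl
    rw [this]; linarith
  have x8 : xg X 8 = X 0 + X 5 := by
    have : xg X 8 = X 8 := rfl
    rw [this]; linarith
  have x9 : xg X 9 = X 0 + X 2 + X 5 := by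
    have : xg X 9 = X 9 := rfl
    rw [this]; linarith
  have x10 : xg X 10 = X 0 + X 2 + X 3 + X 5 := by
    have : xg X 10 = X 10 := rfl
    rw [this]; linarith
  have eu := hep u
  have ev := hep v
  have et := hep t
  have q1 : e ^ (t + u) = e ^ t * e ^ u := Real.rpow_add he _ _
  have q2 : e ^ (2 * t + u) = e ^ t * e ^ t * e ^ u := by
    rw [← Real.rpow_add he, ← Real.rpow_add he]; congr 1; ring
  have q3 : e ^ (2 * t + u + v) = e ^ t * e ^ t * e ^ u * e ^ v := by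
    rw [← Real.rpow_add he, ← Real.rpow_add he, ← Real.rpow_add he]; congr 1; ring
  have q4 : e ^ (2 * t + v - u) = e ^ t * e ^ t * e ^ v / e ^ u := by
    rw [← Real.rpow_add he, ← Real.rpow_add he, ← Real.rpow_sub he]; congr 1; ring
  have q5 : e ^ (t + v) = e ^ t * e ^ v := Real.rpow_add he _ _
  have q6 : e ^ (2 * t) = e ^ t * e ^ t := by
    rw [← Real.rpow_add he]; congr 1; ring
  have q7 : e ^ (2 * t + v) = e ^ t * e ^ t * e ^ v := by
    rw [← Real.rpow_add he, ← Real.rpow_add he]; congr 1; ring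
  have p1 : d ^ (X 2 + X 3 + X 5 - X 0) = d ^ X 2 * d ^ X 3 * d ^ X 5 / d ^ X 0 := by
    rw [Real.rpow_sub hd, Real.rpow_add hd, Real.rpow_add hd]
  have p4 : d ^ (X 2 + X 3) = d ^ X 2 * d ^ X 3 := Real.rpow_add hd _ _
  have p6 : d ^ (X 2 + X 5) = d ^ X 2 * d ^ X 5 := Real.rpow_add hd _ _
  have p7 : d ^ (X 2 + X 3 + X 5) = d ^ X 2 * d ^ X 3 * d ^ X 5 := by
    rw [Real.rpow_add hd, Real.rpow_add hd]
  have p8 : d ^ (X 0 + X 5) = d ^ X 0 * d ^ X 5 := Real.rpow_add hd _ _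
  have p9 : d ^ (X 0 + X 2 + X 5) = d ^ X 0 * d ^ X 2 * d ^ X 5 := by
    rw [Real.rpow_add hd, Real.rpow_add hd]
  have p10 : d ^ (X 0 + X 2 + X 3 + X 5) = d ^ X 0 * d ^ X 2 * d ^ X 3 * d ^ X 5 := by
    rw [Real.rpow_add hd, Real.rpow_add hd, Real.rpow_add hd]
  fin_cases k
  · simp only [sbox, kbm, Matrix.cons_val, Fin.zero_eta]
  · simp only [sbox, kbm, sd, sfac, Matrix.cons_val, Fin.mk_one, x0, x1, x10, q3, q4, p1, p10]
    field_simp
  · simp only [sbox, kbm, sd, sfac, Matrix.cons_val, Fin.reduceFinMk, x2, x8, x9, q1, q2, p8, p9]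
    field_simp
  · simp only [sbox, kbm, sd, sfac, Matrix.cons_val, Fin.reduceFinMk, x3, x10, x9, q3, q2, p10, p9]
    field_simp
  · simp only [sbox, kbm, sd, sfac, Matrix.cons_val, Fin.reduceFinMk, x4, x10, x8, q3, q1, q5, p10,
      p8, p4]
    field_simp
  · simp only [sbox, kbm, sd, sfac, Matrix.cons_val, Fin.reduceFinMk, x5, x0, x8, q1, p8]
    field_simp
  · simp only [sbox, kbm, sd, sfac, Matrix.cons_val, Fin.reduceFinMk, x6, x0, x9, q2, q6, p9, p6]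
    field_simp
  · simp only [sbox, kbm, sd, sfac, Matrix.cons_val, Fin.reduceFinMk, x7, x0, x10, q3, q7, p10, p7]
    field_simp
  · simp only [sbox, kbm, Matrix.cons_val, Fin.reduceFinMk]
  · simp only [sbox, kbm, Matrix.cons_val, Fin.reduceFinMk]
  · simp only [sbox, kbm, Matrix.cons_val, Fin.reduceFinMk]

set_option maxHeartbeats 1000000 in
/-- **flatness** of the quadratic function of a gauge with `g 4 = g 5 = 0` -/
theorem flat_gau {g : Fin 6 → ℝ} {i : Fq4} {κ ρ A B z1 s1 s2 m1 m2 k11 k12 k22 : ℝ}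
    (h4 : g 4 = 0) (h5 : g 5 = 0) (he : |i.e| ≤ 1) (hρ : 0 ≤ ρ) (hκ : 0 ≤ κ) (hB : 0 < B)
    (hBA : B ≤ A) (hc : QCo g i i.e z1 s1 s2 m1 m2 k11 k12 k22)
    (e1 : |tau g i| * ρ * A ≤ κ / 2 * B) (e2 : |g 2| * ρ ≤ κ / 4)
    (e3 : |g 3| * A ^ 2 ≤ κ * B) (e4 : 2 * |g 3| * A ≤ κ) :
    Flat κ ρ A B m1 m2 k11 k12 k22 := by
  have hA : 0 < A := hB.trans_le hBA
  have hn := nu_pos i.e
  have hu := unit_nu i.e
  have hsq := nu_sq i.e
  set α := 1 / nu i.e with hα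
  set β := i.e / nu i.e with hβ
  have hβα : β = α * i.e := by rw [hα, hβ]; ring
  have hα1 : |α| ≤ 1 := (abs_unit hu).1
  have hβ1 : |β| ≤ 1 := (abs_unit hu).2
  have hnu2 : nu i.e ≤ 2 := by
    have h1 : i.e ^ 2 ≤ 1 := by rw [← sq_abs]; nlinarith [abs_nonneg i.e]
    nlinarith
  have hnn : α + β * i.e = nu i.e := by
    rw [hα, hβ]
    field_simp
    nlinarith
  have t1 : m1 = α * tau g i := by
    rw [hc.m1, h4, h5, ← hα, ← hβ, hβα]
    unfold tau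
    ring
  have t2 : m2 = -β * tau g i + nu i.e * g 2 := by
    rw [hc.m2, h4, h5, ← hα, ← hβ, ← hnn]
    unfold tau
    ring
  have t3 : k11 = α ^ 2 * g 3 := by
    rw [hc.k11, h4, h5, ← hα, ← hβ]; ring
  have t4 : k12 = -2 * (α * β) * g 3 := by
    rw [hc.k12, h4, h5, ← hα, ← hβ]; ring
  have t5 : k22 = β ^ 2 * g 3 := by
    rw [hc.k22, h4, h5, ← hα, ← hβ]; ring
  have hα2 : α ^ 2 ≤ 1 := by rw [← sq_abs]; nlinarith [abs_nonneg α]
  have hβ2 : β ^ 2 ≤ 1 := by rw [← sq_abs]; nlinarith [abs_nonneg β]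
  have hτ0 : |tau g i| * ρ ≤ κ / 2 := by
    have h1 : |tau g i| * ρ * A ≤ κ / 2 * A := e1.trans (by gcongr)
    exact le_of_mul_le_mul_right h1 hA
  constructor
  · have h1 : |m1| ≤ |tau g i| := by
      rw [t1, abs_mul]
      exact mul_le_of_le_one_left (abs_nonneg _) hα1
    calc |m1| * ρ * A ≤ |tau g i| * ρ * A := by gcongr
      _ ≤ κ / 2 * B := e1
      _ ≤ κ * B := by
          have : 0 ≤ κ * B := by positivity
          linarith
  · have h1 : |m2| ≤ |tau g i| + 2 * |g 2| := by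
      rw [t2]
      refine (abs_add_le _ _).trans (add_le_add ?_ ?_)
      · rw [abs_mul, abs_neg]
        exact mul_le_of_le_one_left (abs_nonneg _) hβ1
      · rw [abs_mul, abs_of_pos hn]
        gcongr
    calc |m2| * ρ ≤ (|tau g i| + 2 * |g 2|) * ρ := by gcongr
      _ = |tau g i| * ρ + 2 * (|g 2| * ρ) := by ring
      _ ≤ κ := by linarith
  · calc |k11| * A ^ 2 ≤ |g 3| * A ^ 2 := by
          rw [t3, abs_mul, abs_of_nonneg (sq_nonneg α)]
          have : α ^ 2 * |g 3| ≤ 1 * |g 3| := by gcongr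
          nlinarith [sq_nonneg A]
      _ ≤ κ * B := e3
  · have h1 : |k12| ≤ 2 * |g 3| := by
      rw [t4, abs_mul, abs_mul, abs_mul, abs_neg, abs_two]
      have : |α| * |β| ≤ 1 * 1 := by gcongr
      nlinarith [abs_nonneg (g 3)]
    calc |k12| * A ≤ 2 * |g 3| * A := by gcongr
      _ ≤ κ := e4
  · have h1 : |k22| ≤ |g 3| := by
      rw [t5, abs_mul, abs_of_nonneg (sq_nonneg β)]
      exact mul_le_of_le_one_left (abs_nonneg _) hβ2
    have h2 : 0 ≤ |g 3| * A := by positivity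
    calc |k22| * B ≤ |g 3| * A := by gcongr
      _ ≤ κ := by linarith

/-- **record arithmetic**: the D-max number of the container times `2^(-(3-g)M)` is at most the number
of incidences of a record class -/
theorem rec_arith {d e H K C A P Pq c₀ ξ u v g S1 S2 δ ε n0 D cost Rv M2 Kc Tr T2 : ℝ} (hd : 0 < d)
    (he : 0 < e) (hH : 0 < H) (hA : 0 < A) (hP : 0 < P) (hPq : 0 < Pq) (hC : 0 < C) (hK : 0 ≤ K)
    (hn00 : 0 ≤ n0) (hD0 : 0 ≤ D) (hR0 : 0 ≤ Rv) (hM0 : 0 ≤ M2) (hKc0 : 0 ≤ Kc) (hTr0 : 0 ≤ Tr)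
    (hn0 : n0 ≤ 2 * H * (d ^ (ξ - 1) * e ^ u)) (hD : D ≤ A * (d ^ (-(ξ * g)) * e ^ (-(u * g))))
    (hcost : cost = P * (d ^ ((3 - S1) * ξ) * e ^ (3 * u - S1 * v)))
    (hRq : Rv ≤ Pq * (d ^ (-(S2 * ξ)) * e ^ (-(S2 * v))))
    (hM : M2 ≤ C * e ^ ((3 - g) * (v - u - δ)))
    (hKc : A * (P * Pq) * d ^ c₀ ≤ H * Kc)
    (hTr : d ^ (-(c₀ + (g * ξ + (1 - ξ) - (3 - S1) * ξ + S2 * ξ))) *
      e ^ (-((g - 1) * v - (3 - S1) * v + S2 * v) + ε) ≤ Tr)
    (hj : e ^ (u - v) ≤ 2 * T2) (hKK : 4 * C * H ^ 2 * e ^ (-((3 - g) * δ) - ε) ≤ K) :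
    n0 * (D * (cost * Rv)) * M2 ≤ K * (Kc * (Tr * T2)) := by
  have hdp : ∀ s : ℝ, 0 < d ^ s := fun s => Real.rpow_pos_of_pos hd s
  have hep : ∀ s : ℝ, 0 < e ^ s := fun s => Real.rpow_pos_of_pos he s
  have hcost0 : 0 < cost := by
    rw [hcost]; exact mul_pos hP (mul_pos (hdp _) (hep _))
  have hT20 : 0 ≤ T2 := by
    have := hep (u - v)
    linarith
  have hLHS : n0 * (D * (cost * Rv)) * M2 ≤
      2 * H * (d ^ (ξ - 1) * e ^ u) * (A * (d ^ (-(ξ * g)) * e ^ (-(u * g))) *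
        (P * (d ^ ((3 - S1) * ξ) * e ^ (3 * u - S1 * v)) *
          (Pq * (d ^ (-(S2 * ξ)) * e ^ (-(S2 * v)))))) * (C * e ^ ((3 - g) * (v - u - δ))) := by
    rw [← hcost]
    have a1 : 0 ≤ d ^ (ξ - 1) * e ^ u := (mul_pos (hdp _) (hep _)).le
    have a2 : 0 ≤ A * (d ^ (-(ξ * g)) * e ^ (-(u * g))) :=
      mul_nonneg hA.le (mul_pos (hdp _) (hep _)).le
    have a3 : 0 ≤ Pq * (d ^ (-(S2 * ξ)) * e ^ (-(S2 * v))) :=
      mul_nonneg hPq.le (mul_pos (hdp _) (hep _)).le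
    refine mul_le_mul (mul_le_mul hn0 (mul_le_mul hD (mul_le_mul_of_nonneg_left hRq hcost0.le)
      (mul_nonneg hcost0.le hR0) a2) (mul_nonneg hD0 (mul_nonneg hcost0.le hR0))
      (mul_nonneg (by positivity) a1)) hM hM0 ?_
    exact mul_nonneg (mul_nonneg (by positivity) a1) (mul_nonneg a2 (mul_nonneg hcost0.le a3))
  have hdE : d ^ (ξ - 1) * d ^ (-(ξ * g)) * d ^ ((3 - S1) * ξ) * d ^ (-(S2 * ξ)) =
      d ^ c₀ * d ^ (-(c₀ + (g * ξ + (1 - ξ) - (3 - S1) * ξ + S2 * ξ))) := by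
    rw [← Real.rpow_add hd, ← Real.rpow_add hd, ← Real.rpow_add hd, ← Real.rpow_add hd]
    congr 1; ring
  have heE : e ^ u * e ^ (-(u * g)) * e ^ (3 * u - S1 * v) * e ^ (-(S2 * v)) *
      e ^ ((3 - g) * (v - u - δ)) = e ^ (-((g - 1) * v - (3 - S1) * v + S2 * v) + ε) *
        e ^ (u - v) * e ^ (-((3 - g) * δ) - ε) := by
    rw [← Real.rpow_add he, ← Real.rpow_add he, ← Real.rpow_add he, ← Real.rpow_add he,
      ← Real.rpow_add he, ← Real.rpow_add he]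
    congr 1; ring
  set Ed : ℝ := d ^ (-(c₀ + (g * ξ + (1 - ξ) - (3 - S1) * ξ + S2 * ξ))) with hEd
  set Ee : ℝ := e ^ (-((g - 1) * v - (3 - S1) * v + S2 * v) + ε) with hEe
  set Ej : ℝ := e ^ (u - v) with hEj
  set El : ℝ := e ^ (-((3 - g) * δ) - ε) with hEl
  have p1 : 0 < Ed := hdp _
  have p2 : 0 < Ee := hep _
  have p3 : 0 < Ej := hep _
  have p4 : 0 < El := hep _
  have p5 := hdp c₀
  calc n0 * (D * (cost * Rv)) * M2 ≤ _ := hLHS
    _ = 2 * H * C * (A * (P * Pq)) *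
        (d ^ (ξ - 1) * d ^ (-(ξ * g)) * d ^ ((3 - S1) * ξ) * d ^ (-(S2 * ξ))) *
        (e ^ u * e ^ (-(u * g)) * e ^ (3 * u - S1 * v) * e ^ (-(S2 * v)) *
          e ^ ((3 - g) * (v - u - δ))) := by ring
    _ = 2 * H * C * El * (A * (P * Pq) * d ^ c₀) * (Ed * Ee) * Ej := by rw [hdE, heE]; ring
    _ ≤ 2 * H * C * El * (H * Kc) * Tr * (2 * T2) := by
        refine mul_le_mul (mul_le_mul (mul_le_mul_of_nonneg_left hKc (by positivity)) hTr
          (by positivity) (by positivity)) hj p3.le (by positivity)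
    _ = 4 * C * H ^ 2 * El * (Kc * (Tr * T2)) := by ring
    _ ≤ K * (Kc * (Tr * T2)) := by gcongr


end Crest.Agent.R136.End882
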