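import Crest.Agent.R136.Sec1_779
import Crest.Agent.R138.Qf7_926

-- ▼ part R136/Zpr1_779
section

/-!
# R136: profiles at window scale (helper779), part 1

`uniform_countable'` : 926's `uniform_countable` with the hypothesis `log₂ #I + 1 ≤ H`, `H`
sub-polynomial in the (window) base, instead of `#I ≤ d^(-C)`.
`exists_zprof_many` : countably many quasi-nested families at window scale, one dense part with a
zoomed profile (`ZProf`) of each.
-/

set_option autoImplicit false
set_option linter.unusedSectionVars false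
set_option linter.unusedVariables false

open Filter Topology

namespace Crest.Agent.R136.Zpr779

open Finset Crest.Agent.R138.Ex926

/-- **Countably many partitions** made uniform at once, with sub-polynomial loss. -/
theorem uniform_countable' (B : Base) {ι κ : ℕ → Type*} [∀ n, DecidableEq (ι n)]
    [∀ n, DecidableEq (κ n)] (I : ∀ n, Finset (ι n)) (f : ∀ n, ℕ → ι n → κ n)
    (hI : ∀ᶠ n in (U : Filter ℕ), (I n).Nonempty) {H : ℕ → ℝ} (hH : B.Sub H)
    (hcard : ∀ᶠ n in (U : Filter ℕ), (Nat.log 2 (I n).card : ℝ) + 1 ≤ H n) :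
    ∃ (I' : ∀ n, Finset (ι n)) (M : ℕ → ℕ → ℝ) (S : ℕ → ℝ) (k : ℕ → ℕ), B.Sub S ∧
      Tendsto k U atTop ∧
      ∀ᶠ n in (U : Filter ℕ), I' n ⊆ I n ∧ (I' n).Nonempty ∧
        ((I n).card : ℝ) ≤ S n * (I' n).card ∧ 1 ≤ S n ∧ ∀ j ≤ k n, 1 ≤ M n j ∧ ∀ i ∈ I' n,
          M n j ≤ (cls (I n) (f n j) i).card ∧ ((cls (I n) (f n j) i).card : ℝ) ≤ 2 * M n j ∧
          M n j ≤ S n * (cls (I' n) (f n j) i).card := by
  classical
  -- losses
  set s : ℕ → ℕ → ℝ := fun m n => (2 * ((m : ℝ) + 1) + 2) * (H n) ^ (m + 1) with hs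
  have hsub : ∀ m, B.Sub (s m) := fun m => (Base.Sub.const (by positivity)).mul (hH.pow (m + 1))
  obtain ⟨k, hk, hk'⟩ := Base.Sub.diag s hsub
  have hex : ∀ n, ∃ (I' : Finset (ι n)) (M : ℕ → ℝ), (I n).Nonempty → I' ⊆ I n ∧ I'.Nonempty ∧
      ((I n).card : ℝ) ≤ 2 * ((Nat.log 2 (I n).card : ℝ) + 1) ^ (k n + 1) * I'.card ∧
      ∀ j ≤ k n, 1 ≤ M j ∧ ∀ i ∈ I',
        M j ≤ (cls (I n) (f n j) i).card ∧ ((cls (I n) (f n j) i).card : ℝ) ≤ 2 * M j ∧
        M j ≤ 2 * ((k n : ℝ) + 1) * ((Nat.log 2 (I n).card : ℝ) + 1) ^ (k n + 1) *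
          (cls I' (f n j) i).card := by
    intro n
    by_cases h : (I n).Nonempty
    · obtain ⟨I', h1, h2, h3, M, h4, h5⟩ := uniformise_card (J := Fin (k n + 1)) (I n) h
        (fun j => f n j) (H := Nat.log 2 (I n).card) (Nat.lt_pow_succ_log_self one_lt_two _)
      rw [Fintype.card_fin] at h3 h5
      refine ⟨I', fun j => if hj : j < k n + 1 then M ⟨j, hj⟩ else 1, fun _ =>
        ⟨h1, h2, h3, fun j hj => ?_⟩⟩
      have hj' : j < k n + 1 := Nat.lt_succ_of_le hj
      simp only [dif_pos hj']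
      refine ⟨h4 _, fun i hi => ?_⟩
      have := h5 ⟨j, hj'⟩ i hi
      push_cast at this
      exact this
    · exact ⟨∅, fun _ => 1, fun h' => absurd h' h⟩
  choose I' M hIM using hex
  refine ⟨I', M, fun n => s (k n) n, k, hk' k hk (Eventually.of_forall fun n => le_rfl), hk, ?_⟩
  filter_upwards [hI, hcard] with n h1 h2
  obtain ⟨a1, a2, a3, a4⟩ := hIM n h1
  have hp : ((Nat.log 2 (I n).card : ℝ) + 1) ^ (k n + 1) ≤ (H n) ^ (k n + 1) :=
    pow_le_pow_left₀ (by positivity) h2 _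
  have hp1 : (1 : ℝ) ≤ ((Nat.log 2 (I n).card : ℝ) + 1) ^ (k n + 1) :=
    one_le_pow₀ (by have : (0:ℝ) ≤ (Nat.log 2 (I n).card : ℝ) := Nat.cast_nonneg _; linarith)
  have hk0 : (0 : ℝ) ≤ k n := Nat.cast_nonneg _
  refine ⟨a1, a2, a3.trans ?_, ?_, fun j hj => ⟨(a4 j hj).1, fun i hi => ⟨((a4 j hj).2 i hi).1,
    ((a4 j hj).2 i hi).2.1, ((a4 j hj).2 i hi).2.2.trans ?_⟩⟩⟩
  · refine mul_le_mul_of_nonneg_right ?_ (Nat.cast_nonneg _)
    rw [hs]; nlinarith
  · rw [hs]; nlinarith
  · refine mul_le_mul_of_nonneg_right ?_ (Nat.cast_nonneg _)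
    rw [hs]; nlinarith

variable {B : Base} {ι κ : ℕ → Type*} [∀ n, DecidableEq (ι n)] [∀ n, DecidableEq (κ n)] {m : ℕ}

/-- **Profiles at window scale**: countably many families at once. -/
theorem exists_zprof_many {J : Type*} [Countable J] {m : J → ℕ}
    {κ : J → ℕ → Type*} [∀ j n, DecidableEq (κ j n)] {I : ∀ n, Finset (ι n)}
    {f : ∀ j n, (Fin (m j) → ℝ) → ι n → κ j n} {K : J → ℝ} (hK : ∀ j, 0 ≤ K j)
    {P : ∀ j, Set (Fin (m j) → ℝ)} (hnet : ∀ j, SNet (P j)) (hcomp : ∀ j, IsCompact (P j))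
    (hsup : ∀ j, ∀ p ∈ P j, ∀ q ∈ P j, p ⊔ q ∈ P j) {b : ∀ j, Fin (m j) → ℝ}
    (hb : ∀ j, b j ∈ P j) (hbl : ∀ j, ∀ p ∈ P j, b j ≤ p)
    (hf : ∀ j, QFam B I (f j) (K j) (P j))
    (hI : ∀ᶠ n in (U : Filter ℕ), (I n).Nonempty) {H : ℕ → ℝ} (hH : B.Sub H)
    (hcard : ∀ᶠ n in (U : Filter ℕ), (Nat.log 2 (I n).card : ℝ) + 1 ≤ H n) :
    ∃ (I' : ∀ n, Finset (ι n)) (S : ℕ → ℝ), B.Sub S ∧
      (∀ᶠ n in (U : Filter ℕ), I' n ⊆ I n ∧ (I' n).Nonempty ∧
        ((I n).card : ℝ) ≤ S n * (I' n).card ∧ 1 ≤ S n) ∧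
      ∀ j, ∃ (T : ℕ → ℝ) (lam : (Fin (m j) → ℝ) → ℝ), (∀ n, 0 < T n) ∧
        (∀ᶠ n in (U : Filter ℕ),
          T n * (((I' n).image (f j n (b j))).card : ℝ) = (I' n).card) ∧
        ZProf B I' (f j) (P j) T lam ∧ lam (b j) = 0 ∧
        (∀ p ∈ P j, ∀ q ∈ P j, |lam p - lam q| ≤ K j * ‖p - q‖) ∧
        (∀ p ∈ P j, ∀ q ∈ P j, p ≤ q → lam q ≤ lam p) := by
  classical
  -- the countable list of partitions
  have hnet' : ∀ j (l : ℕ), ∃ G : Finset (Fin (m j) → ℝ), (∀ q ∈ G, q ∈ P j) ∧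
      ∀ p ∈ P j, ∃ q ∈ G, ∃ r ∈ G, q ≤ p ∧ p ≤ r ∧ ‖r - q‖ ≤ 1 / ((l : ℝ) + 1) :=
    fun j l => hnet j _ (by positivity)
  choose G hGP hG using hnet'
  obtain ⟨e, he⟩ := exists_surjective_nat (Option (Σ j : J, Σ l : ℕ, {g // g ∈ G j l}))
  set lab : ∀ n, ℕ → ι n → Option (Σ j : J, κ j n) := fun n a i =>
    match e a with
    | none => none
    | some x => some ⟨x.1, f x.1 n x.2.2.1 i⟩ with hlab
  obtain ⟨I', M, S, k, hS, hk, hev⟩ := uniform_countable' B I
    (κ := fun n => Option (Σ j : J, κ j n)) lab hI hH hcard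
  have hbasic : ∀ᶠ n in (U : Filter ℕ), I' n ⊆ I n ∧ (I' n).Nonempty ∧
        ((I n).card : ℝ) ≤ S n * (I' n).card ∧ 1 ≤ S n :=
    hev.mono fun n hn => ⟨hn.1, hn.2.1, hn.2.2.1, hn.2.2.2.1⟩
  refine ⟨I', S, hS, hbasic, fun j => ?_⟩
  choose idx hidx using he
  -- classes of the labels
  have hcl : ∀ n (A : Finset (ι n)) (l : ℕ) (g : {g // g ∈ G j l}) (i : ι n),
      cls A (lab n (idx (some ⟨j, l, g⟩))) i = cls A (f j n g.1) i := by
    intro n A l g i
    ext y
    rw [mem_cls, mem_cls]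
    simp only [hlab, hidx]
    simp
  -- uniformity on the nets
  have hMnet : ∀ l : ℕ, ∀ᶠ n in (U : Filter ℕ), ∀ g ∈ G j l, ∃ M : ℝ, 1 ≤ M ∧ ∀ i ∈ I' n,
      ((cls (I' n) (f j n g) i).card : ℝ) ≤ 2 * M ∧ M ≤ S n * (cls (I' n) (f j n g) i).card := by
    intro l
    have hidxk : ∀ᶠ n in (U : Filter ℕ), ∀ g ∈ (G j l).attach, idx (some ⟨j, l, g⟩) ≤ k n := by
      rw [Filter.eventually_all_finset]
      intro g _
      exact hk.eventually_ge_atTop _
    filter_upwards [hev, hidxk] with n h1 h2 g hg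
    obtain ⟨hsub, -, -, -, hMM⟩ := h1
    have h3 := hMM _ (h2 ⟨g, hg⟩ (mem_attach _ _))
    simp only [hcl] at h3
    refine ⟨_, h3.1, fun i hi => ⟨le_trans ?_ (h3.2 i hi).2.1, (h3.2 i hi).2.2⟩⟩
    exact_mod_cast card_le_card (cls_mono hsub _ _)
  have hsub : ∀ᶠ n in (U : Filter ℕ), I' n ⊆ I n := hbasic.mono fun n hn => hn.1
  have hne : ∀ᶠ n in (U : Filter ℕ), (I' n).Nonempty := hbasic.mono fun n hn => hn.2.1
  have hf' : QFam B I' (f j) (K j) (P j) := (hf j).mono hsub (Set.Subset.refl _)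
  obtain ⟨N, hN, hnest⟩ := hf'.nest
  -- number of classes, log
  set lc : ℕ → (Fin (m j) → ℝ) → ℝ := fun n p => Real.log (((I' n).image (f j n p)).card) with hlc
  set τ : ℕ → ℝ := fun n => Real.log ((I' n).card) - lc n (b j) with hτ
  -- average exponents
  set φ : ℕ → (Fin (m j) → ℝ) → ℝ := fun n p => (lc n (b j) - lc n p) / B.L n with hφ
  have hφL : ∀ n p, τ n + φ n p * B.L n = Real.log ((I' n).card) - lc n p := by
    intro n p
    rw [hφ, hτ]; simp only
    rw [div_mul_cancel₀ _ (B.L_pos n).ne']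
    ring
  -- comparison of the numbers of classes
  have hcnt : ∀ ε : ℝ, 0 < ε → ∀ᶠ n in (U : Filter ℕ), ∀ p ∈ P j, ∀ q ∈ P j, p ≤ q →
      φ n q ≤ φ n p + ε ∧ φ n p ≤ φ n q + K j * ‖p - q‖ + ε := by
    intro ε hε
    filter_upwards [hnest, hf'.child ε hε, hN.ev_le hε, hne] with
      n h1 h2 h3 h4 p hp q hq hpq
    have hL := B.L_pos n
    obtain ⟨i, hi⟩ := h4
    have hpc : (1 : ℝ) ≤ ((I' n).image (f j n p)).card := by
      have : 0 < ((I' n).image (f j n p)).card := card_pos.2 ⟨_, mem_image_of_mem _ hi⟩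
      exact_mod_cast this
    have hqc : (1 : ℝ) ≤ ((I' n).image (f j n q)).card := by
      have : 0 < ((I' n).image (f j n q)).card := card_pos.2 ⟨_, mem_image_of_mem _ hi⟩
      exact_mod_cast this
    have c1 : (((I' n).image (f j n p)).card : ℝ) ≤ N n * ((I' n).image (f j n q)).card := by
      refine card_image_le_mul _ _ _ fun x hx => ?_
      refine le_trans ?_ (h1 p hp q hq hpq x hx)
      exact_mod_cast card_le_card (image_subset_image (cls_sub_two _ _ hx))
    have c2 : (((I' n).image (f j n q)).card : ℝ) ≤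
        B.d n ^ (-(K j * ‖q - p‖ + ε)) * ((I' n).image (f j n p)).card :=
      card_image_le_mul _ _ _ fun x hx => h2 p hp q hq hpq x hx
    have hdp := Real.rpow_pos_of_pos (B.pos n) (-(K j * ‖q - p‖ + ε))
    have l1 := Real.log_le_log (by linarith) c1
    have l2 := Real.log_le_log (by linarith) c2
    rw [Real.log_mul h3.1.ne' (by linarith)] at l1
    rw [Real.log_mul hdp.ne' (by linarith), Real.log_rpow (B.pos n), B.log_d] at l2
    rw [norm_sub_rev p q]
    constructor
    · rw [hφ]; simp only [hlc]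
      rw [div_le_iff₀ hL, add_mul, div_mul_cancel₀ _ hL.ne']
      linarith [h3.2]
    · rw [hφ]; simp only [hlc]
      rw [div_le_iff₀ hL, add_mul, add_mul, div_mul_cancel₀ _ hL.ne']
      linarith
  have key : ∀ ε : ℝ, 0 < ε → ∀ᶠ n in (U : Filter ℕ), ∀ p ∈ P j, ∀ q ∈ P j,
      φ n p ≤ φ n q + K j * ‖p - q‖ + ε := by
    intro ε hε
    filter_upwards [hcnt (ε / 2) (by positivity)] with n h1 p hp q hq
    have hr := hsup j p hp q hq
    have e1 := (h1 p hp _ hr le_sup_left).2
    have e2 := (h1 q hq _ hr le_sup_right).1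
    have e3 : ‖p - p ⊔ q‖ ≤ ‖p - q‖ := by
      refine (pi_norm_le_iff_of_nonneg (norm_nonneg _)).2 fun a => ?_
      have h6 := norm_le_pi_norm (p - q) a
      rw [Pi.sub_apply, Real.norm_eq_abs] at h6 ⊢
      refine le_trans ?_ h6
      rw [Pi.sup_apply]
      rcases le_total (p a) (q a) with h7 | h7
      · rw [sup_eq_right.2 h7]
      · rw [sup_eq_left.2 h7, sub_self, abs_zero]; exact abs_nonneg _
    have e4 := mul_le_mul_of_nonneg_left e3 (hK j)
    linarith
  have halip : ALip (P j) (K j) φ := by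
    intro ε hε
    filter_upwards [key ε hε] with n hn p hp q hq
    have e1 := hn p hp q hq
    have e2 := hn q hq p hp
    rw [norm_sub_rev] at e2
    rw [abs_le, dist_eq_norm]
    constructor <;> linarith
  have hφb : ∀ n, φ n (b j) = 0 := fun n => by rw [hφ]; simp
  have hbd : ∀ p ∈ P j, ∀ᶠ n in (U : Filter ℕ), |φ n p| ≤ K j * ‖p - b j‖ + 1 := by
    intro p hp
    filter_upwards [hcnt 1 one_pos] with n h1
    obtain ⟨e1, e2⟩ := h1 _ (hb j) p hp (hbl j p hp)
    rw [hφb] at e1 e2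
    rw [norm_sub_rev] at e2
    have := mul_nonneg (hK j) (norm_nonneg (p - b j))
    rw [abs_le]; constructor <;> linarith
  have hlim : ∀ p, ∃ y, p ∈ P j → Tendsto (fun n => φ n p) U (𝓝 y) := fun p => by
    by_cases hp : p ∈ P j
    · obtain ⟨y, hy, -⟩ := exists_tendsto (hbd p hp)
      exact ⟨y, fun _ => hy⟩
    · exact ⟨0, fun h => absurd h hp⟩
  choose ν hν using hlim
  have hunif : ∀ ε : ℝ, 0 < ε → ∀ᶠ n in (U : Filter ℕ), ∀ p ∈ P j, |φ n p - ν p| ≤ ε :=
    fun ε hε => unif_of_lip (hcomp j) (hK j) halip (fun p hp => hν p hp) hε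
  have hlip := halip.limit (fun p hp => hν p hp)
  have hanti : ∀ p ∈ P j, ∀ q ∈ P j, p ≤ q → ν q ≤ ν p := by
    intro p hp q hq hpq
    refine le_of_forall_pos_le_add fun ε hε => ?_
    have h1 : Tendsto (fun n => φ n p + ε) U (𝓝 (ν p + ε)) := (hν p hp).add_const ε
    refine le_of_tendsto_of_tendsto (hν q hq) h1 ?_
    filter_upwards [hcnt ε hε] with n hn
    exact (hn p hp q hq hpq).1
  have hνb : ν (b j) = 0 := by
    refine tendsto_nhds_unique (hν _ (hb j)) ?_
    simp only [hφb]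
    exact tendsto_const_nhds
  -- net level for a given precision
  have hlev : ∀ ε : ℝ, 0 < ε → ∃ l : ℕ, K j * (1 / ((l : ℝ) + 1)) ≤ ε := by
    intro ε hε
    obtain ⟨N, hN⟩ := exists_nat_gt (K j / ε)
    refine ⟨N, ?_⟩
    rw [div_lt_iff₀ hε] at hN
    rw [mul_one_div, div_le_iff₀ (by positivity)]
    nlinarith
  -- uniform statement on the nets
  have hnetφ : ∀ l : ℕ, ∀ ε : ℝ, 0 < ε → ∀ᶠ n in (U : Filter ℕ), ∀ g ∈ G j l, ∀ i ∈ I' n,
      Real.log ((cls (I' n) (f j n g) i).card) ≤ τ n + (φ n g + ε) * B.L n ∧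
      τ n + (φ n g - ε) * B.L n ≤ Real.log ((cls (I' n) (f j n g) i).card) := by
    intro l ε hε
    filter_upwards [hMnet l, hS.ev_le (ε := ε / 2) (by positivity),
      B.ev_const_log (Real.log 2) (ε := ε / 2) (by positivity), hbasic] with n h1 h2 h3 h4 g hg i hi
    obtain ⟨M, hM1, hM⟩ := h1 g hg
    have hL := B.L_pos n
    have hSn := h2.1
    have hcI : (1 : ℝ) ≤ ((I' n).image (f j n g)).card := by
      have : 0 < ((I' n).image (f j n g)).card := card_pos.2 ⟨_, mem_image_of_mem _ hi⟩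
      exact_mod_cast this
    have hI1 : (1 : ℝ) ≤ (I' n).card := by
      have : 0 < (I' n).card := card_pos.2 ⟨_, hi⟩
      exact_mod_cast this
    have hci : (1 : ℝ) ≤ (cls (I' n) (f j n g) i).card := cls_card_pos hi
    -- `|I'| ≤ 2 M #classes`
    have c1 : ((I' n).card : ℝ) ≤ 2 * M * ((I' n).image (f j n g)).card := by
      have := le_count_mul (I' n) (fun _ => (1 : ℝ)) (f j n g) (m := 2 * M) (fun x hx => by
        rw [sum_const, nsmul_eq_mul, mul_one]; exact (hM x hx).1)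
      rwa [sum_const, nsmul_eq_mul, mul_one] at this
    -- `(M / S) #classes ≤ |I'|`
    have c2 : M / S n * ((I' n).image (f j n g)).card ≤ (I' n).card := by
      have := count_mul_le (I' n) (fun _ => (1 : ℝ)) (fun _ _ => zero_le_one) (f j n g)
        (m := M / S n) (fun x hx => by
          rw [sum_const, nsmul_eq_mul, mul_one, div_le_iff₀ hSn, mul_comm]; exact (hM x hx).2)
      rwa [sum_const, nsmul_eq_mul, mul_one] at this
    have l1 := Real.log_le_log (by linarith) c1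
    rw [Real.log_mul (by positivity) (by linarith), Real.log_mul (by norm_num) (by linarith)] at l1
    have l2 := Real.log_le_log (by positivity) c2
    rw [Real.log_mul (by positivity) (by linarith), Real.log_div (by linarith) hSn.ne'] at l2
    have l3 := Real.log_le_log (by linarith) (hM i hi).1
    rw [Real.log_mul (by norm_num) (by linarith)] at l3
    have l4 := Real.log_le_log (by linarith) (hM i hi).2
    rw [Real.log_mul hSn.ne' (by linarith)] at l4
    have hφL' := hφL n g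
    simp only [hlc] at hφL'
    have hS2 := h2.2
    constructor
    · rw [add_mul, ← add_assoc, hφL']; linarith
    · rw [sub_mul, ← add_sub_assoc, hφL']; linarith
  have hup : ∀ ε : ℝ, 0 < ε → ∀ᶠ n in (U : Filter ℕ), ∀ p ∈ P j, ∀ i ∈ I' n,
      Real.log ((cls (I' n) (f j n p) i).card) ≤ τ n + (ν p + ε) * B.L n := by
    intro ε hε
    obtain ⟨l, hl⟩ := hlev (ε / 4) (by positivity)
    filter_upwards [hnetφ l (ε / 4) (by positivity), hunif (ε / 4) (by positivity), hnest,
      hN.ev_le (ε := ε / 4) (by positivity)] with n h1 h2 h3 h4 p hp i hi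
    obtain ⟨q, hq, r, hr, hqp, hpr, hqr⟩ := hG j l p hp
    have hqP := hGP j l q hq
    have hL := B.L_pos n
    have hci : (1 : ℝ) ≤ (cls (I' n) (f j n p) i).card := cls_card_pos hi
    have c1 : ((cls (I' n) (f j n p) i).card : ℝ) ≤
        Real.exp (τ n + (φ n q + ε / 4) * B.L n) * N n := by
      have := le_count_mul (cls (I' n) (f j n p) i) (fun _ => (1 : ℝ)) (f j n q)
        (m := Real.exp (τ n + (φ n q + ε / 4) * B.L n)) (fun x hx => by
          rw [sum_const, nsmul_eq_mul, mul_one]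
          have x1 := (mem_cls.1 hx).1
          have e1 : ((cls (cls (I' n) (f j n p) i) (f j n q) x).card : ℝ) ≤
              (cls (I' n) (f j n q) x).card := by
            exact_mod_cast card_le_card (cls_mono (cls_subset _ _ _) _ _)
          refine e1.trans ?_
          rw [← Real.log_le_iff_le_exp (by linarith [cls_card_pos (f := f j n q) x1])]
          exact (h1 q hq x x1).1)
      rw [sum_const, nsmul_eq_mul, mul_one] at this
      refine this.trans (mul_le_mul_of_nonneg_left ?_ (Real.exp_pos _).le)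
      refine le_trans ?_ (h3 q hqP p hp hqp i hi)
      exact_mod_cast card_le_card (image_subset_image (cls_sub_two _ _ hi))
    have l1 := Real.log_le_log (by linarith) c1
    rw [Real.log_mul (Real.exp_pos _).ne' h4.1.ne', Real.log_exp] at l1
    have e1 := (abs_le.1 (h2 q hqP)).2
    have e2 : ν q ≤ ν p + ε / 4 := by
      have h5 := (abs_le.1 (hlip q hqP p hp)).2
      have h6 : dist q p ≤ 1 / ((l : ℝ) + 1) := by
        rw [dist_eq_norm]
        refine le_trans ?_ hqr
        refine (pi_norm_le_iff_of_nonneg (norm_nonneg _)).2 fun a => ?_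
        have h7 := norm_le_pi_norm (r - q) a
        rw [Pi.sub_apply, Real.norm_eq_abs] at h7 ⊢
        refine le_trans ?_ h7
        rw [abs_sub_comm, abs_of_nonneg (by linarith [hqp a]),
          abs_of_nonneg (by linarith [hqp a, hpr a])]
        linarith [hpr a]
      have h8 := mul_le_mul_of_nonneg_left h6 (hK j)
      linarith
    have e3 : (φ n q + ε / 4) * B.L n ≤ (ν p + 3 * (ε / 4)) * B.L n :=
      mul_le_mul_of_nonneg_right (by linarith) hL.le
    have := h4.2
    nlinarith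
  have hnum : ∀ ε : ℝ, 0 < ε → ∀ᶠ n in (U : Filter ℕ), ∀ q ∈ P j, ∀ p ∈ P j, q ≤ p →
      ∀ i ∈ I' n, Real.log (((cls (I' n) (f j n q) i).image (f j n p)).card) ≤
        (ν q - ν p + ε) * B.L n := by
    intro ε hε
    obtain ⟨l, hl⟩ := hlev (ε / 8) (by positivity)
    filter_upwards [hnetφ l (ε / 8) (by positivity), hunif (ε / 8) (by positivity), hnest,
      hN.ev_le (ε := ε / 8) (by positivity), hup (ε / 8) (by positivity)] with
      n h1 h2 h3 h4 h5 q hq p hp hqp i hi
    obtain ⟨q₀, hq₀, r, hr, hqp₀, hpr, hqr⟩ := hG j l p hp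
    have hrP := hGP j l r hr
    have hL := B.L_pos n
    set A := cls (I' n) (f j n q) i with hA
    have hiA : i ∈ A := self_mem_cls hi
    have himg : (1 : ℝ) ≤ ((A.image (f j n p)).card : ℝ) := by
      have : 0 < (A.image (f j n p)).card := card_pos.2 ⟨_, mem_image_of_mem _ hiA⟩
      exact_mod_cast this
    -- `#p-classes ≤ N #r-classes`
    have c1 : ((A.image (f j n p)).card : ℝ) ≤ N n * (A.image (f j n r)).card := by
      refine card_image_le_mul _ _ _ fun x hx => ?_
      have x1 := (mem_cls.1 hx).1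
      refine le_trans ?_ (h3 p hp r hrP hpr x x1)
      exact_mod_cast card_le_card (image_subset_image
        ((cls_mono (cls_subset _ _ _) _ _).trans (cls_sub_two _ _ x1)))
    -- the union of the `r`-classes meeting `A`
    set W := two (I' n) (f j n q) (f j n r) i with hW
    have hAW : A ⊆ W := cls_sub_two' _ _
    have hqr' : q ≤ r := hqp.trans hpr
    have c2 : Real.exp (τ n + (φ n r - ε / 8) * B.L n) * ((A.image (f j n r)).card : ℝ) ≤
        W.card := by
      have h6 : (A.image (f j n r)).card ≤ (W.image (f j n r)).card :=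
        card_le_card (image_subset_image hAW)
      have := count_mul_le W (fun _ => (1 : ℝ)) (fun _ _ => zero_le_one) (f j n r)
        (m := Real.exp (τ n + (φ n r - ε / 8) * B.L n)) (fun x hx => by
          rw [sum_const, nsmul_eq_mul, mul_one]
          obtain ⟨x1, y, y1, y2, y3⟩ := mem_two.1 hx
          have e1 : cls W (f j n r) x = cls (I' n) (f j n r) x := by
            ext z
            constructor
            · intro hz
              obtain ⟨z1, z2⟩ := mem_cls.1 hz
              exact mem_cls.2 ⟨(mem_two.1 z1).1, z2⟩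
            · intro hz
              obtain ⟨z1, z2⟩ := mem_cls.1 hz
              exact mem_cls.2 ⟨mem_two.2 ⟨z1, y, y1, y2, z2.trans y3⟩, z2⟩
          rw [e1, ← Real.le_log_iff_exp_le (by linarith [cls_card_pos (f := f j n r) x1])]
          exact (h1 r hr x x1).2)
      rw [sum_const, nsmul_eq_mul, mul_one] at this
      refine le_trans (mul_le_mul_of_nonneg_left ?_ (Real.exp_pos _).le) this
      exact_mod_cast h6
    have c3 : (W.card : ℝ) ≤ Real.exp (τ n + (ν q + ε / 8) * B.L n) * N n := by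
      have := le_count_mul W (fun _ => (1 : ℝ)) (f j n q)
        (m := Real.exp (τ n + (ν q + ε / 8) * B.L n)) (fun x hx => by
          rw [sum_const, nsmul_eq_mul, mul_one]
          have x1 := (mem_two.1 hx).1
          have e1 : ((cls W (f j n q) x).card : ℝ) ≤ (cls (I' n) (f j n q) x).card := by
            exact_mod_cast card_le_card (cls_mono (filter_subset _ _) _ _)
          refine e1.trans ?_
          rw [← Real.log_le_iff_le_exp (by linarith [cls_card_pos (f := f j n q) x1])]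
          exact h5 q hq x x1)
      rw [sum_const, nsmul_eq_mul, mul_one] at this
      exact this.trans (mul_le_mul_of_nonneg_left (h3 q hq r hrP hqr' i hi) (Real.exp_pos _).le)
    have himr : (1 : ℝ) ≤ ((A.image (f j n r)).card : ℝ) := by
      have : 0 < (A.image (f j n r)).card := card_pos.2 ⟨_, mem_image_of_mem _ hiA⟩
      exact_mod_cast this
    have l1 := Real.log_le_log (by linarith) c1
    rw [Real.log_mul h4.1.ne' (by linarith)] at l1
    have l2 := Real.log_le_log (by positivity) (c2.trans c3)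
    rw [Real.log_mul (Real.exp_pos _).ne' (by linarith), Real.log_exp,
      Real.log_mul (Real.exp_pos _).ne' h4.1.ne', Real.log_exp] at l2
    have e1 := (abs_le.1 (h2 r hrP)).1
    have e2 : ν p ≤ ν r + ε / 8 := by
      have h6 := (abs_le.1 (hlip p hp r hrP)).2
      have h7 : dist p r ≤ 1 / ((l : ℝ) + 1) := by
        rw [dist_eq_norm]
        refine le_trans ?_ hqr
        refine (pi_norm_le_iff_of_nonneg (norm_nonneg _)).2 fun a => ?_
        have h7 := norm_le_pi_norm (r - q₀) a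
        rw [Pi.sub_apply, Real.norm_eq_abs] at h7 ⊢
        refine le_trans ?_ h7
        rw [abs_sub_comm, abs_of_nonneg (by linarith [hpr a]),
          abs_of_nonneg (by linarith [hqp₀ a, hpr a])]
        linarith [hqp₀ a]
      have h8 := mul_le_mul_of_nonneg_left h7 (hK j)
      linarith
    have e3 : (ν p - 3 * (ε / 8)) * B.L n ≤ (φ n r - ε / 8) * B.L n :=
      mul_le_mul_of_nonneg_right (by linarith) hL.le
    have := h4.2
    nlinarith
  have hroot : ∀ ε : ℝ, 0 < ε → ∀ᶠ n in (U : Filter ℕ), ∀ p ∈ P j,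
      lc n p + τ n ≤ Real.log ((I' n).card) + (-(ν p - ε)) * B.L n := by
    intro ε hε
    filter_upwards [hunif ε hε] with n h1 p hp
    have e1 := (abs_le.1 (h1 p hp)).1
    have hL := B.L_pos n
    have e2 : (ν p - ε) * B.L n ≤ φ n p * B.L n := mul_le_mul_of_nonneg_right (by linarith) hL.le
    linarith [hφL n p]
  -- normalisation
  have hexpτ : ∀ n, ∀ t : ℝ, Real.exp (τ n + t * B.L n) = Real.exp (τ n) * B.d n ^ (-t) := by
    intro n t
    rw [Real.exp_add, B.exp_eq]
  refine ⟨fun n => Real.exp (τ n), ν, fun n => Real.exp_pos _, ?_,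
    ⟨fun _ ε hε => ?_, fun _ ε hε => ?_, fun _ ε hε => ?_⟩, hνb, fun p hp q hq => ?_, hanti⟩
  · filter_upwards [hne] with n h2
    obtain ⟨i, hi⟩ := h2
    have h3 : (1 : ℝ) ≤ (((I' n).image (f j n (b j))).card : ℝ) := by
      have : 0 < ((I' n).image (f j n (b j))).card := card_pos.2 ⟨_, mem_image_of_mem _ hi⟩
      exact_mod_cast this
    have h4 : (1 : ℝ) ≤ (I' n).card := by
      have : 0 < (I' n).card := card_pos.2 ⟨_, hi⟩
      exact_mod_cast this
    simp only [hτ, hlc]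
    rw [Real.exp_sub, Real.exp_log (by linarith), Real.exp_log (by linarith)]
    field_simp
  · filter_upwards [hup ε hε] with n h1 p hp _ i hi
    rw [← hexpτ, ← Real.log_le_iff_le_exp (by linarith [cls_card_pos (f := f j n p) hi])]
    exact h1 p hp i hi
  · filter_upwards [hnum ε hε] with n h1 q hq _ p hp _ hqp i hi
    have : (1 : ℝ) ≤ (((cls (I' n) (f j n q) i).image (f j n p)).card : ℝ) := by
      have : 0 < ((cls (I' n) (f j n q) i).image (f j n p)).card :=
        card_pos.2 ⟨_, mem_image_of_mem _ (self_mem_cls hi)⟩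
      exact_mod_cast this
    rw [← B.exp_eq, ← Real.log_le_iff_le_exp (by linarith)]
    exact h1 q hq p hp hqp i hi
  · filter_upwards [hroot ε hε, hne] with n h1 h2 p hp _
    obtain ⟨i, hi⟩ := h2
    have h3 : (1 : ℝ) ≤ (((I' n).image (f j n p)).card : ℝ) := by
      have : 0 < ((I' n).image (f j n p)).card := card_pos.2 ⟨_, mem_image_of_mem _ hi⟩
      exact_mod_cast this
    have h4 : (1 : ℝ) ≤ (I' n).card := by
      have : 0 < (I' n).card := card_pos.2 ⟨_, hi⟩
      exact_mod_cast this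
    have e := h1 p hp
    simp only [hlc] at e
    have h5 : B.d n ^ (ν p - ε) = Real.exp (-(ν p - ε) * B.L n) := by
      rw [B.exp_eq, neg_neg]
    rw [h5, ← Real.exp_log (show (0:ℝ) < (((I' n).image (f j n p)).card : ℝ) by linarith),
      ← Real.exp_log (show (0:ℝ) < ((I' n).card : ℝ) by linarith), ← Real.exp_add, ← Real.exp_add]
    exact Real.exp_le_exp.2 e
  · have := hlip p hp q hq
    rwa [dist_eq_norm] at this

end Crest.Agent.R136.Zpr779
end

-- ▼ part R136/Zpr2_779
section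

/-!
# R136: profiles at window scale (helper779), part 2: normalised profiles `TProf`

`TProf B I f P T ν` : class sizes `T n * d ^ (-ν p)`; `T = 1` is `QProf`, bounded `P` is `ZProf`.
`TProf.le_of_image` (comparison), `submod`, `own_le`, `refine`, `congrT`, `shift`.
-/

set_option autoImplicit false
set_option linter.unusedSectionVars false
set_option linter.unusedVariables false

open Filter Topology

namespace Crest.Agent.R136.Zpr779

open Finset Crest.Agent.R138.Ex926

/-- **normalised profile** -/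
structure TProf (B : Base) {ι κ : ℕ → Type*} [∀ n, DecidableEq (ι n)] [∀ n, DecidableEq (κ n)]
    {V : Type*} [LE V] (I : ∀ n, Finset (ι n)) (f : ∀ n, V → ι n → κ n) (P : Set V)
    (T : ℕ → ℝ) (ν : V → ℝ) : Prop where
  pos : ∀ n, 0 < T n
  up : ∀ ε : ℝ, 0 < ε → ∀ᶠ n in (U : Filter ℕ), ∀ p ∈ P, ∀ i ∈ I n,
    ((cls (I n) (f n p) i).card : ℝ) ≤ T n * B.d n ^ (-(ν p + ε))
  num : ∀ ε : ℝ, 0 < ε → ∀ᶠ n in (U : Filter ℕ), ∀ q ∈ P, ∀ p ∈ P, q ≤ p → ∀ i ∈ I n,
    (((cls (I n) (f n q) i).image (f n p)).card : ℝ) ≤ B.d n ^ (-(ν q - ν p + ε))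
  root : ∀ ε : ℝ, 0 < ε → ∀ᶠ n in (U : Filter ℕ), ∀ p ∈ P,
    (((I n).image (f n p)).card : ℝ) * T n ≤ (I n).card * B.d n ^ (ν p - ε)

section

variable {B : Base} {ι κ κ' : ℕ → Type*} [∀ n, DecidableEq (ι n)] [∀ n, DecidableEq (κ n)]
  [∀ n, DecidableEq (κ' n)] {V V' : Type*} [LE V] [LE V'] {I I' : ∀ n, Finset (ι n)}
  {f : ∀ n, V → ι n → κ n} {f' : ∀ n, V' → ι n → κ' n} {P : Set V} {P' : Set V'} {T T' : ℕ → ℝ}
  {ν : V → ℝ} {ν' : V' → ℝ}

theorem TProf.ofQ (h : QProf B I f P ν) : TProf B I f P (fun _ => 1) ν where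
  pos := fun _ => one_pos
  up := fun ε hε => (h.up ε hε).mono fun n hn p hp i hi => by rw [one_mul]; exact hn p hp i hi
  num := h.num
  root := fun ε hε => (h.root ε hε).mono fun n hn p hp => by rw [mul_one]; exact hn p hp

theorem TProf.ofZ {V : Type*} [LE V] [Norm V] {f : ∀ n, V → ι n → κ n} {P D : Set V} {ν : V → ℝ}
    (h : ZProf B I f D T ν) (hT : ∀ n, 0 < T n) (hP : P ⊆ D) {R : ℝ} (hR : ∀ p ∈ P, ‖p‖ ≤ R) :
    TProf B I f P T ν where
  pos := hT
  up := fun ε hε => (h.up R ε hε).mono fun n hn p hp i hi => hn p (hP hp) (hR p hp) i hi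
  num := fun ε hε => (h.num R ε hε).mono fun n hn q hq p hp hqp i hi =>
    hn q (hP hq) (hR q hq) p (hP hp) (hR p hp) hqp i hi
  root := fun ε hε => (h.root R ε hε).mono fun n hn p hp => hn p (hP hp) (hR p hp)

theorem TProf.toZ {V : Type*} [LE V] [Norm V] {f : ∀ n, V → ι n → κ n} {P : Set V} {ν : V → ℝ}
    (h : TProf B I f P T ν) : ZProf B I f P T ν where
  up := fun _ ε hε => (h.up ε hε).mono fun n hn p hp _ i hi => hn p hp i hi
  num := fun _ ε hε => (h.num ε hε).mono fun n hn q hq _ p hp _ hqp i hi =>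
    hn q hq p hp hqp i hi
  root := fun _ ε hε => (h.root ε hε).mono fun n hn p hp _ => hn p hp

theorem TProf.mono {P₁ : Set V} (h : TProf B I f P T ν) (hP : P₁ ⊆ P) : TProf B I f P₁ T ν where
  pos := h.pos
  up := fun ε hε => (h.up ε hε).mono fun n hn p hp i hi => hn p (hP hp) i hi
  num := fun ε hε => (h.num ε hε).mono fun n hn q hq p hp hqp i hi =>
    hn q (hP hq) p (hP hp) hqp i hi
  root := fun ε hε => (h.root ε hε).mono fun n hn p hp => hn p (hP hp)

theorem TProf.congr {ν₁ : V → ℝ} (h : TProf B I f P T ν) (he : ∀ p ∈ P, ν₁ p = ν p) :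
    TProf B I f P T ν₁ where
  pos := h.pos
  up := fun ε hε => (h.up ε hε).mono fun n hn p hp i hi => by rw [he p hp]; exact hn p hp i hi
  num := fun ε hε => (h.num ε hε).mono fun n hn q hq p hp hqp i hi => by
    rw [he p hp, he q hq]; exact hn q hq p hp hqp i hi
  root := fun ε hε => (h.root ε hε).mono fun n hn p hp => by rw [he p hp]; exact hn p hp

/-- other normalisation, same exponents -/
theorem TProf.congrT (h : TProf B I f P T ν) (hT' : ∀ n, 0 < T' n)
    (h1 : ∀ ε : ℝ, 0 < ε → ∀ᶠ n in (U : Filter ℕ), T n ≤ T' n * B.d n ^ (-ε))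
    (h2 : ∀ ε : ℝ, 0 < ε → ∀ᶠ n in (U : Filter ℕ), T' n ≤ T n * B.d n ^ (-ε)) :
    TProf B I f P T' ν where
  pos := hT'
  up := fun ε hε => by
    filter_upwards [h.up (ε / 2) (by positivity), h1 (ε / 2) (by positivity)] with n a b p hp i hi
    have hd : ∀ t : ℝ, 0 < B.d n ^ t := fun t => Real.rpow_pos_of_pos (B.pos n) t
    calc _ ≤ T n * B.d n ^ (-(ν p + ε / 2)) := a p hp i hi
      _ ≤ (T' n * B.d n ^ (-(ε / 2))) * B.d n ^ (-(ν p + ε / 2)) :=
          mul_le_mul_of_nonneg_right b (hd _).le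
      _ = _ := by rw [mul_assoc, ← Real.rpow_add (B.pos n)]; congr 2; ring
  num := h.num
  root := fun ε hε => by
    filter_upwards [h.root (ε / 2) (by positivity), h2 (ε / 2) (by positivity)] with n a b p hp
    have hd : ∀ t : ℝ, 0 < B.d n ^ t := fun t => Real.rpow_pos_of_pos (B.pos n) t
    calc _ ≤ (((I n).image (f n p)).card : ℝ) * (T n * B.d n ^ (-(ε / 2))) :=
          mul_le_mul_of_nonneg_left b (Nat.cast_nonneg _)
      _ = ((((I n).image (f n p)).card : ℝ) * T n) * B.d n ^ (-(ε / 2)) := by ring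
      _ ≤ ((I n).card * B.d n ^ (ν p - ε / 2)) * B.d n ^ (-(ε / 2)) :=
          mul_le_mul_of_nonneg_right (a p hp) (hd _).le
      _ = _ := by rw [mul_assoc, ← Real.rpow_add (B.pos n)]; congr 2; ring

/-- shift of the normalisation -/
theorem TProf.shift (h : TProf B I f P T ν) (a : ℝ) :
    TProf B I f P (fun n => T n * B.d n ^ a) (fun p => ν p + a) where
  pos := fun n => mul_pos (h.pos n) (Real.rpow_pos_of_pos (B.pos n) _)
  up := fun ε hε => (h.up ε hε).mono fun n hn p hp i hi => by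
    refine (hn p hp i hi).trans (le_of_eq ?_)
    rw [mul_assoc, ← Real.rpow_add (B.pos n)]; congr 2; ring
  num := fun ε hε => (h.num ε hε).mono fun n hn q hq p hp hqp i hi => by
    refine (hn q hq p hp hqp i hi).trans (le_of_eq ?_)
    congr 1; ring
  root := fun ε hε => (h.root ε hε).mono fun n hn p hp => by
    have hd : ∀ t : ℝ, 0 < B.d n ^ t := fun t => Real.rpow_pos_of_pos (B.pos n) t
    calc _ = ((((I n).image (f n p)).card : ℝ) * T n) * B.d n ^ a := by ring
      _ ≤ ((I n).card * B.d n ^ (ν p - ε)) * B.d n ^ a :=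
          mul_le_mul_of_nonneg_right (hn p hp) (hd _).le
      _ = _ := by rw [mul_assoc, ← Real.rpow_add (B.pos n)]; congr 2; ring

/-- a dense subset has the same profile (loss `d^(-ε)` for every `ε`) -/
theorem TProf.refine (h : TProf B I f P T ν) (hsub : ∀ᶠ n in (U : Filter ℕ), I' n ⊆ I n)
    (hd : ∀ ε : ℝ, 0 < ε → ∀ᶠ n in (U : Filter ℕ),
      ((I n).card : ℝ) ≤ B.d n ^ (-ε) * (I' n).card) : TProf B I' f P T ν where
  pos := h.pos
  up := fun ε hε => by
    filter_upwards [h.up ε hε, hsub] with n h1 h2 p hp i hi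
    refine le_trans ?_ (h1 p hp i (h2 hi))
    exact_mod_cast card_le_card (cls_mono h2 _ _)
  num := fun ε hε => by
    filter_upwards [h.num ε hε, hsub] with n h1 h2 q hq p hp hqp i hi
    refine le_trans ?_ (h1 q hq p hp hqp i (h2 hi))
    exact_mod_cast card_le_card (image_subset_image (cls_mono h2 _ _))
  root := fun ε hε => by
    filter_upwards [h.root (ε / 2) (by positivity), hsub, hd (ε / 2) (by positivity)] with
      n h1 h2 h3 p hp
    have e0 : ∀ t : ℝ, 0 < B.d n ^ t := fun t => Real.rpow_pos_of_pos (B.pos n) t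
    calc (((I' n).image (f n p)).card : ℝ) * T n ≤ (((I n).image (f n p)).card : ℝ) * T n := by
          refine mul_le_mul_of_nonneg_right ?_ (h.pos n).le
          exact_mod_cast card_le_card (image_subset_image h2)
      _ ≤ (I n).card * B.d n ^ (ν p - ε / 2) := h1 p hp
      _ ≤ (B.d n ^ (-(ε / 2)) * (I' n).card) * B.d n ^ (ν p - ε / 2) :=
          mul_le_mul_of_nonneg_right h3 (e0 _).le
      _ = (I' n).card * (B.d n ^ (-(ε / 2)) * B.d n ^ (ν p - ε / 2)) := by ring
      _ = (I' n).card * B.d n ^ (ν p - ε) := by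
          rw [← Real.rpow_add (B.pos n)]; congr 2; ring

/-- some class is as big as the profile says -/
theorem TProf.ev_big (h : TProf B I f P T ν) (hne : ∀ᶠ n in (U : Filter ℕ), (I n).Nonempty)
    {ε : ℝ} (hε : 0 < ε) : ∀ᶠ n in (U : Filter ℕ), ∀ p ∈ P, ∃ i ∈ I n,
      T n * B.d n ^ (-(ν p - ε)) ≤ ((cls (I n) (f n p) i).card : ℝ) := by
  filter_upwards [h.root ε hε, hne] with n h1 h2 p hp
  by_contra hcon
  push Not at hcon
  obtain ⟨i₀, hi₀⟩ := h2
  have h3 := h1 p hp
  have hd : ∀ t : ℝ, 0 < B.d n ^ t := fun t => Real.rpow_pos_of_pos (B.pos n) t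
  have h5 := card_eq_sum_card_image (f n p) (I n)
  have hI : ((I n).card : ℝ) < ((I n).image (f n p)).card * (T n * B.d n ^ (-(ν p - ε))) := by
    have h6 : ((I n).card : ℝ) =
        ∑ b ∈ (I n).image (f n p), (((I n).filter fun x => f n p x = b).card : ℝ) := by
      exact_mod_cast h5
    rw [h6, ← nsmul_eq_mul, ← sum_const]
    refine sum_lt_sum_of_nonempty ⟨_, mem_image_of_mem _ hi₀⟩ fun b hb => ?_
    obtain ⟨x, hx, rfl⟩ := mem_image.1 hb
    exact hcon x hx
  have h8 : (((I n).image (f n p)).card : ℝ) * (T n * B.d n ^ (-(ν p - ε))) ≤ (I n).card := by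
    calc _ = ((((I n).image (f n p)).card : ℝ) * T n) * B.d n ^ (-(ν p - ε)) := by ring
      _ ≤ ((I n).card * B.d n ^ (ν p - ε)) * B.d n ^ (-(ν p - ε)) :=
          mul_le_mul_of_nonneg_right h3 (hd _).le
      _ = (I n).card := by
          rw [mul_assoc, ← Real.rpow_add (B.pos n), add_neg_cancel, Real.rpow_zero, mul_one]
  linarith

theorem le_of_rpow (B : Base) {n : ℕ} {a : ℝ} (h : 1 ≤ B.d n ^ a) : a ≤ 0 := by
  by_contra hc
  push Not at hc
  exact absurd (Real.rpow_lt_one (B.pos n).le (B.lt n) hc) (not_lt.2 h)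

/-- **comparison of two profiles of one family** -/
theorem TProf.le_of_image (hν : TProf B I f P T ν) (hν' : TProf B I f' P' T' ν')
    (hne : ∀ᶠ n in (U : Filter ℕ), (I n).Nonempty) {p : V} {p' : V'} (hp : p ∈ P) (hp' : p' ∈ P')
    {a c : ℝ}
    (hT : ∀ ε : ℝ, 0 < ε → ∀ᶠ n in (U : Filter ℕ), T' n ≤ T n * B.d n ^ (-(c + ε)))
    (hm : ∀ ε : ℝ, 0 < ε → ∀ᶠ n in (U : Filter ℕ), ∀ i ∈ I n,
      (((cls (I n) (f n p) i).image (f' n p')).card : ℝ) ≤ B.d n ^ (-(a + ε))) :
    ν p ≤ ν' p' + a + c := by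
  classical
  refine le_of_forall_pos_le_add fun ε hε => ?_
  have hε4 : 0 < ε / 4 := by positivity
  obtain ⟨n, h1, h2, h3, h4, h5⟩ := (((hm _ hε4).and ((hν.root _ hε4).and
    ((hν'.up _ hε4).and (hne.and (hT _ hε4))))).exists)
  have hd : ∀ t : ℝ, 0 < B.d n ^ t := fun t => Real.rpow_pos_of_pos (B.pos n) t
  have hJ : (0 : ℝ) < (I n).card := by exact_mod_cast card_pos.2 h4
  have hTn := hν.pos n
  have c1 : ((I n).card : ℝ) ≤
      (T' n * B.d n ^ (-(ν' p' + ε / 4))) * ((I n).image (f' n p')).card := by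
    have := le_count_mul (I n) (fun _ => (1 : ℝ)) (f' n p')
      (m := T' n * B.d n ^ (-(ν' p' + ε / 4)))
      (fun x hx => by
        rw [sum_const, nsmul_eq_mul, mul_one]
        exact h3 p' hp' x hx)
    rwa [sum_const, nsmul_eq_mul, mul_one] at this
  have c2 : (((I n).image (f' n p')).card : ℝ) ≤
      B.d n ^ (-(a + ε / 4)) * ((I n).image (f n p)).card :=
    card_image_le_mul _ _ _ fun x hx => h1 x hx
  have c3 := h2 p hp
  have c4 : ((I n).card : ℝ) ≤ (T n * B.d n ^ (-(c + ε / 4))) * B.d n ^ (-(ν' p' + ε / 4)) *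
      (B.d n ^ (-(a + ε / 4)) * ((I n).image (f n p)).card) := by
    refine c1.trans (mul_le_mul (mul_le_mul_of_nonneg_right h5 (hd _).le) c2
      (Nat.cast_nonneg _) ?_)
    exact mul_nonneg (mul_nonneg hTn.le (hd _).le) (hd _).le
  have c5 : ((I n).card : ℝ) ≤ (I n).card * B.d n ^ (ν p - ν' p' - a - c - ε) := by
    calc ((I n).card : ℝ) ≤ _ := c4
      _ = (B.d n ^ (-(c + ε / 4)) * B.d n ^ (-(ν' p' + ε / 4)) * B.d n ^ (-(a + ε / 4))) *
          ((((I n).image (f n p)).card : ℝ) * T n) := by ring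
      _ ≤ (B.d n ^ (-(c + ε / 4)) * B.d n ^ (-(ν' p' + ε / 4)) * B.d n ^ (-(a + ε / 4))) *
          ((I n).card * B.d n ^ (ν p - ε / 4)) :=
          mul_le_mul_of_nonneg_left c3 (mul_nonneg (mul_nonneg (hd _).le (hd _).le) (hd _).le)
      _ = (I n).card * (B.d n ^ (-(c + ε / 4)) * B.d n ^ (-(ν' p' + ε / 4)) *
          B.d n ^ (-(a + ε / 4)) * B.d n ^ (ν p - ε / 4)) := by ring
      _ = _ := by
          rw [← Real.rpow_add (B.pos n), ← Real.rpow_add (B.pos n), ← Real.rpow_add (B.pos n)]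
          congr 2; ring
  have c6 : (1 : ℝ) ≤ B.d n ^ (ν p - ν' p' - a - c - ε) := by
    by_contra hc
    push Not at hc
    nlinarith
  linarith [le_of_rpow B c6]

/-- a class has at least as many sub-cells as one line -/
theorem TProf.own_le (hν : TProf B I f P T ν) (hτ : TProf B I f' P' T' ν')
    (hne : ∀ᶠ n in (U : Filter ℕ), (I n).Nonempty) {p p' : V} (hp : p ∈ P)
    (hp' : p' ∈ P) (hpp : p ≤ p') {q q' : V'} (hq : q ∈ P') (hq' : q' ∈ P')
    (h1 : ∀ᶠ n in (U : Filter ℕ), ∀ i ∈ I n, ∀ j ∈ I n, f' n q i = f' n q j → f n p i = f n p j)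
    (h2 : ∀ᶠ n in (U : Filter ℕ), ∀ i ∈ I n, ∀ j ∈ I n, f' n q i = f' n q j →
      f n p' i = f n p' j → f' n q' i = f' n q' j) : ν' q - ν' q' ≤ ν p - ν p' := by
  classical
  refine le_of_forall_pos_le_add fun ε hε => ?_
  have hε3 : 0 < ε / 3 := by positivity
  obtain ⟨n, a1, a2, a3, a4, a5⟩ := ((hτ.ev_big hne hε3).and ((hτ.up _ hε3).and
    ((hν.num _ hε3).and (h1.and h2)))).exists
  obtain ⟨i, hi, hbig⟩ := a1 q hq
  set O := cls (I n) (f' n q) i with hO
  have hiO : i ∈ O := self_mem_cls hi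
  have c1 : (O.card : ℝ) ≤ (T' n * B.d n ^ (-(ν' q' + ε / 3))) * (O.image (f' n q')).card := by
    have := le_count_mul O (fun _ => (1 : ℝ)) (f' n q') (m := T' n * B.d n ^ (-(ν' q' + ε / 3)))
      (fun s hs => by
        rw [sum_const, nsmul_eq_mul, mul_one]
        refine le_trans ?_ (a2 q' hq' s (mem_cls.1 hs).1)
        exact_mod_cast card_le_card (cls_mono (cls_subset _ _ _) _ _))
    rwa [sum_const, nsmul_eq_mul, mul_one] at this
  have c2 : (O.image (f' n q')).card ≤ (O.image (f n p')).card := by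
    refine card_image_le_card_image _ _ _ fun a ha b hb hab => ?_
    have ha' := mem_cls.1 ha
    have hb' := mem_cls.1 hb
    exact a5 a ha'.1 b hb'.1 (ha'.2.trans hb'.2.symm) hab
  have c3 : (O.image (f n p')).card ≤ ((cls (I n) (f n p) i).image (f n p')).card := by
    refine card_le_card (image_subset_image fun s hs => ?_)
    have hs' := mem_cls.1 hs
    exact mem_cls.2 ⟨hs'.1, a4 s hs'.1 i hi hs'.2⟩
  have c4 := a3 p hp p' hp' hpp i hi
  have c5 : ((O.image (f' n q')).card : ℝ) ≤ B.d n ^ (-(ν p - ν p' + ε / 3)) := by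
    refine le_trans ?_ c4
    exact_mod_cast c2.trans c3
  have hp0 : ∀ s : ℝ, 0 < B.d n ^ s := fun s => Real.rpow_pos_of_pos (B.pos n) s
  have hT := hτ.pos n
  have c6 : T' n * B.d n ^ (-(ν' q - ε / 3)) ≤
      T' n * (B.d n ^ (-(ν' q' + ε / 3)) * B.d n ^ (-(ν p - ν p' + ε / 3))) := by
    rw [← mul_assoc]
    exact hbig.trans (c1.trans (mul_le_mul_of_nonneg_left c5 (mul_pos hT (hp0 _)).le))
  have c7 := le_of_mul_le_mul_left c6 hT
  have c8 : (1 : ℝ) ≤ B.d n ^ (ν' q - ν' q' - (ν p - ν p') - ε) := by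
    have e1 : B.d n ^ (ν' q - ν' q' - (ν p - ν p') - ε) =
        (B.d n ^ (-(ν' q' + ε / 3)) * B.d n ^ (-(ν p - ν p' + ε / 3))) *
          B.d n ^ (ν' q - ε / 3) := by
      rw [← Real.rpow_add (B.pos n), ← Real.rpow_add (B.pos n)]; congr 1; ring
    rw [e1]
    calc (1 : ℝ) = B.d n ^ (-(ν' q - ε / 3)) * B.d n ^ (ν' q - ε / 3) := by
          rw [← Real.rpow_add (B.pos n), neg_add_cancel, Real.rpow_zero]
      _ ≤ _ := mul_le_mul_of_nonneg_right c7 (hp0 _).le
  linarith [le_of_rpow B c8]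

end

section Submod

variable {m : ℕ} {B : Base} {ι κ : ℕ → Type*} [∀ n, DecidableEq (ι n)] [∀ n, DecidableEq (κ n)]
  {I : ∀ n, Finset (ι n)} {f : ∀ n, (Fin m → ℝ) → ι n → κ n} {P : Set (Fin m → ℝ)} {T : ℕ → ℝ}
  {ν : (Fin m → ℝ) → ℝ}

/-- **supermodularity** -/
theorem TProf.submod (hν : TProf B I f P T ν) (hJ : QJoin B I f P)
    (hne : ∀ᶠ n in (U : Filter ℕ), (I n).Nonempty) {p q : Fin m → ℝ} (hp : p ∈ P) (hq : q ∈ P)
    (ho : p ⊓ q ∈ P) (hr : p ⊔ q ∈ P) : ν p + ν q ≤ ν (p ⊔ q) + ν (p ⊓ q) := by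
  classical
  refine le_of_forall_pos_le_add fun ε hε => ?_
  obtain ⟨N, hN, hj⟩ := hJ
  have hε5 : 0 < ε / 5 := by positivity
  obtain ⟨n, h1, h2, h3, h4, h5⟩ := (((hν.ev_big hne hε5).and ((hν.up _ hε5).and
    ((hν.num _ hε5).and (hj.and (hN.ev_le hε5))))).exists)
  obtain ⟨i, hi, hbig⟩ := h1 _ ho
  have hL := B.L_pos n
  set A := cls (I n) (f n (p ⊓ q)) i with hA
  have hiA : i ∈ A := self_mem_cls hi
  -- number of r-classes
  have c1 : ((A.image (f n (p ⊔ q))).card : ℝ) ≤
      N n * (A.image (fun x => (f n p x, f n q x))).card := by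
    refine card_image_le_mul _ _ _ fun x hx => ?_
    have x1 := (mem_cls.1 hx).1
    refine le_trans ?_ (h4 p hp q hq x x1)
    have hs : cls A (fun x => (f n p x, f n q x)) x ⊆
        cls (I n) (f n p) x ∩ cls (I n) (f n q) x := by
      intro y hy
      obtain ⟨y1, y2⟩ := mem_cls.1 hy
      rw [Prod.mk.injEq] at y2
      have y3 := (mem_cls.1 y1).1
      exact mem_inter.2 ⟨mem_cls.2 ⟨y3, y2.1⟩, mem_cls.2 ⟨y3, y2.2⟩⟩
    exact_mod_cast card_le_card (image_subset_image hs)
  have c2 : ((A.image (fun x => (f n p x, f n q x))).card : ℝ) ≤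
      (A.image (f n p)).card * (A.image (f n q)).card := by
    have hs : A.image (fun x => (f n p x, f n q x)) ⊆ (A.image (f n p)) ×ˢ (A.image (f n q)) := by
      intro y hy
      obtain ⟨x, hx, rfl⟩ := mem_image.1 hy
      exact mem_product.2 ⟨mem_image_of_mem _ hx, mem_image_of_mem _ hx⟩
    have := card_le_card hs
    rw [card_product] at this
    exact_mod_cast this
  have c3 : (A.card : ℝ) ≤ (T n * B.d n ^ (-(ν (p ⊔ q) + ε / 5))) *
      (A.image (f n (p ⊔ q))).card := by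
    have := le_count_mul A (fun _ => (1 : ℝ)) (f n (p ⊔ q))
      (m := T n * B.d n ^ (-(ν (p ⊔ q) + ε / 5))) (fun x hx => by
        rw [sum_const, nsmul_eq_mul, mul_one]
        refine le_trans ?_ (h2 _ hr x (mem_cls.1 hx).1)
        exact_mod_cast card_le_card (cls_mono (cls_subset _ _ _) _ _))
    rwa [sum_const, nsmul_eq_mul, mul_one] at this
  have c4 := h3 _ ho p hp inf_le_left i hi
  have c5 := h3 _ ho q hq inf_le_right i hi
  have hpos : ∀ t : ℝ, 0 < B.d n ^ t := fun t => Real.rpow_pos_of_pos (B.pos n) t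
  have hNε : N n ≤ B.d n ^ (-(ε / 5)) := by
    rw [← B.exp_eq, ← Real.log_le_iff_le_exp h5.1]
    exact h5.2
  have hT := hν.pos n
  have hN0 := h5.1
  have c6 : T n * B.d n ^ (-(ν (p ⊓ q) - ε / 5)) ≤
      T n * (B.d n ^ (-(ν (p ⊔ q) + ε / 5)) * (B.d n ^ (-(ε / 5)) *
        (B.d n ^ (-(ν (p ⊓ q) - ν p + ε / 5)) * B.d n ^ (-(ν (p ⊓ q) - ν q + ε / 5))))) := by
    rw [← mul_assoc]
    refine hbig.trans (c3.trans (mul_le_mul_of_nonneg_left ?_ (mul_pos hT (hpos _)).le))
    refine c1.trans (mul_le_mul hNε (c2.trans (mul_le_mul c4 c5 (Nat.cast_nonneg _) (hpos _).le))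
      (Nat.cast_nonneg _) (hpos _).le)
  have c7 := le_of_mul_le_mul_left c6 hT
  have c8 : (1 : ℝ) ≤ B.d n ^ (ν p + ν q - ν (p ⊔ q) - ν (p ⊓ q) - ε) := by
    have e1 : B.d n ^ (ν p + ν q - ν (p ⊔ q) - ν (p ⊓ q) - ε) =
        (B.d n ^ (-(ν (p ⊔ q) + ε / 5)) * (B.d n ^ (-(ε / 5)) *
        (B.d n ^ (-(ν (p ⊓ q) - ν p + ε / 5)) * B.d n ^ (-(ν (p ⊓ q) - ν q + ε / 5))))) *
          B.d n ^ (ν (p ⊓ q) - ε / 5) := by
      rw [← Real.rpow_add (B.pos n), ← Real.rpow_add (B.pos n), ← Real.rpow_add (B.pos n),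
        ← Real.rpow_add (B.pos n)]; congr 1; ring
    rw [e1]
    calc (1 : ℝ) = B.d n ^ (-(ν (p ⊓ q) - ε / 5)) * B.d n ^ (ν (p ⊓ q) - ε / 5) := by
          rw [← Real.rpow_add (B.pos n), neg_add_cancel, Real.rpow_zero]
      _ ≤ _ := mul_le_mul_of_nonneg_right c7 (hpos _).le
  linarith [le_of_rpow B c8]

end Submod

end Crest.Agent.R136.Zpr779
end

-- ▼ part R136/Zpr3_779

/-!
# R136: profiles at window scale (helper779), part 3: second profile of a chart

`znet_QFam`, `znet_QJoin` : the nets of a chart at the exponents `X n + w n • c` are quasi-nested in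
the window base; `line_QFam` : the same for (line, label).
`exists_zwin_new` : **second profile**: for any chart of `E n` a dense part with a `ZWin` and a
`ZProf` of the own labels.
-/

set_option autoImplicit false
set_option linter.unusedSectionVars false
set_option linter.unusedVariables false

open Filter Topology

namespace Crest.Agent.R136.Zpr779

open Finset Crest.Agent.R138.Ex926 Crest.Agent.R136.Net191 Crest.Agent.R136.Qg926

variable {m : ℕ} {ι : ℕ → Type*} [∀ n, DecidableEq (ι n)] {B B' : Base} {I J : ∀ n, Finset (ι n)}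
  {co : ∀ n, ι n → ι n → Fin m → ℝ} {M : Mons m} {C : ℝ} {X : ℕ → Fin m → ℝ} {w : ℕ → ℝ}
  {P : Set (Fin m → ℝ)}

theorem side_sum (hb : ∀ n, B'.d n = B.d n ^ w n) (n : ℕ) (c c' : Fin m → ℝ) :
    B.d n ^ (-(∑ s, ((X n + w n • c') s - (X n + w n • c) s))) =
      B'.d n ^ (-(∑ s, (c' s - c s))) := by
  rw [hb n, ← Real.rpow_mul (B.pos n).le]
  congr 1
  rw [mul_neg, mul_sum]
  congr 1
  refine sum_congr rfl fun s _ => ?_
  simp only [Pi.add_apply, Pi.smul_apply, smul_eq_mul]; ring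

theorem znet_QFam (h : ∀ n, Chart (I n) (co n) M C) (hw : ∀ n, 0 < w n)
    (hb : ∀ n, B'.d n = B.d n ^ w n)
    (hP : ∀ᶠ n in (U : Filter ℕ), ∀ c ∈ P, Legal M (X n + w n • c)) :
    QFam B' I (zlab B I co M C X w) m P where
  nest := by
    have hC0 := (h 0).C0
    have hK0 : 1 ≤ cK0 M C := cK0_one hC0
    set K1 := triC M C (cK0 M C) with hK1
    have hK11 : 1 ≤ K1 := hK0.trans (triC_ge hC0 hK0)
    set K2 := symC M C K1 m with hK2
    have hK21 : 1 ≤ K2 := hK11.trans (symC_ge M hC0 hK11 m)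
    refine ⟨fun _ => cN M C K2, const_sub' B' (cN_pos M hC0 hK21), ?_⟩
    filter_upwards [hP] with n hPn p hp p' hp' hpp i hi
    classical
    have hd := B.pos n
    have hd1 := (B.lt n).le
    have hpp2 : X n + w n • p ≤ X n + w n • p' := add_smul_mono (hw n).le hpp
    have h1 := card_nlab_le (B := B) h (hPn p hp) (hPn p hp) le_rfl hK21 hi
    simp only [sub_self, Finset.sum_const_zero, neg_zero, Real.rpow_zero, mul_one] at h1
    refine le_trans ?_ h1
    have hsub : (two (I n) (zlab B I co M C X w n p) (zlab B I co M C X w n p') i).image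
        (zlab B I co M C X w n p) ⊆
        ((I n).filter fun j => Near (co n) (B.d n) (X n + w n • p) K2 i j).image
          (nlab B I co M C n (X n + w n • p)) := by
      refine Finset.image_subset_image fun x hx => ?_
      obtain ⟨hxI, y, hyI, hyi, hxy⟩ := mem_two.1 hx
      rw [Finset.mem_filter]
      refine ⟨hxI, ?_⟩
      have n1 := (near_of_nlab h (hPn p' hp') hxI hyI hxy).anti hd hd1 (by linarith) hpp2
      have n2 := near_of_nlab h (hPn p hp) hyI hi hyi
      have n3 := (h n).tri (hPn p hp) hd hd1 hK0 hxI hyI hi n1 n2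
      exact (h n).symm (hPn p hp) hd hd1 hK11 hxI hi n3
    have := Finset.card_le_card hsub
    exact_mod_cast this
  child := by
    have hC0 := (h 0).C0
    have hK0 : 1 ≤ cK0 M C := cK0_one hC0
    intro ε hε
    have hN := cN_pos M hC0 hK0
    filter_upwards [ev_const_le B' hN hε, hP] with n hn hPn p hp p' hp' hpp i hi
    classical
    have hd : ∀ t : ℝ, 0 < B'.d n ^ t := fun t => Real.rpow_pos_of_pos (B'.pos n) t
    have h1 := card_nlab_le (B := B) h (hPn p hp) (hPn p' hp') (add_smul_mono (hw n).le hpp) hK0 hi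
    rw [side_sum hb] at h1
    have hsub : (cls (I n) (zlab B I co M C X w n p) i).image (zlab B I co M C X w n p') ⊆
        ((I n).filter fun j => Near (co n) (B.d n) (X n + w n • p) (cK0 M C) i j).image
          (nlab B I co M C n (X n + w n • p')) := by
      refine Finset.image_subset_image fun x hx => ?_
      obtain ⟨hxI, hxi⟩ := mem_cls.1 hx
      rw [Finset.mem_filter]
      exact ⟨hxI, near_of_nlab h (hPn p hp) hi hxI hxi.symm⟩
    have h2 : (((cls (I n) (zlab B I co M C X w n p) i).image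
        (zlab B I co M C X w n p')).card : ℝ) ≤
        cN M C (cK0 M C) * B'.d n ^ (-(∑ s, (p' s - p s))) := by
      refine le_trans ?_ h1
      exact_mod_cast Finset.card_le_card hsub
    have h3 : ∑ s, (p' s - p s) ≤ (m : ℝ) * ‖p' - p‖ := by
      calc ∑ s, (p' s - p s) ≤ ∑ _s : Fin m, ‖p' - p‖ := Finset.sum_le_sum fun s _ => by
            have := norm_le_pi_norm (p' - p) s
            rw [Pi.sub_apply, Real.norm_eq_abs] at this
            exact (le_abs_self _).trans this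
        _ = (m : ℝ) * ‖p' - p‖ := by simp
    calc _ ≤ cN M C (cK0 M C) * B'.d n ^ (-(∑ s, (p' s - p s))) := h2
      _ ≤ B'.d n ^ (-ε) * B'.d n ^ (-(m * ‖p' - p‖)) := by
          refine mul_le_mul hn ?_ (hd _).le (hd _).le
          exact Real.rpow_le_rpow_of_exponent_ge (B'.pos n) (B'.lt n).le (by linarith)
      _ = _ := by rw [← Real.rpow_add (B'.pos n)]; congr 1; ring

theorem znet_QJoin (h : ∀ n, Chart (I n) (co n) M C) (hw : ∀ n, 0 < w n)
    (hP : ∀ᶠ n in (U : Filter ℕ), ∀ c ∈ P, Legal M (X n + w n • c)) :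
    QJoin B' I (zlab B I co M C X w) P := by
  have hC0 := (h 0).C0
  have hK0 : 1 ≤ cK0 M C := cK0_one hC0
  refine ⟨fun _ => cN M C (cK0 M C), const_sub' B' (cN_pos M hC0 hK0), ?_⟩
  filter_upwards [hP] with n hPn p hp q hq i hi
  classical
  have hpq : Legal M (X n + w n • (p ⊔ q)) := by
    rw [← smul_sup_pi (hw n).le]
    exact (hPn p hp).sup (hPn q hq)
  have h1 := card_nlab_le (B := B) h hpq hpq le_rfl hK0 hi
  simp only [sub_self, Finset.sum_const_zero, neg_zero, Real.rpow_zero, mul_one] at h1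
  refine le_trans ?_ h1
  have hsub : (cls (I n) (zlab B I co M C X w n p) i ∩ cls (I n) (zlab B I co M C X w n q) i).image
      (zlab B I co M C X w n (p ⊔ q)) ⊆
      ((I n).filter fun j => Near (co n) (B.d n) (X n + w n • (p ⊔ q)) (cK0 M C) i j).image
        (nlab B I co M C n (X n + w n • (p ⊔ q))) := by
    refine Finset.image_subset_image fun x hx => ?_
    rw [Finset.mem_inter] at hx
    obtain ⟨hxI, hxp⟩ := mem_cls.1 hx.1
    obtain ⟨_, hxq⟩ := mem_cls.1 hx.2
    rw [Finset.mem_filter]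
    refine ⟨hxI, ?_⟩
    rw [← smul_sup_pi (hw n).le]
    exact (near_of_nlab h (hPn p hp) hi hxI hxp.symm).sup
      (near_of_nlab h (hPn q hq) hi hxI hxq.symm)
  exact_mod_cast Finset.card_le_card hsub

/-- (line, label) is a quasi-nested family -/
theorem line_QFam {κ : ℕ → Type*} [∀ n, DecidableEq (κ n)] {f : ∀ n, (Fin m → ℝ) → ι n → κ n}
    {K : ℝ} (h : QFam B I f K P) (line : ∀ n, ι n → ℕ) :
    QFam B I (fun n p x => (line n x, f n p x)) K P where
  nest := by
    obtain ⟨N, hN, h1⟩ := h.nest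
    refine ⟨N, hN, ?_⟩
    filter_upwards [h1] with n hn p hp p' hp' hpp i hi
    refine le_trans ?_ (hn p hp p' hp' hpp i hi)
    have hs : (two (I n) (fun x => (line n x, f n p x)) (fun x => (line n x, f n p' x)) i).image
        (fun x => (line n x, f n p x)) ⊆
        ((two (I n) (f n p) (f n p') i).image (f n p)).image fun c => (line n i, c) := by
      intro c hc
      obtain ⟨z, hz, rfl⟩ := mem_image.1 hc
      obtain ⟨z1, y, y1, y2, y3⟩ := mem_two.1 hz
      simp only [Prod.mk.injEq] at y2 y3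
      refine mem_image.2 ⟨f n p z, mem_image_of_mem _ (mem_two.2 ⟨z1, y, y1, y2.2, y3.2⟩), ?_⟩
      rw [y3.1, y2.1]
    exact_mod_cast (card_le_card hs).trans card_image_le
  child := by
    intro ε hε
    filter_upwards [h.child ε hε] with n hn p hp p' hp' hpp i hi
    refine le_trans ?_ (hn p hp p' hp' hpp i hi)
    have hs : (cls (I n) (fun x => (line n x, f n p x)) i).image (fun x => (line n x, f n p' x)) ⊆
        ((cls (I n) (f n p) i).image (f n p')).image fun c => (line n i, c) := by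
      intro c hc
      obtain ⟨z, hz, rfl⟩ := mem_image.1 hc
      obtain ⟨z1, z2⟩ := mem_cls.1 hz
      simp only [Prod.mk.injEq] at z2
      refine mem_image.2 ⟨f n p' z, mem_image_of_mem _ (mem_cls.2 ⟨z1, z2.2⟩), ?_⟩
      rw [z2.1]
    exact_mod_cast (card_le_card hs).trans card_image_le

/-- sharp Lipschitz bound -/
theorem tprof_sharp (h : ∀ n, Chart (I n) (co n) M C) (hw : ∀ n, 0 < w n)
    (hb : ∀ n, B'.d n = B.d n ^ w n)
    (hP : ∀ᶠ n in (U : Filter ℕ), ∀ c ∈ P, Legal M (X n + w n • c))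
    (hsub : ∀ᶠ n in (U : Filter ℕ), J n ⊆ I n) (hne : ∀ᶠ n in (U : Filter ℕ), (J n).Nonempty)
    {T : ℕ → ℝ} {ν : (Fin m → ℝ) → ℝ} (hν : TProf B' J (zlab B I co M C X w) P T ν)
    {p q : Fin m → ℝ} (hp : p ∈ P) (hq : q ∈ P) (hpq : p ≤ q) :
    ν p - ν q ≤ ∑ s, (q s - p s) := by
  classical
  refine le_of_forall_pos_le_add fun ε hε => ?_
  have hK0 : 1 ≤ cK0 M C := cK0_one (h 0).C0
  have hN : 0 < cN M C (cK0 M C) := cN_pos M (h 0).C0 hK0
  have hε4 : 0 < ε / 4 := by positivity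
  obtain ⟨n, h1, h2, h3, h4, h5⟩ := (((hν.ev_big hne hε4).and ((hν.up _ hε4).and
    (hsub.and ((ev_const_le B' hN hε4).and hP)))).exists)
  obtain ⟨i, hi, hbig⟩ := h1 p hp
  set A := cls (J n) (zlab B I co M C X w n p) i with hA
  have hd : ∀ t : ℝ, 0 < B'.d n ^ t := fun t => Real.rpow_pos_of_pos (B'.pos n) t
  have hT := hν.pos n
  have c1 : (A.card : ℝ) ≤ (T n * B'.d n ^ (-(ν q + ε / 4))) *
      (A.image (zlab B I co M C X w n q)).card := by
    have := le_count_mul A (fun _ => (1 : ℝ)) (zlab B I co M C X w n q)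
      (m := T n * B'.d n ^ (-(ν q + ε / 4))) (fun x hx => by
        rw [sum_const, nsmul_eq_mul, mul_one]
        have hxI : x ∈ J n := (mem_cls.1 hx).1
        refine le_trans ?_ (h2 q hq x hxI)
        exact_mod_cast card_le_card (cls_mono (cls_subset _ _ _) _ _))
    rwa [sum_const, nsmul_eq_mul, mul_one] at this
  have c2 : ((A.image (zlab B I co M C X w n q)).card : ℝ) ≤
      cN M C (cK0 M C) * B'.d n ^ (-(∑ s, (q s - p s))) := by
    have h6 := card_nlab_le (B := B) h (h5 p hp) (h5 q hq) (add_smul_mono (hw n).le hpq) hK0 (h3 hi)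
    rw [side_sum hb] at h6
    refine le_trans ?_ h6
    have : A.image (zlab B I co M C X w n q) ⊆
        ((I n).filter fun j => Near (co n) (B.d n) (X n + w n • p) (cK0 M C) i j).image
          (nlab B I co M C n (X n + w n • q)) := by
      refine image_subset_image fun x hx => ?_
      obtain ⟨hxI, hxi⟩ := mem_cls.1 hx
      rw [mem_filter]
      exact ⟨h3 hxI, near_of_nlab h (h5 p hp) (h3 hi) (h3 hxI) hxi.symm⟩
    exact_mod_cast card_le_card this
  have c6 : T n * B'.d n ^ (-(ν p - ε / 4)) ≤ T n * (B'.d n ^ (-(ν q + ε / 4)) *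
      (B'.d n ^ (-(ε / 4)) * B'.d n ^ (-(∑ s, (q s - p s))))) := by
    rw [← mul_assoc]
    refine hbig.trans (c1.trans (mul_le_mul_of_nonneg_left ?_ (mul_pos hT (hd _)).le))
    exact c2.trans (mul_le_mul_of_nonneg_right h4 (hd _).le)
  have c7 := le_of_mul_le_mul_left c6 hT
  have c8 : (1 : ℝ) ≤ B'.d n ^ (ν p - ν q - ∑ s, (q s - p s) - ε) := by
    have e1 : B'.d n ^ (ν p - ν q - ∑ s, (q s - p s) - ε) =
        (B'.d n ^ (-(ν q + ε / 4)) * (B'.d n ^ (-(ε / 4)) * B'.d n ^ (-(∑ s, (q s - p s))))) *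
          (B'.d n ^ (ν p - ε / 4) * B'.d n ^ (-(ε / 4))) := by
      rw [← Real.rpow_add (B'.pos n), ← Real.rpow_add (B'.pos n), ← Real.rpow_add (B'.pos n),
        ← Real.rpow_add (B'.pos n)]; congr 1; ring
    rw [e1]
    have e2 : (1 : ℝ) ≤ B'.d n ^ (-(ε / 4)) :=
      Real.one_le_rpow_of_pos_of_le_one_of_nonpos (B'.pos n) (B'.lt n).le (by linarith)
    calc (1 : ℝ) = B'.d n ^ (-(ν p - ε / 4)) * B'.d n ^ (ν p - ε / 4) := by
          rw [← Real.rpow_add (B'.pos n), neg_add_cancel, Real.rpow_zero]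
      _ ≤ (B'.d n ^ (-(ν q + ε / 4)) * (B'.d n ^ (-(ε / 4)) * B'.d n ^ (-(∑ s, (q s - p s))))) *
          B'.d n ^ (ν p - ε / 4) := mul_le_mul_of_nonneg_right c7 (hd _).le
      _ ≤ _ := by
          refine mul_le_mul_of_nonneg_left ?_ (mul_nonneg (hd _).le (mul_nonneg (hd _).le (hd _).le))
          exact le_mul_of_one_le_right (hd _).le e2
  linarith [le_of_rpow B' c8]

theorem Leg_zero (Mw : Mons m) {R : ℝ} (hR : 0 ≤ R) : (0 : Fin m → ℝ) ∈ Leg Mw R :=
  ⟨⟨fun _ => le_rfl, fun k e _ => by simp⟩, fun _ => hR⟩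

theorem Leg_nonneg {Mw : Mons m} {R : ℝ} {p : Fin m → ℝ} (hp : p ∈ Leg Mw R) :
    (0 : Fin m → ℝ) ≤ p := fun s => hp.1.nonneg s

theorem Leg_norm {Mw : Mons m} {R : ℝ} (hR : 0 ≤ R) {p : Fin m → ℝ} (hp : p ∈ Leg Mw R) :
    ‖p‖ ≤ R :=
  (pi_norm_le_iff_of_nonneg hR).2 fun s => by
    rw [Real.norm_eq_abs, abs_of_nonneg (hp.1.nonneg s)]; exact hp.2 s

/-- **second profile**: a dense part of `E n` with a window profile of the chart and an own
profile. -/
theorem exists_zwin_new {E : ∀ n, Finset (ι n)} (h : ∀ n, Chart (E n) (co n) M C)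
    (hw : ∀ n, 0 < w n) (hb : ∀ n, B'.d n = B.d n ^ w n) (Mw : Mons m) {R : ℝ} (hR : 0 ≤ R)
    (hP : ∀ᶠ n in (U : Filter ℕ), ∀ c ∈ Leg Mw R, Legal M (X n + w n • c))
    (hne : ∀ᶠ n in (U : Filter ℕ), (E n).Nonempty) {H : ℕ → ℝ} (hH : B'.Sub H)
    (hcard : ∀ᶠ n in (U : Filter ℕ), (Nat.log 2 (E n).card : ℝ) + 1 ≤ H n)
    (line : ∀ n, ι n → ℕ) :
    ∃ (J : ∀ n, Finset (ι n)) (S : ℕ → ℝ), B'.Sub S ∧
      (∀ᶠ n in (U : Filter ℕ), J n ⊆ E n ∧ (J n).Nonempty ∧
        ((E n).card : ℝ) ≤ S n * (J n).card ∧ 1 ≤ S n) ∧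
      ∃ (T : ℕ → ℝ) (ν : (Fin m → ℝ) → ℝ) (To : ℕ → ℝ) (own : (Fin m → ℝ) → ℝ),
        ZWin B B' E J co M C X w (Leg Mw R) T ν ∧
        (∀ᶠ n in (U : Filter ℕ),
          T n * (((J n).image (zlab B E co M C X w n 0)).card : ℝ) = (J n).card) ∧
        TProf B' J (fun n p x => (line n x, zlab B E co M C X w n p x)) (Leg Mw R) To own ∧
        (∀ᶠ n in (U : Filter ℕ),
          To n * (((J n).image fun x => (line n x, zlab B E co M C X w n 0 x)).card : ℝ) =
            (J n).card) ∧ own 0 = 0 ∧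
        (∀ p ∈ Leg Mw R, ∀ q ∈ Leg Mw R, |own p - own q| ≤ m * ‖p - q‖) ∧
        (∀ p ∈ Leg Mw R, ∀ q ∈ Leg Mw R, p ≤ q → own q ≤ own p) ∧
        (∀ p ∈ Leg Mw R, ∀ q ∈ Leg Mw R, p ≤ q → own p - own q ≤ ν p - ν q) := by
  classical
  have hf1 := znet_QFam (B := B) (B' := B') h hw hb hP
  have hf2 := line_QFam (B := B') hf1 line
  obtain ⟨J, S, hS, hbas, hj⟩ := exists_zprof_many (B := B') (J := Bool) (m := fun _ => m)
    (κ := fun b n => ℕ × ι n) (I := E)
    (f := fun b n p x => (bif b then line n x else 0, zlab B E co M C X w n p x))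
    (K := fun _ => (m : ℝ))
    (fun _ => Nat.cast_nonneg m) (P := fun _ => Leg Mw R) (fun _ => snet_Leg Mw hR)
    (fun _ => isCompact_Leg Mw R) (fun _ p hp q hq => Leg.sup hp hq) (b := fun _ => 0)
    (fun _ => Leg_zero Mw hR) (fun _ p hp => Leg_nonneg hp)
    (by
      intro b
      cases b
      · exact line_QFam (B := B') hf1 fun _ _ => 0
      · exact hf2) hne hH hcard
  have hsub : ∀ᶠ n in (U : Filter ℕ), J n ⊆ E n := hbas.mono fun n hn => hn.1
  have hneJ : ∀ᶠ n in (U : Filter ℕ), (J n).Nonempty := hbas.mono fun n hn => hn.2.1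
  obtain ⟨T, ν, hT, hTc, hZ, hν0, hνl, hνa⟩ := hj false
  obtain ⟨To, own, hTo, hToc, hZo, hown0, hownl, howna⟩ := hj true
  simp only [cond_false, cond_true] at hTc hZ hToc hZo
  -- the first family without the dummy coordinate
  have hcl : ∀ n (A : Finset (ι n)) (p : Fin m → ℝ) (i : ι n),
      cls A (fun x => ((0 : ℕ), zlab B E co M C X w n p x)) i =
        cls A (zlab B E co M C X w n p) i := by
    intro n A p i
    ext y
    rw [mem_cls, mem_cls]
    simp
  have hci : ∀ n (A : Finset (ι n)) (p : Fin m → ℝ),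
      (A.image fun x => ((0 : ℕ), zlab B E co M C X w n p x)).card =
        (A.image (zlab B E co M C X w n p)).card := by
    intro n A p
    have : (A.image fun x => ((0 : ℕ), zlab B E co M C X w n p x)) =
        (A.image (zlab B E co M C X w n p)).image fun y => ((0 : ℕ), y) := by
      rw [image_image]; rfl
    rw [this]
    exact card_image_of_injective _ fun a b hab => (Prod.mk.inj hab).2
  have hZ' : ZProf B' J (zlab B E co M C X w) (Leg Mw R) T ν :=
    { up := fun K ε hε => by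
        filter_upwards [hZ.up K ε hε] with n hn c hc hcK i hi
        have := hn c hc hcK i hi
        rwa [hcl] at this
      num := fun K ε hε => by
        filter_upwards [hZ.num K ε hε] with n hn c hc hcK c' hc' hcK' hcc i hi
        have := hn c hc hcK c' hc' hcK' hcc i hi
        rwa [hcl, hci] at this
      root := fun K ε hε => by
        filter_upwards [hZ.root K ε hε] with n hn c hc hcK
        have := hn c hc hcK
        rwa [hci] at this }
  have hTP : TProf B' J (zlab B E co M C X w) (Leg Mw R) T ν :=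
    TProf.ofZ hZ' hT (Set.Subset.refl _) fun p hp => Leg_norm hR hp
  have hTPo : TProf B' J (fun n p x => (line n x, zlab B E co M C X w n p x)) (Leg Mw R) To own :=
    TProf.ofZ hZo hTo (Set.Subset.refl _) fun p hp => Leg_norm hR hp
  refine ⟨J, S, hS, hbas, T, ν, To, own, ?_, ?_, hTPo, hToc, hown0, hownl, howna, ?_⟩
  · exact
      { chart := h, sub := hsub, ne := hneJ, w0 := hw, base := hb, zero := Leg_zero Mw hR
        legal := fun K => hP.mono fun n hn c hc _ => hn c hc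
        prof := hZ', lam0 := hν0, T0 := hT, lip := hνl, anti := hνa
        sharp := fun c hc c' hc' hcc => tprof_sharp (B := B) h hw hb hP hsub hneJ hTP hc hc' hcc
        submod := fun c hc c' hc' hi hs => hTP.submod
          ((znet_QJoin (B := B) (B' := B') h hw hP).mono hsub (Set.Subset.refl _)) hneJ hc hc'
          hi hs }
  · filter_upwards [hTc] with n hn
    rwa [hci] at hn
  · intro p hp q hq hpq
    -- a `p`-class of `ν` and the line determine the own class
    refine hTP.own_le hTPo hneJ hp hq hpq hp hq ?_ ?_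
    · exact Eventually.of_forall fun n i _ j _ hij => (Prod.mk.inj hij).2
    · refine Eventually.of_forall fun n i _ j _ hij hq' => ?_
      exact Prod.ext (Prod.mk.inj hij).1 hq'

end Crest.Agent.R136.Zpr779
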