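import Crest.Agent.R136.Dec4_146
import Crest.Agent.R136.Zpr3_779
import Crest.Agent.R136.ExtZ_779
import Crest.Agent.R136.Net4_186

-- ▼ part R136/Own1_831
section

/-!
# R136: the own dichotomy (helper831)

`own` = own profile (incidences of one line), natural path `v ↦ b + v • e` along which a slot `j` is
full; `oloss own b e j v y` = own loss of the slot `j` at the distance `y` beyond the path.

`own_dich` : at a.e. `v` either the loss is `≥ c y` for all small `y` (the slot rotates visibly, at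
every scale), or there is a sequence of scales `h l → 0` along which the loss vanishes at every base
point `v + a h l` and at every distance `u h l` (the slot is constant along the lines, infinite gap).
-/

set_option autoImplicit false
set_option linter.unusedSectionVars false
set_option linter.unusedVariables false

open Filter Topology MeasureTheory Set

namespace Crest.Agent.R136.Own831

open Crest.Agent.R136.Dec146

variable {ι : Type*} [Fintype ι] [DecidableEq ι]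

/-- own loss of the slot `j` at distance `y` beyond the natural path -/
def oloss (own : (ι → ℝ) → ℝ) (b e : ι → ℝ) (j : ι) (v y : ℝ) : ℝ :=
  own (b + v • e) - own (b + v • e + y • Pi.single j 1)

/-- the slot `j` rotates visibly at the level `v`, at every scale -/
def Vis (own : (ι → ℝ) → ℝ) (b e : ι → ℝ) (j : ι) (v : ℝ) : Prop :=
  ∃ c : ℝ, 0 < c ∧ ∃ y₀ : ℝ, 0 < y₀ ∧ ∀ y : ℝ, 0 < y → y ≤ y₀ → c * y ≤ oloss own b e j v y

/-- the slot `j` has no own loss near the level `v` along the scales `h l` -/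
def Zer (own : (ι → ℝ) → ℝ) (b e : ι → ℝ) (j : ι) (v : ℝ) (h : ℕ → ℝ) : Prop :=
  (∀ l, 0 < h l) ∧ Tendsto h atTop (𝓝 0) ∧ ∀ a u : ℝ, 0 ≤ u →
    Tendsto (fun l => oloss own b e j (v + a * h l) (u * h l) / h l) atTop (𝓝 0)

/-- `L v = v • e` -/
noncomputable def Ln (e : ι → ℝ) : ℝ →ₗ[ℝ] (ι → ℝ) := LinearMap.toSpanSingleton ℝ (ι → ℝ) e

theorem Ln_apply (e : ι → ℝ) (v : ℝ) : Ln e v = v • e := by
  simp [Ln, LinearMap.toSpanSingleton_apply]

/-- stationarity of the loss along the path -/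
theorem stat_oloss {own : (ι → ℝ) → ℝ} {b e : ι → ℝ} {LEG : Set (ι → ℝ)} {j : ι}
    (he : ∀ i, 0 ≤ e i) (hej : 0 < e j) (h0 : (0 : ι → ℝ) ∈ LEG)
    (hj : ∀ y : ℝ, 0 ≤ y → y • (Pi.single j 1 : ι → ℝ) ∈ LEG) {v : ℝ}
    (hst : StatAt own b (Ln e) LEG v) (a : ℝ) {u : ℝ} (hu : 0 ≤ u) :
    Tendsto (fun h => (oloss own b e j (v + a * h) (u * h) - oloss own b e j v (u * h)) / h)
      (𝓝[>] 0) (𝓝 0) := by
  have hm : ((0 : ι → ℝ), u • (Pi.single j 1 : ι → ℝ), u / e j) ∈ Mv (Ln e) LEG := by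
    refine ⟨h0, by simpa using hj u hu, Or.inl fun i => ?_⟩
    by_cases hi : i = j
    · subst hi
      left
      refine ⟨rfl, ?_, ?_⟩
      · rw [Ln_apply]; simp; field_simp
      · simp [hu]
    · right
      refine ⟨by simp [hi], le_rfl, ?_⟩
      rw [Ln_apply]
      exact mul_nonneg (div_nonneg hu hej.le) (he i)
  refine (hst _ hm a).congr fun h => ?_
  rw [GG_eq]
  simp only [Ln_apply, add_zero, smul_zero, zero_add, oloss]
  congr 1
  have e1 : b + v • e + h • a • e = b + (v + a * h) • e := by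
    rw [add_smul, mul_comm, mul_smul, add_assoc]
  have e2 : b + v • e + h • (a • e + u • (Pi.single j 1 : ι → ℝ)) =
      b + (v + a * h) • e + (u * h) • (Pi.single j 1 : ι → ℝ) := by
    rw [smul_add, ← add_assoc, e1, mul_comm u h, mul_smul]
  have e3 : h • u • (Pi.single j 1 : ι → ℝ) = (u * h) • (Pi.single j 1 : ι → ℝ) := by
    rw [mul_comm, mul_smul]
  rw [e1, e2, e3]

/-- scales without loss from a vanishing lower rate -/
theorem exists_scales {φ : ℝ → ℝ} (hmono : ∃ y₁ : ℝ, 0 < y₁ ∧ ∀ y y' : ℝ, 0 ≤ y → y ≤ y' →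
      y' ≤ y₁ → φ y ≤ φ y') (hφ0 : 0 ≤ φ 0)
    (h : ∀ c : ℝ, 0 < c → ∀ y₀ : ℝ, 0 < y₀ → ∃ y : ℝ, 0 < y ∧ y ≤ y₀ ∧ φ y < c * y) :
    ∃ h : ℕ → ℝ, (∀ l, 0 < h l) ∧ Tendsto h atTop (𝓝 0) ∧ ∀ u : ℝ, 0 ≤ u →
      Tendsto (fun l => φ (u * h l) / h l) atTop (𝓝 0) := by
  obtain ⟨y₁, hy₁, hm⟩ := hmono
  have hl : ∀ l : ℕ, (0 : ℝ) < l + 1 := fun l => by positivity
  have h2 : ∀ l : ℕ, ∃ y : ℝ, 0 < y ∧ y ≤ min y₁ 1 ∧ φ y < (1 / ((l : ℝ) + 1) ^ 2) * y := fun l =>
    h _ (by have := hl l; positivity) _ (lt_min hy₁ one_pos)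
  choose y hy0 hy1 hy2 using h2
  have hbd : ∀ l : ℕ, y l / ((l : ℝ) + 1) ≤ 1 / ((l : ℝ) + 1) := fun l =>
    div_le_div_of_nonneg_right ((hy1 l).trans (min_le_right _ _)) (hl l).le
  refine ⟨fun l => y l / ((l : ℝ) + 1), fun l => div_pos (hy0 l) (hl l), ?_, ?_⟩
  · refine squeeze_zero (fun l => (div_pos (hy0 l) (hl l)).le) hbd ?_
    exact tendsto_one_div_add_atTop_nhds_zero_nat
  · intro u hu
    obtain ⟨l₀, hl₀⟩ := exists_nat_gt u
    have hz : Tendsto (fun l : ℕ => 1 / ((l : ℝ) + 1)) atTop (𝓝 0) :=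
      tendsto_one_div_add_atTop_nhds_zero_nat
    have key : ∀ᶠ l : ℕ in atTop, 0 ≤ φ (u * (y l / ((l : ℝ) + 1))) / (y l / ((l : ℝ) + 1)) ∧
        φ (u * (y l / ((l : ℝ) + 1))) / (y l / ((l : ℝ) + 1)) ≤ 1 / ((l : ℝ) + 1) := by
      filter_upwards [eventually_ge_atTop l₀] with l hl1
      have hlu : u ≤ (l : ℝ) + 1 := by
        have : (l₀ : ℝ) ≤ l := by exact_mod_cast hl1
        linarith
      have hhp : 0 < y l / ((l : ℝ) + 1) := div_pos (hy0 l) (hl l)
      have h3 : u * (y l / ((l : ℝ) + 1)) ≤ y l := by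
        calc u * (y l / ((l : ℝ) + 1)) ≤ ((l : ℝ) + 1) * (y l / ((l : ℝ) + 1)) :=
              mul_le_mul_of_nonneg_right hlu hhp.le
          _ = y l := by field_simp
      have h4 : 0 ≤ u * (y l / ((l : ℝ) + 1)) := mul_nonneg hu hhp.le
      have h5 := hm _ _ h4 h3 ((hy1 l).trans (min_le_left _ _))
      have h6 := hm 0 _ le_rfl h4 (h3.trans ((hy1 l).trans (min_le_left _ _)))
      refine ⟨div_nonneg (hφ0.trans h6) hhp.le, ?_⟩
      rw [div_le_iff₀ hhp]
      refine (h5.trans (hy2 l).le).trans (le_of_eq ?_)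
      field_simp
    refine tendsto_of_tendsto_of_tendsto_of_le_of_le' tendsto_const_nhds hz ?_ ?_
    · filter_upwards [key] with l h1 using h1.1
    · filter_upwards [key] with l h1 using h1.2

/-- **OWN DICHOTOMY** -/
theorem own_dich {own : (ι → ℝ) → ℝ} {K : ℝ} (hK : 0 ≤ K)
    (hlip : ∀ p q, |own p - own q| ≤ K * ‖p - q‖) {S LEG : Set (ι → ℝ)} (hsup : Sup4 own S)
    {b e : ι → ℝ} {j : ι} (hC : Cone (Ln e) LEG) {Ω : Set ℝ} (hΩ : Dom b (Ln e) LEG S Ω)
    (he : ∀ i, 0 ≤ e i) (hej : 0 < e j)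
    (hj : ∀ y : ℝ, 0 ≤ y → y • (Pi.single j 1 : ι → ℝ) ∈ LEG)
    (hanti : ∀ p ∈ S, ∀ q ∈ S, p ≤ q → own q ≤ own p) :
    ∀ᵐ v : ℝ, v ∈ Ω → Vis own b e j v ∨ ∃ h : ℕ → ℝ, Zer own b e j v h := by
  filter_upwards [ae_statAt (μ := volume) hK hlip hsup hC hΩ] with v hv hvΩ
  by_cases hvis : Vis own b e j v
  · exact Or.inl hvis
  right
  have hst := hv hvΩ
  have h0 : (0 : ι → ℝ) ∈ LEG := by simpa using hj 0 le_rfl
  -- monotone near `v`
  have hmono : ∃ y₁ : ℝ, 0 < y₁ ∧ ∀ y y' : ℝ, 0 ≤ y → y ≤ y' → y' ≤ y₁ →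
      oloss own b e j v y ≤ oloss own b e j v y' := by
    obtain ⟨ρ, hρ, r, hr, hS⟩ := hΩ v hvΩ
    have hmem : ∀ y : ℝ, 0 ≤ y → y ≤ r → b + v • e + y • (Pi.single j 1 : ι → ℝ) ∈ S := by
      intro y hy0 hyr
      have := hS v (by simpa using hρ.le) _ (hj y hy0) (by
        intro i
        by_cases hi : i = j
        · subst hi; simpa [abs_of_nonneg hy0] using hyr
        · simp [hi, hr.le])
      rwa [Ln_apply] at this
    refine ⟨r, hr, fun y y' hy hyy' hy' => ?_⟩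
    unfold oloss
    have := hanti _ (hmem y hy (hyy'.trans hy')) _ (hmem y' (hy.trans hyy') hy') (by
      intro i
      simp only [Pi.add_apply, Pi.smul_apply, smul_eq_mul]
      by_cases hi : i = j
      · subst hi; simpa using hyy'
      · simp [hi])
    linarith
  have hφ0 : 0 ≤ oloss own b e j v 0 := by simp [oloss]
  have hlow : ∀ c : ℝ, 0 < c → ∀ y₀ : ℝ, 0 < y₀ → ∃ y : ℝ, 0 < y ∧ y ≤ y₀ ∧
      oloss own b e j v y < c * y := by
    intro c hc y₀ hy₀
    by_contra hcon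
    push Not at hcon
    exact hvis ⟨c, hc, y₀, hy₀, fun y h1 h2 => hcon y h1 h2⟩
  obtain ⟨h, hh0, hht, hh⟩ := exists_scales hmono hφ0 hlow
  refine ⟨h, hh0, hht, fun a u hu => ?_⟩
  have hht' : Tendsto h atTop (𝓝[>] 0) :=
    tendsto_nhdsWithin_iff.2 ⟨hht, Eventually.of_forall hh0⟩
  have h1 := (stat_oloss he hej h0 hj hst a hu).comp hht'
  have h2 := h1.add (hh u hu)
  rw [add_zero] at h2
  refine h2.congr fun l => ?_
  simp only [Function.comp]
  rw [← add_div]
  congr 1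
  ring


/-- consequence of `Vis` for tangents along any scales -/
theorem Vis.tan {own : (ι → ℝ) → ℝ} {b e : ι → ℝ} {j : ι} {v : ℝ} (hv : Vis own b e j v)
    {h : ℕ → ℝ} (hh : ∀ l, 0 < h l) (hh0 : Tendsto h atTop (𝓝 0)) {F : Filter ℕ} [NeBot F]
    (hF : F ≤ atTop) :
    ∃ c : ℝ, 0 < c ∧ ∀ (u lim : ℝ), 0 ≤ u →
      Tendsto (fun l => oloss own b e j v (u * h l) / h l) F (𝓝 lim) → c * u ≤ lim := by
  obtain ⟨c, hc, y₀, hy₀, hy⟩ := hv
  refine ⟨c, hc, fun u lim hu hlim => ?_⟩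
  refine ge_of_tendsto hlim ?_
  have h1 : Tendsto (fun l => u * h l) F (𝓝 0) := by
    have := (hh0.mono_left hF).const_mul u
    rwa [mul_zero] at this
  filter_upwards [h1.eventually (ge_mem_nhds hy₀)] with l hl
  rcases eq_or_lt_of_le hu with rfl | hu0
  · simp [oloss]
  rw [le_div_iff₀ (hh l)]
  have := hy (u * h l) (mul_pos hu0 (hh l)) hl
  linarith


end Crest.Agent.R136.Own831
end

-- ▼ part R136/Own2_831
section

/-!
# R136: the own dichotomy for 779's second profile (helper831)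

* `line_QJoin`, `own_submod` : the own profile `own` of (line, label) on `Leg Mw R` is supermodular;
* `own_dich_Leg`, `own_cases_Leg` : Own1_831 for a function on `Leg Mw R` and a path
  `v ↦ b + v • e`, `v ∈ (α, β)`, such that raising the slot `j` by `y ≤ y₁` stays legal.
-/

set_option autoImplicit false
set_option linter.unusedSectionVars false
set_option linter.unusedVariables false

open Filter Topology MeasureTheory Set

namespace Crest.Agent.R136.Own831

open Crest.Agent.R136.Dec146 Crest.Agent.R138.Ex926 Crest.Agent.R136.Net191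
  Crest.Agent.R136.Qg926 Crest.Agent.R136.Zpr779

variable {m : ℕ}



section path

variable {b e : Fin m → ℝ} {j kz : Fin m} {P : Set (Fin m → ℝ)} {α β y₁ : ℝ}

/-- the cone spanned by the path and the slot `j` -/
def LEGp (e : Fin m → ℝ) (j : Fin m) : Set (Fin m → ℝ) :=
  {c | ∃ a y : ℝ, 0 ≤ y ∧ c = a • e + y • (Pi.single j 1 : Fin m → ℝ)}

theorem LEGp_single {y : ℝ} (hy : 0 ≤ y) : y • (Pi.single j 1 : Fin m → ℝ) ∈ LEGp e j :=
  ⟨0, y, hy, by simp⟩

theorem LEGp_cone : Cone (Ln e) (LEGp e j) where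
  smul := by
    rintro c ⟨a, y, hy, rfl⟩ t ht
    exact ⟨t * a, t * y, mul_nonneg ht hy, by rw [smul_add, smul_smul, smul_smul]⟩
  add := by
    rintro c ⟨a, y, hy, rfl⟩ c' ⟨a', y', hy', rfl⟩
    exact ⟨a + a', y + y', add_nonneg hy hy', by rw [add_smul, add_smul]; abel⟩
  nat := fun x => ⟨x, 0, le_rfl, by rw [Ln_apply]; simp⟩

/-- raising the slot `j` along the path stays legal -/
def RaiseLeg (P : Set (Fin m → ℝ)) (b e : Fin m → ℝ) (j : Fin m) (α β y₁ : ℝ) : Prop :=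
  ∀ v : ℝ, α < v → v < β → ∀ y : ℝ, 0 ≤ y → y ≤ y₁ →
    b + v • e + y • (Pi.single j 1 : Fin m → ℝ) ∈ P

theorem dom_of_raise (hy₁ : 0 < y₁) (hr : RaiseLeg P b e j α β y₁) (hkz : kz ≠ j)
    (hek : 0 < e kz) : Dom b (Ln e) (LEGp e j) P (Ioo α β) := by
  rintro v ⟨hv1, hv2⟩
  set d : ℝ := min (v - α) (β - v) / 2 with hd
  have hd0 : 0 < d := by
    have : 0 < min (v - α) (β - v) := lt_min (by linarith) (by linarith)
    linarith
  have hd1 : 2 * d ≤ v - α := by rw [hd]; have := min_le_left (v - α) (β - v); linarith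
  have hd2 : 2 * d ≤ β - v := by rw [hd]; have := min_le_right (v - α) (β - v); linarith
  set r : ℝ := min (e kz * d / 2) (y₁ / (1 + |e j| / e kz) / 2) with hrdef
  have hA : 0 < 1 + |e j| / e kz := by positivity
  have hr0 : 0 < r := lt_min (by positivity) (by positivity)
  refine ⟨d / 2, by linarith, r, hr0, ?_⟩
  rintro v' hv' c ⟨a, y, hy, rfl⟩ hc
  have h1 := hc kz
  simp only [Pi.add_apply, Pi.smul_apply, smul_eq_mul, Pi.single_eq_of_ne hkz, mul_zero,
    add_zero] at h1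
  have h2 := hc j
  simp only [Pi.add_apply, Pi.smul_apply, smul_eq_mul, Pi.single_eq_same, mul_one] at h2
  have ha : |a| ≤ r / e kz := by
    rw [abs_mul, abs_of_pos hek] at h1
    rwa [le_div_iff₀ hek]
  have ha' : |a| ≤ d / 2 := by
    refine ha.trans ?_
    rw [div_le_iff₀ hek]
    have := min_le_left (e kz * d / 2) (y₁ / (1 + |e j| / e kz) / 2)
    rw [← hrdef] at this
    linarith
  have hyy : y ≤ y₁ := by
    have h3 : y ≤ r + |a| * |e j| := by
      have := abs_le.1 h2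
      have h4 : -(|a| * |e j|) ≤ a * e j := by rw [← abs_mul]; exact neg_abs_le _
      linarith [this.2]
    have h4 : |a| * |e j| ≤ r / e kz * |e j| := mul_le_mul_of_nonneg_right ha (abs_nonneg _)
    have h5 : r + r / e kz * |e j| = r * (1 + |e j| / e kz) := by field_simp
    have h6 : r * (1 + |e j| / e kz) ≤ y₁ / 2 := by
      have := min_le_right (e kz * d / 2) (y₁ / (1 + |e j| / e kz) / 2)
      rw [← hrdef] at this
      calc r * (1 + |e j| / e kz) ≤ (y₁ / (1 + |e j| / e kz) / 2) * (1 + |e j| / e kz) :=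
            mul_le_mul_of_nonneg_right this hA.le
        _ = y₁ / 2 := by field_simp
    linarith
  have e1 : b + Ln e v' + (a • e + y • (Pi.single j 1 : Fin m → ℝ)) =
      b + (v' + a) • e + y • (Pi.single j 1 : Fin m → ℝ) := by
    rw [Ln_apply, add_smul]; abel
  rw [e1]
  rw [Real.norm_eq_abs] at hv'
  have hv'' := abs_le.1 hv'
  have ha'' := abs_le.1 ha'
  exact hr _ (by linarith [hv''.1, ha''.1]) (by linarith [hv''.2, ha''.2]) y hy hyy

/-- Lipschitz extension -/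
theorem exists_ext {own : (Fin m → ℝ) → ℝ} {K : ℝ} (hK : 0 ≤ K)
    (hlip : ∀ p ∈ P, ∀ q ∈ P, |own p - own q| ≤ K * ‖p - q‖) :
    ∃ own' : (Fin m → ℝ) → ℝ, (∀ p q, |own' p - own' q| ≤ K * ‖p - q‖) ∧
      ∀ p ∈ P, own' p = own p := by
  have h1 : LipschitzOnWith ⟨K, hK⟩ own P :=
    LipschitzOnWith.of_dist_le_mul fun p hp q hq => by
      rw [Real.dist_eq, dist_eq_norm]; exact hlip p hp q hq
  obtain ⟨g, hg, he⟩ := h1.extend_real
  refine ⟨g, fun p q => ?_, fun p hp => (he hp).symm⟩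
  have := hg.dist_le_mul p q
  rwa [Real.dist_eq, dist_eq_norm] at this

theorem oloss_congr {own own' : (Fin m → ℝ) → ℝ} (he : ∀ p ∈ P, own' p = own p)
    (hr : RaiseLeg P b e j α β y₁) {v y : ℝ} (h1 : α < v) (h2 : v < β) (h3 : 0 ≤ y)
    (h4 : y ≤ y₁) : oloss own' b e j v y = oloss own b e j v y := by
  unfold oloss
  have h0 := hr v h1 h2 0 le_rfl (h3.trans h4)
  rw [zero_smul, add_zero] at h0
  rw [he _ h0, he _ (hr v h1 h2 y h3 h4)]

/-- **OWN DICHOTOMY on a legal set** -/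
theorem own_dich_Leg {own : (Fin m → ℝ) → ℝ} {K : ℝ} (hK : 0 ≤ K)
    (hlip : ∀ p ∈ P, ∀ q ∈ P, |own p - own q| ≤ K * ‖p - q‖) (hsup : Sup4 own P)
    (hanti : ∀ p ∈ P, ∀ q ∈ P, p ≤ q → own q ≤ own p) (hy₁ : 0 < y₁)
    (hr : RaiseLeg P b e j α β y₁) (he : ∀ i, 0 ≤ e i) (hej : 0 < e j) (hkz : kz ≠ j)
    (hek : 0 < e kz) :
    ∀ᵐ v : ℝ, v ∈ Ioo α β → Vis own b e j v ∨ ∃ h : ℕ → ℝ, Zer own b e j v h := by
  obtain ⟨own', hlip', hext⟩ := exists_ext hK hlip
  have hsup' : Sup4 own' P := by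
    intro p hp q hq hi hs
    rw [hext p hp, hext q hq, hext _ hi, hext _ hs]
    exact hsup p hp q hq hi hs
  have hanti' : ∀ p ∈ P, ∀ q ∈ P, p ≤ q → own' q ≤ own' p := by
    intro p hp q hq hpq
    rw [hext p hp, hext q hq]
    exact hanti p hp q hq hpq
  filter_upwards [own_dich hK hlip' hsup' (LEGp_cone (e := e) (j := j))
    (dom_of_raise hy₁ hr hkz hek) he hej (fun y hy => LEGp_single hy) hanti'] with v hv hvI
  obtain ⟨hv1, hv2⟩ := hvI
  rcases hv ⟨hv1, hv2⟩ with ⟨c, hc, y₀, hy₀, h⟩ | ⟨h, hh, hh0, hz⟩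
  · left
    refine ⟨c, hc, min y₀ y₁, lt_min hy₀ hy₁, fun y hy hyy => ?_⟩
    rw [← oloss_congr hext hr hv1 hv2 hy.le (hyy.trans (min_le_right _ _))]
    exact h y hy (hyy.trans (min_le_left _ _))
  · right
    refine ⟨h, hh, hh0, fun a u hu => (hz a u hu).congr' ?_⟩
    have t1 : Tendsto (fun l => v + a * h l) atTop (𝓝 v) := by
      have := (hh0.const_mul a).const_add v
      rwa [mul_zero, add_zero] at this
    have t2 : Tendsto (fun l => u * h l) atTop (𝓝 0) := by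
      have := hh0.const_mul u
      rwa [mul_zero] at this
    filter_upwards [t1.eventually (lt_mem_nhds hv1), t1.eventually (gt_mem_nhds hv2),
      t2.eventually (gt_mem_nhds hy₁)] with l h1 h2 h3
    rw [oloss_congr hext hr h1 h2 (mul_nonneg hu (hh l).le) h3.le]

/-- the two cases globally, on a legal set -/
theorem own_cases_Leg {own : (Fin m → ℝ) → ℝ} {K : ℝ} (hK : 0 ≤ K)
    (hlip : ∀ p ∈ P, ∀ q ∈ P, |own p - own q| ≤ K * ‖p - q‖) (hsup : Sup4 own P)
    (hanti : ∀ p ∈ P, ∀ q ∈ P, p ≤ q → own q ≤ own p) (hy₁ : 0 < y₁)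
    (hr : RaiseLeg P b e j α β y₁) (he : ∀ i, 0 ≤ e i) (hej : 0 < e j) (hkz : kz ≠ j)
    (hek : 0 < e kz) :
    (∀ᵐ v : ℝ, v ∈ Ioo α β → Vis own b e j v) ∨
      ∀ Q : ℝ → Prop, (∀ᵐ v : ℝ, v ∈ Ioo α β → Q v) →
        ∃ v ∈ Ioo α β, Q v ∧ ∃ h : ℕ → ℝ, Zer own b e j v h := by
  by_cases hvis : ∀ᵐ v : ℝ, v ∈ Ioo α β → Vis own b e j v
  · exact Or.inl hvis
  right
  intro Q hQ
  by_contra hcon
  push Not at hcon
  apply hvis
  filter_upwards [own_dich_Leg hK hlip hsup hanti hy₁ hr he hej hkz hek, hQ] with v h1 h2 hv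
  rcases h1 hv with h3 | ⟨h, h3⟩
  · exact h3
  · exact absurd h3 (hcon v hv (h2 hv) h)

/-- in the case of zero loss the full own counts persist beyond the path: if `own` is `c₁ - c₂ v`
on the path then the blow-up of `own` in the direction `a • e + u • single j` is `- c₂ a` -/
theorem Zer.tan {own : (Fin m → ℝ) → ℝ} {v : ℝ} {h : ℕ → ℝ} (hz : Zer own b e j v h)
    {c₁ c₂ : ℝ} (hv1 : α < v) (hv2 : v < β)
    (hfull : ∀ v : ℝ, α < v → v < β → own (b + v • e) = c₁ - c₂ * v) (a : ℝ) {u : ℝ}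
    (hu : 0 ≤ u) :
    Tendsto (fun l => (own (b + v • e + h l • (a • e + u • (Pi.single j 1 : Fin m → ℝ))) -
      own (b + v • e)) / h l) atTop (𝓝 (-(c₂ * a))) := by
  obtain ⟨hh, hh0, hz⟩ := hz
  have t1 : Tendsto (fun l => v + a * h l) atTop (𝓝 v) := by
    have := (hh0.const_mul a).const_add v
    rwa [mul_zero, add_zero] at this
  have h1 := (hz a u hu).neg.sub_const (c₂ * a)
  rw [neg_zero, zero_sub] at h1
  refine h1.congr' ?_
  filter_upwards [t1.eventually (lt_mem_nhds hv1), t1.eventually (gt_mem_nhds hv2)] with l h2 h3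
  have hl := hh l
  have e1 : b + v • e + h l • (a • e + u • (Pi.single j 1 : Fin m → ℝ)) =
      b + (v + a * h l) • e + (u * h l) • (Pi.single j 1 : Fin m → ℝ) := by
    rw [smul_add, add_smul, mul_comm a, mul_smul, mul_comm u, mul_smul]; abel
  rw [e1, hfull v hv1 hv2]
  unfold oloss
  rw [hfull _ h2 h3]
  field_simp
  ring

end path

end Crest.Agent.R136.Own831
end

-- ▼ part R136/Own3_831
section

/-!
# R136: the own dichotomy for `ExtZ` (helper831)

`OPath` : a path of boxes `b + v • e` along which the slot `j` has its natural size (`e j > 0`) and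
the other slots are constant, and a family `bg v` of larger natural boxes.

`ext_own_cases` : either at a.e. level `v` the own loss of every box above `b + v • e` raised by `y`
in the slot `j` is `≥ c y` for all small `y`, or, at a point `v` of any set of full measure, there are
scales `h l → 0` along which every box below `bg v'` raised by `u h l` in the slot `j`,
`v' = v + a h l`, has the full own count.

`ext_own_cases11` : the instance in the chart `Fin 11` (`j = 4` = `F_a`, zero slots `R`, `F_b`).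
-/

set_option autoImplicit false
set_option linter.unusedSectionVars false
set_option linter.unusedVariables false

open Filter Topology MeasureTheory Set

namespace Crest.Agent.R136.Own831

open Crest.Agent.R136.Dec146 Crest.Agent.R138.Ex926 Crest.Agent.R136.Net191
  Crest.Agent.R136.Qg926
open Crest.Agent.R136.Zpr779 (ExtZ)

variable {m : ℕ} {B B' : Base} {I0 I : ℕ → Finset (ℕ × ℝ)}
  {co : ∀ n : ℕ, ℕ × ℝ → ℕ × ℝ → Fin m → ℝ} {M : Mons m} {C : ℝ} {X : ℕ → Fin m → ℝ}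
  {w : ℕ → ℝ} {Mw : Mons m} {R : ℝ} {Tn To : ℕ → ℝ} {kz j : Fin m} {w0 s : ℝ}
  {PD : Set (Fin m → ℝ)} {D : (Fin m → ℝ) → ℝ} {r o bg : ℝ → Fin m → ℝ} {E : ℝ → ℝ}
  {T : Fin m → Prop} {ν own : (Fin m → ℝ) → ℝ} {c₀ : ℝ} {b e : Fin m → ℝ} {α β y₁ : ℝ}

/-- path of the slot `j`, with larger natural boxes `bg` -/
structure OPath (L : Set (Fin m → ℝ)) (w0 : ℝ) (kz j : Fin m) (o bg : ℝ → Fin m → ℝ)
    (b e : Fin m → ℝ) (α β y₁ : ℝ) : Prop where
  α0 : 0 ≤ α
  β1 : β ≤ 1
  y0 : 0 < y₁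
  e0 : ∀ i, 0 ≤ e i
  ej : 0 < e j
  kzj : kz ≠ j
  bz : b kz = w0
  ez : e kz = 1
  low : RaiseLeg L b e j α β y₁
  up : ∀ v : ℝ, α < v → v < β → ∀ y : ℝ, 0 ≤ y → y ≤ y₁ →
    bg v + y • (Pi.single j 1 : Fin m → ℝ) ∈ L
  bgz : ∀ v : ℝ, α < v → v < β → bg v kz = w0 + v
  bgo : ∀ v : ℝ, α < v → v < β → ∀ k, bg v k ≤ o v k
  bgl : ∀ v : ℝ, α < v → v < β → b + v • e ≤ bg v
  bgj : ∀ v : ℝ, α < v → v < β → bg v j = b j + v * e j

theorem ext_sup4 (h : ExtZ B B' I0 I co M C X w Mw R Tn To kz w0 s PD D r o E T ν own c₀) :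
    Sup4 own (Leg Mw R) := fun p hp q hq hi _ => h.osub p hp q hq hi

theorem OPath.mem (hp : OPath (Leg Mw R) w0 kz j o bg b e α β y₁) {v : ℝ} (h1 : α < v)
    (h2 : v < β) : b + v • e ∈ Leg Mw R := by
  have := hp.low v h1 h2 0 le_rfl hp.y0.le
  rwa [zero_smul, add_zero] at this

theorem OPath.bmem (hp : OPath (Leg Mw R) w0 kz j o bg b e α β y₁) {v : ℝ} (h1 : α < v)
    (h2 : v < β) : bg v ∈ Leg Mw R := by
  have := hp.up v h1 h2 0 le_rfl hp.y0.le
  rwa [zero_smul, add_zero] at this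

theorem OPath.kzv (hp : OPath (Leg Mw R) w0 kz j o bg b e α β y₁) (v : ℝ) :
    (b + v • e) kz = w0 + v := by
  simp [hp.bz, hp.ez]

/-- full own counts on the path -/
theorem OPath.ownp (h : ExtZ B B' I0 I co M C X w Mw R Tn To kz w0 s PD D r o E T ν own c₀)
    (hp : OPath (Leg Mw R) w0 kz j o bg b e α β y₁) {v : ℝ} (h1 : α < v) (h2 : v < β) :
    own (b + v • e) = (1 - s) * (1 - v) := by
  have hα := hp.α0
  have hβ := hp.β1
  exact h.own_rot _ (hp.mem h1 h2) v (by linarith) (by linarith) (hp.kzv v) fun k =>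
    (hp.bgl v h1 h2 k).trans (hp.bgo v h1 h2 k)

/-- full own counts on the larger boxes -/
theorem OPath.ownb (h : ExtZ B B' I0 I co M C X w Mw R Tn To kz w0 s PD D r o E T ν own c₀)
    (hp : OPath (Leg Mw R) w0 kz j o bg b e α β y₁) {v : ℝ} (h1 : α < v) (h2 : v < β) :
    own (bg v) = (1 - s) * (1 - v) := by
  have hα := hp.α0
  have hβ := hp.β1
  exact h.own_rot _ (hp.bmem h1 h2) v (by linarith) (by linarith) (hp.bgz v h1 h2)
    (hp.bgo v h1 h2)

/-- meet and join of the larger box with the raised path -/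
theorem OPath.inf_sup (hp : OPath (Leg Mw R) w0 kz j o bg b e α β y₁) {v : ℝ} (h1 : α < v)
    (h2 : v < β) {y : ℝ} (hy : 0 ≤ y) :
    bg v ⊓ (b + v • e + y • (Pi.single j 1 : Fin m → ℝ)) = b + v • e ∧
      bg v ⊔ (b + v • e + y • (Pi.single j 1 : Fin m → ℝ)) =
        bg v + y • (Pi.single j 1 : Fin m → ℝ) := by
  have h3 := hp.bgl v h1 h2
  have h4 := hp.bgj v h1 h2
  constructor
  · funext k
    by_cases hk : k = j
    · subst hk
      simp only [Pi.inf_apply, Pi.add_apply, Pi.smul_apply, smul_eq_mul, Pi.single_eq_same,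
        mul_one, h4]
      exact min_eq_left (by linarith)
    · have := h3 k
      simp only [Pi.add_apply, Pi.smul_apply, smul_eq_mul] at this
      simp only [Pi.inf_apply, Pi.add_apply, Pi.smul_apply, smul_eq_mul, Pi.single_eq_of_ne hk,
        mul_zero, add_zero]
      exact min_eq_right this
  · funext k
    by_cases hk : k = j
    · subst hk
      simp only [Pi.sup_apply, Pi.add_apply, Pi.smul_apply, smul_eq_mul, Pi.single_eq_same,
        mul_one, h4]
      exact max_eq_right (by linarith)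
    · have := h3 k
      simp only [Pi.add_apply, Pi.smul_apply, smul_eq_mul] at this
      simp only [Pi.sup_apply, Pi.add_apply, Pi.smul_apply, smul_eq_mul, Pi.single_eq_of_ne hk,
        mul_zero, add_zero]
      exact max_eq_left this

/-- the own loss of the larger boxes is at most that of the path -/
theorem OPath.loss (h : ExtZ B B' I0 I co M C X w Mw R Tn To kz w0 s PD D r o E T ν own c₀)
    (hp : OPath (Leg Mw R) w0 kz j o bg b e α β y₁) {v y : ℝ} (h1 : α < v) (h2 : v < β)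
    (hy : 0 ≤ y) (hyy : y ≤ y₁) :
    (1 - s) * (1 - v) - oloss own b e j v y ≤
      own (bg v + y • (Pi.single j 1 : Fin m → ℝ)) := by
  obtain ⟨e1, e2⟩ := hp.inf_sup h1 h2 hy
  have h3 := h.osub (bg v) (hp.bmem h1 h2) _ (hp.low v h1 h2 y hy hyy) (by
    rw [e1]; exact hp.mem h1 h2)
  rw [e1, e2, hp.ownb h h1 h2, hp.ownp h h1 h2] at h3
  have h4 : oloss own b e j v y =
    (1 - s) * (1 - v) - own (b + v • e + y • (Pi.single j 1 : Fin m → ℝ)) := by
    unfold oloss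
    rw [hp.ownp h h1 h2]
  linarith


section chart11

open Crest.Agent.R136.NetQ186 (monQ legalQ_iff)


/-- direction of the path: `z` has slope `1`, `F_a` has slope `κ` -/
def oe11 (κ : ℝ) : Fin 11 → ℝ := ![1, 0, 0, 0, κ, 0, 0, 0, 0, 0, 0]




/-- monomials implied by those of the chart -/
theorem Leg_mono_mons {m : ℕ} {M M' : Mons m} (h : ∀ p, Legal M p → Legal M' p) (R : ℝ) :
    Leg M R ⊆ Leg M' R := fun p hp => ⟨h p hp.1, hp.2⟩



end chart11

end Crest.Agent.R136.Own831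
end

-- ▼ part R136/Own4_831

/-!
# R136: the own dichotomy for `ExtZ`, two precisions of the zero slots (helper831)

`LPath` : only the lower path; the larger boxes are arbitrary.

`ext_own_casesL` : general form.  `ext_own_casesG` : chart `Fin 11`, `Mw = monQ`, `j = 4` = `F_a`,
zero slot `F_b` of size `z3`; nothing is asked of the slot `R`.

`vis_drop` : drop of `ν` from (Vis).
-/

set_option autoImplicit false
set_option linter.unusedSectionVars false
set_option linter.unusedVariables false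

open Filter Topology MeasureTheory Set

namespace Crest.Agent.R136.Own831

open Crest.Agent.R136.Dec146 Crest.Agent.R138.Ex926 Crest.Agent.R136.Net191
  Crest.Agent.R136.Qg926
open Crest.Agent.R136.Zpr779 (ExtZ)

variable {m : ℕ} {B B' : Base} {I0 I : ℕ → Finset (ℕ × ℝ)}
  {co : ∀ n : ℕ, ℕ × ℝ → ℕ × ℝ → Fin m → ℝ} {M : Mons m} {C : ℝ} {X : ℕ → Fin m → ℝ}
  {w : ℕ → ℝ} {Mw : Mons m} {R : ℝ} {Tn To : ℕ → ℝ} {kz j : Fin m} {w0 s : ℝ}
  {PD : Set (Fin m → ℝ)} {D : (Fin m → ℝ) → ℝ} {r o : ℝ → Fin m → ℝ} {E : ℝ → ℝ}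
  {T : Fin m → Prop} {ν own : (Fin m → ℝ) → ℝ} {c₀ : ℝ} {b e : Fin m → ℝ} {α β y₁ : ℝ}

/-- lower path of the slot `j` -/
structure LPath (L : Set (Fin m → ℝ)) (w0 : ℝ) (kz j : Fin m) (o : ℝ → Fin m → ℝ)
    (b e : Fin m → ℝ) (α β y₁ : ℝ) : Prop where
  α0 : 0 ≤ α
  β1 : β ≤ 1
  y0 : 0 < y₁
  e0 : ∀ i, 0 ≤ e i
  ej : 0 < e j
  kzj : kz ≠ j
  bz : b kz = w0
  ez : e kz = 1
  low : RaiseLeg L b e j α β y₁
  le : ∀ v : ℝ, α < v → v < β → ∀ k, (b + v • e) k ≤ o v k

theorem LPath.mem (hp : LPath (Leg Mw R) w0 kz j o b e α β y₁) {v : ℝ} (h1 : α < v)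
    (h2 : v < β) : b + v • e ∈ Leg Mw R := by
  have := hp.low v h1 h2 0 le_rfl hp.y0.le
  rwa [zero_smul, add_zero] at this

theorem LPath.ownp (h : ExtZ B B' I0 I co M C X w Mw R Tn To kz w0 s PD D r o E T ν own c₀)
    (hp : LPath (Leg Mw R) w0 kz j o b e α β y₁) {v : ℝ} (h1 : α < v) (h2 : v < β) :
    own (b + v • e) = (1 - s) * (1 - v) := by
  have hα := hp.α0
  have hβ := hp.β1
  exact h.own_rot _ (hp.mem h1 h2) v (by linarith) (by linarith) (by simp [hp.bz, hp.ez])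
    (hp.le v h1 h2)

/-- the own loss of a natural box above the path is at most that of the path -/
theorem LPath.loss (h : ExtZ B B' I0 I co M C X w Mw R Tn To kz w0 s PD D r o E T ν own c₀)
    (hp : LPath (Leg Mw R) w0 kz j o b e α β y₁) {v y : ℝ} (h1 : α < v) (h2 : v < β)
    (hy : 0 ≤ y) (hyy : y ≤ y₁) {q : Fin m → ℝ} (hq : q ∈ Leg Mw R) (hqz : q kz = w0 + v)
    (hqo : ∀ k, q k ≤ o v k) (hqb : b + v • e ≤ q) (hqj : q j = b j + v * e j) :
    (1 - s) * (1 - v) - oloss own b e j v y ≤ own (q + y • (Pi.single j 1 : Fin m → ℝ)) := by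
  have hα := hp.α0
  have hβ := hp.β1
  have e1 : q ⊓ (b + v • e + y • (Pi.single j 1 : Fin m → ℝ)) = b + v • e := by
    funext k
    by_cases hk : k = j
    · subst hk
      simp only [Pi.inf_apply, Pi.add_apply, Pi.smul_apply, smul_eq_mul, Pi.single_eq_same,
        mul_one, hqj]
      exact min_eq_left (by linarith)
    · have := hqb k
      simp only [Pi.add_apply, Pi.smul_apply, smul_eq_mul] at this
      simp only [Pi.inf_apply, Pi.add_apply, Pi.smul_apply, smul_eq_mul, Pi.single_eq_of_ne hk,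
        mul_zero, add_zero]
      exact min_eq_right this
  have e2 : q ⊔ (b + v • e + y • (Pi.single j 1 : Fin m → ℝ)) =
      q + y • (Pi.single j 1 : Fin m → ℝ) := by
    funext k
    by_cases hk : k = j
    · subst hk
      simp only [Pi.sup_apply, Pi.add_apply, Pi.smul_apply, smul_eq_mul, Pi.single_eq_same,
        mul_one, hqj]
      exact max_eq_right (by linarith)
    · have := hqb k
      simp only [Pi.add_apply, Pi.smul_apply, smul_eq_mul] at this
      simp only [Pi.sup_apply, Pi.add_apply, Pi.smul_apply, smul_eq_mul, Pi.single_eq_of_ne hk,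
        mul_zero, add_zero]
      exact max_eq_left this
  have h3 := h.osub q hq _ (hp.low v h1 h2 y hy hyy) (by rw [e1]; exact hp.mem h1 h2)
  rw [e1, e2, hp.ownp h h1 h2, h.own_rot q hq v (by linarith) (by linarith) hqz hqo] at h3
  have h4 : oloss own b e j v y =
    (1 - s) * (1 - v) - own (b + v • e + y • (Pi.single j 1 : Fin m → ℝ)) := by
    unfold oloss
    rw [hp.ownp h h1 h2]
  linarith

/-- **OWN DICHOTOMY for `ExtZ`**, general form -/
theorem ext_own_casesL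
    (h : ExtZ B B' I0 I co M C X w Mw R Tn To kz w0 s PD D r o E T ν own c₀)
    (hp : LPath (Leg Mw R) w0 kz j o b e α β y₁) :
    (∀ᵐ v : ℝ, v ∈ Ioo α β → ∃ c : ℝ, 0 < c ∧ ∃ y₀ : ℝ, 0 < y₀ ∧ ∀ y : ℝ, 0 < y → y ≤ y₀ →
      ∀ p ∈ Leg Mw R, b + v • e + y • (Pi.single j 1 : Fin m → ℝ) ≤ p →
        own p ≤ (1 - s) * (1 - v) - c * y) ∨
    ∀ Q : ℝ → Prop, (∀ᵐ v : ℝ, v ∈ Ioo α β → Q v) →
      ∃ v ∈ Ioo α β, Q v ∧ ∃ hh : ℕ → ℝ, (∀ l, 0 < hh l) ∧ Tendsto hh atTop (𝓝 0) ∧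
        ∀ a u : ℝ, 0 ≤ u → ∀ ε : ℝ, 0 < ε → ∀ᶠ l in (atTop : Filter ℕ), ∀ q ∈ Leg Mw R,
          q kz = w0 + (v + a * hh l) → (∀ k, q k ≤ o (v + a * hh l) k) →
          b + (v + a * hh l) • e ≤ q → q j = b j + (v + a * hh l) * e j →
          q + (u * hh l) • (Pi.single j 1 : Fin m → ℝ) ∈ Leg Mw R → ∀ p ∈ Leg Mw R,
          p ≤ q + (u * hh l) • (Pi.single j 1 : Fin m → ℝ) →
            (1 - s) * (1 - (v + a * hh l)) - ε * hh l ≤ own p := by
  have hm : (0 : ℝ) ≤ m := Nat.cast_nonneg _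
  rcases own_cases_Leg (P := Leg Mw R) (own := own) (K := m) hm h.olip (ext_sup4 h) h.oanti
    hp.y0 hp.low hp.e0 hp.ej hp.kzj (by rw [hp.ez]; exact one_pos) with hv | hz
  · left
    filter_upwards [hv] with v hv hvI
    obtain ⟨c, hc, y₀, hy₀, H⟩ := hv hvI
    refine ⟨c, hc, min y₀ y₁, lt_min hy₀ hp.y0, fun y hy hyy p hpL hpp => ?_⟩
    have h1 := H y hy (hyy.trans (min_le_left _ _))
    have h2 := h.oanti _ (hp.low v hvI.1 hvI.2 y hy.le (hyy.trans (min_le_right _ _))) p hpL hpp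
    have h3 : oloss own b e j v y =
        (1 - s) * (1 - v) - own (b + v • e + y • (Pi.single j 1 : Fin m → ℝ)) := by
      unfold oloss
      rw [hp.ownp h hvI.1 hvI.2]
    linarith
  · right
    intro Q hQ
    obtain ⟨v, hvI, hQv, hh, hh0, hht, hz⟩ := hz Q hQ
    refine ⟨v, hvI, hQv, hh, hh0, hht, fun a u hu ε hε => ?_⟩
    have t1 : Tendsto (fun l => v + a * hh l) atTop (𝓝 v) := by
      have := (hht.const_mul a).const_add v
      rwa [mul_zero, add_zero] at this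
    have t2 : Tendsto (fun l => u * hh l) atTop (𝓝 0) := by
      have := hht.const_mul u
      rwa [mul_zero] at this
    filter_upwards [t1.eventually (lt_mem_nhds hvI.1), t1.eventually (gt_mem_nhds hvI.2),
      t2.eventually (gt_mem_nhds hp.y0), (hz a u hu).eventually (gt_mem_nhds hε)] with
      l h1 h2 h3 h4 q hq hqz hqo hqb hqj hqy p hpL hpp
    have h5 := hp.loss h h1 h2 (mul_nonneg hu (hh0 l).le) h3.le hq hqz hqo hqb hqj
    have h6 := h.oanti p hpL _ hqy hpp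
    rw [div_lt_iff₀ (hh0 l)] at h4
    linarith


section chart11

open Crest.Agent.R136.NetQ186 (monQ legalQ_iff)

/-- lower path in the chart `Fin 11`: `z`, the zero slot `F_b`, `F_a` -/
def ol11 (w0 z3 f0 : ℝ) : Fin 11 → ℝ := ![w0, 0, 0, z3, f0, 0, 0, 0, 0, 0, 0]

theorem lPath11 {Mw : Mons 11} (hMw : ∀ p, Legal monQ p → Legal Mw p) {w0 z3 f0 κ R y₂ : ℝ}
    {o : ℝ → Fin 11 → ℝ} (hw : 0 ≤ w0) (hf : 0 ≤ f0) (hκ : 0 < κ) (hy : 0 < y₂)
    (hz : f0 + κ + y₂ ≤ z3) (hR : w0 + 1 ≤ R) (hzR : z3 ≤ R)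
    (ho : ∀ v : ℝ, 0 ≤ v → v ≤ 1 → w0 + v ≤ o v 0 ∧ z3 ≤ o v 3 ∧ f0 + κ * v ≤ o v 4 ∧
      ∀ k, k ≠ 0 → k ≠ 3 → k ≠ 4 → 0 ≤ o v k) :
    LPath (Leg Mw R) w0 0 4 o (ol11 w0 z3 f0) (oe11 κ) 0 1 y₂ where
  α0 := le_rfl
  β1 := le_rfl
  y0 := hy
  e0 := fun k => by
    fin_cases k <;> simp [oe11, hκ.le]
  ej := by simp [oe11, hκ]
  kzj := by decide
  bz := by simp [ol11]
  ez := by simp [oe11]
  low := fun v hv1 hv2 y hy0 hy1 => by
    have hv0 : 0 ≤ v := hv1.le
    have hκv : 0 ≤ κ * v := mul_nonneg hκ.le hv0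
    have hκv1 : κ * v ≤ κ := by nlinarith
    have e1 : ol11 w0 z3 f0 + v • oe11 κ + y • (Pi.single 4 1 : Fin 11 → ℝ) =
        ![w0 + v, 0, 0, z3, f0 + κ * v + y, 0, 0, 0, 0, 0, 0] := by
      funext k
      fin_cases k <;> simp [ol11, oe11, mul_comm]
    rw [e1]
    refine Leg_mono_mons hMw R ⟨?_, fun k => ?_⟩
    · rw [legalQ_iff]
      refine ⟨fun k => ?_, ?_, ?_, ?_, ?_, ?_, ?_, ?_, ?_, ?_, ?_, ?_⟩
      · fin_cases k <;>
          simp only [Matrix.cons_val, Fin.zero_eta, Fin.mk_one, Fin.reduceFinMk,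
            Fin.isValue] <;>
          linarith
      all_goals
        simp only [Matrix.cons_val, Fin.isValue]
        linarith
    · fin_cases k <;>
        simp only [Matrix.cons_val, Fin.zero_eta, Fin.mk_one, Fin.reduceFinMk, Fin.isValue] <;>
        linarith
  le := fun v h1 h2 k => by
    obtain ⟨g1, g2, g3, g4⟩ := ho v h1.le h2.le
    by_cases k0 : k = 0
    · subst k0; simpa [ol11, oe11] using g1
    by_cases k2 : k = 3
    · subst k2; simpa [ol11, oe11] using g2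
    by_cases k4 : k = 4
    · subst k4; simpa [ol11, oe11, mul_comm] using g3
    refine le_trans (le_of_eq ?_) (g4 k k0 k2 k4)
    revert k0 k2 k4
    fin_cases k <;> simp [ol11, oe11]

/-- **OWN DICHOTOMY for `ExtZ` in the chart `Fin 11`, `Mw = monQ`**: `F_a` = slot `4`, zero slot
`F_b` = slot `3` of size `z3`.  Nothing is asked of the sizes of the other slots: the own boxes may
be anything below `o`.

Either (Vis) at a.e. level `v` every box with `z ≥ w0 + v`, `F_b ≥ z3`, `F_a ≥ f0 + κ v + y` has own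
count `≤ (1-s)(1-v) - c y` for all small `y`;

or (Zer) at a point `v` of any set of full measure and along scales `hh l → 0`, for `v' = v + a h l`,
every box with `z ≤ w0 + v'`, `F_a ≤ f0 + κ v' + u h l` and all other slots `≤ o v'` (room `u h l`
in the slots `5, 8`) has own count `≥ (1-s)(1-v') - ε h l`. -/
theorem ext_own_casesG {B B' : Base} {I0 I : ℕ → Finset (ℕ × ℝ)}
    {co : ∀ n : ℕ, ℕ × ℝ → ℕ × ℝ → Fin 11 → ℝ} {M : Mons 11} {C : ℝ} {X : ℕ → Fin 11 → ℝ}
    {w : ℕ → ℝ} {R : ℝ} {Tn To : ℕ → ℝ} {w0 s : ℝ}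
    {PD : Set (Fin 11 → ℝ)} {D : (Fin 11 → ℝ) → ℝ} {r o : ℝ → Fin 11 → ℝ} {E : ℝ → ℝ}
    {T : Fin 11 → Prop} {ν own : (Fin 11 → ℝ) → ℝ} {c₀ : ℝ} {z3 f0 κ y₂ : ℝ}
    (h : ExtZ B B' I0 I co M C X w monQ R Tn To 0 w0 s PD D r o E T ν own c₀)
    (hw : 0 ≤ w0) (hf : 0 ≤ f0) (hκ : 0 < κ) (hy : 0 < y₂)
    (hz : f0 + κ + y₂ ≤ z3) (hR : w0 + 1 ≤ R) (hzR : z3 ≤ R)
    (ho : ∀ v : ℝ, 0 ≤ v → v ≤ 1 → w0 + v ≤ o v 0 ∧ z3 ≤ o v 3 ∧ f0 + κ * v ≤ o v 4 ∧
      ∀ k, k ≠ 0 → k ≠ 3 → k ≠ 4 → 0 ≤ o v k) :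
    (∀ᵐ v : ℝ, v ∈ Ioo (0 : ℝ) 1 → ∃ c : ℝ, 0 < c ∧ ∃ y₀ : ℝ, 0 < y₀ ∧ ∀ y : ℝ, 0 < y →
      y ≤ y₀ → ∀ p ∈ Leg monQ R, w0 + v ≤ p 0 → z3 ≤ p 3 → f0 + κ * v + y ≤ p 4 →
        own p ≤ (1 - s) * (1 - v) - c * y) ∨
    ∀ Q : ℝ → Prop, (∀ᵐ v : ℝ, v ∈ Ioo (0 : ℝ) 1 → Q v) →
      ∃ v ∈ Ioo (0 : ℝ) 1, Q v ∧ ∃ hh : ℕ → ℝ, (∀ l, 0 < hh l) ∧ Tendsto hh atTop (𝓝 0) ∧
        ∀ a u : ℝ, 0 ≤ u → ∀ ε : ℝ, 0 < ε → ∀ᶠ l in (atTop : Filter ℕ), ∀ p ∈ Leg monQ R,
          p 0 ≤ w0 + (v + a * hh l) → p 4 ≤ f0 + κ * (v + a * hh l) + u * hh l →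
          (∀ k, k ≠ 0 → k ≠ 4 → k ≠ 5 → k ≠ 8 → p k ≤ o (v + a * hh l) k) →
          p 5 + u * hh l ≤ o (v + a * hh l) 5 → p 8 + u * hh l ≤ o (v + a * hh l) 8 →
          p 5 + u * hh l ≤ R → p 8 + u * hh l ≤ R →
            (1 - s) * (1 - (v + a * hh l)) - ε * hh l ≤ own p := by
  rcases ext_own_casesL h (lPath11 (fun _ hp => hp) hw hf hκ hy hz hR hzR ho) with hv | hz'
  · left
    filter_upwards [hv] with v hv hvI
    obtain ⟨c, hc, y₀, hy₀, H⟩ := hv hvI
    refine ⟨c, hc, y₀, hy₀, fun y hy0 hy1 p hpL g0 g3 g4 => H y hy0 hy1 p hpL fun k => ?_⟩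
    have hn := hpL.1.nonneg
    fin_cases k
    · simpa [ol11, oe11] using g0
    · simpa [ol11, oe11] using hn 1
    · simpa [ol11, oe11] using hn 2
    · simpa [ol11, oe11] using g3
    · simpa [ol11, oe11, mul_comm] using g4
    · simpa [ol11, oe11] using hn 5
    · simpa [ol11, oe11] using hn 6
    · simpa [ol11, oe11] using hn 7
    · simpa [ol11, oe11] using hn 8
    · simpa [ol11, oe11] using hn 9
    · simpa [ol11, oe11] using hn 10
  · right
    intro Q hQ
    obtain ⟨v, hvI, hQv, hh, hh0, hht, H⟩ := hz' Q hQ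
    refine ⟨v, hvI, hQv, hh, hh0, hht, fun a u hu ε hε => ?_⟩
    have t1 : Tendsto (fun l => v + a * hh l) atTop (𝓝 v) := by
      have := (hht.const_mul a).const_add v
      rwa [mul_zero, add_zero] at this
    have t2 : Tendsto (fun l => u * hh l) atTop (𝓝 0) := by
      have := hht.const_mul u
      rwa [mul_zero] at this
    filter_upwards [H a u hu ε hε, t1.eventually (lt_mem_nhds hvI.1),
      t1.eventually (gt_mem_nhds hvI.2), t2.eventually (gt_mem_nhds hy)] with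
      l hl l1 l2 l3 p hpL g0 g4 gk g5 g8 g5R g8R
    set v' := v + a * hh l with hv'
    set y := u * hh l with hyd
    have hy0 : 0 ≤ y := mul_nonneg hu (hh0 l).le
    obtain ⟨o1, o2, o3, o4⟩ := ho v' l1.le l2.le
    obtain ⟨pn, p1, p2, p3, p4, p5, p6, p7, p8, p9, p10, p11⟩ := legalQ_iff.1 hpL.1
    have hκv : 0 ≤ κ * v' := mul_nonneg hκ.le l1.le
    have hκv1 : κ * v' ≤ κ := by nlinarith
    have n0 := pn 0; have n1 := pn 1; have n2 := pn 2; have n3 := pn 3; have n4 := pn 4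
    have n5 := pn 5; have n6 := pn 6; have n7 := pn 7; have n8 := pn 8; have n9 := pn 9
    have n10 := pn 10
    have hpR := hpL.2
    have hz3 : 0 ≤ z3 := by linarith
    -- the natural box
    set q : Fin 11 → ℝ := ![w0 + v', p 1, p 2, max (p 3) z3, f0 + κ * v', p 5 + y, p 6, p 7,
      p 8 + y, p 9, p 10] with hq
    have q0 : q 0 = w0 + v' := by simp [hq]
    have q4 : q 4 = f0 + κ * v' := by simp [hq]
    have m1 : p 3 ≤ max (p 3) z3 := le_max_left _ _
    have m2 : z3 ≤ max (p 3) z3 := le_max_right _ _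
    have m3 : max (p 3) z3 ≤ R := max_le (hpR 3) hzR
    have m4 : max (p 3) z3 ≤ o v' 3 :=
      max_le (gk 3 (by decide) (by decide) (by decide) (by decide)) o2
    have hqL : q ∈ Leg monQ R := by
      refine ⟨?_, fun k => ?_⟩
      · rw [legalQ_iff]
        refine ⟨fun k => ?_, ?_, ?_, ?_, ?_, ?_, ?_, ?_, ?_, ?_, ?_, ?_⟩
        · fin_cases k <;>
            simp only [hq, Matrix.cons_val, Fin.zero_eta, Fin.mk_one, Fin.reduceFinMk,
              Fin.isValue] <;>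
            linarith
        all_goals
          simp only [hq, Matrix.cons_val, Fin.isValue]
          linarith
      · have r0 := hpR 0; have r1 := hpR 1; have r2 := hpR 2; have r6 := hpR 6
        have r7 := hpR 7; have r9 := hpR 9; have r10 := hpR 10
        fin_cases k <;>
          simp only [hq, Matrix.cons_val, Fin.zero_eta, Fin.mk_one, Fin.reduceFinMk,
            Fin.isValue] <;>
          linarith
    have hqy : q + y • (Pi.single 4 1 : Fin 11 → ℝ) ∈ Leg monQ R := by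
      have e1 : q + y • (Pi.single 4 1 : Fin 11 → ℝ) = ![w0 + v', p 1, p 2, max (p 3) z3,
          f0 + κ * v' + y, p 5 + y, p 6, p 7, p 8 + y, p 9, p 10] := by
        funext k
        fin_cases k <;> simp [hq]
      rw [e1]
      refine ⟨?_, fun k => ?_⟩
      · rw [legalQ_iff]
        refine ⟨fun k => ?_, ?_, ?_, ?_, ?_, ?_, ?_, ?_, ?_, ?_, ?_, ?_⟩
        · fin_cases k <;>
            simp only [Matrix.cons_val, Fin.zero_eta, Fin.mk_one, Fin.reduceFinMk,
              Fin.isValue] <;>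
            linarith
        all_goals
          simp only [Matrix.cons_val, Fin.isValue]
          linarith
      · have r0 := hpR 0; have r1 := hpR 1; have r2 := hpR 2; have r6 := hpR 6
        have r7 := hpR 7; have r9 := hpR 9; have r10 := hpR 10
        fin_cases k <;>
          simp only [Matrix.cons_val, Fin.zero_eta, Fin.mk_one, Fin.reduceFinMk,
            Fin.isValue] <;>
          linarith
    refine hl q hqL q0 (fun k => ?_) (fun k => ?_) (by rw [q4]; simp [ol11, oe11, mul_comm])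
      hqy p hpL (fun k => ?_)
    · have b1 := gk 1 (by decide) (by decide) (by decide) (by decide)
      have b2 := gk 2 (by decide) (by decide) (by decide) (by decide)
      have b6 := gk 6 (by decide) (by decide) (by decide) (by decide)
      have b7 := gk 7 (by decide) (by decide) (by decide) (by decide)
      have b9 := gk 9 (by decide) (by decide) (by decide) (by decide)
      have b10 := gk 10 (by decide) (by decide) (by decide) (by decide)
      fin_cases k <;>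
        simp only [hq, Matrix.cons_val, Fin.zero_eta, Fin.mk_one, Fin.reduceFinMk,
          Fin.isValue] <;>
        assumption
    · fin_cases k <;>
        simp only [hq, ol11, oe11, Pi.add_apply, Pi.smul_apply, smul_eq_mul, Matrix.cons_val,
          Fin.zero_eta, Fin.mk_one, Fin.reduceFinMk, Fin.isValue] <;>
        linarith
    · fin_cases k <;>
        simp [hq] <;> linarith

end chart11

end Crest.Agent.R136.Own831
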