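import Crest.Agent.R136.End15_882
import Crest.Agent.R136.TL2_196
import Crest.Agent.R136.TL0_196
import Crest.Agent.R136.End12_882
import Crest.Agent.R136.NbC_196
import Crest.Agent.R138.KMs_630
import Crest.Agent.R136.DMX1_779
import Crest.Agent.R136.GBx_779
import Crest.Agent.R136.End10_882
import Crest.Agent.R136.End4b_403

-- ▼ part R136/End16_882
section

/-!
# R136 (S0187): END, part 16 (helper882): finite END in window units
-/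

set_option autoImplicit false
set_option linter.unusedVariables false

open Finset Filter Topology

namespace Crest.Agent.R136.End882

open Crest.Agent.R136.NetQ186
open Crest.Agent.R136.GeoQ186
open Crest.Agent.R136.Gz779 (tau)
open Crest.Agent.R136.LmQ861 Crest.Agent.R136.HR829
open Crest.Agent.R136.Sh605 hiding frm
open Crest.Agent.R138.Mk163 (zc zl rho alive own)

open Classical in
/-- the conclusion of `end_chart` -/
def EndKey (g : ℝ) (qq : Fin 3 → ℝ) (η κ : ℝ) (M₀ : ℕ) : Prop :=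
    ∀ (F I0 : Finset (ℕ × ℝ)) (L : ℕ → Ln4) (nb rc : ℕ × ℝ → ℕ × ℝ → Prop) (gg : Fin 6 → ℝ)
      (f : ℕ × ℝ → Fq4) (w1 w2 a r0 K Kp δ ρ nn n0 Kc D Tr : ℝ) (Cl Cl' : V3 → ℝ → Prop)
      (i j M k : ℕ) (J0 : ℤ) (i0 : ℕ × ℝ),
      i0 ∈ F → M₀ ≤ M → η / 2 * M ≤ k → (k : ℝ) ≤ η * M → i + M + 1 ≤ j →
      1 ≤ Kp → Kp ≤ K → K ≤ (2 : ℝ) ^ (κ * M) → 0 ≤ δ → 3 * Kp * δ * 2 ^ M ≤ 1 → 0 < ρ →
      6 * Kp ^ 2 * ρ * 2 ^ M ≤ 1 → 0 < nn → 0 < n0 → 0 < Kc → 0 < D → 0 < r0 →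
      (∀ x ∈ F, zc i x.2 = J0) →
      (∀ x ∈ F, TrueLn gg (f x) (L x.1) ∧ (f x).z = x.2 ∧ |(f x).e| ≤ 1) →
      (∀ y ∈ I0, TrueLn gg (f y) (L y.1)) →
      |gA gg i0.2 ((f i0).pa i0.2) ((f i0).pb i0.2) + (f i0).fa| ≤ 1 →
      |gB gg i0.2 ((f i0).pa i0.2) ((f i0).pb i0.2) + (f i0).fb| ≤ 1 →
      0 < a → w2 ≤ w1 → 9 * 2 ^ k * a ≤ w2 →
      (∀ s1 s2 m1 m2 k11 k12 k22 : ℝ, QCo gg (f i0) (f i0).e i0.2 s1 s2 m1 m2 k11 k12 k22 →
        Flat (1 / 2048) (rho i) (6 * Kp * w1) (2 * Kp * w2) m1 m2 k11 k12 k22) →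
      (∀ x ∈ F, ∀ y ∈ F, ∀ s, |coQ (f x) (f y) s| ≤ Kp * sbox (rho i) w1 w2 a s) →
      -- own counts of the sample
      (∀ x ∈ F, nn ≤ K * ((F.filter fun y => y.1 = x.1 ∧ zc i y.2 = zc i x.2).card : ℝ)) →
      (∀ x ∈ F, nn / 2 ^ (M + 1 - k) ≤ K * ((F.filter fun y => y.1 = x.1 ∧
        zc (i + M + 1 - k) y.2 = zc (i + M + 1 - k) x.2).card : ℝ)) →
      (∀ x ∈ F, ((F.filter fun y => y.1 = x.1 ∧ zc (i + M + 1) y.2 = zc (i + M + 1) x.2).card : ℝ)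
        ≤ K * (nn / 2 ^ (M + 1))) →
      (∀ x ∈ F, ((F.filter fun y => y.1 = x.1 ∧ zc j y.2 = zc j x.2).card : ℝ)
        ≤ K * (nn / 2 ^ (j - i))) →
      -- own counts of the ambient family
      (∀ x ∈ I0, ((I0.filter fun y => y.1 = x.1 ∧ zc i y.2 = zc i x.2).card : ℝ) ≤ K * n0) →
      (∀ x ∈ I0, ((I0.filter fun y => y.1 = x.1 ∧
        zc (i + M + 1 - k) y.2 = zc (i + M + 1 - k) x.2).card : ℝ) ≤
          K * (n0 / 2 ^ (M + 1 - k))) →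
      -- comb
      (∀ P ⊆ F, ∀ P' ⊆ I0, (∀ x ∈ P, ∀ y ∈ I0, nb x y → y ∈ P') →
        Kc * (P.card : ℝ) ≤ K * (P'.card : ℝ)) →
      (∀ x ∈ F, ∀ y ∈ I0, nb x y → zc (i + M + 1 - k) y.2 = zc (i + M + 1 - k) x.2 ∧
        ∀ s, |coQ (f x) (f y) s| ≤ δ * sbox (rho i) w1 w2 a s) →
      -- D-max
      DMaxK (alive I0 i J0) L (zl i J0) (rho i) (K * D) (Rq qq i) r0 Cl →
      (∀ A B a', w1 ≤ A → A ≤ 12 * K * w1 → w2 ≤ B → B ≤ 4 * K * w2 → a ≤ a' → a' ≤ 6 * K * a →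
        Cl (wFQ A B) a') →
      (∀ cl : ℤ, DMaxK (alive I0 (i + M + 1 - k) cl) L (zl (i + M + 1 - k) cl)
        (rho (i + M + 1 - k)) (K * (D * 2 ^ (g * ((M : ℝ) + 1 - k)))) (Rq qq (i + M + 1 - k))
        r0 Cl') →
      (∀ A B a', w1 / 2 ^ M ≤ A → A ≤ 100000 * K * (2 ^ k / 2 ^ M) * w1 →
        w2 / 2 ^ M ≤ B → B ≤ 100000 * K * (2 ^ k / 2 ^ M) * w2 →
        a / 2 ^ M ≤ a' → a' ≤ 100000 * K * (2 ^ k / 2 ^ M) * a → Cl' (wFQ A B) a') →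
      r0 * 2 ^ M ≤ a →
      -- record
      (∀ x ∈ F, Tr ≤ K * ((F.filter fun y => rc x y).card : ℝ)) →
      (∀ x ∈ F, ∀ y ∈ F, rc x y → zc j y.2 = zc j x.2 ∧
        ∀ s, |coQ (f x) (f y) s| ≤ Kp * sbox (ρ * rho i) (ρ * w1) (ρ * w2) (ρ * a) s) →
      n0 * (D * (a * w2 * w1 * Rq qq i a w2 w1)) * (2 : ℝ) ^ (-(3 - g) * M) ≤
        K * (Kc * (Tr * 2 ^ (j - i))) → False

theorem end_key (hKM : ∀ V : ℝ, Crest.Agent.R138.Tub70.KM32 V) {g : ℝ} (hg : 0 < g)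
    {qq : Fin 3 → ℝ} (hqq : ∀ k, 0 ≤ qq k) :
    ∃ η κ : ℝ, ∃ M₀ : ℕ, 0 < η ∧ η ≤ 1 / 4 ∧ 0 < κ ∧ EndKey g qq η κ M₀ := by
  obtain ⟨η, κ, M₀, a, b, c, d, e⟩ := end_chart hKM hg hqq one_pos
  exact ⟨η, κ, M₀, a, c, d, e⟩

theorem sbox_nonneg {lam w1 w2 a : ℝ} (hl : 0 ≤ lam) (h1 : 0 ≤ w1) (h2 : 0 ≤ w2) (ha : 0 ≤ a)
    (s : Fin 11) : 0 ≤ sbox lam w1 w2 a s := by
  have q1 : 0 ≤ a / lam ^ 2 := by positivity
  have q2 : 0 ≤ w2 / w1 := by positivity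
  have q3 : 0 ≤ a / w2 := by positivity
  have q4 : 0 ≤ a / w1 := by positivity
  have q5 : 0 ≤ w1 / lam := by positivity
  have q6 : 0 ≤ w2 / lam := by positivity
  have q7 : 0 ≤ a / lam := by positivity
  unfold sbox
  fin_cases s
  · exact hl
  · exact q1
  · exact q2
  · exact q3
  · exact q4
  · exact q5
  · exact q6
  · exact q7
  · exact h1
  · exact h2
  · exact ha

/-- class of test sheets: wide width at most `wmax`, all widths in a range -/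
def ClW (wmax : ℝ) (lo hi : Fin 3 → ℝ) (w : V3) (a : ℝ) : Prop :=
  (0 < a ∧ w 1 ≤ wmax) ∧ ∀ k : Fin 3, lo k ≤ ![a, w 1, w 2] k ∧ ![a, w 1, w 2] k ≤ hi k

theorem DMaxK.mono_r0 {ι : Type} {A : Finset ι} {L : ι → Ln4} {z0 ρ D : ℝ} {R : ℝ → ℝ → ℝ → ℝ}
    {r0 r1 : ℝ} {Cl : V3 → ℝ → Prop} (h : DMaxK A L z0 ρ D R r0 Cl) (hr : r0 ≤ r1) :
    DMaxK A L z0 ρ D R r1 Cl := by
  intro e c w q a hS hC
  exact h e c w q a { hS with r0_le := hr.trans hS.r0_le } hC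

/-! ### numbers -/

theorem num_pow {e : ℝ} (he : 0 < e) (E0 : 1000000 * e ≤ 1) :
    (∀ s : ℝ, 0 < e ^ s) ∧ e < 1 ∧ (∀ {s s' : ℝ}, s' ≤ s → e ^ s ≤ e ^ s') ∧
    (∀ s s' : ℝ, e ^ s * e ^ s' = e ^ (s + s')) ∧ (∀ s : ℝ, 0 ≤ s → 1 ≤ e ^ (-s)) ∧
    (∀ s : ℝ, 1 ≤ s → e ^ s ≤ e) ∧ ∀ s : ℝ, 2 ≤ s → e ^ s ≤ e * e := by
  have hle1 : e < 1 := by linarith
  have hmon : ∀ {s s' : ℝ}, s' ≤ s → e ^ s ≤ e ^ s' := fun hs =>
    Real.rpow_le_rpow_of_exponent_ge he hle1.le hs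
  refine ⟨fun s => Real.rpow_pos_of_pos he s, hle1, hmon, fun s s' => (Real.rpow_add he s s').symm,
    fun s hs => Real.one_le_rpow_of_pos_of_le_one_of_nonpos he hle1.le (by linarith), fun s hs => ?_,
    fun s hs => ?_⟩
  · calc e ^ s ≤ e ^ (1 : ℝ) := hmon hs
      _ = e := Real.rpow_one e
  · calc e ^ s ≤ e ^ (1 + 1 : ℝ) := hmon (by linarith)
      _ = e * e := by rw [Real.rpow_add he, Real.rpow_one]

theorem up_cls {e κ₂ W H s : ℝ} (he : 0 < e) (E0 : 1000000 * e ≤ 1) (hκ2 : κ₂ ≤ 1) (hW : 0 < W)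
    (hWH : W ≤ e ^ (3 : ℝ) * H) (hs : 0 ≤ s) : 1200000 * e ^ (-κ₂) * (W * e ^ s) ≤ H := by
  obtain ⟨hep, hle1, hmon, hadd, hone1, hsm, hsm2⟩ := num_pow he E0
  have hH : 0 < H := by
    by_contra hc
    push Not at hc
    have := mul_nonpos_of_nonneg_of_nonpos (hep 3).le hc
    linarith
  have hKe : e ^ (-κ₂) ≤ e ^ (-1 : ℝ) := hmon (by linarith)
  have es : e ^ s ≤ 1 := Real.rpow_le_one he.le hle1.le hs
  have p1 := hep s
  have p2 := hep (-1)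
  have h5 : 1200000 * (e * e) ≤ 1 := by nlinarith
  calc 1200000 * e ^ (-κ₂) * (W * e ^ s) ≤ 1200000 * e ^ (-1 : ℝ) * ((e ^ (3 : ℝ) * H) * 1) := by
        gcongr
    _ = 1200000 * (e ^ (-1 : ℝ) * e ^ (3 : ℝ)) * H := by ring
    _ = 1200000 * e ^ (-1 + 3 : ℝ) * H := by rw [hadd]
    _ ≤ 1200000 * (e * e) * H := by
        have := hsm2 (-1 + 3) (by norm_num)
        gcongr
    _ ≤ 1 * H := by gcongr
    _ = H := one_mul _

theorem up_w {e κ₂ W lam dδ t u : ℝ} (he : 0 < e) (E0 : 1000000 * e ≤ 1) (hκ2 : κ₂ ≤ 1)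
    (hlam : 0 < lam) (hdδ : 0 < dδ) (hW : 0 < W) (b3 : W ≤ e ^ (3 : ℝ) * (dδ * lam))
    (ht : 0 ≤ t) : 2400000 * e ^ (-κ₂) * (W * e ^ (t + u)) ≤ dδ * (lam * e ^ u) := by
  obtain ⟨hep, hle1, hmon, hadd, hone1, hsm, hsm2⟩ := num_pow he E0
  have h1 : 0 < dδ * lam := mul_pos hdδ hlam
  have hKe : e ^ (-κ₂) ≤ e ^ (-1 : ℝ) := hmon (by linarith)
  have p1 := hep (t + u)
  have p2 := hep (-1)
  have p3 := hep u
  have p4 : 0 < W * e ^ (t + u) := mul_pos hW p1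
  have h3 : 2400000 * (e * e) ≤ 1 := by nlinarith
  calc 2400000 * e ^ (-κ₂) * (W * e ^ (t + u)) ≤ 2400000 * e ^ (-1 : ℝ) *
        ((e ^ (3 : ℝ) * (dδ * lam)) * e ^ (t + u)) := by gcongr
    _ = 2400000 * (dδ * lam * e ^ u) * e ^ (-1 + 3 + t : ℝ) := by
        rw [← hadd (-1 + 3), ← hadd (-1), ← hadd t u]
        ring
    _ ≤ 2400000 * (dδ * lam * e ^ u) * (e * e) := by
        have h3 := hsm2 (-1 + 3 + t) (by linarith)
        gcongr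
    _ = (dδ * lam * e ^ u) * (2400000 * (e * e)) := by ring
    _ ≤ (dδ * lam * e ^ u) * 1 := by gcongr
    _ = dδ * (lam * e ^ u) := by ring

theorem cls_up {c K a hi x : ℝ} (h0 : 0 ≤ K * a) (hc : c ≤ 1200000) (h : 1200000 * K * a ≤ hi)
    (hx : x ≤ c * K * a) : x ≤ hi := by
  have : c * (K * a) ≤ 1200000 * (K * a) := by gcongr
  linarith

theorem cls_in {dδ ρ K w1 w2 a w1' w2' a' CA CB Ca : ℝ} {lo hi : Fin 3 → ℝ} (l0 : lo 0 ≤ a')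
    (ha' : 0 < a') (l1 : lo 1 ≤ w1') (l2 : lo 2 ≤ w2') (hw1 : 0 ≤ w1') (hw2 : 0 ≤ w2') (hKa : 0 ≤ K * a)
    (hKw1 : 0 ≤ K * w1) (hKw2 : 0 ≤ K * w2) (h0 : 1200000 * K * a ≤ hi 0)
    (h1 : 1200000 * K * w1 ≤ hi 1) (h2 : 1200000 * K * w2 ≤ hi 2)
    (hw : 12 * (CA * K * w1) ≤ dδ * ρ) (cA : 12 * CA ≤ 1200000) (cB : 10 * CB ≤ 1200000)
    (ca : Ca ≤ 1200000) :
    ∀ A B a'' : ℝ, w1' ≤ A → A ≤ CA * K * w1 → w2' ≤ B → B ≤ CB * K * w2 → a' ≤ a'' →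
      a'' ≤ Ca * K * a → ClW (dδ * ρ) lo hi (wFQ A B) a'' := by
  intro A B a'' a1 a2 b1 b2 d1 d2
  refine ⟨⟨ha'.trans_le d1, ?_⟩, fun s => ?_⟩
  · change 12 * A ≤ dδ * ρ
    linarith
  · fin_cases s
    · change lo 0 ≤ a'' ∧ a'' ≤ hi 0
      exact ⟨l0.trans d1, cls_up hKa ca h0 d2⟩
    · change lo 1 ≤ 12 * A ∧ 12 * A ≤ hi 1
      refine ⟨by linarith, cls_up hKw1 cA h1 ?_⟩
      calc 12 * A ≤ 12 * (CA * K * w1) := by gcongr
        _ = _ := by ring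
    · change lo 2 ≤ 10 * B ∧ 10 * B ≤ hi 2
      refine ⟨by linarith, cls_up hKw2 cB h2 ?_⟩
      calc 10 * B ≤ 10 * (CB * K * w2) := by gcongr
        _ = _ := by ring

theorem lo_aux {e W s s' r : ℝ} {P : ℝ} {l : ℝ} (he : 0 < e) (E0 : 1000000 * e ≤ 1) (hW : 0 < W)
    (hP0 : 0 < P) (hP : P ≤ e ^ (-r)) (hl : l ≤ e ^ s * W) (hs : s' + r ≤ s) :
    l ≤ W * e ^ s' / P := by
  obtain ⟨hep, hle1, hmon, hadd, hone1, hsm, hsm2⟩ := num_pow he E0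
  refine hl.trans ?_
  rw [le_div_iff₀ hP0]
  calc e ^ s * W * P ≤ e ^ s * W * e ^ (-r) := mul_le_mul_of_nonneg_left hP (mul_pos (hep _) hW).le
    _ = W * e ^ (s + -r) := by rw [← hadd s]; ring
    _ ≤ W * e ^ s' := mul_le_mul_of_nonneg_left (hmon (by linarith)) hW.le

theorem nb_num {e εp r q P : ℝ} (he : 0 < e) (E0 : 1000000 * e ≤ 1) (hεp : 0 ≤ εp) (hq : q ≤ 1)
    (hP0 : 0 < P) (h5 : 6 * (e ^ (-εp)) ^ 2 * e ^ q * P ≤ 1) :
    3 * e ^ (-εp) * (4 * e ^ (2 : ℝ)) * P ≤ 1 := by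
  obtain ⟨hep, hle1, hmon, hadd, hone1, hsm, hsm2⟩ := num_pow he E0
  have hKp1 : 1 ≤ e ^ (-εp) := hone1 _ hεp
  have a1 : e ^ (-εp) ≤ (e ^ (-εp)) ^ 2 := le_self_pow₀ hKp1 (by norm_num)
  have a2 : e ^ (2 : ℝ) = e ^ q * e ^ (2 - q) := by rw [hadd]; congr 1; ring
  have a3 : e ^ (2 - q) ≤ e := hsm _ (by linarith)
  have p1 := hep q
  have p2 := hep (2 - q)
  have p3 := hep (-εp)
  calc 3 * e ^ (-εp) * (4 * e ^ (2 : ℝ)) * P
      = 2 * (6 * e ^ (-εp) * e ^ q * P) * e ^ (2 - q) := by rw [a2]; ring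
    _ ≤ 2 * (6 * (e ^ (-εp)) ^ 2 * e ^ q * P) * e ^ (2 - q) := by gcongr
    _ ≤ 2 * 1 * e ^ (2 - q) := by gcongr
    _ ≤ 1 := by linarith

theorem thin_num {e t u v W2 Th P : ℝ} (he : 0 < e) (E0 : 1000000 * e ≤ 1) (ht : 0 ≤ t)
    (hv : 0 ≤ v) (hW2 : 0 < W2) (hTh : 0 < Th) (b1 : Th ≤ e ^ (t + 4) * W2) (hP0 : 0 ≤ P)
    (hP : P ≤ e ^ (-1 : ℝ)) : 9 * P * (Th * e ^ (2 * t + u + v)) ≤ W2 * e ^ (2 * t + u) := by
  obtain ⟨hep, hle1, hmon, hadd, hone1, hsm, hsm2⟩ := num_pow he E0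
  have p1 := hep (2 * t + u + v)
  have p2 := hep (-1)
  calc 9 * P * (Th * e ^ (2 * t + u + v)) ≤
        9 * e ^ (-1 : ℝ) * ((e ^ (t + 4) * W2) * e ^ (2 * t + u + v)) := by gcongr
    _ = 9 * e ^ (-1 + (t + 4) + v) * (W2 * e ^ (2 * t + u)) := by
        rw [← hadd (-1 + (t + 4)), ← hadd (-1) (t + 4), ← hadd (2 * t + u) v]; ring
    _ ≤ 1 * (W2 * e ^ (2 * t + u)) := by
        have := hsm (-1 + (t + 4) + v) (by linarith)
        have h3 : 9 * e ^ (-1 + (t + 4) + v) ≤ 1 := by linarith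
        exact mul_le_mul_of_nonneg_right h3 (mul_pos hW2 (hep _)).le
    _ = _ := one_mul _

theorem w21_num {e t u W1 W2 : ℝ} (he : 0 < e) (E0 : 1000000 * e ≤ 1) (ht : 0 ≤ t) (hW1 : 0 < W1)
    (b2 : W2 ≤ e ^ (t + 4) * W1) : W2 * e ^ (2 * t + u) ≤ W1 * e ^ (t + u) := by
  obtain ⟨hep, hle1, hmon, hadd, hone1, hsm, hsm2⟩ := num_pow he E0
  calc W2 * e ^ (2 * t + u) ≤ (e ^ (t + 4) * W1) * e ^ (2 * t + u) :=
        mul_le_mul_of_nonneg_right b2 (hep _).le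
    _ = W1 * e ^ (t + 4 + (2 * t + u)) := by rw [← hadd (t + 4) (2 * t + u)]; ring
    _ ≤ W1 * e ^ (t + u) := mul_le_mul_of_nonneg_left (hmon (by linarith)) hW1.le

theorem kap_num {e r κ κ₂ : ℝ} {M : ℕ} (he : 0 < e) (hκ : 0 ≤ κ)
    (E4 : e ^ (-κ₂) ≤ (e ^ (-r) / 2) ^ κ) (f6 : e ^ (-r) ≤ (2 : ℝ) ^ (M + 1)) :
    e ^ (-κ₂) ≤ (2 : ℝ) ^ (κ * M) := by
  refine E4.trans ?_
  have h0 := Real.rpow_pos_of_pos he (-r)
  have h1 : e ^ (-r) / 2 ≤ 2 ^ M := by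
    rw [pow_succ] at f6
    linarith
  calc (e ^ (-r) / 2) ^ κ ≤ ((2 : ℝ) ^ M) ^ κ := Real.rpow_le_rpow (by positivity) h1 hκ
    _ = (2 : ℝ) ^ (κ * M) := by
        rw [← Real.rpow_natCast, ← Real.rpow_mul (by norm_num), mul_comm]

theorem rho_num {i M k m1 m0 : ℕ} (h : k ≤ M) (h1 : i + M + 1 - k ≤ m1) (g : ℝ) :
    rho i / rho (i + M + 1 - k) = 2 ^ (M + 1 - k) ∧
    (2 : ℝ) ^ (m1 - (i + M + 1 - k)) = 2 ^ (m1 - i) / 2 ^ (M + 1 - k) ∧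
    (2 : ℝ) ^ k / 2 ^ M = 2 / 2 ^ (M + 1 - k) ∧
    rho (i + M + 1 - k) = rho i / 2 ^ (M + 1 - k) ∧
    (rho m0 / rho (i + M + 1 - k)) ^ g =
      (rho m0 / rho i) ^ g * (2 : ℝ) ^ (g * ((M : ℝ) + 1 - k)) := by
  have hρi := HR829.rho_pos i
  have hρl := HR829.rho_pos (i + M + 1 - k)
  have hρ0 := HR829.rho_pos m0
  have h2kM : (2 : ℝ) ^ (i + M + 1 - k) = 2 ^ i * 2 ^ (M + 1 - k) := by
    rw [← pow_add]; congr 1; omega
  have hrhol : rho i / rho (i + M + 1 - k) = 2 ^ (M + 1 - k) := by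
    unfold rho
    rw [h2kM]
    field_simp
  refine ⟨hrhol, ?_, ?_, ?_, ?_⟩
  · rw [eq_div_iff (by positivity), ← pow_add]; congr 1; omega
  · rw [div_eq_div_iff (by positivity) (by positivity), ← pow_add, ← pow_succ']
    congr 1; omega
  · rw [← hrhol]; field_simp
  · have h1 : rho m0 / rho (i + M + 1 - k) = rho m0 / rho i * (rho i / rho (i + M + 1 - k)) := by
      field_simp
    rw [h1, Real.mul_rpow (div_pos hρ0 hρi).le (div_pos hρi hρl).le, hrhol,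
      ← Real.rpow_natCast, ← Real.rpow_mul (by norm_num)]
    congr 2
    rw [Nat.cast_sub (by omega)]
    push_cast
    ring

theorem box_up {lam lam' w1 w2 a c C Kp q : ℝ} (hl : 0 < lam) (h1 : lam ≤ lam')
    (h2 : lam' ≤ 2 * lam) (hw1 : 0 < w1) (hw2 : 0 < w2) (ha : 0 < a) (hc : 0 ≤ c)
    (hC : 4 * c ≤ C) (s : Fin 11) (hq : q ≤ c * sbox lam w1 w2 a s) :
    q ≤ C * sbox lam' w1 w2 a s := by
  have h3 := sbox_le hl h1 h2 hw1 hw2 ha s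
  calc q ≤ c * sbox lam w1 w2 a s := hq
    _ ≤ c * (4 * sbox lam' w1 w2 a s) := mul_le_mul_of_nonneg_left h3 hc
    _ = 4 * c * sbox lam' w1 w2 a s := by ring
    _ ≤ _ := mul_le_mul_of_nonneg_right hC
      (sbox_nonneg (hl.le.trans h1) hw1.le hw2.le ha.le s)

open Classical in
set_option maxHeartbeats 4000000 in
/-- **finite END in window units** -/
theorem win_end {g : ℝ} {qq : Fin 3 → ℝ} {η κ : ℝ} {M₀ : ℕ} (key : EndKey g qq η κ M₀)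
    (hη0 : 0 < η) (hη1 : η ≤ 1 / 4) {M₁ : ℕ} (hM₁ : 4 ≤ η * M₁) (hM₀ : M₀ ≤ M₁) (hκ : 0 ≤ κ)
    {u v t x δ κ₂ εp εc e : ℝ} (hu : 0 < u) (huv : u < v) (hv1 : v < 1) (hδ : 0 < δ)
    (hδ1 : δ < v - u) (ht : 0 ≤ t) (hx : 0 ≤ x) (hεc : 0 < εc) (hεp : 0 < εp) (hεp1 : εp ≤ κ₂)
    (hκ2 : κ₂ ≤ 1) (he : 0 < e) (E0 : 1000000 * e ≤ 1) (E2 : 4 * e ^ (-εc) ≤ e ^ (-εp))
    (E3 : (2 : ℝ) ^ (M₁ + 1) ≤ e ^ (-(v - u - δ)))
    (E4 : e ^ (-κ₂) ≤ (e ^ (-(v - u - δ)) / 2) ^ κ)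
    (E5 : 6 * (e ^ (-εp)) ^ 2 * e ^ (v - u) * e ^ (-(v - u - δ)) ≤ 1) (E8 : 4 * e ^ δ < 1)
    (E9 : 2 * e ^ (κ₂ / 2) ≤ 1) (E16 : 16 ≤ e ^ (-κ₂))
    {lam W1 W2 Th : ℝ} (hlam : 0 < lam) (hlam1 : lam ≤ 1) (hW1 : 0 < W1) (hW2 : 0 < W2)
    (hTh : 0 < Th) (b1 : Th ≤ e ^ (t + 4) * W2) (b2 : W2 ≤ e ^ (t + 4) * W1)
    {F I0 : Finset (ℕ × ℝ)} {L : ℕ → Ln4} {inc : ℕ × ℝ → Fq4} {gg : Fin 6 → ℝ} (hFI : F ⊆ I0)
    {i0 : ℕ × ℝ} (hi0 : i0 ∈ F)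
    (hinc : ∀ x ∈ I0, TrueLn 0 (inc x) (L x.1) ∧ (inc x).z = x.2 ∧ |(inc x).e| ≤ 1 ∧
      |(inc x).fa| ≤ 1 ∧ |(inc x).fb| ≤ 1)
    (h4 : gg 4 = 0) (h5 : gg 5 = 0) (c1 : |tau gg (inc i0)| * lam ≤ e ^ (x - 1) * (Th / W1))
    (c2 : |gg 2| * lam ≤ e ^ (-1 : ℝ) * (Th / W2)) (c3 : |gg 3| * W1 ≤ e ^ (-1 : ℝ) * (Th / W1))
    {i j M k m0 m1 : ℕ} (hiL : i = lvl (lam * e ^ u)) (hj : j = lvl (lam * e ^ v))
    (hM : M = nM e (v - u - δ)) (hk : k = nK η M)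
    (hcell : ∀ x ∈ F, ∀ y ∈ F, zc i x.2 = zc i y.2)
    (hnear : ∀ x ∈ F, ∀ y ∈ F, ∀ s, |coQ (rg gg (inc x)) (rg gg (inc y)) s| ≤
      e ^ (-εc) * sbox (lam * e ^ u) (W1 * e ^ (t + u)) (W2 * e ^ (2 * t + u))
        (Th * e ^ (2 * t + u + v)) s)
    {nn : ℝ} (hnn : 0 < nn)
    (o1 : ∀ x ∈ F, nn ≤ e ^ (-κ₂) * ((F.filter fun y => y.1 = x.1 ∧ zc i y.2 = zc i x.2).card : ℝ))
    (o2 : ∀ x ∈ F, nn / 2 ^ (M + 1 - k) ≤ e ^ (-κ₂) * ((F.filter fun y => y.1 = x.1 ∧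
        zc (i + M + 1 - k) y.2 = zc (i + M + 1 - k) x.2).card : ℝ))
    (o3 : ∀ x ∈ F, ((F.filter fun y => y.1 = x.1 ∧ zc (i + M + 1) y.2 =
      zc (i + M + 1) x.2).card : ℝ) ≤ e ^ (-κ₂) * (nn / 2 ^ (M + 1)))
    (o4 : ∀ x ∈ F, ((F.filter fun y => y.1 = x.1 ∧ zc j y.2 = zc j x.2).card : ℝ)
        ≤ e ^ (-κ₂) * (nn / 2 ^ (j - i)))
    (hone : ∀ x ∈ I0, ∀ y ∈ I0, x.1 = y.1 → zc m1 x.2 = zc m1 y.2 → x = y) (hm0 : m0 ≤ i)
    (hm1 : i + M + 1 - k ≤ m1) {Kc : ℝ} (hKc : 0 < Kc) {nb : ℕ × ℝ → ℕ × ℝ → Prop}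
    (hcomb : ∀ P ⊆ F, ∀ P' ⊆ I0, (∀ x ∈ P, ∀ y ∈ I0, nb x y → y ∈ P') →
      Kc * (P.card : ℝ) ≤ 16 * (P'.card : ℝ))
    (hnb : ∀ x ∈ F, ∀ y ∈ I0, nb x y → zc m1 y.2 = zc m1 x.2 ∧
      ∀ s, |coQ (rg gg (inc x)) (rg gg (inc y)) s| ≤
      e ^ (2 : ℝ) * sbox (lam * e ^ u) (W1 * e ^ (t + u)) (W2 * e ^ (2 * t + u))
        (Th * e ^ (2 * t + u + v)) s)
    {Hn An r0 dδ : ℝ} {lo hi : Fin 3 → ℝ} (hAn : 0 < An) (hHn : Hn ≤ e ^ (-κ₂)) (hdδ : 0 < dδ)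
    (hDm : ∀ m : ℕ, m0 ≤ m → m ≤ m1 → ∀ cl : ℤ, DMaxK (alive I0 m cl) L (zl m cl) (rho m)
      (Hn * (An * (rho m0 / rho m) ^ g)) (Rq qq m) r0 (ClW (dδ * rho m) lo hi))
    (hlo : ∀ k : Fin 3, lo k ≤ e ^ (2 * t + 2 : ℝ) * ![Th, W1, W2] k)
    (hhi : ∀ k : Fin 3, ![Th, W1, W2] k ≤ e ^ (3 : ℝ) * hi k)
    (b3 : W1 ≤ e ^ (3 : ℝ) * (dδ * lam)) (hr : r0 ≤ Th * e ^ (2 * t + 2 * v - δ)) {Tr : ℝ}
    (hTr : ∀ x ∈ F, Tr ≤ ((F.filter fun y => zc j y.2 = zc j x.2 ∧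
      ∀ s, |coQ (rg gg (inc x)) (rg gg (inc y)) s| ≤ e ^ (-εc) * sbox (lam * e ^ v)
        (W1 * e ^ (t + v)) (W2 * e ^ (2 * t + v)) (Th * e ^ (2 * t + v + v)) s).card : ℝ))
    (hfin : (2 : ℝ) ^ (m1 - i) * (An * (rho m0 / rho i) ^ g * ((Th * e ^ (2 * t + u + v)) *
      (W2 * e ^ (2 * t + u)) * (W1 * e ^ (t + u)) * Rq qq i (Th * e ^ (2 * t + u + v))
        (W2 * e ^ (2 * t + u)) (W1 * e ^ (t + u)))) * (2 : ℝ) ^ (-(3 - g) * M) ≤
          e ^ (-κ₂) * (Kc * (Tr * 2 ^ (j - i)))) : False := by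
  obtain ⟨hep, hle1, hmon, hadd, hone1, hsm, hsm2⟩ := num_pow he E0
  obtain ⟨f1, f2, f3, f4, f5, f6, f7, f8, f9, f10, f11, f12, f13⟩ := lev_facts hη0 hη1 hM₁ he hle1
    hlam hlam1 hu huv hδ hδ1 E3 E8 E9
  rw [← hiL] at f1 f2
  rw [← hj] at f3 f4
  rw [← hM] at f5 f6 f7 f8 f9 f10 f11 f12 f13
  rw [← hk] at f8 f9 f10 f12 f13
  rw [← hiL, ← hj] at f11
  rw [← hiL] at f12
  have hlu : 0 < lam * e ^ u := mul_pos hlam (hep _)
  have hlv : 0 < lam * e ^ v := mul_pos hlam (hep _)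
  have pw1 : 0 < W1 * e ^ (t + u) := mul_pos hW1 (hep _)
  have pw2 : 0 < W2 * e ^ (2 * t + u) := mul_pos hW2 (hep _)
  have pa : 0 < Th * e ^ (2 * t + u + v) := mul_pos hTh (hep _)
  have hρi := HR829.rho_pos i
  have hKp1 : 1 ≤ e ^ (-εp) := hone1 _ hεp.le
  have hKpK : e ^ (-εp) ≤ e ^ (-κ₂) := hmon (neg_le_neg hεp1)
  have hK1 : 1 ≤ e ^ (-κ₂) := hKp1.trans hKpK
  have hK0 : 0 < e ^ (-κ₂) := hep _
  have hl1 : i ≤ i + M + 1 - k := by clear * - f10; omega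
  have hm1i : i ≤ m1 := hl1.trans hm1
  have hw21 := w21_num (u := u) he E0 ht hW1 b2
  have h2M0 : (0 : ℝ) < 2 ^ M := pow_pos two_pos _
  have h2k : (2 : ℝ) ^ k ≤ e ^ (-1 : ℝ) := by
    calc (2 : ℝ) ^ k ≤ 2 ^ M := pow_le_pow_right₀ one_le_two f10
      _ ≤ e ^ (-(v - u - δ)) := f5
      _ ≤ e ^ (-1 : ℝ) := hmon (by clear * - hu hv1 hδ; linarith)
  obtain ⟨hrhol, h2l, h2q, hrl', hpl⟩ := rho_num (m0 := m0) f10 hm1 g
  have hfl := fun (s1 s2 n1 n2 k11 k12 k22 : ℝ)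
      (hc : QCo gg (rg gg (inc i0)) (rg gg (inc i0)).e i0.2 s1 s2 n1 n2 k11 k12 k22) =>
    flat_win (i := rg gg (inc i0)) h4 h5 (hinc i0 (hFI hi0)).2.2.1 he E0 hlam hW1 hW2 hTh hx hu.le ht
      hKp1 (hKpK.trans (hmon (neg_le_neg hκ2))) hρi.le f2 c1 c2 c3 b1 b2 hc
  have hcomb5 : 6 * (e ^ (-εp)) ^ 2 * e ^ (v - u) * 2 ^ M ≤ 1 := by
    refine le_trans (mul_le_mul_of_nonneg_left f5 ?_) E5
    have h6 := hep (v - u)
    clear * - h6
    positivity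
  have hδ2 := nb_num (r := v - u) he E0 hεp.le (by clear * - hu hv1; linarith : v - u ≤ 1) h2M0 hcomb5
  have haM : Th * e ^ (2 * t + u + v) / 2 ^ M ≤ Th * e ^ (2 * t + u + v) :=
    div_le_self pa.le (one_le_pow₀ one_le_two)
  have hw1M : W1 * e ^ (t + u) / 2 ^ M ≤ W1 * e ^ (t + u) :=
    div_le_self pw1.le (one_le_pow₀ one_le_two)
  have hw2M : W2 * e ^ (2 * t + u) / 2 ^ M ≤ W2 * e ^ (2 * t + u) :=
    div_le_self pw2.le (one_le_pow₀ one_le_two)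
  have hrM : r0 ≤ Th * e ^ (2 * t + u + v) / 2 ^ M :=
    lo_aux he E0 hTh h2M0 f5 (hr.trans (le_of_eq (mul_comm _ _)))
      (by clear * -; linarith)
  have hD0 : 0 < An * (rho m0 / rho i) ^ g :=
    mul_pos hAn (Real.rpow_pos_of_pos (div_pos (HR829.rho_pos _) hρi) _)
  have hkM : (2 : ℝ) ^ k / 2 ^ M ≤ 1 := by
    rw [div_le_one h2M0]
    exact pow_le_pow_right₀ one_le_two f10
  have hkM0 : (0 : ℝ) ≤ 2 ^ k / 2 ^ M := div_nonneg (pow_nonneg two_pos.le _) h2M0.le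
  have lo0 : lo 0 ≤ Th * e ^ (2 * t + u + v) / 2 ^ M :=
    lo_aux he E0 hTh h2M0 f5 (hlo 0) (by clear * - hu hv1 hδ; linarith)
  have lo1 : lo 1 ≤ W1 * e ^ (t + u) / 2 ^ M :=
    lo_aux he E0 hW1 h2M0 f5 (hlo 1) (by clear * - hu hv1 hδ ht; linarith)
  have lo2 : lo 2 ≤ W2 * e ^ (2 * t + u) / 2 ^ M :=
    lo_aux he E0 hW2 h2M0 f5 (hlo 2) (by clear * - hu hv1 hδ ht; linarith)
  have hi0' := up_cls (s := 2 * t + u + v) he E0 hκ2 hTh (hhi 0)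
    (by clear * - hu huv ht; linarith)
  have hi1' := up_cls (s := t + u) he E0 hκ2 hW1 (hhi 1) (by clear * - hu ht; linarith)
  have hi2' := up_cls (s := 2 * t + u) he E0 hκ2 hW2 (hhi 2) (by clear * - hu ht; linarith)
  have hwu := up_w (t := t) (u := u) he E0 hκ2 hlam hdδ hW1 b3 ht
  have hwi : 2400000 * e ^ (-κ₂) * (W1 * e ^ (t + u)) ≤ dδ * rho i :=
    hwu.trans (mul_le_mul_of_nonneg_left f1 hdδ.le)
  have y0 : 0 < e ^ (-κ₂) * (Th * e ^ (2 * t + u + v)) := mul_pos hK0 pa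
  have y1 : 0 < e ^ (-κ₂) * (W1 * e ^ (t + u)) := mul_pos hK0 pw1
  have y2 : 0 < e ^ (-κ₂) * (W2 * e ^ (2 * t + u)) := mul_pos hK0 pw2
  have hrl : lam * e ^ v ≤ e ^ (v - u) * rho i ∧ e ^ (v - u) * rho i ≤ 2 * (lam * e ^ v) := by
    have h1 : lam * e ^ v = e ^ (v - u) * (lam * e ^ u) := by
      rw [mul_left_comm, hadd, sub_add_cancel]
    have h2 := hep (v - u)
    rw [h1]
    refine ⟨mul_le_mul_of_nonneg_left f1 h2.le, ?_⟩
    refine (mul_le_mul_of_nonneg_left f2 h2.le).trans (le_of_eq ?_)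
    ring
  have r1 : W1 * e ^ (t + v) = e ^ (v - u) * (W1 * e ^ (t + u)) := by
    rw [mul_left_comm, hadd]; congr 2; ring
  have r2 : W2 * e ^ (2 * t + v) = e ^ (v - u) * (W2 * e ^ (2 * t + u)) := by
    rw [mul_left_comm, hadd]; congr 2; ring
  have r3 : Th * e ^ (2 * t + v + v) = e ^ (v - u) * (Th * e ^ (2 * t + u + v)) := by
    rw [mul_left_comm, hadd]; congr 2; ring
  have hnear' : ∀ x ∈ F, ∀ y ∈ F, ∀ s, |coQ (rg gg (inc x)) (rg gg (inc y)) s| ≤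
      e ^ (-εp) * sbox (rho i) (W1 * e ^ (t + u)) (W2 * e ^ (2 * t + u))
        (Th * e ^ (2 * t + u + v)) s :=
    fun x hx y hy s => box_up (Kp := 0) hlu f1 f2 pw1 pw2 pa (hep _).le E2 s (hnear x hx y hy s)
  have hthin := thin_num (u := u) (v := v) he E0 ht (hu.le.trans huv.le) hW2 hTh b1
    (pow_nonneg two_pos.le k) h2k
  have hTL : ∀ x ∈ I0, TrueLn gg (rg gg (inc x)) (L x.1) := fun x hx => by
    have h9 := trueLn_rg (h := gg) (hinc x hx).1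
    rwa [zero_add] at h9
  obtain ⟨q1, q2, q3, q4, q5⟩ := hinc i0 (hFI hi0)
  obtain ⟨fl1, fl2⟩ := rg_flags gg (inc i0)
  rw [q2] at fl1 fl2
  have dm1 : DMaxK (alive I0 i (zc i i0.2)) L (zl i (zc i i0.2)) (rho i)
      (e ^ (-κ₂) * (An * (rho m0 / rho i) ^ g)) (Rq qq i) (Th * e ^ (2 * t + u + v) / 2 ^ M)
      (ClW (dδ * rho i) lo hi) :=
    ((hDm i hm0 hm1i _).mono_r0 hrM).mono (div_pos pa h2M0)
      (mul_le_mul_of_nonneg_right hHn hD0.le)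
  have dm2 : ∀ cl : ℤ, DMaxK (alive I0 (i + M + 1 - k) cl) L (zl (i + M + 1 - k) cl)
      (rho (i + M + 1 - k)) (e ^ (-κ₂) * (An * (rho m0 / rho i) ^ g *
        2 ^ (g * ((M : ℝ) + 1 - k)))) (Rq qq (i + M + 1 - k))
      (Th * e ^ (2 * t + u + v) / 2 ^ M)
      (ClW (dδ * rho (i + M + 1 - k)) lo hi) := by
    intro cl
    refine ((hDm _ (hm0.trans hl1) hm1 cl).mono_r0 hrM).mono (div_pos pa h2M0) ?_
    rw [hpl, mul_assoc An]
    have h1 : 0 ≤ An * ((rho m0 / rho i) ^ g * (2 : ℝ) ^ (g * ((M : ℝ) + 1 - k))) := by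
      rw [← mul_assoc]
      exact mul_nonneg hD0.le (Real.rpow_nonneg two_pos.le _)
    exact mul_le_mul_of_nonneg_right hHn h1
  refine key F I0 L nb (fun x y => zc j y.2 = zc j x.2 ∧
      ∀ s, |coQ (rg gg (inc x)) (rg gg (inc y)) s| ≤ e ^ (-εc) * sbox (lam * e ^ v)
        (W1 * e ^ (t + v)) (W2 * e ^ (2 * t + v)) (Th * e ^ (2 * t + v + v)) s) gg
    (fun x => rg gg (inc x)) (W1 * e ^ (t + u)) (W2 * e ^ (2 * t + u)) (Th * e ^ (2 * t + u + v))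
    (Th * e ^ (2 * t + u + v) / 2 ^ M) (e ^ (-κ₂)) (e ^ (-εp)) (4 * e ^ (2 : ℝ))
    (e ^ (v - u)) nn
    (2 ^ (m1 - i)) Kc (An * (rho m0 / rho i) ^ g) Tr (ClW (dδ * rho i) lo hi)
    (ClW (dδ * rho (i + M + 1 - k)) lo hi) i j M k (zc i i0.2) i0 hi0 (hM₀.trans f7) f8 f9
    f11 hKp1 hKpK (kap_num he hκ E4 f6) (mul_nonneg (by norm_num) (hep 2).le) hδ2 (hep _) hcomb5 hnn
    (pow_pos two_pos _) hKc hD0 (div_pos pa h2M0) (fun x hx' => hcell x hx' i0 hi0)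
    (fun x hx => ⟨hTL x (hFI hx), (hinc x (hFI hx)).2.1, (hinc x (hFI hx)).2.2.1⟩) hTL
    ((le_of_eq (congrArg abs fl1)).trans q4) ((le_of_eq (congrArg abs fl2)).trans q5) pa
    hw21 hthin hfl hnear' o1 o2 o3 o4 ?_ ?_ ?_ ?_ dm1 ?_ dm2 ?_ ?_ ?_ ?_ hfin
  · intro x hx
    exact (cell_count hm1i hone x).trans (le_mul_of_one_le_left (pow_nonneg two_pos.le _) hK1)
  · intro x hx
    refine (cell_count hm1 hone x).trans ?_
    rw [h2l]
    exact le_mul_of_one_le_left (div_nonneg (pow_nonneg two_pos.le _) (pow_nonneg two_pos.le _)) hK1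
  · intro P hP P' hP' hc
    exact (hcomb P hP P' hP' hc).trans (mul_le_mul_of_nonneg_right E16 (Nat.cast_nonneg _))
  · intro x hx y hy hxy
    obtain ⟨n1, n2⟩ := hnb x hx y hy hxy
    exact ⟨Crest.Agent.R136.Cnt638.zc_nest hm1 n1, fun s =>
      box_up (Kp := 0) hlu f1 f2 pw1 pw2 pa (hep _).le le_rfl s (n2 s)⟩
  · refine cls_in (lo0.trans haM) pa (lo1.trans hw1M) (lo2.trans hw2M) pw1.le pw2.le y0.le y1.le y2.le
      hi0' hi1' hi2' ?_ (by norm_num) (by norm_num) (by norm_num)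
    refine le_trans ?_ hwi
    clear * - y1
    linarith
  · have e1 : ∀ z : ℝ, 100000 * e ^ (-κ₂) * (2 ^ k / 2 ^ M) * z =
        (100000 * (2 ^ k / 2 ^ M)) * e ^ (-κ₂) * z := fun z => by ring
    simp only [e1]
    have c1 : 100000 * ((2 : ℝ) ^ k / 2 ^ M) ≤ 100000 := by
      clear * - hkM
      linarith
    refine cls_in lo0 (div_pos pa h2M0) lo1 lo2 (div_pos pw1 h2M0).le (div_pos pw2 h2M0).le y0.le y1.le y2.le hi0' hi1'
      hi2' ?_ (by clear * - c1; linarith) (by clear * - c1; linarith) (by clear * - c1; linarith)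
    rw [hrl', h2q]
    have h7 : (0 : ℝ) < 2 ^ (M + 1 - k) := pow_pos two_pos _
    calc 12 * (100000 * (2 / 2 ^ (M + 1 - k)) * e ^ (-κ₂) * (W1 * e ^ (t + u))) =
        (2400000 * e ^ (-κ₂) * (W1 * e ^ (t + u))) / 2 ^ (M + 1 - k) := by ring
      _ ≤ (dδ * rho i) / 2 ^ (M + 1 - k) := div_le_div_of_nonneg_right hwi h7.le
      _ = _ := by ring
  · exact le_of_eq (div_mul_cancel₀ _ h2M0.ne')
  · intro x hx
    refine (hTr x hx).trans ?_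
    refine le_trans (le_of_eq ?_) (le_mul_of_one_le_left (Nat.cast_nonneg _) hK1)
    congr!
  · intro x hx y hy hxy
    refine ⟨hxy.1, fun s => ?_⟩
    have h1 := hxy.2 s
    rw [r1, r2, r3] at h1
    have h2 := hep (v - u)
    exact box_up (Kp := 0) hlv hrl.1 hrl.2 (mul_pos h2 pw1) (mul_pos h2 pw2) (mul_pos h2 pa)
      (hep _).le E2 s h1

end Crest.Agent.R136.End882
end

-- ▼ part R136/RecR_196
section

/-!
# R136, END of the lightlike case: record line against the gauge object (helper196)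

`rec_R` : the count on the record line at the level `ξ n` and the record box of the class frame give
the lower bound of 882's (R); `rec_R_ge`, `rec_R_pt` : the same facts one by one.
-/

set_option autoImplicit false
set_option linter.unusedVariables false

open Finset Filter Topology

namespace Crest.Agent.R136.TL196

open Crest.Agent.R138.Ex926
open Crest.Agent.R136.Net191
open Crest.Agent.R136.NetQ186
open Crest.Agent.R136.GeoQ186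
open Crest.Agent.R136.Wq638
open Crest.Agent.R136.Lq196
open Crest.Agent.R136.Top484
open Crest.Agent.R136.NatT550
open Crest.Agent.R136.NatR550
open Crest.Agent.R136.TopB550
open Crest.Agent.R136.Qg926
open Crest.Agent.R136.Zpr779
open Crest.Agent.R136.Gz779
open Crest.Agent.R136.Own831

variable {η : ℝ} {c : LCtx} {B' : Base} {J : ℕ → Finset (ℕ × ℝ)} {ξ w : ℕ → ℝ}
  {lam lo : (Fin 11 → ℝ) → ℝ}

/-- the level is inside the interval -/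
theorem RecW.lev_in (rw : RecW c B' J ξ w lam lo) :
    ∀ᶠ n in (U : Filter ℕ), 0 < ξ n ∧ ξ n < 1 := by
  obtain ⟨ξ₀, h0, h1, hl⟩ := rw.ξlim
  exact (hl.eventually_const_lt h0).and (hl.eventually_lt_const h1)

/-- the linear part of the record box in the class frame -/
theorem DL_rz (ok : c.Ok η) (T1 x v : ℝ) :
    DL c.p (bT T1) + DL c.p (rz (c.p.θ 1) T1 x v) =
      (c.p.g - 1) * v - (3 - (c.p.θ 0 + c.p.θ 1 + c.p.θ 2)) * v +
        (c.p.q 0 * c.p.θ 0 + c.p.q 1 * c.p.θ 1 + c.p.q 2 * c.p.θ 2) * v := by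
  have hL : c.p.θ 2 - c.p.θ 0 = 1 := ok.pat.2.2.1
  have hL2 : c.p.θ 2 = 2 * c.p.θ 1 := ok.pat.2.2.2
  have hL0 : c.p.θ 0 = 2 * c.p.θ 1 - 1 := by linarith
  simp only [DL, bT, rz, nL, Matrix.cons_val]
  rw [hL0, hL2]
  ring

/-- value on the record line, expanded -/
theorem rec_val' (ok : c.Ok η) {s : ℝ} (h0 : 0 ≤ s) (h1 : s < 1) :
    c.ν (c.X s) = c.c₀ + (c.p.g * s + (1 - s) - (3 - (c.p.θ 0 + c.p.θ 1 + c.p.θ 2)) * s +
      (c.p.q 0 * c.p.θ 0 + c.p.q 1 * c.p.θ 1 + c.p.q 2 * c.p.θ 2) * s) := by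
  rw [rec_val ok h0 h1]
  unfold DN
  ring

/-- **(R)** of 882: the record count against the gauge object -/
theorem rec_R (ok : c.Ok η) (rw' : RecW c B' J ξ w lam lo) {T1 x v : ℝ}
    {ν' : (Fin 11 → ℝ) → ℝ}
    (H : DL c.p (bT T1) - lam (bT T1) + DL c.p (rz (c.p.θ 1) T1 x v) ≤
      ν' (rz (c.p.θ 1) T1 x v)) (ε : ℝ) :
    ∀ᶠ n in (U : Filter ℕ),
      c.D.B.d n ^ (-(c.c₀ + (c.p.g * ξ n + (1 - ξ n) -
          (3 - (c.p.θ 0 + c.p.θ 1 + c.p.θ 2)) * ξ n +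
            (c.p.q 0 * c.p.θ 0 + c.p.q 1 * c.p.θ 1 + c.p.q 2 * c.p.θ 2) * ξ n))) *
        B'.d n ^ (-((c.p.g - 1) * v - (3 - (c.p.θ 0 + c.p.θ 1 + c.p.θ 2)) * v +
            (c.p.q 0 * c.p.θ 0 + c.p.q 1 * c.p.θ 1 + c.p.q 2 * c.p.θ 2) * v) + ε) ≤
      c.TB T1 B' ξ lam n * B'.d n ^ (-(ν' (rz (c.p.θ 1) T1 x v)) + ε) := by
  filter_upwards [rw'.lev_in] with n hn
  rw [← rec_val' ok hn.1.le hn.2, ← DL_rz ok T1 x v]
  unfold LCtx.TB
  rw [mul_assoc, ← Real.rpow_add (B'.pos n)]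
  refine mul_le_mul_of_nonneg_left ?_ (Real.rpow_nonneg (c.D.B.pos n).le _)
  exact Real.rpow_le_rpow_of_exponent_ge (B'.pos n) (B'.lt n).le (by linarith)

/-- **(R)** from the field `ext` of `GZ` -/
theorem rec_R_ext (ok : c.Ok η) (rw' : RecW c B' J ξ w lam lo) {T1 x R' : ℝ}
    {I0 J' : ℕ → Finset (ℕ × ℝ)} {co : ∀ n : ℕ, ℕ × ℝ → ℕ × ℝ → Fin 11 → ℝ}
    {X : ℕ → Fin 11 → ℝ} {w' Tn To : ℕ → ℝ} {kz : Fin 11} {w0 s : ℝ} {PD : Set (Fin 11 → ℝ)}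
    {D : (Fin 11 → ℝ) → ℝ} {o : ℝ → Fin 11 → ℝ} {T : Fin 11 → Prop}
    {ν' own' : (Fin 11 → ℝ) → ℝ}
    (H : ExtZ c.D.B B' I0 J' co monQ 2 X w' monQ R' Tn To kz w0 s PD D (rz (c.p.θ 1) T1 x) o
      (fun v => DL c.p (rz (c.p.θ 1) T1 x v)) T ν' own' (DL c.p (bT T1) - lam (bT T1)))
    {v : ℝ} (hv0 : 0 ≤ v) (hv1 : v ≤ 1) (ε : ℝ) :
    ∀ᶠ n in (U : Filter ℕ),
      c.D.B.d n ^ (-(c.c₀ + (c.p.g * ξ n + (1 - ξ n) -
          (3 - (c.p.θ 0 + c.p.θ 1 + c.p.θ 2)) * ξ n +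
            (c.p.q 0 * c.p.θ 0 + c.p.q 1 * c.p.θ 1 + c.p.q 2 * c.p.θ 2) * ξ n))) *
        B'.d n ^ (-((c.p.g - 1) * v - (3 - (c.p.θ 0 + c.p.θ 1 + c.p.θ 2)) * v +
            (c.p.q 0 * c.p.θ 0 + c.p.q 1 * c.p.θ 1 + c.p.q 2 * c.p.θ 2) * v) + ε) ≤
      c.TB T1 B' ξ lam n * B'.d n ^ (-(ν' (rz (c.p.θ 1) T1 x v)) + ε) :=
  rec_R ok rw' (H.record v hv0 hv1).2 ε

/-- **(R)** from `GZ` -/
theorem GZ.rec_R {T1 x R' : ℝ} {Cl E J' : ℕ → Finset (ℕ × ℝ)} {s₀ : ℕ → ℕ × ℝ}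
    {h : ℕ → Fin 6 → ℝ} {ηg To : ℕ → ℝ} {ν' own' : (Fin 11 → ℝ) → ℝ}
    (g : GZ c T1 x R' B' J ξ w lam lo Cl E s₀ h ηg J' To ν' own') (ok : c.Ok η)
    {v : ℝ} (hv0 : 0 ≤ v) (hv1 : v ≤ 1) (ε : ℝ) :
    ∀ᶠ n in (U : Filter ℕ),
      c.D.B.d n ^ (-(c.c₀ + (c.p.g * ξ n + (1 - ξ n) -
          (3 - (c.p.θ 0 + c.p.θ 1 + c.p.θ 2)) * ξ n +
            (c.p.q 0 * c.p.θ 0 + c.p.q 1 * c.p.θ 1 + c.p.q 2 * c.p.θ 2) * ξ n))) *
        B'.d n ^ (-((c.p.g - 1) * v - (3 - (c.p.θ 0 + c.p.θ 1 + c.p.θ 2)) * v +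
            (c.p.q 0 * c.p.θ 0 + c.p.q 1 * c.p.θ 1 + c.p.q 2 * c.p.θ 2) * v) + ε) ≤
      c.TB T1 B' ξ lam n * B'.d n ^ (-(ν' (rz (c.p.θ 1) T1 x v)) + ε) :=
  rec_R_ext ok g.gw.rw g.ext hv0 hv1 ε

end Crest.Agent.R136.TL196
end

-- ▼ part R136/Wid_638
section

/-!
# R136 (S0187), lightlike case, END: real sides at the record window (helper638)

`sdn` : real side of the slot `k` of the base box of the class.
* `tight` (W0): exact walls of the base exponents;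
* `sides` (W1): the sides of the slots `z`, `X_a`, `X_b`, `N`;
* `gap_N`, `gap_b`, `gap_a` (W2): power gaps between consecutive sides;
* `res_le` (W3): the resolution is below the record thickness;
* `lev_mem` (W4): the levels of the window lie inside `[lev 0, lev 1]`.
-/

set_option autoImplicit false
set_option linter.unusedVariables false

open Finset Filter Topology

namespace Crest.Agent.R136.Wid638

open Crest.Agent.R138.Ex926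
open Crest.Agent.R138.Mk163 (zc zl rho)
open Crest.Agent.R136.Net191
open Crest.Agent.R136.NetQ186
open Crest.Agent.R136.GeoQ186
open Crest.Agent.R136.Wq638
open Crest.Agent.R136.Lq196
open Crest.Agent.R136.Top484
open Crest.Agent.R136.NatT550
open Crest.Agent.R136.NatR550
open Crest.Agent.R136.TopB550
open Crest.Agent.R136.Qg926
open Crest.Agent.R136.Gz779
open Crest.Agent.R136.TL196

/-- two-sided bounds by every power -/
theorem sub_of_bd' {B : Base} {X : ℕ → ℝ}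
    (h1 : ∀ ε : ℝ, 0 < ε → ∀ᶠ n in (U : Filter ℕ), B.d n ^ ε ≤ X n)
    (h2 : ∀ ε : ℝ, 0 < ε → ∀ᶠ n in (U : Filter ℕ), X n ≤ B.d n ^ (-ε)) : B.Sub X := by
  rw [Base.Sub.iff]
  refine ⟨?_, ?_⟩
  · filter_upwards [h1 1 one_pos] with n hn
    exact lt_of_lt_of_le (Real.rpow_pos_of_pos (B.pos n) _) hn
  · rw [Metric.tendsto_nhds]
    intro ε hε
    filter_upwards [h1 (ε / 2) (by positivity), h2 (ε / 2) (by positivity)] with n a1 a2
    have hL := B.L_pos n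
    have hp := Real.rpow_pos_of_pos (B.pos n) (ε / 2)
    have hX : 0 < X n := lt_of_lt_of_le hp a1
    have b1 := Real.log_le_log hp a1
    have b2 := Real.log_le_log hX a2
    rw [Real.log_rpow (B.pos n)] at b1 b2
    have e : Real.log (B.d n) = -B.L n := by unfold Base.L; ring
    rw [e] at b1 b2
    rw [Real.dist_eq, sub_zero, Base.lg, abs_div, abs_of_pos hL, div_lt_iff₀ hL, abs_lt]
    constructor <;> nlinarith

variable {c : LCtx} {η : ℝ} {B' : Base} {J : ℕ → Finset (ℕ × ℝ)} {ξ w : ℕ → ℝ}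
  {lam lo : (Fin 11 → ℝ) → ℝ}

/-- real side of the slot `k` of the base box; by `rfl` equal to `End882.sd (c.D.B.d n)
(c.XB T1 ξ w n) (uH ..) (uA ..) (uB ..) (uY ..) k` -/
noncomputable def sdn (c : LCtx) (T1 : ℝ) (ξ w : ℕ → ℝ) (n : ℕ) (k : Fin 11) : ℝ :=
  c.D.B.d n ^ (if k = 1 then c.XB T1 ξ w n 7 - c.XB T1 ξ w n 0 else c.XB T1 ξ w n k) /
    sfac (uH c.D.B c.D.lev c.w0 n) (uA c.D.B c.D.lev c.D.w c.w0 n)
      (uB c.D.B c.D.lev c.D.w c.w0 n) (uY c.D.B c.D.lev c.D.w c.w0 n) k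

theorem e_eq (rw' : RecW c B' J ξ w lam lo) (n : ℕ) (t : ℝ) :
    B'.d n ^ t = c.D.B.d n ^ (w n * t) := by
  rw [rw'.win.base, ← Real.rpow_mul (c.D.B.pos n).le]

/-- the scale of the window is small -/
theorem w_small (rw' : RecW c B' J ξ w lam lo) (C : ℝ) {δ : ℝ} (hδ : 0 < δ) :
    ∀ᶠ n in (U : Filter ℕ), |w n * C| ≤ δ := by
  have h1 : Tendsto (fun n => w n * C) U (𝓝 0) := by
    have := rw'.wlim.mul_const C
    rwa [zero_mul] at this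
  filter_upwards [(Metric.tendsto_nhds.1 h1) δ hδ] with n hn
  rw [Real.dist_eq, sub_zero] at hn
  exact hn.le

theorem ξ_near (rw' : RecW c B' J ξ w lam lo) : ∃ ξ₀ : ℝ, 0 < ξ₀ ∧ ξ₀ < 1 ∧
    ∀ δ : ℝ, 0 < δ → ∀ᶠ n in (U : Filter ℕ), |ξ n - ξ₀| ≤ δ := by
  obtain ⟨ξ₀, h0, h1, h2⟩ := rw'.ξlim
  refine ⟨ξ₀, h0, h1, fun δ hδ => ?_⟩
  filter_upwards [(Metric.tendsto_nhds.1 h2) δ hδ] with n hn
  rw [Real.dist_eq] at hn
  exact hn.le

theorem LL_of (ok : c.Ok η) : c.p.θ 2 - c.p.θ 0 = 1 ∧ c.p.θ 2 = 2 * c.p.θ 1 := ok.pat.2.2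

/-! ### (W0) -/


/-- **(W0)** exact walls of the base exponents -/
theorem tight (ok : c.Ok η) (rw' : RecW c B' J ξ w lam lo) (T1 : ℝ) :
    ∀ᶠ n in (U : Filter ℕ), TightQ (c.XB T1 ξ w n) := by
  obtain ⟨ξ₀, h0, h1, hξ⟩ := ξ_near rw'
  have big := ok.th.tp.big
  have hT := big.T0
  have t0 := abs_le.1 (big.th 0)
  have t1 := abs_le.1 (big.th 1)
  have t2 := abs_le.1 (big.th 2)
  have hw := big.w0T
  have hR := big.R0
  filter_upwards [hξ (min ξ₀ (1 - ξ₀)) (lt_min h0 (by linarith)),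
    w_small rw' (2 * T1) (δ := 1 / 2) (by norm_num)] with n a1 a2
  have b1 : 0 ≤ ξ n := by
    have := (abs_le.1 (a1.trans (min_le_left _ _))).1
    linarith
  have b2 : ξ n ≤ 1 := by
    have := (abs_le.1 (a1.trans (min_le_right _ _))).2
    linarith
  obtain ⟨c1, c2⟩ := abs_le.1 a2
  have m : ∀ θ : ℝ, -c.T0 ≤ θ → θ ≤ c.T0 → -c.T0 ≤ θ * ξ n ∧ θ * ξ n ≤ c.T0 := by
    intro θ u1 u2
    constructor <;> nlinarith
  obtain ⟨p0, p0'⟩ := m _ t0.1 t0.2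
  obtain ⟨p1, p1'⟩ := m _ t1.1 t1.2
  obtain ⟨p2, p2'⟩ := m _ t2.1 t2.2
  have e : ∀ k : Fin 11, c.XB T1 ξ w n k =
    nat4 c.w0 (c.R - 1) (ξ n) (-(c.p.θ 1 * ξ n)) (-(c.p.θ 2 * ξ n)) (-(c.p.θ 0 * ξ n)) k +
      w n * nL 0 (-T1) (-2 * T1) (-2 * T1) k := fun k => rfl
  have e0 : c.XB T1 ξ w n 0 = c.w0 + ξ n := by rw [e]; simp [nat4, nL]
  have e1 : c.XB T1 ξ w n 1 = c.R - 1 := by rw [e]; simp [nat4, nL]
  have e2 : c.XB T1 ξ w n 2 = c.w0 + (c.p.θ 1 - c.p.θ 2) * ξ n - w n * T1 := by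
    rw [e]; simp [nat4, nL]; ring
  have e3 : c.XB T1 ξ w n 3 = c.w0 + (c.p.θ 2 - c.p.θ 0) * ξ n := by
    rw [e]; simp [nat4, nL]; ring
  have e4 : c.XB T1 ξ w n 4 = 2 * c.w0 + (c.p.θ 1 - c.p.θ 0) * ξ n - w n * T1 := by
    rw [e]; simp [nat4, nL]; ring
  have e5 : c.XB T1 ξ w n 5 = c.w0 - c.p.θ 1 * ξ n - w n * T1 := by
    rw [e]; simp [nat4, nL]; ring
  have e6 : c.XB T1 ξ w n 6 = 2 * c.w0 - c.p.θ 2 * ξ n - 2 * (w n * T1) := by
    rw [e]; simp [nat4, nL]; ring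
  have e7 : c.XB T1 ξ w n 7 = 3 * c.w0 - c.p.θ 0 * ξ n - 2 * (w n * T1) := by
    rw [e]; simp [nat4, nL]; ring
  have e8 : c.XB T1 ξ w n 8 = 2 * c.w0 + ξ n - c.p.θ 1 * ξ n - w n * T1 := by
    rw [e]; simp [nat4, nL]; ring
  have e9 : c.XB T1 ξ w n 9 = 3 * c.w0 + ξ n - c.p.θ 2 * ξ n - 2 * (w n * T1) := by
    rw [e]; simp [nat4, nL]; ring
  have e10 : c.XB T1 ξ w n 10 = 4 * c.w0 + ξ n - c.p.θ 0 * ξ n - 2 * (w n * T1) := by
    rw [e]; simp [nat4, nL]; ring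
  have f2 : c.XB T1 ξ w n 2 = c.w0 + c.p.θ 1 * ξ n - c.p.θ 2 * ξ n - w n * T1 := by rw [e2]; ring
  have f3 : c.XB T1 ξ w n 3 = c.w0 + c.p.θ 2 * ξ n - c.p.θ 0 * ξ n := by rw [e3]; ring
  have f4 : c.XB T1 ξ w n 4 = 2 * c.w0 + c.p.θ 1 * ξ n - c.p.θ 0 * ξ n - w n * T1 := by
    rw [e4]; ring
  refine ⟨fun k => ?_, ?_, ?_, ?_, ?_, ?_, ?_, ?_⟩
  · fin_cases k
    · change 0 ≤ c.XB T1 ξ w n 0; rw [e0]; linarith
    · change 0 ≤ c.XB T1 ξ w n 1; rw [e1]; linarith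
    · change 0 ≤ c.XB T1 ξ w n 2; rw [f2]; linarith
    · change 0 ≤ c.XB T1 ξ w n 3; rw [f3]; linarith
    · change 0 ≤ c.XB T1 ξ w n 4; rw [f4]; linarith
    · change 0 ≤ c.XB T1 ξ w n 5; rw [e5]; linarith
    · change 0 ≤ c.XB T1 ξ w n 6; rw [e6]; linarith
    · change 0 ≤ c.XB T1 ξ w n 7; rw [e7]; linarith
    · change 0 ≤ c.XB T1 ξ w n 8; rw [e8]; linarith
    · change 0 ≤ c.XB T1 ξ w n 9; rw [e9]; linarith
    · change 0 ≤ c.XB T1 ξ w n 10; rw [e10]; linarith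
  · rw [e0, e7]; linarith
  · rw [f4, f2, f3]; ring
  · rw [e6, f2, e5]; ring
  · rw [e7, f4, e5]; ring
  · rw [e8, e0, e5]; ring
  · rw [e9, e0, e6]; ring
  · rw [e10, f4, e8]; ring

/-! ### (W1) -/

theorem rho_pos' (i : ℕ) : 0 < rho i := by unfold rho; positivity

/-- widths of the marks of level `0` -/
theorem ord0 (ok : c.Ok η) : ∀ᶠ n in (U : Filter ℕ), 0 < c.D.w 0 n 0 ∧ 0 < c.D.w 1 n 0 ∧
    0 < c.D.w 2 n 0 ∧ c.D.r0 n ≤ c.D.w 0 n 0 ∧ c.D.w 0 n 0 ≤ c.D.w 2 n 0 ∧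
    c.D.w 2 n 0 ≤ c.D.w 1 n 0 ∧ c.D.w 1 n 0 ≤ rho (c.D.lev n 0) := by
  have mka := ok.th.tp.pre.mka
  filter_upwards [mka.wpos 0 0 le_rfl zero_le_one, mka.wpos 1 0 le_rfl zero_le_one,
    mka.wpos 2 0 le_rfl zero_le_one, mark_ord mka le_rfl zero_le_one] with n a0 a1 a2 a3
  exact ⟨a0, a1, a2, a3⟩

/-- one side: `sd = P d^((1 - θ) ξ) e^(-m T1)` -/
theorem side_aux {d ρ P a x y : ℝ} {m : ℝ} (hd : 0 < d) (hρ : 0 < ρ) (hP : 0 < P)
    (h : x = (a + m) + y) :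
    d ^ x / ((d ^ a * (1 / ρ)) / (P / ρ * d ^ (-m))) = P * d ^ y := by
  have h1 : 0 < d ^ a := Real.rpow_pos_of_pos hd _
  have h2 : 0 < d ^ m := Real.rpow_pos_of_pos hd _
  have h3 : 0 < d ^ y := Real.rpow_pos_of_pos hd _
  rw [h, Real.rpow_add hd, Real.rpow_add hd, Real.rpow_neg hd.le]
  field_simp

theorem two_pow_eq (i : ℕ) : (2 : ℝ) ^ i = 1 / rho i := by
  unfold rho
  rw [one_div_one_div]

/-- **(W1)** real sides of the base box -/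
theorem sides (ok : c.Ok η) (rw' : RecW c B' J ξ w lam lo) (T1 : ℝ) :
    ∀ᶠ n in (U : Filter ℕ),
      sdn c T1 ξ w n 0 = rho (c.D.lev n 0) * c.D.B.d n ^ ξ n ∧
      sdn c T1 ξ w n 8 = c.D.w 1 n 0 * c.D.B.d n ^ ((1 - c.p.θ 1) * ξ n) * B'.d n ^ (-T1) ∧
      sdn c T1 ξ w n 9 = c.D.w 2 n 0 * c.D.B.d n ^ ((1 - c.p.θ 2) * ξ n) * B'.d n ^ (-2 * T1) ∧
      sdn c T1 ξ w n 10 = c.D.w 0 n 0 * c.D.B.d n ^ ((1 - c.p.θ 0) * ξ n) * B'.d n ^ (-2 * T1) := by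
  filter_upwards [ord0 ok] with n ⟨P0, P1, P2, _, _, _, _⟩
  have hd := c.D.B.pos n
  have hρ := rho_pos' (c.D.lev n 0)
  have e : ∀ k : Fin 11, c.XB T1 ξ w n k =
    nat4 c.w0 (c.R - 1) (ξ n) (-(c.p.θ 1 * ξ n)) (-(c.p.θ 2 * ξ n)) (-(c.p.θ 0 * ξ n)) k +
      w n * nL 0 (-T1) (-2 * T1) (-2 * T1) k := fun k => rfl
  have e0 : c.XB T1 ξ w n 0 = c.w0 + ξ n := by rw [e]; simp [nat4, nL]
  have e8 : c.XB T1 ξ w n 8 = (c.w0 + c.w0) + ((1 - c.p.θ 1) * ξ n + w n * (-T1)) := by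
    rw [e]; simp [nat4, nL]; ring
  have e9 : c.XB T1 ξ w n 9 = (c.w0 + 2 * c.w0) + ((1 - c.p.θ 2) * ξ n + w n * (-2 * T1)) := by
    rw [e]; simp [nat4, nL]; ring
  have e10 : c.XB T1 ξ w n 10 = (c.w0 + 3 * c.w0) +
      ((1 - c.p.θ 0) * ξ n + w n * (-2 * T1)) := by
    rw [e]; simp [nat4, nL]; ring
  have H : uH c.D.B c.D.lev c.w0 n = c.D.B.d n ^ c.w0 * (1 / rho (c.D.lev n 0)) := by
    unfold uH
    rw [two_pow_eq]
  refine ⟨?_, ?_, ?_, ?_⟩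
  · have h1 : sdn c T1 ξ w n 0 = c.D.B.d n ^ (c.XB T1 ξ w n 0) / uH c.D.B c.D.lev c.w0 n := rfl
    rw [h1, H, e0, Real.rpow_add hd]
    have h2 : 0 < c.D.B.d n ^ c.w0 := Real.rpow_pos_of_pos hd _
    field_simp
  · have h1 : sdn c T1 ξ w n 8 = c.D.B.d n ^ (c.XB T1 ξ w n 8) /
      (uH c.D.B c.D.lev c.w0 n / uA c.D.B c.D.lev c.D.w c.w0 n) := rfl
    rw [h1, H, e_eq rw', mul_assoc, ← Real.rpow_add hd]
    exact side_aux hd hρ P1 e8
  · have h1 : sdn c T1 ξ w n 9 = c.D.B.d n ^ (c.XB T1 ξ w n 9) /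
      (uH c.D.B c.D.lev c.w0 n / uB c.D.B c.D.lev c.D.w c.w0 n) := rfl
    rw [h1, H, e_eq rw', mul_assoc, ← Real.rpow_add hd]
    exact side_aux hd hρ P2 e9
  · have h1 : sdn c T1 ξ w n 10 = c.D.B.d n ^ (c.XB T1 ξ w n 10) /
      (uH c.D.B c.D.lev c.w0 n / uY c.D.B c.D.lev c.D.w c.w0 n) := rfl
    rw [h1, H, e_eq rw', mul_assoc, ← Real.rpow_add hd]
    exact side_aux hd hρ P0 e10

/-- the real sides are positive -/
theorem sdn_pos (ok : c.Ok η) (rw' : RecW c B' J ξ w lam lo) (T1 : ℝ) :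
    ∀ᶠ n in (U : Filter ℕ), 0 < sdn c T1 ξ w n 0 ∧ 0 < sdn c T1 ξ w n 8 ∧
      0 < sdn c T1 ξ w n 9 ∧ 0 < sdn c T1 ξ w n 10 := by
  filter_upwards [ord0 ok, sides ok rw' T1] with n ⟨P0, P1, P2, _, _, _, _⟩ ⟨s0, s8, s9, s10⟩
  have hd : ∀ t : ℝ, 0 < c.D.B.d n ^ t := fun t => Real.rpow_pos_of_pos (c.D.B.pos n) t
  have hd' : ∀ t : ℝ, 0 < B'.d n ^ t := fun t => Real.rpow_pos_of_pos (B'.pos n) t
  have hρ := rho_pos' (c.D.lev n 0)
  rw [s0, s8, s9, s10]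
  exact ⟨mul_pos hρ (hd _), mul_pos (mul_pos P1 (hd _)) (hd' _),
    mul_pos (mul_pos P2 (hd _)) (hd' _), mul_pos (mul_pos P0 (hd _)) (hd' _)⟩

/-! ### (W2) -/

/-- **(W2)** `N` against `X_b`: power gap `d^ξ` -/
theorem gap_N (ok : c.Ok η) (rw' : RecW c B' J ξ w lam lo) (T1 C : ℝ) :
    ∀ᶠ n in (U : Filter ℕ), sdn c T1 ξ w n 10 ≤ B'.d n ^ C * sdn c T1 ξ w n 9 := by
  obtain ⟨ξ₀, h0, h1, hξ⟩ := ξ_near rw'
  obtain ⟨l1, l2⟩ := LL_of ok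
  filter_upwards [ord0 ok, sides ok rw' T1, hξ (ξ₀ / 2) (by positivity),
    w_small rw' C (δ := ξ₀ / 4) (by positivity)] with n ⟨P0, P1, P2, _, P02, _, _⟩
    ⟨s0, s8, s9, s10⟩ a1 a2
  have hd := c.D.B.pos n
  have hdp : ∀ t : ℝ, 0 < c.D.B.d n ^ t := fun t => Real.rpow_pos_of_pos hd t
  rw [s9, s10, e_eq rw', e_eq rw']
  rw [show c.D.B.d n ^ (w n * C) * (c.D.w 2 n 0 * c.D.B.d n ^ ((1 - c.p.θ 2) * ξ n) *
      c.D.B.d n ^ (w n * (-2 * T1))) = c.D.w 2 n 0 * (c.D.B.d n ^ (w n * C) *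
      c.D.B.d n ^ ((1 - c.p.θ 2) * ξ n)) * c.D.B.d n ^ (w n * (-2 * T1)) by ring,
    ← Real.rpow_add hd]
  refine mul_le_mul_of_nonneg_right (mul_le_mul P02 ?_ (hdp _).le P2.le) (hdp _).le
  refine Real.rpow_le_rpow_of_exponent_ge hd (c.D.B.lt n).le ?_
  have e1 : (1 - c.p.θ 0) * ξ n = (1 - c.p.θ 2) * ξ n + ξ n := by
    have : c.p.θ 0 = c.p.θ 2 - 1 := by linarith
    rw [this]; ring
  rw [e1]
  have b1 := (abs_le.1 a1).1
  have b2 := (abs_le.1 a2).2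
  linarith

/-- **(W2)** `X_b` against `X_a` -/
theorem gap_b (ok : c.Ok η) (rw' : RecW c B' J ξ w lam lo) (T1 C : ℝ) :
    ∀ᶠ n in (U : Filter ℕ), sdn c T1 ξ w n 9 ≤ B'.d n ^ C * sdn c T1 ξ w n 8 := by
  obtain ⟨ξ₀, h0, h1, hξ⟩ := ξ_near rw'
  obtain ⟨l1, l2⟩ := LL_of ok
  have hθ := ok.th.tp.ok.θ1
  have mka := ok.th.tp.pre.mka
  have hg : 0 < c.p.θ 1 * (1 - ξ₀) / 8 := by
    have : 0 < 1 - ξ₀ := by linarith
    positivity
  filter_upwards [ord0 ok, sides ok rw' T1, (w0_one mka).ab _ hg,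
    hξ ((1 - ξ₀) / 4) (by linarith),
    w_small rw' (C + T1) (δ := c.p.θ 1 * (1 - ξ₀) / 8) hg] with n ⟨P0, P1, P2, _, _, _, _⟩
    ⟨s0, s8, s9, s10⟩ a0 a1 a2
  have hd := c.D.B.pos n
  have hdp : ∀ t : ℝ, 0 < c.D.B.d n ^ t := fun t => Real.rpow_pos_of_pos hd t
  rw [s8, s9, e_eq rw', e_eq rw', e_eq rw']
  have b1 := (abs_le.1 a1).2
  have b2 := (abs_le.1 a2).2
  calc c.D.w 2 n 0 * c.D.B.d n ^ ((1 - c.p.θ 2) * ξ n) * c.D.B.d n ^ (w n * (-2 * T1))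
      ≤ (c.D.B.d n ^ (c.p.θ 2 - c.p.θ 1 - c.p.θ 1 * (1 - ξ₀) / 8) * c.D.w 1 n 0) *
        c.D.B.d n ^ ((1 - c.p.θ 2) * ξ n) * c.D.B.d n ^ (w n * (-2 * T1)) :=
        mul_le_mul_of_nonneg_right (mul_le_mul_of_nonneg_right a0 (hdp _).le) (hdp _).le
    _ = c.D.w 1 n 0 * c.D.B.d n ^ ((c.p.θ 2 - c.p.θ 1 - c.p.θ 1 * (1 - ξ₀) / 8) +
        ((1 - c.p.θ 2) * ξ n + w n * (-2 * T1))) := by
        rw [Real.rpow_add hd, Real.rpow_add hd]; ring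
    _ ≤ c.D.w 1 n 0 * c.D.B.d n ^ (w n * C + ((1 - c.p.θ 1) * ξ n + w n * (-T1))) := by
        refine mul_le_mul_of_nonneg_left
          (Real.rpow_le_rpow_of_exponent_ge hd (c.D.B.lt n).le ?_) P1.le
        have e2 : c.p.θ 1 * ξ n ≤ c.p.θ 1 * (ξ₀ + (1 - ξ₀) / 4) :=
          mul_le_mul_of_nonneg_left (by linarith) hθ.le
        rw [l2]
        nlinarith
    _ = _ := by rw [Real.rpow_add hd, Real.rpow_add hd]; ring

/-- **(W2)** `X_a` against the length -/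
theorem gap_a (ok : c.Ok η) (rw' : RecW c B' J ξ w lam lo) (T1 : ℝ) :
    ∃ δ0 : ℝ, 0 < δ0 ∧ ∀ C : ℝ, ∀ᶠ n in (U : Filter ℕ),
      sdn c T1 ξ w n 8 ≤ B'.d n ^ C * c.D.B.d n ^ δ0 * sdn c T1 ξ w n 0 := by
  obtain ⟨ξ₀, h0, h1, hξ⟩ := ξ_near rw'
  have hθ := ok.th.tp.ok.θ1
  have mka := ok.th.tp.pre.mka
  have hg : 0 < c.p.θ 1 * (1 - ξ₀) / 8 := by
    have : 0 < 1 - ξ₀ := by linarith
    positivity
  refine ⟨c.p.θ 1 * (1 - ξ₀) / 4, by linarith, fun C => ?_⟩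
  filter_upwards [ord0 ok, sides ok rw' T1, (w0_one mka).cap _ hg,
    hξ ((1 - ξ₀) / 4) (by linarith),
    w_small rw' (C + T1) (δ := c.p.θ 1 * (1 - ξ₀) / 8) hg] with n ⟨P0, P1, P2, _, _, _, _⟩
    ⟨s0, s8, s9, s10⟩ a0 a1 a2
  have hd := c.D.B.pos n
  have hρ := rho_pos' (c.D.lev n 0)
  have hdp : ∀ t : ℝ, 0 < c.D.B.d n ^ t := fun t => Real.rpow_pos_of_pos hd t
  rw [s8, s0, e_eq rw', e_eq rw']
  have b1 := (abs_le.1 a1).2
  have b2 := (abs_le.1 a2).2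
  calc c.D.w 1 n 0 * c.D.B.d n ^ ((1 - c.p.θ 1) * ξ n) * c.D.B.d n ^ (w n * (-T1))
      ≤ (c.D.B.d n ^ (c.p.θ 1 - c.p.θ 1 * (1 - ξ₀) / 8) * rho (c.D.lev n 0)) *
        c.D.B.d n ^ ((1 - c.p.θ 1) * ξ n) * c.D.B.d n ^ (w n * (-T1)) :=
        mul_le_mul_of_nonneg_right (mul_le_mul_of_nonneg_right a0 (hdp _).le) (hdp _).le
    _ = rho (c.D.lev n 0) * c.D.B.d n ^ ((c.p.θ 1 - c.p.θ 1 * (1 - ξ₀) / 8) +
        ((1 - c.p.θ 1) * ξ n + w n * (-T1))) := by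
        rw [Real.rpow_add hd, Real.rpow_add hd]; ring
    _ ≤ rho (c.D.lev n 0) * c.D.B.d n ^ (w n * C + (c.p.θ 1 * (1 - ξ₀) / 4 + ξ n)) := by
        refine mul_le_mul_of_nonneg_left
          (Real.rpow_le_rpow_of_exponent_ge hd (c.D.B.lt n).le ?_) hρ.le
        have e2 : c.p.θ 1 * ξ n ≤ c.p.θ 1 * (ξ₀ + (1 - ξ₀) / 4) :=
          mul_le_mul_of_nonneg_left (by linarith) hθ.le
        nlinarith
    _ = _ := by rw [Real.rpow_add hd, Real.rpow_add hd]; ring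

/-! ### (W3) -/

/-- **(W3)** the resolution is below the record thickness of every level, one loss sequence -/
theorem res_le (ok : c.Ok η) : ∃ H : ℕ → ℝ, c.D.B.Sub H ∧ (∀ n, 1 ≤ H n) ∧
    ∀ (B' : Base) (J : ℕ → Finset (ℕ × ℝ)) (ξ w : ℕ → ℝ) (lam lo : (Fin 11 → ℝ) → ℝ),
      RecW c B' J ξ w lam lo → ∀ᶠ n in (U : Filter ℕ), ∀ v : ℝ, 0 ≤ v → v ≤ 1 →
        c.D.r0 n ≤ H n * (c.D.w 0 n 0 * c.D.B.d n ^ ((1 - c.p.θ 0) * ξ n) *
          B'.d n ^ ((1 - c.p.θ 0) * v)) := by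
  have mka := ok.th.tp.pre.mka
  set H : ℕ → ℝ := fun n => max 1 (c.D.r0 n / (c.D.w 0 n 0 * c.D.B.d n ^ (1 - c.p.θ 0))) with hH
  have hH1 : ∀ n, 1 ≤ H n := fun n => le_max_left _ _
  refine ⟨H, sub_of_bd' (fun ε hε => ?_) (fun ε hε => ?_), hH1, ?_⟩
  · refine Eventually.of_forall fun n => le_trans ?_ (hH1 n)
    exact Real.rpow_le_one (c.D.B.pos n).le (c.D.B.lt n).le hε.le
  · filter_upwards [(w0_one mka).res ε hε, ord0 ok] with n a1 ⟨P0, _⟩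
    have hd := c.D.B.pos n
    have hdp : ∀ t : ℝ, 0 < c.D.B.d n ^ t := fun t => Real.rpow_pos_of_pos hd t
    refine max_le ?_ ?_
    · exact Real.one_le_rpow_of_pos_of_le_one_of_nonpos hd (c.D.B.lt n).le (by linarith)
    · rw [div_le_iff₀ (mul_pos P0 (hdp _))]
      refine a1.trans (le_of_eq ?_)
      rw [show c.D.B.d n ^ (-ε) * (c.D.w 0 n 0 * c.D.B.d n ^ (1 - c.p.θ 0)) =
        (c.D.B.d n ^ (1 - c.p.θ 0) * c.D.B.d n ^ (-ε)) * c.D.w 0 n 0 by ring,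
        ← Real.rpow_add hd]
      rfl
  · intro B' J ξ w lam lo rw'
    obtain ⟨ξ₀, h0, h1, hξ⟩ := ξ_near rw'
    filter_upwards [ord0 ok, hξ (min ξ₀ (1 - ξ₀) / 2)
      (by have := lt_min h0 (by linarith : (0 : ℝ) < 1 - ξ₀); linarith),
      w_small rw' 1 (δ := min ξ₀ (1 - ξ₀) / 2)
        (by have := lt_min h0 (by linarith : (0 : ℝ) < 1 - ξ₀); linarith)] with n
      ⟨P0, _, _, r1, _⟩ a1 a2 v hv0 hv1
    have hd := c.D.B.pos n
    have hdp : ∀ t : ℝ, 0 < c.D.B.d n ^ t := fun t => Real.rpow_pos_of_pos hd t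
    have hw0 := rw'.win.w0 n
    have m1 := min_le_left ξ₀ (1 - ξ₀)
    have m2 := min_le_right ξ₀ (1 - ξ₀)
    obtain ⟨b1, b2⟩ := abs_le.1 a1
    obtain ⟨b3, b4⟩ := abs_le.1 a2
    rw [mul_one] at b3 b4
    have c1 : 0 ≤ ξ n + w n * v := by
      have : 0 ≤ w n * v := mul_nonneg hw0.le hv0
      linarith
    have c2 : ξ n + w n * v ≤ 1 := by
      have : w n * v ≤ w n * 1 := mul_le_mul_of_nonneg_left hv1 hw0.le
      linarith
    rw [e_eq rw', mul_assoc (c.D.w 0 n 0), ← Real.rpow_add hd,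
      show (1 - c.p.θ 0) * ξ n + w n * ((1 - c.p.θ 0) * v) =
        (1 - c.p.θ 0) * (ξ n + w n * v) by ring]
    rcases le_total 0 (1 - c.p.θ 0) with hs | hs
    · have k1 : c.D.B.d n ^ (1 - c.p.θ 0) ≤ c.D.B.d n ^ ((1 - c.p.θ 0) * (ξ n + w n * v)) :=
        Real.rpow_le_rpow_of_exponent_ge hd (c.D.B.lt n).le (by nlinarith)
      have k2 : c.D.r0 n / (c.D.w 0 n 0 * c.D.B.d n ^ (1 - c.p.θ 0)) ≤ H n := le_max_right _ _
      rw [div_le_iff₀ (mul_pos P0 (hdp _))] at k2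
      refine k2.trans (mul_le_mul_of_nonneg_left (mul_le_mul_of_nonneg_left k1 P0.le)
        (by linarith [hH1 n]))
    · have k1 : 1 ≤ c.D.B.d n ^ ((1 - c.p.θ 0) * (ξ n + w n * v)) :=
        Real.one_le_rpow_of_pos_of_le_one_of_nonpos hd (c.D.B.lt n).le
          (mul_nonpos_of_nonpos_of_nonneg hs c1)
      calc c.D.r0 n ≤ c.D.w 0 n 0 := r1
        _ ≤ c.D.w 0 n 0 * c.D.B.d n ^ ((1 - c.p.θ 0) * (ξ n + w n * v)) :=
            le_mul_of_one_le_right P0.le k1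
        _ ≤ H n * (c.D.w 0 n 0 * c.D.B.d n ^ ((1 - c.p.θ 0) * (ξ n + w n * v))) :=
            le_mul_of_one_le_left (mul_pos P0 (hdp _)).le (hH1 n)

/-! ### (W4) -/

/-- **(W4)** the levels of the window are levels of the sequence -/
theorem lev_mem (ok : c.Ok η) (rw' : RecW c B' J ξ w lam lo) (T1 : ℝ) :
    ∀ᶠ n in (U : Filter ℕ), ∀ z : ℝ, 0 ≤ z → z ≤ 1 → ∀ i : ℕ,
      sdn c T1 ξ w n 0 * B'.d n ^ z ≤ rho i → rho i ≤ 2 * (sdn c T1 ξ w n 0 * B'.d n ^ z) →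
      c.D.lev n 0 ≤ i ∧ i ≤ c.D.lev n 1 := by
  have mka := ok.th.tp.pre.mka
  obtain ⟨ξ₀, h0, h1, hξ⟩ := ξ_near rw'
  have hδ : 0 < min ξ₀ (1 - ξ₀) / 4 := by
    have := lt_min h0 (by linarith : (0 : ℝ) < 1 - ξ₀)
    linarith
  filter_upwards [sides ok rw' T1, hξ _ hδ, w_small rw' 1 hδ,
    Crest.Agent.R136.Qg926.ev_const_le c.D.B (c := 4) (by norm_num) (ε := ξ₀ / 2) (by positivity),
    PqG464.pow_lev mka 1 zero_le_one le_rfl hδ] with n ⟨s0, _, _, _⟩ a1 a2 a3 a4 z hz0 hz1 i hi1 hi2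
  have hd := c.D.B.pos n
  have hd1 := (c.D.B.lt n).le
  have hdp : ∀ t : ℝ, 0 < c.D.B.d n ^ t := fun t => Real.rpow_pos_of_pos hd t
  have hw0 := rw'.win.w0 n
  have m1 := min_le_left ξ₀ (1 - ξ₀)
  have m2 := min_le_right ξ₀ (1 - ξ₀)
  obtain ⟨b1, b2⟩ := abs_le.1 a1
  obtain ⟨b3, b4⟩ := abs_le.1 a2
  rw [mul_one] at b3 b4
  have c1 : ξ₀ / 2 ≤ ξ n + w n * z := by
    have : 0 ≤ w n * z := mul_nonneg hw0.le hz0
    linarith
  have c2 : ξ n + w n * z ≤ 1 - min ξ₀ (1 - ξ₀) / 4 := by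
    have : w n * z ≤ w n * 1 := mul_le_mul_of_nonneg_left hz1 hw0.le
    linarith
  rw [s0, e_eq rw', mul_assoc, ← Real.rpow_add hd] at hi1 hi2
  have t2 : ∀ k : ℕ, (0 : ℝ) < 2 ^ k := fun k => by positivity
  constructor
  · -- `rho i ≤ 2 ρ₀ d^(..) < ρ₀`
    have k1 : c.D.B.d n ^ (ξ n + w n * z) ≤ 1 / 4 := by
      calc c.D.B.d n ^ (ξ n + w n * z) ≤ c.D.B.d n ^ (ξ₀ / 2) :=
            Real.rpow_le_rpow_of_exponent_ge hd hd1 c1
        _ ≤ 1 / 4 := by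
            rw [Real.rpow_neg hd.le] at a3
            rw [le_div_iff₀ (by norm_num)]
            calc c.D.B.d n ^ (ξ₀ / 2) * 4 ≤ c.D.B.d n ^ (ξ₀ / 2) * (c.D.B.d n ^ (ξ₀ / 2))⁻¹ :=
                  mul_le_mul_of_nonneg_left a3 (hdp _).le
              _ = 1 := mul_inv_cancel₀ (hdp _).ne'
    have k2 : rho i ≤ rho (c.D.lev n 0) := by
      refine hi2.trans ?_
      have := mul_le_mul_of_nonneg_left k1 (rho_pos' (c.D.lev n 0)).le
      have := rho_pos' (c.D.lev n 0)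
      linarith
    by_contra hcon
    push Not at hcon
    have k3 : rho (c.D.lev n 0) < rho i := by
      unfold rho
      exact one_div_lt_one_div_of_lt (t2 _) (pow_lt_pow_right₀ (by norm_num) hcon)
    linarith
  · by_contra hcon
    push Not at hcon
    have k3 : (2 : ℝ) ^ c.D.lev n 1 < 2 ^ i := pow_lt_pow_right₀ (by norm_num) hcon
    have k4 := a4.2
    have k5 : (2 : ℝ) ^ i ≤ 2 ^ c.D.lev n 0 * c.D.B.d n ^ (-(ξ n + w n * z)) := by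
      unfold rho at hi1
      have h5 : 0 < c.D.B.d n ^ (ξ n + w n * z) := hdp _
      rw [Real.rpow_neg hd.le, ← div_eq_mul_inv, le_div_iff₀ h5]
      have h6 := mul_le_mul_of_nonneg_right hi1 (mul_pos (t2 i) (t2 (c.D.lev n 0))).le
      have e1 : 1 / (2 : ℝ) ^ c.D.lev n 0 * c.D.B.d n ^ (ξ n + w n * z) *
          (2 ^ i * 2 ^ c.D.lev n 0) = 2 ^ i * c.D.B.d n ^ (ξ n + w n * z) := by
        field_simp
      have e2 : 1 / (2 : ℝ) ^ i * (2 ^ i * 2 ^ c.D.lev n 0) = 2 ^ c.D.lev n 0 := by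
        field_simp
      rw [e1, e2] at h6
      exact h6
    have k6 : c.D.B.d n ^ (-(ξ n + w n * z)) ≤
        c.D.B.d n ^ (-(((1 : ℚ) : ℝ) - min ξ₀ (1 - ξ₀) / 4)) := by
      refine Real.rpow_le_rpow_of_exponent_ge hd hd1 ?_
      push_cast
      linarith
    have k7 := mul_le_mul_of_nonneg_left k6 (t2 (c.D.lev n 0)).le
    linarith

end Crest.Agent.R136.Wid638
end

-- ▼ part R136/FinN_196
section

/-!
# R136, END of the lightlike case (helper196): `fin_nat`, the record arithmetic of a window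

`fin_core` : one window, real numbers; **`fin_nat`** : 882's (F).
-/

set_option autoImplicit false
set_option linter.unusedVariables false

open Finset Filter Topology

namespace Crest.Agent.R136.End882

open Crest.Agent.R138.Ex926
open Crest.Agent.R136.Net191
open Crest.Agent.R136.NetQ186
open Crest.Agent.R136.GeoQ186
open Crest.Agent.R136.Gz779
open Crest.Agent.R136.Zpr779
open Crest.Agent.R136.Qg926
open Crest.Agent.R136.Wq638
open Crest.Agent.R136.TL196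
open Crest.Agent.R136.NatT550
open Crest.Agent.R138.Mk163 (zc zl rho alive own)

theorem ratio_eq {i j : ℕ} (h : i ≤ j) : (2 : ℝ) ^ (j - i) = rho i / rho j := by
  unfold rho
  have h1 : (2 : ℝ) ^ (j - i) * 2 ^ i = 2 ^ j := by rw [← pow_add, Nat.sub_add_cancel h]
  rw [← h1]
  field_simp

/-- ratio of two lengths is at most the power of two -/
theorem ratio_le (i j : ℕ) : rho i / rho j ≤ (2 : ℝ) ^ (j - i) := by
  rcases le_total i j with h | h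
  · rw [ratio_eq h]
  · rw [Nat.sub_eq_zero_of_le h, pow_zero, div_le_one (HR829.rho_pos j)]
    unfold rho
    exact one_div_le_one_div_of_le (by positivity) (pow_le_pow_right₀ (by norm_num) h)

/-- one window, real numbers -/
theorem fin_core {θ q : Fin 3 → ℝ} {g d e A ρ0 P0 P1 P2 c₀ ξ u v δ ε1 κ₂ t T1 H Kc Tr L0 W1 W2 Th : ℝ}
    {m1 : ℕ} (hd : 0 < d) (hd1 : d < 1) (he : 0 < e) (he1 : e < 1) (hH : 1 ≤ H) (hA : 0 < A)
    (hP0 : 0 < P0) (hP1 : 0 < P1) (hP2 : 0 < P2) (hρ0 : 0 < ρ0) (hρ1 : ρ0 ≤ 1)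
    (hLL : θ 2 - θ 0 = 1) (hL2 : θ 2 = 2 * θ 1) (hg : 0 ≤ g) (hq : ∀ k, 0 ≤ q k)
    (hξ : 0 ≤ ξ) (hu : 0 < u) (huv : u < v) (hδ : 0 < δ) (hδ1 : δ < v - u)
    (eL : L0 = ρ0 * d ^ ξ) (e8 : W1 = P1 * d ^ ((1 - θ 1) * ξ) * e ^ (-T1))
    (e9 : W2 = P2 * d ^ ((1 - θ 2) * ξ) * e ^ (-2 * T1))
    (e10 : Th = P0 * d ^ ((1 - θ 0) * ξ) * e ^ (-2 * T1)) (ht : t = T1 - θ 1 * v)
    (hm : lvl (L0 * e ^ u) ≤ m1) (hlen : ρ0 / rho m1 ≤ H / d)
    (hKc : A * capQ q ρ0 ![P0, P1, P2] * d ^ c₀ ≤ H * Kc) (hKc0 : 0 ≤ Kc)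
    (hTr : d ^ (-(c₀ + (g * ξ + (1 - ξ) - (3 - (θ 0 + θ 1 + θ 2)) * ξ +
        (q 0 * θ 0 + q 1 * θ 1 + q 2 * θ 2) * ξ))) *
      e ^ (-((g - 1) * v - (3 - (θ 0 + θ 1 + θ 2)) * v +
        (q 0 * θ 0 + q 1 * θ 1 + q 2 * θ 2) * v) + ε1) ≤ Tr)
    (hK : 4 * (2 : ℝ) ^ |3 - g| * H ^ 2 * e ^ (-((3 - g) * δ) - ε1) ≤ e ^ (-κ₂)) :
    (2 : ℝ) ^ (m1 - lvl (L0 * e ^ u)) * (A * (ρ0 / rho (lvl (L0 * e ^ u))) ^ g *
        ((Th * e ^ (2 * t + u + v)) * (W2 * e ^ (2 * t + u)) * (W1 * e ^ (t + u)) *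
          Rq q (lvl (L0 * e ^ u)) (Th * e ^ (2 * t + u + v)) (W2 * e ^ (2 * t + u))
            (W1 * e ^ (t + u)))) * (2 : ℝ) ^ (-(3 - g) * (nM e (v - u - δ) : ℝ)) ≤
      e ^ (-κ₂) * (Kc * (Tr * 2 ^ (lvl (L0 * e ^ v) - lvl (L0 * e ^ u)))) := by
  have hdp : ∀ s : ℝ, 0 < d ^ s := fun s => Real.rpow_pos_of_pos hd s
  have hep : ∀ s : ℝ, 0 < e ^ s := fun s => Real.rpow_pos_of_pos he s
  have hL0 : 0 < L0 := by rw [eL]; exact mul_pos hρ0 (hdp _)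
  have hL1 : L0 ≤ 1 := by
    rw [eL]
    exact mul_le_one₀ hρ1 (hdp _).le (Real.rpow_le_one hd.le hd1.le hξ)
  have hle : ∀ s : ℝ, 0 ≤ s → L0 * e ^ s ≤ 1 := fun s hs =>
    mul_le_one₀ hL1 (hep _).le (Real.rpow_le_one he.le he1.le hs)
  obtain ⟨i1, i2⟩ := lvl_spec (y := L0 * e ^ u) (mul_pos hL0 (hep _)) (hle u hu.le)
  obtain ⟨j1, j2⟩ := lvl_spec (y := L0 * e ^ v) (mul_pos hL0 (hep _)) (hle v (by linarith))
  obtain ⟨k1, k2⟩ := lvl_spec (y := e ^ (v - u - δ)) (hep _)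
    (Real.rpow_le_one he.le he1.le (by linarith))
  change e ^ (v - u - δ) ≤ rho (nM e (v - u - δ)) at k1
  change rho (nM e (v - u - δ)) < 2 * e ^ (v - u - δ) at k2
  set i := lvl (L0 * e ^ u) with hi
  set j := lvl (L0 * e ^ v) with hj
  set M := nM e (v - u - δ) with hM
  have ri : 0 < rho i := HR829.rho_pos i
  have rj : 0 < rho j := HR829.rho_pos j
  have rm : 0 < rho m1 := HR829.rho_pos m1
  have hθ0 : θ 0 = 2 * θ 1 - 1 := by linarith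
  have hqθ := hq 0
  have hW1 : 0 < W1 := by rw [e8]; exact mul_pos (mul_pos hP1 (hdp _)) (hep _)
  have hW2 : 0 < W2 := by rw [e9]; exact mul_pos (mul_pos hP2 (hdp _)) (hep _)
  have hTh : 0 < Th := by rw [e10]; exact mul_pos (mul_pos hP0 (hdp _)) (hep _)
  have hPq : 0 < (P0 / ρ0) ^ q 0 * (P1 / ρ0) ^ q 1 * (P2 / ρ0) ^ q 2 :=
    mul_pos (mul_pos (Real.rpow_pos_of_pos (div_pos hP0 hρ0) _)
      (Real.rpow_pos_of_pos (div_pos hP1 hρ0) _)) (Real.rpow_pos_of_pos (div_pos hP2 hρ0) _)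
  have hPP : 0 < P0 * P2 * P1 := mul_pos (mul_pos hP0 hP2) hP1
  -- ratios to `rho i`
  have hinv : ρ0 / rho i ≤ d ^ (-ξ) * e ^ (-u) := by
    rw [div_le_iff₀ ri]
    calc ρ0 = d ^ (-ξ) * e ^ (-u) * (ρ0 * d ^ ξ * e ^ u) := by
          rw [Real.rpow_neg hd.le, Real.rpow_neg he.le]
          have := (hdp ξ).ne'
          have := (hep u).ne'
          field_simp
      _ = d ^ (-ξ) * e ^ (-u) * (L0 * e ^ u) := by rw [eL]
      _ ≤ d ^ (-ξ) * e ^ (-u) * rho i :=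
          mul_le_mul_of_nonneg_left i1 (mul_pos (hdp _) (hep _)).le
  have hside : ∀ P a b : ℝ, 0 < P → P * d ^ ((1 - a) * ξ) * e ^ (u + b) / rho i ≤
      P / ρ0 * (d ^ (-(a * ξ)) * e ^ b) := by
    intro P a b hP
    have h1 : P * d ^ ((1 - a) * ξ) * e ^ (u + b) / rho i =
        P / ρ0 * (d ^ ((1 - a) * ξ) * e ^ (u + b)) * (ρ0 / rho i) := by
      field_simp
    rw [h1]
    calc P / ρ0 * (d ^ ((1 - a) * ξ) * e ^ (u + b)) * (ρ0 / rho i)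
        ≤ P / ρ0 * (d ^ ((1 - a) * ξ) * e ^ (u + b)) * (d ^ (-ξ) * e ^ (-u)) :=
          mul_le_mul_of_nonneg_left hinv
            (mul_pos (div_pos hP hρ0) (mul_pos (hdp _) (hep _))).le
      _ = P / ρ0 * ((d ^ ((1 - a) * ξ) * d ^ (-ξ)) * (e ^ (u + b) * e ^ (-u))) := by ring
      _ = _ := by
          rw [← Real.rpow_add hd, ← Real.rpow_add he]
          congr 3 <;> ring_nf
  have s10 : Th * e ^ (2 * t + u + v) / rho i ≤ P0 / ρ0 * (d ^ (-(θ 0 * ξ)) * e ^ (-(θ 0 * v))) := by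
    have e1 : Th * e ^ (2 * t + u + v) = P0 * d ^ ((1 - θ 0) * ξ) * e ^ (u + -(θ 0 * v)) := by
      rw [e10, mul_assoc, ← Real.rpow_add he]
      congr 2
      rw [ht, hθ0]; ring
    rw [e1]; exact hside _ _ _ hP0
  have s9 : W2 * e ^ (2 * t + u) / rho i ≤ P2 / ρ0 * (d ^ (-(θ 2 * ξ)) * e ^ (-(θ 2 * v))) := by
    have e1 : W2 * e ^ (2 * t + u) = P2 * d ^ ((1 - θ 2) * ξ) * e ^ (u + -(θ 2 * v)) := by
      rw [e9, mul_assoc, ← Real.rpow_add he]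
      congr 2
      rw [ht, hL2]; ring
    rw [e1]; exact hside _ _ _ hP2
  have s8 : W1 * e ^ (t + u) / rho i ≤ P1 / ρ0 * (d ^ (-(θ 1 * ξ)) * e ^ (-(θ 1 * v))) := by
    have e1 : W1 * e ^ (t + u) = P1 * d ^ ((1 - θ 1) * ξ) * e ^ (u + -(θ 1 * v)) := by
      rw [e8, mul_assoc, ← Real.rpow_add he]
      congr 2
      rw [ht]; ring
    rw [e1]; exact hside _ _ _ hP1
  have hpw : ∀ X P a k : ℝ, 0 ≤ k → 0 ≤ X → 0 < P → X ≤ P * (d ^ (-(a * ξ)) * e ^ (-(a * v))) →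
      X ^ k ≤ P ^ k * (d ^ (-(k * a * ξ)) * e ^ (-(k * a * v))) := by
    intro X P a k hk hX hP h
    calc X ^ k ≤ (P * (d ^ (-(a * ξ)) * e ^ (-(a * v)))) ^ k := Real.rpow_le_rpow hX h hk
      _ = _ := by
        rw [Real.mul_rpow hP.le (mul_pos (hdp _) (hep _)).le, Real.mul_rpow (hdp _).le (hep _).le,
          ← Real.rpow_mul hd.le, ← Real.rpow_mul he.le]
        congr 3 <;> ring
  have hR : Rq q i (Th * e ^ (2 * t + u + v)) (W2 * e ^ (2 * t + u)) (W1 * e ^ (t + u)) ≤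
      (P0 / ρ0) ^ q 0 * (P1 / ρ0) ^ q 1 * (P2 / ρ0) ^ q 2 *
        (d ^ (-((q 0 * θ 0 + q 1 * θ 1 + q 2 * θ 2) * ξ)) *
          e ^ (-((q 0 * θ 0 + q 1 * θ 1 + q 2 * θ 2) * v))) := by
    unfold Rq
    have x0 : 0 ≤ Th * e ^ (2 * t + u + v) / rho i := (div_pos (mul_pos hTh (hep _)) ri).le
    have x1 : 0 ≤ W1 * e ^ (t + u) / rho i := (div_pos (mul_pos hW1 (hep _)) ri).le
    have x2 : 0 ≤ W2 * e ^ (2 * t + u) / rho i := (div_pos (mul_pos hW2 (hep _)) ri).le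
    have y0 := hpw _ _ _ _ (hq 0) x0 (div_pos hP0 hρ0) s10
    have y1 := hpw _ _ _ _ (hq 1) x1 (div_pos hP1 hρ0) s8
    have y2 := hpw _ _ _ _ (hq 2) x2 (div_pos hP2 hρ0) s9
    have z0 := Real.rpow_nonneg x0 (q 0)
    have z1 := Real.rpow_nonneg x1 (q 1)
    have z2 := Real.rpow_nonneg x2 (q 2)
    refine (mul_le_mul (mul_le_mul y0 y1 z1 (z0.trans y0)) y2 z2
      (mul_nonneg (z0.trans y0) (z1.trans y1))).trans (le_of_eq ?_)
    have a1 : d ^ (-((q 0 * θ 0 + q 1 * θ 1 + q 2 * θ 2) * ξ)) =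
        d ^ (-(q 0 * θ 0 * ξ)) * d ^ (-(q 1 * θ 1 * ξ)) * d ^ (-(q 2 * θ 2 * ξ)) := by
      rw [← Real.rpow_add hd, ← Real.rpow_add hd]; congr 1; ring
    have a2 : e ^ (-((q 0 * θ 0 + q 1 * θ 1 + q 2 * θ 2) * v)) =
        e ^ (-(q 0 * θ 0 * v)) * e ^ (-(q 1 * θ 1 * v)) * e ^ (-(q 2 * θ 2 * v)) := by
      rw [← Real.rpow_add he, ← Real.rpow_add he]; congr 1; ring
    rw [a1, a2]; ring
  have hKc' : A * ((P0 * P2 * P1) * ((P0 / ρ0) ^ q 0 * (P1 / ρ0) ^ q 1 * (P2 / ρ0) ^ q 2)) *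
      d ^ c₀ ≤ H * Kc := by
    refine le_trans (le_of_eq ?_) hKc
    simp only [capQ, Matrix.cons_val]
  refine rec_arith (d := d) (e := e) (H := H) (C := 2 ^ |3 - g|) (A := A)
    (P := P0 * P2 * P1) (Pq := (P0 / ρ0) ^ q 0 * (P1 / ρ0) ^ q 1 * (P2 / ρ0) ^ q 2)
    (c₀ := c₀) (ξ := ξ) (u := u) (v := v) (g := g) (S1 := θ 0 + θ 1 + θ 2)
    (S2 := q 0 * θ 0 + q 1 * θ 1 + q 2 * θ 2) (δ := δ) (ε := ε1) hd he (by linarith) hA hPP hPq
    (by positivity) (hep _).le (by positivity) ?_ ?_ ?_ hKc0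
    ((mul_pos (hdp _) (hep _)).le.trans hTr) ?_ ?_ ?_ hR ?_ hKc' hTr ?_ hK
  · exact mul_nonneg hA.le (Real.rpow_nonneg (div_pos hρ0 ri).le _)
  · exact Rq_nonneg (mul_pos hTh (hep _)).le (mul_pos hW2 (hep _)).le (mul_pos hW1 (hep _)).le
  · positivity
  · -- `2^(m1 - i)`
    rw [ratio_eq hm]
    calc rho i / rho m1 ≤ 2 * (L0 * e ^ u) / rho m1 := by gcongr
      _ = 2 * (d ^ ξ * e ^ u) * (ρ0 / rho m1) := by rw [eL]; field_simp
      _ ≤ 2 * (d ^ ξ * e ^ u) * (H / d) :=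
          mul_le_mul_of_nonneg_left hlen (mul_pos two_pos (mul_pos (hdp _) (hep _))).le
      _ = 2 * H * (d ^ (ξ - 1) * e ^ u) := by
          rw [Real.rpow_sub hd, Real.rpow_one]; field_simp
  · -- growth
    refine mul_le_mul_of_nonneg_left ?_ hA.le
    calc (ρ0 / rho i) ^ g ≤ (d ^ (-ξ) * e ^ (-u)) ^ g :=
          Real.rpow_le_rpow (div_pos hρ0 ri).le hinv hg
      _ = _ := by
          rw [Real.mul_rpow (hdp _).le (hep _).le, ← Real.rpow_mul hd.le, ← Real.rpow_mul he.le]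
          congr 2 <;> ring
  · -- cost
    rw [e8, e9, e10]
    have a1 : d ^ ((3 - (θ 0 + θ 1 + θ 2)) * ξ) =
        d ^ ((1 - θ 0) * ξ) * d ^ ((1 - θ 2) * ξ) * d ^ ((1 - θ 1) * ξ) := by
      rw [← Real.rpow_add hd, ← Real.rpow_add hd]; congr 1; ring
    have a2 : e ^ (3 * u - (θ 0 + θ 1 + θ 2) * v) =
        (e ^ (-2 * T1) * e ^ (2 * t + u + v)) * (e ^ (-2 * T1) * e ^ (2 * t + u)) *
          (e ^ (-T1) * e ^ (t + u)) := by
      rw [← Real.rpow_add he, ← Real.rpow_add he, ← Real.rpow_add he, ← Real.rpow_add he,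
        ← Real.rpow_add he]
      congr 1
      rw [ht, hL2, hθ0]; ring
    rw [a1, a2]; ring
  · -- scales
    have h1 : (2 : ℝ) ^ (-(3 - g) * (M : ℝ)) = rho M ^ (3 - g) := by
      unfold rho
      rw [one_div, Real.inv_rpow (by positivity), ← Real.rpow_natCast, ← Real.rpow_mul (by norm_num),
        ← Real.rpow_neg (by norm_num)]
      congr 1; ring
    have h2c : (1 : ℝ) ≤ 2 ^ |3 - g| := Real.one_le_rpow (by norm_num) (abs_nonneg _)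
    have hs : e ^ ((3 - g) * (v - u - δ)) = (e ^ (v - u - δ)) ^ (3 - g) := by
      rw [← Real.rpow_mul he.le]; congr 1; ring
    rw [h1, hs]
    have hrM := HR829.rho_pos M
    have hE := hep (v - u - δ)
    rcases le_total 0 (3 - g) with hc | hc
    · calc rho M ^ (3 - g) ≤ (2 * e ^ (v - u - δ)) ^ (3 - g) :=
            Real.rpow_le_rpow hrM.le k2.le hc
        _ = 2 ^ |3 - g| * (e ^ (v - u - δ)) ^ (3 - g) := by
            rw [Real.mul_rpow (by norm_num) hE.le, abs_of_nonneg hc]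
    · calc rho M ^ (3 - g) ≤ (e ^ (v - u - δ)) ^ (3 - g) :=
            Real.rpow_le_rpow_of_nonpos hE k1 hc
        _ ≤ 2 ^ |3 - g| * (e ^ (v - u - δ)) ^ (3 - g) :=
            le_mul_of_one_le_left (Real.rpow_nonneg hE.le _) h2c
  · -- `2^(j - i)`
    refine le_trans ?_ (mul_le_mul_of_nonneg_left (ratio_le i j) two_pos.le)
    rw [← mul_div_assoc, le_div_iff₀ rj]
    calc e ^ (u - v) * rho j ≤ e ^ (u - v) * (2 * (L0 * e ^ v)) :=
          mul_le_mul_of_nonneg_left j2.le (hep _).le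
      _ = 2 * (L0 * (e ^ (u - v) * e ^ v)) := by ring
      _ = 2 * (L0 * e ^ u) := by rw [← Real.rpow_add he]; congr 3; ring
      _ ≤ 2 * rho i := by linarith

/-- sub-polynomial numbers against a power -/
theorem sub_rpow {B : Base} {S : ℕ → ℝ} (h : B.Sub S) {ε : ℝ} (hε : 0 < ε) :
    ∀ᶠ n in (U : Filter ℕ), 0 < S n ∧ S n ≤ B.d n ^ (-ε) := by
  filter_upwards [h.ev_le hε] with n hn
  refine ⟨hn.1, ?_⟩
  rw [← B.exp_eq, ← Real.log_le_iff_le_exp hn.1]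
  exact hn.2

/-- **(F)** of 882: D-max number of the container against the record class -/
theorem fin_nat {η₀ : ℝ} {c : LCtx} (ok : c.Ok η₀) {Kc : ℕ → ℕ}
    (hK : ∀ ε : ℝ, 0 < ε → ∀ᶠ n in (U : Filter ℕ), 0 < Kc n ∧
      N0Q c.D.A c.D.vm n ≤ Kc n * c.D.B.d n ^ (-(c.c₀ + ε)) ∧
      Kc n * c.D.B.d n ^ (-(c.c₀ - ε)) ≤ N0Q c.D.A c.D.vm n) : ∃ Hf : ℕ → ℝ, c.D.B.Sub Hf ∧
    ∀ (B' : Base) (J : ℕ → Finset (ℕ × ℝ)) (ξ w : ℕ → ℝ) (lam lo : (Fin 11 → ℝ) → ℝ)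
      (Cl E : ℕ → Finset (ℕ × ℝ)) (s₀ : ℕ → ℕ × ℝ) (h : ℕ → Fin 6 → ℝ) (ηg : ℕ → ℝ)
      (J' : ℕ → Finset (ℕ × ℝ)) (To : ℕ → ℝ) (ν' own' : (Fin 11 → ℝ) → ℝ),
    GZ c (T1z (c.p.θ 1)) (xz (c.p.θ 1)) (Rz (c.p.θ 1)) B' J ξ w lam lo Cl E s₀ h ηg J' To ν'
      own' → B'.Sub Hf → ∀ u v δ κ₂ ε1 t : ℝ, 0 < u → u < v → v < 1 → 0 < δ → δ < v - u → 0 < ε1 →
      |3 - c.p.g| * δ + ε1 < κ₂ → t = T1z (c.p.θ 1) - c.p.θ 1 * v →
      ∀ᶠ n in (U : Filter ℕ), ∀ i j M m0 m1 : ℕ, ∀ L0 W1 W2 Th e : ℝ, e = B'.d n →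
        L0 = Wid638.sdn c (T1z (c.p.θ 1)) ξ w n 0 → W1 = Wid638.sdn c (T1z (c.p.θ 1)) ξ w n 8 →
        W2 = Wid638.sdn c (T1z (c.p.θ 1)) ξ w n 9 → Th = Wid638.sdn c (T1z (c.p.θ 1)) ξ w n 10 →
        i = lvl (L0 * e ^ u) → j = lvl (L0 * e ^ v) →
        M = nM e (v - u - δ) → m0 = c.D.lev n 0 → m1 = c.D.lev n 1 →
        (2 : ℝ) ^ (m1 - i) * (c.D.A n * (rho m0 / rho i) ^ c.p.g * ((Th * e ^ (2 * t + u + v)) *
          (W2 * e ^ (2 * t + u)) * (W1 * e ^ (t + u)) * Rq c.p.q i (Th * e ^ (2 * t + u + v))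
          (W2 * e ^ (2 * t + u)) (W1 * e ^ (t + u)))) * (2 : ℝ) ^ (-(3 - c.p.g) * M) ≤
          e ^ (-κ₂) * ((Kc n : ℝ) * ((c.TB (T1z (c.p.θ 1)) B' ξ lam n *
            e ^ (-(ν' (rz (c.p.θ 1) (T1z (c.p.θ 1)) (xz (c.p.θ 1)) v)) + ε1)) * 2 ^ (j - i))) := by
  have mka := ok.th.tp.pre.mka
  have hq0 := ok.th.tp.ok.q0
  have hq2 := ok.th.tp.ok.q2
  have hg0 := ok.th.tp.ok.g0
  have hLL : c.p.θ 2 - c.p.θ 0 = 1 := ok.pat.2.2.1
  have hL2 : c.p.θ 2 = 2 * c.p.θ 1 := ok.pat.2.2.2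
  set Hf : ℕ → ℝ := fun n => max (max 1 (c.D.B.d n * (rho (c.D.lev n 0) / rho (c.D.lev n 1))))
    (N0Q c.D.A c.D.vm n * c.D.B.d n ^ c.c₀ / Kc n) with hHf
  have hHf1 : ∀ n, 1 ≤ Hf n := fun n => (le_max_left _ _).trans (le_max_left _ _)
  refine ⟨Hf, Wid638.sub_of_bd' (fun ε hε => Eventually.of_forall fun n =>
    (Real.rpow_le_one (c.D.B.pos n).le (c.D.B.lt n).le hε.le).trans (hHf1 n)) (fun ε hε => ?_), ?_⟩
  · filter_upwards [PqG464.pow_lev mka 1 zero_le_one le_rfl hε, hK ε hε] with n h1 h2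
    have hd := c.D.B.pos n
    have hdp : ∀ s : ℝ, 0 < c.D.B.d n ^ s := fun s => Real.rpow_pos_of_pos hd s
    refine max_le (max_le ?_ ?_) ?_
    · rw [Real.rpow_neg hd.le]
      exact (one_le_inv₀ (hdp ε)).2 (Real.rpow_le_one hd.le (c.D.B.lt n).le hε.le)
    · have e1 : rho (c.D.lev n 0) / rho (c.D.lev n 1) =
          (2 : ℝ) ^ c.D.lev n 1 / 2 ^ c.D.lev n 0 := by
        unfold rho; field_simp
      rw [e1]
      have h3 : (2 : ℝ) ^ c.D.lev n 1 / 2 ^ c.D.lev n 0 ≤ c.D.B.d n ^ (-(1 + ε)) := by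
        rw [div_le_iff₀ (by positivity), mul_comm]
        have := h1.1
        simpa using this
      calc c.D.B.d n * ((2 : ℝ) ^ c.D.lev n 1 / 2 ^ c.D.lev n 0) ≤
          c.D.B.d n * c.D.B.d n ^ (-(1 + ε)) := mul_le_mul_of_nonneg_left h3 hd.le
        _ = c.D.B.d n ^ (-ε) := by
            nth_rewrite 1 [← Real.rpow_one (c.D.B.d n)]
            rw [← Real.rpow_add hd]; congr 1; ring
    · have hKn : (0 : ℝ) < Kc n := by exact_mod_cast h2.1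
      rw [div_le_iff₀ hKn]
      calc N0Q c.D.A c.D.vm n * c.D.B.d n ^ c.c₀ ≤
          Kc n * c.D.B.d n ^ (-(c.c₀ + ε)) * c.D.B.d n ^ c.c₀ :=
            mul_le_mul_of_nonneg_right h2.2.1 (hdp _).le
        _ = c.D.B.d n ^ (-ε) * Kc n := by
            rw [mul_assoc, ← Real.rpow_add hd, mul_comm]; congr 2; ring
  · intro B' J ξ w lam lo Cl E s₀ h ηg J' To ν' own' G hsub u v δ κ₂ ε1 t hu huv hv1 hδ hδ1 hε1
      hgap ht
    have rw' := G.gw.rw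
    set γ : ℝ := κ₂ - (|3 - c.p.g| * δ + ε1) with hγ
    have hγ0 : 0 < γ := by rw [hγ]; linarith
    filter_upwards [Wid638.sides ok rw' (T1z (c.p.θ 1)), Wid638.ord0 ok,
      Wid638.lev_mem ok rw' (T1z (c.p.θ 1)), rw'.lev_in,
      G.rec_R ok (v := v) (by linarith) hv1.le ε1,
      GeoQ186.vm_eq mka le_rfl zero_le_one, hK 1 one_pos,
      sub_rpow hsub (ε := γ / 8) (by positivity),
      Qg926.ev_const_le B' (c := 4 * (2 : ℝ) ^ |3 - c.p.g|) (by positivity) (ε := γ / 4)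
        (by positivity)] with n ⟨s0, s8, s9, s10⟩ ⟨P0, P1, P2, _, _, _, _⟩ hlm hξ hR hvm hKn hH hC
      i j M m0 m1 L0 W1 W2 Th e he hL0 hW1 hW2 hTh hi hj hM hm0 hm1
    subst he
    rw [s0] at hL0
    rw [s8] at hW1
    rw [s9] at hW2
    rw [s10] at hTh
    rw [s0] at hlm
    subst hi hj hM hm0 hm1
    have hd := c.D.B.pos n
    have hd1 := c.D.B.lt n
    have he := B'.pos n
    have he1 := B'.lt n
    have hdp : ∀ s : ℝ, 0 < c.D.B.d n ^ s := fun s => Real.rpow_pos_of_pos hd s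
    have hep : ∀ s : ℝ, 0 < B'.d n ^ s := fun s => Real.rpow_pos_of_pos he s
    have hρ0 := HR829.rho_pos (c.D.lev n 0)
    have hρ1 : rho (c.D.lev n 0) ≤ 1 := by
      unfold rho
      rw [div_le_one (by positivity)]
      exact one_le_pow₀ (by norm_num)
    have hKp : (0 : ℝ) < Kc n := by exact_mod_cast hKn.1
    have hLe : L0 * B'.d n ^ u ≤ 1 := by
      rw [hL0]
      exact mul_le_one₀ (mul_le_one₀ hρ1 (hdp _).le (Real.rpow_le_one hd.le hd1.le hξ.1.le))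
        (hep _).le (Real.rpow_le_one he.le he1.le hu.le)
    have hLp : 0 < L0 * B'.d n ^ u := by
      rw [hL0]; exact mul_pos (mul_pos hρ0 (hdp _)) (hep _)
    obtain ⟨l1, l2⟩ := lvl_spec hLp hLe
    have hm : lvl (L0 * B'.d n ^ u) ≤ c.D.lev n 1 := by
      refine (hlm u hu.le (by linarith) _ ?_ ?_).2
      · rw [← hL0]; exact l1
      · rw [← hL0]; exact l2.le
    refine fin_core (θ := c.p.θ) (q := c.p.q) (g := c.p.g) (c₀ := c.c₀) (ξ := ξ n) (H := Hf n)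
      (P0 := c.D.w 0 n 0) (P1 := c.D.w 1 n 0) (P2 := c.D.w 2 n 0) hd hd1 he he1 (hHf1 n)
      (mka.Apos n) P0 P1 P2 hρ0 hρ1 hLL hL2 hg0.1.le (fun k => ?_) hξ.1.le hu huv hδ hδ1 hL0 hW1
      hW2 hTh ht hm ?_ ?_ hKp.le hR ?_
    · fin_cases k
      · exact hq0.1
      · exact hg0.2.le
      · exact hq2.1.le
    · rw [le_div_iff₀ hd, mul_comm]
      exact (le_max_right _ _).trans (le_max_left _ _)
    · have h1 : N0Q c.D.A c.D.vm n * c.D.B.d n ^ c.c₀ / Kc n ≤ Hf n := le_max_right _ _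
      rw [div_le_iff₀ hKp] at h1
      refine le_trans (le_of_eq ?_) h1
      rw [N0Q, hvm]
      simp only [capQ, Matrix.cons_val]
    · have hH2 : Hf n ^ 2 ≤ B'.d n ^ (-(γ / 4)) := by
        calc Hf n ^ 2 ≤ (B'.d n ^ (-(γ / 8))) ^ 2 :=
              pow_le_pow_left₀ hH.1.le hH.2 2
          _ = B'.d n ^ (-(γ / 4)) := by
              rw [← Real.rpow_natCast, ← Real.rpow_mul he.le]; congr 1; push_cast; ring
      have hab : (3 - c.p.g) * δ ≤ |3 - c.p.g| * δ :=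
        mul_le_mul_of_nonneg_right (le_abs_self _) hδ.le
      have hE : B'.d n ^ (-((3 - c.p.g) * δ) - ε1) ≤ B'.d n ^ (-κ₂ + γ) :=
        Real.rpow_le_rpow_of_exponent_ge he he1.le (by rw [hγ]; linarith)
      calc 4 * (2 : ℝ) ^ |3 - c.p.g| * Hf n ^ 2 * B'.d n ^ (-((3 - c.p.g) * δ) - ε1) ≤
          B'.d n ^ (-(γ / 4)) * B'.d n ^ (-(γ / 4)) * B'.d n ^ (-κ₂ + γ) := by
            refine mul_le_mul (mul_le_mul hC hH2 (by positivity) (hep _).le) hE (hep _).le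
              (mul_pos (hep _) (hep _)).le
        _ = B'.d n ^ (-κ₂ + γ / 2) := by
            rw [← Real.rpow_add he, ← Real.rpow_add he]; congr 1; ring
        _ ≤ B'.d n ^ (-κ₂) :=
            Real.rpow_le_rpow_of_exponent_ge he he1.le (by linarith)

end Crest.Agent.R136.End882
end

-- ▼ part R136/EndS_638
section

/-!
# R136 (S0187), lightlike case, END: the real sides of the window, 882's form (helper638)
-/

set_option autoImplicit false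

namespace Crest.Agent.R136.End882

open Crest.Agent.R136.TL196
open Crest.Agent.R136.Wq638

/-- real sides of the window in the class frame -/
noncomputable def sdn' (c : LCtx) (T1 : ℝ) (ξ w : ℕ → ℝ) (n : ℕ) (k : Fin 11) : ℝ :=
  sd (c.D.B.d n) (c.XB T1 ξ w n) (uH c.D.B c.D.lev c.w0 n) (uA c.D.B c.D.lev c.D.w c.w0 n)
    (uB c.D.B c.D.lev c.D.w c.w0 n) (uY c.D.B c.D.lev c.D.w c.w0 n) k

theorem sdn'_eq (c : LCtx) (T1 : ℝ) (ξ w : ℕ → ℝ) (n : ℕ) (k : Fin 11) :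
    sdn' c T1 ξ w n k = Wid638.sdn c T1 ξ w n k := rfl

end Crest.Agent.R136.End882
end

-- ▼ part R136/End17_882
section

/-!
# R136 (S0187): END, part 17 (helper882): real gauge, numbers, range of the widths
-/

set_option autoImplicit false
set_option linter.unusedVariables false

open Finset Filter Topology

namespace Crest.Agent.R136.End882

open Crest.Agent.R138.Ex926
open Crest.Agent.R136.Net191
open Crest.Agent.R136.NetQ186
open Crest.Agent.R136.GeoQ186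
open Crest.Agent.R136.Gz779
open Crest.Agent.R136.Qg926
open Crest.Agent.R136.Wq638
open Crest.Agent.R136.TL196
open Crest.Agent.R138.Mk163 (zc zl rho alive own)

/-- gauge coefficients in real units -/
theorem gau_real {d : ℝ} (hd : 0 < d) {X : Fin 11 → ℝ} (hX : TightQ X) {H Wa Wb Wy : ℝ}
    (hH : 0 < H) (ha : 0 < Wa) (hb : 0 < Wb) (hy : 0 < Wy) (h : Fin 6 → ℝ) (i : Fq4) (c : ℝ) :
    (|tau h (scl H Wa Wb Wy i)| * d ^ X 0 ≤ c * d ^ X 4 →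
      |tau (gR H Wa Wb Wy h) i| * sd d X H Wa Wb Wy 0 ≤
        c * (sd d X H Wa Wb Wy 10 / sd d X H Wa Wb Wy 8)) ∧
    (|h 2| * d ^ X 0 ≤ c * d ^ X 3 → |gR H Wa Wb Wy h 2| * sd d X H Wa Wb Wy 0 ≤
        c * (sd d X H Wa Wb Wy 10 / sd d X H Wa Wb Wy 9)) ∧
    (|h 3| * d ^ X 8 ≤ c * d ^ X 4 → |gR H Wa Wb Wy h 3| * sd d X H Wa Wb Wy 8 ≤
        c * (sd d X H Wa Wb Wy 10 / sd d X H Wa Wb Wy 8)) := by
  have hdp : ∀ s : ℝ, 0 < d ^ s := fun s => Real.rpow_pos_of_pos hd s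
  have e0 : sd d X H Wa Wb Wy 0 = d ^ X 0 / H := rfl
  have e8 : sd d X H Wa Wb Wy 8 = d ^ X 8 / (H / Wa) := rfl
  have e9 : sd d X H Wa Wb Wy 9 = d ^ X 9 / (H / Wb) := rfl
  have e10 : sd d X H Wa Wb Wy 10 = d ^ X 10 / (H / Wy) := rfl
  have x8 : d ^ X 10 = d ^ X 4 * d ^ X 8 := by rw [← Real.rpow_add hd, hX.w10]
  have x9 : d ^ X 10 = d ^ X 3 * d ^ X 9 := by
    rw [← Real.rpow_add hd, hX.w10, hX.w9, hX.w8, hX.w4, hX.w6]; congr 1; ring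
  have r8 : sd d X H Wa Wb Wy 10 / sd d X H Wa Wb Wy 8 = d ^ X 4 * (Wy / Wa) := by
    rw [e8, e10, x8]
    have := hdp (X 8)
    field_simp
  have r9 : sd d X H Wa Wb Wy 10 / sd d X H Wa Wb Wy 9 = d ^ X 3 * (Wy / Wb) := by
    rw [e9, e10, x9]
    have := hdp (X 9)
    field_simp
  rw [r8, r9, e0, e8]
  have q1 : 0 < Wy / Wa := by positivity
  have q2 : 0 < Wy / Wb := by positivity
  refine ⟨fun k => ?_, fun k => ?_, fun k => ?_⟩
  · rw [← tau_scl hH.ne' ha.ne' hb.ne' hy.ne', abs_mul, abs_of_pos (by positivity : 0 < H * Wy / Wa)]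
    calc |tau h (scl H Wa Wb Wy i)| * (H * Wy / Wa) * (d ^ X 0 / H) =
        (|tau h (scl H Wa Wb Wy i)| * d ^ X 0) * (Wy / Wa) := by field_simp
      _ ≤ (c * d ^ X 4) * (Wy / Wa) := mul_le_mul_of_nonneg_right k q1.le
      _ = _ := by ring
  · have e2 : gR H Wa Wb Wy h 2 = h 2 * (H * Wy / Wb) := rfl
    rw [e2, abs_mul, abs_of_pos (by positivity : 0 < H * Wy / Wb)]
    calc |h 2| * (H * Wy / Wb) * (d ^ X 0 / H) = (|h 2| * d ^ X 0) * (Wy / Wb) := by field_simp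
      _ ≤ (c * d ^ X 3) * (Wy / Wb) := mul_le_mul_of_nonneg_right k q2.le
      _ = _ := by ring
  · have e3 : gR H Wa Wb Wy h 3 = h 3 * (H * Wy / Wa ^ 2) := rfl
    rw [e3, abs_mul, abs_of_pos (by positivity : 0 < H * Wy / Wa ^ 2)]
    calc |h 3| * (H * Wy / Wa ^ 2) * (d ^ X 8 / (H / Wa)) = (|h 3| * d ^ X 8) * (Wy / Wa) := by
          field_simp
      _ ≤ (c * d ^ X 4) * (Wy / Wa) := mul_le_mul_of_nonneg_right k q1.le
      _ = _ := by ring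

/-- the conditions on the scale -/
theorem e_conds (B : Base) {M₁ : ℕ} {u v δ κ κ₂ εp εc : ℝ} (hκ2 : 0 < κ₂) (hδ : 0 < δ)
    (hδ1 : δ < v - u) (hεc : εc < εp) (hεp : 2 * εp < δ) (hκ : κ₂ < κ * (v - u - δ)) :
    ∀ᶠ n in (U : Filter ℕ), 1000000 * B.d n ≤ 1 ∧ 4 * B.d n ^ (-εc) ≤ B.d n ^ (-εp) ∧
      (2 : ℝ) ^ (M₁ + 1) ≤ B.d n ^ (-(v - u - δ)) ∧
      B.d n ^ (-κ₂) ≤ (B.d n ^ (-(v - u - δ)) / 2) ^ κ ∧
      6 * (B.d n ^ (-εp)) ^ 2 * B.d n ^ (v - u) * B.d n ^ (-(v - u - δ)) ≤ 1 ∧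
      4 * B.d n ^ δ < 1 ∧ 2 * B.d n ^ (κ₂ / 2) ≤ 1 ∧ 16 ≤ B.d n ^ (-κ₂) := by
  have ev : ∀ {s : ℝ}, 0 < s → ∀ {C : ℝ}, 0 < C → ∀ᶠ n in (U : Filter ℕ), C * B.d n ^ s ≤ 1 := by
    intro s hs C hC
    filter_upwards [Crest.Agent.R136.Qg926.ev_const_le B hC hs] with n hn
    have hp := Real.rpow_pos_of_pos (B.pos n) s
    calc C * B.d n ^ s ≤ B.d n ^ (-s) * B.d n ^ s := mul_le_mul_of_nonneg_right hn hp.le
      _ = 1 := by rw [← Real.rpow_add (B.pos n)]; simp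
  have h2κ : (0 : ℝ) < 2 ^ κ := Real.rpow_pos_of_pos two_pos κ
  filter_upwards [ev (s := 1) one_pos (C := 1000000) (by norm_num),
    ev (s := εp - εc) (by linarith) (C := 4) (by norm_num),
    Crest.Agent.R136.Qg926.ev_const_le B (c := (2 : ℝ) ^ (M₁ + 1)) (by positivity)
      (ε := v - u - δ) (by linarith),
    ev (s := κ * (v - u - δ) - κ₂) (by linarith) (C := 2 ^ κ) h2κ,
    ev (s := δ - 2 * εp) (by linarith) (C := 6) (by norm_num),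
    ev (s := δ) hδ (C := 5) (by norm_num),
    ev (s := κ₂ / 2) (by linarith) (C := 2) (by norm_num),
    Crest.Agent.R136.Qg926.ev_const_le B (c := 16) (by norm_num) (ε := κ₂) hκ2] with
    n a0 a2 a3 a4 a5 a8 a9 a16
  have he := B.pos n
  have hep : ∀ s : ℝ, 0 < B.d n ^ s := fun s => Real.rpow_pos_of_pos he s
  rw [Real.rpow_one] at a0
  refine ⟨a0, ?_, a3, ?_, ?_, ?_, a9, a16⟩
  · have e1 : B.d n ^ (-εc) = B.d n ^ (εp - εc) * B.d n ^ (-εp) := by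
      rw [← Real.rpow_add he]; congr 1; ring
    rw [e1, ← mul_assoc]
    exact mul_le_of_le_one_left (hep _).le a2
  · rw [Real.div_rpow (hep _).le two_pos.le, le_div_iff₀ h2κ, ← Real.rpow_mul he.le]
    have e1 : B.d n ^ (-κ₂) = B.d n ^ (-(v - u - δ) * κ) * B.d n ^ (κ * (v - u - δ) - κ₂) := by
      rw [← Real.rpow_add he]; congr 1; ring
    rw [e1]
    have h9 := hep (-(v - u - δ) * κ)
    calc B.d n ^ (-(v - u - δ) * κ) * B.d n ^ (κ * (v - u - δ) - κ₂) * 2 ^ κ =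
        B.d n ^ (-(v - u - δ) * κ) * (2 ^ κ * B.d n ^ (κ * (v - u - δ) - κ₂)) := by ring
      _ ≤ B.d n ^ (-(v - u - δ) * κ) * 1 := mul_le_mul_of_nonneg_left a4 h9.le
      _ = _ := mul_one _
  · have e1 : 6 * (B.d n ^ (-εp)) ^ 2 * B.d n ^ (v - u) * B.d n ^ (-(v - u - δ)) =
        6 * B.d n ^ (δ - 2 * εp) := by
      rw [sq, mul_assoc, mul_assoc, ← Real.rpow_add he, ← Real.rpow_add he, ← Real.rpow_add he]
      congr 2; ring
    rw [e1]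
    exact a5
  · have := hep δ
    linarith

theorem rng_aux {d P l h C a ws wb : ℝ} (hd : 0 < d) (hd1 : d ≤ 1) (hP : 0 < P)
    (h1 : l ≤ d ^ C * P) (h2 : P ≤ d ^ C * h) (hC1 : ws + a + wb ≤ C) (hC2 : ws ≤ C + a + wb) :
    l ≤ d ^ ws * (P * d ^ a * d ^ wb) ∧ P * d ^ a * d ^ wb ≤ d ^ ws * h := by
  have hdp : ∀ s : ℝ, 0 < d ^ s := fun s => Real.rpow_pos_of_pos hd s
  have hmon : ∀ {s s' : ℝ}, s' ≤ s → d ^ s ≤ d ^ s' := fun hs =>
    Real.rpow_le_rpow_of_exponent_ge hd hd1 hs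
  have hh : 0 < h := by
    by_contra hc
    push Not at hc
    have := mul_nonpos_of_nonneg_of_nonpos (hdp C).le hc
    linarith
  constructor
  · calc l ≤ d ^ C * P := h1
      _ ≤ d ^ (ws + a + wb) * P := mul_le_mul_of_nonneg_right (hmon hC1) hP.le
      _ = d ^ ws * (P * d ^ a * d ^ wb) := by rw [Real.rpow_add hd, Real.rpow_add hd]; ring
  · have p1 := hdp a
    have p2 := hdp wb
    calc P * d ^ a * d ^ wb ≤ (d ^ C * h) * d ^ a * d ^ wb := by gcongr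
      _ = d ^ (C + a + wb) * h := by rw [Real.rpow_add hd, Real.rpow_add hd]; ring
      _ ≤ d ^ ws * h := mul_le_mul_of_nonneg_right (hmon hC2) hh.le

/-- **range of the widths of the window** -/
theorem rng_win {η₀ : ℝ} {c : LCtx} (ok : c.Ok η₀) {B' : Base} {J : ℕ → Finset (ℕ × ℝ)}
    {ξ w : ℕ → ℝ} {lam lo : (Fin 11 → ℝ) → ℝ} (rw' : RecW c B' J ξ w lam lo) (T1 s : ℝ)
    {wl wh : ℕ → Fin 3 → ℝ}
    (hR : ∀ C : ℝ, ∀ᶠ n in (U : Filter ℕ), ∀ k : Fin 3, wl n k ≤ c.D.B.d n ^ C * c.D.w k n 0 ∧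
      c.D.w k n 0 ≤ c.D.B.d n ^ C * wh n k) :
    ∀ᶠ n in (U : Filter ℕ), ∀ k : Fin 3,
      wl n k ≤ B'.d n ^ s * ![sdn' c T1 ξ w n 10, sdn' c T1 ξ w n 8, sdn' c T1 ξ w n 9] k ∧
      ![sdn' c T1 ξ w n 10, sdn' c T1 ξ w n 8, sdn' c T1 ξ w n 9] k ≤ B'.d n ^ s * wh n k := by
  filter_upwards [hR (2 + |1 - c.p.θ 0| + |1 - c.p.θ 1| + |1 - c.p.θ 2|),
    Wid638.sides ok rw' T1, rw'.lev_in, Wid638.w_small rw' s (δ := 1 / 2) (by norm_num),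
    Wid638.w_small rw' (-T1) (δ := 1 / 2) (by norm_num),
    Wid638.w_small rw' (-2 * T1) (δ := 1 / 2) (by norm_num), Wid638.ord0 ok] with
    n hR ⟨_, s8, s9, s10⟩ ⟨x0, x1⟩ b1 b2 b3 ⟨P0, P1, P2, _⟩
  have hd := c.D.B.pos n
  have hd1 := (c.D.B.lt n).le
  have ax : ∀ j : Fin 3, |(1 - c.p.θ j) * ξ n| ≤ |1 - c.p.θ j| := fun j => by
    rw [abs_mul, abs_of_pos x0]
    exact mul_le_of_le_one_right (abs_nonneg _) x1.le
  have a0 := abs_le.1 (ax 0)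
  have a1 := abs_le.1 (ax 1)
  have a2 := abs_le.1 (ax 2)
  have n0 := abs_nonneg (1 - c.p.θ 0)
  have n1 := abs_nonneg (1 - c.p.θ 1)
  have n2 := abs_nonneg (1 - c.p.θ 2)
  rw [abs_le] at b1 b2 b3
  have t8 : sdn' c T1 ξ w n 8 = c.D.w 1 n 0 * c.D.B.d n ^ ((1 - c.p.θ 1) * ξ n) *
      c.D.B.d n ^ (w n * -T1) := by
    rw [sdn'_eq, s8, Wid638.e_eq rw']
  have t9 : sdn' c T1 ξ w n 9 = c.D.w 2 n 0 * c.D.B.d n ^ ((1 - c.p.θ 2) * ξ n) *
      c.D.B.d n ^ (w n * (-2 * T1)) := by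
    rw [sdn'_eq, s9, Wid638.e_eq rw']
  have t10 : sdn' c T1 ξ w n 10 = c.D.w 0 n 0 * c.D.B.d n ^ ((1 - c.p.θ 0) * ξ n) *
      c.D.B.d n ^ (w n * (-2 * T1)) := by
    rw [sdn'_eq, s10, Wid638.e_eq rw']
  rw [Wid638.e_eq rw', t8, t9, t10]
  intro k
  fin_cases k
  · exact rng_aux hd hd1 P0 (hR 0).1 (hR 0).2 (by linarith [a0.1, a0.2, b1.1, b1.2, b3.1, b3.2])
      (by linarith [a0.1, a0.2, b1.1, b1.2, b3.1, b3.2])
  · exact rng_aux hd hd1 P1 (hR 1).1 (hR 1).2 (by linarith [a1.1, a1.2, b1.1, b1.2, b2.1, b2.2])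
      (by linarith [a1.1, a1.2, b1.1, b1.2, b2.1, b2.2])
  · exact rng_aux hd hd1 P2 (hR 2).1 (hR 2).2 (by linarith [a2.1, a2.2, b1.1, b1.2, b3.1, b3.2])
      (by linarith [a2.1, a2.2, b1.1, b1.2, b3.1, b3.2])

end Crest.Agent.R136.End882
end

-- ▼ part R136/Xct_638
section

/-!
# R136 (S0187), lightlike case, END: the container of the record (helper638)

`cont_nat` (leaf (X) of helper882): one container with full own counts at two levels, the upper own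
counts at two levels, and the full record boxes.
-/

set_option autoImplicit false
set_option linter.unusedVariables false

open Finset Filter Topology

namespace Crest.Agent.R136.End882

open Crest.Agent.R138.Ex926
open Crest.Agent.R136.Net191
open Crest.Agent.R136.NetQ186
open Crest.Agent.R136.GeoQ186
open Crest.Agent.R136.Gz779
open Crest.Agent.R136.Zpr779
open Crest.Agent.R136.Qg926
open Crest.Agent.R136.Wq638
open Crest.Agent.R136.TL196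
open Crest.Agent.R136.NatT550
open Crest.Agent.R138.Mk163 (zc zl rho alive own)

/-! ### boxes -/

/-- the container box is legal, for every height exponent `z ≥ u` -/
theorem kbm_leg {u v t R' : ℝ} (hu : 0 ≤ u) (huv : u ≤ v) (ht : 0 ≤ t)
    (hR : 2 * t + u + v ≤ R') {z : ℝ} (hz : u ≤ z) (hzR : z ≤ R') :
    Function.update (kbm u v t) 0 z ∈ Leg monQ R' := by
  have e : ∀ k : Fin 11, k ≠ 0 → Function.update (kbm u v t) 0 z k = kbm u v t k :=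
    fun k hk => Function.update_of_ne hk _ _
  have e0 : Function.update (kbm u v t) 0 z 0 = z := Function.update_self _ _ _
  have e1 := e 1 (by decide)
  have e2 := e 2 (by decide)
  have e3 := e 3 (by decide)
  have e4 := e 4 (by decide)
  have e5 := e 5 (by decide)
  have e6 := e 6 (by decide)
  have e7 := e 7 (by decide)
  have e8 := e 8 (by decide)
  have e9 := e 9 (by decide)
  have e10 := e 10 (by decide)
  simp only [kbm, Matrix.cons_val] at e1 e2 e3 e4 e5 e6 e7 e8 e9 e10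
  refine ⟨legalQ_iff.2 ⟨fun k => ?_, ?_, ?_, ?_, ?_, ?_, ?_, ?_, ?_, ?_, ?_, ?_⟩, fun k => ?_⟩
  · fin_cases k
    · change 0 ≤ Function.update (kbm u v t) 0 z 0; rw [e0]; linarith
    · change 0 ≤ Function.update (kbm u v t) 0 z 1; rw [kbm, e1]; linarith
    · change 0 ≤ Function.update (kbm u v t) 0 z 2; rw [kbm, e2]; linarith
    · change 0 ≤ Function.update (kbm u v t) 0 z 3; rw [kbm, e3]; linarith
    · change 0 ≤ Function.update (kbm u v t) 0 z 4; rw [kbm, e4]; linarith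
    · change 0 ≤ Function.update (kbm u v t) 0 z 5; rw [kbm, e5]; linarith
    · change 0 ≤ Function.update (kbm u v t) 0 z 6; rw [kbm, e6]; linarith
    · change 0 ≤ Function.update (kbm u v t) 0 z 7; rw [kbm, e7]; linarith
    · change 0 ≤ Function.update (kbm u v t) 0 z 8; rw [kbm, e8]; linarith
    · change 0 ≤ Function.update (kbm u v t) 0 z 9; rw [kbm, e9]; linarith
    · change 0 ≤ Function.update (kbm u v t) 0 z 10; rw [kbm, e10]; linarith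
  all_goals try (rw [kbm] at *; simp only [e0, e1, e2, e3, e4, e5, e6, e7, e8, e9, e10]; linarith)
  · fin_cases k
    · change Function.update (kbm u v t) 0 z 0 ≤ R'; rw [e0]; linarith
    · change Function.update (kbm u v t) 0 z 1 ≤ R'; rw [kbm, e1]; linarith
    · change Function.update (kbm u v t) 0 z 2 ≤ R'; rw [kbm, e2]; linarith
    · change Function.update (kbm u v t) 0 z 3 ≤ R'; rw [kbm, e3]; linarith
    · change Function.update (kbm u v t) 0 z 4 ≤ R'; rw [kbm, e4]; linarith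
    · change Function.update (kbm u v t) 0 z 5 ≤ R'; rw [kbm, e5]; linarith
    · change Function.update (kbm u v t) 0 z 6 ≤ R'; rw [kbm, e6]; linarith
    · change Function.update (kbm u v t) 0 z 7 ≤ R'; rw [kbm, e7]; linarith
    · change Function.update (kbm u v t) 0 z 8 ≤ R'; rw [kbm, e8]; linarith
    · change Function.update (kbm u v t) 0 z 9 ≤ R'; rw [kbm, e9]; linarith
    · change Function.update (kbm u v t) 0 z 10 ≤ R'; rw [kbm, e10]; linarith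


theorem kbm_bd {u v t : ℝ} (hu : 0 ≤ u) (huv : u ≤ v) (ht : 0 ≤ t) {z : ℝ} (hz : z ≤ v)
    (k : Fin 11) : Function.update (kbm u v t) 0 z k ≤ 2 * t + u + v := by
  by_cases hk : k = 0
  · subst hk
    rw [Function.update_self]
    linarith
  · rw [Function.update_of_ne hk]
    fin_cases k <;> simp only [kbm, Matrix.cons_val, Fin.zero_eta, Fin.mk_one, Fin.reduceFinMk] <;>
      linarith

theorem kbm_rz {θ T1 x u v : ℝ} (huv : u ≤ v) (hx : 2 * T1 + 1 ≤ x) (hv : v ≤ 1) (hu : 0 ≤ u)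
    (hT : 0 ≤ T1) (ht : T1 - θ * v ≤ T1) : kbm u v (T1 - θ * v) ≤ rz θ T1 x v := by
  intro k
  fin_cases k <;>
    simp only [kbm, rz, Matrix.cons_val, Fin.zero_eta, Fin.mk_one, Fin.reduceFinMk] <;>
    linarith

theorem rz_lt {θ T1 x v R' : ℝ} (hθ0 : 0 < θ) (t1 : 1 ≤ T1) (t2 : θ ≤ T1) (hx : x = 2 * T1 + 3)
    (hR : R' = 4 * x) (hv0 : 0 ≤ v) (hv : v ≤ 1) (k : Fin 11) : rz θ T1 x v k < R' := by
  have h1 : 0 ≤ θ * v := mul_nonneg hθ0.le hv0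
  have h2 : θ * v ≤ θ := mul_le_of_le_one_right hθ0.le hv
  fin_cases k <;>
    simp only [rz, Matrix.cons_val, Fin.zero_eta, Fin.mk_one, Fin.reduceFinMk] <;>
    linarith

/-! ### units -/

/-- the first slot of the gauge chart is the height -/
theorem coG_zero (c : LCtx) (h : ℕ → Fin 6 → ℝ) (n : ℕ) (x y : ℕ × ℝ) :
    coG c.F h n x y 0 = uH c.D.B c.D.lev c.w0 n * (y.2 - x.2) := by
  change uH c.D.B c.D.lev c.w0 n * y.2 - uH c.D.B c.D.lev c.w0 n * x.2 = _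
  ring

theorem uH_pos (c : LCtx) (n : ℕ) : 0 < uH c.D.B c.D.lev c.w0 n := by
  unfold uH
  exact mul_pos (Real.rpow_pos_of_pos (c.D.B.pos n) _) (by positivity)

theorem unit0 (c : LCtx) (T1 : ℝ) (ξ w : ℕ → ℝ) (n : ℕ) :
    c.D.B.d n ^ XG (c.XB T1 ξ w) n 0 =
      uH c.D.B c.D.lev c.w0 n * sdn' c T1 ξ w n 0 := by
  have h1 : sdn' c T1 ξ w n 0 = c.D.B.d n ^ (c.XB T1 ξ w n 0) / uH c.D.B c.D.lev c.w0 n := rfl
  have h2 : XG (c.XB T1 ξ w) n 0 = c.XB T1 ξ w n 0 := XG_of_ne (by decide)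
  rw [h1, h2, mul_div_cancel₀ _ (uH_pos c n).ne']

theorem same_cell {m : ℕ} {z z' : ℝ} (h : zc m z' = zc m z) : |z' - z| ≤ rho m := by
  have h1 := HR829.zc_mem m z
  have h2 := HR829.zc_mem m z'
  rw [h] at h2
  rw [abs_le]
  constructor <;> linarith [h1.1, h1.2, h2.1, h2.2]

/-! ### arithmetic of the losses -/

/-- lower own count -/
theorem low_aux {e To o N p ε g : ℝ} (he : 0 < e) (he1 : e ≤ 1) (hT : 0 < To)
    (h1 : (1 - p) - g / 8 ≤ o) (h2 : ε ≤ g / 8) (h3 : To * e ^ (-o + ε) ≤ N) :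
    To * e ^ (-(1 - p) - 3 / 4 * g) ≤ e ^ (-g) * N := by
  have hep : ∀ s : ℝ, 0 < e ^ s := fun s => Real.rpow_pos_of_pos he s
  calc To * e ^ (-(1 - p) - 3 / 4 * g) = e ^ (-g) * (To * e ^ (-(1 - p) + g / 4)) := by
        rw [show -(1 - p) - 3 / 4 * g = -g + (-(1 - p) + g / 4) by ring, Real.rpow_add he]; ring
    _ ≤ e ^ (-g) * (To * e ^ (-o + ε)) := by
        refine mul_le_mul_of_nonneg_left (mul_le_mul_of_nonneg_left ?_ hT.le) (hep _).le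
        exact Real.rpow_le_rpow_of_exponent_ge he he1 (by linarith)
    _ ≤ e ^ (-g) * N := mul_le_mul_of_nonneg_left h3 (hep _).le

/-- upper own count -/
theorem up_aux {e To N o p u P2 g : ℝ} (he : 0 < e) (he1 : e ≤ 1) (hT : 0 < To)
    (h1 : o ≤ 1 - p) (hN : N ≤ To * e ^ (-o - g / 2)) (hP0 : 0 < P2)
    (hP : P2 ≤ 2 * e ^ (-(p - u))) (h2 : 2 ≤ e ^ (-(g / 2))) :
    N ≤ e ^ (-g) * (To * e ^ (-(1 - u)) / P2) := by
  have hep : ∀ s : ℝ, 0 < e ^ s := fun s => Real.rpow_pos_of_pos he s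
  have h3 : e ^ (p - u) / 2 ≤ 1 / P2 := by
    rw [div_le_div_iff₀ (by norm_num) hP0, one_mul]
    calc e ^ (p - u) * P2 ≤ e ^ (p - u) * (2 * e ^ (-(p - u))) :=
          mul_le_mul_of_nonneg_left hP (hep _).le
      _ = 2 * (e ^ (p - u) * e ^ (-(p - u))) := by ring
      _ = 2 := by rw [← Real.rpow_add he, add_neg_cancel, Real.rpow_zero, mul_one]
  calc N ≤ To * e ^ (-o - g / 2) := hN
    _ ≤ To * e ^ (-(1 - p) - g / 2) := by
        refine mul_le_mul_of_nonneg_left ?_ hT.le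
        exact Real.rpow_le_rpow_of_exponent_ge he he1 (by linarith)
    _ = To * e ^ (-(1 - p) - g / 2) * (2 / 2) := by ring
    _ ≤ To * e ^ (-(1 - p) - g / 2) * (e ^ (-(g / 2)) / 2) := by
        refine mul_le_mul_of_nonneg_left ?_ (mul_pos hT (hep _)).le
        exact div_le_div_of_nonneg_right h2 (by norm_num)
    _ = e ^ (-g) * (To * e ^ (-(1 - u))) * (e ^ (p - u) / 2) := by
        have e1 : e ^ (-(1 - p) - g / 2) * e ^ (-(g / 2)) =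
            e ^ (-g) * e ^ (-(1 - u)) * e ^ (p - u) := by
          rw [← Real.rpow_add he, ← Real.rpow_add he, ← Real.rpow_add he]
          congr 1; ring
        calc To * e ^ (-(1 - p) - g / 2) * (e ^ (-(g / 2)) / 2) =
            To * (e ^ (-(1 - p) - g / 2) * e ^ (-(g / 2))) / 2 := by ring
          _ = _ := by rw [e1]; ring
    _ ≤ e ^ (-g) * (To * e ^ (-(1 - u))) * (1 / P2) :=
        mul_le_mul_of_nonneg_left h3 (mul_pos (hep _) (mul_pos hT (hep _))).le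
    _ = _ := by ring

open Classical in
set_option maxHeartbeats 2000000 in
/-- general form of `cont_nat` -/
theorem cont_gen {c : LCtx} {B' : Base} {E J' : ℕ → Finset (ℕ × ℝ)} {ξ w : ℕ → ℝ}
    {lam : (Fin 11 → ℝ) → ℝ} {h : ℕ → Fin 6 → ℝ} {To : ℕ → ℝ} {ν' own' : (Fin 11 → ℝ) → ℝ}
    {θ T1 x R' : ℝ}
    (H : ExtZ c.D.B B' E J' (coG c.F h) monQ 2 (XG (c.XB T1 ξ w)) w monQ R' (c.TB T1 B' ξ lam) To
      0 0 0 (PDz θ T1 R') (DL c.p) (rz θ T1 x) (oz θ T1 x R')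
      (fun v => DL c.p (rz θ T1 x v)) (fun _ => False) ν' own' (DL c.p (bT T1) - lam (bT T1)))
    (hZ : 1 ≤ θ ∨ Zer θ T1 x R' own') (hθ0 : 0 < θ) (t1 : 1 ≤ T1) (t2 : θ ≤ T1)
    (hx : x = 2 * T1 + 3) (hR : R' = 4 * x)
    (hs : ∀ᶠ n in (U : Filter ℕ), 0 < sdn' c T1 ξ w n 0 ∧ sdn' c T1 ξ w n 0 ≤ 1)
    {η : ℝ} (hη0 : 0 < η) (hη1 : η ≤ 1 / 4) {M₁ : ℕ} (hM₁ : 4 ≤ η * M₁)
    {δ' κ' : ℝ} (hδ0 : 0 < δ') (hδ1 : δ' ≤ 1 / 2) (hκ0 : 0 < κ') (hκ1 : κ' ≤ η) :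
    ∃ u v : ℝ, 0 < u ∧ u < v ∧ v < 1 ∧ v - u ≤ 1 / 2 ∧ ∀ εc : ℝ, 0 < εc → ∀ ε1 : ℝ, 0 < ε1 →
      ∀ᶠ n in (U : Filter ℕ), ∀ i l j M k : ℕ,
        i = lvl (sdn' c T1 ξ w n 0 * B'.d n ^ u) →
        j = lvl (sdn' c T1 ξ w n 0 * B'.d n ^ v) →
        M = nM (B'.d n) (v - u - δ' * (v - u)) → k = nK η M → l = i + M + 1 - k →
        ∃ F ⊆ J' n, F.Nonempty ∧ (∀ x ∈ F, ∀ y ∈ F, zc i x.2 = zc i y.2) ∧
          (∀ x ∈ F, ∀ y ∈ F, ∀ s, |coG c.F h n x y s| ≤ B'.d n ^ (-εc) *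
            (c.D.B.d n ^ XG (c.XB T1 ξ w) n s *
              B'.d n ^ kbm u v (T1 - θ * v) s)) ∧
          (∀ x ∈ F, To n * B'.d n ^ (-(1 - u)) ≤ B'.d n ^ (-(κ' * (v - u))) *
            ((F.filter fun y => y.1 = x.1 ∧ zc i y.2 = zc i x.2).card : ℝ)) ∧
          (∀ x ∈ F, To n * B'.d n ^ (-(1 - u)) / 2 ^ (M + 1 - k) ≤ B'.d n ^ (-(κ' * (v - u))) *
            ((F.filter fun y => y.1 = x.1 ∧ zc l y.2 = zc l x.2).card : ℝ)) ∧
          (∀ x ∈ F, ((F.filter fun y => y.1 = x.1 ∧ zc (i + M + 1) y.2 =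
            zc (i + M + 1) x.2).card : ℝ) ≤ B'.d n ^ (-(κ' * (v - u))) *
              (To n * B'.d n ^ (-(1 - u)) / 2 ^ (M + 1))) ∧
          (∀ x ∈ F, ((F.filter fun y => y.1 = x.1 ∧ zc j y.2 = zc j x.2).card : ℝ) ≤
            B'.d n ^ (-(κ' * (v - u))) * (To n * B'.d n ^ (-(1 - u)) / 2 ^ (j - i))) ∧
          (∀ y ∈ F, c.TB T1 B' ξ lam n *
              B'.d n ^ (-(ν' (rz θ T1 x v)) + ε1) ≤
            ((F.filter fun y' => zc j y'.2 = zc j y.2 ∧ ∀ s, |coG c.F h n y y' s| ≤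
              B'.d n ^ (-εc) * (c.D.B.d n ^ XG (c.XB T1 ξ w) n s *
                B'.d n ^ rz θ T1 x v s)).card : ℝ)) := by
  obtain ⟨a, ha⟩ : ∃ a : ℝ, a = (1 - δ') * (1 - 3 / 4 * η) + κ' / 2 := ⟨_, rfl⟩
  have ha0 : 0 ≤ a := by
    rw [ha]
    have h1 : 0 ≤ (1 - δ') * (1 - 3 / 4 * η) := mul_nonneg (by linarith) (by linarith)
    linarith
  have ha1 : a ≤ 1 := by
    have h1 : (1 - δ') * (1 - 3 / 4 * η) ≤ 1 * (1 - 3 / 4 * η) :=
      mul_le_mul_of_nonneg_right (by linarith) (by linarith)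
    rw [ha]; linarith
  obtain ⟨u, v, hu, huv, hv1, huv2, hown⟩ := own_lo (J := fun _ => ∅) (lo := fun _ => 0)
    (Cl := fun _ => ∅) (s₀ := fun _ => (0, 0)) (ηg := fun _ => 0) H hZ hθ0 ha0 ha1
    (ε := κ' / 8) (by positivity)
  refine ⟨u, v, hu, huv, hv1, huv2, fun εc hεc ε1 hε1 => ?_⟩
  have hvu : 0 < v - u := by linarith
  obtain ⟨g, hg⟩ : ∃ g : ℝ, g = κ' * (v - u) := ⟨_, rfl⟩
  have hg0 : 0 < g := by rw [hg]; exact mul_pos hκ0 hvu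
  rw [← hg]
  obtain ⟨t, ht⟩ : ∃ t : ℝ, t = T1 - θ * v := ⟨_, rfl⟩
  have hθv : 0 < θ * v := mul_pos hθ0 (by linarith)
  have hθv1 : θ * v ≤ θ := mul_le_of_le_one_right hθ0.le hv1.le
  have ht0 : 0 ≤ t := by linarith
  have htT : t ≤ T1 := by linarith
  obtain ⟨δ, hδ⟩ : ∃ δ : ℝ, δ = δ' * (v - u) := ⟨_, rfl⟩
  have hδp : 0 < δ := by rw [hδ]; exact mul_pos hδ0 hvu
  have hδlt : δ < v - u := by rw [hδ]; exact mul_lt_of_lt_one_left hvu (by linarith)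
  rw [← hδ]
  rw [← ht]
  have hRb : 2 * t + u + v ≤ R' := by rw [hR, hx]; linarith
  -- the boxes
  have hpc0 : Function.update (kbm u v t) 0 u = kbm u v t :=
    Function.update_eq_self_iff.2 rfl
  have mc : kbm u v t ∈ Leg monQ R' := by
    have := kbm_leg hu.le huv.le ht0 hRb le_rfl (by linarith : u ≤ R')
    rwa [hpc0] at this
  obtain ⟨zl', hzl⟩ : ∃ z : ℝ, z = u + a * (v - u) := ⟨_, rfl⟩
  have hzl0 : u ≤ zl' := by
    rw [hzl]; exact le_add_of_nonneg_right (mul_nonneg ha0 hvu.le)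
  have hzl1 : zl' ≤ v := by
    have h1 : a * (v - u) ≤ v - u := mul_le_of_le_one_left hvu.le ha1
    rw [hzl]; linarith
  have ml : Function.update (kbm u v t) 0 zl' ∈ Leg monQ R' :=
    kbm_leg hu.le huv.le ht0 hRb hzl0 (by linarith)
  have m3 : Function.update (kbm u v t) 0 (v - δ) ∈ Leg monQ R' :=
    kbm_leg hu.le huv.le ht0 hRb (by linarith) (by linarith)
  have m4 : Function.update (kbm u v t) 0 v ∈ Leg monQ R' :=
    kbm_leg hu.le huv.le ht0 hRb huv.le (by linarith)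
  have mv : rz θ T1 x v ∈ Leg monQ R' := (H.record v (by linarith) hv1.le).1
  have habs : |1 - θ| ≤ T1 := by rw [abs_le]; constructor <;> linarith
  -- own exponents
  have ow1 : (1 - u) - g / 8 ≤ own' (kbm u v t) := by
    have h1 := hown 0 (Or.inl rfl) (kbm u v t) mc (by simp [kbm])
      (by simp only [kbm, Matrix.cons_val]; rw [ht]; linarith)
      (by simp only [kbm, Matrix.cons_val]; linarith)
      (by simp only [kbm, Matrix.cons_val]; linarith)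
      (fun k => by
        have := kbm_bd hu.le huv.le ht0 huv.le k
        rw [hpc0] at this
        linarith)
      (fun k => by
        have := kbm_bd hu.le huv.le ht0 huv.le k
        rw [hpc0] at this
        linarith)
    have e1 : kbm u v t 0 = u := rfl
    rw [e1] at h1
    rw [hg]
    linarith
  have ow2 : (1 - zl') - g / 8 ≤ own' (Function.update (kbm u v t) 0 zl') := by
    have e1 : ∀ k : Fin 11, k ≠ 0 → Function.update (kbm u v t) 0 zl' k = kbm u v t k :=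
      fun k hk => Function.update_of_ne hk _ _
    have h1 := hown a (Or.inr rfl) _ ml (by rw [Function.update_self]; exact hzl)
      (by rw [e1 4 (by decide)]; simp only [kbm, Matrix.cons_val]; rw [ht]; linarith)
      (by rw [e1 1 (by decide)]; simp only [kbm, Matrix.cons_val]; linarith)
      (by rw [e1 3 (by decide)]; simp only [kbm, Matrix.cons_val]; linarith)
      (fun k => by
        have := kbm_bd hu.le huv.le ht0 hzl1 k
        linarith)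
      (fun k => by
        have := kbm_bd hu.le huv.le ht0 hzl1 k
        linarith)
    rw [Function.update_self] at h1
    rw [hg]
    linarith
  have up3 : own' (Function.update (kbm u v t) 0 (v - δ)) ≤ 1 - (v - δ) := by
    have := H.own_up _ m3 (v - δ) (by linarith) (by linarith)
      (by rw [Function.update_self]; ring)
    linarith
  have up4 : own' (Function.update (kbm u v t) 0 v) ≤ 1 - v := by
    have := H.own_up _ m4 v (by linarith) (by linarith) (by rw [Function.update_self]; ring)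
    linarith
  obtain ⟨δ3, hδ3, ev3⟩ := Cnt638.own_le_box H m3 (ε := g / 2) (by positivity)
  obtain ⟨δ4, hδ4, ev4⟩ := Cnt638.own_le_box H m4 (ε := g / 2) (by positivity)
  obtain ⟨ε, hε0, hεc', hε1', hεg, hε3, hε4⟩ : ∃ ε : ℝ, 0 < ε ∧ ε ≤ εc ∧ ε ≤ ε1 ∧ ε ≤ g / 8 ∧
      ε ≤ δ3 ∧ ε ≤ δ4 := by
    refine ⟨min (min εc ε1) (min (g / 8) (min δ3 δ4)), ?_, ?_, ?_, ?_, ?_, ?_⟩
    · exact lt_min (lt_min hεc hε1) (lt_min (by positivity) (lt_min hδ3 hδ4))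
    · exact (min_le_left _ _).trans (min_le_left _ _)
    · exact (min_le_left _ _).trans (min_le_right _ _)
    · exact (min_le_right _ _).trans (min_le_left _ _)
    · exact (min_le_right _ _).trans ((min_le_right _ _).trans (min_le_left _ _))
    · exact (min_le_right _ _).trans ((min_le_right _ _).trans (min_le_right _ _))
  -- the levels
  have lf : ∀ᶠ n in (U : Filter ℕ),
      sdn' c T1 ξ w n 0 * B'.d n ^ u ≤ rho (lvl (sdn' c T1 ξ w n 0 * B'.d n ^ u)) ∧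
      rho (lvl (sdn' c T1 ξ w n 0 * B'.d n ^ u)) ≤ 2 * (sdn' c T1 ξ w n 0 * B'.d n ^ u) ∧
      sdn' c T1 ξ w n 0 * B'.d n ^ v ≤ rho (lvl (sdn' c T1 ξ w n 0 * B'.d n ^ v)) ∧
      rho (lvl (sdn' c T1 ξ w n 0 * B'.d n ^ v)) ≤ 2 * (sdn' c T1 ξ w n 0 * B'.d n ^ v) ∧
      (2 : ℝ) ^ nM (B'.d n) (v - u - δ) ≤ B'.d n ^ (-(v - u - δ)) ∧
      B'.d n ^ (-(v - u - δ)) ≤ (2 : ℝ) ^ (nM (B'.d n) (v - u - δ) + 1) ∧
      M₁ ≤ nM (B'.d n) (v - u - δ) ∧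
      η / 2 * nM (B'.d n) (v - u - δ) ≤ nK η (nM (B'.d n) (v - u - δ)) ∧
      (nK η (nM (B'.d n) (v - u - δ)) : ℝ) ≤ η * nM (B'.d n) (v - u - δ) ∧
      nK η (nM (B'.d n) (v - u - δ)) ≤ nM (B'.d n) (v - u - δ) ∧
      lvl (sdn' c T1 ξ w n 0 * B'.d n ^ u) + nM (B'.d n) (v - u - δ) + 1 ≤
        lvl (sdn' c T1 ξ w n 0 * B'.d n ^ v) ∧
      sdn' c T1 ξ w n 0 * B'.d n ^ (u + (v - u - δ) * (1 - 3 / 4 * η) + g / 2) ≤
        rho (lvl (sdn' c T1 ξ w n 0 * B'.d n ^ u) + nM (B'.d n) (v - u - δ) + 1 -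
          nK η (nM (B'.d n) (v - u - δ))) ∧
      ((2 : ℝ) ^ (nM (B'.d n) (v - u - δ) + 1 - nK η (nM (B'.d n) (v - u - δ))))⁻¹ ≤
        2 * B'.d n ^ ((v - u - δ) * (1 - 3 / 4 * η)) := by
    filter_upwards [hs, ev_const_le B' (c := (2 : ℝ) ^ (M₁ + 1)) (by positivity)
      (ε := v - u - δ) (by linarith), ev_const_le B' (c := 5) (by norm_num) hδp,
      ev_const_le B' (c := 2) (by norm_num) (ε := g / 2) (by positivity)] with n k1 k2 k3 k4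
    have he := B'.pos n
    have hep : ∀ s : ℝ, 0 < B'.d n ^ s := fun s => Real.rpow_pos_of_pos he s
    refine lev_facts hη0 hη1 hM₁ he (B'.lt n) k1.1 k1.2 hu huv hδp hδlt k2 ?_ ?_
    · rw [Real.rpow_neg he.le] at k3
      have h5 : 5 * B'.d n ^ δ ≤ 1 := by
        calc 5 * B'.d n ^ δ ≤ (B'.d n ^ δ)⁻¹ * B'.d n ^ δ :=
              mul_le_mul_of_nonneg_right k3 (hep _).le
          _ = 1 := inv_mul_cancel₀ (hep _).ne'
      have := hep δ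
      linarith
    · rw [Real.rpow_neg he.le] at k4
      calc 2 * B'.d n ^ (g / 2) ≤ (B'.d n ^ (g / 2))⁻¹ * B'.d n ^ (g / 2) :=
            mul_le_mul_of_nonneg_right k4 (hep _).le
        _ = 1 := inv_mul_cancel₀ (hep _).ne'
  have main := Cnt638.exists_cont H (pc := kbm u v t) (pu := kbm u v t)
    (pl := Function.update (kbm u v t) 0 zl') (pv := rz θ T1 x v) mc mc ml mv
    (fun k => by
      have b1 := kbm_bd hu.le huv.le ht0 huv.le k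
      rw [hpc0] at b1
      have b2 := kbm_bd hu.le huv.le ht0 hzl1 k
      exact ⟨by linarith, by linarith, rz_lt hθ0 t1 t2 hx hR (by linarith) hv1.le k⟩)
    le_rfl (fun k => by
      by_cases hk : k = 0
      · subst hk; rw [Function.update_self]; exact hzl0
      · rw [Function.update_of_ne hk])
    (by rw [ht]; exact kbm_rz huv.le (by linarith) hv1.le hu.le (by linarith) (by linarith))
    (uh := fun n => uH c.D.B c.D.lev c.w0 n) (uH_pos c) (fun n y y' => coG_zero c h n y y')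
    (i := fun n => lvl (sdn' c T1 ξ w n 0 * B'.d n ^ u))
    (l := fun n => lvl (sdn' c T1 ξ w n 0 * B'.d n ^ u) + nM (B'.d n) (v - u - δ) + 1 -
      nK η (nM (B'.d n) (v - u - δ)))
    (j := fun n => lvl (sdn' c T1 ξ w n 0 * B'.d n ^ v))
    (lf.mono fun n f => by
      obtain ⟨-, -, -, -, -, -, -, -, -, f10, f11, -⟩ := f
      change _ ≤ _
      omega)
    (lf.mono fun n f => by
      obtain ⟨-, -, -, -, -, -, -, -, -, f10, f11, -⟩ := f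
      change _ ≤ _
      omega)
    (lf.mono fun n f => by
      rw [unit0, mul_assoc]
      exact mul_le_mul_of_nonneg_left f.1 (uH_pos c n).le)
    (lf.mono fun n f => by
      obtain ⟨-, -, -, -, -, -, -, -, -, -, -, f12, -⟩ := f
      rw [unit0, mul_assoc, Function.update_self]
      refine mul_le_mul_of_nonneg_left ?_ (uH_pos c n).le
      refine le_trans (le_of_eq ?_) f12
      congr 2
      rw [hzl, ha, hδ, hg]; ring)
    (lf.mono fun n f => by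
      rw [unit0, mul_assoc]
      exact mul_le_mul_of_nonneg_left f.2.2.1 (uH_pos c n).le)
    hε0
  filter_upwards [main, lf, ev3, ev4, hs, ev_const_le B' (c := 2) (by norm_num) hδ3,
    ev_const_le B' (c := 2) (by norm_num) hδ4,
    ev_const_le B' (c := 2) (by norm_num) (ε := g / 4) (by positivity)] with
    n ⟨F, hFJ, hFne, hFz, hFn, hF1, hF2, hF3⟩ ⟨f1, f2, f3, f4, f5, f6, f7, f8, f9, f10, f11, f12,
      f13⟩ o3 o4 hsn c3 c4 c5 i l j M k hi' hj' hM' hk' hl'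
  subst hi' hj' hM' hk' hl'
  have he := B'.pos n
  have he1 := (B'.lt n).le
  have hep : ∀ s : ℝ, 0 < B'.d n ^ s := fun s => Real.rpow_pos_of_pos he s
  have hBp : ∀ s : ℝ, 0 < c.D.B.d n ^ s := fun s => Real.rpow_pos_of_pos (c.D.B.pos n) s
  have hTo := H.oprof.pos n
  have hTn := H.win.T0 n
  have hmono : ∀ {s s' : ℝ}, s ≤ s' → B'.d n ^ s' ≤ B'.d n ^ s := fun hss =>
    Real.rpow_le_rpow_of_exponent_ge he he1 hss
  have c2 : (2 : ℝ) ≤ B'.d n ^ (-(g / 2)) := c5.trans (hmono (by linarith))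
  -- own boxes
  have ownb : ∀ (z' : ℝ) (m : ℕ) (δ₁ : ℝ), ε ≤ δ₁ → 2 ≤ B'.d n ^ (-δ₁) →
      rho m ≤ 2 * (sdn' c T1 ξ w n 0 * B'.d n ^ z') → ∀ y ∈ F,
      ∀ y' ∈ F.filter (fun y' => y'.1 = y.1 ∧ zc m y'.2 = zc m y.2), y'.1 = y.1 ∧
        ∀ k, |coG c.F h n y y' k| ≤ B'.d n ^ (-δ₁) * (c.D.B.d n ^ XG (c.XB T1 ξ w) n k *
          B'.d n ^ Function.update (kbm u v t) 0 z' k) := by
    intro z' m δ₁ hd1 hd2 hm y hy y' hy'
    rw [mem_filter] at hy'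
    refine ⟨hy'.2.1, fun k => ?_⟩
    by_cases hk : k = 0
    · subst hk
      rw [Function.update_self, coG_zero, abs_mul, abs_of_pos (uH_pos c n), unit0]
      calc uH c.D.B c.D.lev c.w0 n * |y'.2 - y.2|
          ≤ uH c.D.B c.D.lev c.w0 n * (2 * (sdn' c T1 ξ w n 0 * B'.d n ^ z')) :=
            mul_le_mul_of_nonneg_left ((same_cell hy'.2.2).trans hm) (uH_pos c n).le
        _ = 2 * (uH c.D.B c.D.lev c.w0 n * sdn' c T1 ξ w n 0 * B'.d n ^ z') := by ring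
        _ ≤ B'.d n ^ (-δ₁) * (uH c.D.B c.D.lev c.w0 n * sdn' c T1 ξ w n 0 * B'.d n ^ z') :=
            mul_le_mul_of_nonneg_right hd2
              (mul_pos (mul_pos (uH_pos c n) hsn.1) (hep _)).le
    · rw [Function.update_of_ne hk]
      refine (hFn y hy y' hy'.1 k).trans ?_
      exact mul_le_mul_of_nonneg_right (hmono (by linarith)) (mul_pos (hBp _) (hep _)).le
  refine ⟨F, hFJ, hFne, hFz, ?_, ?_, ?_, ?_, ?_, ?_⟩
  · intro y hy y' hy' s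
    refine (hFn y hy y' hy' s).trans ?_
    exact mul_le_mul_of_nonneg_right (hmono (by linarith)) (mul_pos (hBp _) (hep _)).le
  · intro y hy
    refine le_trans ?_ (low_aux (p := u) he he1 hTo ow1 hεg (hF1 y hy))
    exact mul_le_mul_of_nonneg_left (hmono (by linarith)) hTo.le
  · intro y hy
    refine le_trans ?_ (low_aux (p := zl') he he1 hTo ow2 hεg (hF2 y hy))
    rw [div_eq_mul_inv]
    calc To n * B'.d n ^ (-(1 - u)) *
          ((2 : ℝ) ^ (nM (B'.d n) (v - u - δ) + 1 - nK η (nM (B'.d n) (v - u - δ))))⁻¹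
        ≤ To n * B'.d n ^ (-(1 - u)) * (2 * B'.d n ^ ((v - u - δ) * (1 - 3 / 4 * η))) :=
          mul_le_mul_of_nonneg_left f13 (mul_pos hTo (hep _)).le
      _ ≤ To n * B'.d n ^ (-(1 - u)) *
          (B'.d n ^ (-(g / 4)) * B'.d n ^ ((v - u - δ) * (1 - 3 / 4 * η))) := by
          refine mul_le_mul_of_nonneg_left ?_ (mul_pos hTo (hep _)).le
          exact mul_le_mul_of_nonneg_right c5 (hep _).le
      _ = To n * B'.d n ^ (-(1 - zl') - 3 / 4 * g) := by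
          rw [mul_assoc, ← Real.rpow_add he, ← Real.rpow_add he]
          congr 2
          rw [hzl, ha, hδ, hg]; ring
  · intro y hy
    have h1 := o3 y (hFJ hy) (F.filter fun y' => y'.1 = y.1 ∧
      zc (lvl (sdn' c T1 ξ w n 0 * B'.d n ^ u) + nM (B'.d n) (v - u - δ) + 1) y'.2 =
        zc (lvl (sdn' c T1 ξ w n 0 * B'.d n ^ u) + nM (B'.d n) (v - u - δ) + 1) y.2)
      ((filter_subset _ _).trans hFJ) (ownb (v - δ) _ δ3 hε3 c3 ?_ y hy)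
    · refine up_aux (p := v - δ) he he1 hTo up3 h1 (by positivity) ?_ c2
      rw [pow_succ, mul_comm]
      refine mul_le_mul_of_nonneg_left ?_ (by norm_num)
      rwa [show v - δ - u = v - u - δ by ring]
    · have e1 : rho (lvl (sdn' c T1 ξ w n 0 * B'.d n ^ u) + nM (B'.d n) (v - u - δ) + 1) =
          rho (lvl (sdn' c T1 ξ w n 0 * B'.d n ^ u)) *
            ((2 : ℝ) ^ (nM (B'.d n) (v - u - δ) + 1))⁻¹ := by
        unfold rho
        rw [add_assoc, pow_add]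
        field_simp
      have e2 : ((2 : ℝ) ^ (nM (B'.d n) (v - u - δ) + 1))⁻¹ ≤ B'.d n ^ (v - u - δ) := by
        rw [Real.rpow_neg he.le] at f6
        exact inv_le_of_inv_le₀ (hep _) f6
      rw [e1]
      calc rho (lvl (sdn' c T1 ξ w n 0 * B'.d n ^ u)) *
            ((2 : ℝ) ^ (nM (B'.d n) (v - u - δ) + 1))⁻¹
          ≤ 2 * (sdn' c T1 ξ w n 0 * B'.d n ^ u) * B'.d n ^ (v - u - δ) :=
            mul_le_mul f2 e2 (by positivity)
              (mul_pos two_pos (mul_pos hsn.1 (hep _))).le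
        _ = 2 * (sdn' c T1 ξ w n 0 * (B'.d n ^ u * B'.d n ^ (v - u - δ))) := by ring
        _ = _ := by
          rw [← Real.rpow_add he]
          congr 3; ring
  · intro y hy
    have h1 := o4 y (hFJ hy) (F.filter fun y' => y'.1 = y.1 ∧
      zc (lvl (sdn' c T1 ξ w n 0 * B'.d n ^ v)) y'.2 =
        zc (lvl (sdn' c T1 ξ w n 0 * B'.d n ^ v)) y.2)
      ((filter_subset _ _).trans hFJ) (ownb v _ δ4 hε4 c4 f4 y hy)
    refine up_aux (p := v) he he1 hTo up4 h1 (by positivity) ?_ c2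
    -- `2^(j-i) = rho i / rho j`
    have hij : lvl (sdn' c T1 ξ w n 0 * B'.d n ^ u) ≤ lvl (sdn' c T1 ξ w n 0 * B'.d n ^ v) := by
      omega
    have e1 : (2 : ℝ) ^ (lvl (sdn' c T1 ξ w n 0 * B'.d n ^ v) -
        lvl (sdn' c T1 ξ w n 0 * B'.d n ^ u)) *
        rho (lvl (sdn' c T1 ξ w n 0 * B'.d n ^ v)) = rho (lvl (sdn' c T1 ξ w n 0 * B'.d n ^ u)) := by
      unfold rho
      rw [pow_sub₀ _ two_ne_zero hij]
      field_simp
    have hP0 : (0 : ℝ) < 2 ^ (lvl (sdn' c T1 ξ w n 0 * B'.d n ^ v) -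
      lvl (sdn' c T1 ξ w n 0 * B'.d n ^ u)) := by positivity
    have e2 : (2 : ℝ) ^ (lvl (sdn' c T1 ξ w n 0 * B'.d n ^ v) -
        lvl (sdn' c T1 ξ w n 0 * B'.d n ^ u)) * (sdn' c T1 ξ w n 0 * B'.d n ^ v) ≤
        2 * (sdn' c T1 ξ w n 0 * B'.d n ^ u) :=
      (mul_le_mul_of_nonneg_left f3 hP0.le).trans (e1.le.trans f2)
    have e3 : B'.d n ^ u = B'.d n ^ (-(v - u)) * B'.d n ^ v := by
      rw [← Real.rpow_add he]; congr 1; ring
    have hlv : 0 < sdn' c T1 ξ w n 0 * B'.d n ^ v := mul_pos hsn.1 (hep _)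
    refine le_of_mul_le_mul_right (e2.trans (le_of_eq ?_)) hlv
    calc 2 * (sdn' c T1 ξ w n 0 * B'.d n ^ u)
        = 2 * (sdn' c T1 ξ w n 0 * (B'.d n ^ (-(v - u)) * B'.d n ^ v)) :=
          congrArg (fun z => 2 * (sdn' c T1 ξ w n 0 * z)) e3
      _ = 2 * B'.d n ^ (-(v - u)) * (sdn' c T1 ξ w n 0 * B'.d n ^ v) := by ring
  · intro y hy
    refine le_trans ?_ ((hF3 y hy).trans ?_)
    · exact mul_le_mul_of_nonneg_left (hmono (by linarith)) hTn.le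
    · refine Nat.cast_le.2 (card_le_card fun y' hy' => ?_)
      rw [mem_filter] at hy' ⊢
      refine ⟨hy'.1, hy'.2.1, fun s => (hy'.2.2 s).trans ?_⟩
      exact mul_le_mul_of_nonneg_right (hmono (by linarith)) (mul_pos (hBp _) (hep _)).le

open Classical in
/-- **(X)** the container of the record -/
theorem cont_nat {η₀ : ℝ} {c : LCtx} (ok : c.Ok η₀) {B' : Base} {J : ℕ → Finset (ℕ × ℝ)}
    {ξ w : ℕ → ℝ} {lam lo : (Fin 11 → ℝ) → ℝ} {Cl E : ℕ → Finset (ℕ × ℝ)} {s₀ : ℕ → ℕ × ℝ}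
    {h : ℕ → Fin 6 → ℝ} {ηg : ℕ → ℝ} {J' : ℕ → Finset (ℕ × ℝ)} {To : ℕ → ℝ}
    {ν' own' : (Fin 11 → ℝ) → ℝ}
    (G : GZ c (T1z (c.p.θ 1)) (xz (c.p.θ 1)) (Rz (c.p.θ 1)) B' J ξ w lam lo Cl E s₀ h ηg J' To ν'
      own')
    (hZ : 1 ≤ c.p.θ 1 ∨ Zer (c.p.θ 1) (T1z (c.p.θ 1)) (xz (c.p.θ 1)) (Rz (c.p.θ 1)) own')
    {η : ℝ} (hη0 : 0 < η) (hη1 : η ≤ 1 / 4) {M₁ : ℕ} (hM₁ : 4 ≤ η * M₁)
    {δ' κ' : ℝ} (hδ0 : 0 < δ') (hδ1 : δ' ≤ 1 / 2) (hκ0 : 0 < κ') (hκ1 : κ' ≤ η) :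
    ∃ u v : ℝ, 0 < u ∧ u < v ∧ v < 1 ∧ v - u ≤ 1 / 2 ∧ ∀ εc : ℝ, 0 < εc → ∀ ε1 : ℝ, 0 < ε1 →
      ∀ᶠ n in (U : Filter ℕ), ∀ i l j M k : ℕ,
        i = lvl (sdn' c (T1z (c.p.θ 1)) ξ w n 0 * B'.d n ^ u) →
        j = lvl (sdn' c (T1z (c.p.θ 1)) ξ w n 0 * B'.d n ^ v) →
        M = nM (B'.d n) (v - u - δ' * (v - u)) → k = nK η M → l = i + M + 1 - k →
        ∃ F ⊆ J' n, F.Nonempty ∧ (∀ x ∈ F, ∀ y ∈ F, zc i x.2 = zc i y.2) ∧
          (∀ x ∈ F, ∀ y ∈ F, ∀ s, |coG c.F h n x y s| ≤ B'.d n ^ (-εc) *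
            (c.D.B.d n ^ XG (c.XB (T1z (c.p.θ 1)) ξ w) n s *
              B'.d n ^ kbm u v (T1z (c.p.θ 1) - c.p.θ 1 * v) s)) ∧
          (∀ x ∈ F, To n * B'.d n ^ (-(1 - u)) ≤ B'.d n ^ (-(κ' * (v - u))) *
            ((F.filter fun y => y.1 = x.1 ∧ zc i y.2 = zc i x.2).card : ℝ)) ∧
          (∀ x ∈ F, To n * B'.d n ^ (-(1 - u)) / 2 ^ (M + 1 - k) ≤ B'.d n ^ (-(κ' * (v - u))) *
            ((F.filter fun y => y.1 = x.1 ∧ zc l y.2 = zc l x.2).card : ℝ)) ∧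
          (∀ x ∈ F, ((F.filter fun y => y.1 = x.1 ∧ zc (i + M + 1) y.2 =
            zc (i + M + 1) x.2).card : ℝ) ≤ B'.d n ^ (-(κ' * (v - u))) *
              (To n * B'.d n ^ (-(1 - u)) / 2 ^ (M + 1))) ∧
          (∀ x ∈ F, ((F.filter fun y => y.1 = x.1 ∧ zc j y.2 = zc j x.2).card : ℝ) ≤
            B'.d n ^ (-(κ' * (v - u))) * (To n * B'.d n ^ (-(1 - u)) / 2 ^ (j - i))) ∧
          (∀ x ∈ F, c.TB (T1z (c.p.θ 1)) B' ξ lam n *
              B'.d n ^ (-(ν' (rz (c.p.θ 1) (T1z (c.p.θ 1)) (xz (c.p.θ 1)) v)) + ε1) ≤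
            ((F.filter fun y => zc j y.2 = zc j x.2 ∧ ∀ s, |coG c.F h n x y s| ≤
              B'.d n ^ (-εc) * (c.D.B.d n ^ XG (c.XB (T1z (c.p.θ 1)) ξ w) n s *
                B'.d n ^ rz (c.p.θ 1) (T1z (c.p.θ 1)) (xz (c.p.θ 1)) v s)).card : ℝ)) := by
  refine cont_gen G.ext hZ ok.th.tp.ok.θ1 (one_le_T1z _) (le_T1z _) rfl rfl ?_ hη0 hη1 hM₁ hδ0
    hδ1 hκ0 hκ1
  obtain ⟨ξ₀, h0, h1, hξ⟩ := Wid638.ξ_near G.gw.rw
  filter_upwards [Wid638.sides ok G.gw.rw (T1z (c.p.θ 1)), hξ ξ₀ h0] with n ⟨s0, _⟩ a1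
  rw [sdn'_eq, s0]
  have hρ := Wid638.rho_pos' (c.D.lev n 0)
  have hd : 0 < c.D.B.d n ^ ξ n := Real.rpow_pos_of_pos (c.D.B.pos n) _
  have hξ0 : 0 ≤ ξ n := by
    have := (abs_le.1 a1).1
    linarith
  have hd1 : c.D.B.d n ^ ξ n ≤ 1 := Real.rpow_le_one (c.D.B.pos n).le (c.D.B.lt n).le hξ0
  have hρ1 : rho (c.D.lev n 0) ≤ 1 := by
    unfold rho
    rw [div_le_one (by positivity)]
    exact one_le_pow₀ (by norm_num)
  refine ⟨mul_pos hρ hd, ?_⟩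
  calc rho (c.D.lev n 0) * c.D.B.d n ^ ξ n ≤ 1 * 1 := mul_le_mul hρ1 hd1 hd.le zero_le_one
    _ = 1 := one_mul 1

end Crest.Agent.R136.End882
end

-- ▼ part R136/End18_882
section

/-!
# R136 (S0187): END, part 18 (helper882): the seam END of the lightlike case

`seamEnd_of` : `SeamEnd` from D-max at all natural levels (class `ClW`, losses) and the range of the
widths.
-/

set_option autoImplicit false
set_option linter.unusedVariables false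

open Finset Filter Topology

namespace Crest.Agent.R136.End882

open Crest.Agent.R138.Ex926
open Crest.Agent.R136.Net191
open Crest.Agent.R136.NetQ186
open Crest.Agent.R136.GeoQ186
open Crest.Agent.R136.Gz779
open Crest.Agent.R136.Qg926
open Crest.Agent.R136.Wq638
open Crest.Agent.R136.TL196
open Crest.Agent.R136.NatT550
open Crest.Agent.R138.Mk163 (zc zl rho alive own)

/-- the record box is smaller than the box of the wide angle -/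
theorem kbm_le_rz {θ T1 x v : ℝ} (h1 : 2 * (T1 - θ * v) ≤ x) (h3 : v ≤ x) (k : Fin 11) :
    kbm v v (T1 - θ * v) k ≤ rz θ T1 x v k := by
  have q0 : v ≤ v := le_rfl
  have q1 : 2 * (T1 - θ * v) + v - v ≤ x := by linarith
  have q2 : T1 - θ * v ≤ T1 - θ * v := le_rfl
  have q4 : T1 - θ * v + v ≤ T1 + (1 - θ) * v := by linarith
  have q6 : 2 * (T1 - θ * v) ≤ 2 * (T1 - θ * v) := le_rfl
  have q7 : 2 * (T1 - θ * v) + v ≤ 2 * T1 + (1 - 2 * θ) * v := by linarith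
  have q8 : T1 - θ * v + v ≤ T1 + (1 - θ) * v := by linarith
  have q9 : 2 * (T1 - θ * v) + v ≤ 2 * T1 + (1 - 2 * θ) * v := by linarith
  have q10 : 2 * (T1 - θ * v) + v + v ≤ 2 * T1 + 2 * (1 - θ) * v := by linarith
  unfold kbm rz
  fin_cases k
  · exact q0
  · exact q1
  · exact q2
  · exact h3
  · exact q4
  · exact q2
  · exact q6
  · exact q7
  · exact q8
  · exact q9
  · exact q10

theorem units_pos {η₀ : ℝ} {c : LCtx} (ok : c.Ok η₀) : ∀ᶠ n in (U : Filter ℕ),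
    0 < uH c.D.B c.D.lev c.w0 n ∧ 0 < uA c.D.B c.D.lev c.D.w c.w0 n ∧
      0 < uB c.D.B c.D.lev c.D.w c.w0 n ∧ 0 < uY c.D.B c.D.lev c.D.w c.w0 n := by
  filter_upwards [Wid638.ord0 ok] with n ⟨P0, P1, P2, _⟩
  have hd : ∀ s : ℝ, 0 < c.D.B.d n ^ s := fun s => Real.rpow_pos_of_pos (c.D.B.pos n) s
  have hr := HR829.rho_pos (c.D.lev n 0)
  unfold uH uA uB uY
  exact ⟨mul_pos (hd _) (pow_pos two_pos _), mul_pos (div_pos P1 hr) (hd _),
    mul_pos (div_pos P2 hr) (hd _), mul_pos (div_pos P0 hr) (hd _)⟩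

open Classical in
set_option maxHeartbeats 4000000 in
/-- **the seam END** -/
theorem seamEnd_of {η₀ : ℝ} {c : LCtx} (ok : c.Ok η₀) {wl wh : ℕ → Fin 3 → ℝ}
    (hD : ∀ δ0 : ℝ, 0 < δ0 → ∃ H : ℕ → ℝ, c.D.B.Sub H ∧ ∀ᶠ n in (U : Filter ℕ), ∀ m : ℕ,
      c.D.lev n 0 ≤ m → m ≤ c.D.lev n 1 → ∀ cl : ℤ,
        DMaxK (alive (c.D.I n) m cl) (fun t => cLn c.π (c.D.L n t)) (zl m cl) (rho m)
          (H n * (c.D.A n * (rho (c.D.lev n 0) / rho m) ^ c.p.g)) (Rq c.p.q m) (c.D.r0 n)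
          (ClW (c.D.B.d n ^ δ0 * rho m) (wl n) (wh n)))
    (hR : ∀ C : ℝ, ∀ᶠ n in (U : Filter ℕ), ∀ k : Fin 3, wl n k ≤ c.D.B.d n ^ C * c.D.w k n 0 ∧
      c.D.w k n 0 ≤ c.D.B.d n ^ C * wh n k) :
    ∃ H : ℕ → ℕ → ℝ, (∀ i, c.D.B.Sub (H i)) ∧
      ∀ (B' : Base) (J : ℕ → Finset (ℕ × ℝ)) (ξ w : ℕ → ℝ) (lam lo : (Fin 11 → ℝ) → ℝ)
        (Cl E : ℕ → Finset (ℕ × ℝ)) (s₀ : ℕ → ℕ × ℝ) (h : ℕ → Fin 6 → ℝ) (ηg : ℕ → ℝ)
        (J' : ℕ → Finset (ℕ × ℝ)) (To : ℕ → ℝ) (ν' own' : (Fin 11 → ℝ) → ℝ),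
        GZ c (T1z (c.p.θ 1)) (xz (c.p.θ 1)) (Rz (c.p.θ 1)) B' J ξ w lam lo Cl E s₀ h ηg J' To ν'
          own' → (∀ i, B'.Sub (H i)) → (1 ≤ c.p.θ 1 ∨
            Zer (c.p.θ 1) (T1z (c.p.θ 1)) (xz (c.p.θ 1)) (Rz (c.p.θ 1)) own') → False := by
  have pok := ok.th.tp.ok
  have mka := ok.th.tp.pre.mka
  have hq : ∀ j, 0 ≤ c.p.q j := by
    intro j
    fin_cases j
    · exact pok.q0.1
    · exact pok.g0.2.le
    · exact pok.q2.1.le
  obtain ⟨η, κ, M₀, hη0, hη1, hκ, key⟩ := end_key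
    (fun V => Crest.Agent.R138.KMs630.km32 V) pok.g0.1 hq
  obtain ⟨K, hK1, hK2, hK3⟩ := ok.th.comb
  obtain ⟨Hf, hHf, hfin⟩ := fin_nat ok hK1
  obtain ⟨Hr, hHr, hHr1, hres⟩ := Wid638.res_le ok
  choose HD hHD hDm using fun i : ℕ => hD (1 / ((i : ℝ) + 1)) (by positivity)
  refine ⟨fun i => match i with
    | 0 => Hf
    | 1 => Hr
    | (i + 2) => HD i, fun i => ?_, ?_⟩
  · match i with
    | 0 => exact hHf
    | 1 => exact hHr
    | (i + 2) => exact hHD i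
  intro B' J ξ w lam lo Cl E s₀ h ηg J' To ν' own' G hS hZ
  have sf : B'.Sub Hf := hS 0
  have sr : B'.Sub Hr := hS 1
  have sD : ∀ i, B'.Sub (HD i) := fun i => hS (i + 2)
  have rw' := G.gw.rw
  set θ : ℝ := c.p.θ 1 with hθ
  have hθ0 : 0 < θ := pok.θ1
  set T1 : ℝ := T1z θ with hT1
  have hT1θ : θ ≤ T1 := le_T1z θ
  have hT1one : 1 ≤ T1 := one_le_T1z θ
  have hxz : xz θ = 2 * T1 + 3 := rfl
  -- parameters
  set κ' : ℝ := min η (κ / 4) with hκ'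
  have hκ'0 : 0 < κ' := lt_min hη0 (by positivity)
  have hκ'1 : κ' ≤ η := min_le_left _ _
  have hκ'2 : κ' ≤ κ / 4 := min_le_right _ _
  set δ' : ℝ := κ' / (4 * (|3 - c.p.g| + 1)) with hδ'
  have hg0 := abs_nonneg (3 - c.p.g)
  have hδ'0 : 0 < δ' := by positivity
  have hδ'κ : (|3 - c.p.g| + 1) * δ' = κ' / 4 := by rw [hδ']; field_simp
  have hδ'1 : δ' ≤ κ' / 4 := by nlinarith
  have hδ'2 : |3 - c.p.g| * δ' ≤ κ' / 4 := by nlinarith
  set M₁ : ℕ := max M₀ (Nat.ceil (4 / η)) with hM₁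
  have hM₀₁ : M₀ ≤ M₁ := le_max_left _ _
  have hM₁4 : 4 ≤ η * M₁ := by
    have h1 : 4 / η ≤ (Nat.ceil (4 / η) : ℝ) := Nat.le_ceil _
    have h2 : (Nat.ceil (4 / η) : ℝ) ≤ M₁ := by exact_mod_cast le_max_right _ _
    have h3 := h1.trans h2
    rw [div_le_iff₀ hη0] at h3
    linarith
  obtain ⟨u, v, hu, huv, hv1, hr1, hcont⟩ := cont_nat ok G hZ hη0 hη1 hM₁4 hδ'0
    (by linarith : δ' ≤ 1 / 2) hκ'0 hκ'1
  set r : ℝ := v - u with hr
  have hr0 : 0 < r := by rw [hr]; linarith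
  have hv0 : 0 < v := hu.trans huv
  set δ : ℝ := δ' * r with hδ
  set κ₂ : ℝ := κ' * r with hκ₂
  set εp : ℝ := δ' * r / 4 with hεp
  set εc : ℝ := δ' * r / 8 with hεc
  set ε1 : ℝ := κ' * r / 4 with hε1
  have hδ0 : 0 < δ := mul_pos hδ'0 hr0
  have hκ₂0 : 0 < κ₂ := mul_pos hκ'0 hr0
  have hεp0 : 0 < εp := by rw [hεp]; positivity
  have hεc0 : 0 < εc := by rw [hεc]; positivity
  have hε10 : 0 < ε1 := by rw [hε1]; positivity
  have hδr : δ < r := by rw [hδ]; nlinarith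
  have hκ₂1 : κ₂ ≤ 1 := by rw [hκ₂]; nlinarith
  have hεκ : εp ≤ κ₂ := by rw [hεp, hκ₂]; nlinarith
  have hE4 : κ₂ < κ * (v - u - δ) := by
    rw [← hr, hκ₂, hδ]
    have h1 : κ' * r ≤ κ / 4 * r := mul_le_mul_of_nonneg_right hκ'2 hr0.le
    have h2 : κ * (r - δ' * r) = κ * r * (1 - δ') := by ring
    have h3 : 0 < κ * r := mul_pos hκ hr0
    rw [h2]
    nlinarith
  set t : ℝ := T1 - θ * v with ht
  have ht0 : 0 ≤ t := by rw [ht]; nlinarith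
  have hfinc : |3 - c.p.g| * δ + ε1 < κ₂ := by
    have h1 : |3 - c.p.g| * δ = (|3 - c.p.g| * δ') * r := by rw [hδ]; ring
    have h2 : (|3 - c.p.g| * δ') * r ≤ κ' / 4 * r := mul_le_mul_of_nonneg_right hδ'2 hr0.le
    rw [h1, hε1, hκ₂]
    have : 0 < κ' * r := mul_pos hκ'0 hr0
    linarith
  -- the long side
  obtain ⟨δ0, hδ00, hga⟩ := Wid638.gap_a ok rw' T1
  obtain ⟨N, hN⟩ : ∃ N : ℕ, 1 / ((N : ℝ) + 1) ≤ δ0 := by
    obtain ⟨N, hN⟩ := exists_nat_one_div_lt hδ00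
    exact ⟨N, hN.le⟩
  have hev : ∀ᶠ n in (U : Filter ℕ), False := by
    filter_upwards [e_conds B' (M₁ := M₁) (u := u) (v := v) hκ₂0 hδ0 hδr
        (by rw [hεp, hεc]; nlinarith : εc < εp) (by rw [hεp, hδ]; nlinarith : 2 * εp < δ) hE4,
      Wid638.tight ok rw' T1, Wid638.sides ok rw' T1, Wid638.sdn_pos ok rw' T1,
      Wid638.gap_N ok rw' T1 (t + 4), Wid638.gap_b ok rw' T1 (t + 4), hga 3, hres B' J ξ w lam lo rw',
      Wid638.lev_mem ok rw' T1, units_pos ok, hcont εc hεc0 ε1 hε10,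
      hfin B' J ξ w lam lo Cl E s₀ h ηg J' To ν' own' G sf u v δ κ₂ ε1 t hu huv hv1 hδ0 hδr hε10
        hfinc ht,
      hK1 1 one_pos, hK2, mka.one, hDm N, sub_rpow (sD N) hκ₂0, sub_rpow sr hδ0,
      rng_win ok rw' T1 (2 * t + 2) hR, rng_win ok rw' T1 3 hR, G.sub, G.gw.esub,
      G.gw.cls.csub, G.gw.cls.sub, rw'.Jsub, Crest.Agent.R136.NbC196.nb_closeL ok G.gw
        (fun k => 2 + kbm u v t k), G.gw.gau.tau, G.gw.gau.b2 1 one_pos, G.gw.gau.b3 1 one_pos,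
      G.gw.gau.bη 1 one_pos, rw'.lev_in] with
      n ⟨E0, E2, E3, E4, E5, E8, E9, E16⟩ htq ⟨s0, s8, s9, s10⟩ ⟨p0, p8, p9, p10⟩ hgN hgb hga3
        hresn hlev ⟨uH0, uA0, uB0, uY0⟩ hcn hfn hKn hcombn hone hDmn hHDn hHrn hlo hhi hsub hEs
        hCs hJI hJs hnbn htau hb2 hb3 hbη hξ
    have hd := c.D.B.pos n
    have hd1 := (c.D.B.lt n).le
    have he := B'.pos n
    have he1 := B'.lt n
    have hep : ∀ s : ℝ, 0 < B'.d n ^ s := fun s => Real.rpow_pos_of_pos he s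
    have hdp : ∀ s : ℝ, 0 < c.D.B.d n ^ s := fun s => Real.rpow_pos_of_pos hd s
    obtain ⟨F, hFJ, ⟨i0, hi0⟩, k1, k2, k3, k4, k5, k6, k7⟩ := hcn _ _ _ _ _ rfl rfl rfl rfl rfl
    have hFE : F ⊆ E n := hFJ.trans hsub.1
    have hFJ2 : F ⊆ J n := hFE.trans (hEs.trans hCs)
    have hFI : F ⊆ c.D.I n := hFJ2.trans hJI
    have hlam0 : 0 < sdn' c T1 ξ w n 0 := p0
    have hlam1 : sdn' c T1 ξ w n 0 ≤ 1 := by
      rw [sdn'_eq, s0]
      have h1 : rho (c.D.lev n 0) ≤ 1 := by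
        unfold rho
        rw [div_le_one (pow_pos two_pos _)]
        exact one_le_pow₀ one_le_two
      have h2 : c.D.B.d n ^ ξ n ≤ 1 := Real.rpow_le_one hd.le hd1 hξ.1.le
      exact mul_le_one₀ h1 (hdp _).le h2
    obtain ⟨f1, f2, f3, f4, f5, f6, f7, f8, f9, f10, f11, f12, f13⟩ := lev_facts hη0 hη1 hM₁4 he he1
      hlam0 hlam1 hu huv hδ0 hδr E3 E8 E9
    have hm0 := (hlev u hu.le (huv.trans hv1).le _ f1 f2).1
    have hm1 := (hlev v hv0.le hv1.le _ f3 f4).2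
    -- closeness in real units
    have hreal : ∀ (q : Fin 11 → ℝ) (C : ℝ) (x y : ℕ × ℝ) (k : Fin 11),
        |coG c.F h n x y k| ≤ C * (c.D.B.d n ^ XG (c.XB T1 ξ w) n k * B'.d n ^ q k) →
        |coQ (rg (gR (uH c.D.B c.D.lev c.w0 n) (uA c.D.B c.D.lev c.D.w c.w0 n)
            (uB c.D.B c.D.lev c.D.w c.w0 n) (uY c.D.B c.D.lev c.D.w c.w0 n) (h n))
            (incQ c.π c.D.L c.eE c.fA c.fB n x))
          (rg (gR (uH c.D.B c.D.lev c.w0 n) (uA c.D.B c.D.lev c.D.w c.w0 n)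
            (uB c.D.B c.D.lev c.D.w c.w0 n) (uY c.D.B c.D.lev c.D.w c.w0 n) (h n))
            (incQ c.π c.D.L c.eE c.fA c.fB n y)) k| ≤
          C * (sdn' c T1 ξ w n k * B'.d n ^ q k) := fun q C x y k hc =>
      co_real uH0 uA0 uB0 uY0 hc
    have hbox : ∀ (u' v' : ℝ) (k : Fin 11),
        sbox (sdn' c T1 ξ w n 0 * B'.d n ^ u') (sdn' c T1 ξ w n 8 * B'.d n ^ (t + u'))
          (sdn' c T1 ξ w n 9 * B'.d n ^ (2 * t + u'))
          (sdn' c T1 ξ w n 10 * B'.d n ^ (2 * t + u' + v')) k =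
        sdn' c T1 ξ w n k * B'.d n ^ kbm u' v' t k := fun u' v' k =>
      sbox_win hd he htq uH0 uA0 uB0 uY0 u' v' t k
    have hsn : ∀ k, 0 < sdn' c T1 ξ w n k := fun k =>
      div_pos (hdp _) (sfac_pos uH0 uA0 uB0 uY0 k)
    obtain ⟨g1, -, -⟩ := gau_real hd htq uH0 uA0 uB0 uY0 (h n)
      (incQ c.π c.D.L c.eE c.fA c.fB n i0) (B'.d n ^ (xz θ - 1))
    obtain ⟨-, g2, g3⟩ := gau_real hd htq uH0 uA0 uB0 uY0 (h n)
      (incQ c.π c.D.L c.eE c.fA c.fB n i0) (B'.d n ^ (-1 : ℝ))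
    have hLL := Wid638.LL_of ok
    refine win_end (x := xz θ) (lam := sdn' c T1 ξ w n 0) (W1 := sdn' c T1 ξ w n 8)
      (W2 := sdn' c T1 ξ w n 9) (Th := sdn' c T1 ξ w n 10) (t := t) key hη0 hη1 hM₁4 hM₀₁ hκ.le hu huv hv1 hδ0 hδr ht0
      (by rw [hxz]; linarith only [hT1one] : 0 ≤ xz θ) hεc0 hεp0 hεκ hκ₂1 he E0 E2 E3 E4 E5 E8 E9 E16
      hlam0 hlam1 p8 p9 p10 hgN hgb
      (L := fun m => cLn c.π (c.D.L n m)) (inc := incQ c.π c.D.L c.eE c.fA c.fB n)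
      (gg := gR (uH c.D.B c.D.lev c.w0 n) (uA c.D.B c.D.lev c.D.w c.w0 n)
        (uB c.D.B c.D.lev c.D.w c.w0 n) (uY c.D.B c.D.lev c.D.w c.w0 n) (h n)) hFI hi0
      (fun x hx => ⟨trueLn_mkT _ _ _ _ _, rfl, (ok.th.tp.flag n x hx).1,
        (ok.th.tp.flag n x hx).2.1, (ok.th.tp.flag n x hx).2.2⟩) ?_ ?_ (g1 ?_) (g2 hb2) (g3 hb3)
      rfl rfl rfl rfl k1 ?_ (mul_pos (G.ext.oprof.pos n) (hep _)) k3 k4 k5 k6 hone hm0 ?_
      (Nat.cast_pos.2 hKn.1)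
      (nb := fun x y => nlab c.D.B c.D.I (coF c.F) monQ 2 n (fun _ => c.R) y =
        nlab c.D.B c.D.I (coF c.F) monQ 2 n (fun _ => c.R) x ∧
          zc (c.D.lev n 1) y.2 = zc (c.D.lev n 1) x.2) ?_ ?_ (mka.Apos n) hHDn.2
      (hdp (1 / ((N : ℝ) + 1))) (fun m h0 h1 cl => hDmn m h0 h1 cl) (fun k => (hlo k).1)
      (fun k => (hhi k).2) ?_ ?_ ?_ (hfn _ _ _ _ _ _ _ _ _ _ rfl rfl rfl rfl rfl rfl rfl rfl rfl rfl)
    · change h n 4 * _ = 0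
      rw [G.gw.gau.h4 n, zero_mul]
    · change h n 5 * _ = 0
      rw [G.gw.gau.h5 n, zero_mul]
    · exact (mul_le_mul_of_nonneg_right (htau i0 (hFE hi0)) (hdp _).le).trans hbη
    · intro x hx y hy s
      rw [hbox]
      exact hreal _ _ x y s (k2 x hx y hy s)
    · exact (Nat.sub_le _ _).trans (f11.trans hm1)
    · intro P hP P' hP' hc
      have h1 := hcombn P (hP.trans (hFJ2.trans hJs)) P' hP'
        (fun i hi j hj h1 h2 => hc i hi j hj ⟨h1, h2⟩)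
      exact_mod_cast h1
    · intro x hx y hy hxy
      refine ⟨hxy.2, fun s => ?_⟩
      have h1 := hreal (fun k => 2 + kbm u v t k) 1 x y s (by
        rw [one_mul]
        exact hnbn x (hFE hx) y hy hxy.1 s)
      rw [hbox]
      refine h1.trans (le_of_eq ?_)
      rw [one_mul, Real.rpow_add he]
      ring
    · -- the long side
      have h1 : c.D.B.d n ^ δ0 ≤ c.D.B.d n ^ (1 / ((N : ℝ) + 1)) :=
        Real.rpow_le_rpow_of_exponent_ge hd hd1 hN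
      calc sdn' c T1 ξ w n 8 ≤ B'.d n ^ (3 : ℝ) * c.D.B.d n ^ δ0 * sdn' c T1 ξ w n 0 := hga3
        _ ≤ B'.d n ^ (3 : ℝ) * c.D.B.d n ^ (1 / ((N : ℝ) + 1)) * sdn' c T1 ξ w n 0 :=
          mul_le_mul_of_nonneg_right (mul_le_mul_of_nonneg_left h1 (hep _).le) hlam0.le
        _ = _ := by ring
    · -- resolution
      have h1 := hresn v hv0.le hv1.le
      have h0 : 0 < c.D.w 0 n 0 * c.D.B.d n ^ ((1 - c.p.θ 0) * ξ n) := by
        have h2 := p10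
        rw [s10] at h2
        exact pos_of_mul_pos_left h2 (hep _).le
      have e1 : B'.d n ^ (-2 * T1) * B'.d n ^ (2 * t + 2 * v - δ) =
          B'.d n ^ (-δ) * B'.d n ^ ((1 - c.p.θ 0) * v) := by
        rw [← Real.rpow_add he, ← Real.rpow_add he]
        congr 1
        have h5 : c.p.θ 0 = 2 * θ - 1 := by linarith only [hLL.1, hLL.2]
        rw [h5, ht]
        ring
      calc c.D.r0 n ≤ Hr n * (c.D.w 0 n 0 * c.D.B.d n ^ ((1 - c.p.θ 0) * ξ n) *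
            B'.d n ^ ((1 - c.p.θ 0) * v)) := h1
        _ ≤ B'.d n ^ (-δ) * (c.D.w 0 n 0 * c.D.B.d n ^ ((1 - c.p.θ 0) * ξ n) *
            B'.d n ^ ((1 - c.p.θ 0) * v)) :=
          mul_le_mul_of_nonneg_right hHrn.2 (mul_pos h0 (hep _)).le
        _ = c.D.w 0 n 0 * c.D.B.d n ^ ((1 - c.p.θ 0) * ξ n) * (B'.d n ^ (-δ) *
            B'.d n ^ ((1 - c.p.θ 0) * v)) := by ring
        _ = _ := by
          rw [← e1, sdn'_eq, s10]
          ring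
    · intro x hx
      refine (k7 x hx).trans (Nat.cast_le.2 (card_le_card fun y hy => ?_))
      rw [mem_filter] at hy ⊢
      refine ⟨hy.1, hy.2.1, fun s => ?_⟩
      rw [hbox]
      refine (hreal _ _ x y s (hy.2.2 s)).trans ?_
      refine mul_le_mul_of_nonneg_left (mul_le_mul_of_nonneg_left ?_ (hsn s).le) (hep _).le
      exact Real.rpow_le_rpow_of_exponent_ge he he1.le (kbm_le_rz
        (by rw [hxz]; linarith only [hT1one, mul_pos hθ0 hv0]) (by rw [hxz]; linarith only [hT1one, hv1]) s)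
  obtain ⟨n, hn⟩ := hev.exists
  exact hn

end Crest.Agent.R136.End882
end

-- ▼ part R136/DmN_829
section

/-!
# R136 (helper829): D-max of lines at every natural level

* `own_m` : own counts (incidences per line) over the cells of every natural level `m`,
  `lev n 0 ≤ m ≤ lev n 1`;
* `dmax_nat` : D-max of LINES at every natural level, one loss sequence, permuted coordinates
  (`DMaxK` of 882; class of the sheets `0 < a`, `w 1 ≤ d^δ0 rho m`).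
-/

set_option autoImplicit false
set_option linter.unusedVariables false
set_option linter.unusedSectionVars false

open Finset Filter Topology

namespace Crest.Agent.R136.DmN829

open Crest.Agent.R138.Ex926 (Base U)
open Crest.Agent.R138.Mk163 (zc zl rho alive)
open Crest.Agent.R138.MkRef627 (lc kc mem_alive)
open Crest.Agent.R138
open Crest.Agent.R136.MkA627
open Crest.Agent.R136.Sh605
open Crest.Agent.R136.K4
open Crest.Agent.R136.Top484 (geo4)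
open Crest.Agent.R136.PqG464 (pow_lev ev_const)
open Crest.Agent.R136.GeoQ186
open Crest.Agent.R136.Dmx779 (exists_net rho_div rho_pos shN_perm count_m)
open Crest.Agent.R136.End882 (DMaxK Rq)

section own

variable {σ κ : Type*} {B : Base} {I : ℕ → Finset (ℕ × ℝ)} {G : Geo σ κ} {lev : ℕ → ℚ → ℕ}
    {A : ℕ → ℝ} {g s : ℝ} {τ : κ → ℝ → ℝ} {f : ℕ → ℚ → ℕ → ℤ → ℕ} {b : ℕ → ℚ → ℕ → σ}
    {vm : ℕ → ℚ → ℝ} {w : κ → ℕ → ℚ → ℝ}

theorem s_bd (hM : MkA B I G lev A (fun v => g * v) (fun v => s * v) τ f b vm w) :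
    0 ≤ s ∧ s ≤ 1 := by
  have h := hM.lam 0 1 le_rfl zero_le_one le_rfl
  constructor <;> linarith [h.1, h.2]

open Classical in
/-- **own counts at every natural level** -/
theorem own_m (hM : MkA B I G lev A (fun v => g * v) (fun v => s * v) τ f b vm w) {ε : ℝ}
    (hε : 0 < ε) :
    ∀ᶠ n in (U : Filter ℕ), ∀ m : ℕ, lev n 0 ≤ m → m ≤ lev n 1 → ∀ x ∈ I n,
      (rho m / rho (lev n 0)) ^ (1 - s) * B.d n ^ (-(1 - s) + ε) ≤
        (((I n).filter fun y => lc m y = lc m x).card : ℝ) := by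
  obtain ⟨hs0, hs1⟩ := s_bd hM
  set t : ℝ := ε / 8 with ht
  have ht0 : 0 < t := by positivity
  obtain ⟨N, hN⟩ := exists_nat_gt (1 / t)
  have hN0 : 0 < N := by
    rcases Nat.eq_zero_or_pos N with h | h
    · rw [h, Nat.cast_zero] at hN
      have : 0 < 1 / t := by positivity
      linarith
    · exact h
  have hNr : (0 : ℝ) < N := by exact_mod_cast hN0
  have h1N : 1 / (N : ℝ) ≤ t := by
    rw [div_lt_iff₀ ht0] at hN
    rw [div_le_iff₀ hNr]; linarith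
  set u : ℕ → ℚ := fun k => (k : ℚ) / N with hu
  have hu0 : ∀ k, 0 ≤ u k := fun k => by positivity
  have hu1 : ∀ k ≤ N, u k ≤ 1 := fun k hk => by
    simp only [hu]
    rw [div_le_one (by exact_mod_cast hN0)]
    exact_mod_cast hk
  have hu00 : u 0 = 0 := by simp [hu]
  have huN : u N = 1 := by
    simp only [hu]
    rw [div_self]
    exact_mod_cast hN0.ne'
  have hucast : ∀ k, ((u k : ℚ) : ℝ) = (k : ℝ) / N := fun k => by simp [hu]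
  have hall : ∀ᶠ n in (U : Filter ℕ), ∀ k ∈ Finset.range (N + 1),
      (∀ x ∈ I n, B.d n ^ (-(1 - ((u k : ℚ) : ℝ)) + (s * 1 - s * ((u k : ℚ) : ℝ)) + ε / 4) ≤
        (((I n).filter fun y => lc (lev n (u k)) y = lc (lev n (u k)) x).card : ℝ)) ∧
      ((2 : ℝ) ^ lev n (u k) ≤ (2 : ℝ) ^ lev n 0 * B.d n ^ (-((u k : ℝ) + t)) ∧
        (2 : ℝ) ^ lev n 0 * B.d n ^ (-((u k : ℝ) - t)) ≤ (2 : ℝ) ^ lev n (u k)) := by
    rw [Filter.eventually_all_finset]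
    intro k hk
    have hk' : k ≤ N := by rw [Finset.mem_range] at hk; omega
    filter_upwards [fib_bounds hM (u k) (hu0 k) (hu1 k hk') (by positivity : 0 < ε / 4),
      pow_lev hM (u k) (hu0 k) (hu1 k hk') ht0] with n h1 h2
    exact ⟨fun x hx => (h1 x hx).1, h2⟩
  filter_upwards [hall] with n hn m hm0 hm1 x hx
  have hdp := fun a => Dp76.dpow_pos B n a
  obtain ⟨j, hjN, hmj, hj⟩ := exists_net (l := fun k => lev n (u k)) (N := N) (m := m)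
    (by rw [hu00]; exact hm0) (by rw [huN]; exact hm1)
  beta_reduce at hmj hj
  obtain ⟨hcore, hlo, hhi⟩ := hn j (Finset.mem_range.2 (by omega))
  set i : ℕ := lev n (u j) with hi
  have hρm : 0 < rho m := rho_pos _
  have hρi : 0 < rho i := rho_pos _
  have hρ0 : 0 < rho (lev n 0) := rho_pos _
  set H : ℝ := rho m / rho i with hH
  have hHp : H = 2 ^ (i - m) := rho_div hmj
  have hH1 : 1 ≤ H := by rw [hHp]; exact one_le_pow₀ (by norm_num)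
  have hH0 : 0 < H := by linarith
  -- `H ≤ d^(-3t)`
  have hHη : H ≤ B.d n ^ (-(3 * t)) := by
    rcases hj with ⟨_, h2⟩ | ⟨k, hk, hlk⟩
    · have him : i - m = 0 := by omega
      have : H = 1 := by rw [hHp, him, pow_zero]
      rw [this]
      exact Real.one_le_rpow_of_pos_of_le_one_of_nonpos (B.pos n) (B.lt n).le (by linarith)
    · obtain ⟨_, _, hhik⟩ := hn k (Finset.mem_range.2 (by omega))
      have e1 : H = (2 : ℝ) ^ i / 2 ^ m := by rw [hH]; unfold rho; field_simp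
      have h5 : (2 : ℝ) ^ lev n (u k) ≤ 2 ^ m := pow_le_pow_right₀ (by norm_num) hlk.le
      rw [e1, div_le_iff₀ (by positivity)]
      have h6 : (2 : ℝ) ^ lev n 0 * B.d n ^ (-((u k : ℝ) - t)) ≤ 2 ^ m := hhik.trans h5
      refine hlo.trans ?_
      calc (2 : ℝ) ^ lev n 0 * B.d n ^ (-((u j : ℝ) + t)) =
            B.d n ^ (-((u j : ℝ) - u k + 2 * t)) *
              ((2 : ℝ) ^ lev n 0 * B.d n ^ (-((u k : ℝ) - t))) := by
            rw [mul_left_comm, ← Dp76.dpow_add]; congr 2; ring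
        _ ≤ B.d n ^ (-(3 * t)) * ((2 : ℝ) ^ lev n 0 * B.d n ^ (-((u k : ℝ) - t))) := by
            refine mul_le_mul_of_nonneg_right (Dp76.dpow_le B n ?_)
              (mul_nonneg (by positivity) (hdp _).le)
            have e2 : ((u j : ℚ) : ℝ) - u k = 1 / N := by
              rw [hucast, hucast, hk]; push_cast; ring
            rw [e2]; linarith
        _ ≤ B.d n ^ (-(3 * t)) * 2 ^ m := mul_le_mul_of_nonneg_left h6 (hdp _).le
  -- the ratio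
  set r : ℝ := rho m / rho (lev n 0) with hr
  have hr0 : 0 < r := div_pos hρm hρ0
  have hrH : r = H * (rho i / rho (lev n 0)) := by rw [hr, hH]; field_simp
  have hxhi : rho i / rho (lev n 0) ≤ B.d n ^ ((u j : ℝ) - t) := by
    rw [div_le_iff₀ hρ0]; exact rho_hi hhi
  have hrhi : r ≤ B.d n ^ ((u j : ℝ) - 4 * t) := by
    rw [hrH]
    calc H * (rho i / rho (lev n 0)) ≤ B.d n ^ (-(3 * t)) * B.d n ^ ((u j : ℝ) - t) :=
          mul_le_mul hHη hxhi (by positivity) (hdp _).le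
      _ = _ := by rw [← Dp76.dpow_add]; congr 1; ring
  have hrs : r ^ (1 - s) ≤ B.d n ^ (((u j : ℝ) - 4 * t) * (1 - s)) := by
    rw [Real.rpow_mul (B.pos n).le]
    exact Real.rpow_le_rpow hr0.le hrhi (by linarith)
  refine ((mul_le_mul_of_nonneg_right hrs (hdp _).le).trans ?_).trans ((hcore x hx).trans ?_)
  · rw [← Dp76.dpow_add]
    refine Dp76.dpow_le B n ?_
    have h7 : 4 * t * (1 - s) ≤ 4 * t := by nlinarith
    have : 4 * t = ε / 2 := by rw [ht]; ring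
    nlinarith
  · norm_cast
    refine Finset.card_le_card fun y hy => ?_
    rw [mem_filter] at hy ⊢
    refine ⟨hy.1, ?_⟩
    have h8 := hy.2
    unfold lc at h8 ⊢
    rw [Prod.mk.injEq] at h8 ⊢
    exact ⟨h8.1, by rw [Dia770.zc_div hmj, Dia770.zc_div hmj x.2, h8.2]⟩

end own

theorem cLn_symm (π : Equiv.Perm (Fin 3)) (c : Ln4) : cLn π (cLn π.symm c) = c := by
  unfold cLn
  simp

section dmax

variable {B : Base} {I : ℕ → Finset (ℕ × ℝ)} {L : ℕ → ℕ → Ln4} {r0 : ℕ → ℝ}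
  {wr cr : Fin 3 → ℕ → ℝ} {q : Fin 3 → ℝ} {lev : ℕ → ℚ → ℕ} {A : ℕ → ℝ} {g s : ℝ} {τ : Fin 3 → ℝ → ℝ} {f : ℕ → ℚ → ℕ → ℤ → ℕ}
  {b : ℕ → ℚ → ℕ → Plk4} {vm : ℕ → ℚ → ℝ} {w : Fin 3 → ℕ → ℚ → ℝ}

open Classical in
/-- D-max of lines at every natural level, one error -/
theorem dmax_eps (hM : MkA B I (geo4 L r0 wr cr q) lev A (fun v => g * v) (fun v => s * v) τ f b vm w)
    (hq : ∀ j, 0 ≤ q j) (π : Equiv.Perm (Fin 3)) {δ0 : ℝ} (hδ0 : 0 < δ0) {ε : ℝ} (hε : 0 < ε) :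
    ∀ᶠ n in (U : Filter ℕ), ∀ m : ℕ, lev n 0 ≤ m → m ≤ lev n 1 → ∀ cl : ℤ,
      DMaxK (alive (I n) m cl) (fun t => cLn π (L n t)) (zl m cl) (rho m)
        (B.d n ^ (-ε) * (A n * (rho (lev n 0) / rho m) ^ g)) (Rq q m) (r0 n)
        (fun w' a' => 0 < a' ∧ w' 1 ≤ B.d n ^ δ0 * rho m ∧
          ∀ k : Fin 3, wr k n ≤ ![a', w' 1, w' 2] k ∧ ![a', w' 1, w' 2] k ≤ cr k n) := by
  filter_upwards [count_m hM hq hδ0 (half_pos hε), own_m hM (half_pos hε)] with n hc ho m hm0 hm1 cl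
    e c w' q' a hs hcl
  obtain ⟨ha, hw1, hrg⟩ := hcl
  have hdp := fun a => Dp76.dpow_pos B n a
  have hρm : 0 < rho m := rho_pos _
  have hρ0 : 0 < rho (lev n 0) := rho_pos _
  set r : ℝ := rho m / rho (lev n 0) with hr
  have hr0 : 0 < r := div_pos hρm hρ0
  have hw0 : a ≤ w' 2 := hs.a_le
  have hw2 : 0 < w' 2 := ha.trans_le hw0
  have hw10 : 0 < w' 1 := hw2.trans_le hs.w_le
  set V : ℝ := a * w' 2 * w' 1 * Rq q m a (w' 2) (w' 1) with hV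
  have hV0 : 0 < V := mul_pos (mul_pos (mul_pos ha hw2) hw10) (End882.Rq_pos ha hw2 hw10)
  set Q : Finset (ℕ × ℝ) := (I n).filter fun y => zc m y.2 = cl ∧
    InSheet (cLn π (L n y.1)) e c w' q' a (zl m cl) (rho m) with hQ
  set T : Finset ℕ := (alive (I n) m cl).filter fun t =>
    InSheet (cLn π (L n t)) e c w' q' a (zl m cl) (rho m) with hT
  have h1 : (Q.card : ℝ) ≤ A n * V * r ^ ((1 - s) - g) * B.d n ^ (-((1 - s) + ε / 2)) := by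
    refine hc m hm0 hm1 Q cl V (filter_subset _ _) hV0.le (fun y hy => ?_) fun J => ?_
    · rw [(mem_filter.1 hy).2.1, Finset.mem_Icc]
      constructor <;> linarith
    · by_cases hJ : J = cl
      · subst hJ
        have hs' : ShN e (cLn π (cLn π.symm c)) w' q' a (zl m J) (rho m) (r0 n) := by
          rw [cLn_symm]; exact hs
        refine ⟨⟨0, fpv π e, cLn π.symm c, w', qpv π q', a⟩, shN_perm hs', ha.le, hw1, hrg, le_rfl,
          fun y hy _ => ?_⟩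
        show InSheet (L n y.1) (fpv π e) (cLn π.symm c) w' (qpv π q') a (zl m J) (rho m)
        rw [inSheet_perm, cLn_symm]
        exact (mem_filter.1 hy).2.2
      · refine ⟨⟨0, e, c, ![w' 2, w' 1, w' 2], qflat e c, a⟩,
          flat_ShN hs.ortho c ha hs.r0_le hw0 hs.w_le, ha.le, hw1, hrg, le_rfl, fun y hy hyJ => ?_⟩
        exact absurd (hyJ.symm.trans (mem_filter.1 hy).2.1) hJ
  have h2 : (r ^ (1 - s) * B.d n ^ (-(1 - s) + ε / 2)) * (T.card : ℝ) ≤ Q.card := by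
    have hmaps : ∀ y ∈ Q, y.1 ∈ T := by
      intro y hy
      rw [hQ, mem_filter] at hy
      rw [hT, mem_filter]
      exact ⟨mem_alive.2 ⟨y, hy.1, rfl, hy.2.1⟩, hy.2.2⟩
    have h4 := Finset.card_eq_sum_card_fiberwise hmaps
    rw [h4]
    push_cast
    rw [mul_comm, ← nsmul_eq_mul, ← Finset.sum_const]
    refine Finset.sum_le_sum fun t ht => ?_
    rw [hT, mem_filter] at ht
    obtain ⟨x, hx, hx1, hx2⟩ := mem_alive.1 ht.1
    refine (ho m hm0 hm1 x hx).trans ?_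
    norm_cast
    refine Finset.card_le_card fun y hy => ?_
    rw [mem_filter] at hy
    have h8 := hy.2
    unfold lc at h8
    rw [Prod.mk.injEq, hx1, hx2] at h8
    rw [mem_filter, hQ, mem_filter, h8.1]
    exact ⟨⟨hy.1, h8.2, ht.2⟩, rfl⟩
  have h3 := h2.trans h1
  have hrs : 0 < r ^ (1 - s) := Real.rpow_pos_of_pos hr0 _
  have e1 : (rho (lev n 0) / rho m) ^ g = r ^ (-g) := by
    rw [Real.rpow_neg hr0.le, ← Real.inv_rpow hr0.le, hr, inv_div]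
  have e2 : A n * V * r ^ ((1 - s) - g) * B.d n ^ (-((1 - s) + ε / 2)) =
      (r ^ (1 - s) * B.d n ^ (-(1 - s) + ε / 2)) *
        (B.d n ^ (-ε) * (A n * r ^ (-g)) * V) := by
    have a1 : r ^ ((1 - s) - g) = r ^ (1 - s) * r ^ (-g) := by
      rw [← Real.rpow_add hr0]; congr 1
    have a2 : B.d n ^ (-((1 - s) + ε / 2)) = B.d n ^ (-(1 - s) + ε / 2) * B.d n ^ (-ε) := by
      rw [← Dp76.dpow_add]; congr 1; ring
    rw [a1, a2]; ring
  rw [e2] at h3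
  rw [e1]
  exact le_of_mul_le_mul_left h3 (mul_pos hrs (hdp _))



end dmax

section loss


open Crest.Agent.R136.Lq196 (CombQ)
open Crest.Agent.R136.Net191 (Mons)
open Crest.Agent.R136.Net191 (nlab)


end loss

end Crest.Agent.R136.DmN829
end

-- ▼ part R136/DmL_829

/-!
# R136 (helper829): D-max of lines at every natural level in the context of case (L)
-/

set_option autoImplicit false
set_option linter.unusedVariables false
set_option linter.unusedSectionVars false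

open Finset Filter Topology

namespace Crest.Agent.R136.DmN829

open Crest.Agent.R138.Ex926 (Base U)
open Crest.Agent.R138.Mk163 (zc zl rho alive)
open Crest.Agent.R138.MkRef627 (lc kc mem_alive)
open Crest.Agent.R138
open Crest.Agent.R136.MkA627
open Crest.Agent.R136.Sh605
open Crest.Agent.R136.K4
open Crest.Agent.R136.Top484 (geo4)
open Crest.Agent.R136.GeoQ186
open Crest.Agent.R136.TL196
open Crest.Agent.R136.End882 (DMaxK Rq)

variable {η : ℝ} {c : LCtx}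

theorem q_nonneg (ok : c.Ok η) (j : Fin 3) : 0 ≤ c.p.q j := by
  have h := ok.th.tp.ok
  fin_cases j
  · exact h.q0.1
  · exact h.g0.2.le
  · exact h.q2.1.le

theorem one_le_dpow (B : Base) (n : ℕ) {e : ℝ} (he : 0 ≤ e) : 1 ≤ B.d n ^ (-e) := by
  have h := Dp76.dpow_le B n (a := -e) (b := 0) (by linarith)
  rwa [Real.rpow_zero] at h

/-- **D-max of lines at every natural level.** -/
theorem dmax_ctx (ok : c.Ok η) {δ0 : ℝ} (hδ0 : 0 < δ0) :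
    ∃ H : ℕ → ℝ, c.D.B.Sub H ∧ (∀ n, 1 ≤ H n) ∧ ∀ᶠ n in (U : Filter ℕ), ∀ m : ℕ,
      c.D.lev n 0 ≤ m → m ≤ c.D.lev n 1 → ∀ cl : ℤ,
        DMaxK (alive (c.D.I n) m cl) (fun t => cLn c.π (c.D.L n t)) (zl m cl) (rho m)
          (H n * (c.D.A n * (rho (c.D.lev n 0) / rho m) ^ c.p.g)) (Rq c.p.q m) (c.D.r0 n)
          (fun w' a' => 0 < a' ∧ w' 1 ≤ c.D.B.d n ^ δ0 * rho m ∧
            ∀ k : Fin 3, c.D.wr k n ≤ ![a', w' 1, w' 2] k ∧ ![a', w' 1, w' 2] k ≤ c.D.cr k n) := by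
  obtain ⟨e, he0, he, h⟩ := End403.exists_err c.D.B (fun ε n => ∀ m : ℕ,
      c.D.lev n 0 ≤ m → m ≤ c.D.lev n 1 → ∀ cl : ℤ,
        DMaxK (alive (c.D.I n) m cl) (fun t => cLn c.π (c.D.L n t)) (zl m cl) (rho m)
          (c.D.B.d n ^ (-ε) * (c.D.A n * (rho (c.D.lev n 0) / rho m) ^ c.p.g)) (Rq c.p.q m)
          (c.D.r0 n) (fun w' a' => 0 < a' ∧ w' 1 ≤ c.D.B.d n ^ δ0 * rho m ∧
            ∀ k : Fin 3, c.D.wr k n ≤ ![a', w' 1, w' 2] k ∧ ![a', w' 1, w' 2] k ≤ c.D.cr k n)) fun ε hε =>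
    dmax_eps (s := 0) ok.th.tp.pre.mka (q_nonneg ok) c.π hδ0 hε
  exact ⟨_, he, fun n => one_le_dpow c.D.B n (he0 n).le, h⟩

/-- the widths of the marks of level `0` are far inside the range -/
theorem rng_ctx (ok : c.Ok η) (C : ℝ) : ∀ᶠ n in (U : Filter ℕ), ∀ k : Fin 3,
    c.D.wr k n ≤ c.D.B.d n ^ C * c.D.w k n 0 ∧ c.D.w k n 0 ≤ c.D.B.d n ^ C * c.D.cr k n :=
  Filter.eventually_all.2 fun k => ok.th.tp.wrs C k 0 le_rfl zero_le_one




end Crest.Agent.R136.DmN829
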