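import Crest.Agent.R136.End12_882
import Crest.Agent.R136.TL0_196
import Crest.Agent.R136.End3_882
import Crest.Agent.R136.ExtZ_779
import Crest.Agent.R136.Net4_186
import Crest.Agent.R138.MkDef_163

-- ▼ part R136/End13_882
section

/-!
# R136 (S0187): END, part 13 (helper882): levels, own counts of the gauge object
-/

set_option autoImplicit false
set_option linter.unusedVariables false

open Finset Filter Topology

namespace Crest.Agent.R136.End882

open Crest.Agent.R138.Ex926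
open Crest.Agent.R136.Net191
open Crest.Agent.R136.NetQ186
open Crest.Agent.R136.GeoQ186
open Crest.Agent.R136.Gz779
open Crest.Agent.R136.Zpr779
open Crest.Agent.R136.TL196
open Crest.Agent.R138.Mk163 (zc zl rho alive own)

/-! ### levels -/

/-- natural level of a length -/
noncomputable def lvl (y : ℝ) : ℕ := Nat.floor (Real.logb 2 (1 / y))

theorem lvl_spec {y : ℝ} (hy : 0 < y) (hy1 : y ≤ 1) : y ≤ rho (lvl y) ∧ rho (lvl y) < 2 * y := by
  have h1 : 1 ≤ 1 / y := by rw [le_div_iff₀ hy]; linarith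
  have h0 : 0 ≤ Real.logb 2 (1 / y) := Real.logb_nonneg (by norm_num) h1
  have hpos : (0 : ℝ) < 2 ^ lvl y := by positivity
  have a1 : (2 : ℝ) ^ lvl y ≤ 1 / y := by
    have h2 : ((lvl y : ℕ) : ℝ) ≤ Real.logb 2 (1 / y) := Nat.floor_le h0
    rw [← Real.rpow_natCast]
    exact (Real.le_logb_iff_rpow_le (by norm_num) (by positivity)).1 h2
  have a2 : 1 / y < (2 : ℝ) ^ (lvl y + 1) := by
    have h2 : Real.logb 2 (1 / y) < (lvl y : ℝ) + 1 := Nat.lt_floor_add_one _
    have h3 : Real.logb 2 (1 / y) < ((lvl y + 1 : ℕ) : ℝ) := by push_cast; exact h2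
    rw [← Real.rpow_natCast]
    exact (Real.logb_lt_iff_lt_rpow (by norm_num) (by positivity)).1 h3
  unfold rho
  constructor
  · rw [le_div_iff₀ hpos]
    rw [le_div_iff₀ hy] at a1
    linarith
  · rw [div_lt_iff₀ hpos]
    rw [div_lt_iff₀ hy, pow_succ] at a2
    linarith



/-! ### own counts -/

/-- **own counts at two levels** -/
theorem own_lo {c : LCtx} {B' : Base} {J : ℕ → Finset (ℕ × ℝ)} {ξ w : ℕ → ℝ}
    {lam lo : (Fin 11 → ℝ) → ℝ} {Cl E : ℕ → Finset (ℕ × ℝ)} {s₀ : ℕ → ℕ × ℝ}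
    {h : ℕ → Fin 6 → ℝ} {ηg : ℕ → ℝ} {J' : ℕ → Finset (ℕ × ℝ)} {To : ℕ → ℝ}
    {ν' own' : (Fin 11 → ℝ) → ℝ} {θ T1 x R' : ℝ}
    (H : ExtZ c.D.B B' E J' (coG c.F h) monQ 2 (XG (c.XB T1 ξ w)) w monQ R' (c.TB T1 B' ξ lam) To
      0 0 0 (PDz θ T1 R') (DL c.p) (rz θ T1 x) (oz θ T1 x R')
      (fun v => DL c.p (rz θ T1 x v)) (fun _ => False) ν' own' (DL c.p (bT T1) - lam (bT T1)))
    (hZ : 1 ≤ θ ∨ Zer θ T1 x R' own') (hθ : 0 < θ) {a : ℝ} (ha0 : 0 ≤ a) (ha1 : a ≤ 1) {ε : ℝ}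
    (hε : 0 < ε) :
    ∃ u v : ℝ, 0 < u ∧ u < v ∧ v < 1 ∧ v - u ≤ 1 / 2 ∧ ∀ b : ℝ, b = 0 ∨ b = a → ∀ p ∈ Leg monQ R',
      p 0 = u + b * (v - u) → p 4 ≤ T1 + (1 - θ) * v → p 1 ≤ x → p 3 ≤ x → (∀ k, p k ≤ R' - 1) →
      (∀ k, p k ≤ R' - |1 - θ|) →
        (1 - p 0) - ε * (v - u) ≤ own' p := by
  rcases hZ with hθ1 | hZ
  · refine ⟨1 / 4, 1 / 2, by norm_num, by norm_num, by norm_num, by norm_num, ?_⟩
    intro b hb p hp p0 p4 p1 p3 hk hk'
    have hb0 : 0 ≤ b ∧ b ≤ 1 := by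
      rcases hb with rfl | rfl
      · exact ⟨le_rfl, zero_le_one⟩
      · exact ⟨ha0, ha1⟩
    have hp0 : 0 ≤ p 0 := by rw [p0]; nlinarith
    have hp1 : p 0 ≤ 1 / 2 := by rw [p0]; nlinarith
    have h1 := H.own_rot p hp (p 0) hp0 (by linarith) (by ring) (by
      intro k
      fin_cases k
      · exact le_rfl
      · exact p1
      · exact (hk 2).trans (by simp [oz])
      · exact p3
      · refine p4.trans ?_
        simp only [oz, Matrix.cons_val, Fin.reduceFinMk]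
        nlinarith
      all_goals
        simp only [oz, Matrix.cons_val, Fin.reduceFinMk]
        linarith [hk 5, hk 6, hk 7, hk 8, hk 9, hk 10])
    rw [h1]
    have : 0 ≤ ε * (1 / 2 - 1 / 4) := by positivity
    linarith
  · obtain ⟨v, hv, -, hh, hh0, hht, H1⟩ := hZ (fun _ => True) (by
      filter_upwards with v hv using trivial)
    by_cases hθ1 : 1 ≤ θ
    · -- the ray is free
      refine ⟨1 / 4, 1 / 2, by norm_num, by norm_num, by norm_num, by norm_num, ?_⟩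
      intro b hb p hp p0 p4 p1 p3 hk hk'
      have hb0 : 0 ≤ b ∧ b ≤ 1 := by
        rcases hb with rfl | rfl
        · exact ⟨le_rfl, zero_le_one⟩
        · exact ⟨ha0, ha1⟩
      have hp0 : 0 ≤ p 0 := by rw [p0]; nlinarith
      have hp1 : p 0 ≤ 1 / 2 := by rw [p0]; nlinarith
      have h1 := H.own_rot p hp (p 0) hp0 (by linarith) (by ring) (by
        intro k
        fin_cases k
        · exact le_rfl
        · exact p1
        · exact (hk 2).trans (by simp [oz])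
        · exact p3
        · refine p4.trans ?_
          simp only [oz, Matrix.cons_val, Fin.reduceFinMk]
          nlinarith
        all_goals
          simp only [oz, Matrix.cons_val, Fin.reduceFinMk]
          linarith [hk 5, hk 6, hk 7, hk 8, hk 9, hk 10])
      rw [h1]
      have : 0 ≤ ε * (1 / 2 - 1 / 4) := by positivity
      linarith
    push Not at hθ1
    have hκ : 0 ≤ 1 - θ := by linarith
    have e1 : ∀ᶠ l in (atTop : Filter ℕ), hh l < min (1 - v) (1 / 2) :=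
      hht.eventually_lt_const (lt_min (by linarith [hv.2]) (by norm_num))
    have f1 := H1 0 ((1 - θ) * 1) (by positivity) ε hε
    have f2 := H1 a ((1 - θ) * (1 - a)) (mul_nonneg hκ (by linarith)) ε hε
    obtain ⟨l, g1, g2, g3⟩ := (e1.and (f1.and f2)).exists
    have hl := hh0 l
    have g1' : hh l < 1 - v := g1.trans_le (min_le_left _ _)
    have g1'' : hh l < 1 / 2 := g1.trans_le (min_le_right _ _)
    refine ⟨v, v + hh l, hv.1, by linarith, by linarith, by linarith, ?_⟩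
    intro b hb p hp p0 p4 p1 p3 hk hk'
    have er : v + hh l - v = hh l := by ring
    rw [er] at p0 ⊢
    rcases hb with rfl | rfl
    · refine le_trans (le_of_eq ?_) (g2 p hp (by rw [p0]) ?_ ?_ ?_ ?_)
      · rw [p0]
      · refine p4.trans (le_of_eq ?_); ring
      · intro k k0 k4 k5 k8
        fin_cases k <;> first | exact absurd rfl k0 | exact absurd rfl k4 | exact absurd rfl k5 |
          exact absurd rfl k8 | skip
        · exact p1
        · exact (hk 2).trans (by simp [oz])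
        · exact p3
        all_goals
          simp only [oz, Matrix.cons_val, Fin.reduceFinMk]
          linarith [hk 6, hk 7, hk 9, hk 10]
      · have := hk' 5
        rw [abs_of_nonneg hκ] at this
        nlinarith
      · have := hk' 8
        rw [abs_of_nonneg hκ] at this
        nlinarith
    · refine le_trans (le_of_eq ?_) (g3 p hp (by rw [p0]) ?_ ?_ ?_ ?_)
      · rw [p0]
      · refine p4.trans (le_of_eq ?_); ring
      · intro k k0 k4 k5 k8
        fin_cases k <;> first | exact absurd rfl k0 | exact absurd rfl k4 | exact absurd rfl k5 |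
          exact absurd rfl k8 | skip
        · exact p1
        · exact (hk 2).trans (by simp [oz])
        · exact p3
        all_goals
          simp only [oz, Matrix.cons_val, Fin.reduceFinMk]
          linarith [hk 6, hk 7, hk 9, hk 10]
      · have := hk' 5
        rw [abs_of_nonneg hκ] at this
        have h2 : (1 - θ) * (1 - b) * hh l ≤ 1 - θ := by
          have : (1 - b) * hh l ≤ 1 := by nlinarith
          calc (1 - θ) * (1 - b) * hh l = (1 - θ) * ((1 - b) * hh l) := by ring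
            _ ≤ (1 - θ) * 1 := mul_le_mul_of_nonneg_left this hκ
            _ = 1 - θ := mul_one _
        linarith
      · have := hk' 8
        rw [abs_of_nonneg hκ] at this
        have h2 : (1 - θ) * (1 - b) * hh l ≤ 1 - θ := by
          have : (1 - b) * hh l ≤ 1 := by nlinarith
          calc (1 - θ) * (1 - b) * hh l = (1 - θ) * ((1 - b) * hh l) := by ring
            _ ≤ (1 - θ) * 1 := mul_le_mul_of_nonneg_left this hκ
            _ = 1 - θ := mul_one _
        linarith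

end Crest.Agent.R136.End882
end

-- ▼ part R136/Cnt_638
section

/-!
# R136 (S0187), END: one container of the second profile (helper638)

* `exists_cont` : in a window profile with own profile (`ExtZ`) there is a nonempty set of pairwise
  `pc`-close incidences in one cell of level `i`, whose own classes at `pu` (level `i`) and at `pl`
  (level `l`) and whose classes at `pv` (level `j`) are almost full;
* `own_le_box` : own count of a box.
-/

set_option autoImplicit false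
set_option linter.unusedVariables false
set_option linter.unusedSectionVars false

open Filter Topology

namespace Crest.Agent.R136.Cnt638

open Finset Crest.Agent.R138.Ex926 Crest.Agent.R136.Net191 Crest.Agent.R136.Qg926
open Crest.Agent.R136.Zpr779 Crest.Agent.R136.Sec779 Crest.Agent.R136.NetQ186
open Crest.Agent.R138.Mk163 (zc rho)

/-! ### cells -/

theorem zc_eq_div {i j : ℕ} (h : i ≤ j) (z : ℝ) : zc i z = zc j z / ((2 ^ (j - i) : ℕ) : ℤ) := by
  unfold zc
  rw [← Int.floor_div_natCast]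
  congr 1
  push_cast
  rw [eq_div_iff (by positivity)]
  rw [mul_right_comm, ← pow_add, Nat.add_sub_cancel' h]

theorem zc_nest {i j : ℕ} (h : i ≤ j) {z z' : ℝ} (hz : zc j z = zc j z') : zc i z = zc i z' := by
  rw [zc_eq_div h, zc_eq_div h, hz]

theorem zc_near {i : ℕ} {z z' : ℝ} (h : |z' - z| ≤ rho i) :
    zc i z' ∈ Icc (zc i z - 1) (zc i z + 1) := by
  have h2 : |(2 : ℝ) ^ i * z' - 2 ^ i * z| ≤ 1 := by
    rw [← mul_sub, abs_mul, abs_of_pos (by positivity : (0 : ℝ) < 2 ^ i)]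
    calc (2 : ℝ) ^ i * |z' - z| ≤ 2 ^ i * rho i := mul_le_mul_of_nonneg_left h (by positivity)
      _ = 1 := by unfold Crest.Agent.R138.Mk163.rho; field_simp
  rw [abs_le] at h2
  unfold zc
  rw [mem_Icc]
  constructor
  · have : ((⌊(2 : ℝ) ^ i * z⌋ - 1 : ℤ) : ℝ) ≤ 2 ^ i * z' := by
      push_cast
      have := Int.floor_le ((2 : ℝ) ^ i * z)
      linarith
    exact Int.le_floor.2 this
  · have : (2 : ℝ) ^ i * z' < ((⌊(2 : ℝ) ^ i * z⌋ + 1 + 1 : ℤ) : ℝ) := by
      push_cast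
      have := Int.lt_floor_add_one ((2 : ℝ) ^ i * z)
      linarith
    have := Int.floor_lt.2 this
    omega

/-- classes (label, cell) -/
theorem card_lab_cell {α β : Type*} [DecidableEq β] (J : Finset α) (f : α → β) (g : α → ℤ)
    (h : ∀ x ∈ J, ∀ y ∈ J, f y = f x → g y ∈ Icc (g x - 1) (g x + 1)) :
    ((J.image fun x => (f x, g x)).card : ℝ) ≤ 3 * (J.image f).card := by
  classical
  have h1 : (J.image fun x => (f x, g x)).card ≤
      3 * ((J.image fun x => (f x, g x)).image Prod.fst).card := by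
    refine card_le_mul_card_image _ 3 fun a ha => ?_
    obtain ⟨q, hq, rfl⟩ := mem_image.1 ha
    obtain ⟨x, hx, rfl⟩ := mem_image.1 hq
    have hs : ((J.image fun x => (f x, g x)).filter fun q => q.1 = f x) ⊆
        (Icc (g x - 1) (g x + 1)).image fun t => (f x, t) := by
      intro q hq
      rw [mem_filter] at hq
      obtain ⟨y, hy, rfl⟩ := mem_image.1 hq.1
      exact mem_image.2 ⟨g y, h x hx y hy hq.2, by rw [← hq.2]⟩
    refine (card_le_card hs).trans (card_image_le.trans ?_)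
    rw [Int.card_Icc]
    omega
  have h2 : ((J.image fun x => (f x, g x)).image Prod.fst) = J.image f := by
    rw [image_image]; rfl
  rw [h2] at h1
  exact_mod_cast h1

/-- `card_le_fib` of helper779 -/
theorem card_le_fib' {α β : Type*} [DecidableEq α] [DecidableEq β] (A : Finset α) (f : α → β)
    {K : ℝ} (h : ∀ x ∈ A, ((A.filter fun y => f y = f x).card : ℝ) ≤ K) :
    (A.card : ℝ) ≤ K * (A.image f).card := by
  have h1 : (A.card : ℝ) = ∑ b ∈ A.image f, ((A.filter fun i => f i = b).card : ℝ) := by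
    rw [card_eq_sum_card_image f A]; push_cast; rfl
  rw [h1]
  refine (sum_le_card_nsmul _ _ K fun b hb => ?_).trans (le_of_eq (by rw [nsmul_eq_mul, mul_comm]))
  obtain ⟨x, hx, rfl⟩ := mem_image.1 hb
  exact h x hx

/-- a constant can be added to legal exponents -/
theorem Leg_shift {m : ℕ} {M : Mons m} {R : ℝ} {p : Fin m → ℝ} (hp : p ∈ Leg M R) {δ : ℝ}
    (hδ : 0 ≤ δ) (h : ∀ k, p k + δ ≤ R) : (fun k => p k + δ) ∈ Leg M R := by
  refine ⟨⟨fun k => add_nonneg (hp.1.nonneg k) hδ, fun k e he => ?_⟩, h⟩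
  have h1 := hp.1.wall k e he
  have h2 : ∑ s, (e s : ℝ) * (p s + δ) = ∑ s, (e s : ℝ) * p s + (∑ s, (e s : ℝ)) * δ := by
    rw [sum_mul, ← sum_add_distrib]
    exact sum_congr rfl fun s _ => by ring
  have h3 : (1 : ℝ) ≤ ∑ s, (e s : ℝ) := by
    have := M.one_le he
    exact_mod_cast this
  change p k + δ ≤ ∑ s, (e s : ℝ) * (p s + δ)
  rw [h2]
  nlinarith

theorem norm_shift {m : ℕ} (p : Fin m → ℝ) {δ : ℝ} (hδ : 0 ≤ δ) :
    ‖(fun k => p k + δ) - p‖ ≤ δ := by
  refine (pi_norm_le_iff_of_nonneg hδ).2 fun k => ?_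
  rw [Pi.sub_apply, add_sub_cancel_left, Real.norm_eq_abs, abs_of_nonneg hδ]

/-- one profile number: `N` classes of size `T d^(-ν' + e)` among `#J` points -/
theorem cnt_of_root {N T c d ν e : ℝ} (hd : 0 < d) (h : N * T ≤ c * d ^ (ν - e)) :
    N * (T * d ^ (-ν + e)) ≤ c := by
  have h1 : 0 < d ^ (-ν + e) := Real.rpow_pos_of_pos hd _
  calc N * (T * d ^ (-ν + e)) = N * T * d ^ (-ν + e) := by ring
    _ ≤ c * d ^ (ν - e) * d ^ (-ν + e) := mul_le_mul_of_nonneg_right h h1.le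
    _ = c * (d ^ (ν - e) * d ^ (-ν + e)) := by ring
    _ = c := by
      rw [← Real.rpow_add hd, show ν - e + (-ν + e) = 0 by ring, Real.rpow_zero, mul_one]

/-- absorption of the constants -/
theorem absorb {d T K ν ν' ε e : ℝ} (hd : 0 < d) (hd1 : d ≤ 1) (hT : 0 < T) (hK : 0 < K)
    (hKd : K ≤ d ^ (-(ε / 2))) (hν : |ν' - ν| ≤ ε / 4) (he : e = ε / 4) :
    T * d ^ (-ν + ε) ≤ T * d ^ (-ν' + e) / K := by
  rw [le_div_iff₀ hK]
  have h1 : 0 < d ^ (-ν + ε) := Real.rpow_pos_of_pos hd _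
  calc T * d ^ (-ν + ε) * K ≤ T * d ^ (-ν + ε) * d ^ (-(ε / 2)) :=
        mul_le_mul_of_nonneg_left hKd (mul_pos hT h1).le
    _ = T * d ^ (-ν + ε / 2) := by
        rw [mul_assoc, ← Real.rpow_add hd]; congr 2; ring
    _ ≤ T * d ^ (-ν' + e) := by
        refine mul_le_mul_of_nonneg_left (Real.rpow_le_rpow_of_exponent_ge hd hd1 ?_) hT.le
        rw [abs_le] at hν
        rw [he]
        linarith

variable {B B' : Base} {E J : ℕ → Finset (ℕ × ℝ)}
  {co : ∀ n : ℕ, ℕ × ℝ → ℕ × ℝ → Fin 11 → ℝ} {X : ℕ → Fin 11 → ℝ} {w : ℕ → ℝ} {R' : ℝ}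
  {Tn To : ℕ → ℝ} {PD : Set (Fin 11 → ℝ)} {D : (Fin 11 → ℝ) → ℝ} {r o : ℝ → Fin 11 → ℝ}
  {Er : ℝ → ℝ} {T : Fin 11 → Prop} {ν own : (Fin 11 → ℝ) → ℝ} {c₀ : ℝ}

open Classical in
set_option maxHeartbeats 1000000 in
/-- **one container** of the window profile -/
theorem exists_cont (H : ExtZ B B' E J co monQ 2 X w monQ R' Tn To 0 0 0 PD D r o Er T ν own c₀)
    {pc pu pl pv : Fin 11 → ℝ} (hpc : pc ∈ Leg monQ R') (hpu : pu ∈ Leg monQ R')
    (hpl : pl ∈ Leg monQ R') (hpv : pv ∈ Leg monQ R')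
    (hR : ∀ k, pu k < R' ∧ pl k < R' ∧ pv k < R') (h1 : pc ≤ pu) (h2 : pc ≤ pl) (h3 : pc ≤ pv)
    {uh : ℕ → ℝ} (huh : ∀ n, 0 < uh n) (hz : ∀ n, ∀ x y, co n x y 0 = uh n * (y.2 - x.2))
    {i l j : ℕ → ℕ} (hil : ∀ᶠ n in (U : Filter ℕ), i n ≤ l n)
    (hlj : ∀ᶠ n in (U : Filter ℕ), l n ≤ j n)
    (hi : ∀ᶠ n in (U : Filter ℕ), B.d n ^ X n 0 * B'.d n ^ pu 0 ≤ uh n * rho (i n))
    (hl : ∀ᶠ n in (U : Filter ℕ), B.d n ^ X n 0 * B'.d n ^ pl 0 ≤ uh n * rho (l n))
    (hj : ∀ᶠ n in (U : Filter ℕ), B.d n ^ X n 0 * B'.d n ^ pv 0 ≤ uh n * rho (j n))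
    {ε : ℝ} (hε : 0 < ε) : ∀ᶠ n in (U : Filter ℕ), ∃ F ⊆ J n, F.Nonempty ∧
      (∀ x ∈ F, ∀ y ∈ F, zc (i n) x.2 = zc (i n) y.2) ∧
      (∀ x ∈ F, ∀ y ∈ F, ∀ k, |co n x y k| ≤ B'.d n ^ (-ε) * (B.d n ^ X n k * B'.d n ^ pc k)) ∧
      (∀ x ∈ F, To n * B'.d n ^ (-(own pu) + ε) ≤
        ((F.filter fun y => y.1 = x.1 ∧ zc (i n) y.2 = zc (i n) x.2).card : ℝ)) ∧
      (∀ x ∈ F, To n * B'.d n ^ (-(own pl) + ε) ≤
        ((F.filter fun y => y.1 = x.1 ∧ zc (l n) y.2 = zc (l n) x.2).card : ℝ)) ∧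
      (∀ x ∈ F, Tn n * B'.d n ^ (-(ν pv) + ε) ≤
        ((F.filter fun y => zc (j n) y.2 = zc (j n) x.2 ∧
          ∀ k, |co n x y k| ≤ B'.d n ^ (-ε) * (B.d n ^ X n k * B'.d n ^ pv k)).card : ℝ)) := by
  have hC0 : 0 < cK0 monQ 2 := lt_of_lt_of_le one_pos (cK0_one (H.win.chart 0).C0)
  have hN0 : 0 < cN monQ 2 1 := cN_pos monQ (H.win.chart 0).C0 le_rfl
  obtain ⟨δ0, hδ0, hδR⟩ : ∃ δ0 : ℝ, 0 < δ0 ∧
      ∀ k, pu k + δ0 ≤ R' ∧ pl k + δ0 ≤ R' ∧ pv k + δ0 ≤ R' := by
    have hne : (univ : Finset (Fin 11)).Nonempty := ⟨0, mem_univ _⟩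
    refine ⟨univ.inf' hne fun k => min (R' - pu k) (min (R' - pl k) (R' - pv k)), ?_, ?_⟩
    · rw [Finset.lt_inf'_iff]
      intro k _
      obtain ⟨a1, a2, a3⟩ := hR k
      exact lt_min (by linarith) (lt_min (by linarith) (by linarith))
    · intro k
      have a1 := Finset.inf'_le (fun k => min (R' - pu k) (min (R' - pl k) (R' - pv k)))
        (mem_univ k)
      have a2 := a1.trans (min_le_left _ _)
      have a3 := (a1.trans (min_le_right _ _)).trans (min_le_left _ _)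
      have a4 := (a1.trans (min_le_right _ _)).trans (min_le_right _ _)
      refine ⟨by linarith, by linarith, by linarith⟩
  set δ : ℝ := min δ0 (ε / 44) with hδd
  have hδ : 0 < δ := lt_min hδ0 (by positivity)
  have hδ1 : δ ≤ δ0 := min_le_left _ _
  have hδ2 : δ ≤ ε / 44 := min_le_right _ _
  set pu' : Fin 11 → ℝ := fun k => pu k + δ with hpu'
  set pl' : Fin 11 → ℝ := fun k => pl k + δ with hpl'
  set pv' : Fin 11 → ℝ := fun k => pv k + δ with hpv'
  have mu : pu' ∈ Leg monQ R' := Leg_shift hpu hδ.le fun k => by linarith [(hδR k).1]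
  have ml : pl' ∈ Leg monQ R' := Leg_shift hpl hδ.le fun k => by linarith [(hδR k).2.1]
  have mv : pv' ∈ Leg monQ R' := Leg_shift hpv hδ.le fun k => by linarith [(hδR k).2.2]
  have lu : |own pu' - own pu| ≤ ε / 4 := by
    refine (H.olip pu' mu pu hpu).trans ?_
    have := norm_shift pu hδ.le
    push_cast
    linarith
  have ll : |own pl' - own pl| ≤ ε / 4 := by
    refine (H.olip pl' ml pl hpl).trans ?_
    have := norm_shift pl hδ.le
    push_cast
    linarith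
  have lv : |ν pv' - ν pv| ≤ ε / 4 := by
    refine (H.win.lip pv' mv pv hpv).trans ?_
    have := norm_shift pv hδ.le
    push_cast
    linarith
  set K : ℝ := 2 * (((3 : ℕ) : ℝ) + 1) * cN monQ 2 1 * 3 with hK
  have hK0 : 0 < K := by positivity
  filter_upwards [H.win.sub, H.win.ne, hil, hlj, hi, hl, hj,
    H.oprof.root (ε / 4) (by positivity), H.win.prof.root R' (ε / 4) (by positivity),
    H.win.legal R', ev_const_le B' hC0 hδ, ev_const_le B' hC0 hε,
    ev_const_le B' hK0 (ε := ε / 2) (by positivity)] with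
    n a1 a2 a3 a4 a5 a6 a7 a8 a9 a10 a11 a12 a13
  have hd := B'.pos n
  have hd1 := (B'.lt n).le
  have hpos : ∀ t : ℝ, 0 < B'.d n ^ t := fun t => Real.rpow_pos_of_pos hd t
  have hBp : ∀ t : ℝ, 0 < B.d n ^ t := fun t => Real.rpow_pos_of_pos (B.pos n) t
  have hTo := H.oprof.pos n
  have hTn := H.win.T0 n
  have hw0 := H.win.w0 n
  have leg : ∀ p ∈ Leg monQ R', Legal monQ (X n + w n • p) := fun p hp =>
    a10 p hp (Leg_norm H.R0 hp)
  -- equal labels at `p + δ` : the box `p` with constant 1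
  have box : ∀ p : Fin 11 → ℝ, (fun k => p k + δ) ∈ Leg monQ R' → ∀ x ∈ J n, ∀ y ∈ J n,
      zlab B E co monQ 2 X w n (fun k => p k + δ) x = zlab B E co monQ 2 X w n (fun k => p k + δ) y →
      ∀ k, |co n x y k| ≤ B.d n ^ X n k * B'.d n ^ p k := by
    intro p hp x hx y hy hxy k
    have e1 := H.win.near_of_zlab (leg _ hp) (a1 hx) (a1 hy) hxy k
    refine e1.trans ?_
    calc cK0 monQ 2 * (B.d n ^ X n k * B'.d n ^ (p k + δ))
        ≤ B'.d n ^ (-δ) * (B.d n ^ X n k * B'.d n ^ (p k + δ)) :=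
          mul_le_mul_of_nonneg_right a11 (mul_pos (hBp _) (hpos _)).le
      _ = B.d n ^ X n k * (B'.d n ^ (-δ) * B'.d n ^ (p k + δ)) := by ring
      _ = B.d n ^ X n k * B'.d n ^ p k := by
          rw [← Real.rpow_add hd]; congr 2; ring
  -- heights of a class
  have cell : ∀ p : Fin 11 → ℝ, (fun k => p k + δ) ∈ Leg monQ R' → ∀ s : ℕ,
      B.d n ^ X n 0 * B'.d n ^ p 0 ≤ uh n * rho s → ∀ x ∈ J n, ∀ y ∈ J n,
      zlab B E co monQ 2 X w n (fun k => p k + δ) x = zlab B E co monQ 2 X w n (fun k => p k + δ) y →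
      zc s y.2 ∈ Icc (zc s x.2 - 1) (zc s x.2 + 1) := by
    intro p hp s hs x hx y hy hxy
    refine zc_near ?_
    have e1 := (box p hp x hx y hy hxy 0).trans hs
    rw [hz, abs_mul, abs_of_pos (huh n)] at e1
    exact le_of_mul_le_mul_left e1 (huh n)
  -- the classes
  set P : Fin 3 → Fin 11 → ℝ := ![pu', pl', pv'] with hP
  set lv3 : Fin 3 → ℕ := ![i n, l n, j n] with hlv3
  set ln : Fin 3 → ℕ × ℝ → ℕ := ![fun x => x.1, fun x => x.1, fun _ => 0] with hln
  set TT : Fin 3 → ℝ := ![To n, To n, Tn n] with hTT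
  set NN : Fin 3 → ℝ := ![own pu', own pl', ν pv'] with hNN
  set cl : Fin 3 → ℕ × ℝ → (ℕ × (ℕ × ℝ)) × ℤ := fun s x =>
    ((ln s x, zlab B E co monQ 2 X w n (P s) x), zc (lv3 s) x.2) with hcl
  set μ : Fin 3 → ℝ := fun s => TT s * B'.d n ^ (-(NN s) + ε / 4) with hμ
  have hμ0 : ∀ s, 0 ≤ μ s := by
    intro s
    fin_cases s
    · exact (mul_pos hTo (hpos _)).le
    · exact (mul_pos hTo (hpos _)).le
    · exact (mul_pos hTn (hpos _)).le
  have b0 := a8 pu' mu
  have b1 := a8 pl' ml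
  have b2 := a9 pv' mv (Leg_norm H.R0 mv)
  have cnt : ∀ s, (((J n).image (cl s)).card : ℝ) * μ s ≤ 3 * (J n).card := by
    have key : ∀ s, (∀ x ∈ J n, ∀ y ∈ J n,
        (ln s y, zlab B E co monQ 2 X w n (P s) y) = (ln s x, zlab B E co monQ 2 X w n (P s) x) →
        zc (lv3 s) y.2 ∈ Icc (zc (lv3 s) x.2 - 1) (zc (lv3 s) x.2 + 1)) →
        (((J n).image fun x => (ln s x, zlab B E co monQ 2 X w n (P s) x)).card : ℝ) * TT s ≤
          (J n).card * B'.d n ^ (NN s - ε / 4) →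
        (((J n).image (cl s)).card : ℝ) * μ s ≤ 3 * (J n).card := by
      intro s k1 k2
      have k3 := card_lab_cell (J n) (fun x => (ln s x, zlab B E co monQ 2 X w n (P s) x))
        (fun x => zc (lv3 s) x.2) k1
      have k4 := cnt_of_root hd k2
      calc (((J n).image (cl s)).card : ℝ) * μ s ≤
          (3 * ((J n).image fun x => (ln s x, zlab B E co monQ 2 X w n (P s) x)).card) * μ s := by
            refine mul_le_mul_of_nonneg_right ?_ (hμ0 s)
            exact k3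
        _ = 3 * ((((J n).image fun x => (ln s x, zlab B E co monQ 2 X w n (P s) x)).card : ℝ) *
            (TT s * B'.d n ^ (-(NN s) + ε / 4))) := by rw [hμ]; ring
        _ ≤ 3 * (J n).card := by linarith
    intro s
    fin_cases s
    · refine key 0 (fun x hx y hy hxy => ?_) b0
      exact cell pu mu (i n) a5 x hx y hy (Prod.mk.inj hxy).2.symm
    · refine key 1 (fun x hx y hy hxy => ?_) b1
      exact cell pl ml (l n) a6 x hx y hy (Prod.mk.inj hxy).2.symm
    · refine key 2 (fun x hx y hy hxy => ?_) ?_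
      · exact cell pv mv (j n) a7 x hx y hy (Prod.mk.inj hxy).2.symm
      · refine le_trans (mul_le_mul_of_nonneg_right ?_ hTn.le) b2
        have : ((J n).image fun x => (ln 2 x, zlab B E co monQ 2 X w n (P 2) x)) =
            ((J n).image (zlab B E co monQ 2 X w n pv')).image fun b => ((0 : ℕ), b) := by
          rw [image_image]; rfl
        rw [this]
        exact_mod_cast card_image_le
  have near : ∀ s, ∀ x ∈ J n, ∀ y ∈ J n, cl s x = cl s y →
      Near (co n) (B.d n) (X n + w n • pc) 1 x y := by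
    have key : ∀ p : Fin 11 → ℝ, (fun k => p k + δ) ∈ Leg monQ R' → pc ≤ p → ∀ x ∈ J n,
        ∀ y ∈ J n, zlab B E co monQ 2 X w n (fun k => p k + δ) x =
          zlab B E co monQ 2 X w n (fun k => p k + δ) y →
        Near (co n) (B.d n) (X n + w n • pc) 1 x y := by
      intro p hp hpp x hx y hy hxy k
      rw [H.win.d_eq, one_mul]
      refine (box p hp x hx y hy hxy k).trans ?_
      exact mul_le_mul_of_nonneg_left
        (Real.rpow_le_rpow_of_exponent_ge hd hd1 (hpp k)) (hBp _).le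
    intro s x hx y hy hxy
    have h5 := (Prod.mk.inj (Prod.mk.inj hxy).1).2
    fin_cases s
    · exact key pu mu h1 x hx y hy h5
    · exact key pl ml h2 x hx y hy h5
    · exact key pv mv h3 x hx y hy h5
  have hchJ : Chart (J n) (co n) monQ 2 := by
    have hch := H.win.chart n
    exact ⟨hch.C0, fun x hx => hch.refl x (a1 hx), fun x hx y hy z hz' =>
      hch.add x (a1 hx) y (a1 hy) z (a1 hz')⟩
  obtain ⟨F, hFJ, hFne, hFn, hFc⟩ := End882.exists_container hchJ (B.pos n) (B.lt n).le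
    (leg pc hpc) cl μ hμ0 near a2 (A := 3) (by norm_num) (fun s => by convert cnt s)
  have hFc' : ∀ s, ∀ x ∈ F, μ s / K ≤ ((F.filter fun y => cl s y = cl s x).card : ℝ) :=
    fun s x hx => by convert hFc s x hx
  obtain ⟨x₀, hx₀⟩ := hFne
  have hNear : ∀ x ∈ F, ∀ y ∈ F, ∀ k, |co n x y k| ≤
      B'.d n ^ (-ε) * (B.d n ^ X n k * B'.d n ^ pc k) := by
    intro x hx y hy k
    have e1 := hFn x hx y hy k
    rw [H.win.d_eq] at e1
    exact e1.trans (mul_le_mul_of_nonneg_right a12 (mul_pos (hBp _) (hpos _)).le)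
  refine ⟨F.filter fun x => zc (i n) x.2 = zc (i n) x₀.2, (filter_subset _ _).trans hFJ,
    ⟨x₀, mem_filter.2 ⟨hx₀, rfl⟩⟩, ?_, ?_, ?_, ?_, ?_⟩
  · intro x hx y hy
    rw [mem_filter] at hx hy
    rw [hx.2, hy.2]
  · intro x hx y hy
    rw [mem_filter] at hx hy
    exact hNear x hx.1 y hy.1
  · intro x hx
    rw [mem_filter] at hx
    refine (absorb hd hd1 hTo hK0 a13 lu rfl).trans ((hFc' 0 x hx.1).trans ?_)
    refine Nat.cast_le.2 (card_le_card fun y hy => ?_)
    rw [mem_filter] at hy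
    have e1 := (Prod.mk.inj hy.2).2
    have e2 := (Prod.mk.inj (Prod.mk.inj hy.2).1).1
    change zc (i n) y.2 = zc (i n) x.2 at e1
    change y.1 = x.1 at e2
    exact mem_filter.2 ⟨mem_filter.2 ⟨hy.1, e1.trans hx.2⟩, e2, e1⟩
  · intro x hx
    rw [mem_filter] at hx
    refine (absorb hd hd1 hTo hK0 a13 ll rfl).trans ((hFc' 1 x hx.1).trans ?_)
    refine Nat.cast_le.2 (card_le_card fun y hy => ?_)
    rw [mem_filter] at hy
    have e1 := (Prod.mk.inj hy.2).2
    have e2 := (Prod.mk.inj (Prod.mk.inj hy.2).1).1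
    change zc (l n) y.2 = zc (l n) x.2 at e1
    change y.1 = x.1 at e2
    exact mem_filter.2 ⟨mem_filter.2 ⟨hy.1, (zc_nest a3 e1).trans hx.2⟩, e2, e1⟩
  · intro x hx
    rw [mem_filter] at hx
    refine (absorb hd hd1 hTn hK0 a13 lv rfl).trans ((hFc' 2 x hx.1).trans ?_)
    refine Nat.cast_le.2 (card_le_card fun y hy => ?_)
    rw [mem_filter] at hy
    have e1 := (Prod.mk.inj hy.2).2
    have e2 := (Prod.mk.inj (Prod.mk.inj hy.2).1).2
    change zc (j n) y.2 = zc (j n) x.2 at e1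
    refine mem_filter.2 ⟨mem_filter.2 ⟨hy.1, (zc_nest (a3.trans a4) e1).trans hx.2⟩, e1, ?_⟩
    intro k
    refine (box pv mv x (hFJ hx.1) y (hFJ hy.1) e2.symm k).trans ?_
    refine le_mul_of_one_le_left (mul_pos (hBp _) (hpos _)).le ?_
    exact Real.one_le_rpow_of_pos_of_le_one_of_nonpos hd hd1 (by linarith)

open Classical in
/-- **own count of a box** -/
theorem own_le_box (H : ExtZ B B' E J co monQ 2 X w monQ R' Tn To 0 0 0 PD D r o Er T ν own c₀)
    {p : Fin 11 → ℝ} (hp : p ∈ Leg monQ R') {ε : ℝ} (hε : 0 < ε) :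
    ∃ δ : ℝ, 0 < δ ∧ ∀ᶠ n in (U : Filter ℕ), ∀ x ∈ J n, ∀ F ⊆ J n,
      (∀ y ∈ F, y.1 = x.1 ∧ ∀ k, |co n x y k| ≤
        B'.d n ^ (-δ) * (B.d n ^ X n k * B'.d n ^ p k)) →
      (F.card : ℝ) ≤ To n * B'.d n ^ (-(own p) - ε) := by
  have hl : ∀ᶠ n in (U : Filter ℕ), Legal monQ (X n + w n • p) := by
    filter_upwards [H.win.legal ‖p‖] with n hn using hn p hp le_rfl
  obtain ⟨δ, hδ, _, hev⟩ := card_zlab_close (B' := B') (ε := ε / 2) H.win.chart H.win.base hl
    (by positivity)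
  refine ⟨δ, hδ, ?_⟩
  filter_upwards [hev, H.oprof.up (ε / 2) (by positivity), H.win.sub] with n b1 b2 b3 x hx F hF hb
  have hpos : ∀ t : ℝ, 0 < B'.d n ^ t := fun t => Real.rpow_pos_of_pos (B'.pos n) t
  have hTo := H.oprof.pos n
  have c1 := b1 x (b3 hx) F (hF.trans b3) fun y hy => (hb y hy).2
  have c2 : (F.card : ℝ) ≤ (To n * B'.d n ^ (-(own p + ε / 2))) *
      (F.image (zlab B E co monQ 2 X w n p)).card := by
    refine card_le_fib' F (zlab B E co monQ 2 X w n p) fun y hy => ?_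
    refine le_trans ?_ (b2 p hp y (hF hy))
    refine Nat.cast_le.2 (card_le_card fun z hz' => ?_)
    rw [mem_filter] at hz'
    refine mem_cls.2 ⟨hF hz'.1, ?_⟩
    change (z.1, zlab B E co monQ 2 X w n p z) = (y.1, zlab B E co monQ 2 X w n p y)
    rw [(hb z hz'.1).1, (hb y hy).1, hz'.2]
  calc (F.card : ℝ) ≤ (To n * B'.d n ^ (-(own p + ε / 2))) * B'.d n ^ (-(ε / 2)) :=
        c2.trans (mul_le_mul_of_nonneg_left c1 (mul_pos hTo (hpos _)).le)
    _ = _ := by rw [mul_assoc, ← Real.rpow_add (B'.pos n)]; congr 2; ring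

end Crest.Agent.R136.Cnt638
end

-- ▼ part R136/End14_882
section

/-!
# R136 (S0187): END, part 14 (helper882): finite pieces of the assembly
-/

set_option autoImplicit false
set_option linter.unusedVariables false

open Finset Filter Topology

namespace Crest.Agent.R136.End882

open Crest.Agent.R138.Ex926
open Crest.Agent.R136.Net191
open Crest.Agent.R136.NetQ186
open Crest.Agent.R136.GeoQ186
open Crest.Agent.R136.Gz779
open Crest.Agent.R136.Wq638
open Crest.Agent.R136.TL196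
open Crest.Agent.R138.Mk163 (zc zl rho alive own)
open Crest.Agent.R136.LmQ861 Crest.Agent.R136.HR829

/-- boxes with comparable lengths -/
theorem sbox_le {lam lam' w1 w2 a : ℝ} (hl : 0 < lam) (h1 : lam ≤ lam') (h2 : lam' ≤ 2 * lam)
    (hw1 : 0 < w1) (hw2 : 0 < w2) (ha : 0 < a) (s : Fin 11) :
    sbox lam w1 w2 a s ≤ 4 * sbox lam' w1 w2 a s := by
  have hl' : 0 < lam' := hl.trans_le h1
  have key : ∀ t : ℝ, 0 < t → t / lam ≤ 4 * (t / lam') := by
    intro t ht
    rw [← mul_div_assoc, div_le_div_iff₀ hl hl']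
    nlinarith
  have id' : ∀ t : ℝ, 0 < t → t ≤ 4 * t := fun t ht => by linarith
  have k1 : a / lam ^ 2 ≤ 4 * (a / lam' ^ 2) := by
    rw [← mul_div_assoc, div_le_div_iff₀ (by positivity) (by positivity)]
    have h3 : lam' ^ 2 ≤ 4 * lam ^ 2 := by nlinarith
    calc a * lam' ^ 2 ≤ a * (4 * lam ^ 2) := mul_le_mul_of_nonneg_left h3 ha.le
      _ = 4 * a * lam ^ 2 := by ring
  have q0 : lam ≤ 4 * lam' := by linarith
  have q2 := id' _ (div_pos hw2 hw1)
  have q3 := id' _ (div_pos ha hw2)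
  have q4 := id' _ (div_pos ha hw1)
  have q5 := key w1 hw1
  have q6 := key w2 hw2
  have q7 := key a ha
  have q8 := id' _ hw1
  have q9 := id' _ hw2
  have q10 := id' _ ha
  unfold sbox
  fin_cases s
  · exact q0
  · exact k1
  · exact q2
  · exact q3
  · exact q4
  · exact q5
  · exact q6
  · exact q7
  · exact q8
  · exact q9
  · exact q10

theorem sfac_pos {H Wa Wb Wy : ℝ} (hH : 0 < H) (ha : 0 < Wa) (hb : 0 < Wb) (hy : 0 < Wy)
    (k : Fin 11) : 0 < sfac H Wa Wb Wy k := by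
  fin_cases k <;> simp only [sfac, Matrix.cons_val, Fin.zero_eta, Fin.mk_one, Fin.reduceFinMk,
    Fin.isValue] <;> positivity

/-- **real closeness from closeness in the gauge chart** -/
theorem co_real {H Wa Wb Wy : ℝ} (hH : 0 < H) (ha : 0 < Wa) (hb : 0 < Wb) (hy : 0 < Wy)
    {h : Fin 6 → ℝ} {i j : Fq4} {d e C : ℝ} {X p : Fin 11 → ℝ} {k : Fin 11}
    (hc : |coQ (rg h (scl H Wa Wb Wy i)) (rg h (scl H Wa Wb Wy j)) k| ≤
      C * (d ^ xg X k * e ^ p k)) :
    |coQ (rg (gR H Wa Wb Wy h) i) (rg (gR H Wa Wb Wy h) j) k| ≤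
      C * (sd d X H Wa Wb Wy k * e ^ p k) := by
  have hs := sfac_pos hH ha hb hy k
  rw [rg_scl hH.ne' ha.ne' hb.ne' hy.ne', rg_scl hH.ne' ha.ne' hb.ne' hy.ne',
    coQ_scl hH.ne' ha.ne' hb.ne' hy.ne', abs_mul, abs_of_pos hs] at hc
  unfold sd
  rw [show C * (d ^ xg X k / sfac H Wa Wb Wy k * e ^ p k) =
    (C * (d ^ xg X k * e ^ p k)) / sfac H Wa Wb Wy k by ring, le_div_iff₀ hs]
  linarith

/-- flags before the gauge -/
theorem rg_flags (g : Fin 6 → ℝ) (i : Fq4) :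
    gA g i.z ((rg g i).pa i.z) ((rg g i).pb i.z) + (rg g i).fa = i.fa ∧
    gB g i.z ((rg g i).pa i.z) ((rg g i).pb i.z) + (rg g i).fb = i.fb := by
  constructor <;> simp only [rg_pa, rg_pb] <;> simp [rg]

open Classical in
/-- number of incidences of one line in one cell, one incidence per cell of level `m1` -/
theorem cell_count {I : Finset (ℕ × ℝ)} {m m1 : ℕ} (hm : m ≤ m1)
    (hone : ∀ x ∈ I, ∀ y ∈ I, x.1 = y.1 → zc m1 x.2 = zc m1 y.2 → x = y) (x : ℕ × ℝ) :
    ((I.filter fun y => y.1 = x.1 ∧ zc m y.2 = zc m x.2).card : ℝ) ≤ 2 ^ (m1 - m) := by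
  have h1 : (I.filter fun y => y.1 = x.1 ∧ zc m y.2 = zc m x.2).card ≤
      (Finset.Ico (zc m x.2 * 2 ^ (m1 - m)) ((zc m x.2 + 1) * 2 ^ (m1 - m))).card := by
    refine card_le_card_of_injOn (fun y => zc m1 y.2) (fun y hy => ?_) (fun y hy y' hy' h => ?_)
    · rw [mem_coe, mem_filter] at hy
      rw [mem_coe, mem_Ico]
      have h2 := hy.2.2
      rw [Crest.Agent.R136.Cnt638.zc_eq_div hm y.2] at h2
      push_cast at h2
      have hp : (0 : ℤ) < 2 ^ (m1 - m) := by positivity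
      have e1 := Int.ediv_mul_le (zc m1 y.2) hp.ne'
      have e2 := Int.lt_ediv_add_one_mul_self (zc m1 y.2) hp
      rw [h2] at e1 e2
      exact ⟨e1, e2⟩
    · rw [mem_coe, mem_filter] at hy hy'
      exact hone y hy.1 y' hy'.1 (hy.2.1.trans hy'.2.1.symm) h
  rw [Int.card_Ico] at h1
  have h2 : ((zc m x.2 + 1) * 2 ^ (m1 - m) - zc m x.2 * 2 ^ (m1 - m)).toNat = 2 ^ (m1 - m) := by
    have : (zc m x.2 + 1) * 2 ^ (m1 - m) - zc m x.2 * 2 ^ (m1 - m) =
        ((2 ^ (m1 - m) : ℕ) : ℤ) := by push_cast; ring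
    rw [this, Int.toNat_natCast]
  rw [h2] at h1
  exact_mod_cast h1

/-- **flatness of the window container** -/
theorem flat_win {g : Fin 6 → ℝ} {i : Fq4} {z1 s1 s2 m1 m2 k11 k12 k22 : ℝ} {e lam W1 W2 Th x u t Kp
    ρi : ℝ} (h4 : g 4 = 0) (h5 : g 5 = 0) (hei : |i.e| ≤ 1) (he : 0 < e) (he1 : 1000000 * e ≤ 1)
    (hlam : 0 < lam) (hW1 : 0 < W1) (hW2 : 0 < W2) (hTh : 0 < Th) (hx : 0 ≤ x) (hu : 0 ≤ u)
    (ht : 0 ≤ t) (hKp : 1 ≤ Kp) (hKp1 : Kp ≤ e ^ (-1 : ℝ)) (hρ0 : 0 ≤ ρi) (hρ : ρi ≤ 2 * (lam * e ^ u))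
    (c1 : |tau g i| * lam ≤ e ^ (x - 1) * (Th / W1)) (c2 : |g 2| * lam ≤ e ^ (-1 : ℝ) * (Th / W2))
    (c3 : |g 3| * W1 ≤ e ^ (-1 : ℝ) * (Th / W1)) (b1 : Th ≤ e ^ (t + 4) * W2)
    (b2 : W2 ≤ e ^ (t + 4) * W1) (hc : QCo g i i.e z1 s1 s2 m1 m2 k11 k12 k22) :
    Flat (1 / 2048) ρi (6 * Kp * (W1 * e ^ (t + u))) (2 * Kp * (W2 * e ^ (2 * t + u)))
      m1 m2 k11 k12 k22 := by
  have hep : ∀ s : ℝ, 0 < e ^ s := fun s => Real.rpow_pos_of_pos he s
  have hadd : ∀ s s' : ℝ, e ^ s * e ^ s' = e ^ (s + s') := fun s s' => (Real.rpow_add he s s').symm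
  have hle1 : e ≤ 1 := by linarith
  have hmon : ∀ {s s' : ℝ}, s' ≤ s → e ^ s ≤ e ^ s' := fun hs =>
    Real.rpow_le_rpow_of_exponent_ge he hle1 hs
  have hone : ∀ s : ℝ, 1 ≤ s → e ^ s ≤ e := fun s hs => by
    calc e ^ s ≤ e ^ (1 : ℝ) := hmon hs
      _ = e := Real.rpow_one e
  have hKp0 : 0 < Kp := by linarith
  set A : ℝ := 6 * Kp * (W1 * e ^ (t + u)) with hA
  set B : ℝ := 2 * Kp * (W2 * e ^ (2 * t + u)) with hB
  have hA0 : 0 < A := by have := hep (t + u); positivity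
  have hB0 : 0 < B := by have := hep (2 * t + u); positivity
  have hBA : B ≤ A := by
    have h1 : W2 * e ^ (2 * t + u) ≤ W1 * e ^ (t + u) := by
      calc W2 * e ^ (2 * t + u) ≤ (e ^ (t + 4) * W1) * e ^ (2 * t + u) :=
            mul_le_mul_of_nonneg_right b2 (hep _).le
        _ = W1 * e ^ (t + 4 + (2 * t + u)) := by rw [← hadd (t + 4) (2 * t + u)]; ring
        _ ≤ W1 * e ^ (t + u) := mul_le_mul_of_nonneg_left (hmon (by linarith)) hW1.le
    rw [hA, hB]
    have := mul_le_mul_of_nonneg_left h1 hKp0.le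
    have h3 : 0 ≤ Kp * (W1 * e ^ (t + u)) := by have := hep (t + u); positivity
    linarith
  refine flat_gau h4 h5 hei hρ0 (by norm_num) hB0 hBA hc ?_ ?_ ?_ ?_
  · have h1 : |tau g i| * ρi ≤ 2 * e ^ u * (e ^ (x - 1) * (Th / W1)) := by
      calc |tau g i| * ρi ≤ |tau g i| * (2 * (lam * e ^ u)) :=
            mul_le_mul_of_nonneg_left hρ (abs_nonneg _)
        _ = 2 * e ^ u * (|tau g i| * lam) := by ring
        _ ≤ 2 * e ^ u * (e ^ (x - 1) * (Th / W1)) := mul_le_mul_of_nonneg_left c1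
            (mul_nonneg two_pos.le (hep _).le)
    calc |tau g i| * ρi * A ≤ 2 * e ^ u * (e ^ (x - 1) * (Th / W1)) * A :=
          mul_le_mul_of_nonneg_right h1 hA0.le
      _ = 12 * Kp * Th * (e ^ u * e ^ (x - 1) * e ^ (t + u)) := by
          rw [hA]; field_simp; ring
      _ = 12 * Kp * Th * e ^ (u + (x - 1) + (t + u)) := by rw [hadd, hadd]
      _ ≤ 12 * Kp * (e ^ (t + 4) * W2) * e ^ (u + (x - 1) + (t + u)) := by
          have := hep (u + (x - 1) + (t + u))
          gcongr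
      _ = 12 * Kp * W2 * e ^ (t + 4 + (u + (x - 1) + (t + u))) := by rw [← hadd (t + 4)]; ring
      _ ≤ 12 * Kp * W2 * e ^ (1 + (2 * t + u)) := by
          have : 0 < 12 * Kp * W2 := by positivity
          exact mul_le_mul_of_nonneg_left (hmon (by linarith)) this.le
      _ = 12 * e * (Kp * (W2 * e ^ (2 * t + u))) := by
          rw [Real.rpow_add he, Real.rpow_one]; ring
      _ ≤ 1 / 2048 / 2 * B := by
          rw [hB]
          have h2 : 0 < Kp * (W2 * e ^ (2 * t + u)) := by have := hep (2 * t + u); positivity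
          have h3 : 12 * e ≤ 1 / 2048 := by linarith
          calc 12 * e * (Kp * (W2 * e ^ (2 * t + u))) ≤ 1 / 2048 * (Kp * (W2 * e ^ (2 * t + u))) :=
                mul_le_mul_of_nonneg_right h3 h2.le
            _ = _ := by ring
  · have h1 : Th / W2 ≤ e ^ (t + 4) := by rwa [div_le_iff₀ hW2]
    calc |g 2| * ρi ≤ |g 2| * (2 * (lam * e ^ u)) := mul_le_mul_of_nonneg_left hρ (abs_nonneg _)
      _ = 2 * e ^ u * (|g 2| * lam) := by ring
      _ ≤ 2 * e ^ u * (e ^ (-1 : ℝ) * (Th / W2)) := mul_le_mul_of_nonneg_left c2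
            (mul_nonneg two_pos.le (hep _).le)
      _ ≤ 2 * e ^ u * (e ^ (-1 : ℝ) * e ^ (t + 4)) := by
          have := hep u
          have := hep (-1)
          gcongr
      _ = 2 * e ^ (u + (-1 + (t + 4))) := by rw [hadd, mul_assoc, hadd]
      _ ≤ 2 * e := by
          have := hone (u + (-1 + (t + 4))) (by linarith)
          linarith
      _ ≤ 1 / 2048 / 4 := by linarith
  · have h1 : |g 3| ≤ e ^ (-1 : ℝ) * (Th / W1) / W1 := by rwa [le_div_iff₀ hW1]
    calc |g 3| * A ^ 2 ≤ e ^ (-1 : ℝ) * (Th / W1) / W1 * A ^ 2 := by gcongr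
      _ = 36 * Kp * Kp * Th * (e ^ (-1 : ℝ) * e ^ (t + u) * e ^ (t + u)) := by
          rw [hA]; field_simp; ring
      _ = 36 * Kp * Kp * Th * e ^ (-1 + (t + u) + (t + u)) := by rw [hadd, hadd]
      _ ≤ 36 * Kp * e ^ (-1 : ℝ) * (e ^ (t + 4) * W2) * e ^ (-1 + (t + u) + (t + u)) := by
          have := hep (-1 + (t + u) + (t + u))
          gcongr
      _ = 36 * Kp * W2 * e ^ (-1 + (t + 4) + (-1 + (t + u) + (t + u))) := by
          rw [← hadd (-1 + (t + 4)), ← hadd (-1) (t + 4)]; ring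
      _ ≤ 36 * Kp * W2 * e ^ (1 + (2 * t + u)) := by
          have : 0 < 36 * Kp * W2 := by positivity
          exact mul_le_mul_of_nonneg_left (hmon (by linarith)) this.le
      _ = 36 * e * (Kp * (W2 * e ^ (2 * t + u))) := by
          rw [Real.rpow_add he, Real.rpow_one]; ring
      _ ≤ 1 / 2048 * B := by
          rw [hB]
          have h2 : 0 < Kp * (W2 * e ^ (2 * t + u)) := by have := hep (2 * t + u); positivity
          have h3 : 36 * e ≤ 1 / 1024 := by linarith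
          calc 36 * e * (Kp * (W2 * e ^ (2 * t + u))) ≤ 1 / 1024 * (Kp * (W2 * e ^ (2 * t + u))) :=
                mul_le_mul_of_nonneg_right h3 h2.le
            _ = _ := by ring
  · have h1 : |g 3| ≤ e ^ (-1 : ℝ) * (Th / W1) / W1 := by rwa [le_div_iff₀ hW1]
    have h2 : Th ≤ e ^ (t + 4) * W1 := by
      calc Th ≤ e ^ (t + 4) * W2 := b1
        _ ≤ 1 * W2 := by
            have : e ^ (t + 4) ≤ 1 := (hone _ (by linarith)).trans hle1
            gcongr
        _ = W2 := one_mul _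
        _ ≤ _ := b2
    have h3 : Th / W1 ≤ e ^ (t + 4) := by rwa [div_le_iff₀ hW1]
    calc 2 * |g 3| * A ≤ 2 * (e ^ (-1 : ℝ) * (Th / W1) / W1) * A := by gcongr
      _ = 12 * Kp * (Th / W1) * (e ^ (-1 : ℝ) * e ^ (t + u)) := by
          rw [hA]; field_simp; ring
      _ ≤ 12 * e ^ (-1 : ℝ) * e ^ (t + 4) * (e ^ (-1 : ℝ) * e ^ (t + u)) := by
          have h4 := hep (-1)
          have h5 := hep (t + u)
          have h6 : 0 < Th / W1 := by positivity
          gcongr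
      _ = 12 * e ^ (-1 + (t + 4) + (-1 + (t + u))) := by
          rw [← hadd (-1 + (t + 4)), ← hadd (-1) (t + 4), ← hadd (-1) (t + u)]; ring
      _ ≤ 12 * e := by
          have := hone (-1 + (t + 4) + (-1 + (t + u))) (by linarith)
          linarith
      _ ≤ 1 / 2048 := by linarith

end Crest.Agent.R136.End882
end

-- ▼ part R136/End15_882

/-!
# R136 (S0187): END, part 15 (helper882): levels of the window
-/

set_option autoImplicit false
set_option linter.unusedVariables false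

open Finset Filter Topology

namespace Crest.Agent.R136.End882

open Crest.Agent.R138.Mk163 (zc zl rho alive own)
open Crest.Agent.R136.HR829

theorem rho_lt {i j : ℕ} (h : rho j < rho i) : i < j := by
  unfold rho at h
  rw [div_lt_div_iff₀ (by positivity) (by positivity), one_mul, one_mul] at h
  exact (pow_lt_pow_iff_right₀ (by norm_num)).1 h

/-- number of scales -/
noncomputable def nM (e s : ℝ) : ℕ := lvl (e ^ s)
/-- window level -/
noncomputable def nK (η : ℝ) (M : ℕ) : ℕ := Nat.ceil (3 / 4 * η * M)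

/-- **levels** -/
theorem lev_facts {η : ℝ} (hη0 : 0 < η) (hη1 : η ≤ 1 / 4) {M₁ : ℕ} (hM₁ : 4 ≤ η * M₁)
    {e lam u v δ κ : ℝ} (he : 0 < e) (he1 : e < 1) (hlam : 0 < lam) (hlam1 : lam ≤ 1) (hu : 0 < u)
    (huv : u < v) (hδ : 0 < δ) (hδ1 : δ < v - u) (E3 : (2 : ℝ) ^ (M₁ + 1) ≤ e ^ (-(v - u - δ)))
    (E8 : 4 * e ^ δ < 1) (E9 : 2 * e ^ (κ / 2) ≤ 1) :
    lam * e ^ u ≤ rho (lvl (lam * e ^ u)) ∧ rho (lvl (lam * e ^ u)) ≤ 2 * (lam * e ^ u) ∧
    lam * e ^ v ≤ rho (lvl (lam * e ^ v)) ∧ rho (lvl (lam * e ^ v)) ≤ 2 * (lam * e ^ v) ∧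
    (2 : ℝ) ^ nM e (v - u - δ) ≤ e ^ (-(v - u - δ)) ∧
    e ^ (-(v - u - δ)) ≤ (2 : ℝ) ^ (nM e (v - u - δ) + 1) ∧ M₁ ≤ nM e (v - u - δ) ∧
    η / 2 * nM e (v - u - δ) ≤ nK η (nM e (v - u - δ)) ∧
    (nK η (nM e (v - u - δ)) : ℝ) ≤ η * nM e (v - u - δ) ∧
    nK η (nM e (v - u - δ)) ≤ nM e (v - u - δ) ∧
    lvl (lam * e ^ u) + nM e (v - u - δ) + 1 ≤ lvl (lam * e ^ v) ∧
    lam * e ^ (u + (v - u - δ) * (1 - 3 / 4 * η) + κ / 2) ≤
      rho (lvl (lam * e ^ u) + nM e (v - u - δ) + 1 - nK η (nM e (v - u - δ))) ∧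
    ((2 : ℝ) ^ (nM e (v - u - δ) + 1 - nK η (nM e (v - u - δ))))⁻¹ ≤
      2 * e ^ ((v - u - δ) * (1 - 3 / 4 * η)) := by
  have hep : ∀ s : ℝ, 0 < e ^ s := fun s => Real.rpow_pos_of_pos he s
  have he01 : ∀ s : ℝ, 0 ≤ s → e ^ s ≤ 1 := fun s hs =>
    Real.rpow_le_one he.le he1.le hs
  have hle : ∀ s : ℝ, 0 ≤ s → lam * e ^ s ≤ 1 := fun s hs => by
    have := he01 s hs
    have := hep s
    nlinarith
  obtain ⟨i1, i2⟩ := lvl_spec (y := lam * e ^ u) (mul_pos hlam (hep _)) (hle u hu.le)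
  obtain ⟨j1, j2⟩ := lvl_spec (y := lam * e ^ v) (mul_pos hlam (hep _)) (hle v (by linarith))
  set i := lvl (lam * e ^ u) with hi
  set j := lvl (lam * e ^ v) with hj
  set s : ℝ := v - u - δ with hs
  have hs0 : 0 < s := by rw [hs]; linarith
  obtain ⟨m1, m2⟩ := lvl_spec (y := e ^ s) (hep _) (he01 s hs0.le)
  set M := nM e s with hM
  change e ^ s ≤ rho M at m1
  change rho M < 2 * e ^ s at m2
  have hneg : e ^ (-s) = (e ^ s)⁻¹ := Real.rpow_neg he.le s
  have h2M : (0 : ℝ) < 2 ^ M := by positivity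
  have hρM : rho M = ((2 : ℝ) ^ M)⁻¹ := by unfold rho; rw [one_div]
  have a1 : (2 : ℝ) ^ M ≤ e ^ (-s) := by
    rw [hneg, ← inv_inv ((2 : ℝ) ^ M), ← hρM]
    exact inv_anti₀ (hep s) m1
  have a2 : e ^ (-s) ≤ (2 : ℝ) ^ (M + 1) := by
    rw [hneg, pow_succ, inv_le_iff_one_le_mul₀ (hep s)]
    have h1 : ((2 : ℝ) ^ M)⁻¹ < 2 * e ^ s := by rw [← hρM]; exact m2
    have h2 : 1 < 2 ^ M * (2 * e ^ s) := by
      calc (1 : ℝ) = 2 ^ M * ((2 : ℝ) ^ M)⁻¹ := (mul_inv_cancel₀ h2M.ne').symm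
        _ < 2 ^ M * (2 * e ^ s) := by gcongr
    linarith
  have a3 : M₁ ≤ M := by
    have h1 : (2 : ℝ) ^ (M₁ + 1) ≤ 2 ^ (M + 1) := E3.trans a2
    have := (pow_le_pow_iff_right₀ (by norm_num : (1 : ℝ) < 2)).1 h1
    omega
  have hM4 : 4 ≤ η * M := by
    have : (M₁ : ℝ) ≤ M := by exact_mod_cast a3
    nlinarith
  have hM0 : (0 : ℝ) ≤ M := Nat.cast_nonneg _
  set k := nK η M with hk
  have k1 : 3 / 4 * η * M ≤ k := Nat.le_ceil _
  have k2 : (k : ℝ) < 3 / 4 * η * M + 1 := Nat.ceil_lt_add_one (by positivity)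
  have k3 : (k : ℝ) ≤ η * M := by linarith
  have k4 : k ≤ M := by
    have : (k : ℝ) ≤ M := by nlinarith
    exact_mod_cast this
  have hρi := HR829.rho_pos i
  -- the power
  have hexp : 0 ≤ 1 - 3 / 4 * η := by linarith
  have hpow : ((2 : ℝ) ^ M)⁻¹ * (2 : ℝ) ^ (3 / 4 * η * M) = rho M ^ (1 - 3 / 4 * η) := by
    rw [hρM, Real.inv_rpow h2M.le, ← Real.rpow_natCast, ← Real.rpow_mul (by norm_num),
      ← Real.rpow_neg (by norm_num), ← Real.rpow_neg (by norm_num), ← Real.rpow_add (by norm_num)]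
    congr 1; ring
  have hwin := rho_window (i := i) k4
  refine ⟨i1, i2.le, j1, j2.le, a1, a2, a3, by nlinarith, k3, k4, ?_, ?_, ?_⟩
  · have h1 : rho j < rho (i + M + 1) := by
      have e1 : rho (i + M + 1) = rho i * rho M / 2 := by
        unfold rho
        rw [pow_succ, pow_add]
        field_simp
      have e2 : lam * e ^ u * e ^ s / 2 ≤ rho (i + M + 1) := by
        rw [e1]
        have := hep s
        have := hep u
        gcongr
      have e3 : lam * e ^ u * e ^ s = lam * (e ^ v * e ^ (-δ)) := by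
        rw [mul_assoc, ← Real.rpow_add he, ← Real.rpow_add he]
        congr 2
        rw [hs]; ring
      have e4 : 4 < e ^ (-δ) := by
        have h1 := hep δ
        rw [Real.rpow_neg he.le, lt_inv_comm₀ (by norm_num) h1]
        rw [lt_inv_comm₀ h1 (by norm_num)]
        rw [← one_div, lt_div_iff₀ h1]
        exact E8
      have e5 : 2 * (lam * e ^ v) < lam * (e ^ v * e ^ (-δ)) / 2 := by
        have h1 : 0 < lam * e ^ v := mul_pos hlam (hep _)
        nlinarith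
      linarith
    have h3 := rho_lt h1
    omega
  · rw [hwin, pow_succ]
    have e1 : (2 : ℝ) ^ (3 / 4 * η * M) ≤ 2 ^ k := by
      rw [← Real.rpow_natCast 2 k]
      exact Real.rpow_le_rpow_of_exponent_le (by norm_num) k1
    have e2 : e ^ (s * (1 - 3 / 4 * η)) ≤ rho M ^ (1 - 3 / 4 * η) := by
      rw [Real.rpow_mul he.le]
      exact Real.rpow_le_rpow (hep s).le m1 hexp
    have e3 : rho i * 2 ^ k / (2 ^ M * 2) = rho i * (((2 : ℝ) ^ M)⁻¹ * 2 ^ k) / 2 := by
      field_simp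
    rw [e3]
    calc lam * e ^ (u + s * (1 - 3 / 4 * η) + κ / 2) =
        lam * e ^ u * e ^ (s * (1 - 3 / 4 * η)) * e ^ (κ / 2) := by
          rw [Real.rpow_add he, Real.rpow_add he]; ring
      _ ≤ lam * e ^ u * e ^ (s * (1 - 3 / 4 * η)) * (1 / 2) := by
          have h1 : 0 ≤ lam * e ^ u * e ^ (s * (1 - 3 / 4 * η)) :=
            (mul_pos (mul_pos hlam (hep _)) (hep _)).le
          exact mul_le_mul_of_nonneg_left (by linarith) h1
      _ ≤ rho i * (rho M ^ (1 - 3 / 4 * η)) * (1 / 2) := by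
          have h1 := hep u
          have h2 := hep (s * (1 - 3 / 4 * η))
          gcongr
      _ = rho i * (((2 : ℝ) ^ M)⁻¹ * (2 : ℝ) ^ (3 / 4 * η * M)) / 2 := by rw [hpow]; ring
      _ ≤ rho i * (((2 : ℝ) ^ M)⁻¹ * 2 ^ k) / 2 := by gcongr
  · have e0 : ((2 : ℝ) ^ (M + 1 - k))⁻¹ = 2 ^ k / 2 ^ (M + 1) := by
      have h1 : (2 : ℝ) ^ (M + 1 - k) * 2 ^ k = 2 ^ (M + 1) := by
        rw [← pow_add]; congr 1; omega
      rw [← h1]
      field_simp
    have e1 : (2 : ℝ) ^ k ≤ 2 * (2 : ℝ) ^ (3 / 4 * η * M) := by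
      rw [← Real.rpow_natCast 2 k]
      calc (2 : ℝ) ^ (k : ℝ) ≤ (2 : ℝ) ^ (1 + 3 / 4 * η * M) :=
            Real.rpow_le_rpow_of_exponent_le (by norm_num) (by linarith)
        _ = 2 * (2 : ℝ) ^ (3 / 4 * η * M) := by rw [Real.rpow_add (by norm_num), Real.rpow_one]
    have e2 : rho M ^ (1 - 3 / 4 * η) ≤ 2 * e ^ (s * (1 - 3 / 4 * η)) := by
      have hρM0 := HR829.rho_pos M
      calc rho M ^ (1 - 3 / 4 * η) ≤ (2 * e ^ s) ^ (1 - 3 / 4 * η) :=
            Real.rpow_le_rpow hρM0.le m2.le hexp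
        _ = 2 ^ (1 - 3 / 4 * η) * e ^ (s * (1 - 3 / 4 * η)) := by
            rw [Real.mul_rpow (by norm_num) (hep s).le, ← Real.rpow_mul he.le]
        _ ≤ 2 ^ (1 : ℝ) * e ^ (s * (1 - 3 / 4 * η)) := by
            have := hep (s * (1 - 3 / 4 * η))
            have : (2 : ℝ) ^ (1 - 3 / 4 * η) ≤ 2 ^ (1 : ℝ) :=
              Real.rpow_le_rpow_of_exponent_le (by norm_num) (by linarith)
            gcongr
        _ = _ := by rw [Real.rpow_one]
    calc ((2 : ℝ) ^ (M + 1 - k))⁻¹ = 2 ^ k / 2 ^ (M + 1) := e0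
      _ ≤ 2 * (2 : ℝ) ^ (3 / 4 * η * M) / 2 ^ (M + 1) := by gcongr
      _ = ((2 : ℝ) ^ M)⁻¹ * (2 : ℝ) ^ (3 / 4 * η * M) := by rw [pow_succ]; field_simp
      _ = rho M ^ (1 - 3 / 4 * η) := hpow
      _ ≤ _ := e2

end Crest.Agent.R136.End882
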