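import Crest.Agent.R136.Net4_186
import Crest.Agent.R136.Sh1_605

-- ▼ part R136/Geo1_186
section

/-!
# R136: a legal box of the gauge chart is one sheet (helper186)

`gau g z a b` : quadratic gauge; `TrueLn g i t` : `t : Ln4` is the true line of the incidence `i` of
the gauge chart `Fq4` (coordinates of `ℝ³` in the order `(Y, A, B)`), i.e.
`Y = gauge (z, A, B) + height`.

`box_move` : relative coordinates at another height; `sheetQ` : the sheet of an incidence;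
`box_inSheet` : a chart box around `i` is contained in the sheet of `i`.
-/

set_option autoImplicit false
set_option linter.unusedVariables false

namespace Crest.Agent.R136.GeoQ186

open Crest.Agent.R136.NetQ186
open Crest.Agent.R136.Sh605

/-- the quadratic gauge -/
def gau (g : Fin 6 → ℝ) (z a b : ℝ) : ℝ :=
  g 0 * z ^ 2 + g 1 * (z * a) + g 2 * (z * b) + g 3 * a ^ 2 + g 4 * (a * b) + g 5 * b ^ 2

theorem gau_zero (z a b : ℝ) : gau 0 z a b = 0 := by simp [gau]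

/-- `t` is the true line of the incidence `i` of the gauge chart -/
def TrueLn (g : Fin 6 → ℝ) (i : Fq4) (t : Ln4) : Prop :=
  ∀ z, t.pos z 0 = i.py z + gau g z (i.pa z) (i.pb z) ∧ t.pos z 1 = i.pa z ∧ t.pos z 2 = i.pb z

/-- relative position at the height `z`, wide lateral -/
def ra (i j : Fq4) (z : ℝ) : ℝ := j.pa z - i.pa z
/-- relative position at the height `z`, narrow lateral -/
def rb (i j : Fq4) (z : ℝ) : ℝ := (j.pb z - i.pb z) - i.e * (j.pa z - i.pa z)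
/-- relative position at the height `z`, normal -/
def rn (i j : Fq4) (z : ℝ) : ℝ :=
  (j.py z - i.py z) - i.fa * (j.pa z - i.pa z) - i.fb * (j.pb z - i.pb z)

theorem ra_eq (i j : Fq4) (z : ℝ) : ra i j z = coQ i j 8 + (z - i.z) * coQ i j 5 := by
  simp only [ra, coQ, Fq4.pa, Matrix.cons_val]; ring

theorem rb_eq (i j : Fq4) (z : ℝ) : rb i j z = coQ i j 9 + (z - i.z) * coQ i j 6 := by
  simp only [rb, coQ, Fq4.pa, Fq4.pb, Matrix.cons_val]; ring

theorem rn_eq (i j : Fq4) (z : ℝ) :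
    rn i j z = coQ i j 10 + (z - i.z) * coQ i j 7 + (z - i.z) ^ 2 * coQ i j 1 := by
  simp only [rn, coQ, Fq4.pa, Fq4.pb, Fq4.py, Fq4.vy, Matrix.cons_val]; ring

theorem box_move {i j : Fq4} {s : Fin 11 → ℝ} (hs : ∀ k, |coQ i j k| ≤ s k) {z ρ : ℝ}
    (hz : |z - i.z| ≤ ρ) :
    |ra i j z| ≤ s 8 + ρ * s 5 ∧ |rb i j z| ≤ s 9 + ρ * s 6 ∧
      |rn i j z| ≤ s 10 + ρ * s 7 + ρ ^ 2 * s 1 := by
  have hρ : 0 ≤ ρ := (abs_nonneg _).trans hz
  refine ⟨?_, ?_, ?_⟩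
  · rw [ra_eq]
    exact aux_a2 (hs 8) (aux_m2 hz (hs 5))
  · rw [rb_eq]
    exact aux_a2 (hs 9) (aux_m2 hz (hs 6))
  · rw [rn_eq]
    refine aux_a2 (aux_a2 (hs 10) (aux_m2 hz (hs 7))) (aux_m2 ?_ (hs 1))
    rw [abs_pow]
    exact pow_le_pow_left₀ (abs_nonneg _) hz 2

/-! ### the frame -/

/-- `√(1 + e²)` -/
noncomputable def nu (e : ℝ) : ℝ := Real.sqrt (1 + e ^ 2)

theorem nu_sq (e : ℝ) : nu e ^ 2 = 1 + e ^ 2 := Real.sq_sqrt (by positivity)

theorem nu_ge (e : ℝ) : 1 ≤ nu e := by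
  have h := nu_sq e
  have h0 : 0 ≤ nu e := Real.sqrt_nonneg _
  nlinarith [sq_nonneg e]

theorem nu_pos (e : ℝ) : 0 < nu e := lt_of_lt_of_le one_pos (nu_ge e)

theorem nu_le {e : ℝ} (he : |e| ≤ 1) : nu e ≤ 3 / 2 := by
  have h := nu_sq e
  have h0 : 0 ≤ nu e := Real.sqrt_nonneg _
  have h1 : e ^ 2 ≤ 1 := by
    rw [← sq_abs]
    exact pow_le_one₀ (abs_nonneg _) he
  nlinarith

/-- the frame with `e 0` the `Y`-axis and `e 1` the axis `(1, e)` of the `(A, B)`-plane -/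
noncomputable def frm (e : ℝ) : Fin 3 → V3 :=
  ![![1, 0, 0], ![0, 1 / nu e, e / nu e], ![0, -e / nu e, 1 / nu e]]

theorem frm_ortho (e : ℝ) : Ortho (frm e) := by
  have h := nu_sq e
  have hp := (nu_pos e).ne'
  have h1 : 1 / nu e * (1 / nu e) + e / nu e * (e / nu e) = 1 := by
    field_simp
    linarith
  have h2 : -e / nu e * (-e / nu e) + 1 / nu e * (1 / nu e) = 1 := by
    field_simp
    linarith
  have h3 : 1 / nu e * (-e / nu e) + e / nu e * (1 / nu e) = 0 := by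
    field_simp
    ring
  intro i j
  fin_cases i <;> fin_cases j <;>
    simp only [frm, dt, Fin.zero_eta, Fin.mk_one, Fin.reduceFinMk, Matrix.cons_val,
      Fin.isValue, if_true, mul_zero, zero_mul, add_zero, zero_add, mul_one, Fin.reduceEq,
      if_false]
  · exact h1
  · exact h3
  · linarith
  · exact h2


theorem dt_frm1 (e : ℝ) (x : V3) : dt (frm e 1) x = (x 1 + e * x 2) / nu e := by
  simp only [frm, dt, Matrix.cons_val, zero_mul]
  ring

theorem dt_frm2 (e : ℝ) (x : V3) : dt (frm e 2) x = (x 2 - e * x 1) / nu e := by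
  simp only [frm, dt, Matrix.cons_val, zero_mul]
  ring


/-! ### the quadratic function of an incidence -/

/-- the function vanishing on the flagged sheet of the incidence `i` -/
def qf (g : Fin 6 → ℝ) (i : Fq4) (z : ℝ) (x : V3) : ℝ :=
  x 0 - gau g z (x 1) (x 2) - (i.py z + i.fa * (x 1 - i.pa z) + i.fb * (x 2 - i.pb z))

theorem qf_isQ (g : Fin 6 → ℝ) (i : Fq4) : IsQ (qf g i) := by
  refine ⟨-(i.y0 - i.fa * i.A - i.fb * i.B), -(i.y1 - i.fa * i.ca - i.fb * i.cb),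
    -(g 0 + i.y2), ![1, -i.fa, -i.fb], ![0, -g 1, -g 2],
    ![![0, 0, 0], ![0, -g 3, -g 4], ![0, 0, -g 5]], ?_⟩
  intro z x
  simp only [qf, gau, Fq4.py, Fq4.pa, Fq4.pb, Fin.sum_univ_three, Matrix.cons_val]
  ring


theorem qf_line {g : Fin 6 → ℝ} {i j : Fq4} {t : Ln4} (h : TrueLn g j t) (z : ℝ) :
    qf g i z (t.pos z) = rn i j z := by
  obtain ⟨h0, h1, h2⟩ := h z
  simp only [qf, rn, h0, h1, h2]
  ring


/-! ### the sheet of an incidence -/



end Crest.Agent.R136.GeoQ186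
end

-- ▼ part R136/Geo2_186

/-!
# R136: change of gauge (helper186)

`rg h i` : the incidence `i` of the gauge chart after subtracting the quadratic function
`gau h (z, A, B)` from the heights (and its gradient at the point of `i` from the flags).
`trueLn_rg` : the gauge `g` becomes `g + h`; `mkQ g t z e Fa Fb` : the incidence made of a true line,
a height and a true flag; `coQ_rg` : the relative coordinates after the change of gauge.
-/

set_option autoImplicit false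
set_option linter.unusedVariables false

namespace Crest.Agent.R136.GeoQ186

open Crest.Agent.R136.NetQ186
open Crest.Agent.R136.Sh605

/-- derivative of the gauge in the direction `A` -/
def gA (g : Fin 6 → ℝ) (z a b : ℝ) : ℝ := g 1 * z + 2 * g 3 * a + g 4 * b

/-- derivative of the gauge in the direction `B` -/
def gB (g : Fin 6 → ℝ) (z a b : ℝ) : ℝ := g 2 * z + g 4 * a + 2 * g 5 * b

/-- change of gauge -/
def rg (h : Fin 6 → ℝ) (i : Fq4) : Fq4 where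
  A := i.A
  B := i.B
  ca := i.ca
  cb := i.cb
  y0 := i.y0 - (h 3 * i.A ^ 2 + h 4 * (i.A * i.B) + h 5 * i.B ^ 2)
  y1 := i.y1 - (h 1 * i.A + h 2 * i.B + 2 * h 3 * (i.A * i.ca) +
    h 4 * (i.A * i.cb + i.B * i.ca) + 2 * h 5 * (i.B * i.cb))
  y2 := i.y2 - (h 0 + h 1 * i.ca + h 2 * i.cb + h 3 * i.ca ^ 2 + h 4 * (i.ca * i.cb) +
    h 5 * i.cb ^ 2)
  z := i.z
  e := i.e
  fa := i.fa - gA h i.z (i.pa i.z) (i.pb i.z)
  fb := i.fb - gB h i.z (i.pa i.z) (i.pb i.z)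

theorem rg_pa (h : Fin 6 → ℝ) (i : Fq4) (z : ℝ) : (rg h i).pa z = i.pa z := rfl
theorem rg_pb (h : Fin 6 → ℝ) (i : Fq4) (z : ℝ) : (rg h i).pb z = i.pb z := rfl

theorem rg_py (h : Fin 6 → ℝ) (i : Fq4) (z : ℝ) :
    (rg h i).py z = i.py z - gau h z (i.pa z) (i.pb z) := by
  simp only [rg, Fq4.py, Fq4.pa, Fq4.pb, gau]; ring

theorem rg_vy (h : Fin 6 → ℝ) (i : Fq4) (z : ℝ) :
    (rg h i).vy z = i.vy z - (2 * h 0 * z + h 1 * (i.pa z + z * i.ca) + h 2 * (i.pb z + z * i.cb) +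
      2 * h 3 * (i.pa z * i.ca) + h 4 * (i.pa z * i.cb + i.pb z * i.ca) +
      2 * h 5 * (i.pb z * i.cb)) := by
  simp only [rg, Fq4.vy, Fq4.pa, Fq4.pb]; ring



/-- the same true line -/
theorem trueLn_rg {g h : Fin 6 → ℝ} {i : Fq4} {t : Ln4} (H : TrueLn g i t) :
    TrueLn (g + h) (rg h i) t := by
  intro z
  obtain ⟨h0, h1, h2⟩ := H z
  refine ⟨?_, ?_, ?_⟩
  · rw [h0, rg_py, rg_pa, rg_pb]
    simp only [gau, Pi.add_apply]
    ring
  · rw [h1, rg_pa]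
  · rw [h2, rg_pb]

/-- the incidence of the straight chart of a true line (coordinates `(Y, A, B)`), a height and a
true flag -/
def mkT (t : Ln4) (z e Fa Fb : ℝ) : Fq4 where
  A := t.p 1
  B := t.p 2
  ca := t.v 1
  cb := t.v 2
  y0 := t.p 0
  y1 := t.v 0
  y2 := 0
  z := z
  e := e
  fa := Fa
  fb := Fb

/-- the incidence of the gauge chart of a true line, a height and a true flag -/
def mkQ (g : Fin 6 → ℝ) (t : Ln4) (z e Fa Fb : ℝ) : Fq4 := rg g (mkT t z e Fa Fb)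

theorem trueLn_mkT (t : Ln4) (z e Fa Fb : ℝ) : TrueLn 0 (mkT t z e Fa Fb) t := by
  intro s
  simp [mkT, Fq4.py, Fq4.pa, Fq4.pb, Ln4.pos, gau_zero]
  ring

theorem trueLn_mkQ (g : Fin 6 → ℝ) (t : Ln4) (z e Fa Fb : ℝ) :
    TrueLn g (mkQ g t z e Fa Fb) t := by
  have := trueLn_rg (h := g) (trueLn_mkT t z e Fa Fb)
  rwa [zero_add] at this


/-- **relative coordinates after a change of gauge.**  With `x = coQ i j`, `ΔA = x 8`,
`ΔB = x 9 + e x 8`, `ΔCa = x 5`, `ΔCb = x 6 + e x 5`. -/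
theorem coQ_rg (h : Fin 6 → ℝ) (i j : Fq4) :
    coQ (rg h i) (rg h j) 0 = coQ i j 0 ∧
    coQ (rg h i) (rg h j) 1 = coQ i j 1 -
      (h 1 * coQ i j 5 + h 2 * (coQ i j 6 + i.e * coQ i j 5) + h 3 * (coQ i j 5 * (i.ca + j.ca)) +
       h 4 * (j.ca * (coQ i j 6 + i.e * coQ i j 5) + i.cb * coQ i j 5) +
       h 5 * ((coQ i j 6 + i.e * coQ i j 5) * (i.cb + j.cb))) ∧
    coQ (rg h i) (rg h j) 2 = coQ i j 2 ∧
    coQ (rg h i) (rg h j) 3 = coQ i j 3 -
      (gB h j.z (j.pa j.z) (j.pb j.z) - gB h i.z (i.pa i.z) (i.pb i.z)) ∧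
    coQ (rg h i) (rg h j) 4 = coQ i j 4 -
      ((gA h j.z (j.pa j.z) (j.pb j.z) - gA h i.z (i.pa i.z) (i.pb i.z)) +
        i.e * (gB h j.z (j.pa j.z) (j.pb j.z) - gB h i.z (i.pa i.z) (i.pb i.z))) ∧
    coQ (rg h i) (rg h j) 5 = coQ i j 5 ∧
    coQ (rg h i) (rg h j) 6 = coQ i j 6 ∧
    coQ (rg h i) (rg h j) 7 = coQ i j 7 -
      (h 1 * coQ i j 8 + h 2 * (coQ i j 9 + i.e * coQ i j 8) + 2 * h 3 * (coQ i j 8 * j.ca) +
       h 4 * (coQ i j 8 * j.cb + (coQ i j 9 + i.e * coQ i j 8) * j.ca) +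
       2 * h 5 * ((coQ i j 9 + i.e * coQ i j 8) * j.cb)) ∧
    coQ (rg h i) (rg h j) 8 = coQ i j 8 ∧
    coQ (rg h i) (rg h j) 9 = coQ i j 9 ∧
    coQ (rg h i) (rg h j) 10 = coQ i j 10 -
      (h 3 * coQ i j 8 ^ 2 + h 4 * (coQ i j 8 * (coQ i j 9 + i.e * coQ i j 8)) +
       h 5 * (coQ i j 9 + i.e * coQ i j 8) ^ 2) := by
  have hz : ∀ k : Fq4, (rg h k).z = k.z := fun _ => rfl
  have he : ∀ k : Fq4, (rg h k).e = k.e := fun _ => rfl
  have hca : ∀ k : Fq4, (rg h k).ca = k.ca := fun _ => rfl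
  have hcb : ∀ k : Fq4, (rg h k).cb = k.cb := fun _ => rfl
  have hy2 : ∀ k : Fq4, (rg h k).y2 = k.y2 - (h 0 + h 1 * k.ca + h 2 * k.cb + h 3 * k.ca ^ 2 +
    h 4 * (k.ca * k.cb) + h 5 * k.cb ^ 2) := fun _ => rfl
  have hfa : ∀ k : Fq4, (rg h k).fa = k.fa - gA h k.z (k.pa k.z) (k.pb k.z) := fun _ => rfl
  have hfb : ∀ k : Fq4, (rg h k).fb = k.fb - gB h k.z (k.pa k.z) (k.pb k.z) := fun _ => rfl
  simp only [coQ, Matrix.cons_val, rg_pa, rg_pb, rg_py, rg_vy, hz, he, hca, hcb, hy2, hfa, hfb]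
  refine ⟨trivial, ?_, trivial, ?_, ?_, trivial, trivial, ?_, trivial, trivial, ?_⟩
  · ring
  · ring
  · ring
  · simp only [gA, gB]; ring
  · simp only [gau, gA, gB]; ring

/-- the flags of `j` at the point of `j`, from `i` : displacement of the point -/
theorem pt_move (i j : Fq4) :
    j.pa j.z - i.pa i.z = coQ i j 8 + coQ i j 0 * j.ca ∧
    j.pb j.z - i.pb i.z = coQ i j 9 + i.e * coQ i j 8 + coQ i j 0 * j.cb := by
  simp only [coQ, Fq4.pa, Fq4.pb, Matrix.cons_val]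
  constructor <;> ring

theorem gA_move (h : Fin 6 → ℝ) (i j : Fq4) :
    gA h j.z (j.pa j.z) (j.pb j.z) - gA h i.z (i.pa i.z) (i.pb i.z) =
      h 1 * coQ i j 0 + 2 * h 3 * (coQ i j 8 + coQ i j 0 * j.ca) +
        h 4 * (coQ i j 9 + i.e * coQ i j 8 + coQ i j 0 * j.cb) := by
  obtain ⟨h1, h2⟩ := pt_move i j
  rw [← h1, ← h2]
  simp only [gA, coQ, Matrix.cons_val]
  ring

theorem gB_move (h : Fin 6 → ℝ) (i j : Fq4) :
    gB h j.z (j.pa j.z) (j.pb j.z) - gB h i.z (i.pa i.z) (i.pb i.z) =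
      h 2 * coQ i j 0 + h 4 * (coQ i j 8 + coQ i j 0 * j.ca) +
        2 * h 5 * (coQ i j 9 + i.e * coQ i j 8 + coQ i j 0 * j.cb) := by
  obtain ⟨h1, h2⟩ := pt_move i j
  rw [← h1, ← h2]
  simp only [gB, coQ, Matrix.cons_val]
  ring

end Crest.Agent.R136.GeoQ186
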