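import Mathlib
import Crest.Agent.R136.Eng1_904

/-!
# R136 (U5 TILT), the engine, sequence form (helper904)

`fib_any` : full shading at every (not only rational) level.
`engine`  : a dense part `J` of a marked sequence contains, at arbitrary deep levels `m2 ≤ m`, a
nonempty set `P` of objects (line, cell of level `m`) with almost complete fibres over (line,
`v`-cell) and over the classes of the levels `u`, `v`, and with D-max at the levels `m` and `m2`.
-/

set_option autoImplicit false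
set_option linter.unusedVariables false
set_option linter.unusedSectionVars false

open Finset Filter Topology

namespace Crest.Agent.R136.Eng904

open Crest.Agent.R138.Ex926 Crest.Agent.R138.Dp76
open Crest.Agent.R138.Mk163 (zc zl rho alive own)
open Crest.Agent.R138.MkRef627 (lc)
open Crest.Agent.R136.MkA627 (Geo MkA ampA fib_bounds)
open Crest.Agent.R136.Dia770 (extO DeepP)
open Crest.Agent.R136.Deep51

variable {σ κ : Type*} {B : Base} {I : ℕ → Finset (ℕ × ℝ)} {G : Geo σ κ} {lev : ℕ → ℚ → ℕ}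
    {A : ℕ → ℝ} {c Λ : ℝ → ℝ} {τ : κ → ℝ → ℝ} {f : ℕ → ℚ → ℕ → ℤ → ℕ} {b : ℕ → ℚ → ℕ → σ}
    {vm : ℕ → ℚ → ℝ} {w : κ → ℕ → ℚ → ℝ}

theorem d_exp (B : Base) (n : ℕ) (a : ℝ) : B.d n ^ a = Real.exp (-(a * B.L n)) := by
  rw [Real.rpow_def_of_pos (B.pos n)]
  congr 1
  unfold Base.L; ring

/-- `2^k` for a number of levels with `k log 2 ≤ s L` -/
theorem two_le (B : Base) {n k : ℕ} {s : ℝ} (h : (k : ℝ) * Real.log 2 ≤ s * B.L n) :
    (2:ℝ) ^ k ≤ B.d n ^ (-s) := by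
  rw [d_exp, ← Real.rpow_natCast, Real.rpow_def_of_pos (by norm_num)]
  refine Real.exp_le_exp.2 ?_
  linarith

theorem lc_nest {i j : ℕ} (h : i ≤ j) {x y : ℕ × ℝ} (hxy : lc j x = lc j y) : lc i x = lc i y := by
  simp only [lc, Prod.mk.injEq] at hxy ⊢
  exact ⟨hxy.1, Crest.Agent.R138.TiltU51.zc_nest h hxy.2⟩

open Classical in
/-- **full shading at every level.** -/
theorem fib_any (h : MkA B I G lev A c Λ τ f b vm w) (hΛ : ∀ v, Λ v = 0) {v : ℚ} (hv0 : 0 ≤ v)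
    (hv1 : v ≤ 1) {m : ℕ → ℕ} (hm : ∀ᶠ n in (U : Filter ℕ), lev n v ≤ m n) {ε : ℝ} (hε : 0 < ε) :
    ∀ᶠ n in (U : Filter ℕ), m n ≤ lev n 1 → ∀ x ∈ I n, (2:ℝ) ^ (lev n 1 - m n) ≤
      B.d n ^ (-ε) * (((I n).filter fun y => lc (m n) y = lc (m n) x).card : ℝ) := by
  have hdich : (∀ᶠ n in (U : Filter ℕ), m n ≤ lev n 1) ∨
      ∀ᶠ n in (U : Filter ℕ), lev n 1 < m n := by
    rw [← Ultrafilter.eventually_or]
    exact Eventually.of_forall fun n => le_or_gt _ _
  rcases hdich with hm1 | hm1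
  swap
  · filter_upwards [hm1] with n hn hn'
    omega
  have hℓ : (0:ℝ) < Real.log 2 := Real.log_pos one_lt_two
  have hv0' : (0:ℝ) ≤ v := by exact_mod_cast hv0
  have hv1' : (v:ℝ) ≤ 1 := by exact_mod_cast hv1
  have q1 : ((1:ℚ) : ℝ) = 1 := by norm_num
  set s : ℕ → ℝ := fun n => ((lev n 1 : ℝ) - m n) * Real.log 2 / B.L n with hs
  have hs0 : ∀ᶠ n in (U : Filter ℕ), 0 ≤ s n := by
    filter_upwards [hm1] with n hn
    have hL := B.L_pos n
    have : (0:ℝ) ≤ (lev n 1 : ℝ) - m n := by rw [sub_nonneg]; exact_mod_cast hn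
    simp only [hs]; positivity
  have hs1 : ∀ e : ℝ, 0 < e → ∀ᶠ n in (U : Filter ℕ), s n ≤ 1 - v + e := by
    intro e he
    have h1 : ∀ᶠ n in (U : Filter ℕ), ((lev n 1 : ℝ) - lev n v) * Real.log 2 / B.L n < 1 - v + e := by
      refine (h.lev_lim v 1 hv0 hv1 le_rfl).eventually (Iio_mem_nhds ?_)
      rw [q1]; linarith
    filter_upwards [h1, hm] with n h1 h2
    have hL := B.L_pos n
    refine le_trans ?_ h1.le
    simp only [hs]
    have : (lev n v : ℝ) ≤ m n := by exact_mod_cast h2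
    gcongr
  -- the limit
  obtain ⟨t, ht, htl⟩ : ∃ t ∈ Set.Icc (0:ℝ) (1 - v + 1), Tendsto s (U : Filter ℕ) (𝓝 t) := by
    have hU : Ultrafilter.map s U ≤ 𝓟 (Set.Icc (0:ℝ) (1 - v + 1)) := by
      rw [le_principal_iff, Ultrafilter.coe_map, Filter.mem_map]
      filter_upwards [hs0, hs1 1 one_pos] with n h1 h2
      exact ⟨h1, h2⟩
    obtain ⟨t, ht, htl⟩ := isCompact_Icc.ultrafilter_le_nhds (Ultrafilter.map s U) hU
    exact ⟨t, ht, htl⟩
  have ht1 : t ≤ 1 - v := by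
    refine le_of_forall_pos_le_add fun e he => ?_
    exact le_of_tendsto htl (hs1 e he)
  have htop : ∀ e : ℝ, 0 < e → ∀ᶠ n in (U : Filter ℕ), (2:ℝ) ^ (lev n 1 - m n) ≤ B.d n ^ (-(t + e)) := by
    intro e he
    filter_upwards [htl.eventually (Iio_mem_nhds (show t < t + e by linarith)), hm1] with n h1 h2
    have hL := B.L_pos n
    refine two_le B ?_
    simp only [hs] at h1
    rw [div_lt_iff₀ hL] at h1
    rw [Nat.cast_sub h2]
    exact h1.le
  rcases (ht.1).eq_or_lt with h0 | h0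
  · -- `t = 0`
    filter_upwards [htop ε hε] with n h1 _ x hx
    rw [← h0, zero_add] at h1
    refine h1.trans ?_
    have h2 : (1:ℝ) ≤ (((I n).filter fun y => lc (m n) y = lc (m n) x).card : ℝ) := by
      have h2' : 0 < ((I n).filter fun y => lc (m n) y = lc (m n) x).card :=
        Finset.card_pos.2 ⟨x, mem_filter.2 ⟨hx, rfl⟩⟩
      exact_mod_cast h2'
    have h3 := dpow_pos B n (-ε)
    nlinarith
  · obtain ⟨r, hr1, hr2⟩ := exists_rat_btwn (show 1 - t < min 1 (1 - t + ε / 4) from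
      lt_min (by linarith) (by linarith))
    have hr3 : (r:ℝ) < 1 := hr2.trans_le (min_le_left _ _)
    have hr4 : (r:ℝ) < 1 - t + ε / 4 := hr2.trans_le (min_le_right _ _)
    have hr0 : (0:ℝ) ≤ r := by linarith
    have hr0' : (0:ℚ) ≤ r := by exact_mod_cast hr0
    have hr1' : (r:ℚ) ≤ 1 := by exact_mod_cast hr3.le
    have hlt : ∀ᶠ n in (U : Filter ℕ), m n ≤ lev n r := by
      have h1 : ∀ᶠ n in (U : Filter ℕ), ((lev n 1 : ℝ) - lev n r) * Real.log 2 / B.L n <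
          (1 - r + t) / 2 := by
        refine (h.lev_lim r 1 hr0' hr1' le_rfl).eventually (Iio_mem_nhds ?_)
        rw [q1]; linarith
      filter_upwards [h1, htl.eventually (Ioi_mem_nhds (show (1 - r + t) / 2 < t by linarith))]
        with n h1 h2
      have hL := B.L_pos n
      have h3 : ((lev n 1 : ℝ) - lev n r) * Real.log 2 / B.L n <
          ((lev n 1 : ℝ) - m n) * Real.log 2 / B.L n := h1.trans h2
      rw [div_lt_div_iff_of_pos_right hL] at h3
      have h4 := lt_of_mul_lt_mul_right h3 hℓ.le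
      have h5 : (m n : ℝ) < lev n r := by linarith
      exact_mod_cast h5.le
    filter_upwards [htop (ε / 4) (by linarith), hlt, fib_bounds h r hr0' hr1' (ε := ε / 4)
      (by linarith)] with n h1 h2 h3 _ x hx
    have h4 := (h3 x hx).1
    rw [hΛ, hΛ] at h4
    have h5 : (((I n).filter fun y => lc (lev n r) y = lc (lev n r) x).card : ℝ) ≤
        (((I n).filter fun y => lc (m n) y = lc (m n) x).card : ℝ) := by
      exact_mod_cast card_le_card (fun y hy => by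
        rw [mem_filter] at hy ⊢
        exact ⟨hy.1, lc_nest h2 hy.2⟩)
    have hp := dpow_pos B n (-ε)
    calc (2:ℝ) ^ (lev n 1 - m n) ≤ B.d n ^ (-(t + ε / 4)) := h1
      _ ≤ B.d n ^ (-ε + (-(1 - (r:ℝ)) + (0 - 0) + ε / 4)) := by
          refine Real.rpow_le_rpow_of_exponent_ge (B.pos n) (B.lt n).le ?_
          linarith
      _ = B.d n ^ (-ε) * B.d n ^ (-(1 - (r:ℝ)) + (0 - 0) + ε / 4) := dpow_add B n _ _
      _ ≤ _ := mul_le_mul_of_nonneg_left (h4.trans h5) hp.le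

open Classical in
/-- own profile in the form of `deep_stage` -/
theorem own_topc (h : MkA B I G lev A c Λ τ f b vm w) (hΛ : ∀ v, Λ v = 0) {v : ℚ} (hv0 : 0 ≤ v)
    (hv1 : v ≤ 1) {ε : ℝ} (hε : 0 < ε) :
    ∀ᶠ n in (U : Filter ℕ), ∀ J : ℤ, ∀ t ∈ alive (I n) (lev n v) J,
      (2:ℝ) ^ (lev n 1 - lev n v) ≤ B.d n ^ (-ε) * ((topc (I n) (lev n 1) (lev n v) t J).card : ℝ) := by
  have q1 : ((1:ℚ) : ℝ) = 1 := by norm_num
  have h1 : ∀ᶠ n in (U : Filter ℕ), ((lev n 1 : ℝ) - lev n v) * Real.log 2 / B.L n <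
      1 - v + ε / 2 := by
    refine (h.lev_lim v 1 hv0 hv1 le_rfl).eventually (Iio_mem_nhds ?_)
    rw [q1]; linarith
  filter_upwards [h1, h.lev_mono v 1 hv0 hv1 le_rfl, h.own v 1 hv0 hv1 le_rfl (ε / 2)
    (by linarith)] with n h1 h2 h3 J t ht
  have hL := B.L_pos n
  rw [div_lt_iff₀ hL] at h1
  have h4 : (2:ℝ) ^ (lev n 1 - lev n v) ≤ B.d n ^ (-(1 - (v:ℝ) + ε / 2)) := by
    refine two_le B ?_
    rw [Nat.cast_sub h2]; exact h1.le
  obtain ⟨x, hx, hx1, hx2⟩ := Crest.Agent.R138.TiltU51.mem_alive.1 ht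
  have h5 := (h3 x hx).1
  rw [hΛ, hΛ, q1] at h5
  have h6 : own (I n) (lev n v) (lev n 1) x = topc (I n) (lev n 1) (lev n v) t J := by
    unfold topc Crest.Agent.R138.Mk163.own
    rw [hx1, hx2]
  rw [h6] at h5
  have hp := dpow_pos B n (-ε)
  calc (2:ℝ) ^ (lev n 1 - lev n v) ≤ B.d n ^ (-(1 - (v:ℝ) + ε / 2)) := h4
    _ = B.d n ^ (-ε + (-(1 - (v:ℝ)) + (0 - 0) + ε / 2)) := by congr 1; ring
    _ = B.d n ^ (-ε) * B.d n ^ (-(1 - (v:ℝ)) + (0 - 0) + ε / 2) := dpow_add B n _ _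
    _ ≤ _ := mul_le_mul_of_nonneg_left h5 hp.le

theorem ev_small (B : Base) {γ : ℝ} (hγ : 0 < γ) {K : ℝ} (hK : 0 < K) :
    ∀ᶠ n in (U : Filter ℕ), B.d n ^ γ ≤ K :=
  (Crest.Agent.R138.Ps926.dpow_small B hγ hK).mono fun n hn => hn.le





end Crest.Agent.R136.Eng904
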