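import Crest.Agent.R136.WkH4_626
import Crest.Agent.R136.Rc6_146

/-!
# R136 (S0187): profile numbers of the RIG window from the record blow-up (helper626)

Surface of the lightlike case: slopes `z, F_b (1,0)`, `E, C_a (0,1)`, `C_b (0,2)`, `F_a, X_a (1,1)`,
`N (2,2)`, `P, X_b (1,2)`.  Slots of `coQ`: `0 z, 1 R, 2 E, 3 F_b, 4 F_a, 5 C_a, 6 C_b, 7 P, 8 X_a,
9 X_b, 10 N`.

* `affine_of_mid` : a continuous midpoint-concave function which is below its chord at one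
  special point is affine.
* `n_lin` : in the group `{X_a, F_a, N}` the loss of `N` given `X_a` is linear.
* `lprof` : the inequalities `dec, fib, conc, hdens, hfrost` at every class of the half plane.
-/

set_option autoImplicit false
set_option linter.unusedSectionVars false
set_option linter.unusedVariables false

open Filter Topology Set

namespace Crest.Agent.R136.WkL626

open Crest.Agent.R136.Rc146
open Crest.Agent.R136.Dg219

/-- continuous, midpoint concave on `[0,1]`, nonnegative end values zero ⇒ nonnegative -/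
theorem nonneg_of_mid {E : ℝ → ℝ} (hc : ContinuousOn E (Icc 0 1)) (h0 : E 0 = 0) (h1 : E 1 = 0)
    (hmid : ∀ s k, 0 ≤ k → 0 ≤ s - k → s + k ≤ 1 → E (s - k) + E (s + k) ≤ 2 * E s) :
    ∀ s ∈ Icc (0 : ℝ) 1, 0 ≤ E s := by
  obtain ⟨m, hm, hmin⟩ := isCompact_Icc.exists_isMinOn (nonempty_Icc.2 zero_le_one) hc
  have hmin' : ∀ s ∈ Icc (0 : ℝ) 1, E m ≤ E s := fun s hs => hmin hs
  suffices h : 0 ≤ E m from fun s hs => h.trans (hmin' s hs)
  rcases le_total m (1 / 2) with hm2 | hm2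
  · have h2 := hmid m m hm.1 (by linarith) (by linarith)
    rw [sub_self, h0] at h2
    have h3 := hmin' (m + m) ⟨by linarith [hm.1], by linarith⟩
    linarith
  · have h2 := hmid m (1 - m) (by linarith [hm.2]) (by linarith) (by linarith)
    have e : m + (1 - m) = 1 := by ring
    rw [e, h1] at h2
    have h3 := hmin' (m - (1 - m)) ⟨by linarith, by linarith [hm.2]⟩
    linarith

/-- **continuous, midpoint concave, and below the chord at `2/3`** ⇒ affine on `[0,1]` -/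
theorem affine_of_mid {f : ℝ → ℝ} (hc : ContinuousOn f (Icc 0 1))
    (hmid : ∀ s k, 0 ≤ k → 0 ≤ s - k → s + k ≤ 1 → f (s - k) + f (s + k) ≤ 2 * f s)
    (h23 : 3 * f (2 / 3) ≤ f 0 + 2 * f 1) :
    ∀ s ∈ Icc (0 : ℝ) 1, f s = (1 - s) * f 0 + s * f 1 := by
  set E : ℝ → ℝ := fun s => f s - ((1 - s) * f 0 + s * f 1) with hE
  have hEc : ContinuousOn E (Icc 0 1) := by
    apply hc.sub
    fun_prop
  have hE0 : E 0 = 0 := by simp [hE]
  have hE1 : E 1 = 0 := by simp [hE]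
  have hEm : ∀ s k, 0 ≤ k → 0 ≤ s - k → s + k ≤ 1 → E (s - k) + E (s + k) ≤ 2 * E s := by
    intro s k h1 h2 h3
    have := hmid s k h1 h2 h3
    simp only [hE]
    linarith
  have hpos := nonneg_of_mid hEc hE0 hE1 hEm
  have hE23 : E (2 / 3) = 0 := by
    have h1 := hpos (2 / 3) ⟨by norm_num, by norm_num⟩
    have h2 : E (2 / 3) ≤ 0 := by
      simp only [hE]
      linarith
    exact le_antisymm h2 h1
  have hup : ∀ s ∈ Icc (1 / 3 : ℝ) 1, E s = 0 := by
    intro s hs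
    rcases le_total s (2 / 3) with h | h
    · have h1 := hEm (2 / 3) (2 / 3 - s) (by linarith) (by linarith [hs.1]) (by linarith [hs.1])
      have e : (2 / 3 : ℝ) - (2 / 3 - s) = s := by ring
      rw [e, hE23] at h1
      have h2 := hpos s ⟨by linarith [hs.1], hs.2⟩
      have h3 := hpos (2 / 3 + (2 / 3 - s)) ⟨by linarith, by linarith [hs.1]⟩
      linarith
    · have h1 := hEm (2 / 3) (s - 2 / 3) (by linarith) (by linarith [hs.2]) (by linarith [hs.2])
      have e : (2 / 3 : ℝ) + (s - 2 / 3) = s := by ring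
      rw [e, hE23] at h1
      have h2 := hpos s ⟨by linarith, hs.2⟩
      have h3 := hpos (2 / 3 - (s - 2 / 3)) ⟨by linarith [hs.2], by linarith⟩
      linarith
  have hall : ∀ s ∈ Icc (0 : ℝ) 1, E s = 0 := by
    intro s hs
    rcases le_total (1 / 3) s with h | h
    · exact hup s ⟨h, hs.2⟩
    · have h1 := hEm (1 / 3) (1 / 3 - s) (by linarith) (by linarith [hs.1]) (by linarith [hs.1])
      have e : (1 / 3 : ℝ) - (1 / 3 - s) = s := by ring
      rw [e, hup (1 / 3) ⟨le_rfl, by norm_num⟩] at h1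
      have h2 := hpos s hs
      have h3 := hpos (1 / 3 + (1 / 3 - s)) ⟨by linarith, by linarith [hs.1]⟩
      linarith
  intro s hs
  have := hall s hs
  simp only [hE] at this
  linarith

/-! ### the group `{X_a, F_a, N}` -/

/-- legality for the walls of `monQ` without `P ≤ z + R` and without signs -/
structure WqL (c : Fin 11 → ℝ) : Prop where
  w4 : c 4 ≤ c 2 + c 3
  w6 : c 6 ≤ c 2 + c 5
  w7a : c 7 ≤ c 4 + c 5
  w7b : c 7 ≤ c 3 + c 6
  w8 : c 8 ≤ c 0 + c 5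
  w9a : c 9 ≤ c 0 + c 6
  w9b : c 9 ≤ c 2 + c 8
  w10a : c 10 ≤ c 0 + c 7
  w10b : c 10 ≤ c 4 + c 8
  w10c : c 10 ≤ c 3 + c 9

/-- `X_a = x, F_a = f, N = n`, everything else as coarse as `K` (the group does not see it) -/
def vN (K x f n : ℝ) : Fin 11 → ℝ := ![K, 0, K, K, f, 2 * K, K, K, x, K, n]

theorem vN_wq {K x f n : ℝ} (hK : 0 ≤ K) (hx : |x| ≤ K) (hf : |f| ≤ K) (hn : |n| ≤ K)
    (h : n ≤ x + f) (hf0 : 0 ≤ f) (hx0 : 0 ≤ x) : WqL (vN K x f n) := by
  have hx' := abs_le.1 hx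
  have hf' := abs_le.1 hf
  have hn' := abs_le.1 hn
  constructor <;> simp only [vN, Matrix.cons_val] <;> linarith

section NLin

variable {g : Fin 11 → ℕ} {S : Finset ℕ} {LW L : Set (Fin 11 → ℝ)} {a b : Fin 11 → ℝ} {l : ℝ × ℝ}
  {dh : Fin 11 → ℝ} {n : ℕ → ℝ × ℝ} {lam : (Fin 11 → ℝ) → ℝ} {φ : ℕ → (Fin 11 → ℝ) → ℝ} {r : ℕ → ℝ}

/-- groups and slopes of the lightlike surface -/
structure LSrf (g : Fin 11 → ℕ) (S : Finset ℕ) (L : Set (Fin 11 → ℝ)) (a b dh : Fin 11 → ℝ) :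
    Prop where
  leg : ∀ c, WqL c → c ∈ L
  g8 : ∀ i, g i = g 8 ↔ i = 4 ∨ i = 8 ∨ i = 10
  pos : ∀ i, g i = g 8 → 0 < dh i
  mem8 : g 8 ∈ S
  a4 : a 4 = 1
  a8 : a 8 = 1
  a10 : a 10 = 2

/-- losses of the group -/
noncomputable def ps (φ : ℕ → (Fin 11 → ℝ) → ℝ) (g : Fin 11 → ℕ) (s : ℝ) : ℝ := φ (g 8) (vN 4 1 0 s)








/-- rate of `N` given `X_a` -/
noncomputable def aN (φ : ℕ → (Fin 11 → ℝ) → ℝ) (g : Fin 11 → ℕ) : ℝ := ps φ g 0 - ps φ g 1


end NLin

/-! ### the numbers of a window -/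

section LProf

open Crest.Agent.R136.Qg926
open Crest.Agent.R136.Wk323 (vec fAll fPos fDir qv)

/-- resolution of the RIG window -/
def topL (x : ℝ) : Fin 11 → ℝ := fun s => if s = 1 then 0 else x

variable {g : Fin 11 → ℕ} {S : Finset ℕ} {L : Set (Fin 11 → ℝ)} {a b : Fin 11 → ℝ}
  {l : ℝ × ℝ} {c0 : ℝ} {dh : Fin 11 → ℝ} {n : ℕ → ℝ × ℝ} {lam : (Fin 11 → ℝ) → ℝ}
  {φ : ℕ → (Fin 11 → ℝ) → ℝ} {r : ℕ → ℝ}

/-- all groups of the lightlike surface -/
structure LGrp (g : Fin 11 → ℕ) (S : Finset ℕ) (L : Set (Fin 11 → ℝ)) (a b dh : Fin 11 → ℝ) :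
    Prop extends LSrf g S L a b dh where
  g5 : ∀ i, g i = g 5 ↔ i = 2 ∨ i = 5 ∨ i = 6
  g0 : ∀ i, g i = g 0 → i = 0 ∨ i = 1 ∨ i = 3
  pos5 : ∀ i, g i = g 5 → 0 < dh i
  mem5 : g 5 ∈ S
  mem0 : g 0 ∈ S
  g3 : g 3 = g 0


/-- test vectors -/
def vL (z d c p X N : ℝ) : Fin 11 → ℝ := ![z, 0, d, z, p, c, d, p, X, X, N]

theorem vL_wq {z d c p X N : ℝ} (hc : 0 ≤ c) (hd : 0 ≤ d) (h1 : p ≤ z + d) (h2 : X ≤ z + c)
    (h3 : X ≤ z + d) (h4 : N ≤ z + p) (h5 : N ≤ p + X) (h6 : N ≤ z + X) :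
    WqL (vL z d c p X N) := by
  constructor <;> simp only [vL, Matrix.cons_val] <;> linarith


theorem cut_vL (x : ℝ) (p : Fin 11 → ℝ) :
    cut ({0, 3} : Finset (Fin 11)) p (topL x) = ![x, p 1, p 2, x, p 4, p 5, p 6, p 7, p 8, p 9, p 10] := by
  funext s
  fin_cases s <;> simp [cut, topL]

theorem cut_zero (x : ℝ) : cut ({0, 3} : Finset (Fin 11)) 0 (topL x) = vL x 0 0 0 0 0 := by
  rw [cut_vL]; funext s; fin_cases s <;> simp [vL]

theorem cut_all (x : ℝ) : cut ({0, 3} : Finset (Fin 11)) (vec fAll x) (topL x) = vL x x x x x x := by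
  rw [cut_vL]; funext s; fin_cases s <;> simp [vL, vec, fAll]

theorem top_vL (x : ℝ) : topL x = vL x x x x x x := by
  funext s; fin_cases s <;> simp [vL, topL]

theorem cut_pos (x : ℝ) : cut ({0, 3} : Finset (Fin 11)) (vec fPos x) (topL x) = vL x 0 0 x x x := by
  rw [cut_vL]; funext s; fin_cases s <;> simp [vL, vec, fPos]

theorem cut_dir (x : ℝ) : cut ({0, 3} : Finset (Fin 11)) (vec fDir x) (topL x) = vL x x x 0 0 0 := by
  rw [cut_vL]; funext s; fin_cases s <;> simp [vL, vec, fDir]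

theorem cut_qv (x y : ℝ) : cut ({0, 3} : Finset (Fin 11)) (qv x y) (topL x) = vL x 0 0 0 x y := by
  rw [cut_vL]; funext s; fin_cases s <;> simp [vL, qv]

theorem cut_c (x y : ℝ) : cut ({0, 3} : Finset (Fin 11)) (vec {5} y) (topL x) = vL x 0 y 0 0 0 := by
  rw [cut_vL]; funext s; fin_cases s <;> simp [vL, vec]

theorem cut_lin (x : ℝ) : cut ({0, 3} : Finset (Fin 11)) (topL x) 0 = vL 0 x x x x x := by
  funext s; fin_cases s <;> simp [vL, cut, topL]




end LProf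

/-! ### static data with resolution `0` in the slot `R` -/

section Static

open Crest.Agent.R136.Qg926
open Crest.Agent.R136.Sh605
open Crest.Agent.R136.Net186
open Crest.Agent.R136.NetQ186
open Crest.Agent.R136.Net191
open Crest.Agent.R136.Wk323
open Crest.Agent.R138.Ex926 (Base U)

/-- the slot `R` is not seen by the kept walls -/
theorem legal_drop {Mw : Mons 11} (hMw : ∀ k, Mw.mon k ⊆ mfQ k)
    (hMw1 : ∀ k, ∀ e ∈ Mw.mon k, e 1 = 0) {p p' : Fin 11 → ℝ} (hp : ∀ s, 0 ≤ p s)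
    (h : ∀ s, s ≠ 1 → p' s = p s) (hl : Legal monQ p') : Legal Mw p := by
  refine ⟨hp, fun k e he => ?_⟩
  have h1 := hl.wall k e (hMw k he)
  have hk : k ≠ 1 := by
    rintro rfl
    have h2 : mfQ 1 = ∅ := by decide
    have := hMw 1 he
    rw [h2] at this
    exact absurd this (Finset.notMem_empty _)
  have e0 := hMw1 k e he
  have e1 : ∑ s, (e s : ℝ) * p' s = ∑ s, (e s : ℝ) * p s := by
    refine Finset.sum_congr rfl fun s _ => ?_
    by_cases hs : s = 1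
    · subst hs; rw [e0]; simp
    · rw [h s hs]
  rw [h k hk, e1] at h1
  exact h1

/-- static data of the RIG window, resolution `0` in the slot `R` -/
noncomputable def stL (κ x R' : ℝ) (Mw : Mons 11) : WSt 11 where
  S := {0, 3}
  kz := 0
  top := topL x
  kap := fun s => κ ^ wtR s
  Mw := Mw
  R' := R'

theorem stL_ok {κ x R' : ℝ} {Mw M : Mons 11} {D : Set (Fin 11 → ℝ)} (hκ : 0 < κ) (hx : 0 ≤ x)
    (hxR : x ≤ R') (hMw : ∀ k, Mw.mon k ⊆ mfQ k) (hMw1 : ∀ k, ∀ e ∈ Mw.mon k, e 1 = 0)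
    (hM0 : M.mon 0 = ∅) (hD : Leg Mw R' ⊆ D) :
    (stL κ x R' Mw).Ok M D := by
  have hS := stR_ok (Mw := Mw) (M := M) hκ hx hxR hMw hM0 hD
  have hR := hS.R0
  have hR' : 0 ≤ R' := hx.trans hxR
  have key : ∀ p p' : Fin 11 → ℝ, p 1 = 0 → (∀ s, s ≠ 1 → p' s = p s) → p' ∈ Leg monQ R' →
      p ∈ Leg Mw R' := by
    intro p p' h1 h h'
    have hp : ∀ s, 0 ≤ p s := fun s => by
      by_cases hs : s = 1
      · subst hs; rw [h1]
      · rw [← h s hs]; exact h'.1.nonneg s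
    refine ⟨legal_drop hMw hMw1 hp h h'.1, fun s => ?_⟩
    by_cases hs : s = 1
    · subst hs; rw [h1]; exact hR'
    · rw [← h s hs]; exact h'.2 s
  have hQ := stR_ok (Mw := monQ) (M := M) (D := Leg monQ R') hκ hx hxR
    (fun k => Finset.Subset.refl _) hM0 (fun _ h => h)
  exact
    { R0 := hR
      leg := hD
      top_leg := key _ _ (by simp [stL, topL]) (fun s hs => by simp [stL, stR, topL, hs])
        hQ.top_leg
      lin_leg := key _ _ (by simp [stL, topL, cut])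
        (fun s hs => by simp [stL, stR, topL, cut, hs]) hQ.lin_leg
      lev_leg := key _ _ (by simp [stL, topL, cut])
        (fun s hs => by simp [stL, stR, topL, cut, hs]) hQ.lev_leg
      kzS := by simp [stL]
      kz0 := hM0
      kzw := hS.kzw
      kap := fun s => pow_pos hκ _ }

variable {ι : ℕ → Type*} [∀ n, DecidableEq (ι n)] {B B' : Base} {I J : ∀ n, Finset (ι n)}
  {co : ∀ n, ι n → ι n → Fin 11 → ℝ} {M : Mons 11} {C : ℝ} {X : ℕ → Fin 11 → ℝ} {w : ℕ → ℝ}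
  {D : Set (Fin 11 → ℝ)} {T : ℕ → ℝ} {lam : (Fin 11 → ℝ) → ℝ} {Cl : ∀ n, Finset (ι n)}
  {s₀ : ∀ n, ι n} {κ x R' : ℝ} {Mw : Mons 11}

/-- **926's window with the data `stL` is an `LWin`** -/
theorem lwinL_of_ok {F : ∀ n, ι n → Fq4}
    (hok : ((stL κ x R' Mw).wnd B B' I J co M C X w D T lam Cl s₀).Ok)
    (hco : ∀ n i j, co n i j = coQ (F n i) (F n j)) (hstr : ∀ n i, (F n i).y2 = 0)
    (hκ1 : 1 ≤ κ) (hκ : 2 * cK0 M C ≤ κ) (hx : 0 ≤ x)
    (htX : ∀ᶠ n in (U : Filter ℕ), TightX (X n)) :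
    LWin ((stL κ x R' Mw).wnd B B' I J co M C X w D T lam Cl s₀) F x where
  ok := hok
  co := hco
  str := hstr
  S := rfl
  kz := rfl
  tight := by
    filter_upwards [htX] with n hn
    exact tight_units (lt_of_lt_of_le one_pos hκ1) (B.pos n) hn
  kap := by
    intro s
    show 2 * cK0 M C ≤ κ ^ wtR s
    exact hκ.trans (le_self_pow₀ hκ1 (wtR_ne s))
  x0 := hx
  top := fun s hs => by
    show x ≤ topL x s
    unfold topL
    rw [if_neg hs]

end Static

end Crest.Agent.R136.WkL626
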