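import Crest.Agent.R136.TL3_196
import Crest.Agent.R136.GauD_66
import Crest.Agent.R136.Gau3_66
import Crest.Agent.R136.Gz1_779
import Crest.Agent.R136.NatR_550
import Crest.Agent.R136.Gau4_66
import Crest.Agent.R136.Gau1_66
import Crest.Agent.R136.Gau2_66
import Crest.Agent.R136.Wk11_323
import Crest.Agent.R136.Gz2_779

-- ▼ part R136/GauE_66
section

/-!
# R136 (helper66): T.L, the interfaces of the `F_b` half

* `HasRig c` : at every tangent at the record line there is an interior point of the lightlike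
  surface with the numbers `LightF` (480).
* `AffW` : record window in which `F_b` is affine in the height on every class of a coarse partition
  `g`; relations in absolute coordinates (consumed by 560).
-/

set_option autoImplicit false

open Filter Topology Finset

namespace Crest.Agent.R136.Gau66

open Crest.Agent.R138.Ex926
open Crest.Agent.R136.Net191
open Crest.Agent.R136.NetQ186
open Crest.Agent.R136.NatT550
open Crest.Agent.R136.NatR550
open Crest.Agent.R136.Qg926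
open Crest.Agent.R136.Zpr779
open Crest.Agent.R136.Gz779
open Crest.Agent.R136.TL196

/-- **interior point with the numbers of the lightlike surface**, at every record tangent -/
def HasRig (c : LCtx) : Prop := ∀ (ξ₀ : ℝ) (ξ h : ℕ → ℝ) (lam lo : (Fin 11 → ℝ) → ℝ),
  RecJ c ξ₀ ξ h lam lo → ∃ z : ℝ × ℝ, z.1 < 0 ∧ ∃ k : ℕ → ℝ, (∀ l, 0 < k l) ∧
    Tendsto k atTop (𝓝 0) ∧ ∃ (lamI : (Fin 11 → ℝ) → ℝ) (a m : ℝ),
      IsTan coneN coneN lam (fun _ => z.1 • tN + z.2 • c.ρ) k lamI ∧ LightF coneN lamI a m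

/-- **record window with affine `F_b`** : `g` = label of the coarse partition, `mu, be` = slope and
constant of its classes -/
structure AffW (c : LCtx) (B' : Base) (J : ℕ → Finset (ℕ × ℝ)) (ξ w : ℕ → ℝ)
    (lam lo : (Fin 11 → ℝ) → ℝ) (g : ℕ → ℕ × ℝ → ℕ × ℝ) (mu be : ℕ → ℕ × ℝ → ℝ) : Prop where
  rw : RecW c B' J ξ w lam lo
  /-- `(lam, lo)` is a tangent of the profiles at the record line -/
  rj : ∃ (ξ₀ : ℝ) (ξ' h : ℕ → ℝ), RecJ c ξ₀ ξ' h lam lo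
  /-- every bounded class meets few coarse classes -/
  few : ∃ N : ℝ, 1 ≤ N ∧ ∀ K : ℝ, ∀ᶠ n in (U : Filter ℕ), ∀ a ∈ coneN, 0 ≤ a 1 → ‖a‖ ≤ K →
    ∀ s ∈ J n,
    (((cls (J n) (zlab c.D.B c.D.I (coF c.F) monQ 2 (fun n => c.X (ξ n)) w n a) s).image
      (g n)).card : ℝ) ≤ N
  slope : ∃ S : ℕ → ℝ, B'.Sub S ∧ ∀ᶠ n in (U : Filter ℕ), ∀ i ∈ J n,
    |mu n (g n i)| * c.D.B.d n ^ (c.X (ξ n) 0) ≤ S n * c.D.B.d n ^ (c.X (ξ n) 3)
  aff : ∀ K : ℝ, ∀ᶠ n in (U : Filter ℕ), ∀ i ∈ J n,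
    |(c.F n i).fb - be n (g n i) - mu n (g n i) * (c.F n i).z| ≤
      B'.d n ^ K * c.D.B.d n ^ (c.X (ξ n) 3)

end Crest.Agent.R136.Gau66
end

-- ▼ part R136/GauB1_66
section

/-!
# R136 (helper66): T.L, `F_b` is affine in the height in an interior window

* `monL` : the walls of `monQ` without the slot `R`.
* `lightW_of` : the numbers `LightF` give 501's `LightW` for the window with resolution `x`.
* `AffR` : affine relation of the flag `F_b` in absolute coordinates.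
* **`strip_int`** : [RIG-0] on all classes of a dense part, exponent loss `3 η y₀`.
-/

set_option autoImplicit false
set_option linter.unusedVariables false

open Filter Topology Finset

namespace Crest.Agent.R136.Gau66

open Crest.Agent.R138.Ex926
open Crest.Agent.R136.Net191
open Crest.Agent.R136.NetQ186
open Crest.Agent.R136.NatR550
open Crest.Agent.R136.Qg926
open Crest.Agent.R136.Gz779
open Crest.Agent.R136.WkL626 (topL legal_drop)
open Crest.Agent.R136.Rgl501 (lv LightW rig0_light)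
open Crest.Agent.R136.Wk323 (stR stR_ok)
open Crest.Agent.R136.Ev356 (QWnd)

/-- the walls without the slot `R` -/
def monL : Mons 11 where
  mon k := (mfQ k).filter fun e => e 1 = 0
  low := fun k e he => monQ.low k e (mem_filter.1 he).1
  ne := fun k e he => monQ.ne k e (mem_filter.1 he).1

theorem monL_sub (k : Fin 11) : monL.mon k ⊆ mfQ k := filter_subset _ _

theorem monL_one (k : Fin 11) (e : Fin 11 → ℕ) (he : e ∈ monL.mon k) : e 1 = 0 :=
  (mem_filter.1 he).2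

theorem legL_cone {p : Fin 11 → ℝ} (h : Legal monL p) : p ∈ coneN := by
  have hs : ∀ e : Fin 11 → ℕ, ∑ s, (e s : ℝ) * p s = e 0 * p 0 + e 1 * p 1 + e 2 * p 2 +
      e 3 * p 3 + e 4 * p 4 + e 5 * p 5 + e 6 * p 6 + e 7 * p 7 + e 8 * p 8 + e 9 * p 9 +
      e 10 * p 10 := by
    intro e
    simp [Fin.sum_univ_succ]
    ring
  have w : ∀ k, ∀ e ∈ mfQ k, e 1 = 0 → p k ≤ ∑ s, (e s : ℝ) * p s := fun k e he h1 =>
    h.wall k e (mem_filter.2 ⟨he, h1⟩)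
  simp only [hs] at w
  refine ⟨?_, ?_, ?_, ?_, ?_, ?_, ?_, ?_, ?_, ?_⟩
  · simpa using w 4 ![0, 0, 1, 1, 0, 0, 0, 0, 0, 0, 0] (by decide) (by decide)
  · simpa using w 6 ![0, 0, 1, 0, 0, 1, 0, 0, 0, 0, 0] (by decide) (by decide)
  · simpa using w 7 ![0, 0, 0, 0, 1, 1, 0, 0, 0, 0, 0] (by decide) (by decide)
  · simpa using w 7 ![0, 0, 0, 1, 0, 0, 1, 0, 0, 0, 0] (by decide) (by decide)
  · simpa using w 8 ![1, 0, 0, 0, 0, 1, 0, 0, 0, 0, 0] (by decide) (by decide)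
  · simpa using w 9 ![1, 0, 0, 0, 0, 0, 1, 0, 0, 0, 0] (by decide) (by decide)
  · simpa using w 9 ![0, 0, 1, 0, 0, 0, 0, 0, 1, 0, 0] (by decide) (by decide)
  · simpa using w 10 ![1, 0, 0, 0, 0, 0, 0, 1, 0, 0, 0] (by decide) (by decide)
  · simpa using w 10 ![0, 0, 0, 0, 1, 0, 0, 0, 1, 0, 0] (by decide) (by decide)
  · simpa using w 10 ![0, 0, 0, 1, 0, 0, 0, 0, 0, 1, 0] (by decide) (by decide)

theorem leg_monL_cone (R' : ℝ) : Leg monL R' ⊆ coneN := fun _ h => legL_cone h.1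

/-- legal for `monL` : nonnegative and the walls, slot `1` free -/
theorem legL_of {p : Fin 11 → ℝ} (h0 : ∀ s, 0 ≤ p s) (h : p ∈ coneN) : Legal monL p := by
  obtain ⟨a1, a2, a3, a4, a5, a6, a7, a8, a9, a10⟩ := h
  refine legal_drop (p' := Function.update p 1 (p 7)) monL_sub monL_one h0
    (fun s hs => Function.update_of_ne hs _ _) ?_
  rw [legalQ_iff]
  have e1 : Function.update p 1 (p 7) 1 = p 7 := Function.update_self _ _ _
  have en : ∀ s : Fin 11, s ≠ 1 → Function.update p 1 (p 7) s = p s :=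
    fun s hs => Function.update_of_ne hs _ _
  rw [en 0 (by decide), en 2 (by decide), en 3 (by decide), en 4 (by decide), en 5 (by decide),
    en 6 (by decide), en 7 (by decide), en 8 (by decide), en 9 (by decide), en 10 (by decide), e1]
  refine ⟨fun k => ?_, a1, a2, by linarith [h0 0], a3, a4, a5, a6, a7, a8, a9, a10⟩
  by_cases hk : k = 1
  · subst hk; rw [e1]; exact h0 7
  · rw [en k hk]; exact h0 k

theorem cut_cu (x : ℝ) (p : Fin 11 → ℝ) : cut {0, 3} p (fun _ => x) = cu x p := by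
  funext s
  unfold cu cut topL
  by_cases h0 : s = 0
  · subst h0; simp
  · by_cases h3 : s = 3
    · subst h3; simp
    · simp [h0, h3]

section

variable {ι : ℕ → Type*} [∀ n, DecidableEq (ι n)] {B B' : Base} {I J : ∀ n, Finset (ι n)}
  {co : ∀ n, ι n → ι n → Fin 11 → ℝ} {C : ℝ} {Y : ℕ → Fin 11 → ℝ} {w : ℕ → ℝ}
  {T : ℕ → ℝ} {lam : (Fin 11 → ℝ) → ℝ} {Cl : ∀ n, Finset (ι n)}
  {s₀ : ∀ n, ι n} {x R' a m : ℝ}

theorem lv_legL {x n t : ℝ} (hx : 0 ≤ x) (ht : 0 ≤ t) (htx : t ≤ x) (hn : n = 0 ∨ n = x) :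
    Legal monL (cu x (lv x n t)) := by
  rw [← cut_cu]
  have e : cut {0, 3} (lv x n t) (fun _ => x) = ![x, 0, x, x, x, x, x, t, x, t, n] := by
    funext s
    unfold cut lv
    fin_cases s <;> simp
  have hn0 : 0 ≤ n := by rcases hn with rfl | rfl <;> linarith
  have hnx : n ≤ x := by rcases hn with rfl | rfl <;> linarith
  rw [e]
  refine legL_of (fun s => ?_) ⟨?_, ?_, ?_, ?_, ?_, ?_, ?_, ?_, ?_, ?_⟩
  · fin_cases s <;> simp <;> linarith
  all_goals simp only [Matrix.cons_val] <;> linarith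

/-- **the numbers of `LightF` give 501's window** -/
theorem lightW_of (hx : 0 < x) (hxR : x ≤ R') {a m s : ℝ} (H : LightF coneN lam a m) (has : a < s)
    (hs1 : s < 1)
    (hsl : ∀ᶠ n in (U : Filter ℕ), Y n 7 + x * w n ≤ Y n 0 + Y n 1)
    (ht7 : ∀ᶠ n in (U : Filter ℕ), Y n 10 = Y n 0 + Y n 7)
    (ht9 : ∀ᶠ n in (U : Filter ℕ), Y n 10 = Y n 3 + Y n 9) :
    LightW ((stR 1 x R' monL).wnd B B' I J co monQ C Y w coneN T lam Cl s₀) x 1 s a where
  x_pos := hx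
  hS := rfl
  kz := rfl
  top := fun _ => le_rfl
  slack := hsl
  tight7 := ht7
  tight9 := ht9
  leg0 := by
    rw [WSt.mem_legW]
    refine ⟨⟨?_, fun s => ?_⟩, fun s hs => ?_⟩
    · have := lv_legL hx.le le_rfl hx.le (Or.inl rfl)
      rw [← cut_cu] at this
      exact this
    · refine le_trans ?_ hxR
      show cut {0, 3} (lv x 0 0) (fun _ => x) s ≤ x
      unfold cut lv
      fin_cases s <;> simp <;> linarith
    · show lv x 0 0 s ≤ x
      unfold lv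
      fin_cases s <;> simp <;> linarith
  leg := fun t ht htx => by
    rw [WSt.mem_legW]
    refine ⟨⟨?_, fun s => ?_⟩, fun s hs => ?_⟩
    · have := lv_legL hx.le ht htx (Or.inr rfl)
      rw [← cut_cu] at this
      exact this
    · refine le_trans ?_ hxR
      show cut {0, 3} (lv x x t) (fun _ => x) s ≤ x
      unfold cut lv
      fin_cases s <;> simp <;> linarith
    · show lv x x t s ≤ x
      unfold lv
      fin_cases s <;> simp <;> linarith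
  dens := by
    show lam (fun _ => x) ≤ lam (cut {0, 3} (fun _ => x) 0) + lam (cut {0, 3} 0 (fun _ => x))
    have h1 := H.dens x hx.le
    have hm : ∀ p : Fin 11 → ℝ, (∀ s, 0 ≤ p s) → p ∈ coneN → Legal monL p := fun p => legL_of
    have c1 : (fun _ => x : Fin 11 → ℝ) ∈ coneN := by
      refine ⟨?_, ?_, ?_, ?_, ?_, ?_, ?_, ?_, ?_, ?_⟩ <;> linarith
    have c2 : topL x ∈ coneN := by
      refine ⟨?_, ?_, ?_, ?_, ?_, ?_, ?_, ?_, ?_, ?_⟩ <;> simp [topL] <;> linarith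
    have c3 : cut {0, 3} (fun _ => x : Fin 11 → ℝ) 0 ∈ coneN := by
      refine ⟨?_, ?_, ?_, ?_, ?_, ?_, ?_, ?_, ?_, ?_⟩ <;> simp [cut] <;> linarith
    have c4 : cut {0, 3} (topL x) 0 ∈ coneN := by
      refine ⟨?_, ?_, ?_, ?_, ?_, ?_, ?_, ?_, ?_, ?_⟩ <;> simp [cut, topL] <;> linarith
    have e1 : lam (fun _ => x) = lam (topL x) := H.slot _ c1 _ c2 fun i hi => by
      simp [topL, hi]
    have e2 : lam (cut {0, 3} (fun _ => x) 0) = lam (cut {0, 3} (topL x) 0) :=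
      H.slot _ c3 _ c4 fun i hi => by
        simp [topL, cut, hi]
    have e3 : cut {0, 3} (0 : Fin 11 → ℝ) (fun _ => x) = cut {0, 3} 0 (topL x) := by
      rw [cut_cu]; rfl
    rw [e1, e2, e3]
    exact h1
  frost := fun y hy _ => by
    show lam (Pi.single 0 y) ≤ -(1 * y)
    rw [one_mul]
    exact H.frost y hy
  full := fun t ht htx => by
    rw [WSt.wnd_nu, WSt.wnd_nu]
    show s * t ≤ lam (cut {0, 3} (lv x x 0) fun _ => x) - lam (fun _ => x) -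
      (lam (cut {0, 3} (lv x x t) fun _ => x) - lam (fun _ => x))
    rw [cut_cu, cut_cu]
    have h1 := H.full x t ht htx
    have h2 : s * t ≤ t := by nlinarith
    linarith
  loss := by
    rw [WSt.wnd_nu, WSt.wnd_nu]
    show lam (cut {0, 3} (lv x 0 0) fun _ => x) - lam (fun _ => x) -
      (lam (cut {0, 3} (lv x x 0) fun _ => x) - lam (fun _ => x)) ≤ a * x
    rw [cut_cu, cut_cu]
    have h1 := H.loss x hx.le
    linarith

end

/-- **affine relation** of the flag `F_b` on a set of incidences; `D0, D3` = sides of the slots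
`z, F_b`; slope at most `s D3/D0`, error `r D3` -/
def AffR {α : Type*} (F : α → Fq4) (D0 D3 s r : ℝ) (G : Finset α) : Prop :=
  ∃ mu be : ℝ, |mu| * D0 ≤ s * D3 ∧ ∀ i ∈ G, |(F i).fb - be - mu * (F i).z| ≤ r * D3

theorem AffR.mono {α : Type*} {F : α → Fq4} {D0 D3 s r : ℝ} {G G' : Finset α} (h : G' ⊆ G)
    (H : AffR F D0 D3 s r G) : AffR F D0 D3 s r G' := by
  obtain ⟨mu, be, h1, h2⟩ := H
  exact ⟨mu, be, h1, fun i hi => h2 i (h hi)⟩

theorem AffR.weak {α : Type*} {F : α → Fq4} {D0 D3 s r s' r' : ℝ} {G : Finset α} (hD : 0 ≤ D3)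
    (hs : s ≤ s') (hr : r ≤ r') (H : AffR F D0 D3 s r G) : AffR F D0 D3 s' r' G := by
  obtain ⟨mu, be, h1, h2⟩ := H
  exact ⟨mu, be, h1.trans (mul_le_mul_of_nonneg_right hs hD), fun i hi =>
    (h2 i hi).trans (mul_le_mul_of_nonneg_right hr hD)⟩

/-- from normalised coordinates to absolute coordinates -/
theorem affR_of_crd {α : Type*} {F : α → Fq4} {D0 D3 s r : ℝ} {G : Finset α} (h0 : 0 < D0)
    (h3 : 0 < D3) (s₀ : α) {μ β : ℝ} (hμ : |μ| ≤ s)
    (h : ∀ i ∈ G, |((F i).fb - (F s₀).fb) / D3 - β - μ * (((F i).z - (F s₀).z) / D0)| ≤ r) :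
    AffR F D0 D3 s r G := by
  refine ⟨μ * D3 / D0, (F s₀).fb + β * D3 - μ * D3 / D0 * (F s₀).z, ?_, fun i hi => ?_⟩
  · rw [abs_div, abs_mul, abs_of_pos h0, abs_of_pos h3, div_mul_cancel₀ _ h0.ne']
    exact mul_le_mul_of_nonneg_right hμ h3.le
  · have h1 := h i hi
    have e : (F i).fb - ((F s₀).fb + β * D3 - μ * D3 / D0 * (F s₀).z) - μ * D3 / D0 * (F i).z =
        (((F i).fb - (F s₀).fb) / D3 - β - μ * (((F i).z - (F s₀).z) / D0)) * D3 := by
      field_simp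
      ring
    rw [e, abs_mul, abs_of_pos h3]
    exact mul_le_mul_of_nonneg_right h1 h3.le

/-- **[RIG-0] on all classes of a dense part of an interior window** -/
theorem strip_int {B B' : Base} {I J : ℕ → Finset (ℕ × ℝ)} {F : ℕ → ℕ × ℝ → Fq4}
    {Y : ℕ → Fin 11 → ℝ} {w : ℕ → ℝ} {T : ℕ → ℝ} {lam : (Fin 11 → ℝ) → ℝ}
    (hZ : ZWin B B' I J (coF F) monQ 2 Y w coneN T lam) {a m : ℝ} (H : LightF coneN lam a m)
    {x : ℝ} (hx : 0 < x)
    (hsl : ∀ᶠ n in (U : Filter ℕ), Y n 7 + x * w n ≤ Y n 0 + Y n 1)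
    (ht7 : ∀ᶠ n in (U : Filter ℕ), Y n 10 = Y n 0 + Y n 7)
    (ht9 : ∀ᶠ n in (U : Filter ℕ), Y n 10 = Y n 3 + Y n 9)
    {η : ℝ} (hη : 0 < η) (hη1 : η ≤ 1) :
    ∃ y₀ : ℝ, 0 < y₀ ∧ y₀ ≤ x ∧ ∃ J1 : ℕ → Finset (ℕ × ℝ), (∀ n, J1 n ⊆ J n) ∧
      ∀ᶠ n in (U : Filter ℕ), B'.d n ^ (3 * η * y₀) * ((J n).card : ℝ) ≤ ((J1 n).card : ℝ) ∧
        ∀ s ∈ J1 n, AffR (F n) (B.d n ^ Y n 0) (B.d n ^ Y n 3) (B'.d n ^ (-(2 * η * y₀)))
          (B'.d n ^ y₀) (cls (J1 n) (zlab B I (coF F) monQ 2 Y w n 0) s) := by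
  obtain ⟨θ, hθ, hθ1, hrig⟩ := rig0_light (σ := 1) (s := (a + 1) / 2) (a := a) (η := η) H.a0
    (by linarith [H.a1]) (by linarith [H.a1]) le_rfl hη hη1
  have hst : (stR 1 x x monL).Ok monQ coneN :=
    stR_ok one_pos hx.le le_rfl monL_sub rfl (leg_monL_cone x)
  have hd : ∀ n (u : ℝ), 0 < B'.d n ^ u := fun n u => Real.rpow_pos_of_pos (B'.pos n) u
  have hD : ∀ n (u : ℝ), 0 < B.d n ^ u := fun n u => Real.rpow_pos_of_pos (B.pos n) u
  have hdn : ∀ n {u v : ℝ}, u ≤ v → B'.d n ^ v ≤ B'.d n ^ u := fun n {u v} h' =>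
    Real.rpow_le_rpow_of_exponent_ge (B'.pos n) (B'.lt n).le h'
  have hloc : ∀ Gd : ℕ → Finset (ℕ × ℝ), (∀ n, Gd n ⊆ J n) →
      (∀ n, ∀ s ∈ Gd n, ∀ y ∈ J n, zlab B I (coF F) monQ 2 Y w n 0 y =
        zlab B I (coF F) monQ 2 Y w n 0 s → y ∈ Gd n) →
      (∀ᶠ n in (U : Filter ℕ), ((J n).card : ℝ) ≤ 2 * ((Gd n).card : ℝ)) →
      ∀ᶠ n in (U : Filter ℕ), ∃ s : ℕ × ℝ, ∃ G' ⊆ cls (Gd n)
        (zlab B I (coF F) monQ 2 Y w n 0) s, ∃ y, θ * x ≤ y ∧ y ≤ x ∧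
        T n * B'.d n ^ (η * y) ≤ (G'.card : ℝ) ∧ 0 < (G'.card : ℝ) ∧
        AffR (F n) (B.d n ^ Y n 0) (B.d n ^ Y n 3) (B'.d n ^ (-(η * y))) (B'.d n ^ y) G' := by
    intro Gd hGd hfull hdens
    obtain ⟨s₀, hs₀, hok⟩ := hZ.exists_wnd hst (fun _ => (0, 0)) (Gd := Gd) (E := Gd)
      (Eventually.of_forall hGd) (Eventually.of_forall fun n => Subset.refl _)
      (Sd := fun _ => 2) (Base.Sub.const two_pos) hdens
    have hq : QWnd ((stR 1 x x monL).wnd B B' I J (coF F) monQ 2 Y w coneN T lam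
        (fun n => cls (Gd n) (zlab B I (coF F) monQ 2 Y w n 0) (s₀ n)) s₀) F :=
      { ok := hok
        hM := rfl
        hco := fun n i _ j _ => rfl
        hS := fun s hs => by
          have : s ∈ ({0, 3} : Finset (Fin 11)) := hs
          simp only [mem_insert, mem_singleton] at this
          rcases this with rfl | rfl
          · exact Or.inl rfl
          · exact Or.inr (Or.inr (Or.inl rfl)) }
    have hL := lightW_of (B := B) (B' := B') (I := I) (J := J) (co := coF F) (C := 2) (T := T)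
      (Cl := fun n => cls (Gd n) (zlab B I (coF F) monQ 2 Y w n 0) (s₀ n)) (s₀ := s₀)
      (R' := x) hx le_rfl H (s := (a + 1) / 2) (by linarith [H.a1]) (by linarith [H.a1]) hsl
      ht7 ht9
    filter_upwards [hrig hq hL] with n hn
    obtain ⟨y, hy1, hy2, G', μ, β, g1, g2, g3, g4⟩ := hn
    refine ⟨s₀ n, G', g1, y, hy1, hy2, g2, ?_, ?_⟩
    · exact lt_of_lt_of_le (mul_pos (hZ.T0 n) (hd n _)) g2
    · refine affR_of_crd (hD n _) (hD n _) (s₀ n) (β := β) g3 fun i hi => ?_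
      have := g4 i hi
      simp only [Wnd.crd, WSt.wnd, stR, one_pow, one_mul, coF, coQ, Matrix.cons_val] at this
      exact this
  have hθx : θ * x ≤ x := by nlinarith
  obtain ⟨y₀, h1, h2, J1, h3, h4⟩ := strip_to_global' (B := B') (J := J)
    (fun n => zlab B I (coF F) monQ 2 Y w n 0) hZ.T0 (fun ε hε => by
      filter_upwards [hZ.prof.up 0 ε hε] with n hn s hs
      have := hn 0 hZ.zero (by rw [norm_zero]) s hs
      rwa [hZ.lam0, zero_add] at this) (a := θ * x) (b := x) (mul_pos hθ hx) hθx hη hη1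
    (fun n y G => AffR (F n) (B.d n ^ Y n 0) (B.d n ^ Y n 3) (B'.d n ^ (-(η * y)))
          (B'.d n ^ y) G)
    (fun n y G => AffR (F n) (B.d n ^ Y n 0) (B.d n ^ Y n 3) (B'.d n ^ (-(2 * η * y)))
          (B'.d n ^ y) G)
    (fun n y G G' hG h => h.mono hG)
    (fun n y y' G hy1 hy2 hy3 h => h.weak (hD n _).le (hdn n (by
      have h5 : η * y ≤ η * ((1 + η) * y') := mul_le_mul_of_nonneg_left hy3 hη.le
      have h6 : 0 ≤ y' := le_trans (mul_pos hθ hx).le hy1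
      have h7 : η * (η * y') ≤ η * (1 * y') := mul_le_mul_of_nonneg_left
        (mul_le_mul_of_nonneg_right hη1 h6) hη.le
      linarith)) (hdn n hy2)) hloc
  exact ⟨y₀, lt_of_lt_of_le (mul_pos hθ hx) h1, h2, J1, h3, h4⟩

end Crest.Agent.R136.Gau66
end

-- ▼ part R136/GauB2_66
section

/-!
# R136 (helper66): T.L, `F_b` is affine in the height at the record line

* `recW_zoom` : a zoom of a record window at moving record points is a record window (the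
  normalisations are exact on the record line).
* `int_*` : exponents of the interior base point `z.1 T + z.2 ρ`.
* **`exists_affW`** : `HasRig` gives a record window with affine `F_b` (`AffW`).
-/

set_option autoImplicit false
set_option linter.unusedVariables false

open Filter Topology Finset

namespace Crest.Agent.R136.Gau66

open Crest.Agent.R138.Ex926
open Crest.Agent.R136.Net191
open Crest.Agent.R136.NetQ186
open Crest.Agent.R136.NatT550
open Crest.Agent.R136.NatR550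
open Crest.Agent.R136.TopB550
open Crest.Agent.R136.Qg926
open Crest.Agent.R136.Zpr779
open Crest.Agent.R136.Gz779
open Crest.Agent.R136.TL196
open Crest.Agent.R136.LdF3511

section congr

variable {m : ℕ} {ι : ℕ → Type*} [∀ n, DecidableEq (ι n)]

theorem zprof_congrT {B : Base} {κ : ℕ → Type*} [∀ n, DecidableEq (κ n)] {V : Type*} [LE V]
    [Norm V] {J : ∀ n, Finset (ι n)} {g : ∀ n, V → ι n → κ n} {D : Set V} {T T' : ℕ → ℝ}
    {lam : V → ℝ} (h : ZProf B J g D T lam) (he : ∀ᶠ n in (U : Filter ℕ), T' n = T n) :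
    ZProf B J g D T' lam where
  up := fun K ε hε => by
    filter_upwards [h.up K ε hε, he] with n h1 h2
    rw [h2]; exact h1
  num := h.num
  root := fun K ε hε => by
    filter_upwards [h.root K ε hε, he] with n h1 h2
    rw [h2]; exact h1

theorem zwin_congrT {B B' : Base} {I J : ∀ n, Finset (ι n)} {co : ∀ n, ι n → ι n → Fin m → ℝ}
    {M : Mons m} {C : ℝ} {X : ℕ → Fin m → ℝ} {w : ℕ → ℝ} {D : Set (Fin m → ℝ)} {T T' : ℕ → ℝ}
    {lam : (Fin m → ℝ) → ℝ} (h : ZWin B B' I J co M C X w D T lam) (hT : ∀ n, 0 < T' n)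
    (he : ∀ᶠ n in (U : Filter ℕ), T' n = T n) : ZWin B B' I J co M C X w D T' lam :=
  { h with
    prof := zprof_congrT h.prof he
    T0 := hT }

end congr

section rec

variable {η : ℝ} {c : LCtx}

theorem rec_val_add (ok : c.Ok η) {ξ x : ℝ} (h0 : 0 ≤ ξ) (h1 : ξ < 1) (h2 : 0 ≤ ξ + x)
    (h3 : ξ + x < 1) : c.ν (c.X (ξ + x)) = c.ν (c.X ξ) + x * DL c.p c.ρ := by
  rw [rec_val ok h0 h1, rec_val ok h2 h3]
  unfold DN
  simp only [DL, LCtx.ρ, nL, Matrix.cons_val]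
  ring

theorem own_rec (ok : c.Ok η) {ξ : ℝ} (h0 : 0 < ξ) (h1 : ξ < 1) : c.own (c.X ξ) = 1 - ξ := by
  have hleg : c.X ξ ∈ Leg monQ c.R := by
    obtain ⟨δ, hδ, hl⟩ := recF_leg ok.th.tp.big (R_room ok).2.1 (R_room ok).1 h0 h1
    have := hl 0 coneN_zero (fun k => by simpa using hδ.le)
    rw [add_zero] at this
    exact this
  refine own_val ok hleg h0.le h1.le ?_ ?_ ?_
  · simp only [LCtx.X, nat4, Matrix.cons_val]
  · simp only [LCtx.X, nat4, Matrix.cons_val]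
    exact le_of_eq (by ring)
  · simp only [LCtx.X, nat4, Matrix.cons_val]
    exact le_of_eq (by ring)

theorem lo_rec {lam lo : (Fin 11 → ℝ) → ℝ} (ok : c.Ok η)
    (hlo : ∀ a ∈ coneN, a 3 ≤ a 0 → a 4 ≤ (1 - c.p.θ 1) * a 0 → lo a = -(a 0)) (s : ℝ) :
    lo (s • c.ρ) = -s := by
  have hL : c.p.θ 2 - c.p.θ 0 = 1 := ok.pat.2.2.1
  have hL2 : c.p.θ 2 = 2 * c.p.θ 1 := ok.pat.2.2.2
  have e0 : (s • c.ρ) 0 = s := by simp [LCtx.ρ, nL]
  have e3 : (s • c.ρ) 3 = s := by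
    simp only [LCtx.ρ, nL, Pi.smul_apply, smul_eq_mul, Matrix.cons_val]
    linear_combination s * hL
  have e4 : (s • c.ρ) 4 = (1 - c.p.θ 1) * s := by
    simp only [LCtx.ρ, nL, Pi.smul_apply, smul_eq_mul, Matrix.cons_val]
    linear_combination s * (hL - hL2)
  rw [hlo _ (ρ_mem c s) (by rw [e0, e3]) (by rw [e0, e4]), e0]

/-- **zoom of a record window at record points** -/
theorem recW_zoom (ok : c.Ok η) {B₁ B' : Base} {J J' : ℕ → Finset (ℕ × ℝ)} {ξ w : ℕ → ℝ}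
    {lam lo lam' lo' : (Fin 11 → ℝ) → ℝ} (W : RecW c B₁ J ξ w lam lo)
    (F : RecFacts c lam' lo') {σ v : ℕ → ℝ} {S : ℝ} (hσ : ∀ n, |σ n| ≤ S)
    (hv : Tendsto v U (𝓝 0)) (hJ : ∀ n, J' n ⊆ J n)
    (hZ : ZWin c.D.B B' c.D.I J' (coF c.F) monQ 2 (fun n => c.X (ξ n) + w n • (σ n • c.ρ))
      (fun n => w n * v n) coneN
      (fun n => c.D.B.d n ^ (-(c.ν (c.X (ξ n)))) * B₁.d n ^ (-(lam (σ n • c.ρ)))) lam')
    (hO : ZProf B' J' (fun n a => zolb c.D.B c.D.I (coF c.F) monQ 2 (fun n => c.X (ξ n)) w n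
      (σ n • c.ρ + v n • a)) coneN
      (fun n => c.D.B.d n ^ (-(c.own (c.X (ξ n)))) * B₁.d n ^ (-(lo (σ n • c.ρ)))) lo') :
    RecW c B' J' (fun n => ξ n + w n * σ n) (fun n => w n * v n) lam' lo' := by
  obtain ⟨ξ₀, h0, h1, hξ⟩ := W.ξlim
  have hwσ : Tendsto (fun n => w n * σ n) U (𝓝 0) := by
    have hb : Tendsto (fun n => |w n| * |S|) U (𝓝 0) := by
      have := W.wlim.abs.mul_const |S|
      rwa [abs_zero, zero_mul] at this
    refine squeeze_zero_norm (fun n => ?_) hb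
    rw [Real.norm_eq_abs, abs_mul]
    exact mul_le_mul_of_nonneg_left ((hσ n).trans (le_abs_self _)) (abs_nonneg _)
  have hξ' : Tendsto (fun n => ξ n + w n * σ n) U (𝓝 ξ₀) := by
    have := hξ.add hwσ
    rwa [add_zero] at this
  have hX : ∀ n, c.X (ξ n) + w n • (σ n • c.ρ) = c.X (ξ n + w n * σ n) := fun n => by
    rw [smul_smul, X_add]
  have ev : ∀ᶠ n in (U : Filter ℕ), 0 < ξ n ∧ ξ n < 1 ∧ 0 < ξ n + w n * σ n ∧
      ξ n + w n * σ n < 1 := by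
    filter_upwards [hξ.eventually_const_lt h0, hξ.eventually_lt_const h1,
      hξ'.eventually_const_lt h0, hξ'.eventually_lt_const h1] with n a b d e
    exact ⟨a, b, d, e⟩
  refine F.recW ?_ ⟨ξ₀, h0, h1, hξ'⟩ ?_ ?_ ?_
  · filter_upwards [W.Jsub] with n hn using (hJ n).trans hn
  · have := W.wlim.mul hv
    rwa [zero_mul] at this
  · have e1 : (fun n => c.X (ξ n) + w n • (σ n • c.ρ)) = fun n => c.X (ξ n + w n * σ n) :=
      funext hX
    rw [e1] at hZ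
    refine zwin_congrT hZ (fun n => Real.rpow_pos_of_pos (c.D.B.pos n) _) ?_
    filter_upwards [ev] with n hn
    rw [rec_val_add ok hn.1.le hn.2.1 hn.2.2.1.le hn.2.2.2, W.win.base n, W.recd,
      ← Real.rpow_mul (c.D.B.pos n).le, ← Real.rpow_add (c.D.B.pos n)]
    congr 1
    ring
  · have e1 : (fun n a => zolb c.D.B c.D.I (coF c.F) monQ 2 (fun n => c.X (ξ n)) w n
        (σ n • c.ρ + v n • a)) = zolb c.D.B c.D.I (coF c.F) monQ 2
          (fun n => c.X (ξ n + w n * σ n)) (fun n => w n * v n) := by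
      funext n a x
      unfold zolb zlab
      rw [← zoom_zoom, hX]
    rw [e1] at hO
    refine zprof_congrT hO ?_
    filter_upwards [ev] with n hn
    rw [own_rec ok hn.1 hn.2.1, own_rec ok hn.2.2.1 hn.2.2.2, W.win.base n,
      lo_rec (lam := lam) ok W.lo_full, ← Real.rpow_mul (c.D.B.pos n).le,
      ← Real.rpow_add (c.D.B.pos n)]
    congr 1
    ring

end rec

/-! ### the interior base point -/

section int

variable {η : ℝ} {c : LCtx}

/-- interior base direction -/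
noncomputable def yI (c : LCtx) (z : ℝ × ℝ) : Fin 11 → ℝ := z.1 • tN + z.2 • c.ρ

theorem tN_eq : tN = nL 1 0 0 1 := by
  funext k
  fin_cases k <;> simp [tN, nL]
  norm_num

theorem tN_mem (s : ℝ) : s • tN ∈ coneN := by
  rw [tN_eq, nL_smul]
  exact nL_mem _ _ _ _

theorem yI_mem (c : LCtx) (z : ℝ × ℝ) : yI c z ∈ coneN := coneN_add (tN_mem _) (ρ_mem c _)

theorem X_zero (c : LCtx) (ξ : ℝ) : c.X ξ 0 = c.w0 + ξ := by
  simp only [LCtx.X, nat4, Matrix.cons_val]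

theorem X_three (ok : c.Ok η) (ξ : ℝ) : c.X ξ 3 = c.w0 + ξ := by
  have hL : c.p.θ 2 - c.p.θ 0 = 1 := ok.pat.2.2.1
  simp only [LCtx.X, nat4, Matrix.cons_val]
  linear_combination ξ * hL

theorem Y_zero (c : LCtx) (z : ℝ × ℝ) (ξ w : ℝ) :
    (c.X ξ + w • yI c z) 0 = c.w0 + (ξ + w * (z.1 + z.2)) := by
  simp only [LCtx.X, nat4, yI, tN, LCtx.ρ, nL, Pi.add_apply, Pi.smul_apply, smul_eq_mul,
    Matrix.cons_val]
  ring

theorem Y_three (ok : c.Ok η) (z : ℝ × ℝ) (ξ w : ℝ) :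
    (c.X ξ + w • yI c z) 3 = c.w0 + (ξ + w * (z.1 + z.2)) := by
  have hL : c.p.θ 2 - c.p.θ 0 = 1 := ok.pat.2.2.1
  simp only [LCtx.X, nat4, yI, tN, LCtx.ρ, nL, Pi.add_apply, Pi.smul_apply, smul_eq_mul,
    Matrix.cons_val]
  linear_combination (ξ + w * z.2) * hL

theorem Y_tight7 (c : LCtx) (z : ℝ × ℝ) (ξ w : ℝ) :
    (c.X ξ + w • yI c z) 10 = (c.X ξ + w • yI c z) 0 + (c.X ξ + w • yI c z) 7 := by
  simp only [LCtx.X, nat4, yI, tN, LCtx.ρ, nL, Pi.add_apply, Pi.smul_apply, smul_eq_mul,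
    Matrix.cons_val]
  ring

theorem Y_tight9 (c : LCtx) (z : ℝ × ℝ) (ξ w : ℝ) :
    (c.X ξ + w • yI c z) 10 = (c.X ξ + w • yI c z) 3 + (c.X ξ + w • yI c z) 9 := by
  simp only [LCtx.X, nat4, yI, tN, LCtx.ρ, nL, Pi.add_apply, Pi.smul_apply, smul_eq_mul,
    Matrix.cons_val]
  ring

theorem Y_slack (ok : c.Ok η) (z : ℝ × ℝ) {ξ₀ : ℝ} (h0 : 0 < ξ₀) (h1 : ξ₀ < 1) {ξ w u : ℕ → ℝ}
    (hξ : Tendsto ξ U (𝓝 ξ₀)) (hw : Tendsto w U (𝓝 0)) (hu : Tendsto u U (𝓝 0)) (x : ℝ) :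
    ∀ᶠ n in (U : Filter ℕ), (c.X (ξ n) + w n • yI c z) 7 + x * u n ≤
      (c.X (ξ n) + w n • yI c z) 0 + (c.X (ξ n) + w n • yI c z) 1 := by
  have hT := ok.th.tp.big.T0
  have hw0 := ok.th.tp.big.w0T
  have hR := ok.th.tp.big.R0
  have hθ := abs_le.1 (ok.th.tp.big.th 0)
  have e : ∀ n, (c.X (ξ n) + w n • yI c z) 7 + x * u n - ((c.X (ξ n) + w n • yI c z) 0 +
      (c.X (ξ n) + w n • yI c z) 1) = (2 * c.w0 - (c.R - 1)) + (-(c.p.θ 0) - 1) * ξ n +
        (-(z.2 * c.p.θ 0) - z.2) * w n + x * u n := fun n => by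
    simp only [LCtx.X, nat4, yI, tN, LCtx.ρ, nL, Pi.add_apply, Pi.smul_apply, smul_eq_mul,
      Matrix.cons_val]
    ring
  have ht : Tendsto (fun n => (2 * c.w0 - (c.R - 1)) + (-(c.p.θ 0) - 1) * ξ n +
      (-(z.2 * c.p.θ 0) - z.2) * w n + x * u n) U (𝓝 ((2 * c.w0 - (c.R - 1)) +
        (-(c.p.θ 0) - 1) * ξ₀ + (-(z.2 * c.p.θ 0) - z.2) * 0 + x * 0)) :=
    (((hξ.const_mul _).const_add _).add (hw.const_mul _)).add (hu.const_mul _)
  have hlt : (2 * c.w0 - (c.R - 1)) + (-(c.p.θ 0) - 1) * ξ₀ + (-(z.2 * c.p.θ 0) - z.2) * 0 +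
      x * 0 < 0 := by
    have h2 : (-(c.p.θ 0) - 1) * ξ₀ ≤ c.T0 := by
      have h3 : -(c.p.θ 0) * ξ₀ ≤ c.T0 * 1 := by
        rcases le_total 0 (-(c.p.θ 0)) with h4 | h4
        · exact mul_le_mul (by linarith [hθ.1]) h1.le h0.le hT
        · have := mul_nonneg (neg_nonneg.2 h4) h0.le
          linarith
      linarith
    linarith
  filter_upwards [ht.eventually_lt_const hlt] with n hn
  have := e n
  linarith

/-- the exponents of the interior base point are below those of the record classes behind it -/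
theorem Y_le (ok : c.Ok η) {z : ℝ × ℝ} (hz : z.1 < 0) {ξ w1 h s u K : ℝ} (hw1 : 0 ≤ w1)
    (hh : 0 ≤ h) (hs0 : 0 ≤ s) (hs1 : s ≤ 1) (hu0 : 0 ≤ u) (hu1 : u ≤ 1) (huK : u * K ≤ s)
    (hhK : h * (‖c.ρ‖ + K) ≤ -z.1 * c.p.θ 1) {a : Fin 11 → ℝ} (ha1 : 0 ≤ a 1) (haK : ‖a‖ ≤ K) :
    c.X ξ + w1 • yI c z ≤
      c.X (ξ + w1 * (z.1 + z.2) + w1 * h * s) + (w1 * h * u) • a := by
  have hL : c.p.θ 2 - c.p.θ 0 = 1 := ok.pat.2.2.1
  have hL2 : c.p.θ 2 = 2 * c.p.θ 1 := ok.pat.2.2.2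
  have hθ := ok.th.tp.ok.θ1
  have hK : 0 ≤ K := (norm_nonneg a).trans haK
  have hab : ∀ k, |a k| ≤ K := fun k => by
    have := norm_le_pi_norm a k
    rw [Real.norm_eq_abs] at this
    exact this.trans haK
  have hρb : ∀ k, |c.ρ k| ≤ ‖c.ρ‖ := fun k => by
    have := norm_le_pi_norm c.ρ k
    rwa [Real.norm_eq_abs] at this
  -- the general estimate of a slot
  have key : ∀ k : Fin 11, c.p.θ 1 ≤ tN k - c.ρ k →
      0 ≤ w1 * (-z.1 * (tN k - c.ρ k) + h * (s * c.ρ k + u * a k)) := by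
    intro k hk
    refine mul_nonneg hw1 ?_
    have h1 : -z.1 * c.p.θ 1 ≤ -z.1 * (tN k - c.ρ k) :=
      mul_le_mul_of_nonneg_left hk (by linarith)
    have h2 : -(‖c.ρ‖ + K) ≤ s * c.ρ k + u * a k := by
      have h3 : |s * c.ρ k| ≤ 1 * ‖c.ρ‖ := by
        rw [abs_mul, abs_of_nonneg hs0]
        exact mul_le_mul hs1 (hρb k) (abs_nonneg _) zero_le_one
      have h4 : |u * a k| ≤ 1 * K := by
        rw [abs_mul, abs_of_nonneg hu0]
        exact mul_le_mul hu1 (hab k) (abs_nonneg _) zero_le_one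
      have h5 := (abs_le.1 h3).1
      have h6 := (abs_le.1 h4).1
      linarith
    have h3 := mul_le_mul_of_nonneg_left h2 hh
    linarith
  have hlev : ∀ k : Fin 11, 0 ≤ w1 * (h * (s + u * a k)) := by
    intro k
    refine mul_nonneg hw1 (mul_nonneg hh ?_)
    have h4 : |u * a k| ≤ u * K := by
      rw [abs_mul, abs_of_nonneg hu0]
      exact mul_le_mul_of_nonneg_left (hab k) hu0
    have h6 := (abs_le.1 h4).1
    linarith
  have hdiff : ∀ k : Fin 11, (c.X (ξ + w1 * (z.1 + z.2) + w1 * h * s) + (w1 * h * u) • a) k -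
      (c.X ξ + w1 • yI c z) k =
      w1 * (-z.1 * (tN k - c.ρ k) + h * (s * c.ρ k + u * a k)) := by
    intro k
    have e1 : c.X (ξ + w1 * (z.1 + z.2) + w1 * h * s) =
        c.X ξ + (w1 * (z.1 + z.2) + w1 * h * s) • c.ρ := by
      rw [X_add]; congr 1; ring
    rw [e1]
    simp only [yI, Pi.add_apply, Pi.smul_apply, smul_eq_mul]
    ring
  intro k
  have hd := hdiff k
  suffices hs : 0 ≤ w1 * (-z.1 * (tN k - c.ρ k) + h * (s * c.ρ k + u * a k)) by linarith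
  have hθ0 : c.p.θ 0 = 2 * c.p.θ 1 - 1 := by linarith
  fin_cases k
  · have := hlev 0
    have e : tN 0 - c.ρ 0 = 0 := by simp [tN, LCtx.ρ, nL]
    have e2 : c.ρ 0 = 1 := by simp [LCtx.ρ, nL]
    show 0 ≤ w1 * (-z.1 * (tN 0 - c.ρ 0) + h * (s * c.ρ 0 + u * a 0))
    rw [e, e2, mul_zero, zero_add, mul_one]; exact this
  · have e : tN 1 - c.ρ 1 = 0 := by simp [tN, LCtx.ρ, nL]
    have e2 : c.ρ 1 = 0 := by simp [LCtx.ρ, nL]
    show 0 ≤ w1 * (-z.1 * (tN 1 - c.ρ 1) + h * (s * c.ρ 1 + u * a 1))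
    rw [e, e2, mul_zero, zero_add, mul_zero, zero_add]
    exact mul_nonneg hw1 (mul_nonneg hh (mul_nonneg hu0 ha1))
  · exact key 2 (by simp only [tN, LCtx.ρ, nL, Matrix.cons_val]; linarith)
  · have := hlev 3
    have e2 : c.ρ 3 = 1 := by simp only [LCtx.ρ, nL, Matrix.cons_val]; linarith
    have e : tN 3 - c.ρ 3 = 0 := by rw [e2]; simp [tN]
    show 0 ≤ w1 * (-z.1 * (tN 3 - c.ρ 3) + h * (s * c.ρ 3 + u * a 3))
    rw [e, e2, mul_zero, zero_add, mul_one]; exact this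
  · exact key 4 (by simp only [tN, LCtx.ρ, nL, Matrix.cons_val]; linarith)
  · exact key 5 (by simp only [tN, LCtx.ρ, nL, Matrix.cons_val]; linarith)
  · exact key 6 (by simp only [tN, LCtx.ρ, nL, Matrix.cons_val]; linarith)
  · exact key 7 (by simp only [tN, LCtx.ρ, nL, Matrix.cons_val]; linarith)
  · exact key 8 (by simp only [tN, LCtx.ρ, nL, Matrix.cons_val]; linarith)
  · exact key 9 (by simp only [tN, LCtx.ρ, nL, Matrix.cons_val]; linarith)
  · exact key 10 (by simp only [tN, LCtx.ρ, nL, Matrix.cons_val]; linarith)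

end int

/-! ### the theorem -/

/-- from the twin windows to `AffW` -/
theorem affW_core {η : ℝ} {c : LCtx} (ok : c.Ok η) {B1 B2 : Base} {J : ℕ → Finset (ℕ × ℝ)}
    {ξ1 w1 : ℕ → ℝ} {lam0 lo0 : (Fin 11 → ℝ) → ℝ} (W1 : RecW c B1 J ξ1 w1 lam0 lo0)
    {z : ℝ × ℝ} (hz : z.1 < 0) {h2 : ℕ → ℝ} (h2pos : ∀ n, 0 < h2 n) (h20 : Tendsto h2 U (𝓝 0))
    {lamI : (Fin 11 → ℝ) → ℝ} {a m : ℝ} (LF : LightF coneN lamI a m) {ξ₀ : ℝ} {ξ' h' : ℕ → ℝ}
    {lamR loR : (Fin 11 → ℝ) → ℝ} (RJR : RecJ c ξ₀ ξ' h' lamR loR) {TI : ℕ → ℝ}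
    (ZI : ZWin c.D.B B2 c.D.I J (coF c.F) monQ 2 (fun n => c.X (ξ1 n) + w1 n • yI c z)
      (fun n => w1 n * h2 n) coneN TI lamI)
    (W2 : RecW c B2 J (fun n => ξ1 n + w1 n * (z.1 + z.2)) (fun n => w1 n * h2 n) lamR loR)
    (H : ℕ → ℕ → ℝ) (s2 : ∀ i, B2.Sub (H i)) :
    ∃ (B' : Base) (J : ℕ → Finset (ℕ × ℝ)) (ξ w : ℕ → ℝ) (lam lo : (Fin 11 → ℝ) → ℝ)
      (g : ℕ → ℕ × ℝ → ℕ × ℝ) (mu be : ℕ → ℕ × ℝ → ℝ),
      AffW c B' J ξ w lam lo g mu be ∧ ∀ i, B'.Sub (H i) := by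
  classical
  obtain ⟨x0, x00, x01, hx⟩ := W1.ξlim
  have hw20 : Tendsto (fun n => w1 n * h2 n) U (𝓝 0) := W2.wlim
  -- strips for every exponent
  have key : ∀ j : ℕ, ∃ y₀ : ℝ, 0 < y₀ ∧ y₀ ≤ 1 ∧ ∃ J1 : ℕ → Finset (ℕ × ℝ),
      (∀ n, J1 n ⊆ J n) ∧
      ∀ᶠ n in (U : Filter ℕ), B2.d n ^ (3 * (1 / ((j : ℝ) + 2) ^ 2) * y₀) *
          ((J n).card : ℝ) ≤ ((J1 n).card : ℝ) ∧
        ∀ s ∈ J1 n, AffR (c.F n) (c.D.B.d n ^ (c.X (ξ1 n) + w1 n • yI c z) 0)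
          (c.D.B.d n ^ (c.X (ξ1 n) + w1 n • yI c z) 3)
          (B2.d n ^ (-(2 * (1 / ((j : ℝ) + 2) ^ 2) * y₀))) (B2.d n ^ y₀)
          (cls (J1 n) (zlab c.D.B c.D.I (coF c.F) monQ 2
            (fun n => c.X (ξ1 n) + w1 n • yI c z) (fun n => w1 n * h2 n) n 0) s) := by
    intro j
    have hj : (0 : ℝ) < (j : ℝ) + 2 := by positivity
    refine strip_int ZI LF one_pos (Y_slack ok z x00 x01 hx W1.wlim hw20 1)
      (Eventually.of_forall fun n => Y_tight7 c z _ _)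
      (Eventually.of_forall fun n => Y_tight9 c z _ _) (by positivity) ?_
    rw [div_le_one (by positivity)]
    nlinarith
  choose y hy0 hy1 J1 hJ1 hst using key
  -- tangents at the moving record points
  have hj2 : ∀ j : ℕ, (0 : ℝ) < (j : ℝ) + 2 := fun j => by positivity
  have hupos : ∀ j : ℕ, 0 < y j / ((j : ℝ) + 2) := fun j => div_pos (hy0 j) (hj2 j)
  have hu0 : Tendsto (fun j : ℕ => y j / ((j : ℝ) + 2)) atTop (𝓝 0) := by
    have h3 : Tendsto (fun j : ℕ => 1 / ((j : ℝ) + 1)) atTop (𝓝 0) :=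
      tendsto_one_div_add_atTop_nhds_zero_nat
    refine squeeze_zero (fun j => (hupos j).le) (fun j => ?_) h3
    rw [div_le_div_iff₀ (hj2 j) (by positivity)]
    have := hy1 j
    have := hy0 j
    nlinarith
  obtain ⟨φ2, hφ2, lam', lo', t3, t3o⟩ := RJR.next ok (fun j => y j / 2) hupos
  have hφt := hφ2.tendsto_atTop
  obtain ⟨ψ1, hψ1⟩ := RJR.comp (s := fun j => y (φ2 j) / 2) (S := 1) (fun j => by
    rw [abs_of_nonneg (by have := hy0 (φ2 j); positivity)]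
    have := hy1 (φ2 j)
    linarith) (fun j => hupos (φ2 j)) (hu0.comp hφt) t3 t3o
  have RJ3 := hψ1 ψ1 (fun m => le_rfl)
  have he : Tendsto (fun j : ℕ => 3 / (((φ2 j : ℕ) : ℝ) + 2)) atTop (𝓝 0) := by
    have h3 : Tendsto (fun j : ℕ => 3 / ((j : ℝ) + 2)) atTop (𝓝 0) :=
      tendsto_const_nhds.div_atTop (tendsto_natCast_atTop_atTop.atTop_add tendsto_const_nhds)
    exact h3.comp hφt
  obtain ⟨k3, hk3, B3, d3, L3, s3, J', hJ', hAff, ⟨S, hS, hdJ⟩, ZF, OF⟩ := exists_zoom_ref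
    W2.win (x := fun j => (y (φ2 j) / 2) • c.ρ) (b := ‖c.ρ‖) (fun j => by
      rw [norm_smul, Real.norm_of_nonneg (by have := hy0 (φ2 j); positivity)]
      have h4 := hy1 (φ2 j)
      have h5 := norm_nonneg c.ρ
      nlinarith) (h := fun j => y (φ2 j) / (((φ2 j : ℕ) : ℝ) + 2)) (fun j => hupos (φ2 j))
    (hu0.comp hφt) coneN_zero t3 (fun n => Real.rpow_pos_of_pos (c.D.B.pos n) _) W2.oprof
    coneN_zero t3o H s2 he
    (fun j n J1 => ∀ s ∈ J1, AffR (c.F n) (c.D.B.d n ^ (c.X (ξ1 n) + w1 n • yI c z) 0)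
          (c.D.B.d n ^ (c.X (ξ1 n) + w1 n • yI c z) 3)
          (B2.d n ^ (-(2 * (1 / (((φ2 j : ℕ) : ℝ) + 2) ^ 2) * y (φ2 j)))) (B2.d n ^ y (φ2 j))
          (cls J1 (zlab c.D.B c.D.I (coF c.F) monQ 2
            (fun n => c.X (ξ1 n) + w1 n • yI c z) (fun n => w1 n * h2 n) n 0) s))
    (fun j => by
      filter_upwards [hst (φ2 j)] with n hn
      refine ⟨J1 (φ2 j) n, hJ1 _ n, ?_, hn.2⟩
      have e1 : 3 / (((φ2 j : ℕ) : ℝ) + 2) * (y (φ2 j) / (((φ2 j : ℕ) : ℝ) + 2)) =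
          3 * (1 / (((φ2 j : ℕ) : ℝ) + 2) ^ 2) * y (φ2 j) := by
        have := (hj2 (φ2 j)).ne'
        field_simp
      rw [e1]
      exact hn.1)
  -- the record window
  have W3 := recW_zoom ok W2 (RJ3.facts ok) (σ := fun n => y (φ2 (k3 n)) / 2)
    (v := fun n => y (φ2 (k3 n)) / (((φ2 (k3 n) : ℕ) : ℝ) + 2)) (S := 1) (fun n => by
      rw [abs_of_nonneg (by have := hy0 (φ2 (k3 n)); positivity)]
      have := hy1 (φ2 (k3 n))
      linarith) ((hu0.comp hφt).comp hk3) hJ' ZF OF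
  have hjt : Tendsto (fun n => ((φ2 (k3 n) : ℕ) : ℝ) + 2) U atTop :=
    (tendsto_natCast_atTop_atTop.comp (hφt.comp hk3)).atTop_add tendsto_const_nhds
  -- labels, slopes and constants
  set gl : ℕ → ℕ × ℝ → ℕ × ℝ := fun n => zlab c.D.B c.D.I (coF c.F) monQ 2
    (fun n => c.X (ξ1 n) + w1 n • yI c z) (fun n => w1 n * h2 n) n 0 with hgl
  set P : ℕ → ℕ × ℝ → ℝ × ℝ → Prop := fun n l p =>
    |p.1| * c.D.B.d n ^ (c.X (ξ1 n) + w1 n • yI c z) 0 ≤
      B2.d n ^ (-(2 * (1 / (((φ2 (k3 n) : ℕ) : ℝ) + 2) ^ 2) * y (φ2 (k3 n)))) *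
        c.D.B.d n ^ (c.X (ξ1 n) + w1 n • yI c z) 3 ∧
      ∀ i ∈ J' n, gl n i = l → |(c.F n i).fb - p.2 - p.1 * (c.F n i).z| ≤
        B2.d n ^ y (φ2 (k3 n)) * c.D.B.d n ^ (c.X (ξ1 n) + w1 n • yI c z) 3 with hP
  set pp : ℕ → ℕ × ℝ → ℝ × ℝ := fun n l => if h : ∃ p, P n l p then h.choose else 0 with hpp
  have hPp : ∀ᶠ n in (U : Filter ℕ), ∀ i ∈ J' n, P n (gl n i) (pp n (gl n i)) := by
    filter_upwards [hAff] with n hn i hi
    obtain ⟨mu, be, h1, h2⟩ := hn i hi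
    have hex : ∃ p, P n (gl n i) p := ⟨(mu, be), h1, fun i' hi' hl =>
      h2 i' (mem_cls.2 ⟨hi', hl⟩)⟩
    have e1 : pp n (gl n i) = hex.choose := dif_pos hex
    rw [e1]
    exact hex.choose_spec
  have hd1 : ∀ n, 0 < c.D.B.d n := fun n => c.D.B.pos n
  have hb2 : ∀ n, B2.d n = c.D.B.d n ^ (w1 n * h2 n) := W2.win.base
  -- the exponents of the slots 0 and 3
  have hX3 : ∀ n, c.D.B.d n ^ c.X (ξ1 n + w1 n * (z.1 + z.2) + w1 n * h2 n *
      (y (φ2 (k3 n)) / 2)) 3 = c.D.B.d n ^ (c.X (ξ1 n) + w1 n • yI c z) 3 *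
        B2.d n ^ (y (φ2 (k3 n)) / 2) := fun n => by
    rw [X_three ok, Y_three ok, hb2, ← Real.rpow_mul (hd1 n).le, ← Real.rpow_add (hd1 n)]
    congr 1
    ring
  refine ⟨B3, J', _, _, lam', lo', gl, fun n l => (pp n l).1, fun n l => (pp n l).2,
    ⟨W3, ⟨_, _, _, RJ3⟩, ⟨max 1 (cN monQ 2 (cK0 monQ 2)), le_max_left _ _, fun K => ?_⟩,
      ⟨fun n => B3.d n ^ (-(2 / (((φ2 (k3 n) : ℕ) : ℝ) + 2))), sub_rpow
        (tendsto_const_nhds.div_atTop hjt), ?_⟩, fun K => ?_⟩, s3⟩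
  · -- few labels
    have hsm : Tendsto (fun n => h2 n * (‖c.ρ‖ + |K|)) U (𝓝 (0 * (‖c.ρ‖ + |K|))) :=
      h20.mul_const _
    rw [zero_mul] at hsm
    have hθz : 0 < -z.1 * c.p.θ 1 := mul_pos (by linarith) ok.th.tp.ok.θ1
    filter_upwards [hsm.eventually_lt_const hθz, hjt.eventually_ge_atTop (2 * |K|),
      ZI.legal 0, W3.win.legal |K|, W3.win.sub] with n n1 n2 n3 n4 n5 a ha ha1 haK s hs
    refine le_trans ?_ (le_max_right _ _)
    have l1 := n3 0 coneN_zero (by rw [norm_zero])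
    have l2 := n4 a ha (haK.trans (le_abs_self _))
    refine few_labels W3.win.chart l1 l2 ?_ n5 hs
    have hyp := hy0 (φ2 (k3 n))
    have hyl := hy1 (φ2 (k3 n))
    have hj := hj2 (φ2 (k3 n))
    have hle := Y_le ok hz (ξ := ξ1 n) (w1 := w1 n) (h := h2 n) (s := y (φ2 (k3 n)) / 2)
      (u := y (φ2 (k3 n)) / (((φ2 (k3 n) : ℕ) : ℝ) + 2)) (K := |K|) (W1.win.w0 n).le
      (h2pos n).le (by positivity) (by linarith) (hupos _).le (by
        rw [div_le_one hj]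
        have : (0 : ℝ) ≤ ((φ2 (k3 n) : ℕ) : ℝ) := Nat.cast_nonneg _
        linarith) (by
        rw [div_mul_eq_mul_div, div_le_div_iff₀ hj two_pos, mul_assoc]
        refine mul_le_mul_of_nonneg_left ?_ hyp.le
        linarith) n1.le ha1 (haK.trans (le_abs_self _))
    rw [smul_zero, add_zero]
    exact hle
  · -- slope
    filter_upwards [hPp] with n hn i hi
    have h1 := (hn i hi).1
    have e0 : (c.X (ξ1 n) + w1 n • yI c z) 0 = (c.X (ξ1 n) + w1 n • yI c z) 3 := by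
      rw [Y_zero, Y_three ok]
    rw [e0] at h1
    have hpos3 := Real.rpow_pos_of_pos (hd1 n) ((c.X (ξ1 n) + w1 n • yI c z) 3)
    have h2' := le_of_mul_le_mul_right h1 hpos3
    have e1 : c.X (ξ1 n + w1 n * (z.1 + z.2) + w1 n * h2 n * (y (φ2 (k3 n)) / 2)) 0 =
        c.X (ξ1 n + w1 n * (z.1 + z.2) + w1 n * h2 n * (y (φ2 (k3 n)) / 2)) 3 := by
      rw [X_zero, X_three ok]
    rw [e1]
    refine mul_le_mul_of_nonneg_right (h2'.trans (le_of_eq ?_))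
      (Real.rpow_pos_of_pos (hd1 n) _).le
    rw [d3, ← Real.rpow_mul (B2.pos n).le]
    congr 1
    have := (hj2 (φ2 (k3 n))).ne'
    field_simp
  · -- precision
    filter_upwards [hPp, hjt.eventually_ge_atTop (2 * |K|)] with n hn hjK i hi
    have h1 := (hn i hi).2 i hi rfl
    refine h1.trans ?_
    rw [hX3, d3, ← Real.rpow_mul (B2.pos n).le, mul_comm (c.D.B.d n ^ _), ← mul_assoc,
      ← Real.rpow_add (B2.pos n)]
    refine mul_le_mul_of_nonneg_right ?_ (Real.rpow_pos_of_pos (hd1 n) _).le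
    refine Real.rpow_le_rpow_of_exponent_ge (B2.pos n) (B2.lt n).le ?_
    have hyp := hy0 (φ2 (k3 n))
    have hj := hj2 (φ2 (k3 n))
    have h3 : y (φ2 (k3 n)) / (((φ2 (k3 n) : ℕ) : ℝ) + 2) * K ≤ y (φ2 (k3 n)) / 2 := by
      rw [div_mul_eq_mul_div, div_le_div_iff₀ hj two_pos, mul_assoc]
      refine mul_le_mul_of_nonneg_left ?_ hyp.le
      have := le_abs_self K
      linarith
    linarith

/-- **`F_b` is affine in the height at the record line** -/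
theorem exists_affW {η : ℝ} {c : LCtx} (ok : c.Ok η) (hRig : HasRig c) (H : ℕ → ℕ → ℝ)
    (hH : ∀ i, c.D.B.Sub (H i)) :
    ∃ (B' : Base) (J : ℕ → Finset (ℕ × ℝ)) (ξ w : ℕ → ℝ) (lam lo : (Fin 11 → ℝ) → ℝ)
      (g : ℕ → ℕ × ℝ → ℕ × ℝ) (mu be : ℕ → ℕ × ℝ → ℝ),
      AffW c B' J ξ w lam lo g mu be ∧ ∀ i, B'.Sub (H i) := by
  classical
  -- the first record window
  obtain ⟨φ0, -, lam0, lo0, RJ0⟩ := exists_recJ (ξ₀ := 1 / 2) (ξ := fun _ => 1 / 2)
    (h := fun l => 1 / ((l : ℝ) + 1)) ok (by norm_num) (by norm_num) tendsto_const_nhds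
    (fun l => by positivity) tendsto_one_div_add_atTop_nhds_zero_nat
  obtain ⟨k1, hk1, HW⟩ := RJ0.win ok H hH
  obtain ⟨B1, -, -, s1, W1⟩ := HW k1 hk1 (Eventually.of_forall fun n => le_rfl)
  -- the interior point
  obtain ⟨z, hz, kk, kpos, k0, lamI, a, m, tI, LF⟩ := hRig _ _ _ _ _ RJ0
  obtain ⟨φ, hφ, lamR, loR, tR, tRo⟩ := RJ0.next ok (fun _ => z.1 + z.2) kpos
  have tI' : IsTan coneN coneN lam0 (fun _ => yI c z) (fun l => kk (φ l)) lamI :=
    tan_subseq tI hφ.tendsto_atTop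
  have kk0 : Tendsto (fun l => kk (φ l)) atTop (𝓝 0) := k0.comp hφ.tendsto_atTop
  obtain ⟨ψ0, hψ0⟩ := RJ0.comp (s := fun _ => z.1 + z.2) (S := |z.1 + z.2|) (fun _ => le_rfl)
    (fun j => kpos (φ j)) kk0 tR tRo
  have RJR := hψ0 ψ0 (fun m => le_rfl)
  -- twin windows
  obtain ⟨k2, hk2, HT⟩ := exists_twin W1.win (xI := fun _ => yI c z)
    (xR := fun _ => (z.1 + z.2) • c.ρ) (b := max ‖yI c z‖ ‖(z.1 + z.2) • c.ρ‖)
    (fun _ => le_max_left _ _) (fun _ => le_max_right _ _) (h := fun l => kk (φ l))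
    (fun l => kpos _) kk0 coneN_zero tI' tR
    (hTo := fun n => Real.rpow_pos_of_pos (c.D.B.pos n) _) W1.oprof coneN_zero tRo H s1
  obtain ⟨B2, d2, L2, s2, ZI, ZR, OR⟩ := HT k2 hk2 (Eventually.of_forall fun n => le_rfl)
  have W2 := recW_zoom ok W1 (RJR.facts ok) (σ := fun _ => z.1 + z.2)
    (v := fun n => kk (φ (k2 n))) (S := |z.1 + z.2|) (fun _ => le_rfl) (kk0.comp hk2)
    (fun n => subset_rfl) ZR OR
  exact affW_core ok W1 hz (fun n => kpos _) (kk0.comp hk2) LF RJR ZI W2 H s2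

end Crest.Agent.R136.Gau66
end

-- ▼ part R136/GauC0_66
section

/-!
# R136 (helper66): T.L, fork on the slope and the branch of small slope

* `AffW.refine` : a dense part.
* `AffW.fork` : small slope on a dense part, or slope `≥ d'^ε` for every `ε` on a dense part.
* `small_rec` : small slope: `F_b` is constant on the classes of a finer record window.
-/

set_option autoImplicit false
set_option linter.unusedVariables false

open Filter Topology Finset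

namespace Crest.Agent.R136.Gau66

open Crest.Agent.R138.Ex926
open Crest.Agent.R136.Net191
open Crest.Agent.R136.NetQ186
open Crest.Agent.R136.NatT550
open Crest.Agent.R136.NatR550
open Crest.Agent.R136.TopB550
open Crest.Agent.R136.Qg926
open Crest.Agent.R136.Zpr779
open Crest.Agent.R136.Gz779
open Crest.Agent.R136.TL196
open Crest.Agent.R136.LdF3511

section

variable {η : ℝ} {c : LCtx} {B' : Base} {J : ℕ → Finset (ℕ × ℝ)} {ξ w : ℕ → ℝ}
  {lam lo : (Fin 11 → ℝ) → ℝ} {g : ℕ → ℕ × ℝ → ℕ × ℝ} {mu be : ℕ → ℕ × ℝ → ℝ}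

/-- a dense part of a nonempty set is nonempty -/
theorem dense_ne {B : Base} {J J' : ℕ → Finset (ℕ × ℝ)} {S : ℕ → ℝ}
    (hne : ∀ᶠ n in (U : Filter ℕ), (J n).Nonempty)
    (hd : ∀ᶠ n in (U : Filter ℕ), ((J n).card : ℝ) ≤ S n * ((J' n).card : ℝ)) :
    ∀ᶠ n in (U : Filter ℕ), (J' n).Nonempty := by
  filter_upwards [hne, hd] with n h1 h2
  have h3 : (0 : ℝ) < (J n).card := by exact_mod_cast card_pos.2 h1
  rw [← card_pos]
  rcases Nat.eq_zero_or_pos (J' n).card with h0 | h0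
  · rw [h0] at h2
    simp only [Nat.cast_zero, mul_zero] at h2
    linarith
  · exact h0

/-- **dense part** -/
theorem AffW.refine (A : AffW c B' J ξ w lam lo g mu be) {J' : ℕ → Finset (ℕ × ℝ)}
    (hsub : ∀ n, J' n ⊆ J n) {S : ℕ → ℝ} (hS : B'.Sub S)
    (hd : ∀ᶠ n in (U : Filter ℕ), ((J n).card : ℝ) ≤ S n * ((J' n).card : ℝ)) :
    AffW c B' J' ξ w lam lo g mu be where
  rw := A.rw.refine (Eventually.of_forall hsub)
    (dense_ne (B := B') A.rw.win.ne hd) hS hd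
  rj := A.rj
  few := by
    obtain ⟨N, hN, h⟩ := A.few
    refine ⟨N, hN, fun K => ?_⟩
    filter_upwards [h K] with n hn a ha ha1 haK s hs
    refine le_trans ?_ (hn a ha ha1 haK s (hsub n hs))
    exact_mod_cast card_le_card (image_subset_image (cls_mono (hsub n) _ _))
  slope := by
    obtain ⟨S, hS, h⟩ := A.slope
    exact ⟨S, hS, h.mono fun n hn i hi => hn i (hsub n hi)⟩
  aff := fun K => (A.aff K).mono fun n hn i hi => hn i (hsub n hi)

/-- **the fork** -/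
theorem AffW.fork (A : AffW c B' J ξ w lam lo g mu be) :
    (∃ m : ℝ, 0 < m ∧ ∃ J' : ℕ → Finset (ℕ × ℝ), (∀ n, J' n ⊆ J n) ∧
      (∀ᶠ n in (U : Filter ℕ), ((J n).card : ℝ) ≤ 2 * ((J' n).card : ℝ)) ∧
      ∀ᶠ n in (U : Filter ℕ), ∀ i ∈ J' n, |mu n (g n i)| * c.D.B.d n ^ (c.X (ξ n) 0) ≤
        B'.d n ^ m * c.D.B.d n ^ (c.X (ξ n) 3)) ∨
    (∃ J' : ℕ → Finset (ℕ × ℝ), (∀ n, J' n ⊆ J n) ∧
      (∀ᶠ n in (U : Filter ℕ), ((J n).card : ℝ) ≤ 2 * ((J' n).card : ℝ)) ∧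
      ∀ ε : ℝ, 0 < ε → ∀ᶠ n in (U : Filter ℕ), ∀ i ∈ J' n,
        B'.d n ^ ε * c.D.B.d n ^ (c.X (ξ n) 3) ≤
          |mu n (g n i)| * c.D.B.d n ^ (c.X (ξ n) 0)) := by
  classical
  set Sm : ℕ → ∀ n : ℕ, Finset (ℕ × ℝ) := fun l n => (J n).filter fun i =>
    |mu n (g n i)| * c.D.B.d n ^ (c.X (ξ n) 0) ≤
      B'.d n ^ (1 / ((l : ℝ) + 1)) * c.D.B.d n ^ (c.X (ξ n) 3) with hSm
  by_cases hex : ∃ l, ∀ᶠ n in (U : Filter ℕ), ((J n).card : ℝ) ≤ 2 * ((Sm l n).card : ℝ)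
  · left
    obtain ⟨l, hl⟩ := hex
    exact ⟨1 / ((l : ℝ) + 1), by positivity, Sm l, fun n => filter_subset _ _, hl,
      Eventually.of_forall fun n i hi => (mem_filter.1 hi).2⟩
  · right
    push Not at hex
    set La : ℕ → ∀ n : ℕ, Finset (ℕ × ℝ) := fun l n => (J n).filter fun i =>
      ¬ |mu n (g n i)| * c.D.B.d n ^ (c.X (ξ n) 0) ≤
        B'.d n ^ (1 / ((l : ℝ) + 1)) * c.D.B.d n ^ (c.X (ξ n) 3) with hLa
    have hbig : ∀ l, ∀ᶠ n in (U : Filter ℕ), ((J n).card : ℝ) ≤ 2 * ((La l n).card : ℝ) := by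
      intro l
      filter_upwards [hex l] with n hn
      have h2 := card_filter_add_card_filter_not (s := J n)
        (fun i => |mu n (g n i)| * c.D.B.d n ^ (c.X (ξ n) 0) ≤
          B'.d n ^ (1 / ((l : ℝ) + 1)) * c.D.B.d n ^ (c.X (ξ n) 3))
      have h3 : (Sm l n).card + (La l n).card = (J n).card := h2
      have h4 := congrArg (Nat.cast : ℕ → ℝ) h3
      rw [Nat.cast_add] at h4
      linarith
    obtain ⟨k, hk, hk2⟩ := exists_diag _ hbig
    refine ⟨fun n => La (k n) n, fun n => filter_subset _ _, hk2.mono fun n hn => hn _ le_rfl,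
      fun ε hε => ?_⟩
    obtain ⟨l0, hl0⟩ := exists_nat_gt (1 / ε)
    filter_upwards [hk.eventually (eventually_ge_atTop l0)] with n hn i hi
    have h1 := (mem_filter.1 hi).2
    rw [not_le] at h1
    refine le_trans (mul_le_mul_of_nonneg_right ?_ (Real.rpow_pos_of_pos (c.D.B.pos n) _).le)
      h1.le
    refine Real.rpow_le_rpow_of_exponent_ge (B'.pos n) (B'.lt n).le ?_
    have h2 : (l0 : ℝ) ≤ (k n : ℝ) := by exact_mod_cast hn
    rw [div_le_iff₀ (by positivity)]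
    rw [div_lt_iff₀ hε] at hl0
    nlinarith

/-- **small slope**: one more zoom, and `F_b` is constant on the classes of the base
`(0, -T1)` -/
theorem small_rec (ok : c.Ok η) (A : AffW c B' J ξ w lam lo g mu be) {m : ℝ} (hm : 0 < m)
    (hsm : ∀ᶠ n in (U : Filter ℕ), ∀ i ∈ J n, |mu n (g n i)| * c.D.B.d n ^ (c.X (ξ n) 0) ≤
      B'.d n ^ m * c.D.B.d n ^ (c.X (ξ n) 3)) (T1 : ℝ) (H : ℕ → ℕ → ℝ)
    (hH : ∀ i, B'.Sub (H i)) :
    ∃ (B2 : Base) (J2 : ℕ → Finset (ℕ × ℝ)) (ξ2 w2 : ℕ → ℝ) (lam2 lo2 : (Fin 11 → ℝ) → ℝ),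
      RecW c B2 J2 ξ2 w2 lam2 lo2 ∧ (∀ i, B2.Sub (H i)) ∧
      ∀ K : ℝ, ∀ᶠ n in (U : Filter ℕ), ∀ i ∈ J2 n, ∀ j ∈ J2 n,
        zlab c.D.B c.D.I (coF c.F) monQ 2 (c.XB T1 ξ2 w2) w2 n 0 i =
          zlab c.D.B c.D.I (coF c.F) monQ 2 (c.XB T1 ξ2 w2) w2 n 0 j →
        |(c.F n j).fb - (c.F n i).fb| ≤ B2.d n ^ K * c.D.B.d n ^ (c.XB T1 ξ2 w2 n 3) := by
  classical
  obtain ⟨ξ₀, ξ', h', RJ⟩ := A.rj
  -- record tangent at the constant base
  have hpos : ∀ l : ℕ, (0 : ℝ) < 1 / ((l : ℝ) + 1) := fun l => by positivity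
  obtain ⟨φ, hφ, lam', lo', t1, t2⟩ := RJ.next ok (fun _ => 0) hpos
  have hφt := hφ.tendsto_atTop
  have h0 : Tendsto (fun l : ℕ => 1 / (((φ l : ℕ) : ℝ) + 1)) atTop (𝓝 0) :=
    tendsto_one_div_add_atTop_nhds_zero_nat.comp hφt
  obtain ⟨ψ, hψ⟩ := RJ.comp (s := fun _ => 0) (S := 0) (fun _ => by simp) (fun j => hpos (φ j))
    h0 t1 t2
  have RJ2 := hψ ψ (fun m => le_rfl)
  obtain ⟨k, hk, HZ⟩ := A.rw.win.exists_zoom (x := fun _ => (0 : ℝ) • c.ρ) (b := 0)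
    (fun _ => by simp) (h := fun l => 1 / (((φ l : ℕ) : ℝ) + 1)) (fun l => hpos _) h0
    coneN_zero t1 (fun n => Real.rpow_pos_of_pos (c.D.B.pos n) _) A.rw.oprof coneN_zero t2 H hH
  obtain ⟨B2, d2, L2, s2, ZF, OF⟩ := HZ k hk (Eventually.of_forall fun n => le_rfl)
  have hu0 := h0.comp hk
  have W2 := recW_zoom ok A.rw (RJ2.facts ok) (σ := fun _ => 0)
    (v := fun n => 1 / (((φ (k n) : ℕ) : ℝ) + 1)) (S := 0) (fun _ => by simp) hu0
    (fun n => subset_rfl) ZF OF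
  -- one coarse label per class
  obtain ⟨N, hN, hfew⟩ := A.few
  set v : ℕ → ℝ := fun n => 1 / (((φ (k n) : ℕ) : ℝ) + 1) with hv
  have hv0 : ∀ n, 0 < v n := fun n => hpos _
  have hv1 : ∀ n, v n ≤ 1 := fun n => by
    rw [hv]
    simp only
    rw [div_le_one (by positivity)]
    have : (0 : ℝ) ≤ ((φ (k n) : ℕ) : ℝ) := Nat.cast_nonneg _
    linarith
  set f : ∀ n : ℕ, ℕ × ℝ → ℕ × ℝ := fun n => zlab c.D.B c.D.I (coF c.F) monQ 2
    (c.XB T1 (fun n => ξ n + w n * 0) (fun n => w n * v n)) (fun n => w n * v n) n 0 with hf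
  have hfeq : ∀ n, f n = zlab c.D.B c.D.I (coF c.F) monQ 2 (fun n => c.X (ξ n)) w n
      (v n • bT T1) := fun n => by
    show nlab c.D.B c.D.I (coF c.F) monQ 2 n
        (c.X (ξ n + w n * 0) + (w n * v n) • bT T1 + (w n * v n) • (0 : Fin 11 → ℝ)) =
      nlab c.D.B c.D.I (coF c.F) monQ 2 n (c.X (ξ n) + w n • v n • bT T1)
    rw [mul_zero, add_zero, smul_zero, add_zero, mul_smul]
  have hlab : ∀ᶠ n in (U : Filter ℕ), ∀ s ∈ J n,
      (((cls (J n) (f n) s).image (g n)).card : ℝ) ≤ N := by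
    filter_upwards [hfew ‖bT T1‖] with n hn s hs
    rw [hfeq n]
    refine hn _ (coneN_smul (bT_mem T1) (hv0 n).le) ?_ ?_ s hs
    · simp [bT, nL]
    · rw [norm_smul, Real.norm_of_nonneg (hv0 n).le]
      exact mul_le_of_le_one_left (norm_nonneg _) (hv1 n)
  set J2 : ℕ → Finset (ℕ × ℝ) := fun n =>
    if h : ∀ s ∈ J n, (((cls (J n) (f n) s).image (g n)).card : ℝ) ≤ N then
      (popular_fs (J n) (f n) (g n) h).choose else ∅ with hJ2
  have hJ2s : ∀ n, J2 n ⊆ J n := fun n => by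
    by_cases h : ∀ s ∈ J n, (((cls (J n) (f n) s).image (g n)).card : ℝ) ≤ N
    · have e : J2 n = (popular_fs (J n) (f n) (g n) h).choose := dif_pos h
      rw [e]; exact (popular_fs (J n) (f n) (g n) h).choose_spec.1
    · have e : J2 n = ∅ := dif_neg h
      rw [e]; exact empty_subset _
  have hJ2p : ∀ᶠ n in (U : Filter ℕ), ((J n).card : ℝ) ≤ N * ((J2 n).card : ℝ) ∧
      ∀ x ∈ J2 n, ∀ y ∈ J2 n, f n x = f n y → g n x = g n y := by
    filter_upwards [hlab] with n h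
    have e : J2 n = (popular_fs (J n) (f n) (g n) h).choose := dif_pos h
    rw [e]; exact (popular_fs (J n) (f n) (g n) h).choose_spec.2
  have hdens : ∀ᶠ n in (U : Filter ℕ), ((J n).card : ℝ) ≤ N * ((J2 n).card : ℝ) :=
    hJ2p.mono fun n hn => hn.1
  have hNsub : B2.Sub fun _ => N := Base.Sub.const (by linarith)
  have W3 := W2.refine (Eventually.of_forall hJ2s) (dense_ne (B := B2) A.rw.win.ne hdens) hNsub
    hdens
  refine ⟨B2, J2, _, _, lam', lo', W3, s2, fun K => ?_⟩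
  -- the estimate
  have hKv : ∀ M : ℝ, ∀ᶠ n in (U : Filter ℕ), v n * M ≤ min m 1 := by
    intro M
    have h1 : Tendsto (fun n => v n * M) U (𝓝 (0 * M)) := hu0.mul_const M
    rw [zero_mul] at h1
    filter_upwards [h1.eventually_lt_const (lt_min hm one_pos)] with n hn using hn.le
  filter_upwards [hJ2p, hsm, A.aff 1, hKv (K + 1), W3.win.sub, W3.win.legal ‖bT T1‖,
    B2.ev_rpow_small (η := 1) (c := 1 / (2 + cK0 monQ 2)) one_pos (by
      have := cK0_one (M := monQ) (C := 2) (by norm_num)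
      positivity)] with n h1 h2 h3 h4 h5 h6 h7 i hi j hj hl
  have hiJ := hJ2s n hi
  have hjJ := hJ2s n hj
  have hg : g n i = g n j := h1.2 i hi j hj hl
  have a1 := h3 i hiJ
  have a2 := h3 j hjJ
  rw [← hg] at a2
  have a3 := h2 i hiJ
  -- the heights are close
  have hnear : |(c.F n j).z - (c.F n i).z| ≤ cK0 monQ 2 * c.D.B.d n ^ (c.X (ξ n) 0) := by
    have hleg := h6 (bT T1) (bT_mem T1) le_rfl
    have hl' : nlab c.D.B c.D.I (coF c.F) monQ 2 n (c.X (ξ n + w n * 0) + (w n * v n) • bT T1) i =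
        nlab c.D.B c.D.I (coF c.F) monQ 2 n (c.X (ξ n + w n * 0) + (w n * v n) • bT T1) j := by
      have h9 : nlab c.D.B c.D.I (coF c.F) monQ 2 n
          (c.X (ξ n + w n * 0) + (w n * v n) • bT T1 + (w n * v n) • (0 : Fin 11 → ℝ)) i =
        nlab c.D.B c.D.I (coF c.F) monQ 2 n
          (c.X (ξ n + w n * 0) + (w n * v n) • bT T1 + (w n * v n) • (0 : Fin 11 → ℝ)) j := hl
      rw [smul_zero, add_zero] at h9
      exact h9
    have h8 := near_of_nlab W3.win.chart hleg (h5 hi) (h5 hj) hl' 0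
    have e1 : (c.X (ξ n + w n * 0) + (w n * v n) • bT T1) 0 = c.X (ξ n) 0 := by
      simp [bT, nL]
    rw [e1] at h8
    exact h8
  have hD3 : 0 < c.D.B.d n ^ (c.X (ξ n) 3) := Real.rpow_pos_of_pos (c.D.B.pos n) _
  have eXB : c.XB T1 (fun n => ξ n + w n * 0) (fun n => w n * v n) n 3 = c.X (ξ n) 3 := by
    simp [LCtx.XB, bT, nL]
  rw [eXB]
  have hbd : ∀ t : ℝ, min m 1 ≤ t → B'.d n ^ t ≤ B2.d n ^ (K + 1) := by
    intro t ht
    rw [d2, ← Real.rpow_mul (B'.pos n).le]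
    exact Real.rpow_le_rpow_of_exponent_ge (B'.pos n) (B'.lt n).le (h4.trans ht)
  have b1 := hbd 1 (min_le_right _ _)
  have b2 := hbd m (min_le_left _ _)
  have hcK : 0 ≤ cK0 monQ 2 := by
    have := cK0_one (M := monQ) (C := 2) (by norm_num)
    linarith
  have e2 : (c.F n j).fb - (c.F n i).fb =
      ((c.F n j).fb - be n (g n i) - mu n (g n i) * (c.F n j).z) -
        ((c.F n i).fb - be n (g n i) - mu n (g n i) * (c.F n i).z) +
        mu n (g n i) * ((c.F n j).z - (c.F n i).z) := by ring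
  have e3 : |mu n (g n i) * ((c.F n j).z - (c.F n i).z)| ≤
      cK0 monQ 2 * (B'.d n ^ m * c.D.B.d n ^ (c.X (ξ n) 3)) := by
    rw [abs_mul]
    calc |mu n (g n i)| * |(c.F n j).z - (c.F n i).z|
        ≤ |mu n (g n i)| * (cK0 monQ 2 * c.D.B.d n ^ (c.X (ξ n) 0)) :=
          mul_le_mul_of_nonneg_left hnear (abs_nonneg _)
      _ = cK0 monQ 2 * (|mu n (g n i)| * c.D.B.d n ^ (c.X (ξ n) 0)) := by ring
      _ ≤ _ := mul_le_mul_of_nonneg_left a3 hcK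
  rw [e2]
  have t3 : |((c.F n j).fb - be n (g n i) - mu n (g n i) * (c.F n j).z) -
        ((c.F n i).fb - be n (g n i) - mu n (g n i) * (c.F n i).z) +
        mu n (g n i) * ((c.F n j).z - (c.F n i).z)| ≤
      (2 + cK0 monQ 2) * (B2.d n ^ (K + 1) * c.D.B.d n ^ (c.X (ξ n) 3)) := by
    have c1 : B'.d n ^ (1 : ℝ) * c.D.B.d n ^ (c.X (ξ n) 3) ≤
        B2.d n ^ (K + 1) * c.D.B.d n ^ (c.X (ξ n) 3) := mul_le_mul_of_nonneg_right b1 hD3.le
    have c2 : cK0 monQ 2 * (B'.d n ^ m * c.D.B.d n ^ (c.X (ξ n) 3)) ≤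
        cK0 monQ 2 * (B2.d n ^ (K + 1) * c.D.B.d n ^ (c.X (ξ n) 3)) :=
      mul_le_mul_of_nonneg_left (mul_le_mul_of_nonneg_right b2 hD3.le) hcK
    rw [abs_le] at a1 a2 e3 ⊢
    constructor <;> linarith [a1.1, a1.2, a2.1, a2.2, e3.1, e3.2]
  refine t3.trans ?_
  rw [Real.rpow_add (B2.pos n)]
  have h8 : (2 + cK0 monQ 2) * B2.d n ^ (1 : ℝ) ≤ 1 := by
    have h9 : (0 : ℝ) < 2 + cK0 monQ 2 := by linarith
    calc (2 + cK0 monQ 2) * B2.d n ^ (1 : ℝ) ≤ (2 + cK0 monQ 2) * (1 / (2 + cK0 monQ 2)) :=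
          mul_le_mul_of_nonneg_left h7 h9.le
      _ = 1 := by field_simp
  have hK0 : 0 < B2.d n ^ K := Real.rpow_pos_of_pos (B2.pos n) _
  calc (2 + cK0 monQ 2) * (B2.d n ^ K * B2.d n ^ (1 : ℝ) * c.D.B.d n ^ (c.X (ξ n) 3))
      = ((2 + cK0 monQ 2) * B2.d n ^ (1 : ℝ)) * (B2.d n ^ K * c.D.B.d n ^ (c.X (ξ n) 3)) := by ring
    _ ≤ 1 * (B2.d n ^ K * c.D.B.d n ^ (c.X (ξ n) 3)) :=
        mul_le_mul_of_nonneg_right h8 (mul_pos hK0 hD3).le
    _ = _ := one_mul _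

end

end Crest.Agent.R136.Gau66
end

-- ▼ part R136/WkM_626
section

/-!
# R136 (helper626): T.L, part (C), the rigid leaf

`rig_classes` : interior window of the lightlike surface at the class base, `F_b` affine on every
class with slope of natural size; then on a dense part EVERY class satisfies 66's relations `GRel`
(absolute coordinates), one choice of the parameters for all `ε`.
-/

set_option autoImplicit false
set_option linter.unusedSectionVars false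
set_option linter.unusedVariables false

open Filter Topology

namespace Crest.Agent.R136.WkM626

open Finset
open Crest.Agent.R136.Sh605
open Crest.Agent.R136.NetQ186
open Crest.Agent.R136.Qg926
open Crest.Agent.R136.Net191
open Crest.Agent.R136.Wk323 hiding cls mem_cls
open Crest.Agent.R136.WkL626
open Crest.Agent.R136.Gau66
open Crest.Agent.R138.Ex926
open Crest.Agent.R138.Dp76 (Dense)

/-- **change of frame** : the relations in the frame of `s` give the absolute relations -/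
theorem grel_frame {i s : Fq4} {u2 u5 s0 c0 C0 E0 D dF be mu : ℝ} (hu2 : 0 < u2) (hu5 : 0 < u5)
    (str : i.y2 = 0)
    (hE : |coQ s i 2 / u2 - (E0 - s0 * (coQ s i 5 / u5 - c0))| ≤ D)
    (hC : |coQ s i 6 / (u2 * u5) - (C0 + E0 * (coQ s i 5 / u5 - c0) -
      s0 * (coQ s i 5 / u5 - c0) ^ 2 / 2)| ≤ D)
    (hF : |i.fb - (be + mu * i.z)| ≤ dF) :
    GRel (s0 * u2 / u5) (s.e + u2 * (E0 + s0 * c0) + s0 * u2 / u5 * s.ca)
      (s.cb - s.e * s.ca + u2 * u5 * (C0 + E0 * (-s.ca / u5 - c0) -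
        s0 * (-s.ca / u5 - c0) ^ 2 / 2)) be mu (D * u2) (D * (u2 * u5)) dF i where
  str := str
  hE := by
    have e : i.e - (s.e + u2 * (E0 + s0 * c0) + s0 * u2 / u5 * s.ca - s0 * u2 / u5 * i.ca) =
        (coQ s i 2 / u2 - (E0 - s0 * (coQ s i 5 / u5 - c0))) * u2 := by
      have h2 : coQ s i 2 = i.e - s.e := rfl
      have h5 : coQ s i 5 = i.ca - s.ca := rfl
      rw [h2, h5]
      field_simp
      ring
    rw [e, abs_mul, abs_of_pos hu2]
    exact mul_le_mul_of_nonneg_right hE hu2.le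
  hC := by
    have e : i.cb - (s.cb - s.e * s.ca + u2 * u5 * (C0 + E0 * (-s.ca / u5 - c0) -
          s0 * (-s.ca / u5 - c0) ^ 2 / 2) +
          (s.e + u2 * (E0 + s0 * c0) + s0 * u2 / u5 * s.ca) * i.ca -
          s0 * u2 / u5 * i.ca ^ 2 / 2) =
        (coQ s i 6 / (u2 * u5) - (C0 + E0 * (coQ s i 5 / u5 - c0) -
          s0 * (coQ s i 5 / u5 - c0) ^ 2 / 2)) * (u2 * u5) := by
      have h6 : coQ s i 6 = (i.cb - s.cb) - s.e * (i.ca - s.ca) := rfl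
      have h5 : coQ s i 5 = i.ca - s.ca := rfl
      rw [h6, h5]
      field_simp
      ring
    rw [e, abs_mul, abs_of_pos (mul_pos hu2 hu5)]
    exact mul_le_mul_of_nonneg_right hC (mul_pos hu2 hu5).le
  hF := hF

variable {ι κ' : ℕ → Type*} [∀ n, DecidableEq (ι n)] {B B' : Base} {I J : ∀ n, Finset (ι n)}
  {F : ∀ n, ι n → Fq4} {M : Mons 11} {C : ℝ} {Y : ℕ → Fin 11 → ℝ} {w : ℕ → ℝ}
  {D : Set (Fin 11 → ℝ)} {T : ℕ → ℝ} {lam : (Fin 11 → ℝ) → ℝ} {x R' a m : ℝ} {Mw : Mons 11}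

/-- the relation of one class at tolerance `ε` -/
def QR (B B' : Base) (F : ∀ n, ι n → Fq4) (Y : ℕ → Fin 11 → ℝ) (x : ℝ) (g : ∀ n, ι n → κ' n)
    (mu be : ∀ n, κ' n → ℝ) (n : ℕ) (s0 e0 q0 ε : ℝ) (G : Finset (ι n)) : Prop :=
  |s0| * B.d n ^ Y n 5 ≤ B'.d n ^ (-ε) * B.d n ^ Y n 2 ∧ ∀ i ∈ G,
    GRel s0 e0 q0 (be n (g n i)) (mu n (g n i)) (B'.d n ^ (x - ε) * B.d n ^ Y n 2)
      (B'.d n ^ (x - ε) * B.d n ^ Y n 6) (B'.d n ^ (x - ε) * B.d n ^ Y n 3) (F n i)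

theorem QR.mono {g : ∀ n, ι n → κ' n} {mu be : ∀ n, κ' n → ℝ} {n : ℕ} {s0 e0 q0 ε : ℝ}
    {G G' : Finset (ι n)} (h : G' ⊆ G) (hG : QR B B' F Y x g mu be n s0 e0 q0 ε G) :
    QR B B' F Y x g mu be n s0 e0 q0 ε G' := ⟨hG.1, fun i hi => hG.2 i (h hi)⟩

theorem QR.mono_eps {g : ∀ n, ι n → κ' n} {mu be : ∀ n, κ' n → ℝ} {n : ℕ} {s0 e0 q0 ε ε' : ℝ}
    {G : Finset (ι n)} (h : ε ≤ ε') (hG : QR B B' F Y x g mu be n s0 e0 q0 ε G) :
    QR B B' F Y x g mu be n s0 e0 q0 ε' G := by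
  have e1 : B'.d n ^ (x - ε) ≤ B'.d n ^ (x - ε') :=
    Real.rpow_le_rpow_of_exponent_ge (B'.pos n) (B'.lt n).le (by linarith)
  have e2 : B'.d n ^ (-ε) ≤ B'.d n ^ (-ε') :=
    Real.rpow_le_rpow_of_exponent_ge (B'.pos n) (B'.lt n).le (by linarith)
  have hB : ∀ t : ℝ, 0 ≤ B.d n ^ t := fun t => Real.rpow_nonneg (B.pos n).le t
  exact ⟨hG.1.trans (mul_le_mul_of_nonneg_right e2 (hB _)), fun i hi =>
    (hG.2 i hi).mono (mul_le_mul_of_nonneg_right e1 (hB _))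
      (mul_le_mul_of_nonneg_right e1 (hB _)) (mul_le_mul_of_nonneg_right e1 (hB _))⟩

/-- **one class**: a window of a dense union -/
theorem rig_local (i₀ : ∀ n, ι n)
    (hZ : ZWin B B' I J (fun n i j => coQ (F n i) (F n j)) M C Y w D T lam)
    (hstr : ∀ n i, (F n i).y2 = 0) (htX : ∀ᶠ n in (U : Filter ℕ), TightX (Y n))
    (hL : LightF D lam a m) (hx : 0 < x) (hxR : x ≤ R') (hMw : ∀ k, Mw.mon k ⊆ mfQ k)
    (hMw1 : ∀ k, ∀ e ∈ Mw.mon k, e 1 = 0) (hM0 : M.mon 0 = ∅) (hD : Leg Mw R' ⊆ D)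
    (g : ∀ n, ι n → κ' n) (mu be : ∀ n, κ' n → ℝ)
    (hg : ∀ᶠ n in (U : Filter ℕ), ∀ i ∈ J n, ∀ j ∈ J n,
      zlab B I (fun n i j => coQ (F n i) (F n j)) M C Y w n 0 i =
        zlab B I (fun n i j => coQ (F n i) (F n j)) M C Y w n 0 j → g n i = g n j)
    (hmu : ∀ ε : ℝ, 0 < ε → ∀ᶠ n in (U : Filter ℕ), ∀ i ∈ J n,
      B'.d n ^ ε * B.d n ^ Y n 3 ≤ |mu n (g n i)| * B.d n ^ Y n 0 ∧
      |mu n (g n i)| * B.d n ^ Y n 0 ≤ B'.d n ^ (-ε) * B.d n ^ Y n 3)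
    (haff : ∀ ε : ℝ, 0 < ε → ∀ᶠ n in (U : Filter ℕ), ∀ i ∈ J n,
      |(F n i).fb - be n (g n i) - mu n (g n i) * (F n i).z| ≤ B'.d n ^ (x - ε) * B.d n ^ Y n 3)
    (Gd : ∀ n, Finset (ι n)) (hGd : ∀ n, Gd n ⊆ J n)
    (hhalf : ∀ᶠ n in (U : Filter ℕ), ((J n).card : ℝ) ≤ 2 * ((Gd n).card : ℝ)) :
    ∀ ε : ℝ, 0 < ε → ∀ᶠ n in (U : Filter ℕ), ∃ s : ι n, ∃ G' ⊆
      cls (Gd n) (zlab B I (fun n i j => coQ (F n i) (F n j)) M C Y w n 0) s,
      T n * B'.d n ^ ε ≤ (G'.card : ℝ) ∧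
        ∃ s0 e0 q0 : ℝ, QR B B' F Y x g mu be n s0 e0 q0 ε G' := by
  classical
  set co : ∀ n, ι n → ι n → Fin 11 → ℝ := fun n i j => coQ (F n i) (F n j) with hco
  set κ : ℝ := 2 * cK0 M C with hκd
  have hC0 : 0 ≤ C := (hZ.chart 0).C0
  have hκ1 : 1 ≤ κ := by have := cK0_one (M := M) hC0; linarith
  have hκ0 : 0 < κ := by linarith
  have hst : (stL κ x R' Mw).Ok M D := stL_ok hκ0 hx.le hxR hMw hMw1 hM0 hD
  obtain ⟨s₀, hs₀, hok⟩ := hZ.exists_wnd hst i₀ (Gd := Gd) (E := Gd)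
    (Eventually.of_forall hGd) (Eventually.of_forall fun n => Subset.refl _)
    (Sd := fun _ => 2) (Base.Sub.const two_pos) hhalf
  have H := lwinL_of_ok (F := F) hok (fun _ _ _ => rfl) hstr hκ1 le_rfl hx.le htX
  set W := (stL κ x R' Mw).wnd B B' I J co M C Y w D T lam
    (fun n => cls (Gd n) (zlab B I co M C Y w n 0) (s₀ n)) s₀ with hW
  have hB : ∀ n, ∀ t : ℝ, 0 < B.d n ^ t := fun n t => Real.rpow_pos_of_pos (B.pos n) t
  have hd : ∀ n, ∀ t : ℝ, 0 < B'.d n ^ t := fun n t => Real.rpow_pos_of_pos (B'.pos n) t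
  -- coordinates in the frame of `s₀`
  have hcrd : ∀ n (y : ι n) (s : Fin 11), W.crd n (W.s₀ n) y s =
      coQ (F n (s₀ n)) (F n y) s / (κ ^ wtR s * B.d n ^ Y n s) := fun n y s => rfl
  have hCl : ∀ n, W.Cl n = cls (Gd n) (zlab B I co M C Y w n 0) (s₀ n) := fun n => rfl
  -- slope and constant in the frame of `s₀`
  set mu' : ℕ → ℝ := fun n => mu n (g n (s₀ n)) * B.d n ^ Y n 0 / B.d n ^ Y n 3 with hmu'
  set be' : ℕ → ℝ := fun n => (be n (g n (s₀ n)) + mu n (g n (s₀ n)) * (F n (s₀ n)).z -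
    (F n (s₀ n)).fb) / (κ * B.d n ^ Y n 3) with hbe'
  have hmu1 : ∀ ε : ℝ, 0 < ε → ∀ᶠ n in (U : Filter ℕ),
      B'.d n ^ ε ≤ |mu' n| ∧ |mu' n| ≤ B'.d n ^ (-ε) := by
    intro ε hε
    filter_upwards [hmu ε hε, hs₀] with n h1 h2
    obtain ⟨h3, h4⟩ := h1 _ (hGd n h2)
    have e : |mu' n| = |mu n (g n (s₀ n))| * B.d n ^ Y n 0 / B.d n ^ Y n 3 := by
      rw [hmu']
      simp only
      rw [abs_div, abs_mul, abs_of_pos (hB n _), abs_of_pos (hB n _)]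
    rw [e]
    exact ⟨(le_div_iff₀ (hB n _)).2 h3, (div_le_iff₀ (hB n _)).2 h4⟩
  have hgs : ∀ᶠ n in (U : Filter ℕ), ∀ y ∈ W.Cl n, y ∈ J n ∧ g n y = g n (s₀ n) := by
    filter_upwards [hg, hs₀] with n h1 h2 y hy
    rw [hCl, mem_cls] at hy
    exact ⟨hGd n hy.1, h1 y (hGd n hy.1) _ (hGd n h2) hy.2⟩
  have haff1 : ∀ ε : ℝ, 0 < ε → ∀ᶠ n in (U : Filter ℕ), ∀ y ∈ W.Cl n,
      |W.crd n (W.s₀ n) y 3 - be' n - mu' n * W.crd n (W.s₀ n) y 0| ≤ W.B'.d n ^ (x - ε) := by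
    intro ε hε
    filter_upwards [haff ε hε, hgs] with n h1 h2 y hy
    obtain ⟨hyJ, hyg⟩ := h2 y hy
    have h3 := h1 y hyJ
    rw [hyg] at h3
    rw [hcrd, hcrd]
    have c3 : coQ (F n (s₀ n)) (F n y) 3 = (F n y).fb - (F n (s₀ n)).fb := rfl
    have c0 : coQ (F n (s₀ n)) (F n y) 0 = (F n y).z - (F n (s₀ n)).z := rfl
    have w3 : κ ^ wtR 3 = κ := by simp [wtR]
    have w0 : κ ^ wtR 0 = κ := by simp [wtR]
    rw [c3, c0, w3, w0]
    have p3 := hB n (Y n 3)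
    have p0 := hB n (Y n 0)
    have e : ((F n y).fb - (F n (s₀ n)).fb) / (κ * B.d n ^ Y n 3) - be' n -
        mu' n * (((F n y).z - (F n (s₀ n)).z) / (κ * B.d n ^ Y n 0)) =
        ((F n y).fb - be n (g n (s₀ n)) - mu n (g n (s₀ n)) * (F n y).z) /
          (κ * B.d n ^ Y n 3) := by
      rw [hmu', hbe']
      simp only
      field_simp
      ring
    rw [e, abs_div, abs_of_pos (mul_pos hκ0 p3), div_le_iff₀ (mul_pos hκ0 p3)]
    refine h3.trans ?_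
    have h4 : B'.d n ^ (x - ε) * B.d n ^ Y n 3 ≤ κ * (B'.d n ^ (x - ε) * B.d n ^ Y n 3) :=
      le_mul_of_one_le_left (mul_pos (hd n _) p3).le hκ1
    calc B'.d n ^ (x - ε) * B.d n ^ Y n 3 ≤ κ * (B'.d n ^ (x - ε) * B.d n ^ Y n 3) := h4
      _ = _ := by show _ = B'.d n ^ (x - ε) * (κ * B.d n ^ Y n 3); ring
  have hnu : ∀ p, W.nu p = lam (cu x p) - lam (topL x) := fun p => rfl
  have key := H.rig_inc rigWin hMw hx hL.a0 hL.a1 hL.m0
    (by rw [hnu, hnu, hnu, hnu]; have := hL.dec x hx.le; linarith)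
    (fun y hy hyx => by rw [hnu, hnu]; have := hL.fib x y hy hyx; linarith)
    (fun y hy hyx => by rw [hnu, hnu]; have := hL.conc x y hy hyx; linarith)
    (hL.dens x hx.le) (fun y hy _ => hL.frost y hy) hok.eok_class mu' be' hmu1 haff1
  intro ε hε
  have hε2 : 0 < ε / 2 := by positivity
  filter_upwards [key _ hε2, hok.cls.big _ hε2, hgs, htX, haff ε hε,
    ev_const_le B' (c := κ) hκ0 hε2, ev_const_le B' (c := κ ^ 2) (by positivity) hε2] with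
    n ⟨G', hG', hcard, s0, c0, C0, E0, hs0, hc0, hC0', hE0, hrel⟩ hbig h2 htn h3 k1 k2
  refine ⟨s₀ n, G', hG', ?_, ?_⟩
  · have e1 : T n * B'.d n ^ ε = B'.d n ^ (ε / 2) * (T n * B'.d n ^ (ε / 2)) := by
      have : B'.d n ^ ε = B'.d n ^ (ε / 2) * B'.d n ^ (ε / 2) := by
        rw [← Real.rpow_add (B'.pos n)]; congr 1; ring
      rw [this]; ring
    rw [e1]
    exact (mul_le_mul_of_nonneg_left hbig (hd n _).le).trans hcard
  · have p2 : 0 < κ * B.d n ^ Y n 2 := mul_pos hκ0 (hB n _)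
    have p5 : 0 < κ * B.d n ^ Y n 5 := mul_pos hκ0 (hB n _)
    set sA : Fq4 := F n (s₀ n) with hsA
    refine ⟨s0 * (κ * B.d n ^ Y n 2) / (κ * B.d n ^ Y n 5),
      sA.e + (κ * B.d n ^ Y n 2) * (E0 + s0 * c0) +
        s0 * (κ * B.d n ^ Y n 2) / (κ * B.d n ^ Y n 5) * sA.ca,
      sA.cb - sA.e * sA.ca + (κ * B.d n ^ Y n 2) * (κ * B.d n ^ Y n 5) *
        (C0 + E0 * (-sA.ca / (κ * B.d n ^ Y n 5) - c0) -
        s0 * (-sA.ca / (κ * B.d n ^ Y n 5) - c0) ^ 2 / 2), ?_, fun i hi => ?_⟩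
    rotate_left
    · obtain ⟨hiJ, hig⟩ := h2 i (hG' hi)
      obtain ⟨r1, r2⟩ := hrel i hi
      rw [hcrd, hcrd] at r1 r2
      have w2 : κ ^ wtR 2 = κ := by simp [wtR]
      have w5 : κ ^ wtR 5 = κ := by simp [wtR]
      have w6 : κ ^ wtR 6 * B.d n ^ Y n 6 = (κ * B.d n ^ Y n 2) * (κ * B.d n ^ Y n 5) := by
        have : κ ^ wtR 6 = κ ^ 2 := by simp [wtR]
        rw [this, htn.w6, Real.rpow_add (B.pos n)]; ring
      rw [w2, w5] at r1
      rw [w6, w5] at r2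
      have h5 := h3 i hiJ
      have h6 : |(F n i).fb - (be n (g n i) + mu n (g n i) * (F n i).z)| ≤
          B'.d n ^ (x - ε) * B.d n ^ Y n 3 := by
        rw [← sub_sub]; exact h5
      have h7 := grel_frame (s := F n (s₀ n)) p2 p5 (hstr n i) r1 r2 h6
      have e2 : B'.d n ^ (x - ε) = B'.d n ^ (-(ε / 2)) * B'.d n ^ (x - ε / 2) := by
        rw [← Real.rpow_add (B'.pos n)]; congr 1; ring
      refine h7.mono ?_ ?_ le_rfl
      · show B'.d n ^ (x - ε / 2) * (κ * B.d n ^ Y n 2) ≤ B'.d n ^ (x - ε) * B.d n ^ Y n 2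
        rw [e2]
        have := mul_le_mul_of_nonneg_right k1 (mul_pos (hd n (x - ε / 2)) (hB n (Y n 2))).le
        calc B'.d n ^ (x - ε / 2) * (κ * B.d n ^ Y n 2)
            = κ * (B'.d n ^ (x - ε / 2) * B.d n ^ Y n 2) := by ring
          _ ≤ _ := this
          _ = _ := by ring
      · show B'.d n ^ (x - ε / 2) * ((κ * B.d n ^ Y n 2) * (κ * B.d n ^ Y n 5)) ≤
          B'.d n ^ (x - ε) * B.d n ^ Y n 6
        rw [e2, htn.w6, Real.rpow_add (B.pos n)]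
        have := mul_le_mul_of_nonneg_right k2 (mul_pos (hd n (x - ε / 2))
          (mul_pos (hB n (Y n 2)) (hB n (Y n 5)))).le
        calc B'.d n ^ (x - ε / 2) * ((κ * B.d n ^ Y n 2) * (κ * B.d n ^ Y n 5))
            = κ ^ 2 * (B'.d n ^ (x - ε / 2) * (B.d n ^ Y n 2 * B.d n ^ Y n 5)) := by ring
          _ ≤ _ := this
          _ = _ := by ring
    · have e3 : s0 * (κ * B.d n ^ Y n 2) / (κ * B.d n ^ Y n 5) =
          s0 * (B.d n ^ Y n 2 / B.d n ^ Y n 5) := by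
        have := (hB n (Y n 5)).ne'
        field_simp
      rw [e3, abs_mul, abs_of_pos (div_pos (hB n _) (hB n _))]
      have e4 : |s0| * (B.d n ^ Y n 2 / B.d n ^ Y n 5) * B.d n ^ Y n 5 =
          |s0| * B.d n ^ Y n 2 := by
        have := (hB n (Y n 5)).ne'
        field_simp
      rw [e4]
      refine mul_le_mul_of_nonneg_right (hs0.trans ?_) (hB n _).le
      exact Real.rpow_le_rpow_of_exponent_ge (B'.pos n) (B'.lt n).le (by linarith)

/-- **the rigid leaf of (C)** : on a dense part of an interior window every class satisfies the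
relations of a rigid lightlike class (absolute coordinates), with parameters which depend on the
class only -/
theorem rig_classes (i₀ : ∀ n, ι n)
    (hZ : ZWin B B' I J (fun n i j => coQ (F n i) (F n j)) M C Y w D T lam)
    (hstr : ∀ n i, (F n i).y2 = 0) (htX : ∀ᶠ n in (U : Filter ℕ), TightX (Y n))
    (hL : LightF D lam a m) (hx : 0 < x) (hxR : x ≤ R') (hMw : ∀ k, Mw.mon k ⊆ mfQ k)
    (hMw1 : ∀ k, ∀ e ∈ Mw.mon k, e 1 = 0) (hM0 : M.mon 0 = ∅) (hD : Leg Mw R' ⊆ D)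
    (g : ∀ n, ι n → κ' n) (mu be : ∀ n, κ' n → ℝ)
    (hg : ∀ᶠ n in (U : Filter ℕ), ∀ i ∈ J n, ∀ j ∈ J n,
      zlab B I (fun n i j => coQ (F n i) (F n j)) M C Y w n 0 i =
        zlab B I (fun n i j => coQ (F n i) (F n j)) M C Y w n 0 j → g n i = g n j)
    (hmu : ∀ ε : ℝ, 0 < ε → ∀ᶠ n in (U : Filter ℕ), ∀ i ∈ J n,
      B'.d n ^ ε * B.d n ^ Y n 3 ≤ |mu n (g n i)| * B.d n ^ Y n 0 ∧
      |mu n (g n i)| * B.d n ^ Y n 0 ≤ B'.d n ^ (-ε) * B.d n ^ Y n 3)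
    (haff : ∀ ε : ℝ, 0 < ε → ∀ᶠ n in (U : Filter ℕ), ∀ i ∈ J n,
      |(F n i).fb - be n (g n i) - mu n (g n i) * (F n i).z| ≤
        B'.d n ^ (x - ε) * B.d n ^ Y n 3) :
    ∃ J1 : ∀ n, Finset (ι n), (∀ n, J1 n ⊆ J n) ∧ Dense B' J1 J ∧
      ∃ s0 e0 q0 : ∀ n, ι n → ℝ, ∀ ε : ℝ, 0 < ε → ∀ᶠ n in (U : Filter ℕ), ∀ i ∈ J1 n,
        |s0 n (zlab B I (fun n i j => coQ (F n i) (F n j)) M C Y w n 0 i)| * B.d n ^ Y n 5 ≤
          B'.d n ^ (-ε) * B.d n ^ Y n 2 ∧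
        GRel (s0 n (zlab B I (fun n i j => coQ (F n i) (F n j)) M C Y w n 0 i))
          (e0 n (zlab B I (fun n i j => coQ (F n i) (F n j)) M C Y w n 0 i))
          (q0 n (zlab B I (fun n i j => coQ (F n i) (F n j)) M C Y w n 0 i))
          (be n (g n i)) (mu n (g n i)) (B'.d n ^ (x - ε) * B.d n ^ Y n 2)
          (B'.d n ^ (x - ε) * B.d n ^ Y n 6) (B'.d n ^ (x - ε) * B.d n ^ Y n 3) (F n i) := by
  classical
  set lab : ∀ n, ι n → ι n :=
    fun n => zlab B I (fun n i j => coQ (F n i) (F n j)) M C Y w n 0 with hlab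
  obtain ⟨J1, h1, h2, h3⟩ := local_to_global (B := B') (J := J) lab hZ.T0
    (fun ε hε => by
      filter_upwards [hZ.prof.up 0 ε hε] with n hn s hs
      have := hn 0 hZ.zero (by rw [norm_zero]) s hs
      rwa [hZ.lam0, zero_add] at this)
    (fun n ε G => ∃ s0 e0 q0 : ℝ, QR B B' F Y x g mu be n s0 e0 q0 ε G)
    (fun n ε G G' h ⟨s0, e0, q0, hq⟩ => ⟨s0, e0, q0, hq.mono h⟩)
    (fun n ε ε' G h ⟨s0, e0, q0, hq⟩ => ⟨s0, e0, q0, hq.mono_eps h⟩)
    (fun Gd hGd _ hhalf => rig_local i₀ hZ hstr htX hL hx hxR hMw hMw1 hM0 hD g mu be hg hmu haff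
      Gd hGd hhalf)
  -- one choice for all `ε`
  obtain ⟨k, hk, hk2⟩ := exists_diag (fun j n => ∀ s ∈ J1 n, ∃ s0 e0 q0 : ℝ,
      QR B B' F Y x g mu be n s0 e0 q0 (1 / ((j : ℝ) + 1)) (cls (J1 n) (lab n) s))
    (fun j => h3 (1 / ((j : ℝ) + 1)) (by positivity))
  set P : ∀ n, ι n → ℝ × ℝ × ℝ → Prop := fun n l p =>
    QR B B' F Y x g mu be n p.1 p.2.1 p.2.2 (1 / ((k n : ℝ) + 1))
      ((J1 n).filter fun y => lab n y = l) with hP
  set ch : ∀ n, ι n → ℝ × ℝ × ℝ := fun n l => if h : ∃ p, P n l p then h.choose else 0 with hch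
  refine ⟨J1, h1, h2, fun n l => (ch n l).1, fun n l => (ch n l).2.1, fun n l => (ch n l).2.2,
    fun ε hε => ?_⟩
  have hks : ∀ᶠ n in (U : Filter ℕ), 1 / ((k n : ℝ) + 1) ≤ ε := by
    have h4 : Tendsto (fun n => 1 / ((k n : ℝ) + 1)) U (𝓝 0) :=
      tendsto_one_div_add_atTop_nhds_zero_nat.comp hk
    exact h4.eventually (ge_mem_nhds hε)
  filter_upwards [hk2, hks] with n h4 h5 i hi
  obtain ⟨s0, e0, q0, h6⟩ := h4 (k n) le_rfl i hi
  have h7 : ∃ p, P n (lab n i) p := ⟨(s0, e0, q0), h6⟩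
  have e1 : ch n (lab n i) = h7.choose := dif_pos h7
  have h8 : P n (lab n i) (ch n (lab n i)) := by rw [e1]; exact h7.choose_spec
  have h9 := QR.mono_eps h5 h8
  exact ⟨h9.1, h9.2 i (mem_filter.2 ⟨hi, rfl⟩)⟩

section Shift

variable {mm : ℕ} {I' J' : ∀ n, Finset (ι n)} {co : ∀ n, ι n → ι n → Fin mm → ℝ} {M' : Mons mm}
  {X' : ℕ → Fin mm → ℝ} {D₁ D₂ : Set (Fin mm → ℝ)} {lam₁ lam₂ : (Fin mm → ℝ) → ℝ}

/-- smaller set of directions, equal profile on it -/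
theorem zwin_congr (h : ZWin B B' I' J' co M' C X' w D₁ T lam₁) (hD : D₂ ⊆ D₁)
    (h0 : (0 : Fin mm → ℝ) ∈ D₂) (he : ∀ c ∈ D₂, lam₂ c = lam₁ c) :
    ZWin B B' I' J' co M' C X' w D₂ T lam₂ where
  chart := h.chart
  sub := h.sub
  ne := h.ne
  w0 := h.w0
  base := h.base
  zero := h0
  legal := fun K => (h.legal K).mono fun n hn c hc hcK => hn c (hD hc) hcK
  prof :=
    { up := fun K ε hε => (h.prof.up K ε hε).mono fun n hn c hc hcK i hi => by
        rw [he c hc]; exact hn c (hD hc) hcK i hi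
      num := fun K ε hε => (h.prof.num K ε hε).mono fun n hn c hc hcK c' hc' hcK' hcc i hi => by
        rw [he c hc, he c' hc']; exact hn c (hD hc) hcK c' (hD hc') hcK' hcc i hi
      root := fun K ε hε => (h.prof.root K ε hε).mono fun n hn c hc hcK => by
        rw [he c hc]; exact hn c (hD hc) hcK }
  lam0 := by rw [he 0 h0]; exact h.lam0
  T0 := h.T0
  lip := fun c hc c' hc' => by rw [he c hc, he c' hc']; exact h.lip c (hD hc) c' (hD hc')
  anti := fun c hc c' hc' hcc => by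
    rw [he c hc, he c' hc']; exact h.anti c (hD hc) c' (hD hc') hcc
  sharp := fun c hc c' hc' hcc => by
    rw [he c hc, he c' hc']; exact h.sharp c (hD hc) c' (hD hc') hcc
  submod := fun c hc c' hc' hi hs => by
    rw [he c hc, he c' hc', he _ hs, he _ hi]
    exact h.submod c (hD hc) c' (hD hc') (hD hi) (hD hs)

end Shift

/-- **the class base `τ • eN`** of an interior window: same directions, same profile -/
theorem zwin_light_shift {co : ∀ n, ι n → ι n → Fin 11 → ℝ}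
    (hZ : ZWin B B' I J co M C Y w D T lam) (hL : LightF D lam a m) {τ : ℝ}
    (hD : ∀ c ∈ D, τ • eN + c ∈ D) :
    ZWin B B' I J co M C (fun n => Y n + w n • (τ • eN)) w D
      (fun n => T n * B'.d n ^ (-lam (τ • eN))) lam := by
  have h0 : τ • eN ∈ D := by
    have := hD 0 hZ.zero
    rwa [add_zero] at this
  exact zwin_congr (hZ.shift h0) (fun c hc => hD c hc) hZ.zero fun c hc => by
    have := hL.add τ c hc
    linarith

/-- the class base has tight exponents -/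
theorem tight_shift {Y : Fin 11 → ℝ} (h : TightX Y) (t : ℝ) : TightX (Y + t • eN) where
  w4 := by
    have := h.w4
    simp only [Pi.add_apply, Pi.smul_apply, smul_eq_mul, eN, Matrix.cons_val]
    linarith
  w6 := by
    have := h.w6
    simp only [Pi.add_apply, Pi.smul_apply, smul_eq_mul, eN, Matrix.cons_val]
    linarith
  w7 := by
    have := h.w7
    simp only [Pi.add_apply, Pi.smul_apply, smul_eq_mul, eN, Matrix.cons_val]
    linarith
  w8 := by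
    have := h.w8
    simp only [Pi.add_apply, Pi.smul_apply, smul_eq_mul, eN, Matrix.cons_val]
    linarith
  w9 := by
    have := h.w9
    simp only [Pi.add_apply, Pi.smul_apply, smul_eq_mul, eN, Matrix.cons_val]
    linarith
  w10 := by
    have := h.w10
    simp only [Pi.add_apply, Pi.smul_apply, smul_eq_mul, eN, Matrix.cons_val]
    linarith

end Crest.Agent.R136.WkM626
end

-- ▼ part R136/WkM2_626
section

/-!
# R136 (helper626): T.L, part (C), last step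

`gwin_of_rel` : relations `GRel` on the classes of a record window (parameters depend on the class
only) give 196's `GWin`; `gwin_flat` : the same for `F_b` constant (no gauge).
-/

set_option autoImplicit false
set_option linter.unusedSectionVars false
set_option linter.unusedVariables false

open Filter Topology

namespace Crest.Agent.R136.WkM626

open Finset
open Crest.Agent.R136.NetQ186
open Crest.Agent.R136.GeoQ186
open Crest.Agent.R136.Qg926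
open Crest.Agent.R136.Net191
open Crest.Agent.R136.Gau66
open Crest.Agent.R136.Gz779
open Crest.Agent.R136.Zpr779
open Crest.Agent.R136.NatT550
open Crest.Agent.R136.NatR550
open Crest.Agent.R136.TL196
open Crest.Agent.R138.Ex926
open Crest.Agent.R138.Dp76 (Dense)

variable {κ' : ℕ → Type*} {B B' : Base} {I J : ℕ → Finset (ℕ × ℝ)} {F : ℕ → ℕ × ℝ → Fq4}
  {M : Mons 11} {C : ℝ} {X : ℕ → Fin 11 → ℝ} {w : ℕ → ℝ} {D : Set (Fin 11 → ℝ)} {T : ℕ → ℝ}
  {lam : (Fin 11 → ℝ) → ℝ} {x : ℝ}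

/-- **relations on one set of incidences** with fixed parameters, for all `ε`, give `GauIn` -/
theorem gauIn_of_eps {E : ℕ → Finset (ℕ × ℝ)} {s0 e0 q0 be mu : ℕ → ℝ}
    (ht : ∀ n, TightQ (X n))
    (hmu : ∀ ε : ℝ, 0 < ε → ∀ᶠ n in (U : Filter ℕ),
      |mu n| * B.d n ^ X n 0 ≤ B'.d n ^ (-ε) * B.d n ^ X n 3)
    (hs0 : ∀ ε : ℝ, 0 < ε → ∀ᶠ n in (U : Filter ℕ),
      |s0 n| * B.d n ^ X n 5 ≤ B'.d n ^ (-ε) * B.d n ^ X n 2)
    (hrel : ∀ ε : ℝ, 0 < ε → ∀ᶠ n in (U : Filter ℕ), ∀ i ∈ E n,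
      GRel (s0 n) (e0 n) (q0 n) (be n) (mu n) (B'.d n ^ (x - ε) * B.d n ^ X n 2)
        (B'.d n ^ (x - ε) * B.d n ^ X n 6) (B'.d n ^ (x - ε) * B.d n ^ X n 3) (F n i)) :
    ∃ ηg : ℕ → ℝ, GauIn B B' E F (fun n => gg (s0 n) (e0 n) (mu n)) X ηg x x := by
  obtain ⟨k, hk, hk2⟩ := exists_diag (fun j n => ∀ i ∈ E n,
      GRel (s0 n) (e0 n) (q0 n) (be n) (mu n)
        (B'.d n ^ (x - 1 / ((j : ℝ) + 1)) * B.d n ^ X n 2)
        (B'.d n ^ (x - 1 / ((j : ℝ) + 1)) * B.d n ^ X n 6)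
        (B'.d n ^ (x - 1 / ((j : ℝ) + 1)) * B.d n ^ X n 3) (F n i))
    (fun j => hrel (1 / ((j : ℝ) + 1)) (by positivity))
  have hks : ∀ ε : ℝ, 0 < ε → ∀ᶠ n in (U : Filter ℕ), 1 / ((k n : ℝ) + 1) ≤ ε := by
    intro ε hε
    have h4 : Tendsto (fun n => 1 / ((k n : ℝ) + 1)) U (𝓝 0) :=
      tendsto_one_div_add_atTop_nhds_zero_nat.comp hk
    exact h4.eventually (ge_mem_nhds hε)
  have hB : ∀ n, ∀ t : ℝ, 0 < B.d n ^ t := fun n t => Real.rpow_pos_of_pos (B.pos n) t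
  have hd : ∀ n, ∀ t : ℝ, 0 < B'.d n ^ t := fun n t => Real.rpow_pos_of_pos (B'.pos n) t
  have hsz : ∀ (q : Fin 11), ∀ ε : ℝ, 0 < ε → ∀ᶠ n in (U : Filter ℕ),
      B'.d n ^ (x - 1 / ((k n : ℝ) + 1)) * B.d n ^ X n q ≤
        B'.d n ^ (x - ε) * B.d n ^ X n q := by
    intro q ε hε
    filter_upwards [hks ε hε] with n hn
    refine mul_le_mul_of_nonneg_right ?_ (hB n _).le
    exact Real.rpow_le_rpow_of_exponent_ge (B'.pos n) (B'.lt n).le (by linarith)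
  exact ⟨_, gauIn_of_rel (s0 := s0) (e0 := e0) (q0 := q0) (be := be) (mu := mu)
    (dE := fun n => B'.d n ^ (x - 1 / ((k n : ℝ) + 1)) * B.d n ^ X n 2)
    (dC := fun n => B'.d n ^ (x - 1 / ((k n : ℝ) + 1)) * B.d n ^ X n 6)
    (dF := fun n => B'.d n ^ (x - 1 / ((k n : ℝ) + 1)) * B.d n ^ X n 3) ht
    (hk2.mono fun n hn => hn (k n) le_rfl) (fun n => (mul_pos (hd n _) (hB n _)).le) hmu hs0
    (hsz 2) (hsz 6) (hsz 3)⟩

/-- `GauIn` only sees the base exponents eventually -/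
theorem gauIn_congrX {E : ℕ → Finset (ℕ × ℝ)} {h : ℕ → Fin 6 → ℝ} {X X' : ℕ → Fin 11 → ℝ}
    {η : ℕ → ℝ} {x xF : ℝ} (H : GauIn B B' E F h X η x xF)
    (e : ∀ᶠ n in (U : Filter ℕ), X' n = X n) : GauIn B B' E F h X' η x xF where
  h4 := H.h4
  h5 := H.h5
  η0 := H.η0
  tau := H.tau
  b2 := fun ε hε => by filter_upwards [H.b2 ε hε, e] with n h1 h2; rw [h2]; exact h1
  b3 := fun ε hε => by filter_upwards [H.b3 ε hε, e] with n h1 h2; rw [h2]; exact h1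
  bη := fun ε hε => by filter_upwards [H.bη ε hε, e] with n h1 h2; rw [h2]; exact h1
  s1 := fun ε hε => by filter_upwards [H.s1 ε hε, e] with n h1 h2; rw [h2]; exact h1
  s3 := fun ε hε => by filter_upwards [H.s3 ε hε, e] with n h1 h2; rw [h2]; exact h1
  n6 := fun ε hε => by filter_upwards [H.n6 ε hε, e] with n h1 h2; rw [h2]; exact h1
  n7 := fun ε hε => by filter_upwards [H.n7 ε hε, e] with n h1 h2; rw [h2]; exact h1
  n8 := fun ε hε => by filter_upwards [H.n8 ε hε, e] with n h1 h2; rw [h2]; exact h1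
  n8' := fun ε hε => by filter_upwards [H.n8' ε hε, e] with n h1 h2; rw [h2]; exact h1
  n9 := fun ε hε => by filter_upwards [H.n9 ε hε, e] with n h1 h2; rw [h2]; exact h1
  n10 := fun ε hε => by filter_upwards [H.n10 ε hε, e] with n h1 h2; rw [h2]; exact h1

theorem tightQ_zero : TightQ (0 : Fin 11 → ℝ) := by
  constructor <;> simp

open Classical in
/-- tight exponents for all `n` -/
noncomputable def fixX (X : ℕ → Fin 11 → ℝ) (n : ℕ) : Fin 11 → ℝ := if TightQ (X n) then X n else 0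

theorem fixX_tight (X : ℕ → Fin 11 → ℝ) (n : ℕ) : TightQ (fixX X n) := by
  unfold fixX
  split_ifs with h
  · exact h
  · exact tightQ_zero

theorem fixX_eq {X : ℕ → Fin 11 → ℝ} {n : ℕ} (h : TightQ (X n)) : fixX X n = X n := if_pos h

/-- **the class base of a record window has tight exponents** -/
theorem tight_XB {c : LCtx} {η : ℝ} (ok : c.Ok η) {ξ w : ℕ → ℝ}
    (hξ : ∃ ξ₀ : ℝ, 0 < ξ₀ ∧ ξ₀ < 1 ∧ Tendsto ξ U (𝓝 ξ₀)) (hw : Tendsto w U (𝓝 0)) (T1 : ℝ) :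
    ∀ᶠ n in (U : Filter ℕ), TightQ (c.XB T1 ξ w n) := by
  obtain ⟨ξ₀, h0, h1, h2⟩ := hξ
  have hT := ok.th.tp.big
  have e1 : ∀ᶠ n in (U : Filter ℕ), 0 < ξ n := h2.eventually (lt_mem_nhds h0)
  have e2 : ∀ᶠ n in (U : Filter ℕ), ξ n < 1 := h2.eventually (gt_mem_nhds h1)
  have e3 : ∀ᶠ n in (U : Filter ℕ), |w n * T1| < 1 / 4 := by
    have h3 : Tendsto (fun n => |w n * T1|) U (𝓝 0) := by
      have := (hw.mul_const T1).abs
      rwa [zero_mul, abs_zero] at this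
    exact h3.eventually (gt_mem_nhds (by norm_num))
  filter_upwards [e1, e2, e3] with n a1 a2 a3
  have hth : ∀ k, |c.p.θ k * ξ n| ≤ c.T0 := fun k => by
    rw [abs_mul, abs_of_pos a1]
    have := hT.th k
    have := abs_nonneg (c.p.θ k)
    nlinarith
  have t0 := abs_le.1 (hth 0)
  have t1 := abs_le.1 (hth 1)
  have t2 := abs_le.1 (hth 2)
  have t3 := abs_lt.1 a3
  have hw0 := hT.w0T
  have hT0 := hT.T0
  have hX : ∀ k, c.XB T1 ξ w n k = nat4 c.w0 (c.R - 1) (ξ n) (-(c.p.θ 1 * ξ n) - w n * T1)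
      (-(c.p.θ 2 * ξ n) - 2 * (w n * T1)) (-(c.p.θ 0 * ξ n) - 2 * (w n * T1)) k := by
    intro k
    unfold LCtx.XB LCtx.X bT
    fin_cases k <;>
      simp only [Pi.add_apply, Pi.smul_apply, smul_eq_mul, nat4, nL, Matrix.cons_val,
        Fin.zero_eta, Fin.mk_one, Fin.reduceFinMk, Fin.isValue] <;> ring
  have hR : 0 ≤ c.R - 1 := (R_room ok).2.2.le
  constructor
  · intro k
    rw [hX]
    fin_cases k <;>
      simp only [nat4, Matrix.cons_val, Fin.zero_eta, Fin.mk_one, Fin.reduceFinMk,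
        Fin.isValue] <;> linarith
  all_goals
    simp only [hX, nat4, Matrix.cons_val]
    linarith

/-- the chart of the thick branch is straight -/
theorem F_y2 (c : LCtx) (n : ℕ) (i : ℕ × ℝ) : (c.F n i).y2 = 0 := by
  show (0 : ℝ) / _ = 0
  simp

/-- **last step of (C)** : relations `GRel` on the classes of a record window, whose parameters
depend on a class label `f` only, give `GWin` -/
theorem gwin_of_rel {c : LCtx} {η : ℝ} (ok : c.Ok η) {T1 : ℝ} {J : ℕ → Finset (ℕ × ℝ)}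
    {ξ w : ℕ → ℝ} {lam lo : (Fin 11 → ℝ) → ℝ} (rw' : RecW c B' J ξ w lam lo)
    (f : ∀ n, ℕ × ℝ → κ' n) (s0 e0 q0 be mu : ∀ n, κ' n → ℝ)
    (hf : ∀ᶠ n in (U : Filter ℕ), ∀ i ∈ J n, ∀ j ∈ J n,
      zlab c.D.B c.D.I (coF c.F) monQ 2 (c.XB T1 ξ w) w n 0 i =
        zlab c.D.B c.D.I (coF c.F) monQ 2 (c.XB T1 ξ w) w n 0 j → f n i = f n j)
    (hmu : ∀ ε : ℝ, 0 < ε → ∀ᶠ n in (U : Filter ℕ), ∀ i ∈ J n,
      |mu n (f n i)| * c.D.B.d n ^ c.XB T1 ξ w n 0 ≤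
        B'.d n ^ (-ε) * c.D.B.d n ^ c.XB T1 ξ w n 3)
    (hs0 : ∀ ε : ℝ, 0 < ε → ∀ᶠ n in (U : Filter ℕ), ∀ i ∈ J n,
      |s0 n (f n i)| * c.D.B.d n ^ c.XB T1 ξ w n 5 ≤
        B'.d n ^ (-ε) * c.D.B.d n ^ c.XB T1 ξ w n 2)
    (hrel : ∀ ε : ℝ, 0 < ε → ∀ᶠ n in (U : Filter ℕ), ∀ i ∈ J n,
      GRel (s0 n (f n i)) (e0 n (f n i)) (q0 n (f n i)) (be n (f n i)) (mu n (f n i))
        (B'.d n ^ (x - ε) * c.D.B.d n ^ c.XB T1 ξ w n 2)
        (B'.d n ^ (x - ε) * c.D.B.d n ^ c.XB T1 ξ w n 6)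
        (B'.d n ^ (x - ε) * c.D.B.d n ^ c.XB T1 ξ w n 3) (c.F n i)) :
    ∃ (Cl : ℕ → Finset (ℕ × ℝ)) (s₀ : ℕ → ℕ × ℝ) (h : ℕ → Fin 6 → ℝ) (ηg : ℕ → ℝ),
      GWin c T1 x B' J ξ w lam lo Cl Cl s₀ h ηg := by
  obtain ⟨s₀, h1, h2, h3⟩ := rw'.exists_cls T1 (Gd := J) (E := J)
    (Eventually.of_forall fun n => Subset.refl _) (Eventually.of_forall fun n => Subset.refl _)
    (S := fun _ => 1) (Base.Sub.const one_pos) (Eventually.of_forall fun n => by rw [one_mul])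
  set X : ℕ → Fin 11 → ℝ := c.XB T1 ξ w with hX
  set Cl : ℕ → Finset (ℕ × ℝ) :=
    fun n => cls (J n) (zlab c.D.B c.D.I (coF c.F) monQ 2 X w n 0) (s₀ n) with hCl
  have hcl : ∀ᶠ n in (U : Filter ℕ), ∀ i ∈ Cl n, i ∈ J n ∧ f n i = f n (s₀ n) := by
    filter_upwards [h1, hf] with n a1 a2 i hi
    obtain ⟨b1, b2⟩ := mem_cls.1 hi
    exact ⟨b1, a2 i b1 _ a1 b2⟩
  have hfix : ∀ᶠ n in (U : Filter ℕ), fixX X n = X n := by
    filter_upwards [tight_XB ok rw'.ξlim rw'.wlim T1] with n hn using fixX_eq hn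
  obtain ⟨ηg, h4⟩ := gauIn_of_eps (B := c.D.B) (B' := B') (F := c.F) (X := fixX X) (x := x)
    (E := Cl) (s0 := fun n => s0 n (f n (s₀ n))) (e0 := fun n => e0 n (f n (s₀ n)))
    (q0 := fun n => q0 n (f n (s₀ n))) (be := fun n => be n (f n (s₀ n)))
    (mu := fun n => mu n (f n (s₀ n))) (fixX_tight X)
    (fun ε hε => by
      filter_upwards [hmu ε hε, h1, hfix] with n a1 a2 a3
      rw [a3]; exact a1 _ a2)
    (fun ε hε => by
      filter_upwards [hs0 ε hε, h1, hfix] with n a1 a2 a3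
      rw [a3]; exact a1 _ a2)
    (fun ε hε => by
      filter_upwards [hrel ε hε, hcl, hfix] with n a1 a2 a3 i hi
      obtain ⟨b1, b2⟩ := a2 i hi
      have := a1 i b1
      rw [b2] at this
      rw [a3]; exact this)
  refine ⟨Cl, s₀, _, ηg,
    { rw := rw', cls := h2, esub := Eventually.of_forall fun n => Subset.refl _
      edens := fun ε hε => ?_
      own := fun P hP R hR h0 => h3 Cl (Eventually.of_forall fun n => Subset.refl _)
        (fun ε hε => ?_) P hP R hR h0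
      gau := gauIn_congrX h4 (hfix.mono fun n hn => hn.symm) }⟩
  all_goals
    filter_upwards with n
    refine le_mul_of_one_le_left (Nat.cast_nonneg _) ?_
    exact Real.one_le_rpow_of_pos_of_le_one_of_nonpos (B'.pos n) (B'.lt n).le (by linarith)

/-- the same without gauge (`F_b` constant on the record classes) -/
theorem gwin_flat {c : LCtx} {η : ℝ} (ok : c.Ok η) {T1 : ℝ} {J : ℕ → Finset (ℕ × ℝ)}
    {ξ w : ℕ → ℝ} {lam lo : (Fin 11 → ℝ) → ℝ} (rw' : RecW c B' J ξ w lam lo)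
    (hfb : ∀ ε : ℝ, 0 < ε → ∀ᶠ n in (U : Filter ℕ), ∀ i ∈ J n, ∀ j ∈ J n,
      zlab c.D.B c.D.I (coF c.F) monQ 2 (c.XB T1 ξ w) w n 0 i =
        zlab c.D.B c.D.I (coF c.F) monQ 2 (c.XB T1 ξ w) w n 0 j →
        |(c.F n j).fb - (c.F n i).fb| ≤ B'.d n ^ (x - ε) * c.D.B.d n ^ c.XB T1 ξ w n 3) :
    ∃ (Cl : ℕ → Finset (ℕ × ℝ)) (s₀ : ℕ → ℕ × ℝ) (h : ℕ → Fin 6 → ℝ) (ηg : ℕ → ℝ),
      GWin c T1 x B' J ξ w lam lo Cl Cl s₀ h ηg := by
  obtain ⟨s₀, h1, h2, h3⟩ := rw'.exists_cls T1 (Gd := J) (E := J)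
    (Eventually.of_forall fun n => Subset.refl _) (Eventually.of_forall fun n => Subset.refl _)
    (S := fun _ => 1) (Base.Sub.const one_pos) (Eventually.of_forall fun n => by rw [one_mul])
  set X : ℕ → Fin 11 → ℝ := c.XB T1 ξ w with hX
  set Cl : ℕ → Finset (ℕ × ℝ) :=
    fun n => cls (J n) (zlab c.D.B c.D.I (coF c.F) monQ 2 X w n 0) (s₀ n) with hCl
  have hfix : ∀ᶠ n in (U : Filter ℕ), fixX X n = X n := by
    filter_upwards [tight_XB ok rw'.ξlim rw'.wlim T1] with n hn using fixX_eq hn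
  have h4 : GauIn c.D.B B' Cl c.F (fun _ => 0) (fixX X) (fun _ => 0) x x :=
    gauIn_flat (fixX_tight X) (Eventually.of_forall fun n i _ j _ => by
        show (c.F n j).y2 - (c.F n i).y2 = 0
        simp [F_y2]) fun ε hε => by
      filter_upwards [hfb ε hε, hfix] with n a1 a3 i hi j hj
      rw [a3]
      exact a1 i (mem_cls.1 hi).1 j (mem_cls.1 hj).1
        ((mem_cls.1 hi).2.trans (mem_cls.1 hj).2.symm)
  refine ⟨Cl, s₀, _, _,
    { rw := rw', cls := h2, esub := Eventually.of_forall fun n => Subset.refl _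
      edens := fun ε hε => ?_
      own := fun P hP R hR h0 => h3 Cl (Eventually.of_forall fun n => Subset.refl _)
        (fun ε hε => ?_) P hP R hR h0
      gau := gauIn_congrX h4 (hfix.mono fun n hn => hn.symm) }⟩
  all_goals
    filter_upwards with n
    refine le_mul_of_one_le_left (Nat.cast_nonneg _) ?_
    exact Real.one_le_rpow_of_pos_of_le_one_of_nonpos (B'.pos n) (B'.lt n).le (by linarith)

end Crest.Agent.R136.WkM626
end

-- ▼ part R136/GauC1_66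

/-!
# R136 (helper66): T.L, the branch of large slope and the seam `SeamWin`

* `gwin_large` : record window with affine `F_b`, slope `≥ d'^ε` for all `ε` ⊢ `GWin`.
* `gwin_small` : small slope ⊢ `GWin`.
* **`seamWin_of`** : `HasRig` ⊢ `SeamWin`.
-/

set_option autoImplicit false
set_option linter.unusedVariables false

open Filter Topology Finset

namespace Crest.Agent.R136.Gau66

open Crest.Agent.R138.Ex926
open Crest.Agent.R136.Net191
open Crest.Agent.R136.NetQ186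
open Crest.Agent.R136.NatT550
open Crest.Agent.R136.NatR550
open Crest.Agent.R136.TopB550
open Crest.Agent.R136.Qg926
open Crest.Agent.R136.Zpr779
open Crest.Agent.R136.Gz779
open Crest.Agent.R136.TL196
open Crest.Agent.R136.LdF3511
open Crest.Agent.R136.WkM626 (rig_classes gwin_of_rel gwin_flat zwin_light_shift tight_shift F_y2)
open Crest.Agent.R136.Wk323 (TightX)
open Crest.Agent.R138.Dp76 (Dense)

/-- one sequence `e → 0` for all `ε` -/
theorem diag_eps (P : ℝ → ℕ → Prop) (h : ∀ ε : ℝ, 0 < ε → ∀ᶠ n in (U : Filter ℕ), P ε n) :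
    ∃ e : ℕ → ℝ, (∀ n, 0 < e n) ∧ Tendsto e U (𝓝 0) ∧ ∀ᶠ n in (U : Filter ℕ), P (e n) n := by
  obtain ⟨k, hk, hk2⟩ := exists_diag (fun j n => P (1 / ((j : ℝ) + 1)) n)
    (fun j => h _ (by positivity))
  exact ⟨fun n => 1 / ((k n : ℝ) + 1), fun n => by positivity,
    tendsto_one_div_add_atTop_nhds_zero_nat.comp hk, hk2.mono fun n hn => hn _ le_rfl⟩

/-- a dense part: one loss sequence -/
theorem sub_of_dense {B : Base} {J J' : ℕ → Finset (ℕ × ℝ)} (h : Dense B J' J) :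
    ∃ S : ℕ → ℝ, B.Sub S ∧ ∀ᶠ n in (U : Filter ℕ), ((J n).card : ℝ) ≤ S n * ((J' n).card : ℝ) := by
  obtain ⟨e, -, he, h2⟩ := diag_eps _ h.2
  refine ⟨fun n => B.d n ^ (-(e n)), sub_rpow he, ?_⟩
  filter_upwards [h2] with n hn
  have hp : 0 < B.d n ^ e n := Real.rpow_pos_of_pos (B.pos n) _
  rw [Real.rpow_neg (B.pos n).le, inv_mul_eq_div, le_div_iff₀ hp]
  linarith

/-- sub-polynomial: upper bound -/
theorem sub_le {B : Base} {S : ℕ → ℝ} (hS : B.Sub S) {ε : ℝ} (hε : 0 < ε) :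
    ∀ᶠ n in (U : Filter ℕ), S n ≤ B.d n ^ (-ε) := by
  filter_upwards [hS.ev_le hε] with n h4
  rw [← B.exp_eq, ← Real.log_le_iff_le_exp h4.1]
  exact h4.2

/-- one coarse label per fine class: sequences -/
theorem popular_seq {α β γ : Type*} [DecidableEq α] [DecidableEq β] [DecidableEq γ]
    {J : ℕ → Finset α} {f : ℕ → α → β} {g : ℕ → α → γ} {N : ℝ}
    (h : ∀ᶠ n in (U : Filter ℕ), ∀ s ∈ J n,
      (((cls (J n) (f n) s).image (g n)).card : ℝ) ≤ N) :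
    ∃ J' : ℕ → Finset α, (∀ n, J' n ⊆ J n) ∧
      ∀ᶠ n in (U : Filter ℕ), ((J n).card : ℝ) ≤ N * ((J' n).card : ℝ) ∧
        ∀ x ∈ J' n, ∀ y ∈ J' n, f n x = f n y → g n x = g n y := by
  classical
  set J2 : ℕ → Finset α := fun n =>
    if h : ∀ s ∈ J n, (((cls (J n) (f n) s).image (g n)).card : ℝ) ≤ N then
      (popular_fs (J n) (f n) (g n) h).choose else ∅ with hJ2
  refine ⟨J2, fun n => ?_, ?_⟩
  · by_cases h : ∀ s ∈ J n, (((cls (J n) (f n) s).image (g n)).card : ℝ) ≤ N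
    · have e : J2 n = (popular_fs (J n) (f n) (g n) h).choose := dif_pos h
      rw [e]; exact (popular_fs (J n) (f n) (g n) h).choose_spec.1
    · have e : J2 n = ∅ := dif_neg h
      rw [e]; exact empty_subset _
  · filter_upwards [h] with n h
    have e : J2 n = (popular_fs (J n) (f n) (g n) h).choose := dif_pos h
    rw [e]; exact (popular_fs (J n) (f n) (g n) h).choose_spec.2

section

variable {η : ℝ} {c : LCtx}

/-- exponents of the interior class base -/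
theorem Y_tightX (ok : c.Ok η) (z : ℝ × ℝ) (ξ w : ℝ) : TightX (c.X ξ + w • yI c z) := by
  have hL : c.p.θ 2 - c.p.θ 0 = 1 := ok.pat.2.2.1
  have hL2 : c.p.θ 2 = 2 * c.p.θ 1 := ok.pat.2.2.2
  constructor <;>
    simp only [LCtx.X, nat4, yI, tN, LCtx.ρ, nL, Pi.add_apply, Pi.smul_apply, smul_eq_mul,
      Matrix.cons_val] <;> ring

theorem bT_eq (T1 : ℝ) : bT T1 = (-T1) • eN := by
  funext k
  fin_cases k <;> simp [bT, eN, nL] <;> ring

theorem eN_mem (s : ℝ) : s • eN ∈ coneN := by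
  have h : s • eN = bT (-s) := by rw [bT_eq, neg_neg]
  rw [h]
  exact bT_mem _

/-- **large slope** -/
theorem gwin_large (ok : c.Ok η) (hRig : HasRig c) {B' : Base} {J : ℕ → Finset (ℕ × ℝ)}
    {ξ w : ℕ → ℝ} {lam lo : (Fin 11 → ℝ) → ℝ} {g : ℕ → ℕ × ℝ → ℕ × ℝ} {mu be : ℕ → ℕ × ℝ → ℝ}
    (A : AffW c B' J ξ w lam lo g mu be)
    (hlg : ∀ ε : ℝ, 0 < ε → ∀ᶠ n in (U : Filter ℕ), ∀ i ∈ J n,
      B'.d n ^ ε * c.D.B.d n ^ (c.X (ξ n) 3) ≤ |mu n (g n i)| * c.D.B.d n ^ (c.X (ξ n) 0))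
    {T1 x : ℝ} (hx : 0 < x) (H : ℕ → ℕ → ℝ) (hH : ∀ i, B'.Sub (H i)) :
    ∃ (B2 : Base) (J2 : ℕ → Finset (ℕ × ℝ)) (ξ2 w2 : ℕ → ℝ) (lam2 lo2 : (Fin 11 → ℝ) → ℝ)
      (Cl : ℕ → Finset (ℕ × ℝ)) (s₀ : ℕ → ℕ × ℝ) (h : ℕ → Fin 6 → ℝ) (ηg : ℕ → ℝ),
      GWin c T1 x B2 J2 ξ2 w2 lam2 lo2 Cl Cl s₀ h ηg ∧ ∀ i, B2.Sub (H i) := by
  classical
  obtain ⟨ξ₀, ξ', h', RJ⟩ := A.rj
  obtain ⟨z, hz, kk, kpos, k0, lamI, a, m, tI, LF⟩ := hRig _ _ _ _ _ RJ
  obtain ⟨φ, hφ, lamR, loR, tR, tRo⟩ := RJ.next ok (fun _ => z.2) kpos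
  have tI' : IsTan coneN coneN lam (fun _ => yI c z) (fun l => kk (φ l)) lamI :=
    tan_subseq tI hφ.tendsto_atTop
  have kk0 : Tendsto (fun l => kk (φ l)) atTop (𝓝 0) := k0.comp hφ.tendsto_atTop
  obtain ⟨ψ0, hψ0⟩ := RJ.comp (s := fun _ => z.2) (S := |z.2|) (fun _ => le_rfl)
    (fun j => kpos (φ j)) kk0 tR tRo
  have RJR := hψ0 ψ0 (fun m => le_rfl)
  -- losses
  obtain ⟨S, hS, hslope⟩ := A.slope
  obtain ⟨e, e0, he, hlow⟩ := diag_eps _ hlg
  set s' : ℕ → ℕ → ℝ := fun i => match i with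
    | 0 => S
    | 1 => fun n => B'.d n ^ (-(e n))
    | i + 2 => H i with hs'
  have hs'sub : ∀ i, B'.Sub (s' i) := fun i => match i with
    | 0 => hS
    | 1 => sub_rpow he
    | i + 2 => hH i
  obtain ⟨k2, hk2, HT⟩ := exists_twin A.rw.win (xI := fun _ => yI c z)
    (xR := fun _ => z.2 • c.ρ) (b := max ‖yI c z‖ ‖z.2 • c.ρ‖)
    (fun _ => le_max_left _ _) (fun _ => le_max_right _ _) (h := fun l => kk (φ l))
    (fun l => kpos _) kk0 coneN_zero tI' tR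
    (hTo := fun n => Real.rpow_pos_of_pos (c.D.B.pos n) _) A.rw.oprof coneN_zero tRo s' hs'sub
  obtain ⟨B2, d2, L2, s2, ZI, ZR, OR⟩ := HT k2 hk2 (Eventually.of_forall fun n => le_rfl)
  have W2 := recW_zoom ok A.rw (RJR.facts ok) (σ := fun _ => z.2)
    (v := fun n => kk (φ (k2 n))) (S := |z.2|) (fun _ => le_rfl) (kk0.comp hk2)
    (fun n => subset_rfl) ZR OR
  have hH2 : ∀ i, B2.Sub (H i) := fun i => s2 (i + 2)
  have hS2 : B2.Sub S := s2 0
  have he2 : B2.Sub fun n => B'.d n ^ (-(e n)) := s2 1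
  set v : ℕ → ℝ := fun n => kk (φ (k2 n)) with hv
  have hv0 : ∀ n, 0 < v n := fun n => kpos _
  have hvt : Tendsto v U (𝓝 0) := kk0.comp hk2
  -- the interior window at the class base
  have ZI' := zwin_light_shift ZI LF (τ := -T1) fun p hp => coneN_add (eN_mem _) hp
  set w2 : ℕ → ℝ := fun n => w n * v n with hw2
  set ξ2 : ℕ → ℝ := fun n => ξ n + w n * z.2 with hξ2
  set Y : ℕ → Fin 11 → ℝ := fun n => c.X (ξ n) + w n • yI c z + w2 n • ((-T1) • eN)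
    with hY
  have hw0 : ∀ n, 0 < w n := A.rw.win.w0
  have hXk : ∀ n k, c.X (ξ2 n) k = c.X (ξ n) k + w n * z.2 * c.ρ k := fun n k => by
    rw [hξ2]; simp only [← X_add, Pi.add_apply, Pi.smul_apply, smul_eq_mul]
  have hXB : ∀ n k, c.XB T1 ξ2 w2 n k = Y n k + w n * (-z.1) * tN k := fun n k => by
    have e : c.XB T1 ξ2 w2 n k = c.X (ξ2 n) k + w2 n * (bT T1) k := rfl
    rw [e, hXk, bT_eq, hY]
    simp only [yI, Pi.add_apply, Pi.smul_apply, smul_eq_mul]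
    ring
  have ρ3 : c.ρ 3 = 1 := by
    have hL : c.p.θ 2 - c.p.θ 0 = 1 := ok.pat.2.2.1
    simp only [LCtx.ρ, nL, Matrix.cons_val]
    linear_combination hL
  have hY0 : ∀ n, Y n 0 = c.X (ξ n) 3 + w n * (z.1 + z.2) := fun n => by
    have e : Y n 0 = (c.X (ξ n) + w n • yI c z) 0 + w2 n * ((-T1) * eN 0) := rfl
    have e0 : eN 0 = 0 := rfl
    rw [e, Y_zero, X_three ok, e0]; ring
  have hY3 : ∀ n, Y n 3 = c.X (ξ n) 3 + w n * (z.1 + z.2) := fun n => by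
    have e : Y n 3 = (c.X (ξ n) + w n • yI c z) 3 + w2 n * ((-T1) * eN 3) := rfl
    have e0 : eN 3 = 0 := rfl
    rw [e, Y_three ok, X_three ok, e0]; ring
  have hB0 : ∀ n, c.XB T1 ξ2 w2 n 0 = c.X (ξ n) 3 + w n * z.2 := fun n => by
    have e0 : tN 0 = 1 := rfl
    rw [hXB, hY0, e0]; ring
  have hB3 : ∀ n, c.XB T1 ξ2 w2 n 3 = c.X (ξ n) 3 + w n * z.2 := fun n => by
    have e0 : tN 3 = 1 := rfl
    rw [hXB, hY3, e0]; ring
  have hBs : ∀ n k, tN k = 0 → c.XB T1 ξ2 w2 n k = Y n k := fun n k hk => by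
    rw [hXB, hk, mul_zero, add_zero]
  have hB2 : ∀ n, c.XB T1 ξ2 w2 n 2 = Y n 2 := fun n => hBs n 2 rfl
  have hB5 : ∀ n, c.XB T1 ξ2 w2 n 5 = Y n 5 := fun n => hBs n 5 rfl
  have hB6 : ∀ n, c.XB T1 ξ2 w2 n 6 = Y n 6 := fun n => hBs n 6 rfl
  have tN0 : ∀ k, 0 ≤ tN k := fun k => by fin_cases k <;> simp [tN]
  have hle : ∀ n, Y n ≤ c.XB T1 ξ2 w2 n := fun n k => by
    rw [hXB]
    have := mul_nonneg (mul_nonneg (hw0 n).le (neg_nonneg.2 hz.le)) (tN0 k)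
    linarith
  -- slope and precision in the new units
  have hmub : ∀ᶠ n in (U : Filter ℕ), ∀ i ∈ J n,
      B'.d n ^ (e n) ≤ |mu n (g n i)| ∧ |mu n (g n i)| ≤ S n := by
    filter_upwards [hlow, hslope] with n h1 h2 i hi
    have h3 := h1 i hi
    have h4 := h2 i hi
    have e03 : c.X (ξ n) 0 = c.X (ξ n) 3 := by rw [X_zero, X_three ok]
    rw [e03] at h3 h4
    have hp := Real.rpow_pos_of_pos (c.D.B.pos n) (c.X (ξ n) 3)
    exact ⟨le_of_mul_le_mul_right h3 hp, le_of_mul_le_mul_right h4 hp⟩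
  have hmuε : ∀ ε : ℝ, 0 < ε → ∀ᶠ n in (U : Filter ℕ), ∀ i ∈ J n,
      B2.d n ^ ε ≤ |mu n (g n i)| ∧ |mu n (g n i)| ≤ B2.d n ^ (-ε) := by
    intro ε hε
    filter_upwards [hmub, sub_le hS2 hε, sub_le he2 hε] with n h1 h2 h3 i hi
    obtain ⟨h4, h5⟩ := h1 i hi
    refine ⟨le_trans ?_ h4, h5.trans h2⟩
    rw [Real.rpow_neg (B'.pos n).le, Real.rpow_neg (B2.pos n).le] at h3
    exact (inv_le_inv₀ (Real.rpow_pos_of_pos (B'.pos n) _)
      (Real.rpow_pos_of_pos (B2.pos n) _)).1 h3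
  have haffK : ∀ t ε : ℝ, ∀ᶠ n in (U : Filter ℕ), ∀ i ∈ J n,
      |(c.F n i).fb - be n (g n i) - mu n (g n i) * (c.F n i).z| ≤
        B2.d n ^ (x - ε) * c.D.B.d n ^ (c.X (ξ n) 3 + w n * t) := by
    intro t ε
    have h1 : Tendsto (fun n => v n * (x - ε)) U (𝓝 (0 * (x - ε))) := hvt.mul_const _
    rw [zero_mul] at h1
    filter_upwards [A.aff (|t| + 1), h1.eventually_lt_const one_pos] with n h2 h3 i hi
    refine (h2 i hi).trans ?_
    have h4 : B'.d n ^ (|t| + 1) ≤ B'.d n ^ (v n * (x - ε) + t) :=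
      Real.rpow_le_rpow_of_exponent_ge (B'.pos n) (B'.lt n).le (by
        have := le_abs_self t
        linarith)
    have e1 : B2.d n ^ (x - ε) * c.D.B.d n ^ (c.X (ξ n) 3 + w n * t) =
        B'.d n ^ (v n * (x - ε) + t) * c.D.B.d n ^ (c.X (ξ n) 3) := by
      have e2 : c.D.B.d n ^ (w n * t) = B'.d n ^ t := by
        rw [A.rw.win.base n, ← Real.rpow_mul (c.D.B.pos n).le]
      have e3 : B2.d n ^ (x - ε) = B'.d n ^ (v n * (x - ε)) := by
        rw [d2, ← Real.rpow_mul (B'.pos n).le]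
      rw [Real.rpow_add (c.D.B.pos n), Real.rpow_add (B'.pos n), e2, e3]
      ring
    rw [e1]
    exact mul_le_mul_of_nonneg_right h4 (Real.rpow_pos_of_pos (c.D.B.pos n) _).le
  -- one label `g` per interior class
  have hYe : ∀ n, Y n + w2 n • (0 : Fin 11 → ℝ) =
      c.X (ξ n) + w n • (yI c z + v n • ((-T1) • eN)) := fun n => by
    rw [smul_zero, add_zero, hY, hw2]
    simp only [smul_add, smul_smul]
    rw [add_assoc, mul_assoc]
  obtain ⟨N, hN, hfew⟩ := A.few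
  set f1 : ℕ → ℕ × ℝ → ℕ × ℝ := fun n => zlab c.D.B c.D.I (coF c.F) monQ 2 Y w2 n 0 with hf1
  have hf1e : ∀ n, f1 n = zlab c.D.B c.D.I (coF c.F) monQ 2 (fun n => c.X (ξ n)) w n
      (yI c z + v n • ((-T1) • eN)) := fun n => by
    show nlab c.D.B c.D.I (coF c.F) monQ 2 n (Y n + w2 n • (0 : Fin 11 → ℝ)) =
      nlab c.D.B c.D.I (coF c.F) monQ 2 n (c.X (ξ n) + w n • (yI c z + v n • ((-T1) • eN)))
    rw [hYe]
  have hv1 : ∀ᶠ n in (U : Filter ℕ), v n ≤ 1 :=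
    (hvt.eventually_lt_const one_pos).mono fun n hn => hn.le
  have hlab1 : ∀ᶠ n in (U : Filter ℕ), ∀ s ∈ J n,
      (((cls (J n) (f1 n) s).image (g n)).card : ℝ) ≤ N := by
    filter_upwards [hfew (‖yI c z‖ + ‖(-T1) • eN‖), hv1] with n hn h1 s hs
    rw [hf1e n]
    refine hn _ (coneN_add (yI_mem c z) (coneN_smul (eN_mem _) (hv0 n).le)) ?_ ?_ s hs
    · simp [yI, tN, LCtx.ρ, nL, eN]
    · refine (norm_add_le _ _).trans (add_le_add le_rfl ?_)
      rw [norm_smul (v n), Real.norm_of_nonneg (hv0 n).le]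
      exact mul_le_of_le_one_left (norm_nonneg _) h1
  obtain ⟨J1, hJ1s, hJ1p⟩ := popular_seq hlab1
  have hJ1d : ∀ᶠ n in (U : Filter ℕ), ((J n).card : ℝ) ≤ N * ((J1 n).card : ℝ) :=
    hJ1p.mono fun n hn => hn.1
  have hJ1ne := dense_ne (B := B2) A.rw.win.ne hJ1d
  have ZI1 := ZI'.refine (Eventually.of_forall hJ1s) hJ1ne
    (Base.Sub.const (by linarith) : B2.Sub fun _ => N) hJ1d
  -- the rigid leaf
  obtain ⟨J2, hJ2s, hJ2d, s0, e0', q0, hrig⟩ := rig_classes (fun _ => (0, 0)) (F := c.F) ZI1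
    (fun n i => F_y2 c n i) (Eventually.of_forall fun n => by
      have := tight_shift (Y_tightX ok z (ξ n) (w n)) (w2 n * (-T1))
      rwa [← smul_smul] at this) LF hx le_rfl monL_sub monL_one rfl (leg_monL_cone x) g mu be
    (hJ1p.mono fun n hn i hi j hj hl => hn.2 i hi j hj hl)
    (fun ε hε => by
      filter_upwards [hmuε ε hε] with n hn i hi
      obtain ⟨h1, h2⟩ := hn i (hJ1s n hi)
      have e03 : Y n 0 = Y n 3 := by rw [hY0, hY3]
      have hp := Real.rpow_pos_of_pos (c.D.B.pos n) (Y n 3)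
      rw [e03]
      exact ⟨mul_le_mul_of_nonneg_right h1 hp.le, mul_le_mul_of_nonneg_right h2 hp.le⟩)
    (fun ε hε => by
      filter_upwards [haffK (z.1 + z.2) ε] with n hn i hi
      have h1 := hn i (hJ1s n hi)
      rw [← hY3] at h1
      exact h1)
  obtain ⟨S', hS', hd'⟩ := sub_of_dense hJ2d
  have hJ2ne := dense_ne (B := B2) hJ1ne hd'
  -- one interior class per record class
  set fR : ℕ → ℕ × ℝ → ℕ × ℝ := fun n =>
    zlab c.D.B c.D.I (coF c.F) monQ 2 (c.XB T1 ξ2 w2) w2 n 0 with hfR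
  have hlab2 : ∀ᶠ n in (U : Filter ℕ), ∀ s ∈ J2 n,
      (((cls (J2 n) (fR n) s).image (f1 n)).card : ℝ) ≤ max 1 (cN monQ 2 (cK0 monQ 2)) := by
    filter_upwards [ZI'.legal 0, W2.win.legal ‖bT T1‖, W2.win.sub] with n n1 n2 n3 s hs
    refine le_trans ?_ (le_max_right _ _)
    have l1 := n1 0 coneN_zero (by rw [norm_zero])
    have l2 := n2 (bT T1) (bT_mem T1) le_rfl
    have l3 : Legal monQ (c.XB T1 ξ2 w2 n + w2 n • (0 : Fin 11 → ℝ)) := by
      rw [smul_zero, add_zero]; exact l2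
    exact few_labels W2.win.chart l1 l3 (by rw [smul_zero, add_zero, add_zero]; exact hle n)
      (((hJ2s n).trans (hJ1s n)).trans n3) hs
  obtain ⟨J3, hJ3s, hJ3p⟩ := popular_seq hlab2
  have hJ3d : ∀ᶠ n in (U : Filter ℕ), ((J2 n).card : ℝ) ≤
      max 1 (cN monQ 2 (cK0 monQ 2)) * ((J3 n).card : ℝ) := hJ3p.mono fun n hn => hn.1
  have hsub : ∀ n, J3 n ⊆ J n := fun n => ((hJ3s n).trans (hJ2s n)).trans (hJ1s n)
  have hM0 : (0 : ℝ) < max 1 (cN monQ 2 (cK0 monQ 2)) := lt_of_lt_of_le one_pos (le_max_left _ _)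
  have W3 := W2.refine (Eventually.of_forall hsub) (dense_ne (B := B2) hJ2ne hJ3d)
    (S := fun n => N * (S' n * max 1 (cN monQ 2 (cK0 monQ 2))))
    ((Base.Sub.const (by linarith)).mul (hS'.mul (Base.Sub.const hM0))) (by
      have hS'0 : ∀ᶠ n in (U : Filter ℕ), 0 ≤ S' n := (hS'.ev_le one_pos).mono fun n hn => hn.1.le
      filter_upwards [hJ1d, hd', hJ3d, hS'0] with n n1 n2 n3 n4
      calc ((J n).card : ℝ) ≤ N * ((J1 n).card : ℝ) := n1
        _ ≤ N * (S' n * ((J2 n).card : ℝ)) := mul_le_mul_of_nonneg_left n2 (by linarith)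
        _ ≤ N * (S' n * (max 1 (cN monQ 2 (cK0 monQ 2)) * ((J3 n).card : ℝ))) :=
            mul_le_mul_of_nonneg_left (mul_le_mul_of_nonneg_left n3 n4) (by linarith)
        _ = _ := by ring)
  obtain ⟨Cl, s₀, h, ηg, hG⟩ := gwin_of_rel (x := x) ok (T1 := T1) W3
    (f := fun n i => (f1 n i, g n i)) (s0 := fun n l => s0 n l.1) (e0 := fun n l => e0' n l.1)
    (q0 := fun n l => q0 n l.1) (be := fun n l => be n l.2) (mu := fun n l => mu n l.2)
    (by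
      filter_upwards [hJ3p, hJ1p] with n n1 n2 i hi j hj hl
      have h1 : f1 n i = f1 n j := n1.2 i hi j hj hl
      have h2 : g n i = g n j := n2.2 i (hJ2s n (hJ3s n hi)) j (hJ2s n (hJ3s n hj)) h1
      rw [h1, h2])
    (fun ε hε => by
      filter_upwards [hmuε ε hε] with n hn i hi
      have h1 := (hn i (hsub n hi)).2
      rw [hB0, hB3]
      exact mul_le_mul_of_nonneg_right h1 (Real.rpow_pos_of_pos (c.D.B.pos n) _).le)
    (fun ε hε => by
      filter_upwards [hrig ε hε] with n hn i hi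
      have h1 := (hn i (hJ3s n hi)).1
      rw [hB5, hB2]
      exact h1)
    (fun ε hε => by
      filter_upwards [hrig ε hε, haffK z.2 ε] with n hn hn2 i hi
      obtain ⟨-, h1⟩ := hn i (hJ3s n hi)
      have h2 := hn2 i (hsub n hi)
      rw [hB2, hB6, hB3]
      exact ⟨h1.str, h1.hE, h1.hC, by rw [← sub_sub]; exact h2⟩)
  exact ⟨B2, J3, ξ2, w2, lamR, loR, Cl, s₀, h, ηg, hG, hH2⟩

/-- **small slope** -/
theorem gwin_small (ok : c.Ok η) {B' : Base} {J : ℕ → Finset (ℕ × ℝ)}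
    {ξ w : ℕ → ℝ} {lam lo : (Fin 11 → ℝ) → ℝ} {g : ℕ → ℕ × ℝ → ℕ × ℝ} {mu be : ℕ → ℕ × ℝ → ℝ}
    (A : AffW c B' J ξ w lam lo g mu be) {m : ℝ} (hm : 0 < m)
    (hsm : ∀ᶠ n in (U : Filter ℕ), ∀ i ∈ J n, |mu n (g n i)| * c.D.B.d n ^ (c.X (ξ n) 0) ≤
      B'.d n ^ m * c.D.B.d n ^ (c.X (ξ n) 3)) (T1 x : ℝ) (H : ℕ → ℕ → ℝ)
    (hH : ∀ i, B'.Sub (H i)) :
    ∃ (B2 : Base) (J2 : ℕ → Finset (ℕ × ℝ)) (ξ2 w2 : ℕ → ℝ) (lam2 lo2 : (Fin 11 → ℝ) → ℝ)
      (Cl : ℕ → Finset (ℕ × ℝ)) (s₀ : ℕ → ℕ × ℝ) (h : ℕ → Fin 6 → ℝ) (ηg : ℕ → ℝ),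
      GWin c T1 x B2 J2 ξ2 w2 lam2 lo2 Cl Cl s₀ h ηg ∧ ∀ i, B2.Sub (H i) := by
  obtain ⟨B2, J2, ξ2, w2, lam2, lo2, W, hH2, hfb⟩ := small_rec ok A hm hsm T1 H hH
  obtain ⟨Cl, s₀, h, ηg, hG⟩ := gwin_flat (x := x) ok (T1 := T1) W fun ε _ => hfb (x - ε)
  exact ⟨B2, J2, ξ2, w2, lam2, lo2, Cl, s₀, h, ηg, hG, hH2⟩

theorem xz_pos (θ : ℝ) : 0 < xz θ := by
  have h1 : 1 ≤ T1z θ := le_max_left _ _
  unfold xz
  linarith

/-- **the seam** of the gauge stage of T.L, from the interior point with rigid numbers -/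
theorem seamWin_of {η : ℝ} (hR : ∀ c : LCtx, c.Ok η → HasRig c) : SeamWin η := by
  intro c ok H hH
  obtain ⟨B', J, ξ, w, lam, lo, g, mu, be, A, hH'⟩ := exists_affW ok (hR c ok) H hH
  have h2 : B'.Sub fun _ => (2 : ℝ) := Base.Sub.const two_pos
  rcases A.fork with ⟨m, hm, J', hs, hd, hsm⟩ | ⟨J', hs, hd, hlg⟩
  · obtain ⟨B2, J2, ξ2, w2, lam2, lo2, Cl, s₀, h, ηg, hG, hH2⟩ :=
      gwin_small ok (A.refine hs h2 hd) hm hsm (T1z (c.p.θ 1)) (xz (c.p.θ 1)) H hH'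
    exact ⟨B2, J2, ξ2, w2, lam2, lo2, Cl, Cl, s₀, h, ηg, hG, hH2⟩
  · obtain ⟨B2, J2, ξ2, w2, lam2, lo2, Cl, s₀, h, ηg, hG, hH2⟩ :=
      gwin_large ok (hR c ok) (A.refine hs h2 hd) hlg (T1 := T1z (c.p.θ 1))
        (x := xz (c.p.θ 1)) (xz_pos _) H hH'
    exact ⟨B2, J2, ξ2, w2, lam2, lo2, Cl, Cl, s₀, h, ηg, hG, hH2⟩

end

end Crest.Agent.R136.Gau66
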