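import Crest.Agent.R136.NatR_550
import Crest.Agent.R136.K2U_774

/-!
# R136, case F (slot 21 tied, 31 and 32 not): slot arithmetic of the three planes (helper511)

Coordinates `(v, t)` of a plane, `κ = θ 1 - θ 2`, `s` = `v`-slope of `N`, `b` = `t`-slope of `N`:
`X (xF w0 R1) (aF κ s) (bF b) (v, t) = nat4 w0 R1 v t (κ v + t) ((s - 1) v + b t)`.
Record line `t = - θ 1 v`, it lies in the plane iff `b = bR θ s = (s - 1 + θ 0) / θ 1`.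
Slots: `0` z, `1` R, `2` E, `3` F_b, `4` F_a, `5` C_a, `6` C_b, `7` P, `8` X_a, `9` X_b, `10` N.

* `X_F`, `srf_F`, `path_F` : the plane, 550's `srf`, the record line
* `walls_F`, `W10`, `memL_F`, `memO_F` : the ten walls are equalities, the cone, the open set `O`
* `dropF`, `xD`, `memL_D`, `memO_D` : the same with a set of dropped slots (constant, slope `(0,0)`)
* `dirS_nonneg` : all planes with `v`-slopes `≥ 0` give `DirS` (group `none` = `v`-slope `0`)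
* `DQ_F`, `muF`, `DQ_ray` : density exponent along the ray
* `slots_pos`, `memPD_F` : room and membership in `PD` near the record line
-/

set_option autoImplicit false
set_option linter.unusedVariables false

open Finset Filter Topology

namespace Crest.Agent.R136.LdF511

open Crest.Agent.R136.Net191
open Crest.Agent.R136.NetQ186
open Crest.Agent.R136.Wq638
open Crest.Agent.R136.NatT550
open Crest.Agent.R136.NatR550 (nL coneN DN nat_dmax rec_ge)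
open Crest.Agent.R136.Top484
open Crest.Agent.R136.Dgs413
open Dg262 (X)
open Dg219 (mw mem_mwL mem_mwO Walls Tn det2)
open K2S774 (pt)

/-! ### the plane -/

/-- base point of the natural planes -/
def xF (w0 R1 : ℝ) : Fin 11 → ℝ :=
  ![w0, R1, w0, w0, 2 * w0, w0, 2 * w0, 3 * w0, 2 * w0, 3 * w0, 4 * w0]

/-- `v`-slopes -/
def aF (κ s : ℝ) : Fin 11 → ℝ :=
  ![1, 0, κ, s - 1 - κ, s - 1, 0, κ, s - 1, 1, 1 + κ, s]

/-- `t`-slopes -/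
def bF (b : ℝ) : Fin 11 → ℝ := ![0, 0, 0, b - 1, b - 1, 1, 1, b, 1, 1, b]










/-! ### walls -/

/-- the ten walls without `P ≤ z + R`, on vectors of exponents -/
def W10 : Set (Fin 11 → ℝ) := {c | c 4 ≤ c 2 + c 3 ∧ c 6 ≤ c 2 + c 5 ∧ c 7 ≤ c 4 + c 5 ∧
  c 7 ≤ c 3 + c 6 ∧ c 8 ≤ c 0 + c 5 ∧ c 9 ≤ c 0 + c 6 ∧ c 9 ≤ c 2 + c 8 ∧ c 10 ≤ c 0 + c 7 ∧
  c 10 ≤ c 4 + c 8 ∧ c 10 ≤ c 3 + c 9}


/-! ### the walls of `monQ` one by one -/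

theorem sm (e : Fin 11 → ℕ) (c : Fin 11 → ℝ) : ∑ s, (e s : ℝ) * c s = e 0 * c 0 + e 1 * c 1 +
    e 2 * c 2 + e 3 * c 3 + e 4 * c 4 + e 5 * c 5 + e 6 * c 6 + e 7 * c 7 + e 8 * c 8 +
    e 9 * c 9 + e 10 * c 10 := by
  simp [Fin.sum_univ_succ]
  ring

/-- all monomials of `monQ` -/
theorem monQ_all (φ : Fin 11 → (Fin 11 → ℕ) → Prop) : (∀ k, ∀ e ∈ monQ.mon k, φ k e) ↔
    φ 4 ![0, 0, 1, 1, 0, 0, 0, 0, 0, 0, 0] ∧
    φ 6 ![0, 0, 1, 0, 0, 1, 0, 0, 0, 0, 0] ∧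
    φ 7 ![1, 1, 0, 0, 0, 0, 0, 0, 0, 0, 0] ∧
    φ 7 ![0, 0, 0, 0, 1, 1, 0, 0, 0, 0, 0] ∧
    φ 7 ![0, 0, 1, 1, 0, 1, 0, 0, 0, 0, 0] ∧
    φ 7 ![0, 0, 0, 1, 0, 0, 1, 0, 0, 0, 0] ∧
    φ 8 ![1, 0, 0, 0, 0, 1, 0, 0, 0, 0, 0] ∧
    φ 9 ![1, 0, 0, 0, 0, 0, 1, 0, 0, 0, 0] ∧
    φ 9 ![0, 0, 1, 0, 0, 0, 0, 0, 1, 0, 0] ∧
    φ 9 ![1, 0, 1, 0, 0, 1, 0, 0, 0, 0, 0] ∧
    φ 10 ![1, 0, 0, 0, 0, 0, 0, 1, 0, 0, 0] ∧
    φ 10 ![2, 1, 0, 0, 0, 0, 0, 0, 0, 0, 0] ∧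
    φ 10 ![0, 0, 0, 0, 1, 0, 0, 0, 1, 0, 0] ∧
    φ 10 ![0, 0, 1, 1, 0, 0, 0, 0, 1, 0, 0] ∧
    φ 10 ![1, 0, 0, 0, 1, 1, 0, 0, 0, 0, 0] ∧
    φ 10 ![1, 0, 1, 1, 0, 1, 0, 0, 0, 0, 0] ∧
    φ 10 ![0, 0, 0, 1, 0, 0, 0, 0, 0, 1, 0] ∧
    φ 10 ![1, 0, 0, 1, 0, 0, 1, 0, 0, 0, 0] := by
  constructor
  · intro h
    refine ⟨h 4 _ ?_, h 6 _ ?_, h 7 _ ?_, h 7 _ ?_, h 7 _ ?_, h 7 _ ?_, h 8 _ ?_, h 9 _ ?_,
      h 9 _ ?_, h 9 _ ?_, h 10 _ ?_, h 10 _ ?_, h 10 _ ?_, h 10 _ ?_, h 10 _ ?_, h 10 _ ?_,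
      h 10 _ ?_, h 10 _ ?_⟩ <;> simp [monQ, mfQ]
  · rintro ⟨h1, h2, h3, h4, h5, h6, h7, h8, h9, h10, h11, h12, h13, h14, h15, h16, h17, h18⟩ k e he
    fin_cases k <;> simp only [monQ, mfQ, Matrix.cons_val, Fin.zero_eta, Fin.mk_one,
      Fin.reduceFinMk, Fin.isValue, Finset.notMem_empty, Finset.mem_insert,
      Finset.mem_singleton] at he
    · subst he; exact h1
    · subst he; exact h2
    · rcases he with rfl | rfl | rfl | rfl <;> assumption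
    · subst he; exact h7
    · rcases he with rfl | rfl | rfl <;> assumption
    · rcases he with rfl | rfl | rfl | rfl | rfl | rfl | rfl | rfl <;> assumption

/-- the ten walls imply all walls without the slot `1` -/
theorem W10_all {c : Fin 11 → ℝ} (h : c ∈ W10) (x : ℝ) :
    (c 4 ≤ c 2 + c 3 ∧ c 6 ≤ c 2 + c 5 ∧ c 7 ≤ c 4 + c 5 ∧ c 7 ≤ c 2 + c 3 + c 5 ∧
      c 7 ≤ c 3 + c 6 ∧ c 8 ≤ c 0 + c 5 ∧ c 9 ≤ c 0 + c 6 ∧ c 9 ≤ c 2 + c 8 ∧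
      c 9 ≤ c 0 + c 2 + c 5) ∧ (c 10 ≤ c 0 + c 7 ∧ c 10 ≤ c 4 + c 8 ∧ c 10 ≤ c 2 + c 3 + c 8 ∧
      c 10 ≤ c 0 + c 4 + c 5 ∧ c 10 ≤ c 0 + c 2 + c 3 + c 5 ∧ c 10 ≤ c 3 + c 9 ∧
      c 10 ≤ c 0 + c 3 + c 6) := by
  obtain ⟨h1, h2, h3, h4, h5, h6, h7, h8, h9, h10⟩ := h
  refine ⟨⟨?_, ?_, ?_, ?_, ?_, ?_, ?_, ?_, ?_⟩, ⟨?_, ?_, ?_, ?_, ?_, ?_, ?_⟩⟩ <;> linarith

/-- closes the equations of active walls -/
local macro "wl" : tactic => `(tactic|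
  (rw [sm]; simp only [xF, aF, bF, Matrix.cons_val]; push_cast; ring))





/-! ### decoupling data -/

section dir

variable {ι : Type*}











end dir

/-! ### the same slopes in 550's names -/





/-! ### dropped slots (cone planes): rung (ii) `{3}`, rung (iii) `{3, 4, 7}` -/

/-- base point of rung (ii): `F_b` at `8 M`, slot `1` at `M1` -/
def x2 (M M1 : ℝ) : Fin 11 → ℝ := ![0, M1, 0, 8 * M, 0, 0, 0, 0, 0, 0, 0]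
/-- `v`-slopes of rung (ii), `s = 1` -/
def a2 (κ : ℝ) : Fin 11 → ℝ := ![1, 0, κ, 0, 0, 0, κ, 0, 1, 1 + κ, 1]
/-- `t`-slopes of rung (ii) -/
def b2 (b : ℝ) : Fin 11 → ℝ := ![0, 0, 0, 0, b - 1, 1, 1, b, 1, 1, b]
/-- base point of rung (iii): `F_b`, `F_a`, `P` at `8 M`, `7 M`, `4 M`, slot `1` at `M1` -/
def x3 (M M1 : ℝ) : Fin 11 → ℝ := ![0, M1, 0, 8 * M, 7 * M, 0, 0, 4 * M, 0, 0, 0]
/-- `v`-slopes of rung (iii) -/
def a3 (κ s : ℝ) : Fin 11 → ℝ := ![1, 0, κ, 0, 0, 0, κ, 0, 1, 1 + κ, s]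
/-- `t`-slopes of rung (iii) -/
def b3 (b : ℝ) : Fin 11 → ℝ := ![0, 0, 0, 0, 0, 1, 1, 0, 1, 1, b]









/-- the walls which are left on rung (ii) -/
def W7 : Set (Fin 11 → ℝ) := {c | c 6 ≤ c 2 + c 5 ∧ c 7 ≤ c 4 + c 5 ∧ c 8 ≤ c 0 + c 5 ∧
  c 9 ≤ c 0 + c 6 ∧ c 9 ≤ c 2 + c 8 ∧ c 10 ≤ c 0 + c 7 ∧ c 10 ≤ c 4 + c 8}


local macro "wl2" : tactic => `(tactic|
  (rw [sm]; simp only [x2, a2, b2, Matrix.cons_val]; push_cast; ring))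

local macro "wn2" h:ident : tactic => `(tactic|
  (exfalso; rw [sm] at $h:ident; simp only [x2, Matrix.cons_val] at $h:ident; push_cast at $h:ident;
   linarith))


local macro "wl3" : tactic => `(tactic|
  (rw [sm]; simp only [x3, a3, b3, Matrix.cons_val]; push_cast; ring))

local macro "wn3" h:ident : tactic => `(tactic|
  (exfalso; rw [sm] at $h:ident; simp only [x3, Matrix.cons_val] at $h:ident; push_cast at $h:ident;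
   linarith))


/-- strict wall of a dropped plane -/
local macro "ws" : tactic => `(tactic|
  (right; rw [sm]; simp only [Matrix.cons_val]; push_cast; linarith))



end Crest.Agent.R136.LdF511
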