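import Crest.Agent.R136.Fe1_355
import Crest.Agent.R136.Fe2_355
import Crest.Agent.R136.Lf1_400
import Crest.Agent.R136.Ev8_356
import Crest.Agent.R136.C2w_400
import Crest.Agent.R136.LdF1_511
import Crest.Agent.R136.AwJ_774
import Crest.Agent.R136.K2Y_774

-- ▼ part R136/Lv1_831
section

/-!
# R136, T.L, ending (Vis), F-half (helper831)

`NA` : model of a window with level slots `{z, F_a}`; `R`, `F_b` dropped (big constants), the own
motion of `E` invisible.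

* `NA.xa` : `X_a` is full;
* `NA.leaf` : `E` costs nothing up to `j` or the loss of `X_b` by `x` is `≥ x - j`;
* `NA.xb` : if `C_b` costs something given `E`, then `X_b` is full given `E`;
* `NA.shiftN` : loss of `X_a` given the rest `≤` loss of `N` given the rest (raw twist of `F_a`).
-/

set_option autoImplicit false
set_option linter.unusedVariables false
set_option linter.unusedSectionVars false

open Filter Topology Finset

namespace Crest.Agent.R136.Lv831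

open Crest.Agent.R138.Ex926 (Base U)
open Crest.Agent.R136.Gf356
open Crest.Agent.R136.Fe1355
open Crest.Agent.R136.Fe2355

/-- box vector: `E, C_a, C_b, P, X_a, X_b, N` -/
def bw (e ca cb p xa xb n : ℝ) : Fin 11 → ℝ := ![0, 0, e, 0, 0, ca, cb, p, xa, xb, n]

/-- evolution of the relative coordinates, error `δ` -/
structure EvA (δ u φ : ℝ) (r r' : Fin 11 → ℝ) : Prop where
  e2 : |r' 2 - r 2| ≤ δ
  e5 : |r' 5 - r 5| ≤ δ
  e6 : |r' 6 - r 6| ≤ δ
  e7 : |r' 7 - (r 7 - φ * r 5)| ≤ δ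
  e8 : |r' 8 - (r 8 + u * r 5)| ≤ δ
  e9 : |r' 9 - (r 9 + u * r 6)| ≤ δ
  e10 : |r' 10 - (r 10 + u * r 7 - φ * (r 8 + u * r 5))| ≤ δ

/-- composition of the relative coordinates at one height, error `δ` -/
structure CoA (δ : ℝ) (b c g : Fin 11 → ℝ) : Prop where
  c8 : |g 8 - b 8 - c 8| ≤ δ
  c9 : |g 9 - b 9 - c 9 - b 2 * c 8| ≤ δ

/-- **window with level slots `{z, F_a}`** -/
structure NA (B : Base) (G : ℕ → RCfg (Fin 11)) (Leg : Set (Fin 11 → ℝ))
    (ν : (Fin 11 → ℝ) → ℝ) (T D : ℝ) (F : ℕ → ℕ → ℝ) : Prop where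
  H : RModel B G 1 T Leg ν D
  T0 : 0 < T
  leg : ∀ e ca cb p xa xb n : ℝ, 0 ≤ e → e ≤ T → 0 ≤ ca → ca ≤ T →
    0 ≤ cb → cb ≤ T → 0 ≤ p → p ≤ T → 0 ≤ xa → xa ≤ T → 0 ≤ xb → xb ≤ T → 0 ≤ n → n ≤ T →
    cb ≤ e + ca → xb ≤ e + xa → bw e ca cb p xa xb n ∈ Leg
  zb : ∀ ε : ℝ, 0 < ε → ∀ᶠ n in (U : Filter ℕ), ∀ k ∈ (G n).Z, ∀ k' ∈ (G n).Z,
    |(G n).z k' - (G n).z k| ≤ B.d n ^ (-ε) ∧ |F n k' - F n k| ≤ B.d n ^ (-ε)
  rb : ∀ ε : ℝ, 0 < ε → ∀ᶠ n in (U : Filter ℕ), ∀ k i l, (i, k) ∈ (G n).I →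
    (l, k) ∈ (G n).I → ∀ s, |(G n).rel k i l s| ≤ B.d n ^ (-ε)
  ev : ∀ ε : ℝ, 0 < ε → ∀ᶠ n in (U : Filter ℕ), ∀ k k' i l, (i, k) ∈ (G n).I →
    (l, k) ∈ (G n).I → (i, k') ∈ (G n).I → (l, k') ∈ (G n).I →
    EvA (B.d n ^ (T - ε)) ((G n).z k' - (G n).z k) (F n k' - F n k) ((G n).rel k i l)
      ((G n).rel k' i l)
  co : ∀ ε : ℝ, 0 < ε → ∀ᶠ n in (U : Filter ℕ), ∀ k i l l', (i, k) ∈ (G n).I →
    (l, k) ∈ (G n).I → (l', k) ∈ (G n).I →
    CoA (B.d n ^ (T - ε)) ((G n).rel k i l) ((G n).rel k l l') ((G n).rel k i l')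

variable {B : Base} {G : ℕ → RCfg (Fin 11)} {Leg : Set (Fin 11 → ℝ)} {ν : (Fin 11 → ℝ) → ℝ}
  {T D : ℝ} {F : ℕ → ℕ → ℝ}

theorem bx2_X (p : Fin 11 → ℝ) (e ca cb pp xa xb n x c : ℝ)
    (hp : p = bw e ca cb pp xa xb n) :
    Fx940.bx2 p 8 5 x c = bw e c cb pp x xb n := by
  subst hp
  funext j
  fin_cases j <;> simp [Fx940.bx2, bw]

theorem bx2_Y (p : Fin 11 → ℝ) (e ca cb pp xa xb n x c : ℝ)
    (hp : p = bw e ca cb pp xa xb n) :
    Fx940.bx2 p 9 6 x c = bw e ca c pp xa x n := by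
  subst hp
  funext j
  fin_cases j <;> simp [Fx940.bx2, bw]

theorem lbx (u v w : ℝ) : Lf400.bx (bw 0 0 0 0 0 0 0) 8 2 9 u v w = bw v 0 0 0 u w 0 := by
  funext j
  fin_cases j <;> simp [Lf400.bx, bw]

theorem bw_zero (j : Fin 11) : bw 0 0 0 0 0 0 0 j = 0 := by fin_cases j <;> simp [bw]

theorem bw_le {e ca cb p xa xb n e' ca' cb' p' xa' xb' n' : ℝ} (h1 : e ≤ e') (h2 : ca ≤ ca')
    (h3 : cb ≤ cb') (h4 : p ≤ p') (h5 : xa ≤ xa') (h6 : xb ≤ xb') (h7 : n ≤ n') :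
    ∀ j, bw e ca cb p xa xb n j ≤ bw e' ca' cb' p' xa' xb' n' j := by
  intro j
  fin_cases j <;> simp [bw, *]

namespace NA

variable (h : NA B G Leg ν T D F)

include h

/-- **`X_a` is full** -/
theorem xa {y c : ℝ} (hy : 0 < y) (hyT : y ≤ T) (hc : 0 < c)
    (hs : ∀ t : ℝ, 0 ≤ t → t ≤ y →
      c * t ≤ ν (bw 0 0 0 0 t 0 0) - ν (bw 0 t 0 0 t 0 0))
    (hl : ∀ t : ℝ, 0 ≤ t → t ≤ y →
      ν (bw 0 0 0 0 t 0 0) - ν (bw 0 0 0 0 y 0 0) ≤ y - t) :
    y ≤ ν (bw 0 0 0 0 0 0 0) - ν (bw 0 0 0 0 y 0 0) := by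
  have hT := h.T0
  have L : ∀ t t' : ℝ, 0 ≤ t → t ≤ T → 0 ≤ t' → t' ≤ T → bw 0 t' 0 0 t 0 0 ∈ Leg :=
    fun t t' h1 h2 h3 h4 => h.leg 0 t' 0 0 t 0 0 le_rfl hT.le h3 h4 le_rfl hT.le
      le_rfl hT.le h1 h2 le_rfl hT.le le_rfl hT.le (by linarith) (by linarith)
  have e0 : ∀ x c : ℝ, Fx940.bx2 (bw 0 0 0 0 0 0 0) 8 5 x c = bw 0 c 0 0 x 0 0 :=
    fun x c => bx2_X _ 0 0 0 0 0 0 0 x c rfl
  have key := full_nl_R h.H (sX := 8) (sC := 5) (by decide) (p := bw 0 0 0 0 0 0 0)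
    (bw_zero 8) (bw_zero 5) (y := y) (C := 1) (m := c) hy hyT one_pos hc
    (L 0 0 le_rfl hT.le le_rfl hT.le)
    (by rw [e0]; exact L y 0 hy.le hyT le_rfl hT.le)
    (by intro t h1 h2; rw [e0]; exact L t t h1 (h2.trans hyT) h1 (h2.trans hyT))
    (by
      intro C' hC'
      refine ⟨1, one_pos, fun ε hε => ?_⟩
      filter_upwards [h.rb ε hε] with n hn k k' i l h1 h2 h3 h4 hlo j
      rw [h.H.base n]
      refine (hn k' i l h3 h4 j).trans (rpow_anti B n ?_)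
      rw [bw_zero]; linarith)
    (by
      intro ε hε
      filter_upwards [h.zb ε hε] with n hn k hk k' hk'
      rw [one_mul]
      exact (hn k hk k' hk').1)
    (by
      intro C' hC'
      refine ⟨1, one_pos, fun ε hε => ?_⟩
      filter_upwards [h.ev ε hε] with n hn k k' i l h1 h2 h3 h4 hlo
      refine (hn k k' i l h1 h2 h3 h4).e8.trans (rpow_anti B n (by linarith)))
    (by
      intro t h1 h2
      refine ⟨ν (bw 0 0 0 0 t 0 0), ?_, ?_, ?_⟩
      · rw [e0]; exact hs t h1 h2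
      · rw [e0]; exact hl t h1 h2
      · exact h.H.nu_anti (L 0 0 le_rfl hT.le le_rfl hT.le)
          (L t 0 h1 (h2.trans hyT) le_rfl hT.le)
          (bw_le le_rfl le_rfl le_rfl le_rfl h1 le_rfl le_rfl))
  rwa [e0] at key

/-- **`X_b` is full given `E`** if `C_b` costs something given `E` -/
theorem xb {y c : ℝ} (hy : 0 < y) (hyT : y ≤ T) (hc : 0 < c)
    (hs : ∀ t : ℝ, 0 ≤ t → t ≤ y →
      c * t ≤ ν (bw y 0 0 0 0 t 0) - ν (bw y 0 t 0 0 t 0))
    (hl : ∀ t : ℝ, 0 ≤ t → t ≤ y →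
      ν (bw y 0 0 0 0 t 0) - ν (bw y 0 0 0 0 y 0) ≤ y - t) :
    y ≤ ν (bw y 0 0 0 0 0 0) - ν (bw y 0 0 0 0 y 0) := by
  have hT := h.T0
  have L : ∀ t t' : ℝ, 0 ≤ t → t ≤ y → 0 ≤ t' → t' ≤ y → bw y 0 t' 0 0 t 0 ∈ Leg :=
    fun t t' h1 h2 h3 h4 => h.leg y 0 t' 0 0 t 0 hy.le hyT le_rfl hT.le h3
      (h4.trans hyT) le_rfl hT.le le_rfl hT.le h1 (h2.trans hyT) le_rfl hT.le (by linarith)
      (by linarith)
  have e0 : ∀ x c : ℝ, Fx940.bx2 (bw y 0 0 0 0 0 0) 9 6 x c = bw y 0 c 0 0 x 0 :=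
    fun x c => bx2_Y _ y 0 0 0 0 0 0 x c rfl
  have key := full_nl_R h.H (sX := 9) (sC := 6) (by decide) (p := bw y 0 0 0 0 0 0)
    (by simp [bw]) (by simp [bw]) (y := y) (C := 1) (m := c) hy hyT one_pos hc
    (L 0 0 le_rfl hy.le le_rfl hy.le)
    (by rw [e0]; exact L y 0 hy.le le_rfl le_rfl hy.le)
    (by intro t h1 h2; rw [e0]; exact L t t h1 h2 h1 h2)
    (by
      intro C' hC'
      refine ⟨C' + 2, by positivity, fun ε hε => ?_⟩
      filter_upwards [h.rb ε hε, h.ev ε hε, ev_const_le B hε 2]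
        with n hn he h2c k k' i l h1 h2 h3 h4 hlo j
      have hC'ε : 0 < C' * ε := by positivity
      rw [h.H.base n]
      by_cases hj : j = 2
      · subst hj
        have a1 := hlo 2
        rw [h.H.base n] at a1
        have a2 : bw y 0 0 0 0 0 0 2 = y := by simp [bw]
        rw [a2] at a1 ⊢
        have a3 := (he k k' i l h1 h2 h3 h4).e2
        have a4 : |(G n).rel k' i l 2| ≤ B.d n ^ (y - C' * ε) + B.d n ^ (T - ε) := by
          have e : (G n).rel k' i l 2 = ((G n).rel k' i l 2 - (G n).rel k i l 2) +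
              (G n).rel k i l 2 := by ring
          rw [e]
          have := abs_add_le ((G n).rel k' i l 2 - (G n).rel k i l 2) ((G n).rel k i l 2)
          linarith
        have a5 : B.d n ^ (T - ε) ≤ B.d n ^ (y - (C' + 1) * ε) := rpow_anti B n (by nlinarith)
        have a6 : B.d n ^ (y - C' * ε) ≤ B.d n ^ (y - (C' + 1) * ε) :=
          rpow_anti B n (by nlinarith)
        have a7 : B.d n ^ (y - (C' + 2) * ε) = B.d n ^ (-ε) * B.d n ^ (y - (C' + 1) * ε) := by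
          rw [← rpow_add']; congr 1; ring
        rw [a7]
        have := rpos B n (y - (C' + 1) * ε)
        nlinarith
      · refine (hn k' i l h3 h4 j).trans (rpow_anti B n ?_)
        have : bw y 0 0 0 0 0 0 j = 0 := by
          fin_cases j <;> simp [bw] at hj ⊢
        rw [this]; nlinarith)
    (by
      intro ε hε
      filter_upwards [h.zb ε hε] with n hn k hk k' hk'
      rw [one_mul]
      exact (hn k hk k' hk').1)
    (by
      intro C' hC'
      refine ⟨1, one_pos, fun ε hε => ?_⟩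
      filter_upwards [h.ev ε hε] with n hn k k' i l h1 h2 h3 h4 hlo
      refine (hn k k' i l h1 h2 h3 h4).e9.trans (rpow_anti B n (by linarith)))
    (by
      intro t h1 h2
      refine ⟨ν (bw y 0 0 0 0 t 0), ?_, ?_, ?_⟩
      · rw [e0]; exact hs t h1 h2
      · rw [e0]; exact hl t h1 h2
      · exact h.H.nu_anti (L 0 0 le_rfl hy.le le_rfl hy.le)
          (L t 0 h1 h2 le_rfl hy.le)
          (bw_le le_rfl le_rfl le_rfl le_rfl le_rfl h1 le_rfl))
  rwa [e0] at key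

/-- **crossing leaves**: `E : j` costs nothing or `X_b` loses at least `x - j` -/
theorem leaf {x j : ℝ} (hj : 0 ≤ j) (hjx : j ≤ x) (hxT : x ≤ T)
    (hX : x ≤ ν (bw x 0 0 0 0 x 0) - ν (bw x 0 0 0 x x 0)) :
    ν (bw 0 0 0 0 x x 0) ≤ ν (bw j 0 0 0 x x 0) ∨
      x + ν (bw 0 0 0 0 x x 0) ≤
        ν (bw 0 0 0 0 0 0 0) - ν (bw x 0 0 0 0 x 0) + ν (bw x 0 0 0 (x - j) x 0) := by
  have hT := h.T0
  have hx : 0 ≤ x := hj.trans hjx
  have L : ∀ v u w : ℝ, 0 ≤ v → v ≤ x → 0 ≤ u → u ≤ x → 0 ≤ w → w ≤ x → w ≤ v + u →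
      bw v 0 0 0 u w 0 ∈ Leg := by
    intro v u w h1 h2 h3 h4 h5 h6 h7
    exact h.leg v 0 0 0 u w 0 h1 (h2.trans hxT) le_rfl hT.le le_rfl hT.le le_rfl
      hT.le h3 (h4.trans hxT) h5 (h6.trans hxT) le_rfl hT.le (by linarith) h7
  have key := Lf400.leaf_R h.H.toRUnif (bw 0 0 0 0 0 0 0) (sX := 8) (sF := 2) (sN := 9)
    (by decide) (by decide) (by decide) hj hjx
    (by rw [lbx]; exact L 0 0 0 le_rfl hx le_rfl hx le_rfl hx (by linarith))
    (by rw [lbx]; exact L x 0 x hx le_rfl le_rfl hx hx le_rfl (by linarith))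
    (by rw [lbx]; exact L x x x hx le_rfl hx le_rfl hx le_rfl (by linarith))
    (by rw [lbx]; exact L 0 x x le_rfl hx hx le_rfl hx le_rfl (by linarith))
    (by rw [lbx]; exact L j 0 j hj hjx le_rfl hx hj hjx (by linarith))
    (by rw [lbx]; exact L j x x hj hjx hx le_rfl hx le_rfl (by linarith))
    (by rw [lbx]; exact L x (x - j) x hx le_rfl (by linarith) (by linarith) hx le_rfl
          (by linarith))
    (fun _ => 1)
    (by
      intro ε hε
      refine Filter.Eventually.of_forall fun n => ?_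
      rw [abs_one]
      refine ⟨?_, ?_⟩
      · have := rpow_anti B n hε.le
        rwa [Real.rpow_zero] at this
      · have := rpow_anti B n (show -ε ≤ 0 by linarith)
        rwa [Real.rpow_zero] at this)
    (C1 := 1) le_rfl
    (by
      intro ε hε
      filter_upwards [h.co ε hε] with n hn k i l l' h1 h2 h3 _ _
      refine (hn k i l l' h1 h2 h3).c8.trans (rpow_anti B n (by linarith)))
    (by
      intro ε hε
      filter_upwards [h.co ε hε] with n hn k i l l' h1 h2 h3 _ _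
      rw [one_mul]
      refine (hn k i l l' h1 h2 h3).c9.trans (rpow_anti B n (by linarith)))
  rw [lbx, lbx, lbx, lbx, lbx, lbx] at key
  rcases key with h1 | h1
  · left; linarith
  · right; linarith

/-- **visible shift**: loss of `X_a` given the rest is at most the loss of `N` given the rest -/
theorem shiftN {y : ℝ} (hy : 0 < y) (hyT : y ≤ T)
    (htw : RawTw B G fun n k k' => F n k' - F n k) :
    ν (bw y y y y 0 y y) - ν (bw y y y y y y y) ≤
      ν (bw y y y y 0 y 0) - ν (bw y y y y 0 y y) := by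
  have hT := h.T0
  have L : ∀ a b : ℝ, 0 ≤ a → a ≤ y → 0 ≤ b → b ≤ y → bw y y y y a y b ∈ Leg := by
    intro a b h1 h2 h3 h4
    exact h.leg y y y y a y b hy.le hyT hy.le hyT hy.le hyT hy.le hyT h1 (h2.trans hyT) hy.le
      hyT h3 (h4.trans hyT) (by linarith) (by linarith)
  have htw' : RawTw B G fun n k k' => -(F n k' - F n k) := by
    intro ε hε
    filter_upwards [htw ε hε] with n hn i hi T hT hT2
    exact hn i hi T hT fun q hq => by
      have := hT2 q hq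
      rwa [abs_neg] at this
  refine shift_R h.H (bw y y y y 0 y y) (bw y y y y y y y) (bw y y y y 0 y 0)
    (bw y y y y 0 y y) (L 0 y le_rfl hy.le hy.le le_rfl) (L y y hy.le le_rfl hy.le le_rfl)
    (L 0 0 le_rfl hy.le le_rfl hy.le) (L 0 y le_rfl hy.le hy.le le_rfl)
    (bw_le le_rfl le_rfl le_rfl le_rfl le_rfl le_rfl hy.le) 8 10 (y := y) (by simp [bw])
    (by
      intro j hj
      fin_cases j <;> simp [bw] at hj ⊢) (by simp [bw]) _ htw' ?_
  intro C0 hC0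
  refine ⟨C0 + 4, by positivity, fun ε hε => ?_⟩
  filter_upwards [h.rb ε hε, h.ev ε hε, h.zb ε hε, ev_const_le B hε 4]
    with n hn he hz h4c k hk k' hk' i i' h1 h2 h3 h4 hlo
  have hd := fun t : ℝ => rpos B n t
  have hC0ε : 0 < C0 * ε := by positivity
  have b := he k k' i i' h1 h3 h2 h4
  obtain ⟨z1, z2⟩ := hz k hk k' hk'
  set u := (G n).z k' - (G n).z k with hu
  set φ := F n k' - F n k with hφ
  have hl : ∀ j, bw y y y y 0 y y j = y → |(G n).rel k i i' j| ≤ B.d n ^ (y - C0 * ε) := by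
    intro j hj
    have := hlo j
    rwa [h.H.base n, hj] at this
  have l2 := hl 2 (by simp [bw])
  have l5 := hl 5 (by simp [bw])
  have l6 := hl 6 (by simp [bw])
  have l7 := hl 7 (by simp [bw])
  have l9 := hl 9 (by simp [bw])
  have l10 := hl 10 (by simp [bw])
  -- sizes
  have s0 : B.d n ^ (T - ε) ≤ B.d n ^ (y - (C0 + 2) * ε) := rpow_anti B n (by nlinarith)
  have s1 : B.d n ^ (y - C0 * ε) ≤ B.d n ^ (y - (C0 + 2) * ε) := rpow_anti B n (by nlinarith)
  have s2 : B.d n ^ (-ε) * B.d n ^ (y - C0 * ε) ≤ B.d n ^ (y - (C0 + 2) * ε) := by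
    rw [← rpow_add']; exact rpow_anti B n (by nlinarith)
  have s3 : B.d n ^ (-ε) * (B.d n ^ (-ε) * B.d n ^ (y - C0 * ε)) ≤
      B.d n ^ (y - (C0 + 2) * ε) := by
    rw [← rpow_add', ← rpow_add']; exact rpow_anti B n (by nlinarith)
  have s4 : 4 * B.d n ^ (y - (C0 + 2) * ε) ≤ B.d n ^ (y - (C0 + 4) * ε) := by
    have e1 : B.d n ^ (y - (C0 + 4) * ε) = B.d n ^ (-ε) * B.d n ^ (y - (C0 + 3) * ε) := by
      rw [← rpow_add']; congr 1; ring
    rw [e1]
    have e2 : B.d n ^ (y - (C0 + 2) * ε) ≤ B.d n ^ (y - (C0 + 3) * ε) :=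
      rpow_anti B n (by nlinarith)
    have := hd (y - (C0 + 3) * ε)
    have := hd (y - (C0 + 2) * ε)
    nlinarith
  have mulb : ∀ a c : ℝ, |a| ≤ B.d n ^ (-ε) → |c| ≤ B.d n ^ (y - C0 * ε) →
      |a * c| ≤ B.d n ^ (y - (C0 + 2) * ε) := by
    intro a c ha hc
    rw [abs_mul]
    exact (mul_le_mul ha hc (abs_nonneg _) (hd _).le).trans s2
  have hq := hd (y - (C0 + 2) * ε)
  constructor
  · intro j
    rw [h.H.base n]
    by_cases hj0 : bw y y y y 0 y 0 j = 0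
    · rw [hj0]
      refine (hn k' i i' h2 h4 j).trans (rpow_anti B n ?_)
      nlinarith
    · have hb : j = 2 ∨ j = 5 ∨ j = 6 ∨ j = 7 ∨ j = 9 := by
        revert hj0
        fin_cases j <;> simp [bw]
      have hby : bw y y y y 0 y 0 j = y := by
        rcases hb with rfl | rfl | rfl | rfl | rfl <;> simp [bw]
      rw [hby]
      refine le_trans ?_ s4
      rcases hb with rfl | rfl | rfl | rfl | rfl
      · have := b.e2
        have e : (G n).rel k' i i' 2 = ((G n).rel k' i i' 2 - (G n).rel k i i' 2) +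
          (G n).rel k i i' 2 := by ring
        rw [e]
        refine (abs_add_le _ _).trans ?_
        linarith
      · have := b.e5
        have e : (G n).rel k' i i' 5 = ((G n).rel k' i i' 5 - (G n).rel k i i' 5) +
          (G n).rel k i i' 5 := by ring
        rw [e]
        refine (abs_add_le _ _).trans ?_
        linarith
      · have := b.e6
        have e : (G n).rel k' i i' 6 = ((G n).rel k' i i' 6 - (G n).rel k i i' 6) +
          (G n).rel k i i' 6 := by ring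
        rw [e]
        refine (abs_add_le _ _).trans ?_
        linarith
      · have := b.e7
        have e : (G n).rel k' i i' 7 = ((G n).rel k' i i' 7 - ((G n).rel k i i' 7 -
          φ * (G n).rel k i i' 5)) + ((G n).rel k i i' 7 - φ * (G n).rel k i i' 5) := by ring
        rw [e]
        refine (abs_add_le _ _).trans ?_
        have := abs_sub ((G n).rel k i i' 7) (φ * (G n).rel k i i' 5)
        have := mulb φ _ z2 l5
        linarith
      · have := b.e9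
        have e : (G n).rel k' i i' 9 = ((G n).rel k' i i' 9 - ((G n).rel k i i' 9 +
          u * (G n).rel k i i' 6)) + ((G n).rel k i i' 9 + u * (G n).rel k i i' 6) := by ring
        rw [e]
        refine (abs_add_le _ _).trans ?_
        have := abs_add_le ((G n).rel k i i' 9) (u * (G n).rel k i i' 6)
        have := mulb u _ z1 l6
        linarith
  · refine le_trans ?_ s4
    have c1 := mulb u _ z1 l7
    have c2 : |φ * (u * (G n).rel k i i' 5)| ≤ B.d n ^ (y - (C0 + 2) * ε) := by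
      rw [abs_mul, abs_mul]
      refine le_trans ?_ s3
      exact mul_le_mul z2 (mul_le_mul z1 l5 (abs_nonneg _) (hd _).le)
        (mul_nonneg (abs_nonneg _) (abs_nonneg _)) (hd _).le
    have e : (G n).rel k' i i' 10 - -φ * (G n).rel k i i' 8 =
        ((G n).rel k' i i' 10 - ((G n).rel k i i' 10 + u * (G n).rel k i i' 7 -
          φ * ((G n).rel k i i' 8 + u * (G n).rel k i i' 5))) + ((G n).rel k i i' 10 +
        u * (G n).rel k i i' 7) + -(φ * (u * (G n).rel k i i' 5)) := by ring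
    rw [e]
    refine (abs_add_le _ _).trans ?_
    rw [abs_neg]
    have a1 := abs_add_le ((G n).rel k' i i' 10 - ((G n).rel k i i' 10 +
      u * (G n).rel k i i' 7 - φ * ((G n).rel k i i' 8 + u * (G n).rel k i i' 5)))
      ((G n).rel k i i' 10 + u * (G n).rel k i i' 7)
    have a2 := abs_add_le ((G n).rel k i i' 10) (u * (G n).rel k i i' 7)
    have a3 := b.e10
    linarith

end NA

end Crest.Agent.R136.Lv831
end

-- ▼ part R136/Lv2_831
section

/-!
# R136, T.L, ending (Vis): the model `NA` in a window of `AeW` (helper831)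

`MaV` : walls of `monQ` without the slots `1`, `3`; `coneV`, `legalV_iff`;
`na_of_wat` : everything from `WAt`, static data `stQ {0, 4} K T MaV`.
-/

set_option autoImplicit false
set_option linter.unusedSectionVars false
set_option linter.unusedVariables false

open Filter Topology

namespace Crest.Agent.R136.Lv831

open Finset Crest.Agent.R136.NetQ186 Crest.Agent.R136.Net191 Crest.Agent.R136.Qg926
open Crest.Agent.R136.Gf356 Crest.Agent.R136.Ev356 Crest.Agent.R136.Aw413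
open Crest.Agent.R136.Wq400 Crest.Agent.R136.Fe1355
open Crest.Agent.R138.Ex926 (Base U)
open Crest.Agent.R136.LdF511 (sm monQ_all W7)

/-- walls without the slots `1`, `3` -/
def MaV : Mons 11 where
  mon := fun k => (monQ.mon k).filter fun e => e 1 = 0 ∧ e 3 = 0
  low := fun k e he => monQ.low k e (mem_filter.1 he).1
  ne := fun k e he => monQ.ne k e (mem_filter.1 he).1

theorem MaV_sub (k : Fin 11) : MaV.mon k ⊆ monQ.mon k := filter_subset _ _

theorem MaV_all (φ : Fin 11 → (Fin 11 → ℕ) → Prop) : (∀ k, ∀ e ∈ MaV.mon k, φ k e) ↔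
    ∀ k, ∀ e ∈ monQ.mon k, (e 1 = 0 ∧ e 3 = 0) → φ k e := by
  constructor
  · intro h k e he he'
    exact h k e (mem_filter.2 ⟨he, he'⟩)
  · intro h k e he
    obtain ⟨h1, h2⟩ := mem_filter.1 he
    exact h k e h1 h2

local macro "us" h:ident : tactic => `(tactic|
  (have hh := $h:ident ⟨by decide, by decide⟩
   rw [sm] at hh; simp only [Matrix.cons_val] at hh; push_cast at hh; linarith))

/-- **the cone of the walls without `R`, `F_b`** -/
theorem coneV : coneM MaV = W7 := by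
  ext c
  show (∀ k, ∀ e ∈ MaV.mon k, c k ≤ ∑ s, (e s : ℝ) * c s) ↔ _
  rw [MaV_all (fun k e => c k ≤ ∑ s, (e s : ℝ) * c s),
    monQ_all (fun k e => (e 1 = 0 ∧ e 3 = 0) → c k ≤ ∑ s, (e s : ℝ) * c s)]
  constructor
  · rintro ⟨h1, h2, h3, h4, h5, h6, h7, h8, h9, h10, h11, h12, h13, h14, h15, h16, h17, h18⟩
    refine ⟨?_, ?_, ?_, ?_, ?_, ?_, ?_⟩
    · us h2
    · us h4
    · us h7
    · us h8
    · us h9
    · us h11
    · us h13
  · rintro ⟨k1, k2, k3, k4, k5, k6, k7⟩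
    refine ⟨?_, ?_, ?_, ?_, ?_, ?_, ?_, ?_, ?_, ?_, ?_, ?_, ?_, ?_, ?_, ?_, ?_, ?_⟩ <;>
      rintro ⟨e1, e2⟩ <;> first
      | exact absurd e1 (by decide)
      | exact absurd e2 (by decide)
      | (rw [sm]; simp only [Matrix.cons_val]; push_cast; linarith)

theorem legalV_iff {p : Fin 11 → ℝ} : Legal MaV p ↔ (∀ k, 0 ≤ p k) ∧ p ∈ W7 := by
  rw [← coneV]
  exact ⟨fun h => ⟨h.nonneg, h.wall⟩, fun h => ⟨h.1, h.2⟩⟩

/-- the box `bw` with the level slots `z, F_a` at `T` -/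
def bwT (T e ca cb p xa xb n : ℝ) : Fin 11 → ℝ := ![T, 0, e, 0, T, ca, cb, p, xa, xb, n]

theorem cut_bw (T e ca cb p xa xb n : ℝ) :
    cut {0, 4} (bw e ca cb p xa xb n) (fun _ => T) = bwT T e ca cb p xa xb n := by
  funext j
  fin_cases j <;> simp [cut, bw, bwT]

theorem bwT_leg {T e ca cb p xa xb n : ℝ} (hT : 0 ≤ T) (e0 : 0 ≤ e) (e1 : e ≤ T)
    (ca0 : 0 ≤ ca) (ca1 : ca ≤ T) (cb0 : 0 ≤ cb) (cb1 : cb ≤ T)
    (p0 : 0 ≤ p) (p1 : p ≤ T) (xa0 : 0 ≤ xa) (xa1 : xa ≤ T) (xb0 : 0 ≤ xb) (xb1 : xb ≤ T)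
    (n0 : 0 ≤ n) (n1 : n ≤ T) (w6 : cb ≤ e + ca) (w9 : xb ≤ e + xa) :
    bwT T e ca cb p xa xb n ∈ Leg MaV T := by
  refine ⟨legalV_iff.2 ⟨?_, ?_, ?_, ?_, ?_, ?_, ?_, ?_⟩, ?_⟩
  · intro s; fin_cases s <;> simp [bwT] <;> assumption
  · simp [bwT]; linarith
  · simp [bwT]; linarith
  · simp [bwT]; linarith
  · simp [bwT]; linarith
  · simp [bwT]; linarith
  · simp [bwT]; linarith
  · simp [bwT]; linarith
  · intro s; fin_cases s <;> simp [bwT] <;> assumption

/-- **the static data are admissible** -/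
theorem stV_ok {K T : ℝ} (hK : 0 < K) (hT : 0 ≤ T) :
    (stQ {0, 4} K T MaV).Ok monQ (coneM MaV) where
  R0 := hT
  leg := leg_cone fun k => Finset.Subset.refl _
  top_leg := ⟨legalV_iff.2 ⟨fun _ => hT, by
    refine ⟨?_, ?_, ?_, ?_, ?_, ?_, ?_⟩ <;> show T ≤ T + T <;> linarith⟩, fun s => le_rfl⟩
  lin_leg := by
    have e : cut (stQ {0, 4} K T MaV).S (stQ {0, 4} K T MaV).top 0 =
        ![0, T, T, T, 0, T, T, T, T, T, T] := by
      funext j
      fin_cases j <;> simp [cut, stQ]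
    rw [e]
    refine ⟨legalV_iff.2 ⟨?_, ?_, ?_, ?_, ?_, ?_, ?_, ?_⟩, ?_⟩
    · intro s; fin_cases s <;> simp <;> exact hT
    all_goals first
      | (intro s; fin_cases s <;> simp [stQ] <;> exact hT)
      | (simp <;> linarith)
  lev_leg := by
    have e : cut (stQ {0, 4} K T MaV).S 0 (stQ {0, 4} K T MaV).top =
        ![T, 0, 0, 0, T, 0, 0, 0, 0, 0, 0] := by
      funext j
      fin_cases j <;> simp [cut, stQ]
    rw [e]
    refine ⟨legalV_iff.2 ⟨?_, ?_, ?_, ?_, ?_, ?_, ?_, ?_⟩, ?_⟩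
    · intro s; fin_cases s <;> simp <;> exact hT
    all_goals first
      | (intro s; fin_cases s <;> simp [stQ] <;> exact hT)
      | (simp <;> linarith)
  kzS := by show (0 : Fin 11) ∈ ({0, 4} : Finset (Fin 11)); decide
  kz0 := rfl
  kzw := by
    have := MaV_sub 0
    exact Finset.subset_empty.1 this
  kap := kapQ_pos hK

variable {ι : ℕ → Type*} [∀ n, DecidableEq (ι n)] {W : Wnd 11 ι} {f : ∀ n, ι n → Fq4}
  {E : ∀ n, Finset (ι n)} {T K : ℝ}

/-- a window with level slots `{z, F_a}` -/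
structure WinV (W : Wnd 11 ι) (K T : ℝ) : Prop where
  kz : W.kz = 0
  S : W.S = {0, 4}
  top : W.top = fun _ => T
  R' : W.R' = T
  kap : W.kap = kapQ K
  K0 : W.K0 ≤ K
  T0 : 0 < T
  mons : W.Mw = MaV

theorem legW_bw (hw : WinV W K T) {e ca cb p xa xb n : ℝ} (e0 : 0 ≤ e) (e1 : e ≤ T)
    (ca0 : 0 ≤ ca) (ca1 : ca ≤ T) (cb0 : 0 ≤ cb) (cb1 : cb ≤ T)
    (p0 : 0 ≤ p) (p1 : p ≤ T) (xa0 : 0 ≤ xa) (xa1 : xa ≤ T) (xb0 : 0 ≤ xb) (xb1 : xb ≤ T)
    (n0 : 0 ≤ n) (n1 : n ≤ T) (w6 : cb ≤ e + ca) (w9 : xb ≤ e + xa) :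
    bw e ca cb p xa xb n ∈ W.legW := by
  have h1 := bwT_leg hw.T0.le e0 e1 ca0 ca1 cb0 cb1 p0 p1 xa0 xa1 xb0 xb1 n0 n1 w6 w9
  refine ⟨?_, fun s hs => ?_⟩
  · rw [hw.S, hw.top, cut_bw, hw.R', hw.mons]
    exact h1
  · rw [hw.top]
    have := h1.2 s
    rw [hw.S] at hs
    rw [← cut_bw, cut_of_notMem hs] at this
    exact this

theorem nu_bw (hw : WinV W K T) (e ca cb p xa xb n : ℝ) :
    W.nu (bw e ca cb p xa xb n) = W.lam (bwT T e ca cb p xa xb n) - W.lam fun _ => T := by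
  unfold Wnd.nu
  rw [hw.S, hw.top, cut_bw]


theorem chi_c : chi MaV 2 3 4 = 0 ∧ chi MaV 2 5 6 = 1 ∧ chi MaV 4 5 7 = 1 ∧ chi MaV 3 6 7 = 0 ∧
    chi MaV 0 5 8 = 1 ∧ chi MaV 0 6 9 = 1 ∧ chi MaV 2 8 9 = 1 ∧ chi MaV 0 7 10 = 1 ∧
    chi MaV 4 8 10 = 1 ∧ chi MaV 3 9 10 = 0 ∧ chi MaV 0 1 7 = 0 := by
  refine ⟨?_, ?_, ?_, ?_, ?_, ?_, ?_, ?_, ?_, ?_, ?_⟩ <;> first
    | exact if_neg (by decide)
    | exact if_pos (by decide)

/-- **evolution** -/
theorem evA (h : QAt W f MaV)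
    (hc : ∀ᶠ n in (U : Filter ℕ), W.Good n ∧ E n ⊆ W.Cl n ∧ W.cfg E n = W.cfg0 n (E n))
    (hw : WinV W K T) {ε : ℝ} (hε : 0 < ε) :
    ∀ᶠ n in (U : Filter ℕ), ∀ k k' i l, (i, k) ∈ (W.cfg E n).I →
      (l, k) ∈ (W.cfg E n).I → (i, k') ∈ (W.cfg E n).I → (l, k') ∈ (W.cfg E n).I →
      EvA (W.B'.d n ^ (T - ε)) ((W.cfg E n).z k' - (W.cfg E n).z k)
        (flg W n k' 4 - flg W n k 4) ((W.cfg E n).rel k i l) ((W.cfg E n).rel k' i l) := by
  have h0S : (0 : Fin 11) ∈ W.S := by rw [hw.S]; decide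
  have h4S : (4 : Fin 11) ∈ W.S := by rw [hw.S]; decide
  have h2S : (2 : Fin 11) ∉ W.S := by rw [hw.S]; decide
  have h3S : (3 : Fin 11) ∉ W.S := by rw [hw.S]; decide
  have ht : ∀ s, T ≤ W.top s := fun s => by rw [hw.top]
  have hε2 : 0 < ε / 2 := by positivity
  filter_upwards [hc, h.evoX hc hw.T0.le ht hε2, h.q.mot_eq hc, h.q.z_eq hw.kz hc,
    h.cf_ap (i := 2) (j := 3) (s := 4) (by decide) (by decide) (fun _ => by decide) T hw.T0.le,
    ev_const_le W.B' hε2 3] with n hn hev hmot hz hcf h3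
  obtain ⟨g, hE, hcfg⟩ := hn
  obtain ⟨c234, c256, c457, c367, c058, c069, c289, c0710, c4810, c3910, c017⟩ := chi_c
  intro k₀ k i i' hi0 hi0' hi hi'
  have hk0Z : k₀ ∈ (W.cfg E n).Z := by
    rw [hcfg] at hi0 ⊢
    exact mem_image.2 (by obtain ⟨u, hu, -, h6⟩ := mem_cfg0 hi0; exact ⟨u, hu, h6⟩)
  have hkZ : k ∈ (W.cfg E n).Z := by
    rw [hcfg] at hi ⊢
    exact mem_image.2 (by obtain ⟨u, hu, -, h6⟩ := mem_cfg0 hi; exact ⟨u, hu, h6⟩)
  set d := W.B'.d n with hd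
  have hd0 : 0 < d := W.B'.pos n
  have hpow : ∀ t : ℝ, 0 < d ^ t := fun t => Real.rpow_pos_of_pos hd0 t
  -- motions
  have m0 : ownC (chi MaV) W n k₀ k (fsl W n i k₀ 2) (fsl W n i k₀ 3) 0 =
      (W.cfg E n).z k - (W.cfg E n).z k₀ := by
    unfold ownC mot
    rw [if_neg (by decide), if_pos h0S, hz k, hz k₀]
    exact (hmot k₀ hk0Z k hkZ).1 0 (by simp)
  have m2 : ownC (chi MaV) W n k₀ k (fsl W n i k₀ 2) (fsl W n i k₀ 3) 2 = 0 := by
    unfold ownC mot
    rw [if_neg (by decide), if_neg h2S]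
  have m3 : ownC (chi MaV) W n k₀ k (fsl W n i k₀ 2) (fsl W n i k₀ 3) 3 = 0 := by
    unfold ownC mot
    rw [if_neg (by decide), if_neg h3S]
  have m4 : ownC (chi MaV) W n k₀ k (fsl W n i k₀ 2) (fsl W n i k₀ 3) 4 =
      flg W n k 4 - flg W n k₀ 4 +
        cf W n 2 3 4 * (flg W n k₀ 2 * (flg W n k 3 - flg W n k₀ 3)) := by
    unfold ownC
    rw [if_pos rfl, if_pos h4S, c234, zero_mul, add_zero]
    exact (hmot k₀ hk0Z k hkZ).2
  -- flags are small
  have flb : ∀ k ∈ (W.cfg E n).Z, ∀ s, |flg W n k s| ≤ 1 / 4 := by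
    intro k hk s
    rw [hcfg] at hk
    exact h.crd4 g g.s0 (zrep_of_mem hE hk).1 s
  have e4 : |ownC (chi MaV) W n k₀ k (fsl W n i k₀ 2) (fsl W n i k₀ 3) 4 -
      (flg W n k 4 - flg W n k₀ 4)| ≤ d ^ T := by
    rw [m4, add_sub_cancel_left, abs_mul, abs_mul]
    have a1 := flb k₀ hk0Z 2
    have a2 := (abs_sub (flg W n k 3) (flg W n k₀ 3)).trans
      (add_le_add (flb k hkZ 3) (flb k₀ hk0Z 3))
    have a3 := hcf.d
    rw [c234, sub_zero, one_mul] at a3
    have a4 := mul_le_mul a1 a2 (abs_nonneg _) (by norm_num)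
    have a5 := mul_le_mul a3 a4 (mul_nonneg (abs_nonneg _) (abs_nonneg _)) (hpow T).le
    have := hpow T
    linarith
  set a := ownC (chi MaV) W n k₀ k (fsl W n i k₀ 2) (fsl W n i k₀ 3) with ha
  set b := (W.cfg E n).rel k₀ i i' with hb
  set φ := flg W n k 4 - flg W n k₀ 4 with hφ
  rw [← m0]
  have rb : ∀ s, |b s| ≤ 1 / 4 := by
    intro s
    rw [hb, hcfg]
    rw [hcfg] at hi0 hi0'
    exact h.rel_le g hE hi0 hi0' s
  have ab0 : |a 0| ≤ 1 / 4 := by
    rw [hcfg] at hi0 hi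
    have := (h.bds g hE hi0 hi).1 0
    rw [ha]
    unfold ownC
    rw [if_neg (by decide)]
    exact this
  have key : ∀ s, s ∉ W.S → |(W.cfg E n).rel k i i' s - evoC (chi MaV) a b s| ≤ d ^ (T - ε / 2) :=
    fun s hs => hev k₀ k i i' hi0 hi hi0' hi' s hs
  have hTT : d ^ T ≤ d ^ (T - ε / 2) :=
    Real.rpow_le_rpow_of_exponent_ge hd0 (W.B'.lt n).le (by linarith)
  have hfin : 3 * d ^ (T - ε / 2) ≤ d ^ (T - ε) := by
    have e : d ^ (T - ε) = d ^ (-(ε / 2)) * d ^ (T - ε / 2) := by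
      rw [← Real.rpow_add hd0]; congr 1; ring
    rw [e]
    exact mul_le_mul_of_nonneg_right h3 (hpow _).le
  have hp2 := hpow (T - ε / 2)
  have fin : ∀ {x : ℝ}, |x| ≤ d ^ (T - ε / 2) → |x| ≤ d ^ (T - ε) := fun hx => by linarith
  refine ⟨?_, ?_, ?_, ?_, ?_, ?_, ?_⟩
  · have := key 2 h2S
    have e : evoC (chi MaV) a b 2 = b 2 := by simp [evoC]
    rw [e] at this
    exact fin this
  · have := key 5 (by rw [hw.S]; decide)
    have e : evoC (chi MaV) a b 5 = b 5 := by simp [evoC]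
    rw [e] at this
    exact fin this
  · have := key 6 (by rw [hw.S]; decide)
    have e : evoC (chi MaV) a b 6 = b 6 := by
      simp only [evoC, Matrix.cons_val]
      rw [m2]; ring
    rw [e] at this
    exact fin this
  · have := key 7 (by rw [hw.S]; decide)
    have e : evoC (chi MaV) a b 7 = b 7 - a 4 * b 5 := by
      simp only [evoC, Matrix.cons_val]
      rw [c017, c457, m3]; ring
    rw [e] at this
    have e2 : (W.cfg E n).rel k i i' 7 - (b 7 - φ * b 5) =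
        ((W.cfg E n).rel k i i' 7 - (b 7 - a 4 * b 5)) + -((a 4 - φ) * b 5) := by ring
    rw [e2]
    refine (abs_add_le _ _).trans ?_
    rw [abs_neg, abs_mul]
    have := mul_le_mul e4 (rb 5) (abs_nonneg _) (hpow T).le
    linarith
  · have := key 8 (by rw [hw.S]; decide)
    have e : evoC (chi MaV) a b 8 = b 8 + a 0 * b 5 := by
      simp only [evoC, Matrix.cons_val]
      rw [c058]; ring
    rw [e] at this
    exact fin this
  · have := key 9 (by rw [hw.S]; decide)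
    have e : evoC (chi MaV) a b 9 = b 9 + a 0 * b 6 := by
      simp only [evoC, Matrix.cons_val]
      rw [c069, m2]; ring
    rw [e] at this
    exact fin this
  · have := key 10 (by rw [hw.S]; decide)
    have e : evoC (chi MaV) a b 10 = b 10 + a 0 * b 7 - a 4 * (b 8 + a 0 * b 5) := by
      simp only [evoC, Matrix.cons_val]
      rw [c0710, c017, c4810, c3910, c058]; ring
    rw [e] at this
    have e2 : (W.cfg E n).rel k i i' 10 - (b 10 + a 0 * b 7 - φ * (b 8 + a 0 * b 5)) =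
        ((W.cfg E n).rel k i i' 10 - (b 10 + a 0 * b 7 - a 4 * (b 8 + a 0 * b 5))) +
          -((a 4 - φ) * (b 8 + a 0 * b 5)) := by ring
    rw [e2]
    refine (abs_add_le _ _).trans ?_
    rw [abs_neg, abs_mul]
    have b1 : |b 8 + a 0 * b 5| ≤ 1 := by
      refine (abs_add_le _ _).trans ?_
      rw [abs_mul]
      have := mul_le_mul ab0 (rb 5) (abs_nonneg _) (by norm_num)
      have := rb 8
      linarith
    have := mul_le_mul e4 b1 (abs_nonneg _) (hpow T).le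
    linarith

/-- **composition** -/
theorem coA (h : QAt W f MaV)
    (hc : ∀ᶠ n in (U : Filter ℕ), W.Good n ∧ E n ⊆ W.Cl n ∧ W.cfg E n = W.cfg0 n (E n))
    (hw : WinV W K T) {ε : ℝ} (hε : 0 < ε) :
    ∀ᶠ n in (U : Filter ℕ), ∀ k i l l', (i, k) ∈ (W.cfg E n).I →
      (l, k) ∈ (W.cfg E n).I → (l', k) ∈ (W.cfg E n).I →
      CoA (W.B'.d n ^ (T - ε)) ((W.cfg E n).rel k i l) ((W.cfg E n).rel k l l')
        ((W.cfg E n).rel k i l') := by
  have ht : ∀ s, T ≤ W.top s := fun s => by rw [hw.top]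
  obtain ⟨c234, c256, c457, c367, c058, c069, c289, c0710, c4810, c3910, c017⟩ := chi_c
  filter_upwards [h.compX hc hw.T0.le ht hε] with n hcp
  intro k i l l' h1 h2 h3
  refine ⟨?_, ?_⟩
  · have := hcp k i l l' h1 h2 h3 8 (by rw [hw.S]; decide)
    simp only [compC, Matrix.cons_val] at this
    rw [sub_sub]
    exact this
  · have := hcp k i l l' h1 h2 h3 9 (by rw [hw.S]; decide)
    simp only [compC, Matrix.cons_val] at this
    rw [c289, one_mul] at this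
    rw [sub_sub, sub_sub, ← add_assoc]
    exact this

/-- **the window model** -/
theorem na_of_win (h : QAt W f MaV)
    (hc : ∀ᶠ n in (U : Filter ℕ), W.Good n ∧ E n ⊆ W.Cl n ∧ W.cfg E n = W.cfg0 n (E n))
    (hw : WinV W K T) (H : RModel W.B' (W.cfg E) 1 T W.legW W.nu W.Dc) :
    NA W.B' (W.cfg E) W.legW W.nu T W.Dc (fun n k => flg W n k 4) where
  H := H
  T0 := hw.T0
  leg := fun e ca cb p xa xb n e0 e1 ca0 ca1 cb0 cb1 p0 p1 xa0 xa1 xb0 xb1 n0 n1 w6 w9 =>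
    legW_bw hw e0 e1 ca0 ca1 cb0 cb1 p0 p1 xa0 xa1 xb0 xb1 n0 n1 w6 w9
  zb := fun ε hε => by
    filter_upwards [bdQ h.q hc hw.kz hw.K0 hw.kap, ev_const_le W.B' hε 2] with n hn h2 k hk k' hk'
    obtain ⟨a1, a2⟩ := hn k hk
    obtain ⟨a1', a2'⟩ := hn k' hk'
    have b1 := abs_sub ((W.cfg E n).z k') ((W.cfg E n).z k)
    have b2 := abs_sub (flg W n k' 4) (flg W n k 4)
    have := a2 4
    have := a2' 4
    exact ⟨by linarith, by linarith⟩
  rb := fun ε hε => by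
    filter_upwards [h.q.rel_MW hc, ev_const_le W.B' hε (MW W)] with n hn h2 k i l h3 h4 s
    exact (hn.1 k i l h3 h4 s).trans h2
  ev := fun ε hε => evA h hc hw hε
  co := fun ε hε => coA h hc hw hε

/-- **raw twist of `F_a` between heights** -/
theorem rawTw_four (h : QAt W f MaV)
    (hc : ∀ᶠ n in (U : Filter ℕ), W.Good n ∧ E n ⊆ W.Cl n ∧ W.cfg E n = W.cfg0 n (E n))
    (h4S : (4 : Fin 11) ∈ W.S) {T : ℝ} (hT : 0 < T) (ht : T ≤ W.top 4) (hr : RawL W E 4) :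
    RawTw W.B' (W.cfg E) (fun n k k' => flg W n k' 4 - flg W n k 4) := by
  intro ε hε
  set δ : ℝ := min (ε / 2) (T / 2) with hδ
  have hδ0 : 0 < δ := lt_min (by positivity) (by positivity)
  have hδε : δ < ε := lt_of_le_of_lt (min_le_left _ _) (by linarith)
  have hδT : δ < T := lt_of_le_of_lt (min_le_right _ _) (by linarith)
  set c0 : ℝ := 2 * W.K0 / W.kap 4 + 1 with hc0
  filter_upwards [hc, hr δ hδ0 (1 / 2) (by norm_num), h.q.mot_eq hc,
    h.cf_ap (i := 2) (j := 3) (s := 4) (by decide) (by decide) (fun _ => by decide) T hT.le,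
    ev_const_le W.B' (show 0 < ε - δ by linarith) 2,
    ev_const_le W.B' (show 0 < T - δ by linarith) (2 * |c0|)] with n hn hrn hmot hcf h2 h3
  obtain ⟨g, hE, hcfg⟩ := hn
  intro i hi S hS hSm
  have hd0 : 0 < W.B'.d n := W.B'.pos n
  have hpow : ∀ t : ℝ, 0 < W.B'.d n ^ t := fun t => Real.rpow_pos_of_pos hd0 t
  have hcf' : |cf W n 2 3 4| ≤ W.B'.d n ^ T := by
    have := hcf.d
    rw [chi_c.1, sub_zero, one_mul] at this
    exact this
  -- `ρ^ε ≤ ρ^δ / 2`, `c0 ρ^T ≤ ρ^δ / 2`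
  have a1 : W.B'.d n ^ ε ≤ W.B'.d n ^ δ / 2 := by
    have : W.B'.d n ^ ε * W.B'.d n ^ (-(ε - δ)) = W.B'.d n ^ δ := by
      rw [← Real.rpow_add hd0]; congr 1; ring
    have h4 := mul_le_mul_of_nonneg_left h2 (hpow ε).le
    rw [this] at h4
    linarith
  have a2 : |c0| * W.B'.d n ^ T ≤ W.B'.d n ^ δ / 2 := by
    have : W.B'.d n ^ T * W.B'.d n ^ (-(T - δ)) = W.B'.d n ^ δ := by
      rw [← Real.rpow_add hd0]; congr 1; ring
    have h4 := mul_le_mul_of_nonneg_left h3 (hpow T).le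
    rw [this] at h4
    linarith
  classical
  have hsub : S ⊆ ((W.cfg E n).hts i).biUnion fun k =>
      (((W.cfg E n).hts i).filter fun k' =>
        |W.crd n (W.rep n i k) (W.rep n i k') 4| ≤ W.B'.d n ^ δ).image fun k' => (k, k') := by
    intro q hq
    obtain ⟨q1, q2⟩ := mem_product.1 (hS hq)
    refine mem_biUnion.2 ⟨q.1, q1, mem_image.2 ⟨q.2, mem_filter.2 ⟨q2, ?_⟩, rfl⟩⟩
    have g1 := (RCfg.mem_hts.1 q1)
    have g2 := (RCfg.mem_hts.1 q2)
    have m1 := (hmot q.1 g1.1 q.2 g2.1).2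
    have g1' := g1.2
    have g2' := g2.2
    rw [hcfg] at g1' g2'
    have g1z := g1.1
    have g2z := g2.1
    rw [hcfg] at g1z g2z
    obtain ⟨x1, x2, x3⟩ := rep_of_mem hE g1'
    obtain ⟨y1, y2, y3⟩ := rep_of_mem hE g2'
    obtain ⟨z1, z2⟩ := zrep_of_mem hE g1z
    obtain ⟨z1', z2'⟩ := zrep_of_mem hE g2z
    -- composition through the representatives of the heights
    have f1 := h.q.crd_four g x1 z1 y1
    have f2 := h.q.crd_four g z1 z1' y1
    have l1 := h.q.crd_lev g x1 z1 (x3.trans z2.symm) h4S ht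
    have l2 := h.q.crd_lev g z1' y1 (z2'.trans y3.symm) h4S ht
    have cb : ∀ {u v w' t : ι n}, u ∈ W.Cl n → v ∈ W.Cl n → w' ∈ W.Cl n → t ∈ W.Cl n →
        ∀ s s', |cf W n 2 3 4 * (W.crd n u v s * W.crd n w' t s')| ≤
          1 / 16 * W.B'.d n ^ T := by
      intro u v w' t hu hv hw ht s s'
      rw [abs_mul, abs_mul]
      have b1 := h.crd4 g hu hv s
      have b2 := h.crd4 g hw ht s'
      have b3 := mul_le_mul b1 b2 (abs_nonneg _) (by norm_num)
      have b4 := mul_le_mul hcf' b3 (mul_nonneg (abs_nonneg _) (abs_nonneg _)) (hpow T).le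
      linarith
    have k1 := cb x1 z1 z1 y1 2 3
    have k2 := cb z1 z1' z1' y1 2 3
    have k3 : |cf W n 2 3 4 * (flg W n q.1 2 * (flg W n q.2 3 - flg W n q.1 3))| ≤
        1 / 8 * W.B'.d n ^ T := by
      rw [abs_mul, abs_mul]
      have b1 := h.crd4 g g.s0 z1 2
      have b2 := h.crd4 g g.s0 z1 3
      have b3 := h.crd4 g g.s0 z1' 3
      have b4 := (abs_sub (flg W n q.2 3) (flg W n q.1 3)).trans (add_le_add b3 b2)
      have b5 := mul_le_mul (show |flg W n q.1 2| ≤ 1 / 4 from b1) b4 (abs_nonneg _)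
        (by norm_num)
      have b6 := mul_le_mul hcf' b5 (mul_nonneg (abs_nonneg _) (abs_nonneg _)) (hpow T).le
      linarith
    have m3 := hSm q hq
    have e : W.crd n (W.rep n i q.1) (W.rep n i q.2) 4 - (flg W n q.2 4 - flg W n q.1 4) =
        W.crd n (W.rep n i q.1) (W.zrep n q.1) 4 + W.crd n (W.zrep n q.2) (W.rep n i q.2) 4 +
        (cf W n 2 3 4 * (flg W n q.1 2 * (flg W n q.2 3 - flg W n q.1 3)) -
        cf W n 2 3 4 * (W.crd n (W.rep n i q.1) (W.zrep n q.1) 2 *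
          W.crd n (W.zrep n q.1) (W.rep n i q.2) 3) -
        cf W n 2 3 4 * (W.crd n (W.zrep n q.1) (W.zrep n q.2) 2 *
          W.crd n (W.zrep n q.2) (W.rep n i q.2) 3)) := by
      rw [f1, f2, m1]; ring
    have m5 : |W.crd n (W.rep n i q.1) (W.rep n i q.2) 4 - (flg W n q.2 4 - flg W n q.1 4)| ≤
        c0 * W.B'.d n ^ T := by
      rw [e]
      have t1 := abs_add_le (W.crd n (W.rep n i q.1) (W.zrep n q.1) 4 +
        W.crd n (W.zrep n q.2) (W.rep n i q.2) 4)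
        (cf W n 2 3 4 * (flg W n q.1 2 * (flg W n q.2 3 - flg W n q.1 3)) -
        cf W n 2 3 4 * (W.crd n (W.rep n i q.1) (W.zrep n q.1) 2 *
          W.crd n (W.zrep n q.1) (W.rep n i q.2) 3) -
        cf W n 2 3 4 * (W.crd n (W.zrep n q.1) (W.zrep n q.2) 2 *
          W.crd n (W.zrep n q.2) (W.rep n i q.2) 3))
      have t2 := abs_add_le (W.crd n (W.rep n i q.1) (W.zrep n q.1) 4)
        (W.crd n (W.zrep n q.2) (W.rep n i q.2) 4)
      have t3 := abs_sub (cf W n 2 3 4 * (flg W n q.1 2 * (flg W n q.2 3 - flg W n q.1 3)) -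
        cf W n 2 3 4 * (W.crd n (W.rep n i q.1) (W.zrep n q.1) 2 *
          W.crd n (W.zrep n q.1) (W.rep n i q.2) 3))
        (cf W n 2 3 4 * (W.crd n (W.zrep n q.1) (W.zrep n q.2) 2 *
          W.crd n (W.zrep n q.2) (W.rep n i q.2) 3))
      have t4 := abs_sub (cf W n 2 3 4 * (flg W n q.1 2 * (flg W n q.2 3 - flg W n q.1 3)))
        (cf W n 2 3 4 * (W.crd n (W.rep n i q.1) (W.zrep n q.1) 2 *
          W.crd n (W.zrep n q.1) (W.rep n i q.2) 3))
      have t5 : c0 * W.B'.d n ^ T = W.K0 / W.kap 4 * W.B'.d n ^ T +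
          W.K0 / W.kap 4 * W.B'.d n ^ T + W.B'.d n ^ T := by
        rw [hc0]; ring
      have := hpow T
      linarith
    have m4 : c0 * W.B'.d n ^ T ≤ |c0| * W.B'.d n ^ T :=
      mul_le_mul_of_nonneg_right (le_abs_self _) (hpow _).le
    have m6 := abs_sub_abs_le_abs_sub (W.crd n (W.rep n i q.1) (W.rep n i q.2) 4)
      (flg W n q.2 4 - flg W n q.1 4)
    linarith
  have hcard : (S.card : ℝ) ≤ ∑ k ∈ (W.cfg E n).hts i,
      1 / 2 * (((W.cfg E n).hts i).card : ℝ) := by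
    have h5 : (S.card : ℝ) ≤ ∑ k ∈ (W.cfg E n).hts i,
        ((((W.cfg E n).hts i).filter fun k' =>
        |W.crd n (W.rep n i k) (W.rep n i k') 4| ≤ W.B'.d n ^ δ).card : ℝ) := by
      have h6 := (card_le_card hsub).trans card_biUnion_le
      have h7 : ∑ k ∈ (W.cfg E n).hts i, ((((W.cfg E n).hts i).filter fun k' =>
          |W.crd n (W.rep n i k) (W.rep n i k') 4| ≤ W.B'.d n ^ δ).image
            fun k' => (k, k')).card ≤
          ∑ k ∈ (W.cfg E n).hts i, (((W.cfg E n).hts i).filter fun k' =>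
          |W.crd n (W.rep n i k) (W.rep n i k') 4| ≤ W.B'.d n ^ δ).card :=
        sum_le_sum fun k _ => card_image_le
      exact_mod_cast h6.trans h7
    exact h5.trans (sum_le_sum fun k hk => hrn i hi k hk)
  rw [sum_const, nsmul_eq_mul] at hcard
  nlinarith

section wat

variable {B : Base} {I : ∀ n, Finset (ι n)} {co : ∀ n, ι n → ι n → Fin 11 → ℝ}
  {C : ℝ} {lam : (Fin 11 → ℝ) → ℝ} {V Tw : Fin 11 → Prop}

theorem winV_of_wat (h : WAt B I co monQ MaV C lam V Tw (stQ {0, 4} (4 * cK0 monQ C) T MaV) W)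
    (hT : 0 < T) (hK0 : 0 ≤ cK0 monQ C) : WinV W (4 * cK0 monQ C) T where
  kz := h.ekz
  S := h.eS
  top := h.etop
  R' := h.eR
  kap := h.ekap
  K0 := by
    unfold Wnd.K0
    rw [h.eM, h.eC]; linarith
  T0 := hT
  mons := h.eMw

/-- **the window model at a window of `AeW`** -/
theorem na_of_wat (h : WAt B I co monQ MaV C lam V Tw (stQ {0, 4} (4 * cK0 monQ C) T MaV) W)
    (hco : ∀ n, ∀ i ∈ I n, ∀ j ∈ I n, co n i j = coQ (f n i) (f n j))
    (hK0 : 0 ≤ cK0 monQ C) (hT : 0 < T)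
    (hV : ∀ k, V k → k = 0 ∨ k = 4) (hT4 : Tw 4)
    (hdens : lam (fun _ => T) ≤ lam (cut {0, 4} (fun _ => T) 0) + lam (cut {0, 4} 0 fun _ => T))
    (hfr : ∀ y, 0 ≤ y → y ≤ T → lam (Pi.single 0 y) ≤ -y) :
    ∃ (E' : ∀ n, Finset (ι n)),
      NA W.B' (W.cfg E') W.legW W.nu T W.Dc (fun n k => flg W n k 4) ∧
      RawTw W.B' (W.cfg E') (fun n k k' => flg W n k' 4 - flg W n k 4) := by
  have hden : (stQ {0, 4} (4 * cK0 monQ C) T MaV).Dens lam 1 T :=
    { dens := hdens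
      σ0 := zero_le_one
      σ1 := le_rfl
      hR := le_rfl
      frost := fun y hy hyT => by
        rw [one_mul]; exact hfr y hy hyT }
  obtain ⟨E', g, hP, -, H, htw⟩ := h.model (σ' := 1) (R := T) hden (fun _ _ _ => 0)
    (g₀ := fun n => n)
    (tendsto_natCast_atTop_atTop.mono_left Crest.Agent.R138.Ex926.U_le_atTop) (fun k hk => by
      left
      show k ∈ ({0, 4} : Finset (Fin 11))
      rcases hV k hk with rfl | rfl <;> decide)
  have hw := winV_of_wat h hT hK0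
  have hq : QWnd W f := qwnd_of_wat h hco (by
    show ∀ s ∈ ({0, 4} : Finset (Fin 11)), _
    decide)
  have hQ : QAt W f MaV := QAt.of_wat h hq (by
    show (0 : Fin 11) ∈ ({0, 4} : Finset (Fin 11)); decide) (fun s => rfl) (by decide)
  have hc := hcQ hq hP
  refine ⟨E', na_of_win hQ hc hw H, ?_⟩
  refine rawTw_four hQ hc (by rw [hw.S]; decide) hT (by rw [hw.top]) ?_
  refine htw 4 (by show (4 : Fin 11) ∈ ({0, 4} : Finset (Fin 11)); decide) hT4 hT ⟨T, hT, ?_⟩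
  show cut {0, 4} (fun _ => T) (Pi.single 4 T) ∈ coneM MaV
  rw [coneV]
  have e : cut {0, 4} (fun _ => T) (Pi.single 4 T) =
      (![0, T, T, T, T, T, T, T, T, T, T] : Fin 11 → ℝ) := by
    funext j
    fin_cases j <;> simp [cut]
  rw [e]
  refine ⟨?_, ?_, ?_, ?_, ?_, ?_, ?_⟩ <;> simp <;> linarith

end wat

end Crest.Agent.R136.Lv831
end

-- ▼ part R136/Lv3_831
section

/-!
# R136, T.L, ending (Vis): the slope (helper831)

`TV θ`, `rV θ` : left ray and record direction of the gauge frame; `grp` facts;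
**`slopeV`** : `AeW` on the plane `(TV, rV)` with `V, Tw = {F_a}`, own rate `1`, sweeps `S1`
(`C_a`), `S2` (`E, C_b`) ⊢ `5 - θ ≤ - A.1`.
-/

set_option autoImplicit false
set_option linter.unusedSectionVars false
set_option linter.unusedVariables false

open Filter Topology

namespace Crest.Agent.R136.Lv831

open Finset Crest.Agent.R136.NetQ186 Crest.Agent.R136.Net191 Crest.Agent.R136.Qg926
open Crest.Agent.R136.Gf356 Crest.Agent.R136.Ev356 Crest.Agent.R136.Aw413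
open Crest.Agent.R136.Wq400 Crest.Agent.R136.Fe1355
open Crest.Agent.R136.Dg219 Crest.Agent.R136.Dg262
open Crest.Agent.R138.Ex926 (Base U)
open Crest.Agent.R136.LdF511 (sm monQ_all W7)

/-- left ray -/
def TV (θ : ℝ) : Fin 11 → ℝ := ![1, 0, 0, 0, 1 - θ, 0, 0, 1 - θ, 1, 1, 2 - θ]
/-- record direction (slots `R`, `F_b` constant) -/
def rV (θ : ℝ) : Fin 11 → ℝ :=
  ![1, 0, -θ, 0, 1 - θ, -θ, -(2 * θ), 1 - 2 * θ, 1 - θ, 1 - 2 * θ, 2 - 2 * θ]

section grp

variable {θ : ℝ} (h0 : 0 < θ) (h1 : θ < 1)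

include h1 in
theorem TV_nonneg (i : Fin 11) : 0 ≤ TV θ i := by
  fin_cases i <;> simp [TV] <;> linarith

include h1 in
theorem TV_pos {i : Fin 11} (hi : i = 0 ∨ i = 4 ∨ i = 7 ∨ i = 8 ∨ i = 9 ∨ i = 10) :
    0 < TV θ i := by
  rcases hi with rfl | rfl | rfl | rfl | rfl | rfl <;> simp [TV] <;> linarith

include h1 in
theorem TV_zero (i : Fin 11) : TV θ i = 0 ↔ i = 1 ∨ i = 2 ∨ i = 3 ∨ i = 5 ∨ i = 6 := by
  constructor
  · intro h
    by_contra hn
    push Not at hn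
    have : 0 < TV θ i := TV_pos h1 (by
      revert hn
      fin_cases i <;> simp)
    linarith
  · rintro (rfl | rfl | rfl | rfl | rfl) <;> simp [TV]

/-- same group as a slot with positive ray: proportional slopes -/
theorem grp_par {a b : Fin 11 → ℝ} {i j : Fin 11} (h : gC a b i = gC a b j) (hj : a j ≠ 0) :
    a i ≠ 0 ∧ b i * a j = b j * a i := by
  have hi : a i ≠ 0 := fun hi => hj (gC_zero.1 (by rw [← h]; exact gC_zero.2 hi))
  exact ⟨hi, by rwa [gC_eq hi hj, div_eq_div_iff hi hj] at h⟩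

local macro "gz" h:ident hz:ident : tactic => `(tactic|
  first
    | (left; rfl)
    | (right; rfl)
    | rfl
    | (exfalso; apply $hz:ident; simp [TV]; done)
    | (exfalso
       simp only [TV, rV, Matrix.cons_val, Fin.zero_eta, Fin.mk_one, Fin.reduceFinMk,
         Fin.isValue] at $h:ident
       nlinarith))

include h0 h1

theorem grp0 (i : Fin 11) : gC (TV θ) (rV θ) i = gC (TV θ) (rV θ) 0 ↔ i = 0 ∨ i = 4 := by
  have k0 := mul_pos h0 (sub_pos.2 h1)
  constructor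
  · intro h
    obtain ⟨hz, h⟩ := grp_par h (TV_pos h1 (by simp)).ne'
    fin_cases i <;> gz h hz
  · rintro (rfl | rfl)
    · rfl
    · rw [gC_eq (TV_pos h1 (by simp)).ne' (TV_pos h1 (by simp)).ne',
        div_eq_div_iff (TV_pos h1 (by simp)).ne' (TV_pos h1 (by simp)).ne']
      simp [TV, rV]

theorem grp8 (i : Fin 11) : gC (TV θ) (rV θ) i = gC (TV θ) (rV θ) 8 ↔ i = 8 := by
  have k0 := mul_pos h0 (sub_pos.2 h1)
  constructor
  · intro h
    obtain ⟨hz, h⟩ := grp_par h (TV_pos h1 (by simp)).ne'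
    fin_cases i <;> gz h hz
  · rintro rfl
    rfl

theorem grp9 {i : Fin 11} (h : gC (TV θ) (rV θ) i = gC (TV θ) (rV θ) 9) : i = 7 ∨ i = 9 := by
  have k0 := mul_pos h0 (sub_pos.2 h1)
  obtain ⟨hz, h⟩ := grp_par h (TV_pos h1 (by simp)).ne'
  fin_cases i <;> gz h hz

theorem grp10 (i : Fin 11) : gC (TV θ) (rV θ) i = gC (TV θ) (rV θ) 10 ↔ i = 10 := by
  have k0 := mul_pos h0 (sub_pos.2 h1)
  constructor
  · intro h
    obtain ⟨hz, h⟩ := grp_par h (TV_pos h1 (by simp)).ne'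
    fin_cases i <;> gz h hz
  · rintro rfl
    rfl

end grp

/-! ### group functions -/

section out

variable {grp : Fin 11 → ℕ} {L : Set (Fin 11 → ℝ)} {dh : Fin 11 → ℝ} {nn : ℕ → ℝ × ℝ}
  {lam : (Fin 11 → ℝ) → ℝ} {A : ℝ × ℝ} {φ : ℕ → (Fin 11 → ℝ) → ℝ} {r : ℕ → ℝ}

/-- boxes which agree off one group -/
theorem out_dif (ho : OutS grp L dh nn lam A φ r) {c c' : Fin 11 → ℝ} (hc : c ∈ L)
    (hc' : c' ∈ L) {k : ℕ} (h : ∀ i, grp i ≠ k → c i = c' i) :
    lam c - lam c' = φ k c - φ k c' := by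
  rw [ho.sum c hc, ho.sum c' hc', ← sum_sub_distrib]
  by_cases hk : k ∈ gset grp
  · rw [sum_eq_single_of_mem k hk]
    intro j _ hj
    rw [ho.loc j c c' fun i hi => h i (by rw [hi]; exact hj), sub_self]
  · have e1 : φ k c = φ k c' := ho.loc k c c' fun i hi => by
      exfalso
      apply hk
      rw [← hi]
      exact mem_image_of_mem _ (mem_univ i)
    rw [e1, sub_self]
    refine sum_eq_zero fun j hj => ?_
    rw [ho.loc j c c' fun i hi => h i fun h' => hk (by rw [← h', hi]; exact hj), sub_self]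

/-- losses in one group do not depend on the other groups -/
theorem out_dif4 (ho : OutS grp L dh nn lam A φ r) {c c' d d' : Fin 11 → ℝ} (hc : c ∈ L)
    (hc' : c' ∈ L) (hd : d ∈ L) (hd' : d' ∈ L) (k : ℕ) (h1 : ∀ i, grp i ≠ k → c i = c' i)
    (h2 : ∀ i, grp i ≠ k → d i = d' i) (h3 : ∀ i, grp i = k → c i = d i)
    (h4 : ∀ i, grp i = k → c' i = d' i) : lam c - lam c' = lam d - lam d' := by
  rw [out_dif ho hc hc' h1, out_dif ho hd hd' h2, ho.loc k c d h3, ho.loc k c' d' h4]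

end out

/-! ### the slope -/

theorem bwT_cone {T e ca cb p xa xb n : ℝ} (w6 : cb ≤ e + ca) (w7 : p ≤ T + ca)
    (w8 : xa ≤ T + ca) (w9 : xb ≤ T + cb) (w9' : xb ≤ e + xa) (w10 : n ≤ T + p)
    (w10' : n ≤ T + xa) : bwT T e ca cb p xa xb n ∈ coneM MaV := by
  rw [coneV]
  refine ⟨?_, ?_, ?_, ?_, ?_, ?_, ?_⟩ <;> simp only [bwT, Matrix.cons_val] <;> linarith

theorem bwT_le {T e ca cb p xa xb n e' ca' cb' p' xa' xb' n' : ℝ} (h1 : e ≤ e') (h2 : ca ≤ ca')
    (h3 : cb ≤ cb') (h4 : p ≤ p') (h5 : xa ≤ xa') (h6 : xb ≤ xb') (h7 : n ≤ n') :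
    bwT T e ca cb p xa xb n ≤ bwT T e' ca' cb' p' xa' xb' n' := by
  intro j
  fin_cases j <;> simp [bwT, *]

theorem bwT_sum (T e ca cb p xa xb n e' ca' cb' p' xa' xb' n' : ℝ) :
    ∑ s, (bwT T e' ca' cb' p' xa' xb' n' s - bwT T e ca cb p xa xb n s) =
      (e' - e) + (ca' - ca) + (cb' - cb) + (p' - p) + (xa' - xa) + (xb' - xb) + (n' - n) := by
  simp [bwT, Fin.sum_univ_succ]
  ring

section slope

variable {ι : ℕ → Type*} [∀ n, DecidableEq (ι n)] {B Bo : Base} {I J : ∀ n, Finset (ι n)}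
  {co : ∀ n, ι n → ι n → Fin 11 → ℝ} {C : ℝ} {lam : (Fin 11 → ℝ) → ℝ} {A : ℝ × ℝ}
  {φ : ℕ → (Fin 11 → ℝ) → ℝ} {r : ℕ → ℝ} {κ : Fin 11 → ℝ} {V Tw : Fin 11 → Prop}
  {θ m1 m2 : ℝ} {f : ∀ n, ι n → Fq4}

/-- **the slope of the profile to the left of the record** -/
theorem slopeV (h : AeW B Bo I J co monQ MaV C lam (TV θ) (rV θ) A φ r 0 1 κ V Tw)
    (h0 : 0 < θ) (h1 : θ < 1) (hC : 0 ≤ C)
    (hco : ∀ n, ∀ i ∈ I n, ∀ j ∈ I n, co n i j = coQ (f n i) (f n j))
    (hJ : ∀ᶠ n in (U : Filter ℕ), (J n).Nonempty)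
    (hV : ∀ k, V k → k = 0 ∨ k = 4) (hT : Tw 4) (hm1 : 0 < m1) (hm2 : 0 < m2)
    (S1 : ∀ t : ℝ, 0 ≤ t → t ≤ 1 →
      m1 * t ≤ lam (bwT 1 0 0 0 0 0 0 0) - lam (bwT 1 0 t 0 0 0 0 0))
    (S2 : ∀ t : ℝ, 0 ≤ t → t ≤ 1 →
      m2 * t ≤ lam (bwT 1 0 0 0 0 0 0 0) - lam (bwT 1 t 0 t 0 0 0 0)) :
    5 - θ ≤ -A.1 := by
  classical
  have hK := cK0_one (M := monQ) hC
  have hok : (stQ {0, 4} (4 * cK0 monQ C) 1 MaV).Ok monQ (coneM MaV) :=
    stV_ok (by linarith) zero_le_one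
  have ho := h.out
  -- own loss
  have own0 : ∀ c ∈ coneM MaV, 0 ≤ c → lam c ≤ -(c 0) := by
    intro c hc hc0
    have h2 := h.own 0 zero_mem c hc hc0 (fun k _ => by simp)
    rw [h.zero] at h2
    simp only [Pi.zero_apply, sub_zero, one_mul] at h2
    linarith
  have hfr : ∀ y : ℝ, 0 ≤ y → y ≤ 1 → lam (Pi.single 0 y) ≤ -y := by
    intro y hy _
    have e : (Pi.single 0 y : Fin 11 → ℝ) = ![y, 0, 0, 0, 0, 0, 0, 0, 0, 0, 0] := by
      funext s
      fin_cases s <;> simp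
    have := own0 (Pi.single 0 y) (by
      rw [e, coneV]
      refine ⟨?_, ?_, ?_, ?_, ?_, ?_, ?_⟩ <;> simp only [Matrix.cons_val] <;> linarith)
      (by rw [e]; intro s; fin_cases s <;> simp; exact hy)
    simpa using this
  have hdens : lam (fun _ => 1) ≤ lam (cut {0, 4} (fun _ => 1) 0) +
      lam (cut {0, 4} 0 fun _ => 1) :=
    (OutS.dens ho (S := {0, 4}) (top := fun _ => 1) (by
      intro i j hij hi
      have hi' : gC (TV θ) (rV θ) i = gC (TV θ) (rV θ) 0 := (grp0 h0 h1 i).2 (by simpa using hi)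
      have := (grp0 h0 h1 j).1 (by rw [← hij, hi'])
      simpa using this) (hok.leg hok.top_leg) (hok.leg hok.lin_leg) (hok.leg hok.lev_leg)).le
  -- the window
  obtain ⟨W, hW, -, -⟩ := h.wnd (stQ {0, 4} (4 * cK0 monQ C) 1 MaV) rfl hok (fun _ _ => 1)
    (fun i => Crest.Agent.R138.Ex926.Base.Sub.const one_pos) J (fun _ => 1)
    (Eventually.of_forall fun n => Finset.Subset.refl _) hJ
    (Crest.Agent.R138.Ex926.Base.Sub.const one_pos) (Eventually.of_forall fun n => by simp)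
  obtain ⟨E', hN, hTw⟩ := na_of_wat hW hco (by linarith) one_pos hV hT hdens hfr
  have hw := winV_of_wat hW one_pos (by linarith)
  set L : ℝ → ℝ → ℝ → ℝ → ℝ → ℝ → ℝ → ℝ := fun e ca cb p xa xb n =>
    lam (bwT 1 e ca cb p xa xb n) with hL
  have nu : ∀ e ca cb p xa xb n, W.nu (bw e ca cb p xa xb n) =
      L e ca cb p xa xb n - lam fun _ => 1 := fun e ca cb p xa xb n => by
    rw [nu_bw hw, hW.elam]
  -- membership
  have mem : ∀ e ca cb p xa xb n : ℝ, 0 ≤ e → 0 ≤ ca → p ≤ 1 → xa ≤ 1 → xb ≤ 1 → 0 ≤ cb →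
      cb ≤ e + ca → xb ≤ e + xa → n ≤ 1 → 0 ≤ p → 0 ≤ xa → bwT 1 e ca cb p xa xb n ∈
        coneM MaV := by
    intro e ca cb p xa xb n he hca hp hxa hxb hcb h6 h9 hn hp0 hxa0
    exact bwT_cone h6 (by linarith) (by linarith) (by linarith) h9 (by linarith) (by linarith)
  set g0 := gC (TV θ) (rV θ) 0 with hg0
  set g8 := gC (TV θ) (rV θ) 8 with hg8
  set g9 := gC (TV θ) (rV θ) 9 with hg9
  set g10 := gC (TV θ) (rV θ) 10 with hg10
  have k0 : ∀ i : Fin 11, gC (TV θ) (rV θ) i = 0 ↔ i = 1 ∨ i = 2 ∨ i = 3 ∨ i = 5 ∨ i = 6 :=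
    fun i => by rw [gC_zero, TV_zero h1]
  -- group `0` : the losses of `E, C_a, C_b` do not depend on `X_a, X_b`
  have d0 : ∀ e ca cb e' ca' cb' xa xb : ℝ, bwT 1 e ca cb 0 xa xb 0 ∈ coneM MaV →
      bwT 1 e' ca' cb' 0 xa xb 0 ∈ coneM MaV → bwT 1 e ca cb 0 0 0 0 ∈ coneM MaV →
      bwT 1 e' ca' cb' 0 0 0 0 ∈ coneM MaV →
      L e ca cb 0 xa xb 0 - L e' ca' cb' 0 xa xb 0 = L e ca cb 0 0 0 0 - L e' ca' cb' 0 0 0 0 := by
    intro e ca cb e' ca' cb' xa xb m1 m2 m3 m4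
    refine out_dif4 ho m1 m2 m3 m4 0 ?_ ?_ ?_ ?_
    · intro i hi
      rw [Ne, k0] at hi
      revert hi
      fin_cases i <;> simp [bwT]
    · intro i hi
      rw [Ne, k0] at hi
      revert hi
      fin_cases i <;> simp [bwT]
    · intro i hi
      rw [k0] at hi
      rcases hi with rfl | rfl | rfl | rfl | rfl <;> simp [bwT]
    · intro i hi
      rw [k0] at hi
      rcases hi with rfl | rfl | rfl | rfl | rfl <;> simp [bwT]
  -- `X_a`
  have p8 : ∀ x : ℝ, 0 ≤ x → x ≤ 1 → φ g8 (bwT 1 0 0 0 0 x 0 0) = -(r g8 * x) := by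
    intro x hx hx1
    refine ho.rate g8 _ (mem 0 0 0 0 x 0 0 le_rfl le_rfl zero_le_one hx1 zero_le_one le_rfl
      (by linarith) (by linarith) zero_le_one le_rfl hx) x fun i hi => ?_
    rw [(grp8 h0 h1 i).1 hi]
    simp [bwT, dhC, TV]
  have d8 : ∀ e ca cb p xb n x : ℝ, 0 ≤ x → x ≤ 1 → bwT 1 e ca cb p 0 xb n ∈ coneM MaV →
      bwT 1 e ca cb p x xb n ∈ coneM MaV →
      L e ca cb p 0 xb n - L e ca cb p x xb n = r g8 * x := by
    intro e ca cb p xb n x hx hx1 m1 m2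
    have e1 := out_dif ho m1 m2 (k := g8) (fun i hi => by
      rw [Ne, grp8 h0 h1] at hi
      revert hi
      fin_cases i <;> simp [bwT])
    have e2 : φ g8 (bwT 1 e ca cb p 0 xb n) = φ g8 (bwT 1 0 0 0 0 0 0 0) :=
      ho.loc g8 _ _ fun i hi => by
        rw [(grp8 h0 h1 i).1 hi]; simp [bwT]
    have e3 : φ g8 (bwT 1 e ca cb p x xb n) = φ g8 (bwT 1 0 0 0 0 x 0 0) :=
      ho.loc g8 _ _ fun i hi => by
        rw [(grp8 h0 h1 i).1 hi]; simp [bwT]
    rw [hL]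
    simp only
    rw [e1, e2, e3, p8 0 le_rfl zero_le_one, p8 x hx hx1]; ring
  have m000 : bwT 1 0 0 0 0 0 0 0 ∈ coneM MaV :=
    mem 0 0 0 0 0 0 0 le_rfl le_rfl zero_le_one zero_le_one zero_le_one le_rfl (by linarith)
      (by linarith) zero_le_one le_rfl le_rfl
  have mxa : ∀ x : ℝ, 0 ≤ x → x ≤ 1 → bwT 1 0 0 0 0 x 0 0 ∈ coneM MaV := fun x hx hx1 =>
    mem 0 0 0 0 x 0 0 le_rfl le_rfl zero_le_one hx1 zero_le_one le_rfl (by linarith)
      (by linarith) zero_le_one le_rfl hx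
  have r8 : r g8 = 1 := by
    have e1 := d8 0 0 0 0 0 0 1 zero_le_one le_rfl m000 (mxa 1 zero_le_one le_rfl)
    have e2 := hN.xa (y := 1) (c := m1) one_pos le_rfl hm1 (by
      intro t ht ht1
      rw [nu, nu]
      have := d0 0 0 0 0 t 0 t 0 (mxa t ht ht1)
        (mem 0 t 0 0 t 0 0 le_rfl ht zero_le_one ht1 zero_le_one le_rfl (by linarith)
          (by linarith) zero_le_one le_rfl ht) m000
        (mem 0 t 0 0 0 0 0 le_rfl ht zero_le_one zero_le_one zero_le_one le_rfl (by linarith)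
          (by linarith) zero_le_one le_rfl le_rfl)
      have := S1 t ht ht1
      linarith)
      (by
      intro t ht ht1
      rw [nu, nu]
      have := h.sharp _ (mxa t ht ht1) _ (mxa 1 zero_le_one le_rfl)
        (bwT_le le_rfl le_rfl le_rfl le_rfl ht1 le_rfl le_rfl)
      rw [bwT_sum] at this
      linarith)
    rw [nu, nu] at e2
    have e3 := h.sharp _ m000 _ (mxa 1 zero_le_one le_rfl)
        (bwT_le le_rfl le_rfl le_rfl le_rfl zero_le_one le_rfl le_rfl)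
    rw [bwT_sum] at e3
    have e4 : L 0 0 0 0 0 0 0 - L 0 0 0 0 1 0 0 ≤ 1 := by
      rw [hL]; simp only; linarith
    apply le_antisymm <;> linarith
  -- `X_b`
  have d9 : ∀ e ca cb xa x : ℝ, 0 ≤ x → x ≤ 1 → bwT 1 e ca cb 0 xa 0 0 ∈ coneM MaV →
      bwT 1 e ca cb 0 xa x 0 ∈ coneM MaV →
      L e ca cb 0 xa 0 0 - L e ca cb 0 xa x 0 = -φ g9 (bwT 1 x 0 0 0 0 x 0) := by
    intro e ca cb xa x hx hx1 m1 m2
    have e1 := out_dif ho m1 m2 (k := g9) (fun i hi => by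
      have : i ≠ 9 := fun h => hi (by rw [h])
      revert this
      fin_cases i <;> simp [bwT])
    have e2 : φ g9 (bwT 1 e ca cb 0 xa 0 0) = 0 :=
      ho.zero g9 _ fun i hi => by
        rcases grp9 h0 h1 hi with rfl | rfl <;> simp [bwT]
    have e3 : φ g9 (bwT 1 e ca cb 0 xa x 0) = φ g9 (bwT 1 x 0 0 0 0 x 0) :=
      ho.loc g9 _ _ fun i hi => by
        rcases grp9 h0 h1 hi with rfl | rfl <;> simp [bwT]
    rw [hL]
    simp only
    rw [e1, e2, e3]; ring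
  have mexb : ∀ x : ℝ, 0 ≤ x → x ≤ 1 → bwT 1 x 0 0 0 0 x 0 ∈ coneM MaV := fun x hx hx1 =>
    mem x 0 0 0 0 x 0 hx le_rfl zero_le_one zero_le_one hx1 le_rfl (by linarith)
      (by linarith) zero_le_one le_rfl le_rfl
  have b9 : ∀ y : ℝ, 0 ≤ y → y ≤ 1 → -φ g9 (bwT 1 y 0 0 0 0 y 0) ≤ r g9 * y := by
    intro y hy hy1
    have mc : bwT 1 y 0 0 (y * (1 - θ)) 0 y 0 ∈ coneM MaV :=
      mem y 0 0 _ 0 y 0 hy le_rfl (by nlinarith) zero_le_one hy1 le_rfl (by linarith)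
        (by linarith) zero_le_one (mul_nonneg hy (by linarith)) le_rfl
    have e1 := ho.rate g9 _ mc y fun i hi => by
      rcases grp9 h0 h1 hi with rfl | rfl
      · have : (1:ℝ) - θ ≠ 0 := by linarith
        simp [bwT, dhC, TV, this]
      · simp [bwT, dhC, TV]
    have e2 := (ho.mono g9 _ (mexb y hy hy1) _ mc fun i hi =>
      bwT_le le_rfl le_rfl le_rfl (mul_nonneg hy (by linarith)) le_rfl le_rfl le_rfl i).1
    rw [e1] at e2
    linarith
  have r9 : 1 ≤ r g9 := by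
    by_cases hc : ∃ j : ℝ, 0 < j ∧ j ≤ 1 ∧ L 0 0 0 0 0 0 0 ≤ L j 0 0 0 0 0 0
    · obtain ⟨j, hj, hj1, hLj⟩ := hc
      have me : ∀ x : ℝ, 0 ≤ x → x ≤ 1 → bwT 1 x 0 0 0 0 0 0 ∈ coneM MaV := fun x hx hx1 =>
        mem x 0 0 0 0 0 0 hx le_rfl zero_le_one zero_le_one zero_le_one le_rfl (by linarith)
          (by linarith) zero_le_one le_rfl le_rfl
      have mj : ∀ t : ℝ, 0 ≤ t → t ≤ j → bwT 1 j 0 0 0 0 t 0 ∈ coneM MaV := fun t ht ht1 =>
        mem j 0 0 0 0 t 0 hj.le le_rfl zero_le_one zero_le_one (ht1.trans hj1) le_rfl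
          (by linarith) (by linarith) zero_le_one le_rfl le_rfl
      have e2 := hN.xb (y := j) (c := m2) hj hj1 hm2 (by
        intro t ht ht1
        rw [nu, nu]
        have mt : bwT 1 j 0 t 0 0 0 0 ∈ coneM MaV :=
          mem j 0 t 0 0 0 0 hj.le le_rfl zero_le_one zero_le_one zero_le_one ht
            (by linarith) (by linarith) zero_le_one le_rfl le_rfl
        have a1 := d0 j 0 0 j 0 t 0 t (mj t ht ht1)
          (mem j 0 t 0 0 t 0 hj.le le_rfl zero_le_one zero_le_one (ht1.trans hj1) ht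
            (by linarith) (by linarith) zero_le_one le_rfl le_rfl) (me j hj.le hj1) mt
        have a2 := S2 t ht (ht1.trans hj1)
        have a3 : lam (bwT 1 j 0 t 0 0 0 0) ≤ lam (bwT 1 t 0 t 0 0 0 0) :=
          h.anti _ (mem t 0 t 0 0 0 0 ht le_rfl zero_le_one zero_le_one zero_le_one ht
            (by linarith) (by linarith) zero_le_one le_rfl le_rfl) _ mt
            (bwT_le ht1 le_rfl le_rfl le_rfl le_rfl le_rfl le_rfl)
        have a4 : L j 0 t 0 0 0 0 = lam (bwT 1 j 0 t 0 0 0 0) := rfl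
        have a5 : L 0 0 0 0 0 0 0 = lam (bwT 1 0 0 0 0 0 0 0) := rfl
        linarith)
        (by
        intro t ht ht1
        rw [nu, nu]
        have := h.sharp _ (mj t ht ht1) _ (mexb j hj.le hj1)
          (bwT_le le_rfl le_rfl le_rfl le_rfl le_rfl ht1 le_rfl)
        rw [bwT_sum] at this
        linarith)
      rw [nu, nu] at e2
      have e3 := d9 j 0 0 0 j hj.le hj1 (me j hj.le hj1) (mexb j hj.le hj1)
      have e4 := b9 j hj.le hj1
      have e5 : j * 1 ≤ j * r g9 := by linarith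
      exact le_of_mul_le_mul_left e5 hj
    · push Not at hc
      have mxx : ∀ e xa xb : ℝ, 0 ≤ e → 0 ≤ xa → xa ≤ 1 → xb ≤ 1 → xb ≤ e + xa →
          bwT 1 e 0 0 0 xa xb 0 ∈ coneM MaV := fun e xa xb he hxa hxa1 hxb h9 =>
        mem e 0 0 0 xa xb 0 he le_rfl zero_le_one hxa1 hxb le_rfl (by linarith) h9
          zero_le_one le_rfl hxa
      have key : ∀ j : ℝ, 0 < j → j ≤ 1 → 1 - j ≤ r g9 := by
        intro j hj hj1
        have e1 := hN.leaf (x := 1) (j := j) hj.le hj1 le_rfl (by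
          rw [nu, nu]
          have := d8 1 0 0 0 1 0 1 zero_le_one le_rfl
            (mxx 1 0 1 zero_le_one le_rfl zero_le_one le_rfl (by linarith))
            (mxx 1 1 1 zero_le_one zero_le_one le_rfl le_rfl (by linarith))
          linarith)
        rw [nu, nu, nu, nu, nu] at e1
        rcases e1 with e1 | e1
        · exfalso
          have a1 := d0 0 0 0 j 0 0 1 1 (mxx 0 1 1 le_rfl zero_le_one le_rfl le_rfl
            (by linarith)) (mxx j 1 1 hj.le zero_le_one le_rfl le_rfl (by linarith)) m000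
            (mxx j 0 0 hj.le le_rfl zero_le_one zero_le_one (by linarith))
          have a2 := hc j hj hj1
          linarith
        · have a1 := d8 1 0 0 0 1 0 (1 - j) (by linarith) (by linarith)
            (mxx 1 0 1 zero_le_one le_rfl zero_le_one le_rfl (by linarith))
            (mxx 1 (1 - j) 1 zero_le_one (by linarith) (by linarith) le_rfl (by linarith))
          have a2 := d8 0 0 0 0 0 0 1 zero_le_one le_rfl m000 (mxa 1 zero_le_one le_rfl)
          have a3 := d9 0 0 0 1 1 zero_le_one le_rfl (mxa 1 zero_le_one le_rfl)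
            (mxx 0 1 1 le_rfl zero_le_one le_rfl le_rfl (by linarith))
          have a4 := b9 1 zero_le_one le_rfl
          rw [r8] at a1 a2
          linarith
      by_contra hlt
      push Not at hlt
      have a1 := key (min 1 ((1 - r g9) / 2)) (lt_min one_pos (by linarith)) (min_le_left _ _)
      have a2 := min_le_right 1 ((1 - r g9) / 2)
      linarith
  -- `N`
  have r10 : 2 - θ ≤ r g10 := by
    have mn : ∀ xa n : ℝ, 0 ≤ xa → xa ≤ 1 → n ≤ 1 → bwT 1 1 1 1 1 xa 1 n ∈ coneM MaV :=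
      fun xa n h1 h2 h3 => mem 1 1 1 1 xa 1 n zero_le_one zero_le_one le_rfl h2 le_rfl
        zero_le_one (by linarith) (by linarith) h3 zero_le_one h1
    have e1 := hN.shiftN (y := 1) one_pos le_rfl hTw
    rw [nu, nu, nu] at e1
    have e2 := d8 1 1 1 1 1 1 1 zero_le_one le_rfl (mn 0 1 le_rfl zero_le_one le_rfl)
      (mn 1 1 zero_le_one le_rfl le_rfl)
    have e3 := out_dif ho (mn 0 0 le_rfl zero_le_one zero_le_one)
      (mn 0 1 le_rfl zero_le_one le_rfl) (k := g10) (fun i hi => by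
      rw [Ne, grp10 h0 h1] at hi
      revert hi
      fin_cases i <;> simp [bwT])
    have e4 : φ g10 (bwT 1 1 1 1 1 0 1 0) = 0 := ho.zero g10 _ fun i hi => by
      rw [(grp10 h0 h1 i).1 hi]; simp [bwT]
    have hθ : (2:ℝ) - θ ≠ 0 := by linarith
    have e5 := ho.rate g10 _ (mn 0 1 le_rfl zero_le_one le_rfl) (1 / (2 - θ)) fun i hi => by
      rw [(grp10 h0 h1 i).1 hi]
      simp [bwT, dhC, TV, hθ]
    rw [e4, e5] at e3
    have e6 : L 1 1 1 1 0 1 0 - L 1 1 1 1 0 1 1 = r g10 * (1 / (2 - θ)) := by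
      rw [hL]; simp only; rw [e3]; ring
    rw [r8] at e2
    have e7 : 1 ≤ r g10 * (1 / (2 - θ)) := by linarith
    rw [mul_one_div, le_div_iff₀ (by linarith)] at e7
    linarith
  -- `z`
  have r0 : 1 ≤ r g0 := by
    set c : Fin 11 → ℝ := ![1, 0, 0, 0, 1 - θ, 0, 0, 0, 0, 0, 0] with hc
    have mc : c ∈ coneM MaV := by
      rw [coneV]
      refine ⟨?_, ?_, ?_, ?_, ?_, ?_, ?_⟩ <;> simp only [hc, Matrix.cons_val] <;> linarith
    have e1 := out_dif ho mc zero_mem (k := g0) (fun i hi => by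
      rw [Ne, grp0 h0 h1] at hi
      revert hi
      fin_cases i <;> simp [hc])
    have e2 : φ g0 (0 : Fin 11 → ℝ) = 0 := ho.zero g0 _ fun i hi => rfl
    have hθ : (1:ℝ) - θ ≠ 0 := by linarith
    have e3 := ho.rate g0 _ mc 1 fun i hi => by
      rcases (grp0 h0 h1 i).1 hi with rfl | rfl
      · simp [hc, dhC, TV]
      · simp [hc, dhC, TV, hθ]
    rw [e2, e3, h.zero] at e1
    have e4 := own0 c mc (by intro s; fin_cases s <;> simp [hc]; linarith)
    have e5 : c 0 = 1 := by simp [hc]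
    linarith
  -- total
  have tot := ho.total (1, 0)
  have hA : lf A (1, 0) = A.1 := by simp [lf]
  rw [hA] at tot
  have pos : ∀ i : Fin 11, TV θ i ≠ 0 → (nC (TV θ) (rV θ) (gC (TV θ) (rV θ) i)).1 = 1 ∧
      0 ≤ r (gC (TV θ) (rV θ) i) := by
    intro i hi
    refine ⟨by rw [nC_of hi], ho.r_nonneg _ fun j hj => ?_⟩
    have hj' : TV θ j ≠ 0 := fun hj' => hi (gC_zero.1 (by rw [← hj]; exact gC_zero.2 hj'))
    rw [dhC, if_neg hj']
    exact lt_of_le_of_ne (TV_nonneg h1 j) (Ne.symm hj')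
  have term : ∀ k ∈ gset (gC (TV θ) (rV θ)), 0 ≤ r k * lf (nC (TV θ) (rV θ) k) (1, 0) := by
    intro k hk
    obtain ⟨i, -, rfl⟩ := mem_image.1 hk
    by_cases hi : TV θ i = 0
    · have e : gC (TV θ) (rV θ) i = 0 := gC_zero.2 hi
      rw [e, nC_zero]
      simp [lf]
    · obtain ⟨e1, e2⟩ := pos i hi
      simp only [lf, e1]
      linarith
  have n0 : TV θ 0 ≠ 0 := (TV_pos h1 (by simp)).ne'
  have n8 : TV θ 8 ≠ 0 := (TV_pos h1 (by simp)).ne'
  have n9 : TV θ 9 ≠ 0 := (TV_pos h1 (by simp)).ne'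
  have n10 : TV θ 10 ≠ 0 := (TV_pos h1 (by simp)).ne'
  have sub : ({g0, g8, g9, g10} : Finset ℕ) ⊆ gset (gC (TV θ) (rV θ)) := by
    intro k hk
    simp only [mem_insert, mem_singleton] at hk
    rcases hk with rfl | rfl | rfl | rfl <;> exact mem_image_of_mem _ (mem_univ _)
  have le := sum_le_sum_of_subset_of_nonneg sub fun k hk _ => term k hk
  have c08 : g0 ≠ g8 := fun h => by
    have := (grp0 h0 h1 8).1 h.symm
    simp at this
  have c09 : g0 ≠ g9 := fun h => by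
    have := (grp0 h0 h1 9).1 h.symm
    simp at this
  have c010 : g0 ≠ g10 := fun h => by
    have := (grp0 h0 h1 10).1 h.symm
    simp at this
  have c89 : g8 ≠ g9 := fun h => by
    have := (grp8 h0 h1 9).1 h.symm
    simp at this
  have c810 : g8 ≠ g10 := fun h => by
    have := (grp8 h0 h1 10).1 h.symm
    simp at this
  have c910 : g9 ≠ g10 := fun h => by
    have := (grp10 h0 h1 9).1 h
    simp at this
  rw [sum_insert (by simp [c08, c09, c010]), sum_insert (by simp [c89, c810]),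
    sum_insert (by simp [c910]), sum_singleton] at le
  have q0 : r g0 * lf (nC (TV θ) (rV θ) g0) (1, 0) = r g0 := by
    simp only [lf, (pos 0 n0).1, hg0]; ring
  have q8 : r g8 * lf (nC (TV θ) (rV θ) g8) (1, 0) = r g8 := by
    simp only [lf, (pos 8 n8).1, hg8]; ring
  have q9 : r g9 * lf (nC (TV θ) (rV θ) g9) (1, 0) = r g9 := by
    simp only [lf, (pos 9 n9).1, hg9]; ring
  have q10 : r g10 * lf (nC (TV θ) (rV θ) g10) (1, 0) = r g10 := by
    simp only [lf, (pos 10 n10).1, hg10]; ring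
  rw [q0, q8, q9, q10] at le
  linarith

end slope

end Crest.Agent.R136.Lv831
end

-- ▼ part R136/Lv4_831

/-!
# R136, T.L, ending (Vis): the stage of the ladder at a record point (helper831)

`AV` : walls without the slots `1, 3`; `cn_V`, `natV`, `gapV`; `rB θ v` : record point of level `v`
(`T1 = 1`, slots `1, 3` at `9/2`); `nearB`; `recD_V`, `rungD_V`; `stage_initV` : 774's first stage with
one more own inequality; **`flemV`** : the F-lemma left of the record; **`dead_V`**.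
-/

set_option autoImplicit false
set_option linter.unusedSectionVars false
set_option linter.unusedVariables false

open Filter Topology

namespace Crest.Agent.R136.Lv831

open Finset Crest.Agent.R136.NetQ186 Crest.Agent.R136.Net191 Crest.Agent.R136.Qg926
open Crest.Agent.R136.Aw413
open Crest.Agent.R136.Dg219 Crest.Agent.R136.Dg262
open Crest.Agent.R136.K2S774 (cn Prf JT Stage RecD RungD BaseOk exists_joint cn_closed cn_zero)
open Crest.Agent.R136.AwJ774 (Wt mA mem_mA coneM_mA)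
open Crest.Agent.R136.LdF511 (sm monQ_all W7)

/-! ### walls -/

/-- walls without the slots `R`, `F_b` -/
def AV (w : Wt monQ) : Prop := w.2.1 1 = 0 ∧ w.2.1 3 = 0

theorem mons_eq {m : ℕ} {M M' : Mons m} (h : ∀ k, M.mon k = M'.mon k) : M = M' := by
  obtain ⟨a, b, c⟩ := M
  obtain ⟨a', b', c'⟩ := M'
  have : a = a' := funext h
  subst this
  rfl

theorem mA_V : mA monQ AV = MaV := mons_eq fun k => by
  ext e
  rw [mem_mA]
  constructor
  · rintro ⟨h, h1⟩
    exact mem_filter.2 ⟨h, h1⟩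
  · intro h
    obtain ⟨h1, h2⟩ := mem_filter.1 h
    exact ⟨h1, h2⟩

theorem cn_V : cn (mw monQ) AV = W7 := by rw [← coneM_mA, mA_V, coneV]

/-- natural vectors of the seven walls -/
structure NatV (c : Fin 11 → ℝ) : Prop where
  h6 : c 6 = c 2 + c 5
  h7 : c 7 = c 4 + c 5
  h8 : c 8 = c 0 + c 5
  h9 : c 9 = c 0 + c 6
  h10 : c 10 = c 0 + c 7

local macro "wl" : tactic => `(tactic|
  (rw [sm]; simp only [Matrix.cons_val]; push_cast; linarith))

theorem NatV.eq {c : Fin 11 → ℝ} (h : NatV c) : ∀ k, ∀ e ∈ MaV.mon k,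
    c k = ∑ s, (e s : ℝ) * c s := by
  obtain ⟨h6, h7, h8, h9, h10⟩ := h
  rw [MaV_all (fun k e => c k = ∑ s, (e s : ℝ) * c s),
    monQ_all (fun k e => (e 1 = 0 ∧ e 3 = 0) → c k = ∑ s, (e s : ℝ) * c s)]
  refine ⟨?_, ?_, ?_, ?_, ?_, ?_, ?_, ?_, ?_, ?_, ?_, ?_, ?_, ?_, ?_, ?_, ?_, ?_⟩ <;>
    rintro ⟨e1, e2⟩ <;> first
    | exact absurd e1 (by decide)
    | exact absurd e2 (by decide)
    | wl

theorem NatV.nat {c : Fin 11 → ℝ} (h : NatV c) : K2S774.Nat (mw monQ) AV c := fun w hw => by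
  have := h.eq w.1 w.2.1 (mem_filter.2 ⟨w.2.2, hw⟩)
  exact this

/-- the other walls are slack -/
theorem NatV.gap {c : Fin 11 → ℝ} (h : NatV c) {δ : ℝ} (h4 : c 4 + δ ≤ c 2 + c 3)
    (h1 : c 7 + δ ≤ c 0 + c 1) : ∀ k, ∀ e ∈ monQ.mon k, ¬ (e 1 = 0 ∧ e 3 = 0) →
      c k + δ ≤ ∑ s, (e s : ℝ) * c s := by
  obtain ⟨h6, h7, h8, h9, h10⟩ := h
  rw [monQ_all (fun k e => ¬ (e 1 = 0 ∧ e 3 = 0) → c k + δ ≤ ∑ s, (e s : ℝ) * c s)]
  refine ⟨?_, ?_, ?_, ?_, ?_, ?_, ?_, ?_, ?_, ?_, ?_, ?_, ?_, ?_, ?_, ?_, ?_, ?_⟩ <;>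
    intro e1 <;> first
    | exact absurd ⟨by decide, by decide⟩ e1
    | wl

/-! ### the record point -/

/-- record point of level `v`, slots `R`, `F_b` strictly inside -/
noncomputable def rB (θ v : ℝ) : Fin 11 → ℝ :=
  ![v, 9 / 2, 1 - θ * v, 9 / 2, 1 + (1 - θ) * v, 1 - θ * v, 2 * (1 - θ * v), 2 + (1 - 2 * θ) * v,
    1 + (1 - θ) * v, 2 + (1 - 2 * θ) * v, 2 + 2 * (1 - θ) * v]

theorem rB_nat (θ v : ℝ) : NatV (rB θ v) := by
  constructor <;> simp only [rB, Matrix.cons_val] <;> ring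

theorem rV_nat (θ : ℝ) : NatV (rV θ) := by
  constructor <;> simp only [rV, Matrix.cons_val] <;> ring

theorem TV_nat (θ : ℝ) : NatV (TV θ) := by
  constructor <;> simp only [TV, Matrix.cons_val] <;> ring

theorem rB_add (θ v σ : ℝ) : rB θ v + σ • rV θ = rB θ (v + σ) := by
  funext k
  fin_cases k <;> simp [rB, rV] <;> ring

section near

variable {θ v δ : ℝ} (h0 : 0 < θ) (h1 : θ < 1) (v0 : 0 < v) (v1 : v < 1)

include h0 h1 v0 v1

theorem rB_pos (k : Fin 11) : 0 < rB θ v k := by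
  have k0 := mul_pos h0 v0
  have k1 : θ * v < 1 := by nlinarith
  fin_cases k <;> simp only [rB, Matrix.cons_val, Fin.zero_eta, Fin.mk_one, Fin.reduceFinMk,
    Fin.isValue] <;> nlinarith

/-- boxes near the record point are legal -/
theorem nearB (dv : δ ≤ v) (dθ : δ ≤ 1 - θ * v) (d1 : δ ≤ 1 / 8) {d : Fin 11 → ℝ} (hd : d ∈ W7)
    (hdδ : ∀ k, |d k| ≤ δ) : rB θ v + d ∈ Leg monQ 20 := by
  have k0 := mul_pos h0 v0
  have k1 : θ * v < 1 := by nlinarith
  have k2 : θ * v < v := by nlinarith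
  obtain ⟨w1, w2, w3, w4, w5, w6, w7⟩ := hd
  have a := fun k => abs_le.1 (hdδ k)
  have a0 := a 0; have a1 := a 1; have a2 := a 2; have a3 := a 3; have a4 := a 4
  have a5 := a 5; have a6 := a 6; have a7 := a 7; have a8 := a 8; have a9 := a 9
  have a10 := a 10
  refine ⟨?_, fun k => ?_⟩
  · rw [legalQ_iff]
    refine ⟨fun k => ?_, ?_, ?_, ?_, ?_, ?_, ?_, ?_, ?_, ?_, ?_, ?_⟩
    · fin_cases k <;>
        simp only [rB, Pi.add_apply, Matrix.cons_val, Fin.zero_eta, Fin.mk_one, Fin.reduceFinMk,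
          Fin.isValue] <;> linarith
    all_goals
      simp only [rB, Pi.add_apply, Matrix.cons_val]
      linarith
  · fin_cases k <;>
      simp only [rB, Pi.add_apply, Matrix.cons_val, Fin.zero_eta, Fin.mk_one, Fin.reduceFinMk,
        Fin.isValue] <;> linarith

/-- room around the record point -/
theorem roomB : ∃ δ : ℝ, 0 < δ ∧ δ ≤ v ∧ δ ≤ 1 - v ∧ δ ≤ 1 - θ * v ∧ δ ≤ 1 / 8 := by
  have k1 : θ * v < 1 := by nlinarith
  refine ⟨min (min v (1 - v)) (min (1 - θ * v) (1 / 8)), ?_, ?_, ?_, ?_, ?_⟩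
  · exact lt_min (lt_min v0 (by linarith)) (lt_min (by linarith) (by norm_num))
  · exact (min_le_left _ _).trans (min_le_left _ _)
  · exact (min_le_left _ _).trans (min_le_right _ _)
  · exact (min_le_right _ _).trans (min_le_left _ _)
  · exact (min_le_right _ _).trans (min_le_right _ _)

end near

theorem small_of {C h δ : ℝ} {c : Fin 11 → ℝ} (hC : ‖c‖ ≤ C) (hh : 0 ≤ h)
    (h2 : h * C ≤ δ) (k : Fin 11) : |(h • c) k| ≤ δ := by
  rw [Pi.smul_apply, smul_eq_mul, abs_mul, abs_of_nonneg hh]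
  have : |c k| ≤ C := by
    rw [← Real.norm_eq_abs]; exact (norm_le_pi_norm c k).trans hC
  exact (mul_le_mul_of_nonneg_left this hh).trans h2

/-! ### data of the ladder -/

theorem full_V (w : Wt monQ) (hw : AV w) : ∃ s, (mw monQ).co w s ≠ 0 := monQ.ne w.1 w.2.1 w.2.2

theorem recD_V (θ : ℝ) : RecD (mw monQ) AV (rV θ) (cn (mw monQ) AV) ({4} : Set (Fin 11)) 0
    (fun _ => 1 - θ) where
  full := full_V
  nat := (rV_nat θ).nat
  qd := fun d hd ξ t ht => K2S774.cn_nat_add ((rV_nat θ).nat.smul ξ) hd ht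
  tie := fun i hi => by
    rw [Set.mem_singleton_iff.1 hi]
    simp [rV]

theorem rungD_V {θ : ℝ} (h1 : θ < 1) : RungD (mw monQ) AV (∅ : Set (Fin 11))
    ({1, 2, 3, 5, 6} : Set (Fin 11)) ({4} : Set (Fin 11)) 0 (cn (mw monQ) AV) (rV θ) (TV θ) (TV θ)
    (rV θ) (∅ : Finset (Fin 11)) where
  T0 := TV_nonneg h1
  TJ := fun i hi => absurd hi (notMem_empty i)
  TZ := fun i _ hi => by
    refine lt_of_le_of_ne (TV_nonneg h1 i) fun h => hi ?_
    have := (TV_zero h1 i).1 h.symm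
    simpa using this
  natT := (TV_nat θ).nat
  bρ := fun i _ => rfl
  TT := fun i _ => rfl
  qd := by
    have : -TV θ = (-1 : ℝ) • TV θ := by rw [neg_one_smul]
    rw [this]
    exact ((TV_nat θ).nat.smul _).mem
  head := fun w _ h => absurd h (notMem_empty _)
  JZ := fun i hi => absurd hi (notMem_empty i)
  JT := fun i hi => absurd hi (notMem_empty i)
  Jz := notMem_empty _

section init

variable {m : ℕ} {W : Type*} [Fintype W] {Q : Walls (Fin m) W} {A : W → Prop}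
  {P : Set (Fin m → ℝ)} {ν own : (Fin m → ℝ) → ℝ} {K : ℝ} {r0 ρ : Fin m → ℝ}
  {Dl : (Fin m → ℝ) →ₗ[ℝ] ℝ} {Qd : Set (Fin m → ℝ)} {Z Tie : Set (Fin m)} {kz : Fin m}
  {o : Fin m → ℝ} {τ : ℝ}

/-- **774's first stage, with one more own inequality** -/
theorem stage_initV (hP : Prf P ν own K) (R : RecD Q A ρ Qd Tie kz o)
    (hr0 : ∀ w, A w → r0 (Q.hd w) = Q.rhs w r0 + Q.cst w)
    (hgap : ∀ w, ¬ A w → r0 (Q.hd w) < Q.rhs w r0 + Q.cst w)
    (hleg : ∀ C : ℝ, ∃ h0 : ℝ, 0 < h0 ∧ ∀ h : ℝ, 0 < h → h < h0 → ∀ c ∈ cn Q A, ‖c‖ ≤ C →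
      r0 + h • c ∈ P)
    (hrec : ∀ σ : ℝ, ∀ᶠ h in 𝓝[>] (0:ℝ), ν (r0 + h • σ • ρ) = ν r0 + h * (σ * Dl ρ))
    (hdm : ∀ d ∈ Qd, ∀ᶠ h in 𝓝[>] (0:ℝ), r0 + h • d ∈ P ∧ ν (r0 + h • d) ≤ ν r0 + h * Dl d)
    (hown : ∀ c ∈ cn Q A, (∀ i ∈ Tie, c i ≤ o i * c kz) →
      ∀ᶠ h in 𝓝[>] (0:ℝ), own (r0 + h • c) = own r0 - h * (τ * c kz))
    (hownu : ∀ c ∈ cn Q A, ∀ᶠ h in 𝓝[>] (0:ℝ), own (r0 + h • c) ≤ own r0 - h * (τ * c kz))
    {f : (Fin m → ℝ) → ℝ} {S : (Fin m → ℝ) → Prop}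
    (hV : ∀ c ∈ cn Q A, S c → ∀ᶠ h in 𝓝[>] (0:ℝ), own (r0 + h • c) ≤ own r0 + h * f c) :
    ∃ lam lo : (Fin m → ℝ) → ℝ, Stage Q P ν own K r0 ρ Dl Qd Z Tie kz o τ A ∅ lam lo ∧
      ∀ c ∈ cn Q A, S c → lo c ≤ f c := by
  set k : ℕ → ℝ := fun l => 1 / ((l : ℝ) + 1) with hk
  have kpos : ∀ l, 0 < k l := fun l => by positivity
  have k0 : Tendsto k atTop (𝓝 0) := tendsto_one_div_add_atTop_nhds_zero_nat
  obtain ⟨φ, hφ, lam, lo, H1, H2⟩ := exists_joint hP (cn_closed (Q := Q) (A := A)) cn_zero hleg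
    kpos k0
  set q : ℕ → ℝ := fun l => k (φ l) with hq
  have qpos : ∀ l, 0 < q l := fun l => kpos _
  have q0 : Tendsto q atTop (𝓝 0) := k0.comp hφ.tendsto_atTop
  have q1 : Tendsto q atTop (𝓝[>] 0) :=
    tendsto_nhdsWithin_iff.2 ⟨q0, Eventually.of_forall fun l => qpos l⟩
  have hBU := Dg219.bup_of_tan qpos q0 H1
  have hBO := Dg219.bup_of_tan qpos q0 H2
  have hρ : K2S774.Nat Q A ρ := R.nat
  refine ⟨lam, lo, ⟨⟨fun _ => r0, q, ⟨qpos, q0, fun _ w hw => hr0 w hw, fun w hw R => ?_,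
    tendsto_const_nhds, H1, H2⟩, fun l i hi => by ring, fun _ => 0, fun l i _ => by ring,
    by simp⟩, hP.tan qpos H1 H2,
    fun w _ => ⟨Set.notMem_empty _, fun s hs => absurd hs (Set.notMem_empty s)⟩,
    fun i _ => Set.notMem_empty i, fun i _ => Set.notMem_empty i, Set.notMem_empty _, ?_, ?_, ?_,
    ?_, ?_⟩, ?_⟩
  · have h1 : Tendsto (fun l => r0 (Q.hd w) + R * q l) atTop (𝓝 (r0 (Q.hd w) + R * 0)) :=
      (q0.const_mul R).const_add _
    rw [mul_zero, add_zero] at h1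
    exact (h1.eventually_lt_const (hgap w hw)).mono fun l hl => hl.le
  · intro c hc c' hc' hcc _
    have : c = c' := funext fun i => hcc i (Set.notMem_empty i)
    rw [this]
  · intro σ
    refine tendsto_nhds_unique (hBU.lim _ (hρ.smul σ).mem) (tendsto_const_nhds.congr' ?_)
    filter_upwards [q1.eventually (hrec σ)] with l hl
    rw [hl]
    have := (qpos l).ne'
    field_simp
    ring
  · intro c hc d hd hdc
    refine le_of_tendsto (hBU.lim c hc) ?_
    filter_upwards [hBU.mem c hc, q1.eventually (hdm d hd)] with l m1 hl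
    have h1 := hP.mono _ hl.1 _ m1 (Qg926.add_smul_mono (qpos l).le
      (fun i => hdc i (Set.notMem_empty i)))
    rw [div_le_iff₀ (qpos l)]
    linarith [hl.2]
  · intro c hc hcT
    refine tendsto_nhds_unique (hBO.lim c hc) (tendsto_const_nhds.congr' ?_)
    filter_upwards [q1.eventually (hown c hc hcT)] with l hl
    rw [hl]
    have := (qpos l).ne'
    field_simp
    ring
  · intro c hc
    refine le_of_tendsto (hBO.lim c hc) ?_
    filter_upwards [q1.eventually (hownu c hc)] with l hl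
    rw [div_le_iff₀ (qpos l)]
    linarith
  · intro c hc hS
    refine le_of_tendsto (hBO.lim c hc) ?_
    filter_upwards [q1.eventually (hV c hc hS)] with l hl
    rw [div_le_iff₀ (qpos l)]
    linarith

end init

end Crest.Agent.R136.Lv831
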