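import Crest.Agent.R136.Own4_831

/-!
# R136: (Vis) at every scale and moving levels, consequences for tangents (helper831)

`VisS own b e j v` : there is `c > 0` such that for all `a` and `u > 0` the own loss of the slot `j`
at the level `v + a h`, at distance `u h` beyond the path, is `≥ c u h` for small `h`.

`ext_own_casesS` : the own dichotomy for `ExtZ` with `VisS`.
`own_tanZ`, `drop_tanZ` : own loss of a tangent of `ν` and strict drop along the tangent sequence, at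
a base point `x` : inputs `hown`, `hdrop` of 413's core.
-/

set_option autoImplicit false
set_option linter.unusedSectionVars false
set_option linter.unusedVariables false

open Filter Topology MeasureTheory Set

namespace Crest.Agent.R136.Own831

open Crest.Agent.R136.Dec146 Crest.Agent.R138.Ex926 Crest.Agent.R136.Net191
  Crest.Agent.R136.Qg926
open Crest.Agent.R136.Zpr779 (ExtZ)

variable {m : ℕ}

/-- the slot `j` rotates visibly near the level `v`, at every scale -/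
def VisS (own : (Fin m → ℝ) → ℝ) (b e : Fin m → ℝ) (j : Fin m) (v : ℝ) : Prop :=
  ∃ c : ℝ, 0 < c ∧ ∀ a u : ℝ, 0 < u → ∀ᶠ h in 𝓝[>] (0 : ℝ),
    c * (u * h) ≤ oloss own b e j (v + a * h) (u * h)

theorem Vis.strong {own : (Fin m → ℝ) → ℝ} {b e : Fin m → ℝ} {j : Fin m} {v : ℝ}
    (hv : Vis own b e j v)
    (hst : ∀ a u : ℝ, 0 ≤ u → Tendsto
      (fun h => (oloss own b e j (v + a * h) (u * h) - oloss own b e j v (u * h)) / h)
      (𝓝[>] 0) (𝓝 0)) : VisS own b e j v := by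
  obtain ⟨c, hc, y₀, hy₀, hy⟩ := hv
  refine ⟨c / 2, by linarith, fun a u hu => ?_⟩
  have h1 := (hst a u hu.le).eventually (lt_mem_nhds (show -(c / 2 * u) < 0 by nlinarith))
  have h2 : Tendsto (fun h : ℝ => u * h) (𝓝[>] 0) (𝓝 0) := by
    have : Tendsto (fun h : ℝ => u * h) (𝓝 0) (𝓝 (u * 0)) := tendsto_id.const_mul u
    rw [mul_zero] at this
    exact this.mono_left nhdsWithin_le_nhds
  filter_upwards [h1, h2.eventually (ge_mem_nhds hy₀), self_mem_nhdsWithin] with h g1 g2 g3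
  have hh : 0 < h := g3
  have g4 := hy (u * h) (mul_pos hu hh) g2
  rw [lt_div_iff₀ hh] at g1
  nlinarith

section path

variable {b e : Fin m → ℝ} {j kz : Fin m} {P : Set (Fin m → ℝ)} {α β y₁ : ℝ}

/-- stationarity of the loss on a legal set -/
theorem ae_stat_Leg {own : (Fin m → ℝ) → ℝ} {K : ℝ} (hK : 0 ≤ K)
    (hlip : ∀ p ∈ P, ∀ q ∈ P, |own p - own q| ≤ K * ‖p - q‖) (hsup : Sup4 own P)
    (hy₁ : 0 < y₁) (hr : RaiseLeg P b e j α β y₁) (he : ∀ i, 0 ≤ e i) (hej : 0 < e j)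
    (hkz : kz ≠ j) (hek : 0 < e kz) :
    ∀ᵐ v : ℝ, v ∈ Ioo α β → ∀ a u : ℝ, 0 ≤ u → Tendsto
      (fun h => (oloss own b e j (v + a * h) (u * h) - oloss own b e j v (u * h)) / h)
      (𝓝[>] 0) (𝓝 0) := by
  obtain ⟨own', hlip', hext⟩ := exists_ext hK hlip
  have hsup' : Sup4 own' P := by
    intro p hp q hq hi hs
    rw [hext p hp, hext q hq, hext _ hi, hext _ hs]
    exact hsup p hp q hq hi hs
  filter_upwards [ae_statAt (μ := volume) hK hlip' hsup' (LEGp_cone (e := e) (j := j))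
    (dom_of_raise hy₁ hr hkz hek)] with v hv hvI a u hu
  have h0 : (0 : Fin m → ℝ) ∈ LEGp e j := by
    have := LEGp_single (e := e) (j := j) (y := 0) le_rfl
    rwa [zero_smul] at this
  refine (stat_oloss he hej h0 (fun y hy => LEGp_single hy) (hv hvI) a hu).congr' ?_
  have t1 : Tendsto (fun h : ℝ => v + a * h) (𝓝[>] 0) (𝓝 v) := by
    have : Tendsto (fun h : ℝ => v + a * h) (𝓝 0) (𝓝 (v + a * 0)) :=
      (tendsto_id.const_mul a).const_add v
    rw [mul_zero, add_zero] at this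
    exact this.mono_left nhdsWithin_le_nhds
  have t2 : Tendsto (fun h : ℝ => u * h) (𝓝[>] 0) (𝓝 0) := by
    have : Tendsto (fun h : ℝ => u * h) (𝓝 0) (𝓝 (u * 0)) := tendsto_id.const_mul u
    rw [mul_zero] at this
    exact this.mono_left nhdsWithin_le_nhds
  filter_upwards [t1.eventually (lt_mem_nhds hvI.1), t1.eventually (gt_mem_nhds hvI.2),
    t2.eventually (gt_mem_nhds hy₁), self_mem_nhdsWithin] with h h1 h2 h3 h4
  have hh : 0 < h := h4
  rw [oloss_congr hext hr h1 h2 (mul_nonneg hu hh.le) h3.le,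
    oloss_congr hext hr hvI.1 hvI.2 (mul_nonneg hu hh.le) h3.le]

end path

variable {B B' : Base} {I0 I : ℕ → Finset (ℕ × ℝ)}
  {co : ∀ n : ℕ, ℕ × ℝ → ℕ × ℝ → Fin m → ℝ} {M : Mons m} {C : ℝ} {X : ℕ → Fin m → ℝ}
  {w : ℕ → ℝ} {Mw : Mons m} {R : ℝ} {Tn To : ℕ → ℝ} {kz j : Fin m} {w0 s : ℝ}
  {PD : Set (Fin m → ℝ)} {D : (Fin m → ℝ) → ℝ} {r o : ℝ → Fin m → ℝ} {E : ℝ → ℝ}
  {T : Fin m → Prop} {ν own : (Fin m → ℝ) → ℝ} {c₀ : ℝ} {b e : Fin m → ℝ} {α β y₁ : ℝ}


/-! ### tangents at a base point -/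

/-- position of a base point `x` of the level `v` : natural in the slot `j`, strictly own-wide in the
other slots, strictly above the lower path -/
structure PosP (w0 : ℝ) (kz j : Fin m) (o : ℝ → Fin m → ℝ) (b e : Fin m → ℝ) (α β v : ℝ)
    (x : Fin m → ℝ) : Prop where
  v1 : α < v
  v2 : v < β
  xz : x kz = w0 + v
  xj : x j = b j + v * e j
  wide : ∃ δ : ℝ, 0 < δ ∧ ∀ v' : ℝ, |v' - v| < δ → w0 + v' ≤ o v' kz ∧ b j + v' * e j ≤ o v' j ∧
    ∀ k, k ≠ kz → k ≠ j → x k + δ ≤ o v' k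
  low : ∀ k, k ≠ kz → k ≠ j → b k + v * e k < x k


variable {L : Set (Fin m → ℝ)} {lam : (Fin m → ℝ) → ℝ} {x : Fin m → ℝ} {v : ℝ} {hh : ℕ → ℝ}



end Crest.Agent.R136.Own831
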