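import Crest.Agent.R136.Rgl8_480
import Crest.Agent.R136.TL3_196
import Crest.Agent.R136.Tb4_628
import Crest.Agent.R136.GauC1_66
import Crest.Agent.R136.Lv4_831
import Crest.Agent.R136.AwZ_146
import Crest.Agent.R136.Own5_831
import Crest.Agent.R136.TL0_196
import Crest.Agent.R136.DMX1_779
import Crest.Agent.R136.Lq4_196
import Crest.Agent.R136.End4b_403
import Crest.Agent.R136.GBx_779
import Crest.Agent.R136.Gz1_779
import Crest.Agent.R136.Wq1_638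
import Crest.Agent.R136.GD5_186
import Crest.Agent.R136.NbC_196
import Crest.Agent.R136.Gz2_779

-- ▼ part R136/Rgl9_480
section

/-!
# R136 (helper480), T.L (A), part 5: `hasRig` for the data of the thick branch

* `lin_of_ctx` : the data of `Thick` with the pattern `pL` are an `LIn`;
* **`hasRig`** : every joint tangent at the record line has an interior point with `LightF`.
-/

set_option autoImplicit false
set_option linter.unusedSectionVars false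
set_option linter.unusedVariables false

open Filter Topology Set MeasureTheory

namespace Crest.Agent.R136.Rgl480

open Crest.Agent.R136.Dg219 (mw)
open Crest.Agent.R136.Dg262 (X)
open Crest.Agent.R136.Gau66 (eN tN cu LightF)
open Crest.Agent.R136.NatR550 (coneN nL)
open Crest.Agent.R136.NatT550
open Crest.Agent.R136.Net191 Crest.Agent.R136.Qg926 Crest.Agent.R136.Gf356
open Crest.Agent.R136.NetQ186 Crest.Agent.R136.Aw413
open Crest.Agent.R136.K2S774 (cn Prf JT Stage RecD RungD BaseOk Nat)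
open Crest.Agent.R136.LdF3511
open Crest.Agent.R136.AwJ774
open Crest.Agent.R136.Top484
open Crest.Agent.R136.Wq638
open Crest.Agent.R136.TL196
open Crest.Agent.R138.Ex926 (Base U IsTan)

variable {η : ℝ} {c : LCtx} {ξ₀ : ℝ} {ξ h : ℕ → ℝ} {lam lo : (Fin 11 → ℝ) → ℝ}

/-- **the data of the thick branch** -/
theorem lin_of_ctx (ok : c.Ok η) (h0 : 0 < ξ₀) (h1 : ξ₀ < 1) :
    LIn c.D.B c.D.I c.I1 (couQ c.D.B c.D.lev c.D.w c.w0 (incQ c.π c.D.L c.eE c.fA c.fB)) c.F 2 c.R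
      c.w0 (ownQ c.p.θ c.w0 c.R c.V) c.T c.ν c.own {k | c.V k} (Tb628.oS c.p.θ) (c.X ξ₀)
      (c.p.θ 1) := by
  have hL : c.p.θ 2 - c.p.θ 0 = 1 := ok.pat.2.2.1
  have hL2 : c.p.θ 2 = 2 * c.p.θ 1 := ok.pat.2.2.2
  have hv : ∀ k, c.V k → k = 3 ∨ k = 4 := fun k hk => by
    rcases (ok.th.tp.slots.vis k hk).1 with rfl | rfl | rfl
    · exact absurd hk ok.pat.1
    · exact Or.inl rfl
    · exact Or.inr rfl
  refine
    { src :=
        { prof := Tb628.nprof ok.th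
          ownF := Tb628.ownF ok.th
          path := Tb628.ownPath c.p.θ c.w0 c.R c.V
          rpos := fun k => (recF_box ok.th.tp.big (R_room ok).2.1 (R_room ok).1 h0 h1 k).1
          ownR := ⟨?_, ?_, fun k hk => ?_⟩ }
      chart := fun n i _ j _ => rfl
      slot := fun n i _ j _ => ?_
      T3 := ?_
      t3 := ok.pat.2.1
      tie := hv
      κ3 := ?_
      κ4 := ?_
      θpos := ok.th.tp.ok.θ1 }
  · simp only [LCtx.X, nat4, Matrix.cons_val]; linarith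
  · simp only [LCtx.X, nat4, Matrix.cons_val]; linarith
  · have e0 : c.X ξ₀ 0 - c.w0 = ξ₀ := by simp only [LCtx.X, nat4, Matrix.cons_val]; ring
    rw [e0]
    have hk' : c.V k := hk
    have hk0 : k ≠ 0 := by rcases hv k hk' with rfl | rfl <;> decide
    simp only [ownQ, if_neg hk0, if_pos hk']
    rcases hv k hk' with rfl | rfl <;>
      simp only [LCtx.X, nat4, pathQ, Matrix.cons_val] <;> ring
  · simp [couQ, coQ, GeoQ186.scl, incQ, GeoQ186.mkT]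
  · by_contra hT
    have := (ok.th.tp.slots.cap 3 ok.pat.2.1 hT).1
    revert this; decide
  · rw [Tb628.oS_eq]; simp only [Matrix.cons_val]; exact hL
  · rw [Tb628.oS_eq]; simp only [Matrix.cons_val]; linarith

/-- **(A) of T.L** : every joint tangent at the record line has an interior point whose tangent has
the numbers `LightF` -/
theorem hasRig (ok : c.Ok η) (hη : η < 1) (H : RecJ c ξ₀ ξ h lam lo) :
    ∃ z : ℝ × ℝ, z.1 < 0 ∧ RigAt lam lo (X 0 tN c.ρ z) := by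
  have hL : c.p.θ 2 - c.p.θ 0 = 1 := ok.pat.2.2.1
  have hL2 : c.p.θ 2 = 2 * c.p.θ 1 := ok.pat.2.2.2
  have hv : ∀ k, c.V k → k = 3 ∨ k = 4 := fun k hk => by
    rcases (ok.th.tp.slots.vis k hk).1 with rfl | rfl | rfl
    · exact absurd hk ok.pat.1
    · exact Or.inl rfl
    · exact Or.inr rfl
  have hq0 := ok.th.tp.ok.q0
  have hq2 := ok.th.tp.ok.q2
  have hg0 := ok.th.tp.ok.g0
  have hηp := ok.th.tp.ok.η_pos
  have hg : 0 < c.p.g - c.p.q 0 := by nlinarith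
  have e0 : rhoF c.p.θ 0 = 1 := by simp [rhoF, nL]
  exact hasRig_gen (lin_of_ctx ok H.ξ0 H.ξ1) (H.stage ok) (fun v t1 t2 t3 h => ⟨v, t1, t2, t3, rfl, h⟩)
    (fun i hi => by rcases hv i hi with rfl | rfl <;> simp)
    (fun i hi => by
      rw [Tb628.oS_eq]
      rcases hv i hi with rfl | rfl <;> simp only [oL, Matrix.cons_val])
    (fun i hi => by
      rw [e0]
      simp only [mem_insert_iff, mem_singleton_iff] at hi
      rcases hi with rfl | rfl <;> simp only [rhoF, nL, oL, Matrix.cons_val] <;> ring)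
    hL2 hL hg0.2 hq2.1 hg

end Crest.Agent.R136.Rgl480
end

-- ▼ part R136/GauF_66
section

/-!
# R136 (helper66): T.L, the seam `SeamWin`
-/

set_option autoImplicit false

open Filter Topology Finset

namespace Crest.Agent.R136.Gau66

open Crest.Agent.R138.Ex926
open Crest.Agent.R136.TL196

/-- 480's interior point -/
theorem hasRig_ctx {η : ℝ} (hη : η < 1) (c : LCtx) (ok : c.Ok η) : HasRig c := by
  intro ξ₀ ξ h lam lo RJ
  obtain ⟨z, hz, k, k0, kt, lamI, loI, a, m, t1, -, LF⟩ := Rgl480.hasRig ok hη RJ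
  refine ⟨z, hz, k, k0, kt, lamI, a, m, ?_, LF⟩
  have e : (fun _ : ℕ => z.1 • tN + z.2 • c.ρ) = fun _ => Dg262.X 0 tN c.ρ z := by
    funext _ i
    simp only [Dg262.X, Pi.add_apply, Pi.smul_apply, smul_eq_mul, Pi.zero_apply]
    ring
  rw [e]
  exact t1

/-- **the seam** of the gauge stage of T.L -/
theorem seamWin {η : ℝ} (hη : η < 1) : SeamWin η := seamWin_of (hasRig_ctx hη)

end Crest.Agent.R136.Gau66
end

-- ▼ part R136/Lv5_831
section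

/-!
# R136, T.L, the seam (Vis) (helper831)

`loss_rec` : D-max losses at the record; `drop_of_lo` : strict drop from an own drop of the joint
tangent; **`flemV`** : F-lemma left of the record; **`dead_V`**; **`seamVis`** : `SeamVis η`, `η ≤ 1`.
-/

set_option autoImplicit false
set_option linter.unusedSectionVars false
set_option linter.unusedVariables false

open Filter Topology MeasureTheory

namespace Crest.Agent.R136.Lv831

open Finset Crest.Agent.R136.NetQ186 Crest.Agent.R136.Net191 Crest.Agent.R136.Qg926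
open Crest.Agent.R136.GeoQ186
open Crest.Agent.R136.Gf356 Crest.Agent.R136.Aw413
open Crest.Agent.R136.Dg219 Crest.Agent.R136.Dg262
open Crest.Agent.R136.K2S774 (cn Prf JT Stage RecD RungD BaseOk X_zero)
open Crest.Agent.R136.K2A146 (FLemA deadA)
open Crest.Agent.R136.AwJ774 (Wt mA mem_mA coneM_mA bas_of_jt)
open Crest.Agent.R136.AwZ146 (BasX aewZ_core)
open Crest.Agent.R136.LdF511 (W7)
open Crest.Agent.R136.Top484 (Par4)
open Crest.Agent.R136.TL196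
open Crest.Agent.R136.Gz779
open Crest.Agent.R138.Ex926 (Base U IsTan)

/-! ### stage facts -/

section stage

variable {m : ℕ} {W : Type*} [Fintype W] {Q : Walls (Fin m) W} {A : W → Prop}
  {P : Set (Fin m → ℝ)} {ν own : (Fin m → ℝ) → ℝ} {K : ℝ} {r0 ρ : Fin m → ℝ}
  {Dl : (Fin m → ℝ) →ₗ[ℝ] ℝ} {Z Tie : Set (Fin m)} {kz : Fin m}
  {o : Fin m → ℝ} {τ : ℝ} {Dr : Set (Fin m)} {lam lo : (Fin m → ℝ) → ℝ}

/-- D-max loss of `u` at the record points: `u` pays for one more slot -/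
theorem loss_rec (H : Stage Q P ν own K r0 ρ Dl (cn Q A) Z Tie kz o τ A Dr lam lo)
    (R : RecD Q A ρ (cn Q A) Tie kz o) {u d : Fin m → ℝ} {s : Fin m}
    (hds : d = u + (Pi.single s (1:ℝ) : Fin m → ℝ))
    (hd : d ∈ cn Q A) {mm : ℝ} (hm : Dl d = -(1 + mm))
    (σ h : ℝ) (hh : 0 ≤ h) (hmem : σ • ρ + h • u ∈ cn Q A) :
    mm * h ≤ lam (σ • ρ) - lam (σ • ρ + h • u) := by
  have md := R.qd _ hd σ h hh
  have h1 := H.dmx _ md _ md fun i _ => le_rfl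
  have hdi : ∀ i, d i = u i + (Pi.single s (1:ℝ) : Fin m → ℝ) i := fun i => by rw [hds]; rfl
  have hle : σ • ρ + h • u ≤ σ • ρ + h • d := by
    intro i
    simp only [Pi.add_apply, Pi.smul_apply, smul_eq_mul]
    have : (0:ℝ) ≤ (Pi.single s (1:ℝ) : Fin m → ℝ) i := by
      by_cases hi : i = s
      · subst hi; simp
      · rw [Pi.single_eq_of_ne hi]
    have := mul_nonneg hh this
    rw [hdi]
    linarith
  have h2 := H.prf.sharp _ hmem _ md hle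
  have e1 : ∑ i, ((σ • ρ + h • d) i - (σ • ρ + h • u) i) = h := by
    rw [sum_eq_single s]
    · simp only [Pi.add_apply, Pi.smul_apply, smul_eq_mul]
      rw [hdi, Pi.single_eq_same]; ring
    · intro i _ hi
      simp only [Pi.add_apply, Pi.smul_apply, smul_eq_mul]
      rw [hdi, Pi.single_eq_of_ne hi]; ring
    · intro hs; exact absurd (mem_univ s) hs
  rw [e1] at h2
  rw [map_add, map_smul, map_smul, smul_eq_mul, smul_eq_mul, hm] at h1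
  rw [H.rcd σ]
  nlinarith

/-- strict drop of `ν` from a drop of the own tangent -/
theorem drop_of_lo {x : ℕ → Fin m → ℝ} {h : ℕ → ℝ} (hJ : JT Q A P ν own r0 x h lam lo)
    (hle : ∀ p ∈ P, ∀ q ∈ P, p ≤ q → own p - own q ≤ ν p - ν q) {c c' : Fin m → ℝ}
    (hc : c ∈ cn Q A) (hc' : c' ∈ cn Q A) (hcc : c ≤ c') (hlt : lo c' < lo c) :
    ∀ᶠ l in atTop, ν (x l + h l • c') < ν (x l + h l • c) := by
  set ε : ℝ := (lo c - lo c') / 3 with hε
  have hε0 : 0 < ε := by rw [hε]; linarith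
  filter_upwards [hJ.tano ‖c‖ ε hε0, hJ.tano ‖c'‖ ε hε0] with l h1 h2
  obtain ⟨m1, e1⟩ := h1 c hc le_rfl
  obtain ⟨m2, e2⟩ := h2 c' hc' le_rfl
  have hl := hJ.pos l
  have h3 := hle _ m1 _ m2 (Qg926.add_smul_mono hl.le hcc)
  rw [abs_le] at e1 e2
  have h4 : h l * (lo c - lo c') = 3 * (ε * h l) := by rw [hε]; ring
  have h5 : 0 < ε * h l := mul_pos hε0 hl
  nlinarith

end stage

/-! ### the F-lemma -/

/-- D-max, linear part -/
noncomputable def DLl (p : Par4) : (Fin 11 → ℝ) →ₗ[ℝ] ℝ where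
  toFun := DL p
  map_add' := fun a b => by simp only [DL, Pi.add_apply]; ring
  map_smul' := fun t a => by
    simp only [DL, Pi.smul_apply, smul_eq_mul, RingHom.id_apply]; ring

theorem DLl_apply (p : Par4) (a : Fin 11 → ℝ) : DLl p a = DL p a := rfl

section flem

variable {B B₁ : Base} {I0 J : ℕ → Finset (ℕ × ℝ)} {co : ∀ n : ℕ, ℕ × ℝ → ℕ × ℝ → Fin 11 → ℝ}
  {f : ℕ → ℕ × ℝ → Fq4} {C : ℝ} {X : ℕ → Fin 11 → ℝ} {wx : ℕ → ℝ} {T : ℕ → ℝ}
  {ν own lam lo : (Fin 11 → ℝ) → ℝ} {p : Par4} {v kk : ℝ}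

/-- **the F-lemma left of the record** -/
theorem flemV (hZ : ZWin B B₁ I0 J co monQ C X wx (Leg monQ 20) T ν) (hC : 0 ≤ C)
    (hco : ∀ n, ∀ i ∈ I0 n, ∀ j ∈ I0 n, co n i j = coQ (f n i) (f n j))
    (hX : ∀ n, NatV (X n)) (h0 : 0 < p.θ 1) (h1 : p.θ 1 < 1) (v0 : 0 < v) (v1 : v < 1)
    (hq1 : 0 < p.q 1) (hq2 : 0 < p.q 2)
    (H : Stage (mw monQ) (Leg monQ 20) ν own ((11 : ℕ) : ℝ) (rB (p.θ 1) v) (rV (p.θ 1)) (DLl p)
      (cn (mw monQ) AV) ({1, 2, 3, 5, 6} : Set (Fin 11)) ({4} : Set (Fin 11)) 0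
      (fun _ => 1 - p.θ 1) 1 AV ∅ lam lo)
    (hkk : 0 < kk) (hlo : ∀ c ∈ cn (mw monQ) AV, (1 - p.θ 1) * c 0 ≤ c 4 →
      lo c ≤ -(c 0) - kk * (c 4 - (1 - p.θ 1) * c 0))
    (hle : ∀ a ∈ Leg monQ 20, ∀ b ∈ Leg monQ 20, a ≤ b → own a - own b ≤ ν a - ν b) :
    FLemA (mw monQ) AV (Leg monQ 20) ν own (rB (p.θ 1) v) (DLl p) ({4} : Set (Fin 11)) 0
      (fun _ => 1 - p.θ 1) (TV (p.θ 1)) (TV (p.θ 1)) (rV (p.θ 1)) lam lo (fun _ => True)
      (p.g - p.q 0 * (1 - p.θ 1)) := by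
  intro z hz D hD k lam' lo' kpos k0 H1 H2 x' h' hJ hB φ rt out _
  set θ := p.θ 1 with hθ
  have R := recD_V θ
  have T0 := TV_nonneg h1
  have natT := (TV_nat θ).nat
  have hTie : ∀ i ∈ ({4} : Set (Fin 11)), (fun _ : Fin 11 => 1 - θ) i * TV θ 0 ≤ TV θ i := by
    intro i hi
    rw [Set.mem_singleton_iff.1 hi]
    simp [TV]
  have hb : ∀ i, i ∉ (∅ : Set (Fin 11)) → rV θ i = rV θ i := fun i _ => rfl
  have hown := H.hown R natT hTie hb hz kpos k0 H1 H2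
  have hlo1 := (H.lo_tan R natT hTie hb hz kpos k0 H2).1
  -- own drop of the tangent
  have hlo2 : ∀ c ∈ cn (mw monQ) AV, (1 - θ) * c 0 < c 4 → lo' c < -(c 0) := by
    intro c hc hc4
    set y : Fin 11 → ℝ := Dg262.X 0 (TV θ) (rV θ) z with hy
    have hyn : K2S774.Nat (mw monQ) AV y := by
      rw [hy, X_zero]; exact (natT.smul _).add ((rV_nat θ).nat.smul _)
    have y4 : y 4 = (1 - θ) * y 0 := by
      rw [hy, X_zero]; simp [TV, rV]; ring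
    have hBO := Dg219.bup_of_tan kpos k0 H2
    have hy0 : lo y = -(1 * y 0) := H.ownr y hyn.mem fun i hi => by
      rw [Set.mem_singleton_iff.1 hi, y4]
    have hle1 : lo' c ≤ -(c 0) - kk * (c 4 - (1 - θ) * c 0) := by
      refine le_of_tendsto (hBO.lim c hc) (Eventually.of_forall fun l => ?_)
      have hk := kpos l
      have h3 : (1 - θ) * (y + k l • c) 0 ≤ (y + k l • c) 4 := by
        simp only [Pi.add_apply, Pi.smul_apply, smul_eq_mul, y4]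
        nlinarith
      have h4 := hlo _ (K2S774.cn_nat_add hyn hc hk.le) h3
      rw [div_le_iff₀ hk, hy0]
      simp only [Pi.add_apply, Pi.smul_apply, smul_eq_mul, y4] at h4
      nlinarith
    have : 0 < kk * (c 4 - (1 - θ) * c 0) := mul_pos hkk (by linarith)
    linarith
  -- the windows
  have hcone : coneM MaV = cn (mw monQ) AV := by rw [← coneM_mA, mA_V]
  have hBas : Bas monQ MaV x' h' := by
    have := bas_of_jt hJ (rB_pos h0 h1 v0 v1)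
    rwa [mA_V] at this
  have hBX : BasX monQ monQ MaV X wx :=
    ⟨MaV_sub, fun k e he n => (hX n).eq k e he, fun k e he hne => absurd he hne⟩
  have ht := hJ.tan
  have outS := out.toOutS
  rw [← hcone] at ht outS
  have hA : AeW B B₁ I0 J co monQ MaV C lam' (TV θ) (rV θ) (D (1, 0), D (0, 1)) φ rt 0 1
      (fun _ => 1 - θ) (fun i => i = 4) (fun i => i = 4) :=
    aewZ_core hZ (by norm_num) hBX hBas ht outS
      (by
        intro c hc c' hc' hcc hV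
        rw [hcone] at hc hc'
        exact hown c hc c' hc' hcc fun i hi _ => hV i (Set.mem_singleton_iff.1 hi))
      (by decide)
      (by
        rintro c hc c' hc' hcc hV hkz ⟨i, hi, hi2⟩
        subst hi
        rw [hcone] at hc hc'
        refine drop_of_lo hJ hle hc hc' hcc ?_
        have e1 := hlo1 c hc fun i hi _ => hV i (Set.mem_singleton_iff.1 hi)
        have e2 := hlo2 c' hc' (by rw [hkz]; exact hi2)
        rw [hkz] at e2
        linarith)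
  -- the sweeps
  have mz : bwT 1 0 0 0 0 0 0 0 ∈ cn (mw monQ) AV := by
    rw [← hcone]
    exact bwT_cone (by norm_num) (by norm_num) (by norm_num) (by norm_num) (by norm_num)
      (by norm_num) (by norm_num)
  have z0 : ∀ i : Fin 11, TV θ i = 0 → bwT 1 0 0 0 0 0 0 0 i ≤ 0 * rV θ i := by
    intro i hi
    rw [zero_mul]
    rcases (TV_zero h1 i).1 hi with rfl | rfl | rfl | rfl | rfl <;> simp [bwT]
  have S1 : ∀ t : ℝ, 0 ≤ t → t ≤ 1 →
      p.q 1 * t ≤ lam' (bwT 1 0 0 0 0 0 0 0) - lam' (bwT 1 0 t 0 0 0 0 0) := by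
    intro t ht0 ht1
    set u : Fin 11 → ℝ := Pi.single 5 1 with hu
    have e1 : bwT 1 0 0 0 0 0 0 0 + t • u = bwT 1 0 t 0 0 0 0 0 := by
      funext i
      fin_cases i <;> simp [bwT, hu]
    have m1 : bwT 1 0 t 0 0 0 0 0 ∈ cn (mw monQ) AV := by
      rw [← hcone]
      exact bwT_cone (by linarith) (by linarith) (by linarith) (by linarith) (by linarith)
        (by linarith) (by linarith)
    have hds : (![0, 0, 0, 0, 0, 1, 0, 0, 1, 0, 0] : Fin 11 → ℝ) =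
        u + (Pi.single 8 (1:ℝ) : Fin 11 → ℝ) := by
      funext i
      fin_cases i <;> simp [hu]
    have hd : (![0, 0, 0, 0, 0, 1, 0, 0, 1, 0, 0] : Fin 11 → ℝ) ∈ cn (mw monQ) AV := by
      rw [cn_V]
      refine ⟨?_, ?_, ?_, ?_, ?_, ?_, ?_⟩ <;> simp only [Matrix.cons_val] <;> norm_num
    have hm : DLl p ![0, 0, 0, 0, 0, 1, 0, 0, 1, 0, 0] = -(1 + p.q 1) := by
      rw [DLl_apply]
      simp [DL]
      ring
    have := H.sweepR R.nat T0 natT hb hz kpos k0 H1 (u := u) (c' := bwT 1 0 0 0 0 0 0 0)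
      (mm := p.q 1) (σ := 0) (h := t) (by
        intro i
        rw [hu]
        by_cases hi : i = 5
        · subst hi; simp
        · rw [Pi.single_eq_of_ne hi]) ht0 (fun σ h hh hmem => loss_rec H R hds hd hm σ h hh hmem)
      mz (by rw [e1]; exact m1) (fun i _ hi => z0 i hi) (by
        intro i _ hui
        have hi : i = 5 := by
          by_contra hi
          exact hui (by rw [hu, Pi.single_eq_of_ne hi])
        subst hi
        exact ⟨by simp [TV], by simp [bwT]⟩)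
    rwa [e1] at this
  have S2 : ∀ t : ℝ, 0 ≤ t → t ≤ 1 →
      p.q 2 * t ≤ lam' (bwT 1 0 0 0 0 0 0 0) - lam' (bwT 1 t 0 t 0 0 0 0) := by
    intro t ht0 ht1
    set u : Fin 11 → ℝ := ![0, 0, 1, 0, 0, 0, 1, 0, 0, 0, 0] with hu
    have e1 : bwT 1 0 0 0 0 0 0 0 + t • u = bwT 1 t 0 t 0 0 0 0 := by
      funext i
      fin_cases i <;> simp [bwT, hu]
    have m1 : bwT 1 t 0 t 0 0 0 0 ∈ cn (mw monQ) AV := by
      rw [← hcone]
      exact bwT_cone (by linarith) (by linarith) (by linarith) (by linarith) (by linarith)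
        (by linarith) (by linarith)
    have hds : (![0, 0, 1, 0, 0, 0, 1, 0, 0, 1, 0] : Fin 11 → ℝ) =
        u + (Pi.single 9 (1:ℝ) : Fin 11 → ℝ) := by
      funext i
      fin_cases i <;> simp [hu]
    have hd : (![0, 0, 1, 0, 0, 0, 1, 0, 0, 1, 0] : Fin 11 → ℝ) ∈ cn (mw monQ) AV := by
      rw [cn_V]
      refine ⟨?_, ?_, ?_, ?_, ?_, ?_, ?_⟩ <;> simp only [Matrix.cons_val] <;> norm_num
    have hm : DLl p ![0, 0, 1, 0, 0, 0, 1, 0, 0, 1, 0] = -(1 + p.q 2) := by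
      rw [DLl_apply]
      simp [DL]
      ring
    have := H.sweepR R.nat T0 natT hb hz kpos k0 H1 (u := u) (c' := bwT 1 0 0 0 0 0 0 0)
      (mm := p.q 2) (σ := 0) (h := t) (by
        intro i
        fin_cases i <;> simp [hu]) ht0 (fun σ h hh hmem => loss_rec H R hds hd hm σ h hh hmem)
      mz (by rw [e1]; exact m1) (fun i _ hi => z0 i hi) (by
        intro i _ hui
        have hi : i = 2 ∨ i = 6 := by
          revert hui
          fin_cases i <;> simp [hu]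
        rcases hi with rfl | rfl
        · exact ⟨by simp [TV], by simp [bwT]⟩
        · exact ⟨by simp [TV], by simp [bwT]⟩)
    rwa [e1] at this
  have hsl := slopeV (ι := fun _ => ℕ × ℝ) (f := f) hA h0 h1 hC hco hZ.ne (fun i hi => Or.inr hi)
    rfl hq1 hq2 S1 S2
  have hDT : DLl p (TV θ) = p.g - 5 + θ - p.q 0 * (1 - θ) := by
    rw [DLl_apply]
    simp [DL, TV]
    ring
  rw [hDT]
  simp only at hsl
  linarith

end flem

end Crest.Agent.R136.Lv831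
end

-- ▼ part R136/Lv6_831
section

/-!
# R136, T.L, the seam (Vis), end (helper831)

`GV` : facts of the gauge object, `T1 = 1`, `x = 5`, `R' = 20`; `stageV` : the stage at a record point;
`gv_of_gz`, `visS_of_gz`; **`seamVis`** : `SeamVis η` for `η ≤ 1`.
-/

set_option autoImplicit false
set_option linter.unusedSectionVars false
set_option linter.unusedVariables false

open Filter Topology MeasureTheory

namespace Crest.Agent.R136.Lv831

open Finset Crest.Agent.R136.NetQ186 Crest.Agent.R136.Net191 Crest.Agent.R136.Qg926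
open Crest.Agent.R136.GeoQ186
open Crest.Agent.R136.Gf356 Crest.Agent.R136.Aw413
open Crest.Agent.R136.Dg219 Crest.Agent.R136.Dg262
open Crest.Agent.R136.K2S774 (cn Prf JT Stage RecD RungD BaseOk X_zero)
open Crest.Agent.R136.K2A146 (FLemA deadA)
open Crest.Agent.R136.LdF511 (W7)
open Crest.Agent.R136.Top484 (Par4)
open Crest.Agent.R136.TL196
open Crest.Agent.R136.Gz779
open Crest.Agent.R136.Zpr779 (ExtZ)
open Crest.Agent.R138.Ex926 (Base U IsTan)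
open Crest.Agent.R136.Own831 (ol11 oe11 lPath11 LPath VisS oloss ae_stat_Leg ext_sup4)

/-- facts of the gauge object used on the ending (Vis) -/
structure GV (p : Par4) (ν own : (Fin 11 → ℝ) → ℝ) (c₀ : ℝ) : Prop where
  prf : Prf (Leg monQ 20) ν own ((11 : ℕ) : ℝ)
  dmax : ∀ a ∈ Leg monQ 20, ν a ≤ c₀ + DL p a
  rcd : ∀ v : ℝ, 0 ≤ v → v ≤ 1 → rz (p.θ 1) 1 5 v ∈ Leg monQ 20 ∧
    c₀ + DL p (rz (p.θ 1) 1 5 v) ≤ ν (rz (p.θ 1) 1 5 v)
  rot : ∀ a ∈ Leg monQ 20, ∀ v : ℝ, 0 ≤ v → v ≤ 1 → a 0 = v → a 1 ≤ 5 → a 3 ≤ 5 →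
    a 4 ≤ 1 + (1 - p.θ 1) * v → own a = 1 - v
  up : ∀ a ∈ Leg monQ 20, ∀ v : ℝ, 0 ≤ v → v ≤ 1 → a 0 = v → own a ≤ 1 - v
  zero : ∀ a ∈ Leg monQ 20, ∀ b ∈ Leg monQ 20, a ≤ b → (∀ k, k ≠ 1 → k ≠ 3 → a k = b k) →
    b 1 ≤ 5 → b 3 ≤ 5 → ν a = ν b ∧ own a = own b

/-- visible near the level `v`, at every scale -/
def VisB (θ : ℝ) (own : (Fin 11 → ℝ) → ℝ) (v : ℝ) : Prop :=
  ∃ c1 : ℝ, 0 < c1 ∧ ∀ a u : ℝ, 0 < u → ∀ᶠ h in 𝓝[>] (0 : ℝ), ∀ b ∈ Leg monQ 20,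
    v + a * h ≤ b 0 → 5 ≤ b 3 → 1 + (1 - θ) * (v + a * h) + u * h ≤ b 4 →
      own b ≤ 1 - (v + a * h) - c1 * (u * h)

theorem DL_congr (p : Par4) {a b : Fin 11 → ℝ} (h : ∀ k, k ≠ 1 → k ≠ 3 → a k = b k) :
    DL p a = DL p b := by
  simp only [DL]
  rw [h 0 (by decide) (by decide), h 8 (by decide) (by decide), h 9 (by decide) (by decide),
    h 10 (by decide) (by decide)]

theorem rz_off (θ v : ℝ) : ∀ k, k ≠ 1 → k ≠ 3 → rB θ v k = rz θ 1 5 v k := by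
  intro k h1 h3
  revert h1 h3
  fin_cases k <;> simp [rB, rz]

theorem rz_le (θ v : ℝ) : rB θ v ≤ rz θ 1 5 v := by
  intro k
  by_cases h1 : k = 1
  · subst h1; simp [rB, rz]; norm_num
  by_cases h3 : k = 3
  · subst h3; simp [rB, rz]; norm_num
  exact (rz_off θ v k h1 h3).le

section st

variable {p : Par4} {ν own : (Fin 11 → ℝ) → ℝ} {c₀ v : ℝ} (G : GV p ν own c₀)

include G

theorem GV.nu_rB {v : ℝ} (v0 : 0 ≤ v) (v1 : v ≤ 1) (hm : rB (p.θ 1) v ∈ Leg monQ 20) :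
    ν (rB (p.θ 1) v) = c₀ + DL p (rB (p.θ 1) v) := by
  obtain ⟨m1, h1⟩ := G.rcd v v0 v1
  have h2 := (G.zero _ hm _ m1 (rz_le _ _) (rz_off _ _) (by simp [rz]) (by simp [rz])).1
  have h3 := G.dmax _ hm
  rw [← h2, ← DL_congr p (rz_off (p.θ 1) v)] at h1
  linarith

variable (h0 : 0 < p.θ 1) (h1 : p.θ 1 < 1) (v0 : 0 < v) (v1 : v < 1)

include h0 h1 v0 v1

theorem ev_near {δ : ℝ} (hδ : 0 < δ) (dv : δ ≤ v) (dθ : δ ≤ 1 - p.θ 1 * v) (d1 : δ ≤ 1 / 8)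
    {c : Fin 11 → ℝ} (hc : c ∈ cn (mw monQ) AV) : ∀ᶠ h in 𝓝[>] (0 : ℝ), 0 < h ∧
      rB (p.θ 1) v + h • c ∈ Leg monQ 20 ∧ ∀ k, |h * c k| ≤ δ := by
  have t : Tendsto (fun h : ℝ => h * ‖c‖) (𝓝[>] 0) (𝓝 0) := by
    have : Tendsto (fun h : ℝ => h * ‖c‖) (𝓝 0) (𝓝 (0 * ‖c‖)) := tendsto_id.mul_const _
    rw [zero_mul] at this
    exact this.mono_left nhdsWithin_le_nhds
  filter_upwards [t.eventually (ge_mem_nhds hδ), self_mem_nhdsWithin] with h h2 h3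
  have hh : 0 < h := h3
  have hs := small_of (c := c) le_rfl hh.le h2
  refine ⟨hh, nearB h0 h1 v0 v1 dv dθ d1 ?_ hs, fun k => by simpa using hs k⟩
  rw [← cn_V]
  exact K2S774.cn_smul hc hh.le

/-- **the stage at the record point of level `v`** -/
theorem stageV (hvis : VisB (p.θ 1) own v) : ∃ (kk : ℝ) (lam lo : (Fin 11 → ℝ) → ℝ), 0 < kk ∧
    Stage (mw monQ) (Leg monQ 20) ν own ((11 : ℕ) : ℝ) (rB (p.θ 1) v) (rV (p.θ 1)) (DLl p)
      (cn (mw monQ) AV) ({1, 2, 3, 5, 6} : Set (Fin 11)) ({4} : Set (Fin 11)) 0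
      (fun _ => 1 - p.θ 1) 1 AV ∅ lam lo ∧
    ∀ c ∈ cn (mw monQ) AV, (1 - p.θ 1) * c 0 ≤ c 4 →
      lo c ≤ -(c 0) - kk * (c 4 - (1 - p.θ 1) * c 0) := by
  obtain ⟨δ, hδ, dv, dv1, dθ, d1⟩ := roomB h0 h1 v0 v1
  set θ := p.θ 1 with hθ
  have near : ∀ {c : Fin 11 → ℝ}, c ∈ cn (mw monQ) AV → ∀ᶠ h in 𝓝[>] (0 : ℝ), 0 < h ∧
      rB θ v + h • c ∈ Leg monQ 20 ∧ ∀ k, |h * c k| ≤ δ := fun hc =>
    ev_near G h0 h1 v0 v1 hδ dv dθ d1 hc
  have mB : rB θ v ∈ Leg monQ 20 := by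
    have := nearB h0 h1 v0 v1 dv dθ d1 (d := 0) (by
      rw [← cn_V]; exact K2S774.cn_zero) (fun k => by simpa using hδ.le)
    rwa [add_zero] at this
  have b0 : ∀ (c : Fin 11 → ℝ) (h : ℝ), (rB θ v + h • c) 0 = v + h * c 0 := fun c h => by
    simp [rB]
  have b1 : ∀ (c : Fin 11 → ℝ) (h : ℝ), (rB θ v + h • c) 1 = 9 / 2 + h * c 1 := fun c h => by
    simp [rB]
  have b3 : ∀ (c : Fin 11 → ℝ) (h : ℝ), (rB θ v + h • c) 3 = 9 / 2 + h * c 3 := fun c h => by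
    simp [rB]
  have b4 : ∀ (c : Fin 11 → ℝ) (h : ℝ), (rB θ v + h • c) 4 = 1 + (1 - θ) * v + h * c 4 :=
    fun c h => by simp [rB]
  have oB : own (rB θ v) = 1 - v := G.rot _ mB v v0.le v1.le (by simp [rB])
    (by simp [rB]; norm_num) (by simp [rB]; norm_num) (by
      show rB θ v 4 ≤ 1 + (1 - θ) * v
      simp [rB])
  have hup : ∀ c ∈ cn (mw monQ) AV, ∀ᶠ h in 𝓝[>] (0:ℝ),
      own (rB θ v + h • c) ≤ own (rB θ v) - h * (1 * c 0) := by
    intro c hc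
    filter_upwards [near hc] with h ⟨hh, hm, hs⟩
    have s0 := abs_le.1 (hs 0)
    have := G.up _ hm (v + h * c 0) (by linarith [s0.1]) (by linarith [s0.2]) (b0 c h)
    rw [oB]; linarith
  obtain ⟨c1, hc1, hvis⟩ := hvis
  obtain ⟨lam, lo, hS, hlo⟩ := stage_initV (Q := mw monQ) (A := AV) (P := Leg monQ 20) (ν := ν)
    (own := own) (K := ((11 : ℕ) : ℝ)) (r0 := rB θ v) (ρ := rV θ) (Dl := DLl p)
    (Qd := cn (mw monQ) AV) (Z := ({1, 2, 3, 5, 6} : Set (Fin 11))) (Tie := ({4} : Set (Fin 11)))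
    (kz := 0) (o := fun _ => 1 - θ) (τ := 1)
    (f := fun c => -(c 0) - c1 * (c 4 - (1 - θ) * c 0)) (S := fun c => (1 - θ) * c 0 ≤ c 4)
    G.prf (recD_V θ)
    (by
      intro w hw
      have := (rB_nat θ v).nat w hw
      rw [this]
      show _ = _ + 0
      rw [add_zero])
    (by
      intro w hw
      have := (rB_nat θ v).gap (δ := 1) (by
          simp only [rB, Matrix.cons_val]; nlinarith)
        (by simp only [rB, Matrix.cons_val]; nlinarith) w.1 w.2.1 w.2.2 hw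
      show rB θ v w.1 < (mw monQ).rhs w (rB θ v) + 0
      have e : (mw monQ).rhs w (rB θ v) = ∑ s, (w.2.1 s : ℝ) * rB θ v s := rfl
      rw [e]
      linarith)
    (by
      intro C
      refine ⟨δ / (|C| + 1), by positivity, fun h hh hlt c hc hcC => ?_⟩
      rw [lt_div_iff₀ (by positivity)] at hlt
      have h3 : h * C ≤ δ := by
        have := mul_le_mul_of_nonneg_left (le_abs_self C) hh.le
        nlinarith
      refine nearB h0 h1 v0 v1 dv dθ d1 ?_ (small_of hcC hh.le h3)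
      rw [← cn_V]
      exact K2S774.cn_smul hc hh.le)
    (by
      intro σ
      have hρ : σ • rV θ ∈ cn (mw monQ) AV := ((rV_nat θ).nat.smul σ).mem
      filter_upwards [near hρ] with h ⟨hh, hm, hs⟩
      have s0 := abs_le.1 (hs 0)
      have e0 : (σ • rV θ) 0 = σ := by simp [rV]
      rw [e0] at s0
      have e1 : rB θ v + h • σ • rV θ = rB θ (v + h * σ) := by rw [smul_smul, rB_add]
      rw [e1] at hm ⊢
      rw [G.nu_rB (by linarith [s0.1]) (by linarith [s0.2]) hm, G.nu_rB v0.le v1.le mB,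
        ← rB_add θ v (h * σ), ← DLl_apply, ← DLl_apply, map_add, map_smul, smul_eq_mul]
      ring)
    (by
      intro d hd
      filter_upwards [near hd] with h ⟨hh, hm, hs⟩
      refine ⟨hm, ?_⟩
      have h3 := G.dmax _ hm
      rw [G.nu_rB v0.le v1.le mB]
      rw [← DLl_apply, map_add, map_smul, smul_eq_mul] at h3
      rw [← DLl_apply]
      linarith)
    (by
      intro c hc hcT
      have c4 := hcT 4 rfl
      filter_upwards [near hc] with h ⟨hh, hm, hs⟩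
      have s0 := abs_le.1 (hs 0)
      have s1 := abs_le.1 (hs 1)
      have s3 := abs_le.1 (hs 3)
      have := G.rot _ hm (v + h * c 0) (by linarith [s0.1]) (by linarith [s0.2]) (b0 c h)
        (by rw [b1]; linarith [s1.2]) (by rw [b3]; linarith [s3.2]) (by
          rw [b4]
          have := mul_le_mul_of_nonneg_left c4 hh.le
          linarith)
      rw [this, oB]; ring)
    hup
    (by
      intro c hc hS
      rcases hS.eq_or_lt with he | hlt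
      · filter_upwards [hup c hc] with h hh
        rw [← he]
        linarith
      · have hu : 0 < c 4 - (1 - θ) * c 0 := by linarith
        filter_upwards [near hc, hvis (c 0) _ hu] with h ⟨hh, hm, hs⟩ hv
        have s1 := abs_le.1 (hs 1)
        have s3 := abs_le.1 (hs 3)
        set q : Fin 11 → ℝ := rB θ v + h • c with hq
        have q3 : q 3 ≤ 5 := by rw [hq, b3]; linarith [s3.2]
        set b : Fin 11 → ℝ := Function.update q 3 5 with hb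
        have boff : ∀ k, k ≠ 3 → b k = q k := fun k hk => by
          rw [hb, Function.update_of_ne hk]
        have bon : b 3 = 5 := by rw [hb, Function.update_self]
        have hmb : b ∈ Leg monQ 20 := by
          obtain ⟨hl, hR⟩ := hm
          refine ⟨?_, fun k => ?_⟩
          · rw [legalQ_iff] at hl ⊢
            obtain ⟨w0, w1, w2, w3, w4, w5, w6, w7, w8, w9, w10, w11⟩ := hl
            refine ⟨fun k => ?_, ?_, ?_, ?_, ?_, ?_, ?_, ?_, ?_, ?_, ?_, ?_⟩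
            · by_cases hk : k = 3
              · subst hk; rw [bon]; norm_num
              · rw [boff k hk]; exact w0 k
            all_goals
              simp only [bon, boff 0 (by decide), boff 1 (by decide), boff 2 (by decide),
                boff 4 (by decide), boff 5 (by decide), boff 6 (by decide), boff 7 (by decide),
                boff 8 (by decide), boff 9 (by decide), boff 10 (by decide)]
              linarith
          · by_cases hk : k = 3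
            · subst hk; rw [bon]; norm_num
            · rw [boff k hk]; exact hR k
        have hz := (G.zero q hm b hmb (by
            intro k
            by_cases hk : k = 3
            · subst hk; rw [bon]; exact q3
            · rw [boff k hk]) (fun k _ h3 => (boff k h3).symm) (by
            rw [boff 1 (by decide), hq, b1]; linarith [s1.2]) bon.le).2
        have h5 := hv b hmb (by rw [boff 0 (by decide), hq, b0]; linarith) bon.ge (by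
          rw [boff 4 (by decide), hq, b4]; nlinarith)
        rw [hz, oB]
        nlinarith)
  exact ⟨c1, lam, lo, hc1, hS, hlo⟩

end st

/-! ### from the gauge object -/

section gz

variable {c : LCtx} {B' : Base} {J : ℕ → Finset (ℕ × ℝ)} {ξ w : ℕ → ℝ}
  {lam lo : (Fin 11 → ℝ) → ℝ} {Cl E : ℕ → Finset (ℕ × ℝ)} {s₀ : ℕ → ℕ × ℝ}
  {h : ℕ → Fin 6 → ℝ} {ηg : ℕ → ℝ} {J' : ℕ → Finset (ℕ × ℝ)} {To : ℕ → ℝ}
  {ν' own' : (Fin 11 → ℝ) → ℝ}

theorem gv_of_gz (G : GZ c 1 5 20 B' J ξ w lam lo Cl E s₀ h ηg J' To ν' own')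
    (h1 : c.p.θ 1 < 1) : GV c.p ν' own' (DL c.p (bT 1) - lam (bT 1)) where
  prf := ⟨Nat.cast_nonneg _, G.ext.win.lip, G.ext.olip, G.ext.win.anti, G.ext.win.sharp,
    G.ext.win.submod, G.ext.own_le⟩
  dmax := fun a ha => G.ext.dmax a ⟨ha, fun h => absurd h h1.ne⟩ ha
  rcd := fun v h0 h1 => G.ext.record v h0 h1
  rot := fun a ha v h0 h1 a0 a1 a3 a4 => by
    have := G.ext.own_rot a ha v h0 h1 (by rw [a0, zero_add]) (by
      intro k
      have hR := ha.2 k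
      fin_cases k
      · exact a0.le
      · exact a1
      · exact hR
      · exact a3
      · exact a4
      all_goals exact hR)
    rw [this]; ring
  up := fun a ha v h0 h1 a0 => by
    have := G.ext.own_up a ha v h0 h1 (by rw [a0, zero_add])
    linarith
  zero := G.zero

theorem visB_of_gz (G : GZ c 1 5 20 B' J ξ w lam lo Cl E s₀ h ηg J' To ν' own')
    (h0 : 0 < c.p.θ 1) (h1 : c.p.θ 1 < 1) (hV : Vis (c.p.θ 1) 1 5 20 own') :
    ∀ᵐ v : ℝ, v ∈ Set.Ioo (0 : ℝ) 1 → VisB (c.p.θ 1) own' v := by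
  set θ := c.p.θ 1 with hθ
  have hp : LPath (Leg monQ 20) 0 0 4 (oz θ 1 5 20) (ol11 0 5 1) (oe11 (1 - θ)) 0 1 1 :=
    lPath11 (Mw := monQ) (fun _ hp => hp) le_rfl zero_le_one (by linarith) one_pos
      (by linarith) (by norm_num) (by norm_num) (by
        intro v hv0 hv1
        refine ⟨?_, ?_, ?_, ?_⟩
        · simp [oz]
        · simp [oz]
        · simp [oz]
        · intro k hk0 hk3 hk4
          fin_cases k <;> first | exact absurd rfl hk0 | exact absurd rfl hk3 |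
            exact absurd rfl hk4 | simp [oz])
  have hst := ae_stat_Leg (P := Leg monQ 20) (own := own') (K := ((11 : ℕ) : ℝ))
    (Nat.cast_nonneg _) G.ext.olip (ext_sup4 G.ext) hp.y0 hp.low hp.e0 hp.ej hp.kzj
    (by rw [hp.ez]; exact one_pos)
  filter_upwards [hV, hst] with v hv hs hvI
  have hvs : VisS own' (ol11 0 5 1) (oe11 (1 - θ)) 4 v := by
    refine Own831.Vis.strong ?_ (hs hvI)
    obtain ⟨k, hk, y₀, hy₀, H⟩ := hv hvI
    refine ⟨k, hk, min y₀ 1, lt_min hy₀ one_pos, fun y hy hyy => ?_⟩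
    have h2 := H y hy (hyy.trans (min_le_left _ _)) _
      (hp.low v hvI.1 hvI.2 y hy.le (hyy.trans (min_le_right _ _))) (by simp [ol11, oe11])
      (by simp [ol11, oe11]) (by simp [ol11, oe11]; ring_nf; exact le_rfl)
    have h3 := hp.ownp G.ext hvI.1 hvI.2
    unfold oloss
    rw [h3]
    linarith
  obtain ⟨c1, hc1, H⟩ := hvs
  refine ⟨c1, hc1, fun a u hu => ?_⟩
  have t1 : Tendsto (fun h : ℝ => v + a * h) (𝓝[>] 0) (𝓝 v) := by
    have : Tendsto (fun h : ℝ => v + a * h) (𝓝 0) (𝓝 (v + a * 0)) :=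
      (tendsto_id.const_mul a).const_add v
    rw [mul_zero, add_zero] at this
    exact this.mono_left nhdsWithin_le_nhds
  have t2 : Tendsto (fun h : ℝ => u * h) (𝓝[>] 0) (𝓝 0) := by
    have : Tendsto (fun h : ℝ => u * h) (𝓝 0) (𝓝 (u * 0)) := tendsto_id.const_mul u
    rw [mul_zero] at this
    exact this.mono_left nhdsWithin_le_nhds
  filter_upwards [H a u hu, t1.eventually (lt_mem_nhds hvI.1), t1.eventually (gt_mem_nhds hvI.2),
    t2.eventually (ge_mem_nhds one_pos), self_mem_nhdsWithin] with h g1 g2 g3 g4 g5 b hb b0 b3 b4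
  have hh : 0 < h := g5
  have h2 := G.ext.oanti _ (hp.low _ g2 g3 (u * h) (mul_nonneg hu.le hh.le) g4) b hb (by
    have hn := hb.1.nonneg
    intro k
    fin_cases k
    · simpa [ol11, oe11] using b0
    · simpa [ol11, oe11] using hn 1
    · simpa [ol11, oe11] using hn 2
    · simpa [ol11, oe11] using b3
    · simp [ol11, oe11]; linarith
    · simpa [ol11, oe11] using hn 5
    · simpa [ol11, oe11] using hn 6
    · simpa [ol11, oe11] using hn 7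
    · simpa [ol11, oe11] using hn 8
    · simpa [ol11, oe11] using hn 9
    · simpa [ol11, oe11] using hn 10)
  have h3 := hp.ownp G.ext g2 g3
  unfold oloss at g1
  rw [h3] at g1
  linarith

theorem xg_nat (c : LCtx) (T1 : ℝ) (ξ w : ℕ → ℝ) (n : ℕ) : NatV (XG (c.XB T1 ξ w) n) := by
  have e : ∀ k : Fin 11, k ≠ 1 → XG (c.XB T1 ξ w) n k = c.XB T1 ξ w n k := fun k hk => XG_of_ne hk
  constructor
  all_goals
    simp only [e 0 (by decide), e 2 (by decide), e 4 (by decide), e 5 (by decide),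
      e 6 (by decide), e 7 (by decide), e 8 (by decide), e 9 (by decide), e 10 (by decide)]
    simp only [LCtx.XB, LCtx.X, bT, NatT550.nat4, NatR550.nL, Pi.add_apply, Pi.smul_apply,
      smul_eq_mul, Matrix.cons_val]
    ring

end gz

/-- **THE SEAM (Vis)** -/
theorem seamVis {η : ℝ} (hη : η ≤ 1) : SeamVis η := by
  intro c ok
  refine ⟨fun _ _ => 1, fun _ => Base.Sub.const one_pos, ?_⟩
  intro B' J ξ w lam lo Cl E s₀ h ηg J' To ν' own' G _ h1 hV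
  have e1 : T1z (c.p.θ 1) = 1 := max_eq_left h1.le
  have e2 : xz (c.p.θ 1) = 5 := by unfold xz; rw [e1]; norm_num
  have e3 : Rz (c.p.θ 1) = 20 := by unfold Rz; rw [e2]; norm_num
  rw [e1, e2, e3] at G hV
  have pk := ok.th.tp.ok
  have h0 := pk.θ1
  have hG := gv_of_gz G h1
  -- a visible level
  obtain ⟨v, hvI, hv⟩ : ∃ v : ℝ, v ∈ Set.Ioo (0 : ℝ) 1 ∧ VisB (c.p.θ 1) own' v := by
    by_contra hcon
    push Not at hcon
    have h3 := visB_of_gz G h0 h1 hV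
    have h4 : ∀ᵐ v : ℝ, v ∉ Set.Ioo (0 : ℝ) 1 := by
      filter_upwards [h3] with v hv hvI
      exact hcon v hvI (hv hvI)
    have h5 : volume (Set.Ioo (0 : ℝ) 1) = 0 := by
      have := measure_eq_zero_iff_ae_notMem.2 h4
      exact this
    rw [Real.volume_Ioo] at h5
    simp at h5
  obtain ⟨kk, lam₁, lo₁, hkk, hS, hlo⟩ := stageV hG h0 h1 hvI.1 hvI.2 hv
  have hF := flemV (f := fun n i => rg (h n) (c.F n i)) G.ext.win (by norm_num)
    (fun n i _ j _ => rfl) (fun n => xg_nat c 1 ξ w n) h0 h1 hvI.1 hvI.2 pk.g0.2 pk.q2.1 hS hkk hlo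
    G.ext.own_le
  refine deadA hS (recD_V _) (rungD_V h1) ?_ hF
  -- the gain
  have q0 := pk.q0
  have q2 := pk.q2
  have g0 := pk.g0.1
  have hη0 := pk.η_pos
  have a1 : c.p.q 0 ≤ c.p.g := by
    calc c.p.q 0 ≤ η * c.p.q 2 := q0.2
      _ ≤ 1 * c.p.q 2 := mul_le_mul_of_nonneg_right hη q2.1.le
      _ ≤ η * c.p.g := by rw [one_mul]; exact q2.2
      _ ≤ 1 * c.p.g := mul_le_mul_of_nonneg_right hη g0.le
      _ = c.p.g := one_mul _
  nlinarith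

end Crest.Agent.R136.Lv831
end

-- ▼ part R136/DMX2_779
section

/-!
# R136: D-max of sheets on the sample (helper779)

`count_s` : a set of incidences of the SAMPLE, in three cells of a natural level `m`, whose
neighbours in the family lie in one sheet per cell: one loss `d^(-e n)`, `e n → 0`, for all levels,
sets and sheets (`w 1 ≤ d^(e n) ρ`).
-/

set_option autoImplicit false
set_option linter.unusedVariables false
set_option linter.unusedSectionVars false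

open Finset Filter Topology

namespace Crest.Agent.R136.Dmx779

open Crest.Agent.R138.Ex926 (Base U)
open Crest.Agent.R138.Mk163 (zc zl rho alive)
open Crest.Agent.R138
open Crest.Agent.R136.MkA627
open Crest.Agent.R136.Sh605
open Crest.Agent.R136.K4
open Crest.Agent.R136.Top484 (geo4)
open Crest.Agent.R136.PqG464 (pow_lev ev_const)
open Crest.Agent.R136.GeoQ186
open Crest.Agent.R136.Net191
open Crest.Agent.R136.Wq638
open Crest.Agent.R136.Lq196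

/-- `y` is a neighbour of a point of `Q` (finest labels, finest cells) -/
def Nbr {m : ℕ} (B : Base) (I : ℕ → Finset (ℕ × ℝ)) (lev : ℕ → ℚ → ℕ)
    (co : ∀ n : ℕ, ℕ × ℝ → ℕ × ℝ → Fin m → ℝ) (M : Mons m) (C R : ℝ) (n : ℕ)
    (Q : Finset (ℕ × ℝ)) (y : ℕ × ℝ) : Prop :=
  ∃ x ∈ Q, nlab B I co M C n (fun _ => R) y = nlab B I co M C n (fun _ => R) x ∧
    zc (lev n 1) y.2 = zc (lev n 1) x.2

section

variable {B : Base} {I I1 : ℕ → Finset (ℕ × ℝ)} {L : ℕ → ℕ → Ln4} {r0 : ℕ → ℝ}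
  {wr cr : Fin 3 → ℕ → ℝ} {q : Fin 3 → ℝ}
  {lev : ℕ → ℚ → ℕ} {A : ℕ → ℝ} {g s : ℝ} {τ : Fin 3 → ℝ → ℝ} {f : ℕ → ℚ → ℕ → ℤ → ℕ}
  {b : ℕ → ℚ → ℕ → Plk4} {vm : ℕ → ℚ → ℝ} {w : Fin 3 → ℕ → ℚ → ℝ}
  {m : ℕ} {co : ∀ n : ℕ, ℕ × ℝ → ℕ × ℝ → Fin m → ℝ} {M : Mons m} {C R c₀ : ℝ}

open Classical in
/-- **count on the sample**, one loss sequence -/
theorem count_s (hM : MkA B I (geo4 L r0 wr cr q) lev A (fun v => g * v) (fun v => s * v) τ f b vm w)
    (hq : ∀ j, 0 ≤ q j) (hc : CombQ B I I1 lev co M C R (N0Q A vm) c₀)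
    (hsub : ∀ n, I1 n ⊆ I n) :
    ∃ e : ℕ → ℝ, (∀ n, 0 < e n) ∧ B.Sub (fun n => B.d n ^ (-(e n))) ∧
    ∀ᶠ n in (U : Filter ℕ), ∀ l : ℕ, lev n 0 ≤ l → l ≤ lev n 1 →
      ∀ (Q : Finset (ℕ × ℝ)) (J0 : ℤ) (V : ℝ), Q ⊆ I1 n → 0 ≤ V →
      (∀ y ∈ Q, zc l y.2 ∈ Finset.Icc (J0 - 1) (J0 + 1)) →
      (∀ J : ℤ, ∃ t : Plk4, ShN t.e t.c t.w t.q t.a (zl l J) (rho l) (r0 n) ∧ 0 ≤ t.a ∧
        t.w 1 ≤ B.d n ^ (e n) * rho l ∧ (∀ k : Fin 3, wr k n ≤ ![t.a, t.w 1, t.w 2] k ∧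
          ![t.a, t.w 1, t.w 2] k ≤ cr k n) ∧ (geo4 L r0 wr cr q).val n l J t ≤ V ∧
        ∀ y ∈ I n, Nbr B I lev co M C R n Q y → zc l y.2 = J →
          InSheet (L n y.1) t.e t.c t.w t.q t.a (zl l J) (rho l)) →
      (Q.card : ℝ) ≤ (V / vm n 0) * (rho l / rho (lev n 0)) ^ ((1 - s) - g) *
        B.d n ^ (-((1 - s) + c₀ + e n)) := by
  obtain ⟨K, hK1, hK2, -⟩ := hc
  refine End403.exists_err B (fun ε n => ∀ l : ℕ, lev n 0 ≤ l → l ≤ lev n 1 →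
      ∀ (Q : Finset (ℕ × ℝ)) (J0 : ℤ) (V : ℝ), Q ⊆ I1 n → 0 ≤ V →
      (∀ y ∈ Q, zc l y.2 ∈ Finset.Icc (J0 - 1) (J0 + 1)) →
      (∀ J : ℤ, ∃ t : Plk4, ShN t.e t.c t.w t.q t.a (zl l J) (rho l) (r0 n) ∧ 0 ≤ t.a ∧
        t.w 1 ≤ B.d n ^ ε * rho l ∧ (∀ k : Fin 3, wr k n ≤ ![t.a, t.w 1, t.w 2] k ∧
          ![t.a, t.w 1, t.w 2] k ≤ cr k n) ∧ (geo4 L r0 wr cr q).val n l J t ≤ V ∧
        ∀ y ∈ I n, Nbr B I lev co M C R n Q y → zc l y.2 = J →
          InSheet (L n y.1) t.e t.c t.w t.q t.a (zl l J) (rho l)) →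
      (Q.card : ℝ) ≤ (V / vm n 0) * (rho l / rho (lev n 0)) ^ ((1 - s) - g) *
        B.d n ^ (-((1 - s) + c₀ + ε))) ?_
  intro ε hε
  have hε3 : 0 < ε / 3 := by positivity
  filter_upwards [count_m hM hq hε hε3, hK1 _ hε3, hK2,
    ev_const B (by norm_num : (0 : ℝ) < 16) hε3, hM.vpos 0 le_rfl zero_le_one] with
    n h1 hK hcomb h16 hv l hl0 hl1 Q J0 V hQ hV hcell hsh
  have hdp := fun a => Dp76.dpow_pos B n a
  have h16' : (16 : ℝ) ≤ B.d n ^ (-(ε / 3)) := const_le h16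
  have hKn : (0 : ℝ) < K n := by exact_mod_cast hK.1
  have hN := hK.2.1
  set F : Finset (ℕ × ℝ) := (I n).filter fun y => Nbr B I lev co M C R n Q y with hF
  have hc1 : (K n : ℝ) * (Q.card : ℝ) ≤ 16 * F.card := by
    have := hcomb Q hQ F (Finset.filter_subset _ _) fun i hi j hj e1 e2 =>
      Finset.mem_filter.2 ⟨hj, i, hi, e1, e2⟩
    exact_mod_cast this
  have hc2 := h1 l hl0 hl1 F J0 V (Finset.filter_subset _ _) hV (fun y hy => by
      obtain ⟨x, hx, -, e2⟩ := (Finset.mem_filter.1 hy).2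
      rw [End403.zc_nest' hl1 e2]
      exact hcell x hx) fun J => by
    obtain ⟨t, t1, t2, t3, tr, t4, t5⟩ := hsh J
    exact ⟨t, t1, t2, t3, tr, t4, fun y hy hyJ => t5 y (Finset.mem_filter.1 hy).1
      (Finset.mem_filter.1 hy).2 hyJ⟩
  set r : ℝ := (rho l / rho (lev n 0)) ^ ((1 - s) - g) with hr
  have hr0 : 0 ≤ r := Real.rpow_nonneg (div_pos (rho_pos _) (rho_pos _)).le _
  have hfin : (K n : ℝ) * (Q.card : ℝ) ≤ K n * ((V / vm n 0) * r *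
      B.d n ^ (-((1 - s) + c₀ + ε))) := by
    calc (K n : ℝ) * (Q.card : ℝ) ≤ 16 * (A n * V * r * B.d n ^ (-((1 - s) + ε / 3))) :=
          hc1.trans (mul_le_mul_of_nonneg_left hc2 (by norm_num))
      _ = 16 * (N0Q A vm n * ((V / vm n 0) * r * B.d n ^ (-((1 - s) + ε / 3)))) := by
          unfold N0Q
          field_simp
      _ ≤ B.d n ^ (-(ε / 3)) * ((K n * B.d n ^ (-(c₀ + ε / 3))) *
            ((V / vm n 0) * r * B.d n ^ (-((1 - s) + ε / 3)))) := by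
          have h0 : 0 ≤ (V / vm n 0) * r * B.d n ^ (-((1 - s) + ε / 3)) :=
            mul_nonneg (mul_nonneg (div_nonneg hV hv.le) hr0) (hdp _).le
          have hN0 : 0 ≤ N0Q A vm n := mul_nonneg (hM.Apos n).le hv.le
          exact mul_le_mul h16' (mul_le_mul_of_nonneg_right hN h0) (mul_nonneg hN0 h0)
            (hdp _).le
      _ = K n * ((V / vm n 0) * r * (B.d n ^ (-(ε / 3)) * B.d n ^ (-(c₀ + ε / 3)) *
            B.d n ^ (-((1 - s) + ε / 3)))) := by ring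
      _ = _ := by
          rw [← Dp76.dpow_add, ← Dp76.dpow_add]
          congr 3; ring
  exact le_of_mul_le_mul_left hfin hKn

end

end Crest.Agent.R136.Dmx779
end

-- ▼ part R136/GBy_779
section

/-!
# R136: a box of the gauge chart in 638's units is one sheet per cell (helper779)

`hR` : the gauge in real units, `scl_rg`; `stage_sheet` : one stage, all hypotheses are inequalities
between numbers.
-/

set_option autoImplicit false
set_option linter.unusedVariables false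
set_option linter.unusedSectionVars false

namespace Crest.Agent.R136.Dmx779

open Crest.Agent.R136.NetQ186
open Crest.Agent.R136.GeoQ186
open Crest.Agent.R136.End882
open Crest.Agent.R136.K4
open Crest.Agent.R136.Gz779 (tau)
open Crest.Agent.R136.Sh605 hiding frm

/-- the gauge in real units -/
noncomputable def hR (H Wa Wb Wy : ℝ) (h : Fin 6 → ℝ) : Fin 6 → ℝ :=
  ![H * Wy * h 0, H * Wy / Wa * h 1, H * Wy / Wb * h 2, H * Wy / Wa ^ 2 * h 3,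
    H * Wy / (Wa * Wb) * h 4, H * Wy / Wb ^ 2 * h 5]

section

variable {H Wa Wb Wy : ℝ}

/-- the gauge commutes with the units -/
theorem scl_rg (hH : H ≠ 0) (ha : Wa ≠ 0) (hb : Wb ≠ 0) (hy : Wy ≠ 0) (h : Fin 6 → ℝ) (i : Fq4) :
    scl H Wa Wb Wy (rg (hR H Wa Wb Wy h) i) = rg h (scl H Wa Wb Wy i) := by
  cases i
  simp only [scl, rg, hR, gA, gB, Fq4.pa, Fq4.pb, Matrix.cons_val, Fq4.mk.injEq, true_and]
  refine ⟨?_, ?_, ?_, ?_, ?_⟩ <;> field_simp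

theorem tau_hR (hH : H ≠ 0) (ha : Wa ≠ 0) (hb : Wb ≠ 0) (hy : Wy ≠ 0) (h : Fin 6 → ℝ) (i : Fq4) :
    tau (hR H Wa Wb Wy h) i = H * Wy / Wa * tau h (scl H Wa Wb Wy i) := by
  simp only [tau, hR, scl, Matrix.cons_val]
  field_simp

/-- the box of the gauge chart in real units -/
theorem coQ_real (hH : 0 < H) (ha : 0 < Wa) (hb : 0 < Wb) (hy : 0 < Wy) (h : Fin 6 → ℝ)
    {i j : Fq4} {b : ℝ} {k : Fin 11}
    (hb' : |coQ (rg h (scl H Wa Wb Wy i)) (rg h (scl H Wa Wb Wy j)) k| ≤ b) :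
    |coQ (rg (hR H Wa Wb Wy h) i) (rg (hR H Wa Wb Wy h) j) k| ≤ b / sfac H Wa Wb Wy k := by
  have hf : 0 < sfac H Wa Wb Wy k := by
    fin_cases k <;> simp [sfac] <;> positivity
  rw [← scl_rg hH.ne' ha.ne' hb.ne' hy.ne', ← scl_rg hH.ne' ha.ne' hb.ne' hy.ne',
    coQ_scl hH.ne' ha.ne' hb.ne' hy.ne', abs_mul, abs_of_pos hf] at hb'
  rw [le_div_iff₀ hf]
  linarith

end

theorem wid_lin {K X s8 s5 ρ : ℝ} (hK : 1 ≤ K) (hX : 0 ≤ X) (e8 : s8 = K * X)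
    (b5 : ρ * s5 ≤ 2 * K ^ 2 * X) : s8 + 2 * ρ * s5 ≤ 5 * K ^ 2 * X := by
  have hK2 : K ≤ K ^ 2 := by nlinarith
  have h2 : K * X ≤ K ^ 2 * X := mul_le_mul_of_nonneg_right hK2 hX
  rw [e8]
  linarith

theorem wid_cub {K X t : ℝ} (hK : 1 ≤ K) (hX : 0 ≤ X) (ht : t ≤ 25 / 2 * K ^ 2 * X) :
    t ≤ 21 * K ^ 3 * X := by
  have hK3 : K ^ 2 ≤ K ^ 3 := by nlinarith [sq_nonneg K]
  have h1 : K ^ 2 * X ≤ K ^ 3 * X := mul_le_mul_of_nonneg_right hK3 hX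
  have h2 : 0 ≤ K ^ 3 * X := by positivity
  linarith

section stage

variable {π : Equiv.Perm (Fin 3)} {H Wa Wb Wy K C1 x ρ z0 r0 zi ei Fa Fb : ℝ} {c : Ln4}
  {h : Fin 6 → ℝ} {S : Fin 11 → ℝ}

/-- **one stage: the box with unit sizes `S` around `i` is one sheet over a cell near `i`** -/
theorem stage_sheet (hH : 0 < H) (ha : 0 < Wa) (hb : 0 < Wb) (hy : 0 < Wy)
    (he : |ei| ≤ 1) (hFa : |Fa| ≤ 1) (hFb : |Fb| ≤ 1) (h4 : h 4 = 0) (h5 : h 5 = 0)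
    (hS : ∀ k, 0 < S k) (hK : 1 ≤ K) (hC1 : C1 = 21 * K ^ 3)
    (w8 : S 0 * S 5 ≤ S 8) (w9 : S 0 * S 6 ≤ S 9) (w10 : S 0 * S 7 ≤ S 10) (w7 : S 0 * S 1 ≤ S 7)
    (hρ0 : 0 ≤ ρ) (hρ : ρ ≤ 2 * K * S 0 / H)
    (hz : ∀ z, z0 ≤ z → z ≤ z0 + ρ → |z - zi| ≤ 2 * ρ)
    (gE : Wb * S 9 ≤ Wa * S 8) (gF : Wy * S 10 ≤ Wb * S 9)
    (hr : 6 * r0 ≤ C1 * (Wy / H * S 10))
    (t1 : 2 * K * (Wy * |tau h (scl H Wa Wb Wy (mkT (cLn π c) zi ei Fa Fb))| * S 0 * S 8) ≤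
      1 / 4096 * (Wb * S 9))
    (t2 : 2 * K * (Wy * |h 2| * S 0) ≤ 1 / 4096 * Wb)
    (t3 : C1 * (Wy * |h 3| * S 8 * S 8) ≤ 1 / 4096 * (Wb * S 9))
    (t4 : C1 * (Wy * |h 3| * S 8) ≤ 1 / 4096 * Wa) :
    ∃ t : Plk4, ShN t.e t.c t.w t.q t.a z0 ρ r0 ∧ 0 ≤ t.a ∧ t.a ≤ C1 * (Wy / H * S 10) ∧
      C1 * (Wy / H * S 10) / 6 ≤ t.a ∧ t.w 1 = 12 * (C1 * (Wa / H * S 8)) ∧ t.w 2 = 10 * (C1 * (Wb / H * S 9)) ∧
      ∀ (l : Ln4) (zj ej Ga Gb : ℝ),
        (∀ k, |coQ (rg h (scl H Wa Wb Wy (mkT (cLn π c) zi ei Fa Fb)))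
          (rg h (scl H Wa Wb Wy (mkT (cLn π l) zj ej Ga Gb))) k| ≤ K * S k) →
        InSheet l t.e t.c t.w t.q t.a z0 ρ := by
  set f : Fq4 := mkT (cLn π c) zi ei Fa Fb with hf
  set g : Fin 6 → ℝ := hR H Wa Wb Wy h with hg
  have hK0 : 0 < K := by linarith
  have hK2 : K ≤ K ^ 2 := by nlinarith
  have hK3 : K ^ 2 ≤ K ^ 3 := by nlinarith [sq_nonneg K]
  have hC : 0 < C1 := by rw [hC1]; positivity
  have p8 : 0 < Wa / H * S 8 := mul_pos (div_pos ha hH) (hS 8)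
  have p9 : 0 < Wb / H * S 9 := mul_pos (div_pos hb hH) (hS 9)
  have p10 : 0 < Wy / H * S 10 := mul_pos (div_pos hy hH) (hS 10)
  have hsf : ∀ k, 0 < sfac H Wa Wb Wy k := by
    intro k
    fin_cases k <;> simp [sfac] <;> positivity
  set s : Fin 11 → ℝ := fun k => K * S k / sfac H Wa Wb Wy k with hs
  have s0 : ∀ k, 0 ≤ s k := fun k => (div_pos (mul_pos hK0 (hS k)) (hsf k)).le
  have e1 : s 1 = K * (H * Wy * S 1) := by simp [hs, sfac]; field_simp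
  have e5 : s 5 = K * (Wa * S 5) := by simp [hs, sfac]; ring
  have e6 : s 6 = K * (Wb * S 6) := by simp [hs, sfac]; ring
  have e7 : s 7 = K * (Wy * S 7) := by simp [hs, sfac]; ring
  have e8 : s 8 = K * (Wa / H * S 8) := by simp [hs, sfac]; field_simp
  have e9 : s 9 = K * (Wb / H * S 9) := by simp [hs, sfac]; field_simp
  have e10 : s 10 = K * (Wy / H * S 10) := by simp [hs, sfac]; field_simp
  -- slopes of the box
  have b5 : ρ * s 5 ≤ 2 * K ^ 2 * (Wa / H * S 8) := by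
    rw [e5]
    calc ρ * (K * (Wa * S 5)) ≤ 2 * K * S 0 / H * (K * (Wa * S 5)) :=
          mul_le_mul_of_nonneg_right hρ (by have := hS 5; positivity)
      _ = 2 * K ^ 2 * (Wa / H) * (S 0 * S 5) := by ring
      _ ≤ 2 * K ^ 2 * (Wa / H) * S 8 := mul_le_mul_of_nonneg_left w8 (by positivity)
      _ = _ := by ring
  have b6 : ρ * s 6 ≤ 2 * K ^ 2 * (Wb / H * S 9) := by
    rw [e6]
    calc ρ * (K * (Wb * S 6)) ≤ 2 * K * S 0 / H * (K * (Wb * S 6)) :=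
          mul_le_mul_of_nonneg_right hρ (by have := hS 6; positivity)
      _ = 2 * K ^ 2 * (Wb / H) * (S 0 * S 6) := by ring
      _ ≤ 2 * K ^ 2 * (Wb / H) * S 9 := mul_le_mul_of_nonneg_left w9 (by positivity)
      _ = _ := by ring
  have b7 : ρ * s 7 ≤ 2 * K ^ 2 * (Wy / H * S 10) := by
    rw [e7]
    calc ρ * (K * (Wy * S 7)) ≤ 2 * K * S 0 / H * (K * (Wy * S 7)) :=
          mul_le_mul_of_nonneg_right hρ (by have := hS 7; positivity)
      _ = 2 * K ^ 2 * (Wy / H) * (S 0 * S 7) := by ring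
      _ ≤ 2 * K ^ 2 * (Wy / H) * S 10 := mul_le_mul_of_nonneg_left w10 (by positivity)
      _ = _ := by ring
  have b1 : ρ ^ 2 * s 1 ≤ 4 * K ^ 3 * (Wy / H * S 10) := by
    rw [e1]
    have h01 : S 0 * (S 0 * S 1) ≤ S 10 :=
      (mul_le_mul_of_nonneg_left w7 (hS 0).le).trans w10
    calc ρ ^ 2 * (K * (H * Wy * S 1)) ≤ (2 * K * S 0 / H) ^ 2 * (K * (H * Wy * S 1)) :=
          mul_le_mul_of_nonneg_right (pow_le_pow_left₀ hρ0 hρ 2) (by have := hS 1; positivity)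
      _ = 4 * K ^ 3 * (Wy / H) * (S 0 * (S 0 * S 1)) := by field_simp; ring
      _ ≤ 4 * K ^ 3 * (Wy / H) * S 10 := mul_le_mul_of_nonneg_left h01 (by positivity)
      _ = _ := by ring
  -- the three widths
  set A : ℝ := C1 * (Wa / H * S 8) with hAd
  set B : ℝ := C1 * (Wb / H * S 9) with hBd
  set a : ℝ := C1 * (Wy / H * S 10) with had
  have gE' : Wb / H * S 9 ≤ Wa / H * S 8 := by
    calc Wb / H * S 9 = Wb * S 9 / H := by ring
      _ ≤ Wa * S 8 / H := div_le_div_of_nonneg_right gE hH.le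
      _ = _ := by ring
  have gF' : Wy / H * S 10 ≤ Wb / H * S 9 := by
    calc Wy / H * S 10 = Wy * S 10 / H := by ring
      _ ≤ Wb * S 9 / H := div_le_div_of_nonneg_right gF hH.le
      _ = _ := by ring
  have l8 := wid_lin hK p8.le e8 b5
  have l9 := wid_lin hK p9.le e9 b6
  have l10 := wid_lin hK p10.le e10 b7
  have kA : 3 / 2 * (s 8 + 2 * ρ * s 5) + (s 9 + 2 * ρ * s 6) ≤ A := by
    have h3 : 5 * K ^ 2 * (Wb / H * S 9) ≤ 5 * K ^ 2 * (Wa / H * S 8) :=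
      mul_le_mul_of_nonneg_left gE' (by positivity)
    rw [hAd, hC1]
    exact wid_cub hK p8.le (by linarith)
  have kB : s 9 + 2 * ρ * s 6 ≤ B := by
    have h3 : 0 ≤ K ^ 2 * (Wb / H * S 9) := by positivity
    rw [hBd, hC1]
    exact wid_cub hK p9.le (by linarith)
  have ka : s 10 + 2 * ρ * s 7 + (2 * ρ) ^ 2 * s 1 ≤ a := by
    have h1 : K ^ 2 * (Wy / H * S 10) ≤ K ^ 3 * (Wy / H * S 10) :=
      mul_le_mul_of_nonneg_right hK3 p10.le
    have e2 : (2 * ρ) ^ 2 * s 1 = 4 * (ρ ^ 2 * s 1) := by ring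
    rw [had, hC1, e2]
    linarith
  have hh4 : g 4 = 0 := by simp [hg, hR, h4]
  have hh5 : g 5 = 0 := by simp [hg, hR, h5]
  have hi : TrueLn g (rg g f) (cLn π c) := trueLn_mkQ g (cLn π c) zi ei Fa Fb
  -- flags
  have hfa : gA g (rg g f).z ((rg g f).pa (rg g f).z) ((rg g f).pb (rg g f).z) + (rg g f).fa = Fa := by
    simp only [rg, hf, mkT, Fq4.pa, Fq4.pb]; ring
  have hfb : gB g (rg g f).z ((rg g f).pa (rg g f).z) ((rg g f).pb (rg g f).z) + (rg g f).fb = Fb := by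
    simp only [rg, hf, mkT, Fq4.pa, Fq4.pb]; ring
  -- second order part
  have f1 : |g 1 + g 2 * (rg g f).e + 2 * g 3 * (rg g f).ca| * ρ * A ≤ 1 / 4096 * B := by
    have et : g 1 + g 2 * (rg g f).e + 2 * g 3 * (rg g f).ca =
        H * Wy / Wa * tau h (scl H Wa Wb Wy f) := by
      rw [← tau_hR hH.ne' ha.ne' hb.ne' hy.ne']
      rfl
    have e0 : 0 ≤ H * Wy / Wa := by positivity
    rw [et, abs_mul, abs_of_nonneg e0]
    set τ' := |tau h (scl H Wa Wb Wy f)| with hτ'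
    have hτ0 : 0 ≤ τ' := abs_nonneg _
    calc H * Wy / Wa * τ' * ρ * A ≤ H * Wy / Wa * τ' * (2 * K * S 0 / H) * A := by
          have : 0 ≤ A := by rw [hAd]; positivity
          gcongr
      _ = C1 / H * (2 * K * (Wy * τ' * S 0 * S 8)) := by
          rw [hAd]; field_simp
      _ ≤ C1 / H * (1 / 4096 * (Wb * S 9)) := mul_le_mul_of_nonneg_left t1 (by positivity)
      _ = _ := by rw [hBd]; ring
  have f2 : |g 2| * ρ ≤ 1 / 4096 := by
    have eg : g 2 = H * Wy / Wb * h 2 := rfl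
    have e0 : 0 ≤ H * Wy / Wb := by positivity
    rw [eg, abs_mul, abs_of_nonneg e0]
    calc H * Wy / Wb * |h 2| * ρ ≤ H * Wy / Wb * |h 2| * (2 * K * S 0 / H) := by gcongr
      _ = 2 * K * (Wy * |h 2| * S 0) / Wb := by field_simp
      _ ≤ 1 / 4096 * Wb / Wb := div_le_div_of_nonneg_right t2 hb.le
      _ = _ := by field_simp
  have eg3 : g 3 = H * Wy / Wa ^ 2 * h 3 := rfl
  have e03 : 0 ≤ H * Wy / Wa ^ 2 := by positivity
  have f3 : |g 3| * A ^ 2 ≤ 1 / 4096 * B := by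
    rw [eg3, abs_mul, abs_of_nonneg e03]
    calc H * Wy / Wa ^ 2 * |h 3| * A ^ 2 = C1 / H * (C1 * (Wy * |h 3| * S 8 * S 8)) := by
          rw [hAd]; field_simp
      _ ≤ C1 / H * (1 / 4096 * (Wb * S 9)) := mul_le_mul_of_nonneg_left t3 (by positivity)
      _ = _ := by rw [hBd]; ring
  have f4 : |g 3| * A ≤ 1 / 4096 := by
    rw [eg3, abs_mul, abs_of_nonneg e03]
    calc H * Wy / Wa ^ 2 * |h 3| * A = C1 * (Wy * |h 3| * S 8) / Wa := by
          rw [hAd]; field_simp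
      _ ≤ 1 / 4096 * Wa / Wa := div_le_div_of_nonneg_right t4 ha.le
      _ = _ := by field_simp
  obtain ⟨t, k1, k2, k3, k3', k4, k5, k6⟩ := box_sheet (z0 := z0) (ρ := ρ) (r0 := r0) (A := A) (B := B)
    (a := a) (κ := 1 / 4096) hi he (by rw [hfa]; exact hFa) (by rw [hfb]; exact hFb) hh4 hh5 s0 hρ0
    hz kA kB ka (mul_pos hC p10) (mul_le_mul_of_nonneg_left gF' hC.le)
    (mul_le_mul_of_nonneg_left gE' hC.le) hr rfl f1 f2 f3 f4
  refine ⟨t, k1, k2, k3, k3', k4, k5, fun l zj ej Ga Gb hbx => ?_⟩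
  exact k6 (rg g (mkT (cLn π l) zj ej Ga Gb)) l (trueLn_mkQ g (cLn π l) zj ej Ga Gb)
    fun k => coQ_real hH ha hb hy h (hbx k)

end stage

end Crest.Agent.R136.Dmx779
end

-- ▼ part R136/DMX3_779
section

/-!
# R136: D-max of sheets on the sample, form for chart boxes (helper779)

`count_s3` : sheets only for the three cells; `exists_cell` : natural level of a real height;
`val_num` : value of a sheet against the level-`0` mark; `num_count` : the count with explicit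
exponents.
-/

set_option autoImplicit false
set_option linter.unusedVariables false
set_option linter.unusedSectionVars false

open Finset Filter Topology

namespace Crest.Agent.R136.Dmx779

open Crest.Agent.R138.Ex926 (Base U)
open Crest.Agent.R138.Mk163 (zc zl rho alive)
open Crest.Agent.R138
open Crest.Agent.R136.MkA627
open Crest.Agent.R136.Sh605
open Crest.Agent.R136.K4
open Crest.Agent.R136.Top484 (geo4)
open Crest.Agent.R136.GeoQ186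
open Crest.Agent.R136.Net191
open Crest.Agent.R136.Wq638
open Crest.Agent.R136.Lq196

theorem zl_add (l : ℕ) (J J' : ℤ) : zl l J' = zl l J + (((J' : ℝ) - J) * rho l) := by
  unfold zl rho
  ring

section

variable {B : Base} {I I1 : ℕ → Finset (ℕ × ℝ)} {L : ℕ → ℕ → Ln4} {r0 : ℕ → ℝ}
  {wr cr : Fin 3 → ℕ → ℝ} {q : Fin 3 → ℝ}
  {lev : ℕ → ℚ → ℕ} {A : ℕ → ℝ} {g s : ℝ} {τ : Fin 3 → ℝ → ℝ} {f : ℕ → ℚ → ℕ → ℤ → ℕ}
  {b : ℕ → ℚ → ℕ → Plk4} {vm : ℕ → ℚ → ℝ} {w : Fin 3 → ℕ → ℚ → ℝ}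
  {m : ℕ} {co : ∀ n : ℕ, ℕ × ℝ → ℕ × ℝ → Fin m → ℝ} {M : Mons m} {C R c₀ : ℝ}

open Classical in
/-- **count on the sample**, sheets over three cells -/
theorem count_s3 (hM : MkA B I (geo4 L r0 wr cr q) lev A (fun v => g * v) (fun v => s * v) τ f b vm w)
    (hq : ∀ j, 0 ≤ q j) (hc : CombQ B I I1 lev co M C R (N0Q A vm) c₀)
    (hsub : ∀ n, I1 n ⊆ I n) :
    ∃ e : ℕ → ℝ, (∀ n, 0 < e n) ∧ B.Sub (fun n => B.d n ^ (-(e n))) ∧
    ∀ᶠ n in (U : Filter ℕ), ∀ l : ℕ, lev n 0 ≤ l → l ≤ lev n 1 →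
      ∀ (Q : Finset (ℕ × ℝ)) (J0 : ℤ) (V : ℝ), Q ⊆ I1 n → 0 ≤ V →
      (∀ y ∈ Q, zc l y.2 ∈ Finset.Icc (J0 - 1) (J0 + 1)) →
      (∀ J ∈ Finset.Icc (J0 - 1) (J0 + 1), ∃ t : Plk4,
        ShN t.e t.c t.w t.q t.a (zl l J) (rho l) (r0 n) ∧ 0 ≤ t.a ∧
        t.w 1 ≤ B.d n ^ (e n) * rho l ∧ (∀ k : Fin 3, wr k n ≤ ![t.a, t.w 1, t.w 2] k ∧
          ![t.a, t.w 1, t.w 2] k ≤ cr k n) ∧ (geo4 L r0 wr cr q).val n l J t ≤ V ∧
        ∀ y ∈ I n, Nbr B I lev co M C R n Q y → zc l y.2 = J →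
          InSheet (L n y.1) t.e t.c t.w t.q t.a (zl l J) (rho l)) →
      (Q.card : ℝ) ≤ (V / vm n 0) * (rho l / rho (lev n 0)) ^ ((1 - s) - g) *
        B.d n ^ (-((1 - s) + c₀ + e n)) := by
  obtain ⟨e, e1, e2, e3⟩ := count_s hM hq hc hsub
  refine ⟨e, e1, e2, ?_⟩
  filter_upwards [e3] with n hn l hl0 hl1 Q J0 V hQ hV hcell hsh
  refine hn l hl0 hl1 Q J0 V hQ hV hcell fun J => ?_
  by_cases hJ : J ∈ Finset.Icc (J0 - 1) (J0 + 1)
  · exact hsh J hJ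
  · obtain ⟨t, t1, t2, t3, tr, t4, -⟩ := hsh J0 (by rw [Finset.mem_Icc]; constructor <;> linarith)
    refine ⟨⟨0, t.e, lsh t.c (((J : ℝ) - J0) * rho l), t.w,
      fun z x => t.q (z - ((J : ℝ) - J0) * rho l) x, t.a⟩, ?_, t2, t3, tr, t4, fun y _ hy hyJ => ?_⟩
    · have := shN_shift t1 (((J : ℝ) - J0) * rho l)
      rwa [← zl_add] at this
    · exfalso
      obtain ⟨x, hx, -, h2⟩ := hy
      apply hJ
      rw [← hyJ, End403.zc_nest' hl1 h2]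
      exact hcell x hx

end

/-- the natural level of a real height `x` -/
theorem exists_cell {i0 i1 : ℕ} (hi : i0 ≤ i1) {x : ℝ} (hx0 : x ≤ rho i0) (hx1 : rho i1 ≤ x) :
    ∃ l, i0 ≤ l ∧ l ≤ i1 ∧ x ≤ rho l ∧ rho l ≤ 2 * x := by
  classical
  have hex : ∃ j, rho (i0 + j) ≤ x := ⟨i1 - i0, by rwa [Nat.add_sub_cancel' hi]⟩
  rcases hj : Nat.find hex with _ | k
  · have h1 := Nat.find_spec hex
    rw [hj, Nat.add_zero] at h1
    have h2 : rho i0 = x := le_antisymm h1 hx0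
    have h3 : 0 < rho i0 := rho_pos _
    exact ⟨i0, le_rfl, hi, hx0, by linarith⟩
  · have h1 := Nat.find_spec hex
    rw [hj] at h1
    have h2 := Nat.find_min hex (m := k) (by omega)
    push Not at h2
    have h3 : k + 1 ≤ i1 - i0 := by
      rw [← hj]
      exact Nat.find_min' hex (by rwa [Nat.add_sub_cancel' hi])
    refine ⟨i0 + k, by omega, by omega, h2.le, ?_⟩
    have h4 : rho (i0 + (k + 1)) = rho (i0 + k) / 2 := by
      unfold rho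
      rw [← add_assoc, pow_succ]
      field_simp
    rw [h4] at h1
    linarith

section num

variable {d w0 w1 w2 ρ0 ρ y0 y8 y9 y10 C K : ℝ} {q : Fin 3 → ℝ}

/-- one reward factor -/
theorem rew_num (hd : 0 < d) (hw : 0 < w0) (hρ0 : 0 < ρ0) (hρ : ρ0 * d ^ y0 ≤ ρ) (hC : 0 ≤ C)
    {t y Q : ℝ} (ht : t ≤ C * (w0 * d ^ y)) (ht0 : 0 ≤ t) (hQ : 0 ≤ Q) :
    (t / ρ) ^ Q ≤ C ^ Q * ((w0 / ρ0) ^ Q * d ^ (Q * (y - y0))) := by
  have h0 : 0 < ρ0 * d ^ y0 := mul_pos hρ0 (Real.rpow_pos_of_pos hd _)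
  have h1 : t / ρ ≤ C * (w0 / ρ0 * d ^ (y - y0)) := by
    rw [div_le_iff₀ (h0.trans_le hρ)]
    calc t ≤ C * (w0 * d ^ y) := ht
      _ = C * (w0 / ρ0 * d ^ (y - y0)) * (ρ0 * d ^ y0) := by
          rw [Real.rpow_sub hd]
          have := (Real.rpow_pos_of_pos hd y0).ne'
          field_simp
      _ ≤ C * (w0 / ρ0 * d ^ (y - y0)) * ρ :=
          mul_le_mul_of_nonneg_left hρ (mul_nonneg hC (mul_nonneg (div_pos hw hρ0).le
            (Real.rpow_pos_of_pos hd _).le))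
  calc (t / ρ) ^ Q ≤ (C * (w0 / ρ0 * d ^ (y - y0))) ^ Q :=
        Real.rpow_le_rpow (div_nonneg ht0 (h0.trans_le hρ).le) h1 hQ
    _ = _ := by
        rw [Real.mul_rpow hC (mul_nonneg (div_pos hw hρ0).le (Real.rpow_pos_of_pos hd _).le),
          Real.mul_rpow (div_pos hw hρ0).le (Real.rpow_pos_of_pos hd _).le, ← Real.rpow_mul hd.le,
          mul_comm (y - y0) Q]

/-- **value of a sheet against the mark of level `0`** -/
theorem val_num (hd : 0 < d) (hw0 : 0 < w0) (hw1 : 0 < w1) (hw2 : 0 < w2) (hρ0 : 0 < ρ0)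
    (hρ : ρ0 * d ^ y0 ≤ ρ) (hC : 0 ≤ C) (hq : ∀ j, 0 ≤ q j) {t : V3} (t0 : ∀ k, 0 ≤ t k)
    (h0 : t 0 ≤ C * (w0 * d ^ y10)) (h1 : t 1 ≤ C * (w1 * d ^ y8))
    (h2 : t 2 ≤ C * (w2 * d ^ y9)) :
    t 0 * t 2 * t 1 * ((t 0 / ρ) ^ q 0 * (t 1 / ρ) ^ q 1 * (t 2 / ρ) ^ q 2) ≤
      C ^ 3 * C ^ (q 0 + q 1 + q 2) * (w0 * w2 * w1 * ((w0 / ρ0) ^ q 0 * (w1 / ρ0) ^ q 1 *
        (w2 / ρ0) ^ q 2)) *
        d ^ (y10 + y9 + y8 + (q 0 * (y10 - y0) + q 1 * (y8 - y0) + q 2 * (y9 - y0))) := by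
  rcases hC.eq_or_lt with hC' | hC'
  · have h3 : t 0 = 0 := le_antisymm (by rw [← hC', zero_mul] at h0; exact h0) (t0 0)
    rw [h3]
    simp only [zero_mul]
    have := Real.rpow_nonneg (div_pos hw0 hρ0).le (q 0)
    have := Real.rpow_nonneg (div_pos hw1 hρ0).le (q 1)
    have := Real.rpow_nonneg (div_pos hw2 hρ0).le (q 2)
    have := Real.rpow_nonneg hC (q 0 + q 1 + q 2)
    positivity
  have r0 := rew_num hd hw0 hρ0 hρ hC h0 (t0 0) (hq 0)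
  have r1 := rew_num hd hw1 hρ0 hρ hC h1 (t0 1) (hq 1)
  have r2 := rew_num hd hw2 hρ0 hρ hC h2 (t0 2) (hq 2)
  have hρp : 0 < ρ := (mul_pos hρ0 (Real.rpow_pos_of_pos hd y0)).trans_le hρ
  have n0 : ∀ (k : Fin 3) (Q : ℝ), 0 ≤ (t k / ρ) ^ Q := fun k Q =>
    Real.rpow_nonneg (div_nonneg (t0 k) hρp.le) _
  have m0 : ∀ (x Q : ℝ), 0 < x → 0 ≤ (x / ρ0) ^ Q := fun x Q hx =>
    Real.rpow_nonneg (div_pos hx hρ0).le _
  have hdp : ∀ y : ℝ, 0 ≤ d ^ y := fun y => (Real.rpow_pos_of_pos hd y).le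
  have hCp : ∀ y : ℝ, 0 ≤ C ^ y := fun y => Real.rpow_nonneg hC y
  have e1 : t 0 * t 2 * t 1 ≤ (C * (w0 * d ^ y10)) * (C * (w2 * d ^ y9)) * (C * (w1 * d ^ y8)) := by
    refine mul_le_mul (mul_le_mul h0 h2 (t0 2) ?_) h1 (t0 1) ?_
    · have := hdp y10; positivity
    · have := hdp y10; have := hdp y9; positivity
  have e2 : (t 0 / ρ) ^ q 0 * (t 1 / ρ) ^ q 1 * (t 2 / ρ) ^ q 2 ≤
      (C ^ q 0 * ((w0 / ρ0) ^ q 0 * d ^ (q 0 * (y10 - y0)))) *
      (C ^ q 1 * ((w1 / ρ0) ^ q 1 * d ^ (q 1 * (y8 - y0)))) *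
      (C ^ q 2 * ((w2 / ρ0) ^ q 2 * d ^ (q 2 * (y9 - y0)))) := by
    refine mul_le_mul (mul_le_mul r0 r1 (n0 _ _) ?_) r2 (n0 _ _) ?_
    · exact mul_nonneg (hCp _) (mul_nonneg (m0 _ _ hw0) (hdp _))
    · exact mul_nonneg (mul_nonneg (hCp _) (mul_nonneg (m0 _ _ hw0) (hdp _)))
        (mul_nonneg (hCp _) (mul_nonneg (m0 _ _ hw1) (hdp _)))
  have e3 : 0 ≤ (C * (w0 * d ^ y10)) * (C * (w2 * d ^ y9)) * (C * (w1 * d ^ y8)) := by
    have := hdp y10; have := hdp y9; have := hdp y8; positivity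
  refine (mul_le_mul e1 e2 (mul_nonneg (mul_nonneg (n0 _ _) (n0 _ _)) (n0 _ _)) e3).trans
    (le_of_eq ?_)
  rw [Real.rpow_add hC', Real.rpow_add hC', Real.rpow_add hd, Real.rpow_add hd, Real.rpow_add hd,
    Real.rpow_add hd, Real.rpow_add hd]
  ring

/-- the factor of the level -/
theorem lev_num (hd : 0 < d) (hρ0 : 0 < ρ0) (hK : 1 ≤ K) (h1 : ρ0 * d ^ y0 ≤ ρ)
    (h2 : ρ ≤ K * (ρ0 * d ^ y0)) (c : ℝ) :
    (ρ / ρ0) ^ c ≤ K ^ |c| * d ^ (c * y0) := by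
  have hp : 0 < d ^ y0 := Real.rpow_pos_of_pos hd _
  have h1' : d ^ y0 ≤ ρ / ρ0 := by rw [le_div_iff₀ hρ0]; linarith
  have h2' : ρ / ρ0 ≤ K * d ^ y0 := by rw [div_le_iff₀ hρ0]; linarith
  have hK0 : 0 < K := by linarith
  rcases le_or_gt 0 c with hc | hc
  · calc (ρ / ρ0) ^ c ≤ (K * d ^ y0) ^ c := Real.rpow_le_rpow (hp.le.trans h1') h2' hc
      _ = K ^ |c| * d ^ (c * y0) := by
          rw [Real.mul_rpow hK0.le hp.le, abs_of_nonneg hc, ← Real.rpow_mul hd.le, mul_comm y0 c]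
  · calc (ρ / ρ0) ^ c ≤ (d ^ y0) ^ c := Real.rpow_le_rpow_of_nonpos hp h1' hc.le
      _ = d ^ (c * y0) := by rw [← Real.rpow_mul hd.le, mul_comm y0 c]
      _ ≤ K ^ |c| * d ^ (c * y0) :=
          le_mul_of_one_le_left (Real.rpow_pos_of_pos hd _).le
            (Real.one_le_rpow hK (abs_nonneg _))

end num

end Crest.Agent.R136.Dmx779
end

-- ▼ part R136/DMX4_779
section

/-!
# R136: D-max for the boxes of the gauge chart at window precision (helper779), part 1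

Gaps of the sizes at a record window; units.
-/

set_option autoImplicit false
set_option linter.unusedVariables false
set_option linter.unusedSectionVars false

open Finset Filter Topology

namespace Crest.Agent.R136.Dmx779

open Crest.Agent.R138.Ex926 (Base U)
open Crest.Agent.R138.Mk163 (zc zl rho alive)
open Crest.Agent.R138
open Crest.Agent.R136.MkA627
open Crest.Agent.R136.Sh605
open Crest.Agent.R136.K4
open Crest.Agent.R136.Top484
open Crest.Agent.R136.GeoQ186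
open Crest.Agent.R136.Net191
open Crest.Agent.R136.NetQ186
open Crest.Agent.R136.Wq638
open Crest.Agent.R136.Lq196
open Crest.Agent.R136.NatT550
open Crest.Agent.R136.NatR550
open Crest.Agent.R136.TopB550
open Crest.Agent.R136.TL196
open Crest.Agent.R136.Gz779

/-- exponents with a positive limit -/
theorem ev_gap (B : Base) {f : ℕ → ℝ} {f₀ : ℝ} (hf : Tendsto f U (𝓝 f₀)) (h0 : 0 < f₀) (C : ℝ) :
    ∀ᶠ n in (U : Filter ℕ), C * B.d n ^ f n ≤ 1 := by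
  have hC : 0 < max C 1 := lt_max_of_lt_right one_pos
  filter_upwards [hf.eventually (lt_mem_nhds (half_lt_self h0)),
    PqG464.ev_const B hC (half_pos h0)] with n h1 h2
  calc C * B.d n ^ f n ≤ max C 1 * B.d n ^ f n :=
        mul_le_mul_of_nonneg_right (le_max_left _ _) (Dp76.dpow_pos B n _).le
    _ ≤ max C 1 * B.d n ^ (f₀ / 2) :=
        mul_le_mul_of_nonneg_left (Dp76.dpow_le B n h1.le) hC.le
    _ ≤ 1 := h2

/-! ### units -/

section units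

variable {B : Base} {lev : ℕ → ℚ → ℕ} {w : Fin 3 → ℕ → ℚ → ℝ} {w0 : ℝ} {n : ℕ}

theorem two_rho (i : ℕ) : (2 : ℝ) ^ i * rho i = 1 := by
  unfold rho; field_simp

theorem uH_pos : 0 < uH B lev w0 n := mul_pos (Dp76.dpow_pos B n _) (by positivity)

theorem unit_z (e : ℝ) : B.d n ^ e / uH B lev w0 n = rho (lev n 0) * B.d n ^ (e - w0) := by
  have h1 := two_rho (lev n 0)
  have h2 := Dp76.dpow_pos B n w0
  rw [div_eq_iff uH_pos.ne']
  unfold uH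
  calc B.d n ^ e = (2 ^ lev n 0 * rho (lev n 0)) * B.d n ^ (e - w0 + w0) := by
        rw [h1, one_mul, sub_add_cancel]
    _ = _ := by rw [Dp76.dpow_add]; ring

theorem unit_a (e : ℝ) : uA B lev w w0 n / uH B lev w0 n * B.d n ^ e =
    w 1 n 0 * B.d n ^ (e - 2 * w0) := by
  have h1 := two_rho (lev n 0)
  have hρ : 0 < rho (lev n 0) := rho_pos _
  have h2 := unit_z (B := B) (lev := lev) (w0 := w0) (n := n) e
  calc uA B lev w w0 n / uH B lev w0 n * B.d n ^ e =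
        uA B lev w w0 n * (B.d n ^ e / uH B lev w0 n) := by ring
    _ = w 1 n 0 * (B.d n ^ (-w0) * B.d n ^ (e - w0)) := by
        rw [h2]; unfold uA; field_simp
    _ = _ := by rw [← Dp76.dpow_add]; congr 2; ring

theorem unit_b (e : ℝ) : uB B lev w w0 n / uH B lev w0 n * B.d n ^ e =
    w 2 n 0 * B.d n ^ (e - 3 * w0) := by
  have hρ : 0 < rho (lev n 0) := rho_pos _
  have h2 := unit_z (B := B) (lev := lev) (w0 := w0) (n := n) e
  calc uB B lev w w0 n / uH B lev w0 n * B.d n ^ e =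
        uB B lev w w0 n * (B.d n ^ e / uH B lev w0 n) := by ring
    _ = w 2 n 0 * (B.d n ^ (-(2 * w0)) * B.d n ^ (e - w0)) := by
        rw [h2]; unfold uB; field_simp
    _ = _ := by rw [← Dp76.dpow_add]; congr 2; ring

theorem unit_y (e : ℝ) : uY B lev w w0 n / uH B lev w0 n * B.d n ^ e =
    w 0 n 0 * B.d n ^ (e - 4 * w0) := by
  have hρ : 0 < rho (lev n 0) := rho_pos _
  have h2 := unit_z (B := B) (lev := lev) (w0 := w0) (n := n) e
  calc uY B lev w w0 n / uH B lev w0 n * B.d n ^ e =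
        uY B lev w w0 n * (B.d n ^ e / uH B lev w0 n) := by ring
    _ = w 0 n 0 * (B.d n ^ (-(3 * w0)) * B.d n ^ (e - w0)) := by
        rw [h2]; unfold uY; field_simp
    _ = _ := by rw [← Dp76.dpow_add]; congr 2; ring

end units

/-! ### exponents of the base -/

section base

variable {c : LCtx} {T1 : ℝ} {ξ w : ℕ → ℝ} {n : ℕ}

theorem XB_0 : c.XB T1 ξ w n 0 = c.w0 + ξ n := by
  simp [LCtx.XB, LCtx.X, nat4, bT, nL]
theorem XB_1 : c.XB T1 ξ w n 1 = c.R - 1 := by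
  simp [LCtx.XB, LCtx.X, nat4, bT, nL]
theorem XB_2 : c.XB T1 ξ w n 2 = c.w0 + (c.p.θ 1 - c.p.θ 2) * ξ n - w n * T1 := by
  simp [LCtx.XB, LCtx.X, nat4, bT, nL]; ring
theorem XB_3 : c.XB T1 ξ w n 3 = c.w0 + (c.p.θ 2 - c.p.θ 0) * ξ n := by
  simp [LCtx.XB, LCtx.X, nat4, bT, nL]; ring
theorem XB_4 : c.XB T1 ξ w n 4 = 2 * c.w0 + (c.p.θ 1 - c.p.θ 0) * ξ n - w n * T1 := by
  simp [LCtx.XB, LCtx.X, nat4, bT, nL]; ring
theorem XB_5 : c.XB T1 ξ w n 5 = c.w0 - c.p.θ 1 * ξ n - w n * T1 := by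
  simp [LCtx.XB, LCtx.X, nat4, bT, nL]; ring
theorem XB_6 : c.XB T1 ξ w n 6 = 2 * c.w0 - c.p.θ 2 * ξ n - 2 * (w n * T1) := by
  simp [LCtx.XB, LCtx.X, nat4, bT, nL]; ring
theorem XB_7 : c.XB T1 ξ w n 7 = 3 * c.w0 - c.p.θ 0 * ξ n - 2 * (w n * T1) := by
  simp [LCtx.XB, LCtx.X, nat4, bT, nL]; ring
theorem XB_8 : c.XB T1 ξ w n 8 = 2 * c.w0 + (1 - c.p.θ 1) * ξ n - w n * T1 := by
  simp [LCtx.XB, LCtx.X, nat4, bT, nL]; ring
theorem XB_9 : c.XB T1 ξ w n 9 = 3 * c.w0 + (1 - c.p.θ 2) * ξ n - 2 * (w n * T1) := by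
  simp [LCtx.XB, LCtx.X, nat4, bT, nL]; ring
theorem XB_10 : c.XB T1 ξ w n 10 = 4 * c.w0 + (1 - c.p.θ 0) * ξ n - 2 * (w n * T1) := by
  simp [LCtx.XB, LCtx.X, nat4, bT, nL]; ring

end base

/-! ### tightness -/

section tight

variable {η : ℝ} {c : LCtx}

theorem tight_XB (ok : c.Ok η) {T1 : ℝ} {ξ w : ℕ → ℝ} {ξ₀ : ℝ} (h0 : 0 < ξ₀) (h1 : ξ₀ < 1)
    (hξ : Tendsto ξ U (𝓝 ξ₀)) (hw : Tendsto w U (𝓝 0)) :
    ∀ᶠ n in (U : Filter ℕ), TightQ (c.XB T1 ξ w n) := by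
  have hb := ok.th.tp.big
  have hT := hb.T0
  have hwT := hb.w0T
  have hR0 := hb.R0
  have hθ := hb.th
  have hwT1 : Tendsto (fun n => w n * T1) U (𝓝 0) := by simpa using hw.mul_const T1
  filter_upwards [hξ.eventually (lt_mem_nhds h0), hξ.eventually (gt_mem_nhds h1),
    hwT1.eventually (Metric.ball_mem_nhds 0 (show (0 : ℝ) < 1 / 2 by norm_num))] with n a1 a2 a3
  rw [Real.dist_eq, sub_zero, abs_lt] at a3
  obtain ⟨a3, a4⟩ := a3
  have t0 := abs_le.1 (hθ 0)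
  have t1 := abs_le.1 (hθ 1)
  have t2 := abs_le.1 (hθ 2)
  set θ0 := c.p.θ 0
  set θ1 := c.p.θ 1
  set θ2 := c.p.θ 2
  -- products
  have key : ∀ a : ℝ, -(2 * c.T0) - 1 ≤ a → -(2 * c.T0) - 1 ≤ a * ξ n := by
    intro a ha
    have h2 : 0 ≤ 2 * c.T0 + 1 := by linarith
    nlinarith
  have key1 : ∀ a : ℝ, -(c.T0) ≤ a → a ≤ c.T0 → -(c.T0) ≤ a * ξ n ∧ a * ξ n ≤ c.T0 := by
    intro a ha ha'
    constructor <;> nlinarith
  have key2 : ∀ a : ℝ, -(2 * c.T0) ≤ a → -(2 * c.T0) ≤ a * ξ n := by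
    intro a ha
    nlinarith
  have k0 := key1 θ0 t0.1 t0.2
  have k1 := key1 θ1 t1.1 t1.2
  have k2 := key1 θ2 t2.1 t2.2
  constructor
  · intro k
    fin_cases k
    · show 0 ≤ c.XB T1 ξ w n 0
      rw [XB_0]; linarith
    · show 0 ≤ c.XB T1 ξ w n 1
      rw [XB_1]; linarith
    · show 0 ≤ c.XB T1 ξ w n 2
      rw [XB_2]; linarith
    · show 0 ≤ c.XB T1 ξ w n 3
      rw [XB_3]; linarith
    · show 0 ≤ c.XB T1 ξ w n 4
      rw [XB_4]; linarith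
    · show 0 ≤ c.XB T1 ξ w n 5
      rw [XB_5]; linarith
    · show 0 ≤ c.XB T1 ξ w n 6
      rw [XB_6]; linarith
    · show 0 ≤ c.XB T1 ξ w n 7
      rw [XB_7]; linarith
    · show 0 ≤ c.XB T1 ξ w n 8
      rw [XB_8]; linarith
    · show 0 ≤ c.XB T1 ξ w n 9
      rw [XB_9]; linarith
    · show 0 ≤ c.XB T1 ξ w n 10
      rw [XB_10]; linarith
  · rw [XB_0, XB_7]; linarith
  · rw [XB_4, XB_2, XB_3]; ring
  · rw [XB_6, XB_2, XB_5]; ring
  · rw [XB_7, XB_4, XB_5]; ring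
  · rw [XB_8, XB_0, XB_5]; ring
  · rw [XB_9, XB_0, XB_6]; ring
  · rw [XB_10, XB_4, XB_8]; ring

end tight

/-! ### gaps -/

section gap

variable {η : ℝ} {c : LCtx} {ξ w : ℕ → ℝ} {ξ₀ : ℝ}

theorem mk_w0 (ok : c.Ok η) : W0 c.D.B c.D.r0 c.D.lev c.D.w (c.p.θ 2 - c.p.θ 1)
    (c.p.θ 0 - c.p.θ 2) (1 - c.p.θ 0) (c.p.θ 1) ∧ W0 c.D.B c.D.r0 c.D.lev c.D.w 0 0 0 0 :=
  ⟨w0_one ok.th.tp.pre.mka, w0_zero ok.th.tp.pre.mka⟩

theorem lim_exp (hξ : Tendsto ξ U (𝓝 ξ₀)) (hw : Tendsto w U (𝓝 0)) (a b t : ℝ) :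
    Tendsto (fun n => a + b * ξ n + t * w n) U (𝓝 (a + b * ξ₀)) := by
  have h1 := (hξ.const_mul b).const_add a
  have h2 := h1.add (hw.const_mul t)
  simpa using h2

theorem gap_aux {B : Base} {n : ℕ} {C x y e e' : ℝ} (hx : 0 ≤ x) (hy : 0 ≤ y)
    (h1 : x ≤ B.d n ^ e * y) (h2 : |C| * B.d n ^ (e + e') ≤ 1) : C * (x * B.d n ^ e') ≤ y := by
  have hd := Dp76.dpow_pos B n e'
  calc C * (x * B.d n ^ e') ≤ |C| * (x * B.d n ^ e') :=
        mul_le_mul_of_nonneg_right (le_abs_self C) (mul_nonneg hx hd.le)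
    _ ≤ |C| * ((B.d n ^ e * y) * B.d n ^ e') :=
        mul_le_mul_of_nonneg_left (mul_le_mul_of_nonneg_right h1 hd.le) (abs_nonneg _)
    _ = (|C| * B.d n ^ (e + e')) * y := by rw [Dp76.dpow_add]; ring
    _ ≤ 1 * y := mul_le_mul_of_nonneg_right h2 hy
    _ = y := one_mul y

/-- thickness against narrow width -/
theorem gapF (ok : c.Ok η) (h0 : 0 < ξ₀) (hξ : Tendsto ξ U (𝓝 ξ₀)) (hw : Tendsto w U (𝓝 0))
    (C t : ℝ) : ∀ᶠ n in (U : Filter ℕ),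
      C * (c.D.w 0 n 0 * c.D.B.d n ^ (ξ n + t * w n)) ≤ c.D.w 2 n 0 := by
  have hδ : 0 < ξ₀ / 2 := by positivity
  have h2 := lim_exp hξ hw (0 - ξ₀ / 2) 1 t
  filter_upwards [(mk_w0 ok).2.by' _ hδ, (mk_w0 ok).2.pos 0, (mk_w0 ok).2.pos 2,
    ev_gap c.D.B h2 (by linarith) |C|] with n a1 a2 a3 a4
  refine gap_aux a2.le a3.le a1 ?_
  rwa [show (0 : ℝ) - ξ₀ / 2 + (ξ n + t * w n) = 0 - ξ₀ / 2 + 1 * ξ n + t * w n by ring]

/-- narrow width against wide width -/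
theorem gapE (ok : c.Ok η) (h1 : ξ₀ < 1) (hξ : Tendsto ξ U (𝓝 ξ₀)) (hw : Tendsto w U (𝓝 0))
    (C t : ℝ) : ∀ᶠ n in (U : Filter ℕ),
      C * (c.D.w 2 n 0 * c.D.B.d n ^ (-(c.p.θ 1 * ξ n) + t * w n)) ≤ c.D.w 1 n 0 := by
  have hθ := ok.th.tp.ok.θ1
  have hLL := ok.pat.2.2.2
  have hδ : 0 < c.p.θ 1 * (1 - ξ₀) / 2 := by
    have : 0 < 1 - ξ₀ := by linarith
    positivity
  have h2 := lim_exp hξ hw (c.p.θ 2 - c.p.θ 1 - c.p.θ 1 * (1 - ξ₀) / 2) (-c.p.θ 1) t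
  filter_upwards [(mk_w0 ok).1.ab _ hδ, (mk_w0 ok).2.pos 2, (mk_w0 ok).2.pos 1,
    ev_gap c.D.B h2 (by rw [hLL]; linarith) |C|] with n a1 a2 a3 a4
  refine gap_aux a2.le a3.le a1 ?_
  rwa [show c.p.θ 2 - c.p.θ 1 - c.p.θ 1 * (1 - ξ₀) / 2 + (-(c.p.θ 1 * ξ n) + t * w n) =
    c.p.θ 2 - c.p.θ 1 - c.p.θ 1 * (1 - ξ₀) / 2 + -c.p.θ 1 * ξ n + t * w n by ring]

/-- wide width against the height -/
theorem gapW (ok : c.Ok η) (h1 : ξ₀ < 1) (hξ : Tendsto ξ U (𝓝 ξ₀)) (hw : Tendsto w U (𝓝 0))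
    {e : ℕ → ℝ} (he : Tendsto e U (𝓝 0)) (C t : ℝ) : ∀ᶠ n in (U : Filter ℕ),
      C * (c.D.w 1 n 0 * c.D.B.d n ^ (-(c.p.θ 1 * ξ n) + t * w n)) ≤
        c.D.B.d n ^ (e n) * rho (c.D.lev n 0) := by
  have hθ := ok.th.tp.ok.θ1
  have hδ : 0 < c.p.θ 1 * (1 - ξ₀) / 2 := by
    have : 0 < 1 - ξ₀ := by linarith
    positivity
  have h2 := (lim_exp hξ hw (c.p.θ 1 - c.p.θ 1 * (1 - ξ₀) / 2) (-c.p.θ 1) t).sub he
  rw [sub_zero] at h2
  filter_upwards [(mk_w0 ok).1.cap _ hδ, (mk_w0 ok).2.pos 1,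
    ev_gap c.D.B h2 (by linarith) |C|] with n a1 a2 a4
  have hρ : 0 < rho (c.D.lev n 0) := rho_pos _
  have hd := fun e => Dp76.dpow_pos c.D.B n e
  refine gap_aux (e := c.p.θ 1 - c.p.θ 1 * (1 - ξ₀) / 2 - e n) a2.le (mul_pos (hd _) hρ).le ?_ ?_
  · rw [← mul_assoc, ← Dp76.dpow_add, sub_add_cancel]
    exact a1
  · rwa [show c.p.θ 1 - c.p.θ 1 * (1 - ξ₀) / 2 - e n + (-(c.p.θ 1 * ξ n) + t * w n) =
      c.p.θ 1 - c.p.θ 1 * (1 - ξ₀) / 2 + -c.p.θ 1 * ξ n + t * w n - e n by ring]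

/-- thickness against wide width -/
theorem gapFE (ok : c.Ok η) (h0 : 0 < ξ₀) (h1 : ξ₀ < 1) (hξ : Tendsto ξ U (𝓝 ξ₀))
    (hw : Tendsto w U (𝓝 0)) {C : ℝ} (hC : 0 ≤ C) (t : ℝ) : ∀ᶠ n in (U : Filter ℕ),
      C * (c.D.w 0 n 0 * c.D.B.d n ^ ((1 - c.p.θ 1) * ξ n + t * w n)) ≤ c.D.w 1 n 0 := by
  filter_upwards [gapF ok h0 hξ hw C t, gapE ok h1 hξ hw 1 0] with n a1 a2
  have hd := fun e => Dp76.dpow_pos c.D.B n e
  calc C * (c.D.w 0 n 0 * c.D.B.d n ^ ((1 - c.p.θ 1) * ξ n + t * w n)) =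
        (C * (c.D.w 0 n 0 * c.D.B.d n ^ (ξ n + t * w n))) *
          c.D.B.d n ^ (-(c.p.θ 1 * ξ n) + 0 * w n) := by
        rw [show (1 - c.p.θ 1) * ξ n + t * w n = (ξ n + t * w n) +
          (-(c.p.θ 1 * ξ n) + 0 * w n) by ring, Dp76.dpow_add]
        ring
    _ ≤ c.D.w 2 n 0 * c.D.B.d n ^ (-(c.p.θ 1 * ξ n) + 0 * w n) :=
        mul_le_mul_of_nonneg_right a1 (hd _).le
    _ ≤ c.D.w 1 n 0 := by linarith

/-- resolution against thickness -/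
theorem gapR (ok : c.Ok η) (h0 : 0 < ξ₀) (h1 : ξ₀ < 1) (hξ : Tendsto ξ U (𝓝 ξ₀))
    (hw : Tendsto w U (𝓝 0)) (hw0 : ∀ n, 0 < w n) {C t : ℝ} (hC : 6 ≤ C)
    (ht : c.p.θ 1 = 1 → t ≤ 0) : ∀ᶠ n in (U : Filter ℕ),
      6 * c.D.r0 n ≤ C * (c.D.w 0 n 0 * c.D.B.d n ^ ((1 - c.p.θ 0) * ξ n + t * w n)) := by
  have hθ := ok.th.tp.ok.θ1
  have hL1 := ok.pat.2.2.1
  have hL2 := ok.pat.2.2.2
  have hθ0 : 1 - c.p.θ 0 = 2 * (1 - c.p.θ 1) := by linarith
  -- exponents at most `0`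
  have key0 : (∀ᶠ n in (U : Filter ℕ), (1 - c.p.θ 0) * ξ n + t * w n ≤ 0) →
      ∀ᶠ n in (U : Filter ℕ),
      6 * c.D.r0 n ≤ C * (c.D.w 0 n 0 * c.D.B.d n ^ ((1 - c.p.θ 0) * ξ n + t * w n)) := by
    intro h
    filter_upwards [h, mark_ord ok.th.tp.pre.mka le_rfl zero_le_one, (mk_w0 ok).2.pos 0] with
      n a1 a2 a3
    have h3 : (1 : ℝ) ≤ c.D.B.d n ^ ((1 - c.p.θ 0) * ξ n + t * w n) := by
      have := Dp76.dpow_le c.D.B n a1
      rwa [Real.rpow_zero] at this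
    calc 6 * c.D.r0 n ≤ 6 * c.D.w 0 n 0 := by linarith [a2.1]
      _ ≤ C * c.D.w 0 n 0 := mul_le_mul_of_nonneg_right hC a3.le
      _ ≤ _ := mul_le_mul_of_nonneg_left (le_mul_of_one_le_right a3.le h3) (by linarith)
  rcases lt_trichotomy (c.p.θ 1) 1 with hlt | heq | hgt
  · have hδ : 0 < (1 - c.p.θ 1) * (1 - ξ₀) := by
      have h3 : 0 < 1 - ξ₀ := by linarith
      have h4 : 0 < 1 - c.p.θ 1 := by linarith
      positivity
    have h2 := lim_exp hξ hw (1 - c.p.θ 0 - (1 - c.p.θ 1) * (1 - ξ₀)) (-(1 - c.p.θ 0)) (-t)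
    filter_upwards [(mk_w0 ok).1.res _ hδ, (mk_w0 ok).2.pos 0,
      ev_gap c.D.B h2 (by rw [hθ0]; linarith) 6] with n a1 a2 a3
    have hd := fun e => Dp76.dpow_pos c.D.B n e
    have e1 : c.D.B.d n ^ (1 - c.p.θ 0 - (1 - c.p.θ 1) * (1 - ξ₀)) =
        c.D.B.d n ^ (1 - c.p.θ 0 - (1 - c.p.θ 1) * (1 - ξ₀) + -(1 - c.p.θ 0) * ξ n + -t * w n) *
          c.D.B.d n ^ ((1 - c.p.θ 0) * ξ n + t * w n) := by
      rw [← Dp76.dpow_add]; congr 1; ring
    calc 6 * c.D.r0 n ≤ 6 * (c.D.B.d n ^ (1 - c.p.θ 0 - (1 - c.p.θ 1) * (1 - ξ₀)) * c.D.w 0 n 0) :=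
          by linarith
      _ = (6 * c.D.B.d n ^ (1 - c.p.θ 0 - (1 - c.p.θ 1) * (1 - ξ₀) + -(1 - c.p.θ 0) * ξ n +
            -t * w n)) * (c.D.w 0 n 0 * c.D.B.d n ^ ((1 - c.p.θ 0) * ξ n + t * w n)) := by
          rw [e1]; ring
      _ ≤ 1 * (c.D.w 0 n 0 * c.D.B.d n ^ ((1 - c.p.θ 0) * ξ n + t * w n)) :=
          mul_le_mul_of_nonneg_right a3 (mul_pos a2 (hd _)).le
      _ ≤ _ := mul_le_mul_of_nonneg_right (by linarith) (mul_pos a2 (hd _)).le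
  · refine key0 (Eventually.of_forall fun n => ?_)
    have h3 : 1 - c.p.θ 0 = 0 := by rw [hθ0, heq]; ring
    rw [h3, zero_mul, zero_add]
    exact mul_nonpos_of_nonpos_of_nonneg (ht heq) (hw0 n).le
  · refine key0 ?_
    have h2 := lim_exp hξ hw 0 (1 - c.p.θ 0) t
    have h3 : 0 + (1 - c.p.θ 0) * ξ₀ < 0 := by
      rw [hθ0, zero_add]
      have : 0 < (c.p.θ 1 - 1) * ξ₀ := mul_pos (by linarith) h0
      linarith
    filter_upwards [h2.eventually (gt_mem_nhds h3)] with n a1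
    linarith

/-- the level of the box is inside `[0, 1]` -/
theorem gapZ (ok : c.Ok η) (h0 : 0 < ξ₀) (h1 : ξ₀ < 1) (hξ : Tendsto ξ U (𝓝 ξ₀))
    (hw : Tendsto w U (𝓝 0)) {K : ℝ} (hK : 1 ≤ K) (t : ℝ) : ∀ᶠ n in (U : Filter ℕ),
      K * (rho (c.D.lev n 0) * c.D.B.d n ^ (ξ n + t * w n)) ≤ rho (c.D.lev n 0) ∧
      rho (c.D.lev n 1) ≤ K * (rho (c.D.lev n 0) * c.D.B.d n ^ (ξ n + t * w n)) ∧
      c.D.lev n 0 ≤ c.D.lev n 1 := by
  have hδ : 0 < (1 - ξ₀) / 2 := by linarith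
  have hM := ok.th.tp.pre.mka
  have g1 := lim_exp hξ hw 0 1 t
  have g2 := lim_exp hξ hw (((1 : ℚ) : ℝ) - (1 - ξ₀) / 2) (-1) (-t)
  filter_upwards [ev_gap c.D.B g1 (by linarith) K, ev_gap c.D.B g2 (by push_cast; linarith) 1,
    PqG464.pow_lev hM 1 zero_le_one le_rfl hδ, hM.lev_mono 0 1 le_rfl zero_le_one le_rfl] with
    n a1 a2 a3 a4
  have hd := fun e => Dp76.dpow_pos c.D.B n e
  have hρ : 0 < rho (c.D.lev n 0) := rho_pos _
  refine ⟨?_, ?_, a4⟩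
  · calc K * (rho (c.D.lev n 0) * c.D.B.d n ^ (ξ n + t * w n)) =
          (K * c.D.B.d n ^ (0 + 1 * ξ n + t * w n)) * rho (c.D.lev n 0) := by
          rw [show 0 + 1 * ξ n + t * w n = ξ n + t * w n by ring]; ring
      _ ≤ 1 * rho (c.D.lev n 0) := mul_le_mul_of_nonneg_right a1 hρ.le
      _ = _ := one_mul _
  · calc rho (c.D.lev n 1) ≤ c.D.B.d n ^ (((1 : ℚ) : ℝ) - (1 - ξ₀) / 2) * rho (c.D.lev n 0) :=
          rho_hi a3.2
      _ = (1 * c.D.B.d n ^ (((1 : ℚ) : ℝ) - (1 - ξ₀) / 2 + -1 * ξ n + -t * w n)) *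
            (c.D.B.d n ^ (ξ n + t * w n) * rho (c.D.lev n 0)) := by
          rw [one_mul, ← mul_assoc, ← Dp76.dpow_add]
          congr 2; ring
      _ ≤ 1 * (c.D.B.d n ^ (ξ n + t * w n) * rho (c.D.lev n 0)) :=
          mul_le_mul_of_nonneg_right a2 (mul_pos (hd _) hρ).le
      _ = 1 * (rho (c.D.lev n 0) * c.D.B.d n ^ (ξ n + t * w n)) := by ring
      _ ≤ _ := mul_le_mul_of_nonneg_right hK (mul_pos hρ (hd _)).le

end gap

end Crest.Agent.R136.Dmx779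
end

-- ▼ part R136/DMX5_779
section

/-!
# R136: D-max for the boxes of the gauge chart at window precision (helper779), part 2

`hPD_L` : **number of incidences in a box of the gauge chart**, in the form of the hypothesis `hPD`
of `exists_extG`.
-/

set_option autoImplicit false
set_option linter.unusedVariables false
set_option linter.unusedSectionVars false

open Finset Filter Topology

namespace Crest.Agent.R136.Dmx779

open Crest.Agent.R138.Ex926 (Base U)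
open Crest.Agent.R138.Mk163 (zc zl rho alive)
open Crest.Agent.R138
open Crest.Agent.R136.MkA627
open Crest.Agent.R136.Sh605
open Crest.Agent.R136.K4
open Crest.Agent.R136.Top484
open Crest.Agent.R136.GeoQ186
open Crest.Agent.R136.Net191
open Crest.Agent.R136.NetQ186
open Crest.Agent.R136.Wq638
open Crest.Agent.R136.Lq196
open Crest.Agent.R136.NatT550
open Crest.Agent.R136.NatR550
open Crest.Agent.R136.TopB550
open Crest.Agent.R136.TL196
open Crest.Agent.R136.Gz779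
open Crest.Agent.R136.Qg926
open Crest.Agent.R136.Zpr779
open Crest.Agent.R136.NbC196 (nb_closeL)

/-- **geometry at one stage**: the box with exponents `E` around `i`, over one cell -/
theorem box_stage {η : ℝ} {c : LCtx} (ok : c.Ok η) {n : ℕ} {h : Fin 6 → ℝ} (h4 : h 4 = 0)
    (h5 : h 5 = 0) {E : Fin 11 → ℝ} (hl : Legal monQ E) {K C1 ρ z0 G1 G2 G3 : ℝ}
    (hK : 1 ≤ K) (hC1 : C1 = 21 * K ^ 3)
    (hw0 : 0 < c.D.w 0 n 0) (hw1 : 0 < c.D.w 1 n 0) (hw2 : 0 < c.D.w 2 n 0)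
    {i : ℕ × ℝ} (hi : i ∈ c.D.I n)
    (hρ0 : 0 ≤ ρ) (hρ : ρ ≤ 2 * (K * (rho (c.D.lev n 0) * c.D.B.d n ^ (E 0 - c.w0))))
    (hz : ∀ z, z0 ≤ z → z ≤ z0 + ρ → |z - i.2| ≤ 2 * ρ)
    (gE : c.D.w 2 n 0 * c.D.B.d n ^ (E 9 - 3 * c.w0) ≤ c.D.w 1 n 0 * c.D.B.d n ^ (E 8 - 2 * c.w0))
    (gF : c.D.w 0 n 0 * c.D.B.d n ^ (E 10 - 4 * c.w0) ≤ c.D.w 2 n 0 * c.D.B.d n ^ (E 9 - 3 * c.w0))
    (hr : 6 * c.D.r0 n ≤ C1 * (c.D.w 0 n 0 * c.D.B.d n ^ (E 10 - 4 * c.w0)))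
    (hτ : |tau h (c.F n i)| * c.D.B.d n ^ E 0 ≤ c.D.B.d n ^ G1)
    (h2 : |h 2| * c.D.B.d n ^ E 0 ≤ c.D.B.d n ^ G2)
    (h3 : |h 3| * c.D.B.d n ^ E 8 ≤ c.D.B.d n ^ G3)
    (t1 : 2 * K * 4096 * (c.D.w 0 n 0 * c.D.B.d n ^ (G1 + E 8 - 4 * c.w0)) ≤
      c.D.w 2 n 0 * c.D.B.d n ^ (E 9 - 3 * c.w0))
    (t2 : 2 * K * 4096 * (c.D.w 0 n 0 * c.D.B.d n ^ (G2 - 4 * c.w0)) ≤
      c.D.w 2 n 0 * c.D.B.d n ^ (-(3 * c.w0)))
    (t3 : C1 * 4096 * (c.D.w 0 n 0 * c.D.B.d n ^ (G3 + E 8 - 4 * c.w0)) ≤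
      c.D.w 2 n 0 * c.D.B.d n ^ (E 9 - 3 * c.w0))
    (t4 : C1 * 4096 * (c.D.w 0 n 0 * c.D.B.d n ^ (G3 - 4 * c.w0)) ≤
      c.D.w 1 n 0 * c.D.B.d n ^ (-(2 * c.w0))) :
    ∃ t : Plk4, ShN t.e t.c t.w t.q t.a z0 ρ (c.D.r0 n) ∧ 0 ≤ t.a ∧
      t.a ≤ C1 * (c.D.w 0 n 0 * c.D.B.d n ^ (E 10 - 4 * c.w0)) ∧
      C1 * (c.D.w 0 n 0 * c.D.B.d n ^ (E 10 - 4 * c.w0)) / 6 ≤ t.a ∧
      t.w 1 = 12 * (C1 * (c.D.w 1 n 0 * c.D.B.d n ^ (E 8 - 2 * c.w0))) ∧
      t.w 2 = 10 * (C1 * (c.D.w 2 n 0 * c.D.B.d n ^ (E 9 - 3 * c.w0))) ∧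
      ∀ y : ℕ × ℝ, (∀ k, |coG c.F (fun _ => h) n i y k| ≤ K * c.D.B.d n ^ E k) →
        InSheet (c.D.L n y.1) t.e t.c t.w t.q t.a z0 ρ := by
  set d := c.D.B.d n with hd
  have hdp : ∀ e : ℝ, 0 < d ^ e := fun e => Dp76.dpow_pos c.D.B n e
  have hda : ∀ e e' : ℝ, d ^ e * d ^ e' = d ^ (e + e') := fun e e' =>
    (Dp76.dpow_add c.D.B n e e').symm
  have hle : ∀ {e e' : ℝ}, e ≤ e' → d ^ e' ≤ d ^ e := fun h => Dp76.dpow_le c.D.B n h
  set H := uH c.D.B c.D.lev c.w0 n with hH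
  set Wa := uA c.D.B c.D.lev c.D.w c.w0 n with hWa
  set Wb := uB c.D.B c.D.lev c.D.w c.w0 n with hWb
  set Wy := uY c.D.B c.D.lev c.D.w c.w0 n with hWy
  have pH : 0 < H := uH_pos
  have pa : 0 < Wa := uA_pos hw1
  have pb : 0 < Wb := uB_pos hw2
  have py : 0 < Wy := uY_pos hw0
  have ua : ∀ e, Wa / H * d ^ e = c.D.w 1 n 0 * d ^ (e - 2 * c.w0) := fun e => unit_a e
  have ub : ∀ e, Wb / H * d ^ e = c.D.w 2 n 0 * d ^ (e - 3 * c.w0) := fun e => unit_b e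
  have uy : ∀ e, Wy / H * d ^ e = c.D.w 0 n 0 * d ^ (e - 4 * c.w0) := fun e => unit_y e
  have uz : ∀ e, d ^ e / H = rho (c.D.lev n 0) * d ^ (e - c.w0) := fun e => unit_z e
  obtain ⟨-, -, -, w7, -, -, w8, w9, -, w10, -, -⟩ := legalQ_iff.1 hl
  have hflag := ok.th.tp.flag n i hi
  have hK0 : 0 < K := by linarith
  have hC0 : 0 < C1 := by rw [hC1]; positivity
  -- from the true sizes to the units
  have cvt : ∀ {A B : ℝ}, A / H ≤ B / H → A ≤ B := fun hAB => (div_le_div_iff_of_pos_right pH).1 hAB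
  have kE : Wb * d ^ E 9 ≤ Wa * d ^ E 8 := by
    refine cvt ?_
    calc Wb * d ^ E 9 / H = Wb / H * d ^ E 9 := by ring
      _ = c.D.w 2 n 0 * d ^ (E 9 - 3 * c.w0) := ub _
      _ ≤ c.D.w 1 n 0 * d ^ (E 8 - 2 * c.w0) := gE
      _ = Wa / H * d ^ E 8 := (ua _).symm
      _ = _ := by ring
  have kF : Wy * d ^ E 10 ≤ Wb * d ^ E 9 := by
    refine cvt ?_
    calc Wy * d ^ E 10 / H = Wy / H * d ^ E 10 := by ring
      _ = c.D.w 0 n 0 * d ^ (E 10 - 4 * c.w0) := uy _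
      _ ≤ c.D.w 2 n 0 * d ^ (E 9 - 3 * c.w0) := gF
      _ = Wb / H * d ^ E 9 := (ub _).symm
      _ = _ := by ring
  have k1 : 2 * K * (Wy * |tau h (c.F n i)| * d ^ E 0 * d ^ E 8) ≤ 1 / 4096 * (Wb * d ^ E 9) := by
    refine cvt ?_
    calc 2 * K * (Wy * |tau h (c.F n i)| * d ^ E 0 * d ^ E 8) / H =
          2 * K * (Wy / H * ((|tau h (c.F n i)| * d ^ E 0) * d ^ E 8)) := by ring
      _ ≤ 2 * K * (Wy / H * (d ^ G1 * d ^ E 8)) := by
          have := (hdp (E 8)).le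
          gcongr
      _ = 2 * K * (c.D.w 0 n 0 * d ^ (G1 + E 8 - 4 * c.w0)) := by rw [hda, uy]
      _ = 1 / 4096 * (2 * K * 4096 * (c.D.w 0 n 0 * d ^ (G1 + E 8 - 4 * c.w0))) := by ring
      _ ≤ 1 / 4096 * (c.D.w 2 n 0 * d ^ (E 9 - 3 * c.w0)) := by gcongr
      _ = 1 / 4096 * (Wb / H * d ^ E 9) := by rw [ub]
      _ = _ := by ring
  have k2 : 2 * K * (Wy * |h 2| * d ^ E 0) ≤ 1 / 4096 * Wb := by
    refine cvt ?_
    calc 2 * K * (Wy * |h 2| * d ^ E 0) / H = 2 * K * (Wy / H * (|h 2| * d ^ E 0)) := by ring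
      _ ≤ 2 * K * (Wy / H * d ^ G2) := by gcongr
      _ = 2 * K * (c.D.w 0 n 0 * d ^ (G2 - 4 * c.w0)) := by rw [uy]
      _ = 1 / 4096 * (2 * K * 4096 * (c.D.w 0 n 0 * d ^ (G2 - 4 * c.w0))) := by ring
      _ ≤ 1 / 4096 * (c.D.w 2 n 0 * d ^ (-(3 * c.w0))) := by gcongr
      _ = 1 / 4096 * (Wb / H * d ^ (0 : ℝ)) := by rw [ub, zero_sub]
      _ = _ := by rw [Real.rpow_zero]; ring
  have k3 : C1 * (Wy * |h 3| * d ^ E 8 * d ^ E 8) ≤ 1 / 4096 * (Wb * d ^ E 9) := by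
    refine cvt ?_
    calc C1 * (Wy * |h 3| * d ^ E 8 * d ^ E 8) / H =
          C1 * (Wy / H * ((|h 3| * d ^ E 8) * d ^ E 8)) := by ring
      _ ≤ C1 * (Wy / H * (d ^ G3 * d ^ E 8)) := by
          have := (hdp (E 8)).le
          gcongr
      _ = C1 * (c.D.w 0 n 0 * d ^ (G3 + E 8 - 4 * c.w0)) := by rw [hda, uy]
      _ = 1 / 4096 * (C1 * 4096 * (c.D.w 0 n 0 * d ^ (G3 + E 8 - 4 * c.w0))) := by ring
      _ ≤ 1 / 4096 * (c.D.w 2 n 0 * d ^ (E 9 - 3 * c.w0)) := by gcongr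
      _ = 1 / 4096 * (Wb / H * d ^ E 9) := by rw [ub]
      _ = _ := by ring
  have k4 : C1 * (Wy * |h 3| * d ^ E 8) ≤ 1 / 4096 * Wa := by
    refine cvt ?_
    calc C1 * (Wy * |h 3| * d ^ E 8) / H = C1 * (Wy / H * (|h 3| * d ^ E 8)) := by ring
      _ ≤ C1 * (Wy / H * d ^ G3) := by gcongr
      _ = C1 * (c.D.w 0 n 0 * d ^ (G3 - 4 * c.w0)) := by rw [uy]
      _ = 1 / 4096 * (C1 * 4096 * (c.D.w 0 n 0 * d ^ (G3 - 4 * c.w0))) := by ring
      _ ≤ 1 / 4096 * (c.D.w 1 n 0 * d ^ (-(2 * c.w0))) := by gcongr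
      _ = 1 / 4096 * (Wa / H * d ^ (0 : ℝ)) := by rw [ua, zero_sub]
      _ = _ := by rw [Real.rpow_zero]; ring
  have kr : 6 * c.D.r0 n ≤ C1 * (Wy / H * d ^ E 10) := by rw [uy]; exact hr
  have kρ : ρ ≤ 2 * K * d ^ E 0 / H := by
    calc ρ ≤ 2 * (K * (rho (c.D.lev n 0) * d ^ (E 0 - c.w0))) := hρ
      _ = 2 * K * (d ^ E 0 / H) := by rw [uz]; ring
      _ = _ := by ring
  have hS := stage_sheet (π := c.π) (H := H) (Wa := Wa) (Wb := Wb) (Wy := Wy) (K := K) (C1 := C1)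
    (ρ := ρ) (z0 := z0) (r0 := c.D.r0 n) (zi := i.2) (ei := c.eE n i) (Fa := c.fA n i)
    (Fb := c.fB n i) (c := c.D.L n i.1) (h := h) (S := fun k => d ^ E k) pH pa pb py
    hflag.1 hflag.2.1 hflag.2.2 h4 h5 (fun k => hdp _) hK hC1
    (by rw [hda]; exact hle w8) (by rw [hda]; exact hle w9)
    (by rw [hda]; exact hle w10) (by rw [hda]; exact hle w7)
    hρ0 kρ hz kE kF kr k1 k2 k3 k4
  obtain ⟨t, s1, s2, s3, s3', s4, s5, s6⟩ := hS
  refine ⟨t, s1, s2, ?_, ?_, ?_, ?_, fun y hy => ?_⟩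
  · rw [← uy]; exact s3
  · rw [← uy]; exact s3'
  · rw [← ua]; exact s4
  · rw [← ub]; exact s5
  · exact s6 (c.D.L n y.1) y.2 (c.eE n y) (c.fA n y) (c.fB n y) fun k => hy k

/-- the three cells around a point -/
theorem cell_dist {l : ℕ} {J : ℤ} {z zi : ℝ} (hJ : J ∈ Finset.Icc (zc l zi - 1) (zc l zi + 1))
    (h1 : zl l J ≤ z) (h2 : z ≤ zl l J + rho l) : |z - zi| ≤ 2 * rho l := by
  rw [Finset.mem_Icc] at hJ
  obtain ⟨a1, a2⟩ := mem_cell (rfl : zc l zi = zc l zi)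
  have hρ : 0 < rho l := rho_pos _
  have b1 : ((zc l zi : ℤ) : ℝ) - 1 ≤ J := by exact_mod_cast hJ.1
  have b2 : (J : ℝ) ≤ (zc l zi : ℤ) + 1 := by exact_mod_cast hJ.2
  have e1 := zl_add l (zc l zi) J
  have c1 : -(1 * rho l) ≤ ((J : ℝ) - (zc l zi : ℤ)) * rho l := by
    have : (-1 : ℝ) ≤ (J : ℝ) - (zc l zi : ℤ) := by linarith
    have := mul_le_mul_of_nonneg_right this hρ.le
    linarith
  have c2 : ((J : ℝ) - (zc l zi : ℤ)) * rho l ≤ 1 * rho l :=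
    mul_le_mul_of_nonneg_right (by linarith) hρ.le
  rw [abs_le]
  constructor <;> linarith

/-- points at distance at most one cell -/
theorem cell_near {l : ℕ} {z z' : ℝ} (h : |z' - z| ≤ rho l) :
    zc l z' ∈ Finset.Icc (zc l z - 1) (zc l z + 1) := by
  refine PqG464.zc_near ?_
  have h1 := two_rho l
  calc |z' - z| * 2 ^ l ≤ rho l * 2 ^ l := mul_le_mul_of_nonneg_right h (by positivity)
    _ = 1 := by rw [mul_comm]; exact h1

/-- the side of a window box -/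
theorem side_pow {B B' : Base} {w : ℕ → ℝ} (hb : ∀ n, B'.d n = B.d n ^ w n) (n : ℕ) (a t : ℝ) :
    B.d n ^ a * B'.d n ^ t = B.d n ^ (a + w n * t) := by
  rw [hb, ← Real.rpow_mul (B.pos n).le, ← Real.rpow_add (B.pos n)]

/-- record value -/
theorem rec_DQ {η : ℝ} {c : LCtx} (ok : c.Ok η) {ξ : ℝ} (h0 : 0 ≤ ξ) (h1 : ξ < 1) :
    c.c₀ + DQ c.p.g 0 c.p.q c.w0 (c.X ξ) = c.ν (c.X ξ) := by
  rw [rec_val ok h0 h1, LCtx.X, DQ_DN]

/-- widths comparable to the marks are in the range of the tests -/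
theorem ev_rng {B : Base} {wr cr : Fin 3 → ℕ → ℝ} {w : Fin 3 → ℕ → ℚ → ℝ} (hR : Rng B wr cr w)
    (hw : ∀ k, ∀ᶠ n in (U : Filter ℕ), 0 < w k n 0) (M : ℝ) {K1 K2 : ℝ} (h1 : 0 < K1)
    (h2 : 0 < K2) : ∀ᶠ n in (U : Filter ℕ), ∀ (k : Fin 3) (y a : ℝ), |y| ≤ M →
      K1 * (w k n 0 * B.d n ^ y) ≤ a → a ≤ K2 * (w k n 0 * B.d n ^ y) →
        wr k n ≤ a ∧ a ≤ cr k n := by
  have hk : ∀ᶠ n in (U : Filter ℕ), ∀ k : Fin 3, 0 < w k n 0 ∧
      wr k n ≤ B.d n ^ (M + 1) * w k n 0 ∧ w k n 0 ≤ B.d n ^ (M + 1) * cr k n := by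
    rw [eventually_all]
    intro k
    filter_upwards [hw k, hR (M + 1) k 0 le_rfl zero_le_one] with n a b using ⟨a, b⟩
  filter_upwards [hk, B.lim0.eventually (gt_mem_nhds h1),
    B.lim0.eventually (gt_mem_nhds (inv_pos.2 h2))] with n hk d1 d2 k y a hy ha1 ha2
  obtain ⟨w0, r1, r2⟩ := hk k
  have hdp : ∀ t : ℝ, 0 < B.d n ^ t := fun t => Real.rpow_pos_of_pos (B.pos n) t
  have hle : ∀ {s t : ℝ}, s ≤ t → B.d n ^ t ≤ B.d n ^ s := fun h =>
    Real.rpow_le_rpow_of_exponent_ge (B.pos n) (B.lt n).le h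
  obtain ⟨y1, y2⟩ := abs_le.1 hy
  have e1 : B.d n ^ (M + 1) = B.d n ^ M * B.d n := by
    rw [Real.rpow_add (B.pos n), Real.rpow_one]
  constructor
  · refine r1.trans (le_trans ?_ ha1)
    calc B.d n ^ (M + 1) * w k n 0 = B.d n * (w k n 0 * B.d n ^ M) := by rw [e1]; ring
      _ ≤ K1 * (w k n 0 * B.d n ^ M) :=
          mul_le_mul_of_nonneg_right d1.le (mul_pos w0 (hdp _)).le
      _ ≤ K1 * (w k n 0 * B.d n ^ y) :=
          mul_le_mul_of_nonneg_left (mul_le_mul_of_nonneg_left (hle y2) w0.le) h1.le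
  · refine ha2.trans ?_
    have hc : 0 < cr k n := by
      by_contra hcon
      push Not at hcon
      have := mul_nonpos_of_nonneg_of_nonpos (hdp (M + 1)).le hcon
      linarith
    have d2' : K2 * B.d n ≤ 1 := by
      have := mul_le_mul_of_nonneg_left d2.le h2.le
      rwa [mul_inv_cancel₀ h2.ne'] at this
    calc K2 * (w k n 0 * B.d n ^ y) ≤ K2 * (w k n 0 * B.d n ^ (-M)) :=
          mul_le_mul_of_nonneg_left (mul_le_mul_of_nonneg_left (hle y1) w0.le) h2.le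
      _ ≤ K2 * (B.d n ^ (M + 1) * cr k n * B.d n ^ (-M)) :=
          mul_le_mul_of_nonneg_left (mul_le_mul_of_nonneg_right r2 (hdp _).le) h2.le
      _ = K2 * B.d n * cr k n * (B.d n ^ M * B.d n ^ (-M)) := by rw [e1]; ring
      _ = K2 * B.d n * cr k n := by
          rw [← Real.rpow_add (B.pos n), add_neg_cancel, Real.rpow_zero, mul_one]
      _ ≤ 1 * cr k n := mul_le_mul_of_nonneg_right d2' hc.le
      _ = _ := one_mul _

theorem bd_exp {a b c v u : ℝ} (hv0 : 0 ≤ v) (hv1 : v ≤ 1) (hu0 : 0 ≤ u) (hu1 : u ≤ 1) :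
    |a * v - u * b + u * c| ≤ |a| + |b| + |c| := by
  have h1 : |a * v| ≤ |a| := by
    rw [abs_mul, abs_of_nonneg hv0]; exact mul_le_of_le_one_right (abs_nonneg _) hv1
  have h2 : |u * b| ≤ |b| := by
    rw [abs_mul, abs_of_nonneg hu0]; exact mul_le_of_le_one_left (abs_nonneg _) hu1
  have h3 : |u * c| ≤ |c| := by
    rw [abs_mul, abs_of_nonneg hu0]; exact mul_le_of_le_one_left (abs_nonneg _) hu1
  have h4 := abs_add_le (a * v - u * b) (u * c)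
  have h5 := abs_sub (a * v) (u * b)
  linarith

/-- exponents of the count -/
theorem fin_exp {η : ℝ} {c : LCtx} (ok : c.Ok η) {v u T1 e : ℝ} (h0 : 0 ≤ v) (h1 : v < 1)
    (p : Fin 11 → ℝ) {y0 y8 y9 y10 : ℝ} (e0 : y0 = v + p 0 * u)
    (e8 : y8 = (1 - c.p.θ 1) * v - u * T1 + u * p 8)
    (e9 : y9 = (1 - c.p.θ 2) * v - 2 * (u * T1) + u * p 9)
    (e10 : y10 = (1 - c.p.θ 0) * v - 2 * (u * T1) + u * p 10) :
    y10 + y9 + y8 + (c.p.q 0 * (y10 - y0) + c.p.q 1 * (y8 - y0) + c.p.q 2 * (y9 - y0)) +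
        ((1 - 0) - c.p.g) * y0 + -((1 - 0) + c.c₀ + e) =
      -(c.ν (c.X v)) + u * (-(DL c.p (bT T1)) - DL c.p p) - e := by
  have hr := rec_DQ ok h0 h1
  rw [LCtx.X, DQ_DN] at hr
  rw [LCtx.X, ← hr, e8, e9, e10, e0]
  simp only [DN, DL, bT, nL, Matrix.cons_val]
  ring

/-- numbers of the count -/
theorem fin_num {B B' : Base} {n : ℕ} {u : ℝ} (hBp : ∀ t : ℝ, B'.d n ^ t = B.d n ^ (u * t))
    {N vm C3 CK rt Y yc s e ε νX M : ℝ} (hvm : 0 < vm) (hC3 : 0 ≤ C3) (hCK : 0 ≤ CK)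
    (hN : N ≤ (C3 * vm * B.d n ^ Y / vm) * rt * B.d n ^ s) (hrt : rt ≤ CK * B.d n ^ yc)
    (hexp : Y + yc + s = -νX + u * M - e)
    (h1 : C3 * CK ≤ B'.d n ^ (-(ε / 2))) (h2 : B.d n ^ (-e) ≤ B'.d n ^ (-(ε / 2))) :
    N ≤ B.d n ^ (-νX) * B'.d n ^ (M - ε) := by
  have hdp : ∀ t : ℝ, 0 < B.d n ^ t := fun t => Dp76.dpow_pos B n t
  have hbp : ∀ t : ℝ, 0 < B'.d n ^ t := fun t => Dp76.dpow_pos B' n t
  have hda : ∀ s t : ℝ, B.d n ^ s * B.d n ^ t = B.d n ^ (s + t) := fun s t =>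
    (Dp76.dpow_add B n s t).symm
  have hba : ∀ s t : ℝ, B'.d n ^ s * B'.d n ^ t = B'.d n ^ (s + t) := fun s t =>
    (Dp76.dpow_add B' n s t).symm
  have e1 : C3 * vm * B.d n ^ Y / vm = C3 * B.d n ^ Y := by
    rw [mul_assoc, mul_comm vm, ← mul_assoc, mul_div_assoc, div_self hvm.ne', mul_one]
  rw [e1] at hN
  have p1 : 0 ≤ C3 * B.d n ^ Y := mul_nonneg hC3 (hdp _).le
  calc N ≤ C3 * B.d n ^ Y * rt * B.d n ^ s := hN
    _ ≤ C3 * B.d n ^ Y * (CK * B.d n ^ yc) * B.d n ^ s :=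
        mul_le_mul_of_nonneg_right (mul_le_mul_of_nonneg_left hrt p1) (hdp _).le
    _ = C3 * CK * (B.d n ^ Y * B.d n ^ yc * B.d n ^ s) := by ring
    _ = C3 * CK * (B.d n ^ (-νX) * B.d n ^ (u * M) * B.d n ^ (-e)) := by
        rw [hda, hda, hexp, hda, hda]; ring_nf
    _ = C3 * CK * B.d n ^ (-e) * (B.d n ^ (-νX) * B'.d n ^ M) := by rw [← hBp]; ring
    _ ≤ B'.d n ^ (-(ε / 2)) * B'.d n ^ (-(ε / 2)) * (B.d n ^ (-νX) * B'.d n ^ M) :=
        mul_le_mul_of_nonneg_right (mul_le_mul h1 h2 (hdp _).le (hbp _).le)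
          (mul_pos (hdp _) (hbp _)).le
    _ = B.d n ^ (-νX) * (B'.d n ^ (-(ε / 2) + -(ε / 2)) * B'.d n ^ M) := by rw [hba]; ring
    _ = _ := by rw [hba]; congr 2; ring

open Classical in
set_option maxHeartbeats 8000000 in
/-- **number of incidences in a box of the gauge chart** (hypothesis `hPD` of `exists_extG`) -/
theorem hPD_L {η : ℝ} {c : LCtx} (ok : c.Ok η) : ∃ Hs : ℕ → ℝ, c.D.B.Sub Hs ∧
    ∀ {B' : Base} {J : ℕ → Finset (ℕ × ℝ)} {ξ w : ℕ → ℝ} {lam lo : (Fin 11 → ℝ) → ℝ}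
      {Cl E : ℕ → Finset (ℕ × ℝ)} {s₀ : ℕ → ℕ × ℝ} {h : ℕ → Fin 6 → ℝ} {ηg : ℕ → ℝ} {T1 x R' : ℝ},
      GWin c T1 x B' J ξ w lam lo Cl E s₀ h ηg → B'.Sub Hs →
      ∀ p ∈ PDz (c.p.θ 1) T1 R', ∀ ε : ℝ, 0 < ε → ∀ᶠ n in (U : Filter ℕ), ∀ A ⊆ E n, ∀ i ∈ E n,
        (∀ j ∈ A, wbox c.D.B B' (coG c.F h) (XG (c.XB T1 ξ w)) n p (cK0 monQ 2) i j) →
        (A.card : ℝ) ≤ c.TB T1 B' ξ lam n *
          B'.d n ^ (-((DL c.p (bT T1) - lam (bT T1)) + DL c.p p + ε)) := by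
  have hM := ok.th.tp.pre.mka
  have hq : ∀ j, 0 ≤ c.p.q j := by
    intro j
    fin_cases j
    · exact ok.th.tp.ok.q0.1
    · exact ok.th.tp.ok.g0.2.le
    · exact ok.th.tp.ok.q2.1.le
  obtain ⟨e, he0, heS, hcount⟩ := count_s3 (L := c.D.L) (r0 := c.D.r0) (q := c.p.q) hM hq
    ok.th.comb ok.th.ext.sub
  refine ⟨fun n => c.D.B.d n ^ (-(e n)), heS, ?_⟩
  intro B' J ξ w lam lo Cl E s₀ h ηg T1 x R' W hSub p hp ε hε
  obtain ⟨ξ₀, h0, h1, hξ⟩ := W.rw.ξlim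
  have hw := W.rw.wlim
  have hwp : ∀ n, 0 < w n := W.cls.w0
  have hbase : ∀ n, B'.d n = c.D.B.d n ^ w n := W.cls.base
  have hpL : p ∈ Leg monQ R' := hp.1
  have G := W.gau
  -- `e → 0`
  have het : Tendsto e U (𝓝 0) := by
    rw [Metric.tendsto_nhds]
    intro δ hδ
    filter_upwards [End403.sub_le_rpow heS (half_pos hδ)] with n hn
    rw [Real.dist_eq, sub_zero, abs_of_pos (he0 n)]
    by_contra hcon
    push Not at hcon
    have h2 : c.D.B.d n ^ (-(δ / 2)) < c.D.B.d n ^ (-(e n)) :=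
      Real.rpow_lt_rpow_of_exponent_gt (c.D.B.pos n) (c.D.B.lt n) (by linarith)
    exact absurd hn.2 (not_le.2 h2)
  set K0 : ℝ := cK0 monQ 2 with hK0d
  have hK01 : 1 ≤ K0 := cK0_one (by norm_num)
  set K : ℝ := triC monQ 2 K0 with hKd
  have hK0K : K0 ≤ K := triC_ge (by norm_num) hK01
  have hK : 1 ≤ K := hK01.trans hK0K
  set C1 : ℝ := 21 * K ^ 3 with hC1
  have hC1p : 21 ≤ C1 := by
    have : 1 ≤ K ^ 3 := one_le_pow₀ hK
    rw [hC1]; linarith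
  set Q : ℝ := c.p.q 0 + c.p.q 1 + c.p.q 2 with hQd
  set C4 : ℝ := (12 * C1) ^ 3 * (12 * C1) ^ Q * (2 * K) ^ |(1 - 0) - c.p.g| with hC4
  have hC4p : 0 < C4 := by
    have h1 : 0 < 12 * C1 := by linarith
    have h2 : 0 < 2 * K := by linarith
    rw [hC4]
    exact mul_pos (mul_pos (pow_pos h1 3) (Real.rpow_pos_of_pos h1 _)) (Real.rpow_pos_of_pos h2 _)
  have hLL1 := ok.pat.2.2.1
  have hLL2 := ok.pat.2.2.2
  have hEI : ∀ᶠ n in (U : Filter ℕ), E n ⊆ c.I1 n := by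
    filter_upwards [W.esub, W.cls.csub, W.rw.Jsub] with n a b d using a.trans (b.trans d)
  have hp10 : c.p.θ 1 = 1 → p 10 - 2 * T1 ≤ 0 := fun h => by have := hp.2 h; linarith
  have hwk : ∀ k, ∀ᶠ n in (U : Filter ℕ), 0 < c.D.w k n 0 := fun k => (mk_w0 ok).2.pos k
  obtain ⟨M, hM0, hM1, hM2⟩ : ∃ M : ℝ, |1 - c.p.θ 0| + |2 * T1| + |p 10| ≤ M ∧
      |1 - c.p.θ 1| + |T1| + |p 8| ≤ M ∧ |1 - c.p.θ 2| + |2 * T1| + |p 9| ≤ M :=
    ⟨max (|1 - c.p.θ 0| + |2 * T1| + |p 10|) (max (|1 - c.p.θ 1| + |T1| + |p 8|)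
      (|1 - c.p.θ 2| + |2 * T1| + |p 9|)), le_max_left _ _,
      (le_max_left _ _).trans (le_max_right _ _), (le_max_right _ _).trans (le_max_right _ _)⟩
  have a1 : ∀ᶠ n in (U : Filter ℕ), (∀ j : Fin 3, 0 < c.D.w j n 0) ∧ 0 < ξ n ∧ ξ n < 1 := by
    filter_upwards [(mk_w0 ok).2.pos 0, (mk_w0 ok).2.pos 1, (mk_w0 ok).2.pos 2,
      hξ.eventually (lt_mem_nhds h0), hξ.eventually (gt_mem_nhds h1)] with n b0 b1 b2 b3 b4
    refine ⟨fun j => ?_, b3, b4⟩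
    fin_cases j
    · exact b0
    · exact b1
    · exact b2
  filter_upwards [a1, hEI, tight_XB (T1 := T1) ok h0 h1 hξ hw, hcount,
    vm_eq hM le_rfl zero_le_one,
    gapZ ok h0 h1 hξ hw hK (p 0),
    gapE ok h1 hξ hw 1 (p 9 - p 8 - T1),
    gapF ok h0 hξ hw 1 (p 10 - p 9),
    gapF ok h0 hξ hw (2 * K * 4096) (x - 1 + p 0 + p 8 - p 9),
    gapF ok h0 hξ hw (2 * K * 4096) (p 0 - 1),
    gapF ok h0 hξ hw (C1 * 4096) (-1 + 2 * p 8 - p 9),
    gapFE ok h0 h1 hξ hw (C := C1 * 4096) (by positivity) (p 8 - 1 - T1),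
    gapR ok h0 h1 hξ hw hwp (C := C1) (t := p 10 - 2 * T1) (by linarith) hp10,
    gapW ok h1 hξ hw het (12 * C1) (p 8 - T1 - p 0),
    G.tau, G.b2 1 one_pos, G.b3 1 one_pos, G.bη 1 one_pos,
    nb_closeL ok W p, End403.sub_le_rpow hSub (half_pos hε),
    ev_const_le B' hC4p (half_pos hε),
    ev_rng ok.th.tp.wrs hwk M (K1 := C1 / 6) (K2 := 12 * C1) (by linarith) (by linarith),
    hw.eventually (gt_mem_nhds (zero_lt_one' ℝ))] with
    n hpos hEI ht hcnt hvm gz gE gF g1 g2 g3 g4 gR gW htau hb2 hb3 hbη hnb hHs hC4e hrng hu1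
    A hA i hi hbox
  obtain ⟨hwpos, hξ0, hξ1⟩ := hpos
  obtain ⟨gz1, gz2, gz3⟩ := gz
  have hiI : i ∈ c.D.I n := ok.th.ext.sub n (hEI hi)
  have hAI : A ⊆ c.I1 n := hA.trans hEI
  set d := c.D.B.d n with hd
  have hdp : ∀ t : ℝ, 0 < d ^ t := fun t => Dp76.dpow_pos c.D.B n t
  have hda : ∀ s t : ℝ, d ^ s * d ^ t = d ^ (s + t) := fun s t => (Dp76.dpow_add c.D.B n s t).symm
  have hle : ∀ {s t : ℝ}, s ≤ t → d ^ t ≤ d ^ s := fun h => Dp76.dpow_le c.D.B n h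
  set u := w n with hu
  set v := ξ n with hv
  have hup : 0 < u := hwp n
  have hside : ∀ a t : ℝ, d ^ a * B'.d n ^ t = d ^ (a + u * t) := fun a t =>
    side_pow hbase n a t
  have hBp : ∀ t : ℝ, B'.d n ^ t = d ^ (u * t) := fun t => by
    have := hside 0 t
    rwa [Real.rpow_zero, one_mul, zero_add] at this
  set X := c.XB T1 ξ w n with hX
  set Ee : Fin 11 → ℝ := XG (c.XB T1 ξ w) n + u • p with hEe
  have hEk : ∀ k, Ee k = XG (c.XB T1 ξ w) n k + u * p k := fun k => by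
    simp [hEe]
  have hl : Legal monQ Ee := legal_add_smul (legal_XG ht) hpL.1 hup.le
  have E0 : Ee 0 = c.w0 + v + u * p 0 := by
    rw [hEk, XG_of_ne (by decide), XB_0]
  have E8 : Ee 8 = 2 * c.w0 + (1 - c.p.θ 1) * v - u * T1 + u * p 8 := by
    rw [hEk, XG_of_ne (by decide), XB_8]
  have E9 : Ee 9 = 3 * c.w0 + (1 - c.p.θ 2) * v - 2 * (u * T1) + u * p 9 := by
    rw [hEk, XG_of_ne (by decide), XB_9]
  have E10 : Ee 10 = 4 * c.w0 + (1 - c.p.θ 0) * v - 2 * (u * T1) + u * p 10 := by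
    rw [hEk, XG_of_ne (by decide), XB_10]
  have hθ2 : c.p.θ 2 = 2 * c.p.θ 1 := hLL2
  have hθ0 : c.p.θ 0 = 2 * c.p.θ 1 - 1 := by linarith
  have X4 : X 4 = 2 * c.w0 + (c.p.θ 1 - c.p.θ 0) * v - u * T1 := XB_4
  have X3 : X 3 = c.w0 + (c.p.θ 2 - c.p.θ 0) * v := XB_3
  have EX0 : Ee 0 = X 0 + u * p 0 := by rw [hEk, XG_of_ne (by decide)]
  have EX8 : Ee 8 = X 8 + u * p 8 := by rw [hEk, XG_of_ne (by decide)]
  -- shifting an inequality
  have shift : ∀ {C a b s : ℝ} (t : ℝ), C * (a * d ^ s) ≤ b → C * (a * d ^ (s + t)) ≤ b * d ^ t := by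
    intro C a b s t hab
    calc C * (a * d ^ (s + t)) = (C * (a * d ^ s)) * d ^ t := by rw [← hda]; ring
      _ ≤ b * d ^ t := mul_le_mul_of_nonneg_right hab (hdp _).le
  -- the level
  obtain ⟨l, hl0, hl1, hxl, hlx⟩ := exists_cell gz3 gz1 gz2
  have hρl : 0 < rho l := rho_pos _
  have hρ0 : 0 < rho (c.D.lev n 0) := rho_pos _
  have e0 : Ee 0 - c.w0 = v + p 0 * u := by rw [E0]; ring
  -- the gauge
  have hτ : |tau (h n) (c.F n i)| * d ^ Ee 0 ≤ d ^ (X 4 + u * (x - 1) + u * p 0) := by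
    calc |tau (h n) (c.F n i)| * d ^ Ee 0 = |tau (h n) (c.F n i)| * d ^ X 0 * d ^ (u * p 0) := by
          rw [EX0, ← hda]; ring
      _ ≤ ηg n * d ^ X 0 * d ^ (u * p 0) :=
          mul_le_mul_of_nonneg_right (mul_le_mul_of_nonneg_right (htau i hi) (hdp _).le) (hdp _).le
      _ ≤ B'.d n ^ (x - 1) * d ^ X 4 * d ^ (u * p 0) :=
          mul_le_mul_of_nonneg_right hbη (hdp _).le
      _ = _ := by rw [hBp, hda, hda]; congr 1; ring
  have hh2 : |h n 2| * d ^ Ee 0 ≤ d ^ (X 3 + u * (-1) + u * p 0) := by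
    calc |h n 2| * d ^ Ee 0 = |h n 2| * d ^ X 0 * d ^ (u * p 0) := by
          rw [EX0, ← hda]; ring
      _ ≤ B'.d n ^ (-1 : ℝ) * d ^ X 3 * d ^ (u * p 0) :=
          mul_le_mul_of_nonneg_right hb2 (hdp _).le
      _ = _ := by rw [hBp, hda, hda]; congr 1; ring
  have hh3 : |h n 3| * d ^ Ee 8 ≤ d ^ (X 4 + u * (-1) + u * p 8) := by
    calc |h n 3| * d ^ Ee 8 = |h n 3| * d ^ X 8 * d ^ (u * p 8) := by
          rw [EX8, ← hda]; ring
      _ ≤ B'.d n ^ (-1 : ℝ) * d ^ X 4 * d ^ (u * p 8) :=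
          mul_le_mul_of_nonneg_right hb3 (hdp _).le
      _ = _ := by rw [hBp, hda, hda]; congr 1; ring
  have kE : c.D.w 2 n 0 * d ^ (Ee 9 - 3 * c.w0) ≤ c.D.w 1 n 0 * d ^ (Ee 8 - 2 * c.w0) := by
    have := shift (Ee 8 - 2 * c.w0) gE
    rw [one_mul] at this
    refine le_trans (le_of_eq ?_) this
    congr 2
    rw [E9, E8, hθ2]; ring
  have kF : c.D.w 0 n 0 * d ^ (Ee 10 - 4 * c.w0) ≤ c.D.w 2 n 0 * d ^ (Ee 9 - 3 * c.w0) := by
    have := shift (Ee 9 - 3 * c.w0) gF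
    rw [one_mul] at this
    refine le_trans (le_of_eq ?_) this
    congr 2
    rw [E9, E10, hθ2, hθ0]; ring
  have k1 : 2 * K * 4096 * (c.D.w 0 n 0 * d ^ (X 4 + u * (x - 1) + u * p 0 + Ee 8 - 4 * c.w0)) ≤
      c.D.w 2 n 0 * d ^ (Ee 9 - 3 * c.w0) := by
    refine le_trans (le_of_eq ?_) (shift (Ee 9 - 3 * c.w0) g1)
    congr 3
    rw [E9, E8, X4, hθ2, hθ0]; ring
  have k2 : 2 * K * 4096 * (c.D.w 0 n 0 * d ^ (X 3 + u * (-1) + u * p 0 - 4 * c.w0)) ≤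
      c.D.w 2 n 0 * d ^ (-(3 * c.w0)) := by
    refine le_trans (le_of_eq ?_) (shift (-(3 * c.w0)) g2)
    congr 3
    rw [X3, hθ2, hθ0]; ring
  have k3 : C1 * 4096 * (c.D.w 0 n 0 * d ^ (X 4 + u * (-1) + u * p 8 + Ee 8 - 4 * c.w0)) ≤
      c.D.w 2 n 0 * d ^ (Ee 9 - 3 * c.w0) := by
    refine le_trans (le_of_eq ?_) (shift (Ee 9 - 3 * c.w0) g3)
    congr 3
    rw [E9, E8, X4, hθ2, hθ0]; ring
  have k4 : C1 * 4096 * (c.D.w 0 n 0 * d ^ (X 4 + u * (-1) + u * p 8 - 4 * c.w0)) ≤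
      c.D.w 1 n 0 * d ^ (-(2 * c.w0)) := by
    refine le_trans (le_of_eq ?_) (shift (-(2 * c.w0)) g4)
    congr 3
    rw [X4, hθ0]; ring
  have kR : 6 * c.D.r0 n ≤ C1 * (c.D.w 0 n 0 * d ^ (Ee 10 - 4 * c.w0)) := by
    refine gR.trans (le_of_eq ?_)
    congr 3
    rw [E10]; ring
  have kW : 12 * (C1 * (c.D.w 1 n 0 * d ^ (Ee 8 - 2 * c.w0))) ≤ d ^ (e n) * rho l := by
    have h5 := shift (v + p 0 * u) gW
    calc 12 * (C1 * (c.D.w 1 n 0 * d ^ (Ee 8 - 2 * c.w0))) =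
          12 * C1 * (c.D.w 1 n 0 * d ^ (-(c.p.θ 1 * v) + (p 8 - T1 - p 0) * u + (v + p 0 * u))) := by
          rw [E8]; ring_nf
      _ ≤ d ^ (e n) * rho (c.D.lev n 0) * d ^ (v + p 0 * u) := h5
      _ = d ^ (e n) * (1 * (rho (c.D.lev n 0) * d ^ (v + p 0 * u))) := by ring
      _ ≤ d ^ (e n) * (K * (rho (c.D.lev n 0) * d ^ (v + p 0 * u))) :=
          mul_le_mul_of_nonneg_left (mul_le_mul_of_nonneg_right hK
            (mul_pos hρ0 (hdp _)).le) (hdp _).le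
      _ ≤ d ^ (e n) * rho l := mul_le_mul_of_nonneg_left hxl (hdp _).le
  have hC12 : 0 ≤ 12 * C1 := by linarith
  have hρlow : rho (c.D.lev n 0) * d ^ (v + p 0 * u) ≤ rho l := by
    refine le_trans ?_ hxl
    exact le_mul_of_one_le_left (mul_pos hρ0 (hdp _)).le hK
  set Y : ℝ := (Ee 10 - 4 * c.w0) + (Ee 9 - 3 * c.w0) + (Ee 8 - 2 * c.w0) +
    (c.p.q 0 * (Ee 10 - 4 * c.w0 - (v + p 0 * u)) + c.p.q 1 * (Ee 8 - 2 * c.w0 - (v + p 0 * u)) +
      c.p.q 2 * (Ee 9 - 3 * c.w0 - (v + p 0 * u))) with hY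
  set V : ℝ := (12 * C1) ^ 3 * (12 * C1) ^ Q * c.D.vm n 0 * d ^ Y with hV
  have hvmp : 0 < c.D.vm n 0 := by
    rw [hvm]
    unfold capQ
    have b0 := hwpos 0
    have b1 := hwpos 1
    have b2 := hwpos 2
    have c0 := Real.rpow_pos_of_pos (div_pos b0 hρ0) (c.p.q 0)
    have c1 := Real.rpow_pos_of_pos (div_pos b1 hρ0) (c.p.q 1)
    have c2 := Real.rpow_pos_of_pos (div_pos b2 hρ0) (c.p.q 2)
    positivity
  have hV0 : 0 ≤ V := by
    have := Real.rpow_nonneg hC12 Q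
    have := (hdp Y).le
    have := hvmp.le
    rw [hV]
    positivity
  -- the cells
  have hcell : ∀ y ∈ A, zc l y.2 ∈ Finset.Icc (zc l i.2 - 1) (zc l i.2 + 1) := by
    intro y hy
    refine cell_near ?_
    have h5 := hbox y hy 0
    rw [hside, ← hEk] at h5
    have h6 : coG c.F h n i y 0 = uH c.D.B c.D.lev c.w0 n * y.2 - uH c.D.B c.D.lev c.w0 n * i.2 :=
      rfl
    have hup' : 0 < uH c.D.B c.D.lev c.w0 n := uH_pos
    rw [h6, ← mul_sub, abs_mul, abs_of_pos hup'] at h5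
    calc |y.2 - i.2| ≤ K0 * d ^ Ee 0 / uH c.D.B c.D.lev c.w0 n := by
          rw [le_div_iff₀ hup']; linarith
      _ = K0 * (d ^ Ee 0 / uH c.D.B c.D.lev c.w0 n) := by ring
      _ = K0 * (rho (c.D.lev n 0) * d ^ (v + p 0 * u)) := by rw [unit_z, e0]
      _ ≤ K * (rho (c.D.lev n 0) * d ^ (v + p 0 * u)) :=
          mul_le_mul_of_nonneg_right hK0K (mul_pos hρ0 (hdp _)).le
      _ ≤ rho l := hxl
  have hN := hcnt l hl0 hl1 A (zc l i.2) V hAI hV0 hcell (fun J hJ => by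
    obtain ⟨t, s1, s2, s3, s3', s4, s5, s6⟩ := box_stage (z0 := zl l J) (ρ := rho l) ok (G.h4 n)
      (G.h5 n) hl hK hC1 (hwpos 0) (hwpos 1) (hwpos 2) hiI hρl.le
      (by rw [e0]; exact hlx) (fun z z1 z2 => cell_dist hJ z1 z2) kE kF kR hτ hh2 hh3 k1 k2 k3 k4
    have y10 : |Ee 10 - 4 * c.w0| ≤ M := by
      refine le_trans (le_of_eq (congrArg abs ?_))
        ((bd_exp (a := 1 - c.p.θ 0) (b := 2 * T1) (c := p 10) hξ0.le hξ1.le hup.le hu1.le).trans hM0)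
      rw [E10]; ring
    have y8 : |Ee 8 - 2 * c.w0| ≤ M := by
      refine le_trans (le_of_eq (congrArg abs ?_))
        ((bd_exp (a := 1 - c.p.θ 1) (b := T1) (c := p 8) hξ0.le hξ1.le hup.le hu1.le).trans hM1)
      rw [E8]; ring
    have y9 : |Ee 9 - 3 * c.w0| ≤ M := by
      refine le_trans (le_of_eq (congrArg abs ?_))
        ((bd_exp (a := 1 - c.p.θ 2) (b := 2 * T1) (c := p 9) hξ0.le hξ1.le hup.le hu1.le).trans hM2)
      rw [E9]; ring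
    have q0 : 0 < c.D.w 0 n 0 * d ^ (Ee 10 - 4 * c.w0) := mul_pos (hwpos 0) (hdp _)
    have q8 : 0 < c.D.w 1 n 0 * d ^ (Ee 8 - 2 * c.w0) := mul_pos (hwpos 1) (hdp _)
    have q9 : 0 < c.D.w 2 n 0 * d ^ (Ee 9 - 3 * c.w0) := mul_pos (hwpos 2) (hdp _)
    have hC10 : 0 ≤ C1 := by linarith
    refine ⟨t, s1, s2, ?_, ?_, ?_, fun y hyI hyN hyJ => s6 y fun k => ?_⟩
    · rw [s4]; exact kW
    · have m0 := mul_nonneg hC10 q0.le
      have m8 := mul_nonneg hC10 q8.le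
      have m9 := mul_nonneg hC10 q9.le
      intro k
      fin_cases k
      · exact hrng 0 _ _ y10 (by show _ ≤ t.a; linarith) (by show t.a ≤ _; linarith)
      · exact hrng 1 _ _ y8 (by show _ ≤ t.w 1; linarith) (by show t.w 1 ≤ _; linarith)
      · exact hrng 2 _ _ y9 (by show _ ≤ t.w 2; linarith) (by show t.w 2 ≤ _; linarith)
    · have hn0 : 0 ≤ t.w 1 := by
        rw [s4]
        have := (hdp (Ee 8 - 2 * c.w0)).le
        have := (hwpos 1).le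
        positivity
      have hn1 : 0 ≤ t.w 2 := by
        rw [s5]
        have := (hdp (Ee 9 - 3 * c.w0)).le
        have := (hwpos 2).le
        positivity
      have h5 := val_num (d := d) (w0 := c.D.w 0 n 0) (w1 := c.D.w 1 n 0) (w2 := c.D.w 2 n 0)
        (ρ0 := rho (c.D.lev n 0)) (ρ := rho l) (y0 := v + p 0 * u) (y8 := Ee 8 - 2 * c.w0)
        (y9 := Ee 9 - 3 * c.w0) (y10 := Ee 10 - 4 * c.w0) (C := 12 * C1) (q := c.p.q)
        (c.D.B.pos n) (hwpos 0) (hwpos 1) (hwpos 2) hρ0 hρlow hC12 hq (t := ![t.a, t.w 1, t.w 2])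
        (fun k => by fin_cases k <;> assumption)
        (s3.trans (mul_le_mul_of_nonneg_right (by linarith)
          (mul_pos (hwpos 0) (hdp _)).le))
        (le_of_eq (s4.trans (by ring)))
        (by
          show t.w 2 ≤ _
          rw [s5]
          have h6 := mul_nonneg hC10 q9.le
          linarith)
      refine h5.trans (le_of_eq ?_)
      rw [hV, hvm]
      rfl
    · obtain ⟨x', hx', hlab, hzz⟩ := hyN
      have n1 : Near (coG c.F h n) d Ee K0 i x' := fun k => by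
        have := hbox x' hx' k
        rwa [hside, ← hEk] at this
      have n2 : Near (coG c.F h n) d Ee K0 x' y := fun k => by
        have h7 := hnb x' (hA hx') y hyI hlab k
        rw [hside, ← hEk] at h7
        exact h7.trans (le_mul_of_one_le_left (hdp _).le hK01)
      exact (chart_coG c.F h n (c.D.I n)).tri hl (c.D.B.pos n) (c.D.B.lt n).le hK01 hiI
        (ok.th.ext.sub n (hAI hx')) hyI n1 n2 k)
  have hlev := lev_num (d := d) (ρ0 := rho (c.D.lev n 0)) (ρ := rho l) (y0 := v + p 0 * u)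
    (K := 2 * K) (c.D.B.pos n) hρ0 (by linarith) hρlow (by linarith) ((1 - 0) - c.p.g)
  have hexp := fin_exp ok (v := v) (u := u) (T1 := T1) (e := e n) hξ0.le hξ1 p
    (y0 := v + p 0 * u) (y8 := Ee 8 - 2 * c.w0) (y9 := Ee 9 - 3 * c.w0) (y10 := Ee 10 - 4 * c.w0)
    rfl (by rw [E8]; ring) (by rw [E9]; ring) (by rw [E10]; ring)
  have hQ0 : 0 ≤ (12 * C1) ^ 3 * (12 * C1) ^ Q :=
    mul_nonneg (pow_nonneg hC12 3) (Real.rpow_nonneg hC12 _)
  have hK20 : 0 ≤ (2 * K) ^ |(1 - 0) - c.p.g| := Real.rpow_nonneg (by linarith) _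
  have hfin := fin_num (B := c.D.B) (B' := B') (n := n) (u := u) hBp (N := (A.card : ℝ))
    (vm := c.D.vm n 0) (C3 := (12 * C1) ^ 3 * (12 * C1) ^ Q) (CK := (2 * K) ^ |(1 - 0) - c.p.g|)
    (rt := (rho l / rho (c.D.lev n 0)) ^ ((1 - 0) - c.p.g)) (Y := Y)
    (yc := ((1 - 0) - c.p.g) * (v + p 0 * u)) (s := -((1 - 0) + c.c₀ + e n)) (e := e n) (ε := ε)
    (νX := c.ν (c.X v)) (M := -(DL c.p (bT T1)) - DL c.p p) hvmp hQ0 hK20 hN hlev hexp hC4e hHs.2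
  refine hfin.trans (le_of_eq ?_)
  rw [LCtx.TB, mul_assoc, ← Dp76.dpow_add]
  congr 2
  ring

end Crest.Agent.R136.Dmx779
end

-- ▼ part R136/Gz3_779
section

/-!
# R136: the gauge stage, eventually tight base exponents (helper779)

`exists_extGe`, `extG_zeroE` : `exists_extG`, `extG_zero` of `Gz2_779` with
`∀ᶠ n, TightQ (X n)`.
-/

set_option autoImplicit false
set_option linter.unusedSectionVars false
set_option linter.unusedVariables false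

open Filter Topology

namespace Crest.Agent.R136.Gz779

open Finset Crest.Agent.R138.Ex926 Crest.Agent.R136.Net191 Crest.Agent.R136.Qg926
open Crest.Agent.R136.NetQ186 Crest.Agent.R136.GeoQ186 Crest.Agent.R136.Zpr779
open Crest.Agent.R136.Gau66

variable {B B' : Base} {E : ℕ → Finset (ℕ × ℝ)} {F : ℕ → ℕ × ℝ → Fq4} {h : ℕ → Fin 6 → ℝ}
  {X : ℕ → Fin 11 → ℝ} {η : ℕ → ℝ} {x xF : ℝ}


section Ext

variable {I₁ J₁ Cl : ℕ → Finset (ℕ × ℝ)} {co₁ : ∀ n : ℕ, ℕ × ℝ → ℕ × ℝ → Fin 11 → ℝ}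
  {w : ℕ → ℝ} {D₁ P₁ : Set (Fin 11 → ℝ)} {T₁ To : ℕ → ℝ} {lam₁ own₁ : (Fin 11 → ℝ) → ℝ}
  {s₀ : ℕ → ℕ × ℝ}


/-- **the gauge stage**: honest class with the gauge relations ⊢ `ExtZ` in the gauge chart -/
theorem exists_extGe
    -- old window, honest class, dense part
    (hcls : ZCls B B' I₁ J₁ co₁ monQ 2 X w D₁ T₁ lam₁ Cl s₀)
    (hco : ∀ n, ∀ i ∈ I₁ n, ∀ j ∈ I₁ n, co₁ n i j = coF F n i j)
    (hE : ∀ᶠ n in (U : Filter ℕ), E n ⊆ Cl n)
    (hd : ∀ ε : ℝ, 0 < ε → ∀ᶠ n in (U : Filter ℕ),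
      ((Cl n).card : ℝ) ≤ B'.d n ^ (-ε) * (E n).card)
    (hP₁ : P₁ ⊆ D₁) {R₁ : ℝ} (hR₁ : ∀ p ∈ P₁, ‖p‖ ≤ R₁) (h0₁ : ∀ p ∈ P₁, 0 ≤ p)
    (h0P : (0 : Fin 11 → ℝ) ∈ P₁)
    (hown : TProf B' E (zolb B I₁ co₁ monQ 2 X w) P₁ To own₁)
    -- gauge
    (G : GauIn B B' E F h X η x xF) (hx : 0 ≤ x) (hxF : 0 ≤ xF) (ht : ∀ᶠ n in (U : Filter ℕ), TightQ (X n))
    {R : ℝ} (hR : 0 ≤ R) {H : ℕ → ℝ} (hH : B'.Sub H)
    (hcard : ∀ᶠ n in (U : Filter ℕ), (Nat.log 2 (E n).card : ℝ) + 1 ≤ H n)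
    -- fields
    {w0 s : ℝ} (hs0 : 0 ≤ s) (hs1 : s ≤ 1) {PD : Set (Fin 11 → ℝ)} {D : (Fin 11 → ℝ) → ℝ}
    {r o : ℝ → Fin 11 → ℝ} {Er : ℝ → ℝ} {c₀ : ℝ}
    -- D-max, counts of new boxes (see `dmax_of_old`)
    (hPD : ∀ p ∈ PD, p ∈ Leg monQ R → ∀ ε : ℝ, 0 < ε → ∀ᶠ n in (U : Filter ℕ), ∀ A ⊆ E n,
      ∀ i ∈ E n, (∀ j ∈ A, wbox B B' (coG F h) (XG X) n p (cK0 monQ 2) i j) →
        (A.card : ℝ) ≤ T₁ n * B'.d n ^ (-(c₀ + D p + ε)))
    -- record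
    (r₁ : ℝ → Fin 11 → ℝ)
    (hrec : ∀ v : ℝ, 0 ≤ v → v ≤ 1 → r v ∈ Leg monQ R ∧ r₁ v ∈ P₁ ∧
      c₀ + Er v ≤ lam₁ (r₁ v) ∧ PBox x (r₁ v) ∧ (∀ k, k ≠ 1 → k ≠ 3 → r v k ≤ r₁ v k) ∧
      r v 1 ≤ x ∧ r v 3 ≤ xF)
    -- own
    (q : ℝ → Fin 11 → ℝ)
    (hq : ∀ v : ℝ, 0 ≤ v → v ≤ 1 → q v ∈ P₁ ∧ (1 - s) * (1 - v) ≤ own₁ (q v) ∧
      PBox x (q v) ∧ (∀ k, k ≠ 1 → k ≠ 3 → o v k ≤ q v k) ∧ o v 1 ≤ x ∧ o v 3 ≤ xF)
    (hup : ∀ v : ℝ, 0 ≤ v → v ≤ 1 → ∃ p₁ ∈ P₁, p₁ 0 ≤ w0 + v ∧ (∀ k, k ≠ 0 → p₁ k ≤ 0) ∧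
      own₁ p₁ ≤ (1 - s) * (1 - v)) :
    ∃ (J : ℕ → Finset (ℕ × ℝ)) (ν own : (Fin 11 → ℝ) → ℝ),
      (∀ᶠ n in (U : Filter ℕ), J n ⊆ E n ∧ (J n).Nonempty) ∧
      (∀ ε : ℝ, 0 < ε → ∀ᶠ n in (U : Filter ℕ),
        ((E n).card : ℝ) ≤ B'.d n ^ (-ε) * (J n).card) ∧
      ExtZ B B' E J (coG F h) monQ 2 (XG X) w monQ R T₁ To 0 w0 s PD D r o Er
        (fun _ => False) ν own c₀ := by
  classical
  have hpos : ∀ n, ∀ t : ℝ, 0 < B'.d n ^ t := fun n t => Real.rpow_pos_of_pos (B'.pos n) t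
  have hw := hcls.w0
  have hb := hcls.base
  have hEI : ∀ᶠ n in (U : Filter ℕ), E n ⊆ I₁ n := by
    filter_upwards [hE, hcls.csub, hcls.sub] with n h1 h2 h3 using h1.trans (h2.trans h3)
  have hleg₁ : ∀ p ∈ D₁, ∀ᶠ n in (U : Filter ℕ), Legal monQ (X n + w n • p) := fun p hp => by
    filter_upwards [hcls.legal ‖p‖] with n hn using hn p hp le_rfl
  -- equal old labels are old-close
  have hclose : ∀ p ∈ D₁, ∀ δ : ℝ, 0 < δ → ∀ᶠ n in (U : Filter ℕ), ∀ i ∈ E n, ∀ j ∈ E n,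
      zlab B I₁ co₁ monQ 2 X w n p i = zlab B I₁ co₁ monQ 2 X w n p j →
        wclose B B' F X n p (B'.d n ^ (-δ)) i j := by
    intro p hp δ hδ
    have hC0 : 0 < cK0 monQ 2 := lt_of_lt_of_le one_pos (cK0_one (hcls.chart 0).C0)
    filter_upwards [hEI, hleg₁ p hp, ev_const_le B' hC0 hδ] with n h1 h2 h3 i hi j hj he k _ _
    have h4 := wbox_of_zlab (B' := B') hcls.chart hb h2 (h1 hi) (h1 hj) he k
    rw [hco n i (h1 hi) j (h1 hj)] at h4
    exact h4.trans (mul_le_mul_of_nonneg_right h3 (wside_pos B B' X n p k).le)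
  have hcl : ∀ᶠ n in (U : Filter ℕ), ∀ i ∈ E n, ∀ j ∈ E n,
      zlab B I₁ co₁ monQ 2 X w n 0 i = zlab B I₁ co₁ monQ 2 X w n 0 j := by
    filter_upwards [hcls.clab, hE] with n h1 h2 i hi j hj using h1 i (h2 hi) j (h2 hj)
  -- generic: equal labels at `p₁` are new-close at `p`
  have hnew : ∀ p₁ ∈ D₁, PBox x p₁ → ∀ p : Fin 11 → ℝ, (∀ k, k ≠ 1 → k ≠ 3 → p k ≤ p₁ k) →
      p 1 ≤ x → p 3 ≤ xF → ∀ ε : ℝ, 0 < ε → ∀ᶠ n in (U : Filter ℕ), ∀ i ∈ E n, ∀ j ∈ E n,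
        zlab B I₁ co₁ monQ 2 X w n p₁ i = zlab B I₁ co₁ monQ 2 X w n p₁ j →
          wbox B B' (coG F h) (XG X) n p (B'.d n ^ (-ε)) i j := by
    intro p₁ hp₁ hb₁ p hpp h1 h3 ε hε
    obtain ⟨δ, hδ, hev⟩ := gau_new G hb₁ hpp h1 h3 hε
    filter_upwards [hev, hclose p₁ hp₁ δ hδ] with n a1 a2 i hi j hj he
    exact a1 i hi j hj (a2 i hi j hj he)
  -- slot `0`
  have hz0 : ∀ n, ∀ i j : ℕ × ℝ, coG F h n i j 0 = coF F n i j 0 := fun n i j =>
    (rg_slots (G.h4 n) (G.h5 n) (F n i) (F n j)).1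
  refine exists_extZ (E := E) (co := coG F h) (X := XG X) (M := monQ) (C := 2) hcls hE hd hP₁ hR₁
    h0₁ h0P hown (fun n => chart_coG F h n (E n)) monQ hR
    (ht.mono fun n h c hc => legal_add_smul (legal_XG h) hc.1 (hw n).le)
    hH hcard ?_ (kz := 0) (w0 := w0) hs0 hs1 (PD := PD) (D := D) (r := r) (o := o) (Er := Er)
    (Tw := fun _ => False) (c₀ := c₀) ?_ r₁ ?_ q ?_ ?_ ?_
  · -- base
    intro ε hε
    filter_upwards [hnew 0 (hP₁ h0P) (PBox.zero hx) 0 (fun k _ _ => le_rfl) hx hxF ε hε, hcl] with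
      n a1 a2 i hi j hj
    exact a1 i hi j hj (a2 i hi j hj)
  · -- D-max
    exact hPD
  · -- record
    intro v hv0 hv1
    obtain ⟨a1, a2, a3, a4, a5, a6, a7⟩ := hrec v hv0 hv1
    exact ⟨a1, a2, a3, fun ε hε => hnew _ (hP₁ a2) a4 _ a5 a6 a7 ε hε⟩
  · -- own
    intro v hv0 hv1
    obtain ⟨a2, a3, a4, a5, a6, a7⟩ := hq v hv0 hv1
    refine ⟨a2, a3, fun ε hε => ?_⟩
    filter_upwards [hnew _ (hP₁ a2) a4 _ a5 a6 a7 ε hε] with n b1 i hi j hj _ he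
    exact b1 i hi j hj he
  · -- own counts
    intro v hv0 hv1 ε hε
    obtain ⟨p₁, hp₁, hp0, hpk, hle⟩ := hup v hv0 hv1
    have hC0 : 0 < cK0 monQ 2 := lt_of_lt_of_le one_pos (cK0_one (hcls.chart 0).C0)
    obtain ⟨δ, hδ, _, hev⟩ := card_zlab_close (B' := B') (ε := ε / 2) hcls.chart hb
      (hleg₁ p₁ (hP₁ hp₁)) (by positivity)
    filter_upwards [hev, hown.up (ε / 2) (by positivity), hcl, hEI, hleg₁ 0 hcls.zero,
      ev_const_le B' hC0 hδ] with n b1 b2 b3 b4 b5 b6 A hA i hi hbox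
    have hTo := hown.pos n
    have hnear : ∀ j ∈ A, wbox B B' co₁ X n p₁ (B'.d n ^ (-δ)) i j := by
      intro j hj k
      have h4 := wbox_of_zlab (B' := B') hcls.chart hb b5 (b4 hi) (b4 (hA hj))
        (b3 i hi j (hA hj)) k
      by_cases hk : k = 0
      · subst hk
        have h5 := (hbox j hj).2
        rw [hz0, XG_of_ne (by decide)] at h5
        rw [hco n i (b4 hi) j (b4 (hA hj))]
        refine h5.trans ?_
        refine mul_le_mul b6 ?_ (mul_nonneg (Real.rpow_nonneg (B.pos n).le _) (hpos _ _).le)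
          (hpos _ _).le
        refine mul_le_mul_of_nonneg_left ?_ (Real.rpow_nonneg (B.pos n).le _)
        exact Real.rpow_le_rpow_of_exponent_ge (B'.pos n) (B'.lt n).le hp0
      · refine h4.trans ?_
        refine mul_le_mul b6 ?_ (wside_pos B B' X n 0 k).le (hpos _ _).le
        refine mul_le_mul_of_nonneg_left ?_ (Real.rpow_nonneg (B.pos n).le _)
        exact Real.rpow_le_rpow_of_exponent_ge (B'.pos n) (B'.lt n).le (hpk k hk)
    have c1 := b1 i (b4 hi) A (hA.trans b4) hnear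
    have c2 : (A.card : ℝ) ≤ (To n * B'.d n ^ (-(own₁ p₁ + ε / 2))) *
        (A.image (zlab B I₁ co₁ monQ 2 X w n p₁)).card := by
      refine card_le_fib A (zlab B I₁ co₁ monQ 2 X w n p₁) fun j hj => ?_
      refine le_trans ?_ (b2 p₁ hp₁ j (hA hj))
      refine Nat.cast_le.2 (card_le_card fun y hy => ?_)
      obtain ⟨y1, y2⟩ := mem_filter.1 hy
      refine mem_cls.2 ⟨hA y1, ?_⟩
      simp only [zolb, Prod.mk.injEq]
      exact ⟨((hbox y y1).1).trans (hbox j hj).1.symm, y2⟩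
    calc (A.card : ℝ) ≤ (To n * B'.d n ^ (-(own₁ p₁ + ε / 2))) * B'.d n ^ (-(ε / 2)) :=
          c2.trans (mul_le_mul_of_nonneg_left c1 (mul_nonneg hTo.le (hpos _ _).le))
      _ = To n * B'.d n ^ (-(own₁ p₁ + ε)) := by
          rw [mul_assoc, ← Real.rpow_add (B'.pos n)]; congr 2; ring
      _ ≤ _ := by
          refine mul_le_mul_of_nonneg_left ?_ hTo.le
          exact Real.rpow_le_rpow_of_exponent_ge (B'.pos n) (B'.lt n).le (by linarith)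
  · intro k hk; exact absurd hk id

end Ext

/-- **the slots `R`, `F_b` are zero slots of the gauge profiles** -/
theorem extG_zeroE (G : GauIn B B' E F h X η x xF) (ht : ∀ᶠ n in (U : Filter ℕ), TightQ (X n)) {J : ℕ → Finset (ℕ × ℝ)}
    {w : ℕ → ℝ} {R : ℝ} {T₁ To : ℕ → ℝ} {w0 s : ℝ} {PD : Set (Fin 11 → ℝ)}
    {D : (Fin 11 → ℝ) → ℝ} {r o : ℝ → Fin 11 → ℝ} {Er : ℝ → ℝ} {Tw : Fin 11 → Prop}
    {ν own : (Fin 11 → ℝ) → ℝ} {c₀ : ℝ}
    (hx : ExtZ B B' E J (coG F h) monQ 2 (XG X) w monQ R T₁ To 0 w0 s PD D r o Er Tw ν own c₀)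
    {p q : Fin 11 → ℝ} (hp : p ∈ Leg monQ R) (hq : q ∈ Leg monQ R) (hpq : p ≤ q)
    (hk : ∀ k, k ≠ 1 → k ≠ 3 → q k = p k) (h1 : q 1 ≤ x) (h3 : q 3 ≤ xF) :
    ν p = ν q ∧ own p = own q := by
  have hw := hx.win.w0
  have hl : ∀ c ∈ Leg monQ R, ∀ᶠ n in (U : Filter ℕ), Legal monQ (XG X n + w n • c) :=
    fun c hc => ht.mono fun n h => legal_add_smul (legal_XG h) hc.1 (hw n).le
  have hd : ∀ n, ∀ t : ℝ, 0 < B'.d n ^ t := fun n t => Real.rpow_pos_of_pos (B'.pos n) t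
  have hz : ∀ ε : ℝ, 0 < ε → ∀ᶠ n in (U : Filter ℕ), ∀ i ∈ J n, ∀ j ∈ J n,
      wbox B B' (coG F h) (XG X) n p (cK0 monQ 2) i j → ∀ k, p k < q k →
        |coG F h n i j k| ≤ B'.d n ^ (-ε) * (B.d n ^ XG X n k * B'.d n ^ q k) := by
    intro ε hε
    filter_upwards [G.s1 ε hε, G.s3 ε hε, hx.win.sub] with n a1 a3 a4 i hi j hj _ k hpk
    have hda : ∀ s t : ℝ, B'.d n ^ s * B'.d n ^ t = B'.d n ^ (s + t) := fun s t =>
      (Real.rpow_add (B'.pos n) s t).symm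
    have hdm : ∀ {s t : ℝ}, t ≤ s → B'.d n ^ s ≤ B'.d n ^ t := fun hst =>
      Real.rpow_le_rpow_of_exponent_ge (B'.pos n) (B'.lt n).le hst
    by_cases k1 : k = 1
    · subst k1
      have hX : XG X n 1 = X n 7 - X n 0 := if_pos rfl
      rw [hX, Real.rpow_sub (B.pos n)]
      have h0 := Real.rpow_pos_of_pos (B.pos n) (X n 0)
      have h7 := Real.rpow_pos_of_pos (B.pos n) (X n 7)
      have : |coG F h n i j 1| ≤ B'.d n ^ (x - ε) * B.d n ^ X n 7 / B.d n ^ X n 0 := by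
        rw [le_div_iff₀ h0]; exact a1 i (a4 hi) j (a4 hj)
      refine this.trans ?_
      calc B'.d n ^ (x - ε) * B.d n ^ X n 7 / B.d n ^ X n 0
          = (B.d n ^ X n 7 / B.d n ^ X n 0) * B'.d n ^ (x - ε) := by ring
        _ ≤ (B.d n ^ X n 7 / B.d n ^ X n 0) * B'.d n ^ (-ε + q 1) :=
            mul_le_mul_of_nonneg_left (hdm (by linarith)) (div_pos h7 h0).le
        _ = _ := by rw [← hda]; ring
    · by_cases k3 : k = 3
      · subst k3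
        rw [XG_of_ne (by decide)]
        refine (a3 i (a4 hi) j (a4 hj)).trans ?_
        calc B'.d n ^ (xF - ε) * B.d n ^ X n 3 ≤ B'.d n ^ (-ε + q 3) * B.d n ^ X n 3 :=
              mul_le_mul_of_nonneg_right (hdm (by linarith))
                (Real.rpow_nonneg (B.pos n).le _)
          _ = _ := by rw [← hda]; ring
      · exact absurd (hk k k1 k3) hpk.ne'
  have hch := hx.win.chart
  have hb := hx.win.base
  refine ⟨?_, ?_⟩
  · have hbd : ∀ c ∈ Leg monQ R, ‖c‖ ≤ R := fun c hc => Leg_norm hx.R0 hc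
    exact zero_slot_z hch hb hx.win.sub hx.win.ne (TProf.ofZ hx.win.prof hx.win.T0
      (Set.Subset.refl _) hbd) hp hq (hl p hp) (hl q hq) hpq hz
  · exact zero_slot_own (line := fun _ x => x.1) hch hb hx.win.sub hx.win.ne hx.oprof hp hq
      (hl p hp) (hl q hq) hpq hz

end Crest.Agent.R136.Gz779
end

-- ▼ part R136/ExtG_779

/-!
# R136: the gauge object of the lightlike case (helper779)

`seamExtZ` : 196's seam `SeamExtZ η` (TL0_196).
-/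

set_option autoImplicit false
set_option linter.unusedVariables false
set_option linter.unusedSectionVars false

open Finset Filter Topology

namespace Crest.Agent.R136.ExtG779

open Crest.Agent.R138.Ex926 (Base U)
open Crest.Agent.R138.Ex926.Base (Sub.iff Sub.of_le_of_le)
open Crest.Agent.R138
open Crest.Agent.R136.MkA627
open Crest.Agent.R136.Sh605
open Crest.Agent.R136.K4
open Crest.Agent.R136.Top484
open Crest.Agent.R136.GeoQ186
open Crest.Agent.R136.Net191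
open Crest.Agent.R136.NetQ186
open Crest.Agent.R136.Wq638
open Crest.Agent.R136.Lq196
open Crest.Agent.R136.NatT550
open Crest.Agent.R136.NatR550
open Crest.Agent.R136.TopB550
open Crest.Agent.R136.TL196
open Crest.Agent.R136.Gz779
open Crest.Agent.R136.Qg926
open Crest.Agent.R136.Zpr779

/-- `log₂` of a polynomially bounded number -/
theorem log_card {B : Base} {c : ℝ} (hc : 0 ≤ c) {n m : ℕ} (h : (m : ℝ) ≤ B.d n ^ (-c)) :
    (Nat.log 2 m : ℝ) + 1 ≤ (2 * c + 1) * (1 + B.L n) := by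
  have hL := B.L_pos n
  rcases Nat.eq_zero_or_pos m with rfl | hm
  · simp only [Nat.log_zero_right, Nat.cast_zero, zero_add]
    nlinarith
  have hm' : (0 : ℝ) < m := by exact_mod_cast hm
  have h1 : ((2 : ℝ) ^ (Nat.log 2 m)) ≤ m := by
    exact_mod_cast Nat.pow_log_le_self 2 hm.ne'
  have h2 : Real.log ((2 : ℝ) ^ (Nat.log 2 m)) ≤ Real.log (B.d n ^ (-c)) :=
    Real.log_le_log (by positivity) (h1.trans h)
  rw [Real.log_pow, Real.log_rpow (B.pos n)] at h2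
  have h3 : -c * Real.log (B.d n) = c * B.L n := by
    unfold Base.L; ring
  rw [h3] at h2
  have h4 : (1 : ℝ) / 2 ≤ Real.log 2 := by
    have := Real.log_two_gt_d9
    linarith
  have h5 : (Nat.log 2 m : ℝ) * (1 / 2) ≤ c * B.L n :=
    (mul_le_mul_of_nonneg_left h4 (Nat.cast_nonneg _)).trans h2
  nlinarith [mul_nonneg hc hL.le]

section pts

variable {θ T1 x R' v : ℝ}

/-- natural own direction of the record -/
def r1 (θ T1 v : ℝ) : Fin 11 → ℝ :=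
  ![v, 0, T1 - θ * v, v, T1 + (1 - θ) * v, T1 - θ * v, 2 * (T1 - θ * v), 2 * T1 + (1 - 2 * θ) * v,
    T1 + (1 - θ) * v, 2 * T1 + (1 - 2 * θ) * v, 2 * T1 + 2 * (1 - θ) * v]

/-- own direction -/
def q1 (θ T1 R' v : ℝ) : Fin 11 → ℝ :=
  ![v, 0, R', v, T1 + (1 - θ) * v, R', R', R', R', R', R']

/-- direction `z` -/
def z1 (v : ℝ) : Fin 11 → ℝ := ![v, 0, 0, 0, 0, 0, 0, 0, 0, 0, 0]

theorem norm_le_of {p : Fin 11 → ℝ} (hR : 0 ≤ R') (h0 : ∀ k, 0 ≤ p k) (h : ∀ k, p k ≤ R') :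
    ‖p‖ ≤ R' :=
  (pi_norm_le_iff_of_nonneg hR).2 fun s => by
    rw [Real.norm_eq_abs, abs_of_nonneg (h0 s)]; exact h s

/-- the numbers -/
structure Nm (θ T1 x R' v : ℝ) : Prop where
  θ0 : 0 < θ
  h1 : 1 ≤ T1
  hθ : θ ≤ T1
  hx : x = 2 * T1 + 3
  hR : R' = 4 * x
  v0 : 0 ≤ v
  v1 : v ≤ 1

theorem Nm.tv (h : Nm θ T1 x R' v) : 0 ≤ θ * v ∧ θ * v ≤ T1 := by
  obtain ⟨a, b, c, d, e, f, g⟩ := h
  exact ⟨mul_nonneg a.le f, by nlinarith⟩

theorem r1_props (h : Nm θ T1 x R' v) : (∀ k, 0 ≤ r1 θ T1 v k) ∧ (∀ k, r1 θ T1 v k ≤ R') ∧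
    bT T1 + r1 θ T1 v ∈ coneN ∧ PBox x (r1 θ T1 v) ∧
    (∀ k, k ≠ 1 → k ≠ 3 → rz θ T1 x v k ≤ r1 θ T1 v k) ∧ rz θ T1 x v 1 ≤ x ∧
    rz θ T1 x v 3 ≤ x ∧ rz θ T1 x v ∈ Leg monQ R' := by
  obtain ⟨t0, t1⟩ := h.tv
  obtain ⟨a, b, c, d, e, f, g⟩ := h
  refine ⟨fun k => ?_, fun k => ?_, ?_, ?_, fun k k1 k3 => ?_, le_rfl, le_rfl, ?_, fun k => ?_⟩
  · fin_cases k <;> simp [r1] <;> linarith
  · fin_cases k <;> simp [r1] <;> linarith
  · simp only [coneN, Set.mem_ofPred_eq, Pi.add_apply, bT, nL, r1, Matrix.cons_val]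
    refine ⟨?_, ?_, ?_, ?_, ?_, ?_, ?_, ?_, ?_, ?_⟩ <;> linarith
  · constructor <;> simp only [r1, Matrix.cons_val] <;> linarith
  · fin_cases k <;> first | exact absurd rfl k1 | exact absurd rfl k3 | exact le_rfl
  · rw [legalQ_iff]
    refine ⟨fun k => ?_, ?_, ?_, ?_, ?_, ?_, ?_, ?_, ?_, ?_, ?_, ?_⟩
    · fin_cases k <;> simp [rz] <;> linarith
    all_goals simp only [rz, Matrix.cons_val]; linarith
  · fin_cases k <;> simp [rz] <;> linarith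

theorem q1_props (h : Nm θ T1 x R' v) : (∀ k, 0 ≤ q1 θ T1 R' v k) ∧ (∀ k, q1 θ T1 R' v k ≤ R') ∧
    bT T1 + q1 θ T1 R' v ∈ coneN ∧ PBox x (q1 θ T1 R' v) ∧
    (∀ k, k ≠ 1 → k ≠ 3 → oz θ T1 x R' v k ≤ q1 θ T1 R' v k) ∧ oz θ T1 x R' v 1 ≤ x ∧
    oz θ T1 x R' v 3 ≤ x := by
  obtain ⟨t0, t1⟩ := h.tv
  obtain ⟨a, b, c, d, e, f, g⟩ := h
  refine ⟨fun k => ?_, fun k => ?_, ?_, ?_, fun k k1 k3 => ?_, le_rfl, le_rfl⟩
  · fin_cases k <;> simp [q1] <;> linarith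
  · fin_cases k <;> simp [q1] <;> linarith
  · simp only [coneN, Set.mem_ofPred_eq, Pi.add_apply, bT, nL, q1, Matrix.cons_val]
    refine ⟨?_, ?_, ?_, ?_, ?_, ?_, ?_, ?_, ?_, ?_⟩ <;> linarith
  · constructor <;> simp only [q1, Matrix.cons_val] <;> linarith
  · fin_cases k <;> first | exact absurd rfl k1 | exact absurd rfl k3 | exact le_rfl

theorem z1_props (h : Nm θ T1 x R' v) : (∀ k, 0 ≤ z1 v k) ∧ (∀ k, z1 v k ≤ R') ∧
    bT T1 + z1 v ∈ coneN ∧ (∀ k, k ≠ 0 → z1 v k ≤ 0) := by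
  obtain ⟨a, b, c, d, e, f, g⟩ := h
  refine ⟨fun k => ?_, fun k => ?_, ?_, fun k hk => ?_⟩
  · fin_cases k <;> simp [z1] <;> linarith
  · fin_cases k <;> simp [z1] <;> linarith
  · simp only [coneN, Set.mem_ofPred_eq, Pi.add_apply, bT, nL, z1, Matrix.cons_val]
    refine ⟨?_, ?_, ?_, ?_, ?_, ?_, ?_, ?_, ?_, ?_⟩ <;> linarith
  · fin_cases k <;> first | exact absurd rfl hk | exact le_rfl

end pts

/-- **the gauge object** -/
theorem seamExtZ {η : ℝ} : SeamExtZ η := by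
  intro c ok
  obtain ⟨Hs, hHs, hPD⟩ := Dmx779.hPD_L ok
  obtain ⟨cc, hcc, hcard⟩ := ok.th.ext.card
  have hHs0 := (Sub.iff.1 hHs).1
  set Hc : ℕ → ℝ := fun n => (2 * cc + 1) * (1 + c.D.B.L n) with hHc
  have hHcS : c.D.B.Sub Hc :=
    (Base.Sub.const (by linarith)).mul Base.Sub.one_add_L
  refine ⟨fun n => (Hs n + (Hs n)⁻¹) + Hc n, (hHs.add hHs.inv).add hHcS, ?_⟩
  intro B' J ξ w lam lo Cl E s₀ h ηg W hH
  set θ := c.p.θ 1 with hθd
  set T1 := T1z θ with hT1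
  set x := xz θ with hxd
  set R' := Rz θ with hRd
  have hN : ∀ v : ℝ, 0 ≤ v → v ≤ 1 → Nm θ T1 x R' v := fun v v0 v1 =>
    ⟨ok.th.tp.ok.θ1, one_le_T1z θ, le_T1z θ, rfl, rfl, v0, v1⟩
  have hT1p : 1 ≤ T1 := one_le_T1z θ
  have hx0 : 0 ≤ x := by have : x = 2 * T1 + 3 := rfl; linarith
  have hR0 : 0 ≤ R' := by have : R' = 4 * x := rfl; linarith
  have hHc1 : ∀ n, 0 ≤ Hc n := fun n => by
    have := c.D.B.L_pos n
    rw [hHc]; positivity
  -- the loss of D-max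
  have hHs' : B'.Sub Hs := by
    refine Sub.of_le_of_le hH.inv hH ?_ ?_
    · filter_upwards [hHs0] with n hn
      rw [inv_le_comm₀ (by have := hHc1 n; positivity) hn]
      have := hHc1 n
      linarith
    · filter_upwards [hHs0] with n hn
      have := hHc1 n
      have := inv_pos.2 hn
      linarith
  have hEI : ∀ᶠ n in (U : Filter ℕ), E n ⊆ c.I1 n := by
    filter_upwards [W.esub, W.cls.csub, W.rw.Jsub] with n a b d using a.trans (b.trans d)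
  obtain ⟨ξ₀, h0, h1, hξ⟩ := W.rw.ξlim
  have hw := W.rw.wlim
  -- points
  set P₁ : Set (Fin 11 → ℝ) := {a | bT T1 + a ∈ coneN ∧ 0 ≤ a ∧ ‖a‖ ≤ R'} with hP₁d
  have hP₁ : P₁ ⊆ {a | bT T1 + a ∈ coneN} := fun a ha => ha.1
  have hmem : ∀ a : Fin 11 → ℝ, bT T1 + a ∈ coneN → (∀ k, 0 ≤ a k) → (∀ k, a k ≤ R') → a ∈ P₁ :=
    fun a b1 b2 b3 => ⟨b1, b2, norm_le_of hR0 b2 b3⟩
  have hLL1 := ok.pat.2.2.1
  have hLL2 := ok.pat.2.2.2
  have hown := (W.own P₁ hP₁ R' (fun p hp => hp.2.2) (fun p hp => hp.2.1)).shift 1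
  have hz := z1_props (hN 0 le_rfl zero_le_one)
  have hz0 : z1 0 = 0 := by
    funext k
    fin_cases k <;> rfl
  have hbT : bT T1 ∈ coneN := by
    have := hz.2.2.1
    rwa [hz0, add_zero] at this
  have hlo0 : lo (bT T1) = 0 := by
    rw [W.rw.lo_full _ hbT ?_ ?_]
    · simp [bT, nL]
    · simp [bT, nL]
    · simp only [bT, nL, Matrix.cons_val]; linarith
  obtain ⟨J', ν', own', e1, e2, e3⟩ := exists_extGe (c₀ := DL c.p (bT T1) - lam (bT T1))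
    (PD := PDz θ T1 R') (D := DL c.p) (r := rz θ T1 x) (o := oz θ T1 x R')
    (Er := fun v => DL c.p (rz θ T1 x v)) (w0 := 0) (s := 0) (R := R') (P₁ := P₁) (R₁ := R')
    W.cls (fun n i _ j _ => rfl) W.esub W.edens hP₁ (fun p hp => hp.2.2)
    (fun p hp => hp.2.1) (by rw [← hz0]; exact hmem _ hz.2.2.1 hz.1 hz.2.1) hown W.gau hx0 hx0
    (Dmx779.tight_XB ok h0 h1 hξ hw) hR0 hH
    (by
      filter_upwards [hEI, hcard, hHs0] with n a1 a2 a3
      have a4 : ((E n).card : ℝ) ≤ c.D.B.d n ^ (-cc) :=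
        le_trans (by exact_mod_cast card_le_card a1) a2
      refine (log_card hcc a4).trans ?_
      have := inv_pos.2 a3
      have : Hc n = (2 * cc + 1) * (1 + c.D.B.L n) := rfl
      linarith)
    le_rfl zero_le_one (fun p hp _ => hPD W hHs' p hp) (r1 θ T1)
    (by
      intro v v0 v1
      obtain ⟨b1, b2, b3, b4, b5, b6, b7, b8⟩ := r1_props (hN v v0 v1)
      refine ⟨b8, hmem _ b3 b1 b2, ?_, b4, b5, b6, b7⟩
      have e : bT T1 + r1 θ T1 v = v • c.ρ := by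
        funext k
        fin_cases k <;> simp [bT, nL, r1, LCtx.ρ] <;> nlinarith [hLL1, hLL2]
      rw [e, W.rw.recd]
      simp only [DL, bT, nL, rz, LCtx.ρ, Matrix.cons_val]
      refine le_of_eq ?_
      have hθ0 : c.p.θ 0 = 2 * c.p.θ 1 - 1 := by linarith
      rw [hLL2, hθ0, hθd]
      ring)
    (q1 θ T1 R')
    (by
      intro v v0 v1
      obtain ⟨b1, b2, b3, b4, b5, b6, b7⟩ := q1_props (hN v v0 v1)
      refine ⟨hmem _ b3 b1 b2, ?_, b4, b5, b6, b7⟩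
      have e : lo (bT T1 + q1 θ T1 R' v) = -v := by
        rw [W.rw.lo_full _ b3 ?_ ?_]
        · simp [bT, nL, q1]
        · simp [bT, nL, q1]
        · simp only [bT, nL, q1, Pi.add_apply, Matrix.cons_val]; linarith
      rw [e, hlo0]; linarith)
    (by
      intro v v0 v1
      obtain ⟨b1, b2, b3, b4⟩ := z1_props (hN v v0 v1)
      refine ⟨z1 v, hmem _ b3 b1 b2, by simp [z1], b4, ?_⟩
      have e := W.rw.lo_up _ b3
      have e' : (bT T1 + z1 v) 0 = v := by simp [bT, nL, z1]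
      rw [e'] at e
      rw [hlo0]; linarith)
  refine ⟨J', _, ν', own', W, e1, e2, e3, ?_⟩
  intro a ha b hb hab hk b1 b3
  exact extG_zeroE W.gau (Dmx779.tight_XB ok h0 h1 hξ hw) e3 ha hb hab
    (fun k k1 k3 => (hk k k1 k3).symm) b1 b3

end Crest.Agent.R136.ExtG779
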