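import Crest.Agent.R136.K2U_774
import Crest.Agent.R136.Rbw3_219
import Crest.Agent.R136.Qg1_926

-- ▼ part R136/K2T_774
section

/-!
# R136 (helper774): STAGES OF THE LADDER

`cn Q A`    : cone of the walls `A`
`Prf`       : profile facts (pass to tangents)
`JT`        : joint tangent of `(ν, own)`, natural moving base points (926's `IsTan`, so
  `exists_zwin_ex` applies)
`Stage`     : a tangent `lam` of `ν` at record points, which does not depend on the dropped slots `Dr`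
`RungD`     : ray, plane, slots `J` to be dropped
`FLem`      : input of a rung = the F-lemma at the points of the open half plane
`Stage.rung`: `Stage` + F-lemma "J visible ⇒ left slope ≥ g" gives the next `Stage`
`Stage.dead`: `Stage` + F-lemma "left slope ≥ g" is contradictory
`stage_init`: the first stage
-/

set_option autoImplicit false
set_option linter.unusedSectionVars false
set_option linter.unusedVariables false

open Set Filter Topology Metric MeasureTheory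

namespace Crest.Agent.R136.K2S774

open Dg262 (X X_cont SupOn LegU)
open Dg219 (Tn BUp Walls OutS gC dhC nC)
open Crest.Agent.R138

variable {m : ℕ} {W : Type*} [Fintype W]

/-- cone of the walls `A` -/
def cn (Q : Walls (Fin m) W) (A : W → Prop) : Set (Fin m → ℝ) :=
  {c | ∀ w, A w → c (Q.hd w) ≤ Q.rhs w c}

/-- profile facts, they pass to tangents -/
structure Prf (P : Set (Fin m → ℝ)) (ν own : (Fin m → ℝ) → ℝ) (K : ℝ) : Prop where
  K0 : 0 ≤ K
  lip : ∀ p ∈ P, ∀ q ∈ P, |ν p - ν q| ≤ K * ‖p - q‖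
  olip : ∀ p ∈ P, ∀ q ∈ P, |own p - own q| ≤ K * ‖p - q‖
  mono : ∀ p ∈ P, ∀ q ∈ P, p ≤ q → ν q ≤ ν p
  sharp : ∀ p ∈ P, ∀ q ∈ P, p ≤ q → ν p - ν q ≤ ∑ i, (q i - p i)
  sup : SupOn ν P
  own_le : ∀ p ∈ P, ∀ q ∈ P, p ≤ q → own p - own q ≤ ν p - ν q

/-- `(lam, lo)` = joint tangent of `(ν, own)` at natural base points `x l → r0` -/
structure JT (Q : Walls (Fin m) W) (A : W → Prop) (P : Set (Fin m → ℝ))
    (ν own : (Fin m → ℝ) → ℝ) (r0 : Fin m → ℝ) (x : ℕ → Fin m → ℝ) (h : ℕ → ℝ)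
    (lam lo : (Fin m → ℝ) → ℝ) : Prop where
  pos : ∀ l, 0 < h l
  zero : Tendsto h atTop (𝓝 0)
  nat : ∀ l w, A w → x l (Q.hd w) = Q.rhs w (x l) + Q.cst w
  /-- the other walls are infinitely far -/
  gap : ∀ w, ¬ A w → ∀ R : ℝ, ∀ᶠ l in atTop,
    x l (Q.hd w) + R * h l ≤ Q.rhs w (x l) + Q.cst w
  base : Tendsto x atTop (𝓝 r0)
  tan : Ex926.IsTan P (cn Q A) ν x h lam
  tano : Ex926.IsTan P (cn Q A) own x h lo

/-- the (moving) base points are record points of `ν` in the visible slots, with their values -/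
def RecX (ν : (Fin m → ℝ) → ℝ) (r0 ρ : Fin m → ℝ) (Dl : (Fin m → ℝ) →ₗ[ℝ] ℝ) (Dr : Set (Fin m))
    (x : ℕ → Fin m → ℝ) (h : ℕ → ℝ) : Prop :=
  ∃ σ : ℕ → ℝ, (∀ l, ∀ i, i ∉ Dr → x l i = r0 i + σ l * ρ i) ∧
    Tendsto (fun l => (ν (x l) - ν r0 - σ l * Dl ρ) / h l) atTop (𝓝 0)

/-- **a stage of the ladder.**  `r0` = record point of `ν`, `ρ` = record direction, `Dl` = D-max
functional on the cone `Qd`, `Z` = slots which are never dropped and may be constant on a surface,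
`o i` (`i ∈ Tie`) = own slopes of the tied slots, `τ` = own rate of `z`, `A` = remaining active
walls, `Dr` = dropped slots. -/
structure Stage (Q : Walls (Fin m) W) (P : Set (Fin m → ℝ)) (ν own : (Fin m → ℝ) → ℝ) (K : ℝ)
    (r0 ρ : Fin m → ℝ) (Dl : (Fin m → ℝ) →ₗ[ℝ] ℝ) (Qd : Set (Fin m → ℝ)) (Z Tie : Set (Fin m))
    (kz : Fin m) (o : Fin m → ℝ) (τ : ℝ) (A : W → Prop) (Dr : Set (Fin m))
    (lam lo : (Fin m → ℝ) → ℝ) : Prop where
  /-- the base points are on the own path in the tied slots -/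
  jt : ∃ (x : ℕ → Fin m → ℝ) (h : ℕ → ℝ), JT Q A P ν own r0 x h lam lo ∧
    (∀ l, ∀ i ∈ Tie, x l i - r0 i = o i * (x l kz - r0 kz)) ∧ RecX ν r0 ρ Dl Dr x h
  prf : Prf (cn Q A) lam lo K
  noD : ∀ w, A w → Q.hd w ∉ Dr ∧ ∀ s ∈ Dr, Q.co w s = 0
  ZD : ∀ i ∈ Z, i ∉ Dr
  TD : ∀ i ∈ Tie, i ∉ Dr
  zD : kz ∉ Dr
  ind : ∀ c ∈ cn Q A, ∀ c' ∈ cn Q A, (∀ i, i ∉ Dr → c i = c' i) →
    (∃ σ : ℝ, ∀ i ∈ Z, σ * ρ i ≤ c i) → lam c = lam c'
  rcd : ∀ σ : ℝ, lam (σ • ρ) = σ * Dl ρ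
  dmx : ∀ c ∈ cn Q A, ∀ d ∈ Qd, (∀ i, i ∉ Dr → d i ≤ c i) → lam c ≤ Dl d
  ownr : ∀ c ∈ cn Q A, (∀ i ∈ Tie, c i ≤ o i * c kz) → lo c = -(τ * c kz)
  ownu : ∀ c ∈ cn Q A, lo c ≤ -(τ * c kz)

/-- facts about the record direction and the D-max cone (fixed for the whole ladder) -/
structure RecD (Q : Walls (Fin m) W) (A : W → Prop) (ρ : Fin m → ℝ) (Qd : Set (Fin m → ℝ))
    (Tie : Set (Fin m)) (kz : Fin m) (o : Fin m → ℝ) : Prop where
  full : ∀ w, A w → ∃ s, Q.co w s ≠ 0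
  nat : ∀ w, A w → ρ (Q.hd w) = Q.rhs w ρ
  qd : ∀ d ∈ Qd, ∀ ξ t : ℝ, 0 ≤ t → ξ • ρ + t • d ∈ Qd
  tie : ∀ i ∈ Tie, ρ i = o i * ρ kz

/-- **data of a rung**: `T` = ray (v-slopes on the surface, anything `> 0` on the dropped slots),
`T'` = natural ray, `b` = second direction of the plane (`= ρ` off the dropped slots), `J` = slots
to be dropped -/
structure RungD (Q : Walls (Fin m) W) (A : W → Prop) (Dr Z Tie : Set (Fin m)) (kz : Fin m)
    (Qd : Set (Fin m → ℝ)) (ρ T T' b : Fin m → ℝ) (J : Finset (Fin m)) : Prop where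
  T0 : ∀ i, 0 ≤ T i
  TJ : ∀ i ∈ J, T i = 0
  TZ : ∀ i, i ∉ J → i ∉ Z → 0 < T i
  natT : ∀ w, A w → T (Q.hd w) = Q.rhs w T
  bρ : ∀ i, i ∉ Dr → b i = ρ i
  TT : ∀ i, i ∉ Dr → T' i = T i
  qd : -T' ∈ Qd
  head : ∀ w, A w → Q.hd w ∈ J → ∃ s ∈ J, Q.co w s ≠ 0
  JZ : ∀ i ∈ J, i ∉ Z
  JT : ∀ i ∈ J, i ∉ Tie
  Jz : kz ∉ J

/-- indicator -/
def ind1 (J : Finset (Fin m)) : Fin m → ℝ := fun i => if i ∈ J then 1 else 0

/-- position of the base points `x'` at a point `z.1 < 0` of the plane with respect to the own path -/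
structure BaseOk (Tie : Set (Fin m)) (kz : Fin m) (o T r0 : Fin m → ℝ) (x' : ℕ → Fin m → ℝ)
    (h' : ℕ → ℝ) : Prop where
  eq : ∀ l, ∀ i ∈ Tie, T i = o i * T kz → x' l i - r0 i = o i * (x' l kz - r0 kz)
  le : ∀ l, ∀ i ∈ Tie, o i * T kz ≤ T i → x' l i - r0 i ≤ o i * (x' l kz - r0 kz)
  /-- strictly inside the own path: infinitely far in the scales `h'` -/
  slack : ∀ i ∈ Tie, o i * T kz < T i → ∀ R : ℝ, ∀ᶠ l in atTop,
    x' l i - r0 i + R * h' l ≤ o i * (x' l kz - r0 kz)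

/-- **input of a rung**: the F-lemma at the points `z.1 < 0` of the plane `z.1 T + z.2 b`; `V lam'` =
what is visible at the tangent -/
def FLem (Q : Walls (Fin m) W) (A : W → Prop) (P : Set (Fin m → ℝ)) (ν own : (Fin m → ℝ) → ℝ)
    (r0 : Fin m → ℝ) (Dl : (Fin m → ℝ) →ₗ[ℝ] ℝ) (Tie : Set (Fin m)) (kz : Fin m) (o : Fin m → ℝ)
    (T T' b : Fin m → ℝ) (lam lo : (Fin m → ℝ) → ℝ) (V : ((Fin m → ℝ) → ℝ) → Prop) (g : ℝ) :
    Prop :=
  ∀ z : ℝ × ℝ, z.1 < 0 → ∀ D : ℝ × ℝ →L[ℝ] ℝ, HasFDerivAt (fun z => lam (X 0 T b z)) D z →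
    ∀ (k : ℕ → ℝ) (lam' lo' : (Fin m → ℝ) → ℝ), (∀ l, 0 < k l) → Tendsto k atTop (𝓝 0) →
    Ex926.IsTan (cn Q A) (cn Q A) lam (fun _ => X 0 T b z) k lam' →
    Ex926.IsTan (cn Q A) (cn Q A) lo (fun _ => X 0 T b z) k lo' →
    ∀ (x' : ℕ → Fin m → ℝ) (h' : ℕ → ℝ), JT Q A P ν own r0 x' h' lam' lo' →
    BaseOk Tie kz o T r0 x' h' →
    ∀ (φ : ℕ → (Fin m → ℝ) → ℝ) (rt : ℕ → ℝ),
      OutS (gC T b) (cn Q A) (dhC T b) (nC T b) lam' (D (1, 0), D (0, 1)) φ rt →
    V lam' → g ≤ -D (1, 0) + Dl T'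

/-! ### cones of walls -/

section cone

variable {Q : Walls (Fin m) W} {A : W → Prop} {c d : Fin m → ℝ}

/-- natural for the walls `A` -/
def Nat (Q : Walls (Fin m) W) (A : W → Prop) (c : Fin m → ℝ) : Prop :=
  ∀ w, A w → c (Q.hd w) = Q.rhs w c

theorem rhs_zero (w : W) : Q.rhs w 0 = 0 := by unfold Walls.rhs; simp

theorem rhs_mono (w : W) (h : c ≤ d) : Q.rhs w c ≤ Q.rhs w d :=
  Finset.sum_le_sum fun s _ => mul_le_mul_of_nonneg_left (h s) (Nat.cast_nonneg _)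

theorem rhs_congr (w : W) (h : ∀ s, Q.co w s ≠ 0 → c s = d s) : Q.rhs w c = Q.rhs w d := by
  unfold Walls.rhs
  refine Finset.sum_congr rfl fun s _ => ?_
  by_cases hs : Q.co w s = 0
  · rw [hs]; simp
  · rw [h s hs]

/-- one tail is higher -/
theorem rhs_add_le (w : W) {n : Fin m → ℝ} {K : ℝ} (h : n ≤ c) {s : Fin m} (hs : Q.co w s ≠ 0)
    (hK : n s + K ≤ c s) (hK0 : 0 ≤ K) : Q.rhs w n + K ≤ Q.rhs w c := by
  have h1 : Q.rhs w c = Q.rhs w n + Q.rhs w (c - n) := by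
    rw [← Q.rhs_add]; congr 1; abel
  have h2 : (c - n) s ≤ Q.rhs w (c - n) :=
    Walls.le_rhs (fun i => by simpa using h i) hs
  have h3 : K ≤ (c - n) s := by simp only [Pi.sub_apply]; linarith
  linarith

theorem Nat.mem (h : Nat Q A c) : c ∈ cn Q A := fun w hw => (h w hw).le

theorem Nat.add (h : Nat Q A c) (h' : Nat Q A d) : Nat Q A (c + d) := fun w hw => by
  rw [Q.rhs_add, Pi.add_apply, h w hw, h' w hw]

theorem Nat.smul (h : Nat Q A c) (t : ℝ) : Nat Q A (t • c) := fun w hw => by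
  rw [Q.rhs_smul, Pi.smul_apply, smul_eq_mul, h w hw]

theorem Nat.sub (h : Nat Q A c) (h' : Nat Q A d) : Nat Q A (c - d) := by
  rw [sub_eq_add_neg, ← neg_one_smul ℝ d]
  exact h.add (h'.smul _)

theorem Nat.zero : Nat Q A 0 := fun w _ => by rw [rhs_zero]; rfl

theorem cn_zero : (0 : Fin m → ℝ) ∈ cn Q A := Nat.zero.mem

theorem cn_add (h : c ∈ cn Q A) (h' : d ∈ cn Q A) : c + d ∈ cn Q A := fun w hw => by
  rw [Q.rhs_add, Pi.add_apply]; exact add_le_add (h w hw) (h' w hw)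

theorem cn_smul (h : c ∈ cn Q A) {t : ℝ} (ht : 0 ≤ t) : t • c ∈ cn Q A := fun w hw => by
  rw [Q.rhs_smul, Pi.smul_apply, smul_eq_mul]; exact mul_le_mul_of_nonneg_left (h w hw) ht

theorem cn_nat_add (h : Nat Q A c) (h' : d ∈ cn Q A) {t : ℝ} (ht : 0 ≤ t) : c + t • d ∈ cn Q A :=
  cn_add h.mem (cn_smul h' ht)

theorem cn_closed : IsClosed (cn Q A) := by
  have : cn Q A = ⋂ w, ⋂ (_ : A w), {c | c (Q.hd w) ≤ Q.rhs w c} := by
    ext c; simp [cn]
  rw [this]
  exact isClosed_iInter fun w => isClosed_iInter fun _ =>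
    isClosed_le (continuous_apply _) (Q.rhs_cont w)

end cone

/-! ### tangents -/

section tan

variable {V : Type*} [NormedAddCommGroup V] [NormedSpace ℝ V]

theorem tan_sub {P D : Set V} {ν lam : V → ℝ} {x : ℕ → V} {h : ℕ → ℝ}
    (H : Ex926.IsTan P D ν x h lam) {φ : ℕ → ℕ} (hφ : Tendsto φ atTop atTop) :
    Ex926.IsTan P D ν (fun l => x (φ l)) (fun l => h (φ l)) lam := by
  intro C ε hε
  exact hφ.eventually (H C ε hε)

/-- the estimate which gives the tangent of a tangent -/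
theorem tan_of_psi {P L L' : Set V} {ν g lam : V → ℝ} {x : ℕ → V} {y : V} {h k : ℕ → ℝ}
    (hpos : ∀ l, 0 < h l) (kpos : ∀ l, 0 < k l) (hy : y ∈ L)
    (H2 : Ex926.IsTan L L' g (fun _ => y) k lam) {ψ : ℕ → ℕ}
    (hψ2 : ∀ m : ℕ, ∀ c ∈ L, ‖c‖ ≤ ‖y‖ + k m * m → x (ψ m) + h (ψ m) • c ∈ P ∧
      |ν (x (ψ m) + h (ψ m) • c) - ν (x (ψ m)) - h (ψ m) * g c| ≤ k m / (m + 1) * h (ψ m)) :
    Ex926.IsTan P L' ν (fun m => x (ψ m) + h (ψ m) • y) (fun m => h (ψ m) * k m) lam := by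
  intro C ε hε
  obtain ⟨N1, hN1⟩ := exists_nat_gt C
  obtain ⟨N2, hN2⟩ := exists_nat_gt (4 / ε)
  filter_upwards [H2 C (ε / 2) (by positivity), eventually_ge_atTop (max N1 N2)]
    with m hm hmN c hc hcC
  have m1 : (N1 : ℝ) ≤ m := by exact_mod_cast (le_max_left _ _).trans hmN
  have m2 : (N2 : ℝ) ≤ m := by exact_mod_cast (le_max_right _ _).trans hmN
  have hk := kpos m
  have hh := hpos (ψ m)
  have hp : y + k m • c ∈ L := (hm c hc hcC).1
  have hpn : ‖y + k m • c‖ ≤ ‖y‖ + k m * m := by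
    refine (norm_add_le _ _).trans ?_
    rw [norm_smul, Real.norm_of_nonneg hk.le]
    have : k m * ‖c‖ ≤ k m * m := mul_le_mul_of_nonneg_left (by linarith) hk.le
    linarith
  have hyn : ‖y‖ ≤ ‖y‖ + k m * m := by
    have : 0 ≤ k m * (m : ℝ) := by positivity
    linarith
  have a1 := hψ2 m _ hp hpn
  have a2 := hψ2 m y hy hyn
  have a3 := (hm c hc hcC).2
  have e1 : x (ψ m) + h (ψ m) • y + (h (ψ m) * k m) • c =
      x (ψ m) + h (ψ m) • (y + k m • c) := by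
    rw [smul_add, smul_smul, add_assoc]
  refine ⟨by rw [e1]; exact a1.1, ?_⟩
  rw [e1]
  have b1 := a1.2
  have b2 := a2.2
  have b3 : |h (ψ m) * (g (y + k m • c) - g y - k m * lam c)| ≤ h (ψ m) * (ε / 2 * k m) := by
    rw [abs_mul, abs_of_pos hh]
    exact mul_le_mul_of_nonneg_left a3 hh.le
  have b4 : k m / (m + 1) ≤ ε / 4 * k m := by
    rw [div_le_iff₀ (by positivity)]
    have : 4 / ε < (m : ℝ) + 1 := by linarith
    rw [div_lt_iff₀ hε] at this
    nlinarith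
  have b5 : k m / (m + 1) * h (ψ m) ≤ ε / 4 * k m * h (ψ m) :=
    mul_le_mul_of_nonneg_right b4 hh.le
  rw [abs_le] at b1 b2 b3 ⊢
  constructor <;> nlinarith [b1.1, b1.2, b2.1, b2.2, b3.1, b3.2]

end tan

/-- **joint tangent of a joint tangent**, with additional eventual predicates `Xp` -/
theorem JT.compX {Q : Walls (Fin m) W} {A A' : W → Prop} {P : Set (Fin m → ℝ)}
    {ν own lam lo lam' lo' : (Fin m → ℝ) → ℝ} {r0 y : Fin m → ℝ} {x : ℕ → Fin m → ℝ} {h k : ℕ → ℝ}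
    (H : JT Q A P ν own r0 x h lam lo) (hA : ∀ w, A' w → A w) (hy : y ∈ cn Q A)
    (hyn : Nat Q A' y) (hst : ∀ w, A w → ¬ A' w → y (Q.hd w) < Q.rhs w y)
    (kpos : ∀ l, 0 < k l) (k0 : Tendsto k atTop (𝓝 0))
    (H1 : Ex926.IsTan (cn Q A) (cn Q A') lam (fun _ => y) k lam')
    (H2 : Ex926.IsTan (cn Q A) (cn Q A') lo (fun _ => y) k lo') (Xp : ℕ → ℕ → Prop)
    (hX : ∀ n, ∀ᶠ l in atTop, Xp n l) :
    ∃ ψ : ℕ → ℕ, (∀ m, m ≤ ψ m) ∧ JT Q A' P ν own r0 (fun m => x (ψ m) + h (ψ m) • y)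
      (fun m => h (ψ m) * k m) lam' lo' ∧ ∀ m, Xp m (ψ m) := by
  have key : ∀ n : ℕ, ∃ l : ℕ, n ≤ l ∧ (∀ c ∈ cn Q A, ‖c‖ ≤ ‖y‖ + k n * n →
      x l + h l • c ∈ P ∧ |ν (x l + h l • c) - ν (x l) - h l * lam c| ≤ k n / (n + 1) * h l) ∧
      (∀ c ∈ cn Q A, ‖c‖ ≤ ‖y‖ + k n * n →
      x l + h l • c ∈ P ∧ |own (x l + h l • c) - own (x l) - h l * lo c| ≤ k n / (n + 1) * h l) ∧
      Xp n l := by
    intro n
    have h1 := H.tan (‖y‖ + k n * n) (k n / (n + 1)) (div_pos (kpos n) (by positivity))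
    have h2 := H.tano (‖y‖ + k n * n) (k n / (n + 1)) (div_pos (kpos n) (by positivity))
    obtain ⟨l, ⟨⟨hl1, hl3⟩, hl4⟩, hl2⟩ :=
      (((h1.and h2).and (hX n)).and (eventually_ge_atTop n)).exists
    exact ⟨l, hl2, hl1, hl3, hl4⟩
  choose ψ hψ hψ2 hψ3 hψ4 using key
  have hψt : Tendsto ψ atTop atTop := tendsto_atTop_mono hψ tendsto_id
  have h0 : Tendsto (fun n => h (ψ n)) atTop (𝓝 0) := H.zero.comp hψt
  refine ⟨ψ, hψ, ⟨fun l => mul_pos (H.pos _) (kpos l), ?_, ?_, ?_, ?_,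
    tan_of_psi H.pos kpos hy H1 hψ2, tan_of_psi H.pos kpos hy H2 hψ3⟩, hψ4⟩
  · have := h0.mul k0
    rwa [zero_mul] at this
  · intro l w hw
    have h1 := H.nat (ψ l) w (hA w hw)
    have h2 := hyn w hw
    rw [Q.rhs_add, Q.rhs_smul, Pi.add_apply, Pi.smul_apply, smul_eq_mul, h1, h2]
    ring
  · intro w hw R
    by_cases hwA : A w
    · -- strict at `y`
      have hs := hst w hwA hw
      have hk1 : ∀ᶠ l in atTop, R * k l ≤ Q.rhs w y - y (Q.hd w) := by
        have h1 : Tendsto (fun l => R * k l) atTop (𝓝 0) := by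
          have := k0.const_mul R
          rwa [mul_zero] at this
        exact (h1.eventually_lt_const (sub_pos.2 hs)).mono fun l hl => hl.le
      filter_upwards [hk1] with l hl
      have h1 := H.nat (ψ l) w hwA
      have h2 := mul_le_mul_of_nonneg_left hl (H.pos (ψ l)).le
      rw [Q.rhs_add, Q.rhs_smul, Pi.add_apply, Pi.smul_apply, smul_eq_mul, h1]
      nlinarith
    · have hk1 : ∀ᶠ l in atTop, |k l| ≤ 1 := by
        have h1 := k0.abs
        rw [abs_zero] at h1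
        exact (h1.eventually_lt_const one_pos).mono fun l hl => hl.le
      filter_upwards [hψt.eventually (H.gap w hwA (|y (Q.hd w)| + |Q.rhs w y| + |R|)), hk1]
        with l hl hk
      rw [Q.rhs_add, Q.rhs_smul, Pi.add_apply, Pi.smul_apply, smul_eq_mul]
      have hh := (H.pos (ψ l)).le
      have b1 : h (ψ l) * y (Q.hd w) ≤ h (ψ l) * |y (Q.hd w)| :=
        mul_le_mul_of_nonneg_left (le_abs_self _) hh
      have b2 : h (ψ l) * -Q.rhs w y ≤ h (ψ l) * |Q.rhs w y| :=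
        mul_le_mul_of_nonneg_left (neg_le_abs _) hh
      have b3 : R * k l ≤ |R| := by
        refine (le_abs_self _).trans ?_
        rw [abs_mul]
        exact mul_le_of_le_one_right (abs_nonneg _) hk
      have b4 : h (ψ l) * (R * k l) ≤ h (ψ l) * |R| := mul_le_mul_of_nonneg_left b3 hh
      nlinarith
  · have h1 : Tendsto (fun n => x (ψ n)) atTop (𝓝 r0) := H.base.comp hψt
    have h2 : Tendsto (fun n => h (ψ n) • y) atTop (𝓝 0) := by
      have := h0.smul_const y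
      rwa [zero_smul] at this
    have := h1.add h2
    rwa [add_zero] at this

/-- **joint tangent of a joint tangent** -/
theorem JT.comp {Q : Walls (Fin m) W} {A A' : W → Prop} {P : Set (Fin m → ℝ)}
    {ν own lam lo lam' lo' : (Fin m → ℝ) → ℝ} {r0 y : Fin m → ℝ} {x : ℕ → Fin m → ℝ} {h k : ℕ → ℝ}
    (H : JT Q A P ν own r0 x h lam lo) (hA : ∀ w, A' w → A w) (hy : y ∈ cn Q A)
    (hyn : Nat Q A' y) (hst : ∀ w, A w → ¬ A' w → y (Q.hd w) < Q.rhs w y)
    (kpos : ∀ l, 0 < k l) (k0 : Tendsto k atTop (𝓝 0))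
    (H1 : Ex926.IsTan (cn Q A) (cn Q A') lam (fun _ => y) k lam')
    (H2 : Ex926.IsTan (cn Q A) (cn Q A') lo (fun _ => y) k lo') :
    ∃ ψ : ℕ → ℕ, (∀ m, m ≤ ψ m) ∧ JT Q A' P ν own r0 (fun m => x (ψ m) + h (ψ m) • y)
      (fun m => h (ψ m) * k m) lam' lo' := by
  obtain ⟨ψ, h1, h2, -⟩ := H.compX hA hy hyn hst kpos k0 H1 H2 (fun _ _ => True)
    fun _ => Eventually.of_forall fun _ => trivial
  exact ⟨ψ, h1, h2⟩

/-- the predicate which transports the record value -/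
def XpR (ν lam : (Fin m → ℝ) → ℝ) (r0 ρ : Fin m → ℝ) (Dl : (Fin m → ℝ) →ₗ[ℝ] ℝ)
    (x : ℕ → Fin m → ℝ) (h k σ : ℕ → ℝ) (y : ℕ → Fin m → ℝ) (n l : ℕ) : Prop :=
  |ν (x l) - ν r0 - σ l * Dl ρ| ≤ k n / (n + 1) * h l ∧
    |ν (x l + h l • y n) - ν (x l) - h l * lam (y n)| ≤ k n / (n + 1) * h l

theorem xpR_ev {P L : Set (Fin m → ℝ)} {ν lam : (Fin m → ℝ) → ℝ} {r0 ρ : Fin m → ℝ}
    {Dl : (Fin m → ℝ) →ₗ[ℝ] ℝ} {x : ℕ → Fin m → ℝ} {h k σ : ℕ → ℝ} {y : ℕ → Fin m → ℝ}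
    (ht : Ex926.IsTan P L ν x h lam) (hpos : ∀ l, 0 < h l) (kpos : ∀ l, 0 < k l)
    (hy : ∀ n, y n ∈ L)
    (hR : Tendsto (fun l => (ν (x l) - ν r0 - σ l * Dl ρ) / h l) atTop (𝓝 0)) (n : ℕ) :
    ∀ᶠ l in atTop, XpR ν lam r0 ρ Dl x h k σ y n l := by
  have hε : 0 < k n / (n + 1) := div_pos (kpos n) (by positivity)
  have h1 : ∀ᶠ l in atTop, |(ν (x l) - ν r0 - σ l * Dl ρ) / h l| < k n / (n + 1) := by
    have := hR.abs
    rw [abs_zero] at this
    exact this.eventually_lt_const hε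
  filter_upwards [h1, ht.ev (hy n) hε] with l g1 g2
  refine ⟨?_, g2.2⟩
  rw [abs_div, abs_of_pos (hpos l), div_lt_iff₀ (hpos l)] at g1
  exact g1.le

/-- the record value at the new base points -/
theorem recX_of {ν lam : (Fin m → ℝ) → ℝ} {r0 ρ : Fin m → ℝ} {Dl : (Fin m → ℝ) →ₗ[ℝ] ℝ}
    {x : ℕ → Fin m → ℝ} {h k σ ξ : ℕ → ℝ} {y : ℕ → Fin m → ℝ} {Dr Dr' : Set (Fin m)}
    (hpos : ∀ l, 0 < h l) (kpos : ∀ l, 0 < k l)
    (hσ : ∀ l, ∀ i, i ∉ Dr → x l i = r0 i + σ l * ρ i) (hD : Dr ⊆ Dr')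
    (hy : ∀ l, ∀ i, i ∉ Dr' → y l i = ξ l * ρ i) (hlam : ∀ l, lam (y l) = ξ l * Dl ρ)
    {ψ : ℕ → ℕ} (hψ : ∀ l, XpR ν lam r0 ρ Dl x h k σ y l (ψ l)) :
    RecX ν r0 ρ Dl Dr' (fun l => x (ψ l) + h (ψ l) • y l) (fun l => h (ψ l) * k l) := by
  refine ⟨fun l => σ (ψ l) + h (ψ l) * ξ l, fun l i hi => ?_, ?_⟩
  · simp only [Pi.add_apply, Pi.smul_apply, smul_eq_mul]
    rw [hσ _ i fun h => hi (hD h), hy l i hi]; ring
  · refine squeeze_zero_norm (a := fun l : ℕ => 2 * (1 / ((l : ℝ) + 1))) (fun l => ?_) ?_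
    · obtain ⟨g1, g2⟩ := hψ l
      rw [hlam] at g2
      have hhk : 0 < h (ψ l) * k l := mul_pos (hpos _) (kpos l)
      rw [Real.norm_eq_abs, abs_div, abs_of_pos hhk, div_le_iff₀ hhk]
      have e1 : 2 * (1 / ((l : ℝ) + 1)) * (h (ψ l) * k l) =
          k l / (l + 1) * h (ψ l) + k l / (l + 1) * h (ψ l) := by field_simp; ring
      rw [e1]
      rw [abs_le] at g1 g2 ⊢
      constructor <;> linarith [g1.1, g1.2, g2.1, g2.2]
    · have := (tendsto_one_div_add_atTop_nhds_zero_nat (𝕜 := ℝ)).const_mul 2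
      rwa [mul_zero] at this

/-- profile facts pass to tangents -/
theorem Prf.tan {P L : Set (Fin m → ℝ)} {ν own lam lo : (Fin m → ℝ) → ℝ} {K : ℝ}
    (H : Prf P ν own K) {x : ℕ → Fin m → ℝ} {h : ℕ → ℝ} (hpos : ∀ l, 0 < h l)
    (H1 : Ex926.IsTan P L ν x h lam) (H2 : Ex926.IsTan P L own x h lo) : Prf L lam lo K where
  K0 := H.K0
  lip := H1.lip hpos H.lip
  olip := H2.lip hpos H.olip
  mono := fun p hp q hq hpq => H1.anti hpos
    (fun l c c' hcc => Qg926.add_smul_mono (hpos l).le hcc) H.mono p hp q hq hpq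
  sharp := fun p hp q hq hpq => Qg926.tan_sharp H1 hpos H.sharp p hp q hq hpq
  sup := fun p hp q hq h1 h2 => H1.submod hpos H.sup hp hq h1 h2
  own_le := by
    intro p hp q hq hpq
    refine le_of_forall_pos_le_add fun ε hε => ?_
    have hε4 : 0 < ε / 4 := by positivity
    obtain ⟨l, ⟨h1, h2⟩, ⟨h3, h4⟩, ⟨h5, h6⟩, ⟨h7, h8⟩⟩ := ((H1.ev hp hε4).and
      ((H1.ev hq hε4).and ((H2.ev hp hε4).and (H2.ev hq hε4)))).exists
    have hl := hpos l
    have h9 := H.own_le _ h1 _ h3 (Qg926.add_smul_mono hl.le hpq)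
    have key : h l * (lo p - lo q) ≤ h l * (lam p - lam q + ε) := by
      rw [abs_le] at h2 h4 h6 h8
      nlinarith
    exact le_of_mul_le_mul_left key hl

/-- joint tangents exist -/
theorem exists_joint {P L : Set (Fin m → ℝ)} {ν own : (Fin m → ℝ) → ℝ} {K : ℝ}
    (H : Prf P ν own K) (hL : IsClosed L) (h0L : (0 : Fin m → ℝ) ∈ L) {y : Fin m → ℝ}
    (hy : ∀ C : ℝ, ∃ h0 : ℝ, 0 < h0 ∧ ∀ h : ℝ, 0 < h → h < h0 → ∀ c ∈ L, ‖c‖ ≤ C → y + h • c ∈ P)
    {k : ℕ → ℝ} (kpos : ∀ l, 0 < k l) (k0 : Tendsto k atTop (𝓝 0)) :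
    ∃ φ : ℕ → ℕ, StrictMono φ ∧ ∃ lam lo : (Fin m → ℝ) → ℝ,
      Ex926.IsTan P L ν (fun _ => y) (fun l => k (φ l)) lam ∧
      Ex926.IsTan P L own (fun _ => y) (fun l => k (φ l)) lo := by
  obtain ⟨φ1, h1, lam, hlam⟩ := AeT501.exists_tangent hL H.K0 H.lip hy kpos k0 h0L
  obtain ⟨φ2, h2, lo, hlo⟩ := AeT501.exists_tangent hL H.K0 H.olip hy (g := fun l => k (φ1 l))
    (fun l => kpos _) (k0.comp h1.tendsto_atTop) h0L
  exact ⟨fun l => φ1 (φ2 l), h1.comp h2, lam, lo, tan_sub hlam h2.tendsto_atTop, hlo⟩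

/-! ### decoupling on cones -/

section dec

variable {Q : Walls (Fin m) W} {A : W → Prop}

open Classical in
/-- the walls `A` without constants -/
noncomputable def wl (Q : Walls (Fin m) W) (A : W → Prop) : Walls (Fin m) {w // A w} where
  hd := fun w => Q.hd w.1
  co := fun w => Q.co w.1
  cst := fun _ => 0
  rk := Q.rk
  low := fun w s hs => Q.low w.1 s hs


/-- **decoupling for `lam` on the cone `cn Q A`**, natural plane -/
theorem cn_outS {lam lo : (Fin m → ℝ) → ℝ} {K : ℝ} (H : Prf (cn Q A) lam lo K)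
    (hF : ∀ w, A w → ∃ s, Q.co w s ≠ 0) {x0 a b : Fin m → ℝ} (ha : ∀ i, 0 ≤ a i)
    (n0 : Nat Q A x0) (na : Nat Q A a) (nb : Nat Q A b) :
    ∀ᵐ z : ℝ × ℝ, ∃ D : ℝ × ℝ →L[ℝ] ℝ, HasFDerivAt (fun z => lam (X x0 a b z)) D z ∧
      ∀ (h : ℕ → ℝ) (lam' : (Fin m → ℝ) → ℝ),
        BUp (cn Q A) (cn Q A) lam (X x0 a b z) h lam' →
        ∃ (φ : ℕ → (Fin m → ℝ) → ℝ) (r : ℕ → ℝ),
          OutS (gC a b) (cn Q A) (dhC a b) (nC a b) lam' (D (1, 0), D (0, 1)) φ r := by
  classical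
  obtain ⟨wv, hGr⟩ := Dg219.exists_grpC (b := b) ha
  set Q' := wl Q A with hQ'
  have hAct : ∀ w, Q'.Act x0 a b w := fun w => by
    refine ⟨?_, na w.1 w.2, nb w.1 w.2⟩
    show x0 (Q.hd w.1) = Q.rhs w.1 x0 + 0
    rw [add_zero]; exact n0 w.1 w.2
  have hL : Q'.L x0 a b = cn Q A := by
    ext c
    exact ⟨fun h w hw => h ⟨w, hw⟩ (hAct _), fun h w _ => h w.1 w.2⟩
  have hP : ∀ n : ℕ, Q'.P (fun _ => -(n:ℝ)) (fun _ => n) ⊆ cn Q A := by
    intro n p hp w hw
    have := hp.2 ⟨w, hw⟩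
    change p (Q.hd w) ≤ Q.rhs w p + 0 at this
    rwa [add_zero] at this
  have key : ∀ n : ℕ, ∀ᵐ z : ℝ × ℝ, z ∈ Q'.O (fun _ => -(n:ℝ)) (fun _ => n) x0 a b →
      ∃ D : ℝ × ℝ →L[ℝ] ℝ, HasFDerivAt (fun z => lam (X x0 a b z)) D z ∧
      ∀ (h : ℕ → ℝ) (lam' : (Fin m → ℝ) → ℝ),
        BUp (Q'.P (fun _ => -(n:ℝ)) (fun _ => n)) (Q'.L x0 a b) lam (X x0 a b z) h lam' →
        ∃ (φ : ℕ → (Fin m → ℝ) → ℝ) (r : ℕ → ℝ),
          OutS (gC a b) (Q'.L x0 a b) (dhC a b) (nC a b) lam' (D (1, 0), D (0, 1)) φ r := by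
    intro n
    refine Dg219.ae_outS Q' H.K0 ?_ ?_ ?_ hGr ?_ (fun _ _ => Iff.rfl) Dg219.dirC
    · intro p hp q hq
      rw [dist_eq_norm]; exact H.lip p (hP n hp) q (hP n hq)
    · intro p hp q hq hpq
      exact ⟨sub_nonneg.2 (H.mono p (hP n hp) q (hP n hq) hpq),
        H.sharp p (hP n hp) q (hP n hq) hpq⟩
    · intro p hp q hq h1 h2
      exact H.sup p (hP n hp) q (hP n hq) (hP n h1) (hP n h2)
    · exact Dg219.Walls.full_of_co fun w => hF w.1 w.2
  filter_upwards [ae_all_iff.2 key] with z hz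
  obtain ⟨n, hn⟩ := exists_nat_gt ‖X x0 a b z‖
  have hzO : z ∈ Q'.O (fun _ => -(n:ℝ)) (fun _ => n) x0 a b := by
    refine ⟨fun k => ?_, fun w => Or.inl (hAct w)⟩
    have h1 : |X x0 a b z k| ≤ ‖X x0 a b z‖ := by
      rw [← Real.norm_eq_abs]; exact norm_le_pi_norm _ k
    have h2 := abs_le.1 h1
    exact ⟨by linarith [h2.1], by linarith [h2.2]⟩
  obtain ⟨D, hD, H2⟩ := hz n hzO
  rw [hL] at H2
  refine ⟨D, hD, fun h lam' hB => H2 h lam' ⟨hB.pos, hB.zero, fun c hc => ?_, hB.lim⟩⟩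
  obtain ⟨ε, hε, hleg⟩ := Walls.legal hzO ‖c‖
  filter_upwards [hB.zero.eventually (eventually_lt_nhds hε)] with l hl
  exact hleg z (by rw [dist_self]; exact hε) _ (hB.pos l) hl c (by rw [hL]; exact hc) le_rfl

end dec

end Crest.Agent.R136.K2S774
end

-- ▼ part R136/K2V_774
section

/-!
# R136 (helper774): stages of the ladder, theorems

`free_ind`     : free along a natural point ⇒ independent of the slots `J` above this point
`Stage.at_rec` : a tangent at a record point is again a stage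
`Stage.raise`  : dropping the slots `J`
`Stage.rung`, `Stage.dead`, `stage_init`
-/

set_option autoImplicit false
set_option linter.unusedSectionVars false
set_option linter.unusedVariables false

open Set Filter Topology Metric MeasureTheory

namespace Crest.Agent.R136.K2S774

open Dg262 (X X_cont SupOn LegU)
open Dg219 (Tn BUp Walls OutS gC dhC nC)
open Crest.Agent.R138

variable {m : ℕ} {W : Type*} [Fintype W]

/-! ### independence of the slots `J` -/

section ind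

variable {Q : Walls (Fin m) W} {A : W → Prop} {lam lo : (Fin m → ℝ) → ℝ} {K : ℝ}

/-- slots of `J` of rank `< t` raised to `n + K` -/
def rse (Q : Walls (Fin m) W) (J : Finset (Fin m)) (n : Fin m → ℝ) (K0 : ℝ) (t : ℕ)
    (c : Fin m → ℝ) : Fin m → ℝ := fun i => if i ∈ J ∧ Q.rk i < t then n i + K0 else c i

theorem mem_of {n e c : Fin m → ℝ} {K0 : ℝ} (hK : 0 ≤ K0) (hn : Nat Q A n) (hne : n ≤ e)
    (hc : c ∈ cn Q A)
    (h : ∀ w, A w → e (Q.hd w) ≤ n (Q.hd w) ∨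
      (e (Q.hd w) ≤ n (Q.hd w) + K0 ∧ ∃ s, Q.co w s ≠ 0 ∧ n s + K0 ≤ e s) ∨
      (c ≤ e ∧ e (Q.hd w) ≤ c (Q.hd w))) : e ∈ cn Q A := by
  intro w hw
  rcases h w hw with h1 | ⟨h1, s, hs, h2⟩ | ⟨h1, h2⟩
  · exact h1.trans ((hn w hw).le.trans (rhs_mono w hne))
  · have h3 := rhs_add_le w hne hs h2 hK
    rw [← hn w hw] at h3
    exact h1.trans h3
  · exact h2.trans ((hc w hw).trans (rhs_mono w h1))

theorem rse_step (H : Prf (cn Q A) lam lo K) {J : Finset (Fin m)}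
    (head : ∀ w, A w → Q.hd w ∈ J → ∃ s ∈ J, Q.co w s ≠ 0) {n : Fin m → ℝ} (hn : Nat Q A n)
    (hfree : ∀ x : ℝ, 0 ≤ x → lam (n + x • ind1 J) = lam n) {c : Fin m → ℝ} (hc : c ∈ cn Q A)
    (hnc : n ≤ c) {K0 : ℝ} (hK0 : 0 ≤ K0) (hcK : ∀ i ∈ J, c i ≤ n i + K0) (t : ℕ) :
    rse Q J n K0 t c ∈ cn Q A ∧ lam (rse Q J n K0 t c) = lam c := by
  induction t with
  | zero =>
    have : rse Q J n K0 0 c = c := by
      funext i
      unfold rse
      rw [if_neg (fun h => absurd h.2 (Nat.not_lt_zero _))]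
    rw [this]
    exact ⟨hc, rfl⟩
  | succ t ih =>
    obtain ⟨hq, ih⟩ := ih
    set q := rse Q J n K0 t c with hqd
    set q' := rse Q J n K0 (t + 1) c with hqd'
    set p : Fin m → ℝ := rse Q J n K0 (t + 1) n with hpd
    set u := n + K0 • ind1 J with hu
    have hnq : n ≤ q := by
      intro i
      rw [hqd]; unfold rse
      split_ifs
      · linarith
      · exact hnc i
    have hqq' : q ≤ q' := by
      intro i
      rw [hqd, hqd']; unfold rse
      by_cases h1 : i ∈ J ∧ Q.rk i < t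
      · rw [if_pos h1, if_pos ⟨h1.1, h1.2.trans (Nat.lt_succ_self t)⟩]
      · rw [if_neg h1]
        by_cases h2 : i ∈ J ∧ Q.rk i < t + 1
        · rw [if_pos h2]; exact hcK i h2.1
        · rw [if_neg h2]
    have hcq' : c ≤ q' := by
      intro i
      rw [hqd']; unfold rse
      by_cases h2 : i ∈ J ∧ Q.rk i < t + 1
      · rw [if_pos h2]; exact hcK i h2.1
      · rw [if_neg h2]
    have hnp : n ≤ p := by
      intro i
      rw [hpd]; unfold rse
      split_ifs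
      · linarith
      · exact le_rfl
    have hpu : p ≤ u := by
      intro i
      rw [hpd, hu]; unfold rse ind1
      simp only [Pi.add_apply, Pi.smul_apply, smul_eq_mul]
      by_cases h2 : i ∈ J
      · rw [if_pos h2, mul_one]
        split_ifs
        · exact le_rfl
        · linarith
      · rw [if_neg (fun h => h2 h.1), if_neg h2]; linarith
    have hjoin : p ⊔ q = q' := by
      funext i
      rw [Pi.sup_apply, hpd, hqd, hqd']; unfold rse
      by_cases h2 : i ∈ J ∧ Q.rk i < t + 1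
      · rw [if_pos h2, if_pos h2]
        refine max_eq_left ?_
        split_ifs
        · exact le_rfl
        · exact hcK i h2.1
      · rw [if_neg h2, if_neg h2, if_neg (fun h => h2 ⟨h.1, h.2.trans (Nat.lt_succ_self t)⟩)]
        exact max_eq_right (hnc i)
    -- membership
    have mp : p ∈ cn Q A := by
      refine mem_of hK0 hn hnp hn.mem fun w hw => ?_
      by_cases h : Q.hd w ∈ J ∧ Q.rk (Q.hd w) < t + 1
      · right; left
        obtain ⟨s, hs, hs'⟩ := head w hw h.1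
        refine ⟨?_, s, hs', ?_⟩
        · rw [hpd]; unfold rse; rw [if_pos h]
        · rw [hpd]; unfold rse
          rw [if_pos ⟨hs, (Q.low w s hs').trans h.2⟩]
      · left
        rw [hpd]; unfold rse; rw [if_neg h]
    have mu : u ∈ cn Q A := by
      refine mem_of hK0 hn (hnp.trans hpu) hn.mem fun w hw => ?_
      by_cases h : Q.hd w ∈ J
      · right; left
        obtain ⟨s, hs, hs'⟩ := head w hw h
        refine ⟨?_, s, hs', ?_⟩
        · rw [hu]; unfold ind1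
          simp only [Pi.add_apply, Pi.smul_apply, smul_eq_mul, if_pos h, mul_one]; exact le_rfl
        · rw [hu]; unfold ind1
          simp only [Pi.add_apply, Pi.smul_apply, smul_eq_mul, if_pos hs, mul_one]; exact le_rfl
      · left
        rw [hu]; unfold ind1
        simp only [Pi.add_apply, Pi.smul_apply, smul_eq_mul, if_neg h, mul_zero, add_zero]
        exact le_rfl
    have mq' : q' ∈ cn Q A := by
      refine mem_of hK0 hn (hnq.trans hqq') hc fun w hw => ?_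
      by_cases h : Q.hd w ∈ J ∧ Q.rk (Q.hd w) < t + 1
      · right; left
        obtain ⟨s, hs, hs'⟩ := head w hw h.1
        refine ⟨?_, s, hs', ?_⟩
        · rw [hqd']; unfold rse; rw [if_pos h]
        · rw [hqd']; unfold rse
          rw [if_pos ⟨hs, (Q.low w s hs').trans h.2⟩]
      · right; right
        refine ⟨hcq', ?_⟩
        rw [hqd']; unfold rse; rw [if_neg h]
    have hne : n ≤ p ⊓ q := le_inf hnp hnq
    have me : p ⊓ q ∈ cn Q A := by
      refine mem_of hK0 hn hne hn.mem fun w hw => ?_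
      by_cases h : Q.hd w ∈ J ∧ Q.rk (Q.hd w) < t + 1
      · right; left
        obtain ⟨s, hs, hs'⟩ := head w hw h.1
        refine ⟨?_, s, hs', ?_⟩
        · refine inf_le_left.trans ?_
          rw [hpd]; unfold rse; rw [if_pos h]
        · rw [Pi.inf_apply]
          refine le_inf ?_ ?_
          · rw [hpd]; unfold rse
            rw [if_pos ⟨hs, (Q.low w s hs').trans h.2⟩]
          · rw [hqd]; unfold rse
            rw [if_pos ⟨hs, by have := Q.low w s hs'; have := h.2; omega⟩]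
      · left
        refine (inf_le_left (a := p) (b := q) (Q.hd w)).trans ?_
        rw [hpd]; unfold rse; rw [if_neg h]
    have h5 := H.sup p mp q hq me (by rw [hjoin]; exact mq')
    rw [hjoin] at h5
    have h6 := H.mono n hn.mem _ me hne
    have h7 := H.mono p mp u mu hpu
    have h8 := hfree K0 hK0
    rw [← hu] at h8
    have h9 := H.mono q hq q' mq' hqq'
    exact ⟨mq', by linarith⟩

/-- **free along a natural point ⇒ independent of the slots `J` above this point** -/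
theorem free_ind (H : Prf (cn Q A) lam lo K) {J : Finset (Fin m)}
    (head : ∀ w, A w → Q.hd w ∈ J → ∃ s ∈ J, Q.co w s ≠ 0) {n : Fin m → ℝ} (hn : Nat Q A n)
    (hfree : ∀ x : ℝ, 0 ≤ x → lam (n + x • ind1 J) = lam n) {c c' : Fin m → ℝ} (hc : c ∈ cn Q A)
    (hc' : c' ∈ cn Q A) (hcc : ∀ i, i ∉ J → c i = c' i) (h1 : n ≤ c) (h2 : n ≤ c') :
    lam c = lam c' := by
  set K0 : ℝ := ‖c - n‖ + ‖c' - n‖ with hK0
  have hK : 0 ≤ K0 := by positivity
  have b1 : ∀ i ∈ J, c i ≤ n i + K0 := by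
    intro i _
    have h3 : |(c - n) i| ≤ ‖c - n‖ := by rw [← Real.norm_eq_abs]; exact norm_le_pi_norm _ i
    rw [Pi.sub_apply] at h3
    have := le_abs_self (c i - n i)
    have := norm_nonneg (c' - n)
    linarith
  have b2 : ∀ i ∈ J, c' i ≤ n i + K0 := by
    intro i _
    have h3 : |(c' - n) i| ≤ ‖c' - n‖ := by rw [← Real.norm_eq_abs]; exact norm_le_pi_norm _ i
    rw [Pi.sub_apply] at h3
    have := le_abs_self (c' i - n i)
    have := norm_nonneg (c - n)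
    linarith
  obtain ⟨-, e1⟩ := rse_step H head hn hfree hc h1 hK b1 (Finset.univ.sup Q.rk + 1)
  obtain ⟨-, e2⟩ := rse_step H head hn hfree hc' h2 hK b2 (Finset.univ.sup Q.rk + 1)
  rw [← e1, ← e2]
  congr 1
  funext i
  unfold rse
  by_cases h : i ∈ J
  · have : Q.rk i < Finset.univ.sup Q.rk + 1 :=
      Nat.lt_succ_of_le (Finset.le_sup (Finset.mem_univ i))
    rw [if_pos ⟨h, this⟩, if_pos ⟨h, this⟩]
  · rw [if_neg (fun h' => h h'.1), if_neg (fun h' => h h'.1)]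
    exact hcc i h

end ind

/-! ### stages -/

section stage

variable {Q : Walls (Fin m) W} {P : Set (Fin m → ℝ)} {ν own : (Fin m → ℝ) → ℝ} {K : ℝ}
  {r0 ρ : Fin m → ℝ} {Dl : (Fin m → ℝ) →ₗ[ℝ] ℝ} {Qd : Set (Fin m → ℝ)} {Z Tie : Set (Fin m)}
  {kz : Fin m} {o : Fin m → ℝ} {τ : ℝ} {A : W → Prop} {Dr : Set (Fin m)}
  {lam lo lam1 lo1 : (Fin m → ℝ) → ℝ}

theorem Stage.nat_b (H : Stage Q P ν own K r0 ρ Dl Qd Z Tie kz o τ A Dr lam lo)
    (hρ : Nat Q A ρ) {b : Fin m → ℝ} (hb : ∀ i, i ∉ Dr → b i = ρ i) : Nat Q A b := by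
  intro w hw
  rw [hb _ (H.noD w hw).1, hρ w hw]
  refine rhs_congr w fun s hs => (hb s fun h => hs ((H.noD w hw).2 s h)).symm

theorem Stage.lam_b (H : Stage Q P ν own K r0 ρ Dl Qd Z Tie kz o τ A Dr lam lo)
    (hρ : Nat Q A ρ) {c : Fin m → ℝ} (hc : c ∈ cn Q A) {σ : ℝ}
    (hb : ∀ i, i ∉ Dr → c i = σ * ρ i) : lam c = σ * Dl ρ := by
  rw [← H.rcd σ]
  refine H.ind c hc (σ • ρ) (hρ.smul σ).mem (fun i hi => ?_) ⟨σ, fun i hi => ?_⟩
  · rw [hb i hi, Pi.smul_apply, smul_eq_mul]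
  · rw [hb i (H.ZD i hi)]

/-- a tangent at a record point is again a stage -/
theorem Stage.at_rec (H : Stage Q P ν own K r0 ρ Dl Qd Z Tie kz o τ A Dr lam lo)
    (R : RecD Q A ρ Qd Tie kz o) {b : Fin m → ℝ} (hb : ∀ i, i ∉ Dr → b i = ρ i) {ξ : ℝ}
    {k : ℕ → ℝ} (kpos : ∀ l, 0 < k l) (k0 : Tendsto k atTop (𝓝 0))
    (H1 : Ex926.IsTan (cn Q A) (cn Q A) lam (fun _ => ξ • b) k lam1)
    (H2 : Ex926.IsTan (cn Q A) (cn Q A) lo (fun _ => ξ • b) k lo1) :
    Stage Q P ν own K r0 ρ Dl Qd Z Tie kz o τ A Dr lam1 lo1 := by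
  have hnb := H.nat_b R.nat hb
  have hBU := Dg219.bup_of_tan kpos k0 H1
  have hBO := Dg219.bup_of_tan kpos k0 H2
  have mem : ∀ c ∈ cn Q A, ∀ l, ξ • b + k l • c ∈ cn Q A := fun c hc l =>
    cn_nat_add (hnb.smul ξ) hc (kpos l).le
  have hbase : lam (ξ • b) = ξ * Dl ρ := H.lam_b R.nat (hnb.smul ξ).mem fun i hi => by
    rw [Pi.smul_apply, smul_eq_mul, hb i hi]
  obtain ⟨x, h, hJ, hxt, σx, hσx, hσν⟩ := H.jt
  obtain ⟨ψ, -, hJ', hψ⟩ := hJ.compX (fun w hw => hw) (hnb.smul ξ).mem (hnb.smul ξ)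
    (fun w hw hn => absurd hw hn) kpos k0 H1 H2 _
    (xpR_ev hJ.tan hJ.pos kpos (y := fun _ => ξ • b) (fun _ => (hnb.smul ξ).mem) hσν)
  have hz : b kz = ρ kz := hb kz H.zD
  refine ⟨⟨_, _, hJ', fun l i hi => ?_, recX_of hJ.pos kpos (ξ := fun _ => ξ) hσx subset_rfl
    (fun l i hi => by rw [Pi.smul_apply, smul_eq_mul, hb i hi]) (fun _ => hbase) hψ⟩,
    H.prf.tan kpos H1 H2, H.noD, H.ZD, H.TD, H.zD, ?_, ?_, ?_, ?_, ?_⟩
  · have h1 := hxt (ψ l) i hi
    simp only [Pi.add_apply, Pi.smul_apply, smul_eq_mul]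
    rw [hb i (H.TD i hi), hz, R.tie i hi]
    linear_combination h1
  · rintro c hc c' hc' hcc ⟨σ, hσ⟩
    refine tendsto_nhds_unique (hBU.lim c hc) ((hBU.lim c' hc').congr fun l => ?_)
    rw [H.ind _ (mem c' hc' l) _ (mem c hc l) (fun i hi => ?_) ⟨ξ + k l * σ, fun i hi => ?_⟩]
    · simp only [Pi.add_apply, Pi.smul_apply, smul_eq_mul, hcc i hi]
    · simp only [Pi.add_apply, Pi.smul_apply, smul_eq_mul]
      rw [hb i (H.ZD i hi), ← hcc i (H.ZD i hi)]
      have := mul_le_mul_of_nonneg_left (hσ i hi) (kpos l).le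
      nlinarith
  · intro σ
    refine tendsto_nhds_unique (hBU.lim _ (Nat.mem (Nat.smul R.nat σ))) ?_
    refine tendsto_const_nhds.congr fun l => ?_
    rw [hbase, H.lam_b R.nat (σ := ξ + k l * σ) (mem _ (Nat.mem (Nat.smul R.nat σ)) l)]
    · have := (kpos l).ne'
      field_simp
      ring
    · intro i hi
      simp only [Pi.add_apply, Pi.smul_apply, smul_eq_mul]
      rw [hb i hi]; ring
  · intro c hc d hd hdc
    refine le_of_tendsto (hBU.lim c hc) (Eventually.of_forall fun l => ?_)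
    have h1 := H.dmx _ (mem c hc l) _ (R.qd d hd ξ (k l) (kpos l).le) fun i hi => by
      simp only [Pi.add_apply, Pi.smul_apply, smul_eq_mul]
      rw [hb i hi]
      have := mul_le_mul_of_nonneg_left (hdc i hi) (kpos l).le
      linarith
    rw [map_add, map_smul, map_smul, smul_eq_mul, smul_eq_mul] at h1
    rw [hbase, div_le_iff₀ (kpos l)]
    linarith
  · intro c hc hcT
    have tie : ∀ t : ℝ, 0 ≤ t → lo (ξ • b + t • c) = -(τ * (ξ * ρ kz + t * c kz)) := by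
      intro t ht
      rw [H.ownr _ (cn_nat_add (hnb.smul ξ) hc ht) fun i hi => ?_]
      · simp only [Pi.add_apply, Pi.smul_apply, smul_eq_mul, hz]
      · simp only [Pi.add_apply, Pi.smul_apply, smul_eq_mul, hz]
        rw [hb i (H.TD i hi), R.tie i hi]
        have := mul_le_mul_of_nonneg_left (hcT i hi) ht
        nlinarith
    refine tendsto_nhds_unique (hBO.lim c hc) (tendsto_const_nhds.congr fun l => ?_)
    have h0 := tie 0 le_rfl
    rw [zero_smul, add_zero, zero_mul, add_zero] at h0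
    rw [tie (k l) (kpos l).le, h0]
    have := (kpos l).ne'
    field_simp
    ring
  · intro c hc
    refine le_of_tendsto (hBO.lim c hc) (Eventually.of_forall fun l => ?_)
    have h0 : lo (ξ • b) = -(τ * (ξ * ρ kz)) := by
      rw [H.ownr _ (hnb.smul ξ).mem fun i hi => ?_]
      · simp only [Pi.smul_apply, smul_eq_mul, hz]
      · simp only [Pi.smul_apply, smul_eq_mul, hz]
        rw [hb i (H.TD i hi), R.tie i hi]
        exact le_of_eq (by ring)
    have h1 := H.ownu _ (mem c hc l)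
    simp only [Pi.add_apply, Pi.smul_apply, smul_eq_mul, hz] at h1
    rw [h0, div_le_iff₀ (kpos l)]
    linarith

/-- raise of the slots `J` -/
noncomputable def y0 (Q : Walls (Fin m) W) (J : Finset (Fin m)) : Fin m → ℝ :=
  fun i => if i ∈ J then Q.rs i else 0

/-- walls which do not contain slots of `J` -/
def A2 (Q : Walls (Fin m) W) (A : W → Prop) (J : Finset (Fin m)) (w : W) : Prop :=
  A w ∧ Q.hd w ∉ J ∧ ∀ s ∈ J, Q.co w s = 0

theorem y0_nonneg (J : Finset (Fin m)) (i : Fin m) : 0 ≤ y0 Q J i := by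
  unfold y0
  split_ifs
  · linarith [Q.one_le_rs i]
  · exact le_rfl

theorem y0_A2 {J : Finset (Fin m)} : Nat Q (A2 Q A J) (y0 Q J) := by
  rintro w ⟨-, h1, h2⟩
  have e1 : y0 Q J (Q.hd w) = 0 := by unfold y0; rw [if_neg h1]
  rw [e1]
  unfold Walls.rhs
  refine (Finset.sum_eq_zero fun s _ => ?_).symm
  by_cases hs : s ∈ J
  · rw [h2 s hs]; simp
  · unfold y0; rw [if_neg hs, mul_zero]

theorem y0_strict {J : Finset (Fin m)}
    (head : ∀ w, A w → Q.hd w ∈ J → ∃ s ∈ J, Q.co w s ≠ 0) {w : W} (hw : A w)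
    (hw2 : ¬ A2 Q A J w) : y0 Q J (Q.hd w) + 1 ≤ Q.rhs w (y0 Q J) := by
  by_cases h : Q.hd w ∈ J
  · obtain ⟨s, hs, hs'⟩ := head w hw h
    have h1 := Walls.le_rhs (Q := Q) (c := y0 Q J) (y0_nonneg J) hs'
    have h2 := Q.rs_lt hs'
    have e1 : y0 Q J (Q.hd w) = Q.rs (Q.hd w) := by unfold y0; rw [if_pos h]
    have e2 : y0 Q J s = Q.rs s := by unfold y0; rw [if_pos hs]
    rw [e1]; rw [e2] at h1
    linarith
  · have : ∃ s ∈ J, Q.co w s ≠ 0 := by
      by_contra hcon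
      push Not at hcon
      exact hw2 ⟨hw, h, hcon⟩
    obtain ⟨s, hs, hs'⟩ := this
    have h1 := Walls.le_rhs (Q := Q) (c := y0 Q J) (y0_nonneg J) hs'
    have e1 : y0 Q J (Q.hd w) = 0 := by unfold y0; rw [if_neg h]
    have e2 : y0 Q J s = Q.rs s := by unfold y0; rw [if_pos hs]
    rw [e1]; rw [e2] at h1
    linarith [Q.one_le_rs s]

/-- legality at the raised point -/
theorem y0_legal {J : Finset (Fin m)}
    (head : ∀ w, A w → Q.hd w ∈ J → ∃ s ∈ J, Q.co w s ≠ 0) (C : ℝ) :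
    ∃ h0 : ℝ, 0 < h0 ∧ ∀ h : ℝ, 0 < h → h < h0 → ∀ c ∈ cn Q (A2 Q A J), ‖c‖ ≤ C →
      y0 Q J + h • c ∈ cn Q A := by
  classical
  set S : ℝ := ∑ w, ∑ s, (Q.co w s : ℝ) with hS
  have hS0 : 0 ≤ S := Finset.sum_nonneg fun w _ => Finset.sum_nonneg fun s _ => Nat.cast_nonneg _
  refine ⟨1 / ((|C| + 1) * (1 + S)), by positivity, fun h hh hh0 c hc hcC w hw => ?_⟩
  rw [lt_div_iff₀ (by positivity)] at hh0
  have hcb : ∀ i, |c i| ≤ |C| := fun i => by
    rw [← Real.norm_eq_abs]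
    exact (norm_le_pi_norm c i).trans (hcC.trans (le_abs_self C))
  by_cases h2 : A2 Q A J w
  · have h3 := hc w h2
    have h4 := y0_A2 (Q := Q) (A := A) (J := J) w h2
    rw [Q.rhs_add, Q.rhs_smul, Pi.add_apply, Pi.smul_apply, smul_eq_mul, h4]
    have := mul_le_mul_of_nonneg_left h3 hh.le
    linarith
  · have h3 := y0_strict head hw h2
    rw [Q.rhs_add, Q.rhs_smul, Pi.add_apply, Pi.smul_apply, smul_eq_mul]
    have h4 : |Q.rhs w c| ≤ S * |C| := by
      have e1 : |Q.rhs w c| ≤ ∑ s, (Q.co w s : ℝ) * |C| := by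
        unfold Walls.rhs
        refine (Finset.abs_sum_le_sum_abs _ _).trans (Finset.sum_le_sum fun s _ => ?_)
        rw [abs_mul, Nat.abs_cast]
        exact mul_le_mul_of_nonneg_left (hcb s) (Nat.cast_nonneg _)
      rw [← Finset.sum_mul] at e1
      refine e1.trans (mul_le_mul_of_nonneg_right ?_ (abs_nonneg _))
      exact Finset.single_le_sum (f := fun w => ∑ s, (Q.co w s : ℝ))
        (fun w _ => Finset.sum_nonneg fun s _ => Nat.cast_nonneg _) (Finset.mem_univ w)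
    have h5 := hcb (Q.hd w)
    have h6 := (abs_le.1 h4).1
    have h7 := (abs_le.1 h5).2
    have h8 : h * c (Q.hd w) ≤ h * |C| := mul_le_mul_of_nonneg_left h7 hh.le
    have h9 : h * (-(S * |C|)) ≤ h * Q.rhs w c := mul_le_mul_of_nonneg_left h6 hh.le
    have h10 : h * ((|C| + 1) * (1 + S)) = h * |C| + h * (S * |C|) + h + h * S := by ring
    have h11 : 0 ≤ h * S := mul_nonneg hh.le hS0
    linarith

/-- **dropping the slots `J`** -/
theorem Stage.raise (H : Stage Q P ν own K r0 ρ Dl Qd Z Tie kz o τ A Dr lam lo)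
    (R : RecD Q A ρ Qd Tie kz o) {T T' b : Fin m → ℝ} {J : Finset (Fin m)}
    (D : RungD Q A Dr Z Tie kz Qd ρ T T' b J)
    (hfree : ∀ σ s x : ℝ, 0 ≤ s → 0 ≤ x →
      lam (σ • b - s • T + x • ind1 J) = lam (σ • b - s • T)) :
    ∃ lam2 lo2 : (Fin m → ℝ) → ℝ,
      Stage Q P ν own K r0 ρ Dl Qd Z Tie kz o τ (A2 Q A J) (Dr ∪ ↑J) lam2 lo2 := by
  have hnb := H.nat_b R.nat D.bρ
  have hρ : Nat Q A ρ := R.nat
  have hT : Nat Q A T := D.natT
  set k : ℕ → ℝ := fun l => 1 / ((l : ℝ) + 1) with hk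
  have kpos : ∀ l, 0 < k l := fun l => by positivity
  have k0 : Tendsto k atTop (𝓝 0) := tendsto_one_div_add_atTop_nhds_zero_nat
  have my0 : y0 Q J ∈ cn Q A := fun w hw => by
    by_cases h : A2 Q A J w
    · exact (y0_A2 w h).le
    · linarith [y0_strict D.head hw h]
  have hleg := y0_legal (Q := Q) (A := A) D.head
  obtain ⟨φ, hφ, lam2, lo2, H1, H2⟩ := exists_joint H.prf (cn_closed (Q := Q) (A := A2 Q A J))
    cn_zero hleg kpos k0
  set q : ℕ → ℝ := fun l => k (φ l) with hq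
  have qpos : ∀ l, 0 < q l := fun l => kpos _
  have q0 : Tendsto q atTop (𝓝 0) := k0.comp hφ.tendsto_atTop
  have hBU := Dg219.bup_of_tan qpos q0 H1
  have hBO := Dg219.bup_of_tan qpos q0 H2
  obtain ⟨x, h, hJ, hxt, σx, hσx, hσν⟩ := H.jt
  obtain ⟨ψ, -, hJ', hψ⟩ := hJ.compX (A' := A2 Q A J) (fun w hw => hw.1) my0 y0_A2
    (fun w hw hn => by linarith [y0_strict D.head hw hn]) qpos q0 H1 H2 _
    (xpR_ev hJ.tan hJ.pos qpos (y := fun _ => y0 Q J) (fun _ => my0) hσν)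
  have y0off : ∀ i, i ∉ J → y0 Q J i = 0 := fun i hi => by unfold y0; rw [if_neg hi]
  have y0on : ∀ i ∈ J, 1 ≤ y0 Q J i := fun i hi => by
    unfold y0; rw [if_pos hi]; exact Q.one_le_rs i
  -- small steps
  have small : ∀ v : ℝ, ∀ᶠ l in atTop, q l * v ≤ 1 := by
    intro v
    have h1 : Tendsto (fun l => q l * v) atTop (𝓝 0) := by
      have := q0.mul_const v
      rwa [zero_mul] at this
    exact (h1.eventually_lt_const one_pos).mono fun l hl => hl.le
  have smallJ : ∀ v w : Fin m → ℝ, ∀ᶠ l in atTop, ∀ i ∈ J, q l * v i ≤ y0 Q J i + q l * w i := by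
    intro v w
    have h1 : ∀ᶠ l in atTop, ∀ i : Fin m, q l * (v i - w i) ≤ 1 :=
      eventually_all.2 fun i => small _
    filter_upwards [h1] with l hl i hi
    have := hl i
    have := y0on i hi
    linarith
  -- values of `lam` over the raised points
  have indep : ∀ c ∈ cn Q A, ∀ c' ∈ cn Q A, (∀ i, i ∉ J → c i = c' i) → ∀ σ : ℝ,
      (∀ i ∈ Z, σ * ρ i ≤ c i) → (∀ i ∈ J, σ * b i ≤ c i) → (∀ i ∈ J, σ * b i ≤ c' i) →
      lam c = lam c' := by
    intro c hc c' hc' hcc σ hZ hJ1 hJ2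
    -- `s` large
    set s : ℝ := ∑ i, |σ * b i - c i| / T i with hs
    have s0 : 0 ≤ s := Finset.sum_nonneg fun i _ => div_nonneg (abs_nonneg _) (D.T0 i)
    have hle : ∀ i, i ∉ J → σ * b i - s * T i ≤ c i := by
      intro i hi
      by_cases hiZ : i ∈ Z
      · rw [D.bρ i (H.ZD i hiZ)]
        have := hZ i hiZ
        have := mul_nonneg s0 (D.T0 i)
        linarith
      · have hTi := D.TZ i hi hiZ
        have h1 : |σ * b i - c i| / T i ≤ s :=
          Finset.single_le_sum (f := fun i => |σ * b i - c i| / T i)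
            (fun i _ => div_nonneg (abs_nonneg _) (D.T0 i)) (Finset.mem_univ i)
        rw [div_le_iff₀ hTi] at h1
        have := le_abs_self (σ * b i - c i)
        linarith
    have hn : Nat Q A (σ • b - s • T) := (hnb.smul σ).sub (hT.smul s)
    refine free_ind H.prf D.head hn (fun x hx => hfree σ s x s0 hx) hc hc' hcc ?_ ?_
    · intro i
      simp only [Pi.sub_apply, Pi.smul_apply, smul_eq_mul]
      by_cases hi : i ∈ J
      · rw [D.TJ i hi, mul_zero, sub_zero]; exact hJ1 i hi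
      · exact hle i hi
    · intro i
      simp only [Pi.sub_apply, Pi.smul_apply, smul_eq_mul]
      by_cases hi : i ∈ J
      · rw [D.TJ i hi, mul_zero, sub_zero]; exact hJ2 i hi
      · rw [← hcc i hi]; exact hle i hi
  have hy0 : lam (y0 Q J) = 0 := by
    have h1 : lam (y0 Q J) = lam 0 := by
      refine indep _ my0 _ cn_zero (fun i hi => ?_) 0 (fun i hi => ?_) (fun i hi => ?_)
        (fun i hi => ?_)
      · rw [y0off i hi]; rfl
      · rw [zero_mul]; exact y0_nonneg J i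
      · rw [zero_mul]; exact y0_nonneg J i
      · rw [zero_mul]; exact le_rfl
    have h2 := H.rcd 0
    rw [zero_smul, zero_mul] at h2
    rw [h1, h2]
  refine ⟨lam2, lo2, ⟨⟨_, _, hJ', fun l i hi => ?_, recX_of hJ.pos qpos (ξ := fun _ => 0) hσx
    subset_union_left (fun l i hi => by
      rw [y0off i fun h => hi (Or.inr h), zero_mul]) (fun _ => by rw [hy0, zero_mul]) hψ⟩,
    H.prf.tan qpos H1 H2, ?_, ?_, ?_, ?_, ?_, ?_, ?_, ?_, ?_⟩⟩
  · have h1 := hxt (ψ l) i hi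
    simp only [Pi.add_apply, Pi.smul_apply, smul_eq_mul]
    rw [y0off i (fun h => D.JT i h hi), y0off kz D.Jz]
    linear_combination h1
  · rintro w ⟨hw, h1, h2⟩
    refine ⟨fun h3 => ?_, fun s hs => ?_⟩
    · rcases h3 with h3 | h3
      · exact (H.noD w hw).1 h3
      · exact h1 h3
    · rcases hs with hs | hs
      · exact (H.noD w hw).2 s hs
      · exact h2 s hs
  · rintro i hi (h1 | h1)
    · exact H.ZD i hi h1
    · exact D.JZ i h1 hi
  · rintro i hi (h1 | h1)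
    · exact H.TD i hi h1
    · exact D.JT i h1 hi
  · rintro (h1 | h1)
    · exact H.zD h1
    · exact D.Jz h1
  · rintro c hc c' hc' hcc ⟨σ, hσ⟩
    classical
    set c'' : Fin m → ℝ := fun i => if i ∈ J then c i else c' i with hc''
    have mc'' : c'' ∈ cn Q (A2 Q A J) := by
      intro w hw
      have e1 : c'' (Q.hd w) = c' (Q.hd w) := by rw [hc'']; simp only; rw [if_neg hw.2.1]
      have e2 : Q.rhs w c'' = Q.rhs w c' := by
        refine rhs_congr w fun s hs => ?_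
        rw [hc'']; simp only
        rw [if_neg fun h => hs (hw.2.2 s h)]
      rw [e1, e2]; exact hc' w hw
    refine tendsto_nhds_unique (hBU.lim c hc) ((hBU.lim c' hc').congr' ?_)
    filter_upwards [hBU.mem c hc, hBU.mem c' hc', hBU.mem c'' mc'', smallJ (σ • b) c,
      smallJ (σ • b) c'] with l m1 m2 m3 s1 s2
    have e1 : lam (y0 Q J + q l • c) = lam (y0 Q J + q l • c'') := by
      refine H.ind _ m1 _ m3 (fun i hi => ?_) ⟨q l * σ, fun i hi => ?_⟩
      · simp only [Pi.add_apply, Pi.smul_apply, smul_eq_mul, hc'']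
        by_cases hiJ : i ∈ J
        · rw [if_pos hiJ]
        · rw [if_neg hiJ, hcc i (by rintro (h1 | h1); exacts [hi h1, hiJ h1])]
      · have hiJ : i ∉ J := fun h => D.JZ i h hi
        simp only [Pi.add_apply, Pi.smul_apply, smul_eq_mul]
        rw [y0off i hiJ, zero_add, mul_assoc]
        exact mul_le_mul_of_nonneg_left (hσ i hi) (qpos l).le
    have e2 : lam (y0 Q J + q l • c'') = lam (y0 Q J + q l • c') := by
      refine indep _ m3 _ m2 (fun i hi => ?_) (q l * σ) (fun i hi => ?_) (fun i hi => ?_)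
        (fun i hi => ?_)
      · simp only [Pi.add_apply, Pi.smul_apply, smul_eq_mul, hc'']
        rw [if_neg hi]
      · have hiJ : i ∉ J := fun h => D.JZ i h hi
        have hiD : i ∉ Dr ∪ ↑J := by rintro (h1 | h1); exacts [H.ZD i hi h1, hiJ h1]
        simp only [Pi.add_apply, Pi.smul_apply, smul_eq_mul, hc'']
        rw [if_neg hiJ, y0off i hiJ, zero_add, mul_assoc, ← hcc i hiD]
        exact mul_le_mul_of_nonneg_left (hσ i hi) (qpos l).le
      · have := s1 i hi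
        simp only [Pi.add_apply, Pi.smul_apply, smul_eq_mul, hc''] at this ⊢
        rw [if_pos hi]; linarith
      · have := s2 i hi
        simp only [Pi.add_apply, Pi.smul_apply, smul_eq_mul] at this ⊢
        linarith
    rw [e1, e2]
  · intro σ
    have mσ : Nat Q (A2 Q A J) (σ • ρ) := fun w hw => hρ.smul σ w hw.1
    refine tendsto_nhds_unique (hBU.lim _ mσ.mem) (tendsto_const_nhds.congr' ?_)
    filter_upwards [hBU.mem _ mσ.mem, smallJ (σ • b) (σ • ρ)] with l m1 s1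
    have e1 : lam (y0 Q J + q l • σ • ρ) = lam ((q l * σ) • b) := by
      -- first change the slots of `Dr`
      classical
      set d : Fin m → ℝ := fun i => if i ∈ J then (y0 Q J + q l • σ • ρ) i else q l * σ * b i
        with hd
      have md : d ∈ cn Q A := by
        intro w hw
        by_cases hwJ : A2 Q A J w
        · have e2 : d (Q.hd w) = q l * σ * b (Q.hd w) := by
            rw [hd]; simp only; rw [if_neg hwJ.2.1]
          have e3 : Q.rhs w d = Q.rhs w ((q l * σ) • b) := by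
            refine rhs_congr w fun s hs => ?_
            rw [hd]; simp only
            rw [if_neg fun h => hs (hwJ.2.2 s h)]; rfl
          rw [e2, e3]
          exact (hnb.smul (q l * σ) w hw).le
        · have h1 := m1 w hw
          have hle : d (Q.hd w) = (y0 Q J + q l • σ • ρ) (Q.hd w) := by
            rw [hd]; simp only
            by_cases hh : Q.hd w ∈ J
            · rw [if_pos hh]
            · rw [if_neg hh]
              simp only [Pi.add_apply, Pi.smul_apply, smul_eq_mul]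
              rw [y0off _ hh, D.bρ _ (H.noD w hw).1]; ring
          have hre : Q.rhs w d = Q.rhs w (y0 Q J + q l • σ • ρ) := by
            refine rhs_congr w fun s hs => ?_
            rw [hd]; simp only
            by_cases hh : s ∈ J
            · rw [if_pos hh]
            · rw [if_neg hh]
              simp only [Pi.add_apply, Pi.smul_apply, smul_eq_mul]
              rw [y0off _ hh, D.bρ _ fun h => hs ((H.noD w hw).2 s h)]; ring
          rw [hle, hre]; exact h1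
      have e4 : lam (y0 Q J + q l • σ • ρ) = lam d := by
        refine H.ind _ m1 _ md (fun i hi => ?_) ⟨q l * σ, fun i hi => ?_⟩
        · rw [hd]; simp only
          by_cases hh : i ∈ J
          · rw [if_pos hh]
          · rw [if_neg hh]
            simp only [Pi.add_apply, Pi.smul_apply, smul_eq_mul]
            rw [y0off _ hh, D.bρ _ hi]; ring
        · simp only [Pi.add_apply, Pi.smul_apply, smul_eq_mul]
          rw [y0off _ (fun h => D.JZ i h hi)]
          exact le_of_eq (by ring)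
      rw [e4]
      refine indep _ md _ (hnb.smul _).mem (fun i hi => ?_) (q l * σ) (fun i hi => ?_)
        (fun i hi => ?_) (fun i hi => ?_)
      · rw [hd]; simp only; rw [if_neg hi]; rfl
      · rw [hd]; simp only
        rw [if_neg (fun h => D.JZ i h hi), D.bρ _ (H.ZD i hi)]
      · rw [hd]; simp only
        rw [if_pos hi]
        have := s1 i hi
        simp only [Pi.add_apply, Pi.smul_apply, smul_eq_mul] at this ⊢
        linarith
      · simp only [Pi.smul_apply, smul_eq_mul]; exact le_rfl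
    have e5 : lam ((q l * σ) • b) = q l * σ * Dl ρ := H.lam_b R.nat (hnb.smul _).mem fun i hi => by
      rw [Pi.smul_apply, smul_eq_mul, D.bρ i hi]
    rw [e1, e5, hy0]
    have := (qpos l).ne'
    field_simp
    ring
  · intro c hc d hd hdc
    refine le_of_tendsto (hBU.lim c hc) ?_
    filter_upwards [hBU.mem c hc, smallJ d c] with l m1 s1
    have h1 := H.dmx _ m1 _ (R.qd d hd 0 (q l) (qpos l).le) fun i hi => by
      simp only [Pi.add_apply, Pi.smul_apply, smul_eq_mul, zero_mul, zero_add]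
      by_cases hiJ : i ∈ J
      · exact s1 i hiJ
      · rw [y0off i hiJ, zero_add]
        exact mul_le_mul_of_nonneg_left (hdc i (by rintro (h1 | h1); exacts [hi h1, hiJ h1]))
          (qpos l).le
    rw [map_add, map_smul, map_smul, smul_eq_mul, smul_eq_mul, zero_mul, zero_add] at h1
    rw [hy0, sub_zero, div_le_iff₀ (qpos l)]
    linarith
  · intro c hc hcT
    refine tendsto_nhds_unique (hBO.lim c hc) (tendsto_const_nhds.congr' ?_)
    filter_upwards [hBO.mem c hc] with l m1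
    have h1 : lo (y0 Q J + q l • c) = -(τ * (q l * c kz)) := by
      rw [H.ownr _ m1 fun i hi => ?_]
      · simp only [Pi.add_apply, Pi.smul_apply, smul_eq_mul, y0off kz D.Jz, zero_add]
      · simp only [Pi.add_apply, Pi.smul_apply, smul_eq_mul, y0off kz D.Jz,
          y0off i (fun h => D.JT i h hi), zero_add]
        have := mul_le_mul_of_nonneg_left (hcT i hi) (qpos l).le
        nlinarith
    have h2 : lo (y0 Q J) = 0 := by
      rw [H.ownr _ my0 fun i hi => ?_]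
      · rw [y0off kz D.Jz]; ring
      · rw [y0off kz D.Jz, y0off i (fun h => D.JT i h hi)]; simp
    rw [h1, h2]
    have := (qpos l).ne'
    field_simp
    ring
  · intro c hc
    refine le_of_tendsto (hBO.lim c hc) ?_
    filter_upwards [hBO.mem c hc] with l m1
    have h1 := H.ownu _ m1
    simp only [Pi.add_apply, Pi.smul_apply, smul_eq_mul, y0off kz D.Jz, zero_add] at h1
    have h2 : lo (y0 Q J) = 0 := by
      rw [H.ownr _ my0 fun i hi => ?_]
      · rw [y0off kz D.Jz]; ring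
      · rw [y0off kz D.Jz, y0off i (fun h => D.JT i h hi)]; simp
    rw [h2, sub_zero, div_le_iff₀ (qpos l)]
    linarith

end stage

end Crest.Agent.R136.K2S774
end

-- ▼ part R136/K2X_774

/-!
# R136 (helper774): THE LADDER: `Stage.rung`, `Stage.dead`, `stage_init`
-/

set_option autoImplicit false
set_option linter.unusedSectionVars false
set_option linter.unusedVariables false

open Set Filter Topology Metric MeasureTheory

namespace Crest.Agent.R136.K2S774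

open Dg262 (X X_cont SupOn LegU)
open Dg219 (Tn BUp Walls OutS gC dhC nC)
open Crest.Agent.R138

variable {m : ℕ} {W : Type*} [Fintype W]

variable {Q : Walls (Fin m) W} {P : Set (Fin m → ℝ)} {ν own : (Fin m → ℝ) → ℝ} {K : ℝ}
  {r0 ρ : Fin m → ℝ} {Dl : (Fin m → ℝ) →ₗ[ℝ] ℝ} {Qd : Set (Fin m → ℝ)} {Z Tie : Set (Fin m)}
  {kz : Fin m} {o : Fin m → ℝ} {τ : ℝ} {A : W → Prop} {Dr : Set (Fin m)}
  {lam lo : (Fin m → ℝ) → ℝ}

theorem X_pt0 (T b : Fin m → ℝ) (ξ s : ℝ) :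
    X 0 T b (pt 0 (0, 1) (1, 0) ξ s) = ξ • b - s • T := by
  funext i
  simp only [X, pt, Prod.fst_add, Prod.fst_sub, Prod.snd_add, Prod.snd_sub, Prod.smul_fst,
    Prod.smul_snd, smul_eq_mul, Pi.sub_apply, Pi.smul_apply, Pi.zero_apply, Prod.fst_zero,
    Prod.snd_zero]
  ring

theorem X_zero (T b : Fin m → ℝ) (z : ℝ × ℝ) : X 0 T b z = z.1 • T + z.2 • b := by
  funext i
  simp only [X, Pi.add_apply, Pi.smul_apply, smul_eq_mul, Pi.zero_apply]
  ring

theorem Tn_r (T b : Fin m → ℝ) : Tn T b (0, 1) = b := by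
  funext i; simp [Tn]

theorem Tn_e (T b : Fin m → ℝ) : Tn T b (1, 0) = T := by
  funext i; simp [Tn]

theorem ind1_nonneg (J : Finset (Fin m)) (i : Fin m) : 0 ≤ ind1 J i := by
  unfold ind1; split_ifs
  · exact zero_le_one
  · exact le_rfl

theorem ind1_mem {J : Finset (Fin m)} (head : ∀ w, A w → Q.hd w ∈ J → ∃ s ∈ J, Q.co w s ≠ 0) :
    ind1 J ∈ cn Q A := by
  intro w hw
  by_cases h : Q.hd w ∈ J
  · obtain ⟨s, hs, hs'⟩ := head w hw h
    have h1 := Walls.le_rhs (Q := Q) (c := ind1 J) (ind1_nonneg J) hs'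
    have e1 : ind1 J s = 1 := by unfold ind1; rw [if_pos hs]
    have e2 : ind1 J (Q.hd w) = 1 := by unfold ind1; rw [if_pos h]
    rw [e2, ← e1]; exact h1
  · have e2 : ind1 J (Q.hd w) = 0 := by unfold ind1; rw [if_neg h]
    rw [e2]; exact Walls.rhs_nonneg (ind1_nonneg J)

theorem Stage.ray (H : Stage Q P ν own K r0 ρ Dl Qd Z Tie kz o τ A Dr lam lo)
    (R : RecD Q A ρ Qd Tie kz o) {T T' b : Fin m → ℝ} {J : Finset (Fin m)}
    (D : RungD Q A Dr Z Tie kz Qd ρ T T' b J) :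
    Ray (cn Q A) lam 0 T b 0 (0, 1) (1, 0) (fun ξ => ξ * Dl ρ) (-(Dl T')) univ 1 K := by
  have hnb := H.nat_b R.nat D.bρ
  have hT : Nat Q A T := D.natT
  have hm : ∀ ξ s : ℝ, ξ • b - s • T ∈ cn Q A := fun ξ s =>
    ((hnb.smul ξ).sub (hT.smul s)).mem
  refine ⟨by norm_num, H.prf.K0, fun p hp q hq => ?_, fun ξ _ s _ _ => ?_, fun ξ _ => ?_,
    fun ξ _ => ?_⟩
  · rw [dist_eq_norm]; exact H.prf.lip p hp q hq
  · rw [X_pt0]; exact hm ξ s
  · rw [X_pt0]
    have h1 := H.dmx _ (hm ξ 1) _ (R.qd _ D.qd ξ 1 zero_le_one) fun i hi => by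
      simp only [Pi.add_apply, Pi.smul_apply, Pi.neg_apply, Pi.sub_apply, smul_eq_mul]
      rw [D.bρ i hi, D.TT i hi]
      linarith
    rw [map_add, map_smul, map_smul, map_neg, smul_eq_mul, smul_eq_mul] at h1
    linarith
  · rw [X_pt0, zero_smul, sub_zero]
    exact (H.lam_b R.nat (hnb.smul ξ).mem fun i hi => by
      rw [Pi.smul_apply, smul_eq_mul, D.bρ i hi]).ge

theorem Stage.stepU (H : Stage Q P ν own K r0 ρ Dl Qd Z Tie kz o τ A Dr lam lo)
    (R : RecD Q A ρ Qd Tie kz o) {T T' b : Fin m → ℝ} {J : Finset (Fin m)}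
    (D : RungD Q A Dr Z Tie kz Qd ρ T T' b J) :
    StepU (cn Q A) lam 0 T b 0 (0, 1) (1, 0) (fun ξ => ξ * Dl ρ) (-(Dl T')) univ 1 K
      (ind1 J) := by
  have hnb := H.nat_b R.nat D.bρ
  have hT : Nat Q A T := D.natT
  refine { toRay := H.ray R D, ray := fun i => ?_, u0 := ind1_nonneg J, slot := fun i hi => ?_
           mono := H.prf.mono, sup := H.prf.sup, legu := ⟨1, one_pos, ?_⟩ }
  · rw [Tn_e]; exact D.T0 i
  · rw [Tn_e]
    refine D.TJ i ?_
    by_contra h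
    exact hi (by unfold ind1; rw [if_neg h])
  · intro ξ _ s _ _ h hh _
    rw [X_pt0]
    exact cn_nat_add ((hnb.smul ξ).sub (hT.smul s)) (ind1_mem D.head) hh

/-- tangents at a point of the plane -/
theorem Stage.at_pt (H : Stage Q P ν own K r0 ρ Dl Qd Z Tie kz o τ A Dr lam lo)
    {y : Fin m → ℝ} (hy : Nat Q A y) {k : ℕ → ℝ} (kpos : ∀ l, 0 < k l)
    (k0 : Tendsto k atTop (𝓝 0)) :
    ∃ φ : ℕ → ℕ, StrictMono φ ∧ ∃ lam' lo' : (Fin m → ℝ) → ℝ,
      Ex926.IsTan (cn Q A) (cn Q A) lam (fun _ => y) (fun l => k (φ l)) lam' ∧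
      Ex926.IsTan (cn Q A) (cn Q A) lo (fun _ => y) (fun l => k (φ l)) lo' ∧
      ∃ (x' : ℕ → Fin m → ℝ) (h' : ℕ → ℝ), JT Q A P ν own r0 x' h' lam' lo' ∧
        (∀ l, ∀ i ∈ Tie, y i = o i * y kz → x' l i - r0 i = o i * (x' l kz - r0 kz)) ∧
        (∀ l, ∀ i ∈ Tie, y i ≤ o i * y kz → x' l i - r0 i ≤ o i * (x' l kz - r0 kz)) ∧
        ∀ i ∈ Tie, y i < o i * y kz → ∀ R : ℝ, ∀ᶠ l in atTop,
          x' l i - r0 i + R * h' l ≤ o i * (x' l kz - r0 kz) := by
  obtain ⟨φ, hφ, lam', lo', H1, H2⟩ := exists_joint H.prf cn_closed cn_zero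
    (fun C => ⟨1, one_pos, fun h hh _ c hc _ => cn_nat_add hy hc hh.le⟩) kpos k0
  obtain ⟨x, h, hJ, hxt, -⟩ := H.jt
  obtain ⟨ψ, -, hJ'⟩ := hJ.comp (fun w hw => hw) hy.mem hy (fun w hw hn => absurd hw hn)
    (fun l => kpos _) (k0.comp hφ.tendsto_atTop) H1 H2
  refine ⟨φ, hφ, lam', lo', H1, H2, _, _, hJ', fun l i hi hyi => ?_, fun l i hi hyi => ?_,
    fun i hi hyi R => ?_⟩
  · have h1 := hxt (ψ l) i hi
    simp only [Pi.add_apply, Pi.smul_apply, smul_eq_mul]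
    rw [hyi]
    linear_combination h1
  · have h1 := hxt (ψ l) i hi
    have h2 := mul_le_mul_of_nonneg_left hyi (hJ.pos (ψ l)).le
    simp only [Pi.add_apply, Pi.smul_apply, smul_eq_mul]
    nlinarith
  · have hs : 0 < o i * y kz - y i := sub_pos.2 hyi
    have h3 : Tendsto (fun l => R * k (φ l)) atTop (𝓝 0) := by
      have := (k0.comp hφ.tendsto_atTop).const_mul R
      rwa [mul_zero] at this
    filter_upwards [h3.eventually_lt_const hs] with l hl
    have h1 := hxt (ψ l) i hi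
    have h2 := mul_le_mul_of_nonneg_left hl.le (hJ.pos (ψ l)).le
    simp only [Pi.add_apply, Pi.smul_apply, smul_eq_mul]
    nlinarith

/-- the F-lemma as an a.e. statement -/
theorem Stage.flem_ae (H : Stage Q P ν own K r0 ρ Dl Qd Z Tie kz o τ A Dr lam lo)
    (R : RecD Q A ρ Qd Tie kz o) {T T' b : Fin m → ℝ} {J : Finset (Fin m)}
    (D : RungD Q A Dr Z Tie kz Qd ρ T T' b J) {g : ℝ} {V : ((Fin m → ℝ) → ℝ) → Prop}
    (F : FLem Q A P ν own r0 Dl Tie kz o T T' b lam lo V g) (Vz : ℝ × ℝ → Prop)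
    (hV : ∀ z, Vz z → ∃ k : ℕ → ℝ, (∀ l, 0 < k l) ∧ Tendsto k atTop (𝓝 0) ∧
      ∀ φ : ℕ → ℕ, StrictMono φ → ∀ lam' : (Fin m → ℝ) → ℝ,
        Ex926.IsTan (cn Q A) (cn Q A) lam (fun _ => X 0 T b z) (fun l => k (φ l)) lam' →
        V lam') :
    ∀ᵐ z : ℝ × ℝ, z ∈ {z : ℝ × ℝ | z.1 < 0} → ∃ D : ℝ × ℝ →L[ℝ] ℝ,
      HasFDerivAt (fun z => lam (X 0 T b z)) D z ∧ (Vz z → g ≤ -D (1, 0) - -(Dl T')) := by
  have hnb := H.nat_b R.nat D.bρ
  have hT : Nat Q A T := D.natT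
  filter_upwards [cn_outS H.prf R.full D.T0 Nat.zero hT hnb] with z hz hz1
  obtain ⟨E, hE, hout⟩ := hz
  refine ⟨E, hE, fun hv => ?_⟩
  have hy : Nat Q A (X 0 T b z) := by
    rw [X_zero]; exact (hT.smul _).add (hnb.smul _)
  obtain ⟨k, kpos, k0, hk⟩ := hV z hv
  obtain ⟨φ, hφ, lam', lo', H1, H2, x', h', hJ, hJt, hJl, hJs⟩ := H.at_pt hy kpos k0
  have k0' := k0.comp hφ.tendsto_atTop
  obtain ⟨f, rt, hO⟩ := hout _ lam' (Dg219.bup_of_tan (fun l => kpos _) k0' H1)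
  have hz : b kz = ρ kz := D.bρ kz H.zD
  have := F z hz1 E hE (fun l => k (φ l)) lam' lo' (fun l => kpos _) k0' H1 H2 x' h' hJ
    ⟨fun l i hi hT' => hJt l i hi (by
      rw [X_zero]
      simp only [Pi.add_apply, Pi.smul_apply, smul_eq_mul]
      rw [hT', D.bρ i (H.TD i hi), hz, R.tie i hi]; ring), fun l i hi hT' => hJl l i hi (by
      have h3 := mul_le_mul_of_nonneg_left hT' (neg_nonneg.2 (le_of_lt hz1))
      rw [X_zero]
      simp only [Pi.add_apply, Pi.smul_apply, smul_eq_mul]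
      rw [D.bρ i (H.TD i hi), hz, R.tie i hi]
      nlinarith), fun i hi hT' => hJs i hi (by
      have h3 := mul_lt_mul_of_pos_left hT' (neg_pos.2 hz1)
      rw [X_zero]
      simp only [Pi.add_apply, Pi.smul_apply, smul_eq_mul]
      rw [D.bρ i (H.TD i hi), hz, R.tie i hi]
      nlinarith)⟩ f rt hO
    (hk φ hφ lam' H1)
  linarith


/-- **THE LAST RUNG** -/
theorem Stage.dead (H : Stage Q P ν own K r0 ρ Dl Qd Z Tie kz o τ A Dr lam lo)
    (R : RecD Q A ρ Qd Tie kz o) {T T' b : Fin m → ℝ} {J : Finset (Fin m)}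
    (D : RungD Q A Dr Z Tie kz Qd ρ T T' b J) {g : ℝ} (hg : 0 < g)
    (F : FLem Q A P ν own r0 Dl Tie kz o T T' b lam lo (fun _ => True) g) : False := by
  have hF := H.flem_ae R D F (fun _ => True) (fun z _ =>
    ⟨fun l => 1 / ((l : ℝ) + 1), fun l => by positivity, tendsto_one_div_add_atTop_nhds_zero_nat,
      fun _ _ _ _ => trivial⟩)
  have hd := (H.ray R D).dead hg one_pos (O := {z : ℝ × ℝ | z.1 < 0}) (fun ξ _ s hs _ => by
    show (pt 0 (0, 1) (1, 0) ξ s).1 < 0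
    simp [pt]; exact hs) (by
    filter_upwards [hF] with z hz hz1
    obtain ⟨E, h1, h2⟩ := hz hz1
    exact ⟨E, h1, h2 trivial⟩)
  obtain ⟨ξ, hξ⟩ := hd.exists
  exact hξ (mem_univ _)

/-- **THE FIRST STAGE** -/
theorem stage_init (hP : Prf P ν own K) (R : RecD Q A ρ Qd Tie kz o)
    (hr0 : ∀ w, A w → r0 (Q.hd w) = Q.rhs w r0 + Q.cst w)
    (hgap : ∀ w, ¬ A w → r0 (Q.hd w) < Q.rhs w r0 + Q.cst w)
    (hleg : ∀ C : ℝ, ∃ h0 : ℝ, 0 < h0 ∧ ∀ h : ℝ, 0 < h → h < h0 → ∀ c ∈ cn Q A, ‖c‖ ≤ C →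
      r0 + h • c ∈ P)
    (hrec : ∀ σ : ℝ, ∀ᶠ h in 𝓝[>] (0:ℝ), ν (r0 + h • σ • ρ) = ν r0 + h * (σ * Dl ρ))
    (hdm : ∀ d ∈ Qd, ∀ᶠ h in 𝓝[>] (0:ℝ), r0 + h • d ∈ P ∧ ν (r0 + h • d) ≤ ν r0 + h * Dl d)
    (hown : ∀ c ∈ cn Q A, (∀ i ∈ Tie, c i ≤ o i * c kz) →
      ∀ᶠ h in 𝓝[>] (0:ℝ), own (r0 + h • c) = own r0 - h * (τ * c kz))
    (hownu : ∀ c ∈ cn Q A, ∀ᶠ h in 𝓝[>] (0:ℝ), own (r0 + h • c) ≤ own r0 - h * (τ * c kz)) :
    ∃ lam lo : (Fin m → ℝ) → ℝ, Stage Q P ν own K r0 ρ Dl Qd Z Tie kz o τ A ∅ lam lo := by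
  set k : ℕ → ℝ := fun l => 1 / ((l : ℝ) + 1) with hk
  have kpos : ∀ l, 0 < k l := fun l => by positivity
  have k0 : Tendsto k atTop (𝓝 0) := tendsto_one_div_add_atTop_nhds_zero_nat
  obtain ⟨φ, hφ, lam, lo, H1, H2⟩ := exists_joint hP (cn_closed (Q := Q) (A := A)) cn_zero hleg
    kpos k0
  set q : ℕ → ℝ := fun l => k (φ l) with hq
  have qpos : ∀ l, 0 < q l := fun l => kpos _
  have q0 : Tendsto q atTop (𝓝 0) := k0.comp hφ.tendsto_atTop
  have q1 : Tendsto q atTop (𝓝[>] 0) :=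
    tendsto_nhdsWithin_iff.2 ⟨q0, Eventually.of_forall fun l => qpos l⟩
  have hBU := Dg219.bup_of_tan qpos q0 H1
  have hBO := Dg219.bup_of_tan qpos q0 H2
  have hρ : Nat Q A ρ := R.nat
  refine ⟨lam, lo, ⟨⟨fun _ => r0, q, ⟨qpos, q0, fun _ w hw => hr0 w hw, fun w hw R => ?_,
    tendsto_const_nhds, H1, H2⟩, fun l i hi => by ring, fun _ => 0, fun l i hi => by ring,
    tendsto_const_nhds.congr fun l => by simp⟩, hP.tan qpos H1 H2,
    fun w _ => ⟨notMem_empty _, fun s hs => absurd hs (notMem_empty s)⟩,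
    fun i _ => notMem_empty i, fun i _ => notMem_empty i, notMem_empty _, ?_, ?_, ?_, ?_, ?_⟩⟩
  · have h1 : Tendsto (fun l => r0 (Q.hd w) + R * q l) atTop (𝓝 (r0 (Q.hd w) + R * 0)) :=
      (q0.const_mul R).const_add _
    rw [mul_zero, add_zero] at h1
    exact (h1.eventually_lt_const (hgap w hw)).mono fun l hl => hl.le
  · intro c hc c' hc' hcc _
    have : c = c' := funext fun i => hcc i (notMem_empty i)
    rw [this]
  · intro σ
    refine tendsto_nhds_unique (hBU.lim _ (hρ.smul σ).mem) (tendsto_const_nhds.congr' ?_)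
    filter_upwards [q1.eventually (hrec σ)] with l hl
    rw [hl]
    have := (qpos l).ne'
    field_simp
    ring
  · intro c hc d hd hdc
    refine le_of_tendsto (hBU.lim c hc) ?_
    filter_upwards [hBU.mem c hc, q1.eventually (hdm d hd)] with l m1 hl
    have h1 := hP.mono _ hl.1 _ m1 (Qg926.add_smul_mono (qpos l).le
      (fun i => hdc i (notMem_empty i)))
    rw [div_le_iff₀ (qpos l)]
    linarith [hl.2]
  · intro c hc hcT
    refine tendsto_nhds_unique (hBO.lim c hc) (tendsto_const_nhds.congr' ?_)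
    filter_upwards [q1.eventually (hown c hc hcT)] with l hl
    rw [hl]
    have := (qpos l).ne'
    field_simp
    ring
  · intro c hc
    refine le_of_tendsto (hBO.lim c hc) ?_
    filter_upwards [q1.eventually (hownu c hc)] with l hl
    rw [div_le_iff₀ (qpos l)]
    linarith

end Crest.Agent.R136.K2S774
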