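import Crest.Agent.R136.LdF7_511
import Crest.Agent.R136.LadA_115
import Crest.Agent.R136.K2C_146
import Crest.Agent.R136.K2B_146
import Crest.Agent.R136.Fe2_355
import Crest.Agent.R136.LdF9_511
import Crest.Agent.R136.LadB_115

-- ▼ part R136/LdF6_146
section

/-!
# R136, case F, rung `s = 1` (helper146): numbers

* `bq` : boxes `(z, F_a, P, X_a, X_b, N)`, `memL` : legal directions of `AF {3}`
* `PlF` : the plane of the rung; `lossN`, `lossX`, `lossF` : losses by groups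
* **`claimN`** : `N` is full up to a constant, given `z, F_a`
* **`tot_F2`** : the total
-/

set_option autoImplicit false
set_option linter.unusedVariables false

open Finset Filter Topology

namespace Crest.Agent.R136.LdF6146

open Crest.Agent.R138.Ex926 (Base U IsTan)
open Crest.Agent.R136.Net191
open Crest.Agent.R136.NetQ186
open Crest.Agent.R136.Gf356
open Crest.Agent.R136.Wq638
open Crest.Agent.R136.GeoQ186 (scl)
open Crest.Agent.R136.NatT550
open Crest.Agent.R136.NatR550 (nL)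
open Crest.Agent.R136.Top484
open Crest.Agent.R136.LdF511
open Crest.Agent.R136.LdF3511
open Crest.Agent.R136.LdF4511
open Crest.Agent.R136.LdF5511
open Crest.Agent.R136.LdF7511
open Crest.Agent.R136.Dl667
open Crest.Agent.R136.Tb628 (oS oS_eq)
open Crest.Agent.R136.K2S774 (cn Prf JT Stage RecD RungD BaseOk ind1 A2)
open Crest.Agent.R136.K2A146 (FLemA)
open Crest.Agent.R136.AwJ774 (mA mem_mA coneM_mA)
open Crest.Agent.R136.Aw413 (coneM AeW)
open Crest.Agent.R136.Dg219 (Walls mw gC dhC nC OutS gC_zero gC_eq gset mem_gset)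
open Crest.Agent.R136.Rc146 (OutA)
open Crest.Agent.R136.Dg262 (X)

/-! ### boxes -/

/-- box `(z, F_a, P, X_a, X_b, N)` -/
def bq (z fa P xa xb n : ℝ) : Fin 11 → ℝ := ![z, 0, 0, 0, fa, 0, 0, P, xa, xb, n]

theorem bq_app (z fa P xa xb n : ℝ) (i : Fin 11) : bq z fa P xa xb n i =
    if i = 0 then z else if i = 4 then fa else if i = 7 then P else if i = 8 then xa else
    if i = 9 then xb else if i = 10 then n else 0 := by
  fin_cases i <;> rfl


theorem mon1 : ∀ e, e ∉ monQ.mon 1 := by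
  intro e he
  have : monQ.mon 1 = ∅ := by decide
  rw [this] at he
  exact absurd he (Finset.notMem_empty _)

/-- **legal directions** after `F_b` is dropped -/
theorem memL {c : Fin 11 → ℝ} (h0 : ∀ k, 0 ≤ c k) (h6 : c 6 ≤ c 2 + c 5) (h7 : c 7 ≤ c 4 + c 5)
    (h8 : c 8 ≤ c 0 + c 5) (h9 : c 9 ≤ c 0 + c 6) (h9' : c 9 ≤ c 2 + c 8)
    (h10 : c 10 ≤ c 0 + c 7) (h10' : c 10 ≤ c 4 + c 8) : c ∈ cn (mw monQ) (AF {3}) := by
  set S : ℝ := c 4 + c 7 + c 10 with hS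
  have hS0 : 0 ≤ S := by have := h0 4; have := h0 7; have := h0 10; linarith
  set c' : Fin 11 → ℝ := fun k => if k = 1 ∨ k = 3 then S else c k with hc'
  have e : ∀ k : Fin 11, k ≠ 1 → k ≠ 3 → c' k = c k := fun k h1 h3 => by
    simp only [hc', h1, h3, or_self, if_false]
  have e1 : c' 1 = S := by simp [hc']
  have e3 : c' 3 = S := by simp [hc']
  have hl : Legal monQ c' := by
    refine legalQ_iff.2 ⟨fun k => ?_, ?_, ?_, ?_, ?_, ?_, ?_, ?_, ?_, ?_, ?_, ?_⟩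
    · simp only [hc']
      split_ifs
      · exact hS0
      · exact h0 k
    all_goals
      simp only [e 0 (by decide) (by decide), e 2 (by decide) (by decide),
        e 4 (by decide) (by decide), e 5 (by decide) (by decide), e 6 (by decide) (by decide),
        e 7 (by decide) (by decide), e 8 (by decide) (by decide), e 9 (by decide) (by decide),
        e 10 (by decide) (by decide), e1, e3]
      linarith [h0 0, h0 1, h0 2, h0 3, h0 4, h0 5, h0 6, h0 7, h0 8, h0 9, h0 10]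
  intro w hw
  obtain ⟨w1, w2, w3⟩ := hw
  have h := hl.wall w.1 w.2.1 w.2.2
  have hd3 : w.1 ≠ 3 := fun h => w2 (by show w.1 ∈ _; rw [h]; simp)
  have hd1 : w.1 ≠ 1 := by
    obtain ⟨k, e, he⟩ := w
    intro h'
    have h'' : k = 1 := h'
    subst h''
    exact mon1 _ he
  have hc1 : w.2.1 1 = 0 := w1
  have hc3 : w.2.1 3 = 0 := w3 3 (by simp)
  rw [e _ hd1 hd3] at h
  refine h.trans (le_of_eq (Finset.sum_congr rfl fun s _ => ?_))
  by_cases s1 : s = 1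
  · subst s1; simp [mw, hc1]
  by_cases s3 : s = 3
  · subst s3; simp [mw, hc3]
  rw [e s s1 s3]; rfl

theorem bq_mem {z fa P xa xb n : ℝ} (hz : 0 ≤ z) (hf : 0 ≤ fa) (hP : 0 ≤ P) (hxa : 0 ≤ xa)
    (hxb : 0 ≤ xb) (hn : 0 ≤ n) (h7 : P ≤ fa) (h8 : xa ≤ z) (h9 : xb ≤ z) (h9' : xb ≤ xa)
    (h10 : n ≤ z + P) (h10' : n ≤ fa + xa) : bq z fa P xa xb n ∈ cn (mw monQ) (AF {3}) := by
  refine memL (fun k => ?_) ?_ ?_ ?_ ?_ ?_ ?_ ?_
  · rw [bq_app]; split_ifs <;> first | assumption | exact le_rfl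
  all_goals
    simp [bq]
    try linarith

theorem bq_le {z fa P xa xb n z' fa' P' xa' xb' n' : ℝ} (h1 : z ≤ z') (h2 : fa ≤ fa')
    (h3 : P ≤ P') (h4 : xa ≤ xa') (h5 : xb ≤ xb') (h6 : n ≤ n') :
    bq z fa P xa xb n ≤ bq z' fa' P' xa' xb' n' := by
  intro i
  rw [bq_app, bq_app]
  split_ifs <;> first | assumption | exact le_rfl

theorem sum_bq (z fa P xa xb n z' fa' P' xa' xb' n' : ℝ) :
    ∑ i, (bq z' fa' P' xa' xb' n' i - bq z fa P xa xb n i) =
      (z' - z) + (fa' - fa) + (P' - P) + (xa' - xa) + (xb' - xb) + (n' - n) := by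
  simp [Fin.sum_univ_succ, bq]
  ring

/-! ### the plane of the rung -/

/-- plane of the rung `s = 1`: `F_a, P` have slope `0`, `N ∦ X_a` -/
structure PlF (a b : Fin 11 → ℝ) (κ : ℝ) : Prop extends PlE a b κ where
  a4 : a 4 = 0
  a7 : a 7 = 0
  a10 : a 10 = 1
  b10 : b 10 ≠ b 8

theorem plF_TF {θ : Fin 3 → ℝ} (hκ : 0 < θ 1 - θ 2) (h1 : 0 < θ 1) (h01 : θ 0 ≠ θ 1)
    {x b : Fin 11 → ℝ} (hx : 0 < x 3) (hb : ∀ i, i ∉ ({3} : Finset (Fin 11)) → b i = rhoF θ i) :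
    PlF (TF {3} (θ 1 - θ 2) 1 x) b (θ 1 - θ 2) where
  toPlE := plE_TF hκ h1 (by decide) (TF_ii hκ hx).1 hb
  a4 := by rw [← TF_off (by decide), TpF_val]; simp
  a7 := by rw [← TF_off (by decide), TpF_val]; simp
  a10 := by rw [← TF_off (by decide), TpF_val]; simp
  b10 := by
    rw [hb 10 (by decide), hb 8 (by decide)]
    simp only [rhoF, nL, Matrix.cons_val]
    intro h
    apply h01
    linarith

namespace PlF

variable {a b : Fin 11 → ℝ} {κ : ℝ} (h : PlF a b κ)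

include h

theorem n10 : a 10 ≠ 0 := by rw [h.a10]; exact one_ne_zero
theorem g10 : gC a b 10 ≠ 0 := fun e => h.n10 (gC_zero.1 e)
theorem g4 : gC a b 4 = 0 := gC_zero.2 h.a4
theorem g7 : gC a b 7 = 0 := gC_zero.2 h.a7
theorem g810 : gC a b 8 ≠ gC a b 10 := by
  rw [Ne, gC_eq h.n8 h.n10, h.a8, h.a10, div_one, div_one]
  exact fun e => h.b10 e.symm

end PlF

/-! ### losses -/

section loss

variable {a b : Fin 11 → ℝ} {κ : ℝ} {lam : (Fin 11 → ℝ) → ℝ} {A : ℝ × ℝ}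
  {φ : ℕ → (Fin 11 → ℝ) → ℝ} {r : ℕ → ℝ}

/-- loss of `N` -/
theorem lossN (PF : PlF a b κ)
    (H : OutS (gC a b) (cn (mw monQ) (AF {3})) (dhC a b) (nC a b) lam A φ r)
    {z fa P xa xb n n' : ℝ} (h1 : bq z fa P xa xb n ∈ cn (mw monQ) (AF {3}))
    (h2 : bq z fa P xa xb n' ∈ cn (mw monQ) (AF {3})) :
    lam (bq z fa P xa xb n) - lam (bq z fa P xa xb n') =
      φ (gC a b 10) (bq z 0 0 0 xb n) - φ (gC a b 10) (bq z 0 0 0 xb n') := by
  have key : ∀ m : ℝ, φ (gC a b 10) (bq z fa P xa xb m) = φ (gC a b 10) (bq z 0 0 0 xb m) := by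
    intro m
    refine H.loc _ _ _ fun i hi => ?_
    by_cases e4 : i = 4
    · subst e4; exact absurd (hi.symm.trans PF.g4) PF.g10
    by_cases e7 : i = 7
    · subst e7; exact absurd (hi.symm.trans PF.g7) PF.g10
    by_cases e8 : i = 8
    · subst e8; exact absurd hi PF.g810
    rw [bq_app, bq_app]
    simp only [e4, e7, e8, if_false]
  rw [one_grp H h1 h2 (gC a b 10) fun i hi => ?_, key, key]
  have e10 : i ≠ 10 := fun e => hi (by rw [e])
  rw [bq_app, bq_app]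
  simp only [e10, if_false]

/-- loss of `X_a` -/
theorem lossX (PF : PlF a b κ)
    (H : OutS (gC a b) (cn (mw monQ) (AF {3})) (dhC a b) (nC a b) lam A φ r)
    {z fa P xa xa' xb n : ℝ} (h1 : bq z fa P xa xb n ∈ cn (mw monQ) (AF {3}))
    (h2 : bq z fa P xa' xb n ∈ cn (mw monQ) (AF {3})) :
    lam (bq z fa P xa xb n) - lam (bq z fa P xa' xb n) =
      φ (gC a b 8) (Pi.single 8 xa) - φ (gC a b 8) (Pi.single 8 xa') := by
  have key : ∀ m : ℝ, φ (gC a b 8) (bq z fa P m xb n) = φ (gC a b 8) (Pi.single 8 m) := by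
    intro m
    refine H.loc _ _ _ fun i hi => ?_
    by_cases e0 : i = 0
    · subst e0; exact absurd hi PF.g08
    by_cases e4 : i = 4
    · subst e4; exact absurd (hi.symm.trans PF.g4) PF.g8
    by_cases e7 : i = 7
    · subst e7; exact absurd (hi.symm.trans PF.g7) PF.g8
    by_cases e9 : i = 9
    · subst e9; exact absurd hi.symm PF.g89
    by_cases e10 : i = 10
    · subst e10; exact absurd hi.symm PF.g810
    rw [bq_app, Pi.single_apply]
    simp only [e0, e4, e7, e9, e10, if_false]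
  rw [one_grp H h1 h2 (gC a b 8) fun i hi => ?_, key, key]
  have e8 : i ≠ 8 := fun e => hi (by rw [e])
  rw [bq_app, bq_app]
  simp only [e8, if_false]

/-- loss of `F_a, P` -/
theorem lossF (PF : PlF a b κ)
    (H : OutS (gC a b) (cn (mw monQ) (AF {3})) (dhC a b) (nC a b) lam A φ r)
    {z fa P xa xb n fa' P' : ℝ} (h1 : bq z fa P xa xb n ∈ cn (mw monQ) (AF {3}))
    (h2 : bq z fa' P' xa xb n ∈ cn (mw monQ) (AF {3}))
    (h3 : bq 0 fa P 0 0 0 ∈ cn (mw monQ) (AF {3}))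
    (h4 : bq 0 fa' P' 0 0 0 ∈ cn (mw monQ) (AF {3})) :
    lam (bq z fa P xa xb n) - lam (bq z fa' P' xa xb n) =
      lam (bq 0 fa P 0 0 0) - lam (bq 0 fa' P' 0 0 0) := by
  have key : ∀ f p : ℝ, φ 0 (bq z f p xa xb n) = φ 0 (bq 0 f p 0 0 0) := by
    intro f p
    refine H.loc _ _ _ fun i hi => ?_
    by_cases e0 : i = 0
    · subst e0; exact absurd hi PF.g0
    by_cases e8 : i = 8
    · subst e8; exact absurd hi PF.g8
    by_cases e9 : i = 9
    · subst e9; exact absurd hi PF.g9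
    by_cases e10 : i = 10
    · subst e10; exact absurd hi PF.g10
    rw [bq_app, bq_app]
    simp only [e0, e8, e9, e10, if_false]
  have d : ∀ z' xa' xb' n' : ℝ, ∀ i, gC a b i ≠ 0 →
      bq z' fa P xa' xb' n' i = bq z' fa' P' xa' xb' n' i := by
    intro z' xa' xb' n' i hi
    have e4 : i ≠ 4 := fun e => hi (by rw [e]; exact PF.g4)
    have e7 : i ≠ 7 := fun e => hi (by rw [e]; exact PF.g7)
    rw [bq_app, bq_app]
    simp only [e4, e7, if_false]
  rw [one_grp H h1 h2 0 (d _ _ _ _), one_grp H h3 h4 0 (d _ _ _ _), key, key]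

/-- **`N` is full up to a constant**, given `z, F_a` -/
theorem claimN (PF : PlF a b κ)
    (H : OutS (gC a b) (cn (mw monQ) (AF {3})) (dhC a b) (nC a b) lam A φ r)
    {lo : (Fin 11 → ℝ) → ℝ} {K : ℝ} (hP : Prf (cn (mw monQ) (AF {3})) lam lo K) (h0 : lam 0 = 0)
    (hX8 : ∀ x : ℝ, 0 ≤ x → φ (gC a b 8) (Pi.single 8 x) ≤ -x)
    (hα : ∀ x j : ℝ, 0 ≤ j → j ≤ x → 0 < x →
      lam (bq x x 0 x 0 x) ≤ lam (bq x x 0 0 0 x) - x →
      lam (bq x x 0 (x - j) 0 x) ≤ lam (bq x x 0 0 0 x) - (x - j) →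
      lam (bq x j 0 x 0 x) < lam (bq x 0 0 x 0 x) →
      lam (bq x 0 0 x 0 x) ≤ lam (bq x 0 0 0 0 0) - (2 * x - j))
    (hβ : ∀ x : ℝ, 0 < x → ∀ N : ℕ, 0 < N → ∃ j ≤ N,
      lam (bq x x 0 0 0 0) - lam (bq x x (x * j / N) 0 0 (x * j / N)) + (x - x * (j + 1) / N) ≤
        lam (bq x x 0 0 0 0) - lam (bq x x 0 0 0 x))
    (vis : lam (ind1 {4, 7}) < 0) :
    ∃ j : ℝ, 1 ≤ j ∧ ∀ x : ℝ, j ≤ x →
      lam (bq x x 0 0 0 x) ≤ lam (bq x x 0 0 0 0) - (x - j) := by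
  have hz8 : φ (gC a b 8) (Pi.single 8 0) = 0 := H.zero _ _ fun i _ => by simp
  have b0 : bq 0 0 0 0 0 0 = 0 := by
    funext i; rw [bq_app]; simp
  have m0 : (0 : Fin 11 → ℝ) ∈ cn (mw monQ) (AF {3}) := by
    rw [← b0]
    exact bq_mem le_rfl le_rfl le_rfl le_rfl le_rfl le_rfl le_rfl le_rfl le_rfl le_rfl
      (by simp) (by simp)
  by_cases hF : ∃ j : ℝ, 0 < j ∧ lam (bq 0 j 0 0 0 0) < 0
  · -- `F_a` is visible
    obtain ⟨j, hj, hjl⟩ := hF
    refine ⟨j + 1, by linarith, fun x hx => ?_⟩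
    have hx0 : 0 < x := by linarith
    have hjx : j ≤ x := by linarith
    have m1 : ∀ f xa n : ℝ, 0 ≤ f → 0 ≤ xa → xa ≤ x → 0 ≤ n → n ≤ x → n ≤ f + xa →
        bq x f 0 xa 0 n ∈ cn (mw monQ) (AF {3}) := fun f xa n hf h1 h2 h3 h4 h5 =>
      bq_mem hx0.le hf le_rfl h1 le_rfl h3 hf h2 hx0.le h1 (by linarith) h5
    have mf : ∀ f : ℝ, 0 ≤ f → bq 0 f 0 0 0 0 ∈ cn (mw monQ) (AF {3}) := fun f hf =>
      bq_mem le_rfl hf le_rfl le_rfl le_rfl le_rfl hf le_rfl le_rfl le_rfl (by simp) (by linarith)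
    have k1 := lossX PF H (m1 x x x hx0.le hx0.le le_rfl hx0.le le_rfl (by linarith))
      (m1 x 0 x hx0.le le_rfl hx0.le hx0.le le_rfl (by linarith))
    have k2 := lossX PF H (m1 x (x - j) x hx0.le (by linarith) (by linarith) hx0.le le_rfl
      (by linarith)) (m1 x 0 x hx0.le le_rfl hx0.le hx0.le le_rfl (by linarith))
    have k3 := lossF PF H (m1 j x x hj.le hx0.le le_rfl hx0.le le_rfl (by linarith))
      (m1 0 x x le_rfl hx0.le le_rfl hx0.le le_rfl (by linarith)) (mf j hj.le) (mf 0 le_rfl)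
    have k4 := hX8 x hx0.le
    have k5 := hX8 (x - j) (by linarith)
    rw [hz8] at k1 k2
    rw [b0, h0] at k3
    have k6 := hα x j hj.le hjx hx0 (by linarith) (by linarith) (by linarith)
    -- `X_a` loses at most `x`
    have k7 := lossX PF H (m1 0 x 0 le_rfl hx0.le le_rfl le_rfl hx0.le (by linarith))
      (m1 0 0 0 le_rfl le_rfl hx0.le le_rfl hx0.le (by simp))
    have k8 := hP.sharp _ (m1 0 0 0 le_rfl le_rfl hx0.le le_rfl hx0.le (by simp)) _
      (m1 0 x 0 le_rfl hx0.le le_rfl le_rfl hx0.le (by linarith))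
      (bq_le le_rfl le_rfl le_rfl hx0.le le_rfl le_rfl)
    rw [sum_bq] at k8
    have k9 := lossN PF H (m1 0 x x le_rfl hx0.le le_rfl hx0.le le_rfl (by linarith))
      (m1 0 x 0 le_rfl hx0.le le_rfl le_rfl hx0.le (by linarith))
    have k10 := lossN PF H (m1 x 0 x hx0.le le_rfl hx0.le hx0.le le_rfl (by linarith))
      (m1 x 0 0 hx0.le le_rfl hx0.le le_rfl hx0.le (by linarith))
    linarith
  · -- `F_a` is free, `P` is visible
    push Not at hF
    have mf : ∀ f p : ℝ, 0 ≤ p → p ≤ f → bq 0 f p 0 0 0 ∈ cn (mw monQ) (AF {3}) := fun f p hp hf =>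
      bq_mem le_rfl (hp.trans hf) hp le_rfl le_rfl le_rfl hf le_rfl le_rfl le_rfl
        (by linarith) (by linarith)
    have f0 : ∀ f : ℝ, 0 ≤ f → lam (bq 0 f 0 0 0 0) = 0 := by
      intro f hf
      refine le_antisymm ?_ ?_
      · have := hP.mono _ m0 _ (mf f 0 le_rfl hf) (by
          rw [← b0]; exact bq_le le_rfl hf le_rfl le_rfl le_rfl le_rfl)
        rwa [h0] at this
      · rcases hf.eq_or_lt with rfl | hf'
        · rw [b0, h0]
        · exact hF f hf'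
    set δ : ℝ := -lam (bq 0 1 1 0 0 0) with hδ
    have hvis : ind1 {4, 7} = bq 0 1 1 0 0 0 := by
      funext i
      rw [bq_app]
      fin_cases i <;> simp [ind1]
    have hδ0 : 0 < δ := by rw [hδ, ← hvis]; linarith
    refine ⟨2, by norm_num, fun x hx => ?_⟩
    have hx0 : 0 < x := by linarith
    obtain ⟨N, hN⟩ := exists_nat_gt (max (x / δ) x)
    have hNr : (0:ℝ) < N := lt_of_lt_of_le hx0 ((le_max_right _ _).trans hN.le)
    have hN0 : 0 < N := by exact_mod_cast hNr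
    obtain ⟨j, hj, hk⟩ := hβ x hx0 N hN0
    set t : ℝ := x * j / N with ht
    have ht0 : 0 ≤ t := by positivity
    have htx : t ≤ x := by
      rw [ht, div_le_iff₀ hNr]
      have : (j:ℝ) ≤ N := by exact_mod_cast hj
      exact mul_le_mul_of_nonneg_left this hx0.le
    have e1 : x * ((j:ℝ) + 1) / N = t + x / N := by rw [ht]; field_simp
    have hxN : x / N < δ := by
      rw [div_lt_iff₀ hNr]
      have := (le_max_left (x / δ) x).trans_lt hN
      rw [div_lt_iff₀ hδ0] at this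
      linarith
    have hxN1 : x / N ≤ 1 := by
      rw [div_le_one hNr]; exact (le_max_right _ _).trans hN.le
    rw [e1] at hk
    have m1 : ∀ p n : ℝ, 0 ≤ p → p ≤ x → 0 ≤ n → n ≤ x →
        bq x x p 0 0 n ∈ cn (mw monQ) (AF {3}) := fun p n h1 h2 h3 h4 =>
      bq_mem hx0.le hx0.le h1 le_rfl le_rfl h3 h2 hx0.le hx0.le le_rfl (by linarith) (by linarith)
    -- loss of `N` from `t` to `x`
    have k1 := hP.sharp _ (m1 0 t le_rfl hx0.le ht0 htx) _ (m1 0 x le_rfl hx0.le hx0.le le_rfl)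
      (bq_le le_rfl le_rfl le_rfl le_rfl le_rfl htx)
    rw [sum_bq] at k1
    -- loss of `P`
    have k2 := lossF PF H (m1 t t ht0 htx ht0 htx) (m1 0 t le_rfl hx0.le ht0 htx)
      (mf x t ht0 htx) (mf x 0 le_rfl hx0.le)
    rw [f0 x hx0.le, sub_zero] at k2
    have k3 : lam (bq 0 x t 0 0 0) ≤ 0 := by
      have := hP.mono _ m0 _ (mf x t ht0 htx) (by
        rw [← b0]; exact bq_le le_rfl hx0.le ht0 le_rfl le_rfl le_rfl)
      rwa [h0] at this
    have k5 := hP.mono _ (m1 0 0 le_rfl hx0.le le_rfl hx0.le) _ (m1 0 t le_rfl hx0.le ht0 htx)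
      (bq_le le_rfl le_rfl le_rfl le_rfl le_rfl ht0)
    by_cases h1t : 1 ≤ t
    · have k4 := hP.mono _ (mf 1 1 zero_le_one le_rfl) _ (mf x t ht0 htx)
        (bq_le le_rfl (by linarith) h1t le_rfl le_rfl le_rfl)
      exfalso
      have : lam (bq 0 1 1 0 0 0) = -δ := by rw [hδ]; ring
      linarith
    · push Not at h1t
      linarith



end loss

end Crest.Agent.R136.LdF6146
end

-- ▼ part R136/LdFb_146

/-!
# R136, case F, rung `s = 1` (helper146): wiring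

* `SwI.tr`, **`ptV_ofI`** : the point at infinity of a point of a rung: homogeneous, same slopes and
  rates, asymptotic inequalities become exact
* **`F2_fl`** : the F-lemma of the rung `s = 1` (`F_a` or `P` visible), `θ 0 ≠ θ 1`, any D-max cone
-/

set_option autoImplicit false
set_option linter.unusedVariables false

open Finset Filter Topology

namespace Crest.Agent.R136.LdF6146

open Crest.Agent.R138.Ex926 (Base U IsTan)
open Crest.Agent.R136.Net191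
open Crest.Agent.R136.NetQ186
open Crest.Agent.R136.Gf356
open Crest.Agent.R136.Wq638
open Crest.Agent.R136.Ev356 (mv)
open Crest.Agent.R136.GeoQ186 (scl)
open Crest.Agent.R136.NatT550
open Crest.Agent.R136.NatR550 (nL)
open Crest.Agent.R136.Top484
open Crest.Agent.R136.LdF511
open Crest.Agent.R136.LdF3511
open Crest.Agent.R136.LdF4511
open Crest.Agent.R136.LdF5511
open Crest.Agent.R136.LdF7511
open Crest.Agent.R136.LdF9511
open Crest.Agent.R136.Dl667
open Crest.Agent.R136.LadA115 (cz)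
open Crest.Agent.R136.Tb628 (oS oS_eq)
open Crest.Agent.R136.K2S774 (cn Prf JT Stage RecD RungD BaseOk ind1 A2)
open Crest.Agent.R136.K2A146 (FLemA)
open Crest.Agent.R136.AwJ774 (mA mem_mA coneM_mA aew_of_jt)
open Crest.Agent.R136.Aw413 (coneM AeW)
open Crest.Agent.R136.Dg219 (Walls mw gC dhC nC OutS gC_zero gC_eq gset mem_gset)
open Crest.Agent.R136.Rc146 (OutA)
open Crest.Agent.R136.Dg262 (X)

/-! ### the point at infinity -/

section inf

variable {η : ℝ} {p : Par4} {D : Dat4} {I1 : ℕ → Finset (ℕ × ℝ)} {π : Equiv.Perm (Fin 3)}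
  {eE fA fB : ℕ → ℕ × ℝ → ℝ} {V T : Fin 11 → Prop} {w0 R T0 : ℝ} {PD : Set (Fin 11 → ℝ)}
  {ν own : (Fin 11 → ℝ) → ℝ} {c₀ : ℝ}

/-- sweeps and independence pass to a blow-down -/
theorem SwI.tr {Jd : Finset (Fin 11)} {a : Fin 11 → ℝ} {lam lam2 : (Fin 11 → ℝ) → ℝ}
    (S : SwI p Jd a lam)
    (H : ∀ c ∈ cn (mw monQ) (AF Jd), ∀ c' ∈ cn (mw monQ) (AF Jd), ∀ C e y0 : ℝ,
      (∀ y, y0 ≤ y → C + lam (y • c) ≤ lam (y • c') + e * y) → lam2 c ≤ lam2 c' + e) :
    SwI p Jd a lam2 where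
  sw := by
    intro u hu u67 u0 c hc σ h hh hcu hT hs
    have k := H (c + h • u) hcu c hc 0 (DlF p u * h) 0 fun y hy => by
      have e1 : y • (c + h • u) = y • c + (y * h) • u := by rw [smul_add, smul_smul]
      have k1 := S.sw u hu u67 u0 (y • c) (K2S774.cn_smul hc hy) (y * σ) (y * h)
        (mul_nonneg hy hh) (by rw [← e1]; exact K2S774.cn_smul hcu hy) (fun i hi h0 => by
          have := mul_le_mul_of_nonneg_left (hT i hi h0) hy
          rw [Pi.smul_apply, smul_eq_mul, mul_assoc]; exact this) (fun i hi h0 => by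
          obtain ⟨g1, g2⟩ := hs i hi h0
          refine ⟨g1, ?_⟩
          rw [Pi.smul_apply, smul_eq_mul, g2, mul_assoc])
      rw [e1]
      have e2 : -(DlF p u) * (y * h) = -(DlF p u * h * y) := by ring
      rw [e2] at k1
      linarith
    have e3 : -(DlF p u) * h = -(DlF p u * h) := by ring
    rw [e3]
    linarith
  ind := by
    intro c hc c' hc' hcc hc1
    have key : ∀ y : ℝ, 0 ≤ y → lam (y • c) = lam (y • c') := fun y hy =>
      S.ind (y • c) (K2S774.cn_smul hc hy) (y • c') (K2S774.cn_smul hc' hy)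
        (fun i hi => by rw [Pi.smul_apply, Pi.smul_apply, hcc i hi])
        (by rw [Pi.smul_apply, smul_eq_mul]; exact mul_nonneg hy hc1)
    have k1 := H c hc c' hc' 0 0 0 fun y hy => by rw [key y hy]; simp
    have k2 := H c' hc' c hc 0 0 0 fun y hy => by rw [key y hy]; simp
    linarith

/-- **the point at infinity of a point of a rung**: homogeneous groups, the same slopes and rates;
asymptotic inequalities at `lam'` become exact -/
theorem ptV_ofI (h : Thick η p D I1 π eE fA fB V T w0 R T0 PD ν own c₀) {v : ℝ} (h0 : 0 < v)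
    (h1 : v < 1) {Jd : Finset (Fin 11)} {s : ℝ} {x b : Fin 11 → ℝ}
    (a0 : ∀ i, 0 ≤ TF Jd (p.θ 1 - p.θ 2) s x i)
    (hb : ∀ i, i ∉ Jd → b i = rhoF p.θ i)
    (hTie : ∀ k, V k → oS p.θ k * TF Jd (p.θ 1 - p.θ 2) s x 0 ≤ TF Jd (p.θ 1 - p.θ 2) s x k)
    {Qd : Set (Fin 11 → ℝ)} (hQ : QdOk p.θ V Jd Qd)
    {lam lo : (Fin 11 → ℝ) → ℝ} (hst : StVQ Qd p V ν own w0 R v Jd lam lo) {z : ℝ × ℝ}
    (hz : z.1 < 0) {k : ℕ → ℝ} {lam' lo' : (Fin 11 → ℝ) → ℝ} (kpos : ∀ l, 0 < k l)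
    (k0 : Tendsto k atTop (𝓝 0))
    (H1 : IsTan (cn (mw monQ) (AF Jd)) (cn (mw monQ) (AF Jd)) lam
      (fun _ => X 0 (TF Jd (p.θ 1 - p.θ 2) s x) b z) k lam')
    (H2 : IsTan (cn (mw monQ) (AF Jd)) (cn (mw monQ) (AF Jd)) lo
      (fun _ => X 0 (TF Jd (p.θ 1 - p.θ 2) s x) b z) k lo')
    {x' : ℕ → Fin 11 → ℝ} {h' : ℕ → ℝ}
    (hJ : JT (mw monQ) (AF Jd) (Leg monQ R) ν own (recF p.θ w0 (R - 1) v) x' h' lam' lo')
    (hB : BaseOk {k | V k} 0 (oS p.θ) (TF Jd (p.θ 1 - p.θ 2) s x) (recF p.θ w0 (R - 1) v) x' h')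
    {A : ℝ × ℝ} {φ : ℕ → (Fin 11 → ℝ) → ℝ} {rt : ℕ → ℝ}
    (hO : OutA (gC (TF Jd (p.θ 1 - p.θ 2) s x) b) (cn (mw monQ) (AF Jd))
      (TF Jd (p.θ 1 - p.θ 2) s x) b (dhC (TF Jd (p.θ 1 - p.θ 2) s x) b)
      (nC (TF Jd (p.θ 1 - p.θ 2) s x) b) lam' A φ rt) :
    ∃ (lam2 lo2 : (Fin 11 → ℝ) → ℝ) (x2 : ℕ → Fin 11 → ℝ) (h2 : ℕ → ℝ)
      (φ2 : ℕ → (Fin 11 → ℝ) → ℝ),
      JT (mw monQ) (AF Jd) (Leg monQ R) ν own (recF p.θ w0 (R - 1) v) x2 h2 lam2 lo2 ∧
      BaseOk {k | V k} 0 (oS p.θ) (TF Jd (p.θ 1 - p.θ 2) s x) (recF p.θ w0 (R - 1) v) x2 h2 ∧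
      PtV D.B D.I I1 (couQ D.B D.lev D.w w0 (incQ π D.L eE fA fB)) p V T Jd
        (TF Jd (p.θ 1 - p.θ 2) s x) b lam2 lo2 A φ2 rt ∧
      HomV Jd (TF Jd (p.θ 1 - p.θ 2) s x) b φ2 ∧
      (∀ c ∈ cn (mw monQ) (AF Jd), ∀ c' ∈ cn (mw monQ) (AF Jd), ∀ C e y0 : ℝ,
        (∀ y, y0 ≤ y → C + lam' (y • c) ≤ lam' (y • c') + e * y) → lam2 c ≤ lam2 c' + e) ∧
      ∀ k ∈ gset (gC (TF Jd (p.θ 1 - p.θ 2) s x) b), ∀ c ∈ cn (mw monQ) (AF Jd),
        ∀ c' ∈ cn (mw monQ) (AF Jd), ∀ C e y0 : ℝ,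
        (∀ y, y0 ≤ y → C + φ k (y • c) ≤ φ k (y • c') + e * y) → φ2 k c ≤ φ2 k c' + e := by
  have z5 : (5 : Fin 11) ∉ Jd := fun h5 => hst.ZD 5 (by simp) (by simpa using h5)
  have z1 : (1 : Fin 11) ∉ Jd := fun h5 => hst.ZD 1 (by simp) (by simpa using h5)
  have a5 : TF Jd (p.θ 1 - p.θ 2) s x 5 = 0 := by
    rw [← TF_off z5, TpF_val]; simp
  have a1 : TF Jd (p.θ 1 - p.θ 2) s x 1 = 0 := by
    rw [← TF_off z1, TpF_val]; simp
  have ha : K2S774.Nat (mw monQ) (AF Jd) (TF Jd (p.θ 1 - p.θ 2) s x) :=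
    fun w hw => natTF _ _ _ hw
  have hP' := hst.prf.tan kpos H1 H2
  obtain ⟨lam2, lo2, x2, h2, φ2, hJ2, hB2, hP2, hO2, hhom, htr, -, htφ⟩ :=
    K2C146.exists_hom_inf (fun w hw => AF_full hw) a0 ha
      (hst.nat_b hQ.rd.nat fun i hi => hb i (by simpa using hi)) hJ hP' hB hO
  have hA := aew_of_jt (src_thick h h0 h1)
    (Tw := fun k => T k ∧ V k ∧ TF Jd (p.θ 1 - p.θ 2) s x k =
      oS p.θ k * TF Jd (p.θ 1 - p.θ 2) s x 0) hJ2 hB2 (fun i hi => hTie i hi)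
    (fun k hk => ⟨hk.1, hk.2.1, hk.2.2⟩) (fun hk => vis0 h.tp.slots hk.2.1) hO2.toOutS
  rw [sub_zero] at hA
  exact ⟨lam2, lo2, x2, h2, φ2, hJ2, hB2,
    { toSwI := SwI.tr (swI_of_stage h.tp.ok.θ1 hQ hst a0 ha
        (fun i hi => hb i (by simpa using hi)) a5 a1 hz kpos k0 H1) htr
      aew := hA
      out := hO2
      prf := hP2 }, hhom, htr, htφ⟩

end inf

/-! ### the F-lemma of the rung -/

section F2

variable {η : ℝ} {p : Par4} {D : Dat4} {I1 : ℕ → Finset (ℕ × ℝ)} {π : Equiv.Perm (Fin 3)}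
  {eE fA fB : ℕ → ℕ × ℝ → ℝ} {V T : Fin 11 → Prop} {w0 R T0 : ℝ} {PD : Set (Fin 11 → ℝ)}
  {ν own : (Fin 11 → ℝ) → ℝ} {c₀ : ℝ}

theorem no3 : ∀ k, ∀ e ∈ (mA monQ (AF {3})).mon k, e 3 = 0 := fun k e he => by
  obtain ⟨_, -, -, h3⟩ := mem_mA.1 he
  exact h3 3 (by simp)

theorem m4810 : mv 4 8 ∈ (mA monQ (AF {3})).mon 10 :=
  mem_mA.2 ⟨by decide, by show mv 4 8 1 = 0; decide, by show (10 : Fin 11) ∉ _; decide,
    fun s hs => by
      rw [Finset.mem_singleton] at hs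
      subst hs
      show mv 4 8 3 = 0
      decide⟩

theorem m0710 : mv 0 7 ∈ (mA monQ (AF {3})).mon 10 :=
  mem_mA.2 ⟨by decide, by show mv 0 7 1 = 0; decide, by show (10 : Fin 11) ∉ _; decide,
    fun s hs => by
      rw [Finset.mem_singleton] at hs
      subst hs
      show mv 0 7 3 = 0
      decide⟩

theorem n017 : mv 0 1 ∉ (mA monQ (AF {3})).mon 7 := (maE_AF (by decide)).r

theorem cz_bx (x c8 c4 c10 : ℝ) :
    cz x (Lf400.bx (0 : Fin 11 → ℝ) 8 4 10 c8 c4 c10) = bq x c4 0 c8 0 c10 := by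
  funext i
  rw [bq_app]
  unfold cz Lf400.bx
  fin_cases i <;> simp


end F2

end Crest.Agent.R136.LdF6146
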