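import Crest.Agent.R136.Dl1_667
import Crest.Agent.R136.LdF5_511

/-!
# R136, case F: the base row on every rung, the dead rung, the ladder (helper511)

* `maE_AF`, `plE_TF` : the walls and the planes of the rungs are those of `base_row`
* **`base_pt`** : `PtV` + homogeneous groups ⊢ rates of `z`, `X_a`, `X_b` (every rung)
* **`base_tan`**, **`base_F`** : the same at any tangent of a stage (`StV`, `StF`)
* **`tot_pt`** : `3 + κ ≤ -A.1`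
* **`ladder_FL`**, `ladder_F12` : `F1` (rung `F_b`) and `F2` (rung `F_a, P`) are contradictory
-/

set_option autoImplicit false
set_option linter.unusedVariables false

open Finset Filter Topology

namespace Crest.Agent.R136.LdF7511

open Crest.Agent.R138.Ex926 (Base U IsTan)
open Crest.Agent.R136.Net191
open Crest.Agent.R136.NetQ186
open Crest.Agent.R136.Gf356
open Crest.Agent.R136.Wq638
open Crest.Agent.R136.GeoQ186 (scl)
open Crest.Agent.R136.NatT550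
open Crest.Agent.R136.NatR550 (nL)
open Crest.Agent.R136.Top484
open Crest.Agent.R136.LdF511
open Crest.Agent.R136.LdF3511
open Crest.Agent.R136.LdF4511
open Crest.Agent.R136.LdF5511
open Crest.Agent.R136.Dl667
open Crest.Agent.R136.Tb628 (oS oS_eq)
open Crest.Agent.R136.K2S774 (cn Prf JT Stage RecD RungD BaseOk ind1 A2)
open Crest.Agent.R136.K2A146 (FLemA)
open Crest.Agent.R136.AwJ774 (mA mem_mA coneM_mA)
open Crest.Agent.R136.Aw413 (coneM AeW)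
open Crest.Agent.R136.Xb403 (MaE)
open Crest.Agent.R136.Dg219 (Walls mw gC dhC nC OutS gC_zero)
open Crest.Agent.R136.Rc146 (OutA)
open Crest.Agent.R136.Dg262 (X)

/-! ### walls and planes -/

theorem off_J {J : Finset (Fin 11)} (hJ : J ⊆ {3, 4, 7}) {i : Fin 11}
    (hi : i ∉ ({3, 4, 7} : Finset (Fin 11))) : i ∉ J := fun h => hi (hJ h)

theorem AF_of {J : Finset (Fin 11)} (hJ : J ⊆ {3, 4, 7}) {k : Fin 11} {e : Fin 11 → ℕ}
    (he : e ∈ monQ.mon k) (h : e 1 = 0 ∧ k ∉ ({3, 4, 7} : Finset (Fin 11)) ∧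
      ∀ s ∈ ({3, 4, 7} : Finset (Fin 11)), e s = 0) : e ∈ (mA monQ (AF J)).mon k :=
  mem_mA.2 ⟨he, h.1, off_J hJ h.2.1, fun s hs => h.2.2 s (hJ hs)⟩

/-- **the four walls of the base row** -/
theorem maE_AF {J : Finset (Fin 11)} (hJ : J ⊆ {3, 4, 7}) : MaE (mA monQ (AF J)) where
  m256 := AF_of hJ (by decide) ⟨by decide, by decide, by decide⟩
  m058 := AF_of hJ (by decide) ⟨by decide, by decide, by decide⟩
  m069 := AF_of hJ (by decide) ⟨by decide, by decide, by decide⟩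
  m289 := AF_of hJ (by decide) ⟨by decide, by decide, by decide⟩
  r := fun h => by
    obtain ⟨_, h1, -⟩ := mem_mA.1 h
    exact absurd h1 (show ¬ (Ev356.mv 0 1 1 = 0) by decide)

/-- **the plane of a rung** -/
theorem plE_TF {θ : Fin 3 → ℝ} (hκ : 0 < θ 1 - θ 2) (h1 : 0 < θ 1) {J : Finset (Fin 11)}
    (hJ : J ⊆ {3, 4, 7}) {s : ℝ} {x b : Fin 11 → ℝ} (a0 : ∀ i, 0 ≤ TF J (θ 1 - θ 2) s x i)
    (hb : ∀ i, i ∉ J → b i = rhoF θ i) : PlE (TF J (θ 1 - θ 2) s x) b (θ 1 - θ 2) := by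
  have e : ∀ i, i ∉ ({3, 4, 7} : Finset (Fin 11)) →
      TF J (θ 1 - θ 2) s x i = TpF (θ 1 - θ 2) s i := fun i hi => (TF_off (off_J hJ hi)).symm
  have f : ∀ i, i ∉ ({3, 4, 7} : Finset (Fin 11)) → b i = rhoF θ i := fun i hi =>
    hb i (off_J hJ hi)
  refine ⟨hκ, a0, ?_, ?_, ?_, ?_, ?_, ?_, ?_, ?_, ?_, ?_, ?_⟩
  · rw [e 0 (by decide), TpF_val]; rfl
  · rw [e 2 (by decide), TpF_val]; rfl
  · rw [e 5 (by decide), TpF_val]; rfl
  · rw [e 6 (by decide), TpF_val]; rfl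
  · rw [e 8 (by decide), TpF_val]; rfl
  · rw [e 9 (by decide), TpF_val]; rfl
  · rw [f 5 (by decide)]
    simp only [rhoF, nL, Matrix.cons_val]
    linarith
  · rw [f 2 (by decide), f 0 (by decide)]
    simp only [rhoF, nL, Matrix.cons_val]; ring
  · rw [f 6 (by decide), f 2 (by decide), f 5 (by decide)]
    simp only [rhoF, nL, Matrix.cons_val]; ring
  · rw [f 8 (by decide), f 0 (by decide), f 5 (by decide)]
    simp only [rhoF, nL, Matrix.cons_val]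
  · rw [f 9 (by decide), f 0 (by decide), f 6 (by decide)]
    simp only [rhoF, nL, Matrix.cons_val]

theorem bl_add_single (T ca cb xa xb t : ℝ) :
    bl T ca cb xa xb + t • (Pi.single 5 1 : Fin 11 → ℝ) = bl T (ca + t) cb xa xb := by
  funext j
  fin_cases j <;> simp [bl]

section pt

variable {η : ℝ} {p : Par4} {D : Dat4} {I1 : ℕ → Finset (ℕ × ℝ)} {π : Equiv.Perm (Fin 3)}
  {eE fA fB : ℕ → ℕ × ℝ → ℝ} {V T : Fin 11 → Prop} {w0 R T0 : ℝ} {PD : Set (Fin 11 → ℝ)}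
  {ν own : (Fin 11 → ℝ) → ℝ} {c₀ : ℝ} {J : Finset (Fin 11)} {s : ℝ} {x b : Fin 11 → ℝ}
  {lam lo : (Fin 11 → ℝ) → ℝ} {A : ℝ × ℝ} {φ : ℕ → (Fin 11 → ℝ) → ℝ} {r : ℕ → ℝ}

/-- the slot `21` is tied as soon as it is visible -/
theorem tied2 {θ : Fin 3 → ℝ} (sl : SlotOk θ V T) (h2 : V 2) : T 2 := by
  by_contra h
  exact absurd (sl.cap 2 h2 h).1 (by decide)

/-- **the base row at one point**, from the windows, the homogeneous groups and the sweep of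
`C_a` -/
theorem base_aew (h : Thick η p D I1 π eE fA fB V T w0 R T0 PD ν own c₀)
    (hκ : 0 < p.θ 1 - p.θ 2) (hV2 : V 2) (hJ : J ⊆ {3, 4, 7})
    (a0 : ∀ i, 0 ≤ TF J (p.θ 1 - p.θ 2) s x i) (hb : ∀ i, i ∉ J → b i = rhoF p.θ i)
    (aew : AeW D.B D.B D.I I1 (couQ D.B D.lev D.w w0 (incQ π D.L eE fA fB)) monQ
      (mA monQ (AF J)) 2 lam (TF J (p.θ 1 - p.θ 2) s x) b A φ r 0 1 (oS p.θ)
      (fun k => V k ∧ TF J (p.θ 1 - p.θ 2) s x k = oS p.θ k * TF J (p.θ 1 - p.θ 2) s x 0)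
      (fun k => T k ∧ V k ∧ TF J (p.θ 1 - p.θ 2) s x k =
        oS p.θ k * TF J (p.θ 1 - p.θ 2) s x 0))
    (hH : HomV J (TF J (p.θ 1 - p.θ 2) s x) b φ)
    (sw : ∀ c ∈ cn (mw monQ) (AF J), ∀ t : ℝ, 0 ≤ t →
      c + t • (Pi.single 5 1 : Fin 11 → ℝ) ∈ cn (mw monQ) (AF J) →
      (∀ i, i ∉ J → TF J (p.θ 1 - p.θ 2) s x i = 0 → c i ≤ 0) → c 5 = 0 →
      p.q 1 * t ≤ lam c - lam (c + t • (Pi.single 5 1 : Fin 11 → ℝ))) :
    1 ≤ r (gC (TF J (p.θ 1 - p.θ 2) s x) b 0) ∧ 1 ≤ r (gC (TF J (p.θ 1 - p.θ 2) s x) b 8) ∧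
      1 + (p.θ 1 - p.θ 2) ≤ r (gC (TF J (p.θ 1 - p.θ 2) s x) b 9) ∧
      φ (gC (TF J (p.θ 1 - p.θ 2) s x) b 8) (Pi.single 8 1) ≤ -1 ∧
      φ (gC (TF J (p.θ 1 - p.θ 2) s x) b 9) (Pi.single 9 1) ≤ -1 := by
  have hθ := h.tp.ok.θ1
  have P := plE_TF hκ hθ hJ a0 hb
  have hL : ∀ p', Legal monQ p' → p' ∈ cn (mw monQ) (AF J) := fun p' hp' w _ =>
    hp'.wall w.1 w.2.1 w.2.2
  have e0 : TF J (p.θ 1 - p.θ 2) s x 0 = 1 := P.a0
  have e2 : TF J (p.θ 1 - p.θ 2) s x 2 = p.θ 1 - p.θ 2 := P.a2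
  refine base_row (f := fun n i => scl (uH D.B D.lev w0 n) (uA D.B D.lev D.w w0 n)
    (uB D.B D.lev D.w w0 n) (uY D.B D.lev D.w w0 n) (incQ π D.L eE fA fB n i)) aew
    (fun n i _ j _ => rfl) h.ext.ne (maE_AF hJ) P ?_ (fun k hk => vis_ne h.tp.slots hk.1) ?_
    (by norm_num) ?_ (m := p.q 1) h.tp.ok.g0.2 ?_
  · rw [coneM_mA]
    exact fun w hw => (natTF _ _ _ hw).le
  · refine ⟨tied2 h.tp.slots hV2, hV2, ?_⟩
    rw [e0, e2, oS_eq]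
    simp
  · intro k hk c hc t ht
    rw [coneM_mA] at hc
    exact hH k (fun i hi => dh_pos a0 hk hi) c hc t ht
  · intro t xa t0 t1 x0 x1
    have m1 : bl 1 0 0 xa 0 ∈ cn (mw monQ) (AF J) := hL _ (bl_legal zero_le_one le_rfl le_rfl
      zero_le_one x0 x1 le_rfl zero_le_one)
    have m2 : bl 1 t 0 xa 0 ∈ cn (mw monQ) (AF J) := hL _ (bl_legal zero_le_one t0 le_rfl
      zero_le_one x0 x1 le_rfl zero_le_one)
    have e : bl 1 0 0 xa 0 + t • (Pi.single 5 1 : Fin 11 → ℝ) = bl 1 t 0 xa 0 := by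
      rw [bl_add_single, zero_add]
    have := sw (bl 1 0 0 xa 0) m1 t t0 (by rw [e]; exact m2) (fun i hi hT => by
      have n0 : i ≠ 0 := fun h' => by rw [h', e0] at hT; exact one_ne_zero hT
      have n2 : i ≠ 2 := fun h' => by rw [h', e2] at hT; exact hκ.ne' hT
      have n8 : i ≠ 8 := fun h' => by rw [h'] at hT; exact P.n8 hT
      fin_cases i <;> simp [bl] at n0 n2 n8 ⊢) (by simp [bl])
    rw [e] at this
    exact this

/-- **the base row at one point of a rung** -/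
theorem base_pt (h : Thick η p D I1 π eE fA fB V T w0 R T0 PD ν own c₀)
    (hκ : 0 < p.θ 1 - p.θ 2) (hV2 : V 2) (hJ : J ⊆ {3, 4, 7})
    (a0 : ∀ i, 0 ≤ TF J (p.θ 1 - p.θ 2) s x i) (hb : ∀ i, i ∉ J → b i = rhoF p.θ i)
    (hP : PtV D.B D.I I1 (couQ D.B D.lev D.w w0 (incQ π D.L eE fA fB)) p V T J
      (TF J (p.θ 1 - p.θ 2) s x) b lam lo A φ r)
    (hH : HomV J (TF J (p.θ 1 - p.θ 2) s x) b φ) :
    1 ≤ r (gC (TF J (p.θ 1 - p.θ 2) s x) b 0) ∧ 1 ≤ r (gC (TF J (p.θ 1 - p.θ 2) s x) b 8) ∧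
      1 + (p.θ 1 - p.θ 2) ≤ r (gC (TF J (p.θ 1 - p.θ 2) s x) b 9) ∧
      φ (gC (TF J (p.θ 1 - p.θ 2) s x) b 8) (Pi.single 8 1) ≤ -1 ∧
      φ (gC (TF J (p.θ 1 - p.θ 2) s x) b 9) (Pi.single 9 1) ≤ -1 := by
  have P := plE_TF hκ h.tp.ok.θ1 hJ a0 hb
  refine base_aew h hκ hV2 hJ a0 hb hP.aew hH fun c hc t ht hct hT h5 => ?_
  have hu : ∀ i, i ≠ 5 → (Pi.single 5 1 : Fin 11 → ℝ) i = 0 := fun i hi =>
    Pi.single_eq_of_ne hi _
  have := hP.sw (Pi.single 5 1) (qd_ca p.θ) (by simp) (fun i => by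
    by_cases hi : i = 5
    · subst hi; simp
    · rw [hu i hi]) c hc 0 t ht hct (fun i hi hT' => by rw [zero_mul]; exact hT i hi hT')
    (fun i hi hi' => by
      have h5' : i = 5 := by
        by_contra h'
        exact hi' (hu i h')
      subst h5'
      exact ⟨P.a5, by rw [h5, zero_mul]⟩)
  rw [DlF_ca, neg_neg] at this
  exact this

/-- **the total on the last rung** -/
theorem tot_pt (h : Thick η p D I1 π eE fA fB V T w0 R T0 PD ν own c₀)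
    (hκ : 0 < p.θ 1 - p.θ 2) (hV2 : V 2) (hJ : J ⊆ {3, 4, 7})
    (a0 : ∀ i, 0 ≤ TF J (p.θ 1 - p.θ 2) s x i) (hb : ∀ i, i ∉ J → b i = rhoF p.θ i)
    (hP : PtV D.B D.I I1 (couQ D.B D.lev D.w w0 (incQ π D.L eE fA fB)) p V T J
      (TF J (p.θ 1 - p.θ 2) s x) b lam lo A φ r)
    (hH : HomV J (TF J (p.θ 1 - p.θ 2) s x) b φ) : 3 + (p.θ 1 - p.θ 2) ≤ -A.1 := by
  have P := plE_TF hκ h.tp.ok.θ1 hJ a0 hb
  obtain ⟨r0, r8, r9, -, -⟩ := base_pt h hκ hV2 hJ a0 hb hP hH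
  have := tot3 hP.aew.out a0 P.n0 P.n8 P.n9 P.g08 P.g09 P.g89
  linarith

/-- only the slot `21` is visible -/
theorem vis2 (h : Thick η p D I1 π eE fA fB V T w0 R T0 PD ν own c₀) (hV3 : ¬ V 3) (hV4 : ¬ V 4)
    {k : Fin 11} (hk : V k) : k = 2 := by
  rcases vis_ne h.tp.slots hk with rfl | rfl | rfl
  · rfl
  · exact absurd hk hV3
  · exact absurd hk hV4

/-- the own path stays below the ray -/
theorem tie_TF (h : Thick η p D I1 π eE fA fB V T w0 R T0 PD ν own c₀) (hV3 : ¬ V 3)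
    (hV4 : ¬ V 4) (hJ : J ⊆ {3, 4, 7}) (s : ℝ) (x : Fin 11 → ℝ) (k : Fin 11) (hk : V k) :
    oS p.θ k * TF J (p.θ 1 - p.θ 2) s x 0 ≤ TF J (p.θ 1 - p.θ 2) s x k := by
  have := vis2 h hV3 hV4 hk
  subst this
  rw [← TF_off (off_J hJ (by decide)), ← TF_off (off_J hJ (by decide)), TpF_val, oS_eq]
  simp

/-- **the base row at any tangent of a stage** -/
theorem base_tan (h : Thick η p D I1 π eE fA fB V T w0 R T0 PD ν own c₀) {v : ℝ} (h0 : 0 < v)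
    (h1 : v < 1) (hκ : 0 < p.θ 1 - p.θ 2) (hV2 : V 2) (hJ : J ⊆ {3, 4, 7})
    (a0 : ∀ i, 0 ≤ TF J (p.θ 1 - p.θ 2) s x i) (hb : ∀ i, i ∉ J → b i = rhoF p.θ i)
    (hTie : ∀ k, V k → oS p.θ k * TF J (p.θ 1 - p.θ 2) s x 0 ≤ TF J (p.θ 1 - p.θ 2) s x k)
    {Qd : Set (Fin 11 → ℝ)} (hQ : QdOk p.θ V J Qd)
    (hst : StVQ Qd p V ν own w0 R v J lam lo) {z : ℝ × ℝ} (hz : z.1 < 0) {k : ℕ → ℝ}
    {lam' lo' : (Fin 11 → ℝ) → ℝ} (kpos : ∀ l, 0 < k l) (k0 : Tendsto k atTop (𝓝 0))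
    (H1 : IsTan (cn (mw monQ) (AF J)) (cn (mw monQ) (AF J)) lam
      (fun _ => X 0 (TF J (p.θ 1 - p.θ 2) s x) b z) k lam')
    (H2 : IsTan (cn (mw monQ) (AF J)) (cn (mw monQ) (AF J)) lo
      (fun _ => X 0 (TF J (p.θ 1 - p.θ 2) s x) b z) k lo')
    {x' : ℕ → Fin 11 → ℝ} {h' : ℕ → ℝ}
    (hJT : JT (mw monQ) (AF J) (Leg monQ R) ν own (recF p.θ w0 (R - 1) v) x' h' lam' lo')
    (hB : BaseOk {k | V k} 0 (oS p.θ) (TF J (p.θ 1 - p.θ 2) s x) (recF p.θ w0 (R - 1) v) x' h')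
    {A : ℝ × ℝ} {φ : ℕ → (Fin 11 → ℝ) → ℝ} {rt : ℕ → ℝ}
    (hO : OutA (gC (TF J (p.θ 1 - p.θ 2) s x) b) (cn (mw monQ) (AF J))
      (TF J (p.θ 1 - p.θ 2) s x) b (dhC (TF J (p.θ 1 - p.θ 2) s x) b)
      (nC (TF J (p.θ 1 - p.θ 2) s x) b) lam' A φ rt) :
    1 ≤ rt (gC (TF J (p.θ 1 - p.θ 2) s x) b 0) ∧ 1 ≤ rt (gC (TF J (p.θ 1 - p.θ 2) s x) b 8) ∧
      1 + (p.θ 1 - p.θ 2) ≤ rt (gC (TF J (p.θ 1 - p.θ 2) s x) b 9) := by
  obtain ⟨t, lam2, lo2, x2, h2, φ2, -, -, -, -, -, -, hP, hhom, -⟩ :=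
    ptV_ofH h h0 h1 a0 hb hTie hQ hst hz kpos k0 H1 H2 hJT hB hO
  obtain ⟨g0, g8, g9, -, -⟩ := base_pt h hκ hV2 hJ a0 hb hP hhom
  exact ⟨g0, g8, g9⟩

/-- **the base row at any tangent of a stage of case F** -/
theorem base_F (h : Thick η p D I1 π eE fA fB V T w0 R T0 PD ν own c₀) {v : ℝ} (h0 : 0 < v)
    (h1 : v < 1) (hκ : 0 < p.θ 1 - p.θ 2) (hV2 : V 2) (hV3 : ¬ V 3) (hV4 : ¬ V 4)
    (hJ : J ⊆ {3, 4, 7}) (a0 : ∀ i, 0 ≤ TF J (p.θ 1 - p.θ 2) s x i)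
    (hb : ∀ i, i ∉ J → b i = rhoF p.θ i)
    (hst : StF p ν own w0 R v J lam lo) {z : ℝ × ℝ} (hz : z.1 < 0) {k : ℕ → ℝ}
    {lam' lo' : (Fin 11 → ℝ) → ℝ} (kpos : ∀ l, 0 < k l) (k0 : Tendsto k atTop (𝓝 0))
    (H1 : IsTan (cn (mw monQ) (AF J)) (cn (mw monQ) (AF J)) lam
      (fun _ => X 0 (TF J (p.θ 1 - p.θ 2) s x) b z) k lam')
    (H2 : IsTan (cn (mw monQ) (AF J)) (cn (mw monQ) (AF J)) lo
      (fun _ => X 0 (TF J (p.θ 1 - p.θ 2) s x) b z) k lo')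
    {x' : ℕ → Fin 11 → ℝ} {h' : ℕ → ℝ}
    (hJT : JT (mw monQ) (AF J) (Leg monQ R) ν own (recF p.θ w0 (R - 1) v) x' h' lam' lo')
    (hB : BaseOk {2} 0 (oF p.θ) (TF J (p.θ 1 - p.θ 2) s x) (recF p.θ w0 (R - 1) v) x' h')
    {A : ℝ × ℝ} {φ : ℕ → (Fin 11 → ℝ) → ℝ} {rt : ℕ → ℝ}
    (hO : OutA (gC (TF J (p.θ 1 - p.θ 2) s x) b) (cn (mw monQ) (AF J))
      (TF J (p.θ 1 - p.θ 2) s x) b (dhC (TF J (p.θ 1 - p.θ 2) s x) b)
      (nC (TF J (p.θ 1 - p.θ 2) s x) b) lam' A φ rt) :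
    1 ≤ rt (gC (TF J (p.θ 1 - p.θ 2) s x) b 0) ∧ 1 ≤ rt (gC (TF J (p.θ 1 - p.θ 2) s x) b 8) ∧
      1 + (p.θ 1 - p.θ 2) ≤ rt (gC (TF J (p.θ 1 - p.θ 2) s x) b 9) := by
  have ho : ∀ i ∈ {k | V k}, oS p.θ i = oF p.θ i := fun i hi => by
    have := vis2 h hV3 hV4 hi
    subst this
    rw [oS_eq]; rfl
  refine base_tan h h0 h1 hκ hV2 hJ a0 hb (tie_TF h hV3 hV4 hJ s x) (qdOk h.tp.slots J)
    (stage_congr (fun i => ⟨fun hi => vis2 h hV3 hV4 hi, fun hi => ?_⟩) ho hst) hz kpos k0 H1 H2 hJT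
    (baseOk_congr (fun i hi => vis2 h hV3 hV4 hi) ho hB) hO
  have hi' : i = 2 := hi
  subst hi'
  exact hV2

/-! ### the dead rung -/

/-- the only use of the field `θb` (works for the strong and for the weak form) -/
theorem slack_q2 (ok : ParOk η p) : p.q 2 * (p.θ 1 - p.θ 2) ≤ 2 * (η * p.g) := by
  have hq := ok.q2.1
  have h0 := ok.q0.1
  first
  | (have a1 := ok.θb 1
     have a2 := ok.θb 2
     have b1 : p.q 2 * p.θ 1 ≤ p.q 2 * |p.θ 1| :=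
       mul_le_mul_of_nonneg_left (le_abs_self _) hq.le
     have b2 : p.q 2 * -p.θ 2 ≤ p.q 2 * |p.θ 2| :=
       mul_le_mul_of_nonneg_left (neg_le_abs _) hq.le
     have e1 : p.q 2 * (p.θ 1 - p.θ 2) = p.q 2 * p.θ 1 + p.q 2 * -p.θ 2 := by ring
     rw [e1]
     linarith)
  | (have a := ok.θb
     have b1 : p.q 2 * (p.θ 1 - p.θ 2) ≤ p.q 2 * max (p.θ 1 - p.θ 2) 0 :=
       mul_le_mul_of_nonneg_left (le_max_left _ _) hq.le
     have b1' : 0 ≤ p.q 2 * max (p.θ 1 - p.θ 2) 0 := mul_nonneg hq.le (le_max_right _ _)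
     have b2 : 0 ≤ p.q 0 * (max (-(p.θ 0)) 0 + |p.θ 1| + |p.θ 2|) := by positivity
     have b3 : p.q 2 * (p.θ 1 - p.θ 2) ≤ η * p.g := by linarith
     have b4 : 0 ≤ η * p.g := by linarith
     linarith)

/-- the remaining gap on the last rung -/
theorem gap3 (ok : ParOk η p) (hη : η ≤ 1 / 8) {s : ℝ} (hs : s ≤ p.g / 4) (hs1 : s ≤ 1) :
    p.g / 2 ≤ 3 + (p.θ 1 - p.θ 2) + DlF p (TpF (p.θ 1 - p.θ 2) s) := by
  have e : DlF p (TpF (p.θ 1 - p.θ 2) s) = _ := DlF_ray p (p.θ 1 - p.θ 2) s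
  rw [e]
  have hg := ok.g0.1
  have b1 := slack_q2 ok
  have b3 : η * p.g ≤ 1 / 8 * p.g := mul_le_mul_of_nonneg_right hη hg.le
  have b4 : 0 ≤ p.q 0 * (1 - s) := mul_nonneg ok.q0.1 (by linarith)
  have e2 : p.q 0 * (s - 1) = -(p.q 0 * (1 - s)) := by ring
  rw [e2]
  linarith

/-- **F3**: the last rung is dead -/
theorem F3_pt (h : Thick η p D I1 π eE fA fB V T w0 R T0 PD ν own c₀) (hη : η ≤ 1 / 8)
    (hκ : 0 < p.θ 1 - p.θ 2) (hV2 : V 2) (hs : s ≤ p.g / 4) (hs1 : s ≤ 1)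
    (hJ : J ⊆ {3, 4, 7}) (a0 : ∀ i, 0 ≤ TF J (p.θ 1 - p.θ 2) s x i)
    (hb : ∀ i, i ∉ J → b i = rhoF p.θ i)
    (hP : PtV D.B D.I I1 (couQ D.B D.lev D.w w0 (incQ π D.L eE fA fB)) p V T J
      (TF J (p.θ 1 - p.θ 2) s x) b lam lo A φ r)
    (hH : HomV J (TF J (p.θ 1 - p.θ 2) s x) b φ) :
    p.g / 2 ≤ -A.1 + DlF p (TpF (p.θ 1 - p.θ 2) s) := by
  have h1 := tot_pt h hκ hV2 hJ a0 hb hP hH
  have h2 := gap3 h.tp.ok hη hs hs1
  linarith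

/-! ### the ladder -/

/-- **rung (ii)**: `s = 1`, drop `F_a, P` -/
theorem rungV_ii {θ : Fin 3 → ℝ} {V : Fin 11 → Prop} (hV4 : ¬ V 4) (hV7 : ¬ V 7)
    (hκ : 0 < θ 1 - θ 2) {b x : Fin 11 → ℝ} (hx : 0 < x 3)
    (hb : ∀ i, i ∉ ({3} : Finset (Fin 11)) → b i = rhoF θ i) :
    RungD (mw monQ) (AF {3}) ↑({3} : Finset (Fin 11)) {5, 1} {k | V k} 0 (QdF θ) (rhoF θ)
      (TF {3} (θ 1 - θ 2) 1 x) (TpF (θ 1 - θ 2) 1) b {4, 7} where
  T0 := (TF_ii hκ hx).1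
  TJ := (TF_ii hκ hx).2.1
  TZ := fun i h1 h2 => (TF_ii hκ hx).2.2 i h1 (by simpa using h2)
  natT := fun w hw => natTF _ _ _ hw
  bρ := fun i hi => hb i (by simpa using hi)
  TT := fun i hi => TF_off (by simpa using hi)
  qd := qd_ray θ _ zero_le_one
  head := fun w hw h => head47 hw h
  JZ := by simp
  JT := by
    intro i hi
    rw [Finset.mem_insert, Finset.mem_singleton] at hi
    rcases hi with rfl | rfl
    · exact hV4
    · exact hV7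
  Jz := by simp

/-- **rung (iii)**: any `s > 0`, nothing to drop -/
theorem rungV_iii {θ : Fin 3 → ℝ} {V : Fin 11 → Prop} (hκ : 0 < θ 1 - θ 2) {s : ℝ} (hs : 0 < s)
    {b x : Fin 11 → ℝ} (h3 : 0 < x 3) (h4 : 0 < x 4) (h7 : 0 < x 7)
    (hb : ∀ i, i ∉ ({3, 4, 7} : Finset (Fin 11)) → b i = rhoF θ i) :
    RungD (mw monQ) (AF {3, 4, 7}) ↑({3, 4, 7} : Finset (Fin 11)) {5, 1} {k | V k} 0 (QdF θ)
      (rhoF θ) (TF {3, 4, 7} (θ 1 - θ 2) s x) (TpF (θ 1 - θ 2) s) b ∅ where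
  T0 := (TF_iii hκ hs h3 h4 h7).1
  TJ := by simp
  TZ := fun i h1 h2 => (TF_iii hκ hs h3 h4 h7).2 i (by simpa using h2)
  natT := fun w hw => natTF _ _ _ hw
  bρ := fun i hi => hb i (by simpa using hi)
  TT := fun i hi => TF_off (by simpa using hi)
  qd := qd_ray θ _ hs.le
  head := by simp
  JZ := by simp
  JT := by simp
  Jz := by simp

/-- **the ladder of case F**: the F-lemmas of the rungs `F1` (`F_b`) and `F2` (`F_a, P`) give a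
contradiction -/
theorem ladder_FL (h : Thick η p D I1 π eE fA fB V T w0 R T0 PD ν own c₀) (hη : η ≤ 1 / 8)
    {v : ℝ} (h0 : 0 < v) (h1 : v < 1)
    (hκ : 0 < p.θ 1 - p.θ 2) (h02 : p.θ 0 ≠ p.θ 2) (hV2 : V 2) (hV3 : ¬ V 3) (hV4 : ¬ V 4)
    {x2 b2 : Fin 11 → ℝ} {g1 g2 : ℝ} (hx2 : 0 < x2 3)
    (hb2 : ∀ i, i ∉ ({3} : Finset (Fin 11)) → b2 i = rhoF p.θ i) (hg1 : 0 < g1) (hg2 : 0 < g2)
    (F1 : ∀ lam lo : (Fin 11 → ℝ) → ℝ, StV p V ν own w0 R v ∅ lam lo →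
      FlV p V ν own w0 R v ∅ (1 + (p.θ 1 - p.θ 2)) 0 (rhoF p.θ) lam lo
        (fun l => l (ind1 {3}) < 0) g1)
    (F2 : ∀ lam lo : (Fin 11 → ℝ) → ℝ, StV p V ν own w0 R v {3} lam lo →
      FlV p V ν own w0 R v {3} 1 x2 b2 lam lo (fun l => l (ind1 {4, 7}) < 0) g2) : False := by
  have hg := h.tp.ok.g0.1
  obtain ⟨lam, lo, H⟩ := stage_V h h0 h1 hκ h02
  obtain ⟨lam2, lo2, H2⟩ := K2A146.rungA H (recD_V h.tp.slots ∅)
    (rungV_i hV3 hκ (b := rhoF p.θ) fun _ _ => rfl) hg1 (F1 lam lo H)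
  have H2' : StV p V ν own w0 R v {3} lam2 lo2 := by
    have e1 := A2_AF ∅ {3}
    rw [Finset.empty_union] at e1
    rw [e1, ← Finset.coe_union, Finset.empty_union] at H2
    exact H2
  obtain ⟨lam3, lo3, H3⟩ := K2A146.rungA H2' (recD_V h.tp.slots {3})
    (rungV_ii hV4 (fun h7 => by
      have := vis2 h hV3 hV4 h7
      exact absurd this (by decide)) hκ hx2 hb2) hg2 (F2 lam2 lo2 H2')
  have H3' : StV p V ν own w0 R v {3, 4, 7} lam3 lo3 := by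
    have e1 := A2_AF {3} {4, 7}
    have e2 : ({3} : Finset (Fin 11)) ∪ {4, 7} = {3, 4, 7} := by decide
    rw [e2] at e1
    rw [e1, ← Finset.coe_union, e2] at H3
    exact H3
  have hs3 : 0 < min (p.g / 4) 1 := lt_min (by linarith) one_pos
  have hg3 : 0 < p.g / 2 := by linarith
  exact K2A146.deadA H3' (recD_V h.tp.slots {3, 4, 7})
    (rungV_iii (x := fun _ => 1) (b := rhoF p.θ) hκ hs3 one_pos one_pos one_pos fun _ _ => rfl) hg3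
    (flA_of_ptH h h0 h1 (TF_iii hκ hs3 one_pos one_pos one_pos).1 (fun _ _ => rfl)
      (tie_TF h hV3 hV4 (by decide) _ _)
      (fun lam lo A φ r hP hH => F3_pt h hη hκ hV2 (min_le_left _ _) (min_le_right _ _)
        (by decide) (TF_iii hκ hs3 one_pos one_pos one_pos).1 (fun _ _ => rfl) hP hH)
      (qdOk h.tp.slots {3, 4, 7}) H3' _)


end pt

end Crest.Agent.R136.LdF7511
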