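import Crest.Agent.R136.CD6_366
import Crest.Agent.R136.C1sA_940

-- ▼ part R136/NsF1_544
section

/-!
# R136, row F, double resonance (`κ = 1`, `θ0 = θ1 / 2`), part 1 (helper544)

Kaufman's argument on a dense set `E0` of incidences over a heavy set `Z'` of heights, contradiction
form, the last level is a hypothesis (`kauf_E`).  The text is helper115's (18666) (B), checked.
-/

set_option autoImplicit false
set_option linter.unusedVariables false
set_option linter.unusedSectionVars false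

open Filter Topology Finset

namespace Crest.Agent.R136.NsF544

open Crest.Agent.R138.Ex926 (Base U)
open Crest.Agent.R138.TwA501 (energy pair_sum_le)
open Crest.Agent.R136.Gf356
open Crest.Agent.R136.CD366

variable {κ : Type} {B : Base} {G : ℕ → RCfg κ} {Leg : Set (κ → ℝ)} {ν : (κ → ℝ) → ℝ}
  {σ R D : ℝ}

open Classical in
/-- choice of the pin and of the centre for a dense set `E0` of incidences over `Z'` -/
theorem pick_E (H : RModel B G σ R Leg ν D) (p : κ → ℝ) (hp : p ∈ Leg) {ε : ℝ} (hε : 0 < ε) :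
    ∀ᶠ n in (U : Filter ℕ), ∀ Z' ⊆ (G n).Z, Z'.Nonempty → ∀ E0 ⊆ (G n).I,
      (∀ q ∈ E0, q.2 ∈ Z') →
      B.d n ^ (2 * ε) * (((G n).L.card : ℝ) * Z'.card) ≤ E0.card →
      ∃ k₀ ∈ Z', ∃ i₀ ∈ (G n).slice k₀,
      B.d n ^ ((D + 6) * ε) * (((G n).box p ε i₀ k₀).card * Z'.card) ≤
        ∑ k ∈ Z', (((((G n).box p ε i₀ k₀).filter fun i => (i, k₀) ∈ E0) ∩
          (G n).slice k).card : ℝ) := by
  have hD := H.D1
  have hD0 : 0 < D := by linarith
  have hεD : 0 < ε / D := by positivity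
  filter_upwards [H.up p hp ε hε, H.low p hp (ε / D) hεD, H.symm p hp (ε / D) hεD] with n hup
    hlow hsym Z' hZ' hZne E0 hE0 hE0Z hE0c
  by_contra hcon
  push Not at hcon
  have hpow : ∀ t : ℝ, 0 < B.d n ^ t := fun t => rpos B n t
  obtain ⟨⟨i1, k1⟩, hI1⟩ := H.nonempty n
  have hLc : (0 : ℝ) < (G n).L.card := by
    exact_mod_cast card_pos.2 ⟨i1, H.memL hI1⟩
  have hZc : (0 : ℝ) < Z'.card := by exact_mod_cast card_pos.2 hZne
  have hsL : ∀ k, (G n).slice k ⊆ (G n).L := fun k => filter_subset _ _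
  set T : ℝ := ∑ k₀ ∈ Z', ∑ i₀ ∈ (G n).slice k₀, ∑ k ∈ Z',
    (((((G n).box p ε i₀ k₀).filter fun i => (i, k₀) ∈ E0) ∩ (G n).slice k).card : ℝ) with hT
  have hTup : T ≤ B.d n ^ (-ν p + 6 * ε) * (Z'.card ^ 2 * (G n).L.card) := by
    rw [hT]
    calc ∑ k₀ ∈ Z', ∑ i₀ ∈ (G n).slice k₀, ∑ k ∈ Z',
          (((((G n).box p ε i₀ k₀).filter fun i => (i, k₀) ∈ E0) ∩ (G n).slice k).card : ℝ)
        ≤ ∑ k₀ ∈ Z', ∑ i₀ ∈ (G n).slice k₀, B.d n ^ (-ν p + 6 * ε) * Z'.card := by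
          refine sum_le_sum fun k₀ hk₀ => sum_le_sum fun i₀ hi₀ => ?_
          refine (hcon k₀ hk₀ i₀ hi₀).le.trans ?_
          have h1 := hup i₀ k₀ (H.memSlice.1 hi₀)
          have e1 : B.d n ^ (-ν p + 6 * ε) = B.d n ^ ((D + 6) * ε) * B.d n ^ (-ν p - D * ε) := by
            rw [← rpow_add']; congr 1; ring
          rw [e1, mul_assoc]
          refine mul_le_mul_of_nonneg_left ?_ (hpow _).le
          exact mul_le_mul_of_nonneg_right h1 hZc.le
      _ = ∑ k₀ ∈ Z', (((G n).slice k₀).card : ℝ) * (B.d n ^ (-ν p + 6 * ε) * Z'.card) := by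
          refine sum_congr rfl fun k₀ _ => ?_
          rw [sum_const, nsmul_eq_mul]
      _ ≤ ∑ k₀ ∈ Z', ((G n).L.card : ℝ) * (B.d n ^ (-ν p + 6 * ε) * Z'.card) := by
          refine sum_le_sum fun k₀ _ => ?_
          refine mul_le_mul_of_nonneg_right ?_ (mul_pos (hpow _) hZc).le
          exact_mod_cast card_le_card (hsL k₀)
      _ = _ := by rw [sum_const, nsmul_eq_mul]; ring
  -- the incidences of one line
  set er : ℕ → ℝ := fun i => ((Z'.filter fun k => (i, k) ∈ E0).card : ℝ) with her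
  have hsumE : ∑ i ∈ (G n).L, er i = E0.card := by
    have e1 : (E0.card : ℝ) = ∑ i ∈ (G n).L, ((E0.filter fun q => q.1 = i).card : ℝ) := by
      have := card_eq_sum_card_fiberwise (s := E0) (t := (G n).L) (f := fun q : ℕ × ℕ => q.1)
        (fun q hq => by
          have hq' : q ∈ E0 := hq
          exact H.memL (hE0 hq'))
      exact_mod_cast this
    rw [e1]
    refine sum_congr rfl fun i _ => ?_
    simp only [her]
    congr 1
    refine card_bij (fun k _ => (i, k)) ?_ ?_ ?_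
    · intro k hk
      rw [mem_filter] at hk ⊢
      exact ⟨hk.2, rfl⟩
    · intro k hk k' hk' h
      exact (Prod.mk.inj h).2
    · rintro ⟨a, k⟩ hq
      rw [mem_filter] at hq
      obtain ⟨hq1, hq2⟩ := hq
      simp only at hq2
      subst hq2
      exact ⟨k, mem_filter.2 ⟨hE0Z _ hq1, hq1⟩, rfl⟩
  have hswap : ∑ k₀ ∈ Z', ∑ k ∈ Z', ∑ i ∈ ((G n).slice k₀).filter (fun i => (i, k₀) ∈ E0) ∩
      (G n).slice k, (((G n).box p (ε / D) i k₀).card : ℝ) ≤ T := by
    rw [hT]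
    refine sum_le_sum fun k₀ _ => ?_
    rw [sum_comm]
    refine sum_le_sum fun k _ => ?_
    have e1 : ∀ i₀ ∈ (G n).slice k₀,
        (((((G n).box p ε i₀ k₀).filter fun i => (i, k₀) ∈ E0) ∩ (G n).slice k).card : ℝ) =
        ∑ i ∈ ((G n).slice k₀).filter (fun i => (i, k₀) ∈ E0) ∩ (G n).slice k,
          (if (G n).loose p ε k₀ i₀ i then (1 : ℝ) else 0) := by
      intro i₀ _
      rw [← sum_filter, sum_const, nsmul_eq_mul, mul_one]
      congr 2
      ext i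
      simp only [mem_inter, RCfg.mem_box, mem_filter]
      tauto
    rw [sum_congr rfl e1, sum_comm]
    refine sum_le_sum fun i hi => ?_
    rw [← sum_filter, sum_const, nsmul_eq_mul, mul_one]
    refine mod_cast card_le_card ?_
    intro i₀ h1
    obtain ⟨a1, a2⟩ := RCfg.mem_box.1 h1
    rw [mem_filter]
    refine ⟨a1, ?_⟩
    have h2 := hsym k₀ i i₀ (H.memSlice.1 (mem_filter.1 (mem_inter.1 hi).1).1)
      (H.memSlice.1 a1) a2
    have e2 : D * (ε / D) = ε := by field_simp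
    rwa [e2] at h2
  have hTlow : B.d n ^ (-ν p + 5 * ε) * (Z'.card ^ 2 * (G n).L.card) ≤ T := by
    refine le_trans ?_ hswap
    have e1 : B.d n ^ (-ν p + ε / D) * ∑ k₀ ∈ Z', ∑ k ∈ Z',
        ((((G n).slice k₀).filter (fun i => (i, k₀) ∈ E0) ∩ (G n).slice k).card : ℝ) ≤
        ∑ k₀ ∈ Z', ∑ k ∈ Z', ∑ i ∈ ((G n).slice k₀).filter (fun i => (i, k₀) ∈ E0) ∩
          (G n).slice k, (((G n).box p (ε / D) i k₀).card : ℝ) := by
      rw [mul_sum]
      refine sum_le_sum fun k₀ _ => ?_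
      rw [mul_sum]
      refine sum_le_sum fun k _ => ?_
      rw [mul_comm, ← nsmul_eq_mul, ← sum_const]
      refine sum_le_sum fun i hi => ?_
      exact hlow i k₀ (H.memSlice.1 (mem_filter.1 (mem_inter.1 hi).1).1)
    refine le_trans ?_ e1
    have e2 : ∑ i ∈ (G n).L, er i ^ 2 ≤ ∑ k₀ ∈ Z', ∑ k ∈ Z',
        ((((G n).slice k₀).filter (fun i => (i, k₀) ∈ E0) ∩ (G n).slice k).card : ℝ) := by
      have e3 : ∀ k₀ ∈ Z', ∑ k ∈ Z',
          ((((G n).slice k₀).filter (fun i => (i, k₀) ∈ E0) ∩ (G n).slice k).card : ℝ) =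
          ∑ i ∈ ((G n).slice k₀).filter (fun i => (i, k₀) ∈ E0),
            (((G n).hts i ∩ Z').card : ℝ) := fun k₀ _ =>
        sum_slice_inter' (G n) _ Z' ((filter_subset _ _).trans (hsL k₀)) hZ'
      rw [sum_congr rfl e3]
      have e4 : ∀ k₀ ∈ Z', ∑ i ∈ ((G n).slice k₀).filter (fun i => (i, k₀) ∈ E0),
          (((G n).hts i ∩ Z').card : ℝ) =
          ∑ i ∈ (G n).L, (if (i, k₀) ∈ E0 then (((G n).hts i ∩ Z').card : ℝ) else 0) := by
        intro k₀ _
        rw [← sum_filter]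
        refine sum_congr ?_ fun _ _ => rfl
        ext i
        rw [mem_filter, mem_filter, RCfg.mem_slice]
        exact ⟨fun h => ⟨h.1.1, h.2⟩, fun h => ⟨⟨h.1, hE0 h.2⟩, h.2⟩⟩
      rw [sum_congr rfl e4, sum_comm]
      refine sum_le_sum fun i _ => ?_
      rw [← sum_filter, sum_const, nsmul_eq_mul, sq]
      refine mul_le_mul_of_nonneg_left ?_ (Nat.cast_nonneg _)
      have e6 : (Z'.filter fun k => (i, k) ∈ E0) ⊆ (G n).hts i ∩ Z' := by
        intro k hk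
        rw [mem_filter] at hk
        rw [mem_inter, RCfg.mem_hts]
        exact ⟨⟨hZ' hk.1, hE0 hk.2⟩, hk.1⟩
      exact Nat.cast_le.2 (card_le_card e6)
    have e5 : (E0.card : ℝ) ^ 2 ≤ (G n).L.card * ∑ i ∈ (G n).L, er i ^ 2 := by
      rw [← hsumE]
      exact sq_sum_le_card_mul_sum_sq
    have e7 : (B.d n ^ (2 * ε) * (((G n).L.card : ℝ) * Z'.card)) ^ 2 ≤
        (G n).L.card * ∑ i ∈ (G n).L, er i ^ 2 := by
      refine le_trans (pow_le_pow_left₀ ?_ hE0c 2) e5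
      have := hpow (2 * ε)
      positivity
    have e8 : (B.d n ^ (2 * ε)) ^ 2 * (G n).L.card * Z'.card ^ 2 ≤
        ∑ i ∈ (G n).L, er i ^ 2 := by
      refine le_of_mul_le_mul_left ?_ hLc
      calc _ = (B.d n ^ (2 * ε) * (((G n).L.card : ℝ) * Z'.card)) ^ 2 := by ring
        _ ≤ _ := e7
    have e9 : B.d n ^ (-ν p + 5 * ε) ≤ B.d n ^ (-ν p + ε / D) * (B.d n ^ (2 * ε)) ^ 2 := by
      rw [sq, ← rpow_add', ← rpow_add']
      refine rpow_anti B n ?_
      have : ε / D ≤ ε := div_le_self hε.le hD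
      linarith
    calc B.d n ^ (-ν p + 5 * ε) * (Z'.card ^ 2 * (G n).L.card)
        ≤ B.d n ^ (-ν p + ε / D) * (B.d n ^ (2 * ε)) ^ 2 * (Z'.card ^ 2 * (G n).L.card) :=
          mul_le_mul_of_nonneg_right e9 (by positivity)
      _ = B.d n ^ (-ν p + ε / D) * ((B.d n ^ (2 * ε)) ^ 2 * (G n).L.card * Z'.card ^ 2) := by ring
      _ ≤ _ := mul_le_mul_of_nonneg_left (e8.trans e2) (hpow _).le
  have hfin := hTlow.trans hTup
  have hpos : (0 : ℝ) < Z'.card ^ 2 * (G n).L.card := by positivity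
  have h1 := le_of_mul_le_mul_right hfin hpos
  have h2 : B.d n ^ (-ν p + 6 * ε) < B.d n ^ (-ν p + 5 * ε) :=
    Real.rpow_lt_rpow_of_exponent_gt (B.pos n) (B.lt n) (by linarith)
  linarith

open Classical in
/-- **Kaufman on a dense set of incidences over a heavy set of heights**, contradiction form -/
theorem kauf_E (H : RModel B G σ R Leg ν D) (pS pT r : κ → ℝ) (hpS : pS ∈ Leg)
    (hpT : pT ∈ Leg) (hr : r ∈ Leg) (hTr : ∀ j, pT j ≤ r j) (J : ℕ) (x b : ℕ → ℝ)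
    (Q : ℕ → κ → ℝ) (hQ : ∀ j < J, Q j ∈ Leg) {CT CN Cb CD ε s : ℝ}
    (hCT : 0 < CT) (hCN : 0 < CN) (hCb : 0 ≤ Cb) (hε : 0 < ε)
    (hnum : ∀ j < J, (ν pT - ν r) + ((D ^ 2 + 1) * CT + D * CN + Cb + 2 * D + 14) * ε ≤
      (ν pS - ν (Q j)) + b j)
    (hs : ((D ^ 2 + 1) * CT + 2 * D + 13) * ε ≤ s)
    (Dist : ℕ → ℕ → ℕ → ℕ → ℝ)
    (Hy : ∀ᶠ n in (U : Filter ℕ), ∃ Z' ⊆ (G n).Z, Z'.Nonempty ∧ ∃ E0 ⊆ (G n).I,
      (∀ q ∈ E0, q.2 ∈ Z') ∧
      B.d n ^ (2 * ε) * (((G n).L.card : ℝ) * Z'.card) ≤ E0.card ∧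
      ∀ k₀ ∈ Z', ∀ i₀ ∈ (G n).slice k₀,
        (∀ i ∈ (G n).box pS ε i₀ k₀, ∀ i' ∈ (G n).box pS ε i₀ k₀,
          Dist n k₀ i i' ≤ B.d n ^ (x 0 - CD * ε)) ∧
        (∀ j < J, ∀ i ∈ (G n).box pS ε i₀ k₀, ∀ i' ∈ (G n).box pS ε i₀ k₀,
          Dist n k₀ i i' ≤ B.d n ^ (x j - CD * ε) → (G n).loose (Q j) (CN * ε) k₀ i i') ∧
        (∀ k ∈ Z', ∀ i ∈ (G n).box pS ε i₀ k₀, ∀ i' ∈ (G n).box pS ε i₀ k₀,
          (i, k) ∈ (G n).I → (i', k) ∈ (G n).I → (G n).loose pT (CT * ε) k i i') ∧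
        (∀ j < J, ∀ i ∈ (G n).box pS ε i₀ k₀, ∀ i' ∈ (G n).box pS ε i₀ k₀,
          B.d n ^ (x (j + 1) - CD * ε) < Dist n k₀ i i' →
          ((Z'.filter fun k => (i, k) ∈ (G n).I ∧ (i', k) ∈ (G n).I ∧
            (G n).loose r (D ^ 5 * (CT * ε)) k i i').card : ℝ) ≤
              B.d n ^ (b j - Cb * ε) * Z'.card) ∧
        (∀ i ∈ (G n).box pS ε i₀ k₀, (i, k₀) ∈ E0 →
          ((((G n).box pS ε i₀ k₀).filter fun i' => (i', k₀) ∈ E0 ∧
            Dist n k₀ i i' ≤ B.d n ^ (x J - CD * ε)).card : ℝ) ≤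
              B.d n ^ (ν pT - ν r + s) * ((G n).box pS ε i₀ k₀).card)) : False := by
  have hD := H.D1
  have hD0 : 0 < D := by linarith
  have hCTε : 0 < CT * ε := by positivity
  have hCNε : 0 < CN * ε := by positivity
  have hupQ : ∀ᶠ n in (U : Filter ℕ), ∀ j ∈ range J, ∀ i k, (i, k) ∈ (G n).I →
      (((G n).box (Q j) (CN * ε) i k).card : ℝ) ≤ B.d n ^ (-ν (Q j) - D * (CN * ε)) := by
    rw [Filter.eventually_all_finset]
    intro j hj
    exact H.up (Q j) (hQ j (mem_range.1 hj)) (CN * ε) hCNε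
  suffices hfalse : ∀ᶠ n in (U : Filter ℕ), False by
    obtain ⟨n, hn⟩ := hfalse.exists
    exact hn
  filter_upwards [Hy, pick_E H pS hpS hε, H.low pS hpS ε hε, hupQ,
    H.exists_lab_loose pT r hpT hr hTr hCTε,
    ev_small B hε ((J : ℝ) + 2)] with n hH hpick hlow hupn hcell hcJ
  have hpow : ∀ t : ℝ, 0 < B.d n ^ t := fun t => rpos B n t
  obtain ⟨Z', hZ', hne, E0, hE0, hE0Z, hE0c, hH⟩ := hH
  obtain ⟨k₀, hk₀, i₀, hi₀, hinc⟩ := hpick Z' hZ' hne E0 hE0 hE0Z hE0c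
  obtain ⟨hD1, hnear, hinT, hhts, hlast⟩ := hH k₀ hk₀ i₀ hi₀
  have hI0 := H.memSlice.1 hi₀
  have hSlow := hlow i₀ k₀ hI0
  set S0 := (G n).box pS ε i₀ k₀ with hS0
  set S := S0.filter (fun i => (i, k₀) ∈ E0) with hS
  have hSS0 : S ⊆ S0 := filter_subset _ _
  have hSI : ∀ i ∈ S, (i, k₀) ∈ (G n).I := fun i hi =>
    H.memSlice.1 (RCfg.box_subset_slice (hSS0 hi))
  have hS0c : (0 : ℝ) < S0.card := by
    exact_mod_cast card_pos.2 ⟨i₀, H.self_mem_box pS ε hI0⟩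
  have hSle : (S.card : ℝ) ≤ S0.card := by exact_mod_cast card_le_card hSS0
  have hZc : (0 : ℝ) < Z'.card := by exact_mod_cast card_pos.2 hne
  -- labels
  have hlab : ∀ k ∈ Z', ∃ lab : ℕ → ℕ, (∀ t ∈ S ∩ (G n).slice k, ∀ t' ∈ S ∩ (G n).slice k,
      lab t = lab t' → (G n).loose r (D ^ 5 * (CT * ε)) k t t') ∧
      (((S ∩ (G n).slice k).image lab).card : ℝ) ≤
        B.d n ^ (-(ν pT - ν r) - (D ^ 2 + 1) * (CT * ε)) := by
    intro k hk
    refine hcell k (S ∩ (G n).slice k) inter_subset_right ?_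
    intro i hi i' hi'
    rw [mem_inter] at hi hi'
    exact hinT k hk i (hSS0 hi.1) i' (hSS0 hi'.1) (H.memSlice.1 hi.2) (H.memSlice.1 hi'.2)
  choose! lab hlab1 hlab2 using hlab
  set M : ℝ := B.d n ^ (-(ν pT - ν r) - (D ^ 2 + 1) * (CT * ε)) with hM
  have hen := energy (S := S) (K := Z') (fun k => S ∩ (G n).slice k)
    (fun k _ => inter_subset_left) (fun k i => ((lab k i : ℕ) : ℤ))
    (fun k i i' => (i, k) ∈ (G n).I ∧ (i', k) ∈ (G n).I ∧
      (G n).loose r (D ^ 5 * (CT * ε)) k i i') M (by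
      intro k hk i hi i' hi' hl
      have hl' : lab k i = lab k i' := by exact_mod_cast hl
      exact ⟨H.memSlice.1 (mem_inter.1 hi).2, H.memSlice.1 (mem_inter.1 hi').2,
        hlab1 k hk i hi i' hi' hl'⟩) (by
      intro k hk
      refine le_trans ?_ (hlab2 k hk)
      have e1 : ((S ∩ (G n).slice k).image fun i => ((lab k i : ℕ) : ℤ)) =
          ((S ∩ (G n).slice k).image (lab k)).image (fun m : ℕ => (m : ℤ)) := by
        rw [Finset.image_image]; rfl
      rw [e1]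
      exact_mod_cast card_image_le)
  set h : ℕ → ℕ → ℝ := fun i i' => ((Z'.filter fun k => (i, k) ∈ (G n).I ∧ (i', k) ∈ (G n).I ∧
      (G n).loose r (D ^ 5 * (CT * ε)) k i i').card : ℝ) with hh
  set bb : ℕ → ℝ := fun j => (if j < J then B.d n ^ (b j - Cb * ε) else 1) * Z'.card with hbb
  set aa : ℕ → ℝ := fun j => (if j < J then B.d n ^ (ν pS - ν (Q j) - (D * CN + 1) * ε) else
    B.d n ^ (ν pT - ν r + s)) * S0.card with haa
  have hpair := pair_sum_le (S := S) h (Dist n k₀) (fun j => B.d n ^ (x j - CD * ε)) bb J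
    (by
      intro j _
      simp only [hbb]
      split_ifs
      · exact (mul_pos (hpow _) hZc).le
      · positivity)
    (fun i hi i' hi' => hD1 i (hSS0 hi) i' (hSS0 hi'))
    (by
      intro j hj i hi i' hi' hd
      simp only [hbb, if_pos hj]
      exact hhts j hj i (hSS0 hi) i' (hSS0 hi') hd)
    (by
      intro i hi i' hi'
      simp only [hbb, lt_irrefl, if_false, one_mul, hh]
      exact_mod_cast (card_filter_le _ _))
    aa (by
      intro j hj i hi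
      simp only [haa]
      by_cases hjJ : j < J
      · rw [if_pos hjJ]
        have hsub : (S.filter fun i' => Dist n k₀ i i' ≤ B.d n ^ (x j - CD * ε)) ⊆
            (G n).box (Q j) (CN * ε) i k₀ := by
          intro i' hi'
          rw [mem_filter] at hi'
          exact RCfg.mem_box.2 ⟨RCfg.box_subset_slice (hSS0 hi'.1),
            hnear j hjJ i (hSS0 hi) i' (hSS0 hi'.1) hi'.2⟩
        have h1 := hupn j (mem_range.2 hjJ) i k₀ (hSI i hi)
        have h2 : ((S.filter fun i' => Dist n k₀ i i' ≤ B.d n ^ (x j - CD * ε)).card : ℝ) ≤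
            B.d n ^ (-ν (Q j) - D * (CN * ε)) :=
          le_trans (by exact_mod_cast card_le_card hsub) h1
        refine h2.trans ?_
        have e1 : B.d n ^ (-ν (Q j) - D * (CN * ε)) =
            B.d n ^ (ν pS - ν (Q j) - (D * CN + 1) * ε) * B.d n ^ (-ν pS + ε) := by
          rw [← rpow_add']; congr 1; ring
        rw [e1]
        exact mul_le_mul_of_nonneg_left hSlow (hpow _).le
      · rw [if_neg hjJ]
        have hj2 : j = J := by omega
        subst hj2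
        have hiE : (i, k₀) ∈ E0 := (mem_filter.1 hi).2
        refine le_trans ?_ (hlast i (hSS0 hi) hiE)
        refine mod_cast card_le_card ?_
        intro i' hi'
        rw [mem_filter] at hi' ⊢
        exact ⟨hSS0 hi'.1, (mem_filter.1 hi'.1).2, hi'.2⟩)
  -- combine
  set E : ℝ := ((D ^ 2 + 1) * CT + 2 * D + 13) * ε with hE
  have hterm : ∀ j ∈ range (J + 1), aa j * bb j ≤
      B.d n ^ (ν pT - ν r + E) * (S0.card * Z'.card) := by
    intro j hj
    have hjJ : j ≤ J := by simpa [Nat.lt_succ_iff] using hj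
    have hSZ : (0 : ℝ) ≤ S0.card * Z'.card := by positivity
    simp only [haa, hbb]
    by_cases hj1 : j < J
    · rw [if_pos hj1, if_pos hj1]
      have h1 := hnum j hj1
      have e1 : B.d n ^ (ν pS - ν (Q j) - (D * CN + 1) * ε) * (S0.card : ℝ) *
          (B.d n ^ (b j - Cb * ε) * Z'.card) =
          B.d n ^ (ν pS - ν (Q j) + b j - (D * CN + 1) * ε - Cb * ε) * (S0.card * Z'.card) := by
        have : ν pS - ν (Q j) + b j - (D * CN + 1) * ε - Cb * ε =
          (ν pS - ν (Q j) - (D * CN + 1) * ε) + (b j - Cb * ε) := by ring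
        rw [this, rpow_add']; ring
      rw [e1]
      refine mul_le_mul_of_nonneg_right (rpow_anti B n ?_) hSZ
      rw [hE]
      linarith
    · rw [if_neg hj1, if_neg hj1, one_mul]
      have e1 : B.d n ^ (ν pT - ν r + s) * (S0.card : ℝ) * (Z'.card : ℝ) =
          B.d n ^ (ν pT - ν r + s) * (S0.card * Z'.card) := by ring
      rw [e1]
      exact mul_le_mul_of_nonneg_right (rpow_anti B n (by linarith)) hSZ
  have hsum : ∑ j ∈ range (J + 1), aa j * bb j ≤ ((J : ℝ) + 1) *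
      (B.d n ^ (ν pT - ν r + E) * (S0.card * Z'.card)) := by
    refine (sum_le_sum hterm).trans (le_of_eq ?_)
    rw [sum_const, card_range, nsmul_eq_mul]
    push_cast
    ring
  have hfinal : (B.d n ^ ((D + 6) * ε) * ((S0.card : ℝ) * Z'.card)) ^ 2 ≤
      (Z'.card : ℝ) * (M * (S0.card * (((J : ℝ) + 1) *
      (B.d n ^ (ν pT - ν r + E) * (S0.card * Z'.card))))) := by
    have h4 : (B.d n ^ ((D + 6) * ε) * ((S0.card : ℝ) * Z'.card)) ^ 2 ≤
        (∑ k ∈ Z', ((S ∩ (G n).slice k).card : ℝ)) ^ 2 := by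
      refine pow_le_pow_left₀ ?_ hinc 2
      have := hpow ((D + 6) * ε)
      positivity
    refine h4.trans (hen.trans ?_)
    have hM0 : 0 ≤ M := (hpow _).le
    have hsum0 : (0 : ℝ) ≤ ((J : ℝ) + 1) * (B.d n ^ (ν pT - ν r + E) * (S0.card * Z'.card)) := by
      have := hpow (ν pT - ν r + E)
      positivity
    have h5 : ∑ i ∈ S, ∑ i' ∈ S, h i i' ≤ S0.card * (((J : ℝ) + 1) *
        (B.d n ^ (ν pT - ν r + E) * (S0.card * Z'.card))) :=
      hpair.trans ((mul_le_mul_of_nonneg_left hsum (Nat.cast_nonneg _)).trans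
        (mul_le_mul_of_nonneg_right hSle hsum0))
    exact mul_le_mul_of_nonneg_left (mul_le_mul_of_nonneg_left h5 hM0) hZc.le
  have hP : (0 : ℝ) < (S0.card * Z'.card) ^ 2 := by positivity
  have hfin2 : (B.d n ^ ((D + 6) * ε)) ^ 2 ≤ ((J : ℝ) + 1) *
      (M * B.d n ^ (ν pT - ν r + E)) := by
    refine le_of_mul_le_mul_right ?_ hP
    calc (B.d n ^ ((D + 6) * ε)) ^ 2 * ((S0.card : ℝ) * Z'.card) ^ 2
        = (B.d n ^ ((D + 6) * ε) * ((S0.card : ℝ) * Z'.card)) ^ 2 := by ring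
      _ ≤ _ := hfinal
      _ = _ := by ring
  have e1 : (B.d n ^ ((D + 6) * ε)) ^ 2 = B.d n ^ ((2 * D + 12) * ε) := by
    rw [sq, ← rpow_add']; congr 1; ring
  have e2 : M * B.d n ^ (ν pT - ν r + E) =
      B.d n ^ ((2 * D + 12) * ε) * B.d n ^ ε := by
    rw [hM, ← rpow_add', ← rpow_add']
    congr 1
    rw [hE]
    ring
  rw [e1, e2] at hfin2
  have h1 := hpow ((2 * D + 12) * ε)
  have h2 := hpow ε
  have h3 : ((J : ℝ) + 1) * B.d n ^ ε < 1 := by
    have : ((J : ℝ) + 2) * B.d n ^ ε = ((J : ℝ) + 1) * B.d n ^ ε + B.d n ^ ε := by ring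
    linarith
  have h4 : ((J : ℝ) + 1) * (B.d n ^ ((2 * D + 12) * ε) * B.d n ^ ε) <
      B.d n ^ ((2 * D + 12) * ε) := by
    calc ((J : ℝ) + 1) * (B.d n ^ ((2 * D + 12) * ε) * B.d n ^ ε) =
          B.d n ^ ((2 * D + 12) * ε) * (((J : ℝ) + 1) * B.d n ^ ε) := by ring
      _ < B.d n ^ ((2 * D + 12) * ε) * 1 := mul_lt_mul_of_pos_left h3 h1
      _ = _ := mul_one _
  linarith

end Crest.Agent.R136.NsF544
end

-- ▼ part R136/NsF2_544

/-!
# R136, row F, double resonance, part 2 (helper544): the data `K1F`, the two halves of the argument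

* `K1F` : `N` with loss `g` (linear up to `dl`), `(P, X)` decoupled from the frozen slots, `C` with a
  positive rate only in the unfrozen window.
* `cells_F` : frozen -> unfrozen transfer at one incidence.
* `spread_F` : `P' = P - μ X` is not concentrated at a dense set of incidences over a heavy set.
-/

set_option autoImplicit false
set_option linter.unusedVariables false
set_option linter.unusedSectionVars false

open Filter Topology Finset

namespace Crest.Agent.R136.NsF544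

open Crest.Agent.R138.Ex926 (Base U)
open Crest.Agent.R138.TwC501 (root_lin)
open Crest.Agent.R136.Gf356
open Crest.Agent.R136.CD366
open Crest.Agent.R136.C1s940 (K3w K3core_w)
open Crest.Agent.R136.Fe1355 (RawTw shift_R)

variable {κ : Type} [DecidableEq κ] {B : Base} {G : ℕ → RCfg κ} {Leg : Set (κ → ℝ)}
  {ν : (κ → ℝ) → ℝ} {σ R D : ℝ} {Fz : Finset κ} {sN sP sX sC : κ} {f : ℕ → ℕ → ℝ}
  {R0 C1 a dl m : ℝ} {g : ℝ → ℝ → ℝ} {β : ℝ → ℝ → ℝ} {γ : ℝ → ℝ → ℝ} {γ0 : ℝ → ℝ}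

/-- **the data of `kappa_one_F`** -/
structure K1F (B : Base) (G : ℕ → RCfg κ) (Leg : Set (κ → ℝ)) (ν : (κ → ℝ) → ℝ) (Fz : Finset κ)
    (sN sP sX sC : κ) (f : ℕ → ℕ → ℝ) (R0 C1 a dl m : ℝ) (g : ℝ → ℝ → ℝ) (β : ℝ → ℝ → ℝ)
    (γ : ℝ → ℝ → ℝ) (γ0 : ℝ → ℝ) : Prop where
  R0_pos : 0 < R0
  C1_one : 1 ≤ C1
  m_pos : 0 < m
  a0 : 0 ≤ a
  dl0 : 0 ≤ dl
  NP : sN ≠ sP
  NX : sN ≠ sX
  NC : sN ≠ sC
  PX : sP ≠ sX
  PC : sP ≠ sC
  XC : sX ≠ sC
  leg : ∀ y n p x c' : ℝ, 0 ≤ y → y ≤ R0 → 0 ≤ n → n ≤ y → 0 ≤ p → p ≤ y → 0 ≤ x → x ≤ y →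
    0 ≤ c' → c' ≤ y → bx Fz sN sP sX sC y n p x c' ∈ Leg
  leg0 : ∀ p x c' : ℝ, 0 ≤ p → p ≤ R0 → 0 ≤ x → x ≤ R0 → 0 ≤ c' → c' ≤ R0 →
    bx ∅ sN sP sX sC 0 0 p x c' ∈ Leg
  bd : ∀ᶠ n in (U : Filter ℕ), ∀ k ∈ (G n).Z, |(G n).z k| ≤ 1 ∧ |f n k| ≤ 1
  ev : ∀ y : ℝ, 0 ≤ y → y ≤ R0 → ∀ ε : ℝ, 0 < ε → ∀ᶠ n in (U : Filter ℕ), ∀ k₀ k i i',
    (i, k₀) ∈ (G n).I → (i', k₀) ∈ (G n).I → (i, k) ∈ (G n).I → (i', k) ∈ (G n).I →
    (G n).loose (bx Fz sN sP sX sC y 0 0 0 0) ε k₀ i i' →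
    (G n).loose (bx Fz sN sP sX sC y 0 0 0 0) (C1 * ε) k i i' ∧
    |(G n).rel k i i' sN - ((G n).rel k₀ i i' sN + ((G n).z k - (G n).z k₀) * (G n).rel k₀ i i' sP
      - (f n k - f n k₀) * ((G n).rel k₀ i i' sX +
        ((G n).z k - (G n).z k₀) * (G n).rel k₀ i i' sC))| ≤ B.d n ^ (y - C1 * ε)
  evP : ∀ ε : ℝ, 0 < ε → ∀ᶠ n in (U : Filter ℕ), ∀ k₀ k i i',
    (i, k₀) ∈ (G n).I → (i', k₀) ∈ (G n).I → (i, k) ∈ (G n).I → (i', k) ∈ (G n).I →
    |(G n).rel k i i' sP - ((G n).rel k₀ i i' sP - (f n k - f n k₀) * (G n).rel k₀ i i' sC)| ≤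
      B.d n ^ (R0 - ε)
  evX : ∀ ε : ℝ, 0 < ε → ∀ᶠ n in (U : Filter ℕ), ∀ k₀ k i i',
    (i, k₀) ∈ (G n).I → (i', k₀) ∈ (G n).I → (i, k) ∈ (G n).I → (i', k) ∈ (G n).I →
    |(G n).rel k i i' sX - ((G n).rel k₀ i i' sX + ((G n).z k - (G n).z k₀) *
      (G n).rel k₀ i i' sC)| ≤ B.d n ^ (R0 - ε)
  bd1 : ∀ ε : ℝ, 0 < ε → ∀ᶠ n in (U : Filter ℕ), ∀ k i i', (i, k) ∈ (G n).I →
    (i', k) ∈ (G n).I → ∀ s, |(G n).rel k i i' s| ≤ B.d n ^ (-ε)
  add : ∀ ε : ℝ, 0 < ε → ∀ᶠ n in (U : Filter ℕ), ∀ k i e l, (i, k) ∈ (G n).I →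
    (e, k) ∈ (G n).I → (l, k) ∈ (G n).I → ∀ s, s = sP ∨ s = sX →
    |(G n).rel k i l s - (G n).rel k i e s - (G n).rel k e l s| ≤ B.d n ^ (R0 - ε)
  /-- splitting in the frozen window -/
  nu : ∀ y n p x c' : ℝ, 0 ≤ y → y ≤ R0 → 0 ≤ n → n ≤ y → 0 ≤ p → p ≤ y → 0 ≤ x → x ≤ y →
    0 ≤ c' → c' ≤ y → ν (bx Fz sN sP sX sC y n p x c') =
      ν (bx Fz sN sP sX sC y 0 0 0 0) - g y n - β p x - γ y c'
  /-- splitting in the unfrozen window, same `β` -/
  nu0 : ∀ p x c' : ℝ, 0 ≤ p → p ≤ R0 → 0 ≤ x → x ≤ R0 → 0 ≤ c' → c' ≤ R0 →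
    ν (bx ∅ sN sP sX sC 0 0 p x c') = ν 0 - β p x - γ0 c'
  g_zero : ∀ y : ℝ, 0 ≤ y → y ≤ R0 → g y 0 = 0
  g_low : ∀ y t : ℝ, 0 ≤ t → t ≤ y → y ≤ R0 → a * t ≤ g y t
  g_up : ∀ y : ℝ, 0 ≤ y → y ≤ R0 → g y y ≤ (a + dl) * y
  X_full : ∀ t : ℝ, 0 ≤ t → t ≤ R0 → t ≤ β 0 t
  C_rate0 : ∀ t : ℝ, 0 ≤ t → t ≤ R0 → m * t ≤ γ0 t

theorem bx_empty : bx (∅ : Finset κ) sN sP sX sC 0 0 0 0 0 = 0 := by
  funext s
  unfold bx
  split_ifs <;> rfl

section basic

variable (K : K1F B G Leg ν Fz sN sP sX sC f R0 C1 a dl m g β γ γ0)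

include K

theorem K1F.b00 : β 0 0 = 0 := by
  have hR := K.R0_pos
  have h1 := K.nu0 0 0 0 le_rfl hR.le le_rfl hR.le le_rfl hR.le
  rw [bx_empty] at h1
  have h2 := K.X_full 0 le_rfl hR.le
  have h3 := K.C_rate0 0 le_rfl hR.le
  linarith

theorem K1F.g00 : γ0 0 = 0 := by
  have hR := K.R0_pos
  have h1 := K.nu0 0 0 0 le_rfl hR.le le_rfl hR.le le_rfl hR.le
  rw [bx_empty] at h1
  have h2 := K.b00
  linarith

theorem K1F.gy0 {y : ℝ} (h0 : 0 ≤ y) (h1 : y ≤ R0) : γ y 0 = 0 := by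
  have h2 := K.nu y 0 0 0 0 h0 h1 le_rfl h0 le_rfl h0 le_rfl h0 le_rfl h0
  have h3 := K.b00
  have h4 := K.g_zero y h0 h1
  linarith

end basic

/-- **the visible shift inside `K1F`** -/
theorem K1F.shift (H : RModel B G σ R Leg ν D)
    (K : K1F B G Leg ν Fz sN sP sX sC f R0 C1 a dl m g β γ γ0)
    (htw : RawTw B G fun n k k' => f n k' - f n k) {t : ℝ} (ht : 0 ≤ t)
    (hy : t ≤ R0) : β t t - β t 0 ≤ g t t := by
  have hC1 := K.C1_one
  have hC10 : 0 < C1 := by linarith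
  have key := shift_R H (bx Fz sN sP sX sC t t t 0 t) (bx Fz sN sP sX sC t t t t t)
    (bx Fz sN sP sX sC t 0 0 0 0) (bx Fz sN sP sX sC t t 0 0 0)
    (K.leg t t t 0 t ht hy ht le_rfl ht le_rfl le_rfl ht ht le_rfl)
    (K.leg t t t t t ht hy ht le_rfl ht le_rfl ht le_rfl ht le_rfl)
    (K.leg t 0 0 0 0 ht hy le_rfl ht le_rfl ht le_rfl ht le_rfl ht)
    (K.leg t t 0 0 0 ht hy ht le_rfl le_rfl ht le_rfl ht le_rfl ht)
    (fun s => bx_mono le_rfl ht le_rfl le_rfl le_rfl s) sX sN (y := t)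
    (by rw [bx_X K.NX K.PX])
    (by
      intro s hs
      unfold bx
      by_cases h1 : s = sN
      · rw [if_pos h1, if_pos h1]
      · rw [if_neg h1, if_neg h1]
        by_cases h2 : s = sP
        · rw [if_pos h2, if_pos h2]
        · rw [if_neg h2, if_neg h2, if_neg hs, if_neg hs])
    (by rw [bx_N]) (fun n k k' => -(f n k' - f n k)) (by
      intro ε hε
      filter_upwards [htw ε hε] with n hn i hi T hT hq
      refine hn i hi T hT fun q hq' => ?_
      have := hq q hq'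
      rwa [abs_neg] at this) (by
      intro C0 hC0
      refine ⟨(C1 * C0 + C0 + 1), by positivity, fun ε hε => ?_⟩
      have hC0ε : 0 < C0 * ε := by positivity
      filter_upwards [K.ev t ht hy (C0 * ε) hC0ε, K.bd, ev_const_le B hε 8] with n hev hbd hc8
        k hk k' hk' i i' hi hi' hl hl' hlo
      have hpow : ∀ t : ℝ, 0 < B.d n ^ t := fun t => rpos B n t
      have hlo0 : (G n).loose (bx Fz sN sP sX sC t 0 0 0 0) (C0 * ε) k i i' :=
        H.loose_mono (fun s => bx_mono le_rfl ht ht le_rfl ht s) le_rfl hlo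
      obtain ⟨g1, g2⟩ := hev k k' i i' hi hl hi' hl' hlo0
      refine ⟨H.loose_mono (fun _ => le_rfl) (by nlinarith) g1, ?_⟩
      have gN := hlo sN
      have gP := hlo sP
      have gC := hlo sC
      rw [bx_N, H.base n] at gN
      rw [bx_P K.NP, H.base n] at gP
      rw [bx_C K.NC K.PC K.XC, H.base n] at gC
      have hu : |(G n).z k' - (G n).z k| ≤ 2 := by
        refine (abs_sub _ _).trans ?_
        have := (hbd k' hk').1; have := (hbd k hk).1; linarith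
      have hg : |f n k' - f n k| ≤ 2 := by
        refine (abs_sub _ _).trans ?_
        have := (hbd k' hk').2; have := (hbd k hk).2; linarith
      set b := B.d n ^ (t - (C1 * C0 + C0) * ε) with hb
      have hb0 : 0 < b := hpow _
      have hCC : 0 ≤ C1 * C0 * ε := by positivity
      have k1 : B.d n ^ (t - C1 * (C0 * ε)) ≤ b := rpow_anti B n (by
        have : 0 ≤ C0 * ε := hC0ε.le
        nlinarith)
      have k2 : B.d n ^ (t - C0 * ε) ≤ b := rpow_anti B n (by nlinarith)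
      have m1 : |((G n).z k' - (G n).z k) * (G n).rel k i i' sP| ≤ 2 * b := by
        rw [abs_mul]
        exact mul_le_mul hu (gP.trans k2) (abs_nonneg _) (by norm_num)
      have m2 : |(f n k' - f n k) * (((G n).z k' - (G n).z k) * (G n).rel k i i' sC)| ≤
          4 * b := by
        rw [abs_mul, abs_mul]
        calc |f n k' - f n k| * (|(G n).z k' - (G n).z k| * |(G n).rel k i i' sC|)
            ≤ 2 * (2 * b) := by
              refine mul_le_mul hg ?_ (by positivity) (by norm_num)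
              exact mul_le_mul hu (gC.trans k2) (abs_nonneg _) (by norm_num)
          _ = 4 * b := by ring
      have m3 : |(G n).rel k' i i' sN - -(f n k' - f n k) * (G n).rel k i i' sX| ≤ 8 * b := by
        have e1 : (G n).rel k' i i' sN - -(f n k' - f n k) * (G n).rel k i i' sX =
            ((G n).rel k' i i' sN - ((G n).rel k i i' sN +
              ((G n).z k' - (G n).z k) * (G n).rel k i i' sP - (f n k' - f n k) *
              ((G n).rel k i i' sX + ((G n).z k' - (G n).z k) * (G n).rel k i i' sC))) +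
            (G n).rel k i i' sN + ((G n).z k' - (G n).z k) * (G n).rel k i i' sP -
            (f n k' - f n k) * (((G n).z k' - (G n).z k) * (G n).rel k i i' sC) := by ring
        rw [e1]
        have n1 := abs_le.1 (g2.trans k1)
        have n2 := abs_le.1 (gN.trans k2)
        have n3 := abs_le.1 m1
        have n4 := abs_le.1 m2
        rw [abs_le]
        constructor <;> linarith [n1.1, n1.2, n2.1, n2.2, n3.1, n3.2, n4.1, n4.2]
      refine m3.trans (absorb B ?_)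
      have e : -(t - (C1 * C0 + C0) * ε - (t - (C1 * C0 + C0 + 1) * ε)) = -ε := by ring
      rw [e]
      exact hc8)
  rw [K.nu t t t 0 t ht hy ht le_rfl ht le_rfl le_rfl ht ht le_rfl,
    K.nu t t t t t ht hy ht le_rfl ht le_rfl ht le_rfl ht le_rfl,
    K.nu t t 0 0 0 ht hy ht le_rfl le_rfl ht le_rfl ht le_rfl ht] at key
  have h0 := K.b00
  have h1 := K.gy0 ht hy
  linarith

open Classical in
set_option maxHeartbeats 800000 in
/-- **frozen -> unfrozen**: a set `T` of lines in one frozen box meets many cells of `(P, X)`, the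
unfrozen cells around them are disjoint and full. -/
theorem cells_F (H : RModel B G σ R Leg ν D)
    (K : K1F B G Leg ν Fz sN sP sX sC f R0 C1 a dl m g β γ γ0) {y xJ : ℝ} (hy0 : 0 ≤ y)
    (hyR : y ≤ R0) (hx0 : 0 ≤ xJ) (hxy : xJ ≤ y) {ε : ℝ} (hε : 0 < ε) :
    ∀ᶠ n in (U : Filter ℕ), ∀ k i₀ i, (i₀, k) ∈ (G n).I →
      i ∈ (G n).box (bx Fz sN sP sX sC y 0 0 0 y) ε i₀ k →
      ∀ T ⊆ (G n).box (bx Fz sN sP sX sC y 0 0 0 y) ε i₀ k,
      (∀ t ∈ T, |(G n).rel k i t sN| ≤ B.d n ^ (xJ - D ^ 2 * ε)) →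
      ∃ W ⊆ (G n).slice k,
        (∀ l ∈ W, ∃ e ∈ T, |(G n).rel k e l sP| ≤ B.d n ^ (y - ε) ∧
          |(G n).rel k e l sX| ≤ B.d n ^ (y - ε)) ∧
        (T.card : ℝ) * B.d n ^ (ν (bx Fz sN sP sX sC y xJ y y y) - ν (bx ∅ sN sP sX sC 0 0 y y 0)
          + (D ^ 6 + 2 * D ^ 2 + 1) * ε) ≤ W.card := by
  have hD := H.D1
  have hD0 : 0 < D := by linarith
  set pS : κ → ℝ := bx Fz sN sP sX sC y 0 0 0 y with hpS
  set pN : κ → ℝ := bx Fz sN sP sX sC y xJ 0 0 y with hpN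
  set r1 : κ → ℝ := bx Fz sN sP sX sC y xJ y y y with hr1
  set r0 : κ → ℝ := bx ∅ sN sP sX sC 0 0 y y 0 with hr0
  have lS : pS ∈ Leg := K.leg y 0 0 0 y hy0 hyR le_rfl hy0 le_rfl hy0 le_rfl hy0 hy0 le_rfl
  have lN : pN ∈ Leg := K.leg y xJ 0 0 y hy0 hyR hx0 hxy le_rfl hy0 le_rfl hy0 hy0 le_rfl
  have l1 : r1 ∈ Leg := K.leg y xJ y y y hy0 hyR hx0 hxy hy0 le_rfl hy0 le_rfl hy0 le_rfl
  have l0 : r0 ∈ Leg := K.leg0 y y 0 hy0 hyR hy0 hyR le_rfl K.R0_pos.le
  set c : ℝ := D ^ 4 + 2 with hc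
  have hc0 : 0 < c := by positivity
  have hcε : 0 < c * ε := by positivity
  have hDc : 0 < D * (c * ε) := by positivity
  have hD2ε : 0 < D ^ 2 * ε := by positivity
  have hD3ε : 0 < D ^ 3 * ε := by positivity
  filter_upwards [box_pair H.toRUnif pS lS hε, H.symm pN lN (D ^ 2 * ε) hD2ε,
    H.tri pN lN (D ^ 3 * ε) hD3ε, H.symm r1 l1 (c * ε) hcε, H.up r1 l1 (D * (c * ε)) hDc,
    H.low r0 l0 ε hε, K.add ε hε, K.bd1 ε hε, ev_const_le B hε 4] with n hpair hsy htr hs1 hup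
    hlow hadd hbd1 hc4 k i₀ i hI0 hi T hT hTN
  have hpow : ∀ t : ℝ, 0 < B.d n ^ t := fun t => rpos B n t
  have hTI : ∀ t ∈ T, (t, k) ∈ (G n).I := fun t ht =>
    H.memSlice.1 (RCfg.box_subset_slice (hT ht))
  have hiI : (i, k) ∈ (G n).I := H.memSlice.1 (RCfg.box_subset_slice hi)
  obtain ⟨E, hET, hE1, hE2⟩ := exists_indep T (fun e t => (G n).loose r1 (c * ε) k e t)
  -- loose `pN` of the points of `T`
  have hiN : ∀ t ∈ T, (G n).loose pN (D ^ 2 * ε) k i t := by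
    intro t ht s
    by_cases hs : s = sN
    · subst hs
      rw [hpN, bx_N, H.base n]
      exact hTN t ht
    · refine (hpair k i₀ i t hI0 hi (hT ht) s).trans (le_of_eq ?_)
      simp only [hpS, hpN, bx, if_neg hs]
  have hNN : ∀ t ∈ T, ∀ t' ∈ T, (G n).loose pN (D ^ 4 * ε) k t t' := by
    intro t ht t' ht'
    have h1 := hsy k i t hiI (hTI t ht) (hiN t ht)
    have e1 : D * (D ^ 2 * ε) = D ^ 3 * ε := by ring
    rw [e1] at h1
    have h2 : (G n).loose pN (D ^ 3 * ε) k i t' := H.loose_mono (fun _ => le_rfl) (by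
      have : D ^ 2 ≤ D ^ 3 := pow_le_pow_right₀ hD (by norm_num)
      exact mul_le_mul_of_nonneg_right this hε.le) (hiN t' ht')
    have h3 := htr k t i t' (hTI t ht) hiI (hTI t' ht') h1 h2
    have e2 : D * (D ^ 3 * ε) = D ^ 4 * ε := by ring
    rwa [e2] at h3
  -- two points of `E` differ in `P` or `X`
  have hfar : ∀ e ∈ E, ∀ e' ∈ E, e ≠ e' → B.d n ^ (y - c * ε) < |(G n).rel k e e' sP| ∨
      B.d n ^ (y - c * ε) < |(G n).rel k e e' sX| := by
    intro e he e' he' hne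
    by_contra hcon
    push Not at hcon
    refine hE1 e he e' he' hne fun s => ?_
    have h1 := hNN e (hET he) e' (hET he') s
    have hle : D ^ 4 * ε ≤ c * ε := mul_le_mul_of_nonneg_right (by rw [hc]; linarith) hε.le
    rw [H.base n] at h1 ⊢
    by_cases hsP : s = sP
    · subst hsP
      rw [hr1, bx_P K.NP]
      exact hcon.1
    · by_cases hsX : s = sX
      · subst hsX
        rw [hr1, bx_X K.NX K.PX]
        exact hcon.2
      · have e1 : r1 s = pN s := by simp only [hr1, hpN, bx, if_neg hsP, if_neg hsX]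
        rw [e1]
        exact h1.trans (rpow_anti B n (by linarith))
  -- the unfrozen cells
  have hr0P : r0 sP = y := by rw [hr0, bx_P K.NP]
  have hr0X : r0 sX = y := by rw [hr0, bx_X K.NX K.PX]
  have hcell : ∀ e l, l ∈ (G n).box r0 ε e k → |(G n).rel k e l sP| ≤ B.d n ^ (y - ε) ∧
      |(G n).rel k e l sX| ≤ B.d n ^ (y - ε) := by
    intro e l hl
    have h1 := (RCfg.mem_box.1 hl).2
    have h2 := h1 sP
    have h3 := h1 sX
    rw [H.base n, hr0P] at h2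
    rw [H.base n, hr0X] at h3
    exact ⟨h2, h3⟩
  have hdisj : ∀ e ∈ E, ∀ e' ∈ E, e ≠ e' →
      Disjoint ((G n).box r0 ε e k) ((G n).box r0 ε e' k) := by
    intro e he e' he' hne
    rw [Finset.disjoint_left]
    intro l hl hl'
    have heI := hTI e (hET he)
    have heI' := hTI e' (hET he')
    have hlI : (l, k) ∈ (G n).I := H.memSlice.1 (RCfg.box_subset_slice hl)
    obtain ⟨a1, a2⟩ := hcell e l hl
    obtain ⟨b1, b2⟩ := hcell e' l hl'
    have hsmall : ∀ s, s = sP ∨ s = sX → |(G n).rel k e l s| ≤ B.d n ^ (y - ε) →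
        |(G n).rel k e' l s| ≤ B.d n ^ (y - ε) → |(G n).rel k e e' s| ≤ B.d n ^ (y - c * ε) := by
      intro s hs h1 h2
      have h3 := hadd k e l e' heI hlI heI' s hs
      have h4 := hadd k e' l e' heI' hlI heI' s hs
      rw [H.refl n k e' heI' s] at h4
      have h5 : B.d n ^ (R0 - ε) ≤ B.d n ^ (y - ε) := rpow_anti B n (by linarith)
      have h6 : |(G n).rel k e e' s| ≤ 4 * B.d n ^ (y - ε) := by
        have n1 := abs_le.1 (h3.trans h5)
        have n2 := abs_le.1 (h4.trans h5)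
        have n3 := abs_le.1 h1
        have n4 := abs_le.1 h2
        rw [abs_le]
        constructor <;> linarith [n1.1, n1.2, n2.1, n2.2, n3.1, n3.2, n4.1, n4.2]
      refine h6.trans ((absorb B (t := y - 2 * ε) ?_).trans (rpow_anti B n ?_))
      · have e : -(y - ε - (y - 2 * ε)) = -ε := by ring
        rw [e]
        exact hc4
      · rw [hc]
        have : 0 ≤ D ^ 4 * ε := by positivity
        nlinarith
    rcases hfar e he e' he' hne with h | h
    · exact absurd (hsmall sP (Or.inl rfl) a1 b1) (not_le.2 h)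
    · exact absurd (hsmall sX (Or.inr rfl) a2 b2) (not_le.2 h)
  refine ⟨E.biUnion fun e => (G n).box r0 ε e k, ?_, ?_, ?_⟩
  · intro l hl
    obtain ⟨e, he, hl1⟩ := Finset.mem_biUnion.1 hl
    exact RCfg.box_subset_slice hl1
  · intro l hl
    obtain ⟨e, he, hl1⟩ := Finset.mem_biUnion.1 hl
    exact ⟨e, hET he, hcell e l hl1⟩
  · -- counts
    have hcov : (T.card : ℝ) ≤ E.card * B.d n ^ (-ν r1 - D * (D * (c * ε))) := by
      have h1 : T ⊆ E.biUnion fun e => (G n).box r1 (D * (c * ε)) e k := by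
        intro t ht
        rw [Finset.mem_biUnion]
        by_cases htE : t ∈ E
        · exact ⟨t, htE, H.self_mem_box _ _ (hTI t ht)⟩
        · obtain ⟨e, he, h | h⟩ := hE2 t ht htE
          · refine ⟨e, he, RCfg.mem_box.2 ⟨H.memSlice.2 (hTI t ht),
              H.loose_mono (fun _ => le_rfl) ?_ h⟩⟩
            nlinarith
          · exact ⟨e, he, RCfg.mem_box.2 ⟨H.memSlice.2 (hTI t ht),
              hs1 k t e (hTI t ht) (hTI e (hET he)) h⟩⟩
      have h2 : (T.card : ℝ) ≤ ∑ e ∈ E, (((G n).box r1 (D * (c * ε)) e k).card : ℝ) := by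
        exact_mod_cast (card_le_card h1).trans card_biUnion_le
      refine h2.trans ((sum_le_sum fun e he => hup e k (hTI e (hET he))).trans (le_of_eq ?_))
      rw [sum_const, nsmul_eq_mul]
    have hW : (E.card : ℝ) * B.d n ^ (-ν r0 + ε) ≤
        ((E.biUnion fun e => (G n).box r0 ε e k).card : ℝ) := by
      rw [card_biUnion hdisj]
      push_cast
      calc (E.card : ℝ) * B.d n ^ (-ν r0 + ε) = ∑ e ∈ E, B.d n ^ (-ν r0 + ε) := by
            rw [sum_const, nsmul_eq_mul]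
        _ ≤ _ := sum_le_sum fun e he => hlow e k (hTI e (hET he))
    refine le_trans ?_ hW
    have e1 : (D ^ 6 + 2 * D ^ 2 + 1) * ε = D * (D * (c * ε)) + ε := by rw [hc]; ring
    calc (T.card : ℝ) * B.d n ^ (ν r1 - ν r0 + (D ^ 6 + 2 * D ^ 2 + 1) * ε)
        ≤ E.card * B.d n ^ (-ν r1 - D * (D * (c * ε))) *
          B.d n ^ (ν r1 - ν r0 + (D ^ 6 + 2 * D ^ 2 + 1) * ε) :=
          mul_le_mul_of_nonneg_right hcov (hpow _).le
      _ = E.card * B.d n ^ (-ν r0 + ε) := by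
          rw [mul_assoc, ← rpow_add', e1]
          congr 2
          ring

end Crest.Agent.R136.NsF544
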