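import Crest.Agent.R136.LadB_115
import Crest.Agent.R136.Fe2_355
import Crest.Agent.R136.LdF9_511
import Crest.Agent.R136.K2C_146
import Crest.Agent.R136.LdFb_146
import Crest.Agent.R136.LdF5_511
import Crest.Agent.R136.LdF7_511
import Crest.Agent.R136.NsF2_544

-- ▼ part R136/Ev14_356
section

/-!
# R136, case F, rung `s = 1`: the Kaufman half of `F2` (helper356)

* `ownC_z`, `evoZ` : evolution in the window with the only level slot `z`, `E`, `F_b`, `C_b`, `X_b`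
  unresolved: `F_a' = F_a`, `N' = N + u P`;
* **`kaufN`** : `N` resolved at `x` given `z : x`, `F_a : x`; `P` coarse against `P` narrow.
-/

set_option autoImplicit false
set_option linter.unusedSectionVars false
set_option linter.unusedVariables false

open Filter Topology

namespace Crest.Agent.R136.Ev356

open Finset Crest.Agent.R136.NetQ186 Crest.Agent.R136.Net191 Crest.Agent.R136.Qg926
open Crest.Agent.R136.Gf356 Crest.Agent.R136.Aw413 Crest.Agent.R136.LadA115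
open Crest.Agent.R136.Fx940 Crest.Agent.R136.Fe2355
open Crest.Agent.R138.Ex926 (Base U)

variable {ι : ℕ → Type*} [∀ n, DecidableEq (ι n)] {W : Wnd 11 ι} {f : ∀ n, ι n → Fq4}
  {Ma : Mons 11} {E : ∀ n, Finset (ι n)}

/-- own motion, only the height is a level slot -/
theorem ownC_z {Rs : Finset (Fin 11)} {t : ℝ} {q' : ℕ → Fin 11 → Fin 11 → Fin 11 → ℝ}
    (P : PQ W f Rs t q') (hS : W.S = {0}) (hkz : W.kz = 0)
    (hc : ∀ᶠ n in (U : Filter ℕ), W.Good n ∧ E n ⊆ W.Cl n ∧ W.cfg E n = W.cfg0 n (E n)) :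
    ∀ᶠ n in (U : Filter ℕ), ∀ i, ∀ k ∈ (W.cfg E n).Z, ∀ k' ∈ (W.cfg E n).Z, ∀ s,
      ownC (q' n) W n k k' (fsl W n i k 2) (fsl W n i k 3) s =
        if s = 0 then (W.cfg E n).z k' - (W.cfg E n).z k else 0 := by
  filter_upwards [P.q.mot_eq hc, P.q.z_eq hkz hc] with n hn hz i k hk k' hk' s
  have m := (hn k hk k' hk').1
  unfold ownC
  by_cases h4 : s = 4
  · subst h4
    have n4 : (4 : Fin 11) ∉ W.S := by rw [hS]; decide
    rw [if_pos rfl, if_neg n4, if_neg (by decide)]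
  · rw [if_neg h4]
    unfold mot
    by_cases h0 : s = 0
    · subst h0
      rw [if_pos P.S0, if_pos rfl, m 0 (by simp), hz k, hz k']
    · have n0 : s ∉ W.S := by rw [hS, Finset.mem_singleton]; exact h0
      rw [if_neg n0, if_neg h0]

/-- bounds of heights -/
theorem z_bdZ (h : QAt W f Ma) (hkz : W.kz = 0)
    (hc : ∀ᶠ n in (U : Filter ℕ), W.Good n ∧ E n ⊆ W.Cl n ∧ W.cfg E n = W.cfg0 n (E n)) :
    ∀ᶠ n in (U : Filter ℕ), ∀ k ∈ (W.cfg E n).Z, |(W.cfg E n).z k| ≤ 1 / 4 := by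
  filter_upwards [hc, h.q.z_eq hkz hc] with n hn hz k hk
  obtain ⟨g, hE, hcfg⟩ := hn
  rw [hz k]
  rw [hcfg] at hk
  have a := (zrep_of_mem hE hk).1
  exact h.crd4 g g.s0 a 0

theorem Z_of_I14
    (hc : ∀ᶠ n in (U : Filter ℕ), W.Good n ∧ E n ⊆ W.Cl n ∧ W.cfg E n = W.cfg0 n (E n)) :
    ∀ᶠ n in (U : Filter ℕ), ∀ i k, (i, k) ∈ (W.cfg E n).I → k ∈ (W.cfg E n).Z := by
  filter_upwards [hc] with n hn i k hik
  obtain ⟨g, hE, hcfg⟩ := hn
  rw [hcfg] at hik ⊢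
  exact mem_image.2 (by obtain ⟨u, hu, -, h6⟩ := mem_cfg0 hik; exact ⟨u, hu, h6⟩)

/-- **evolution in the window with the level slot `z`**; `E, F_b, C_b, X_b` unresolved -/
theorem evoZ (h : QAt W f Ma) (hS : W.S = {0}) (hkz : W.kz = 0)
    (hc : ∀ᶠ n in (U : Filter ℕ), W.Good n ∧ E n ⊆ W.Cl n ∧ W.cfg E n = W.cfg0 n (E n))
    {x : ℝ} (hx : 0 ≤ x) (htop : ∀ s, s ≠ 2 → x ≤ W.top s)
    (m0710 : mv 0 7 ∈ Ma.mon 10) (n234 : mv 2 3 ∉ Ma.mon 4) (n367 : mv 3 6 ∉ Ma.mon 7)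
    (n3910 : mv 3 9 ∉ Ma.mon 10) {ε : ℝ} (hε : 0 < ε) :
    ∀ᶠ n in (U : Filter ℕ), ∀ i l k k', (i, k) ∈ (W.cfg E n).I → (l, k) ∈ (W.cfg E n).I →
      (i, k') ∈ (W.cfg E n).I → (l, k') ∈ (W.cfg E n).I →
      |(W.cfg E n).rel k' i l 4 - (W.cfg E n).rel k i l 4| ≤ W.B'.d n ^ (x - ε) ∧
      |(W.cfg E n).rel k' i l 10 - ((W.cfg E n).rel k i l 10 +
        ((W.cfg E n).z k' - (W.cfg E n).z k) * (W.cfg E n).rel k i l 7)| ≤
        W.B'.d n ^ (x - ε) := by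
  have cl : CloM ({0, 4, 5, 7, 8, 10} : Finset (Fin 11)) Ma :=
    ⟨fun _ => Or.inl n234, fun hs => absurd hs (by decide), fun _ => Or.inr (by decide),
      fun _ => Or.inl n367, fun hs => Or.inr (by decide), fun hs => absurd hs (by decide),
      fun hs => absurd hs (by decide), fun _ => Or.inr (by decide), fun _ => Or.inr (by decide),
      fun _ => Or.inl n3910⟩
  have P := PQ.of_at h hx (Rs := {0, 4, 5, 7, 8, 10}) (by rw [hS]; decide)
    (fun s hs => htop s (by rintro rfl; exact absurd hs (by decide))) cl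
  have c234 : chi Ma 2 3 4 = 0 := if_neg n234
  have c017 : chi Ma 0 1 7 = 0 := if_neg h.r
  have c0710 : chi Ma 0 7 10 = 1 := if_pos m0710
  filter_upwards [P.evo hc hε, ownC_z P hS hkz hc, Z_of_I14 hc] with n hev how hZ i l k k'
    a1 a2 a3 a4
  have a := how i k (hZ _ _ a1) k' (hZ _ _ a3)
  have s0 := a 0
  have s2 := a 2
  have s3 := a 3
  have s4 := a 4
  rw [if_pos rfl] at s0
  rw [if_neg (by decide)] at s2 s3 s4
  have e4 := hev k k' i l a1 a3 a2 a4 4 (by decide) (by rw [hS]; decide)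
  have e10 := hev k k' i l a1 a3 a2 a4 10 (by decide) (by rw [hS]; decide)
  simp only [evoC, Matrix.cons_val, s0, s2, s3, s4, c234, c017, c0710] at e4 e10
  constructor
  · refine le_of_eq_of_le ?_ e4
    congr 1
    ring
  · refine le_of_eq_of_le ?_ e10
    congr 1
    ring

section aew

variable {B Bo : Base} {I J : ∀ n, Finset (ι n)} {co : ∀ n, ι n → ι n → Fin 11 → ℝ}
  {C : ℝ} {lam : (Fin 11 → ℝ) → ℝ} {a b' : Fin 11 → ℝ} {A : ℝ × ℝ}
  {φ : ℕ → (Fin 11 → ℝ) → ℝ} {r : ℕ → ℝ} {κ : Fin 11 → ℝ} {V Tw : Fin 11 → Prop}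

/-- **Kaufman for `N` and `P`**, base `z : x`, `F_a : x` -/
theorem kaufN (h : AeW B Bo I J co monQ Ma C lam a b' A φ r 0 1 κ V Tw) (hC : 0 ≤ C)
    (hco : ∀ n, ∀ i ∈ I n, ∀ j ∈ I n, co n i j = coQ (f n i) (f n j))
    (hne : ∀ᶠ n in (U : Filter ℕ), (J n).Nonempty) (hV : ∀ k, V k → k = 2)
    (n017 : mv 0 1 ∉ Ma.mon 7) (m0710 : mv 0 7 ∈ Ma.mon 10)
    (no3 : ∀ k, ∀ e ∈ Ma.mon k, e 3 = 0) {x : ℝ} (hx : 0 < x) {N : ℕ} (hN : 0 < N) :
    ∃ j ≤ N, lam (cz x (Pi.single 4 x)) -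
        lam (cz x (bx2 (Pi.single 4 x) 10 7 (x * j / N) (x * j / N))) +
        (x - x * ((j : ℝ) + 1) / N) ≤
      lam (cz x (Pi.single 4 x)) - lam (cz x (bx2 (Pi.single 4 x) 10 7 x 0)) := by
  obtain ⟨W, E, hW⟩ := zw_of_aew h hC hco hne n017 hV hx.le
  have n234 : mv 2 3 ∉ Ma.mon 4 := fun hh => absurd (no3 4 _ hh) (by decide)
  have n367 : mv 3 6 ∉ Ma.mon 7 := fun hh => absurd (no3 7 _ hh) (by decide)
  have n3910 : mv 3 9 ∉ Ma.mon 10 := fun hh => absurd (no3 10 _ hh) (by decide)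
  set p : Fin 11 → ℝ := Pi.single 4 x with hp
  have p4 : p 4 = x := by rw [hp]; simp
  have po : ∀ s : Fin 11, s ≠ 4 → p s = 0 := fun s hs => by rw [hp]; simp [hs]
  have leg : ∀ c d : ℝ, 0 ≤ c → c ≤ x → 0 ≤ d → d ≤ x → bx2 p 10 7 d c ∈ W.legW := by
    intro c d hc0 hcx hd0 hdx
    have q10 : bx2 p 10 7 d c 10 = d := bx2_fst _ _ _ _ _
    have q7 : bx2 p 10 7 d c 7 = c := bx2_snd _ (by decide) _ _
    have qo : ∀ s : Fin 11, s ≠ 10 → s ≠ 7 → bx2 p 10 7 d c s = p s :=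
      fun s h1 h2 => bx2_other p h1 h2 _ _
    have q4 : bx2 p 10 7 d c 4 = x := by rw [qo 4 (by decide) (by decide), p4]
    have qz : ∀ s : Fin 11, s ≠ 10 → s ≠ 7 → s ≠ 4 → bx2 p 10 7 d c s = 0 :=
      fun s h1 h2 h3 => by rw [qo s h1 h2, po s h3]
    have hb : ∀ s, 0 ≤ bx2 p 10 7 d c s ∧ bx2 p 10 7 d c s ≤ x := by
      intro s
      by_cases h1 : s = 10
      · subst h1; rw [q10]; exact ⟨hd0, hdx⟩
      by_cases h2 : s = 7
      · subst h2; rw [q7]; exact ⟨hc0, hcx⟩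
      by_cases h3 : s = 4
      · subst h3; rw [q4]; exact ⟨hx.le, le_rfl⟩
      rw [qz s h1 h2 h3]; exact ⟨le_rfl, hx.le⟩
    refine hW.legZ hb (qz 2 (by decide) (by decide) (by decide))
      (legal3 h.sub no3 (fun s => ?_) ?_ ?_ ?_ ?_ ?_ ?_ ?_ ?_)
    · by_cases g0 : s = 0
      · subst g0; rw [cz0]; exact hx.le
      rw [czs _ _ g0]; exact (hb s).1
    all_goals
      (simp only [cz0, czs x (bx2 p 10 7 d c) (s := 4) (by decide),
        czs x (bx2 p 10 7 d c) (s := 2) (by decide),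
        czs x (bx2 p 10 7 d c) (s := 1) (by decide),
        czs x (bx2 p 10 7 d c) (s := 5) (by decide),
        czs x (bx2 p 10 7 d c) (s := 6) (by decide),
        czs x (bx2 p 10 7 d c) (s := 7) (by decide),
        czs x (bx2 p 10 7 d c) (s := 8) (by decide),
        czs x (bx2 p 10 7 d c) (s := 9) (by decide),
        czs x (bx2 p 10 7 d c) (s := 10) (by decide), q10, q7, q4,
        qz 1 (by decide) (by decide) (by decide), qz 2 (by decide) (by decide) (by decide),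
        qz 5 (by decide) (by decide) (by decide), qz 6 (by decide) (by decide) (by decide),
        qz 8 (by decide) (by decide) (by decide), qz 9 (by decide) (by decide) (by decide)]
       linarith)
  have ep : bx2 p 10 7 0 0 = p := by
    funext s
    unfold bx2
    split_ifs with h1 h2
    · rw [h1, po 10 (by decide)]
    · rw [h2, po 7 (by decide)]
    · rfl
  have htop : ∀ s, s ≠ 2 → x ≤ W.top s := by
    intro s hs
    rw [hW.etop]
    unfold topZ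
    rw [if_neg hs]
  have hR : topZ x 0 = x := by simp [topZ]
  obtain ⟨j, hj, key⟩ := kauf_stay hW.H (sX := 10) (sC := 7) (by decide) (p := p)
    (po 10 (by decide)) (po 7 (by decide)) (y := x) (C := 1) hx hR.ge one_pos
    (by rw [← ep]; exact leg 0 0 le_rfl hx.le le_rfl hx.le)
    (leg 0 x le_rfl hx.le hx.le le_rfl)
    (fun t h1 h2 => leg t t h1 h2 h1 h2)
    (by
      intro C' hC'
      refine ⟨C' + 2, by positivity, fun ε hε => ?_⟩
      filter_upwards [evoZ hW.qa hW.eS hW.ekz hW.hc hx.le htop m0710 n234 n367 n3910 hε,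
        rel_le hW.qa hW.hc, ev_const_le W.B' hε 2] with n hev hr h2 k k' i l a1 a2 a3 a4 hl s
      have hb := hW.H.base n
      rw [hb]
      by_cases hs : s = 4
      · subst hs
        have e1 := hl 4
        rw [hb, p4] at e1
        have e2 := (hev i l k k' a1 a2 a3 a4).1
        have e3 : W.B'.d n ^ (x - C' * ε) ≤ W.B'.d n ^ (x - (C' + 1) * ε) :=
          Real.rpow_le_rpow_of_exponent_ge (W.B'.pos n) (W.B'.lt n).le (by nlinarith)
        have e4 : W.B'.d n ^ (x - ε) ≤ W.B'.d n ^ (x - (C' + 1) * ε) :=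
          Real.rpow_le_rpow_of_exponent_ge (W.B'.pos n) (W.B'.lt n).le (by nlinarith)
        have e5 : W.B'.d n ^ (x - (C' + 2) * ε) =
            W.B'.d n ^ (-ε) * W.B'.d n ^ (x - (C' + 1) * ε) := by
          rw [← Real.rpow_add (W.B'.pos n)]; congr 1; ring
        have e6 : |(W.cfg E n).rel k' i l 4| ≤ |(W.cfg E n).rel k i l 4| +
            |(W.cfg E n).rel k' i l 4 - (W.cfg E n).rel k i l 4| := by
          have := abs_add_le ((W.cfg E n).rel k i l 4)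
            ((W.cfg E n).rel k' i l 4 - (W.cfg E n).rel k i l 4)
          rwa [add_sub_cancel] at this
        have e7 := Real.rpow_pos_of_pos (W.B'.pos n) (x - (C' + 1) * ε)
        rw [p4, e5]
        nlinarith
      · rw [po s hs]
        refine (hr k' i l a3 a4 s).trans ?_
        refine Real.one_le_rpow_of_pos_of_le_one_of_nonpos (W.B'.pos n) (W.B'.lt n).le ?_
        have : 0 ≤ (C' + 2) * ε := by positivity
        linarith)
    (by
      intro ε hε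
      filter_upwards [z_bdZ hW.qa hW.ekz hW.hc] with n hn k hk k' hk'
      have e1 := hn k hk
      have e2 := hn k' hk'
      have e3 := abs_sub ((W.cfg E n).z k') ((W.cfg E n).z k)
      have e4 : 1 ≤ W.B'.d n ^ (-(1 * ε)) :=
        Real.one_le_rpow_of_pos_of_le_one_of_nonpos (W.B'.pos n) (W.B'.lt n).le (by linarith)
      linarith)
    (by
      intro C' hC'
      refine ⟨1, one_pos, fun ε hε => ?_⟩
      filter_upwards [evoZ hW.qa hW.eS hW.ekz hW.hc hx.le htop m0710 n234 n367 n3910 hε] with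
        n hev k k' i l a1 a2 a3 a4 hl
      rw [one_mul]
      exact (hev i l k k' a1 a2 a3 a4).2)
    hN
  refine ⟨j, hj, ?_⟩
  simp only [hW.nuZ, sc] at key
  push_cast at key ⊢
  linarith

end aew

end Crest.Agent.R136.Ev356
end

-- ▼ part R136/LdFa_511
section

/-!
# R136, case F: zoom at infinity and the total of the rung `F_a, P` (helper511)

* **`ptV_inf`** : 667's `PtV` at a homogeneous zoom at infinity of any tangent of a stage, with the
  same slopes and rates; asymptotic inequalities along rays become exact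
* `bzn` : the box `z, X_a, N : x`
* **`tot_N`** : `lam (z, X_a, N : 1) ≤ -3` ⊢ `4 + κ ≤ -A.1` (every position of `N`; if `N` is
  parallel to `X_b` : the pair `(X_b, N)` is full)
* `F2_num` : the number of the rung `s = 1`
-/

set_option autoImplicit false
set_option linter.unusedVariables false
set_option linter.unusedSectionVars false

open Finset Filter Topology

namespace Crest.Agent.R136.LdFa511

open Crest.Agent.R138.Ex926 (Base U IsTan)
open Crest.Agent.R136.Net191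
open Crest.Agent.R136.NetQ186
open Crest.Agent.R136.Wq638
open Crest.Agent.R136.NatT550
open Crest.Agent.R136.NatR550 (nL)
open Crest.Agent.R136.Top484
open Crest.Agent.R136.LdF511
open Crest.Agent.R136.LdF3511
open Crest.Agent.R136.LdF4511
open Crest.Agent.R136.LdF5511
open Crest.Agent.R136.LdF7511
open Crest.Agent.R136.LdF9511
open Crest.Agent.R136.Dl667
open Crest.Agent.R136.Tb628 (oS oS_eq)
open Crest.Agent.R136.K2S774 (cn Prf JT Stage RecD RungD BaseOk ind1 A2)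
open Crest.Agent.R136.AwJ774
open Crest.Agent.R136.Aw413
open Crest.Agent.R136.Dg219 (Walls mw gC dhC nC OutS gC_zero gset mem_gset)
open Crest.Agent.R136.Rc146 (OutA)
open Crest.Agent.R136.Dg262 (X)

/-! ### zoom at infinity -/

section inf

variable {η : ℝ} {p : Par4} {D : Dat4} {I1 : ℕ → Finset (ℕ × ℝ)} {π : Equiv.Perm (Fin 3)}
  {eE fA fB : ℕ → ℕ × ℝ → ℝ} {V T : Fin 11 → Prop} {w0 R T0 : ℝ} {PD : Set (Fin 11 → ℝ)}
  {ν own : (Fin 11 → ℝ) → ℝ} {c₀ : ℝ}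

/-- **the facts at one point of a rung, homogeneous zoom at infinity with the same slopes and
rates** -/
theorem ptV_inf (h : Thick η p D I1 π eE fA fB V T w0 R T0 PD ν own c₀) {v : ℝ} (h0 : 0 < v)
    (h1 : v < 1) {Jd : Finset (Fin 11)} {s : ℝ} {x b : Fin 11 → ℝ}
    (a0 : ∀ i, 0 ≤ TF Jd (p.θ 1 - p.θ 2) s x i)
    (hb : ∀ i, i ∉ Jd → b i = rhoF p.θ i)
    (hTie : ∀ k, V k → oS p.θ k * TF Jd (p.θ 1 - p.θ 2) s x 0 ≤ TF Jd (p.θ 1 - p.θ 2) s x k)
    {Qd : Set (Fin 11 → ℝ)} (hQ : QdOk p.θ V Jd Qd)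
    {lam lo : (Fin 11 → ℝ) → ℝ} (hst : StVQ Qd p V ν own w0 R v Jd lam lo) {z : ℝ × ℝ}
    (hz : z.1 < 0) {k : ℕ → ℝ} {lam' lo' : (Fin 11 → ℝ) → ℝ} (kpos : ∀ l, 0 < k l)
    (k0 : Tendsto k atTop (𝓝 0))
    (H1 : IsTan (cn (mw monQ) (AF Jd)) (cn (mw monQ) (AF Jd)) lam
      (fun _ => X 0 (TF Jd (p.θ 1 - p.θ 2) s x) b z) k lam')
    (H2 : IsTan (cn (mw monQ) (AF Jd)) (cn (mw monQ) (AF Jd)) lo
      (fun _ => X 0 (TF Jd (p.θ 1 - p.θ 2) s x) b z) k lo')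
    {x' : ℕ → Fin 11 → ℝ} {h' : ℕ → ℝ}
    (hJ : JT (mw monQ) (AF Jd) (Leg monQ R) ν own (recF p.θ w0 (R - 1) v) x' h' lam' lo')
    (hB : BaseOk {k | V k} 0 (oS p.θ) (TF Jd (p.θ 1 - p.θ 2) s x) (recF p.θ w0 (R - 1) v) x' h')
    {A : ℝ × ℝ} {φ : ℕ → (Fin 11 → ℝ) → ℝ} {rt : ℕ → ℝ}
    (hO : OutA (gC (TF Jd (p.θ 1 - p.θ 2) s x) b) (cn (mw monQ) (AF Jd))
      (TF Jd (p.θ 1 - p.θ 2) s x) b (dhC (TF Jd (p.θ 1 - p.θ 2) s x) b)
      (nC (TF Jd (p.θ 1 - p.θ 2) s x) b) lam' A φ rt) :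
    ∃ (lam2 lo2 : (Fin 11 → ℝ) → ℝ) (x2 : ℕ → Fin 11 → ℝ) (h2 : ℕ → ℝ)
      (φ2 : ℕ → (Fin 11 → ℝ) → ℝ),
      JT (mw monQ) (AF Jd) (Leg monQ R) ν own (recF p.θ w0 (R - 1) v) x2 h2 lam2 lo2 ∧
      BaseOk {k | V k} 0 (oS p.θ) (TF Jd (p.θ 1 - p.θ 2) s x) (recF p.θ w0 (R - 1) v) x2 h2 ∧
      PtV D.B D.I I1 (couQ D.B D.lev D.w w0 (incQ π D.L eE fA fB)) p V T Jd
        (TF Jd (p.θ 1 - p.θ 2) s x) b lam2 lo2 A φ2 rt ∧
      HomV Jd (TF Jd (p.θ 1 - p.θ 2) s x) b φ2 ∧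
      (∀ c ∈ cn (mw monQ) (AF Jd), ∀ c' ∈ cn (mw monQ) (AF Jd), ∀ C e y0 : ℝ,
        (∀ y, y0 ≤ y → C + lam' (y • c) ≤ lam' (y • c') + e * y) → lam2 c ≤ lam2 c' + e) ∧
      ∀ k ∈ gset (gC (TF Jd (p.θ 1 - p.θ 2) s x) b), ∀ c ∈ cn (mw monQ) (AF Jd),
        ∀ c' ∈ cn (mw monQ) (AF Jd), ∀ C e y0 : ℝ,
        (∀ y, y0 ≤ y → C + φ k (y • c) ≤ φ k (y • c') + e * y) → φ2 k c ≤ φ2 k c' + e := by
  have z5 : (5 : Fin 11) ∉ Jd := fun h5 => hst.ZD 5 (by simp) (by simpa using h5)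
  have z1 : (1 : Fin 11) ∉ Jd := fun h5 => hst.ZD 1 (by simp) (by simpa using h5)
  have a5 : TF Jd (p.θ 1 - p.θ 2) s x 5 = 0 := by
    rw [← TF_off z5, TpF_val]; simp
  have a1 : TF Jd (p.θ 1 - p.θ 2) s x 1 = 0 := by
    rw [← TF_off z1, TpF_val]; simp
  have ha : K2S774.Nat (mw monQ) (AF Jd) (TF Jd (p.θ 1 - p.θ 2) s x) :=
    fun w hw => natTF _ _ _ hw
  have hP' := hst.prf.tan kpos H1 H2
  obtain ⟨lam2, lo2, x2, h2, φ2, hJ2, hB2, hP2, hO2, hhom, hl, -, hφ⟩ :=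
    K2C146.exists_hom_inf (fun w hw => AF_full hw) a0 ha
      (hst.nat_b hQ.rd.nat fun i hi => hb i (by simpa using hi)) hJ hP' hB hO
  have hA := aew_of_jt (src_thick h h0 h1)
    (Tw := fun k => T k ∧ V k ∧ TF Jd (p.θ 1 - p.θ 2) s x k =
      oS p.θ k * TF Jd (p.θ 1 - p.θ 2) s x 0) hJ2 hB2 (fun i hi => hTie i hi)
    (fun k hk => ⟨hk.1, hk.2.1, hk.2.2⟩) (fun hk => vis0 h.tp.slots hk.2.1) hO2.toOutS
  rw [sub_zero] at hA
  have S := swI_of_stage h.tp.ok.θ1 hQ hst a0 ha (fun i hi => hb i (by simpa using hi)) a5 a1 hz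
    kpos k0 H1
  refine ⟨lam2, lo2, x2, h2, φ2, hJ2, hB2,
    { sw := fun u hu u67 u0 c hc σ t ht hcu hT hs => ?_
      ind := fun c hc c' hc' hcc hc1 => ?_
      aew := hA
      out := hO2
      prf := hP2 }, hhom, hl, hφ⟩
  · have := hl (c + t • u) hcu c hc 0 (DlF p u * t) 0 fun y hy => by
      have h3 := S.sw u hu u67 u0 (y • c) (K2S774.cn_smul hc hy) (y * σ) (y * t)
        (mul_nonneg hy ht) (by
          have := K2S774.cn_smul (A := AF Jd) hcu hy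
          rwa [smul_add, smul_smul] at this) (fun i hi h0 => by
          have := mul_le_mul_of_nonneg_left (hT i hi h0) hy
          rw [Pi.smul_apply, smul_eq_mul, mul_assoc]; exact this) (fun i hi h0 => by
          obtain ⟨g1, g2⟩ := hs i hi h0
          refine ⟨g1, ?_⟩
          rw [Pi.smul_apply, smul_eq_mul, g2, mul_assoc])
      have e1 : y • (c + t • u) = y • c + (y * t) • u := by rw [smul_add, smul_smul]
      rw [e1, zero_add]
      have e2 : -(DlF p u) * (y * t) = -(DlF p u * t * y) := by ring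
      linarith
    linarith
  · have key : ∀ y : ℝ, 0 ≤ y → lam' (y • c) = lam' (y • c') := fun y hy =>
      S.ind _ (K2S774.cn_smul hc hy) _ (K2S774.cn_smul hc' hy) (fun i hi => by
        rw [Pi.smul_apply, Pi.smul_apply, hcc i hi]) (by
        rw [Pi.smul_apply, smul_eq_mul]; exact mul_nonneg hy hc1)
    have g1 := hl c hc c' hc' 0 0 0 fun y hy => by rw [key y hy]; simp
    have g2 := hl c' hc' c hc 0 0 0 fun y hy => by rw [key y hy]; simp
    linarith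

end inf

/-! ### the total -/

/-- the box `z, X_a, N : x` -/
def bzn (x : ℝ) : Fin 11 → ℝ := ![x, 0, 0, 0, 0, 0, 0, 0, x, 0, x]

/-- the box `z, X_a : x` -/
def bza (x : ℝ) : Fin 11 → ℝ := ![x, 0, 0, 0, 0, 0, 0, 0, x, 0, 0]

/-- the box `X_b : u`, `N : x` with room -/
def bxn (u x : ℝ) : Fin 11 → ℝ := ![u + x, 0, u + x, 0, 0, 0, u, 0, u + x, u, x]

theorem smul_bzn (y x : ℝ) : y • bzn x = bzn (y * x) := by
  funext j; fin_cases j <;> simp [bzn]

theorem bzn_mem {x : ℝ} (hx : 0 ≤ x) : bzn x ∈ cn (mw monQ) (AF {3}) := by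
  rw [← cnF_cn, cn_W7]
  refine ⟨?_, ?_, ?_, ?_, ?_, ?_, ?_⟩ <;> simp [bzn] <;> linarith

theorem bza_mem {x : ℝ} (hx : 0 ≤ x) : bza x ∈ cn (mw monQ) (AF {3}) := by
  rw [← cnF_cn, cn_W7]
  refine ⟨?_, ?_, ?_, ?_, ?_, ?_, ?_⟩ <;> simp [bza] <;> linarith

theorem bxn_mem {u x : ℝ} (hu : 0 ≤ u) (hx : 0 ≤ x) : bxn u x ∈ cn (mw monQ) (AF {3}) := by
  rw [← cnF_cn, cn_W7]
  refine ⟨?_, ?_, ?_, ?_, ?_, ?_, ?_⟩ <;> simp [bxn] <;> linarith

section tot

variable {a b : Fin 11 → ℝ} {κ : ℝ} {lam : (Fin 11 → ℝ) → ℝ} {A : ℝ × ℝ}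
  {φ : ℕ → (Fin 11 → ℝ) → ℝ} {r : ℕ → ℝ}

/-- **total of the rung `F_a, P`** -/
theorem tot_N (O : OutS (gC a b) (cn (mw monQ) (AF {3})) (dhC a b) (nC a b) lam A φ r)
    (P : PlE a b κ) (a10 : a 10 = 1) (haL : a ∈ cn (mw monQ) (AF {3})) (l0 : lam 0 = 0)
    (sharp : ∀ c ∈ cn (mw monQ) (AF {3}), ∀ c' ∈ cn (mw monQ) (AF {3}), c ≤ c' →
      lam c - lam c' ≤ ∑ s, (c' s - c s))
    (r0 : 1 ≤ r (gC a b 0)) (r8 : 1 ≤ r (gC a b 8)) (r9 : 1 + κ ≤ r (gC a b 9))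
    (h8 : φ (gC a b 8) (Pi.single 8 1) ≤ -1)
    (own : ∀ c ∈ cn (mw monQ) (AF {3}), ∀ c' ∈ cn (mw monQ) (AF {3}), c ≤ c' → (∀ i, c i = 0) →
      c' 0 - c 0 ≤ lam c - lam c')
    (hN : lam (bzn 1) ≤ -3)
    (hX : gC a b 10 = gC a b 9 → φ (gC a b 9) (bxn (1 + κ) (1 + κ)) ≤ -(2 * (1 + κ))) :
    4 + κ ≤ -A.1 := by
  have hκ := P.κ0
  have n10 : a 10 ≠ 0 := by rw [a10]; exact one_ne_zero
  have m0 : (0 : Fin 11 → ℝ) ∈ cn (mw monQ) (AF {3}) := K2S774.cn_zero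
  have mza := bza_mem zero_le_one
  have mzn := bzn_mem zero_le_one
  have a1 : (1:ℝ) • a ∈ cn (mw monQ) (AF {3}) := by rw [one_smul]; exact haL
  have l1 : bza 1 ≤ bzn 1 := by
    intro i; fin_cases i <;> simp [bza, bzn]
  -- the loss of `N`
  have e1 := one_grp O mza mzn (gC a b 10) (fun i hi => by
    have h10 : i ≠ 10 := fun e => hi (by rw [e])
    fin_cases i <;> simp [bza, bzn] at h10 ⊢)
  have e2 : -2 ≤ lam (bza 1) := by
    have h1 := sharp 0 m0 _ mza (by intro i; fin_cases i <;> simp [bza])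
    rw [l0] at h1
    have h2 : ∑ s, (bza 1 s - (0 : Fin 11 → ℝ) s) = 2 := by
      simp [Fin.sum_univ_succ, bza]; norm_num
    rw [h2] at h1
    linarith
  have e3 : φ (gC a b 10) (bzn 1) ≤ φ (gC a b 10) (bza 1) - 1 := by linarith
  have hge : ∀ {k : ℕ}, k ≠ 0 → -φ k (bzn 1) ≤ r k := fun {k} hk => by
    have h2 := rt_ge O P.nn hk haL mzn (u := 1) a1 (fun i hi => by
      rw [one_mul]
      by_cases hi0 : i = 0
      · subst hi0; rw [P.a0]; simp [bzn]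
      by_cases hi8 : i = 8
      · subst hi8; rw [P.a8]; simp [bzn]
      by_cases hi10 : i = 10
      · subst hi10; rw [a10]; simp [bzn]
      refine le_trans (le_of_eq ?_) (P.nn i)
      fin_cases i <;> simp [bzn] at hi0 hi8 hi10 ⊢)
    linarith
  by_cases h0 : gC a b 10 = gC a b 0
  · -- `N` parallel to `z`
    have e4 : φ (gC a b 0) (bza 1) ≤ -1 := by
      have e0 : (Pi.single 0 1 : Fin 11 → ℝ) ∈ cn (mw monQ) (AF {3}) := by
        rw [← cnF_cn, cn_W7]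
        refine ⟨?_, ?_, ?_, ?_, ?_, ?_, ?_⟩ <;> simp [Pi.single_apply]
      have h1 := own 0 m0 _ e0 (by
        intro k
        by_cases hk : k = 0
        · subst hk; simp
        · rw [Pi.single_eq_of_ne hk]; exact le_rfl) (fun _ => rfl)
      rw [one_grp O m0 e0 (gC a b 0) (fun i hi => by
        have : i ≠ 0 := fun e => hi (by rw [e])
        rw [Pi.single_eq_of_ne this]; rfl), O.zero _ 0 (fun i _ => rfl)] at h1
      have h2 : φ (gC a b 0) (bza 1) = φ (gC a b 0) (Pi.single 0 1) := O.loc _ _ _ fun i hi => by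
        have h8' : i ≠ 8 := fun e => P.g08 (by rw [← e, hi])
        fin_cases i <;> simp [bza] at h8' ⊢
      simp at h1
      linarith
    rw [h0] at e3
    have e5 := hge (k := gC a b 0) P.g0
    have := tot3 O P.nn P.n0 P.n8 P.n9 P.g08 P.g09 P.g89
    linarith
  by_cases h8' : gC a b 10 = gC a b 8
  · -- `N` parallel to `X_a`
    have e4 : φ (gC a b 8) (bza 1) ≤ -1 := by
      have h2 : φ (gC a b 8) (bza 1) = φ (gC a b 8) (Pi.single 8 1) := O.loc _ _ _ fun i hi => by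
        have h0' : i ≠ 0 := fun e => P.g08 (by rw [← e, hi])
        fin_cases i <;> simp [bza] at h0' ⊢
      rw [h2]; exact h8
    rw [h8'] at e3
    have e5 := hge (k := gC a b 8) P.g8
    have := tot3 O P.nn P.n0 P.n8 P.n9 P.g08 P.g09 P.g89
    linarith
  by_cases h9 : gC a b 10 = gC a b 9
  · -- `N` parallel to `X_b`
    have e4 := hX h9
    have m1 := bxn_mem (u := 1 + κ) (x := 1 + κ) (by linarith) (by linarith)
    have m2 := bxn_mem (u := 1 + κ) (x := 1) (by linarith) zero_le_one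
    -- removing `κ` of `N`
    have key : φ (gC a b 9) (bxn (1 + κ) 1) ≤ -(2 + κ) := by
      set c1 : Fin 11 → ℝ := ![1 + κ + (1 + κ), 0, 1 + κ + (1 + κ), 0, 0, 0, 1 + κ, 0,
        1 + κ + (1 + κ), 1 + κ, 1] with hc1
      have m3 : c1 ∈ cn (mw monQ) (AF {3}) := by
        rw [← cnF_cn, cn_W7]
        refine ⟨?_, ?_, ?_, ?_, ?_, ?_, ?_⟩ <;> simp [hc1] <;> linarith
      have h1 := sharp c1 m3 _ m1 (by
        intro i; fin_cases i <;> simp [hc1, bxn] <;> linarith)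
      have h2 : ∑ s, (bxn (1 + κ) (1 + κ) s - c1 s) = κ := by
        simp [Fin.sum_univ_succ, bxn, hc1]
      rw [h2, one_grp O m3 m1 (gC a b 9) (fun i hi => by
        have h10 : i ≠ 10 := fun e => hi (by rw [e, h9])
        fin_cases i <;> simp [hc1, bxn] at h10 ⊢)] at h1
      have h3 : φ (gC a b 9) (bxn (1 + κ) 1) = φ (gC a b 9) c1 := O.loc _ _ _ fun i hi => by
        have h0' : i ≠ 0 := fun e => P.g09 (by rw [← e, hi])
        have h2' : i ≠ 2 := fun e => P.g09 (by rw [P.g02, ← e, hi])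
        have h8'' : i ≠ 8 := fun e => P.g89 (by rw [← e, hi])
        fin_cases i <;> simp [hc1, bxn] at h0' h2' h8'' ⊢
      linarith
    have h2 := rt_ge O P.nn P.g9 haL m2 (u := 1) a1 (fun i hi => by
      rw [one_mul]
      have h0' : i ≠ 0 := fun e => P.g09 (by rw [← e, hi])
      have h2' : i ≠ 2 := fun e => P.g09 (by rw [P.g02, ← e, hi])
      have h8'' : i ≠ 8 := fun e => P.g89 (by rw [← e, hi])
      have h6'' : i ≠ 6 := fun e => P.g69 (by rw [← e, hi])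
      by_cases hi9 : i = 9
      · subst hi9; rw [P.a9]; simp [bxn]
      by_cases hi10 : i = 10
      · subst hi10; rw [a10]; simp [bxn]
      refine le_trans (le_of_eq ?_) (P.nn i)
      fin_cases i <;> simp [bxn] at h0' h2' h8'' h6'' hi9 hi10 ⊢)
    have := tot3 O P.nn P.n0 P.n8 P.n9 P.g08 P.g09 P.g89
    linarith
  · -- `N` alone
    have g10 : gC a b 10 ≠ 0 := fun e => n10 (gC_zero.1 e)
    have e4 : φ (gC a b 10) (bza 1) = 0 := O.zero _ _ fun i hi => by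
      have k0 : i ≠ 0 := fun e => h0 (by rw [← hi, e])
      have k8 : i ≠ 8 := fun e => h8' (by rw [← hi, e])
      fin_cases i <;> simp [bza] at k0 k8 ⊢
    have e5 := hge (k := gC a b 10) g10
    have := tot4 O P.nn P.n0 P.n8 P.n9 n10 P.g08 P.g09 P.g89 (Ne.symm h0) (Ne.symm h8')
      (Ne.symm h9)
    linarith

end tot

/-! ### the number of the rung -/

section num

variable {η : ℝ} {p : Par4} {D : Dat4} {I1 : ℕ → Finset (ℕ × ℝ)} {π : Equiv.Perm (Fin 3)}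
  {eE fA fB : ℕ → ℕ × ℝ → ℝ} {V T : Fin 11 → Prop} {w0 R T0 : ℝ} {PD : Set (Fin 11 → ℝ)}
  {ν own : (Fin 11 → ℝ) → ℝ} {c₀ : ℝ} {x b : Fin 11 → ℝ}
  {lam lo : (Fin 11 → ℝ) → ℝ} {A : ℝ × ℝ} {φ : ℕ → (Fin 11 → ℝ) → ℝ} {r : ℕ → ℝ}

/-- **total of the rung `F_a, P` at a homogeneous zoom** -/
theorem F2_tot (h : Thick η p D I1 π eE fA fB V T w0 R T0 PD ν own c₀)
    (hκ : 0 < p.θ 1 - p.θ 2) (hV2 : V 2) (a0 : ∀ i, 0 ≤ TF {3} (p.θ 1 - p.θ 2) 1 x i)
    (hb : ∀ i, i ∉ ({3} : Finset (Fin 11)) → b i = rhoF p.θ i)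
    (hP : PtV D.B D.I I1 (couQ D.B D.lev D.w w0 (incQ π D.L eE fA fB)) p V T {3}
      (TF {3} (p.θ 1 - p.θ 2) 1 x) b lam lo A φ r)
    (hH : HomV {3} (TF {3} (p.θ 1 - p.θ 2) 1 x) b φ) (hN : lam (bzn 1) ≤ -3)
    (hX : gC (TF {3} (p.θ 1 - p.θ 2) 1 x) b 10 = gC (TF {3} (p.θ 1 - p.θ 2) 1 x) b 9 →
      ∀ y : ℝ, 0 ≤ y → φ (gC (TF {3} (p.θ 1 - p.θ 2) 1 x) b 9)
        (Pi.single 9 y + Pi.single 10 y) ≤ -(2 * y)) : 4 + (p.θ 1 - p.θ 2) ≤ -A.1 := by
  have hJ : ({3} : Finset (Fin 11)) ⊆ {3, 4, 7} := by decide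
  have P := plE_TF hκ h.tp.ok.θ1 hJ a0 hb
  obtain ⟨r0, r8, r9, f8, f9⟩ := base_pt h hκ hV2 hJ a0 hb hP hH
  have e := coneM_mA (M := monQ) (A := AF {3})
  refine tot_N hP.out.toOutS P ?_ (fun w hw => (natTF _ _ _ hw).le) hP.aew.zero ?_ r0 r8 r9 f8 ?_
    hN ?_
  · rw [← TF_off (by decide), TpF_val]; rfl
  · intro c hc c' hc' hcc
    rw [← e] at hc hc'
    exact hP.aew.sharp c hc c' hc' hcc
  · intro c hc c' hc' hcc h0
    rw [← e] at hc hc'
    have := hP.aew.own c hc c' hc' hcc fun k _ => by rw [h0, h0, mul_zero]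
    linarith
  · intro hg
    refine le_trans (le_of_eq ?_) (hX hg (1 + (p.θ 1 - p.θ 2)) (by linarith))
    refine hP.out.loc _ _ _ fun i hi => ?_
    have h0' : i ≠ 0 := fun e => P.g09 (by rw [← e, hi])
    have h2' : i ≠ 2 := fun e => P.g09 (by rw [P.g02, ← e, hi])
    have h8'' : i ≠ 8 := fun e => P.g89 (by rw [← e, hi])
    have h6'' : i ≠ 6 := fun e => P.g69 (by rw [← e, hi])
    fin_cases i <;> simp [bxn] at h0' h2' h8'' h6'' ⊢

/-- the gap on the rung `s = 1` -/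
theorem gap2 (ok : ParOk η p) (hη : η ≤ 1 / 8) :
    p.g / 2 ≤ 4 + (p.θ 1 - p.θ 2) + DlF p (TpF (p.θ 1 - p.θ 2) 1) := by
  have e : DlF p (TpF (p.θ 1 - p.θ 2) 1) = _ := DlF_ray p (p.θ 1 - p.θ 2) 1
  rw [e]
  have hg := ok.g0.1
  have b1 := LdF7511.slack_q2 ok
  have b3 : η * p.g ≤ 1 / 8 * p.g := mul_le_mul_of_nonneg_right hη hg.le
  linarith

/-- **the number of the rung `F_a, P`** -/
theorem F2_num (h : Thick η p D I1 π eE fA fB V T w0 R T0 PD ν own c₀) (hη : η ≤ 1 / 8)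
    (hκ : 0 < p.θ 1 - p.θ 2) (hV2 : V 2) (a0 : ∀ i, 0 ≤ TF {3} (p.θ 1 - p.θ 2) 1 x i)
    (hb : ∀ i, i ∉ ({3} : Finset (Fin 11)) → b i = rhoF p.θ i)
    (hP : PtV D.B D.I I1 (couQ D.B D.lev D.w w0 (incQ π D.L eE fA fB)) p V T {3}
      (TF {3} (p.θ 1 - p.θ 2) 1 x) b lam lo A φ r)
    (hH : HomV {3} (TF {3} (p.θ 1 - p.θ 2) 1 x) b φ) (hN : lam (bzn 1) ≤ -3)
    (hX : gC (TF {3} (p.θ 1 - p.θ 2) 1 x) b 10 = gC (TF {3} (p.θ 1 - p.θ 2) 1 x) b 9 →
      ∀ y : ℝ, 0 ≤ y → φ (gC (TF {3} (p.θ 1 - p.θ 2) 1 x) b 9)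
        (Pi.single 9 y + Pi.single 10 y) ≤ -(2 * y)) :
    p.g / 2 ≤ -A.1 + DlF p (TpF (p.θ 1 - p.θ 2) 1) := by
  have h1 := F2_tot h hκ hV2 a0 hb hP hH hN hX
  have h2 := gap2 h.tp.ok hη
  linarith

end num

end Crest.Agent.R136.LdFa511
end

-- ▼ part R136/LdFb_511
section

/-!
# R136, case F: the F-lemma of the rung `F_a, P` from its two leaves (helper511)

* `NClaim` : `N` is asymptotically full given `z, X_a` (leaf `F_a` / Kaufman `P`)
* `XbN` : `X_b` is full given `N` if they are parallel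
* **`F2_of`** : both ⊢ the F-lemma of the rung
* **`caseF_of`** : `F1`, `NClaim`, `XbN` are contradictory
-/

set_option autoImplicit false
set_option linter.unusedVariables false
set_option linter.unusedSectionVars false

open Finset Filter Topology

namespace Crest.Agent.R136.LdFb511

open Crest.Agent.R138.Ex926 (Base U IsTan)
open Crest.Agent.R136.Net191
open Crest.Agent.R136.NetQ186
open Crest.Agent.R136.Wq638
open Crest.Agent.R136.NatT550
open Crest.Agent.R136.NatR550 (nL)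
open Crest.Agent.R136.Top484
open Crest.Agent.R136.LdF511
open Crest.Agent.R136.LdF3511
open Crest.Agent.R136.LdF4511
open Crest.Agent.R136.LdF5511
open Crest.Agent.R136.LdF7511
open Crest.Agent.R136.LdF9511
open Crest.Agent.R136.LdFa511
open Crest.Agent.R136.Dl667
open Crest.Agent.R136.Tb628 (oS oS_eq)
open Crest.Agent.R136.K2S774 (cn Prf JT Stage RecD RungD BaseOk ind1 A2)
open Crest.Agent.R136.AwJ774
open Crest.Agent.R136.Aw413
open Crest.Agent.R136.Dg219 (Walls mw gC dhC nC OutS gC_zero gset mem_gset)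
open Crest.Agent.R136.Rc146 (OutA)
open Crest.Agent.R136.Dg262 (X)

variable {η : ℝ} {p : Par4} {D : Dat4} {I1 : ℕ → Finset (ℕ × ℝ)} {π : Equiv.Perm (Fin 3)}
  {eE fA fB : ℕ → ℕ × ℝ → ℝ} {V T : Fin 11 → Prop} {w0 R T0 : ℝ} {PD : Set (Fin 11 → ℝ)}
  {ν own : (Fin 11 → ℝ) → ℝ} {c₀ : ℝ} {x b : Fin 11 → ℝ}

/-- **`N` is asymptotically full** given `z, X_a`, at the tangents where `(F_a, P)` is visible -/
def NClaim (D : Dat4) (I1 : ℕ → Finset (ℕ × ℝ)) (co : ∀ n : ℕ, ℕ × ℝ → ℕ × ℝ → Fin 11 → ℝ)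
    (p : Par4) (V T : Fin 11 → Prop) (x b : Fin 11 → ℝ) : Prop :=
  ∀ (lam lo : (Fin 11 → ℝ) → ℝ) (A : ℝ × ℝ) (φ : ℕ → (Fin 11 → ℝ) → ℝ) (r : ℕ → ℝ),
    PtV D.B D.I I1 co p V T {3} (TF {3} (p.θ 1 - p.θ 2) 1 x) b lam lo A φ r →
    (∀ y : ℝ, 0 ≤ y → φ (gC (TF {3} (p.θ 1 - p.θ 2) 1 x) b 8) (Pi.single 8 y) = -y) →
    (∀ y : ℝ, 0 ≤ y → φ (gC (TF {3} (p.θ 1 - p.θ 2) 1 x) b 9) (Pi.single 9 y) = -y) →
    lam (ind1 {4, 7}) < 0 → ∃ C : ℝ, ∀ y : ℝ, 1 ≤ y → lam (bzn y) ≤ -(3 * y) + C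

/-- **`X_b` is full given `N`** if they are parallel (homogeneous groups, `N` full) -/
def XbN (D : Dat4) (I1 : ℕ → Finset (ℕ × ℝ)) (co : ∀ n : ℕ, ℕ × ℝ → ℕ × ℝ → Fin 11 → ℝ)
    (p : Par4) (V T : Fin 11 → Prop) (x b : Fin 11 → ℝ) : Prop :=
  gC (TF {3} (p.θ 1 - p.θ 2) 1 x) b 10 = gC (TF {3} (p.θ 1 - p.θ 2) 1 x) b 9 →
  ∀ (lam lo : (Fin 11 → ℝ) → ℝ) (A : ℝ × ℝ) (φ : ℕ → (Fin 11 → ℝ) → ℝ) (r : ℕ → ℝ),
    PtV D.B D.I I1 co p V T {3} (TF {3} (p.θ 1 - p.θ 2) 1 x) b lam lo A φ r →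
    HomV {3} (TF {3} (p.θ 1 - p.θ 2) 1 x) b φ →
    (∀ y : ℝ, 0 ≤ y → φ (gC (TF {3} (p.θ 1 - p.θ 2) 1 x) b 10) (Pi.single 10 y) ≤ -y) →
    ∀ y : ℝ, 0 ≤ y → φ (gC (TF {3} (p.θ 1 - p.θ 2) 1 x) b 9)
      (Pi.single 9 y + Pi.single 10 y) ≤ -(2 * y)

/-- **the F-lemma of the rung `F_a, P`** -/
theorem F2_of (h : Thick η p D I1 π eE fA fB V T w0 R T0 PD ν own c₀) (hη : η ≤ 1 / 8) {v : ℝ}
    (h0 : 0 < v) (h1 : v < 1) (hκ : 0 < p.θ 1 - p.θ 2) (hV2 : V 2) (hV3 : ¬ V 3) (hV4 : ¬ V 4)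
    (hx : 0 < x 3) (hb : ∀ i, i ∉ ({3} : Finset (Fin 11)) → b i = rhoF p.θ i)
    {Qd : Set (Fin 11 → ℝ)} (hQ : QdOk p.θ V {3} Qd)
    {lam lo : (Fin 11 → ℝ) → ℝ} (hst : StVQ Qd p V ν own w0 R v {3} lam lo)
    (hN : NClaim D I1 (couQ D.B D.lev D.w w0 (incQ π D.L eE fA fB)) p V T x b)
    (hX : XbN D I1 (couQ D.B D.lev D.w w0 (incQ π D.L eE fA fB)) p V T x b) :
    FlV p V ν own w0 R v {3} 1 x b lam lo (fun l => l (ind1 {4, 7}) < 0) (p.g / 2) := by
  intro z hz D' hD' k lam' lo' kpos k0 H1 H2 x' h' hJ hB φ rt hO hVis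
  have a0 := (TF_ii hκ hx).1
  have hJ3 : ({3} : Finset (Fin 11)) ⊆ {3, 4, 7} := by decide
  have hTie := tie_TF h hV3 hV4 hJ3 1 x
  have P := plE_TF hκ h.tp.ok.θ1 hJ3 a0 hb
  obtain ⟨-, f8, f9⟩ := full_tan h h0 h1 hκ hV2 hJ3 a0 hb hTie hQ hst hz kpos k0 H1 H2 hJ hB hO
  obtain ⟨C, hC⟩ := hN lam' lo' _ φ rt
    (ptV_of h h0 h1 a0 hb hTie hQ hst hz kpos k0 H1 H2 hJ hB hO) f8 f9 hVis
  obtain ⟨lam2, lo2, x2, h2, φ2, hJ2, hB2, hP, hH, hl, hφ⟩ :=
    ptV_inf h h0 h1 a0 hb hTie hQ hst hz kpos k0 H1 H2 hJ hB hO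
  have l0 : lam' 0 = 0 := hJ.tan.zero hJ.pos K2S774.cn_zero
  have l02 : lam2 0 = 0 := hP.aew.zero
  have hN3 : lam2 (bzn 1) ≤ -3 := by
    have := hl (bzn 1) (bzn_mem zero_le_one) 0 K2S774.cn_zero (-C) (-3) 1 fun y hy => by
      rw [smul_zero, l0, smul_bzn, mul_one]
      have := hC y hy
      linarith
    linarith
  refine F2_num h hη hκ hV2 a0 hb hP hH hN3 fun hg => hX hg lam2 lo2 _ φ2 rt hP hH ?_
  -- `N` is full at `lam2`
  have g10 : gC (TF {3} (p.θ 1 - p.θ 2) 1 x) b 10 ≠ 0 := by rw [hg]; exact P.g9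
  have mza := bza_mem zero_le_one
  have mzn := bzn_mem zero_le_one
  have e1 := one_grp hP.out.toOutS mza mzn (gC (TF {3} (p.θ 1 - p.θ 2) 1 x) b 10) (fun i hi => by
    have h10 : i ≠ 10 := fun e => hi (by rw [e])
    fin_cases i <;> simp [bza, bzn] at h10 ⊢)
  have off : ∀ i, gC (TF {3} (p.θ 1 - p.θ 2) 1 x) b i = gC (TF {3} (p.θ 1 - p.θ 2) 1 x) b 10 →
      i ≠ 0 ∧ i ≠ 8 := fun i hi =>
    ⟨fun e => P.g09 (by rw [← hg, ← hi, e]), fun e => P.g89 (by rw [← hg, ← hi, e])⟩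
  have e2 : φ2 (gC (TF {3} (p.θ 1 - p.θ 2) 1 x) b 10) (bza 1) = 0 :=
    hP.out.zero _ _ fun i hi => by
      obtain ⟨k0, k8⟩ := off i hi
      fin_cases i <;> simp [bza] at k0 k8 ⊢
  have e3 : -2 ≤ lam2 (bza 1) := by
    have hz0 : (0 : Fin 11 → ℝ) ∈ cn (mw monQ) (AF {3}) := K2S774.cn_zero
    have g1 := hP.prf.sharp 0 hz0 _ mza (by intro i; fin_cases i <;> simp [bza])
    rw [l02] at g1
    have g2 : ∑ s, (bza 1 s - (0 : Fin 11 → ℝ) s) = 2 := by
      simp [Fin.sum_univ_succ, bza]; norm_num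
    rw [g2] at g1
    linarith
  have e4 : φ2 (gC (TF {3} (p.θ 1 - p.θ 2) 1 x) b 10) (bzn 1) =
      φ2 (gC (TF {3} (p.θ 1 - p.θ 2) 1 x) b 10) (Pi.single 10 1) := hP.out.loc _ _ _ fun i hi => by
    obtain ⟨k0, k8⟩ := off i hi
    fin_cases i <;> simp [bzn] at k0 k8 ⊢
  intro y hy
  have hL : ∀ p', Legal monQ p' → p' ∈ cn (mw monQ) (AF {3}) := fun p' hp' w _ =>
    hp'.wall w.1 w.2.1 w.2.2
  rw [hom_single hL hP.out.toOutS (fun k hk c hc s hs => hH k (fun i hi => dh_pos a0 hk hi) c hc s hs)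
    (j := 10) g10 mzn (fun i hi => by
      obtain ⟨k0, k8⟩ := off i hi
      fin_cases i <;> simp [bzn] at k0 k8 ⊢) hy, ← e4]
  have e5 : φ2 (gC (TF {3} (p.θ 1 - p.θ 2) 1 x) b 10) (bzn 1) ≤ -1 := by linarith
  have := mul_le_mul_of_nonneg_left e5 hy
  linarith

/-- **case F from its three leaves**: the rung `F_b` (`F1`), `NClaim`, `XbN` -/
theorem caseF_of (h : Thick η p D I1 π eE fA fB V T w0 R T0 PD ν own c₀) (hη : η ≤ 1 / 8) {v : ℝ}
    (h0 : 0 < v) (h1 : v < 1) (hκ : 0 < p.θ 1 - p.θ 2) (h02 : p.θ 0 ≠ p.θ 2) (hV2 : V 2)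
    (hV3 : ¬ V 3) (hV4 : ¬ V 4) {g1 : ℝ} (hg1 : 0 < g1)
    (F1 : ∀ lam lo : (Fin 11 → ℝ) → ℝ, StV p V ν own w0 R v ∅ lam lo →
      FlV p V ν own w0 R v ∅ (1 + (p.θ 1 - p.θ 2)) 0 (rhoF p.θ) lam lo
        (fun l => l (ind1 {3}) < 0) g1)
    (hx : 0 < x 3) (hb : ∀ i, i ∉ ({3} : Finset (Fin 11)) → b i = rhoF p.θ i)
    (hN : NClaim D I1 (couQ D.B D.lev D.w w0 (incQ π D.L eE fA fB)) p V T x b)
    (hX : XbN D I1 (couQ D.B D.lev D.w w0 (incQ π D.L eE fA fB)) p V T x b) : False := by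
  have hg := h.tp.ok.g0.1
  exact ladder_FL h hη h0 h1 hκ h02 hV2 hV3 hV4 hx hb hg1 (by linarith : 0 < p.g / 2) F1
    fun lam lo H => F2_of h hη h0 h1 hκ hV2 hV3 hV4 hx hb (qdOk h.tp.slots {3}) H hN hX

end Crest.Agent.R136.LdFb511
end

-- ▼ part R136/LdFc_146
section

/-!
# R136, case F, rung `s = 1` (helper146): Kaufman (`kaufN` of helper356) wired into `F2_fl`

* `kaufB` : Kaufman in the boxes `bq`
* **`F2_fx`** : the F-lemma of the rung `s = 1`, the only hypothesis is `X_b` full given `N`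
* **`nClaimB`**, **`nClaim`** : `N` is full given `z, X_a` at every visible tangent (`PtV`), up to a
  constant; `nClaim` is the literal `NClaim` of helper511
-/

set_option autoImplicit false
set_option linter.unusedVariables false

open Finset Filter Topology

namespace Crest.Agent.R136.LdF6146

open Crest.Agent.R138.Ex926 (Base U IsTan)
open Crest.Agent.R136.Net191
open Crest.Agent.R136.NetQ186
open Crest.Agent.R136.Gf356
open Crest.Agent.R136.Wq638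
open Crest.Agent.R136.Ev356 (mv)
open Crest.Agent.R136.GeoQ186 (scl)
open Crest.Agent.R136.NatT550
open Crest.Agent.R136.NatR550 (nL)
open Crest.Agent.R136.Top484
open Crest.Agent.R136.LdF511
open Crest.Agent.R136.LdF3511
open Crest.Agent.R136.LdF4511
open Crest.Agent.R136.LdF5511
open Crest.Agent.R136.LdF7511
open Crest.Agent.R136.LdF9511
open Crest.Agent.R136.LdFa511 (bzn bza)
open Crest.Agent.R136.Dl667
open Crest.Agent.R136.LadA115 (cz)
open Crest.Agent.R136.Fx940 (bx2)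
open Crest.Agent.R136.Tb628 (oS oS_eq)
open Crest.Agent.R136.K2S774 (cn Prf JT Stage RecD RungD BaseOk ind1 A2)
open Crest.Agent.R136.K2A146 (FLemA)
open Crest.Agent.R136.AwJ774 (mA mem_mA coneM_mA aew_of_jt)
open Crest.Agent.R136.Aw413 (coneM AeW)
open Crest.Agent.R136.Dg219 (Walls mw gC dhC nC OutS gC_zero gC_eq gset mem_gset)
open Crest.Agent.R136.Rc146 (OutA)
open Crest.Agent.R136.Dg262 (X)

variable {η : ℝ} {p : Par4} {D : Dat4} {I1 : ℕ → Finset (ℕ × ℝ)} {π : Equiv.Perm (Fin 3)}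
  {eE fA fB : ℕ → ℕ × ℝ → ℝ} {V T : Fin 11 → Prop} {w0 R T0 : ℝ} {PD : Set (Fin 11 → ℝ)}
  {ν own : (Fin 11 → ℝ) → ℝ} {c₀ : ℝ}

theorem cz_p4 (x : ℝ) : cz x (Pi.single 4 x) = bq x x 0 0 0 0 := by
  funext i
  rw [bq_app]
  unfold cz
  fin_cases i <;> simp

theorem cz_bx2 (x t s : ℝ) : cz x (bx2 (Pi.single 4 x) 10 7 t s) = bq x x s 0 0 t := by
  funext i
  rw [bq_app]
  unfold cz bx2
  fin_cases i <;> simp

/-- **Kaufman** for `N` and `P`, in the boxes `bq` -/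
theorem kaufB (h : Thick η p D I1 π eE fA fB V T w0 R T0 PD ν own c₀) (hV3 : ¬ V 3)
    (hV4 : ¬ V 4) {a b : Fin 11 → ℝ} {lam : (Fin 11 → ℝ) → ℝ} {A : ℝ × ℝ}
    {φ : ℕ → (Fin 11 → ℝ) → ℝ} {r : ℕ → ℝ} {Vw Tw : Fin 11 → Prop} (hVw : ∀ k, Vw k → V k)
    (hA : AeW D.B D.B D.I I1 (couQ D.B D.lev D.w w0 (incQ π D.L eE fA fB)) monQ
      (mA monQ (AF {3})) 2 lam a b A φ r 0 1 (oS p.θ) Vw Tw) {x : ℝ} (hx : 0 < x) {N : ℕ}
    (hN : 0 < N) : ∃ j ≤ N,
      lam (bq x x 0 0 0 0) - lam (bq x x (x * j / N) 0 0 (x * j / N)) + (x - x * (j + 1) / N) ≤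
        lam (bq x x 0 0 0 0) - lam (bq x x 0 0 0 x) := by
  obtain ⟨j, hj, hk⟩ := Ev356.kaufN (f := fun n i => scl (uH D.B D.lev w0 n)
    (uA D.B D.lev D.w w0 n) (uB D.B D.lev D.w w0 n) (uY D.B D.lev D.w w0 n)
    (incQ π D.L eE fA fB n i)) hA (by norm_num) (fun n i _ j _ => rfl) h.ext.ne
    (fun k hk => vis2 h hV3 hV4 (hVw k hk)) n017 m0710 no3 hx hN
  rw [cz_p4, cz_bx2, cz_bx2] at hk
  exact ⟨j, hj, hk⟩


/-- **`N` is full given `z, X_a`** at every visible tangent, up to a constant -/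
theorem nClaimB (h : Thick η p D I1 π eE fA fB V T w0 R T0 PD ν own c₀)
    (hκ : 0 < p.θ 1 - p.θ 2) (h01 : p.θ 0 ≠ p.θ 1) (hV3 : ¬ V 3)
    (hV4 : ¬ V 4) {x b : Fin 11 → ℝ} (hx : 0 < x 3)
    (hb : ∀ i, i ∉ ({3} : Finset (Fin 11)) → b i = rhoF p.θ i)
    {lam lo : (Fin 11 → ℝ) → ℝ} {A : ℝ × ℝ} {φ : ℕ → (Fin 11 → ℝ) → ℝ} {r : ℕ → ℝ}
    (hP : PtV D.B D.I I1 (couQ D.B D.lev D.w w0 (incQ π D.L eE fA fB)) p V T {3}
      (TF {3} (p.θ 1 - p.θ 2) 1 x) b lam lo A φ r)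
    (f8 : ∀ y : ℝ, 0 ≤ y → φ (gC (TF {3} (p.θ 1 - p.θ 2) 1 x) b 8) (Pi.single 8 y) ≤ -y)
    (hVis : lam (ind1 {4, 7}) < 0) :
    ∃ j : ℝ, 1 ≤ j ∧ ∀ y : ℝ, j ≤ y →
      lam (bq y y 0 0 0 y) ≤ lam (bq y y 0 0 0 0) - (y - j) := by
  have PF := plF_TF hκ h.tp.ok.θ1 h01 hx hb
  exact claimN PF hP.out.toOutS hP.prf hP.aew.zero f8
    (fun y j' hj0 hjy hy g1 g2 g3 => by
      have := LadA115.leafN48 (f := fun n i => scl (uH D.B D.lev w0 n) (uA D.B D.lev D.w w0 n)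
        (uB D.B D.lev D.w w0 n) (uY D.B D.lev D.w w0 n) (incQ π D.L eE fA fB n i)) hP.aew
        (by norm_num) (fun n i _ j _ => rfl) h.ext.ne (fun k hk => vis2 h hV3 hV4 hk.1)
        n017 m4810 no3 (b := 0) (x := y) (j := j')
        (fun s => ⟨le_rfl, hy.le⟩) rfl rfl le_rfl le_rfl hj0 hjy
        (by rw [cz_bx, cz_bx]; exact g1) (by rw [cz_bx, cz_bx]; exact g2)
        (by rw [cz_bx, cz_bx]; exact g3)
      rwa [cz_bx, cz_bx] at this)
    (fun _ hx _ hN => kaufB h hV3 hV4 (fun _ hk => hk.1) hP.aew hx hN) hVis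

theorem bzn_eq (y : ℝ) : bzn y = bq y 0 0 y 0 y := rfl

/-- **`NClaim`** of the rung `s = 1` (`θ 0 ≠ θ 1`) -/
theorem nClaim (h : Thick η p D I1 π eE fA fB V T w0 R T0 PD ν own c₀)
    (hκ : 0 < p.θ 1 - p.θ 2) (h01 : p.θ 0 ≠ p.θ 1) (hV3 : ¬ V 3)
    (hV4 : ¬ V 4) {x b : Fin 11 → ℝ} (hx : 0 < x 3)
    (hb : ∀ i, i ∉ ({3} : Finset (Fin 11)) → b i = rhoF p.θ i) :
    LdFb511.NClaim D I1 (couQ D.B D.lev D.w w0 (incQ π D.L eE fA fB)) p V T x b := by
  intro lam lo A φ r hP f8 _ hVis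
  have PF := plF_TF hκ h.tp.ok.θ1 h01 hx hb
  obtain ⟨j, hj1, hj⟩ := nClaimB h hκ h01 hV3 hV4 hx hb hP (fun y hy => (f8 y hy).le) hVis
  have H := hP.out.toOutS
  have b00 : bq 0 0 0 0 0 0 = 0 := by
    funext i; rw [bq_app]; simp
  have mz0 : (0 : Fin 11 → ℝ) ∈ cn (mw monQ) (AF {3}) := K2S774.cn_zero
  refine ⟨3 * j, fun y hy => ?_⟩
  have y0 : 0 ≤ y := by linarith
  rw [bzn_eq]
  have mm : ∀ f xa n : ℝ, 0 ≤ f → 0 ≤ xa → xa ≤ y → 0 ≤ n → n ≤ y → n ≤ f + xa →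
      bq y f 0 xa 0 n ∈ cn (mw monQ) (AF {3}) := fun f xa n hf h1 h2 h3 h4 h5 =>
    bq_mem y0 hf le_rfl h1 le_rfl h3 hf h2 y0 h1 (by linarith) h5
  have m1 := mm 0 y y le_rfl y0 le_rfl y0 le_rfl (by linarith)
  by_cases hjy : j ≤ y
  · have k1 := hj y hjy
    have m2 := mm 0 y 0 le_rfl y0 le_rfl le_rfl y0 (by linarith)
    have m3 := mm 0 0 0 le_rfl le_rfl y0 le_rfl y0 (by linarith)
    have e1 := lossN PF H m1 m2
    have e2 := lossN PF H (mm y 0 y y0 le_rfl y0 y0 le_rfl (by linarith))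
      (mm y 0 0 y0 le_rfl y0 le_rfl y0 (by linarith))
    have e3 := lossX PF H m2 m3
    have e4 := f8 y y0
    have e5 := f8 0 le_rfl
    have e6 := hP.aew.own 0 (by rw [coneM_mA]; exact mz0) (bq y 0 0 0 0 0)
      (by rw [coneM_mA]; exact m3) (by
        rw [← b00]; exact bq_le y0 le_rfl le_rfl le_rfl le_rfl le_rfl) (fun k _ => by simp)
    rw [hP.aew.zero] at e6
    have e : bq y 0 0 0 0 0 0 = y := rfl
    rw [e, Pi.zero_apply] at e6
    linarith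
  · have e6 := hP.aew.own 0 (by rw [coneM_mA]; exact mz0) (bq y 0 0 y 0 y)
      (by rw [coneM_mA]; exact m1) (by
        rw [← b00]; exact bq_le y0 le_rfl le_rfl y0 le_rfl y0) (fun k _ => by simp)
    rw [hP.aew.zero] at e6
    have e : bq y 0 0 y 0 y 0 = y := rfl
    rw [e, Pi.zero_apply] at e6
    push Not at hjy
    linarith

end Crest.Agent.R136.LdF6146
end

-- ▼ part R136/LdX1_403
section

/-!
# R136, case F, rung (ii): `X_b` given `N` (helper403)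

Chart without the walls of `F_b`, window with level slots `z, E` (helper115's `ze_of_aew`), all
slots resolved.  `F_a, P, N` propagate: `F_a' = F_a`, `P' = P`, `N' = N + u P`.

* `NF` : the window model, `nf_of_aew` : producer, with the raw twist of `E`
* **`NF.xb_shift`** : loss of `X_a` given `(F_a, P, N, C_a, C_b, X_b)` is at most the loss of `X_b`
  given `(F_a, P, N, C_a, C_b)`
* **`xb_given_N_ne`** : `N ∥ X_b`, `κ ≠ 1`.
-/

set_option autoImplicit false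
set_option linter.unusedSectionVars false
set_option linter.unusedVariables false

open Filter Topology

namespace Crest.Agent.R136.LdX403

open Finset Crest.Agent.R136.NetQ186 Crest.Agent.R136.Net191 Crest.Agent.R136.Qg926
open Crest.Agent.R136.Gf356 Crest.Agent.R136.Ev356 Crest.Agent.R136.Aw413
open Crest.Agent.R136.Wq400 Crest.Agent.R136.Fe1355 Crest.Agent.R136.LadA115
open Crest.Agent.R136.Xb403 (MaE bd_of)
open Crest.Agent.R138.Ex926 (Base U)

/-- box vector: `F_a, C_a, C_b, P, X_a, X_b, N` -/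
def bz (fa ca cb p xa xb n : ℝ) : Fin 11 → ℝ := ![0, 0, 0, 0, fa, ca, cb, p, xa, xb, n]

/-- the same with `z, E` at `x` -/
def lz (x fa ca cb p xa xb n : ℝ) : Fin 11 → ℝ := ![x, 0, x, 0, fa, ca, cb, p, xa, xb, n]

theorem cze_bz (x fa ca cb p xa xb n : ℝ) :
    cze x (bz fa ca cb p xa xb n) = lz x fa ca cb p xa xb n := by
  funext j
  fin_cases j <;> simp [cze, bz, lz, Function.update]

/-- evolution of the slots `F_a, C_a, C_b, P, X_a, X_b, N`, error `δ` -/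
structure EvF (δ u φ q : ℝ) (r r' : Fin 11 → ℝ) : Prop where
  e4 : |r' 4 - r 4| ≤ δ
  e5 : |r' 5 - r 5| ≤ δ
  e6 : |r' 6 - (r 6 - φ * r 5)| ≤ δ
  e7 : |r' 7 - r 7| ≤ δ
  e8 : |r' 8 - (r 8 + u * r 5)| ≤ δ
  e9 : |r' 9 - (r 9 + u * r 6 - φ * (r 8 + u * r 5))| ≤ δ
  e10 : |r' 10 - (r 10 + q * (u * r 7))| ≤ δ

/-- **window with level slots `z`, `E`, without the walls of `F_b`** -/
structure NF (B : Base) (G : ℕ → RCfg (Fin 11)) (Leg : Set (Fin 11 → ℝ))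
    (ν : (Fin 11 → ℝ) → ℝ) (T D : ℝ) (f : ℕ → ℕ → ℝ) (q : ℝ) : Prop where
  H : RModel B G 1 T Leg ν D
  T0 : 0 < T
  q1 : |q| ≤ 1
  leg : ∀ fa ca cb p xa xb n : ℝ, 0 ≤ fa → fa ≤ T → 0 ≤ ca → ca ≤ T → 0 ≤ cb → cb ≤ T →
    0 ≤ p → p ≤ T → 0 ≤ xa → xa ≤ T → 0 ≤ xb → xb ≤ T → 0 ≤ n → n ≤ T → p ≤ fa + ca →
    n ≤ fa + xa → bz fa ca cb p xa xb n ∈ Leg
  zb : ∀ᶠ n in (U : Filter ℕ), ∀ k ∈ (G n).Z, |(G n).z k| ≤ 1 ∧ |f n k| ≤ 1
  rb : ∀ᶠ n in (U : Filter ℕ), ∀ k i l, (i, k) ∈ (G n).I → (l, k) ∈ (G n).I → ∀ s,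
    |(G n).rel k i l s| ≤ 1
  ev : ∀ ε : ℝ, 0 < ε → ∀ᶠ n in (U : Filter ℕ), ∀ k k' i l, (i, k) ∈ (G n).I →
    (l, k) ∈ (G n).I → (i, k') ∈ (G n).I → (l, k') ∈ (G n).I →
    EvF (B.d n ^ (T - ε)) ((G n).z k' - (G n).z k) (f n k' - f n k) q ((G n).rel k i l)
      ((G n).rel k' i l)

variable {B : Base} {G : ℕ → RCfg (Fin 11)} {Leg : Set (Fin 11 → ℝ)} {ν : (Fin 11 → ℝ) → ℝ}
  {T D q : ℝ} {f : ℕ → ℕ → ℝ}

namespace NF

variable (h : NF B G Leg ν T D f q)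

include h

/-- bounds of the differences -/
theorem db : ∀ᶠ n in (U : Filter ℕ), ∀ k ∈ (G n).Z, ∀ k' ∈ (G n).Z,
    |(G n).z k' - (G n).z k| ≤ 2 ∧ |f n k' - f n k| ≤ 2 := by
  filter_upwards [h.zb] with n hn k hk k' hk'
  constructor
  · refine (abs_sub _ _).trans ?_
    linarith [(hn k hk).1, (hn k' hk').1]
  · refine (abs_sub _ _).trans ?_
    linarith [(hn k hk).2, (hn k' hk').2]

/-- **visible shift**: loss of `X_a` given `(F_a, P, N, C_a, C_b, X_b : y)` is at most the loss of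
`X_b` given `(F_a, P, N, C_a, C_b : y)` -/
theorem xb_shift (htw : RawTw B G fun n k k' => f n k' - f n k) {y : ℝ} (hy : 0 ≤ y)
    (hyT : y ≤ T) : ν (bz y y y y 0 y y) - ν (bz y y y y y y y) ≤
      ν (bz y y y y 0 0 y) - ν (bz y y y y 0 y y) := by
  have hT := h.T0.le
  have m0 : bz y y y y 0 y y ∈ Leg := h.leg y y y y 0 y y hy hyT hy hyT hy hyT hy hyT le_rfl hT
    hy hyT hy hyT (by linarith) (by linarith)
  have m1 : bz y y y y y y y ∈ Leg := h.leg y y y y y y y hy hyT hy hyT hy hyT hy hyT hy hyT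
    hy hyT hy hyT (by linarith) (by linarith)
  have m2 : bz y y y y 0 0 y ∈ Leg := h.leg y y y y 0 0 y hy hyT hy hyT hy hyT hy hyT le_rfl hT
    le_rfl hT hy hyT (by linarith) (by linarith)
  refine shift_R h.H (bz y y y y 0 y y) (bz y y y y y y y) (bz y y y y 0 0 y) (bz y y y y 0 y y)
    m0 m1 m2 m0 (fun j => by fin_cases j <;> simp [bz, hy]) 8 9 (y := y)
    (by simp [bz]) (fun j hj => by fin_cases j <;> simp [bz] at hj ⊢) (by simp [bz])
    (fun n k k' => -(f n k' - f n k)) (by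
      intro ε hε
      filter_upwards [htw ε hε] with n hn i hi T hT hq
      refine hn i hi T hT fun q hq' => ?_
      have := hq q hq'
      rwa [abs_neg] at this) (by
      intro C0 hC0
      refine ⟨C0 + 2, by positivity, fun ε hε => ?_⟩
      filter_upwards [h.ev ε hε, h.rb, h.db, ev_const_le B hε 10] with n hev hrb hdb h8
        k hk k' hk' i i' hi hi' hl hl' hlo
      obtain ⟨hu, hg⟩ := hdb k hk k' hk'
      have E := hev k k' i i' hi hl hi' hl'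
      have hpow : ∀ t : ℝ, 0 < B.d n ^ t := fun t => rpos B n t
      have hC0ε : 0 < C0 * ε := by positivity
      set b := B.d n ^ (y - (C0 + 1) * ε) with hb
      have hb0 : 0 < b := hpow _
      have k1 : B.d n ^ (T - ε) ≤ b := rpow_anti B n (by nlinarith)
      have k2 : B.d n ^ (y - C0 * ε) ≤ b := rpow_anti B n (by nlinarith)
      have g4 := hlo 4
      have g5 := hlo 5
      have g6 := hlo 6
      have g7 := hlo 7
      have g9 := hlo 9
      have g10 := hlo 10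
      rw [h.H.base n] at g4 g5 g6 g7 g9 g10
      have v4 : bz y y y y 0 y y 4 = y := by simp [bz]
      have v5 : bz y y y y 0 y y 5 = y := by simp [bz]
      have v6 : bz y y y y 0 y y 6 = y := by simp [bz]
      have v7 : bz y y y y 0 y y 7 = y := by simp [bz]
      have v9 : bz y y y y 0 y y 9 = y := by simp [bz]
      have v10 : bz y y y y 0 y y 10 = y := by simp [bz]
      rw [v4] at g4
      rw [v5] at g5
      rw [v6] at g6
      rw [v7] at g7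
      rw [v9] at g9
      rw [v10] at g10
      have hA : b * 10 ≤ B.d n ^ (y - (C0 + 2) * ε) := by
        have e1 : B.d n ^ (y - (C0 + 2) * ε) = B.d n ^ (-ε) * b := by
          rw [hb, ← rpow_add']; congr 1; ring
        rw [e1]
        nlinarith
      set u := (G n).z k' - (G n).z k
      set φ := f n k' - f n k
      set r := (G n).rel k i i'
      set r' := (G n).rel k' i i'
      have hu5 : |u * r 5| ≤ 2 * b := by
        rw [abs_mul]; exact mul_le_mul hu (g5.trans k2) (abs_nonneg _) (by norm_num)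
      have hu6 : |u * r 6| ≤ 2 * b := by
        rw [abs_mul]; exact mul_le_mul hu (g6.trans k2) (abs_nonneg _) (by norm_num)
      have hu7 : |u * r 7| ≤ 2 * b := by
        rw [abs_mul]; exact mul_le_mul hu (g7.trans k2) (abs_nonneg _) (by norm_num)
      have hqu7 : |q * (u * r 7)| ≤ 2 * b := by
        rw [abs_mul]
        have := mul_le_mul h.q1 hu7 (abs_nonneg _) zero_le_one
        linarith
      have hφ5 : |φ * r 5| ≤ 2 * b := by
        rw [abs_mul]; exact mul_le_mul hg (g5.trans k2) (abs_nonneg _) (by norm_num)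
      have hφu5 : |φ * (u * r 5)| ≤ 4 * b := by
        rw [abs_mul]
        calc |φ| * |u * r 5| ≤ 2 * (2 * b) :=
              mul_le_mul hg hu5 (abs_nonneg _) (by norm_num)
          _ = 4 * b := by ring
      have s4 : |r' 4| ≤ 10 * b := by
        have e : r' 4 = (r' 4 - r 4) + r 4 := by ring
        rw [e]
        have := abs_add_le (r' 4 - r 4) (r 4)
        linarith [E.e4.trans k1, g4.trans k2]
      have s5 : |r' 5| ≤ 10 * b := by
        have e : r' 5 = (r' 5 - r 5) + r 5 := by ring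
        rw [e]
        have := abs_add_le (r' 5 - r 5) (r 5)
        linarith [E.e5.trans k1, g5.trans k2]
      have s6 : |r' 6| ≤ 10 * b := by
        have e : r' 6 = (r' 6 - (r 6 - φ * r 5)) + (r 6 - φ * r 5) := by ring
        rw [e]
        have t1 := abs_add_le (r' 6 - (r 6 - φ * r 5)) (r 6 - φ * r 5)
        have t2 := abs_sub (r 6) (φ * r 5)
        linarith [E.e6.trans k1, g6.trans k2]
      have s7 : |r' 7| ≤ 10 * b := by
        have e : r' 7 = (r' 7 - r 7) + r 7 := by ring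
        rw [e]
        have := abs_add_le (r' 7 - r 7) (r 7)
        linarith [E.e7.trans k1, g7.trans k2]
      have s10 : |r' 10| ≤ 10 * b := by
        have e : r' 10 = (r' 10 - (r 10 + q * (u * r 7))) + (r 10 + q * (u * r 7)) := by ring
        rw [e]
        have t1 := abs_add_le (r' 10 - (r 10 + q * (u * r 7))) (r 10 + q * (u * r 7))
        have t2 := abs_add_le (r 10) (q * (u * r 7))
        linarith [E.e10.trans k1, g10.trans k2]
      have s9 : |r' 9 - -φ * r 8| ≤ 10 * b := by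
        have e : r' 9 - -φ * r 8 = (r' 9 - (r 9 + u * r 6 - φ * (r 8 + u * r 5))) +
            (r 9 + u * r 6 - φ * (u * r 5)) := by ring
        rw [e]
        have t1 := abs_add_le (r' 9 - (r 9 + u * r 6 - φ * (r 8 + u * r 5)))
          (r 9 + u * r 6 - φ * (u * r 5))
        have t2 := abs_sub (r 9 + u * r 6) (φ * (u * r 5))
        have t3 := abs_add_le (r 9) (u * r 6)
        linarith [E.e9.trans k1, g9.trans k2]
      refine ⟨fun j => ?_, ?_⟩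
      · rw [h.H.base n]
        have hz : ∀ j, bz y y y y 0 0 y j = 0 → |(G n).rel k' i i' j| ≤
            B.d n ^ (bz y y y y 0 0 y j - (C0 + 2) * ε) := by
          intro j hj
          rw [hj]
          refine (hrb k' i i' hi' hl' j).trans ?_
          have : (1 : ℝ) ≤ B.d n ^ (-ε) := by linarith
          refine this.trans (rpow_anti B n (by nlinarith))
        have c4 : bz y y y y 0 0 y 4 = y := by simp [bz]
        have c5 : bz y y y y 0 0 y 5 = y := by simp [bz]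
        have c6 : bz y y y y 0 0 y 6 = y := by simp [bz]
        have c7 : bz y y y y 0 0 y 7 = y := by simp [bz]
        have c10 : bz y y y y 0 0 y 10 = y := by simp [bz]
        by_cases j4 : j = 4
        · subst j4; rw [c4]; exact s4.trans (by linarith)
        by_cases j5 : j = 5
        · subst j5; rw [c5]; exact s5.trans (by linarith)
        by_cases j6 : j = 6
        · subst j6; rw [c6]; exact s6.trans (by linarith)
        by_cases j7 : j = 7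
        · subst j7; rw [c7]; exact s7.trans (by linarith)
        by_cases j10 : j = 10
        · subst j10; rw [c10]; exact s10.trans (by linarith)
        refine hz j ?_
        fin_cases j <;> simp [bz] at j4 j5 j6 j7 j10 ⊢
      · exact s9.trans (by linarith))

end NF

/-! ### the producer -/

section prod

variable {ι : ℕ → Type*} [∀ n, DecidableEq (ι n)] {W : Wnd 11 ι} {F : ∀ n, ι n → Fq4}
  {Ma : Mons 11} {E : ∀ n, Finset (ι n)} {lam : (Fin 11 → ℝ) → ℝ} {x : ℝ}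

/-- the boxes of the window -/
theorem leg_lw (hW : LW Ma F lam {0, 2} (fun _ => x) x W E)
    (hsub : ∀ k, Ma.mon k ⊆ monQ.mon k) (no3 : ∀ k, ∀ e ∈ Ma.mon k, e 3 = 0) (hx : 0 ≤ x)
    {fa ca cb p xa xb n : ℝ} (f0 : 0 ≤ fa) (f1 : fa ≤ x) (ca0 : 0 ≤ ca) (ca1 : ca ≤ x)
    (cb0 : 0 ≤ cb) (cb1 : cb ≤ x) (p0 : 0 ≤ p) (p1 : p ≤ x) (xa0 : 0 ≤ xa) (xa1 : xa ≤ x)
    (xb0 : 0 ≤ xb) (xb1 : xb ≤ x) (n0 : 0 ≤ n) (n1 : n ≤ x) (hp : p ≤ fa + ca)
    (hn : n ≤ fa + xa) : bz fa ca cb p xa xb n ∈ W.legW := by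
  have hb : ∀ s, bz fa ca cb p xa xb n s ≤ x := by
    intro s
    fin_cases s <;> simp only [bz, Matrix.cons_val, Fin.zero_eta, Fin.mk_one, Fin.reduceFinMk] <;>
      assumption
  have hq : ∀ s, 0 ≤ lz x fa ca cb p xa xb n s ∧ lz x fa ca cb p xa xb n s ≤ x := by
    intro s
    fin_cases s <;> simp only [lz, Matrix.cons_val, Fin.zero_eta, Fin.mk_one, Fin.reduceFinMk] <;>
      constructor <;> first
        | assumption
        | exact le_rfl
  refine ⟨?_, fun s _ => by rw [hW.etop]; exact hb s⟩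
  rw [hW.eS, hW.etop, hW.eMw, hW.eR, cut_cze, cze_bz]
  refine ⟨legal3 hsub no3 (fun s => (hq s).1) ?_ ?_ ?_ ?_ ?_ ?_ ?_ ?_, fun s => (hq s).2⟩
  all_goals
    simp only [lz, Matrix.cons_val]
    linarith

/-- **the model** of a window of helper115 -/
theorem nf_of_lw (hW : LW Ma F lam {0, 2} (fun _ => x) x W E)
    (hsub : ∀ k, Ma.mon k ⊆ monQ.mon k) (no3 : ∀ k, ∀ e ∈ Ma.mon k, e 3 = 0) (hM : MaE Ma)
    (hx : 0 < x) :
    NF W.B' (W.cfg E) W.legW W.nu x W.Dc (fun n k => flg W n k 2) (chi Ma 0 7 10) where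
  H := hW.H
  T0 := hx
  q1 := chi_abs 0 7 10
  leg := fun fa ca cb p xa xb n f0 f1 ca0 ca1 cb0 cb1 p0 p1 xa0 xa1 xb0 xb1 n0 n1 hp hn =>
    leg_lw hW hsub no3 hx.le f0 f1 ca0 ca1 cb0 cb1 p0 p1 xa0 xa1 xb0 xb1 n0 n1 hp hn
  zb := by
    have hK0 := hW.qa.q.ok.K0_one
    filter_upwards [bd_of hW.qa.q (fun s => by have := hW.qa.kap4 s; linarith) hW.hc,
      hW.qa.q.z_eq hW.ekz hW.hc] with n hn hz k hk
    rw [hz k]
    exact ⟨hn.2 k hk 0, hn.2 k hk 2⟩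
  rb := by
    have hK0 := hW.qa.q.ok.K0_one
    exact (bd_of hW.qa.q (fun s => by have := hW.qa.kap4 s; linarith) hW.hc).mono
      fun n hn => hn.1
  ev := fun ε hε => by
    have h0S : (0 : Fin 11) ∈ W.S := by rw [hW.eS]; decide
    have h2S : (2 : Fin 11) ∈ W.S := by rw [hW.eS]; decide
    have h3S : (3 : Fin 11) ∉ W.S := by rw [hW.eS]; decide
    have h4S : (4 : Fin 11) ∉ W.S := by rw [hW.eS]; decide
    have ht : ∀ s, x ≤ W.top s := fun s => by rw [hW.etop]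
    filter_upwards [hW.qa.evoX hW.hc hx.le ht hε, hW.qa.q.z_eq hW.ekz hW.hc,
      hW.qa.q.mot_eq hW.hc] with n hev hz hmot k k' i l h1 h2 h3 h4
    have hkZ : k ∈ (W.cfg E n).Z := hW.H.memZ h1
    have hkZ' : k' ∈ (W.cfg E n).Z := hW.H.memZ h3
    have key := hev k k' i l h1 h3 h2 h4
    set a := ownC (chi Ma) W n k k' (fsl W n i k 2) (fsl W n i k 3) with ha
    have m0 : a 0 = (W.cfg E n).z k' - (W.cfg E n).z k := by
      rw [ha, hz k, hz k']
      unfold ownC mot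
      rw [if_neg (by decide), if_pos h0S]
      exact (hmot k hkZ k' hkZ').1 0 (by simp)
    have m2 : a 2 = flg W n k' 2 - flg W n k 2 := by
      rw [ha]
      unfold ownC mot
      rw [if_neg (by decide), if_pos h2S]
      exact (hmot k hkZ k' hkZ').1 2 (by simp)
    have m3 : a 3 = 0 := by
      rw [ha]
      unfold ownC mot
      rw [if_neg (by decide), if_neg h3S]
    have m4 : a 4 = 0 := by
      rw [ha]
      unfold ownC
      rw [if_pos rfl, if_neg h4S]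
    have c234 : chi Ma 2 3 4 = 0 := if_neg fun hh => absurd (no3 4 _ hh) (by decide)
    have c017 : chi Ma 0 1 7 = 0 := if_neg hM.r
    have c256 : chi Ma 2 5 6 = 1 := if_pos hM.m256
    have c058 : chi Ma 0 5 8 = 1 := if_pos hM.m058
    have c069 : chi Ma 0 6 9 = 1 := if_pos hM.m069
    have c289 : chi Ma 2 8 9 = 1 := if_pos hM.m289
    have ns : ∀ s : Fin 11, s = 4 ∨ s = 5 ∨ s = 6 ∨ s = 7 ∨ s = 8 ∨ s = 9 ∨ s = 10 →
        s ∉ W.S := by
      intro s hs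
      rw [hW.eS]
      rcases hs with rfl | rfl | rfl | rfl | rfl | rfl | rfl <;> decide
    rw [← m0, ← m2]
    refine ⟨?_, ?_, ?_, ?_, ?_, ?_, ?_⟩
    · have := key 4 (ns 4 (by simp))
      simpa only [evoC, Matrix.cons_val, c234, zero_mul, add_zero] using this
    · have := key 5 (ns 5 (by simp))
      simpa only [evoC, Matrix.cons_val] using this
    · have := key 6 (ns 6 (by simp))
      simpa only [evoC, Matrix.cons_val, c256, one_mul] using this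
    · have := key 7 (ns 7 (by simp))
      simpa only [evoC, Matrix.cons_val, c017, m3, m4, zero_mul, mul_zero, add_zero, sub_zero]
        using this
    · have := key 8 (ns 8 (by simp))
      simpa only [evoC, Matrix.cons_val, c058, one_mul] using this
    · have := key 9 (ns 9 (by simp))
      simpa only [evoC, Matrix.cons_val, c058, c069, c289, one_mul] using this
    · have := key 10 (ns 10 (by simp))
      simpa only [evoC, Matrix.cons_val, c017, m3, m4, zero_mul, mul_zero, add_zero, sub_zero]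
        using this

end prod

section aew

variable {ι : ℕ → Type*} [∀ n, DecidableEq (ι n)] {F : ∀ n, ι n → Fq4}
  {Ma : Mons 11} {B Bo : Base} {I J : ∀ n, Finset (ι n)} {co : ∀ n, ι n → ι n → Fin 11 → ℝ}
  {C : ℝ} {lam : (Fin 11 → ℝ) → ℝ} {a b' : Fin 11 → ℝ} {A : ℝ × ℝ}
  {φ : ℕ → (Fin 11 → ℝ) → ℝ} {r : ℕ → ℝ} {κ : Fin 11 → ℝ} {V Tw : Fin 11 → Prop}

/-- **the window with the level slots `z, E` and the raw twist of `E`** -/
theorem nf_of_aew (h : AeW B Bo I J co monQ Ma C lam a b' A φ r 0 1 κ V Tw) (hC : 0 ≤ C)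
    (hco : ∀ n, ∀ i ∈ I n, ∀ j ∈ I n, co n i j = coQ (F n i) (F n j))
    (hne : ∀ᶠ n in (U : Filter ℕ), (J n).Nonempty) (hM : MaE Ma)
    (no3 : ∀ k, ∀ e ∈ Ma.mon k, e 3 = 0)
    (hV : ∀ k, V k → k = 2) (hTw : Tw 2) {x : ℝ} (hx : 0 < x)
    (hden : lam (fun _ => x) ≤ lam (cut {0, 2} (fun _ => x) 0) + lam (cut {0, 2} 0 fun _ => x)) :
    ∃ (W : Wnd 11 ι) (E : ∀ n, Finset (ι n)), LW Ma F lam {0, 2} (fun _ => x) x W E ∧
      NF W.B' (W.cfg E) W.legW W.nu x W.Dc (fun n k => flg W n k 2) (chi Ma 0 7 10) ∧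
      RawTw W.B' (W.cfg E) (fun n k k' => flg W n k' 2 - flg W n k 2) := by
  have hK0 : 1 ≤ cK0 monQ C := cK0_one hC
  have hok := stQ_ok (K := 4 * cK0 monQ C) (T := x) sok_e (by linarith) hx.le h.sub
  set st : WSt 11 := stQ {0, 2} (4 * cK0 monQ C) x Ma with hst
  obtain ⟨W, hW, -, -⟩ := h.wnd st rfl hok (fun _ _ => 1)
    (fun _ => Crest.Agent.R138.Ex926.Base.Sub.const one_pos) J (fun _ => 1)
    (Eventually.of_forall fun n => Finset.Subset.refl _) hne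
    (Crest.Agent.R138.Ex926.Base.Sub.const one_pos)
    (Eventually.of_forall fun n => by rw [one_mul])
  have hsing : ∀ y : ℝ, 0 ≤ y → Pi.single (0 : Fin 11) y ∈ coneM Ma := fun y hy k e he => by
    have hk : k ≠ 0 := by
      rintro rfl
      have := h.sub 0 he
      simp [monQ, mfQ] at this
    rw [Pi.single_eq_of_ne hk]
    refine sum_nonneg fun s _ => mul_nonneg (Nat.cast_nonneg _) ?_
    by_cases hs : s = 0
    · subst hs; simpa using hy
    · rw [Pi.single_eq_of_ne hs]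
  have hden' : st.Dens lam 1 x :=
    ⟨hden, zero_le_one, le_rfl, le_rfl, fun y h0 h1 => by
      have := h.frostO (c0 := 0) zero_mem (fun k _ => by simp) h0
        (by rw [zero_add]; exact hsing y h0)
      rw [zero_add, h.zero, sub_zero] at this
      exact this⟩
  obtain ⟨E, g, hP, -, H, htw⟩ := hW.model hden' (fun _ _ _ => 0) (g₀ := fun n => n)
    (tendsto_natCast_atTop_atTop.mono_left Crest.Agent.R138.Ex926.U_le_atTop)
    (fun k hk => Or.inl (by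
      rw [hV k hk]
      exact (show (2 : Fin 11) ∈ ({0, 2} : Finset (Fin 11)) by decide)))
  have hq : QWnd W F := qwnd_of_wat hW hco (show ∀ s ∈ ({0, 2} : Finset (Fin 11)),
    s = 0 ∨ s = 2 ∨ s = 3 ∨ s = 4 by decide)
  have hc := hcQ hq hP
  have hqa : QAt W F Ma := QAt.of_wat hW hq hok.kzS (fun s => rfl) hM.r
  have hLW : LW Ma F lam {0, 2} (fun _ => x) x W E :=
    ⟨hW.elam, hW.eS, hW.etop, hW.eMw, hW.eR, hW.ekz, hqa, hc, H⟩
  refine ⟨W, E, hLW, nf_of_lw hLW h.sub no3 hM hx, ?_⟩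
  have eS : W.S = {0, 2} := hW.eS
  have et : ∀ s, x ≤ W.top s := fun s => by rw [hLW.etop]
  refine Crest.Agent.R136.C2w400.rawTw_of_rawL hq hc (s := 2) (by rw [eS]; decide) (by simp)
    hx (et 2) (htw 2 (show (2 : Fin 11) ∈ ({0, 2} : Finset (Fin 11)) by decide) hTw hx ⟨x, hx, ?_⟩)
  show cut {0, 2} (fun _ => x) (Pi.single 2 x) ∈ coneM Ma
  have e1 : cut {0, 2} (fun _ => x) (Pi.single (2 : Fin 11) x) =
      ![0, x, x, x, x, x, x, x, x, x, x] := by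
    funext s
    fin_cases s <;> simp [cut]
  rw [e1]
  intro k e he
  refine (legalQ_iff.2 ?_).wall k e (h.sub k he)
  refine ⟨fun k => ?_, ?_, ?_, ?_, ?_, ?_, ?_, ?_, ?_, ?_, ?_, ?_⟩
  · fin_cases k <;>
      simp only [Matrix.cons_val, Fin.zero_eta, Fin.mk_one, Fin.reduceFinMk, Fin.isValue] <;>
      linarith
  all_goals
    simp only [Matrix.cons_val, Fin.isValue]
    linarith

end aew

end Crest.Agent.R136.LdX403
end

-- ▼ part R136/LdX2_403
section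

/-!
# R136, case F, rung (ii): `X_b` given `N`, groups, `κ ≠ 1` (helper403)

* `dens_x` : density of the window with the level slots `z, E`
* **`xb_ne`** : `N ∥ X_b`, `C_b ∦ X_a` (`κ ≠ 1`)
* **`xb_given_N_ne`** : over helper667's `PtV`.
-/

set_option autoImplicit false
set_option linter.unusedSectionVars false
set_option linter.unusedVariables false

open Filter Topology

namespace Crest.Agent.R136.LdX403

open Finset Crest.Agent.R136.NetQ186 Crest.Agent.R136.Net191 Crest.Agent.R136.Qg926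
open Crest.Agent.R136.Gf356 Crest.Agent.R136.Ev356 Crest.Agent.R136.Aw413
open Crest.Agent.R136.Wq400 Crest.Agent.R136.Fe1355 Crest.Agent.R136.LadA115
open Crest.Agent.R136.Xb403 (MaE bd_of)
open Crest.Agent.R136.LdF5511 (PlE one_grp split2)
open Crest.Agent.R136.Dg219 (mw Walls Tn OutS gC dhC nC gset lf mem_gset gC_zero gC_eq nC_zero
  nC_of)
open Crest.Agent.R138.Ex926 (Base U)

/-- plane of rung (ii) with `N ∥ X_b` -/
structure PlX (a b : Fin 11 → ℝ) (κ : ℝ) : Prop extends PlE a b κ where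
  a1 : a 1 = 0
  a4 : a 4 = 0
  a7 : a 7 = 0
  g10 : gC a b 10 = gC a b 9

namespace PlX

variable {a b : Fin 11 → ℝ} {κ : ℝ} (h : PlX a b κ)

include h

/-- the other slots of the group of `z` : none besides `E` (and `F_b`) -/
theorem grp0 {i : Fin 11} (hi : gC a b i = gC a b 0) : i = 0 ∨ i = 2 ∨ i = 3 := by
  have P := h.toPlE
  have n1 : i ≠ 1 := fun e => P.g0 (by rw [← hi, e]; exact gC_zero.2 h.a1)
  have n4 : i ≠ 4 := fun e => P.g0 (by rw [← hi, e]; exact gC_zero.2 h.a4)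
  have n5 : i ≠ 5 := fun e => P.g0 (by rw [← hi, e]; exact P.g5)
  have n7 : i ≠ 7 := fun e => P.g0 (by rw [← hi, e]; exact gC_zero.2 h.a7)
  have n6 : i ≠ 6 := fun e => P.g06 (by rw [← hi, e])
  have n8 : i ≠ 8 := fun e => P.g08 (by rw [← hi, e])
  have n9 : i ≠ 9 := fun e => P.g09 (by rw [← hi, e])
  have n10 : i ≠ 10 := fun e => P.g09 (by rw [← hi, e, h.g10])
  fin_cases i <;> simp at n1 n4 n5 n6 n7 n8 n9 n10 ⊢

/-- the group of `X_b` -/
theorem grp9 {i : Fin 11} (hi : gC a b i = gC a b 9) : i = 9 ∨ i = 10 ∨ i = 3 := by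
  have P := h.toPlE
  have n0 : i ≠ 0 := fun e => P.g09 (by rw [← hi, e])
  have n2 : i ≠ 2 := fun e => P.g09 (by rw [P.g02, ← hi, e])
  have n1 : i ≠ 1 := fun e => P.g9 (by rw [← hi, e]; exact gC_zero.2 h.a1)
  have n4 : i ≠ 4 := fun e => P.g9 (by rw [← hi, e]; exact gC_zero.2 h.a4)
  have n5 : i ≠ 5 := fun e => P.g9 (by rw [← hi, e]; exact P.g5)
  have n7 : i ≠ 7 := fun e => P.g9 (by rw [← hi, e]; exact gC_zero.2 h.a7)
  have n6 : i ≠ 6 := fun e => P.g69 (by rw [← hi, e])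
  have n8 : i ≠ 8 := fun e => P.g89 (by rw [← hi, e])
  fin_cases i <;> simp at n0 n1 n2 n4 n5 n6 n7 n8 ⊢

/-- the group of `X_a` -/
theorem grp8 {i : Fin 11} (hi : gC a b i = gC a b 8) : i = 8 ∨ i = 6 ∨ i = 3 := by
  have P := h.toPlE
  have n0 : i ≠ 0 := fun e => P.g08 (by rw [← hi, e])
  have n2 : i ≠ 2 := fun e => P.g08 (by rw [P.g02, ← hi, e])
  have n1 : i ≠ 1 := fun e => P.g8 (by rw [← hi, e]; exact gC_zero.2 h.a1)
  have n4 : i ≠ 4 := fun e => P.g8 (by rw [← hi, e]; exact gC_zero.2 h.a4)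
  have n5 : i ≠ 5 := fun e => P.g8 (by rw [← hi, e]; exact P.g5)
  have n7 : i ≠ 7 := fun e => P.g8 (by rw [← hi, e]; exact gC_zero.2 h.a7)
  have n9 : i ≠ 9 := fun e => P.g89 (by rw [← hi, e])
  have n10 : i ≠ 10 := fun e => P.g89 (by rw [← hi, e, h.g10])
  fin_cases i <;> simp at n0 n1 n2 n4 n5 n7 n9 n10 ⊢


end PlX

/-- `C_b ∦ X_a` if `κ ≠ 1` -/
theorem g68_ne {a b : Fin 11 → ℝ} {κ : ℝ} (P : PlE a b κ) (h1 : κ ≠ 1) :
    gC a b 6 ≠ gC a b 8 := by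
  rw [Ne, gC_eq P.n6 P.n8, P.a6, P.a8, P.b8, P.b6, P.b2]
  have hκ := P.κ0
  intro e
  have h2 : (κ - 1) * b 5 = 0 := by
    field_simp at e
    linarith
  rcases mul_eq_zero.1 h2 with h3 | h3
  · exact h1 (by linarith)
  · exact P.b5 h3

/-- `C_b ∥ X_a` if `κ = 1` -/
theorem g68_eq {a b : Fin 11 → ℝ} (P : PlE a b 1) : gC a b 6 = gC a b 8 := by
  rw [gC_eq P.n6 P.n8, P.a6, P.a8, P.b8, P.b6, P.b2]
  ring

section mem

variable {Ma : Mons 11} (hsub : ∀ k, Ma.mon k ⊆ monQ.mon k)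
  (no3 : ∀ k, ∀ e ∈ Ma.mon k, e 3 = 0)

include hsub no3

/-- boxes of the cone -/
theorem mem3 {c : Fin 11 → ℝ} (h0 : ∀ s, 0 ≤ c s)
    (w625 : c 6 ≤ c 2 + c 5) (w701 : c 7 ≤ c 0 + c 1)
    (w745 : c 7 ≤ c 4 + c 5) (w805 : c 8 ≤ c 0 + c 5) (w906 : c 9 ≤ c 0 + c 6)
    (w928 : c 9 ≤ c 2 + c 8) (w107 : c 10 ≤ c 0 + c 7) (w148 : c 10 ≤ c 4 + c 8) :
    c ∈ coneM Ma :=
  fun k e he => (legal3 hsub no3 h0 w625 w701 w745 w805 w906 w928 w107 w148).wall k e he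

/-- the boxes `lz` -/
theorem mem_lz {x fa ca cb p xa xb n : ℝ} (hx : 0 ≤ x) (f0 : 0 ≤ fa) (ca0 : 0 ≤ ca)
    (cb0 : 0 ≤ cb) (cb1 : cb ≤ x) (p0 : 0 ≤ p) (p1 : p ≤ x) (xa0 : 0 ≤ xa) (xa1 : xa ≤ x)
    (xb0 : 0 ≤ xb) (xb1 : xb ≤ x) (n0 : 0 ≤ n) (n1 : n ≤ x) (hp : p ≤ fa + ca)
    (hn : n ≤ fa + xa) : lz x fa ca cb p xa xb n ∈ coneM Ma := by
  refine mem3 hsub no3 (fun s => ?_) ?_ ?_ ?_ ?_ ?_ ?_ ?_ ?_
  · fin_cases s <;> simp only [lz, Matrix.cons_val, Fin.zero_eta, Fin.mk_one, Fin.reduceFinMk,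
      Fin.isValue] <;> first
        | assumption
        | exact le_rfl
  all_goals
    simp only [lz, Matrix.cons_val]
    linarith

end mem

section arith

variable {Ma : Mons 11} {a b : Fin 11 → ℝ} {κ : ℝ} {lam : (Fin 11 → ℝ) → ℝ} {A : ℝ × ℝ}
  {φ : ℕ → (Fin 11 → ℝ) → ℝ} {r : ℕ → ℝ}

/-- **density** of the window with the level slots `z, E` -/
theorem dens_x (hsub : ∀ k, Ma.mon k ⊆ monQ.mon k) (no3 : ∀ k, ∀ e ∈ Ma.mon k, e 3 = 0)
    (h : OutS (gC a b) (coneM Ma) (dhC a b) (nC a b) lam A φ r) (P : PlX a b κ)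
    (h0 : lam 0 = 0)
    (hind : ∀ c ∈ coneM Ma, ∀ c' ∈ coneM Ma, (∀ i, i ≠ 3 → c i = c' i) → 0 ≤ c 1 → lam c = lam c')
    {x : ℝ} (hx : 0 ≤ x) :
    lam (fun _ => x) ≤ lam (cut {0, 2} (fun _ => x) 0) + lam (cut {0, 2} 0 fun _ => x) := by
  have e1 : cut {0, 2} (fun _ => x) (0 : Fin 11 → ℝ) = ![0, x, 0, x, x, x, x, x, x, x, x] := by
    funext s
    fin_cases s <;> simp [cut]
  have e2 : cut {0, 2} (0 : Fin 11 → ℝ) (fun _ => x) = ![x, 0, x, 0, 0, 0, 0, 0, 0, 0, 0] := by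
    funext s
    fin_cases s <;> simp [cut]
  rw [e1, e2]
  have m1 : (fun _ => x : Fin 11 → ℝ) ∈ coneM Ma :=
    mem3 hsub no3 (fun _ => hx) (by linarith) (by linarith) (by linarith) (by linarith)
      (by linarith) (by linarith) (by linarith) (by linarith)
  have m1' : (![x, x, x, 0, x, x, x, x, x, x, x] : Fin 11 → ℝ) ∈ coneM Ma := by
    refine mem3 hsub no3 (fun s => ?_) ?_ ?_ ?_ ?_ ?_ ?_ ?_ ?_
    · fin_cases s <;> simp <;> exact hx
    all_goals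
      simp only [Matrix.cons_val]
      linarith
  have m2 : (![0, x, 0, x, x, x, x, x, x, x, x] : Fin 11 → ℝ) ∈ coneM Ma := by
    refine mem3 hsub no3 (fun s => ?_) ?_ ?_ ?_ ?_ ?_ ?_ ?_ ?_
    · fin_cases s <;> simp <;> exact hx
    all_goals
      simp only [Matrix.cons_val]
      linarith
  have m2' : (![0, x, 0, 0, x, x, x, x, x, x, x] : Fin 11 → ℝ) ∈ coneM Ma := by
    refine mem3 hsub no3 (fun s => ?_) ?_ ?_ ?_ ?_ ?_ ?_ ?_ ?_
    · fin_cases s <;> simp <;> exact hx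
    all_goals
      simp only [Matrix.cons_val]
      linarith
  have m3 : (![x, 0, x, 0, 0, 0, 0, 0, 0, 0, 0] : Fin 11 → ℝ) ∈ coneM Ma := by
    refine mem3 hsub no3 (fun s => ?_) ?_ ?_ ?_ ?_ ?_ ?_ ?_ ?_
    · fin_cases s <;> simp <;> exact hx
    all_goals
      simp only [Matrix.cons_val]
      linarith
  have f1 : lam (fun _ => x) = lam ![x, x, x, 0, x, x, x, x, x, x, x] :=
    hind _ m1 _ m1' (fun i hi => by fin_cases i <;> simp at hi ⊢) hx
  have f2 : lam ![0, x, 0, x, x, x, x, x, x, x, x] = lam ![0, x, 0, 0, x, x, x, x, x, x, x] :=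
    hind _ m2 _ m2' (fun i hi => by fin_cases i <;> simp at hi ⊢) (by simpa using hx)
  have hs := split2 h (zero_mem (Ma := Ma)) m2' m3 m1' (by
    intro k
    by_cases hk : k = gC a b 0
    · left
      intro i hi
      rw [hk] at hi
      rcases P.grp0 hi with rfl | rfl | rfl <;> simp
    · right
      intro i hi
      have n0 : i ≠ 0 := fun e => hk (by rw [← hi, e])
      have n2 : i ≠ 2 := fun e => hk (by rw [← hi, e, P.g02])
      fin_cases i <;> simp at n0 n2 ⊢)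
  rw [h0] at hs
  rw [f1, f2]
  linarith

/-- homogeneity of `X_b, N` in their group -/
theorem hom910 (hsub : ∀ k, Ma.mon k ⊆ monQ.mon k) (no3 : ∀ k, ∀ e ∈ Ma.mon k, e 3 = 0)
    (h : OutS (gC a b) (coneM Ma) (dhC a b) (nC a b) lam A φ r) (P : PlX a b κ)
    (hom : ∀ c ∈ coneM Ma, ∀ s : ℝ, 0 ≤ s → φ (gC a b 9) (s • c) = s * φ (gC a b 9) c)
    {y : ℝ} (hy : 0 ≤ y) : φ (gC a b 9) (Pi.single 9 y + Pi.single 10 y) =
      y * φ (gC a b 9) (Pi.single 9 1 + Pi.single 10 1) := by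
  have m1 : lz 1 1 0 0 0 0 1 1 ∈ coneM Ma := mem_lz hsub no3 zero_le_one zero_le_one le_rfl le_rfl
    zero_le_one le_rfl zero_le_one le_rfl zero_le_one zero_le_one le_rfl zero_le_one le_rfl
    (by norm_num) (by norm_num)
  have e1 : φ (gC a b 9) (Pi.single 9 1 + Pi.single 10 1) = φ (gC a b 9) (lz 1 1 0 0 0 0 1 1) :=
    h.loc _ _ _ fun i hi => by
      rcases P.grp9 hi with rfl | rfl | rfl <;> simp [lz]
  have e2 : φ (gC a b 9) (Pi.single 9 y + Pi.single 10 y) =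
      φ (gC a b 9) (y • lz 1 1 0 0 0 0 1 1) :=
    h.loc _ _ _ fun i hi => by
      rcases P.grp9 hi with rfl | rfl | rfl <;> simp [lz]
  rw [e1, e2, hom _ m1 y hy]

end arith

section aew

variable {ι : ℕ → Type*} [∀ n, DecidableEq (ι n)] {F : ∀ n, ι n → Fq4}
  {Ma : Mons 11} {B Bo : Base} {I J : ∀ n, Finset (ι n)} {co : ∀ n, ι n → ι n → Fin 11 → ℝ}
  {C : ℝ} {lam : (Fin 11 → ℝ) → ℝ} {a b : Fin 11 → ℝ} {κ : ℝ} {A : ℝ × ℝ}
  {φ : ℕ → (Fin 11 → ℝ) → ℝ} {r : ℕ → ℝ} {κo : Fin 11 → ℝ} {V Tw : Fin 11 → Prop}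

/-- value of `ν` -/
theorem nu_lw {W : Wnd 11 ι} {E : ∀ n, Finset (ι n)} {x : ℝ}
    (hW : LW Ma F lam {0, 2} (fun _ => x) x W E) (fa ca cb p xa xb n : ℝ) :
    W.nu (bz fa ca cb p xa xb n) = lam (lz x fa ca cb p xa xb n) - lam fun _ => x := by
  unfold Wnd.nu
  rw [hW.eS, hW.etop, hW.lamE, cut_cze, cze_bz]

/-- **`X_b` given `N`**, `C_b ∦ X_a` -/
theorem xb_ne (h : AeW B Bo I J co monQ Ma C lam a b A φ r 0 1 κo V Tw) (hC : 0 ≤ C)
    (hco : ∀ n, ∀ i ∈ I n, ∀ j ∈ I n, co n i j = coQ (F n i) (F n j))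
    (hne : ∀ᶠ n in (U : Filter ℕ), (J n).Nonempty) (hM : MaE Ma)
    (no3 : ∀ k, ∀ e ∈ Ma.mon k, e 3 = 0)
    (hV : ∀ k, V k → k = 2) (hTw : Tw 2) (P : PlX a b κ) (g68 : gC a b 6 ≠ gC a b 8)
    (hind : ∀ c ∈ coneM Ma, ∀ c' ∈ coneM Ma, (∀ i, i ≠ 3 → c i = c' i) → 0 ≤ c 1 → lam c = lam c')
    (hom : ∀ c ∈ coneM Ma, ∀ s : ℝ, 0 ≤ s → φ (gC a b 9) (s • c) = s * φ (gC a b 9) c)
    (h8 : φ (gC a b 8) (Pi.single 8 1) ≤ -1)
    (hN : ∀ y, 0 ≤ y → φ (gC a b 10) (Pi.single 10 y) ≤ -y) {y : ℝ} (hy : 0 ≤ y) :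
    φ (gC a b 9) (Pi.single 9 y + Pi.single 10 y) ≤ -(2 * y) := by
  obtain ⟨W, E, hW, hNF, htw⟩ := nf_of_aew h hC hco hne hM no3 hV hTw one_pos
    (dens_x h.sub no3 h.out P h.zero hind zero_le_one)
  have key := hNF.xb_shift htw zero_le_one le_rfl
  rw [nu_lw hW, nu_lw hW, nu_lw hW] at key
  have m : ∀ xa xb : ℝ, 0 ≤ xa → xa ≤ 1 → 0 ≤ xb → xb ≤ 1 →
      lz 1 1 1 1 1 xa xb 1 ∈ coneM Ma := fun xa xb h1 h2 h3 h4 =>
    mem_lz h.sub no3 zero_le_one zero_le_one zero_le_one zero_le_one le_rfl zero_le_one le_rfl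
      h1 h2 h3 h4 zero_le_one le_rfl (by norm_num) (by linarith)
  have m01 := m 0 1 le_rfl zero_le_one zero_le_one le_rfl
  have m11 := m 1 1 zero_le_one le_rfl zero_le_one le_rfl
  have m00 := m 0 0 le_rfl zero_le_one le_rfl zero_le_one
  -- `X_a` alone
  have k8 : lam (lz 1 1 1 1 1 0 1 1) - lam (lz 1 1 1 1 1 1 1 1) =
      -φ (gC a b 8) (Pi.single 8 1) := by
    rw [one_grp h.out m01 m11 (gC a b 8) (fun i hi => by
      have n8 : i ≠ 8 := fun e => hi (by rw [e])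
      fin_cases i <;> simp [lz] at n8 ⊢)]
    have hz : φ (gC a b 8) (lz 1 1 1 1 1 0 1 1) = 0 := h.out.zero _ _ fun i hi => by
      rcases P.grp8 hi with rfl | rfl | rfl
      · simp [lz]
      · exact absurd hi g68
      · simp [lz]
    have he : φ (gC a b 8) (lz 1 1 1 1 1 1 1 1) = φ (gC a b 8) (Pi.single 8 1) :=
      h.out.loc _ _ _ fun i hi => by
        rcases P.grp8 hi with rfl | rfl | rfl
        · simp [lz]
        · exact absurd hi g68
        · simp [lz]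
    rw [hz, he]
    ring
  -- `X_b` given `N`
  have k9 : lam (lz 1 1 1 1 1 0 0 1) - lam (lz 1 1 1 1 1 0 1 1) =
      φ (gC a b 9) (Pi.single 10 1) - φ (gC a b 9) (Pi.single 9 1 + Pi.single 10 1) := by
    rw [one_grp h.out m00 m01 (gC a b 9) (fun i hi => by
      have n9 : i ≠ 9 := fun e => hi (by rw [e])
      fin_cases i <;> simp [lz] at n9 ⊢)]
    have h1 : φ (gC a b 9) (lz 1 1 1 1 1 0 0 1) = φ (gC a b 9) (Pi.single 10 1) :=
      h.out.loc _ _ _ fun i hi => by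
        rcases P.grp9 hi with rfl | rfl | rfl <;> simp [lz]
    have h2 : φ (gC a b 9) (lz 1 1 1 1 1 0 1 1) =
        φ (gC a b 9) (Pi.single 9 1 + Pi.single 10 1) :=
      h.out.loc _ _ _ fun i hi => by
        rcases P.grp9 hi with rfl | rfl | rfl <;> simp [lz]
    rw [h1, h2]
  have hN1 := hN 1 zero_le_one
  rw [P.g10] at hN1
  have h9 : φ (gC a b 9) (Pi.single 9 1 + Pi.single 10 1) ≤ -2 := by linarith
  rw [hom910 h.sub no3 h.out P hom hy]
  nlinarith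

end aew

end Crest.Agent.R136.LdX403
end

-- ▼ part R136/LdX3_403
section

/-!
# R136, case F, rung (ii): `X_b` given `N`, the double resonance `κ = 1`, data (helper403)

* `bx_bz` : the boxes of helper366 / helper544 (frozen slots `F_a, P, N`)
* `NF.ev_K`, `add_lw` : evolution of the frozen slots, composition of `C_b`, `X_a`
* `phi_no3`, **`phi9_lin`** : the loss of `X_b : n` given `N : y` is `(r - 1) / 2 * n`, `n ≤ 2 y`
-/

set_option autoImplicit false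
set_option linter.unusedSectionVars false
set_option linter.unusedVariables false

open Filter Topology

namespace Crest.Agent.R136.LdX403

open Finset Crest.Agent.R136.NetQ186 Crest.Agent.R136.Net191 Crest.Agent.R136.Qg926
open Crest.Agent.R136.Gf356 Crest.Agent.R136.Ev356 Crest.Agent.R136.Aw413
open Crest.Agent.R136.Wq400 Crest.Agent.R136.Fe1355 Crest.Agent.R136.LadA115
open Crest.Agent.R136.Xb403 (MaE bd_of)
open Crest.Agent.R136.LdF5511 (PlE one_grp split2)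
open Crest.Agent.R136.Dg219 (mw Walls Tn OutS gC dhC nC gset lf mem_gset gC_zero gC_eq nC_zero
  nC_of)
open Crest.Agent.R136.Rc146 (OutA)
open Crest.Agent.R138.Ex926 (Base U)

/-- frozen slots -/
def Fr : Finset (Fin 11) := {4, 7, 10}

theorem bx_bz (y n p x c : ℝ) : CD366.bx Fr 9 6 8 5 y n p x c = bz y c p y x n y := by
  funext j
  fin_cases j <;> simp [CD366.bx, bz, Fr]

theorem bx0_bz (p x c : ℝ) : CD366.bx (∅ : Finset (Fin 11)) 9 6 8 5 0 0 p x c =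
    bz 0 c p 0 x 0 0 := by
  funext j
  fin_cases j <;> simp [CD366.bx, bz]

theorem bz_zero : bz 0 0 0 0 0 0 0 = 0 := by
  funext j
  fin_cases j <;> simp [bz]

section model

variable {B : Base} {G : ℕ → RCfg (Fin 11)} {Leg : Set (Fin 11 → ℝ)} {ν : (Fin 11 → ℝ) → ℝ}
  {T D q : ℝ} {f : ℕ → ℕ → ℝ}

/-- the frozen slots propagate -/
theorem NF.ev_K (h : NF B G Leg ν T D f q) {y : ℝ} (hy : 0 ≤ y) (hyT : y ≤ T) {ε : ℝ}
    (hε : 0 < ε) : ∀ᶠ n in (U : Filter ℕ), ∀ k₀ k i i',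
    (i, k₀) ∈ (G n).I → (i', k₀) ∈ (G n).I → (i, k) ∈ (G n).I → (i', k) ∈ (G n).I →
    (G n).loose (bz y 0 0 y 0 0 y) ε k₀ i i' →
    (G n).loose (bz y 0 0 y 0 0 y) (4 * ε) k i i' ∧
    |(G n).rel k i i' 9 - ((G n).rel k₀ i i' 9 + ((G n).z k - (G n).z k₀) * (G n).rel k₀ i i' 6
      - (f n k - f n k₀) * ((G n).rel k₀ i i' 8 +
        ((G n).z k - (G n).z k₀) * (G n).rel k₀ i i' 5))| ≤ B.d n ^ (y - 4 * ε) := by
  filter_upwards [h.ev ε hε, h.rb, h.db, ev_const_le B hε 4] with n hev hrb hdb h4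
    k₀ k i i' hi hi' hk hk' hlo
  have hkZ : k₀ ∈ (G n).Z := h.H.memZ hi
  have hkZ' : k ∈ (G n).Z := h.H.memZ hk
  obtain ⟨hu, hg⟩ := hdb k₀ hkZ k hkZ'
  have E := hev k₀ k i i' hi hi' hk hk'
  have hpow : ∀ t : ℝ, 0 < B.d n ^ t := fun t => rpos B n t
  set b := B.d n ^ (y - ε) with hb
  have hb0 : 0 < b := hpow _
  have k1 : B.d n ^ (T - ε) ≤ b := rpow_anti B n (by linarith)
  have hA : b * 4 ≤ B.d n ^ (y - 4 * ε) := by
    have e1 : B.d n ^ (y - 2 * ε) = B.d n ^ (-ε) * b := by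
      rw [hb, ← rpow_add']; congr 1; ring
    have e2 : B.d n ^ (y - 2 * ε) ≤ B.d n ^ (y - 4 * ε) := rpow_anti B n (by linarith)
    nlinarith
  have g4 := hlo 4
  have g7 := hlo 7
  have g10 := hlo 10
  rw [h.H.base n] at g4 g7 g10
  have v4 : bz y 0 0 y 0 0 y 4 = y := by simp [bz]
  have v7 : bz y 0 0 y 0 0 y 7 = y := by simp [bz]
  have v10 : bz y 0 0 y 0 0 y 10 = y := by simp [bz]
  rw [v4] at g4
  rw [v7] at g7
  rw [v10] at g10
  set u := (G n).z k - (G n).z k₀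
  set r := (G n).rel k₀ i i'
  set r' := (G n).rel k i i'
  have hu7 : |u * r 7| ≤ 2 * b := by
    rw [abs_mul]; exact mul_le_mul hu g7 (abs_nonneg _) (by norm_num)
  have hqu7 : |q * (u * r 7)| ≤ 2 * b := by
    rw [abs_mul]
    have := mul_le_mul h.q1 hu7 (abs_nonneg _) zero_le_one
    linarith
  have s4 : |r' 4| ≤ b * 4 := by
    have e : r' 4 = (r' 4 - r 4) + r 4 := by ring
    rw [e]
    have := abs_add_le (r' 4 - r 4) (r 4)
    linarith [E.e4.trans k1, g4]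
  have s7 : |r' 7| ≤ b * 4 := by
    have e : r' 7 = (r' 7 - r 7) + r 7 := by ring
    rw [e]
    have := abs_add_le (r' 7 - r 7) (r 7)
    linarith [E.e7.trans k1, g7]
  have s10 : |r' 10| ≤ b * 4 := by
    have e : r' 10 = (r' 10 - (r 10 + q * (u * r 7))) + (r 10 + q * (u * r 7)) := by ring
    rw [e]
    have t1 := abs_add_le (r' 10 - (r 10 + q * (u * r 7))) (r 10 + q * (u * r 7))
    have t2 := abs_add_le (r 10) (q * (u * r 7))
    linarith [E.e10.trans k1, g10]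
  refine ⟨fun j => ?_, E.e9.trans (rpow_anti B n (by linarith))⟩
  rw [h.H.base n]
  have hz : ∀ j, bz y 0 0 y 0 0 y j = 0 → |(G n).rel k i i' j| ≤
      B.d n ^ (bz y 0 0 y 0 0 y j - 4 * ε) := by
    intro j hj
    rw [hj]
    refine (hrb k i i' hk hk' j).trans ?_
    exact Real.one_le_rpow_of_pos_of_le_one_of_nonpos (B.pos n) (B.lt n).le (by linarith)
  by_cases j4 : j = 4
  · subst j4; rw [v4]; exact s4.trans hA
  by_cases j7 : j = 7
  · subst j7; rw [v7]; exact s7.trans hA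
  by_cases j10 : j = 10
  · subst j10; rw [v10]; exact s10.trans hA
  refine hz j ?_
  fin_cases j <;> simp [bz] at j4 j7 j10 ⊢

end model

section prod

variable {ι : ℕ → Type*} [∀ n, DecidableEq (ι n)] {W : Wnd 11 ι} {F : ∀ n, ι n → Fq4}
  {Ma : Mons 11} {E : ∀ n, Finset (ι n)} {lam : (Fin 11 → ℝ) → ℝ} {x : ℝ}

/-- composition of `C_b` and `X_a` -/
theorem add_lw (hW : LW Ma F lam {0, 2} (fun _ => x) x W E) (hx : 0 ≤ x) {ε : ℝ} (hε : 0 < ε) :
    ∀ᶠ n in (U : Filter ℕ), ∀ k i e l, (i, k) ∈ (W.cfg E n).I →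
      (e, k) ∈ (W.cfg E n).I → (l, k) ∈ (W.cfg E n).I → ∀ s : Fin 11, s = 6 ∨ s = 8 →
      |(W.cfg E n).rel k i l s - (W.cfg E n).rel k i e s - (W.cfg E n).rel k e l s| ≤
        W.B'.d n ^ (x - ε) := by
  have hS : W.S ⊆ {0, 2} := by rw [hW.eS]
  have htop : ∀ s ∈ W.S, x ≤ W.top s := fun s _ => by rw [hW.etop]
  have h2S : (2 : Fin 11) ∈ W.S := by rw [hW.eS]; decide
  filter_upwards [(pq_lev hW.qa hS hx htop).comp hW.hc hε, rel_lev hW.qa hW.hc] with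
    n hn hr k i e l h1 h2 h3 s hs
  rcases hs with rfl | rfl
  · have := hn k i e l h1 h2 h3 6 (hW.qa.q.notMem (by simp))
    simp only [compC, Matrix.cons_val] at this
    rw [hr k i e 2 h2S, zero_mul, mul_zero, add_zero] at this
    rwa [sub_sub]
  · have := hn k i e l h1 h2 h3 8 (hW.qa.q.notMem (by simp))
    simp only [compC, Matrix.cons_val] at this
    rwa [sub_sub]

end prod

section arith

variable {Ma : Mons 11} {a b : Fin 11 → ℝ} {κ : ℝ} {lam : (Fin 11 → ℝ) → ℝ} {A : ℝ × ℝ}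
  {φ : ℕ → (Fin 11 → ℝ) → ℝ} {r : ℕ → ℝ}

/-- the slot `F_b` is in no wall -/
theorem mem_upd (hsub : ∀ k, Ma.mon k ⊆ monQ.mon k) (no3 : ∀ k, ∀ e ∈ Ma.mon k, e 3 = 0)
    {c : Fin 11 → ℝ} (hc : c ∈ coneM Ma) (v : ℝ) : Function.update c 3 v ∈ coneM Ma := by
  intro k e he
  have hk : k ≠ 3 := by
    rintro rfl
    have h3 : monQ.mon 3 = ∅ := rfl
    have := hsub 3 he
    rw [h3] at this
    exact absurd this (Finset.notMem_empty e)
  rw [Function.update_of_ne hk]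
  refine (hc k e he).trans (le_of_eq (Finset.sum_congr rfl fun s _ => ?_))
  by_cases hs : s = 3
  · subst hs; rw [no3 k e he]; simp
  · rw [Function.update_of_ne hs]

/-- the group functions do not depend on `F_b` -/
theorem phi_no3 (hsub : ∀ k, Ma.mon k ⊆ monQ.mon k) (no3 : ∀ k, ∀ e ∈ Ma.mon k, e 3 = 0)
    (h : OutS (gC a b) (coneM Ma) (dhC a b) (nC a b) lam A φ r)
    (hind : ∀ c ∈ coneM Ma, ∀ c' ∈ coneM Ma, (∀ i, i ≠ 3 → c i = c' i) → 0 ≤ c 1 → lam c = lam c')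
    {c : Fin 11 → ℝ} (hc : c ∈ coneM Ma) (c1 : 0 ≤ c 1) (k : ℕ) :
    φ k c = φ k (Function.update c 3 0) := by
  have m := mem_upd hsub no3 hc 0
  by_cases hk : gC a b 3 = k
  · have h1 := hind c hc _ m (fun i hi => by rw [Function.update_of_ne hi]) c1
    have h2 := one_grp h hc m k (fun i hi => by
      have h3 : i ≠ 3 := fun e => hi (by rw [e, hk])
      rw [Function.update_of_ne h3])
    linarith
  · refine h.loc k _ _ fun i hi => ?_
    have h3 : i ≠ 3 := fun e => hk (by rw [← e, hi])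
    rw [Function.update_of_ne h3]

/-- **the loss of `X_b` given `N` is linear** -/
theorem phi9_lin (hsub : ∀ k, Ma.mon k ⊆ monQ.mon k) (no3 : ∀ k, ∀ e ∈ Ma.mon k, e 3 = 0)
    (h : OutA (gC a b) (coneM Ma) a b (dhC a b) (nC a b) lam A φ r) (P : PlX a b 1)
    (a10 : a 10 = 1) (haL : a ∈ coneM Ma)
    (sharp : ∀ c ∈ coneM Ma, ∀ c' ∈ coneM Ma, c ≤ c' → lam c - lam c' ≤ ∑ s, (c' s - c s))
    (hind : ∀ c ∈ coneM Ma, ∀ c' ∈ coneM Ma, (∀ i, i ≠ 3 → c i = c' i) → 0 ≤ c 1 → lam c = lam c')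
    (hdh : ∀ i, gC a b i = gC a b 9 → 0 < dhC a b i)
    (hN : ∀ y, 0 ≤ y → φ (gC a b 10) (Pi.single 10 y) ≤ -y) {n y : ℝ} (hn : 0 ≤ n)
    (hny : n ≤ 2 * y) : φ (gC a b 9) (Pi.single 9 n + Pi.single 10 y) =
      -y - (r (gC a b 9) - 1) / 2 * n := by
  have hy : 0 ≤ y := by linarith
  rw [P.g10] at hN
  have hO := h.toOutS
  -- `N` is exactly full
  have full : ∀ t, 0 ≤ t → φ (gC a b 9) (Pi.single 10 t) = -t := by
    intro t ht
    refine le_antisymm (hN t ht) ?_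
    have m0 : lz t t 0 0 0 0 0 0 ∈ coneM Ma := mem_lz hsub no3 ht ht le_rfl le_rfl ht le_rfl ht
      le_rfl ht le_rfl ht le_rfl ht (by linarith) (by linarith)
    have m1 : lz t t 0 0 0 0 0 t ∈ coneM Ma := mem_lz hsub no3 ht ht le_rfl le_rfl ht le_rfl ht
      le_rfl ht le_rfl ht ht le_rfl (by linarith) (by linarith)
    have s1 := sharp _ m0 _ m1 (by intro i; fin_cases i <;> simp [lz, ht])
    rw [one_grp hO m0 m1 (gC a b 9) (fun i hi => by
      have n10 : i ≠ 10 := fun e => hi (by rw [e, P.g10])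
      fin_cases i <;> simp [lz] at n10 ⊢)] at s1
    have e0 : φ (gC a b 9) (lz t t 0 0 0 0 0 0) = 0 := hO.zero _ _ fun i hi => by
      rcases P.grp9 hi with rfl | rfl | rfl <;> simp [lz]
    have e1 : φ (gC a b 9) (lz t t 0 0 0 0 0 t) = φ (gC a b 9) (Pi.single 10 t) :=
      hO.loc _ _ _ fun i hi => by
        rcases P.grp9 hi with rfl | rfl | rfl <;> simp [lz]
    have e2 : ∑ s, (lz t t 0 0 0 0 0 t s - lz t t 0 0 0 0 0 0 s) = t := by
      simp [Fin.sum_univ_succ, lz]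
    rw [e0, e1, e2] at s1
    linarith
  have hp : 0 ≤ y - n / 2 := by linarith
  set c : Fin 11 → ℝ := lz y y 0 0 0 0 0 (y - n / 2) with hc
  have mc : c ∈ coneM Ma := mem_lz hsub no3 hy hy le_rfl le_rfl hy le_rfl hy
    le_rfl hy le_rfl hy hp (by linarith) (by linarith) (by linarith)
  have ez : Tn a b (n / 2, 0) = (n / 2) • a := by
    funext i
    simp [Tn]
    ring
  have mz : (n / 2) • a ∈ coneM Ma := by
    intro k e he
    have h1 := haL k e he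
    have h2 : (0 : ℝ) ≤ n / 2 := by linarith
    simp only [Pi.smul_apply, smul_eq_mul]
    calc n / 2 * a k ≤ n / 2 * ∑ s, (e s : ℝ) * a s := mul_le_mul_of_nonneg_left h1 h2
      _ = ∑ s, (e s : ℝ) * (n / 2 * a s) := by
          rw [Finset.mul_sum]; exact Finset.sum_congr rfl fun s _ => by ring
  have key := h.add (gC a b 9) hdh (n / 2, 0) c mc
  rw [ez] at key
  have r1 : φ (gC a b 9) ((n / 2) • a) = -(r (gC a b 9) * (n / 2)) :=
    hO.rate _ _ mz (n / 2) fun i hi => by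
      have ha : a i ≠ 0 := fun e => P.g9 (by rw [← hi]; exact gC_zero.2 e)
      unfold dhC
      rw [if_neg ha]
      rfl
  have r2 : φ (gC a b 9) c = -(y - n / 2) := by
    rw [← full _ hp]
    exact hO.loc _ _ _ fun i hi => by
      rcases P.grp9 hi with rfl | rfl | rfl <;> simp [hc, lz]
  have ms : (n / 2) • a + c ∈ coneM Ma := by
    intro k e he
    have h1 := mz k e he
    have h2 := mc k e he
    simp only [Pi.add_apply, mul_add, Finset.sum_add_distrib]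
    linarith
  have c1 : 0 ≤ ((n / 2) • a + c) 1 := by
    simp [hc, lz, P.a1]
  have a9 : a 9 = 2 := by rw [P.a9]; norm_num
  have r3 : φ (gC a b 9) ((n / 2) • a + c) =
      φ (gC a b 9) (Pi.single 9 n + Pi.single 10 y) := by
    rw [phi_no3 hsub no3 hO hind ms c1]
    refine hO.loc _ _ _ fun i hi => ?_
    rcases P.grp9 hi with rfl | rfl | rfl
    · rw [Function.update_of_ne (by decide)]
      simp [hc, lz, a9]
    · rw [Function.update_of_ne (by decide)]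
      simp [hc, lz, a10]
    · rw [Function.update_self]
      simp
  rw [r3, r1, r2] at key
  rw [key]
  ring

end arith

end Crest.Agent.R136.LdX403
end

-- ▼ part R136/LdX4_403
section

/-!
# R136, case F, rung (ii): `X_b` given `N`, the double resonance `κ = 1` (helper403)

* **`k1f_of`** : helper544's `K1F` from the window model
* `KappaF` : the statement of `kappa_one_F` for linear losses
* **`xb_eq`** : `N ∥ X_b`, `C_b ∥ X_a` (`κ = 1`), from `KappaF`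
* **`xbN_of`** : helper511's `XbN`, from `KappaF`.
-/

set_option autoImplicit false
set_option linter.unusedSectionVars false
set_option linter.unusedVariables false

open Filter Topology

namespace Crest.Agent.R136.LdX403

open Finset Crest.Agent.R136.NetQ186 Crest.Agent.R136.Net191 Crest.Agent.R136.Qg926
open Crest.Agent.R136.Gf356 Crest.Agent.R136.Ev356 Crest.Agent.R136.Aw413
open Crest.Agent.R136.Wq400 Crest.Agent.R136.Fe1355 Crest.Agent.R136.LadA115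
open Crest.Agent.R136.Xb403 (MaE bd_of)
open Crest.Agent.R136.LdF5511 (PlE one_grp split2)
open Crest.Agent.R136.Dg219 (mw Walls Tn OutS gC dhC nC gset lf mem_gset gC_zero gC_eq nC_zero
  nC_of)
open Crest.Agent.R136.Rc146 (OutA)
open Crest.Agent.R138.Ex926 (Base U)

section model

variable {B : Base} {G : ℕ → RCfg (Fin 11)} {Leg : Set (Fin 11 → ℝ)} {ν : (Fin 11 → ℝ) → ℝ}
  {T D q : ℝ} {f : ℕ → ℕ → ℝ}

/-- **helper544's data from the window model** -/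
theorem k1f_of (h : NF B G Leg ν T D f q) {a m : ℝ} {β γ : ℝ → ℝ → ℝ} {γ0 : ℝ → ℝ}
    (ha : 0 ≤ a) (hm : 0 < m)
    (hadd : ∀ ε : ℝ, 0 < ε → ∀ᶠ n in (U : Filter ℕ), ∀ k i e l, (i, k) ∈ (G n).I →
      (e, k) ∈ (G n).I → (l, k) ∈ (G n).I → ∀ s : Fin 11, s = 6 ∨ s = 8 →
      |(G n).rel k i l s - (G n).rel k i e s - (G n).rel k e l s| ≤ B.d n ^ (T - ε))
    (nu : ∀ y n p x c' : ℝ, 0 ≤ y → y ≤ T → 0 ≤ n → n ≤ y → 0 ≤ p → p ≤ y → 0 ≤ x → x ≤ y →
      0 ≤ c' → c' ≤ y → ν (bz y c' p y x n y) = ν (bz y 0 0 y 0 0 y) - a * n - β p x - γ y c')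
    (nu0 : ∀ p x c' : ℝ, 0 ≤ p → p ≤ T → 0 ≤ x → x ≤ T → 0 ≤ c' → c' ≤ T →
      ν (bz 0 c' p 0 x 0 0) = ν 0 - β p x - γ0 c')
    (Xf : ∀ t : ℝ, 0 ≤ t → t ≤ T → t ≤ β 0 t) (Cr : ∀ t : ℝ, 0 ≤ t → t ≤ T → m * t ≤ γ0 t) :
    NsF544.K1F B G Leg ν Fr 9 6 8 5 f T 4 a 0 m (fun _ n => a * n) β γ γ0 where
  R0_pos := h.T0
  C1_one := by norm_num
  m_pos := hm
  a0 := ha
  dl0 := le_rfl
  NP := by decide
  NX := by decide
  NC := by decide
  PX := by decide
  PC := by decide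
  XC := by decide
  leg := by
    intro y n p x c' hy hyT hn hny hp hpy hx hxy hc hcy
    rw [bx_bz]
    exact h.leg y c' p y x n y hy hyT hc (hcy.trans hyT) hp (hpy.trans hyT) hy hyT hx
      (hxy.trans hyT) hn (hny.trans hyT) hy hyT (by linarith) (by linarith)
  leg0 := by
    intro p x c' hp hpT hx hxT hc hcT
    rw [bx0_bz]
    have hT := h.T0.le
    exact h.leg 0 c' p 0 x 0 0 le_rfl hT hc hcT hp hpT le_rfl hT hx hxT le_rfl hT le_rfl hT
      (by linarith) (by linarith)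
  bd := h.zb
  ev := by
    intro y hy hyT ε hε
    filter_upwards [h.ev_K hy hyT hε] with n hn k₀ k i i' h1 h2 h3 h4 hlo
    rw [bx_bz] at hlo ⊢
    exact hn k₀ k i i' h1 h2 h3 h4 hlo
  evP := by
    intro ε hε
    filter_upwards [h.ev ε hε] with n hn k₀ k i i' h1 h2 h3 h4
    exact (hn k₀ k i i' h1 h2 h3 h4).e6
  evX := by
    intro ε hε
    filter_upwards [h.ev ε hε] with n hn k₀ k i i' h1 h2 h3 h4
    exact (hn k₀ k i i' h1 h2 h3 h4).e8
  bd1 := by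
    intro ε hε
    filter_upwards [h.rb] with n hn k i i' h1 h2 s
    exact (hn k i i' h1 h2 s).trans
      (Real.one_le_rpow_of_pos_of_le_one_of_nonpos (B.pos n) (B.lt n).le (by linarith))
  add := hadd
  nu := by
    intro y n p x c' hy hyT hn hny hp hpy hx hxy hc hcy
    rw [bx_bz, bx_bz]
    exact nu y n p x c' hy hyT hn hny hp hpy hx hxy hc hcy
  nu0 := by
    intro p x c' hp hpT hx hxT hc hcT
    rw [bx0_bz]
    exact nu0 p x c' hp hpT hx hxT hc hcT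
  g_zero := fun y _ _ => mul_zero a
  g_low := fun y t _ _ _ => le_rfl
  g_up := fun y _ _ => by rw [add_zero]
  X_full := Xf
  C_rate0 := Cr

end model

/-- **`kappa_one_F`** for linear losses (level `1`) -/
def KappaF : Prop :=
  ∀ (B : Base) (G : ℕ → RCfg (Fin 11)) (Leg : Set (Fin 11 → ℝ)) (ν : (Fin 11 → ℝ) → ℝ)
    (D : ℝ) (f : ℕ → ℕ → ℝ) (a m : ℝ) (β γ : ℝ → ℝ → ℝ) (γ0 : ℝ → ℝ),
    RModel B G 1 1 Leg ν D →
    NsF544.K1F B G Leg ν Fr 9 6 8 5 f 1 4 a 0 m (fun _ n => a * n) β γ γ0 →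
    RawTw B G (fun n k k' => f n k' - f n k) → 1 ≤ a

section aew

variable {ι : ℕ → Type*} [∀ n, DecidableEq (ι n)] {F : ∀ n, ι n → Fq4}
  {Ma : Mons 11} {B Bo : Base} {I J : ∀ n, Finset (ι n)} {co : ∀ n, ι n → ι n → Fin 11 → ℝ}
  {C : ℝ} {lam : (Fin 11 → ℝ) → ℝ} {a b : Fin 11 → ℝ} {A : ℝ × ℝ}
  {φ : ℕ → (Fin 11 → ℝ) → ℝ} {r : ℕ → ℝ} {κo : Fin 11 → ℝ} {V Tw : Fin 11 → Prop}

/-- **`X_b` given `N`**, `C_b ∥ X_a` -/
theorem xb_eq (KF : KappaF) (h : AeW B Bo I J co monQ Ma C lam a b A φ r 0 1 κo V Tw)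
    (hO : OutA (gC a b) (coneM Ma) a b (dhC a b) (nC a b) lam A φ r) (hC : 0 ≤ C)
    (hco : ∀ n, ∀ i ∈ I n, ∀ j ∈ I n, co n i j = coQ (F n i) (F n j))
    (hne : ∀ᶠ n in (U : Filter ℕ), (J n).Nonempty) (hM : MaE Ma)
    (no3 : ∀ k, ∀ e ∈ Ma.mon k, e 3 = 0)
    (hV : ∀ k, V k → k = 2) (hTw : Tw 2) (P : PlX a b 1) (a10 : a 10 = 1) (haL : a ∈ coneM Ma)
    (hdh : ∀ i, gC a b i = gC a b 9 → 0 < dhC a b i)
    (hind : ∀ c ∈ coneM Ma, ∀ c' ∈ coneM Ma, (∀ i, i ≠ 3 → c i = c' i) → 0 ≤ c 1 → lam c = lam c')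
    (hom8 : ∀ c ∈ coneM Ma, ∀ s : ℝ, 0 ≤ s → φ (gC a b 8) (s • c) = s * φ (gC a b 8) c)
    (h8 : φ (gC a b 8) (Pi.single 8 1) ≤ -1)
    (hN : ∀ y, 0 ≤ y → φ (gC a b 10) (Pi.single 10 y) ≤ -y) {m : ℝ} (hm : 0 < m)
    (sw : ∀ t : ℝ, 0 ≤ t → t ≤ 1 →
      m * t ≤ lam (lz 1 0 0 0 0 0 0 0) - lam (lz 1 0 t 0 0 0 0 0)) {y : ℝ} (hy : 0 ≤ y) :
    φ (gC a b 9) (Pi.single 9 y + Pi.single 10 y) ≤ -(2 * y) := by
  obtain ⟨W, E, hW, hNF, htw⟩ := nf_of_aew h hC hco hne hM no3 hV hTw one_pos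
    (dens_x h.sub no3 h.out P h.zero hind zero_le_one)
  have hO' := hO.toOutS
  have g68 := g68_eq P.toPlE
  set a9 : ℝ := (r (gC a b 9) - 1) / 2 with ha9
  have lin : ∀ n y : ℝ, 0 ≤ n → n ≤ 2 * y →
      φ (gC a b 9) (Pi.single 9 n + Pi.single 10 y) = -y - a9 * n := fun n y hn hny =>
    phi9_lin h.sub no3 hO P a10 haL h.sharp hind hdh hN hn hny
  have ml : ∀ fa ca cb p xa xb n : ℝ, 0 ≤ fa → 0 ≤ ca → 0 ≤ cb → cb ≤ 1 → 0 ≤ p → p ≤ 1 →
      0 ≤ xa → xa ≤ 1 → 0 ≤ xb → xb ≤ 1 → 0 ≤ n → n ≤ 1 → p ≤ fa + ca → n ≤ fa + xa →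
      lz 1 fa ca cb p xa xb n ∈ coneM Ma :=
    fun fa ca cb p xa xb n h1 h2 h3 h4 h5 h6 h7 h8 h9 h10 h11 h12 h13 h14 =>
      mem_lz h.sub no3 zero_le_one h1 h2 h3 h4 h5 h6 h7 h8 h9 h10 h11 h12 h13 h14
  -- the four bounds from `bz` boxes
  have hν : ∀ fa ca cb p xa xb n : ℝ, W.nu (bz fa ca cb p xa xb n) =
      lam (lz 1 fa ca cb p xa xb n) - lam fun _ => (1 : ℝ) := fun fa ca cb p xa xb n =>
    nu_lw hW fa ca cb p xa xb n
  have hν0 : W.nu 0 = lam (lz 1 0 0 0 0 0 0 0) - lam fun _ => (1 : ℝ) := by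
    rw [← bz_zero, hν]
  -- homogeneity of `X_a`
  have hom8' : ∀ t : ℝ, 0 ≤ t → φ (gC a b 8) (Pi.single 8 t) =
      t * φ (gC a b 8) (Pi.single 8 1) := by
    intro t ht
    have m1 := ml 0 0 0 0 1 0 0 le_rfl le_rfl le_rfl zero_le_one le_rfl zero_le_one zero_le_one
      le_rfl le_rfl zero_le_one le_rfl zero_le_one (by norm_num) (by norm_num)
    have e1 : φ (gC a b 8) (Pi.single 8 1) = φ (gC a b 8) (lz 1 0 0 0 0 1 0 0) :=
      hO'.loc _ _ _ fun i hi => by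
        rcases P.grp8 hi with rfl | rfl | rfl <;> simp [lz]
    have e2 : φ (gC a b 8) (Pi.single 8 t) = φ (gC a b 8) (t • lz 1 0 0 0 0 1 0 0) :=
      hO'.loc _ _ _ fun i hi => by
        rcases P.grp8 hi with rfl | rfl | rfl <;> simp [lz]
    rw [e1, e2, hom8 _ m1 t ht]
  -- `X_b` given `N`
  have s9 : ∀ y n p x c' : ℝ, 0 ≤ y → y ≤ 1 → 0 ≤ n → n ≤ y → 0 ≤ p → p ≤ y → 0 ≤ x → x ≤ y →
      0 ≤ c' → c' ≤ y → lam (lz 1 y c' p y x n y) = lam (lz 1 y c' p y x 0 y) - a9 * n := by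
    intro y n p x c' hy hyT hn hny hp hpy hx hxy hc hcy
    have m1 := ml y c' p y x n y hy hc hp (hpy.trans hyT) hy hyT hx (hxy.trans hyT) hn
      (hny.trans hyT) hy hyT (by linarith) (by linarith)
    have m2 := ml y c' p y x 0 y hy hc hp (hpy.trans hyT) hy hyT hx (hxy.trans hyT) le_rfl
      zero_le_one hy hyT (by linarith) (by linarith)
    have e := one_grp hO' m1 m2 (gC a b 9) (fun i hi => by
      have n9 : i ≠ 9 := fun e => hi (by rw [e])
      fin_cases i <;> simp [lz] at n9 ⊢)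
    have e1 : φ (gC a b 9) (lz 1 y c' p y x n y) =
        φ (gC a b 9) (Pi.single 9 n + Pi.single 10 y) :=
      hO'.loc _ _ _ fun i hi => by
        rcases P.grp9 hi with rfl | rfl | rfl <;> simp [lz]
    have e2 : φ (gC a b 9) (lz 1 y c' p y x 0 y) =
        φ (gC a b 9) (Pi.single 9 0 + Pi.single 10 y) :=
      hO'.loc _ _ _ fun i hi => by
        rcases P.grp9 hi with rfl | rfl | rfl <;> simp [lz]
    rw [e1, e2, lin n y hn (by linarith), lin 0 y le_rfl (by linarith)] at e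
    linarith
  -- `(C_b, X_a)`
  have s8 : ∀ y p x c' : ℝ, 0 ≤ y → y ≤ 1 → 0 ≤ p → p ≤ 1 → 0 ≤ x → x ≤ 1 →
      0 ≤ c' → lam (lz 1 y c' p y x 0 y) = lam (lz 1 y c' 0 y 0 0 y) +
        φ (gC a b 8) (Pi.single 6 p + Pi.single 8 x) := by
    intro y p x c' hy hyT hp hpT hx hxT hc
    have m1 := ml y c' p y x 0 y hy hc hp hpT hy hyT hx hxT le_rfl
      zero_le_one hy hyT (by linarith) (by linarith)
    have m2 := ml y c' 0 y 0 0 y hy hc le_rfl zero_le_one hy hyT le_rfl zero_le_one le_rfl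
      zero_le_one hy hyT (by linarith) (by linarith)
    have e := one_grp hO' m1 m2 (gC a b 8) (fun i hi => by
      have n8 : i ≠ 8 := fun e => hi (by rw [e])
      have n6 : i ≠ 6 := fun e => hi (by rw [e, g68])
      fin_cases i <;> simp [lz] at n8 n6 ⊢)
    have e1 : φ (gC a b 8) (lz 1 y c' p y x 0 y) =
        φ (gC a b 8) (Pi.single 6 p + Pi.single 8 x) :=
      hO'.loc _ _ _ fun i hi => by
        rcases P.grp8 hi with rfl | rfl | rfl <;> simp [lz]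
    have e2 : φ (gC a b 8) (lz 1 y c' 0 y 0 0 y) = 0 :=
      hO'.zero _ _ fun i hi => by
        rcases P.grp8 hi with rfl | rfl | rfl <;> simp [lz]
    rw [e1, e2] at e
    linarith
  have ha0 : 0 ≤ a9 := by
    have m1 := ml 1 0 0 0 0 1 1 zero_le_one le_rfl le_rfl zero_le_one le_rfl zero_le_one le_rfl
      zero_le_one zero_le_one le_rfl zero_le_one le_rfl (by norm_num) (by norm_num)
    have m2 := ml 1 0 0 0 0 0 1 zero_le_one le_rfl le_rfl zero_le_one le_rfl zero_le_one le_rfl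
      zero_le_one le_rfl zero_le_one zero_le_one le_rfl (by norm_num) (by norm_num)
    have h1 := (hO'.mono (gC a b 9) _ m2 _ m1 (fun i _ => by
      fin_cases i <;> simp [lz])).1
    have e1 : φ (gC a b 9) (lz 1 1 0 0 0 0 1 1) =
        φ (gC a b 9) (Pi.single 9 1 + Pi.single 10 1) :=
      hO'.loc _ _ _ fun i hi => by
        rcases P.grp9 hi with rfl | rfl | rfl <;> simp [lz]
    have e2 : φ (gC a b 9) (lz 1 1 0 0 0 0 0 1) =
        φ (gC a b 9) (Pi.single 9 0 + Pi.single 10 1) :=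
      hO'.loc _ _ _ fun i hi => by
        rcases P.grp9 hi with rfl | rfl | rfl <;> simp [lz]
    rw [e1, e2, lin 1 1 zero_le_one (by norm_num), lin 0 1 le_rfl (by norm_num)] at h1
    linarith
  have key := KF W.B' (W.cfg E) W.legW W.nu W.Dc (fun n k => flg W n k 2) a9 m
    (fun p x => -φ (gC a b 8) (Pi.single 6 p + Pi.single 8 x))
    (fun y c => lam (lz 1 y 0 0 y 0 0 y) - lam (lz 1 y c 0 y 0 0 y))
    (fun c => lam (lz 1 0 0 0 0 0 0 0) - lam (lz 1 0 c 0 0 0 0 0)) hNF.H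
    (k1f_of hNF ha0 hm (fun ε hε => add_lw hW zero_le_one hε) (by
      intro y n p x c' hy hyT hn hny hp hpy hx hxy hc hcy
      rw [hν, hν, s9 y n p x c' hy hyT hn hny hp hpy hx hxy hc hcy,
        s8 y p x c' hy hyT hp (hpy.trans hyT) hx (hxy.trans hyT) hc]
      ring) (by
      intro p x c' hp hpT hx hxT hc hcT
      rw [hν, hν0, s8 0 p x c' le_rfl zero_le_one hp hpT hx hxT hc]
      ring) (by
      intro t ht ht1
      show t ≤ -φ (gC a b 8) (Pi.single 6 0 + Pi.single 8 t)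
      rw [Pi.single_zero, zero_add, hom8' t ht]
      nlinarith) (fun t ht ht1 => sw t ht ht1)) htw
  have hy2 := lin y y hy (by linarith)
  rw [hy2]
  nlinarith

end aew

end Crest.Agent.R136.LdX403
end

-- ▼ part R136/LdX5_403

/-!
# R136, case F, rung (ii): `X_b` given `N`, over helper667's `PtV` (helper403)

* `plX_TF` : the plane of the rung
* **`xbN_ne`** : helper511's `XbN` for `κ ≠ 1`
* **`xbN_of`** : helper511's `XbN`, all `κ`, from `KappaF`.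
-/

set_option autoImplicit false
set_option linter.unusedVariables false
set_option linter.unusedSectionVars false

open Finset Filter Topology

namespace Crest.Agent.R136.LdX403

open Crest.Agent.R138.Ex926 (Base U IsTan)
open Crest.Agent.R136.Net191
open Crest.Agent.R136.NetQ186
open Crest.Agent.R136.Wq638
open Crest.Agent.R136.GeoQ186 (scl)
open Crest.Agent.R136.NatT550
open Crest.Agent.R136.NatR550 (nL)
open Crest.Agent.R136.Top484
open Crest.Agent.R136.LdF511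
open Crest.Agent.R136.LdF3511
open Crest.Agent.R136.LdF4511
open Crest.Agent.R136.LdF5511
open Crest.Agent.R136.LdF7511
open Crest.Agent.R136.LdFb511
open Crest.Agent.R136.Dl667
open Crest.Agent.R136.Tb628 (oS oS_eq)
open Crest.Agent.R136.K2S774 (cn Prf JT Stage RecD RungD BaseOk ind1 A2)
open Crest.Agent.R136.AwJ774
open Crest.Agent.R136.Aw413 (coneM AeW)
open Crest.Agent.R136.Dg219 (Walls mw gC dhC nC OutS gC_zero)
open Crest.Agent.R136.Rc146 (OutA)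

variable {η : ℝ} {p : Par4} {D : Dat4} {I1 : ℕ → Finset (ℕ × ℝ)} {π : Equiv.Perm (Fin 3)}
  {eE fA fB : ℕ → ℕ × ℝ → ℝ} {V T : Fin 11 → Prop} {w0 R T0 : ℝ} {PD : Set (Fin 11 → ℝ)}
  {ν own : (Fin 11 → ℝ) → ℝ} {c₀ : ℝ} {x b : Fin 11 → ℝ}

/-- the plane of the rung -/
theorem plX_TF {θ : Fin 3 → ℝ} (hκ : 0 < θ 1 - θ 2) (h1 : 0 < θ 1) (hx : 0 < x 3)
    (hb : ∀ i, i ∉ ({3} : Finset (Fin 11)) → b i = rhoF θ i)
    (hg : gC (TF {3} (θ 1 - θ 2) 1 x) b 10 = gC (TF {3} (θ 1 - θ 2) 1 x) b 9) :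
    PlX (TF {3} (θ 1 - θ 2) 1 x) b (θ 1 - θ 2) where
  toPlE := plE_TF hκ h1 (by decide) (TF_ii hκ hx).1 hb
  a1 := by rw [← TF_off (by decide), TpF_val]; simp
  a4 := by rw [← TF_off (by decide), TpF_val]; simp
  a7 := by rw [← TF_off (by decide), TpF_val]; simp
  g10 := hg

/-- no wall of the rung contains `F_b` -/
theorem no3_AF : ∀ k, ∀ e ∈ (mA monQ (AF {3})).mon k, e 3 = 0 := fun k e he => by
  obtain ⟨_, -, -, h3⟩ := mem_mA.1 he
  exact h3 3 (by simp)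

/-- the ray is in the cone -/
theorem TF_mem (κ : ℝ) (x : Fin 11 → ℝ) : TF {3} κ 1 x ∈ coneM (mA monQ (AF {3})) := by
  rw [coneM_mA]
  exact fun w hw => (natTF _ _ _ hw).le

/-- **`X_b` is full given `N`**, `κ ≠ 1` -/
theorem xbN_ne (h : Thick η p D I1 π eE fA fB V T w0 R T0 PD ν own c₀)
    (hκ : 0 < p.θ 1 - p.θ 2) (hκ1 : p.θ 1 - p.θ 2 ≠ 1) (hV2 : V 2) (hV3 : ¬ V 3) (hV4 : ¬ V 4)
    (hx : 0 < x 3) (hb : ∀ i, i ∉ ({3} : Finset (Fin 11)) → b i = rhoF p.θ i) :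
    XbN D I1 (couQ D.B D.lev D.w w0 (incQ π D.L eE fA fB)) p V T x b := by
  intro hg lam lo A φ r hP hH hN y hy
  have a0 := (TF_ii hκ hx).1
  have hJ3 : ({3} : Finset (Fin 11)) ⊆ {3, 4, 7} := by decide
  obtain ⟨-, -, -, h8, -⟩ := base_pt h hκ hV2 hJ3 a0 hb hP hH
  have P := plX_TF hκ h.tp.ok.θ1 hx hb hg
  have e0 : TF {3} (p.θ 1 - p.θ 2) 1 x 0 = 1 := P.a0
  have e2 : TF {3} (p.θ 1 - p.θ 2) 1 x 2 = p.θ 1 - p.θ 2 := P.a2
  refine xb_ne (F := fun n i => scl (uH D.B D.lev w0 n) (uA D.B D.lev D.w w0 n)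
    (uB D.B D.lev D.w w0 n) (uY D.B D.lev D.w w0 n) (incQ π D.L eE fA fB n i)) hP.aew
    (by norm_num) (fun n i _ j _ => rfl) h.ext.ne (maE_AF hJ3) no3_AF
    (fun k hk => vis2 h hV3 hV4 hk.1) ?_ P (g68_ne P.toPlE hκ1) ?_ ?_ h8 hN hy
  · refine ⟨tied2 h.tp.slots hV2, hV2, ?_⟩
    rw [e0, e2, oS_eq]
    simp
  · intro c hc c' hc' hcc hc1
    rw [coneM_mA] at hc hc'
    exact hP.ind c hc c' hc' (fun i hi => hcc i (by simpa using hi)) hc1
  · intro c hc s hs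
    rw [coneM_mA] at hc
    exact hH _ (fun i hi => dh_pos a0 P.g9 hi) c hc s hs

/-- **`X_b` is full given `N`** -/
theorem xbN_of (KF : KappaF) (h : Thick η p D I1 π eE fA fB V T w0 R T0 PD ν own c₀)
    (hκ : 0 < p.θ 1 - p.θ 2) (hV2 : V 2) (hV3 : ¬ V 3) (hV4 : ¬ V 4)
    (hx : 0 < x 3) (hb : ∀ i, i ∉ ({3} : Finset (Fin 11)) → b i = rhoF p.θ i) :
    XbN D I1 (couQ D.B D.lev D.w w0 (incQ π D.L eE fA fB)) p V T x b := by
  by_cases hκ1 : p.θ 1 - p.θ 2 ≠ 1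
  · exact xbN_ne h hκ hκ1 hV2 hV3 hV4 hx hb
  push Not at hκ1
  intro hg lam lo A φ r hP hH hN y hy
  have a0 := (TF_ii hκ hx).1
  have hJ3 : ({3} : Finset (Fin 11)) ⊆ {3, 4, 7} := by decide
  obtain ⟨-, -, -, h8, -⟩ := base_pt h hκ hV2 hJ3 a0 hb hP hH
  have P := plX_TF hκ h.tp.ok.θ1 hx hb hg
  have e0 : TF {3} (p.θ 1 - p.θ 2) 1 x 0 = 1 := P.a0
  have e2 : TF {3} (p.θ 1 - p.θ 2) 1 x 2 = p.θ 1 - p.θ 2 := P.a2
  have e10 : TF {3} (p.θ 1 - p.θ 2) 1 x 10 = 1 := by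
    rw [← TF_off (by decide), TpF_val]; simp
  have P1 : PlX (TF {3} (p.θ 1 - p.θ 2) 1 x) b 1 := by
    have := P
    rwa [hκ1] at this ⊢
  have hL : ∀ p', Legal monQ p' → p' ∈ cn (mw monQ) (AF {3}) := fun p' hp' w _ =>
    hp'.wall w.1 w.2.1 w.2.2
  refine xb_eq (F := fun n i => scl (uH D.B D.lev w0 n) (uA D.B D.lev D.w w0 n)
    (uB D.B D.lev D.w w0 n) (uY D.B D.lev D.w w0 n) (incQ π D.L eE fA fB n i)) KF hP.aew
    (by rw [coneM_mA]; exact hP.out)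
    (by norm_num) (fun n i _ j _ => rfl) h.ext.ne (maE_AF hJ3) no3_AF
    (fun k hk => vis2 h hV3 hV4 hk.1) ?_ P1 e10 (TF_mem _ _)
    (fun i hi => dh_pos a0 P.g9 hi) ?_ ?_ h8 hN (m := p.q 1) h.tp.ok.g0.2 ?_ hy
  · refine ⟨tied2 h.tp.slots hV2, hV2, ?_⟩
    rw [e0, e2, oS_eq]
    simp
  · intro c hc c' hc' hcc hc1
    rw [coneM_mA] at hc hc'
    exact hP.ind c hc c' hc' (fun i hi => hcc i (by simpa using hi)) hc1
  · intro c hc s hs
    rw [coneM_mA] at hc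
    exact hH _ (fun i hi => dh_pos a0 P.g8 hi) c hc s hs
  · -- the sweep of `C_a`
    intro t ht ht1
    have m1 : lz 1 0 0 0 0 0 0 0 ∈ cn (mw monQ) (AF {3}) := by
      rw [← coneM_mA]
      exact mem_lz hP.aew.sub no3_AF zero_le_one le_rfl le_rfl le_rfl zero_le_one le_rfl
        zero_le_one le_rfl zero_le_one le_rfl zero_le_one le_rfl zero_le_one (by norm_num)
        (by norm_num)
    have m2 : lz 1 0 t 0 0 0 0 0 ∈ cn (mw monQ) (AF {3}) := by
      rw [← coneM_mA]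
      exact mem_lz hP.aew.sub no3_AF zero_le_one le_rfl ht le_rfl zero_le_one le_rfl
        zero_le_one le_rfl zero_le_one le_rfl zero_le_one le_rfl zero_le_one (by linarith)
        (by norm_num)
    have e : lz 1 0 0 0 0 0 0 0 + t • (Pi.single 5 1 : Fin 11 → ℝ) = lz 1 0 t 0 0 0 0 0 := by
      funext j
      fin_cases j <;> simp [lz]
    have hu : ∀ i, i ≠ 5 → (Pi.single 5 1 : Fin 11 → ℝ) i = 0 := fun i hi =>
      Pi.single_eq_of_ne hi _
    have := hP.sw (Pi.single 5 1) (qd_ca p.θ) (by simp) (fun i => by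
      by_cases hi : i = 5
      · subst hi; simp
      · rw [hu i hi]) _ m1 0 t ht (by rw [e]; exact m2) (fun i hi hT => by
      have n0 : i ≠ 0 := fun h' => by rw [h', e0] at hT; exact one_ne_zero hT
      have n2 : i ≠ 2 := fun h' => by rw [h', e2] at hT; exact hκ.ne' hT
      rw [zero_mul]
      fin_cases i <;> simp [lz] at n0 n2 ⊢) (fun i hi hi' => by
        have h5' : i = 5 := by
          by_contra h'
          exact hi' (hu i h')
        subst h5'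
        exact ⟨P.a5, by simp [lz]⟩)
    rw [DlF_ca, neg_neg, e] at this
    exact this

end Crest.Agent.R136.LdX403
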