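import Crest.Agent.R136.NsF3_544
import Crest.Agent.R136.LdF5_683
import Crest.Agent.R136.LdX5_403_Mg
import Crest.Agent.R136.TopB_550
import Crest.Agent.R136.Xb2_403
import Crest.Agent.R136.Ev9_356
import Crest.Agent.R136.C2w_400
import Crest.Agent.R136.LdF5_511
import Crest.Agent.R136.Rc8_146
import Crest.Agent.R136.LdFb_146
import Crest.Agent.R136.LdF3_511
import Crest.Agent.R136.LdF4_511
import Crest.Agent.R136.Dl1_667
import Crest.Agent.R136.ReE0_436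

-- ▼ part R136/NsF4_544
section

/-!
# R136, row F, double resonance, part 4 (helper544): finite pieces of `no_slope_F`
-/

set_option autoImplicit false
set_option linter.unusedVariables false
set_option linter.unusedSectionVars false

open Filter Topology Finset

namespace Crest.Agent.R136.NsF544

open Crest.Agent.R138.Ex926 (Base U)
open Crest.Agent.R138.TwC501 (root_lin)
open Crest.Agent.R136.Gf356
open Crest.Agent.R136.CD366

variable {κ : Type} [DecidableEq κ] {B : Base} {G : ℕ → RCfg κ} {Leg : Set (κ → ℝ)}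
  {ν : (κ → ℝ) → ℝ} {σ R D : ℝ} {Fz : Finset κ} {sN sP sX sC : κ} {f : ℕ → ℕ → ℝ}
  {R0 C1 a dl m : ℝ} {g : ℝ → ℝ → ℝ} {β : ℝ → ℝ → ℝ} {γ : ℝ → ℝ → ℝ} {γ0 : ℝ → ℝ}

/-- cast of the truncated difference -/
theorem castN {J Kk j : ℕ} (hj : j < J) (hK : 2 ≤ Kk) :
    ((J + Kk - 2 - j : ℕ) : ℝ) = (J : ℝ) + Kk - 2 - j := by
  have h1 : J + Kk = (J + Kk - 2 - j) + 2 + j := by omega
  have h2 : ((J : ℝ) + Kk) = ((J + Kk - 2 - j : ℕ) : ℝ) + 2 + j := by exact_mod_cast h1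
  linarith

/-- numbers of the levels -/
theorem arithF {a dl σ hh E gyy gyj : ℝ} {J Kk j : ℕ} (hj : j < J) (hK : 2 ≤ Kk)
    (ha0 : 0 ≤ a) (haσ : a < σ) (hσ1 : σ ≤ 1) (hh0 : 0 < hh) (hE : E ≤ hh)
    (hA : dl * ((J : ℝ) + Kk) + 4 ≤ (σ - a) * ((Kk : ℝ) - 1))
    (h1 : gyy ≤ (a + dl) * (((J : ℝ) + Kk) * hh)) (h2 : a * ((j : ℝ) * hh) ≤ gyj) :
    gyy + E ≤ gyj + σ * (((J + Kk - 2 - j : ℕ) : ℝ) * hh) := by
  rw [castN hj hK]
  have hjJ : (j : ℝ) + 1 ≤ J := by exact_mod_cast hj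
  have h3 : (σ - a) * ((Kk : ℝ) - 1) ≤ (σ - a) * ((J : ℝ) + Kk - 2 - j) :=
    mul_le_mul_of_nonneg_left (by linarith) (by linarith)
  have ha1 : a < 1 := haσ.trans_le hσ1
  have h4 : (a + dl) * ((J : ℝ) + Kk) + 1 ≤ a * j + σ * ((J : ℝ) + Kk - 2 - j) := by
    nlinarith
  have h5 := mul_le_mul_of_nonneg_right h4 hh0.le
  nlinarith

open Classical in
/-- bound of the slope -/
theorem mu_bound (hb : ∀ n, (G n).ρ = B.d n) {n : ℕ} {Z' : Finset ℕ} (hZ' : Z' ⊆ (G n).Z)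
    (hne : Z'.Nonempty) {hh ε y μ : ℝ} (hy : 0 ≤ y) (hε : 0 < ε) (h64 : 64 * ε ≤ σ * hh)
    (hcard : B.d n ^ ε * ((G n).Z.card : ℝ) ≤ Z'.card)
    (hfr8 : ∀ k ∈ (G n).Z, (((G n).hbox (hh / 8) k).card : ℝ) ≤
      B.d n ^ (σ * (hh / 8) - ε) * ((G n).Z.card : ℝ))
    (hbd : ∀ k ∈ (G n).Z, |(G n).z k| ≤ 1 ∧ |f n k| ≤ 1)
    (hf : ∀ k ∈ Z', ∀ k' ∈ Z', |f n k' - f n k - μ * ((G n).z k' - (G n).z k)| ≤
      2 * B.d n ^ y)
    (hc4 : (4 : ℝ) ≤ B.d n ^ (-(hh / 8))) (hce : 4 * B.d n ^ ε ≤ 1) :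
    |μ| ≤ B.d n ^ (-(hh / 4)) := by
  have hpow : ∀ t : ℝ, 0 < B.d n ^ t := fun t => rpos B n t
  have hZc : (0 : ℝ) < Z'.card := by exact_mod_cast card_pos.2 hne
  obtain ⟨k₁, hk₁⟩ := hne
  obtain ⟨k, hk, hkf⟩ : ∃ k ∈ Z', B.d n ^ (hh / 8) < |(G n).z k - (G n).z k₁| := by
    by_contra hno
    push Not at hno
    have h1 : (Z'.card : ℝ) ≤ (((G n).hbox (hh / 8) k₁).card : ℝ) := by
      refine Nat.cast_le.2 (card_le_card fun k hk => ?_)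
      unfold RCfg.hbox
      rw [mem_filter, hb n]
      exact ⟨hZ' hk, hno k hk⟩
    have h2 := hfr8 k₁ (hZ' hk₁)
    have h3 : B.d n ^ (σ * (hh / 8) - ε) ≤ B.d n ^ ε * B.d n ^ ε := by
      rw [← rpow_add']
      exact rpow_anti B n (by linarith)
    have h4 : (Z'.card : ℝ) ≤ B.d n ^ ε * Z'.card := by
      calc (Z'.card : ℝ) ≤ B.d n ^ (σ * (hh / 8) - ε) * (G n).Z.card := h1.trans h2
        _ ≤ B.d n ^ ε * B.d n ^ ε * (G n).Z.card :=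
            mul_le_mul_of_nonneg_right h3 (Nat.cast_nonneg _)
        _ = B.d n ^ ε * (B.d n ^ ε * (G n).Z.card) := by ring
        _ ≤ _ := mul_le_mul_of_nonneg_left hcard (hpow _).le
    have h5 := hpow ε
    nlinarith
  have h1 := hf k₁ hk₁ k hk
  have h2 : |f n k - f n k₁| ≤ 2 := by
    refine (abs_sub _ _).trans ?_
    have := (hbd k (hZ' hk)).2; have := (hbd k₁ (hZ' hk₁)).2; linarith
  have h3 : B.d n ^ y ≤ 1 := Real.rpow_le_one (B.pos n).le (B.lt n).le hy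
  have e1 : |μ| * B.d n ^ (hh / 8) ≤ 4 := by
    calc |μ| * B.d n ^ (hh / 8) ≤ |μ| * |(G n).z k - (G n).z k₁| :=
          mul_le_mul_of_nonneg_left hkf.le (abs_nonneg _)
      _ = |μ * ((G n).z k - (G n).z k₁)| := (abs_mul _ _).symm
      _ = |(f n k - f n k₁) - (f n k - f n k₁ - μ * ((G n).z k - (G n).z k₁))| := by ring_nf
      _ ≤ |f n k - f n k₁| + |f n k - f n k₁ - μ * ((G n).z k - (G n).z k₁)| := abs_sub _ _
      _ ≤ 4 := by linarith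
  refine le_div_pow B n (w := hh / 8) (K := 4) (s := 0) ?_ ?_
  · rw [Real.rpow_zero, mul_one]; exact e1
  · refine hc4.trans (rpow_anti B n ?_)
    linarith

/-- density of one half of the incidences -/
theorem dens_E (H : RModel B G σ R Leg ν D) {n : ℕ} {Z' : Finset ℕ} (hZ' : Z' ⊆ (G n).Z) {ε : ℝ}
    (hsl : ∀ k ∈ (G n).Z, B.d n ^ ε * ((G n).L.card : ℝ) ≤ (((G n).slice k).card : ℝ))
    (hce : 4 * B.d n ^ ε ≤ 1) (E0 E1 : Finset (ℕ × ℕ))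
    (hcov : ∀ q ∈ (G n).I, q.2 ∈ Z' → q ∈ E0 ∨ q ∈ E1)
    (hE1 : (E1.card : ℝ) < B.d n ^ (2 * ε) * (((G n).L.card : ℝ) * Z'.card)) :
    B.d n ^ (2 * ε) * (((G n).L.card : ℝ) * Z'.card) ≤ E0.card := by
  classical
  have hpow : ∀ t : ℝ, 0 < B.d n ^ t := fun t => rpos B n t
  have h1 : ∑ k ∈ Z', (((G n).slice k).card : ℝ) ≤ ((E0 ∪ E1).card : ℝ) := by
    have h2 : (Z'.sigma fun k => (G n).slice k).card ≤ (E0 ∪ E1).card := by
      refine card_le_card_of_injOn (fun q => (q.2, q.1)) ?_ ?_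
      · intro q hq
        have hq' := mem_sigma.1 (Finset.mem_coe.1 hq)
        have hqI : (q.2, q.1) ∈ (G n).I := H.memSlice.1 hq'.2
        exact Finset.mem_coe.2 (mem_union.2 (hcov _ hqI hq'.1))
      · rintro ⟨a, b⟩ _ ⟨a', b'⟩ _ h
        simp only [Prod.mk.injEq] at h
        obtain ⟨rfl, rfl⟩ := h
        rfl
    rw [card_sigma] at h2
    exact_mod_cast h2
  have h3 : B.d n ^ ε * (((G n).L.card : ℝ) * Z'.card) ≤
      ∑ k ∈ Z', (((G n).slice k).card : ℝ) := by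
    have : ∑ k ∈ Z', B.d n ^ ε * ((G n).L.card : ℝ) ≤ ∑ k ∈ Z', (((G n).slice k).card : ℝ) :=
      sum_le_sum fun k hk => hsl k (hZ' hk)
    refine le_trans (le_of_eq ?_) this
    rw [sum_const, nsmul_eq_mul]; ring
  have h4 : ((E0 ∪ E1).card : ℝ) ≤ E0.card + E1.card := by
    exact_mod_cast card_union_le _ _
  have e0 : (0 : ℝ) ≤ ((G n).L.card : ℝ) * Z'.card := by positivity
  have e1 : B.d n ^ (2 * ε) = B.d n ^ ε * B.d n ^ ε := by
    rw [← rpow_add']; congr 1; ring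
  have e2 := hpow ε
  have e4 : 2 * B.d n ^ (2 * ε) ≤ B.d n ^ ε := by rw [e1]; nlinarith
  have h5 := mul_le_mul_of_nonneg_right e4 e0
  linarith

/-- levels of the truncated distance -/
theorem dist_lt (B : Base) {n : ℕ} {t a b : ℝ} (ht : 0 < t) (h : min 1 (max a b) ≤ B.d n ^ t) :
    max a b ≤ B.d n ^ t := by
  have h2 : B.d n ^ t < 1 := Real.rpow_lt_one (B.pos n).le (B.lt n) ht
  rcases le_total 1 (max a b) with h3 | h3
  · rw [min_eq_left h3] at h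
    linarith
  · rwa [min_eq_right h3] at h

/-- the root condition at one height -/
theorem root_cond {u F N P X C Nk μ b : ℝ}
    (hb0 : 0 ≤ b) (hu : |u| ≤ 2) (hF : |F| ≤ 2)
    (h1 : |Nk - (N + u * P - F * (X + u * C))| ≤ b) (h2 : |Nk| ≤ b) (hC : |C| ≤ b)
    (hX : |F - μ * u| * |X| ≤ 2 * b) : |N + u * (P - μ * X)| ≤ 10 * b := by
  have m1 : |F * (u * C)| ≤ 4 * b := by
    rw [abs_mul, abs_mul]
    calc |F| * (|u| * |C|) ≤ 2 * (2 * b) := by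
          refine mul_le_mul hF ?_ (by positivity) (by norm_num)
          exact mul_le_mul hu hC (abs_nonneg _) (by norm_num)
      _ = 4 * b := by ring
  have m2 : |(F - μ * u) * X| ≤ 2 * b := by rw [abs_mul]; exact hX
  have e1 : N + u * (P - μ * X) = Nk - (Nk - (N + u * P - F * (X + u * C))) +
      F * (u * C) + (F - μ * u) * X := by ring
  rw [e1]
  have n1 := abs_le.1 h1
  have n2 := abs_le.1 h2
  have n3 := abs_le.1 m1
  have n4 := abs_le.1 m2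
  rw [abs_le]
  constructor <;> linarith [n1.1, n1.2, n2.1, n2.2, n3.1, n3.2, n4.1, n4.2]

/-- additivity of `P' = P - μ X` -/
theorem add_cond {P1 X1 P2 X2 P3 X3 μ b : ℝ} (h1 : |P1 - μ * X1| ≤ b) (h2 : |P2| ≤ b)
    (h3 : |μ| * |X2| ≤ b) (h4 : |P3 - P1 - P2| ≤ b) (h5 : |μ| * |X3 - X1 - X2| ≤ b) :
    |P3 - μ * X3| ≤ 5 * b := by
  have m1 : |μ * X2| ≤ b := by rw [abs_mul]; exact h3
  have m2 : |μ * (X3 - X1 - X2)| ≤ b := by rw [abs_mul]; exact h5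
  have e5 : P3 - μ * X3 = (P1 - μ * X1) + P2 - μ * X2 + (P3 - P1 - P2) -
      μ * (X3 - X1 - X2) := by ring
  rw [e5]
  have n1 := abs_le.1 h1
  have n2 := abs_le.1 h2
  have n3 := abs_le.1 m1
  have n4 := abs_le.1 h4
  have n5 := abs_le.1 m2
  rw [abs_le]
  constructor <;> linarith [n1.1, n1.2, n2.1, n2.2, n3.1, n3.2, n4.1, n4.2, n5.1, n5.2]

end Crest.Agent.R136.NsF544
end

-- ▼ part R136/NsF5_544
section

/-!
# R136, row F, double resonance, part 5 (helper544): `no_slope_F`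
-/

set_option autoImplicit false
set_option linter.unusedVariables false
set_option linter.unusedSectionVars false

open Filter Topology Finset

namespace Crest.Agent.R136.NsF544

open Crest.Agent.R138.Ex926 (Base U)
open Crest.Agent.R138.TwC501 (root_lin)
open Crest.Agent.R136.Gf356
open Crest.Agent.R136.CD366

variable {κ : Type} [DecidableEq κ] {B : Base} {G : ℕ → RCfg κ} {Leg : Set (κ → ℝ)}
  {ν : (κ → ℝ) → ℝ} {σ R D : ℝ} {Fz : Finset κ} {sN sP sX sC : κ} {f : ℕ → ℕ → ℝ}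
  {R0 C1 a dl m : ℝ} {g : ℝ → ℝ → ℝ} {β : ℝ → ℝ → ℝ} {γ : ℝ → ℝ → ℝ} {γ0 : ℝ → ℝ}

open Classical in
/-- **common heights of two lines** -/
theorem count_F (hb : ∀ n, (G n).ρ = B.d n) {n : ℕ} {Z' : Finset ℕ} (hZ' : Z' ⊆ (G n).Z)
    {y hh ε AT μ CDε tol : ℝ} {J Kk j : ℕ} (hj : j < J) (hK : 2 ≤ Kk) (hh0 : 0 < hh)
    (hyh : ((J : ℝ) + Kk) * hh = y) {i i' k₀ : ℕ} (hk₀ : k₀ ∈ Z') {r : κ → ℝ} (hrN : r sN = y)
    (hbd : ∀ k ∈ (G n).Z, |(G n).z k| ≤ 1 ∧ |f n k| ≤ 1)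
    (hf : ∀ k ∈ Z', ∀ k' ∈ Z', |f n k' - f n k - μ * ((G n).z k' - (G n).z k)| ≤
      2 * B.d n ^ y)
    (hgen0 : ∀ k, (i, k) ∈ (G n).I → (i', k) ∈ (G n).I →
      |(G n).rel k i i' sN - ((G n).rel k₀ i i' sN + ((G n).z k - (G n).z k₀) *
        (G n).rel k₀ i i' sP - (f n k - f n k₀) * ((G n).rel k₀ i i' sX +
        ((G n).z k - (G n).z k₀) * (G n).rel k₀ i i' sC))| ≤ B.d n ^ (y - AT * ε))
    (hC : |(G n).rel k₀ i i' sC| ≤ B.d n ^ (y - AT * ε))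
    (hX : B.d n ^ y * |(G n).rel k₀ i i' sX| ≤ B.d n ^ (y - AT * ε))
    (hCD : 0 ≤ CDε) (hCDh : CDε ≤ hh) (htol : tol ≤ AT * ε) (hAT : 4 * ((AT + 1) * ε) ≤ hh)
    (hd : B.d n ^ (((j + 1 : ℕ) : ℝ) * hh - CDε) < min 1 (max |(G n).rel k₀ i i' sN|
      |(G n).rel k₀ i i' sP - μ * (G n).rel k₀ i i' sX|))
    (hc10 : (10 : ℝ) ≤ B.d n ^ (-ε)) (hc8 : (8 : ℝ) ≤ B.d n ^ (-(hh / 2)))
    (hfro : ∀ T ⊆ (G n).Z, (∀ k ∈ T, ∀ k' ∈ T, |(G n).z k' - (G n).z k| ≤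
      B.d n ^ (((J + Kk - 2 - j : ℕ) : ℝ) * hh)) → (T.card : ℝ) ≤
      B.d n ^ (σ * (((J + Kk - 2 - j : ℕ) : ℝ) * hh) - ε) * ((G n).Z.card : ℝ))
    (hcard : B.d n ^ ε * ((G n).Z.card : ℝ) ≤ Z'.card) :
    ((Z'.filter fun k => (i, k) ∈ (G n).I ∧ (i', k) ∈ (G n).I ∧
      (G n).loose r tol k i i').card : ℝ) ≤
      B.d n ^ (σ * (((J + Kk - 2 - j : ℕ) : ℝ) * hh) - 2 * ε) * Z'.card := by
  have hpow : ∀ t : ℝ, 0 < B.d n ^ t := fun t => rpos B n t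
  set P' := (G n).rel k₀ i i' sP - μ * (G n).rel k₀ i i' sX with hP'
  set T := Z'.filter fun k => (i, k) ∈ (G n).I ∧ (i', k) ∈ (G n).I ∧
    (G n).loose r tol k i i' with hT
  have hTZ : T ⊆ Z' := filter_subset _ _
  have hzz : ∀ k ∈ Z', |(G n).z k - (G n).z k₀| ≤ 2 := by
    intro k hk
    refine (abs_sub _ _).trans ?_
    have := (hbd k (hZ' hk)).1; have := (hbd k₀ (hZ' hk₀)).1; linarith
  have hff : ∀ k ∈ Z', |f n k - f n k₀| ≤ 2 := by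
    intro k hk
    refine (abs_sub _ _).trans ?_
    have := (hbd k (hZ' hk)).2; have := (hbd k₀ (hZ' hk₀)).2; linarith
  have hgen : ∀ k ∈ T, |(G n).rel k₀ i i' sN + ((G n).z k - (G n).z k₀) * P'| ≤
      B.d n ^ (y - (AT + 1) * ε) := by
    intro k hk
    have hkZ := hTZ hk
    obtain ⟨-, hIk, hIk', hl⟩ := mem_filter.1 hk
    have g1 := hgen0 k hIk hIk'
    have g2 := hl sN
    rw [hrN, hb n] at g2
    have g3 := hf k₀ hk₀ k hkZ
    have g2' : |(G n).rel k i i' sN| ≤ B.d n ^ (y - AT * ε) :=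
      g2.trans (rpow_anti B n (by linarith))
    have g4 : |f n k - f n k₀ - μ * ((G n).z k - (G n).z k₀)| * |(G n).rel k₀ i i' sX| ≤
        2 * B.d n ^ (y - AT * ε) := by
      calc |f n k - f n k₀ - μ * ((G n).z k - (G n).z k₀)| * |(G n).rel k₀ i i' sX|
          ≤ 2 * B.d n ^ y * |(G n).rel k₀ i i' sX| :=
            mul_le_mul_of_nonneg_right g3 (abs_nonneg _)
        _ = 2 * (B.d n ^ y * |(G n).rel k₀ i i' sX|) := by ring
        _ ≤ _ := by linarith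
    have k4 := root_cond (hpow (y - AT * ε)).le (hzz k hkZ) (hff k hkZ)
      g1 g2' hC g4
    refine k4.trans (absorb B ?_)
    have e : -(y - AT * ε - (y - (AT + 1) * ε)) = -ε := by ring
    rw [e]
    exact hc10
  have hcast := castN (J := J) (Kk := Kk) (j := j) hj hK
  have hj1 : (j : ℝ) + 1 ≤ J := by exact_mod_cast hj
  have hK2 : (2 : ℝ) ≤ Kk := by exact_mod_cast hK
  have hclose : ∀ k ∈ T, ∀ k' ∈ T, |(G n).z k' - (G n).z k| ≤
      B.d n ^ (((J + Kk - 2 - j : ℕ) : ℝ) * hh) := by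
    intro k hk k' hk'
    have g1 := hgen k hk
    have g2 := hgen k' hk'
    have hd' : B.d n ^ (((j + 1 : ℕ) : ℝ) * hh - CDε) <
        max |(G n).rel k₀ i i' sN| |P'| := lt_of_lt_of_le hd (min_le_right _ _)
    have h2w : 2 * B.d n ^ (y - (AT + 1) * ε) ≤ B.d n ^ (((j + 1 : ℕ) : ℝ) * hh - CDε) := by
      refine absorb B ((by linarith : (2 : ℝ) ≤ 8).trans (hc8.trans (rpow_anti B n ?_)))
      push_cast
      have h2 : ((j : ℝ) + 1) * hh ≤ (J : ℝ) * hh := mul_le_mul_of_nonneg_right hj1 hh0.le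
      have h3 : 2 * hh ≤ Kk * hh := mul_le_mul_of_nonneg_right hK2 hh0.le
      have h4 : y = (J : ℝ) * hh + Kk * hh := by rw [← hyh]; ring
      linarith
    have g3 := root_lin g2 g1 (hzz k' (hTZ hk')) hd' h2w
    have g4 : ((G n).z k' - (G n).z k₀) - ((G n).z k - (G n).z k₀) =
      (G n).z k' - (G n).z k := by ring
    rw [g4] at g3
    refine le_div_pow B n g3 (hc8.trans (rpow_anti B n ?_))
    push_cast
    rw [hcast, ← hyh]
    have e1 : -(((J : ℝ) + Kk) * hh - (AT + 1) * ε - (((j : ℝ) + 1) * hh - CDε) -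
        ((J : ℝ) + Kk - 2 - j) * hh) = -(hh - (AT + 1) * ε + CDε) := by ring
    rw [e1]
    linarith
  have hTc := hfro T (hTZ.trans hZ') hclose
  refine hTc.trans ?_
  have e1 : B.d n ^ (σ * (((J + Kk - 2 - j : ℕ) : ℝ) * hh) - ε) =
      B.d n ^ (σ * (((J + Kk - 2 - j : ℕ) : ℝ) * hh) - 2 * ε) * B.d n ^ ε := by
    rw [← rpow_add']; congr 1; ring
  rw [e1, mul_assoc]
  exact mul_le_mul_of_nonneg_left hcard (hpow _).le

open Classical in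
/-- **the last level**: frozen -> unfrozen at one incidence -/
theorem last_F (H : RModel B G σ R Leg ν D) {n : ℕ} {y hh ε μ s s' XJ c1 c2 : ℝ}
    {E0 : Finset (ℕ × ℕ)} {pS : κ → ℝ} {i₀ i k₀ : ℕ} (hI0 : (i₀, k₀) ∈ (G n).I)
    (hi : i ∈ (G n).box pS ε i₀ k₀) (hyR : y ≤ R0) (hh0 : 0 < hh) (hε : 4 * ε ≤ hh)
    (hμ4 : |μ| ≤ B.d n ^ (-(hh / 4))) (hX0 : 0 < XJ)
    (hXJ : y - s + hh / 2 ≤ XJ) (hs : hh ≤ s)
    (hcells : ∀ T ⊆ (G n).box pS ε i₀ k₀,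
      (∀ t ∈ T, |(G n).rel k₀ i t sN| ≤ B.d n ^ XJ) →
      ∃ W ⊆ (G n).slice k₀,
        (∀ l ∈ W, ∃ e ∈ T, |(G n).rel k₀ e l sP| ≤ B.d n ^ (y - ε) ∧
          |(G n).rel k₀ e l sX| ≤ B.d n ^ (y - ε)) ∧
        (T.card : ℝ) * B.d n ^ c1 ≤ W.card)
    (hadd : ∀ k i e l, (i, k) ∈ (G n).I → (e, k) ∈ (G n).I → (l, k) ∈ (G n).I → ∀ s,
      s = sP ∨ s = sX → |(G n).rel k i l s - (G n).rel k i e s - (G n).rel k e l s| ≤
        B.d n ^ (R0 - ε))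
    (hbox : B.d n ^ (-ν pS + ε) ≤ (((G n).box pS ε i₀ k₀).card : ℝ))
    (hL : ((G n).L.card : ℝ) ≤ B.d n ^ (-ν 0 - (D + 1) * ε))
    (hc8 : (8 : ℝ) ≤ B.d n ^ (-(hh / 2)))
    (hiE : ((((G n).slice k₀).filter fun l => |(G n).rel k₀ i l sP - μ *
      (G n).rel k₀ i l sX| ≤ B.d n ^ (y - s)).card : ℝ) < B.d n ^ s' * ((G n).L.card : ℝ))
    (hexp : c2 - ν pS + ε + c1 ≤ s' - ν 0 - (D + 1) * ε) :
    ((((G n).box pS ε i₀ k₀).filter fun i' => (i', k₀) ∈ E0 ∧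
      min 1 (max |(G n).rel k₀ i i' sN| |(G n).rel k₀ i i' sP - μ * (G n).rel k₀ i i' sX|) ≤
        B.d n ^ XJ).card : ℝ) ≤ B.d n ^ c2 * ((G n).box pS ε i₀ k₀).card := by
  have hpow : ∀ t : ℝ, 0 < B.d n ^ t := fun t => rpos B n t
  by_contra hcon
  push Not at hcon
  set T := ((G n).box pS ε i₀ k₀).filter fun i' => (i', k₀) ∈ E0 ∧
    min 1 (max |(G n).rel k₀ i i' sN| |(G n).rel k₀ i i' sP - μ * (G n).rel k₀ i i' sX|) ≤
      B.d n ^ XJ with hT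
  have hTd : ∀ t ∈ T, max |(G n).rel k₀ i t sN| |(G n).rel k₀ i t sP - μ *
      (G n).rel k₀ i t sX| ≤ B.d n ^ XJ := fun t ht => dist_lt B hX0 (mem_filter.1 ht).2.2
  obtain ⟨W, hW1, hW2, hW3⟩ := hcells T (filter_subset _ _)
    (fun t ht => (le_max_left _ _).trans (hTd t ht))
  have hiI : (i, k₀) ∈ (G n).I := H.memSlice.1 (RCfg.box_subset_slice hi)
  have hsubW : W ⊆ ((G n).slice k₀).filter fun l => |(G n).rel k₀ i l sP - μ *
      (G n).rel k₀ i l sX| ≤ B.d n ^ (y - s) := by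
    intro l hl
    have hlS := hW1 hl
    refine mem_filter.2 ⟨hlS, ?_⟩
    obtain ⟨e, heT, e1, e2⟩ := hW2 l hl
    have heI : (e, k₀) ∈ (G n).I :=
      H.memSlice.1 (RCfg.box_subset_slice ((filter_subset _ _) heT))
    have hlI := H.memSlice.1 hlS
    have a1 := hadd k₀ i e l hiI heI hlI sP (Or.inl rfl)
    have a2 := hadd k₀ i e l hiI heI hlI sX (Or.inr rfl)
    have a3 := (le_max_right _ _).trans (hTd e heT)
    set b := B.d n ^ (y - s + hh / 2) with hb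
    have k1 : B.d n ^ (R0 - ε) ≤ b := rpow_anti B n (by linarith)
    have k2 : B.d n ^ (y - ε) ≤ b := rpow_anti B n (by linarith)
    have k3 : B.d n ^ XJ ≤ b := rpow_anti B n hXJ
    have k4 : |μ| * B.d n ^ (y - ε) ≤ b := by
      calc |μ| * B.d n ^ (y - ε) ≤ B.d n ^ (-(hh / 4)) * B.d n ^ (y - ε) :=
            mul_le_mul_of_nonneg_right hμ4 (hpow _).le
        _ = B.d n ^ (-(hh / 4) + (y - ε)) := by rw [rpow_add']
        _ ≤ b := rpow_anti B n (by linarith)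
    have k5 : |μ| * B.d n ^ (R0 - ε) ≤ b :=
      (mul_le_mul_of_nonneg_left (rpow_anti B n (by linarith)) (abs_nonneg _)).trans k4
    have m3 := add_cond (a3.trans k3) (e1.trans k2)
      ((mul_le_mul_of_nonneg_left e2 (abs_nonneg μ)).trans k4) (a1.trans k1)
      ((mul_le_mul_of_nonneg_left a2 (abs_nonneg μ)).trans k5)
    have hb0 : 0 < b := hpow _
    refine (m3.trans (by linarith : 5 * b ≤ 8 * b)).trans (absorb B ?_)
    have e6 : -(y - s + hh / 2 - (y - s)) = -(hh / 2) := by ring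
    rw [e6]
    exact hc8
  have hWc : (W.card : ℝ) < B.d n ^ s' * ((G n).L.card : ℝ) :=
    lt_of_le_of_lt (Nat.cast_le.2 (card_le_card hsubW)) hiE
  have hlowW : B.d n ^ (c2 - ν pS + ε + c1) ≤ W.card := by
    refine le_trans ?_ hW3
    calc B.d n ^ (c2 - ν pS + ε + c1) = B.d n ^ c2 * B.d n ^ (-ν pS + ε) * B.d n ^ c1 := by
          rw [← rpow_add', ← rpow_add']; congr 1; ring
      _ ≤ B.d n ^ c2 * ((G n).box pS ε i₀ k₀).card * B.d n ^ c1 :=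
          mul_le_mul_of_nonneg_right (mul_le_mul_of_nonneg_left hbox (hpow _).le) (hpow _).le
      _ ≤ _ := mul_le_mul_of_nonneg_right hcon.le (hpow _).le
  have hup : B.d n ^ s' * ((G n).L.card : ℝ) ≤ B.d n ^ (s' - ν 0 - (D + 1) * ε) := by
    calc B.d n ^ s' * ((G n).L.card : ℝ) ≤ B.d n ^ s' * B.d n ^ (-ν 0 - (D + 1) * ε) :=
          mul_le_mul_of_nonneg_left hL (hpow _).le
      _ = _ := by rw [← rpow_add']; congr 1; ring
  have hfin := rpow_anti B n hexp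
  linarith

end Crest.Agent.R136.NsF544
end

-- ▼ part R136/NsF6_544
section

/-!
# R136, row F, double resonance, part 6 (helper544): `no_slope_F`, `kappa_one_F`
-/

set_option autoImplicit false
set_option linter.unusedVariables false
set_option linter.unusedSectionVars false

open Filter Topology Finset

namespace Crest.Agent.R136.NsF544

open Crest.Agent.R138.Ex926 (Base U)
open Crest.Agent.R138.TwC501 (root_lin)
open Crest.Agent.R136.Gf356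
open Crest.Agent.R136.CD366
open Crest.Agent.R136.C1s940 (K3w K3core_w)
open Crest.Agent.R136.Fe1355 (RawTw shift_R)

variable {κ : Type} [DecidableEq κ] {B : Base} {G : ℕ → RCfg κ} {Leg : Set (κ → ℝ)}
  {ν : (κ → ℝ) → ℝ} {σ R D : ℝ} {Fz : Finset κ} {sN sP sX sC : κ} {f : ℕ → ℕ → ℝ}
  {R0 C1 a dl m : ℝ} {g : ℝ → ℝ → ℝ} {β : ℝ → ℝ → ℝ} {γ : ℝ → ℝ → ℝ} {γ0 : ℝ → ℝ}

open Classical in
set_option maxHeartbeats 1600000 in
/-- **no sloped strips**, at one scale -/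
theorem no_slope_F1 (H : RModel B G σ R Leg ν D)
    (K : K1F B G Leg ν Fz sN sP sX sC f R0 C1 a dl m g β γ γ0) (hR0 : R0 ≤ R) (ha : a < σ)
    (J Kk : ℕ) (hJ1 : 1 ≤ J) (hK2 : 2 ≤ Kk)
    (hA : dl * ((J : ℝ) + Kk) + 4 ≤ (σ - a) * ((Kk : ℝ) - 1))
    {y hh ε A CtD C6 s s' s1 : ℝ} (hA' : A = C1 * D ^ 7 + 1)
    (hC6 : C6 = D ^ 6 + 2 * D ^ 2 + 1)
    (hCt : CtD = (D ^ 2 + 1) * (C1 * D ^ 2) + D * D ^ 2 + 2 + 2 * D + 14)
    (hy : 0 < y) (hyR : y ≤ R0) (hh0 : 0 < hh) (hyh : ((J : ℝ) + Kk) * hh = y) (hεp : 0 < ε)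
    (hε1 : CtD * ε ≤ hh) (hε2 : 16 * A * ε ≤ hh) (hε3 : (C6 + 2 * D + 16) * ε ≤ hh)
    (hε4 : 64 * ε ≤ σ * hh) (hD2h : 16 * (D ^ 2 * ε) ≤ hh)
    (hs : s = ((Kk : ℝ) + 1) * hh) (hs' : s' = (dl * ((J : ℝ) + Kk) + Kk + 2) * hh)
    (hs10 : 0 < s1) (hs1R : s1 ≤ R)
    (h1 : s' + 6 * ε ≤ σ * s1) (h2 : 0 ≤ y - s - s1 - 2 * ε)
    (h3 : s' + (D + 6) * ε ≤ m * (y - s - s1 - 2 * ε))
    (Hy : ∀ᶠ n in (U : Filter ℕ), ∃ Z' ⊆ (G n).Z,
      Z'.Nonempty ∧ B.d n ^ ε * ((G n).Z.card : ℝ) ≤ Z'.card ∧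
      ∃ μ : ℝ, B.d n ^ ε ≤ |μ| ∧
      ∀ k ∈ Z', ∀ k' ∈ Z', |f n k' - f n k - μ * ((G n).z k' - (G n).z k)| ≤
        2 * B.d n ^ y) : False := by
  have ha0 := K.a0
  have hdl0 := K.dl0
  have hσ0 : 0 < σ := ha0.trans_lt ha
  have hσ1 := H.σ_le
  have hD := H.D1
  have hD0 : 0 < D := by linarith
  have hC1 := K.C1_one
  have hC10 : 0 < C1 := by linarith
  have hyy : (0 : ℝ) ≤ y := hy.le
  have hD2ε : 0 < D ^ 2 * ε := by positivity
  have hD6 : 0 ≤ D ^ 6 := by positivity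
  have hD2 : 0 ≤ D ^ 2 := by positivity
  have hC60 : 0 ≤ C6 := by rw [hC6]; positivity
  have hε16 : 16 * ε ≤ hh := by
    refine le_trans (mul_le_mul_of_nonneg_right ?_ hεp.le) hε3
    linarith
  have hJ1' : (1 : ℝ) ≤ J := by exact_mod_cast hJ1
  have hK2' : (2 : ℝ) ≤ Kk := by exact_mod_cast hK2
  have hKh0 : 0 ≤ (Kk : ℝ) * hh := by positivity
  have hs0 : 0 ≤ s := by rw [hs]; positivity
  have hJh : hh ≤ (J : ℝ) * hh := by
    have := mul_le_mul_of_nonneg_right hJ1' hh0.le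
    linarith
  have hx0 : (0 : ℝ) ≤ (J : ℝ) * hh := by linarith
  have hJy : (J : ℝ) * hh = y - Kk * hh := by rw [← hyh]; ring
  have hxy : (J : ℝ) * hh ≤ y := by linarith
  -- boxes
  set pT : κ → ℝ := bx Fz sN sP sX sC y 0 0 0 0 with hpT
  set pS : κ → ℝ := bx Fz sN sP sX sC y 0 0 0 y with hpS
  set r : κ → ℝ := bx Fz sN sP sX sC y y 0 0 0 with hr
  have lT : pT ∈ Leg := K.leg y 0 0 0 0 hyy hyR le_rfl hyy le_rfl hyy le_rfl hyy le_rfl hyy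
  have lS : pS ∈ Leg := K.leg y 0 0 0 y hyy hyR le_rfl hyy le_rfl hyy le_rfl hyy hyy le_rfl
  have lr : r ∈ Leg := K.leg y y 0 0 0 hyy hyR hyy le_rfl le_rfl hyy le_rfl hyy le_rfl hyy
  have l00 : (0 : κ → ℝ) ∈ Leg := by
    have := K.leg0 0 0 0 le_rfl K.R0_pos.le le_rfl K.R0_pos.le le_rfl K.R0_pos.le
    rwa [bx_empty] at this
  have hTS : ∀ j, pT j ≤ pS j := fun j => bx_mono le_rfl le_rfl le_rfl le_rfl hyy j
  have b00 := K.b00
  have gy0 := K.gy0 hyy hyR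
  have gz := K.g_zero y hyy hyR
  have νr : ν pT - ν r = g y y := by
    have := K.nu y y 0 0 0 hyy hyR hyy le_rfl le_rfl hyy le_rfl hyy le_rfl hyy
    rw [hr, this, b00, gy0]; ring
  have νS : ν pS = ν pT - γ y y := by
    have := K.nu y 0 0 0 y hyy hyR le_rfl hyy le_rfl hyy le_rfl hyy hyy le_rfl
    rw [hpS, this, b00, gz]; ring
  have hxj : ∀ j < J, (0 : ℝ) ≤ (j : ℝ) * hh ∧ (j : ℝ) * hh ≤ y := by
    intro j hj
    have h1 : (j : ℝ) ≤ J := by exact_mod_cast hj.le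
    refine ⟨by positivity, ?_⟩
    exact (mul_le_mul_of_nonneg_right h1 hh0.le).trans hxy
  have νQ : ∀ t, 0 ≤ t → t ≤ y → ν (bx Fz sN sP sX sC y t 0 0 y) = ν pT - g y t - γ y y := by
    intro t ht hty
    have := K.nu y t 0 0 y hyy hyR ht hty le_rfl hyy le_rfl hyy hyy le_rfl
    rw [this, b00]; ring
  have ν1 : ν (bx Fz sN sP sX sC y ((J : ℝ) * hh) y y y) =
      ν pT - g y ((J : ℝ) * hh) - β y y - γ y y :=
    K.nu y _ y y y hyy hyR hx0 hxy hyy le_rfl hyy le_rfl hyy le_rfl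
  have ν0 : ν (bx ∅ sN sP sX sC 0 0 y y 0) = ν 0 - β y y := by
    rw [K.nu0 y y 0 hyy hyR hyy hyR le_rfl K.R0_pos.le, K.g00]; ring
  have hgup := K.g_up y hyy hyR
  have hglow := K.g_low y _ hx0 hxy hyR
  have hexp : g y y + hh - ν pS + ε + (ν (bx Fz sN sP sX sC y ((J : ℝ) * hh) y y y) -
      ν (bx ∅ sN sP sX sC 0 0 y y 0) + (D ^ 6 + 2 * D ^ 2 + 1) * ε) ≤
      s' - ν 0 - (D + 1) * ε := by
    rw [ν1, ν0, νS, ← hC6]
    have h1 : g y y - g y ((J : ℝ) * hh) ≤ (dl * ((J : ℝ) + Kk) + Kk) * hh := by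
      have e1 : (a + dl) * y = (a + dl) * (((J : ℝ) + Kk) * hh) := by rw [hyh]
      have ha1 : a ≤ 1 := (ha.trans_le hσ1).le
      have e2 : a * (Kk * hh) ≤ 1 * (Kk * hh) := mul_le_mul_of_nonneg_right ha1 hKh0
      have e3 : (a + dl) * (((J : ℝ) + Kk) * hh) - a * ((J : ℝ) * hh) =
          a * (Kk * hh) + dl * ((J : ℝ) + Kk) * hh := by ring
      have e4 : (dl * ((J : ℝ) + Kk) + Kk) * hh = dl * ((J : ℝ) + Kk) * hh + Kk * hh := by ring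
      linarith
    have h2 : (C6 + D + 2) * ε ≤ hh := by
      refine le_trans (mul_le_mul_of_nonneg_right ?_ hεp.le) hε3
      linarith
    have e5 : s' = (dl * ((J : ℝ) + Kk) + Kk) * hh + 2 * hh := by rw [hs']; ring
    rw [e5]
    have e6 : (C6 + D + 2) * ε = C6 * ε + (D + 1) * ε + ε := by ring
    linarith
  -- choice of the slope
  obtain ⟨q, hq⟩ : ∃ q : ℕ → Finset ℕ × ℝ, ∀ᶠ n in (U : Filter ℕ),
      (q n).1 ⊆ (G n).Z ∧ (q n).1.Nonempty ∧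
      B.d n ^ ε * ((G n).Z.card : ℝ) ≤ (q n).1.card ∧
      B.d n ^ ε ≤ |(q n).2| ∧ ∀ k ∈ (q n).1, ∀ k' ∈ (q n).1,
        |f n k' - f n k - (q n).2 * ((G n).z k' - (G n).z k)| ≤ 2 * B.d n ^ y := by
    have hex : ∀ᶠ n in (U : Filter ℕ), ∃ q : Finset ℕ × ℝ,
        q.1 ⊆ (G n).Z ∧ q.1.Nonempty ∧ B.d n ^ ε * ((G n).Z.card : ℝ) ≤ q.1.card ∧
        B.d n ^ ε ≤ |q.2| ∧ ∀ k ∈ q.1, ∀ k' ∈ q.1,
          |f n k' - f n k - q.2 * ((G n).z k' - (G n).z k)| ≤ 2 * B.d n ^ y := by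
      filter_upwards [Hy] with n hn
      obtain ⟨Z', h1, h2, h3, μ, h4, h5⟩ := hn
      exact ⟨(Z', μ), h1, h2, h3, h4, h5⟩
    exact hex.choice
  have hCT0 : 0 < C1 * D ^ 2 := by positivity
  refine kauf_E H pS pT r lS lT lr (fun j => bx_mono le_rfl hyy le_rfl le_rfl le_rfl j) J
    (fun j => (j : ℝ) * hh) (fun j => σ * (((J + Kk - 2 - j : ℕ) : ℝ) * hh))
    (fun j => bx Fz sN sP sX sC y ((j : ℝ) * hh) 0 0 y)
    (fun j hj => K.leg y _ 0 0 y hyy hyR (hxj j hj).1 (hxj j hj).2 le_rfl hyy le_rfl hyy hyy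
      le_rfl) (CT := C1 * D ^ 2) (CN := D ^ 2) (Cb := 2) (CD := D ^ 2) (ε := ε) (s := hh)
    hCT0 (by positivity) (by norm_num) hεp ?_ ?_
    (fun n k₀ i i' => min 1 (max |(G n).rel k₀ i i' sN|
      |(G n).rel k₀ i i' sP - (q n).2 * (G n).rel k₀ i i' sX|)) ?_
  · -- numbers
    intro j hj
    obtain ⟨x1, x2⟩ := hxj j hj
    have e1 : ν pS - ν (bx Fz sN sP sX sC y ((j : ℝ) * hh) 0 0 y) = g y ((j : ℝ) * hh) := by
      rw [νQ _ x1 x2, νS]; ring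
    rw [e1, νr, ← hCt]
    refine arithF hj hK2 ha0 ha hσ1 hh0 hε1 hA ?_ (K.g_low y _ x1 x2 hyR)
    rw [hyh]
    exact hgup
  · refine le_trans (mul_le_mul_of_nonneg_right ?_ hεp.le) hε1
    have : 0 ≤ D * D ^ 2 := by positivity
    rw [hCt]
    linarith
  have hNR : ((J + Kk : ℕ) : ℝ) * hh ≤ R := by
    push_cast
    rw [hyh]
    exact hyR.trans hR0
  have hh8R : hh / 8 ≤ R := by linarith [hyR.trans hR0]
  have hsp := spread_F H K hyR hεp hs0 hs10 hs1R h1 h2 h3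
  filter_upwards [hq, hsp, cells_F H K hyy hyR hx0 hxy hεp, frost_set H hh0 hNR hεp,
    box_pair H.toRUnif pS lS hεp, K.ev y hyy hyR (D ^ 2 * ε) hD2ε, K.bd, K.add ε hεp,
    K.bd1 ε hεp, H.low pS lS ε hεp, H.up 0 l00 ε hεp, H.slice ε hεp,
    H.frost (hh / 8) (by positivity) hh8R ε hεp, ev_const_le B hεp 10,
    ev_const_le B (half_pos hh0) 8, ev_const_le B (show 0 < hh / 8 by positivity) 4,
    ev_small B hεp 4] with n hZ hspr hcells hfro hpair hev hbd hadd hbd1 hlowS hup0 hsl hfr8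
    hc10 hc8 hc4 hce
  clear hq hsp Hy
  obtain ⟨hZ', hne, hcard, hμ, hf⟩ := hZ
  have hpow : ∀ t : ℝ, 0 < B.d n ^ t := fun t => rpos B n t
  generalize (q n).1 = Z' at hZ' hne hcard hf
  generalize (q n).2 = μ at hμ hf ⊢
  have hμ4 := mu_bound H.base hZ' hne hyy hεp hε4 hcard hfr8 hbd hf hc4 hce
  have hμs : |μ| ≤ B.d n ^ (-s) := by
    refine hμ4.trans (rpow_anti B n ?_)
    have : s = Kk * hh + hh := by rw [hs]; ring
    linarith
  -- the incidences with small spread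
  have hdens := dens_E H hZ' hsl hce
    ((G n).I.filter fun q => q.2 ∈ Z' ∧
      ((((G n).slice q.2).filter fun l => |(G n).rel q.2 q.1 l sP - μ *
        (G n).rel q.2 q.1 l sX| ≤ B.d n ^ (y - s)).card : ℝ) < B.d n ^ s' * ((G n).L.card : ℝ))
    ((G n).I.filter fun q => q.2 ∈ Z' ∧
      B.d n ^ s' * ((G n).L.card : ℝ) ≤ ((((G n).slice q.2).filter fun l =>
        |(G n).rel q.2 q.1 l sP - μ * (G n).rel q.2 q.1 l sX| ≤ B.d n ^ (y - s)).card : ℝ))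
    (by
      intro q hqI hqZ
      by_cases hc : ((((G n).slice q.2).filter fun l => |(G n).rel q.2 q.1 l sP - μ *
          (G n).rel q.2 q.1 l sX| ≤ B.d n ^ (y - s)).card : ℝ) <
          B.d n ^ s' * ((G n).L.card : ℝ)
      · exact Or.inl (mem_filter.2 ⟨hqI, hqZ, hc⟩)
      · exact Or.inr (mem_filter.2 ⟨hqI, hqZ, not_lt.1 hc⟩))
    (hspr Z' hZ' hne hcard μ hμ hμs hf _ (filter_subset _ _)
      (fun q hq => (mem_filter.1 hq).2))
  refine ⟨Z', hZ', hne, _, filter_subset _ _, fun q hq => (mem_filter.1 hq).2.1, hdens,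
    fun k₀ hk₀' i₀ hi₀ => ?_⟩
  have hk₀ := hZ' hk₀'
  have hI0 := H.memSlice.1 hi₀
  have hS : ∀ i ∈ (G n).box pS ε i₀ k₀, (i, k₀) ∈ (G n).I := fun i hi =>
    H.memSlice.1 (RCfg.box_subset_slice hi)
  have hSS : ∀ i ∈ (G n).box pS ε i₀ k₀, ∀ i' ∈ (G n).box pS ε i₀ k₀,
      (G n).loose pS (D ^ 2 * ε) k₀ i i' := fun i hi i' hi' => hpair k₀ i₀ i i' hI0 hi hi'
  have hSS0 : ∀ i ∈ (G n).box pS ε i₀ k₀, ∀ i' ∈ (G n).box pS ε i₀ k₀,
      (G n).loose pT (D ^ 2 * ε) k₀ i i' := fun i hi i' hi' =>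
    H.loose_mono hTS le_rfl (hSS i hi i' hi')
  have hslot : ∀ i ∈ (G n).box pS ε i₀ k₀, ∀ i' ∈ (G n).box pS ε i₀ k₀, ∀ s : κ, pT s = 0 →
      |(G n).rel k₀ i i' s| ≤ B.d n ^ (-(D ^ 2 * ε)) := by
    intro i hi i' hi' s hs
    have := hSS0 i hi i' hi' s
    rw [H.base n, hs, zero_sub] at this
    exact this
  have q1 : pT sN = 0 := bx_N
  have q3 : pT sX = 0 := bx_X K.NX K.PX
  have q4 : pS sC = y := bx_C K.NC K.PC K.XC
  have hrN : r sN = y := bx_N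
  have hA1ε : C1 * (D ^ 2 * ε) ≤ C1 * D ^ 7 * ε := by
    have : D ^ 2 ≤ D ^ 7 := pow_le_pow_right₀ hD (by norm_num)
    have h1 : D ^ 2 * ε ≤ D ^ 7 * ε := mul_le_mul_of_nonneg_right this hεp.le
    calc C1 * (D ^ 2 * ε) ≤ C1 * (D ^ 7 * ε) := mul_le_mul_of_nonneg_left h1 hC10.le
      _ = _ := by ring
  have hA2ε : D ^ 2 * ε ≤ C1 * D ^ 7 * ε := by
    refine le_trans ?_ hA1ε
    have : 1 * (D ^ 2 * ε) ≤ C1 * (D ^ 2 * ε) := mul_le_mul_of_nonneg_right hC1 hD2ε.le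
    linarith
  refine ⟨?_, ?_, ?_, ?_, ?_⟩
  · intro i hi i' hi'
    refine (min_le_left _ _).trans ?_
    have e1 : ((0 : ℕ) : ℝ) * hh - D ^ 2 * ε = -(D ^ 2 * ε) := by push_cast; ring
    rw [e1]
    exact Real.one_le_rpow_of_pos_of_le_one_of_nonpos (B.pos n) (B.lt n).le (by linarith)
  · intro j hj i hi i' hi' hd t
    have h1 := hSS i hi i' hi' t
    by_cases htN : t = sN
    · subst htN
      rw [bx_N, H.base n]
      rcases Nat.eq_zero_or_pos j with rfl | hj0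
      · have e1 : ((0 : ℕ) : ℝ) * hh - D ^ 2 * ε = -(D ^ 2 * ε) := by push_cast; ring
        rw [e1]
        exact hslot i hi i' hi' t q1
      · have hj' : (1 : ℝ) ≤ j := by exact_mod_cast hj0
        have h5 : 1 * hh ≤ (j : ℝ) * hh := mul_le_mul_of_nonneg_right hj' hh0.le
        exact (le_max_left _ _).trans (dist_lt B (by linarith) hd)
    · refine h1.trans (le_of_eq ?_)
      simp only [hpS, bx, if_neg htN]
  · intro k hk i hi i' hi' hIk hIk'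
    have := (hev k₀ k i i' (hS i hi) (hS i' hi') hIk hIk' (hSS0 i hi i' hi')).1
    refine H.loose_mono (fun _ => le_rfl) (le_of_eq ?_) this
    ring
  · intro j hj i hi i' hi' hd
    refine count_F H.base hZ' (sN := sN) (sP := sP) (sX := sX) (sC := sC) (AT := C1 * D ^ 7) (CDε := D ^ 2 * ε) hj hK2 hh0 hyh hk₀' hrN hbd
      hf ?_ ?_ ?_ hD2ε.le (by linarith) (le_of_eq (by ring)) ?_ hd hc10 hc8
      (fun T hT hTc => hfro (J + Kk - 2 - j) (by simp; omega) T hT hTc) hcard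
    · intro k hIk hIk'
      refine (hev k₀ k i i' (hS i hi) (hS i' hi') hIk hIk' (hSS0 i hi i' hi')).2.trans
        (rpow_anti B n (by linarith))
    · have := hSS i hi i' hi' sC
      rw [H.base n, q4] at this
      exact this.trans (rpow_anti B n (by linarith))
    · calc B.d n ^ y * |(G n).rel k₀ i i' sX| ≤ B.d n ^ y * B.d n ^ (-(D ^ 2 * ε)) :=
            mul_le_mul_of_nonneg_left (hslot i hi i' hi' sX q3) (hpow _).le
        _ = B.d n ^ (y + -(D ^ 2 * ε)) := by rw [rpow_add']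
        _ ≤ _ := rpow_anti B n (by linarith)
    · rw [← hA']
      have : 0 ≤ A * ε := by rw [hA']; positivity
      linarith
  · -- the last level: frozen -> unfrozen
    intro i hi hiE
    have hL : ((G n).L.card : ℝ) ≤ B.d n ^ (-ν 0 - (D + 1) * ε) := by
      have h1 : (((G n).slice k₀).card : ℝ) ≤ B.d n ^ (-ν 0 - D * ε) := by
        refine le_trans (Nat.cast_le.2 (card_le_card fun l hl => ?_)) (hup0 i₀ k₀ hI0)
        refine RCfg.mem_box.2 ⟨hl, fun j => ?_⟩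
        rw [H.base n, Pi.zero_apply, zero_sub]
        exact hbd1 k₀ i₀ l hI0 (H.memSlice.1 hl) j
      have h2 := hsl k₀ hk₀
      have h3 : B.d n ^ ε * ((G n).L.card : ℝ) ≤ B.d n ^ ε * B.d n ^ (-ν 0 - (D + 1) * ε) := by
        refine h2.trans (h1.trans (le_of_eq ?_))
        rw [← rpow_add']; congr 1; ring
      exact le_of_mul_le_mul_left h3 (hpow _)
    rw [νr]
    refine last_F H (R0 := R0) (s := s) (s' := s') (XJ := (J : ℝ) * hh - D ^ 2 * ε)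
      (c2 := g y y + hh) hI0 hi hyR hh0 (by linarith) hμ4 (by linarith) ?_ ?_
      (fun T hT hTN => hcells k₀ i₀ i hI0 hi T hT hTN) hadd (hlowS i₀ k₀ hI0) hL hc8
      (mem_filter.1 hiE).2.2 hexp
    · have : s = Kk * hh + hh := by rw [hs]; ring
      linarith
    · have : s = Kk * hh + hh := by rw [hs]; ring
      linarith

end Crest.Agent.R136.NsF544
end

-- ▼ part R136/NsF7_544
section

/-!
# R136, row F, double resonance, part 7 (helper544): `kappa_one_F`, `kappa_one_Fw`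

* `no_slope_F`.
* `kappa_one_F` : `K1F` with `dl` small is contradictory when `a < σ`.
* `K1Fw` : the same data with the frozen slots at depth `lam * y`; `kappa_one_Fw`.
-/

set_option autoImplicit false
set_option linter.unusedVariables false
set_option linter.unusedSectionVars false

open Filter Topology Finset

namespace Crest.Agent.R136.NsF544

open Crest.Agent.R138.Ex926 (Base U)
open Crest.Agent.R136.Gf356
open Crest.Agent.R136.CD366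
open Crest.Agent.R136.C1s940 (K3w K3core_w)
open Crest.Agent.R136.Fe1355 (RawTw shift_R)

section

variable {κ : Type} [DecidableEq κ] {B : Base} {G : ℕ → RCfg κ} {Leg : Set (κ → ℝ)}
  {ν : (κ → ℝ) → ℝ} {σ R D : ℝ} {Fz : Finset κ} {sN sP sX sC : κ} {f : ℕ → ℕ → ℝ}
  {R0 C1 a dl m : ℝ} {g : ℝ → ℝ → ℝ} {β : ℝ → ℝ → ℝ} {γ : ℝ → ℝ → ℝ} {γ0 : ℝ → ℝ}

/-- **no sloped strips** -/
theorem no_slope_F (H : RModel B G σ R Leg ν D)
    (K : K1F B G Leg ν Fz sN sP sX sC f R0 C1 a dl m g β γ γ0) (hR0 : R0 ≤ R) (ha : a < σ)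
    (J Kk : ℕ) {κ1 : ℝ} (hκ0 : 0 < κ1) (hκm : κ1 ≤ m / 8) (hκσ : κ1 ≤ σ / 8)
    (hA : dl * ((J : ℝ) + Kk) + 4 ≤ (σ - a) * ((Kk : ℝ) - 1))
    (hB : dl * ((J : ℝ) + Kk) + Kk + 6 ≤ κ1 * ((J : ℝ) + Kk)) :
    ∃ η₁ : ℝ, 0 < η₁ ∧ ∀ y, 0 < y → y ≤ R0 → ¬ ∀ᶠ n in (U : Filter ℕ), ∃ Z' ⊆ (G n).Z,
      Z'.Nonempty ∧ B.d n ^ (η₁ * y) * ((G n).Z.card : ℝ) ≤ Z'.card ∧
      ∃ μ : ℝ, B.d n ^ (η₁ * y) ≤ |μ| ∧
      ∀ k ∈ Z', ∀ k' ∈ Z', |f n k' - f n k - μ * ((G n).z k' - (G n).z k)| ≤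
        2 * B.d n ^ y := by
  have ha0 := K.a0
  have hdl0 := K.dl0
  have hσ0 : 0 < σ := ha0.trans_lt ha
  have hσ1 := H.σ_le
  have hD := H.D1
  have hD0 : 0 < D := by linarith
  have hC1 := K.C1_one
  have hC10 : 0 < C1 := by linarith
  have hm := K.m_pos
  have hκ1 : κ1 ≤ 1 / 8 := by linarith
  have hK0 : (0 : ℝ) ≤ Kk := Nat.cast_nonneg _
  have hJ0 : (0 : ℝ) ≤ J := Nat.cast_nonneg _
  obtain ⟨N, hN⟩ : ∃ N : ℝ, N = (J : ℝ) + Kk := ⟨_, rfl⟩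
  rw [← hN] at hA hB
  have hN0 : 0 ≤ N := by rw [hN]; positivity
  have hdN : 0 ≤ dl * N := mul_nonneg hdl0 hN0
  have hK2' : (2 : ℝ) < Kk := by
    have h1 : σ - a ≤ 1 := by linarith
    have h2 : (4 : ℝ) ≤ (σ - a) * ((Kk : ℝ) - 1) := by linarith
    have h3 : 0 < (Kk : ℝ) - 1 := by
      by_contra hcon
      have : (σ - a) * ((Kk : ℝ) - 1) ≤ 0 :=
        mul_nonpos_of_nonneg_of_nonpos (by linarith) (by linarith)
      linarith
    have h4 : (σ - a) * ((Kk : ℝ) - 1) ≤ 1 * ((Kk : ℝ) - 1) :=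
      mul_le_mul_of_nonneg_right h1 h3.le
    linarith
  have hK2 : 2 ≤ Kk := by exact_mod_cast hK2'.le
  have hN8 : 8 * ((Kk : ℝ) + 6) ≤ N := by
    have h1 : κ1 * N ≤ 1 / 8 * N := mul_le_mul_of_nonneg_right hκ1 hN0
    linarith
  have hJ1' : (1 : ℝ) < J := by linarith
  have hJ1 : 1 ≤ J := by exact_mod_cast hJ1'.le
  have hNpos : 0 < N := by linarith
  obtain ⟨A, hA'⟩ : ∃ A : ℝ, A = C1 * D ^ 7 + 1 := ⟨_, rfl⟩
  obtain ⟨Ct, hCt⟩ : ∃ Ct : ℝ, Ct = (D ^ 2 + 1) * (C1 * D ^ 2) + D * D ^ 2 + 2 + 2 * D + 14 :=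
    ⟨_, rfl⟩
  obtain ⟨C6, hC6⟩ : ∃ C6 : ℝ, C6 = D ^ 6 + 2 * D ^ 2 + 1 := ⟨_, rfl⟩
  have hA0 : 0 < A := by rw [hA']; positivity
  have hCt0 : 0 < Ct := by rw [hCt]; positivity
  have hC60 : 0 < C6 := by rw [hC6]; positivity
  have hq0 : 0 ≤ 64 / σ := by positivity
  obtain ⟨E, hE⟩ : ∃ E : ℝ, E = Ct + 16 * A + C6 + 2 * D + 16 + 64 / σ := ⟨_, rfl⟩
  have hE0 : 0 < E := by rw [hE]; positivity
  refine ⟨1 / (N * E), by positivity, fun y hy hyR Hy => ?_⟩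
  obtain ⟨hh, hhh⟩ : ∃ hh : ℝ, hh = y / N := ⟨_, rfl⟩
  have hh0 : 0 < hh := by rw [hhh]; positivity
  have hyh : N * hh = y := by rw [hhh]; field_simp
  obtain ⟨ε, hε⟩ : ∃ ε : ℝ, ε = hh / E := ⟨_, rfl⟩
  have hεp : 0 < ε := by rw [hε]; positivity
  have hεy : 1 / (N * E) * y = ε := by
    rw [hε, hhh]; field_simp
  rw [hεy] at Hy
  have hεh : E * ε = hh := by rw [hε]; field_simp
  have hsub : ∀ c : ℝ, c ≤ E → c * ε ≤ hh := by
    intro c hc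
    rw [← hεh]
    exact mul_le_mul_of_nonneg_right hc hεp.le
  have hA7 : D ^ 2 ≤ A := by
    have h1 : D ^ 2 ≤ D ^ 7 := pow_le_pow_right₀ hD (by norm_num)
    have h2 : 1 * D ^ 7 ≤ C1 * D ^ 7 := mul_le_mul_of_nonneg_right hC1 (by positivity)
    rw [hA']; linarith
  have hε1 : Ct * ε ≤ hh := hsub _ (by rw [hE]; linarith)
  have hε2 : 16 * A * ε ≤ hh := hsub _ (by rw [hE]; linarith)
  have hε3 : (C6 + 2 * D + 16) * ε ≤ hh := hsub _ (by rw [hE]; linarith)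
  have hε16 : 16 * ε ≤ hh := hsub _ (by rw [hE]; linarith)
  have hε6 : (D + 6) * ε ≤ hh := hsub _ (by rw [hE]; linarith)
  have hε4 : 64 * ε ≤ σ * hh := by
    have h1 : 64 / σ * ε ≤ hh := hsub _ (by rw [hE]; linarith)
    have h2 : σ * (64 / σ * ε) = 64 * ε := by field_simp
    rw [← h2]
    exact mul_le_mul_of_nonneg_left h1 hσ0.le
  have hD2h : 16 * (D ^ 2 * ε) ≤ hh := by
    refine le_trans ?_ hε2
    have := mul_le_mul_of_nonneg_right hA7 hεp.le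
    linarith
  have hyy : (0 : ℝ) ≤ y := hy.le
  have hN8h : 8 * (((Kk : ℝ) + 6) * hh) ≤ y := by
    rw [← hyh]
    have := mul_le_mul_of_nonneg_right hN8 hh0.le
    linarith
  have hKh0 : 0 ≤ (Kk : ℝ) * hh := by positivity
  have hdNh : 0 ≤ dl * N * hh := by positivity
  have hBh : (dl * N + Kk + 6) * hh ≤ κ1 * y := by
    rw [← hyh]
    have := mul_le_mul_of_nonneg_right hB hh0.le
    linarith
  obtain ⟨s, hs⟩ : ∃ s : ℝ, s = ((Kk : ℝ) + 1) * hh := ⟨_, rfl⟩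
  obtain ⟨s', hs'⟩ : ∃ s' : ℝ, s' = (dl * N + Kk + 2) * hh := ⟨_, rfl⟩
  obtain ⟨s1, hs1⟩ : ∃ s1 : ℝ, s1 = (dl * N + Kk + 4) * hh / σ := ⟨_, rfl⟩
  have hs10 : 0 < s1 := by rw [hs1]; positivity
  have hσs1 : σ * s1 = (dl * N + Kk + 4) * hh := by rw [hs1]; field_simp
  have e4 : (dl * N + Kk + 4) * hh = (dl * N + Kk + 6) * hh - 2 * hh := by ring
  have e2 : (dl * N + Kk + 2) * hh = (dl * N + Kk + 6) * hh - 4 * hh := by ring
  have hs1y : s1 ≤ y / 8 := by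
    have h1 : σ * s1 ≤ σ * (y / 8) := by
      rw [hσs1]
      have h2 : κ1 * y ≤ σ / 8 * y := mul_le_mul_of_nonneg_right hκσ hyy
      linarith
    exact le_of_mul_le_mul_left h1 hσ0
  have hsy : s + 5 * hh ≤ y / 8 := by
    have : ((Kk : ℝ) + 1) * hh = ((Kk : ℝ) + 6) * hh - 5 * hh := by ring
    rw [hs, this]; linarith
  refine no_slope_F1 (s := s) (s' := s') (s1 := s1) H K hR0 ha J Kk hJ1 hK2
    (by rw [← hN]; exact hA) hA' hC6 hCt hy hyR hh0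
    (by rw [← hN]; exact hyh) hεp hε1 hε2 hε3 hε4 hD2h hs (by rw [← hN]; exact hs') hs10
    (by linarith) ?_ ?_ ?_ Hy
  · rw [hσs1, hs', e2, e4]; linarith
  · linarith
  · have h1 : s' + (D + 6) * ε ≤ κ1 * y := by
      rw [hs', e2]
      linarith
    have h3 : κ1 * y ≤ m / 8 * y := mul_le_mul_of_nonneg_right hκm hyy
    have h4 : m * (y / 2) ≤ m * (y - s - s1 - 2 * ε) :=
      mul_le_mul_of_nonneg_left (by linarith) hm.le
    have h5 : 0 ≤ m * y := by positivity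
    linarith

/-- choice of the number of levels -/
theorem levels {σ a κ1 dl : ℝ} (ha : a < σ) (h1 : σ - a ≤ 1) (hκ0 : 0 < κ1) (hκ1 : κ1 ≤ 1)
    (hdl0 : 0 ≤ dl) (hdl : dl ≤ κ1 * (σ - a) / 8) : ∃ J Kk : ℕ,
      dl * ((J : ℝ) + Kk) + 4 ≤ (σ - a) * ((Kk : ℝ) - 1) ∧
      dl * ((J : ℝ) + Kk) + Kk + 6 ≤ κ1 * ((J : ℝ) + Kk) := by
  have hd : 0 < σ - a := by linarith
  obtain ⟨Nn, hNn⟩ : ∃ Nn : ℕ, (4 / (σ - a) + 10) * 2 / κ1 < Nn := exists_nat_gt _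
  rw [div_lt_iff₀ hκ0] at hNn
  have hNn0 : (0 : ℝ) ≤ Nn := Nat.cast_nonneg _
  have hq : 0 < 4 / (σ - a) := by positivity
  obtain ⟨T, hT⟩ : ∃ T : ℝ, T = (dl * Nn + 4) / (σ - a) := ⟨_, rfl⟩
  have hT0 : 0 ≤ T := by rw [hT]; positivity
  have hTe : (σ - a) * T = dl * Nn + 4 := by rw [hT]; field_simp
  have hc1 : T ≤ (⌈T⌉₊ : ℝ) := Nat.le_ceil _
  have hc2 : (⌈T⌉₊ : ℝ) < T + 1 := Nat.ceil_lt_add_one hT0
  have hTu : T ≤ κ1 * Nn / 8 + 4 / (σ - a) := by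
    have h2 : dl * Nn ≤ κ1 * (σ - a) / 8 * Nn := mul_le_mul_of_nonneg_right hdl hNn0
    have h3 : (σ - a) * T ≤ (σ - a) * (κ1 * Nn / 8 + 4 / (σ - a)) := by
      rw [hTe, mul_add, mul_div_cancel₀ _ hd.ne']
      linarith
    exact le_of_mul_le_mul_left h3 hd
  have hdlN : dl * Nn ≤ κ1 * Nn / 8 := by
    have h2 : dl * Nn ≤ κ1 * (σ - a) / 8 * Nn := mul_le_mul_of_nonneg_right hdl hNn0
    have h3 : κ1 * (σ - a) / 8 * Nn ≤ κ1 * 1 / 8 * Nn := by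
      refine mul_le_mul_of_nonneg_right ?_ hNn0
      have := mul_le_mul_of_nonneg_left h1 hκ0.le
      linarith
    linarith
  have hκN : κ1 * Nn ≤ 1 * Nn := mul_le_mul_of_nonneg_right hκ1 hNn0
  have hle : ⌈T⌉₊ + 1 ≤ Nn := by
    have : ((⌈T⌉₊ + 1 : ℕ) : ℝ) ≤ Nn := by
      push_cast
      linarith
    exact_mod_cast this
  refine ⟨Nn - (⌈T⌉₊ + 1), ⌈T⌉₊ + 1, ?_, ?_⟩
  · have e1 : ((Nn - (⌈T⌉₊ + 1) : ℕ) : ℝ) + ((⌈T⌉₊ + 1 : ℕ) : ℝ) = Nn := by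
      rw [Nat.cast_sub hle]; ring
    rw [e1]
    push_cast
    have := mul_le_mul_of_nonneg_left hc1 hd.le
    linarith
  · have e1 : ((Nn - (⌈T⌉₊ + 1) : ℕ) : ℝ) + ((⌈T⌉₊ + 1 : ℕ) : ℝ) = Nn := by
      rw [Nat.cast_sub hle]; ring
    rw [e1]
    push_cast
    linarith

/-- monotonicity of `β` -/
theorem K1F.mono (H : RModel B G σ R Leg ν D)
    (K : K1F B G Leg ν Fz sN sP sX sC f R0 C1 a dl m g β γ γ0) {t : ℝ} (ht : 0 ≤ t)
    (hty : t ≤ R0) : t ≤ β t t := by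
  have h2 := H.nu_anti (p := bx Fz sN sP sX sC t 0 0 t 0) (p' := bx Fz sN sP sX sC t 0 t t 0)
    (K.leg t 0 0 t 0 ht hty le_rfl ht le_rfl ht ht le_rfl le_rfl ht)
    (K.leg t 0 t t 0 ht hty le_rfl ht ht le_rfl ht le_rfl le_rfl ht)
    (fun s => bx_mono le_rfl le_rfl ht le_rfl le_rfl s)
  rw [K.nu t 0 0 t 0 ht hty le_rfl ht le_rfl ht ht le_rfl le_rfl ht,
    K.nu t 0 t t 0 ht hty le_rfl ht ht le_rfl ht le_rfl le_rfl ht] at h2
  have h3 := K.X_full t ht hty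
  linarith

/-- `K3w` out of `K1F` -/
theorem K1F.toK3w (H : RModel B G σ R Leg ν D)
    (K : K1F B G Leg ν Fz sN sP sX sC f R0 C1 a dl m g β γ γ0)
    (htw : RawTw B G fun n k k' => f n k' - f n k) (ha1 : a < 1) (hdl : 4 * dl ≤ 1 - a) :
    K3w B G Leg ν Fz sN sP sX sC f R0 C1 (a + dl) ((1 - a) / 2) := by
  have hR := K.R0_pos
  have b00 := K.b00
  refine ⟨hR, K.C1_one, by linarith, K.NP, K.NX, K.NC, K.PX, K.PC, K.XC, K.leg, K.bd, K.ev, ?_,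
    ?_, ?_⟩
  · intro y hy0 hy
    rw [K.nu y y 0 0 0 hy0 hy hy0 le_rfl le_rfl hy0 le_rfl hy0 le_rfl hy0, b00, K.gy0 hy0 hy]
    have := K.g_up y hy0 hy
    linarith
  · intro y t ht hty hy
    have hy0 : 0 ≤ y := ht.trans hty
    rw [K.nu y t t 0 0 hy0 hy ht hty ht hty le_rfl hy0 le_rfl hy0, K.gy0 hy0 hy]
    have h1 := K.g_low y t ht hty hy
    have h2 := K.shift H htw ht (hty.trans hy)
    have h3 := K.mono H ht (hty.trans hy)
    have h4 := K.g_up t ht (hty.trans hy)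
    have h5 : dl * t * 4 ≤ (1 - a) * t := by
      have := mul_le_mul_of_nonneg_right hdl ht
      linarith
    linarith
  · intro t ht htR
    rw [K.nu R0 R0 0 0 R0 hR.le le_rfl hR.le le_rfl le_rfl hR.le le_rfl hR.le hR.le le_rfl,
      K.nu R0 R0 t t R0 hR.le le_rfl hR.le le_rfl ht htR ht htR hR.le le_rfl, b00]
    have h3 := K.mono H ht htR
    have h5 : dl * t * 4 ≤ (1 - a) * t := by
      have := mul_le_mul_of_nonneg_right hdl ht
      linarith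
    have h6 : 0 ≤ (1 - a) * t := mul_nonneg (by linarith) ht
    linarith

end

/-- **`kappa_one_F`** -/
theorem kappa_one_F {σ a m : ℝ} (ha0 : 0 ≤ a) (ha : a < σ) (hσ1 : σ ≤ 1) (hm : 0 < m) :
    ∃ dl0 : ℝ, 0 < dl0 ∧ ∀ dl : ℝ, dl ≤ dl0 → ∀ {κ : Type} [DecidableEq κ] {B : Base}
      {G : ℕ → RCfg κ} {Leg : Set (κ → ℝ)} {ν : (κ → ℝ) → ℝ} {R D : ℝ} {Fz : Finset κ}
      {sN sP sX sC : κ} {f : ℕ → ℕ → ℝ} {R0 C1 : ℝ} {g : ℝ → ℝ → ℝ} {β : ℝ → ℝ → ℝ}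
      {γ : ℝ → ℝ → ℝ} {γ0 : ℝ → ℝ}, RModel B G σ R Leg ν D →
      K1F B G Leg ν Fz sN sP sX sC f R0 C1 a dl m g β γ γ0 →
      RawTw B G (fun n k k' => f n k' - f n k) → R0 ≤ R → False := by
  have hσ0 : 0 < σ := ha0.trans_lt ha
  have hd : 0 < σ - a := by linarith
  obtain ⟨κ1, hκ1⟩ : ∃ κ1 : ℝ, κ1 = min m σ / 8 := ⟨_, rfl⟩
  have hκ0 : 0 < κ1 := by
    rw [hκ1]
    have := lt_min hm hσ0
    positivity
  have hκm : κ1 ≤ m / 8 := by rw [hκ1]; linarith [min_le_left m σ]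
  have hκσ : κ1 ≤ σ / 8 := by rw [hκ1]; linarith [min_le_right m σ]
  have hκ8 : κ1 ≤ 1 / 8 := by linarith
  refine ⟨κ1 * (σ - a) / 8, by positivity, ?_⟩
  intro dl hdl κ _ B G Leg ν R D Fz sN sP sX sC f R0 C1 g β γ γ0 H K htw hR0
  have hdl0 := K.dl0
  have hdl8 : dl ≤ (σ - a) / 64 := by
    have h1 : κ1 * (σ - a) ≤ 1 / 8 * (σ - a) := mul_le_mul_of_nonneg_right hκ8 hd.le
    linarith
  have hK3 := K.toK3w H htw (ha.trans_le hσ1) (by linarith)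
  have key := K3core_w H hK3 hR0 (fun _ => by
    obtain ⟨J, Kk, hA, hB⟩ := levels ha (by linarith) hκ0 (by linarith) hdl0 hdl
    exact no_slope_F H K hR0 ha J Kk hκ0 hκm hκσ hA hB)
  linarith

end Crest.Agent.R136.NsF544
end

-- ▼ part R136/NsF8_544
section

/-!
# R136, row F, double resonance, part 8 (helper544): `kappa_one_F` for a linear loss (`dl = 0`)
-/

set_option autoImplicit false
set_option linter.unusedVariables false

open Filter Topology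

namespace Crest.Agent.R136.NsF544

open Crest.Agent.R138.Ex926 (Base U)
open Crest.Agent.R136.Gf356
open Crest.Agent.R136.Fe1355 (RawTw)

/-- **linear loss**: `σ ≤ a` -/
theorem kappa_one_lin {κ : Type} [DecidableEq κ] {B : Base} {G : ℕ → RCfg κ}
    {Leg : Set (κ → ℝ)} {ν : (κ → ℝ) → ℝ} {σ R D : ℝ} {Fz : Finset κ} {sN sP sX sC : κ}
    {f : ℕ → ℕ → ℝ} {R0 C1 a m : ℝ} {g : ℝ → ℝ → ℝ} {β γ : ℝ → ℝ → ℝ} {γ0 : ℝ → ℝ}
    (H : RModel B G σ R Leg ν D)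
    (K : K1F B G Leg ν Fz sN sP sX sC f R0 C1 a 0 m g β γ γ0)
    (htw : RawTw B G fun n k k' => f n k' - f n k) (hR0 : R0 ≤ R) : σ ≤ a := by
  by_contra hcon
  push Not at hcon
  obtain ⟨dl0, hdl0, h⟩ := kappa_one_F K.a0 hcon H.σ_le K.m_pos
  exact h 0 hdl0.le H K htw hR0

end Crest.Agent.R136.NsF544
end

-- ▼ part R136/LadF_115
section

/-!
# R136, case F of the thick table (helper115)

The ladder of 511 (`ladder_FL`), the rung `F_b` (683 `F1_fl`), the rung `F_a, P` (146 `F2_fl`).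
-/

set_option autoImplicit false
set_option linter.unusedVariables false
set_option linter.unusedSectionVars false

open Finset Filter Topology

namespace Crest.Agent.R136.LadF115

open Crest.Agent.R138.Ex926 (Base U IsTan)
open Crest.Agent.R136.Net191
open Crest.Agent.R136.NetQ186
open Crest.Agent.R136.Wq638
open Crest.Agent.R136.NatT550
open Crest.Agent.R136.Top484
open Crest.Agent.R136.LdF511
open Crest.Agent.R136.LdF3511
open Crest.Agent.R136.LdF7511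
open Crest.Agent.R136.LdFa511
open Crest.Agent.R136.LdFb511
open Crest.Agent.R136.Dl667
open Crest.Agent.R136.TopB550

variable {η : ℝ} {p : Par4} {D : Dat4} {I1 : ℕ → Finset (ℕ × ℝ)} {π : Equiv.Perm (Fin 3)}
  {eE fA fB : ℕ → ℕ × ℝ → ℝ} {V T : Fin 11 → Prop} {w0 R T0 : ℝ} {PD : Set (Fin 11 → ℝ)}
  {ν own : (Fin 11 → ℝ) → ℝ} {c₀ : ℝ} {x b : Fin 11 → ℝ}

theorem kap_pos (h : Thick η p D I1 π eE fA fB V T w0 R T0 PD ν own c₀) (h2 : V 2) :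
    0 < p.θ 1 - p.θ 2 := by
  have := (h.tp.slots.vis 2 h2).2
  simpa [btQ] using this

/-- **case F of the table** from `XbN` -/
theorem caseF_of_xbN (hη : η ≤ 1 / 8) (hX : ∀ (p : Par4) (D : Dat4) (I1 : ℕ → Finset (ℕ × ℝ))
    (π : Equiv.Perm (Fin 3)) (eE fA fB : ℕ → ℕ × ℝ → ℝ) (V T : Fin 11 → Prop) (w0 R T0 : ℝ)
    (PD : Set (Fin 11 → ℝ)) (ν own : (Fin 11 → ℝ) → ℝ) (c₀ : ℝ),
    Thick η p D I1 π eE fA fB V T w0 R T0 PD ν own c₀ → pF p V →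
    XbN D I1 (couQ D.B D.lev D.w w0 (incQ π D.L eE fA fB)) p V T (fun _ => 1) (rhoF p.θ)) :
    Dead η pF := by
  intro p D I1 π eE fA fB V T w0 R T0 PD ν own c₀ h hp
  have hx := hX p D I1 π eE fA fB V T w0 R T0 PD ν own c₀ h hp
  obtain ⟨h2, h3, h4, h01, h02⟩ := hp
  have hκ := kap_pos h h2
  have hg := h.tp.ok.g0.1
  exact caseF_of h hη (v := 1 / 2) (by norm_num) (by norm_num) hκ h02 h2 h3 h4
    (g1 := p.g / 2) (by linarith)
    (fun lam lo H => LdF5683.F1_fl h hη (by norm_num) (by norm_num) hκ h02 h2 h3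
      (fun h4' => absurd h4' h4) (qdOk h.tp.slots ∅) H)
    (x := fun _ => 1) (b := rhoF p.θ) one_pos (fun _ _ => rfl)
    (LdF6146.nClaim h hκ h01 h3 h4 one_pos fun _ _ => rfl) hx

/-- **case F of the table** from the double resonance `KappaF` -/
theorem caseF_of_kappa (hη : η ≤ 1 / 8) (KF : LdX403.KappaF) : Dead η pF :=
  caseF_of_xbN hη fun p D I1 π eE fA fB V T w0 R T0 PD ν own c₀ h hp =>
    LdX403.xbN_of KF h (kap_pos h hp.1) hp.1 hp.2.1 hp.2.2.1 one_pos fun _ _ => rfl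

/-- the double resonance (544) -/
theorem kappaF : LdX403.KappaF := fun B G Leg ν D f a m β γ γ0 H K htw =>
  NsF544.kappa_one_lin H K htw le_rfl

/-- **CASE F OF THE THICK TABLE** -/
theorem caseF (hη : η ≤ 1 / 8) : Dead η pF := caseF_of_kappa hη kappaF

end Crest.Agent.R136.LadF115
end

-- ▼ part R136/F2k1_569
section

/-!
# R136, case F at `θ0 = θ2` (helper569): `X_b` is exact given `N`, part 1: the model

* `bk` : boxes with `C_a, C_b, P, X_a, X_b, N`; `EvK` : evolution (no own motion of `F_a`, `F_b`);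
* `NK` : window with level slots `z, E, F_a`, in which `F_a` and `F_b` do not move;
* `NK.xfull` : `X_a` is full given `P, N`;
* `NK.kone` : 366's `kappa_one_R` with `P, N` frozen, every coupling of `C_b` and `X_a`;
* `nk_of_ato` : producer from 356's offset windows.
-/

set_option autoImplicit false
set_option linter.unusedVariables false
set_option linter.unusedSectionVars false

open Filter Topology Finset

namespace Crest.Agent.R136.F2k569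

open Crest.Agent.R138.Ex926 (Base U)
open Crest.Agent.R136.Gf356
open Crest.Agent.R136.Fe1355
open Crest.Agent.R136.Fe2355
open Crest.Agent.R136.Xb403 (EvE)

/-- box vector: `C_a, C_b, P, X_a, X_b, N` -/
def bk (ca cb p xa xb n : ℝ) : Fin 11 → ℝ := ![0, 0, 0, 0, 0, ca, cb, p, xa, xb, n]

/-- evolution, `F_a` and `F_b` do not move -/
structure EvK (δ u φ : ℝ) (r r' : Fin 11 → ℝ) : Prop extends EvE δ u φ r r' where
  e7 : |r' 7 - r 7| ≤ δ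
  e10 : |r' 10 - (r 10 + u * r 7)| ≤ δ

/-- **window with level slots `z`, `E`, `F_a`** -/
structure NK (B : Base) (G : ℕ → RCfg (Fin 11)) (Leg : Set (Fin 11 → ℝ))
    (ν : (Fin 11 → ℝ) → ℝ) (T D : ℝ) (f : ℕ → ℕ → ℝ) : Prop where
  H : RModel B G 1 T Leg ν D
  T0 : 0 < T
  leg : ∀ ca cb p xa xb n : ℝ, 0 ≤ ca → ca ≤ T → 0 ≤ cb → cb ≤ T → 0 ≤ p → p ≤ T → 0 ≤ xa →
    xa ≤ T → 0 ≤ xb → xb ≤ T → 0 ≤ n → n ≤ T → bk ca cb p xa xb n ∈ Leg
  zb : ∀ᶠ n in (U : Filter ℕ), ∀ k ∈ (G n).Z, |(G n).z k| ≤ 1 ∧ |f n k| ≤ 1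
  rb : ∀ᶠ n in (U : Filter ℕ), ∀ k i l, (i, k) ∈ (G n).I → (l, k) ∈ (G n).I → ∀ s,
    |(G n).rel k i l s| ≤ 1
  ev : ∀ ε : ℝ, 0 < ε → ∀ᶠ n in (U : Filter ℕ), ∀ k k' i l, (i, k) ∈ (G n).I →
    (l, k) ∈ (G n).I → (i, k') ∈ (G n).I → (l, k') ∈ (G n).I →
    EvK (B.d n ^ (T - ε)) ((G n).z k' - (G n).z k) (f n k' - f n k) ((G n).rel k i l)
      ((G n).rel k' i l)

variable {B : Base} {G : ℕ → RCfg (Fin 11)} {Leg : Set (Fin 11 → ℝ)} {ν : (Fin 11 → ℝ) → ℝ}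
  {T D : ℝ} {f : ℕ → ℕ → ℝ}

theorem bk_X (y x c : ℝ) : Fx940.bx2 (bk 0 0 y 0 0 y) 8 5 x c = bk c 0 y x 0 y := by
  funext j
  fin_cases j <;> simp [Fx940.bx2, bk]

theorem bk_bx (y n p x c : ℝ) : CD366.bx {7, 10} 9 6 8 5 y n p x c = bk c p y x n y := by
  funext j
  fin_cases j <;> simp [CD366.bx, bk]

namespace NK

variable (h : NK B G Leg ν T D f)

include h

theorem leg' {ca cb p xa xb n : ℝ} (h1 : 0 ≤ ca ∧ ca ≤ T) (h2 : 0 ≤ cb ∧ cb ≤ T)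
    (h5 : 0 ≤ p ∧ p ≤ T) (h3 : 0 ≤ xa ∧ xa ≤ T) (h4 : 0 ≤ xb ∧ xb ≤ T) (h6 : 0 ≤ n ∧ n ≤ T) :
    bk ca cb p xa xb n ∈ Leg :=
  h.leg ca cb p xa xb n h1.1 h1.2 h2.1 h2.2 h5.1 h5.2 h3.1 h3.2 h4.1 h4.2 h6.1 h6.2

/-- bounds of the differences -/
theorem db : ∀ᶠ n in (U : Filter ℕ), ∀ k ∈ (G n).Z, ∀ k' ∈ (G n).Z,
    |(G n).z k' - (G n).z k| ≤ 2 ∧ |f n k' - f n k| ≤ 2 := by
  filter_upwards [h.zb] with n hn k hk k' hk'
  constructor
  · refine (abs_sub _ _).trans ?_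
    linarith [(hn k hk).1, (hn k' hk').1]
  · refine (abs_sub _ _).trans ?_
    linarith [(hn k hk).2, (hn k' hk').2]

/-- frozen `P, N` stay frozen -/
theorem stay {y C' : ℝ} (hy : 0 ≤ y) (hyT : y ≤ T) (hC' : 0 < C') {ε : ℝ} (hε : 0 < ε) :
    ∀ᶠ n in (U : Filter ℕ), ∀ k k' i l, (i, k) ∈ (G n).I → (l, k) ∈ (G n).I →
      (i, k') ∈ (G n).I → (l, k') ∈ (G n).I → (G n).loose (bk 0 0 y 0 0 y) (C' * ε) k i l →
      (G n).loose (bk 0 0 y 0 0 y) ((C' + 2) * ε) k' i l := by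
  filter_upwards [h.ev ε hε, h.rb, h.db, ev_const_le B hε 4] with n hev hrb hdb h4
    k k' i l h1 h2 h3 h4' hlo j
  obtain ⟨hu, -⟩ := hdb k (h.H.memZ h1) k' (h.H.memZ h3)
  have E := hev k k' i l h1 h2 h3 h4'
  have g7 := hlo 7
  have g10 := hlo 10
  rw [h.H.base n] at g7 g10 ⊢
  have v7 : bk 0 0 y 0 0 y 7 = y := by simp [bk]
  have v10 : bk 0 0 y 0 0 y 10 = y := by simp [bk]
  rw [v7] at g7
  rw [v10] at g10
  have hCε : 0 < C' * ε := by positivity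
  set b := B.d n ^ (y - (C' + 1) * ε) with hb
  have hb0 : 0 < b := rpos B n _
  have k1 : B.d n ^ (T - ε) ≤ b := rpow_anti B n (by nlinarith)
  have k2 : B.d n ^ (y - C' * ε) ≤ b := rpow_anti B n (by nlinarith)
  have hA : b * 4 ≤ B.d n ^ (y - (C' + 2) * ε) := by
    have e1 : B.d n ^ (y - (C' + 2) * ε) = B.d n ^ (-ε) * b := by
      rw [hb, ← rpow_add']; congr 1; ring
    rw [e1]
    nlinarith
  set r := (G n).rel k i l
  set r' := (G n).rel k' i l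
  have hz : ∀ j, bk 0 0 y 0 0 y j = 0 → |r' j| ≤ B.d n ^ (bk 0 0 y 0 0 y j - (C' + 2) * ε) := by
    intro j hj
    rw [hj]
    refine (hrb k' i l h3 h4' j).trans ?_
    have : (1 : ℝ) ≤ B.d n ^ (-ε) := by linarith
    exact this.trans (rpow_anti B n (by nlinarith))
  by_cases j7 : j = 7
  · subst j7
    rw [v7]
    have e : r' 7 = (r' 7 - r 7) + r 7 := by ring
    rw [e]
    have := abs_add_le (r' 7 - r 7) (r 7)
    linarith [E.e7.trans k1, g7.trans k2]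
  by_cases j10 : j = 10
  · subst j10
    rw [v10]
    have e : r' 10 = (r' 10 - (r 10 + ((G n).z k' - (G n).z k) * r 7)) + r 10 +
        ((G n).z k' - (G n).z k) * r 7 := by ring
    rw [e]
    have t1 := abs_add_le (r' 10 - (r 10 + ((G n).z k' - (G n).z k) * r 7) + r 10)
      (((G n).z k' - (G n).z k) * r 7)
    have t2 := abs_add_le (r' 10 - (r 10 + ((G n).z k' - (G n).z k) * r 7)) (r 10)
    have t3 : |((G n).z k' - (G n).z k) * r 7| ≤ 2 * b := by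
      rw [abs_mul]; exact mul_le_mul hu (g7.trans k2) (abs_nonneg _) (by norm_num)
    linarith [E.e10.trans k1, g10.trans k2]
  · refine hz j ?_
    fin_cases j <;> simp [bk] at j7 j10 ⊢

/-- **`X_a` is full given `P, N`** -/
theorem xfull {y t m : ℝ} (ht : 0 ≤ t) (hty : t ≤ y) (hyT : y ≤ T) (hm : 0 < m)
    (hs : ∀ x : ℝ, 0 ≤ x → x ≤ t → m * x ≤ ν (bk 0 0 y x 0 y) - ν (bk x 0 y x 0 y))
    (hl : ∀ x : ℝ, 0 ≤ x → x ≤ t → ν (bk 0 0 y x 0 y) - ν (bk 0 0 y t 0 y) ≤ t - x) :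
    t ≤ ν (bk 0 0 y 0 0 y) - ν (bk 0 0 y t 0 y) := by
  rcases ht.eq_or_lt with h0 | h0
  · rw [← h0]; simp
  have hT := h.T0
  have hy : 0 ≤ y := ht.trans hty
  have z0 : (0 : ℝ) ≤ 0 ∧ (0 : ℝ) ≤ T := ⟨le_rfl, hT.le⟩
  have zy : (0 : ℝ) ≤ y ∧ y ≤ T := ⟨hy, hyT⟩
  have L : ∀ x x' : ℝ, 0 ≤ x → x ≤ T → 0 ≤ x' → x' ≤ T → bk x' 0 y x 0 y ∈ Leg :=
    fun x x' h1 h2 h3 h4 => h.leg' ⟨h3, h4⟩ z0 zy ⟨h1, h2⟩ z0 zy
  have htT : t ≤ T := hty.trans hyT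
  have key := full_nl_R h.H (sX := 8) (sC := 5) (by decide) (p := bk 0 0 y 0 0 y)
    (by simp [bk]) (by simp [bk]) (y := t) (C := 1) (m := m) h0 htT one_pos hm
    (L 0 0 le_rfl hT.le le_rfl hT.le)
    (by rw [bk_X]; exact L t 0 ht htT le_rfl hT.le)
    (by intro x h1 h2; rw [bk_X]; exact L x x h1 (h2.trans htT) h1 (h2.trans htT))
    (by
      intro C' hC'
      exact ⟨C' + 2, by linarith, fun ε hε => h.stay hy hyT hC' hε⟩)
    (by
      intro ε hε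
      filter_upwards [h.zb, ev_const_le B hε 2] with n hn h2 k hk k' hk'
      rw [one_mul]
      refine ((abs_sub _ _).trans ?_).trans h2
      linarith [(hn k hk).1, (hn k' hk').1])
    (by
      intro C' hC'
      refine ⟨1, one_pos, fun ε hε => ?_⟩
      filter_upwards [h.ev ε hε] with n hn k k' i l h1 h2 h3 h4 hlo
      exact (hn k k' i l h1 h2 h3 h4).e8.trans (rpow_anti B n (by linarith)))
    (by
      intro x h1 h2
      refine ⟨ν (bk 0 0 y x 0 y), ?_, ?_, ?_⟩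
      · rw [bk_X]; exact hs x h1 h2
      · rw [bk_X]; exact hl x h1 h2
      · refine h.H.nu_anti (L 0 0 le_rfl hT.le le_rfl hT.le)
          (L x 0 h1 (h2.trans htT) le_rfl hT.le) ?_
        intro j
        fin_cases j <;> simp [bk, h1])
  rwa [bk_X] at key

/-- **`X_b` is exact given `P, N`**, every coupling of `C_b` and `X_a` -/
theorem kone {a m : ℝ} {β : ℝ → ℝ → ℝ → ℝ} {γ : ℝ → ℝ} (hm : 0 < m)
    (htw : RawTw B G fun n k k' => f n k' - f n k)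
    (nu : ∀ ca cb y xa xb : ℝ, 0 ≤ ca → ca ≤ T → 0 ≤ cb → cb ≤ y → 0 ≤ y → y ≤ T → 0 ≤ xa →
      xa ≤ y → 0 ≤ xb → xb ≤ y →
      ν (bk ca cb y xa xb y) = ν (bk 0 0 y 0 0 y) - a * xb - β y cb xa - γ ca)
    (sh : ∀ y x t : ℝ, 0 ≤ x → x ≤ t → t ≤ y → y ≤ T → β y 0 t - β y 0 x ≤ t - x)
    (γ0 : γ 0 = 0) (Cr : ∀ t : ℝ, 0 ≤ t → t ≤ T → m * t ≤ γ t) : 1 ≤ a := by
  have hT := h.T0
  have Xf : ∀ y t : ℝ, 0 ≤ t → t ≤ y → y ≤ T → t ≤ β y 0 t := by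
    intro y t h1 h2 h3
    have hy : 0 ≤ y := h1.trans h2
    have e : ∀ x c, 0 ≤ x → x ≤ y → 0 ≤ c → c ≤ T →
        ν (bk c 0 y x 0 y) = ν (bk 0 0 y 0 0 y) - β y 0 x - γ c := by
      intro x c g1 g2 g3 g4
      rw [nu c 0 y x 0 g3 g4 le_rfl hy hy h3 g1 g2 le_rfl hy]; ring
    have key := h.xfull (y := y) (t := t) (m := m) h1 h2 h3 hm
      (by
        intro x g1 g2
        rw [e x 0 g1 (g2.trans h2) le_rfl hT.le, e x x g1 (g2.trans h2) g1 ((g2.trans h2).trans h3)]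
        have c1 := Cr x g1 ((g2.trans h2).trans h3)
        linarith)
      (by
        intro x g1 g2
        rw [e x 0 g1 (g2.trans h2) le_rfl hT.le, e t 0 h1 h2 le_rfl hT.le]
        have := sh y x t g1 g2 h2 h3
        linarith)
    rw [e t 0 h1 h2 le_rfl hT.le] at key
    linarith
  have K : CD366.K1 B G Leg ν {7, 10} 9 6 8 5 f T 4 a m (fun y p x => β y p x)
      (fun _ c => γ c) := by
    refine ⟨hT, by norm_num, hm, by decide, by decide, by decide, by decide, by decide, by decide,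
      ?_, h.zb, ?_, ?_, ?_, ?_⟩
    · intro y n p x c' hy hyT hn hny hp hpy hx hxy hc hcy
      rw [bk_bx]
      exact h.leg c' p y x n y hc (hcy.trans hyT) hp (hpy.trans hyT) hy hyT hx (hxy.trans hyT) hn
        (hny.trans hyT) hy hyT
    · intro y hy hyT ε hε
      filter_upwards [h.ev ε hε, h.stay hy hyT one_pos hε] with n hev hst k₀ k i i' hi hi' hk hk'
        hlo
      have E := hev k₀ k i i' hi hi' hk hk'
      rw [bk_bx] at hlo ⊢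
      refine ⟨h.H.loose_mono (fun _ => le_rfl) (by linarith)
        (hst k₀ k i i' hi hi' hk hk' (by rwa [one_mul])), ?_⟩
      exact E.e9.trans (rpow_anti B n (by linarith))
    · intro y n p x c' hy hyT hn hny hp hpy hx hxy hc hcy
      rw [bk_bx, bk_bx]
      exact nu c' p y x n hc (hcy.trans hyT) hp hpy hy hyT hx hxy hn hny
    · intro y t ht hty hyT
      exact Xf y t ht hty hyT
    · intro y t ht hty hyT
      exact Cr t ht (hty.trans hyT)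
  exact CD366.kappa_one_R h.H K htw le_rfl

end NK

/-! ### from 356's offset windows to `NK` -/

section prod

open Crest.Agent.R136.NetQ186 Crest.Agent.R136.Net191 Crest.Agent.R136.Qg926
open Crest.Agent.R136.Ev356 Crest.Agent.R136.Aw413
open Crest.Agent.R136.Wq400

variable {ι : ℕ → Type*} [∀ n, DecidableEq (ι n)] {W : Wnd 11 ι} {F : ∀ n, ι n → Fq4}
  {E : ∀ n, Finset (ι n)} {T : ℝ} {Ma : Mons 11}

/-- the walls used by the evolution -/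
structure MaK (Ma : Mons 11) : Prop where
  m256 : mv 2 5 ∈ Ma.mon 6
  m058 : mv 0 5 ∈ Ma.mon 8
  m069 : mv 0 6 ∈ Ma.mon 9
  m289 : mv 2 8 ∈ Ma.mon 9
  m0710 : mv 0 7 ∈ Ma.mon 10
  r : mv 0 1 ∉ Ma.mon 7

/-- the offset: `C_a, .., N : L`, `F_b, F_a : Y` -/
def cK (L Y : ℝ) : Fin 11 → ℝ := ![0, 0, 0, Y, Y, L, L, L, L, L, L]

/-- **`NK` in an offset window of 356's class `QAtO`** -/
theorem nk_of_ato {L Y : ℝ} (h : QAtO W F (cK L Y) Ma) (hM : MaK Ma) (hkz : W.kz = 0)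
    (hS : W.S = {0, 2, 4})
    (hc : ∀ᶠ n in (U : Filter ℕ), W.Good n ∧ E n ⊆ W.Cl n ∧ W.cfg E n = W.cfg0 n (E n))
    (T0 : 0 < T) (hTY : T ≤ Y) (ht : ∀ s, T ≤ W.top s)
    (leg : ∀ ca cb p xa xb n : ℝ, 0 ≤ ca → ca ≤ T → 0 ≤ cb → cb ≤ T → 0 ≤ p → p ≤ T → 0 ≤ xa →
      xa ≤ T → 0 ≤ xb → xb ≤ T → 0 ≤ n → n ≤ T → bk ca cb p xa xb n ∈ W.legW)
    (H : RModel W.B' (W.cfg E) 1 T W.legW W.nu W.Dc) :
    NK W.B' (W.cfg E) W.legW W.nu T W.Dc (fun n k => flg W n k 2) where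
  H := H
  T0 := T0
  leg := leg
  zb := by
    have hK0 := h.q.ok.K0_one
    filter_upwards [Xb403.bd_of h.q (fun s => by have := h.kap4 s; linarith) hc,
      h.q.z_eq hkz hc] with n hn hz k hk
    rw [hz k]
    exact ⟨hn.2 k hk 0, hn.2 k hk 2⟩
  rb := by
    have hK0 := h.q.ok.K0_one
    exact (Xb403.bd_of h.q (fun s => by have := h.kap4 s; linarith) hc).mono fun n hn => hn.1
  ev := fun ε hε => by
    have hK0 := h.q.ok.K0_one
    filter_upwards [h.evoX hc T0.le ht (half_pos hε), h.q.z_eq hkz hc, h.q.mot_eq hc, hc,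
      h.capp T T0.le, Xb403.bd_of h.q (fun s => by have := h.kap4 s; linarith) hc,
      ev_const_le W.B' (half_pos hε) 8] with n hev hz hmot hn hca hbd h8
    obtain ⟨g, hE, hcfg⟩ := hn
    intro k k' i l h1 h2 h3 h4'
    have hkZ : k ∈ (W.cfg E n).Z := H.memZ h1
    have hkZ' : k' ∈ (W.cfg E n).Z := H.memZ h3
    have key := hev k k' i l h1 h3 h2 h4'
    set χ := chiO (W.B'.d n) (cK L Y) Ma with hχ
    set a := ownC χ W n k k' (fsl W n i k 2) (fsl W n i k 3) with ha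
    set r := (W.cfg E n).rel k i l with hr'
    set r' := (W.cfg E n).rel k' i l with hr''
    have hρ : 0 < W.B'.d n ^ T := Real.rpow_pos_of_pos (W.B'.pos n) _
    have hYT : W.B'.d n ^ Y ≤ W.B'.d n ^ T :=
      Real.rpow_le_rpow_of_exponent_ge (W.B'.pos n) (W.B'.lt n).le hTY
    have c256 : χ 2 5 6 = 1 := by rw [hχ, chiO, if_pos hM.m256]; simp [cK]
    have c058 : χ 0 5 8 = 1 := by rw [hχ, chiO, if_pos hM.m058]; simp [cK]
    have c069 : χ 0 6 9 = 1 := by rw [hχ, chiO, if_pos hM.m069]; simp [cK]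
    have c289 : χ 2 8 9 = 1 := by rw [hχ, chiO, if_pos hM.m289]; simp [cK]
    have c0710 : χ 0 7 10 = 1 := by rw [hχ, chiO, if_pos hM.m0710]; simp [cK]
    have c017 : χ 0 1 7 = 0 := by rw [hχ, chiO, if_neg hM.r]
    have c457 : |χ 4 5 7| ≤ W.B'.d n ^ T := by
      rw [hχ, chiO]
      split_ifs
      · have e : cK L Y 4 + cK L Y 5 - cK L Y 7 = Y := by simp [cK]
        rw [e, abs_of_pos (Real.rpow_pos_of_pos (W.B'.pos n) _)]
        exact hYT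
      · rw [abs_zero]; exact hρ.le
    have c4810 : |χ 4 8 10| ≤ W.B'.d n ^ T := by
      rw [hχ, chiO]
      split_ifs
      · have e : cK L Y 4 + cK L Y 8 - cK L Y 10 = Y := by simp [cK]
        rw [e, abs_of_pos (Real.rpow_pos_of_pos (W.B'.pos n) _)]
        exact hYT
      · rw [abs_zero]; exact hρ.le
    have m0 : a 0 = (W.cfg E n).z k' - (W.cfg E n).z k := by
      rw [ha, hz k, hz k']
      unfold ownC mot
      rw [if_neg (by decide), if_pos (show (0 : Fin 11) ∈ W.S from h.S0)]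
      exact (hmot k hkZ k' hkZ').1 0 (by simp)
    have m2 : a 2 = flg W n k' 2 - flg W n k 2 := by
      rw [ha]
      unfold ownC mot
      rw [if_neg (by decide), if_pos (show (2 : Fin 11) ∈ W.S by rw [hS]; decide)]
      exact (hmot k hkZ k' hkZ').1 2 (by simp)
    have m3 : a 3 = 0 := by
      rw [ha]
      unfold ownC mot
      rw [if_neg (by decide), if_neg (show (3 : Fin 11) ∉ W.S by rw [hS]; decide)]
    have m4 : |a 4| ≤ 1 := by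
      have h1' := h1
      have h3' := h3
      rw [hcfg] at h1' h3'
      exact (h.ownC_ap g hE h1' h3' hρ.le hca.2.2.2.2.2.2.2.2.2.2 4).r
    have hR : ∀ s, |r s| ≤ 1 := fun s => hbd.1 k i l h1 h2 s
    have hu : |a 0| ≤ 2 := by
      rw [m0, hz k, hz k']
      refine (abs_sub _ _).trans ?_
      have := hbd.2 k hkZ 0
      have := hbd.2 k' hkZ' 0
      linarith
    have hfin : W.B'.d n ^ (T - ε / 2) + 3 * W.B'.d n ^ T ≤ W.B'.d n ^ (T - ε) := by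
      have e1 : W.B'.d n ^ (T - ε) = W.B'.d n ^ (-(ε / 2)) * W.B'.d n ^ (T - ε / 2) := by
        rw [← Real.rpow_add (W.B'.pos n)]; congr 1; ring
      have e2 : W.B'.d n ^ T ≤ W.B'.d n ^ (T - ε / 2) :=
        Real.rpow_le_rpow_of_exponent_ge (W.B'.pos n) (W.B'.lt n).le (by linarith)
      have e3 : 0 < W.B'.d n ^ (T - ε / 2) := Real.rpow_pos_of_pos (W.B'.pos n) _
      rw [e1]
      nlinarith
    have hle : W.B'.d n ^ (T - ε / 2) ≤ W.B'.d n ^ (T - ε) := by linarith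
    have mul3 : ∀ {c x : ℝ}, |c| ≤ W.B'.d n ^ T → |x| ≤ 3 → |c * (a 4 * x)| ≤
        3 * W.B'.d n ^ T := by
      intro c x hcc hx
      rw [abs_mul, abs_mul]
      have h5 : |a 4| * |x| ≤ 1 * 3 := mul_le_mul m4 hx (abs_nonneg _) zero_le_one
      have h6 := mul_le_mul hcc h5 (by positivity) hρ.le
      linarith
    rw [← m0, ← m2]
    refine ⟨⟨?_, ?_, ?_, ?_⟩, ?_, ?_⟩
    · have := key 5 (h.q.notMem (by simp))
      have e : evoC χ a r 5 = r 5 := by simp only [evoC, Matrix.cons_val]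
      rw [e] at this
      exact this.trans hle
    · have := key 6 (h.q.notMem (by simp))
      have e : evoC χ a r 6 = r 6 - a 2 * r 5 := by
        simp only [evoC, Matrix.cons_val, c256, one_mul]
      rw [e] at this
      exact this.trans hle
    · have := key 8 (h.q.notMem (by simp))
      have e : evoC χ a r 8 = r 8 + a 0 * r 5 := by
        simp only [evoC, Matrix.cons_val, c058, one_mul]
      rw [e] at this
      exact this.trans hle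
    · have := key 9 (h.q.notMem (by simp))
      have e : evoC χ a r 9 = r 9 + a 0 * r 6 - a 2 * (r 8 + a 0 * r 5) := by
        simp only [evoC, Matrix.cons_val, c058, c069, c289, one_mul]
      rw [e] at this
      exact this.trans hle
    · have := key 7 (h.q.notMem (by simp))
      have e : evoC χ a r 7 = r 7 - χ 4 5 7 * (a 4 * r 5) := by
        simp only [evoC, Matrix.cons_val]
        rw [c017, m3]; ring
      rw [e] at this
      have e2 : r' 7 - r 7 = (r' 7 - (r 7 - χ 4 5 7 * (a 4 * r 5))) - χ 4 5 7 * (a 4 * r 5) := by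
        ring
      rw [e2]
      have h5 := abs_sub (r' 7 - (r 7 - χ 4 5 7 * (a 4 * r 5))) (χ 4 5 7 * (a 4 * r 5))
      have h6 := mul3 c457 (x := r 5) ((hR 5).trans (by norm_num))
      linarith
    · have := key 10 (h.q.notMem (by simp))
      have e : evoC χ a r 10 = r 10 + a 0 * r 7 - χ 4 8 10 * (a 4 * (r 8 + a 0 * r 5)) := by
        simp only [evoC, Matrix.cons_val]
        rw [c0710, c017, c058, m3]; ring
      rw [e] at this
      have e2 : r' 10 - (r 10 + a 0 * r 7) =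
          (r' 10 - (r 10 + a 0 * r 7 - χ 4 8 10 * (a 4 * (r 8 + a 0 * r 5)))) -
            χ 4 8 10 * (a 4 * (r 8 + a 0 * r 5)) := by ring
      rw [e2]
      have h5 := abs_sub (r' 10 - (r 10 + a 0 * r 7 - χ 4 8 10 * (a 4 * (r 8 + a 0 * r 5))))
        (χ 4 8 10 * (a 4 * (r 8 + a 0 * r 5)))
      have h7 : |r 8 + a 0 * r 5| ≤ 3 := by
        refine (abs_add_le _ _).trans ?_
        rw [abs_mul]
        have := mul_le_mul hu (hR 5) (abs_nonneg _) (by norm_num)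
        linarith [hR 8]
      have h6 := mul3 c4810 h7
      linarith

end prod

end Crest.Agent.R136.F2k569
end

-- ▼ part R136/F2k2_569
section

/-!
# R136, case F at `θ0 = θ2` (helper569): `X_b` is exact given `N`, part 2: the window

* `MaF` : the walls of the chart, `R` slack; `legF`;
* `MO` : the walls which are tight at the offset `cK L Y`;
* `kw_of_aew` : the offset window of `AeW`.
-/

set_option autoImplicit false
set_option linter.unusedVariables false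
set_option linter.unusedSectionVars false

open Filter Topology Finset

namespace Crest.Agent.R136.F2k569

open Crest.Agent.R138.Ex926 (Base U)
open Crest.Agent.R136.Gf356
open Crest.Agent.R136.Fe1355
open Crest.Agent.R136.NetQ186 Crest.Agent.R136.Net191 Crest.Agent.R136.Qg926
open Crest.Agent.R136.Ev356 Crest.Agent.R136.Aw413
open Crest.Agent.R136.Wq400

/-- the walls of the chart, `R` slack -/
structure MaF (Ma : Mons 11) : Prop where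
  sub : ∀ k, Ma.mon k ⊆ monQ.mon k
  m256 : mv 2 5 ∈ Ma.mon 6
  m058 : mv 0 5 ∈ Ma.mon 8
  m069 : mv 0 6 ∈ Ma.mon 9
  m289 : mv 2 8 ∈ Ma.mon 9
  m0710 : mv 0 7 ∈ Ma.mon 10
  no : ∀ k, ∀ e ∈ Ma.mon k, e 1 = 0

theorem MaF.toMaK {Ma : Mons 11} (h : MaF Ma) : MaK Ma :=
  ⟨h.m256, h.m058, h.m069, h.m289, h.m0710, fun hc => absurd (h.no 7 _ hc) (by decide)⟩

/-- the monomials of the chart without `R` -/
theorem monQ_list1 : ∀ k : Fin 11, ∀ e ∈ monQ.mon k, e 1 = 0 →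
    (k, e) ∈ ([(4, mv 2 3), (6, mv 2 5), (7, mv 4 5), (7, ![0, 0, 1, 1, 0, 1, 0, 0, 0, 0, 0]),
      (7, mv 3 6), (8, mv 0 5), (9, mv 0 6), (9, mv 2 8), (9, ![1, 0, 1, 0, 0, 1, 0, 0, 0, 0, 0]),
      (10, mv 0 7), (10, mv 4 8), (10, ![0, 0, 1, 1, 0, 0, 0, 0, 1, 0, 0]),
      (10, ![1, 0, 0, 0, 1, 1, 0, 0, 0, 0, 0]), (10, ![1, 0, 1, 1, 0, 1, 0, 0, 0, 0, 0]),
      (10, mv 3 9), (10, ![1, 0, 0, 1, 0, 0, 1, 0, 0, 0, 0])] :
      List (Fin 11 × (Fin 11 → ℕ))) := by decide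

theorem monQ_cases1 (k : Fin 11) (e : Fin 11 → ℕ) (he : e ∈ monQ.mon k) (h1 : e 1 = 0) :
    (k = 4 ∧ e = mv 2 3) ∨ (k = 6 ∧ e = mv 2 5) ∨ (k = 7 ∧ e = mv 4 5) ∨
    (k = 7 ∧ e = ![0, 0, 1, 1, 0, 1, 0, 0, 0, 0, 0]) ∨ (k = 7 ∧ e = mv 3 6) ∨
    (k = 8 ∧ e = mv 0 5) ∨ (k = 9 ∧ e = mv 0 6) ∨ (k = 9 ∧ e = mv 2 8) ∨
    (k = 9 ∧ e = ![1, 0, 1, 0, 0, 1, 0, 0, 0, 0, 0]) ∨ (k = 10 ∧ e = mv 0 7) ∨
    (k = 10 ∧ e = mv 4 8) ∨ (k = 10 ∧ e = ![0, 0, 1, 1, 0, 0, 0, 0, 1, 0, 0]) ∨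
    (k = 10 ∧ e = ![1, 0, 0, 0, 1, 1, 0, 0, 0, 0, 0]) ∨
    (k = 10 ∧ e = ![1, 0, 1, 1, 0, 1, 0, 0, 0, 0, 0]) ∨ (k = 10 ∧ e = mv 3 9) ∨
    (k = 10 ∧ e = ![1, 0, 0, 1, 0, 0, 1, 0, 0, 0, 0]) := by
  have h := monQ_list1 k e he h1
  simp only [List.mem_cons, Prod.mk.injEq, List.not_mem_nil, or_false] at h
  exact h

/-- legality -/
theorem legF {Ma : Mons 11} (hM : MaF Ma) {c : Fin 11 → ℝ} (h423 : c 4 ≤ c 2 + c 3)
    (h625 : c 6 ≤ c 2 + c 5) (h745 : c 7 ≤ c 4 + c 5) (h736 : c 7 ≤ c 3 + c 6)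
    (h805 : c 8 ≤ c 0 + c 5) (h906 : c 9 ≤ c 0 + c 6) (h928 : c 9 ≤ c 2 + c 8)
    (h107 : c 10 ≤ c 0 + c 7) (h148 : c 10 ≤ c 4 + c 8) (h139 : c 10 ≤ c 3 + c 9) :
    c ∈ coneM Ma := by
  intro k e he
  rcases monQ_cases1 k e (hM.sub k he) (hM.no k e he) with ⟨rfl, rfl⟩ | ⟨rfl, rfl⟩ |
    ⟨rfl, rfl⟩ | ⟨rfl, rfl⟩ | ⟨rfl, rfl⟩ | ⟨rfl, rfl⟩ | ⟨rfl, rfl⟩ | ⟨rfl, rfl⟩ | ⟨rfl, rfl⟩ |
    ⟨rfl, rfl⟩ | ⟨rfl, rfl⟩ | ⟨rfl, rfl⟩ | ⟨rfl, rfl⟩ | ⟨rfl, rfl⟩ | ⟨rfl, rfl⟩ | ⟨rfl, rfl⟩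
  all_goals first
    | (rw [sum_mv]; assumption)
    | (simp [Fin.sum_univ_succ]; linarith)

/-- the walls which are tight at the offset -/
def MO (Ma : Mons 11) : Mons 11 where
  mon k := (Ma.mon k).filter fun e => k = 4 ∨ (e 3 = 0 ∧ e 4 = 0)
  low := fun k e he => Ma.low k e (mem_filter.1 he).1
  ne := fun k e he => Ma.ne k e (mem_filter.1 he).1

theorem MO_sub (Ma : Mons 11) (k : Fin 11) : (MO Ma).mon k ⊆ Ma.mon k := filter_subset _ _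

/-- walls of the offset window -/
theorem monO_cases : ∀ k : Fin 11, ∀ e ∈ monQ.mon k, e 1 = 0 → (k = 4 ∨ (e 3 = 0 ∧ e 4 = 0)) →
    (k = 4 ∧ e = mv 2 3) ∨ (k = 6 ∧ e = mv 2 5) ∨ (k = 8 ∧ e = mv 0 5) ∨
    (k = 9 ∧ e = mv 0 6) ∨ (k = 9 ∧ e = mv 2 8) ∨
    (k = 9 ∧ e = ![1, 0, 1, 0, 0, 1, 0, 0, 0, 0, 0]) ∨ (k = 10 ∧ e = mv 0 7) := by decide

theorem cK_mem {Ma : Mons 11} (hM : MaF Ma) {L Y : ℝ} (hY : 0 ≤ Y) :
    cK L Y ∈ coneM Ma := by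
  refine legF hM ?_ ?_ ?_ ?_ ?_ ?_ ?_ ?_ ?_ ?_ <;> simp [cK] <;> linarith

/-- boxes above the offset -/
theorem cK_leg {Ma : Mons 11} (hM : MaF Ma) {L Y T : ℝ} (hY : T ≤ Y) :
    Leg (MO Ma) T ⊆ {p | cK L Y + p ∈ coneM Ma} := by
  refine leg_coneO fun k e he => ?_
  by_cases hk : k = 4 ∨ (e 3 = 0 ∧ e 4 = 0)
  · left
    refine ⟨mem_filter.2 ⟨he, hk⟩, ?_⟩
    rcases monO_cases k e (hM.sub k he) (hM.no k e he) hk with ⟨rfl, rfl⟩ | ⟨rfl, rfl⟩ |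
      ⟨rfl, rfl⟩ | ⟨rfl, rfl⟩ | ⟨rfl, rfl⟩ | ⟨rfl, rfl⟩ | ⟨rfl, rfl⟩
    all_goals first
      | (rw [sum_mv]; simp [cK])
      | simp [Fin.sum_univ_succ, cK]
  · right
    rcases monQ_cases1 k e (hM.sub k he) (hM.no k e he) with ⟨rfl, rfl⟩ | ⟨rfl, rfl⟩ |
      ⟨rfl, rfl⟩ | ⟨rfl, rfl⟩ | ⟨rfl, rfl⟩ | ⟨rfl, rfl⟩ | ⟨rfl, rfl⟩ | ⟨rfl, rfl⟩ | ⟨rfl, rfl⟩ |
      ⟨rfl, rfl⟩ | ⟨rfl, rfl⟩ | ⟨rfl, rfl⟩ | ⟨rfl, rfl⟩ | ⟨rfl, rfl⟩ | ⟨rfl, rfl⟩ | ⟨rfl, rfl⟩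
    all_goals first
      | exact absurd (by decide) hk
      | (rw [sum_mv]; simp [cK]; linarith)
      | (simp [Fin.sum_univ_succ, cK]; linarith)

theorem sok_K : SOk {0, 2, 4} := by constructor <;> decide

variable {ι : ℕ → Type*} [∀ n, DecidableEq (ι n)] {W : Wnd 11 ι} {F : ∀ n, ι n → Fq4}
  {T : ℝ} {Ma : Mons 11}

/-- every box between `0` and `T` is legal -/
theorem legW_K (hM : MaF Ma) (hS : W.S = {0, 2, 4}) (htop : W.top = fun _ => T)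
    (hMw : W.Mw = MO Ma) (hR : W.R' = T) {p : Fin 11 → ℝ} (h0 : ∀ s, 0 ≤ p s) (h1 : ∀ s, p s ≤ T) :
    p ∈ W.legW := by
  have hT : 0 ≤ T := (h0 0).trans (h1 0)
  have key : ∀ s, 0 ≤ cut {0, 2, 4} p (fun _ => T) s ∧ cut {0, 2, 4} p (fun _ => T) s ≤ T := by
    intro s
    unfold cut
    split_ifs
    · exact ⟨hT, le_rfl⟩
    · exact ⟨h0 s, h1 s⟩
  have e0 : cut {0, 2, 4} p (fun _ => T) 0 = T := cut_of_mem (by decide)
  have e2 : cut {0, 2, 4} p (fun _ => T) 2 = T := cut_of_mem (by decide)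
  refine ⟨?_, fun s _ => by rw [htop]; exact h1 s⟩
  rw [hS, htop, hMw, hR]
  refine ⟨⟨fun s => (key s).1, fun k e he => ?_⟩, fun s => (key s).2⟩
  have he' := mem_filter.1 he
  rcases monO_cases k e (hM.sub k he'.1) (hM.no k e he'.1) he'.2 with ⟨rfl, rfl⟩ | ⟨rfl, rfl⟩ |
      ⟨rfl, rfl⟩ | ⟨rfl, rfl⟩ | ⟨rfl, rfl⟩ | ⟨rfl, rfl⟩ | ⟨rfl, rfl⟩
  · rw [sum_mv, e2]; linarith [(key 4).2, (key 3).1]
  · rw [sum_mv, e2]; linarith [(key 6).2, (key 5).1]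
  · rw [sum_mv, e0]; linarith [(key 8).2, (key 5).1]
  · rw [sum_mv, e0]; linarith [(key 9).2, (key 6).1]
  · rw [sum_mv, e2]; linarith [(key 9).2, (key 8).1]
  · have := (key 9).2
    have := (key 5).1
    have e : ∑ s, ((![1, 0, 1, 0, 0, 1, 0, 0, 0, 0, 0] : Fin 11 → ℕ) s : ℝ) *
        cut {0, 2, 4} p (fun _ => T) s = cut {0, 2, 4} p (fun _ => T) 0 +
        cut {0, 2, 4} p (fun _ => T) 2 + cut {0, 2, 4} p (fun _ => T) 5 := by
      simp [Fin.sum_univ_succ]; ring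
    rw [e, e0, e2]
    linarith
  · rw [sum_mv, e0]; linarith [(key 10).2, (key 7).1]

/-- **the offset window of `AeW`** -/
theorem kw_of_aew {B Bo : Base} {I J : ∀ n, Finset (ι n)} {co : ∀ n, ι n → ι n → Fin 11 → ℝ}
    {C : ℝ} {lam : (Fin 11 → ℝ) → ℝ} {a b : Fin 11 → ℝ} {A : ℝ × ℝ}
    {φ : ℕ → (Fin 11 → ℝ) → ℝ} {r : ℕ → ℝ} {κ : Fin 11 → ℝ} {V Tw : Fin 11 → Prop}
    (h : AeW B Bo I J co monQ Ma C lam a b A φ r 0 1 κ V Tw) (hM : MaF Ma) (hC : 0 ≤ C)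
    (hco : ∀ n, ∀ i ∈ I n, ∀ j ∈ I n, co n i j = coQ (F n i) (F n j))
    (hne : ∀ᶠ n in (U : Filter ℕ), (J n).Nonempty)
    (hS : ∀ i j : Fin 11, Dg219.gC a b i = Dg219.gC a b j → i ∈ ({0, 2, 4} : Finset (Fin 11)) →
      j ∈ ({0, 2, 4} : Finset (Fin 11)))
    (hV : ∀ k, V k → k = 2) (hT2 : Tw 2) (hT : 0 < T) {L Y : ℝ} (hTY : T ≤ Y) :
    ∃ (W : Wnd 11 ι) (E : ∀ n, Finset (ι n)),
      NK W.B' (W.cfg E) W.legW W.nu T W.Dc (fun n k => flg W n k 2) ∧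
      RawTw W.B' (W.cfg E) (fun n k k' => flg W n k' 2 - flg W n k 2) ∧
      ∀ p : Fin 11 → ℝ, W.nu p = lam (cK L Y + cut {0, 2, 4} p fun _ => T) -
        lam (cK L Y + fun _ => T) := by
  have hY : 0 ≤ Y := hT.le.trans hTY
  have hK0 : 1 ≤ cK0 monQ C := cK0_one hC
  have h0 : cK L Y ∈ coneM Ma := cK_mem hM hY
  have hc0 : ∀ k, V k → cK L Y k ≤ κ k * cK L Y 0 := fun k hk => by
    rw [hV k hk]; simp [cK]
  set st : WSt 11 := stQ {0, 2, 4} (4 * cK0 monQ C) T (MO Ma) with hst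
  have hsubO : ∀ k, (MO Ma).mon k ⊆ monQ.mon k := fun k => (MO_sub Ma k).trans (hM.sub k)
  have hok0 : st.Ok monQ (coneM (MO Ma)) := stQ_ok sok_K (by linarith) hT.le hsubO
  have hok : st.Ok monQ {p | cK L Y + p ∈ coneM Ma} := { hok0 with leg := cK_leg hM hTY }
  obtain ⟨W, hW, -, -⟩ := h.wndO (cK L Y) h0 st rfl hok (fun _ _ => 1)
    (fun _ => Crest.Agent.R138.Ex926.Base.Sub.const one_pos) J (fun _ => 1)
    (Eventually.of_forall fun n => Finset.Subset.refl _) hne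
    (Crest.Agent.R138.Ex926.Base.Sub.const one_pos)
    (Eventually.of_forall fun n => by rw [one_mul])
  have hden : st.Dens (fun p => lam (cK L Y + p) - lam (cK L Y)) 1 T :=
    h.densO h0 hc0 rfl hok hS zero_le_one le_rfl le_rfl fun y hy _ => by
      refine legF hM ?_ ?_ ?_ ?_ ?_ ?_ ?_ ?_ ?_ ?_ <;> simp [cK] <;> linarith
  obtain ⟨E, g, hP, -, H, htw⟩ := hW.model hden (fun _ _ _ => 0)
    (g₀ := fun n => n)
    (tendsto_natCast_atTop_atTop.mono_left Crest.Agent.R138.Ex926.U_le_atTop) hc0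
    (fun k hk => by
      left
      show k ∈ ({0, 2, 4} : Finset (Fin 11))
      rw [hV k hk]; decide)
  have hq : QWnd W F :=
    { ok := hW.ok
      hM := hW.eM
      hco := fun n i hi j hj => by
        rw [hW.eI] at hi hj
        rw [hW.eco]
        exact hco n i hi j hj
      hS := by
        rw [hW.eS]
        show ∀ s ∈ ({0, 2, 4} : Finset (Fin 11)), _
        decide }
  have hc := hcQ hq hP
  have hqa : QAtO W F (cK L Y) Ma := QAtO.of_wat hW h0 hq (by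
    show (0 : Fin 11) ∈ ({0, 2, 4} : Finset (Fin 11)); decide) (fun s => rfl) hM.toMaK.r
  have eS : W.S = {0, 2, 4} := hW.eS
  have etop : W.top = fun _ => T := hW.etop
  have leg : ∀ p : Fin 11 → ℝ, (∀ s, 0 ≤ p s) → (∀ s, p s ≤ T) → p ∈ W.legW :=
    fun p h0 h1 => legW_K hM eS etop hW.eMw hW.eR h0 h1
  have m2 : (2 : Fin 11) ∈ W.S := by rw [eS]; decide
  have raw : RawL W E 2 := by
    refine htw 2 ?_ hT2 hT ?_ ⟨T, hT, ?_⟩
    · show (2 : Fin 11) ∈ ({0, 2, 4} : Finset (Fin 11)); decide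
    · show cK L Y 2 = κ 2 * cK L Y 0
      simp [cK]
    · show cK L Y + cut {0, 2, 4} (fun _ => T) (Pi.single 2 T) ∈ coneM Ma
      refine legF hM ?_ ?_ ?_ ?_ ?_ ?_ ?_ ?_ ?_ ?_ <;> simp [cK, cut] <;> linarith
  refine ⟨W, E, ?_, ?_, ?_⟩
  · refine nk_of_ato hqa hM.toMaK hW.ekz eS hc hT hTY (fun s => by rw [etop]) ?_ H
    intro ca cb p xa xb n h1 h2 h3 h4 h5 h6 h7 h8 h9 h10 h11 h12
    refine leg _ (fun s => ?_) fun s => ?_
    · fin_cases s <;> simp [bk] <;> assumption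
    · fin_cases s <;> simp [bk] <;> first | assumption | exact hT.le
  · exact C2w400.rawTw_of_rawL hq hc m2 (by simp) hT (by rw [etop]) raw
  · intro p
    unfold Wnd.nu
    rw [eS, etop, hW.elam]
    ring

end Crest.Agent.R136.F2k569
end

-- ▼ part R136/F2k3_569
section

/-!
# R136, case F at `θ0 = θ2` (helper569): `X_b` is exact given `N`, part 3: the profile

* `PlK` : natural plane of rung (i) with `N ∥ X_b`, `F_a ∥ z`, `P ∥ C_b`;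
* `val9` : the group `{X_b, N}`;
* `exists_lev` : a level `L` of `C_a` at which the loss of `C_a` given `F_b : Y` has a positive rate;
* **`xbK`** : `1 ≤ r₉ / (1 + κ) + φ₉ wN`.
-/

set_option autoImplicit false
set_option linter.unusedVariables false
set_option linter.unusedSectionVars false

open Filter Topology Finset

namespace Crest.Agent.R136.F2k569

open Crest.Agent.R138.Ex926 (Base U)
open Crest.Agent.R136.Gf356
open Crest.Agent.R136.Fe1355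
open Crest.Agent.R136.NetQ186 Crest.Agent.R136.Net191 Crest.Agent.R136.Qg926
open Crest.Agent.R136.Ev356 Crest.Agent.R136.Aw413
open Crest.Agent.R136.Wq400
open Crest.Agent.R136.LdF5511
open Crest.Agent.R136.Dg219 (gC dhC nC OutS gC_zero gC_eq Tn)
open Crest.Agent.R136.Rc146 (OutA)

/-! ### the plane -/

theorem fin9 : ∀ i : Fin 11, i ≠ 0 → i ≠ 1 → i ≠ 2 → i ≠ 3 → i ≠ 4 → i ≠ 5 → i ≠ 6 → i ≠ 7 →
    i ≠ 8 → i = 9 ∨ i = 10 := by decide

theorem fin0 : ∀ i : Fin 11, i ≠ 0 → i ≠ 2 → i ≠ 4 → i ≠ 6 → i ≠ 7 → i ≠ 8 → i ≠ 9 → i ≠ 10 →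
    i ∈ ({1, 3, 5} : Finset (Fin 11)) := by decide

theorem finL : ∀ j : Fin 11, j ≠ 1 → j ≠ 3 → j ≠ 5 → j ≠ 6 → j ≠ 7 → j ≠ 8 → j ≠ 9 → j ≠ 10 →
    j ∈ ({0, 2, 4} : Finset (Fin 11)) := by decide

/-- natural plane of rung (i), `N ∥ X_b` -/
structure PlK (a b : Fin 11 → ℝ) (κ : ℝ) : Prop extends PlE a b κ where
  a1 : a 1 = 0
  a3 : a 3 = 0
  a4 : a 4 = κ
  a7 : a 7 = κ
  a10 : a 10 = 1 + κ
  b4 : b 4 = b 2
  b7 : b 7 = b 6
  b10 : b 10 = b 9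

namespace PlK

variable {a b : Fin 11 → ℝ} {κ : ℝ} (h : PlK a b κ)

include h

theorem n4 : a 4 ≠ 0 := by rw [h.a4]; exact h.κ0.ne'
theorem n7 : a 7 ≠ 0 := by rw [h.a7]; exact h.κ0.ne'
theorem n10 : a 10 ≠ 0 := by rw [h.a10]; linarith [h.κ0]

theorem g1 : gC a b 1 = 0 := gC_zero.2 h.a1
theorem g3 : gC a b 3 = 0 := gC_zero.2 h.a3
theorem g24 : gC a b 2 = gC a b 4 := by rw [gC_eq h.n2 h.n4, h.a2, h.a4, h.b4]
theorem g67 : gC a b 6 = gC a b 7 := by rw [gC_eq h.n6 h.n7, h.a6, h.a7, h.b7]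
theorem g910 : gC a b 9 = gC a b 10 := by rw [gC_eq h.n9 h.n10, h.a9, h.a10, h.b10]

/-- the group of `X_b` -/
theorem grp9 {i : Fin 11} (hi : gC a b i = gC a b 9) : i = 9 ∨ i = 10 := by
  have h0 : i ≠ 0 := fun e => h.g09 (by rw [← e, hi])
  have h1 : i ≠ 1 := fun e => h.g9 (by rw [← hi, e, h.g1])
  have h2 : i ≠ 2 := fun e => h.g09 (by rw [h.g02, ← e, hi])
  have h3 : i ≠ 3 := fun e => h.g9 (by rw [← hi, e, h.g3])
  have h4 : i ≠ 4 := fun e => h.g09 (by rw [h.g02, h.g24, ← e, hi])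
  have h5 : i ≠ 5 := fun e => h.g9 (by rw [← hi, e, h.g5])
  have h6 : i ≠ 6 := fun e => h.g69 (by rw [← e, hi])
  have h7 : i ≠ 7 := fun e => h.g69 (by rw [h.g67, ← e, hi])
  have h8 : i ≠ 8 := fun e => h.g89 (by rw [← e, hi])
  exact fin9 i h0 h1 h2 h3 h4 h5 h6 h7 h8

/-- the dropped group -/
theorem grp0 {i : Fin 11} (hi : gC a b i = 0) : i = 1 ∨ i = 3 ∨ i = 5 := by
  have h0 : i ≠ 0 := fun e => h.g0 (by rw [← e, hi])
  have h2 : i ≠ 2 := fun e => h.g0 (by rw [h.g02, ← e, hi])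
  have h4 : i ≠ 4 := fun e => h.g0 (by rw [h.g02, h.g24, ← e, hi])
  have h6 : i ≠ 6 := fun e => h.g6 (by rw [← e, hi])
  have h7 : i ≠ 7 := fun e => h.g6 (by rw [h.g67, ← e, hi])
  have h8 : i ≠ 8 := fun e => h.g8 (by rw [← e, hi])
  have h9 : i ≠ 9 := fun e => h.g9 (by rw [← e, hi])
  have h10 : i ≠ 10 := fun e => h.g9 (by rw [h.g910, ← e, hi])
  simpa using fin0 i h0 h2 h4 h6 h7 h8 h9 h10

/-- the level slots are a union of groups -/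
theorem lev (i j : Fin 11) (hij : gC a b i = gC a b j) (hi : i ∈ ({0, 2, 4} : Finset (Fin 11))) :
    j ∈ ({0, 2, 4} : Finset (Fin 11)) := by
  have hi0 : gC a b j = gC a b 0 := by
    simp only [mem_insert, mem_singleton] at hi
    rcases hi with rfl | rfl | rfl
    · exact hij.symm
    · rw [h.g02]; exact hij.symm
    · rw [h.g02, h.g24]; exact hij.symm
  have h1 : j ≠ 1 := fun e => h.g0 (by rw [← hi0, e, h.g1])
  have h3 : j ≠ 3 := fun e => h.g0 (by rw [← hi0, e, h.g3])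
  have h5 : j ≠ 5 := fun e => h.g0 (by rw [← hi0, e, h.g5])
  have h6 : j ≠ 6 := fun e => h.g06 (by rw [← hi0, e])
  have h7 : j ≠ 7 := fun e => h.g06 (by rw [← hi0, e, h.g67])
  have h8 : j ≠ 8 := fun e => h.g08 (by rw [← hi0, e])
  have h9 : j ≠ 9 := fun e => h.g09 (by rw [← hi0, e])
  have h10 : j ≠ 10 := fun e => h.g09 (by rw [← hi0, e, h.g910])
  exact finL j h1 h3 h5 h6 h7 h8 h9 h10

end PlK

/-! ### boxes -/

/-- box of the offset window -/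
def vK (T L Y ca cb p xa xb n : ℝ) : Fin 11 → ℝ :=
  ![T, 0, T, Y, Y + T, L + ca, L + cb, L + p, L + xa, L + xb, L + n]

theorem vK_eq (T L Y ca cb p xa xb n : ℝ) :
    (cK L Y + cut {0, 2, 4} (bk ca cb p xa xb n) fun _ => T) = vK T L Y ca cb p xa xb n := by
  funext j
  fin_cases j <;> simp [cK, bk, vK, cut]

/-- `N` with `F_b`, `X_a`, `z` -/
def wN : Fin 11 → ℝ := ![1, 0, 0, 1, 0, 0, 0, 0, 1, 0, 1]

/-- `F_b` and `C_a` -/
def gF (Y s : ℝ) : Fin 11 → ℝ := ![0, 0, 0, Y, 0, s, 0, 0, 0, 0, 0]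

section

variable {Ma : Mons 11} (hM : MaF Ma)

include hM

theorem vK_mem {T L Y ca cb p xa xb n : ℝ} (hT : 0 ≤ T) (hTY : T ≤ Y) (ca0 : 0 ≤ ca)
    (cb0 : 0 ≤ cb) (cb1 : cb ≤ T) (p0 : 0 ≤ p) (p1 : p ≤ T) (xa0 : 0 ≤ xa) (xa1 : xa ≤ T)
    (xb0 : 0 ≤ xb) (xb1 : xb ≤ T) (n0 : 0 ≤ n) (n1 : n ≤ T) :
    vK T L Y ca cb p xa xb n ∈ coneM Ma := by
  refine legF hM ?_ ?_ ?_ ?_ ?_ ?_ ?_ ?_ ?_ ?_ <;> simp only [vK, Matrix.cons_val] <;> linarith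

theorem wN_mem : wN ∈ coneM Ma := by
  refine legF hM ?_ ?_ ?_ ?_ ?_ ?_ ?_ ?_ ?_ ?_ <;> simp only [wN, Matrix.cons_val] <;> norm_num

theorem gF_mem {Y s : ℝ} (hY : 0 ≤ Y) (hs : 0 ≤ s) : gF Y s ∈ coneM Ma := by
  refine legF hM ?_ ?_ ?_ ?_ ?_ ?_ ?_ ?_ ?_ ?_ <;> simp only [gF, Matrix.cons_val] <;> linarith

end

/-! ### the profile -/

section prof

variable {a b : Fin 11 → ℝ} {κ : ℝ} {Ls : Set (Fin 11 → ℝ)} {lam : (Fin 11 → ℝ) → ℝ} {A : ℝ × ℝ}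
  {φ : ℕ → (Fin 11 → ℝ) → ℝ} {r : ℕ → ℝ}

/-- **the group `{X_b, N}`** -/
theorem val9 (P : PlK a b κ) (hO : OutA (gC a b) Ls a b (dhC a b) (nC a b) lam A φ r)
    (hnat : ∀ z, Tn a b z ∈ Ls) (hsm : ∀ c ∈ Ls, ∀ s : ℝ, 0 ≤ s → s • c ∈ Ls)
    (hw : wN ∈ Ls) (hom : ∀ s : ℝ, 0 ≤ s → φ (gC a b 9) (s • wN) = s * φ (gC a b 9) wN)
    {c : Fin 11 → ℝ} (hc : c 9 ≤ c 10) :
    φ (gC a b 9) c = -(r (gC a b 9) / (1 + κ)) * c 9 + (c 10 - c 9) * φ (gC a b 9) wN := by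
  have hκ := P.κ0
  have h1 : (0 : ℝ) < 1 + κ := by linarith
  have hpos : ∀ i, gC a b i = gC a b 9 → 0 < dhC a b i := fun i hi => by
    unfold dhC
    rcases P.grp9 hi with rfl | rfl
    · rw [if_neg P.n9, P.a9]; exact h1
    · rw [if_neg P.n10, P.a10]; exact h1
  set t : ℝ := c 9 / (1 + κ) with ht
  have e1 : φ (gC a b 9) c = φ (gC a b 9) (Tn a b (t, 0) + (c 10 - c 9) • wN) :=
    hO.loc _ _ _ fun i hi => by
      rcases P.grp9 hi with rfl | rfl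
      · simp only [Pi.add_apply, Pi.smul_apply, smul_eq_mul, Tn, wN, Matrix.cons_val, P.a9]
        rw [ht]; field_simp; ring
      · simp only [Pi.add_apply, Pi.smul_apply, smul_eq_mul, Tn, wN, Matrix.cons_val, P.a10]
        rw [ht]; field_simp; ring
  have e2 : φ (gC a b 9) (Tn a b (t, 0)) = -(r (gC a b 9) * t) :=
    hO.rate _ _ (hnat _) t fun i hi => by
      unfold dhC
      rcases P.grp9 hi with rfl | rfl
      · rw [if_neg P.n9]; simp [Tn, mul_comm]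
      · rw [if_neg P.n10]; simp [Tn, mul_comm]
  rw [e1, hO.add _ hpos _ _ (hsm _ hw _ (by linarith)), e2, hom _ (by linarith), ht]
  field_simp

/-- **a level of `C_a`** at which the loss of `C_a` given `F_b : Y` has a positive rate -/
theorem exists_lev {Γ : ℝ → ℝ} (h0 : Γ 0 = 0)
    (hΓ : ∀ s t, 0 ≤ s → s ≤ t → 0 ≤ Γ t - Γ s ∧ Γ t - Γ s ≤ t - s) {m : ℝ} (h1 : m < Γ 1) :
    ∃ L : ℝ, 0 ≤ L ∧ L < 1 ∧ ∀ t, 0 ≤ t → L + t ≤ 1 → m * t ≤ Γ (L + t) - Γ L := by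
  have hc : ContinuousOn (fun s => Γ s - m * s) (Set.Icc 0 1) := by
    have : ContinuousOn Γ (Set.Icc 0 1) := by
      have hL : LipschitzOnWith 1 Γ (Set.Icc 0 1) := by
        refine LipschitzOnWith.of_dist_le_mul fun x hx y hy => ?_
        rw [Real.dist_eq, Real.dist_eq, NNReal.coe_one, one_mul]
        rcases le_total x y with hxy | hxy
        · have := hΓ x y hx.1 hxy
          rw [abs_sub_comm (Γ x), abs_sub_comm x, abs_of_nonneg this.1,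
            abs_of_nonneg (by linarith)]
          exact this.2
        · have := hΓ y x hy.1 hxy
          rw [abs_of_nonneg this.1, abs_of_nonneg (by linarith)]
          exact this.2
      exact hL.continuousOn
    exact this.sub (continuousOn_const.mul continuousOn_id)
  obtain ⟨L, hL, hmin⟩ := isCompact_Icc.exists_isMinOn (Set.nonempty_Icc.2 zero_le_one) hc
  have k0 : Γ L - m * L ≤ Γ 0 - m * 0 := hmin (Set.left_mem_Icc.2 zero_le_one)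
  refine ⟨L, hL.1, lt_of_le_of_ne hL.2 fun e => ?_, fun t ht hLt => ?_⟩
  · rw [e] at k0
    linarith
  · have k1 : Γ L - m * L ≤ Γ (L + t) - m * (L + t) := hmin ⟨by linarith [hL.1], hLt⟩
    linarith

end prof

/-! ### the homogeneous profile -/

section main

variable {ι : ℕ → Type*} [∀ n, DecidableEq (ι n)] {F : ∀ n, ι n → Fq4} {Ma : Mons 11}

/-- **`X_b` is exact given `N`**, homogeneous profile -/
theorem xbK {B Bo : Base} {I J : ∀ n, Finset (ι n)} {co : ∀ n, ι n → ι n → Fin 11 → ℝ}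
    {C : ℝ} {lam : (Fin 11 → ℝ) → ℝ} {a b : Fin 11 → ℝ} {A : ℝ × ℝ}
    {φ : ℕ → (Fin 11 → ℝ) → ℝ} {r : ℕ → ℝ} {κo : Fin 11 → ℝ} {V Tw : Fin 11 → Prop}
    (h : AeW B Bo I J co monQ Ma C lam a b A φ r 0 1 κo V Tw) (hM : MaF Ma) (hC : 0 ≤ C)
    (hco : ∀ n, ∀ i ∈ I n, ∀ j ∈ I n, co n i j = coQ (F n i) (F n j))
    (hne : ∀ᶠ n in (U : Filter ℕ), (J n).Nonempty) {κ : ℝ} (P : PlK a b κ)
    (hO : OutA (gC a b) (coneM Ma) a b (dhC a b) (nC a b) lam A φ r)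
    (hnat : ∀ z, Tn a b z ∈ coneM Ma)
    (hom : ∀ s : ℝ, 0 ≤ s → φ (gC a b 9) (s • wN) = s * φ (gC a b 9) wN)
    (hV : ∀ k, V k → k = 2) (hT2 : Tw 2) {c : ℝ} (hc : 0 < c)
    (hCa : lam (Pi.single 5 1) ≤ -c) :
    1 ≤ r (gC a b 9) / (1 + κ) + φ (gC a b 9) wN := by
  have hsm : ∀ c ∈ coneM Ma, ∀ s : ℝ, 0 ≤ s → s • c ∈ coneM Ma := fun c hc s hs k e he => by
    have h1 := mul_le_mul_of_nonneg_left (hc k e he) hs
    have h2 : ∑ i, (e i : ℝ) * (s • c) i = s * ∑ i, (e i : ℝ) * c i := by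
      rw [Finset.mul_sum]
      exact Finset.sum_congr rfl fun i _ => by rw [Pi.smul_apply, smul_eq_mul]; ring
    rw [h2, Pi.smul_apply, smul_eq_mul]
    exact h1
  obtain ⟨Y, hY⟩ : ∃ Y : ℝ, Y = c / 2 := ⟨_, rfl⟩
  have Y0 : 0 < Y := by rw [hY]; positivity
  have gm : ∀ s : ℝ, 0 ≤ s → gF Y s ∈ coneM Ma := fun s hs => gF_mem hM Y0.le hs
  obtain ⟨L, L0, L1, hL⟩ := exists_lev (Γ := fun s => lam (gF Y 0) - lam (gF Y s)) (m := c / 4)
    (by simp) (by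
      intro s t hs hst
      have hle : gF Y s ≤ gF Y t := by
        intro i; fin_cases i <;> simp [gF, hst]
      have h1 := h.anti _ (gm s hs) _ (gm t (hs.trans hst)) hle
      have h2 := h.sharp _ (gm s hs) _ (gm t (hs.trans hst)) hle
      have h3 : ∑ i, (gF Y t i - gF Y s i) = t - s := by
        simp [Fin.sum_univ_succ, gF]
      rw [h3] at h2
      constructor <;> linarith) (by
      have hle : (0 : Fin 11 → ℝ) ≤ gF Y 0 := by
        intro i; fin_cases i <;> simp [gF, Y0.le]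
      have h1 := h.sharp _ zero_mem _ (gm 0 le_rfl) hle
      have h3 : ∑ i, (gF Y 0 i - (0 : Fin 11 → ℝ) i) = Y := by
        simp [Fin.sum_univ_succ, gF]
      rw [h3, h.zero] at h1
      have hle2 : (Pi.single 5 1 : Fin 11 → ℝ) ≤ gF Y 1 := by
        intro i; fin_cases i <;> simp [gF, Y0.le]
      have hm5 : (Pi.single 5 1 : Fin 11 → ℝ) ∈ coneM Ma := by
        have := gF_mem hM (Y := 0) (s := 1) le_rfl zero_le_one
        have e : gF 0 1 = (Pi.single 5 1 : Fin 11 → ℝ) := by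
          funext i; fin_cases i <;> simp [gF]
        rwa [e] at this
      have h2 := h.anti _ hm5 _ (gm 1 zero_le_one) hle2
      linarith)
  obtain ⟨T, hTd⟩ : ∃ T : ℝ, T = min Y (1 - L) := ⟨_, rfl⟩
  have hT : 0 < T := by rw [hTd]; exact lt_min Y0 (by linarith)
  have hTY : T ≤ Y := by rw [hTd]; exact min_le_left _ _
  have hTL : T ≤ 1 - L := by rw [hTd]; exact min_le_right _ _
  obtain ⟨W, E, hN, htw, hν⟩ := kw_of_aew h hM hC hco hne P.lev hV hT2 hT (L := L) hTY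
  have hv : ∀ ca cb p xa xb n : ℝ, W.nu (bk ca cb p xa xb n) = lam (vK T L Y ca cb p xa xb n) -
      lam (cK L Y + fun _ => T) := fun ca cb p xa xb n => by rw [hν, vK_eq]
  have vm : ∀ {ca cb p xa xb n : ℝ}, 0 ≤ ca → 0 ≤ cb → cb ≤ T → 0 ≤ p → p ≤ T → 0 ≤ xa →
      xa ≤ T → 0 ≤ xb → xb ≤ T → 0 ≤ n → n ≤ T → vK T L Y ca cb p xa xb n ∈ coneM Ma :=
    fun h1 h2 h3 h4 h5 h6 h7 h8 h9 h10 h11 => vK_mem hM hT.le hTY h1 h2 h3 h4 h5 h6 h7 h8 h9 h10 h11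
  have hT0 := hT.le
  -- the loss of `C_a`
  have hγ : ∀ ca : ℝ, 0 ≤ ca → lam (vK T L Y 0 0 0 0 0 0) - lam (vK T L Y ca 0 0 0 0 0) =
      lam (gF Y L) - lam (gF Y (L + ca)) := by
    intro ca hca
    have m0 : vK T L Y 0 0 0 0 0 0 ∈ coneM Ma :=
      vm le_rfl le_rfl hT0 le_rfl hT0 le_rfl hT0 le_rfl hT0 le_rfl hT0
    have m1 : vK T L Y ca 0 0 0 0 0 ∈ coneM Ma :=
      vm hca le_rfl hT0 le_rfl hT0 le_rfl hT0 le_rfl hT0 le_rfl hT0
    rw [one_grp h.out m0 m1 0 (fun i hi => by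
        have h5 : i ≠ 5 := fun e => hi (by rw [e, P.g5])
        fin_cases i <;> simp [vK] at h5 ⊢),
      one_grp h.out (gm L L0) (gm (L + ca) (by linarith)) 0 (fun i hi => by
        have h5 : i ≠ 5 := fun e => hi (by rw [e, P.g5])
        fin_cases i <;> simp [gF] at h5 ⊢)]
    rw [h.out.loc 0 (vK T L Y 0 0 0 0 0 0) (gF Y L) (fun i hi => by
        rcases P.grp0 hi with rfl | rfl | rfl <;> simp [vK, gF]),
      h.out.loc 0 (vK T L Y ca 0 0 0 0 0) (gF Y (L + ca)) (fun i hi => by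
        rcases P.grp0 hi with rfl | rfl | rfl <;> simp [vK, gF])]
  refine hN.kone (m := c / 4)
    (β := fun y cb xa => lam (vK T L Y 0 0 y 0 0 y) - lam (vK T L Y 0 cb y xa 0 y))
    (γ := fun ca => lam (vK T L Y 0 0 0 0 0 0) - lam (vK T L Y ca 0 0 0 0 0))
    (by positivity) htw ?_ ?_ (by simp) ?_
  · intro ca cb y xa xb ca0 ca1 cb0 cb1 y0 y1 xa0 xa1 xb0 xb1
    rw [hv, hv]
    have cb2 := cb1.trans y1
    have xa2 := xa1.trans y1
    have xb2 := xb1.trans y1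
    have m0 : vK T L Y 0 0 y 0 0 y ∈ coneM Ma :=
      vm le_rfl le_rfl hT0 y0 y1 le_rfl hT0 le_rfl hT0 y0 y1
    have m1 : vK T L Y 0 0 y 0 xb y ∈ coneM Ma :=
      vm le_rfl le_rfl hT0 y0 y1 le_rfl hT0 xb0 xb2 y0 y1
    have m2 : vK T L Y 0 cb y xa 0 y ∈ coneM Ma :=
      vm le_rfl cb0 cb2 y0 y1 xa0 xa2 le_rfl hT0 y0 y1
    have m3 : vK T L Y 0 cb y xa xb y ∈ coneM Ma :=
      vm le_rfl cb0 cb2 y0 y1 xa0 xa2 xb0 xb2 y0 y1
    have m4 : vK T L Y ca cb y xa xb y ∈ coneM Ma :=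
      vm ca0 cb0 cb2 y0 y1 xa0 xa2 xb0 xb2 y0 y1
    have m5 : vK T L Y 0 0 0 0 0 0 ∈ coneM Ma :=
      vm le_rfl le_rfl hT0 le_rfl hT0 le_rfl hT0 le_rfl hT0 le_rfl hT0
    have m6 : vK T L Y ca 0 0 0 0 0 ∈ coneM Ma :=
      vm ca0 le_rfl hT0 le_rfl hT0 le_rfl hT0 le_rfl hT0 le_rfl hT0
    have s1 := split2 h.out m0 m1 m2 m3 (by
      intro k
      by_cases hk : k = gC a b 9
      · right
        intro i hi
        rcases P.grp9 (hi.trans hk) with rfl | rfl <;> simp [vK]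
      · left
        intro i hi
        have h9 : i ≠ 9 := fun e => hk (by rw [← hi, e])
        fin_cases i <;> simp [vK] at h9 ⊢)
    have s2 := split2 h.out m5 m6 m3 m4 (by
      intro k
      by_cases hk : k = 0
      · right
        intro i hi
        rcases P.grp0 (hi.trans hk) with rfl | rfl | rfl <;> simp [vK]
      · left
        intro i hi
        have h5 : i ≠ 5 := fun e => hk (by rw [← hi, e, P.g5])
        fin_cases i <;> simp [vK] at h5 ⊢)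
    have s3 := one_grp h.out m0 m1 (gC a b 9) (fun i hi => by
      have h9 : i ≠ 9 := fun e => hi (by rw [e])
      fin_cases i <;> simp [vK] at h9 ⊢)
    have v1 := val9 P hO hnat hsm (wN_mem hM) hom (c := vK T L Y 0 0 y 0 0 y) (by
      simp only [vK, Matrix.cons_val]; linarith)
    have v2 := val9 P hO hnat hsm (wN_mem hM) hom (c := vK T L Y 0 0 y 0 xb y) (by
      simp only [vK, Matrix.cons_val]; linarith)
    have e1 : vK T L Y 0 0 y 0 0 y 9 = L := by simp [vK]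
    have e2 : vK T L Y 0 0 y 0 0 y 10 = L + y := by simp [vK]
    have e3 : vK T L Y 0 0 y 0 xb y 9 = L + xb := by simp [vK]
    have e4 : vK T L Y 0 0 y 0 xb y 10 = L + y := by simp [vK]
    rw [e1, e2] at v1
    rw [e3, e4] at v2
    rw [v1, v2] at s3
    linear_combination s1 + s2 - s3
  · intro y x t x0 xt ty yT
    have y0 : 0 ≤ y := (x0.trans xt).trans ty
    have m1 : vK T L Y 0 0 y x 0 y ∈ coneM Ma :=
      vm le_rfl le_rfl hT0 y0 yT x0 ((xt.trans ty).trans yT) le_rfl hT0 y0 yT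
    have m2 : vK T L Y 0 0 y t 0 y ∈ coneM Ma :=
      vm le_rfl le_rfl hT0 y0 yT (x0.trans xt) (ty.trans yT) le_rfl hT0 y0 yT
    have h1 := h.sharp _ m1 _ m2 (by intro i; fin_cases i <;> simp [vK, xt])
    have h2 : ∑ i, (vK T L Y 0 0 y t 0 y i - vK T L Y 0 0 y x 0 y i) = t - x := by
      simp [Fin.sum_univ_succ, vK]
    rw [h2] at h1
    linarith
  · intro t t0 tT
    rw [hγ t t0]
    have := hL t t0 (by linarith)
    linarith

end main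

end Crest.Agent.R136.F2k569
end

-- ▼ part R136/F2b_569
section

/-!
# R136, case F at `θ0 = θ2` (helper569): `X_b` is exact given `N`, at any tangent

* `maF_AF`, `plK_TF` : walls and plane of the rung `s = 1 + κ`
* `xbK_pt` : `1 ≤ r₉ / (1 + κ) + φ₉ wN` at a homogeneous point of the rung
* **`xbN_tan`** : `X_b : y` is full given `N : y`, at every tangent of a stage, at every scale
* **`xn_tan`** : the same in the box form of 683's `slope_pt`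
* **`F1_tan2`, `F1_fl2`** : the rung `s = 1 + κ` at any tangent, `θ 0 = θ 2`
-/

set_option autoImplicit false
set_option linter.unusedVariables false

open Finset Filter Topology

namespace Crest.Agent.R136.F2b569

open Crest.Agent.R138.Ex926 (Base U IsTan)
open Crest.Agent.R136.Net191
open Crest.Agent.R136.NetQ186
open Crest.Agent.R136.Gf356
open Crest.Agent.R136.Ev356 (mv)
open Crest.Agent.R136.Wq638
open Crest.Agent.R136.GeoQ186 (scl)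
open Crest.Agent.R136.NatT550
open Crest.Agent.R136.NatR550 (nL)
open Crest.Agent.R136.Top484
open Crest.Agent.R136.LdF511
open Crest.Agent.R136.LdF3511
open Crest.Agent.R136.LdF4511
open Crest.Agent.R136.LdF5511
open Crest.Agent.R136.LdF7511
open Crest.Agent.R136.LdF9511
open Crest.Agent.R136.LdF5683 (bN bN_legal TF_one mem_of_legal slope_pt F1_num)
open Crest.Agent.R136.LdF6146 (ptV_ofI)
open Crest.Agent.R136.Dl667
open Crest.Agent.R136.F2k569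
open Crest.Agent.R136.Tb628 (oS oS_eq)
open Crest.Agent.R136.K2S774 (cn Prf JT Stage RecD RungD BaseOk ind1 A2)
open Crest.Agent.R136.K2A146 (FLemA)
open Crest.Agent.R136.Lift146 (GA uS uS_in uS_off)
open Crest.Agent.R136.AwJ774 (mA mem_mA coneM_mA aew_of_jt)
open Crest.Agent.R136.Aw413 (coneM AeW)
open Crest.Agent.R136.Dg219 (Walls mw gC dhC nC OutS gC_zero gC_eq gset mem_gset Tn)
open Crest.Agent.R136.Rc146 (OutA)
open Crest.Agent.R136.Dg262 (X)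

/-! ### walls and plane -/

theorem maF_AF : MaF (mA monQ (AF ∅)) where
  sub := fun k e he => (mem_mA.1 he).1
  m256 := AF_of (by simp) (by decide) ⟨by decide, by decide, by decide⟩
  m058 := AF_of (by simp) (by decide) ⟨by decide, by decide, by decide⟩
  m069 := AF_of (by simp) (by decide) ⟨by decide, by decide, by decide⟩
  m289 := AF_of (by simp) (by decide) ⟨by decide, by decide, by decide⟩
  m0710 := mem_mA.2 ⟨by decide, by decide, by decide, by decide⟩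
  no := fun k e he => by
    obtain ⟨_, h1, -⟩ := mem_mA.1 he
    exact h1

theorem plK_TF {θ : Fin 3 → ℝ} (hκ : 0 < θ 1 - θ 2) (h1 : 0 < θ 1) (h02 : θ 0 = θ 2)
    (x : Fin 11 → ℝ) :
    PlK (TF ∅ (θ 1 - θ 2) (1 + (θ 1 - θ 2)) x) (rhoF θ) (θ 1 - θ 2) where
  toPlE := plE_TF hκ h1 (J := ∅) (by simp) (TF_i hκ x).1 (fun _ _ => rfl)
  a1 := by rw [TF_one]; rfl
  a3 := by rw [TF_one]; rfl
  a4 := by rw [TF_one]; rfl
  a7 := by rw [TF_one]; rfl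
  a10 := by rw [TF_one]; rfl
  b4 := by simp only [rhoF, nL, Matrix.cons_val]; linarith
  b7 := by simp only [rhoF, nL, Matrix.cons_val]; linarith
  b10 := by simp only [rhoF, nL, Matrix.cons_val]; linarith

/-! ### from the point at infinity to every scale -/

/-- the group of `X_b`: the loss of `N` at infinity bounds the loss at every scale -/
theorem xbN_of {a b : Fin 11 → ℝ} {κ : ℝ} {L : Set (Fin 11 → ℝ)} {f : (Fin 11 → ℝ) → ℝ} {r9 : ℝ}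
    (P : PlK a b κ) (G : GA (gC a b) L a b (dhC a b) (nC a b) (gC a b 9) f r9)
    (mw : wN ∈ L) {e2 : ℝ} (key : 1 ≤ r9 / (1 + κ) + e2)
    (tr : ∀ C e : ℝ, (∀ s : ℝ, 0 ≤ s → C + f (s • (1 + κ) • wN) ≤ e * s) → (1 + κ) * e2 ≤ e)
    {y : ℝ} (hy : 0 ≤ y) :
    f (Pi.single 9 y + Pi.single 10 y) + y ≤ f (Pi.single 10 y) := by
  rcases hy.eq_or_lt with rfl | hy0
  · simp
  have hκ := P.κ0
  have p1 : (0 : ℝ) < 1 + κ := by linarith
  have dh9 : dhC a b 9 = 1 + κ := by unfold dhC; rw [if_neg P.n9, P.a9]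
  have dh10 : dhC a b 10 = 1 + κ := by unfold dhC; rw [if_neg P.n10, P.a10]
  have hm : (1 + κ) • wN ∈ L := G.smul _ mw _ p1.le
  have e1 : ∀ i, gC a b i = gC a b 9 → ((1 + κ) • wN) i = uS (dhC a b) {10} i := fun i hi => by
    rw [Pi.smul_apply, smul_eq_mul]
    rcases P.grp9 hi with rfl | rfl
    · rw [uS_off (by decide)]; simp [wN]
    · rw [uS_in (by simp), dh10]; simp [wN]
  have hS : uS (dhC a b) {10} ∈ projL (gC a b) L (gC a b 9) := ⟨_, hm, e1⟩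
  have Gp := GA.proj G
  obtain ⟨t, ht⟩ : ∃ t : ℝ, t = y / (1 + κ) := ⟨_, rfl⟩
  have t0 : 0 < t := by rw [ht]; positivity
  have ty : y = t * (1 + κ) := by rw [ht]; field_simp
  -- superadditivity
  have sup : ∀ s : ℝ, 0 ≤ s → f (t • uS (dhC a b) {10}) + f (s • uS (dhC a b) {10}) ≤
      f (t • uS (dhC a b) {10}) / t * s := by
    intro s hs
    have n0 : 0 ≤ -f (t • uS (dhC a b) {10}) := by
      have := Gp.mono_y hS le_rfl t0.le
      rw [zero_smul, Gp.zero, neg_zero] at this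
      exact this
    have n1 : ((⌊s / t⌋₊ : ℕ) : ℝ) * t ≤ s := by
      have := Nat.floor_le (div_nonneg hs t0.le)
      rwa [le_div_iff₀ t0] at this
    have n2 : s / t - 1 ≤ ((⌊s / t⌋₊ : ℕ) : ℝ) := by
      have := Nat.lt_floor_add_one (s / t)
      linarith
    have a1 := Gp.super_nat hS t0.le ⌊s / t⌋₊
    have a2 := Gp.mono_y hS (by positivity) n1
    have a3 := mul_le_mul_of_nonneg_right n2 n0
    have a4 : f (t • uS (dhC a b) {10}) / t * s = s / t * f (t • uS (dhC a b) {10}) := by ring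
    rw [a4]
    linarith
  have hφ2 := tr (f (t • uS (dhC a b) {10})) (f (t • uS (dhC a b) {10}) / t) fun s hs => by
    rw [G.loc (s • (1 + κ) • wN) (s • uS (dhC a b) {10}) fun i hi => by
      show s • ((1 + κ) • wN) i = s • uS (dhC a b) {10} i
      rw [e1 i hi]]
    exact sup s hs
  have e3 : f (t • uS (dhC a b) {10}) = f (Pi.single 10 y) := G.loc _ _ fun i hi => by
    rw [Pi.smul_apply, smul_eq_mul]
    rcases P.grp9 hi with rfl | rfl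
    · rw [uS_off (by decide)]; simp
    · rw [uS_in (by simp), dh10, Pi.single_eq_same, ty]
  rw [e3, le_div_iff₀ t0] at hφ2
  have e4 : f (Pi.single 9 y + Pi.single 10 y) = f (Tn a b (t, 0)) := G.loc _ _ fun i hi => by
    rcases P.grp9 hi with rfl | rfl
    · simp only [Tn, P.a9, Pi.add_apply]
      simp [ty, mul_comm]
    · simp only [Tn, P.a10, Pi.add_apply]
      simp [ty, mul_comm]
  have e5 : f (Tn a b (t, 0)) = -(r9 * t) := G.rate _ (G.nat _) t fun i hi => by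
    rcases P.grp9 hi with rfl | rfl
    · rw [dh9]; simp [Tn, P.a9, mul_comm]
    · rw [dh10]; simp [Tn, P.a10, mul_comm]
  rw [e4, e5]
  have k1 : r9 / (1 + κ) * (t * (1 + κ)) = r9 * t := by field_simp
  have k2 := mul_le_mul_of_nonneg_right key (mul_nonneg t0.le p1.le)
  have k3 : (r9 / (1 + κ) + e2) * (t * (1 + κ)) = r9 * t + (1 + κ) * e2 * t := by
    rw [add_mul, k1]; ring
  rw [k3, one_mul, ← ty] at k2
  linarith

section pt

variable {η : ℝ} {p : Par4} {D : Dat4} {I1 : ℕ → Finset (ℕ × ℝ)} {π : Equiv.Perm (Fin 3)}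
  {eE fA fB : ℕ → ℕ × ℝ → ℝ} {V T : Fin 11 → Prop} {w0 R T0 : ℝ} {PD : Set (Fin 11 → ℝ)}
  {ν own : (Fin 11 → ℝ) → ℝ} {c₀ : ℝ} {lam lo : (Fin 11 → ℝ) → ℝ} {A : ℝ × ℝ}
  {φ : ℕ → (Fin 11 → ℝ) → ℝ} {r : ℕ → ℝ}

/-- **`X_b` is exact given `N`**, at a homogeneous point of the rung -/
theorem xbK_pt (h : Thick η p D I1 π eE fA fB V T w0 R T0 PD ν own c₀)
    (hκ : 0 < p.θ 1 - p.θ 2) (h02 : p.θ 0 = p.θ 2) (hV2 : V 2) (hV3 : ¬ V 3) (hV4 : ¬ V 4)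
    (hP : PtV D.B D.I I1 (couQ D.B D.lev D.w w0 (incQ π D.L eE fA fB)) p V T ∅
      (TF ∅ (p.θ 1 - p.θ 2) (1 + (p.θ 1 - p.θ 2)) 0) (rhoF p.θ) lam lo A φ r)
    (hH : HomV ∅ (TF ∅ (p.θ 1 - p.θ 2) (1 + (p.θ 1 - p.θ 2)) 0) (rhoF p.θ) φ)
    (nb : K2S774.Nat (mw monQ) (AF ∅) (rhoF p.θ)) :
    1 ≤ r (gC (TF ∅ (p.θ 1 - p.θ 2) (1 + (p.θ 1 - p.θ 2)) 0) (rhoF p.θ) 9) /
        (1 + (p.θ 1 - p.θ 2)) +
      φ (gC (TF ∅ (p.θ 1 - p.θ 2) (1 + (p.θ 1 - p.θ 2)) 0) (rhoF p.θ) 9) wN := by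
  have hθ := h.tp.ok.θ1
  have P := plK_TF hκ hθ h02 0
  have a0 := (TF_i hκ 0).1
  have na : K2S774.Nat (mw monQ) (AF ∅) (TF ∅ (p.θ 1 - p.θ 2) (1 + (p.θ 1 - p.θ 2)) 0) :=
    fun w hw => natTF _ _ _ hw
  have hM := maF_AF
  refine xbK (F := fun n i => scl (uH D.B D.lev w0 n) (uA D.B D.lev D.w w0 n)
    (uB D.B D.lev D.w w0 n) (uY D.B D.lev D.w w0 n) (incQ π D.L eE fA fB n i)) hP.aew hM
    (by norm_num) (fun n i _ j _ => rfl) h.ext.ne P (by rw [coneM_mA]; exact hP.out)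
    (fun z => by rw [coneM_mA]; exact K2B146.cn_nat na nb z) (fun s hs => ?_)
    (fun k hk => vis2 h hV3 hV4 hk.1) ⟨tied2 h.tp.slots hV2, hV2, ?_⟩ (c := p.q 1) h.tp.ok.g0.2 ?_
  · exact hH _ (fun i hi => dh_pos a0 P.g9 hi) wN (by
      have := wN_mem hM
      rwa [coneM_mA] at this) s hs
  · rw [P.a0, P.a2, oS_eq]
    simp
  · have h1 := (hP.toSwI.ca hθ P.a5 (c := 0) K2S774.cn_zero zero_le_one
      (fun i _ _ _ => by simp)).2
    rw [one_smul, zero_add, hP.aew.zero] at h1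
    linarith

/-- **`X_b : y` is full given `N : y`**, at every tangent of a stage and at every scale -/
theorem xbN_tan (h : Thick η p D I1 π eE fA fB V T w0 R T0 PD ν own c₀) {v : ℝ} (h0 : 0 < v)
    (h1 : v < 1) (hκ : 0 < p.θ 1 - p.θ 2) (h02 : p.θ 0 = p.θ 2) (hV2 : V 2) (hV3 : ¬ V 3)
    (hV4 : ¬ V 4) {Qd : Set (Fin 11 → ℝ)} (hQ : QdOk p.θ V ∅ Qd)
    (hst : StVQ Qd p V ν own w0 R v ∅ lam lo) {z : ℝ × ℝ} (hz : z.1 < 0) {k : ℕ → ℝ}
    {lam' lo' : (Fin 11 → ℝ) → ℝ} (kpos : ∀ l, 0 < k l) (k0 : Tendsto k atTop (𝓝 0))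
    (H1 : IsTan (cn (mw monQ) (AF ∅)) (cn (mw monQ) (AF ∅)) lam
      (fun _ => X 0 (TF ∅ (p.θ 1 - p.θ 2) (1 + (p.θ 1 - p.θ 2)) 0) (rhoF p.θ) z) k lam')
    (H2 : IsTan (cn (mw monQ) (AF ∅)) (cn (mw monQ) (AF ∅)) lo
      (fun _ => X 0 (TF ∅ (p.θ 1 - p.θ 2) (1 + (p.θ 1 - p.θ 2)) 0) (rhoF p.θ) z) k lo')
    {x' : ℕ → Fin 11 → ℝ} {h' : ℕ → ℝ}
    (hJT : JT (mw monQ) (AF ∅) (Leg monQ R) ν own (recF p.θ w0 (R - 1) v) x' h' lam' lo')
    (hB : BaseOk {k | V k} 0 (oS p.θ) (TF ∅ (p.θ 1 - p.θ 2) (1 + (p.θ 1 - p.θ 2)) 0)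
      (recF p.θ w0 (R - 1) v) x' h')
    {A : ℝ × ℝ} {φ : ℕ → (Fin 11 → ℝ) → ℝ} {rt : ℕ → ℝ}
    (hO : OutA (gC (TF ∅ (p.θ 1 - p.θ 2) (1 + (p.θ 1 - p.θ 2)) 0) (rhoF p.θ))
      (cn (mw monQ) (AF ∅)) (TF ∅ (p.θ 1 - p.θ 2) (1 + (p.θ 1 - p.θ 2)) 0) (rhoF p.θ)
      (dhC (TF ∅ (p.θ 1 - p.θ 2) (1 + (p.θ 1 - p.θ 2)) 0) (rhoF p.θ))
      (nC (TF ∅ (p.θ 1 - p.θ 2) (1 + (p.θ 1 - p.θ 2)) 0) (rhoF p.θ)) lam' A φ rt)
    {y : ℝ} (hy : 0 ≤ y) :
    φ (gC (TF ∅ (p.θ 1 - p.θ 2) (1 + (p.θ 1 - p.θ 2)) 0) (rhoF p.θ) 9)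
        (Pi.single 9 y + Pi.single 10 y) + y ≤
      φ (gC (TF ∅ (p.θ 1 - p.θ 2) (1 + (p.θ 1 - p.θ 2)) 0) (rhoF p.θ) 9) (Pi.single 10 y) := by
  have hθ := h.tp.ok.θ1
  have P := plK_TF hκ hθ h02 0
  have a0 := (TF_i hκ 0).1
  have na : K2S774.Nat (mw monQ) (AF ∅) (TF ∅ (p.θ 1 - p.θ 2) (1 + (p.θ 1 - p.θ 2)) 0) :=
    fun w hw => natTF _ _ _ hw
  have nb : K2S774.Nat (mw monQ) (AF ∅) (rhoF p.θ) := hst.nat_b hQ.rd.nat fun i hi => rfl
  obtain ⟨lam2, lo2, x2, h2, φ2, hJ2, hB2, hP2, hhom, -, htφ⟩ :=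
    ptV_ofI h h0 h1 a0 (fun _ _ => rfl) (tie_TF h hV3 hV4 (J := ∅) (by simp) _ 0) hQ hst hz kpos
      k0 H1 H2 hJT hB hO
  have key := xbK_pt h hκ h02 hV2 hV3 hV4 hP2 hhom nb
  have p1 : (0 : ℝ) < 1 + (p.θ 1 - p.θ 2) := by linarith
  have mw : wN ∈ cn (Dg219.mw monQ) (AF ∅) := by
    have := wN_mem maF_AF
    rwa [coneM_mA] at this
  refine xbN_of P (K2B146.cn_ga na nb hO (i0 := 9) rfl fun i hi => dh_pos a0 P.g9 hi) mw key
    (fun C e he => ?_) hy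
  have hφ2 := htφ _ (mem_gset 9) _ (K2S774.cn_smul mw p1.le) 0 K2S774.cn_zero C e 0 fun s hs => by
    rw [smul_zero, hO.zero _ 0 fun i _ => rfl, zero_add]
    exact he s hs
  rw [hP2.out.zero _ 0 fun i _ => rfl, zero_add,
    hhom _ (fun i hi => dh_pos a0 P.g9 hi) wN mw _ p1.le] at hφ2
  exact hφ2

/-- **`X_b` is full given `z, X_a, F_b, N : x`** at every tangent of a stage -/
theorem xn_tan (h : Thick η p D I1 π eE fA fB V T w0 R T0 PD ν own c₀) {v : ℝ} (h0 : 0 < v)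
    (h1 : v < 1) (hκ : 0 < p.θ 1 - p.θ 2) (h02 : p.θ 0 = p.θ 2) (hV2 : V 2) (hV3 : ¬ V 3)
    (hV4 : ¬ V 4) {Qd : Set (Fin 11 → ℝ)} (hQ : QdOk p.θ V ∅ Qd)
    (hst : StVQ Qd p V ν own w0 R v ∅ lam lo) {z : ℝ × ℝ} (hz : z.1 < 0) {k : ℕ → ℝ}
    {lam' lo' : (Fin 11 → ℝ) → ℝ} (kpos : ∀ l, 0 < k l) (k0 : Tendsto k atTop (𝓝 0))
    (H1 : IsTan (cn (mw monQ) (AF ∅)) (cn (mw monQ) (AF ∅)) lam
      (fun _ => X 0 (TF ∅ (p.θ 1 - p.θ 2) (1 + (p.θ 1 - p.θ 2)) 0) (rhoF p.θ) z) k lam')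
    (H2 : IsTan (cn (mw monQ) (AF ∅)) (cn (mw monQ) (AF ∅)) lo
      (fun _ => X 0 (TF ∅ (p.θ 1 - p.θ 2) (1 + (p.θ 1 - p.θ 2)) 0) (rhoF p.θ) z) k lo')
    {x' : ℕ → Fin 11 → ℝ} {h' : ℕ → ℝ}
    (hJT : JT (mw monQ) (AF ∅) (Leg monQ R) ν own (recF p.θ w0 (R - 1) v) x' h' lam' lo')
    (hB : BaseOk {k | V k} 0 (oS p.θ) (TF ∅ (p.θ 1 - p.θ 2) (1 + (p.θ 1 - p.θ 2)) 0)
      (recF p.θ w0 (R - 1) v) x' h')
    {A : ℝ × ℝ} {φ : ℕ → (Fin 11 → ℝ) → ℝ} {rt : ℕ → ℝ}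
    (hO : OutA (gC (TF ∅ (p.θ 1 - p.θ 2) (1 + (p.θ 1 - p.θ 2)) 0) (rhoF p.θ))
      (cn (mw monQ) (AF ∅)) (TF ∅ (p.θ 1 - p.θ 2) (1 + (p.θ 1 - p.θ 2)) 0) (rhoF p.θ)
      (dhC (TF ∅ (p.θ 1 - p.θ 2) (1 + (p.θ 1 - p.θ 2)) 0) (rhoF p.θ))
      (nC (TF ∅ (p.θ 1 - p.θ 2) (1 + (p.θ 1 - p.θ 2)) 0) (rhoF p.θ)) lam' A φ rt)
    {x : ℝ} (hx : 0 ≤ x) : x ≤ lam' (bN x 0 x x) - lam' (bN x x x x) := by
  have P := plK_TF hκ h.tp.ok.θ1 h02 0
  have key := xbN_tan h h0 h1 hκ h02 hV2 hV3 hV4 hQ hst hz kpos k0 H1 H2 hJT hB hO hx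
  have hL : ∀ c, Legal monQ c → c ∈ cn (mw monQ) (AF ∅) := fun c hc => mem_of_legal c hc
  rw [one_grp hO.toOutS (hL _ (bN_legal le_rfl hx hx hx le_rfl (by linarith)))
    (hL _ (bN_legal hx le_rfl hx hx le_rfl (by linarith)))
    (gC (TF ∅ (p.θ 1 - p.θ 2) (1 + (p.θ 1 - p.θ 2)) 0) (rhoF p.θ) 9) (fun i hi => by
      have h9 : i ≠ 9 := fun e => hi (by rw [e])
      fin_cases i <;> simp [bN] at h9 ⊢)]
  rw [hO.loc _ (bN x 0 x x) (Pi.single 10 x) (fun i hi => by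
      rcases P.grp9 hi with rfl | rfl <;> simp [bN]),
    hO.loc _ (bN x x x x) (Pi.single 9 x + Pi.single 10 x) (fun i hi => by
      rcases P.grp9 hi with rfl | rfl <;> simp [bN])]
  linarith

/-- **the rung `s = 1 + κ` at any tangent of a stage, `θ 0 = θ 2`** -/
theorem F1_tan2 (h : Thick η p D I1 π eE fA fB V T w0 R T0 PD ν own c₀) {v : ℝ} (h0 : 0 < v)
    (h1 : v < 1) (hκ : 0 < p.θ 1 - p.θ 2) (h02 : p.θ 0 = p.θ 2) (hV2 : V 2) (hV3 : ¬ V 3)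
    (hV4 : ¬ V 4) {Qd : Set (Fin 11 → ℝ)} (hQ : QdOk p.θ V ∅ Qd)
    (hst : StVQ Qd p V ν own w0 R v ∅ lam lo) {z : ℝ × ℝ} (hz : z.1 < 0) {k : ℕ → ℝ}
    {lam' lo' : (Fin 11 → ℝ) → ℝ} (kpos : ∀ l, 0 < k l) (k0 : Tendsto k atTop (𝓝 0))
    (H1 : IsTan (cn (mw monQ) (AF ∅)) (cn (mw monQ) (AF ∅)) lam
      (fun _ => X 0 (TF ∅ (p.θ 1 - p.θ 2) (1 + (p.θ 1 - p.θ 2)) 0) (rhoF p.θ) z) k lam')
    (H2 : IsTan (cn (mw monQ) (AF ∅)) (cn (mw monQ) (AF ∅)) lo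
      (fun _ => X 0 (TF ∅ (p.θ 1 - p.θ 2) (1 + (p.θ 1 - p.θ 2)) 0) (rhoF p.θ) z) k lo')
    {x' : ℕ → Fin 11 → ℝ} {h' : ℕ → ℝ}
    (hJT : JT (mw monQ) (AF ∅) (Leg monQ R) ν own (recF p.θ w0 (R - 1) v) x' h' lam' lo')
    (hB : BaseOk {k | V k} 0 (oS p.θ) (TF ∅ (p.θ 1 - p.θ 2) (1 + (p.θ 1 - p.θ 2)) 0)
      (recF p.θ w0 (R - 1) v) x' h')
    {A : ℝ × ℝ} {φ : ℕ → (Fin 11 → ℝ) → ℝ} {rt : ℕ → ℝ}
    (hO : OutA (gC (TF ∅ (p.θ 1 - p.θ 2) (1 + (p.θ 1 - p.θ 2)) 0) (rhoF p.θ))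
      (cn (mw monQ) (AF ∅)) (TF ∅ (p.θ 1 - p.θ 2) (1 + (p.θ 1 - p.θ 2)) 0) (rhoF p.θ)
      (dhC (TF ∅ (p.θ 1 - p.θ 2) (1 + (p.θ 1 - p.θ 2)) 0) (rhoF p.θ))
      (nC (TF ∅ (p.θ 1 - p.θ 2) (1 + (p.θ 1 - p.θ 2)) 0) (rhoF p.θ)) lam' A φ rt)
    (hvis : lam' (ind1 {3}) < 0) : A.1 ≤ -(4 + 2 * (p.θ 1 - p.θ 2)) := by
  have a0 := (TF_i hκ 0).1
  have hTie := tie_TF h hV3 hV4 (J := ∅) (by simp) (1 + (p.θ 1 - p.θ 2)) 0
  have hP := ptV_of h h0 h1 a0 (fun _ _ => rfl) hTie hQ hst hz kpos k0 H1 H2 hJT hB hO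
  obtain ⟨-, f8, f9⟩ := full_tan h h0 h1 hκ hV2 (by simp) a0 (fun _ _ => rfl) hTie hQ hst
    hz kpos k0 H1 H2 hJT hB hO
  exact slope_pt h hκ hV3 (fun h4 => absurd h4 hV4) hP hvis (fun y hy => (f8 y hy).le)
    fun x hx => xn_tan h h0 h1 hκ h02 hV2 hV3 hV4 hQ hst hz kpos k0 H1 H2 hJT hB hO (by linarith)

/-- **F-lemma of the rung `s = 1 + κ`, `θ 0 = θ 2`** (any D-max cone) -/
theorem F1_fl2 (h : Thick η p D I1 π eE fA fB V T w0 R T0 PD ν own c₀) (hη : η ≤ 1 / 8) {v : ℝ}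
    (h0 : 0 < v) (h1 : v < 1) (hκ : 0 < p.θ 1 - p.θ 2) (h02 : p.θ 0 = p.θ 2) (hV2 : V 2)
    (hV3 : ¬ V 3) (hV4 : ¬ V 4) {Qd : Set (Fin 11 → ℝ)} (hQ : QdOk p.θ V ∅ Qd)
    (hst : StVQ Qd p V ν own w0 R v ∅ lam lo) :
    FlV p V ν own w0 R v ∅ (1 + (p.θ 1 - p.θ 2)) 0 (rhoF p.θ) lam lo
      (fun lam' => lam' (ind1 {3}) < 0) (p.g / 2) :=
  fun z hz D' hD' k lam' lo' kpos k0 H1 H2 x' h' hJ hB φ rt hO hVis =>
    F1_num h.tp.ok hη hκ (F1_tan2 h h0 h1 hκ h02 hV2 hV3 hV4 hQ hst hz kpos k0 H1 H2 hJ hB hO hVis)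

end pt

end Crest.Agent.R136.F2b569
end

-- ▼ part R136/F2a_355
section

/-!
# R136, case `V 2, ¬ V 3, ¬ V 4` at `θ 0 = θ 2` : instance of the ladder `K2T_774` (helper355)

Copy of the last part of `LdF3_511` (helper511) at `θ 0 = θ 2`.  There D-max near the record holds
on the smaller set of directions `Qd2 = {d ∈ QdF | d 6 ≤ d 7}` (`C_b ≤ P`).

* `Qd2`, `qd2_rec`, `qd2_ray`, `qd2_ca` : the D-max directions
* `recF_dmax2` : D-max near the record point on `Qd2`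
* `recD_F2`, `rungD2_i`, `rungD2_ii`, `rungD2_iii` (`s ≤ 1 + κ`)
* `stage_F2`, `ladder_F2`
-/

set_option autoImplicit false
set_option linter.unusedVariables false

open Finset Filter Topology

namespace Crest.Agent.R136.F2a355

open Crest.Agent.R138.Ex926 (Base U QProf cls mem_cls)
open Crest.Agent.R136.Net191
open Crest.Agent.R136.NetQ186
open Crest.Agent.R136.Wq638
open Crest.Agent.R136.Lq196
open Crest.Agent.R136.NatT550
open Crest.Agent.R136.NatR550 (nL coneN DN nat_dmax rec_ge rec_eq rec_leg)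
open Crest.Agent.R136.Top484
open Crest.Agent.R136.LdF511
open Crest.Agent.R136.LdF3511
open Dg262 (X SupOn)
open Dg219 (mw mem_mwL Walls Tn)
open K2S774 (cn Prf Stage RecD RungD FLem ind1 A2 stage_init)

/-! ### D-max directions at `θ 0 = θ 2` -/

/-- directions (relative to a record point) where D-max holds at `θ 0 = θ 2` -/
def Qd2 (θ : Fin 3 → ℝ) : Set (Fin 11 → ℝ) :=
  {d | d ∈ W10 ∧ (θ 0 = 1 → d 0 + d 7 ≤ 0) ∧ d 6 ≤ d 7}

theorem qd2_qdF {θ : Fin 3 → ℝ} {d : Fin 11 → ℝ} (hd : d ∈ Qd2 θ) : d ∈ QdF θ :=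
  ⟨hd.1, hd.2.1⟩

theorem mem_Qd2 {θ : Fin 3 → ℝ} {d : Fin 11 → ℝ} : d ∈ Qd2 θ ↔ d ∈ QdF θ ∧ d 6 ≤ d 7 :=
  ⟨fun h => ⟨⟨h.1, h.2.1⟩, h.2.2⟩, fun h => ⟨h.1.1, h.1.2, h.2⟩⟩


theorem qd2_rec {θ : Fin 3 → ℝ} (h02 : θ 0 = θ 2) {d : Fin 11 → ℝ} (hd : d ∈ Qd2 θ) (x : ℝ)
    {t : ℝ} (ht : 0 ≤ t) : x • rhoF θ + t • d ∈ Qd2 θ := by
  refine mem_Qd2.2 ⟨qd_rec (qd2_qdF hd) x ht, ?_⟩
  have := mul_le_mul_of_nonneg_left hd.2.2 ht
  simp only [rhoF, nL, Pi.add_apply, Pi.smul_apply, smul_eq_mul, Matrix.cons_val, h02]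
  linarith



/-- **record direction and D-max cone** at `θ 0 = θ 2` -/
theorem recD_F2 {θ : Fin 3 → ℝ} (h02 : θ 0 = θ 2) (J : Finset (Fin 11)) :
    RecD (mw monQ) (AF J) (rhoF θ) (Qd2 θ) {2} 0 (oF θ) where
  full := fun w hw => AF_full hw
  nat := fun w hw => nat_AF _ _ _ _ (AF_mono (Finset.empty_subset J) hw)
  qd := fun d hd ξ t ht => qd2_rec h02 hd ξ ht
  tie := fun i hi => tie_rec θ i (by simpa using hi)




section ladder

variable {η : ℝ} {p : Par4} {D : Dat4} {I1 : ℕ → Finset (ℕ × ℝ)} {π : Equiv.Perm (Fin 3)}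
  {eE fA fB : ℕ → ℕ × ℝ → ℝ} {V T : Fin 11 → Prop} {w0 R T0 : ℝ} {PD : Set (Fin 11 → ℝ)}
  {ν own : (Fin 11 → ℝ) → ℝ} {c₀ : ℝ}

/-- **D-max near the record point** at `θ 0 = θ 2`, directions with `d 6 ≤ d 7` -/
theorem recF_dmax2 (h : Thick η p D I1 π eE fA fB V T w0 R T0 PD ν own c₀) {R1 v : ℝ}
    (hR : R1 < R) (hR1 : 2 * w0 + T0 < R1) (h0 : 0 < v) (h1 : v < 1) (hκ : 0 < p.θ 1 - p.θ 2)
    (h02 : p.θ 0 = p.θ 2) {d : Fin 11 → ℝ} (hd : d ∈ Qd2 p.θ) :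
    ∀ᶠ t in 𝓝[≥] (0:ℝ), ν (recF p.θ w0 R1 v + t • d) ≤ ν (recF p.θ w0 R1 v) + t * DlF p d := by
  have hleg0 := recF_leg_ev h.tp.big hR hR1 h0 h1 hd.1
  have hleg := recF_leg_ev h.tp.big hR hR1 h0 h1 (upX_W10 hd.1)
  have hle := le_upX hd.1
  have hθ := h.tp.ok.θ1
  have e1 : ∀ᶠ t in 𝓝[≥] (0:ℝ), 0 ≤ v + t * d 0 := ev_le_of _ h0
  have e2 : ∀ᶠ t in 𝓝[≥] (0:ℝ), 0 ≤ (1 - v) + t * (-d 0) := ev_le_of _ (by linarith)
  have e3 : ∀ᶠ t in 𝓝[≥] (0:ℝ), -p.θ 1 < -(p.θ 1 * v) + t * d 5 :=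
    nhdsWithin_le_nhds (ev_lt _ (by nlinarith))
  have e4 : ∀ᶠ t in 𝓝[≥] (0:ℝ), min 0 (p.θ 1 - p.θ 2) ≤
      (p.θ 1 - p.θ 2) * v + t * (d 6 - d 5) := by
    refine ev_le_of _ ?_
    rw [min_eq_left hκ.le]; positivity
  have e5 : ∀ᶠ t in 𝓝[≥] (0:ℝ), min 0 (p.θ 2 - p.θ 0) ≤
      (p.θ 2 - p.θ 0) * v + t * (d 7 - d 6) := by
    filter_upwards [self_mem_nhdsWithin] with t ht
    have ht' : (0:ℝ) ≤ t := ht
    have := mul_nonneg ht' (sub_nonneg.2 hd.2.2)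
    rw [h02, sub_self, min_self]
    linarith
  have e6 : ∀ᶠ t in 𝓝[≥] (0:ℝ), (1 - p.θ 0) * v + t * (d 0 + d 7) ≤ max 0 (1 - p.θ 0) := by
    by_cases hc : p.θ 0 = 1
    · filter_upwards [self_mem_nhdsWithin] with t ht
      have ht' : (0:ℝ) ≤ t := ht
      have := mul_nonneg ht' (neg_nonneg.2 (hd.2.1 hc))
      rw [hc, sub_self, max_self]
      linarith
    · have hlt : (1 - p.θ 0) * v < max 0 (1 - p.θ 0) := by
        rcases lt_or_gt_of_ne hc with hlt | hlt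
        · rw [max_eq_right (by linarith)]
          have : 0 < 1 - p.θ 0 := by linarith
          nlinarith
        · rw [max_eq_left (by linarith)]
          have : 0 < p.θ 0 - 1 := by linarith
          nlinarith
      filter_upwards [ev_le_of (-(d 0 + d 7)) (a := 0)
        (b := max 0 (1 - p.θ 0) - (1 - p.θ 0) * v) (by linarith)] with t ht
      linarith
  filter_upwards [hleg0, hleg, e1, e2, e3, e4, e5, e6, self_mem_nhdsWithin] with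
    t k00 k0 k1 k2 k3 k4 k5 k6 ht
  have ht' : (0:ℝ) ≤ t := ht
  have hval := rec_eq h hR.le hR1.le h0.le h1
  have hPD : recF p.θ w0 R1 v + t • upX d ∈ PDlin p.θ w0 R := by
    refine ⟨k0, ?_, ?_, ?_, ?_, ?_, ?_⟩ <;>
      simp only [recF, nat4, upX, Pi.add_apply, Pi.smul_apply, smul_eq_mul, Matrix.cons_val] <;>
      linarith
  have hdm := h.ext.dmax _ (h.tp.pd hPD)
  have hsh := (h.ext.lip _ k00 _ k0 (by
    intro k
    have := mul_le_mul_of_nonneg_left (hle k) ht'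
    simp only [Pi.add_apply, Pi.smul_apply, smul_eq_mul]
    linarith)).2
  have hsum : ∑ k, ((recF p.θ w0 R1 v + t • upX d) k - (recF p.θ w0 R1 v + t • d) k) =
      t * ((d 0 + d 5 - d 8) + (d 0 + d 6 - d 9) + (d 0 + d 7 - d 10)) := by
    simp [Fin.sum_univ_succ, upX]
    ring
  rw [hsum] at hsh
  have hDQ : DQ p.g 0 p.q w0 (recF p.θ w0 R1 v + t • upX d) =
      DN p v (-(p.θ 1 * v)) (-(p.θ 2 * v)) (-(p.θ 0 * v)) + t * DlF p (upX d) := by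
    simp only [DQ, DN, DlF, recF, nat4, upX, Pi.add_apply, Pi.smul_apply, smul_eq_mul,
      Matrix.cons_val]
    ring
  have hup : DlF p (upX d) = DlF p d - ((d 0 + d 5 - d 8) + (d 0 + d 6 - d 9) +
      (d 0 + d 7 - d 10)) := by
    simp only [DlF, upX, Matrix.cons_val]; ring
  rw [hDQ, hup] at hdm
  unfold recF at hdm hsh ⊢
  rw [hval]
  nlinarith

/-- a stage at `θ 0 = θ 2` with the dropped slots `J` -/
abbrev StF2 (p : Par4) (ν own : (Fin 11 → ℝ) → ℝ) (w0 R v : ℝ) (J : Finset (Fin 11))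
    (lam lo : (Fin 11 → ℝ) → ℝ) : Prop :=
  Stage (mw monQ) (Leg monQ R) ν own (11 : ℕ) (recF p.θ w0 (R - 1) v) (rhoF p.θ) (DlFL p)
    (Qd2 p.θ) {5, 1} {2} 0 (oF p.θ) 1 (AF J) ↑J lam lo

/-- **the first stage** at `θ 0 = θ 2` -/
theorem stage_F2 (h : Thick η p D I1 π eE fA fB V T w0 R T0 PD ν own c₀) {v : ℝ} (h0 : 0 < v)
    (h1 : v < 1) (hκ : 0 < p.θ 1 - p.θ 2) (h02 : p.θ 0 = p.θ 2) (hV3 : ¬ V 3) (hV4 : ¬ V 4) :
    ∃ lam lo : (Fin 11 → ℝ) → ℝ, StF2 p ν own w0 R v ∅ lam lo := by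
  obtain ⟨r1, r2, r3⟩ := R1_room h.tp.big
  have hge : 𝓝[>] (0:ℝ) ≤ 𝓝[≥] (0:ℝ) := nhdsWithin_mono _ Set.Ioi_subset_Ici_self
  have hr0 : own (recF p.θ w0 (R - 1) v) = 1 - v := by
    obtain ⟨t0, ht0, ht⟩ := ev_ge (recF_own h r2 r1 h0 h1 hV3 hV4 (c := 0)
      (by refine ⟨?_, ?_, ?_, ?_, ?_, ?_, ?_, ?_, ?_, ?_⟩ <;> simp) (by simp))
    have := ht 0 le_rfl ht0.le
    simpa using this
  have key := stage_init (Q := mw monQ) (P := Leg monQ R) (ν := ν) (own := own) (K := (11 : ℕ))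
    (r0 := recF p.θ w0 (R - 1) v) (ρ := rhoF p.θ) (Dl := DlFL p) (Qd := Qd2 p.θ)
    (Z := {5, 1}) (Tie := {2}) (kz := 0) (o := oF p.θ) (τ := 1) (A := AF ∅) (prf_ext h.ext)
    (recD_F2 h02 ∅) (fun w hw => by
      rw [recF_nat _ _ _ _ hw]; simp [mw]) (fun w hw => by
      have := (recF_strict h.tp.big r1 h0 h1 w).resolve_left hw
      simpa [mw] using this) ?_ ?_ ?_ ?_ ?_
  · obtain ⟨lam, lo, hS⟩ := key
    refine ⟨lam, lo, ?_⟩
    unfold StF2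
    rw [Finset.coe_empty]
    exact hS
  · intro C
    obtain ⟨δ, hδ, hl⟩ := recF_leg h.tp.big r2 r1 h0 h1
    refine ⟨δ / (|C| + 1), by positivity, fun t ht ht' c hc hcC => ?_⟩
    have hc' : c ∈ W10 := by rw [← cn_W10]; exact hc
    refine hl _ ?_ fun k => ?_
    · rw [← cn_W10]
      exact K2S774.cn_smul hc ht.le
    · rw [Pi.smul_apply, smul_eq_mul, abs_mul, abs_of_pos ht]
      have h1 := norm_le_pi_norm c k
      rw [Real.norm_eq_abs] at h1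
      have h2 : |c k| ≤ |C| + 1 := by linarith [le_abs_self C]
      rw [lt_div_iff₀ (by positivity)] at ht'
      have := mul_le_mul_of_nonneg_left h2 ht.le
      linarith
  · intro σ
    have e1 : ∀ᶠ t in 𝓝[≥] (0:ℝ), 0 ≤ v + t * σ := ev_le_of _ h0
    have e2 : ∀ᶠ t in 𝓝[≥] (0:ℝ), 0 < (1 - v) + t * (-σ) :=
      nhdsWithin_le_nhds (ev_lt _ (by linarith))
    filter_upwards [hge e1, hge e2] with t k1 k2
    rw [smul_smul, recF_rec h r2.le r1.le h0.le h1 k1 (by linarith)]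
    show _ = _ + t * (σ * DlF p (rhoF p.θ))
    ring
  · intro d hd
    filter_upwards [hge (recF_leg_ev h.tp.big r2 r1 h0 h1 hd.1),
      hge (recF_dmax2 h r2 r1 h0 h1 hκ h02 hd)] with t k1 k2
    exact ⟨k1, k2⟩
  · intro c hc hcT
    have hc' : c ∈ W10 := by rw [← cn_W10]; exact hc
    filter_upwards [hge (recF_own h r2 r1 h0 h1 hV3 hV4 hc' (hcT 2 rfl))] with t k1
    rw [k1, hr0]; ring
  · intro c hc
    have hc' : c ∈ W10 := by rw [← cn_W10]; exact hc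
    filter_upwards [hge (recF_ownu h r2 r1 h0 h1 hc')] with t k1
    rw [hr0]; linarith


end ladder

end Crest.Agent.R136.F2a355
end

-- ▼ part R136/LdF8_774
section

/-!
# R136, case F (slot 21 tied, 31 and 32 not): the ladder over `PtV` (helper774)

`ladder_FQ` : three rungs `J = ∅` (`s = 1 + κ`, drop `F_b`), `J = {3}` (`s = 1`, drop `F_a, P`),
`J = {3, 4, 7}` (`s = s3`, last rung), every rung from one statement about 667's `PtV`, any first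
stage and any D-max cone with `QdOk` (so also `θ 0 = θ 2`);
`ladder_FQ3` : the same with the last rung from the three base rates `RatesF` and `s3 ≤ sF p`;
`ladder_F3` : `θ 0 ≠ θ 2` (first stage = `stage_V`).
-/

set_option autoImplicit false
set_option linter.unusedVariables false

open Finset Filter Topology

namespace Crest.Agent.R136.LdF774

open Crest.Agent.R138.Ex926 (Base U IsTan)
open Crest.Agent.R136.Net191
open Crest.Agent.R136.NetQ186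
open Crest.Agent.R136.Wq638
open Crest.Agent.R136.Lq196
open Crest.Agent.R136.NatT550
open Crest.Agent.R136.NatR550 (nL)
open Crest.Agent.R136.Top484
open Crest.Agent.R136.LdF511
open Crest.Agent.R136.LdF3511
open Crest.Agent.R136.Dl667
open Crest.Agent.R136.Tb628 (oS oS_eq)
open Crest.Agent.R136.K2S774 (cn Prf JT Stage RecD RungD BaseOk ind1 A2 stage_init)
open Crest.Agent.R136.K2A146 (FLemA)
open Dg262 (X)
open Dg219 (mw Walls OutS gC dhC nC gC_zero gC_eq)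
open Rc146 (OutA)

/-! ### the three rungs for any visible slots and any D-max cone -/

/-- `-T'` of a ray of slope `0 ≤ s ≤ 1 + κ` -/
theorem ray_mem {θ : Fin 3 → ℝ} {Qd : Set (Fin 11 → ℝ)}
    (sub : ∀ d ∈ QdF θ, d 6 ≤ d 7 → d ∈ Qd) {κ s : ℝ} (h0 : 0 ≤ s) (h1 : s ≤ 1 + κ) :
    -TpF κ s ∈ Qd := by
  refine sub _ (qd_ray θ κ h0) ?_
  rw [TpF_val]
  simp only [Pi.neg_apply, Matrix.cons_val]
  linarith

/-- **rung (i)**: `s = 1 + κ`, drop `F_b` -/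
theorem rungQ_i {θ : Fin 3 → ℝ} {V : Fin 11 → Prop} {Qd : Set (Fin 11 → ℝ)}
    (sub : ∀ d ∈ QdF θ, d 6 ≤ d 7 → d ∈ Qd) (hV3 : ¬ V 3) (hκ : 0 < θ 1 - θ 2)
    {b : Fin 11 → ℝ} (hb : ∀ i, i ∉ (∅ : Finset (Fin 11)) → b i = rhoF θ i) :
    RungD (mw monQ) (AF ∅) ↑(∅ : Finset (Fin 11)) {5, 1} {k | V k} 0 Qd (rhoF θ)
      (TF ∅ (θ 1 - θ 2) (1 + (θ 1 - θ 2)) 0) (TpF (θ 1 - θ 2) (1 + (θ 1 - θ 2))) b {3} where
  T0 := (TF_i hκ 0).1
  TJ := (TF_i hκ 0).2.1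
  TZ := fun i h1 h2 => (TF_i hκ 0).2.2 i h1 (by simpa using h2)
  natT := fun w hw => natTF _ _ _ hw
  bρ := fun i hi => hb i (by simp)
  TT := fun i hi => TF_off (by simp)
  qd := ray_mem sub (by linarith) le_rfl
  head := fun w hw h => head3 hw h
  JZ := by simp
  JT := by
    intro i hi
    rw [Finset.mem_singleton] at hi
    subst hi
    exact hV3
  Jz := by simp

/-- **rung (ii)**: `s = 1`, drop `F_a, P` -/
theorem rungQ_ii {θ : Fin 3 → ℝ} {V T : Fin 11 → Prop} {Qd : Set (Fin 11 → ℝ)}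
    (sub : ∀ d ∈ QdF θ, d 6 ≤ d 7 → d ∈ Qd) (sl : SlotOk θ V T) (hV4 : ¬ V 4)
    (hκ : 0 < θ 1 - θ 2) {b x : Fin 11 → ℝ} (hx : 0 < x 3)
    (hb : ∀ i, i ∉ ({3} : Finset (Fin 11)) → b i = rhoF θ i) :
    RungD (mw monQ) (AF {3}) ↑({3} : Finset (Fin 11)) {5, 1} {k | V k} 0 Qd (rhoF θ)
      (TF {3} (θ 1 - θ 2) 1 x) (TpF (θ 1 - θ 2) 1) b {4, 7} where
  T0 := (TF_ii hκ hx).1
  TJ := (TF_ii hκ hx).2.1
  TZ := fun i h1 h2 => (TF_ii hκ hx).2.2 i h1 (by simpa using h2)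
  natT := fun w hw => natTF _ _ _ hw
  bρ := fun i hi => hb i (by simpa using hi)
  TT := fun i hi => TF_off (by simpa using hi)
  qd := ray_mem sub zero_le_one (by linarith)
  head := fun w hw h => head47 hw h
  JZ := by simp
  JT := by
    intro i hi hV
    rw [Finset.mem_insert, Finset.mem_singleton] at hi
    rcases hi with rfl | rfl
    · exact hV4 hV
    · rcases vis_ne sl hV with h | h | h <;> exact absurd h (by decide)
  Jz := by simp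

/-- **rung (iii)**: `0 < s ≤ 1 + κ`, nothing to drop -/
theorem rungQ_iii {θ : Fin 3 → ℝ} {V : Fin 11 → Prop} {Qd : Set (Fin 11 → ℝ)}
    (sub : ∀ d ∈ QdF θ, d 6 ≤ d 7 → d ∈ Qd) (hκ : 0 < θ 1 - θ 2) {s : ℝ} (hs : 0 < s)
    (hs1 : s ≤ 1 + (θ 1 - θ 2)) {b x : Fin 11 → ℝ} (h3 : 0 < x 3) (h4 : 0 < x 4) (h7 : 0 < x 7)
    (hb : ∀ i, i ∉ ({3, 4, 7} : Finset (Fin 11)) → b i = rhoF θ i) :
    RungD (mw monQ) (AF {3, 4, 7}) ↑({3, 4, 7} : Finset (Fin 11)) {5, 1} {k | V k} 0 Qd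
      (rhoF θ) (TF {3, 4, 7} (θ 1 - θ 2) s x) (TpF (θ 1 - θ 2) s) b ∅ where
  T0 := (TF_iii hκ hs h3 h4 h7).1
  TJ := by simp
  TZ := fun i h1 h2 => (TF_iii hκ hs h3 h4 h7).2 i (by simpa using h2)
  natT := fun w hw => natTF _ _ _ hw
  bρ := fun i hi => hb i (by simpa using hi)
  TT := fun i hi => TF_off (by simpa using hi)
  qd := ray_mem sub hs.le hs1
  head := by simp
  JZ := by simp
  JT := by simp
  Jz := by simp

section ladder

variable {η : ℝ} {p : Par4} {D : Dat4} {I1 : ℕ → Finset (ℕ × ℝ)} {π : Equiv.Perm (Fin 3)}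
  {eE fA fB : ℕ → ℕ × ℝ → ℝ} {V T : Fin 11 → Prop} {w0 R T0 : ℝ} {PD : Set (Fin 11 → ℝ)}
  {ν own : (Fin 11 → ℝ) → ℝ} {c₀ : ℝ}




end ladder

end Crest.Agent.R136.LdF774
end

-- ▼ part R136/F2w_569

/-!
# R136, case F at `θ0 = θ2` (helper569): the ladder, the row `pF2` of the thick table

* `stageQ2`, `qdOk2` : 355's first stage and D-max cone in the form of 667
* `ladder_FLQ` : 511's `ladder_FL` over any D-max cone
* **`caseF2_of_xbN`** : `Dead η pF2` from `XbN` (403)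
-/

set_option autoImplicit false
set_option linter.unusedVariables false

open Finset Filter Topology

namespace Crest.Agent.R136.F2w569

open Crest.Agent.R138.Ex926 (Base U IsTan)
open Crest.Agent.R136.Net191
open Crest.Agent.R136.NetQ186
open Crest.Agent.R136.Wq638
open Crest.Agent.R136.NatT550
open Crest.Agent.R136.NatR550 (nL)
open Crest.Agent.R136.Top484
open Crest.Agent.R136.LdF511
open Crest.Agent.R136.LdF3511
open Crest.Agent.R136.LdF7511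
open Crest.Agent.R136.LdFb511
open Crest.Agent.R136.LdF774 (rungQ_i rungQ_ii rungQ_iii)
open Crest.Agent.R136.Dl667
open Crest.Agent.R136.F2a355 (Qd2 mem_Qd2 qd2_rec recD_F2 stage_F2 StF2)
open Crest.Agent.R136.Tb628 (oS oS_eq)
open Crest.Agent.R136.K2S774 (cn Prf JT Stage RecD RungD BaseOk ind1 A2)
open Crest.Agent.R136.Dg219 (mw)
open Crest.Agent.R136.TopB550
open Crest.Agent.R136.Re436 (pF2)

/-- 355's D-max cone -/
theorem qdOk2 {θ : Fin 3 → ℝ} {V T : Fin 11 → Prop} (sl : SlotOk θ V T) (h02 : θ 0 = θ 2)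
    (J : Finset (Fin 11)) : QdOk θ V J (Qd2 θ) where
  rd :=
    { full := (recD_V sl J).full
      nat := (recD_V sl J).nat
      qd := fun d hd ξ t ht => qd2_rec h02 hd ξ ht
      tie := (recD_V sl J).tie }
  sub := fun d hd h67 => mem_Qd2.2 ⟨hd, h67⟩

section ladder

variable {η : ℝ} {p : Par4} {D : Dat4} {I1 : ℕ → Finset (ℕ × ℝ)} {π : Equiv.Perm (Fin 3)}
  {eE fA fB : ℕ → ℕ × ℝ → ℝ} {V T : Fin 11 → Prop} {w0 R T0 : ℝ} {PD : Set (Fin 11 → ℝ)}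
  {ν own : (Fin 11 → ℝ) → ℝ} {c₀ : ℝ}

/-- the first stage at `θ 0 = θ 2` -/
theorem stageQ2 (h : Thick η p D I1 π eE fA fB V T w0 R T0 PD ν own c₀) {v : ℝ} (h0 : 0 < v)
    (h1 : v < 1) (hκ : 0 < p.θ 1 - p.θ 2) (h02 : p.θ 0 = p.θ 2) (hV2 : V 2) (hV3 : ¬ V 3)
    (hV4 : ¬ V 4) :
    ∃ lam lo : (Fin 11 → ℝ) → ℝ, StVQ (Qd2 p.θ) p V ν own w0 R v ∅ lam lo := by
  obtain ⟨lam, lo, H⟩ := stage_F2 h h0 h1 hκ h02 hV3 hV4
  refine ⟨lam, lo, stage_congr (fun i => ⟨fun hi => vis2 h hV3 hV4 hi, fun hi => ?_⟩)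
    (fun i hi => ?_) H⟩
  · have hi' : i = 2 := hi
    subst hi'
    exact hV2
  · have := vis2 h hV3 hV4 hi
    subst this
    rw [oS_eq]; rfl

/-- **the ladder of case F over any D-max cone** -/
theorem ladder_FLQ (h : Thick η p D I1 π eE fA fB V T w0 R T0 PD ν own c₀) (hη : η ≤ 1 / 8)
    {Qd : Set (Fin 11 → ℝ)} (hQ : ∀ Jd, QdOk p.θ V Jd Qd) {v : ℝ} (h0 : 0 < v) (h1 : v < 1)
    (hst : ∃ lam lo : (Fin 11 → ℝ) → ℝ, StVQ Qd p V ν own w0 R v ∅ lam lo)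
    (hκ : 0 < p.θ 1 - p.θ 2) (hV2 : V 2) (hV3 : ¬ V 3) (hV4 : ¬ V 4)
    {x2 b2 : Fin 11 → ℝ} {g1 g2 : ℝ} (hx2 : 0 < x2 3)
    (hb2 : ∀ i, i ∉ ({3} : Finset (Fin 11)) → b2 i = rhoF p.θ i) (hg1 : 0 < g1) (hg2 : 0 < g2)
    (F1 : ∀ lam lo : (Fin 11 → ℝ) → ℝ, StVQ Qd p V ν own w0 R v ∅ lam lo →
      FlV p V ν own w0 R v ∅ (1 + (p.θ 1 - p.θ 2)) 0 (rhoF p.θ) lam lo
        (fun l => l (ind1 {3}) < 0) g1)
    (F2 : ∀ lam lo : (Fin 11 → ℝ) → ℝ, StVQ Qd p V ν own w0 R v {3} lam lo →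
      FlV p V ν own w0 R v {3} 1 x2 b2 lam lo (fun l => l (ind1 {4, 7}) < 0) g2) : False := by
  have hg := h.tp.ok.g0.1
  obtain ⟨lam, lo, H⟩ := hst
  have sub := (hQ ∅).sub
  obtain ⟨lam2, lo2, H2⟩ := K2A146.rungA H (hQ ∅).rd
    (rungQ_i sub hV3 hκ (b := rhoF p.θ) fun _ _ => rfl) hg1 (F1 lam lo H)
  have H2' : StVQ Qd p V ν own w0 R v {3} lam2 lo2 := by
    have e1 := A2_AF ∅ {3}
    rw [Finset.empty_union] at e1
    rw [e1, ← Finset.coe_union, Finset.empty_union] at H2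
    exact H2
  obtain ⟨lam3, lo3, H3⟩ := K2A146.rungA H2' (hQ {3}).rd
    (rungQ_ii sub h.tp.slots hV4 hκ hx2 hb2) hg2 (F2 lam2 lo2 H2')
  have H3' : StVQ Qd p V ν own w0 R v {3, 4, 7} lam3 lo3 := by
    have e1 := A2_AF {3} {4, 7}
    have e2 : ({3} : Finset (Fin 11)) ∪ {4, 7} = {3, 4, 7} := by decide
    rw [e2] at e1
    rw [e1, ← Finset.coe_union, e2] at H3
    exact H3
  have hs3 : 0 < min (p.g / 4) 1 := lt_min (by linarith) one_pos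
  have hs1 : min (p.g / 4) 1 ≤ 1 + (p.θ 1 - p.θ 2) := (min_le_right _ _).trans (by linarith)
  have hg3 : 0 < p.g / 2 := by linarith
  exact K2A146.deadA H3' (hQ {3, 4, 7}).rd
    (rungQ_iii sub (x := fun _ => 1) (b := rhoF p.θ) hκ hs3 hs1 one_pos one_pos one_pos
      fun _ _ => rfl) hg3
    (flA_of_ptH h h0 h1 (TF_iii hκ hs3 one_pos one_pos one_pos).1 (fun _ _ => rfl)
      (tie_TF h hV3 hV4 (by decide) _ _)
      (fun lam lo A φ r hP hH => F3_pt h hη hκ hV2 (min_le_left _ _) (min_le_right _ _)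
        (by decide) (TF_iii hκ hs3 one_pos one_pos one_pos).1 (fun _ _ => rfl) hP hH)
      (hQ {3, 4, 7}) H3' _)

end ladder

/-- **the row `pF2` of the thick table** from `XbN` -/
theorem caseF2_of_xbN {η : ℝ} (hη : η ≤ 1 / 8) (hX : ∀ (p : Par4) (D : Dat4)
    (I1 : ℕ → Finset (ℕ × ℝ)) (π : Equiv.Perm (Fin 3)) (eE fA fB : ℕ → ℕ × ℝ → ℝ)
    (V T : Fin 11 → Prop) (w0 R T0 : ℝ) (PD : Set (Fin 11 → ℝ)) (ν own : (Fin 11 → ℝ) → ℝ)
    (c₀ : ℝ), Thick η p D I1 π eE fA fB V T w0 R T0 PD ν own c₀ → pF2 p V →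
    XbN D I1 (couQ D.B D.lev D.w w0 (incQ π D.L eE fA fB)) p V T (fun _ => 1) (rhoF p.θ)) :
    Dead η pF2 := by
  intro p D I1 π eE fA fB V T w0 R T0 PD ν own c₀ h hp
  have hx := hX p D I1 π eE fA fB V T w0 R T0 PD ν own c₀ h hp
  obtain ⟨h2, h3, h4, h02⟩ := hp
  have hκ := LadF115.kap_pos h h2
  have hg := h.tp.ok.g0.1
  have h01 : p.θ 0 ≠ p.θ 1 := fun e => by rw [← h02, e] at hκ; linarith
  exact ladder_FLQ h hη (fun J => qdOk2 h.tp.slots h02 J) (v := 1 / 2) (by norm_num) (by norm_num)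
    (stageQ2 h (by norm_num) (by norm_num) hκ h02 h2 h3 h4) hκ h2 h3 h4
    (x2 := fun _ => 1) (b2 := rhoF p.θ) one_pos (fun _ _ => rfl)
    (g1 := p.g / 2) (g2 := p.g / 2) (by linarith) (by linarith)
    (fun lam lo H => F2b569.F1_fl2 h hη (by norm_num) (by norm_num) hκ h02 h2 h3 h4
      (qdOk2 h.tp.slots h02 ∅) H)
    (fun lam lo H => F2_of h hη (by norm_num) (by norm_num) hκ h2 h3 h4 one_pos (fun _ _ => rfl)
      (qdOk2 h.tp.slots h02 {3}) H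
      (LdF6146.nClaim h hκ h01 h3 h4 one_pos fun _ _ => rfl) hx)

end Crest.Agent.R136.F2w569
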