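import Crest.Agent.R136.Fw0_808
import Crest.Agent.R136.Cs1_501
import Crest.Agent.R136.Pl2Def_860

-- ▼ part R136/Ff3_880
section

/-!
# R136 (S0187), U4 / PLAN 2: from two systems of flat boxes to one cell with full classes (helper880)

* `cell_of` : double pruning, one cell, labels in `ℕ`;
* `dy_unique` : the dyadic tilts of a pair of frames are unique up to constants.
-/

set_option autoImplicit false
set_option linter.unusedVariables false

namespace Crest.Agent.R136.Ff880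

open Finset Crest.Agent.R136.Sh605 Crest.Agent.R136.Fl808
open Crest.Agent.R138.Mk163 (zl rho)
open Crest.Agent.R136.Phc248 (phC phC_pos)

/-- representative of the class of `n` -/
noncomputable def rep {γ : Type} (P : Finset ℕ) (F : ℕ → γ) (n : ℕ) : ℕ :=
  sInf {m | m ∈ P ∧ F m = F n}

theorem rep_mem {γ : Type} {P : Finset ℕ} {F : ℕ → γ} {n : ℕ} (hn : n ∈ P) :
    rep P F n ∈ P ∧ F (rep P F n) = F n :=
  Nat.sInf_mem (s := {m | m ∈ P ∧ F m = F n}) ⟨n, hn, rfl⟩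

theorem rep_iff {γ : Type} {P : Finset ℕ} {F : ℕ → γ} {n m : ℕ} (hn : n ∈ P) (hm : m ∈ P) :
    rep P F m = rep P F n ↔ F m = F n := by
  constructor
  · intro h
    rw [← (rep_mem (F := F) hm).2, h, (rep_mem (F := F) hn).2]
  · intro h
    unfold rep
    rw [h]

section

variable {α β : Type} {O : Finset (ℕ × ℤ)} {L : ℕ → Ln4} {i : ℕ} {f : ℕ × ℤ → α}
  {g : ℕ × ℤ → β} {bf : α → Ln4} {ef : α → Fin 3 → V3} {bg : β → Ln4} {eg : β → Fin 3 → V3}
  {a w1 w2 A1 A2 D W r0 R0 : ℝ} {qm qp : Fin 3 → ℝ}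

open Classical in
/-- the classes of a full part of a cell -/
theorem fib_card {γ : Type} {P' : Finset (ℕ × ℤ)} {F : ℕ × ℤ → γ} {c : ℤ}
    (hc : ∀ o ∈ P', ∀ o' ∈ P', F o = F o' → o.2 = o'.2) {P : Finset ℕ}
    (hP : ∀ t, t ∈ P ↔ (t, c) ∈ P') {t : ℕ} (ht : t ∈ P) :
    (P'.filter fun s => F s = F (t, c)).card ≤
      (P.filter fun s => rep P (fun n => F (n, c)) s = rep P (fun n => F (n, c)) t).card := by
  refine card_le_card_of_injOn (fun s => s.1) ?_ ?_
  · intro s hs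
    have hs' := mem_filter.1 (mem_coe.1 hs)
    have h2 : s.2 = c := hc s hs'.1 (t, c) ((hP t).1 ht) hs'.2
    have h3 : s = (s.1, c) := by rw [← h2]
    refine mem_coe.2 (mem_filter.2 ⟨?_, ?_⟩)
    · rw [hP]; rw [← h3]; exact hs'.1
    · rw [rep_iff ht]
      · show F (s.1, c) = F (t, c)
        rw [← h3]; exact hs'.2
      · rw [hP]; rw [← h3]; exact hs'.1
  · intro s hs s' hs' hss
    have h1 := mem_filter.1 (mem_coe.1 hs)
    have h2 := mem_filter.1 (mem_coe.1 hs')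
    have e1 : s.2 = c := hc s h1.1 (t, c) ((hP t).1 ht) h1.2
    have e2 : s'.2 = c := hc s' h2.1 (t, c) ((hP t).1 ht) h2.2
    exact Prod.ext hss (e1.trans e2.symm)

open Classical in
/-- **one cell, full classes** -/
theorem cell_of (hne : O.Nonempty) (h1 : FSys O L i f bf ef a w1 w2 A1)
    (h2 : FSys O L i g bg eg a w1 w2 A2) (hr0 : r0 ≤ a) (ha : 0 < a) (haw : a ≤ w2)
    (hw : w2 ≤ w1) (hR : w1 ≤ R0) (hd : DMaxD O L i D qm qp r0 R0 a w1 w2) (hD1 : D ≤ W * A1)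
    (hD2 : D ≤ W * A2) (hW : 1 ≤ W) :
    0 < D ∧ ∃ (c : ℤ) (P : Finset ℕ) (u v : ℕ → ℕ) (bu bv : ℕ → Ln4) (eu ev : ℕ → Fin 3 → V3),
      P.Nonempty ∧ (∀ t ∈ P, (t, c) ∈ O) ∧
      (∀ t ∈ P, eu (u t) = ef (f (t, c)) ∧ bu (u t) = bf (f (t, c)) ∧
        ev (v t) = eg (g (t, c)) ∧ bv (v t) = bg (g (t, c))) ∧
      (∀ t ∈ P, D ≤ 4 * W * ((P.filter fun s => u s = u t).card : ℝ)) ∧
      (∀ t ∈ P, D ≤ 4 * W * ((P.filter fun s => v s = v t).card : ℝ)) ∧
      (∀ (n : Fin 3 → V3) (l : Ln4) (a' w1' w2' : ℝ), Ortho n → r0 ≤ a' → a' ≤ w2' →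
        w2' ≤ w1' → w1' ≤ R0 → ((P.filter fun t =>
          InB (L t) l n ![a', w1', w2'] (zl i c) (rho i)).card : ℝ) ≤
            D * phC qm qp a w1 w2 a' w1' w2') := by
  have hw2 : 0 < w2 := ha.trans_le haw
  have hw1 : 0 < w1 := hw2.trans_le hw
  have hD : 0 < D := by
    obtain ⟨o, ho⟩ := hne
    have h3 := hd o.2 (ef (f o)) (bf (f o)) a w1 w2 (h1.ortho o ho) hr0 haw hw hR
    have h4 : (1:ℝ) ≤ ((O.filter fun x => x.2 = o.2 ∧ InB (L x.1) (bf (f o)) (ef (f o))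
        ![a, w1, w2] (zl i o.2) (rho i)).card : ℝ) := by
      have : 0 < (O.filter fun x => x.2 = o.2 ∧ InB (L x.1) (bf (f o)) (ef (f o))
        ![a, w1, w2] (zl i o.2) (rho i)).card :=
        card_pos.2 ⟨o, mem_filter.2 ⟨ho, rfl, h1.mem o ho⟩⟩
      exact_mod_cast this
    have h5 := phC_pos (qm := qm) (qp := qp) ha hw1 hw2 ha hw1 hw2
    have h6 : 0 < D * phC qm qp a w1 w2 a w1 w2 := by
      refine lt_of_lt_of_le one_pos (h4.trans ?_)
      convert h3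
    by_contra hc
    have := mul_nonpos_of_nonpos_of_nonneg (not_lt.1 hc) h5.le
    linarith
  refine ⟨hD, ?_⟩
  have hW0 : 0 < W := by linarith
  have hO : (0:ℝ) < O.card := by exact_mod_cast hne.card_pos
  have c1 : D / (4 * W) * ((O.image f).card : ℝ) ≤ O.card / 4 := by
    have := h1.num
    have e1 : ((O.image f).card : ℝ) * D ≤ W * O.card := by
      calc ((O.image f).card : ℝ) * D ≤ ((O.image f).card : ℝ) * (W * A1) := by gcongr
        _ = W * (((O.image f).card : ℝ) * A1) := by ring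
        _ ≤ W * O.card := by gcongr
    rw [div_mul_eq_mul_div, div_le_div_iff₀ (by positivity) (by norm_num)]
    nlinarith
  have c2 : D / (4 * W) * ((O.image g).card : ℝ) ≤ O.card / 4 := by
    have := h2.num
    have e1 : ((O.image g).card : ℝ) * D ≤ W * O.card := by
      calc ((O.image g).card : ℝ) * D ≤ ((O.image g).card : ℝ) * (W * A2) := by gcongr
        _ = W * (((O.image g).card : ℝ) * A2) := by ring
        _ ≤ W * O.card := by gcongr
    rw [div_mul_eq_mul_div, div_le_div_iff₀ (by positivity) (by norm_num)]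
    nlinarith
  obtain ⟨P', hP'O, hP'ne, -, hf', hg'⟩ := Crest.Agent.R136.Cs501.prune2 O f g
    (τ := D / (4 * W)) (by positivity) (by rw [mul_add]; linarith)
  obtain ⟨o0, ho0⟩ := hP'ne
  set c := o0.2 with hc
  set P : Finset ℕ := (P'.filter fun o => o.2 = c).image Prod.fst with hPdef
  have hP : ∀ t, t ∈ P ↔ (t, c) ∈ P' := by
    intro t
    rw [hPdef, mem_image]
    constructor
    · rintro ⟨o, ho, rfl⟩
      rw [mem_filter] at ho
      rw [← ho.2]; exact ho.1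
    · intro h
      exact ⟨(t, c), mem_filter.2 ⟨h, rfl⟩, rfl⟩
  have hcf : ∀ o ∈ P', ∀ o' ∈ P', f o = f o' → o.2 = o'.2 := fun o ho o' ho' h =>
    h1.cell o (hP'O ho) o' (hP'O ho') h
  have hcg : ∀ o ∈ P', ∀ o' ∈ P', g o = g o' → o.2 = o'.2 := fun o ho o' ho' h =>
    h2.cell o (hP'O ho) o' (hP'O ho') h
  refine ⟨c, P, rep P fun n => f (n, c), rep P fun n => g (n, c), fun m => bf (f (m, c)),
    fun m => bg (g (m, c)), fun m => ef (f (m, c)), fun m => eg (g (m, c)), ?_, ?_, ?_, ?_, ?_, ?_⟩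
  · refine ⟨o0.1, (hP _).2 ?_⟩
    rw [hc]; exact ho0
  · intro t ht; exact hP'O ((hP t).1 ht)
  · intro t ht
    have e1 := (rep_mem (F := fun n => f (n, c)) ht).2
    have e2 := (rep_mem (F := fun n => g (n, c)) ht).2
    simp only [e1, e2, and_self]
  · intro t ht
    have h3 := hf' (t, c) ((hP t).1 ht)
    have h4 := fib_card hcf hP ht
    have h5 : D / (4 * W) ≤ ((P.filter fun s => rep P (fun n => f (n, c)) s =
        rep P (fun n => f (n, c)) t).card : ℝ) := by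
      refine le_trans (h3.trans (le_of_eq ?_)) (Nat.cast_le.2 h4)
      congr
    rw [div_le_iff₀ (by positivity)] at h5
    linarith
  · intro t ht
    have h3 := hg' (t, c) ((hP t).1 ht)
    have h4 := fib_card hcg hP ht
    have h5 : D / (4 * W) ≤ ((P.filter fun s => rep P (fun n => g (n, c)) s =
        rep P (fun n => g (n, c)) t).card : ℝ) := by
      refine le_trans (h3.trans (le_of_eq ?_)) (Nat.cast_le.2 h4)
      congr
    rw [div_le_iff₀ (by positivity)] at h5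
    linarith
  · intro n l a' w1' w2' hn q1 q2 q3 q4
    have h3 := hd c n l a' w1' w2' hn q1 q2 q3 q4
    refine le_trans (Nat.cast_le.2 ?_) h3
    refine card_le_card_of_injOn (fun t => (t, c)) ?_ ?_
    · intro t ht
      have ht' := mem_filter.1 (mem_coe.1 ht)
      exact mem_coe.2 (mem_filter.2 ⟨hP'O ((hP t).1 ht'.1), rfl, ht'.2⟩)
    · intro t _ t' _ h
      exact (Prod.mk.inj h).1

end

/-- the dyadic tilts are unique up to constants -/
theorem dy_unique {e e' : Fin 3 → V3} {a w1 w2 : ℝ} {j k j0 k0 : ℕ} (H : Dy e e' a w1 w2 j k)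
    (H0 : Dy e e' a w1 w2 j0 k0) (ha : 0 < a) (hw2 : 0 < w2) :
    (2:ℝ) ^ j ≤ 2 * 2 ^ j0 ∧ (2:ℝ) ^ k ≤ 2 * (2 ^ j0 * 2 ^ k0) := by
  have hj : (1:ℝ) ≤ 2 ^ j := one_le_pow₀ (by norm_num)
  have hj0 : (1:ℝ) ≤ 2 ^ j0 := one_le_pow₀ (by norm_num)
  have hk0 : (1:ℝ) ≤ 2 ^ k0 := one_le_pow₀ (by norm_num)
  have hj1 : (2:ℝ) ^ j ≤ 2 * 2 ^ j0 := by
    rcases H.blo with h | h | h
    · rw [h, pow_zero]; linarith
    · have := H0.b21
      have h3 : 2 ^ j * w2 ≤ 2 * 2 ^ j0 * w2 := by linarith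
      exact le_of_mul_le_mul_right h3 hw2
    · have := H0.b01
      have h3 : 2 ^ j * w2 ≤ 2 * 2 ^ j0 * w2 := by linarith
      exact le_of_mul_le_mul_right h3 hw2
  refine ⟨hj1, ?_⟩
  have hp0 : (0:ℝ) < 2 ^ j0 := by linarith
  have hpj : (0:ℝ) < 2 ^ j := by linarith
  have s20 : |dt (e' 2) (e 0)| * w2 ≤ 2 ^ k0 * a := by
    have h5 : 2 ^ j0 * (|dt (e' 2) (e 0)| * w2) ≤ 2 ^ j0 * (2 ^ k0 * a) :=
      H0.t20.trans (le_of_eq (by ring))
    exact le_of_mul_le_mul_left h5 hp0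
  have s02 : |dt (e' 0) (e 2)| * w2 ≤ 2 ^ k0 * a := by
    have h5 : 2 ^ j0 * (|dt (e' 0) (e 2)| * w2) ≤ 2 ^ j0 * (2 ^ k0 * a) :=
      H0.t02.trans (le_of_eq (by ring))
    exact le_of_mul_le_mul_left h5 hp0
  have q1 : ∀ y : ℝ, y ≤ 2 ^ k0 * (2 ^ j0 * a) → 2 ^ k * (2 ^ j * a) ≤ 2 * y →
      (2:ℝ) ^ k ≤ 2 * (2 ^ j0 * 2 ^ k0) := by
    intro y h3 h4
    have h5 : 2 ^ k * (2 ^ j * a) ≤ 2 * (2 ^ j0 * 2 ^ k0) * a := by
      calc 2 ^ k * (2 ^ j * a) ≤ 2 * (2 ^ k0 * (2 ^ j0 * a)) := by linarith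
        _ = _ := by ring
    have h6 : 2 ^ k * a ≤ 2 * (2 ^ j0 * 2 ^ k0) * a := by
      refine le_trans ?_ h5
      have : 0 < 2 ^ k * a := by positivity
      calc 2 ^ k * a = 1 * (2 ^ k * a) := by ring
        _ ≤ 2 ^ j * (2 ^ k * a) := mul_le_mul_of_nonneg_right hj this.le
        _ = _ := by ring
    exact le_of_mul_le_mul_right h6 ha
  have q2 : ∀ y : ℝ, y ≤ 2 ^ k0 * a → 2 ^ k * (2 ^ j * a) ≤ 2 * (2 ^ j * y) →
      (2:ℝ) ^ k ≤ 2 * (2 ^ j0 * 2 ^ k0) := by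
    intro y h3 h4
    have h5 : 2 ^ j * (2 ^ k * a) ≤ 2 ^ j * (2 * 2 ^ k0 * a) := by
      calc 2 ^ j * (2 ^ k * a) = 2 ^ k * (2 ^ j * a) := by ring
        _ ≤ 2 * (2 ^ j * y) := h4
        _ ≤ 2 * (2 ^ j * (2 ^ k0 * a)) := by gcongr
        _ = _ := by ring
    have h6 := le_of_mul_le_mul_left (le_of_mul_le_mul_left h5 hpj |>.trans (le_of_eq rfl) |> fun h => by
      calc a * 2 ^ k = 2 ^ k * a := by ring
        _ ≤ 2 * 2 ^ k0 * a := h
        _ = a * (2 * 2 ^ k0) := by ring) ha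
    have : (2:ℝ) ^ k0 ≤ 2 ^ j0 * 2 ^ k0 := by nlinarith
    linarith
  rcases H.tlo with h | h | h | h | h
  · rw [h, pow_zero]; nlinarith
  · exact q1 _ H0.t10 h
  · exact q2 _ s20 h
  · exact q1 _ H0.t01 h
  · exact q2 _ s02 h

end Crest.Agent.R136.Ff880
end

-- ▼ part R136/Ft1_719
section

/-!
# R136 (S0187), PLAN 2, flat case: D-max for all boxes gives the fields of `TCore` (helper719)

* `Dm`       : D-max of one cell for all boxes;
* `hull_of`, `tube_of`, `share_of` : the fields `hull`, `tubeu`, `share` of `Pl2.TCore` (`Y = a`).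
-/

set_option autoImplicit false
set_option linter.unusedVariables false

open Finset

namespace Crest.Agent.R136.Ft719

open Crest.Agent.R136.Sh605 Crest.Agent.R136.Fl808
open Crest.Agent.R136.Phc248 (ph phC ph_mul ph_le_one ph_ge_one ph_nonneg ph_one phC_nonneg ph_mono)

open Classical in
/-- D-max of one cell for all boxes -/
def Dm {ι : Type*} (P : Finset ι) (L : ι → Ln4) (z0 ρ D : ℝ) (qm qp : Fin 3 → ℝ)
    (r0 R0 a w1 w2 : ℝ) : Prop :=
  ∀ (n : Fin 3 → V3) (l : Ln4) (a' w1' w2' : ℝ), Ortho n → r0 ≤ a' → a' ≤ w2' → w2' ≤ w1' →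
    w1' ≤ R0 → ((P.filter fun t => InB (L t) l n ![a', w1', w2'] z0 ρ).card : ℝ) ≤
      D * phC qm qp a w1 w2 a' w1' w2'

section

variable {ι : Type*} {P : Finset ι} {L : ι → Ln4} {qm qp : Fin 3 → ℝ} {r0 a w1 w2 D z0 ρ : ℝ}

open Classical in
theorem hull_of (hd : Dm P L z0 ρ D qm qp r0 (10 ^ 6 * w1) a w1 w2)
    (hmp : ∀ k, qm k ≤ qp k) (ha : 0 < a) (h1 : 0 < w1) (h2 : 0 < w2) (hr : r0 ≤ a)
    {f : Fin 3 → V3} (hf : Ortho f) {b : Ln4} {X0 X2 : ℝ} (e0 : a ≤ X0) (e2 : w2 ≤ X2)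
    (e02 : X0 ≤ X2) (e21 : X2 ≤ 10 ^ 6 * w1) :
    ((P.filter fun t => InB (L t) b f ![X0, 10 ^ 6 * w1, X2] z0 ρ).card : ℝ) ≤
      (10 ^ 6 : ℝ) ^ (1 + qp 1) * D * ((X0 / a) ^ (1 + qp 0) * (X2 / w2) ^ (1 + qp 2)) := by
  refine (hd f b X0 (10 ^ 6 * w1) X2 hf (hr.trans e0) e02 e21 le_rfl).trans (le_of_eq ?_)
  have g0 : ph (qm 0) (qp 0) (X0 / a) = (X0 / a) ^ (1 + qp 0) :=
    ph_ge_one (hmp 0) ((one_le_div ha).2 e0)
  have g2 : ph (qm 2) (qp 2) (X2 / w2) = (X2 / w2) ^ (1 + qp 2) :=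
    ph_ge_one (hmp 2) ((one_le_div h2).2 e2)
  have e : 10 ^ 6 * w1 / w1 = (10 ^ 6 : ℝ) := by field_simp
  have g1 : ph (qm 1) (qp 1) (10 ^ 6 * w1 / w1) = (10 ^ 6 : ℝ) ^ (1 + qp 1) := by
    rw [e]; exact ph_ge_one (hmp 1) (by norm_num)
  unfold phC
  rw [g0, g1, g2]
  ring

open Classical in
theorem tube_of (hd : Dm P L z0 ρ D qm qp r0 (10 ^ 6 * w1) a w1 w2) (hm : ∀ k, 0 ≤ qm k)
    (hmp : ∀ k, qm k ≤ qp k) (ha : 0 < a) (haw : a ≤ w2) (hw : w2 ≤ w1) (hr : r0 ≤ a)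
    (hD : 0 ≤ D) {e : Fin 3 → V3} (he : Ortho e) {l : Ln4} {Q : Finset ι} (hQ : Q ⊆ P) {t : ι}
    (ht : InB (L t) l e ![a, w1, w2] z0 ρ) {δ : ℝ} (hδ : w2 ≤ 8 * (δ * w1)) (hδ1 : δ ≤ 1)
    (h : ∀ s ∈ Q, InB (L s) l e ![a, w1, w2] z0 ρ ∧ ∀ z, z0 ≤ z → z ≤ z0 + ρ →
      |dt (e 1) ((L s).pos z - (L t).pos z)| ≤ δ * w1) :
    (Q.card : ℝ) ≤ (2 ^ (1 + qp 0) * 16 ^ (1 + qp 1) * 2 ^ (1 + qp 2)) * D * δ ^ (1 + qm 1) := by
  have hw2 : 0 < w2 := ha.trans_le haw
  have hw1 : 0 < w1 := hw2.trans_le hw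
  have hδ0 : 0 < δ := by
    by_contra hc
    have : δ * w1 ≤ 0 := mul_nonpos_of_nonpos_of_nonneg (not_lt.1 hc) hw1.le
    linarith
  have h3 : (Q.card : ℝ) ≤
      ((P.filter fun s => InB (L s) (L t) e ![2 * a, 16 * (δ * w1), 2 * w2] z0 ρ).card : ℝ) := by
    refine Nat.cast_le.2 (card_le_card fun s hs => mem_filter.2 ⟨hQ hs, ?_⟩)
    obtain ⟨hs1, hs2⟩ := h s hs
    intro z hz hz' i
    have d := diff_box hs1 ht z hz hz'
    have d0 := d 0
    have d2 := d 2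
    have d1 := hs2 z hz hz'
    have p : 0 < δ * w1 := by positivity
    simp only [Matrix.cons_val_zero, Matrix.cons_val] at d0 d2
    fin_cases i
    · simpa using d0
    · simp only [Fin.mk_one, Matrix.cons_val_one, Matrix.cons_val_zero]; linarith
    · simpa using d2
  have p1 : δ * w1 ≤ w1 := by nlinarith
  refine (h3.trans (hd e (L t) (2 * a) (16 * (δ * w1)) (2 * w2) he (by linarith) (by linarith)
    (by linarith) (by linarith))).trans ?_
  have f0 := ph_mul (r := 1) (hm 0) (hmp 0) zero_le_one (by norm_num : (1:ℝ) ≤ 2)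
  have f1 := ph_mul (r := δ) (hm 1) (hmp 1) hδ0.le (by norm_num : (1:ℝ) ≤ 16)
  have f2 := ph_mul (r := 1) (hm 2) (hmp 2) zero_le_one (by norm_num : (1:ℝ) ≤ 2)
  rw [ph_one, mul_one, mul_one] at f0 f2
  rw [ph_le_one (hm 1) (hmp 1) hδ0.le hδ1] at f1
  have e0 : 2 * a / a = 2 := by field_simp
  have e1 : 16 * (δ * w1) / w1 = 16 * δ := by field_simp
  have e2 : 2 * w2 / w2 = 2 := by field_simp
  have k : phC qm qp a w1 w2 (2 * a) (16 * (δ * w1)) (2 * w2) ≤
      2 ^ (1 + qp 0) * (16 ^ (1 + qp 1) * δ ^ (1 + qm 1)) * 2 ^ (1 + qp 2) := by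
    unfold phC
    rw [e0, e1, e2]
    have g1 := ph_nonneg (m := qm 1) (p := qp 1) (r := 16 * δ) (by positivity)
    have g2 := ph_nonneg (m := qm 2) (p := qp 2) (r := 2) (by norm_num)
    exact mul_le_mul (mul_le_mul f0 f1 g1 (by positivity)) f2 g2 (by positivity)
  calc D * phC qm qp a w1 w2 (2 * a) (16 * (δ * w1)) (2 * w2) ≤
      D * (2 ^ (1 + qp 0) * (16 ^ (1 + qp 1) * δ ^ (1 + qm 1)) * 2 ^ (1 + qp 2)) := by gcongr
    _ = _ := by ring

/-- constant of `share_of` -/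
noncomputable def cS (qm qp : Fin 3 → ℝ) : ℝ :=
  4 ^ (1 + qp 0) * 1280 ^ (1 + qp 1) * 160 ^ (1 + qp 2) * 2 ^ (1 + qm 2)

theorem cS_pos (qm qp : Fin 3 → ℝ) : 0 < cS qm qp := by unfold cS; positivity

/-- numbers of the narrow box -/
theorem share_num (hm : ∀ k, 0 ≤ qm k) (hmp : ∀ k, qm k ≤ qp k) (hq : qm 2 ≤ qm 1) (ha : 0 < a)
    (h1 : 0 < w1) (h2 : 0 < w2) {lg sh J E : ℝ} (hlg : 0 < lg) (hsh : 0 < sh) (hJ : 1 ≤ J)
    (hE : 1 ≤ E) (e1 : lg ≤ 1280 * (w1 / J)) (e2 : sh ≤ 160 * w2)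
    (e3 : sh * lg ≤ 409600 * (w1 * w2 / (J * E))) :
    phC qm qp a w1 w2 (4 * a) lg sh ≤ cS qm qp / (J ^ (1 + qm 1) * E ^ (1 + qm 2)) := by
  have hJ0 : 0 < J := by linarith
  have hE0 : 0 < E := by linarith
  have c0 := hm 0
  have c1 := hm 1
  have c2 := hm 2
  have d0 := c0.trans (hmp 0)
  have d1 := c1.trans (hmp 1)
  have d2 := c2.trans (hmp 2)
  set x := lg / (1280 * w1) with hx
  set y := sh / (160 * w2) with hy
  have hx0 : 0 < x := by positivity
  have hy0 : 0 < y := by positivity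
  have hxJ : x ≤ 1 / J := by
    rw [hx, div_le_div_iff₀ (by positivity) hJ0]
    have : 1280 * (w1 / J) = 1280 * w1 / J := by ring
    rw [this, le_div_iff₀ hJ0] at e1
    linarith
  have hJ1 : 1 / J ≤ 1 := by rw [div_le_one hJ0]; exact hJ
  have hy1 : y ≤ 1 := by
    rw [hy, div_le_one (by positivity)]; exact e2
  have hxy : x * y ≤ 2 / (J * E) := by
    have : x * y = sh * lg / (204800 * (w1 * w2)) := by rw [hx, hy]; field_simp; ring
    rw [this, div_le_div_iff₀ (by positivity) (by positivity)]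
    have h5 : 409600 * (w1 * w2 / (J * E)) = 409600 * (w1 * w2) / (J * E) := by ring
    rw [h5, le_div_iff₀ (by positivity)] at e3
    linarith
  have f0 := ph_mul (r := 1) (hm 0) (hmp 0) zero_le_one (by norm_num : (1:ℝ) ≤ 4)
  have f1 := ph_mul (r := x) (hm 1) (hmp 1) hx0.le (by norm_num : (1:ℝ) ≤ 1280)
  have f2 := ph_mul (r := y) (hm 2) (hmp 2) hy0.le (by norm_num : (1:ℝ) ≤ 160)
  rw [ph_one, mul_one, mul_one] at f0
  rw [ph_le_one (hm 1) (hmp 1) hx0.le (hxJ.trans hJ1)] at f1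
  rw [ph_le_one (hm 2) (hmp 2) hy0.le hy1] at f2
  have g0 : 4 * a / a = 4 := by field_simp
  have g1 : lg / w1 = 1280 * x := by rw [hx]; field_simp
  have g2 : sh / w2 = 160 * y := by rw [hy]; field_simp
  have key : x ^ (1 + qm 1) * y ^ (1 + qm 2) ≤
      2 ^ (1 + qm 2) / (J ^ (1 + qm 1) * E ^ (1 + qm 2)) := by
    have k1 : x ^ (1 + qm 1) = x ^ (qm 1 - qm 2) * x ^ (1 + qm 2) := by
      rw [← Real.rpow_add hx0]; congr 1; ring
    have k2 : x ^ (1 + qm 2) * y ^ (1 + qm 2) = (x * y) ^ (1 + qm 2) :=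
      (Real.mul_rpow hx0.le hy0.le).symm
    have k3 : x ^ (qm 1 - qm 2) ≤ (1 / J) ^ (qm 1 - qm 2) :=
      Real.rpow_le_rpow hx0.le hxJ (by linarith)
    have k4 : (x * y) ^ (1 + qm 2) ≤ (2 / (J * E)) ^ (1 + qm 2) :=
      Real.rpow_le_rpow (by positivity) hxy (by linarith)
    calc x ^ (1 + qm 1) * y ^ (1 + qm 2) = x ^ (qm 1 - qm 2) * (x * y) ^ (1 + qm 2) := by
          rw [k1, ← k2]; ring
      _ ≤ (1 / J) ^ (qm 1 - qm 2) * (2 / (J * E)) ^ (1 + qm 2) := by gcongr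
      _ = _ := by
          rw [Real.div_rpow zero_le_one hJ0.le, Real.one_rpow,
            Real.div_rpow zero_le_two (by positivity), Real.mul_rpow hJ0.le hE0.le]
          have k5 : J ^ (1 + qm 1) = J ^ (qm 1 - qm 2) * J ^ (1 + qm 2) := by
            rw [← Real.rpow_add hJ0]; congr 1; ring
          rw [k5]
          field_simp
  unfold phC
  rw [g0, g1, g2]
  have p1 := ph_nonneg (m := qm 1) (p := qp 1) (r := 1280 * x) (by positivity)
  have p2 := ph_nonneg (m := qm 2) (p := qp 2) (r := 160 * y) (by positivity)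
  calc ph (qm 0) (qp 0) 4 * ph (qm 1) (qp 1) (1280 * x) * ph (qm 2) (qp 2) (160 * y) ≤
      4 ^ (1 + qp 0) * (1280 ^ (1 + qp 1) * x ^ (1 + qm 1)) *
        (160 ^ (1 + qp 2) * y ^ (1 + qm 2)) :=
        mul_le_mul (mul_le_mul f0 f1 p1 (by positivity)) f2 p2 (by positivity)
    _ = 4 ^ (1 + qp 0) * 1280 ^ (1 + qp 1) * 160 ^ (1 + qp 2) *
        (x ^ (1 + qm 1) * y ^ (1 + qm 2)) := by ring
    _ ≤ 4 ^ (1 + qp 0) * 1280 ^ (1 + qp 1) * 160 ^ (1 + qp 2) *
        (2 ^ (1 + qm 2) / (J ^ (1 + qm 1) * E ^ (1 + qm 2))) := by gcongr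
    _ = _ := by unfold cS; ring

open Classical in
/-- **share** of a pair with tilt -/
theorem share_of (hd : Dm P L z0 ρ D qm qp r0 (10 ^ 6 * w1) a w1 w2) (hm : ∀ k, 0 ≤ qm k)
    (hmp : ∀ k, qm k ≤ qp k) (hq : qm 2 ≤ qm 1) (ha : 0 < a) (haw : a ≤ w2) (hw : w2 ≤ w1)
    (hr : r0 ≤ a) (hD : 0 ≤ D) {e e' : Fin 3 → V3} (he : Ortho e) (he' : Ortho e') {j k' : ℕ}
    (H : Dy e e' a w1 w2 j k') {l l' : Ln4} {Q : Finset ι} (hQ : Q ⊆ P)
    (h1 : ∀ t ∈ Q, InB (L t) l e ![a, w1, w2] z0 ρ)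
    (h2 : ∀ t ∈ Q, InB (L t) l' e' ![a, w1, w2] z0 ρ) :
    (Q.card : ℝ) ≤ cS qm qp * D / (((2:ℝ) ^ j) ^ (1 + qm 1) * ((2:ℝ) ^ k') ^ (1 + qm 2)) := by
  have hw2 : 0 < w2 := ha.trans_le haw
  have hw1 : 0 < w1 := hw2.trans_le hw
  have hJ : (0:ℝ) < 2 ^ j := by positivity
  have hJ1 : (1:ℝ) ≤ 2 ^ j := one_le_pow₀ (by norm_num)
  have hE : (0:ℝ) < 2 ^ k' := by positivity
  have hE1 : (1:ℝ) ≤ 2 ^ k' := one_le_pow₀ (by norm_num)
  rcases Q.eq_empty_or_nonempty with hE' | ⟨t0, ht0⟩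
  · rw [hE', card_empty, Nat.cast_zero]
    have := cS_pos qm qp
    positivity
  set B := w1 / 2 ^ j with hB
  have hB0 : 0 < B := by positivity
  have hBw : B ≤ w1 := div_le_self hw1.le hJ1
  have hlw := H.hlw he he' ha haw hw
  have hwB : w2 ≤ 2 * B := by
    rw [hB, mul_div_assoc', le_div_iff₀ hJ]; linarith
  have hshort : ∀ t ∈ Q, ∀ z, z0 ≤ z → z ≤ z0 + ρ →
      |dt (e 1) ((L t).pos z - (L t0).pos z)| ≤ 12 * B := by
    intro t ht z hz hz'
    have := (H.tl he he' ha haw hw).short he he' ha haw hw hJ (h1 t ht) (h1 t0 ht0) (h2 t ht)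
      (h2 t0 ht0) hz hz'
    rw [hB]
    calc _ ≤ 12 * w1 / 2 ^ j := this
      _ = _ := by ring
  -- it is enough to find the box
  have fin : ∀ (n : Fin 3 → V3) (lg sh : ℝ), Ortho n → 4 * a ≤ sh → sh ≤ lg →
      lg ≤ 1280 * B → sh ≤ 160 * w2 → sh * lg ≤ 409600 * (w1 * w2 / (2 ^ j * 2 ^ k')) →
      (∀ t ∈ Q, InB (L t) (L t0) n ![4 * a, lg, sh] z0 ρ) →
      (Q.card : ℝ) ≤ cS qm qp * D / (((2:ℝ) ^ j) ^ (1 + qm 1) * ((2:ℝ) ^ k') ^ (1 + qm 2)) := by
    intro n lg sh hn c1 c2 c3 c4 c5 c6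
    have h3 : (Q.card : ℝ) ≤
        ((P.filter fun s => InB (L s) (L t0) n ![4 * a, lg, sh] z0 ρ).card : ℝ) :=
      Nat.cast_le.2 (card_le_card fun s hs => mem_filter.2 ⟨hQ hs, c6 s hs⟩)
    have h4 := hd n (L t0) (4 * a) lg sh hn (by linarith) c1 c2 (by linarith)
    have hsh : 0 < sh := by linarith
    have h5 := share_num (qm := qm) (qp := qp) (a := a) hm hmp hq ha hw1 hw2 (hsh.trans_le c2) hsh
      hJ1 hE1 c3 c4 c5
    calc (Q.card : ℝ) ≤ D * phC qm qp a w1 w2 (4 * a) lg sh := h3.trans h4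
      _ ≤ D * (cS qm qp / (((2:ℝ) ^ j) ^ (1 + qm 1) * ((2:ℝ) ^ k') ^ (1 + qm 2))) := by gcongr
      _ = _ := by ring
  have hu : ∀ t ∈ Q, ∀ z, z0 ≤ z → z ≤ z0 + ρ → ∀ i,
      |dt (e i) ((L t).pos z - (L t0).pos z)| ≤ 2 * (![a, w1, w2] : V3) i := by
    intro t ht z hz hz' i
    exact diff_box (h1 t ht) (h1 t0 ht0) z hz hz' i
  have hu' : ∀ t ∈ Q, ∀ z, z0 ≤ z → z ≤ z0 + ρ → ∀ i,
      |dt (e' i) ((L t).pos z - (L t0).pos z)| ≤ 2 * (![a, w1, w2] : V3) i := by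
    intro t ht z hz hz' i
    exact diff_box (h2 t ht) (h2 t0 ht0) z hz hz' i
  rcases Nat.lt_or_ge k' 2 with hk | hk
  · -- no thickness tilt
    have hk2 : (2:ℝ) ^ k' ≤ 2 := by
      calc (2:ℝ) ^ k' ≤ 2 ^ 1 := pow_le_pow_right₀ (by norm_num) (by omega)
        _ = 2 := by norm_num
    refine fin e (20 * B) (4 * w2) he (by linarith) (by linarith) (by linarith) (by linarith) ?_ ?_
    · have e1 : 409600 * (w1 * w2 / (2 ^ j * 2 ^ k')) = 409600 * (B * w2) / 2 ^ k' := by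
        rw [hB]; field_simp
      rw [e1, le_div_iff₀ hE]
      have p : 0 < B * w2 := by positivity
      calc 4 * w2 * (20 * B) * 2 ^ k' ≤ 4 * w2 * (20 * B) * 2 := by gcongr
        _ = 160 * (B * w2) := by ring
        _ ≤ _ := by linarith
    · intro t ht z hz hz' i
      have d0 := hu t ht z hz hz' 0
      have d1 := hshort t ht z hz hz'
      have d2 := hu t ht z hz hz' 2
      simp only [Matrix.cons_val_zero, Matrix.cons_val] at d0 d2
      fin_cases i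
      · simp only [Fin.zero_eta, Matrix.cons_val_zero]; linarith
      · simp only [Fin.mk_one, Matrix.cons_val_one, Matrix.cons_val_zero]; linarith
      · simp only [Fin.reduceFinMk, Matrix.cons_val]; linarith
  · obtain ⟨m, rfl⟩ : ∃ m, k' = m + 2 := ⟨k' - 2, by omega⟩
    set W1 := max (10 * w2) (5 * (w1 / 2 ^ j)) with hW1
    have hA := H.aligned he he' ha haw hw hW1
    have hlo := H.tlt_lo he he' ha haw hw hW1 rfl
    have hW1p : 0 < W1 := lt_max_of_lt_left (by positivity)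
    have hW1B : W1 ≤ 20 * B := max_le (by linarith) (by rw [← hB]; linarith)
    have hW15 : 5 * B ≤ W1 := le_max_right _ _
    have hW12 : 10 * w2 ≤ W1 := le_max_left _ _
    have hA4 : Aligned e e' (4 * W1) (4 * (10 * w2)) := by
      have k1 := hA.a12
      have k2 := hA.a21
      have k3 := hA.a01
      exact ⟨by linarith, by linarith, by linarith⟩
    have hlo4 : 4 * (2 ^ m * (2 * a)) ≤ tlt e e' (4 * W1) (4 * (10 * w2)) := by
      unfold tlt at hlo ⊢
      rcases le_max_iff.1 hlo with h | h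
      · refine le_trans ?_ (le_max_left _ _)
        linarith
      · refine le_trans ?_ (le_max_right _ _)
        linarith
    have hm1 : (1:ℝ) ≤ 2 ^ m := one_le_pow₀ (by norm_num)
    have hm0 : (0:ℝ) < 2 ^ m := by positivity
    have hτ : 2 * a ≤ tlt e e' (4 * W1) (4 * (10 * w2)) := by
      refine le_trans ?_ hlo4
      nlinarith
    set τ := tlt e e' (4 * W1) (4 * (10 * w2)) with hτd
    have hτ0 : 0 < τ := by linarith
    obtain ⟨n, lg, sh, hn, c1, c2, c3, c3', c4, c5⟩ := strip (z0 := z0) (ρ := ρ) he he'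
      (by linarith : (0:ℝ) < 2 * a) (by linarith : 2 * a ≤ 4 * (10 * w2)) (by linarith) hA4 hτd hτ
    refine fin n lg sh hn (by linarith) c2 (by linarith) (by linarith) ?_ ?_
    · refine c4.trans ?_
      have e1 : 409600 * (w1 * w2 / (2 ^ j * 2 ^ (m + 2))) = 102400 * (B * w2) / 2 ^ m := by
        rw [hB, pow_add]; field_simp; norm_num
      rw [e1]
      have e2 : 2 * a * (4 * W1) * (4 * (10 * w2)) / τ ≤
          2 * a * (4 * W1) * (4 * (10 * w2)) / (4 * (2 ^ m * (2 * a))) := by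
        gcongr
      have e3 : 2 * a * (4 * W1) * (4 * (10 * w2)) / (4 * (2 ^ m * (2 * a))) =
          40 * (W1 * w2) / 2 ^ m := by field_simp; norm_num
      rw [e3] at e2
      calc 128 * (2 * a * (4 * W1) * (4 * (10 * w2)) / τ) ≤ 128 * (40 * (W1 * w2) / 2 ^ m) := by
            linarith
        _ ≤ 128 * (40 * ((20 * B) * w2) / 2 ^ m) := by gcongr
        _ = _ := by ring
    · intro t ht
      have z1 : InB (L t0) (L t0) e ![2 * a, 4 * W1, 4 * (10 * w2)] z0 ρ := by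
        intro z hz hz' i
        rw [sub_self]
        have : dt (e i) (0 : V3) = 0 := by simp [dt]
        rw [this, abs_zero]
        fin_cases i
        · simp only [Fin.zero_eta, Matrix.cons_val_zero]; linarith
        · simp only [Fin.mk_one, Matrix.cons_val_one, Matrix.cons_val_zero]; linarith
        · simp only [Fin.reduceFinMk, Matrix.cons_val]; linarith
      have z2 : InB (L t0) (L t0) e' ![2 * a, 4 * W1, 4 * (10 * w2)] z0 ρ := by
        intro z hz hz' i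
        rw [sub_self]
        have : dt (e' i) (0 : V3) = 0 := by simp [dt]
        rw [this, abs_zero]
        fin_cases i
        · simp only [Fin.zero_eta, Matrix.cons_val_zero]; linarith
        · simp only [Fin.mk_one, Matrix.cons_val_one, Matrix.cons_val_zero]; linarith
        · simp only [Fin.reduceFinMk, Matrix.cons_val]; linarith
      have y1 : InB (L t) (L t0) e ![2 * a, 4 * W1, 4 * (10 * w2)] z0 ρ := by
        intro z hz hz' i
        have d0 := hu t ht z hz hz' 0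
        have d1 := hshort t ht z hz hz'
        have d2 := hu t ht z hz hz' 2
        simp only [Matrix.cons_val_zero, Matrix.cons_val] at d0 d2
        fin_cases i
        · simp only [Fin.zero_eta, Matrix.cons_val_zero]; linarith
        · simp only [Fin.mk_one, Matrix.cons_val_one, Matrix.cons_val_zero]; linarith
        · simp only [Fin.reduceFinMk, Matrix.cons_val]; linarith
      have y2 : InB (L t) (L t0) e' ![2 * a, 4 * W1, 4 * (10 * w2)] z0 ρ := by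
        intro z hz hz' i
        have d0 := hu t ht z hz hz' 0
        have d1 := hshort t ht z hz hz'
        have d2 := hu t ht z hz hz' 2
        have d0' := hu' t ht z hz hz' 0
        have d2' := hu' t ht z hz hz' 2
        simp only [Matrix.cons_val_zero, Matrix.cons_val] at d0 d2 d0' d2'
        fin_cases i
        · simp only [Fin.zero_eta, Matrix.cons_val_zero]; linarith
        · simp only [Fin.mk_one, Matrix.cons_val_one, Matrix.cons_val_zero]
          have e1 := dt_expand he (e' 1) ((L t).pos z - (L t0).pos z)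
          have b0 := abs_dt_le_one he he' 1 0
          have b1 := abs_dt_le_one he he' 1 1
          have b2 := abs_dt_le_one he he' 1 2
          set u := (L t).pos z - (L t0).pos z with hu0
          have g0 : |dt (e' 1) (e 0) * dt (e 0) u| ≤ 1 * (2 * a) := by
            rw [abs_mul]; gcongr
          have g1 : |dt (e' 1) (e 1) * dt (e 1) u| ≤ 1 * (12 * B) := by
            rw [abs_mul]; gcongr
          have g2 : |dt (e' 1) (e 2) * dt (e 2) u| ≤ 1 * (2 * w2) := by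
            rw [abs_mul]; gcongr
          have g3 := abs_add_le (dt (e' 1) (e 0) * dt (e 0) u + dt (e' 1) (e 1) * dt (e 1) u)
            (dt (e' 1) (e 2) * dt (e 2) u)
          have g4 := abs_add_le (dt (e' 1) (e 0) * dt (e 0) u) (dt (e' 1) (e 1) * dt (e 1) u)
          rw [e1]
          linarith
        · simp only [Fin.reduceFinMk, Matrix.cons_val]; linarith
      have y3 := c5 (L t0) (L t0) (L t) (L t0) y1 z1 y2 z2
      have e4 : (2:ℝ) * (2 * a) = 4 * a := by ring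
      rwa [e4] at y3

end

end Crest.Agent.R136.Ft719
end

-- ▼ part R136/Ft2_719
section

/-!
# R136 (S0187), PLAN 2, flat case: `TCore` from D-max for all boxes (helper719)
-/

set_option autoImplicit false
set_option linter.unusedVariables false

open Finset

namespace Crest.Agent.R136.Ft719

open Crest.Agent.R136.Sh605 Crest.Agent.R136.Fl808
open Crest.Agent.R136.Pl2 (TCore)

/-- constant of `tcore_of` -/
noncomputable def cT (qm qp : Fin 3 → ℝ) : ℝ :=
  1 + (10 ^ 6 : ℝ) ^ (1 + qp 1) + 2 ^ (1 + qp 0) * 16 ^ (1 + qp 1) * 2 ^ (1 + qp 2) + cS qm qp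

theorem cT_one (qm qp : Fin 3 → ℝ) : 1 ≤ cT qm qp := by
  have := cS_pos qm qp
  unfold cT
  have : (0:ℝ) < (10 ^ 6 : ℝ) ^ (1 + qp 1) := by positivity
  have : (0:ℝ) < (2:ℝ) ^ (1 + qp 0) * 16 ^ (1 + qp 1) * 2 ^ (1 + qp 2) := by positivity
  linarith

open Classical in
/-- **one cell, two flat systems, D-max for all boxes ⊢ `TCore`** with `Y = a` -/
theorem tcore_of {qm qp : Fin 3 → ℝ} (hm : ∀ k, 0 ≤ qm k) (hmp : ∀ k, qm k ≤ qp k)
    (hq : qm 2 ≤ qm 1) {L : ℕ → Ln4} {P : Finset ℕ} {u v : ℕ → ℕ} {bu bv : ℕ → Ln4}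
    {eu ev : ℕ → Fin 3 → V3} {W D a w1 w2 z0 ρ r0 : ℝ} (hW : 1 ≤ W) (hD : 0 < D) (hρ : 0 < ρ)
    (ha : 0 < a) (haw : a ≤ w2) (hw : w2 ≤ w1) (hr : r0 ≤ a) (hlg : Real.log (w1 / a) ≤ W)
    (hd : Dm P L z0 ρ D qm qp r0 (10 ^ 6 * w1) a w1 w2)
    (ou : ∀ t ∈ P, Ortho (eu (u t))) (ov : ∀ t ∈ P, Ortho (ev (v t)))
    (mu : ∀ t ∈ P, InB (L t) (bu (u t)) (eu (u t)) ![a, w1, w2] z0 ρ)
    (mv : ∀ t ∈ P, InB (L t) (bv (v t)) (ev (v t)) ![a, w1, w2] z0 ρ)
    (fu : ∀ t ∈ P, D ≤ W * ((P.filter fun s => u s = u t).card : ℝ))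
    (fv : ∀ t ∈ P, D ≤ W * ((P.filter fun s => v s = v t).card : ℝ)) :
    TCore qm qp L P u v bu bv eu ev (cT qm qp * W) D a a w1 w2 z0 ρ := by
  have hw2 : 0 < w2 := ha.trans_le haw
  have hw1 : 0 < w1 := hw2.trans_le hw
  have c1 := cT_one qm qp
  have cs := cS_pos qm qp
  have p1 : (0:ℝ) < (10 ^ 6 : ℝ) ^ (1 + qp 1) := by positivity
  have p2 : (0:ℝ) < (2:ℝ) ^ (1 + qp 0) * 16 ^ (1 + qp 1) * 2 ^ (1 + qp 2) := by positivity
  have hC : ∀ x : ℝ, 0 ≤ x → x ≤ cT qm qp → x ≤ cT qm qp * W := by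
    intro x hx hxc
    nlinarith
  have hWc : W ≤ cT qm qp * W := by nlinarith
  have hCW0 : 0 ≤ cT qm qp * W := by positivity
  refine ⟨by nlinarith, hD, hρ, ha, le_rfl, haw, hw, hlg.trans hWc, ou, ov, mu, mv, ?_, ?_, ?_, ?_,
    ?_, ?_⟩
  · intro t ht
    exact (fu t ht).trans (by gcongr)
  · intro t ht
    exact (fv t ht).trans (by gcongr)
  · intro b f X0 X2 hf e0 e2 e02 e21
    refine (hull_of hd hmp ha hw1 hw2 hr hf e0 e2 e02 e21).trans ?_
    have hX : 0 ≤ (X0 / a) ^ (1 + qp 0) * (X2 / w2) ^ (1 + qp 2) := by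
      have : 0 < X0 := ha.trans_le e0
      have : 0 < X2 := hw2.trans_le e2
      positivity
    have := hC ((10 ^ 6 : ℝ) ^ (1 + qp 1)) p1.le (by unfold cT; linarith)
    gcongr
  · intro t ht δ h1 h2
    have hδ0 : 0 < δ := by
      by_contra hc
      have : δ * w1 ≤ 0 := mul_nonpos_of_nonpos_of_nonneg (not_lt.1 hc) hw1.le
      linarith
    refine (tube_of (Q := P.filter fun s => u s = u t ∧ ∀ z, z0 ≤ z → z ≤ z0 + ρ →
      |dt (eu (u t) 1) ((L s).pos z - (L t).pos z)| ≤ δ * w1) hd hm hmp ha haw hw hr hD.le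
      (ou t ht) (filter_subset _ _) (mu t ht) h1 h2 ?_).trans ?_
    · intro s hs
      rw [mem_filter] at hs
      obtain ⟨hs1, hs2, hs3⟩ := hs
      refine ⟨?_, hs3⟩
      have := mu s hs1
      rwa [hs2] at this
    · have hδp : 0 ≤ δ ^ (1 + qm 1) := by positivity
      have := hC _ p2.le (by unfold cT; linarith)
      gcongr
  · intro t ht δ h1 h2
    have hδ0 : 0 < δ := by
      by_contra hc
      have : δ * w1 ≤ 0 := mul_nonpos_of_nonpos_of_nonneg (not_lt.1 hc) hw1.le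
      linarith
    refine (tube_of (Q := P.filter fun s => v s = v t ∧ ∀ z, z0 ≤ z → z ≤ z0 + ρ →
      |dt (ev (v t) 1) ((L s).pos z - (L t).pos z)| ≤ δ * w1) hd hm hmp ha haw hw hr hD.le
      (ov t ht) (filter_subset _ _) (mv t ht) h1 h2 ?_).trans ?_
    · intro s hs
      rw [mem_filter] at hs
      obtain ⟨hs1, hs2, hs3⟩ := hs
      refine ⟨?_, hs3⟩
      have := mv s hs1
      rwa [hs2] at this
    · have hδp : 0 ≤ δ ^ (1 + qm 1) := by positivity
      have := hC _ p2.le (by unfold cT; linarith)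
      gcongr
  · intro t ht j k' H _
    refine (share_of (Q := P.filter fun s => u s = u t ∧ v s = v t) (l := bu (u t))
      (l' := bv (v t)) hd hm hmp hq ha haw hw hr hD.le (ou t ht) (ov t ht) H (filter_subset _ _)
      ?_ ?_).trans ?_
    · intro s hs
      rw [mem_filter] at hs
      have := mu s hs.1
      rwa [hs.2.1] at this
    · intro s hs
      rw [mem_filter] at hs
      have := mv s hs.1
      rwa [hs.2.2] at this
    · rw [div_self ha.ne', mul_one]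
      have := hC _ cs.le (by unfold cT; linarith)
      have h0 : (0:ℝ) < ((2:ℝ) ^ j) ^ (1 + qm 1) * ((2:ℝ) ^ k') ^ (1 + qm 2) := by positivity
      gcongr

end Crest.Agent.R136.Ft719
end

-- ▼ part R136/Ff4_880

/-!
# R136 (S0187), U4 / PLAN 2: `FlatFree` from `TiltCore` (helper880)
-/

set_option autoImplicit false
set_option linter.unusedVariables false

namespace Crest.Agent.R136.Ff880

open Finset Crest.Agent.R136.Sh605 Crest.Agent.R136.Fl808
open Crest.Agent.R138.Mk163 (zl rho)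
open Crest.Agent.R136.Pl2 (TCore TiltCore)
open Crest.Agent.R136.Pl2W102 (Ex2)

/-- the exponents of `FlatFree` are exponents of `TiltCore` for a large `η` -/
theorem ex2_of {qm qp : Fin 3 → ℝ} (h : QmOk qm qp) : ∃ η : ℝ, Ex2 η qm qp := by
  have h0 := h.m0 0
  have h1 := h.m0 1
  have h2 := h.m2
  have p0 := h.mp 0
  have p2 := h.mp 2
  have hp0 : 0 ≤ qp 0 := h0.trans p0
  have hp2 : 0 < qp 2 := h2.trans_le p2
  have hq1 : 0 < qm 1 := by have := h.m1; linarith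
  refine ⟨qp 0 / qm 2 ^ 2 + qp 2 / qm 1, fun k => ⟨h.m0 k, h.mp k⟩, h2, h.p0, h.m1, ?_, ?_⟩
  · rw [add_mul, div_mul_cancel₀ _ (by positivity)]
    have : 0 ≤ qp 2 / qm 1 * qm 2 ^ 2 := by positivity
    linarith
  · rw [add_mul, div_mul_cancel₀ _ hq1.ne']
    have : 0 ≤ qp 0 / qm 2 ^ 2 * qm 1 := by positivity
    linarith

/-- the logarithmic end -/
theorem log_end {j k j0 k0 : ℕ} {C c W : ℝ} (hC : 0 ≤ C) (hc : 1 ≤ c) (hW : 1 ≤ W)
    (h1 : (2:ℝ) ^ j ≤ 2 * 2 ^ j0) (h2 : (2:ℝ) ^ k ≤ 2 * (2 ^ j0 * 2 ^ k0))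
    (h : (2:ℝ) ^ j0 * 2 ^ k0 ≤ (2 * (c * W)) ^ C) :
    (j : ℝ) ≤ (2 + 4 * C * (2 + Real.log c)) * (1 + Real.log W) ∧
      (k : ℝ) ≤ (2 + 4 * C * (2 + Real.log c)) * (1 + Real.log W) := by
  have hc0 : 0 < c := by linarith
  have hW0 : 0 < W := by linarith
  have l2 : 1 / 2 < Real.log 2 := by have := Real.log_two_gt_d9; linarith
  have l2' : Real.log 2 < 1 := by have := Real.log_two_lt_d9; linarith
  have lc : 0 ≤ Real.log c := Real.log_nonneg hc
  have lW : 0 ≤ Real.log W := Real.log_nonneg hW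
  have hk0 : (1:ℝ) ≤ 2 ^ k0 := one_le_pow₀ (by norm_num)
  have hj0 : (0:ℝ) < 2 ^ j0 := by positivity
  have e1 : Real.log ((2:ℝ) ^ j0 * 2 ^ k0) ≤ C * (Real.log 2 + Real.log c + Real.log W) := by
    have h3 := Real.log_le_log (by positivity) h
    have e0 : Real.log (2 * (c * W)) = Real.log 2 + Real.log c + Real.log W := by
      rw [Real.log_mul (by norm_num) (by positivity), Real.log_mul hc0.ne' hW0.ne']; ring
    rw [Real.log_rpow (by positivity), e0] at h3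
    exact h3
  have key : ∀ n : ℕ, (2:ℝ) ^ n ≤ 2 * (2 ^ j0 * 2 ^ k0) →
      (n : ℝ) ≤ (2 + 4 * C * (2 + Real.log c)) * (1 + Real.log W) := by
    intro n hn
    have h3 := Real.log_le_log (by positivity) hn
    rw [Real.log_pow, Real.log_mul (by norm_num) (by positivity)] at h3
    have h4 : (n : ℝ) * (1 / 2) ≤ n * Real.log 2 :=
      mul_le_mul_of_nonneg_left l2.le (Nat.cast_nonneg _)
    have h5 : C * (Real.log 2 + Real.log c + Real.log W) ≤
        C * ((2 + Real.log c) * (1 + Real.log W)) := by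
      refine mul_le_mul_of_nonneg_left ?_ hC
      nlinarith [mul_nonneg lc lW]
    have h6 : 0 ≤ C * ((2 + Real.log c) * (1 + Real.log W)) := by positivity
    nlinarith
  refine ⟨key j ?_, key k h2⟩
  refine h1.trans ?_
  nlinarith

/-- **`FlatFree` from `TiltCore`** -/
theorem flatFree_of (h : TiltCore) : FlatFree := by
  intro qm qp hq
  obtain ⟨η, hη⟩ := ex2_of hq
  obtain ⟨C, hC, H⟩ := h η qm qp hη
  have hcT := Crest.Agent.R136.Ft719.cT_one qm qp
  set c : ℝ := 4 * Crest.Agent.R136.Ft719.cT qm qp with hc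
  have hc1 : 1 ≤ c := by linarith
  have lc : 0 ≤ Real.log c := Real.log_nonneg hc1
  have h12 : qm 2 ≤ qm 1 := by
    have := hq.m1
    have := hq.mp 2
    have := hq.mp 0
    have := hq.m0 0
    have := hq.m2
    linarith
  refine ⟨2 + 4 * C * (2 + Real.log c), by positivity, ?_⟩
  intro α β O L i f g bf ef bg eg a w1 w2 A1 A2 D W r0 j k' hne h1 h2 hA1 hA2 hr0 hra haw hw hd
    hD1 hD2 hW hlg hdy
  have ha : 0 < a := hr0.trans_le hra
  have hw2 : 0 < w2 := ha.trans_le haw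
  have hw1 : 0 < w1 := hw2.trans_le hw
  obtain ⟨hD, c0, P, u, v, bu, bv, eu, ev, hPne, hPO, hlab, hfu, hfv, hdm⟩ :=
    cell_of hne h1 h2 hra ha haw hw (by nlinarith) hd hD1 hD2 hW
  have hW4 : 1 ≤ 4 * W := by linarith
  have hT : TCore qm qp L P u v bu bv eu ev (Crest.Agent.R136.Ft719.cT qm qp * (4 * W)) D a a w1 w2
      (zl i c0) (rho i) := by
    refine Crest.Agent.R136.Ft719.tcore_of hq.m0 hq.mp h12 hW4 hD (rho_pos i) ha haw hw hra
      (by linarith) hdm ?_ ?_ ?_ ?_ hfu hfv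
    · intro t ht
      rw [(hlab t ht).1]; exact h1.ortho _ (hPO t ht)
    · intro t ht
      rw [(hlab t ht).2.2.1]; exact h2.ortho _ (hPO t ht)
    · intro t ht
      rw [(hlab t ht).1, (hlab t ht).2.1]; exact h1.mem _ (hPO t ht)
    · intro t ht
      rw [(hlab t ht).2.2.1, (hlab t ht).2.2.2]; exact h2.mem _ (hPO t ht)
  obtain ⟨t, ht, j0, k0, hdy0, hb⟩ := H L P u v bu bv eu ev _ D a a w1 w2 _ _ hT hPne
  rw [(hlab t ht).1, (hlab t ht).2.2.1] at hdy0
  obtain ⟨q1, q2⟩ := dy_unique (hdy _ (hPO t ht)) hdy0 ha hw2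
  refine log_end hC hc1 hW q1 q2 (hb.trans (le_of_eq ?_))
  rw [hc]; congr 1; ring

end Crest.Agent.R136.Ff880
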