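import Crest.Agent.R116.Zl3_139
import Crest.Agent.R136.TD3_627
import Crest.Agent.R116.Zl4_139
import Crest.Agent.R136.XIn4_823
import Crest.Agent.R136.UB4_861_Mg
import Crest.Agent.R136.AllD3_823
import Crest.Agent.R136.Yc1_953
import Crest.Agent.R136.Tq1_879
import Crest.Agent.R136.DAl_879
import Crest.Agent.R136.DAl7_879
import Crest.Agent.R136.Dd1_325

-- ▼ part R136/Lz2_627
section

/-!
# R136 (S0187), U4, pure penalty, leaf (d) (helper627), part 2: range, resolution, velocities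

* `rng_of` : the range `[d^(K n) w 1, d^(-K n) w 1]`, `K n → ∞`, is superpolynomially far from the
  widths of the marks of every level.
* `shrinkK` : smaller range.
* `log_r_of` : a bound of the admissible exponents is a bound of the resolution.
* `all_of_mem` : a property of the lines contained in `mem` holds for all lines.
-/

set_option autoImplicit false
set_option linter.unusedVariables false
set_option linter.unusedSectionVars false

open Finset Filter Topology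

namespace Crest.Agent.R136.Lz627

open Crest.Agent.R138.Ex926 (Base U exists_diag exists_tendsto ev_em)
open Crest.Agent.R138.Dp76
open Crest.Agent.R138.Mk163 (zc zl rho alive own)
open Crest.Agent.R138.MkRef627 (mem_alive)
open Crest.Agent.R136.MkA627
open Crest.Agent.R116.Zl139

section

variable {ι S : Type} {B : Base} {I : ℕ → Finset (ℕ × ℝ)} {G : Geo ((ι → ℕ) × S) ι}
    {lev : ℕ → ℚ → ℕ} {A : ℕ → ℝ} {c Λ : ℝ → ℝ} {θ : ι → ℝ}
    {f : ℕ → ℚ → ℕ → ℤ → ℕ} {b : ℕ → ℚ → ℕ → (ι → ℕ) × S} {vm : ℕ → ℚ → ℝ} {w : ι → ℕ → ℚ → ℝ}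

/-- **the range is superpolynomial.** -/
theorem rng_of (h : MkA B I G lev A c Λ (fun j v => θ j * (1 - v)) f b vm w) {K : ℕ → ℝ}
    (hK : Tendsto K U atTop) (C : ℝ) (j : ι) (v : ℚ) (h0 : 0 ≤ v) (h1 : v ≤ 1) :
    ∀ᶠ n in (U : Filter ℕ), B.d n ^ (K n) * w j n 1 ≤ B.d n ^ C * w j n v ∧
      w j n v ≤ B.d n ^ C * (B.d n ^ (-(K n)) * w j n 1) := by
  have hR : 1 + |θ j| < 2 + |θ j| := by linarith
  filter_upwards [mark_rg h h0 h1 j hR, hK.eventually_ge_atTop (C + (2 + |θ j|)),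
    h.wpos j 1 zero_le_one le_rfl] with n a1 a2 p
  have pc := dpow_pos B n C
  constructor
  · calc B.d n ^ (K n) * w j n 1 ≤ B.d n ^ (C + (2 + |θ j|)) * w j n 1 :=
          mul_le_mul_of_nonneg_right (dpow_le B n a2) p.le
      _ = B.d n ^ C * (B.d n ^ (2 + |θ j|) * w j n 1) := by rw [dpow_add]; ring
      _ ≤ _ := mul_le_mul_of_nonneg_left a1.1 pc.le
  · calc w j n v ≤ B.d n ^ (-(2 + |θ j|)) * w j n 1 := a1.2
      _ ≤ B.d n ^ (C + -(K n)) * w j n 1 :=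
          mul_le_mul_of_nonneg_right (dpow_le B n (by linarith)) p.le
      _ = _ := by rw [dpow_add]; ring

end

section

variable {σ κ : Type*} {B : Base} {I : ℕ → Finset (ℕ × ℝ)} {G : Geo σ κ}
    {lev : ℕ → ℚ → ℕ} {A : ℕ → ℝ} {c Λ : ℝ → ℝ} {τ : κ → ℝ → ℝ}
    {f : ℕ → ℚ → ℕ → ℤ → ℕ} {b : ℕ → ℚ → ℕ → σ} {vm : ℕ → ℚ → ℝ} {w : κ → ℕ → ℚ → ℝ}

/-- a property of the lines contained in `mem` holds for all lines. -/
theorem all_of_mem (h : MkA B I G lev A c Λ τ f b vm w) {P : ℕ → ℕ → Prop}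
    (hP : ∀ n i J s t, G.mem n i J s t → P n t) :
    ∀ᶠ n in (U : Filter ℕ), ∀ x ∈ I n, P n x.1 := by
  filter_upwards [h.mark 1 zero_le_one le_rfl] with n hn x hx
  exact hP n _ _ _ _ (hn (zc (lev n 1) x.2) x.1 (mem_alive.2 ⟨x, hx, rfl, rfl⟩)).1

/-- the mark of some alive line of level `v` is admissible. -/
theorem exists_adm (h : MkA B I G lev A c Λ τ f b vm w) (v : ℚ) (h0 : 0 ≤ v) (h1 : v ≤ 1) :
    ∀ᶠ n in (U : Filter ℕ), ∃ (J : ℤ) (s : σ), G.adm n (lev n v) J s := by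
  filter_upwards [h.mark v h0 h1, h.ne] with n hn hne
  obtain ⟨x, hx⟩ := hne
  exact ⟨_, _, (hn (zc (lev n v) x.2) x.1 (mem_alive.2 ⟨x, hx, rfl, rfl⟩)).2.1⟩

end

/-- **resolution** from a bound of the exponents: if every admissible set has a shrunk admissible
companion with exponent `≥ log₂ (1/r) - 1`. -/
theorem log_r_of {B : Base} {r : ℕ → ℝ} {N : ℕ → ℕ}
    (hN : ∀ ε : ℝ, 0 < ε → ∀ᶠ n in (U : Filter ℕ), (N n : ℝ) ≤ B.d n ^ (-ε))
    (hr : ∀ᶠ n in (U : Filter ℕ), 0 < r n ∧ (1 / 2 : ℝ) ^ (N n) ≤ 2 * r n) (ε : ℝ) (hε : 0 < ε) :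
    ∀ᶠ n in (U : Filter ℕ), Real.log (1 / r n) ≤ B.d n ^ (-ε) := by
  filter_upwards [hN (ε / 2) (by positivity), hr, B.ev_L_ge (2 / ε * Real.log 2)] with n a1 a2 a3
  obtain ⟨p, a2⟩ := a2
  have l2 : 0 < Real.log 2 := Real.log_pos one_lt_two
  have l21 : Real.log 2 ≤ 1 := by
    have := Real.log_two_lt_d9
    linarith
  have e1 : (1 / 2 : ℝ) ^ (N n) = Real.exp (-(N n * Real.log 2)) := by
    rw [← Real.exp_log (show (0:ℝ) < (1 / 2 : ℝ) ^ (N n) by positivity), Real.log_pow]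
    congr 1
    rw [one_div, Real.log_inv]
    ring
  have e2 : Real.log (1 / r n) ≤ (N n + 1) * Real.log 2 := by
    rw [one_div, Real.log_inv]
    have h3 : Real.log ((1 / 2 : ℝ) ^ (N n)) ≤ Real.log (2 * r n) :=
      Real.log_le_log (by positivity) a2
    rw [e1, Real.log_exp, Real.log_mul two_ne_zero p.ne'] at h3
    linarith
  have hd : B.d n ^ (-(ε / 2)) * B.d n ^ (-(ε / 2)) = B.d n ^ (-ε) := by
    rw [← dpow_add]; congr 1; ring
  have h2 : (2 : ℝ) ≤ B.d n ^ (-(ε / 2)) := by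
    have e3 : B.d n ^ (-(ε / 2)) = Real.exp (ε / 2 * B.L n) := by
      rw [Real.rpow_def_of_pos (B.pos n)]
      unfold Base.L
      congr 1; ring
    have h4 : ε / 2 * (2 / ε * Real.log 2) ≤ ε / 2 * B.L n :=
      mul_le_mul_of_nonneg_left a3 (by positivity)
    have e5 : ε / 2 * (2 / ε * Real.log 2) = Real.log 2 := by field_simp
    rw [e5] at h4
    rw [e3]
    calc (2 : ℝ) = Real.exp (Real.log 2) := (Real.exp_log two_pos).symm
      _ ≤ _ := Real.exp_le_exp.2 h4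
  have h1 : (1 : ℝ) ≤ B.d n ^ (-(ε / 2)) := by linarith
  calc Real.log (1 / r n) ≤ (N n + 1) * Real.log 2 := e2
    _ ≤ (N n + 1) * 1 := mul_le_mul_of_nonneg_left l21 (by positivity)
    _ ≤ B.d n ^ (-(ε / 2)) + B.d n ^ (-(ε / 2)) := by linarith
    _ = 2 * B.d n ^ (-(ε / 2)) := by ring
    _ ≤ B.d n ^ (-(ε / 2)) * B.d n ^ (-(ε / 2)) :=
        mul_le_mul_of_nonneg_right h2 (dpow_pos B n _).le
    _ = _ := hd

end Crest.Agent.R136.Lz627
end

-- ▼ part R136/Lz3_627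
section

/-!
# R136 (S0187), U4, pure penalty, leaf (d) (helper627), part 3: change of the test sets

* `CovP π K0 lo L G1 G2` : the sets of allowed codes (`L n`) in an admissible test set of `G2` have a
  `1/K0`-portion in an admissible test set of `G1` of size `≤ K0 ·` (823's `GeoCov` with a map
  `π : σ1 → σ2` of the test sets, `mem`, `val`, `wid` compared on admissible sets only).
* `mkA_cov`, `allD_cov`, `dbody_cov` : D-max for `G1` gives D-max for `G2`.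
-/

set_option autoImplicit false
set_option linter.unusedVariables false
set_option linter.unusedSectionVars false

open Finset Filter Topology

namespace Crest.Agent.R136.Lz627

open Crest.Agent.R138.Ex926 Crest.Agent.R138.Dp76
open Crest.Agent.R138.Mk163 (zc zl rho alive own)
open Crest.Agent.R138.MkRef627 (lc mem_alive)
open MkA627 (Geo MkA ampA)
open Dia770 XIn823

/-- comparison of two geometries, with a map of the test sets -/
structure CovP {σ1 σ2 κ : Type} (π : σ1 → σ2) (K0 : ℝ) (lo : ℕ → ℕ) (L : ℕ → Finset ℕ)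
    (G1 : Geo σ1 κ) (G2 : Geo σ2 κ) : Prop where
  mem : ∀ n i J s, G1.adm n i J s → ∀ t, G1.mem n i J s t → G2.mem n i J (π s) t
  val : ∀ n i J s, G1.adm n i J s → G2.val n i J (π s) = G1.val n i J s
  wid : ∀ n i J s, G1.adm n i J s → ∀ k, G2.wid k (π s) = G1.wid k s
  cov : ∀ᶠ n in (U : Filter ℕ), ∀ i : ℕ, lo n ≤ i → ∀ (J : ℤ) (s : σ2), G2.adm n i J s →
    ∀ T : Finset ℕ, T ⊆ L n → (∀ t ∈ T, G2.mem n i J s t) → ∃ s' : σ1, G1.adm n i J s' ∧
      G1.val n i J s' ≤ K0 * G2.val n i J s ∧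
      ∃ T' : Finset ℕ, T' ⊆ T ∧ (∀ t ∈ T', G1.mem n i J s' t) ∧ (T.card : ℝ) ≤ K0 * (T'.card : ℝ)

section

variable {σ1 σ2 κ : Type} {π : σ1 → σ2} {B : Base} {lo : ℕ → ℕ} {L : ℕ → Finset ℕ} {K0 : ℝ}
  {G1 : Geo σ1 κ} {G2 : Geo σ2 κ} {I : ℕ → Finset (ℕ × ℝ)} {lev : ℕ → ℚ → ℕ} {A : ℕ → ℝ}

/-- one test set: the transfer of the bound, with the sign of the value. -/
theorem one_cov {e D X : ℝ} (he : 1 ≤ e) (hD : 0 < D) {n i : ℕ} {J : ℤ} {s : σ2} {T : Finset ℕ}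
    (hc : ∃ s' : σ1, G1.adm n i J s' ∧ G1.val n i J s' ≤ e * G2.val n i J s ∧
      ∃ T' : Finset ℕ, T' ⊆ T ∧ (∀ t ∈ T', G1.mem n i J s' t) ∧ (T.card : ℝ) ≤ e * (T'.card : ℝ))
    (h : ∀ s', G1.adm n i J s' → ∀ T' : Finset ℕ, T' ⊆ T → (∀ t ∈ T', G1.mem n i J s' t) →
      (T'.card : ℝ) ≤ D * G1.val n i J s') (hX : e * e ≤ X) :
    (T.card : ℝ) ≤ X * D * G2.val n i J s := by
  obtain ⟨s', h1, h2, T', h3, h4, h5⟩ := hc
  have h6 := h s' h1 T' h3 h4
  have e0 : 0 ≤ e := by linarith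
  have v1 : 0 ≤ G1.val n i J s' := by
    by_contra hneg
    have h7 : D * G1.val n i J s' < 0 := mul_neg_of_pos_of_neg hD (not_le.1 hneg)
    have h8 : (0:ℝ) ≤ T'.card := Nat.cast_nonneg _
    linarith
  have v2 : 0 ≤ G2.val n i J s := nonneg_of_mul_nonneg_right (v1.trans h2) (by linarith)
  calc (T.card : ℝ) ≤ e * (T'.card : ℝ) := h5
    _ ≤ e * (D * G1.val n i J s') := mul_le_mul_of_nonneg_left h6 e0
    _ ≤ e * (D * (e * G2.val n i J s)) := by gcongr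
    _ = (e * e) * D * G2.val n i J s := by ring
    _ ≤ _ := by gcongr

open Classical in
/-- D-max for `G1` gives D-max for `G2` -/
theorem mkA_cov (hc : CovP π K0 lo L G1 G2) (hK0 : 1 ≤ K0)
    (hL : ∀ᶠ n in (U : Filter ℕ), ∀ x ∈ I n, x.1 ∈ L n)
    (hlo : ∀ᶠ n in (U : Filter ℕ), lo n ≤ lev n 0)
    {c Λ : ℝ → ℝ} {τ : κ → ℝ → ℝ} {f : ℕ → ℚ → ℕ → ℤ → ℕ} {b : ℕ → ℚ → ℕ → σ1}
    {vm : ℕ → ℚ → ℝ} {w : κ → ℕ → ℚ → ℝ} (h : MkA B I G1 lev A c Λ τ f b vm w)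
    (hmark : ∀ v : ℚ, 0 ≤ v → v ≤ 1 → ∀ᶠ n in (U : Filter ℕ), ∀ J : ℤ,
      ∀ t ∈ alive (I n) (lev n v) J, G1.adm n (lev n v) J (b n v (f n v t J)) →
        G2.adm n (lev n v) J (π (b n v (f n v t J)))) :
    MkA B I G2 lev A c Λ τ f (fun n v i => π (b n v i)) vm w where
  ne := h.ne
  card := h.card
  Apos := h.Apos
  c0 := h.c0
  lam0 := h.lam0
  lam := h.lam
  tau1 := h.tau1
  lev_mono := h.lev_mono
  lev_lim := h.lev_lim
  cell0 := h.cell0
  one := h.one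
  own := h.own
  dmax := by
    intro v hv0 hv1 ε hε
    filter_upwards [ev_const_le B (K0 * K0) (show 0 < ε / 2 by positivity),
      h.dmax v hv0 hv1 (ε / 2) (by positivity), hlo, h.lev_mono 0 v le_rfl hv0 hv1, hL, hc.cov]
      with n h1 h2 h3 h4 h6 h7
    intro J s hs
    have hA : 0 < ampA B A c n v := mul_pos (h.Apos n) (Real.rpow_pos_of_pos (B.pos n) _)
    have hp : 0 < B.d n ^ (-(ε / 2)) := Real.rpow_pos_of_pos (B.pos n) _
    have hTL : ((alive (I n) (lev n v) J).filter fun t => G2.mem n (lev n v) J s t) ⊆ L n := by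
      intro t ht
      obtain ⟨x, hx, hx1, -⟩ := mem_alive.1 (mem_filter.1 ht).1
      rw [← hx1]; exact h6 x hx
    have h5 := one_cov (G1 := G1) (G2 := G2) (D := B.d n ^ (-(ε / 2)) * ampA B A c n v)
      hK0 (by positivity)
      (h7 (lev n v) (h3.trans h4) J s hs
        ((alive (I n) (lev n v) J).filter fun t => G2.mem n (lev n v) J s t) hTL
        (fun t ht => (mem_filter.1 ht).2))
      (fun s' hs' T' hT' hm => by
        refine le_trans (Nat.cast_le.2 (card_le_card fun t ht => ?_)) (h2 J s' hs')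
        exact mem_filter.2 ⟨(mem_filter.1 (hT' ht)).1, hm t ht⟩) h1
    refine h5.trans (le_of_eq ?_)
    rw [← rpow_half n (ε := ε)]
    ring
  mark := by
    intro v hv0 hv1
    filter_upwards [h.mark v hv0 hv1, hmark v hv0 hv1] with n h1 h2
    intro J t ht
    obtain ⟨k1, k2, k3, k4⟩ := h1 J t ht
    exact ⟨hc.mem _ _ _ _ k2 _ k1, h2 J t ht k2, by rw [hc.val _ _ _ _ k2]; exact k3,
      fun j => by rw [hc.wid _ _ _ _ k2]; exact k4 j⟩
  near := h.near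
  vpos := h.vpos
  wpos := h.wpos
  tau := h.tau

open Classical in
theorem allD_cov (hc : CovP π K0 lo L G1 G2) (hK0 : 1 ≤ K0)
    (hL : ∀ᶠ n in (U : Filter ℕ), ∀ x ∈ I n, x.1 ∈ L n)
    (hlo : ∀ᶠ n in (U : Filter ℕ), lo n ≤ lev n 0)
    (hA : ∀ n, 0 < A n) {g : ℝ} (h : AllD B I G1 lev A g) : AllD B I G2 lev A g := by
  intro ε hε
  filter_upwards [ev_const_le B (K0 * K0) (show 0 < ε / 2 by positivity),
    h (ε / 2) (by positivity), hlo, hL, hc.cov] with n h1 h2 h3 h6 h7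
  intro i hi0 hi1 J s hs
  have hAn := hA n
  have hp : 0 < B.d n ^ (-(ε / 2)) := Real.rpow_pos_of_pos (B.pos n) _
  have hTL : ((alive (I n) i J).filter fun t => G2.mem n i J s t) ⊆ L n := by
    intro t ht
    obtain ⟨x, hx, hx1, -⟩ := mem_alive.1 (mem_filter.1 ht).1
    rw [← hx1]; exact h6 x hx
  have h5 := one_cov (G1 := G1) (G2 := G2)
    (D := B.d n ^ (-(ε / 2)) * (A n * 2 ^ (g * ((i : ℝ) - lev n 0)))) hK0 (by positivity)
    (h7 i (h3.trans hi0) J s hs ((alive (I n) i J).filter fun t => G2.mem n i J s t) hTL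
      (fun t ht => (mem_filter.1 ht).2))
    (fun s' hs' T' hT' hm => by
      refine le_trans (Nat.cast_le.2 (card_le_card fun t ht => ?_)) (h2 i hi0 hi1 J s' hs')
      exact mem_filter.2 ⟨(mem_filter.1 (hT' ht)).1, hm t ht⟩) h1
  refine h5.trans (le_of_eq ?_)
  rw [← rpow_half n (ε := ε)]
  ring

/-- the conclusion of `DeepP` for one level, part and loss. -/
def DBody {σ κ : Type} (B : Base) (G : Geo σ κ) (lev : ℕ → ℚ → ℕ) (A : ℕ → ℝ) (g : ℝ)
    (v : ℚ) (m : ℕ → ℕ) (J : ℕ → Finset (ℕ × ℝ)) (ε : ℝ) : Prop :=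
  open Classical in
  ∃ P : ℕ → Finset (ℕ × ℤ), (∀ n, P n ⊆ extO (J n) (lev n 1) (m n)) ∧
    (∃ γ : ℝ, 0 < γ ∧ ∀ᶠ n in (U : Filter ℕ), ((extO (J n) (lev n 1) (m n)).card : ℝ) ≤
      (P n).card + B.d n ^ γ * (extO (J n) (lev n 1) (m n)).card) ∧
    ∀ᶠ n in (U : Filter ℕ), ∀ (j : ℤ) (s : σ), G.adm n (m n) j s →
      (((P n).filter fun o => o.2 = j ∧ G.mem n (m n) j s o.1).card : ℝ) ≤
        B.d n ^ (-ε) * (A n * B.d n ^ (-(g * v))) *
          2 ^ ((g + ε) * ((m n : ℝ) - lev n v)) * G.val n (m n) j s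


end

end Crest.Agent.R136.Lz627
end

-- ▼ part R136/Lz4_627
section

/-!
# R136 (S0187), U4, pure penalty, leaf (d) (helper627), part 4: dyadic sheets ⊢ all sheets

* `geoR` : the geometry of sheets with range in all three widths (= `geo4` of J1 v3c, `rfl`).
* `Is36 T R` : `T` is the class of dyadic sheets of resolution `2^-R` (879's `TS36`).
* `cov36` : the comparison `CovP` between the linear dyadic geometry `rgK (geo T p L)` and `geoR`.
* `mark36` : the marks are in the range.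
-/

set_option autoImplicit false
set_option linter.unusedVariables false
set_option linter.unusedSectionVars false

open Finset Filter Topology

namespace Crest.Agent.R136.Lz627

open Sh605 K4 KS879 En879 XA248 Win823 Cod289
open Crest.Agent.R138.Ex926 Crest.Agent.R138.Dp76
open Crest.Agent.R138.Mk163 (zc zl rho alive own)
open Crest.Agent.R138.MkRef627 (lc mem_alive)
open MkA627 (Geo MkA ampA)
open Dia770 XIn823
open Crest.Agent.R116.Xa794 (TS geo)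
open Crest.Agent.R116.Zl139 (rgK mark_rg)

/-- geometry of sheets, range in all three widths -/
noncomputable def geoR (L : ℕ → ℕ → Ln4) (r0 : ℕ → ℝ) (wr cr : Fin 3 → ℕ → ℝ) (q : Fin 3 → ℝ) :
    Geo Plk4 (Fin 3) where
  mem := fun n i J s t => InSheet (L n t) s.e s.c s.w s.q s.a (zl i J) (rho i)
  adm := fun n i J s => ShN s.e s.c s.w s.q s.a (zl i J) (rho i) (r0 n) ∧ s.w 1 ≤ rho i ∧
    ∀ k : Fin 3, wr k n ≤ ![s.a, s.w 1, s.w 2] k ∧ ![s.a, s.w 1, s.w 2] k ≤ cr k n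
  val := fun n i J s => s.a * s.w 2 * s.w 1 *
    ((s.a / rho i) ^ q 0 * (s.w 1 / rho i) ^ q 1 * (s.w 2 / rho i) ^ q 2)
  wid := fun k s => ![s.a, s.w 1, s.w 2] k

/-- the class of dyadic sheets of resolution `2^-R` -/
structure Is36 (T : TS Ln4 (Fin 3) Plk4) (R : ℕ) : Prop where
  mem : ∀ i J s t, T.mem i J s t ↔
    (InSheet t s.2.e s.2.c s.2.w s.2.q s.2.a (zl i J) (rho i) ∧ ∀ k, |t.v k| ≤ 1)
  adm : ∀ i J s, T.adm i J s ↔
    (ShN s.2.e s.2.c s.2.w s.2.q s.2.a (zl i J) (rho i) ((1 / 2 : ℝ) ^ R) ∧ s.2.w 1 ≤ rho i ∧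
      ∀ k, wd s.2 k = (1 / 2 : ℝ) ^ (s.1 k))
  vol : ∀ i a, T.vol i a = (1 / 2 : ℝ) ^ (a 0) * (1 / 2 : ℝ) ^ (a 1) * (1 / 2 : ℝ) ^ (a 2)

/-- size of a dyadic sheet -/
theorem cap36 {T : TS Ln4 (Fin 3) Plk4} {R : ℕ} (hT : Is36 T R) (p : Fin 3 → ℝ) (i : ℕ)
    {s : (Fin 3 → ℕ) × Plk4} (hs : ∀ k, wd s.2 k = (1 / 2 : ℝ) ^ (s.1 k)) :
    s.2.a * s.2.w 2 * s.2.w 1 * ((s.2.a / rho i) ^ p 0 * (s.2.w 1 / rho i) ^ p 1 *
      (s.2.w 2 / rho i) ^ p 2) = T.cap p i s.1 := by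
  have h0 : s.2.a = (1 / 2 : ℝ) ^ (s.1 0) := hs 0
  have h1 : s.2.w 1 = (1 / 2 : ℝ) ^ (s.1 1) := hs 1
  have h2 : s.2.w 2 = (1 / 2 : ℝ) ^ (s.1 2) := hs 2
  have hr : ∀ k : Fin 3, ((1 / 2 : ℝ) ^ (s.1 k) / rho i) ^ p k =
      (2 : ℝ) ^ (-(p k * ((s.1 k : ℝ) - i))) := by
    intro k
    have e : (1 / 2 : ℝ) ^ (s.1 k) / rho i = (2 : ℝ) ^ (-((s.1 k : ℝ) - i)) := by
      rw [neg_sub, Real.rpow_sub two_pos, Real.rpow_natCast, Real.rpow_natCast]
      unfold rho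
      rw [one_div_pow]
      field_simp
    rw [e, ← Real.rpow_mul two_pos.le]
    congr 1; ring
  unfold TS.cap
  rw [hT.vol, h0, h1, h2, hr, hr, hr, Fin.sum_univ_three, neg_add, neg_add,
    Real.rpow_add two_pos, Real.rpow_add two_pos]
  ring

/-- exponent of a dyadic multiple of the resolution -/
theorem exp36 {R i : ℕ} {x : ℝ} (hx : x = (1 / 2 : ℝ) ^ R * 2 ^ i) (h1 : x ≤ 1) :
    x = (1 / 2 : ℝ) ^ (R - i) := by
  have hi : i ≤ R := by
    by_contra hlt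
    push Not at hlt
    have h2 : (1 / 2 : ℝ) ^ R * 2 ^ i = 2 ^ (i - R) := by
      obtain ⟨k, rfl⟩ := Nat.exists_eq_add_of_le hlt.le
      rw [Nat.add_sub_cancel_left, pow_add, ← mul_assoc, ← mul_pow]
      norm_num
    rw [hx, h2] at h1
    have h3 : (1 : ℝ) < 2 ^ (i - R) := one_lt_pow₀ (by norm_num) (by omega)
    linarith
  obtain ⟨k, rfl⟩ := Nat.exists_eq_add_of_le hi
  rw [Nat.add_sub_cancel_left, hx, pow_add]
  have : (1 / 2 : ℝ) ^ i * (1 / 2) ^ k * 2 ^ i = (1 / 2 * 2) ^ i * (1 / 2) ^ k := by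
    rw [mul_pow]; ring
  rw [this]
  norm_num

open Classical in
/-- **dyadic rounding of one sheet**, lines with multiplicities. -/
theorem rnd36 {T : TS Ln4 (Fin 3) Plk4} {R : ℕ} (hT : Is36 T R) (p : Fin 3 → ℝ) {i : ℕ} {J : ℤ}
    {s : Plk4} (hS : ShN s.e s.c s.w s.q s.a (zl i J) (rho i) ((1 / 2 : ℝ) ^ R))
    (h1 : s.w 1 ≤ rho i) {ι : Type} (L : ι → Ln4) (O : Finset ι)
    (hO : ∀ t ∈ O, InSheet (L t) s.e s.c s.w s.q s.a (zl i J) (rho i) ∧ ∀ k, |(L t).v k| ≤ 1) :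
    ∃ s' : (Fin 3 → ℕ) × Plk4, T.adm i J s' ∧
      (∀ k, wd s'.2 k ≤ wd s k ∧ wd s k ≤ 8 * wd s'.2 k) ∧
      T.cap p i s'.1 ≤ K0N p * (s.a * s.w 2 * s.w 1 * ((s.a / rho i) ^ p 0 *
        (s.w 1 / rho i) ^ p 1 * (s.w 2 / rho i) ^ p 2)) ∧
      ∃ O' : Finset ι, O' ⊆ O ∧ (∀ t ∈ O', T.mem i J s' (L t)) ∧
        (O.card : ℝ) ≤ K0N p * (O'.card : ℝ) := by
  have hr : (0:ℝ) < (1 / 2 : ℝ) ^ R := by positivity
  have hρ : (0:ℝ) < rho i := by unfold rho; positivity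
  have hρ1 : rho i ≤ 1 := by
    unfold rho
    rw [div_le_one (by positivity)]
    exact one_le_pow₀ (by norm_num)
  have hC := Sh321.ShN.toC hr hS
  obtain ⟨c', w', q', a', i0, j0, k0, hS', ha, h2', h1', ba, b2, b1, -, -, hc⟩ :=
    Rnd289.rnd_C hC hr hρ L O (fun t ht => (hO t ht).1)
  obtain ⟨pa, -, p2, p1⟩ := hC.pos hr
  obtain ⟨pa', -, p2', p1'⟩ := hS'.pos hr
  have hN' : ShN s.e c' w' q' a' (zl i J) (rho i) ((1 / 2 : ℝ) ^ R) := hS'.toN
  have w1le : w' 1 ≤ 1 := (b1.1.trans h1).trans hρ1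
  have w2le : w' 2 ≤ 1 := hN'.w_le.trans w1le
  have ale : a' ≤ 1 := hN'.a_le.trans w2le
  set K' : Plk4 := ⟨J, s.e, c', w', q', a'⟩ with hK'
  have hwd : ∀ k, wd K' k = (1 / 2 : ℝ) ^ ((![R - i0, R - k0, R - j0] : Fin 3 → ℕ) k) := by
    intro k
    fin_cases k
    · exact exp36 ha ale
    · exact exp36 h1' w1le
    · exact exp36 h2' w2le
  have hcmp : Rnd289.Comp { s with j := J } K' :=
    ⟨rfl, ba.1, by show s.a ≤ 8 * a'; linarith [ba.2], b2.1,
      by show s.w 2 ≤ 8 * w' 2; linarith [b2.2], b1.1, b1.2⟩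
  have hqs : 0 ≤ 3 * qs p := by unfold qs; positivity
  have hA1 : (1:ℝ) ≤ (2:ℝ) ^ (3 * qs p) := Real.one_le_rpow (by norm_num) hqs
  refine ⟨(![R - i0, R - k0, R - j0], K'), (hT.adm _ _ _).2 ⟨hN', b1.1.trans h1, hwd⟩, ?_, ?_,
    O.filter fun t => InSheet (L t) s.e c' w' q' a' (zl i J) (rho i), filter_subset _ _, ?_, ?_⟩
  · intro k
    fin_cases k
    · exact ⟨ba.1, by show s.a ≤ 8 * a'; linarith [ba.2]⟩
    · exact ⟨b1.1, b1.2⟩
    · exact ⟨b2.1, by show s.w 2 ≤ 8 * w' 2; linarith [b2.2]⟩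
  · rw [← cap36 hT p i (s := (![R - i0, R - k0, R - j0], K')) hwd]
    have hval : ∀ K : Plk4, K.a * K.w 2 * K.w 1 *
        ((K.a / rho i) ^ p 0 * (K.w 1 / rho i) ^ p 1 * (K.w 2 / rho i) ^ p 2) = cap5 p i K := by
      intro K
      unfold cap5
      rw [div_rho, div_rho, div_rho]
    have e1 := hval K'
    have e2 := hval s
    rw [show ((![R - i0, R - k0, R - j0], K') : (Fin 3 → ℕ) × Plk4).2 = K' from rfl, e1, e2]
    have e3 := (Rnd289.cap5_comp (q := p) (m := i) hcmp pa p2 p1).1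
    have e4 : cap5 p i { s with j := J } = cap5 p i s := rfl
    rw [e4] at e3
    refine e3.trans ?_
    have h0 : 0 ≤ cap5 p i s := by unfold cap5; positivity
    refine mul_le_mul_of_nonneg_right ?_ h0
    unfold K0N
    exact le_mul_of_one_le_left (by positivity) (by norm_num)
  · intro t ht
    rw [mem_filter] at ht
    exact (hT.mem _ _ _ _).2 ⟨ht.2, (hO t ht.1).2⟩
  · refine hc.trans ?_
    refine mul_le_mul_of_nonneg_right ?_ (Nat.cast_nonneg _)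
    unfold K0N
    exact le_mul_of_one_le_right (by positivity) hA1

section

variable {B : Base} {I : ℕ → Finset (ℕ × ℝ)} {T : ℕ → TS Ln4 (Fin 3) Plk4} {R : ℕ → ℕ}
  {L : ℕ → ℕ → Ln4} {p : Fin 3 → ℝ} {w : Fin 3 → ℕ → ℚ → ℝ} {K : ℕ → ℝ}

theorem eight_le (B : Base) : ∀ᶠ n in (U : Filter ℕ), 8 * B.d n ^ (1 : ℝ) ≤ 1 := by
  filter_upwards [ev_const_le B 8 (show (0:ℝ) < 1 by norm_num)] with n hn
  have h1 := mul_le_mul_of_nonneg_right hn (dpow_pos B n 1).le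
  have h2 : B.d n ^ (-(1:ℝ)) * B.d n ^ (1:ℝ) = 1 := by
    rw [← dpow_add]; norm_num
  rw [h2] at h1
  exact h1

/-- **the comparison** of the dyadic linear geometry of range `K` with all sheets of range `K - 1`. -/
theorem cov36 (hT : ∀ n, Is36 (T n) (R n)) {Lc : ℕ → Finset ℕ}
    (hv : ∀ᶠ n in (U : Filter ℕ), ∀ t ∈ Lc n, ∀ k, |(L n t).v k| ≤ 1)
    (hw : ∀ᶠ n in (U : Filter ℕ), ∀ k, 0 < w k n 1) :
    CovP (Prod.snd : (Fin 3 → ℕ) × Plk4 → Plk4) (K0N p) (fun _ => 0) Lc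
      (rgK B w K (geo T p L))
      (geoR L (fun n => (1 / 2 : ℝ) ^ (R n)) (fun k n => B.d n ^ (K n - 1) * w k n 1)
        (fun k n => B.d n ^ (-(K n - 1)) * w k n 1) p) where
  mem := by
    intro n i J s _ t ht
    exact (((hT n).mem i J s (L n t)).1 ht).1
  val := by
    intro n i J s hs
    exact cap36 (hT n) p i (((hT n).adm i J s).1 hs.1).2.2
  wid := by
    intro n i J s hs k
    have h := (((hT n).adm i J s).1 hs.1).2.2
    show ![s.2.a, s.2.w 1, s.2.w 2] k = (1 / 2 : ℝ) ^ (s.1 k)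
    exact h k
  cov := by
    filter_upwards [hv, hw, eight_le B] with n h1 h2 h8 i _ J s hs O hO hm
    obtain ⟨a1, a2, a3⟩ := hs
    obtain ⟨s', b1, b2, b3, O', c1, c2, c3⟩ := rnd36 (hT n) p a1 a2 (fun t => L n t) O
      (fun t ht => ⟨hm t ht, h1 t (hO ht)⟩)
    refine ⟨s', ⟨b1, fun j => ?_⟩, b3, O', c1, c2, c3⟩
    have g1 := (((hT n).adm i J s').1 b1).2.2 j
    have g2 := b2 j
    have g3 := a3 j
    have g4 := h2 j
    have e0 : (![s.a, s.w 1, s.w 2] : Fin 3 → ℝ) j = wd s j := rfl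
    rw [e0] at g3
    show B.d n ^ (K n) * w j n 1 ≤ (1 / 2 : ℝ) ^ (s'.1 j) ∧
      (1 / 2 : ℝ) ^ (s'.1 j) ≤ B.d n ^ (-(K n)) * w j n 1
    rw [← g1]
    have d1 := dpow_pos B n (K n - 1)
    constructor
    · have e1 : B.d n ^ (K n) = B.d n ^ (K n - 1) * B.d n ^ (1 : ℝ) := by
        rw [← dpow_add]; congr 1; ring
      have h3 : 8 * (B.d n ^ (K n) * w j n 1) ≤ B.d n ^ (K n - 1) * w j n 1 := by
        rw [e1]
        calc 8 * (B.d n ^ (K n - 1) * B.d n ^ (1 : ℝ) * w j n 1)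
            = (8 * B.d n ^ (1 : ℝ)) * (B.d n ^ (K n - 1) * w j n 1) := by ring
          _ ≤ 1 * (B.d n ^ (K n - 1) * w j n 1) :=
              mul_le_mul_of_nonneg_right h8 (by positivity)
          _ = _ := one_mul _
      linarith [g3.1, g2.2]
    · refine (g2.1.trans g3.2).trans ?_
      exact mul_le_mul_of_nonneg_right (dpow_le B n (by linarith)) g4.le

/-- **the marks are in the range.** -/
theorem mark36 {G : Geo ((Fin 3 → ℕ) × Plk4) (Fin 3)} {lev : ℕ → ℚ → ℕ} {A : ℕ → ℝ}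
    {c Λ : ℝ → ℝ} {θ : Fin 3 → ℝ} {f : ℕ → ℚ → ℕ → ℤ → ℕ} {b : ℕ → ℚ → ℕ → (Fin 3 → ℕ) × Plk4}
    {vm : ℕ → ℚ → ℝ} (hT : ∀ n, Is36 (T n) (R n)) (hK : Tendsto K U atTop)
    (hG : G = rgK B w K (geo T p L))
    (h : MkA B I G lev A c Λ (fun j v => θ j * (1 - v)) f b vm w) (v : ℚ) (h0 : 0 ≤ v)
    (h1 : v ≤ 1) :
    ∀ᶠ n in (U : Filter ℕ), ∀ J : ℤ, ∀ t ∈ alive (I n) (lev n v) J,
      G.adm n (lev n v) J (b n v (f n v t J)) →
        (geoR L (fun n => (1 / 2 : ℝ) ^ (R n)) (fun k n => B.d n ^ (K n - 1) * w k n 1)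
          (fun k n => B.d n ^ (-(K n - 1)) * w k n 1) p).adm n (lev n v) J
          (b n v (f n v t J)).2 := by
  subst hG
  have e1 : ∀ᶠ n in (U : Filter ℕ), ∀ k, B.d n ^ (2 + |θ k|) * w k n 1 ≤ w k n v ∧
      w k n v ≤ B.d n ^ (-(2 + |θ k|)) * w k n 1 := by
    rw [Filter.eventually_all]
    exact fun k => mark_rg h h0 h1 k (by linarith)
  have e2 : ∀ᶠ n in (U : Filter ℕ), ∀ k, 3 + |θ k| ≤ K n := by
    rw [Filter.eventually_all]
    exact fun k => hK.eventually_ge_atTop _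
  have e3 : ∀ᶠ n in (U : Filter ℕ), ∀ k, 0 < w k n 1 := by
    rw [Filter.eventually_all]
    exact fun k => h.wpos k 1 zero_le_one le_rfl
  filter_upwards [e1, e2, e3, h.mark v h0 h1] with n a1 a2 a3 a4 J t ht hs
  obtain ⟨g1, g2, g3⟩ := ((hT n).adm _ _ _).1 hs.1
  refine ⟨g1, g2, fun k => ?_⟩
  have m4 := (a4 J t ht).2.2.2 k
  have e0 : (![(b n v (f n v t J)).2.a, (b n v (f n v t J)).2.w 1,
    (b n v (f n v t J)).2.w 2] : Fin 3 → ℝ) k = w k n v := (g3 k).trans m4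
  rw [e0]
  have h4 := a1 k
  have h5 := a2 k
  have h6 := a3 k
  constructor
  · exact (mul_le_mul_of_nonneg_right (dpow_le B n (by linarith)) h6.le).trans h4.1
  · exact h4.2.trans (mul_le_mul_of_nonneg_right (dpow_le B n (by linarith)) h6.le)

end

end Crest.Agent.R136.Lz627
end

-- ▼ part R136/Lz7_627
section

/-!
# R136 (S0187), U4, pure penalty, leaf (d) (helper627), part 7: linear rewards at all levels

* `lin_coreN` : helper139's `lin_core` at every natural level of bounded relative distance.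
* `Cmp` : comparison of the `Ψ`-valued capacity with the linear capacity on growing ranges.
* `exists_cmp`, `linK` : the short window, range `K1 → ∞`.
* `allD_lin`, `dbody_lin` : transport of D-max at all levels and at arbitrary (bounded) depth.
-/

set_option autoImplicit false
set_option linter.unusedVariables false
set_option linter.unusedSectionVars false

open Finset Filter Topology

namespace Crest.Agent.R136.Lz627

open Crest.Agent.R138.Ex926 (Base U exists_diag exists_tendsto ev_em)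
open Crest.Agent.R138.Dp76
open Crest.Agent.R138.Mk163 (zc zl rho alive own)
open Crest.Agent.R138.MkRef627 (mem_alive)
open Crest.Agent.R136.MkA627
open Crest.Agent.R116.Xa794 (TS geo)
open Crest.Agent.R116.Xc794
open Crest.Agent.R116.Zl139
open Dia770 (AllD extO)

section

variable {Ln ι S σ : Type} [Fintype ι] {B' : Base} {I' : ℕ → Finset (ℕ × ℝ)}
    {G : Geo σ ι} {lev' : ℕ → ℚ → ℕ}
    {A' : ℕ → ℝ} {c' Λ' : ℝ → ℝ} {θ : ι → ℝ} {f' : ℕ → ℚ → ℕ → ℤ → ℕ} {b' : ℕ → ℚ → ℕ → σ}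
    {vm' : ℕ → ℚ → ℝ} {w' : ι → ℕ → ℚ → ℝ}

/-- **linearisation of the reward in a short window**, all natural levels. -/
theorem lin_coreN {Ψ : ℝ → (ι → ℝ) → ℝ} {g0 : ℝ} {p : ι → ℝ} (hΨ : LinAt Ψ θ g0 p) {B : Base}
    {H : ℕ → ℝ} (hH : ∀ n, 0 < H n) (hH0 : Tendsto H U (𝓝 0))
    (hL : ∀ n, B'.L n = H n * B.L n) {mt : ℕ → ℕ} {atop : ℕ → ι → ℕ} {t R C : ℝ} (ht : 0 < t)
    (hR : 0 ≤ R) (hC : 0 ≤ C)
    (hz : MkA B' I' G lev' A' c' Λ' (fun j v => θ j * (1 - v)) f' b' vm' w')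
    (hlen : Tendsto (fun n => ((mt n : ℝ) - lev' n 0) * Real.log 2 / B.L n) U (𝓝 t))
    (hrel : ∀ j, Tendsto (fun n => (-Real.log (w' j n 0) - (lev' n 0 : ℝ) * Real.log 2 -
      ((atop n j : ℝ) - mt n) * Real.log 2) / B.L n) U (𝓝 (θ j * t)))
    {ε : ℝ} (hε : 0 < ε) :
    ∀ᶠ n in (U : Filter ℕ), ∀ i : ℕ, |((i : ℝ) - lev' n 0) * Real.log 2| ≤ C * B'.L n →
      ∀ s : ι → ℕ, (∀ j, B'.d n ^ R * w' j n 1 ≤ (1 / 2 : ℝ) ^ (s j) ∧
        (1 / 2 : ℝ) ^ (s j) ≤ B'.d n ^ (-R) * w' j n 1) →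
      Real.log 2 * |Ψ ((mt n : ℝ) - i) (rel i s (mt n) (atop n)) -
        Ψ ((mt n : ℝ) - lev' n 0) (fun j => (ee w' n 0 j - lev' n 0) - ((atop n j : ℝ) - mt n)) -
        g0 * ((lev' n 0 : ℝ) - i) -
        ∑ j, p j * (((s j : ℝ) - i) - (ee w' n 0 j - lev' n 0))| ≤ ε * B'.L n := by
  have l2 : 0 < Real.log 2 := Real.log_pos one_lt_two
  set Θ : ℝ := ∑ j, |θ j| with hΘ
  have hΘ0 : 0 ≤ Θ := Finset.sum_nonneg fun j _ => abs_nonneg _
  have hΘj : ∀ j, |θ j| ≤ Θ := fun j =>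
    Finset.single_le_sum (f := fun j => |θ j|) (fun i _ => abs_nonneg _) (Finset.mem_univ j)
  obtain ⟨κ, hκ, hcore⟩ := pure_core hΨ (t := t) (D := R + Θ + 2 + C) (ε := ε) ht (by positivity) hε
  have f1 : ∀ᶠ n in (U : Filter ℕ), H n ≤ κ := hH0.eventually (eventually_le_nhds hκ)
  have f2 : ∀ᶠ n in (U : Filter ℕ), t / 2 ≤ ((mt n : ℝ) - lev' n 0) * Real.log 2 / B.L n :=
    hlen.eventually (eventually_ge_nhds (by linarith))
  have f3 : ∀ᶠ n in (U : Filter ℕ), ∀ j, |(-Real.log (w' j n 0) - (lev' n 0 : ℝ) * Real.log 2 -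
      ((atop n j : ℝ) - mt n) * Real.log 2) / B.L n -
      θ j * (((mt n : ℝ) - lev' n 0) * Real.log 2 / B.L n)| ≤ κ := by
    rw [Filter.eventually_all]
    intro j
    have h3 := (hrel j).sub (hlen.const_mul (θ j))
    rw [sub_self] at h3
    have h4 := h3.abs
    rw [abs_zero] at h4
    exact h4.eventually (eventually_le_nhds hκ)
  have f5 : ∀ᶠ n in (U : Filter ℕ), ∀ j,
      |((ee w' n 0 j - ee w' n 1 j) * Real.log 2) / B'.L n| ≤ Θ + 2 := by
    rw [Filter.eventually_all]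
    intro j
    have h3 := (ee_lim hz le_rfl zero_le_one j).abs
    refine h3.eventually (eventually_le_nhds ?_)
    push_cast
    rw [sub_zero, mul_one]
    refine (abs_sub _ _).trans_lt ?_
    have := hΘj j
    rw [abs_one]
    linarith
  have f6 : ∀ᶠ n in (U : Filter ℕ), ∀ j, 0 < w' j n 1 := by
    rw [Filter.eventually_all]
    exact fun j => hz.wpos j 1 zero_le_one le_rfl
  filter_upwards [f1, f2, f3, f5, f6] with n a1 a2 a3 a5 a6 i hi s hs
  have hLp := B.L_pos n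
  have hLp' := B'.L_pos n
  have hHn := hH n
  have hlam : 0 < Real.log 2 / B.L n := div_pos l2 hLp
  have eL : H n = B'.L n / B.L n := by rw [hL]; field_simp
  have a4 : |((i : ℝ) - lev' n 0) * Real.log 2 / B'.L n| ≤ C := by
    rw [abs_div, abs_of_pos hLp', div_le_iff₀ hLp']
    exact hi
  have hc := hcore (Real.log 2 / B.L n) (H n) ((mt n : ℝ) - i) ((mt n : ℝ) - lev' n 0)
    (rel i s (mt n) (atop n))
    (fun j => (ee w' n 0 j - lev' n 0) - ((atop n j : ℝ) - mt n)) hlam hHn a1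
    (by rw [div_mul_eq_mul_div, mul_comm (Real.log 2)]; exact a2)
    (by
      intro j
      refine le_trans (le_of_eq ?_) (a3 j)
      congr 1
      unfold ee
      field_simp)
    (by
      have e1 : Real.log 2 / B.L n * (((mt n : ℝ) - i) - ((mt n : ℝ) - lev' n 0)) =
          -(((i : ℝ) - lev' n 0) * Real.log 2 / B'.L n * H n) := by
        rw [hL]; field_simp; ring
      rw [e1, abs_neg, abs_mul, abs_of_pos hHn]
      nlinarith)
    (by
      intro j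
      have e1 : Real.log 2 / B.L n * (rel i s (mt n) (atop n) j -
          ((ee w' n 0 j - lev' n 0) - ((atop n j : ℝ) - mt n))) =
          ((((s j : ℝ) * Real.log 2 - ee w' n 1 j * Real.log 2) / B'.L n) -
            ((ee w' n 0 j - ee w' n 1 j) * Real.log 2) / B'.L n -
            ((i : ℝ) - lev' n 0) * Real.log 2 / B'.L n) * H n := by
        rw [hL]
        unfold rel
        field_simp
        ring
      have e2 : |((s j : ℝ) * Real.log 2 - ee w' n 1 j * Real.log 2) / B'.L n| ≤ R := by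
        obtain ⟨s1, s2⟩ := hs j
        have hw := a6 j
        have d1 := B'.pos n
        have e3 : ee w' n 1 j * Real.log 2 = -Real.log (w' j n 1) := by
          unfold ee; field_simp
        have e4 : Real.log ((1 / 2 : ℝ) ^ (s j)) = -((s j : ℝ) * Real.log 2) := by
          rw [Real.log_pow, one_div, Real.log_inv]; ring
        have e5 : ∀ a : ℝ, Real.log (B'.d n ^ a * w' j n 1) = -(a * B'.L n) + Real.log (w' j n 1) := by
          intro a
          rw [Real.log_mul (Real.rpow_pos_of_pos d1 _).ne' hw.ne', Real.log_rpow d1]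
          unfold Base.L
          ring
        have s3 := Real.log_le_log (mul_pos (Real.rpow_pos_of_pos d1 _) hw) s1
        have s4 := Real.log_le_log (by positivity) s2
        rw [e5, e4] at s3
        rw [e5, e4] at s4
        rw [abs_div, abs_of_pos hLp', div_le_iff₀ hLp', e3, abs_le]
        constructor <;> linarith
      rw [e1, abs_mul, abs_of_pos hHn]
      refine mul_le_mul_of_nonneg_right ?_ hHn.le
      refine (abs_sub _ _).trans ((add_le_add (abs_sub _ _) a4).trans ?_)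
      have := a5 j
      linarith)
  have e6 : Real.log 2 / B.L n * B.L n = Real.log 2 := by field_simp
  have h7 := mul_le_mul_of_nonneg_right hc hLp.le
  rw [mul_assoc ε, ← hL] at h7
  refine le_trans (le_of_eq ?_) h7
  have e8 : (((mt n : ℝ) - i) - ((mt n : ℝ) - lev' n 0)) = (lev' n 0 : ℝ) - i := by
    ring
  have e9 : ∀ j, rel i s (mt n) (atop n) j -
      ((ee w' n 0 j - lev' n 0) - ((atop n j : ℝ) - mt n)) =
      ((s j : ℝ) - i) - (ee w' n 0 j - lev' n 0) := fun j => by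
    unfold rel; ring
  simp only [e8, e9]
  field_simp

/-- comparison of the `Ψ`-valued capacity with the linear capacity, depth and range `K1`. -/
def Cmp (B' : Base) (T : ℕ → TS Ln ι S) (Ψ : ℝ → (ι → ℝ) → ℝ) (mt : ℕ → ℕ) (atop : ℕ → ι → ℕ)
    (lev' : ℕ → ℚ → ℕ) (w' : ι → ℕ → ℚ → ℝ) (p : ι → ℝ) (g0 : ℝ) (E K1 : ℕ → ℝ) : Prop :=
  ∀ ε : ℝ, 0 < ε → ∀ᶠ n in (U : Filter ℕ), ∀ i : ℕ,
    |((i : ℝ) - lev' n 0) * Real.log 2| ≤ K1 n * B'.L n → ∀ s : ι → ℕ,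
    (∀ j, B'.d n ^ (K1 n) * w' j n 1 ≤ (1 / 2 : ℝ) ^ (s j) ∧
      (1 / 2 : ℝ) ^ (s j) ≤ B'.d n ^ (-(K1 n)) * w' j n 1) →
    capP (T n) Ψ (mt n) (atop n) i s ≤
      B'.d n ^ (-ε) * (E n * 2 ^ (g0 * ((i : ℝ) - lev' n 0))) * (T n).cap p i s

/-- comparison at fixed range and depth. -/
theorem cmp_fix {T : ℕ → TS Ln ι S} {Ψ : ℝ → (ι → ℝ) → ℝ} {g0 : ℝ} {p : ι → ℝ}
    (hΨ : LinAt Ψ θ g0 p) {B : Base}
    {H : ℕ → ℝ} (hH : ∀ n, 0 < H n) (hH0 : Tendsto H U (𝓝 0))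
    (hL : ∀ n, B'.L n = H n * B.L n) {mt : ℕ → ℕ} {atop : ℕ → ι → ℕ} {t R C : ℝ} (ht : 0 < t)
    (hR : 0 ≤ R) (hC : 0 ≤ C)
    (hz : MkA B' I' G lev' A' c' Λ' (fun j v => θ j * (1 - v)) f' b' vm' w')
    (hlen : Tendsto (fun n => ((mt n : ℝ) - lev' n 0) * Real.log 2 / B.L n) U (𝓝 t))
    (hrel : ∀ j, Tendsto (fun n => (-Real.log (w' j n 0) - (lev' n 0 : ℝ) * Real.log 2 -
      ((atop n j : ℝ) - mt n) * Real.log 2) / B.L n) U (𝓝 (θ j * t)))
    {ε : ℝ} (hε : 0 < ε) :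
    ∀ᶠ n in (U : Filter ℕ), ∀ i : ℕ, |((i : ℝ) - lev' n 0) * Real.log 2| ≤ C * B'.L n →
      ∀ s : ι → ℕ, (∀ j, B'.d n ^ R * w' j n 1 ≤ (1 / 2 : ℝ) ^ (s j) ∧
        (1 / 2 : ℝ) ^ (s j) ≤ B'.d n ^ (-R) * w' j n 1) →
      capP (T n) Ψ (mt n) (atop n) i s ≤
        B'.d n ^ (-ε) * (EE Ψ p lev' w' mt atop n * 2 ^ (g0 * ((i : ℝ) - lev' n 0))) *
          (T n).cap p i s := by
  have l2 : 0 < Real.log 2 := Real.log_pos one_lt_two
  filter_upwards [lin_coreN hΨ hH hH0 hL ht hR hC hz hlen hrel hε] with n a1 i hi s hs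
  have hLp := B'.L_pos n
  have b1 := a1 i hi s hs
  set P : ℝ := Ψ ((mt n : ℝ) - i) (rel i s (mt n) (atop n)) with hP
  set P0 : ℝ := Psi0 Ψ lev' w' mt atop n with hP0
  set X : ℝ := ∑ j, p j * ((s j : ℝ) - i) with hX
  set Y : ℝ := ∑ j, p j * (ee w' n 0 j - lev' n 0) with hY
  have e1 : ∑ j, p j * (((s j : ℝ) - i) - (ee w' n 0 j - lev' n 0)) = X - Y := by
    rw [hX, hY, ← Finset.sum_sub_distrib]
    refine Finset.sum_congr rfl fun j _ => ?_
    ring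
  rw [e1] at b1
  have b1' : Real.log 2 * |P - P0 - g0 * ((lev' n 0 : ℝ) - i) - (X - Y)| ≤ ε * B'.L n := b1
  have b3 : |Real.log 2 * (P - P0 - g0 * ((lev' n 0 : ℝ) - i) - (X - Y))| ≤ ε * B'.L n := by
    rw [abs_mul, abs_of_pos l2]; exact b1'
  rw [abs_le] at b3
  have d1 := B'.pos n
  have vp := (T n).volpos i s
  have pw : ∀ a : ℝ, (2 : ℝ) ^ a = Real.exp (Real.log 2 * a) := fun a => by
    rw [Real.rpow_def_of_pos two_pos]
  have pd : ∀ a : ℝ, B'.d n ^ a = Real.exp (-(a * B'.L n)) := fun a => by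
    rw [Real.rpow_def_of_pos d1]
    unfold Base.L
    congr 1; ring
  unfold capP TS.cap EE
  rw [← hP, ← hX, ← hP0, ← hY, pw, pw, pw, pw, pd]
  calc (T n).vol i s * Real.exp (Real.log 2 * -P)
      ≤ (T n).vol i s * Real.exp (-(-ε * B'.L n) + (Real.log 2 * (-P0 + Y) +
          Real.log 2 * (g0 * ((i : ℝ) - lev' n 0))) + Real.log 2 * -X) := by
        refine mul_le_mul_of_nonneg_left (Real.exp_le_exp.2 ?_) vp.le
        nlinarith [b3.1, b3.2]
    _ = _ := by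
        rw [Real.exp_add, Real.exp_add, Real.exp_add]; ring

/-- **the comparison on growing ranges.** -/
theorem exists_cmp {T : ℕ → TS Ln ι S} {Ψ : ℝ → (ι → ℝ) → ℝ} {g0 : ℝ} {p : ι → ℝ}
    (hΨ : LinAt Ψ θ g0 p) {B : Base}
    {H : ℕ → ℝ} (hH : ∀ n, 0 < H n) (hH0 : Tendsto H U (𝓝 0))
    (hL : ∀ n, B'.L n = H n * B.L n) {mt : ℕ → ℕ} {atop : ℕ → ι → ℕ} {t : ℝ} (ht : 0 < t)
    (hz : MkA B' I' G lev' A' c' Λ' (fun j v => θ j * (1 - v)) f' b' vm' w')
    (hlen : Tendsto (fun n => ((mt n : ℝ) - lev' n 0) * Real.log 2 / B.L n) U (𝓝 t))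
    (hrel : ∀ j, Tendsto (fun n => (-Real.log (w' j n 0) - (lev' n 0 : ℝ) * Real.log 2 -
      ((atop n j : ℝ) - mt n) * Real.log 2) / B.L n) U (𝓝 (θ j * t))) :
    ∃ K1 : ℕ → ℝ, Tendsto K1 U atTop ∧
      Cmp B' T Ψ mt atop lev' w' p g0 (EE Ψ p lev' w' mt atop) K1 := by
  classical
  obtain ⟨k, hk, hk2⟩ := exists_diag (fun k n => ∀ i : ℕ,
      |((i : ℝ) - lev' n 0) * Real.log 2| ≤ (k : ℝ) * B'.L n →
      ∀ s : ι → ℕ, (∀ j, B'.d n ^ (k : ℝ) * w' j n 1 ≤ (1 / 2 : ℝ) ^ (s j) ∧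
        (1 / 2 : ℝ) ^ (s j) ≤ B'.d n ^ (-(k : ℝ)) * w' j n 1) →
      capP (T n) Ψ (mt n) (atop n) i s ≤
        B'.d n ^ (-(1 / ((k : ℝ) + 1))) *
          (EE Ψ p lev' w' mt atop n * 2 ^ (g0 * ((i : ℝ) - lev' n 0))) *
          (T n).cap p i s) (fun k => cmp_fix hΨ hH hH0 hL ht (Nat.cast_nonneg k)
            (Nat.cast_nonneg k) hz hlen hrel (by positivity))
  refine ⟨fun n => (k n : ℝ), tendsto_natCast_atTop_atTop.comp hk, fun ε hε => ?_⟩
  have hE : ∀ᶠ n in (U : Filter ℕ), 1 / ε ≤ (k n : ℝ) :=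
    (tendsto_natCast_atTop_atTop.comp hk).eventually_ge_atTop (1 / ε)
  filter_upwards [hE, hk2] with n a2 a3 i hi s hs
  have h1 := a3 (k n) le_rfl i hi s hs
  refine h1.trans ?_
  have p1 : 0 < EE Ψ p lev' w' mt atop n := Real.rpow_pos_of_pos two_pos _
  have p2 : (0:ℝ) < 2 ^ (g0 * ((i : ℝ) - lev' n 0)) := Real.rpow_pos_of_pos two_pos _
  have p3 := cap_pos (T n) p i s
  have h2 : B'.d n ^ (-(1 / ((k n : ℝ) + 1))) ≤ B'.d n ^ (-ε) := by
    refine dpow_le B' n ?_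
    rw [neg_le_neg_iff]
    have h3 : (0 : ℝ) < (k n : ℝ) + 1 := by positivity
    rw [div_le_iff₀ h3]
    rw [div_le_iff₀ hε] at a2
    linarith
  gcongr

end

section transport

variable {Ln ι S : Type} [Fintype ι] {B : Base} {I : ℕ → Finset (ℕ × ℝ)}
    {T : ℕ → TS Ln ι S} {L : ℕ → ℕ → Ln} {lev : ℕ → ℚ → ℕ} {A : ℕ → ℝ} {g : ℝ}
    {w : ι → ℕ → ℚ → ℝ} {Ψ : ℝ → (ι → ℝ) → ℝ} {g0 : ℝ} {p : ι → ℝ}
    {mt : ℕ → ℕ} {atop : ℕ → ι → ℕ} {E K1 K : ℕ → ℝ}

/-- `rgK` is monotone -/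
theorem rgK_adm_mono {σ : Type} {G : Geo σ ι} {n i : ℕ} {J : ℤ} {s : σ}
    (hw : ∀ j, 0 ≤ w j n 1) (h : K n ≤ K1 n) (hs : (rgK B w K G).adm n i J s) :
    (rgK B w K1 G).adm n i J s :=
  ⟨hs.1, fun j => rng_mono (hw j) h (hs.2 j)⟩

open Classical in
/-- transport of `AllD` -/
theorem allD_lin (hc : Cmp B T Ψ mt atop lev w p g0 E K1) (hE : ∀ n, 0 < E n) (hA : ∀ n, 0 < A n)
    (hK1 : Tendsto K1 U atTop) (hK : ∀ᶠ n in (U : Filter ℕ), K n ≤ K1 n)
    (hw : ∀ᶠ n in (U : Filter ℕ), ∀ j, 0 < w j n 1)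
    (hlev : Tendsto (fun n => ((lev n 1 : ℝ) - lev n 0) * Real.log 2 / B.L n) U (𝓝 1))
    (h : AllD B I (geoP T Ψ mt atop L) lev A g) :
    AllD B I (rgK B w K (geo T p L)) lev (fun n => A n * E n) (g + g0) := by
  intro ε hε
  filter_upwards [h (ε / 2) (by positivity), hc (ε / 2) (by positivity), hK, hw,
    hK1.eventually_ge_atTop 2, hlev.eventually (eventually_le_nhds (show (1:ℝ) < 2 by norm_num))]
    with n h1 h2 h3 h4 h5 h6 i hi0 hi1 J s hs
  have hL := B.L_pos n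
  have l2 : 0 < Real.log 2 := Real.log_pos one_lt_two
  have hi0' : (lev n 0 : ℝ) ≤ i := by exact_mod_cast hi0
  have hi1' : (i : ℝ) ≤ lev n 1 := by exact_mod_cast hi1
  have hdist : |((i : ℝ) - lev n 0) * Real.log 2| ≤ K1 n * B.L n := by
    rw [abs_of_nonneg (mul_nonneg (by linarith) l2.le)]
    rw [div_le_iff₀ hL] at h6
    have h7 : ((i : ℝ) - lev n 0) * Real.log 2 ≤ ((lev n 1 : ℝ) - lev n 0) * Real.log 2 :=
      mul_le_mul_of_nonneg_right (by linarith) l2.le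
    have h8 : 2 * B.L n ≤ K1 n * B.L n := mul_le_mul_of_nonneg_right h5 hL.le
    linarith
  have hs' := rgK_adm_mono (K1 := K1) (fun j => (h4 j).le) h3 hs
  have k1 := h1 i hi0 hi1 J s hs.1
  have k2 := h2 i hdist s.1 hs'.2
  have pA := hA n
  have p1 := dpow_pos B n (-(ε / 2))
  have p2 : (0:ℝ) < 2 ^ (g * ((i : ℝ) - lev n 0)) := Real.rpow_pos_of_pos two_pos _
  calc (((alive (I n) i J).filter fun t => (T n).mem i J s (L n t)).card : ℝ)
      ≤ B.d n ^ (-(ε / 2)) * (A n * 2 ^ (g * ((i : ℝ) - lev n 0))) *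
          capP (T n) Ψ (mt n) (atop n) i s.1 := k1
    _ ≤ B.d n ^ (-(ε / 2)) * (A n * 2 ^ (g * ((i : ℝ) - lev n 0))) *
          (B.d n ^ (-(ε / 2)) * (E n * 2 ^ (g0 * ((i : ℝ) - lev n 0))) * (T n).cap p i s.1) :=
        mul_le_mul_of_nonneg_left k2 (by positivity)
    _ = (B.d n ^ (-(ε / 2)) * B.d n ^ (-(ε / 2))) * (A n * E n *
          (2 ^ (g * ((i : ℝ) - lev n 0)) * 2 ^ (g0 * ((i : ℝ) - lev n 0)))) *
            (T n).cap p i s.1 := by ring
    _ = B.d n ^ (-ε) * (A n * E n * 2 ^ ((g + g0) * ((i : ℝ) - lev n 0))) *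
          (T n).cap p i s.1 := by
        rw [← Real.rpow_add (B.pos n), ← Real.rpow_add two_pos]
        congr 2
        · congr 1; ring
        · congr 2; ring


end transport

end Crest.Agent.R136.Lz627
end

-- ▼ part R136/Lz8_627
section

/-!
# R136 (S0187), U4, pure penalty, leaf (d) (helper627), part 8: the wrapper

* `is36_TS36` : helper879's class is the dyadic class of resolution `2^-R`.
* `OutR` : everything of `J1c` except the parameter inequalities, over `geoR` (= `geo4` of v3c).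
* `DeepIn Ψ g θ` : the deep D-max over `geoP`, bounded relative depth (helper770).
* **`out_of`** : `XOutF TT36 Ψ ψ κ g θ`, `LinAt Ψ θ g0 p` ⊢ `OutR` with rewards `p`, growth `g + g0`.
-/

set_option autoImplicit false
set_option linter.unusedVariables false
set_option linter.unusedSectionVars false

open Finset Filter Topology

namespace Crest.Agent.R136.Lz627

open Sh605 K4 KS879 En879 XA248 Win823 Cod289
open Crest.Agent.R138.Ex926 (Base U exists_diag exists_tendsto ev_em)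
open Crest.Agent.R138.Dp76
open Crest.Agent.R138.Mk163 (zc zl rho alive own)
open Crest.Agent.R138.MkRef627 (mem_alive)
open Crest.Agent.R136.MkA627
open Crest.Agent.R116.Xa794 (TS geo)
open Crest.Agent.R116.Xc794
open Crest.Agent.R116.Zl139
open Dia770 (AllD extO)
open Yc953 (XOutF)
open Tq879 (TS36 TT36)
open AllD823 (LipR allD_P)
open XIn823

theorem rho_le_one (i : ℕ) : rho i ≤ 1 := by
  unfold Crest.Agent.R138.Mk163.rho
  rw [div_le_one (by positivity)]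
  exact one_le_pow₀ (by norm_num)

/-- the widths of an admissible sheet are at least the resolution and at most one -/
theorem adm36_le {r : ℝ} {i : ℕ} {J : ℤ} {s : (Fin 3 → ℕ) × Plk4} (h : (TS36 r).adm i J s) :
    ∀ k, r ≤ wd s.2 k ∧ wd s.2 k ≤ 1 := by
  obtain ⟨h1, h2, h3⟩ := h
  have e1 := h1.r0_le
  have e2 := h1.a_le0
  have e3 := h1.w0_le
  have e4 := h1.w_le
  have e5 := rho_le_one i
  intro k
  fin_cases k
  · exact ⟨e1, by show s.2.a ≤ 1; linarith⟩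
  · exact ⟨by show r ≤ s.2.w 1; linarith, by show s.2.w 1 ≤ 1; linarith⟩
  · exact ⟨by show r ≤ s.2.w 2; linarith, by show s.2.w 2 ≤ 1; linarith⟩

/-- the class `TS36 r` is the dyadic class of resolution `2^-R`. -/
theorem is36_TS36 {r : ℝ} (hr : 0 < r) (h1 : r ≤ 1) : ∃ R : ℕ, Is36 (TS36 r) R := by
  obtain ⟨R, hR1, hR2⟩ := exists_nat_pow_near_of_lt_one hr h1 (show (0:ℝ) < 1 / 2 by norm_num)
    (show (1 / 2 : ℝ) < 1 by norm_num)
  refine ⟨R, ⟨fun i J s t => Iff.rfl, fun i J s => ⟨fun h => ?_, fun h => ?_⟩, fun i a => rfl⟩⟩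
  · obtain ⟨k1, k2, k3⟩ := h
    refine ⟨⟨k1.ortho, k1.isQ, k1.a_le0, k1.w0_le, k1.w_le, ?_, k1.st0, k1.sl1, k1.sl2⟩, k2, k3⟩
    have e1 : s.2.a = (1 / 2 : ℝ) ^ (s.1 0) := k3 0
    have e2 : (1 / 2 : ℝ) ^ (R + 1) < (1 / 2 : ℝ) ^ (s.1 0) := by
      rw [← e1]; exact hR1.trans_le k1.r0_le
    have e3 : s.1 0 < R + 1 := by
      by_contra hlt
      exact absurd e2 (not_lt.2 (pow_le_pow_of_le_one (by norm_num) (by norm_num) (not_lt.1 hlt)))
    rw [e1]
    exact pow_le_pow_of_le_one (by norm_num) (by norm_num) (Nat.lt_succ_iff.1 e3)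
  · obtain ⟨k1, k2, k3⟩ := h
    exact ⟨⟨k1.ortho, k1.isQ, k1.a_le0, k1.w0_le, k1.w_le, hR2.trans k1.r0_le, k1.st0, k1.sl1,
      k1.sl2⟩, k2, k3⟩

/-- the resolution is bounded by the bound of the exponents. -/
theorem res_le {T : TS Ln4 (Fin 3) Plk4} {R N : ℕ} (hT : Is36 T R)
    (hN : ∀ i J s, T.adm i J s → ∀ j, s.1 j ≤ N) {i : ℕ} {J : ℤ} {s : (Fin 3 → ℕ) × Plk4}
    (hs : T.adm i J s) : R ≤ N := by
  obtain ⟨k1, k2, k3⟩ := (hT.adm i J s).1 hs
  set s' : (Fin 3 → ℕ) × Plk4 := (![R, s.1 1, s.1 2], { s.2 with a := (1 / 2 : ℝ) ^ R }) with hs'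
  have h1 : T.adm i J s' := by
    refine (hT.adm i J s').2 ⟨⟨k1.ortho, k1.isQ, k1.r0_le.trans k1.a_le0, k1.w0_le, k1.w_le, le_rfl,
      k1.st0, k1.sl1, k1.sl2⟩, k2, fun k => ?_⟩
    fin_cases k
    · rfl
    · exact k3 1
    · exact k3 2
  exact hN i J s' h1 0

section congr

variable {σ κ : Type} {B : Base} {I : ℕ → Finset (ℕ × ℝ)} {G G' : Geo σ κ}
    {lev : ℕ → ℚ → ℕ} {A : ℕ → ℝ} {c Λ : ℝ → ℝ} {τ : κ → ℝ → ℝ}
    {f : ℕ → ℚ → ℕ → ℤ → ℕ} {b : ℕ → ℚ → ℕ → σ} {vm : ℕ → ℚ → ℝ} {w : κ → ℕ → ℚ → ℝ}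

/-- geometries which agree at almost all stages. -/
theorem mkA_congrG (h : MkA B I G lev A c Λ τ f b vm w)
    (hG : ∀ᶠ n in (U : Filter ℕ), G.mem n = G'.mem n ∧ G.adm n = G'.adm n ∧ G.val n = G'.val n)
    (hw : G.wid = G'.wid) : MkA B I G' lev A c Λ τ f b vm w where
  ne := h.ne
  card := h.card
  Apos := h.Apos
  c0 := h.c0
  lam0 := h.lam0
  lam := h.lam
  tau1 := h.tau1
  lev_mono := h.lev_mono
  lev_lim := h.lev_lim
  cell0 := h.cell0
  one := h.one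
  own := h.own
  dmax := by
    intro v hv0 hv1 ε hε
    filter_upwards [h.dmax v hv0 hv1 ε hε, hG] with n h1 h2 J s hs
    obtain ⟨e1, e2, e3⟩ := h2
    rw [← e1, ← e3]
    rw [← e2] at hs
    exact h1 J s hs
  mark := by
    intro v hv0 hv1
    filter_upwards [h.mark v hv0 hv1, hG] with n h1 h2 J t ht
    obtain ⟨e1, e2, e3⟩ := h2
    rw [← e1, ← e2, ← e3, ← hw]
    exact h1 J t ht
  near := h.near
  vpos := h.vpos
  wpos := h.wpos
  tau := h.tau

end congr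

/-- **the output** : everything of `J1c` except the parameter inequalities. -/
structure OutR (B : Base) (I : ℕ → Finset (ℕ × ℝ)) (L : ℕ → ℕ → Ln4) (r0 : ℕ → ℝ)
    (wr cr : Fin 3 → ℕ → ℝ) (lev : ℕ → ℚ → ℕ) (A : ℕ → ℝ) (f : ℕ → ℚ → ℕ → ℤ → ℕ)
    (b : ℕ → ℚ → ℕ → Plk4) (vm : ℕ → ℚ → ℝ) (w : Fin 3 → ℕ → ℚ → ℝ) (p θ : Fin 3 → ℝ) (g : ℝ) :
    Prop where
  mka : MkA B I (geoR L r0 wr cr p) lev A (fun v => g * v) (fun v => 0 * v)
    (fun j v => θ j * (1 - v)) f b vm w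
  alld : AllD B I (geoR L r0 wr cr p) lev A g
  deep : ∀ v : ℚ, 0 ≤ v → v ≤ 1 → ∀ m : ℕ → ℕ, (∀ᶠ n in (U : Filter ℕ), lev n v ≤ m n) →
    (∀ᶠ n in (U : Filter ℕ), r0 n ≤ rho (m n)) →
    (∃ C : ℝ, ∀ᶠ n in (U : Filter ℕ), (m n : ℝ) ≤ lev n 1 + C * B.L n) →
    ∀ J : ℕ → Finset (ℕ × ℝ), Dense B J I → ∀ ε : ℝ, 0 < ε →
      DBody B (geoR L r0 wr cr p) lev A g v m J ε
  wrs : ∀ (C : ℝ) (k : Fin 3) (v : ℚ), 0 ≤ v → v ≤ 1 → ∀ᶠ n in (U : Filter ℕ),
    wr k n ≤ B.d n ^ C * w k n v ∧ w k n v ≤ B.d n ^ C * cr k n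
  r0pos : ∀ n, 0 < r0 n
  r0log : ∀ ε : ℝ, 0 < ε → ∀ᶠ n in (U : Filter ℕ), Real.log (1 / r0 n) ≤ B.d n ^ (-ε)
  vel : ∀ᶠ n in (U : Filter ℕ), ∀ x ∈ I n, ∀ i, |(L n x.1).v i| ≤ 1



/-- the depth of the short window is inside the big window. -/
theorem depth_mt {B B' : Base} {H : ℕ → ℝ} (hH0 : Tendsto H U (𝓝 0))
    (hL : ∀ n, B'.L n = H n * B.L n) {l0 l1 mt : ℕ → ℕ} {t : ℝ} (ht : 0 < t)
    (hlen : Tendsto (fun n => ((mt n : ℝ) - l0 n) * Real.log 2 / B.L n) U (𝓝 t))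
    (h01 : Tendsto (fun n => ((l1 n : ℝ) - l0 n) * Real.log 2 / B'.L n) U (𝓝 1)) (C : ℝ) :
    ∀ᶠ n in (U : Filter ℕ), (l1 n : ℝ) + C * B'.L n ≤ mt n := by
  have l2 : 0 < Real.log 2 := Real.log_pos one_lt_two
  have l21 : Real.log 2 ≤ 1 := by
    have := Real.log_two_lt_d9
    linarith
  filter_upwards [hlen.eventually (eventually_ge_nhds (show t / 2 < t by linarith)),
    h01.eventually (eventually_le_nhds (show (1:ℝ) < 2 by norm_num)),
    hH0.eventually (eventually_le_nhds (show (0:ℝ) < t / (2 * (2 + |C|)) by positivity))]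
    with n a1 a2 a3
  have hLp := B.L_pos n
  have hLp' := B'.L_pos n
  rw [le_div_iff₀ hLp] at a1
  rw [div_le_iff₀ hLp'] at a2
  rw [le_div_iff₀ (by positivity)] at a3
  have h1 : (2 + |C|) * B'.L n ≤ t / 2 * B.L n := by
    rw [hL]
    nlinarith
  have h2 : C * B'.L n * Real.log 2 ≤ |C| * B'.L n := by
    have h3 : C * B'.L n * Real.log 2 ≤ |C| * B'.L n * Real.log 2 :=
      mul_le_mul_of_nonneg_right (mul_le_mul_of_nonneg_right (le_abs_self C) hLp'.le) l2.le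
    have h4 : |C| * B'.L n * Real.log 2 ≤ |C| * B'.L n * 1 :=
      mul_le_mul_of_nonneg_left l21 (by positivity)
    linarith
  have h5 : ((l1 n : ℝ) + C * B'.L n - l0 n) * Real.log 2 ≤ ((mt n : ℝ) - l0 n) * Real.log 2 := by
    have e1 : ((l1 n : ℝ) + C * B'.L n - l0 n) * Real.log 2 =
        ((l1 n : ℝ) - l0 n) * Real.log 2 + C * B'.L n * Real.log 2 := by ring
    rw [e1]
    nlinarith
  have h6 := le_of_mul_le_mul_right h5 l2
  linarith


end Crest.Agent.R136.Lz627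
end

-- ▼ part R136/Lz5_627
section

/-!
# R136 (S0187), U4, pure penalty, leaf (d) (helper627), part 5: zoom with explicit amplitude

`zoomA2` : helper102's `zoomA` with the amplitude `A' n = A n * d^(-c (m 0))` of the window.
-/

set_option autoImplicit false
set_option linter.unusedVariables false

open Finset Filter Topology

namespace Crest.Agent.R136.Lz627

open Crest.Agent.R138.Ex926 (Base U exists_diag)
open Crest.Agent.R138.Mk163 (zc zl rho alive)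
open Crest.Agent.R138.MkZoom779
open Crest.Agent.R136.MkA627
open Crest.Agent.R136.ZoomA102

section main

variable {σ κ : Type*} {B : Base} {I : ℕ → Finset (ℕ × ℝ)} {G : Geo σ κ}
    {lev : ℕ → ℚ → ℕ} {A : ℕ → ℝ} {c Λ : ℝ → ℝ} {τ : κ → ℝ → ℝ} {f : ℕ → ℚ → ℕ → ℤ → ℕ}
    {b : ℕ → ℚ → ℕ → σ} {vm : ℕ → ℚ → ℝ} {w : κ → ℕ → ℚ → ℝ}

/-- zoom, abstract marked sequence, explicit amplitude. -/
theorem zoomA2 [Countable κ] (H : MkA B I G lev A c Λ τ f b vm w)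
    (h : ℕ → ℝ) (m : ℕ → ℚ → ℚ) (c' Λ' : ℝ → ℝ) (τ' : κ → ℝ → ℝ)
    (hpos : ∀ k, 0 < h k) (hle : ∀ k, h k ≤ 1)
    (hmem : ∀ k, ∀ x : ℚ, 0 ≤ x → x ≤ 1 → 0 ≤ m k x ∧ m k x ≤ 1)
    (hmono : ∀ x y : ℚ, 0 ≤ x → x ≤ y → y ≤ 1 → ∀ᶠ k in atTop, m k x ≤ m k y)
    (hlev : ∀ x y : ℚ, 0 ≤ x → x ≤ y → y ≤ 1 →
      Tendsto (fun k => ((m k y : ℝ) - m k x) / h k) atTop (𝓝 ((y : ℝ) - x)))
    (hc : ∀ x : ℚ, 0 ≤ x → x ≤ 1 →
      Tendsto (fun k => (c (m k x) - c (m k 0)) / h k) atTop (𝓝 (c' x)))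
    (hΛ : ∀ x : ℚ, 0 ≤ x → x ≤ 1 →
      Tendsto (fun k => (Λ (m k x) - Λ (m k 0)) / h k) atTop (𝓝 (Λ' x)))
    (hτ : ∀ j, ∀ x : ℚ, 0 ≤ x → x ≤ 1 →
      Tendsto (fun k => (τ j (m k x) - τ j (m k 1)) / h k) atTop (𝓝 (τ' j x)))
    (hlam : ∀ u v : ℝ, 0 ≤ u → u ≤ v → v ≤ 1 → 0 ≤ Λ' v - Λ' u ∧ Λ' v - Λ' u ≤ v - u)
    (hc0 : c' 0 = 0) (hΛ0 : Λ' 0 = 0) (hτ1 : ∀ j, τ' j 1 = 0) :
    ∃ s0 : ℕ → ℕ, Tendsto s0 U atTop ∧ ∀ s : ℕ → ℕ, Tendsto s U atTop →
      (∀ᶠ n in (U : Filter ℕ), s n ≤ s0 n) →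
      ∃ (B' : Base) (I' : ℕ → Finset (ℕ × ℝ)) (A' : ℕ → ℝ),
        (∀ n, B'.d n = B.d n ^ h (s n)) ∧ (∀ n, I' n ⊆ I n) ∧
        (∀ n, A' n = A n * B.d n ^ (-(c (m (s n) 0)))) ∧
        MkA B' I' G (fun n x => lev n (m (s n) x)) A' c' Λ' τ' (fun n x => f n (m (s n) x))
          (fun n x => b n (m (s n) x)) (fun n x => vm n (m (s n) x))
          (fun j n x => w j n (m (s n) x)) := by
  classical
  obtain ⟨enc, henc⟩ := Countable.exists_injective_nat κ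
  have hfin : ∀ k : ℕ, {j : κ | enc j ≤ k}.Finite := fun k =>
    (Set.finite_Iic k).preimage henc.injOn
  have hevκ : ∀ j : κ, ∀ᶠ k : ℕ in atTop, j ∈ {j : κ | enc j ≤ k} := fun j => by
    filter_upwards [eventually_ge_atTop (enc j)] with k hk using hk
  -- the stages
  obtain ⟨s0, hs0, hs0'⟩ := exists_diag (fun k n =>
    ((k : ℝ) + 1) ≤ h k * B.L n ∧ Real.log ((I n).card : ℝ) ≤ B.d n ^ (-(del h k)) ∧
    (I n).Nonempty ∧ (∀ x ∈ Fq k, R1s B I G lev A c f b vm w (m k x) (del h k) n) ∧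
    (∀ x ∈ Fq k, ∀ y ∈ Fq k, m k x ≤ m k y → R2s B I lev Λ (m k x) (m k y) (del h k) n) ∧
    ∀ j ∈ {j : κ | enc j ≤ k}, (0 < w j n 1 ∧
      ∀ x ∈ Fq k, PW B lev τ w j (m k x) (del h k) n)) (by
    intro k
    have hd := del_pos hpos k
    have e1 : ∀ᶠ n in (U : Filter ℕ), ((k : ℝ) + 1) ≤ h k * B.L n := by
      filter_upwards [B.ev_L_ge (((k : ℝ) + 1) / h k)] with n hn
      rw [div_le_iff₀ (hpos k)] at hn
      linarith
    have e4 : ∀ᶠ n in (U : Filter ℕ), ∀ x ∈ Fq k,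
        R1s B I G lev A c f b vm w (m k x) (del h k) n := by
      rw [Filter.eventually_all_finset]
      intro x hx
      obtain ⟨hx0, hx1⟩ := Fq_mem hx
      exact ev_R1 H (hmem k x hx0 hx1).1 (hmem k x hx0 hx1).2 hd
    have e5 : ∀ᶠ n in (U : Filter ℕ), ∀ x ∈ Fq k, ∀ y ∈ Fq k, m k x ≤ m k y →
        R2s B I lev Λ (m k x) (m k y) (del h k) n := by
      rw [Filter.eventually_all_finset]
      intro x hx
      rw [Filter.eventually_all_finset]
      intro y hy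
      obtain ⟨hx0, hx1⟩ := Fq_mem hx
      obtain ⟨hy0, hy1⟩ := Fq_mem hy
      rcases le_or_gt (m k x) (m k y) with hxy | hxy
      · filter_upwards [ev_R2 H (hmem k x hx0 hx1).1 hxy (hmem k y hy0 hy1).2 hd] with n hn _
        exact hn
      · exact Eventually.of_forall fun n hn => absurd hn (not_le.2 hxy)
    have e6 : ∀ᶠ n in (U : Filter ℕ), ∀ j ∈ {j : κ | enc j ≤ k}, (0 < w j n 1 ∧
        ∀ x ∈ Fq k, PW B lev τ w j (m k x) (del h k) n) := by
      rw [Filter.eventually_all_finite (hfin k)]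
      intro j hj
      refine (H.wpos j 1 zero_le_one le_rfl).and ?_
      rw [Filter.eventually_all_finset]
      intro x hx
      obtain ⟨hx0, hx1⟩ := Fq_mem hx
      exact ev_PW H j (hmem k x hx0 hx1).1 (hmem k x hx0 hx1).2 hd
    filter_upwards [e1, H.card (del h k) hd, H.ne, e4, e5, e6] with n a1 a2 a3 a4 a5 a6
    exact ⟨a1, a2, a3, a4, a5, a6⟩)
  refine ⟨s0, hs0, fun s hs hsle => ?_⟩
  have hP := (hs0'.and hsle).mono fun n hn => hn.1 (s n) hn.2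
  have hF : ∀ x : ℚ, 0 ≤ x → x ≤ 1 → ∀ᶠ n in (U : Filter ℕ), x ∈ Fq (s n) := fun x h0 h1 =>
    hs.eventually (ev_mem_Fq h0 h1)
  have hM : ∀ x y : ℚ, 0 ≤ x → x ≤ y → y ≤ 1 → ∀ᶠ n in (U : Filter ℕ), m (s n) x ≤ m (s n) y :=
    fun x y h0 h1 h2 => hs.eventually (hmono x y h0 h1 h2)
  -- the base
  have hlim : Tendsto (fun n => h (s n) * B.L n) U atTop := by
    have h1 : Tendsto (fun n => (s n : ℝ)) U atTop := tendsto_natCast_atTop_atTop.comp hs
    refine tendsto_atTop_mono' _ ?_ h1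
    filter_upwards [hP] with n hn
    linarith [hn.1]
  obtain ⟨B', hB', hL'⟩ := exists_base B (fun n => hpos (s n)) hlim
  have hBp : ∀ n a, B'.d n ^ a = B.d n ^ (h (s n) * a) := by
    intro n a
    rw [hB', ← Real.rpow_mul (B.pos n).le]
  -- the window sets
  choose I' J0 hwin hne using fun n => exists_win (I n) (lev n (m (s n) 0)) (lev n (m (s n) 1))
  -- amplitude
  set A' : ℕ → ℝ := fun n => A n * B.d n ^ (-(c (m (s n) 0))) with hA'
  -- errors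
  have hem : ∀ x : ℚ, 0 ≤ x → x ≤ 1 → ∀ ε : ℝ, 0 < ε → ∀ᶠ n in (U : Filter ℕ),
      |((m (s n) x : ℝ) - m (s n) 0) - h (s n) * x| ≤ ε * h (s n) := by
    intro x h0 h1 ε hε
    have h2 := hlev 0 x le_rfl h0 h1
    rw [Rat.cast_zero, sub_zero] at h2
    exact err (a := fun k => (m k x : ℝ) - m k 0) hpos h2 hs hε
  have hec : ∀ x : ℚ, 0 ≤ x → x ≤ 1 → ∀ ε : ℝ, 0 < ε → ∀ᶠ n in (U : Filter ℕ),
      |(c (m (s n) x) - c (m (s n) 0)) - h (s n) * c' x| ≤ ε * h (s n) := by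
    intro x h0 h1 ε hε
    exact err (a := fun k => c (m k x) - c (m k 0)) hpos (hc x h0 h1) hs hε
  have heΛ : ∀ x : ℚ, 0 ≤ x → x ≤ 1 → ∀ ε : ℝ, 0 < ε → ∀ᶠ n in (U : Filter ℕ),
      |(Λ (m (s n) x) - Λ (m (s n) 0)) - h (s n) * Λ' x| ≤ ε * h (s n) := by
    intro x h0 h1 ε hε
    exact err (a := fun k => Λ (m k x) - Λ (m k 0)) hpos (hΛ x h0 h1) hs hε
  have heτ : ∀ j, ∀ x : ℚ, 0 ≤ x → x ≤ 1 → ∀ ε : ℝ, 0 < ε → ∀ᶠ n in (U : Filter ℕ),
      |(τ j (m (s n) x) - τ j (m (s n) 1)) - h (s n) * τ' j x| ≤ ε * h (s n) := by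
    intro j x h0 h1 ε hε
    exact err (a := fun k => τ j (m k x) - τ j (m k 1)) hpos (hτ j x h0 h1) hs hε
  -- comparison of the amplitudes
  have hamp : ∀ x : ℚ, 0 ≤ x → x ≤ 1 → ∀ ε : ℝ, 0 < ε → ∀ᶠ n in (U : Filter ℕ),
      ampA B A c n (m (s n) x) ≤ B.d n ^ (-(ε * h (s n))) * ampA B' A' c' n x ∧
      ampA B' A' c' n x ≤ B.d n ^ (-(ε * h (s n))) * ampA B A c n (m (s n) x) := by
    intro x h0 h1 ε hε
    filter_upwards [hec x h0 h1 ε hε] with n a2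
    obtain ⟨a2, a2'⟩ := abs_le.1 a2
    have hAn := H.Apos n
    unfold ampA
    rw [hBp, hA']
    simp only
    constructor
    · have e3 : B.d n ^ (-(ε * h (s n))) * (A n * B.d n ^ (-(c (m (s n) 0))) *
          B.d n ^ (h (s n) * (-(c' x)))) =
          A n * B.d n ^ (-(ε * h (s n)) + -(c (m (s n) 0)) + h (s n) * (-(c' x))) := by
        rw [Real.rpow_add (B.pos n), Real.rpow_add (B.pos n)]
        ring
      rw [e3]
      have h2 := dpow_le B n (a := -(ε * h (s n)) + -(c (m (s n) 0)) + h (s n) * (-(c' x)))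
        (b := -(c (m (s n) x))) (by linarith)
      gcongr
    · have e3 : B.d n ^ (-(ε * h (s n))) * (A n * B.d n ^ (-(c (m (s n) x)))) =
          A n * B.d n ^ (-(ε * h (s n)) + -(c (m (s n) x))) := by
        rw [Real.rpow_add (B.pos n)]
        ring
      have e4 : A n * B.d n ^ (-(c (m (s n) 0))) * B.d n ^ (h (s n) * (-(c' x))) =
          A n * B.d n ^ (-(c (m (s n) 0)) + h (s n) * (-(c' x))) := by
        rw [Real.rpow_add (B.pos n)]
        ring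
      rw [e3, e4]
      have h2 := dpow_le B n (a := -(ε * h (s n)) + -(c (m (s n) x)))
        (b := -(c (m (s n) 0)) + h (s n) * (-(c' x))) (by linarith)
      gcongr
  have hamp0 : ∀ n x, 0 < ampA B A c n x := by
    intro n x
    unfold ampA
    exact mul_pos (H.Apos n) (dpow_pos B n _)
  have hamp0' : (∀ n, 0 < A' n) → ∀ n x, 0 < ampA B' A' c' n x := by
    intro hA0 n x
    unfold ampA
    exact mul_pos (hA0 n) (dpow_pos B' n _)
  -- nested levels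
  have hlv0 : ∀ x : ℚ, 0 ≤ x → x ≤ 1 → ∀ᶠ n in (U : Filter ℕ),
      lev n (m (s n) 0) ≤ lev n (m (s n) x) ∧ lev n (m (s n) x) ≤ lev n (m (s n) 1) := by
    intro x h0 h1
    filter_upwards [hP, hF x h0 h1, hM 0 x le_rfl h0 h1, hM x 1 h0 h1 le_rfl] with n a1 a2 a3 a4
    exact ⟨(a1.2.2.2.2.1 0 (zero_mem_Fq _) x a2 a3).le,
      (a1.2.2.2.2.1 x a2 1 (one_mem_Fq _) a4).le⟩
  refine ⟨B', I', A', hB', fun n => (hwin n).sub, fun n => rfl, ?_⟩
  refine
    { ne := ?_, card := ?_, Apos := ?_, c0 := hc0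
      lam0 := hΛ0, lam := hlam, tau1 := hτ1, lev_mono := ?_, lev_lim := ?_, cell0 := ?_, one := ?_
      own := ?_, dmax := ?_, mark := ?_, near := ?_, vpos := ?_, wpos := ?_, tau := ?_ }
  · -- ne
    filter_upwards [hP] with n hn using hne n hn.2.2.1
  · -- card
    intro ε hε
    filter_upwards [hP, ev_del hpos hs hε] with n hn hd
    rw [hBp]
    have h1 : (0 : ℝ) < (I' n).card := by exact_mod_cast Finset.card_pos.2 (hne n hn.2.2.1)
    have h2 : ((I' n).card : ℝ) ≤ (I n).card := by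
      exact_mod_cast Finset.card_le_card (hwin n).sub
    refine (Real.log_le_log h1 h2).trans (hn.2.1.trans (dpow_le B n ?_))
    linarith
  · -- Apos
    intro n
    exact mul_pos (H.Apos n) (dpow_pos B n _)
  · -- lev_mono
    intro u v h0 huv h1
    filter_upwards [hP, hF u h0 (huv.trans h1), hF v (h0.trans huv) h1, hM u v h0 huv h1]
      with n a1 a2 a3 a4
    exact (a1.2.2.2.2.1 u a2 v a3 a4).le
  · -- lev_lim
    intro u v h0 huv h1
    rw [Metric.tendsto_nhds]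
    intro ε hε
    filter_upwards [hP, hF u h0 (huv.trans h1), hF v (h0.trans huv) h1, hM u v h0 huv h1,
      hem u h0 (huv.trans h1) (ε / 8) (by positivity),
      hem v (h0.trans huv) h1 (ε / 8) (by positivity), ev_del hpos hs (ε := ε / 4) (by positivity)]
      with n a1 a2 a3 a4 a5 a6 a7
    have hh := hpos (s n)
    have hLn := B.L_pos n
    have h2 := (a1.2.2.2.2.1 u a2 v a3 a4).ll
    rw [Real.dist_eq, hL']
    set X : ℝ := ((lev n (m (s n) v) : ℝ) - lev n (m (s n) u)) * Real.log 2 / B.L n with hX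
    have e1 : ((lev n (m (s n) v) : ℝ) - lev n (m (s n) u)) * Real.log 2 / (h (s n) * B.L n) -
        ((v : ℝ) - u) = (X - h (s n) * (v - u)) / h (s n) := by
      rw [hX]
      field_simp
    rw [e1, abs_div, abs_of_pos hh, div_lt_iff₀ hh]
    have h3 : |X - h (s n) * (v - u)| ≤ 3 / 4 * ε * h (s n) := by
      rw [abs_le] at h2 a5 a6 ⊢
      constructor <;> nlinarith
    have : 0 < ε * h (s n) := mul_pos hε hh
    linarith
  · -- cell0
    refine Eventually.of_forall fun n x hx y hy => ?_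
    exact ((hwin n).cell x hx).trans ((hwin n).cell y hy).symm
  · -- one
    exact Eventually.of_forall fun n x hx y hy h1 h2 => (hwin n).one x hx y hy h1 h2
  · -- own
    intro u v h0 huv h1 ε hε
    filter_upwards [hP, hF u h0 (huv.trans h1), hF v (h0.trans huv) h1, hM u v h0 huv h1,
      hem u h0 (huv.trans h1) (ε / 8) (by positivity),
      hem v (h0.trans huv) h1 (ε / 8) (by positivity),
      heΛ u h0 (huv.trans h1) (ε / 8) (by positivity),
      heΛ v (h0.trans huv) h1 (ε / 8) (by positivity),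
      ev_del hpos hs (ε := ε / 4) (by positivity), hlv0 u h0 (huv.trans h1),
      hlv0 v (h0.trans huv) h1]
      with n a1 a2 a3 a4 a5 a6 b5 b6 a7 c1 c2 x hx
    have h2 := (a1.2.2.2.2.1 u a2 v a3 a4).ow x ((hwin n).sub hx)
    rw [own_eq (hwin n) c1.1 c1.2 c2.2 hx, hBp, hBp]
    have hh := hpos (s n)
    rw [abs_le] at a5 a6 b5 b6
    constructor
    · refine le_trans (dpow_le B n ?_) h2.1
      nlinarith
    · refine h2.2.trans (dpow_le B n ?_)
      nlinarith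
  · -- dmax
    intro v h0 h1 ε hε
    filter_upwards [hP, hF v h0 h1, hamp v h0 h1 (ε / 2) (by positivity),
      ev_del hpos hs (ε := ε / 2) (by positivity)] with n a1 a2 a3 a4 J σ0 hσ0
    have h2 := (a1.2.2.2.1 v a2).dm J σ0 hσ0
    have hp0 : 0 < B.d n ^ (-del h (s n)) * ampA B A c n (m (s n) v) :=
      mul_pos (dpow_pos B n _) (hamp0 n _)
    have hval : 0 ≤ G.val n (lev n (m (s n) v)) J σ0 := by
      by_contra hneg
      have h3 := mul_neg_of_pos_of_neg hp0 (not_le.1 hneg)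
      have h4 : (0 : ℝ) ≤ (((alive (I n) (lev n (m (s n) v)) J).filter fun t =>
        G.mem n (lev n (m (s n) v)) J σ0 t).card : ℝ) := by positivity
      linarith
    have h3 : (((alive (I' n) (lev n (m (s n) v)) J).filter fun t =>
        G.mem n (lev n (m (s n) v)) J σ0 t).card : ℝ) ≤
        (((alive (I n) (lev n (m (s n) v)) J).filter fun t =>
        G.mem n (lev n (m (s n) v)) J σ0 t).card : ℝ) := by
      exact_mod_cast Finset.card_le_card (Finset.filter_subset_filter _ (alive_sub (hwin n) J))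
    refine h3.trans (h2.trans (mul_le_mul_of_nonneg_right ?_ hval))
    rw [hBp]
    calc B.d n ^ (-del h (s n)) * ampA B A c n (m (s n) v)
        ≤ B.d n ^ (-(ε / 2 * h (s n))) * (B.d n ^ (-(ε / 2 * h (s n))) *
          ampA B' A' c' n v) := by
          have h4 := dpow_le B n (a := -(ε / 2 * h (s n))) (b := -del h (s n)) (by linarith)
          have h5 := (hamp0 n (m (s n) v)).le
          have h6 := (dpow_pos B n (-(ε / 2 * h (s n)))).le
          exact mul_le_mul h4 a3.1 h5 h6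
      _ = _ := by
          rw [← mul_assoc, ← Real.rpow_add (B.pos n)]
          congr 2
          ring
  · -- mark
    intro v h0 h1
    filter_upwards [hP, hF v h0 h1] with n a1 a2 J t ht
    exact (a1.2.2.2.1 v a2).mr J t (alive_sub (hwin n) J ht)
  · -- near
    intro v h0 h1 ε hε
    filter_upwards [hP, hF v h0 h1, hamp v h0 h1 (ε / 2) (by positivity),
      ev_del hpos hs (ε := ε / 2) (by positivity), hlv0 v h0 h1] with n a1 a2 a3 a4 c1 J t ht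
    have hp1 := a1.2.2.2.1 v a2
    have hal := alive_eq (hwin n) c1.1 c1.2 ⟨t, ht⟩
    have h2 := hp1.nr J t (by rw [← hal]; exact ht)
    rw [hal]
    have hX : (0 : ℝ) ≤ (((alive (I n) (lev n (m (s n) v)) J).filter fun s_1 =>
        f n (m (s n) v) s_1 J = f n (m (s n) v) t J).card : ℝ) := by positivity
    calc ampA B' A' c' n v * vm n (m (s n) v)
        ≤ (B.d n ^ (-(ε / 2 * h (s n))) * ampA B A c n (m (s n) v)) * vm n (m (s n) v) :=
          mul_le_mul_of_nonneg_right a3.2 hp1.vp.le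
      _ = B.d n ^ (-(ε / 2 * h (s n))) * (ampA B A c n (m (s n) v) * vm n (m (s n) v)) := by ring
      _ ≤ B.d n ^ (-(ε / 2 * h (s n))) * (B.d n ^ (-del h (s n)) *
          (((alive (I n) (lev n (m (s n) v)) J).filter fun s_1 =>
          f n (m (s n) v) s_1 J = f n (m (s n) v) t J).card : ℝ)) :=
          mul_le_mul_of_nonneg_left h2 (dpow_pos B n _).le
      _ ≤ B.d n ^ (-(ε / 2 * h (s n))) * (B.d n ^ (-(ε / 2 * h (s n))) *
          (((alive (I n) (lev n (m (s n) v)) J).filter fun s_1 =>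
          f n (m (s n) v) s_1 J = f n (m (s n) v) t J).card : ℝ)) := by
          refine mul_le_mul_of_nonneg_left (mul_le_mul_of_nonneg_right ?_ hX) (dpow_pos B n _).le
          exact dpow_le B n (by linarith)
      _ = _ := by
          rw [hBp, ← mul_assoc, ← Real.rpow_add (B.pos n)]
          congr 2
          ring
  · -- vpos
    intro v h0 h1
    filter_upwards [hP, hF v h0 h1] with n a1 a2
    exact (a1.2.2.2.1 v a2).vp
  · -- wpos
    intro j v h0 h1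
    filter_upwards [hP, hF v h0 h1, hs.eventually (hevκ j)] with n a1 a2 a3
    exact ((a1.2.2.2.2.2 j a3).2 v a2).wp
  · -- tau
    intro j v h0 h1
    rw [Metric.tendsto_nhds]
    intro ε hε
    filter_upwards [hP, hF v h0 h1, heτ j v h0 h1 (ε / 4) (by positivity),
      ev_del hpos hs (ε := ε / 4) (by positivity), hs.eventually (hevκ j)]
      with n a1 a2 a5 a7 a8
    have hh := hpos (s n)
    have hLn := B.L_pos n
    have hp0 := a1.2.2.2.2.2 j a8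
    have hp1 := hp0.2 v a2
    have hp2 := hp0.2 1 (one_mem_Fq _)
    have t1 := hp1.ta
    have t2 := hp2.ta
    have hr : ∀ i : ℕ, 0 < rho i := fun i => by
      unfold Crest.Agent.R138.Mk163.rho; positivity
    have hw2v : 0 < w j n (m (s n) v) := hp1.wp
    have hw21 : 0 < w j n (m (s n) 1) := hp2.wp
    have hw1 : 0 < w j n 1 := hp0.1
    rw [Real.dist_eq, hL']
    set Rv : ℝ := rho (lev n (m (s n) v)) / w j n (m (s n) v) with hRv
    set Rm : ℝ := rho (lev n (m (s n) 1)) / w j n (m (s n) 1) with hRm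
    set R1 : ℝ := rho (lev n 1) / w j n 1 with hR1
    have pv : 0 < Rv := div_pos (hr _) hw2v
    have pm : 0 < Rm := div_pos (hr _) hw21
    have p1 : 0 < R1 := div_pos (hr _) hw1
    rw [Real.log_div pv.ne' p1.ne'] at t1
    rw [Real.log_div pm.ne' p1.ne'] at t2
    rw [Real.log_div pv.ne' pm.ne']
    set X : ℝ := (Real.log Rv - Real.log R1) / B.L n with hX
    set Y : ℝ := (Real.log Rm - Real.log R1) / B.L n with hY
    have e1 : (Real.log Rv - Real.log Rm) / (h (s n) * B.L n) - τ' j v =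
        ((X - Y) - h (s n) * τ' j v) / h (s n) := by
      rw [hX, hY]
      field_simp
      ring
    rw [e1, abs_div, abs_of_pos hh, div_lt_iff₀ hh]
    have h3 : |(X - Y) - h (s n) * τ' j v| ≤ 3 / 4 * ε * h (s n) := by
      rw [abs_le] at t1 t2 a5 ⊢
      constructor <;> nlinarith
    have : 0 < ε * h (s n) := mul_pos hε hh
    linarith

end main

end Crest.Agent.R136.Lz627
end

-- ▼ part R136/Lz6_627
section

/-!
# R136 (S0187), U4, pure penalty, leaf (d) (helper627), part 6: the short window with `AllD`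

* `AllMid` : D-max at all natural levels between `lev a` and `lev b`.
* `zoomAll` : the short window around `v = 1/2` of a marked sequence with `AllMid`: D-max at all
  natural levels of the window and `kk` levels beyond, for ALL the incidences of the big sequence.
-/

set_option autoImplicit false
set_option linter.unusedVariables false
set_option linter.unusedSectionVars false

open Finset Filter Topology

namespace Crest.Agent.R136.Lz627

open Crest.Agent.R138.Ex926 (Base U exists_diag exists_tendsto ev_em)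
open Crest.Agent.R138.Dp76
open Crest.Agent.R138.Mk163 (zc zl rho alive own)
open Crest.Agent.R138.MkRef627 (mem_alive alive_mono)
open Crest.Agent.R138.MkPoint627 (exists_affine)
open Crest.Agent.R138.MkZoom779 (Fq Fq_mem ev_mem_Fq)
open Crest.Agent.R136.MkA627
open Crest.Agent.R116.Xa794 (TS geo)
open Crest.Agent.R116.Xc794
open Crest.Agent.R116.Zl139
open Crest.Agent.R116.KF439 (Win)
open Dia770 (AllD)

section zoom

variable {σ κ : Type} {B : Base} {I : ℕ → Finset (ℕ × ℝ)} {G : Geo σ κ}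
    {lev : ℕ → ℚ → ℕ} {A : ℕ → ℝ} {g : ℝ} {θ : κ → ℝ}
    {f : ℕ → ℚ → ℕ → ℤ → ℕ} {b : ℕ → ℚ → ℕ → σ} {vm : ℕ → ℚ → ℝ} {w : κ → ℕ → ℚ → ℝ}

open Classical in
/-- D-max at the natural levels between `lev a` and `lev e` -/
def AllMid (B : Base) (I : ℕ → Finset (ℕ × ℝ)) (G : Geo σ κ) (lev : ℕ → ℚ → ℕ) (A : ℕ → ℝ) (g : ℝ)
    (a e : ℚ) : Prop :=
  ∀ ε : ℝ, 0 < ε → ∀ᶠ n in (U : Filter ℕ), ∀ i : ℕ, lev n a ≤ i → i ≤ lev n e →
    ∀ (J : ℤ) (s : σ), G.adm n i J s →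
      (((alive (I n) i J).filter fun t => G.mem n i J s t).card : ℝ) ≤
        B.d n ^ (-ε) * (A n * 2 ^ (g * ((i : ℝ) - lev n 0))) * G.val n i J s

open Classical in
theorem AllMid.sub {a e : ℚ} (h : AllMid B I G lev A g a e) {J : ℕ → Finset (ℕ × ℝ)}
    (hJ : ∀ᶠ n in (U : Filter ℕ), J n ⊆ I n) : AllMid B J G lev A g a e := by
  intro ε hε
  filter_upwards [h ε hε, hJ] with n hn h2 i h0 h1 j s hs
  refine le_trans ?_ (hn i h0 h1 j s hs)
  exact_mod_cast card_le_card (filter_subset_filter _ (alive_mono h2 _ _))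

theorem allMid_of_allD (h : AllD B I G lev A g) : AllMid B I G lev A g 0 1 := h

theorem AllMid.mono {a e a' e' : ℚ} (h : AllMid B I G lev A g a e)
    (ha : ∀ᶠ n in (U : Filter ℕ), lev n a ≤ lev n a')
    (he : ∀ᶠ n in (U : Filter ℕ), lev n e' ≤ lev n e) : AllMid B I G lev A g a' e' := by
  intro ε hε
  filter_upwards [h ε hε, ha, he] with n hn h1 h2 i h3 h4 j s hs
  exact hn i (h1.trans h3) (h4.trans h2) j s hs

/-- powers of two as powers of `d`. -/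
theorem two_d (B : Base) (n : ℕ) {X x e g : ℝ} (h : |X * Real.log 2 / B.L n - x| ≤ e) :
    (2 : ℝ) ^ (g * X) ≤ B.d n ^ (-(g * x) - |g| * e) := by
  have hL := B.L_pos n
  rw [Real.rpow_def_of_pos two_pos, Real.rpow_def_of_pos (B.pos n)]
  have e1 : Real.log (B.d n) = -B.L n := by unfold Base.L; ring
  rw [e1]
  refine Real.exp_le_exp.2 ?_
  have e2 : X * Real.log 2 / B.L n - x = (X * Real.log 2 - x * B.L n) / B.L n := by
    field_simp
  rw [e2, abs_div, abs_of_pos hL, div_le_iff₀ hL] at h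
  have h2 : g * (X * Real.log 2 - x * B.L n) ≤ |g| * (e * B.L n) := by
    refine (le_abs_self _).trans ?_
    rw [abs_mul]
    exact mul_le_mul_of_nonneg_left h (abs_nonneg _)
  nlinarith

/-- levels at a positive distance are far apart. -/
theorem lev_far {c Λ : ℝ → ℝ} {τ : κ → ℝ → ℝ} (h : MkA B I G lev A c Λ τ f b vm w) {u v : ℚ}
    (hu : 0 ≤ u) (huv : u < v) (hv : v ≤ 1) (k : ℕ) :
    ∀ᶠ n in (U : Filter ℕ), lev n u + k ≤ lev n v := by
  have huvR : (0 : ℝ) < (v : ℝ) - u := by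
    have : (u : ℝ) < v := by exact_mod_cast huv
    linarith
  have l2 : 0 < Real.log 2 := Real.log_pos one_lt_two
  filter_upwards [(h.lev_lim u v hu huv.le hv).eventually
    (eventually_ge_nhds (show ((v : ℝ) - u) / 2 < (v : ℝ) - u by linarith)),
    B.ev_L_ge (2 * ((k : ℝ) * Real.log 2) / ((v : ℝ) - u))] with n a1 a2
  have hL := B.L_pos n
  rw [le_div_iff₀ hL] at a1
  rw [div_le_iff₀ huvR] at a2
  have h3 : (k : ℝ) * Real.log 2 ≤ ((lev n v : ℝ) - lev n u) * Real.log 2 := by nlinarith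
  have h4 := le_of_mul_le_mul_right h3 l2
  have h5 : ((lev n u + k : ℕ) : ℝ) ≤ lev n v := by push_cast; linarith
  exact_mod_cast h5

open Classical in
/-- **zoom to a short window around `1/2`, with `AllD` and a diagonal property.** -/
theorem zoomAll [Countable κ]
    (h : MkA B I G lev A (fun v => g * v) (fun v => 0 * v) (fun j v => θ j * (1 - v)) f b vm w)
    {a e : ℚ} (ha : a < 1 / 2) (he : 1 / 2 < e) (ha0 : 0 ≤ a) (he1 : e ≤ 1)
    (hAll : AllMid B I G lev A g a e) (kk : ℕ)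
    (Q : ((ℕ → ℝ) × (ℕ → ℚ → ℚ)) → ℕ → ℕ → Prop)
    (hQ : ∀ (η : ℕ → ℝ) (m : ℕ → ℚ → ℚ), (∀ k, 0 < η k) →
      (∀ k, ∀ x : ℚ, 0 ≤ x → x ≤ 1 → 0 ≤ m k x ∧ m k x ≤ 1) →
      ∀ k, ∀ᶠ n in (U : Filter ℕ), Q (η, m) k n) :
    ∃ (η : ℕ → ℝ) (m : ℕ → ℚ → ℚ) (t : ℕ → ℕ) (B' : Base) (I' : ℕ → Finset (ℕ × ℝ))
      (A' : ℕ → ℝ),
      (∀ k, 0 < η k) ∧ (∀ k, η k ≤ 1) ∧ Tendsto η atTop (𝓝 0) ∧ Tendsto t U atTop ∧
      (∀ x : ℚ, Tendsto (fun k => ((m k x : ℚ) : ℝ)) atTop (𝓝 (1 / 2))) ∧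
      Win B I B' I' (fun n => η (t n)) (fun n => m (t n)) ∧
      (∀ n, A' n = A n * B.d n ^ (-(g * (m (t n) 0)))) ∧
      MkA B' I' G (fun n x => lev n (m (t n) x)) A' (fun v => g * v) (fun v => 0 * v)
        (fun j v => θ j * (1 - v)) (fun n x => f n (m (t n) x)) (fun n x => b n (m (t n) x))
        (fun n x => vm n (m (t n) x)) (fun j n x => w j n (m (t n) x)) ∧
      (∀ ε : ℝ, 0 < ε → ∀ᶠ n in (U : Filter ℕ), ∀ i : ℕ, lev n (m (t n) 0) ≤ i →
        i ≤ lev n (m (t n) 1) + kk → ∀ (J : ℤ) (s : σ), G.adm n i J s →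
          (((alive (I n) i J).filter fun t => G.mem n i J s t).card : ℝ) ≤
            B'.d n ^ (-ε) * (A' n * 2 ^ (g * ((i : ℝ) - lev n (m (t n) 0)))) * G.val n i J s) ∧
      ∀ᶠ n in (U : Filter ℕ), Q (η, m) (t n) n := by
  obtain ⟨η, m, hη, hη1, hη0, hm, hmono, hq, hpt, -⟩ :=
    exists_affine (v0 := 1 / 2) (by norm_num) (by norm_num)
  obtain ⟨s0, hs0t, hz⟩ := zoomA2 h η m (fun v => g * v) (fun v => 0 * v)
    (fun j v => θ j * (1 - v)) hη hη1 hm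
    (fun x y _ hxy _ => Eventually.of_forall fun k => hmono k x y hxy)
    (fun x y _ _ _ => by
      simp only [hq]
      exact tendsto_const_nhds)
    (fun x hx0 hx1 => by
      have a2 : Tendsto (fun k => g * (((m k x : ℝ) - m k 0) / η k)) atTop
          (𝓝 (g * ((x : ℝ) - ((0 : ℚ) : ℝ)))) := by
        simp only [hq]
        exact tendsto_const_nhds
      have a4 : g * ((x : ℝ) - ((0 : ℚ) : ℝ)) = g * (x : ℝ) := by push_cast; ring
      rw [a4] at a2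
      refine a2.congr fun k => ?_
      ring)
    (fun x hx0 hx1 => by simp)
    (fun j x hx0 hx1 => by
      have a2 : Tendsto (fun k => -(θ j * (((m k x : ℝ) - m k 1) / η k))) atTop
          (𝓝 (-(θ j * ((x : ℝ) - ((1 : ℚ) : ℝ))))) := by
        simp only [hq]
        exact tendsto_const_nhds
      have a4 : -(θ j * ((x : ℝ) - ((1 : ℚ) : ℝ))) = θ j * (1 - (x : ℝ)) := by push_cast; ring
      rw [a4] at a2
      refine a2.congr fun k => ?_
      ring)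
    (fun u v hu huv hv => by
      constructor
      · simp
      · simp only [zero_mul, sub_zero]; linarith) (by simp) (by simp) (by simp)
  obtain ⟨s1, hs1t, hs1'⟩ := exists_diag (fun k n => Q (η, m) k n ∧
      ((a ≤ m k 0 ∧ m k 1 < e) → ∀ i : ℕ, lev n (m k 0) ≤ i → i ≤ lev n (m k 1) + kk →
        ∀ (J : ℤ) (s : σ), G.adm n i J s →
        (((alive (I n) i J).filter fun t => G.mem n i J s t).card : ℝ) ≤
          B.d n ^ (-(η k / ((k : ℝ) + 1))) * (A n * 2 ^ (g * ((i : ℝ) - lev n 0))) *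
            G.val n i J s) ∧
      |((lev n (m k 0) : ℝ) - lev n 0) * Real.log 2 / B.L n - (m k 0 : ℝ)| ≤
        η k / ((k : ℝ) + 1)) (by
    intro k
    obtain ⟨hm0, hm1⟩ := hm k 0 le_rfl zero_le_one
    obtain ⟨hm2, hm3⟩ := hm k 1 zero_le_one le_rfl
    have hk : (0 : ℝ) < η k / ((k : ℝ) + 1) := div_pos (hη k) (by positivity)
    have e1 : ∀ᶠ n in (U : Filter ℕ), (a ≤ m k 0 ∧ m k 1 < e) → lev n a ≤ lev n (m k 0) ∧
        lev n (m k 1) + kk ≤ lev n e := by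
      by_cases hae : a ≤ m k 0 ∧ m k 1 < e
      · filter_upwards [h.lev_mono a (m k 0) ha0 hae.1 hm1,
          lev_far h hm2 hae.2 he1 kk] with n a1 a2 _
        exact ⟨a1, a2⟩
      · exact Eventually.of_forall fun n hn => absurd hn hae
    have e2 := (Metric.tendsto_nhds.1 (h.lev_lim 0 (m k 0) le_rfl hm0 hm1)) _ hk
    filter_upwards [hQ η m hη hm k, e1, hAll _ hk, e2] with n a1 a2 a3 a4
    rw [Real.dist_eq] at a4
    have e5 : (m k 0 : ℝ) - ((0 : ℚ) : ℝ) = (m k 0 : ℝ) := by push_cast; ring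
    rw [e5] at a4
    refine ⟨a1, fun hae i h1 h2 J s hs => ?_, a4.le⟩
    exact a3 i ((a2 hae).1.trans h1) (h2.trans (a2 hae).2) J s hs)
  set t : ℕ → ℕ := fun n => min (s0 n) (s1 n) with ht
  have htt : Tendsto t U atTop := by
    rw [tendsto_atTop]
    intro c
    filter_upwards [tendsto_atTop.1 hs0t c, tendsto_atTop.1 hs1t c] with n h1 h2
    exact le_min h1 h2
  obtain ⟨B', I', A', hB', hI', hA', hMk⟩ := hz t htt
    (Eventually.of_forall fun n => min_le_left _ _)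
  have hD : ∀ᶠ n in (U : Filter ℕ), _ := hs1'.mono fun n hn => hn (t n) (min_le_right _ _)
  have hA'' : ∀ n, A' n = A n * B.d n ^ (-(g * (m (t n) 0))) := hA'
  refine ⟨η, m, t, B', I', A', hη, hη1, hη0, htt, hpt, ?_, hA'', hMk, ?_,
    hD.mono fun n hn => hn.1⟩
  · exact
    { pos := fun n => ⟨hη _, hη1 _⟩
      lim := hη0.comp htt
      mem := fun n => hm _
      aff := fun n x y => by
        have h5 := hq (t n) x y
        rw [div_eq_iff (hη _).ne'] at h5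
        linarith
      pt := ⟨1 / 2, ⟨by norm_num, by norm_num⟩, fun x => (hpt x).comp htt⟩
      base := hB'
      sub := hI' }
  · -- AllD
    intro ε hε
    have haR : (a : ℝ) < 1 / 2 := by
      have : ((a : ℚ) : ℝ) < ((1 / 2 : ℚ) : ℝ) := by exact_mod_cast ha
      push_cast at this
      exact this
    have heR : (1 / 2 : ℝ) < e := by
      have : ((1 / 2 : ℚ) : ℝ) < ((e : ℚ) : ℝ) := by exact_mod_cast he
      push_cast at this
      exact this
    have c1 : ∀ᶠ n in (U : Filter ℕ), (a : ℝ) ≤ (m (t n) 0 : ℝ) :=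
      ((hpt 0).comp htt).eventually (eventually_ge_nhds haR)
    have c2 : ∀ᶠ n in (U : Filter ℕ), (m (t n) 1 : ℝ) < e :=
      ((hpt 1).comp htt).eventually (eventually_lt_nhds heR)
    have c3 : ∀ᶠ n in (U : Filter ℕ), (1 + |g|) / ε ≤ (t n : ℝ) :=
      (tendsto_natCast_atTop_atTop.comp htt).eventually_ge_atTop _
    filter_upwards [hD, c1, c2, c3] with n hn k1 k2 k3 i hi0 hi1 J s hs
    have k1' : a ≤ m (t n) 0 := by exact_mod_cast k1
    have k2' : m (t n) 1 < e := by exact_mod_cast k2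
    have h2 := hn.2.1 ⟨k1', k2'⟩ i hi0 hi1 J s hs
    have hη' := hη (t n)
    have ht1 : (0 : ℝ) < (t n : ℝ) + 1 := by positivity
    have hAn := h.Apos n
    have hval : 0 ≤ G.val n i J s := by
      by_contra hneg
      have h3 := mul_neg_of_pos_of_neg (mul_pos (dpow_pos B n (-(η (t n) / ((t n : ℝ) + 1))))
        (mul_pos hAn (Real.rpow_pos_of_pos two_pos (g * ((i : ℝ) - lev n 0))))) (not_le.1 hneg)
      have h4 : (0 : ℝ) ≤ (((alive (I n) i J).filter fun t => G.mem n i J s t).card : ℝ) := by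
        positivity
      linarith
    refine h2.trans (mul_le_mul_of_nonneg_right ?_ hval)
    have h5 := two_d B n (g := g) hn.2.2
    have e1 : g * ((i : ℝ) - lev n 0) =
        g * ((lev n (m (t n) 0) : ℝ) - lev n 0) + g * ((i : ℝ) - lev n (m (t n) 0)) := by ring
    have p2 : (0:ℝ) < 2 ^ (g * ((i : ℝ) - lev n (m (t n) 0))) := Real.rpow_pos_of_pos two_pos _
    have hBp : B'.d n ^ (-ε) = B.d n ^ (-(ε * η (t n))) := by
      rw [hB', ← Real.rpow_mul (B.pos n).le]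
      congr 1; ring
    rw [e1, Real.rpow_add two_pos, hA'', hBp]
    calc B.d n ^ (-(η (t n) / ((t n : ℝ) + 1))) *
          (A n * (2 ^ (g * ((lev n (m (t n) 0) : ℝ) - lev n 0)) *
            2 ^ (g * ((i : ℝ) - lev n (m (t n) 0)))))
        ≤ B.d n ^ (-(η (t n) / ((t n : ℝ) + 1))) *
          (A n * (B.d n ^ (-(g * (m (t n) 0 : ℝ)) - |g| * (η (t n) / ((t n : ℝ) + 1))) *
            2 ^ (g * ((i : ℝ) - lev n (m (t n) 0))))) := by
          have p1 := dpow_pos B n (-(η (t n) / ((t n : ℝ) + 1)))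
          gcongr
      _ = B.d n ^ (-(η (t n) / ((t n : ℝ) + 1)) - |g| * (η (t n) / ((t n : ℝ) + 1))) *
          (A n * B.d n ^ (-(g * (m (t n) 0 : ℝ))) *
            2 ^ (g * ((i : ℝ) - lev n (m (t n) 0)))) := by
          rw [sub_eq_add_neg (-(g * (m (t n) 0 : ℝ))),
            sub_eq_add_neg (-(η (t n) / ((t n : ℝ) + 1))),
            Real.rpow_add (B.pos n) (-(g * (m (t n) 0 : ℝ))),
            Real.rpow_add (B.pos n) (-(η (t n) / ((t n : ℝ) + 1)))]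
          ring
      _ ≤ B.d n ^ (-(ε * η (t n))) * (A n * B.d n ^ (-(g * (m (t n) 0 : ℝ))) *
            2 ^ (g * ((i : ℝ) - lev n (m (t n) 0)))) := by
          refine mul_le_mul_of_nonneg_right (dpow_le B n ?_)
            (mul_nonneg (mul_nonneg hAn.le (dpow_pos B n _).le) p2.le)
          have h6 : (1 + |g|) / ((t n : ℝ) + 1) ≤ ε := by
            rw [div_le_iff₀ ht1]
            rw [div_le_iff₀ hε] at k3
            nlinarith
          have e7 : -(η (t n) / ((t n : ℝ) + 1)) - |g| * (η (t n) / ((t n : ℝ) + 1)) =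
              -(η (t n) * ((1 + |g|) / ((t n : ℝ) + 1))) := by
            field_simp
            ring
          rw [e7, neg_le_neg_iff, mul_comm ε]
          exact mul_le_mul_of_nonneg_left h6 hη'.le

end zoom

end Crest.Agent.R136.Lz627
end

-- ▼ part R136/Lz9_627
section

/-!
# R136 (S0187), U4, pure penalty, leaf (d) (helper627), part 9: one level beyond the short window

* `lin4` : helper627's `lin3` with D-max of the big sequence at the natural levels of the window and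
  `kk` levels beyond.
* `PBody` : the bound of the deep D-max on given objects; `pbody_lin`, `pbody_cov`.
* `SubB` : helper335's `SubD`.
-/

set_option autoImplicit false
set_option linter.unusedVariables false
set_option linter.unusedSectionVars false

open Finset Filter Topology

namespace Crest.Agent.R136.Lz627

open Crest.Agent.R138.Ex926 (Base U exists_diag exists_tendsto ev_em)
open Crest.Agent.R138.Dp76
open Crest.Agent.R138.Mk163 (zc zl rho alive own)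
open Crest.Agent.R138.MkRef627 (lc mem_alive alive_mono)
open Crest.Agent.R136.MkA627
open Crest.Agent.R116.Xa794 (TS geo)
open Crest.Agent.R116.Xc794
open Crest.Agent.R116.Zl139
open Crest.Agent.R116.KF439 (Win)
open Dia770
open XIn823

section lin

variable {Ln ι S : Type} [Fintype ι] {B : Base} {I : ℕ → Finset (ℕ × ℝ)} {T : ℕ → TS Ln ι S}
    {L : ℕ → ℕ → Ln} {lev : ℕ → ℚ → ℕ} {A : ℕ → ℝ} {g : ℝ} {θ : ι → ℝ}
    {f : ℕ → ℚ → ℕ → ℤ → ℕ} {b : ℕ → ℚ → ℕ → (ι → ℕ) × S} {vm : ℕ → ℚ → ℝ}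
    {w : ι → ℕ → ℚ → ℝ} {Ψ : ℝ → (ι → ℝ) → ℝ} {g0 : ℝ} {p : ι → ℝ} {mt : ℕ → ℕ}
    {atop : ℕ → ι → ℕ} {T0 : ℝ}

open Classical in
/-- **the short window**: `Ψ`-valued and linear, with D-max at all natural levels of the window and
`kk` levels beyond, for all the incidences of the big sequence. -/
theorem lin4
    (h : MkA B I (geoP T Ψ mt atop L) lev A (fun v => g * v) (fun v => 0 * v)
      (fun j v => θ j * (1 - v)) f b vm w)
    (hAll : AllD B I (geoP T Ψ mt atop L) lev A g) (kk : ℕ)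
    (hT : TopPos B lev w mt atop θ T0) (hT0 : 1 ≤ T0) (hΨ : LinAt Ψ θ g0 p)
    (Q : ((ℕ → ℝ) × (ℕ → ℚ → ℚ)) → ℕ → ℕ → Prop)
    (hQ : ∀ (η : ℕ → ℝ) (m : ℕ → ℚ → ℚ), (∀ k, 0 < η k) →
      (∀ k, ∀ x : ℚ, 0 ≤ x → x ≤ 1 → 0 ≤ m k x ∧ m k x ≤ 1) →
      ∀ k, ∀ᶠ n in (U : Filter ℕ), Q (η, m) k n) :
    ∃ (η : ℕ → ℝ) (m : ℕ → ℚ → ℚ) (t : ℕ → ℕ) (B' : Base) (I' : ℕ → Finset (ℕ × ℝ))
      (A' A2 : ℕ → ℝ) (vm2 : ℕ → ℚ → ℝ) (K1 : ℕ → ℝ),
      (∀ k, 0 < η k) ∧ (∀ k, η k ≤ 1) ∧ Tendsto η atTop (𝓝 0) ∧ Tendsto t U atTop ∧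
      (∀ x : ℚ, Tendsto (fun k => ((m k x : ℚ) : ℝ)) atTop (𝓝 (1 / 2))) ∧
      Win B I B' I' (fun n => η (t n)) (fun n => m (t n)) ∧
      MkA B' I' (geoP T Ψ mt atop L) (fun n x => lev n (m (t n) x)) A'
        (fun v => g * v) (fun v => 0 * v)
        (fun j v => θ j * (1 - v)) (fun n x => f n (m (t n) x)) (fun n x => b n (m (t n) x))
        (fun n x => vm n (m (t n) x)) (fun j n x => w j n (m (t n) x)) ∧
      Tendsto (fun n => ((mt n : ℝ) - lev n (m (t n) 0)) * Real.log 2 / B.L n) U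
        (𝓝 (T0 - 1 / 2)) ∧
      (∀ j, Tendsto (fun n => (-Real.log (w j n (m (t n) 0)) -
        (lev n (m (t n) 0) : ℝ) * Real.log 2 - ((atop n j : ℝ) - mt n) * Real.log 2) / B.L n) U
        (𝓝 (θ j * (T0 - 1 / 2)))) ∧
      (∀ n, A2 n = A' n * EE Ψ p (fun n x => lev n (m (t n) x))
        (fun j n x => w j n (m (t n) x)) mt atop n) ∧
      Tendsto K1 U atTop ∧
      (∀ K : ℕ → ℝ, Tendsto K U atTop → (∀ᶠ n in (U : Filter ℕ), K n ≤ K1 n) →
        MkA B' I' (rgK B' (fun j n x => w j n (m (t n) x)) K (geo T p L))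
          (fun n x => lev n (m (t n) x)) A2
          (fun v => (g + g0) * v) (fun v => 0 * v)
          (fun j v => θ j * (1 - v)) (fun n x => f n (m (t n) x)) (fun n x => b n (m (t n) x))
          vm2 (fun j n x => w j n (m (t n) x))) ∧
      (∀ ε : ℝ, 0 < ε → ∀ᶠ n in (U : Filter ℕ), ∀ i : ℕ, lev n (m (t n) 0) ≤ i →
        i ≤ lev n (m (t n) 1) + kk → ∀ (J : ℤ) (s : (ι → ℕ) × S), (geoP T Ψ mt atop L).adm n i J s →
          (((alive (I n) i J).filter fun t => (geoP T Ψ mt atop L).mem n i J s t).card : ℝ) ≤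
            B'.d n ^ (-ε) * (A' n * 2 ^ (g * ((i : ℝ) - lev n (m (t n) 0)))) *
              (geoP T Ψ mt atop L).val n i J s) ∧
      ∀ᶠ n in (U : Filter ℕ), Q (η, m) (t n) n := by
  classical
  obtain ⟨η, m, t, B', I', A', hη, hη1, hη0, htt, hpt, hW, hA', hM, hX, hD⟩ :=
    zoomAll h (a := 0) (e := 1) (by norm_num) (by norm_num) le_rfl le_rfl (allMid_of_allD hAll) kk
      (fun q k n => Q q k n ∧
      |((mt n : ℝ) - lev n (q.2 k 0)) * Real.log 2 / B.L n - (T0 - (q.2 k 0 : ℝ))| ≤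
        1 / ((k : ℝ) + 1) ∧
      ∀ j, |(-Real.log (w j n (q.2 k 0)) - (lev n (q.2 k 0) : ℝ) * Real.log 2 -
        ((atop n j : ℝ) - mt n) * Real.log 2) / B.L n - θ j * (T0 - (q.2 k 0 : ℝ))| ≤
        1 / ((k : ℝ) + 1)) (by
      intro η m hη hm k
      obtain ⟨hm0, hm1⟩ := hm k 0 le_rfl zero_le_one
      have hk : (0 : ℝ) < 1 / ((k : ℝ) + 1) := by positivity
      have e1 := (Metric.tendsto_nhds.1 (hT.len (m k 0) hm0 hm1)) _ hk
      have e2 : ∀ᶠ n in (U : Filter ℕ), ∀ j,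
          |(-Real.log (w j n (m k 0)) - (lev n (m k 0) : ℝ) * Real.log 2 -
          ((atop n j : ℝ) - mt n) * Real.log 2) / B.L n - θ j * (T0 - (m k 0 : ℝ))| ≤
          1 / ((k : ℝ) + 1) := by
        rw [Filter.eventually_all]
        intro j
        filter_upwards [(Metric.tendsto_nhds.1 (hT.rel j (m k 0) hm0 hm1)) _ hk] with n hn
        rw [Real.dist_eq] at hn
        exact hn.le
      filter_upwards [hQ η m hη hm k, e1, e2] with n a2 a3 a4
      rw [Real.dist_eq] at a3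
      exact ⟨a2, a3.le, a4⟩)
  have hH : ∀ n, 0 < η (t n) := fun n => hη _
  have hH0 : Tendsto (fun n => η (t n)) U (𝓝 0) := hη0.comp htt
  have hL : ∀ n, B'.L n = η (t n) * B.L n := fun n => by
    unfold Base.L
    rw [hW.base, Real.log_rpow (B.pos n)]
    ring
  have h1k : Tendsto (fun n => 1 / ((t n : ℝ) + 1)) U (𝓝 0) :=
    tendsto_one_div_add_atTop_nhds_zero_nat.comp htt
  have hm0 : Tendsto (fun n => ((m (t n) 0 : ℚ) : ℝ)) U (𝓝 (1 / 2)) := (hpt 0).comp htt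
  have hlen : Tendsto (fun n => ((mt n : ℝ) - lev n (m (t n) 0)) * Real.log 2 / B.L n) U
      (𝓝 (T0 - 1 / 2)) := by
    have h1 : Tendsto (fun n => ((mt n : ℝ) - lev n (m (t n) 0)) * Real.log 2 / B.L n -
        (T0 - ((m (t n) 0 : ℚ) : ℝ))) U (𝓝 0) := by
      refine squeeze_zero_norm' ?_ h1k
      filter_upwards [hD] with n hn using hn.2.1
    have h2 := h1.add (hm0.const_sub T0)
    rw [zero_add] at h2
    refine h2.congr fun n => ?_
    ring
  have hrel : ∀ j, Tendsto (fun n => (-Real.log (w j n (m (t n) 0)) -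
      (lev n (m (t n) 0) : ℝ) * Real.log 2 - ((atop n j : ℝ) - mt n) * Real.log 2) / B.L n) U
      (𝓝 (θ j * (T0 - 1 / 2))) := by
    intro j
    have h1 : Tendsto (fun n => (-Real.log (w j n (m (t n) 0)) -
        (lev n (m (t n) 0) : ℝ) * Real.log 2 - ((atop n j : ℝ) - mt n) * Real.log 2) / B.L n -
        θ j * (T0 - ((m (t n) 0 : ℚ) : ℝ))) U (𝓝 0) := by
      refine squeeze_zero_norm' ?_ h1k
      filter_upwards [hD] with n hn using hn.2.2 j
    have h2 := h1.add ((hm0.const_sub T0).const_mul (θ j))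
    rw [zero_add] at h2
    refine h2.congr fun n => ?_
    ring
  set R0 : ℝ := 2 + ∑ j, |θ j| with hR0
  have hRj : ∀ R : ℝ, R0 ≤ R → ∀ j, 1 + |θ j| < R := by
    intro R hR j
    have h1 : |θ j| ≤ ∑ j, |θ j| :=
      Finset.single_le_sum (f := fun j => |θ j|) (fun i _ => abs_nonneg _) (Finset.mem_univ j)
    rw [hR0] at hR
    linarith
  have hR0p : ∀ R : ℝ, R0 ≤ R → 0 ≤ R := by
    intro R hR
    have h1 : 0 ≤ ∑ j, |θ j| := Finset.sum_nonneg fun j _ => abs_nonneg _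
    rw [hR0] at hR
    linarith
  have hlin : ∀ R : ℝ, R0 ≤ R →
      MkA B' I' (rg B' (fun j n x => w j n (m (t n) x)) R (geo T p L))
        (fun n x => lev n (m (t n) x)) (fun n => A' n * EE Ψ p (fun n x => lev n (m (t n) x))
          (fun j n x => w j n (m (t n) x)) mt atop n)
        (fun v => (g + g0) * v) (fun v => 0 * v)
        (fun j v => θ j * (1 - v)) (fun n x => f n (m (t n) x)) (fun n x => b n (m (t n) x))
        (vm2 T p (fun n x => lev n (m (t n) x)) (fun j n x => w j n (m (t n) x)))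
        (fun j n x => w j n (m (t n) x)) := by
    intro R hR
    have h1 := lin_of (lev' := fun n x => lev n (m (t n) x)) (w' := fun j n x => w j n (m (t n) x))
      (t := T0 - 1 / 2) (R := R) hΨ hH hH0 hL (by linarith) (hRj R hR) (hR0p R hR) hM hlen hrel
    refine h1.congr (fun v _ _ => ?_) (fun j v _ _ => rfl)
    ring
  obtain ⟨K1, hK1, hK⟩ := growK (R0 := R0) hlin
  exact ⟨η, m, t, B', I', A', _, _, K1, hη, hη1, hη0, htt, hpt, hW, hM, hlen, hrel,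
    fun n => rfl, hK1, hK, hX, hD.mono fun n hn => hn.1⟩

end lin

/-- the bound of the deep D-max on given objects -/
def PBody {σ κ : Type} (B : Base) (G : Geo σ κ) (lev : ℕ → ℚ → ℕ) (A : ℕ → ℝ) (g : ℝ)
    (v : ℚ) (m : ℕ → ℕ) (P : ℕ → Finset (ℕ × ℤ)) (ε : ℝ) : Prop :=
  open Classical in
  ∀ᶠ n in (U : Filter ℕ), ∀ (j : ℤ) (s : σ), G.adm n (m n) j s →
      (((P n).filter fun o => o.2 = j ∧ G.mem n (m n) j s o.1).card : ℝ) ≤
        B.d n ^ (-ε) * (A n * B.d n ^ (-(g * v))) *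
          2 ^ ((g + ε) * ((m n : ℝ) - lev n v)) * G.val n (m n) j s

open Classical in
/-- helper335's `SubD` -/
def SubB {σ κ : Type} (B : Base) (I : ℕ → Finset (ℕ × ℝ)) (G : Geo σ κ) (lev : ℕ → ℚ → ℕ)
    (A : ℕ → ℝ) (g : ℝ) (v : ℚ) (k : ℕ) : Prop :=
  ∀ ε : ℝ, 0 < ε → ∃ P : ℕ → Finset (ℕ × ℤ),
    (∀ᶠ n in (U : Filter ℕ), ∀ x ∈ I n, ∃ j : ℤ, j / 2 ^ k = zc (lev n v) x.2 ∧ (x.1, j) ∈ P n) ∧
    ∀ᶠ n in (U : Filter ℕ), ∀ (j : ℤ) (s : σ), G.adm n (lev n v + k) j s →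
      (((P n).filter fun o => o.2 = j ∧ G.mem n (lev n v + k) j s o.1).card : ℝ) ≤
        B.d n ^ (-ε) * (A n * B.d n ^ (-(g * v))) * 2 ^ ((g + ε) * k) *
          G.val n (lev n v + k) j s

/-- `SubB` from `PBody` -/
theorem subB_of {σ κ : Type} {B : Base} {I : ℕ → Finset (ℕ × ℝ)} {G : Geo σ κ} {lev : ℕ → ℚ → ℕ}
    {A : ℕ → ℝ} {g : ℝ} {v : ℚ} {k : ℕ} {P : ℕ → Finset (ℕ × ℤ)}
    (hP : ∀ᶠ n in (U : Filter ℕ), ∀ x ∈ I n, ∃ j : ℤ, j / 2 ^ k = zc (lev n v) x.2 ∧ (x.1, j) ∈ P n)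
    (h : ∀ ε : ℝ, 0 < ε → PBody B G lev A g v (fun n => lev n v + k) P ε) :
    SubB B I G lev A g v k := by
  intro ε hε
  refine ⟨P, hP, ?_⟩
  filter_upwards [h ε hε] with n hn j s hs
  have h1 := hn j s hs
  have e1 : (((fun n => lev n v + k) n : ℕ) : ℝ) - lev n v = k := by
    show ((lev n v + k : ℕ) : ℝ) - lev n v = k
    push_cast; ring
  rw [e1] at h1
  exact h1

section transport

variable {Ln ι S : Type} [Fintype ι] {B : Base} {I : ℕ → Finset (ℕ × ℝ)}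
    {T : ℕ → TS Ln ι S} {L : ℕ → ℕ → Ln} {lev : ℕ → ℚ → ℕ} {A : ℕ → ℝ} {g : ℝ}
    {w : ι → ℕ → ℚ → ℝ} {Ψ : ℝ → (ι → ℝ) → ℝ} {g0 : ℝ} {p : ι → ℝ}
    {mt : ℕ → ℕ} {atop : ℕ → ι → ℕ} {E K1 K : ℕ → ℝ}

open Classical in
/-- transport of the bound on given objects -/
theorem pbody_lin (hc : Cmp B T Ψ mt atop lev w p g0 E K1) (hE : ∀ n, 0 < E n)
    (hA : ∀ n, 0 < A n)
    (hK1 : Tendsto K1 U atTop) (hK : ∀ᶠ n in (U : Filter ℕ), K n ≤ K1 n)
    (hw : ∀ᶠ n in (U : Filter ℕ), ∀ j, 0 < w j n 1)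
    {v : ℚ} (hlev : Tendsto (fun n => ((lev n 1 : ℝ) - lev n 0) * Real.log 2 / B.L n) U (𝓝 1))
    (hlv : Tendsto (fun n => ((lev n v : ℝ) - lev n 0) * Real.log 2 / B.L n) U (𝓝 (v : ℝ)))
    (hv0 : ∀ᶠ n in (U : Filter ℕ), lev n 0 ≤ lev n v)
    {m : ℕ → ℕ} (hm : ∀ᶠ n in (U : Filter ℕ), lev n v ≤ m n) {C : ℝ}
    (hmC : ∀ᶠ n in (U : Filter ℕ), (m n : ℝ) ≤ lev n 1 + C * B.L n)
    {P : ℕ → Finset (ℕ × ℤ)} {ε : ℝ} (hε : 0 < ε)
    (hP3 : PBody B (geoP T Ψ mt atop L) lev A g v m P (ε / 3)) :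
    PBody B (rgK B w K (geo T p L)) lev (fun n => A n * E n) (g + g0) v m P ε := by
  have l2 : 0 < Real.log 2 := Real.log_pos one_lt_two
  have l21 : Real.log 2 ≤ 1 := by
    have := Real.log_two_lt_d9
    linarith
  have e1 : ∀ᶠ n in (U : Filter ℕ),
      |((lev n v : ℝ) - lev n 0) * Real.log 2 / B.L n - v| ≤ ε / (3 * (|g0| + 1)) := by
    have h4 := (hlv.sub_const (v : ℝ)).abs
    rw [sub_self, abs_zero] at h4
    exact h4.eventually (eventually_le_nhds (by positivity))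
  filter_upwards [hP3, hc (ε / 3) (by positivity), hK, hw,
    hK1.eventually_ge_atTop (2 + |C|),
    hlev.eventually (eventually_le_nhds (show (1:ℝ) < 2 by norm_num)), hv0, hm, hmC, e1]
    with n h1 h2 h3 h4 h5 h6 h7 h8 h9 h10 j s hs
  have hL := B.L_pos n
  have h7' : (lev n 0 : ℝ) ≤ lev n v := by exact_mod_cast h7
  have h8' : (lev n v : ℝ) ≤ m n := by exact_mod_cast h8
  have hdist : |((m n : ℝ) - lev n 0) * Real.log 2| ≤ K1 n * B.L n := by
    rw [abs_of_nonneg (mul_nonneg (by linarith) l2.le)]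
    rw [div_le_iff₀ hL] at h6
    have h11 : ((m n : ℝ) - lev n 0) * Real.log 2 ≤
        ((lev n 1 : ℝ) - lev n 0) * Real.log 2 + (C * B.L n) * Real.log 2 := by
      rw [← add_mul]
      exact mul_le_mul_of_nonneg_right (by linarith) l2.le
    have h12 : (C * B.L n) * Real.log 2 ≤ |C| * B.L n := by
      have h13 : C * (B.L n * Real.log 2) ≤ |C| * (B.L n * Real.log 2) :=
        mul_le_mul_of_nonneg_right (le_abs_self C) (by positivity)
      have h14 : |C| * (B.L n * Real.log 2) ≤ |C| * (B.L n * 1) :=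
        mul_le_mul_of_nonneg_left (mul_le_mul_of_nonneg_left l21 hL.le) (abs_nonneg _)
      nlinarith
    have h13 : (2 + |C|) * B.L n ≤ K1 n * B.L n := mul_le_mul_of_nonneg_right h5 hL.le
    nlinarith
  have hs' := rgK_adm_mono (K1 := K1) (fun j => (h4 j).le) h3 hs
  have k1 := h1 j s hs.1
  have k2 := h2 (m n) hdist s.1 hs'.2
  have pA := hA n
  have pE := hE n
  have p1 := dpow_pos B n (-(ε / 3))
  have pv := dpow_pos B n (-(g * v))
  have pc := cap_pos (T n) p (m n) s.1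
  have p2 : (0:ℝ) < 2 ^ ((g + ε / 3) * ((m n : ℝ) - lev n v)) := Real.rpow_pos_of_pos two_pos _
  -- the factor `2 ^ (g0 (lev v - lev 0))`
  have k3 : (2 : ℝ) ^ (g0 * ((lev n v : ℝ) - lev n 0)) ≤ B.d n ^ (-(g0 * v) - ε / 3) := by
    rw [Real.rpow_def_of_pos two_pos, Real.rpow_def_of_pos (B.pos n)]
    have e1 : Real.log (B.d n) = -B.L n := by unfold Base.L; ring
    rw [e1]
    refine Real.exp_le_exp.2 ?_
    have e2 : ((lev n v : ℝ) - lev n 0) * Real.log 2 / B.L n - v =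
        (((lev n v : ℝ) - lev n 0) * Real.log 2 - v * B.L n) / B.L n := by
      field_simp
    rw [e2, abs_div, abs_of_pos hL, div_le_iff₀ hL] at h10
    have h11 : g0 * (((lev n v : ℝ) - lev n 0) * Real.log 2 - v * B.L n) ≤
        |g0| * (ε / (3 * (|g0| + 1)) * B.L n) := by
      refine (le_abs_self _).trans ?_
      rw [abs_mul]
      exact mul_le_mul_of_nonneg_left h10 (abs_nonneg _)
    have h12 : |g0| * (ε / (3 * (|g0| + 1)) * B.L n) =
        (|g0| / (|g0| + 1)) * (ε / 3 * B.L n) := by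
      field_simp
    have h13 : |g0| / (|g0| + 1) ≤ 1 := by
      rw [div_le_one (by positivity)]; linarith
    have h14 : (|g0| / (|g0| + 1)) * (ε / 3 * B.L n) ≤ 1 * (ε / 3 * B.L n) :=
      mul_le_mul_of_nonneg_right h13 (by positivity)
    nlinarith
  have k4 : (2 : ℝ) ^ (g0 * ((m n : ℝ) - lev n 0)) ≤
      B.d n ^ (-(g0 * v) - ε / 3) * 2 ^ (g0 * ((m n : ℝ) - lev n v)) := by
    have e2 : g0 * ((m n : ℝ) - lev n 0) =
        g0 * ((lev n v : ℝ) - lev n 0) + g0 * ((m n : ℝ) - lev n v) := by ring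
    rw [e2, Real.rpow_add two_pos]
    exact mul_le_mul_of_nonneg_right k3 (Real.rpow_pos_of_pos two_pos _).le
  have k5 : (2:ℝ) ^ ((g + ε / 3) * ((m n : ℝ) - lev n v)) * 2 ^ (g0 * ((m n : ℝ) - lev n v)) ≤
      2 ^ ((g + g0 + ε) * ((m n : ℝ) - lev n v)) := by
    rw [← Real.rpow_add two_pos]
    refine Real.rpow_le_rpow_of_exponent_le (by norm_num) ?_
    nlinarith
  calc (((P n).filter fun o => o.2 = j ∧ (T n).mem (m n) j s (L n o.1)).card : ℝ)
      ≤ B.d n ^ (-(ε / 3)) * (A n * B.d n ^ (-(g * v))) *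
          2 ^ ((g + ε / 3) * ((m n : ℝ) - lev n v)) *
            capP (T n) Ψ (mt n) (atop n) (m n) s.1 := k1
    _ ≤ B.d n ^ (-(ε / 3)) * (A n * B.d n ^ (-(g * v))) *
          2 ^ ((g + ε / 3) * ((m n : ℝ) - lev n v)) *
          (B.d n ^ (-(ε / 3)) * (E n * (B.d n ^ (-(g0 * v) - ε / 3) *
            2 ^ (g0 * ((m n : ℝ) - lev n v)))) * (T n).cap p (m n) s.1) := by
        refine mul_le_mul_of_nonneg_left (k2.trans ?_) (by positivity)
        gcongr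
    _ = (B.d n ^ (-(ε / 3)) * B.d n ^ (-(ε / 3)) * B.d n ^ (-(ε / 3))) * (A n * E n *
          (B.d n ^ (-(g * v)) * B.d n ^ (-(g0 * v)))) *
          (2 ^ ((g + ε / 3) * ((m n : ℝ) - lev n v)) * 2 ^ (g0 * ((m n : ℝ) - lev n v))) *
            (T n).cap p (m n) s.1 := by
        rw [sub_eq_add_neg (-(g0 * (v:ℝ))), Real.rpow_add (B.pos n) (-(g0 * (v:ℝ)))]
        ring
    _ ≤ (B.d n ^ (-(ε / 3)) * B.d n ^ (-(ε / 3)) * B.d n ^ (-(ε / 3))) * (A n * E n *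
          (B.d n ^ (-(g * v)) * B.d n ^ (-(g0 * v)))) *
          2 ^ ((g + g0 + ε) * ((m n : ℝ) - lev n v)) * (T n).cap p (m n) s.1 := by
        have pv0 := dpow_pos B n (-(g0 * v))
        gcongr
    _ = B.d n ^ (-ε) * (A n * E n * B.d n ^ (-((g + g0) * v))) *
          2 ^ ((g + g0 + ε) * ((m n : ℝ) - lev n v)) * (T n).cap p (m n) s.1 := by
        rw [← Real.rpow_add (B.pos n), ← Real.rpow_add (B.pos n), ← Real.rpow_add (B.pos n)]
        congr 4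
        · ring
        · congr 2
          ring

end transport

section

variable {σ1 σ2 κ : Type} {π : σ1 → σ2} {B : Base} {lo : ℕ → ℕ} {L : ℕ → Finset ℕ} {K0 : ℝ}
  {G1 : Geo σ1 κ} {G2 : Geo σ2 κ} {I : ℕ → Finset (ℕ × ℝ)} {lev : ℕ → ℚ → ℕ} {A : ℕ → ℝ}

open Classical in
theorem pbody_cov (hc : CovP π K0 lo L G1 G2) (hK0 : 1 ≤ K0)
    (hlo : ∀ᶠ n in (U : Filter ℕ), lo n ≤ lev n 0)
    (hmono : ∀ v : ℚ, 0 ≤ v → v ≤ 1 → ∀ᶠ n in (U : Filter ℕ), lev n 0 ≤ lev n v)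
    (hA : ∀ n, 0 < A n) {g : ℝ} {v : ℚ} (hv0 : 0 ≤ v) (hv1 : v ≤ 1) {m : ℕ → ℕ}
    (hm : ∀ᶠ n in (U : Filter ℕ), lev n v ≤ m n) {P : ℕ → Finset (ℕ × ℤ)}
    (hPLc : ∀ᶠ n in (U : Filter ℕ), ∀ o ∈ P n, o.1 ∈ L n)
    {ε : ℝ} (hε : 0 < ε) (hP3 : PBody B G1 lev A g v m P (ε / 2)) :
    PBody B G2 lev A g v m P ε := by
  filter_upwards [ev_const_le B (K0 * K0) (show 0 < ε / 2 by positivity), hP3, hlo,
    hmono v hv0 hv1, hm, hPLc, hc.cov] with n h1 h2 h3 h4 h6 hPL h8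
  intro j s hs
  have hAn := hA n
  have hp : 0 < B.d n ^ (-(ε / 2)) := Real.rpow_pos_of_pos (B.pos n) _
  have hpv : 0 < B.d n ^ (-(g * v)) := Real.rpow_pos_of_pos (B.pos n) _
  have key : ∀ Q : Finset (ℕ × ℤ), (∀ o ∈ Q, o.2 = j) → (Q.image Prod.fst).card = Q.card := by
    intro Q hQ
    refine card_image_of_injOn fun o ho o' ho' hoo => ?_
    exact Prod.ext hoo ((hQ o ho).trans (hQ o' ho').symm)
  set Q := (P n).filter fun o => o.2 = j ∧ G2.mem n (m n) j s o.1 with hQ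
  have h5 := one_cov (G1 := G1) (G2 := G2) (T := Q.image Prod.fst)
    (D := B.d n ^ (-(ε / 2)) * (A n * B.d n ^ (-(g * v))) *
      2 ^ ((g + ε / 2) * ((m n : ℝ) - lev n v))) hK0 (by positivity)
    (h8 (m n) (h3.trans (h4.trans h6)) j s hs (Q.image Prod.fst) (fun t ht => by
      obtain ⟨o, ho, rfl⟩ := mem_image.1 ht
      exact hPL o (mem_filter.1 ho).1) (fun t ht => by
      obtain ⟨o, ho, rfl⟩ := mem_image.1 ht
      exact (mem_filter.1 ho).2.2))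
    (fun s' hs' T' hT' hmm => by
      refine le_trans ?_ (h2 j s' hs')
      have e1 : T'.card = ((T'.image fun t => (t, j)).card) := by
        rw [card_image_of_injective]
        intro a b hab
        exact (Prod.ext_iff.1 hab).1
      rw [e1]
      refine Nat.cast_le.2 (card_le_card fun o ho => ?_)
      obtain ⟨t, ht, rfl⟩ := mem_image.1 ho
      obtain ⟨o', ho', hoo⟩ := mem_image.1 (hT' ht)
      rw [hQ, mem_filter] at ho'
      have e2 : o' = (t, j) := Prod.ext hoo ho'.2.1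
      rw [mem_filter, ← e2]
      refine ⟨ho'.1, ho'.2.1, ?_⟩
      rw [e2]; exact hmm t ht) h1
  rw [key Q (fun o ho => (mem_filter.1 ho).2.1)] at h5
  have hmv : (lev n v : ℝ) ≤ m n := by exact_mod_cast h6
  have e3 : (2:ℝ) ^ ((g + ε / 2) * ((m n : ℝ) - lev n v)) ≤
      2 ^ ((g + ε) * ((m n : ℝ) - lev n v)) := by
    refine Real.rpow_le_rpow_of_exponent_le (by norm_num) ?_
    nlinarith
  have hv : 0 ≤ G2.val n (m n) j s := by
    have hX : 0 < B.d n ^ (-(ε / 2)) * (B.d n ^ (-(ε / 2)) * (A n * B.d n ^ (-(g * v))) *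
      2 ^ ((g + ε / 2) * ((m n : ℝ) - lev n v))) := by positivity
    have h9 : (0:ℝ) ≤ (Q.card : ℝ) := Nat.cast_nonneg _
    by_contra hneg
    have h10 := mul_neg_of_pos_of_neg hX (not_le.1 hneg)
    linarith
  calc ((Q.card : ℕ) : ℝ) ≤ B.d n ^ (-(ε / 2)) * (B.d n ^ (-(ε / 2)) *
        (A n * B.d n ^ (-(g * v))) * 2 ^ ((g + ε / 2) * ((m n : ℝ) - lev n v))) *
          G2.val n (m n) j s := h5
    _ ≤ B.d n ^ (-(ε / 2)) * (B.d n ^ (-(ε / 2)) * (A n * B.d n ^ (-(g * v))) *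
        2 ^ ((g + ε) * ((m n : ℝ) - lev n v))) * G2.val n (m n) j s := by gcongr
    _ = (B.d n ^ (-(ε / 2)) * B.d n ^ (-(ε / 2))) * (A n * B.d n ^ (-(g * v))) *
        2 ^ ((g + ε) * ((m n : ℝ) - lev n v)) * G2.val n (m n) j s := by ring
    _ = _ := by rw [rpow_half n (ε := ε)]

end

end Crest.Agent.R136.Lz627
end

-- ▼ part R136/Lz10_627

/-!
# R136 (S0187), U4, route G, leaf (G2) (helper627), part 10: all fields of `J1c`

* `dall36` : (DD), D-max at the marked levels for all sheets, two-sided exponents (`DAl879.DAll`).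
* `dallK36` : the same `kk` levels deeper (`DAl879.DAllK`, text of helper685).
* `OutD` : `mka`, `alld`, `sub7` (helper335), `dall`, `dall7`, `wrs`, `r0pos`, `r0log`, `vel`.
* **`out_of2`** : `XOutF TT36 Ψ ψ κ g θ`, `LinAt Ψ θ g0 p`, `LipR`, `TwoS Ψ qm qp` ⊢ `OutD`.
-/

set_option autoImplicit false
set_option linter.unusedVariables false
set_option linter.unusedSectionVars false

open Finset Filter Topology

namespace Crest.Agent.R136.Lz627

open Sh605 K4 KS879 En879 XA248 Win823 Cod289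
open Crest.Agent.R138.Ex926 (Base U exists_diag exists_tendsto ev_em)
open Crest.Agent.R138.Dp76
open Crest.Agent.R138.Mk163 (zc zl rho alive own)
open Crest.Agent.R138.MkRef627 (lc mem_alive alive_mono)
open Crest.Agent.R136.MkA627
open Crest.Agent.R116.Xa794 (TS geo)
open Crest.Agent.R116.Xc794
open Crest.Agent.R116.Zl139
open Dia770
open Yc953 (XOutF)
open Tq879 (TS36 TT36)
open AllD823 (LipR allD_P)
open XIn823
open Phc248 (ph phC phC_mono phC_nonneg)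
open DAl879 (DAll DAllK vmk)
open Pen325 (TwoS capP_twoS)

/-- two-sided capacity -/
theorem capP_phC {r : ℝ} {Ψ : ℝ → (Fin 3 → ℝ) → ℝ} {qm qp : Fin 3 → ℝ} (hΨ : TwoS Ψ qm qp)
    (mt : ℕ) (atop : Fin 3 → ℕ) (i : ℕ) (u v : Fin 3 → ℕ) :
    capP (TS36 r) Ψ mt atop i v ≤ capP (TS36 r) Ψ mt atop i u *
      phC qm qp ((1 / 2 : ℝ) ^ (u 0)) ((1 / 2 : ℝ) ^ (u 1)) ((1 / 2 : ℝ) ^ (u 2))
        ((1 / 2 : ℝ) ^ (v 0)) ((1 / 2 : ℝ) ^ (v 1)) ((1 / 2 : ℝ) ^ (v 2)) := by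
  refine (capP_twoS hΨ mt atop i u v).trans (le_of_eq ?_)
  rw [Fin.prod_univ_three]
  rfl

/-- **(DD)** in the short window. -/
theorem dall36 {B : Base} {I : ℕ → Finset (ℕ × ℝ)} {T : ℕ → TS Ln4 (Fin 3) Plk4} {r : ℕ → ℝ}
    {R : ℕ → ℕ} {L : ℕ → ℕ → Ln4} {mt : ℕ → ℕ} {atop : ℕ → Fin 3 → ℕ} {lev : ℕ → ℚ → ℕ}
    {A A2 : ℕ → ℝ} {f : ℕ → ℚ → ℕ → ℤ → ℕ} {b : ℕ → ℚ → ℕ → (Fin 3 → ℕ) × Plk4}
    {vm vm2 : ℕ → ℚ → ℝ} {w : Fin 3 → ℕ → ℚ → ℝ} {Ψ : ℝ → (Fin 3 → ℝ) → ℝ} {g g0 : ℝ}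
    {p θ qm qp : Fin 3 → ℝ} {K : ℕ → ℝ} (hTr : ∀ n, T n = TS36 (r n))
    (hT : ∀ n, Is36 (T n) (R n))
    (h : MkA B I (geoP T Ψ mt atop L) lev A (fun v => g * v) (fun v => 0 * v)
      (fun j v => θ j * (1 - v)) f b vm w)
    (h2 : MkA B I (rgK B w K (geo T p L)) lev A2 (fun v => (g + g0) * v) (fun v => 0 * v)
      (fun j v => θ j * (1 - v)) f b vm2 w)
    (hq : ∀ k, 0 ≤ qm k ∧ qm k ≤ qp k) (hΨ : TwoS Ψ qm qp)
    (vel : ∀ᶠ n in (U : Filter ℕ), ∀ x ∈ I n, ∀ i, |(L n x.1).v i| ≤ 1) :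
    DAll B I L lev A2 (g + g0) p (fun n => (1 / 2 : ℝ) ^ (R n)) w qm qp := by
  classical
  intro v h0 h1 ε hε
  have he : 0 < ε / 4 := by positivity
  filter_upwards [ev_const_le B (K0N p) he, h.dmax v h0 h1 (ε / 4) he, h.near v h0 h1 (ε / 4) he,
    h.mark v h0 h1, h2.dmax v h0 h1 (ε / 4) he, h2.mark v h0 h1, h.ne, vel]
    with n c1 c2 c3 c4 c5 c6 c7 c8
  intro j s hS hw1
  set O := (alive (I n) (lev n v) j).filter fun t =>
    InSheet (L n t) s.e s.c s.w s.q s.a (zl (lev n v) j) (rho (lev n v)) with hO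
  have hOv : ∀ t ∈ O, InSheet (L n t) s.e s.c s.w s.q s.a (zl (lev n v) j) (rho (lev n v)) ∧
      ∀ k, |(L n t).v k| ≤ 1 := by
    intro t ht
    rw [hO, mem_filter] at ht
    obtain ⟨x, hx, hx1, -⟩ := mem_alive.1 ht.1
    refine ⟨ht.2, ?_⟩
    rw [← hx1]; exact c8 x hx
  obtain ⟨s', b1, b2, -, O', d1, d2, d3⟩ := rnd36 (hT n) p hS hw1 (L n) O hOv
  -- the mark
  obtain ⟨x, hx⟩ := c7
  have hal : x.1 ∈ alive (I n) (lev n v) (zc (lev n v) x.2) := mem_alive.2 ⟨x, hx, rfl, rfl⟩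
  obtain ⟨m1, m2, m3, m4⟩ := c4 _ _ hal
  obtain ⟨n1, n2, n3, n4⟩ := c6 _ _ hal
  set mk := b n v (f n v x.1 (zc (lev n v) x.2)) with hmk
  have m3' : capP (T n) Ψ (mt n) (atop n) (lev n v) mk.1 = vm n v := m3
  have m4' : ∀ k, (1 / 2 : ℝ) ^ (mk.1 k) = w k n v := m4
  have n3' : (T n).cap p (lev n v) mk.1 = vm2 n v := n3
  have hwp : ∀ k, 0 < w k n v := fun k => by rw [← m4' k]; positivity
  -- D-max over `geoP`
  have k1 : (O'.card : ℝ) ≤ B.d n ^ (-(ε / 4)) * (A n * B.d n ^ (-(g * v))) *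
      capP (T n) Ψ (mt n) (atop n) (lev n v) s'.1 := by
    refine le_trans (Nat.cast_le.2 (card_le_card fun t ht => ?_)) (c2 j s' b1)
    have h3 := d1 ht
    rw [hO, mem_filter] at h3
    exact mem_filter.2 ⟨h3.1, d2 t ht⟩
  -- the ratio
  have hs'w : ∀ k, wd s'.2 k = (1 / 2 : ℝ) ^ (s'.1 k) := (((hT n).adm _ _ _).1 b1).2.2
  have k2 : capP (T n) Ψ (mt n) (atop n) (lev n v) s'.1 ≤ vm n v *
      phC qm qp (w 0 n v) (w 1 n v) (w 2 n v) (wd s'.2 0) (wd s'.2 1) (wd s'.2 2) := by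
    have h3 := capP_phC (r := r n) hΨ (mt n) (atop n) (lev n v) mk.1 s'.1
    rw [← hTr n, m3', m4', m4', m4', ← hs'w 0, ← hs'w 1, ← hs'w 2] at h3
    exact h3
  have hp0 : ∀ k, 0 ≤ wd s'.2 k := fun k => by rw [hs'w]; positivity
  have k3 : phC qm qp (w 0 n v) (w 1 n v) (w 2 n v) (wd s'.2 0) (wd s'.2 1) (wd s'.2 2) ≤
      phC qm qp (w 0 n v) (w 1 n v) (w 2 n v) s.a (s.w 1) (s.w 2) :=
    phC_mono (fun k => (hq k).1) (fun k => (hq k).1.trans (hq k).2) (hwp 0).le (hwp 1).le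
      (hwp 2).le (hp0 0) (hp0 1) (hp0 2) (b2 0).1 (b2 1).1 (b2 2).1
  have pC0 : 0 ≤ phC qm qp (w 0 n v) (w 1 n v) (w 2 n v) (wd s'.2 0) (wd s'.2 1) (wd s'.2 2) :=
    phC_nonneg (hwp 0).le (hwp 1).le (hwp 2).le (hp0 0) (hp0 1) (hp0 2)
  -- the amplitudes
  have k4 : A n * B.d n ^ (-(g * v)) * vm n v ≤ B.d n ^ (-(ε / 4)) *
      (B.d n ^ (-(ε / 4)) * (A2 n * B.d n ^ (-((g + g0) * v))) * vm2 n v) := by
    refine (c3 _ _ hal).trans (mul_le_mul_of_nonneg_left ?_ (dpow_pos B n _).le)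
    have h3 := c5 _ mk n2
    have e3 : (rgK B w K (geo T p L)).val n (lev n v) (zc (lev n v) x.2) mk = vm2 n v := n3
    rw [e3] at h3
    refine le_trans (Nat.cast_le.2 (card_le_card fun t ht => ?_)) h3
    rw [mem_filter] at ht
    refine mem_filter.2 ⟨ht.1, ?_⟩
    have h4 := (c6 _ _ ht.1).1
    rw [ht.2] at h4
    exact h4
  have hvmk : vmk p (rho (lev n v)) (w 0 n v) (w 1 n v) (w 2 n v) = vm2 n v := by
    have hmw : ∀ k, wd mk.2 k = (1 / 2 : ℝ) ^ (mk.1 k) := (((hT n).adm _ _ _).1 m2).2.2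
    have h3 := cap36 (hT n) p (lev n v) (s := mk) hmw
    rw [n3'] at h3
    rw [← h3]
    have e0 : mk.2.a = w 0 n v := (hmw 0).trans (m4' 0)
    have e1 : mk.2.w 1 = w 1 n v := (hmw 1).trans (m4' 1)
    have e2 : mk.2.w 2 = w 2 n v := (hmw 2).trans (m4' 2)
    unfold vmk
    rw [e0, e1, e2]
  have pA : 0 < A n * B.d n ^ (-(g * v)) := mul_pos (h.Apos n) (dpow_pos B n _)
  have pd := dpow_pos B n (-(ε / 4))
  have pA2 : 0 < A2 n * B.d n ^ (-((g + g0) * v)) := mul_pos (h2.Apos n) (dpow_pos B n _)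
  have pv2 : 0 < vm2 n v := by rw [← n3']; exact cap_pos _ _ _ _
  have pvm : 0 < vm n v := by
    rw [← m3']
    unfold capP
    exact mul_pos ((T n).volpos _ _) (Real.rpow_pos_of_pos two_pos _)
  have pK : 0 < K0N p := lt_of_lt_of_le one_pos (K0N_ge p)
  set X := phC qm qp (w 0 n v) (w 1 n v) (w 2 n v) s.a (s.w 1) (s.w 2) with hX
  have pX : 0 ≤ X := pC0.trans k3
  rw [hvmk]
  calc (O.card : ℝ) ≤ K0N p * (O'.card : ℝ) := d3
    _ ≤ B.d n ^ (-(ε / 4)) * (B.d n ^ (-(ε / 4)) * (A n * B.d n ^ (-(g * v))) * (vm n v * X)) := by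
        refine mul_le_mul c1 ?_ (Nat.cast_nonneg _) pd.le
        refine k1.trans (mul_le_mul_of_nonneg_left ?_ (by positivity))
        exact k2.trans (mul_le_mul_of_nonneg_left k3 pvm.le)
    _ = B.d n ^ (-(ε / 4)) * B.d n ^ (-(ε / 4)) * X * (A n * B.d n ^ (-(g * v)) * vm n v) := by
        ring
    _ ≤ B.d n ^ (-(ε / 4)) * B.d n ^ (-(ε / 4)) * X * (B.d n ^ (-(ε / 4)) *
          (B.d n ^ (-(ε / 4)) * (A2 n * B.d n ^ (-((g + g0) * v))) * vm2 n v)) :=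
        mul_le_mul_of_nonneg_left k4 (by positivity)
    _ = (B.d n ^ (-(ε / 4)) * B.d n ^ (-(ε / 4)) * (B.d n ^ (-(ε / 4)) * B.d n ^ (-(ε / 4)))) *
          (A2 n * B.d n ^ (-((g + g0) * v)) * vm2 n v) * X := by ring
    _ = _ := by
        rw [← dpow_add, ← dpow_add]
        congr 3
        ring

/-- the capacity of the same shape `k` levels deeper. -/
theorem capP_level {T : TS Ln4 (Fin 3) Plk4} {R : ℕ} (hT : Is36 T R)
    {Ψ : ℝ → (Fin 3 → ℝ) → ℝ} {Kl : ℝ} (hKl : 0 ≤ Kl) (hΨ : LipR Ψ Kl) {mt l k : ℕ}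
    (h : l + k ≤ mt) (atop : Fin 3 → ℕ) (u : Fin 3 → ℕ) :
    capP T Ψ mt atop (l + k) u ≤ (2 : ℝ) ^ (Kl * (4 * k)) * capP T Ψ mt atop l u := by
  have h1 : ((l + k : ℕ) : ℝ) ≤ mt := by exact_mod_cast h
  have h1' : (l : ℝ) + k ≤ mt := by push_cast at h1; exact h1
  have hk : (0 : ℝ) ≤ k := Nat.cast_nonneg _
  have h2 := hΨ ((mt : ℝ) - l) ((mt : ℝ) - (l + k : ℕ)) (rel l u mt atop) (rel (l + k) u mt atop)
    (by linarith) (by linarith)
  have e1 : ((mt : ℝ) - l) - ((mt : ℝ) - (l + k : ℕ)) = k := by push_cast; ring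
  have e2 : ∀ j, rel l u mt atop j - rel (l + k) u mt atop j = k := fun j => by
    unfold rel; push_cast; ring
  simp only [e1, e2] at h2
  rw [Fin.sum_univ_three, abs_of_nonneg hk] at h2
  have e3 : Kl * ((k : ℝ) + (k + k + k)) = Kl * (4 * k) := by ring
  rw [e3] at h2
  have h3 := (abs_le.1 h2).2
  have hv : T.vol (l + k) u = T.vol l u := by rw [hT.vol, hT.vol]
  unfold capP
  rw [hv]
  have h4 : (2 : ℝ) ^ (-(Ψ ((mt : ℝ) - (l + k : ℕ)) (rel (l + k) u mt atop))) ≤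
      (2 : ℝ) ^ (Kl * (4 * k)) * (2 : ℝ) ^ (-(Ψ ((mt : ℝ) - l) (rel l u mt atop))) := by
    rw [← Real.rpow_add two_pos]
    refine Real.rpow_le_rpow_of_exponent_le (by norm_num) ?_
    linarith
  calc T.vol l u * (2 : ℝ) ^ (-(Ψ ((mt : ℝ) - (l + k : ℕ)) (rel (l + k) u mt atop)))
      ≤ T.vol l u * ((2 : ℝ) ^ (Kl * (4 * k)) *
          (2 : ℝ) ^ (-(Ψ ((mt : ℝ) - l) (rel l u mt atop)))) :=
        mul_le_mul_of_nonneg_left h4 (T.volpos l u).le
    _ = _ := by ring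

open Classical in
/-- **(DD) one constant deeper**, helper685's `dall7`. -/
theorem dallK36 {B : Base} {I Ib : ℕ → Finset (ℕ × ℝ)} {T : ℕ → TS Ln4 (Fin 3) Plk4} {r : ℕ → ℝ}
    {R : ℕ → ℕ} {L : ℕ → ℕ → Ln4} {mt : ℕ → ℕ} {atop : ℕ → Fin 3 → ℕ} {lev : ℕ → ℚ → ℕ}
    {A A2 : ℕ → ℝ} {f : ℕ → ℚ → ℕ → ℤ → ℕ} {b : ℕ → ℚ → ℕ → (Fin 3 → ℕ) × Plk4}
    {vm vm2 : ℕ → ℚ → ℝ} {w : Fin 3 → ℕ → ℚ → ℝ} {Ψ : ℝ → (Fin 3 → ℝ) → ℝ} {g g0 Kl : ℝ}
    {p θ qm qp : Fin 3 → ℝ} {K : ℕ → ℝ} {kk : ℕ} (hTr : ∀ n, T n = TS36 (r n))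
    (hT : ∀ n, Is36 (T n) (R n))
    (h : MkA B I (geoP T Ψ mt atop L) lev A (fun v => g * v) (fun v => 0 * v)
      (fun j v => θ j * (1 - v)) f b vm w)
    (h2 : MkA B I (rgK B w K (geo T p L)) lev A2 (fun v => (g + g0) * v) (fun v => 0 * v)
      (fun j v => θ j * (1 - v)) f b vm2 w)
    (hKl : 0 ≤ Kl) (hL : LipR Ψ Kl) (hq : ∀ k, 0 ≤ qm k ∧ qm k ≤ qp k) (hΨ : TwoS Ψ qm qp)
    (vel : ∀ᶠ n in (U : Filter ℕ), ∀ x ∈ I n, ∀ i, |(L n x.1).v i| ≤ 1)
    (hIb : ∀ᶠ n in (U : Filter ℕ), I n ⊆ Ib n)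
    (hmt : ∀ᶠ n in (U : Filter ℕ), lev n 1 + kk ≤ mt n)
    (hX : ∀ ε : ℝ, 0 < ε → ∀ᶠ n in (U : Filter ℕ), ∀ i : ℕ, lev n 0 ≤ i →
      i ≤ lev n 1 + kk → ∀ (J : ℤ) (s : (Fin 3 → ℕ) × Plk4), (geoP T Ψ mt atop L).adm n i J s →
        (((alive (Ib n) i J).filter fun t => (geoP T Ψ mt atop L).mem n i J s t).card : ℝ) ≤
          B.d n ^ (-ε) * (A n * 2 ^ (g * ((i : ℝ) - lev n 0))) *
            (geoP T Ψ mt atop L).val n i J s) :
    DAllK kk B I L lev A2 (g + g0) p (fun n => (1 / 2 : ℝ) ^ (R n)) w qm qp := by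
  intro v h0 h1 ε hε
  have he : 0 < ε / 8 := by positivity
  refine ⟨fun n => (I n).image (lc (lev n v + kk)), Eventually.of_forall fun n x hx =>
    ⟨zc (lev n v + kk) x.2, ?_, mem_image.2 ⟨x, hx, rfl⟩⟩, ?_⟩
  · rw [zc_div (Nat.le_add_right (lev n v) kk) x.2, Nat.add_sub_cancel_left]
  have hlv : Tendsto (fun n => ((lev n v : ℝ) - lev n 0) * Real.log 2 / B.L n) U (𝓝 (v : ℝ)) := by
    have h3 := h.lev_lim 0 v le_rfl h0 h1
    push_cast at h3
    rw [sub_zero] at h3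
    exact h3
  have e1 : ∀ᶠ n in (U : Filter ℕ), |((lev n v : ℝ) - lev n 0) * Real.log 2 / B.L n - v| ≤
      (ε / 8) / (|g| + 1) := by
    have h4 := (hlv.sub_const (v : ℝ)).abs
    rw [sub_self, abs_zero] at h4
    exact h4.eventually (eventually_le_nhds (by positivity))
  filter_upwards [ev_const_le B (K0N p) he,
    ev_const_le B ((2 : ℝ) ^ (Kl * (4 * kk)) * 2 ^ (g * kk)) he, hX (ε / 8) he,
    h.near v h0 h1 (ε / 8) he,
    h.mark v h0 h1, h2.dmax v h0 h1 (ε / 8) he, h2.mark v h0 h1, h.ne, vel, hIb, hmt,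
    h.lev_mono 0 v le_rfl h0 h1, h.lev_mono v 1 h0 h1 le_rfl, e1]
    with n c1 c1' c2 c3 c4 c5 c6 c7 c8 c9 c10 c11 c12 c13
  intro j s hS hw1
  set i : ℕ := lev n v + kk with hi
  set P : Finset (ℕ × ℤ) := (I n).image (lc i) with hP
  set O0 := P.filter fun o => o.2 = j ∧
    InSheet (L n o.1) s.e s.c s.w s.q s.a (zl i j) (rho i) with hO0
  set O := O0.image Prod.fst with hO
  have hcard : O0.card = O.card := by
    refine (card_image_of_injOn fun o ho o' ho' hoo => ?_).symm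
    exact Prod.ext hoo ((mem_filter.1 ho).2.1.trans (mem_filter.1 ho').2.1.symm)
  have hOm : ∀ t ∈ O, (∃ x ∈ I n, x.1 = t ∧ zc i x.2 = j) ∧
      InSheet (L n t) s.e s.c s.w s.q s.a (zl i j) (rho i) := by
    intro t ht
    obtain ⟨o, ho, rfl⟩ := mem_image.1 ht
    obtain ⟨ho1, ho2, ho3⟩ := mem_filter.1 ho
    obtain ⟨x, hx, hxo⟩ := mem_image.1 ho1
    exact ⟨⟨x, hx, (Prod.ext_iff.1 hxo).1, (Prod.ext_iff.1 hxo).2.trans ho2⟩, ho3⟩
  have hOv : ∀ t ∈ O, InSheet (L n t) s.e s.c s.w s.q s.a (zl i j) (rho i) ∧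
      ∀ k, |(L n t).v k| ≤ 1 := by
    intro t ht
    obtain ⟨⟨x, hx, hx1, -⟩, h4⟩ := hOm t ht
    refine ⟨h4, ?_⟩
    rw [← hx1]; exact c8 x hx
  obtain ⟨s', b1, b2, -, O', d1, d2, d3⟩ := rnd36 (hT n) p hS hw1 (L n) O hOv
  -- the mark
  obtain ⟨x, hx⟩ := c7
  have hal : x.1 ∈ alive (I n) (lev n v) (zc (lev n v) x.2) := mem_alive.2 ⟨x, hx, rfl, rfl⟩
  obtain ⟨m1, m2, m3, m4⟩ := c4 _ _ hal
  obtain ⟨n1, n2, n3, n4⟩ := c6 _ _ hal
  set mk := b n v (f n v x.1 (zc (lev n v) x.2)) with hmk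
  have m3' : capP (T n) Ψ (mt n) (atop n) (lev n v) mk.1 = vm n v := m3
  have m4' : ∀ k, (1 / 2 : ℝ) ^ (mk.1 k) = w k n v := m4
  have n3' : (T n).cap p (lev n v) mk.1 = vm2 n v := n3
  have hwp : ∀ k, 0 < w k n v := fun k => by rw [← m4' k]; positivity
  -- D-max of the big sequence at level `i`
  have hi0 : lev n 0 ≤ i := c11.trans (Nat.le_add_right _ _)
  have hi1 : i ≤ lev n 1 + kk := Nat.add_le_add_right c12 _
  have k1 : (O'.card : ℝ) ≤ B.d n ^ (-(ε / 8)) * (A n * 2 ^ (g * ((i : ℝ) - lev n 0))) *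
      capP (T n) Ψ (mt n) (atop n) i s'.1 := by
    refine le_trans (Nat.cast_le.2 (card_le_card fun t ht => ?_)) (c2 i hi0 hi1 j s' b1)
    obtain ⟨⟨y, hy, hy1, hy2⟩, -⟩ := hOm t (d1 ht)
    exact mem_filter.2 ⟨mem_alive.2 ⟨y, c9 hy, hy1, hy2⟩, d2 t ht⟩
  -- the ratio
  have hs'w : ∀ k, wd s'.2 k = (1 / 2 : ℝ) ^ (s'.1 k) := (((hT n).adm _ _ _).1 b1).2.2
  have hp0 : ∀ k, 0 ≤ wd s'.2 k := fun k => by rw [hs'w]; positivity
  have pC0 : 0 ≤ phC qm qp (w 0 n v) (w 1 n v) (w 2 n v) (wd s'.2 0) (wd s'.2 1) (wd s'.2 2) :=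
    phC_nonneg (hwp 0).le (hwp 1).le (hwp 2).le (hp0 0) (hp0 1) (hp0 2)
  have pvm : 0 < vm n v := by
    rw [← m3']
    unfold capP
    exact mul_pos ((T n).volpos _ _) (Real.rpow_pos_of_pos two_pos _)
  have k2 : capP (T n) Ψ (mt n) (atop n) i s'.1 ≤ ((2 : ℝ) ^ (Kl * (4 * kk)) * vm n v) *
      phC qm qp (w 0 n v) (w 1 n v) (w 2 n v) (wd s'.2 0) (wd s'.2 1) (wd s'.2 2) := by
    have h3 := capP_phC (r := r n) hΨ (mt n) (atop n) i mk.1 s'.1
    rw [← hTr n, m4', m4', m4', ← hs'w 0, ← hs'w 1, ← hs'w 2] at h3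
    refine h3.trans (mul_le_mul_of_nonneg_right ?_ pC0)
    rw [← m3']
    exact capP_level (hT n) hKl hL ((Nat.add_le_add_right c12 _).trans c10) (atop n) mk.1
  have k3 : phC qm qp (w 0 n v) (w 1 n v) (w 2 n v) (wd s'.2 0) (wd s'.2 1) (wd s'.2 2) ≤
      phC qm qp (w 0 n v) (w 1 n v) (w 2 n v) s.a (s.w 1) (s.w 2) :=
    phC_mono (fun k => (hq k).1) (fun k => (hq k).1.trans (hq k).2) (hwp 0).le (hwp 1).le
      (hwp 2).le (hp0 0) (hp0 1) (hp0 2) (b2 0).1 (b2 1).1 (b2 2).1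
  -- the amplitudes
  have k4 : A n * B.d n ^ (-(g * v)) * vm n v ≤ B.d n ^ (-(ε / 8)) *
      (B.d n ^ (-(ε / 8)) * (A2 n * B.d n ^ (-((g + g0) * v))) * vm2 n v) := by
    refine (c3 _ _ hal).trans (mul_le_mul_of_nonneg_left ?_ (dpow_pos B n _).le)
    have h3 := c5 _ mk n2
    have e3 : (rgK B w K (geo T p L)).val n (lev n v) (zc (lev n v) x.2) mk = vm2 n v := n3
    rw [e3] at h3
    refine le_trans (Nat.cast_le.2 (card_le_card fun t ht => ?_)) h3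
    rw [mem_filter] at ht
    refine mem_filter.2 ⟨ht.1, ?_⟩
    have h4 := (c6 _ _ ht.1).1
    rw [ht.2] at h4
    exact h4
  have hvmk : vmk p (rho (lev n v)) (w 0 n v) (w 1 n v) (w 2 n v) = vm2 n v := by
    have hmw : ∀ k, wd mk.2 k = (1 / 2 : ℝ) ^ (mk.1 k) := (((hT n).adm _ _ _).1 m2).2.2
    have h3 := cap36 (hT n) p (lev n v) (s := mk) hmw
    rw [n3'] at h3
    rw [← h3]
    have e0 : mk.2.a = w 0 n v := (hmw 0).trans (m4' 0)
    have e1 : mk.2.w 1 = w 1 n v := (hmw 1).trans (m4' 1)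
    have e2 : mk.2.w 2 = w 2 n v := (hmw 2).trans (m4' 2)
    unfold vmk
    rw [e0, e1, e2]
  -- the level
  have k5 : (2 : ℝ) ^ (g * ((i : ℝ) - lev n 0)) ≤
      2 ^ (g * kk) * (B.d n ^ (-(ε / 8)) * B.d n ^ (-(g * v))) := by
    have z1 := two_d B n (g := g) c13
    have z2 : g * ((i : ℝ) - lev n 0) = g * kk + g * ((lev n v : ℝ) - lev n 0) := by
      rw [hi]; push_cast; ring
    rw [z2, Real.rpow_add two_pos]
    refine mul_le_mul_of_nonneg_left (z1.trans ?_) (Real.rpow_pos_of_pos two_pos _).le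
    rw [← dpow_add]
    refine dpow_le B n ?_
    have z4 : |g| * ((ε / 8) / (|g| + 1)) = (|g| / (|g| + 1)) * (ε / 8) := by field_simp
    have z5 : |g| / (|g| + 1) ≤ 1 := by
      rw [div_le_one (by positivity)]; linarith
    have z6 := mul_le_mul_of_nonneg_right z5 he.le
    rw [z4]
    linarith
  have pA := h.Apos n
  have pd := dpow_pos B n (-(ε / 8))
  have pdv := dpow_pos B n (-(g * v))
  have pA2 : 0 < A2 n * B.d n ^ (-((g + g0) * v)) := mul_pos (h2.Apos n) (dpow_pos B n _)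
  have pv2 : 0 < vm2 n v := by rw [← n3']; exact cap_pos _ _ _ _
  have p2g : (0:ℝ) < 2 ^ (g * kk) := Real.rpow_pos_of_pos two_pos _
  have p2l : (0:ℝ) < 2 ^ (Kl * (4 * kk)) := Real.rpow_pos_of_pos two_pos _
  set X := phC qm qp (w 0 n v) (w 1 n v) (w 2 n v) s.a (s.w 1) (s.w 2) with hXd
  have pX : 0 ≤ X := pC0.trans k3
  rw [hvmk, hcard]
  calc (O.card : ℝ) ≤ K0N p * (O'.card : ℝ) := d3
    _ ≤ B.d n ^ (-(ε / 8)) * (B.d n ^ (-(ε / 8)) * (A n * (2 ^ (g * kk) *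
          (B.d n ^ (-(ε / 8)) * B.d n ^ (-(g * v))))) * (2 ^ (Kl * (4 * kk)) * vm n v * X)) := by
        refine mul_le_mul c1 ?_ (Nat.cast_nonneg _) pd.le
        refine k1.trans ?_
        have q1 : B.d n ^ (-(ε / 8)) * (A n * 2 ^ (g * ((i : ℝ) - lev n 0))) ≤
            B.d n ^ (-(ε / 8)) * (A n * (2 ^ (g * kk) *
              (B.d n ^ (-(ε / 8)) * B.d n ^ (-(g * v))))) :=
          mul_le_mul_of_nonneg_left (mul_le_mul_of_nonneg_left k5 pA.le) pd.le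
        have q2 : capP (T n) Ψ (mt n) (atop n) i s'.1 ≤ 2 ^ (Kl * (4 * kk)) * vm n v * X :=
          k2.trans (mul_le_mul_of_nonneg_left k3 (by positivity))
        have q3 : 0 ≤ capP (T n) Ψ (mt n) (atop n) i s'.1 := by
          unfold capP
          exact (mul_pos ((T n).volpos _ _) (Real.rpow_pos_of_pos two_pos _)).le
        exact mul_le_mul q1 q2 q3 (by positivity)
    _ = B.d n ^ (-(ε / 8)) * B.d n ^ (-(ε / 8)) * B.d n ^ (-(ε / 8)) * X *
          (2 ^ (Kl * (4 * kk)) * 2 ^ (g * kk)) * (A n * B.d n ^ (-(g * v)) * vm n v) := by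
        ring
    _ ≤ B.d n ^ (-(ε / 8)) * B.d n ^ (-(ε / 8)) * B.d n ^ (-(ε / 8)) * X *
          B.d n ^ (-(ε / 8)) * (B.d n ^ (-(ε / 8)) *
          (B.d n ^ (-(ε / 8)) * (A2 n * B.d n ^ (-((g + g0) * v))) * vm2 n v)) := by
        refine mul_le_mul (mul_le_mul_of_nonneg_left c1' (by positivity)) k4 (by positivity)
          (by positivity)
    _ = (B.d n ^ (-(ε / 8)) * B.d n ^ (-(ε / 8)) * (B.d n ^ (-(ε / 8)) * B.d n ^ (-(ε / 8))) *
          (B.d n ^ (-(ε / 8)) * B.d n ^ (-(ε / 8)))) *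
          (A2 n * B.d n ^ (-((g + g0) * v)) * vm2 n v) * X := by ring
    _ ≤ _ := by
        refine mul_le_mul_of_nonneg_right (mul_le_mul_of_nonneg_right ?_ (by positivity)) pX
        rw [← dpow_add, ← dpow_add, ← dpow_add]
        exact dpow_le B n (by linarith)

/-- **the output** : all fields of `J1c` except the parameter inequalities. -/
structure OutD (B : Base) (I : ℕ → Finset (ℕ × ℝ)) (L : ℕ → ℕ → Ln4) (r0 : ℕ → ℝ)
    (wr cr : Fin 3 → ℕ → ℝ) (lev : ℕ → ℚ → ℕ) (A : ℕ → ℝ) (f : ℕ → ℚ → ℕ → ℤ → ℕ)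
    (b : ℕ → ℚ → ℕ → Plk4) (vm : ℕ → ℚ → ℝ) (w : Fin 3 → ℕ → ℚ → ℝ) (p θ : Fin 3 → ℝ) (g : ℝ)
    (qm qp : Fin 3 → ℝ) : Prop where
  mka : MkA B I (geoR L r0 wr cr p) lev A (fun v => g * v) (fun v => 0 * v)
    (fun j v => θ j * (1 - v)) f b vm w
  alld : AllD B I (geoR L r0 wr cr p) lev A g
  sub7 : SubB B I (geoR L r0 wr cr p) lev A g 1 7
  dall : DAll B I L lev A g p r0 w qm qp
  dall7 : DAllK 7 B I L lev A g p r0 w qm qp
  wrs : ∀ (C : ℝ) (k : Fin 3) (v : ℚ), 0 ≤ v → v ≤ 1 → ∀ᶠ n in (U : Filter ℕ),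
    wr k n ≤ B.d n ^ C * w k n v ∧ w k n v ≤ B.d n ^ C * cr k n
  r0pos : ∀ n, 0 < r0 n
  r0log : ∀ ε : ℝ, 0 < ε → ∀ᶠ n in (U : Filter ℕ), Real.log (1 / r0 n) ≤ B.d n ^ (-ε)
  vel : ∀ᶠ n in (U : Filter ℕ), ∀ x ∈ I n, ∀ i, |(L n x.1).v i| ≤ 1

open Classical in
/-- **the end of the chain** -/
theorem outD_of {B : Base} {I : ℕ → Finset (ℕ × ℝ)} {T : ℕ → TS Ln4 (Fin 3) Plk4} {r : ℕ → ℝ}
    {R : ℕ → ℕ} {L : ℕ → ℕ → Ln4} {mt : ℕ → ℕ} {atop : ℕ → Fin 3 → ℕ} {N : ℕ → ℕ}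
    {lev : ℕ → ℚ → ℕ}
    {A E A2 : ℕ → ℝ} {f : ℕ → ℚ → ℕ → ℤ → ℕ} {b : ℕ → ℚ → ℕ → (Fin 3 → ℕ) × Plk4}
    {vm vm2 : ℕ → ℚ → ℝ} {w : Fin 3 → ℕ → ℚ → ℝ} {Ψ : ℝ → (Fin 3 → ℝ) → ℝ} {g g0 : ℝ}
    {p θ qm qp : Fin 3 → ℝ} {K K1 : ℕ → ℝ} (hTr : ∀ n, T n = TS36 (r n))
    (hT : ∀ n, Is36 (T n) (R n))
    (hN : ∀ n i J s, (T n).adm i J s → ∀ j, s.1 j ≤ N n)
    (hNd : ∀ ε : ℝ, 0 < ε → ∀ᶠ n in (U : Filter ℕ), (N n : ℝ) ≤ B.d n ^ (-ε))
    (h : MkA B I (geoP T Ψ mt atop L) lev A (fun v => g * v) (fun v => 0 * v)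
      (fun j v => θ j * (1 - v)) f b vm w)
    (hE : ∀ n, 0 < E n) (hA2 : ∀ n, A2 n = A n * E n)
    (hcmp : Cmp B T Ψ mt atop lev w p g0 E K1) (hK1 : Tendsto K1 U atTop)
    (hK : Tendsto K U atTop) (hKK1 : ∀ᶠ n in (U : Filter ℕ), K n ≤ K1 n)
    (h2 : MkA B I (rgK B w K (geo T p L)) lev A2 (fun v => (g + g0) * v) (fun v => 0 * v)
      (fun j v => θ j * (1 - v)) f b vm2 w)
    (hAll : AllD B I (geoP T Ψ mt atop L) lev A g)
    {P : ℕ → Finset (ℕ × ℤ)}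
    (hPI : ∀ᶠ n in (U : Filter ℕ), ∀ x ∈ I n, ∃ j : ℤ, j / 2 ^ 7 = zc (lev n 1) x.2 ∧
      (x.1, j) ∈ P n)
    (hPc : ∀ᶠ n in (U : Filter ℕ), ∀ o ∈ P n, o.1 ∈ (I n).image Prod.fst)
    (hP : ∀ ε : ℝ, 0 < ε →
      PBody B (geoP T Ψ mt atop L) lev A g 1 (fun n => lev n 1 + 7) P ε)
    {Kl : ℝ} (hKl : 0 ≤ Kl) (hLip : LipR Ψ Kl) {Ib : ℕ → Finset (ℕ × ℝ)}
    (hIb : ∀ᶠ n in (U : Filter ℕ), I n ⊆ Ib n)
    (hmt : ∀ᶠ n in (U : Filter ℕ), lev n 1 + 7 ≤ mt n)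
    (hX7 : ∀ ε : ℝ, 0 < ε → ∀ᶠ n in (U : Filter ℕ), ∀ i : ℕ, lev n 0 ≤ i →
      i ≤ lev n 1 + 7 → ∀ (J : ℤ) (s : (Fin 3 → ℕ) × Plk4), (geoP T Ψ mt atop L).adm n i J s →
        (((alive (Ib n) i J).filter fun t => (geoP T Ψ mt atop L).mem n i J s t).card : ℝ) ≤
          B.d n ^ (-ε) * (A n * 2 ^ (g * ((i : ℝ) - lev n 0))) *
            (geoP T Ψ mt atop L).val n i J s)
    (hq : ∀ k, 0 ≤ qm k ∧ qm k ≤ qp k) (hΨ : TwoS Ψ qm qp) :
    OutD B I L (fun n => (1 / 2 : ℝ) ^ (R n)) (fun k n => B.d n ^ (K n - 1) * w k n 1)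
      (fun k n => B.d n ^ (-(K n - 1)) * w k n 1) lev A2 f (fun n v i => (b n v i).2) vm2 w p θ
      (g + g0) qm qp := by
  classical
  have hA2' : A2 = fun n => A n * E n := funext hA2
  have vel : ∀ᶠ n in (U : Filter ℕ), ∀ x ∈ I n, ∀ i, |(L n x.1).v i| ≤ 1 :=
    all_of_mem (P := fun n t => ∀ i, |(L n t).v i| ≤ 1) h
      (fun n i J s t hm => (((hT n).mem i J s (L n t)).1 hm).2)
  have hwp : ∀ᶠ n in (U : Filter ℕ), ∀ k, 0 < w k n 1 := by
    rw [Filter.eventually_all]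
    exact fun k => h.wpos k 1 zero_le_one le_rfl
  set Lc : ℕ → Finset ℕ := fun n => (I n).image Prod.fst with hLc
  have hv : ∀ᶠ n in (U : Filter ℕ), ∀ t ∈ Lc n, ∀ k, |(L n t).v k| ≤ 1 := by
    filter_upwards [vel] with n hn t ht
    obtain ⟨x, hx, rfl⟩ := mem_image.1 ht
    exact hn x hx
  have hLI : ∀ᶠ n in (U : Filter ℕ), ∀ x ∈ I n, x.1 ∈ Lc n :=
    Eventually.of_forall fun n x hx => mem_image_of_mem _ hx
  have hcov := cov36 (B := B) (L := L) (p := p) (w := w) (K := K) hT (Lc := Lc) hv hwp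
  have hK0 : 1 ≤ K0N p := K0N_ge p
  have hlo : ∀ᶠ n in (U : Filter ℕ), (fun _ : ℕ => 0) n ≤ lev n 0 :=
    Eventually.of_forall fun n => Nat.zero_le _
  have hl1 : Tendsto (fun n => ((lev n 1 : ℝ) - lev n 0) * Real.log 2 / B.L n) U (𝓝 1) := by
    have h1 := h.lev_lim 0 1 le_rfl zero_le_one le_rfl
    push_cast at h1
    rw [sub_zero] at h1
    exact h1
  have hKm : Tendsto (fun n => K n - 1) U atTop := tendsto_atTop_add_const_right _ _ hK
  refine
    { mka := mkA_cov hcov hK0 hLI hlo h2 (fun v h0 h1 => mark36 hT hK rfl h2 v h0 h1)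
      alld := ?_
      sub7 := ?_
      dall := dall36 hTr hT h h2 hq hΨ vel
      dall7 := dallK36 hTr hT h h2 hKl hLip hq hΨ vel hIb hmt hX7
      wrs := ?_
      r0pos := fun n => by positivity
      r0log := ?_
      vel := vel }
  · have h3 := allD_lin hcmp hE h.Apos hK1 hKK1 hwp hl1 hAll
    rw [← hA2'] at h3
    exact allD_cov hcov hK0 hLI hlo h2.Apos h3
  · refine subB_of (P := P) hPI fun ε hε => ?_
    have h3 := hP (ε / 2 / 3) (by positivity)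
    have hl1' : Tendsto (fun n => ((lev n 1 : ℝ) - lev n 0) * Real.log 2 / B.L n) U
        (𝓝 ((1 : ℚ) : ℝ)) := by
      rw [Rat.cast_one]; exact hl1
    have h4 := pbody_lin hcmp hE h.Apos hK1 hKK1 hwp (v := 1) hl1 hl1'
      (h.lev_mono 0 1 le_rfl zero_le_one le_rfl)
      (m := fun n => lev n 1 + 7) (Eventually.of_forall fun n => Nat.le_add_right _ _)
      (C := 7) (by
        filter_upwards [B.ev_L_ge 1] with n hn
        push_cast
        linarith) (ε := ε / 2) (by positivity) h3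
    rw [← hA2'] at h4
    exact pbody_cov hcov hK0 hlo (fun v h0 h1 => h.lev_mono 0 v le_rfl h0 h1) h2.Apos
      zero_le_one le_rfl (Eventually.of_forall fun n => Nat.le_add_right _ _) hPc hε h4
  · intro C k v h0 h1
    exact rng_of h2 hKm C k v h0 h1
  · refine log_r_of hNd ?_
    filter_upwards [exists_adm h 1 zero_le_one le_rfl] with n hn
    obtain ⟨J, s, hs⟩ := hn
    have h3 : R n ≤ N n := res_le (hT n) (hN n) hs
    have h4 : (1 / 2 : ℝ) ^ (N n) ≤ (1 / 2 : ℝ) ^ (R n) :=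
      pow_le_pow_of_le_one (by norm_num) (by norm_num) h3
    have h5 : (0:ℝ) < (1 / 2 : ℝ) ^ (R n) := by positivity
    exact ⟨h5, by linarith⟩

/-- **(G2)** from the output of the pure penalty to all data of `J1c`. -/
theorem out_of2 {Ψ ψ : ℝ → (Fin 3 → ℝ) → ℝ} {κ g g0 Kl : ℝ} {θ p qm qp : Fin 3 → ℝ}
    (hX : XOutF TT36 Ψ ψ κ g θ) (hl : LinAt Ψ θ g0 p) (hg : 0 ≤ g) (hKl : 0 ≤ Kl)
    (hΨ : LipR Ψ Kl) (hq : ∀ k, 0 ≤ qm k ∧ qm k ≤ qp k) (h2s : TwoS Ψ qm qp) :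
    ∃ (B : Base) (I : ℕ → Finset (ℕ × ℝ)) (L : ℕ → ℕ → Ln4) (r0 : ℕ → ℝ)
      (wr cr : Fin 3 → ℕ → ℝ) (lev : ℕ → ℚ → ℕ) (A : ℕ → ℝ) (f : ℕ → ℚ → ℕ → ℤ → ℕ)
      (b : ℕ → ℚ → ℕ → Plk4) (vm : ℕ → ℚ → ℝ) (w : Fin 3 → ℕ → ℚ → ℝ),
      OutD B I L r0 wr cr lev A f b vm w p θ (g + g0) qm qp := by
  classical
  obtain ⟨B, I, T0, L, lev, A, f, b, vm, w, atop, N, a, hT0, hN0, hNd, -, hM0, ha1, hwa, -,
    hadm⟩ := hX
  choose r hr0 hTr using hT0
  -- the resolutions are at most one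
  set T : ℕ → TS Ln4 (Fin 3) Plk4 := fun n => TS36 (min (r n) 1) with hTdef
  have hr1 : ∀ᶠ n in (U : Filter ℕ), r n ≤ 1 := by
    filter_upwards [hadm 1 zero_le_one le_rfl] with n hn
    obtain ⟨J, s, hs, -⟩ := hn
    rw [hTr n] at hs
    exact ((adm36_le hs) 0).1.trans ((adm36_le hs) 0).2
  have hTT : ∀ᶠ n in (U : Filter ℕ), T0 n = T n := by
    filter_upwards [hr1] with n hn
    rw [hTr n, hTdef]
    simp only [min_eq_left hn]
  have hmin : ∀ n, 0 < min (r n) 1 := fun n => lt_min (hr0 n) one_pos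
  have hTT36 : ∀ n, T n ∈ TT36 := fun n => ⟨min (r n) 1, hmin n, rfl⟩
  choose R hR using fun n => is36_TS36 (hmin n) (min_le_right (r n) 1)
  have hN : ∀ n i J s, (T n).adm i J s → ∀ j, s.1 j ≤ N n := by
    intro n i J s hs j
    rcases le_or_gt (r n) 1 with h1 | h1
    · refine hN0 n i J s ?_ j
      rw [hTr n]
      have h2 : (TS36 (min (r n) 1)).adm i J s := hs
      rw [min_eq_left h1] at h2
      exact h2
    · have h2 : (TS36 (min (r n) 1)).adm i J s := hs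
      rw [min_eq_right h1.le] at h2
      have h3 := (adm36_le h2 j).1
      rw [h2.2.2 j] at h3
      have h4 : s.1 j = 0 := by
        by_contra hne
        have h5 : (1 / 2 : ℝ) ^ (s.1 j) < 1 := pow_lt_one₀ (by norm_num) (by norm_num) hne
        linarith
      rw [h4]
      exact Nat.zero_le _
  have hM : MkA B I (geoP T Ψ (fun n => lev n 1) atop L) lev A (fun v => g * v) (fun v => 0 * v)
      (fun j v => θ j * (1 - v)) f b vm w := by
    refine mkA_congrG hM0 ?_ rfl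
    filter_upwards [hTT] with n hn
    refine ⟨?_, ?_, ?_⟩
    · funext i J s t
      simp only [geoP, hn]
    · funext i J s
      simp only [geoP, hn]
    · funext i J s
      simp only [geoP, hn]
  have hTop : TopPos B lev w (fun n => lev n 1) atop θ 1 :=
    topPos_of hM fun j => Eventually.of_forall fun n => by rw [hwa, ha1]
  have hAllB : AllD B I (geoP T Ψ (fun n => lev n 1) atop L) lev A g :=
    allD_P hM hg hTT36 (Eventually.of_forall fun n => le_rfl) hKl hΨ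
  obtain ⟨η, m, t, B', I', A', A2, vm2, K1, hη, hη1, hη0, htt, hpt, hW, hM1, hlen, hrel, hA2, hK1,
    hMK, hX7, hQ⟩ := lin4 hM hAllB 7 hTop le_rfl hl
    (fun q k n => (N n : ℝ) ≤ B.d n ^ (-(q.1 k / ((k : ℝ) + 1)))) (by
      intro η m hη _ k
      exact hNd _ (div_pos (hη k) (by positivity)))
  have hH : ∀ n, 0 < η (t n) := fun n => hη _
  have hH0 : Tendsto (fun n => η (t n)) U (𝓝 0) := hη0.comp htt
  have hL : ∀ n, B'.L n = η (t n) * B.L n := fun n => by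
    unfold Base.L
    rw [hW.base, Real.log_rpow (B.pos n)]
    ring
  have hTl : (0:ℝ) < 1 - 1 / 2 := by norm_num
  obtain ⟨K2, hK2, hcmp⟩ := exists_cmp (T := T) hl hH hH0 hL hTl hM1 hlen hrel
  -- the range
  set K : ℕ → ℝ := fun n => min (K1 n) (K2 n) with hKdef
  have hK : Tendsto K U atTop := by
    rw [tendsto_atTop]
    intro c
    filter_upwards [tendsto_atTop.1 hK1 c, tendsto_atTop.1 hK2 c] with n h1 h2
    exact le_min h1 h2
  have h2 := hMK K hK (Eventually.of_forall fun n => min_le_left _ _)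
  -- the exponents
  have hNd' : ∀ ε : ℝ, 0 < ε → ∀ᶠ n in (U : Filter ℕ), (N n : ℝ) ≤ B'.d n ^ (-ε) := by
    intro ε hε
    filter_upwards [hQ, (tendsto_natCast_atTop_atTop.comp htt).eventually_ge_atTop (1 / ε)]
      with n h3 h4
    have h4' : 1 / ε ≤ (t n : ℝ) := h4
    refine h3.trans ?_
    rw [hW.base, ← Real.rpow_mul (B.pos n).le]
    refine dpow_le B n ?_
    have h5 : (0:ℝ) < (t n : ℝ) + 1 := by positivity
    rw [mul_neg, neg_le_neg_iff, div_le_iff₀ h5]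
    rw [div_le_iff₀ hε] at h4'
    have := hη (t n)
    nlinarith
  -- levels
  have hl1 : Tendsto (fun n => ((lev n (m (t n) 1) : ℝ) - lev n (m (t n) 0)) * Real.log 2 /
      B'.L n) U (𝓝 1) := by
    have h1 := hM1.lev_lim 0 1 le_rfl zero_le_one le_rfl
    push_cast at h1
    rw [sub_zero] at h1
    exact h1
  have hl01 : ∀ᶠ n in (U : Filter ℕ), lev n (m (t n) 0) ≤ lev n (m (t n) 1) :=
    hM1.lev_mono 0 1 le_rfl zero_le_one le_rfl
  have hAll : AllD B' I' (geoP T Ψ (fun n => lev n 1) atop L) (fun n x => lev n (m (t n) x)) A' g := by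
    intro ε hε
    filter_upwards [hX7 ε hε] with n hn i h0 h1 J s hs
    refine le_trans (Nat.cast_le.2 (card_le_card (filter_subset_filter _
      (alive_mono (hW.sub n) _ _)))) (hn i h0 (h1.trans (Nat.le_add_right _ _)) J s hs)
  set P : ℕ → Finset (ℕ × ℤ) := fun n => (I' n).image (lc (lev n (m (t n) 1) + 7)) with hPdef
  have hPB : ∀ ε : ℝ, 0 < ε → PBody B' (geoP T Ψ (fun n => lev n 1) atop L)
      (fun n x => lev n (m (t n) x)) A' g 1 (fun n => lev n (m (t n) 1) + 7) P ε := by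
    intro ε hε
    have e1 : ∀ᶠ n in (U : Filter ℕ), |((lev n (m (t n) 1) : ℝ) - lev n (m (t n) 0)) * Real.log 2 /
        B'.L n - 1| ≤ ε / (2 * (|g| + 1)) := by
      have h4 := (hl1.sub_const (1 : ℝ)).abs
      rw [sub_self, abs_zero] at h4
      exact h4.eventually (eventually_le_nhds (by positivity))
    filter_upwards [hX7 (ε / 2) (by positivity), e1, hl01] with n x1 x2 x3 j s hs
    have y1 := x1 (lev n (m (t n) 1) + 7) (x3.trans (Nat.le_add_right _ _)) le_rfl j s hs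
    have y2 : ((((P n).filter fun o => o.2 = j ∧ (geoP T Ψ (fun n => lev n 1) atop L).mem n
        (lev n (m (t n) 1) + 7) j s o.1).card : ℕ) : ℝ) ≤
        (((alive (I n) (lev n (m (t n) 1) + 7) j).filter fun t' =>
          (geoP T Ψ (fun n => lev n 1) atop L).mem n (lev n (m (t n) 1) + 7) j s t').card : ℝ) := by
      have e2 : ((P n).filter fun o => o.2 = j ∧ (geoP T Ψ (fun n => lev n 1) atop L).mem n
          (lev n (m (t n) 1) + 7) j s o.1).card = (((P n).filter fun o => o.2 = j ∧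
          (geoP T Ψ (fun n => lev n 1) atop L).mem n
          (lev n (m (t n) 1) + 7) j s o.1).image Prod.fst).card := by
        refine (card_image_of_injOn fun o ho o' ho' hoo => ?_).symm
        have q1 := (mem_filter.1 ho).2.1
        have q2 := (mem_filter.1 ho').2.1
        exact Prod.ext hoo (q1.trans q2.symm)
      rw [e2]
      refine Nat.cast_le.2 (card_le_card fun t' ht' => ?_)
      obtain ⟨o, ho, rfl⟩ := mem_image.1 ht'
      obtain ⟨ho1, ho2, ho3⟩ := mem_filter.1 ho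
      obtain ⟨x, hx, hxo⟩ := mem_image.1 ho1
      have z1 : x.1 = o.1 := (Prod.ext_iff.1 hxo).1
      have z2 : zc (lev n (m (t n) 1) + 7) x.2 = o.2 := (Prod.ext_iff.1 hxo).2
      refine mem_filter.2 ⟨mem_alive.2 ⟨x, hW.sub n hx, z1, z2.trans ho2⟩, ho3⟩
    refine y2.trans (y1.trans ?_)
    have hval : 0 ≤ (geoP T Ψ (fun n => lev n 1) atop L).val n (lev n (m (t n) 1) + 7) j s := by
      show 0 ≤ capP (T n) Ψ (lev n 1) (atop n) (lev n (m (t n) 1) + 7) s.1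
      unfold capP
      exact (mul_pos ((T n).volpos _ _) (Real.rpow_pos_of_pos two_pos _)).le
    refine mul_le_mul_of_nonneg_right ?_ hval
    have z1 := two_d B' n (g := g) x2
    have pA' := hM1.Apos n
    have z2 : (2:ℝ) ^ (g * (((lev n (m (t n) 1) + 7 : ℕ) : ℝ) - lev n (m (t n) 0))) =
        2 ^ (g * ((lev n (m (t n) 1) : ℝ) - lev n (m (t n) 0))) * 2 ^ (g * 7) := by
      rw [← Real.rpow_add two_pos]
      congr 1
      push_cast; ring
    have z3 : |g| * (ε / (2 * (|g| + 1))) ≤ ε / 2 := by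
      have z4 : |g| * (ε / (2 * (|g| + 1))) = (|g| / (|g| + 1)) * (ε / 2) := by field_simp
      have z5 : |g| / (|g| + 1) ≤ 1 := by
        rw [div_le_one (by positivity)]; linarith
      rw [z4]
      have := mul_le_mul_of_nonneg_right z5 (show 0 ≤ ε / 2 by positivity)
      linarith
    have z6 : B'.d n ^ (-(g * 1) - |g| * (ε / (2 * (|g| + 1)))) ≤
        B'.d n ^ (-(ε / 2)) * B'.d n ^ (-(g * 1)) := by
      rw [← dpow_add]
      exact dpow_le B' n (by linarith)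
    have z7 : (2:ℝ) ^ (g * 7) ≤ 2 ^ ((g + ε) * 7) :=
      Real.rpow_le_rpow_of_exponent_le (by norm_num) (by nlinarith)
    have z8 : ((((fun n => lev n (m (t n) 1) + 7) n : ℕ) : ℝ) - lev n (m (t n) 1)) = 7 := by
      show ((lev n (m (t n) 1) + 7 : ℕ) : ℝ) - lev n (m (t n) 1) = 7
      push_cast; ring
    have p1 := dpow_pos B' n (-(ε / 2))
    have p2 := dpow_pos B' n (-(g * 1))
    have p3 : (0:ℝ) < 2 ^ (g * 7) := Real.rpow_pos_of_pos two_pos _
    rw [z8, Rat.cast_one]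
    calc B'.d n ^ (-(ε / 2)) * (A' n *
          2 ^ (g * (((lev n (m (t n) 1) + 7 : ℕ) : ℝ) - lev n (m (t n) 0))))
        ≤ B'.d n ^ (-(ε / 2)) * (A' n * ((B'.d n ^ (-(ε / 2)) * B'.d n ^ (-(g * 1))) *
            2 ^ ((g + ε) * 7))) := by
          rw [z2]
          refine mul_le_mul_of_nonneg_left (mul_le_mul_of_nonneg_left ?_ pA'.le) p1.le
          exact mul_le_mul (z1.trans z6) z7 p3.le (by positivity)
      _ = (B'.d n ^ (-(ε / 2)) * B'.d n ^ (-(ε / 2))) * (A' n * B'.d n ^ (-(g * 1))) *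
            2 ^ ((g + ε) * 7) := by ring
      _ = _ := by
          rw [← dpow_add]
          congr 3
          ring
  have hmt7 : ∀ᶠ n in (U : Filter ℕ), lev n (m (t n) 1) + 7 ≤ lev n 1 := by
    filter_upwards [depth_mt hH0 hL hTl hlen hl1 7, B'.ev_L_ge 1] with n h3 h4
    have h5 : (lev n (m (t n) 1) : ℝ) + 7 ≤ lev n 1 := by nlinarith
    exact_mod_cast h5
  have hPI : ∀ᶠ n in (U : Filter ℕ), ∀ x ∈ I' n, ∃ j : ℤ,
      j / 2 ^ 7 = zc (lev n (m (t n) 1)) x.2 ∧ (x.1, j) ∈ P n := by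
    refine Eventually.of_forall fun n x hx =>
      ⟨zc (lev n (m (t n) 1) + 7) x.2, ?_, mem_image.2 ⟨x, hx, rfl⟩⟩
    rw [zc_div (Nat.le_add_right (lev n (m (t n) 1)) 7) x.2, Nat.add_sub_cancel_left]
  have hPc : ∀ᶠ n in (U : Filter ℕ), ∀ o ∈ P n, o.1 ∈ (I' n).image Prod.fst := by
    refine Eventually.of_forall fun n o ho => ?_
    obtain ⟨x, hx, rfl⟩ := mem_image.1 ho
    exact mem_image.2 ⟨x, hx, rfl⟩
  exact ⟨_, _, _, _, _, _, _, _, _, _, _, _, outD_of (R := R) (fun n => rfl) hR hN hNd' hM1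
    (fun n => Real.rpow_pos_of_pos two_pos _) hA2 hcmp hK2 hK
    (Eventually.of_forall fun n => min_le_right _ _) h2 hAll hPI hPc hPB hKl hΨ
    (Eventually.of_forall fun n => hW.sub n) hmt7 hX7 hq h2s⟩

end Crest.Agent.R136.Lz627
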