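import Crest.Agent.R136.Tq1_879
import Crest.Agent.R136.UB4_861_Mg
import Mathlib
import Crest.Agent.R136.KF2_879
import Crest.Agent.R136.Pen3_325
import Crest.Agent.R116.XcDef_794
import Crest.Agent.R136.AllD3_823
import Crest.Agent.R136.Yk1_953
import Crest.Agent.R136.Dd1_325
import Crest.Agent.R136.DAl_879

-- ▼ part R136/Bd36_792
section

/-!
# R136, block U4 (pure penalty): boundedness of the gap of the class `TT36` (helper792)

`bdd36` : for every reward with `B l ≤ Ψ l x` in the range `|x j| ≤ C1 l` the gap of all full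
configurations with room is at most `C1 - B`.  Input: `UBgG ShN` (289, 861) with general index type,
test sets are rounded down to dyadic widths by `rnd_C` (289).
-/

set_option autoImplicit false
set_option linter.unusedVariables false

open Finset

namespace Crest.Agent.R136.Bd792

open Crest.Agent.R116.Xa794 (TS)
open Crest.Agent.R116.Xc794
open Crest.Agent.R138.Mk163 (zc zl rho alive own)
open Crest.Agent.R138.MkRef627 (mem_alive)
open Crest.Agent.R136.KF879 Crest.Agent.R136.Tq879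
open Sh605 K4 UB289 Sh321 Rnd289

noncomputable section

/-- nested cells -/
theorem zc_eq {i j : ℕ} (h : i ≤ j) (z : ℝ) : zc i z = zc j z / 2 ^ (j - i) := by
  have h1 : (zc i z : ℤ) = zc j z / ((2 ^ (j - i) : ℕ) : ℤ) := by
    unfold zc
    rw [← Int.floor_div_natCast]
    congr 1
    push_cast
    have e : (2 : ℝ) ^ j = 2 ^ i * 2 ^ (j - i) := by rw [← pow_add, Nat.add_sub_cancel' h]
    rw [e]
    field_simp
  rw [h1]
  push_cast
  rfl

theorem mem_own {I : Finset (ℕ × ℝ)} {i j : ℕ} {x : ℕ × ℝ} {c : ℤ} :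
    c ∈ own I i j x ↔ ∃ y ∈ I, y.1 = x.1 ∧ zc i y.2 = zc i x.2 ∧ zc j y.2 = c := by
  unfold own
  simp only [Finset.mem_image, Finset.mem_filter, and_assoc]

open Classical in
/-- own counts over a middle level -/
theorem own_mid {I : Finset (ℕ × ℝ)} {i m j : ℕ} (hmj : m ≤ j) (x : ℕ × ℝ) :
    (own I i j x).card ≤ 2 ^ (j - m) * (own I i m x).card := by
  refine card_le_mul_card_image_of_maps_to (f := fun c : ℤ => c / 2 ^ (j - m)) (fun c hc => ?_) _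
    (fun b _ => ?_)
  · obtain ⟨y, hy, h1, h2, h3⟩ := mem_own.1 hc
    refine mem_own.2 ⟨y, hy, h1, h2, ?_⟩
    rw [zc_eq hmj, h3]
  · have hk : (0:ℤ) < 2 ^ (j - m) := by positivity
    have hsub : ((own I i j x).filter fun c => c / 2 ^ (j - m) = b) ⊆
        Finset.Ico (b * 2 ^ (j - m)) ((b + 1) * 2 ^ (j - m)) := by
      intro c hc
      rw [mem_filter] at hc
      rw [Finset.mem_Ico, ← hc.2]
      exact ⟨Int.ediv_mul_le _ hk.ne', Int.lt_ediv_add_one_mul_self c hk⟩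
    refine (card_le_card hsub).trans ?_
    rw [Int.card_Ico]
    have e : (b + 1) * 2 ^ (j - m) - b * 2 ^ (j - m) = ((2 ^ (j - m) : ℕ) : ℤ) := by
      push_cast; ring
    rw [e, Int.toNat_natCast]

/-- an exponent between two dyadic widths -/
theorem exp_close {s α k : ℕ} {L : ℕ} (h1 : (1 / 2 : ℝ) ^ s ≤ 2 ^ L * (1 / 2 : ℝ) ^ α)
    (h2 : (1 / 2 : ℝ) ^ α ≤ 2 ^ k * (1 / 2 : ℝ) ^ s) : (α : ℤ) - s ≤ L ∧ (s : ℤ) - α ≤ k := by
  have e : ∀ n : ℕ, (1 / 2 : ℝ) ^ n = (2 ^ n)⁻¹ := fun n => by rw [one_div, inv_pow]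
  rw [e, e] at h1 h2
  have ps : (0:ℝ) < 2 ^ s := by positivity
  have pα : (0:ℝ) < 2 ^ α := by positivity
  constructor
  · have h3 : (2:ℝ) ^ α ≤ 2 ^ (L + s) := by
      rw [pow_add]
      have := mul_le_mul_of_nonneg_right h1 (mul_pos ps pα).le
      have e1 : ((2:ℝ) ^ s)⁻¹ * (2 ^ s * 2 ^ α) = 2 ^ α := by field_simp
      have e2 : (2:ℝ) ^ L * (2 ^ α)⁻¹ * (2 ^ s * 2 ^ α) = 2 ^ L * 2 ^ s := by field_simp
      rwa [e1, e2] at this
    have := (pow_le_pow_iff_right₀ (by norm_num : (1:ℝ) < 2)).1 h3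
    omega
  · have h3 : (2:ℝ) ^ s ≤ 2 ^ (k + α) := by
      rw [pow_add]
      have := mul_le_mul_of_nonneg_right h2 (mul_pos ps pα).le
      have e1 : ((2:ℝ) ^ α)⁻¹ * (2 ^ s * 2 ^ α) = 2 ^ s := by field_simp
      have e2 : (2:ℝ) ^ k * (2 ^ s)⁻¹ * (2 ^ s * 2 ^ α) = 2 ^ k * 2 ^ α := by field_simp
      rwa [e1, e2] at this
    have := (pow_le_pow_iff_right₀ (by norm_num : (1:ℝ) < 2)).1 h3
    omega

/-- a dyadic multiple of `(1/2)^α` which is at most `1` -/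
theorem dy_exp {α i : ℕ} (h : (1 / 2 : ℝ) ^ α * 2 ^ i ≤ 1) :
    (1 / 2 : ℝ) ^ α * 2 ^ i = (1 / 2 : ℝ) ^ (α - i) := by
  have e : ∀ n : ℕ, (1 / 2 : ℝ) ^ n = (2 ^ n)⁻¹ := fun n => by rw [one_div, inv_pow]
  have hi : i ≤ α := by
    rw [e, inv_mul_le_iff₀ (by positivity), mul_one] at h
    exact (pow_le_pow_iff_right₀ (by norm_num : (1:ℝ) < 2)).1 h
  rw [e, e]
  have h1 : (2:ℝ) ^ α = 2 ^ (α - i) * 2 ^ i := by rw [← pow_add]; congr 1; omega
  rw [h1]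
  field_simp

open Classical in
/-- the count of one (arbitrary) sheet of the test level -/
theorem test_le {r : ℝ} (hr : 0 < r) {Ψ : ℝ → (Fin 3 → ℝ) → ℝ} {F : Cfg Ln4 (Fin 3) Plk4} {h : ℕ}
    (hO : OkH (TS36 r) Ψ h F) {r1 : ℝ} (hr1 : r1 = (1 / 2 : ℝ) ^ (F.a 0)) (hrr : r ≤ r1)
    {L : ℕ} {X D : ℝ} (hD : 0 < D) (hDD : F.D0 ≤ D)
    (hX : ∀ x : Fin 3 → ℝ, (∀ j, |x j| ≤ L + 3 + F.M) → (2:ℝ) ^ (-(Ψ F.M x)) ≤ X)
    {K : Plk4} (hK : LegN F.m r1 1 K)
    (ha : (1 / 2 : ℝ) ^ (F.a 0) ≤ K.a ∧ K.a ≤ 2 ^ L * (1 / 2 : ℝ) ^ (F.a 0))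
    (h2 : K.w 2 ≤ (1 / 2 : ℝ) ^ (F.a 2) ∧ (1 / 2 : ℝ) ^ (F.a 2) ≤ 2 ^ L * K.w 2)
    (h1 : K.w 1 ≤ (1 / 2 : ℝ) ^ (F.a 1) ∧ (1 / 2 : ℝ) ^ (F.a 1) ≤ 2 ^ L * K.w 1)
    (T : Finset ℕ) (hT : ∀ t ∈ T, t ∈ alive F.I F.m K.j ∧ (∀ k, |(F.L t).v k| ≤ 1) ∧
      InSheet (F.L t) K.e K.c K.w K.q K.a (zl F.m K.j) (rho F.m)) :
    (T.card : ℝ) ≤ D * (K.a * K.w 2 * K.w 1 * (17 ^ 9 * X)) := by
  have hr1' : 0 < r1 := hr.trans_le hrr
  obtain ⟨c', w', q', a', i, j, k, hS, ea, e2, e1, ba, b2, b1, -, -, hc⟩ :=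
    rnd_C (LegN.toC (Λ := 1) hr1' hK).1 hr1' (by positivity) F.L T (fun t ht => (hT t ht).2.2)
  obtain ⟨pa, p0, p2, p1⟩ := hS.pos hr1'
  have hw1 : w' 1 ≤ 1 := b1.1.trans (hK.2.trans (by
    rw [div_le_one (by positivity)]; exact one_le_pow₀ (by norm_num)))
  have hw21 : w' 2 ≤ w' 1 := hS.toN.w_le
  have hwa2 : a' ≤ w' 2 := hS.toN.a_le
  rw [hr1] at ea e2 e1
  have ea' : a' = (1 / 2 : ℝ) ^ (F.a 0 - i) := ea.trans (dy_exp (by rw [← ea]; linarith))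
  have e2' : w' 2 = (1 / 2 : ℝ) ^ (F.a 0 - j) := e2.trans (dy_exp (by rw [← e2]; linarith))
  have e1' : w' 1 = (1 / 2 : ℝ) ^ (F.a 0 - k) := e1.trans (dy_exp (by rw [← e1]; linarith))
  set K' : Plk4 := ⟨K.j, K.e, c', w', q', a'⟩ with hK'
  set s : Fin 3 → ℕ := ![F.a 0 - i, F.a 0 - k, F.a 0 - j] with hs
  have hadm : (TS36 r).adm F.m K.j (s, K') := by
    refine ⟨?_, ?_, ?_⟩
    · have h3 := hS.toN
      exact ⟨h3.ortho, h3.isQ, h3.a_le0, h3.w0_le, h3.w_le, hrr.trans h3.r0_le, h3.st0, h3.sl1,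
        h3.sl2⟩
    · exact b1.1.trans hK.2
    · intro l
      fin_cases l
      · exact ea'
      · exact e1'
      · exact e2'
  have hup := hO.up K.j (s, K') hadm
  have hsub : ((T.filter fun t => InSheet (F.L t) K.e c' w' q' a' (zl F.m K.j) (rho F.m)).card : ℝ)
      ≤ (((alive F.I F.m K.j).filter fun t => (TS36 r).mem F.m K.j (s, K') (F.L t)).card : ℝ) := by
    refine Nat.cast_le.2 (card_le_card fun t ht => ?_)
    rw [mem_filter] at ht ⊢
    exact ⟨(hT t ht.1).1, ht.2, (hT t ht.1).2.1⟩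
  -- the relative exponents
  have hrel : (2:ℝ) ^ (-(Ψ (((F.m + F.M : ℕ) : ℝ) - (F.m : ℕ)) (rel F.m s (F.m + F.M) F.a))) ≤ X := by
    have e : ((F.m + F.M : ℕ) : ℝ) - (F.m : ℕ) = (F.M : ℝ) := by push_cast; ring
    rw [e]
    refine hX _ (fun l => ?_)
    have key : ∀ σ α : ℕ, (α : ℤ) - σ ≤ L → (σ : ℤ) - α ≤ L + 3 →
        |((σ : ℝ) - F.m) - ((α : ℝ) - ((F.m + F.M : ℕ) : ℝ))| ≤ L + 3 + F.M := by
      intro σ α g1 g2
      have g1' : (α : ℝ) - σ ≤ L := by exact_mod_cast g1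
      have g2' : (σ : ℝ) - α ≤ L + 3 := by exact_mod_cast g2
      have hM0 : (0:ℝ) ≤ F.M := Nat.cast_nonneg _
      rw [abs_le]; push_cast
      constructor <;> linarith
    fin_cases l
    · obtain ⟨g1, g2⟩ := exp_close (s := F.a 0 - i) (α := F.a 0) (k := 1) (L := L)
        (by rw [← ea']; exact ba.1.trans ha.2)
        (by rw [← ea', pow_one]; exact ha.1.trans ba.2)
      exact key (F.a 0 - i) (F.a 0) g1 (by omega)
    · obtain ⟨g1, g2⟩ := exp_close (s := F.a 0 - k) (α := F.a 1) (k := L + 3) (L := 0)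
        (by rw [← e1', pow_zero, one_mul]; exact b1.1.trans h1.1)
        (by
          rw [← e1', pow_add, mul_assoc]
          exact h1.2.trans (mul_le_mul_of_nonneg_left (b1.2.trans (by norm_num)) (by positivity)))
      exact key (F.a 0 - k) (F.a 1) (by omega) (by omega)
    · obtain ⟨g1, g2⟩ := exp_close (s := F.a 0 - j) (α := F.a 2) (k := L + 2) (L := 0)
        (by rw [← e2', pow_zero, one_mul]; exact b2.1.trans h2.1)
        (by
          rw [← e2', pow_add, mul_assoc]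
          exact h2.2.trans (mul_le_mul_of_nonneg_left (b2.2.trans (by norm_num)) (by positivity)))
      exact key (F.a 0 - j) (F.a 2) (by omega) (by omega)
  have hX0 : 0 ≤ X := le_trans (by positivity) hrel
  have hvol : (TS36 r).vol F.m s = a' * w' 2 * w' 1 := by
    have := vol_eq hadm
    exact this
  have hcap : capP (TS36 r) Ψ (F.m + F.M) F.a F.m s ≤ K.a * K.w 2 * K.w 1 * X := by
    unfold capP
    rw [hvol]
    have pK2 : 0 ≤ K.w 2 := p2.le.trans b2.1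
    have pK1 : 0 ≤ K.w 1 := p1.le.trans b1.1
    have pKa : 0 ≤ K.a := pa.le.trans ba.1
    have g1 : a' * w' 2 * w' 1 ≤ K.a * K.w 2 * K.w 1 := by
      have := ba.1; have := b2.1; have := b1.1
      gcongr
    exact mul_le_mul g1 hrel (by positivity) (mul_nonneg (mul_nonneg pKa pK2) pK1)
  have pcap : 0 ≤ capP (TS36 r) Ψ (F.m + F.M) F.a F.m s := by
    unfold capP
    have := (TS36 r).volpos F.m s
    positivity
  calc (T.card : ℝ) ≤ 17 ^ 9 *
        ((T.filter fun t => InSheet (F.L t) K.e c' w' q' a' (zl F.m K.j) (rho F.m)).card : ℝ) := hc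
    _ ≤ 17 ^ 9 * (F.D0 * capP (TS36 r) Ψ (F.m + F.M) F.a F.m s) :=
        mul_le_mul_of_nonneg_left (hsub.trans hup) (by norm_num)
    _ ≤ 17 ^ 9 * (D * (K.a * K.w 2 * K.w 1 * X)) := by
        refine mul_le_mul_of_nonneg_left ?_ (by norm_num)
        exact (mul_le_mul_of_nonneg_right hDD pcap).trans (mul_le_mul_of_nonneg_left hcap hD.le)
    _ = _ := by ring

open Classical in
/-- the count of a top class -/
theorem core {r : ℝ} (hr : 0 < r) {Ψ : ℝ → (Fin 3 → ℝ) → ℝ} {F : Cfg Ln4 (Fin 3) Plk4} {h : ℕ}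
    (hO : OkH (TS36 r) Ψ h F) (h10 : 10 ≤ h) (hnu : (2:ℝ) ^ (10 + F.M) ≤ F.nu) {X D : ℝ}
    (hD : 0 < D) (hDD : F.D0 ≤ D) (hX0 : 0 ≤ X)
    (hX : ∀ x : Fin 3 → ℝ, (∀ j, |x j| ≤ ((4 * (F.M + h + h + 10) : ℕ) : ℝ) + 3 + F.M) →
      (2:ℝ) ^ (-(Ψ F.M x)) ≤ X) :
    F.D1 ≤ 2 ^ (29 * (F.M + h + h + 10)) * D * (17 ^ 9 * X) := by
  obtain ⟨x0, hx0⟩ := hO.ne
  obtain ⟨m0, hm⟩ : ∃ m0, F.m = m0 + h := ⟨F.m - h, by have := hO.h_le; omega⟩
  have hm0 : F.m - h = m0 := by omega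
  set c0 : ℤ := zc m0 x0.2 with hc0
  set J : ℤ := zc (F.m + F.M) x0.2 with hJ
  have ht0 : x0.1 ∈ alive F.I (F.m + F.M) J := mem_alive.2 ⟨x0, hx0, rfl, rfl⟩
  obtain ⟨hmem0, hadm0, ha0⟩ := hO.top J x0.1 ht0
  have hlow := hO.low J x0.1 ht0
  obtain ⟨s0, hs0⟩ : ∃ s0, s0 = F.b (F.f x0.1 J) := ⟨_, rfl⟩
  rw [← hs0] at hmem0 hadm0 ha0
  obtain ⟨hSN, hS1, hSw⟩ := hadm0
  rw [ha0] at hSw
  have hwa : s0.2.a = (1 / 2 : ℝ) ^ (F.a 0) := by rw [← hSw 0]; rfl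
  have hw1 : s0.2.w 1 = (1 / 2 : ℝ) ^ (F.a 1) := by rw [← hSw 1]; rfl
  have hw2 : s0.2.w 2 = (1 / 2 : ℝ) ^ (F.a 2) := by rw [← hSw 2]; rfl
  have hrr : r ≤ (1 / 2 : ℝ) ^ (F.a 0) := hSN.r0_le.trans hwa.le
  have hr1 : (0:ℝ) < (1 / 2 : ℝ) ^ (F.a 0) := by positivity
  have hbase : ∀ x ∈ F.I, zc m0 x.2 = c0 := by
    intro x hx
    have := hO.cell x hx x0 hx0
    rw [hm0] at this
    exact this
  have hslope : ∀ i c, ∀ t ∈ alive F.I i c, ∀ k, |(F.L t).v k| ≤ 1 := by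
    intro i c t ht
    obtain ⟨x, hx, h1, h2⟩ := mem_alive.1 ht
    exact (hO.top (zc (F.m + F.M) x.2) t (mem_alive.2 ⟨x, hx, h1, rfl⟩)).1.2
  set T : Finset ℕ := (alive F.I (F.m + F.M) J).filter fun t => F.f t J = F.f x0.1 J with hT
  set al : ℕ → Finset ℕ := fun j => alive F.I F.m (c0 * 2 ^ h + j) with hal
  set N : ℝ := ((F.I.image Prod.fst).card : ℝ) with hN
  have hN0 : 0 ≤ N := Nat.cast_nonneg _
  set L : ℕ := 4 * (F.M + h + h + 10) with hL
  let Rg : ℝ → ℝ → ℝ → Prop := fun a w2 w1 =>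
    ((1 / 2 : ℝ) ^ (F.a 0) ≤ a ∧ a ≤ 2 ^ L * (1 / 2 : ℝ) ^ (F.a 0)) ∧
      (w2 ≤ (1 / 2 : ℝ) ^ (F.a 2) ∧ (1 / 2 : ℝ) ^ (F.a 2) ≤ 2 ^ L * w2) ∧
      (w1 ≤ (1 / 2 : ℝ) ^ (F.a 1) ∧ (1 / 2 : ℝ) ^ (F.a 1) ≤ 2 ^ L * w1)
  let R' : ℝ → ℝ → ℝ → ℝ := fun a w2 w1 =>
    if Rg a w2 w1 then 17 ^ 9 * X else N / (D * (a * w2 * w1))
  have hmp : (0:ℝ) < 2 ^ m0 := by positivity
  have hmain := ubgG pos_shN (κ := 24) (p := 4) (by norm_num) UB861.ubOneC (F.M + h) h h10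
    (by omega) (by omega) F.L T al ((c0:ℝ) / 2 ^ m0) (1 / 2 ^ (F.m + F.M)) (1 / 2 ^ F.m)
    ((1 / 2 : ℝ) ^ (F.a 0)) D (fun _ _ _ => 17 ^ 9 * X) R' (by positivity) hr1 hD.le
    (by
      have e : (2:ℝ) ^ (F.m + F.M) = 2 ^ F.m * 2 ^ F.M := pow_add _ _ _
      have e' : (2:ℝ) ^ (F.M + h) = 2 ^ F.M * 2 ^ h := pow_add _ _ _
      rw [e, e']; field_simp)
    (by
      intro j hj e c w q a hS hw
      have hz : (c0:ℝ) / 2 ^ m0 + j * (1 / 2 ^ F.m) = ((c0 * 2 ^ h + j : ℤ) : ℝ) / 2 ^ F.m := by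
        push_cast
        rw [hm, pow_add]
        field_simp
      rw [hz] at hS ⊢
      have hpw : ∀ i, 0 < w i := pos_shN.wpos hS hr1
      have pa : 0 < a := hr1.trans_le hS.r0_le
      have p2 := hpw 2
      have p1 := hpw 1
      by_cases hr' : Rg a (w 2) (w 1)
      · have eR : R' a (w 2) (w 1) = 17 ^ 9 * X := if_pos hr'
        rw [eR]
        exact test_le hr hO rfl hrr hD hDD hX (K := ⟨c0 * 2 ^ h + j, e, c, w, q, a⟩) ⟨hS, hw⟩
          hr'.1 hr'.2.1 hr'.2.2 _ (fun t ht => by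
            rw [mem_filter] at ht
            exact ⟨ht.1, hslope _ _ t ht.1, ht.2⟩)
      · have eR : R' a (w 2) (w 1) = N / (D * (a * w 2 * w 1)) := if_neg hr'
        rw [eR]
        have e2 : D * (a * w 2 * w 1 * (N / (D * (a * w 2 * w 1)))) = N := by field_simp
        rw [e2, hN]
        refine Nat.cast_le.2 (card_le_card fun t ht => ?_)
        rw [mem_filter] at ht
        obtain ⟨x, hx, h1, h2⟩ := mem_alive.1 ht.1
        exact mem_image.2 ⟨x, hx, h1⟩)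
    s0.2.e s0.2.c s0.2.w s0.2.q s0.2.a ((J : ℝ) / 2 ^ (F.m + F.M))
    (by
      have h1 : c0 = J / 2 ^ (F.M + h) := by
        have := zc_eq (i := m0) (j := F.m + F.M) (by omega) (z := x0.2)
        rw [hc0, this, ← hJ]
        congr 2
        omega
      have h2 : c0 * 2 ^ (F.M + h) ≤ J := by
        rw [h1]; exact Int.ediv_mul_le _ (by positivity)
      have h2' : (c0:ℝ) * 2 ^ (F.M + h) ≤ J := by exact_mod_cast h2
      rw [div_le_div_iff₀ hmp (by positivity)]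
      have e : (2:ℝ) ^ (F.m + F.M) = 2 ^ (F.M + h) * 2 ^ m0 := by
        rw [← pow_add]; congr 1; omega
      rw [e, ← mul_assoc]
      exact mul_le_mul_of_nonneg_right h2' hmp.le)
    (by
      have h1 : c0 = J / 2 ^ (F.M + h) := by
        have := zc_eq (i := m0) (j := F.m + F.M) (by omega) (z := x0.2)
        rw [hc0, this, ← hJ]
        congr 2
        omega
      have h2 : J + 1 ≤ (c0 + 1) * 2 ^ (F.M + h) := by
        rw [h1]; exact Int.lt_ediv_add_one_mul_self J (by positivity)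
      have h2' : (J:ℝ) + 1 ≤ ((c0:ℝ) + 1) * 2 ^ (F.M + h) := by exact_mod_cast h2
      have e : (2:ℝ) ^ (F.m + F.M) = 2 ^ (F.M + h) * 2 ^ m0 := by
        rw [← pow_add]; congr 1; omega
      rw [e]
      have e1 : (J:ℝ) / (2 ^ (F.M + h) * 2 ^ m0) + 1 / (2 ^ (F.M + h) * 2 ^ m0) =
          ((J:ℝ) + 1) / (2 ^ (F.M + h) * 2 ^ m0) := by ring
      have e2 : (c0:ℝ) / 2 ^ m0 + 2 ^ (F.M + h) * (1 / (2 ^ (F.M + h) * 2 ^ m0)) =
          (((c0:ℝ) + 1) * 2 ^ (F.M + h)) / (2 ^ (F.M + h) * 2 ^ m0) := by field_simp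
      rw [e1, e2]
      exact div_le_div_of_nonneg_right h2' (by positivity))
    ⟨hSN.ortho, hSN.isQ, hSN.a_le0, hSN.w0_le, hSN.w_le, hwa.ge, hSN.st0, hSN.sl1, hSN.sl2⟩ hS1
    (by
      intro t ht
      rw [hT, mem_filter] at ht
      have h1 := (hO.top J t ht.1).1
      rw [ht.2, ← hs0] at h1
      exact h1.1)
    (by
      intro t ht
      rw [hT, mem_filter] at ht
      obtain ⟨x, hx, hxt, hxJ⟩ := mem_alive.1 ht.1
      have h1 := hO.own x hx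
      rw [hm0] at h1
      have h2 := own_mid (I := F.I) (i := m0) (m := F.m) (j := F.m + F.M) (by omega) x
      have h3 : (2:ℝ) ^ 10 * 2 ^ F.M ≤ 2 ^ F.M * ((own F.I m0 F.m x).card : ℝ) := by
        rw [← pow_add]
        refine hnu.trans (h1.trans ?_)
        have : F.m + F.M - F.m = F.M := by omega
        rw [this] at h2
        exact_mod_cast h2
      have h4 : (2:ℝ) ^ 10 ≤ ((own F.I m0 F.m x).card : ℝ) := by
        rw [mul_comm] at h3
        exact le_of_mul_le_mul_left h3 (by positivity)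
      have h5 : 2 ^ 10 ≤ (own F.I m0 F.m x).card := by exact_mod_cast h4
      have h2h : (0:ℤ) < 2 ^ h := by positivity
      have hin : ∀ c ∈ own F.I m0 F.m x, c0 * 2 ^ h ≤ c ∧ c < (c0 + 1) * 2 ^ h := by
        intro c hc
        obtain ⟨y, hy, hy1, hy2, hy3⟩ := mem_own.1 hc
        have hdiv : c / 2 ^ h = c0 := by
          have := zc_eq (i := m0) (j := F.m) (by omega) (z := y.2)
          rw [hbase y hy, hy3] at this
          rw [this]
          congr 2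
          omega
        constructor
        · rw [← hdiv]; exact Int.ediv_mul_le _ h2h.ne'
        · rw [← hdiv]; exact Int.lt_ediv_add_one_mul_self c h2h
      refine h5.trans (card_le_card_of_injOn (fun c => (c - c0 * 2 ^ h).toNat)
        (fun c hc => ?_) (fun c hc c' hc' hcc => ?_))
      · rw [Finset.mem_coe] at hc
        obtain ⟨g1, g2⟩ := hin c hc
        obtain ⟨y, hy, hy1, hy2, hy3⟩ := mem_own.1 hc
        have g3 : (((c - c0 * 2 ^ h).toNat : ℕ) : ℤ) = c - c0 * 2 ^ h :=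
          Int.toNat_of_nonneg (by linarith)
        simp only [Finset.mem_coe, Finset.mem_filter, Finset.mem_range]
        refine ⟨?_, ?_⟩
        · have : (((c - c0 * 2 ^ h).toNat : ℕ) : ℤ) < ((2 ^ h : ℕ) : ℤ) := by
            rw [g3]; push_cast; linarith
          exact_mod_cast this
        · show t ∈ alive F.I F.m (c0 * 2 ^ h + (((c - c0 * 2 ^ h).toNat : ℕ) : ℤ))
          refine mem_alive.2 ⟨y, hy, hy1.trans hxt, ?_⟩
          rw [hy3, g3]; ring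
      · rw [Finset.mem_coe] at hc hc'
        have g3 : (((c - c0 * 2 ^ h).toNat : ℕ) : ℤ) = c - c0 * 2 ^ h :=
          Int.toNat_of_nonneg (by linarith [(hin c hc).1])
        have g4 : (((c' - c0 * 2 ^ h).toNat : ℕ) : ℤ) = c' - c0 * 2 ^ h :=
          Int.toNat_of_nonneg (by linarith [(hin c' hc').1])
        have hcc' : (c - c0 * 2 ^ h).toNat = (c' - c0 * 2 ^ h).toNat := hcc
        rw [hcc'] at g3
        linarith)
    (by positivity)
    (by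
      intro a' w2' w1' ga g2 g1
      have e : R' a' w2' w1' = 17 ^ 9 * X := by
        refine if_pos ⟨?_, ?_, ?_⟩
        · rw [← hwa]; exact ga
        · rw [← hw2]; exact g2
        · rw [← hw1]; exact g1
      rw [e])
  have hvol : (TS36 r).vol (F.m + F.M) F.a = s0.2.a * s0.2.w 2 * s0.2.w 1 := by
    rw [hwa, hw1, hw2]
    show (1 / 2 : ℝ) ^ (F.a 0) * (1 / 2 : ℝ) ^ (F.a 1) * (1 / 2 : ℝ) ^ (F.a 2) = _
    ring
  rw [hvol] at hlow
  have pv : 0 < s0.2.a * s0.2.w 2 * s0.2.w 1 := by rw [hwa, hw1, hw2]; positivity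
  refine le_of_mul_le_mul_right (hlow.trans (hmain.trans (le_of_eq ?_))) pv
  ring


end

end Crest.Agent.R136.Bd792
end

-- ▼ part R136/Sft1_289
section

/-!
# R136, block U4, route G (helper289), part 1: the end bound

`bdd36s` : `bdd36` (helper792) with the hypothesis on the reward only for relative exponents
`l ≤ x 1`, `l ≤ x 2` (the test sheets of `ubgG` are at most as wide as the top marks, in absolute
terms).  Adapted from `Bd36_792`.
-/

set_option autoImplicit false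
set_option linter.unusedVariables false

open Finset

namespace Crest.Agent.R136.Sft289

open Crest.Agent.R116.Xa794 (TS)
open Crest.Agent.R116.Xc794
open Crest.Agent.R138.Mk163 (zc zl rho alive own)
open Crest.Agent.R138.MkRef627 (mem_alive)
open Crest.Agent.R136.KF879 Crest.Agent.R136.Tq879 Crest.Agent.R136.Bd792
open Sh605 K4 UB289 Sh321 Rnd289

noncomputable section

open Classical in
/-- the count of one (arbitrary) sheet of the test level -/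
theorem test_leS {r : ℝ} (hr : 0 < r) {Ψ : ℝ → (Fin 3 → ℝ) → ℝ} {F : Cfg Ln4 (Fin 3) Plk4} {h : ℕ}
    (hO : OkH (TS36 r) Ψ h F) {r1 : ℝ} (hr1 : r1 = (1 / 2 : ℝ) ^ (F.a 0)) (hrr : r ≤ r1)
    {L : ℕ} {X D : ℝ} (hD : 0 < D) (hDD : F.D0 ≤ D)
    (hX : ∀ x : Fin 3 → ℝ, (∀ j, |x j| ≤ L + 3 + F.M) → (F.M : ℝ) ≤ x 1 → (F.M : ℝ) ≤ x 2 →
      (2:ℝ) ^ (-(Ψ F.M x)) ≤ X)
    {K : Plk4} (hK : LegN F.m r1 1 K)
    (ha : (1 / 2 : ℝ) ^ (F.a 0) ≤ K.a ∧ K.a ≤ 2 ^ L * (1 / 2 : ℝ) ^ (F.a 0))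
    (h2 : K.w 2 ≤ (1 / 2 : ℝ) ^ (F.a 2) ∧ (1 / 2 : ℝ) ^ (F.a 2) ≤ 2 ^ L * K.w 2)
    (h1 : K.w 1 ≤ (1 / 2 : ℝ) ^ (F.a 1) ∧ (1 / 2 : ℝ) ^ (F.a 1) ≤ 2 ^ L * K.w 1)
    (T : Finset ℕ) (hT : ∀ t ∈ T, t ∈ alive F.I F.m K.j ∧ (∀ k, |(F.L t).v k| ≤ 1) ∧
      InSheet (F.L t) K.e K.c K.w K.q K.a (zl F.m K.j) (rho F.m)) :
    (T.card : ℝ) ≤ D * (K.a * K.w 2 * K.w 1 * (17 ^ 9 * X)) := by
  have hr1' : 0 < r1 := hr.trans_le hrr
  obtain ⟨c', w', q', a', i, j, k, hS, ea, e2, e1, ba, b2, b1, -, -, hc⟩ :=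
    rnd_C (LegN.toC (Λ := 1) hr1' hK).1 hr1' (by positivity) F.L T (fun t ht => (hT t ht).2.2)
  obtain ⟨pa, p0, p2, p1⟩ := hS.pos hr1'
  have hw1 : w' 1 ≤ 1 := b1.1.trans (hK.2.trans (by
    rw [div_le_one (by positivity)]; exact one_le_pow₀ (by norm_num)))
  have hw21 : w' 2 ≤ w' 1 := hS.toN.w_le
  have hwa2 : a' ≤ w' 2 := hS.toN.a_le
  rw [hr1] at ea e2 e1
  have ea' : a' = (1 / 2 : ℝ) ^ (F.a 0 - i) := ea.trans (dy_exp (by rw [← ea]; linarith))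
  have e2' : w' 2 = (1 / 2 : ℝ) ^ (F.a 0 - j) := e2.trans (dy_exp (by rw [← e2]; linarith))
  have e1' : w' 1 = (1 / 2 : ℝ) ^ (F.a 0 - k) := e1.trans (dy_exp (by rw [← e1]; linarith))
  set K' : Plk4 := ⟨K.j, K.e, c', w', q', a'⟩ with hK'
  set s : Fin 3 → ℕ := ![F.a 0 - i, F.a 0 - k, F.a 0 - j] with hs
  have hadm : (TS36 r).adm F.m K.j (s, K') := by
    refine ⟨?_, ?_, ?_⟩
    · have h3 := hS.toN
      exact ⟨h3.ortho, h3.isQ, h3.a_le0, h3.w0_le, h3.w_le, hrr.trans h3.r0_le, h3.st0, h3.sl1,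
        h3.sl2⟩
    · exact b1.1.trans hK.2
    · intro l
      fin_cases l
      · exact ea'
      · exact e1'
      · exact e2'
  have hup := hO.up K.j (s, K') hadm
  have hsub : ((T.filter fun t => InSheet (F.L t) K.e c' w' q' a' (zl F.m K.j) (rho F.m)).card : ℝ)
      ≤ (((alive F.I F.m K.j).filter fun t => (TS36 r).mem F.m K.j (s, K') (F.L t)).card : ℝ) := by
    refine Nat.cast_le.2 (card_le_card fun t ht => ?_)
    rw [mem_filter] at ht ⊢
    exact ⟨(hT t ht.1).1, ht.2, (hT t ht.1).2.1⟩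
  -- the relative exponents
  have hrel : (2:ℝ) ^ (-(Ψ (((F.m + F.M : ℕ) : ℝ) - (F.m : ℕ)) (rel F.m s (F.m + F.M) F.a))) ≤ X := by
    have e : ((F.m + F.M : ℕ) : ℝ) - (F.m : ℕ) = (F.M : ℝ) := by push_cast; ring
    rw [e]
    have low : ∀ σ α : ℕ, (α : ℤ) - σ ≤ 0 →
        (F.M : ℝ) ≤ ((σ : ℝ) - F.m) - ((α : ℝ) - ((F.m + F.M : ℕ) : ℝ)) := by
      intro σ α g1
      have g1' : (α : ℝ) - σ ≤ 0 := by exact_mod_cast g1
      push_cast
      linarith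
    refine hX _ (fun l => ?_) ?_ ?_
    rotate_left
    · obtain ⟨g1, g2⟩ := exp_close (s := F.a 0 - k) (α := F.a 1) (k := L + 3) (L := 0)
        (by rw [← e1', pow_zero, one_mul]; exact b1.1.trans h1.1)
        (by
          rw [← e1', pow_add, mul_assoc]
          exact h1.2.trans (mul_le_mul_of_nonneg_left (b1.2.trans (by norm_num)) (by positivity)))
      exact low (F.a 0 - k) (F.a 1) (by exact_mod_cast g1)
    · obtain ⟨g1, g2⟩ := exp_close (s := F.a 0 - j) (α := F.a 2) (k := L + 2) (L := 0)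
        (by rw [← e2', pow_zero, one_mul]; exact b2.1.trans h2.1)
        (by
          rw [← e2', pow_add, mul_assoc]
          exact h2.2.trans (mul_le_mul_of_nonneg_left (b2.2.trans (by norm_num)) (by positivity)))
      exact low (F.a 0 - j) (F.a 2) (by exact_mod_cast g1)
    have key : ∀ σ α : ℕ, (α : ℤ) - σ ≤ L → (σ : ℤ) - α ≤ L + 3 →
        |((σ : ℝ) - F.m) - ((α : ℝ) - ((F.m + F.M : ℕ) : ℝ))| ≤ L + 3 + F.M := by
      intro σ α g1 g2
      have g1' : (α : ℝ) - σ ≤ L := by exact_mod_cast g1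
      have g2' : (σ : ℝ) - α ≤ L + 3 := by exact_mod_cast g2
      have hM0 : (0:ℝ) ≤ F.M := Nat.cast_nonneg _
      rw [abs_le]; push_cast
      constructor <;> linarith
    fin_cases l
    · obtain ⟨g1, g2⟩ := exp_close (s := F.a 0 - i) (α := F.a 0) (k := 1) (L := L)
        (by rw [← ea']; exact ba.1.trans ha.2)
        (by rw [← ea', pow_one]; exact ha.1.trans ba.2)
      exact key (F.a 0 - i) (F.a 0) g1 (by omega)
    · obtain ⟨g1, g2⟩ := exp_close (s := F.a 0 - k) (α := F.a 1) (k := L + 3) (L := 0)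
        (by rw [← e1', pow_zero, one_mul]; exact b1.1.trans h1.1)
        (by
          rw [← e1', pow_add, mul_assoc]
          exact h1.2.trans (mul_le_mul_of_nonneg_left (b1.2.trans (by norm_num)) (by positivity)))
      exact key (F.a 0 - k) (F.a 1) (by omega) (by omega)
    · obtain ⟨g1, g2⟩ := exp_close (s := F.a 0 - j) (α := F.a 2) (k := L + 2) (L := 0)
        (by rw [← e2', pow_zero, one_mul]; exact b2.1.trans h2.1)
        (by
          rw [← e2', pow_add, mul_assoc]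
          exact h2.2.trans (mul_le_mul_of_nonneg_left (b2.2.trans (by norm_num)) (by positivity)))
      exact key (F.a 0 - j) (F.a 2) (by omega) (by omega)
  have hX0 : 0 ≤ X := le_trans (by positivity) hrel
  have hvol : (TS36 r).vol F.m s = a' * w' 2 * w' 1 := by
    have := vol_eq hadm
    exact this
  have hcap : capP (TS36 r) Ψ (F.m + F.M) F.a F.m s ≤ K.a * K.w 2 * K.w 1 * X := by
    unfold capP
    rw [hvol]
    have pK2 : 0 ≤ K.w 2 := p2.le.trans b2.1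
    have pK1 : 0 ≤ K.w 1 := p1.le.trans b1.1
    have pKa : 0 ≤ K.a := pa.le.trans ba.1
    have g1 : a' * w' 2 * w' 1 ≤ K.a * K.w 2 * K.w 1 := by
      have := ba.1; have := b2.1; have := b1.1
      gcongr
    exact mul_le_mul g1 hrel (by positivity) (mul_nonneg (mul_nonneg pKa pK2) pK1)
  have pcap : 0 ≤ capP (TS36 r) Ψ (F.m + F.M) F.a F.m s := by
    unfold capP
    have := (TS36 r).volpos F.m s
    positivity
  calc (T.card : ℝ) ≤ 17 ^ 9 *
        ((T.filter fun t => InSheet (F.L t) K.e c' w' q' a' (zl F.m K.j) (rho F.m)).card : ℝ) := hc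
    _ ≤ 17 ^ 9 * (F.D0 * capP (TS36 r) Ψ (F.m + F.M) F.a F.m s) :=
        mul_le_mul_of_nonneg_left (hsub.trans hup) (by norm_num)
    _ ≤ 17 ^ 9 * (D * (K.a * K.w 2 * K.w 1 * X)) := by
        refine mul_le_mul_of_nonneg_left ?_ (by norm_num)
        exact (mul_le_mul_of_nonneg_right hDD pcap).trans (mul_le_mul_of_nonneg_left hcap hD.le)
    _ = _ := by ring

open Classical in
/-- the count of a top class -/
theorem coreS {r : ℝ} (hr : 0 < r) {Ψ : ℝ → (Fin 3 → ℝ) → ℝ} {F : Cfg Ln4 (Fin 3) Plk4} {h : ℕ}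
    (hO : OkH (TS36 r) Ψ h F) (h10 : 10 ≤ h) (hnu : (2:ℝ) ^ (10 + F.M) ≤ F.nu) {X D : ℝ}
    (hD : 0 < D) (hDD : F.D0 ≤ D) (hX0 : 0 ≤ X)
    (hX : ∀ x : Fin 3 → ℝ, (∀ j, |x j| ≤ ((4 * (F.M + h + h + 10) : ℕ) : ℝ) + 3 + F.M) →
      (F.M : ℝ) ≤ x 1 → (F.M : ℝ) ≤ x 2 → (2:ℝ) ^ (-(Ψ F.M x)) ≤ X) :
    F.D1 ≤ 2 ^ (29 * (F.M + h + h + 10)) * D * (17 ^ 9 * X) := by
  obtain ⟨x0, hx0⟩ := hO.ne
  obtain ⟨m0, hm⟩ : ∃ m0, F.m = m0 + h := ⟨F.m - h, by have := hO.h_le; omega⟩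
  have hm0 : F.m - h = m0 := by omega
  set c0 : ℤ := zc m0 x0.2 with hc0
  set J : ℤ := zc (F.m + F.M) x0.2 with hJ
  have ht0 : x0.1 ∈ alive F.I (F.m + F.M) J := mem_alive.2 ⟨x0, hx0, rfl, rfl⟩
  obtain ⟨hmem0, hadm0, ha0⟩ := hO.top J x0.1 ht0
  have hlow := hO.low J x0.1 ht0
  obtain ⟨s0, hs0⟩ : ∃ s0, s0 = F.b (F.f x0.1 J) := ⟨_, rfl⟩
  rw [← hs0] at hmem0 hadm0 ha0
  obtain ⟨hSN, hS1, hSw⟩ := hadm0
  rw [ha0] at hSw
  have hwa : s0.2.a = (1 / 2 : ℝ) ^ (F.a 0) := by rw [← hSw 0]; rfl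
  have hw1 : s0.2.w 1 = (1 / 2 : ℝ) ^ (F.a 1) := by rw [← hSw 1]; rfl
  have hw2 : s0.2.w 2 = (1 / 2 : ℝ) ^ (F.a 2) := by rw [← hSw 2]; rfl
  have hrr : r ≤ (1 / 2 : ℝ) ^ (F.a 0) := hSN.r0_le.trans hwa.le
  have hr1 : (0:ℝ) < (1 / 2 : ℝ) ^ (F.a 0) := by positivity
  have hbase : ∀ x ∈ F.I, zc m0 x.2 = c0 := by
    intro x hx
    have := hO.cell x hx x0 hx0
    rw [hm0] at this
    exact this
  have hslope : ∀ i c, ∀ t ∈ alive F.I i c, ∀ k, |(F.L t).v k| ≤ 1 := by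
    intro i c t ht
    obtain ⟨x, hx, h1, h2⟩ := mem_alive.1 ht
    exact (hO.top (zc (F.m + F.M) x.2) t (mem_alive.2 ⟨x, hx, h1, rfl⟩)).1.2
  set T : Finset ℕ := (alive F.I (F.m + F.M) J).filter fun t => F.f t J = F.f x0.1 J with hT
  set al : ℕ → Finset ℕ := fun j => alive F.I F.m (c0 * 2 ^ h + j) with hal
  set N : ℝ := ((F.I.image Prod.fst).card : ℝ) with hN
  have hN0 : 0 ≤ N := Nat.cast_nonneg _
  set L : ℕ := 4 * (F.M + h + h + 10) with hL
  let Rg : ℝ → ℝ → ℝ → Prop := fun a w2 w1 =>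
    ((1 / 2 : ℝ) ^ (F.a 0) ≤ a ∧ a ≤ 2 ^ L * (1 / 2 : ℝ) ^ (F.a 0)) ∧
      (w2 ≤ (1 / 2 : ℝ) ^ (F.a 2) ∧ (1 / 2 : ℝ) ^ (F.a 2) ≤ 2 ^ L * w2) ∧
      (w1 ≤ (1 / 2 : ℝ) ^ (F.a 1) ∧ (1 / 2 : ℝ) ^ (F.a 1) ≤ 2 ^ L * w1)
  let R' : ℝ → ℝ → ℝ → ℝ := fun a w2 w1 =>
    if Rg a w2 w1 then 17 ^ 9 * X else N / (D * (a * w2 * w1))
  have hmp : (0:ℝ) < 2 ^ m0 := by positivity
  have hmain := ubgG pos_shN (κ := 24) (p := 4) (by norm_num) UB861.ubOneC (F.M + h) h h10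
    (by omega) (by omega) F.L T al ((c0:ℝ) / 2 ^ m0) (1 / 2 ^ (F.m + F.M)) (1 / 2 ^ F.m)
    ((1 / 2 : ℝ) ^ (F.a 0)) D (fun _ _ _ => 17 ^ 9 * X) R' (by positivity) hr1 hD.le
    (by
      have e : (2:ℝ) ^ (F.m + F.M) = 2 ^ F.m * 2 ^ F.M := pow_add _ _ _
      have e' : (2:ℝ) ^ (F.M + h) = 2 ^ F.M * 2 ^ h := pow_add _ _ _
      rw [e, e']; field_simp)
    (by
      intro j hj e c w q a hS hw
      have hz : (c0:ℝ) / 2 ^ m0 + j * (1 / 2 ^ F.m) = ((c0 * 2 ^ h + j : ℤ) : ℝ) / 2 ^ F.m := by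
        push_cast
        rw [hm, pow_add]
        field_simp
      rw [hz] at hS ⊢
      have hpw : ∀ i, 0 < w i := pos_shN.wpos hS hr1
      have pa : 0 < a := hr1.trans_le hS.r0_le
      have p2 := hpw 2
      have p1 := hpw 1
      by_cases hr' : Rg a (w 2) (w 1)
      · have eR : R' a (w 2) (w 1) = 17 ^ 9 * X := if_pos hr'
        rw [eR]
        exact test_leS hr hO rfl hrr hD hDD hX (K := ⟨c0 * 2 ^ h + j, e, c, w, q, a⟩) ⟨hS, hw⟩
          hr'.1 hr'.2.1 hr'.2.2 _ (fun t ht => by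
            rw [mem_filter] at ht
            exact ⟨ht.1, hslope _ _ t ht.1, ht.2⟩)
      · have eR : R' a (w 2) (w 1) = N / (D * (a * w 2 * w 1)) := if_neg hr'
        rw [eR]
        have e2 : D * (a * w 2 * w 1 * (N / (D * (a * w 2 * w 1)))) = N := by field_simp
        rw [e2, hN]
        refine Nat.cast_le.2 (card_le_card fun t ht => ?_)
        rw [mem_filter] at ht
        obtain ⟨x, hx, h1, h2⟩ := mem_alive.1 ht.1
        exact mem_image.2 ⟨x, hx, h1⟩)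
    s0.2.e s0.2.c s0.2.w s0.2.q s0.2.a ((J : ℝ) / 2 ^ (F.m + F.M))
    (by
      have h1 : c0 = J / 2 ^ (F.M + h) := by
        have := zc_eq (i := m0) (j := F.m + F.M) (by omega) (z := x0.2)
        rw [hc0, this, ← hJ]
        congr 2
        omega
      have h2 : c0 * 2 ^ (F.M + h) ≤ J := by
        rw [h1]; exact Int.ediv_mul_le _ (by positivity)
      have h2' : (c0:ℝ) * 2 ^ (F.M + h) ≤ J := by exact_mod_cast h2
      rw [div_le_div_iff₀ hmp (by positivity)]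
      have e : (2:ℝ) ^ (F.m + F.M) = 2 ^ (F.M + h) * 2 ^ m0 := by
        rw [← pow_add]; congr 1; omega
      rw [e, ← mul_assoc]
      exact mul_le_mul_of_nonneg_right h2' hmp.le)
    (by
      have h1 : c0 = J / 2 ^ (F.M + h) := by
        have := zc_eq (i := m0) (j := F.m + F.M) (by omega) (z := x0.2)
        rw [hc0, this, ← hJ]
        congr 2
        omega
      have h2 : J + 1 ≤ (c0 + 1) * 2 ^ (F.M + h) := by
        rw [h1]; exact Int.lt_ediv_add_one_mul_self J (by positivity)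
      have h2' : (J:ℝ) + 1 ≤ ((c0:ℝ) + 1) * 2 ^ (F.M + h) := by exact_mod_cast h2
      have e : (2:ℝ) ^ (F.m + F.M) = 2 ^ (F.M + h) * 2 ^ m0 := by
        rw [← pow_add]; congr 1; omega
      rw [e]
      have e1 : (J:ℝ) / (2 ^ (F.M + h) * 2 ^ m0) + 1 / (2 ^ (F.M + h) * 2 ^ m0) =
          ((J:ℝ) + 1) / (2 ^ (F.M + h) * 2 ^ m0) := by ring
      have e2 : (c0:ℝ) / 2 ^ m0 + 2 ^ (F.M + h) * (1 / (2 ^ (F.M + h) * 2 ^ m0)) =
          (((c0:ℝ) + 1) * 2 ^ (F.M + h)) / (2 ^ (F.M + h) * 2 ^ m0) := by field_simp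
      rw [e1, e2]
      exact div_le_div_of_nonneg_right h2' (by positivity))
    ⟨hSN.ortho, hSN.isQ, hSN.a_le0, hSN.w0_le, hSN.w_le, hwa.ge, hSN.st0, hSN.sl1, hSN.sl2⟩ hS1
    (by
      intro t ht
      rw [hT, mem_filter] at ht
      have h1 := (hO.top J t ht.1).1
      rw [ht.2, ← hs0] at h1
      exact h1.1)
    (by
      intro t ht
      rw [hT, mem_filter] at ht
      obtain ⟨x, hx, hxt, hxJ⟩ := mem_alive.1 ht.1
      have h1 := hO.own x hx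
      rw [hm0] at h1
      have h2 := own_mid (I := F.I) (i := m0) (m := F.m) (j := F.m + F.M) (by omega) x
      have h3 : (2:ℝ) ^ 10 * 2 ^ F.M ≤ 2 ^ F.M * ((own F.I m0 F.m x).card : ℝ) := by
        rw [← pow_add]
        refine hnu.trans (h1.trans ?_)
        have : F.m + F.M - F.m = F.M := by omega
        rw [this] at h2
        exact_mod_cast h2
      have h4 : (2:ℝ) ^ 10 ≤ ((own F.I m0 F.m x).card : ℝ) := by
        rw [mul_comm] at h3
        exact le_of_mul_le_mul_left h3 (by positivity)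
      have h5 : 2 ^ 10 ≤ (own F.I m0 F.m x).card := by exact_mod_cast h4
      have h2h : (0:ℤ) < 2 ^ h := by positivity
      have hin : ∀ c ∈ own F.I m0 F.m x, c0 * 2 ^ h ≤ c ∧ c < (c0 + 1) * 2 ^ h := by
        intro c hc
        obtain ⟨y, hy, hy1, hy2, hy3⟩ := mem_own.1 hc
        have hdiv : c / 2 ^ h = c0 := by
          have := zc_eq (i := m0) (j := F.m) (by omega) (z := y.2)
          rw [hbase y hy, hy3] at this
          rw [this]
          congr 2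
          omega
        constructor
        · rw [← hdiv]; exact Int.ediv_mul_le _ h2h.ne'
        · rw [← hdiv]; exact Int.lt_ediv_add_one_mul_self c h2h
      refine h5.trans (card_le_card_of_injOn (fun c => (c - c0 * 2 ^ h).toNat)
        (fun c hc => ?_) (fun c hc c' hc' hcc => ?_))
      · rw [Finset.mem_coe] at hc
        obtain ⟨g1, g2⟩ := hin c hc
        obtain ⟨y, hy, hy1, hy2, hy3⟩ := mem_own.1 hc
        have g3 : (((c - c0 * 2 ^ h).toNat : ℕ) : ℤ) = c - c0 * 2 ^ h :=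
          Int.toNat_of_nonneg (by linarith)
        simp only [Finset.mem_coe, Finset.mem_filter, Finset.mem_range]
        refine ⟨?_, ?_⟩
        · have : (((c - c0 * 2 ^ h).toNat : ℕ) : ℤ) < ((2 ^ h : ℕ) : ℤ) := by
            rw [g3]; push_cast; linarith
          exact_mod_cast this
        · show t ∈ alive F.I F.m (c0 * 2 ^ h + (((c - c0 * 2 ^ h).toNat : ℕ) : ℤ))
          refine mem_alive.2 ⟨y, hy, hy1.trans hxt, ?_⟩
          rw [hy3, g3]; ring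
      · rw [Finset.mem_coe] at hc hc'
        have g3 : (((c - c0 * 2 ^ h).toNat : ℕ) : ℤ) = c - c0 * 2 ^ h :=
          Int.toNat_of_nonneg (by linarith [(hin c hc).1])
        have g4 : (((c' - c0 * 2 ^ h).toNat : ℕ) : ℤ) = c' - c0 * 2 ^ h :=
          Int.toNat_of_nonneg (by linarith [(hin c' hc').1])
        have hcc' : (c - c0 * 2 ^ h).toNat = (c' - c0 * 2 ^ h).toNat := hcc
        rw [hcc'] at g3
        linarith)
    (by positivity)
    (by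
      intro a' w2' w1' ga g2 g1
      have e : R' a' w2' w1' = 17 ^ 9 * X := by
        refine if_pos ⟨?_, ?_, ?_⟩
        · rw [← hwa]; exact ga
        · rw [← hw2]; exact g2
        · rw [← hw1]; exact g1
      rw [e])
  have hvol : (TS36 r).vol (F.m + F.M) F.a = s0.2.a * s0.2.w 2 * s0.2.w 1 := by
    rw [hwa, hw1, hw2]
    show (1 / 2 : ℝ) ^ (F.a 0) * (1 / 2 : ℝ) ^ (F.a 1) * (1 / 2 : ℝ) ^ (F.a 2) = _
    ring
  rw [hvol] at hlow
  have pv : 0 < s0.2.a * s0.2.w 2 * s0.2.w 1 := by rw [hwa, hw1, hw2]; positivity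
  refine le_of_mul_le_mul_right (hlow.trans (hmain.trans (le_of_eq ?_))) pv
  ring

/-- **boundedness of the gap**, one-sided relative widths -/
theorem bdd36s (K : ℕ) : ∃ C1 : ℝ, 0 < C1 ∧ ∀ (Ψ : ℝ → (Fin 3 → ℝ) → ℝ) (B : ℝ),
    (∀ l x, 0 ≤ l → (∀ j, |x j| ≤ C1 * l) → l ≤ x 1 → l ≤ x 2 → B * l ≤ Ψ l x) →
      UBH K TT36 Ψ (C1 - B) := by
  refine ⟨500, by norm_num, fun Ψ B hΨ η hη => ⟨1 / (2 * (K + 1)), by positivity, 20 * K + 1, ?_⟩⟩
  rintro T ⟨r, hr, rfl⟩ F h hO hM0 hMK hhM hlog hN hnu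
  have hM1 : 1 ≤ F.M := hO.M1
  have hM1' : (1:ℝ) ≤ F.M := by exact_mod_cast hM1
  have hh20 : 20 ≤ h := by
    by_contra hlt
    rw [not_le] at hlt
    have : K * h ≤ K * 20 := Nat.mul_le_mul_left _ hlt.le
    omega
  have hh' : (h:ℝ) ≤ F.M := by exact_mod_cast hhM
  have hh20' : (20:ℝ) ≤ h := by exact_mod_cast hh20
  have hMK' : (F.M:ℝ) ≤ K * h := by exact_mod_cast hMK
  -- own counts
  have hnu' : (2:ℝ) ^ (10 + F.M) ≤ F.nu := by
    refine le_trans ?_ hnu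
    rw [← Real.rpow_natCast]
    refine Real.rpow_le_rpow_of_exponent_le (by norm_num) ?_
    have h1 : 1 / (2 * ((K:ℝ) + 1)) * (F.M + h) ≤ h / 2 := by
      rw [div_mul_eq_mul_div, one_mul, div_le_div_iff₀ (by positivity) (by norm_num)]
      nlinarith
    push_cast
    linarith
  -- the bound
  have hX : ∀ x : Fin 3 → ℝ, (∀ j, |x j| ≤ ((4 * (F.M + h + h + 10) : ℕ) : ℝ) + 3 + F.M) →
      (F.M : ℝ) ≤ x 1 → (F.M : ℝ) ≤ x 2 → (2:ℝ) ^ (-(Ψ F.M x)) ≤ (2:ℝ) ^ (-(B * F.M)) := by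
    intro x hx hx1 hx2
    refine Real.rpow_le_rpow_of_exponent_le (by norm_num) (neg_le_neg ?_)
    refine hΨ _ _ (by positivity) (fun j => (hx j).trans ?_) hx1 hx2
    push_cast
    linarith
  have key : ∀ D : ℝ, 0 < D → F.D0 ≤ D → F.D1 ≤ (2:ℝ) ^ ((500 - B) * F.M) * D := by
    intro D hD hDD
    refine (coreS hr hO (by omega) hnu' hD hDD (by positivity) hX).trans ?_
    have e1 : (2:ℝ) ^ (29 * (F.M + h + h + 10)) * D * (17 ^ 9 * (2:ℝ) ^ (-(B * F.M))) =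
        ((2:ℝ) ^ (29 * (F.M + h + h + 10)) * 17 ^ 9 * (2:ℝ) ^ (-(B * F.M))) * D := by ring
    rw [e1]
    refine mul_le_mul_of_nonneg_right ?_ hD.le
    have e2 : (2:ℝ) ^ ((500 - B) * F.M) = (2:ℝ) ^ ((500:ℝ) * F.M) * (2:ℝ) ^ (-(B * F.M)) := by
      rw [← Real.rpow_add (by norm_num)]; congr 1; ring
    rw [e2]
    refine mul_le_mul_of_nonneg_right ?_ (by positivity)
    have e3 : (17:ℝ) ^ 9 ≤ 2 ^ 45 := by norm_num
    have e4 : (2:ℝ) ^ (29 * (F.M + h + h + 10)) * 17 ^ 9 ≤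
        (2:ℝ) ^ (29 * (F.M + h + h + 10) + 45) := by
      rw [pow_add]
      exact mul_le_mul_of_nonneg_left e3 (by positivity)
    refine e4.trans ?_
    rw [← Real.rpow_natCast]
    refine Real.rpow_le_rpow_of_exponent_le (by norm_num) ?_
    push_cast
    linarith
  have hfin : F.D1 ≤ (2:ℝ) ^ ((500 - B) * F.M) * F.D0 ∧ 0 < F.D0 := by
    have hD0 : 0 < F.D0 := by
      by_contra hn
      rw [not_lt] at hn
      have pD := hO.D1p
      have pX : (0:ℝ) < (2:ℝ) ^ ((500 - B) * F.M) := by positivity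
      have h4 := key (F.D1 / (2 * (2:ℝ) ^ ((500 - B) * F.M))) (by positivity)
        (hn.trans (by positivity))
      have e : (2:ℝ) ^ ((500 - B) * F.M) * (F.D1 / (2 * (2:ℝ) ^ ((500 - B) * F.M))) =
          F.D1 / 2 := by field_simp
      rw [e] at h4
      linarith
    exact ⟨key F.D0 hD0 le_rfl, hD0⟩
  refine hfin.1.trans (mul_le_mul_of_nonneg_right ?_ hfin.2.le)
  refine Real.rpow_le_rpow_of_exponent_le (by norm_num) ?_
  refine mul_le_mul_of_nonneg_right ?_ (by positivity)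
  linarith

end

end Crest.Agent.R136.Sft289
end

-- ▼ part R136/Sel1_823
section

/-!
# R136, block U4 (helper823): exact selection of several parameters

* `exists_last` : a function whose jumps along increasing sequences go upward has a maximal element
  of its upper level set ("last time" argument), off the upper faces.
* `exists_par`  : three parameters `s` (strong), `u` (logarithmic), `t` (weak).
-/

set_option autoImplicit false
set_option linter.unusedVariables false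

open Finset Filter Topology

namespace Crest.Agent.R136.Sel823

/-- **last point of an upper level set.** -/
theorem exists_last {ι : Type} [Fintype ι] {Z : (ι → ℝ) → ℝ} {lo hi : ι → ℝ} {C : ℝ}
    (hC : 0 ≤ C) (hlh : lo ≤ hi)
    (hZ : ∀ x ∈ Set.Icc lo hi, ∀ y ∈ Set.Icc lo hi, x ≤ y → Z x - C * ∑ i, (y i - x i) ≤ Z y)
    (hf : ∀ x ∈ Set.Icc lo hi, (∃ i, x i = hi i) → Z x < Z lo) :
    ∃ x ∈ Set.Icc lo hi, (∀ i, x i < hi i) ∧ Z lo ≤ Z x ∧
      ∀ y ∈ Set.Icc lo hi, x ≤ y → Z y ≤ Z x := by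
  classical
  have hloI : lo ∈ Set.Icc lo hi := ⟨le_rfl, hlh⟩
  obtain ⟨m, hm1, hm2⟩ := zorn_le_nonempty₀ {x | x ∈ Set.Icc lo hi ∧ Z lo ≤ Z x} (by
    intro c hc hch y hy
    have hbdd : ∀ i, BddAbove ((fun x : ι → ℝ => x i) '' c) := by
      intro i
      refine ⟨hi i, ?_⟩
      rintro _ ⟨x, hx, rfl⟩
      exact (hc hx).1.2 i
    set b : ι → ℝ := fun i => sSup ((fun x : ι → ℝ => x i) '' c) with hb
    have hle : ∀ x ∈ c, x ≤ b := fun x hx i => le_csSup (hbdd i) ⟨x, hx, rfl⟩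
    have hbI : b ∈ Set.Icc lo hi := by
      refine ⟨(hc hy).1.1.trans (hle y hy), fun i => ?_⟩
      refine csSup_le ⟨_, ⟨y, hy, rfl⟩⟩ ?_
      rintro _ ⟨x, hx, rfl⟩
      exact (hc hx).1.2 i
    refine ⟨b, ⟨hbI, ?_⟩, hle⟩
    -- approximation by one element of the chain
    have happ : ∀ ε : ℝ, 0 < ε → ∀ s : Finset ι, ∃ x ∈ c, ∀ i ∈ s, b i - ε < x i := by
      intro ε hε s
      induction s using Finset.induction_on with
      | empty => exact ⟨y, hy, by simp⟩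
      | insert j s hj ih =>
        obtain ⟨x, hx, h1⟩ := ih
        have h2 : b j - ε < b j := by linarith
        obtain ⟨_, ⟨x', hx', rfl⟩, h3⟩ := exists_lt_of_lt_csSup
          (s := (fun x : ι → ℝ => x j) '' c) ⟨_, ⟨y, hy, rfl⟩⟩ h2
        rcases hch.total hx hx' with h4 | h4
        · refine ⟨x', hx', fun i hi => ?_⟩
          rcases mem_insert.1 hi with rfl | hi
          · exact h3
          · exact (h1 i hi).trans_le (h4 i)
        · refine ⟨x, hx, fun i hi => ?_⟩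
          rcases mem_insert.1 hi with rfl | hi
          · exact lt_of_lt_of_le h3 (h4 i)
          · exact h1 i hi
    refine le_of_forall_pos_le_add fun ε hε => ?_
    set N : ℝ := (Fintype.card ι : ℝ) with hN
    have hN0 : 0 ≤ N := Nat.cast_nonneg _
    obtain ⟨x, hx, h1⟩ := happ (ε / (C * N + 1)) (by positivity) univ
    have h2 := hZ x (hc hx).1 b hbI (hle x hx)
    have h3 : ∑ i, (b i - x i) ≤ N * (ε / (C * N + 1)) := by
      have : ∑ i, (b i - x i) ≤ ∑ _i : ι, ε / (C * N + 1) := Finset.sum_le_sum fun i _ => by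
        have := h1 i (mem_univ i)
        linarith
      rw [Finset.sum_const, Finset.card_univ, nsmul_eq_mul] at this
      exact this
    have h4 : C * (N * (ε / (C * N + 1))) ≤ ε := by
      have e : C * (N * (ε / (C * N + 1))) = ε * ((C * N) / (C * N + 1)) := by ring
      rw [e]
      have : (C * N) / (C * N + 1) ≤ 1 := by
        rw [div_le_one (by positivity)]; linarith
      nlinarith
    have h5 := mul_le_mul_of_nonneg_left h3 hC
    have h6 := (hc hx).2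
    linarith) lo ⟨hloI, le_rfl⟩
  have hmI : m ∈ Set.Icc lo hi := hm2.prop.1
  have hmZ : Z lo ≤ Z m := hm2.prop.2
  refine ⟨m, hmI, fun i => ?_, hmZ, fun y hy hmy => ?_⟩
  · refine lt_of_le_of_ne (hmI.2 i) fun h => ?_
    have := hf m hmI ⟨i, h⟩
    linarith
  · by_cases h : Z lo ≤ Z y
    · have h1 := hm2.le_of_ge (y := y) ⟨hy, h⟩ hmy
      have : y = m := le_antisymm h1 hmy
      rw [this]
    · push Not at h
      linarith

theorem log_one_sided {u u' : ℝ} (hu : 0 < u) (h : u ≤ u') :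
    Real.log u' - Real.log u ≤ (u' - u) / u := by
  have hu' : 0 < u' := hu.trans_le h
  have h1 := Real.log_le_sub_one_of_pos (div_pos hu' hu)
  rw [Real.log_div hu'.ne' hu.ne'] at h1
  have e : u' / u - 1 = (u' - u) / u := by field_simp
  linarith

/-- **selection of three parameters.** -/
theorem exists_par {h : ℝ → ℝ → ℝ → ℝ} {s0 S u0 u1 t0 t1 CU b1 κ a K : ℝ}
    (hs : s0 ≤ S) (hs0 : 0 ≤ s0) (hu0 : 0 < u0) (hu : u0 ≤ u1) (ht : t0 ≤ t1) (hb1 : 0 < b1)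
    (hκ : 0 < κ) (hκS : κ * S ≤ b1 / 2) (ha : 0 < a) (hK : 0 ≤ K) (hCU : 0 ≤ CU)
    (hmono : ∀ s s' u u' t t', s0 ≤ s → s ≤ s' → s' ≤ S → u0 ≤ u → u ≤ u' → u' ≤ u1 → t0 ≤ t →
      t ≤ t' → t' ≤ t1 → h s u t - 2 * ((s' - s) + (u' - u) + (t' - t)) ≤ h s' u' t')
    (hbase : b1 ≤ h s0 u0 t0) (hup : ∀ s u t, s0 ≤ s → s ≤ S → u0 ≤ u → u ≤ u1 → t0 ≤ t →
      t ≤ t1 → h s u t ≤ CU - s / 2) (hS : 2 * CU ≤ S)
    (hau : CU ≤ a * (Real.log u1 - Real.log u0)) (hKt : CU ≤ K * (t1 - t0)) :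
    ∃ s u t, s0 ≤ s ∧ s < S ∧ u0 ≤ u ∧ u < u1 ∧ t0 ≤ t ∧ t < t1 ∧ b1 / 2 ≤ h s u t ∧
      ∀ δ υ τ, 0 ≤ δ → 0 ≤ υ → 0 ≤ τ → s + δ ≤ S → u + υ ≤ u1 → t + τ ≤ t1 →
        h (s + δ) (u + υ) (t + τ) ≤ h s u t - κ * δ + a / u * υ + K * τ := by
  set Z : (Fin 3 → ℝ) → ℝ := fun x => h (x 0) (x 1) (x 2) + κ * x 0 - a * Real.log (x 1) -
    K * x 2 with hZdef
  set lo : Fin 3 → ℝ := ![s0, u0, t0] with hlo
  set hi : Fin 3 → ℝ := ![S, u1, t1] with hhi
  have hmem : ∀ x : Fin 3 → ℝ, x ∈ Set.Icc lo hi ↔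
      (s0 ≤ x 0 ∧ x 0 ≤ S) ∧ (u0 ≤ x 1 ∧ x 1 ≤ u1) ∧ (t0 ≤ x 2 ∧ x 2 ≤ t1) := by
    intro x
    rw [Set.mem_Icc, Pi.le_def, Pi.le_def]
    constructor
    · rintro ⟨h1, h2⟩
      exact ⟨⟨h1 0, h2 0⟩, ⟨h1 1, h2 1⟩, ⟨h1 2, h2 2⟩⟩
    · rintro ⟨h1, h2, h3⟩
      constructor
      · intro i; fin_cases i
        · exact h1.1
        · exact h2.1
        · exact h3.1
      · intro i; fin_cases i
        · exact h1.2
        · exact h2.2
        · exact h3.2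
  have hZlo : Z lo = h s0 u0 t0 + κ * s0 - a * Real.log u0 - K * t0 := rfl
  obtain ⟨x, hx, hlt, hge, hmax⟩ := exists_last (Z := Z) (lo := lo) (hi := hi)
    (C := 2 + a / u0 + K) (by positivity) (by
      intro i; fin_cases i
      · exact hs
      · exact hu
      · exact ht) (by
      intro x hx y hy hxy
      rw [hmem] at hx hy
      obtain ⟨⟨x1, x2⟩, ⟨x3, x4⟩, ⟨x5, x6⟩⟩ := hx
      obtain ⟨⟨y1, y2⟩, ⟨y3, y4⟩, ⟨y5, y6⟩⟩ := hy
      have k0 := hxy 0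
      have k1 := hxy 1
      have k2 := hxy 2
      have h1 := hmono (x 0) (y 0) (x 1) (y 1) (x 2) (y 2) x1 k0 y2 x3 k1 y4 x5 k2 y6
      have h2 := log_one_sided (hu0.trans_le x3) k1
      have h3 : a * (Real.log (y 1) - Real.log (x 1)) ≤ a / u0 * (y 1 - x 1) := by
        have h4 : (y 1 - x 1) / x 1 ≤ (y 1 - x 1) / u0 :=
          div_le_div_of_nonneg_left (by linarith) hu0 x3
        calc a * (Real.log (y 1) - Real.log (x 1)) ≤ a * ((y 1 - x 1) / u0) :=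
              mul_le_mul_of_nonneg_left (h2.trans h4) ha.le
          _ = _ := by ring
      have h5 : 0 ≤ κ * (y 0 - x 0) := mul_nonneg hκ.le (by linarith)
      rw [Fin.sum_univ_three]
      have a0 : 0 ≤ a / u0 := by positivity
      have e1 : 0 ≤ (a / u0) * (y 0 - x 0) := mul_nonneg a0 (by linarith)
      have e2 : 0 ≤ (a / u0) * (y 2 - x 2) := mul_nonneg a0 (by linarith)
      have e3 : 0 ≤ K * (y 0 - x 0) := mul_nonneg hK (by linarith)
      have e4 : 0 ≤ K * (y 1 - x 1) := mul_nonneg hK (by linarith)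
      simp only [hZdef]
      nlinarith) (by
      rintro x hx ⟨i, hi'⟩
      rw [hmem] at hx
      obtain ⟨⟨x1, x2⟩, ⟨x3, x4⟩, ⟨x5, x6⟩⟩ := hx
      have h1 := hup (x 0) (x 1) (x 2) x1 x2 x3 x4 x5 x6
      have hl1 : Real.log u0 ≤ Real.log (x 1) := Real.log_le_log hu0 x3
      have h2 : a * Real.log u0 ≤ a * Real.log (x 1) := mul_le_mul_of_nonneg_left hl1 ha.le
      have h3 : K * t0 ≤ K * x 2 := mul_le_mul_of_nonneg_left x5 hK
      have h4 : κ * x 0 ≤ κ * S := mul_le_mul_of_nonneg_left x2 hκ.le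
      have h5 : 0 ≤ κ * s0 := mul_nonneg hκ.le hs0
      have h6 : 0 ≤ x 0 := hs0.trans x1
      rw [hZlo]
      simp only [hZdef]
      have hcase : x 0 = S ∨ x 1 = u1 ∨ x 2 = t1 := by
        fin_cases i
        · exact Or.inl hi'
        · exact Or.inr (Or.inl hi')
        · exact Or.inr (Or.inr hi')
      rcases hcase with hc | hc | hc
      · rw [hc] at h1 ⊢
        linarith
      · have h7 : a * Real.log (x 1) = a * Real.log u1 := by rw [hc]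
        have h8 : CU + a * Real.log u0 ≤ a * Real.log u1 := by linarith
        linarith
      · have h7 : K * x 2 = K * t1 := by rw [hc]
        have h8 : CU + K * t0 ≤ K * t1 := by linarith
        linarith)
  rw [hmem] at hx
  obtain ⟨⟨x1, x2⟩, ⟨x3, x4⟩, ⟨x5, x6⟩⟩ := hx
  have l0 : x 0 < S := hlt 0
  have l1 : x 1 < u1 := hlt 1
  have l2 : x 2 < t1 := hlt 2
  refine ⟨x 0, x 1, x 2, x1, l0, x3, l1, x5, l2, ?_, ?_⟩
  · rw [hZlo] at hge
    simp only [hZdef] at hge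
    have hl1 : Real.log u0 ≤ Real.log (x 1) := Real.log_le_log hu0 x3
    have h2 : a * Real.log u0 ≤ a * Real.log (x 1) := mul_le_mul_of_nonneg_left hl1 ha.le
    have h3 : K * t0 ≤ K * x 2 := mul_le_mul_of_nonneg_left x5 hK
    have h4 : κ * x 0 ≤ κ * S := mul_le_mul_of_nonneg_left x2 hκ.le
    have h5 : 0 ≤ κ * s0 := mul_nonneg hκ.le hs0
    linarith
  · intro δ υ τ hδ hυ hτ k0 k1 k2
    have hy := hmax ![x 0 + δ, x 1 + υ, x 2 + τ] (by
      rw [hmem]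
      simp only [Matrix.cons_val_zero, Matrix.cons_val_one, Matrix.cons_val]
      exact ⟨⟨by linarith, k0⟩, ⟨by linarith, k1⟩, ⟨by linarith, k2⟩⟩) (by
      intro i; fin_cases i
      · show x 0 ≤ x 0 + δ; linarith
      · show x 1 ≤ x 1 + υ; linarith
      · show x 2 ≤ x 2 + τ; linarith)
    simp only [hZdef, Matrix.cons_val_zero, Matrix.cons_val_one, Matrix.cons_val] at hy
    have hxp : 0 < x 1 := hu0.trans_le x3
    have h2 := log_one_sided (u := x 1) (u' := x 1 + υ) hxp (by linarith)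
    have h3 : a * (Real.log (x 1 + υ) - Real.log (x 1)) ≤ a / x 1 * υ := by
      calc a * (Real.log (x 1 + υ) - Real.log (x 1)) ≤ a * ((x 1 + υ - x 1) / x 1) :=
            mul_le_mul_of_nonneg_left h2 ha.le
        _ = _ := by ring
    linarith

end Crest.Agent.R136.Sel823
end

-- ▼ part R136/Sft2_289
section

/-!
# R136, block U4, route G (helper289), part 2: the gap as a function of the reward, the family

* `UBH.mono`, `UBH.inf`, `UBH.shift`;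
* `Qr q1 q2 ε1 w0 s u t` : the reward with three parameters (823's 20362) as a `psiG`.
-/

set_option autoImplicit false
set_option linter.unusedVariables false
set_option linter.unusedSectionVars false

open Finset

namespace Crest.Agent.R136.Sft289

open Crest.Agent.R116.Xa794 (TS)
open Crest.Agent.R116.Xc794
open Crest.Agent.R136.KF879
open Crest.Agent.R136.Pen325
open Crest.Agent.R116.Psi635

section ubh

variable {Ln ι S : Type} [Fintype ι] {K : ℕ} {𝒯 : Set (TS Ln ι S)} {Ψ Ψ' : ℝ → (ι → ℝ) → ℝ}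
  {b b' c : ℝ}

theorem D0_pos {D1 D0 e : ℝ} (h1 : 0 < D1) (h : D1 ≤ (2 : ℝ) ^ e * D0) : 0 < D0 := by
  have h2 : 0 < (2 : ℝ) ^ e * D0 := h1.trans_le h
  exact pos_of_mul_pos_of_pos_left h2 (by positivity)
where
  pos_of_mul_pos_of_pos_left {x y : ℝ} (h : 0 < x * y) (hx : 0 < x) : 0 < y := by
    by_contra hn
    have := mul_nonpos_of_nonneg_of_nonpos hx.le (not_lt.1 hn)
    linarith

theorem ubh_mono (h : UBH K 𝒯 Ψ b) (hb : b ≤ b') : UBH K 𝒯 Ψ b' := by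
  intro η hη
  obtain ⟨δ, hδ, M0, h1⟩ := h η hη
  refine ⟨δ, hδ, M0, fun T hT F k hF hM hK hk hl hN hn => ?_⟩
  have h2 := h1 T hT F k hF hM hK hk hl hN hn
  have hD := D0_pos hF.D1p h2
  refine h2.trans (mul_le_mul_of_nonneg_right ?_ hD.le)
  refine Real.rpow_le_rpow_of_exponent_le (by norm_num) ?_
  exact mul_le_mul_of_nonneg_right (by linarith) (Nat.cast_nonneg _)

theorem ubh_inf (h : ∀ b', b < b' → UBH K 𝒯 Ψ b') : UBH K 𝒯 Ψ b := by
  intro η hη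
  obtain ⟨δ, hδ, M0, h1⟩ := h (b + η / 2) (by linarith) (η / 2) (by linarith)
  refine ⟨δ, hδ, M0, fun T hT F k hF hM hK hk hl hN hn => ?_⟩
  have h2 := h1 T hT F k hF hM hK hk hl hN hn
  rwa [show b + η / 2 + η / 2 = b + η by ring] at h2

/-- a larger reward (up to `c l`) has a smaller gap (up to `c`) -/
theorem ubh_shift (h : UBH K 𝒯 Ψ' b) (hc : ∀ l x, 0 ≤ l → Ψ' l x ≤ Ψ l x + c * l) :
    UBH K 𝒯 Ψ (b + c) := by
  intro η hη
  obtain ⟨δ, hδ, M0, h1⟩ := h η hη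
  refine ⟨δ, hδ, M0, fun T hT F k hF hM hK hk hl hN hn => ?_⟩
  have hOk : OkH T Ψ' k { F with D0 := F.D0 * (2 : ℝ) ^ (c * F.M) } := {
    M1 := hF.M1
    h_le := hF.h_le
    ne := hF.ne
    cell := hF.cell
    D1p := hF.D1p
    nup := hF.nup
    fin := hF.fin
    top := hF.top
    low := hF.low
    own := hF.own
    up := by
      intro J s hs
      have g1 := hF.up J s hs
      refine g1.trans ?_
      have hv := T.volpos F.m s.1
      have hcap : 0 < capP T Ψ (F.m + F.M) F.a F.m s.1 := by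
        unfold capP; positivity
      have hD0 : 0 ≤ F.D0 := by
        by_contra hn
        have := mul_neg_of_neg_of_pos (not_le.1 hn) hcap
        have := g1.trans_lt this
        exact absurd this (not_lt.2 (Nat.cast_nonneg _))
      show F.D0 * capP T Ψ (F.m + F.M) F.a F.m s.1 ≤
        F.D0 * (2 : ℝ) ^ (c * F.M) * capP T Ψ' (F.m + F.M) F.a F.m s.1
      rw [mul_assoc]
      refine mul_le_mul_of_nonneg_left ?_ hD0
      unfold capP
      have e : ((F.m + F.M : ℕ) : ℝ) - (F.m : ℕ) = (F.M : ℝ) := by push_cast; ring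
      rw [e]
      have g2 := hc F.M (rel F.m s.1 (F.m + F.M) F.a) (Nat.cast_nonneg _)
      have g3 : (2 : ℝ) ^ (-(Ψ F.M (rel F.m s.1 (F.m + F.M) F.a))) ≤
          (2 : ℝ) ^ (c * F.M) * (2 : ℝ) ^ (-(Ψ' F.M (rel F.m s.1 (F.m + F.M) F.a))) := by
        rw [← Real.rpow_add (by norm_num)]
        exact Real.rpow_le_rpow_of_exponent_le (by norm_num) (by linarith)
      calc T.vol F.m s.1 * (2 : ℝ) ^ (-(Ψ F.M (rel F.m s.1 (F.m + F.M) F.a))) ≤
          T.vol F.m s.1 * ((2 : ℝ) ^ (c * F.M) *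
            (2 : ℝ) ^ (-(Ψ' F.M (rel F.m s.1 (F.m + F.M) F.a)))) :=
            mul_le_mul_of_nonneg_left g3 hv.le
        _ = _ := by ring }
  have h2 : F.D1 ≤ (2 : ℝ) ^ ((b + η) * F.M) * (F.D0 * (2 : ℝ) ^ (c * F.M)) :=
    h1 T hT _ k hOk hM hK hk hl hN hn
  refine h2.trans (le_of_eq ?_)
  rw [show (b + c + η) * (F.M : ℝ) = (b + η) * F.M + c * F.M by ring,
    Real.rpow_add (by norm_num)]
  ring

end ubh

/-! ### elementary inequalities for `N(l,x) = nr l x - l` -/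

theorem nr_eq (l x : ℝ) : nr l x = √(l ^ 2 + x ^ 2) := rfl

/-- `x - N ≤ l` -/
theorem sub_N_le (l x : ℝ) : x - (nr l x - l) ≤ l := by
  have h1 := le_nr_x l x
  have h2 := le_abs_self x
  linarith

/-- `N ≤ x` for `0 ≤ l`, `0 ≤ x` -/
theorem N_le {l x : ℝ} (hl : 0 ≤ l) : nr l x - l ≤ |x| := by
  have h : nr l x ≤ l + |x| := by
    rw [nr_eq]
    refine Real.sqrt_le_iff.2 ⟨by positivity, ?_⟩
    have := sq_abs x
    nlinarith [mul_nonneg hl (abs_nonneg x)]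
  linarith

/-- `N ≤ x - 0.58 l` for `l ≤ x` -/
theorem N_le_far {l x : ℝ} (hl : 0 ≤ l) (hx : l ≤ x) : nr l x - l ≤ x - 58 / 100 * l := by
  have h : nr l x ≤ x + 42 / 100 * l := by
    rw [nr_eq]
    refine Real.sqrt_le_iff.2 ⟨by linarith [mul_nonneg (by norm_num : (0:ℝ) ≤ 42 / 100) hl], ?_⟩
    nlinarith [mul_le_mul_of_nonneg_left hx hl, mul_nonneg hl hl]
  linarith

/-! ### selection -/

section sel

variable {Ln ι S : Type} [Fintype ι] {K : ℕ} {𝒯 : Set (TS Ln ι S)}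

/-- **selection of three parameters for the gap of a family of rewards.** -/
theorem sel_abs {fam : ℝ → ℝ → ℝ → ℝ → (ι → ℝ) → ℝ} {s0 S u0 u1 t0 t1 CU b1 κ a K' : ℝ}
    (hs : s0 ≤ S) (hs0 : 0 ≤ s0) (hu0 : 0 < u0) (hu : u0 ≤ u1) (ht : t0 ≤ t1) (hb1 : 0 < b1)
    (hκ : 0 < κ) (hκS : κ * S ≤ b1 / 2) (ha : 0 < a) (hK : 0 ≤ K') (hCU : 0 ≤ CU)
    (hmono : ∀ s s' u u' t t', s0 ≤ s → s ≤ s' → s' ≤ S → u0 ≤ u → u ≤ u' → u' ≤ u1 → t0 ≤ t →
      t ≤ t' → t' ≤ t1 → ∀ l x, 0 ≤ l →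
        fam s' u' t' l x ≤ fam s u t l x + 2 * ((s' - s) + (u' - u) + (t' - t)) * l)
    (hbase : ∀ b, b < b1 → ¬ UBH K 𝒯 (fam s0 u0 t0) b)
    (hup : ∀ s u t, s0 ≤ s → s ≤ S → u0 ≤ u → u ≤ u1 → t0 ≤ t → t ≤ t1 →
      UBH K 𝒯 (fam s u t) (CU - s / 2))
    (hS : 2 * CU ≤ S)
    (hau : CU ≤ a * (Real.log u1 - Real.log u0)) (hKt : CU ≤ K' * (t1 - t0)) :
    ∃ s u t g, s0 ≤ s ∧ s < S ∧ u0 ≤ u ∧ u < u1 ∧ t0 ≤ t ∧ t < t1 ∧ b1 / 2 ≤ g ∧
      (∀ b, b < g → ¬ UBH K 𝒯 (fam s u t) b) ∧ UBH K 𝒯 (fam s u t) g ∧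
      ∀ δ υ τ, 0 ≤ δ → 0 ≤ υ → 0 ≤ τ → s + δ ≤ S → u + υ ≤ u1 → t + τ ≤ t1 →
        UBH K 𝒯 (fam (s + δ) (u + υ) (t + τ)) (g - κ * δ + a / u * υ + K' * τ) := by
  set h : ℝ → ℝ → ℝ → ℝ := fun s u t => sInf {b | UBH K 𝒯 (fam s u t) b} with hh
  have hlow : ∀ s u t, s0 ≤ s → s ≤ S → u0 ≤ u → u ≤ u1 → t0 ≤ t → t ≤ t1 →
      ∀ b, UBH K 𝒯 (fam s u t) b → b1 - 2 * ((s - s0) + (u - u0) + (t - t0)) ≤ b := by
    intro s u t h1 h2 h3 h4 h5 h6 b hb
    by_contra hn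
    push Not at hn
    exact hbase (b + 2 * ((s - s0) + (u - u0) + (t - t0))) (by linarith)
      (ubh_shift hb (hmono s0 s u0 u t0 t le_rfl h1 h2 le_rfl h3 h4 le_rfl h5 h6))
  have hne : ∀ s u t, s0 ≤ s → s ≤ S → u0 ≤ u → u ≤ u1 → t0 ≤ t → t ≤ t1 →
      {b | UBH K 𝒯 (fam s u t) b}.Nonempty := fun s u t h1 h2 h3 h4 h5 h6 =>
    ⟨_, hup s u t h1 h2 h3 h4 h5 h6⟩
  have hbd : ∀ s u t, s0 ≤ s → s ≤ S → u0 ≤ u → u ≤ u1 → t0 ≤ t → t ≤ t1 →
      BddBelow {b | UBH K 𝒯 (fam s u t) b} := fun s u t h1 h2 h3 h4 h5 h6 =>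
    ⟨_, fun b hb => hlow s u t h1 h2 h3 h4 h5 h6 b hb⟩
  have hatt : ∀ s u t, s0 ≤ s → s ≤ S → u0 ≤ u → u ≤ u1 → t0 ≤ t → t ≤ t1 →
      UBH K 𝒯 (fam s u t) (h s u t) := by
    intro s u t h1 h2 h3 h4 h5 h6
    refine ubh_inf fun b' hb' => ?_
    obtain ⟨b, hb, hbb⟩ := exists_lt_of_csInf_lt (hne s u t h1 h2 h3 h4 h5 h6) hb'
    exact ubh_mono hb hbb.le
  have hle : ∀ s u t, s0 ≤ s → s ≤ S → u0 ≤ u → u ≤ u1 → t0 ≤ t → t ≤ t1 →
      ∀ b, UBH K 𝒯 (fam s u t) b → h s u t ≤ b := fun s u t h1 h2 h3 h4 h5 h6 b hb =>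
    csInf_le (hbd s u t h1 h2 h3 h4 h5 h6) hb
  obtain ⟨s, u, t, h1, h2, h3, h4, h5, h6, h7, h8⟩ := Sel823.exists_par (h := h) hs hs0 hu0 hu ht
    hb1 hκ hκS ha hK hCU
    (by
      intro s s' u u' t t' h1 h2 h3 h4 h5 h6 h7 h8 h9
      have k1 := hle s u t h1 (by linarith) h4 (by linarith) h7 (by linarith) _
        (ubh_shift (hatt s' u' t' (by linarith) h3 (by linarith) h6 (by linarith) h9)
          (hmono s s' u u' t t' h1 h2 h3 h4 h5 h6 h7 h8 h9))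
      linarith)
    (by
      refine le_csInf (hne s0 u0 t0 le_rfl hs le_rfl hu le_rfl ht) fun b hb => ?_
      have := hlow s0 u0 t0 le_rfl hs le_rfl hu le_rfl ht b hb
      linarith)
    (fun s u t h1 h2 h3 h4 h5 h6 => hle s u t h1 h2 h3 h4 h5 h6 _
      (hup s u t h1 h2 h3 h4 h5 h6)) hS hau hKt
  refine ⟨s, u, t, h s u t, h1, h2, h3, h4, h5, h6, h7, fun b hb hU => ?_,
    hatt s u t h1 h2.le h3 h4.le h5 h6.le, fun δ υ τ k1 k2 k3 k4 k5 k6 => ?_⟩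
  · exact absurd (hle s u t h1 h2.le h3 h4.le h5 h6.le b hU) (not_le.2 hb)
  · exact ubh_mono (hatt _ _ _ (by linarith) k4 (by linarith) k5 (by linarith) k6)
      (h8 δ υ τ k1 k2 k3 k4 k5 k6)

end sel

/-! ### the family -/

/-- linear coefficients -/
noncomputable def Pa (q1 q2 w0 s u : ℝ) : Fin 3 → ℝ := ![w0 * (q2 + u), q1 + s, q2 + u]

/-- penalty weights -/
noncomputable def Na (e w0 s u t : ℝ) : Fin 3 → ℝ := ![w0 * (u + t), (1 + e) * s, u + t]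

/-- direction, linear part -/
noncomputable def Da (w0 cu : ℝ) : Fin 3 → ℝ := ![w0 * (cu / 2), 1 / 2, cu / 2]

/-- direction, penalty part -/
noncomputable def Db (e w0 cu ct : ℝ) : Fin 3 → ℝ :=
  ![w0 * ((cu + ct) / 2), (1 + e) / 2, (cu + ct) / 2]

/-- the family of rewards -/
noncomputable def fam (q1 q2 e w0 s u t : ℝ) : ℝ → (Fin 3 → ℝ) → ℝ :=
  psiG 0 (Pa q1 q2 w0 s u) (Na e w0 s u t)

theorem fam_val (q1 q2 e w0 s u t l : ℝ) (x : Fin 3 → ℝ) :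
    fam q1 q2 e w0 s u t l x = q1 * x 1 + s * (x 1 - (1 + e) * (nr l (x 1) - l)) +
      ((q2 + u) * x 2 - (u + t) * (nr l (x 2) - l)) +
      w0 * ((q2 + u) * x 0 - (u + t) * (nr l (x 0) - l)) := by
  unfold fam psiG
  rw [Fin.sum_univ_three]
  show 0 * l + ((w0 * (q2 + u) * x 0 - w0 * (u + t) * (nr l (x 0) - l)) +
    ((q1 + s) * x 1 - (1 + e) * s * (nr l (x 1) - l)) +
    ((q2 + u) * x 2 - (u + t) * (nr l (x 2) - l))) = _
  ring

theorem dir_val (e w0 cu ct l : ℝ) (x : Fin 3 → ℝ) :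
    2 * psiG 0 (Da w0 cu) (Db e w0 cu ct) l x = (x 1 - (1 + e) * (nr l (x 1) - l)) +
      cu * ((x 2 - (nr l (x 2) - l)) + w0 * (x 0 - (nr l (x 0) - l))) -
      ct * ((nr l (x 2) - l) + w0 * (nr l (x 0) - l)) := by
  unfold psiG
  rw [Fin.sum_univ_three]
  show 2 * (0 * l + ((w0 * (cu / 2) * x 0 - w0 * ((cu + ct) / 2) * (nr l (x 0) - l)) +
    (1 / 2 * x 1 - (1 + e) / 2 * (nr l (x 1) - l)) +
    (cu / 2 * x 2 - (cu + ct) / 2 * (nr l (x 2) - l)))) = _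
  ring

/-- the one-parameter family through `(s,u,t)` -/
theorem fam_dir (q1 q2 e w0 s u t cu ct q0 δ : ℝ) :
    RG 0 0 (fun j => Pa q1 q2 w0 s u j - q0 * Da w0 cu j)
      (fun j => Na e w0 s u t j - q0 * Db e w0 cu ct j) (Da w0 cu) (Db e w0 cu ct) (q0 + δ) =
      fam q1 q2 e w0 (s + δ / 2) (u + cu * (δ / 2)) (t + ct * (δ / 2)) := by
  funext l x
  rw [RG_eq]
  have e1 : (fun j => Pa q1 q2 w0 s u j - q0 * Da w0 cu j + (q0 + δ) * Da w0 cu j) =
      Pa q1 q2 w0 (s + δ / 2) (u + cu * (δ / 2)) := by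
    funext j
    fin_cases j <;> simp [Pa, Da] <;> ring
  have e2 : (fun j => Na e w0 s u t j - q0 * Db e w0 cu ct j + (q0 + δ) * Db e w0 cu ct j) =
      Na e w0 (s + δ / 2) (u + cu * (δ / 2)) (t + ct * (δ / 2)) := by
    funext j
    fin_cases j <;> simp [Na, Db] <;> ring
  rw [e1, e2]
  unfold fam
  congr 1
  ring

/-- monotonicity of the family -/
theorem fam_mono {q1 q2 e w0 s s' u u' t t' l : ℝ} (he : 0 ≤ e) (hw : 0 ≤ w0) (hw1 : w0 ≤ 1)
    (h1 : s ≤ s') (h2 : u ≤ u') (h3 : t ≤ t') (hl : 0 ≤ l) (x : Fin 3 → ℝ) :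
    fam q1 q2 e w0 s' u' t' l x ≤
      fam q1 q2 e w0 s u t l x + 2 * ((s' - s) + (u' - u) + (t' - t)) * l := by
  rw [fam_val, fam_val]
  have N0 : 0 ≤ nr l (x 0) - l := N_nonneg
  have N1 : 0 ≤ nr l (x 1) - l := N_nonneg
  have N2 : 0 ≤ nr l (x 2) - l := N_nonneg
  have a0 := sub_N_le l (x 0)
  have a1 := sub_N_le l (x 1)
  have a2 := sub_N_le l (x 2)
  set n0 := nr l (x 0) - l with hn0
  set n1 := nr l (x 1) - l with hn1
  set n2 := nr l (x 2) - l with hn2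
  have k1 : (s' - s) * (x 1 - (1 + e) * n1) ≤ (s' - s) * l := by
    refine mul_le_mul_of_nonneg_left ?_ (by linarith)
    nlinarith [mul_nonneg he N1]
  have k2 : (u' - u) * (x 2 - n2) ≤ (u' - u) * l := mul_le_mul_of_nonneg_left a2 (by linarith)
  have k3 : (u' - u) * (w0 * (x 0 - n0)) ≤ (u' - u) * l := by
    refine mul_le_mul_of_nonneg_left ?_ (by linarith)
    calc w0 * (x 0 - n0) ≤ w0 * l := mul_le_mul_of_nonneg_left a0 hw
      _ ≤ 1 * l := mul_le_mul_of_nonneg_right hw1 hl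
      _ = l := one_mul l
  have k4 : 0 ≤ (t' - t) * n2 := mul_nonneg (by linarith) N2
  have k5 : 0 ≤ (t' - t) * (w0 * n0) := mul_nonneg (by linarith) (mul_nonneg hw N0)
  have k6 : 0 ≤ (s' - s) * l := mul_nonneg (by linarith) hl
  have k7 : 0 ≤ (t' - t) * l := mul_nonneg (by linarith) hl
  nlinarith

end Crest.Agent.R136.Sft289
end

-- ▼ part R136/KF1_879
section

/-!
# R136, block U4 (pure penalty): FULL configurations over an abstract class of test sets (helper879)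

Over `XaDef_794` (`TS`) and `XcDef_794` (`Cfg`, `Cfg.Ok`, `capP`, `rel`).

* `CfgF` : `Cfg` with a number `h` of coarse levels;
* `OkF T Ψ F` : `Cfg.Ok`, bottom bound at all levels `m ≤ i ≤ m + h`, own counts
  `≥ 2^(M + 20 - h)`;
* `UBF 𝒯 Ψ b` : the gap `D1 / D0` of all full configurations is at most `2^(b M)` in the limit;
* `EnemyF 𝒯` : the enemy.
-/

set_option autoImplicit false

open Finset

namespace Crest.Agent.R136.KF879

open Crest.Agent.R138.Mk163 (zc zl rho alive own)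
open Crest.Agent.R116.Xa794 (TS)
open Crest.Agent.R116.Xc794

section

variable {Ln ι S : Type} [Fintype ι]

/-- finite configuration with `h` coarse levels -/
structure CfgF (Ln ι S : Type) extends Cfg Ln ι S where
  h : ℕ

open Classical in
/-- validity of a full configuration with the reward `Ψ` -/
structure OkF (T : TS Ln ι S) (Ψ : ℝ → (ι → ℝ) → ℝ) (F : CfgF Ln ι S) : Prop
    extends F.toCfg.Ok T Ψ where
  h20 : 20 ≤ F.h
  hM : F.h ≤ F.M
  ups : ∀ i : ℕ, F.m ≤ i → i ≤ F.m + F.h → ∀ J : ℤ, ∀ s : (ι → ℕ) × S, T.adm i J s →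
    (((alive F.I i J).filter fun t => T.mem i J s (F.L t)).card : ℝ) ≤
      F.D0 * capP T Ψ (F.m + F.M) F.a i s.1
  full : ∀ x ∈ F.I, 2 ^ (F.M + 20) ≤
    2 ^ F.h * (Crest.Agent.R138.Mk163.own F.I F.m (F.m + F.M) x).card

/-- the gap of all full configurations with the reward `Ψ` is at most `b` in the limit -/
def UBF (𝒯 : Set (TS Ln ι S)) (Ψ : ℝ → (ι → ℝ) → ℝ) (b : ℝ) : Prop :=
  ∀ η : ℝ, 0 < η → ∃ δ : ℝ, 0 < δ ∧ ∃ M0 : ℕ, ∀ T ∈ 𝒯, ∀ F : CfgF Ln ι S, OkF T Ψ F →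
    M0 ≤ F.M → Real.log (F.I.card : ℝ) ≤ (2 : ℝ) ^ (δ * F.M) →
      (F.N : ℝ) ≤ (2 : ℝ) ^ (δ * F.M) → (F.h : ℝ) ≤ δ * F.M →
        F.D1 ≤ (2 : ℝ) ^ ((b + η) * F.M) * F.D0


/-- the test sets of level `i` are at most as wide as the cell -/
def FitF (𝒯 : Set (TS Ln ι S)) : Prop :=
  ∀ T ∈ 𝒯, ∀ (i : ℕ) (J : ℤ) (s : (ι → ℕ) × S), T.adm i J s → ∀ j, i ≤ s.1 j

omit [Fintype ι] in
theorem UBF.mono {𝒯 : Set (TS Ln ι S)} {Ψ : ℝ → (ι → ℝ) → ℝ} {b b' : ℝ} (h : UBF 𝒯 Ψ b)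
    (hb : b ≤ b') (hD : ∀ T ∈ 𝒯, ∀ F : CfgF Ln ι S, OkF T Ψ F → 0 ≤ F.D0) : UBF 𝒯 Ψ b' := by
  intro η hη
  obtain ⟨δ, hδ, M0, h1⟩ := h η hη
  refine ⟨δ, hδ, M0, fun T hT F hF hM h2 h3 h4 => (h1 T hT F hF hM h2 h3 h4).trans ?_⟩
  refine mul_le_mul_of_nonneg_right ?_ (hD T hT F hF)
  refine Real.rpow_le_rpow_of_exponent_le (by norm_num) ?_
  exact mul_le_mul_of_nonneg_right (by linarith) (Nat.cast_nonneg _)

end

end Crest.Agent.R136.KF879
end

-- ▼ part R136/Lo36_32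
section

/-!
# R136, block U4 (pure penalty): `fit36` and `low36` (helper32; statements of helper879)

* `fit36 : FitF TT36` : a sheet of level `i` is at most as wide as the cell;
* `low36` : the enemy gives the lower bound of the gap for every reward which is at most `c l` on
  the box `0 ≤ x j ≤ l`.
-/

set_option autoImplicit false
set_option linter.unusedVariables false

open Finset

namespace Crest.Agent.R136.Tq879

open Crest.Agent.R116.Xa794 (TS)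
open Crest.Agent.R116.Xc794
open Crest.Agent.R138.Mk163 (zc zl rho alive own)
open Crest.Agent.R136.KF879
open Sh605 K4

/-- **the test sets of level `i` are at most as wide as the cell** -/
theorem fit36 : FitF TT36 := by
  rintro T ⟨r, hr, rfl⟩ i J s hs j
  obtain ⟨h1, h2, h3⟩ := hs
  have ha2 : s.2.a ≤ s.2.w 2 := h1.a_le
  have h21 : s.2.w 2 ≤ s.2.w 1 := h1.w_le
  have hw : wd s.2 j ≤ rho i := by
    fin_cases j
    · exact (ha2.trans h21).trans h2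
    · exact h2
    · exact h21.trans h2
  rw [h3 j] at hw
  have e1 : rho i = (1 / 2 : ℝ) ^ i := by
    unfold rho; rw [one_div_pow]
  rw [e1] at hw
  by_contra hlt
  push Not at hlt
  have := pow_lt_pow_right_of_lt_one₀ (by norm_num : (0:ℝ) < 1 / 2) (by norm_num) hlt
  linarith

section

variable {Ln ι S : Type}

/-- **the enemy bounds the gap from below**, reward at most `c l` on the box `0 ≤ x j ≤ l` -/
theorem low36 {K : ℕ} {𝒯 : Set (TS Ln ι S)} (hE : EnemyH K 𝒯) (hfit : FitF 𝒯) :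
    ∃ b0 : ℝ, 0 < b0 ∧ ∀ (Ψ : ℝ → (ι → ℝ) → ℝ) (c : ℝ),
      (∀ l x, 0 ≤ l → (∀ j, 0 ≤ x j ∧ x j ≤ l) → Ψ l x ≤ c * l) →
      ∀ b : ℝ, b < b0 - c → ¬ UBH K 𝒯 Ψ b := by
  obtain ⟨b0, hb0, hE⟩ := hE
  refine ⟨b0, hb0, fun Ψ c hΨ b hb hUB => ?_⟩
  obtain ⟨δ, hδ, M0, hUB⟩ := hUB ((b0 - c - b) / 2) (by linarith)
  obtain ⟨T, hT, F, h, hF, hM, hMK, hhM, hm, hlog, hN, hNm, hnu, ha, hgap⟩ := hE δ hδ M0
  have hM0 : (0 : ℝ) ≤ F.M := Nat.cast_nonneg _
  set F' : Cfg Ln ι S := { F with D0 := F.D0 * (2 : ℝ) ^ (c * F.M) } with hF'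
  have hOk : OkH T Ψ h F' := {
    M1 := hF.M1
    h_le := hF.h_le
    ne := hF.ne
    cell := hF.cell
    D1p := hF.D1p
    nup := hF.nup
    fin := hF.fin
    top := hF.top
    low := hF.low
    own := hF.own
    up := by
      intro J s hs
      have h1 := hF.up J s hs
      refine h1.trans ?_
      have hv := T.volpos F.m s.1
      have e0 : capP T (fun _ _ => 0) (F.m + F.M) F.a F.m s.1 = T.vol F.m s.1 := by
        unfold capP; simp
      have hD0 : 0 ≤ F.D0 := by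
        have h2 : (0 : ℝ) ≤ F.D0 * T.vol F.m s.1 := by
          rw [← e0]; exact (Nat.cast_nonneg _).trans h1
        exact nonneg_of_mul_nonneg_left h2 hv
      have hrel : ∀ j, rel F.m s.1 (F.m + F.M) F.a j = (s.1 j : ℝ) - F.m := by
        intro j
        unfold rel
        rw [ha j]; push_cast; ring
      have hps : Ψ (((F.m + F.M : ℕ) : ℝ) - F.m) (rel F.m s.1 (F.m + F.M) F.a) ≤ c * F.M := by
        have e1 : (((F.m + F.M : ℕ) : ℝ) - F.m) = F.M := by push_cast; ring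
        rw [e1]
        refine hΨ _ _ hM0 fun j => ?_
        rw [hrel j]
        have h3 : F.m ≤ s.1 j := hfit T hT F.m J s hs j
        have h4 : s.1 j ≤ F.m + F.M := (hF.fin F.m J s hs j).trans hNm
        have h3' : (F.m : ℝ) ≤ s.1 j := by exact_mod_cast h3
        have h4' : (s.1 j : ℝ) ≤ (F.m : ℝ) + F.M := by exact_mod_cast h4
        constructor <;> linarith
      rw [e0]
      show F.D0 * T.vol F.m s.1 ≤ F.D0 * (2 : ℝ) ^ (c * F.M) *
        (T.vol F.m s.1 * (2 : ℝ) ^ (-(Ψ (((F.m + F.M : ℕ) : ℝ) - F.m)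
          (rel F.m s.1 (F.m + F.M) F.a))))
      have h5 : (1 : ℝ) ≤ (2 : ℝ) ^ (c * F.M) * (2 : ℝ) ^ (-(Ψ (((F.m + F.M : ℕ) : ℝ) - F.m)
          (rel F.m s.1 (F.m + F.M) F.a))) := by
        rw [← Real.rpow_add (by norm_num)]
        exact Real.one_le_rpow (by norm_num) (by linarith)
      calc F.D0 * T.vol F.m s.1 = F.D0 * T.vol F.m s.1 * 1 := by ring
        _ ≤ F.D0 * T.vol F.m s.1 * ((2 : ℝ) ^ (c * F.M) *
            (2 : ℝ) ^ (-(Ψ (((F.m + F.M : ℕ) : ℝ) - F.m) (rel F.m s.1 (F.m + F.M) F.a)))) :=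
          mul_le_mul_of_nonneg_left h5 (mul_nonneg hD0 hv.le)
        _ = _ := by ring }
  have h6 := hUB T hT F' h hOk hM hMK hhM hlog hN hnu
  have h7 : F.D1 ≤ (2 : ℝ) ^ ((b + (b0 - c - b) / 2) * F.M) * (F.D0 * (2 : ℝ) ^ (c * F.M)) := h6
  have e2 : (2 : ℝ) ^ ((b + (b0 - c - b) / 2) * F.M) * (F.D0 * (2 : ℝ) ^ (c * F.M)) =
      (2 : ℝ) ^ ((b + (b0 - c - b) / 2 + c) * F.M) * F.D0 := by
    rw [add_mul (b + (b0 - c - b) / 2) c, Real.rpow_add (by norm_num)]; ring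
  rw [e2] at h7
  have hD1 := hF.D1p
  rcases le_or_gt 0 F.D0 with h0 | h0
  · have h8 : (2 : ℝ) ^ ((b + (b0 - c - b) / 2 + c) * F.M) ≤ (2 : ℝ) ^ (b0 * F.M) :=
      Real.rpow_le_rpow_of_exponent_le (by norm_num)
        (mul_le_mul_of_nonneg_right (by linarith) hM0)
    have h9 := mul_le_mul_of_nonneg_right h8 h0
    linarith
  · have h8 : (0 : ℝ) < (2 : ℝ) ^ ((b + (b0 - c - b) / 2 + c) * F.M) := by positivity
    have h9 := mul_neg_of_pos_of_neg h8 h0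
    linarith

end

end Crest.Agent.R136.Tq879
end

-- ▼ part R136/AllD4_823
section

/-!
# R136, block U4 (helper823): the penalised rewards are Lipschitz (`LipR`)
-/

set_option autoImplicit false
set_option linter.unusedVariables false

open Finset

namespace Crest.Agent.R136.AllD823

open Crest.Agent.R136.Pen325
open Crest.Agent.R116.Psi635

noncomputable section

theorem lipR_psiG (s : ℝ) (a b : Fin 3 → ℝ) :
    LipR (psiG s a b) (|s| + ∑ j, (|a j| + 2 * |b j|)) := by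
  intro l l' x x' hl hl'
  set K := |s| + ∑ j, (|a j| + 2 * |b j|) with hK
  have hKj : ∀ j, |a j| + 2 * |b j| ≤ ∑ j, (|a j| + 2 * |b j|) := fun j =>
    single_le_sum (f := fun j => |a j| + 2 * |b j|) (fun i _ => by positivity) (mem_univ j)
  have e : psiG s a b l x - psiG s a b l' x' = s * (l - l') +
      ∑ j, (a j * (x j - x' j) - b j * ((nr l (x j) - nr l (x' j)) +
        (nr l (x' j) - nr l' (x' j)) - (l - l'))) := by
    unfold psiG
    rw [show s * l + ∑ j, (a j * x j - b j * (nr l (x j) - l)) -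
      (s * l' + ∑ j, (a j * x' j - b j * (nr l' (x' j) - l'))) = s * (l - l') +
      (∑ j, (a j * x j - b j * (nr l (x j) - l)) - ∑ j, (a j * x' j - b j * (nr l' (x' j) - l')))
      by ring, ← Finset.sum_sub_distrib]
    congr 1
    exact Finset.sum_congr rfl fun j _ => by ring
  rw [e]
  have t1 : ∀ j, |a j * (x j - x' j) - b j * ((nr l (x j) - nr l (x' j)) +
      (nr l (x' j) - nr l' (x' j)) - (l - l'))| ≤
      (|a j| + 2 * |b j|) * |x j - x' j| + (|a j| + 2 * |b j|) * |l - l'| := by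
    intro j
    have h1 := nr_lip_x l (x' j) (x j)
    have h2 := nr_lip_len l' l (x' j)
    have h3 : |a j * (x j - x' j)| = |a j| * |x j - x' j| := abs_mul _ _
    have h4 : |b j * ((nr l (x j) - nr l (x' j)) + (nr l (x' j) - nr l' (x' j)) - (l - l'))| ≤
        |b j| * (|x j - x' j| + |l - l'| + |l - l'|) := by
      rw [abs_mul]
      refine mul_le_mul_of_nonneg_left ?_ (abs_nonneg _)
      refine (abs_sub _ _).trans ?_
      refine add_le_add ((abs_add_le _ _).trans (add_le_add h1 h2)) le_rfl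
    refine (abs_sub _ _).trans ?_
    rw [h3]
    have ha := abs_nonneg (a j)
    have hb := abs_nonneg (b j)
    have hx := abs_nonneg (x j - x' j)
    have hll := abs_nonneg (l - l')
    nlinarith [mul_nonneg ha hll, mul_nonneg hb hx]
  calc _ ≤ |s * (l - l')| + |∑ j, (a j * (x j - x' j) - b j * ((nr l (x j) - nr l (x' j)) +
        (nr l (x' j) - nr l' (x' j)) - (l - l')))| := abs_add_le _ _
    _ ≤ |s| * |l - l'| + ∑ j, ((|a j| + 2 * |b j|) * |x j - x' j| +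
        (|a j| + 2 * |b j|) * |l - l'|) := by
        rw [abs_mul]
        exact add_le_add le_rfl ((abs_sum_le_sum_abs _ _).trans (sum_le_sum fun j _ => t1 j))
    _ ≤ |s| * |l - l'| + (K * ∑ j, |x j - x' j| + (∑ j, (|a j| + 2 * |b j|)) * |l - l'|) := by
        refine add_le_add le_rfl ?_
        rw [sum_add_distrib, ← sum_mul]
        refine add_le_add ?_ le_rfl
        rw [mul_sum]
        refine sum_le_sum fun j _ => mul_le_mul_of_nonneg_right ?_ (abs_nonneg _)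
        exact (hKj j).trans (by rw [hK]; linarith [abs_nonneg s])
    _ = _ := by rw [hK]; ring

theorem lipR_RG (s0 s : ℝ) (p n a b : Fin 3 → ℝ) (q : ℝ) :
    ∃ K : ℝ, 0 ≤ K ∧ LipR (RG s0 s p n a b q) K := by
  have h := lipR_psiG (s0 + q * s) (fun j => p j + q * a j) (fun j => n j + q * b j)
  refine ⟨|s0 + q * s| + ∑ j, (|p j + q * a j| + 2 * |n j + q * b j|), by positivity,
    fun l l' x x' hl hl' => ?_⟩
  rw [RG_eq, RG_eq]
  exact h l l' x x' hl hl'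


end

end Crest.Agent.R136.AllD823
end

-- ▼ part R136/Sft3_289

/-!
# R136, block U4, route G (helper289), part 3: `soft36`

* `ParL η g q θ` : the parameter inequalities of the core (630's final literal);
* `SlP η g pp nn` : the two-sided slopes of the reward `psiG 0 pp nn`;
* `marks` : consequences of `κ ≤ ψ 1 θ`;
* `soft36` : the enemy ⊢ a family of rewards with `RwdF`, `ChsK`, and all parameter inequalities.
-/

set_option autoImplicit false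
set_option linter.unusedVariables false

open Finset

namespace Crest.Agent.R136.Sft289

open Crest.Agent.R136.KF879 Crest.Agent.R136.Tq879
open Crest.Agent.R136.Pen325
open Crest.Agent.R116.Psi635
open Crest.Agent.R116.Zl139 (LinAt)
open Crest.Agent.R136.Yc953 (RwdF)
open Crest.Agent.R136.Yk953 (ChsK)
open Crest.Agent.R136.AllD823 (LipR lipR_RG)

/-- **the parameter inequalities of the core** -/
structure ParL (η g : ℝ) (q θ : Fin 3 → ℝ) : Prop where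
  q0 : 0 < q 0 ∧ q 0 ≤ η * q 2
  q02 : q 0 ≤ η * q 2 ^ 2
  q2 : 0 < q 2 ∧ q 2 ≤ η * g
  q21 : q 2 ≤ η * q 1
  g0 : 0 < g ∧ 0 < q 1
  θ1 : 0 < θ 1
  θb : q 2 * max (θ 1 - θ 2) 0 + q 0 * (max (-(θ 0)) 0 + |θ 1| + |θ 2|) ≤ η * g
  θ1b : q 2 * θ 1 ≤ η * g ∧ q 2 * max (-(θ 2)) 0 ≤ η * g

/-- **two-sided slopes** of the reward `psiG 0 pp nn` : `pp - nn` (narrower tests), `pp + nn` (wider
tests) -/
structure SlP (η g : ℝ) (pp nn : Fin 3 → ℝ) : Prop where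
  nnp : ∀ j, 0 ≤ nn j ∧ nn j < pp j
  r0 : pp 0 + nn 0 ≤ η * (pp 2 - nn 2)
  r02 : pp 0 + nn 0 ≤ η * (pp 2 - nn 2) ^ 2
  r2 : pp 2 + nn 2 ≤ η * g
  r21 : pp 2 + nn 2 ≤ η * (pp 1 - nn 1)
  a0 : 2 * (pp 0 + nn 0) ≤ pp 2 - nn 2
  a1 : 8 * ((pp 2 + nn 2) + (pp 0 + nn 0)) ≤ pp 1 - nn 1

/-- **the slopes of the marks** -/
theorem marks {e w0 cu ct κ : ℝ} {θ : Fin 3 → ℝ} (he : 0 < e) (he1 : e ≤ 1) (hw : 0 < w0)
    (hw1 : w0 ≤ 1) (hcu : 0 < cu) (hcu1 : cu ≤ 1 / 4) (hct : 0 < ct) (hcuκ : 4 * cu < κ)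
    (h : κ / 4 ≤ psiG 0 (Da w0 cu) (Db e w0 cu ct) 1 θ) :
    0 < θ 1 ∧ θ 1 ≤ 2 / e ∧ cu * max (-(θ 2)) 0 ≤ 2 ∧ cu * (w0 * max (-(θ 0)) 0) ≤ 2 ∧
      |θ 2| ≤ 1 + 2 / ct := by
  have H := dir_val e w0 cu ct 1 θ
  have N0 : 0 ≤ nr 1 (θ 0) - 1 := N_nonneg
  have N1 : 0 ≤ nr 1 (θ 1) - 1 := N_nonneg
  have N2 : 0 ≤ nr 1 (θ 2) - 1 := N_nonneg
  have a0 := sub_N_le 1 (θ 0)
  have a1 := sub_N_le 1 (θ 1)
  have a2 := sub_N_le 1 (θ 2)
  have b2 := le_nr_x 1 (θ 2)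
  set n0 := nr 1 (θ 0) - 1 with hn0
  set n1 := nr 1 (θ 1) - 1 with hn1
  set n2 := nr 1 (θ 2) - 1 with hn2
  have hκ0 : 0 < κ := by linarith
  have k1 : cu * (θ 2 - n2) ≤ cu := by nlinarith
  have k0 : w0 * (θ 0 - n0) ≤ 1 := by nlinarith
  have k2 : cu * (w0 * (θ 0 - n0)) ≤ cu := by nlinarith
  have k3 : 0 ≤ ct * n2 := mul_nonneg hct.le N2
  have k4 : 0 ≤ ct * (w0 * n0) := mul_nonneg hct.le (mul_nonneg hw.le N0)
  have k5 : 0 ≤ e * n1 := mul_nonneg he.le N1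
  have H2 : κ / 2 ≤ (θ 1 - n1 - e * n1) + (cu * (θ 2 - n2) + cu * (w0 * (θ 0 - n0))) -
      (ct * n2 + ct * (w0 * n0)) := by
    have : (θ 1 - (1 + e) * n1) + cu * ((θ 2 - n2) + w0 * (θ 0 - n0)) -
        ct * (n2 + w0 * n0) = (θ 1 - n1 - e * n1) + (cu * (θ 2 - n2) + cu * (w0 * (θ 0 - n0))) -
      (ct * n2 + ct * (w0 * n0)) := by ring
    rw [← this, ← H]
    linarith
  have t1 : 0 < θ 1 - n1 - e * n1 := by linarith
  have t2 : 0 < θ 1 := by linarith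
  refine ⟨t2, ?_, ?_, ?_, ?_⟩
  · rw [le_div_iff₀ he]
    nlinarith
  · have g1 : -2 ≤ cu * θ 2 := by
      have : 0 ≤ cu * n2 := mul_nonneg hcu.le N2
      nlinarith
    rcases le_total (-(θ 2)) 0 with hc | hc
    · rw [max_eq_right hc]; linarith
    · rw [max_eq_left hc]; linarith
  · have g1 : -2 ≤ cu * (w0 * θ 0) := by
      have : 0 ≤ cu * (w0 * n0) := mul_nonneg hcu.le (mul_nonneg hw.le N0)
      nlinarith
    rcases le_total (-(θ 0)) 0 with hc | hc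
    · rw [max_eq_right hc]; linarith
    · rw [max_eq_left hc]; linarith
  · have g1 : ct * n2 ≤ 2 := by linarith
    have g2 : n2 ≤ 2 / ct := by rw [le_div_iff₀ hct]; linarith
    have g3 : nr 1 (θ 2) = n2 + 1 := by rw [hn2]; ring
    rw [g3] at b2
    linarith

/-- slopes of the family -/
theorem slopes {q1 q2 e w0 s u t : ℝ} {S : ℝ} (hq1 : 0 < q1) (hq2 : 0 < q2) (he : 0 ≤ e)
    (hw : 0 < w0) (hs : 0 ≤ s) (hsS : s ≤ S) (heS : e * S ≤ q1 / 2) (ht : 0 ≤ t)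
    (htq : t ≤ q2 / 2) (hqu : q2 ≤ u) :
    (∀ j, 0 ≤ Na e w0 s u t j) ∧
    (q1 / 2 ≤ Pa q1 q2 w0 s u 1 - Na e w0 s u t 1) ∧
    (q2 / 2 ≤ Pa q1 q2 w0 s u 2 - Na e w0 s u t 2) ∧
    (w0 * (q2 / 2) ≤ Pa q1 q2 w0 s u 0 - Na e w0 s u t 0) ∧
    (Pa q1 q2 w0 s u 2 + Na e w0 s u t 2 ≤ 4 * u) ∧
    (Pa q1 q2 w0 s u 0 + Na e w0 s u t 0 ≤ 4 * (w0 * u)) := by
  have hu : 0 < u := by linarith
  have e0 : Pa q1 q2 w0 s u 0 = w0 * (q2 + u) := rfl
  have e1 : Pa q1 q2 w0 s u 1 = q1 + s := rfl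
  have e2 : Pa q1 q2 w0 s u 2 = q2 + u := rfl
  have f0 : Na e w0 s u t 0 = w0 * (u + t) := rfl
  have f1 : Na e w0 s u t 1 = (1 + e) * s := rfl
  have f2 : Na e w0 s u t 2 = u + t := rfl
  have hes : e * s ≤ e * S := mul_le_mul_of_nonneg_left hsS he
  refine ⟨fun j => ?_, ?_, ?_, ?_, ?_, ?_⟩
  · fin_cases j
    · show 0 ≤ w0 * (u + t)
      positivity
    · show 0 ≤ (1 + e) * s
      positivity
    · show 0 ≤ u + t
      positivity
  · rw [e1, f1]; linarith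
  · rw [e2, f2]; linarith
  · rw [e0, f0]; nlinarith
  · rw [e2, f2]; linarith
  · rw [e0, f0]; nlinarith

/-- **the two-sided slopes** of the selected reward -/
theorem slP_fam {η b1 g q1 q2 e w0 s u t S u1 : ℝ} (hη : 0 < η) (hη1 : η ≤ 1 / 32) (hb1 : 0 < b1)
    (hg : b1 / 2 ≤ g) (hq1 : 0 < q1) (hq2 : 0 < q2) (he : 0 ≤ e)
    (hw : 0 < w0) (hs : 0 ≤ s) (hsS : s ≤ S) (heS : e * S ≤ q1 / 2) (ht : 0 ≤ t)
    (htq : t ≤ q2 / 2) (hqu : q2 ≤ u) (huu : u ≤ u1) (c1 : 4 * u1 ≤ η * (b1 / 2))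
    (c2 : 4 * u1 ≤ η * (q1 / 2)) (c5 : 4 * (w0 * u1) ≤ η * (q2 / 2))
    (c6 : 4 * (w0 * u1) ≤ η * (q2 / 2) ^ 2) :
    SlP η g (Pa q1 q2 w0 s u) (Na e w0 s u t) := by
  obtain ⟨h0, h1, h2, h3, h4, h5⟩ := slopes hq1 hq2 he hw hs hsS heS ht htq hqu
  have hwu : w0 * u ≤ w0 * u1 := mul_le_mul_of_nonneg_left huu hw.le
  have k1 : η * (q2 / 2) ≤ η * (Pa q1 q2 w0 s u 2 - Na e w0 s u t 2) :=
    mul_le_mul_of_nonneg_left h2 hη.le
  have k2 : η * (q2 / 2) ^ 2 ≤ η * (Pa q1 q2 w0 s u 2 - Na e w0 s u t 2) ^ 2 :=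
    mul_le_mul_of_nonneg_left (pow_le_pow_left₀ (by linarith) h2 2) hη.le
  have k3 : η * (b1 / 2) ≤ η * g := mul_le_mul_of_nonneg_left hg hη.le
  have k4 : η * (q1 / 2) ≤ η * (Pa q1 q2 w0 s u 1 - Na e w0 s u t 1) :=
    mul_le_mul_of_nonneg_left h1 hη.le
  have hD2 : 0 < Pa q1 q2 w0 s u 2 - Na e w0 s u t 2 := by linarith
  have hD1 : 0 < Pa q1 q2 w0 s u 1 - Na e w0 s u t 1 := by linarith
  have hD0 : 0 < Pa q1 q2 w0 s u 0 - Na e w0 s u t 0 := by
    have : 0 < w0 * (q2 / 2) := by positivity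
    linarith
  have k5 : η * (Pa q1 q2 w0 s u 2 - Na e w0 s u t 2) ≤
      1 / 32 * (Pa q1 q2 w0 s u 2 - Na e w0 s u t 2) := mul_le_mul_of_nonneg_right hη1 hD2.le
  have k6 : η * (Pa q1 q2 w0 s u 1 - Na e w0 s u t 1) ≤
      1 / 32 * (Pa q1 q2 w0 s u 1 - Na e w0 s u t 1) := mul_le_mul_of_nonneg_right hη1 hD1.le
  have hN2 : 0 ≤ Na e w0 s u t 2 := h0 2
  refine ⟨fun j => ⟨h0 j, ?_⟩, by linarith, by linarith, by linarith, by linarith, by linarith,
    by linarith⟩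
  fin_cases j
  · show Na e w0 s u t 0 < Pa q1 q2 w0 s u 0
    linarith
  · show Na e w0 s u t 1 < Pa q1 q2 w0 s u 1
    linarith
  · show Na e w0 s u t 2 < Pa q1 q2 w0 s u 2
    linarith

/-- **the parameter inequalities** of the selected reward -/
theorem parL_of {η b1 g G q1 q2 e w0 s u t S u1 cu ct a κ : ℝ} {pp nn ql θ : Fin 3 → ℝ}
    (hη : 0 < η) (hb1 : 0 < b1)
    (hg : b1 / 2 ≤ g) (hG : g ≤ G) (hq1 : 0 < q1) (hq2 : 0 < q2) (he : 0 < e)
    (hw : 0 < w0) (hw1 : w0 ≤ 1) (hu : 0 < u) (huu : u ≤ u1)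
    (d1 : q1 / 2 ≤ ql 1) (d2 : q2 / 2 ≤ ql 2) (d0 : 0 < ql 0) (d2' : ql 2 ≤ 4 * u)
    (d0' : ql 0 ≤ 4 * (w0 * u))
    (c1 : 4 * u1 ≤ η * (b1 / 2)) (c2 : 4 * u1 ≤ η * (q1 / 2))
    (c3 : 4 * u1 * (2 / e) ≤ η * b1 / 16) (c4 : 8 / cu * u ≤ η * b1 / 16)
    (c5 : 4 * (w0 * u1) ≤ η * (q2 / 2)) (c6 : 4 * (w0 * u1) ≤ η * (q2 / 2) ^ 2)
    (c7 : 4 * (w0 * u1) * (1 + 2 / ct) ≤ η * b1 / 16) (hcu : 0 < cu) (hct : 0 < ct)
    (m1 : 0 < θ 1) (m2 : θ 1 ≤ 2 / e) (m3 : cu * max (-(θ 2)) 0 ≤ 2)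
    (m4 : cu * (w0 * max (-(θ 0)) 0) ≤ 2) (m5 : |θ 2| ≤ 1 + 2 / ct) :
    ParL η G ql θ := by
  have hu1 : 0 < u1 := hu.trans_le huu
  have hwu : w0 * u ≤ w0 * u1 := mul_le_mul_of_nonneg_left huu hw.le
  have hG2 : η * (b1 / 2) ≤ η * G := mul_le_mul_of_nonneg_left (hg.trans hG) hη.le
  have hX : (0 : ℝ) ≤ 2 / e := by positivity
  have hY : (0 : ℝ) ≤ 1 + 2 / ct := by positivity
  have hql2 : 0 < ql 2 := by linarith
  have k1 : η * (q2 / 2) ≤ η * ql 2 := mul_le_mul_of_nonneg_left d2 hη.le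
  have k2 : η * (q2 / 2) ^ 2 ≤ η * ql 2 ^ 2 :=
    mul_le_mul_of_nonneg_left (pow_le_pow_left₀ (by linarith) d2 2) hη.le
  have k4 : η * (q1 / 2) ≤ η * ql 1 := mul_le_mul_of_nonneg_left d1 hη.le
  have hηb : 0 < η * b1 := by positivity
  -- `q₂ θ₁`
  have A1 : ql 2 * θ 1 ≤ η * b1 / 16 := by
    refine le_trans ?_ c3
    exact mul_le_mul (by linarith) m2 m1.le (by linarith)
  -- `q₂ θ₂⁻`
  have M2 : 0 ≤ max (-(θ 2)) 0 := le_max_right _ _
  have A2 : ql 2 * max (-(θ 2)) 0 ≤ η * b1 / 16 := by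
    refine le_trans ?_ c4
    have : max (-(θ 2)) 0 ≤ 2 / cu := by
      rw [le_div_iff₀ hcu]; linarith
    calc ql 2 * max (-(θ 2)) 0 ≤ 4 * u * (2 / cu) := mul_le_mul d2' this M2 (by positivity)
      _ = 8 / cu * u := by ring
  -- `q₀ θ₀⁻`
  have M0 : 0 ≤ max (-(θ 0)) 0 := le_max_right _ _
  have A3 : ql 0 * max (-(θ 0)) 0 ≤ η * b1 / 16 := by
    refine le_trans ?_ c4
    have : w0 * max (-(θ 0)) 0 ≤ 2 / cu := by
      rw [le_div_iff₀ hcu]; linarith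
    calc ql 0 * max (-(θ 0)) 0 ≤ 4 * (w0 * u) * max (-(θ 0)) 0 :=
          mul_le_mul_of_nonneg_right d0' M0
      _ = 4 * u * (w0 * max (-(θ 0)) 0) := by ring
      _ ≤ 4 * u * (2 / cu) := mul_le_mul_of_nonneg_left this (by positivity)
      _ = 8 / cu * u := by ring
  -- `q₀ |θ₁|`
  have A4 : ql 0 * |θ 1| ≤ η * b1 / 16 := by
    refine le_trans ?_ c3
    rw [abs_of_pos m1]
    have h1 : ql 0 ≤ 4 * u1 := by
      have : w0 * u1 ≤ 1 * u1 := mul_le_mul_of_nonneg_right hw1 hu1.le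
      linarith
    exact mul_le_mul h1 m2 m1.le (by linarith)
  -- `q₀ |θ₂|`
  have A5 : ql 0 * |θ 2| ≤ η * b1 / 16 := by
    refine le_trans ?_ c7
    exact mul_le_mul (by linarith) m5 (abs_nonneg _) (by positivity)
  -- `q₂ (θ₁ - θ₂)⁺`
  have A6 : ql 2 * max (θ 1 - θ 2) 0 ≤ η * b1 / 8 := by
    have h1 : max (θ 1 - θ 2) 0 ≤ θ 1 + max (-(θ 2)) 0 := by
      refine max_le ?_ (by linarith)
      have := le_max_left (-(θ 2)) 0
      linarith
    have h2 := mul_le_mul_of_nonneg_left h1 hql2.le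
    rw [mul_add] at h2
    linarith
  refine ⟨⟨d0, by linarith⟩, by linarith, ⟨hql2, by linarith⟩, by linarith,
    ⟨by linarith, by linarith⟩, m1, ?_, ⟨by linarith, by linarith⟩⟩
  have : ql 0 * (max (-(θ 0)) 0 + |θ 1| + |θ 2|) =
      ql 0 * max (-(θ 0)) 0 + ql 0 * |θ 1| + ql 0 * |θ 2| := by ring
  rw [this]
  linarith

/-- the base point: the reward is small on the box `0 ≤ x j ≤ l` -/
theorem fam_base {q1 q2 e w0 s u t c l : ℝ} {x : Fin 3 → ℝ} (hq1 : 0 ≤ q1) (hq2 : 0 ≤ q2)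
    (he : 0 ≤ e) (hw : 0 ≤ w0) (hw1 : w0 ≤ 1) (hs : 0 ≤ s) (hu : 0 ≤ u) (ht : 0 ≤ t)
    (hc : q1 + s + 2 * (q2 + u) ≤ c) (hl : 0 ≤ l) (hx : ∀ j, 0 ≤ x j ∧ x j ≤ l) :
    fam q1 q2 e w0 s u t l x ≤ c * l := by
  rw [fam_val]
  have N0 : 0 ≤ nr l (x 0) - l := N_nonneg
  have N1 : 0 ≤ nr l (x 1) - l := N_nonneg
  have N2 : 0 ≤ nr l (x 2) - l := N_nonneg
  obtain ⟨a0, b0⟩ := hx 0
  obtain ⟨a1, b1⟩ := hx 1
  obtain ⟨a2, b2⟩ := hx 2
  set n0 := nr l (x 0) - l with hn0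
  set n1 := nr l (x 1) - l with hn1
  set n2 := nr l (x 2) - l with hn2
  have k1 : q1 * x 1 ≤ q1 * l := mul_le_mul_of_nonneg_left b1 hq1
  have k2 : s * (x 1 - (1 + e) * n1) ≤ s * l := by
    refine mul_le_mul_of_nonneg_left ?_ hs
    have : 0 ≤ (1 + e) * n1 := by positivity
    linarith
  have k3 : (q2 + u) * x 2 - (u + t) * n2 ≤ (q2 + u) * l := by
    have h1 : (q2 + u) * x 2 ≤ (q2 + u) * l := mul_le_mul_of_nonneg_left b2 (by linarith)
    have h2 : 0 ≤ (u + t) * n2 := by positivity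
    linarith
  have k4 : w0 * ((q2 + u) * x 0 - (u + t) * n0) ≤ (q2 + u) * l := by
    have h1 : (q2 + u) * x 0 ≤ (q2 + u) * l := mul_le_mul_of_nonneg_left b0 (by linarith)
    have h2 : 0 ≤ (u + t) * n0 := by positivity
    have h3 : 0 ≤ (q2 + u) * l := by positivity
    calc w0 * ((q2 + u) * x 0 - (u + t) * n0) ≤ w0 * ((q2 + u) * l) :=
          mul_le_mul_of_nonneg_left (by linarith) hw
      _ ≤ 1 * ((q2 + u) * l) := mul_le_mul_of_nonneg_right hw1 h3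
      _ = _ := one_mul _
  have k5 := mul_le_mul_of_nonneg_right hc hl
  nlinarith

/-- the end bound of the family -/
theorem fam_end {q1 q2 e w0 s u t u1 C1 l : ℝ} {x : Fin 3 → ℝ} (hq1 : 0 ≤ q1) (hq2 : 0 < q2)
    (he : 0 ≤ e) (hw : 0 ≤ w0) (hs : 0 ≤ s) (ht : 0 ≤ t) (htq : t ≤ q2 / 2) (hqu : q2 ≤ u)
    (huu : u ≤ u1) (hC : 0 ≤ C1) (heC : e * C1 ≤ 8 / 100) (hwC : 4 * (w0 * u1) * C1 ≤ 1)
    (hl : 0 ≤ l) (hx : ∀ j, |x j| ≤ C1 * l) (hx1 : l ≤ x 1) (hx2 : l ≤ x 2) :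
    (s / 2 - 1) * l ≤ fam q1 q2 e w0 s u t l x := by
  rw [fam_val]
  have N0 : 0 ≤ nr l (x 0) - l := N_nonneg
  have N1 : 0 ≤ nr l (x 1) - l := N_nonneg
  have M0 := N_le (x := x 0) hl
  have M1 := N_le (x := x 1) hl
  have M2 := N_le (x := x 2) hl
  have F1 := N_le_far hl hx1
  have X1 := hx 1
  have X0 := hx 0
  rw [abs_of_nonneg (hl.trans hx1)] at M1 X1
  rw [abs_of_nonneg (hl.trans hx2)] at M2
  set n0 := nr l (x 0) - l with hn0
  set n1 := nr l (x 1) - l with hn1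
  set n2 := nr l (x 2) - l with hn2
  have hu : 0 < u := by linarith
  have k1 : 0 ≤ q1 * x 1 := mul_nonneg hq1 (hl.trans hx1)
  have k2 : s * (l / 2) ≤ s * (x 1 - (1 + e) * n1) := by
    refine mul_le_mul_of_nonneg_left ?_ hs
    have h1 : e * n1 ≤ 8 / 100 * l := by
      calc e * n1 ≤ e * (C1 * l) := mul_le_mul_of_nonneg_left (M1.trans X1) he
        _ = e * C1 * l := by ring
        _ ≤ 8 / 100 * l := mul_le_mul_of_nonneg_right heC hl
    nlinarith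
  have k3 : 0 ≤ (q2 + u) * x 2 - (u + t) * n2 := by
    have h1 : (u + t) * n2 ≤ (u + t) * x 2 := mul_le_mul_of_nonneg_left M2 (by linarith)
    have h2 : (u + t) * x 2 ≤ (q2 + u) * x 2 :=
      mul_le_mul_of_nonneg_right (by linarith) (hl.trans hx2)
    linarith
  have k4 : -l ≤ w0 * ((q2 + u) * x 0 - (u + t) * n0) := by
    have h1 : -((q2 + u) * (C1 * l)) ≤ (q2 + u) * x 0 := by
      have := neg_abs_le (x 0)
      have h3 : (q2 + u) * (-(C1 * l)) ≤ (q2 + u) * x 0 :=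
        mul_le_mul_of_nonneg_left (by linarith) (by linarith)
      linarith
    have h2 : (u + t) * n0 ≤ (u + t) * (C1 * l) :=
      mul_le_mul_of_nonneg_left (M0.trans X0) (by linarith)
    have h3 : -(4 * u1 * (C1 * l)) ≤ (q2 + u) * x 0 - (u + t) * n0 := by
      have h4 : 0 ≤ C1 * l := mul_nonneg hC hl
      have h5 : (q2 + 2 * u + t) * (C1 * l) ≤ 4 * u1 * (C1 * l) :=
        mul_le_mul_of_nonneg_right (by linarith) h4
      nlinarith
    have h6 := mul_le_mul_of_nonneg_left h3 hw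
    have h7 : w0 * -(4 * u1 * (C1 * l)) = -(4 * (w0 * u1) * C1 * l) := by ring
    have h8 := mul_le_mul_of_nonneg_right hwC hl
    rw [h7] at h6
    linarith
  nlinarith

theorem SlP.ex2 {η g : ℝ} {pp nn : Fin 3 → ℝ} (h : SlP η g pp nn) (hD2 : 0 < pp 2 - nn 2) :
    DAl879.Ex2 η (fun j => pp j - nn j) (fun j => pp j + nn j) where
  le := fun k => ⟨by have := (h.nnp k).2; linarith, by have := (h.nnp k).1; linarith⟩
  pos := hD2
  e02 := h.a0
  e1 := h.a1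
  e00 := h.r02
  e21 := h.r21

set_option maxHeartbeats 1600000 in
/-- **`soft36`, one configuration of constants**: the selected reward, raw form. -/
theorem soft36_raw {η : ℝ} (hη : 0 < η) (hη1 : η ≤ 1 / 32) {K : ℕ} (hE : EnemyH K TT36) :
    ∃ (p n a b pp nn : Fin 3 → ℝ) (q0 Qm κ δ0 g : ℝ),
      RG 0 0 p n a b q0 = psiG 0 pp nn ∧
      RwdF (RG 0 0 p n a b) (psiG 0 a b) q0 Qm ∧ ChsK K TT36 (RG 0 0 p n a b) q0 Qm κ δ0 q0 g ∧
      0 < g ∧ SlP η g pp nn ∧ 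
      ∀ θ, κ ≤ psiG 0 a b 1 θ → ParL η (g + dlG 0 nn θ) (dwG pp nn θ) θ := by
  obtain ⟨b0', hb0', hlow'⟩ := low36 hE fit36
  obtain ⟨C1, hC1, hend⟩ := bdd36s K
  -- the size of the enemy
  obtain ⟨b0, hb0, hb01, hlow⟩ : ∃ b0 : ℝ, 0 < b0 ∧ b0 ≤ 1 ∧
      ∀ (Ψ : ℝ → (Fin 3 → ℝ) → ℝ) (c : ℝ),
      (∀ l x, 0 ≤ l → (∀ j, 0 ≤ x j ∧ x j ≤ l) → Ψ l x ≤ c * l) →
      ∀ b : ℝ, b < b0 - c → ¬ UBH K TT36 Ψ b :=
    ⟨min b0' 1, lt_min hb0' one_pos, min_le_right _ _, fun Ψ c h b hb =>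
      hlow' Ψ c h b (hb.trans_le (by have := min_le_left b0' 1; linarith))⟩
  set CU : ℝ := C1 + 1 with hCU
  set S : ℝ := 2 * CU with hS
  set b1 : ℝ := b0 / 2 with hb1
  set κ : ℝ := b1 / (2 * S) with hκ
  set q1 : ℝ := b0 / 16 with hq1
  have pCU : 1 < CU := by rw [hCU]; linarith
  have pS : 2 < S := by rw [hS]; linarith
  have pb1 : 0 < b1 := by rw [hb1]; positivity
  have pκ : 0 < κ := by rw [hκ]; positivity
  have hκS : κ * S = b1 / 2 := by rw [hκ]; field_simp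
  have hκ1 : κ ≤ 1 := by
    rw [hκ, div_le_one (by positivity)]; linarith
  have pq1 : 0 < q1 := by rw [hq1]; positivity
  obtain ⟨e, he, he1, heS, heC⟩ : ∃ e : ℝ, 0 < e ∧ e ≤ 1 ∧ e * S ≤ q1 / 2 ∧ e * C1 ≤ 8 / 100 := by
    refine ⟨min 1 (min (q1 / 2 / S) (8 / 100 / C1)), by positivity, min_le_left _ _, ?_, ?_⟩
    · rw [← le_div_iff₀ (by positivity)]
      exact (min_le_right _ _).trans (min_le_left _ _)
    · rw [← le_div_iff₀ (by positivity)]
      exact (min_le_right _ _).trans (min_le_right _ _)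
  set a : ℝ := η * b1 * κ / 1024 with ha
  have pa : 0 < a := by rw [ha]; positivity
  obtain ⟨u1, hu1, g1, g2, g3, g4, g5⟩ : ∃ u1 : ℝ, 0 < u1 ∧ 4 * u1 ≤ η * (b1 / 2) ∧
      4 * u1 ≤ η * (q1 / 2) ∧ 4 * u1 * (2 / e) ≤ η * b1 / 16 ∧ u1 ≤ a / 2 ∧ u1 ≤ b0 / 64 := by
    refine ⟨min (min (η * (b1 / 2) / 4) (η * (q1 / 2) / 4))
      (min (η * b1 / 16 / (4 * (2 / e))) (min (a / 2) (b0 / 64))), by positivity, ?_, ?_, ?_, ?_, ?_⟩
    · have := (min_le_left (min (η * (b1 / 2) / 4) (η * (q1 / 2) / 4))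
        (min (η * b1 / 16 / (4 * (2 / e))) (min (a / 2) (b0 / 64)))).trans (min_le_left _ _)
      linarith
    · have := (min_le_left (min (η * (b1 / 2) / 4) (η * (q1 / 2) / 4))
        (min (η * b1 / 16 / (4 * (2 / e))) (min (a / 2) (b0 / 64)))).trans (min_le_right _ _)
      linarith
    · have h3 := (min_le_right (min (η * (b1 / 2) / 4) (η * (q1 / 2) / 4))
        (min (η * b1 / 16 / (4 * (2 / e))) (min (a / 2) (b0 / 64)))).trans (min_le_left _ _)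
      rw [le_div_iff₀ (by positivity)] at h3
      calc _ = _ := by ring
        _ ≤ _ := h3
    · exact (min_le_right _ _).trans ((min_le_right _ _).trans (min_le_left _ _))
    · exact (min_le_right _ _).trans ((min_le_right _ _).trans (min_le_right _ _))
  set u0 : ℝ := u1 * Real.exp (-(CU / a)) with hu0
  have pu0 : 0 < u0 := by rw [hu0]; positivity
  have hu01 : u0 ≤ u1 := by
    rw [hu0]
    have : Real.exp (-(CU / a)) ≤ 1 := Real.exp_le_one_iff.2 (by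
      have : 0 ≤ CU / a := by positivity
      linarith)
    calc u1 * Real.exp (-(CU / a)) ≤ u1 * 1 := mul_le_mul_of_nonneg_left this hu1.le
      _ = u1 := mul_one _
  have hlog : Real.log u1 - Real.log u0 = CU / a := by
    rw [hu0, Real.log_mul hu1.ne' (Real.exp_pos _).ne', Real.log_exp]; ring
  set t1 : ℝ := u0 / 2 with ht1
  have pt1 : 0 < t1 := by rw [ht1]; positivity
  set K' : ℝ := CU / t1 with hK'
  have pK' : 0 < K' := by rw [hK']; positivity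
  have hK't : K' * t1 = CU := by rw [hK']; field_simp
  set ct : ℝ := κ / (4 * K') with hct
  have pct : 0 < ct := by rw [hct]; positivity
  have hctK : K' * ct = κ / 4 := by rw [hct]; field_simp
  have ht11 : t1 ≤ 1 := by
    rw [ht1]; linarith
  have hK'1 : 1 ≤ K' := by
    rw [hK', le_div_iff₀ pt1]; linarith
  have hct1 : ct ≤ 1 := by
    rw [hct, div_le_one (by positivity)]; linarith
  obtain ⟨w0, hw, hw1, f1, f2, f3, f4⟩ : ∃ w0 : ℝ, 0 < w0 ∧ w0 ≤ 1 ∧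
      4 * (w0 * u1) * C1 ≤ 1 ∧ 4 * (w0 * u1) ≤ η * (u0 / 2) ∧ 4 * (w0 * u1) ≤ η * (u0 / 2) ^ 2 ∧
      4 * (w0 * u1) * (1 + 2 / ct) ≤ η * b1 / 16 := by
    have hsm : ∀ c d : ℝ, 0 < c → 0 < d → ∀ w : ℝ, w ≤ d / c → c * w ≤ d := by
      intro c d hc hd w hw
      rw [le_div_iff₀ hc] at hw
      linarith
    refine ⟨min 1 (min (min (1 / (4 * u1 * C1)) (η * (u0 / 2) / (4 * u1)))
      (min (η * (u0 / 2) ^ 2 / (4 * u1)) (η * b1 / 16 / (4 * u1 * (1 + 2 / ct))))),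
      by positivity, min_le_left _ _, ?_, ?_, ?_, ?_⟩
    · have := hsm (4 * u1 * C1) 1 (by positivity) one_pos _
        ((min_le_right (1 : ℝ) (min (min (1 / (4 * u1 * C1)) (η * (u0 / 2) / (4 * u1)))
      (min (η * (u0 / 2) ^ 2 / (4 * u1)) (η * b1 / 16 / (4 * u1 * (1 + 2 / ct)))))).trans
          ((min_le_left _ _).trans (min_le_left _ _)))
      calc _ = _ := by ring
        _ ≤ _ := this
    · have := hsm (4 * u1) (η * (u0 / 2)) (by positivity) (by positivity) _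
        ((min_le_right (1 : ℝ) (min (min (1 / (4 * u1 * C1)) (η * (u0 / 2) / (4 * u1)))
      (min (η * (u0 / 2) ^ 2 / (4 * u1)) (η * b1 / 16 / (4 * u1 * (1 + 2 / ct)))))).trans
          ((min_le_left _ _).trans (min_le_right _ _)))
      calc _ = _ := by ring
        _ ≤ _ := this
    · have := hsm (4 * u1) (η * (u0 / 2) ^ 2) (by positivity) (by positivity) _
        ((min_le_right (1 : ℝ) (min (min (1 / (4 * u1 * C1)) (η * (u0 / 2) / (4 * u1)))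
      (min (η * (u0 / 2) ^ 2 / (4 * u1)) (η * b1 / 16 / (4 * u1 * (1 + 2 / ct)))))).trans
          ((min_le_right _ _).trans (min_le_left _ _)))
      calc _ = _ := by ring
        _ ≤ _ := this
    · have := hsm (4 * u1 * (1 + 2 / ct)) (η * b1 / 16) (by positivity) (by positivity) _
        ((min_le_right (1 : ℝ) (min (min (1 / (4 * u1 * C1)) (η * (u0 / 2) / (4 * u1)))
      (min (η * (u0 / 2) ^ 2 / (4 * u1)) (η * b1 / 16 / (4 * u1 * (1 + 2 / ct)))))).trans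
          ((min_le_right _ _).trans (min_le_right _ _)))
      calc _ = _ := by ring
        _ ≤ _ := this
  set s0 : ℝ := b0 / 16 with hs0
  have ps0 : 0 < s0 := by rw [hs0]; positivity
  -- selection
  obtain ⟨s, u, t, g, hs1, hs2, hu2, hu3, ht2, ht3, hg, hlo, hub, hdrop⟩ :=
    sel_abs (K := K) (𝒯 := TT36) (fam := fam q1 u0 e w0) (s0 := s0) (u0 := u0) (u1 := u1)
      (t0 := 0) (t1 := t1) (CU := CU) (b1 := b1) (κ := κ) (a := a) (K' := K')
      (show s0 ≤ S by rw [hs0]; linarith) ps0.le pu0 hu01 pt1.le pb1 pκ hκS.le pa pK'.le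
      (by linarith)
      (fun s s' u u' t t' _ h2 _ _ h5 _ _ h8 _ l x hl => fam_mono he.le hw.le hw1 h2 h5 h8 hl x)
      (fun b hb => hlow _ (b0 / 2) (fun l x hl hx => fam_base pq1.le pu0.le he.le hw.le hw1
        ps0.le pu0.le le_rfl (by rw [hq1, hs0]; linarith) hl hx) b (by rw [hb1] at hb; linarith))
      (by
        intro s u t h1 h2 h3 h4 h5 h6
        have := hend (fam q1 u0 e w0 s u t) (s / 2 - 1) (fun l x hl hx hx1 hx2 =>
          fam_end pq1.le pu0 he.le hw.le (ps0.le.trans h1) h5 (by rw [ht1] at h6; exact h6) h3 h4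
            hC1.le heC f1 hl hx hx1 hx2)
        have e1 : C1 - (s / 2 - 1) = CU - s / 2 := by rw [hCU]; ring
        rwa [e1] at this)
      (by rw [hS]) (by rw [hlog]; exact le_of_eq (by field_simp))
      (by rw [sub_zero, hK't])
  have ps : 0 < s := ps0.trans_le hs1
  have pu : 0 < u := pu0.trans_le hu2
  have pg : 0 < g := by linarith
  set cu : ℝ := κ * u / (4 * a) with hcu
  have pcu : 0 < cu := by rw [hcu]; positivity
  have hcua : a / u * cu = κ / 4 := by rw [hcu]; field_simp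
  have hcu8 : cu ≤ κ / 8 := by
    rw [hcu, div_le_iff₀ (by positivity)]
    have : κ * u ≤ κ * (a / 2) := mul_le_mul_of_nonneg_left (by linarith) pκ.le
    linarith
  have hcuu : 8 / cu * u ≤ η * b1 / 16 := by
    have e1 : 8 / cu * u = 32 * a / κ := by rw [hcu]; field_simp; ring
    rw [e1, ha]
    have e2 : 32 * (η * b1 * κ / 1024) / κ = η * b1 / 32 := by field_simp; ring
    rw [e2]
    have : 0 < η * b1 := by positivity
    linarith
  set q0 : ℝ := min s0 u0 with hq0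
  have pq0 : 0 < q0 := lt_min ps0 pu0
  set δ0 : ℝ := min (S - s) (min (u1 - u) (t1 - t)) with hδ0
  have pδ0 : 0 < δ0 := lt_min (by linarith) (lt_min (by linarith) (by linarith))
  have hfam : ∀ δ : ℝ, RG 0 0 (fun j => Pa q1 u0 w0 s u j - q0 * Da w0 cu j)
      (fun j => Na e w0 s u t j - q0 * Db e w0 cu ct j) (Da w0 cu) (Db e w0 cu ct) (q0 + δ) =
      fam q1 u0 e w0 (s + δ / 2) (u + cu * (δ / 2)) (t + ct * (δ / 2)) := fun δ =>
    fam_dir q1 u0 e w0 s u t cu ct q0 δ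
  have hfam0 : RG 0 0 (fun j => Pa q1 u0 w0 s u j - q0 * Da w0 cu j)
      (fun j => Na e w0 s u t j - q0 * Db e w0 cu ct j) (Da w0 cu) (Db e w0 cu ct) q0 =
      fam q1 u0 e w0 s u t := by
    have := hfam 0
    simpa using this
  obtain ⟨z0, z1, z2, z3, z4, z5⟩ := slopes (t := t) pq1 pu0 he.le hw ps.le hs2.le heS ht2
    (by rw [ht1] at ht3; linarith) hu2
  have hsl : SlP η g (Pa q1 u0 w0 s u) (Na e w0 s u t) :=
    slP_fam hη hη1 pb1 hg pq1 pu0 he.le hw ps.le hs2.le heS ht2 (by rw [ht1] at ht3; linarith)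
      hu2 hu3.le g1 g2 f2 f3
  refine ⟨_, _, Da w0 cu, Db e w0 cu ct, Pa q1 u0 w0 s u, Na e w0 s u t, q0, q0 + δ0, κ / 4, δ0, g,
    hfam0, ?_, ?_, pg, hsl, ?_⟩
  · -- `RwdF`
    refine rwdG (fun j => ?_) (fun j => ?_) (fun l x hl => ?_) pq0 _
    · have hq0s : q0 ≤ s0 := min_le_left _ _
      have hq0u : q0 ≤ u0 := min_le_right _ _
      have hcc : cu + ct ≤ 2 := by linarith
      fin_cases j
      · show 0 ≤ w0 * (u + t) - q0 * (w0 * ((cu + ct) / 2))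
        have h1 : q0 * ((cu + ct) / 2) ≤ u0 * 1 :=
          mul_le_mul hq0u (by linarith) (by positivity) pu0.le
        have h2 : 0 ≤ w0 * (u + t - q0 * ((cu + ct) / 2)) := mul_nonneg hw.le (by linarith)
        linarith
      · show 0 ≤ (1 + e) * s - q0 * ((1 + e) / 2)
        have h2 : 0 ≤ (1 + e) * (s - q0 / 2) := mul_nonneg (by linarith) (by linarith)
        linarith
      · show 0 ≤ u + t - q0 * ((cu + ct) / 2)
        have h1 : q0 * ((cu + ct) / 2) ≤ u0 * 1 :=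
          mul_le_mul hq0u (by linarith) (by positivity) pu0.le
        linarith
    · fin_cases j
      · show |w0 * (cu / 2)| < w0 * ((cu + ct) / 2)
        rw [abs_of_pos (by positivity)]
        exact mul_lt_mul_of_pos_left (by linarith) hw
      · show |(1 / 2 : ℝ)| < (1 + e) / 2
        rw [abs_of_pos (by norm_num)]; linarith
      · show |cu / 2| < (cu + ct) / 2
        rw [abs_of_pos (by positivity)]; linarith
    · have h1 := dir_val e w0 cu ct l x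
      have N0 : 0 ≤ nr l (x 0) - l := N_nonneg
      have N1 : 0 ≤ nr l (x 1) - l := N_nonneg
      have N2 : 0 ≤ nr l (x 2) - l := N_nonneg
      have a0 := sub_N_le l (x 0)
      have a1 := sub_N_le l (x 1)
      have a2 := sub_N_le l (x 2)
      set n0 := nr l (x 0) - l with hn0
      set n1 := nr l (x 1) - l with hn1
      set n2 := nr l (x 2) - l with hn2
      have k1 : 0 ≤ e * n1 := mul_nonneg he.le N1
      have k2 : w0 * (x 0 - n0) ≤ l := by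
        calc w0 * (x 0 - n0) ≤ w0 * l := mul_le_mul_of_nonneg_left a0 hw.le
          _ ≤ 1 * l := mul_le_mul_of_nonneg_right hw1 hl
          _ = l := one_mul l
      have k3 : cu * ((x 2 - n2) + w0 * (x 0 - n0)) ≤ 1 / 2 * (2 * l) := by
        calc cu * ((x 2 - n2) + w0 * (x 0 - n0)) ≤ cu * (2 * l) :=
              mul_le_mul_of_nonneg_left (by linarith) pcu.le
          _ ≤ 1 / 2 * (2 * l) := mul_le_mul_of_nonneg_right (by linarith) (by positivity)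
      have k4 : 0 ≤ ct * (n2 + w0 * n0) :=
        mul_nonneg pct.le (add_nonneg N2 (mul_nonneg hw.le N0))
      have k5 : x 1 - (1 + e) * n1 = x 1 - n1 - e * n1 := by ring
      rw [k5] at h1
      linarith
  · -- `ChsK`
    refine ⟨by positivity, pδ0, le_rfl, le_rfl, fun b hb => ?_, ?_, fun δ hδ hδδ => ?_⟩
    · rw [hfam0]; exact hlo b hb
    · rw [hfam0]; exact hub
    · rw [hfam δ]
      have j1 : δ ≤ S - s := hδδ.trans (min_le_left _ _)
      have j2 : δ ≤ u1 - u := hδδ.trans ((min_le_right _ _).trans (min_le_left _ _))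
      have j3 : δ ≤ t1 - t := hδδ.trans ((min_le_right _ _).trans (min_le_right _ _))
      have i2 : cu * (δ / 2) ≤ 1 * (δ / 2) :=
        mul_le_mul_of_nonneg_right (by linarith) (by positivity)
      have i3 : ct * (δ / 2) ≤ 1 * (δ / 2) :=
        mul_le_mul_of_nonneg_right hct1 (by positivity)
      have h1 := hdrop (δ / 2) (cu * (δ / 2)) (ct * (δ / 2)) (by positivity) (by positivity)
        (by positivity) (by linarith) (by linarith) (by linarith)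
      have e1 : g - κ * (δ / 2) + a / u * (cu * (δ / 2)) + K' * (ct * (δ / 2)) =
          g - κ / 4 * δ := by
        have e2 : a / u * (cu * (δ / 2)) = (a / u * cu) * (δ / 2) := by ring
        have e3 : K' * (ct * (δ / 2)) = (K' * ct) * (δ / 2) := by ring
        rw [e2, e3, hcua, hctK]; ring
      rwa [e1] at h1
  · -- the parameters
    intro θ hθ
    obtain ⟨m1, m2, m3, m4, m5⟩ := marks he he1 hw hw1 pcu (by linarith only [hcu8, hκ1]) pct
      (by linarith only [hcu8, pκ]) hθ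
    have d0 := dwG_ge (a := Pa q1 u0 w0 s u) (b := Na e w0 s u t) (j := 0) (z0 0) θ
    have d1 := dwG_ge (a := Pa q1 u0 w0 s u) (b := Na e w0 s u t) (j := 1) (z0 1) θ
    have d2 := dwG_ge (a := Pa q1 u0 w0 s u) (b := Na e w0 s u t) (j := 2) (z0 2) θ
    have d0' := dwG_le (a := Pa q1 u0 w0 s u) (b := Na e w0 s u t) (j := 0) (z0 0) θ
    have d2' := dwG_le (a := Pa q1 u0 w0 s u) (b := Na e w0 s u t) (j := 2) (z0 2) θ
    have dl := dlG_ge (s := 0) (b := Na e w0 s u t) z0 θ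
    have hp0 : 0 < w0 * (u0 / 2) := by positivity
    clear_value κ q1 a u0 t1 K' ct s0 cu q0 δ0 CU S b1
    have v1 : q1 / 2 ≤ dwG (Pa q1 u0 w0 s u) (Na e w0 s u t) θ 1 := z1.trans d1
    have v2 : u0 / 2 ≤ dwG (Pa q1 u0 w0 s u) (Na e w0 s u t) θ 2 := z2.trans d2
    have v0 : 0 < dwG (Pa q1 u0 w0 s u) (Na e w0 s u t) θ 0 := hp0.trans_le (z3.trans d0)
    have v2' : dwG (Pa q1 u0 w0 s u) (Na e w0 s u t) θ 2 ≤ 4 * u := d2'.trans z4
    have v0' : dwG (Pa q1 u0 w0 s u) (Na e w0 s u t) θ 0 ≤ 4 * (w0 * u) := d0'.trans z5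
    have vG : g ≤ g + dlG 0 (Na e w0 s u t) θ := le_add_of_nonneg_right dl
    exact parL_of (pp := Pa q1 u0 w0 s u) (nn := Na e w0 s u t) (s := s) (t := t) (S := S) (a := a)
      (κ := κ) hη pb1 hg vG pq1 pu0 he hw hw1 pu hu3.le v1 v2 v0 v2' v0'
      g1 g2 g3 hcuu f2 f3 f4 pcu pct m1 m2 m3 m4 m5

/-- `ParL` and `SlP` are monotone in `η`. -/
theorem ParL.mono {η η' g : ℝ} {q θ : Fin 3 → ℝ} (h : ParL η g q θ) (hη : η ≤ η') :
    ParL η' g q θ := by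
  have hg : 0 < g := h.g0.1
  have hq2 : 0 < q 2 := h.q2.1
  have hq1 : 0 < q 1 := h.g0.2
  have k1 : η * g ≤ η' * g := mul_le_mul_of_nonneg_right hη hg.le
  have k2 : η * q 2 ≤ η' * q 2 := mul_le_mul_of_nonneg_right hη hq2.le
  have k3 : η * q 1 ≤ η' * q 1 := mul_le_mul_of_nonneg_right hη hq1.le
  have k4 : η * q 2 ^ 2 ≤ η' * q 2 ^ 2 := mul_le_mul_of_nonneg_right hη (by positivity)
  exact ⟨⟨h.q0.1, h.q0.2.trans k2⟩, h.q02.trans k4, ⟨h.q2.1, h.q2.2.trans k1⟩, h.q21.trans k3,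
    h.g0, h.θ1, h.θb.trans k1, ⟨h.θ1b.1.trans k1, h.θ1b.2.trans k1⟩⟩

/-- **`soft36`** (G1): the enemy gives a one-parameter family of rewards with `RwdF`, `ChsK`, the
two-sided slopes, and all parameter inequalities of the core for the marks of every output. -/
theorem soft36 {η : ℝ} (hη : 0 < η) {K : ℕ} (hK : 2 ≤ K) (hE : EnemyH K TT36) :
    ∃ (P : ℝ → ℝ → (Fin 3 → ℝ) → ℝ) (ψ : ℝ → (Fin 3 → ℝ) → ℝ) (q0 Qm κ δ0 q g : ℝ),
      RwdF P ψ q0 Qm ∧ ChsK K TT36 P q0 Qm κ δ0 q g ∧ 0 < g ∧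
      (∃ Kl : ℝ, 0 ≤ Kl ∧ LipR (P q) Kl) ∧
      (∃ qm qp : Fin 3 → ℝ, DAl879.Ex2 η qm qp ∧ TwoS (P q) qm qp) ∧
      ∀ θ, κ ≤ ψ 1 θ → ∃ (gl : ℝ) (ql : Fin 3 → ℝ), 0 ≤ gl ∧ LinAt (P q) θ gl ql ∧
        ParL η (g + gl) ql θ := by
  obtain ⟨p, n, a, b, pp, nn, q0, Qm, κ, δ0, g, h1, h2, h3, h4, h5, h6⟩ :=
    soft36_raw (η := min η (1 / 32)) (lt_min hη (by norm_num)) (min_le_right _ _) hE
  have hη' : min η (1 / 32) ≤ η := min_le_left _ _
  refine ⟨RG 0 0 p n a b, psiG 0 a b, q0, Qm, κ, δ0, q0, g, h2, h3, h4, ?_, ?_, fun θ hθ => ?_⟩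
  · exact lipR_RG 0 0 p n a b q0
  · refine ⟨_, _, (h5.ex2 (by have := (h5.nnp 2).2; linarith)).mono hη', ?_⟩
    rw [h1]
    exact twoS_psiG fun j => (h5.nnp j).1
  · refine ⟨dlG 0 nn θ, dwG pp nn θ, dlG_ge (fun j => (h5.nnp j).1) θ, ?_, (h6 θ hθ).mono hη'⟩
    rw [h1]
    exact linAtG 0 pp nn θ

end Crest.Agent.R136.Sft289
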