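import Crest.Agent.R136.TopD_484

/-!
# R136 (S0187), U6 thick side (helper262), part 0: plank frame of a flat sheet

`gd`, `nv` : gradient of the quadratic function of a sheet on the centre line; `Flt` : the sheet is
flat up to the factor `K`; `pf` : orthonormal plank frame (`0` normal, `1` wide, `2` narrow).
-/

set_option autoImplicit false
set_option linter.unusedVariables false

open Finset Filter Topology

namespace Crest.Agent.R136.Ut262

open Crest.Agent.R138.Ex926 (Base U)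
open Crest.Agent.R138.Dp76 (Dense)
open Crest.Agent.R138.Mk163 (zc zl rho alive own Negl)
open Crest.Agent.R136.MkA627 Crest.Agent.R136.Sh605 Crest.Agent.R136.K4 Crest.Agent.R136.Top484

/-! ### the gradient -/

/-- component `i` (in the frame `e`) of the gradient of `q` at the height `z` on the line `c` -/
noncomputable def gd (e : Fin 3 → V3) (c : Ln4) (q : ℝ → V3 → ℝ) (z : ℝ) (i : Fin 3) : ℝ :=
  (q z (c.pos z + e i) - q z (c.pos z - e i)) / 2

/-- the gradient -/
noncomputable def nv (e : Fin 3 → V3) (c : Ln4) (q : ℝ → V3 → ℝ) (z : ℝ) : V3 :=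
  gd e c q z 0 • e 0 + gd e c q z 1 • e 1 + gd e c q z 2 • e 2

/-- **flat sheet**: up to `K a` the function `q` is `q (centre line) + <n, ·>` with ONE normal vector
`n` for all heights of the cell (the gradient at the middle height). -/
def Flt (e : Fin 3 → V3) (c : Ln4) (w : V3) (q : ℝ → V3 → ℝ) (a z0 ρ K : ℝ) : Prop :=
  ∀ z, z0 ≤ z → z ≤ z0 + ρ → ∀ y : V3, (∀ i, |dt (e i) y| ≤ 2 * w i) →
    |q z (c.pos z + y) - q z (c.pos z) - dt (nv e c q (z0 + ρ / 2)) y| ≤ K * a

theorem Flt.mono {e : Fin 3 → V3} {c : Ln4} {w : V3} {q : ℝ → V3 → ℝ} {a z0 ρ K K' : ℝ}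
    (h : Flt e c w q a z0 ρ K) (ha : 0 ≤ a) (hK : K ≤ K') : Flt e c w q a z0 ρ K' :=
  fun z h1 h2 y hy => (h z h1 h2 y hy).trans (mul_le_mul_of_nonneg_right hK ha)

/-- a quadratic function along a direction: symmetric differences are linear in the step -/
theorem isQ_symm {q : ℝ → V3 → ℝ} (hq : IsQ q) (z s : ℝ) (x u : V3) :
    q z (x + s • u) - q z (x - s • u) = s * (q z (x + u) - q z (x - u)) := by
  obtain ⟨c0, c1, c2, b, d, g, h⟩ := hq
  simp only [h, Fin.sum_univ_three, Pi.add_apply, Pi.sub_apply, Pi.smul_apply, smul_eq_mul]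
  ring



section

variable {e : Fin 3 → V3} {c : Ln4} {w : V3} {q : ℝ → V3 → ℝ} {a z0 ρ r0 : ℝ}

theorem w_pos (h : ShN e c w q a z0 ρ r0) (ha : 0 < a) : ∀ i, 0 < w i := by
  have h2 : 0 < w 2 := ha.trans_le h.a_le
  intro i
  fin_cases i
  · exact ha.trans_le h.a_le0
  · exact h2.trans_le h.w_le
  · exact h2


end

/-! ### the plank frame -/

/-- norm of the gradient -/
noncomputable def nN (g : Fin 3 → ℝ) : ℝ := Real.sqrt (g 0 ^ 2 + g 1 ^ 2 + g 2 ^ 2)
/-- norm of its components `0, 2` -/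
noncomputable def nM (g : Fin 3 → ℝ) : ℝ := Real.sqrt (g 0 ^ 2 + g 2 ^ 2)

/-- coefficients of the plank frame in the frame of the sheet -/
noncomputable def rot3 (g : Fin 3 → ℝ) : Fin 3 → V3 :=
  ![![g 0 / nN g, g 1 / nN g, g 2 / nN g],
    ![-(g 0 * g 1) / (nN g * nM g), nM g / nN g, -(g 1 * g 2) / (nN g * nM g)],
    ![-g 2 / nM g, 0, g 0 / nM g]]

/-- **the plank frame** -/
noncomputable def pf (e : Fin 3 → V3) (c : Ln4) (q : ℝ → V3 → ℝ) (z : ℝ) : Fin 3 → V3 :=
  fun i => rot3 (gd e c q z) i 0 • e 0 + rot3 (gd e c q z) i 1 • e 1 + rot3 (gd e c q z) i 2 • e 2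






/-- composition of orthonormal frames -/
theorem ortho_comp {e r : Fin 3 → V3} (he : Ortho e) (hr : Ortho r) :
    Ortho fun i => r i 0 • e 0 + r i 1 • e 1 + r i 2 • e 2 := by
  intro i j
  have h1 := hr i j
  have e00 := he 0 0
  have e01 := he 0 1
  have e02 := he 0 2
  have e10 := he 1 0
  have e11 := he 1 1
  have e12 := he 1 2
  have e20 := he 2 0
  have e21 := he 2 1
  have e22 := he 2 2
  simp only [if_true, Fin.isValue, Fin.reduceEq, if_false] at e00 e01 e02 e10 e11 e12 e20 e21 e22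
  simp only [dt_add, dt_smul, add_dt, smul_dt, e00, e01, e02, e10, e11, e12, e20, e21, e22]
  rw [← h1]
  simp only [dt]
  ring







/-! ### the marks of `J1` -/

/-- the mark of level `v` of the incidence `x` -/
noncomputable def mkS (D : Dat4) (n : ℕ) (v : ℚ) (x : ℕ × ℝ) : Plk4 :=
  D.b n v (D.f n v x.1 (zc (D.lev n v) x.2))



/-- **flat marks** (strong form: all labels) -/
def FlatMk (D : Dat4) : Prop :=
  ∀ (n : ℕ) (v : ℚ) (i : ℕ) (z : ℝ) (x : V3),
    (D.b n v i).q z x = dt ((D.b n v i).e 0) (x - (D.b n v i).c.pos z)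

/-- **flat tilt**, all six entries of the transition matrix of the frames of the marks -/
def TiltF (D : Dat4) : Prop :=
  ∃ C : ℝ, 0 ≤ C ∧ ∀ u v : ℚ, 0 ≤ u → u < v → v ≤ 1 → ∀ ε : ℝ, 0 < ε →
    Negl D.B D.I fun n x => ¬
      ((|dt ((mkS D n u x).e 1) ((mkS D n v x).e 2)| ≤
          max (D.w 2 n u / D.w 1 n u) (D.w 2 n v / D.w 1 n v) *
            D.B.d n ^ (-(C * ((v : ℝ) - u)) - ε) ∧
        |dt ((mkS D n u x).e 2) ((mkS D n v x).e 1)| ≤
          max (D.w 2 n u / D.w 1 n u) (D.w 2 n v / D.w 1 n v) *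
            D.B.d n ^ (-(C * ((v : ℝ) - u)) - ε)) ∧
       (|dt ((mkS D n u x).e 0) ((mkS D n v x).e 2)| ≤
          max (D.w 0 n u / D.w 2 n u) (D.w 0 n v / D.w 2 n v) *
            D.B.d n ^ (-(C * ((v : ℝ) - u)) - ε) ∧
        |dt ((mkS D n u x).e 2) ((mkS D n v x).e 0)| ≤
          max (D.w 0 n u / D.w 2 n u) (D.w 0 n v / D.w 2 n v) *
            D.B.d n ^ (-(C * ((v : ℝ) - u)) - ε)) ∧
       (|dt ((mkS D n u x).e 0) ((mkS D n v x).e 1)| ≤
          max (D.w 0 n u / D.w 1 n u) (D.w 0 n v / D.w 1 n v) *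
            D.B.d n ^ (-(C * ((v : ℝ) - u)) - ε) ∧
        |dt ((mkS D n u x).e 1) ((mkS D n v x).e 0)| ≤
          max (D.w 0 n u / D.w 1 n u) (D.w 0 n v / D.w 1 n v) *
            D.B.d n ^ (-(C * ((v : ℝ) - u)) - ε)))

end Crest.Agent.R136.Ut262
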