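import Crest.Agent.R136.KDef6_879
import Crest.Agent.R136.Bet_879

/-!
# R136: configurations with container and resolution (helper879; ARCH 7, 332, 770)

Index of the widths: `0` = thickness, `1` = wide, `2` = narrow.  `LegR Leg wr c` : members of the
class whose widths lie in `[wr k, c k]`.  `Cf7` = `Cf6` with a container sheet `KC` over the bottom
cell and a resolution vector `wr`.  `Ok7` : `Ok6` for the class `LegR`, all lines in the container.
`InC κ C` : the class of range `C` (in units of the window), margin `κ C` below the top marks.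

* `lip7`   : the value is `2 ((κ + 2) C + 1)`-Lipschitz in the rewards;
* `enemy7` : `¬ KS4` gives configurations of class `C ≥ 1` of value `≥ b0 - ∑ |q i|`;
* `VC`, `exists_betaC`, `betaC_lip`.
-/

set_option autoImplicit false

open Finset

namespace Crest.Agent.R136.K4

open Sh605 KS879 En879

noncomputable section

/-- the widths: thickness, wide, narrow -/
def wd (K : Plk4) : Fin 3 → ℝ := ![K.a, K.w 1, K.w 2]

@[simp] theorem wd_zero (K : Plk4) : wd K 0 = K.a := rfl
@[simp] theorem wd_one (K : Plk4) : wd K 1 = K.w 1 := rfl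
@[simp] theorem wd_two (K : Plk4) : wd K 2 = K.w 2 := rfl

/-- members of the class with widths in the range `[wr, c]` -/
def LegR (Leg : ℕ → ℝ → ℝ → Plk4 → Prop) (wr c : Fin 3 → ℝ) (m : ℕ) (r Λm : ℝ) (K : Plk4) :
    Prop :=
  Leg m r Λm K ∧ ∀ k, wr k ≤ wd K k ∧ wd K k ≤ c k

/-- configuration with container and resolution -/
structure Cf7 extends Cf6 where
  /-- container: a sheet over the bottom cell -/
  KC : Plk4
  /-- resolution of the widths -/
  wr : Fin 3 → ℝ

/-- widths of the top sheet of `x` -/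
def Cf4.T (F : Cf4) (x : Ln4 × ℝ) : Fin 3 → ℝ := wd (F.K (F.cl (ob4 F.top x)))

/-- validity of a configuration with container and resolution -/
structure Ok7 (Leg : ℕ → ℝ → ℝ → Plk4 → Prop) (q : Fin 3 → ℝ) (F : Cf7) : Prop where
  ok : Ok6 (LegR Leg F.wr (wd F.KC)) q F.toCf6
  conL : Leg F.m F.r F.Λm F.KC
  con : ∀ x ∈ F.I, In4 F.m F.KC (ob4 F.m x)
  wrp : ∀ k, 0 < F.wr k

/-- configurations of class `C`, margin constant `κ` -/
structure InC (κ C : ℝ) (F : Cf7) : Prop where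
  con : ∀ x ∈ F.I, ∀ k, wd F.KC k ≤ F.T x k * (2:ℝ) ^ (C * F.M)
  mar : ∀ x ∈ F.I, ∀ k, k ≠ 0 → F.wr k * (2:ℝ) ^ (κ * C * F.M) ≤ F.T x k
  low : ∀ x ∈ F.I, ∀ k, F.T x k ≤ F.wr k * (2:ℝ) ^ ((κ + 1) * C * F.M)
  thk : ∀ x ∈ F.I, F.T x 0 * (2:ℝ) ^ (7 * (F.M : ℝ)) ≤ wd F.KC 0 ∨ wd F.KC 2 ≤ wd F.KC 0

/-! ### Lipschitz in the rewards -/









/-! ### the enemy -/

/-- what the enemy needs from the class -/
structure ClsOK7 (Leg : ℕ → ℝ → ℝ → Plk4 → Prop) (κ : ℕ) : Prop extends ClsOK6 Leg κ where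
  unit : ∀ r Λm, 0 < r → r ≤ 1 → 1 ≤ Λm → Leg 0 r Λm (cubeK 1 ((⟨0, 0⟩ : Ln4), (0:ℤ)))






end

end Crest.Agent.R136.K4
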