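import Crest.Agent.R136.XA1_248
import Crest.Agent.R136.KDef6_879
import Crest.Agent.R136.Bet_879
import Crest.Agent.R136.Win1_823
import Crest.Agent.R136.KDef7_879

-- ▼ part R136/Cod_289
section

/-!
# R136 (U4): configurations and codes (helper289)

* `GeoOf` : geometry of sheets for codes `ℓ : ℕ → Ln4` and a legality predicate `Lg`;
* `enc`   : incidences of codes as incidences of lines;
* `exists_cf6` : a family of codes with honest classes over the levels `[i, j]` is a configuration.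
-/

set_option autoImplicit false
set_option linter.unusedVariables false

open Finset

namespace Crest.Agent.R136.Cod289

open Sh605 K4 KS879 En879 XA248
open Crest.Agent.R138.Mk163 (zc zl rho alive own)
open Crest.Agent.R138.MkRef627 (mem_alive)
open MkA627 (Geo)

noncomputable section

/-- replace the cell index -/
def atJ (J : ℤ) (s : Plk4) : Plk4 := { s with j := J }

/-- geometry of sheets for the codes `ℓ`, stage `n` -/
structure GeoOf (G : Geo Plk4 (Fin 3)) (ℓ : ℕ → Ln4) (q : Fin 3 → ℝ) (n : ℕ)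
    (Lg : ℕ → Plk4 → Prop) : Prop where
  mem : ∀ (i : ℕ) (J : ℤ) (s : Plk4) (t : ℕ), G.mem n i J s t ↔
    InSheet (ℓ t) s.e s.c s.w s.q s.a (zl i J) (rho i)
  adm : ∀ (i : ℕ) (J : ℤ) (s : Plk4), G.adm n i J s ↔ Lg i (atJ J s)
  val : ∀ (i : ℕ) (J : ℤ) (s : Plk4), G.val n i J s = s.a * s.w 2 * s.w 1 *
    ((s.a / rho i) ^ q 0 * (s.w 1 / rho i) ^ q 1 * (s.w 2 / rho i) ^ q 2)
  wid : ∀ (k : Fin 3) (s : Plk4), G.wid k s = ![s.a, s.w 1, s.w 2] k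


theorem div_rho (x : ℝ) (i : ℕ) : x / rho i = x * 2 ^ i := by
  unfold rho
  rw [div_div_eq_mul_div, div_one]

variable {G : Geo Plk4 (Fin 3)} {ℓ : ℕ → Ln4} {q : Fin 3 → ℝ} {n : ℕ} {Lg : ℕ → Plk4 → Prop}

theorem GeoOf.mem_iff (hG : GeoOf G ℓ q n Lg) (i : ℕ) (J : ℤ) (s : Plk4) (t : ℕ) :
    G.mem n i J s t ↔ In4 i (atJ J s) (ℓ t, J) := by
  rw [hG.mem]
  unfold In4 atJ
  constructor
  · intro h; exact ⟨rfl, h⟩
  · intro h; exact h.2


/-! ### codes and lines -/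

open Classical in
/-- incidences of codes as incidences of lines -/
def enc (ℓ : ℕ → Ln4) (A : Finset (ℕ × ℝ)) : Finset (Ln4 × ℝ) :=
  A.image fun x => (ℓ x.1, x.2)

/-- `ℓ` is injective on the codes of `A` -/
def Inj (ℓ : ℕ → Ln4) (A : Finset (ℕ × ℝ)) : Prop :=
  ∀ x ∈ A, ∀ y ∈ A, ℓ x.1 = ℓ y.1 → x.1 = y.1

theorem mem_enc {A : Finset (ℕ × ℝ)} {y : Ln4 × ℝ} :
    y ∈ enc ℓ A ↔ ∃ x ∈ A, (ℓ x.1, x.2) = y := by
  classical
  unfold enc
  rw [mem_image]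

open Classical in
/-- code of a line -/
def dec (ℓ : ℕ → Ln4) (A : Finset (ℕ × ℝ)) (l : Ln4) : ℕ :=
  if h : ∃ x ∈ A, ℓ x.1 = l then h.choose.1 else 0

theorem dec_eq {A : Finset (ℕ × ℝ)} (hi : Inj ℓ A) {x : ℕ × ℝ} (hx : x ∈ A) :
    dec ℓ A (ℓ x.1) = x.1 := by
  have h : ∃ y ∈ A, ℓ y.1 = ℓ x.1 := ⟨x, hx, rfl⟩
  unfold dec
  rw [dif_pos h]
  exact hi _ h.choose_spec.1 _ hx h.choose_spec.2

open Classical in
/-- **objects and alive codes** -/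
theorem card_objs (hG : GeoOf G ℓ q n Lg) {A : Finset (ℕ × ℝ)} (hi : Inj ℓ A) (i : ℕ)
    (K : Plk4) :
    (objs4 i (enc ℓ A) K).card =
      ((alive A i K.j).filter fun t => G.mem n i K.j K t).card := by
  classical
  refine card_bij' (fun o _ => dec ℓ A o.1) (fun t _ => (ℓ t, K.j)) ?_ ?_ ?_ ?_
  · intro o ho
    unfold objs4 at ho
    rw [mem_filter] at ho
    obtain ⟨ho1, ho2⟩ := ho
    obtain ⟨y, hy, rfl⟩ := mem_image.1 ho1
    obtain ⟨x, hx, rfl⟩ := mem_enc.1 hy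
    have e1 : dec ℓ A (ℓ x.1) = x.1 := dec_eq hi hx
    show dec ℓ A (ℓ x.1) ∈ _
    rw [e1, mem_filter, mem_alive]
    exact ⟨⟨x, hx, rfl, ho2.1⟩, (hG.mem_iff _ _ _ _).2 ⟨rfl, ho2.2⟩⟩
  · intro t ht
    rw [mem_filter, mem_alive] at ht
    obtain ⟨⟨x, hx, hx1, hx2⟩, ht2⟩ := ht
    unfold objs4
    rw [mem_filter]
    refine ⟨mem_image.2 ⟨(ℓ x.1, x.2), mem_enc.2 ⟨x, hx, rfl⟩, ?_⟩, ?_⟩
    · unfold ob4
      show (ℓ x.1, zc4 i x.2) = (ℓ t, K.j)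
      rw [hx1, ← hx2]; rfl
    · exact (hG.mem_iff _ _ _ _).1 ht2
  · intro o ho
    unfold objs4 at ho
    rw [mem_filter] at ho
    obtain ⟨ho1, ho2⟩ := ho
    obtain ⟨y, hy, rfl⟩ := mem_image.1 ho1
    obtain ⟨x, hx, rfl⟩ := mem_enc.1 hy
    show (ℓ (dec ℓ A (ℓ x.1)), K.j) = _
    rw [dec_eq hi hx]
    exact Prod.ext rfl ho2.1.symm
  · intro t ht
    rw [mem_filter, mem_alive] at ht
    obtain ⟨⟨x, hx, hx1, hx2⟩, ht2⟩ := ht
    show dec ℓ A (ℓ t) = t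
    rw [← hx1]
    exact dec_eq hi hx

open Classical in
/-- own cells -/
theorem ownc4_enc {A : Finset (ℕ × ℝ)} (hi : Inj ℓ A) (i j : ℕ) {x : ℕ × ℝ} (hx : x ∈ A) :
    ownc4 i j (enc ℓ A) (ℓ x.1, x.2) = (own A i j x).card := by
  classical
  unfold ownc4 own
  refine card_bij' (fun o _ => o.2) (fun J _ => (ℓ x.1, J)) ?_ ?_ ?_ ?_
  · intro o ho
    obtain ⟨y, hy, rfl⟩ := mem_image.1 ho
    rw [mem_filter] at hy
    obtain ⟨hy1, hy2⟩ := hy
    obtain ⟨u, hu, rfl⟩ := mem_enc.1 hy1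
    unfold ob4 at hy2
    rw [Prod.ext_iff] at hy2
    refine mem_image.2 ⟨u, mem_filter.2 ⟨hu, hi u hu x hx hy2.1, hy2.2⟩, rfl⟩
  · intro J hJ
    obtain ⟨u, hu, rfl⟩ := mem_image.1 hJ
    rw [mem_filter] at hu
    refine mem_image.2 ⟨(ℓ u.1, u.2), mem_filter.2 ⟨mem_enc.2 ⟨u, hu.1, rfl⟩, ?_⟩, ?_⟩
    · unfold ob4
      exact Prod.ext (by show ℓ u.1 = ℓ x.1; rw [hu.2.1]) hu.2.2
    · unfold ob4
      exact Prod.ext (by show ℓ u.1 = ℓ x.1; rw [hu.2.1]) rfl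
  · intro o ho
    obtain ⟨y, hy, rfl⟩ := mem_image.1 ho
    rw [mem_filter] at hy
    obtain ⟨hy1, hy2⟩ := hy
    unfold ob4 at hy2 ⊢
    rw [Prod.ext_iff] at hy2
    exact Prod.ext hy2.1.symm rfl
  · intro J hJ
    rfl

/-! ### classes -/











end

end Crest.Agent.R136.Cod289
end

-- ▼ part R136/Cod2_289
section

/-!
# R136 (U4): the supremum bound on codes (helper289)

* `CodeDat` : sequence of codes `ℓ n`, geometry `G`, legality predicates `Leg n`, resolution `r n`;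
* `ValB`    : upper bound `β'` for the values of the valid configurations of a class `𝒞`;
* `ubw_of`  : `ValB ⊢ UBw` (helper248's literal, `R` trivial); `UBd`, `ubd_of` : any levels `j > lo`
  and any incidences of the lines of `I n` (helper770's literal).
-/

set_option autoImplicit false
set_option linter.unusedVariables false

open Finset Filter Topology

namespace Crest.Agent.R136.Cod289

open Sh605 K4 KS879 En879 XA248
open Crest.Agent.R138.Ex926 (Base U)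
open Crest.Agent.R138.Mk163 (zc zl rho alive own)
open Crest.Agent.R138.MkRef627 (mem_alive)
open MkA627 (Geo)

noncomputable section

/-- a sequence of codes with its geometry; `q` = rewards of `G.val` -/
structure CodeDat (G : Geo Plk4 (Fin 3)) (ℓ : ℕ → ℕ → Ln4) (I : ℕ → Finset (ℕ × ℝ))
    (Leg : ℕ → ℕ → ℝ → ℝ → Plk4 → Prop) (r Λ : ℕ → ℝ) (lo hi : ℕ → ℕ) (q : Fin 3 → ℝ) :
    Prop where
  geo : ∀ n, GeoOf G (ℓ n) q n fun i K => Leg n i (r n) (Λ n) K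
  pos : ∀ n i K, Leg n i (r n) (Λ n) K → 0 < K.a ∧ 0 < K.w 2 ∧ 0 < K.w 1
  r0 : ∀ n, 0 < r n
  Λ1 : ∀ n, 1 ≤ Λ n
  inj : ∀ n, Inj (ℓ n) (I n)
  len : Tendsto (fun n => (hi n : ℝ) - lo n) U atTop
  size : ∀ δ : ℝ, 0 < δ → ∀ᶠ n in (U : Filter ℕ),
    Real.logb 2 ((I n).card : ℝ) ≤ (2:ℝ) ^ (δ * ((hi n : ℝ) - lo n))
  res : ∀ δ : ℝ, 0 < δ → ∀ᶠ n in (U : Filter ℕ),
    Real.logb 2 (1 / (r n * 2 ^ lo n)) ≤ (2:ℝ) ^ (δ * ((hi n : ℝ) - lo n))
  slope : ∀ δ : ℝ, 0 < δ → ∀ᶠ n in (U : Filter ℕ), Λ n ≤ (2:ℝ) ^ (δ * ((hi n : ℝ) - lo n))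
  vel : ∀ᶠ n in (U : Filter ℕ), ∀ x ∈ I n, ∀ i, |(ℓ n x.1).v i| ≤ 1



section

variable {G : Geo Plk4 (Fin 3)} {ℓ : ℕ → ℕ → Ln4} {I : ℕ → Finset (ℕ × ℝ)}
  {Leg : ℕ → ℕ → ℝ → ℝ → Plk4 → Prop} {r Λ : ℕ → ℝ} {lo hi : ℕ → ℕ} {q : Fin 3 → ℝ}







end


end

end Crest.Agent.R136.Cod289
end

-- ▼ part R136/XIn1_823

/-!
# R136, block U4 (helper823): the extremal sequence on codes, finite half

* `LegS Leg Sh`  : members of the class with widths in the finite set `Sh`;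
* `geoW`         : the geometry of sheets for codes and a legality predicate;
* `exists_codes` : codes for a finite set of incidences;
* `Good`, `exists_good` : `norm6B` on codes.
-/

set_option autoImplicit false
set_option linter.unusedVariables false

open Finset

namespace Crest.Agent.R136.XIn823

open Sh605 K4 KS879 En879 XA248 Win823 Cod289
open Crest.Agent.R138.Mk163 (zc zl rho alive own)
open Crest.Agent.R138.MkRef627 (mem_alive)
open MkA627 (Geo)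

noncomputable section

/-- members of the class with widths in the finite set `Sh` -/
def LegS (Leg : ℕ → ℝ → ℝ → Plk4 → Prop) (Sh : Finset (Fin 3 → ℝ)) (i : ℕ) (r Λ : ℝ)
    (K : Plk4) : Prop :=
  Leg i r Λ K ∧ wd K ∈ Sh

/-- the geometry of sheets for the codes `ℓ` and the legality `Lg` -/
def geoW (ℓ : ℕ → ℕ → Ln4) (q : Fin 3 → ℝ) (Lg : ℕ → ℕ → Plk4 → Prop) : Geo Plk4 (Fin 3) where
  mem := fun n i J s t => InSheet (ℓ n t) s.e s.c s.w s.q s.a (zl i J) (rho i)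
  adm := fun n i J s => Lg n i (atJ J s)
  val := fun n i J s => s.a * s.w 2 * s.w 1 *
    ((s.a / rho i) ^ q 0 * (s.w 1 / rho i) ^ q 1 * (s.w 2 / rho i) ^ q 2)
  wid := fun k s => ![s.a, s.w 1, s.w 2] k

theorem geoOf_W (ℓ : ℕ → ℕ → Ln4) (q : Fin 3 → ℝ) (Lg : ℕ → ℕ → Plk4 → Prop) (n : ℕ) :
    GeoOf (geoW ℓ q Lg) (ℓ n) q n (Lg n) :=
  ⟨fun _ _ _ _ => Iff.rfl, fun _ _ _ => Iff.rfl, fun _ _ _ => rfl, fun _ _ => rfl⟩





/-- codes for a finite set of incidences -/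
theorem exists_codes (I : Finset (Ln4 × ℝ)) : ∃ (ℓ : ℕ → Ln4) (A : Finset (ℕ × ℝ)),
    Inj ℓ A ∧ enc ℓ A = I := by
  classical
  set S : Finset Ln4 := I.image Prod.fst with hS
  set e := S.equivFin
  set ℓ : ℕ → Ln4 := fun t => if h : t < S.card then (e.symm ⟨t, h⟩ : Ln4) else ⟨0, 0⟩ with hℓ
  set code : Ln4 → ℕ := fun l => if h : l ∈ S then (e ⟨l, h⟩ : ℕ) else 0 with hcode
  have hinv : ∀ x ∈ I, ℓ (code x.1) = x.1 := by
    intro x hx
    have h : x.1 ∈ S := mem_image_of_mem _ hx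
    have e1 : code x.1 = (e ⟨x.1, h⟩ : ℕ) := by rw [hcode]; simp only [dif_pos h]
    rw [e1, hℓ]
    simp only [Fin.is_lt, dif_pos, Fin.eta, Equiv.symm_apply_apply]
  refine ⟨ℓ, I.image fun x => (code x.1, x.2), ?_, ?_⟩
  · intro x hx y hy hxy
    obtain ⟨u, hu, rfl⟩ := mem_image.1 hx
    obtain ⟨v, hv, rfl⟩ := mem_image.1 hy
    simp only [hinv u hu, hinv v hv] at hxy
    simp only [hxy]
  · ext y
    rw [mem_enc]
    constructor
    · rintro ⟨x, hx, rfl⟩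
      obtain ⟨u, hu, rfl⟩ := mem_image.1 hx
      simp only [hinv u hu]
      exact hu
    · intro hy
      exact ⟨(code y.1, y.2), mem_image_of_mem _ hy, by simp only [hinv y hy]⟩

section

variable {G : Geo Plk4 (Fin 3)} {ℓ : ℕ → Ln4} {q : Fin 3 → ℝ} {n : ℕ}
  {Lg : ℕ → Plk4 → Prop}


variable {Leg : ℕ → ℝ → ℝ → Plk4 → Prop} {F : Cf6}



end

/-- normalised configuration on codes -/
structure Good (Leg : ℕ → ℝ → ℝ → Plk4 → Prop) (q : Fin 3 → ℝ) (F : Cf6)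
    (Sh : Finset (Fin 3 → ℝ)) (CU K0 : ℝ) (h' : ℕ) (ℓ : ℕ → Ln4) (A : Finset (ℕ × ℝ))
    (c : ℕ → ℤ → ℕ) (b : ℕ → Plk4) (w : Fin 3 → ℝ) : Prop where
  inj : Inj ℓ A
  sub : enc ℓ A ⊆ F.I
  ne : A.Nonempty
  one : ∀ x ∈ A, ∀ y ∈ A, x.1 = y.1 → zc F.top x.2 = zc F.top y.2 → x = y
  own : ∀ x ∈ A, 2 ^ (F.M + 20) ≤ 2 ^ h' * (own A F.m F.top x).card
  wSh : w ∈ Sh
  cl : ∀ (G : Geo Plk4 (Fin 3)) (n : ℕ),
    GeoOf G ℓ q n (fun i K => LegS Leg Sh i F.r F.Λm K) → IsCl G n F.top A c b w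
  low : ∀ (G : Geo Plk4 (Fin 3)) (n : ℕ),
    GeoOf G ℓ q n (fun i K => LegS Leg Sh i F.r F.Λm K) →
      Low G 0 n F.top A c b (F.D1 / (4 * K0 ^ 2 * (Sh.card : ℝ)))
  up : ∀ (G : Geo Plk4 (Fin 3)) (n : ℕ),
    GeoOf G ℓ q n (fun i K => LegS Leg Sh i F.r F.Λm K) → ∀ (R : Rel (Fin 3)) (i : ℕ),
      F.m ≤ i → i ≤ F.top →
      Up G R 0 n i A F.top w ((2:ℝ) ^ (CU * ((i : ℝ) - F.m + F.h + 10)) * F.D0)


end

end Crest.Agent.R136.XIn823
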