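import Crest.Agent.R136.Fn1_808_Mg
import Crest.Agent.R136.DAl_879
import Crest.Agent.R136.Ut0_262
import Crest.Agent.R136.Ut7_262
import Crest.Agent.R136.Clw4_768
import Crest.Agent.R136.Stk6_464
import Mathlib
import Crest.Agent.R136.Yk1_953
import Crest.Agent.R136.Tq1_879
import Crest.Agent.R136.XIn1_823
import Crest.Agent.R136.Sft3_289
import Crest.Agent.R136.Lz10_627
import Crest.Agent.R136.TopD_484

-- ▼ part R136/Fw3_808
section

/-!
# R136 (S0187): g-free flat tilt, D-max of flat boxes from sheets (helper808)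

`dallW_of` : 879's `DAll` ⊢ `DallW`; `tilt_dall` : `MkF`, flat marks, `DAll`, `FlatFree` ⊢ flat tilt.
-/

set_option autoImplicit false
set_option linter.unusedVariables false
set_option linter.unusedSectionVars false

namespace Crest.Agent.R136.Fl808

open Finset Filter Topology Crest.Agent.R136.Sh605
open Crest.Agent.R138.Ex926 (Base U)
open Crest.Agent.R138.Dp76 (Dense dpow_pos dpow_add dpow_le dpow_le_one)
open Crest.Agent.R138.Mk163 (zc zl rho alive own Negl)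
open Crest.Agent.R138.MkRef627 (lc mem_alive card_class alive_mono)
open Crest.Agent.R136.K4 (Plk4)
open Crest.Agent.R136.MkA627

section

variable {B : Base} {I : ℕ → Finset (ℕ × ℝ)} {G : Geo Plk4 (Fin 3)} {lev : ℕ → ℚ → ℕ}
    {A : ℕ → ℝ} {g C : ℝ} {θ : Fin 3 → ℝ} {f : ℕ → ℚ → ℕ → ℤ → ℕ} {b : ℕ → ℚ → ℕ → Plk4}
    {vm : ℕ → ℚ → ℝ} {w : Fin 3 → ℕ → ℚ → ℝ} {L : ℕ → ℕ → Ln4} {r0 : ℕ → ℝ} {q qm qp : Fin 3 → ℝ}

/-- D-max of sheets gives D-max of flat boxes -/
theorem dallW_of (hA : DAl879.DAll B I L lev A g q r0 w qm qp) (hr0 : ∀ n, 0 < r0 n) {v : ℚ}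
    (h0 : 0 ≤ v) (h1 : v ≤ 1) (hw : ∀ᶠ n in (U : Filter ℕ), ∀ i, 0 < w i n v) :
    DallW B I L lev A g r0 q w qm qp v := by
  classical
  intro ε hε
  filter_upwards [hA v h0 h1 ε hε, hw] with n hn hwn c e l a w1 w2 he ha haw hw12 hR
  have pa : 0 < a := (hr0 n).trans_le ha
  have hs : ShN e l ![w2, w1, w2] (qfl e l) a (zl (lev n v) c) (rho (lev n v)) (r0 n) :=
    shN_flat he l ha pa haw hw12
  have h2 := hn c ⟨c, e, l, ![w2, w1, w2], qfl e l, a⟩ hs (by simpa using hR)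
  have hv : DAl879.vmk q (rho (lev n v)) (w 0 n v) (w 1 n v) (w 2 n v) =
      capB (q 0) (q 1) (q 2) (w 0 n v) (w 1 n v) (w 2 n v) *
        rho (lev n v) ^ (-(q 0 + q 1 + q 2)) :=
    val_eq (hwn 0) (hwn 1) (hwn 2) (rho_pos _)
  rw [hv] at h2
  refine le_trans (Nat.cast_le.2 ?_) h2
  refine card_le_card_of_injOn Prod.fst ?_ ?_
  · intro x hx
    rw [mem_coe, mem_filter] at hx
    obtain ⟨hx, hxc, hxb⟩ := hx
    obtain ⟨y, hy, rfl⟩ := mem_image.1 hx
    rw [mem_coe, mem_filter]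
    refine ⟨mem_alive.2 ⟨y, hy, rfl, hxc⟩, inSheet_flat haw hxb⟩
  · intro x hx y hy hxy
    rw [mem_coe, mem_filter] at hx hy
    exact Prod.ext hxy (hx.2.1.trans hy.2.1.symm)

/-- **flat tilt from two-sided D-max**, `MkF` form -/
theorem tilt_dall (hFF : FlatFree) (h : MkF B I G lev A g θ f b vm w)
    (hG : GeoOk G L r0 q) (hr0 : ∀ n, 0 < r0 n)
    (hlog : ∀ ε : ℝ, 0 < ε → ∀ᶠ n in (U : Filter ℕ), Real.log (1 / r0 n) ≤ B.d n ^ (-ε))
    (hF : FlatE I lev f b) (hok : QmOk qm qp)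
    (hA : DAl879.DAll B I L lev A g q r0 w qm qp)
    (hg : 0 ≤ g) (hq : ∀ i, 0 ≤ q i) :
    ∃ C' : ℝ, 0 ≤ C' ∧ ∀ u v : ℚ, 0 ≤ u → u < v → v ≤ 1 → ∀ ε : ℝ, 0 < ε →
      Negl B I fun n x => ¬ SixM lev f b w (B.d n ^ (-(C' * ((v:ℝ)-u)) - ε)) n u v x := by
  obtain ⟨C, hC, hCF⟩ := hFF qm qp hok
  exact tilt_coreG hCF hC h hG hr0 hlog hF (fun v h0 h1 => dallW_of hA hr0 h0 h1 (by
    filter_upwards [h.wpos 0 v h0 h1, h.wpos 1 v h0 h1, h.wpos 2 v h0 h1] with n a0 a1 a2 i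
    fin_cases i
    · exact a0
    · exact a1
    · exact a2)) hg hq hok.m0 hok.mp

end

end Crest.Agent.R136.Fl808
end

-- ▼ part R136/Fw4_808
section

/-!
# R136 (S0187): g-free flat tilt for `J1c` (helper808)

`tiltF_G' : FlatFree → J1c η p D → (two-sided D-max of D) → FlatMk D → TiltF D`.
-/

set_option autoImplicit false
set_option linter.unusedVariables false
set_option linter.unusedSectionVars false

namespace Crest.Agent.R136.Fl808

open Finset Filter Topology Crest.Agent.R136.Sh605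
open Crest.Agent.R138.Ex926 (Base U)
open Crest.Agent.R138.Dp76 (Dense dpow_pos dpow_add dpow_le dpow_le_one)
open Crest.Agent.R138.Mk163 (zc zl rho alive own Negl)
open Crest.Agent.R136.K4 (Plk4)
open Crest.Agent.R136.MkA627
open Crest.Agent.R136.Top484 (geo4 Par4 Dat4 J1 J1c Rng)

theorem geoOk_geo4' (L : ℕ → ℕ → Ln4) (r0 : ℕ → ℝ) (wr cr : Fin 3 → ℕ → ℝ) (q : Fin 3 → ℝ) :
    GeoOk (geo4 L r0 wr cr q) L r0 q :=
  ⟨fun _ _ _ _ _ h => h, fun n i J s h => ⟨h.1, h.2.1⟩, fun _ _ _ _ => rfl, fun _ _ => rfl⟩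

/-- the exponents of `DAl879.Ex2` are admissible -/
theorem qmOk_of {η : ℝ} {qm qp : Fin 3 → ℝ} (h : DAl879.Ex2 η qm qp) : QmOk qm qp :=
  ⟨fun k => (h.le k).1, fun k => (h.le k).2, h.pos, h.e02, h.e1⟩

/-- **flat tilt of the extremal sequence, g-free** -/
theorem tiltF_G' (hFF : FlatFree) {η : ℝ} {p : Par4} {D : Dat4} (h : J1c η p D)
    (hd : ∃ qm qp : Fin 3 → ℝ, DAl879.Ex2 η qm qp ∧
      DAl879.DAll D.B D.I D.L D.lev D.A p.g p.q D.r0 D.w qm qp)
    (hF : Ut262.FlatMk D) : Ut262.TiltF D := by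
  obtain ⟨qm, qp, hex, hall⟩ := hd
  have hq0 : 0 ≤ p.q 0 := by
    have := h.q0.1
    linarith
  have hq1 : 0 ≤ p.q 1 := by
    have := h.g0.2
    linarith
  have hq2 : 0 ≤ p.q 2 := by
    have := h.q2.1
    linarith
  obtain ⟨C, hC, hall⟩ := tilt_dall (q := p.q) hFF h.mka
    (geoOk_geo4' D.L D.r0 D.wr D.cr p.q) h.r0pos h.r0log
    (fun v h0 h1 => Eventually.of_forall fun n c t ht z x => hF n v _ z x) (qmOk_of hex) hall
    h.g0.1.le (fun i => by
      fin_cases i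
      · exact hq0
      · exact hq1
      · exact hq2)
  exact ⟨C, hC, fun u v hu huv hv ε hε => hall u v hu huv hv ε hε⟩

end Crest.Agent.R136.Fl808
end

-- ▼ part R136/Fw5_808
section

/-!
# R136 (S0187): g-free flat tilt as a seam (helper808)

`tiltF_G : FlatFree → J1c η p D → FlatMk D → TiltF D` and the seam forms `SeamTiltFQ`, `SeamTiltF`.
-/

set_option autoImplicit false

namespace Crest.Agent.R136.Fl808

open Crest.Agent.R136.Top484 (Par4 Dat4 J1 J1c)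

/-- **flat tilt of the extremal sequence**, any `η` -/
theorem tiltF_G (hFF : FlatFree) {η : ℝ} {p : Par4} {D : Dat4} (h : J1c η p D)
    (hF : Ut262.FlatMk D) : Ut262.TiltF D :=
  tiltF_G' hFF h (let ⟨qm, qp, e, d, _⟩ := h.dall; ⟨qm, qp, e, d⟩) hF

theorem seamTiltFQ (hFF : FlatFree) (Q : Par4 → Prop) (η : ℝ) : Ut262.SeamTiltFQ Q η :=
  fun _ _ _ h hF => tiltF_G hFF h hF


end Crest.Agent.R136.Fl808
end

-- ▼ part R136/Clw5_768
section

/-!
# R136, U6 thin side, stage C (helper768): expansions of the level-`u` function on level-`v` marks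

`sndUV_of : ThinW p D → SndUV D`.
-/

set_option autoImplicit false
set_option linter.unusedVariables false

open Finset Filter Topology

namespace Crest.Agent.R136.Clw768

open Crest.Agent.R138
open Crest.Agent.R138.Ex926 (Base U)
open Crest.Agent.R138.Dp76 (dpow_pos dpow_add dpow_le dpow_le_one)
open Crest.Agent.R138.ArgM163 (ev_const)
open Crest.Agent.R138.Mk163 (zc zl rho alive)
open Crest.Agent.R136.MkA627
open Crest.Agent.R136.Sh605
open Crest.Agent.R136.K4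
open Crest.Agent.R136.Top484
open Crest.Agent.R136.Stc321 (cell_in wid_two)
open Crest.Agent.R136.Stk464 (mk_facts)
open Crest.Agent.R136.Tl102 (QF kap IsExp OmB)
open Crest.Agent.R136.Tlt51 (Close mk4 zx rh Shp InP)
open Crest.Agent.R136.KapP335 (kapP DetP kapP_eq)
open Crest.Agent.R136.TL650 (own_of snd_of_close)
open Crest.Agent.R136.Thn768 (ThinW Own Snd Tay exists_tay)

theorem sndUV_of {p : Par4} {D : Dat4} (h : ThinW p D) : SndUV D := by
  obtain ⟨Ct, hCt, ht⟩ := h.tilt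
  set W : ℝ := |1 - p.θ 0| + 1 with hW
  have W0 : 0 ≤ W := by have := abs_nonneg (1 - p.θ 0); linarith
  refine ⟨Ct, hCt, fun u v u0 uv v1 ε hε => ?_⟩
  have v0 : 0 ≤ v := u0.trans uv.le
  have u1 : u ≤ 1 := uv.le.trans v1
  have vr1 : (v : ℝ) ≤ 1 := by exact_mod_cast v1
  have ur0 : (0 : ℝ) ≤ u := by exact_mod_cast u0
  have uvr : (0 : ℝ) ≤ (v : ℝ) - u := by
    have : (u : ℝ) ≤ v := by exact_mod_cast uv.le
    linarith
  filter_upwards [mk_facts h.mka u0 u1, mk_facts h.mka v0 v1,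
    ht u v u0 uv v1 (ε / 4) (by positivity), h.thin v v0 v1 (Ct + 2 * W + ε + 2),
    wid_two h.mka 0 v0 v1, wid_two h.mka 0 u0 u1, h.mka.lev_mono u v u0 uv.le v1,
    ev_const D.B (C := 10 ^ 20) (by norm_num) one_pos,
    ev_const D.B (C := 10 ^ 19) (by norm_num) (show 0 < ε / 4 by positivity)]
    with n a1 a2 a3 a4 a5 a5' a6 a7 a8 x hx b0 b1 G O
  obtain ⟨f1, f2, f3, f4, f5⟩ := a2.2 x hx
  obtain ⟨g1, g2, g3, g4, g5⟩ := a1.2 x hx
  have dp := dpow_pos D.B n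
  obtain ⟨w0, wv, wl, wl'⟩ := a5
  obtain ⟨-, wu, wlu, wlu'⟩ := a5'
  have hYe := O.Ye0
  have hw0' : 0 < (mk4 D n u x).w 0 := by
    have := g2.a_le0
    rw [g3] at this
    exact wu.trans_le this
  have hkp := a4 x hx
  rw [kapP_eq (O.pos 0).ne' O.exp, f3] at hkp
  obtain ⟨Ye, hYed⟩ : ∃ Ye : ℝ, Ye = (mk4 D n v x).w 0 * kap b0 b1 G := ⟨_, rfl⟩
  rw [← hYed] at hYe hkp
  obtain ⟨E, hE⟩ : ∃ E : ℝ, E = D.B.d n ^ (-(Ct * ((v : ℝ) - u)) - ε / 4) *
    max (D.w 0 n u) (D.w 0 n v) := ⟨_, rfl⟩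
  have p8 : (D.B.d n ^ (ε / 16)) ^ 8 = D.B.d n ^ (ε / 2) := by
    rw [← Real.rpow_natCast, ← Real.rpow_mul (D.B.pos n).le]
    congr 1; push_cast; ring
  have hdW : 1 ≤ D.B.d n ^ (-(2 * W)) :=
    Real.one_le_rpow_of_pos_of_le_one_of_nonpos (D.B.pos n) (D.B.lt n).le (by linarith)
  have hcv : Ct * ((v : ℝ) - u) ≤ Ct := mul_le_of_le_one_right hCt (by linarith)
  have m1 : max (D.w 0 n u) (D.w 0 n v) ≤ D.w 0 n v * D.B.d n ^ (-(2 * W)) := by
    refine max_le ?_ (le_mul_of_one_le_right wv.le hdW)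
    calc D.w 0 n u ≤ D.w 0 n 0 * D.B.d n ^ (-W) := wlu
      _ ≤ D.w 0 n v * D.B.d n ^ (-W) * D.B.d n ^ (-W) := mul_le_mul_of_nonneg_right wl' (dp _).le
      _ = D.w 0 n v * D.B.d n ^ (-(2 * W)) := by
          rw [mul_assoc, ← dpow_add]; congr 2; ring
  have hmx : 0 ≤ max (D.w 0 n u) (D.w 0 n v) := wu.le.trans (le_max_left _ _)
  have hE0 : 0 ≤ E := by rw [hE]; exact mul_nonneg (dp _).le hmx
  have E3 : E ≤ D.B.d n ^ (3 * ε / 4 + 2) * Ye := by
    have e0 : D.B.d n ^ (-(Ct * ((v : ℝ) - u)) - ε / 4) ≤ D.B.d n ^ (-Ct - ε / 4) :=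
      dpow_le D.B n (by linarith)
    calc E ≤ D.B.d n ^ (-Ct - ε / 4) * (D.w 0 n v * D.B.d n ^ (-(2 * W))) := by
          rw [hE]; exact mul_le_mul e0 m1 hmx (dp _).le
      _ = D.B.d n ^ (-Ct - ε / 4) * D.B.d n ^ (-(2 * W)) * D.w 0 n v := by ring
      _ ≤ D.B.d n ^ (-Ct - ε / 4) * D.B.d n ^ (-(2 * W)) *
          (D.B.d n ^ (Ct + 2 * W + ε + 2) * Ye) :=
          mul_le_mul_of_nonneg_left hkp (mul_nonneg (dp _).le (dp _).le)
      _ = D.B.d n ^ (3 * ε / 4 + 2) * Ye := by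
          rw [← mul_assoc, ← dpow_add, ← dpow_add]; congr 2; ring
  have hsm : 10 ^ 20 * E ≤ (D.B.d n ^ (ε / 16)) ^ 8 * Ye := by
    rw [p8]
    have h1 : 10 ^ 20 * D.B.d n ^ (3 * ε / 4 + 2) ≤ D.B.d n ^ (ε / 2) := by
      calc 10 ^ 20 * D.B.d n ^ (3 * ε / 4 + 2) ≤ D.B.d n ^ (-(1 : ℝ)) *
            D.B.d n ^ (3 * ε / 4 + 2) := mul_le_mul_of_nonneg_right a7 (dp _).le
        _ = D.B.d n ^ (3 * ε / 4 + 1) := by rw [← dpow_add]; congr 1; ring
        _ ≤ D.B.d n ^ (ε / 2) := dpow_le D.B n (by linarith)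
    calc 10 ^ 20 * E ≤ 10 ^ 20 * (D.B.d n ^ (3 * ε / 4 + 2) * Ye) :=
          mul_le_mul_of_nonneg_left E3 (by norm_num)
      _ = 10 ^ 20 * D.B.d n ^ (3 * ε / 4 + 2) * Ye := by ring
      _ ≤ D.B.d n ^ (ε / 2) * Ye := mul_le_mul_of_nonneg_right h1 hYe.le
  obtain ⟨c1, c2⟩ := cell_in a6 x.2
  have hcl := a3 x hx
  rw [← hE] at hcl
  rw [hYed] at hsm
  obtain ⟨N, R, H, hS⟩ := snd_of_close O f2 f1 g2 hw0' c1 c2 g1 hcl hsm
  rw [← hYed] at hS
  obtain ⟨b0', b1', G', hx', k1, k2, hO⟩ := hS.ex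
  have hX0 : 0 ≤ 10 ^ 19 * E / (D.B.d n ^ (ε / 16)) ^ 8 / Ye := by
    have := dp (ε / 16)
    positivity
  refine ⟨_, b0', b1', G', hx', k1, k2, hX0, hO, ?_⟩
  rw [← hYed]
  have e1 : 10 ^ 19 * E / (D.B.d n ^ (ε / 16)) ^ 8 / Ye * Ye =
      10 ^ 19 * E / (D.B.d n ^ (ε / 16)) ^ 8 := by field_simp
  rw [e1, p8, div_le_iff₀ (dp _), hE]
  have e2 : D.B.d n ^ (-(Ct * ((v : ℝ) - u)) - ε) * max (D.w 0 n u) (D.w 0 n v) *
      D.B.d n ^ (ε / 2) = D.B.d n ^ (-(ε / 4)) *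
      (D.B.d n ^ (-(Ct * ((v : ℝ) - u)) - ε / 4) * max (D.w 0 n u) (D.w 0 n v)) := by
    have e3 : D.B.d n ^ (-(Ct * ((v : ℝ) - u)) - ε) * D.B.d n ^ (ε / 2) =
        D.B.d n ^ (-(ε / 4)) * D.B.d n ^ (-(Ct * ((v : ℝ) - u)) - ε / 4) := by
      rw [← dpow_add, ← dpow_add]; congr 1; ring
    calc _ = D.B.d n ^ (-(Ct * ((v : ℝ) - u)) - ε) * D.B.d n ^ (ε / 2) *
          max (D.w 0 n u) (D.w 0 n v) := by ring
      _ = _ := by rw [e3]; ring
  rw [e2]
  exact mul_le_mul_of_nonneg_right a8 (mul_nonneg (dp _).le hmx)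

end Crest.Agent.R136.Clw768
end

-- ▼ part R136/Clw6_768
section

/-!
# R136, U6 thin side, stage C (helper768): the field `clw` of `StcA`
-/

set_option autoImplicit false
set_option linter.unusedVariables false

open Finset Filter Topology

namespace Crest.Agent.R136.Clw768

open Crest.Agent.R138.Ex926 (Base U)
open Crest.Agent.R138.Mk163 (zc zl rho)
open Crest.Agent.R138.MkRef627 (lc kc)
open Crest.Agent.R136.Top484
open Crest.Agent.R136.Stc321
open Crest.Agent.R136.Stk464 (StcK)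
open Crest.Agent.R136.Fw650 (z0N zhN rhN)
open Crest.Agent.R136.Thn768 (ThinW)
open Crest.Agent.R136.Tn327 (CloseW zmN)
open Crest.Agent.R136.FlW464 (frW drW)

/-- **closeness of the sheets of two levels** : the field `clw` of `StcA` -/
theorem clw_of {p : Par4} {D : Dat4} {K : ℕ → CtD} {x0 : ℕ → ℕ × ℝ} (h : ThinW p D)
    (hK : StcK p D K x0) :
    ∃ C0 : ℝ, 0 ≤ C0 ∧ ∀ C : ℝ, ∀ u v : ℚ, 0 ≤ u → u < v → v ≤ 1 → ∀ ε : ℝ, 0 < ε →
    ∀ᶠ n in (U : Filter ℕ), ∀ x ∈ D.I n, Gd D K C n x →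
      CloseW (K n).κ (frW (LS D K n x.1) (zmN D.lev (hzS K) (zsS K) v n x))
        (rhN D.lev (hzS K) n v * D.B.d n ^ ε) (wAS D K n v * D.B.d n ^ ε)
        (wAS D K n v ^ 2 / rhN D.lev (hzS K) n v * D.B.d n ^ ε)
        (max (aS D n u) (aS D n v) * D.B.d n ^ (-(C0 * ((v : ℝ) - u)) - ε))
        (MkS D K v n (kc (D.lev n v) (D.f n v) x))
        (MkS D K u n (kc (D.lev n u) (D.f n u) x)) :=
  clw_of_snd h hK (sndUV_of h) (Stk464.Mb_all h hK) (Stk464.thick_all h hK)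

end Crest.Agent.R136.Clw768
end

-- ▼ part R136/Yk2_953
section

/-!
# R136 U4, pure penalty: chain with room, part 2 (helper953)

* `DmxU u0` : D-max at the levels `v ∈ [u0, 1]`; `up_oneK`, `exists_dmxK` : (UP);
* `rep_okK` : one incidence per line and top cell; `exists_sub` : a part in one cell of level `j`
  with full fibres.
-/

set_option autoImplicit false
set_option linter.unusedSectionVars false

open Finset Filter Topology

namespace Crest.Agent.R136.Yk953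

open Crest.Agent.R138.Ex926 Crest.Agent.R138.Dp76 Crest.Agent.R138.Ps627
open Crest.Agent.R138.Ps926
open Crest.Agent.R138.NatTw76 (exists_avoid)
open Crest.Agent.R138.Mk163 (zc zl rho alive own Negl)
open Crest.Agent.R138.MkRef627 (lc kc own_one alive_mono mem_alive card_class own_lower exists_num)
open Crest.Agent.R138.MkZoom779 (zc_nested zc_eq exists_rep)
open Crest.Agent.R136.MkA627 (ampA Geo MkA)
open Crest.Agent.R116.Xa794 (TS)
open Crest.Agent.R116.Xa2794 (lc_nested class_fib_ge class_fib_le)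
open Crest.Agent.R116.Xa3794
open Crest.Agent.R116.Xc794 Crest.Agent.R116.Xc1794
open Crest.Agent.R116.Xc3794 Crest.Agent.R116.Xc4794 Crest.Agent.R116.Xc5794
open Crest.Agent.R136.Yc953 (RwdF Zf)
open Crest.Agent.R136.KF879 (OkH UBH)

variable {Ln ι S : Type} [Fintype ι]

/-- D-max at the levels `v ∈ [u0, 1]` -/
def DmxU (u0 : ℚ) (B : Base) (I : ℕ → Finset (ℕ × ℝ)) (T : ℕ → TS Ln ι S) (L : ℕ → ℕ → Ln)
    (lev : ℕ → ℚ → ℕ) (A : ℕ → ℝ) (c : ℝ → ℝ) (V : ℕ → ℕ → (ι → ℕ) → ℝ) : Prop :=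
  open Classical in
  ∀ v : ℚ, u0 ≤ v → v ≤ 1 → ∀ ε : ℝ, 0 < ε → ∀ᶠ n in (U : Filter ℕ), ∀ (J : ℤ) (s : (ι → ℕ) × S),
    (T n).adm (lev n v) J s →
      (((alive (I n) (lev n v) J).filter fun t => (T n).mem (lev n v) J s (L n t)).card : ℝ) ≤
        B.d n ^ (-ε) * ampA B A c n v * V n (lev n v) s.1

section

variable {B : Base} {I : ℕ → Finset (ℕ × ℝ)} {lev : ℕ → ℚ → ℕ} {T : ℕ → TS Ln ι S}
  {L : ℕ → ℕ → Ln} {A : ℕ → ℝ} {Ψ : ℝ → (ι → ℝ) → ℝ} {atop : ℕ → ι → ℕ} {N : ℕ → ℕ}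
  {c : ℝ → ℝ} {V : ℕ → ℕ → (ι → ℕ) → ℝ}

theorem DmxU.mono {u0 : ℚ} {J : ℕ → Finset (ℕ × ℝ)} (h : DmxU u0 B I T L lev A c V)
    (hJ : ∀ n, J n ⊆ I n) : DmxU u0 B J T L lev A c V := by
  classical
  intro v hv0 hv1 ε hε
  filter_upwards [h v hv0 hv1 ε hε] with n hn J0 s hs
  refine le_trans ?_ (hn J0 s hs)
  exact_mod_cast card_le_card (filter_subset_filter _ (alive_mono (hJ n) _ _))

open Classical in
theorem up_oneK [Nonempty S] {K : ℕ} {u0 : ℚ} (hu0 : 0 ≤ u0) (h : Sq B I lev Zf) (𝒯 : Set (TS Ln ι S)) (hΨ : SupA Ψ) {g : ℝ}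
    (hUB : UBH K 𝒯 Ψ g) (hT : ∀ n, T n ∈ 𝒯)
    (hfin : ∀ (n i : ℕ) (J : ℤ) (s : (ι → ℕ) × S), (T n).adm i J s → ∀ j, s.1 j ≤ N n)
    (hNd : ∀ ε : ℝ, 0 < ε → ∀ᶠ n in (U : Filter ℕ), (N n : ℝ) ≤ B.d n ^ (-ε))
    (hA : ∀ n, 0 < A n)
    (h0 : ∀ᶠ n in (U : Filter ℕ), ∀ (J0 : ℤ) (s : (ι → ℕ) × S), (T n).adm (lev n u0) J0 s →
      (((alive (I n) (lev n u0) J0).filter fun t => (T n).mem (lev n u0) J0 s (L n t)).card : ℝ) ≤
        A n * B.d n ^ (-(g * (u0 : ℝ))) * VV T Ψ lev atop n (lev n u0) s.1)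
    {v : ℚ} (hv0 : u0 ≤ v) (hv1 : v ≤ 1) (hroom : u0 < v → Room K lev u0 v)
    {ε : ℝ} (hε : 0 < ε) :
    ∃ E : ℕ → Finset (ℕ × ℝ), Negl B I (fun n x => x ∈ E n) ∧
      ∀ᶠ n in (U : Filter ℕ), ∀ Q ⊆ I n, (∀ x ∈ Q, x ∉ E n) → ∀ (J : ℤ) (s : (ι → ℕ) × S),
        (T n).adm (lev n v) J s →
          (((alive Q (lev n v) J).filter fun t => (T n).mem (lev n v) J s (L n t)).card : ℝ) ≤
            B.d n ^ (-ε) * ampA B A (fun v => g * v) n v *
              VV T Ψ lev atop n (lev n v) s.1 := by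
  have hvv0 : 0 ≤ v := hu0.trans hv0
  rcases hv0.eq_or_lt with rfl | hvpos
  · refine ⟨fun _ => ∅, ⟨1, one_pos, Eventually.of_forall fun n => ?_⟩, ?_⟩
    · simp only [notMem_empty, filter_false, card_empty, Nat.cast_zero]
      exact mul_nonneg (dpow_pos B n _).le (Nat.cast_nonneg _)
    · filter_upwards [h0] with n hn Q hQ _ J s hs
      refine le_trans (by exact_mod_cast card_le_card (filter_subset_filter _
        (alive_mono hQ _ _))) ((hn J s hs).trans ?_)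
      refine mul_le_mul_of_nonneg_right ?_ (VV_pos _ _ _).le
      unfold ampA
      have h1 : 1 ≤ B.d n ^ (-ε) := by
        have := dpow_le B n (a := -ε) (b := 0) (by linarith)
        rwa [Real.rpow_zero] at this
      have h2 : 0 < A n * B.d n ^ (-(g * (u0 : ℝ))) := mul_pos (hA n) (dpow_pos B n _)
      nlinarith
  set cc : ℝ → ℝ := fun v => g * v with hcc
  set t : ℕ → ℝ := fun n => B.d n ^ (-ε) * ampA B A cc n v with ht
  have htp : ∀ n, 0 < t n := fun n => mul_pos (dpow_pos B n _) (ampA_pos hA cc n v)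
  have hex := fun n => extractC (T n) (VV T Ψ lev atop n (lev n v)) (VV_pos n (lev n v)) (N n)
    (lev n v) (hfin n (lev n v)) (L n) (I n) (htp n)
  choose A0 hA0 A1 hA1 f b a h1 h2 h3 h4 h5 using hex
  refine ⟨A0, ?_, ?_⟩
  swap
  · exact Eventually.of_forall fun n Q hQ hQA J s hs => h5 n Q hQ hQA J s hs
  -- `A0` is negligible
  have hA0ev : ∀ᶠ n in (U : Filter ℕ), A0 n ⊆ I n := Eventually.of_forall hA0
  by_cases hd : Dense B A0 I
  swap
  · obtain ⟨γ, hγ, h6⟩ := small_of_not_dense hA0ev hd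
    refine ⟨γ, hγ, ?_⟩
    filter_upwards [h6] with n hn
    refine le_trans ?_ hn.le
    refine Nat.cast_le.2 (card_le_card ?_)
    intro x hx
    simp only [mem_filter] at hx
    exact hx.2
  exfalso
  have hd1 : Dense B A1 A0 := by
    refine dense_of_small (Eventually.of_forall hA1) fun η hη => ?_
    filter_upwards [boxN_small hNd (Fintype.card ι) hη] with n hn
    exact (h1 n).trans (mul_le_mul_of_nonneg_right hn (Nat.cast_nonneg _))
  have hd2 : Dense B A1 I := hd1.trans hd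
  have hne := hd2.nonempty h.ne
  set Φ : ℕ → ℝ := fun n =>
    (2 : ℝ) ^ (-(Ψ ((lev n 1 : ℝ) - lev n v) (rel (lev n v) (a n) (lev n 1) (atop n)))) with hΦ
  have hΦp : ∀ n, 0 < Φ n := fun n => Real.rpow_pos_of_pos two_pos _
  obtain ⟨e0, he0, hlow⟩ := low_seqK h 𝒯 Ψ hUB hT hfin hNd (u := u0) (v := v) (hroom hvpos)
    hvpos hv1
    (A := A1) (fun n => (hA1 n).trans (hA0 n)) (Eventually.of_forall h2) (f := f) (b := b) (a := a)
    (Eventually.of_forall h3) (D1 := fun n => t n * Φ n)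
    (fun n => mul_pos (htp n) (hΦp n))
    (Eventually.of_forall fun n x hx => by
      refine le_trans (le_of_eq ?_) (h4 n x hx)
      simp only [VV, capP, hΦ]
      ring) (η := ε) hε
    (D0 := fun n => A n * B.d n ^ (-(g * (u0 : ℝ))) * Φ n) (by
      refine Eventually.of_forall fun n => ?_
      have e1 : B.d n ^ (ε + g * ((v : ℝ) - u0)) *
          (t n * Φ n) = A n * B.d n ^ (-(g * (u0 : ℝ))) * Φ n := by
        simp only [ht, hcc, ampA]
        have e2 : B.d n ^ (ε + g * ((v : ℝ) - u0)) *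
            (B.d n ^ (-ε) * (A n * B.d n ^ (-(g * (v : ℝ)))) * Φ n) =
            A n * Φ n * (B.d n ^ (ε + g * ((v : ℝ) - u0)) * B.d n ^ (-ε) *
              B.d n ^ (-(g * (v : ℝ)))) := by ring
        rw [e2, ← dpow_add, ← dpow_add]
        have e3 : ε + g * ((v : ℝ) - u0) + -ε + -(g * (v : ℝ)) = -(g * (u0 : ℝ)) := by
          ring
        rw [e3]; ring
      simp only [e1]
      exact le_rfl)
  obtain ⟨n, hn1, hn2, hn3, hn4, hn5⟩ := (hlow.and ((hd2.2 e0 he0).and (h0.and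
    ((h.lev_mono u0 v hu0 hv0 hv1).and (h.lev_mono v 1 hvv0 hv1 le_rfl))))).exists
  obtain ⟨c, s, hs1, hs4⟩ := hn1 (A1 n) (Subset.refl _) hn2
  have h6 := hn3 c s hs1
  have h7 : (((alive (A1 n) (lev n u0) c).filter fun t => (T n).mem (lev n u0) c s (L n t)).card : ℝ) ≤
      (((alive (I n) (lev n u0) c).filter fun t => (T n).mem (lev n u0) c s (L n t)).card : ℝ) := by
    exact_mod_cast card_le_card (filter_subset_filter _
      (alive_mono ((hA1 n).trans (hA0 n)) _ _))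
  have h8 := capP_sup (T n) hΨ hn4 hn5 s.1 (a n) (atop n)
  have hAd : 0 < A n * B.d n ^ (-(g * (u0 : ℝ))) := mul_pos (hA n) (dpow_pos B n _)
  have h9 := mul_le_mul_of_nonneg_left h8 hAd.le
  have h10 : A n * B.d n ^ (-(g * (u0 : ℝ))) * VV T Ψ lev atop n (lev n u0) s.1 =
    A n * B.d n ^ (-(g * (u0 : ℝ))) * capP (T n) Ψ (lev n 1) (atop n) (lev n u0) s.1 := rfl
  have h11 : A n * B.d n ^ (-(g * (u0 : ℝ))) * Φ n * capP (T n) Ψ (lev n v) (a n) (lev n u0) s.1 =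
      A n * B.d n ^ (-(g * (u0 : ℝ))) *
        ((2 : ℝ) ^ (-(Ψ ((lev n 1 : ℝ) - lev n v) (rel (lev n v) (a n) (lev n 1) (atop n)))) *
        capP (T n) Ψ (lev n v) (a n) (lev n u0) s.1) := by
    simp only [hΦ]; ring
  linarith

open Classical in
/-- **(UP)**: a dense part has D-max at all levels. -/
theorem exists_dmxK [Nonempty S] {K : ℕ} {u0 : ℚ} (hu0 : 0 ≤ u0) (h : Sq B I lev Zf) (𝒯 : Set (TS Ln ι S)) (hΨ : SupA Ψ) {g : ℝ}
    (hUB : UBH K 𝒯 Ψ g) (hT : ∀ n, T n ∈ 𝒯)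
    (hfin : ∀ (n i : ℕ) (J : ℤ) (s : (ι → ℕ) × S), (T n).adm i J s → ∀ j, s.1 j ≤ N n)
    (hNd : ∀ ε : ℝ, 0 < ε → ∀ᶠ n in (U : Filter ℕ), (N n : ℝ) ≤ B.d n ^ (-ε))
    (hA : ∀ n, 0 < A n)
    (h0 : ∀ᶠ n in (U : Filter ℕ), ∀ (J0 : ℤ) (s : (ι → ℕ) × S), (T n).adm (lev n u0) J0 s →
      (((alive (I n) (lev n u0) J0).filter fun t => (T n).mem (lev n u0) J0 s (L n t)).card : ℝ) ≤
        A n * B.d n ^ (-(g * (u0 : ℝ))) * VV T Ψ lev atop n (lev n u0) s.1)
    (hroom : ∀ v : ℚ, u0 < v → v ≤ 1 → Room K lev u0 v) :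
    ∃ J : ℕ → Finset (ℕ × ℝ), (∀ n, J n ⊆ I n) ∧ Dense B J I ∧
      DmxU u0 B J T L lev A (fun v => g * v) (VV T Ψ lev atop) := by
  have hex : ∀ j : ℕ, ∃ E : ℕ → Finset (ℕ × ℝ), Negl B I (fun n x => x ∈ E n) ∧
      (u0 ≤ (Denumerable.ofNat (ℚ × ℕ) j).1 → (Denumerable.ofNat (ℚ × ℕ) j).1 ≤ 1 →
      ∀ᶠ n in (U : Filter ℕ), ∀ Q ⊆ I n, (∀ x ∈ Q, x ∉ E n) → ∀ (J : ℤ) (s : (ι → ℕ) × S),
        (T n).adm (lev n (Denumerable.ofNat (ℚ × ℕ) j).1) J s →
          (((alive Q (lev n (Denumerable.ofNat (ℚ × ℕ) j).1) J).filter fun t =>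
            (T n).mem (lev n (Denumerable.ofNat (ℚ × ℕ) j).1) J s (L n t)).card : ℝ) ≤
            B.d n ^ (-(1 / (((Denumerable.ofNat (ℚ × ℕ) j).2 : ℝ) + 1))) *
              ampA B A (fun v => g * v) n (Denumerable.ofNat (ℚ × ℕ) j).1 *
              VV T Ψ lev atop n (lev n (Denumerable.ofNat (ℚ × ℕ) j).1) s.1) := by
    intro j
    by_cases h1 : u0 ≤ (Denumerable.ofNat (ℚ × ℕ) j).1 ∧ (Denumerable.ofNat (ℚ × ℕ) j).1 ≤ 1
    · obtain ⟨E, hE1, hE2⟩ := up_oneK hu0 h 𝒯 hΨ hUB hT hfin hNd hA h0 h1.1 h1.2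
        (fun hlt => hroom _ hlt h1.2)
        (ε := 1 / (((Denumerable.ofNat (ℚ × ℕ) j).2 : ℝ) + 1)) (by positivity)
      exact ⟨E, hE1, fun _ _ => hE2⟩
    · refine ⟨fun _ => ∅, ⟨1, one_pos, Eventually.of_forall fun n => ?_⟩, fun h2 h3 =>
        absurd ⟨h2, h3⟩ h1⟩
      simp only [notMem_empty, filter_false, card_empty, Nat.cast_zero]
      exact mul_nonneg (dpow_pos B n _).le (Nat.cast_nonneg _)
  choose E hE1 hE2 using hex
  obtain ⟨J, hJI, hJd, hJ⟩ := exists_avoid (B := B) (I := I) (fun j n x => x ∈ E j n) hE1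
  refine ⟨J, hJI, hJd, ?_⟩
  intro v hv0 hv1 ε hε
  obtain ⟨k, hk⟩ := exists_nat_one_div_lt hε
  obtain ⟨j, hj⟩ : ∃ j, Denumerable.ofNat (ℚ × ℕ) j = (v, k) :=
    ⟨@Encodable.encode (ℚ × ℕ) Denumerable.toEncodable (v, k), Denumerable.ofNat_encode _⟩
  have h1 := hE2 j (by rw [hj]; exact hv0) (by rw [hj]; exact hv1)
  rw [hj] at h1
  filter_upwards [h1, hJ j] with n h2 h3 J0 s hs
  refine (h2 (J n) (hJI n) (fun x hx => h3 x hx) J0 s hs).trans ?_
  refine mul_le_mul_of_nonneg_right ?_ (VV_pos _ _ _).le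
  refine mul_le_mul_of_nonneg_right (dpow_le B n ?_) (ampA_pos hA _ n v).le
  have h4 : (((v, k) : ℚ × ℕ).2 : ℝ) = (k : ℝ) := rfl
  linarith

end

open Classical in
/-- one incidence per line and cell of the top level. -/
theorem rep_okK {T : TS Ln ι S} {Ψ : ℝ → (ι → ℝ) → ℝ} {F : Cfg Ln ι S} {hh : ℕ}
    (h : OkH T Ψ hh F) :
    ∃ F' : Cfg Ln ι S, OkH T Ψ hh F' ∧ F'.m = F.m ∧ F'.M = F.M ∧ F'.N = F.N ∧ F'.D0 = F.D0 ∧
      F'.D1 = F.D1 ∧ F'.nu = F.nu ∧ F'.I ⊆ F.I ∧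
      ∀ x ∈ F'.I, ∀ y ∈ F'.I, x.1 = y.1 → zc (F.m + F.M) x.2 = zc (F.m + F.M) y.2 → x = y := by
  obtain ⟨I1, hI1, hone, hfull⟩ := exists_rep F.I (F.m + F.M)
  have hmm : F.m - hh ≤ F.m + F.M := (Nat.sub_le _ _).trans (Nat.le_add_right _ _)
  refine ⟨{ F with I := I1 }, ?_, rfl, rfl, rfl, rfl, rfl, rfl, hI1, hone⟩
  have hal : ∀ J, alive F.I (F.m + F.M) J = alive I1 (F.m + F.M) J := by
    intro J
    ext t
    rw [mem_alive, mem_alive]
    constructor
    · rintro ⟨y, hy, h1, h2⟩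
      obtain ⟨x, hx, h3, h4⟩ := hfull y hy
      exact ⟨x, hx, h3.trans h1, h4.trans h2⟩
    · rintro ⟨y, hy, h1, h2⟩
      exact ⟨y, hI1 hy, h1, h2⟩
  refine
    { M1 := h.M1
      h_le := h.h_le
      ne := ?_
      cell := fun x hx y hy => h.cell x (hI1 hx) y (hI1 hy)
      D1p := h.D1p
      nup := h.nup
      fin := h.fin
      top := ?_
      low := ?_
      own := ?_
      up := ?_ }
  · obtain ⟨y, hy⟩ := h.ne
    obtain ⟨x, hx, -⟩ := hfull y hy
    exact ⟨x, hx⟩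
  · intro J t ht
    exact h.top J t (alive_mono hI1 _ _ ht)
  · intro J t ht
    have h1 := h.low J t (alive_mono hI1 _ _ ht)
    rw [hal J] at h1
    exact h1
  · intro x hx
    have h1 := h.own x (hI1 hx)
    refine h1.trans ?_
    have : own F.I (F.m - hh) (F.m + F.M) x ⊆ own I1 (F.m - hh) (F.m + F.M) x := by
      intro c hc
      unfold own at hc ⊢
      obtain ⟨y, hy, rfl⟩ := mem_image.1 hc
      rw [mem_filter] at hy
      obtain ⟨x', hx', h3, h4⟩ := hfull y hy.1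
      refine mem_image.2 ⟨x', mem_filter.2 ⟨hx', h3.trans hy.2.1, ?_⟩, h4⟩
      exact (zc_nested hmm h4).trans hy.2.2
    exact_mod_cast card_le_card this
  · intro J s hs
    refine le_trans ?_ (h.up J s hs)
    exact_mod_cast card_le_card (filter_subset_filter _ (alive_mono hI1 _ _))

open Classical in
/-- small (line, cell of level `j`) fibres are few. -/
theorem few_bad {I : Finset (ℕ × ℝ)} {i j : ℕ} (hij : i ≤ j) {ν : ℝ} (hν : 0 < ν)
    (hfib : ∀ x ∈ I, ν ≤ ((I.filter fun y => lc i y = lc i x).card : ℝ)) :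
    ((I.filter fun x => ((I.filter fun y => lc j y = lc j x).card : ℝ) <
      ν / (4 * 2 ^ (j - i))).card : ℝ) ≤ (1 / 4) * (I.card : ℝ) := by
  set τ : ℝ := ν / (4 * 2 ^ (j - i)) with hτ
  set bad := I.filter fun x => ((I.filter fun y => lc j y = lc j x).card : ℝ) < τ with hbad
  have hbI : bad ⊆ I := filter_subset _ _
  have hτ0 : 0 < τ := by positivity
  -- one coarse fibre
  have h1 : ∀ x0 ∈ I, ((bad.filter fun y => lc i y = lc i x0).card : ℝ) ≤
      (1 / 4) * ((I.filter fun y => lc i y = lc i x0).card : ℝ) := by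
    intro x0 hx0
    set Fx := bad.filter fun y => lc i y = lc i x0 with hFx
    have e1 : (Fx.card : ℝ) = ∑ c ∈ Fx.image (fun y => zc j y.2),
        ((Fx.filter fun y => zc j y.2 = c).card : ℝ) := by
      rw [card_eq_sum_card_image (fun y : ℕ × ℝ => zc j y.2) Fx]
      push_cast; rfl
    have e2 : ∑ c ∈ Fx.image (fun y => zc j y.2), ((Fx.filter fun y => zc j y.2 = c).card : ℝ) ≤
        ((Fx.image fun y => zc j y.2).card : ℝ) * τ := by
      rw [← nsmul_eq_mul]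
      refine sum_le_card_nsmul _ _ _ fun c hc => ?_
      obtain ⟨y, hy, rfl⟩ := mem_image.1 hc
      have hyb := (mem_filter.1 hy).1
      have hyi := (mem_filter.1 hy).2
      refine le_trans ?_ (mem_filter.1 hyb).2.le
      have : (Fx.filter fun z => zc j z.2 = zc j y.2) ⊆ I.filter fun z => lc j z = lc j y := by
        intro z hz
        rw [mem_filter] at hz
        have hz1 := (mem_filter.1 hz.1)
        rw [mem_filter]
        refine ⟨hbI hz1.1, ?_⟩
        have a1 : z.1 = y.1 := (Prod.mk.inj hz1.2).1.trans (Prod.mk.inj hyi).1.symm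
        exact Prod.ext a1 hz.2
      exact_mod_cast card_le_card this
    have e3 : Fx.image (fun y => zc j y.2) ⊆ own I i j x0 := by
      intro c hc
      obtain ⟨y, hy, rfl⟩ := mem_image.1 hc
      have hy1 := mem_filter.1 hy
      obtain ⟨a1, a2⟩ := Prod.mk.inj hy1.2
      unfold own
      exact mem_image.2 ⟨y, mem_filter.2 ⟨hbI hy1.1, a1, a2⟩, rfl⟩
    have e4 : ((Fx.image fun y => zc j y.2).card : ℝ) ≤ 2 ^ (j - i) := by
      have := (card_le_card e3).trans (own_card_le (I := I) hij x0)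
      exact_mod_cast this
    have e5 : ((Fx.image fun y => zc j y.2).card : ℝ) * τ ≤ 2 ^ (j - i) * τ :=
      mul_le_mul_of_nonneg_right e4 hτ0.le
    have e6 : (2 : ℝ) ^ (j - i) * τ = (1 / 4) * ν := by
      rw [hτ]; field_simp
    have e7 := hfib x0 hx0
    linarith
  -- sum over the coarse fibres
  have e1 : (bad.card : ℝ) = ∑ o ∈ I.image (lc i), ((bad.filter fun y => lc i y = o).card : ℝ) := by
    rw [card_eq_sum_card_fiberwise (f := lc i) (s := bad) (t := I.image (lc i))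
      (fun x hx => mem_coe.2 (mem_image_of_mem _ (hbI (mem_coe.1 hx))))]
    push_cast; rfl
  have e2 : (I.card : ℝ) = ∑ o ∈ I.image (lc i), ((I.filter fun y => lc i y = o).card : ℝ) := by
    rw [card_eq_sum_card_fiberwise (f := lc i) (s := I) (t := I.image (lc i))
      (fun x hx => mem_coe.2 (mem_image_of_mem _ (mem_coe.1 hx)))]
    push_cast; rfl
  rw [e1, e2, mul_sum]
  refine sum_le_sum fun o ho => ?_
  obtain ⟨x0, hx0, rfl⟩ := mem_image.1 ho
  exact h1 x0 hx0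

open Classical in
/-- **a part in one cell of level `j` with full fibres and large classes.** -/
theorem exists_sub {I : Finset (ℕ × ℝ)} {i j k : ℕ} (hij : i ≤ j) (hjk : j ≤ k)
    (hne : I.Nonempty) {ν : ℝ} (hν : 0 < ν)
    (hfib : ∀ x ∈ I, ν ≤ ((I.filter fun y => lc i y = lc i x).card : ℝ)) (f : ℕ → ℤ → ℕ) :
    ∃ J ⊆ I, J.Nonempty ∧ (∀ x ∈ J, ∀ y ∈ J, zc j x.2 = zc j y.2) ∧
      (∀ x ∈ J, (1 / 8) * ((I.filter fun y => kc k f y = kc k f x).card : ℝ) ≤
        ((J.filter fun y => kc k f y = kc k f x).card : ℝ)) ∧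
      ∀ x ∈ J, (1 / 32) * (ν / 2 ^ (j - i)) ≤ ((J.filter fun y => lc j y = lc j x).card : ℝ) := by
  set τ : ℝ := ν / (4 * 2 ^ (j - i)) with hτ
  set P : ℕ × ℝ → Prop := fun x => ((I.filter fun y => lc j y = lc j x).card : ℝ) < τ with hP
  have hb := few_bad hij hν hfib
  rw [← hτ] at hb
  set J0 := I.filter fun x => ¬ P x with hJ0
  have hIc : (0 : ℝ) < (I.card : ℝ) := by exact_mod_cast card_pos.2 hne
  have hJ0c : (3 / 4) * (I.card : ℝ) ≤ (J0.card : ℝ) := by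
    have h1 : (I.filter P).card + J0.card = I.card := card_filter_add_card_filter_not (p := P)
    have h2 : ((I.filter P).card : ℝ) + (J0.card : ℝ) = (I.card : ℝ) := by exact_mod_cast h1
    have h3 : ((I.filter P).card : ℝ) ≤ (1 / 4) * (I.card : ℝ) := hb
    linarith
  set hm : Fin 2 → (ℕ × ℝ) → ℕ × ℤ := ![kc k f, lc j] with hhm
  obtain ⟨A', hA', hloss, hf⟩ := prune_rel (η := fun _ => ℕ × ℤ) hm (A := J0) (I := I)
    (filter_subset _ _) (δ := 1 / 8) (by norm_num)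
  rw [Fintype.card_fin] at hloss
  push_cast at hloss
  have hA'c : (0 : ℝ) < (A'.card : ℝ) := by linarith
  obtain ⟨x0, hx0⟩ := card_pos.1 (by exact_mod_cast hA'c : 0 < A'.card)
  have g0 : ∀ x ∈ A', (1 / 8) * ((I.filter fun y => kc k f y = kc k f x).card : ℝ) ≤
      ((A'.filter fun y => kc k f y = kc k f x).card : ℝ) := by
    intro x hx
    have h1 := hf 0 x hx
    have h2 : hm 0 = kc k f := rfl
    simp only [h2] at h1
    convert h1
  have g1 : ∀ x ∈ A', (1 / 8) * ((I.filter fun y => lc j y = lc j x).card : ℝ) ≤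
      ((A'.filter fun y => lc j y = lc j x).card : ℝ) := by
    intro x hx
    have h1 := hf 1 x hx
    have h2 : hm 1 = lc j := rfl
    simp only [h2] at h1
    convert h1
  set J := A'.filter fun y => zc j y.2 = zc j x0.2 with hJ
  have hJA : J ⊆ A' := filter_subset _ _
  have hcell : ∀ x ∈ J, zc j x.2 = zc j x0.2 := fun x hx => (mem_filter.1 hx).2
  have hin : ∀ x ∈ J, ∀ y ∈ A', zc j y.2 = zc j x.2 → y ∈ J := fun x hx y hy hxy =>
    mem_filter.2 ⟨hy, hxy.trans (hcell x hx)⟩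
  refine ⟨J, hJA.trans (hA'.trans (filter_subset _ _)), ⟨x0, mem_filter.2 ⟨hx0, rfl⟩⟩,
    fun x hx y hy => (hcell x hx).trans (hcell y hy).symm, ?_, ?_⟩
  · intro x hx
    have e1 : (J.filter fun y => kc k f y = kc k f x) = A'.filter fun y => kc k f y = kc k f x := by
      ext y
      exact ⟨fun h => mem_filter.2 ⟨hJA (mem_filter.1 h).1, (mem_filter.1 h).2⟩,
        fun h => mem_filter.2 ⟨hin x hx y (mem_filter.1 h).1
          (zc_nested hjk (Prod.mk.inj (mem_filter.1 h).2).2), (mem_filter.1 h).2⟩⟩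
    rw [e1]
    exact g0 x (hJA hx)
  · intro x hx
    have e1 : (J.filter fun y => lc j y = lc j x) = A'.filter fun y => lc j y = lc j x := by
      ext y
      exact ⟨fun h => mem_filter.2 ⟨hJA (mem_filter.1 h).1, (mem_filter.1 h).2⟩,
        fun h => mem_filter.2 ⟨hin x hx y (mem_filter.1 h).1
          (Prod.mk.inj (mem_filter.1 h).2).2, (mem_filter.1 h).2⟩⟩
    rw [e1]
    refine le_trans ?_ (g1 x (hJA hx))
    have hxJ0 := (mem_filter.1 (hA' (hJA hx))).2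
    have h2 : τ ≤ ((I.filter fun y => lc j y = lc j x).card : ℝ) := not_lt.1 hxJ0
    have h3 : (1 / 32) * (ν / 2 ^ (j - i)) = (1 / 8) * τ := by
      rw [hτ]; field_simp; norm_num
    rw [h3]
    exact mul_le_mul_of_nonneg_left h2 (by norm_num)

end Crest.Agent.R136.Yk953
end

-- ▼ part R136/Yk3_953
section

/-!
# R136 U4, pure penalty: chain with room, part 3 (helper953): the initial near-extremal sequence

`lev n 0 = F.m - ⌈M/K⌉` (one cell, full own counts), `lev n u0 = F.m` (bottom bound),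
`lev n 1 = F.m + F.M` (marks), `u0 = 1 / (K + 1)`.
-/

set_option autoImplicit false
set_option linter.unusedSectionVars false

open Finset Filter Topology

namespace Crest.Agent.R136.Yk953

open Crest.Agent.R138.Ex926 Crest.Agent.R138.Dp76 Crest.Agent.R138.Ps627
open Crest.Agent.R138.Ps926
open Crest.Agent.R138.Mk163 (zc zl rho alive own Negl)
open Crest.Agent.R138.MkRef627 (lc kc own_one alive_mono mem_alive card_class own_lower exists_num)
open Crest.Agent.R138.MkZoom779 (zc_nested zc_eq exists_rep)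
open Crest.Agent.R136.MkA627 (ampA Geo MkA)
open Crest.Agent.R116.Xa794 (TS)
open Crest.Agent.R116.Xa2794 (lc_nested class_fib_ge class_fib_le)
open Crest.Agent.R116.Xa3794
open Crest.Agent.R116.Xc794 Crest.Agent.R116.Xc1794
open Crest.Agent.R116.Xc3794 Crest.Agent.R116.Xc4794 Crest.Agent.R116.Xc5794
open Crest.Agent.R136.Yc953 (RwdF Zf)
open Crest.Agent.R136.KF879 (OkH UBH)

variable {Ln ι S : Type} [Fintype ι]

/-- the normalised position of the levels -/
noncomputable def levK (m mb : ℕ) (u0 : ℚ) (Mt : ℕ) (v : ℚ) : ℕ :=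
  if v < u0 then mb + ⌊(v : ℝ) * Mt⌋₊ else m + ⌊((v : ℝ) - u0) * Mt⌋₊

theorem levK_zero {m mb : ℕ} {u0 : ℚ} (h0 : 0 < u0) (Mt : ℕ) : levK m mb u0 Mt 0 = mb := by
  unfold levK
  rw [if_pos h0]
  simp

theorem levK_u0 (m mb : ℕ) (u0 : ℚ) (Mt : ℕ) : levK m mb u0 Mt u0 = m := by
  unfold levK
  rw [if_neg (lt_irrefl _)]
  simp

theorem levK_pos {m mb hp Mt : ℕ} (hmb : m = mb + hp) {u0 : ℚ}
    (h1 : (u0 : ℝ) * Mt ≤ hp) (h2 : (hp : ℝ) ≤ (u0 : ℝ) * Mt + 1) {v : ℚ} (hv : 0 ≤ v) :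
    |(levK m mb u0 Mt v : ℝ) - mb - v * Mt| ≤ 2 := by
  have hvR : (0 : ℝ) ≤ v := by exact_mod_cast hv
  have hMt : (0 : ℝ) ≤ Mt := Nat.cast_nonneg _
  unfold levK
  split_ifs with h
  · have a1 := Nat.floor_le (mul_nonneg hvR hMt)
    have a2 := Nat.lt_floor_add_one ((v : ℝ) * Mt)
    push_cast
    rw [abs_le]
    constructor <;> linarith
  · push Not at h
    have hR : (u0 : ℝ) ≤ v := by exact_mod_cast h
    have a1 := Nat.floor_le (mul_nonneg (sub_nonneg.2 hR) hMt)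
    have a2 := Nat.lt_floor_add_one (((v : ℝ) - u0) * Mt)
    rw [hmb]
    push_cast
    rw [abs_le]
    constructor <;> nlinarith

theorem levK_mono {m mb hp Mt : ℕ} (hmb : m = mb + hp) {u0 : ℚ}
    (h1 : (u0 : ℝ) * Mt ≤ hp) {u v : ℚ} (_hu : 0 ≤ u) (huv : u ≤ v) :
    levK m mb u0 Mt u ≤ levK m mb u0 Mt v := by
  have hMt : (0 : ℝ) ≤ Mt := Nat.cast_nonneg _
  have huvR : (u : ℝ) ≤ v := by exact_mod_cast huv
  unfold levK
  split_ifs with ha hb hb
  · exact Nat.add_le_add_left (Nat.floor_mono (mul_le_mul_of_nonneg_right huvR hMt)) _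
  · have hR : (u : ℝ) ≤ u0 := by exact_mod_cast ha.le
    have a1 : ⌊(u : ℝ) * Mt⌋₊ ≤ hp := by
      refine Nat.floor_le_of_le ?_
      exact (mul_le_mul_of_nonneg_right hR hMt).trans h1
    rw [hmb]
    omega
  · exact absurd (huv.trans_lt hb) ha
  · exact Nat.add_le_add_left (Nat.floor_mono (mul_le_mul_of_nonneg_right (by linarith) hMt)) _

set_option maxHeartbeats 2000000 in
open Classical in
/-- **the initial sequence.** -/
theorem exists_initK {K : ℕ} (hK : 2 ≤ K) {𝒯 : Set (TS Ln ι S)} {Ψ : ℝ → (ι → ℝ) → ℝ} {g : ℝ}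
    (hΨ0 : Ψ 0 (fun _ => 0) = 0) (hlow : ∀ b < g, ¬ UBH K 𝒯 Ψ b) (hUB : UBH K 𝒯 Ψ g) :
    ∃ (B : Base) (I : ℕ → Finset (ℕ × ℝ)) (T : ℕ → TS Ln ι S) (L : ℕ → ℕ → Ln)
      (lev : ℕ → ℚ → ℕ) (A : ℕ → ℝ) (f : ℕ → ℕ → ℤ → ℕ) (b : ℕ → ℕ → (ι → ℕ) × S)
      (atop : ℕ → ι → ℕ) (N : ℕ → ℕ) (u0 : ℚ),
      0 < u0 ∧ (u0 : ℝ) < 1 / 2 ∧ ((K : ℝ) + 1) * u0 = 1 ∧
      Nonempty S ∧ (∀ n, T n ∈ 𝒯) ∧
      (∀ (n i : ℕ) (J : ℤ) (s : (ι → ℕ) × S), (T n).adm i J s → ∀ j, s.1 j ≤ N n) ∧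
      (∀ ε : ℝ, 0 < ε → ∀ᶠ n in (U : Filter ℕ), (N n : ℝ) ≤ B.d n ^ (-ε)) ∧
      (∀ n, 0 < A n) ∧ Sq B I lev Zf ∧
      (∀ᶠ n in (U : Filter ℕ), ∀ (J0 : ℤ) (s : (ι → ℕ) × S), (T n).adm (lev n u0) J0 s →
        (((alive (I n) (lev n u0) J0).filter fun t => (T n).mem (lev n u0) J0 s (L n t)).card : ℝ) ≤
          A n * B.d n ^ (-(g * (u0 : ℝ))) * VV T Ψ lev atop n (lev n u0) s.1) ∧
      Mrk B I T L lev A (fun v => g * v) (VV T Ψ lev atop) 1 f b atop ∧
      ∀ v : ℚ, u0 < v → v ≤ 1 → Room K lev u0 v := by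
  have hKR : (2 : ℝ) ≤ K := by exact_mod_cast hK
  have hKp : (0 : ℝ) < K := by linarith
  have hK1 : (0 : ℝ) < (K : ℝ) + 1 := by linarith
  -- the configurations
  obtain ⟨δs, hδs, Ms, hMs⟩ := hUB 1 one_pos
  have hex : ∀ n : ℕ, ∃ T ∈ 𝒯, ∃ (F : Cfg Ln ι S) (h : ℕ), OkH T Ψ h F ∧ n ≤ F.M ∧
      F.M ≤ K * h ∧ h ≤ F.M ∧
      Real.log (F.I.card : ℝ) ≤ (2 : ℝ) ^ (1 / ((n : ℝ) + 1) * F.M) ∧
      (F.N : ℝ) ≤ (2 : ℝ) ^ (1 / ((n : ℝ) + 1) * F.M) ∧ 0 < F.D0 ∧
      (2 : ℝ) ^ ((g - 1 / ((n : ℝ) + 1)) * F.M) * F.D0 ≤ F.D1 ∧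
      (2 : ℝ) ^ ((1 - 1 / ((n : ℝ) + 1)) * (F.M + h : ℝ)) ≤ F.nu ∧
      ∀ x ∈ F.I, ∀ y ∈ F.I, x.1 = y.1 → zc (F.m + F.M) x.2 = zc (F.m + F.M) y.2 → x = y := by
    intro n
    have hp : (0 : ℝ) < 1 / ((n : ℝ) + 1) := by positivity
    have h1 := hlow (g - 1 / ((n : ℝ) + 1)) (by linarith)
    unfold UBH at h1
    push Not at h1
    obtain ⟨η, hη, h2⟩ := h1
    obtain ⟨T, hT, F, hh, hF, hM, hMK, hhM, hc, hN, hnu, hlt⟩ := h2 (min (1 / ((n : ℝ) + 1)) δs)
      (lt_min hp hδs) (max n Ms)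
    obtain ⟨F', hF', e1, e2, e3, e4, e5, e6, e7, e8⟩ := rep_okK hF
    have hMp : (0 : ℝ) ≤ (F.M : ℝ) := Nat.cast_nonneg _
    have hMhp : (0 : ℝ) ≤ (F.M : ℝ) + hh := add_nonneg hMp (Nat.cast_nonneg _)
    have hle1 : (2 : ℝ) ^ (min (1 / ((n : ℝ) + 1)) δs * F.M) ≤ (2 : ℝ) ^ (1 / ((n : ℝ) + 1) * F.M) :=
      Real.rpow_le_rpow_of_exponent_le (by norm_num)
        (mul_le_mul_of_nonneg_right (min_le_left _ _) hMp)
    have hle2 : (2 : ℝ) ^ (min (1 / ((n : ℝ) + 1)) δs * F.M) ≤ (2 : ℝ) ^ (δs * F.M) :=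
      Real.rpow_le_rpow_of_exponent_le (by norm_num)
        (mul_le_mul_of_nonneg_right (min_le_right _ _) hMp)
    have hnu1 : (2 : ℝ) ^ ((1 - 1 / ((n : ℝ) + 1)) * (F.M + hh : ℝ)) ≤ F.nu := by
      refine le_trans (Real.rpow_le_rpow_of_exponent_le (by norm_num)
        (mul_le_mul_of_nonneg_right ?_ hMhp)) hnu
      linarith [min_le_left (1 / ((n : ℝ) + 1)) δs]
    have hnu2 : (2 : ℝ) ^ ((1 - δs) * (F.M + hh : ℝ)) ≤ F.nu := by
      refine le_trans (Real.rpow_le_rpow_of_exponent_le (by norm_num)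
        (mul_le_mul_of_nonneg_right ?_ hMhp)) hnu
      linarith [min_le_right (1 / ((n : ℝ) + 1)) δs]
    have hD0 : 0 < F.D0 := by
      have h3 := hMs T hT F hh hF ((le_max_right _ _).trans hM) hMK hhM (hc.trans hle2)
        (hN.trans hle2) hnu2
      have h4 : 0 < F.D1 := hF.D1p
      by_contra hneg
      push Not at hneg
      have h5 : (2 : ℝ) ^ ((g + 1) * F.M) * F.D0 ≤ 0 :=
        mul_nonpos_of_nonneg_of_nonpos (by positivity) hneg
      linarith
    refine ⟨T, hT, F', hh, hF', by rw [e2]; exact (le_max_left _ _).trans hM, by rw [e2]; exact hMK,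
      by rw [e2]; exact hhM, ?_, ?_, by rw [e4]; exact hD0, ?_, by rw [e2, e6]; exact hnu1,
      by rw [e1, e2]; exact e8⟩
    · rw [e2]
      refine le_trans (Real.log_le_log ?_ ?_) (hc.trans hle1)
      · exact_mod_cast card_pos.2 hF'.ne
      · exact_mod_cast card_le_card e7
    · rw [e2, e3]; exact hN.trans hle1
    · rw [e2, e4, e5]
      refine le_trans ?_ hlt.le
      refine mul_le_mul_of_nonneg_right ?_ hD0.le
      refine Real.rpow_le_rpow_of_exponent_le (by norm_num) ?_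
      nlinarith
  choose T hT F hh hF hM hMK hhM hc hN hD0 hgap hnul hone using hex
  have hM1 : ∀ n, 1 ≤ (F n).M := fun n => (hF n).M1
  have hlog2 : 0 < Real.log 2 := Real.log_pos (by norm_num)
  -- the room used
  set hp : ℕ → ℕ := fun n => ((F n).M + K - 1) / K with hhp
  have hK0 : 0 < K := by omega
  have hp1 : ∀ n, (F n).M ≤ K * hp n := by
    intro n
    have h1 := Nat.div_add_mod ((F n).M + K - 1) K
    have h2 := Nat.mod_lt ((F n).M + K - 1) hK0
    simp only [hhp]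
    omega
  have hp2 : ∀ n, K * hp n ≤ (F n).M + K - 1 := by
    intro n
    simp only [hhp]
    exact Nat.mul_div_le _ _
  have hp3 : ∀ n, hp n ≤ hh n := by
    intro n
    have h1 := hp2 n
    have h2 := hMK n
    by_contra hcon
    push Not at hcon
    have h3 : K * (hh n + 1) ≤ K * hp n := Nat.mul_le_mul_left K hcon
    rw [Nat.mul_add, Nat.mul_one] at h3
    omega
  have hp4 : ∀ n, hp n ≤ (F n).m := fun n => (hp3 n).trans (hF n).h_le
  set mb : ℕ → ℕ := fun n => (F n).m - hp n with hmb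
  have hmb1 : ∀ n, (F n).m = mb n + hp n := fun n => by
    have := hp4 n
    simp only [hmb]; omega
  set Mt : ℕ → ℕ := fun n => (F n).M + hp n with hMt
  -- the base
  set B : Base :=
    { d := fun n => (1 / 2 : ℝ) ^ (Mt n)
      pos := fun n => by positivity
      lt := fun n => pow_lt_one₀ (by norm_num) (by norm_num) (by
        have := hM1 n
        simp only [hMt]; omega)
      lim0 := by
        have h1 : Tendsto (fun n : ℕ => (1 / 2 : ℝ) ^ n) U (𝓝 0) :=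
          (tendsto_pow_atTop_nhds_zero_of_lt_one (by norm_num) (by norm_num)).mono_left U_le_atTop
        refine squeeze_zero (fun n => by positivity) (fun n => ?_) h1
        exact pow_le_pow_of_le_one (by norm_num) (by norm_num) ((hM n).trans (by
          simp only [hMt]; omega)) } with hB
  have hBL : ∀ n, B.L n = Mt n * Real.log 2 := by
    intro n
    have : B.L n = - Real.log ((1 / 2 : ℝ) ^ (Mt n)) := rfl
    rw [this, Real.log_pow, one_div, Real.log_inv]; ring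
  have hMpos : ∀ n, (0 : ℝ) < ((F n).M : ℝ) := fun n => by exact_mod_cast hM1 n
  have hMtpos : ∀ n, (0 : ℝ) < (Mt n : ℝ) := fun n => by
    have : 0 < Mt n := by
      have := hM1 n
      simp only [hMt]; omega
    exact_mod_cast this
  have hdp : ∀ n (e : ℝ), B.d n ^ (-e) = (2 : ℝ) ^ (e * (Mt n)) := by
    intro n e
    apply le_antisymm
    · refine le_two_rpow ?_
      rw [hBL]
      rw [show e * (Mt n : ℝ) * Real.log 2 / ((Mt n : ℝ) * Real.log 2) = e by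
        field_simp [(hMtpos n).ne']]
    · refine two_rpow_le ?_
      rw [hBL]
      rw [show e * (Mt n : ℝ) * Real.log 2 / ((Mt n : ℝ) * Real.log 2) = e by
        field_simp [(hMtpos n).ne']]
  have hMtlim : Tendsto (fun n => (Mt n : ℝ)) U atTop := by
    refine tendsto_atTop_mono (fun n => (by
      have h1 : n ≤ Mt n := (hM n).trans (by simp only [hMt]; omega)
      exact_mod_cast h1 : (n : ℝ) ≤ Mt n)) ?_
    exact tendsto_natCast_atTop_atTop.mono_left U_le_atTop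
  have hinv : Tendsto (fun n => 1 / (Mt n : ℝ)) U (𝓝 0) := by
    have h2 := tendsto_inv_atTop_zero.comp hMtlim
    refine h2.congr fun n => ?_
    simp only [Function.comp, one_div]
  -- `1/(n+1)` is eventually small
  have hsm0 : Tendsto (fun n : ℕ => 1 / ((n : ℝ) + 1)) U (𝓝 0) :=
    tendsto_one_div_add_atTop_nhds_zero_nat.mono_left U_le_atTop
  have hsm : ∀ ε : ℝ, 0 < ε → ∀ᶠ n : ℕ in (U : Filter ℕ), 1 / ((n : ℝ) + 1) ≤ ε := by
    intro ε hε
    filter_upwards [hsm0.eventually_lt_const hε] with n hn using hn.le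
  -- the bottom level
  set u0 : ℚ := 1 / ((K : ℚ) + 1) with hu0
  have hu0p : 0 < u0 := by positivity
  have hu0R : (u0 : ℝ) = 1 / ((K : ℝ) + 1) := by rw [hu0]; push_cast; rfl
  have hu0K : ((K : ℝ) + 1) * u0 = 1 := by rw [hu0R]; field_simp
  have hu0h : (u0 : ℝ) < 1 / 2 := by
    rw [hu0R, div_lt_div_iff₀ hK1 two_pos]
    linarith
  have hu01 : u0 < 1 := by
    have : (u0 : ℝ) < 1 := by linarith
    exact_mod_cast this
  have hp1R : ∀ n, ((F n).M : ℝ) ≤ K * hp n := fun n => by exact_mod_cast hp1 n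
  have hp2R : ∀ n, (K : ℝ) * hp n ≤ (F n).M + K - 1 := fun n => by
    have h1 := hp2 n
    have h2 : K * hp n + 1 ≤ (F n).M + K := by omega
    have h3 : (K : ℝ) * hp n + 1 ≤ (F n).M + K := by exact_mod_cast h2
    linarith
  have hMtR : ∀ n, (Mt n : ℝ) = (F n).M + hp n := fun n => by
    simp only [hMt]; push_cast; rfl
  have hq1 : ∀ n, (u0 : ℝ) * Mt n ≤ hp n := by
    intro n
    rw [hu0R, hMtR, one_div, inv_mul_le_iff₀ hK1]
    have := hp1R n
    linarith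
  have hq2 : ∀ n, (hp n : ℝ) ≤ (u0 : ℝ) * Mt n + 1 := by
    intro n
    have h1 : (hp n : ℝ) - 1 ≤ (u0 : ℝ) * Mt n := by
      rw [hu0R, hMtR, one_div, ← div_eq_inv_mul, le_div_iff₀ hK1]
      have := hp2R n
      nlinarith
    linarith
  set lev : ℕ → ℚ → ℕ := fun n v => levK (F n).m (mb n) u0 (Mt n) v with hlev
  have hlev0 : ∀ n, lev n 0 = mb n := fun n => levK_zero hu0p _
  have hlevu : ∀ n, lev n u0 = (F n).m := fun n => levK_u0 _ _ _ _
  have hlev1 : ∀ n, lev n 1 = (F n).m + (F n).M := by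
    intro n
    have h1 : ⌊((1 : ℝ) - u0) * Mt n⌋₊ = (F n).M := by
      rw [Nat.floor_eq_iff (mul_nonneg (by linarith) (Nat.cast_nonneg _))]
      have e1 : ((1 : ℝ) - u0) * Mt n = (F n).M + (hp n - u0 * Mt n) := by
        rw [hMtR]; ring
      rw [e1]
      have h2 : (hp n : ℝ) - u0 * Mt n < 1 := by
        have h3 : ((K : ℝ) + 1) * ((hp n : ℝ) - u0 * Mt n) = K * hp n - (F n).M := by
          have : ((K : ℝ) + 1) * ((hp n : ℝ) - u0 * Mt n) =
              (K + 1) * hp n - (((K : ℝ) + 1) * u0) * Mt n := by ring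
          rw [this, hu0K, hMtR]; ring
        have h4 := hp2R n
        by_contra hcon
        push Not at hcon
        nlinarith
      constructor
      · linarith [hq1 n]
      · linarith
    have h5 : lev n 1 = (F n).m + ⌊(((1 : ℚ) : ℝ) - u0) * Mt n⌋₊ := by
      simp only [hlev, levK]
      rw [if_neg (not_lt.2 hu01.le)]
    rw [h5, Rat.cast_one, h1]
  have hpos : ∀ n (v : ℚ), 0 ≤ v → |(lev n v : ℝ) - mb n - v * Mt n| ≤ 2 := fun n v hv =>
    levK_pos (hmb1 n) (hq1 n) (hq2 n) hv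
  have hlm : ∀ u v : ℚ, 0 ≤ u → u ≤ v → v ≤ 1 → ∀ᶠ n in (U : Filter ℕ), lev n u ≤ lev n v :=
    fun u v hu huv _ => Eventually.of_forall fun n => levK_mono (hmb1 n) (hq1 n) hu huv
  have hll : ∀ u v : ℚ, 0 ≤ u → u ≤ v → v ≤ 1 →
      Tendsto (fun n => ((lev n v : ℝ) - lev n u) * Real.log 2 / B.L n) U (𝓝 ((v : ℝ) - u)) := by
    intro u v hu huv hv
    have h1 : Tendsto (fun n => 4 * (1 / (Mt n : ℝ))) U (𝓝 0) := by
      have := hinv.const_mul 4
      rwa [mul_zero] at this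
    rw [tendsto_iff_dist_tendsto_zero]
    refine squeeze_zero (fun n => dist_nonneg) (fun n => ?_) h1
    have hm := hMtpos n
    have e1 : ((lev n v : ℝ) - lev n u) * Real.log 2 / B.L n =
        ((lev n v : ℝ) - lev n u) / Mt n := by
      rw [hBL]
      field_simp
    rw [e1, Real.dist_eq]
    have a1 := abs_le.1 (hpos n v (hu.trans huv))
    have a2 := abs_le.1 (hpos n u hu)
    have e2 : ((lev n v : ℝ) - lev n u) / Mt n - ((v : ℝ) - u) =
        (((lev n v : ℝ) - mb n - v * Mt n) - ((lev n u : ℝ) - mb n - u * Mt n)) / Mt n := by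
      field_simp
      ring
    rw [e2, abs_div, abs_of_pos hm, div_le_iff₀ hm]
    have e3 : 4 * (1 / (Mt n : ℝ)) * Mt n = 4 := by field_simp
    rw [e3, abs_le]
    constructor <;> linarith
  -- the part in one cell of the level `mb`
  have hfibF : ∀ n, ∀ x ∈ (F n).I, (F n).nu ≤
      ((((F n).I).filter fun y => lc ((F n).m - hh n) y = lc ((F n).m - hh n) x).card : ℝ) := by
    intro n x hx
    have q1 := (hF n).own x hx
    have q2 := own_one (I := (F n).I) (i := (F n).m - hh n) (j := (F n).m + (F n).M)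
      (fun y hy z hz a1 a2 => hone n y hy z hz a1 a2) x
    rw [q2] at q1
    exact q1
  have hsub := fun n => exists_sub (I := (F n).I) (i := (F n).m - hh n) (j := mb n)
    (k := (F n).m + (F n).M) (by
      have := hp3 n
      simp only [hmb]; omega) (by
      simp only [hmb]; omega) (hF n).ne (hF n).nup (hfibF n) (F n).f
  choose I1 hI1 hI1ne hI1cell hI1kc hI1lc using hsub
  have hcard : ∀ ε : ℝ, 0 < ε → ∀ᶠ n in (U : Filter ℕ),
      Real.log ((I1 n).card : ℝ) ≤ B.d n ^ (-ε) := by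
    intro ε hε
    filter_upwards [hsm ε hε] with n hn
    refine le_trans (Real.log_le_log (by exact_mod_cast card_pos.2 (hI1ne n))
      (by exact_mod_cast card_le_card (hI1 n))) ((hc n).trans ?_)
    rw [hdp n ε]
    refine Real.rpow_le_rpow_of_exponent_le (by norm_num) ?_
    have h1 : ((F n).M : ℝ) ≤ Mt n := by
      rw [hMtR]
      have : (0 : ℝ) ≤ hp n := Nat.cast_nonneg _
      linarith
    exact mul_le_mul hn h1 (hMpos n).le hε.le
  obtain ⟨I2, Λ, hI2, hI2d, hSq, hfe⟩ := exists_profile (B := B) (I1 := I1)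
    (lev := lev) (Eventually.of_forall hI1ne) hcard hlm hll
    (Eventually.of_forall fun n x hx y hy => by rw [hlev0]; exact hI1cell n x hx y hy)
    (Eventually.of_forall fun n x hx y hy h1 h2 => by
      rw [hlev1] at h2; exact hone n x (hI1 n hx) y (hI1 n hy) h1 h2)
    (fun j n => if j = 0 then kc (lev n 1) (F n).f else lc (lev n 0))
  -- full own counts: `Λ 1 = 0`
  have hL1 : Λ 1 ≤ 0 := by
    refine le_of_forall_pos_le_add fun ε hε => ?_
    set e1 : ℝ := ε / 8 with he1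
    have he0 : 0 < e1 := by positivity
    obtain ⟨n, h2, h3, h4, h5, h6⟩ := ((hfe 1 e1 he0).and ((hSq.fib 0 le_rfl zero_le_one e1 he0).and
      ((hsm e1 he0).and (hSq.ne.and (dpow_small B (c := e1) he0 (ε := 1 / 32) (by norm_num)))))).exists
    obtain ⟨x, hx⟩ := h5
    have hxI := hI2 n hx
    have h2x := h2 x hx
    have h3x := (h3 x hx).2
    simp only [one_ne_zero, if_false] at h2x
    have q1 := hI1lc n x hxI
    rw [← hlev0 n] at q1
    have q3 := (mul_le_mul_of_nonneg_left q1 (dpow_pos B n e1).le).trans (h2x.trans h3x)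
    rw [Rat.cast_zero, hSq.lam0] at q3
    -- lower bound of the full count
    have q4 : B.d n ^ (-(1 - 2 * e1)) ≤ (F n).nu / 2 ^ (lev n 0 - ((F n).m - hh n)) := by
      rw [le_div_iff₀ (by positivity), hdp n (1 - 2 * e1)]
      refine le_trans ?_ (hnul n)
      have e5 : lev n 0 - ((F n).m - hh n) = hh n - hp n := by
        rw [hlev0]
        have := hp3 n
        have := (hF n).h_le
        simp only [hmb]; omega
      rw [e5, ← Real.rpow_natCast, ← Real.rpow_add two_pos]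
      refine Real.rpow_le_rpow_of_exponent_le (by norm_num) ?_
      rw [Nat.cast_sub (hp3 n), hMtR]
      have a1 : (hh n : ℝ) ≤ (F n).M := by exact_mod_cast hhM n
      have a2 : (hp n : ℝ) ≤ hh n := by exact_mod_cast hp3 n
      have a3 : (0 : ℝ) ≤ hp n := Nat.cast_nonneg _
      have a4 := hMpos n
      have a5 : 1 / ((n : ℝ) + 1) * ((F n).M + hh n) ≤ e1 * ((F n).M + (F n).M) :=
        mul_le_mul h4 (by linarith) (by linarith) he0.le
      nlinarith
    have q5 : B.d n ^ e1 * (B.d n ^ e1 * B.d n ^ (-(1 - 2 * e1))) ≤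
        B.d n ^ (-(1 - (0 : ℝ)) + (Λ 1 - 0) - e1) := by
      refine le_trans ?_ q3
      refine mul_le_mul_of_nonneg_left ?_ (dpow_pos B n e1).le
      exact mul_le_mul h6.le q4 (dpow_pos B n _).le (by norm_num)
    rw [← dpow_add, ← dpow_add] at q5
    have q8 : -(1 - (0 : ℝ)) + (Λ 1 - 0) - e1 ≤ e1 + (e1 + -(1 - 2 * e1)) := by
      by_contra hcon
      push Not at hcon
      have := Real.rpow_lt_rpow_of_exponent_gt (B.pos n) (B.lt n) hcon
      linarith
    linarith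
  have hL0 : ∀ v : ℝ, 0 ≤ v → v ≤ 1 → Λ v = 0 := by
    intro v h0 h1
    have a1 := (hSq.lam 0 v le_rfl h0 h1).1
    have a2 := (hSq.lam v 1 h0 h1 le_rfl).1
    rw [hSq.lam0] at a1
    linarith
  have hSq' : Sq B I2 lev Zf :=
    { ne := hSq.ne
      card := hSq.card
      lam0 := rfl
      lam := fun u v _ huv _ => by
        simp only [Zf, sub_zero]
        exact ⟨le_rfl, by linarith⟩
      lev_mono := hSq.lev_mono
      lev_lim := hSq.lev_lim
      cell0 := hSq.cell0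
      one := hSq.one
      fib := fun v h0 h1 ε hε => by
        have z1 : Λ 1 - Λ (v : ℝ) = Zf 1 - Zf (v : ℝ) := by
          rw [hL0 1 zero_le_one le_rfl, hL0 v (by exact_mod_cast h0) (by exact_mod_cast h1)]
          simp [Zf]
        have := hSq.fib v h0 h1 ε hε
        rw [z1] at this
        exact this }
  refine ⟨B, I2, T, fun n => (F n).L, lev, fun n => (F n).D0 * B.d n ^ (g * (u0 : ℝ)),
    fun n => (F n).f, fun n => (F n).b, fun n => (F n).a, fun n => (F n).N, u0, hu0p, hu0h, hu0K,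
    ⟨((F 0).b 0).2⟩, hT, fun n i J s hs => (hF n).fin i J s hs, ?_,
    fun n => mul_pos (hD0 n) (dpow_pos B n _), hSq', ?_, ?_, ?_⟩
  · intro ε hε
    filter_upwards [hsm ε hε] with n hn
    refine (hN n).trans ?_
    rw [hdp n ε]
    refine Real.rpow_le_rpow_of_exponent_le (by norm_num) ?_
    have h1 : ((F n).M : ℝ) ≤ Mt n := by
      rw [hMtR]
      have : (0 : ℝ) ≤ hp n := Nat.cast_nonneg _
      linarith
    exact mul_le_mul hn h1 (hMpos n).le hε.le
  · refine Eventually.of_forall fun n J0 s hs => ?_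
    rw [hlevu] at hs ⊢
    have h1 := (hF n).up J0 s hs
    refine le_trans (by exact_mod_cast card_le_card (filter_subset_filter _
      (alive_mono ((hI2 n).trans (hI1 n)) _ _))) (h1.trans (le_of_eq ?_))
    have e1 : (F n).D0 * B.d n ^ (g * (u0 : ℝ)) * B.d n ^ (-(g * (u0 : ℝ))) = (F n).D0 := by
      rw [mul_assoc, ← dpow_add, add_neg_cancel, Real.rpow_zero, mul_one]
    rw [e1]
    unfold VV
    rw [hlev1]
  · refine { mark := ?_, near := ?_ }
    · refine Eventually.of_forall fun n x hx => ?_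
      rw [hlev1]
      exact (hF n).top _ x.1 (mem_alive.2 ⟨x, hI1 n (hI2 n hx), rfl, rfl⟩)
    · intro ε hε
      set e1 : ℝ := ε / 4 with he1
      have he0 : 0 < e1 := by positivity
      -- `(g - 1/(n+1)) M / Mt → g (1 - u0)`
      have hr1 : Tendsto (fun n => ((F n).M : ℝ) / Mt n) U (𝓝 (1 - (u0 : ℝ))) := by
        rw [tendsto_iff_dist_tendsto_zero]
        refine squeeze_zero (fun n => dist_nonneg) (fun n => ?_) hinv
        have hm := hMtpos n
        rw [Real.dist_eq]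
        have e2 : ((F n).M : ℝ) / Mt n - (1 - u0) = (u0 * Mt n - hp n) / Mt n := by
          have : ((F n).M : ℝ) = Mt n - hp n := by rw [hMtR]; ring
          rw [this]; field_simp; ring
        rw [e2, abs_div, abs_of_pos hm, div_le_div_iff_of_pos_right hm, abs_le]
        constructor <;> linarith [hq1 n, hq2 n]
      have hr2 : Tendsto (fun n : ℕ => (g - 1 / ((n : ℝ) + 1)) * (((F n).M : ℝ) / Mt n)) U
          (𝓝 ((g - 0) * (1 - (u0 : ℝ)))) := (tendsto_const_nhds.sub hsm0).mul hr1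
      have hr3 := hr2.eventually_const_lt (show (g - 0) * (1 - (u0 : ℝ)) - e1 <
        (g - 0) * (1 - (u0 : ℝ)) by linarith)
      filter_upwards [hfe 0 e1 he0, hr3, dpow_small B (c := e1) he0 (ε := 1 / 8) (by norm_num)]
        with n h1 h4 h8 x hx
      have hxI1 := hI2 n hx
      have hxI := hI1 n hxI1
      have h1x := h1 x hx
      simp only [if_true] at h1x
      -- classes
      have hlo1 : ∀ y ∈ (F n).I, (1 : ℝ) ≤ ((((F n).I).filter fun z =>
          lc (lev n 1) z = lc (lev n 1) y).card : ℝ) := by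
        intro y hy
        have : 0 < (((F n).I).filter fun z => lc (lev n 1) z = lc (lev n 1) y).card :=
          card_pos.2 ⟨y, mem_filter.2 ⟨hy, rfl⟩⟩
        exact_mod_cast this
      have hhi1 : ∀ y ∈ I2 n, (((I2 n).filter fun z =>
          lc (lev n 1) z = lc (lev n 1) y).card : ℝ) ≤ 1 := by
        intro y hy
        have : ((I2 n).filter fun z => lc (lev n 1) z = lc (lev n 1) y).card ≤ 1 := by
          rw [card_le_one]
          intro z hz z' hz'
          rw [mem_filter] at hz hz'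
          obtain ⟨a1, a2⟩ := Prod.mk.inj (hz.2.trans hz'.2.symm)
          rw [hlev1] at a2
          exact hone n z (hI1 n (hI2 n hz.1)) z' (hI1 n (hI2 n hz'.1)) a1 a2
        exact_mod_cast this
      have p1 := class_fib_ge (f := (F n).f) hlo1 x
      have p2 := class_fib_le (f := (F n).f) hhi1 x
      rw [one_mul] at p1 p2
      have p3 : (F n).D1 * (T n).vol (lev n 1) (F n).a ≤
          (((alive (F n).I (lev n 1) (zc (lev n 1) x.2)).filter fun s =>
            (F n).f s (zc (lev n 1) x.2) = (F n).f x.1 (zc (lev n 1) x.2)).card : ℝ) := by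
        rw [hlev1]
        exact (hF n).low _ x.1 (mem_alive.2 ⟨x, hxI, rfl, rfl⟩)
      have p10 := hI1kc n x hxI1
      rw [← hlev1 n] at p10
      set NC : ℝ := (((alive (I2 n) (lev n 1) (zc (lev n 1) x.2)).filter fun s =>
        (F n).f s (zc (lev n 1) x.2) = (F n).f x.1 (zc (lev n 1) x.2)).card : ℝ) with hNC
      have hvol := (T n).volpos (lev n 1) (F n).a
      have hDv : 0 < (F n).D1 * (T n).vol (lev n 1) (F n).a := mul_pos (hF n).D1p hvol
      have p4 : B.d n ^ (2 * e1) * ((F n).D1 * (T n).vol (lev n 1) (F n).a) ≤ NC := by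
        refine le_trans ?_ (h1x.trans p2)
        have e2 : B.d n ^ (2 * e1) = B.d n ^ e1 * B.d n ^ e1 := by rw [← dpow_add]; congr 1; ring
        rw [e2, mul_assoc]
        refine mul_le_mul_of_nonneg_left ?_ (dpow_pos B n _).le
        refine le_trans ?_ p10
        refine le_trans (mul_le_mul_of_nonneg_right h8.le hDv.le) ?_
        exact mul_le_mul_of_nonneg_left (p3.trans p1) (by norm_num)
      -- the gap
      have p9 : B.d n ^ (-g) * ((F n).D0 * B.d n ^ (g * (u0 : ℝ))) ≤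
          B.d n ^ (-e1) * (F n).D1 := by
        have q1 := hgap n
        have e2 : (2 : ℝ) ^ ((g - 1 / ((n : ℝ) + 1)) * (F n).M) =
            B.d n ^ (-((g - 1 / ((n : ℝ) + 1)) * (((F n).M : ℝ) / Mt n))) := by
          rw [hdp]
          congr 1
          have := (hMtpos n).ne'
          field_simp
        rw [e2] at q1
        have q2 := mul_le_mul_of_nonneg_left q1 (dpow_pos B n (-e1)).le
        refine le_trans ?_ q2
        have e8 : B.d n ^ (-e1) * (B.d n ^ (-((g - 1 / ((n : ℝ) + 1)) * (((F n).M : ℝ) / Mt n))) *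
            (F n).D0) = B.d n ^ (-e1 + -((g - 1 / ((n : ℝ) + 1)) * (((F n).M : ℝ) / Mt n))) *
            (F n).D0 := by rw [← mul_assoc, ← dpow_add]
        have e9 : B.d n ^ (-g) * ((F n).D0 * B.d n ^ (g * (u0 : ℝ))) =
            B.d n ^ (-g + g * (u0 : ℝ)) * (F n).D0 := by
          rw [mul_comm (F n).D0, ← mul_assoc, ← dpow_add]
        rw [e8, e9]
        refine mul_le_mul_of_nonneg_right (dpow_le B n ?_) (hD0 n).le
        nlinarith
      -- conclusion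
      have e6 : ampA B (fun n => (F n).D0 * B.d n ^ (g * (u0 : ℝ))) (fun v => g * v) n 1 *
          VV T Ψ lev (fun n => (F n).a) n (lev n 1) (F n).a =
          (B.d n ^ (-g) * ((F n).D0 * B.d n ^ (g * (u0 : ℝ)))) * (T n).vol (lev n 1) (F n).a := by
        unfold ampA VV capP
        have e7 : rel (lev n 1) (F n).a (lev n 1) (F n).a = fun _ => (0 : ℝ) := by
          funext j; simp [rel]
        rw [e7, sub_self, hΨ0, neg_zero, Real.rpow_zero, mul_one, Rat.cast_one]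
        simp only [mul_one]
        ring
      rw [e6]
      have q5 := mul_le_mul_of_nonneg_right p9 hvol.le
      refine q5.trans ?_
      have q6 := mul_le_mul_of_nonneg_left p4 (dpow_pos B n (-(3 * e1))).le
      have q7 : B.d n ^ (-(3 * e1)) *
          (B.d n ^ (2 * e1) * ((F n).D1 * (T n).vol (lev n 1) (F n).a)) =
          B.d n ^ (-e1) * (F n).D1 * (T n).vol (lev n 1) (F n).a := by
        rw [← mul_assoc, ← dpow_add, ← mul_assoc]; congr 3; ring
      rw [q7] at q6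
      refine q6.trans ?_
      refine mul_le_mul_of_nonneg_right (dpow_le B n ?_) (Nat.cast_nonneg _)
      rw [he1]; linarith
  · -- room
    intro v hv0 hv1
    rcases hv1.eq_or_lt with rfl | hv1'
    · refine ⟨0, le_rfl, hu0p, ?_, Eventually.of_forall fun n => ?_⟩
      · rw [Rat.cast_zero, Rat.cast_one]; linarith
      · rw [hlev1, hlevu, hlev0]
        have h1 := hp1 n
        have h2 := hmb1 n
        have e1 : (F n).m + (F n).M - (F n).m = (F n).M := by omega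
        have e2 : (F n).m - mb n = hp n := by omega
        rw [e1, e2]
        exact h1
    · refine room_of hK hSq' hu0p.le hv0 hv1 ?_
      rw [hu0K]
      exact_mod_cast hv1'

end Crest.Agent.R136.Yk953
end

-- ▼ part R136/Yk4_953
section

/-!
# R136 U4, pure penalty: chain with room, part 4 (helper953)

`CxK`, `step_finK`, `step_eqK`, `step_upK` (ported from helper794's `R116/Xc7, Xc8`).
-/

set_option autoImplicit false
set_option linter.unusedSectionVars false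

open Finset Filter Topology

namespace Crest.Agent.R136.Yk953

open Crest.Agent.R138.Ex926 Crest.Agent.R138.Dp76 Crest.Agent.R138.Ps627
open Crest.Agent.R138.Ps926
open Crest.Agent.R138.Mk163 (zc zl rho alive own Negl)
open Crest.Agent.R138.MkRef627 (lc kc own_one alive_mono mem_alive card_class own_lower exists_num)
open Crest.Agent.R138.MkZoom779 (zc_nested zc_eq exists_rep)
open Crest.Agent.R136.MkA627 (ampA Geo MkA)
open Crest.Agent.R116.Xa794 (TS)
open Crest.Agent.R116.Xa2794 (lc_nested class_fib_ge class_fib_le)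
open Crest.Agent.R116.Xa3794
open Crest.Agent.R116.Xc794 Crest.Agent.R116.Xc1794
open Crest.Agent.R116.Xc3794 Crest.Agent.R116.Xc4794 Crest.Agent.R116.Xc5794
open Crest.Agent.R116.Xc7794
open Crest.Agent.R116.Xc8794 (exists_rate diag_marks)
open Crest.Agent.R136.Yc953 (RwdF Zf)
open Crest.Agent.R136.KF879 (OkH UBH)

variable {Ln ι S : Type} [Fintype ι]

/-- all hypotheses on a sequence without marks -/
structure CxK (u0 : ℚ) (𝒯 : Set (TS Ln ι S)) (B : Base) (I : ℕ → Finset (ℕ × ℝ))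
    (T : ℕ → TS Ln ι S) (L : ℕ → ℕ → Ln) (lev : ℕ → ℚ → ℕ) (A : ℕ → ℝ) (g : ℝ)
    (Ψ : ℝ → (ι → ℝ) → ℝ) (atop : ℕ → ι → ℕ) (N : ℕ → ℕ) : Prop where
  hT : ∀ n, T n ∈ 𝒯
  fin : ∀ (n i : ℕ) (J : ℤ) (s : (ι → ℕ) × S), (T n).adm i J s → ∀ j, s.1 j ≤ N n
  Nd : ∀ ε : ℝ, 0 < ε → ∀ᶠ n in (U : Filter ℕ), (N n : ℝ) ≤ B.d n ^ (-ε)
  Apos : ∀ n, 0 < A n
  sq : Sq B I lev Zf
  dmx : DmxU u0 B I T L lev A (fun v => g * v) (VV T Ψ lev atop)

section

variable {𝒯 : Set (TS Ln ι S)} {B : Base} {I : ℕ → Finset (ℕ × ℝ)} {lev : ℕ → ℚ → ℕ}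
  {T : ℕ → TS Ln ι S} {L : ℕ → ℕ → Ln} {A : ℕ → ℝ} {g : ℝ}
  {Ψ Ψp : ℝ → (ι → ℝ) → ℝ} {atop : ℕ → ι → ℕ} {N : ℕ → ℕ}

set_option maxHeartbeats 1000000 in
open Classical in
/-- **one step, finite stage.** -/
theorem step_finK [Nonempty S] {K : ℕ} {u0 : ℚ} (hu00 : 0 ≤ u0)
    (h : CxK u0 𝒯 B I T L lev A g Ψ atop N) (hH : HomA Ψ) (hHp : HomA Ψp)
    {bb : ℝ} (hUB : UBH K 𝒯 Ψp bb) {u v : ℚ} (hu0 : u0 ≤ u) (hroom : Room K lev u v)
    (huv : u < v) (hv : v ≤ 1)
    {f : ℕ → ℕ → ℤ → ℕ} {b : ℕ → ℕ → (ι → ℕ) × S} {a : ℕ → ι → ℕ}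
    (hM : Mrk B I T L lev A (fun v => g * v) (VV T Ψ lev atop) v f b a)
    {η : ℝ} (hη : 0 < η) :
    ∀ᶠ n in (U : Filter ℕ), ∃ A' ⊆ I n, ∃ (f' : ℕ → ℤ → ℕ) (b' : ℕ → (ι → ℕ) × S) (a' : ι → ℕ),
      A'.Nonempty ∧ ((I n).card : ℝ) ≤ B.d n ^ (-η) * (A'.card : ℝ) ∧
      (∀ x ∈ A', ∀ y ∈ I n, lc (lev n u) y = lc (lev n u) x → y ∈ A') ∧
      (∀ x ∈ A', (T n).mem (lev n u) (zc (lev n u) x.2) (b' (f' x.1 (zc (lev n u) x.2))) (L n x.1) ∧
        (T n).adm (lev n u) (zc (lev n u) x.2) (b' (f' x.1 (zc (lev n u) x.2))) ∧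
        (b' (f' x.1 (zc (lev n u) x.2))).1 = a') ∧
      Ψ (len B lev n u) (ys B lev atop n u a') ≤
        Ψ (len B lev n v) (ys B lev atop n v (a n)) +
          Ψp (len B lev n u - len B lev n v)
            (fun j => ys B lev atop n u a' j - ys B lev atop n v (a n) j) +
          (bb - g) * ((v : ℝ) - u) + 2 * η ∧
      (∀ x ∈ A', B.d n ^ (η + (bb - g) * ((v : ℝ) - u) +
          Ψ (len B lev n v) (ys B lev atop n v (a n)) +
          Ψp (len B lev n u - len B lev n v)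
            (fun j => ys B lev atop n u a' j - ys B lev atop n v (a n) j) -
          Ψ (len B lev n u) (ys B lev atop n u a')) *
          (ampA B A (fun v => g * v) n u * VV T Ψ lev atop n (lev n u) a') ≤
        (((alive A' (lev n u) (zc (lev n u) x.2)).filter fun s =>
          f' s (zc (lev n u) x.2) = f' x.1 (zc (lev n u) x.2)).card : ℝ)) := by
  have hu : 0 ≤ u := hu00.trans hu0
  set cc : ℝ → ℝ := fun v => g * v with hcc
  set D1 : ℕ → ℝ := fun n => B.d n ^ (η / 2) * ampA B A cc n v *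
    B.d n ^ (Ψ (len B lev n v) (ys B lev atop n v (a n))) with hD1
  have hD1p : ∀ n, 0 < D1 n := fun n =>
    mul_pos (mul_pos (dpow_pos B n _) (ampA_pos h.Apos cc n v)) (dpow_pos B n _)
  set D0 : ℕ → ℝ := fun n => B.d n ^ (η / 2 + bb * ((v : ℝ) - u)) * D1 n with hD0
  have hD0p : ∀ n, 0 < D0 n := fun n => mul_pos (dpow_pos B n _) (hD1p n)
  have hu1 : u ≤ 1 := huv.le.trans hv
  have hv0 : 0 ≤ v := hu.trans huv.le
  obtain ⟨e0, he0, hlow⟩ := low_seqK h.sq 𝒯 Ψp hUB h.hT h.fin h.Nd (u := u) (v := v) hroom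
    huv hv
    (A := I) (fun n => Subset.refl _) (Eventually.of_forall fun n x _ y hy _ => hy) (f := f) (b := b)
    (a := a) hM.mark (D1 := D1) hD1p (by
      filter_upwards [hM.near (η / 2) (by positivity), h.sq.lev_mono v 1 hv0 hv le_rfl]
        with n hn hlv x hx
      have h1 := hn x hx
      rw [VV_eq hH n hlv] at h1
      have h2 := mul_le_mul_of_nonneg_left h1 (dpow_pos B n (η / 2)).le
      rw [← mul_assoc (B.d n ^ (η / 2)) (B.d n ^ (-(η / 2))), ← dpow_add, add_neg_cancel,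
        Real.rpow_zero, one_mul] at h2
      refine le_trans (le_of_eq ?_) h2
      simp only [hD1]; ring) (η := η / 2) (by positivity) (D0 := D0)
    (Eventually.of_forall fun n => le_rfl)
  filter_upwards [hlow, boxN_small h.Nd (Fintype.card ι) (show 0 < η / 2 by positivity),
    dpow_small B (c := η / 2) (by positivity) (ε := 1 / 2) (by norm_num),
    dpow_small B (c := e0) he0 (ε := 1 / 2) (by norm_num), h.sq.ne,
    h.sq.lev_mono u v hu huv.le hv, h.sq.lev_mono v 1 hv0 hv le_rfl,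
    h.sq.lev_mono u 1 hu hu1 le_rfl, h.dmx u hu0 hu1 η hη] with n h1 h2 h3 h4 h5 h6 h7 h8 h9
  have hIc : (0 : ℝ) < ((I n).card : ℝ) := by exact_mod_cast card_pos.2 h5
  obtain ⟨A0, hA0, A1, hA1, f', b', a', e1, e2, e3, e4, e5⟩ := extractC (T n)
    (capP (T n) Ψp (lev n v) (a n) (lev n u)) (fun s => capP_pos _ _ _ _ _ _) (N n) (lev n u)
    (h.fin n (lev n u)) (L n) (I n) (hD0p n)
  -- the remainder is small
  have hrem : ((I n \ A0).card : ℝ) < B.d n ^ e0 * ((I n).card : ℝ) := by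
    by_contra hcon
    push Not at hcon
    obtain ⟨c, s, hs, hlt⟩ := h1 (I n \ A0) sdiff_subset hcon
    have := e5 (I n \ A0) sdiff_subset (fun x hx => (mem_sdiff.1 hx).2) c s hs
    linarith
  have hA0c : ((I n).card : ℝ) ≤ 2 * (A0.card : ℝ) := by
    have h10 : ((I n \ A0).card : ℝ) = (I n).card - A0.card := by
      rw [card_sdiff_of_subset hA0, Nat.cast_sub (card_le_card hA0)]
    rw [h10] at hrem
    nlinarith
  have h2p : (2 : ℝ) ≤ B.d n ^ (-(η / 2)) := by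
    rw [Real.rpow_neg (B.pos n).le, ← one_div, le_div_iff₀ (dpow_pos B n _)]
    linarith
  have hA1c : ((I n).card : ℝ) ≤ B.d n ^ (-η) * (A1.card : ℝ) := by
    have h10 : (A0.card : ℝ) ≤ B.d n ^ (-(η / 2)) * A1.card :=
      e1.trans (mul_le_mul_of_nonneg_right h2 (Nat.cast_nonneg _))
    have h11 : B.d n ^ (-η) = B.d n ^ (-(η / 2)) * B.d n ^ (-(η / 2)) := by
      rw [← dpow_add]; congr 1; ring
    rw [h11, mul_assoc]
    refine hA0c.trans ?_
    exact mul_le_mul h2p h10 (Nat.cast_nonneg _) (dpow_pos B n _).le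
  have hA1ne : A1.Nonempty := by
    rw [← card_pos]
    by_contra hz
    have hz' : A1.card = 0 := by omega
    rw [hz', Nat.cast_zero, mul_zero] at hA1c
    linarith
  -- thresholds in powers of `d`
  set Yv : ℝ := Ψ (len B lev n v) (ys B lev atop n v (a n)) with hYv
  set Yd : ℝ := Ψp (len B lev n u - len B lev n v)
    (fun j => ys B lev atop n u a' j - ys B lev atop n v (a n) j) with hYd
  set Yu : ℝ := Ψ (len B lev n u) (ys B lev atop n u a') with hYu
  have hvol := (T n).volpos (lev n u) a'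
  have hampu := ampA_pos h.Apos cc n u (B := B)
  have key : D0 n * capP (T n) Ψp (lev n v) (a n) (lev n u) a' =
      B.d n ^ (η + (bb - g) * ((v : ℝ) - u) + Yv + Yd) *
        (ampA B A cc n u * (T n).vol (lev n u) a') := by
    unfold capP
    rw [two_neg B n, ← hom_len2 (atop := atop) hHp n h6 (a n) a', ← hYd]
    simp only [hD0, hD1, ampA, hcc]
    have e6 : B.d n ^ (η + (bb - g) * ((v : ℝ) - u) + Yv + Yd) *
        (A n * B.d n ^ (-(g * (u : ℝ))) * (T n).vol (lev n u) a') =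
        (B.d n ^ (η + (bb - g) * ((v : ℝ) - u) + Yv + Yd) * B.d n ^ (-(g * (u : ℝ)))) *
        (A n * (T n).vol (lev n u) a') := by ring
    have e7 : B.d n ^ (η / 2 + bb * ((v : ℝ) - u)) *
        (B.d n ^ (η / 2) * (A n * B.d n ^ (-(g * (v : ℝ)))) * B.d n ^ Yv) *
        ((T n).vol (lev n u) a' * B.d n ^ Yd) =
        (B.d n ^ (η / 2 + bb * ((v : ℝ) - u)) * B.d n ^ (η / 2) *
          B.d n ^ (-(g * (v : ℝ))) * B.d n ^ Yv * B.d n ^ Yd) *
          (A n * (T n).vol (lev n u) a') := by ring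
    rw [e6, e7, ← dpow_add, ← dpow_add, ← dpow_add, ← dpow_add, ← dpow_add]
    congr 2
    ring
  have hVV : VV T Ψ lev atop n (lev n u) a' = (T n).vol (lev n u) a' * B.d n ^ Yu :=
    VV_eq hH n h8 a'
  refine ⟨A1, hA1.trans hA0, f', b', a', hA1ne, hA1c, e2, e3, ?_, ?_⟩
  · -- the inequality
    obtain ⟨x, hx⟩ := hA1ne
    have h10 := e4 x hx
    rw [key] at h10
    obtain ⟨m1, m2, m3⟩ := e3 x hx
    have h11 := h9 (zc (lev n u) x.2) (b' (f' x.1 (zc (lev n u) x.2))) m2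
    rw [m3, hVV] at h11
    have hsub : ((alive A1 (lev n u) (zc (lev n u) x.2)).filter fun s =>
        f' s (zc (lev n u) x.2) = f' x.1 (zc (lev n u) x.2)) ⊆
        (alive (I n) (lev n u) (zc (lev n u) x.2)).filter fun t =>
          (T n).mem (lev n u) (zc (lev n u) x.2) (b' (f' x.1 (zc (lev n u) x.2))) (L n t) := by
      intro t ht
      rw [mem_filter, mem_alive] at ht
      obtain ⟨⟨y, hy, hy1, hy2⟩, ht2⟩ := ht
      have hym := (e3 y hy).1
      rw [hy1, hy2, ht2] at hym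
      rw [mem_filter, mem_alive]
      exact ⟨⟨y, hA0 (hA1 hy), hy1, hy2⟩, hym⟩
    have h12 : (((alive A1 (lev n u) (zc (lev n u) x.2)).filter fun s =>
        f' s (zc (lev n u) x.2) = f' x.1 (zc (lev n u) x.2)).card : ℝ) ≤
        (((alive (I n) (lev n u) (zc (lev n u) x.2)).filter fun t =>
          (T n).mem (lev n u) (zc (lev n u) x.2) (b' (f' x.1 (zc (lev n u) x.2))) (L n t)).card
            : ℝ) := by exact_mod_cast card_le_card hsub
    have h13 := h10.trans (h12.trans h11)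
    have h14 : B.d n ^ (-η) * ampA B A cc n u * ((T n).vol (lev n u) a' * B.d n ^ Yu) =
        B.d n ^ (-η + Yu) * (ampA B A cc n u * (T n).vol (lev n u) a') := by
      rw [dpow_add]; ring
    rw [h14] at h13
    have hpos : 0 < ampA B A cc n u * (T n).vol (lev n u) a' := mul_pos hampu hvol
    have h15 := le_of_mul_le_mul_right h13 hpos
    have h16 : -η + Yu ≤ η + (bb - g) * ((v : ℝ) - u) + Yv + Yd := by
      by_contra hcon
      push Not at hcon
      have := Real.rpow_lt_rpow_of_exponent_gt (B.pos n) (B.lt n) hcon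
      linarith
    linarith
  · intro x hx
    have h10 := e4 x hx
    rw [key] at h10
    refine le_trans (le_of_eq ?_) h10
    rw [hVV]
    have h17 : B.d n ^ (η + (bb - g) * ((v : ℝ) - u) + Yv + Yd - Yu) *
        (ampA B A cc n u * ((T n).vol (lev n u) a' * B.d n ^ Yu)) =
        (B.d n ^ (η + (bb - g) * ((v : ℝ) - u) + Yv + Yd - Yu) * B.d n ^ Yu) *
        (ampA B A cc n u * (T n).vol (lev n u) a') := by ring
    rw [h17, ← dpow_add]
    congr 2
    ring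

open Classical in
/-- **equality step.** -/
theorem step_eqK [Nonempty S] {K : ℕ} {u0 : ℚ} (hu00 : 0 ≤ u0)
    (h : CxK u0 𝒯 B I T L lev A g Ψ atop N) (hH : HomA Ψ) (hS : SupA Ψ)
    (hUB : UBH K 𝒯 Ψ g) {u v : ℚ} (hu0 : u0 ≤ u) (hroom : Room K lev u v)
    (huv : u < v) (hv : v ≤ 1)
    {f : ℕ → ℕ → ℤ → ℕ} {b : ℕ → ℕ → (ι → ℕ) × S} {a : ℕ → ι → ℕ}
    (hM : Mrk B I T L lev A (fun v => g * v) (VV T Ψ lev atop) v f b a) :
    ∃ (A' : ℕ → Finset (ℕ × ℝ)) (f' : ℕ → ℕ → ℤ → ℕ) (b' : ℕ → ℕ → (ι → ℕ) × S)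
      (a' : ℕ → ι → ℕ), (∀ n, A' n ⊆ I n) ∧ Dense B A' I ∧
      (∀ᶠ n in (U : Filter ℕ), ∀ x ∈ A' n, ∀ y ∈ I n,
        lc (lev n u) y = lc (lev n u) x → y ∈ A' n) ∧
      Mrk B A' T L lev A (fun v => g * v) (VV T Ψ lev atop) u f' b' a' ∧
      ∀ e : ℝ, 0 < e → ∀ᶠ n in (U : Filter ℕ),
        Ψ (len B lev n u) (ys B lev atop n u (a' n)) ≤
          Ψ (len B lev n v) (ys B lev atop n v (a n)) +
          Ψ (len B lev n u - len B lev n v)
            (fun j => ys B lev atop n u (a' n) j - ys B lev atop n v (a n) j) + e := by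
  refine diag_marks (fun n i s => VV_pos n i s) h.Apos (fun e n a' =>
    Ψ (len B lev n u) (ys B lev atop n u a') ≤
          Ψ (len B lev n v) (ys B lev atop n v (a n)) +
          Ψ (len B lev n u - len B lev n v)
            (fun j => ys B lev atop n u a' j - ys B lev atop n v (a n) j) + e)
    (fun e e' n a he hr => by linarith) ?_
  intro e he
  have hu : 0 ≤ u := hu00.trans hu0
  filter_upwards [step_finK hu00 h hH hH hUB hu0 hroom huv hv hM (η := e / 2) (by positivity),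
    h.sq.lev_mono u v hu huv.le hv, h.sq.lev_mono v 1 (hu.trans huv.le) hv le_rfl]
    with n hn h1 h2
  obtain ⟨A', hA', f', b', a', -, e1, e2, e3, e4, e5⟩ := hn
  refine ⟨A', hA', f', b', a', ?_, e2, e3, by linarith, ?_⟩
  · refine e1.trans (mul_le_mul_of_nonneg_right ?_ (Nat.cast_nonneg _))
    exact dpow_le B n (by linarith)
  · intro x hx
    refine le_trans ?_ (e5 x hx)
    refine mul_le_mul_of_nonneg_right (dpow_le B n ?_)
      (mul_pos (ampA_pos h.Apos _ n u) (VV_pos _ _ _)).le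
    have h1' : (0 : ℝ) ≤ (lev n v : ℝ) - lev n u := by
      have : (lev n u : ℝ) ≤ lev n v := by exact_mod_cast h1
      linarith
    have h2' : (0 : ℝ) ≤ (lev n 1 : ℝ) - lev n v := by
      have : (lev n v : ℝ) ≤ lev n 1 := by exact_mod_cast h2
      linarith
    have h3 : 0 ≤ len B lev n v := mul_nonneg (cn_pos B n).le h2'
    have h4 : 0 ≤ len B lev n u - len B lev n v := by
      have : len B lev n u - len B lev n v = cn B n * ((lev n v : ℝ) - lev n u) := by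
        unfold len; ring
      rw [this]
      exact mul_nonneg (cn_pos B n).le h1'
    have h5 := hS _ _ (ys B lev atop n v (a n))
      (fun j => ys B lev atop n u a' j - ys B lev atop n v (a n) j) h3 h4
    have h6 : len B lev n v + (len B lev n u - len B lev n v) = len B lev n u := by ring
    have h7 : (fun j => ys B lev atop n v (a n) j + (ys B lev atop n u a' j -
        ys B lev atop n v (a n) j)) = ys B lev atop n u a' := by
      funext j; ring
    rw [h6, h7] at h5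
    linarith

open Classical in
/-- **UP step.** -/
theorem step_upK [Nonempty S] {K : ℕ} {u0 : ℚ} (hu00 : 0 ≤ u0) {P : ℝ → ℝ → (ι → ℝ) → ℝ} {ψ : ℝ → (ι → ℝ) → ℝ} {q0 Qm κ δ0 q : ℝ}
    (hP : RwdF P ψ q0 Qm) (hch : ChsK K 𝒯 P q0 Qm κ δ0 q g)
    (h : CxK u0 𝒯 B I T L lev A g (P q) atop N) {u : ℚ} (hu0 : u0 ≤ u) (hroom : Room K lev u 1)
    (hu1 : u < 1)
    {f : ℕ → ℕ → ℤ → ℕ} {b : ℕ → ℕ → (ι → ℕ) × S}
    (hM : Mrk B I T L lev A (fun v => g * v) (VV T (P q) lev atop) 1 f b atop) :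
    ∃ (A' : ℕ → Finset (ℕ × ℝ)) (f' : ℕ → ℕ → ℤ → ℕ) (b' : ℕ → ℕ → (ι → ℕ) × S)
      (a' : ℕ → ι → ℕ), (∀ n, A' n ⊆ I n) ∧ Dense B A' I ∧
      (∀ᶠ n in (U : Filter ℕ), ∀ x ∈ A' n, ∀ y ∈ I n,
        lc (lev n u) y = lc (lev n u) x → y ∈ A' n) ∧
      Mrk B A' T L lev A (fun v => g * v) (VV T (P q) lev atop) u f' b' a' ∧
      ∀ e : ℝ, 0 < e → ∀ᶠ n in (U : Filter ℕ),
        κ * (1 - (u : ℝ)) - e ≤ ψ (len B lev n u) (ys B lev atop n u (a' n)) := by
  have hq0 : 0 ≤ q := hP.q0pos.le.trans hch.qlo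
  have hu : 0 ≤ u := hu00.trans hu0
  refine diag_marks (fun n i s => VV_pos n i s) h.Apos (fun e n a' =>
    κ * (1 - (u : ℝ)) - e ≤ ψ (len B lev n u) (ys B lev atop n u a'))
    (fun e e' n a he hr => by linarith) ?_
  intro e he
  set δ : ℝ := min δ0 (e / 4) with hδ
  have hδp : 0 < δ := lt_min hch.δ0pos (by positivity)
  have hδ0 : δ ≤ δ0 := min_le_left _ _
  have hδe : δ ≤ e / 4 := min_le_right _ _
  set η : ℝ := min (e / 4) (e * δ / 2) with hη
  have hηp : 0 < η := lt_min (by positivity) (by positivity)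
  have hη1 : η ≤ e / 4 := min_le_left _ _
  have hη2 : η ≤ e * δ / 2 := min_le_right _ _
  have hHq : HomA (P q) := fun c l x hc hl => hP.hom q c l x hq0 hc hl
  have hHp : HomA (P (q + δ)) := fun c l x hc hl => hP.hom (q + δ) c l x (by linarith) hc hl
  have hlen := (len_lim h.sq hu hu1.le).eventually_lt_const
    (show (1 : ℝ) - u < 2 by
      have : (0 : ℝ) ≤ u := by exact_mod_cast hu
      linarith)
  filter_upwards [step_finK hu00 h hHq hHp (hch.drop δ hδp hδ0) hu0 hroom hu1 le_rfl hM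
    (η := η) hηp,
    h.sq.lev_mono u 1 hu hu1.le le_rfl, hlen] with n hn h1 h2
  obtain ⟨A', hA', f', b', a', -, e1, e2, e3, e4, e5⟩ := hn
  -- simplify the top marks
  have l0 : len B lev n 1 = 0 := by unfold len; ring
  have y0 : ys B lev atop n 1 (atop n) = fun _ => (0 : ℝ) := by
    funext j; simp [ys, rel]
  have hz : P q (len B lev n 1) (ys B lev atop n 1 (atop n)) = 0 := by
    rw [l0, y0]; exact hP.zero q
  have hd : P (q + δ) (len B lev n u - len B lev n 1)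
      (fun j => ys B lev atop n u a' j - ys B lev atop n 1 (atop n) j) =
      P q (len B lev n u) (ys B lev atop n u a') +
        δ * ψ (len B lev n u) (ys B lev atop n u a') := by
    rw [l0, y0, sub_zero]
    have e6 : (fun j => ys B lev atop n u a' j - (0 : ℝ)) = ys B lev atop n u a' := by
      funext j; ring
    rw [e6, hP.aff (q + δ), hP.aff q]; ring
  have h1' : (0 : ℝ) ≤ (lev n 1 : ℝ) - lev n u := by
    have : (lev n u : ℝ) ≤ lev n 1 := by exact_mod_cast h1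
    linarith
  have hl0 : 0 ≤ len B lev n u := mul_nonneg (cn_pos B n).le h1'
  have hψ := hP.le (len B lev n u) (ys B lev atop n u a') hl0
  rw [hz, hd, Rat.cast_one] at e4
  have hκ := hch.κpos
  have hu' : (0 : ℝ) < 1 - u := by
    have : (u : ℝ) < 1 := by exact_mod_cast hu1
    linarith
  refine ⟨A', hA', f', b', a', ?_, e2, e3, ?_, ?_⟩
  · refine e1.trans (mul_le_mul_of_nonneg_right ?_ (Nat.cast_nonneg _))
    exact dpow_le B n (by linarith)
  · have h6 : δ * (κ * (1 - (u : ℝ)) - e) ≤ δ * ψ (len B lev n u) (ys B lev atop n u a') := by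
      nlinarith
    exact le_of_mul_le_mul_left h6 hδp
  · intro x hx
    refine le_trans ?_ (e5 x hx)
    refine mul_le_mul_of_nonneg_right (dpow_le B n ?_)
      (mul_pos (ampA_pos h.Apos _ n u) (VV_pos _ _ _)).le
    rw [hz, hd, Rat.cast_one]
    have h7 : δ * ψ (len B lev n u) (ys B lev atop n u a') ≤ δ * 2 :=
      mul_le_mul_of_nonneg_left (hψ.trans h2.le) hδp.le
    have h8 : 0 < κ * δ * (1 - (u : ℝ)) := by positivity
    nlinarith

end

end Crest.Agent.R136.Yk953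
end

-- ▼ part R136/Yk5_953
section

/-!
# R136 U4, pure penalty: chain with room, part 5 (helper953)

`add_markK`, `first_markK`, `meshK`, `final_diagK`, `rebaseK` and
**`xoutK`** : `2 ≤ K → RwdF P ψ q0 Qm → ChsK K 𝒯 P q0 Qm κ δ0 q g → ∃ θ, XOutF 𝒯 (P q) ψ κ g θ`
(ported from helper794's `R116/Xc9, XcD, XcF`).
-/

set_option autoImplicit false
set_option linter.unusedSectionVars false

open Finset Filter Topology

namespace Crest.Agent.R136.Yk953

open Crest.Agent.R138.Ex926 Crest.Agent.R138.Dp76 Crest.Agent.R138.Ps627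
open Crest.Agent.R138.Ps926
open Crest.Agent.R138.Mk163 (zc zl rho alive own Negl)
open Crest.Agent.R138.MkRef627 (lc kc own_one alive_mono mem_alive card_class own_lower exists_num)
open Crest.Agent.R138.MkZoom779 (zc_nested zc_eq exists_rep)
open Crest.Agent.R136.MkA627 (ampA Geo MkA)
open Crest.Agent.R116.Xa794 (TS)
open Crest.Agent.R116.Xa2794 (lc_nested class_fib_ge class_fib_le)
open Crest.Agent.R116.Xa3794
open Crest.Agent.R116.Xc794 Crest.Agent.R116.Xc1794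
open Crest.Agent.R116.Xc3794 Crest.Agent.R116.Xc4794 Crest.Agent.R116.Xc5794
open Crest.Agent.R116.Xc7794
open Crest.Agent.R116.Xc9794 (refineF exists_vlim)
open Crest.Agent.R136.Yc953 (RwdF Zf XOutF eq_limF cZ Zf_eq)
open Crest.Agent.R136.KF879 (OkH UBH)

variable {Ln ι S : Type} [Fintype ι]

section

variable {𝒯 : Set (TS Ln ι S)} {B : Base} {I : ℕ → Finset (ℕ × ℝ)} {lev : ℕ → ℚ → ℕ}
  {T : ℕ → TS Ln ι S} {L : ℕ → ℕ → Ln} {A : ℕ → ℝ} {g : ℝ} {c : ℝ → ℝ} {u0 : ℚ}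
  {V : ℕ → ℕ → (ι → ℕ) → ℝ}
  {Ψ Ψp : ℝ → (ι → ℝ) → ℝ} {atop : ℕ → ι → ℕ} {N : ℕ → ℕ}

/-- one more marked level -/
theorem add_markK (h : CxK u0 𝒯 B I T L lev A g Ψ atop N) {W : Finset ℚ}
    (hW : ∀ v ∈ W, 0 ≤ v ∧ v ≤ 1) {f : ℚ → ℕ → ℕ → ℤ → ℕ} {b : ℚ → ℕ → ℕ → (ι → ℕ) × S}
    {a : ℚ → ℕ → ι → ℕ}
    (hM : ∀ v ∈ W, Mrk B I T L lev A (fun v => g * v) (VV T Ψ lev atop) v (f v) (b v) (a v))
    {u : ℚ} (hu0 : 0 ≤ u) (hu1 : u ≤ 1) {A' : ℕ → Finset (ℕ × ℝ)} {f' : ℕ → ℕ → ℤ → ℕ}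
    {b' : ℕ → ℕ → (ι → ℕ) × S} {a' : ℕ → ι → ℕ} (hA' : ∀ n, A' n ⊆ I n) (hd : Dense B A' I)
    (hcl : ∀ᶠ n in (U : Filter ℕ), ∀ x ∈ A' n, ∀ y ∈ I n,
      lc (lev n u) y = lc (lev n u) x → y ∈ A' n)
    (hM' : Mrk B A' T L lev A (fun v => g * v) (VV T Ψ lev atop) u f' b' a') :
    ∃ J : ℕ → Finset (ℕ × ℝ), (∀ n, J n ⊆ I n) ∧ Dense B J I ∧
      CxK u0 𝒯 B J T L lev A g Ψ atop N ∧
      ∀ v ∈ insert u W, Mrk B J T L lev A (fun v => g * v) (VV T Ψ lev atop) v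
        (Function.update f u f' v) (Function.update b u b' v) (Function.update a u a' v) := by
  classical
  obtain ⟨J', h1, h2, h3, h4, h5⟩ := refineF (c := fun v => g * v)
    (V := VV T Ψ lev atop) (T := T) (L := L) (A := A) h.sq hd (insert u W) (by
      intro v hv
      rcases mem_insert.1 hv with rfl | hv
      · exact ⟨hu0, hu1⟩
      · exact hW v hv) (mem_insert_self u W) (Function.update (fun _ => I) u A') (by
      intro v _ n
      by_cases hvu : v = u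
      · subst hvu; rw [Function.update_self]; exact hA' n
      · rw [Function.update_of_ne hvu]) (by
      intro v _
      by_cases hvu : v = u
      · subst hvu
        exact Eventually.of_forall fun n => by rw [Function.update_self]
      · exact Eventually.of_forall fun n => by rw [Function.update_of_ne hvu]; exact hA' n) (by
      intro v _
      by_cases hvu : v = u
      · subst hvu
        rw [Function.update_self]
        exact hcl
      · rw [Function.update_of_ne hvu]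
        exact Eventually.of_forall fun n x _ y hy _ => hy)
    (Function.update f u f') (Function.update b u b') (Function.update a u a') (by
      intro v hv
      by_cases hvu : v = u
      · subst hvu
        simp only [Function.update_self]
        exact hM'
      · simp only [Function.update_of_ne hvu]
        exact hM v ((mem_insert.1 hv).resolve_left hvu))
  exact ⟨J', h2, h3, ⟨h.hT, h.fin, h.Nd, h.Apos, h4, h.dmx.mono h2⟩, h5⟩

/-- the first marked level: linear direction `θ` -/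
theorem first_markK [Nonempty S] {K : ℕ} (hK : 2 ≤ K) (hu00 : 0 ≤ u0)
    (hKu : ((K : ℝ) + 1) * u0 = 1)
    {P : ℝ → ℝ → (ι → ℝ) → ℝ} {ψ : ℝ → (ι → ℝ) → ℝ} {q0 Qm κ δ0 q : ℝ}
    (hP : RwdF P ψ q0 Qm) (hch : ChsK K 𝒯 P q0 Qm κ δ0 q g)
    (h : CxK u0 𝒯 B I T L lev A g (P q) atop N) {v0 : ℚ} (huv0 : u0 < v0) (hv1 : v0 < 1)
    {f : ℕ → ℕ → ℤ → ℕ} {b : ℕ → ℕ → (ι → ℕ) × S}
    (hM : Mrk B I T L lev A (fun v => g * v) (VV T (P q) lev atop) 1 f b atop) :
    ∃ (J : ℕ → Finset (ℕ × ℝ)) (f : ℚ → ℕ → ℕ → ℤ → ℕ) (b : ℚ → ℕ → ℕ → (ι → ℕ) × S)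
      (a : ℚ → ℕ → ι → ℕ) (θ : ι → ℝ), (∀ n, J n ⊆ I n) ∧ Dense B J I ∧
      CxK u0 𝒯 B J T L lev A g (P q) atop N ∧ a 1 = atop ∧ κ ≤ ψ 1 θ ∧
      ∀ v ∈ (insert 1 (insert v0 ∅) : Finset ℚ),
        Mrk B J T L lev A (fun v => g * v) (VV T (P q) lev atop) v (f v) (b v) (a v) ∧
        ∀ j, Tendsto (fun n => ys B lev atop n v (a v n) j) U (𝓝 (θ j * (1 - (v : ℝ)))) := by
  classical
  have hv0 : 0 < v0 := hu00.trans_lt huv0
  have hv1R : (v0 : ℝ) < 1 := by exact_mod_cast hv1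
  have hv0R : (0 : ℝ) < v0 := by exact_mod_cast hv0
  have hκ := hch.κpos
  have hpos : 0 < κ * (1 - (v0 : ℝ)) := mul_pos hκ (by linarith)
  have hroom : Room K lev v0 1 := by
    refine room_of hK h.sq hv0.le hv1 le_rfl ?_
    have huvR : (u0 : ℝ) < v0 := by exact_mod_cast huv0
    have hKp : (0 : ℝ) < (K : ℝ) + 1 := by positivity
    have := mul_lt_mul_of_pos_left huvR hKp
    rw [Rat.cast_one]
    linarith
  obtain ⟨A', f', b', a', h1, h2, h3, h4, h5⟩ := step_upK hu00 hP hch h huv0.le hroom hv1 hM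
  -- boundedness
  obtain ⟨R, hR, hR2⟩ := hP.coe (κ / 2) (by linarith)
  have hlen := len_lim h.sq hv0.le hv1.le
  have hbd : ∀ᶠ n in (U : Filter ℕ), ∀ j, |ys B lev atop n v0 (a' n) j| ≤ R * 2 := by
    filter_upwards [h5 (κ * (1 - (v0 : ℝ)) / 4) (by positivity),
      hlen.eventually_lt_const (show 1 - (v0 : ℝ) < (1 - (v0 : ℝ)) * (3 / 2) by linarith),
      hlen.eventually_const_lt (show 0 < 1 - (v0 : ℝ) by linarith)] with n e1 e2 e3 j
    have e4 := hR2 (len B lev n v0) (ys B lev atop n v0 (a' n)) e3.le (by nlinarith) j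
    refine e4.trans (mul_le_mul_of_nonneg_left ?_ hR.le)
    linarith
  obtain ⟨x0, hx0⟩ := exists_vlim hbd
  set θ : ι → ℝ := fun j => x0 j / (1 - (v0 : ℝ)) with hθ
  have hlim : Tendsto (fun n => ψ (len B lev n v0) (ys B lev atop n v0 (a' n))) U
      (𝓝 (ψ (1 - (v0 : ℝ)) x0)) :=
    (hP.contψ.tendsto ((1 - (v0 : ℝ), x0) : ℝ × (ι → ℝ))).comp (hlen.prodMk_nhds hx0)
  have hge : κ * (1 - (v0 : ℝ)) ≤ ψ (1 - (v0 : ℝ)) x0 := by
    refine le_of_forall_pos_le_add fun e he => ?_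
    have h6 := ge_of_tendsto hlim (h5 e he)
    linarith
  have hθψ : κ ≤ ψ 1 θ := by
    have h6 := hP.homψ (1 / (1 - (v0 : ℝ))) (1 - (v0 : ℝ)) x0
      (one_div_nonneg.2 (by linarith)) (by linarith)
    have h7 : 1 / (1 - (v0 : ℝ)) * (1 - (v0 : ℝ)) = 1 :=
      one_div_mul_cancel (by linarith)
    have h8 : (fun j => 1 / (1 - (v0 : ℝ)) * x0 j) = θ := by
      funext j
      simp only [hθ]; ring
    rw [h7, h8] at h6
    rw [h6]
    rw [one_div, ← div_eq_inv_mul, le_div_iff₀ (by linarith)]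
    exact hge
  obtain ⟨J, g1, g2, g3, g4⟩ := add_markK h (W := {1}) (f := fun _ => f) (b := fun _ => b)
    (a := fun _ => atop) (by
      intro v hv
      rw [mem_singleton] at hv
      subst hv
      exact ⟨zero_le_one, le_rfl⟩) (by
      intro v hv
      rw [mem_singleton] at hv
      subst hv
      exact hM) hv0.le hv1.le h1 h2 h3 h4
  refine ⟨J, Function.update (fun _ => f) v0 f', Function.update (fun _ => b) v0 b',
    Function.update (fun _ => atop) v0 a', θ, g1, g2, g3, ?_, hθψ, ?_⟩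
  · exact Function.update_of_ne hv1.ne' _ _
  · intro v hv
    refine ⟨g4 v ?_, ?_⟩
    · rw [mem_insert, mem_insert] at hv
      rw [mem_insert, mem_singleton]
      rcases hv with hv | hv | hv
      · exact Or.inr hv
      · exact Or.inl hv
      · exact absurd hv (notMem_empty v)
    · intro j
      rw [mem_insert, mem_insert] at hv
      rcases hv with rfl | rfl | hv
      · rw [Function.update_of_ne hv1.ne']
        have e1 : θ j * (1 - ((1 : ℚ) : ℝ)) = 0 := by rw [Rat.cast_one]; ring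
        rw [e1]
        refine tendsto_const_nhds.congr fun n => ?_
        simp [ys, rel]
      · rw [Function.update_self]
        have e1 : θ j * (1 - (v : ℝ)) = x0 j := by
          simp only [hθ]
          have : (1 - (v : ℝ)) ≠ 0 := by linarith
          field_simp
        rw [e1]
        exact (tendsto_pi_nhds.1 hx0) j
      · exact absurd hv (notMem_empty v)

/-- **the finite mesh.** -/
theorem meshK [Nonempty S] {K : ℕ} (hK : 2 ≤ K) (hu00 : 0 ≤ u0)
    (hKu : ((K : ℝ) + 1) * u0 = 1)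
    {P : ℝ → ℝ → (ι → ℝ) → ℝ} {ψ : ℝ → (ι → ℝ) → ℝ} {q0 Qm κ δ0 q : ℝ}
    (hP : RwdF P ψ q0 Qm) (hch : ChsK K 𝒯 P q0 Qm κ δ0 q g)
    (h : CxK u0 𝒯 B I T L lev A g (P q) atop N) {v0 : ℚ} (huv0 : u0 < v0) (hv1 : v0 < 1)
    {f : ℕ → ℕ → ℤ → ℕ} {b : ℕ → ℕ → (ι → ℕ) × S}
    (hM : Mrk B I T L lev A (fun v => g * v) (VV T (P q) lev atop) 1 f b atop)
    (W : Finset ℚ) (hW : ∀ u ∈ W, u0 < u ∧ u < v0) :
    ∃ (J : ℕ → Finset (ℕ × ℝ)) (f : ℚ → ℕ → ℕ → ℤ → ℕ) (b : ℚ → ℕ → ℕ → (ι → ℕ) × S)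
      (a : ℚ → ℕ → ι → ℕ) (θ : ι → ℝ), (∀ n, J n ⊆ I n) ∧ Dense B J I ∧
      CxK u0 𝒯 B J T L lev A g (P q) atop N ∧ a 1 = atop ∧ κ ≤ ψ 1 θ ∧
      ∀ v ∈ insert 1 (insert v0 W),
        Mrk B J T L lev A (fun v => g * v) (VV T (P q) lev atop) v (f v) (b v) (a v) ∧
        ∀ j, Tendsto (fun n => ys B lev atop n v (a v n) j) U (𝓝 (θ j * (1 - (v : ℝ)))) := by
  classical
  have hv0 : 0 < v0 := hu00.trans_lt huv0
  have hq0 : 0 ≤ q := hP.q0pos.le.trans hch.qlo
  have hq8 : q ≤ Qm := by linarith [hch.qhi, hch.δ0pos]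
  have hHq : HomA (P q) := fun c l x hc hl => hP.hom q c l x hq0 hc hl
  have hSq : SupA (P q) := fun l l' x x' hl hl' => hP.sup q l l' x x' hq0 hl hl'
  induction W using Finset.induction_on with
  | empty => exact first_markK hK hu00 hKu hP hch h huv0 hv1 hM
  | @insert u W huW ih =>
    obtain ⟨J, f, b, a, θ, h1, h2, h3, h4, h5, h6⟩ := ih
      (fun w hw => hW w (mem_insert_of_mem hw))
    obtain ⟨hu0u, huv⟩ := hW u (mem_insert_self u W)
    have hu0 : 0 ≤ u := hu00.trans hu0u.le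
    have hu1 : u < 1 := huv.trans hv1
    have hroom : Room K lev u v0 := by
      refine room_of hK h3.sq hu0 huv hv1.le ?_
      have huvR : (u0 : ℝ) < u := by exact_mod_cast hu0u
      have hv1R : (v0 : ℝ) < 1 := by exact_mod_cast hv1
      have hKp : (0 : ℝ) < (K : ℝ) + 1 := by positivity
      have := mul_lt_mul_of_pos_left huvR hKp
      linarith
    obtain ⟨hM0, hy0⟩ := h6 v0 (mem_insert_of_mem (mem_insert_self _ _))
    obtain ⟨A', f', b', a', e1, e2, e3, e4, e5⟩ := step_eqK hu00 h3 hHq hSq hch.ub hu0u.le hroom huv hv1.le hM0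
    have hy' := fun j => eq_limF hP hch.qlo hq8 h3.sq hu0 huv hv1 hy0 e5 j
    obtain ⟨J', g1, g2, g3, g4⟩ := add_markK h3 (W := insert 1 (insert v0 W)) (by
      intro v hv
      rw [mem_insert, mem_insert] at hv
      rcases hv with rfl | rfl | hv
      · exact ⟨zero_le_one, le_rfl⟩
      · exact ⟨hv0.le, hv1.le⟩
      · have := hW v (mem_insert_of_mem hv)
        exact ⟨hu00.trans this.1.le, (this.2.trans hv1).le⟩) (fun v hv => (h6 v hv).1) hu0 hu1.le e1 e2 e3 e4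
    refine ⟨J', _, _, _, θ, fun n => (g1 n).trans (h1 n), g2.trans h2, g3, ?_, h5,
      fun v hv => ⟨g4 v ?_, ?_⟩⟩
    · rw [Function.update_of_ne hu1.ne']
      exact h4
    · simp only [mem_insert] at hv ⊢
      tauto
    · intro j
      by_cases hvu : v = u
      · subst hvu
        rw [Function.update_self]
        exact hy' j
      · rw [Function.update_of_ne hvu]
        refine (h6 v ?_).2 j
        simp only [mem_insert] at hv ⊢
        tauto

end

end Crest.Agent.R136.Yk953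
end

-- ▼ part R136/Yk6_953
section

/-!
# R136 U4, pure penalty: chain with room, part 6 (helper953)

`final_diagK` (adapted from helper794's `R116/XcD`), `rebaseK` (one cell of the level `u2`) and
**`xoutK`** : `2 ≤ K → RwdF P ψ q0 Qm → ChsK K 𝒯 P q0 Qm κ δ0 q g → ∃ θ, XOutF 𝒯 (P q) ψ κ g θ`.
-/

set_option autoImplicit false
set_option linter.unusedSectionVars false

open Finset Filter Topology

namespace Crest.Agent.R136.Yk953

open Crest.Agent.R138.Ex926 Crest.Agent.R138.Dp76 Crest.Agent.R138.Ps627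
open Crest.Agent.R138.Ps926
open Crest.Agent.R138.Mk163 (zc zl rho alive own Negl)
open Crest.Agent.R138.MkRef627 (lc kc own_one alive_mono mem_alive card_class own_lower exists_num)
open Crest.Agent.R138.MkZoom779 (zc_nested zc_eq exists_rep)
open Crest.Agent.R136.MkA627 (ampA Geo MkA)
open Crest.Agent.R116.Xa794 (TS)
open Crest.Agent.R116.Xa2794 (lc_nested class_fib_ge class_fib_le)
open Crest.Agent.R116.Xa3794
open Crest.Agent.R116.Xc794 Crest.Agent.R116.Xc1794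
open Crest.Agent.R116.Xc3794 Crest.Agent.R116.Xc4794 Crest.Agent.R116.Xc5794
open Crest.Agent.R116.Xc7794
open Crest.Agent.R116.Xc9794 (refineF exists_vlim)
open Crest.Agent.R136.Yc953 (RwdF Zf XOutF eq_limF cZ Zf_eq Zf_apply)
open Crest.Agent.R136.KF879 (OkH UBH)

variable {Ln ι S : Type} [Fintype ι]

section
variable {𝒯 : Set (TS Ln ι S)} {B : Base} {I : ℕ → Finset (ℕ × ℝ)} {lev : ℕ → ℚ → ℕ}
  {T : ℕ → TS Ln ι S} {L : ℕ → ℕ → Ln} {A : ℕ → ℝ} {g : ℝ} {u0 u2 : ℚ}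
  {Ψ : ℝ → (ι → ℝ) → ℝ} {atop : ℕ → ι → ℕ} {N : ℕ → ℕ}

open Classical in
/-- finite-level statement at one level `v` with error `e` -/
def PvK (B : Base) (T : ℕ → TS Ln ι S) (L : ℕ → ℕ → Ln) (lev : ℕ → ℚ → ℕ) (A : ℕ → ℝ)
    (g : ℝ) (Ψ : ℝ → (ι → ℝ) → ℝ) (atop : ℕ → ι → ℕ) (n : ℕ) (J : Finset (ℕ × ℝ))
    (f : ℕ → ℤ → ℕ) (b : ℕ → (ι → ℕ) × S) (a : ι → ℕ) (θ : ι → ℝ) (e : ℝ) (v : ℚ) : Prop :=
  (∀ x ∈ J, (T n).mem (lev n v) (zc (lev n v) x.2) (b (f x.1 (zc (lev n v) x.2))) (L n x.1) ∧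
      (T n).adm (lev n v) (zc (lev n v) x.2) (b (f x.1 (zc (lev n v) x.2))) ∧
      (b (f x.1 (zc (lev n v) x.2))).1 = a) ∧
  (∀ x ∈ J, ampA B A (fun v => g * v) n v * VV T Ψ lev atop n (lev n v) a ≤
      B.d n ^ (-e) * (((alive J (lev n v) (zc (lev n v) x.2)).filter fun s =>
        f s (zc (lev n v) x.2) = f x.1 (zc (lev n v) x.2)).card : ℝ)) ∧
  ∀ j, |ys B lev atop n v a j - θ j * (1 - (v : ℝ))| ≤ e

open Classical in
/-- the fibres at one level `v` with error `e` -/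
def FvK (B : Base) (lev : ℕ → ℚ → ℕ) (n : ℕ) (J : Finset (ℕ × ℝ)) (e : ℝ) (v : ℚ) : Prop :=
  ∀ x ∈ J, B.d n ^ (-(1 - (v : ℝ)) + (Zf 1 - Zf v) + e) ≤
      ((J.filter fun y => lc (lev n v) y = lc (lev n v) x).card : ℝ)

theorem final_diagK [Nonempty S] (hsq : Sq B I lev Zf) (_hu20 : 0 ≤ u2) (hu21 : (u2 : ℚ) ≤ 1 / 2)
    {κ : ℝ}
    {ψ : ℝ → (ι → ℝ) → ℝ}
    (hψ : Continuous fun z : ℝ × (ι → ℝ) => ψ z.1 z.2)
    (hcoe : ∃ R : ℝ, ∀ x, κ ≤ ψ 1 x → ∀ j, |x j| ≤ R)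
    (hk : ∀ v0 : ℚ, u2 < v0 → v0 < 1 → ∀ W : Finset ℚ, (∀ u ∈ W, u2 ≤ u ∧ u < v0) →
      ∃ (J : ℕ → Finset (ℕ × ℝ)) (f : ℚ → ℕ → ℕ → ℤ → ℕ) (b : ℚ → ℕ → ℕ → (ι → ℕ) × S)
        (a : ℚ → ℕ → ι → ℕ) (θ : ι → ℝ), (∀ n, J n ⊆ I n) ∧ Dense B J I ∧ Sq B J lev Zf ∧
        a 1 = atop ∧ κ ≤ ψ 1 θ ∧ ∀ v ∈ insert 1 (insert v0 W),
          Mrk B J T L lev A (fun v => g * v) (VV T Ψ lev atop) v (f v) (b v) (a v) ∧
          ∀ j, Tendsto (fun n => ys B lev atop n v (a v n) j) U (𝓝 (θ j * (1 - (v : ℝ))))) :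
    ∃ (J : ℕ → Finset (ℕ × ℝ)) (f : ℕ → ℚ → ℕ → ℤ → ℕ) (b : ℕ → ℚ → ℕ → (ι → ℕ) × S)
      (a : ℕ → ℚ → ι → ℕ) (θ : ι → ℝ), (∀ n, J n ⊆ I n) ∧ Sq B J lev Zf ∧
      (∀ n, a n 1 = atop n) ∧ κ ≤ ψ 1 θ ∧ ∀ v : ℚ, u2 ≤ v → v ≤ 1 →
        Mrk B J T L lev A (fun v => g * v) (VV T Ψ lev atop) v (fun n => f n v)
          (fun n => b n v) (fun n => a n v) ∧
        ∀ j, Tendsto (fun n => ys B lev atop n v (a n v) j) U (𝓝 (θ j * (1 - (v : ℝ)))) := by
  classical
  set v0 : ℕ → ℚ := fun k => 1 - 1 / ((k : ℚ) + 3) with hv0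
  have hv0p : ∀ k, u2 < v0 k := by
    intro k
    have : 1 / ((k : ℚ) + 3) < 1 / 2 := by
      rw [div_lt_div_iff₀ (by positivity) (by norm_num)]
      have : (0 : ℚ) ≤ k := Nat.cast_nonneg k
      linarith
    simp only [hv0]; linarith
  have hv01 : ∀ k, v0 k < 1 := by
    intro k
    have : 0 < 1 / ((k : ℚ) + 3) := by positivity
    simp only [hv0]; linarith
  set W0 : ℕ → Finset ℚ := fun k =>
    ((range k).image (fun m => Denumerable.ofNat ℚ m)).filter fun u => 0 ≤ u ∧ u ≤ 1 with hW0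
  set W : ℕ → Finset ℚ := fun k =>
    ((range k).image (fun m => Denumerable.ofNat ℚ m)).filter fun u => u2 ≤ u ∧ u < v0 k with hW
  have hex := fun k => hk (v0 k) (hv0p k) (hv01 k) (W k) (fun u hu => (mem_filter.1 hu).2)
  choose J f b a θ hJ hJd hJs ha hθ hM using hex
  set e : ℕ → ℝ := fun k => 1 / ((k : ℝ) + 1) with he
  have hep : ∀ k, 0 < e k := fun k => by simp only [he]; positivity
  -- the finite statements
  have hP : ∀ k, ∀ᶠ n in (U : Filter ℕ), (J k n).Nonempty ∧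
      (∀ v ∈ W0 k, FvK B lev n (J k n) (e k) v) ∧
      ∀ v ∈ insert 1 (insert (v0 k) (W k)), PvK B T L lev A g Ψ atop n (J k n) (f k v n)
        (b k v n) (a k v n) (θ k) (e k) v := by
    intro k
    refine ((hJs k).ne).and (Filter.Eventually.and ?_ ?_)
    · rw [Filter.eventually_all_finset]
      intro v hv
      obtain ⟨hv0', hv1'⟩ := (mem_filter.1 hv).2
      filter_upwards [(hJs k).fib v hv0' hv1' (e k) (hep k)] with n h3 x hx
      exact (h3 x hx).1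
    rw [Filter.eventually_all_finset]
    intro v hv
    obtain ⟨hMk, hy⟩ := hM k v hv
    have hyev : ∀ᶠ n in (U : Filter ℕ), ∀ j,
        |ys B lev atop n v (a k v n) j - θ k j * (1 - (v : ℝ))| ≤ e k := by
      rw [Filter.eventually_all]
      intro j
      have := (Metric.tendsto_nhds.1 (hy j)) (e k) (hep k)
      filter_upwards [this] with n hn
      rw [Real.dist_eq] at hn
      exact hn.le
    filter_upwards [hMk.mark, hMk.near (e k) (hep k), hyev] with n h1 h2 h4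
    exact ⟨h1, h2, h4⟩
  obtain ⟨kk, hkk, hkP⟩ := exists_diag _ hP
  have hkP' : ∀ᶠ n in (U : Filter ℕ), (J (kk n) n).Nonempty ∧
      (∀ v ∈ W0 (kk n), FvK B lev n (J (kk n) n) (e (kk n)) v) ∧
      ∀ v ∈ insert 1 (insert (v0 (kk n)) (W (kk n))), PvK B T L lev A g Ψ atop n (J (kk n) n)
        (f (kk n) v n) (b (kk n) v n) (a (kk n) v n) (θ (kk n)) (e (kk n)) v := by
    filter_upwards [hkP] with n hn using hn _ le_rfl
  -- every level is in the mesh
  have hin0 : ∀ v : ℚ, 0 ≤ v → v ≤ 1 → ∀ᶠ n in (U : Filter ℕ), v ∈ W0 (kk n) := by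
    intro v h0 h1
    obtain ⟨m, hm⟩ := exists_num v
    filter_upwards [hkk.eventually_ge_atTop (m + 1)] with n hn
    rw [hW0, mem_filter, mem_image]
    exact ⟨⟨m, mem_range.2 (by omega), hm⟩, h0, h1⟩
  have hin : ∀ v : ℚ, u2 ≤ v → v ≤ 1 → ∀ᶠ n in (U : Filter ℕ),
      v ∈ insert 1 (insert (v0 (kk n)) (W (kk n))) := by
    intro v h0 h1
    rcases h1.eq_or_lt with rfl | h1
    · exact Eventually.of_forall fun n => mem_insert_self _ _
    obtain ⟨m, hm⟩ := exists_num v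
    obtain ⟨K, hK⟩ := exists_nat_gt (1 / (1 - v))
    filter_upwards [hkk.eventually_ge_atTop (max (m + 1) K)] with n hn
    refine mem_insert_of_mem (mem_insert_of_mem ?_)
    rw [hW, mem_filter, mem_image]
    have h2 : m + 1 ≤ kk n := (le_max_left _ _).trans hn
    have h3 : K ≤ kk n := (le_max_right _ _).trans hn
    refine ⟨⟨m, mem_range.2 (by omega), hm⟩, h0, ?_⟩
    have h4 : (0 : ℚ) < 1 - v := by linarith
    have h5 : (K : ℚ) ≤ kk n := by exact_mod_cast h3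
    have h6 : 1 < (K : ℚ) * (1 - v) := by
      rwa [div_lt_iff₀ h4] at hK
    have h7 : 1 / ((kk n : ℚ) + 3) < 1 - v := by
      rw [div_lt_iff₀ (by positivity)]
      nlinarith
    simp only [hv0]; linarith
  have hesm : ∀ ε : ℝ, 0 < ε → ∀ᶠ n in (U : Filter ℕ), e (kk n) ≤ ε := by
    intro ε hε
    have h1 : Tendsto (fun n => e (kk n)) U (𝓝 0) :=
      tendsto_one_div_add_atTop_nhds_zero_nat.comp hkk
    filter_upwards [h1.eventually_lt_const hε] with n hn using hn.le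
  have helim : Tendsto (fun n => e (kk n)) U (𝓝 0) :=
    tendsto_one_div_add_atTop_nhds_zero_nat.comp hkk
  -- the limit direction
  obtain ⟨R, hR⟩ := hcoe
  obtain ⟨Θ, hΘ⟩ := exists_vlim (y := fun n => θ (kk n)) (C := R)
    (Eventually.of_forall fun n j => hR _ (hθ (kk n)) j)
  have hψΘ : κ ≤ ψ 1 Θ := by
    have h1 : Tendsto (fun n => ψ 1 (θ (kk n))) U (𝓝 (ψ 1 Θ)) :=
      (hψ.tendsto ((1, Θ) : ℝ × (ι → ℝ))).comp (tendsto_const_nhds.prodMk_nhds hΘ)
    exact ge_of_tendsto h1 (Eventually.of_forall fun n => hθ (kk n))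
  refine ⟨fun n => J (kk n) n, fun n v => f (kk n) v n, fun n v => b (kk n) v n,
    fun n v => a (kk n) v n, Θ, fun n => hJ (kk n) n, ?_, ?_, hψΘ, ?_⟩
  · refine
      { ne := by filter_upwards [hkP'] with n hn using hn.1
        card := ?_
        lam0 := hsq.lam0
        lam := hsq.lam
        lev_mono := hsq.lev_mono
        lev_lim := hsq.lev_lim
        cell0 := by
          filter_upwards [hsq.cell0] with n hn x hx y hy using
            hn x (hJ (kk n) n hx) y (hJ (kk n) n hy)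
        one := by
          filter_upwards [hsq.one] with n hn x hx y hy using
            hn x (hJ (kk n) n hx) y (hJ (kk n) n hy)
        fib := ?_ }
    · intro ε hε
      filter_upwards [hsq.card ε hε, hkP'] with n hn hne
      refine le_trans (Real.log_le_log (by exact_mod_cast card_pos.2 hne.1)
        (by exact_mod_cast card_le_card (hJ (kk n) n))) hn
    · intro v hv0 hv1 ε hε
      filter_upwards [hsq.fib v hv0 hv1 ε hε, hkP', hin0 v hv0 hv1, hesm ε hε]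
        with n h1 h2 h3 h4 x hx
      refine ⟨?_, ?_⟩
      · refine le_trans (dpow_le B n (by linarith)) (h2.2.1 v h3 x hx)
      · refine le_trans ?_ (h1 x (hJ (kk n) n hx)).2
        exact_mod_cast card_le_card (filter_subset_filter _ (hJ (kk n) n))
  · intro n
    simp only [ha]
  · intro v hv0 hv1
    refine ⟨{ mark := ?_, near := ?_ }, ?_⟩
    · filter_upwards [hkP', hin v hv0 hv1] with n h2 h3 using (h2.2.2 v h3).1
    · intro ε hε
      filter_upwards [hkP', hin v hv0 hv1, hesm ε hε] with n h2 h3 h4 x hx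
      refine ((h2.2.2 v h3).2.1 x hx).trans ?_
      exact mul_le_mul_of_nonneg_right (dpow_le B n (by linarith)) (Nat.cast_nonneg _)
    · intro j
      have h1 : Tendsto (fun n => ys B lev atop n v (a (kk n) v n) j -
          θ (kk n) j * (1 - (v : ℝ))) U (𝓝 0) := by
        refine squeeze_zero_norm' ?_ helim
        filter_upwards [hkP', hin v hv0 hv1] with n h2 h3
        rw [Real.norm_eq_abs]
        exact (h2.2.2 v h3).2.2 j
      have h2 : Tendsto (fun n => θ (kk n) j * (1 - (v : ℝ))) U (𝓝 (Θ j * (1 - (v : ℝ)))) :=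
        ((tendsto_pi_nhds.1 hΘ) j).mul_const _
      have h3 := h1.add h2
      rw [zero_add] at h3
      refine h3.congr fun n => ?_
      ring

/-- the base `d ^ c` -/
noncomputable def baseR (B : Base) (c : ℝ) (hc : 0 < c) : Base where
  d := fun n => B.d n ^ c
  pos := fun n => Real.rpow_pos_of_pos (B.pos n) c
  lt := fun n => Real.rpow_lt_one (B.pos n).le (B.lt n) hc
  lim0 := by
    have h1 := B.lim0.rpow_const (p := c) (Or.inr hc.le)
    rwa [Real.zero_rpow hc.ne'] at h1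

theorem baseR_d (B : Base) (c : ℝ) (hc : 0 < c) (n : ℕ) (x : ℝ) :
    (baseR B c hc).d n ^ x = B.d n ^ (c * x) := by
  change (B.d n ^ c) ^ x = _
  rw [← Real.rpow_mul (B.pos n).le]

theorem baseR_L (B : Base) (c : ℝ) (hc : 0 < c) (n : ℕ) : (baseR B c hc).L n = c * B.L n := by
  have h1 : (baseR B c hc).L n = - Real.log (B.d n ^ c) := rfl
  have h2 : B.L n = - Real.log (B.d n) := rfl
  rw [h1, h2, Real.log_rpow (B.pos n)]
  ring

/-- the affine map of the levels -/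
def sg (u2 v : ℚ) : ℚ := u2 + (1 - u2) * v

theorem sg_one (u2 : ℚ) : sg u2 1 = 1 := by unfold sg; ring

theorem sg_zero (u2 : ℚ) : sg u2 0 = u2 := by unfold sg; ring

theorem sg_le {u2 : ℚ} (h : u2 < 1) {u v : ℚ} (huv : u ≤ v) : sg u2 u ≤ sg u2 v := by
  unfold sg
  have : (1 - u2) * u ≤ (1 - u2) * v := mul_le_mul_of_nonneg_left huv (by linarith)
  linarith

theorem sg_range {u2 : ℚ} (h : u2 < 1) {v : ℚ} (h0 : 0 ≤ v) (h1 : v ≤ 1) :
    u2 ≤ sg u2 v ∧ sg u2 v ≤ 1 := by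
  have a := sg_le h h0
  have b := sg_le h h1
  rw [sg_zero] at a
  rw [sg_one] at b
  exact ⟨a, b⟩

theorem sg_cast (u2 v : ℚ) : ((sg u2 v : ℚ) : ℝ) = u2 + (1 - u2) * v := by
  unfold sg; push_cast; ring

open Classical in
/-- one cell of the level `i` -/
noncomputable def cellOf (I : Finset (ℕ × ℝ)) (i : ℕ) : Finset (ℕ × ℝ) :=
  if h : I.Nonempty then I.filter fun y => zc i y.2 = zc i h.choose.2 else ∅

theorem cellOf_sub (I : Finset (ℕ × ℝ)) (i : ℕ) : cellOf I i ⊆ I := by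
  unfold cellOf
  split_ifs with h
  · exact filter_subset _ _
  · exact empty_subset _

theorem cellOf_ne {I : Finset (ℕ × ℝ)} (h : I.Nonempty) (i : ℕ) : (cellOf I i).Nonempty := by
  unfold cellOf
  rw [dif_pos h]
  exact ⟨h.choose, mem_filter.2 ⟨h.choose_spec, rfl⟩⟩

theorem cellOf_cell (I : Finset (ℕ × ℝ)) (i : ℕ) : ∀ x ∈ cellOf I i, ∀ y ∈ cellOf I i,
    zc i x.2 = zc i y.2 := by
  intro x hx y hy
  unfold cellOf at hx hy
  by_cases h : I.Nonempty
  · rw [dif_pos h] at hx hy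
    rw [(mem_filter.1 hx).2, (mem_filter.1 hy).2]
  · rw [dif_neg h] at hx
    exact absurd hx (notMem_empty x)

theorem cellOf_in (I : Finset (ℕ × ℝ)) {i j : ℕ} (hij : i ≤ j) : ∀ x ∈ cellOf I i, ∀ y ∈ I,
    zc j y.2 = zc j x.2 → y ∈ cellOf I i := by
  intro x hx y hy hxy
  have h1 := zc_nested hij hxy
  unfold cellOf at hx ⊢
  by_cases h : I.Nonempty
  · rw [dif_pos h] at hx ⊢
    exact mem_filter.2 ⟨hy, h1.trans (mem_filter.1 hx).2⟩
  · rw [dif_neg h] at hx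
    exact absurd hx (notMem_empty x)

open Classical in
theorem cellOf_alive (I : Finset (ℕ × ℝ)) {i j : ℕ} (hij : i ≤ j) {x : ℕ × ℝ}
    (hx : x ∈ cellOf I i) : alive (cellOf I i) j (zc j x.2) = alive I j (zc j x.2) := by
  ext t
  constructor
  · intro ht
    exact alive_mono (cellOf_sub I i) _ _ ht
  · intro ht
    obtain ⟨y, hy, hy1, hy2⟩ := mem_alive.1 ht
    exact mem_alive.2 ⟨y, cellOf_in I hij x hx y hy hy2, hy1, hy2⟩

theorem cellOf_fib (I : Finset (ℕ × ℝ)) {i j : ℕ} (hij : i ≤ j) {x : ℕ × ℝ}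
    (hx : x ∈ cellOf I i) : ((cellOf I i).filter fun y => lc j y = lc j x) =
      I.filter fun y => lc j y = lc j x := by
  ext y
  rw [mem_filter, mem_filter]
  exact ⟨fun h => ⟨cellOf_sub I i h.1, h.2⟩,
    fun h => ⟨cellOf_in I hij x hx y h.1 (Prod.mk.inj h.2).2, h.2⟩⟩

/-- the own profile and the cell after the rebase -/
theorem rebase_sq (hsq : Sq B I lev Zf) (h0 : 0 ≤ u2) (h1 : u2 < 1)
    (hc : (0 : ℝ) < 1 - u2) :
    Sq (baseR B (1 - u2) hc) (fun n => cellOf (I n) (lev n u2)) (fun n v => lev n (sg u2 v)) Zf := by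
  classical
  have hsg0 : ∀ v : ℚ, 0 ≤ v → v ≤ 1 → 0 ≤ sg u2 v := fun v a b => h0.trans (sg_range h1 a b).1
  refine
    { ne := by filter_upwards [hsq.ne] with n hn using cellOf_ne hn _
      card := ?_
      lam0 := hsq.lam0
      lam := hsq.lam
      lev_mono := fun u v hu huv hv => hsq.lev_mono _ _ (hsg0 u hu (huv.trans hv)) (sg_le h1 huv)
        (sg_range h1 (hu.trans huv) hv).2
      lev_lim := ?_
      cell0 := ?_
      one := ?_
      fib := ?_ }
  · intro ε hε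
    filter_upwards [hsq.card ((1 - (u2 : ℝ)) * ε) (by positivity), hsq.ne] with n hn hne
    rw [baseR_d]
    have e1 : (1 - (u2 : ℝ)) * -ε = -((1 - (u2 : ℝ)) * ε) := by ring
    rw [e1]
    refine le_trans (Real.log_le_log (by exact_mod_cast card_pos.2 (cellOf_ne hne _))
        (by exact_mod_cast card_le_card (cellOf_sub (I n) (lev n u2)))) hn
  · intro u v hu huv hv
    have h2 := hsq.lev_lim _ _ (hsg0 u hu (huv.trans hv)) (sg_le h1 huv)
        (sg_range h1 (hu.trans huv) hv).2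
    have h3 := h2.div_const (1 - (u2 : ℝ))
    have e1 : (((sg u2 v : ℚ) : ℝ) - (sg u2 u : ℚ)) / (1 - (u2 : ℝ)) = (v : ℝ) - u := by
      rw [sg_cast, sg_cast]
      field_simp
      ring
    rw [e1] at h3
    refine h3.congr fun n => ?_
    rw [baseR_L]
    have hL := B.L_pos n
    field_simp
  · refine Eventually.of_forall fun n x hx y hy => ?_
    rw [sg_zero]
    exact cellOf_cell (I n) (lev n u2) x hx y hy
  · filter_upwards [hsq.one] with n hn x hx y hy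
    rw [sg_one]
    exact hn x (cellOf_sub _ _ hx) y (cellOf_sub _ _ hy)
  · intro v hv0 hv1 ε hε
    obtain ⟨r1, r2⟩ := sg_range h1 hv0 hv1
    filter_upwards [hsq.fib (sg u2 v) (h0.trans r1) r2 ((1 - (u2 : ℝ)) * ε) (by positivity),
      hsq.lev_mono u2 (sg u2 v) h0 r1 r2] with n hn hl x hx
    rw [cellOf_fib (I n) hl hx, baseR_d, baseR_d]
    have h4 := hn x (cellOf_sub _ _ hx)
    rw [sg_cast] at h4
    have e1 : (1 - (u2 : ℝ)) * (-(1 - (v : ℝ)) + (Zf 1 - Zf v) + ε) =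
        -(1 - ((u2 : ℝ) + (1 - u2) * v)) + (Zf 1 - Zf ((u2 : ℝ) + (1 - u2) * v)) +
          (1 - (u2 : ℝ)) * ε := by
      simp only [Zf_apply]; ring
    have e2 : (1 - (u2 : ℝ)) * (-(1 - (v : ℝ)) + (Zf 1 - Zf v) - ε) =
        -(1 - ((u2 : ℝ) + (1 - u2) * v)) + (Zf 1 - Zf ((u2 : ℝ) + (1 - u2) * v)) -
          (1 - (u2 : ℝ)) * ε := by
      simp only [Zf_apply]; ring
    rw [e1, e2]
    exact h4

theorem rebase_amp (hc : (0 : ℝ) < 1 - u2) (n : ℕ) (v : ℚ) :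
    ampA (baseR B (1 - u2) hc) (fun n => A n * B.d n ^ (-(g * (u2 : ℝ)))) (fun v => g * v) n v =
      ampA B A (fun v => g * v) n (sg u2 v) := by
  unfold ampA
  rw [baseR_d, mul_assoc, ← dpow_add, sg_cast]
  congr 2
  ring

theorem rebase_VV (n i : ℕ) (s : ι → ℕ) :
    VV T Ψ (fun n v => lev n (sg u2 v)) atop n i s = VV T Ψ lev atop n i s := by
  have h1 : (fun n v => lev n (sg u2 v)) n 1 = lev n 1 := congrArg (lev n) (sg_one u2)
  unfold VV
  rw [h1]

theorem rebase_ys (hc : (0 : ℝ) < 1 - u2) (n : ℕ) (v : ℚ) (a : ι → ℕ) (j : ι) :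
    ys (baseR B (1 - u2) hc) (fun n v => lev n (sg u2 v)) atop n v a j =
      ys B lev atop n (sg u2 v) a j / (1 - (u2 : ℝ)) := by
  have h1 : (fun n v => lev n (sg u2 v)) n 1 = lev n 1 := congrArg (lev n) (sg_one u2)
  unfold ys cn
  rw [baseR_L, h1]
  have hL := B.L_pos n
  field_simp

theorem rebase_dmx (hc : (0 : ℝ) < 1 - u2) (h1 : u2 < 1) (hu02 : u0 ≤ u2)
    (h : DmxU u0 B I T L lev A (fun v => g * v) (VV T Ψ lev atop)) :
    Dmx (baseR B (1 - u2) hc) (fun n => cellOf (I n) (lev n u2)) T L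
      (fun n v => lev n (sg u2 v)) (fun n => A n * B.d n ^ (-(g * (u2 : ℝ)))) (fun v => g * v)
      (VV T Ψ (fun n v => lev n (sg u2 v)) atop) := by
  classical
  intro v hv0 hv1 ε hε
  obtain ⟨r1, r2⟩ := sg_range h1 hv0 hv1
  filter_upwards [h (sg u2 v) (hu02.trans r1) r2 ((1 - (u2 : ℝ)) * ε) (by positivity)]
    with n hn J s hs
  rw [rebase_amp, rebase_VV, baseR_d]
  have e1 : (1 - (u2 : ℝ)) * -ε = -((1 - (u2 : ℝ)) * ε) := by ring
  rw [e1]
  refine le_trans ?_ (hn J s hs)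
  exact_mod_cast card_le_card (filter_subset_filter _ (alive_mono (cellOf_sub _ _) _ _))

theorem rebase_mrk (hsq : Sq B I lev Zf) (hc : (0 : ℝ) < 1 - u2) (h0 : 0 ≤ u2) (h1 : u2 < 1)
    {v : ℚ} (hv0 : 0 ≤ v) (hv1 : v ≤ 1)
    {f : ℕ → ℕ → ℤ → ℕ} {b : ℕ → ℕ → (ι → ℕ) × S} {a : ℕ → ι → ℕ}
    (hM : Mrk B I T L lev A (fun v => g * v) (VV T Ψ lev atop) (sg u2 v) f b a) :
    Mrk (baseR B (1 - u2) hc) (fun n => cellOf (I n) (lev n u2)) T L
      (fun n v => lev n (sg u2 v)) (fun n => A n * B.d n ^ (-(g * (u2 : ℝ)))) (fun v => g * v)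
      (VV T Ψ (fun n v => lev n (sg u2 v)) atop) v f b a := by
  classical
  obtain ⟨r1, r2⟩ := sg_range h1 hv0 hv1
  refine ⟨?_, ?_⟩
  · filter_upwards [hM.mark] with n hn x hx using hn x (cellOf_sub _ _ hx)
  · intro ε hε
    filter_upwards [hM.near ((1 - (u2 : ℝ)) * ε) (by positivity),
      hsq.lev_mono u2 (sg u2 v) h0 r1 r2] with n hn hl x hx
    rw [rebase_amp, rebase_VV, baseR_d, cellOf_alive (I n) hl hx]
    have e1 : (1 - (u2 : ℝ)) * -ε = -((1 - (u2 : ℝ)) * ε) := by ring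
    rw [e1]
    exact hn x (cellOf_sub _ _ hx)

end

/-- **X1-C with full own counts, room below the test level.** -/
theorem xoutK {K : ℕ} (hK : 2 ≤ K) {𝒯 : Set (TS Ln ι S)} {P : ℝ → ℝ → (ι → ℝ) → ℝ}
    {ψ : ℝ → (ι → ℝ) → ℝ}
    {q0 Qm κ δ0 q g : ℝ} (hP : RwdF P ψ q0 Qm) (hch : ChsK K 𝒯 P q0 Qm κ δ0 q g) :
    ∃ θ : ι → ℝ, XOutF 𝒯 (P q) ψ κ g θ := by
  classical
  have hq0 : 0 ≤ q := hP.q0pos.le.trans hch.qlo
  have hSq : SupA (P q) := fun l l' x x' hl hl' => hP.sup q l l' x x' hq0 hl hl'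
  obtain ⟨B, I, T, L, lev, A, f, b, atop, N, u0, hu00, hu01, hKu, hS, hT, hfin, hNd, hA, hsq, h0,
    hM, hroom⟩ := exists_initK hK (hP.zero q) hch.low hch.ub
  obtain ⟨J, hJI, hJd, hdm⟩ := exists_dmxK hu00.le hsq 𝒯 hSq hch.ub hT hfin hNd hA h0 hroom
  obtain ⟨J1, h1, h2, h3, h4, h5⟩ := refineF hsq hJd {1} (by
      intro v hv
      rw [mem_singleton] at hv
      subst hv
      exact ⟨zero_le_one, le_rfl⟩) (mem_singleton_self _) (fun _ => I)
    (fun _ _ n => Subset.refl _) (fun _ _ => Eventually.of_forall fun n => hJI n)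
    (fun _ _ => Eventually.of_forall fun n x _ y hy _ => hy) (fun _ => f) (fun _ => b)
    (fun _ => atop) (by
      intro v hv
      rw [mem_singleton] at hv
      subst hv
      exact hM)
  have hCx : CxK u0 𝒯 B J1 T L lev A g (P q) atop N := ⟨hT, hfin, hNd, hA, h4, hdm.mono h1⟩
  have hM1 := h5 1 (mem_singleton_self _)
  set u2 : ℚ := 1 / 2 with hu2
  have hu02 : u0 < u2 := by
    have : (u0 : ℝ) < ((u2 : ℚ) : ℝ) := by rw [hu2]; push_cast; exact hu01
    exact_mod_cast this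
  obtain ⟨J2, f2, b2, a2, θ, g1, g2, g3, g4, g5⟩ := final_diagK (u2 := u2) hCx.sq (κ := κ) (ψ := ψ)
    (hu00.trans hu02).le le_rfl hP.contψ (by
      obtain ⟨R, hR, hR2⟩ := hP.coe κ hch.κpos
      exact ⟨R * 1, fun x hx j => hR2 1 x zero_le_one (by rw [mul_one]; exact hx) j⟩) (by
      intro v0 hv0 hv1 W hW
      obtain ⟨J, f, b, a, θ, e1, e2, e3, e4, e5, e6⟩ := meshK hK hu00.le hKu hP hch hCx
        (hu02.trans hv0) hv1 hM1 W (fun u hu => ⟨hu02.trans_le (hW u hu).1, (hW u hu).2⟩)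
      exact ⟨J, f, b, a, θ, e1, e2, e3.sq, e4, e5, e6⟩)
  have hu20 : 0 ≤ u2 := (hu00.trans hu02).le
  have hu21 : u2 < 1 := by rw [hu2]; norm_num
  have hc : (0 : ℝ) < 1 - (u2 : ℚ) := by rw [hu2]; norm_num
  have hsq' := rebase_sq g2 hu20 hu21 hc
  have hdm' := rebase_dmx (T := T) (L := L) (A := A) hc hu21 hu02.le ((hdm.mono h1).mono g1)
  have hA' : ∀ n, 0 < A n * B.d n ^ (-(g * ((u2 : ℚ) : ℝ))) := fun n =>
    mul_pos (hA n) (dpow_pos B n _)
  have htop' : ∀ n, a2 n (sg u2 1) = atop n := fun n => by rw [sg_one]; exact g3 n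
  have hm' : ∀ v : ℚ, 0 ≤ v → v ≤ 1 → Mrk (baseR B (1 - u2) hc)
      (fun n => cellOf (J2 n) (lev n u2)) T L (fun n v => lev n (sg u2 v))
      (fun n => A n * B.d n ^ (-(g * ((u2 : ℚ) : ℝ)))) (fun v => g * v)
      (VV T (P q) (fun n v => lev n (sg u2 v)) atop) v (fun n => f2 n (sg u2 v))
      (fun n => b2 n (sg u2 v)) (fun n => a2 n (sg u2 v)) := fun v hv0 hv1 =>
    rebase_mrk g2 hc hu20 hu21 hv0 hv1
      (g5 (sg u2 v) (sg_range hu21 hv0 hv1).1 (sg_range hu21 hv0 hv1).2).1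
  have hy' : ∀ v : ℚ, 0 ≤ v → v ≤ 1 → ∀ j, Tendsto (fun n => ys (baseR B (1 - u2) hc)
      (fun n v => lev n (sg u2 v)) atop n v (a2 n (sg u2 v)) j) U
      (𝓝 (θ j * (1 - (v : ℝ)))) := by
    intro v hv0 hv1 j
    have h6 := ((g5 (sg u2 v) (sg_range hu21 hv0 hv1).1 (sg_range hu21 hv0 hv1).2).2 j).div_const
      (1 - ((u2 : ℚ) : ℝ))
    have e1 : θ j * (1 - ((sg u2 v : ℚ) : ℝ)) / (1 - ((u2 : ℚ) : ℝ)) = θ j * (1 - (v : ℝ)) := by
      rw [sg_cast]
      have := hc.ne'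
      field_simp
      ring
    rw [e1] at h6
    refine h6.congr fun n => ?_
    rw [rebase_ys]
  have hdm2 := hdm'
  have hm2 := hm'
  rw [cZ] at hdm2
  rw [cZ] at hm2
  have hmk := Crest.Agent.R116.XcM708.mk_assemble (B := baseR B (1 - u2) hc)
    (I := fun n => cellOf (J2 n) (lev n u2)) (lev := fun n v => lev n (sg u2 v)) (Λ := Zf)
    (T := T) (L := L) (A := fun n => A n * B.d n ^ (-(g * ((u2 : ℚ) : ℝ)))) (g := g) (Ψ := P q)
    (atop := atop) hA' hsq' hdm2 (fun n v => f2 n (sg u2 v)) (fun n v => b2 n (sg u2 v))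
    (fun n v => a2 n (sg u2 v)) θ htop' hm2 hy'
  rw [← cZ, Zf_eq] at hmk
  refine ⟨θ, baseR B (1 - u2) hc, fun n => cellOf (J2 n) (lev n u2), T, L,
    fun n v => lev n (sg u2 v), fun n => A n * B.d n ^ (-(g * ((u2 : ℚ) : ℝ))),
    fun n v => f2 n (sg u2 v), fun n v => b2 n (sg u2 v),
    fun n v => VV T (P q) (fun n v => lev n (sg u2 v)) atop n (lev n (sg u2 v)) (a2 n (sg u2 v)),
    fun j n v => (1 / 2 : ℝ) ^ (a2 n (sg u2 v) j), atop, N, fun n v => a2 n (sg u2 v), hT, hfin, ?_,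
    g4, hmk, htop', fun n v j => rfl, fun n v => rfl, ?_⟩
  · intro ε hε
    filter_upwards [hNd ((1 - ((u2 : ℚ) : ℝ)) * ε) (by positivity)] with n hn
    rw [baseR_d]
    have e1 : (1 - ((u2 : ℚ) : ℝ)) * -ε = -((1 - ((u2 : ℚ) : ℝ)) * ε) := by ring
    rw [e1]
    exact hn
  · intro v hv0 hv1
    filter_upwards [(hm' v hv0 hv1).mark, hsq'.ne] with n hn hne
    obtain ⟨x, hx⟩ := hne
    obtain ⟨-, m2, m3⟩ := hn x hx
    exact ⟨_, _, m2, m3⟩

end Crest.Agent.R136.Yk953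
end

-- ▼ part R136/Tq2_879
section

/-!
# R136: the enemy over the class of sheets `TS36` (helper879)

`enemy36 : ¬ KS4 → ∃ K ≥ 2, EnemyH K TT36`.
-/

set_option autoImplicit false
set_option linter.unusedVariables false

open Finset

namespace Crest.Agent.R136.Tq879

open Crest.Agent.R116.Xa794 (TS)
open Crest.Agent.R116.Xc794 (Cfg capP rel)
open Crest.Agent.R138.Mk163 (zc zl rho alive own)
open Crest.Agent.R138.MkRef627 (mem_alive)
open Sh605 K4 KS879 En879 Cod289 Win823 KF879 XIn823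

noncomputable section

theorem half_le {a b : ℕ} (h : ((1:ℝ) / 2) ^ a ≤ (1 / 2) ^ b) : b ≤ a := by
  by_contra hn
  rw [not_le] at hn
  have : ((1:ℝ) / 2) ^ b < (1 / 2) ^ a :=
    pow_lt_pow_right_of_lt_one₀ (by norm_num) (by norm_num) hn
  linarith

theorem inv_pow2 (n : ℕ) : (1:ℝ) / 2 ^ n = (1 / 2) ^ n := by
  rw [div_pow, one_pow]

open Classical in
/-- **the enemy as a configuration with room `h`** -/
theorem cfg36 {b0 η : ℝ} {N Mt : ℕ} {s : Finset GLine4} {I : Finset (GLine4 × ℤ)} {μ : ℝ}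
    (hR : Raw b0 η N Mt s I μ) {h : ℕ} (hM : h + 1 ≤ Mt) :
    ∃ F : Cfg Ln4 (Fin 3) Plk4, OkH (TS36 (1 / 2 ^ Mt)) (fun _ _ => 0) h F ∧ F.m = h ∧
      F.M = Mt - h ∧ F.N = Mt ∧ (F.I.card : ℝ) ≤ 2 ^ (5 * Mt) ∧
      F.nu = (2:ℝ) ^ ((1 - η) * Mt) / 32 ∧ (∀ j, F.a j = Mt) ∧ F.D1 = μ * 8 ^ Mt ∧
      F.D0 = 128000000 * ((Mt : ℝ) + 2 * (2:ℕ) + h + 6) ^ 2 * 8 ^ (Mt + 2 + h) := by
  obtain ⟨J, cl, ctr, hne, hcard, hcard5, hz, hz0, hinj, hvel, hmem, hmul, hown, hsep⟩ :=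
    grid_cf6 hR
  obtain ⟨ℓ, A, hi, hA⟩ := exists_codes J
  have hμ : 0 < μ := lt_of_lt_of_le (by positivity) hR.big
  have hr : (0:ℝ) < 1 / 2 ^ Mt := by positivity
  have hmh : h + (Mt - h) = Mt := by omega
  have hAJ : ∀ x ∈ A, (ℓ x.1, x.2) ∈ J := fun x hx => by rw [← hA]; exact mem_enc.2 ⟨x, hx, rfl⟩
  have hz0' : ∀ x ∈ A, zc 0 x.2 = 0 := fun x hx => hz0 _ (hAJ x hx)
  set b : ℕ → (Fin 3 → ℕ) × Plk4 := fun c => (fun _ => Mt, cubeK (1 / 2 ^ Mt) (ctr c)) with hb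
  -- geometry of codes, only used for `card_objs`
  set G := geoW (fun _ => ℓ) 0 (fun _ _ _ => True) with hGd
  have hG : GeoOf G ℓ 0 0 (fun _ _ => True) := geoOf_W _ _ _ _
  refine ⟨⟨h, Mt - h, A, ℓ, fun t J => cl (ℓ t, J), b, fun _ => Mt,
    128000000 * ((Mt : ℝ) + 2 * (2:ℕ) + h + 6) ^ 2 * 8 ^ (Mt + 2 + h), μ * 8 ^ Mt,
    (2:ℝ) ^ ((1 - η) * Mt) / 32, Mt⟩, ?_, rfl, rfl, rfl, ?_, rfl, fun _ => rfl, rfl, rfl⟩
  swap
  · -- cardinality
    have h1 : A.card = J.card := by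
      rw [← hA]
      unfold enc
      rw [card_image_of_injOn]
      intro x hx y hy hxy
      have h1 : (ℓ x.1, x.2) = (ℓ y.1, y.2) := hxy
      rw [Prod.ext_iff] at h1
      exact Prod.ext (hi x hx y hy h1.1) h1.2
    show (A.card : ℝ) ≤ _
    rw [h1]; exact hcard5
  refine ⟨?_, le_rfl, ?_, ?_, by show 0 < μ * 8 ^ Mt; positivity,
    by show (0:ℝ) < (2:ℝ) ^ ((1 - η) * Mt) / 32; positivity, ?_, ?_, ?_, ?_, ?_⟩
  · show 1 ≤ Mt - h; omega
  · show A.Nonempty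
    obtain ⟨y, hy⟩ := hne
    rw [← hA] at hy
    obtain ⟨x, hx, _⟩ := mem_enc.1 hy
    exact ⟨x, hx⟩
  · intro x hx y hy
    show zc (h - h) x.2 = zc (h - h) y.2
    rw [Nat.sub_self, hz0' x hx, hz0' y hy]
  · -- fin
    intro i J' t ht j
    have h0 := ht.1.r0_le
    have h1 : t.2.a ≤ wd t.2 j := by
      fin_cases j
      · exact le_rfl
      · exact ht.1.a_le.trans ht.1.w_le
      · exact ht.1.a_le
    have h2 := h0.trans h1
    rw [ht.2.2 j, inv_pow2] at h2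
    exact half_le h2
  · -- top
    intro J' t ht
    change t ∈ alive A (h + (Mt - h)) J' at ht
    show (TS36 (1 / 2 ^ Mt)).mem (h + (Mt - h)) J' (b (cl (ℓ t, J'))) (ℓ t) ∧
      (TS36 (1 / 2 ^ Mt)).adm (h + (Mt - h)) J' (b (cl (ℓ t, J'))) ∧
      (b (cl (ℓ t, J'))).1 = fun _ => Mt
    rw [hmh] at ht ⊢
    obtain ⟨x, hx, hx1, hx2⟩ := mem_alive.1 ht
    have hy := hAJ x hx
    have e1 : ob4 Mt (ℓ x.1, x.2) = (ℓ t, J') := by
      unfold ob4
      rw [← hx2, ← hx1]; rfl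
    obtain ⟨h1, h2⟩ := hmem _ hy
    rw [e1] at h1 h2
    have h3 : zc4 Mt x.2 = J' := hx2
    simp only at h1 h2
    rw [h3] at h1
    rw [hx1] at h2
    refine ⟨⟨?_, ?_⟩, ⟨cubeN _ hr, le_rfl, ?_⟩, rfl⟩
    · rw [← h1] at h2
      exact h2
    · intro k
      have := (hvel _ hy k).1
      simp only [hx1] at this
      linarith
    · intro k
      show wd (cubeK (1 / 2 ^ Mt) _) k = (1 / 2) ^ Mt
      rw [← inv_pow2]
      fin_cases k <;> rfl
  · -- low
    intro J' t ht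
    change t ∈ alive A (h + (Mt - h)) J' at ht
    show μ * 8 ^ Mt * (TS36 (1 / 2 ^ Mt)).vol (h + (Mt - h)) (fun _ => Mt) ≤
      (((alive A (h + (Mt - h)) J').filter fun s => cl (ℓ s, J') = cl (ℓ t, J')).card : ℝ)
    rw [hmh] at ht ⊢
    have e0 : μ * 8 ^ Mt * (TS36 (1 / 2 ^ Mt)).vol Mt (fun _ => Mt) = μ := by
      show μ * 8 ^ Mt * ((1 / 2 : ℝ) ^ Mt * (1 / 2) ^ Mt * (1 / 2) ^ Mt) = μ
      rw [← mul_pow, ← mul_pow, mul_assoc, ← mul_pow]
      norm_num
    rw [e0]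
    obtain ⟨x, hx, hx1, hx2⟩ := mem_alive.1 ht
    have hy := hAJ x hx
    have e1 : ob4 Mt (ℓ x.1, x.2) = (ℓ t, J') := by
      unfold ob4
      rw [← hx2, ← hx1]; rfl
    have h3 := hmul _ hy
    rw [e1] at h3
    have hctr : (ctr (cl (ℓ t, J'))).2 = J' := by
      have h1 := (hmem _ hy).1
      rw [e1] at h1
      rw [← h1]; exact hx2
    refine h3.trans (Nat.cast_le.2 ?_)
    have key : ∀ o ∈ J.image (ob4 Mt), cl o = cl (ℓ t, J') → ∃ u ∈ A, o = (ℓ u.1, J') ∧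
        zc Mt u.2 = J' := by
      intro o ho1 ho2
      obtain ⟨z, hz1, rfl⟩ := mem_image.1 ho1
      have hJ : zc4 Mt z.2 = J' := by
        rw [(hmem z hz1).1, ho2, hctr]
      have hz' := hz1
      rw [← hA] at hz'
      obtain ⟨u, hu, hu1⟩ := mem_enc.1 hz'
      refine ⟨u, hu, ?_, ?_⟩
      · unfold ob4
        rw [hJ, ← hu1]
      · rw [← hJ, ← hu1]; rfl
    refine card_le_card_of_injOn (fun o => dec ℓ A o.1) (fun o ho => ?_) ?_
    · rw [Finset.mem_coe, mem_filter] at ho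
      obtain ⟨u, hu, rfl, hu2⟩ := key o ho.1 ho.2
      rw [Finset.mem_coe]
      show dec ℓ A (ℓ u.1) ∈ _
      rw [dec_eq hi hu, mem_filter, mem_alive]
      exact ⟨⟨u, hu, rfl, hu2⟩, ho.2⟩
    · intro o ho o' ho' hoo
      rw [Finset.mem_coe, mem_filter] at ho ho'
      obtain ⟨u, hu, rfl, -⟩ := key o ho.1 ho.2
      obtain ⟨u', hu', rfl, -⟩ := key o' ho'.1 ho'.2
      simp only at hoo
      rw [dec_eq hi hu, dec_eq hi hu'] at hoo
      rw [hoo]
  · -- own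
    intro x hx
    show (2:ℝ) ^ ((1 - η) * Mt) / 32 ≤ ((own A (h - h) (h + (Mt - h)) x).card : ℝ)
    rw [hmh, Nat.sub_self]
    have h1 := hown _ (hAJ x hx)
    have h2 := ownc4_enc hi 0 Mt hx
    rw [hA] at h2
    have h3 : ((J.filter fun y => y.1 = ℓ x.1).image (ob4 Mt)).card ≤ (own A 0 Mt x).card := by
      rw [← h2]
      unfold ownc4
      refine card_le_card (image_subset_image fun y hy => ?_)
      rw [mem_filter] at hy ⊢
      refine ⟨hy.1, ?_⟩
      unfold ob4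
      rw [hy.2, hz0 y hy.1, hz0 _ (hAJ x hx)]
    have h4 : (((J.filter fun y => y.1 = ℓ x.1).image (ob4 Mt)).card : ℝ) ≤
        ((own A 0 Mt x).card : ℝ) := by exact_mod_cast h3
    rw [div_le_iff₀ (by norm_num)]
    linarith
  · -- up
    intro J' t ht
    change (TS36 (1 / 2 ^ Mt)).adm h J' t at ht
    show (((alive A h J').filter fun u => (TS36 (1 / 2 ^ Mt)).mem h J' t (ℓ u)).card : ℝ) ≤
      128000000 * ((Mt : ℝ) + 2 * (2:ℕ) + h + 6) ^ 2 * 8 ^ (Mt + 2 + h) *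
        capP (TS36 (1 / 2 ^ Mt)) (fun _ _ => 0) (h + (Mt - h)) (fun _ => Mt) h t.1
    set K : Plk4 := Cod289.atJ J' t.2 with hK
    have hLeg : LegN h (1 / 2 ^ Mt) 1 K := ⟨ht.1, ht.2.1⟩
    have hw : K.w 1 ≤ 2 ^ 2 := by
      have h1 : K.w 1 ≤ 1 / 2 ^ h := ht.2.1
      have h2 : (1:ℝ) / 2 ^ h ≤ 1 := by
        rw [div_le_one (by positivity)]; exact one_le_pow₀ (by norm_num)
      linarith
    have h1 := kr_cell6 (κ := 2) (i := h) J hsep (clsOK6_N.sheet _ _ _ _ hr hLeg) hw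
    have h2 := card_objs hG hi h K
    rw [hA] at h2
    rw [h2] at h1
    have h3 : ((alive A h J').filter fun u => (TS36 (1 / 2 ^ Mt)).mem h J' t (ℓ u)).card ≤
        ((alive A h K.j).filter fun u => G.mem 0 h K.j K u).card := by
      refine card_le_card fun u hu => ?_
      rw [mem_filter] at hu ⊢
      exact ⟨hu.1, hu.2.1⟩
    have h4 : (((alive A h J').filter fun u => (TS36 (1 / 2 ^ Mt)).mem h J' t (ℓ u)).card : ℝ) ≤
        (((alive A h K.j).filter fun u => G.mem 0 h K.j K u).card : ℝ) := by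
      exact_mod_cast h3
    refine h4.trans (h1.trans (le_of_eq ?_))
    have e1 : capP (TS36 (1 / 2 ^ Mt)) (fun _ _ => 0) (h + (Mt - h)) (fun _ => Mt) h t.1 =
        K.a * K.w 2 * K.w 1 := by
      unfold capP
      rw [neg_zero, Real.rpow_zero, mul_one, vol_eq ht]
      rfl
    rw [e1]

set_option maxHeartbeats 400000 in
/-- **ENEMY** -/
theorem enemy36 (hKS : ¬ KS4) : ∃ K : ℕ, 2 ≤ K ∧ EnemyH K TT36 := by
  obtain ⟨b0, hb0, hraw⟩ := enemy_raw hKS
  -- `K + 1 ≥ 12 / b0`, `K ≥ 2`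
  obtain ⟨K, hK1, hK2⟩ : ∃ K : ℕ, 2 ≤ K ∧ 24 ≤ b0 * (K + 1 : ℝ) := by
    refine ⟨⌈24 / b0⌉₊ + 2, by omega, ?_⟩
    have h1 : 24 / b0 ≤ (⌈24 / b0⌉₊ : ℝ) := Nat.le_ceil _
    rw [div_le_iff₀ hb0] at h1
    push_cast
    nlinarith
  have hK0 : (0:ℝ) < K + 1 := by positivity
  refine ⟨K, hK1, b0 / 2, by linarith, fun δ0 hδ0 M0 => ?_⟩
  set δ : ℝ := min δ0 1 with hδd
  have hδ : 0 < δ := by positivity
  have hδδ : δ ≤ δ0 := min_le_left _ _
  have hδ1 : δ ≤ 1 := min_le_right _ _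
  set C : ℝ := 128000000 * 4 * 8 ^ 3 with hC
  have ev := ((poly_small (64 + 10) (by norm_num) (by positivity : 0 < δ / 4)).and
    ((poly_small C (by positivity) (by positivity : 0 < b0 / 8)).and
      (Filter.eventually_ge_atTop (2 * M0 + 4 * K + 4)))).exists_forall_of_atTop
  obtain ⟨M1, hM1⟩ := ev
  obtain ⟨N, Mt, s, I, μ, hMM, hR⟩ := hraw (δ / 2) (by positivity) M1
  obtain ⟨k1, k2, k3⟩ := hM1 Mt hMM
  set h : ℕ := Mt / (K + 1) + 1 with hh
  have hdm := Nat.div_add_mod Mt (K + 1)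
  have hmod : Mt % (K + 1) < K + 1 := Nat.mod_lt Mt (Nat.succ_pos K)
  have hq3 : Mt / (K + 1) * 3 ≤ Mt := by
    calc Mt / (K + 1) * 3 ≤ Mt / (K + 1) * (K + 1) := Nat.mul_le_mul_left _ (by omega)
      _ ≤ Mt := Nat.div_mul_le_self _ _
  have h2h : 2 * h ≤ Mt := by omega
  have hKh : Mt - h ≤ K * h := by
    have e : (K + 1) * h = (K + 1) * (Mt / (K + 1)) + (K + 1) := by rw [hh]; ring
    have e2 : (K + 1) * h = K * h + h := by ring
    omega
  obtain ⟨F, hF, hm, hFM, hN, hcard, hnu, ha, hD1, hD0⟩ := cfg36 hR (h := h) (by omega)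
  have hMt0 : (0:ℝ) < Mt := by
    have : 0 < Mt := by omega
    exact_mod_cast this
  have hFMr : (F.M : ℝ) = Mt - h := by
    rw [hFM]; push_cast [Nat.cast_sub (by omega : h ≤ Mt)]; ring
  have hhr : 2 * (h : ℝ) ≤ Mt := by exact_mod_cast h2h
  have hFMge : (Mt : ℝ) ≤ 2 * F.M := by rw [hFMr]; linarith
  have hFM0 : (0:ℝ) < F.M := by linarith
  -- `3 h ≤ b0 / 8 * Mt + 3`
  have hhb : 3 * (h : ℝ) ≤ b0 / 8 * Mt + 3 := by
    have h1 : (h : ℝ) ≤ Mt / (K + 1 : ℝ) + 1 := by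
      rw [hh]; push_cast
      have := @Nat.cast_div_le ℝ _ _ _ Mt (K + 1)
      push_cast at this
      linarith
    have h2 : (Mt:ℝ) / (K + 1 : ℝ) ≤ b0 / 24 * Mt := by
      rw [div_le_iff₀ hK0]
      nlinarith
    linarith
  have hmono : (2:ℝ) ^ (δ / 4 * Mt) ≤ (2:ℝ) ^ (δ0 * F.M) := by
    refine Real.rpow_le_rpow_of_exponent_le (by norm_num) ?_
    calc δ / 4 * (Mt:ℝ) ≤ δ / 4 * (2 * F.M) := by gcongr
      _ = δ / 2 * F.M := by ring
      _ ≤ δ0 * F.M := by gcongr; linarith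
  have hbig : (74:ℝ) * (Mt + 6) ≤ (2:ℝ) ^ (δ / 4 * Mt) := by
    refine le_trans ?_ k1
    have : (Mt:ℝ) + 6 ≤ (Mt + 6) ^ 2 := by nlinarith
    nlinarith
  refine ⟨TS36 (1 / 2 ^ Mt), ⟨_, by positivity, rfl⟩, F, h, hF, ?_, ?_, ?_, hm, ?_, ?_, ?_, ?_, ?_,
    ?_⟩
  · rw [hFM]; omega
  · rw [hFM]; exact hKh
  · rw [hFM]; omega
  · -- log
    have hne : (0:ℝ) < F.I.card := by exact_mod_cast card_pos.2 hF.ne
    calc Real.log (F.I.card : ℝ) ≤ Real.log (2 ^ (5 * Mt)) := Real.log_le_log hne hcard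
      _ = (5 * Mt : ℕ) * Real.log 2 := by rw [Real.log_pow]
      _ ≤ (5 * Mt : ℕ) * 1 := by
        have : Real.log 2 ≤ 1 := by
          have := Real.log_two_lt_d9; linarith
        gcongr
      _ ≤ 74 * ((Mt:ℝ) + 6) := by push_cast; linarith
      _ ≤ _ := hbig.trans hmono
  · rw [hN]
    refine le_trans ?_ (hbig.trans hmono)
    linarith
  · rw [hN, hm, hFM]; omega
  · -- own
    rw [hnu, le_div_iff₀ (by norm_num)]
    have e1 : (F.M : ℝ) + h = Mt := by rw [hFMr]; ring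
    rw [e1]
    have h32 : (32:ℝ) ≤ (2:ℝ) ^ (δ / 4 * Mt) := by
      refine le_trans ?_ hbig; linarith
    have h33 : (2:ℝ) ^ ((1 - δ0) * Mt) ≤ (2:ℝ) ^ ((1 - δ) * Mt) :=
      Real.rpow_le_rpow_of_exponent_le (by norm_num)
        (mul_le_mul_of_nonneg_right (by linarith) hMt0.le)
    calc (2:ℝ) ^ ((1 - δ0) * Mt) * 32 ≤ (2:ℝ) ^ ((1 - δ) * Mt) * (2:ℝ) ^ (δ / 4 * Mt) :=
          mul_le_mul h33 h32 (by norm_num) (by positivity)
      _ = (2:ℝ) ^ ((1 - 3 * δ / 4) * Mt) := by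
        rw [← Real.rpow_add (by norm_num)]; congr 1; ring
      _ ≤ (2:ℝ) ^ ((1 - δ / 2) * Mt) :=
        Real.rpow_le_rpow_of_exponent_le (by norm_num)
          (mul_le_mul_of_nonneg_right (by linarith) hMt0.le)
  · intro j
    rw [ha, hm, hFM]; omega
  · -- value
    rw [hD1, hD0]
    have h8 : (8:ℝ) ^ (Mt + 2 + h) ≤ 8 ^ Mt * 8 ^ 3 * (2:ℝ) ^ (b0 / 8 * Mt) * 8 := by
      have e5 : (8:ℝ) ^ h = (2:ℝ) ^ (3 * (h:ℝ)) := by
        rw [Real.rpow_mul (by norm_num)]; norm_num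
      have e6 : (2:ℝ) ^ (3 * (h:ℝ)) ≤ (2:ℝ) ^ (b0 / 8 * Mt) * 8 := by
        have e7 : (2:ℝ) ^ (b0 / 8 * Mt) * 8 = (2:ℝ) ^ (b0 / 8 * Mt + 3) := by
          rw [Real.rpow_add (by norm_num)]; norm_num
        rw [e7]
        exact Real.rpow_le_rpow_of_exponent_le (by norm_num) hhb
      rw [pow_add, pow_add, e5]
      calc (8:ℝ) ^ Mt * 8 ^ 2 * (2:ℝ) ^ (3 * (h:ℝ)) ≤
            8 ^ Mt * 8 ^ 2 * ((2:ℝ) ^ (b0 / 8 * Mt) * 8) := by gcongr
        _ ≤ _ := by
          have : (0:ℝ) < 8 ^ Mt * (2:ℝ) ^ (b0 / 8 * Mt) := by positivity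
          nlinarith
    have hp : ((Mt : ℝ) + 2 * (2:ℕ) + h + 6) ^ 2 ≤ 4 * (Mt + 6) ^ 2 := by
      have : (Mt : ℝ) + 2 * (2:ℕ) + h + 6 ≤ 2 * (Mt + 6) := by push_cast; linarith
      calc ((Mt : ℝ) + 2 * (2:ℕ) + h + 6) ^ 2 ≤ (2 * (Mt + 6)) ^ 2 :=
            pow_le_pow_left₀ (by positivity) this 2
        _ = _ := by ring
    have hμ8 : (2:ℝ) ^ (b0 * Mt) ≤ μ := hR.big
    have hFb : (2:ℝ) ^ (b0 / 2 * F.M) ≤ (2:ℝ) ^ (b0 / 2 * Mt) := by
      refine Real.rpow_le_rpow_of_exponent_le (by norm_num) ?_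
      have : (F.M:ℝ) ≤ Mt := by
        rw [hFMr]
        have : (0:ℝ) ≤ h := Nat.cast_nonneg h
        linarith
      gcongr
    have hx8 : (8:ℝ) < (2:ℝ) ^ (b0 / 8 * Mt) := by
      have h1 : C * ((Mt:ℝ) + 6) ^ 2 ≤ (2:ℝ) ^ (b0 / 8 * Mt) := k2
      have h2 : (1:ℝ) ≤ ((Mt:ℝ) + 6) ^ 2 := by nlinarith
      have h3 : (8:ℝ) < C := by rw [hC]; norm_num
      nlinarith
    calc (2:ℝ) ^ (b0 / 2 * F.M) *
          (128000000 * ((Mt : ℝ) + 2 * (2:ℕ) + h + 6) ^ 2 * 8 ^ (Mt + 2 + h))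
        ≤ (2:ℝ) ^ (b0 / 2 * Mt) * (128000000 * (4 * (Mt + 6) ^ 2) *
            (8 ^ Mt * 8 ^ 3 * (2:ℝ) ^ (b0 / 8 * Mt) * 8)) := by gcongr
      _ = (2:ℝ) ^ (b0 / 2 * Mt) * (2:ℝ) ^ (b0 / 8 * Mt) * (C * (Mt + 6) ^ 2) * 8 * 8 ^ Mt := by
        rw [hC]; ring
      _ ≤ (2:ℝ) ^ (b0 / 2 * Mt) * (2:ℝ) ^ (b0 / 8 * Mt) * (2:ℝ) ^ (b0 / 8 * Mt) * 8 * 8 ^ Mt := by
        gcongr
      _ < (2:ℝ) ^ (b0 / 2 * Mt) * (2:ℝ) ^ (b0 / 8 * Mt) * (2:ℝ) ^ (b0 / 8 * Mt) *
          (2:ℝ) ^ (b0 / 8 * Mt) * 8 ^ Mt := by gcongr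
      _ = (2:ℝ) ^ (7 * b0 / 8 * Mt) * 8 ^ Mt := by
        rw [← Real.rpow_add (by norm_num), ← Real.rpow_add (by norm_num),
          ← Real.rpow_add (by norm_num)]
        congr 2; ring
      _ ≤ (2:ℝ) ^ (b0 * Mt) * 8 ^ Mt := by
        gcongr
        · norm_num
        · linarith
      _ ≤ μ * 8 ^ Mt := by gcongr

end

end Crest.Agent.R136.Tq879
end

-- ▼ part R136/U4H_879
section

/-!
# R136 (S0187), U4: existence of the extremiser, data form (helper879)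

`exists_out` : the failure of `KS4` gives the data of `J1c` : `OutD` (all fields of `J1c` except the
parameter inequalities), `ParL` (the parameter inequalities) and `Ex2` (the two-sided exponents).

enemy36 (879) → soft36 (289) → xoutK (953) → out_of2 (627).
-/

set_option autoImplicit false

open Finset Filter Topology

namespace Crest.Agent.R136.U4G879

open Crest.Agent.R136.KS879 (KS4)
open Crest.Agent.R136.Tq879 (TT36 enemy36)
open Crest.Agent.R136.Yk953 (xoutK)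
open Crest.Agent.R136.DAl879 (Ex2)
open Crest.Agent.R138.Ex926 (Base)
open Crest.Agent.R136.K4 (Plk4)
open Crest.Agent.R136.Sh605 (Ln4)
open Crest.Agent.R136.Lz627 (OutD out_of2)
open Crest.Agent.R136.Sft289 (soft36 ParL)

/-- **existence of the extremiser**, data form. -/
theorem exists_out {η : ℝ} (hη : 0 < η) (h : ¬ KS4) :
    ∃ (B : Base) (I : ℕ → Finset (ℕ × ℝ)) (L : ℕ → ℕ → Ln4) (r0 : ℕ → ℝ)
      (wr cr : Fin 3 → ℕ → ℝ) (lev : ℕ → ℚ → ℕ) (A : ℕ → ℝ) (f : ℕ → ℚ → ℕ → ℤ → ℕ)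
      (b : ℕ → ℚ → ℕ → Plk4) (vm : ℕ → ℚ → ℝ) (w : Fin 3 → ℕ → ℚ → ℝ) (q θ qm qp : Fin 3 → ℝ)
      (g : ℝ), ParL η g q θ ∧ Ex2 η qm qp ∧
        OutD B I L r0 wr cr lev A f b vm w q θ g qm qp := by
  obtain ⟨K, hK, hE⟩ := enemy36 h
  obtain ⟨P, ψ, q0, Qm, κ, δ0, q, g, hR, hC, hg, ⟨Kl, hKl, hL⟩, ⟨qm, qp, hEx, hTw⟩, hpar⟩ :=
    soft36 hη hK hE
  obtain ⟨θ, hX⟩ := xoutK hK hR hC
  have hκ : κ ≤ ψ 1 θ := by
    obtain ⟨B, I, T, L, lev, A, f, b, vm, w, atop, N, a, h1, h2, h3, h4, -⟩ := hX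
    exact h4
  obtain ⟨gl, ql, hgl, hlin, hPL⟩ := hpar θ hκ
  obtain ⟨B, I, L, r0, wr, cr, lev, A, f, b, vm, w, hO⟩ :=
    out_of2 hX hlin hg.le hKl hL hEx.le hTw
  exact ⟨B, I, L, r0, wr, cr, lev, A, f, b, vm, w, ql, θ, qm, qp, g + gl, hPL, hEx, hO⟩

end Crest.Agent.R136.U4G879
end

-- ▼ part R136/U4G_879
section

/-!
# R136 (S0187), U4: existence of the extremiser (helper879)

`exists_core` : the failure of `KS4` gives the extremiser `J1c η` for every `η > 0`.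
-/

set_option autoImplicit false

open Finset Filter Topology

namespace Crest.Agent.R136.U4G879

open Crest.Agent.R136.KS879 (KS4)
open Crest.Agent.R136.Top484 (Par4 Dat4 J1c)

/-- **existence of the extremiser.** -/
theorem exists_core {η : ℝ} (hη : 0 < η) (h : ¬ KS4) : ∃ (p : Par4) (D : Dat4), J1c η p D := by
  obtain ⟨B, I, L, r0, wr, cr, lev, A, f, b, vm, w, q, θ, qm, qp, g, hP, hE, hO⟩ := exists_out hη h
  exact ⟨⟨q, g, θ⟩, ⟨B, I, L, r0, wr, cr, lev, A, f, b, vm, w⟩,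
    { mka := hO.mka
      alld := hO.alld
      sub7 := hO.sub7
      dall := ⟨qm, qp, hE, hO.dall, hO.dall7⟩
      q0 := ⟨hP.q0.1.le, hP.q0.2⟩
      q2 := hP.q2
      q21 := hP.q21
      g0 := hP.g0
      θ1 := hP.θ1
      θb := hP.θb
      θ1b := hP.θ1b
      wrs := hO.wrs
      r0pos := hO.r0pos
      r0log := hO.r0log
      vel := hO.vel }⟩


end Crest.Agent.R136.U4G879
end

-- ▼ part R136/J1m_484

/-!
# R136 (S0187): `J1c` is monotone in `η` (helper484)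
-/

set_option autoImplicit false
set_option linter.unusedVariables false

namespace Crest.Agent.R136.Top484

/-- `J1c` is monotone in `η` -/
theorem J1c.mono {η η' : ℝ} {p : Par4} {D : Dat4} (h : J1c η p D) (hη : η ≤ η') : J1c η' p D := by
  have g0 := h.g0.1.le
  have q1 := h.g0.2.le
  have q2 := h.q2.1.le
  exact { mka := h.mka
          alld := h.alld
          sub7 := h.sub7
          dall := by
            obtain ⟨qm, qp, he, h1, h2⟩ := h.dall
            exact ⟨qm, qp, he.mono hη, h1, h2⟩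
          q0 := ⟨h.q0.1, h.q0.2.trans (mul_le_mul_of_nonneg_right hη q2)⟩
          q2 := ⟨h.q2.1, h.q2.2.trans (mul_le_mul_of_nonneg_right hη g0)⟩
          q21 := h.q21.trans (mul_le_mul_of_nonneg_right hη q1)
          g0 := h.g0
          θ1 := h.θ1
          θb := h.θb.trans (mul_le_mul_of_nonneg_right hη g0)
          θ1b := ⟨h.θ1b.1.trans (mul_le_mul_of_nonneg_right hη g0),
            h.θ1b.2.trans (mul_le_mul_of_nonneg_right hη g0)⟩
          wrs := h.wrs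
          r0pos := h.r0pos
          r0log := h.r0log
          vel := h.vel }

end Crest.Agent.R136.Top484
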