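import Crest.Agent.R136.Stk6_464
import Crest.Agent.R136.Lat2_327

-- ▼ part R136/Mat1_464
section

/-!
# R136, U6 thin side, stage C (helper464): class mates of good incidences, part 1

`MtD` : data of the level `v` mark along the line of a class mate of a good incidence, against the
mark itself; `mtd_of`.
-/

set_option autoImplicit false
set_option linter.unusedVariables false

open Finset Filter Topology

namespace Crest.Agent.R136.Stk464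

open Crest.Agent.R138
open Crest.Agent.R138.Ex926 (Base U)
open Crest.Agent.R138.Dp76 (dpow_pos dpow_add dpow_le dpow_le_one)
open Crest.Agent.R138.ArgM163 (ev_const)
open Crest.Agent.R138.Mk163 (zc zl rho alive)
open Crest.Agent.R138.MkRef627 (lc kc mem_alive)
open Crest.Agent.R136.MkA627
open Crest.Agent.R136.Sh605
open Crest.Agent.R136.K4
open Crest.Agent.R136.NetW191
open Crest.Agent.R136.GeoN778
open Crest.Agent.R136.Wit321
open Crest.Agent.R136.Top484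
open Crest.Agent.R136.Stc321
open Crest.Agent.R136.Tl102 (QF kap Fq bz cmb fr IsExp OmB)
open Crest.Agent.R136.Tlt51 (Close mk4 zx rh Shp InP)
open Crest.Agent.R136.KapP335 (kapP DetP kapP_eq)
open Crest.Agent.R136.Fw650 (z0N zhN rhN)
open Crest.Agent.R136.Thn768 (ThinW Frm Cont Own Snd Tay D3 nm cr exists_tay abs_dt_unit nm_le_sum)
open Crest.Agent.R136.TL650 (own_of)

/-- upper bound of the curvature extent, with a weaker bound of the multiplier -/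
theorem ye_up16 {S : Plk4} {T : Ln4} {z0 ρ δ : ℝ} {b0 b1 : V3} {G : QF} {f : Fin 3 → V3} {c : Ln4}
    {u : Un} {Q : Qd} {κ ν R η z1 : ℝ} {N R' : V3} {H : QF} (O : Own S T z0 ρ δ b0 b1 G) {X : ℝ}
    (hS : Snd S T z0 ρ b0 b1 G X Q.ev N R' H)
    (hδ1 : δ ≤ 1) (hX : X ≤ δ / 10 ^ 9) (hf : Ortho f) (hu : u.Ok)
    (hN : Nr (hatQ f c u Q) (ul u (rl f c T)) z1 κ ν R η) (hκ1 : |κ| ≤ 1) (hκ2 : 1 / 5 ≤ |κ|)
    (hR : 1 ≤ R) (hv : |(ul u (rl f c T)).v 1| ≤ R) (hη0 : 0 ≤ η) (hs : 6000 * (η * R ^ 4) ≤ 1)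
    (hν1 : u.WY / 8 ≤ |ν|) (hν2 : |ν| ≤ 16 * u.WY) :
    δ * (S.w 0 * kap b0 b1 G) ≤ 10 ^ 19 * (u.WY * (S.w 1 / u.WA) ^ 2) := by
  have hY := hu.Y0
  have hA := hu.A0
  have hB := hu.B0
  have hH := hu.H0
  have hρ := O.hρ
  have w1 := O.pos 1
  have w2 := O.pos 2
  have hν : 0 < |ν| := by linarith
  have c1 := hN.crs_le hκ1 hR hv hη0 (by linarith)
  have c2 := hN.crs_ge hκ1 hR hv hη0 (by linarith)
  have e1 := D3_hat (c := c) hf hu hS.tay z1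
  have e2 := Om_hat (c := c) hf hu hS.tay z1
  have k1 := (hS.D O hX hδ1).1
  have k2 := hS.om_le O (by linarith)
  have hYe := O.Ye0
  have om := abs_dt_unit hf 1 (cr N R')
  have := Y_up (P := ρ * (S.w 1 * S.w 2)) (C := 10 ^ 5) (δ := δ)
    (Ye := S.w 0 * kap b0 b1 G) (w1 := S.w 1) (D := D3 N R' H) (Om := dt (f 1) (cr N R')) hν hH hY
    hA hB (by norm_num) hYe w1.le (by positivity)
    (by rw [e1, abs_mul, abs_of_nonneg (sq_nonneg _)]) e2 c1 c2.1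
    (by
      refine k1.trans ?_
      have : 0 ≤ |D3 N R' H| * (ρ * (S.w 1 * S.w 2)) ^ 2 := by positivity
      linarith)
    (by
      refine le_trans ?_ k2
      exact mul_le_mul_of_nonneg_right om (by positivity))
  refine this.trans ?_
  have h3 : 0 ≤ (S.w 1 / u.WA) ^ 2 := sq_nonneg _
  have h4 := mul_le_mul_of_nonneg_right hν2 h3
  have h5 : 0 ≤ u.WY * (S.w 1 / u.WA) ^ 2 := by positivity
  calc 104 * (10 ^ 5 : ℝ) ^ 3 * (|ν| * (S.w 1 / u.WA) ^ 2) ≤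
        104 * (10 ^ 5 : ℝ) ^ 3 * (16 * u.WY * (S.w 1 / u.WA) ^ 2) :=
        mul_le_mul_of_nonneg_left h4 (by norm_num)
    _ ≤ _ := by
        have e : 104 * (10 ^ 5 : ℝ) ^ 3 * (16 * u.WY * (S.w 1 / u.WA) ^ 2) =
          1664 * 10 ^ 15 * (u.WY * (S.w 1 / u.WA) ^ 2) := by ring
        rw [e]
        exact mul_le_mul_of_nonneg_right (by norm_num) h5

/-- **data of the level `v` mark along the line of a class mate, against the mark itself** -/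
structure MtD (D : Dat4) (K : ℕ → CtD) (n : ℕ) (v : ℚ) (x : ℕ × ℝ) (δ R η : ℝ) : Prop where
  ex : ∃ (b0 b1 : V3) (G : QF) (b0p b1p : V3) (Gp : QF),
    Own (mk4 D n v x) (D.L n x.1) (zx D n v x) (rh D n v) δ b0 b1 G ∧
    IsExp (qdOf (mk4 D n 0 x).q).ev (mk4 D n v x).e (mk4 D n v x).w (D.L n x.1) (zx D n v x)
      (rh D n v) b0p b1p Gp ∧
    1 / 16 ≤ |b0p 0 / b0 0| ∧ |b0p 0 / b0 0| ≤ 16 ∧
    (K n).u.WY / 4 ≤ |((K n).Q (mk4 D n v x).q).b 0| ∧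
    |((K n).Q (mk4 D n v x).q).b 0| ≤ 16 * (K n).u.WY ∧
    (∃ g g' : V3, Bas g g' (φb (K n).f (K n).u (mk4 D n v x).e (mk4 D n v x).w (kap b0 b1 G) b0)
      (K n).κ (((K n).t (D.L n x.1)).v 1) R η (rh D n v / (K n).u.H)
      ((mk4 D n v x).w 0 * kap b0 b1 G / |((K n).Q (mk4 D n v x).q).b 0|) 0
      ((mk4 D n v x).w 1 / (K n).u.WA) ((mk4 D n v x).w 2 / (K n).u.WA)
      ((mk4 D n v x).w 1 / (K n).u.WA * ((mk4 D n v x).w 2 / (K n).u.WB))) ∧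
    δ * ((mk4 D n v x).w 0 * kap b0 b1 G) ≤
      (K n).u.WY * ((mk4 D n v x).w 1 / (K n).u.WA) ^ 2 ∧
    δ * ((K n).u.WY * ((mk4 D n v x).w 1 / (K n).u.WA) ^ 2) ≤
      (mk4 D n v x).w 0 * kap b0 b1 G ∧
    (∀ k, |((K n).t (D.L n x.1)).p k| ≤ R ∧ |((K n).t (D.L n x.1)).v k| ≤ R) ∧
    |(K n).u.zh (zx D n v x)| ≤ 1 ∧
    ∃ X : ℝ, 0 ≤ X ∧ (mk4 D n v x).w 0 * kap b0 b1 G * X ≤ R * D.w 0 n 0 ∧
      OmB (kap b0 b1 G) X X X b0 b1 G b0p b1p Gp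

theorem mk_mate {D : Dat4} {n : ℕ} {v : ℚ} {x y : ℕ × ℝ}
    (h : kc (D.lev n v) (D.f n v) y = kc (D.lev n v) (D.f n v) x) :
    mk4 D n v x = mk4 D n v y := by
  unfold mk4
  have := congrArg Prod.fst h
  simp only [kc] at this
  rw [this]

set_option maxHeartbeats 1600000 in
/-- **the data of the class mates** -/
theorem mtd_of {p : Par4} {D : Dat4} {K : ℕ → CtD} {x0 : ℕ → ℕ × ℝ} (h : ThinW p D)
    (hk : StcK p D K x0) (C : ℝ) {v : ℚ} (v0 : 0 ≤ v) (v1 : v ≤ 1) :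
    ∃ C2 M : ℝ, 0 ≤ C2 ∧ ∀ᶠ n in (U : Filter ℕ), ∀ w ∈ D.I n, ∀ x ∈ D.I n,
      kc (D.lev n v) (D.f n v) x = kc (D.lev n v) (D.f n v) w → Gd D K C n w →
        (∀ k, |MkS D K v n (kc (D.lev n v) (D.f n v) x) k| ≤ D.B.d n ^ (-C2)) ∧
        MtD D K n v x (D.B.d n ^ (1 : ℝ)) (D.B.d n ^ (-C2)) (D.B.d n ^ M) := by
  obtain ⟨Cs, hs⟩ := sndLev_of h
  obtain ⟨C1, hMb⟩ := Mb_all h hk C v v0 v1
  obtain ⟨Cm, hmb⟩ := Lat327.mate_bd h hk C v v0 v1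
  have hbg := b0_ge h hk v0 v1 hMb
  set C0 : ℝ := max (max C1 Cm) 0 with hC0
  have c00 : 0 ≤ C0 := le_max_right _ _
  have c01 : C1 ≤ C0 := (le_max_left _ _).trans (le_max_left _ _)
  have c0m : Cm ≤ C0 := (le_max_right _ _).trans (le_max_left _ _)
  set C2 : ℝ := max (C0 + 1) Cs with hC2
  have c21 : C0 + 1 ≤ C2 := le_max_left _ _
  have c2s : Cs ≤ C2 := le_max_right _ _
  set M : ℝ := 4 * C2 + 10 with hM
  refine ⟨C2, M, by linarith, ?_⟩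
  set MX : ℝ := M + 2 with hMX
  set MP : ℝ := M + C2 + 1 with hMP
  filter_upwards [hs v v0 v1 MX, mk_facts h.mka v0 v1, mk_facts h.mka le_rfl zero_le_one,
    h.nd v v0 v1 1 one_pos, h.nd v v0 v1 (1 / 100) (by norm_num),
    h.nd v v0 v1 (1 / 2) (by norm_num), hk.sm MP, hk.σs (MP + C0), hk.YB M, hk.kp0,
    cell_v h.mka hk v0 v1, hk.bal v v0 v1 (1 / 4) (by norm_num),
    cpow_le D.B (10 ^ 6) (show (0 : ℝ) < 1 by norm_num),
    cpow_le D.B (10 ^ 19) (show (0 : ℝ) < 1 / 2 by norm_num),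
    hMb, hmb, hbg] with n hs mf mf0 nd nd1 nd2 sm σs YB kp0 cv bal k1 k2 hMb hmb hbg w hw x hx
      hxw hg
  have hmk : mk4 D n v w = mk4 D n v x := mk_mate hxw
  obtain ⟨gb, gf⟩ := hMb w hw hg
  obtain ⟨nu1, nu2⟩ := hbg w hw hg
  have gl := hmb w hw x hx hxw hg
  rw [← hxw] at gf
  rw [hmk] at gb nu1 nu2
  have gf' : ∀ k, |flg (K n).κ (K n).σ ((K n).Q (mk4 D n v x).q) k| ≤ D.B.d n ^ (-C1) := gf
  have dp := dpow_pos D.B n
  have d1 : ∀ {s : ℝ}, 0 ≤ s → D.B.d n ^ s ≤ 1 := fun hs => dpow_le_one D.B n hs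
  rw [Real.rpow_zero] at k1 k2
  obtain ⟨f1, f2, f3, f4, f5⟩ := mf.2 x hx
  obtain ⟨g1, g2, g3, g4, g5⟩ := mf0.2 x hx
  have ha : 0 < (mk4 D n v x).a := by rw [f3]; exact mf.1
  have hρ : 0 < rh D n v := rho_pos' _
  obtain ⟨b0, b1, G, O⟩ := own_of f2 ha f1 hρ (dp 1) (nd x hx)
  have O1 : Own (mk4 D n v x) (D.L n x.1) (zx D n v x) (rh D n v) (D.B.d n ^ (1 / 100 : ℝ))
      b0 b1 G := ⟨O.ortho, O.pos, O.w02, O.w21, O.hρ, O.exp, O.nrm, O.k0, dp _, nd1 x hx⟩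
  have O2 : Own (mk4 D n v x) (D.L n x.1) (zx D n v x) (rh D n v) (D.B.d n ^ (1 / 2 : ℝ))
      b0 b1 G := ⟨O.ortho, O.pos, O.w02, O.w21, O.hρ, O.exp, O.nrm, O.k0, dp _, nd2 x hx⟩
  obtain ⟨X, N, R', H, hS, hX1, hX0, hX2⟩ := hs x hx b0 b1 G O1
  have hq0 := (Stk464.qdOf_spec g2.isQ).1
  have hqv := (Stk464.qdOf_spec f2.isQ).1
  have hSQ : Snd (mk4 D n v x) (D.L n x.1) (zx D n v x) (rh D n v) b0 b1 G X
      (qdOf (mk4 D n 0 x).q).ev N R' H := by rw [← hq0]; exact hS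
  obtain ⟨b0p, b1p, Gp, hE, m1, m2', hO⟩ := hSQ.ex
  -- the mark itself
  obtain ⟨Nv, Rv, Hv, hTv⟩ := exists_tay f2.isQ (D.L n x.1)
  have hSv : Snd (mk4 D n v x) (D.L n x.1) (zx D n v x) (rh D n v) b0 b1 G 0
      (qdOf (mk4 D n v x).q).ev Nv Rv Hv := by rw [← hqv]; exact O.snd hTv
  obtain ⟨b0v, b1v, Gv, hEv, mv1, mv2, hOv⟩ := hSv.ex
  -- numbers
  set Rr : ℝ := D.B.d n ^ (-C2) with hRr
  set η : ℝ := D.B.d n ^ M with hη
  have R1 : 1 ≤ Rr := Real.one_le_rpow_of_pos_of_le_one_of_nonpos (D.B.pos n) (D.B.lt n).le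
    (by linarith)
  have η0 : 0 < η := dp _
  set Γ : ℝ := D.B.d n ^ (-C1) with hΓ
  set P1 : ℝ := D.B.d n ^ MP with hP1
  have hP10 : 0 < P1 := dp _
  have e1 : P1 * Rr = η * D.B.d n ^ (1 : ℝ) := by
    rw [hP1, hRr, hη, ← dpow_add, ← dpow_add]; congr 1; rw [hMP]; ring
  have σ0 := hk.σ0 n
  have hσΓ : (K n).σ * Γ ≤ P1 := by
    calc (K n).σ * Γ ≤ D.B.d n ^ (MP + C0) * D.B.d n ^ (-C1) :=
          mul_le_mul_of_nonneg_right σs (dp _).le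
      _ = D.B.d n ^ (MP + C0 - C1) := by rw [← dpow_add]; congr 1
      _ ≤ P1 := dpow_le D.B n (by linarith)
  have hσΓ0 : 0 ≤ (K n).σ * Γ := mul_nonneg σ0.le (dp _).le
  have hd1 : D.B.d n ^ (1 : ℝ) ≤ 1 / 10 ^ 6 := by
    rw [le_div_iff₀ (by norm_num)]; linarith
  have hP1s : P1 ≤ 1 / 10 ^ 6 := by
    refine le_trans (dpow_le D.B n (show (1 : ℝ) ≤ MP by rw [hMP]; linarith)) hd1
  have hηs : η ≤ 1 / 10 ^ 6 := le_trans (dpow_le D.B n (show (1 : ℝ) ≤ M by linarith)) hd1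
  have hRη : Rr ^ 4 * η ≤ 1 / 10 ^ 6 := by
    have e : Rr ^ 4 = D.B.d n ^ (-(4 * C2)) := by
      rw [hRr, ← Real.rpow_natCast, ← Real.rpow_mul (D.B.pos n).le]; congr 1; push_cast; ring
    rw [e, hη, ← dpow_add]
    exact le_trans (dpow_le D.B n (by linarith)) hd1
  have hR4 : Rr ≤ Rr ^ 4 := by
    have : Rr ^ 1 ≤ Rr ^ 4 := pow_le_pow_right₀ R1 (by norm_num)
    rwa [pow_one] at this
  have hRη1 : Rr * η ≤ 1 / 10 ^ 6 := (mul_le_mul_of_nonneg_right hR4 η0.le).trans hRη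
  -- positions
  have hC2' : D.B.d n ^ (-C0) * 2 ≤ Rr := by
    have a : 2 ≤ D.B.d n ^ (-(1 : ℝ)) := by
      have e : D.B.d n ^ (1 : ℝ) * D.B.d n ^ (-(1 : ℝ)) = 1 := by
        rw [← dpow_add]; simp
      have h3 := mul_le_mul_of_nonneg_right hd1 (dp (-(1 : ℝ))).le
      rw [e] at h3
      linarith
    calc D.B.d n ^ (-C0) * 2 ≤ D.B.d n ^ (-C0) * D.B.d n ^ (-(1 : ℝ)) :=
          mul_le_mul_of_nonneg_left a (dp _).le
      _ = D.B.d n ^ (-C0 + -1) := (dpow_add D.B n _ _).symm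
      _ ≤ Rr := dpow_le D.B n (by linarith)
  have hΓm : D.B.d n ^ (-Cm) ≤ D.B.d n ^ (-C0) := dpow_le D.B n (by linarith)
  set t := (K n).t (D.L n x.1) with ht
  have tp : ∀ k, |t.p k| ≤ D.B.d n ^ (-C0) := fun k => (gl k).1.trans hΓm
  have tvb : ∀ k, |t.v k| ≤ D.B.d n ^ (-C0) := fun k => (gl k).2.trans hΓm
  have dC0 := dp (-C0)
  have tpR : ∀ k, |t.p k| ≤ Rr := fun k => (tp k).trans (by linarith)
  have tvR : ∀ k, |t.v k| ≤ Rr := fun k => (tvb k).trans (by linarith)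
  have pos : ∀ z, |z| ≤ 1 → ∀ k, |t.pos z k| ≤ Rr := by
    intro z hz k
    have := a2 (tp k) (m2 hz (tvb k))
    show |t.p k + z * t.v k| ≤ _
    linarith
  have zz0 : |(K n).u.zh (zx D n v x)| ≤ 1 := by
    refine cv.2.2 x hx _ (le_of_eq ?_) ?_
    · rw [uzh_eq]; rfl
    · rw [uzh_eq]
      show z0N D.lev (hzS K) (zsS K) v n (zc (D.lev n v) x.2) ≤ _
      have : 0 < rhN D.lev (hzS K) n v := lt_of_lt_of_le (dp _) cv.1
      linarith
  -- near the model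
  have nr : Nr ((K n).Qh (mk4 D n v x).q) t ((K n).u.zh (zx D n v x)) (K n).κ
      (((K n).Q (mk4 D n v x).q).b 0) Rr η := by
    have hb1 : Rr * (24 * P1 + (K n).σ * Γ) ≤ 25 * (P1 * Rr) := by
      have := mul_le_mul_of_nonneg_left (show 24 * P1 + (K n).σ * Γ ≤ 25 * P1 by linarith)
        (by linarith : 0 ≤ Rr)
      linarith
    have hb2 : 25 * (P1 * Rr) ≤ η / 9 := by
      rw [e1]
      have := mul_le_mul_of_nonneg_left hd1 η0.le
      linarith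
    have := nr_good (z1 := (K n).u.zh (zx D n v x)) sm (by linarith) σ0 (hk.kp1 n) gb gf'
      (by linarith) (t := t) R1 (zz0.trans R1) (pos _ zz0) tvR (by linarith)
    exact this.mono (by linarith)
  have hWY := (hk.ok n).Y0
  have hWA := (hk.ok n).A0
  have hWB := (hk.ok n).B0
  have hHp := (hk.ok n).H0
  have hrh : rh D n v / (K n).u.H = rhN D.lev (hzS K) n v := by
    show rho (D.lev n v) / (K n).u.H = 1 / (K n).u.H * rho (D.lev n v)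
    ring
  have hRη' : 6000 * (η * Rr ^ 4) ≤ 1 := by
    have : η * Rr ^ 4 = Rr ^ 4 * η := mul_comm _ _
    rw [this]; linarith
  have hBas := bas_of (c := (K n).c) O (hk.ortho n) (hk.ok n) hEv mv1 mv2 hOv le_rfl (by norm_num)
    nr (hk.kp1 n) R1 (tvR 1) η0.le (by linarith)
    (by
      have : rh D n v / (K n).u.H ≤ 1 := by rw [hrh]; linarith [cv.2.1]
      rwa [div_le_one hHp] at this) (by linarith) (by linarith) YB
  -- curvature extent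
  have hX9 : (0 : ℝ) ≤ D.B.d n ^ (1 / 2 : ℝ) / 10 ^ 9 := by
    have := dp (1 / 2)
    positivity
  have up := ye_up16 (c := (K n).c) O2 hSv (d1 (by norm_num)) hX9 (hk.ortho n) (hk.ok n) nr
    (hk.kp1 n) kp0 R1 (tvR 1) η0.le hRη' (by linarith) nu2
  set A := (mk4 D n v x).w 1 / (K n).u.WA with hA
  have hA0 : 0 < A := div_pos (O.pos 1) hWA
  have hYe := O.Ye0
  have hup : D.B.d n ^ (1 : ℝ) * ((mk4 D n v x).w 0 * kap b0 b1 G) ≤ (K n).u.WY * A ^ 2 := by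
    have e : D.B.d n ^ (1 : ℝ) = D.B.d n ^ (1 / 2 : ℝ) * D.B.d n ^ (1 / 2 : ℝ) := by
      rw [← dpow_add]; congr 1; norm_num
    have hp : 0 < (K n).u.WY * A ^ 2 := by positivity
    calc D.B.d n ^ (1 : ℝ) * ((mk4 D n v x).w 0 * kap b0 b1 G) =
          D.B.d n ^ (1 / 2 : ℝ) * (D.B.d n ^ (1 / 2 : ℝ) * ((mk4 D n v x).w 0 * kap b0 b1 G)) := by
            rw [e]; ring
      _ ≤ D.B.d n ^ (1 / 2 : ℝ) * (10 ^ 19 * ((K n).u.WY * A ^ 2)) :=
          mul_le_mul_of_nonneg_left up (dp _).le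
      _ = 10 ^ 19 * D.B.d n ^ (1 / 2 : ℝ) * ((K n).u.WY * A ^ 2) := by ring
      _ ≤ 1 * ((K n).u.WY * A ^ 2) := mul_le_mul_of_nonneg_right k2 hp.le
      _ = _ := one_mul _
  have hbb : D.B.d n ^ (1 / 4 : ℝ) * A ^ 2 ≤
      rh D n v / (K n).u.H * ((mk4 D n v x).w 2 / (K n).u.WB) := by
    have b2 := bal.2
    have e : wBS D K n v = A ^ 2 / rhN D.lev (hzS K) n v := by
      rw [hA, f4]; rfl
    have hr0 : 0 < rhN D.lev (hzS K) n v := lt_of_lt_of_le (dp _) cv.1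
    rw [e] at b2
    rw [hrh, f5]
    have e3 : D.B.d n ^ (1 / 4 : ℝ) * D.B.d n ^ (-(1 / 4 : ℝ)) = 1 := by rw [← dpow_add]; simp
    have b3 := mul_le_mul_of_nonneg_left b2
      (div_nonneg (mul_nonneg (dp (1 / 4)).le hr0.le) hWB.le)
    have e4 : D.B.d n ^ (1 / 4 : ℝ) * rhN D.lev (hzS K) n v / (K n).u.WB *
        ((K n).u.WB * (A ^ 2 / rhN D.lev (hzS K) n v)) = D.B.d n ^ (1 / 4 : ℝ) * A ^ 2 := by
      field_simp
    have e5 : D.B.d n ^ (1 / 4 : ℝ) * rhN D.lev (hzS K) n v / (K n).u.WB *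
        (D.w 2 n v * D.B.d n ^ (-(1 / 4 : ℝ))) = (D.B.d n ^ (1 / 4 : ℝ) * D.B.d n ^ (-(1 / 4 : ℝ))) *
          (rhN D.lev (hzS K) n v * (D.w 2 n v / (K n).u.WB)) := by ring
    rw [e4, e5, e3, one_mul] at b3
    exact b3
  have low := ye_low (c := (K n).c) O2 hSv (d1 (by norm_num)) hX9 (hk.ortho n) (hk.ok n)
    nr (hk.kp1 n) kp0 R1 (tvR 1) η0.le hRη' (by linarith) (dp (1 / 4)) hbb
  have hlow : D.B.d n ^ (1 : ℝ) * ((K n).u.WY * A ^ 2) ≤ (mk4 D n v x).w 0 * kap b0 b1 G := by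
    refine cube_le (mul_nonneg (dp _).le (by positivity)) hYe.le ?_
    have e : (D.B.d n ^ (1 : ℝ) * ((K n).u.WY * A ^ 2)) ^ 3 =
        D.B.d n ^ (5 / 2 : ℝ) * ((D.B.d n ^ (1 / 4 : ℝ)) ^ 2 * ((K n).u.WY * A ^ 2) ^ 3) := by
      rw [mul_pow, ← mul_assoc]
      congr 1
      rw [← Real.rpow_natCast, ← Real.rpow_mul (D.B.pos n).le, ← Real.rpow_natCast,
        ← Real.rpow_mul (D.B.pos n).le, ← dpow_add]
      congr 1; push_cast; ring
    rw [e]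
    have k3 : D.B.d n ^ (5 / 2 : ℝ) * 10 ^ 17 ≤ 1 := by
      have : D.B.d n ^ (5 / 2 : ℝ) ≤ D.B.d n ^ (1 / 2 : ℝ) := dpow_le D.B n (by norm_num)
      have := dp (1 / 2)
      linarith
    calc D.B.d n ^ (5 / 2 : ℝ) * ((D.B.d n ^ (1 / 4 : ℝ)) ^ 2 * ((K n).u.WY * A ^ 2) ^ 3) ≤
          D.B.d n ^ (5 / 2 : ℝ) * (10 ^ 17 * ((mk4 D n v x).w 0 * kap b0 b1 G) ^ 3) :=
          mul_le_mul_of_nonneg_left low (dp _).le
      _ = D.B.d n ^ (5 / 2 : ℝ) * 10 ^ 17 * ((mk4 D n v x).w 0 * kap b0 b1 G) ^ 3 := by ring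
      _ ≤ 1 * ((mk4 D n v x).w 0 * kap b0 b1 G) ^ 3 :=
          mul_le_mul_of_nonneg_right k3 (pow_pos hYe 3).le
      _ = _ := one_mul _
  refine ⟨fun k => (gf k).trans (dpow_le D.B n (by linarith)),
    ⟨b0, b1, G, b0p, b1p, Gp, O, hE, m1, m2', nu1, nu2, ⟨_, _, hBas⟩, hup, hlow,
    fun k => ⟨tpR k, tvR k⟩, zz0, X, hX0, ?_, hO⟩⟩
  refine hX2.trans (mul_le_mul_of_nonneg_right (dpow_le D.B n (by linarith)) ?_)
  exact mf0.1.le

end Crest.Agent.R136.Stk464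
end

-- ▼ part R136/Mat2_464

/-!
# R136, U6 thin side, stage C (helper464): class mates of good incidences, part 2

`mate_of` : the field `mate` of `StcA`.
-/

set_option autoImplicit false
set_option linter.unusedVariables false

open Finset Filter Topology

namespace Crest.Agent.R136.Stk464

open Crest.Agent.R138
open Crest.Agent.R138.Ex926 (Base U)
open Crest.Agent.R138.Dp76 (dpow_pos dpow_add dpow_le dpow_le_one)
open Crest.Agent.R138.ArgM163 (ev_const)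
open Crest.Agent.R138.Mk163 (zc zl rho alive)
open Crest.Agent.R138.MkRef627 (lc kc mem_alive)
open Crest.Agent.R136.MkA627
open Crest.Agent.R136.Sh605
open Crest.Agent.R136.NetW191
open Crest.Agent.R136.GeoN778
open Crest.Agent.R136.Wit321
open Crest.Agent.R136.Top484
open Crest.Agent.R136.Stc321
open Crest.Agent.R136.Tl102 (QF kap Fq bz cmb fr IsExp OmB)
open Crest.Agent.R136.Tlt51 (Close mk4 zx rh Shp InP)
open Crest.Agent.R136.KapP335 (kapP DetP kapP_eq)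
open Crest.Agent.R136.Fw650 (z0N zhN rhN)
open Crest.Agent.R136.Thn768 (ThinW Frm Cont Own Snd Tay D3 nm cr exists_tay abs_dt_unit nm_le_sum)

variable {p : Par4} {D : Dat4} {K : ℕ → CtD} {x0 : ℕ → ℕ × ℝ}

set_option maxHeartbeats 1600000 in
/-- **class mates of good incidences are good** : the field `mate` of `StcA` -/
theorem mate_of (h : ThinW p D) (hK : StcK p D K x0) :
    ∀ C : ℝ, ∀ v : ℚ, 0 ≤ v → v ≤ 1 → ∃ C' : ℝ, ∀ᶠ n in (U : Filter ℕ), ∀ x ∈ D.I n,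
    ∀ y ∈ D.I n, kc (D.lev n v) (D.f n v) y = kc (D.lev n v) (D.f n v) x → Gd D K C n x →
      Gd D K C' n y := by
  intro C v h0 h1
  obtain ⟨C2, M, c20, hC2⟩ := mtd_of h hK C h0 h1
  set a : ℝ := |1 - p.θ 0| + |1 - p.θ 1| + |1 - p.θ 2| with ha
  set e : ℝ := max C2 0 + a + 4 with he
  have a0 := abs_nonneg (1 - p.θ 0)
  have a1 := abs_nonneg (1 - p.θ 1)
  have a2' := abs_nonneg (1 - p.θ 2)
  have m0 : 0 ≤ max C2 0 := le_max_right _ _
  have eC2 : C2 ≤ e := by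
    have : C2 ≤ max C2 0 := le_max_left _ _
    linarith
  have e4 : 4 ≤ e := by linarith
  have ep : 0 < e := by linarith
  refine ⟨42 * e, ?_⟩
  filter_upwards [hC2, mk_facts h.mka h0 h1, mk_facts h.mka le_rfl zero_le_one,
    cell_v h.mka hK h0 h1, hK.sm 1, hK.σs (41 * e), hK.σw, hK.wid 1 one_pos,
    Wcn464.wid_le h.mka 0 h0 h1, Wcn464.wid_le h.mka 1 h0 h1, wid_ge h.mka 1 h0 h1,
    wid_ge h.mka 2 h0 h1, h.mka.lev_mono 0 v le_rfl h0 h1, ev_const D.B (C := 10 ^ 6) (by norm_num) ep,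
    ev_const D.B (C := 1000) (by norm_num) one_pos] with n b1 b2 b3 b4 b5 b6 b7 b8 c0 c1 c2 c3 b9
      b10 b11 w hw x hx hxw hg
  obtain ⟨gfl, hMt⟩ := b1 w hw x hx hxw hg
  obtain ⟨B0, B1, G, B0p, B1p, Gp, O, hE, q1, q2, q3', q4, ⟨gg, gg', hB⟩, y1, y2, hpv, hzh, X, X0,
    X2, hO⟩ := hMt.ex
  obtain ⟨mv0, mv⟩ := b2
  obtain ⟨v1, v2, v3, v4, v5⟩ := mv x hx
  obtain ⟨mo0, mo⟩ := b3
  obtain ⟨o1, o2, o3, o4, o5⟩ := mo x hx
  have dp := dpow_pos D.B n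
  have hWA := (hK.ok n).A0
  have hWB := (hK.ok n).B0
  have hWY := (hK.ok n).Y0
  have hH := (hK.ok n).H0
  set t : ℝ := D.B.d n ^ (-e) with ht
  have t0 : 0 < t := dp _
  have t1 : 1 ≤ t := by linarith
  set dd : ℝ := D.B.d n ^ (1 : ℝ) with hdd
  have dd0 : 0 < dd := dp _
  have ed : D.B.d n ^ (-(1 : ℝ)) * dd = 1 := by rw [hdd, ← dpow_add]; simp
  have hd1 : 1000 * dd ≤ 1 := by
    have := mul_le_mul_of_nonneg_right b11 dd0.le
    linarith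
  -- the widths
  set s1 : ℝ := D.B.d n ^ (-(|1 - p.θ 1| + 2)) with hs1
  set s2 : ℝ := D.B.d n ^ (-(|1 - p.θ 2| + 2)) with hs2
  have s10 : 0 < s1 := dp _
  have s20 : 0 < s2 := dp _
  have es1 : s1 * D.B.d n ^ (-(1 : ℝ)) ≤ t := by
    rw [hs1, ← dpow_add]
    exact dpow_le D.B n (by linarith)
  have es2 : s2 ≤ t := dpow_le D.B n (by linarith)
  have es1' : s1 ≤ t := dpow_le D.B n (by linarith)
  set A1 : ℝ := (mk4 D n v x).w 1 / (K n).u.WA with hA1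
  set A2 : ℝ := (mk4 D n v x).w 2 / (K n).u.WB with hA2
  have A10 : 0 < A1 := div_pos (O.pos 1) hWA
  have A20 : 0 < A2 := div_pos (O.pos 2) hWB
  have A1u : A1 ≤ s1 := by
    rw [hA1, div_le_iff₀ hWA, v4]
    have k1 := mul_le_mul_of_nonneg_right b8.2.1 (dp (-(|1 - p.θ 1| + 1))).le
    refine (c1.trans k1).trans (le_of_eq ?_)
    have e1 : s1 = D.B.d n ^ (-(1 : ℝ)) * D.B.d n ^ (-(|1 - p.θ 1| + 1)) := by
      rw [hs1, ← dpow_add]; congr 1; ring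
    rw [e1]; ring
  have low : ∀ {w0 wv W E : ℝ}, 0 < W → dd * W ≤ w0 → w0 ≤ wv * D.B.d n ^ (-(E + 1)) →
      1 ≤ D.B.d n ^ (-(E + 2)) * (wv / W) := by
    intro w0 wv W E hW k1 k2
    have e1 : D.B.d n ^ (-(E + 2)) = D.B.d n ^ (-(1 : ℝ)) * D.B.d n ^ (-(E + 1)) := by
      rw [← dpow_add]; congr 1; ring
    have k3 := mul_le_mul_of_nonneg_left (k1.trans k2) (dp (-(1 : ℝ))).le
    rw [← mul_assoc, ed, one_mul] at k3
    have e2 : D.B.d n ^ (-(E + 2)) * (wv / W) =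
        D.B.d n ^ (-(1 : ℝ)) * (wv * D.B.d n ^ (-(E + 1))) / W := by rw [e1]; ring
    rw [e2, le_div_iff₀ hW, one_mul]
    exact k3
  have A1l : 1 ≤ s1 * A1 := by
    rw [hA1, v4]; exact low hWA b8.1 c2
  have A2l : 1 ≤ s2 * A2 := by
    rw [hA2, v5]; exact low hWB b8.2.2.1 c3
  have hα : 0 < A1 * A2 := mul_pos A10 A20
  have hα' : 1 ≤ t ^ 2 * (A1 * A2) := by
    calc (1 : ℝ) ≤ s1 * A1 * (s2 * A2) := one_le_mul_of_one_le_of_one_le A1l A2l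
      _ ≤ t * A1 * (t * A2) := mul_le_mul (mul_le_mul_of_nonneg_right es1' A10.le)
          (mul_le_mul_of_nonneg_right es2 A20.le) (by positivity) (by positivity)
      _ = t ^ 2 * (A1 * A2) := by ring
  -- the curvature extent
  set ν := ((K n).Q (mk4 D n v x).q).b 0 with hν
  have q3 : (K n).u.WY / 8 ≤ |ν| := by linarith
  have hν0 : 0 < |ν| := by linarith
  set Ye : ℝ := (mk4 D n v x).w 0 * kap B0 B1 G with hYe
  have Ye0 : 0 < Ye := O.Ye0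
  set Y : ℝ := Ye / |ν| with hY
  have Y0 : 0 < Y := div_pos Ye0 hν0
  have Y1 : Y ≤ t ^ 2 := by
    rw [hY, div_le_iff₀ hν0]
    have k1 : dd * Ye ≤ (K n).u.WY * s1 ^ 2 := by
      refine y1.trans ?_
      exact mul_le_mul_of_nonneg_left (pow_le_pow_left₀ A10.le A1u 2) hWY.le
    have k2 := mul_le_mul_of_nonneg_left k1 (dp (-(1 : ℝ))).le
    rw [← mul_assoc, ed, one_mul] at k2
    have k3 : t ^ 2 * ((K n).u.WY / 8) ≤ t ^ 2 * |ν| := mul_le_mul_of_nonneg_left q3 (by positivity)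
    refine le_trans ?_ k3
    have k4 : (s1 * D.B.d n ^ (-(1 : ℝ))) ^ 2 ≤ t ^ 2 :=
      pow_le_pow_left₀ (mul_pos s10 (dp _)).le es1 2
    have k5 := mul_le_mul_of_nonneg_right k4 (show 0 ≤ (K n).u.WY / 8 by positivity)
    refine le_trans ?_ k5
    refine k2.trans ?_
    have k6 : 8 * (D.B.d n ^ (-(1 : ℝ)) * ((K n).u.WY * s1 ^ 2)) ≤
        D.B.d n ^ (-(1 : ℝ)) * (D.B.d n ^ (-(1 : ℝ)) * ((K n).u.WY * s1 ^ 2)) :=
      mul_le_mul_of_nonneg_right (by linarith) (mul_pos (dp _) (by positivity)).le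
    have e1 : (s1 * D.B.d n ^ (-(1 : ℝ))) ^ 2 * ((K n).u.WY / 8) =
        D.B.d n ^ (-(1 : ℝ)) * (D.B.d n ^ (-(1 : ℝ)) * ((K n).u.WY * s1 ^ 2)) / 8 := by ring
    rw [e1]
    linarith
  have Y2 : 1 ≤ t ^ 2 * Y := by
    have k1 : dd * ((K n).u.WY * A1 ^ 2) ≤ Ye := y2
    have k2 : dd * A1 ^ 2 / 16 ≤ Y := by
      rw [hY, le_div_iff₀ hν0]
      have k3 := mul_le_mul_of_nonneg_left q4 (show 0 ≤ dd * A1 ^ 2 / 16 by positivity)
      refine k3.trans (le_trans (le_of_eq ?_) k1)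
      ring
    have k4 : (s1 * D.B.d n ^ (-(1 : ℝ))) ^ 2 ≤ t ^ 2 :=
      pow_le_pow_left₀ (mul_pos s10 (dp _)).le es1 2
    have k5 : (s1 * D.B.d n ^ (-(1 : ℝ))) ^ 2 * (dd * A1 ^ 2 / 16) ≤ t ^ 2 * Y :=
      mul_le_mul k4 k2 (by positivity) (by positivity)
    refine le_trans ?_ k5
    have e1 : (s1 * D.B.d n ^ (-(1 : ℝ))) ^ 2 * (dd * A1 ^ 2 / 16) =
        (s1 * A1) ^ 2 * (D.B.d n ^ (-(1 : ℝ)) * (D.B.d n ^ (-(1 : ℝ)) * dd) / 16) := by ring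
    rw [e1, ed, mul_one]
    have k6 : (1 : ℝ) ≤ (s1 * A1) ^ 2 := one_le_pow₀ A1l
    exact one_le_mul_of_one_le_of_one_le k6 (by linarith)
  -- the cell
  have hr := hB.rh0
  have erh : rh D n v / (K n).u.H = rhN D.lev (hzS K) n v := by
    show rho (D.lev n v) / (K n).u.H = 1 / (K n).u.H * rho (D.lev n v)
    ring
  have hv1 : (v : ℝ) ≤ 1 := by exact_mod_cast h1
  have hr' : 1 ≤ t * (rh D n v / (K n).u.H) := by
    rw [erh]
    have k1 := mul_le_mul_of_nonneg_left b4.1 t0.le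
    refine le_trans ?_ k1
    rw [ht, ← dpow_add]
    exact Real.one_le_rpow_of_pos_of_le_one_of_nonpos (D.B.pos n) (D.B.lt n).le (by linarith)
  have hR : D.B.d n ^ (-C2) ≤ t := dpow_le D.B n (by linarith)
  obtain ⟨n1, n2⟩ := mb_num b10 hB.R1 hR Y0 Y1 Y2 hr hr' A10.le (A1u.trans es1') hα hα'
  -- values on the cell
  have hsv := qdOf_spec v2.isQ
  have hs0 := qdOf_spec o2.isQ
  set Kk : ℝ := D.w 0 n 0 * t ^ 2 with hKk
  have tt : t ≤ t ^ 2 := le_self_pow₀ t1 (by norm_num)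
  have hKX : Ye * X ≤ Kk := by
    refine X2.trans ?_
    rw [hKk, mul_comm]
    exact mul_le_mul_of_nonneg_left (hR.trans tt) mo0.le
  have hwv : D.w 0 n v ≤ D.w 0 n 0 * t :=
    c0.trans (mul_le_mul_of_nonneg_left (dpow_le D.B n (by linarith)) mo0.le)
  have cell : ∀ z, zx D n v x ≤ z → z ≤ zx D n v x + rh D n v →
      |(qdOf (mk4 D n 0 x).q).ev z ((D.L n x.1).pos z) - B0p 0 / B0 0 *
        (qdOf (mk4 D n v x).q).ev z ((D.L n x.1).pos z)| ≤ Kk := by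
    intro z z1 z2
    rw [← hsv.1, ← hs0.1]
    obtain ⟨u1, u2⟩ := cell_nest b9 x.2
    have k1 := (v1 z z1 z2).2
    have k2 := (o1 z (u1.trans z1) (z2.trans u2)).2
    rw [v3] at k1
    rw [o3] at k2
    refine (abs_sub _ _).trans ?_
    rw [abs_mul]
    have k3 : |B0p 0 / B0 0| * |(mk4 D n v x).q z ((D.L n x.1).pos z)| ≤ 16 * D.w 0 n v :=
      mul_le_mul q2 k1 (abs_nonneg _) (by norm_num)
    have k4 : D.w 0 n 0 ≤ D.w 0 n 0 * t := le_mul_of_one_le_right mo0.le t1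
    have k5 : 17 * (D.w 0 n 0 * t) ≤ t * (D.w 0 n 0 * t) :=
      mul_le_mul_of_nonneg_right (by linarith) (by positivity)
    have k6 : t * (D.w 0 n 0 * t) = Kk := by rw [hKk]; ring
    linarith
  have Kk0 : 0 ≤ Kk := by rw [hKk]; positivity
  have hW := om_sz O (hK.ortho n) (c := (K n).c) (hK.ok n) hsv.1 hs0.2 hsv.2 hE X0 hO hB
    (fun k => (hpv k).1) (fun k => (hpv k).2) (hzh.trans hB.R1) hKX cell n1
    (one_le_pow₀ t1)
  have hKw := n2 Kk Kk0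
  set Kw : ℝ := 10 ^ 4 * (D.B.d n ^ (-C2)) ^ 4 * (18 * (Kk * (t ^ 15) ^ 2) /
    (rh D n v / (K n).u.H)) / (rh D n v / (K n).u.H) ^ 2 with hKwd
  have k40 : Kw ≤ D.w 0 n 0 * t ^ 40 := by
    refine hKw.trans (le_of_eq ?_)
    rw [hKk]; ring
  have t40 : t ^ 40 = D.B.d n ^ (-(40 * e)) := by
    rw [ht, ← Real.rpow_natCast, ← Real.rpow_mul (D.B.pos n).le]; congr 1; push_cast; ring
  have t41 : t ^ 41 = D.B.d n ^ (-(41 * e)) := by
    rw [ht, ← Real.rpow_natCast, ← Real.rpow_mul (D.B.pos n).le]; congr 1; push_cast; ring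
  have hσ := hK.σ0 n
  have hσt : (K n).σ * t ^ 41 ≤ 1 := by
    have k1 := mul_le_mul_of_nonneg_right b6 (show 0 ≤ t ^ 41 by positivity)
    refine k1.trans (le_of_eq ?_)
    rw [t41, ← dpow_add]; simp
  have k100 : 10 ^ 4 * Kw ≤ (K n).u.WY := by
    have k1 : 10 ^ 4 * (D.w 0 n 0 * t ^ 40) ≤ t * (D.w 0 n 0 * t ^ 40) :=
      mul_le_mul_of_nonneg_right (by linarith) (by positivity)
    have k2 : t * (D.w 0 n 0 * t ^ 40) = (K n).u.WY * ((K n).σ * t ^ 41) := by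
      rw [← b7]; ring
    have k3 := mul_le_mul_of_nonneg_left hσt hWY.le
    linarith
  have t42 : t ^ 42 = D.B.d n ^ (-(42 * e)) := by
    rw [ht, ← Real.rpow_natCast, ← Real.rpow_mul (D.B.pos n).le]; congr 1; push_cast; ring
  obtain ⟨r1, r2⟩ := flags_0 (Γ := t) (b5.inv (by linarith)) (by linarith) (hK.kp1 n) hσ hWY hW q1
    q2 (show (K n).u.WY / 200 ≤ |ν| by linarith) (show |ν| ≤ 200 * (K n).u.WY by linarith)
    (fun k => (gfl k).trans hR) k100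
  have hCt : D.B.d n ^ (-C2) ≤ D.B.d n ^ (-(42 * e)) := dpow_le D.B n (by linarith)
  refine ⟨fun k => ⟨(hpv k).1.trans hCt, (hpv k).2.trans hCt⟩, fun e0 => ?_,
    fun k => (r2 k).trans ?_⟩
  · have r1' : (K n).u.WY / 10 ^ 4 ≤ |((K n).Q (mk4 D n 0 x).q).b 0| := r1
    rw [e0, abs_zero] at r1'
    have : 0 < (K n).u.WY / 10 ^ 4 := by positivity
    linarith
  · rw [← t42]
    have k1 : Kw / ((K n).u.WY * (K n).σ) ≤ t ^ 40 := by
      rw [b7, div_le_iff₀ mo0]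
      linarith
    have k2 : t ≤ t ^ 40 := le_self_pow₀ t1 (by norm_num)
    have k3 : 10 ^ 8 * t ^ 40 ≤ t ^ 2 * t ^ 40 := by
      refine mul_le_mul_of_nonneg_right ?_ (by positivity)
      have := pow_le_pow_left₀ (by norm_num : (0 : ℝ) ≤ 10 ^ 6) b10 2
      linarith
    have k4 : t ^ 2 * t ^ 40 = t ^ 42 := by ring
    linarith

end Crest.Agent.R136.Stk464
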