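import Crest.Agent.R136.EvW2_938

/-!
# R136: gauge change of the labels in the W-chart (helper619)

`gau κ e f` : the flagged line `f` with the flag `G + (polynomial with coefficients e centred at f)`.
`coW (gau f) (gau f') = coW f f'` on the frame slots and `+ e - tr (rel f f') e` on the flags.
-/

set_option autoImplicit false

namespace Crest.Agent.R136.GauW619

open Crest.Agent.R136.NetW191 Crest.Agent.R136.Net191 Crest.Agent.R136.EvW938

/-! ### frames -/



/-- inverse frame -/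
def inv (κ : ℝ) (g : Fin 4 → ℝ) : Fin 4 → ℝ := rel κ g 0

lemma rel_zero (κ : ℝ) (g : Fin 4 → ℝ) : rel κ 0 g = g := by
  funext k
  fin_cases k <;> simp [rel]

lemma rel_self (κ : ℝ) (g : Fin 4 → ℝ) : rel κ g g = 0 := by
  funext k
  fin_cases k <;> simp [rel]

lemma rel_eq (κ : ℝ) (g h : Fin 4 → ℝ) : rel κ g h = mul κ (inv κ g) h := by
  rw [inv, ← rel_rel κ g 0 h, rel_zero]

lemma inv_mul (κ : ℝ) (g : Fin 4 → ℝ) : mul κ (inv κ g) g = 0 := by
  rw [← rel_eq, rel_self]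


lemma tr_id (κ : ℝ) (w : Fin 14 → ℝ) : tr κ 0 w = w := by
  funext q
  rw [tr_tms]
  have : ∀ L : List Tm, (∀ t ∈ L, t.hl ≠ []) → (L.map (Tm.ev κ 0 w)).sum = 0 := by
    intro L
    induction L with
    | nil => simp
    | cons a L ih =>
      intro hL
      have h1 : Tm.ev κ 0 w a = 0 := by
        unfold Tm.ev
        obtain ⟨b, l, hbl⟩ := List.exists_cons_of_ne_nil (hL a List.mem_cons_self)
        rw [hbl]
        simp
      rw [List.map_cons, List.sum_cons, h1, ih fun t ht => hL t (List.mem_cons_of_mem _ ht),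
        add_zero]
  have hne : ∀ q, ∀ t ∈ tms q, t.hl ≠ [] := by decide
  rw [this _ (hne q), add_zero]

lemma tr_inv (κ : ℝ) (g : Fin 4 → ℝ) (e : Fin 14 → ℝ) : tr κ g (tr κ (inv κ g) e) = e := by
  rw [← tr_mul, inv_mul, tr_id]


/-! ### the gauge change -/

/-- `f` with the flag corrected by the polynomial with coefficients `e` in the frame of `f` -/
def gau (κ : ℝ) (e : Fin 14 → ℝ) (f : FW) : FW := ⟨f.g, f.G + tr κ (inv κ f.g) e⟩

@[simp] lemma gau_g (κ : ℝ) (e : Fin 14 → ℝ) (f : FW) : (gau κ e f).g = f.g := rfl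

lemma gau_G (κ : ℝ) (e : Fin 14 → ℝ) (f : FW) : (gau κ e f).G = f.G + tr κ (inv κ f.g) e := rfl

/-- frame slots -/
theorem coW_gau_frame (κ : ℝ) (e : Fin 14 → ℝ) (f f' : FW) (i : Fin 4) :
    coW κ (gau κ e f) (gau κ e f') (Fin.castAdd 14 i) = coW κ f f' (Fin.castAdd 14 i) := by
  rw [coW_left, coW_left, gau_g, gau_g]

/-- **flag slots** -/
theorem coW_gau_flag (κ : ℝ) (e : Fin 14 → ℝ) (f f' : FW) (q : Fin 14) :
    coW κ (gau κ e f) (gau κ e f') (Fin.natAdd 4 q) =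
      coW κ f f' (Fin.natAdd 4 q) + e q - tr κ (rel κ f.g f'.g) e q := by
  rw [coW_right, coW_right, gau_g, gau_G, gau_G]
  have e1 : f'.G + tr κ (inv κ f'.g) e - (f.G + tr κ (inv κ f.g) e) =
      (f'.G - f.G) + tr κ (inv κ f'.g) e - tr κ (inv κ f.g) e := by
    abel
  have e2 : tr κ f'.g (tr κ (inv κ f.g) e) = tr κ (rel κ f.g f'.g) e := by
    rw [← tr_mul, ← rel_eq]
  rw [e1, tr_sub, tr_add, tr_inv, e2, Pi.sub_apply, Pi.add_apply]




/-- two gauge changes -/
theorem gau_gau (κ : ℝ) (e e' : Fin 14 → ℝ) (f : FW) :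
    gau κ e' (gau κ e f) = gau κ (e + e') f := by
  unfold gau
  simp only [tr_add]
  congr 1
  abel

theorem gau_zero (κ : ℝ) (f : FW) : gau κ 0 f = f := by
  unfold gau
  rw [tr_zero, add_zero]


/-! ### sizes -/

variable {κ : ℝ} {e : Fin 14 → ℝ} {f f' : FW} {X : Fin 18 → ℝ} {K τ : ℝ}



/-- **own motion**: if the own motion of the old label is the recentring of `e` up to `τ` times the
sides, then the corrected label does not move. -/
theorem own_gau (hκ : |κ| ≤ 1) (hX : SidesW X) (hK : 1 ≤ K) (hτ : 0 ≤ τ)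
    (he : ∀ q : Fin 14, |e q| ≤ K * X (Fin.natAdd 4 q)) {h' : Fin 4 → ℝ}
    (hh : ∀ i : Fin 4, |rel κ f.g f'.g i| ≤ K * X (Fin.castAdd 14 i))
    (hh' : ∀ i : Fin 4, |h' i| ≤ K * X (Fin.castAdd 14 i))
    (hhh : ∀ i : Fin 4, |rel κ f.g f'.g i - h' i| ≤ K * τ * X (Fin.castAdd 14 i)) {q : Fin 14}
    {E : ℝ} (hv : |coW κ f f' (Fin.natAdd 4 q) - (tr κ h' e q - e q)| ≤ E) :
    |coW κ (gau κ e f) (gau κ e f') (Fin.natAdd 4 q)| ≤
      E + 470 * K ^ 7 * τ * X (Fin.natAdd 4 q) := by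
  have h1 := tr_lip (h := rel κ f.g f'.g) (h' := h') (w := e) (w' := e) hκ hX hK hτ hh hh' hhh he
    (fun q => by
      rw [sub_self, abs_zero]
      have := hX.pos (Fin.natAdd 4 q)
      positivity) q
  rw [coW_gau_flag]
  have e1 : coW κ f f' (Fin.natAdd 4 q) + e q - tr κ (rel κ f.g f'.g) e q =
      (coW κ f f' (Fin.natAdd 4 q) - (tr κ h' e q - e q)) -
        (tr κ (rel κ f.g f'.g) e q - tr κ h' e q) := by ring
  rw [e1]
  exact (abs_sub _ _).trans (add_le_add hv h1)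

/-! ### one monomial -/




end Crest.Agent.R136.GauW619
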