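import Crest.Agent.R136.OwW1_831

-- ▼ part R136/OwW3_831
section

/-!
# R136, thin branch, own dichotomy in the W-chart, part 3 (helper831): tangents at a record point

`ZW.tan_rec`, `ZW.tan_own`, `ZW.tan_own_eq` : record value, D-max, own counts of a joint tangent at a
record point `pathW θ w0 v1`; in the case `Zer` of the uncapped slot `i` the tangent has full own counts
for every move which is slow in the slots `V \ {i}`.
-/

set_option autoImplicit false
set_option linter.unusedVariables false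
set_option linter.unusedSectionVars false

open Finset Filter Topology MeasureTheory

namespace Crest.Agent.R136.OwW831

open Crest.Agent.R136.Net191
open Crest.Agent.R136.NetW191
open Crest.Agent.R136.PrW464
open Crest.Agent.R136.NatW697
open Crest.Agent.R136.K2S774
open Crest.Agent.R136.LadW697
open Crest.Agent.R136.ThS830
open Crest.Agent.R136.LadG697
open Crest.Agent.R136.Zpr779
open Crest.Agent.R136.Own831
open Crest.Agent.R138.Ex926

/-- the cone of the W-chart -/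
abbrev CW : Set (Fin 18 → ℝ) := cn QW (fun _ => True)

section

variable {θ : Fin 3 → ℝ} {g : ℝ} {q : Fin 3 → ℝ} {V T : Set (Fin 18)} {w0 R T0 : ℝ}
  {B B' : Base} {I0 I : ℕ → Finset (ℕ × ℝ)} {κ : ℕ → ℝ} {u : ℕ → Fin 18 → ℝ}
  {F : ℕ → ℕ × ℝ → FW} {X : ℕ → Fin 18 → ℝ} {w : ℕ → ℝ} {Tn To : ℕ → ℝ}
  {PD : Set (Fin 18 → ℝ)} {ν own : (Fin 18 → ℝ) → ℝ} {c₀ : ℝ}

variable (H : ZW θ g q V T w0 R T0 B B' I0 I κ u F X w Tn To PD ν own c₀)
  {v1 : ℝ} (h0 : 0 < v1) (h1 : v1 < 1) {hh : ℕ → ℝ} {lam lo : (Fin 18 → ℝ) → ℝ}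

include H h0 h1

/-- record value and D-max of a tangent at a record point -/
theorem ZW.tan_rec (hpos : ∀ l, 0 < hh l) (hlim : Tendsto hh atTop (𝓝 0))
    (H1 : IsTan (Leg monW R) CW ν (fun _ => pathW θ w0 v1) hh lam) :
    (∀ σ : ℝ, lam (σ • btW θ) = σ * DlW g q (btW θ)) ∧ ∀ d ∈ QdW θ, lam d ≤ DlW g q d := by
  have HF := H.fact
  set r0 := pathW θ w0 v1 with hr0
  have hrl := HF.big.path_leg h0.le h1.le
  have hrec := HF.record_eq h0 h1
  have q1 : Tendsto hh atTop (𝓝[>] 0) :=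
    tendsto_nhdsWithin_iff.2 ⟨hlim, Eventually.of_forall fun l => hpos l⟩
  have hBU := Dg219.bup_of_tan hpos hlim H1
  have hlegd : ∀ d ∈ CW, ∀ᶠ h in 𝓝[>] (0:ℝ), r0 + h • d ∈ Leg monW R := by
    intro d hd
    obtain ⟨e, he, H1⟩ := path_loc HF.big h0.le h1.le ‖d‖
    filter_upwards [ev_small (C := 1) he] with h hh
    exact H1 h hh.1 (by linarith [hh.2]) d hd le_rfl
  have hv : ∀ t : ℝ, ∀ᶠ h in 𝓝[>] (0:ℝ), 0 < v1 + h * t ∧ v1 + h * t < 1 := by
    intro t
    filter_upwards [ev_small (C := t) (sub_pos.2 h1), ev_small (C := -t) h0] with h a1 a2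
    constructor <;> linarith [a1.2, a2.2]
  refine ⟨fun σ => ?_, fun d hd => ?_⟩
  · have hm : σ • btW θ ∈ CW := ((nat_grW (fun _ => True) 1 (-θ 1) (1 - θ 0)).smul σ).mem
    refine tendsto_nhds_unique (hBU.lim _ hm) (tendsto_const_nhds.congr' ?_)
    filter_upwards [q1.eventually (hv σ)] with l hl
    have e : r0 + hh l • σ • btW θ = pathW θ w0 (v1 + hh l * σ) := by
      rw [smul_smul, hr0, path_add]
    rw [e, HF.record_eq hl.1 hl.2, hrec, ← path_add, DW_add, map_smul, smul_eq_mul]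
    have := (hpos l).ne'
    field_simp
    ring
  · refine le_of_tendsto (hBU.lim d hd.1) ?_
    obtain ⟨δ, hδ, hD⟩ := HF.dmax v1 h0 h1
    have h17 : ∀ᶠ h in 𝓝[>] (0:ℝ), (r0 + h • d) 17 ≤ 9 * w0 + max 0 (1 - θ 0) := by
      have e : ∀ h : ℝ, (r0 + h • d) 17 = 9 * w0 + (1 - θ 0) * v1 + h * d 17 := fun h => by
        have : r0 17 = 9 * w0 + (1 - θ 0) * v1 := by rw [hr0, pathW_nat, natW_N]
        simp only [Pi.add_apply, Pi.smul_apply, smul_eq_mul, this]
      rcases lt_trichotomy (θ 0) 1 with h3 | h3 | h3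
      · have h4 : 0 < (1 - θ 0) * (1 - v1) := mul_pos (by linarith) (by linarith)
        filter_upwards [ev_small (C := d 17) h4] with h a2
        rw [e]
        have h5 : 1 - θ 0 ≤ max 0 (1 - θ 0) := le_max_right _ _
        nlinarith [a2.2]
      · filter_upwards [ev_small (C := 1) one_pos] with h a2
        rw [e, h3]
        have h5 := hd.2 h3
        have h6 : (0:ℝ) ≤ max 0 (1 - 1) := le_max_left _ _
        nlinarith [a2.1]
      · have h4 : 0 < (θ 0 - 1) * v1 := mul_pos (by linarith) h0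
        filter_upwards [ev_small (C := d 17) h4] with h a2
        rw [e]
        have h5 : (0:ℝ) ≤ max 0 (1 - θ 0) := le_max_left _ _
        nlinarith [a2.2]
    filter_upwards [q1.eventually (hlegd d hd.1), q1.eventually (ev_small (C := ‖d‖) hδ),
      q1.eventually h17] with l a1 a2 a3
    have h2 := hD _ a1 (fun k => by
      have e : (r0 + hh l • d) k - pathW θ w0 v1 k = hh l * d k := by
        rw [hr0]; simp
      rw [e, abs_mul, abs_of_pos a2.1]
      have h3 := norm_le_pi_norm d k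
      rw [Real.norm_eq_abs] at h3
      exact (mul_le_mul_of_nonneg_left h3 a2.1.le).trans a2.2.le) a3
    rw [DW_add, map_smul, smul_eq_mul] at h2
    rw [div_le_iff₀ (hpos l), hrec]
    linarith

/-- own counts of a tangent at a record point -/
theorem ZW.tan_own (hpos : ∀ l, 0 < hh l) (hlim : Tendsto hh atTop (𝓝 0))
    (H2 : IsTan (Leg monW R) CW own (fun _ => pathW θ w0 v1) hh lo) :
    ∀ c ∈ CW, lo c ≤ -c 0 := by
  have HF := H.fact
  intro c hc
  set r0 := pathW θ w0 v1 with hr0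
  have hrl := HF.big.path_leg h0.le h1.le
  have hown0 : own r0 = 1 - v1 :=
    HF.own_rot r0 hrl v1 h0.le h1.le (path_zero θ w0 v1) fun k _ => le_rfl
  have hBU := Dg219.bup_of_tan hpos hlim H2
  have t1 : Tendsto (fun l => v1 + hh l * c 0) atTop (𝓝 v1) := by
    have := (hlim.mul_const (c 0)).const_add v1
    rwa [zero_mul, add_zero] at this
  refine le_of_tendsto (hBU.lim c hc) ?_
  filter_upwards [hBU.mem c hc, t1.eventually (lt_mem_nhds h0), t1.eventually (gt_mem_nhds h1)]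
    with l m1 g1 g2
  have e0 : (r0 + hh l • c) 0 = w0 + (v1 + hh l * c 0) := by
    rw [hr0]; simp only [Pi.add_apply, Pi.smul_apply, smul_eq_mul, path_zero]; ring
  have := HF.own_up _ m1 _ g1.le g2.le e0
  rw [div_le_iff₀ (hpos l), hown0]
  linarith

/-- **zero own loss of the slot `i`** : full own counts of the tangent -/
theorem ZW.tan_own_eq (hcl : CapCl V) {i : Fin 18} (hi : i ∈ V) (hun : Unc V i)
    (hz : Zer own (bO θ w0 R V) (eO θ V) i v1 hh)
    (H2 : IsTan (Leg monW R) CW own (fun _ => pathW θ w0 v1) hh lo) :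
    ∀ c ∈ CW, (∀ k ∈ V, k ≠ i → c k ≤ btW θ k * c 0) → lo c = -c 0 := by
  have HF := H.fact
  have hpos := hz.1
  have hlim := hz.2.1
  intro c hc hck
  refine le_antisymm (ZW.tan_own H h0 h1 hpos hlim H2 c hc) ?_
  have hi0 : i ≠ 0 := ZW.V0 H hi
  set r0 := pathW θ w0 v1 with hr0
  have hrl := HF.big.path_leg h0.le h1.le
  have hown0 : own r0 = 1 - v1 :=
    HF.own_rot r0 hrl v1 h0.le h1.le (path_zero θ w0 v1) fun k _ => le_rfl
  have hBU := Dg219.bup_of_tan hpos hlim H2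
  have t1 : Tendsto (fun l => v1 + hh l * c 0) atTop (𝓝 v1) := by
    have := (hlim.mul_const (c 0)).const_add v1
    rwa [zero_mul, add_zero] at this
  set y : ℝ := max 0 (c i - btW θ i * c 0) with hy
  have y0 : 0 ≤ y := le_max_left _ _
  have t2 : Tendsto (fun l => hh l * y) atTop (𝓝 0) := by
    have := hlim.mul_const y
    rwa [zero_mul] at this
  have hfull : ∀ v : ℝ, 0 < v → v < 1 → own (bO θ w0 R V + v • eO θ V) = 1 - 1 * v := by
    intro v a1 a2
    rw [own_lin, one_mul]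
    have hQl : ownW θ w0 R (fun k => k ∈ V) v ∈ Leg monW R := by
      have := own_leg H.big hcl a1.le a2.le hi0 hi (y := 0) le_rfl zero_le_one (Or.inl rfl)
      rwa [zero_smul, add_zero] at this
    exact ZW.own_rotV H hQl a1.le a2.le (own_zero v) fun k hk => by
      rw [own_in (ZW.V0 H hk) hk]
  have key := Zer.tan hz h0 h1 hfull (c 0) y0
  rw [one_mul] at key
  refine le_of_tendsto_of_tendsto key (hBU.lim c hc) ?_
  filter_upwards [hBU.mem c hc, t1.eventually (lt_mem_nhds h0), t1.eventually (gt_mem_nhds h1),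
    t2.eventually (gt_mem_nhds one_pos)] with l m1 g1 g2 g3
  have hl := hpos l
  have e1 : bO θ w0 R V + v1 • eO θ V + hh l • (c 0 • eO θ V + y • (Pi.single i 1 : Fin 18 → ℝ)) =
      ownW θ w0 R (fun k => k ∈ V) (v1 + hh l * c 0) + (hh l * y) •
        (Pi.single i 1 : Fin 18 → ℝ) := by
    rw [← own_lin, smul_add, add_smul, smul_smul, smul_smul]; abel
  have hQ := own_leg H.big hcl g1.le g2.le hi0 hi (mul_nonneg hl.le y0) g3.le (Or.inr hun)
  rw [e1, hfull v1 h0 h1, one_mul, hown0]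
  refine div_le_div_of_nonneg_right (sub_le_sub_right ?_ _) hl.le
  refine H.ext.oanti _ m1 _ hQ fun k => ?_
  have ek : (r0 + hh l • c) k = pathW θ w0 v1 k + hh l * c k := by
    rw [hr0]; simp only [Pi.add_apply, Pi.smul_apply, smul_eq_mul]
  by_cases hki : k = i
  · subst hki
    simp only [Pi.add_apply, Pi.smul_apply, smul_eq_mul, Pi.single_eq_same, mul_one]
    rw [own_in hi0 hi]
    have e2 : pathW θ w0 (v1 + hh l * c 0) k = pathW θ w0 v1 k + btW θ k * (hh l * c 0) := by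
      rw [pathW_eq, pathW_eq]; ring
    rw [e2]
    have h3 : c k - btW θ k * c 0 ≤ y := le_max_right _ _
    have h4 := mul_le_mul_of_nonneg_left h3 hl.le
    have h5 : r0 k = pathW θ w0 v1 k := by rw [hr0]
    rw [h5]
    nlinarith
  · have e3 : (ownW θ w0 R (fun k => k ∈ V) (v1 + hh l * c 0) + (hh l * y) •
        (Pi.single i 1 : Fin 18 → ℝ)) k = ownW θ w0 R (fun k => k ∈ V) (v1 + hh l * c 0) k := by
      simp [hki]
    rw [e3]
    by_cases hk0 : k = 0
    · subst hk0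
      rw [own_zero, ek, path_zero]; linarith
    by_cases hkV : k ∈ V
    · rw [own_in hk0 hkV, ek]
      have e2 : pathW θ w0 (v1 + hh l * c 0) k = pathW θ w0 v1 k + btW θ k * (hh l * c 0) := by
        rw [pathW_eq, pathW_eq]; ring
      rw [e2]
      have h4 := mul_le_mul_of_nonneg_left (hck k hkV hki) hl.le
      nlinarith
    · rw [own_out hk0 hkV]
      exact m1.2 k

/-- the slots `Zs` stay unseen -/
theorem ZW.tan_zero {Zs : Set (Fin 18)} (hpos : ∀ l, 0 < hh l) (hlim : Tendsto hh atTop (𝓝 0))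
    (hZ : ZeroS (Leg monW R) ν own Zs)
    (H1 : IsTan (Leg monW R) CW ν (fun _ => pathW θ w0 v1) hh lam)
    (H2 : IsTan (Leg monW R) CW own (fun _ => pathW θ w0 v1) hh lo) :
    ZeroS CW lam lo Zs := by
  intro a ha b hb hab
  have hB1 := Dg219.bup_of_tan hpos hlim H1
  have hB2 := Dg219.bup_of_tan hpos hlim H2
  have key : ∀ᶠ l in atTop, ν (pathW θ w0 v1 + hh l • a) = ν (pathW θ w0 v1 + hh l • b) ∧
      own (pathW θ w0 v1 + hh l • a) = own (pathW θ w0 v1 + hh l • b) := by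
    filter_upwards [hB1.mem a ha, hB1.mem b hb] with l m1 m2
    exact hZ _ m1 _ m2 fun k hk => by
      simp only [Pi.add_apply, Pi.smul_apply, smul_eq_mul, hab k hk]
  constructor
  · refine tendsto_nhds_unique (hB1.lim a ha) ((hB1.lim b hb).congr' ?_)
    filter_upwards [key] with l hl
    rw [hl.1]
  · refine tendsto_nhds_unique (hB2.lim a ha) ((hB2.lim b hb).congr' ?_)
    filter_upwards [key] with l hl
    rw [hl.2]

end

end Crest.Agent.R136.OwW831
end

-- ▼ part R136/OwW4_831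

/-!
# R136, thin branch (helper831): UNIFORM D-MAX FOR ALL GAUGES near a record point

`rd δ a` : rounding of a legal box from below to a finite grid.  **`ZW.gd_unif`** : the field `gd` of `ZW`
(`GdG`) uniformly in the box, near every interior record point.
-/

set_option autoImplicit false
set_option linter.unusedVariables false
set_option linter.unusedSectionVars false

open Finset Filter Topology MeasureTheory

namespace Crest.Agent.R136.OwW831

open Crest.Agent.R136.Net191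
open Crest.Agent.R136.NetW191
open Crest.Agent.R136.PrW464
open Crest.Agent.R136.NatW697
open Crest.Agent.R136.K2S774
open Crest.Agent.R136.LadW697
open Crest.Agent.R136.ThS830
open Crest.Agent.R136.LadG697
open Crest.Agent.R136.Zpr779
open Crest.Agent.R136.Own831
open Crest.Agent.R138.Ex926

/-! ### rounding from below -/

/-- graded losses -/
def cwR (k : Fin 18) : ℕ := 6 ^ ((k : ℕ) + 1)

theorem cwR_list : ∀ k : Fin 18, ∀ l ∈ mlW k, (l.map fun t => cwR t + 1).sum ≤ cwR k := by decide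

theorem cwR_le : ∀ k : Fin 18, cwR k + 1 ≤ 6 ^ 19 := by decide

/-- rounding of a box from below -/
noncomputable def rd (δ : ℝ) (a : Fin 18 → ℝ) : Fin 18 → ℝ :=
  fun k => δ * (⌊a k / δ - cwR k⌋₊ : ℝ)

section rd

variable {δ R : ℝ} {a : Fin 18 → ℝ}

theorem rd_nonneg (hδ : 0 < δ) (k : Fin 18) : 0 ≤ rd δ a k :=
  mul_nonneg hδ.le (Nat.cast_nonneg _)

theorem rd_ge (hδ : 0 < δ) (k : Fin 18) : a k - (cwR k + 1) * δ ≤ rd δ a k := by
  have h1 := (Nat.lt_floor_add_one (a k / δ - cwR k)).le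
  have h2 := mul_le_mul_of_nonneg_left h1 hδ.le
  have e1 : δ * (a k / δ - cwR k) = a k - cwR k * δ := by field_simp
  rw [e1] at h2
  simp only [rd]
  nlinarith

theorem rd_le' (hδ : 0 < δ) (k : Fin 18) : rd δ a k = 0 ∨ rd δ a k ≤ a k - cwR k * δ := by
  by_cases h0 : (⌊a k / δ - cwR k⌋₊ : ℕ) = 0
  · left; simp [rd, h0]
  · right
    have h1 : 0 ≤ a k / δ - cwR k := by
      by_contra hcon
      push Not at hcon
      exact h0 (Nat.floor_of_nonpos hcon.le)
    have h2 := mul_le_mul_of_nonneg_left (Nat.floor_le h1) hδ.le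
    have e1 : δ * (a k / δ - cwR k) = a k - cwR k * δ := by field_simp
    rw [e1] at h2
    exact h2

theorem rd_le (hδ : 0 < δ) (ha : ∀ k, 0 ≤ a k) (k : Fin 18) : rd δ a k ≤ a k := by
  rcases rd_le' (a := a) hδ k with h | h
  · rw [h]; exact ha k
  · have : 0 ≤ (cwR k : ℝ) * δ := mul_nonneg (Nat.cast_nonneg _) hδ.le
    linarith

theorem rd_leg (hδ : 0 < δ) (ha : a ∈ Leg monW R) : rd δ a ∈ Leg monW R := by
  obtain ⟨hl, hR⟩ := ha
  obtain ⟨nn, wl⟩ := legal_list.1 hl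
  refine ⟨legal_list.2 ⟨fun k => rd_nonneg hδ k, fun k l hl' => ?_⟩, fun k =>
    (rd_le hδ nn k).trans (hR k)⟩
  have h0 : 0 ≤ (l.map (rd δ a)).sum := List.sum_nonneg fun x hx => by
    obtain ⟨s, -, rfl⟩ := List.mem_map.1 hx
    exact rd_nonneg hδ s
  rcases rd_le' (a := a) hδ k with h | h
  · rw [h]; exact h0
  have h1 := wl k l hl'
  have key : ∀ l : List (Fin 18), (l.map a).sum ≤
      (l.map (rd δ a)).sum + ((l.map fun t => cwR t + 1).sum : ℕ) * δ := by
    intro l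
    induction l with
    | nil => simp
    | cons t l ih =>
      simp only [List.map_cons, List.sum_cons]
      have h2 := rd_ge (a := a) hδ t
      push_cast at ih ⊢
      nlinarith
  have h2 := key l
  have h3 : (((l.map fun t => cwR t + 1).sum : ℕ) : ℝ) ≤ cwR k := by
    exact_mod_cast cwR_list k l hl'
  have h4 := mul_le_mul_of_nonneg_right h3 hδ.le
  linarith

/-- the grid is finite -/
theorem rd_finite (hδ : 0 < δ) (R : ℝ) : ({b | ∃ a ∈ Leg monW R, b = rd δ a}).Finite := by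
  refine (Set.finite_range fun (m : Fin 18 → Fin (⌊R / δ⌋₊ + 1)) (k : Fin 18) =>
    δ * (((m k : ℕ) : ℝ))).subset ?_
  rintro b ⟨a, ha, rfl⟩
  have hm : ∀ k : Fin 18, ⌊a k / δ - cwR k⌋₊ < ⌊R / δ⌋₊ + 1 := by
    intro k
    refine Nat.lt_succ_of_le (Nat.floor_le_floor ?_)
    have h1 : a k / δ ≤ R / δ := div_le_div_of_nonneg_right (ha.2 k) hδ.le
    have h2 : (0 : ℝ) ≤ cwR k := Nat.cast_nonneg _
    linarith
  exact ⟨fun k => ⟨_, hm k⟩, rfl⟩

end rd

/-! ### uniform D-max -/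

section

variable {θ : Fin 3 → ℝ} {g : ℝ} {q : Fin 3 → ℝ} {V T : Set (Fin 18)} {w0 R T0 : ℝ}
  {B B' : Base} {I0 I : ℕ → Finset (ℕ × ℝ)} {κ : ℕ → ℝ} {u : ℕ → Fin 18 → ℝ}
  {F : ℕ → ℕ × ℝ → FW} {X : ℕ → Fin 18 → ℝ} {w : ℕ → ℝ} {Tn To : ℕ → ℝ}
  {PD : Set (Fin 18 → ℝ)} {ν own : (Fin 18 → ℝ) → ℝ} {c₀ : ℝ}

/-- the D-max bound of the box `x` for all gauges -/
def GdAt (B B' : Base) (I : ℕ → Finset (ℕ × ℝ)) (κ : ℕ → ℝ) (u : ℕ → Fin 18 → ℝ)
    (F : ℕ → ℕ × ℝ → FW) (X : ℕ → Fin 18 → ℝ) (Tn : ℕ → ℝ) (C K : ℝ) (n : ℕ) (x : Fin 18 → ℝ)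
    (E : ℝ) : Prop :=
  ∀ e : ℕ × ℝ → Fin 14 → ℝ,
    (∀ j ∈ I n, (e j 9 = 0 ∧ e j 12 = 0 ∧ e j 13 = 0) ∧
      ∀ k, u n (Fin.natAdd 4 k) * |e j k| ≤ B.d n ^ (-C)) →
    ∀ i ∈ I n, ∀ G ⊆ I n, (∀ j ∈ G, ∀ k, |u n k * coW (κ n) (GauW619.gau (κ n) (e i) (F n i))
        (GauW619.gau (κ n) (e j) (F n j)) k| ≤ K * (B.d n ^ X n k * B'.d n ^ x k)) →
      (G.card : ℝ) ≤ Tn n * B'.d n ^ (-E)

theorem GdAt.mono {C K C' K' : ℝ} {n : ℕ} {x x' : Fin 18 → ℝ} {E E' : ℝ}
    (h : GdAt B B' I κ u F X Tn C' K' n x' E') (hT : 0 ≤ Tn n) (hC : C ≤ C') (hK0 : 0 ≤ K)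
    (hK : K ≤ K') (hx : x' ≤ x) (hE : E' ≤ E) : GdAt B B' I κ u F X Tn C K n x E := by
  intro e he i hi G hG hbox
  refine (h e (fun j hj => ⟨(he j hj).1, fun k => ((he j hj).2 k).trans ?_⟩) i hi G hG
    fun j hj k => (hbox j hj k).trans ?_).trans ?_
  · exact Real.rpow_le_rpow_of_exponent_ge (B.pos n) (B.lt n).le (by linarith)
  · have h1 : B'.d n ^ x k ≤ B'.d n ^ x' k :=
      Real.rpow_le_rpow_of_exponent_ge (B'.pos n) (B'.lt n).le (hx k)
    have h2 : 0 ≤ B.d n ^ X n k := Real.rpow_nonneg (B.pos n).le _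
    have h3 : 0 ≤ B'.d n ^ x k := Real.rpow_nonneg (B'.pos n).le _
    exact mul_le_mul hK (mul_le_mul_of_nonneg_left h1 h2) (mul_nonneg h2 h3) (hK0.trans hK)
  · exact mul_le_mul_of_nonneg_left
      (Real.rpow_le_rpow_of_exponent_ge (B'.pos n) (B'.lt n).le (by linarith)) hT

theorem gdAt_iff {D : (Fin 18 → ℝ) → ℝ} : GdG B B' I κ u F X Tn PD D c₀ ↔
    ∃ C : ℝ, 0 < C ∧ ∀ x ∈ PD, ∀ K : ℝ, 1 ≤ K → ∀ ε : ℝ, 0 < ε → ∀ᶠ n in (U : Filter ℕ),
      GdAt B B' I κ u F X Tn C K n x (c₀ + D x + ε) := Iff.rfl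

theorem neg_DlW_le {g : ℝ} {q : Fin 3 → ℝ} (hg : 0 ≤ g) (hq0 : 0 ≤ q 0) (hq1 : 0 ≤ q 1)
    (hq2 : 0 ≤ q 2) {d : Fin 18 → ℝ} {M : ℝ} (h0 : ∀ k, 0 ≤ d k) (h1 : ∀ k, d k ≤ M) :
    -DlW g q d ≤ (4 + q 0 + q 1 + q 2) * M := by
  rw [DlW_apply]
  have a0 := h0 0; have a2 := h0 2; have a3 := h0 3; have a17 := h0 17
  have b0 := h1 0; have b2 := h1 2; have b3 := h1 3; have b17 := h1 17
  have c0 := mul_nonneg hg a0
  have c1 := mul_le_mul_of_nonneg_left b17 hq0
  have c2 := mul_le_mul_of_nonneg_left b2 hq1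
  have c3 := mul_le_mul_of_nonneg_left b3 hq2
  have d1 := mul_nonneg hq0 a0
  have d2 := mul_nonneg hq1 a0
  have d3 := mul_nonneg hq2 a0
  nlinarith

/-- **UNIFORM D-MAX FOR ALL GAUGES** near the interior record points -/
theorem ZW.gd_unif (H : ZW θ g q V T w0 R T0 B B' I0 I κ u F X w Tn To PD ν own c₀) :
    ∃ C : ℝ, 0 < C ∧ ∀ v1 : ℝ, 0 < v1 → v1 < 1 → ∃ δ : ℝ, 0 < δ ∧ ∀ K ε : ℝ, 1 ≤ K → 0 < ε →
      ∀ᶠ n in (U : Filter ℕ), ∀ x ∈ Leg monW R, (∀ k, |x k - pathW θ w0 v1 k| ≤ δ) →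
        x 17 ≤ 9 * w0 + max 0 (1 - θ 0) →
        GdAt B B' I κ u F X Tn C K n x (c₀ + DW g 0 q w0 x + ε) := by
  obtain ⟨C, hC, hgd⟩ := gdAt_iff.1 H.gd
  refine ⟨C, hC, fun v1 h0 h1 => ?_⟩
  obtain ⟨δ₁, hδ₁, hPD⟩ := H.pdn v1 h0 h1
  refine ⟨δ₁ / 2, by positivity, fun K ε hK hε => ?_⟩
  have hq0 := H.q0
  have hq1 := H.q1
  have hq2 := H.q2
  have hg : 0 < g := by linarith [H.qg]
  set M : ℝ := 6 ^ 19 with hM
  have hM0 : 0 < M := by positivity
  set S : ℝ := 4 + q 0 + q 1 + q 2 with hS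
  have hS0 : 0 < S := by positivity
  set δ : ℝ := min (δ₁ / 2 / M) (ε / 2 / (S * M)) with hδd
  have hδ : 0 < δ := lt_min (by positivity) (by positivity)
  have hδ2 : M * δ ≤ δ₁ / 2 := by
    have : δ ≤ δ₁ / 2 / M := min_le_left _ _
    rw [le_div_iff₀ hM0] at this; linarith
  have hδ3 : S * (M * δ) ≤ ε / 2 := by
    have : δ ≤ ε / 2 / (S * M) := min_le_right _ _
    rw [le_div_iff₀ (by positivity)] at this; linarith
  have hcw : ∀ k : Fin 18, ((cwR k : ℝ) + 1) * δ ≤ M * δ := by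
    intro k
    refine mul_le_mul_of_nonneg_right ?_ hδ.le
    have := cwR_le k
    rw [hM]; exact_mod_cast this
  -- the finite net
  have key : ∀ᶠ n in (U : Filter ℕ), ∀ b ∈ {b | ∃ a ∈ Leg monW R, b = rd δ a}, b ∈ PD →
      GdAt B B' I κ u F X Tn C K n b (c₀ + DW g 0 q w0 b + ε / 2) := by
    rw [Filter.eventually_all_finite (rd_finite hδ R)]
    intro b _
    by_cases hb : b ∈ PD
    · filter_upwards [hgd b hb K hK (ε / 2) (by positivity)] with n hn _
      exact hn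
    · exact Eventually.of_forall fun n h => absurd h hb
  filter_upwards [key] with n hn x hx hxk hx17
  have nn : ∀ k, 0 ≤ x k := fun k => (legal_list.1 hx.1).1 k
  have hle : rd δ x ≤ x := fun k => rd_le hδ nn k
  have hge : ∀ k, x k - M * δ ≤ rd δ x k := fun k => by
    have := rd_ge (a := x) hδ k
    linarith [hcw k]
  have hm := rd_leg hδ hx
  have hnear : ∀ k, |rd δ x k - pathW θ w0 v1 k| ≤ δ₁ := by
    intro k
    have h2 := abs_le.1 (hxk k)
    have h3 := hle k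
    have h4 := hge k
    rw [abs_le]; constructor <;> linarith
  have hb : rd δ x ∈ PD := hPD _ hm (hnear 0) (hnear 2) (hnear 3) (hnear 17)
    ((hle 17).trans hx17)
  refine (hn _ ⟨x, hx, rfl⟩ hb).mono (H.ext.win.T0 n).le le_rfl (by linarith) le_rfl hle ?_
  have e1 : DW g 0 q w0 (rd δ x) = DW g 0 q w0 x - DlW g q (x - rd δ x) := by
    have := DW_add g q w0 (rd δ x) (x - rd δ x)
    rw [add_sub_cancel] at this
    linarith
  have h5 := neg_DlW_le (g := g) (q := q) (M := M * δ) hg.le hq0 hq1.le hq2.le (d := x - rd δ x)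
    (fun k => by simp only [Pi.sub_apply]; linarith [hle k])
    (fun k => by simp only [Pi.sub_apply]; linarith [hge k])
  rw [e1]
  linarith

end

end Crest.Agent.R136.OwW831
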