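import Crest.Agent.R136.ThB_830
import Crest.Agent.R136.PinE_851
import Crest.Agent.R136.LadG1_697
import Crest.Agent.R136.P0_830

-- ▼ part R136/P1_830
section

/-!
# R136, thin branch (helper830): the chains of the rungs `s < 1` (no pin) and `s = 1`

Over 851's engine `Pin`:

* `dead_core` : `s < 1`, frames only: `lam (u • T) ≤ -(3 u)`
* `pin1_core` : `s = 1`, no resonance: one of `w_B, w_A, P` costs something ⊢
  `lam (u • T) ≤ -(4 u) + C`
-/

set_option autoImplicit false
set_option linter.unusedVariables false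

open Finset Filter Topology

namespace Crest.Agent.R136.P1830

open Crest.Agent.R136.NetW191 Crest.Agent.R136.Net191
open Crest.Agent.R136.LadW697
open Crest.Agent.R136.LfW619 (LeafDat)
open Crest.Agent.R136.Pin851
open Crest.Agent.R136.K2S774 (ind1)

/-- dropped slots of the rung `s = 1` -/
def D1 : Finset (Fin 18) := {4, 5, 6, 7, 8, 9, 10, 11, 12, 13}


variable {Dr : Finset (Fin 18)} {T : Fin 18 → ℝ} {G : Fin 18 → ℕ} {m : ℝ}
  {HT : Finset (Fin 18) → Fin 18 → Fin 18 → Prop} {lam : (Fin 18 → ℝ) → ℝ}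

/-- `A` is full given `z`, `B` is full given `z, A` -/
theorem frames (H : Pin Dr T G m HT lam) (h12 : HT {0} 1 2)
    (g23 : G 2 ≠ G 3) (e1 : UpW Dr ({2, 0} : Finset (Fin 18))) (e2 : Disjoint ({0} : Finset (Fin 18)) Dr)
    (e3 : UpW Dr ({0} : Finset (Fin 18))) (e4 : Up2 Dr ({0} : Finset (Fin 18)) 2)
    (e5 : UpW Dr ({2, 3, 0} : Finset (Fin 18))) (e6 : Up2 Dr ({1, 3, 0} : Finset (Fin 18)) 2) :
    XF lam {0} 2 ∧ XF lam {2, 0} 3 := by
  have hG0 : ∀ i, T i = 0 → i ≠ 1 → (i ∈ ({0} : Finset (Fin 18)) ↔ i ∈ (∅ : Finset (Fin 18))) := by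
    intro i hi _
    constructor
    · intro h
      rw [Finset.mem_singleton.1 h, H.T1.1] at hi
      norm_num at hi
    · intro h; simp at h
  have hA : XF lam {0} 2 := H.Afull H.free_empty h12 e1 (by decide) hG0
  have t1 : G 1 = 0 := (H.G0 1).2 H.T1.2.1
  have t2 : G 2 ≠ 0 := fun h => by
    have := (H.G0 2).1 h
    rw [H.T1.2.2.1] at this; norm_num at this
  refine ⟨hA, H.Bfull H.free_empty e2 (by decide) (by decide) (by decide) (by decide) e3 e4 e5 hG0
    (H.tr_XF hA e4 e6 fun i hi hi2 => ?_)⟩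
  have hi' : i = 1 ∨ i = 3 := by
    revert hi; clear hi2; revert i; decide
  rcases hi' with rfl | rfl
  · rw [t1]; exact t2.symm
  · exact g23.symm


/-- **rung `s = 1`, no resonance** -/
theorem pin1_core (H : Pin D1 T G m HT lam) (h12 : HT {0} 1 2) (h16 : HT {0, 14, 15} 16 17)
    (t14 : T 14 = 0) (t15 : T 15 = 0) (t16 : T 16 = 0) (t17 : T 17 = 1)
    (g02 : G 0 ≠ G 2) (g03 : G 0 ≠ G 3)
    (g23 : G 2 ≠ G 3) (gn2 : G 17 ≠ G 2) (gn3 : G 17 ≠ G 3)
    (hv : lam (ind1 (JW 1)) < 0) :
    ∃ C : ℝ, ∀ u : ℝ, 0 ≤ u → lam (u • T) ≤ -((3 + 1) * u) + C := by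
  obtain ⟨hA, hB⟩ := frames H h12 g23 (by decide) (by decide) (by decide) (by decide) (by decide)
    (by decide)
  have g1 : G 1 = 0 := (H.G0 1).2 H.T1.2.1
  have g14 : G 14 = 0 := (H.G0 14).2 t14
  have g15 : G 15 = 0 := (H.G0 15).2 t15
  have g16 : G 16 = 0 := (H.G0 16).2 t16
  have p0 : G 0 ≠ 0 := fun h => by
    have := (H.G0 0).1 h
    rw [H.T1.1] at this; norm_num at this
  have p2 : G 2 ≠ 0 := fun h => by
    have := (H.G0 2).1 h
    rw [H.T1.2.2.1] at this; norm_num at this
  have p3 : G 3 ≠ 0 := fun h => by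
    have := (H.G0 3).1 h
    rw [H.T1.2.2.2] at this; norm_num at this
  have p17 : G 17 ≠ 0 := fun h => by
    have := (H.G0 17).1 h
    rw [t17] at this; norm_num at this
  -- the end
  have hfin : Full lam {0, 2, 3} 17 →
      ∃ C : ℝ, ∀ u : ℝ, 0 ≤ u → lam (u • T) ≤ -((3 + 1) * u) + C := by
    intro hF
    have hB' : XF lam {0, 2} 3 := by
      have e : ({0, 2} : Finset (Fin 18)) = {2, 0} := by decide
      rw [e]; exact hB
    refine H.fin t17 hF (by decide) (by decide) (by decide) (by decide) hA hB' (by decide)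
      (by decide) ?_ ?_ ?_
    · intro i hi h2
      have : i = 0 ∨ i = 3 := by revert hi h2; revert i; decide
      rcases this with rfl | rfl
      · exact g02
      · exact g23.symm
    · intro i hi h2
      have : i = 0 ∨ i = 2 := by revert hi h2; revert i; decide
      rcases this with rfl | rfl
      · exact g03
      · exact g23
    · intro i hi h0 h2 h3
      exfalso
      revert hi h0 h2 h3; revert i; decide
  -- w_B
  rcases H.free_or H.free_empty (j := 14) t14 (by decide) (by decide) (by decide) (by decide)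
    with hb | hb
  · refine hfin ?_
    have hb' : Vis lam ({0} : Finset (Fin 18)) 14 := by simpa using hb
    have hX : XF lam (insert (Fin.natAdd 4 (10 : Fin 14)) (insert (Fin.natAdd 4 (13 : Fin 14))
        ({0, 2} : Finset (Fin 18)))) (Fin.castAdd 14 (3 : Fin 4)) := by
      refine H.tr_XF (f := 3) (W := {2, 0}) hB (by decide) (by decide) fun i hi h3 => ?_
      have : i = 14 ∨ i = 17 := by revert hi h3; revert i; decide
      rcases this with rfl | rfl
      · rw [g14]; exact p3.symm
      · exact gn3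
    have hV : Vis lam (insert (Fin.castAdd 14 (3 : Fin 4)) (insert (Fin.natAdd 4 (13 : Fin 14))
        ({0, 2} : Finset (Fin 18)))) (Fin.natAdd 4 (10 : Fin 14)) := by
      refine H.tr_vis (f := 14) (W := {0}) hb' (by decide) (by decide) fun i hi h14 => ?_
      have : i = 3 ∨ i = 17 ∨ i = 2 := by revert hi h14; revert i; decide
      rw [g14]
      rcases this with rfl | rfl | rfl
      · exact p3
      · exact p17
      · exact p2
    have hL := H.leafStep (V := ({0, 2} : Finset (Fin 18))) (X := 3) (F := 10) (q := 13) (n := 1)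
      (e := 0) (by decide) (by decide) (by decide) (by decide) (by decide) (by decide) (by decide)
      (by decide) (by decide) hX hV
    have e : insert (Fin.castAdd 14 (3 : Fin 4)) ({0, 2} : Finset (Fin 18)) = {0, 2, 3} := by decide
    rw [e] at hL
    exact hL
  -- w_A
  rcases H.free_or hb (j := 15) t15 (by decide) (by decide) (by decide) (by decide) with ha | ha
  · refine hfin ?_
    have hX : XF lam (insert (Fin.natAdd 4 (11 : Fin 14)) (insert (Fin.natAdd 4 (13 : Fin 14))
        ({0, 14} : Finset (Fin 18)))) (Fin.castAdd 14 (2 : Fin 4)) := by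
      refine H.tr_XF (f := 2) (W := {0}) hA (by decide) (by decide) fun i hi h3 => ?_
      have : i = 15 ∨ i = 17 ∨ i = 14 := by revert hi h3; revert i; decide
      rcases this with rfl | rfl | rfl
      · rw [g15]; exact p2.symm
      · exact gn2
      · rw [g14]; exact p2.symm
    have hV : Vis lam (insert (Fin.castAdd 14 (2 : Fin 4)) (insert (Fin.natAdd 4 (13 : Fin 14))
        ({0, 14} : Finset (Fin 18)))) (Fin.natAdd 4 (11 : Fin 14)) := by
      refine H.tr_vis (f := 15) (W := insert 0 (insert 14 ∅)) ha (by decide) (by decide)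
        fun i hi h14 => ?_
      have : i = 2 ∨ i = 17 := by revert hi h14; revert i; decide
      rw [g15]
      rcases this with rfl | rfl
      · exact p2
      · exact p17
    have hL := H.leafStep (V := ({0, 14} : Finset (Fin 18))) (X := 2) (F := 11) (q := 13) (n := 1)
      (e := 0) (by decide) (by decide) (by decide) (by decide) (by decide) (by decide) (by decide)
      (by decide) (by decide) hX hV
    refine H.tr_full hL (by decide) (by decide) fun i hi h17 => ?_
    have : i = 14 ∨ i = 3 := by revert hi h17; revert i; decide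
    rcases this with rfl | rfl
    · rw [g14]; exact p17.symm
    · exact gn3.symm
  -- P
  rcases H.free_or ha (j := 16) t16 (by decide) (by decide) (by decide) (by decide) with hp | hp
  · refine hfin ?_
    have hL := H.htStep h16 (H.tr_vis hp (W' := insert 17 {0, 14, 15}) (by decide) (by decide)
      fun i hi h16 => by
        have : i = 17 := by revert hi h16; revert i; decide
        rw [this, g16]; exact p17)
    refine H.tr_full hL (by decide) (by decide) fun i hi h17 => ?_
    have : i = 14 ∨ i = 15 ∨ i = 2 ∨ i = 3 := by revert hi h17; revert i; decide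
    rcases this with rfl | rfl | rfl | rfl
    · rw [g14]; exact p17.symm
    · rw [g15]; exact p17.symm
    · exact gn2.symm
    · exact gn3.symm
  · exfalso
    have e : ind (insert 16 (insert 15 (insert 14 ∅)) : Finset (Fin 18)) 1 = ind1 (JW 1) := by
      funext k
      have : (insert 16 (insert 15 (insert 14 ∅)) : Finset (Fin 18)) = JW 1 := by decide
      rw [this]
      rfl
    have := hp.free 1 zero_le_one
    rw [e] at this
    linarith

end Crest.Agent.R136.P1830
end

-- ▼ part R136/PZ_830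

/-!
# R136, thin branch (helper830): rows with zero slots

* `tan_zero` : tangents of a profile with zero slots `Zs` do not see `Zs`
* **`pinZ_of_zero`** : `JW j ⊆ Zs ⊢ PinZ j Zs pat` (nothing of weight `j` is visible)
* `dead0C` : row `dead0` in the form of `RowsC`
-/

set_option autoImplicit false
set_option linter.unusedVariables false

open Finset Filter Topology

namespace Crest.Agent.R136.PZ830

open Crest.Agent.R138.Ex926
open Crest.Agent.R136.Net191 Crest.Agent.R136.NetW191
open Crest.Agent.R136.PrW464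
open Crest.Agent.R136.LadW697 Crest.Agent.R136.NatW697
open Crest.Agent.R136.K2S774
open Crest.Agent.R136.K2A146
open Crest.Agent.R136.LadG697
open Crest.Agent.R136.LadT830
open Crest.Agent.R136.Top484

/-- tangents do not see the zero slots -/
theorem tan_zero {P : Set (Fin 18 → ℝ)} {ν own : (Fin 18 → ℝ) → ℝ} {Zs : Set (Fin 18)}
    (hz : ZeroS P ν own Zs) {L : Set (Fin 18 → ℝ)} {x : ℕ → Fin 18 → ℝ} {h : ℕ → ℝ}
    {lam : (Fin 18 → ℝ) → ℝ} (hT : IsTan P L ν x h lam) (hpos : ∀ l, 0 < h l)
    {c c' : Fin 18 → ℝ} (hc : c ∈ L) (hc' : c' ∈ L) (he : ∀ k, k ∉ Zs → c k = c' k) :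
    lam c = lam c' := by
  have key : ∀ ε : ℝ, 0 < ε → |lam c - lam c'| ≤ ε := by
    intro ε hε
    obtain ⟨l, h1, h2⟩ := ((hT ‖c‖ (ε / 2) (by positivity)).and
      (hT ‖c'‖ (ε / 2) (by positivity))).exists
    obtain ⟨m1, e1⟩ := h1 c hc le_rfl
    obtain ⟨m2, e2⟩ := h2 c' hc' le_rfl
    have e3 : ν (x l + h l • c) = ν (x l + h l • c') := (hz _ m1 _ m2 fun k hk => by
      simp only [Pi.add_apply, Pi.smul_apply, smul_eq_mul, he k hk]).1
    rw [e3] at e1
    have hp := hpos l
    rw [abs_le] at e1 e2 ⊢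
    constructor
    · by_contra hcon
      push Not at hcon
      nlinarith
    · by_contra hcon
      push Not at hcon
      nlinarith
  have := le_of_forall_pos_le_add (a := |lam c - lam c'|) (b := 0) fun ε hε => by
    rw [zero_add]; exact key ε hε
  have h0 := abs_nonneg (lam c - lam c')
  have h1 : |lam c - lam c'| = 0 := le_antisymm this h0
  linarith [abs_eq_zero.1 h1]

/-- the direction of the slots of weight `j` is legal on the rung `j` -/
theorem ind1_mem (j : ℕ) : ind1 (JW j) ∈ cn QW (actW (DrW j)) := by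
  rw [mem_cnW]
  intro k hk l hl hs
  have h0 : ∀ i, 0 ≤ ind1 (JW j) i := fun i => by
    unfold ind1; split_ifs <;> norm_num
  by_cases hkJ : k ∈ JW j
  · obtain ⟨h4, hal⟩ := mem_JW.1 hkJ
    have key : ∀ k : Fin 18, 4 ≤ k → ∀ l ∈ mlW k, ∃ i ∈ l, 4 ≤ i ∧ alW k ≤ alW i := by decide
    obtain ⟨i, hi, hi4, hia⟩ := key k h4 l hl
    have hiJ : i ∈ JW j := by
      rw [mem_JW]
      refine ⟨hi4, le_antisymm ?_ (hal ▸ hia)⟩
      have h1 : ¬ ((j : ℝ) < alW i) := fun h => hs i hi ⟨hi4, h⟩
      have h2 : (alW i : ℝ) ≤ ((j : ℤ) : ℝ) := by push_cast; exact not_lt.1 h1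
      exact_mod_cast h2
    have e1 : ind1 (JW j) k = 1 := if_pos hkJ
    have e2 : ind1 (JW j) i = 1 := if_pos hiJ
    rw [e1, ← e2]
    refine List.single_le_sum ?_ _ (List.mem_map.2 ⟨i, hi, rfl⟩)
    intro y hy
    obtain ⟨a, _, rfl⟩ := List.mem_map.1 hy
    exact h0 a
  · have e1 : ind1 (JW j) k = 0 := if_neg hkJ
    rw [e1]
    refine List.sum_nonneg fun y hy => ?_
    obtain ⟨a, _, rfl⟩ := List.mem_map.1 hy
    exact h0 a

/-- **rows where every slot of weight `j` is a zero slot** -/
theorem pinZ_of_zero {j : ℕ} {Zs : Set (Fin 18)} (hJ : ∀ k ∈ JW j, k ∈ Zs)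
    (pat : (Fin 3 → ℝ) → Set (Fin 18) → Prop) : PinZ j Zs pat := by
  intro P ν own K r0 θ g q V T h hz hp
  refine ⟨1, one_pos, btW θ, fun k _ => rfl, fun lam lo hst => ?_⟩
  intro z hz0 D' hD' k lam' lo' kpos k0 H1 H2 x' h' hJ' hB φ rt out hVis
  exfalso
  have e0 : lam' 0 = 0 := by
    have hT := hJ'.tan
    have key : ∀ ε : ℝ, 0 < ε → |lam' 0| ≤ ε := by
      intro ε hε
      obtain ⟨l, h1⟩ := (hT 0 ε hε).exists
      obtain ⟨_, e1⟩ := h1 0 cn_zero (by simp)
      have hp := hJ'.pos l
      rw [smul_zero, add_zero, sub_self, zero_sub, abs_neg, abs_mul, abs_of_pos hp] at e1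
      by_contra hcon
      push Not at hcon
      nlinarith
    have := le_of_forall_pos_le_add (a := |lam' 0|) (b := 0) fun ε hε => by
      rw [zero_add]; exact key ε hε
    exact abs_eq_zero.1 (le_antisymm this (abs_nonneg _))
  have e1 : lam' (ind1 (JW j)) = lam' 0 := tan_zero hz hJ'.tan hJ'.pos (ind1_mem j) cn_zero
    fun k hk => by
      have : k ∉ JW j := fun h => hk (hJ k h)
      show ind1 (JW j) k = 0
      exact if_neg this
  have : lam' (ind1 (JW j)) < 0 := hVis
  linarith

/-- row `dead0` in the form of `RowsC` -/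
theorem dead0C : DeadC fun g θ V s => (∀ k, k ∉ V) ∧ 0 < s ∧ s ≤ g / 2 ∧ s < 1 :=
  fun P ν own K r0 θ g q V T s h hp =>
    P0830.dead0 P ν own K r0 θ g q V T s h ⟨hp.2.1, hp.1, hp.2.2⟩

/-- **row `pin2z`** -/
theorem pin2z : PinZ 2 (↑(JW 2)) fun θ V => True :=
  pinZ_of_zero (fun k hk => Finset.mem_coe.2 hk) _

/-- **row `pin1z`** -/
theorem pin1z : PinZ 1 (↑(JW 1)) fun θ V => True :=
  pinZ_of_zero (fun k hk => Finset.mem_coe.2 hk) _

end Crest.Agent.R136.PZ830
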