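import Crest.Agent.R136.Bas5_938
import Crest.Agent.R136.DLw2_619
import Crest.Agent.R136.P0_830
import Crest.Agent.R136.LadG1_697

-- ▼ part R136/RowI1_938
section

/-!
# R136 (helper938): row (i) of the thin ladder, weight `1`, part 1: raw twist of `phiP`

* `raw_pairs0` : raw twist of one slot together with the height
* `twPa` : `phiP` is visible if `12` is (tight wall `16 = 1 + 0 + 12`); `twPI` (619) : if `15` is
-/

set_option autoImplicit false
set_option linter.unusedSectionVars false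
set_option linter.unusedVariables false

open Filter Topology

namespace Crest.Agent.R136.RowI938

open Finset Crest.Agent.R136.NetW191 Crest.Agent.R136.Net191 Crest.Agent.R136.Qg926
open Crest.Agent.R136.EvW938 Crest.Agent.R136.RowW619 Crest.Agent.R136.Lf400
open Crest.Agent.R136.LfW619 Crest.Agent.R136.Ht887 Crest.Agent.R136.BaseW619
open Crest.Agent.R136.TrI938 Crest.Agent.R136.DLow619
open Crest.Agent.R136.Aw413 (RawL)
open Crest.Agent.R138.Ex926 (Base U)
open Crest.Agent.R136.Gf356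

variable {ι : ℕ → Type*} [∀ n, DecidableEq (ι n)] {W : Wnd 18 ι} {κ : ℕ → ℝ}
  {lam : ℕ → Fin 18 → ℝ} {f : ∀ n, ι n → FW}

/-- **raw twist of one slot together with the height** -/
theorem raw_pairs0 (h : WWnd W κ lam f) {E : ∀ n, Finset (ι n)} (hE : EvG W E)
    {Leg : Set (Fin 18 → ℝ)} {ν : (Fin 18 → ℝ) → ℝ} {R D : ℝ}
    (H : RModel W.B' (W.cfg E) 1 R Leg ν D) (hR : 0 < R) {y : ℝ} (hy : 0 < y) (ht : y ≤ W.top 0)
    {v : Fin 18} (hv : RawL W E v) :
    ∀ ε : ℝ, 0 < ε → ∀ᶠ n in (U : Filter ℕ), ∀ i ∈ (W.cfg E n).L,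
      ∃ T ⊆ ((W.cfg E n).hts i) ×ˢ ((W.cfg E n).hts i),
        (∀ q ∈ T, W.B'.d n ^ ε < |ownC W n i q.1 q.2 v| ∧
          W.B'.d n ^ ε < |ownC W n i q.1 q.2 0|) ∧
        1 / 4 * (((W.cfg E n).hts i).card : ℝ) ^ 2 ≤ (T.card : ℝ) := by
  classical
  intro ε hε
  set x0 : ℝ := min (min (ε / 2) (y / 2)) R with hx0
  have x0p : 0 < x0 := lt_min (lt_min (by linarith) (by linarith)) hR
  have x0e : 2 * x0 ≤ ε := by
    have := (min_le_left _ R).trans (min_le_left (ε / 2) (y / 2)); rw [← hx0] at this; linarith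
  have x0y : 2 * x0 ≤ y := by
    have := (min_le_left _ R).trans (min_le_right (ε / 2) (y / 2)); rw [← hx0] at this; linarith
  have x0R : x0 ≤ R := min_le_right _ _
  have hK := h.ok.K0_one
  have hk0 := h.ok.kap 0
  filter_upwards [hE, raw_pairs hv ε hε, H.frost x0 x0p.le x0R (x0 / 4) (by positivity),
    H.line (x0 / 4) (by positivity), ev_const_le W.B' (show 0 < x0 / 2 by positivity) 4,
    ev_const_le W.B' x0p (2 * (2 * W.K0 / W.kap 0) + 4)] with n hn h1 h2 h3 h4 h5 i hi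
  obtain ⟨g, hsub, heq⟩ := hn
  obtain ⟨T, hT1, hT2, hT3⟩ := h1 i hi
  have h3i := h3 i hi
  have hρ := H.base n
  have hpos : ∀ t : ℝ, 0 < W.B'.d n ^ t := fun t => Real.rpow_pos_of_pos (W.B'.pos n) _
  have hadd : ∀ s t : ℝ, W.B'.d n ^ s * W.B'.d n ^ t = W.B'.d n ^ (s + t) := fun s t =>
    (Real.rpow_add (W.B'.pos n) s t).symm
  have anti : ∀ {s t : ℝ}, s ≤ t → W.B'.d n ^ t ≤ W.B'.d n ^ s := fun hst =>
    Real.rpow_le_rpow_of_exponent_ge (W.B'.pos n) (W.B'.lt n).le hst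
  set Hs := (W.cfg E n).hts i with hHs
  -- few near heights
  have hnear : ∀ k ∈ Hs, (((Hs.filter fun k' => |(W.cfg E n).z k' - (W.cfg E n).z k| ≤
      W.B'.d n ^ x0).card : ℕ) : ℝ) ≤ 1 / 4 * (Hs.card : ℝ) := by
    intro k hk
    have hkZ : k ∈ (W.cfg E n).Z := (RCfg.mem_hts.1 hk).1
    have a1 : ((Hs.filter fun k' => |(W.cfg E n).z k' - (W.cfg E n).z k| ≤
        W.B'.d n ^ x0).card : ℝ) ≤ (((W.cfg E n).hbox x0 k).card : ℝ) := by
      refine mod_cast Finset.card_le_card ?_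
      intro k' hk'
      obtain ⟨b1, b2⟩ := Finset.mem_filter.1 hk'
      unfold RCfg.hbox
      rw [Finset.mem_filter, hρ]
      exact ⟨(RCfg.mem_hts.1 b1).1, b2⟩
    have a2 := h2 k hkZ
    have a3 : (((W.cfg E n).Z.card : ℕ) : ℝ) ≤ W.B'.d n ^ (-(x0 / 4)) * (Hs.card : ℝ) := by
      have e1 : W.B'.d n ^ (-(x0 / 4)) * W.B'.d n ^ (x0 / 4) = 1 := by
        rw [hadd, neg_add_cancel, Real.rpow_zero]
      have := mul_le_mul_of_nonneg_left h3i (hpos (-(x0 / 4))).le
      rwa [← mul_assoc, e1, one_mul] at this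
    have a4 : W.B'.d n ^ (1 * x0 - x0 / 4) * W.B'.d n ^ (-(x0 / 4)) ≤ 1 / 4 := by
      rw [hadd]
      have e : 1 * x0 - x0 / 4 + -(x0 / 4) = x0 / 2 := by ring
      rw [e]
      have e1 : W.B'.d n ^ (x0 / 2) * W.B'.d n ^ (-(x0 / 2)) = 1 := by
        rw [hadd, add_neg_cancel, Real.rpow_zero]
      have := mul_le_mul_of_nonneg_left h4 (hpos (x0 / 2)).le
      rw [e1] at this
      linarith
    calc ((Hs.filter fun k' => |(W.cfg E n).z k' - (W.cfg E n).z k| ≤ W.B'.d n ^ x0).card : ℝ)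
        ≤ W.B'.d n ^ (1 * x0 - x0 / 4) * (((W.cfg E n).Z.card : ℕ) : ℝ) := a1.trans a2
      _ ≤ W.B'.d n ^ (1 * x0 - x0 / 4) * (W.B'.d n ^ (-(x0 / 4)) * (Hs.card : ℝ)) :=
          mul_le_mul_of_nonneg_left a3 (hpos _).le
      _ = (W.B'.d n ^ (1 * x0 - x0 / 4) * W.B'.d n ^ (-(x0 / 4))) * (Hs.card : ℝ) := by ring
      _ ≤ _ := mul_le_mul_of_nonneg_right a4 (Nat.cast_nonneg _)
  -- pairs
  set Tn := (Hs ×ˢ Hs).filter fun q => |(W.cfg E n).z q.2 - (W.cfg E n).z q.1| ≤
    W.B'.d n ^ x0 with hTn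
  have hTnc : (Tn.card : ℝ) ≤ 1 / 4 * (Hs.card : ℝ) ^ 2 := by
    have e1 : Tn.card = ∑ k ∈ Hs, (Hs.filter fun k' => |(W.cfg E n).z k' - (W.cfg E n).z k| ≤
        W.B'.d n ^ x0).card := by
      rw [hTn, Finset.card_eq_sum_card_fiberwise (f := Prod.fst) (t := Hs) (fun q hq => by
        have := (Finset.mem_filter.1 hq).1
        exact (Finset.mem_product.1 this).1)]
      refine Finset.sum_congr rfl fun k hk => ?_
      refine Finset.card_bij (fun q _ => q.2) ?_ ?_ ?_
      · intro q hq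
        obtain ⟨a1, a2⟩ := Finset.mem_filter.1 hq
        obtain ⟨a3, a4⟩ := Finset.mem_filter.1 a1
        rw [← a2]
        exact Finset.mem_filter.2 ⟨(Finset.mem_product.1 a3).2, a4⟩
      · intro q hq q' hq' heq
        have a2 := (Finset.mem_filter.1 hq).2
        have a2' := (Finset.mem_filter.1 hq').2
        exact Prod.ext (a2.trans a2'.symm) heq
      · intro k' hk'
        obtain ⟨a1, a2⟩ := Finset.mem_filter.1 hk'
        exact ⟨(k, k'), Finset.mem_filter.2 ⟨Finset.mem_filter.2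
          ⟨Finset.mem_product.2 ⟨hk, a1⟩, a2⟩, rfl⟩, rfl⟩
    rw [e1]
    push_cast
    calc ∑ k ∈ Hs, ((Hs.filter fun k' => |(W.cfg E n).z k' - (W.cfg E n).z k| ≤
          W.B'.d n ^ x0).card : ℝ) ≤ ∑ _k ∈ Hs, 1 / 4 * (Hs.card : ℝ) :=
          Finset.sum_le_sum hnear
      _ = 1 / 4 * (Hs.card : ℝ) ^ 2 := by
          rw [Finset.sum_const, nsmul_eq_mul]; ring
  refine ⟨T \ Tn, Finset.sdiff_subset.trans hT1, ?_, ?_⟩
  · intro q hq
    obtain ⟨q1, q2⟩ := Finset.mem_sdiff.1 hq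
    refine ⟨hT2 q q1, ?_⟩
    have hqm := Finset.mem_product.1 (hT1 q1)
    have hI1 : (i, q.1) ∈ (W.cfg E n).I := (RCfg.mem_hts.1 hqm.1).2
    have hI2 : (i, q.2) ∈ (W.cfg E n).I := (RCfg.mem_hts.1 hqm.2).2
    have hz : W.B'.d n ^ x0 < |(W.cfg E n).z q.2 - (W.cfg E n).z q.1| := by
      by_contra hcon
      exact q2 (Finset.mem_filter.2 ⟨hT1 q1, not_lt.1 hcon⟩)
    rw [heq] at hI1 hI2 hz
    have ho := h.own_zero g hsub hI1 hI2 ht
    have e1 : W.B'.d n ^ x0 * W.B'.d n ^ (-x0) = 1 := by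
      rw [hadd, add_neg_cancel, Real.rpow_zero]
    have hC : (2 * (2 * W.K0 / W.kap 0) + 4) * W.B'.d n ^ x0 ≤ 1 := by
      have := mul_le_mul_of_nonneg_right h5 (hpos x0).le
      rwa [mul_comm (W.B'.d n ^ (-x0)), e1] at this
    have hCk : 0 ≤ 2 * W.K0 / W.kap 0 := by positivity
    have e2 : 2 * W.K0 * W.B'.d n ^ y / W.kap 0 ≤ 1 / 2 * W.B'.d n ^ x0 := by
      calc 2 * W.K0 * W.B'.d n ^ y / W.kap 0 = 2 * W.K0 / W.kap 0 * W.B'.d n ^ y := by ring
        _ ≤ 2 * W.K0 / W.kap 0 * W.B'.d n ^ (x0 + x0) :=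
            mul_le_mul_of_nonneg_left (anti (by linarith)) hCk
        _ = (2 * W.K0 / W.kap 0 * W.B'.d n ^ x0) * W.B'.d n ^ x0 := by rw [← hadd]; ring
        _ ≤ _ := by
            refine mul_le_mul_of_nonneg_right ?_ (hpos _).le
            nlinarith [hpos x0]
    have e3 : W.B'.d n ^ ε < 1 / 2 * W.B'.d n ^ x0 := by
      calc W.B'.d n ^ ε ≤ W.B'.d n ^ (x0 + x0) := anti (by linarith)
        _ = W.B'.d n ^ x0 * W.B'.d n ^ x0 := (hadd _ _).symm
        _ < _ := by
            refine mul_lt_mul_of_pos_right ?_ (hpos _)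
            nlinarith [hpos x0]
    have e4 := abs_sub_abs_le_abs_sub ((W.cfg0 n (E n)).z q.2 - (W.cfg0 n (E n)).z q.1)
      (ownC W n i q.1 q.2 0)
    have e5 := abs_sub_comm ((W.cfg0 n (E n)).z q.2 - (W.cfg0 n (E n)).z q.1)
      (ownC W n i q.1 q.2 0)
    rw [e5] at e4
    linarith
  · have e1 : (T.card : ℝ) ≤ ((T \ Tn).card : ℝ) + Tn.card := by
      exact_mod_cast Finset.card_le_card_sdiff_add_card (s := T) (t := Tn)
    linarith

/-- **raw twist of `phiP`** if `12` is visible -/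
theorem twPa (h : WWnd W κ lam f) {E : ∀ n, Finset (ι n)} (hE : EvG W E)
    {Leg : Set (Fin 18 → ℝ)} {ν : (Fin 18 → ℝ) → ℝ} {R D : ℝ}
    (H : RModel W.B' (W.cfg E) 1 R Leg ν D) (hR : 0 < R) (hv : RawL W E 12) {t : ℝ}
    (ht0 : 0 < t) (ht : ∀ s, t ≤ W.top s)
    (htg : ∀ᶠ n in (U : Filter ℕ), W.X n 16 = W.X n 1 + (W.X n 0 + W.X n 12)) :
    RawTwI W.B' (W.cfg E) (phiP W lam) := by
  refine twP h hE ht0 ht fun ε hε => ?_
  have hcf := cf_ok h (l := [1, 0, 12]) (s := 16) (by decide) (by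
    filter_upwards [htg] with n hn
    rw [hn]; simp)
  filter_upwards [raw_pairs0 h hE H hR ht0 (ht 0) hv (ε / 3) (by positivity),
    hcf (ε / 3) (by positivity), ev_const_le W.B' hε 4] with n h1 h2 h3 i hi
  obtain ⟨T, hT1, hT2, hT3⟩ := h1 i hi
  have hpos : ∀ t : ℝ, 0 < W.B'.d n ^ t := fun t => Real.rpow_pos_of_pos (W.B'.pos n) _
  refine ⟨T, hT1, fun q hq => Or.inr ?_, ?_⟩
  · obtain ⟨a1, a0⟩ := hT2 q hq
    have a2 := h2.1
    rw [abs_of_pos (h.cfl_pos n _ _)] at a2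
    have e : W.B'.d n ^ ε = W.B'.d n ^ (ε / 3) * (W.B'.d n ^ (ε / 3) * W.B'.d n ^ (ε / 3)) := by
      rw [← Real.rpow_add (W.B'.pos n), ← Real.rpow_add (W.B'.pos n)]; congr 1; ring
    rw [e, abs_mul]
    calc W.B'.d n ^ (ε / 3) * (W.B'.d n ^ (ε / 3) * W.B'.d n ^ (ε / 3))
        < W.B'.d n ^ (ε / 3) * (|ownC W n i q.1 q.2 0| * |ownC W n i q.1 q.2 12|) :=
          mul_lt_mul_of_pos_left (mul_lt_mul'' a0 a1 (hpos _).le (hpos _).le) (hpos _)
      _ ≤ _ := mul_le_mul_of_nonneg_right a2 (by positivity)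
  · refine le_trans (mul_le_mul_of_nonneg_right ?_ (sq_nonneg _)) hT3
    have a3 : W.B'.d n ^ ε * W.B'.d n ^ (-ε) = 1 := by
      rw [← Real.rpow_add (W.B'.pos n), add_neg_cancel, Real.rpow_zero]
    have a4 := hpos ε
    nlinarith

end Crest.Agent.R136.RowI938
end

-- ▼ part R136/RowI2_938
section

/-!
# R136 (helper938): row `deadhi1` of the thin ladder (`K > 2`, dominant slots of weight `1`)

* `grS`, `gr16`, `gr17` : groups of `z`, `P`, `N` on the rung `s = KW 15 > 2`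
* `rateP_pos` : the slot `P` costs something (`c`-shift, one window with an offset)
* `rateN_one` : the slot `N` is full (height link `P → N`)
* **`deadhi1`** : the row
-/

set_option autoImplicit false
set_option linter.unusedSectionVars false
set_option linter.unusedVariables false

open Filter Topology

namespace Crest.Agent.R136.RowI938

open Finset Crest.Agent.R136.NetW191 Crest.Agent.R136.Net191 Crest.Agent.R136.Qg926
open Crest.Agent.R136.EvW938 Crest.Agent.R136.RowW619 Crest.Agent.R136.Lf400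
open Crest.Agent.R136.LfW619 Crest.Agent.R136.Ht887 Crest.Agent.R136.BaseW619
open Crest.Agent.R136.TrI938 Crest.Agent.R136.DLow619 Crest.Agent.R136.Bas938
open Crest.Agent.R136.LadW697 Crest.Agent.R136.NatW697 Crest.Agent.R136.PrW464
open Crest.Agent.R136.Dg219
open Crest.Agent.R136.AwJ774
open Crest.Agent.R136.ThB830 (PtC)
open Crest.Agent.R136.Aw413
open Crest.Agent.R138.Ex926 (Base U)
open Crest.Agent.R136.Gf356

/-! ### integer vectors with a parameter -/

theorem sum_lin (b e : Fin 18 → ℕ) (N : ℕ) (l : List (Fin 18)) :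
    (l.map fun k => b k + N * e k).sum = (l.map b).sum + N * (l.map e).sum := by
  induction l with
  | nil => simp
  | cons a l ih => simp only [List.map_cons, List.sum_cons, ih]; ring

theorem okV_lin {b e n : Fin 18 → ℕ} {r : ℕ} (he : ∀ k, ∀ l ∈ mlW k, e k ≤ (l.map e).sum)
    (h : OkV b r n) (N : ℕ) : OkV (fun k => b k + N * e k) r n := by
  refine ⟨h.1, fun k l hl => ?_⟩
  rw [sum_lin]
  have h1 := Nat.mul_le_mul_left N (he k l hl)
  rcases h.2 k l hl with h2 | h2
  · left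
    show b k + N * e k + r ≤ _
    omega
  · right; exact h2

theorem wdat_lin {b e nt : Fin 18 → ℕ} {r : ℕ} {S : Finset (Fin 18)}
    (he : ∀ k, ∀ l ∈ mlW k, e k ≤ (l.map e).sum) (he0 : e 0 = 0) (h : WDat b nt r S) (N : ℕ) :
    WDat (fun k => b k + N * e k) nt r S where
  off := fun k l hl => by
    rw [sum_lin]
    exact Nat.add_le_add (h.off k l hl) (Nat.mul_le_mul_left N (he k l hl))
  top := okV_lin he h.top N
  lin := okV_lin he h.lin N
  lev := okV_lin he h.lev N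
  zS := h.zS
  hS := h.hS
  z0 := by simp [h.z0, he0]
  zt := h.zt

/-! ### the data of the window of the `c`-shift -/

/-- level slots -/
def SI : Finset (Fin 18) := {0, 12, 15}

/-- slots of `c`-weight `≥ 2` -/
def Z9 : Finset (Fin 18) := {4, 5, 6, 7, 8, 9, 10, 11, 14}

/-- offset, `t` in the slot `12` -/
def bI (t : ℕ) : Fin 18 → ℕ := fun k => if k ∈ Z9 then 2 else if k = 12 then t else 0

/-- direction of the offset -/
def eI : Fin 18 → ℕ := fun k => if k = 1 ∨ k = 2 ∨ k = 3 ∨ k = 13 ∨ k = 16 then 1 else 0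

def n1 : Fin 18 → ℕ := fun _ => 1
/-- everything narrow but `c` -/
def nP : Fin 18 → ℕ := fun k => if k = 1 then 0 else 1
/-- all flags narrow -/
def nT : Fin 18 → ℕ := fun k => if k = 1 ∨ k = 2 ∨ k = 3 ∨ k = 13 ∨ k = 16 ∨ k = 17 then 0 else 1
/-- all flags and `P` narrow -/
def nR : Fin 18 → ℕ := fun k => if k = 1 ∨ k = 2 ∨ k = 3 ∨ k = 13 ∨ k = 17 then 0 else 1

theorem eI_nat : ∀ k, ∀ l ∈ mlW k, eI k ≤ (l.map eI).sum := by decide
theorem wdI0 : WDat (bI 0) n1 1 SI := by decide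
theorem wdI1 : WDat (bI 1) n1 1 SI := by decide
theorem okP0 : OkV (bI 0) 1 nP := by decide
theorem okP1 : OkV (bI 1) 1 nP := by decide
theorem okT0 : OkV (bI 0) 1 nT := by decide
theorem okT1 : OkV (bI 1) 1 nT := by decide
theorem okR0 : OkV (bI 0) 1 nR := by decide
theorem okR1 : OkV (bI 1) 1 nR := by decide

/-! ### groups -/

section grp

variable {θ : Fin 3 → ℝ} {s : ℝ}

theorem flags3 : ∀ k : Fin 18, 4 ≤ k → (k = 13 ∨ k = 16 ∨ k = 17) ∨ (k = 12 ∨ k = 15) ∨
    (wc k ≤ -2 ∧ k ∈ Z9) := by decide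

theorem wcs : wc 13 = 0 ∧ wc 16 = 0 ∧ wc 17 = 0 ∧ wc 12 = -1 ∧ wc 15 = -1 := by decide

theorem als : alW 13 = 2 ∧ alW 16 = 1 ∧ alW 17 = 0 ∧ alW 12 = 2 ∧ alW 15 = 1 := by decide

theorem not_Dr (hs : 2 < s) {k : Fin 18} (h : alW k ≤ 2) : k ∉ DrW s := by
  rintro ⟨_, h2⟩
  have : ((alW k : ℤ) : ℝ) ≤ 2 := by exact_mod_cast h
  linarith

/-- `KW k - s` on the rung `s = KW 15` -/
theorem KW_sub (hK : KW θ 15 = s) {k : Fin 18} (hk : 4 ≤ k) :
    KW θ k - s = -((wc k : ℝ) + 1) * θ 1 := by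
  rw [← hK, KW_flag θ hk, KW_flag θ (k := 15) (by decide), wcs.2.2.2.2]
  push_cast; ring

/-- ratio of a flag -/
theorem ratio (hK : KW θ 15 = s) {k : Fin 18} (hk : 4 ≤ k) (hD : k ∉ DrW s)
    (h0 : TW s k ≠ 0) : btW θ k / TW s k = 1 - ((wc k : ℝ) + 1) * θ 1 / TW s k := by
  rw [btW_TW θ hk hD, KW_sub hK hk]
  field_simp
  ring

theorem TWk (hs : 2 < s) : TW s 16 = s - 1 ∧ TW s 17 = s ∧ TW s 12 = s - 2 ∧ TW s 15 = s - 1 ∧
    TW s 13 = s - 2 := by
  obtain ⟨a1, a2, a3, a4, a5⟩ := als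
  refine ⟨?_, ?_, ?_, ?_, ?_⟩
  · rw [TW_flag (by decide) (not_Dr hs (by rw [a2]; decide)), a2]; push_cast; ring
  · rw [TW_flag (by decide) (not_Dr hs (by rw [a3]; decide)), a3]; push_cast; ring
  · rw [TW_flag (by decide) (not_Dr hs (by rw [a4])), a4]; push_cast; ring
  · rw [TW_flag (by decide) (not_Dr hs (by rw [a5]; decide)), a5]; push_cast; ring
  · rw [TW_flag (by decide) (not_Dr hs (by rw [a1])), a1]; push_cast; ring

/-- a flag which is not dropped with positive slope -/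
theorem TW_pos (hs : 2 < s) {k : Fin 18} (hD : k ∉ DrW s) (h0 : TW s k ≠ 0) : 0 < TW s k :=
  lt_of_le_of_ne (TW_nonneg (by linarith) k) (Ne.symm h0)

/-- common core: the slots in a group of a given ratio -/
theorem grp_core (hθ : 0 < θ 1) (hs : 2 < s) (hK : KW θ 15 = s) {i : Fin 18} (hi : 4 ≤ i)
    (hDi : i ∉ DrW s) (h0i : TW s i ≠ 0) {j : Fin 18}
    (e : gC (TW s) (btW θ) j = gC (TW s) (btW θ) i) (hD : j ∉ DrW s) :
    (j = 0 ∧ (wc i : ℝ) + 1 = 0) ∨ (j = 2 ∧ (wc i : ℝ) + 1 = TW s i) ∨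
      (j = 3 ∧ (wc i : ℝ) + 1 = 2 * TW s i) ∨
      (4 ≤ j ∧ TW s j ≠ 0 ∧ ((wc j : ℝ) + 1) * TW s i = ((wc i : ℝ) + 1) * TW s j) := by
  have h0j : TW s j ≠ 0 := by
    intro h
    rw [gC_zero.2 h] at e
    exact h0i (gC_zero.1 e.symm)
  rw [gC_eq h0j h0i, ratio hK hi hDi h0i] at e
  suffices key : ∀ j : Fin 18, j ∉ DrW s → TW s j ≠ 0 →
      btW θ j / TW s j = 1 - ((wc i : ℝ) + 1) * θ 1 / TW s i →
      (j = 0 ∧ (wc i : ℝ) + 1 = 0) ∨ (j = 2 ∧ (wc i : ℝ) + 1 = TW s i) ∨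
      (j = 3 ∧ (wc i : ℝ) + 1 = 2 * TW s i) ∨
      (4 ≤ j ∧ TW s j ≠ 0 ∧ ((wc j : ℝ) + 1) * TW s i = ((wc i : ℝ) + 1) * TW s j) from
    key j hD h0j e
  intro j
  refine cases4 (P := fun j => j ∉ DrW s → TW s j ≠ 0 →
      btW θ j / TW s j = 1 - ((wc i : ℝ) + 1) * θ 1 / TW s i →
      (j = 0 ∧ (wc i : ℝ) + 1 = 0) ∨ (j = 2 ∧ (wc i : ℝ) + 1 = TW s i) ∨
      (j = 3 ∧ (wc i : ℝ) + 1 = 2 * TW s i) ∨
      (4 ≤ j ∧ TW s j ≠ 0 ∧ ((wc j : ℝ) + 1) * TW s i = ((wc i : ℝ) + 1) * TW s j))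
    ?_ ?_ ?_ ?_ ?_ j
  · intro _ _ e
    left
    refine ⟨rfl, ?_⟩
    rw [btW0, TW_z, div_one] at e
    have h1 : ((wc i : ℝ) + 1) * θ 1 / TW s i = 0 := by linarith
    rw [div_eq_zero_iff] at h1
    rcases h1 with h1 | h1
    · rcases mul_eq_zero.1 h1 with h2 | h2
      · exact h2
      · exact absurd h2 hθ.ne'
    · exact absurd h1 h0i
  · intro _ h _; exact absurd (TW_c s) h
  · intro _ _ e
    right; left
    refine ⟨rfl, ?_⟩
    rw [btW2, TW_A, div_one] at e
    have h1 : ((wc i : ℝ) + 1) * θ 1 / TW s i = θ 1 := by linarith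
    rw [div_eq_iff h0i] at h1
    have h2 : θ 1 * ((wc i : ℝ) + 1) = θ 1 * TW s i := by linarith
    exact mul_left_cancel₀ hθ.ne' h2
  · intro _ _ e
    right; right; left
    refine ⟨rfl, ?_⟩
    rw [btW3, TW_B, div_one] at e
    have h1 : ((wc i : ℝ) + 1) * θ 1 / TW s i = 2 * θ 1 := by linarith
    rw [div_eq_iff h0i] at h1
    have h2 : θ 1 * ((wc i : ℝ) + 1) = θ 1 * (2 * TW s i) := by linarith
    exact mul_left_cancel₀ hθ.ne' h2
  · intro k hk hDk h0k e
    right; right; right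
    refine ⟨hk, h0k, ?_⟩
    rw [ratio hK hk hDk h0k] at e
    have h1 : ((wc k : ℝ) + 1) * θ 1 / TW s k = ((wc i : ℝ) + 1) * θ 1 / TW s i := by linarith
    rw [div_eq_div_iff h0k h0i] at h1
    have h2 : θ 1 * (((wc k : ℝ) + 1) * TW s i) = θ 1 * (((wc i : ℝ) + 1) * TW s k) := by
      linarith
    exact mul_left_cancel₀ hθ.ne' h2

/-- **`P` is alone in its group** -/
theorem gr16 (hθ : 0 < θ 1) (hs : 2 < s) (hK : KW θ 15 = s) (j : Fin 18)
    (e : gC (TW s) (btW θ) j = gC (TW s) (btW θ) 16) : j = 16 ∨ j ∈ DrW s := by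
  by_cases hD : j ∈ DrW s
  · exact Or.inr hD
  left
  obtain ⟨t16, t17, t12, t15, t13⟩ := TWk hs
  obtain ⟨w13, w16, w17, w12, w15⟩ := wcs
  have h0 : TW s 16 ≠ 0 := by rw [t16]; linarith
  rcases grp_core hθ hs hK (i := 16) (by decide) (not_Dr hs (by decide)) h0 e hD with
    ⟨_, h⟩ | ⟨_, h⟩ | ⟨_, h⟩ | ⟨hj, h0j, h⟩
  · rw [w16] at h; norm_num at h
  · rw [w16, t16] at h; push_cast at h; linarith
  · rw [w16, t16] at h; push_cast at h; linarith
  · rw [w16, t16] at h
    have hp := TW_pos hs hD h0j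
    rcases flags3 j hj with (rfl | rfl | rfl) | (rfl | rfl) | ⟨h1, _⟩
    · rw [w13, t13] at h; push_cast at h; linarith
    · rfl
    · rw [w17, t17] at h; push_cast at h; linarith
    · rw [w12, t12] at h; push_cast at h; linarith
    · rw [w15, t15] at h; push_cast at h; linarith
    · have h2 : ((wc j : ℤ) : ℝ) ≤ -2 := by exact_mod_cast h1
      have h3 : 0 < s - 1 := by linarith
      have : ((wc j : ℝ) + 1) * (s - 1) < 0 := mul_neg_of_neg_of_pos (by linarith) h3
      push_cast at h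
      nlinarith

/-- **`N` is alone in its group** -/
theorem gr17 (hθ : 0 < θ 1) (hs : 2 < s) (hK : KW θ 15 = s) (j : Fin 18)
    (e : gC (TW s) (btW θ) j = gC (TW s) (btW θ) 17) : j = 17 ∨ j ∈ DrW s := by
  by_cases hD : j ∈ DrW s
  · exact Or.inr hD
  left
  obtain ⟨t16, t17, t12, t15, t13⟩ := TWk hs
  obtain ⟨w13, w16, w17, w12, w15⟩ := wcs
  have h0 : TW s 17 ≠ 0 := by rw [t17]; linarith
  rcases grp_core hθ hs hK (i := 17) (by decide) (not_Dr hs (by decide)) h0 e hD with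
    ⟨_, h⟩ | ⟨_, h⟩ | ⟨_, h⟩ | ⟨hj, h0j, h⟩
  · rw [w17] at h; norm_num at h
  · rw [w17, t17] at h; push_cast at h; linarith
  · rw [w17, t17] at h; push_cast at h; linarith
  · rw [w17, t17] at h
    have hp := TW_pos hs hD h0j
    rcases flags3 j hj with (rfl | rfl | rfl) | (rfl | rfl) | ⟨h1, _⟩
    · rw [w13, t13] at h; push_cast at h; linarith
    · rw [w16, t16] at h; push_cast at h; linarith
    · rfl
    · rw [w12, t12] at h; push_cast at h; linarith
    · rw [w15, t15] at h; push_cast at h; linarith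
    · have h2 : ((wc j : ℤ) : ℝ) ≤ -2 := by exact_mod_cast h1
      have h3 : 0 < s := by linarith
      have : ((wc j : ℝ) + 1) * s < 0 := mul_neg_of_neg_of_pos (by linarith) h3
      push_cast at h
      nlinarith

/-- **the group of `z`** -/
theorem grS (hθ : 0 < θ 1) (hs : 2 < s) (hK : KW θ 15 = s) (i j : Fin 18)
    (e : gC (TW s) (btW θ) i = gC (TW s) (btW θ) j) (hi : i ∈ SI) : j ∈ SI ∨ j ∈ DrW s := by
  by_cases hD : j ∈ DrW s
  · exact Or.inr hD
  left
  obtain ⟨t16, t17, t12, t15, t13⟩ := TWk hs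
  obtain ⟨w13, w16, w17, w12, w15⟩ := wcs
  have core : ∀ i : Fin 18, (i = 12 ∨ i = 15) → gC (TW s) (btW θ) j = gC (TW s) (btW θ) i →
      j ∈ SI := by
    intro i hi e
    have hi4 : 4 ≤ i := by rcases hi with rfl | rfl <;> decide
    have hDi : i ∉ DrW s := by rcases hi with rfl | rfl <;> exact not_Dr hs (by decide)
    have wi : wc i = -1 := by rcases hi with rfl | rfl <;> decide
    have h0 : TW s i ≠ 0 := by
      rcases hi with rfl | rfl
      · rw [t12]; linarith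
      · rw [t15]; linarith
    have hpi := TW_pos hs hDi h0
    rcases grp_core hθ hs hK hi4 hDi h0 e hD with ⟨rfl, h⟩ | ⟨_, h⟩ | ⟨_, h⟩ | ⟨hj, h0j, h⟩
    · decide
    · rw [wi] at h; push_cast at h; linarith
    · rw [wi] at h; push_cast at h; linarith
    · rw [wi] at h
      rcases flags3 j hj with (rfl | rfl | rfl) | (rfl | rfl) | ⟨h1, _⟩
      · rw [w13] at h; push_cast at h; linarith
      · rw [w16] at h; push_cast at h; linarith
      · rw [w17] at h; push_cast at h; linarith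
      · decide
      · decide
      · have h2 : ((wc j : ℤ) : ℝ) ≤ -2 := by exact_mod_cast h1
        have : ((wc j : ℝ) + 1) * TW s i < 0 := mul_neg_of_neg_of_pos (by linarith) hpi
        push_cast at h
        nlinarith
  have z15 : gC (TW s) (btW θ) 0 = gC (TW s) (btW θ) 15 := by
    have h0 : TW s 15 ≠ 0 := by rw [t15]; linarith
    rw [gC_eq (by rw [TW_z]; exact one_ne_zero) h0, ratio hK (by decide)
      (not_Dr hs (by decide)) h0, w15, btW0, TW_z]
    push_cast; ring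
  have hi' : i = 0 ∨ i = 12 ∨ i = 15 := by simpa [SI] using hi
  rcases hi' with rfl | rfl | rfl
  · exact core 15 (Or.inr rfl) (by rw [← z15]; exact e.symm)
  · exact core 12 (Or.inl rfl) e.symm
  · exact core 15 (Or.inr rfl) e.symm

/-- the slots in the group of `c` -/
theorem gr1 (hs : 2 < s) (j : Fin 18) (e : gC (TW s) (btW θ) j = gC (TW s) (btW θ) 1)
    (hj : j ≠ 1) (hD : j ∉ DrW s) : j ∈ Z9 := by
  rw [gC_zero.2 (TW_c s)] at e
  have h0 := gC_zero.1 e
  rcases (cases4 (P := fun j => TW s j = 0 → 4 ≤ j ∨ j = 1) (fun e => absurd e (by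
    rw [TW_z]; exact one_ne_zero)) (fun _ => Or.inr rfl) (fun e => absurd e (by
    rw [TW_A]; exact one_ne_zero)) (fun e => absurd e (by rw [TW_B]; exact one_ne_zero))
    (fun k hk _ => Or.inl hk) j) h0 with h4 | h4
  · obtain ⟨t16, t17, t12, t15, t13⟩ := TWk hs
    rcases flags3 j h4 with (rfl | rfl | rfl) | (rfl | rfl) | ⟨_, h1⟩
    · rw [t13] at h0; linarith
    · rw [t16] at h0; linarith
    · rw [t17] at h0; linarith
    · rw [t12] at h0; linarith
    · rw [t15] at h0; linarith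
    · exact h1
  · exact absurd h4 hj

end grp

end Crest.Agent.R136.RowI938
end

-- ▼ part R136/RowI3_938

/-!
# R136 (helper938): row `deadhi1` of the thin ladder, part 3: the windows and the row

* `exists_closs` : the slot `c` costs something at some multiple of the unit, given the slots of
  `c`-weight `≥ 2` narrow
* `rateP_core`, `rateP_pos` : the rate of `P` is positive
* `rateN_one` : the rate of `N` is `≥ 1`
* **`deadhi1`** : `DeadC fun g θ V s => Top θ (· ∈ V) s ∧ 2 < s ∧ KW θ 15 = s`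
-/

set_option autoImplicit false
set_option linter.unusedSectionVars false
set_option linter.unusedVariables false

open Filter Topology

namespace Crest.Agent.R136.RowI938

open Finset Crest.Agent.R136.NetW191 Crest.Agent.R136.Net191 Crest.Agent.R136.Qg926
open Crest.Agent.R136.EvW938 Crest.Agent.R136.RowW619 Crest.Agent.R136.Lf400
open Crest.Agent.R136.LfW619 Crest.Agent.R136.Ht887 Crest.Agent.R136.BaseW619
open Crest.Agent.R136.TrI938 Crest.Agent.R136.DLow619 Crest.Agent.R136.Bas938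
open Crest.Agent.R136.LadW697 Crest.Agent.R136.NatW697 Crest.Agent.R136.PrW464
open Crest.Agent.R136.Dg219
open Crest.Agent.R136.AwJ774
open Crest.Agent.R136.ThB830 (PtC)
open Crest.Agent.R136.P0830 (ptB_of basG_of)
open Crest.Agent.R136.LadT830 (Top)
open Crest.Agent.R136.Aw413
open Crest.Agent.R138.Ex926 (Base U)
open Crest.Agent.R136.Gf356

/-! ### legality by domination -/

theorem sum_ge {c : Fin 18 → ℝ} (h0 : ∀ k, 0 ≤ c k) {l : List (Fin 18)} {s : Fin 18}
    (hs : s ∈ l) : c s ≤ (l.map c).sum := by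
  refine List.single_le_sum ?_ _ (List.mem_map_of_mem hs)
  intro x hx
  obtain ⟨i, _, rfl⟩ := List.mem_map.1 hx
  exact h0 i

theorem sum_nn {c : Fin 18 → ℝ} (h0 : ∀ k, 0 ≤ c k) (l : List (Fin 18)) :
    0 ≤ (l.map c).sum := by
  refine List.sum_nonneg ?_
  intro x hx
  obtain ⟨i, _, rfl⟩ := List.mem_map.1 hx
  exact h0 i

theorem mem_dom {Ma : Mons 18} {Dr : Set (Fin 18)} (hM : ActM Ma Dr) {c : Fin 18 → ℝ}
    (h0 : ∀ k, 0 ≤ c k) (h : ∀ k, ∀ l ∈ mlW k, c k ≤ 0 ∨ ∃ s ∈ l, c k ≤ c s) :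
    c ∈ coneM Ma := by
  rw [hM.cone]
  intro k _ l hl _
  rcases h k l hl with h1 | ⟨s, hs, h1⟩
  · exact h1.trans (sum_nn h0 l)
  · exact h1.trans (sum_ge h0 hs)

theorem leg_dom {Ma : Mons 18} {Dr : Set (Fin 18)} (hM : ActM Ma Dr) {c0 : Fin 18 → ℝ} {R : ℝ}
    {c : Fin 18 → ℝ} (h0 : ∀ k, 0 ≤ c k) (hR : ∀ k, c k ≤ R)
    (h : ∀ k, ∀ l ∈ mlW k, c k ≤ 0 ∨ ∃ s ∈ l, c k ≤ c s) : c ∈ Leg (offM Ma c0 R) R := by
  refine ⟨⟨h0, fun k e he => ?_⟩, hR⟩
  obtain ⟨h1, _⟩ := mem_offM.1 he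
  obtain ⟨hk, l, hl, hs, rfl⟩ := (hM.iff k e).1 h1
  rw [← sum_count]
  rcases h k l hl with h1 | ⟨s, hs, h1⟩
  · exact h1.trans (sum_nn h0 l)
  · exact h1.trans (sum_ge h0 hs)

/-! ### the loss of `c` -/

/-- `c : t`, slots of `c`-weight `≥ 2` at `3 y` -/
def wI (y t : ℝ) : Fin 18 → ℝ := fun k => if k = 1 then t else if k ∈ Z9 then 3 * y else 0

theorem domZ : ∀ k ∈ Z9, ∀ l ∈ mlW k, ∃ s ∈ l, s ∈ Z9 := by decide
theorem one_Z9 : (1 : Fin 18) ∉ Z9 := by decide

theorem wI_nonneg {y t : ℝ} (hy : 0 ≤ y) (ht : 0 ≤ t) (k : Fin 18) : 0 ≤ wI y t k := by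
  unfold wI; split_ifs <;> first | exact ht | exact le_rfl | positivity

theorem wI_mem {Ma : Mons 18} {Dr : Set (Fin 18)} (hM : ActM Ma Dr) {y t : ℝ} (hy : 0 ≤ y)
    (ht : 0 ≤ t) : wI y t ∈ coneM Ma := by
  refine mem_dom hM (wI_nonneg hy ht) fun k l hl => ?_
  by_cases h1 : k = 1
  · subst h1
    have : mlW 1 = [] := by decide
    rw [this] at hl; exact absurd hl (List.not_mem_nil)
  by_cases hZ : k ∈ Z9
  · obtain ⟨s, hs, hsZ⟩ := domZ k hZ l hl
    have hs1 : s ≠ 1 := fun e => one_Z9 (e ▸ hsZ)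
    right
    refine ⟨s, hs, ?_⟩
    simp [wI, h1, hZ, hs1, hsZ]
  · left
    simp [wI, h1, hZ]

section pt

variable {B Bo : Base} {I J : ∀ n : ℕ, Finset (ℕ × ℝ)}
  {co : ∀ n : ℕ, ℕ × ℝ → ℕ × ℝ → Fin 18 → ℝ} {κ : ℕ → ℝ} {u : ℕ → Fin 18 → ℝ}
  {f : ∀ n : ℕ, ℕ × ℝ → FW} {C : ℝ}
  {lam : (Fin 18 → ℝ) → ℝ} {A : ℝ × ℝ} {φ : ℕ → (Fin 18 → ℝ) → ℝ}
  {r : ℕ → ℝ}

/-- **the slot `c` costs something**, given the slots of `c`-weight `≥ 2` at `3 y` -/
theorem exists_closs {Ma : Mons 18} {Dr : Set (Fin 18)} {a b κ' : Fin 18 → ℝ}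
    {V' Tw : Fin 18 → Prop}
    (h : PtB B Bo I J co κ u f Ma Dr C lam a b A φ r κ' V' Tw)
    (hG : BasG lam Ma Dr a b V') {y : ℝ} (hy : 0 < y) :
    ∃ N : ℕ, lam (wI y ((N + 1 : ℕ) * y)) < lam (wI y (N * y)) := by
  by_contra hcon
  push Not at hcon
  have hM := h.act
  have key : ∀ M : ℕ, lam (wI y 0) ≤ lam (wI y (M * y)) := by
    intro M
    induction M with
    | zero => simp
    | succ M ih => exact ih.trans (hcon M)
  obtain ⟨mm, hm, hsw⟩ := hG.sweep
  set S0 : ℝ := ∑ s, (wI y 0 s - (0 : Fin 18 → ℝ) s) with hS0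
  have h0 : -S0 ≤ lam (wI y 0) := by
    have := h.aew.sharp 0 zero_mem _ (wI_mem hM hy.le le_rfl) fun k => wI_nonneg hy.le le_rfl k
    rw [h.aew.zero] at this
    linarith
  have hmy : 0 < mm * y := mul_pos hm hy
  obtain ⟨M, hMb⟩ := exists_nat_gt (S0 / (mm * y))
  rw [div_lt_iff₀ hmy] at hMb
  have hMy : (0 : ℝ) ≤ M * y := by positivity
  have m1 : v4 0 (M * y) 0 0 ∈ coneM Ma := v4_mem hM le_rfl hMy le_rfl le_rfl (by linarith)
    (by linarith) (by linarith)
  have e1 : (0 : Fin 18 → ℝ) + (M * y) • e1W = v4 0 (M * y) 0 0 := by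
    funext k
    simp only [Pi.add_apply, Pi.smul_apply, smul_eq_mul, Pi.zero_apply, zero_add]
    by_cases hk : k = 1
    · subst hk
      have : e1W 1 = 1 := by simp [e1W]
      rw [this, mul_one, v4_1]
    · have : e1W k = 0 := by unfold e1W; rw [Pi.single_eq_of_ne hk]
      rw [this, mul_zero]
      simp [v4, hk]
  have h1 := hsw 0 zero_mem rfl (fun i _ _ => le_rfl) (M * y) hMy
  rw [e1, h.aew.zero] at h1
  have h2 := h.aew.anti _ m1 _ (wI_mem hM hy.le hMy) (by
    intro k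
    by_cases hk : k = 1
    · subst hk; rw [v4_1]; simp [wI]
    · have : v4 0 (M * y) 0 0 k = 0 := by simp [v4, hk]
      rw [this]
      exact wI_nonneg hy.le hMy k)
  have h3 := key M
  nlinarith

variable {K : ℝ} {θ q : Fin 3 → ℝ} {V T : Set (Fin 18)} {s : ℝ} {lo : (Fin 18 → ℝ) → ℝ}

/-- the visible slots of the rung -/
theorem vis1215 (h : PtC B Bo I J co C κ u f K θ q V T s lam lo A φ r) (hs : 2 < s)
    (hK : KW θ 15 = s) {k : Fin 18} (hk : k ∈ V ∧ KW θ k = s) : k = 12 ∨ k = 15 := by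
  have h4 := (h.vis k hk.1).1
  have h1 := KW_sub hK h4
  rw [hk.2, sub_self] at h1
  have h2 : ((wc k : ℝ) + 1) = 0 := by
    have := h.th1
    have h3 : ((wc k : ℝ) + 1) * θ 1 = 0 := by linarith
    rcases mul_eq_zero.1 h3 with h4 | h4
    · exact h4
    · exact absurd h4 this.ne'
  rcases flags3 k h4 with (rfl | rfl | rfl) | h3 | ⟨h3, _⟩
  · rw [wcs.1] at h2; norm_num at h2
  · rw [wcs.2.1] at h2; norm_num at h2
  · rw [wcs.2.2.1] at h2; norm_num at h2
  · exact h3
  · have : ((wc k : ℤ) : ℝ) ≤ -2 := by exact_mod_cast h3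
    linarith

set_option maxHeartbeats 1000000 in
/-- **the rate of `P` is positive** (one window, `t` = offset of the slot `12`) -/
theorem rateP_core (h : PtC B Bo I J co C κ u f K θ q V T s lam lo A φ r) (hs : 2 < s)
    (hK : KW θ 15 = s) (t : ℕ) (hd : WDat (bI t) n1 1 SI) (okP : OkV (bI t) 1 nP)
    (okT : OkV (bI t) 1 nT) (okR : OkV (bI t) 1 nR)
    (ht : ∀ k, (k ∈ V ∧ KW θ k = s) → bI t k = 0)
    (hraw : ∀ (N : ℕ) (W : Wnd 18 fun _ => ℕ × ℝ) (E : ∀ n : ℕ, Finset (ℕ × ℝ)),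
      WinB (mA monW (actW (DrW s))) (DrW s) κ u f lam (fun k => k ∈ T ∧ k ∈ V ∧ KW θ k = s)
        (fun k => bI t k + N * eI k) n1 1 SI 1 W E → RawTwI W.B' (W.cfg E) (phiP W u)) :
    0 < r (gC (TW s) (btW θ) 16) / TW s 16 := by
  have hP := ptB_of h
  have hG := basG_of h
  have hM := hP.act
  obtain ⟨N, hN⟩ := exists_closs hP hG (y := 1) one_pos
  set n0 : Fin 18 → ℕ := fun k => bI t k + N * eI k with hn0
  have hdN : WDat n0 n1 1 SI := wdat_lin eI_nat rfl hd N
  obtain ⟨W, E, g⟩ := hP.win hdN (y := 1) one_pos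
    (fun i j e hi => (grS h.th1 hs hK i j e hi).imp id Or.inr)
    (fun k hk => by
      have e1 := ht k hk
      have e2 : eI k = 0 := by rcases vis1215 h hs hK hk with rfl | rfl <;> decide
      rw [hn0]
      simp only [e1, e2, mul_zero, add_zero])
    (fun k hk => by
      left
      rcases vis1215 h hs hK hk with rfl | rfl <;> decide)
  have htw := hraw N W E g
  have cutn : ∀ n : Fin 18 → ℕ, (∀ k ∈ SI, n k = 1) → cut W.S (scV 1 n) W.top = scV 1 n := by
    intro n hn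
    rw [g.eS, g.etop]
    funext k
    by_cases hk : k ∈ SI
    · rw [cut_of_mem hk]
      simp [scV, hn k hk, n1]
    · rw [cut_of_notMem hk]
  have leg : ∀ n : Fin 18 → ℕ, OkV (bI t) 1 n → (∀ k ∈ SI, n k = 1) → scV 1 n ∈ W.legW := by
    intro n hn hS
    constructor
    · rw [cutn n hS, g.eMw, g.eR]
      exact leg_one hM (okV_lin eI_nat hn N) zero_le_one
    · intro k _
      rw [g.etop]
      have : (n k : ℝ) ≤ 1 := by exact_mod_cast hn.1 k
      simp only [scV, n1]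
      push_cast
      linarith
  have nuv : ∀ n : Fin 18 → ℕ, (∀ k ∈ SI, n k = 1) → W.nu (scV 1 n) =
      lam (scV 1 n0 + scV 1 n) - lam (scV 1 n0 + scV 1 n1) := by
    intro n hS
    unfold Wnd.nu
    rw [cutn n hS, g.elam, g.etop]
    ring
  have mem : ∀ n : Fin 18 → ℕ, OkV (bI t) 1 n → scV 1 n0 + scV 1 n ∈
      coneM (mA monW (actW (DrW s))) := fun n hn =>
    leg_coneN hM hdN.off zero_le_one (leg_one hM (okV_lin eI_nat hn N) zero_le_one)
  have sP : ∀ k ∈ SI, nP k = 1 := by decide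
  have s1 : ∀ k ∈ SI, n1 k = 1 := by decide
  have sT : ∀ k ∈ SI, nT k = 1 := by decide
  have sR : ∀ k ∈ SI, nR k = 1 := by decide
  have hle : ∀ {n n' : Fin 18 → ℕ}, (∀ k, n k ≤ n' k) → ∀ k, scV 1 n k ≤ scV 1 n' k := by
    intro n n' hn k
    have : (n k : ℝ) ≤ n' k := by exact_mod_cast hn k
    simp only [scV]; linarith
  have key := rowP_shift g.ww g.ev g.mod (y := 1)
    (fun k => by rw [g.etop]; simp [scV, n1])
    (fun ε _ => Eventually.of_forall fun n i k k' _ _ v hv h0 h12 h15 => by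
      rw [g.eS] at hv
      have : v = 0 ∨ v = 12 ∨ v = 15 := by simpa [SI] using hv
      rcases this with e | e | e
      · exact absurd e h0
      · exact absurd e h12
      · exact absurd e h15)
    htw (scV 1 nP) (scV 1 n1) (scV 1 nT) (scV 1 nR) (leg nP okP sP) (leg n1 hd.top s1)
    (leg nT okT sT) (leg nR okR sR) (hle (by decide)) (by simp [scV, n1])
    (fun j hj => by
      have : ∀ j : Fin 18, j ≠ 1 → n1 j ≤ nP j := by decide
      have h2 : ((n1 j : ℕ) : ℝ) ≤ nP j := by exact_mod_cast this j hj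
      simp only [scV]; linarith)
    (fun v _ hv => by
      have : ∀ j : Fin 18, j ≠ 1 → 1 ≤ nP j := by decide
      have h2 : (1 : ℝ) ≤ nP v := by exact_mod_cast this v hv
      simp only [scV]; linarith)
    (fun v hv => by
      have : nT v = 0 := by
        rcases hv with rfl | rfl | rfl | rfl | rfl | rfl <;> decide
      simp [scV, this])
    (fun v _ => by
      have : ∀ j : Fin 18, nT j ≤ 1 := by decide
      have h2 : (nT v : ℝ) ≤ 1 := by exact_mod_cast this v
      simp only [scV]; linarith)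
    (by
      have : nR 16 = 1 := by decide
      simp [scV, this])
  rw [nuv nP sP, nuv n1 s1, nuv nT sT, nuv nR sR] at key
  -- the loss of `c`
  have hc : lam (scV 1 n0 + scV 1 nP) - lam (scV 1 n0 + scV 1 n1) =
      lam (wI 1 (N * 1)) - lam (wI 1 ((N + 1 : ℕ) * 1)) := by
    have b1 : bI t 1 = 0 := rfl
    have e1 : eI 1 = 1 := rfl
    refine hP.slot (i := 1) (mem nP okP) (mem n1 hd.top)
      (wI_mem hM zero_le_one (by positivity)) (wI_mem hM zero_le_one (by positivity))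
      (fun j hj _ => ?_) (fun j hj _ => ?_) ?_ ?_ (fun j e hj hD => ?_)
    · have : nP j = n1 j := by
        have : ∀ j : Fin 18, j ≠ 1 → nP j = n1 j := by decide
        exact this j hj
      simp [scV, this]
    · simp [wI, hj]
    · have : nP 1 = 0 := rfl
      simp only [Pi.add_apply, scV, hn0, b1, e1, this, wI, if_true]
      push_cast; ring
    · have : n1 1 = 1 := rfl
      simp only [Pi.add_apply, scV, hn0, b1, e1, this, wI, if_true]
      push_cast; ring
    · have hZ := gr1 (θ := θ) hs j e hj hD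
      have b2 : bI t j = 2 := if_pos hZ
      have e2 : eI j = 0 := by
        have : ∀ j ∈ Z9, eI j = 0 := by decide
        exact this j hZ
      have n2 : nP j = 1 := by
        have : ∀ j ∈ Z9, nP j = 1 := by decide
        exact this j hZ
      simp only [Pi.add_apply, scV, hn0, b2, e2, n2, wI, if_neg hj, if_pos hZ]
      push_cast; ring
  -- the loss of `P`
  have hPl : lam (scV 1 n0 + scV 1 nT) - lam (scV 1 n0 + scV 1 nR) =
      r (gC (TW s) (btW θ) 16) / TW s 16 * ((scV 1 n0 + scV 1 nR) 16 -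
        (scV 1 n0 + scV 1 nT) 16) := by
    refine hP.single (i := 16) ?_ (not_Dr hs (by decide)) (gr16 h.th1 hs hK) (mem nT okT)
      (mem nR okR) (fun j hj _ => ?_)
    · rw [(TWk hs).1]; linarith
    · have : nT j = nR j := by
        have : ∀ j : Fin 18, j ≠ 16 → nT j = nR j := by decide
        exact this j hj
      simp [scV, this]
  have e16 : (scV 1 n0 + scV 1 nR) 16 - (scV 1 n0 + scV 1 nT) 16 = 1 := by
    have a1 : nR 16 = 1 := rfl
    have a2 : nT 16 = 0 := rfl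
    simp only [Pi.add_apply, scV, a1, a2]
    push_cast; ring
  rw [e16, mul_one] at hPl
  linarith

/-! ### the raw twist -/

theorem cap12 : ∀ l ∈ mlW 12, ∃ a ∈ l, a = 1 ∨ a = 2 ∨ a = 3 := by decide
theorem cap15 : ∀ l ∈ mlW 15, (∃ a ∈ l, a = 1 ∨ a = 2 ∨ a = 3) ∨ 12 ∈ l := by decide

/-- dominant slots: `12` is tied or `12` is invisible and `15` is tied -/
theorem tied_cases (hS : SlotOkW θ (fun k => k ∈ V) (fun k => k ∈ T)) (hθ : 0 < θ 1)
    (hs : 2 < s) (hK : KW θ 15 = s)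
    (hV : ∃ k, k ∈ V ∧ KW θ k = s) : (12 ∈ V ∧ 12 ∈ T) ∨ (12 ∉ V ∧ 15 ∈ V ∧ 15 ∈ T) := by
  have hnot : ∀ a : Fin 18, (a = 1 ∨ a = 2 ∨ a = 3) → ¬ (a = 0 ∨ a ∈ V) := by
    intro a ha h0
    rcases h0 with h0 | h0
    · rcases ha with rfl | rfl | rfl <;> exact absurd h0 (by decide)
    · have := (hS.vis a h0).1.1
      rcases ha with rfl | rfl | rfl <;> exact absurd this (by decide)
  have c12 : 12 ∈ V → 12 ∈ T := by
    intro h
    by_contra hT
    obtain ⟨l, hl, hl2⟩ := hS.cap 12 h hT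
    obtain ⟨a, ha, h1⟩ := cap12 l hl
    exact hnot a h1 (hl2 a ha)
  by_cases h12 : 12 ∈ V
  · exact Or.inl ⟨h12, c12 h12⟩
  right
  obtain ⟨k, hk, hkK⟩ := hV
  have hk4 := (hS.vis k hk).1.1
  have h1 := KW_sub hK hk4
  rw [hkK, sub_self] at h1
  have h2 : ((wc k : ℝ) + 1) = 0 := by
    have h3 : ((wc k : ℝ) + 1) * θ 1 = 0 := by linarith
    rcases mul_eq_zero.1 h3 with h4 | h4
    · exact h4
    · exact absurd h4 hθ.ne'
  have hk15 : k = 15 := by
    rcases flags3 k hk4 with (rfl | rfl | rfl) | (rfl | rfl) | ⟨h3, _⟩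
    · rw [wcs.1] at h2; norm_num at h2
    · rw [wcs.2.1] at h2; norm_num at h2
    · rw [wcs.2.2.1] at h2; norm_num at h2
    · exact absurd hk h12
    · rfl
    · have : ((wc k : ℤ) : ℝ) ≤ -2 := by exact_mod_cast h3
      linarith
  subst hk15
  refine ⟨h12, hk, ?_⟩
  by_contra hT
  obtain ⟨l, hl, hl2⟩ := hS.cap 15 hk hT
  rcases cap15 l hl with ⟨a, ha, h1⟩ | h1
  · exact hnot a h1 (hl2 a ha)
  · rcases hl2 12 h1 with h2 | h2
    · exact absurd h2 (by decide)
    · exact h12 h2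

/-- KW of the slots `12`, `15` -/
theorem KW12 (hK : KW θ 15 = s) : KW θ 12 = s := by
  have h1 := KW_sub hK (k := 12) (by decide)
  rw [wcs.2.2.2.1] at h1
  push_cast at h1
  linarith

/-- an integer vector with a parameter is in the cone -/
theorem mem_lin {Ma : Mons 18} {Dr : Set (Fin 18)} (hM : ActM Ma Dr) {b e : Fin 18 → ℕ}
    (hb : ∀ k, ∀ l ∈ mlW k, b k ≤ (l.map b).sum) (he : ∀ k, ∀ l ∈ mlW k, e k ≤ (l.map e).sum)
    (N : ℕ) : scV 1 (fun k => b k + N * e k) ∈ coneM Ma := by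
  rw [hM.cone]
  intro k _ l hl _
  rw [sum_scV, sum_lin]
  have h1 := Nat.add_le_add (hb k l hl) (Nat.mul_le_mul_left N (he k l hl))
  have h2 : ((b k + N * e k : ℕ) : ℝ) ≤ (((l.map b).sum + N * (l.map e).sum : ℕ) : ℝ) := by
    exact_mod_cast h1
  simp only [scV, one_mul]
  exact h2

/-- offset + tops + the level slot `v` -/
def bv (t : ℕ) (v : Fin 18) : Fin 18 → ℕ := fun k => if k ∈ SI then
  (if k = v then bI t k + 1 else bI t k) else bI t k + 1

theorem bv12 : ∀ k, ∀ l ∈ mlW k, bv 0 12 k ≤ (l.map (bv 0 12)).sum := by decide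
theorem bv15 : ∀ k, ∀ l ∈ mlW k, bv 1 15 k ≤ (l.map (bv 1 15)).sum := by decide

theorem bv_eq (t N : ℕ) (v : Fin 18) :
    scV 1 (fun k => bI t k + N * eI k) + cut SI (scV 1 n1) (Pi.single v 1) =
      scV 1 (fun k => bv t v k + N * eI k) ∨ v ∉ SI := by
  by_cases hv : v ∈ SI
  · left
    funext k
    rw [Pi.add_apply]
    by_cases hk : k ∈ SI
    · rw [cut_of_mem hk]
      by_cases hkv : k = v
      · subst hkv
        simp only [scV, bv, if_pos hk, if_true, Pi.single_eq_same]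
        push_cast; ring
      · rw [Pi.single_eq_of_ne hkv]
        simp only [scV, bv, if_pos hk, if_neg hkv]
        push_cast; ring
    · rw [cut_of_notMem hk]
      simp only [scV, bv, if_neg hk, n1]
      push_cast; ring
  · exact Or.inr hv

/-- **the rate of `P` is positive** -/
theorem rateP_pos (h : PtC B Bo I J co C κ u f K θ q V T s lam lo A φ r) (hs : 2 < s)
    (hK : KW θ 15 = s) (hc : (12 ∈ V ∧ 12 ∈ T) ∨ (12 ∉ V ∧ 15 ∈ V ∧ 15 ∈ T)) :
    0 < r (gC (TW s) (btW θ) 16) / TW s 16 := by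
  have hD : ∀ k : Fin 18, alW k ≤ 2 → k ∉ DrW s := fun k hk => not_Dr hs hk
  have hD4 : ∀ k : Fin 18, ¬ 4 ≤ k → k ∉ DrW s := fun k hk hm => hk hm.1
  rcases hc with ⟨h1, h2⟩ | ⟨h1, h2, h3⟩
  · refine rateP_core h hs hK 0 wdI0 okP0 okT0 okR0 (fun k hk => ?_) fun N W E g => ?_
    · rcases vis1215 h hs hK hk with rfl | rfl <;> decide
    · have hR : RawL W E 12 := g.tw 12 (by decide) ⟨h2, h1, KW12 hK⟩ (by decide) (by
        have a1 : bI 0 12 = 0 := by decide
        have a2 : eI 12 = 0 := by decide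
        simp only [a1, a2, mul_zero, add_zero]) ⟨1, one_pos, by
        rcases bv_eq 0 N 12 with e | e
        · rw [e]
          exact mem_lin (actM_mA _) bv12 eI_nat N
        · exact absurd (by decide) e⟩
      refine twPa g.ww g.ev g.mod one_pos hR one_pos (fun k => by rw [g.etop]; simp [scV, n1])
        (Eventually.of_forall fun n => ?_)
      have := g.tight 16 (hD 16 (by decide)) [1, 0, 12] (by decide) (fun a ha => by
        have : a = 1 ∨ a = 0 ∨ a = 12 := by simpa using ha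
        rcases this with rfl | rfl | rfl
        · exact hD4 _ (by decide)
        · exact hD4 _ (by decide)
        · exact hD _ (by decide)) (by
        show bI 0 16 + N * eI 16 = _
        rw [sum_lin]
        have a1 : bI 0 16 = (([1, 0, 12] : List (Fin 18)).map (bI 0)).sum := by decide
        have a2 : eI 16 = (([1, 0, 12] : List (Fin 18)).map eI).sum := by decide
        rw [a1, a2]) n
      simpa using this
  · refine rateP_core h hs hK 1 wdI1 okP1 okT1 okR1 (fun k hk => ?_) fun N W E g => ?_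
    · rcases vis1215 h hs hK hk with rfl | rfl
      · exact absurd hk.1 h1
      · decide
    · have hR : RawL W E 15 := g.tw 15 (by decide) ⟨h3, h2, hK⟩ (by decide) (by
        have a1 : bI 1 15 = 0 := by decide
        have a2 : eI 15 = 0 := by decide
        simp only [a1, a2, mul_zero, add_zero]) ⟨1, one_pos, by
        rcases bv_eq 1 N 15 with e | e
        · rw [e]
          exact mem_lin (actM_mA _) bv15 eI_nat N
        · exact absurd (by decide) e⟩
      refine twPI g.ww g.ev hR one_pos (fun k => by rw [g.etop]; simp [scV, n1])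
        (Eventually.of_forall fun n => ?_)
      have := g.tight 16 (hD 16 (by decide)) [1, 15] (by decide) (fun a ha => by
        have : a = 1 ∨ a = 15 := by simpa using ha
        rcases this with rfl | rfl
        · exact hD4 _ (by decide)
        · exact hD _ (by decide)) (by
        show bI 1 16 + N * eI 16 = _
        rw [sum_lin]
        have a1 : bI 1 16 = (([1, 15] : List (Fin 18)).map (bI 1)).sum := by decide
        have a2 : eI 16 = (([1, 15] : List (Fin 18)).map eI).sum := by decide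
        rw [a1, a2]) n
      simpa using this

/-! ### the height link `P → N` -/

def D5 : Finset (Fin 18) := {0, 1, 2, 3, 13}
/-- tops of the window of the height link -/
def nN : Fin 18 → ℕ := fun k => if k ∈ D5 ∨ k = 16 ∨ k = 17 then 1 else 0
theorem wdN : WDat (fun _ => 0) nN 1 {0} := by decide
theorem domN : ∀ k : Fin 18, k ∈ D5 ∨ k = 16 ∨ k = 17 → ∀ l ∈ mlW k, ∃ a ∈ l, a ∈ D5 := by decide
/-- base box of the height link -/
def bN : Fin 18 → ℝ := fun k => if k = 1 ∨ k = 2 ∨ k = 3 ∨ k = 13 then 1 else 0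
/-- the boxes of the height link -/
def cN (t w : ℝ) : Fin 18 → ℝ :=
  fun k => if k = 16 then t else if k = 17 then w else if k ∈ D5 then 1 else 0

theorem cN_o (t w : ℝ) {k : Fin 18} (h1 : k ≠ 16) (h2 : k ≠ 17) :
    cN t w k = if k ∈ D5 then 1 else 0 := by simp [cN, h1, h2]

theorem cN_nonneg {t w : ℝ} (ht : 0 ≤ t) (hw : 0 ≤ w) (k : Fin 18) : 0 ≤ cN t w k := by
  unfold cN; split_ifs <;> first | exact ht | exact hw | exact zero_le_one | exact le_rfl

theorem cN_le {t w : ℝ} (ht : t ≤ 1) (hw : w ≤ 1) (k : Fin 18) : cN t w k ≤ 1 := by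
  unfold cN; split_ifs <;> first | exact ht | exact hw | exact zero_le_one | exact le_rfl

theorem cN_dom {t w : ℝ} (ht : t ≤ 1) (hw : w ≤ 1) (k : Fin 18) :
    ∀ l ∈ mlW k, cN t w k ≤ 0 ∨ ∃ a ∈ l, cN t w k ≤ cN t w a := by
  intro l hl
  by_cases h : k ∈ D5 ∨ k = 16 ∨ k = 17
  · obtain ⟨a, ha, haD⟩ := domN k h l hl
    have h16 : a ≠ 16 := by rintro rfl; exact absurd haD (by decide)
    have h17 : a ≠ 17 := by rintro rfl; exact absurd haD (by decide)
    right
    refine ⟨a, ha, ?_⟩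
    rw [cN_o t w h16 h17, if_pos haD]
    exact cN_le ht hw k
  · push Not at h
    left
    rw [cN_o t w h.2.1 h.2.2, if_neg h.1]

theorem cut_bN (t w : ℝ) : cut {0} (b2 bN 16 17 t w) (scV 1 nN) = cN t w := by
  funext k
  by_cases h0 : k = 0
  · subst h0
    rw [cut_of_mem (by simp), cN_o t w (by decide) (by decide)]
    have : nN 0 = 1 := by decide
    simp [scV, this, D5]
  · rw [cut_of_notMem (by rw [mem_singleton]; exact h0)]
    unfold b2 cN bN
    by_cases h16 : k = 16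
    · simp [h16]
    · by_cases h17 : k = 17
      · simp [h17]
      · rw [if_neg h16, if_neg h17, if_neg h16, if_neg h17]
        congr 1
        simp [D5, h0]

set_option maxHeartbeats 1000000 in
/-- **the rate of `N` is full** -/
theorem rateN_one (h : PtC B Bo I J co C κ u f K θ q V T s lam lo A φ r) (hs : 2 < s)
    (hK : KW θ 15 = s) (hr : 0 < r (gC (TW s) (btW θ) 16) / TW s 16) :
    1 ≤ r (gC (TW s) (btW θ) 17) / TW s 17 := by
  have hP := ptB_of h
  have hM := hP.act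
  obtain ⟨W, E, g⟩ := hP.win wdN (y := 1) one_pos
    (fun i j e hi => by
      have hi' : i ∈ SI := by rw [mem_singleton] at hi; subst hi; decide
      rcases grS h.th1 hs hK i j e hi' with h1 | h1
      · have : j = 0 ∨ j = 12 ∨ j = 15 := by simpa [SI] using h1
        rcases this with rfl | rfl | rfl
        · exact Or.inl (mem_singleton_self _)
        · exact Or.inr (Or.inl (by decide))
        · exact Or.inr (Or.inl (by decide))
      · exact Or.inr (Or.inr h1))
    (fun _ _ => rfl)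
    (fun k hk => by
      right
      rcases vis1215 h hs hK hk with rfl | rfl <;> decide)
  have topv : ∀ k, k ∈ D5 ∨ k = 16 ∨ k = 17 → W.top k = 1 := by
    intro k hk
    rw [g.etop]
    simp [scV, nN, hk]
  have leg : ∀ t w : ℝ, 0 ≤ t → t ≤ 1 → 0 ≤ w → w ≤ 1 → b2 bN 16 17 t w ∈ W.legW := by
    intro t w ht ht1 hw hw1
    constructor
    · rw [g.eS, g.etop, g.eMw, g.eR, cut_bN, Nat.cast_one, mul_one]
      exact leg_dom hM (cN_nonneg ht hw) (cN_le ht1 hw1) (cN_dom ht1 hw1)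
    · intro k hk
      by_cases h16 : k = 16
      · subst h16; rw [b2_F, topv 16 (by decide)]; exact ht1
      by_cases h17 : k = 17
      · subst h17; rw [b2_N (by decide), topv 17 (by decide)]; exact hw1
      rw [b2_o h16 h17]
      unfold bN
      split_ifs with hb
      · rw [topv k (by left; rcases hb with rfl | rfl | rfl | rfl <;> decide)]
      · rw [g.etop]; simp only [scV]; positivity
  have nuv : ∀ t w : ℝ, W.nu (b2 bN 16 17 t w) = lam (cN t w) - lam (scV 1 nN) := by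
    intro t w
    unfold Wnd.nu
    rw [g.eS, g.etop, g.elam, cut_bN, scV_zero]
    simp only [zero_add]
    ring
  have mem : ∀ t w : ℝ, 0 ≤ t → t ≤ 1 → 0 ≤ w → w ≤ 1 →
      cN t w ∈ coneM (mA monW (actW (DrW s))) := fun t w ht ht1 hw hw1 =>
    mem_dom hM (cN_nonneg ht hw) (cN_dom ht1 hw1)
  have l16 : ∀ j w : ℝ, 0 ≤ j → j ≤ 1 → 0 ≤ w → w ≤ 1 → lam (cN 0 w) - lam (cN j w) =
      r (gC (TW s) (btW θ) 16) / TW s 16 * j := by
    intro j w hj hj1 hw hw1
    have := hP.single (i := 16) (by rw [(TWk hs).1]; linarith) (not_Dr hs (by decide))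
      (gr16 h.th1 hs hK) (mem 0 w le_rfl zero_le_one hw hw1) (mem j w hj hj1 hw hw1)
      (fun k hk _ => by simp [cN, hk])
    rw [this]
    simp [cN]
  have l17 : lam (cN 0 0) - lam (cN 0 1) = r (gC (TW s) (btW θ) 17) / TW s 17 := by
    have := hP.single (i := 17) (by rw [(TWk hs).2.1]; linarith) (not_Dr hs (by decide))
      (gr17 h.th1 hs hK) (mem 0 0 le_rfl zero_le_one le_rfl zero_le_one)
      (mem 0 1 le_rfl zero_le_one zero_le_one le_rfl)
      (fun k hk _ => by simp [cN, hk])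
    rw [this]
    simp [cN]
  have hb : HtBox W {0, 1, 2, 3, 13} {1, 2, 3, 13, 17} {13} 12 13 bN (fun _ => 0) 1 := by
    refine ⟨?_, ?_, ?_, ?_, fun _ => le_rfl, rfl, ?_, ?_, ?_, ?_, ?_, ?_⟩
    · rw [g.eS]; decide
    · rw [g.eS]; decide
    · intro k; unfold bN; split_ifs <;> norm_num
    · intro k; rw [g.etop]; simp only [scV]; positivity
    · intro k hk hkS
      rw [g.eS, mem_singleton] at hkS
      have : k = 1 ∨ k = 2 ∨ k = 3 ∨ k = 13 := by
        have : k = 0 ∨ k = 1 ∨ k = 2 ∨ k = 3 ∨ k = 13 := by simpa using hk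
        exact this.resolve_left hkS
      simp [bN, this]
    · intro k hk _
      rw [topv k (Or.inl hk)]
    · intro k hk _
      have : k = 1 ∨ k = 2 ∨ k = 3 ∨ k = 13 ∨ k = 17 := by simpa using hk
      rw [topv k (by rcases this with rfl | rfl | rfl | rfl | rfl <;> decide)]
    · intro k hk hkS
      rw [g.eS, mem_singleton] at hkS
      subst hkS
      exact absurd hk (by decide)
    · intro k hk hkS h1 h2
      have : ¬ (k = 1 ∨ k = 2 ∨ k = 3 ∨ k = 13) := by
        rintro (rfl | rfl | rfl | rfl) <;> exact hk (by decide)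
      simp [bN, this]
    · intro q' hq' _
      have : ∀ q' : Fin 14, Fin.natAdd 4 q' ∈ ({0, 1, 2, 3, 13} : Finset (Fin 18)) →
          Fin.natAdd 4 q' ∈ ({13} : Finset (Fin 18)) := by decide
      exact this q' hq'
  have hcf := cHt_ok g.ww ht_P_N_coarse.wall one_ne_zero (fun h0 => absurd rfl h0)
    (Eventually.of_forall fun n => by
      have := g.tight 17 (not_Dr hs (by decide)) [0, 16] (by decide) (fun a ha => by
        have : a = 0 ∨ a = 16 := by simpa using ha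
        rcases this with rfl | rfl
        · exact fun hm => absurd hm.1 (by decide)
        · exact not_Dr hs (by decide)) rfl n
      simpa using this)
  have main : ∀ j : ℝ, 0 < j → j ≤ 1 → 1 - j ≤ r (gC (TW s) (btW θ) 17) / TW s 17 := by
    intro j hj hj1
    have := ht_P_N_coarse.pos g.ww g.ev g.mod hb (x := 1) (j := j) one_pos le_rfl le_rfl hj.le hj1
      (fun t h0 h1 => leg t 1 h0 h1 zero_le_one le_rfl)
      (fun t h0 h1 => leg t t h0 h1 h0 h1) (OwnV.zero W E fun _ _ => le_rfl) hcf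
      (by
        have e := l16 j 1 hj.le hj1 zero_le_one le_rfl
        have e2 := mul_pos hr hj
        have e3 := nuv j 1
        have e4 := nuv 0 1
        show W.nu (b2 bN 16 17 j 1) < W.nu (b2 bN 16 17 0 1)
        rw [e3, e4]; linarith)
    have this' : 1 - j ≤ W.nu (b2 bN 16 17 0 0) - W.nu (b2 bN 16 17 0 1) := this
    rw [nuv, nuv] at this'
    linarith
  refine le_of_forall_pos_le_add fun j hj => ?_
  rcases le_or_gt j 1 with h1 | h1
  · have := main j hj h1; linarith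
  · have := main 1 one_pos le_rfl; linarith

/-- **full loss** -/
theorem full_hi1 (h : PtC B Bo I J co C κ u f K θ q V T s lam lo A φ r)
    (hS : SlotOkW θ (fun k => k ∈ V) (fun k => k ∈ T)) (hs : 2 < s)
    (hK : KW θ 15 = s) (hV : ∃ k, k ∈ V ∧ KW θ k = s) : 3 + s ≤ -A.1 := by
  have hr := rateN_one h hs hK (rateP_pos h hs hK (tied_cases hS h.th1 hs hK hV))
  refine conc_ptC h h.ne h.q1 h.q2 (x := s) (Cc := 0) (Filter.Eventually.frequently ?_)
  filter_upwards [eventually_gt_atTop 0] with t ht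
  have hP := ptB_of h
  have m0 := ray_mem s t
  have m1 := upd17_mem hP.act m0 fun k => by
    simp only [Pi.smul_apply, smul_eq_mul]
    exact mul_nonneg ht.le (TW_nonneg h.s0.le k)
  have e := hP.single (i := 17) (by rw [(TWk hs).2.1]; linarith) (not_Dr hs (by decide))
    (gr17 h.th1 hs hK) m1 m0 (fun j hj _ => by rw [Function.update_of_ne hj])
  rw [Function.update_self, Pi.smul_apply, smul_eq_mul, (TWk hs).2.1] at e
  rw [e]
  have h2 : 0 ≤ t * s := by positivity
  rw [(TWk hs).2.1] at hr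
  nlinarith

end pt

/-- **row `deadhi1`** : `K > 2`, the dominant slots have `c`-weight `1` -/
theorem deadhi1 : DeadC fun g θ V s => Top θ (fun k => k ∈ V) s ∧ 2 < s ∧ KW θ 15 = s := by
  refine ThB830.deadC_of (fun g θ V s h => ⟨by linarith [h.2.1], h.1.2⟩) ?_
  intro P ν own K r0 θ g q V T s h hp
  have hg := h.g0
  refine ⟨g / 2, by linarith, fun B Bo I J co C κ u f lam lo A φ r hP => ?_⟩
  obtain ⟨⟨hV, -⟩, hs, hK⟩ := hp
  have h1 := full_hi1 hP h.slots hs hK hV
  have h2 := ThB830.full_enough (g := g) (q := q) (C := 0) (s := s) (A := A) (by linarith)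
  have h3 := h.qt
  have h4 : s - 1 ≤ max (-(θ 0)) 0 + 4 * |θ 1| := by
    rw [← hK, KW_flag θ (k := 15) (by decide), wcs.2.2.2.2]
    have a0 := le_max_left (-(θ 0)) 0
    have a1 := le_abs_self (θ 1)
    have a2 := abs_nonneg (θ 1)
    push_cast
    linarith
  have h5 := mul_le_mul_of_nonneg_left h4 h.q0
  linarith

end Crest.Agent.R136.RowI938
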