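import Crest.Agent.R136.Bas5_938
import Crest.Agent.R136.DLw2_619
import Crest.Agent.R136.Vw3_848
import Crest.Agent.R136.RowI3_938
import Crest.Agent.R136.PinX_851
import Crest.Agent.R136.KHt2_938

-- ▼ part R136/DLw4_619
section

/-!
# R136: `deadlow`, part 4 (helper619): windows at one point of the last rung, `1 < s < 2`

* `Cn` : the nine active walls, `mem_cone`, `vc` : vector of the undropped slots
* `WinB.legX`, `WinB.nu_sub` : boxes and profile of the windows of `PtB.win`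
* `caseI` : `v = 15`, `caseII` : `v = 14` : the slot `N` is full
-/

set_option autoImplicit false
set_option linter.unusedSectionVars false
set_option linter.unusedVariables false
set_option linter.unusedSimpArgs false

open Filter Topology

namespace Crest.Agent.R136.DLow619

open Finset Crest.Agent.R138.Ex926 Crest.Agent.R136.Net191 Crest.Agent.R136.Gf356
open Crest.Agent.R136.Qg926 Crest.Agent.R136.Dg219 Crest.Agent.R136.Aw413
open Crest.Agent.R136.NetW191 Crest.Agent.R136.EvW938 Crest.Agent.R136.PrW464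
open Crest.Agent.R136.LadW697 Crest.Agent.R136.AwJ774 Crest.Agent.R136.Bas938
open Crest.Agent.R136.K2S774 (cn)
open Crest.Agent.R136.Lf400 Crest.Agent.R136.LfW619 Crest.Agent.R136.Ht887
open Crest.Agent.R136.BaseW619 Crest.Agent.R136.RowW619

/-- the dropped slots -/
def D13 : Finset (Fin 18) := {4, 5, 6, 7, 8, 9, 10, 11, 12, 13}

theorem DrW_mid {s : ℝ} (h1 : 1 < s) (h2 : s < 2) {k : Fin 18} : k ∈ DrW s ↔ k ∈ D13 := by
  have key : ∀ k : Fin 18, k ∈ D13 ↔ 4 ≤ k ∧ 2 ≤ alW k := by decide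
  rw [key]
  constructor
  · rintro ⟨h4, h5⟩
    refine ⟨h4, ?_⟩
    have : (1 : ℝ) < (alW k : ℤ) := by linarith
    have : (1 : ℤ) < alW k := by exact_mod_cast this
    omega
  · rintro ⟨h4, h5⟩
    refine ⟨h4, ?_⟩
    have : (2 : ℝ) ≤ (alW k : ℤ) := by exact_mod_cast h5
    linarith

/-- the nine active walls -/
def Cn (z c A B a b P N : ℝ) : Prop :=
  A ≤ c + z ∧ B ≤ c + A ∧ B ≤ c + (c + z) ∧ b ≤ c + a ∧ P ≤ c + (c + a) ∧ P ≤ c + b ∧
    N ≤ B + a ∧ N ≤ A + b ∧ N ≤ z + P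

/-- vector of the undropped slots -/
def vc (z c A B a b P N : ℝ) : Fin 18 → ℝ := ![z, c, A, B, 0, 0, 0, 0, 0, 0, 0, 0, 0, 0, a, b, P, N]

/-- the active walls as a list -/
theorem act_list : ∀ k : Fin 18, k ∉ D13 → ∀ l ∈ mlW k, (∀ s ∈ l, s ∉ D13) →
    (k, l) ∈ ([(2, [1, 0]), (3, [1, 2]), (3, [1, 1, 0]), (15, [1, 14]), (16, [1, 1, 14]),
      (16, [1, 15]), (17, [3, 14]), (17, [2, 15]), (17, [0, 16])] : List (Fin 18 × List (Fin 18))) := by
  decide

theorem act_list' : ∀ x ∈ ([(2, [1, 0]), (3, [1, 2]), (3, [1, 1, 0]), (15, [1, 14]), (16, [1, 1, 14]),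
      (16, [1, 15]), (17, [3, 14]), (17, [2, 15]), (17, [0, 16])] : List (Fin 18 × List (Fin 18))),
    x.1 ∉ D13 ∧ x.2 ∈ mlW x.1 ∧ ∀ s ∈ x.2, s ∉ D13 := by
  decide

theorem mem_cone {s : ℝ} (h1 : 1 < s) (h2 : s < 2) {p : Fin 18 → ℝ} :
    p ∈ coneM (mA monW (actW (DrW s))) ↔
      Cn (p 0) (p 1) (p 2) (p 3) (p 14) (p 15) (p 16) (p 17) := by
  rw [coneM_mA, mem_cnW]
  constructor
  · intro h
    have key : ∀ x ∈ ([(2, [1, 0]), (3, [1, 2]), (3, [1, 1, 0]), (15, [1, 14]), (16, [1, 1, 14]),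
        (16, [1, 15]), (17, [3, 14]), (17, [2, 15]), (17, [0, 16])] :
        List (Fin 18 × List (Fin 18))), p x.1 ≤ (x.2.map p).sum := by
      intro x hx
      obtain ⟨a1, a2, a3⟩ := act_list' x hx
      exact h x.1 (fun hk => a1 ((DrW_mid h1 h2).1 hk)) x.2 a2
        fun i hi hk => a3 i hi ((DrW_mid h1 h2).1 hk)
    simp only [List.mem_cons, List.not_mem_nil, or_false, forall_eq_or_imp, forall_eq,
      List.map_cons, List.map_nil, List.sum_cons, List.sum_nil, add_zero] at key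
    exact key
  · intro h k hk l hl hs
    have hx := act_list k (fun hk' => hk ((DrW_mid h1 h2).2 hk')) l hl
      fun i hi hk' => hs i hi ((DrW_mid h1 h2).2 hk')
    obtain ⟨c1, c2, c3, c4, c5, c6, c7, c8, c9⟩ := h
    simp only [List.mem_cons, List.not_mem_nil, or_false, Prod.mk.injEq] at hx
    rcases hx with ⟨rfl, rfl⟩ | ⟨rfl, rfl⟩ | ⟨rfl, rfl⟩ | ⟨rfl, rfl⟩ | ⟨rfl, rfl⟩ | ⟨rfl, rfl⟩ |
      ⟨rfl, rfl⟩ | ⟨rfl, rfl⟩ | ⟨rfl, rfl⟩ <;>
    simp only [List.map_cons, List.map_nil, List.sum_cons, List.sum_nil, add_zero] <;> assumption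

theorem vc_mem {s : ℝ} (h1 : 1 < s) (h2 : s < 2) {z c A B a b P N : ℝ}
    (h : Cn z c A B a b P N) : vc z c A B a b P N ∈ coneM (mA monW (actW (DrW s))) :=
  (mem_cone h1 h2).2 h

section winb

variable {Ma : Mons 18} {Dr : Set (Fin 18)} {lam : (Fin 18 → ℝ) → ℝ} {Tw : Fin 18 → Prop}
  {kp : ℕ → ℝ} {u : ℕ → Fin 18 → ℝ} {F : ∀ n : ℕ, ℕ × ℝ → FW}
  {n0 nt : Fin 18 → ℕ} {rr : ℕ} {S : Finset (Fin 18)} {y : ℝ} {W : Wnd 18 fun _ => ℕ × ℝ}
  {E : ∀ n : ℕ, Finset (ℕ × ℝ)}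

/-- legal boxes of the window: combinations of two integer boxes -/
theorem legX (h : WinB Ma Dr kp u F lam Tw n0 nt rr S y W E) (hA : ActM Ma Dr)
    {n n' : Fin 18 → ℕ} (hn : OkV n0 rr n) (hn' : OkV n0 rr n') {α β : ℝ} (hα : 0 ≤ α) (hβ : 0 ≤ β)
    (hy : α + β = y) {p : Fin 18 → ℝ} (hp : ∀ s, s ∉ S → p s = α * n s + β * n' s)
    (hS : ∀ s ∈ S, n s = nt s ∧ n' s = nt s)
    (hle : ∀ s, s ∉ S → n s ≤ nt s ∧ n' s ≤ nt s) : p ∈ W.legW := by
  show cut W.S p W.top ∈ Leg W.Mw W.R' ∧ ∀ s, s ∉ W.S → p s ≤ W.top s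
  rw [h.eS, h.etop, h.eMw, h.eR]
  have e : cut S p (scV y nt) = scV α n + scV β n' := by
    funext s
    by_cases hs : s ∈ S
    · obtain ⟨h1, h2⟩ := hS s hs
      rw [cut_of_mem hs]
      simp only [Pi.add_apply, scV, h1, h2, ← hy]
      ring
    · rw [cut_of_notMem hs, hp s hs]; rfl
  rw [e]
  refine ⟨leg_scV hA hn hn' hα hβ hy, fun s hs => ?_⟩
  obtain ⟨h2, h3⟩ := hle s hs
  have h4 : (n s : ℝ) ≤ nt s := by exact_mod_cast h2
  have h5 : (n' s : ℝ) ≤ nt s := by exact_mod_cast h3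
  rw [hp s hs]
  simp only [scV]
  have h6 := mul_le_mul_of_nonneg_left h4 hα
  have h7 := mul_le_mul_of_nonneg_left h5 hβ
  calc α * n s + β * n' s ≤ α * nt s + β * nt s := add_le_add h6 h7
    _ = y * nt s := by rw [← hy]; ring

/-- differences of the profile of the window -/
theorem nu_sub (h : WinB Ma Dr kp u F lam Tw n0 nt rr S y W E) (p p' : Fin 18 → ℝ) :
    W.nu p - W.nu p' = lam (scV y n0 + cut S p (scV y nt)) -
      lam (scV y n0 + cut S p' (scV y nt)) := by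
  unfold Wnd.nu
  rw [h.elam, h.eS, h.etop]
  ring

end winb

section pt

variable {s m : ℝ} {B Bo : Base} {I J : ℕ → Finset (ℕ × ℝ)}
    {co : ∀ n : ℕ, ℕ × ℝ → ℕ × ℝ → Fin 18 → ℝ} {C : ℝ} {κ : ℕ → ℝ} {u : ℕ → Fin 18 → ℝ}
    {f : ∀ n : ℕ, ℕ × ℝ → FW} {lam : (Fin 18 → ℝ) → ℝ} {a b : Fin 18 → ℝ} {AA : ℝ × ℝ}
    {φ : ℕ → (Fin 18 → ℝ) → ℝ} {r : ℕ → ℝ} {κv : Fin 18 → ℝ} {Vv Tw : Fin 18 → Prop}

/-- `lam` in the undropped slots -/
theorem val (H : PtB B Bo I J co κ u f (mA monW (actW (DrW s))) (DrW s) C lam a b AA φ r κv Vv Tw)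
    (s1 : 1 < s) (s2 : s < 2) {p : Fin 18 → ℝ} {z c A B' a' b' P N : ℝ}
    (h : Cn z c A B' a' b' P N) (h0 : p 0 = z)
    (h1 : p 1 = c) (h2 : p 2 = A) (h3 : p 3 = B') (h14 : p 14 = a') (h15 : p 15 = b')
    (h16 : p 16 = P) (h17 : p 17 = N) : lam p = lam (vc z c A B' a' b' P N) := by
  subst h0 h1 h2 h3 h14 h15 h16 h17
  have hp := (mem_cone s1 s2).2 h
  refine H.ind p hp _ (vc_mem s1 s2 h) fun i hi => ?_
  rw [DrW_mid s1 s2] at hi
  revert hi
  fin_cases i <;> intro hi <;> first | rfl | exact absurd (by decide) hi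

/-- membership in the cone -/
theorem mem_of (s1 : 1 < s) (s2 : s < 2) {p : Fin 18 → ℝ} {z c A B' a' b' P N : ℝ}
    (h : Cn z c A B' a' b' P N) (h0 : p 0 = z)
    (h1 : p 1 = c) (h2 : p 2 = A) (h3 : p 3 = B') (h14 : p 14 = a') (h15 : p 15 = b')
    (h16 : p 16 = P) (h17 : p 17 = N) : p ∈ coneM (mA monW (actW (DrW s))) := by
  subst h0 h1 h2 h3 h14 h15 h16 h17
  exact (mem_cone s1 s2).2 h

/-- the sweep in the undropped slots -/
theorem sw_vc (s1 : 1 < s) (s2 : s < 2)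
    (sw : ∀ c ∈ coneM (mA monW (actW (DrW s))), c 1 = 0 → ∀ t : ℝ, 0 ≤ t →
      lam (c + t • e1W) ≤ lam c - m * t) {z A B' a' b' P N t : ℝ} (h : Cn z 0 A B' a' b' P N)
    (ht : 0 ≤ t) : lam (vc z t A B' a' b' P N) ≤ lam (vc z 0 A B' a' b' P N) - m * t := by
  have h1 := sw _ (vc_mem s1 s2 h) rfl t ht
  have e : vc z 0 A B' a' b' P N + t • e1W = vc z t A B' a' b' P N := by
    funext k
    have e1 : ∀ k, e1W k = if k = 1 then 1 else 0 := fun k => by
      unfold e1W; rw [Pi.single_apply]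
    rw [Pi.add_apply, Pi.smul_apply, e1]
    fin_cases k <;> simp [vc]
  rwa [e] at h1

end pt

/-- zero on `Z`, one elsewhere -/
def ni (Z : Finset (Fin 18)) : Fin 18 → ℕ := fun k => if k ∈ Z then 0 else 1

/-- offset, `v = 15` -/
def nI : Fin 18 → ℕ := fun k => if k ∈ D13 ∨ k = 14 then 1 else 0
/-- offset, `v = 14` -/
def nJ : Fin 18 → ℕ := fun k => if k ∈ D13 then 1 else 0

theorem datI : WDat nI (fun _ => 1) 1 {0, 15} := by decide
theorem datJ : WDat nJ (fun _ => 1) 1 {0, 14} := by decide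

/-- tight walls, decidable form -/
theorem tightD {s : ℝ} (s1 : 1 < s) (s2 : s < 2) {lam : (Fin 18 → ℝ) → ℝ} {Tw : Fin 18 → Prop}
    {kp : ℕ → ℝ} {u : ℕ → Fin 18 → ℝ} {F : ∀ n : ℕ, ℕ × ℝ → FW} {Ma : Mons 18}
    {n0 nt : Fin 18 → ℕ} {rr : ℕ} {S : Finset (Fin 18)} {y : ℝ} {W : Wnd 18 fun _ => ℕ × ℝ}
    {E : ∀ n : ℕ, Finset (ℕ × ℝ)} (g : WinB Ma (DrW s) kp u F lam Tw n0 nt rr S y W E)
    {k : Fin 18} {l : List (Fin 18)}
    (h : k ∉ D13 ∧ l ∈ mlW k ∧ (∀ i ∈ l, i ∉ D13) ∧ n0 k = (l.map n0).sum) (n : ℕ) :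
    W.X n k = (l.map (W.X n)).sum :=
  g.tight k (fun hk => h.1 ((DrW_mid s1 s2).1 hk)) l h.2.1
    (fun i hi hk => h.2.2.1 i hi ((DrW_mid s1 s2).1 hk)) h.2.2.2 n

section cases

variable {s m : ℝ} {B Bo : Base} {I J : ℕ → Finset (ℕ × ℝ)}
    {co : ∀ n : ℕ, ℕ × ℝ → ℕ × ℝ → Fin 18 → ℝ} {C : ℝ} {κ : ℕ → ℝ} {u : ℕ → Fin 18 → ℝ}
    {f : ∀ n : ℕ, ℕ × ℝ → FW} {lam : (Fin 18 → ℝ) → ℝ} {a b : Fin 18 → ℝ} {AA : ℝ × ℝ}
    {φ : ℕ → (Fin 18 → ℝ) → ℝ} {r : ℕ → ℝ} {κv : Fin 18 → ℝ} {Vv Tw : Fin 18 → Prop}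

/-- profile of the window, `v = 15` -/
theorem nuI (H : PtB B Bo I J co κ u f (mA monW (actW (DrW s))) (DrW s) C lam a b AA φ r κv Vv Tw)
    (s1 : 1 < s) (s2 : s < 2) {y : ℝ} {W : Wnd 18 fun _ => ℕ × ℝ}
    {E : ∀ n : ℕ, Finset (ℕ × ℝ)} (g : WinB (mA monW (actW (DrW s))) (DrW s) κ u f lam Tw
      nI (fun _ => 1) 1 {0, 15} y W E) {p p' : Fin 18 → ℝ}
    {c A B' a' P N c' A' B'' a'' P' N' : ℝ} (h : Cn y c A B' a' y P N)
    (h' : Cn y c' A' B'' a'' y P' N') (p1 : p 1 = c) (p2 : p 2 = A) (p3 : p 3 = B')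
    (p14 : y + p 14 = a') (p16 : p 16 = P) (p17 : p 17 = N) (q1 : p' 1 = c') (q2 : p' 2 = A')
    (q3 : p' 3 = B'') (q14 : y + p' 14 = a'') (q16 : p' 16 = P') (q17 : p' 17 = N') :
    W.nu p - W.nu p' = lam (vc y c A B' a' y P N) - lam (vc y c' A' B'' a'' y P' N') := by
  rw [nu_sub g]
  rw [val H s1 s2 (p := scV y nI + cut {0, 15} p (scV y fun _ => 1)) h
      (by simp [scV, cut, nI, D13])
      (by simp [scV, cut, nI, D13, p1]) (by simp [scV, cut, nI, D13, p2])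
      (by simp [scV, cut, nI, D13, p3]) (by simp [scV, cut, nI, D13, ← p14])
      (by simp [scV, cut, nI, D13]) (by simp [scV, cut, nI, D13, p16])
      (by simp [scV, cut, nI, D13, p17]),
    val H s1 s2 (p := scV y nI + cut {0, 15} p' (scV y fun _ => 1)) h'
      (by simp [scV, cut, nI, D13])
      (by simp [scV, cut, nI, D13, q1]) (by simp [scV, cut, nI, D13, q2])
      (by simp [scV, cut, nI, D13, q3]) (by simp [scV, cut, nI, D13, ← q14])
      (by simp [scV, cut, nI, D13]) (by simp [scV, cut, nI, D13, q16])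
      (by simp [scV, cut, nI, D13, q17])]

/-- profile of the window, `v = 14` -/
theorem nuJ (H : PtB B Bo I J co κ u f (mA monW (actW (DrW s))) (DrW s) C lam a b AA φ r κv Vv Tw)
    (s1 : 1 < s) (s2 : s < 2) {y : ℝ} {W : Wnd 18 fun _ => ℕ × ℝ}
    {E : ∀ n : ℕ, Finset (ℕ × ℝ)} (g : WinB (mA monW (actW (DrW s))) (DrW s) κ u f lam Tw
      nJ (fun _ => 1) 1 {0, 14} y W E) {p p' : Fin 18 → ℝ}
    {c A B' b' P N c' A' B'' b'' P' N' : ℝ} (h : Cn y c A B' y b' P N)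
    (h' : Cn y c' A' B'' y b'' P' N') (p1 : p 1 = c) (p2 : p 2 = A) (p3 : p 3 = B')
    (p15 : p 15 = b') (p16 : p 16 = P) (p17 : p 17 = N) (q1 : p' 1 = c') (q2 : p' 2 = A')
    (q3 : p' 3 = B'') (q15 : p' 15 = b'') (q16 : p' 16 = P') (q17 : p' 17 = N') :
    W.nu p - W.nu p' = lam (vc y c A B' y b' P N) - lam (vc y c' A' B'' y b'' P' N') := by
  rw [nu_sub g]
  rw [val H s1 s2 (p := scV y nJ + cut {0, 14} p (scV y fun _ => 1)) h
      (by simp [scV, cut, nJ, D13])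
      (by simp [scV, cut, nJ, D13, p1]) (by simp [scV, cut, nJ, D13, p2])
      (by simp [scV, cut, nJ, D13, p3]) (by simp [scV, cut, nJ, D13])
      (by simp [scV, cut, nJ, D13, p15]) (by simp [scV, cut, nJ, D13, p16])
      (by simp [scV, cut, nJ, D13, p17]),
    val H s1 s2 (p := scV y nJ + cut {0, 14} p' (scV y fun _ => 1)) h'
      (by simp [scV, cut, nJ, D13])
      (by simp [scV, cut, nJ, D13, q1]) (by simp [scV, cut, nJ, D13, q2])
      (by simp [scV, cut, nJ, D13, q3]) (by simp [scV, cut, nJ, D13])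
      (by simp [scV, cut, nJ, D13, q15]) (by simp [scV, cut, nJ, D13, q16])
      (by simp [scV, cut, nJ, D13, q17])]

/-- first window, `v = 15` : `P` costs nothing -/
theorem winI1
    (H : PtB B Bo I J co κ u f (mA monW (actW (DrW s))) (DrW s) C lam a b AA φ r κv Vv Tw)
    (s1 : 1 < s) (s2 : s < 2)
    (hV : ∀ k, Vv k → k = 15)
    (G0 : ∀ i j, gC a b i = gC a b j → i ∈ ({0, 15} : Finset (Fin 18)) →
      j ∈ ({0, 15} : Finset (Fin 18)) ∨ j ∈ DrW s) {y : ℝ} (y0 : 0 < y) (y1 : y ≤ 1)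
    (hN : lam (vc 1 1 1 0 2 1 0 0) - lam (vc 1 1 1 0 2 1 0 1) < 1 - y) :
    lam (vc 1 1 1 0 2 1 0 1) ≤ lam (vc 1 1 1 0 2 1 y 1) := by
  obtain ⟨W, E, g⟩ := H.win datI one_pos (fun i j hij hi => (G0 i j hij hi).imp id Or.inr)
    (fun k hk => by rw [hV k hk]; decide) (fun k hk => by rw [hV k hk]; exact Or.inl (by decide))
  have hA := H.act
  have htop : ∀ k, 1 ≤ W.top k := fun k => by rw [g.etop]; simp [scV]
  have tg : ∀ᶠ n in (U : Filter ℕ), W.X n 17 = W.X n 0 + W.X n 16 :=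
    Eventually.of_forall fun n => by
      have := tightD s1 s2 g (k := 17) (l := [0, 16]) (by decide) n
      simpa using this
  have leg : ∀ t N : ℝ, ∀ n n' : Fin 18 → ℕ, ∀ α β : ℝ, OkV nI 1 n → OkV nI 1 n' → 0 ≤ α → 0 ≤ β →
      α + β = 1 → (∀ k, k ∉ ({0, 15} : Finset (Fin 18)) → b2 (bB 1) 16 17 t N k = α * n k + β * n' k) →
      (∀ k ∈ ({0, 15} : Finset (Fin 18)), n k = 1 ∧ n' k = 1) → (∀ k, n k ≤ 1 ∧ n' k ≤ 1) →
      b2 (bB 1) 16 17 t N ∈ W.legW := fun t N n n' α β h1 h2 h3 h4 h5 h6 h7 h8 =>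
    legX g hA h1 h2 h3 h4 h5 h6 h7 fun k _ => h8 k
  have := freeP g.ww g.ev g.mod g.eS (x := 1) (j := y) one_pos le_rfl y0.le y1 htop tg
    (fun t ht0 ht1 => leg t 1 (ni {3, 16}) (ni {3}) (1 - t) t (by decide) (by decide)
      (by linarith) ht0 (by ring) (fun k _ => by
        unfold b2 bB ni
        fin_cases k <;> simp) (by decide) (by decide))
    (fun t ht0 ht1 => leg t t (ni {3, 16, 17}) (ni {3}) (1 - t) t (by decide) (by decide)
      (by linarith) ht0 (by ring) (fun k _ => by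
        unfold b2 bB ni
        fin_cases k <;> simp) (by decide) (by decide)) ?_
  · have h2 := nuI H s1 s2 g (p := b2 (bB 1) 16 17 0 1) (p' := b2 (bB 1) 16 17 y 1)
      (c := 1) (A := 1) (B' := 0) (a' := 2) (P := 0) (N := 1)
      (c' := 1) (A' := 1) (B'' := 0) (a'' := 2) (P' := y) (N' := 1)
      (by unfold Cn; norm_num) (by unfold Cn; refine ⟨?_, ?_, ?_, ?_, ?_, ?_, ?_, ?_, ?_⟩ <;> linarith)
      (by simp [b2, bB]) (by simp [b2, bB]) (by simp [b2, bB]) (by simp [b2, bB]; norm_num)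
      (by simp [b2, bB]) (by simp [b2, bB])
      (by simp [b2, bB]) (by simp [b2, bB]) (by simp [b2, bB]) (by simp [b2, bB]; norm_num)
      (by simp [b2, bB]) (by simp [b2, bB])
    linarith
  · rw [nuI H s1 s2 g (p := b2 (bB 1) 16 17 0 0) (p' := b2 (bB 1) 16 17 0 1)
      (c := 1) (A := 1) (B' := 0) (a' := 2) (P := 0) (N := 0)
      (c' := 1) (A' := 1) (B'' := 0) (a'' := 2) (P' := 0) (N' := 1)
      (by unfold Cn; norm_num) (by unfold Cn; norm_num)
      (by simp [b2, bB]) (by simp [b2, bB]) (by simp [b2, bB]) (by simp [b2, bB]; norm_num)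
      (by simp [b2, bB]) (by simp [b2, bB])
      (by simp [b2, bB]) (by simp [b2, bB]) (by simp [b2, bB]) (by simp [b2, bB]; norm_num)
      (by simp [b2, bB]) (by simp [b2, bB])]
    exact hN

/-- legality of the box `y` off `Z` -/
theorem legZ {n0 : Fin 18 → ℕ} {S : Finset (Fin 18)} {y : ℝ} (y0 : 0 ≤ y)
    {W : Wnd 18 fun _ => ℕ × ℝ} {E : ∀ n : ℕ, Finset (ℕ × ℝ)}
    (g : WinB (mA monW (actW (DrW s))) (DrW s) κ u f lam Tw n0 (fun _ => 1) 1 S y W E)
    (Z : Finset (Fin 18)) (h1 : OkV n0 1 (ni Z)) (h2 : Disjoint S Z) {p : Fin 18 → ℝ}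
    (hp : ∀ k, k ∉ S → p k = if k ∈ Z then 0 else y) : p ∈ W.legW := by
  refine legX g (actM_mA _) h1 h1 y0 le_rfl (add_zero y) (fun k hk => ?_) (fun k hk => ?_)
    (fun k _ => ?_)
  · rw [hp k hk]
    simp only [ni]
    split_ifs <;> simp
  · simp only [ni]
    have : k ∉ Z := Finset.disjoint_left.1 h2 hk
    simp [this]
  · simp only [ni]
    split_ifs <;> simp

/-- second window, `v = 15` : the row `c ≤ P` -/
theorem winI2
    (H : PtB B Bo I J co κ u f (mA monW (actW (DrW s))) (DrW s) C lam a b AA φ r κv Vv Tw)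
    (s1 : 1 < s) (s2 : s < 2)
    (hV : ∀ k, Vv k → k = 15) (hT : Tw 15)
    (G0 : ∀ i j, gC a b i = gC a b j → i ∈ ({0, 15} : Finset (Fin 18)) →
      j ∈ ({0, 15} : Finset (Fin 18)) ∨ j ∈ DrW s) {y : ℝ} (y0 : 0 < y) :
    lam (vc y 0 y y (2 * y) y y y) - lam (vc y y y y (2 * y) y y y) ≤
      lam (vc y 0 0 0 (2 * y) y 0 0) - lam (vc y 0 0 0 (2 * y) y y 0) := by
  obtain ⟨W, E, g⟩ := H.win datI y0 (fun i j hij hi => (G0 i j hij hi).imp id Or.inr)
    (fun k hk => by rw [hV k hk]; decide) (fun k hk => by rw [hV k hk]; exact Or.inl (by decide))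
  have htop : ∀ k, y ≤ W.top k := fun k => by rw [g.etop]; simp [scV]
  have tg : ∀ᶠ n in (U : Filter ℕ), W.X n 16 = W.X n 1 + W.X n 15 :=
    Eventually.of_forall fun n => by
      have := tightD s1 s2 g (k := 16) (l := [1, 15]) (by decide) n
      simpa using this
  have hR : RawL W E 15 := g.tw 15 (by decide) hT (by decide) (by decide)
    ⟨y, y0, mem_of s1 s2 (z := 0) (c := y) (A := y) (B' := y) (a' := 2 * y) (b' := y) (P := y)
      (N := y) (by unfold Cn; refine ⟨?_, ?_, ?_, ?_, ?_, ?_, ?_, ?_, ?_⟩ <;> linarith)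
      (by simp [scV, cut, nI, D13]) (by simp [scV, cut, nI, D13]) (by simp [scV, cut, nI, D13])
      (by simp [scV, cut, nI, D13]) (by simp [scV, cut, nI, D13]; ring)
      (by simp [scV, cut, nI, D13]) (by simp [scV, cut, nI, D13]) (by simp [scV, cut, nI, D13])⟩
  have key := rowI g.ww g.ev g.mod y0 htop g.eS hR tg
    (legZ y0.le g {1} (by decide) (by decide) fun k _ => by simp [pC])
    (legZ y0.le g ∅ (by decide) (by decide) fun k _ => by simp)
    (legZ y0.le g {1, 2, 3, 13, 16, 17} (by decide) (by decide) fun k _ => by simp [pTP])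
    (legZ y0.le g {1, 2, 3, 13, 17} (by decide) (by decide) fun k _ => by simp [rTP])
  rw [nuI H s1 s2 g (p := pC y) (p' := fun _ => y)
        (c := 0) (A := y) (B' := y) (a' := 2 * y) (P := y) (N := y)
        (c' := y) (A' := y) (B'' := y) (a'' := 2 * y) (P' := y) (N' := y)
        (by unfold Cn; refine ⟨?_, ?_, ?_, ?_, ?_, ?_, ?_, ?_, ?_⟩ <;> linarith)
        (by unfold Cn; refine ⟨?_, ?_, ?_, ?_, ?_, ?_, ?_, ?_, ?_⟩ <;> linarith)
        (by simp [pC]) (by simp [pC]) (by simp [pC]) (by simp [pC]; ring)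
        (by simp [pC]) (by simp [pC])
        rfl rfl rfl (by ring) rfl rfl,
      nuI H s1 s2 g (p := pTP y) (p' := rTP y)
        (c := 0) (A := 0) (B' := 0) (a' := 2 * y) (P := 0) (N := 0)
        (c' := 0) (A' := 0) (B'' := 0) (a'' := 2 * y) (P' := y) (N' := 0)
        (by unfold Cn; refine ⟨?_, ?_, ?_, ?_, ?_, ?_, ?_, ?_, ?_⟩ <;> linarith)
        (by unfold Cn; refine ⟨?_, ?_, ?_, ?_, ?_, ?_, ?_, ?_, ?_⟩ <;> linarith)
        (by simp [pTP]) (by simp [pTP]) (by simp [pTP]) (by simp [pTP]; ring)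
        (by simp [pTP]) (by simp [pTP])
        (by simp [rTP]) (by simp [rTP]) (by simp [rTP]) (by simp [rTP]; ring)
        (by simp [rTP]) (by simp [rTP])] at key
  exact key

/-- the two windows are contradictory if `N` is not full, `v = 15` -/
theorem caseI
    (H : PtB B Bo I J co κ u f (mA monW (actW (DrW s))) (DrW s) C lam a b AA φ r κv Vv Tw)
    (s1 : 1 < s) (s2 : s < 2) (hm : 0 < m)
    (sw : ∀ c ∈ coneM (mA monW (actW (DrW s))), c 1 = 0 → ∀ t : ℝ, 0 ≤ t →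
      lam (c + t • e1W) ≤ lam c - m * t)
    (hV : ∀ k, Vv k → k = 15) (hT : Tw 15)
    (G0 : ∀ i j, gC a b i = gC a b j → i ∈ ({0, 15} : Finset (Fin 18)) →
      j ∈ ({0, 15} : Finset (Fin 18)) ∨ j ∈ DrW s)
    (Gw : ∀ j, gC a b j = gC a b 16 → j ≠ 16 → j ∉ DrW s → j = 3)
    (a17 : a 17 ≠ 0) (GN : ∀ j, gC a b j = gC a b 17 → j = 17 ∨ j ∈ DrW s) :
    1 ≤ r (gC a b 17) / a 17 := by
  by_contra hcon
  push Not at hcon
  have D17 : (17 : Fin 18) ∉ DrW s := fun h => absurd ((DrW_mid s1 s2).1 h) (by decide)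
  have hN : lam (vc 1 1 1 0 2 1 0 0) - lam (vc 1 1 1 0 2 1 0 1) = r (gC a b 17) / a 17 := by
    rw [H.single a17 D17 GN (vc_mem s1 s2 (by unfold Cn; norm_num))
      (vc_mem s1 s2 (by unfold Cn; norm_num)) (fun j hj hjD => by
        revert hj
        fin_cases j <;> simp [vc])]
    have e1 : vc 1 1 1 0 2 1 0 1 17 = 1 := rfl
    have e2 : vc 1 1 1 0 2 1 0 0 17 = 0 := rfl
    rw [e1, e2]; ring
  obtain ⟨y, y0, y1, y2⟩ : ∃ y : ℝ, 0 < y ∧ y ≤ 1 ∧ r (gC a b 17) / a 17 < 1 - y := by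
    refine ⟨min 1 ((1 - r (gC a b 17) / a 17) / 2), lt_min one_pos (by linarith), min_le_left _ _, ?_⟩
    have := min_le_right (1:ℝ) ((1 - r (gC a b 17) / a 17) / 2)
    linarith
  have h1 := winI1 H s1 s2 hV G0 y0 y1 (by rw [hN]; exact y2)
  have h2 := winI2 H s1 s2 hV hT G0 y0
  have h3 := H.slot (i := 16) (c := vc y 0 0 0 (2 * y) y 0 0) (c' := vc y 0 0 0 (2 * y) y y 0)
    (d := vc 1 1 1 0 2 1 0 1) (d' := vc 1 1 1 0 2 1 y 1)
    (vc_mem s1 s2 (by unfold Cn; refine ⟨?_, ?_, ?_, ?_, ?_, ?_, ?_, ?_, ?_⟩ <;> linarith))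
    (vc_mem s1 s2 (by unfold Cn; refine ⟨?_, ?_, ?_, ?_, ?_, ?_, ?_, ?_, ?_⟩ <;> linarith))
    (vc_mem s1 s2 (by unfold Cn; refine ⟨?_, ?_, ?_, ?_, ?_, ?_, ?_, ?_, ?_⟩ <;> linarith))
    (vc_mem s1 s2 (by unfold Cn; refine ⟨?_, ?_, ?_, ?_, ?_, ?_, ?_, ?_, ?_⟩ <;> linarith))
    (fun j hj _ => by revert hj; fin_cases j <;> simp [vc])
    (fun j hj _ => by revert hj; fin_cases j <;> simp [vc]) (by simp [vc]) (by simp [vc])
    (fun j h1 h2 h4 => by rw [Gw j h1 h2 h4]; simp [vc])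
  have h4 := sw_vc (z := y) (A := y) (B' := y) (a' := 2 * y) (b' := y) (P := y) (N := y) (t := y)
    s1 s2 sw (by unfold Cn; refine ⟨?_, ?_, ?_, ?_, ?_, ?_, ?_, ?_, ?_⟩ <;> linarith) y0.le
  have h5 : 0 < m * y := mul_pos hm y0
  linarith

/-- legality of the box `β` on `Z \ Z'`, `y` off `Z` -/
theorem legZ2 {n0 : Fin 18 → ℕ} {S : Finset (Fin 18)} {y : ℝ}
    {W : Wnd 18 fun _ => ℕ × ℝ} {E : ∀ n : ℕ, Finset (ℕ × ℝ)}
    (g : WinB (mA monW (actW (DrW s))) (DrW s) κ u f lam Tw n0 (fun _ => 1) 1 S y W E)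
    (Z Z' : Finset (Fin 18)) (h1 : OkV n0 1 (ni Z)) (h1' : OkV n0 1 (ni Z')) (h2 : Disjoint S Z)
    (h2' : Disjoint S Z') (hZ : Z' ⊆ Z) {β : ℝ} (hβ : 0 ≤ β) (hβy : β ≤ y) {p : Fin 18 → ℝ}
    (hp : ∀ k, k ∉ S → p k = if k ∈ Z' then 0 else if k ∈ Z then β else y) : p ∈ W.legW := by
  refine legX g (actM_mA _) h1 h1' (sub_nonneg.2 hβy) hβ (by ring) (fun k hk => ?_)
    (fun k hk => ?_) (fun k _ => ?_)
  · rw [hp k hk]
    simp only [ni]
    by_cases a1 : k ∈ Z'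
    · have a2 : k ∈ Z := hZ a1
      simp [a1, a2]
    · by_cases a2 : k ∈ Z
      · simp [a1, a2]
      · simp [a1, a2]
  · simp only [ni]
    have a1 : k ∉ Z := Finset.disjoint_left.1 h2 hk
    have a2 : k ∉ Z' := Finset.disjoint_left.1 h2' hk
    simp [a1, a2]
  · simp only [ni]
    constructor <;> split_ifs <;> simp

/-- first window, `v = 14` : the slot `15` costs nothing -/
theorem winJ1
    (H : PtB B Bo I J co κ u f (mA monW (actW (DrW s))) (DrW s) C lam a b AA φ r κv Vv Tw)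
    (s1 : 1 < s) (s2 : s < 2)
    (hV : ∀ k, Vv k → k = 14)
    (G0 : ∀ i j, gC a b i = gC a b j → i ∈ ({0, 14} : Finset (Fin 18)) →
      j ∈ ({0, 14} : Finset (Fin 18)) ∨ j ∈ DrW s) {y : ℝ} (y0 : 0 < y) (y1 : y ≤ 1)
    (hX : 1 ≤ lam (vc 1 1 0 0 1 1 1 1) - lam (vc 1 1 1 0 1 1 1 1))
    (hN : lam (vc 1 1 0 0 1 0 1 0) - lam (vc 1 1 1 0 1 0 1 1) < 2 - y) :
    lam (vc 1 1 1 0 1 0 1 1) ≤ lam (vc 1 1 1 0 1 y 1 1) := by
  obtain ⟨W, E, g⟩ := H.win datJ one_pos (fun i j hij hi => (G0 i j hij hi).imp id Or.inr)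
    (fun k hk => by rw [hV k hk]; decide) (fun k hk => by rw [hV k hk]; exact Or.inl (by decide))
  have htop : ∀ k, 1 ≤ W.top k := fun k => by rw [g.etop]; simp [scV]
  have tg : ∀ᶠ n in (U : Filter ℕ), W.X n 17 = W.X n 2 + W.X n 15 :=
    Eventually.of_forall fun n => by
      have := tightD s1 s2 g (k := 17) (l := [2, 15]) (by decide) n
      simpa using this
  have nu : ∀ X F N X' F' N' : ℝ, Cn 1 1 X 0 1 F 1 N → Cn 1 1 X' 0 1 F' 1 N' →
      W.nu (bx (bB 1) 2 15 17 X F N) - W.nu (bx (bB 1) 2 15 17 X' F' N') =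
      lam (vc 1 1 X 0 1 F 1 N) - lam (vc 1 1 X' 0 1 F' 1 N') := fun X F N X' F' N' h1 h2 =>
    nuJ H s1 s2 g h1 h2 (by simp [bx, bB]) (by simp [bx, bB]) (by simp [bx, bB])
      (by simp [bx, bB]) (by simp [bx, bB]) (by simp [bx, bB])
      (by simp [bx, bB]) (by simp [bx, bB]) (by simp [bx, bB])
      (by simp [bx, bB]) (by simp [bx, bB]) (by simp [bx, bB])
  have := free15 g.ww g.ev g.mod.toRUnif g.eS (x := 1) (j := y) y0.le y1 htop tg
    { h0 := legZ one_pos.le g {2, 3, 15, 17} (by decide) (by decide) fun k _ => by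
        unfold bx bB; fin_cases k <;> simp
      hL := legZ one_pos.le g {2, 3} (by decide) (by decide) fun k _ => by
        unfold bx bB; fin_cases k <;> simp
      hQ' := legZ one_pos.le g {3} (by decide) (by decide) fun k _ => by
        unfold bx bB; fin_cases k <;> simp
      hQ := legZ one_pos.le g {3, 15} (by decide) (by decide) fun k _ => by
        unfold bx bB; fin_cases k <;> simp
      hjj := legZ2 g {2, 3, 15, 17} {2, 3} (by decide) (by decide) (by decide) (by decide)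
        (by decide) y0.le y1 fun k _ => by unfold bx bB; fin_cases k <;> simp
      hQj := legZ2 g {3, 15} {3} (by decide) (by decide) (by decide) (by decide)
        (by decide) y0.le y1 fun k _ => by unfold bx bB; fin_cases k <;> simp
      hR := legZ2 g {2, 3} {3} (by decide) (by decide) (by decide) (by decide)
        (by decide) (sub_nonneg.2 y1) (by linarith) fun k _ => by
          unfold bx bB; fin_cases k <;> simp }
    (by
      rw [nu _ _ _ _ _ _ (by unfold Cn; norm_num) (by unfold Cn; norm_num)]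
      exact hX)
    (by
      rw [nu _ _ _ _ _ _ (by unfold Cn; norm_num) (by unfold Cn; norm_num)]
      linarith)
  have h2 := nu 1 0 1 1 y 1 (by unfold Cn; norm_num)
    (by unfold Cn; refine ⟨?_, ?_, ?_, ?_, ?_, ?_, ?_, ?_, ?_⟩ <;> linarith)
  linarith

/-- second window, `v = 14` : the row `c ≤ 15` -/
theorem winJ2
    (H : PtB B Bo I J co κ u f (mA monW (actW (DrW s))) (DrW s) C lam a b AA φ r κv Vv Tw)
    (s1 : 1 < s) (s2 : s < 2)
    (hV : ∀ k, Vv k → k = 14) (hT : Tw 14)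
    (G0 : ∀ i j, gC a b i = gC a b j → i ∈ ({0, 14} : Finset (Fin 18)) →
      j ∈ ({0, 14} : Finset (Fin 18)) ∨ j ∈ DrW s) {y : ℝ} (y0 : 0 < y) :
    lam (vc y 0 y y y y y y) - lam (vc y y y y y y y y) ≤
      lam (vc y 0 0 0 y 0 0 0) - lam (vc y 0 0 0 y y 0 0) := by
  obtain ⟨W, E, g⟩ := H.win datJ y0 (fun i j hij hi => (G0 i j hij hi).imp id Or.inr)
    (fun k hk => by rw [hV k hk]; decide) (fun k hk => by rw [hV k hk]; exact Or.inl (by decide))
  have htop : ∀ k, y ≤ W.top k := fun k => by rw [g.etop]; simp [scV]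
  have tg : ∀ᶠ n in (U : Filter ℕ), W.X n 15 = W.X n 1 + W.X n 14 :=
    Eventually.of_forall fun n => by
      have := tightD s1 s2 g (k := 15) (l := [1, 14]) (by decide) n
      simpa using this
  have hR : RawL W E 14 := g.tw 14 (by decide) hT (by decide) (by decide)
    ⟨y, y0, mem_of s1 s2 (z := 0) (c := y) (A := y) (B' := y) (a' := y) (b' := y) (P := y)
      (N := y) (by unfold Cn; refine ⟨?_, ?_, ?_, ?_, ?_, ?_, ?_, ?_, ?_⟩ <;> linarith)
      (by simp [scV, cut, nJ, D13]) (by simp [scV, cut, nJ, D13]) (by simp [scV, cut, nJ, D13])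
      (by simp [scV, cut, nJ, D13]) (by simp [scV, cut, nJ, D13])
      (by simp [scV, cut, nJ, D13]) (by simp [scV, cut, nJ, D13]) (by simp [scV, cut, nJ, D13])⟩
  have key := rowII g.ww g.ev g.mod y0 htop g.eS hR g.hk tg
    (legZ y0.le g {1} (by decide) (by decide) fun k _ => by simp [pC])
    (legZ y0.le g ∅ (by decide) (by decide) fun k _ => by simp)
    (legZ y0.le g {1, 2, 3, 12, 13, 15, 16, 17} (by decide) (by decide) fun k hk => by
      unfold pTA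
      revert hk
      fin_cases k <;> simp)
    (legZ y0.le g {1, 2, 3, 12, 13, 16, 17} (by decide) (by decide) fun k hk => by
      unfold rTA
      revert hk
      fin_cases k <;> simp)
  rw [nuJ H s1 s2 g (p := pC y) (p' := fun _ => y)
        (c := 0) (A := y) (B' := y) (b' := y) (P := y) (N := y)
        (c' := y) (A' := y) (B'' := y) (b'' := y) (P' := y) (N' := y)
        (by unfold Cn; refine ⟨?_, ?_, ?_, ?_, ?_, ?_, ?_, ?_, ?_⟩ <;> linarith)
        (by unfold Cn; refine ⟨?_, ?_, ?_, ?_, ?_, ?_, ?_, ?_, ?_⟩ <;> linarith)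
        (by simp [pC]) (by simp [pC]) (by simp [pC]) (by simp [pC])
        (by simp [pC]) (by simp [pC])
        rfl rfl rfl rfl rfl rfl,
      nuJ H s1 s2 g (p := pTA y) (p' := rTA y)
        (c := 0) (A := 0) (B' := 0) (b' := 0) (P := 0) (N := 0)
        (c' := 0) (A' := 0) (B'' := 0) (b'' := y) (P' := 0) (N' := 0)
        (by unfold Cn; refine ⟨?_, ?_, ?_, ?_, ?_, ?_, ?_, ?_, ?_⟩ <;> linarith)
        (by unfold Cn; refine ⟨?_, ?_, ?_, ?_, ?_, ?_, ?_, ?_, ?_⟩ <;> linarith)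
        (by simp [pTA]) (by simp [pTA]) (by simp [pTA]) (by simp [pTA])
        (by simp [pTA]) (by simp [pTA])
        (by simp [rTA]) (by simp [rTA]) (by simp [rTA]) (by simp [rTA])
        (by simp [rTA]) (by simp [rTA])] at key
  exact key

/-- the two windows are contradictory if `N` is not full, `v = 14` -/
theorem caseII
    (H : PtB B Bo I J co κ u f (mA monW (actW (DrW s))) (DrW s) C lam a b AA φ r κv Vv Tw)
    (s1 : 1 < s) (s2 : s < 2) (hm : 0 < m)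
    (sw : ∀ c ∈ coneM (mA monW (actW (DrW s))), c 1 = 0 → ∀ t : ℝ, 0 ≤ t →
      lam (c + t • e1W) ≤ lam c - m * t)
    (hV : ∀ k, Vv k → k = 14) (hT : Tw 14)
    (G0 : ∀ i j, gC a b i = gC a b j → i ∈ ({0, 14} : Finset (Fin 18)) →
      j ∈ ({0, 14} : Finset (Fin 18)) ∨ j ∈ DrW s)
    (Gw : ∀ j, gC a b j = gC a b 15 → j ≠ 15 → j ∉ DrW s → j = 3)
    (GA : ∀ j, gC a b j = gC a b 2 → j ≠ 2 → j ∉ DrW s → False)
    (hA : 1 ≤ lam (vc 1 0 0 0 0 0 0 0) - lam (vc 1 0 1 0 0 0 0 0))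
    (a17 : a 17 ≠ 0) (GN : ∀ j, gC a b j = gC a b 17 → j = 17 ∨ j ∈ DrW s) :
    1 ≤ r (gC a b 17) / a 17 := by
  by_contra hcon
  push Not at hcon
  have D17 : (17 : Fin 18) ∉ DrW s := fun h => absurd ((DrW_mid s1 s2).1 h) (by decide)
  have hN : lam (vc 1 1 1 0 1 0 1 0) - lam (vc 1 1 1 0 1 0 1 1) = r (gC a b 17) / a 17 := by
    rw [H.single a17 D17 GN (vc_mem s1 s2 (by unfold Cn; norm_num))
      (vc_mem s1 s2 (by unfold Cn; norm_num)) (fun j hj hjD => by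
        revert hj
        fin_cases j <;> simp [vc])]
    have e1 : vc 1 1 1 0 1 0 1 1 17 = 1 := rfl
    have e2 : vc 1 1 1 0 1 0 1 0 17 = 0 := rfl
    rw [e1, e2]; ring
  have hA' : lam (vc 1 1 0 0 1 0 1 0) - lam (vc 1 1 1 0 1 0 1 0) ≤ 1 := by
    have h1 := H.aew.sharp (vc 1 1 0 0 1 0 1 0) (vc_mem s1 s2 (by unfold Cn; norm_num))
      (vc 1 1 1 0 1 0 1 0) (vc_mem s1 s2 (by unfold Cn; norm_num)) (fun j => by
        fin_cases j <;> simp [vc])
    refine h1.trans (le_of_eq ?_)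
    simp [Fin.sum_univ_succ, vc]
  have hX : 1 ≤ lam (vc 1 1 0 0 1 1 1 1) - lam (vc 1 1 1 0 1 1 1 1) := by
    refine hA.trans (le_of_eq ?_)
    exact H.slot (i := 2) (vc_mem s1 s2 (by unfold Cn; norm_num))
      (vc_mem s1 s2 (by unfold Cn; norm_num)) (vc_mem s1 s2 (by unfold Cn; norm_num))
      (vc_mem s1 s2 (by unfold Cn; norm_num))
      (fun j hj _ => by revert hj; fin_cases j <;> simp [vc])
      (fun j hj _ => by revert hj; fin_cases j <;> simp [vc]) (by simp [vc]) (by simp [vc])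
      (fun j h1 h2 h4 => (GA j h1 h2 h4).elim)
  obtain ⟨y, y0, y1, y2⟩ : ∃ y : ℝ, 0 < y ∧ y ≤ 1 ∧ r (gC a b 17) / a 17 < 1 - y := by
    refine ⟨min 1 ((1 - r (gC a b 17) / a 17) / 2), lt_min one_pos (by linarith), min_le_left _ _, ?_⟩
    have := min_le_right (1:ℝ) ((1 - r (gC a b 17) / a 17) / 2)
    linarith
  have h1 := winJ1 H s1 s2 hV G0 y0 y1 hX (by linarith)
  have h2 := winJ2 H s1 s2 hV hT G0 y0
  have h3 := H.slot (i := 15) (c := vc y 0 0 0 y 0 0 0) (c' := vc y 0 0 0 y y 0 0)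
    (d := vc 1 1 1 0 1 0 1 1) (d' := vc 1 1 1 0 1 y 1 1)
    (vc_mem s1 s2 (by unfold Cn; refine ⟨?_, ?_, ?_, ?_, ?_, ?_, ?_, ?_, ?_⟩ <;> linarith))
    (vc_mem s1 s2 (by unfold Cn; refine ⟨?_, ?_, ?_, ?_, ?_, ?_, ?_, ?_, ?_⟩ <;> linarith))
    (vc_mem s1 s2 (by unfold Cn; refine ⟨?_, ?_, ?_, ?_, ?_, ?_, ?_, ?_, ?_⟩ <;> linarith))
    (vc_mem s1 s2 (by unfold Cn; refine ⟨?_, ?_, ?_, ?_, ?_, ?_, ?_, ?_, ?_⟩ <;> linarith))
    (fun j hj _ => by revert hj; fin_cases j <;> simp [vc])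
    (fun j hj _ => by revert hj; fin_cases j <;> simp [vc]) (by simp [vc]) (by simp [vc])
    (fun j h1 h2 h4 => by rw [Gw j h1 h2 h4]; simp [vc])
  have h4 := sw_vc (z := y) (A := y) (B' := y) (a' := y) (b' := y) (P := y) (N := y) (t := y)
    s1 s2 sw (by unfold Cn; refine ⟨?_, ?_, ?_, ?_, ?_, ?_, ?_, ?_, ?_⟩ <;> linarith) y0.le
  have h5 : 0 < m * y := mul_pos hm y0
  linarith

end cases

end Crest.Agent.R136.DLow619
end

-- ▼ part R136/DLw5_619
section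

/-!
# R136: `deadlow` (helper619): the last rung of slope `1 < s < 2`

`V ⊆ {14, 15}`, the dominant slot is `15` or `14`; `N` is full by `caseI` / `caseII`; 938's
`conc_ptC`.
-/

set_option autoImplicit false
set_option linter.unusedSectionVars false
set_option linter.unusedVariables false

open Filter Topology

namespace Crest.Agent.R136.DLow619

open Finset Crest.Agent.R138.Ex926 Crest.Agent.R136.Net191 Crest.Agent.R136.Gf356
open Crest.Agent.R136.Qg926 Crest.Agent.R136.Dg219 Crest.Agent.R136.Aw413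
open Crest.Agent.R136.NetW191 Crest.Agent.R136.EvW938 Crest.Agent.R136.PrW464
open Crest.Agent.R136.LadW697 Crest.Agent.R136.AwJ774 Crest.Agent.R136.Bas938
open Crest.Agent.R136.K2S774 (cn)
open Crest.Agent.R136.NatW697 (KW saW KW_eq SlotOkW)
open Crest.Agent.R136.LadT830 (Top vis_al btW_KW)
open Crest.Agent.R136.ThB830 (PtC deadC_of)

/-- the undropped slots -/
theorem undr : ∀ j : Fin 18, j ∉ D13 →
    j = 0 ∨ j = 1 ∨ j = 2 ∨ j = 3 ∨ j = 14 ∨ j = 15 ∨ j = 16 ∨ j = 17 := by decide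

section vals

variable {s : ℝ} (s1 : 1 < s) (s2 : s < 2) (θ : Fin 3 → ℝ)

include s1 s2

theorem TWv : TW s 14 = s - 1 ∧ TW s 15 = s - 1 ∧ TW s 16 = s - 1 ∧ TW s 17 = s := by
  have h : ∀ k : Fin 18, k ∉ D13 → k ∉ DrW s := fun k hk h => hk ((DrW_mid s1 s2).1 h)
  refine ⟨?_, ?_, ?_, ?_⟩
  · rw [TW_flag (by decide) (h 14 (by decide)), show alW 14 = 1 from by decide]; norm_num
  · rw [TW_flag (by decide) (h 15 (by decide)), show alW 15 = 1 from by decide]; norm_num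
  · rw [TW_flag (by decide) (h 16 (by decide)), show alW 16 = 1 from by decide]; norm_num
  · rw [TW_flag (by decide) (h 17 (by decide)), show alW 17 = 0 from by decide]; norm_num

omit s1 s2 in
theorem bWv : btW θ 14 = (1 - θ 0) + 2 * θ 1 - 1 ∧ btW θ 15 = (1 - θ 0) + θ 1 - 1 ∧
    btW θ 16 = (1 - θ 0) - 1 ∧ btW θ 17 = 1 - θ 0 := by
  refine ⟨?_, ?_, ?_, ?_⟩
  · rw [btW_val, show wz 14 = -1 from by decide, show wc 14 = -2 from by decide,
      show wn 14 = 1 from by decide]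
    push_cast; ring
  · rw [btW_val, show wz 15 = -1 from by decide, show wc 15 = -1 from by decide,
      show wn 15 = 1 from by decide]
    push_cast; ring
  · rw [btW_val, show wz 16 = -1 from by decide, show wc 16 = 0 from by decide,
      show wn 16 = 1 from by decide]
    push_cast; ring
  · rw [btW_val, show wz 17 = 0 from by decide, show wc 17 = 0 from by decide,
      show wn 17 = 1 from by decide]
    push_cast; ring

/-- two undropped slots in one group -/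
theorem grp_tool {i j : Fin 18} (h1 : TW s i ≠ 0)
    (e : gC (TW s) (btW θ) i = gC (TW s) (btW θ) j) :
    TW s j ≠ 0 ∧ btW θ i * TW s j = btW θ j * TW s i := by
  have h2 : TW s j ≠ 0 := fun h => by
    rw [gC_zero.2 h] at e
    exact h1 (gC_zero.1 e)
  refine ⟨h2, ?_⟩
  rw [gC_eq h1 h2, div_eq_div_iff h1 h2] at e
  exact e

end vals

section slots

variable {s : ℝ} {θ : Fin 3 → ℝ} (s1 : 1 < s) (s2 : s < 2) (hθ : 0 < θ 1)

include s1 s2 hθ

set_option maxHeartbeats 1000000 in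
/-- the groups, `v = 15` -/
theorem grpI (hn : 1 - θ 0 = s - θ 1) :
    (∀ i j, gC (TW s) (btW θ) i = gC (TW s) (btW θ) j → i ∈ ({0, 15} : Finset (Fin 18)) →
      j ∈ ({0, 15} : Finset (Fin 18)) ∨ j ∈ DrW s) ∧
    (∀ j, gC (TW s) (btW θ) j = gC (TW s) (btW θ) 16 → j ≠ 16 → j ∉ DrW s → j = 3) ∧
    (∀ j, gC (TW s) (btW θ) j = gC (TW s) (btW θ) 17 → j = 17 ∨ j ∈ DrW s) := by
  obtain ⟨t14, t15, t16, t17⟩ := TWv s1 s2
  obtain ⟨b14, b15, b16, b17⟩ := bWv θ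
  have t0 := TW_z s
  have t1 := TW_c s
  have t2 := TW_A s
  have t3 := TW_B s
  have b0 := btW0 θ
  have b2' := btW2 θ
  have b3 := btW3 θ
  rw [hn] at b14 b15 b16 b17
  have p1 : 0 < θ 1 * (s - 1) := mul_pos hθ (by linarith)
  have p2 : 0 < θ 1 * (2 - s) := mul_pos hθ (by linarith)
  have nD : ∀ j, j ∉ DrW s → j ∉ D13 := fun j h1 h2 => h1 ((DrW_mid s1 s2).2 h2)
  refine ⟨fun i j e hi => ?_, fun j e h1 h2 => ?_, fun j e => ?_⟩
  · by_cases hD : j ∈ DrW s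
    · exact Or.inr hD
    left
    have hi0 : TW s i ≠ 0 ∧ btW θ i = TW s i := by
      rcases Finset.mem_insert.1 hi with rfl | hi
      · rw [t0, b0]; exact ⟨one_ne_zero, rfl⟩
      · rw [Finset.mem_singleton.1 hi, t15, b15]; exact ⟨by linarith, by ring⟩
    obtain ⟨a1, a2⟩ := grp_tool s1 s2 θ hi0.1 e
    rw [hi0.2] at a2
    have a3 : TW s j = btW θ j := by
      have h3 : TW s i * (TW s j - btW θ j) = 0 := by linarith
      rcases mul_eq_zero.1 h3 with h3 | h3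
      · exact absurd h3 hi0.1
      · linarith
    rcases undr j (nD j hD) with rfl | rfl | rfl | rfl | rfl | rfl | rfl | rfl
    · decide
    · exact absurd t1 a1
    · rw [t2, b2'] at a3; linarith
    · rw [t3, b3] at a3; linarith
    · rw [t14, b14] at a3; linarith
    · decide
    · rw [t16, b16] at a3; linarith
    · rw [t17, b17] at a3; linarith
  · obtain ⟨a1, a2⟩ := grp_tool s1 s2 θ (by rw [t16]; linarith) e.symm
    rw [t16, b16] at a2
    rcases undr j (nD j h2) with rfl | rfl | rfl | rfl | rfl | rfl | rfl | rfl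
    · rw [t0, b0] at a2; linarith
    · exact absurd t1 a1
    · rw [t2, b2'] at a2; exfalso; ring_nf at a2 p1 p2; linarith
    · rfl
    · rw [t14, b14] at a2; exfalso; ring_nf at a2 p1 p2; linarith
    · rw [t15, b15] at a2; exfalso; ring_nf at a2 p1 p2; linarith
    · exact absurd rfl h1
    · rw [t17, b17] at a2; exfalso; ring_nf at a2 p1 p2; linarith
  · by_cases hD : j ∈ DrW s
    · exact Or.inr hD
    left
    obtain ⟨a1, a2⟩ := grp_tool s1 s2 θ (by rw [t17]; linarith) e.symm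
    rw [t17, b17] at a2
    rcases undr j (nD j hD) with rfl | rfl | rfl | rfl | rfl | rfl | rfl | rfl
    · rw [t0, b0] at a2; linarith
    · exact absurd t1 a1
    · rw [t2, b2'] at a2; exfalso; ring_nf at a2 p1 p2; linarith
    · rw [t3, b3] at a2; exfalso; ring_nf at a2 p1 p2; linarith
    · rw [t14, b14] at a2; exfalso; ring_nf at a2 p1 p2; linarith
    · rw [t15, b15] at a2; exfalso; ring_nf at a2 p1 p2; linarith
    · rw [t16, b16] at a2; exfalso; ring_nf at a2 p1 p2; linarith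
    · rfl

set_option maxHeartbeats 1000000 in
/-- the groups, `v = 14` -/
theorem grpII (hn : 1 - θ 0 = s - 2 * θ 1) :
    (∀ i j, gC (TW s) (btW θ) i = gC (TW s) (btW θ) j → i ∈ ({0, 14} : Finset (Fin 18)) →
      j ∈ ({0, 14} : Finset (Fin 18)) ∨ j ∈ DrW s) ∧
    (∀ j, gC (TW s) (btW θ) j = gC (TW s) (btW θ) 15 → j ≠ 15 → j ∉ DrW s → j = 3) ∧
    (∀ j, gC (TW s) (btW θ) j = gC (TW s) (btW θ) 2 → j ≠ 2 → j ∉ DrW s → False) ∧
    (∀ j, gC (TW s) (btW θ) j = gC (TW s) (btW θ) 17 → j = 17 ∨ j ∈ DrW s) := by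
  obtain ⟨t14, t15, t16, t17⟩ := TWv s1 s2
  obtain ⟨b14, b15, b16, b17⟩ := bWv θ
  have t0 := TW_z s
  have t1 := TW_c s
  have t2 := TW_A s
  have t3 := TW_B s
  have b0 := btW0 θ
  have b2' := btW2 θ
  have b3 := btW3 θ
  rw [hn] at b14 b15 b16 b17
  have p1 : 0 < θ 1 * (s - 1) := mul_pos hθ (by linarith)
  have p2 : 0 < θ 1 * (2 - s) := mul_pos hθ (by linarith)
  have nD : ∀ j, j ∉ DrW s → j ∉ D13 := fun j h1 h2 => h1 ((DrW_mid s1 s2).2 h2)
  refine ⟨fun i j e hi => ?_, fun j e h1 h2 => ?_, fun j e h1 h2 => ?_, fun j e => ?_⟩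
  · by_cases hD : j ∈ DrW s
    · exact Or.inr hD
    left
    have hi0 : TW s i ≠ 0 ∧ btW θ i = TW s i := by
      rcases Finset.mem_insert.1 hi with rfl | hi
      · rw [t0, b0]; exact ⟨one_ne_zero, rfl⟩
      · rw [Finset.mem_singleton.1 hi, t14, b14]; exact ⟨by linarith, by ring⟩
    obtain ⟨a1, a2⟩ := grp_tool s1 s2 θ hi0.1 e
    rw [hi0.2] at a2
    have a3 : TW s j = btW θ j := by
      have h3 : TW s i * (TW s j - btW θ j) = 0 := by linarith
      rcases mul_eq_zero.1 h3 with h3 | h3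
      · exact absurd h3 hi0.1
      · linarith
    rcases undr j (nD j hD) with rfl | rfl | rfl | rfl | rfl | rfl | rfl | rfl
    · decide
    · exact absurd t1 a1
    · rw [t2, b2'] at a3; linarith
    · rw [t3, b3] at a3; linarith
    · decide
    · rw [t15, b15] at a3; linarith
    · rw [t16, b16] at a3; linarith
    · rw [t17, b17] at a3; linarith
  · obtain ⟨a1, a2⟩ := grp_tool s1 s2 θ (by rw [t15]; linarith) e.symm
    rw [t15, b15] at a2
    rcases undr j (nD j h2) with rfl | rfl | rfl | rfl | rfl | rfl | rfl | rfl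
    · rw [t0, b0] at a2; linarith
    · exact absurd t1 a1
    · rw [t2, b2'] at a2; exfalso; ring_nf at a2 p1 p2; linarith
    · rfl
    · rw [t14, b14] at a2; exfalso; ring_nf at a2 p1 p2; linarith
    · exact absurd rfl h1
    · rw [t16, b16] at a2; exfalso; ring_nf at a2 p1 p2; linarith
    · rw [t17, b17] at a2; exfalso; ring_nf at a2 p1 p2; linarith
  · obtain ⟨a1, a2⟩ := grp_tool s1 s2 θ (by rw [t2]; exact one_ne_zero) e.symm
    rw [t2, b2'] at a2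
    rcases undr j (nD j h2) with rfl | rfl | rfl | rfl | rfl | rfl | rfl | rfl
    · rw [t0, b0] at a2; linarith
    · exact absurd t1 a1
    · exact absurd rfl h1
    · rw [t3, b3] at a2; linarith
    · rw [t14, b14] at a2; exfalso; ring_nf at a2 p1 p2; linarith
    · rw [t15, b15] at a2; exfalso; ring_nf at a2 p1 p2; linarith
    · rw [t16, b16] at a2; exfalso; ring_nf at a2 p1 p2; linarith
    · rw [t17, b17] at a2; exfalso; ring_nf at a2 p1 p2; linarith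
  · by_cases hD : j ∈ DrW s
    · exact Or.inr hD
    left
    obtain ⟨a1, a2⟩ := grp_tool s1 s2 θ (by rw [t17]; linarith) e.symm
    rw [t17, b17] at a2
    rcases undr j (nD j hD) with rfl | rfl | rfl | rfl | rfl | rfl | rfl | rfl
    · rw [t0, b0] at a2; linarith
    · exact absurd t1 a1
    · rw [t2, b2'] at a2; exfalso; ring_nf at a2 p1 p2; linarith
    · rw [t3, b3] at a2; exfalso; ring_nf at a2 p1 p2; linarith
    · rw [t14, b14] at a2; exfalso; ring_nf at a2 p1 p2; linarith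
    · rw [t15, b15] at a2; exfalso; ring_nf at a2 p1 p2; linarith
    · rw [t16, b16] at a2; exfalso; ring_nf at a2 p1 p2; linarith
    · rfl

end slots

theorem cap_no : ∀ k : Fin 18, k = 14 ∨ k = 15 → ∀ l ∈ mlW k,
    ¬ ∀ i ∈ l, i = 0 ∨ (i = 14 ∨ i = 15) := by decide

theorem flags1 : ∀ k : Fin 18, 4 ≤ k → k ≠ 16 → alW k = 1 → k = 14 ∨ k = 15 := by decide

theorem v4_vc (z c A B : ℝ) : v4 z c A B = vc z c A B 0 0 0 0 := by
  funext k
  fin_cases k <;> simp [v4, vc]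

set_option maxHeartbeats 1000000 in
/-- **`deadlow`** : the last rung, largest wall slope in `(1, 2)` -/
theorem deadlow : DeadC (fun g θ V s => Top θ (fun k => k ∈ V) s ∧ 1 < s ∧ s < 2) := by
  refine deadC_of (fun g θ V s h => ⟨by linarith [h.2.1], fun k hk => h.1.2 k hk⟩) ?_
  rintro P ν own K r0 θ g q V T s hc ⟨htop, s1, s2⟩
  refine ⟨g / 4, by have := hc.g0; linarith, fun B Bo I J co C κ u f lam lo A φ r h =>
    ThB830.CtxW.full hc (by linarith) ?_⟩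
  have H := PtB.of_ptC h h.ne
  have hθ := h.th1
  -- the visible slots
  have hVs : ∀ k, k ∈ V → k = 14 ∨ k = 15 := fun k hk => by
    obtain ⟨h4, h1, h2⟩ := vis_al hc.slots hk
    have h3 := htop.2 k hk
    have h5 : (alW k : ℝ) < 2 := by linarith
    have h6 : (1 : ℤ) ≤ alW k := by exact_mod_cast h1
    have h7 : alW k < 2 := by exact_mod_cast h5
    exact flags1 k h4 (hc.slots.vis k hk).1.2.2.1 (by omega)
  have hTk : ∀ k, k ∈ V → k ∈ T := fun k hk => by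
    by_contra hn
    obtain ⟨l, hl, h1⟩ := hc.slots.cap k hk hn
    exact cap_no k (hVs k hk) l hl fun i hi => (h1 i hi).imp id fun h2 => hVs i h2
  obtain ⟨b14, b15, b16, b17⟩ := bWv θ
  have K14 : KW θ 14 = (1 - θ 0) + 2 * θ 1 := by
    rw [KW_eq, show wc 14 = -2 from by decide, show wn 14 = 1 from by decide]
    push_cast; ring
  have K15 : KW θ 15 = (1 - θ 0) + θ 1 := by
    rw [KW_eq, show wc 15 = -1 from by decide, show wn 15 = 1 from by decide]
    push_cast; ring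
  have a17 : TW s 17 ≠ 0 := by rw [(TWv s1 s2).2.2.2]; linarith
  have D17 : (17 : Fin 18) ∉ DrW s := fun h => absurd ((DrW_mid s1 s2).1 h) (by decide)
  have hm : 0 < q 1 + 2 * q 2 := by linarith [h.q1, h.q2]
  have sw : ∀ c ∈ coneM (mA monW (actW (DrW s))), c 1 = 0 → ∀ t : ℝ, 0 ≤ t →
      lam (c + t • e1W) ≤ lam c - (q 1 + 2 * q 2) * t := by
    intro c hcm h1 t ht
    rw [coneM_mA] at hcm
    refine h.sweep c hcm h1 (fun i hi hT => ?_) t ht
    exfalso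
    by_cases hD : i ∈ DrW s
    · rw [TW, if_pos hD] at hT; exact one_ne_zero hT
    · obtain ⟨t14, t15, t16, t17⟩ := TWv s1 s2
      rcases undr i (fun h2 => hD ((DrW_mid s1 s2).2 h2)) with rfl | rfl | rfl | rfl | rfl | rfl |
        rfl | rfl
      · rw [TW_z] at hT; exact one_ne_zero hT
      · exact hi rfl
      · rw [TW_A] at hT; exact one_ne_zero hT
      · rw [TW_B] at hT; exact one_ne_zero hT
      · linarith
      · linarith
      · linarith
      · linarith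
  -- `N` is full
  have key : 1 ≤ r (gC (TW s) (btW θ) 17) / TW s 17 ∧
      ∀ j, gC (TW s) (btW θ) j = gC (TW s) (btW θ) 17 → j = 17 ∨ j ∈ DrW s := by
    obtain ⟨k, hk, hK⟩ := htop.1
    rcases hVs k hk with rfl | rfl
    · have hn : 1 - θ 0 = s - 2 * θ 1 := by linarith
      obtain ⟨G0, Gw, GA, GN⟩ := grpII s1 s2 hθ hn
      refine ⟨caseII H s1 s2 hm sw (fun j hj => ?_) ⟨hTk 14 hk, hk, hK⟩ G0 Gw GA ?_ a17 GN, GN⟩
      · rcases hVs j hj.1 with rfl | rfl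
        · rfl
        · exfalso
          have := hj.2
          linarith
      · have := (base_ptC h h.ne h.q1 h.q2 one_pos).2
        rw [v4_vc, v4_vc] at this
        exact this
    · have hn : 1 - θ 0 = s - θ 1 := by linarith
      obtain ⟨G0, Gw, GN⟩ := grpI s1 s2 hθ hn
      refine ⟨caseI H s1 s2 hm sw (fun j hj => ?_) ⟨hTk 15 hk, hk, hK⟩ G0 Gw a17 GN, GN⟩
      rcases hVs j hj.1 with rfl | rfl
      · exfalso
        have := hj.2
        linarith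
      · rfl
  obtain ⟨hρ, GN⟩ := key
  refine conc_ptC h h.ne h.q1 h.q2 (x := s) (Cc := 0) (Eventually.frequently ?_)
  filter_upwards [eventually_ge_atTop (0:ℝ)] with t ht
  have m0 := ray_mem s t
  have m1 : Function.update (t • TW s) 17 0 ∈ coneM (mA monW (actW (DrW s))) :=
    upd17_mem H.act m0 fun k => by
      simp only [Pi.smul_apply, smul_eq_mul]
      exact mul_nonneg ht (Bas938.TW_nonneg (by linarith) k)
  rw [H.single a17 D17 GN m1 m0 fun j hj _ => by rw [Function.update_of_ne hj]]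
  rw [Function.update_self]
  simp only [Pi.smul_apply, smul_eq_mul]
  have h17 := (TWv s1 s2).2.2.2
  rw [show t * TW s 17 - 0 = t * s by rw [h17]; ring]
  have : 0 ≤ t * s := by positivity
  nlinarith

end Crest.Agent.R136.DLow619
end

-- ▼ part R136/Vw4_848
section

/-!
# R136: row (ii) of 5b (weights 2, 3, 4), part c: the two orders of a pair of heights (helper848)

`det2, det3, det4` : the multipliers of `c` in the seen slots for the two orders `(k,k')`, `(k',k)`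
control the own slots of weight `w`.  `Gen w s α hd` : the table.  `det_cfg` : configuration form.
-/

set_option autoImplicit false
set_option linter.unusedSectionVars false
set_option linter.unusedVariables false

open Filter Topology

namespace Crest.Agent.R136.Vw848

open Finset Crest.Agent.R136.NetW191 Crest.Agent.R136.Net191 Crest.Agent.R136.Qg926
open Crest.Agent.R136.EvW938
open Crest.Agent.R138.Ex926 (Base U)
open Crest.Agent.R136.Gf356
open Crest.Agent.R136.TrI938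

section real

variable {κ u R k E a : ℝ} {v v' : Fin 14 → ℝ}

lemma rv4 : tr κ (sh (-u)) v 4 = v 4 := by simp only [tr4, sh]; simp
lemma rv6 : tr κ (sh (-u)) v 6 = v 6 - κ * u * v 4 := by simp only [tr6, sh]; simp; ring
lemma rv7 : tr κ (sh (-u)) v 7 = v 7 - 2 * u * v 4 := by simp only [tr7, sh]; simp; ring
lemma rv10 : tr κ (sh (-u)) v 10 = v 10 + u ^ 2 * v 4 - u * v 7 := by
  simp only [tr10, sh]; simp; ring
lemma rv5 : tr κ (sh (-u)) v 5 = v 5 - u * v 2 := by simp only [tr5, sh]; simp; ring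
lemma rv0 : tr κ (sh (-u)) v 0 = v 0 := by simp only [tr0]
lemma rv1 : tr κ (sh (-u)) v 1 = v 1 - 2 * u * v 0 := by simp only [tr1, sh]; simp; ring

lemma prod_le {x y A B C : ℝ} (hy : 0 ≤ y) (hx : x ≤ A) (hyB : y ≤ B) (hA : 0 ≤ A)
    (h : A * B ≤ C) : x * y ≤ C :=
  (mul_le_mul hx hyB hy hA).trans h

set_option maxHeartbeats 1000000 in
/-- weight 2 -/
theorem det2 {d0 d1 d8 d10 d11 d12 d14 d15 : ℝ} (hκ : |κ| ≤ 1) (hk : 1 ≤ k) (hE : 0 ≤ E)
    (ha : 0 ≤ a) (hR : 0 ≤ R) (p0 : 0 ≤ d0) (p1 : 0 ≤ d1) (p8 : 0 ≤ d8) (p10 : 0 ≤ d10)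
    (p11 : 0 ≤ d11) (p12 : 0 ≤ d12) (p14 : 0 ≤ d14) (p15 : 0 ≤ d15)
    (hR1 : R ≤ k * d1) (hu : |u| ≤ k * d0)
    (r4 : |v' 4 + tr κ (sh (-u)) v 4| ≤ E * d8) (r6 : |v' 6 + tr κ (sh (-u)) v 6| ≤ E * d10)
    (r7 : |v' 7 + tr κ (sh (-u)) v 7| ≤ E * d11) (r10 : |v' 10 + tr κ (sh (-u)) v 10| ≤ E * d14)
    (f1 : R * |tr κ (frC κ u 1) (prj 2 v) 8| ≤ a * d12)
    (f1' : R * |tr κ (frC κ (-u) 1) (prj 2 v') 8| ≤ a * d12)
    (f2 : R * |tr κ (frC κ u 1) (prj 2 v) 11| ≤ a * d15)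
    (f2' : R * |tr κ (frC κ (-u) 1) (prj 2 v') 11| ≤ a * d15)
    (w1 : d1 * d10 ≤ d12) (w2 : d1 * d11 ≤ d12) (w3 : d1 * (d0 * d8) ≤ d12)
    (w4 : d0 * d12 ≤ d15) (w5 : d1 * d14 ≤ d15) :
    R * |κ * (u * v 4)| ≤ 8 * k ^ 3 * (a + E) * d12 ∧
    R * |κ * v 10| ≤ 8 * k ^ 3 * (a + E) * d15 ∧
    R * |u * v 6| ≤ 8 * k ^ 3 * (a + E) * d15 ∧
    R * |κ * (u * v 7)| ≤ 8 * k ^ 3 * (a + E) * d15 := by
  rw [rv4] at r4
  rw [rv6] at r6
  rw [rv7] at r7
  rw [rv10] at r10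
  rw [row2z] at f1 f1'
  rw [row2a] at f2 f2'
  have k0 : 0 ≤ k := by linarith
  have k2 : k ≤ k ^ 2 := by nlinarith
  have k3 : k ^ 2 ≤ k ^ 3 := by nlinarith [sq_nonneg k]
  set s4 := v' 4 + v 4 with hs4
  set s6 := v' 6 + (v 6 - κ * u * v 4) with hs6
  set s7 := v' 7 + (v 7 - 2 * u * v 4) with hs7
  set s10 := v' 10 + (v 10 + u ^ 2 * v 4 - u * v 7) with hs10
  set F1 := 2 * v 6 - 2 * κ * v 7 + 2 * κ * u * v 4 with hF1
  set F1' := 2 * v' 6 - 2 * κ * v' 7 + 2 * κ * -u * v' 4 with hF1'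
  set F2 := 2 * u * v 6 - 2 * κ * v 10 with hF2
  set F2' := 2 * -u * v' 6 - 2 * κ * v' 10 with hF2'
  have ak : |κ| * 1 ≤ 1 := by linarith
  -- error products
  have h6 : R * |s6| ≤ k * E * d12 := prod_le (abs_nonneg _) hR1 r6 (by positivity) (by
    calc k * d1 * (E * d10) = k * E * (d1 * d10) := by ring
      _ ≤ _ := mul_le_mul_of_nonneg_left w1 (by positivity))
  have h7 : R * |s7| ≤ k * E * d12 := prod_le (abs_nonneg _) hR1 r7 (by positivity) (by
    calc k * d1 * (E * d11) = k * E * (d1 * d11) := by ring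
      _ ≤ _ := mul_le_mul_of_nonneg_left w2 (by positivity))
  have h4' : R * |s4| ≤ k * d1 * (E * d8) :=
    mul_le_mul hR1 r4 (abs_nonneg _) (by positivity)
  have h4 : |u| * (R * |s4|) ≤ k ^ 2 * E * d12 := prod_le (by positivity) hu h4' (by positivity) (by
    calc k * d0 * (k * d1 * (E * d8)) = k ^ 2 * E * (d1 * (d0 * d8)) := by ring
      _ ≤ _ := mul_le_mul_of_nonneg_left w3 (by positivity))
  have h10 : R * |s10| ≤ k * E * d15 := prod_le (abs_nonneg _) hR1 r10 (by positivity) (by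
    calc k * d1 * (E * d14) = k * E * (d1 * d14) := by ring
      _ ≤ _ := mul_le_mul_of_nonneg_left w5 (by positivity))
  have up : ∀ {x D : ℝ}, 0 ≤ x → 0 ≤ D → x ≤ D * d12 → |u| * x ≤ k * D * d15 := by
    intro x D hx hD hxD
    refine prod_le hx hu hxD (by positivity) ?_
    calc k * d0 * (D * d12) = k * D * (d0 * d12) := by ring
      _ ≤ _ := mul_le_mul_of_nonneg_left w4 (by positivity)
  have h6' : |u| * (R * |s6|) ≤ k * (k * E) * d15 := up (by positivity) (by positivity) h6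
  have hRR1 : |R * (2 * s6 - 2 * κ * s7 - 2 * κ * u * s4)| ≤ 6 * k ^ 2 * E * d12 := by
    rw [abs_mul, abs_of_nonneg hR]
    have e1 : |2 * s6 - 2 * κ * s7 - 2 * κ * u * s4| ≤ 2 * |s6| + 2 * |s7| + 2 * (|u| * |s4|) := by
      refine (abs_sub _ _).trans (add_le_add ((abs_sub _ _).trans (add_le_add ?_ ?_)) ?_)
      · rw [abs_mul, abs_two]
      · rw [abs_mul, abs_mul, abs_two]
        have := mul_le_mul_of_nonneg_right hκ (abs_nonneg s7)
        linarith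
      · rw [abs_mul, abs_mul, abs_mul, abs_two]
        have := mul_le_mul_of_nonneg_right hκ (show 0 ≤ |u| * |s4| by positivity)
        linarith
    have e2 := mul_le_mul_of_nonneg_left e1 hR
    have e3 : k * E * d12 ≤ k ^ 2 * E * d12 :=
      mul_le_mul_of_nonneg_right (mul_le_mul_of_nonneg_right k2 hE) p12
    have e4 : R * (2 * |s6| + 2 * |s7| + 2 * (|u| * |s4|)) =
        2 * (R * |s6|) + 2 * (R * |s7|) + 2 * (|u| * (R * |s4|)) := by ring
    rw [e4] at e2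
    linarith
  have hu1 : |u * (R * F1')| ≤ k * a * d15 := by
    rw [abs_mul, abs_mul R, abs_of_nonneg hR]
    exact up (by positivity) ha f1'
  have huRR1 : |u * (R * (2 * s6 - 2 * κ * s7 - 2 * κ * u * s4))| ≤
      k * (6 * k ^ 2 * E) * d15 := by
    rw [abs_mul]
    exact up (abs_nonneg _) (by positivity) hRR1
  have hRR2 : |R * (-2 * u * s6 - 2 * κ * s10)| ≤ 4 * k ^ 2 * E * d15 := by
    rw [abs_mul, abs_of_nonneg hR]
    have e1 : |(-2) * u * s6 - 2 * κ * s10| ≤ 2 * (|u| * |s6|) + 2 * |s10| := by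
      refine (abs_sub _ _).trans (add_le_add ?_ ?_)
      · rw [abs_mul, abs_mul, abs_neg, abs_two, mul_assoc]
      · rw [abs_mul, abs_mul, abs_two]
        have := mul_le_mul_of_nonneg_right hκ (abs_nonneg s10)
        linarith
    have e2 := mul_le_mul_of_nonneg_left e1 hR
    have e3 : k * E * d15 ≤ k ^ 2 * E * d15 :=
      mul_le_mul_of_nonneg_right (mul_le_mul_of_nonneg_right k2 hE) p15
    have e4 : R * (2 * (|u| * |s6|) + 2 * |s10|) =
        2 * (|u| * (R * |s6|)) + 2 * (R * |s10|) := by ring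
    rw [e4] at e2
    have e5 : k * (k * E) * d15 = k ^ 2 * E * d15 := by ring
    rw [e5] at h6'
    linarith
  have F1b : |R * F1| ≤ a * d12 := by rw [abs_mul, abs_of_nonneg hR]; exact f1
  have F1b' : |R * F1'| ≤ a * d12 := by rw [abs_mul, abs_of_nonneg hR]; exact f1'
  have F2b : |R * F2| ≤ a * d15 := by rw [abs_mul, abs_of_nonneg hR]; exact f2
  have F2b' : |R * F2'| ≤ a * d15 := by rw [abs_mul, abs_of_nonneg hR]; exact f2'
  -- identities
  have i1 : 2 * (R * (κ * (u * v 4))) = R * F1 + R * F1' -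
      R * (2 * s6 - 2 * κ * s7 - 2 * κ * u * s4) := by
    rw [hF1, hF1', hs6, hs7, hs4]; ring
  have i2 : 2 * (R * (κ * v 10)) = R * F2' + u * (R * F1') - R * (-2 * u * s6 - 2 * κ * s10) -
      u * (R * (2 * s6 - 2 * κ * s7 - 2 * κ * u * s4)) := by
    rw [hF2', hF1', hs6, hs7, hs4, hs10]; ring
  have i3 : 2 * (R * (u * v 6)) = R * F2 + 2 * (R * (κ * v 10)) := by
    rw [hF2]; ring
  have i4 : 2 * (R * (κ * (u * v 7))) = 2 * (R * (u * v 6)) + u * (R * F1') -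
      u * (R * (2 * s6 - 2 * κ * s7 - 2 * κ * u * s4)) := by
    rw [hF1', hs6, hs7, hs4]; ring
  have q12 := mul_nonneg ha p12
  have q15 := mul_nonneg ha p15
  have z12 := mul_nonneg hE p12
  have z15 := mul_nonneg hE p15
  have K1 : a * d12 ≤ k ^ 3 * (a * d12) := le_mul_of_one_le_left q12 (one_le_pow₀ hk)
  have K2 : k ^ 2 * (E * d12) ≤ k ^ 3 * (E * d12) := mul_le_mul_of_nonneg_right k3 z12
  have K3 : a * d15 ≤ k ^ 3 * (a * d15) := le_mul_of_one_le_left q15 (one_le_pow₀ hk)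
  have K4 : k * (a * d15) ≤ k ^ 3 * (a * d15) := mul_le_mul_of_nonneg_right (k2.trans k3) q15
  have K5 : k ^ 2 * (E * d15) ≤ k ^ 3 * (E * d15) := mul_le_mul_of_nonneg_right k3 z15
  have K6 : 0 ≤ k ^ 3 * (E * d12) := by positivity
  have K7 : 0 ≤ k ^ 3 * (E * d15) := by positivity
  have K8 : 0 ≤ k ^ 3 * (a * d12) := by positivity
  have K9 : 0 ≤ k ^ 3 * (a * d15) := by positivity
  have b1 := abs_le.1 F1b
  have b1' := abs_le.1 F1b'
  have b2 := abs_le.1 F2b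
  have b2' := abs_le.1 F2b'
  have b3 := abs_le.1 hRR1
  have b4 := abs_le.1 hRR2
  have b5 := abs_le.1 hu1
  have b6 := abs_le.1 huRR1
  have fin : ∀ {x D : ℝ}, -D ≤ R * x → R * x ≤ D → R * |x| ≤ D := by
    intro x D h1 h2
    have : R * |x| = |R * x| := by rw [abs_mul, abs_of_nonneg hR]
    rw [this, abs_le]
    exact ⟨h1, h2⟩
  have j2 : |2 * (R * (κ * v 10))| ≤ 2 * (k ^ 3 * (a * d15)) + 10 * (k ^ 3 * (E * d15)) := by
    rw [abs_le, i2]; constructor <;> linarith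
  have c2 := abs_le.1 j2
  have j3 : |2 * (R * (u * v 6))| ≤ 3 * (k ^ 3 * (a * d15)) + 10 * (k ^ 3 * (E * d15)) := by
    rw [abs_le, i3]; constructor <;> linarith
  have c3 := abs_le.1 j3
  refine ⟨fin ?_ ?_, fin ?_ ?_, fin ?_ ?_, fin ?_ ?_⟩ <;> linarith

/-- weight 3 -/
theorem det3 {d0 d9 d14 : ℝ} (hk : 1 ≤ k) (hE : 0 ≤ E) (ha : 0 ≤ a) (hR : 0 ≤ R)
    (p0 : 0 ≤ d0) (p9 : 0 ≤ d9) (p14 : 0 ≤ d14) {d1 : ℝ} (p1 : 0 ≤ d1)
    (hR1 : R ≤ k * d1) (hu : |u| ≤ k * d0)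
    (r5 : |v' 5 + tr κ (sh (-u)) v 5| ≤ E * d9)
    (f1 : R * |tr κ (frC κ u 1) (prj 3 v) 10| ≤ a * d14)
    (f1' : R * |tr κ (frC κ (-u) 1) (prj 3 v') 10| ≤ a * d14)
    (w1 : d1 * (d0 * d9) ≤ d14) :
    R * |u * v 5| ≤ 8 * k ^ 3 * (a + E) * d14 ∧
    R * |u ^ 2 * v 2| ≤ 8 * k ^ 3 * (a + E) * d14 := by
  rw [rv5] at r5
  rw [row3b] at f1 f1'
  have k0 : 0 ≤ k := by linarith
  have k2 : k ≤ k ^ 2 := by nlinarith
  have k3 : k ^ 2 ≤ k ^ 3 := by nlinarith [sq_nonneg k]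
  set s5 := v' 5 + (v 5 - u * v 2) with hs5
  have h5' : R * |s5| ≤ k * d1 * (E * d9) := mul_le_mul hR1 r5 (abs_nonneg _) (by positivity)
  have h5 : |u| * (R * |s5|) ≤ k ^ 2 * E * d14 := prod_le (by positivity) hu h5' (by positivity) (by
    calc k * d0 * (k * d1 * (E * d9)) = k ^ 2 * E * (d1 * (d0 * d9)) := by ring
      _ ≤ _ := mul_le_mul_of_nonneg_left w1 (by positivity))
  have F1b : |R * (u * v 5)| ≤ a * d14 := by rw [abs_mul, abs_of_nonneg hR]; exact f1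
  have F1b' : |R * (-u * v' 5)| ≤ a * d14 := by rw [abs_mul, abs_of_nonneg hR]; exact f1'
  have i1 : R * (u ^ 2 * v 2) = R * (u * v 5) - R * (-u * v' 5) - u * (R * s5) := by
    rw [hs5]; ring
  have h6 : |u * (R * s5)| ≤ k ^ 2 * E * d14 := by
    rw [abs_mul, abs_mul, abs_of_nonneg hR]; exact h5
  have q14 := mul_nonneg ha p14
  have z14 := mul_nonneg hE p14
  have K1 : a * d14 ≤ k ^ 3 * (a * d14) := le_mul_of_one_le_left q14 (one_le_pow₀ hk)
  have K2 : k ^ 2 * (E * d14) ≤ k ^ 3 * (E * d14) := mul_le_mul_of_nonneg_right k3 z14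
  have K6 : 0 ≤ k ^ 3 * (E * d14) := by positivity
  have K8 : 0 ≤ k ^ 3 * (a * d14) := by positivity
  have b1 := abs_le.1 F1b
  have b1' := abs_le.1 F1b'
  have b3 := abs_le.1 h6
  have fin : ∀ {x D : ℝ}, -D ≤ R * x → R * x ≤ D → R * |x| ≤ D := by
    intro x D h1 h2
    have : R * |x| = |R * x| := by rw [abs_mul, abs_of_nonneg hR]
    rw [this, abs_le]
    exact ⟨h1, h2⟩
  refine ⟨fin ?_ ?_, fin ?_ ?_⟩ <;> linarith

set_option maxHeartbeats 1000000 in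
/-- weight 4 -/
theorem det4 {d0 d1 d4 d5 d6 d9 : ℝ} (hκ : |κ| ≤ 1) (hk : 1 ≤ k) (hE : 0 ≤ E) (ha : 0 ≤ a)
    (hR : 0 ≤ R) (p0 : 0 ≤ d0) (p1 : 0 ≤ d1) (p4 : 0 ≤ d4) (p5 : 0 ≤ d5) (p6 : 0 ≤ d6)
    (p9 : 0 ≤ d9) (hR1 : R ≤ k * d1) (hu : |u| ≤ k * d0)
    (r0 : |v' 0 + tr κ (sh (-u)) v 0| ≤ E * d4) (r1 : |v' 1 + tr κ (sh (-u)) v 1| ≤ E * d5)
    (f1 : R * |tr κ (frC κ u 1) (prj 4 v) 5| ≤ a * d9)
    (f2 : R * |tr κ (frC κ u 1) (prj 4 v) 2| ≤ a * d6)
    (f2' : R * |tr κ (frC κ (-u) 1) (prj 4 v') 2| ≤ a * d6)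
    (w1 : d1 * d5 ≤ d6) (w2 : d1 * (d0 * d4) ≤ d6) (w3 : d0 * d6 ≤ d9) :
    R * |κ * v 1| ≤ 8 * k ^ 3 * (a + E) * d6 ∧
    R * |κ * (u * v 0)| ≤ 8 * k ^ 3 * (a + E) * d6 ∧
    R * |κ * v 3| ≤ 8 * k ^ 3 * (a + E) * d9 := by
  rw [rv0] at r0
  rw [rv1] at r1
  rw [row4b] at f1
  rw [row4y] at f2 f2'
  have k0 : 0 ≤ k := by linarith
  have k2 : k ≤ k ^ 2 := by nlinarith
  have k3 : k ^ 2 ≤ k ^ 3 := by nlinarith [sq_nonneg k]
  set s0 := v' 0 + v 0 with hs0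
  set s1 := v' 1 + (v 1 - 2 * u * v 0) with hs1
  set F1 := 2 * κ * u * v 1 - 4 * κ * v 3 with hF1
  set F2 := 4 * κ * u * v 0 - 2 * κ * v 1 with hF2
  set F2' := 4 * κ * -u * v' 0 - 2 * κ * v' 1 with hF2'
  have h1 : R * |s1| ≤ k * E * d6 := prod_le (abs_nonneg _) hR1 r1 (by positivity) (by
    calc k * d1 * (E * d5) = k * E * (d1 * d5) := by ring
      _ ≤ _ := mul_le_mul_of_nonneg_left w1 (by positivity))
  have h0' : R * |s0| ≤ k * d1 * (E * d4) := mul_le_mul hR1 r0 (abs_nonneg _) (by positivity)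
  have h0 : |u| * (R * |s0|) ≤ k ^ 2 * E * d6 := prod_le (by positivity) hu h0' (by positivity) (by
    calc k * d0 * (k * d1 * (E * d4)) = k ^ 2 * E * (d1 * (d0 * d4)) := by ring
      _ ≤ _ := mul_le_mul_of_nonneg_left w2 (by positivity))
  have hRR : |R * (4 * κ * u * s0 + 2 * κ * s1)| ≤ 6 * k ^ 2 * E * d6 := by
    rw [abs_mul, abs_of_nonneg hR]
    have e1 : |4 * κ * u * s0 + 2 * κ * s1| ≤ 4 * (|u| * |s0|) + 2 * |s1| := by
      refine (abs_add_le _ _).trans (add_le_add ?_ ?_)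
      · rw [abs_mul, abs_mul, abs_mul, abs_of_pos (by norm_num : (0:ℝ) < 4)]
        have := mul_le_mul_of_nonneg_right hκ (show 0 ≤ |u| * |s0| by positivity)
        linarith
      · rw [abs_mul, abs_mul, abs_two]
        have := mul_le_mul_of_nonneg_right hκ (abs_nonneg s1)
        linarith
    have e2 := mul_le_mul_of_nonneg_left e1 hR
    have e3 : k * E * d6 ≤ k ^ 2 * E * d6 :=
      mul_le_mul_of_nonneg_right (mul_le_mul_of_nonneg_right k2 hE) p6
    have e4 : R * (4 * (|u| * |s0|) + 2 * |s1|) =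
        4 * (|u| * (R * |s0|)) + 2 * (R * |s1|) := by ring
    rw [e4] at e2
    linarith
  have up : ∀ {x D : ℝ}, 0 ≤ x → 0 ≤ D → x ≤ D * d6 → |u| * x ≤ k * D * d9 := by
    intro x D hx hD hxD
    refine prod_le hx hu hxD (by positivity) ?_
    calc k * d0 * (D * d6) = k * D * (d0 * d6) := by ring
      _ ≤ _ := mul_le_mul_of_nonneg_left w3 (by positivity)
  have F1b : |R * F1| ≤ a * d9 := by rw [abs_mul, abs_of_nonneg hR]; exact f1
  have F2b : |R * F2| ≤ a * d6 := by rw [abs_mul, abs_of_nonneg hR]; exact f2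
  have F2b' : |R * F2'| ≤ a * d6 := by rw [abs_mul, abs_of_nonneg hR]; exact f2'
  have hu2 : |u * (R * F2')| ≤ k * a * d9 := by
    rw [abs_mul]; exact up (abs_nonneg _) ha F2b'
  have huRR : |u * (R * (4 * κ * u * s0 + 2 * κ * s1))| ≤ k * (6 * k ^ 2 * E) * d9 := by
    rw [abs_mul]; exact up (abs_nonneg _) (by positivity) hRR
  have i1 : 2 * (R * (κ * v 1)) = R * F2' + R * (4 * κ * u * s0 + 2 * κ * s1) := by
    rw [hF2', hs0, hs1]; ring
  have i2 : 4 * (R * (κ * (u * v 0))) = R * F2 + 2 * (R * (κ * v 1)) := by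
    rw [hF2]; ring
  have i3 : 4 * (R * (κ * v 3)) = u * (R * F2') + u * (R * (4 * κ * u * s0 + 2 * κ * s1)) -
      R * F1 := by
    rw [hF1, hF2', hs0, hs1]; ring
  have q6 := mul_nonneg ha p6
  have q9 := mul_nonneg ha p9
  have z6 := mul_nonneg hE p6
  have z9 := mul_nonneg hE p9
  have K1 : a * d6 ≤ k ^ 3 * (a * d6) := le_mul_of_one_le_left q6 (one_le_pow₀ hk)
  have K2 : k ^ 2 * (E * d6) ≤ k ^ 3 * (E * d6) := mul_le_mul_of_nonneg_right k3 z6
  have K3 : a * d9 ≤ k ^ 3 * (a * d9) := le_mul_of_one_le_left q9 (one_le_pow₀ hk)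
  have K4 : k * (a * d9) ≤ k ^ 3 * (a * d9) := mul_le_mul_of_nonneg_right (k2.trans k3) q9
  have K6 : 0 ≤ k ^ 3 * (E * d6) := by positivity
  have K7 : 0 ≤ k ^ 3 * (E * d9) := by positivity
  have K8 : 0 ≤ k ^ 3 * (a * d6) := by positivity
  have K9 : 0 ≤ k ^ 3 * (a * d9) := by positivity
  have b1 := abs_le.1 F1b
  have b2 := abs_le.1 F2b
  have b2' := abs_le.1 F2b'
  have b3 := abs_le.1 hRR
  have b4 := abs_le.1 hu2
  have b5 := abs_le.1 huRR
  have fin : ∀ {x D : ℝ}, -D ≤ R * x → R * x ≤ D → R * |x| ≤ D := by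
    intro x D h1 h2
    have : R * |x| = |R * x| := by rw [abs_mul, abs_of_nonneg hR]
    rw [this, abs_le]
    exact ⟨h1, h2⟩
  refine ⟨fin ?_ ?_, fin ?_ ?_, fin ?_ ?_⟩ <;> linarith

end real

end Crest.Agent.R136.Vw848
end

-- ▼ part R136/Vw5_848
section

/-!
# R136: row (ii) of 5b (weights 2, 3, 4), part d: the twist (helper848)

* `own_revG` : own motion of the reversed pair, raw form, all slots.
* `Gen w s α hd` : the table: own slot `s` of weight `w`, seen in the slot `hd` with `u ^ α`.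
* `seenA w, seenB w` : the two seen slots; `phiM` : the larger multiplier.
* `det_cfg` : one of the two orders of a pair of heights is good.
* `twC` : raw twist of `phiM` from the visibility of one own slot of weight `w`.
-/

set_option autoImplicit false
set_option linter.unusedSectionVars false
set_option linter.unusedVariables false

open Filter Topology

namespace Crest.Agent.R136.Vw848

open Finset Crest.Agent.R136.NetW191 Crest.Agent.R136.Net191 Crest.Agent.R136.Qg926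
open Crest.Agent.R136.EvW938
open Crest.Agent.R138.Ex926 (Base U)
open Crest.Agent.R136.Gf356
open Crest.Agent.R136.TrI938

variable {ι : ℕ → Type*} [∀ n, DecidableEq (ι n)] {W : Wnd 18 ι} {κ : ℕ → ℝ}
  {lam : ℕ → Fin 18 → ℝ} {f : ∀ n, ι n → FW}

/-- seen slots (14-index) -/
def seenA (w : ℕ) : Fin 14 := if w = 2 then 8 else if w = 3 then 10 else 5
/-- seen slots (14-index) -/
def seenB (w : ℕ) : Fin 14 := if w = 2 then 11 else if w = 3 then 10 else 2

/-- **the table**: own slot `s` of weight `w`, power `α` of `u`, seen in the slot `hd` -/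
def Gen (w : ℕ) (s : Fin 14) (α : ℕ) (hd : Fin 14) : Prop :=
  (w, s, α, hd) ∈ ([(2, 4, 1, 8), (2, 10, 0, 11), (2, 6, 1, 11), (2, 7, 1, 11), (3, 5, 1, 10),
    (3, 2, 2, 10), (4, 1, 0, 2), (4, 0, 1, 2), (4, 3, 0, 5)] : List (ℕ × Fin 14 × ℕ × Fin 14))

instance (w : ℕ) (s : Fin 14) (α : ℕ) (hd : Fin 14) : Decidable (Gen w s α hd) := by
  unfold Gen; infer_instance

/-- the larger of the two multipliers -/
noncomputable def phiM (W : Wnd 18 ι) (κ : ℕ → ℝ) (lam : ℕ → Fin 18 → ℝ) (w n i k k' : ℕ) : ℝ :=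
  max |phiC W κ lam w n i k k' (seenA w)| |phiC W κ lam w n i k k' (seenB w)|

/-- own motion of the reversed pair, raw form -/
theorem own_revG (h : WWnd W κ lam f) {n : ℕ} (g : W.Good n) {E : Finset (ι n)}
    (hE : E ⊆ W.Cl n) {i k k' : ℕ}
    (hi : (i, k) ∈ (W.cfg0 n E).I) (hi' : (i, k') ∈ (W.cfg0 n E).I) {t : ℝ}
    (ht : ∀ s, t ≤ W.top s) :
    (un W lam n 0 * ownC W n i k' k 0 = -(un W lam n 0 * ownC W n i k k' 0)) ∧
    ∀ q, |ownR W lam n i k' k q +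
      tr (κ n) (sh (-(un W lam n 0 * ownC W n i k k' 0))) (ownR W lam n i k k') q| ≤
      470 * W.K0 ^ 7 * W.B'.d n ^ t * sd W lam n (Fin.natAdd 4 q) := by
  obtain ⟨a1, a2, a3⟩ := Wnd.rep_of_mem hE hi
  obtain ⟨b1, b2, b3⟩ := Wnd.rep_of_mem hE hi'
  have hlc := a2.trans b2.symm
  have e : ∀ s, un W lam n s * ownC W n i k k' s =
      coW (κ n) (f n (W.rep n i k)) (f n (W.rep n i k')) s := fun s => (h.crd_eq g a1 b1 s).symm
  have e' : ∀ s, un W lam n s * ownC W n i k' k s =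
      coW (κ n) (f n (W.rep n i k')) (f n (W.rep n i k)) s := fun s => (h.crd_eq g b1 a1 s).symm
  have h0 : coW (κ n) (f n (W.rep n i k')) (f n (W.rep n i k)) 0 =
      -coW (κ n) (f n (W.rep n i k)) (f n (W.rep n i k')) 0 := by
    have c1 : ∀ x y : FW, coW (κ n) x y 0 = y.g 0 - x.g 0 := fun x y => rfl
    rw [c1, c1]; ring
  have hs := fun s hs => h.own_small g b1 a1 hlc.symm (s := s) hs (ht s)
  refine ⟨by rw [e, e', h0], fun q => ?_⟩
  have r := rev_gen (h.hκ n) (h.sides g) h.ok.K0_one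
    (Real.rpow_nonneg (W.B'.pos n).le t)
    (flag_rev (κ n) (f n (W.rep n i k)) (f n (W.rep n i k'))) h0 (h.bnd g a1 b1) (h.bnd g b1 a1)
    (hs 1 h.n1) (hs 2 h.n2) (hs 3 h.n3) q
  have e1 : ownR W lam n i k' k q =
      coW (κ n) (f n (W.rep n i k')) (f n (W.rep n i k)) (Fin.natAdd 4 q) := e' _
  have e2 : ownR W lam n i k k' =
      flg (coW (κ n) (f n (W.rep n i k)) (f n (W.rep n i k'))) := by
    funext q; exact e _
  rw [e1, e2, e 0]
  exact r

/-- constant of `det_cfg` -/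
noncomputable def CG (W : Wnd 18 ι) : ℝ := 8 * W.K2 ^ 3 * (W.K2 + 470 * W.K0 ^ 7)

theorem CG_pos (h : WWnd W κ lam f) : 0 < CG W := by
  have := h.ok.K0_one
  have := Wnd.K2_one h.ok
  unfold CG; positivity

/-- **one of the two orders of a pair of heights is good** -/
theorem det_cfg (h : WWnd W κ lam f) {n : ℕ} (g : W.Good n) {E : Finset (ι n)}
    (hE : E ⊆ W.Cl n) {i k k' : ℕ}
    (hi : (i, k) ∈ (W.cfg0 n E).I) (hi' : (i, k') ∈ (W.cfg0 n E).I) {t : ℝ}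
    (ht : ∀ s, t ≤ W.top s) {w : ℕ} {s : Fin 14} {α : ℕ} {hd : Fin 14} (hg : Gen w s α hd) :
    un W lam n 1 * (|κ n| * (|un W lam n 0 * ownC W n i k k' 0| ^ α *
      |un W lam n (Fin.natAdd 4 s) * ownC W n i k k' (Fin.natAdd 4 s)|)) ≤
      CG W * (max (phiM W κ lam w n i k k') (phiM W κ lam w n i k' k) + W.B'.d n ^ t) *
        sd W lam n (Fin.natAdd 4 hd) := by
  obtain ⟨e0, rv⟩ := own_revG h g hE hi hi' ht
  have hK0 := h.ok.K0_one
  have hK2 := Wnd.K2_one h.ok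
  have hK20 : 0 ≤ W.K2 := by linarith
  have hκ := h.hκ n
  have hX := h.sides g
  set u := un W lam n 0 * ownC W n i k k' 0 with hu
  set v := ownR W lam n i k k' with hv
  set v' := ownR W lam n i k' k with hv'
  set M := max (phiM W κ lam w n i k k') (phiM W κ lam w n i k' k) with hM
  set τ := W.B'.d n ^ t with hτ
  have τ0 : 0 ≤ τ := (Real.rpow_pos_of_pos (W.B'.pos n) _).le
  have M0 : 0 ≤ M := ((abs_nonneg _).trans (le_max_left _ _)).trans (le_max_left _ _)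
  have sp : ∀ s, 0 ≤ sd W lam n s := fun s => (h.sd_pos n s).le
  have hR : 0 ≤ un W lam n 1 := (h.un_pos n 1).le
  have hR1 : un W lam n 1 ≤ W.K2 * sd W lam n 1 :=
    mul_le_mul_of_nonneg_right (Wnd.kap_le_K2 h.ok 1) (sp 1)
  have hu0 : |u| ≤ W.K2 * sd W lam n 0 := h.raw_K0 (h.own_le g hE hi hi' 0)
  have E0 : 0 ≤ 470 * W.K0 ^ 7 * τ := by positivity
  have a0 : 0 ≤ W.K2 * M := mul_nonneg hK20 M0
  -- the seen slots
  have seen : ∀ q : Fin 14, (q = seenA w ∨ q = seenB w) →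
      un W lam n 1 * |tr (κ n) (frC (κ n) u 1) (prj w v) q| ≤
        W.K2 * M * sd W lam n (Fin.natAdd 4 q) ∧
      un W lam n 1 * |tr (κ n) (frC (κ n) (-u) 1) (prj w v') q| ≤
        W.K2 * M * sd W lam n (Fin.natAdd 4 q) := by
    intro q hq
    have key : ∀ (a b : ℕ) (uu : ℝ) (vv : Fin 14 → ℝ), un W lam n 0 * ownC W n i a b 0 = uu →
        ownR W lam n i a b = vv → |phiC W κ lam w n i a b q| ≤ M →
        un W lam n 1 * |tr (κ n) (frC (κ n) uu 1) (prj w vv) q| ≤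
          W.K2 * M * sd W lam n (Fin.natAdd 4 q) := by
      intro a b uu vv h1 h2 h3
      unfold phiC at h3
      rw [h1, h2, abs_div, abs_neg, abs_mul, abs_of_nonneg hR,
        abs_of_pos (h.un_pos n (Fin.natAdd 4 q)), div_le_iff₀ (h.un_pos n _)] at h3
      refine h3.trans ?_
      have h5 : un W lam n (Fin.natAdd 4 q) ≤ W.K2 * sd W lam n (Fin.natAdd 4 q) :=
        mul_le_mul_of_nonneg_right (Wnd.kap_le_K2 h.ok _) (sp _)
      calc M * un W lam n (Fin.natAdd 4 q) ≤ M * (W.K2 * sd W lam n (Fin.natAdd 4 q)) :=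
            mul_le_mul_of_nonneg_left h5 M0
        _ = _ := by ring
    have hle : ∀ a b : ℕ, |phiC W κ lam w n i a b q| ≤ phiM W κ lam w n i a b := by
      intro a b
      rcases hq with rfl | rfl
      · exact le_max_left _ _
      · exact le_max_right _ _
    exact ⟨key k k' u v rfl rfl ((hle k k').trans (le_max_left _ _)),
      key k' k (-u) v' e0 rfl ((hle k' k).trans (le_max_right _ _))⟩
  have wl : ∀ {q : Fin 18} {l : List (Fin 18)}, l ∈ mlW q →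
      (l.map (sd W lam n)).prod ≤ sd W lam n q := fun {q l} hl => hX.wall q l hl
  have fin : ∀ {x D : ℝ}, 8 * W.K2 ^ 3 * (W.K2 * M + 470 * W.K0 ^ 7 * τ) * D = x → 0 ≤ D →
      x ≤ CG W * (M + τ) * D := by
    rintro x D rfl hD
    refine mul_le_mul_of_nonneg_right ?_ hD
    unfold CG
    rw [mul_assoc (8 * W.K2 ^ 3)]
    refine mul_le_mul_of_nonneg_left ?_ (by positivity)
    have := mul_nonneg (show 0 ≤ 470 * W.K0 ^ 7 by positivity) M0
    have := mul_nonneg hK20 τ0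
    nlinarith
  have rr : ∀ q : Fin 14, |v' q + tr (κ n) (sh (-u)) v q| ≤
      470 * W.K0 ^ 7 * τ * sd W lam n (Fin.natAdd 4 q) := rv
  unfold Gen at hg
  simp only [List.mem_cons, Prod.mk.injEq, List.not_mem_nil, or_false] at hg
  -- weight 2
  have D2 : w = 2 → _ := fun hw => by
    subst hw
    obtain ⟨f1, f1'⟩ := seen 8 (Or.inl rfl)
    obtain ⟨f2, f2'⟩ := seen 11 (Or.inr rfl)
    have w1 := wl (q := 12) (l := [1, 10]) (by decide)
    have w2 := wl (q := 12) (l := [1, 11]) (by decide)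
    have w3 := wl (q := 12) (l := [2, 8]) (by decide)
    have w3' := wl (q := 2) (l := [1, 0]) (by decide)
    have w4 := wl (q := 15) (l := [0, 12]) (by decide)
    have w5 := wl (q := 15) (l := [1, 14]) (by decide)
    simp only [List.map_cons, List.map_nil, List.prod_cons, List.prod_nil, mul_one] at w1 w2 w3 w3' w4 w5
    have w3'' : sd W lam n 1 * (sd W lam n 0 * sd W lam n 8) ≤ sd W lam n 12 := by
      calc _ = sd W lam n 1 * sd W lam n 0 * sd W lam n 8 := by ring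
        _ ≤ sd W lam n 2 * sd W lam n 8 := mul_le_mul_of_nonneg_right w3' (sp 8)
        _ ≤ _ := w3
    exact det2 (v := v) (v' := v') hκ hK2 E0 a0 hR (sp 0) (sp 1) (sp 8) (sp 10) (sp 11) (sp 12)
      (sp 14) (sp 15) hR1 hu0 (rr 4) (rr 6) (rr 7) (rr 10) f1 f1' f2 f2' w1 w2 w3'' w4 w5
  have D3 : w = 3 → _ := fun hw => by
    subst hw
    obtain ⟨f1, f1'⟩ := seen 10 (Or.inl rfl)
    have w3 := wl (q := 14) (l := [2, 9]) (by decide)
    have w3' := wl (q := 2) (l := [1, 0]) (by decide)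
    simp only [List.map_cons, List.map_nil, List.prod_cons, List.prod_nil, mul_one] at w3 w3'
    have w3'' : sd W lam n 1 * (sd W lam n 0 * sd W lam n 9) ≤ sd W lam n 14 := by
      calc _ = sd W lam n 1 * sd W lam n 0 * sd W lam n 9 := by ring
        _ ≤ sd W lam n 2 * sd W lam n 9 := mul_le_mul_of_nonneg_right w3' (sp 9)
        _ ≤ _ := w3
    exact det3 (v := v) (v' := v') (d0 := sd W lam n 0) hK2 E0 a0 hR (sp 0) (sp 9) (sp 14) (sp 1)
      hR1 hu0 (rr 5) f1 f1' w3''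
  have D4 : w = 4 → _ := fun hw => by
    subst hw
    obtain ⟨f1, f1'⟩ := seen 5 (Or.inl rfl)
    obtain ⟨f2, f2'⟩ := seen 2 (Or.inr rfl)
    have w1 := wl (q := 6) (l := [1, 5]) (by decide)
    have w2 := wl (q := 6) (l := [2, 4]) (by decide)
    have w2' := wl (q := 2) (l := [1, 0]) (by decide)
    have w3 := wl (q := 9) (l := [0, 6]) (by decide)
    simp only [List.map_cons, List.map_nil, List.prod_cons, List.prod_nil, mul_one] at w1 w2 w2' w3
    have w2'' : sd W lam n 1 * (sd W lam n 0 * sd W lam n 4) ≤ sd W lam n 6 := by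
      calc _ = sd W lam n 1 * sd W lam n 0 * sd W lam n 4 := by ring
        _ ≤ sd W lam n 2 * sd W lam n 4 := mul_le_mul_of_nonneg_right w2' (sp 4)
        _ ≤ _ := w2
    exact det4 (v := v) (v' := v') hκ hK2 E0 a0 hR (sp 0) (sp 1) (sp 4) (sp 5) (sp 6) (sp 9)
      hR1 hu0 (rr 0) (rr 1) f1 f2 f2' w1 w2'' w3
  have eqv : ∀ q : Fin 14, un W lam n (Fin.natAdd 4 q) * ownC W n i k k' (Fin.natAdd 4 q) = v q :=
    fun q => rfl
  rcases hg with ⟨rfl, rfl, rfl, rfl⟩ | ⟨rfl, rfl, rfl, rfl⟩ | ⟨rfl, rfl, rfl, rfl⟩ |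
    ⟨rfl, rfl, rfl, rfl⟩ | ⟨rfl, rfl, rfl, rfl⟩ | ⟨rfl, rfl, rfl, rfl⟩ | ⟨rfl, rfl, rfl, rfl⟩ |
    ⟨rfl, rfl, rfl, rfl⟩ | ⟨rfl, rfl, rfl, rfl⟩
  · have := (D2 rfl).1
    rw [abs_mul, abs_mul] at this
    rw [pow_one, eqv]
    exact this.trans (fin rfl (sp _))
  · have := (D2 rfl).2.1
    rw [abs_mul] at this
    rw [pow_zero, one_mul, eqv]
    exact this.trans (fin rfl (sp _))
  · have h1 := (D2 rfl).2.2.1
    rw [abs_mul] at h1
    rw [pow_one, eqv]
    refine le_trans ?_ (h1.trans (fin rfl (sp _)))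
    refine mul_le_mul_of_nonneg_left ?_ hR
    exact mul_le_of_le_one_left (by positivity) hκ
  · have := (D2 rfl).2.2.2
    rw [abs_mul, abs_mul] at this
    rw [pow_one, eqv]
    exact this.trans (fin rfl (sp _))
  · have h1 := (D3 rfl).1
    rw [abs_mul] at h1
    rw [pow_one, eqv]
    refine le_trans ?_ (h1.trans (fin rfl (sp _)))
    refine mul_le_mul_of_nonneg_left ?_ hR
    exact mul_le_of_le_one_left (by positivity) hκ
  · have h1 := (D3 rfl).2
    rw [abs_mul, abs_pow] at h1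
    rw [eqv]
    refine le_trans ?_ (h1.trans (fin rfl (sp _)))
    refine mul_le_mul_of_nonneg_left ?_ hR
    exact mul_le_of_le_one_left (by positivity) hκ
  · have := (D4 rfl).1
    rw [abs_mul] at this
    rw [pow_zero, one_mul, eqv]
    exact this.trans (fin rfl (sp _))
  · have := (D4 rfl).2.1
    rw [abs_mul, abs_mul] at this
    rw [pow_one, eqv]
    exact this.trans (fin rfl (sp _))
  · have := (D4 rfl).2.2
    rw [abs_mul] at this
    rw [pow_zero, one_mul, eqv]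
    exact this.trans (fin rfl (sp _))

/-- **raw twist of `phiM`** from the visibility of one own slot `s` of weight `w` -/
theorem twC (h : WWnd W κ lam f) {E : ∀ n, Finset (ι n)} (hE : EvG W E)
    {t : ℝ} (ht0 : 0 < t) (ht : ∀ s, t ≤ W.top s) {w : ℕ} {s : Fin 14} {α : ℕ} {hd : Fin 14}
    (hg : Gen w s α hd)
    (hkp : ∀ ε : ℝ, 0 < ε → ∀ᶠ n in (U : Filter ℕ), W.B'.d n ^ ε ≤ |κ n|)
    {c : ℝ} (hc : 0 < c) (hcf : ∀ᶠ n in (U : Filter ℕ), c * sd W lam n (Fin.natAdd 4 hd) ≤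
      un W lam n 1 * (un W lam n 0 ^ α * un W lam n (Fin.natAdd 4 s)))
    (hvis : ∀ ε : ℝ, 0 < ε → ∀ᶠ n in (U : Filter ℕ), ∀ i ∈ (W.cfg E n).L,
      ∃ T ⊆ ((W.cfg E n).hts i) ×ˢ ((W.cfg E n).hts i), (∀ q ∈ T,
        W.B'.d n ^ ε < |ownC W n i q.1 q.2 0| ∧
        W.B'.d n ^ ε < |ownC W n i q.1 q.2 (Fin.natAdd 4 s)|) ∧
      W.B'.d n ^ ε * (((W.cfg E n).hts i).card : ℝ) ^ 2 ≤ (T.card : ℝ)) :
    RawTwI W.B' (W.cfg E) (fun n i k k' =>
      max |phiC W κ lam w n i k k' (seenA w)| |phiC W κ lam w n i k k' (seenB w)|) := by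
  classical
  intro ε' hε'
  set N : ℝ := (α : ℝ) + 5 with hN
  have hN5 : 5 ≤ N := by rw [hN]; have : (0 : ℝ) ≤ α := Nat.cast_nonneg _; linarith
  have hN0 : 0 < N := by linarith
  set ε := min ε' (t / 2) / N with hεdef
  have hmin : 0 < min ε' (t / 2) := lt_min hε' (by linarith)
  have hε : 0 < ε := by positivity
  have hNε : N * ε = min ε' (t / 2) := by rw [hεdef]; field_simp
  have hε1 : N * ε ≤ ε' := by rw [hNε]; exact min_le_left _ _
  have hε2 : N * ε ≤ t / 2 := by rw [hNε]; exact min_le_right _ _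
  have hCG := CG_pos h
  filter_upwards [hE, hvis ε hε, hkp ε hε, hcf, ev_const_le W.B' hε (2 * (CG W / c) + 2)]
    with n hn hvn hkn hcn h2n
  obtain ⟨g, hsub, heq⟩ := hn
  rw [heq] at hvn ⊢
  intro i hi
  obtain ⟨T, hT1, hT2, hT3⟩ := hvn i hi
  have hpos : ∀ t : ℝ, 0 < W.B'.d n ^ t := fun t => Real.rpow_pos_of_pos (W.B'.pos n) _
  have anti : ∀ {s t : ℝ}, s ≤ t → W.B'.d n ^ t ≤ W.B'.d n ^ s := fun hst =>
    Real.rpow_le_rpow_of_exponent_ge (W.B'.pos n) (W.B'.lt n).le hst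
  have radd : ∀ s t : ℝ, W.B'.d n ^ s * W.B'.d n ^ t = W.B'.d n ^ (s + t) := fun s t =>
    (Real.rpow_add (W.B'.pos n) s t).symm
  have hCc : 0 < CG W / c := div_pos hCG hc
  have hc1 : (2 * (CG W / c) + 2) * W.B'.d n ^ ε ≤ 1 := by
    have := mul_le_mul_of_nonneg_right h2n (hpos ε).le
    rwa [radd, neg_add_cancel, Real.rpow_zero] at this
  have hρε : W.B'.d n ^ ε ≤ 1 / 2 := by nlinarith [hpos ε, mul_nonneg hCc.le (hpos ε).le]
  have hcρ : 2 * (CG W * W.B'.d n ^ ε) ≤ c := by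
    have h1 : 2 * (CG W / c) * W.B'.d n ^ ε ≤ 1 := by nlinarith [hpos ε]
    have h2 := mul_le_mul_of_nonneg_left h1 hc.le
    have e : c * (2 * (CG W / c) * W.B'.d n ^ ε) = 2 * (CG W * W.B'.d n ^ ε) := by
      field_simp
    rw [e] at h2
    linarith
  have half : ∀ x : ℝ, 2 * W.B'.d n ^ (x + ε) ≤ W.B'.d n ^ x := by
    intro x
    rw [← radd]
    have := mul_le_mul_of_nonneg_left hρε (hpos x).le
    linarith
  have key : ∀ q ∈ T, W.B'.d n ^ ε' < |phiM W κ lam w n i q.1 q.2| ∨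
      W.B'.d n ^ ε' < |phiM W κ lam w n i q.swap.1 q.swap.2| := by
    intro q hq
    have hqm := Finset.mem_product.1 (hT1 hq)
    have hI1 : (i, q.1) ∈ (W.cfg0 n (E n)).I := (RCfg.mem_hts.1 hqm.1).2
    have hI2 : (i, q.2) ∈ (W.cfg0 n (E n)).I := (RCfg.mem_hts.1 hqm.2).2
    have hd' := det_cfg h g hsub hI1 hI2 ht hg
    obtain ⟨v1, v2⟩ := hT2 q hq
    set M := max (phiM W κ lam w n i q.1 q.2) (phiM W κ lam w n i q.2 q.1) with hM
    have hsd := h.sd_pos n (Fin.natAdd 4 hd)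
    have e1 : un W lam n 1 * (|κ n| * (|un W lam n 0 * ownC W n i q.1 q.2 0| ^ α *
        |un W lam n (Fin.natAdd 4 s) * ownC W n i q.1 q.2 (Fin.natAdd 4 s)|)) =
        (un W lam n 1 * (un W lam n 0 ^ α * un W lam n (Fin.natAdd 4 s))) *
        (|κ n| * (|ownC W n i q.1 q.2 0| ^ α * |ownC W n i q.1 q.2 (Fin.natAdd 4 s)|)) := by
      rw [abs_mul, abs_mul, abs_of_pos (h.un_pos n 0), abs_of_pos (h.un_pos n _), mul_pow]
      ring
    rw [e1] at hd'
    have hlow : W.B'.d n ^ (((α : ℝ) + 2) * ε) ≤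
        |κ n| * (|ownC W n i q.1 q.2 0| ^ α * |ownC W n i q.1 q.2 (Fin.natAdd 4 s)|) := by
      have e2 : W.B'.d n ^ (((α : ℝ) + 2) * ε) =
          W.B'.d n ^ ε * ((W.B'.d n ^ ε) ^ α * W.B'.d n ^ ε) := by
        rw [← Real.rpow_natCast, ← Real.rpow_mul (W.B'.pos n).le, radd, radd]
        congr 1; ring
      rw [e2]
      refine mul_le_mul hkn ?_ (by have := hpos ε; positivity) (abs_nonneg _)
      exact mul_le_mul (pow_le_pow_left₀ (hpos ε).le v1.le α) v2.le (hpos ε).le (by positivity)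
    have h3 : c * W.B'.d n ^ (((α : ℝ) + 2) * ε) * sd W lam n (Fin.natAdd 4 hd) ≤
        CG W * (M + W.B'.d n ^ t) * sd W lam n (Fin.natAdd 4 hd) := by
      calc c * W.B'.d n ^ (((α : ℝ) + 2) * ε) * sd W lam n (Fin.natAdd 4 hd) =
          (c * sd W lam n (Fin.natAdd 4 hd)) * W.B'.d n ^ (((α : ℝ) + 2) * ε) := by ring
        _ ≤ _ := mul_le_mul hcn hlow (hpos _).le (le_trans (by positivity) hcn)
        _ ≤ _ := hd'
    have h4 : c * W.B'.d n ^ (((α : ℝ) + 2) * ε) ≤ CG W * (M + W.B'.d n ^ t) :=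
      le_of_mul_le_mul_right h3 hsd
    have h5 : 2 * W.B'.d n ^ (((α : ℝ) + 3) * ε) ≤ M + W.B'.d n ^ t := by
      have h6 : CG W * (2 * W.B'.d n ^ (((α : ℝ) + 3) * ε)) ≤
          c * W.B'.d n ^ (((α : ℝ) + 2) * ε) := by
        have e3 : W.B'.d n ^ (((α : ℝ) + 3) * ε) =
            W.B'.d n ^ ε * W.B'.d n ^ (((α : ℝ) + 2) * ε) := by rw [radd]; congr 1; ring
        rw [e3]
        calc CG W * (2 * (W.B'.d n ^ ε * W.B'.d n ^ (((α : ℝ) + 2) * ε))) =
            (2 * (CG W * W.B'.d n ^ ε)) * W.B'.d n ^ (((α : ℝ) + 2) * ε) := by ring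
          _ ≤ _ := mul_le_mul_of_nonneg_right hcρ (hpos _).le
      exact le_of_mul_le_mul_left (h6.trans h4) hCG
    have hα : (0 : ℝ) ≤ α := Nat.cast_nonneg _
    have h6 : 2 * W.B'.d n ^ t ≤ W.B'.d n ^ (((α : ℝ) + 3) * ε) :=
      (mul_le_mul_of_nonneg_left (anti (by rw [hN] at hε2; nlinarith)) (by norm_num)).trans
        (half _)
    have h7 : 2 * W.B'.d n ^ ε' ≤ W.B'.d n ^ (((α : ℝ) + 3) * ε) :=
      (mul_le_mul_of_nonneg_left (anti (by rw [hN] at hε1; nlinarith)) (by norm_num)).trans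
        (half _)
    have h8 : W.B'.d n ^ ε' < M := by
      have := hpos ε'
      have := hpos t
      linarith
    rcases lt_max_iff.1 h8 with h9 | h9
    · exact Or.inl (h9.trans_le (le_abs_self _))
    · exact Or.inr (h9.trans_le (le_abs_self _))
  have hbig : 2 * (W.B'.d n ^ ε' * (((W.cfg0 n (E n)).hts i).card : ℝ) ^ 2) ≤ (T.card : ℝ) := by
    have e1 : 2 * W.B'.d n ^ ε' ≤ W.B'.d n ^ ε :=
      (mul_le_mul_of_nonneg_left (anti (by nlinarith)) (by norm_num)).trans (half _)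
    have e2 := mul_le_mul_of_nonneg_right e1
      (sq_nonneg (((W.cfg0 n (E n)).hts i).card : ℝ))
    linarith
  exact swap_part hT1 (fun q => W.B'.d n ^ ε' < |phiM W κ lam w n i q.1 q.2|) key hbig

end Crest.Agent.R136.Vw848
end

-- ▼ part R136/Vw6_848
section

/-!
# R136 (helper848): row (ii) of 5b, part e: the data of the windows of the row `deadhi2`

* `FL w` : flags of weight `≥ w`, `ZW w` : of weight `w`, `bW` : offset, `eW` : direction of the
  offset, `mT, mR` : boxes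
* `hcf_of` : the scale condition of `twC` from the tight walls
* `tied_max` : a tied slot of maximal `z`-weight
* groups on the rung `s = 1 - θ 0 + w θ 1`
-/

set_option autoImplicit false
set_option linter.unusedSectionVars false
set_option linter.unusedVariables false

open Filter Topology

namespace Crest.Agent.R136.Vw848

open Finset Crest.Agent.R136.NetW191 Crest.Agent.R136.Net191 Crest.Agent.R136.Qg926
open Crest.Agent.R136.EvW938 Crest.Agent.R136.RowW619 Crest.Agent.R136.Lf400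
open Crest.Agent.R136.TrI938 Crest.Agent.R136.Bas938
open Crest.Agent.R136.LadW697 Crest.Agent.R136.NatW697 Crest.Agent.R136.PrW464
open Crest.Agent.R136.Dg219
open Crest.Agent.R136.AwJ774
open Crest.Agent.R136.ThB830 (PtC)
open Crest.Agent.R136.P0830 (ptB_of basG_of)
open Crest.Agent.R136.Aw413
open Crest.Agent.R138.Ex926 (Base U)
open Crest.Agent.R136.Gf356
open Crest.Agent.R136.RowI938 (n1 nP okV_lin wdat_lin mem_lin sum_lin)

/-- flags of weight `≥ w` -/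
def FL (w : ℕ) : Finset (Fin 18) :=
  if w = 2 then {4, 5, 6, 7, 8, 9, 10, 11, 14} else if w = 3 then {4, 5, 6, 7, 9} else {4, 5, 7}

/-- flags of weight `w` -/
def ZW (w : ℕ) : Finset (Fin 18) :=
  if w = 2 then {8, 10, 11, 14} else if w = 3 then {6, 9} else {4, 5, 7}

/-- flags of the weight of `v` above `v` -/
def upF (v : Fin 18) : Finset (Fin 18) :=
  if v = 10 ∨ v = 11 then {8} else if v = 14 then {8, 11} else if v = 9 then {6} else
    if v = 5 then {4} else if v = 7 then {4, 5} else ∅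

/-- offset -/
def bW (w : ℕ) (v : Fin 18) : Fin 18 → ℕ := fun k =>
  if k ∈ FL w \ ZW w then 2 else if k ∈ upF v then 1 else 0

/-- low slots which are shifted with `c` -/
def lowE (w : ℕ) : Finset (Fin 18) :=
  if w = 2 then {1, 2, 3, 12, 15} else if w = 3 then {1, 2, 3, 8, 11, 14} else {1, 2, 3, 6, 9}

/-- direction of the offset -/
def eW (w : ℕ) : Fin 18 → ℕ := fun k => if k ∈ lowE w then 1 else 0

/-- the flags of weight `≥ w` narrow -/
def mT (w : ℕ) : Fin 18 → ℕ := fun k => if k ∈ FL w then 1 else 0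
/-- the flags of weight `≥ w` and the seen slots narrow -/
def mR (w : ℕ) : Fin 18 → ℕ := fun k => if k ∈ FL w ∨ k = Fin.natAdd 4 (seenA w) ∨
  k = Fin.natAdd 4 (seenB w) then 1 else 0
/-- `z` narrow -/
def wz1 (n : Fin 18 → ℕ) : Fin 18 → ℕ := fun k => if k = 0 then 1 else n k


theorem eW_nat2 : ∀ k, ∀ l ∈ mlW k, eW 2 k ≤ (l.map (eW 2)).sum := by decide
theorem eW_nat3 : ∀ k, ∀ l ∈ mlW k, eW 3 k ≤ (l.map (eW 3)).sum := by decide
theorem eW_nat4 : ∀ k, ∀ l ∈ mlW k, eW 4 k ≤ (l.map (eW 4)).sum := by decide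

/-- static facts about an offset -/
structure BOk (w : ℕ) (v : Fin 18) : Prop where
  p : OkV (bW w v) 1 nP
  t : OkV (bW w v) 1 (wz1 (mT w))
  r : OkV (bW w v) 1 (wz1 (mR w))

instance (w : ℕ) (v : Fin 18) : Decidable (BOk w v) :=
  decidable_of_iff (OkV (bW w v) 1 nP ∧ OkV (bW w v) 1 (wz1 (mT w)) ∧ OkV (bW w v) 1 (wz1 (mR w)))
    ⟨fun ⟨a, b, c⟩ => ⟨a, b, c⟩, fun ⟨a, b, c⟩ => ⟨a, b, c⟩⟩

theorem bok2 : ∀ v ∈ ({8, 10, 11, 14} : Finset (Fin 18)), BOk 2 v := by decide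
theorem bok3 : ∀ v ∈ ({6, 9} : Finset (Fin 18)), BOk 3 v := by decide
theorem bok4 : ∀ v ∈ ({4, 5, 7} : Finset (Fin 18)), BOk 4 v := by decide

/-- level slots -/
def SW (w : ℕ) (D : Finset (Fin 18)) : Finset (Fin 18) := insert 0 (ZW w \ D)

theorem wd2 : ∀ v ∈ ({10, 11, 14} : Finset (Fin 18)), WDat (bW 2 v) n1 1 (SW 2 {8}) := by decide
theorem wd2' : ∀ v ∈ ({8, 10, 11, 14} : Finset (Fin 18)), WDat (bW 2 v) n1 1 (SW 2 ∅) := by decide
theorem wd3 : ∀ v ∈ ({9} : Finset (Fin 18)), WDat (bW 3 v) n1 1 (SW 3 {6}) := by decide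
theorem wd3' : ∀ v ∈ ({6, 9} : Finset (Fin 18)), WDat (bW 3 v) n1 1 (SW 3 ∅) := by decide
theorem wd4 : ∀ v ∈ ({7} : Finset (Fin 18)), WDat (bW 4 v) n1 1 (SW 4 {4, 5}) := by decide
theorem wd4a : ∀ v ∈ ({5, 7} : Finset (Fin 18)), WDat (bW 4 v) n1 1 (SW 4 {4}) := by decide
theorem wd4b : ∀ v ∈ ({4, 5, 7} : Finset (Fin 18)), WDat (bW 4 v) n1 1 (SW 4 ∅) := by decide


/-- offset + tops + the level slot `v` -/
def bvW (w : ℕ) (D : Finset (Fin 18)) (v : Fin 18) : Fin 18 → ℕ := fun k =>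
  if k ∈ SW w D then (if k = v then bW w v k + 1 else bW w v k) else bW w v k + 1

def NatV (b : Fin 18 → ℕ) : Prop := ∀ k, ∀ l ∈ mlW k, b k ≤ (l.map b).sum
instance (b : Fin 18 → ℕ) : Decidable (NatV b) := by unfold NatV; infer_instance

theorem bv2 : ∀ v ∈ ({10, 11, 14} : Finset (Fin 18)), NatV (bvW 2 {8} v) := by decide
theorem bv2' : ∀ v ∈ ({8, 10, 11, 14} : Finset (Fin 18)), NatV (bvW 2 ∅ v) := by decide
theorem bv3 : ∀ v ∈ ({9} : Finset (Fin 18)), NatV (bvW 3 {6} v) := by decide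
theorem bv3' : ∀ v ∈ ({6, 9} : Finset (Fin 18)), NatV (bvW 3 ∅ v) := by decide
theorem bv4 : ∀ v ∈ ({7} : Finset (Fin 18)), NatV (bvW 4 {4, 5} v) := by decide
theorem bv4a : ∀ v ∈ ({5, 7} : Finset (Fin 18)), NatV (bvW 4 {4} v) := by decide
theorem bv4b : ∀ v ∈ ({4, 5, 7} : Finset (Fin 18)), NatV (bvW 4 ∅ v) := by decide

theorem bvW_eq (w : ℕ) (D : Finset (Fin 18)) (N : ℕ) {v : Fin 18} (hv : v ∈ SW w D) :
    scV 1 (fun k => bW w v k + N * eW w k) + cut (SW w D) (scV 1 n1) (Pi.single v 1) =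
      scV 1 (fun k => bvW w D v k + N * eW w k) := by
  funext k
  rw [Pi.add_apply]
  by_cases hk : k ∈ SW w D
  · rw [cut_of_mem hk]
    by_cases hkv : k = v
    · subst hkv
      simp only [scV, bvW, if_pos hk, if_true, Pi.single_eq_same]
      push_cast; ring
    · rw [Pi.single_eq_of_ne hkv]
      simp only [scV, bvW, if_pos hk, if_neg hkv]
      push_cast; ring
  · rw [cut_of_notMem hk]
    simp only [scV, bvW, if_neg hk, n1]
    push_cast; ring

/-! ### the scale condition -/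

section scale

variable {ι : ℕ → Type*} [∀ n, DecidableEq (ι n)] {W : Wnd 18 ι} {κ : ℕ → ℝ}
  {lam : ℕ → Fin 18 → ℝ} {f : ∀ n, ι n → FW}

/-- product of the units on a tight wall, `kap = 1` -/
theorem un_tight (h : WWnd W κ lam f) (hk : W.kap = fun _ => 1) {n : ℕ} {l : List (Fin 18)}
    {s : Fin 18} (hl : l ∈ mlW s) (ht : W.X n s = (l.map (W.X n)).sum) :
    (l.map (un W lam n)).prod = un W lam n s := by
  have h1 := h.cfl_eq hl ht
  have h2 : (l.map W.kap).prod = 1 := by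
    rw [hk]
    clear h1 ht hl
    induction l with
    | nil => simp
    | cons a l ih => simp
  rw [h2, hk] at h1
  unfold cfl at h1
  have h3 : un W lam n s ≠ 0 := (h.un_pos n s).ne'
  rw [div_eq_iff h3] at h1
  rw [h1]; norm_num

end scale

/-- walls used for the scale condition: `hd = [1, 0^α, v]` or `hd = [2, 0^(α-1), v]`, `2 = [1, 0]` -/
def WallC (v : Fin 14) (α : ℕ) (hd : Fin 14) : Prop :=
  (1 :: (List.replicate α 0 ++ [Fin.natAdd 4 v]) : List (Fin 18)) ∈ mlW (Fin.natAdd 4 hd) ∨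
  (1 ≤ α ∧ (2 :: (List.replicate (α - 1) 0 ++ [Fin.natAdd 4 v]) : List (Fin 18)) ∈
    mlW (Fin.natAdd 4 hd))

instance (v : Fin 14) (α : ℕ) (hd : Fin 14) : Decidable (WallC v α hd) := by
  unfold WallC; infer_instance

theorem wallC : ∀ x ∈ ([(2, 4, 1, 8), (2, 10, 0, 11), (2, 6, 1, 11), (2, 7, 1, 11), (3, 5, 1, 10),
    (3, 2, 2, 10), (4, 1, 0, 2), (4, 0, 1, 2), (4, 3, 0, 5)] : List (ℕ × Fin 14 × ℕ × Fin 14)),
    WallC x.2.1 x.2.2.1 x.2.2.2 := by decide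

theorem offC : ∀ x ∈ ([(2, 4, 1, 8), (2, 10, 0, 11), (2, 6, 1, 11), (2, 7, 1, 11), (3, 5, 1, 10),
    (3, 2, 2, 10), (4, 1, 0, 2), (4, 0, 1, 2), (4, 3, 0, 5)] : List (ℕ × Fin 14 × ℕ × Fin 14)),
    (bW x.1 (Fin.natAdd 4 x.2.1) (Fin.natAdd 4 x.2.2.2) = 0 ∧ eW x.1 (Fin.natAdd 4 x.2.2.2) = 1) ∧
    (bW x.1 (Fin.natAdd 4 x.2.1) (Fin.natAdd 4 x.2.1) = 0 ∧ eW x.1 (Fin.natAdd 4 x.2.1) = 0) ∧
    (bW x.1 (Fin.natAdd 4 x.2.1) 1 = 0 ∧ eW x.1 1 = 1) ∧
    (bW x.1 (Fin.natAdd 4 x.2.1) 2 = 0 ∧ eW x.1 2 = 1) ∧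
    (bW x.1 (Fin.natAdd 4 x.2.1) 0 = 0 ∧ eW x.1 0 = 0) := by decide

section pt

variable {B Bo : Base} {I J : ∀ n : ℕ, Finset (ℕ × ℝ)}
  {co : ∀ n : ℕ, ℕ × ℝ → ℕ × ℝ → Fin 18 → ℝ} {κ : ℕ → ℝ} {u : ℕ → Fin 18 → ℝ}
  {f : ∀ n : ℕ, ℕ × ℝ → FW} {C : ℝ}
  {lam : (Fin 18 → ℝ) → ℝ} {A : ℝ × ℝ} {φ : ℕ → (Fin 18 → ℝ) → ℝ}
  {r : ℕ → ℝ} {K : ℝ} {θ q : Fin 3 → ℝ} {V T : Set (Fin 18)} {s : ℝ} {lo : (Fin 18 → ℝ) → ℝ}

/-- **the scale condition of the twist** -/
theorem hcf_of {Ma : Mons 18} {Dr : Set (Fin 18)} {Tw : Fin 18 → Prop}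
    {W : Wnd 18 fun _ => ℕ × ℝ} {E : ∀ n : ℕ, Finset (ℕ × ℝ)} {w N : ℕ} {v : Fin 14} {α : ℕ}
    {hd : Fin 14} (hg : Gen w v α hd) {nt : Fin 18 → ℕ} {rr : ℕ} {S : Finset (Fin 18)} {y : ℝ}
    (g : WinB Ma Dr κ u f lam Tw (fun k => bW w (Fin.natAdd 4 v) k + N * eW w k) nt rr S y W E)
    (d0 : (0 : Fin 18) ∉ Dr) (d1 : (1 : Fin 18) ∉ Dr) (d2 : (2 : Fin 18) ∉ Dr)
    (dv : Fin.natAdd 4 v ∉ Dr) (dh : Fin.natAdd 4 hd ∉ Dr) (n : ℕ) :
    1 * sd W u n (Fin.natAdd 4 hd) ≤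
      un W u n 1 * (un W u n 0 ^ α * un W u n (Fin.natAdd 4 v)) := by
  have hw := wallC _ hg
  obtain ⟨⟨oh, oh'⟩, ⟨ov, ov'⟩, ⟨o1, o1'⟩, ⟨o2, o2'⟩, ⟨o0, o0'⟩⟩ := offC _ hg
  simp only at hw oh oh' ov ov' o1 o1' o2 o2' o0 o0'
  have hrep : ∀ (g' : Fin 18 → ℝ) (m : ℕ),
      ((List.replicate m (0 : Fin 18) ++ [Fin.natAdd 4 v]).map g').prod =
        g' 0 ^ m * g' (Fin.natAdd 4 v) := by
    intro g' m
    simp
  have hrepN : ∀ (g' : Fin 18 → ℕ) (m : ℕ),
      ((List.replicate m (0 : Fin 18) ++ [Fin.natAdd 4 v]).map g').sum =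
        m * g' 0 + g' (Fin.natAdd 4 v) := by
    intro g' m
    simp
  have hl0 : ∀ (x : Fin 18) (m : ℕ), x ∉ Dr →
      ∀ a ∈ (x :: (List.replicate m (0 : Fin 18) ++ [Fin.natAdd 4 v])), a ∉ Dr := by
    intro x m hx a ha
    rcases List.mem_cons.1 ha with h1 | h1
    · rw [h1]; exact hx
    rcases List.mem_append.1 h1 with h2 | h2
    · rw [(List.mem_replicate.1 h2).2]; exact d0
    · rw [List.mem_singleton.1 h2]; exact dv
  have hun : sd W u n (Fin.natAdd 4 hd) = un W u n (Fin.natAdd 4 hd) := by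
    unfold un; rw [g.ekap]; ring
  rw [one_mul, hun]
  rcases hw with hw | ⟨hα, hw⟩
  · have ht := g.tight _ dh _ hw (hl0 1 α d1) (by
      rw [List.map_cons, List.sum_cons, hrepN]
      simp only [oh, oh', ov, ov', o1, o1', o0, o0']
      ring) n
    have := un_tight g.ww g.ekap hw ht
    rw [List.map_cons, List.prod_cons, hrep] at this
    exact this.ge
  · obtain ⟨m, rfl⟩ : ∃ m, α = m + 1 := ⟨α - 1, by omega⟩
    simp only [Nat.add_sub_cancel] at hw
    have ht := g.tight _ dh _ hw (hl0 2 m d2) (by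
      rw [List.map_cons, List.sum_cons, hrepN]
      simp only [oh, oh', ov, ov', o2, o2', o0, o0']
      ring) n
    have h1 := un_tight g.ww g.ekap hw ht
    rw [List.map_cons, List.prod_cons, hrep] at h1
    have w2 : ([1, 0] : List (Fin 18)) ∈ mlW 2 := by decide
    have ht2 := g.tight _ d2 _ w2 (fun a ha => by
      rcases List.mem_cons.1 ha with h3 | h3
      · rw [h3]; exact d1
      · rw [List.mem_singleton.1 h3]; exact d0) (by
      simp only [List.map_cons, List.map_nil, List.sum_cons, List.sum_nil, o2, o2', o1, o1', o0,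
        o0']
      ring) n
    have h2 := un_tight g.ww g.ekap w2 ht2
    simp only [List.map_cons, List.map_nil, List.prod_cons, List.prod_nil, mul_one] at h2
    rw [← h1, ← h2, pow_succ]
    exact le_of_eq (by ring)

/-! ### the tied slot -/

theorem capMax : ∀ v : Fin 18, 4 ≤ v → ∀ l ∈ mlW v, (∃ a ∈ l, a = 1 ∨ a = 2 ∨ a = 3) ∨
    ∃ a ∈ l, 4 ≤ a ∧ wc a = wc v ∧ alW v < alW a := by decide

/-- **a tied slot of maximal `z`-weight** -/
theorem tied_max (hS : SlotOkW θ (fun k => k ∈ V) (fun k => k ∈ T))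
    (hV : ∃ k, k ∈ V ∧ KW θ k = s) : ∃ v, v ∈ V ∧ KW θ v = s ∧ v ∈ T ∧
      ∀ k ∈ V, KW θ k = s → alW k ≤ alW v := by
  classical
  obtain ⟨v, hv, hmax⟩ := Finset.exists_max_image (Finset.univ.filter fun k => k ∈ V ∧ KW θ k = s)
    alW (by
      obtain ⟨k, hk⟩ := hV
      exact ⟨k, Finset.mem_filter.2 ⟨Finset.mem_univ _, hk⟩⟩)
  obtain ⟨hvV, hvK⟩ := (Finset.mem_filter.1 hv).2
  refine ⟨v, hvV, hvK, ?_, fun k hk hkK => hmax k (Finset.mem_filter.2
    ⟨Finset.mem_univ _, hk, hkK⟩)⟩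
  by_contra hT
  obtain ⟨l, hl, hl2⟩ := hS.cap v hvV hT
  rcases capMax v (hS.vis v hvV).1.1 l hl with ⟨a, ha, h1⟩ | ⟨a, ha, h4, hc, hal⟩
  · rcases hl2 a ha with h0 | h0
    · rcases h1 with rfl | rfl | rfl <;> exact absurd h0 (by decide)
    · have := (hS.vis a h0).1.1
      rcases h1 with rfl | rfl | rfl <;> exact absurd this (by decide)
  · rcases hl2 a ha with h0 | h0
    · rw [h0] at h4; exact absurd h4 (by decide)
    · have hK : KW θ a = s := by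
        rw [KW_flag θ h4, hc, ← KW_flag θ (hS.vis v hvV).1.1, hvK]
      have := hmax a (Finset.mem_filter.2 ⟨Finset.mem_univ _, h0, hK⟩)
      omega

/-! ### groups on the rung `s = 1 - θ 0 + w θ 1` -/

/-- second slopes -/
theorem btW_tau {w : ℕ} (hs : s = 1 - θ 0 + w * θ 1) {k : Fin 18} (hD : k ∉ DrW s) :
    TW s k = wz k + s * wn k ∧ btW θ k = TW s k - θ 1 * (wc k + w * wn k) := by
  have h1 : TW s k = wz k + s * wn k := by
    rw [TW_of_not hD]; simp only [saW]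
  refine ⟨h1, ?_⟩
  rw [btW_val, h1, hs]
  ring

/-- **parallel slots** -/
theorem par_tau {w : ℕ} (hθ : 0 < θ 1) (hs : s = 1 - θ 0 + w * θ 1) {i j : Fin 18}
    (hi : i ∉ DrW s) (hj : j ∉ DrW s) (h0 : TW s i ≠ 0)
    (e : gC (TW s) (btW θ) j = gC (TW s) (btW θ) i) :
    TW s j ≠ 0 ∧ TW s i * ((wc j : ℝ) + w * wn j) = TW s j * ((wc i : ℝ) + w * wn i) := by
  have h0j : TW s j ≠ 0 := by
    intro h
    rw [gC_zero.2 h] at e
    exact h0 (gC_zero.1 e.symm)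
  refine ⟨h0j, ?_⟩
  rw [gC_eq h0j h0, div_eq_div_iff h0j h0, (btW_tau hs hi).2, (btW_tau hs hj).2] at e
  have h3 : θ 1 * (TW s i * ((wc j : ℝ) + w * wn j)) = θ 1 * (TW s j * ((wc i : ℝ) + w * wn i)) := by
    linear_combination -e
  exact mul_left_cancel₀ hθ.ne' h3

theorem tau0 : ∀ w ∈ ({2, 3, 4} : Finset ℕ), ∀ j : Fin 18, wc j + (w : ℤ) * wn j = 0 →
    j = 0 ∨ j ∈ ZW w := by decide

theorem zw_tau : ∀ w ∈ ({2, 3, 4} : Finset ℕ), ∀ j ∈ ZW w,
    4 ≤ j ∧ wc j + (w : ℤ) * wn j = 0 := by decide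

/-- the flags of weight `w` have wall slope `s` -/
theorem KW_zw {w : ℕ} (hw : w ∈ ({2, 3, 4} : Finset ℕ)) (hs : s = 1 - θ 0 + w * θ 1)
    {k : Fin 18} (hk : k ∈ ZW w) : KW θ k = s := by
  obtain ⟨h4, h1⟩ := zw_tau w hw k hk
  have hn : wn k = 1 := by
    have : ∀ k : Fin 18, 4 ≤ k → wn k = 1 := by decide
    exact this k h4
  rw [hn] at h1
  have h2 : ((wc k : ℤ) : ℝ) = -(w : ℝ) := by
    have : wc k = -(w : ℤ) := by linarith
    rw [this]; push_cast; ring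
  rw [KW_flag θ h4, h2, hs]; ring

/-- slopes of the level slots are not `0` -/
theorem TW_S {w : ℕ} (hw : w ∈ ({2, 3, 4} : Finset ℕ)) (hs : s = 1 - θ 0 + w * θ 1)
    (hres : ¬ LadT830.Reso θ s) {k : Fin 18} (hk : k ∈ ZW w) (hD : k ∉ DrW s) : TW s k ≠ 0 := by
  obtain ⟨h4, h1⟩ := zw_tau w hw k hk
  intro h0
  refine hres ⟨k, h4, KW_zw hw hs hk, ?_⟩
  rw [(btW_tau hs hD).2, h0]
  have h2 : ((wc k : ℤ) : ℝ) + w * ((wn k : ℤ) : ℝ) = 0 := by exact_mod_cast h1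
  rw [h2]; ring

/-- **the group of `z`** -/
theorem grS2 {w : ℕ} (hw : w ∈ ({2, 3, 4} : Finset ℕ)) (hθ : 0 < θ 1)
    (hs : s = 1 - θ 0 + w * θ 1) (hres : ¬ LadT830.Reso θ s) {D : Finset (Fin 18)}
    (hD : ∀ k ∈ ZW w, k ∈ D ↔ k ∈ DrW s) (i j : Fin 18)
    (e : gC (TW s) (btW θ) i = gC (TW s) (btW θ) j) (hi : i ∈ SW w D) :
    j ∈ SW w D ∨ j ∈ DrW s := by
  by_cases hjD : j ∈ DrW s
  · exact Or.inr hjD
  left
  have hi0 : i ∉ DrW s ∧ TW s i ≠ 0 ∧ ((wc i : ℝ) + w * wn i) = 0 := by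
    rcases Finset.mem_insert.1 hi with h1 | h1
    · subst h1
      refine ⟨fun hm => absurd hm.1 (by decide), by rw [TW_z]; exact one_ne_zero, ?_⟩
      have : wc 0 = 0 ∧ wn 0 = 0 := by decide
      rw [this.1, this.2]; push_cast; ring
    · obtain ⟨h2, h3⟩ := Finset.mem_sdiff.1 h1
      have h4 : i ∉ DrW s := fun h => h3 ((hD i h2).2 h)
      refine ⟨h4, TW_S hw hs hres h2 h4, ?_⟩
      have := (zw_tau w hw i h2).2
      exact_mod_cast this
  obtain ⟨h1, h2, h3⟩ := hi0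
  obtain ⟨h4, h5⟩ := par_tau hθ hs h1 hjD h2 e.symm
  rw [h3, mul_zero] at h5
  have h6 : wc j + (w : ℤ) * wn j = 0 := by
    have := (mul_eq_zero.1 h5).resolve_left h2
    exact_mod_cast this
  rcases tau0 w hw j h6 with h7 | h7
  · rw [h7]; exact Finset.mem_insert_self _ _
  · exact Finset.mem_insert_of_mem (Finset.mem_sdiff.2 ⟨h7, fun h => hjD ((hD j h7).1 h)⟩)

/-- seen slots -/
def Seen (w : ℕ) (i : Fin 18) : Prop := i = Fin.natAdd 4 (seenA w) ∨ i = Fin.natAdd 4 (seenB w)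
instance (w : ℕ) (i : Fin 18) : Decidable (Seen w i) := by unfold Seen; infer_instance

theorem seen_tau : ∀ w ∈ ({2, 3, 4} : Finset ℕ), ∀ i : Fin 18, Seen w i →
    wc i + (w : ℤ) * wn i = 1 ∧ 4 ≤ i ∧ alW i ≤ 3 ∧ i ∉ insert 0 (FL w) ∧ wn i = 1 ∧
    wz i = - alW i := by decide

theorem fl_tau : ∀ w ∈ ({2, 3, 4} : Finset ℕ), ∀ j ∈ insert 0 (FL w),
    wc j + (w : ℤ) * wn j ≤ 0 := by decide

theorem low4 : ∀ w ∈ ({2, 3} : Finset ℕ), ∀ i : Fin 18, Seen w i → ∀ j ∈ lowE w, j ≠ 1 → j ≠ i →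
    (wz i + 4 * wn i) * (wc j + (w : ℤ) * wn j) ≠ (wz j + 4 * wn j) * (wc i + (w : ℤ) * wn i) := by
  decide

theorem TW_pos' (hs2 : 2 < s) {i : Fin 18} (h0 : TW s i ≠ 0) : 0 < TW s i :=
  lt_of_le_of_ne (TW_nonneg (by linarith) i) (Ne.symm h0)

/-- slope of a seen slot -/
theorem TW_seen {w : ℕ} (hw : w ∈ ({2, 3, 4} : Finset ℕ)) (hs : s = 1 - θ 0 + w * θ 1)
    (hs2 : 2 < s) (hs3 : s ≠ 3) {i : Fin 18} (hi : Seen w i) (hD : i ∉ DrW s) : TW s i ≠ 0 := by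
  obtain ⟨-, h4, hal, -, hn, hz⟩ := seen_tau w hw i hi
  rw [(btW_tau hs hD).1, hn, hz]
  intro h0
  push_cast at h0
  have h1 : s = alW i := by linarith
  have h2 : (alW i : ℝ) ≤ 3 := by exact_mod_cast hal
  have h3 : (2 : ℝ) < alW i := by linarith
  have h5 : (2 : ℤ) < alW i := by exact_mod_cast h3
  have h6 : alW i = 3 := by omega
  rw [h6] at h1
  exact hs3 (by rw [h1]; norm_num)

/-- **the group of a seen slot** -/
theorem seen_grp {w : ℕ} (hw : w ∈ ({2, 3, 4} : Finset ℕ)) (hθ : 0 < θ 1)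
    (hs : s = 1 - θ 0 + w * θ 1) (hs2 : 2 < s) (hs3 : s ≠ 3) {i j : Fin 18} (hi : Seen w i)
    (hiD : i ∉ DrW s) (hjD : j ∉ DrW s) (e : gC (TW s) (btW θ) j = gC (TW s) (btW θ) i)
    (hji : j ≠ i) : j ∉ insert 0 (FL w) ∧ j ≠ 1 ∧ (s = 4 → w ≠ 4 → j ∉ lowE w) := by
  have hi0 := TW_seen hw hs hs2 hs3 hi hiD
  obtain ⟨ht, h4, hal, -, -, -⟩ := seen_tau w hw i hi
  obtain ⟨hj0, hp⟩ := par_tau hθ hs hiD hjD hi0 e
  have ht' : ((wc i : ℝ) + w * wn i) = 1 := by exact_mod_cast ht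
  have pi := TW_pos' hs2 hi0
  have pj := TW_pos' hs2 hj0
  rw [ht', mul_one] at hp
  refine ⟨fun hj => ?_, fun hj => ?_, fun h4' hw4 hj => ?_⟩
  · have := fl_tau w hw j hj
    have h5 : ((wc j : ℝ) + w * wn j) ≤ 0 := by exact_mod_cast this
    nlinarith
  · rw [hj, TW_c] at hj0; exact hj0 rfl
  · have hw' : w ∈ ({2, 3} : Finset ℕ) := by
      simp only [Finset.mem_insert, Finset.mem_singleton] at hw ⊢
      omega
    have hj1 : j ≠ 1 := fun hj => by rw [hj, TW_c] at hj0; exact hj0 rfl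
    refine low4 w hw' i hi j hj hj1 hji ?_
    have h6 := (btW_tau hs hiD).1
    have h7 := (btW_tau hs hjD).1
    rw [h6, h7, h4'] at hp
    have h8 : (((wz i + 4 * wn i) * (wc j + (w : ℤ) * wn j) : ℤ) : ℝ) =
        ((wz j + 4 * wn j) * (wc i + (w : ℤ) * wn i) : ℤ) := by
      push_cast
      rw [ht']
      linarith
    exact_mod_cast h8

theorem al4 : ∀ j : Fin 18, 4 ≤ j → wn j = 1 ∧ wz j = - alW j ∧ alW j ≤ 4 ∧
    (alW j = 4 → j = 4) := by decide

/-- **the group of `c`** -/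
theorem grC (hs2 : 2 < s) (hs3 : s ≠ 3) {j : Fin 18} (h0 : TW s j = 0) (hj : j ≠ 1) :
    s = 4 ∧ j = 4 := by
  have hD : j ∉ DrW s := by
    intro hD
    rw [TW, if_pos hD] at h0
    exact one_ne_zero h0
  rcases (cases4 (P := fun j => TW s j = 0 → 4 ≤ j ∨ j = 1) (fun e => absurd e (by
    rw [TW_z]; exact one_ne_zero)) (fun _ => Or.inr rfl) (fun e => absurd e (by
    rw [TW_A]; exact one_ne_zero)) (fun e => absurd e (by rw [TW_B]; exact one_ne_zero))
    (fun k hk _ => Or.inl hk) j) h0 with h4 | h4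
  · obtain ⟨hn, hz, hal, h44⟩ := al4 j h4
    rw [TW_of_not hD] at h0
    simp only [saW, hn, hz] at h0
    push_cast at h0
    have h1 : s = alW j := by linarith
    have h3 : (2 : ℝ) < alW j := by linarith
    have h5 : (2 : ℤ) < alW j := by exact_mod_cast h3
    have h6 : alW j ≠ 3 := by
      intro h; rw [h] at h1; exact hs3 (by rw [h1]; norm_num)
    have h7 : alW j = 4 := by omega
    rw [h7] at h1
    exact ⟨by rw [h1]; norm_num, h44 h7⟩
  · exact absurd h4 hj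

end pt

end Crest.Agent.R136.Vw848
end

-- ▼ part R136/RwX_848
section

/-!
# R136 (helper848): row `deadhi2`, the windows: a seen slot is visible

* `CasOk` : static facts of a case; `win_core` : loss of `c` `≤` loss of the seen slots
* `closs` : `c` costs something in the window; `seen_zero` : invisible slots cost nothing
* **`seen_vis`** : on a rung `s > 2` with dominant slots of weight `w ≥ 2`, not resonant, one of the
  seen slots of weight `w - 1` is visible, given `z` and the flags of weight `≥ w` narrow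
-/

set_option autoImplicit false
set_option linter.unusedSectionVars false
set_option linter.unusedVariables false

open Filter Topology

namespace Crest.Agent.R136.Vw848

open Finset Crest.Agent.R136.NetW191 Crest.Agent.R136.Net191 Crest.Agent.R136.Qg926
open Crest.Agent.R136.EvW938 Crest.Agent.R136.RowW619 Crest.Agent.R136.Lf400
open Crest.Agent.R136.TrI938 Crest.Agent.R136.Bas938
open Crest.Agent.R136.LadW697 Crest.Agent.R136.NatW697 Crest.Agent.R136.PrW464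
open Crest.Agent.R136.Dg219
open Crest.Agent.R136.AwJ774
open Crest.Agent.R136.ThB830 (PtC)
open Crest.Agent.R136.P0830 (ptB_of basG_of)
open Crest.Agent.R136.LadT830 (Top)
open Crest.Agent.R136.Aw413
open Crest.Agent.R138.Ex926 (Base U)
open Crest.Agent.R136.Gf356
open Crest.Agent.R136.RowI938 (n1 nP okV_lin wdat_lin mem_lin sum_lin raw_pairs0 exists_closs wI
  wI_mem Z9)

/-- the flags of weight `≥ w` and the first seen slot narrow -/
def mM (w : ℕ) : Fin 18 → ℕ := fun k => if k ∈ FL w ∨ k = Fin.natAdd 4 (seenA w) then 1 else 0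

theorem okM : (∀ v ∈ ({8, 10, 11, 14} : Finset (Fin 18)), OkV (bW 2 v) 1 (wz1 (mM 2))) ∧
    (∀ v ∈ ({6, 9} : Finset (Fin 18)), OkV (bW 3 v) 1 (wz1 (mM 3))) ∧
    (∀ v ∈ ({4, 5, 7} : Finset (Fin 18)), OkV (bW 4 v) 1 (wz1 (mM 4))) := by decide

/-- **static facts of a case** : weight, dropped slots of weight `w`, own slot, power, seen slot -/
structure CasOk (w : ℕ) (D : Finset (Fin 18)) (v : Fin 14) (α : ℕ) (hd : Fin 14) : Prop where
  gen : Gen w v α hd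
  wd : WDat (bW w (Fin.natAdd 4 v)) n1 1 (SW w D)
  bok : BOk w (Fin.natAdd 4 v)
  bv : NatV (bvW w D (Fin.natAdd 4 v))
  mem : Fin.natAdd 4 v ∈ SW w D
  off : ∀ k ∈ ZW w, alW k ≤ alW (Fin.natAdd 4 v) → bW w (Fin.natAdd 4 v) k = 0
  okM : OkV (bW w (Fin.natAdd 4 v)) 1 (wz1 (mM w))

theorem offS : ∀ w ∈ ({2, 3, 4} : Finset ℕ), ∀ v ∈ ZW w, ∀ k ∈ ZW w, alW k ≤ alW v →
    bW w v k = 0 := by decide

/-- **the cases** -/
theorem cas_ex {Dr : Finset (Fin 18)} (hDr : Dr = {4, 5, 6, 8} ∨ Dr = {4} ∨ Dr = ∅) {w : ℕ}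
    (hw : w ∈ ({2, 3, 4} : Finset ℕ)) {v0 : Fin 18} (h1 : v0 ∈ ZW w) (h2 : v0 ∉ Dr) :
    ∃ v : Fin 14, v0 = Fin.natAdd 4 v ∧ ∃ (α : ℕ) (hd : Fin 14),
      CasOk w (ZW w ∩ Dr) v α hd ∧ Fin.natAdd 4 hd ∉ Dr := by
  have hw' : w = 2 ∨ w = 3 ∨ w = 4 := by simpa using hw
  have i2 : ZW 2 ∩ ({4, 5, 6, 8} : Finset (Fin 18)) = {8} ∧
      ZW 2 ∩ ({4} : Finset (Fin 18)) = ∅ ∧ ZW 2 ∩ (∅ : Finset (Fin 18)) = ∅ := by decide
  have i3 : ZW 3 ∩ ({4, 5, 6, 8} : Finset (Fin 18)) = {6} ∧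
      ZW 3 ∩ ({4} : Finset (Fin 18)) = ∅ ∧ ZW 3 ∩ (∅ : Finset (Fin 18)) = ∅ := by decide
  have i4 : ZW 4 ∩ ({4, 5, 6, 8} : Finset (Fin 18)) = {4, 5} ∧
      ZW 4 ∩ ({4} : Finset (Fin 18)) = {4} ∧ ZW 4 ∩ (∅ : Finset (Fin 18)) = ∅ := by decide
  rcases hw' with rfl | rfl | rfl
  · have hv : v0 = 8 ∨ v0 = 10 ∨ v0 = 11 ∨ v0 = 14 := by simpa [ZW] using h1
    have okm := okM.1
    have key : ∀ Dr' : Finset (Fin 18), (∀ v ∈ ({10, 11, 14} : Finset (Fin 18)),
        WDat (bW 2 v) n1 1 (SW 2 Dr') ∧ NatV (bvW 2 Dr' v)) → Dr' ⊆ {8} →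
        (12 : Fin 18) ∉ Dr → (15 : Fin 18) ∉ Dr → (v0 = 8 → WDat (bW 2 8) n1 1 (SW 2 Dr') ∧
          NatV (bvW 2 Dr' 8) ∧ 8 ∉ Dr') → ∃ v : Fin 14, v0 = Fin.natAdd 4 v ∧
          ∃ (α : ℕ) (hd : Fin 14), CasOk 2 Dr' v α hd ∧ Fin.natAdd 4 hd ∉ Dr := by
      intro Dr' hk hsub h12 h15 h8
      have hn : ∀ x : Fin 18, x ≠ 8 → x ∈ ZW 2 → x ∈ SW 2 Dr' := fun x hx hx2 =>
        Finset.mem_insert_of_mem (Finset.mem_sdiff.2 ⟨hx2, fun hm => hx (Finset.mem_singleton.1 (hsub hm))⟩)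
      rcases hv with rfl | rfl | rfl | rfl
      · obtain ⟨a1, a2, a3⟩ := h8 rfl
        exact ⟨4, rfl, 1, 8, ⟨by decide, a1, bok2 8 (by decide), a2,
          Finset.mem_insert_of_mem (Finset.mem_sdiff.2 ⟨by decide, a3⟩), offS 2 (by decide) 8
          (by decide), okm 8 (by decide)⟩, h12⟩
      · exact ⟨6, rfl, 1, 11, ⟨by decide, (hk 10 (by decide)).1, bok2 10 (by decide),
          (hk 10 (by decide)).2, hn 10 (by decide) (by decide), offS 2 (by decide) 10 (by decide),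
          okm 10 (by decide)⟩, h15⟩
      · exact ⟨7, rfl, 1, 11, ⟨by decide, (hk 11 (by decide)).1, bok2 11 (by decide),
          (hk 11 (by decide)).2, hn 11 (by decide) (by decide), offS 2 (by decide) 11 (by decide),
          okm 11 (by decide)⟩, h15⟩
      · exact ⟨10, rfl, 0, 11, ⟨by decide, (hk 14 (by decide)).1, bok2 14 (by decide),
          (hk 14 (by decide)).2, hn 14 (by decide) (by decide), offS 2 (by decide) 14 (by decide),
          okm 14 (by decide)⟩, h15⟩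
    have wsub : ∀ v ∈ ({10, 11, 14} : Finset (Fin 18)), v ∈ ({8, 10, 11, 14} : Finset (Fin 18)) :=
      by decide
    rcases hDr with rfl | rfl | rfl
    · rw [i2.1]
      exact key _ (fun v hv => ⟨wd2 v hv, bv2 v hv⟩) subset_rfl (by decide) (by decide)
        (fun e => absurd (by rw [e]; decide) h2)
    · rw [i2.2.1]
      exact key _ (fun v hv => ⟨wd2' v (wsub v hv), bv2' v (wsub v hv)⟩) (Finset.empty_subset _)
        (by decide) (by decide) (fun e => ⟨wd2' 8 (by decide), bv2' 8 (by decide), by decide⟩)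
    · rw [i2.2.2]
      exact key _ (fun v hv => ⟨wd2' v (wsub v hv), bv2' v (wsub v hv)⟩) (Finset.empty_subset _)
        (by decide) (by decide) (fun e => ⟨wd2' 8 (by decide), bv2' 8 (by decide), by decide⟩)
  · have hv : v0 = 6 ∨ v0 = 9 := by simpa [ZW] using h1
    have okm := okM.2.1
    have key : ∀ Dr' : Finset (Fin 18), WDat (bW 3 9) n1 1 (SW 3 Dr') → NatV (bvW 3 Dr' 9) →
        9 ∉ Dr' → (14 : Fin 18) ∉ Dr → (v0 = 6 → WDat (bW 3 6) n1 1 (SW 3 Dr') ∧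
          NatV (bvW 3 Dr' 6) ∧ 6 ∉ Dr') → ∃ v : Fin 14, v0 = Fin.natAdd 4 v ∧
          ∃ (α : ℕ) (hd : Fin 14), CasOk 3 Dr' v α hd ∧ Fin.natAdd 4 hd ∉ Dr := by
      intro Dr' k1 k2 k3 h14 h6
      rcases hv with rfl | rfl
      · obtain ⟨a1, a2, a3⟩ := h6 rfl
        exact ⟨2, rfl, 2, 10, ⟨by decide, a1, bok3 6 (by decide), a2,
          Finset.mem_insert_of_mem (Finset.mem_sdiff.2 ⟨by decide, a3⟩), offS 3 (by decide) 6
          (by decide), okm 6 (by decide)⟩, h14⟩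
      · exact ⟨5, rfl, 1, 10, ⟨by decide, k1, bok3 9 (by decide), k2,
          Finset.mem_insert_of_mem (Finset.mem_sdiff.2 ⟨by decide, k3⟩), offS 3 (by decide) 9
          (by decide), okm 9 (by decide)⟩, h14⟩
    rcases hDr with rfl | rfl | rfl
    · rw [i3.1]
      exact key _ (wd3 9 (by decide)) (bv3 9 (by decide)) (by decide) (by decide)
        (fun e => absurd (by rw [e]; decide) h2)
    · rw [i3.2.1]
      exact key _ (wd3' 9 (by decide)) (bv3' 9 (by decide)) (by decide) (by decide)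
        (fun e => ⟨wd3' 6 (by decide), bv3' 6 (by decide), by decide⟩)
    · rw [i3.2.2]
      exact key _ (wd3' 9 (by decide)) (bv3' 9 (by decide)) (by decide) (by decide)
        (fun e => ⟨wd3' 6 (by decide), bv3' 6 (by decide), by decide⟩)
  · have hv : v0 = 4 ∨ v0 = 5 ∨ v0 = 7 := by simpa [ZW] using h1
    have okm := okM.2.2
    have key : ∀ Dr' : Finset (Fin 18), WDat (bW 4 7) n1 1 (SW 4 Dr') → NatV (bvW 4 Dr' 7) →
        7 ∉ Dr' → (9 : Fin 18) ∉ Dr → (v0 = 4 → WDat (bW 4 4) n1 1 (SW 4 Dr') ∧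
          NatV (bvW 4 Dr' 4) ∧ 4 ∉ Dr' ∧ 6 ∉ Dr) → (v0 = 5 → WDat (bW 4 5) n1 1 (SW 4 Dr') ∧
          NatV (bvW 4 Dr' 5) ∧ 5 ∉ Dr' ∧ 6 ∉ Dr) → ∃ v : Fin 14, v0 = Fin.natAdd 4 v ∧
          ∃ (α : ℕ) (hd : Fin 14), CasOk 4 Dr' v α hd ∧ Fin.natAdd 4 hd ∉ Dr := by
      intro Dr' k1 k2 k3 h9 h4 h5
      rcases hv with rfl | rfl | rfl
      · obtain ⟨a1, a2, a3, a4⟩ := h4 rfl
        exact ⟨0, rfl, 1, 2, ⟨by decide, a1, bok4 4 (by decide), a2,
          Finset.mem_insert_of_mem (Finset.mem_sdiff.2 ⟨by decide, a3⟩), offS 4 (by decide) 4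
          (by decide), okm 4 (by decide)⟩, a4⟩
      · obtain ⟨a1, a2, a3, a4⟩ := h5 rfl
        exact ⟨1, rfl, 0, 2, ⟨by decide, a1, bok4 5 (by decide), a2,
          Finset.mem_insert_of_mem (Finset.mem_sdiff.2 ⟨by decide, a3⟩), offS 4 (by decide) 5
          (by decide), okm 5 (by decide)⟩, a4⟩
      · exact ⟨3, rfl, 0, 5, ⟨by decide, k1, bok4 7 (by decide), k2,
          Finset.mem_insert_of_mem (Finset.mem_sdiff.2 ⟨by decide, k3⟩), offS 4 (by decide) 7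
          (by decide), okm 7 (by decide)⟩, h9⟩
    rcases hDr with rfl | rfl | rfl
    · rw [i4.1]
      exact key _ (wd4 7 (by decide)) (bv4 7 (by decide)) (by decide) (by decide)
        (fun e => absurd (by rw [e]; decide) h2) (fun e => absurd (by rw [e]; decide) h2)
    · rw [i4.2.1]
      exact key _ (wd4a 7 (by decide)) (bv4a 7 (by decide)) (by decide) (by decide)
        (fun e => absurd (by rw [e]; decide) h2)
        (fun e => ⟨wd4a 5 (by decide), bv4a 5 (by decide), by decide, by decide⟩)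
    · rw [i4.2.2]
      exact key _ (wd4b 7 (by decide)) (bv4b 7 (by decide)) (by decide) (by decide)
        (fun e => ⟨wd4b 4 (by decide), bv4b 4 (by decide), by decide, by decide⟩)
        (fun e => ⟨wd4b 5 (by decide), bv4b 5 (by decide), by decide, by decide⟩)

theorem zw_wq : ∀ w ∈ ({2, 3, 4} : Finset ℕ), ∀ q : Fin 14, Fin.natAdd 4 q ∈ insert 0 (ZW w) →
    wq q = w := by decide
theorem fl_wq : ∀ w ∈ ({2, 3, 4} : Finset ℕ), ∀ q : Fin 14, wq q < w →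
    Fin.natAdd 4 q ∉ FL w := by decide
theorem seen_wq : ∀ w ∈ ({2, 3, 4} : Finset ℕ), wq (seenA w) + 1 = w ∧ wq (seenB w) + 1 = w ∧
    1 ≤ w ∧ Fin.natAdd 4 (seenA w) ∉ insert 0 (ZW w) ∧ Fin.natAdd 4 (seenB w) ∉ insert 0 (ZW w) ∧
    mR w (Fin.natAdd 4 (seenA w)) = 1 ∧ mR w (Fin.natAdd 4 (seenB w)) = 1 := by decide
theorem eW_nat : ∀ w ∈ ({2, 3, 4} : Finset ℕ), ∀ k, ∀ l ∈ mlW k, eW w k ≤ (l.map (eW w)).sum := by
  intro w hw
  rcases Finset.mem_insert.1 hw with rfl | hw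
  · exact eW_nat2
  rcases Finset.mem_insert.1 hw with rfl | hw
  · exact eW_nat3
  rw [Finset.mem_singleton.1 hw]
  exact eW_nat4
theorem ew0 : ∀ w ∈ ({2, 3, 4} : Finset ℕ), eW w 0 = 0 ∧ eW w 1 = 1 ∧ (∀ k ∈ ZW w, eW w k = 0) ∧
    (∀ i : Fin 4, mT w (Fin.castAdd 14 i) = 0) ∧ (∀ k, mT w k ≤ 1) ∧ (∀ k, mR w k ≤ 1) ∧
    (∀ k, mT w k ≤ mR w k) ∧ (∀ k ∈ ZW w, mT w k = 1) ∧ (∀ k ∈ ZW w, mR w k = 1) := by decide

theorem wz1_nP : wz1 nP = nP := by
  funext k; unfold wz1; split_ifs with h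
  · subst h; rfl
  · rfl
theorem wz1_n1 : wz1 n1 = n1 := by
  funext k; unfold wz1; split_ifs with h
  · rfl
  · rfl

section pt

variable {B Bo : Base} {I J : ∀ n : ℕ, Finset (ℕ × ℝ)}
  {co : ∀ n : ℕ, ℕ × ℝ → ℕ × ℝ → Fin 18 → ℝ} {κ : ℕ → ℝ} {u : ℕ → Fin 18 → ℝ}
  {f : ∀ n : ℕ, ℕ × ℝ → FW} {C : ℝ}
  {lam : (Fin 18 → ℝ) → ℝ} {A : ℝ × ℝ} {φ : ℕ → (Fin 18 → ℝ) → ℝ}
  {r : ℕ → ℝ} {K : ℝ} {θ q : Fin 3 → ℝ} {V T : Set (Fin 18)} {s : ℝ} {lo : (Fin 18 → ℝ) → ℝ}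

/-- a visible slot of the rung has weight `w` -/
theorem vis_zw (h : PtC B Bo I J co C κ u f K θ q V T s lam lo A φ r)
    {w : ℕ} (hw : w ∈ ({2, 3, 4} : Finset ℕ)) (hs : s = 1 - θ 0 + w * θ 1) {k : Fin 18}
    (hk : k ∈ V ∧ KW θ k = s) : k ∈ ZW w ∧ k ∉ DrW s := by
  obtain ⟨h4, -, h2⟩ := h.vis k hk.1
  have e := hk.2
  rw [KW_flag θ h4, hs] at e
  have h3 : ((wc k : ℝ) + w) * θ 1 = 0 := by linarith
  have h5 : ((wc k : ℝ) + w) = 0 := (mul_eq_zero.1 h3).resolve_right h.th1.ne'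
  have h6 : wc k + (w : ℤ) = 0 := by exact_mod_cast h5
  refine ⟨?_, fun hm => ?_⟩
  · have key : ∀ w ∈ ({2, 3, 4} : Finset ℕ), ∀ k : Fin 18, 4 ≤ k → wc k + (w : ℤ) = 0 →
      k ∈ ZW w := by decide
    exact key w hw k h4 h6
  · have := hm.2
    rw [hk.2] at h2
    linarith

set_option maxHeartbeats 1000000 in
/-- **loss of `c` `≤` loss of the seen slots** -/
theorem win_core (h : PtC B Bo I J co C κ u f K θ q V T s lam lo A φ r)
    {w : ℕ} (hw : w ∈ ({2, 3, 4} : Finset ℕ)) (hs : s = 1 - θ 0 + w * θ 1) (hs2 : 2 < s)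
    (hres : ¬ LadT830.Reso θ s) {D : Finset (Fin 18)} (hD : ∀ k ∈ ZW w, k ∈ D ↔ k ∈ DrW s)
    {v : Fin 14} {α : ℕ} {hd : Fin 14} (hc : CasOk w D v α hd) (hh : Fin.natAdd 4 hd ∉ DrW s)
    (hvV : Fin.natAdd 4 v ∈ V) (hvK : KW θ (Fin.natAdd 4 v) = s) (hvT : Fin.natAdd 4 v ∈ T)
    (hmax : ∀ k ∈ V, KW θ k = s → alW k ≤ alW (Fin.natAdd 4 v)) (N : ℕ) :
    lam (scV 1 (fun k => bW w (Fin.natAdd 4 v) k + N * eW w k) + scV 1 nP) -
      lam (scV 1 (fun k => bW w (Fin.natAdd 4 v) k + N * eW w k) + scV 1 n1) ≤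
    lam (scV 1 (fun k => bW w (Fin.natAdd 4 v) k + N * eW w k) + scV 1 (wz1 (mT w))) -
      lam (scV 1 (fun k => bW w (Fin.natAdd 4 v) k + N * eW w k) + scV 1 (wz1 (mR w))) := by
  have hP := ptB_of h
  have hM := hP.act
  obtain ⟨e0, e1, eZ, T0, T1, R1, TR, TZ, RZ⟩ := ew0 w hw
  obtain ⟨sA, sB, w1, nA, nB, rA, rB⟩ := seen_wq w hw
  have hSub : ∀ k ∈ SW w D, k ∈ insert 0 (ZW w) := fun k hk => by
    rcases Finset.mem_insert.1 hk with h1 | h1
    · rw [h1]; exact Finset.mem_insert_self _ _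
    · exact Finset.mem_insert_of_mem (Finset.mem_sdiff.1 h1).1
  set n0 : Fin 18 → ℕ := fun k => bW w (Fin.natAdd 4 v) k + N * eW w k with hn0
  have hdN : WDat n0 n1 1 (SW w D) := wdat_lin (eW_nat w hw) e0 hc.wd N
  obtain ⟨W, E, g⟩ := hP.win hdN (y := 1) one_pos
    (fun i j e hi => (grS2 hw h.th1 hs hres hD i j e hi).imp id Or.inr)
    (fun k hk => by
      have hk' := (vis_zw h hw hs hk).1
      show bW w (Fin.natAdd 4 v) k + N * eW w k = 0
      rw [hc.off k hk' (hmax k hk.1 hk.2), eZ k hk', mul_zero, add_zero])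
    (fun k hk => by
      left
      obtain ⟨h1, h2⟩ := vis_zw h hw hs hk
      exact Finset.mem_insert_of_mem (Finset.mem_sdiff.2 ⟨h1, fun h3 => h2 ((hD k h1).1 h3)⟩))
  have hvD : Fin.natAdd 4 v ∉ DrW s := (vis_zw h hw hs ⟨hvV, hvK⟩).2
  have topv : ∀ k, W.top k = 1 := by
    intro k; rw [g.etop]; simp [scV, n1]
  have d4 : ∀ k : Fin 18, ¬ 4 ≤ k → k ∉ DrW s := fun k hk hm => hk hm.1
  -- the twist
  have hR : RawL W E (Fin.natAdd 4 v) := g.tw _ hc.mem ⟨hvT, hvV, hvK⟩ (by simp [n1]) (by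
      obtain ⟨-, ⟨o1, o2⟩, -⟩ := offC _ hc.gen
      simp only at o1 o2
      show bW w (Fin.natAdd 4 v) (Fin.natAdd 4 v) + N * eW w (Fin.natAdd 4 v) = 0
      rw [o1, o2, mul_zero, add_zero]) ⟨1, one_pos, by
      rw [hn0, bvW_eq w D N hc.mem]
      exact mem_lin hM hc.bv (eW_nat w hw) N⟩
  have htw := twC g.ww g.ev (t := 1) one_pos (fun k => (topv k).ge) hc.gen g.hk (c := 1) one_pos
    (Eventually.of_forall fun n => hcf_of hc.gen g (d4 0 (by decide)) (d4 1 (by decide))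
      (d4 2 (by decide)) hvD hh n) (by
    intro ε hε
    filter_upwards [raw_pairs0 g.ww g.ev g.mod one_pos one_pos (topv 0).ge hR ε hε,
      ev_const_le W.B' hε 4] with n hn h4 i hi
    obtain ⟨T', hT1, hT2, hT3⟩ := hn i hi
    refine ⟨T', hT1, fun q hq => (hT2 q hq).symm, le_trans ?_ hT3⟩
    refine mul_le_mul_of_nonneg_right ?_ (sq_nonneg _)
    have e : W.B'.d n ^ ε * W.B'.d n ^ (-ε) = 1 := by
      rw [← Real.rpow_add (W.B'.pos n), add_neg_cancel, Real.rpow_zero]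
    have hp := Real.rpow_pos_of_pos (W.B'.pos n) ε
    nlinarith)
  -- legality and values
  have cutn : ∀ n : Fin 18 → ℕ, (∀ k ∈ ZW w, n k = 1) →
      cut W.S (scV 1 n) W.top = scV 1 (if (0 : Fin 18) ∈ W.S then wz1 n else n) := by
    intro n hn
    have hS0 : (0 : Fin 18) ∈ W.S := by rw [g.eS]; exact Finset.mem_insert_self _ _
    rw [if_pos hS0, g.eS]
    funext k
    by_cases hk : k ∈ SW w D
    · rw [cut_of_mem hk, topv k]
      rcases Finset.mem_insert.1 (hSub k hk) with h1 | h1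
      · simp [scV, wz1, h1]
      · have : k ≠ 0 := by
          rintro rfl
          exact absurd (zw_tau w hw 0 h1).1 (by decide)
        simp [scV, wz1, this, hn k h1]
    · rw [cut_of_notMem hk]
      have : k ≠ 0 := by
        rintro rfl
        exact hk (Finset.mem_insert_self _ _)
      simp [scV, wz1, this]
  have hS0 : (0 : Fin 18) ∈ W.S := by rw [g.eS]; exact Finset.mem_insert_self _ _
  simp only [if_pos hS0] at cutn
  have leg : ∀ n : Fin 18 → ℕ, OkV (bW w (Fin.natAdd 4 v)) 1 (wz1 n) → (∀ k, n k ≤ 1) →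
      (∀ k ∈ ZW w, n k = 1) → scV 1 n ∈ W.legW := by
    intro n hn hn1 hS
    constructor
    · rw [cutn n hS, g.eMw, g.eR]
      exact leg_one hM (okV_lin (eW_nat w hw) hn N) zero_le_one
    · intro k _
      rw [topv k]
      have : (n k : ℝ) ≤ 1 := by exact_mod_cast hn1 k
      simp only [scV]
      linarith
  have nuv : ∀ n : Fin 18 → ℕ, (∀ k ∈ ZW w, n k = 1) → W.nu (scV 1 n) =
      lam (scV 1 n0 + scV 1 (wz1 n)) - lam (scV 1 n0 + scV 1 n1) := by
    intro n hS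
    unfold Wnd.nu
    rw [cutn n hS, g.elam, g.etop]
    ring
  have zne1 : ∀ k ∈ ZW w, k ≠ 1 := by
    rintro k hk rfl
    exact absurd (zw_tau w hw 1 hk).1 (by decide)
  have sP : ∀ k ∈ ZW w, nP k = 1 := fun k hk => by simp [nP, zne1 k hk]
  have s1 : ∀ k ∈ ZW w, n1 k = 1 := fun k hk => rfl
  have key := rowC_shift g.ww g.ev g.mod (y := 1) (fun k => (topv k).ge) w1 sA sB
    (by rw [g.eS]; exact fun hm => nA (hSub _ hm)) (by rw [g.eS]; exact fun hm => nB (hSub _ hm))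
    (fun ε _ => Eventually.of_forall fun n i k k' _ _ q' hq' hqw => by
      rw [g.eS] at hq'
      exact absurd (zw_wq w hw q' (hSub _ hq')) hqw)
    htw (scV 1 nP) (scV 1 n1) (scV 1 (mT w)) (scV 1 (mR w))
    (leg nP (by rw [wz1_nP]; exact hc.bok.p) (by decide) sP)
    (leg n1 (by rw [wz1_n1]; exact hc.wd.top) (by decide) s1)
    (leg (mT w) hc.bok.t T1 TZ) (leg (mR w) hc.bok.r R1 RZ)
    (fun k => by
      have : ((mT w k : ℕ) : ℝ) ≤ mR w k := by exact_mod_cast TR k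
      simp only [scV]; linarith)
    (by simp [scV, n1])
    (fun j hj => by
      have : ∀ j : Fin 18, j ≠ 1 → n1 j ≤ nP j := by decide
      have h2 : ((n1 j : ℕ) : ℝ) ≤ nP j := by exact_mod_cast this j hj
      simp only [scV]; linarith)
    (fun k _ hk => by
      have : ∀ j : Fin 18, j ≠ 1 → 1 ≤ nP j := by decide
      have h2 : (1 : ℝ) ≤ nP k := by exact_mod_cast this k hk
      simp only [scV]; linarith)
    (fun i => by simp [scV, T0 i])
    (fun q' _ hq' => by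
      have : mT w (Fin.natAdd 4 q') = 0 := if_neg (fl_wq w hw q' hq')
      simp [scV, this])
    (fun k _ => by
      have : (mT w k : ℝ) ≤ 1 := by exact_mod_cast T1 k
      simp only [scV]; linarith)
    (by simp [scV, rA]) (by simp [scV, rB])
  rw [nuv nP sP, nuv n1 s1, nuv (mT w) TZ, nuv (mR w) RZ, wz1_nP, wz1_n1] at key
  linarith


theorem bw1 : ∀ w ∈ ({2, 3, 4} : Finset ℕ), ∀ v : Fin 18, bW w v 1 = 0 := by decide
theorem bw4 : ∀ w ∈ ({2, 3} : Finset ℕ), ∀ v : Fin 18, bW w v 4 = 2 ∧ eW w 4 = 0 := by decide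

/-- **the slot `c` costs something in the window** -/
theorem closs (h : PtC B Bo I J co C κ u f K θ q V T s lam lo A φ r)
    {w : ℕ} (hw : w ∈ ({2, 3, 4} : Finset ℕ)) (hs2 : 2 < s) (hs3 : s ≠ 3) (hw4 : s = 4 → w ≠ 4)
    {D : Finset (Fin 18)} {v : Fin 14} {α : ℕ} {hd : Fin 14} (hc : CasOk w D v α hd) :
    ∃ N : ℕ, (s ≠ 4 → N = 0) ∧
      lam (scV 1 (fun k => bW w (Fin.natAdd 4 v) k + N * eW w k) + scV 1 n1) <
      lam (scV 1 (fun k => bW w (Fin.natAdd 4 v) k + N * eW w k) + scV 1 nP) := by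
  have hP := ptB_of h
  have hG := basG_of h
  have hM := hP.act
  have mem : ∀ (N : ℕ) (n : Fin 18 → ℕ), OkV (bW w (Fin.natAdd 4 v)) 1 n →
      scV 1 (fun k => bW w (Fin.natAdd 4 v) k + N * eW w k) + scV 1 n ∈
      coneM (mA monW (actW (DrW s))) := fun N n hn =>
    leg_coneN hM (wdat_lin (eW_nat w hw) (ew0 w hw).1 hc.wd N).off zero_le_one
      (leg_one hM (okV_lin (eW_nat w hw) hn N) zero_le_one)
  have b1 : bW w (Fin.natAdd 4 v) 1 = 0 := bw1 w hw _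
  by_cases h4 : s = 4
  · have hw' : w ∈ ({2, 3} : Finset ℕ) := by
      have := hw4 h4
      simp only [Finset.mem_insert, Finset.mem_singleton] at hw ⊢
      omega
    obtain ⟨b4, e4⟩ := bw4 w hw' (Fin.natAdd 4 v)
    have e1 : eW w 1 = 1 := (ew0 w hw).2.1
    obtain ⟨N, hN⟩ := exists_closs hP hG (y := 1) one_pos
    refine ⟨N, fun h => absurd h4 h, ?_⟩
    have hcl : lam (scV 1 (fun k => bW w (Fin.natAdd 4 v) k + N * eW w k) + scV 1 nP) -
        lam (scV 1 (fun k => bW w (Fin.natAdd 4 v) k + N * eW w k) + scV 1 n1) =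
        lam (wI 1 (N * 1)) - lam (wI 1 ((N + 1 : ℕ) * 1)) := by
      refine hP.slot (i := 1) (mem N nP hc.bok.p) (mem N n1 hc.wd.top)
        (wI_mem hM zero_le_one (by positivity)) (wI_mem hM zero_le_one (by positivity))
        (fun j hj _ => ?_) (fun j hj _ => ?_) ?_ ?_ (fun j e hj hD => ?_)
      · have : nP j = n1 j := by
          have : ∀ j : Fin 18, j ≠ 1 → nP j = n1 j := by decide
          exact this j hj
        simp [scV, this]
      · simp [wI, hj]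
      · have : nP 1 = 0 := rfl
        simp only [Pi.add_apply, scV, b1, e1, this, wI, if_true]
        push_cast; ring
      · have : n1 1 = 1 := rfl
        simp only [Pi.add_apply, scV, b1, e1, this, wI, if_true]
        push_cast; ring
      · rw [gC_zero.2 (TW_c s)] at e
        obtain ⟨-, rfl⟩ := grC hs2 hs3 (gC_zero.1 e) hj
        have hZ : (4 : Fin 18) ∈ Z9 := by decide
        have n4 : nP 4 = 1 := rfl
        simp only [Pi.add_apply, scV, b4, e4, n4, wI, if_neg hj, if_pos hZ]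
        push_cast; ring
    linarith
  · refine ⟨0, fun _ => rfl, ?_⟩
    obtain ⟨mm, hm, hsw⟩ := hG.sweep
    have h1 := hsw _ (mem 0 nP hc.bok.p) (by
      have : nP 1 = 0 := rfl
      simp [scV, b1, this]) (fun i hi h0 => absurd (grC hs2 hs3 h0 hi).1 h4) 1 zero_le_one
    have e : scV 1 (fun k => bW w (Fin.natAdd 4 v) k + 0 * eW w k) + scV 1 nP + (1 : ℝ) • e1W =
        scV 1 (fun k => bW w (Fin.natAdd 4 v) k + 0 * eW w k) + scV 1 n1 := by
      funext k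
      simp only [Pi.add_apply, Pi.smul_apply, smul_eq_mul, one_mul]
      by_cases hk : k = 1
      · subst hk
        have : e1W 1 = 1 := by simp [e1W]
        have a1 : nP 1 = 0 := rfl
        have a2 : n1 1 = 1 := rfl
        rw [this]
        simp only [scV, a1, a2]
        push_cast; ring
      · have : e1W k = 0 := by unfold e1W; rw [Pi.single_eq_of_ne hk]
        have a1 : nP k = n1 k := by
          have : ∀ j : Fin 18, j ≠ 1 → nP j = n1 j := by decide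
          exact this k hk
        rw [this]
        simp only [scV, a1, add_zero]
    rw [e] at h1
    linarith

/-- **an invisible slot costs nothing** -/
theorem seen_zero {Dr : Finset (Fin 18)} {a b κ' : Fin 18 → ℝ} {V' Tw : Fin 18 → Prop}
    (h : PtB B Bo I J co κ u f (mA monW (actW (Dr : Set (Fin 18)))) (Dr : Set (Fin 18)) C lam a b A
      φ r κ' V' Tw) {Wf : Finset (Fin 18)} {i : Fin 18} (hU : Pin851.Up2 Dr Wf i)
    (hv : i ∉ Dr → ¬ Pin851.Vis lam Wf i) {c c' : Fin 18 → ℝ}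
    (hc : c ∈ coneM (mA monW (actW (Dr : Set (Fin 18)))))
    (hc' : c' ∈ coneM (mA monW (actW (Dr : Set (Fin 18))))) (h1 : ∀ j, j ≠ i → c j = c' j)
    (h0 : 0 ≤ c i) (hcc : c i ≤ c' i)
    (hg : ∀ j, gC a b j = gC a b i → j ≠ i → i ∉ Dr → j ∉ Dr → c j = 0 ∧ j ∉ Wf) :
    lam c - lam c' ≤ 0 := by
  by_cases hiD : i ∈ Dr
  · rw [h.ind c hc c' hc' fun j hj => h1 j fun e => hj (by rw [e]; exact Finset.mem_coe.2 hiD),
      sub_self]
  by_contra hcon
  push Not at hcon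
  have hv' := hv hiD
  unfold Pin851.Vis at hv'
  push Not at hv'
  have hy' : 0 ≤ c' i := h0.trans hcc
  obtain ⟨x, hx, hlt⟩ := hv' (c' i) (lam c - lam c') hcon hy'
  have hx0 : 0 ≤ x := hy'.trans hx
  have ce := Pin851.cone_eq Dr
  have m0 : ind Wf x ∈ coneM (mA monW (actW (Dr : Set (Fin 18)))) := by
    rw [ce]; exact Pin851.mem_ind hU.1 hx0
  have m1 : ∀ y : ℝ, 0 ≤ y → y ≤ x → Function.update (ind Wf x) i y ∈
      coneM (mA monW (actW (Dr : Set (Fin 18)))) := fun y hy hyx => by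
    rw [ce]; exact Pin851.mem_upd hU.1 hU.2.1 hU.2.2 hy hyx
  have e := h.slot (i := i) hc hc' (m1 (c i) h0 (hcc.trans hx)) (m1 (c' i) hy' hx)
    (fun j hj _ => h1 j hj)
    (fun j hj _ => by rw [Function.update_of_ne hj, Function.update_of_ne hj])
    (by rw [Function.update_self]) (by rw [Function.update_self])
    (fun j hj1 hj2 hj3 => by
      obtain ⟨a1, a2⟩ := hg j hj1 hj2 hiD (fun hm => hj3 (Finset.mem_coe.2 hm))
      rw [Function.update_of_ne hj2, a1, ind_notMem a2])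
  have h2 := h.aew.anti _ m0 _ (m1 (c i) h0 (hcc.trans hx)) (fun k => by
    by_cases hk : k = i
    · subst hk
      rw [Function.update_self, ind_notMem hU.2.2]; exact h0
    · rw [Function.update_of_ne hk])
  linarith

theorem seen_ne' : ∀ w ∈ ({2, 3, 4} : Finset ℕ), ∀ i j : Fin 18, Seen w i → Seen w j →
    alW i = alW j → i = j := by decide

/-- the seen slots are in different groups -/
theorem seen_ne {w : ℕ} (hw : w ∈ ({2, 3, 4} : Finset ℕ)) (hθ : 0 < θ 1)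
    (hs : s = 1 - θ 0 + w * θ 1) (hs2 : 2 < s) (hs3 : s ≠ 3) {i j : Fin 18} (hi : Seen w i)
    (hj : Seen w j) (hiD : i ∉ DrW s) (hjD : j ∉ DrW s)
    (e : gC (TW s) (btW θ) j = gC (TW s) (btW θ) i) : j = i := by
  have hi0 := TW_seen hw hs hs2 hs3 hi hiD
  obtain ⟨ti, i4, -, -, -, -⟩ := seen_tau w hw i hi
  obtain ⟨tj, j4, -, -, -, -⟩ := seen_tau w hw j hj
  obtain ⟨hj0, hp⟩ := par_tau hθ hs hiD hjD hi0 e
  have ti' : ((wc i : ℝ) + w * wn i) = 1 := by exact_mod_cast ti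
  have tj' : ((wc j : ℝ) + w * wn j) = 1 := by exact_mod_cast tj
  rw [ti', tj', mul_one, mul_one, TW_flag i4 hiD, TW_flag j4 hjD] at hp
  have h1 : (alW i : ℝ) = alW j := by linarith
  exact (seen_ne' w hw i j hi hj (by exact_mod_cast h1)).symm

theorem upS : ∀ w ∈ ({2, 3, 4} : Finset ℕ), ∀ i : Fin 18, Seen w i →
    Pin851.Up2 {4, 5, 6, 8} (insert 0 (FL w) \ {4, 5, 6, 8}) i ∧
    Pin851.Up2 {4} (insert 0 (FL w) \ {4}) i ∧ Pin851.Up2 ∅ (insert 0 (FL w) \ ∅) i := by decide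

theorem bwS : ∀ w ∈ ({2, 3, 4} : Finset ℕ), ∀ v ∈ ZW w, ∀ j : Fin 18, j ∉ FL w →
    bW w v j = 0 := by decide
theorem mMS : ∀ w ∈ ({2, 3, 4} : Finset ℕ), ∀ j : Fin 18, j ≠ Fin.natAdd 4 (seenA w) →
    wz1 (mT w) j = wz1 (mM w) j := by decide
theorem mMR : ∀ w ∈ ({2, 3, 4} : Finset ℕ), ∀ j : Fin 18, j ≠ Fin.natAdd 4 (seenB w) →
    wz1 (mM w) j = wz1 (mR w) j := by decide
theorem mTA : ∀ w ∈ ({2, 3, 4} : Finset ℕ), ∀ j : Fin 18, wz1 (mT w) j ≤ wz1 (mM w) j ∧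
    wz1 (mM w) j ≤ wz1 (mR w) j ∧ (j ∉ insert 0 (FL w) → wz1 (mT w) j = 0 ∧
      (j ≠ Fin.natAdd 4 (seenA w) → wz1 (mM w) j = 0)) := by decide

/-- **a seen slot is visible** -/
theorem seen_vis (h : PtC B Bo I J co C κ u f K θ q V T s lam lo A φ r)
    (hS : SlotOkW θ (fun k => k ∈ V) (fun k => k ∈ T)) (hV : ∃ k, k ∈ V ∧ KW θ k = s)
    (hs2 : 2 < s) (hK : KW θ 15 ≠ s) (hres : ¬ LadT830.Reso θ s) {Dr : Finset (Fin 18)}
    (hDr : (Dr : Set (Fin 18)) = DrW s) (hDr' : Dr = {4, 5, 6, 8} ∨ Dr = {4} ∨ Dr = ∅) :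
    ∃ w ∈ ({2, 3, 4} : Finset ℕ), s = 1 - θ 0 + w * θ 1 ∧ s ≠ 3 ∧ (s = 4 → w ≠ 4) ∧
      ∃ i, Seen w i ∧ i ∉ Dr ∧ Pin851.Vis lam (insert 0 (FL w) \ Dr) i := by
  obtain ⟨v0, hvV, hvK, hvT, hmax⟩ := tied_max hS hV
  obtain ⟨⟨v4, v13, v16, v17⟩, -⟩ := hS.vis v0 hvV
  -- the weight
  have hwt : ∃ w ∈ ({2, 3, 4} : Finset ℕ), v0 ∈ ZW w := by
    have key : ∀ v : Fin 18, 4 ≤ v → v ≠ 13 → v ≠ 16 → v ≠ 17 → wc v = -1 ∨
        ∃ w ∈ ({2, 3, 4} : Finset ℕ), v ∈ ZW w := by decide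
    rcases key v0 v4 v13 v16 v17 with h1 | h1
    · exfalso
      apply hK
      rw [KW_flag θ (k := 15) (by decide), ← hvK, KW_flag θ v4, h1]
      have : wc 15 = -1 := by decide
      rw [this]
    · exact h1
  obtain ⟨w, hw, hvZ⟩ := hwt
  have hs : s = 1 - θ 0 + w * θ 1 := by
    have h1 := (zw_tau w hw v0 hvZ).2
    have hn : wn v0 = 1 := by
      have : ∀ k : Fin 18, 4 ≤ k → wn k = 1 := by decide
      exact this v0 v4
    rw [hn] at h1
    have h2 : wc v0 = -(w : ℤ) := by linarith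
    rw [← hvK, KW_flag θ v4, h2]
    push_cast; ring
  have reso : ∀ k ∈ ZW w, s ≠ alW k := fun k hk e => hres ⟨k, (zw_tau w hw k hk).1,
    KW_zw hw hs hk, by
      rw [LadT830.btW_KW θ (zw_tau w hw k hk).1, KW_zw hw hs hk, e, sub_self]⟩
  have hs3 : s ≠ 3 := by
    intro e
    have key : ∀ w ∈ ({2, 3, 4} : Finset ℕ), ∃ k ∈ ZW w, alW k = 3 := by decide
    obtain ⟨k, hk, hk3⟩ := key w hw
    exact reso k hk (by rw [hk3, e]; norm_num)
  have hw4 : s = 4 → w ≠ 4 := by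
    rintro e rfl
    exact reso 4 (by decide) (by
      have : alW 4 = 4 := by decide
      rw [this, e]; norm_num)
  have hθ := h.th1
  refine ⟨w, hw, hs, hs3, hw4, ?_⟩
  by_contra hcon
  push Not at hcon
  have memD : ∀ k, k ∈ Dr ↔ k ∈ DrW s := fun k => by rw [← hDr, Finset.mem_coe]
  have hD : ∀ k ∈ ZW w, k ∈ ZW w ∩ Dr ↔ k ∈ DrW s := fun k hk => by
    rw [Finset.mem_inter, memD]; exact ⟨fun h => h.2, fun h => ⟨hk, h⟩⟩
  have hvD : v0 ∉ Dr := fun hm => (vis_zw h hw hs ⟨hvV, hvK⟩).2 ((memD v0).1 hm)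
  obtain ⟨v, rfl, α, hd, hc, hh⟩ := cas_ex hDr' hw hvZ hvD
  obtain ⟨N, hN, hcl⟩ := closs h hw hs2 hs3 hw4 hc
  have hwin := win_core h hw hs hs2 hres hD hc (fun hm => hh ((memD _).2 hm)) hvV hvK hvT hmax N
  have hP := ptB_of h
  rw [← hDr] at hP
  have hM := hP.act
  set n0 : Fin 18 → ℕ := fun k => bW w (Fin.natAdd 4 v) k + N * eW w k with hn0
  have mem : ∀ n : Fin 18 → ℕ, OkV (bW w (Fin.natAdd 4 v)) 1 n → scV 1 n0 + scV 1 n ∈
      coneM (mA monW (actW (Dr : Set (Fin 18)))) := fun n hn =>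
    leg_coneN hM (wdat_lin (eW_nat w hw) (ew0 w hw).1 hc.wd N).off zero_le_one
      (leg_one hM (okV_lin (eW_nat w hw) hn N) zero_le_one)
  have hup : ∀ i, Seen w i → Pin851.Up2 Dr (insert 0 (FL w) \ Dr) i := by
    intro i hi
    obtain ⟨u1, u2, u3⟩ := upS w hw i hi
    rcases hDr' with rfl | rfl | rfl
    · exact u1
    · exact u2
    · exact u3
  have grp : ∀ i, Seen w i → i ∉ Dr → ∀ j, gC (TW s) (btW θ) j = gC (TW s) (btW θ) i → j ≠ i →
      j ∉ Dr → j ∉ insert 0 (FL w) ∧ n0 j = 0 := by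
    intro i hi hiD j e hj hjD
    obtain ⟨g1, g2, g3⟩ := seen_grp hw hθ hs hs2 hs3 hi (fun hm => hiD ((memD i).2 hm))
      (fun hm => hjD ((memD j).2 hm)) e hj
    refine ⟨g1, ?_⟩
    have hb : bW w (Fin.natAdd 4 v) j = 0 := bwS w hw _ hvZ j fun hm =>
      g1 (Finset.mem_insert_of_mem hm)
    show bW w (Fin.natAdd 4 v) j + N * eW w j = 0
    rw [hb, zero_add]
    by_cases h4 : s = 4
    · have : eW w j = 0 := if_neg (g3 h4 (hw4 h4))
      rw [this, mul_zero]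
    · rw [hN h4, zero_mul]
  have sA : Seen w (Fin.natAdd 4 (seenA w)) := Or.inl rfl
  have sB : Seen w (Fin.natAdd 4 (seenB w)) := Or.inr rfl
  have nn : ∀ (n : Fin 18 → ℕ) (k : Fin 18), (scV 1 n0 + scV 1 n) k = (n0 k : ℝ) + n k := by
    intro n k; simp [scV]
  have zA : lam (scV 1 n0 + scV 1 (wz1 (mT w))) - lam (scV 1 n0 + scV 1 (wz1 (mM w))) ≤ 0 := by
    refine seen_zero hP (i := Fin.natAdd 4 (seenA w)) (hup _ sA) (fun hi => hcon _ sA hi)
      (mem _ hc.bok.t) (mem _ hc.okM) (fun j hj => ?_) ?_ ?_ (fun j e hj hiD hjD => ?_)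
    · rw [nn, nn, mMS w hw j hj]
    · rw [nn]; positivity
    · rw [nn, nn]
      have : ((wz1 (mT w) (Fin.natAdd 4 (seenA w)) : ℕ) : ℝ) ≤ wz1 (mM w) (Fin.natAdd 4 (seenA w)) :=
        by exact_mod_cast (mTA w hw _).1
      linarith
    · obtain ⟨g1, g2⟩ := grp _ sA hiD j e hj hjD
      refine ⟨?_, fun hm => g1 (Finset.mem_sdiff.1 hm).1⟩
      rw [nn, g2, ((mTA w hw j).2.2 g1).1]
      norm_num
  have zB : lam (scV 1 n0 + scV 1 (wz1 (mM w))) - lam (scV 1 n0 + scV 1 (wz1 (mR w))) ≤ 0 := by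
    by_cases hAB : seenA w = seenB w
    · have e : wz1 (mM w) = wz1 (mR w) := by
        funext k
        unfold wz1 mM mR
        rw [← hAB]
        simp only [or_self]
      rw [e, sub_self]
    have hne : Fin.natAdd 4 (seenA w) ≠ Fin.natAdd 4 (seenB w) := fun e => hAB
      (Fin.natAdd_inj _ |>.1 e)
    refine seen_zero hP (i := Fin.natAdd 4 (seenB w)) (hup _ sB) (fun hi => hcon _ sB hi)
      (mem _ hc.okM) (mem _ hc.bok.r) (fun j hj => ?_) ?_ ?_ (fun j e hj hiD hjD => ?_)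
    · rw [nn, nn, mMR w hw j hj]
    · rw [nn]; positivity
    · rw [nn, nn]
      have : ((wz1 (mM w) (Fin.natAdd 4 (seenB w)) : ℕ) : ℝ) ≤ wz1 (mR w) (Fin.natAdd 4 (seenB w)) :=
        by exact_mod_cast (mTA w hw _).2.1
      linarith
    · obtain ⟨g1, g2⟩ := grp _ sB hiD j e hj hjD
      refine ⟨?_, fun hm => g1 (Finset.mem_sdiff.1 hm).1⟩
      have hjA : j ≠ Fin.natAdd 4 (seenA w) := by
        rintro rfl
        exact hj (seen_ne hw hθ hs hs2 hs3 sB sA (fun hm => hiD ((memD _).2 hm))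
          (fun hm => hjD ((memD _).2 hm)) e)
      rw [nn, g2, ((mTA w hw j).2.2 g1).2 hjA]
      norm_num
  linarith

end pt

end Crest.Agent.R136.Vw848
end

-- ▼ part R136/RwY_848

/-!
# R136 (helper848): **row `deadhi2` of the thin ladder**

`deadhi2 : DeadC fun g θ V s => Top θ (· ∈ V) s ∧ 2 < s ∧ KW θ 15 ≠ s ∧ ¬ Reso θ s`
-/

set_option autoImplicit false
set_option linter.unusedSectionVars false
set_option linter.unusedVariables false

open Filter Topology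

namespace Crest.Agent.R136.Vw848

open Finset Crest.Agent.R136.NetW191 Crest.Agent.R136.Net191 Crest.Agent.R136.Qg926
open Crest.Agent.R136.EvW938 Crest.Agent.R136.RowW619
open Crest.Agent.R136.Bas938
open Crest.Agent.R136.LadW697 Crest.Agent.R136.NatW697 Crest.Agent.R136.PrW464
open Crest.Agent.R136.AwJ774
open Crest.Agent.R136.ThB830 (PtC)
open Crest.Agent.R136.LadT830 (Top)
open Crest.Agent.R136.Aw413
open Crest.Agent.R138.Ex926 (Base U)

/-- the dropped slots -/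
theorem dr3' {s : ℝ} (h2 : 2 < s) {Dr : Finset (Fin 18)} (hD : (Dr : Set (Fin 18)) = DrW s) :
    Dr = {4, 5, 6, 8} ∨ Dr = {4} ∨ Dr = ∅ := by
  have mem : ∀ k, k ∈ Dr ↔ (4 ≤ k ∧ s < alW k) := fun k => by
    rw [← Finset.mem_coe, hD]; rfl
  rcases lt_or_ge s 3 with h3 | h3
  · left
    ext k
    have key : ∀ k : Fin 18, k ∈ ({4, 5, 6, 8} : Finset (Fin 18)) ↔ 4 ≤ k ∧ 3 ≤ alW k := by decide
    rw [key, mem]
    refine and_congr_right fun _ => ⟨fun h => ?_, fun h => ?_⟩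
    · have h5 : (2 : ℝ) < alW k := by linarith
      have h6 : (2 : ℤ) < alW k := by exact_mod_cast h5
      omega
    · have : (3 : ℝ) ≤ alW k := by exact_mod_cast h
      linarith
  rcases lt_or_ge s 4 with h4 | h4
  · right; left
    ext k
    have key : ∀ k : Fin 18, k ∈ ({4} : Finset (Fin 18)) ↔ 4 ≤ k ∧ 4 ≤ alW k := by decide
    rw [key, mem]
    refine and_congr_right fun _ => ⟨fun h => ?_, fun h => ?_⟩
    · have h5 : (3 : ℝ) < alW k := by linarith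
      have h6 : (3 : ℤ) < alW k := by exact_mod_cast h5
      omega
    · have : (4 : ℝ) ≤ alW k := by exact_mod_cast h
      linarith
  · right; right
    refine Finset.eq_empty_of_forall_notMem fun k hk => ?_
    obtain ⟨-, h5⟩ := (mem k).1 hk
    have key : ∀ k : Fin 18, alW k ≤ 4 := by decide
    have : (alW k : ℝ) ≤ 4 := by exact_mod_cast key k
    linarith

section pt

variable {B Bo : Base} {I J : ∀ n : ℕ, Finset (ℕ × ℝ)}
  {co : ∀ n : ℕ, ℕ × ℝ → ℕ × ℝ → Fin 18 → ℝ} {κ : ℕ → ℝ} {u : ℕ → Fin 18 → ℝ}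
  {f : ∀ n : ℕ, ℕ × ℝ → FW} {C : ℝ}
  {lam : (Fin 18 → ℝ) → ℝ} {A : ℝ × ℝ} {φ : ℕ → (Fin 18 → ℝ) → ℝ}
  {r : ℕ → ℝ} {K : ℝ} {θ q : Fin 3 → ℝ} {V T : Set (Fin 18)} {s : ℝ} {lo : (Fin 18 → ℝ) → ℝ}

/-- **full loss** -/
theorem full_hi2 (h : PtC B Bo I J co C κ u f K θ q V T s lam lo A φ r)
    (hS : SlotOkW θ (fun k => k ∈ V) (fun k => k ∈ T)) (hV : ∃ k, k ∈ V ∧ KW θ k = s)
    (hs2 : 2 < s) (hK : KW θ 15 ≠ s) (hres : ¬ LadT830.Reso θ s) : 3 + s ≤ -A.1 := by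
  obtain ⟨Dr, hDr⟩ : ∃ Dr : Finset (Fin 18), (Dr : Set (Fin 18)) = DrW s :=
    ⟨(Set.toFinite _).toFinset, Set.Finite.coe_toFinset _⟩
  obtain ⟨w, hw, hs, h3, hw4, i, hi, hiD, hv⟩ := seen_vis h hS hV hs2 hK hres hDr (dr3' hs2 hDr)
  have hw' : w = 2 ∨ w = 3 ∨ w = 4 := by simpa using hw
  rcases hw' with rfl | rfl | rfl
  · have e : insert 0 (FL 2) = ({0, 4, 5, 6, 7, 8, 9, 10, 11, 14} : Finset (Fin 18)) := by decide
    have hs' : s = 1 - θ 0 + ((2 : ℤ) : ℝ) * θ 1 := by push_cast at hs ⊢; exact hs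
    rw [e] at hv
    rcases hi with rfl | rfl
    · exact KHt938.chain12 h hDr.symm hs2 h3 hs' hv
    · exact KHt938.chain15 h hDr.symm hs2 h3 hs' hv
  · have e : insert 0 (FL 3) = ({0, 4, 5, 6, 7, 9} : Finset (Fin 18)) := by decide
    have hs' : s = 1 - θ 0 + ((3 : ℤ) : ℝ) * θ 1 := by push_cast at hs ⊢; exact hs
    rw [e] at hv
    rcases hi with rfl | rfl
    · exact KHt938.chain14 h hDr.symm hs2 h3 hs' hv
    · exact KHt938.chain14 h hDr.symm hs2 h3 hs' hv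
  · have e : insert 0 (FL 4) = ({0, 4, 5, 7} : Finset (Fin 18)) := by decide
    have hs' : s = 1 - θ 0 + ((4 : ℤ) : ℝ) * θ 1 := by push_cast at hs ⊢; exact hs
    have h4 : s ≠ 4 := fun h => hw4 h rfl
    rw [e] at hv
    rcases hi with rfl | rfl
    · exact KHt938.chain9 h hDr.symm hs2 h3 hs' h4 hv
    · refine KHt938.chain6 h hDr.symm hs2 h3 hs' h4 ?_ hv
      by_contra h5
      push Not at h5
      refine hiD ?_
      rw [← Finset.mem_coe, hDr]
      have h6 : alW (Fin.natAdd 4 (seenB 4)) = 3 := by decide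
      refine ⟨by decide, ?_⟩
      rw [h6]
      push_cast
      exact lt_of_le_of_ne h5 h3

end pt

/-- **row `deadhi2`** : `K > 2`, the dominant slots have `c`-weight `≥ 2`, no resonance -/
theorem deadhi2 : DeadC fun g θ V s =>
    Top θ (fun k => k ∈ V) s ∧ 2 < s ∧ KW θ 15 ≠ s ∧ ¬ LadT830.Reso θ s := by
  refine ThB830.deadC_of (fun g θ V s h => ⟨by linarith [h.2.1], h.1.2⟩) ?_
  intro P ν own K r0 θ g q V T s h hp
  have hg := h.g0
  refine ⟨g / 2, by linarith, fun B Bo I J co C κ u f lam lo A φ r hP => ?_⟩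
  obtain ⟨⟨hV, -⟩, hs, hK, hres⟩ := hp
  have h1 := full_hi2 hP h.slots hV hs hK hres
  have h2 := ThB830.full_enough (g := g) (q := q) (C := 0) (s := s) (A := A) (by linarith)
  have h3 := h.qt
  have h4 : s - 1 ≤ max (-(θ 0)) 0 + 4 * |θ 1| := by
    obtain ⟨k, hk, hkK⟩ := hV
    have hk4 := (hP.vis k hk).1
    rw [← hkK, KW_flag θ hk4]
    have a0 := le_max_left (-(θ 0)) 0
    have key : ∀ k : Fin 18, |wc k| ≤ 4 := by decide
    have a1 : |(wc k : ℝ)| ≤ 4 := by exact_mod_cast key k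
    have a2 : -((wc k : ℝ) * θ 1) ≤ |(wc k : ℝ)| * |θ 1| := by
      rw [← abs_mul]; exact neg_le_abs _
    have a3 := mul_le_mul_of_nonneg_right a1 (abs_nonneg (θ 1))
    linarith
  have h5 := mul_le_mul_of_nonneg_left h4 h.q0
  linarith

end Crest.Agent.R136.Vw848
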