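import Crest.Agent.R136.RowI3_938
import Crest.Agent.R136.Pin4_851
import Crest.Agent.R136.PinF_851
import Crest.Agent.R136.P1c_830
import Crest.Agent.R136.PZ_830_Mg
import Crest.Agent.R136.RwY_848_Mg
import Crest.Agent.R136.LadG1_697
import Crest.Agent.R136.RL0_478
import Crest.Agent.R136.Rt5_478
import Crest.Agent.R136.RL3_626
import Crest.Agent.R136.Int3_599
import Crest.Agent.R136.RL4_626
import Crest.Agent.R136.Rn5_648
import Crest.Agent.R136.Rn6_648
import Crest.Agent.R136.RL8_478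
import Crest.Agent.R136.PrW3_464
import Crest.Agent.R136.GauW_619
import Crest.Agent.R136.Lq6_196
import Crest.Agent.R136.NatW2_697
import Crest.Agent.R136.OwW1_831
import Crest.Agent.R136.OwW4_831

-- ▼ part R136/Rws_938
section

/-!
# R136 (helper938): the non-resonant rows of the thin ladder in one structure

* `rowsC_of` : `RowsC` from the two rows `pin3`, `deadhi2`
* `rowsC_pin3` : `RowsC` from the row `pin3` alone
-/

set_option autoImplicit false
set_option linter.unusedVariables false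

namespace Crest.Agent.R136.Rws938

open Crest.Agent.R136.NetW191 Crest.Agent.R136.LadW697 Crest.Agent.R136.LadT830
open Crest.Agent.R136.NatW697 Crest.Agent.R136.LadG697

/-- **all rows without the gauges**, two rows as hypotheses -/
theorem rowsC_of (pin3 : PinC 3 fun θ V => ∀ k ∈ V, KW θ k < 3)
    (deadhi2 : DeadC fun g θ V s =>
      Top θ (fun k => k ∈ V) s ∧ 2 < s ∧ KW θ 15 ≠ s ∧ ¬ Reso θ s) : RowsC where
  pin4 := Pin851.pin4C
  pin3 := pin3
  pin2 := Pin851.pin2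
  pin1 := P1c830.pin1
  dead0 := PZ830.dead0C
  deadlow := DLow619.deadlow
  deadhi1 := RowI938.deadhi1
  deadhi2 := deadhi2
  pin2z := PZ830.pinZ_of_zero (fun k hk => hk) _
  pin1z := PZ830.pinZ_of_zero (fun k hk => hk) _


end Crest.Agent.R136.Rws938
end

-- ▼ part R136/RLi_66
section

/-!
# R136, thin branch (helper66): interior law of the walls `(2,2)` and `(2,1)`

* **`intLaw_thin`** : `ThinF` at the interior tangent gives `IntLaw` for `(j, {q}) = (7, {10})` and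
  `(8, {11})` (from 478's `strip_intW`, the gauge is constant on the classes).
* **`exists_intLaw2`** : a stage of slope `2` at a resonant wall has an interior tangent with `IntLaw`.
-/

set_option autoImplicit false
set_option linter.unusedVariables false

open Finset Filter Topology

namespace Crest.Agent.R136.RL66

open Crest.Agent.R136.Net191
open Crest.Agent.R136.NetW191
open Crest.Agent.R136.PrW464
open Crest.Agent.R136.NatW697
open Crest.Agent.R136.LadW697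
open Crest.Agent.R136.LadG697
open Crest.Agent.R136.Zpr779
open Crest.Agent.R136.Qg926
open Crest.Agent.R136.EvW938
open Crest.Agent.R136.Bas938
open Crest.Agent.R136.Aw413 Crest.Agent.R136.Gf356 Crest.Agent.R136.Dg219
open Crest.Agent.R136.AwJ774
open Crest.Agent.R136.K2S774
open Crest.Agent.R136.Rt478 (ThinF PLaw n0T ntT ST wdT strip_intW)
open Crest.Agent.R136.RL478 (OLaw OwC IntLaw)
open Crest.Agent.R138.Ex926

/-- the three data of a wall of the rung `2` -/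
def Wl2 (q : Fin 14) (Vp : Fin 4) (j : Fin 14) : Prop :=
  (q = 10 ∧ Vp = 3 ∧ j = 7) ∨ (q = 11 ∧ Vp = 2 ∧ j = 8)

theorem Wl2.hq {q : Fin 14} {Vp : Fin 4} {j : Fin 14} (h : Wl2 q Vp j) :
    (q = 10 ∧ Vp = 3) ∨ (q = 11 ∧ Vp = 2) := h.imp (fun e => ⟨e.1, e.2.1⟩) fun e => ⟨e.1, e.2.1⟩

theorem Wl2.mem {q : Fin 14} {Vp : Fin 4} {j : Fin 14} (h : Wl2 q Vp j) :
    [0, Fin.natAdd 4 j] ∈ mlW (Fin.natAdd 4 q) := by
  rcases h with ⟨rfl, -, rfl⟩ | ⟨rfl, -, rfl⟩ <;> decide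

theorem Wl2.mem17 {q : Fin 14} {Vp : Fin 4} {j : Fin 14} (h : Wl2 q Vp j) :
    [Fin.castAdd 14 Vp, Fin.natAdd 4 q] ∈ mlW 17 := by
  rcases h with ⟨rfl, rfl, -⟩ | ⟨rfl, rfl, -⟩ <;> decide

theorem Wl2.tr {q : Fin 14} {Vp : Fin 4} {j : Fin 14} (h : Wl2 q Vp j) (κ z : ℝ) :
    NetW191.tr κ (sh z) (Pi.single j 1) q - (Pi.single j 1 : Fin 14 → ℝ) q = z := by
  rcases h with ⟨rfl, -, rfl⟩ | ⟨rfl, -, rfl⟩
  · simp [NetW191.tr, sh]
  · simp [NetW191.tr, sh]

/-- **[RIG-0] in the form `IntLaw`** -/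
theorem intLaw_thin {θ : Fin 3 → ℝ} {s a : ℝ} {V Dr : Set (Fin 18)} {lamI : (Fin 18 → ℝ) → ℝ}
    {q j : Fin 14} {Vp : Fin 4} (hw : Wl2 q Vp j)
    (hD : ∀ k ∈ ({0, 16, 17, Fin.castAdd 14 Vp, Fin.natAdd 4 q, Fin.natAdd 4 j} :
      Finset (Fin 18)), k ∉ Dr)
    (hV : ∀ k ∈ V, KW θ k = s → n0T q k = 0)
    (H : ThinF (mA monW (actW Dr)) lamI q Vp a) : IntLaw θ s V Dr lamI j {q} := by
  intro B B' I0 J κ u F Y w T hu hκ hκS bas hZ η hη hη1
  have hq' : q = 10 ∨ q = 11 := hw.hq.imp (fun e => e.1) fun e => e.1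
  have hd := wdT hq'
  have hn00 : n0T q 0 = 0 := hd.z0
  have n0q : n0T q (Fin.natAdd 4 q) = 0 := by rcases hq' with rfl | rfl <;> decide
  have D0 : (0 : Fin 18) ∉ Dr := hD 0 (by simp)
  have D16 : (16 : Fin 18) ∉ Dr := hD 16 (by simp)
  have D17 : (17 : Fin 18) ∉ Dr := hD 17 (by simp)
  have DV : Fin.castAdd 14 Vp ∉ Dr := hD _ (by simp)
  have Dq : Fin.natAdd 4 q ∉ Dr := hD _ (by simp)
  have Dj : Fin.natAdd 4 j ∉ Dr := hD _ (by simp)
  -- tight walls
  have hact : ∀ (k : Fin 18) (l : List (Fin 18)), k ∉ Dr → l ∈ mlW k → (∀ s ∈ l, s ∉ Dr) →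
      ∀ n, Y n k = (l.map (Y n)).sum := by
    intro k l hk hl hs n
    have h1 := bas.act k _ ((actM_mA Dr).iff k (fun s => l.count s) |>.2 ⟨hk, l, hl, hs, rfl⟩) n
    exact h1.trans (sum_count l (Y n)).symm
  have tP : ∀ n, Y n 17 = Y n 0 + Y n 16 := fun n => by
    have := hact 17 [0, 16] D17 (by decide) (by simp [D0, D16]) n
    simpa using this
  have tV : ∀ n, Y n 17 = Y n (Fin.castAdd 14 Vp) + Y n (Fin.natAdd 4 q) := fun n => by
    have := hact 17 _ D17 hw.mem17 (by simp [DV, Dq]) n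
    simpa using this
  have tq : ∀ n, Y n (Fin.natAdd 4 q) = Y n 0 + Y n (Fin.natAdd 4 j) := fun n => by
    have := hact _ _ Dq hw.mem (by simp [D0, Dj]) n
    simpa using this
  have hZ' : ZWin B B' I0 J (coU u κ F) monW 67 Y w (coneM (mA monW (actW Dr))) T lamI := by
    rw [coneM_mA]; exact hZ
  obtain ⟨y₀, hy0, hy1, J1, hJ1, hev⟩ := strip_intW hZ' (actM_mA Dr)
    (fun n i _ i' _ k => rfl) hu hκ H hw.hq one_pos (Eventually.of_forall tP)
    (Eventually.of_forall tV) hη hη1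
  have hc : scV 1 (n0T q) ∈ cn QW (actW Dr) := by
    have : scV 1 (n0T q) ∈ coneM (mA monW (actW Dr)) := by
      rw [(actM_mA Dr).cone]
      intro k _ l hl _
      rw [sum_scV]
      exact mul_le_mul_of_nonneg_left (by exact_mod_cast hd.off k l hl) zero_le_one
    rwa [coneM_mA] at this
  have hcw : OwC θ s V (scV 1 (n0T q)) := by
    refine ⟨by simp [scV, hn00], fun k hk hks => ?_⟩
    simp [scV, hV k hk hks]
  have hcn : ‖scV 1 (n0T q)‖ ≤ 1 := by
    refine (pi_norm_le_iff_of_nonneg zero_le_one).2 fun k => ?_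
    have : n0T q k ≤ 1 := by
      rcases hq' with rfl | rfl <;> (revert k; decide)
    rw [Real.norm_eq_abs]
    simp only [scV, one_mul, Nat.abs_cast]
    exact_mod_cast this
  refine ⟨y₀, hy0, hy1, _, hc, _, hc, hcw, hcw, hcn, hcn, J1, hJ1, ?_⟩
  filter_upwards [hev] with n hn
  refine ⟨hn.1, fun i hi => ?_⟩
  obtain ⟨mu, h1, h2⟩ := hn.2 i hi
  have hu0 := (hu n).pos 0
  have huq := (hu n).pos (Fin.natAdd 4 q)
  have huj := (hu n).pos (Fin.natAdd 4 j)
  have hg : u n 0 * u n (Fin.natAdd 4 j) = u n (Fin.natAdd 4 q) := by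
    have := (hu n).mul _ _ hw.mem
    simpa using this
  have eD : ∀ k, n0T q k = 0 → (Y n + w n • scV 1 (n0T q)) k = Y n k := by
    intro k hk
    simp [scV, hk]
  have hDp : ∀ v : ℝ, 0 < B.d n ^ v := fun v => Real.rpow_pos_of_pos (B.pos n) v
  set S1 := cls (J1 n) (fun x => (zlab B I0 (coU u κ F) monW 67 Y w n (scV 1 (n0T q)) x,
    zlab B I0 (coU u κ F) monW 67 Y w n (scV 1 (n0T q)) x)) i with hS1
  have hsub : S1 ⊆ cls (J1 n) (zlab B I0 (coU u κ F) monW 67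
      (fun n => Y n + w n • scV 1 (n0T q)) w n 0) i := by
    intro x hx
    obtain ⟨g1, g2⟩ := mem_cls.1 hx
    refine mem_cls.2 ⟨g1, ?_⟩
    have g3 := congrArg Prod.fst g2
    have e : ∀ x, zlab B I0 (coU u κ F) monW 67 (fun n => Y n + w n • scV 1 (n0T q)) w n 0 x =
        zlab B I0 (coU u κ F) monW 67 Y w n (scV 1 (n0T q)) x := fun x => by
      unfold zlab
      rw [smul_zero, add_zero]
    rw [e, e]
    exact g3
  refine ⟨fun _ => mu * u n 0 / u n (Fin.natAdd 4 q), fun i₁ hi₁ => ⟨?_, fun i₂ hi₂ _ => ⟨?_,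
    fun q' hq1 => ?_⟩⟩⟩
  · have e1 : u n (Fin.natAdd 4 j) * |mu * u n 0 / u n (Fin.natAdd 4 q)| = |mu| := by
      rw [abs_div, abs_mul, abs_of_pos hu0, abs_of_pos huq, ← hg]
      field_simp
    rw [e1]
    have h3 : |mu| * B.d n ^ Y n 0 ≤ B'.d n ^ (-(2 * η * y₀)) *
        (B.d n ^ Y n 0 * B.d n ^ Y n (Fin.natAdd 4 j)) := by
      have := h1
      rw [eD 0 hn00, eD _ n0q, tq n, Real.rpow_add (B.pos n)] at this
      exact this
    have h4 : |mu| * B.d n ^ Y n 0 ≤ (B'.d n ^ (-(2 * η * y₀)) *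
        B.d n ^ Y n (Fin.natAdd 4 j)) * B.d n ^ Y n 0 := by
      refine h3.trans (le_of_eq (by ring))
    exact le_of_mul_le_mul_right h4 (hDp _)
  · rw [sub_self, abs_zero, mul_zero]
    exact (mul_pos (Real.rpow_pos_of_pos (B'.pos n) _) (hDp _)).le
  · rw [Finset.mem_singleton] at hq1
    subst hq1
    have h3 := h2 i₁ (hsub hi₁) i₂ (hsub hi₂)
    rw [eD _ n0q] at h3
    rw [hw.tr]
    have e2 : u n (Fin.natAdd 4 q') * |coW (κ n) (F n i₁) (F n i₂) (Fin.natAdd 4 q') -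
        mu * u n 0 / u n (Fin.natAdd 4 q') * coW (κ n) (F n i₁) (F n i₂) 0| =
        |coU u κ F n i₁ i₂ (Fin.natAdd 4 q') - mu * coU u κ F n i₁ i₂ 0| := by
      have hq0 : u n (Fin.natAdd 4 q') ≠ 0 := huq.ne'
      rw [← abs_of_pos huq, ← abs_mul, abs_of_pos huq]
      congr 1
      unfold coU
      field_simp
    rw [e2]
    exact h3

/-- the resonant walls of slope `2` -/
theorem Wl2.intLaw {θ : Fin 3 → ℝ} {a : ℝ} {V : Set (Fin 18)} {lamI : (Fin 18 → ℝ) → ℝ}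
    {q j : Fin 14} {Vp : Fin 4} (hw : Wl2 q Vp j) (W : RL626.WallJ θ 2 j {q})
    (vis : ∀ k ∈ V, 4 ≤ k ∧ 0 < btW θ k)
    (H : ThinF (mA monW (actW (DrW 2))) lamI q Vp a) : IntLaw θ 2 V (DrW 2) lamI j {q} := by
  refine intLaw_thin hw (fun k hk => ?_) (fun k hk hks => ?_) H
  · have key : ∀ (k : Fin 18), k ∈ ({0, 16, 17, Fin.castAdd 14 Vp, Fin.natAdd 4 q,
        Fin.natAdd 4 j} : Finset (Fin 18)) → ¬ (4 ≤ k ∧ 2 < alW k) := by
      rcases hw with ⟨rfl, rfl, rfl⟩ | ⟨rfl, rfl, rfl⟩ <;> decide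
    intro hD
    refine key k hk ⟨hD.1, ?_⟩
    have := hD.2
    exact_mod_cast this
  · obtain ⟨h4, hb⟩ := vis k hk
    have e : Fin.natAdd 4 (⟨k.val - 4, by omega⟩ : Fin 14) = k := by
      apply Fin.ext
      have : (4 : ℕ) ≤ k.val := h4
      simp only [Fin.natAdd]
      omega
    have hq := W.all ⟨k.val - 4, by omega⟩ (by rw [e]; exact hks) (by rw [e]; exact hb)
    rw [mem_singleton] at hq
    rw [← e, hq]
    rcases hw with ⟨rfl, rfl, rfl⟩ | ⟨rfl, rfl, rfl⟩ <;> decide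

/-- **a stage of slope `2` at a resonant wall** has an interior tangent with the law of the wall -/
theorem exists_intLaw2 {P : Set (Fin 18 → ℝ)} {ν own : (Fin 18 → ℝ) → ℝ} {K : ℝ}
    {r0 : Fin 18 → ℝ} {θ : Fin 3 → ℝ} {g : ℝ} {qq : Fin 3 → ℝ} {V0 T : Set (Fin 18)}
    {lam lo : (Fin 18 → ℝ) → ℝ} {q j : Fin 14} {Vp : Fin 4} (hw : Wl2 q Vp j)
    (W : RL626.WallJ θ 2 j {q}) (h : CtxW P ν own K r0 θ g qq V0 T)
    (hst : StW P ν own K r0 θ g qq V0 2 lam lo) (hs : ∀ k ∈ V0, KW θ k ≤ 2)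
    (vis : ∀ k ∈ V0, 4 ≤ k ∧ 0 < btW θ k) :
    ∃ z : ℝ × ℝ, z.1 < 0 ∧ ∃ k : ℕ → ℝ, (∀ l, 0 < k l) ∧ Tendsto k atTop (𝓝 0) ∧
      ∃ (lamI loI : (Fin 18 → ℝ) → ℝ),
        IsTan (cn QW (actW (DrW 2))) (cn QW (actW (DrW 2))) lam
          (fun _ => Dg262.X 0 (TW 2) (btW θ) z) k lamI ∧
        IsTan (cn QW (actW (DrW 2))) (cn QW (actW (DrW 2))) lo
          (fun _ => Dg262.X 0 (TW 2) (btW θ) z) k loI ∧
        IntLaw θ 2 V0 (DrW 2) lamI j {q} := by
  obtain ⟨z, hz, k, kpos, k0, lamI, loI, a, H1, H2, HF⟩ := Rt478.hasRigW h hst hs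
    (q := q) (V := Vp) ⟨hw.hq, (W.pos q (mem_singleton_self q)).1⟩
  exact ⟨z, hz, k, kpos, k0, lamI, loI, H1, H2, hw.intLaw W vis HF⟩

end Crest.Agent.R136.RL66
end

-- ▼ part R136/Int4_599
section

/-!
# R136 (helper599): the wall resonances in an interior window, part 4: 478's `IntLaw`

* `own_e` : own change of the gauge `e i = ψ - coW(x0, i)_j` (cocycle + `tr_lip`).
* `olaw_of` : from `ResAy` (labels at `1`, precision `y`) to `OLaw`.
* **`intLaw_AY`, `intLaw_YY`, `intLaw_zY`, `intLaw_BY`** : `IntLaw` from the numbers of the tangent.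
-/

set_option autoImplicit false
set_option linter.unusedVariables false
set_option linter.unusedSectionVars false

open Filter Topology

namespace Crest.Agent.R136.Int599

open Finset Crest.Agent.R136.NetW191 Crest.Agent.R136.Net191 Crest.Agent.R136.Qg926
open Crest.Agent.R136.EvW938 Crest.Agent.R136.Bas938 Crest.Agent.R136.Gf356
open Crest.Agent.R136.Aw413 Crest.Agent.R136.Dg219
open Crest.Agent.R136.Res2648 Crest.Agent.R136.Inv599
open Crest.Agent.R136.Rnl648 (S0 NumW NumR NumB ResA)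
open Crest.Agent.R136.LadG697 (coU)
open Crest.Agent.R136.LadW697 (QW WW actW)
open Crest.Agent.R136.NatW697 (KW)
open Crest.Agent.R136.AwJ774 (mA mem_mA coneM_mA)
open Crest.Agent.R136.K2S774 (cn)
open Crest.Agent.R136.RL478 (OLaw OwC IntLaw)
open Crest.Agent.R136.AwZ146 (BasX)
open Crest.Agent.R138.Ex926 (Base U cls)
open Crest.Agent.R138.Dp76 (Dense)

/-- **own change of the gauge** -/
theorem own_e {κ : ℝ} (hκ : |κ| ≤ 1) {X : Fin 18 → ℝ} (hX : SidesW X) {K τ : ℝ} (hK : 1 ≤ K)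
    (hτ : 0 ≤ τ) (hτ1 : τ ≤ 1) {r x x' : FW} {j : Fin 14} {R0 : ℝ}
    (h1 : ∀ s, |coW κ r x s| ≤ K * X s) (h2 : ∀ s, |coW κ x x' s| ≤ K * X s)
    (h3 : ∀ i : Fin 4, i ≠ 0 → |coW κ x x' (Fin.castAdd 14 i)| ≤ K * τ * X (Fin.castAdd 14 i))
    (h4 : |coW κ x x' (Fin.natAdd 4 j)| ≤ K * τ * X (Fin.natAdd 4 j))
    (h5 : |tr κ (sh (coW κ x x' 0)) (flg (coW κ r x)) j - flg (coW κ r x) j| ≤ R0) :
    |coW κ r x' (Fin.natAdd 4 j) - coW κ r x (Fin.natAdd 4 j)| ≤
      (K + 470 * K ^ 7) * τ * X (Fin.natAdd 4 j) + R0 := by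
  have hK0 : 0 ≤ K := by linarith
  have e1 := congrFun (cocycle κ r x x') j
  rw [Pi.add_apply] at e1
  rw [← coW_right, ← coW_right, ← frm_coW, ← flg_coW] at e1
  have k1 := tr_lip (q := j) (h := frm (coW κ x x')) (h' := sh (coW κ x x' 0))
    (w := flg (coW κ r x)) (w' := flg (coW κ r x)) hκ hX hK hτ (fun i => h2 _)
    (fun i => by
      by_cases hi : i = 0
      · subst hi; exact h2 0
      · have : sh (coW κ x x' 0) i = 0 := by fin_cases i <;> first | exact absurd rfl hi | rfl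
        rw [this, abs_zero]
        exact mul_nonneg hK0 (hX.pos _))
    (fun i => by
      by_cases hi : i = 0
      · subst hi
        have : frm (coW κ x x') 0 - sh (coW κ x x' 0) 0 = 0 := sub_self _
        rw [this, abs_zero]
        exact mul_nonneg (mul_nonneg hK0 hτ) (hX.pos _)
      · have : sh (coW κ x x' 0) i = 0 := by fin_cases i <;> first | exact absurd rfl hi | rfl
        rw [this, sub_zero]
        exact h3 i hi)
    (fun q => h1 _)
    (fun q => by rw [sub_self, abs_zero]; exact mul_nonneg (mul_nonneg hK0 hτ) (hX.pos _))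
  have e2 : coW κ r x' (Fin.natAdd 4 j) - coW κ r x (Fin.natAdd 4 j) =
      coW κ x x' (Fin.natAdd 4 j) + (tr κ (frm (coW κ x x')) (flg (coW κ r x)) j -
        tr κ (sh (coW κ x x' 0)) (flg (coW κ r x)) j) +
      (tr κ (sh (coW κ x x' 0)) (flg (coW κ r x)) j - flg (coW κ r x) j) := by
    have e3 : flg (coW κ r x) j = coW κ r x (Fin.natAdd 4 j) := rfl
    rw [e3]
    linarith
  rw [e2]
  have e4 : (K + 470 * K ^ 7) * τ * X (Fin.natAdd 4 j) + R0 =
      K * τ * X (Fin.natAdd 4 j) + 470 * K ^ 7 * τ * X (Fin.natAdd 4 j) + R0 := by ring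
  rw [e4]
  exact (abs_add_le _ _).trans (add_le_add ((abs_add_le _ _).trans (add_le_add h4 k1)) h5)

section

variable {B B' : Base} {I0 J : ℕ → Finset (ℕ × ℝ)}
  {kp : ℕ → ℝ} {u : ℕ → Fin 18 → ℝ} {f : ℕ → ℕ × ℝ → FW} {Y : ℕ → Fin 18 → ℝ}
  {w : ℕ → ℝ} {Tz : ℕ → ℝ} {D : Set (Fin 18 → ℝ)} {lam : (Fin 18 → ℝ) → ℝ}
  {S : Finset (Fin 18)} {Vs : Finset (Fin 14)} {j : Fin 14}

/-- the shift alone does not see the slot `j` -/
def ZOnly (B B' : Base) (u : ℕ → Fin 18 → ℝ) (Y : ℕ → Fin 18 → ℝ) (j : Fin 14) (n : ℕ)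
    (ε : ℝ) : Prop :=
  ∀ (κ t : ℝ) (v : Fin 14 → ℝ),
    (∀ q, |v q| ≤ B'.d n ^ (-ε) * (B.d n ^ Y n (Fin.natAdd 4 q) / u n (Fin.natAdd 4 q))) →
    |t| ≤ B'.d n ^ (-ε) * (B.d n ^ Y n 0 / u n 0) →
    |tr κ (sh t) v j - v j| ≤ 2 * B'.d n ^ (1 - 2 * ε) *
      (B.d n ^ Y n (Fin.natAdd 4 j) / u n (Fin.natAdd 4 j))

/-- **from `ResAy` to `OLaw`**, at one `n` -/
theorem olaw_of (hZ : ZWin B B' I0 J (coU u kp f) monW 67 Y w D Tz lam) {n : ℕ}
    (hgr : GrU (u n)) (hk1 : |kp n| ≤ 1) (l0 : Legal monW (Y n + w n • (0 : Fin 18 → ℝ)))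
    (l1 : Legal monW (Y n + w n • cut S (fun _ => (1 : ℝ)) 0))
    (h123 : (1 : Fin 18) ∉ S ∧ (2 : Fin 18) ∉ S ∧ (3 : Fin 18) ∉ S)
    (hj : Fin.natAdd 4 j ∉ S) {y ε s r : ℝ} (hε : 0 < ε) (hz : ZOnly B B' u Y j n ε)
    (hK : cK0 monW 67 ≤ B'.d n ^ (-ε)) {G : Finset (ℕ × ℝ)} (hGI : G ⊆ I0 n)
    (hG0 : ∀ i ∈ G, ∀ i' ∈ G, zlab B I0 (coU u kp f) monW 67 Y w n 0 i =
      zlab B I0 (coU u kp f) monW 67 Y w n 0 i')
    (hG1 : ∀ i ∈ G, ∀ i' ∈ G,
      zlab B I0 (coU u kp f) monW 67 Y w n (cut S (fun _ => (1 : ℝ)) 0) i =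
      zlab B I0 (coU u kp f) monW 67 Y w n (cut S (fun _ => (1 : ℝ)) 0) i')
    (H : ResAy B B' I0 u kp f Y w S j Vs 1 y n ε G)
    (hs : 2 * B'.d n ^ (-ε) ≤ s) (hr : 473 * B'.d n ^ (1 - 7 * ε) ≤ r)
    (hr' : B'.d n ^ (y - ε) ≤ r) :
    ∃ e : ℕ × ℝ → ℝ, OLaw (kp n) (f n) (u n) (fun k => B.d n ^ Y n k) j Vs s r e G := by
  obtain ⟨x0, hx0, ψ, h1, h2, h3⟩ := H
  set ρ := B'.d n with hρ
  have hd : ∀ v : ℝ, 0 < ρ ^ v := fun v => Real.rpow_pos_of_pos (B'.pos n) v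
  have hD : ∀ k, 0 < B.d n ^ Y n k := fun k => Real.rpow_pos_of_pos (B.pos n) _
  have hu : ∀ k, 0 < u n k := hgr.pos
  set X : Fin 18 → ℝ := fun k => B.d n ^ Y n k / u n k with hXdef
  have hX0 : ∀ k, 0 < X k := fun k => div_pos (hD k) (hu k)
  have hX : SidesW X := by
    rw [smul_zero, add_zero] at l0
    exact sidesW_of_legalG (B.pos n) (B.lt n).le hgr l0
  have toX : ∀ (k : Fin 18) (a A : ℝ), u n k * |a| ≤ A * B.d n ^ Y n k → |a| ≤ A * X k := by
    intro k a A h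
    have e : A * X k = A * B.d n ^ Y n k / u n k := by rw [hXdef]; ring
    rw [e, le_div_iff₀ (hu k)]
    linarith
  have ofX : ∀ (k : Fin 18) (a A : ℝ), |a| ≤ A * X k → u n k * |a| ≤ A * B.d n ^ Y n k := by
    intro k a A h
    have h5 := mul_le_mul_of_nonneg_left h (hu k).le
    refine h5.trans (le_of_eq ?_)
    show u n k * (A * (B.d n ^ Y n k / u n k)) = _
    have := (hu k).ne'
    field_simp
  -- boxes of equal labels
  have hbox : ∀ (c : Fin 18 → ℝ), Legal monW (Y n + w n • c) → ∀ i ∈ G, ∀ i' ∈ G,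
      zlab B I0 (coU u kp f) monW 67 Y w n c i = zlab B I0 (coU u kp f) monW 67 Y w n c i' →
      ∀ k, |coW (kp n) (f n i) (f n i') k| ≤ ρ ^ (-ε) * ρ ^ c k * X k := by
    intro c hc i hi i' hi' hl k
    have h5 := hZ.near_of_zlab hc (hGI hi) (hGI hi') hl k
    have h6 : u n k * |coW (kp n) (f n i) (f n i') k| ≤ (ρ ^ (-ε) * ρ ^ c k) * B.d n ^ Y n k := by
      have e : |coU u kp f n i i' k| = u n k * |coW (kp n) (f n i) (f n i') k| := by
        show |u n k * _| = _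
        rw [abs_mul, abs_of_pos (hu k)]
      rw [← e]
      refine h5.trans ?_
      have h7 : 0 ≤ B.d n ^ Y n k * ρ ^ c k := mul_nonneg (hD k).le (hd _).le
      refine (mul_le_mul_of_nonneg_right hK h7).trans (le_of_eq ?_)
      ring
    exact toX k _ _ h6
  have hK1 : 1 ≤ ρ ^ (-ε) := Real.one_le_rpow_of_pos_of_le_one_of_nonpos (B'.pos n) (B'.lt n).le
    (by linarith)
  have hτ1 : ρ ^ (1 : ℝ) ≤ 1 := Real.rpow_le_one (B'.pos n).le (B'.lt n).le zero_le_one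
  refine ⟨fun i => ψ - coW (kp n) (f n x0) (f n i) (Fin.natAdd 4 j), fun i hi => ⟨?_,
    fun i' hi' _ => ⟨?_, fun q hq => ?_⟩⟩⟩
  · have h5 : |ψ - coW (kp n) (f n x0) (f n i) (Fin.natAdd 4 j)| ≤
        |ψ| + |coW (kp n) (f n x0) (f n i) (Fin.natAdd 4 j)| := abs_sub _ _
    have h6 := mul_le_mul_of_nonneg_left h5 (hu (Fin.natAdd 4 j)).le
    rw [mul_add] at h6
    have h7 := h2 i hi (Fin.natAdd 4 j)
    have h8 := mul_le_mul_of_nonneg_right hs (hD (Fin.natAdd 4 j)).le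
    show _ ≤ s * B.d n ^ Y n (Fin.natAdd 4 j)
    linarith
  · have hb0 := hbox 0 l0 i hi i' hi' (hG0 i hi i' hi')
    have hb1 := hbox _ l1 i hi i' hi' (hG1 i hi i' hi')
    have hb1' : ∀ k, k ∉ S → |coW (kp n) (f n i) (f n i') k| ≤ ρ ^ (-ε) * ρ ^ (1 : ℝ) * X k := by
      intro k hk
      have := hb1 k
      rwa [cut_of_notMem hk] at this
    have k1 := own_e (R0 := 2 * ρ ^ (1 - 2 * ε) * X (Fin.natAdd 4 j)) hk1 hX hK1 (hd 1).le hτ1
      (r := f n x0) (x := f n i) (x' := f n i') (j := j)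
      (fun k => toX k _ _ (h2 i hi k))
      (fun k => by
        have := hb0 k
        rwa [Pi.zero_apply, Real.rpow_zero, mul_one] at this)
      (fun p hp => by
        refine hb1' _ ?_
        fin_cases p
        · exact absurd rfl hp
        · exact h123.1
        · exact h123.2.1
        · exact h123.2.2)
      (hb1' _ hj)
      (hz _ _ _ (fun q => toX _ _ _ (h2 i hi _)) (by
        have := hb0 0
        rwa [Pi.zero_apply, Real.rpow_zero, mul_one] at this))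
    have e1 : (ψ - coW (kp n) (f n x0) (f n i') (Fin.natAdd 4 j)) -
        (ψ - coW (kp n) (f n x0) (f n i) (Fin.natAdd 4 j)) =
        -(coW (kp n) (f n x0) (f n i') (Fin.natAdd 4 j) -
          coW (kp n) (f n x0) (f n i) (Fin.natAdd 4 j)) := by ring
    show u n (Fin.natAdd 4 j) * |(ψ - coW (kp n) (f n x0) (f n i') (Fin.natAdd 4 j)) -
        (ψ - coW (kp n) (f n x0) (f n i) (Fin.natAdd 4 j))| ≤ r * B.d n ^ Y n (Fin.natAdd 4 j)
    rw [e1, abs_neg]
    refine ofX _ _ _ (k1.trans ?_)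
    have e2 : (ρ ^ (-ε)) ^ 7 = ρ ^ (-(7 * ε)) := by
      rw [← Real.rpow_natCast, ← Real.rpow_mul (B'.pos n).le]
      congr 1
      push_cast
      ring
    have e3 : ρ ^ (-ε) ≤ ρ ^ (-(7 * ε)) :=
      Real.rpow_le_rpow_of_exponent_ge (B'.pos n) (B'.lt n).le (by linarith)
    have e4 : ρ ^ (-(7 * ε)) * ρ ^ (1 : ℝ) = ρ ^ (1 - 7 * ε) := by
      rw [← Real.rpow_add (B'.pos n)]; congr 1; ring
    have e5 : ρ ^ (1 - 2 * ε) ≤ ρ ^ (1 - 7 * ε) :=
      Real.rpow_le_rpow_of_exponent_ge (B'.pos n) (B'.lt n).le (by linarith)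
    have e6 : (ρ ^ (-ε) + 470 * (ρ ^ (-ε)) ^ 7) * ρ ^ (1 : ℝ) + 2 * ρ ^ (1 - 2 * ε) ≤ r := by
      rw [e2]
      have e7 : (ρ ^ (-ε) + 470 * ρ ^ (-(7 * ε))) * ρ ^ (1 : ℝ) ≤
          471 * (ρ ^ (-(7 * ε)) * ρ ^ (1 : ℝ)) := by
        have := (hd (1 : ℝ)).le
        nlinarith [mul_le_mul_of_nonneg_right e3 this]
      rw [e4] at e7
      linarith
    have e8 := mul_le_mul_of_nonneg_right e6 (hX0 (Fin.natAdd 4 j)).le
    linarith
  · refine (h3 i hi i' hi' (hG1 i hi i' hi') q hq).trans ?_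
    exact mul_le_mul_of_nonneg_right hr' (hD _).le

/-- from a wall list to the monomials of the stage -/
theorem gap_list {Dr : Set (Fin 18)} (hX : BasX monW (mA monW (actW Dr)) (mA monW (actW Dr)) Y w)
    {k : Fin 18} {l : List (Fin 18)} (hl : l ∈ mlW k) {d : Fin 18} (hd : d ∈ l) (hdD : d ∈ Dr)
    (R : ℝ) : ∀ᶠ n in (U : Filter ℕ), Y n k + R * w n ≤ (l.map (Y n)).sum := by
  have h1 : (fun s => l.count s) ∉ (mA monW (actW Dr)).mon k := by
    intro hm
    obtain ⟨hk, l', hl', hls, he⟩ := ((actM_mA Dr).iff k _).1 hm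
    have h2 : l.count d = l'.count d := congrFun he d
    have h3 : 0 < l'.count d := by rw [← h2]; exact List.count_pos_iff.2 hd
    exact hls d (List.count_pos_iff.1 h3) hdD
  filter_upwards [hX.gap k _ (mem_monW.2 ⟨l, hl, rfl⟩) h1 R] with n hn
  rw [sum_count]
  exact hn

theorem tight_of_basX {Dr : Set (Fin 18)}
    (hX : BasX monW (mA monW (actW Dr)) (mA monW (actW Dr)) Y w) :
    TightM (mA monW (actW Dr)) Y := fun k e he => Eventually.of_forall fun n => hX.act k e he n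

/-- the shift alone does not see the slots `YY, AY, zY` -/
theorem zonly_of {B B' : Base} {u : ℕ → Fin 18 → ℝ} {n : ℕ} {ε : ℝ} (hu : ∀ k, 0 < u n k)
    (hj : j = 0 ∨ j = 2 ∨ j = 4) : ZOnly B B' u Y j n ε := by
  intro κ t v _ _
  have h0 : tr κ (sh t) v j - v j = 0 := by
    rcases hj with rfl | rfl | rfl
    · rw [tr_sh0, sub_self]
    · rw [tr_sh2, sub_self]
    · rw [tr_sh4, sub_self]
  rw [h0, abs_zero]
  have h1 : 0 < B'.d n ^ (1 - 2 * ε) := Real.rpow_pos_of_pos (B'.pos n) _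
  have h2 : 0 < B.d n ^ Y n (Fin.natAdd 4 j) := Real.rpow_pos_of_pos (B.pos n) _
  have h3 := hu (Fin.natAdd 4 j)
  positivity

/-- the shift alone does not see the slot `BY` if `YY` is dropped -/
theorem zonly_BY {B B' : Base} {u : ℕ → Fin 18 → ℝ} {n : ℕ} {ε : ℝ} (hgr : GrU (u n))
    (hb : B'.d n = B.d n ^ w n) (hg : Y n 5 + 1 * w n ≤ Y n 0 + Y n 4) :
    ZOnly B B' u Y 1 n ε := by
  intro κ t v hv ht
  have e0 : tr κ (sh t) v 1 - v 1 = 2 * t * v 0 := by rw [tr_sh1]; ring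
  rw [e0]
  have hu := hgr.pos
  have hK : 0 < B'.d n ^ (-ε) := Real.rpow_pos_of_pos (B'.pos n) _
  have hD : ∀ k, 0 < B.d n ^ Y n k := fun k => Real.rpow_pos_of_pos (B.pos n) _
  have h0 : |v 0| ≤ B'.d n ^ (-ε) * (B.d n ^ Y n 4 / u n 4) := hv 0
  have h1 : |2 * t * v 0| = 2 * (|t| * |v 0|) := by
    rw [abs_mul, abs_mul, abs_two]; ring
  have h2 := mul_le_mul ht h0 (abs_nonneg _) (mul_nonneg hK.le (div_pos (hD 0) (hu 0)).le)
  have h3 : u n 0 * u n 4 = u n 5 := by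
    have := hgr.mul 5 [0, 4] (by decide)
    simpa using this
  have h4 : B.d n ^ Y n 0 * B.d n ^ Y n 4 ≤ B'.d n ^ (1 : ℝ) * B.d n ^ Y n 5 := by
    rw [Real.rpow_one, hb, ← Real.rpow_add (B.pos n), ← Real.rpow_add (B.pos n)]
    exact Real.rpow_le_rpow_of_exponent_ge (B.pos n) (B.lt n).le (by linarith)
  rw [h1]
  show 2 * (|t| * |v 0|) ≤ 2 * B'.d n ^ (1 - 2 * ε) * (B.d n ^ Y n 5 / u n 5)
  have h5 : B'.d n ^ (-ε) * (B.d n ^ Y n 0 / u n 0) * (B'.d n ^ (-ε) * (B.d n ^ Y n 4 / u n 4)) =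
      (B'.d n ^ (-ε) * B'.d n ^ (-ε)) * (B.d n ^ Y n 0 * B.d n ^ Y n 4) / u n 5 := by
    rw [← h3]
    have := (hu 0).ne'
    have := (hu 4).ne'
    field_simp
  have h6 : B'.d n ^ (-ε) * B'.d n ^ (-ε) * B'.d n ^ (1 : ℝ) = B'.d n ^ (1 - 2 * ε) := by
    rw [← Real.rpow_add (B'.pos n), ← Real.rpow_add (B'.pos n)]
    congr 1
    ring
  have h7 : B'.d n ^ (-ε) * (B.d n ^ Y n 0 / u n 0) * (B'.d n ^ (-ε) * (B.d n ^ Y n 4 / u n 4)) ≤
      B'.d n ^ (1 - 2 * ε) * (B.d n ^ Y n 5 / u n 5) := by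
    rw [h5, ← h6, mul_div_assoc, mul_div_assoc', mul_div_assoc']
    refine div_le_div_of_nonneg_right ?_ (hu 5).le
    have := mul_le_mul_of_nonneg_left h4 (mul_pos hK hK).le
    linarith
  linarith [h2.trans h7]

/-- **from the interior theorems to `IntLaw`** -/
theorem intLaw_of {θ : Fin 3 → ℝ} {s : ℝ} {V Dr : Set (Fin 18)} {lamI : (Fin 18 → ℝ) → ℝ}
    {y : ℝ} (hy : 0 < y) (hy1 : y ≤ 1) (hS : WDat (fun _ => 0) (fun _ => 1) 1 S)
    (hj : Fin.natAdd 4 j ∉ S) (hVS : ∀ k ∈ V, KW θ k = s → k ∈ S)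
    (hzo : ∀ (B B' : Base) (u : ℕ → Fin 18 → ℝ) (Y : ℕ → Fin 18 → ℝ) (w : ℕ → ℝ),
      (∀ n, GrU (u n)) → (∀ n, B'.d n = B.d n ^ w n) →
      BasX monW (mA monW (actW Dr)) (mA monW (actW Dr)) Y w →
      ∀ᶠ n in (U : Filter ℕ), ∀ ε : ℝ, ZOnly B B' u Y j n ε)
    (hint : ∀ (B B' : Base) (I0 J : ℕ → Finset (ℕ × ℝ)) (κ : ℕ → ℝ) (u : ℕ → Fin 18 → ℝ)
      (F : ℕ → ℕ × ℝ → FW) (Y : ℕ → Fin 18 → ℝ) (w T : ℕ → ℝ),
      (∀ n, GrU (u n)) → (∀ n, |κ n| ≤ 1) → (B'.Sub fun n => |κ n|⁻¹) →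
      BasX monW (mA monW (actW Dr)) (mA monW (actW Dr)) Y w →
      ZWin B B' I0 J (coU u κ F) monW 67 Y w (coneM (mA monW (actW Dr))) T lamI →
      ∃ J1 : ℕ → Finset (ℕ × ℝ), (∀ n, J1 n ⊆ J n) ∧ Dense B' J1 J ∧
        ∀ ε : ℝ, 0 < ε → ∀ᶠ n in (U : Filter ℕ), ∀ i ∈ J1 n,
          ResAy B B' I0 u κ F Y w S j Vs 1 y n ε
            (cls (J1 n) (zlab B I0 (coU u κ F) monW 67 Y w n 0) i)) :
    IntLaw θ s V Dr lamI j Vs := by
  intro B B' I0 J κ u F Y w T hgr hk1 hkp hX hZ η hη hη1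
  have hZ' : ZWin B B' I0 J (coU u κ F) monW 67 Y w (coneM (mA monW (actW Dr))) T lamI := by
    have e : coneM (mA monW (actW Dr)) = cn QW (actW Dr) := coneM_mA
    rw [e]; exact hZ
  obtain ⟨J1, hJ1, hden, hres⟩ := hint B B' I0 J κ u F Y w T hgr hk1 hkp hX hZ'
  have hst := iw_st_ok (actM_mA Dr) hS zero_le_one
  have hc1 : cut S (fun _ => (1 : ℝ)) 0 ∈ coneM (mA monW (actW Dr)) := by
    have := hst.leg hst.lin_leg
    have e : (wst (mA monW (actW Dr)) (fun _ => 0) (fun _ => 1) 1 S 1).top = fun _ => (1 : ℝ) :=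
      scV_one 1
    rw [e] at this
    exact this
  have hn1 : ‖cut S (fun _ => (1 : ℝ)) (0 : Fin 18 → ℝ)‖ ≤ 1 := by
    refine (pi_norm_le_iff_of_nonneg zero_le_one).2 fun k => ?_
    by_cases hk : k ∈ S
    · rw [cut_of_mem hk]; simp
    · rw [cut_of_notMem hk]; simp
  have hη0 : 0 < η * y := mul_pos hη hy
  have hηy : η * y ≤ y := by nlinarith
  have h5 : 0 < η * y / 28 := by positivity
  refine ⟨y, hy, hy1, 0, ?_, cut S (fun _ => (1 : ℝ)) 0, ?_, ⟨le_rfl, fun _ _ _ => le_rfl⟩,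
    ⟨?_, fun k hk hks => ?_⟩, by simp, hn1, J1, hJ1, ?_⟩
  · have : (0 : Fin 18 → ℝ) ∈ coneM (mA monW (actW Dr)) := hZ'.zero
    rwa [coneM_mA] at this
  · have h6 := hc1
    rwa [coneM_mA] at h6
  · rw [cut_of_mem hS.zS]; rfl
  · rw [cut_of_mem (hVS k hk hks)]; rfl
  · have hl1 : ∀ᶠ n in (U : Filter ℕ), Legal monW (Y n + w n • cut S (fun _ => (1 : ℝ)) 0) :=
      (hZ'.legal 1).mono fun n hn => hn _ hc1 hn1
    have hl0 : ∀ᶠ n in (U : Filter ℕ), Legal monW (Y n + w n • (0 : Fin 18 → ℝ)) :=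
      (hZ'.legal 1).mono fun n hn => hn _ hZ'.zero (by simp)
    filter_upwards [hden.2 (3 * η * y) (by positivity), hres (η * y / 28) h5, hl0, hl1,
      hZ'.sub, hzo B B' u Y w hgr hZ'.base hX,
      Gf356.ev_const_le B' h5 (cK0 monW 67), Gf356.ev_const_le B' h5 2,
      Gf356.ev_const_le B' (show (0 : ℝ) < 1 / 4 by norm_num) 473]
      with n g1 g2 g3 g4 g5 g6 g7 g8 g9
    refine ⟨g1, fun i hi => ?_⟩
    have hd : ∀ v : ℝ, 0 < B'.d n ^ v := fun v => Real.rpow_pos_of_pos (B'.pos n) v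
    have hdn : ∀ {v v' : ℝ}, v ≤ v' → B'.d n ^ v' ≤ B'.d n ^ v := fun {v v'} h' =>
      Real.rpow_le_rpow_of_exponent_ge (B'.pos n) (B'.lt n).le h'
    set G := cls (J1 n) (fun x => (zlab B I0 (coU u κ F) monW 67 Y w n 0 x,
      zlab B I0 (coU u κ F) monW 67 Y w n (cut S (fun _ => (1 : ℝ)) 0) x)) i with hG
    have hGm : ∀ a ∈ G, a ∈ J1 n ∧ zlab B I0 (coU u κ F) monW 67 Y w n 0 a =
        zlab B I0 (coU u κ F) monW 67 Y w n 0 i ∧
        zlab B I0 (coU u κ F) monW 67 Y w n (cut S (fun _ => (1 : ℝ)) 0) a =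
        zlab B I0 (coU u κ F) monW 67 Y w n (cut S (fun _ => (1 : ℝ)) 0) i := by
      intro a ha
      obtain ⟨h7, h8⟩ := mem_filter.1 ha
      exact ⟨h7, congrArg Prod.fst h8, congrArg Prod.snd h8⟩
    have hGs : G ⊆ cls (J1 n) (zlab B I0 (coU u κ F) monW 67 Y w n 0) i := by
      intro a ha
      exact mem_filter.2 ⟨(hGm a ha).1, (hGm a ha).2.1⟩
    refine olaw_of hZ' (hgr n) (hk1 n) g3 g4 ⟨?_, ?_, ?_⟩ hj h5 (g6 _) g7
      (fun a ha => g5 (hJ1 n (hGm a ha).1))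
      (fun a ha a' ha' => (hGm a ha).2.1.trans (hGm a' ha').2.1.symm)
      (fun a ha a' ha' => (hGm a ha).2.2.trans (hGm a' ha').2.2.symm) ((g2 i hi).mono hGs)
      ?_ ?_ ?_
    · exact fun hm => (hS.hS 1 hm).1 rfl
    · exact fun hm => (hS.hS 2 hm).2.1 rfl
    · exact fun hm => (hS.hS 3 hm).2.2.1 rfl
    · calc 2 * B'.d n ^ (-(η * y / 28)) ≤ B'.d n ^ (-(η * y / 28)) * B'.d n ^ (-(η * y / 28)) :=
          mul_le_mul_of_nonneg_right g8 (hd _).le
        _ = B'.d n ^ (-(η * y / 28) + -(η * y / 28)) := (Real.rpow_add (B'.pos n) _ _).symm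
        _ ≤ B'.d n ^ (-(2 * η * y)) := hdn (by nlinarith)
    · calc 473 * B'.d n ^ (1 - 7 * (η * y / 28)) ≤
            B'.d n ^ (-(1 / 4 : ℝ)) * B'.d n ^ (1 - 7 * (η * y / 28)) :=
          mul_le_mul_of_nonneg_right g9 (hd _).le
        _ = B'.d n ^ (-(1 / 4 : ℝ) + (1 - 7 * (η * y / 28))) :=
          (Real.rpow_add (B'.pos n) _ _).symm
        _ ≤ B'.d n ^ (y / 2) := hdn (by nlinarith)
    · exact hdn (by nlinarith)

end

/-! ### the four walls -/

section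

variable {θ : Fin 3 → ℝ} {s : ℝ} {V Dr : Set (Fin 18)} {lamI : (Fin 18 → ℝ) → ℝ}

/-- **`AY`** -/
theorem intLaw_AY (h4 : (4 : Fin 18) ∈ Dr)
    (hDr : ∀ k ∈ ({2, 6, 9, 11, 14} : Finset (Fin 18)), k ∉ Dr)
    (hVS : ∀ k ∈ V, KW θ k = s → k ∈ SAY) (hN : NumW SAY {5} lamI) {r : ℝ}
    (hR : NumR SAY {1, 8} 2 r lamI) : IntLaw θ s V Dr lamI 2 {5} := by
  refine intLaw_of (S := SAY) one_pos le_rfl sdat_AY.wd (by decide) hVS
    (fun B B' u Y w hgr hb hX => Eventually.of_forall fun n ε =>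
      zonly_of (hgr n).pos (Or.inr (Or.inl rfl))) ?_
  intro B B' I0 J κ u F Y w T hgr hk1 hkp hX hZ
  have hA := actM_mA Dr
  have ht := tight_of_basX hX
  exact int_AY hZ hA h4 hgr hk1 hkp
    (ht.eq2 hA (hDr 14 (by decide)) (hDr 2 (by decide)) (hDr 9 (by decide)) (by decide))
    (ht.eq2 hA (hDr 11 (by decide)) (hDr 2 (by decide)) (hDr 6 (by decide)) (by decide))
    hN hR one_pos

/-- **`YY`** -/
theorem intLaw_YY (hDr : ∀ k ∈ ({1, 2, 4, 5, 6, 7, 9} : Finset (Fin 18)), k ∉ Dr)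
    (hVS : ∀ k ∈ V, KW θ k = s → k ∈ SYY) (hN : NumW SYY {1, 3} lamI) {r r' : ℝ}
    (hR : NumR SYY {1} 2 r lamI) (hR' : NumR SYY {2, 6} 1 r' lamI) :
    IntLaw θ s V Dr lamI 0 {1, 3} := by
  refine intLaw_of (S := SYY) one_pos le_rfl sdat_YY.wd (by decide) hVS
    (fun B B' u Y w hgr hb hX => Eventually.of_forall fun n ε =>
      zonly_of (hgr n).pos (Or.inl rfl)) ?_
  intro B B' I0 J κ u F Y w T hgr hk1 hkp hX hZ
  have hA := actM_mA Dr
  have ht := tight_of_basX hX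
  exact int_YY hZ hA hgr hk1 hkp
    (ht.eq2 hA (hDr 9 (by decide)) (hDr 2 (by decide)) (hDr 5 (by decide)) (by decide))
    (ht.eq2 hA (hDr 9 (by decide)) (hDr 1 (by decide)) (hDr 7 (by decide)) (by decide))
    (ht.eq2 hA (hDr 6 (by decide)) (hDr 2 (by decide)) (hDr 4 (by decide)) (by decide))
    hN hR hR' one_pos

/-- **`zY`** -/
theorem intLaw_zY (hDr : ∀ k ∈ ({0, 1, 2, 8, 10, 11, 12, 14, 15} : Finset (Fin 18)), k ∉ Dr)
    (hVS : ∀ k ∈ V, KW θ k = s → k ∈ SzY) (hN : NumW SzY {6, 7, 10} lamI) {r r' : ℝ}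
    (hR : NumR SzY {1} 2 r lamI) (hR' : NumR SzY {2, 12} 1 r' lamI) :
    IntLaw θ s V Dr lamI 4 {6, 7, 10} := by
  refine intLaw_of (S := SzY) one_pos le_rfl sdat_zY.wd (by decide) hVS
    (fun B B' u Y w hgr hb hX => Eventually.of_forall fun n ε =>
      zonly_of (hgr n).pos (Or.inr (Or.inr rfl))) ?_
  intro B B' I0 J κ u F Y w T hgr hk1 hkp hX hZ
  have hA := actM_mA Dr
  have ht := tight_of_basX hX
  exact int_zY hZ hA hgr hk1 hkp
    (ht.eq2 hA (hDr 10 (by decide)) (hDr 0 (by decide)) (hDr 8 (by decide)) (by decide))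
    (ht.eq2 hA (hDr 11 (by decide)) (hDr 0 (by decide)) (hDr 8 (by decide)) (by decide))
    (ht.eq2 hA (hDr 14 (by decide)) (hDr 0 (by decide)) (hDr 11 (by decide)) (by decide))
    (ht.eq2 hA (hDr 12 (by decide)) (hDr 2 (by decide)) (hDr 8 (by decide)) (by decide))
    (ht.eq2 hA (hDr 15 (by decide)) (hDr 2 (by decide)) (hDr 10 (by decide)) (by decide))
    (ht.eq2 hA (hDr 15 (by decide)) (hDr 1 (by decide)) (hDr 14 (by decide)) (by decide))
    hN hR hR' one_pos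

/-- **`BY`** -/
theorem intLaw_BY (h4 : (4 : Fin 18) ∈ Dr)
    (hDr : ∀ k ∈ ({3, 5, 7, 11, 14} : Finset (Fin 18)), k ∉ Dr)
    (hVS : ∀ k ∈ V, KW θ k = s → k ∈ SBY) (hN : NumW SBY {3} lamI) {c r : ℝ}
    (hB : NumB SBY c r lamI) : IntLaw θ s V Dr lamI 1 {3} := by
  refine intLaw_of (S := SBY) hB.c0 hB.c1 sdat_BY.wd (by decide) hVS
    (fun B B' u Y w hgr hb hX => ?_) ?_
  · filter_upwards [gap_list hX (k := 5) (l := [0, 4]) (by decide) (d := 4) (by simp) h4 1]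
      with n hn ε
    refine zonly_BY (hgr n) (hb n) ?_
    simpa using hn
  · intro B B' I0 J κ u F Y w T hgr hk1 hkp hX hZ
    have hA := actM_mA Dr
    have ht := tight_of_basX hX
    have := int_BY hZ hA h4 hgr hk1 hkp (fun R => by
        filter_upwards [gap_list hX (k := 7) (l := [0, 0, 4]) (by decide) (d := 4) (by simp) h4 R]
          with n hn
        have e : (([0, 0, 4] : List (Fin 18)).map (Y n)).sum = Y n 0 + Y n 0 + Y n 4 := by
          simp; ring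
        rw [e] at hn
        exact hn)
      (ht.eq2 hA (hDr 14 (by decide)) (hDr 3 (by decide)) (hDr 7 (by decide)) (by decide))
      (ht.eq2 hA (hDr 11 (by decide)) (hDr 3 (by decide)) (hDr 5 (by decide)) (by decide))
      hN hB one_pos
    rwa [mul_one] at this

end

end Crest.Agent.R136.Int599
end

-- ▼ part R136/RLj_66
section

/-!
# R136, thin branch (helper66): the F-half of the resonant walls

* **`exists_ptC`** : a stage of slope `s ≤ 4` has an interior point `PtC` which is not dead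
  (478's `hasRigW` for every rung).
* `exists_intLaw_zY`, `.._AY`, `.._BY`, `.._YY`, `.._2` : interior tangents with the law of the wall.
* **`exists_intLaw`** : all six resonant walls (626's `wall_data`).
-/

set_option autoImplicit false
set_option linter.unusedVariables false
set_option linter.unusedSectionVars false

open Filter Topology

namespace Crest.Agent.R136.RL66

open Finset Crest.Agent.R136.NetW191 Crest.Agent.R136.Net191 Crest.Agent.R136.Qg926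
open Crest.Agent.R136.EvW938 Crest.Agent.R136.Bas938
open Crest.Agent.R136.Gf356 Crest.Agent.R136.Aw413 Crest.Agent.R136.Dg219
open Crest.Agent.R136.PrW464 Crest.Agent.R136.NatW697 Crest.Agent.R136.LadW697
open Crest.Agent.R136.AwJ774 Crest.Agent.R136.ThB830 Crest.Agent.R136.LadT830
open Crest.Agent.R136.Rnm648 Crest.Agent.R136.Rnl648
open Crest.Agent.R136.RL626 (WallJ)
open Crest.Agent.R136.RL478 (IntLaw)
open Crest.Agent.R136.Rc146 (OutA)
open Crest.Agent.R136.Dg262 (X)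
open Crest.Agent.R136.K2S774 (cn JT BaseOk Prf)
open Crest.Agent.R136.K2A146 (FLemA deadA)
open Crest.Agent.R138.Ex926 (Base U IsTan)

section

variable {P : Set (Fin 18 → ℝ)} {ν own : (Fin 18 → ℝ) → ℝ} {K : ℝ} {r0 : Fin 18 → ℝ}
  {θ : Fin 3 → ℝ} {g : ℝ} {qq : Fin 3 → ℝ} {V0 T : Set (Fin 18)} {lam lo : (Fin 18 → ℝ) → ℝ}
  {s : ℝ}

/-- **a stage of slope `s` has an interior point which is not dead** -/
theorem exists_ptC (s0 : 0 < s) (s4 : s ≤ 4) {J0 : Finset (Fin 18)}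
    (hJ0 : ∀ k, k ∈ J0 ↔ 4 ≤ k ∧ (alW k : ℝ) = s) (h : CtxW P ν own K r0 θ g qq V0 T)
    (hst : StW P ν own K r0 θ g qq V0 s lam lo) (hs : ∀ k ∈ V0, KW θ k ≤ s) :
    ∃ z : ℝ × ℝ, z.1 < 0 ∧ ∃ k : ℕ → ℝ, (∀ l, 0 < k l) ∧ Tendsto k atTop (𝓝 0) ∧
      ∃ lamI loI : (Fin 18 → ℝ) → ℝ,
        IsTan (cn QW (actW (DrW s))) (cn QW (actW (DrW s))) lam
          (fun _ => X 0 (TW s) (btW θ) z) k lamI ∧
        IsTan (cn QW (actW (DrW s))) (cn QW (actW (DrW s))) lo
          (fun _ => X 0 (TW s) (btW θ) z) k loI ∧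
        ∃ (B Bo : Base) (I J : ℕ → Finset (ℕ × ℝ))
          (co : ∀ n : ℕ, ℕ × ℝ → ℕ × ℝ → Fin 18 → ℝ) (C : ℝ) (κ : ℕ → ℝ) (u : ℕ → Fin 18 → ℝ)
          (f : ℕ → ℕ × ℝ → FW) (A : ℝ × ℝ) (φ : ℕ → (Fin 18 → ℝ) → ℝ) (r : ℕ → ℝ),
          PtC B Bo I J co C κ u f K θ qq V0 T s lamI loI A φ r ∧ ¬ 3 + s ≤ -A.1 := by
  classical
  by_contra hcon
  have hg := h.g0
  have hq0 := h.q0
  have hqg := h.qg
  have hd : 0 < (g - 3 * qq 0) / 2 := by linarith
  refine deadA hst (recW θ _ _) (rungW (J := J0)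
    s0 (fun k hk => ?_) (b := btW θ) (fun k _ => rfl) hJ0) hd ?_
  · obtain ⟨h4, h1, h2⟩ := vis_al h.slots hk
    exact ⟨h4, h2.trans_le (hs k hk)⟩
  intro z hz D' hD' k lam' lo' kpos k0 H1 H2 x' h' hJ hB φ rt out _
  by_contra hlt
  rw [not_le] at hlt
  have hloc : locT V0 0 (btW θ) (TW s) = fun k => k ∈ V0 ∧ KW θ k = s := by
    funext k
    simp only [locT, eq_iff_iff]
    constructor
    · rintro ⟨hk, hT⟩
      refine ⟨hk, ?_⟩
      rw [(vis_TWc h.slots hs hk).2, TW_z] at hT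
      linarith
    · rintro ⟨hk, hK⟩
      refine ⟨hk, ?_⟩
      rw [(vis_TWc h.slots hs hk).2, TW_z, hK]
      ring
  obtain ⟨B, Bo, I, J, co, C, κ, u, f, hco, hu, hκ, hκs, hne, hae⟩ := h.ae
  have hA := hae (actW (DrW s)) x' h' lam' lo' (TW s) (TW s) (btW θ) _ φ rt
    (fun k => k ∈ T ∧ k ∈ V0 ∧ KW θ k = s) hJ hB (fun i hi => by
      rw [(vis_TWc h.slots hs hi).2, TW_z]
      have := hs i hi
      linarith) (fun k hk => by rw [hloc]; exact hk) (by
      rintro ⟨-, hk, -⟩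
      exact absurd (vis_al h.slots hk).1 (by decide)) out.toOutS
  rw [hloc] at hA
  have hP : PtC B Bo I J co C κ u f K θ qq V0 T s lam' lo' _ φ rt :=
    { co_eq := hco
      gru := hu
      kp1 := hκ
      kp0 := hκs
      ne := hne
      th1 := h.θ1
      q1 := h.q1
      q2 := h.q2
      s0 := s0
      top := hs
      vis := fun k hk => vis_al h.slots hk
      aew := hA
      out := out
      prf := hst.prf.tan kpos H1 H2
      sweep := fun c hc hc1 hcT t ht =>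
        hst.sweep (fun k _ => rfl) (nat_btW _ _) (ThB830.TW_nonneg s s0) hz kpos k0 H1 hc
          hc1 hcT ht
      ind := fun c hc c' hc' hcc => hst.ind_pt h.θ1 kpos k0 H1 hc hc' hcc }
  rw [DlW_saW] at hlt
  refine hcon ⟨z, hz, k, kpos, k0, lam', lo', H1, H2, B, Bo, I, J, co, C, κ, u, f, _, φ, rt, hP, ?_⟩
  rw [not_le]
  simp only at hlt ⊢
  have h3 : qq 0 * (s - 1) ≤ qq 0 * 3 := mul_le_mul_of_nonneg_left (by linarith) hq0
  linarith

/-- weights of the rung `3` -/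
theorem mem_J3 (k : Fin 18) : k ∈ univ.filter (fun k : Fin 18 => 4 ≤ k ∧ alW k = 3) ↔
    4 ≤ k ∧ (alW k : ℝ) = ((3 : ℤ) : ℝ) := by
  rw [mem_filter]
  exact ⟨fun ⟨_, h1, h2⟩ => ⟨h1, by rw [h2]⟩, fun ⟨h1, h2⟩ => ⟨mem_univ _, h1, by exact_mod_cast h2⟩⟩

theorem mem_J4 (k : Fin 18) : k ∈ univ.filter (fun k : Fin 18 => 4 ≤ k ∧ alW k = 4) ↔
    4 ≤ k ∧ (alW k : ℝ) = ((4 : ℤ) : ℝ) := by
  rw [mem_filter]
  exact ⟨fun ⟨_, h1, h2⟩ => ⟨h1, by rw [h2]⟩, fun ⟨h1, h2⟩ => ⟨mem_univ _, h1, by exact_mod_cast h2⟩⟩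

/-- output of the F-half of a wall -/
def IntAt (θ : Fin 3 → ℝ) (s : ℝ) (V0 : Set (Fin 18)) (lam lo : (Fin 18 → ℝ) → ℝ) (j : Fin 14)
    (Vs : Finset (Fin 14)) : Prop :=
  ∃ z : ℝ × ℝ, z.1 < 0 ∧ ∃ k : ℕ → ℝ, (∀ l, 0 < k l) ∧ Tendsto k atTop (𝓝 0) ∧
    ∃ lamI loI : (Fin 18 → ℝ) → ℝ,
      IsTan (cn QW (actW (DrW s))) (cn QW (actW (DrW s))) lam
        (fun _ => X 0 (TW s) (btW θ) z) k lamI ∧
      IsTan (cn QW (actW (DrW s))) (cn QW (actW (DrW s))) lo
        (fun _ => X 0 (TW s) (btW θ) z) k loI ∧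
      IntLaw θ s V0 (DrW s) lamI j Vs

/-- visible slots of the wall -/
theorem wall_vis {j : Fin 14} {Vs : Finset (Fin 14)} (W : WallJ θ s j Vs)
    (vis : ∀ k ∈ V0, 4 ≤ k ∧ 0 < btW θ k) {S : Finset (Fin 18)}
    (hS : ∀ q ∈ Vs, Fin.natAdd 4 q ∈ S) : ∀ k ∈ V0, KW θ k = s → k ∈ S := by
  intro k hk hks
  obtain ⟨h4, hb⟩ := vis k hk
  have e : Fin.natAdd 4 (⟨k.val - 4, by omega⟩ : Fin 14) = k := by
    apply Fin.ext
    have : (4 : ℕ) ≤ k.val := h4
    simp only [Fin.natAdd]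
    omega
  have hq := W.all ⟨k.val - 4, by omega⟩ (by rw [e]; exact hks) (by rw [e]; exact hb)
  rw [← e]
  exact hS _ hq

/-- the slope of a wall -/
theorem wall_s {j : Fin 14} {Vs : Finset (Fin 14)} (W : WallJ θ s j Vs) {b : ℤ}
    (hb : wc (Fin.natAdd 4 j) = -b) : s = 1 - θ 0 + (b : ℝ) * θ 1 := by
  have h := W.kj
  have hn : ∀ q : Fin 14, wn (Fin.natAdd 4 q) = 1 := by decide
  rw [KW_eq, hn j, hb] at h
  push_cast at h
  linarith

theorem notDr_of {N : ℤ} {D S : Finset (Fin 18)} (hD : DrW (N : ℝ) = ↑D) (h : Disjoint S D) :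
    ∀ k ∈ S, k ∉ DrW (N : ℝ) := by
  intro k hk hk'
  rw [hD] at hk'
  exact Finset.disjoint_left.1 h hk hk'

/-- **the wall `zY`** (`(w, K) = (3, 2)`) -/
theorem exists_intLaw_zY (hs3 : s = 3) (W : WallJ θ s 4 {6, 7, 10})
    (h : CtxW P ν own K r0 θ g qq V0 T) (hst : StW P ν own K r0 θ g qq V0 s lam lo)
    (hs : ∀ k ∈ V0, KW θ k ≤ s) (vis : ∀ k ∈ V0, 4 ≤ k ∧ 0 < btW θ k) :
    IntAt θ s V0 lam lo 4 {6, 7, 10} := by
  obtain rfl : s = ((3 : ℤ) : ℝ) := by rw [hs3]; norm_num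
  obtain ⟨z, hz, k, kpos, k0, lamI, loI, H1, H2, B, Bo, I, J, co, C, κ, u, f, A, φ, r, hP, hnd⟩ :=
    exists_ptC (by norm_num) (by norm_num) mem_J3 h hst hs
  obtain ⟨n1, n2, n3⟩ := num32 hP (wall_s W (by decide)) hnd
  exact ⟨z, hz, k, kpos, k0, lamI, loI, H1, H2, Int599.intLaw_zY
    (notDr_of drW3 (by decide)) (wall_vis W vis (by decide)) n1 n2 n3⟩

/-- **the wall `AY`** (`(w, K) = (3, 3)`) -/
theorem exists_intLaw_AY (hs3 : s = 3) (W : WallJ θ s 2 {5})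
    (h : CtxW P ν own K r0 θ g qq V0 T) (hst : StW P ν own K r0 θ g qq V0 s lam lo)
    (hs : ∀ k ∈ V0, KW θ k ≤ s) (vis : ∀ k ∈ V0, 4 ≤ k ∧ 0 < btW θ k) :
    IntAt θ s V0 lam lo 2 {5} := by
  obtain rfl : s = ((3 : ℤ) : ℝ) := by rw [hs3]; norm_num
  obtain ⟨z, hz, k, kpos, k0, lamI, loI, H1, H2, B, Bo, I, J, co, C, κ, u, f, A, φ, r, hP, hnd⟩ :=
    exists_ptC (by norm_num) (by norm_num) mem_J3 h hst hs
  obtain ⟨n1, n2⟩ := num33 hP (wall_s W (by decide)) hnd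
  exact ⟨z, hz, k, kpos, k0, lamI, loI, H1, H2, Int599.intLaw_AY
    (by rw [drW3]; simp) (notDr_of drW3 (by decide)) (wall_vis W vis (by decide)) n1 n2⟩

/-- **the wall `BY`** (`(w, K) = (3, 4)`) -/
theorem exists_intLaw_BY (hs3 : s = 3) (W : WallJ θ s 1 {3})
    (h : CtxW P ν own K r0 θ g qq V0 T) (hst : StW P ν own K r0 θ g qq V0 s lam lo)
    (hs : ∀ k ∈ V0, KW θ k ≤ s) (vis : ∀ k ∈ V0, 4 ≤ k ∧ 0 < btW θ k) :
    IntAt θ s V0 lam lo 1 {3} := by
  obtain rfl : s = ((3 : ℤ) : ℝ) := by rw [hs3]; norm_num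
  obtain ⟨z, hz, k, kpos, k0, lamI, loI, H1, H2, B, Bo, I, J, co, C, κ, u, f, A, φ, r, hP, hnd⟩ :=
    exists_ptC (by norm_num) (by norm_num) mem_J3 h hst hs
  obtain ⟨n1, c, n2⟩ := num34 hP (wall_s W (by decide)) hnd
  exact ⟨z, hz, k, kpos, k0, lamI, loI, H1, H2, Int599.intLaw_BY
    (by rw [drW3]; simp) (notDr_of drW3 (by decide)) (wall_vis W vis (by decide)) n1 n2⟩

/-- **the wall `YY`** (`(w, K) = (4, 4)`) -/
theorem exists_intLaw_YY (hs4 : s = 4) (W : WallJ θ s 0 {1, 3})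
    (h : CtxW P ν own K r0 θ g qq V0 T) (hst : StW P ν own K r0 θ g qq V0 s lam lo)
    (hs : ∀ k ∈ V0, KW θ k ≤ s) (vis : ∀ k ∈ V0, 4 ≤ k ∧ 0 < btW θ k) :
    IntAt θ s V0 lam lo 0 {1, 3} := by
  obtain rfl : s = ((4 : ℤ) : ℝ) := by rw [hs4]; norm_num
  obtain ⟨z, hz, k, kpos, k0, lamI, loI, H1, H2, B, Bo, I, J, co, C, κ, u, f, A, φ, r, hP, hnd⟩ :=
    exists_ptC (by norm_num) (by norm_num) mem_J4 h hst hs
  obtain ⟨n1, n2, n3⟩ := num44 hP (wall_s W (by decide)) hnd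
  exact ⟨z, hz, k, kpos, k0, lamI, loI, H1, H2, Int599.intLaw_YY
    (notDr_of drW4 (by decide)) (wall_vis W vis (by decide)) n1 n2 n3⟩

/-- the walls of slope `2` -/
theorem exists_intLaw_2 {j q : Fin 14} {Vp : Fin 4} (hw : Wl2 q Vp j) (hs2 : s = 2)
    (W : WallJ θ s j {q}) (h : CtxW P ν own K r0 θ g qq V0 T)
    (hst : StW P ν own K r0 θ g qq V0 s lam lo) (hs : ∀ k ∈ V0, KW θ k ≤ s)
    (vis : ∀ k ∈ V0, 4 ≤ k ∧ 0 < btW θ k) : IntAt θ s V0 lam lo j {q} := by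
  subst hs2
  exact exists_intLaw2 hw W h hst hs vis

/-- **all resonant walls** : the last component of 626's `wall_data` -/
theorem exists_intLaw {j : Fin 14} {Vs : Finset (Fin 14)} (W : WallJ θ s j Vs)
    (hc : (s = 2 ∧ j = 7 ∧ Vs = {10}) ∨ (s = 2 ∧ j = 8 ∧ Vs = {11}) ∨
        (s = 3 ∧ j = 4 ∧ Vs = {6, 7, 10}) ∨ (s = 3 ∧ j = 2 ∧ Vs = {5}) ∨
        (s = 3 ∧ j = 1 ∧ Vs = {3}) ∨ (s = 4 ∧ j = 0 ∧ Vs = {1, 3}))
    (h : CtxW P ν own K r0 θ g qq V0 T) (hst : StW P ν own K r0 θ g qq V0 s lam lo)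
    (hs : ∀ k ∈ V0, KW θ k ≤ s) (vis : ∀ k ∈ V0, 4 ≤ k ∧ 0 < btW θ k) :
    IntAt θ s V0 lam lo j Vs := by
  rcases hc with ⟨h1, rfl, rfl⟩ | ⟨h1, rfl, rfl⟩ | ⟨h1, rfl, rfl⟩ | ⟨h1, rfl, rfl⟩ |
    ⟨h1, rfl, rfl⟩ | ⟨h1, rfl, rfl⟩
  · exact exists_intLaw_2 (Or.inl ⟨rfl, rfl, rfl⟩) h1 W h hst hs vis
  · exact exists_intLaw_2 (Or.inr ⟨rfl, rfl, rfl⟩) h1 W h hst hs vis
  · exact exists_intLaw_zY h1 W h hst hs vis
  · exact exists_intLaw_AY h1 W h hst hs vis
  · exact exists_intLaw_BY h1 W h hst hs vis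
  · exact exists_intLaw_YY h1 W h hst hs vis

end

end Crest.Agent.R136.RL66
end

-- ▼ part R136/RL9_626
section

/-!
# R136, thin branch, resonant walls (helper626): the last glue of `SeamWallG`

* `exI_six` : 478's `ExI` at the six walls, from 66's `exists_intLaw`.
* **`seamWallG`** : context + pins of the rungs `4`, `3` ⊢ `SeamWallG`; `seamWallG_rows` from `RowsC`.
-/

set_option autoImplicit false
set_option linter.unusedVariables false

open Finset Filter Topology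

namespace Crest.Agent.R136.RL626

open Crest.Agent.R136.Net191
open Crest.Agent.R136.NetW191
open Crest.Agent.R136.PrW464
open Crest.Agent.R136.NatW697
open Crest.Agent.R136.LadW697
open Crest.Agent.R136.LadT830
open Crest.Agent.R136.LadG697
open Crest.Agent.R136.AwJ774
open Crest.Agent.R136.K2S774
open Crest.Agent.R138.Ex926

/-- **the six walls have interior points with the law** -/
theorem exI_six (θ : Fin 3 → ℝ) (g : ℝ) (q : Fin 3 → ℝ) (V T : Set (Fin 18)) (s : ℝ) (j : Fin 14)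
    (Vs : Finset (Fin 14)) (hSl : SlotOkW θ (fun k => k ∈ V) (fun k => k ∈ T))
    (vis : ∀ k ∈ V, (4 ≤ k ∧ k ≠ 13 ∧ k ≠ 16 ∧ k ≠ 17) ∧ 0 < btW θ k)
    (ht : Top θ (fun k => k ∈ V) s) (W : WallJ θ s j Vs) (h6 : RL478.Six s j Vs) :
    RL478.ExI θ g q V T s j Vs := by
  intro P ν own r0 lam lo hC hst
  obtain ⟨z, hz, k, kpos, k0, lamI, loI, H1, -, HI⟩ := RL66.exists_intLaw W h6 hC hst
    (fun k hk => ht.2 k hk) (fun k hk => ⟨(vis k hk).1.1, (vis k hk).2⟩)
  exact ⟨z, hz, k, kpos, k0, lamI, H1, HI⟩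

/-- **the producer of the resonant walls** -/
theorem seamWallG (hC : SeamCtx) (p4 : PinC 4 fun θ V => ∀ k ∈ V, KW θ k < 4)
    (p3 : PinC 3 fun θ V => ∀ k ∈ V, KW θ k < 3) : SeamWallG :=
  RL478.seamWallG_of hC p4 p3 exI_six

/-- the same from the table of the rows -/
theorem seamWallG_rows (hR : RowsC) (hC : SeamCtx) : SeamWallG := seamWallG hC hR.pin4 hR.pin3

end Crest.Agent.R136.RL626
end

-- ▼ part R136/ThO_830
section

/-!
# R136, thin branch (helper830): `Thin` IS AN OBJECT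

* `extZ_of_extQ` : `ExtQ` ⊢ `ExtZ` at the base `X = 0`, `w = 1`
* **`seamThinOb`** : `SeamThinOb η`
-/

set_option autoImplicit false
set_option linter.unusedVariables false

open Finset Filter Topology

namespace Crest.Agent.R136.ThO830

open Crest.Agent.R138.Ex926
open Crest.Agent.R136.Net191
open Crest.Agent.R136.NetW191
open Crest.Agent.R136.PrW464
open Crest.Agent.R136.NatW697
open Crest.Agent.R136.LadW697
open Crest.Agent.R136.Lq196
open Crest.Agent.R136.Top484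
open Crest.Agent.R136.NatT550
open Crest.Agent.R136.ThS830
open Crest.Agent.R136.Zpr779
open Crest.Agent.R136.EvW938
open Crest.Agent.R136.Qg926
open Crest.Agent.R136.Aw413
open Crest.Agent.R136.LadG697

section

variable {m : ℕ} {B : Base} {I0 I : ℕ → Finset (ℕ × ℝ)}
  {co : ∀ n : ℕ, ℕ × ℝ → ℕ × ℝ → Fin m → ℝ} {M : Mons m} {C R : ℝ} {kz : Fin m} {w0 s : ℝ}
  {PD : Set (Fin m → ℝ)} {D : (Fin m → ℝ) → ℝ} {r o : ℝ → Fin m → ℝ} {E : ℝ → ℝ}
  {T : Fin m → Prop} {ν own : (Fin m → ℝ) → ℝ} {c₀ : ℝ}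

/-- the labels of the window `X = 0`, `w = 1` -/
theorem zlab_one : zlab B I0 co M C (fun _ => 0) (fun _ => 1) = nlab B I0 co M C := by
  funext n c
  show nlab B I0 co M C n (0 + (1:ℝ) • c) = nlab B I0 co M C n c
  rw [zero_add, one_smul]

theorem zolb_one : zolb B I0 co M C (fun _ => 0) (fun _ => 1) = olb B I0 co M C := by
  funext n c x
  show (x.1, nlab B I0 co M C n (0 + (1:ℝ) • c) x) = (x.1, nlab B I0 co M C n c x)
  rw [zero_add, one_smul]

/-- **`ExtQ` is an `ExtZ`** -/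
theorem extZ_of_extQ (h : ExtQ B I0 I co M C R kz w0 s PD D r o E T ν own c₀) (hR : 0 ≤ R)
    (hr : ∀ v : ℝ, 0 ≤ v → v ≤ 1 → r v ∈ Leg M R) :
    ExtZ B B I0 I co M C (fun _ => 0) (fun _ => 1) M R (fun n => 1 * B.d n ^ (-(ν 0)))
      (fun _ => 1) kz w0 s PD D r o E T (fun p => ν p + -(ν 0)) own (c₀ + -(ν 0)) := by
  have oanti : ∀ p ∈ Leg M R, ∀ q ∈ Leg M R, p ≤ q → own q ≤ own p := fun p hp q hq hpq =>
    ThS830.qprof_anti h.oprof h.ne hq hp hpq
  have omono : ∀ p ∈ Leg M R, ∀ q ∈ Leg M R, p ≤ q → 0 ≤ own p - own q ∧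
      own p - own q ≤ ∑ k, (q k - p k) := fun p hp q hq hpq =>
    ⟨by linarith [oanti p hp q hq hpq], (h.own_le p hp q hq hpq).trans (h.lip p hp q hq hpq).2⟩
  have hT := TProf.ofQ h.prof
  have hTo := TProf.ofQ h.oprof
  have h0 : (0 : Fin m → ℝ) ∈ Leg M R :=
    ⟨⟨fun _ => le_rfl, fun k e _ => by simp⟩, fun _ => hR⟩
  refine
    { win := ?_
      R0 := hR
      s0 := h.s0
      s1 := h.s1
      oprof := by rw [zolb_one]; exact hTo
      olip := lip_of_mono omono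
      oanti := oanti
      own_le := fun p hp q hq hpq => by
        have := h.own_le p hp q hq hpq
        linarith
      osub := fun p hp q hq h1 => ?_
      dmax := fun p hp _ => by have := h.dmax p hp; linarith
      record := fun v v0 v1 => ⟨hr v v0 v1, by have := h.record v v0 v1; linarith⟩
      own_rot := h.own_rot
      own_up := h.own_up
      own_tw := h.own_tw }
  · exact
      { chart := h.chart
        sub := Eventually.of_forall h.sub
        ne := h.ne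
        w0 := fun _ => one_pos
        base := fun n => (Real.rpow_one _).symm
        zero := h0
        legal := fun K => Eventually.of_forall fun n c hc _ => by
          rw [zero_add, one_smul]; exact hc.1
        prof := by
          rw [zlab_one]
          exact (hT.shift (-(ν 0))).toZ
        lam0 := by ring
        T0 := fun n => by
          have := Real.rpow_pos_of_pos (B.pos n) (-(ν 0))
          linarith
        lip := fun p hp q hq => by
          have := lip_of_mono h.lip p hp q hq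
          have e : ν p + -ν 0 - (ν q + -ν 0) = ν p - ν q := by ring
          rw [e]; exact this
        anti := fun p hp q hq hpq => by
          have := (h.lip p hp q hq hpq).1
          linarith
        sharp := fun p hp q hq hpq => by
          have := (h.lip p hp q hq hpq).2
          linarith
        submod := fun p hp q hq h1 _ => by
          have := h.submod p hp q hq h1
          linarith }
  · have hJ : QJoin B I (olb B I0 co M C) (Leg M R) := by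
      have h3 := net_QJoin (B := B) (C := C) h.chart (P := Leg M R) fun p hp => hp.1
      exact Zpr779.line_QJoin (h3.mono (Eventually.of_forall h.sub) (Set.Subset.refl _))
        fun _ x => x.1
    exact hTo.submod hJ h.ne hp hq h1 (leg_sup hp hq)

end

/-- **D-max for all gauges over `Thin`** (778, 464): plain form, base `D.B`, boxes of `PD` -/
def GdThin (η : ℝ) : Prop :=
  ∀ (p : Par4) (D : Dat4) (I1 : ℕ → Finset (ℕ × ℝ)) (π : Equiv.Perm (Fin 3))
    (kp uz uc un : ℕ → ℝ) (F : ℕ → ℕ × ℝ → FW) (V T : Fin 18 → Prop) (w0 R T0 : ℝ)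
    (PD : Set (Fin 18 → ℝ)) (ν own : (Fin 18 → ℝ) → ℝ) (c₀ : ℝ),
    Thin η p D I1 π kp uz uc un F V T w0 R T0 PD ν own c₀ →
    ∃ C : ℝ, 0 < C ∧ ∀ x ∈ PD, ∀ K : ℝ, 1 ≤ K → ∀ ε : ℝ, 0 < ε → ∀ᶠ n in (U : Filter ℕ),
      ∀ e : ℕ × ℝ → Fin 14 → ℝ,
        (∀ j ∈ I1 n, (e j 9 = 0 ∧ e j 12 = 0 ∧ e j 13 = 0) ∧
          ∀ k, unW (uz n) (uc n) (un n) (Fin.natAdd 4 k) * |e j k| ≤ D.B.d n ^ (-C)) →
        ∀ i ∈ I1 n, ∀ G ⊆ I1 n, (∀ j ∈ G, ∀ k, |unW (uz n) (uc n) (un n) k *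
            coW (kp n) (GauW619.gau (kp n) (e i) (F n i)) (GauW619.gau (kp n) (e j) (F n j)) k| ≤
              K * D.B.d n ^ x k) →
          (G.card : ℝ) ≤ D.B.d n ^ (-(c₀ + DW p.g 0 (qW p π) w0 x + ε))

/-- `log₂` of a polynomially bounded number (779's `log_card`) -/
theorem log_cardO {B : Base} {c : ℝ} (hc : 0 ≤ c) {n m : ℕ} (h : (m : ℝ) ≤ B.d n ^ (-c)) :
    (Nat.log 2 m : ℝ) + 1 ≤ (2 * c + 1) * (1 + B.L n) := by
  have hL := B.L_pos n
  rcases Nat.eq_zero_or_pos m with rfl | hm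
  · simp only [Nat.log_zero_right, Nat.cast_zero, zero_add]
    nlinarith
  have hm' : (0 : ℝ) < m := by exact_mod_cast hm
  have h1 : ((2 : ℝ) ^ (Nat.log 2 m)) ≤ m := by
    exact_mod_cast Nat.pow_log_le_self 2 hm.ne'
  have h2 : Real.log ((2 : ℝ) ^ (Nat.log 2 m)) ≤ Real.log (B.d n ^ (-c)) :=
    Real.log_le_log (by positivity) (h1.trans h)
  rw [Real.log_pow, Real.log_rpow (B.pos n)] at h2
  have h3 : -c * Real.log (B.d n) = c * B.L n := by
    unfold Base.L; ring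
  rw [h3] at h2
  have h4 : (1 : ℝ) / 2 ≤ Real.log 2 := by
    have := Real.log_two_gt_d9
    linarith
  have h5 : (Nat.log 2 m : ℝ) * (1 / 2) ≤ c * B.L n :=
    (mul_le_mul_of_nonneg_left h4 (Nat.cast_nonneg _)).trans h2
  nlinarith [mul_nonneg hc hL.le]

/-- **`Thin` is an object** -/
theorem seamThinOb {η : ℝ} (hη : 0 < η) (hη4 : η ≤ 1 / 8) (hg : GdThin η) : SeamThinOb η := by
  intro p D I1 π kp uz uc un F V T w0 R T0 PD ν own c₀ h
  have C := ctx_thin h hη hη4 (v1 := 1 / 2) (by norm_num) (by norm_num)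
  have hR : 0 ≤ R := by linarith [h.tp.big.wR, h.tp.big.w0pos]
  refine ⟨w0, R, T0, D.B, D.B, D.I, I1, kp, fun n => unW (uz n) (uc n) (un n), F, fun _ => 0,
    fun _ => 1, fun n => 1 * D.B.d n ^ (-(ν 0)), fun _ => 1, PD, fun q => ν q + -(ν 0), own,
    c₀ + -(ν 0), ?_, ?_⟩
  · exact
      { th1 := C.θ1
        q1 := C.q1
        q2 := C.q2
        q0 := C.q0
        qg := C.qg
        qθ := C.qθ
        vis := fun k hk => h.tp.slots.vis k hk
        tied := fun k hk => h.tp.slots.tied k hk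
        u0 := fun n => GrU.unW (h.tp.uz0 n) (h.tp.uc0 n) (h.tp.un0 n)
        κ1 := h.tp.kp1
        κ0 := by
          have hsub : D.B.Sub (fun n => |kp n|) := sub_of_bd h.tp.kp0 fun ε hε =>
            Eventually.of_forall fun n => (h.tp.kp1 n).trans
              (Real.one_le_rpow_of_pos_of_le_one_of_nonpos (D.B.pos n) (D.B.lt n).le (by linarith))
          exact hsub.inv
        big := h.tp.big
        bas := ⟨fun k => Finset.Subset.refl _, fun k e _ n => by simp,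
          fun k e he hn => absurd he hn⟩
        pdn := h.tp.pdn
        ext := by
          have hE : Wq638.EQ (thW p π) p.g 0 (qW p π) w0 R =
              fun v => DW p.g 0 (qW p π) w0 (pathW (thW p π) w0 v) := by
            funext v; exact EQ_path h.tp.th2 _ _ _ _
          have h1 := extZ_of_extQ h.ext hR fun v v0 v1 => h.tp.big.path_leg v0 v1
          rw [hE] at h1
          exact h1
        gd := by
          obtain ⟨C, hC, hg'⟩ := hg p D I1 π kp uz uc un F V T w0 R T0 PD ν own c₀ h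
          refine ⟨C, hC, fun x hx K hK ε hε => ?_⟩
          filter_upwards [hg' x hx K hK ε hε] with n hn e he i hi G hG hj
          have h2 := hn e he i hi G hG fun j hj' k => by
            have := hj j hj' k
            simpa only [Pi.zero_apply, Real.rpow_zero, one_mul] using this
          refine h2.trans (le_of_eq ?_)
          rw [one_mul, ← Real.rpow_add (D.B.pos n)]
          congr 1; ring
        card := by
          obtain ⟨c, hc, hcd⟩ := h.ext.card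
          exact ⟨fun n => (2 * c + 1) * (1 + D.B.L n),
            (Base.Sub.const (by positivity)).mul Base.Sub.one_add_L,
            hcd.mono fun n hn => log_cardO hc hn⟩ }
  · intro a _ b _ hab
    have : a = b := funext fun k => hab k (by simp)
    rw [this]; exact ⟨rfl, rfl⟩

end Crest.Agent.R136.ThO830
end

-- ▼ part R136/GgB_893
section

/-!
# R136 (S0187): D-max for all gauges on the sample (helper893, plan of helper464)

* `gau_close` : one gauge `e` of size `d^(-1)` moves flags of two `d^R`-close incidences apart by at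
  most `d^(R-1)`.
* `low` : the box lowered in the flag slots to the side of slot `17`.
* `gd_of_comb` : D-max for all gauges on the family and uniformity of the sample (`CombQ`) give
  D-max for all gauges on the sample.
-/

set_option autoImplicit false
set_option linter.unusedVariables false

open Finset Filter Topology

namespace Crest.Agent.R136.GgB893

open Crest.Agent.R138.Ex926 (Base U)
open Crest.Agent.R138.Mk163 (zc zl rho alive)
open Crest.Agent.R138.Dp76 (dpow_pos dpow_add dpow_le)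
open Crest.Agent.R138.ArgM163 (ev_const)
open Crest.Agent.R136.Net191
open Crest.Agent.R136.NetW191
open Crest.Agent.R136.PrW464
open Crest.Agent.R136.Lq196 (CombQ)
open Crest.Agent.R136.GauW619 (gau gau_g gau_G coW_gau_frame coW_gau_flag)

/-! ### one gauge and two close incidences -/

lemma tms_ne : ∀ q, ∀ t ∈ tms q, t.hl ≠ [] := by decide

lemma list_scale (u : Fin 4 → ℝ) (hu : ∀ i, 0 < u i) (δ : ℝ) (l : List (Fin 4)) :
    (l.map fun i => δ / u i).prod * (l.map u).prod = δ ^ l.length := by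
  induction l with
  | nil => simp
  | cons a l ih =>
    simp only [List.map_cons, List.prod_cons, List.length_cons, pow_succ]
    have := (hu a).ne'
    calc δ / u a * (l.map fun i => δ / u i).prod * (u a * (l.map u).prod)
        = (δ / u a * u a) * ((l.map fun i => δ / u i).prod * (l.map u).prod) := by ring
      _ = δ ^ l.length * δ := by rw [ih, div_mul_cancel₀ _ this]; ring

/-- the correction term of a gauge -/
theorem gau_corr {κ uz uc un : ℝ} (hκ : |κ| ≤ 1) (hz : 0 < uz) (hc : 0 < uc) (hn : 0 < un)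
    {h : Fin 4 → ℝ} {e : Fin 14 → ℝ} {δ E : ℝ} (hδ : 0 ≤ δ) (hδ1 : δ ≤ 1) (hE : 0 ≤ E)
    (hh : ∀ i : Fin 4, unW uz uc un (Fin.castAdd 14 i) * |h i| ≤ δ)
    (he : ∀ q : Fin 14, unW uz uc un (Fin.natAdd 4 q) * |e q| ≤ E) (q : Fin 14) :
    unW uz uc un (Fin.natAdd 4 q) * |((tms q).map (Tm.ev κ h e)).sum| ≤ 67 * (δ * E) := by
  have up : ∀ k, 0 < unW uz uc un k := unW_pos hz hc hn
  set u := unW uz uc un with hu
  set X : Fin 18 → ℝ := Fin.append (m := 4) (n := 14) (fun i => δ / u (Fin.castAdd 14 i))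
    (fun q => E / u (Fin.natAdd 4 q)) with hX
  have key := sum_ev_le hκ (X := X) (h := h) (w := e) (S := δ * E / u (Fin.natAdd 4 q))
    (fun i => by
      rw [hX, Fin.append_left, le_div_iff₀ (up _), mul_comm]
      exact hh i)
    (fun i => by
      rw [hX, Fin.append_right, le_div_iff₀ (up _), mul_comm]
      exact he i)
    (tms q) (fun t ht => by
      have e1 : (t.idx.map X).prod =
          (t.hl.map fun i => δ / u (Fin.castAdd 14 i)).prod * (E / u (Fin.natAdd 4 t.s)) := by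
        simp [Tm.idx, List.map_append, List.prod_append, Function.comp_def, hX, Fin.append_left,
          Fin.append_right]
      have e2 : (t.idx.map u).prod =
          (t.hl.map fun i => u (Fin.castAdd 14 i)).prod * u (Fin.natAdd 4 t.s) := by
        simp [Tm.idx, List.map_append, List.prod_append, Function.comp_def]
      have e3 : (t.idx.map u).prod = u (Fin.natAdd 4 q) := by
        refine unW_list hz hc hn (Fin.natAdd 4 q) t.idx ?_
        rw [mlW_right]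
        exact List.mem_map.2 ⟨t, ht, rfl⟩
      have e4 := list_scale (fun i => u (Fin.castAdd 14 i)) (fun i => up _) δ t.hl
      rw [le_div_iff₀ (up _), ← e3, e1, e2]
      have us := (up (Fin.natAdd 4 t.s)).ne'
      calc (t.hl.map fun i => δ / u (Fin.castAdd 14 i)).prod * (E / u (Fin.natAdd 4 t.s)) *
            ((t.hl.map fun i => u (Fin.castAdd 14 i)).prod * u (Fin.natAdd 4 t.s))
          = ((t.hl.map fun i => δ / u (Fin.castAdd 14 i)).prod *
              (t.hl.map fun i => u (Fin.castAdd 14 i)).prod) *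
              (E / u (Fin.natAdd 4 t.s) * u (Fin.natAdd 4 t.s)) := by ring
        _ = δ ^ t.hl.length * E := by rw [e4, div_mul_cancel₀ _ us]
        _ ≤ δ * E := by
            refine mul_le_mul_of_nonneg_right ?_ hE
            have hl : 1 ≤ t.hl.length :=
              List.length_pos_iff.2 (tms_ne q t ht)
            calc δ ^ t.hl.length ≤ δ ^ 1 := pow_le_pow_of_le_one hδ hδ1 hl
              _ = δ := pow_one δ)
  have h67 : ((((tms q).map fun t => t.n.natAbs).sum : ℕ) : ℝ) ≤ 67 := by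
    exact_mod_cast tms_sum q
  have hS : 0 ≤ δ * E / u (Fin.natAdd 4 q) := div_nonneg (mul_nonneg hδ hE) (up _).le
  have h1 := key.trans (mul_le_mul_of_nonneg_right h67 hS)
  calc u (Fin.natAdd 4 q) * |((tms q).map (Tm.ev κ h e)).sum|
      ≤ u (Fin.natAdd 4 q) * (67 * (δ * E / u (Fin.natAdd 4 q))) :=
        mul_le_mul_of_nonneg_left h1 (up _).le
    _ = 67 * (δ * E) := by
        have := (up (Fin.natAdd 4 q)).ne'
        field_simp

/-- **one gauge and two close incidences** -/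
theorem gau_close {κ uz uc un : ℝ} (hκ : |κ| ≤ 1) (hz : 0 < uz) (hc : 0 < uc) (hn : 0 < un)
    {f f' : FW} {e : Fin 14 → ℝ} {δ E : ℝ} (hδ : 0 ≤ δ) (hδ1 : δ ≤ 1) (hE : 0 ≤ E)
    (h : ∀ k, |unW uz uc un k * coW κ f f' k| ≤ δ)
    (he : ∀ q : Fin 14, unW uz uc un (Fin.natAdd 4 q) * |e q| ≤ E) :
    (∀ i : Fin 4, |unW uz uc un (Fin.castAdd 14 i) *
      coW κ (gau κ e f) (gau κ e f') (Fin.castAdd 14 i)| ≤ δ) ∧
    ∀ q : Fin 14, |unW uz uc un (Fin.natAdd 4 q) *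
      coW κ (gau κ e f) (gau κ e f') (Fin.natAdd 4 q)| ≤ δ + 67 * (δ * E) := by
  have up : ∀ k, 0 < unW uz uc un k := unW_pos hz hc hn
  refine ⟨fun i => by rw [coW_gau_frame]; exact h _, fun q => ?_⟩
  rw [coW_gau_flag, tr_tms]
  have hh : ∀ i : Fin 4, unW uz uc un (Fin.castAdd 14 i) * |rel κ f.g f'.g i| ≤ δ := fun i => by
    have := h (Fin.castAdd 14 i)
    rw [coW_left, abs_mul, abs_of_pos (up _)] at this
    exact this
  have h1 := gau_corr hκ hz hc hn hδ hδ1 hE hh he q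
  have e1 : coW κ f f' (Fin.natAdd 4 q) + e q -
      (e q + ((tms q).map (Tm.ev κ (rel κ f.g f'.g) e)).sum) =
      coW κ f f' (Fin.natAdd 4 q) - ((tms q).map (Tm.ev κ (rel κ f.g f'.g) e)).sum := by ring
  rw [e1, mul_sub]
  refine (abs_sub _ _).trans (add_le_add (h _) ?_)
  rw [abs_mul, abs_of_pos (up _)]
  exact h1

/-! ### triangle inequality for three flagged lines -/

theorem tri3 {κ uz uc un : ℝ} (hκ : |κ| ≤ 1) (hz : 0 < uz) (hc : 0 < uc) (hn : 0 < un)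
    {f1 f2 f3 : FW} {x : Fin 18 → ℝ} (hx : Legal monW x) {d K : ℝ} (hd : 0 < d) (hd1 : d ≤ 1)
    (hK : 1 ≤ K) (h1 : ∀ k, |unW uz uc un k * coW κ f1 f2 k| ≤ K * d ^ x k)
    (h2 : ∀ k, |unW uz uc un k * coW κ f2 f3 k| ≤ K * d ^ x k) (k : Fin 18) :
    |unW uz uc un k * coW κ f1 f3 k| ≤ triC monW 67 K * d ^ x k :=
  (chartW_un (Finset.univ : Finset (Fin 3)) ![f1, f2, f3] hκ hz hc hn).tri hx hd hd1 hK
    (i := 0) (j := 1) (l := 2) (mem_univ _) (mem_univ _) (mem_univ _) h1 h2 k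

/-! ### lowered boxes -/

/-- lower the flag slots to the side of slot `17` -/
def low (x : Fin 18 → ℝ) : Fin 18 → ℝ :=
  Fin.append (m := 4) (n := 14) (fun i => x (Fin.castAdd 14 i))
    (fun q => min (x (Fin.natAdd 4 q)) (x 17))

theorem low_left (x : Fin 18 → ℝ) (i : Fin 4) : low x (Fin.castAdd 14 i) = x (Fin.castAdd 14 i) :=
  Fin.append_left _ _ _

theorem low_right (x : Fin 18 → ℝ) (q : Fin 14) :
    low x (Fin.natAdd 4 q) = min (x (Fin.natAdd 4 q)) (x 17) := Fin.append_right _ _ _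

theorem low_le (x : Fin 18 → ℝ) (k : Fin 18) : low x k ≤ x k := by
  refine Fin.addCases (m := 4) (n := 14) (fun i => ?_) (fun q => ?_) k
  · rw [low_left]
  · rw [low_right]; exact min_le_left _ _

theorem low_0 (x : Fin 18 → ℝ) : low x 0 = x 0 := low_left x 0
theorem low_2 (x : Fin 18 → ℝ) : low x 2 = x 2 := low_left x 2
theorem low_3 (x : Fin 18 → ℝ) : low x 3 = x 3 := low_left x 3
theorem low_17 (x : Fin 18 → ℝ) : low x 17 = x 17 := by
  have h := low_right x 13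
  have e : (Fin.natAdd 4 (13 : Fin 14) : Fin 18) = 17 := rfl
  rw [e, min_self] at h
  exact h

theorem low_legal {x : Fin 18 → ℝ} (h : Legal monW x) : Legal monW (low x) := by
  have h1 := legal_ofLists.1 h
  refine legal_ofLists.2 ⟨fun k => ?_, fun k => ?_⟩
  · refine Fin.addCases (m := 4) (n := 14) (fun i => ?_) (fun q => ?_) k
    · rw [low_left]; exact h1.1 _
    · rw [low_right]; exact le_min (h1.1 _) (h1.1 _)
  · refine Fin.addCases (m := 4) (n := 14) (fun i => ?_) (fun q => ?_) k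
    · intro l hl
      have h2 := h1.2 (Fin.castAdd 14 i) l hl
      rw [low_left]
      refine h2.trans (le_of_eq ?_)
      congr 1
      refine List.map_congr_left fun s hs => ?_
      have h3 := mlW_low (Fin.castAdd 14 i) l hl s hs
      have h4 : s.val < 4 := by
        have h5 : s.val < (Fin.castAdd 14 i).val := h3
        have h6 : (Fin.castAdd 14 i).val = i.val := rfl
        have := i.isLt
        omega
      have e : s = Fin.castAdd 14 ⟨s.val, h4⟩ := by ext; rfl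
      rw [e, low_left]
    · intro l hl
      have h2 := h1.2 (Fin.natAdd 4 q) l hl
      have hl' := hl
      rw [mlW_right] at hl'
      obtain ⟨t, ht, rfl⟩ := List.mem_map.1 hl'
      have es : ∀ y : Fin 18 → ℝ, (t.idx.map y).sum =
          (t.hl.map fun i => y (Fin.castAdd 14 i)).sum + y (Fin.natAdd 4 t.s) := fun y => by
        simp [Tm.idx, List.map_append, List.sum_append, Function.comp_def]
      rw [es] at h2
      rw [es, low_right, low_right]
      have e0 : (t.hl.map fun i => low x (Fin.castAdd 14 i)) =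
          t.hl.map fun i => x (Fin.castAdd 14 i) := List.map_congr_left fun i _ => low_left x i
      rw [e0]
      have hA : 0 ≤ (t.hl.map fun i => x (Fin.castAdd 14 i)).sum := by
        refine List.sum_nonneg fun y hy => ?_
        obtain ⟨i, _, rfl⟩ := List.mem_map.1 hy
        exact h1.1 _
      rcases le_total (x (Fin.natAdd 4 t.s)) (x 17) with h3 | h3
      · rw [min_eq_left h3]
        exact (min_le_left _ _).trans h2
      · rw [min_eq_right h3]
        exact (min_le_right _ _).trans (by linarith)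

theorem low_leg {x : Fin 18 → ℝ} {R : ℝ} (h : x ∈ Leg monW R) : low x ∈ Leg monW R :=
  ⟨low_legal h.1, fun k => (low_le x k).trans (h.2 k)⟩

theorem const_legal {R : ℝ} (hR : 0 ≤ R) : Legal monW (fun _ => R) := by
  refine legal_ofLists.2 ⟨fun _ => hR, fun k l hl => ?_⟩
  obtain ⟨a, l', rfl⟩ := List.exists_cons_of_ne_nil (mlW_ne k l hl)
  rw [List.map_cons, List.sum_cons]
  have : 0 ≤ (l'.map fun _ : Fin 18 => R).sum :=
    List.sum_nonneg fun y hy => by
      obtain ⟨i, _, rfl⟩ := List.mem_map.1 hy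
      exact hR
  linarith

/-! ### the sample -/

open Classical in
/-- **D-max for all gauges on the sample** -/
theorem gd_of_comb {B : Base} {I0 I1 : ℕ → Finset (ℕ × ℝ)} {lev : ℕ → ℚ → ℕ}
    {kp uz uc un : ℕ → ℝ} {F : ℕ → ℕ × ℝ → FW} {R c₀ : ℝ} {N0 : ℕ → ℝ}
    {PD : Set (Fin 18 → ℝ)} {Dn : (Fin 18 → ℝ) → ℝ}
    (kp1 : ∀ n, |kp n| ≤ 1) (uz0 : ∀ n, 0 < uz n) (uc0 : ∀ n, 0 < uc n) (un0 : ∀ n, 0 < un n)
    (hC : CombQ B I0 I1 lev (couW kp uz uc un F) monW 67 R N0 c₀) (hsub : ∀ n, I1 n ⊆ I0 n)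
    (hPD : PD ⊆ Leg monW R)
    (pdc : ∀ x ∈ PD, ∀ y ∈ Leg monW R, y 0 = x 0 → y 2 = x 2 → y 3 = x 3 → y 17 = x 17 → y ∈ PD)
    (pdr : ∀ x ∈ PD, x 17 ≤ R - 1)
    (hD : ∀ x y : Fin 18 → ℝ, y 0 = x 0 → y 2 = x 2 → y 3 = x 3 → y 17 = x 17 → Dn y = Dn x)
    (gmax : ∀ x ∈ PD, ∀ C K : ℝ, 1 ≤ K → ∀ ε : ℝ, 0 < ε → ∀ᶠ n in (U : Filter ℕ),
      ∀ e : ℕ × ℝ → Fin 14 → ℝ,
      (∀ j ∈ I0 n, (e j 9 = 0 ∧ e j 12 = 0 ∧ e j 13 = 0) ∧
        ∀ k, unW (uz n) (uc n) (un n) (Fin.natAdd 4 k) * |e j k| ≤ B.d n ^ (-C)) →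
      ∀ i ∈ I0 n, ∀ S ⊆ I0 n, (∀ j ∈ S, ∀ k, |unW (uz n) (uc n) (un n) k *
        coW (kp n) (gau (kp n) (e i) (F n i)) (gau (kp n) (e j) (F n j)) k| ≤
          K * B.d n ^ x k) → (S.card : ℝ) ≤ N0 n * B.d n ^ (-(Dn x + ε))) :
    ∀ x ∈ PD, ∀ K : ℝ, 1 ≤ K → ∀ ε : ℝ, 0 < ε → ∀ᶠ n in (U : Filter ℕ),
      ∀ e : ℕ × ℝ → Fin 14 → ℝ,
      (∀ j ∈ I1 n, (e j 9 = 0 ∧ e j 12 = 0 ∧ e j 13 = 0) ∧
        ∀ k, unW (uz n) (uc n) (un n) (Fin.natAdd 4 k) * |e j k| ≤ B.d n ^ (-(1:ℝ))) →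
      ∀ i ∈ I1 n, ∀ G ⊆ I1 n, (∀ j ∈ G, ∀ k, |unW (uz n) (uc n) (un n) k *
        coW (kp n) (gau (kp n) (e i) (F n i)) (gau (kp n) (e j) (F n j)) k| ≤
          K * B.d n ^ x k) →
      (G.card : ℝ) ≤ B.d n ^ (-(c₀ + Dn x + ε)) := by
  intro x hx K hK ε hε
  obtain ⟨Kn, hK1, hK2, -⟩ := hC
  have hxL := hPD hx
  have hR1 : 1 ≤ R := by linarith [pdr x hx, hxL.1.nonneg 17]
  have hR0 : 0 ≤ R := by linarith
  have hlow : low x ∈ PD := pdc x hx (low x) (low_leg hxL) (low_0 x) (low_2 x) (low_3 x) (low_17 x)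
  have hDl : Dn (low x) = Dn x := hD x (low x) (low_0 x) (low_2 x) (low_3 x) (low_17 x)
  have hc1 : 1 ≤ cK0 monW 67 := cK0_one (by norm_num)
  set c := cK0 monW 67 with hc
  set K1 := max K (68 * c) with hK1'
  have hK1one : 1 ≤ K1 := hK.trans (le_max_left _ _)
  have hK'one : 1 ≤ triC monW 67 K1 := hK1one.trans (triC_ge (by norm_num) hK1one)
  have hch : ∀ n, Chart (I0 n) (couW kp uz uc un F n) monW 67 := fun n =>
    chart_couW F kp1 uz0 uc0 un0 n (I0 n)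
  filter_upwards [hK1 (ε / 4) (by positivity), hK2,
    gmax (low x) hlow 1 (triC monW 67 K1) hK'one (ε / 2) (by positivity),
    ev_const B (C := c) (by linarith) (η := R) (by linarith),
    ev_const B (C := 16) (by norm_num) (η := ε / 4) (by positivity)]
    with n n1 n2 n3 n4 n5 e he i hi G hG hbox
  have hd := B.pos n
  have hd1 := (B.lt n).le
  have hi0 := hsub n hi
  -- representatives
  set P : ℕ × ℝ → ℕ × ℝ → Prop := fun j r => r ∈ G ∧
    nlab B I0 (couW kp uz uc un F) monW 67 n (fun _ => R) j =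
      nlab B I0 (couW kp uz uc un F) monW 67 n (fun _ => R) r with hP
  set e' : ℕ × ℝ → Fin 14 → ℝ := fun j =>
    if j = i then e i else if h : ∃ r, P j r then e h.choose else 0 with he'
  have dneg : 0 ≤ B.d n ^ (-(1:ℝ)) := (dpow_pos B n _).le
  have he'ok : ∀ j ∈ I0 n, (e' j 9 = 0 ∧ e' j 12 = 0 ∧ e' j 13 = 0) ∧
      ∀ k, unW (uz n) (uc n) (un n) (Fin.natAdd 4 k) * |e' j k| ≤ B.d n ^ (-(1:ℝ)) := by
    intro j hj
    simp only [he']
    split_ifs with h1 h2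
    · exact he i hi
    · exact he _ (hG h2.choose_spec.1)
    · refine ⟨⟨rfl, rfl, rfl⟩, fun k => ?_⟩
      show unW (uz n) (uc n) (un n) (Fin.natAdd 4 k) * |(0:ℝ)| ≤ _
      rw [abs_zero, mul_zero]; exact dneg
  have hei : e' i = e i := by simp only [he', if_true]
  set F' := (I0 n).filter fun j => ∃ r, P j r with hF'
  have hδ1 : c * B.d n ^ R ≤ 1 := by
    calc c * B.d n ^ R ≤ B.d n ^ (-R) * B.d n ^ R :=
          mul_le_mul_of_nonneg_right n4 (dpow_pos B n _).le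
      _ = 1 := by rw [← dpow_add]; simp
  have hδ0 : 0 ≤ c * B.d n ^ R := mul_nonneg (by linarith) (dpow_pos B n _).le
  have hsubF : ∀ j ∈ F', ∀ k, |unW (uz n) (uc n) (un n) k *
      coW (kp n) (gau (kp n) (e' i) (F n i)) (gau (kp n) (e' j) (F n j)) k| ≤
        triC monW 67 K1 * B.d n ^ low x k := by
    intro j hj
    rw [hF', mem_filter] at hj
    obtain ⟨hj0, hex⟩ := hj
    by_cases hji : j = i
    · intro k
      rw [hji, coW_refl _ (kp1 n), mul_zero, abs_zero]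
      exact mul_nonneg (by linarith) (dpow_pos B n _).le
    · have hej : e' j = e hex.choose := by simp only [he', if_neg hji, dif_pos hex]
      obtain ⟨hr, hlab⟩ := hex.choose_spec
      set r := hex.choose with hrdef
      have hr0 := hsub n (hG hr)
      rw [hei, hej]
      have hnear : ∀ k, |unW (uz n) (uc n) (un n) k * coW (kp n) (F n r) (F n j) k| ≤
          c * B.d n ^ R := fun k =>
        near_of_nlab hch (const_legal hR0) hr0 hj0 hlab.symm k
      have hgc := gau_close (kp1 n) (uz0 n) (uc0 n) (un0 n) hδ0 hδ1 dneg hnear (he r (hG hr)).2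
      have hE : c * B.d n ^ R + 67 * (c * B.d n ^ R * B.d n ^ (-(1:ℝ))) ≤
          68 * c * B.d n ^ (R - 1) := by
        have e1 : B.d n ^ R * B.d n ^ (-(1:ℝ)) = B.d n ^ (R - 1) := by
          rw [← dpow_add]; congr 1
        have e2 : B.d n ^ R ≤ B.d n ^ (R - 1) := dpow_le B n (by linarith)
        have e3 : c * B.d n ^ R * B.d n ^ (-(1:ℝ)) = c * B.d n ^ (R - 1) := by
          rw [mul_assoc, e1]
        rw [e3]
        have e4 : c * B.d n ^ R ≤ c * B.d n ^ (R - 1) :=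
          mul_le_mul_of_nonneg_left e2 (by linarith)
        linarith
      refine tri3 (kp1 n) (uz0 n) (uc0 n) (un0 n) (low_legal hxL.1) hd hd1 hK1one
        (f2 := gau (kp n) (e r) (F n r)) (fun k => ?_) (fun k => ?_)
      · refine (hbox r hr k).trans ?_
        refine mul_le_mul (le_max_left _ _) (dpow_le B n (low_le x k)) (dpow_pos B n _).le ?_
        linarith
      · refine Fin.addCases (m := 4) (n := 14) (fun a => ?_) (fun q => ?_) k
        · refine (hgc.1 a).trans (mul_le_mul ?_ (dpow_le B n ?_) (dpow_pos B n _).le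
            (by linarith))
          · exact le_trans (by linarith) (le_max_right K (68 * c))
          · exact (low_le x _).trans (hxL.2 _)
        · refine (hgc.2 q).trans (hE.trans (mul_le_mul (le_max_right _ _) (dpow_le B n ?_)
            (dpow_pos B n _).le (by linarith)))
          rw [low_right]
          exact (min_le_right _ _).trans (pdr x hx)
  have c1 : (F'.card : ℝ) ≤ N0 n * B.d n ^ (-(Dn x + ε / 2)) := by
    have h1 := n3 e' he'ok i hi0 F' (filter_subset _ _) hsubF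
    rwa [hDl] at h1
  have c2 : Kn n * G.card ≤ 16 * F'.card := by
    refine n2 G hG F' (filter_subset _ _) fun r hr j hj hl _ => ?_
    rw [hF', mem_filter]
    exact ⟨hj, r, hr, hl⟩
  obtain ⟨k0, k1, -⟩ := n1
  have k0' : (0:ℝ) < Kn n := by exact_mod_cast k0
  have c2' : (Kn n : ℝ) * G.card ≤ 16 * F'.card := by exact_mod_cast c2
  have hp1 := dpow_pos B n (-(Dn x + ε / 2))
  have c3 : (Kn n : ℝ) * G.card ≤ Kn n * B.d n ^ (-(c₀ + Dn x + ε)) := by
    calc (Kn n : ℝ) * G.card ≤ 16 * F'.card := c2'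
      _ ≤ B.d n ^ (-(ε / 4)) * ((Kn n * B.d n ^ (-(c₀ + ε / 4))) * B.d n ^ (-(Dn x + ε / 2))) := by
          refine mul_le_mul n5 (c1.trans (mul_le_mul_of_nonneg_right k1 hp1.le))
            (Nat.cast_nonneg _) (dpow_pos B n _).le
      _ = Kn n * (B.d n ^ (-(ε / 4)) * (B.d n ^ (-(c₀ + ε / 4)) * B.d n ^ (-(Dn x + ε / 2)))) := by
          ring
      _ = Kn n * B.d n ^ (-(c₀ + Dn x + ε)) := by
          rw [← dpow_add, ← dpow_add]
          congr 2; ring
  exact le_of_mul_le_mul_left c3 k0'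

end Crest.Agent.R136.GgB893
end

-- ▼ part R136/GgC_893
section

/-!
# R136 (S0187): D-max for all gauges over `Thin` (helper893)

`gd_thin` : the body of `ThO830.GdThin` for one `Thin`, from D-max for all gauges on the family
(`gmax`), closedness of the D-max set (`pdc`, `pdr`) and uniformity of the sample (`comb`).
-/

set_option autoImplicit false
set_option linter.unusedVariables false

open Finset Filter Topology

namespace Crest.Agent.R136.GgC893

open Crest.Agent.R138.Ex926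
open Crest.Agent.R136.Net191
open Crest.Agent.R136.NetW191
open Crest.Agent.R136.PrW464
open Crest.Agent.R136.NatW697
open Crest.Agent.R136.Lq196
open Crest.Agent.R136.Top484
open Crest.Agent.R136.Wq638 (N0Q)

/-- **D-max for all gauges on the sample of `Thin`** -/
theorem gd_thin {η : ℝ} {p : Par4} {D : Dat4} {I1 : ℕ → Finset (ℕ × ℝ)} {π : Equiv.Perm (Fin 3)}
    {kp uz uc un : ℕ → ℝ} {F : ℕ → ℕ × ℝ → FW} {V T : Fin 18 → Prop} {w0 R T0 : ℝ}
    {PD : Set (Fin 18 → ℝ)} {ν own : (Fin 18 → ℝ) → ℝ} {c₀ : ℝ}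
    (h : Thin η p D I1 π kp uz uc un F V T w0 R T0 PD ν own c₀)
    (comb : CombQ D.B D.I I1 D.lev (couW kp uz uc un F) monW 67 R (N0Q D.A D.vm) c₀)
    (pdc : ∀ x ∈ PD, ∀ y ∈ Leg monW R, y 0 = x 0 → y 2 = x 2 → y 3 = x 3 → y 17 = x 17 → y ∈ PD)
    (pdr : ∀ x ∈ PD, x 17 ≤ 9 * w0 + max 0 (1 - thW p π 0))
    (gmax : ∀ x ∈ PD, ∀ C K : ℝ, 1 ≤ K → ∀ ε : ℝ, 0 < ε → ∀ᶠ n in (U : Filter ℕ),
      ∀ e : ℕ × ℝ → Fin 14 → ℝ,
      (∀ j ∈ D.I n, (e j 9 = 0 ∧ e j 12 = 0 ∧ e j 13 = 0) ∧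
        ∀ k, unW (uz n) (uc n) (un n) (Fin.natAdd 4 k) * |e j k| ≤ D.B.d n ^ (-C)) →
      ∀ i ∈ D.I n, ∀ S ⊆ D.I n, (∀ j ∈ S, ∀ k, |unW (uz n) (uc n) (un n) k *
        coW (kp n) (GauW619.gau (kp n) (e i) (F n i)) (GauW619.gau (kp n) (e j) (F n j)) k| ≤
          K * D.B.d n ^ x k) →
        (S.card : ℝ) ≤ N0Q D.A D.vm n * D.B.d n ^ (-(DW p.g 0 (qW p π) w0 x + ε))) :
    ∃ C : ℝ, 0 < C ∧ ∀ x ∈ PD, ∀ K : ℝ, 1 ≤ K → ∀ ε : ℝ, 0 < ε → ∀ᶠ n in (U : Filter ℕ),
      ∀ e : ℕ × ℝ → Fin 14 → ℝ,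
        (∀ j ∈ I1 n, (e j 9 = 0 ∧ e j 12 = 0 ∧ e j 13 = 0) ∧
          ∀ k, unW (uz n) (uc n) (un n) (Fin.natAdd 4 k) * |e j k| ≤ D.B.d n ^ (-C)) →
        ∀ i ∈ I1 n, ∀ G ⊆ I1 n, (∀ j ∈ G, ∀ k, |unW (uz n) (uc n) (un n) k *
            coW (kp n) (GauW619.gau (kp n) (e i) (F n i)) (GauW619.gau (kp n) (e j) (F n j)) k| ≤
              K * D.B.d n ^ x k) →
          (G.card : ℝ) ≤ D.B.d n ^ (-(c₀ + DW p.g 0 (qW p π) w0 x + ε)) := by
  refine ⟨1, one_pos, ?_⟩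
  have hth := abs_le.1 (h.tp.big.th 0)
  have hR := h.tp.big.R0
  exact GgB893.gd_of_comb h.tp.kp1 h.tp.uz0 h.tp.uc0 h.tp.un0 comb h.ext.sub h.tp.pre.PDleg pdc
    (fun x hx => by
      have h1 := pdr x hx
      have h2 : max 0 (1 - thW p π 0) ≤ 1 + T0 := max_le (by linarith [h.tp.big.T0]) (by linarith)
      linarith)
    (fun x y e0 e2 e3 e17 => by simp only [DW, e0, e2, e3, e17]) gmax

end Crest.Agent.R136.GgC893
end

-- ▼ part R136/GdF_778
section

/-!
# R136, thin branch (helper778): D-max for all gauges over `Thin`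

**`gdThin : ThO830.GdThin η`** (`gmax_W` 778, `wdata_gau` / `gd_thin` 893).
-/

set_option autoImplicit false

namespace Crest.Agent.R136.GeoN778

/-- **D-max for all gauges over `Thin`** -/
theorem gdThin {η : ℝ} : ThO830.GdThin η :=
  fun _p _D _I1 _π _kp _uz _uc _un _F _V _T _w0 _R _T0 _PD _ν _own _c₀ h =>
    GgC893.gd_thin h h.comb h.tp.pdc h.tp.pdr h.tp.gmax

end Crest.Agent.R136.GeoN778
end

-- ▼ part R136/OwW2_831
section

/-!
# R136, thin branch, own dichotomy in the W-chart, part 2 (helper831): closed sets of slots, assembly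

`hullC V` : closure under the caps; `Ob.close`; `capCl_KW`, `capCl_diff`; `ZW.chg` : change of the
visible and of the tied slots; **`seamClose : SeamClose`**, **`seamCap : SeamCap`**.
-/

set_option autoImplicit false
set_option linter.unusedVariables false
set_option linter.unusedSectionVars false

open Finset Filter Topology MeasureTheory

namespace Crest.Agent.R136.OwW831

open Crest.Agent.R136.Net191
open Crest.Agent.R136.NetW191
open Crest.Agent.R136.PrW464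
open Crest.Agent.R136.NatW697
open Crest.Agent.R136.LadW697
open Crest.Agent.R136.Top484
open Crest.Agent.R136.NatT550
open Crest.Agent.R136.ThS830
open Crest.Agent.R136.LadT830
open Crest.Agent.R136.LadG697
open Crest.Agent.R136.Zpr779
open Crest.Agent.R136.EvW938
open Crest.Agent.R136.Own831
open Crest.Agent.R138.Ex926

/-! ### closure -/

/-- closure under the caps -/
def hullC (V : Set (Fin 18)) : Set (Fin 18) := {s | ∀ W : Set (Fin 18), V ⊆ W → CapCl W → s ∈ W}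

theorem sub_hull (V : Set (Fin 18)) : V ⊆ hullC V := fun s hs W h _ => h hs

theorem capCl_hull (V : Set (Fin 18)) : CapCl (hullC V) := by
  rintro s ⟨l, hl, ht⟩ W hW hcl
  exact hcl s ⟨l, hl, fun t h => (ht t h).imp id fun h' => h' W hW hcl⟩

theorem hull_cap {V : Set (Fin 18)} {k : Fin 18} (hk : k ∈ hullC V) (hkV : k ∉ V) :
    ∃ l ∈ mlW k, ∀ t ∈ l, t = 0 ∨ t ∈ hullC V := by
  by_contra hcon
  refine (hk (hullC V \ {k}) (fun s hs => ⟨sub_hull V hs, fun h => ?_⟩) ?_).2 rfl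
  · rw [Set.mem_singleton_iff] at h; subst h; exact hkV hs
  · rintro s ⟨l, hl, ht⟩
    refine ⟨capCl_hull V s ⟨l, hl, fun t h => (ht t h).imp id fun h' => h'.1⟩, fun h => ?_⟩
    rw [Set.mem_singleton_iff] at h
    subst h
    exact hcon ⟨l, hl, fun t h => (ht t h).imp id fun h' => h'.1⟩

theorem ml_flag : ∀ s, ∀ l ∈ mlW s, (∀ t ∈ l, t = 0 ∨ (4 ≤ t ∧ t ≠ 13 ∧ t ≠ 16 ∧ t ≠ 17)) →
    (4 ≤ s ∧ s ≠ 13 ∧ s ≠ 16 ∧ s ≠ 17) := by decide

theorem ml_one : ∀ s, ∀ l ∈ mlW s, (∀ t ∈ l, t = 0 ∨ 4 ≤ t) →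
    ∃ t ∈ l, 4 ≤ t ∧ wc s = wc t ∧ wn s = wn t := by decide

theorem btW_list (θ : Fin 3 → ℝ) {k : Fin 18} {l : List (Fin 18)} (hl : l ∈ mlW k) :
    (l.map (btW θ)).sum = btW θ k := grW_list _ _ _ k l hl

theorem hull_vis {θ : Fin 3 → ℝ} {V : Set (Fin 18)}
    (h : ∀ k ∈ V, (4 ≤ k ∧ k ≠ 13 ∧ k ≠ 16 ∧ k ≠ 17) ∧ 0 < btW θ k) : ∀ k ∈ hullC V,
      (4 ≤ k ∧ k ≠ 13 ∧ k ≠ 16 ∧ k ≠ 17) ∧ 0 < btW θ k := by
  intro k hk
  refine hk {k | (4 ≤ k ∧ k ≠ 13 ∧ k ≠ 16 ∧ k ≠ 17) ∧ 0 < btW θ k} (fun s hs => h s hs) ?_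
  rintro s ⟨l, hl, ht⟩
  refine ⟨ml_flag s l hl fun t h' => (ht t h').imp id fun h'' => h''.1, ?_⟩
  have hpos : ∀ t ∈ l, 0 < btW θ t := fun t h' => by
    rcases ht t h' with h0 | h0
    · subst h0; rw [btW_zero]; exact one_pos
    · exact h0.2
  rw [← btW_list θ hl]
  obtain ⟨t, ht'⟩ := List.exists_mem_of_ne_nil l (mlW_ne s l hl)
  exact (hpos t ht').trans_le (sum_ge (fun s hs => (hpos s hs).le) ht')

/-- the slots of one rate -/
theorem capCl_KW {θ : Fin 3 → ℝ} {V : Set (Fin 18)} (h4 : ∀ k ∈ V, 4 ≤ k) (hcl : CapCl V)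
    (s : ℝ) : CapCl {k | k ∈ V ∧ KW θ k ≠ s} := by
  rintro k ⟨l, hl, ht⟩
  refine ⟨hcl k ⟨l, hl, fun t h => (ht t h).imp id fun h' => h'.1⟩, ?_⟩
  obtain ⟨t, h1, h2, h3, h4'⟩ := ml_one k l hl fun t h => (ht t h).imp id fun h' => h4 t h'.1
  have hK : KW θ k = KW θ t := by rw [KW_eq, KW_eq, h3, h4']
  rw [hK]
  rcases ht t h1 with h0 | h0
  · subst h0; exact absurd h2 (by decide)
  · exact h0.2

theorem capCl_diff {V : Set (Fin 18)} (hcl : CapCl V) {i : Fin 18} (hu : Unc V i) :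
    CapCl (V \ {i}) := by
  rintro k ⟨l, hl, ht⟩
  refine ⟨hcl k ⟨l, hl, fun t h => (ht t h).imp id fun h' => h'.1⟩, fun h => ?_⟩
  rw [Set.mem_singleton_iff] at h
  subst h
  obtain ⟨t, h1, h2, h3⟩ := hu l hl
  rcases ht t h1 with h0 | h0
  · exact h2 h0
  · exact h3 h0.1

/-! ### objects -/

section

variable {θ : Fin 3 → ℝ} {g : ℝ} {q : Fin 3 → ℝ} {V T : Set (Fin 18)} {w0 R T0 : ℝ}
  {B B' : Base} {I0 I : ℕ → Finset (ℕ × ℝ)} {κ : ℕ → ℝ} {u : ℕ → Fin 18 → ℝ}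
  {F : ℕ → ℕ × ℝ → FW} {X : ℕ → Fin 18 → ℝ} {w : ℕ → ℝ} {Tn To : ℕ → ℝ}
  {PD : Set (Fin 18 → ℝ)} {ν own : (Fin 18 → ℝ) → ℝ} {c₀ : ℝ}

/-- change of the visible and of the tied slots -/
theorem ZW.chg (H : ZW θ g q V T w0 R T0 B B' I0 I κ u F X w Tn To PD ν own c₀)
    {V' T' : Set (Fin 18)}
    (hvis : ∀ k ∈ V', (4 ≤ k ∧ k ≠ 13 ∧ k ≠ 16 ∧ k ≠ 17) ∧ 0 < btW θ k)
    (htied : ∀ k ∈ T', k ∈ V')
    (hrot : ∀ p ∈ Leg monW R, ∀ v : ℝ, 0 ≤ v → v ≤ 1 → p 0 = w0 + v →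
      (∀ k ∈ V', p k ≤ pathW θ w0 v k) → own p = 1 - v)
    (htw : ∀ p ∈ Leg monW R, ∀ v : ℝ, 0 ≤ v → v < 1 → p 0 = w0 + v →
      (∃ k ∈ T', pathW θ w0 v k < p k) → own p < 1 - v) :
    ZW θ g q V' T' w0 R T0 B B' I0 I κ u F X w Tn To PD ν own c₀ where
  th1 := H.th1
  q1 := H.q1
  q2 := H.q2
  q0 := H.q0
  qg := H.qg
  qθ := H.qθ
  vis := hvis
  tied := htied
  u0 := H.u0
  κ1 := H.κ1
  κ0 := H.κ0
  big := H.big
  bas := H.bas
  pdn := H.pdn
  ext :=
    { win := H.ext.win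
      R0 := H.ext.R0
      s0 := H.ext.s0
      s1 := H.ext.s1
      oprof := H.ext.oprof
      olip := H.ext.olip
      oanti := H.ext.oanti
      own_le := H.ext.own_le
      osub := H.ext.osub
      dmax := H.ext.dmax
      record := H.ext.record
      own_rot := fun p hp v h0 h1 hpv hk => by
        rw [hrot p hp v h0 h1 hpv fun k hkV => ?_]
        · ring
        · have h4 := (hvis k hkV).1.1
          have hk0 : k ≠ 0 := by rintro rfl; exact absurd h4 (by decide)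
          have := hk k
          rwa [own_in hk0 hkV] at this
      own_up := H.ext.own_up
      own_tw := fun p hp v h0 h1 hpv hk => by
        obtain ⟨k, hkT, hk2⟩ := hk
        have hkV := htied k hkT
        have h4 := (hvis k hkV).1.1
        have hk0 : k ≠ 0 := by rintro rfl; exact absurd h4 (by decide)
        have := htw p hp v h0 h1 hpv ⟨k, hkT, by rwa [own_in hk0 hkV] at hk2⟩
        linarith }
  gd := H.gd
  card := H.card

/-- **the closure of the visible slots** -/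
theorem Ob.close {Zs : Set (Fin 18)} (h : Ob θ g q V T Zs)
    (hS : SlotOkW θ (fun k => k ∈ V) (fun k => k ∈ T)) :
    ∃ V' : Set (Fin 18), V ⊆ V' ∧ CapCl V' ∧
      SlotOkW θ (fun k => k ∈ V') (fun k => k ∈ T) ∧ Ob θ g q V' T Zs := by
  have hvis := hull_vis (θ := θ) (V := V) fun k hk => hS.vis k hk
  refine ⟨hullC V, sub_hull V, capCl_hull V, ⟨fun k hk => sub_hull V (hS.tied k hk), hvis,
    fun k hk hkT => ?_⟩, ?_⟩
  · by_cases hkV : k ∈ V
    · obtain ⟨l, hl, ht⟩ := hS.cap k hkV hkT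
      exact ⟨l, hl, fun t h => (ht t h).imp id fun h' => sub_hull V h'⟩
    · exact hull_cap hk hkV
  · obtain ⟨w0, R, T0, B, B', I0, I, κ, u, F, X, w, Tn, To, PD, ν, own, c₀, H, hz⟩ := h
    refine ⟨w0, R, T0, B, B', I0, I, κ, u, F, X, w, Tn, To, PD, ν, own, c₀, ZW.chg H hvis
      (fun k hk => sub_hull V (H.tied k hk)) (fun p hp v h0 h1 hpv hk =>
        H.fact.own_rot p hp v h0 h1 hpv fun k hkV => hk k (sub_hull V hkV))
      (fun p hp v h0 h1 hpv hk => ?_), hz⟩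
    obtain ⟨k, hkT, hk2⟩ := hk
    have hkV := H.tied k hkT
    have h4 := (H.vis k hkV).1.1
    have hk0 : k ≠ 0 := by rintro rfl; exact absurd h4 (by decide)
    have := H.ext.own_tw p hp v h0 h1 hpv ⟨k, hkT, by rwa [own_in hk0 hkV]⟩
    linarith

end

/-- **697's `SeamClose`** -/
theorem seamClose : SeamClose := fun θ g q V T Zs h hS => Ob.close h hS

/-- **697's `SeamCap`** -/
theorem seamCap : SeamCap := fun θ V s hcl h => capCl_KW (fun k hk => (h k hk).1.1) hcl s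

end Crest.Agent.R136.OwW831
end

-- ▼ part R136/OwW5_831

/-!
# R136, thin branch, own dichotomy in the W-chart, part 4 (helper831): ZOOM AT A RECORD POINT

`ZW.zoom` : in the case `Zer` of the uncapped slot `i` an object without the visible slot `i` exists.
**`seamOwnC : SeamOwnC`**.
-/

set_option autoImplicit false
set_option linter.unusedVariables false
set_option linter.unusedSectionVars false

open Finset Filter Topology MeasureTheory

namespace Crest.Agent.R136.OwW831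

open Crest.Agent.R136.Net191
open Crest.Agent.R136.NetW191
open Crest.Agent.R136.Qg926
open Crest.Agent.R136.PrW464
open Crest.Agent.R136.NatW697
open Crest.Agent.R136.K2S774
open Crest.Agent.R136.LadW697
open Crest.Agent.R136.Top484
open Crest.Agent.R136.ThS830
open Crest.Agent.R136.LadG697
open Crest.Agent.R136.Zpr779
open Crest.Agent.R136.Own831
open Crest.Agent.R138.Ex926

/-- restriction of a window -/
theorem win_restr {m : ℕ} {ι : ℕ → Type*} [∀ n, DecidableEq (ι n)] {B B' : Base}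
    {I J : ∀ n, Finset (ι n)} {co : ∀ n, ι n → ι n → Fin m → ℝ} {M : Mons m} {C : ℝ}
    {X : ℕ → Fin m → ℝ} {w : ℕ → ℝ} {D D' : Set (Fin m → ℝ)} {T : ℕ → ℝ} {lam : (Fin m → ℝ) → ℝ}
    (h : ZWin B B' I J co M C X w D T lam) (hD : D' ⊆ D) (h0 : (0 : Fin m → ℝ) ∈ D') :
    ZWin B B' I J co M C X w D' T lam where
  chart := h.chart
  sub := h.sub
  ne := h.ne
  w0 := h.w0
  base := h.base
  zero := h0
  legal := fun K => (h.legal K).mono fun n hn c hc hcK => hn c (hD hc) hcK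
  prof :=
    { up := fun K ε hε => (h.prof.up K ε hε).mono fun n hn p hp hpK i hi => hn p (hD hp) hpK i hi
      num := fun K ε hε => (h.prof.num K ε hε).mono fun n hn q hq hqK p hp hpK hqp i hi =>
        hn q (hD hq) hqK p (hD hp) hpK hqp i hi
      root := fun K ε hε => (h.prof.root K ε hε).mono fun n hn p hp hpK => hn p (hD hp) hpK }
  lam0 := h.lam0
  T0 := h.T0
  lip := fun c hc c' hc' => h.lip c (hD hc) c' (hD hc')
  anti := fun c hc c' hc' => h.anti c (hD hc) c' (hD hc')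
  sharp := fun c hc c' hc' => h.sharp c (hD hc) c' (hD hc')
  submod := fun c hc c' hc' hi hs => h.submod c (hD hc) c' (hD hc') (hD hi) (hD hs)

theorem leg_norm {m : ℕ} {M : Mons m} {R : ℝ} (hR : 0 ≤ R) {p : Fin m → ℝ} (hp : p ∈ Leg M R) :
    ‖p‖ ≤ R := by
  rw [pi_norm_le_iff_of_nonneg hR]
  intro k
  rw [Real.norm_eq_abs, abs_of_nonneg (hp.1.nonneg k)]
  exact hp.2 k

/-- thickness near a record point -/
theorem ev17 {θ : Fin 3 → ℝ} {w0 v1 : ℝ} (h0 : 0 < v1) (h1 : v1 < 1) {d : Fin 18 → ℝ}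
    (hd : θ 0 = 1 → d 17 ≤ 0) :
    ∀ᶠ h in 𝓝[>] (0:ℝ), (pathW θ w0 v1 + h • d) 17 ≤ 9 * w0 + max 0 (1 - θ 0) := by
  have e : ∀ h : ℝ, (pathW θ w0 v1 + h • d) 17 = 9 * w0 + (1 - θ 0) * v1 + h * d 17 := fun h => by
    have : pathW θ w0 v1 17 = 9 * w0 + (1 - θ 0) * v1 := by rw [pathW_nat, natW_N]
    simp only [Pi.add_apply, Pi.smul_apply, smul_eq_mul, this]
  rcases lt_trichotomy (θ 0) 1 with h3 | h3 | h3
  · have h4 : 0 < (1 - θ 0) * (1 - v1) := mul_pos (by linarith) (by linarith)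
    filter_upwards [ev_small (C := d 17) h4] with h a2
    rw [e]
    have h5 : 1 - θ 0 ≤ max 0 (1 - θ 0) := le_max_right _ _
    nlinarith [a2.2]
  · filter_upwards [ev_small (C := 1) one_pos] with h a2
    rw [e, h3]
    have h5 := hd h3
    have h6 : (0:ℝ) ≤ max 0 (1 - 1) := le_max_left _ _
    nlinarith [a2.1]
  · have h4 : 0 < (θ 0 - 1) * v1 := mul_pos (by linarith) h0
    filter_upwards [ev_small (C := d 17) h4] with h a2
    rw [e]
    have h5 : (0:ℝ) ≤ max 0 (1 - θ 0) := le_max_left _ _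
    nlinarith [a2.2]

/-- D-max set after a zoom -/
def PDz (θ : Fin 3 → ℝ) (w0 R : ℝ) : Set (Fin 18 → ℝ) :=
  {a | a ∈ Leg monW R ∧ (θ 0 = 1 → a 17 ≤ 9 * w0)}

theorem pdz_pdn (θ : Fin 3 → ℝ) (w0 R : ℝ) : Pdn θ w0 R (PDz θ w0 R) := by
  intro v1 _ _
  refine ⟨1, one_pos, fun x hx _ _ _ _ h17 => ⟨hx, fun h => ?_⟩⟩
  rw [h, sub_self, max_self] at h17
  linarith

theorem path0_17 (θ : Fin 3 → ℝ) (w0 : ℝ) : pathW θ w0 0 17 = 9 * w0 := by
  rw [pathW_nat, natW_N]; ring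

theorem path_sub0 (θ : Fin 3 → ℝ) (w0 v : ℝ) :
    -pathW θ w0 0 + pathW θ w0 v = v • btW θ := by
  funext k
  simp only [Pi.add_apply, Pi.neg_apply, Pi.smul_apply, smul_eq_mul, pathW_eq]; ring

/-- legal boxes relative to the frame are in the cone -/
theorem leg_cw {θ : Fin 3 → ℝ} {w0 R : ℝ} {a : Fin 18 → ℝ} (ha : a ∈ Leg monW R) :
    -pathW θ w0 0 + a ∈ CW := by
  have h1 : Nat QW (fun _ => True) (-pathW θ w0 0) := by
    have := (path_nat (fun _ => True) θ w0 0).smul (-1)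
    rwa [neg_one_smul] at this
  refine cn_add h1.mem fun w _ => ?_
  exact ha.1.wall w.1 w.2.1 w.2.2


section zoom

variable {θ : Fin 3 → ℝ} {g : ℝ} {q : Fin 3 → ℝ} {V T : Set (Fin 18)} {w0 R T0 : ℝ}
  {B B' : Base} {I0 I : ℕ → Finset (ℕ × ℝ)} {κ : ℕ → ℝ} {u : ℕ → Fin 18 → ℝ}
  {F : ℕ → ℕ × ℝ → FW} {X : ℕ → Fin 18 → ℝ} {w : ℕ → ℝ} {Tn To : ℕ → ℝ}
  {PD : Set (Fin 18 → ℝ)} {ν own : (Fin 18 → ℝ) → ℝ} {c₀ : ℝ}

/-- the base after the zoom -/
def Xz (θ : Fin 3 → ℝ) (w0 v1 : ℝ) (X : ℕ → Fin 18 → ℝ) (w h : ℕ → ℝ) (n : ℕ) : Fin 18 → ℝ :=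
  X n + w n • pathW θ w0 v1 + (w n * h n) • -pathW θ w0 0

/-- box `a` after the zoom = box `r0 + h (a - f0)` before -/
theorem Xz_add (θ : Fin 3 → ℝ) (w0 v1 : ℝ) (X : ℕ → Fin 18 → ℝ) (w h : ℕ → ℝ) (n : ℕ)
    (a : Fin 18 → ℝ) : Xz θ w0 v1 X w h n + (w n * h n) • a =
      X n + w n • (pathW θ w0 v1 + h n • (-pathW θ w0 0 + a)) := by
  unfold Xz
  rw [add_smul_shift, zoom_zoom]

/-- the base after the zoom is natural -/
theorem bas_zoom (hX : AwZ146.BasX monW monW monW X w) (v1 : ℝ) (h : ℕ → ℝ) :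
    AwZ146.BasX monW monW monW (Xz θ w0 v1 X w h) (fun n => w n * h n) where
  sub := hX.sub
  act := fun k e he n => by
    have a1 := hX.act k e he n
    have a2 : pathW θ w0 v1 k = ∑ s, (e s : ℝ) * pathW θ w0 v1 s :=
      path_nat (fun _ => True) θ w0 v1 ⟨k, e, he⟩ trivial
    have a3 : pathW θ w0 0 k = ∑ s, (e s : ℝ) * pathW θ w0 0 s :=
      path_nat (fun _ => True) θ w0 0 ⟨k, e, he⟩ trivial
    simp only [Xz, Pi.add_apply, Pi.smul_apply, Pi.neg_apply, smul_eq_mul]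
    calc X n k + w n * pathW θ w0 v1 k + w n * h n * -pathW θ w0 0 k
        = (∑ s, (e s : ℝ) * X n s) + w n * (∑ s, (e s : ℝ) * pathW θ w0 v1 s) +
          w n * h n * -(∑ s, (e s : ℝ) * pathW θ w0 0 s) := by rw [← a1, ← a2, ← a3]
      _ = _ := by
          rw [Finset.mul_sum, ← Finset.sum_neg_distrib, Finset.mul_sum, ← Finset.sum_add_distrib,
            ← Finset.sum_add_distrib]
          exact Finset.sum_congr rfl fun s _ => by ring
  gap := fun k e he hne => absurd he hne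

/-- the constants of D-max after the zoom -/
noncomputable def cz (θ : Fin 3 → ℝ) (g : ℝ) (q : Fin 3 → ℝ) (w0 : ℝ)
    (lam : (Fin 18 → ℝ) → ℝ) : ℝ := -lam (-pathW θ w0 0) - DW g 0 q w0 (pathW θ w0 0)

theorem DW_sub0 (g : ℝ) (q : Fin 3 → ℝ) (θ : Fin 3 → ℝ) (w0 : ℝ) (a : Fin 18 → ℝ) :
    DlW g q (-pathW θ w0 0 + a) = DW g 0 q w0 a - DW g 0 q w0 (pathW θ w0 0) := by
  have := DW_add g q w0 (pathW θ w0 0) (-pathW θ w0 0 + a)
  rw [add_neg_cancel_left] at this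
  linarith

/-- **the extended window after the zoom** -/
theorem ext_zoom (big : BigW θ w0 R T0) {V' : Set (Fin 18)}
    (hV : ∀ k ∈ V', k ≠ 0) {B₂ : Base} {h : ℕ → ℝ} {v1 : ℝ} {T₁ : ℕ → ℝ}
    {lam lo : (Fin 18 → ℝ) → ℝ}
    (hwin : ZWin B B₂ I0 I (coU u κ F) monW 67 (fun n => X n + w n • pathW θ w0 v1)
      (fun n => w n * h n) CW T₁ lam)
    {T₂ : ℕ → ℝ} (hT₂ : ∀ n, 0 < T₂ n)
    (hO : ZProf B₂ I (fun n c => zolb B I0 (coU u κ F) monW 67 X w n
      (pathW θ w0 v1 + h n • c)) CW T₂ lo)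
    (hP : Prf CW lam lo 18)
    (osub : ∀ p ∈ CW, ∀ q ∈ CW, p ⊓ q ∈ CW → p ⊔ q ∈ CW → lo p + lo q ≤ lo (p ⊔ q) + lo (p ⊓ q))
    (oanti : ∀ p ∈ CW, ∀ q ∈ CW, p ≤ q → lo q ≤ lo p)
    (hrec : ∀ σ : ℝ, lam (σ • btW θ) = σ * DlW g q (btW θ))
    (hdm : ∀ d ∈ QdW θ, lam d ≤ DlW g q d)
    (hup : ∀ c ∈ CW, lo c ≤ -c 0)
    (hfull : ∀ c ∈ CW, (∀ k ∈ V', c k ≤ btW θ k * c 0) → lo c = -c 0) :
    ExtZ B B₂ I0 I (coU u κ F) monW 67 (Xz θ w0 v1 X w h) (fun n => w n * h n) monW R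
      (fun n => T₁ n * B₂.d n ^ (-lam (-pathW θ w0 0)))
      (fun n => T₂ n * B₂.d n ^ (-lo (-pathW θ w0 0)) * B₂.d n ^ (lo (-pathW θ w0 0) + 1))
      0 w0 0 (PDz θ w0 R) (DW g 0 q w0)
      (pathW θ w0) (ownW θ w0 R fun k => k ∈ V') (fun v => DW g 0 q w0 (pathW θ w0 v))
      (fun k => k ∈ (∅ : Set (Fin 18)))
      (fun a => lam (-pathW θ w0 0 + a) - lam (-pathW θ w0 0))
      (fun a => lo (-pathW θ w0 0 + a) + 1) (cz θ g q w0 lam) := by
  have R0 : 0 ≤ R := by linarith [big.wR, big.w0pos]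
  set f0 := pathW θ w0 0 with hf0
  have hf0m : -f0 ∈ CW := by
    have := (path_nat (fun _ => True) θ w0 0).smul (-1)
    rw [neg_one_smul] at this
    exact this.mem
  have hcw : ∀ a ∈ Leg monW R, -f0 + a ∈ CW := fun a ha => leg_cw ha
  have hf00 : f0 0 = w0 := by rw [hf0, path_zero, add_zero]
  have hle : ∀ {p q : Fin 18 → ℝ}, p ≤ q → -f0 + p ≤ -f0 + q := fun h => add_le_add_right h _
  have hinf : ∀ p q : Fin 18 → ℝ, (-f0 + p) ⊓ (-f0 + q) = -f0 + (p ⊓ q) := fun p q =>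
    (add_inf _ _ _).symm
  have hsup : ∀ p q : Fin 18 → ℝ, (-f0 + p) ⊔ (-f0 + q) = -f0 + (p ⊔ q) := fun p q =>
    (add_sup _ _ _).symm
  refine
    { win := ?_
      R0 := R0
      s0 := le_rfl
      s1 := zero_le_one
      oprof := ?_
      olip := ?_
      oanti := ?_
      own_le := ?_
      osub := ?_
      dmax := ?_
      record := ?_
      own_rot := ?_
      own_up := ?_
      own_tw := ?_ }
  · exact win_restr (hwin.shift hf0m) (fun a ha => hcw a ha) ⟨⟨fun k => le_rfl, fun k e he => by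
      simp⟩, fun k => R0⟩
  · have h1 := zprof_shift hO (-f0)
    have e1 : (fun n a => zolb B I0 (coU u κ F) monW 67 X w n
        (pathW θ w0 v1 + h n • (-f0 + a))) =
        zolb B I0 (coU u κ F) monW 67 (Xz θ w0 v1 X w h) (fun n => w n * h n) := by
      funext n a x
      unfold zolb zlab
      rw [Xz_add]
    rw [e1] at h1
    have h2 := TProf.ofZ h1 (fun n => mul_pos (hT₂ n) (Real.rpow_pos_of_pos (B₂.pos n) _))
      (P := Leg monW R) (fun a ha => hcw a ha) (R := R) fun a ha => leg_norm R0 ha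
    refine (h2.shift (lo (-f0) + 1)).congr fun p _ => ?_
    ring
  · intro p hp q hq
    have h1 := hP.olip _ (hcw p hp) _ (hcw q hq)
    have e1 : -f0 + p - (-f0 + q) = p - q := by abel
    rw [e1] at h1
    have e2 : lo (-f0 + p) + 1 - (lo (-f0 + q) + 1) = lo (-f0 + p) - lo (-f0 + q) := by ring
    rw [e2]; exact_mod_cast h1
  · intro p hp q hq hpq
    have := oanti _ (hcw p hp) _ (hcw q hq) (hle hpq)
    linarith
  · intro p hp q hq hpq
    have := hP.own_le _ (hcw p hp) _ (hcw q hq) (hle hpq)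
    linarith
  · intro p hp q hq hi
    have h1 := osub _ (hcw p hp) _ (hcw q hq) (by rw [hinf]; exact hcw _ hi)
      (by rw [hsup]; exact hcw _ (Leg.sup hp hq))
    rw [hinf, hsup] at h1
    linarith
  · intro p hp hpl
    have h1 := hdm (-f0 + p) ⟨hcw p hpl, fun h => by
      have := hp.2 h
      simp only [Pi.add_apply, Pi.neg_apply]
      rw [hf0, path0_17]; linarith⟩
    rw [DW_sub0] at h1
    unfold cz
    linarith
  · intro v v0 v1'
    refine ⟨big.path_leg v0 v1', ?_⟩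
    have h1 := hrec v
    have h2 := DW_sub0 g q θ w0 (pathW θ w0 v)
    rw [path_sub0, map_smul, smul_eq_mul] at h2
    show _ ≤ lam (-f0 + pathW θ w0 v) - lam (-f0)
    rw [hf0, path_sub0, h1]
    unfold cz
    linarith
  · intro p hp v v0 v1' hpv hk
    have h1 := hfull (-f0 + p) (hcw p hp) fun k hkV => by
      have h2 := hk k
      rw [own_in (hV k hkV) hkV] at h2
      simp only [Pi.add_apply, Pi.neg_apply, hf00, hpv]
      rw [hf0]
      rw [pathW_eq] at h2 ⊢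
      nlinarith
    rw [h1]
    simp only [Pi.add_apply, Pi.neg_apply, hf00, hpv]
    ring
  · intro p hp v v0 v1' hpv
    have h1 := hup (-f0 + p) (hcw p hp)
    simp only [Pi.add_apply, Pi.neg_apply, hf00, hpv] at h1
    linarith
  · intro p hp v v0 v1' hpv hk
    obtain ⟨k, hk, -⟩ := hk
    exact absurd hk (by simp)

/-- **D-max for all gauges after the zoom** -/
theorem gd_zoom (H : ZW θ g q V T w0 R T0 B B' I0 I κ u F X w Tn To PD ν own c₀)
    {v1 : ℝ} (h0 : 0 < v1) (h1 : v1 < 1) {k : ℕ → ℝ} (kpos : ∀ l, 0 < k l)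
    (klim : Tendsto k atTop (𝓝 0)) (lam : (Fin 18 → ℝ) → ℝ) :
    ∃ k1 : ℕ → ℕ, Tendsto k1 U atTop ∧ ∀ k' : ℕ → ℕ, Tendsto k' U atTop →
      (∀ᶠ n in (U : Filter ℕ), k' n ≤ k1 n) → ∀ B₂ : Base,
        (∀ n, B₂.d n = B'.d n ^ k (k' n)) →
        GdG B B₂ I κ u F (Xz θ w0 v1 X w (fun n => k (k' n)))
          (fun n => Tn n * B'.d n ^ (-ν (pathW θ w0 v1)) * B₂.d n ^ (-lam (-pathW θ w0 0)))
          (PDz θ w0 R) (DW g 0 q w0) (cz θ g q w0 lam) := by
  obtain ⟨C, hC, hG'⟩ := ZW.gd_unif H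
  obtain ⟨δ, hδ, hG⟩ := hG' v1 h0 h1
  obtain ⟨k1, hk1, hk2⟩ := exists_diag (fun l n => ∀ x ∈ Leg monW R,
    (∀ j, |x j - pathW θ w0 v1 j| ≤ δ) → x 17 ≤ 9 * w0 + max 0 (1 - θ 0) →
      GdAt B B' I κ u F X Tn C (l + 1) n x (c₀ + DW g 0 q w0 x + k l / (l + 1))) (fun l =>
    hG (l + 1) (k l / (l + 1)) (by
      have : (0 : ℝ) ≤ l := Nat.cast_nonneg l
      linarith) (div_pos (kpos l) (by positivity)))
  refine ⟨k1, hk1, fun k' hk' hle B₂ hB₂ => ?_⟩
  rw [gdAt_iff]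
  refine ⟨C, hC, fun x hx K hK ε hε => ?_⟩
  set f0 := pathW θ w0 0 with hf0
  set r0 := pathW θ w0 v1 with hr0
  have hxc : -f0 + x ∈ CW := leg_cw hx.1
  have hd17 : θ 0 = 1 → (-f0 + x) 17 ≤ 0 := fun h => by
    have := hx.2 h
    simp only [Pi.add_apply, Pi.neg_apply]
    rw [hf0, path0_17]; linarith
  have klim' : Tendsto (fun n => k (k' n)) U (𝓝[>] 0) :=
    tendsto_nhdsWithin_iff.2 ⟨klim.comp hk', Eventually.of_forall fun l => kpos _⟩
  obtain ⟨e0, he0, hloc⟩ := path_loc H.big h0.le h1.le ‖-f0 + x‖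
  obtain ⟨N, hN⟩ := exists_nat_ge (max K (1 / ε))
  filter_upwards [hk2, hle, hk'.eventually_ge_atTop N, klim'.eventually (ev_small (C := 1) he0),
    klim'.eventually (ev_small (C := ‖-f0 + x‖) hδ), klim'.eventually (ev17 (w0 := w0) h0 h1 hd17)]
    with n a1 a2 a3 a4 a5 a6
  set l := k' n with hl
  have hlN : (N : ℝ) ≤ l := by exact_mod_cast a3
  have hlK : K ≤ l := (le_max_left _ _).trans (hN.trans hlN)
  have hlε : 1 / ε ≤ l := (le_max_right _ _).trans (hN.trans hlN)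
  have hmem : r0 + k l • (-f0 + x) ∈ Leg monW R :=
    hloc (k l) a4.1 (by linarith [a4.2]) _ hxc le_rfl
  have key := a1 l a2 _ hmem (fun j => by
    have e : (r0 + k l • (-f0 + x)) j - pathW θ w0 v1 j = k l * (-f0 + x) j := by
      rw [hr0]; simp only [Pi.add_apply, Pi.smul_apply, smul_eq_mul]; ring
    rw [e, abs_mul, abs_of_pos (kpos l)]
    have h3 := norm_le_pi_norm (-f0 + x) j
    rw [Real.norm_eq_abs] at h3
    exact (mul_le_mul_of_nonneg_left h3 (kpos l).le).trans a5.2.le) a6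
  have hpos : 0 < B'.d n := B'.pos n
  have hBp : 0 < B.d n := B.pos n
  -- the bound
  intro e he i hi G hGs hbox
  refine (key e he i hi G hGs fun j hj p => (hbox j hj p).trans ?_).trans ?_
  · have e1 : B.d n ^ Xz θ w0 v1 X w (fun n => k (k' n)) n p * B₂.d n ^ x p =
        B.d n ^ X n p * B'.d n ^ (r0 + k l • (-f0 + x)) p := by
      rw [hB₂, H.ext.win.base, ← Real.rpow_mul hBp.le, ← Real.rpow_mul hBp.le,
        ← Real.rpow_mul hBp.le, ← Real.rpow_add hBp, ← Real.rpow_add hBp]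
      congr 1
      simp only [Xz, Pi.add_apply, Pi.smul_apply, Pi.neg_apply, smul_eq_mul]
      rw [← hl, ← hf0, ← hr0]
      ring
    rw [e1]
    exact mul_le_mul_of_nonneg_right (by linarith) (mul_nonneg (Real.rpow_nonneg hBp.le _)
      (Real.rpow_nonneg hpos.le _))
  · have hrec := H.fact.record_eq h0 h1
    have e2 : c₀ + DW g 0 q w0 (r0 + k l • (-f0 + x)) + k l / (l + 1) =
        ν r0 + k l * (DW g 0 q w0 x - DW g 0 q w0 f0 + 1 / (l + 1)) := by
      rw [DW_add, map_smul, smul_eq_mul, hf0, DW_sub0, hr0, hrec]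
      ring
    have e3 : Tn n * B'.d n ^ (-ν (pathW θ w0 v1)) * B₂.d n ^ (-lam (-pathW θ w0 0)) *
        B₂.d n ^ (-(cz θ g q w0 lam + DW g 0 q w0 x + ε)) =
        Tn n * B'.d n ^ (-(ν r0 + k l * (DW g 0 q w0 x - DW g 0 q w0 f0 + ε))) := by
      rw [hB₂, mul_assoc, mul_assoc, ← Real.rpow_add (Real.rpow_pos_of_pos hpos _),
        ← Real.rpow_mul hpos.le, ← Real.rpow_add hpos]
      congr 2
      unfold cz
      rw [← hl, hf0]
      ring
    rw [e2, e3]
    refine mul_le_mul_of_nonneg_left (Real.rpow_le_rpow_of_exponent_ge hpos (B'.lt n).le ?_)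
      (H.ext.win.T0 n).le
    have h5 : 1 / ((l : ℝ) + 1) ≤ ε := by
      rw [div_le_iff₀ (by positivity)]
      rw [div_le_iff₀ hε] at hlε
      nlinarith
    have h6 := mul_le_mul_of_nonneg_left h5 (kpos l).le
    linarith

/-- **ZOOM**: without own loss of the uncapped slot `i` an object without the visible slot `i` exists -/
theorem ZW.zoom (H : ZW θ g q V T w0 R T0 B B' I0 I κ u F X w Tn To PD ν own c₀)
    {Zs : Set (Fin 18)} (hZ : ZeroS (Leg monW R) ν own Zs) {v1 : ℝ} (h0 : 0 < v1) (h1 : v1 < 1)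
    (hcl : CapCl V) {i : Fin 18} (hi : i ∈ V) (hun : Unc V i) {hh : ℕ → ℝ}
    (hz : Zer own (bO θ w0 R V) (eO θ V) i v1 hh) : Ob θ g q (V \ {i}) ∅ Zs := by
  obtain ⟨φ, hφ, lam, lo, H1, H2⟩ := exists_joint H.fact.prf cn_closed cn_zero
    (path_loc H.big h0.le h1.le) hz.1 hz.2.1
  set k : ℕ → ℝ := fun l => hh (φ l) with hk
  have kpos : ∀ l, 0 < k l := fun l => hz.1 _
  have klim : Tendsto k atTop (𝓝 0) := hz.2.1.comp hφ.tendsto_atTop
  have hz' : Zer own (bO θ w0 R V) (eO θ V) i v1 k :=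
    ⟨kpos, klim, fun a y hy => (hz.2.2 a y hy).comp hφ.tendsto_atTop⟩
  obtain ⟨hrec, hdm⟩ := ZW.tan_rec H h0 h1 kpos klim H1
  have hup := ZW.tan_own H h0 h1 kpos klim H2
  have hfull := ZW.tan_own_eq H h0 h1 hcl hi hun hz' H2
  have hZ' := ZW.tan_zero H h0 h1 kpos klim hZ H1 H2
  have hP := H.fact.prf.tan kpos H1 H2
  obtain ⟨Hc, hHc, hHc'⟩ := H.card
  obtain ⟨k0, hk0, hk0'⟩ := H.ext.win.exists_zoom (x := fun _ => pathW θ w0 v1)
    (b := ‖pathW θ w0 v1‖) (fun _ => le_rfl) kpos klim cn_zero H1 H.ext.oprof.pos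
    H.ext.oprof.toZ cn_zero H2 (fun i n => if i = 0 then |κ n|⁻¹ else Hc n) (fun i => by
      by_cases hi : i = 0
      · simp only [hi, if_true]; exact H.κ0
      · simp only [hi, if_false]; exact hHc)
  obtain ⟨k1, hk1, hk1'⟩ := gd_zoom H h0 h1 kpos klim lam
  set k' : ℕ → ℕ := fun n => min (k0 n) (k1 n) with hk'
  have hk'l : Tendsto k' U atTop := Filter.tendsto_atTop.2 fun K => by
    filter_upwards [hk0.eventually_ge_atTop K, hk1.eventually_ge_atTop K] with n a b using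
      le_min a b
  obtain ⟨B₂, b1, b2, b3, b4, b5⟩ := hk0' k' hk'l (Eventually.of_forall fun n => min_le_left _ _)
  have hgd := hk1' k' hk'l (Eventually.of_forall fun n => min_le_right _ _) B₂ b1
  have hE := ext_zoom (V' := V \ {i}) H.big (fun p hp => ZW.V0 H hp.1) b4
    (fun n => mul_pos (H.ext.oprof.pos n) (Real.rpow_pos_of_pos (B'.pos n) _)) b5 hP
    (fun p hp q hq hi hs => H2.submod kpos (fun a ha b hb hi _ => H.ext.osub a ha b hb hi)
      hp hq hi hs)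
    (fun p hp q hq hpq => H2.anti kpos (fun l c c' hcc => Qg926.add_smul_mono (kpos l).le hcc)
      H.ext.oanti p hp q hq hpq)
    hrec hdm hup
    (fun c hc hck => hfull c hc fun p hp hpi => hck p ⟨hp, fun h => hpi h⟩)
  refine ⟨w0, R, T0, B, B₂, I0, I, κ, u, F, _, _, _, _, _, _, _, _,
    { th1 := H.th1
      q1 := H.q1
      q2 := H.q2
      q0 := H.q0
      qg := H.qg
      qθ := H.qθ
      vis := fun p hp => H.vis p hp.1
      tied := fun p hp => absurd hp (by simp)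
      u0 := H.u0
      κ1 := H.κ1
      κ0 := by simpa using b3 0
      big := H.big
      bas := bas_zoom H.bas v1 _
      pdn := pdz_pdn θ w0 R
      ext := hE
      gd := hgd
      card := ⟨Hc, by simpa using b3 1, hHc'⟩ }, ?_⟩
  intro a ha b hb hab
  obtain ⟨z1, z2⟩ := hZ' _ (leg_cw (θ := θ) (w0 := w0) ha) _ (leg_cw (θ := θ) (w0 := w0) hb)
    fun p hp => by simp only [Pi.add_apply, hab p hp]
  exact ⟨by simp only [z1], by simp only [z2]⟩

/-- **THE OWN DICHOTOMY** -/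
theorem seamOwnC : SeamOwnC := by
  have key : ∀ (N : ℕ) (θ : Fin 3 → ℝ) (g : ℝ) (q : Fin 3 → ℝ) (V Zs : Set (Fin 18)),
      V.ncard ≤ N → CapCl V → Ob θ g q V ∅ Zs →
      ∃ V' : Set (Fin 18), V' ⊆ V ∧ CapCl V' ∧ SlotOkW θ (fun k => k ∈ V') (fun k => k ∈ V') ∧
        Ob θ g q V' V' Zs := by
    intro N
    induction N with
    | zero =>
      intro θ g q V Zs hN hcl h
      have hV : V = ∅ := by
        have := Nat.le_zero.1 hN
        rwa [Set.ncard_eq_zero (Set.toFinite V)] at this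
      subst hV
      exact ⟨∅, subset_rfl, hcl, slotOk_empty θ, h⟩
    | succ N ih =>
      intro θ g q V Zs hN hcl h
      obtain ⟨w0, R, T0, B, B', I0, I, κ, u, F, X, w, Tn, To, PD, ν, own, c₀, H, hZ⟩ := h
      by_cases hvis : ∀ i ∈ V, Unc V i → ∀ᵐ v : ℝ, v ∈ Set.Ioo (0:ℝ) 1 →
          Vis own (bO θ w0 R V) (eO θ V) i v
      · refine ⟨V, subset_rfl, hcl, ⟨fun k hk => hk, H.vis, fun k hk h => absurd hk h⟩,
          w0, R, T0, B, B', I0, I, κ, u, F, X, w, Tn, To, PD, ν, own, c₀,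
          ZW.chg H H.vis (fun k hk => hk) (fun p hp v h0 h1 hpv hk =>
            H.fact.own_rot p hp v h0 h1 hpv hk)
          (fun p hp v h0 h1 hpv hk => ZW.tw_of_vis H hcl hvis hp h0 h1 hpv hk), hZ⟩
      · simp only [not_forall] at hvis
        obtain ⟨i, hi, hun, hnv⟩ := hvis
        have hi0 : i ≠ 0 := ZW.V0 H hi
        have hr : RaiseLeg (Leg monW R) (bO θ w0 R V) (eO θ V) i 0 1 1 := by
          intro v v0 v1 y y0 y1
          rw [own_lin]
          exact own_leg H.big hcl v0.le v1.le hi0 hi y0 y1 (Or.inr hun)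
        have hcase := own_cases_Leg (P := Leg monW R) (own := own) (b := bO θ w0 R V)
          (e := eO θ V) (j := i) (kz := 0) (α := 0) (β := 1) (y₁ := 1) (K := (18 : ℕ))
          (by positivity) (fun p hp q hq => H.ext.olip p hp q hq) (ext_sup4 H.ext) H.ext.oanti
          one_pos hr (ZW.eO_nonneg H)
          (by simp only [eO, if_neg hi0, if_pos hi]; exact (H.vis i hi).2) hi0.symm
          (by simp [eO])
        rcases hcase with hc | hc
        · exact absurd hc hnv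
        · obtain ⟨v, hv, -, hh, hz⟩ := hc (fun _ => True) (Eventually.of_forall fun _ _ => trivial)
          have hO := ZW.zoom H hZ hv.1 hv.2 hcl hi hun hz
          have hlt : (V \ {i}).ncard ≤ N := by
            have h4 : V \ {i} ⊂ V := ⟨Set.sdiff_subset, fun hc => (hc hi).2 rfl⟩
            have := Set.ncard_lt_ncard h4 (Set.toFinite V)
            omega
          obtain ⟨V', g1, g2, g3, g4⟩ := ih θ g q (V \ {i}) Zs hlt (capCl_diff hcl hun) hO
          exact ⟨V', g1.trans Set.sdiff_subset, g2, g3, g4⟩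
  exact fun θ g q V Zs hcl h => key V.ncard θ g q V Zs le_rfl hcl h

end zoom

end Crest.Agent.R136.OwW831
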