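import Crest.Agent.R136.Slb1_480

-- ▼ part R136/Ful2_403
section

/-!
# R136: Kakeya in `ℝ³` for full configurations, cells form (helper403)

* `exists_core`: core of a finite bipartite graph;
* `km3_cells`: `lam³ #lines H ≤ C H^ε D #cells`.
-/

set_option autoImplicit false

open MeasureTheory Set Metric
open scoped ENNReal NNReal

namespace Crest.Agent.R136.Ful403

open Crest.Agent.R138.Defs (E2)
open Crest.Agent.R136.Slb480 (ps km3_mult)

/-- **core of a bipartite graph** -/
theorem exists_core {ε α β : Type*} [DecidableEq ε] [DecidableEq α] [DecidableEq β]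
    (E : Finset ε) (f : ε → α) (g : ε → β) (c1 c2 : ℝ) (hc1 : 0 ≤ c1) (hc2 : 0 ≤ c2)
    (h : c1 * ((E.image f).card : ℝ) + c2 * ((E.image g).card : ℝ) < (E.card : ℝ)) :
    ∃ E' ⊆ E, E'.Nonempty ∧ ∀ x ∈ E', c1 ≤ ((E'.filter fun y => f y = f x).card : ℝ) ∧
      c2 ≤ ((E'.filter fun y => g y = g x).card : ℝ) := by
  classical
  set Φ : Finset ε → ℝ := fun E' =>
    (E'.card : ℝ) - c1 * ((E'.image f).card : ℝ) - c2 * ((E'.image g).card : ℝ) with hΦ
  obtain ⟨E', hE', hmax⟩ := Finset.exists_max_image E.powerset Φ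
    ⟨E, Finset.mem_powerset.2 (Finset.Subset.refl E)⟩
  have hsub : E' ⊆ E := Finset.mem_powerset.1 hE'
  have h0 : 0 < Φ E' := by
    have h1 := hmax E (Finset.mem_powerset.2 (Finset.Subset.refl E))
    have h2 : 0 < Φ E := by simp only [hΦ]; linarith
    linarith
  refine ⟨E', hsub, ?_, ?_⟩
  · rw [Finset.nonempty_iff_ne_empty]
    intro he
    rw [he] at h0
    simp [hΦ] at h0
  · intro x hx
    constructor
    · by_contra hcon
      push Not at hcon
      set E'' := E'.filter fun y => ¬ f y = f x with hE''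
      have h1 := hmax E'' (Finset.mem_powerset.2 ((Finset.filter_subset _ _).trans hsub))
      have h2 : ((E'.filter fun y => f y = f x).card : ℝ) + (E''.card : ℝ) = E'.card := by
        exact_mod_cast Finset.card_filter_add_card_filter_not (s := E') (fun y => f y = f x)
      have h3 : E''.image f ⊆ (E'.image f).erase (f x) := by
        intro a ha
        obtain ⟨y, hy, rfl⟩ := Finset.mem_image.1 ha
        obtain ⟨hy1, hy2⟩ := Finset.mem_filter.1 hy
        exact Finset.mem_erase.2 ⟨hy2, Finset.mem_image_of_mem _ hy1⟩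
      have h4 : ((E''.image f).card : ℝ) + 1 ≤ (E'.image f).card := by
        have h5 := Finset.card_le_card h3
        rw [Finset.card_erase_of_mem (Finset.mem_image_of_mem _ hx)] at h5
        have h6 : 0 < (E'.image f).card := Finset.card_pos.2 ⟨_, Finset.mem_image_of_mem _ hx⟩
        have h7 : (E''.image f).card + 1 ≤ (E'.image f).card := by omega
        exact_mod_cast h7
      have h5 : ((E''.image g).card : ℝ) ≤ (E'.image g).card := by
        exact_mod_cast Finset.card_le_card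
          (Finset.image_subset_image (Finset.filter_subset _ _))
      simp only [hΦ] at h1
      nlinarith [mul_le_mul_of_nonneg_left h4 hc1, mul_le_mul_of_nonneg_left h5 hc2]
    · by_contra hcon
      push Not at hcon
      set E'' := E'.filter fun y => ¬ g y = g x with hE''
      have h1 := hmax E'' (Finset.mem_powerset.2 ((Finset.filter_subset _ _).trans hsub))
      have h2 : ((E'.filter fun y => g y = g x).card : ℝ) + (E''.card : ℝ) = E'.card := by
        exact_mod_cast Finset.card_filter_add_card_filter_not (s := E') (fun y => g y = g x)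
      have h3 : E''.image g ⊆ (E'.image g).erase (g x) := by
        intro a ha
        obtain ⟨y, hy, rfl⟩ := Finset.mem_image.1 ha
        obtain ⟨hy1, hy2⟩ := Finset.mem_filter.1 hy
        exact Finset.mem_erase.2 ⟨hy2, Finset.mem_image_of_mem _ hy1⟩
      have h4 : ((E''.image g).card : ℝ) + 1 ≤ (E'.image g).card := by
        have h5 := Finset.card_le_card h3
        rw [Finset.card_erase_of_mem (Finset.mem_image_of_mem _ hx)] at h5
        have h6 : 0 < (E'.image g).card := Finset.card_pos.2 ⟨_, Finset.mem_image_of_mem _ hx⟩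
        have h7 : (E''.image g).card + 1 ≤ (E'.image g).card := by omega
        exact_mod_cast h7
      have h5 : ((E''.image f).card : ℝ) ≤ (E'.image f).card := by
        exact_mod_cast Finset.card_le_card
          (Finset.image_subset_image (Finset.filter_subset _ _))
      simp only [hΦ] at h1
      nlinarith [mul_le_mul_of_nonneg_left h4 hc2, mul_le_mul_of_nonneg_left h5 hc1]

open Classical in
/-- **Kakeya in `ℝ³`, cells form.**  `E` = incidences (line, height), `c` = labels of the cells. -/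
theorem km3_cells (hKM : ∀ V : ℝ, Crest.Agent.R138.Tub70.KM32 V) (V : ℝ) (hV : 0 ≤ V) (ε : ℝ)
    (hε : 0 < ε) :
    ∃ C : ℝ, 0 < C ∧ ∀ H : ℕ, 1 ≤ H → V + 2 ≤ (H : ℝ) → ∀ (ι γ : Type) [Fintype ι]
      (p v : ι → E2) (E : Finset (ι × ℤ)) (c : ι × ℤ → γ) (K lam D : ℝ), 0 < lam → 0 ≤ D →
      E.Nonempty → (∀ i, ‖p i‖ ≤ V ∧ ‖v i‖ ≤ V) → (∀ x ∈ E, |x.2| ≤ (H : ℤ)) →
      lam * H * (Fintype.card ι : ℝ) ≤ (E.card : ℝ) →
      ((E.image c).card : ℝ) ≤ K →
      (∀ x ∈ E, ∀ y ∈ E, c y = c x → y.2 = x.2 ∧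
        ‖ps p v y.1 (x.2 / H) - ps p v x.1 (x.2 / H)‖ ≤ 1 / H) →
      (∀ (b : OrthonormalBasis (Fin 2) ℝ E2) (s : Fin 2 → ℝ) (p0 v0 : E2),
        (∀ j, 1 / (H : ℝ) ≤ s j ∧ s j ≤ 1) →
        ((Finset.univ.filter fun i => Crest.Agent.R138.Tub70.InPl b s p0 v0 (p i) (v i)).card : ℝ) ≤
          D * (s 0 * s 1) * (H : ℝ) ^ 2) →
      lam ^ 3 * (Fintype.card ι : ℝ) * H ≤ C * (H : ℝ) ^ ε * D * K := by
  obtain ⟨C, hC, key⟩ := km3_mult hKM V hV ε hε
  refine ⟨64 * C, by positivity, ?_⟩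
  intro H hH1 hHV ι γ _ p v E c K lam D hlam hD hEne hpv hI hE hK hc hpl
  have hHpos : (0 : ℝ) < H := by exact_mod_cast (show 0 < H by omega)
  have hEpos : (0 : ℝ) < (E.card : ℝ) := by exact_mod_cast hEne.card_pos
  obtain ⟨x0, hx0⟩ := hEne
  have hιne : Nonempty ι := ⟨x0.1⟩
  have hN : (0 : ℝ) < (Fintype.card ι : ℝ) := by exact_mod_cast Fintype.card_pos
  have hKpos : 0 < K := by
    have h1 : 0 < (E.image c).card := Finset.card_pos.2 ⟨_, Finset.mem_image_of_mem _ hx0⟩
    have h2 : (0 : ℝ) < ((E.image c).card : ℝ) := by exact_mod_cast h1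
    linarith
  set c1 : ℝ := (E.card : ℝ) / (4 * (Fintype.card ι : ℝ)) with hc1
  set c2 : ℝ := (E.card : ℝ) / (4 * K) with hc2
  have hc1p : 0 < c1 := by positivity
  have hc2p : 0 < c2 := by positivity
  have hf1 : (((E.image fun x : ι × ℤ => x.1).card : ℕ) : ℝ) ≤ (Fintype.card ι : ℝ) := by
    exact_mod_cast Finset.card_le_univ _
  obtain ⟨E', hE'sub, hE'ne, hcore⟩ := exists_core E (fun x : ι × ℤ => x.1) c c1 c2 hc1p.le hc2p.le
    (by
      have e1 : c1 * (((E.image fun x : ι × ℤ => x.1).card : ℕ) : ℝ) ≤ (E.card : ℝ) / 4 := by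
        calc _ ≤ c1 * (Fintype.card ι : ℝ) := mul_le_mul_of_nonneg_left hf1 hc1p.le
          _ = (E.card : ℝ) / 4 := by rw [hc1]; field_simp
      have e2 : c2 * ((E.image c).card : ℝ) ≤ (E.card : ℝ) / 4 := by
        calc _ ≤ c2 * K := mul_le_mul_of_nonneg_left hK hc2p.le
          _ = (E.card : ℝ) / 4 := by rw [hc2]; field_simp
      linarith)
  set A : Finset ι := E'.image fun x => x.1 with hA
  -- the subtype of lines
  set q : {i // i ∈ A} → E2 := fun i => p i.1 with hq
  set w : {i // i ∈ A} → E2 := fun i => v i.1 with hw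
  have hmemA : ∀ x ∈ E', x.1 ∈ A := fun x hx => Finset.mem_image_of_mem _ hx
  set I : Finset ({i // i ∈ A} × ℤ) :=
    E'.attach.image fun x => ((⟨x.1.1, hmemA x.1 x.2⟩ : {i // i ∈ A}), x.1.2) with hIdef
  have hImem : ∀ y : {i // i ∈ A} × ℤ, y ∈ I ↔ ((y.1.1, y.2) : ι × ℤ) ∈ E' := by
    intro y
    rw [hIdef, Finset.mem_image]
    constructor
    · rintro ⟨x, _, rfl⟩
      exact x.2
    · intro hy
      exact ⟨⟨_, hy⟩, Finset.mem_attach _ _, rfl⟩
  have hAne : Nonempty {i // i ∈ A} := by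
    obtain ⟨x, hx⟩ := hE'ne
    exact ⟨⟨x.1, hmemA x hx⟩⟩
  have hinj : Function.Injective (fun y : {i // i ∈ A} × ℤ => ((y.1.1, y.2) : ι × ℤ)) := by
    rintro ⟨⟨a, ha⟩, b⟩ ⟨⟨a', ha'⟩, b'⟩ h
    simp only [Prod.mk.injEq] at h
    obtain ⟨rfl, rfl⟩ := h
    rfl
  have h := key H hH1 hHV {i // i ∈ A} q w I c2 (c1 / H) D hc2p (by positivity) hD
    (fun i => hpv i.1) (by
      intro x hx
      exact hI _ (hE'sub ((hImem x).1 hx)))
    (by
      intro i
      obtain ⟨x, hx, hxi⟩ := Finset.mem_image.1 i.2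
      have h1 := (hcore x hx).1
      rw [div_mul_cancel₀ _ hHpos.ne']
      refine h1.trans ?_
      have h2 : (E'.filter fun y => y.1 = x.1) ⊆
          (I.filter fun y => y.1 = i).image fun y => ((y.1.1, y.2) : ι × ℤ) := by
        intro y hy
        obtain ⟨hy1, hy2⟩ := Finset.mem_filter.1 hy
        refine Finset.mem_image.2 ⟨(i, y.2), Finset.mem_filter.2 ⟨?_, rfl⟩, ?_⟩
        · rw [hImem]
          have : ((i.1, y.2) : ι × ℤ) = y := by rw [← hxi, ← hy2]
          rw [this]; exact hy1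
        · rw [← hxi, ← hy2]
      have h3 : (((E'.filter fun y => y.1 = x.1).card : ℕ) : ℝ) ≤
          (((I.filter fun y => y.1 = i).card : ℕ) : ℝ) := by
        exact_mod_cast (Finset.card_le_card h2).trans Finset.card_image_le
      refine h3.trans (le_of_eq ?_)
      congr!)
    (by
      intro x hx
      have hx' := (hImem x).1 hx
      have h1 := (hcore _ hx').2
      refine h1.trans ?_
      have h2 : (E'.filter fun y => c y = c (x.1.1, x.2)) ⊆
          (I.filter fun y => y.2 = x.2 ∧ ‖ps q w y.1 (x.2 / H) - ps q w x.1 (x.2 / H)‖ ≤ 1 / H).image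
            fun y => ((y.1.1, y.2) : ι × ℤ) := by
        intro y hy
        obtain ⟨hy1, hy2⟩ := Finset.mem_filter.1 hy
        obtain ⟨g1, g2⟩ := hc _ (hE'sub hx') y (hE'sub hy1) hy2
        refine Finset.mem_image.2 ⟨(⟨y.1, hmemA y hy1⟩, y.2), Finset.mem_filter.2 ⟨?_, g1, ?_⟩, rfl⟩
        · rw [hImem]; exact hy1
        · exact g2
      exact_mod_cast (Finset.card_le_card h2).trans Finset.card_image_le)
    (by
      intro b s p0 v0 hs
      refine le_trans ?_ (hpl b s p0 v0 hs)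
      have h2 : ((Finset.univ : Finset {i // i ∈ A}).filter fun i =>
          Crest.Agent.R138.Tub70.InPl b s p0 v0 (q i) (w i)).card ≤
          (Finset.univ.filter fun i =>
            Crest.Agent.R138.Tub70.InPl b s p0 v0 (p i) (v i)).card := by
        refine Finset.card_le_card_of_injOn (fun i => i.1) ?_ ?_
        · intro i hi
          have hi' := (Finset.mem_filter.1 hi).2
          exact Finset.mem_filter.2 ⟨Finset.mem_univ _, hi'⟩
        · intro i _ i' _ hii
          exact Subtype.ext hii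
      exact_mod_cast h2)
  -- arithmetic
  have hc1l : lam * H / 4 ≤ c1 := by
    rw [hc1, le_div_iff₀ (by positivity)]
    calc lam * H / 4 * (4 * (Fintype.card ι : ℝ)) = lam * H * (Fintype.card ι : ℝ) := by ring
      _ ≤ _ := hE
  have h2 : lam / 4 ≤ c1 / H := by
    rw [le_div_iff₀ hHpos]
    linarith
  have h3 : c2 * (lam / 4) ^ 2 ≤ C * (H : ℝ) ^ ε * D := by
    refine le_trans ?_ h
    apply mul_le_mul_of_nonneg_left _ hc2p.le
    exact pow_le_pow_left₀ (by positivity) h2 2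
  have h4 : (E.card : ℝ) = c2 * (4 * K) := by rw [hc2]; field_simp
  have h5 : lam * H * (Fintype.card ι : ℝ) * (lam / 4) ^ 2 ≤ C * (H : ℝ) ^ ε * D * (4 * K) := by
    calc lam * H * (Fintype.card ι : ℝ) * (lam / 4) ^ 2 ≤ (E.card : ℝ) * (lam / 4) ^ 2 :=
          mul_le_mul_of_nonneg_right hE (by positivity)
      _ = (c2 * (lam / 4) ^ 2) * (4 * K) := by rw [h4]; ring
      _ ≤ _ := mul_le_mul_of_nonneg_right h3 (by positivity)
  calc lam ^ 3 * (Fintype.card ι : ℝ) * H
      = 16 * (lam * H * (Fintype.card ι : ℝ) * (lam / 4) ^ 2) := by ring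
    _ ≤ 16 * (C * (H : ℝ) ^ ε * D * (4 * K)) := mul_le_mul_of_nonneg_left h5 (by norm_num)
    _ = 64 * C * (H : ℝ) ^ ε * D * K := by ring

end Crest.Agent.R136.Ful403
end

-- ▼ part R136/Ful3_403

/-!
# R136: the two dimensional block is full, finite form (helper403)

`block_fin`: functionals `F i k ∈ ℝ²` which are affine in `φ k` with increments `A`, `V` (up to
`w`), each line alive on a `θ`-part of the heights, at most `Kc` cells of width `w` at each height,
at most `m` lines in a cell (width `2 w`) with velocity in a strip of width `10 τ`: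
`lam³ #S ≤ C w^(-ε) (m / θ + #S w² / τ²) Kc`.
-/

set_option autoImplicit false
set_option linter.unusedVariables false

open MeasureTheory Set Metric
open scoped ENNReal NNReal

namespace Crest.Agent.R136.Ful403

open Crest.Agent.R138.Defs (E2)
open Crest.Agent.R136.Slb480 (ps km3_mult)

/-- number of integer cells of a set of reals of diameter at most `R` -/
theorem card_floor_le {ι : Type*} [DecidableEq ι] (T : Finset ι) (y : ι → ℝ) {w R : ℝ} (hw : 0 < w)
    (hR : 0 ≤ R) (h : ∀ i ∈ T, ∀ i' ∈ T, |y i' - y i| ≤ R) :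
    ((T.image fun i => ⌊y i / w⌋).card : ℝ) ≤ 2 * (R / w) + 2 := by
  classical
  rcases T.eq_empty_or_nonempty with rfl | ⟨i0, hi0⟩
  · simp; positivity
  have hsub : (T.image fun i => ⌊y i / w⌋) ⊆
      Finset.Icc ⌊y i0 / w - R / w⌋ ⌊y i0 / w + R / w⌋ := by
    intro c hc
    obtain ⟨i, hi, rfl⟩ := Finset.mem_image.1 hc
    have e1 := h i0 hi0 i hi
    have e2 : |y i / w - y i0 / w| ≤ R / w := by
      rw [← sub_div, abs_div, abs_of_pos hw]
      exact (div_le_div_iff_of_pos_right hw).2 e1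
    rw [abs_le] at e2
    rw [Finset.mem_Icc]
    exact ⟨Int.floor_le_floor (by linarith [e2.1]), Int.floor_le_floor (by linarith [e2.2])⟩
  have h2 : (((T.image fun i => ⌊y i / w⌋).card : ℕ) : ℝ) ≤
      (((Finset.Icc ⌊y i0 / w - R / w⌋ ⌊y i0 / w + R / w⌋).card : ℕ) : ℝ) := by
    exact_mod_cast Finset.card_le_card hsub
  refine h2.trans ?_
  rw [Int.card_Icc]
  have hRw : 0 ≤ R / w := by positivity
  have hle : ⌊y i0 / w - R / w⌋ ≤ ⌊y i0 / w + R / w⌋ := Int.floor_le_floor (by linarith)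
  have h3 : (((⌊y i0 / w + R / w⌋ + 1 - ⌊y i0 / w - R / w⌋).toNat : ℕ) : ℝ) =
      ((⌊y i0 / w + R / w⌋ + 1 - ⌊y i0 / w - R / w⌋ : ℤ) : ℝ) := by
    have : (((⌊y i0 / w + R / w⌋ + 1 - ⌊y i0 / w - R / w⌋).toNat : ℤ)) =
        (⌊y i0 / w + R / w⌋ + 1 - ⌊y i0 / w - R / w⌋ : ℤ) := Int.toNat_of_nonneg (by omega)
    exact_mod_cast congrArg (fun z : ℤ => (z : ℝ)) this
  rw [h3]
  push_cast
  linarith [Int.floor_le (y i0 / w + R / w), Int.lt_floor_add_one (y i0 / w - R / w)]

/-- the inner product of `E2` in coordinates -/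
theorem inner2 (x y : E2) : inner ℝ x y = x 0 * y 0 + x 1 * y 1 := by
  rw [PiLp.inner_apply, Fin.sum_univ_two]
  simp [mul_comm]

theorem basis_sq (b : OrthonormalBasis (Fin 2) ℝ E2) (j : Fin 2) :
    (b j) 0 ^ 2 + (b j) 1 ^ 2 = 1 := by
  have h := b.orthonormal.1 j
  have h2 : inner ℝ (b j) (b j) = (1 : ℝ) := by
    rw [real_inner_self_eq_norm_sq, h]; norm_num
  rw [inner2] at h2
  nlinarith [h2]

theorem coord_le (b : OrthonormalBasis (Fin 2) ℝ E2) (y : E2) (a : Fin 2) :
    |y a| ≤ |inner ℝ y (b 0)| + |inner ℝ y (b 1)| := by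
  have h := b.sum_repr' y
  rw [Fin.sum_univ_two] at h
  have h1 : y a = inner ℝ (b 0) y * (b 0) a + inner ℝ (b 1) y * (b 1) a := by
    have := congrArg (fun z : E2 => z a) h
    simp only [PiLp.add_apply, PiLp.smul_apply, smul_eq_mul] at this
    exact this.symm
  have hb : ∀ j, |(b j) a| ≤ 1 := by
    intro j
    have := basis_sq b j
    rw [← sq_le_one_iff_abs_le_one]
    fin_cases a
    · simp only [Fin.zero_eta, Fin.isValue]; nlinarith [sq_nonneg ((b j) 1)]
    · simp only [Fin.mk_one, Fin.isValue]; nlinarith [sq_nonneg ((b j) 0)]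
  rw [h1, real_inner_comm, real_inner_comm y (b 1)]
  calc |inner ℝ y (b 0) * (b 0) a + inner ℝ y (b 1) * (b 1) a|
      ≤ |inner ℝ y (b 0) * (b 0) a| + |inner ℝ y (b 1) * (b 1) a| := abs_add_le _ _
    _ ≤ |inner ℝ y (b 0)| * 1 + |inner ℝ y (b 1)| * 1 := by
        rw [abs_mul, abs_mul]
        exact add_le_add (mul_le_mul_of_nonneg_left (hb 0) (abs_nonneg _))
          (mul_le_mul_of_nonneg_left (hb 1) (abs_nonneg _))
    _ = _ := by ring

theorem norm_le_two {y : E2} {M : ℝ} (h : ∀ a, |y a| ≤ M) : ‖y‖ ≤ 2 * M := by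
  have hM : 0 ≤ M := (abs_nonneg _).trans (h 0)
  have h1 : ‖y‖ ^ 2 ≤ (2 * M) ^ 2 := by
    rw [← real_inner_self_eq_norm_sq, inner2]
    have h0 := sq_le_sq' (by linarith [(abs_le.1 (h 0)).1]) (abs_le.1 (h 0)).2
    have h1 := sq_le_sq' (by linarith [(abs_le.1 (h 1)).1]) (abs_le.1 (h 1)).2
    nlinarith
  exact (pow_le_pow_iff_left₀ (norm_nonneg _) (by positivity) two_ne_zero).1 h1

/-- the point of `ℝ²` with given coordinates -/
noncomputable def mk2 (y : Fin 2 → ℝ) : E2 := WithLp.toLp 2 y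

@[simp] theorem mk2_apply (y : Fin 2 → ℝ) (a : Fin 2) : mk2 y a = y a := rfl

open Classical in
/-- a plank holds few lines, if few lines of it pass through one cell -/
theorem plank_count {ι : Type} (P : Finset ι) (Z : Finset ℕ) (al : ι → ℕ → Prop)
    (F : ι → ℕ → Fin 2 → ℝ) (b : OrthonormalBasis (Fin 2) ℝ E2) (R : Fin 2 → ℝ) {w θ m : ℝ}
    (hw : 0 < w) (hθ : 0 < θ) (hm : 0 ≤ m) (hZ : Z.Nonempty) (hR : ∀ j, w ≤ R j)
    (hPR : ∀ k ∈ Z, ∀ i ∈ P, al i k → ∀ i' ∈ P, al i' k → ∀ j,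
      |inner ℝ (mk2 (F i' k)) (b j) - inner ℝ (mk2 (F i k)) (b j)| ≤ R j)
    (hal : ∀ i ∈ P, θ * (Z.card : ℝ) ≤ ((Z.filter fun k => al i k).card : ℝ))
    (hfan : ∀ k ∈ Z, ∀ i ∈ P, al i k → ((P.filter fun i' => al i' k ∧
      ∀ a, |F i' k a - F i k a| ≤ 2 * w).card : ℝ) ≤ m) :
    (P.card : ℝ) * θ ≤ 16 * (R 0 / w) * (R 1 / w) * m := by
  have hZ0 : (0 : ℝ) < Z.card := by exact_mod_cast hZ.card_pos
  -- one height
  have hk : ∀ k ∈ Z, ((P.filter fun i => al i k).card : ℝ) ≤ 16 * (R 0 / w) * (R 1 / w) * m := by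
    intro k hk
    set Pk := P.filter fun i => al i k with hPk
    set lab : ι → ℤ × ℤ := fun i =>
      (⌊inner ℝ (mk2 (F i k)) (b 0) / w⌋, ⌊inner ℝ (mk2 (F i k)) (b 1) / w⌋) with hlab
    have h1 : (Pk.card : ℝ) = ∑ c ∈ Pk.image lab, ((Pk.filter fun i => lab i = c).card : ℝ) := by
      exact_mod_cast Finset.card_eq_sum_card_fiberwise (f := lab) (s := Pk) (t := Pk.image lab)
        (fun i hi => Finset.mem_image_of_mem _ hi)
    have h2 : ∀ c ∈ Pk.image lab, ((Pk.filter fun i => lab i = c).card : ℝ) ≤ m := by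
      intro c hc
      obtain ⟨i, hi, rfl⟩ := Finset.mem_image.1 hc
      obtain ⟨hi1, hi2⟩ := Finset.mem_filter.1 hi
      refine le_trans ?_ (hfan k hk i hi1 hi2)
      have : (Pk.filter fun i' => lab i' = lab i) ⊆
          (P.filter fun i' => al i' k ∧ ∀ a, |F i' k a - F i k a| ≤ 2 * w) := by
        intro i' hi'
        obtain ⟨a1, a2⟩ := Finset.mem_filter.1 hi'
        obtain ⟨a3, a4⟩ := Finset.mem_filter.1 a1
        refine Finset.mem_filter.2 ⟨a3, a4, fun a => ?_⟩
        simp only [hlab, Prod.mk.injEq] at a2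
        have e0 := Int.abs_sub_lt_one_of_floor_eq_floor a2.1
        have e1 := Int.abs_sub_lt_one_of_floor_eq_floor a2.2
        rw [← sub_div, abs_div, abs_of_pos hw, div_lt_one hw, ← inner_sub_left] at e0 e1
        have e2 := coord_le b (mk2 (F i' k) - mk2 (F i k)) a
        simp only [PiLp.sub_apply, mk2_apply] at e2
        linarith
      exact_mod_cast Finset.card_le_card this
    have h3 : ((Pk.image lab).card : ℝ) ≤ 16 * (R 0 / w) * (R 1 / w) := by
      have hsub : Pk.image lab ⊆ (Pk.image fun i => ⌊inner ℝ (mk2 (F i k)) (b 0) / w⌋) ×ˢ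
          (Pk.image fun i => ⌊inner ℝ (mk2 (F i k)) (b 1) / w⌋) := by
        intro c hc
        obtain ⟨i, hi, rfl⟩ := Finset.mem_image.1 hc
        exact Finset.mem_product.2 ⟨Finset.mem_image_of_mem _ hi, Finset.mem_image_of_mem _ hi⟩
      have hb : ∀ j, ((Pk.image fun i => ⌊inner ℝ (mk2 (F i k)) (b j) / w⌋).card : ℝ) ≤
          4 * (R j / w) := by
        intro j
        have hRj : 0 ≤ R j := hw.le.trans (hR j)
        have e1 := card_floor_le Pk (fun i => inner ℝ (mk2 (F i k)) (b j)) hw hRj (by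
          intro i hi i' hi'
          obtain ⟨a1, a2⟩ := Finset.mem_filter.1 hi
          obtain ⟨b1, b2⟩ := Finset.mem_filter.1 hi'
          exact hPR k hk i a1 a2 i' b1 b2 j)
        have e2 : 1 ≤ R j / w := (one_le_div hw).2 (hR j)
        linarith
      calc ((Pk.image lab).card : ℝ) ≤
            ((Pk.image fun i => ⌊inner ℝ (mk2 (F i k)) (b 0) / w⌋).card : ℝ) *
            ((Pk.image fun i => ⌊inner ℝ (mk2 (F i k)) (b 1) / w⌋).card : ℝ) := by
              have := Finset.card_le_card hsub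
              rw [Finset.card_product] at this
              exact_mod_cast this
        _ ≤ (4 * (R 0 / w)) * (4 * (R 1 / w)) := by
            refine mul_le_mul (hb 0) (hb 1) (Nat.cast_nonneg _) ?_
            have e2 : 1 ≤ R 0 / w := (one_le_div hw).2 (hR 0)
            linarith
        _ = _ := by ring
    calc (Pk.card : ℝ) = ∑ c ∈ Pk.image lab, ((Pk.filter fun i => lab i = c).card : ℝ) := h1
      _ ≤ ∑ c ∈ Pk.image lab, m := Finset.sum_le_sum h2
      _ = ((Pk.image lab).card : ℝ) * m := by rw [Finset.sum_const, nsmul_eq_mul]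
      _ ≤ _ := mul_le_mul_of_nonneg_right h3 hm
  -- double counting
  have h4 : (P.card : ℝ) * (θ * (Z.card : ℝ)) ≤ ∑ k ∈ Z, ((P.filter fun i => al i k).card : ℝ) := by
    calc (P.card : ℝ) * (θ * (Z.card : ℝ)) = ∑ i ∈ P, θ * (Z.card : ℝ) := by
          rw [Finset.sum_const, nsmul_eq_mul]
      _ ≤ ∑ i ∈ P, ((Z.filter fun k => al i k).card : ℝ) := Finset.sum_le_sum hal
      _ = _ := by
          have : ∑ i ∈ P, (Z.filter fun k => al i k).card = ∑ k ∈ Z, (P.filter fun i => al i k).card := by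
            simp only [Finset.card_filter]
            exact Finset.sum_comm
          exact_mod_cast this
  have h5 : ∑ k ∈ Z, ((P.filter fun i => al i k).card : ℝ) ≤
      (Z.card : ℝ) * (16 * (R 0 / w) * (R 1 / w) * m) := by
    calc _ ≤ ∑ k ∈ Z, 16 * (R 0 / w) * (R 1 / w) * m := Finset.sum_le_sum hk
      _ = _ := by rw [Finset.sum_const, nsmul_eq_mul]
  have h6 : ((P.card : ℝ) * θ) * (Z.card : ℝ) ≤ (16 * (R 0 / w) * (R 1 / w) * m) * (Z.card : ℝ) := by
    linarith
  exact le_of_mul_le_mul_right h6 hZ0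

end Crest.Agent.R136.Ful403
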