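import Crest.Agent.R136.Slb1_480
import Crest.Agent.R136.HR4_829
import Crest.Agent.R136.HR2_829
import Crest.Agent.R136.Ful3_403
import Crest.Agent.R136.End4_882

-- ▼ part R136/Rig1_418
section

/-!
# R136, (RIG) for borderline lightlike windows, finite form, part 1 (helper418)

Lines of `ℝ³` `z ↦ p i + z • v i` (in the application `p = (A, F_a)`, `v = (c, -e)`), resolution
`1 / H`, full shading up to `lam`, multiplicity `≥ m` at every incidence, and the product type upper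
bound `#{i' : ‖p i' - p i‖ ≤ r, |⟪v i' - v i, e⟫| ≤ w} ≤ K n r ^ a w ^ μ` with `a < 2`, `0 < μ`.
Kakeya in `ℝ³` (`km3_mult`) gives a plank which is as thin as the resolution, as wide as possible,
and contains a power-small-loss part of one fan.
-/

set_option autoImplicit false

open Finset

namespace Crest.Agent.R136.Rig418

open Crest.Agent.R138.Defs (E2)
open Crest.Agent.R136.Slb480
open Crest.Agent.R138.Tub70 (InPl KM32)

open Classical in
/-- the family concentrates in a plank -/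
theorem exists_plank (hKM : ∀ V : ℝ, KM32 V) (V : ℝ) (hV : 0 ≤ V) (ε : ℝ) (hε : 0 < ε) :
    ∃ C : ℝ, 0 < C ∧ ∀ H : ℕ, 1 ≤ H → V + 2 ≤ (H : ℝ) → ∀ (ι : Type) [Fintype ι] [Nonempty ι]
      (p v : ι → E2) (I : Finset (ι × ℤ)) (m lam : ℝ), 0 < m → 0 < lam →
      (∀ i, ‖p i‖ ≤ V ∧ ‖v i‖ ≤ V) → (∀ x ∈ I, |x.2| ≤ (H : ℤ)) →
      (∀ i, lam * H ≤ ((I.filter fun x => x.1 = i).card : ℝ)) →
      (∀ x ∈ I, m ≤ ((I.filter fun y => y.2 = x.2 ∧
        ‖ps p v y.1 (x.2 / H) - ps p v x.1 (x.2 / H)‖ ≤ 1 / H).card : ℝ)) →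
      ∃ (b : OrthonormalBasis (Fin 2) ℝ E2) (s : Fin 2 → ℝ) (p0 v0 : E2),
        (∀ j, 1 / (H : ℝ) ≤ s j ∧ s j ≤ 1) ∧
        m * lam ^ 2 / (C * (H : ℝ) ^ ε) * (s 0 * s 1) * (H : ℝ) ^ 2 <
          ((Finset.univ.filter fun i => InPl b s p0 v0 (p i) (v i)).card : ℝ) := by
  obtain ⟨C, hC, key⟩ := km3_mult hKM V hV ε hε
  refine ⟨2 * C, by positivity, ?_⟩
  intro H hH hHV ι _ _ p v I m lam hm hlam hpv hI hline hmult
  have hH0 : (0 : ℝ) < H := by exact_mod_cast hH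
  have hHε : 0 < (H : ℝ) ^ ε := Real.rpow_pos_of_pos hH0 ε
  by_contra hcon
  push Not at hcon
  have h1 := key H hH hHV ι p v I m lam (m * lam ^ 2 / (2 * C * (H : ℝ) ^ ε)) hm hlam
    (by positivity) hpv hI hline hmult (fun b s p0 v0 hs => hcon b s p0 v0 hs)
  have h2 : C * (H : ℝ) ^ ε * (m * lam ^ 2 / (2 * C * (H : ℝ) ^ ε)) = m * lam ^ 2 / 2 := by
    field_simp
  rw [h2] at h1
  have : 0 < m * lam ^ 2 := by positivity
  linarith



end Crest.Agent.R136.Rig418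
end

-- ▼ part R136/Lab1_544
section

/-!
# R136, END-LAB part 1 (helper544): a class inside one slab, finite form

`lab_gam`: incidences (line, real height) over the cell `J0` of level `i`; two linear functionals
`ψ 0, ψ 1` of all lines stay in `[-1, 1]` (relative to a centre line `c`); full own shading up to
resolution `2 ^ -M`; at least `m` lines in the box `1 / 2 / 2 ^ M` around every incidence; at most
`P s₀ s₁` lines in a plank.  Then `m 2 ^ (2 M) ≤ 2 ^ (ε M) P` (Kakeya in `ℝ³`).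
-/

set_option autoImplicit false
set_option linter.unusedVariables false
set_option linter.unusedSectionVars false

namespace Crest.Agent.R136.Lab544

open Finset
open Crest.Agent.R138.Defs (E2)
open Crest.Agent.R138.Tub70 (InPl KM32)
open Crest.Agent.R138.Mk163 (zc zl rho alive own)
open Crest.Agent.R136.Sh605
open Crest.Agent.R136.HR829
open Crest.Agent.R136.Slb480 (ps)
open Crest.Agent.R136.Ful403 (mk2 mk2_apply inner2 basis_sq norm_le_two)

/-- scaled base position at the middle of the cell -/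
noncomputable def pp (ψ : Fin 2 → V3) (c : Ln4) (zm : ℝ) (t : Ln4) : E2 :=
  mk2 fun j => 1 / 8 * dt (ψ j) (t.pos zm - c.pos zm)

/-- scaled base velocity -/
noncomputable def vv (ψ : Fin 2 → V3) (c : Ln4) (lam : ℝ) (t : Ln4) : E2 :=
  mk2 fun j => 1 / 8 * (lam * dt (ψ j) (t.v - c.v))

theorem dt_pos' (ψ : V3) (c t : Ln4) (zm lam u : ℝ) :
    dt ψ (t.pos (zm + lam * u) - c.pos (zm + lam * u)) =
      dt ψ (t.pos zm - c.pos zm) + lam * dt ψ (t.v - c.v) * u := by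
  simp only [dt, Ln4.pos, Pi.sub_apply]; ring

theorem ps_apply {ι : Type} (ψ : Fin 2 → V3) (c : Ln4) (zm lam : ℝ) (L : ι → Ln4) (t : ι)
    (u : ℝ) (j : Fin 2) : ps (fun t => pp ψ c zm (L t)) (fun t => vv ψ c lam (L t)) t u j =
      1 / 8 * dt (ψ j) ((L t).pos (zm + lam * u) - c.pos (zm + lam * u)) := by
  unfold ps pp vv
  rw [dt_pos']
  simp only [PiLp.add_apply, PiLp.smul_apply, smul_eq_mul, mk2_apply]
  ring

/-- the second vector of an orthonormal basis of the plane -/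
theorem basis_rot (b : OrthonormalBasis (Fin 2) ℝ E2) (y : E2) :
    |inner ℝ y (b 1)| = |-((b 0) 1) * y 0 + (b 0) 0 * y 1| := by
  have h0 := basis_sq b 0
  have h1 := basis_sq b 1
  have h2 : inner ℝ (b 0) (b 1) = (0 : ℝ) := b.orthonormal.2 (by decide)
  rw [inner2] at h2
  rw [inner2]
  set α := (b 0) 0
  set β := (b 0) 1
  set γ := (b 1) 0
  set δ := (b 1) 1
  have hγ : γ = -β * (α * δ - β * γ) := by
    have : γ = (α ^ 2 + β ^ 2) * γ := by rw [h0, one_mul]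
    linear_combination this + α * h2
  have hδ : δ = α * (α * δ - β * γ) := by
    have : δ = (α ^ 2 + β ^ 2) * δ := by rw [h0, one_mul]
    linear_combination this + β * h2
  have hd : (α * δ - β * γ) ^ 2 = 1 := by
    have : (α * δ - β * γ) ^ 2 = (α ^ 2 + β ^ 2) * (γ ^ 2 + δ ^ 2) - (α * γ + β * δ) ^ 2 := by ring
    rw [this, h0, h1, h2]; ring
  have hd1 : |α * δ - β * γ| = 1 := by
    rw [← sq_abs] at hd
    exact (pow_eq_one_iff_of_nonneg (abs_nonneg _) two_ne_zero).1 hd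
  have e : y 0 * γ + y 1 * δ = (α * δ - β * γ) * (-β * y 0 + α * y 1) := by
    linear_combination (y 0) * hγ + (y 1) * hδ
  rw [e, abs_mul, hd1, one_mul]

/-- change of the height -/
theorem dt_move {ψ : V3} {c t : Ln4} {zm lam : ℝ}
    (h : ∀ u : ℝ, |u| ≤ 1 → |dt ψ (t.pos (zm + lam * u) - c.pos (zm + lam * u))| ≤ 1) :
    |lam * dt ψ (t.v - c.v)| ≤ 1 := by
  have h1 := h 1 (by norm_num)
  have h2 := h (-1) (by norm_num)
  rw [dt_pos'] at h1 h2
  rw [abs_le] at h1 h2 ⊢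
  constructor <;> linarith [h1.1, h1.2, h2.1, h2.2]

theorem dt_tri (ψ : V3) (t y c : Ln4) (z : ℝ) :
    dt ψ (t.pos z - y.pos z) = dt ψ (t.pos z - c.pos z) - dt ψ (y.pos z - c.pos z) := by
  simp only [dt, Pi.sub_apply]; ring

open Classical in
/-- **a class inside one slab, lines** -/
theorem lab_gam (hKM : ∀ V : ℝ, KM32 V) {ε : ℝ} (hε : 0 < ε) :
    ∃ κ : ℝ, ∃ M₀ : ℕ, 0 < κ ∧ ∀ (F : Finset (ℕ × ℝ)) (L : ℕ → Ln4) (ψ : Fin 2 → V3) (c : Ln4)
      (i M : ℕ) (J0 : ℤ) (m P : ℝ), F.Nonempty → M₀ ≤ M →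
      (∀ x ∈ F, zc i x.2 = J0) →
      (∀ x ∈ F, ∀ z, zl i J0 ≤ z → z ≤ zl i J0 + rho i → ∀ j,
        |dt (ψ j) ((L x.1).pos z - c.pos z)| ≤ 1) →
      (∀ x ∈ F, (2 : ℝ) ^ ((M : ℝ) - κ * M) ≤ ((own F i (i + M + 1) x).card : ℝ)) →
      (∀ x ∈ F, ∃ z, zc (i + M + 1) z = zc (i + M + 1) x.2 ∧
        m ≤ (((alive F (i + M + 1) (zc (i + M + 1) x.2)).filter fun t =>
          ∀ j, |dt (ψ j) ((L t).pos z - (L x.1).pos z)| ≤ 1 / 2 / 2 ^ M).card : ℝ)) →
      (∀ x ∈ F, ∀ α β : ℝ, α ^ 2 + β ^ 2 = 1 → ∀ s : Fin 2 → ℝ,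
        (∀ j, 1 / (2 : ℝ) ^ M ≤ s j ∧ s j ≤ 1) →
        (((F.image Prod.fst).filter fun t => ∀ z, zl i J0 ≤ z → z ≤ zl i J0 + rho i →
          |α * dt (ψ 0) ((L t).pos z - (L x.1).pos z) +
            β * dt (ψ 1) ((L t).pos z - (L x.1).pos z)| ≤ 16 * s 0 ∧
          |-β * dt (ψ 0) ((L t).pos z - (L x.1).pos z) +
            α * dt (ψ 1) ((L t).pos z - (L x.1).pos z)| ≤ 16 * s 1).card : ℝ) ≤
          P * (s 0 * s 1)) →
      m * 2 ^ (2 * M) ≤ (2 : ℝ) ^ (ε * M) * P := by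
  obtain ⟨C, hC, key⟩ := Rig418.exists_plank hKM 1 zero_le_one (ε / 4) (by positivity)
  obtain ⟨M₁, hM₁⟩ := exists_nat_ge (Real.logb 2 C / (ε / 4))
  refine ⟨ε / 8, max 2 M₁, by positivity, ?_⟩
  intro F L ψ c i M J0 m P hF hM' hJ hbd hown hrich hplank
  have hM2 : 2 ≤ M := (le_max_left _ _).trans hM'
  have hM1 : M₁ ≤ M := (le_max_right _ _).trans hM'
  -- the constant
  have hCM : C ≤ (2 : ℝ) ^ (ε / 4 * M) := by
    rw [← Real.rpow_logb (by norm_num : (0:ℝ) < 2) (by norm_num) hC]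
    refine Real.rpow_le_rpow_of_exponent_le (by norm_num) ?_
    rw [div_le_iff₀ (by positivity)] at hM₁
    have : (M₁ : ℝ) ≤ M := by exact_mod_cast hM1
    nlinarith
  by_cases hm : 0 < m
  swap
  · -- `P` is nonnegative
    obtain ⟨x, hx⟩ := hF
    have h1 := hplank x hx 1 0 (by norm_num) (fun _ => 1) (fun _ => ⟨by
      rw [div_le_one (by positivity)]; exact one_le_pow₀ (by norm_num), le_rfl⟩)
    have hP : 0 ≤ P := by
      have : (0:ℝ) ≤ P * (1 * 1) := (Nat.cast_nonneg _).trans h1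
      linarith
    push Not at hm
    calc m * 2 ^ (2 * M) ≤ 0 := mul_nonpos_of_nonpos_of_nonneg hm (by positivity)
      _ ≤ _ := by positivity
  -- the data
  set ι := {t : ℕ // t ∈ F.image Prod.fst} with hι
  obtain ⟨x₀, hx₀⟩ := hF
  have hιne : Nonempty ι := ⟨⟨x₀.1, mem_image_of_mem _ hx₀⟩⟩
  set zM := zm i J0 with hzM
  set lam := rho i / 2 with hlam
  have hlam0 : 0 < lam := by have := rho_pos i; positivity
  have hcell : ∀ u : ℝ, |u| ≤ 1 → zl i J0 ≤ zM + lam * u ∧ zM + lam * u ≤ zl i J0 + rho i := by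
    intro u hu
    have e : zM = zl i J0 + lam := rfl
    have e2 : rho i = 2 * lam := by rw [hlam]; ring
    rw [abs_le] at hu
    constructor
    · rw [e]; nlinarith
    · rw [e, e2]; nlinarith
  have hbu : ∀ x ∈ F, ∀ j, ∀ u : ℝ, |u| ≤ 1 →
      |dt (ψ j) ((L x.1).pos (zM + lam * u) - c.pos (zM + lam * u))| ≤ 1 :=
    fun x hx j u hu => hbd x hx _ (hcell u hu).1 (hcell u hu).2 j
  have hι' : ∀ t : ι, ∃ x ∈ F, x.1 = t.1 := fun t => by
    obtain ⟨x, hx, h⟩ := mem_image.1 t.2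
    exact ⟨x, hx, h⟩
  set p : ι → E2 := fun t => pp ψ c zM (L t.1) with hp
  set v : ι → E2 := fun t => vv ψ c lam (L t.1) with hv
  have hpsj : ∀ (t : ι) (u : ℝ) (j : Fin 2), ps p v t u j =
      1 / 8 * dt (ψ j) ((L t.1).pos (zM + lam * u) - c.pos (zM + lam * u)) :=
    fun t u j => ps_apply ψ c zM lam (fun t : ι => L t.1) t u j
  set H : ℕ := 2 ^ M with hH
  have hHr : (H : ℝ) = 2 ^ M := by rw [hH]; push_cast; ring
  have hH0 : (0 : ℝ) < H := by rw [hHr]; positivity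
  set I : Finset (ι × ℤ) := (univ ×ˢ ((inc F i M J0).image Prod.snd)).filter
    fun y => (y.1.1, y.2) ∈ inc F i M J0 with hI
  have hmemI : ∀ y : ι × ℤ, y ∈ I ↔ (y.1.1, y.2) ∈ inc F i M J0 := by
    intro y
    rw [hI, mem_filter, mem_product]
    exact ⟨fun h => h.2, fun h => ⟨⟨mem_univ _, mem_image.2 ⟨_, h, rfl⟩⟩, h⟩⟩
  have hinc : ∀ y : ι × ℤ, y ∈ I ↔ ∃ x ∈ F, x.1 = y.1.1 ∧
      ix M J0 (zc (i + M + 1) x.2) = y.2 := by
    intro y
    rw [hmemI]
    unfold inc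
    rw [mem_image]
    constructor
    · rintro ⟨x, hx, h⟩
      rw [Prod.mk.injEq] at h
      exact ⟨x, hx, h.1, h.2⟩
    · rintro ⟨x, hx, h1, h2⟩
      exact ⟨x, hx, by rw [h1, h2]⟩
  have hH3 : (1 : ℝ) + 2 ≤ (H : ℝ) := by
    rw [hHr]
    calc (1:ℝ) + 2 ≤ 2 ^ 2 := by norm_num
      _ ≤ 2 ^ M := pow_le_pow_right₀ (by norm_num) hM2
  have hb1 : ∀ t : ι, ‖p t‖ ≤ 1 ∧ ‖v t‖ ≤ 1 := by
    intro t
    obtain ⟨x, hx, hxt⟩ := hι' t
    constructor
    · refine (norm_le_two (M := 1 / 8) fun a => ?_).trans (by norm_num)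
      have h1 := hbu x hx a 0 (by norm_num)
      rw [mul_zero, add_zero, hxt] at h1
      change |1 / 8 * dt (ψ a) ((L t.1).pos zM - c.pos zM)| ≤ 1 / 8
      rw [abs_mul, abs_of_pos (by norm_num : (0:ℝ) < 1 / 8)]
      linarith
    · refine (norm_le_two (M := 1 / 8) fun a => ?_).trans (by norm_num)
      have h1 := dt_move (hbu x hx a)
      rw [hxt] at h1
      change |1 / 8 * (lam * dt (ψ a) ((L t.1).v - c.v))| ≤ 1 / 8
      rw [abs_mul, abs_of_pos (by norm_num : (0:ℝ) < 1 / 8)]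
      linarith
  have hb2 : ∀ y ∈ I, |y.2| ≤ (H : ℤ) := by
    intro y hy
    obtain ⟨x, hx, -, h2⟩ := (hinc y).1 hy
    have h3 := ix_abs (M := M) (hJ x hx)
    rw [← h2]
    have h4 : ((|ix M J0 (zc (i + M + 1) x.2)| : ℤ) : ℝ) ≤ ((H : ℤ) : ℝ) := by
      push_cast; rw [hHr]; exact h3
    exact_mod_cast h4
  have hb3 : ∀ t : ι, (2 : ℝ) ^ (-(ε / 8 * M)) * H ≤ ((I.filter fun y => y.1 = t).card : ℝ) := by
    intro t
    obtain ⟨x, hx, hxt⟩ := hι' t
    have h1 := (hown x hx).trans (own_le' hJ x)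
    have h2 : ((inc F i M J0).filter fun y => y.1 = x.1).card ≤
        (I.filter fun y => y.1 = t).card := by
      refine le_trans (card_le_card (t := (I.filter fun y => y.1 = t).image
        fun y => (y.1.1, y.2)) fun y hy => ?_) card_image_le
      rw [mem_filter] at hy
      rw [mem_image]
      refine ⟨(t, y.2), mem_filter.2 ⟨(hmemI _).2 ?_, rfl⟩, ?_⟩
      · change (t.1, y.2) ∈ _
        rw [← hxt, ← hy.2]; exact hy.1
      · change (t.1, y.2) = y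
        rw [← hxt, ← hy.2]
    have h3 : ((inc F i M J0).filter fun y => y.1 = x.1).card ≤
        (I.filter fun y => y.1 = t).card := h2
    refine le_trans (le_of_eq ?_) (h1.trans (Nat.cast_le.2 h3))
    rw [hHr, ← Real.rpow_natCast, ← Real.rpow_add (by norm_num)]
    congr 1; ring
  have hb4 : ∀ y ∈ I, m ≤ ((I.filter fun y' => y'.2 = y.2 ∧
      ‖ps p v y'.1 (y.2 / H) - ps p v y.1 (y.2 / H)‖ ≤ 1 / H).card : ℝ) := by
    intro y hy
    obtain ⟨x, hx, h1, h2⟩ := (hinc y).1 hy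
    obtain ⟨z, hz, hr⟩ := hrich x hx
    refine hr.trans (Nat.cast_le.2 ?_)
    refine le_trans (card_le_card (t := ((I.filter fun y' => y'.2 = y.2 ∧
      ‖ps p v y'.1 (y.2 / H) - ps p v y.1 (y.2 / H)‖ ≤ 1 / H).image fun y' => y'.1.1))
      fun t ht => ?_) card_image_le
    rw [mem_filter] at ht
    obtain ⟨ht1, ht2⟩ := ht
    unfold alive at ht1
    obtain ⟨x', hx', hxt⟩ := mem_image.1 ht1
    rw [mem_filter] at hx'
    have htm : t ∈ F.image Prod.fst := by rw [← hxt]; exact mem_image_of_mem _ hx'.1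
    rw [mem_image]
    refine ⟨(⟨t, htm⟩, y.2), mem_filter.2 ⟨(hinc _).2 ⟨x', hx'.1, hxt, ?_⟩, rfl, ?_⟩, rfl⟩
    · rw [hx'.2]; exact h2
    · have hy2 : ((y.2 : ℝ) / H) = uh M J0 (zc (i + M + 1) x.2) := by
        unfold uh; rw [h2, hHr]
      have hzi : zc i z = J0 := by
        rw [zc_nest (by omega : i ≤ i + M + 1) hz]; exact hJ x hx
      have hzc := zc_mem i z
      rw [hzi] at hzc
      have hu1 : |un i J0 z| ≤ 1 := un_abs hzc.1 hzc.2.le
      have hnear : |uh M J0 (zc (i + M + 1) x.2) - un i J0 z| ≤ 1 / 2 ^ M := by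
        rw [abs_sub_comm, ← hz]; exact un_near
      have hz1 : zM + lam * un i J0 z = z := un_spec i J0 z
      change ‖ps p v ⟨t, htm⟩ (y.2 / H) - ps p v y.1 (y.2 / H)‖ ≤ 1 / H
      rw [hy2, hHr]
      refine (norm_le_two (M := 1 / 2 / 2 ^ M) fun a => ?_).trans (le_of_eq (by ring))
      rw [PiLp.sub_apply, hpsj, hpsj]
      set u := uh M J0 (zc (i + M + 1) x.2) with hu
      have hv1 := dt_move (hbu x hx a)
      have hv2 := dt_move (hbu x' hx'.1 a)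
      rw [hxt] at hv2
      rw [h1] at hv1
      have h5 := ht2 a
      rw [h1, dt_tri (ψ a) (L t) (L y.1.1) c, ← hz1, dt_pos', dt_pos'] at h5
      change |1 / 8 * dt (ψ a) ((L t).pos (zM + lam * u) - c.pos (zM + lam * u)) -
        1 / 8 * dt (ψ a) ((L y.1.1).pos (zM + lam * u) - c.pos (zM + lam * u))| ≤ 1 / 2 / 2 ^ M
      rw [dt_pos', dt_pos']
      set A1 := dt (ψ a) ((L t).pos zM - c.pos zM)
      set A2 := dt (ψ a) ((L y.1.1).pos zM - c.pos zM)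
      set B1 := lam * dt (ψ a) ((L t).v - c.v)
      set B2 := lam * dt (ψ a) ((L y.1.1).v - c.v)
      have e : 1 / 8 * (A1 + B1 * u) - 1 / 8 * (A2 + B2 * u) =
          1 / 8 * ((A1 + B1 * un i J0 z) - (A2 + B2 * un i J0 z)) +
            1 / 8 * ((B1 - B2) * (u - un i J0 z)) := by ring
      rw [e]
      refine (abs_add_le _ _).trans ?_
      rw [abs_mul, abs_mul (1 / 8 : ℝ), abs_mul, abs_of_pos (by norm_num : (0:ℝ) < 1 / 8)]
      have hB : |B1 - B2| ≤ 2 := (abs_sub _ _).trans (by linarith)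
      have hq : (0:ℝ) ≤ 1 / 2 ^ M := by positivity
      have h6 : |B1 - B2| * |u - un i J0 z| ≤ 2 * (1 / 2 ^ M) := by gcongr
      have e5 : (1:ℝ) / 2 / 2 ^ M = 1 / 2 * (1 / 2 ^ M) := by ring
      rw [e5] at h5 ⊢
      linarith
  obtain ⟨b, s, p0, v0, hs, hcount⟩ := key H Nat.one_le_two_pow hH3 ι p v I m
    ((2 : ℝ) ^ (-(ε / 8 * M))) hm (Real.rpow_pos_of_pos (by norm_num) _) hb1 hb2
    (fun t => by convert hb3 t) (fun y hy => by convert hb4 y hy)
  set A := Finset.univ.filter fun t => InPl b s p0 v0 (p t) (v t) with hA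
  have hlow : (0 : ℝ) ≤ m * ((2 : ℝ) ^ (-(ε / 8 * M))) ^ 2 / (C * (H : ℝ) ^ (ε / 4)) *
      (s 0 * s 1) * (H : ℝ) ^ 2 := by
    have := (hs 0).1
    have := (hs 1).1
    have h1 : (0:ℝ) < 1 / H := by positivity
    have : 0 < s 0 := by linarith
    have : 0 < s 1 := by linarith
    have := hm.le
    positivity
  have hApos : (0 : ℝ) < A.card := hlow.trans_lt hcount
  obtain ⟨t0, ht0⟩ := card_pos.1 (by exact_mod_cast hApos : 0 < A.card)
  rw [hA, mem_filter] at ht0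
  obtain ⟨x, hx, hxt⟩ := hι' t0
  have hb0 := basis_sq b 0
  have hP := hplank x hx ((b 0) 0) ((b 0) 1) hb0 s (fun j => by rw [← hHr]; exact hs j)
  have hAle : (A.card : ℝ) ≤ P * (s 0 * s 1) := by
    refine le_trans (Nat.cast_le.2 ?_) hP
    rw [← card_map (Function.Embedding.subtype _)]
    refine card_le_card fun t ht => ?_
    rw [mem_map] at ht
    obtain ⟨t', ht', rfl⟩ := ht
    rw [hA, mem_filter] at ht'
    rw [mem_filter]
    refine ⟨t'.2, fun z hz hz' => ?_⟩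
    have hu := un_abs hz hz'
    have hz1 : zM + lam * un i J0 z = z := un_spec i J0 z
    have hd : ∀ j, |inner ℝ (ps p v t' (un i J0 z) - ps p v t0 (un i J0 z)) (b j)| ≤ 2 * s j := by
      intro j
      have g1 := ht'.2 (un i J0 z) hu j
      have g2 := ht0.2 (un i J0 z) hu j
      have e : ps p v t' (un i J0 z) - ps p v t0 (un i J0 z) =
          (p t' - p0 + un i J0 z • (v t' - v0)) - (p t0 - p0 + un i J0 z • (v t0 - v0)) := by
        unfold ps; module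
      rw [e, inner_sub_left]
      refine (abs_sub _ _).trans ?_
      linarith
    have hy : ∀ j, (ps p v t' (un i J0 z) - ps p v t0 (un i J0 z)) j =
        1 / 8 * dt (ψ j) ((L t'.1).pos z - (L x.1).pos z) := by
      intro j
      rw [PiLp.sub_apply, hpsj, hpsj, hz1, ← hxt, dt_tri (ψ j) (L t'.1) (L x.1) c]
      ring
    have h0 := hd 0
    have h1 := hd 1
    rw [basis_rot, hy, hy] at h1
    rw [inner2, hy, hy] at h0
    constructor
    · have e : (b 0) 0 * dt (ψ 0) ((L t'.1).pos z - (L x.1).pos z) +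
          (b 0) 1 * dt (ψ 1) ((L t'.1).pos z - (L x.1).pos z) =
          8 * (1 / 8 * dt (ψ 0) ((L t'.1).pos z - (L x.1).pos z) * (b 0) 0 +
          1 / 8 * dt (ψ 1) ((L t'.1).pos z - (L x.1).pos z) * (b 0) 1) := by ring
      change |(b 0) 0 * dt (ψ 0) ((L t'.1).pos z - (L x.1).pos z) +
          (b 0) 1 * dt (ψ 1) ((L t'.1).pos z - (L x.1).pos z)| ≤ 16 * s 0
      rw [e, abs_mul, abs_of_pos (by norm_num : (0:ℝ) < 8)]
      linarith
    · have e : -((b 0) 1) * dt (ψ 0) ((L t'.1).pos z - (L x.1).pos z) +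
          (b 0) 0 * dt (ψ 1) ((L t'.1).pos z - (L x.1).pos z) =
          8 * (-((b 0) 1) * (1 / 8 * dt (ψ 0) ((L t'.1).pos z - (L x.1).pos z)) +
          (b 0) 0 * (1 / 8 * dt (ψ 1) ((L t'.1).pos z - (L x.1).pos z))) := by ring
      change |-((b 0) 1) * dt (ψ 0) ((L t'.1).pos z - (L x.1).pos z) +
          (b 0) 0 * dt (ψ 1) ((L t'.1).pos z - (L x.1).pos z)| ≤ 16 * s 1
      rw [e, abs_mul, abs_of_pos (by norm_num : (0:ℝ) < 8)]
      linarith
  have hfin := hcount.trans_le hAle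
  have hs0 : 0 < s 0 := lt_of_lt_of_le (by positivity) (hs 0).1
  have hs1 : 0 < s 1 := lt_of_lt_of_le (by positivity) (hs 1).1
  have h3 : m * ((2 : ℝ) ^ (-(ε / 8 * M))) ^ 2 / (C * (H : ℝ) ^ (ε / 4)) * (H : ℝ) ^ 2 ≤ P := by
    have h4 : (m * ((2 : ℝ) ^ (-(ε / 8 * M))) ^ 2 / (C * (H : ℝ) ^ (ε / 4)) * (H : ℝ) ^ 2) *
        (s 0 * s 1) ≤ P * (s 0 * s 1) := by
      refine le_trans (le_of_eq ?_) hfin.le
      ring
    exact le_of_mul_le_mul_right h4 (by positivity)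
  have e1 : ((2 : ℝ) ^ (-(ε / 8 * M))) ^ 2 = (2 : ℝ) ^ (-(ε / 4 * M)) := by
    rw [← Real.rpow_natCast, ← Real.rpow_mul (by norm_num)]
    congr 1; push_cast; ring
  have e2 : (H : ℝ) ^ (ε / 4) = (2 : ℝ) ^ (ε / 4 * M) := by
    rw [hHr, ← Real.rpow_natCast, ← Real.rpow_mul (by norm_num)]
    congr 1; ring
  have e3 : (H : ℝ) ^ 2 = 2 ^ (2 * M) := by rw [hHr, ← pow_mul]; congr 1; ring
  rw [e1, e2, e3, div_mul_eq_mul_div, div_le_iff₀ (by positivity)] at h3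
  have hP0 : 0 ≤ P := by
    have : (0:ℝ) < P * (s 0 * s 1) := hApos.trans_le hAle
    exact (pos_of_mul_pos_left this (by positivity)).le
  have e4 : (2 : ℝ) ^ (ε / 4 * M) * (2 : ℝ) ^ (-(ε / 4 * M)) = 1 := by
    rw [← Real.rpow_add (by norm_num)]; simp
  calc m * 2 ^ (2 * M) = (2 : ℝ) ^ (ε / 4 * M) *
        (m * (2 : ℝ) ^ (-(ε / 4 * M)) * 2 ^ (2 * M)) := by
        calc m * 2 ^ (2 * M) = ((2 : ℝ) ^ (ε / 4 * M) * (2 : ℝ) ^ (-(ε / 4 * M))) *
              (m * 2 ^ (2 * M)) := by rw [e4, one_mul]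
          _ = _ := by ring
    _ ≤ (2 : ℝ) ^ (ε / 4 * M) * (P * (C * (2 : ℝ) ^ (ε / 4 * M))) := by gcongr
    _ ≤ (2 : ℝ) ^ (ε / 4 * M) * (P * ((2 : ℝ) ^ (ε / 4 * M) * (2 : ℝ) ^ (ε / 4 * M))) := by
        gcongr
    _ = ((2 : ℝ) ^ (ε / 4 * M) * (2 : ℝ) ^ (ε / 4 * M) * (2 : ℝ) ^ (ε / 4 * M)) * P := by ring
    _ = (2 : ℝ) ^ (3 * (ε / 4) * M) * P := by
        rw [← Real.rpow_add (by norm_num), ← Real.rpow_add (by norm_num)]
        congr 2; ring
    _ ≤ (2 : ℝ) ^ (ε * M) * P := by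
        refine mul_le_mul_of_nonneg_right (Real.rpow_le_rpow_of_exponent_le (by norm_num) ?_) hP0
        have : (0:ℝ) ≤ M := Nat.cast_nonneg _
        nlinarith

end Crest.Agent.R136.Lab544
end

-- ▼ part R136/Lab2_544

/-!
# R136, END-LAB part 2 (helper544): incidences, D-max for sheets

`lab_box`: D-max for the intersection of a slab with a rotated plank (any linear functionals);
`lab_fin`: counts of incidences: `m 2 ^ (3 M) ≤ 2 ^ (ε M) D (s a w₂ w₁ R)`.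
-/

set_option autoImplicit false
set_option linter.unusedVariables false
set_option linter.unusedSectionVars false

namespace Crest.Agent.R136.Lab544

open Finset
open Crest.Agent.R138.Defs (E2)
open Crest.Agent.R138.Tub70 (InPl KM32)
open Crest.Agent.R138.Mk163 (zc zl rho alive own)
open Crest.Agent.R136.Sh605
open Crest.Agent.R136.HR829

/-- `φ` is the dual basis of the functionals `χ, ψ 0, ψ 1` -/
def Dual (χ : V3) (ψ : Fin 2 → V3) (φ : Fin 3 → V3) : Prop :=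
  ∀ δ : V3, dt χ δ • φ 0 + dt (ψ 0) δ • φ 1 + dt (ψ 1) δ • φ 2 = δ

theorem Dual.det_ne {χ : V3} {ψ : Fin 2 → V3} {φ : Fin 3 → V3} (h : Dual χ ψ φ) :
    dt (crs (φ 0) (φ 1)) (φ 2) ≠ 0 := by
  have hE : ∀ i j : Fin 3, χ j * φ 0 i + ψ 0 j * φ 1 i + ψ 1 j * φ 2 i = if i = j then 1 else 0 := by
    intro i j
    have h1 := congrFun (h fun k => if k = j then 1 else 0) i
    simp only [Pi.add_apply, Pi.smul_apply, smul_eq_mul] at h1
    have h2 : ∀ x : V3, dt x (fun k => if k = j then 1 else 0) = x j := by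
      intro x
      fin_cases j <;> simp [dt]
    rw [h2, h2, h2] at h1
    exact h1
  have key : dt (crs (φ 0) (φ 1)) (φ 2) * dt (crs χ (ψ 0)) (ψ 1) = 1 := by
    have e00 := hE 0 0
    have e01 := hE 0 1
    have e02 := hE 0 2
    have e10 := hE 1 0
    have e11 := hE 1 1
    have e12 := hE 1 2
    have e20 := hE 2 0
    have e21 := hE 2 1
    have e22 := hE 2 2
    simp only [Fin.isValue, if_true, reduceIte, one_ne_zero, zero_ne_one, Fin.reduceEq] at e00 e01 e02 e10 e11 e12 e20 e21 e22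
    have e : dt (crs (φ 0) (φ 1)) (φ 2) * dt (crs χ (ψ 0)) (ψ 1) =
        (χ 0 * φ 0 0 + ψ 0 0 * φ 1 0 + ψ 1 0 * φ 2 0) *
          ((χ 1 * φ 0 1 + ψ 0 1 * φ 1 1 + ψ 1 1 * φ 2 1) *
            (χ 2 * φ 0 2 + ψ 0 2 * φ 1 2 + ψ 1 2 * φ 2 2) -
           (χ 2 * φ 0 1 + ψ 0 2 * φ 1 1 + ψ 1 2 * φ 2 1) *
            (χ 1 * φ 0 2 + ψ 0 1 * φ 1 2 + ψ 1 1 * φ 2 2)) -
        (χ 1 * φ 0 0 + ψ 0 1 * φ 1 0 + ψ 1 1 * φ 2 0) *
          ((χ 0 * φ 0 1 + ψ 0 0 * φ 1 1 + ψ 1 0 * φ 2 1) *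
            (χ 2 * φ 0 2 + ψ 0 2 * φ 1 2 + ψ 1 2 * φ 2 2) -
           (χ 2 * φ 0 1 + ψ 0 2 * φ 1 1 + ψ 1 2 * φ 2 1) *
            (χ 0 * φ 0 2 + ψ 0 0 * φ 1 2 + ψ 1 0 * φ 2 2)) +
        (χ 2 * φ 0 0 + ψ 0 2 * φ 1 0 + ψ 1 2 * φ 2 0) *
          ((χ 0 * φ 0 1 + ψ 0 0 * φ 1 1 + ψ 1 0 * φ 2 1) *
            (χ 1 * φ 0 2 + ψ 0 1 * φ 1 2 + ψ 1 1 * φ 2 2) -
           (χ 1 * φ 0 1 + ψ 0 1 * φ 1 1 + ψ 1 1 * φ 2 1) *
            (χ 0 * φ 0 2 + ψ 0 0 * φ 1 2 + ψ 1 0 * φ 2 2)) := by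
      simp only [dt, crs, Matrix.cons_val_zero, Matrix.cons_val_one, Matrix.cons_val]
      ring
    rw [e, e00, e01, e02, e10, e11, e12, e20, e21, e22]
    ring
  intro h0
  rw [h0, zero_mul] at key
  exact zero_ne_one key

/-- the determinant in an orthonormal frame -/
theorem det_le {e : Fin 3 → V3} (he : Ortho e) {φ : Fin 3 → V3} {K : ℝ} (hK : 0 < K) {W : V3}
    (hW : ∀ i, 0 < W i) (h : ∀ i k, |dt (e i) (φ k)| ≤ K * W i) :
    |dt (crs (φ 0) (φ 1)) (φ 2)| ≤ 6 * K ^ 3 * (W 0 * W 2 * W 1) := by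
  have hφ : ∀ k, φ k = dt (e 0) (φ k) • e 0 + dt (e 1) (φ k) • e 1 + dt (e 2) (φ k) • e 2 := by
    intro k
    funext j
    rw [he.expand (φ k) j]
    simp only [Pi.add_apply, Pi.smul_apply, smul_eq_mul]
  have h1 := det_comb e fun k => ![dt (e 0) (φ k), dt (e 1) (φ k), dt (e 2) (φ k)]
  have h2 : dt (crs (φ 0) (φ 1)) (φ 2) =
      dt (crs ![dt (e 0) (φ 0), dt (e 1) (φ 0), dt (e 2) (φ 0)]
        ![dt (e 0) (φ 1), dt (e 1) (φ 1), dt (e 2) (φ 1)])
        ![dt (e 0) (φ 2), dt (e 1) (φ 2), dt (e 2) (φ 2)] * dt (crs (e 0) (e 1)) (e 2) := by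
    refine Eq.trans ?_ h1
    simp only [Matrix.cons_val_zero, Matrix.cons_val_one, Matrix.cons_val]
    rw [← hφ 0, ← hφ 1, ← hφ 2]
  rw [h2, abs_mul, det_abs he, mul_one]
  have b : ∀ i k, |dt (e i) (φ k)| ≤ K * W i := h
  have t : ∀ i j k i' j' k' : Fin 3,
      |dt (e i) (φ i') * dt (e j) (φ j') * dt (e k) (φ k')| ≤ (K * W i) * (K * W j) * (K * W k) := by
    intro i j k i' j' k'
    rw [abs_mul, abs_mul]
    have := hW i
    have := hW j
    have := hW k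
    have := b i i'
    have := b j j'
    have := b k k'
    gcongr
  have e1 : dt (crs ![dt (e 0) (φ 0), dt (e 1) (φ 0), dt (e 2) (φ 0)]
        ![dt (e 0) (φ 1), dt (e 1) (φ 1), dt (e 2) (φ 1)])
        ![dt (e 0) (φ 2), dt (e 1) (φ 2), dt (e 2) (φ 2)] =
      dt (e 1) (φ 0) * dt (e 2) (φ 1) * dt (e 0) (φ 2) -
      dt (e 2) (φ 0) * dt (e 1) (φ 1) * dt (e 0) (φ 2) +
      dt (e 2) (φ 0) * dt (e 0) (φ 1) * dt (e 1) (φ 2) -
      dt (e 0) (φ 0) * dt (e 2) (φ 1) * dt (e 1) (φ 2) +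
      dt (e 0) (φ 0) * dt (e 1) (φ 1) * dt (e 2) (φ 2) -
      dt (e 1) (φ 0) * dt (e 0) (φ 1) * dt (e 2) (φ 2) := by
    rw [show ∀ x y z : V3, dt (crs x y) z = (x 1 * y 2 - x 2 * y 1) * z 0 +
      (x 2 * y 0 - x 0 * y 2) * z 1 + (x 0 * y 1 - x 1 * y 0) * z 2 from fun x y z => by
        simp only [dt, crs, Matrix.cons_val_zero, Matrix.cons_val_one, Matrix.cons_val]]
    simp only [Matrix.cons_val_zero, Matrix.cons_val_one, Matrix.cons_val]
    ring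
  rw [e1]
  have t1 := t 1 2 0 0 1 2
  have t2 := t 2 1 0 0 1 2
  have t3 := t 2 0 1 0 1 2
  have t4 := t 0 2 1 0 1 2
  have t5 := t 0 1 2 0 1 2
  have t6 := t 1 0 2 0 1 2
  rw [abs_le] at t1 t2 t3 t4 t5 t6 ⊢
  constructor
  · nlinarith [t1.1, t2.2, t3.1, t4.2, t5.1, t6.2]
  · nlinarith [t1.2, t2.1, t3.2, t4.1, t5.2, t6.1]

/-- Cauchy–Schwarz with a unit vector -/
theorem cs_unit {f χ : V3} (hf : dt f f = 1) {r B : ℝ} (hB : 0 ≤ B)
    (h : r ^ 2 * dt χ χ ≤ B ^ 2) : |dt χ (r • f)| ≤ B := by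
  refine abs_le_of_sq_le_sq ?_ hB
  have h1 := cs χ f
  rw [hf, mul_one] at h1
  rw [dt_smul]
  calc (r * dt χ f) ^ 2 = r ^ 2 * (dt χ f) ^ 2 := by ring
    _ ≤ r ^ 2 * dt χ χ := by gcongr
    _ ≤ B ^ 2 := h

open Classical in
/-- **D-max for a slab cut with a rotated plank** -/
theorem lab_box {ι : Type} (T : Finset ι) (L : ι → Ln4) {z0 ρ r0 D wmax : ℝ}
    {R : ℝ → ℝ → ℝ → ℝ} {e : Fin 3 → V3} (he : Ortho e) {w : V3} {a : ℝ} (ha : 0 < a)
    (haw : a ≤ w 2) (hw : w 2 ≤ w 1) (hD : 0 ≤ D)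
    (hR0 : ∀ x y z, 0 ≤ x → 0 ≤ y → 0 ≤ z → 0 ≤ R x y z)
    (hRm : ∀ x y z x' y' z', 0 ≤ x → 0 ≤ y → 0 ≤ z → x ≤ x' → y ≤ y' → z ≤ z' →
      R x y z ≤ R x' y' z')
    (hmax : DMaxN T L z0 ρ D R r0 wmax) {χ : V3} {ψ : Fin 2 → V3} {φ : Fin 3 → V3}
    (hd : Dual χ ψ φ) {K : ℝ} (hK : 0 < K) (hφ : ∀ i k, |dt (e i) (φ k)| ≤ K * Wd a w i)
    {s σ : ℝ} (hs : 0 < s) (hs1 : s ≤ 1) (hσ : 0 < σ) (hχ : r0 ^ 2 * dt χ χ ≤ (2 * s) ^ 2)
    (hψ : ∀ j, r0 ^ 2 * dt (ψ j) (ψ j) ≤ (8 * σ) ^ 2) (hwm : 192 * K * w 1 ≤ wmax)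
    {α β : ℝ} (hαβ : α ^ 2 + β ^ 2 = 1) {u : Fin 2 → ℝ} (hu : ∀ j, σ ≤ u j ∧ u j ≤ 1) (y : Ln4) :
    ((T.filter fun t => ∀ z, z0 ≤ z → z ≤ z0 + ρ →
      |dt χ ((L t).pos z - y.pos z)| ≤ 2 * s ∧
      |α * dt (ψ 0) ((L t).pos z - y.pos z) + β * dt (ψ 1) ((L t).pos z - y.pos z)| ≤ 16 * u 0 ∧
      |-β * dt (ψ 0) ((L t).pos z - y.pos z) + α * dt (ψ 1) ((L t).pos z - y.pos z)| ≤
        16 * u 1).card : ℝ) ≤
      18432 * K ^ 3 * D * (s * (u 0 * u 1)) *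
        (a * w 2 * w 1 * R (256 * K * a) (320 * K * w 2) (192 * K * w 1)) := by
  have hw2 : 0 < w 2 := ha.trans_le haw
  have hw1 : 0 < w 1 := hw2.trans_le hw
  have hu0 : 0 < u 0 := hσ.trans_le (hu 0).1
  have hu1 : 0 < u 1 := hσ.trans_le (hu 1).1
  have hα1 : |α| ≤ 1 := by
    refine abs_le_of_sq_le_sq ?_ zero_le_one
    nlinarith [sq_nonneg β]
  have hβ1 : |β| ≤ 1 := by
    refine abs_le_of_sq_le_sq ?_ zero_le_one
    nlinarith [sq_nonneg α]
  have hWd : ∀ i, 0 < Wd a w i := by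
    intro i
    fin_cases i
    · exact ha
    · exact hw1
    · exact hw2
  set E : Fin 3 → V3 := ![(2 * s) • φ 0, (16 * u 0) • (α • φ 1 + β • φ 2),
    (16 * u 1) • (-β • φ 1 + α • φ 2)] with hE
  have hE0 : E 0 = (2 * s) • φ 0 := rfl
  have hE1 : E 1 = (16 * u 0) • (α • φ 1 + β • φ 2) := rfl
  have hE2 : E 2 = (16 * u 1) • (-β • φ 1 + α • φ 2) := rfl
  have hdet : dt (crs (E 0) (E 1)) (E 2) = 512 * (s * (u 0 * u 1)) * dt (crs (φ 0) (φ 1)) (φ 2) := by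
    have : dt (crs (E 0) (E 1)) (E 2) = 512 * (s * (u 0 * u 1)) * (α ^ 2 + β ^ 2) *
        dt (crs (φ 0) (φ 1)) (φ 2) := by
      rw [hE0, hE1, hE2]
      simp only [dt, crs, Pi.add_apply, Pi.smul_apply, smul_eq_mul, Matrix.cons_val_zero,
        Matrix.cons_val_one, Matrix.cons_val]
      ring
    rw [this, hαβ, mul_one]
  have hφ0 := hd.det_ne
  have hdet0 : dt (crs (E 0) (E 1)) (E 2) ≠ 0 := by
    rw [hdet]
    exact mul_ne_zero (by positivity) hφ0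
  have hS : ∀ i j, |dt (e i) (E j)| ≤ 32 * K * Wd a w i := by
    intro i j
    have h0 := hφ i 0
    have h1 := hφ i 1
    have h2 := hφ i 2
    have hWi := hWd i
    have hKW : 0 < K * Wd a w i := by positivity
    fin_cases j
    · change |dt (e i) (E 0)| ≤ _
      rw [hE0, dt_smul, abs_mul, abs_of_pos (by positivity)]
      calc 2 * s * |dt (e i) (φ 0)| ≤ 2 * 1 * (K * Wd a w i) := by gcongr
        _ ≤ 32 * K * Wd a w i := by nlinarith
    · change |dt (e i) (E 1)| ≤ _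
      rw [hE1, dt_smul, dt_add, dt_smul, dt_smul, abs_mul, abs_of_pos (by positivity)]
      have : |α * dt (e i) (φ 1) + β * dt (e i) (φ 2)| ≤ 2 * (K * Wd a w i) := by
        refine (abs_add_le _ _).trans ?_
        rw [abs_mul, abs_mul]
        calc |α| * |dt (e i) (φ 1)| + |β| * |dt (e i) (φ 2)| ≤
            1 * (K * Wd a w i) + 1 * (K * Wd a w i) := by gcongr
          _ = _ := by ring
      calc 16 * u 0 * |α * dt (e i) (φ 1) + β * dt (e i) (φ 2)| ≤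
          16 * 1 * (2 * (K * Wd a w i)) := by
            have := (hu 0).2
            gcongr
        _ = _ := by ring
    · change |dt (e i) (E 2)| ≤ _
      rw [hE2, dt_smul, dt_add, dt_smul, dt_smul, abs_mul, abs_of_pos (by positivity)]
      have : |-β * dt (e i) (φ 1) + α * dt (e i) (φ 2)| ≤ 2 * (K * Wd a w i) := by
        refine (abs_add_le _ _).trans ?_
        rw [abs_mul, abs_mul, abs_neg]
        calc |β| * |dt (e i) (φ 1)| + |α| * |dt (e i) (φ 2)| ≤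
            1 * (K * Wd a w i) + 1 * (K * Wd a w i) := by gcongr
          _ = _ := by ring
      calc 16 * u 1 * |-β * dt (e i) (φ 1) + α * dt (e i) (φ 2)| ≤
          16 * 1 * (2 * (K * Wd a w i)) := by
            have := (hu 1).2
            gcongr
        _ = _ := by ring
  obtain ⟨f, A, B1, B2, hf, hA, hAB, hBB, hbox, hvol, bA, b2, b1⟩ := cover3 he (W := Wd a w) ha haw
    hw E hdet0 (by positivity) hS
  have hB2 : 0 < B2 := hA.trans_le hAB
  have hB1 : 0 < B1 := hB2.trans_le hBB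
  -- expansion
  have hexp : ∀ δ : V3, (dt χ δ / (2 * s)) • E 0 +
      ((α * dt (ψ 0) δ + β * dt (ψ 1) δ) / (16 * u 0)) • E 1 +
      ((-β * dt (ψ 0) δ + α * dt (ψ 1) δ) / (16 * u 1)) • E 2 = δ := by
    intro δ
    conv_rhs => rw [← hd δ]
    rw [hE0, hE1, hE2]
    funext j
    simp only [Pi.add_apply, Pi.smul_apply, smul_eq_mul]
    field_simp
    linear_combination (dt (ψ 0) δ * φ 1 j + dt (ψ 1) δ * φ 2 j) * hαβ
  have hbd : ∀ δ : V3, |dt χ δ| ≤ 2 * s → |α * dt (ψ 0) δ + β * dt (ψ 1) δ| ≤ 16 * u 0 →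
      |-β * dt (ψ 0) δ + α * dt (ψ 1) δ| ≤ 16 * u 1 →
      |dt (f 0) δ| ≤ A ∧ |dt (f 1) δ| ≤ B1 ∧ |dt (f 2) δ| ≤ B2 := by
    intro δ h0 h1 h2
    have h3 := hbox ![dt χ δ / (2 * s), (α * dt (ψ 0) δ + β * dt (ψ 1) δ) / (16 * u 0),
      (-β * dt (ψ 0) δ + α * dt (ψ 1) δ) / (16 * u 1)] (by
        intro i
        fin_cases i
        · change |dt χ δ / (2 * s)| ≤ 1
          rw [abs_div, abs_of_pos (by positivity : 0 < 2 * s), div_le_one (by positivity)]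
          exact h0
        · change |(α * dt (ψ 0) δ + β * dt (ψ 1) δ) / (16 * u 0)| ≤ 1
          rw [abs_div, abs_of_pos (by positivity : 0 < 16 * u 0), div_le_one (by positivity)]
          exact h1
        · change |(-β * dt (ψ 0) δ + α * dt (ψ 1) δ) / (16 * u 1)| ≤ 1
          rw [abs_div, abs_of_pos (by positivity : 0 < 16 * u 1), div_le_one (by positivity)]
          exact h2)
    simp only [Matrix.cons_val_zero, Matrix.cons_val_one, Matrix.cons_val] at h3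
    rw [hexp δ] at h3
    exact h3
  -- resolution
  have hrA : r0 ≤ A := by
    have hf0 : dt (f 0) (f 0) = 1 := by simpa using hf 0 0
    have c0 := cs_unit hf0 (by positivity : 0 ≤ 2 * s) hχ
    have c1 := cs_unit hf0 (by positivity : 0 ≤ 8 * σ) (hψ 0)
    have c2 := cs_unit hf0 (by positivity : 0 ≤ 8 * σ) (hψ 1)
    have h1 := (hbd (r0 • f 0) c0 (by
      refine (abs_add_le _ _).trans ?_
      rw [abs_mul, abs_mul]
      calc |α| * |dt (ψ 0) (r0 • f 0)| + |β| * |dt (ψ 1) (r0 • f 0)| ≤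
          1 * (8 * σ) + 1 * (8 * σ) := by gcongr
        _ ≤ 16 * u 0 := by linarith [(hu 0).1]) (by
      refine (abs_add_le _ _).trans ?_
      rw [abs_mul, abs_mul, abs_neg]
      calc |β| * |dt (ψ 0) (r0 • f 0)| + |α| * |dt (ψ 1) (r0 • f 0)| ≤
          1 * (8 * σ) + 1 * (8 * σ) := by gcongr
        _ ≤ 16 * u 1 := by linarith [(hu 1).1])).1
    rw [dt_smul, hf0, mul_one] at h1
    exact (le_abs_self _).trans h1
  have hShN : ShN f y ![B2, B1, B2] (flatQ (f 0) y) A z0 ρ r0 :=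
    shN_flat hf y z0 ρ rfl hAB hBB hrA hB2
  have h1 := hmax _ _ _ _ _ hShN (by
    refine b1.trans (le_trans (le_of_eq ?_) hwm)
    change 6 * (32 * K) * w 1 = _
    ring)
  have h2 : (T.filter fun t => ∀ z, z0 ≤ z → z ≤ z0 + ρ →
      |dt χ ((L t).pos z - y.pos z)| ≤ 2 * s ∧
      |α * dt (ψ 0) ((L t).pos z - y.pos z) + β * dt (ψ 1) ((L t).pos z - y.pos z)| ≤ 16 * u 0 ∧
      |-β * dt (ψ 0) ((L t).pos z - y.pos z) + α * dt (ψ 1) ((L t).pos z - y.pos z)| ≤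
        16 * u 1) ⊆ T.filter fun t =>
      InSheet (L t) f y ![B2, B1, B2] (flatQ (f 0) y) A z0 ρ := by
    intro t ht
    rw [mem_filter] at ht ⊢
    refine ⟨ht.1, fun z hz hz' => ?_⟩
    obtain ⟨k0, k1, k2⟩ := ht.2 z hz hz'
    obtain ⟨g0, g1, g2⟩ := hbd _ k0 k1 k2
    refine ⟨fun i => ?_, g0⟩
    fin_cases i
    · exact g0.trans hAB
    · exact g1
    · exact g2
  have h3 := (Nat.cast_le (α := ℝ)).2 (card_le_card h2)
  refine (h3.trans h1).trans ?_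
  change D * (A * B2 * B1 * R A B2 B1) ≤ _
  have bA' : A ≤ 256 * K * a := bA.trans (le_of_eq (by change 8 * (32 * K) * a = _; ring))
  have b2' : B2 ≤ 320 * K * w 2 := b2.trans (le_of_eq (by change 10 * (32 * K) * w 2 = _; ring))
  have b1' : B1 ≤ 192 * K * w 1 := b1.trans (le_of_eq (by change 6 * (32 * K) * w 1 = _; ring))
  have h4 : R A B2 B1 ≤ R (256 * K * a) (320 * K * w 2) (192 * K * w 1) :=
    hRm _ _ _ _ _ _ hA.le hB2.le hB1.le bA' b2' b1'
  have hRn : 0 ≤ R A B2 B1 := hR0 _ _ _ hA.le hB2.le hB1.le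
  have hdφ := det_le he hK hWd hφ
  change _ ≤ 6 * K ^ 3 * (a * w 2 * w 1) at hdφ
  have hvol2 : A * B2 * B1 ≤ 18432 * K ^ 3 * (s * (u 0 * u 1)) * (a * w 2 * w 1) := by
    rw [hvol, hdet, abs_mul, abs_of_pos (by positivity : 0 < 512 * (s * (u 0 * u 1)))]
    calc 6 * (512 * (s * (u 0 * u 1)) * |dt (crs (φ 0) (φ 1)) (φ 2)|) ≤
        6 * (512 * (s * (u 0 * u 1)) * (6 * K ^ 3 * (a * w 2 * w 1))) := by gcongr
      _ = _ := by ring
  calc D * (A * B2 * B1 * R A B2 B1) ≤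
      D * (18432 * K ^ 3 * (s * (u 0 * u 1)) * (a * w 2 * w 1) *
        R (256 * K * a) (320 * K * w 2) (192 * K * w 1)) := by gcongr
    _ = _ := by ring

open Classical in
/-- **END-LAB, finite form, counts of incidences** -/
theorem lab_fin (hKM : ∀ V : ℝ, KM32 V) {ε : ℝ} (hε : 0 < ε) :
    ∃ κ : ℝ, ∃ M₀ : ℕ, 0 < κ ∧ ∀ (F : Finset (ℕ × ℝ)) (L : ℕ → Ln4) (χ : V3) (ψ : Fin 2 → V3)
      (φ : Fin 3 → V3) (e : Fin 3 → V3) (w : V3) (a : ℝ) (c : Ln4) (i M : ℕ) (J0 : ℤ)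
      (K nn m s D r0 wmax : ℝ) (R : ℝ → ℝ → ℝ → ℝ), F.Nonempty → M₀ ≤ M →
      1 ≤ K → K ≤ (2 : ℝ) ^ (κ * M) → 0 < nn → 0 ≤ D → 0 < s → s ≤ 1 →
      (∀ x ∈ F, zc i x.2 = J0) →
      -- the slab and the base
      (∀ x ∈ F, ∀ z, zl i J0 ≤ z → z ≤ zl i J0 + rho i →
        |dt χ ((L x.1).pos z - c.pos z)| ≤ s ∧ ∀ j, |dt (ψ j) ((L x.1).pos z - c.pos z)| ≤ 1) →
      -- frame
      Dual χ ψ φ → Ortho e → 0 < a → a ≤ w 2 → w 2 ≤ w 1 →
      (∀ i k, |dt (e i) (φ k)| ≤ K * Wd a w i) →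
      r0 ^ 2 * dt χ χ ≤ (2 * s) ^ 2 → (∀ j, r0 ^ 2 * dt (ψ j) (ψ j) ≤ (8 / 2 ^ M) ^ 2) →
      192 * K * w 1 ≤ wmax →
      (∀ x y z, 0 ≤ x → 0 ≤ y → 0 ≤ z → 0 ≤ R x y z) →
      (∀ x y z x' y' z', 0 ≤ x → 0 ≤ y → 0 ≤ z → x ≤ x' → y ≤ y' → z ≤ z' →
        R x y z ≤ R x' y' z') →
      -- own counts
      (∀ x ∈ F, nn ≤ K * ((F.filter fun y => y.1 = x.1).card : ℝ)) →
      (∀ x ∈ F, ((F.filter fun y => y.1 = x.1 ∧ zc (i + M + 1) y.2 = zc (i + M + 1) x.2).card : ℝ)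
        ≤ K * (nn / 2 ^ (M + 1))) →
      -- rich
      (∀ x ∈ F, m ≤ K * ((F.filter fun y => zc (i + M + 1) y.2 = zc (i + M + 1) x.2 ∧
        ∀ j, |dt (ψ j) ((L y.1).pos x.2 - (L x.1).pos x.2)| ≤ 1 / 2 / 2 ^ M).card : ℝ)) →
      -- D-max
      (∀ (e' : Fin 3 → V3) (c' : Ln4) (w' : V3) (q' : ℝ → V3 → ℝ) (a' : ℝ),
        ShN e' c' w' q' a' (zl i J0) (rho i) r0 → w' 1 ≤ wmax →
        ((F.filter fun x => InSheet (L x.1) e' c' w' q' a' (zl i J0) (rho i)).card : ℝ) ≤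
          D * (a' * w' 2 * w' 1 * R a' (w' 2) (w' 1))) →
      m * 2 ^ (3 * M) ≤ (2 : ℝ) ^ (ε * M) * (D * (s * (a * w 2 * w 1 *
        R (256 * K * a) (320 * K * w 2) (192 * K * w 1)))) := by
  obtain ⟨κ, M₀, hκ, key⟩ := lab_gam hKM (half_pos hε)
  set κ' := min (κ / 2) (ε / 24) with hκ'
  have hκ'0 : 0 < κ' := by rw [hκ']; exact lt_min (by positivity) (by positivity)
  obtain ⟨M₁, hM₁⟩ := exists_nat_ge (56 / ε)
  refine ⟨κ', max M₀ M₁, hκ'0, ?_⟩
  intro F L χ ψ φ e w a c i M J0 K nn m s D r0 wmax R hF hM' hK1 hK hnn hD hs hs1 hJ hbd hdual he ha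
    haw hw hφ hχ hψ hwm hR0 hRm hown hup hrich hmax
  have hM : M₀ ≤ M := (le_max_left _ _).trans hM'
  have hM1 : 56 ≤ ε * M := by
    have : (M₁ : ℝ) ≤ M := by exact_mod_cast (le_max_right _ _).trans hM'
    have h2 := hM₁.trans this
    rw [div_le_iff₀ hε] at h2
    linarith
  have hK0 : 0 < K := by linarith
  have hM0 : (0 : ℝ) ≤ M := Nat.cast_nonneg _
  have hK2 : K ^ 2 ≤ (2 : ℝ) ^ (κ * M) := by
    calc K ^ 2 ≤ ((2 : ℝ) ^ (κ' * M)) ^ 2 := by gcongr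
      _ = (2 : ℝ) ^ (2 * κ' * M) := by
        rw [← Real.rpow_natCast, ← Real.rpow_mul (by norm_num)]
        congr 1; push_cast; ring
      _ ≤ (2 : ℝ) ^ (κ * M) := by
        refine Real.rpow_le_rpow_of_exponent_le (by norm_num) ?_
        have : κ' ≤ κ / 2 := min_le_left _ _
        nlinarith
  have hK6 : K ^ 6 ≤ (2 : ℝ) ^ (ε / 4 * M) := by
    calc K ^ 6 ≤ ((2 : ℝ) ^ (κ' * M)) ^ 6 := by gcongr
      _ = (2 : ℝ) ^ (6 * κ' * M) := by
        rw [← Real.rpow_natCast, ← Real.rpow_mul (by norm_num)]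
        congr 1; push_cast; ring
      _ ≤ (2 : ℝ) ^ (ε / 4 * M) := by
        refine Real.rpow_le_rpow_of_exponent_le (by norm_num) ?_
        have : κ' ≤ ε / 24 := min_le_right _ _
        nlinarith
  have h14 : (9216 : ℝ) ≤ (2 : ℝ) ^ (ε / 4 * M) := by
    calc (9216 : ℝ) ≤ (2 : ℝ) ^ ((14 : ℕ) : ℝ) := by rw [Real.rpow_natCast]; norm_num
      _ ≤ _ := Real.rpow_le_rpow_of_exponent_le (by norm_num) (by push_cast; linarith)
  -- own count of cells
  have hcellown : ∀ x ∈ F, (2 : ℝ) ^ ((M : ℝ) - κ * M) ≤ ((own F i (i + M + 1) x).card : ℝ) := by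
    intro x hx
    have hfil : (F.filter fun y => y.1 = x.1 ∧ zc i y.2 = zc i x.2) =
        F.filter fun y => y.1 = x.1 := by
      refine filter_congr fun y hy => ?_
      rw [hJ y hy, hJ x hx]; simp
    have h1 := End882.own_card F i (i + M + 1) x hK0 (s := nn) (t := nn / 2 ^ (M + 1))
      (by positivity) (by rw [hfil]; exact hown x hx) hup
    have h2 : (2 : ℝ) ^ (M + 1) ≤ K ^ 2 * ((own F i (i + M + 1) x).card : ℝ) := by
      have h3 : 0 < nn / 2 ^ (M + 1) := by positivity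
      refine le_of_mul_le_mul_left ?_ h3
      calc nn / 2 ^ (M + 1) * 2 ^ (M + 1) = nn := by field_simp
        _ ≤ K ^ 2 * (nn / 2 ^ (M + 1)) * ((own F i (i + M + 1) x).card : ℝ) := h1
        _ = _ := by ring
    have h3 : (2 : ℝ) ^ (M : ℝ) ≤ (2 : ℝ) ^ (κ * M) * ((own F i (i + M + 1) x).card : ℝ) := by
      calc (2 : ℝ) ^ (M : ℝ) = 2 ^ M := Real.rpow_natCast _ _
        _ ≤ 2 ^ (M + 1) := pow_le_pow_right₀ (by norm_num) (by omega)
        _ ≤ K ^ 2 * ((own F i (i + M + 1) x).card : ℝ) := h2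
        _ ≤ _ := by gcongr
    rw [Real.rpow_sub (by norm_num), div_le_iff₀ (by positivity), mul_comm]
    exact h3
  -- D-max for lines
  set T := F.image Prod.fst with hT
  have hmaxT : DMaxN T L (zl i J0) (rho i) (K * D / nn) R r0 wmax := by
    intro e' c' w' q' a' hS hw'
    have h1 := hmax e' c' w' q' a' hS hw'
    set G := F.filter fun x => InSheet (L x.1) e' c' w' q' a' (zl i J0) (rho i) with hG
    set TG := T.filter fun t => InSheet (L t) e' c' w' q' a' (zl i J0) (rho i) with hTG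
    have h2 : nn * (TG.card : ℝ) ≤ K * (G.card : ℝ) := by
      have h3 : G.card = ∑ t ∈ TG, (G.filter fun x => x.1 = t).card :=
        card_eq_sum_card_fiberwise (f := Prod.fst) (t := TG) fun x hx => by
          have hx' : x ∈ G := hx
          rw [hG, mem_filter] at hx'
          change x.1 ∈ TG
          rw [hTG, mem_filter]
          exact ⟨mem_image_of_mem _ hx'.1, hx'.2⟩
      have h4 : ∀ t ∈ TG, nn ≤ K * ((G.filter fun x => x.1 = t).card : ℝ) := by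
        intro t ht
        rw [hTG, mem_filter, hT, mem_image] at ht
        obtain ⟨⟨x, hx, hxt⟩, ht2⟩ := ht
        have h5 := hown x hx
        have h6 : (F.filter fun y => y.1 = x.1) ⊆ G.filter fun y => y.1 = t := by
          intro y hy
          rw [mem_filter] at hy
          rw [mem_filter, hG, mem_filter]
          refine ⟨⟨hy.1, ?_⟩, hy.2.trans hxt⟩
          rw [hy.2, hxt]; exact ht2
        refine h5.trans ?_
        have := (Nat.cast_le (α := ℝ)).2 (card_le_card h6)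
        gcongr
      calc nn * (TG.card : ℝ) = ∑ t ∈ TG, nn := by rw [sum_const, nsmul_eq_mul, mul_comm]
        _ ≤ ∑ t ∈ TG, K * ((G.filter fun x => x.1 = t).card : ℝ) := sum_le_sum h4
        _ = K * (G.card : ℝ) := by rw [← mul_sum, h3]; push_cast; rfl
    have h7 : (TG.card : ℝ) ≤ K * D / nn * (a' * w' 2 * w' 1 * R a' (w' 2) (w' 1)) := by
      rw [div_mul_eq_mul_div, le_div_iff₀ hnn]
      calc (TG.card : ℝ) * nn = nn * (TG.card : ℝ) := mul_comm _ _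
        _ ≤ K * (G.card : ℝ) := h2
        _ ≤ K * (D * (a' * w' 2 * w' 1 * R a' (w' 2) (w' 1))) := by gcongr
        _ = _ := by ring
    exact h7
  -- the multiplicity
  set m' : ℝ := m * 2 ^ (M + 1) / (K ^ 2 * nn) with hm'
  set Vol := a * w 2 * w 1 * R (256 * K * a) (320 * K * w 2) (192 * K * w 1) with hVol
  have hw2 : 0 < w 2 := ha.trans_le haw
  have hw1 : 0 < w 1 := hw2.trans_le hw
  have hVol0 : 0 ≤ Vol := by
    have := hR0 (256 * K * a) (320 * K * w 2) (192 * K * w 1) (by positivity) (by positivity)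
      (by positivity)
    positivity
  have hmain := key F L ψ c i M J0 m' (18432 * K ^ 3 * (K * D / nn) * s * Vol) hF hM hJ
    (fun x hx z hz hz' => (hbd x hx z hz hz').2) hcellown ?_ ?_
  · -- conclusion
    rw [hm', div_mul_eq_mul_div, div_le_iff₀ (by positivity)] at hmain
    have e1 : (2:ℝ) ^ (M + 1) * 2 ^ (2 * M) = 2 * 2 ^ (3 * M) := by
      rw [← pow_add, ← pow_succ']; congr 1; omega
    have h5 : m * 2 ^ (3 * M) * 2 ≤
        ((2:ℝ) ^ (ε / 2 * M) * (18432 * K ^ 3 * (K * D / nn) * s * Vol)) * (K ^ 2 * nn) := by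
      refine le_trans (le_of_eq ?_) hmain
      calc m * 2 ^ (3 * M) * 2 = m * (2 * 2 ^ (3 * M)) := by ring
        _ = m * (2 ^ (M + 1) * 2 ^ (2 * M)) := by rw [e1]
        _ = _ := by ring
    have e2 : ((2:ℝ) ^ (ε / 2 * M) * (18432 * K ^ 3 * (K * D / nn) * s * Vol)) * (K ^ 2 * nn) =
        ((2:ℝ) ^ (ε / 2 * M) * (9216 * K ^ 6 * (D * (s * Vol)))) * 2 := by
      field_simp; ring
    rw [e2] at h5
    have h6 := le_of_mul_le_mul_right h5 (by norm_num : (0:ℝ) < 2)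
    refine h6.trans ?_
    have h7 : 0 ≤ D * (s * Vol) := by positivity
    calc (2:ℝ) ^ (ε / 2 * M) * (9216 * K ^ 6 * (D * (s * Vol))) ≤
        (2:ℝ) ^ (ε / 2 * M) * ((2:ℝ) ^ (ε / 4 * M) * (2:ℝ) ^ (ε / 4 * M) * (D * (s * Vol))) := by
          gcongr
      _ = ((2:ℝ) ^ (ε / 2 * M) * (2:ℝ) ^ (ε / 4 * M) * (2:ℝ) ^ (ε / 4 * M)) * (D * (s * Vol)) := by
          ring
      _ = (2:ℝ) ^ (ε * M) * (D * (s * Vol)) := by
          rw [← Real.rpow_add (by norm_num), ← Real.rpow_add (by norm_num)]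
          congr 2; ring
  · -- rich
    intro x hx
    refine ⟨x.2, rfl, ?_⟩
    have h1 := hrich x hx
    set G := F.filter fun y => zc (i + M + 1) y.2 = zc (i + M + 1) x.2 ∧
        ∀ j, |dt (ψ j) ((L y.1).pos x.2 - (L x.1).pos x.2)| ≤ 1 / 2 / 2 ^ M with hG
    set A := (alive F (i + M + 1) (zc (i + M + 1) x.2)).filter fun t =>
          ∀ j, |dt (ψ j) ((L t).pos x.2 - (L x.1).pos x.2)| ≤ 1 / 2 / 2 ^ M with hA
    have h2 : (G.card : ℝ) ≤ A.card * (K * (nn / 2 ^ (M + 1))) := by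
      have h3 : G.card = ∑ t ∈ A, (G.filter fun y => y.1 = t).card :=
        card_eq_sum_card_fiberwise (f := Prod.fst) (t := A) fun y hy => by
          have hy' : y ∈ G := hy
          rw [hG, mem_filter] at hy'
          change y.1 ∈ A
          rw [hA, mem_filter]
          refine ⟨?_, hy'.2.2⟩
          unfold alive
          exact mem_image.2 ⟨y, mem_filter.2 ⟨hy'.1, hy'.2.1⟩, rfl⟩
      have h4 : ∀ t ∈ A, ((G.filter fun y => y.1 = t).card : ℝ) ≤ K * (nn / 2 ^ (M + 1)) := by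
        intro t ht
        rw [hA, mem_filter] at ht
        have ht1 := ht.1
        unfold alive at ht1
        obtain ⟨y, hy, hyt⟩ := mem_image.1 ht1
        rw [mem_filter] at hy
        refine le_trans (Nat.cast_le.2 (card_le_card fun y' hy' => ?_)) (hup y hy.1)
        rw [mem_filter, hG, mem_filter] at hy'
        rw [mem_filter]
        exact ⟨hy'.1.1, hy'.2.trans hyt.symm, hy'.1.2.1.trans hy.2.symm⟩
      rw [h3]; push_cast
      calc ∑ t ∈ A, ((G.filter fun y => y.1 = t).card : ℝ) ≤ ∑ t ∈ A, K * (nn / 2 ^ (M + 1)) :=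
            sum_le_sum h4
        _ = _ := by rw [sum_const, nsmul_eq_mul]
    rw [hm', div_le_iff₀ (by positivity)]
    have h5 : m * 2 ^ (M + 1) ≤ (K * (A.card * (K * (nn / 2 ^ (M + 1))))) * 2 ^ (M + 1) := by
      have : m ≤ K * (A.card * (K * (nn / 2 ^ (M + 1)))) := h1.trans (by gcongr)
      gcongr
    refine h5.trans (le_of_eq ?_)
    field_simp
  · -- planks
    intro x hx α β hαβ u hu
    have h1 := lab_box T L he ha haw hw (by positivity) hR0 hRm hmaxT hdual hK0 hφ hs hs1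
      (σ := 1 / 2 ^ M) (by positivity) hχ (fun j => by
        refine (hψ j).trans (le_of_eq ?_); ring) hwm hαβ hu (L x.1)
    refine le_trans (Nat.cast_le.2 (card_le_card fun t ht => ?_)) (h1.trans (le_of_eq ?_))
    · rw [mem_filter] at ht ⊢
      refine ⟨ht.1, fun z hz hz' => ⟨?_, ht.2 z hz hz'⟩⟩
      obtain ⟨x', hx', hxt⟩ := mem_image.1 ht.1
      have g1 := (hbd x hx z hz hz').1
      have g2 := (hbd x' hx' z hz hz').1
      rw [hxt] at g2
      rw [dt_tri χ (L t) (L x.1) c]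
      refine (abs_sub _ _).trans ?_
      linarith
    · ring

end Crest.Agent.R136.Lab544
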