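import Crest.Agent.R136.Lab2_544
import Crest.Agent.R136.HR10_829
import Crest.Agent.R136.Lq4_196
import Crest.Agent.R136.Wq1_638
import Crest.Agent.R136.PqG_464
import Crest.Agent.R136.End4b_403
import Crest.Agent.R136.Qg1_926

-- ▼ part R136/LabB_926
section

/-!
# R136: END-LAB, D-max for a slab cut with a rotated plank, two-sided ranges (helper926)

`lab_boxW` : 544's `lab_box` with test sheets in a range `m` of all three widths (J1 v3c).
-/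

set_option autoImplicit false
set_option linter.unusedVariables false
set_option linter.unusedSectionVars false

namespace Crest.Agent.R136.Lab926

open Finset
open Crest.Agent.R138.Mk163 (zc zl rho alive own)
open Crest.Agent.R136.Sh605
open Crest.Agent.R136.HR829
open Crest.Agent.R136.Lab544 (Dual det_le cs_unit)

open Classical in
/-- D-max for the sheets `ShN` of resolution `r`, with `a ≤ m0`, `ω1 ≤ w 1 ≤ m1`,
`ω2 ≤ w 2 ≤ m2` -/
def DMX {ι : Type} (A : Finset ι) (L : ι → Ln4) (z0 ρ D : ℝ) (R : ℝ → ℝ → ℝ → ℝ)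
    (r m0 m1 m2 ω1 ω2 : ℝ) : Prop :=
  ∀ (e : Fin 3 → V3) (c : Ln4) (w : V3) (q : ℝ → V3 → ℝ) (a : ℝ), ShN e c w q a z0 ρ r →
    a ≤ m0 → w 1 ≤ m1 → w 2 ≤ m2 → ω1 ≤ w 1 → ω2 ≤ w 2 →
      ((A.filter fun t => InSheet (L t) e c w q a z0 ρ).card : ℝ) ≤
        D * (a * w 2 * w 1 * R a (w 2) (w 1))

open Classical in
/-- **D-max for a slab cut with a rotated plank**, test sheets in a two-sided range -/
theorem lab_boxW {ι : Type} (T : Finset ι) (L : ι → Ln4) {z0 ρ r0 D m0 m1 m2 ω1 ω2 ρ1 ρ2 : ℝ}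
    {R : ℝ → ℝ → ℝ → ℝ} {e : Fin 3 → V3} (he : Ortho e) {w : V3} {a : ℝ} (ha : 0 < a)
    (haw : a ≤ w 2) (hw : w 2 ≤ w 1) (hD : 0 ≤ D)
    (hR0 : ∀ x y z, 0 ≤ x → 0 ≤ y → 0 ≤ z → 0 ≤ R x y z)
    (hRm : ∀ x y z x' y' z', 0 ≤ x → 0 ≤ y → 0 ≤ z → x ≤ x' → y ≤ y' → z ≤ z' →
      R x y z ≤ R x' y' z')
    (hmax : DMX T L z0 ρ D R r0 m0 m1 m2 ω1 ω2) {χ : V3} {ψ : Fin 2 → V3} {φ : Fin 3 → V3}
    (hd : Dual χ ψ φ) {K : ℝ} (hK : 0 < K) (hφ : ∀ i k, |dt (e i) (φ k)| ≤ K * Wd a w i)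
    {s σ : ℝ} (hs : 0 < s) (hs1 : s ≤ 1) (hσ : 0 < σ) (hχ : r0 ^ 2 * dt χ χ ≤ (2 * s) ^ 2)
    (hψ : ∀ j, r0 ^ 2 * dt (ψ j) (ψ j) ≤ (8 * σ) ^ 2) (hm0 : 256 * K * a ≤ m0)
    (hwm : 192 * K * w 1 ≤ m1) (hm2 : 320 * K * w 2 ≤ m2) (hρ1 : 0 ≤ ρ1) (hρ2 : 0 ≤ ρ2)
    (lo1 : |dt χ (e 1)| * ρ1 ≤ 2 * s) (lo1' : ∀ j, |dt (ψ j) (e 1)| * ρ1 ≤ 8 * σ)
    (lo2 : (|dt χ (e 1)| + |dt χ (e 2)|) * ρ2 ≤ 2 * s)
    (lo2' : ∀ j, (|dt (ψ j) (e 1)| + |dt (ψ j) (e 2)|) * ρ2 ≤ 8 * σ)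
    (hω1 : ω1 ≤ ρ1 / 2) (hω2 : ω2 ≤ ρ2 / 2)
    {α β : ℝ} (hαβ : α ^ 2 + β ^ 2 = 1) {u : Fin 2 → ℝ} (hu : ∀ j, σ ≤ u j ∧ u j ≤ 1) (y : Ln4) :
    ((T.filter fun t => ∀ z, z0 ≤ z → z ≤ z0 + ρ →
      |dt χ ((L t).pos z - y.pos z)| ≤ 2 * s ∧
      |α * dt (ψ 0) ((L t).pos z - y.pos z) + β * dt (ψ 1) ((L t).pos z - y.pos z)| ≤ 16 * u 0 ∧
      |-β * dt (ψ 0) ((L t).pos z - y.pos z) + α * dt (ψ 1) ((L t).pos z - y.pos z)| ≤
        16 * u 1).card : ℝ) ≤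
      18432 * K ^ 3 * D * (s * (u 0 * u 1)) *
        (a * w 2 * w 1 * R (256 * K * a) (320 * K * w 2) (192 * K * w 1)) := by
  have hw2 : 0 < w 2 := ha.trans_le haw
  have hw1 : 0 < w 1 := hw2.trans_le hw
  have hu0 : 0 < u 0 := hσ.trans_le (hu 0).1
  have hu1 : 0 < u 1 := hσ.trans_le (hu 1).1
  have hα1 : |α| ≤ 1 := by
    refine abs_le_of_sq_le_sq ?_ zero_le_one
    nlinarith [sq_nonneg β]
  have hβ1 : |β| ≤ 1 := by
    refine abs_le_of_sq_le_sq ?_ zero_le_one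
    nlinarith [sq_nonneg α]
  have hWd : ∀ i, 0 < Wd a w i := by
    intro i
    fin_cases i
    · exact ha
    · exact hw1
    · exact hw2
  set E : Fin 3 → V3 := ![(2 * s) • φ 0, (16 * u 0) • (α • φ 1 + β • φ 2),
    (16 * u 1) • (-β • φ 1 + α • φ 2)] with hE
  have hE0 : E 0 = (2 * s) • φ 0 := rfl
  have hE1 : E 1 = (16 * u 0) • (α • φ 1 + β • φ 2) := rfl
  have hE2 : E 2 = (16 * u 1) • (-β • φ 1 + α • φ 2) := rfl
  have hdet : dt (crs (E 0) (E 1)) (E 2) = 512 * (s * (u 0 * u 1)) * dt (crs (φ 0) (φ 1)) (φ 2) := by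
    have : dt (crs (E 0) (E 1)) (E 2) = 512 * (s * (u 0 * u 1)) * (α ^ 2 + β ^ 2) *
        dt (crs (φ 0) (φ 1)) (φ 2) := by
      rw [hE0, hE1, hE2]
      simp only [dt, crs, Pi.add_apply, Pi.smul_apply, smul_eq_mul, Matrix.cons_val_zero,
        Matrix.cons_val_one, Matrix.cons_val]
      ring
    rw [this, hαβ, mul_one]
  have hφ0 := hd.det_ne
  have hdet0 : dt (crs (E 0) (E 1)) (E 2) ≠ 0 := by
    rw [hdet]
    exact mul_ne_zero (by positivity) hφ0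
  have hS : ∀ i j, |dt (e i) (E j)| ≤ 32 * K * Wd a w i := by
    intro i j
    have h0 := hφ i 0
    have h1 := hφ i 1
    have h2 := hφ i 2
    have hWi := hWd i
    have hKW : 0 < K * Wd a w i := by positivity
    fin_cases j
    · change |dt (e i) (E 0)| ≤ _
      rw [hE0, dt_smul, abs_mul, abs_of_pos (by positivity)]
      calc 2 * s * |dt (e i) (φ 0)| ≤ 2 * 1 * (K * Wd a w i) := by gcongr
        _ ≤ 32 * K * Wd a w i := by nlinarith
    · change |dt (e i) (E 1)| ≤ _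
      rw [hE1, dt_smul, dt_add, dt_smul, dt_smul, abs_mul, abs_of_pos (by positivity)]
      have : |α * dt (e i) (φ 1) + β * dt (e i) (φ 2)| ≤ 2 * (K * Wd a w i) := by
        refine (abs_add_le _ _).trans ?_
        rw [abs_mul, abs_mul]
        calc |α| * |dt (e i) (φ 1)| + |β| * |dt (e i) (φ 2)| ≤
            1 * (K * Wd a w i) + 1 * (K * Wd a w i) := by gcongr
          _ = _ := by ring
      calc 16 * u 0 * |α * dt (e i) (φ 1) + β * dt (e i) (φ 2)| ≤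
          16 * 1 * (2 * (K * Wd a w i)) := by
            have := (hu 0).2
            gcongr
        _ = _ := by ring
    · change |dt (e i) (E 2)| ≤ _
      rw [hE2, dt_smul, dt_add, dt_smul, dt_smul, abs_mul, abs_of_pos (by positivity)]
      have : |-β * dt (e i) (φ 1) + α * dt (e i) (φ 2)| ≤ 2 * (K * Wd a w i) := by
        refine (abs_add_le _ _).trans ?_
        rw [abs_mul, abs_mul, abs_neg]
        calc |β| * |dt (e i) (φ 1)| + |α| * |dt (e i) (φ 2)| ≤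
            1 * (K * Wd a w i) + 1 * (K * Wd a w i) := by gcongr
          _ = _ := by ring
      calc 16 * u 1 * |-β * dt (e i) (φ 1) + α * dt (e i) (φ 2)| ≤
          16 * 1 * (2 * (K * Wd a w i)) := by
            have := (hu 1).2
            gcongr
        _ = _ := by ring
  obtain ⟨f, A, B1, B2, hf, hA, hAB, hBB, hbox, hvol, bA, b2, b1⟩ := cover3 he (W := Wd a w) ha haw
    hw E hdet0 (by positivity) hS
  have hB2 : 0 < B2 := hA.trans_le hAB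
  have hB1 : 0 < B1 := hB2.trans_le hBB
  -- expansion
  have hexp : ∀ δ : V3, (dt χ δ / (2 * s)) • E 0 +
      ((α * dt (ψ 0) δ + β * dt (ψ 1) δ) / (16 * u 0)) • E 1 +
      ((-β * dt (ψ 0) δ + α * dt (ψ 1) δ) / (16 * u 1)) • E 2 = δ := by
    intro δ
    conv_rhs => rw [← hd δ]
    rw [hE0, hE1, hE2]
    funext j
    simp only [Pi.add_apply, Pi.smul_apply, smul_eq_mul]
    field_simp
    linear_combination (dt (ψ 0) δ * φ 1 j + dt (ψ 1) δ * φ 2 j) * hαβ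
  have hbd : ∀ δ : V3, |dt χ δ| ≤ 2 * s → |α * dt (ψ 0) δ + β * dt (ψ 1) δ| ≤ 16 * u 0 →
      |-β * dt (ψ 0) δ + α * dt (ψ 1) δ| ≤ 16 * u 1 →
      |dt (f 0) δ| ≤ A ∧ |dt (f 1) δ| ≤ B1 ∧ |dt (f 2) δ| ≤ B2 := by
    intro δ h0 h1 h2
    have h3 := hbox ![dt χ δ / (2 * s), (α * dt (ψ 0) δ + β * dt (ψ 1) δ) / (16 * u 0),
      (-β * dt (ψ 0) δ + α * dt (ψ 1) δ) / (16 * u 1)] (by
        intro i
        fin_cases i
        · change |dt χ δ / (2 * s)| ≤ 1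
          rw [abs_div, abs_of_pos (by positivity : 0 < 2 * s), div_le_one (by positivity)]
          exact h0
        · change |(α * dt (ψ 0) δ + β * dt (ψ 1) δ) / (16 * u 0)| ≤ 1
          rw [abs_div, abs_of_pos (by positivity : 0 < 16 * u 0), div_le_one (by positivity)]
          exact h1
        · change |(-β * dt (ψ 0) δ + α * dt (ψ 1) δ) / (16 * u 1)| ≤ 1
          rw [abs_div, abs_of_pos (by positivity : 0 < 16 * u 1), div_le_one (by positivity)]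
          exact h2)
    simp only [Matrix.cons_val_zero, Matrix.cons_val_one, Matrix.cons_val] at h3
    rw [hexp δ] at h3
    exact h3
  -- resolution
  have hrA : r0 ≤ A := by
    have hf0 : dt (f 0) (f 0) = 1 := by simpa using hf 0 0
    have c0 := cs_unit hf0 (by positivity : 0 ≤ 2 * s) hχ
    have c1 := cs_unit hf0 (by positivity : 0 ≤ 8 * σ) (hψ 0)
    have c2 := cs_unit hf0 (by positivity : 0 ≤ 8 * σ) (hψ 1)
    have h1 := (hbd (r0 • f 0) c0 (by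
      refine (abs_add_le _ _).trans ?_
      rw [abs_mul, abs_mul]
      calc |α| * |dt (ψ 0) (r0 • f 0)| + |β| * |dt (ψ 1) (r0 • f 0)| ≤
          1 * (8 * σ) + 1 * (8 * σ) := by gcongr
        _ ≤ 16 * u 0 := by linarith [(hu 0).1]) (by
      refine (abs_add_le _ _).trans ?_
      rw [abs_mul, abs_mul, abs_neg]
      calc |β| * |dt (ψ 0) (r0 • f 0)| + |α| * |dt (ψ 1) (r0 • f 0)| ≤
          1 * (8 * σ) + 1 * (8 * σ) := by gcongr
        _ ≤ 16 * u 1 := by linarith [(hu 1).1])).1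
    rw [dt_smul, hf0, mul_one] at h1
    exact (le_abs_self _).trans h1
  have hShN : ShN f y ![B2, B1, B2] (flatQ (f 0) y) A z0 ρ r0 :=
    shN_flat hf y z0 ρ rfl hAB hBB hrA hB2
  -- lower bounds of the widths
  have he11 : dt (e 1) (e 1) = 1 := by simpa using he 1 1
  have he22 : dt (e 2) (e 2) = 1 := by simpa using he 2 2
  have he12 : dt (e 1) (e 2) = 0 := by simpa using he 1 2
  have he21 : dt (e 2) (e 1) = 0 := by simpa using he 2 1
  have hlin : ∀ δ : V3, |dt χ δ| ≤ 2 * s → (∀ j, |dt (ψ j) δ| ≤ 8 * σ) →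
      |dt (f 0) δ| ≤ A ∧ |dt (f 1) δ| ≤ B1 ∧ |dt (f 2) δ| ≤ B2 := by
    intro δ c0 c1
    refine hbd δ c0 ?_ ?_
    · refine (abs_add_le _ _).trans ?_
      rw [abs_mul, abs_mul]
      calc |α| * |dt (ψ 0) δ| + |β| * |dt (ψ 1) δ| ≤ 1 * (8 * σ) + 1 * (8 * σ) := by
            have := c1 0
            have := c1 1
            gcongr
        _ ≤ 16 * u 0 := by linarith [(hu 0).1]
    · refine (abs_add_le _ _).trans ?_
      rw [abs_mul, abs_mul, abs_neg]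
      calc |β| * |dt (ψ 0) δ| + |α| * |dt (ψ 1) δ| ≤ 1 * (8 * σ) + 1 * (8 * σ) := by
            have := c1 0
            have := c1 1
            gcongr
        _ ≤ 16 * u 1 := by linarith [(hu 1).1]
  have hB1w : ρ1 / 2 ≤ B1 := by
    refine half_le hB1.le ?_
    obtain ⟨g0, g1, g2⟩ := hlin (ρ1 • e 1) (by
      rw [dt_smul, abs_mul, abs_of_nonneg hρ1, mul_comm]; exact lo1) (fun j => by
      rw [dt_smul, abs_mul, abs_of_nonneg hρ1, mul_comm]; exact lo1' j)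
    have hp := parseval hf (ρ1 • e 1)
    rw [dt_smul, smul_dt, he11] at hp
    have q0 := sq_le_sq' (by linarith [abs_nonneg (dt (f 0) (ρ1 • e 1))]) (g0.trans (hAB.trans hBB))
    have q1 := sq_le_sq' (by linarith [abs_nonneg (dt (f 1) (ρ1 • e 1))]) g1
    have q2 := sq_le_sq' (by linarith [abs_nonneg (dt (f 2) (ρ1 • e 1))]) (g2.trans hBB)
    rw [sq_abs] at q0 q1 q2
    nlinarith
  have hB2w : ρ2 / 2 ≤ B2 := by
    refine half_le hB2.le ?_
    obtain ⟨r, p, hrp, hperp⟩ := exists_perp he (f 1)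
    set v : V3 := r • e 1 + p • e 2 with hv
    have hr1 : |r| ≤ 1 := by
      refine abs_le_of_sq_le_sq ?_ zero_le_one
      nlinarith [sq_nonneg p]
    have hp1 : |p| ≤ 1 := by
      refine abs_le_of_sq_le_sq ?_ zero_le_one
      nlinarith [sq_nonneg r]
    have hvv : dt v v = 1 := by
      rw [hv]
      simp only [dt_add, add_dt, dt_smul, smul_dt, he11, he22, he12, he21]
      linarith
    have hfun : ∀ ξ : V3, |dt ξ (ρ2 • v)| ≤ (|dt ξ (e 1)| + |dt ξ (e 2)|) * ρ2 := by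
      intro ξ
      rw [dt_smul, abs_mul, abs_of_nonneg hρ2, hv, dt_add, dt_smul, dt_smul, mul_comm]
      refine mul_le_mul_of_nonneg_right ?_ hρ2
      refine (abs_add_le _ _).trans ?_
      rw [abs_mul, abs_mul]
      have h1 := abs_nonneg (dt ξ (e 1))
      have h2 := abs_nonneg (dt ξ (e 2))
      nlinarith
    obtain ⟨g0, g1, g2⟩ := hlin (ρ2 • v) ((hfun _).trans lo2) (fun j => (hfun _).trans (lo2' j))
    have hp := parseval hf (ρ2 • v)
    rw [dt_smul, smul_dt, hvv] at hp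
    have q0 := sq_le_sq' (by linarith [abs_nonneg (dt (f 0) (ρ2 • v))]) (g0.trans hAB)
    have q2 := sq_le_sq' (by linarith [abs_nonneg (dt (f 2) (ρ2 • v))]) g2
    rw [sq_abs] at q0 q2
    have q1 : dt (f 1) (ρ2 • v) = 0 := by rw [dt_smul, hperp, mul_zero]
    rw [q1] at hp
    nlinarith [sq_nonneg B2]
  have bA' : A ≤ 256 * K * a := bA.trans (le_of_eq (by change 8 * (32 * K) * a = _; ring))
  have b2' : B2 ≤ 320 * K * w 2 := b2.trans (le_of_eq (by change 10 * (32 * K) * w 2 = _; ring))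
  have b1' : B1 ≤ 192 * K * w 1 := b1.trans (le_of_eq (by change 6 * (32 * K) * w 1 = _; ring))
  have h1 := hmax _ _ _ _ _ hShN (bA'.trans hm0) (b1'.trans hwm) (b2'.trans hm2)
    (hω1.trans hB1w) (hω2.trans hB2w)
  have h2 : (T.filter fun t => ∀ z, z0 ≤ z → z ≤ z0 + ρ →
      |dt χ ((L t).pos z - y.pos z)| ≤ 2 * s ∧
      |α * dt (ψ 0) ((L t).pos z - y.pos z) + β * dt (ψ 1) ((L t).pos z - y.pos z)| ≤ 16 * u 0 ∧
      |-β * dt (ψ 0) ((L t).pos z - y.pos z) + α * dt (ψ 1) ((L t).pos z - y.pos z)| ≤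
        16 * u 1) ⊆ T.filter fun t =>
      InSheet (L t) f y ![B2, B1, B2] (flatQ (f 0) y) A z0 ρ := by
    intro t ht
    rw [mem_filter] at ht ⊢
    refine ⟨ht.1, fun z hz hz' => ?_⟩
    obtain ⟨k0, k1, k2⟩ := ht.2 z hz hz'
    obtain ⟨g0, g1, g2⟩ := hbd _ k0 k1 k2
    refine ⟨fun i => ?_, g0⟩
    fin_cases i
    · exact g0.trans hAB
    · exact g1
    · exact g2
  have h3 := (Nat.cast_le (α := ℝ)).2 (card_le_card h2)
  refine (h3.trans h1).trans ?_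
  change D * (A * B2 * B1 * R A B2 B1) ≤ _
  have h4 : R A B2 B1 ≤ R (256 * K * a) (320 * K * w 2) (192 * K * w 1) :=
    hRm _ _ _ _ _ _ hA.le hB2.le hB1.le bA' b2' b1'
  have hRn : 0 ≤ R A B2 B1 := hR0 _ _ _ hA.le hB2.le hB1.le
  have hdφ := det_le he hK hWd hφ
  change _ ≤ 6 * K ^ 3 * (a * w 2 * w 1) at hdφ
  have hvol2 : A * B2 * B1 ≤ 18432 * K ^ 3 * (s * (u 0 * u 1)) * (a * w 2 * w 1) := by
    rw [hvol, hdet, abs_mul, abs_of_pos (by positivity : 0 < 512 * (s * (u 0 * u 1)))]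
    calc 6 * (512 * (s * (u 0 * u 1)) * |dt (crs (φ 0) (φ 1)) (φ 2)|) ≤
        6 * (512 * (s * (u 0 * u 1)) * (6 * K ^ 3 * (a * w 2 * w 1))) := by gcongr
      _ = _ := by ring
  calc D * (A * B2 * B1 * R A B2 B1) ≤
      D * (18432 * K ^ 3 * (s * (u 0 * u 1)) * (a * w 2 * w 1) *
        R (256 * K * a) (320 * K * w 2) (192 * K * w 1)) := by gcongr
    _ = _ := by ring


end Crest.Agent.R136.Lab926
end

-- ▼ part R136/LabD_926

/-!
# R136: END-LAB, D-max of the sample for slab x rotated plank (helper926)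

`cell_count` : number of incidences of the family in a slab cut with a rotated plank, over a cell
of any level, from D-max at a finer level; `body_eps`, `exists_body` : the same for the sample,
uniform in the real level `v ∈ [0, v1]`, one sub-polynomial constant.
-/

set_option autoImplicit false
set_option linter.unusedVariables false
set_option linter.unusedSectionVars false

open Filter Topology

namespace Crest.Agent.R136.Lab926

open Finset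
open Crest.Agent.R138.Ex926 (Base U)
open Crest.Agent.R138.Dp76 (dpow_pos dpow_add dpow_le dpow_le_one)
open Crest.Agent.R138.Mk163 (zc zl rho alive)
open Crest.Agent.R138.MkRef627 (lc kc mem_alive)
open Crest.Agent.R136.Sh605
open Crest.Agent.R136.HR829 (Wd Rq Rq_nonneg Rq_mono Rq_scale)
open Crest.Agent.R136.Lab544 (Dual)
open Crest.Agent.R136.End403 (zc_eq' zc_nest' exists_err)
open Crest.Agent.R136.Net191
open Crest.Agent.R136.MkA627
open Crest.Agent.R136.Wq638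
open Crest.Agent.R136.Lq196

/-! ### one cell -/

theorem rho_pos' (i : ℕ) : 0 < rho i := by unfold rho; positivity

/-- a fine cell lies in its coarse cell -/
theorem cell_sub {lv lq : ℕ} (h : lv ≤ lq) {J J0 : ℤ} (hJ : J / ((2 ^ (lq - lv) : ℕ) : ℤ) = J0)
    {z : ℝ} (h1 : zl lq J ≤ z) (h2 : z ≤ zl lq J + rho lq) :
    zl lv J0 ≤ z ∧ z ≤ zl lv J0 + rho lv := by
  obtain ⟨d, rfl⟩ := Nat.exists_eq_add_of_le h
  rw [Nat.add_sub_cancel_left] at hJ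
  have hd : (0 : ℤ) < ((2 ^ d : ℕ) : ℤ) := by positivity
  have k1 : J0 * ((2 ^ d : ℕ) : ℤ) ≤ J := by
    rw [← hJ]; exact Int.ediv_mul_le _ hd.ne'
  have k2 : J + 1 ≤ (J0 + 1) * ((2 ^ d : ℕ) : ℤ) := by
    rw [← hJ]
    exact Int.lt_ediv_add_one_mul_self _ hd
  have k1' : (J0 : ℝ) * 2 ^ d ≤ J := by exact_mod_cast k1
  have k2' : (J : ℝ) + 1 ≤ (J0 + 1) * 2 ^ d := by exact_mod_cast k2
  have p1 : (0 : ℝ) < 2 ^ lv := by positivity
  have p2 : (0 : ℝ) < 2 ^ d := by positivity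
  simp only [zl, rho] at h1 h2 ⊢
  rw [pow_add] at h1 h2
  rw [← add_div, le_div_iff₀ (by positivity)] at h2
  rw [div_le_iff₀ (by positivity)] at h1
  rw [← add_div, div_le_iff₀ p1, le_div_iff₀ p1]
  constructor
  · have : (J0 : ℝ) * 2 ^ d ≤ (z * 2 ^ lv) * 2 ^ d := by nlinarith
    exact le_of_mul_le_mul_right this p2
  · have : (z * 2 ^ lv) * 2 ^ d ≤ ((J0 : ℝ) + 1) * 2 ^ d := by nlinarith
    exact le_of_mul_le_mul_right this p2

/-- the body: slab cut with a rotated plank around the line `y` -/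
def Bod (χ : V3) (ψ : Fin 2 → V3) (α β s : ℝ) (u : Fin 2 → ℝ) (y t : Ln4) (z : ℝ) : Prop :=
  |dt χ (t.pos z - y.pos z)| ≤ 2 * s ∧
  |α * dt (ψ 0) (t.pos z - y.pos z) + β * dt (ψ 1) (t.pos z - y.pos z)| ≤ 16 * u 0 ∧
  |-β * dt (ψ 0) (t.pos z - y.pos z) + α * dt (ψ 1) (t.pos z - y.pos z)| ≤ 16 * u 1

/-- frame data of a body -/
structure FrOk (χ : V3) (ψ : Fin 2 → V3) (φ e : Fin 3 → V3) (w : V3) (a K r0 s σ ρ1 ρ2 : ℝ) :
    Prop where
  ortho : Ortho e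
  a0 : 0 < a
  aw : a ≤ w 2
  ww : w 2 ≤ w 1
  dual : Dual χ ψ φ
  K1 : 1 ≤ K
  fr : ∀ i k, |dt (e i) (φ k)| ≤ K * Wd a w i
  s0 : 0 < s
  s1 : s ≤ 1
  σ0 : 0 < σ
  rχ : r0 ^ 2 * dt χ χ ≤ (2 * s) ^ 2
  rψ : ∀ j, r0 ^ 2 * dt (ψ j) (ψ j) ≤ (8 * σ) ^ 2
  ρ10 : 0 ≤ ρ1
  ρ20 : 0 ≤ ρ2
  lo1 : |dt χ (e 1)| * ρ1 ≤ 2 * s
  lo1' : ∀ j, |dt (ψ j) (e 1)| * ρ1 ≤ 8 * σ
  lo2 : (|dt χ (e 1)| + |dt χ (e 2)|) * ρ2 ≤ 2 * s
  lo2' : ∀ j, (|dt (ψ j) (e 1)| + |dt (ψ j) (e 2)|) * ρ2 ≤ 8 * σ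

/-- ranges of the test sheets -/
structure Rg where
  r : ℕ → ℝ
  m0 : ℕ → ℝ
  m1 : ℕ → ℝ
  m2 : ℕ → ℝ
  o1 : ℕ → ℝ
  o2 : ℕ → ℝ

open Classical in
/-- **number of incidences in a body over a cell**, from D-max at a finer level -/
theorem cell_count (I : Finset (ℕ × ℝ)) (L : ℕ → Ln4) {lv lq : ℕ} (hl : lv ≤ lq) (J0 : ℤ)
    {oq Dq r0 m0 m1 m2 ω1 ω2 : ℝ} (hoq : 0 ≤ oq) (hDq : 0 ≤ Dq) {Rr : ℝ → ℝ → ℝ → ℝ}
    (hR0 : ∀ x y z, 0 ≤ x → 0 ≤ y → 0 ≤ z → 0 ≤ Rr x y z)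
    (hRm : ∀ x y z x' y' z', 0 ≤ x → 0 ≤ y → 0 ≤ z → x ≤ x' → y ≤ y' → z ≤ z' →
      Rr x y z ≤ Rr x' y' z')
    (hown : ∀ x ∈ I, ((I.filter fun y => lc lq y = lc lq x).card : ℝ) ≤ oq)
    (hmax : ∀ J, DMX (alive I lq J) L (zl lq J) (rho lq) Dq Rr r0 m0 m1 m2 ω1 ω2)
    {χ : V3} {ψ : Fin 2 → V3} {φ e : Fin 3 → V3} {w : V3} {a K s σ ρ1 ρ2 : ℝ}
    (hF : FrOk χ ψ φ e w a K r0 s σ ρ1 ρ2) (hm0 : 256 * K * a ≤ m0) (hwm : 192 * K * w 1 ≤ m1)
    (hwm2 : 320 * K * w 2 ≤ m2) (hω1 : ω1 ≤ ρ1 / 2) (hω2 : ω2 ≤ ρ2 / 2) {α β : ℝ}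
    (hαβ : α ^ 2 + β ^ 2 = 1) {u : Fin 2 → ℝ} (hu : ∀ j, σ ≤ u j ∧ u j ≤ 1) (y : Ln4) :
    ((I.filter fun j => zc lv j.2 = J0 ∧ ∀ z, zl lv J0 ≤ z → z ≤ zl lv J0 + rho lv →
      Bod χ ψ α β s u y (L j.1) z).card : ℝ) ≤
      2 ^ (lq - lv) * (oq * (18432 * K ^ 3 * Dq * (s * (u 0 * u 1)) *
        (a * w 2 * w 1 * Rr (256 * K * a) (320 * K * w 2) (192 * K * w 1)))) := by
  set G := I.filter fun j => zc lv j.2 = J0 ∧ ∀ z, zl lv J0 ≤ z → z ≤ zl lv J0 + rho lv →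
      Bod χ ψ α β s u y (L j.1) z with hG
  set N : ℝ := 18432 * K ^ 3 * Dq * (s * (u 0 * u 1)) *
        (a * w 2 * w 1 * Rr (256 * K * a) (320 * K * w 2) (192 * K * w 1)) with hN
  have hK0 : 0 < K := lt_of_lt_of_le one_pos hF.K1
  have hw2 : 0 < w 2 := hF.a0.trans_le hF.aw
  have hw1 : 0 < w 1 := hw2.trans_le hF.ww
  have hu0 := hF.σ0.trans_le (hu 0).1
  have hu1 := hF.σ0.trans_le (hu 1).1
  have hN0 : 0 ≤ N := by
    have h1 := hR0 (256 * K * a) (320 * K * w 2) (192 * K * w 1)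
      (by have := hF.a0; positivity) (by positivity) (by positivity)
    have := hF.a0
    have := hF.s0
    positivity
  -- fine cells
  have hcells : ((G.image fun j => zc lq j.2).card : ℝ) ≤ 2 ^ (lq - lv) := by
    have hsub : (G.image fun j => zc lq j.2) ⊆
        Finset.Ico (J0 * ((2 ^ (lq - lv) : ℕ) : ℤ)) ((J0 + 1) * ((2 ^ (lq - lv) : ℕ) : ℤ)) := by
      intro k hk
      obtain ⟨j, hj, rfl⟩ := mem_image.1 hk
      have h1 := (mem_filter.1 hj).2.1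
      rw [zc_eq' hl] at h1
      have hd : (0 : ℤ) < ((2 ^ (lq - lv) : ℕ) : ℤ) := by positivity
      rw [mem_Ico, ← h1]
      exact ⟨Int.ediv_mul_le _ hd.ne', Int.lt_ediv_add_one_mul_self _ hd⟩
    have h1 := card_le_card hsub
    rw [Int.card_Ico] at h1
    have e1 : ((J0 + 1) * ((2 ^ (lq - lv) : ℕ) : ℤ) - J0 * ((2 ^ (lq - lv) : ℕ) : ℤ)).toNat =
        2 ^ (lq - lv) := by
      have : (J0 + 1) * ((2 ^ (lq - lv) : ℕ) : ℤ) - J0 * ((2 ^ (lq - lv) : ℕ) : ℤ) =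
          ((2 ^ (lq - lv) : ℕ) : ℤ) := by ring
      rw [this, Int.toNat_natCast]
    rw [e1] at h1
    exact_mod_cast h1
  -- one fine cell
  have hone : ∀ J ∈ G.image fun j => zc lq j.2,
      ((G.filter fun j => zc lq j.2 = J).card : ℝ) ≤ oq * N := by
    intro J hJ
    obtain ⟨j0, hj0, hj0J⟩ := mem_image.1 hJ
    have hJJ : J / ((2 ^ (lq - lv) : ℕ) : ℤ) = J0 := by
      rw [← hj0J, ← zc_eq' hl]; exact (mem_filter.1 hj0).2.1
    set A := (alive I lq J).filter fun t => ∀ z, zl lq J ≤ z → z ≤ zl lq J + rho lq →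
      |dt χ ((L t).pos z - y.pos z)| ≤ 2 * s ∧
      |α * dt (ψ 0) ((L t).pos z - y.pos z) + β * dt (ψ 1) ((L t).pos z - y.pos z)| ≤ 16 * u 0 ∧
      |-β * dt (ψ 0) ((L t).pos z - y.pos z) + α * dt (ψ 1) ((L t).pos z - y.pos z)| ≤
        16 * u 1 with hA
    have h1 : (A.card : ℝ) ≤ N := lab_boxW (alive I lq J) L hF.ortho hF.a0 hF.aw hF.ww hDq hR0 hRm
      (hmax J) hF.dual hK0 hF.fr hF.s0 hF.s1 hF.σ0 hF.rχ hF.rψ hm0 hwm hwm2 hF.ρ10 hF.ρ20 hF.lo1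
      hF.lo1' hF.lo2 hF.lo2' hω1 hω2 hαβ hu y
    have h3 : (G.filter fun j => zc lq j.2 = J).card =
        ∑ t ∈ A, ((G.filter fun j => zc lq j.2 = J).filter fun j => j.1 = t).card :=
      card_eq_sum_card_fiberwise (f := Prod.fst) (t := A) fun j hj => by
        have hj' : j ∈ G.filter fun j => zc lq j.2 = J := hj
        rw [mem_filter, hG, mem_filter] at hj'
        obtain ⟨⟨hjI, hjz, hjb⟩, hjJ⟩ := hj'
        change j.1 ∈ A
        rw [hA, mem_filter]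
        refine ⟨mem_alive.2 ⟨j, hjI, rfl, hjJ⟩, fun z hz1 hz2 => ?_⟩
        obtain ⟨c1, c2⟩ := cell_sub hl hJJ hz1 hz2
        exact hjb z c1 c2
    rw [h3]
    push_cast
    calc ∑ t ∈ A, (((G.filter fun j => zc lq j.2 = J).filter fun j => j.1 = t).card : ℝ)
        ≤ ∑ t ∈ A, oq := by
          refine sum_le_sum fun t ht => ?_
          by_cases hne : ((G.filter fun j => zc lq j.2 = J).filter fun j => j.1 = t).Nonempty
          · obtain ⟨x, hx⟩ := hne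
            rw [mem_filter, mem_filter, hG, mem_filter] at hx
            refine le_trans (Nat.cast_le.2 (card_le_card fun j hj => ?_)) (hown x hx.1.1.1)
            rw [mem_filter, mem_filter, hG, mem_filter] at hj
            rw [mem_filter]
            refine ⟨hj.1.1.1, ?_⟩
            unfold lc
            exact Prod.ext (hj.2.trans hx.2.symm) (hj.1.2.trans hx.1.2.symm)
          · rw [not_nonempty_iff_eq_empty.1 hne, card_empty, Nat.cast_zero]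
            exact hoq
      _ = A.card * oq := by rw [sum_const, nsmul_eq_mul]
      _ ≤ N * oq := mul_le_mul_of_nonneg_right h1 hoq
      _ = oq * N := mul_comm _ _
  have h3 : G.card = ∑ J ∈ G.image fun j => zc lq j.2, (G.filter fun j => zc lq j.2 = J).card :=
    card_eq_sum_card_image _ _
  rw [h3]
  push_cast
  calc ∑ J ∈ G.image fun j => zc lq j.2, ((G.filter fun j => zc lq j.2 = J).card : ℝ)
      ≤ ∑ J ∈ G.image fun j => zc lq j.2, oq * N := sum_le_sum hone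
    _ = (G.image fun j => zc lq j.2).card * (oq * N) := by rw [sum_const, nsmul_eq_mul]
    _ ≤ 2 ^ (lq - lv) * (oq * N) := mul_le_mul_of_nonneg_right hcells (mul_nonneg hoq hN0)

/-! ### the sample -/

section

variable {σ' κ' : Type*} {G : Geo σ' κ'} {B : Base} {I I1 : ℕ → Finset (ℕ × ℝ)}
    {L : ℕ → ℕ → Ln4} {rg : Rg} {q : Fin 3 → ℝ}
    {lev : ℕ → ℚ → ℕ} {A : ℕ → ℝ} {g : ℝ} {τ : κ' → ℝ → ℝ}
    {f : ℕ → ℚ → ℕ → ℤ → ℕ} {b : ℕ → ℚ → ℕ → σ'} {vm : ℕ → ℚ → ℝ} {w : κ' → ℕ → ℚ → ℝ}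
    {m : ℕ} {co : ∀ n : ℕ, ℕ × ℝ → ℕ × ℝ → Fin m → ℝ} {M : Mons m} {C R c₀ : ℝ}

/-- **D-max of the sample for bodies**, with the loss `E` -/
def BodyP (B : Base) (I I1 : ℕ → Finset (ℕ × ℝ)) (L : ℕ → ℕ → Ln4) (rg : Rg)
    (q : Fin 3 → ℝ)
    (lev : ℕ → ℚ → ℕ) (g : ℝ) (vm : ℕ → ℚ → ℝ) (co : ∀ n : ℕ, ℕ × ℝ → ℕ × ℝ → Fin m → ℝ)
    (M : Mons m) (C R c₀ v1 γ E : ℝ) (n : ℕ) : Prop :=
  ∀ v : ℝ, 0 ≤ v → v ≤ v1 → ∀ (lv : ℕ) (J0 : ℤ),
    (2 : ℝ) ^ lev n 0 * B.d n ^ (-v) ≤ 2 * 2 ^ lv → (2 : ℝ) ^ lv ≤ 2 ^ lev n 0 * B.d n ^ (-v) →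
    ∀ (χ : V3) (ψ : Fin 2 → V3) (φ e : Fin 3 → V3) (w : V3) (a K s σ ρ1 ρ2 : ℝ),
      FrOk χ ψ φ e w a K (rg.r n) s σ ρ1 ρ2 → 192 * K * w 1 ≤ B.d n ^ γ * rho lv →
      256 * K * a ≤ rg.m0 n → 192 * K * w 1 ≤ rg.m1 n → 320 * K * w 2 ≤ rg.m2 n →
      rg.o1 n ≤ ρ1 / 2 → rg.o2 n ≤ ρ2 / 2 →
      ∀ α β : ℝ, α ^ 2 + β ^ 2 = 1 → ∀ u : Fin 2 → ℝ, (∀ j, σ ≤ u j ∧ u j ≤ 1) → ∀ y : Ln4,
      ∀ F ⊆ I1 n, (∀ i ∈ F, ∀ j ∈ I n,
        nlab B I co M C n (fun _ => R) j = nlab B I co M C n (fun _ => R) i →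
        zc (lev n 1) j.2 = zc (lev n 1) i.2 → zc lv j.2 = J0 ∧
          ∀ z, zl lv J0 ≤ z → z ≤ zl lv J0 + rho lv → Bod χ ψ α β s u y (L n j.1) z) →
      (F.card : ℝ) ≤ E * (K ^ 3 * K ^ (q 0 + q 1 + q 2)) *
        (B.d n ^ (-(c₀ + g * v + (1 - v))) / vm n 0) * (s * (u 0 * u 1)) *
        (a * w 2 * w 1 * Rq q (rho lv) a (w 2) (w 1))

theorem hexp_aux {c₀ g v qq δ ε Q t : ℝ} (hε : 0 < ε) (hQ0 : 0 ≤ Q) (ht : 0 < t) (hq1 : v + t ≤ qq)
    (hq2 : qq ≤ v + 2 * t) (hδN : δ ≤ t) (hδε : δ ≤ ε / 16)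
    (hQN : (Q + |g| + 1) * (3 * t) ≤ 3 * (ε / 16)) :
    -(c₀ + g * v + (1 - v)) - 3 * (ε / 4) ≤
      -(c₀ + δ) + (-(qq + δ - v) + ((-(1 - qq) + (0 * 1 - 0 * qq) - δ) + (-δ +
        (-(g * qq) + -(qq + δ - v) * Q)))) := by
  have h1 : g * (qq - v) ≤ |g| * (3 * t) :=
    mul_le_mul (le_abs_self g) (by linarith) (by linarith) (abs_nonneg g)
  have h2 : (qq + δ - v) * Q ≤ (3 * t) * Q := mul_le_mul_of_nonneg_right (by linarith) hQ0
  linarith

set_option maxHeartbeats 6400000 in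
open Classical in
/-- **D-max of the sample for bodies**, uniform in the level -/
theorem body_eps (hM : MkA B I G lev A (fun v => g * v) (fun v => 0 * v) τ f b vm w)
    (hD : ∀ v : ℚ, 0 ≤ v → v ≤ 1 → ∀ ε : ℝ, 0 < ε → ∀ᶠ n in (U : Filter ℕ), ∀ J : ℤ,
      DMX (alive (I n) (lev n v) J) (L n) (zl (lev n v) J) (rho (lev n v))
        (B.d n ^ (-ε) * ampA B A (fun v => g * v) n v) (Rq q (rho (lev n v))) (rg.r n) (rg.m0 n)
        (min (rho (lev n v)) (rg.m1 n)) (rg.m2 n) (rg.o1 n) (rg.o2 n))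
    (hc : CombQ B I I1 lev co M C R (N0Q A vm) c₀) (hq : ∀ j, 0 ≤ q j) {v1 γ : ℝ} (hv1 : v1 < 1)
    (hγ : 0 < γ) {ε : ℝ} (hε : 0 < ε) : ∀ᶠ n in (U : Filter ℕ),
      BodyP B I I1 L rg q lev g vm co M C R c₀ v1 γ (B.d n ^ (-ε)) n := by
  set Q : ℝ := q 0 + q 1 + q 2 with hQ
  have hQ0 : 0 ≤ Q := by have := hq 0; have := hq 1; have := hq 2; linarith
  -- the grid
  obtain ⟨N, hN⟩ := exists_nat_gt (max (max 2 (2 / (1 - v1))) (max (8 / γ)
    (16 * (Q + |g| + 1) / ε)))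
  have hv1' : 0 < 1 - v1 := by linarith
  have hNa : (2 : ℝ) < N := lt_of_le_of_lt ((le_max_left _ _).trans (le_max_left _ _)) hN
  have hNb : 2 / (1 - v1) < N := lt_of_le_of_lt ((le_max_right _ _).trans (le_max_left _ _)) hN
  have hNc : 8 / γ < N := lt_of_le_of_lt ((le_max_left _ _).trans (le_max_right _ _)) hN
  have hNd : 16 * (Q + |g| + 1) / ε < N :=
    lt_of_le_of_lt ((le_max_right _ _).trans (le_max_right _ _)) hN
  have hNp : (0 : ℝ) < N := by linarith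
  have hNn : N ≠ 0 := by
    rintro rfl
    simp at hNp
  have hinv : (0 : ℝ) < 1 / N := by positivity
  set δ : ℝ := min (1 / N) (ε / 16) with hδ
  have hδ0 : 0 < δ := lt_min hinv (by positivity)
  have hδN : δ ≤ 1 / N := min_le_left _ _
  have hδε : δ ≤ ε / 16 := min_le_right _ _
  have hQN : (Q + |g| + 1) * (3 / N) ≤ 3 * (ε / 16) := by
    rw [div_lt_iff₀ hε] at hNd
    rw [mul_div_assoc', div_le_iff₀ hNp]
    linarith
  have hNγ : 4 / N ≤ γ / 2 := by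
    rw [div_lt_iff₀ hγ] at hNc
    rw [div_le_iff₀ hNp]; linarith
  have hNv : v1 + 2 / N ≤ 1 := by
    rw [div_lt_iff₀ hv1'] at hNb
    have : 2 / (N : ℝ) ≤ 1 - v1 := by rw [div_le_iff₀ hNp]; linarith
    linarith
  have hgrid : ∀ᶠ n in (U : Filter ℕ), ∀ j ∈ range (N + 1),
      ((2 : ℝ) ^ lev n ((j : ℚ) / N) ≤ (2 : ℝ) ^ lev n 0 *
          B.d n ^ (-((((j : ℚ) / N : ℚ) : ℝ) + δ)) ∧
        (2 : ℝ) ^ lev n 0 * B.d n ^ (-((((j : ℚ) / N : ℚ) : ℝ) - δ)) ≤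
          (2 : ℝ) ^ lev n ((j : ℚ) / N)) ∧
      (∀ J : ℤ, DMX (alive (I n) (lev n ((j : ℚ) / N)) J) (L n) (zl (lev n ((j : ℚ) / N)) J)
        (rho (lev n ((j : ℚ) / N)))
        (B.d n ^ (-δ) * ampA B A (fun v => g * v) n ((j : ℚ) / N))
        (Rq q (rho (lev n ((j : ℚ) / N)))) (rg.r n) (rg.m0 n)
        (min (rho (lev n ((j : ℚ) / N))) (rg.m1 n)) (rg.m2 n) (rg.o1 n) (rg.o2 n)) ∧
      ∀ x ∈ I n, (((I n).filter fun y => lc (lev n ((j : ℚ) / N)) y =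
        lc (lev n ((j : ℚ) / N)) x).card : ℝ) ≤
        B.d n ^ (-(1 - (((j : ℚ) / N : ℚ) : ℝ)) + (0 * 1 - 0 * (((j : ℚ) / N : ℚ) : ℝ)) - δ) := by
    rw [Filter.eventually_all_finset]
    intro j hj
    have hj1 : (j : ℚ) / N ≤ 1 := by
      rw [div_le_one (by exact_mod_cast Nat.pos_of_ne_zero hNn)]
      exact_mod_cast Nat.lt_succ_iff.1 (mem_range.1 hj)
    have hj0 : (0 : ℚ) ≤ (j : ℚ) / N := by positivity
    refine (PqG464.pow_lev hM _ hj0 hj1 hδ0).and ((hD _ hj0 hj1 _ hδ0).and ?_)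
    filter_upwards [fib_bounds hM _ hj0 hj1 hδ0] with n hn x hx
    convert (hn x hx).2
  obtain ⟨Kc, hK1, hK2, -⟩ := hc
  have hcst : (0 : ℝ) < 16 * (2 * (18432 * 640 ^ Q)) := by positivity
  filter_upwards [hgrid, hK1 δ hδ0, hK2, hM.vpos 0 le_rfl zero_le_one,
    Qg926.ev_const_le B hcst (show 0 < ε / 4 by positivity),
    Qg926.ev_const_le B (show (0 : ℝ) < 2 by norm_num) (show 0 < γ / 2 by positivity)]
    with n hg hk hk2 hvm h16 h2γ v hv0 hvv1 lv J0 hl1 hl2 χ ψ φ e w' a K s σ ρ1 ρ2 hF hwm hc0 hc1 hc2 hd1' hd2' α β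
      hαβ u hu y F hFI hFb
  have hd := B.pos n
  have hd1 := (B.lt n).le
  have hp : ∀ t : ℝ, 0 < B.d n ^ t := fun t => Real.rpow_pos_of_pos hd t
  have hanti : ∀ {s t : ℝ}, s ≤ t → B.d n ^ t ≤ B.d n ^ s := fun hst =>
    Real.rpow_le_rpow_of_exponent_ge hd hd1 hst
  have hmul : ∀ s t : ℝ, B.d n ^ s * B.d n ^ t = B.d n ^ (s + t) := fun s t =>
    (Real.rpow_add hd s t).symm
  have hAp := hM.Apos n
  -- the grid point
  have hfl1 : (⌊v * N⌋₊ : ℝ) ≤ v * N := Nat.floor_le (by positivity)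
  have hfl2 : v * N < ⌊v * N⌋₊ + 1 := Nat.lt_floor_add_one _
  set j : ℕ := ⌊v * N⌋₊ + 2 with hj
  have hjr : (j : ℝ) = (⌊v * N⌋₊ : ℝ) + 2 := by rw [hj]; push_cast; ring
  have hq1 : v + 1 / N ≤ (j : ℝ) / N := by
    rw [le_div_iff₀ hNp, add_mul, one_div_mul_cancel hNp.ne', hjr]
    linarith
  have hq2 : (j : ℝ) / N ≤ v + 2 / N := by
    rw [div_le_iff₀ hNp, add_mul, div_mul_cancel₀ _ hNp.ne', hjr]
    linarith
  have hjN : j ≤ N := by
    have h1 : (j : ℝ) / N ≤ 1 := by linarith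
    rw [div_le_one hNp] at h1
    exact_mod_cast h1
  obtain ⟨⟨g1, g2⟩, g3, g4⟩ := hg j (mem_range.2 (Nat.lt_succ_of_le hjN))
  have ecast : ((((j : ℚ) / N : ℚ)) : ℝ) = (j : ℝ) / N := by push_cast; rfl
  rw [ecast] at g1 g2
  simp only [ecast] at g4
  set lq : ℕ := lev n ((j : ℚ) / N) with hlq
  set qq : ℝ := (j : ℝ) / N with hqq
  have p0 : (0 : ℝ) < 2 ^ lev n 0 := by positivity
  -- levels
  have hle : lv ≤ lq := by
    have h1 : (2 : ℝ) ^ lv ≤ 2 ^ lq := by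
      refine hl2.trans (le_trans ?_ g2)
      exact mul_le_mul_of_nonneg_left (hanti (by linarith)) p0.le
    exact (pow_le_pow_iff_right₀ (by norm_num : (1 : ℝ) < 2)).1 h1
  have hpow : (2 : ℝ) ^ lq = 2 ^ lv * 2 ^ (lq - lv) := by rw [← pow_add, Nat.add_sub_cancel' hle]
  have hX : (2 : ℝ) ^ (lq - lv) ≤ 2 * B.d n ^ (-(qq + δ - v)) := by
    have h1 : (2 : ℝ) ^ lv * 2 ^ (lq - lv) ≤ (2 : ℝ) ^ lv * (2 * B.d n ^ (-(qq + δ - v))) := by
      rw [← hpow]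
      refine g1.trans ?_
      have e1 : B.d n ^ (-(qq + δ)) = B.d n ^ (-v) * B.d n ^ (-(qq + δ - v)) := by
        rw [hmul]; congr 1; ring
      rw [e1, ← mul_assoc, ← mul_assoc]
      exact mul_le_mul_of_nonneg_right (by linarith) (hp _).le
    exact le_of_mul_le_mul_left h1 (by positivity)
  have hXpos : (0 : ℝ) < 2 ^ (lq - lv) := by positivity
  -- the cap
  have hwm' : 192 * K * w' 1 ≤ rho lq := by
    refine hwm.trans ?_
    have e1 : rho lv = rho lq * 2 ^ (lq - lv) := by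
      unfold rho
      rw [hpow]
      field_simp
    rw [e1]
    have h1 : B.d n ^ γ * 2 ^ (lq - lv) ≤ 1 := by
      calc B.d n ^ γ * 2 ^ (lq - lv) ≤ B.d n ^ γ * (2 * B.d n ^ (-(qq + δ - v))) :=
            mul_le_mul_of_nonneg_left hX (hp _).le
        _ = 2 * B.d n ^ (γ - (qq + δ - v)) := by
            rw [mul_left_comm, hmul]; congr 2
        _ ≤ B.d n ^ (-(γ / 2)) * B.d n ^ (γ / 2) := by
            refine mul_le_mul h2γ (hanti ?_) (hp _).le (hp _).le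
            have : 4 / (N : ℝ) = 2 / N + 1 / N + 1 / N := by ring
            linarith
        _ = 1 := by rw [hmul, neg_add_cancel, Real.rpow_zero]
    have h2 := mul_le_mul_of_nonneg_left h1 (rho_pos' lq).le
    calc B.d n ^ γ * (rho lq * 2 ^ (lq - lv)) = rho lq * (B.d n ^ γ * 2 ^ (lq - lv)) := by ring
      _ ≤ rho lq := by linarith
  -- counts on the family
  set oq : ℝ := B.d n ^ (-(1 - qq) + (0 * 1 - 0 * qq) - δ) with hoq
  have hcc := cell_count (I n) (L n) hle J0 (hp _).le (mul_pos (hp (-δ)) (by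
      unfold ampA; exact mul_pos hAp (hp _))).le
    (fun x y z h1 h2 h3 => Rq_nonneg (q := q) (rho_pos' lq) h1 h2 h3)
    (fun x y z x' y' z' h1 h2 h3 h4 h5 h6 => Rq_mono hq (rho_pos' lq) h1 h2 h3 h4 h5 h6)
    (oq := oq) (fun x hx => g4 x hx) g3 hF hc0 (le_min hwm' hc1) hc2 hd1' hd2' hαβ hu y
  set G := (I n).filter fun j => zc lv j.2 = J0 ∧ ∀ z, zl lv J0 ≤ z → z ≤ zl lv J0 + rho lv →
      Bod χ ψ α β s u y (L n j.1) z with hG
  -- the sample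
  have hFG := hk2 F hFI G (filter_subset _ _) (fun i hi j hj h1 h2 =>
    mem_filter.2 ⟨hj, hFb i hi j hj h1 h2⟩)
  have hFG' : (Kc n : ℝ) * (F.card : ℝ) ≤ 16 * (G.card : ℝ) := by exact_mod_cast hFG
  have hKn : (0 : ℝ) < Kc n := by exact_mod_cast hk.1
  -- rewards
  have ha := hF.a0
  have hw2 : 0 < w' 2 := ha.trans_le hF.aw
  have hw1 : 0 < w' 1 := hw2.trans_le hF.ww
  have hK0 : 0 < K := lt_of_lt_of_le one_pos hF.K1
  have hs := hF.s0
  have hu0 := hF.σ0.trans_le (hu 0).1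
  have hu1 := hF.σ0.trans_le (hu 1).1
  have hρv := rho_pos' lv
  have hρq := rho_pos' lq
  have hRq0 : 0 ≤ Rq q (rho lv) a (w' 2) (w' 1) := Rq_nonneg hρv ha.le hw2.le hw1.le
  have hrew : Rq q (rho lq) (256 * K * a) (320 * K * w' 2) (192 * K * w' 1) ≤
      640 ^ Q * K ^ Q * B.d n ^ (-(qq + δ - v) * Q) * Rq q (rho lv) a (w' 2) (w' 1) := by
    have h1 : Rq q (rho lq) (256 * K * a) (320 * K * w' 2) (192 * K * w' 1) ≤
        Rq q (rho lq) (320 * K * a) (320 * K * w' 2) (320 * K * w' 1) := by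
      refine Rq_mono hq hρq (by positivity) (by positivity) (by positivity) ?_ le_rfl ?_
      · have : 0 < K * a := mul_pos hK0 ha
        linarith
      · have : 0 < K * w' 1 := mul_pos hK0 hw1
        linarith
    have e2 : ∀ x : ℝ, 320 * K * x / rho lq = (320 * K * 2 ^ (lq - lv)) * (x / rho lv) := by
      intro x
      unfold rho
      rw [hpow]
      field_simp
    have h2 := Rq_scale (q := q) (s := 320 * K * 2 ^ (lq - lv)) (ρ := rho lv) (ρ' := rho lq)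
      (x := a) (y := w' 2) (z := w' 1) (by positivity) (by positivity) (by positivity)
      (by positivity) (e2 a) (e2 (w' 2)) (e2 (w' 1))
    rw [h2] at h1
    refine h1.trans (mul_le_mul_of_nonneg_right ?_ hRq0)
    calc (320 * K * 2 ^ (lq - lv)) ^ (q 0 + q 1 + q 2)
        ≤ (640 * K * B.d n ^ (-(qq + δ - v))) ^ Q := by
          refine Real.rpow_le_rpow (by positivity) ?_ hQ0
          have := mul_le_mul_of_nonneg_left hX (by positivity : 0 ≤ 320 * K)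
          linarith
      _ = 640 ^ Q * K ^ Q * B.d n ^ (-(qq + δ - v) * Q) := by
          rw [Real.mul_rpow (by positivity) (hp _).le, Real.mul_rpow (by norm_num) hK0.le,
            ← Real.rpow_mul hd.le]
  -- normalisation
  have hN0 : N0Q A vm n ≤ Kc n * B.d n ^ (-(c₀ + δ)) := hk.2.1
  have hN0' : N0Q A vm n = A n * vm n 0 := rfl
  rw [hN0'] at hN0
  set X : ℝ := (s * (u 0 * u 1)) * (a * w' 2 * w' 1 * Rq q (rho lv) a (w' 2) (w' 1)) with hXd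
  have hX0 : 0 ≤ X := by positivity
  have hexp : -(c₀ + g * v + (1 - v)) - 3 * (ε / 4) ≤
      -(c₀ + δ) + (-(qq + δ - v) + ((-(1 - qq) + (0 * 1 - 0 * qq) - δ) + (-δ +
        (-(g * qq) + -(qq + δ - v) * Q)))) := by
    have e3 : 3 / (N : ℝ) = 3 * (1 / N) := by ring
    have e2 : 2 / (N : ℝ) = 2 * (1 / N) := by ring
    rw [e3] at hQN
    rw [e2] at hq2
    exact hexp_aux hε hQ0 hinv hq1 hq2 hδN hδε hQN
  have hG1 : (G.card : ℝ) ≤ (2 * B.d n ^ (-(qq + δ - v))) * (oq * (18432 * K ^ 3 *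
      (B.d n ^ (-δ) * (A n * B.d n ^ (-(g * qq)))) * (s * (u 0 * u 1)) *
      (a * w' 2 * w' 1 * (640 ^ Q * K ^ Q * B.d n ^ (-(qq + δ - v) * Q) *
        Rq q (rho lv) a (w' 2) (w' 1))))) := by
    refine hcc.trans ?_
    have e1 : ampA B A (fun v => g * v) n ((j : ℚ) / N) = A n * B.d n ^ (-(g * qq)) := by
      unfold ampA; rw [ecast]
    rw [e1]
    have h1 := Rq_nonneg (q := q) hρq (x := 256 * K * a) (y := 320 * K * w' 2)
      (z := 192 * K * w' 1) (by positivity) (by positivity) (by positivity)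
    have h2 := hp (-δ)
    have h3 := hp (-(g * qq))
    have h4 : 0 < oq := hp _
    gcongr
  have hfin : (Kc n : ℝ) * (F.card : ℝ) ≤ Kc n * (B.d n ^ (-ε) * (K ^ 3 * K ^ Q) *
        (B.d n ^ (-(c₀ + g * v + (1 - v))) / vm n 0) * X) := by
    refine hFG'.trans ((mul_le_mul_of_nonneg_left hG1 (by norm_num)).trans ?_)
    have hQp : (0 : ℝ) < 640 ^ Q := by positivity
    have hKQ : 0 < K ^ Q := Real.rpow_pos_of_pos hK0 _
    -- collect the powers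
    have e1 : 16 * ((2 * B.d n ^ (-(qq + δ - v))) * (oq * (18432 * K ^ 3 *
      (B.d n ^ (-δ) * (A n * B.d n ^ (-(g * qq)))) * (s * (u 0 * u 1)) *
      (a * w' 2 * w' 1 * (640 ^ Q * K ^ Q * B.d n ^ (-(qq + δ - v) * Q) *
        Rq q (rho lv) a (w' 2) (w' 1)))))) =
        (16 * (2 * (18432 * 640 ^ Q))) * (K ^ 3 * K ^ Q) * A n * X *
          (B.d n ^ (-(qq + δ - v)) * (oq * (B.d n ^ (-δ) * (B.d n ^ (-(g * qq)) *
            B.d n ^ (-(qq + δ - v) * Q))))) := by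
      rw [hXd]; ring
    rw [e1, hoq, hmul, hmul, hmul, hmul]
    set t1 : ℝ := -(qq + δ - v) + ((-(1 - qq) + (0 * 1 - 0 * qq) - δ) + (-δ +
        (-(g * qq) + -(qq + δ - v) * Q))) with ht1
    have h5 : A n ≤ Kc n * B.d n ^ (-(c₀ + δ)) / vm n 0 := by
      rw [le_div_iff₀ hvm]; exact hN0
    calc (16 * (2 * (18432 * 640 ^ Q))) * (K ^ 3 * K ^ Q) * A n * X * B.d n ^ t1
        ≤ B.d n ^ (-(ε / 4)) * (K ^ 3 * K ^ Q) * (Kc n * B.d n ^ (-(c₀ + δ)) / vm n 0) * X *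
            B.d n ^ t1 := by
          have := hp t1
          gcongr
      _ = Kc n * ((K ^ 3 * K ^ Q) * (1 / vm n 0) * X) *
            (B.d n ^ (-(ε / 4)) * (B.d n ^ (-(c₀ + δ)) * B.d n ^ t1)) := by ring
      _ ≤ Kc n * ((K ^ 3 * K ^ Q) * (1 / vm n 0) * X) *
            (B.d n ^ (-ε) * B.d n ^ (-(c₀ + g * v + (1 - v)))) := by
          refine mul_le_mul_of_nonneg_left ?_ (by positivity)
          rw [hmul, hmul, hmul]
          exact hanti (by linarith)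
      _ = _ := by ring
  have := le_of_mul_le_mul_left hfin hKn
  refine this.trans (le_of_eq ?_)
  rw [hXd]; ring


end

end Crest.Agent.R136.Lab926
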