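import Crest.Agent.R136.End3_882
import Crest.Agent.R136.End4_882
import Crest.Agent.R136.End4a_403
import Crest.Agent.R136.Lab2_544
import Crest.Agent.R136.LabD_926
import Crest.Agent.R136.Wq2_638

-- ▼ part R136/LabW0_926
section

/-!
# R136: END-LAB, window side, part 0 (helper926): one piece

`exists_piece` : a nonempty part of a set of incidences with one label (e.g. one slab) in which all
classes of finitely many partitions are almost full.
-/

set_option autoImplicit false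
set_option linter.unusedVariables false

namespace Crest.Agent.R136.Lab926

open Finset Crest.Agent.R136.End882

open Classical in
/-- **one piece**: `F ⊆ E` nonempty, one label, all classes almost full. -/
theorem exists_piece {α γ : Type*} {E : Finset α} (lb : α → γ) {r : ℕ}
    {β : Fin r → Type*} (cl : ∀ s, α → β s) (μ : Fin r → ℝ) (hμ : ∀ s, 0 ≤ μ s) {N : ℝ}
    (hN : 0 < N) (few : ∀ s, ∀ x ∈ E,
      (((E.filter fun y => cl s y = cl s x).image lb).card : ℝ) ≤ N) (hE : E.Nonempty)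
    {A : ℝ} (hA : 0 < A)
    (cnt : ∀ s, ((E.image (cl s)).card : ℝ) * μ s ≤ A * E.card) :
    ∃ F ⊆ E, F.Nonempty ∧ (∀ x ∈ F, ∀ y ∈ F, lb x = lb y) ∧
      ∀ s, ∀ x ∈ F, μ s / (2 * (r + 1) * N * A) ≤
        ((F.filter fun y => cl s y = cl s x).card : ℝ) := by
  -- labels per class
  have hlab : ∀ s, ((E.image fun x => (cl s x, lb x)).card : ℝ) ≤
      N * ((E.image (cl s)).card : ℝ) := by
    intro s
    have h1 : (E.image fun x => (cl s x, lb x)).card ≤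
        ∑ b ∈ E.image (cl s), ((E.filter fun y => cl s y = b).image lb).card := by
      have h2 : (E.image fun x => (cl s x, lb x)) ⊆
          (E.image (cl s)).biUnion fun b =>
            ((E.filter fun y => cl s y = b).image lb).image fun l => (b, l) := by
        intro q hq
        obtain ⟨x, hx, rfl⟩ := mem_image.1 hq
        refine mem_biUnion.2 ⟨cl s x, mem_image_of_mem _ hx, ?_⟩
        exact mem_image.2 ⟨lb x, mem_image_of_mem _ (mem_filter.2 ⟨hx, rfl⟩), rfl⟩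
      refine (card_le_card h2).trans (card_biUnion_le.trans (sum_le_sum fun b _ => card_image_le))
    have h3 : ∀ b ∈ E.image (cl s), (((E.filter fun y => cl s y = b).image lb).card : ℝ) ≤ N := by
      intro b hb
      obtain ⟨x, hx, rfl⟩ := mem_image.1 hb
      exact few s x hx
    calc ((E.image fun x => (cl s x, lb x)).card : ℝ) ≤
        ∑ b ∈ E.image (cl s), (((E.filter fun y => cl s y = b).image lb).card : ℝ) := by
          exact_mod_cast h1
      _ ≤ ∑ b ∈ E.image (cl s), N := sum_le_sum h3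
      _ = N * ((E.image (cl s)).card : ℝ) := by rw [sum_const, nsmul_eq_mul, mul_comm]
  set δ : Fin r → ℝ := fun s => μ s / (2 * (r + 1) * N * A) with hδ
  have hden : 0 < 2 * (r + 1) * N * A := by positivity
  have hδ0 : ∀ s, 0 ≤ δ s := fun s => div_nonneg (hμ s) hden.le
  obtain ⟨F₁, hF₁, hcard, hfull⟩ := prune_classes E
    (fun s x => (cl s x, lb x)) δ hδ0
  have hsum : ∑ s, δ s * ((E.image fun x => (cl s x, lb x)).card : ℝ) ≤ E.card / 2 := by
    have h1 : ∀ s, δ s * ((E.image fun x => (cl s x, lb x)).card : ℝ) ≤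
        E.card / (2 * (r + 1)) := by
      intro s
      calc δ s * ((E.image fun x => (cl s x, lb x)).card : ℝ) ≤
          δ s * (N * ((E.image (cl s)).card : ℝ)) :=
            mul_le_mul_of_nonneg_left (hlab s) (hδ0 s)
        _ = (((E.image (cl s)).card : ℝ) * μ s) / (2 * (r + 1) * A) := by
            simp only [hδ]; field_simp
        _ ≤ (A * E.card) / (2 * (r + 1) * A) := by
            have := cnt s
            gcongr
        _ = E.card / (2 * (r + 1)) := by field_simp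
    calc ∑ s, δ s * ((E.image fun x => (cl s x, lb x)).card : ℝ) ≤
        ∑ _s : Fin r, (E.card : ℝ) / (2 * (r + 1)) := sum_le_sum fun s _ => h1 s
      _ = r * ((E.card : ℝ) / (2 * (r + 1))) := by
          rw [sum_const, nsmul_eq_mul, card_univ, Fintype.card_fin]
      _ ≤ E.card / 2 := by
          rw [mul_div_assoc', div_le_div_iff₀ (by positivity) (by norm_num)]
          have : (0 : ℝ) ≤ E.card := Nat.cast_nonneg _
          nlinarith
  have hEpos : (0 : ℝ) < E.card := by exact_mod_cast card_pos.2 hE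
  have hcard' : (E.card : ℝ) ≤ F₁.card +
      ∑ s, δ s * ((E.image fun x => (cl s x, lb x)).card : ℝ) := by convert hcard
  have hF₁ne : F₁.Nonempty := by
    rw [← card_pos]
    have : (0 : ℝ) < F₁.card := by linarith
    exact_mod_cast this
  obtain ⟨x₀, hx₀⟩ := hF₁ne
  refine ⟨F₁.filter fun x => lb x = lb x₀, (filter_subset _ _).trans hF₁,
    ⟨x₀, mem_filter.2 ⟨hx₀, rfl⟩⟩, ?_, ?_⟩
  · intro x hx y hy
    rw [mem_filter] at hx hy
    exact hx.2.trans hy.2.symm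
  · intro s x hx
    rw [mem_filter] at hx
    refine (hfull s x hx.1).trans (Nat.cast_le.2 (card_le_card fun y hy => ?_))
    simp only [mem_filter, Prod.mk.injEq] at hy
    exact mem_filter.2 ⟨mem_filter.2 ⟨hy.1, hy.2.2.trans hx.2⟩, hy.2.1⟩

end Crest.Agent.R136.Lab926
end

-- ▼ part R136/LabW1_926
section

/-!
# R136: END-LAB, window side, part 1 (helper926)

`SlabIn` : a family of incidences over one cell whose lines have a common velocity for one functional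
`χ` (sequences, all losses `d'^(-ε)`); `SlabIn.piece` : for every `ε` a nonempty piece of it inside
one slab, with full own counts and full classes of small boxes; `SlabIn.concl` : 544's `lab_fin`
applied to the piece.
-/

set_option autoImplicit false
set_option linter.unusedSectionVars false
set_option linter.unusedVariables false

open Filter Topology

namespace Crest.Agent.R136.Lab926

open Finset Crest.Agent.R138.Ex926 Crest.Agent.R136.Qg926 Crest.Agent.R136.Sh605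
open Crest.Agent.R138.Mk163 (zc zl rho)
open Crest.Agent.R136.End403 (cells_le)
open Crest.Agent.R136.HR829 (Wd)
open Crest.Agent.R136.Lab544 (Dual lab_fin)

open Classical in
/-- **a family of incidences in slabs**; `χ n` = slab functional, `ψ n 0, ψ n 1` = base functionals
(normalised by the sizes of the family), `kN` = thickness exponent, `k1` = exponent of the small
boxes `dp`. -/
structure SlabIn {γ : Type} (B' : Base) (E : ℕ → Finset (ℕ × ℝ)) (L : ℕ → ℕ → Ln4)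
    (χ : ℕ → V3) (ψ : ℕ → Fin 2 → V3) (i M : ℕ → ℕ) (J0 : ℕ → ℤ) (T To : ℕ → ℝ)
    (kN k1 l1 : ℝ) (dp : ℕ → ℕ × ℝ → γ) : Prop where
  ne : ∀ᶠ n in (U : Filter ℕ), (E n).Nonempty
  T0 : ∀ n, 0 < T n
  To0 : ∀ n, 0 < To n
  kN0 : 0 < kN
  k10 : 0 < k1
  cell : ∀ᶠ n in (U : Filter ℕ), ∀ x ∈ E n, zc (i n) x.2 = J0 n
  /-- natural sizes -/
  wide : ∀ ε : ℝ, 0 < ε → ∀ᶠ n in (U : Filter ℕ), ∀ x ∈ E n, ∀ y ∈ E n, ∀ z : ℝ,
    zl (i n) (J0 n) ≤ z → z ≤ zl (i n) (J0 n) + rho (i n) →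
      ∀ j, |dt (ψ n j) ((L n y.1).pos z - (L n x.1).pos z)| ≤ B'.d n ^ (-ε)
  /-- one velocity -/
  vel : ∀ ε : ℝ, 0 < ε → ∀ᶠ n in (U : Filter ℕ), ∀ x ∈ E n, ∀ y ∈ E n,
    |dt (χ n) ((L n y.1).v - (L n x.1).v)| * rho (i n) ≤ B'.d n ^ (kN - ε)
  /-- small boxes -/
  small : ∀ ε : ℝ, 0 < ε → ∀ᶠ n in (U : Filter ℕ), ∀ x ∈ E n, ∀ y ∈ E n, dp n x = dp n y →
    zc (i n + M n + 1) y.2 = zc (i n + M n + 1) x.2 ∧
    |dt (χ n) ((L n y.1).pos x.2 - (L n x.1).pos x.2)| ≤ B'.d n ^ (kN - ε) ∧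
    ∀ j, |dt (ψ n j) ((L n y.1).pos x.2 - (L n x.1).pos x.2)| ≤ B'.d n ^ (k1 - ε)
  /-- number of small boxes -/
  snum : ∀ ε : ℝ, 0 < ε → ∀ᶠ n in (U : Filter ℕ),
    (((E n).image (dp n)).card : ℝ) * (T n * B'.d n ^ (-l1)) ≤ B'.d n ^ (-ε) * (E n).card
  /-- own counts -/
  onum : ∀ ε : ℝ, 0 < ε → ∀ᶠ n in (U : Filter ℕ),
    (((E n).image fun x => (x.1, zc (i n) x.2)).card : ℝ) * To n ≤ B'.d n ^ (-ε) * (E n).card
  oup : ∀ ε : ℝ, 0 < ε → ∀ᶠ n in (U : Filter ℕ), ∀ x ∈ E n,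
    (((E n).filter fun y => y.1 = x.1 ∧ zc (i n + M n + 1) y.2 = zc (i n + M n + 1) x.2).card : ℝ) ≤
      To n * B'.d n ^ (k1 - ε)
  /-- resolution -/
  Mlow : ∀ ε : ℝ, 0 < ε → ∀ᶠ n in (U : Filter ℕ), B'.d n ^ (-(k1 - ε)) ≤ (2 : ℝ) ^ M n
  Mup : ∀ᶠ n in (U : Filter ℕ), (2 : ℝ) ^ M n ≤ 1 / 2 * B'.d n ^ (-k1)

section

variable {γ : Type} {B' : Base} {E : ℕ → Finset (ℕ × ℝ)} {L : ℕ → ℕ → Ln4}
    {χ : ℕ → V3} {ψ : ℕ → Fin 2 → V3} {i M : ℕ → ℕ} {J0 : ℕ → ℤ} {T To : ℕ → ℝ}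
    {kN k1 l1 : ℝ} {dp : ℕ → ℕ × ℝ → γ}

theorem rho_pos (i : ℕ) : 0 < rho i := by unfold rho; positivity

theorem in_cell {i : ℕ} {J : ℤ} {z : ℝ} (h : zc i z = J) : zl i J ≤ z ∧ z ≤ zl i J + rho i := by
  have h2 : (0 : ℝ) < 2 ^ i := by positivity
  have h1 := Int.floor_eq_iff.1 (show ⌊(2 : ℝ) ^ i * z⌋ = J from h)
  unfold zl rho
  rw [← add_div, div_le_iff₀ h2, le_div_iff₀ h2]
  constructor <;> linarith [h1.1, h1.2]

theorem pos_sub (t y : Ln4) (z z' : ℝ) :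
    t.pos z - y.pos z = (t.pos z' - y.pos z') + (z - z') • (t.v - y.v) := by
  funext k
  simp only [Ln4.pos, Pi.sub_apply, Pi.add_apply, Pi.smul_apply, smul_eq_mul]
  ring

open Classical in
/-- **one piece in one slab** -/
theorem SlabIn.piece (h : SlabIn B' E L χ ψ i M J0 T To kN k1 l1 dp) {ε : ℝ} (hε : 0 < ε) :
    ∀ᶠ n in (U : Filter ℕ), ∃ F ⊆ E n, ∃ x₀ ∈ F,
      -- one slab
      (∀ x ∈ F, zc (i n) x.2 = J0 n) ∧
      (∀ x ∈ F, ∀ z : ℝ, zl (i n) (J0 n) ≤ z → z ≤ zl (i n) (J0 n) + rho (i n) →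
        |dt (χ n) ((L n x.1).pos z - (L n x₀.1).pos z)| ≤ B'.d n ^ (kN - ε) ∧
        ∀ j, |dt (ψ n j) ((L n x.1).pos z - (L n x₀.1).pos z)| ≤ B'.d n ^ (-ε)) ∧
      -- own counts
      (∀ x ∈ F, To n * B'.d n ^ ε ≤ ((F.filter fun y => y.1 = x.1).card : ℝ)) ∧
      (∀ x ∈ F, ((F.filter fun y => y.1 = x.1 ∧
        zc (i n + M n + 1) y.2 = zc (i n + M n + 1) x.2).card : ℝ) ≤
          To n * B'.d n ^ (k1 - ε)) ∧
      -- small boxes
      ∀ x ∈ F, T n * B'.d n ^ (-l1 + ε) ≤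
        ((F.filter fun y => zc (i n + M n + 1) y.2 = zc (i n + M n + 1) x.2 ∧
          ∀ j, |dt (ψ n j) ((L n y.1).pos x.2 - (L n x.1).pos x.2)| ≤
            B'.d n ^ (k1 - ε)).card : ℝ) := by
  set δ : ℝ := ε / 8 with hδ
  have hδ0 : 0 < δ := by positivity
  filter_upwards [h.ne, h.cell, h.wide δ hδ0, h.vel δ hδ0, h.small δ hδ0, h.snum δ hδ0,
    h.onum δ hδ0, h.oup δ hδ0, ev_const_le B' (show (0 : ℝ) < 100 by norm_num) hδ0] with
    n hne hcell hwide hvel hsmall hsnum honum houp h100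
  have hd := B'.pos n
  have hd1 := (B'.lt n).le
  have hp : ∀ t : ℝ, 0 < B'.d n ^ t := fun t => Real.rpow_pos_of_pos hd t
  have hanti : ∀ {s t : ℝ}, s ≤ t → B'.d n ^ t ≤ B'.d n ^ s := fun hst =>
    Real.rpow_le_rpow_of_exponent_ge hd hd1 hst
  have hmul : ∀ s t : ℝ, B'.d n ^ s * B'.d n ^ t = B'.d n ^ (s + t) := fun s t =>
    (Real.rpow_add hd s t).symm
  have hT := h.T0 n
  have hTo := h.To0 n
  have hρ := rho_pos (i n)
  set z0 := zl (i n) (J0 n) with hz0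
  set A : ℝ := B'.d n ^ (-δ) with hA
  have hA0 : 0 < A := hp _
  set a : ℝ := B'.d n ^ kN with ha'
  have ha : 0 < a := hp _
  have hAa : ∀ t : ℝ, B'.d n ^ (kN - t) = B'.d n ^ (-t) * a := fun t => by
    rw [ha', hmul]; congr 1; ring
  -- slab label
  set lb : ℕ × ℝ → ℤ := fun x => ⌊dt (χ n) ((L n x.1).pos z0) / a⌋ with hlb
  set cl : ∀ s : Fin 2, ℕ × ℝ → (ℕ × ℤ) ⊕ γ := fun s x =>
    if s = 0 then Sum.inl (x.1, zc (i n) x.2) else Sum.inr (dp n x) with hcl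
  set μ : Fin 2 → ℝ := fun s => if s = 0 then To n else T n * B'.d n ^ (-l1) with hμ
  have hμ0 : ∀ s, 0 ≤ μ s := by
    intro s
    simp only [hμ]
    split_ifs
    · exact hTo.le
    · exact (mul_pos hT (hp _)).le
  have hN : (0 : ℝ) < B'.d n ^ (-(2 * δ)) := hp _
  -- few slabs per class
  have hfew : ∀ s, ∀ x ∈ E n,
      ((((E n).filter fun y => cl s y = cl s x).image lb).card : ℝ) ≤ B'.d n ^ (-(2 * δ)) := by
    intro s x hx
    have hone : (1 : ℝ) ≤ B'.d n ^ (-(2 * δ)) :=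
      Real.one_le_rpow_of_pos_of_le_one_of_nonpos hd hd1 (by linarith)
    by_cases hs : s = 0
    · have : (((E n).filter fun y => cl s y = cl s x).image lb) ⊆ {lb x} := by
        intro b hb
        obtain ⟨y, hy, rfl⟩ := mem_image.1 hb
        have h2 := (mem_filter.1 hy).2
        simp only [hcl, if_pos hs, Sum.inl.injEq, Prod.mk.injEq] at h2
        rw [mem_singleton, hlb]
        simp only [h2.1]
      have h3 := card_le_card this
      rw [card_singleton] at h3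
      refine le_trans ?_ hone
      exact_mod_cast h3
    · have h3 := cells_le ((E n).filter fun y => cl s y = cl s x)
        (fun y => dt (χ n) ((L n y.1).pos z0) / a) (dt (χ n) ((L n x.1).pos z0) / a)
        (t := 2 * A) (fun y hy => by
          obtain ⟨hy1, hy2⟩ := mem_filter.1 hy
          simp only [hcl, if_neg hs, Sum.inr.injEq] at hy2
          obtain ⟨-, h4, -⟩ := hsmall x hx y hy1 hy2.symm
          have h5 := hvel x hx y hy1
          rw [hAa] at h4 h5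
          obtain ⟨c1, c2⟩ := in_cell (hcell x hx)
          have e1 : dt (χ n) ((L n y.1).pos z0) / a - dt (χ n) ((L n x.1).pos z0) / a =
              (dt (χ n) ((L n y.1).pos x.2 - (L n x.1).pos x.2) +
                (z0 - x.2) * dt (χ n) ((L n y.1).v - (L n x.1).v)) / a := by
            rw [← sub_div, ← dt_sub, pos_sub _ _ z0 x.2, dt_add, dt_smul]
          rw [e1, abs_div, abs_of_pos ha, div_le_iff₀ ha]
          refine (abs_add_le _ _).trans ?_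
          rw [abs_mul]
          have h6 : |z0 - x.2| ≤ rho (i n) := by
            rw [abs_sub_comm, abs_of_nonneg (by linarith)]; linarith
          have h7 : |z0 - x.2| * |dt (χ n) ((L n y.1).v - (L n x.1).v)| ≤ A * a := by
            refine le_trans ?_ h5
            rw [mul_comm]
            exact mul_le_mul_of_nonneg_left h6 (abs_nonneg _)
          linarith) (by positivity)
      refine h3.trans ?_
      have h4 : (100 : ℝ) * A ≤ B'.d n ^ (-(2 * δ)) := by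
        have : B'.d n ^ (-(2 * δ)) = B'.d n ^ (-δ) * B'.d n ^ (-δ) := by
          rw [hmul]; congr 1; ring
        rw [this]
        exact mul_le_mul_of_nonneg_right h100 hA0.le
      have h5 : (1 : ℝ) ≤ A := Real.one_le_rpow_of_pos_of_le_one_of_nonpos hd hd1 (by linarith)
      linarith
  obtain ⟨F, hF, hFne, hFlb, hFc⟩ := exists_piece lb cl μ hμ0 hN
    (fun s x hx => by convert hfew s x hx) hne hA0 (by
    intro s
    by_cases hs : s = 0
    · have e1 : ((E n).image (cl s)).card ≤ ((E n).image fun x => (x.1, zc (i n) x.2)).card := by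
        have : (E n).image (cl s) = ((E n).image fun x => (x.1, zc (i n) x.2)).image
            (Sum.inl : ℕ × ℤ → (ℕ × ℤ) ⊕ γ) := by
          rw [image_image]
          refine image_congr fun x _ => ?_
          simp only [hcl, if_pos hs, Function.comp]
        rw [this]; exact card_image_le
      simp only [hμ, if_pos hs]
      refine le_trans ?_ honum
      refine mul_le_mul_of_nonneg_right (Nat.cast_le.2 ?_) hTo.le
      convert e1
    · have e1 : ((E n).image (cl s)).card ≤ ((E n).image (dp n)).card := by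
        have : (E n).image (cl s) = ((E n).image (dp n)).image
            (Sum.inr : γ → (ℕ × ℤ) ⊕ γ) := by
          rw [image_image]
          refine image_congr fun x _ => ?_
          simp only [hcl, if_neg hs, Function.comp]
        rw [this]; exact card_image_le
      simp only [hμ, if_neg hs]
      refine le_trans ?_ hsnum
      refine mul_le_mul_of_nonneg_right (Nat.cast_le.2 ?_) (mul_pos hT (hp _)).le
      convert e1)
  obtain ⟨x₀, hx₀⟩ := hFne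
  have hden : 2 * (((2 : ℕ) : ℝ) + 1) * B'.d n ^ (-(2 * δ)) * A ≤ B'.d n ^ (-(4 * δ)) := by
    have e1 : B'.d n ^ (-(4 * δ)) = B'.d n ^ (-δ) * (B'.d n ^ (-(2 * δ)) * A) := by
      rw [hA, hmul, hmul]; congr 1; ring
    rw [e1]
    have h1 : 0 < B'.d n ^ (-(2 * δ)) * A := mul_pos (hp _) hA0
    push_cast
    nlinarith
  have hlow : ∀ s, ∀ x ∈ F, μ s * B'.d n ^ (4 * δ) ≤
      ((F.filter fun y => cl s y = cl s x).card : ℝ) := by
    intro s x hx
    have h0 : μ s / (2 * (((2 : ℕ) : ℝ) + 1) * B'.d n ^ (-(2 * δ)) * A) ≤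
        ((F.filter fun y => cl s y = cl s x).card : ℝ) := by convert hFc s x hx
    refine le_trans ?_ h0
    rw [le_div_iff₀ (by positivity)]
    calc μ s * B'.d n ^ (4 * δ) * (2 * (((2 : ℕ) : ℝ) + 1) * B'.d n ^ (-(2 * δ)) * A)
        ≤ μ s * B'.d n ^ (4 * δ) * B'.d n ^ (-(4 * δ)) :=
          mul_le_mul_of_nonneg_left hden (mul_nonneg (hμ0 s) (hp _).le)
      _ = μ s := by
          rw [mul_assoc, hmul, add_neg_cancel, Real.rpow_zero, mul_one]
  refine ⟨F, hF, x₀, hx₀, fun x hx => hcell x (hF hx), ?_, ?_, ?_, ?_⟩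
  · intro x hx z hz1 hz2
    have w1 := hwide x₀ (hF hx₀) x (hF hx) z hz1 hz2
    have hle : A ≤ B'.d n ^ (-ε) := hanti (by rw [hδ]; linarith)
    refine ⟨?_, fun j => (w1 j).trans hle⟩
    -- position in the slab
    have h1 : |dt (χ n) ((L n x.1).pos z0 - (L n x₀.1).pos z0)| ≤ a := by
      have h2 : lb x = lb x₀ := hFlb x hx x₀ hx₀
      simp only [hlb] at h2
      have h3 := Int.abs_sub_lt_one_of_floor_eq_floor h2
      rw [← sub_div, ← dt_sub, abs_div, abs_of_pos ha, div_lt_one ha] at h3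
      exact h3.le
    have h2 := hvel x₀ (hF hx₀) x (hF hx)
    rw [hAa] at h2
    rw [pos_sub _ _ z z0, dt_add, dt_smul]
    refine (abs_add_le _ _).trans ?_
    rw [abs_mul]
    have h6 : |z - z0| ≤ rho (i n) := by
      rw [abs_of_nonneg (by linarith)]; linarith
    have h7 : |z - z0| * |dt (χ n) ((L n x.1).v - (L n x₀.1).v)| ≤ A * a := by
      refine le_trans ?_ h2
      rw [mul_comm]
      exact mul_le_mul_of_nonneg_left h6 (abs_nonneg _)
    have h8 : (1 : ℝ) ≤ A := Real.one_le_rpow_of_pos_of_le_one_of_nonpos hd hd1 (by linarith)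
    have h9 : 2 * A ≤ B'.d n ^ (-ε) := by
      have e1 : B'.d n ^ (-(2 * δ)) = B'.d n ^ (-δ) * A := by rw [hA, hmul]; congr 1; ring
      have e2 : B'.d n ^ (-(2 * δ)) ≤ B'.d n ^ (-ε) := hanti (by rw [hδ]; linarith)
      refine le_trans ?_ e2
      rw [e1]
      nlinarith
    rw [hAa]
    nlinarith
  · intro x hx
    have h1 := hlow 0 x hx
    simp only [hμ, if_pos] at h1
    refine le_trans (mul_le_mul_of_nonneg_left (hanti (by rw [hδ]; linarith)) hTo.le)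
      (h1.trans (Nat.cast_le.2 (card_le_card fun y hy => ?_)))
    obtain ⟨hy1, hy2⟩ := mem_filter.1 hy
    simp only [hcl, if_pos, Sum.inl.injEq, Prod.mk.injEq] at hy2
    exact mem_filter.2 ⟨hy1, hy2.1⟩
  · intro x hx
    refine le_trans (Nat.cast_le.2 (card_le_card fun y hy => ?_))
      ((houp x (hF hx)).trans (mul_le_mul_of_nonneg_left (hanti (by rw [hδ]; linarith)) hTo.le))
    obtain ⟨hy1, hy2⟩ := mem_filter.1 hy
    exact mem_filter.2 ⟨hF hy1, hy2⟩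
  · intro x hx
    have h10 : ¬ ((1 : Fin 2) = 0) := by decide
    have h1 := hlow 1 x hx
    simp only [hμ, if_neg h10] at h1
    have e1 : T n * B'.d n ^ (-l1 + ε) ≤ T n * B'.d n ^ (-l1) * B'.d n ^ (4 * δ) := by
      rw [mul_assoc, hmul]
      exact mul_le_mul_of_nonneg_left (hanti (by rw [hδ]; linarith)) hT.le
    refine e1.trans (h1.trans (Nat.cast_le.2 (card_le_card fun y hy => ?_)))
    obtain ⟨hy1, hy2⟩ := mem_filter.1 hy
    simp only [hcl, if_neg h10, Sum.inr.injEq] at hy2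
    obtain ⟨g1, -, g3⟩ := hsmall x (hF hx) y (hF hy1) hy2.symm
    exact mem_filter.2 ⟨hy1, g1, fun j => (g3 j).trans (hanti (by rw [hδ]; linarith))⟩

open Classical in
/-- **frame, resolution, cap and D-max** -/
structure FrameIn (B' : Base) (E : ℕ → Finset (ℕ × ℝ)) (L : ℕ → ℕ → Ln4) (χ : ℕ → V3)
    (ψ : ℕ → Fin 2 → V3) (i : ℕ → ℕ) (J0 : ℕ → ℤ) (kN k1 : ℝ) (φ e : ℕ → Fin 3 → V3) (a : ℕ → ℝ)
    (w : ℕ → V3) (r0 wmax Dn : ℕ → ℝ) (R : ℕ → ℝ → ℝ → ℝ → ℝ) : Prop where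
  dual : ∀ n, Dual (χ n) (ψ n) (φ n)
  ortho : ∀ n, Ortho (e n)
  a0 : ∀ n, 0 < a n
  aw : ∀ᶠ n in (U : Filter ℕ), a n ≤ w n 2
  w21 : ∀ᶠ n in (U : Filter ℕ), w n 2 ≤ w n 1
  fr : ∀ ε : ℝ, 0 < ε → ∀ᶠ n in (U : Filter ℕ), ∀ j k,
    |dt (e n j) (φ n k)| ≤ B'.d n ^ (-ε) * Wd (a n) (w n) j
  rχ : ∀ᶠ n in (U : Filter ℕ), r0 n ^ 2 * dt (χ n) (χ n) ≤ (B'.d n ^ kN) ^ 2
  rψ : ∀ᶠ n in (U : Filter ℕ), ∀ j, r0 n ^ 2 * dt (ψ n j) (ψ n j) ≤ (B'.d n ^ k1) ^ 2
  wm : ∃ ε : ℝ, 0 < ε ∧ ∀ᶠ n in (U : Filter ℕ), B'.d n ^ (-ε) * w n 1 ≤ wmax n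
  D0 : ∀ n, 0 ≤ Dn n
  R0 : ∀ n x y z, 0 ≤ x → 0 ≤ y → 0 ≤ z → 0 ≤ R n x y z
  Rm : ∀ n x y z x' y' z', 0 ≤ x → 0 ≤ y → 0 ≤ z → x ≤ x' → y ≤ y' → z ≤ z' →
    R n x y z ≤ R n x' y' z'
  dmax : ∀ᶠ n in (U : Filter ℕ), ∀ (e' : Fin 3 → V3) (c' : Ln4) (w' : V3)
    (q' : ℝ → V3 → ℝ) (a' : ℝ), ShN e' c' w' q' a' (zl (i n) (J0 n)) (rho (i n)) (r0 n) →
    w' 1 ≤ wmax n →
    (((E n).filter fun x : ℕ × ℝ => InSheet (L n x.1) e' c' w' q' a' (zl (i n) (J0 n))
      (rho (i n))).card : ℝ) ≤ Dn n * (a' * w' 2 * w' 1 * R n a' (w' 2) (w' 1))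


theorem abs_dt_scale (χ δ : V3) {K : ℝ} (hK : 0 < K) : |dt ((1 / K) • χ) δ| = |dt χ δ| / K := by
  rw [smul_dt, abs_mul, abs_of_pos (by positivity)]
  ring




end

end Crest.Agent.R136.Lab926
end

-- ▼ part R136/LabF_926
section

/-!
# R136: END-LAB, counts of incidences, any bound for planks (helper926)

`lab_inc` : 544's `lab_gam` in terms of incidences (`lab_fin` with the number of incidences of the
family in a rotated plank as hypothesis).
-/

set_option autoImplicit false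
set_option linter.unusedVariables false
set_option linter.unusedSectionVars false

namespace Crest.Agent.R136.Lab926

open Finset
open Crest.Agent.R138.Tub70 (KM32)
open Crest.Agent.R138.Mk163 (zc zl rho alive own)
open Crest.Agent.R136.Sh605
open Crest.Agent.R136.Lab544 (lab_gam)

open Classical in
/-- **END-LAB, incidences, any bound `P` for planks** -/
theorem lab_inc (hKM : ∀ V : ℝ, KM32 V) {ε : ℝ} (hε : 0 < ε) :
    ∃ κ : ℝ, ∃ M₀ : ℕ, 0 < κ ∧ ∀ (F : Finset (ℕ × ℝ)) (L : ℕ → Ln4) (ψ : Fin 2 → V3) (c : Ln4)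
      (i M : ℕ) (J0 : ℤ) (K nn m P : ℝ), F.Nonempty → M₀ ≤ M →
      1 ≤ K → K ≤ (2 : ℝ) ^ (κ * M) → 0 < nn → 0 ≤ P →
      (∀ x ∈ F, zc i x.2 = J0) →
      (∀ x ∈ F, ∀ z, zl i J0 ≤ z → z ≤ zl i J0 + rho i →
        ∀ j, |dt (ψ j) ((L x.1).pos z - c.pos z)| ≤ 1) →
      -- own counts
      (∀ x ∈ F, nn ≤ K * ((F.filter fun y => y.1 = x.1).card : ℝ)) →
      (∀ x ∈ F, ((F.filter fun y => y.1 = x.1 ∧ zc (i + M + 1) y.2 = zc (i + M + 1) x.2).card : ℝ)
        ≤ K * (nn / 2 ^ (M + 1))) →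
      -- rich
      (∀ x ∈ F, m ≤ K * ((F.filter fun y => zc (i + M + 1) y.2 = zc (i + M + 1) x.2 ∧
        ∀ j, |dt (ψ j) ((L y.1).pos x.2 - (L x.1).pos x.2)| ≤ 1 / 2 / 2 ^ M).card : ℝ)) →
      -- planks
      (∀ x ∈ F, ∀ α β : ℝ, α ^ 2 + β ^ 2 = 1 → ∀ u : Fin 2 → ℝ,
        (∀ j, 1 / (2 : ℝ) ^ M ≤ u j ∧ u j ≤ 1) →
        ((F.filter fun y => ∀ z, zl i J0 ≤ z → z ≤ zl i J0 + rho i →
          |α * dt (ψ 0) ((L y.1).pos z - (L x.1).pos z) +
            β * dt (ψ 1) ((L y.1).pos z - (L x.1).pos z)| ≤ 16 * u 0 ∧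
          |-β * dt (ψ 0) ((L y.1).pos z - (L x.1).pos z) +
            α * dt (ψ 1) ((L y.1).pos z - (L x.1).pos z)| ≤ 16 * u 1).card : ℝ) ≤
          P * (u 0 * u 1)) →
      m * 2 ^ (3 * M) ≤ (2 : ℝ) ^ (ε * M) * P := by
  obtain ⟨κ, M₀, hκ, key⟩ := lab_gam hKM (half_pos hε)
  set κ' := min (κ / 2) (ε / 8) with hκ'
  have hκ'0 : 0 < κ' := by rw [hκ']; exact lt_min (by positivity) (by positivity)
  refine ⟨κ', M₀, hκ'0, ?_⟩
  intro F L ψ c i M J0 K nn m P hF hM hK1 hK hnn hP hJ hbd hown hup hrich hplank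
  have hK0 : 0 < K := by linarith
  have hM0 : (0 : ℝ) ≤ M := Nat.cast_nonneg _
  have hK2 : K ^ 2 ≤ (2 : ℝ) ^ (κ * M) := by
    calc K ^ 2 ≤ ((2 : ℝ) ^ (κ' * M)) ^ 2 := by gcongr
      _ = (2 : ℝ) ^ (2 * κ' * M) := by
        rw [← Real.rpow_natCast, ← Real.rpow_mul (by norm_num)]
        congr 1; push_cast; ring
      _ ≤ (2 : ℝ) ^ (κ * M) := by
        refine Real.rpow_le_rpow_of_exponent_le (by norm_num) ?_
        have : κ' ≤ κ / 2 := min_le_left _ _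
        nlinarith
  have hK3 : K ^ 3 ≤ (2 : ℝ) ^ (ε / 2 * M) := by
    calc K ^ 3 ≤ ((2 : ℝ) ^ (κ' * M)) ^ 3 := by gcongr
      _ = (2 : ℝ) ^ (3 * κ' * M) := by
        rw [← Real.rpow_natCast, ← Real.rpow_mul (by norm_num)]
        congr 1; push_cast; ring
      _ ≤ (2 : ℝ) ^ (ε / 2 * M) := by
        refine Real.rpow_le_rpow_of_exponent_le (by norm_num) ?_
        have : κ' ≤ ε / 8 := min_le_right _ _
        nlinarith
  -- own count of cells
  have hcellown : ∀ x ∈ F, (2 : ℝ) ^ ((M : ℝ) - κ * M) ≤ ((own F i (i + M + 1) x).card : ℝ) := by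
    intro x hx
    have hfil : (F.filter fun y => y.1 = x.1 ∧ zc i y.2 = zc i x.2) =
        F.filter fun y => y.1 = x.1 := by
      refine filter_congr fun y hy => ?_
      rw [hJ y hy, hJ x hx]; simp
    have h1 := End882.own_card F i (i + M + 1) x hK0 (s := nn) (t := nn / 2 ^ (M + 1))
      (by positivity) (by rw [hfil]; exact hown x hx) hup
    have h2 : (2 : ℝ) ^ (M + 1) ≤ K ^ 2 * ((own F i (i + M + 1) x).card : ℝ) := by
      have h3 : 0 < nn / 2 ^ (M + 1) := by positivity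
      refine le_of_mul_le_mul_left ?_ h3
      calc nn / 2 ^ (M + 1) * 2 ^ (M + 1) = nn := by field_simp
        _ ≤ K ^ 2 * (nn / 2 ^ (M + 1)) * ((own F i (i + M + 1) x).card : ℝ) := h1
        _ = _ := by ring
    have h3 : (2 : ℝ) ^ (M : ℝ) ≤ (2 : ℝ) ^ (κ * M) * ((own F i (i + M + 1) x).card : ℝ) := by
      calc (2 : ℝ) ^ (M : ℝ) = 2 ^ M := Real.rpow_natCast _ _
        _ ≤ 2 ^ (M + 1) := pow_le_pow_right₀ (by norm_num) (by omega)
        _ ≤ K ^ 2 * ((own F i (i + M + 1) x).card : ℝ) := h2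
        _ ≤ _ := by gcongr
    rw [Real.rpow_sub (by norm_num), div_le_iff₀ (by positivity), mul_comm]
    exact h3
  -- the multiplicity
  set m' : ℝ := m * 2 ^ (M + 1) / (K ^ 2 * nn) with hm'
  have hmain := key F L ψ c i M J0 m' (K * P / nn) hF hM hJ hbd hcellown ?_ ?_
  · -- conclusion
    rw [hm', div_mul_eq_mul_div, div_le_iff₀ (by positivity)] at hmain
    have e1 : (2:ℝ) ^ (M + 1) * 2 ^ (2 * M) = 2 * 2 ^ (3 * M) := by
      rw [← pow_add, ← pow_succ']; congr 1; omega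
    have h5 : m * 2 ^ (3 * M) * 2 ≤
        ((2:ℝ) ^ (ε / 2 * M) * (K * P / nn)) * (K ^ 2 * nn) := by
      refine le_trans (le_of_eq ?_) hmain
      calc m * 2 ^ (3 * M) * 2 = m * (2 * 2 ^ (3 * M)) := by ring
        _ = m * (2 ^ (M + 1) * 2 ^ (2 * M)) := by rw [e1]
        _ = _ := by ring
    have e2 : ((2:ℝ) ^ (ε / 2 * M) * (K * P / nn)) * (K ^ 2 * nn) =
        (2:ℝ) ^ (ε / 2 * M) * (K ^ 3 * P) := by
      field_simp
    rw [e2] at h5
    have h6 : (2:ℝ) ^ (ε / 2 * M) * (K ^ 3 * P) ≤ (2:ℝ) ^ (ε * M) * P := by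
      calc (2:ℝ) ^ (ε / 2 * M) * (K ^ 3 * P) ≤
          (2:ℝ) ^ (ε / 2 * M) * ((2:ℝ) ^ (ε / 2 * M) * P) := by gcongr
        _ = ((2:ℝ) ^ (ε / 2 * M) * (2:ℝ) ^ (ε / 2 * M)) * P := by ring
        _ = (2:ℝ) ^ (ε * M) * P := by
            rw [← Real.rpow_add (by norm_num)]
            congr 2; ring
    have h7 : 0 ≤ (2:ℝ) ^ (ε * M) * P := by positivity
    linarith
  · -- rich
    intro x hx
    refine ⟨x.2, rfl, ?_⟩
    have h1 := hrich x hx
    set G := F.filter fun y => zc (i + M + 1) y.2 = zc (i + M + 1) x.2 ∧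
        ∀ j, |dt (ψ j) ((L y.1).pos x.2 - (L x.1).pos x.2)| ≤ 1 / 2 / 2 ^ M with hG
    set A := (alive F (i + M + 1) (zc (i + M + 1) x.2)).filter fun t =>
          ∀ j, |dt (ψ j) ((L t).pos x.2 - (L x.1).pos x.2)| ≤ 1 / 2 / 2 ^ M with hA
    have h2 : (G.card : ℝ) ≤ A.card * (K * (nn / 2 ^ (M + 1))) := by
      have h3 : G.card = ∑ t ∈ A, (G.filter fun y => y.1 = t).card :=
        card_eq_sum_card_fiberwise (f := Prod.fst) (t := A) fun y hy => by
          have hy' : y ∈ G := hy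
          rw [hG, mem_filter] at hy'
          change y.1 ∈ A
          rw [hA, mem_filter]
          refine ⟨?_, hy'.2.2⟩
          unfold alive
          exact mem_image.2 ⟨y, mem_filter.2 ⟨hy'.1, hy'.2.1⟩, rfl⟩
      have h4 : ∀ t ∈ A, ((G.filter fun y => y.1 = t).card : ℝ) ≤ K * (nn / 2 ^ (M + 1)) := by
        intro t ht
        rw [hA, mem_filter] at ht
        have ht1 := ht.1
        unfold alive at ht1
        obtain ⟨y, hy, hyt⟩ := mem_image.1 ht1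
        rw [mem_filter] at hy
        refine le_trans (Nat.cast_le.2 (card_le_card fun y' hy' => ?_)) (hup y hy.1)
        rw [mem_filter, hG, mem_filter] at hy'
        rw [mem_filter]
        exact ⟨hy'.1.1, hy'.2.trans hyt.symm, hy'.1.2.1.trans hy.2.symm⟩
      rw [h3]; push_cast
      calc ∑ t ∈ A, ((G.filter fun y => y.1 = t).card : ℝ) ≤ ∑ t ∈ A, K * (nn / 2 ^ (M + 1)) :=
            sum_le_sum h4
        _ = _ := by rw [sum_const, nsmul_eq_mul]
    rw [hm', div_le_iff₀ (by positivity)]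
    have h5 : m * 2 ^ (M + 1) ≤ (K * (A.card * (K * (nn / 2 ^ (M + 1))))) * 2 ^ (M + 1) := by
      have : m ≤ K * (A.card * (K * (nn / 2 ^ (M + 1)))) := h1.trans (by gcongr)
      gcongr
    refine h5.trans (le_of_eq ?_)
    field_simp
  · -- planks
    intro x hx α β hαβ u hu
    have h1 := hplank x hx α β hαβ u hu
    set G := F.filter fun y => ∀ z, zl i J0 ≤ z → z ≤ zl i J0 + rho i →
          |α * dt (ψ 0) ((L y.1).pos z - (L x.1).pos z) +
            β * dt (ψ 1) ((L y.1).pos z - (L x.1).pos z)| ≤ 16 * u 0 ∧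
          |-β * dt (ψ 0) ((L y.1).pos z - (L x.1).pos z) +
            α * dt (ψ 1) ((L y.1).pos z - (L x.1).pos z)| ≤ 16 * u 1 with hG
    set TG := (F.image Prod.fst).filter fun t => ∀ z, zl i J0 ≤ z → z ≤ zl i J0 + rho i →
          |α * dt (ψ 0) ((L t).pos z - (L x.1).pos z) +
            β * dt (ψ 1) ((L t).pos z - (L x.1).pos z)| ≤ 16 * u 0 ∧
          |-β * dt (ψ 0) ((L t).pos z - (L x.1).pos z) +
            α * dt (ψ 1) ((L t).pos z - (L x.1).pos z)| ≤ 16 * u 1 with hTG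
    have h2 : nn * (TG.card : ℝ) ≤ K * (G.card : ℝ) := by
      have h3 : G.card = ∑ t ∈ TG, (G.filter fun y => y.1 = t).card :=
        card_eq_sum_card_fiberwise (f := Prod.fst) (t := TG) fun y hy => by
          have hy' : y ∈ G := hy
          rw [hG, mem_filter] at hy'
          change y.1 ∈ TG
          rw [hTG, mem_filter]
          exact ⟨mem_image_of_mem _ hy'.1, hy'.2⟩
      have h4 : ∀ t ∈ TG, nn ≤ K * ((G.filter fun y => y.1 = t).card : ℝ) := by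
        intro t ht
        rw [hTG, mem_filter, mem_image] at ht
        obtain ⟨⟨y, hy, hyt⟩, ht2⟩ := ht
        have h5 := hown y hy
        have h6 : (F.filter fun y' => y'.1 = y.1) ⊆ G.filter fun y' => y'.1 = t := by
          intro y' hy'
          rw [mem_filter] at hy'
          rw [mem_filter, hG, mem_filter]
          refine ⟨⟨hy'.1, ?_⟩, hy'.2.trans hyt⟩
          rw [hy'.2, hyt]; exact ht2
        refine h5.trans ?_
        have := (Nat.cast_le (α := ℝ)).2 (card_le_card h6)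
        gcongr
      calc nn * (TG.card : ℝ) = ∑ t ∈ TG, nn := by rw [sum_const, nsmul_eq_mul, mul_comm]
        _ ≤ ∑ t ∈ TG, K * ((G.filter fun y => y.1 = t).card : ℝ) := sum_le_sum h4
        _ = K * (G.card : ℝ) := by rw [← mul_sum, h3]; push_cast; rfl
    have h7 : (TG.card : ℝ) ≤ K * P / nn * (u 0 * u 1) := by
      rw [div_mul_eq_mul_div, le_div_iff₀ hnn]
      calc (TG.card : ℝ) * nn = nn * (TG.card : ℝ) := mul_comm _ _
        _ ≤ K * (G.card : ℝ) := h2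
        _ ≤ K * (P * (u 0 * u 1)) := by gcongr
        _ = _ := by ring
    exact h7

end Crest.Agent.R136.Lab926
end

-- ▼ part R136/LabW2_926
section

/-!
# R136: END-LAB, window side, part 2 (helper926)

`BodyIn` : number of incidences of the family in a slab cut with a rotated plank;
`SlabIn.concl2` : the inequality of END-LAB for a family in slabs.
-/

set_option autoImplicit false
set_option linter.unusedSectionVars false
set_option linter.unusedVariables false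

open Filter Topology

namespace Crest.Agent.R136.Lab926

open Finset Crest.Agent.R138.Ex926 Crest.Agent.R136.Qg926 Crest.Agent.R136.Sh605
open Crest.Agent.R138.Mk163 (zc zl rho)

open Classical in
/-- **bodies** -/
structure BodyIn (B' : Base) (E : ℕ → Finset (ℕ × ℝ)) (L : ℕ → ℕ → Ln4) (χ : ℕ → V3)
    (ψ : ℕ → Fin 2 → V3) (i : ℕ → ℕ) (J0 : ℕ → ℤ) (kN k1 : ℝ) (P : ℕ → ℝ) : Prop where
  P0 : ∀ n, 0 ≤ P n
  body : ∀ ε : ℝ, 0 < ε → ∃ δ : ℝ, 0 < δ ∧ ∀ᶠ n in (U : Filter ℕ), ∀ K0 : ℝ, 1 ≤ K0 →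
    K0 ≤ B'.d n ^ (-δ) → ∀ x ∈ E n, ∀ α β : ℝ, α ^ 2 + β ^ 2 = 1 → ∀ u : Fin 2 → ℝ,
    (∀ j, B'.d n ^ k1 ≤ u j ∧ u j ≤ 1) →
      (((E n).filter fun y => ∀ z, zl (i n) (J0 n) ≤ z → z ≤ zl (i n) (J0 n) + rho (i n) →
        |dt (χ n) ((L n y.1).pos z - (L n x.1).pos z)| ≤ K0 * (2 * B'.d n ^ kN) ∧
        |α * dt (ψ n 0) ((L n y.1).pos z - (L n x.1).pos z) +
          β * dt (ψ n 1) ((L n y.1).pos z - (L n x.1).pos z)| ≤ K0 * (16 * u 0) ∧
        |-β * dt (ψ n 0) ((L n y.1).pos z - (L n x.1).pos z) +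
          α * dt (ψ n 1) ((L n y.1).pos z - (L n x.1).pos z)| ≤ K0 * (16 * u 1)).card : ℝ) ≤
        B'.d n ^ (-ε) * P n * (u 0 * u 1)

section

variable {γ : Type} {B' : Base} {E : ℕ → Finset (ℕ × ℝ)} {L : ℕ → ℕ → Ln4}
    {χ : ℕ → V3} {ψ : ℕ → Fin 2 → V3} {i M : ℕ → ℕ} {J0 : ℕ → ℤ} {T To P : ℕ → ℝ}
    {kN k1 l1 : ℝ} {dp : ℕ → ℕ × ℝ → γ}

set_option maxHeartbeats 1600000 in
open Classical in
/-- **the inequality of END-LAB** for a family in slabs, any bound for bodies -/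
theorem SlabIn.concl2 (hKM : ∀ V : ℝ, Crest.Agent.R138.Tub70.KM32 V)
    (h : SlabIn B' E L χ ψ i M J0 T To kN k1 l1 dp) (g : BodyIn B' E L χ ψ i J0 kN k1 P) {ε : ℝ}
    (hε : 0 < ε) :
    ∀ᶠ n in (U : Filter ℕ), T n * B'.d n ^ (-l1 - 3 * k1 + ε) ≤ P n := by
  have hk1 := h.k10
  have hkN := h.kN0
  obtain ⟨κ, M₀, hκ, key⟩ := lab_inc hKM (ε := ε / (8 * (k1 + 1))) (by positivity)
  obtain ⟨δb, hδb, hbody⟩ := g.body (ε / 8) (by positivity)
  -- small loss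
  obtain ⟨δ, hδ0, hδ1, hδ2, hδ3, hδ4⟩ : ∃ δ : ℝ, 0 < δ ∧ 8 * δ ≤ ε / 2 ∧ 8 * δ ≤ κ * (k1 / 2) ∧
      8 * δ ≤ δb ∧ 8 * δ ≤ k1 := by
    refine ⟨min (min (ε / 2) (κ * (k1 / 2))) (min δb k1) / 8, by positivity, ?_, ?_, ?_, ?_⟩ <;>
      rw [mul_div_cancel₀ _ (by norm_num : (8 : ℝ) ≠ 0)]
    · exact (min_le_left _ _).trans (min_le_left _ _)
    · exact (min_le_left _ _).trans (min_le_right _ _)
    · exact (min_le_right _ _).trans (min_le_left _ _)
    · exact (min_le_right _ _).trans (min_le_right _ _)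
  filter_upwards [h.piece hδ0, hbody, h.Mlow δ hδ0, h.Mup,
    ev_const_le B' (show (0 : ℝ) < (2 : ℝ) ^ M₀ by positivity) (show 0 < k1 / 2 by positivity)] with
    n hpiece hbd hMl hMu hM0
  have hd := B'.pos n
  have hd1 := (B'.lt n).le
  have hp : ∀ t : ℝ, 0 < B'.d n ^ t := fun t => Real.rpow_pos_of_pos hd t
  have hanti : ∀ {s t : ℝ}, s ≤ t → B'.d n ^ t ≤ B'.d n ^ s := fun hst =>
    Real.rpow_le_rpow_of_exponent_ge hd hd1 hst
  have hmul : ∀ s t : ℝ, B'.d n ^ s * B'.d n ^ t = B'.d n ^ (s + t) := fun s t =>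
    (Real.rpow_add hd s t).symm
  have hT := h.T0 n
  have hTo := h.To0 n
  obtain ⟨F, hF, x₀, hx₀, f1, f2, f3, f4, f5⟩ := hpiece
  set K0 : ℝ := B'.d n ^ (-δ) with hK0
  have hK00 : 0 < K0 := hp _
  have hK01 : 1 ≤ K0 := Real.one_le_rpow_of_pos_of_le_one_of_nonpos hd hd1 (by linarith)
  set K : ℝ := B'.d n ^ (-(4 * δ)) with hK
  have hK1 : 1 ≤ K := Real.one_le_rpow_of_pos_of_le_one_of_nonpos hd hd1 (by linarith)
  have hKpos : 0 < K := by linarith
  have h2M : (0 : ℝ) < (2 : ℝ) ^ M n := by positivity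
  have hMbig : M₀ ≤ M n := by
    have h1 : (2 : ℝ) ^ M₀ ≤ (2 : ℝ) ^ M n := by
      refine hM0.trans (le_trans (hanti ?_) hMl)
      linarith
    exact (Nat.pow_le_pow_iff_right (by norm_num : 1 < 2)).1 (by exact_mod_cast h1)
  have hKκ : K ≤ (2 : ℝ) ^ (κ * M n) := by
    have h1 : B'.d n ^ (-(k1 / 2)) ≤ (2 : ℝ) ^ M n := (hanti (by linarith)).trans hMl
    have h2 : (B'.d n ^ (-(k1 / 2))) ^ κ ≤ ((2 : ℝ) ^ M n) ^ κ :=
      Real.rpow_le_rpow (hp _).le h1 hκ.le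
    rw [← Real.rpow_mul hd.le, ← Real.rpow_natCast, ← Real.rpow_mul (by norm_num)] at h2
    rw [mul_comm κ]
    refine le_trans (hanti ?_) h2
    nlinarith
  have hKe : (2 : ℝ) ^ (ε / (8 * (k1 + 1)) * (M n : ℝ)) ≤ B'.d n ^ (-(ε / 8)) := by
    have h1 : (2 : ℝ) ^ M n ≤ B'.d n ^ (-k1) := by
      have := hp (-k1)
      linarith
    have h2 : ((2 : ℝ) ^ M n) ^ (ε / (8 * (k1 + 1))) ≤ (B'.d n ^ (-k1)) ^ (ε / (8 * (k1 + 1))) :=
      Real.rpow_le_rpow h2M.le h1 (by positivity)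
    rw [← Real.rpow_mul hd.le, ← Real.rpow_natCast, ← Real.rpow_mul (by norm_num)] at h2
    rw [mul_comm (ε / (8 * (k1 + 1)))]
    refine h2.trans (hanti ?_)
    have h3 : k1 * (ε / (8 * (k1 + 1))) ≤ ε / 8 := by
      rw [mul_div_assoc', div_le_div_iff₀ (by positivity) (by norm_num)]
      nlinarith
    linarith
  have hMup' : B'.d n ^ k1 ≤ 1 / 2 / 2 ^ M n := by
    rw [le_div_iff₀ h2M]
    have h1 := mul_le_mul_of_nonneg_left hMu (hp k1).le
    have e1 : B'.d n ^ k1 * (1 / 2 * B'.d n ^ (-k1)) = 1 / 2 := by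
      rw [mul_left_comm, hmul, add_neg_cancel, Real.rpow_zero, mul_one]
    linarith
  have hk1δ : B'.d n ^ (k1 - δ) / K0 = B'.d n ^ k1 := by
    rw [hK0, ← Real.rpow_sub hd]; congr 1; ring
  have hkNδ : B'.d n ^ (kN - δ) = K0 * B'.d n ^ kN := by
    rw [hK0, hmul]; congr 1; ring
  have hP0 := g.P0 n
  have hsc : ∀ t : ℝ, 1 / K0 * t = t / K0 := fun t => by ring
  have hmain := key F (L n) (fun j => (1 / K0) • ψ n j) (L n x₀.1) (i n) (M n) (J0 n) K (To n)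
    (T n * B'.d n ^ (-l1)) (B'.d n ^ (-(ε / 8)) * P n) ⟨x₀, hx₀⟩ hMbig hK1 hKκ hTo
    (mul_nonneg (hp _).le hP0) f1
    (fun x hx z hz1 hz2 j => by
      obtain ⟨b1, b2⟩ := f2 x hx z hz1 hz2
      show |dt ((1 / K0) • ψ n j) _| ≤ 1
      rw [abs_dt_scale _ _ hK00, div_le_one hK00]
      exact b2 j)
    (fun x hx => by
      refine le_trans ?_ (mul_le_mul_of_nonneg_left (f3 x hx) hKpos.le)
      calc To n = To n * (B'.d n ^ (-δ) * B'.d n ^ δ) := by
            rw [hmul, neg_add_cancel, Real.rpow_zero, mul_one]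
        _ ≤ To n * (K * B'.d n ^ δ) := by
            have : B'.d n ^ (-δ) ≤ K := hanti (by linarith)
            have := hp δ
            gcongr
        _ = K * (To n * B'.d n ^ δ) := by ring)
    (fun x hx => by
      refine (f4 x hx).trans ?_
      have h1 : B'.d n ^ (k1 - δ) * (2 : ℝ) ^ (M n + 1) ≤ K := by
        have h2 : (2 : ℝ) ^ (M n + 1) ≤ B'.d n ^ (-k1) := by
          rw [pow_succ]; linarith
        calc B'.d n ^ (k1 - δ) * (2 : ℝ) ^ (M n + 1) ≤ B'.d n ^ (k1 - δ) * B'.d n ^ (-k1) :=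
              mul_le_mul_of_nonneg_left h2 (hp _).le
          _ = B'.d n ^ (-δ) := by rw [hmul]; congr 1; ring
          _ ≤ K := hanti (by linarith)
      rw [mul_div_assoc', le_div_iff₀ (by positivity)]
      calc To n * B'.d n ^ (k1 - δ) * (2 : ℝ) ^ (M n + 1) =
            To n * (B'.d n ^ (k1 - δ) * (2 : ℝ) ^ (M n + 1)) := by ring
        _ ≤ To n * K := mul_le_mul_of_nonneg_left h1 hTo.le
        _ = K * To n := by ring)
    (fun x hx => by
      have h1 : T n * B'.d n ^ (-l1) ≤ K * (T n * B'.d n ^ (-l1 + δ)) := by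
        calc T n * B'.d n ^ (-l1) = B'.d n ^ (-δ) * (T n * B'.d n ^ (-l1 + δ)) := by
              rw [mul_left_comm, hmul]; congr 2; ring
          _ ≤ _ := by
              have : B'.d n ^ (-δ) ≤ K := hanti (by linarith)
              have := mul_pos hT (hp (-l1 + δ))
              gcongr
      refine h1.trans (mul_le_mul_of_nonneg_left ((f5 x hx).trans ?_) hKpos.le)
      refine Nat.cast_le.2 (card_le_card fun y hy => ?_)
      obtain ⟨hy1, hy2, hy3⟩ := mem_filter.1 hy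
      refine mem_filter.2 ⟨hy1, hy2, fun j => ?_⟩
      show |dt ((1 / K0) • ψ n j) _| ≤ _
      rw [abs_dt_scale _ _ hK00]
      refine le_trans ?_ hMup'
      rw [← hk1δ]
      exact div_le_div_of_nonneg_right (hy3 j) hK00.le)
    (fun x hx α β hαβ u hu => by
      have hu' : ∀ j, B'.d n ^ k1 ≤ u j ∧ u j ≤ 1 := fun j => by
        refine ⟨le_trans (hMup'.trans ?_) (hu j).1, (hu j).2⟩
        refine div_le_div_of_nonneg_right (by norm_num) h2M.le
      refine le_trans (Nat.cast_le.2 (card_le_card fun y hy => ?_))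
        (hbd K0 hK01 (hanti (by linarith)) x (hF hx) α β hαβ u hu')
      obtain ⟨hy1, hy2⟩ := mem_filter.1 hy
      refine mem_filter.2 ⟨hF hy1, fun z hz1 hz2 => ?_⟩
      obtain ⟨g1, g2⟩ := hy2 z hz1 hz2
      simp only [smul_dt, hsc] at g1 g2
      have e1 : (L n y.1).pos z - (L n x.1).pos z =
          ((L n y.1).pos z - (L n x₀.1).pos z) - ((L n x.1).pos z - (L n x₀.1).pos z) := by
        abel
      refine ⟨?_, ?_, ?_⟩
      · rw [e1, dt_sub]
        have b1 := (f2 y hy1 z hz1 hz2).1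
        have b2 := (f2 x hx z hz1 hz2).1
        rw [hkNδ] at b1 b2
        rw [abs_le] at b1 b2 ⊢
        constructor <;> linarith [b1.1, b1.2, b2.1, b2.2]
      · have e2 : ∀ s t : ℝ, α * (s / K0) + β * (t / K0) = (α * s + β * t) / K0 := fun s t => by
          ring
        rw [e2, abs_div, abs_of_pos hK00, div_le_iff₀ hK00] at g1
        linarith
      · have e2 : ∀ s t : ℝ, -β * (s / K0) + α * (t / K0) = (-β * s + α * t) / K0 := fun s t => by
          ring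
        rw [e2, abs_div, abs_of_pos hK00, div_le_iff₀ hK00] at g2
        linarith)
  -- numbers
  have c1 : T n * B'.d n ^ (-l1 - 3 * k1 + 3 * δ) ≤ T n * B'.d n ^ (-l1) * 2 ^ (3 * M n) := by
    have h1 : (B'.d n ^ (-(k1 - δ))) ^ 3 ≤ ((2 : ℝ) ^ M n) ^ 3 := pow_le_pow_left₀ (hp _).le hMl 3
    have e1 : (B'.d n ^ (-(k1 - δ))) ^ 3 = B'.d n ^ (-3 * k1 + 3 * δ) := by
      rw [← Real.rpow_natCast, ← Real.rpow_mul hd.le]; congr 1; push_cast; ring
    have e2 : ((2 : ℝ) ^ M n) ^ 3 = 2 ^ (3 * M n) := by rw [← pow_mul]; congr 1; ring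
    rw [e1, e2] at h1
    have e3 : T n * B'.d n ^ (-l1 - 3 * k1 + 3 * δ) =
        T n * B'.d n ^ (-l1) * B'.d n ^ (-3 * k1 + 3 * δ) := by
      rw [mul_assoc, hmul]; congr 2; ring
    rw [e3]
    exact mul_le_mul_of_nonneg_left h1 (mul_pos hT (hp _)).le
  have c3 : T n * B'.d n ^ (-l1 - 3 * k1 + 3 * δ) ≤
      B'.d n ^ (-(ε / 8)) * (B'.d n ^ (-(ε / 8)) * P n) := by
    refine c1.trans (hmain.trans ?_)
    exact mul_le_mul_of_nonneg_right hKe (mul_nonneg (hp _).le hP0)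
  have e4 : T n * B'.d n ^ (-l1 - 3 * k1 + ε) ≤
      B'.d n ^ (ε / 4) * (T n * B'.d n ^ (-l1 - 3 * k1 + 3 * δ)) := by
    rw [mul_left_comm, hmul]
    exact mul_le_mul_of_nonneg_left (hanti (by linarith)) hT.le
  refine e4.trans ((mul_le_mul_of_nonneg_left c3 (hp _).le).trans (le_of_eq ?_))
  rw [← mul_assoc, ← mul_assoc, hmul, hmul]
  have : ε / 4 + -(ε / 8) + -(ε / 8) = 0 := by ring
  rw [this, Real.rpow_zero, one_mul]

end

end Crest.Agent.R136.Lab926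
end

-- ▼ part R136/LabW3_926

/-!
# R136: END-LAB, window side, part 3 (helper926)

`LabH` : the ambient sequence (chart `couQ`, sample, D-max in the form `DMX`, sizes of the marks of
level `0`); `GlobP` : all facts of the ambient sequence which are used in a window, with one loss
`S`; `exists_glob` : they hold with one sub-polynomial loss.
-/

set_option autoImplicit false
set_option linter.unusedSectionVars false
set_option linter.unusedVariables false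

open Filter Topology

namespace Crest.Agent.R136.Lab926

open Finset
open Crest.Agent.R138.Ex926 (Base U cls QProf)
open Crest.Agent.R138.Mk163 (zc zl rho alive)
open Crest.Agent.R138.MkRef627 (lc kc mem_alive)
open Crest.Agent.R136.Sh605
open Crest.Agent.R136.HR829 (Rq)
open Crest.Agent.R136.End403 (exists_err own_near_unif)
open Crest.Agent.R136.Net191
open Crest.Agent.R136.NetQ186
open Crest.Agent.R136.GeoQ186
open Crest.Agent.R136.MkA627
open Crest.Agent.R136.Wq638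
open Crest.Agent.R136.Lq196
open Crest.Agent.R136.Qg926 (ev_const_le)

section

variable {σ' : Type*}

/-- exponents of the sizes of the marks of level `0` -/
noncomputable def cAB (θ : Fin 3 → ℝ) : ℝ := max 0 (θ 2 - θ 1)
noncomputable def cBY (θ : Fin 3 → ℝ) : ℝ := max 0 (θ 0 - θ 2)
noncomputable def cRR (θ : Fin 3 → ℝ) : ℝ := max 0 (1 - θ 0)

open Classical in
/-- **the ambient sequence** -/
structure LabH (B : Base) (I I1 : ℕ → Finset (ℕ × ℝ)) (G : Geo σ' (Fin 3)) (L : ℕ → ℕ → Ln4)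
    (π : Equiv.Perm (Fin 3)) (eE fA fB : ℕ → ℕ × ℝ → ℝ) (lev : ℕ → ℚ → ℕ) (A : ℕ → ℝ) (g : ℝ)
    (τ : Fin 3 → ℝ → ℝ) (f : ℕ → ℚ → ℕ → ℤ → ℕ) (b : ℕ → ℚ → ℕ → σ') (vm : ℕ → ℚ → ℝ)
    (w : Fin 3 → ℕ → ℚ → ℝ) (q θ : Fin 3 → ℝ) (w0 R T0 : ℝ) (V T : Fin 11 → Prop)
    (PD : Set (Fin 11 → ℝ)) (DD : (Fin 11 → ℝ) → ℝ) (rp : ℝ → Fin 11 → ℝ) (EE : ℝ → ℝ)
    (ν own : (Fin 11 → ℝ) → ℝ) (c₀ : ℝ) (rg : Rg) : Prop where
  pre : PreQ B I G lev A g 0 τ f b vm w (couQ B lev w w0 (incQ π L eE fA fB)) monQ 2 R 0 w0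
    (N0Q A vm) PD DD rp (ownQ θ w0 R V) EE T
  ext : ExtQ B I I1 (couQ B lev w w0 (incQ π L eE fA fB)) monQ 2 R 0 w0 0 PD DD rp
    (ownQ θ w0 R V) EE T ν own c₀
  comb : CombQ B I I1 lev (couQ B lev w w0 (incQ π L eE fA fB)) monQ 2 R (N0Q A vm) c₀
  flag : ∀ n, ∀ x ∈ I n, |eE n x| ≤ 1 ∧ |fA n x| ≤ 1 ∧ |fB n x| ≤ 1
  q0 : ∀ j, 0 ≤ q j
  big : BigQ θ w0 R T0
  oR : ∀ v : ℝ, 0 ≤ v → v ≤ 1 → ∀ k, ownQ θ w0 R V v k ≤ R
  θ1 : 0 < θ 1
  rr0 : ∀ n, 0 < rg.r n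
  dmax : ∀ v : ℚ, 0 ≤ v → v ≤ 1 → ∀ ε : ℝ, 0 < ε → ∀ᶠ n in (U : Filter ℕ), ∀ J : ℤ,
      DMX (alive (I n) (lev n v) J) (L n) (zl (lev n v) J) (rho (lev n v))
        (B.d n ^ (-ε) * ampA B A (fun v => g * v) n v) (Rq q (rho (lev n v))) (rg.r n) (rg.m0 n)
        (min (rho (lev n v)) (rg.m1 n)) (rg.m2 n) (rg.o1 n) (rg.o2 n)
  /-- sizes of the marks of level `0` -/
  wpos : ∀ᶠ n in (U : Filter ℕ), ∀ j, 0 < w j n 0
  wab : ∀ ε : ℝ, 0 < ε → ∀ᶠ n in (U : Filter ℕ), w 2 n 0 ≤ B.d n ^ (cAB θ - ε) * w 1 n 0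
  wby : ∀ ε : ℝ, 0 < ε → ∀ᶠ n in (U : Filter ℕ), w 0 n 0 ≤ B.d n ^ (cBY θ - ε) * w 2 n 0
  wres : ∀ ε : ℝ, 0 < ε → ∀ᶠ n in (U : Filter ℕ), rg.r n ≤ B.d n ^ (cRR θ - ε) * w 0 n 0
  wcap : ∀ ε : ℝ, 0 < ε → ∀ᶠ n in (U : Filter ℕ), w 1 n 0 ≤ B.d n ^ (θ 1 - ε) * rho (lev n 0)
  wvm : ∀ᶠ n in (U : Filter ℕ), vm n 0 = w 0 n 0 * w 2 n 0 * w 1 n 0 *
    Rq q (rho (lev n 0)) (w 0 n 0) (w 2 n 0) (w 1 n 0)
  wm0 : ∀ C : ℝ, ∀ᶠ n in (U : Filter ℕ), w 0 n 0 ≤ B.d n ^ C * rg.m0 n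
  wm1 : ∀ C : ℝ, ∀ᶠ n in (U : Filter ℕ), w 1 n 0 ≤ B.d n ^ C * rg.m1 n
  wm2 : ∀ C : ℝ, ∀ᶠ n in (U : Filter ℕ), w 2 n 0 ≤ B.d n ^ C * rg.m2 n
  wo1 : ∀ C : ℝ, ∀ᶠ n in (U : Filter ℕ), rg.o1 n ≤ B.d n ^ C * w 1 n 0
  wo2 : ∀ C : ℝ, ∀ᶠ n in (U : Filter ℕ), rg.o2 n ≤ B.d n ^ C * w 2 n 0

open Classical in
/-- **facts used in a window**, loss `S` -/
structure GlobP (B : Base) (I I1 : ℕ → Finset (ℕ × ℝ)) (L : ℕ → ℕ → Ln4)
    (co : ℕ → ℕ × ℝ → ℕ × ℝ → Fin 11 → ℝ) (lev : ℕ → ℚ → ℕ) (g : ℝ) (vm : ℕ → ℚ → ℝ)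
    (w : Fin 3 → ℕ → ℚ → ℝ) (q θ : Fin 3 → ℝ) (R : ℝ) (o : ℝ → Fin 11 → ℝ)
    (ν own : (Fin 11 → ℝ) → ℝ) (c₀ : ℝ) (rg : Rg) (v1 γ S : ℝ) (n : ℕ) : Prop where
  near : ∀ v : ℝ, 0 ≤ v → v ≤ 1 → ∀ l : ℕ, (2 : ℝ) ^ lev n 0 * B.d n ^ (-v) ≤ 4 * 2 ^ l →
    ∀ x ∈ I n, ∀ y ∈ I n, lc l y = lc l x → ∀ k, |co n x y k| ≤ S * B.d n ^ (o v k)
  ou : ∀ p ∈ Leg monQ R, ∀ i ∈ I1 n, ((cls (I1 n) (olb B I co monQ 2 n p) i).card : ℝ) ≤
    S * B.d n ^ (-(own p))
  on : ∀ q ∈ Leg monQ R, ∀ p ∈ Leg monQ R, q ≤ p → ∀ i ∈ I1 n,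
    (((cls (I1 n) (olb B I co monQ 2 n q) i).image (olb B I co monQ 2 n p)).card : ℝ) ≤
      S * B.d n ^ (-(own q - own p))
  or : ∀ p ∈ Leg monQ R, (((I1 n).image (olb B I co monQ 2 n p)).card : ℝ) ≤
    S * ((I1 n).card * B.d n ^ (own p))
  nr : ∀ p ∈ Leg monQ R, (((I1 n).image (nlab B I co monQ 2 n p)).card : ℝ) ≤
    S * ((I1 n).card * B.d n ^ (ν p))
  ab : w 2 n 0 ≤ S * (B.d n ^ cAB θ * w 1 n 0)
  by' : w 0 n 0 ≤ S * (B.d n ^ cBY θ * w 2 n 0)
  res : rg.r n ≤ S * (B.d n ^ cRR θ * w 0 n 0)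
  cap : w 1 n 0 ≤ S * (B.d n ^ θ 1 * rho (lev n 0))
  body : BodyP B I I1 L rg q lev g vm co monQ 2 R c₀ v1 γ S n

end

section

variable {σ' : Type*} {B : Base} {I I1 : ℕ → Finset (ℕ × ℝ)} {G : Geo σ' (Fin 3)}
    {L : ℕ → ℕ → Ln4} {π : Equiv.Perm (Fin 3)} {eE fA fB : ℕ → ℕ × ℝ → ℝ} {lev : ℕ → ℚ → ℕ}
    {A : ℕ → ℝ} {g : ℝ} {τ : Fin 3 → ℝ → ℝ} {f : ℕ → ℚ → ℕ → ℤ → ℕ} {b : ℕ → ℚ → ℕ → σ'}
    {vm : ℕ → ℚ → ℝ} {w : Fin 3 → ℕ → ℚ → ℝ} {q θ : Fin 3 → ℝ} {w0 R T0 : ℝ}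
    {V T : Fin 11 → Prop} {PD : Set (Fin 11 → ℝ)} {DD : (Fin 11 → ℝ) → ℝ}
    {rp : ℝ → Fin 11 → ℝ} {EE : ℝ → ℝ} {ν own : (Fin 11 → ℝ) → ℝ} {c₀ : ℝ} {rg : Rg}

open Classical in
theorem LabH.glob_ev (H : LabH B I I1 G L π eE fA fB lev A g τ f b vm w q θ w0 R T0 V T PD DD rp
    EE ν own c₀ rg) {v1 γ : ℝ} (hv1 : v1 < 1) (hγ : 0 < γ) {ε : ℝ} (hε : 0 < ε) :
    ∀ᶠ n in (U : Filter ℕ), GlobP B I I1 L (couQ B lev w w0 (incQ π L eE fA fB)) lev g vm w q θ R
      (ownQ θ w0 R V) ν own c₀ rg v1 γ (B.d n ^ (-ε)) n := by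
  obtain ⟨δ, hδ, h1⟩ := own_near_unif H.pre hε
  filter_upwards [h1, ev_const_le B (show (0 : ℝ) < 4 by norm_num) hδ, H.ext.oprof.up ε hε,
    H.ext.oprof.num ε hε, H.ext.oprof.root ε hε, H.ext.prof.root ε hε, H.wab ε hε, H.wby ε hε,
    H.wres ε hε, H.wcap ε hε, body_eps H.pre.mka H.dmax H.comb H.q0 hv1 hγ hε] with n g1 g2 g3 g4 g5 g6 g7 g8 g9 g10 g11
  have hmul : ∀ s t : ℝ, B.d n ^ s * B.d n ^ t = B.d n ^ (s + t) := fun s t =>
    (Real.rpow_add (B.pos n) s t).symm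
  have hsp : ∀ t : ℝ, B.d n ^ (t - ε) = B.d n ^ (-ε) * B.d n ^ t := fun t => by
    rw [hmul]; congr 1; ring
  have hsp' : ∀ t : ℝ, B.d n ^ (-(t + ε)) = B.d n ^ (-ε) * B.d n ^ (-t) := fun t => by
    rw [hmul]; congr 1; ring
  exact
    { near := fun v hv0 hv1 l hl x hx y hy hxy k => by
        rw [← hsp]
        exact g1 v hv0 hv1 l (hl.trans (mul_le_mul_of_nonneg_right g2 (by positivity))) x hx y hy
          hxy k
      ou := fun p hp i hi => by rw [← hsp']; exact g3 p hp i hi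
      on := fun q hq p hp hqp i hi => by rw [← hsp']; exact g4 q hq p hp hqp i hi
      or := fun p hp => by
        have := g5 p hp
        rw [hsp] at this
        linarith
      nr := fun p hp => by
        have := g6 p hp
        rw [hsp] at this
        linarith
      ab := by rw [hsp] at g7; linarith
      by' := by rw [hsp] at g8; linarith
      res := by rw [hsp] at g9; linarith
      cap := by rw [hsp] at g10; linarith
      body := g11 }

/-- **one sub-polynomial loss** -/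
theorem LabH.exists_glob (H : LabH B I I1 G L π eE fA fB lev A g τ f b vm w q θ w0 R T0 V T PD DD rp
    EE ν own c₀ rg) {v1 γ : ℝ} (hv1 : v1 < 1) (hγ : 0 < γ) :
    ∃ S : ℕ → ℝ, B.Sub S ∧ (∀ n, 1 ≤ S n) ∧ ∀ᶠ n in (U : Filter ℕ),
      GlobP B I I1 L (couQ B lev w w0 (incQ π L eE fA fB)) lev g vm w q θ R
      (ownQ θ w0 R V) ν own c₀ rg v1 γ (S n) n := by
  obtain ⟨e, he, h1, h2⟩ := exists_err B (fun ε n =>
    GlobP B I I1 L (couQ B lev w w0 (incQ π L eE fA fB)) lev g vm w q θ R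
      (ownQ θ w0 R V) ν own c₀ rg v1 γ (B.d n ^ (-ε)) n)
    (fun ε hε => H.glob_ev hv1 hγ hε)
  refine ⟨_, h1, fun n => ?_, h2⟩
  exact Real.one_le_rpow_of_pos_of_le_one_of_nonpos (B.pos n) (B.lt n).le (by
    have := he n
    linarith)

end

end Crest.Agent.R136.Lab926
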