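import Crest.Agent.R136.LabW4_926
import Crest.Agent.R136.LabD_926
import Crest.Agent.R136.GD2_186

-- ▼ part R136/LabW5_926
section

/-!
# R136: END-LAB, window side, part 5 (helper926)

`exists_fam` : the family `E` in one cell (class of the window, most popular cell) with the right
numbers of lines and of small boxes.
-/

set_option autoImplicit false
set_option linter.unusedSectionVars false
set_option linter.unusedVariables false

open Filter Topology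

namespace Crest.Agent.R136.Lab926

open Finset
open Crest.Agent.R138.Ex926
open Crest.Agent.R138.Mk163 (zc zl rho alive)
open Crest.Agent.R138.MkRef627 (lc kc mem_alive)
open Crest.Agent.R136.Sh605
open Crest.Agent.R136.End403
open Crest.Agent.R136.Net191
open Crest.Agent.R136.NetQ186
open Crest.Agent.R136.GeoQ186
open Crest.Agent.R136.MkA627
open Crest.Agent.R136.Wq638
open Crest.Agent.R136.Lq196
open Crest.Agent.R136.Qg926

/-- the most popular cell -/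
theorem pop_cell {α β : Type*} [DecidableEq α] [DecidableEq β] (A : Finset α) (f : α → β)
    (hA : A.Nonempty) : ∃ b, (A.card : ℝ) ≤ (A.image f).card *
      ((A.filter fun x => f x = b).card : ℝ) ∧ (A.filter fun x => f x = b).Nonempty := by
  obtain ⟨b, hb, hmax⟩ := exists_max_image (A.image f)
    (fun b => ((A.filter fun x => f x = b).card : ℝ)) (hA.image f)
  refine ⟨b, ?_, ?_⟩
  · have h1 : A.card = ∑ b ∈ A.image f, (A.filter fun x => f x = b).card :=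
      card_eq_sum_card_image _ _
    calc (A.card : ℝ) = ∑ b ∈ A.image f, ((A.filter fun x => f x = b).card : ℝ) := by
          rw [h1]; push_cast; rfl
      _ ≤ ∑ b' ∈ A.image f, ((A.filter fun x => f x = b).card : ℝ) :=
          sum_le_sum fun b' hb' => hmax b' hb'
      _ = _ := by rw [sum_const, nsmul_eq_mul]
  · obtain ⟨x, hx, rfl⟩ := mem_image.1 hb
    exact ⟨x, mem_filter.2 ⟨hx, rfl⟩⟩

theorem z_near {d w0 t c K x y : ℝ} {l0 lv : ℕ} (hd : 0 < d)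
    (hz0 : c = d ^ w0 * ((y - x) * 2 ^ l0)) (h : |c| ≤ K * d ^ (w0 + t))
    (hlv : (2 : ℝ) ^ lv ≤ 2 ^ l0 * d ^ (-t)) : |(2 : ℝ) ^ lv * y - 2 ^ lv * x| ≤ K := by
  have p1 : 0 < d ^ w0 := Real.rpow_pos_of_pos hd _
  have p2 : 0 < d ^ t := Real.rpow_pos_of_pos hd _
  have p3 : (0 : ℝ) < 2 ^ l0 := by positivity
  have p4 : (0 : ℝ) < 2 ^ lv := by positivity
  rw [hz0, abs_mul, abs_of_pos p1, abs_mul, abs_of_pos p3, Real.rpow_add hd] at h
  have h1 : |y - x| * 2 ^ l0 ≤ K * d ^ t := by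
    have : d ^ w0 * (|y - x| * 2 ^ l0) ≤ d ^ w0 * (K * d ^ t) := by linarith
    exact le_of_mul_le_mul_left this p1
  rw [← mul_sub, abs_mul, abs_of_pos p4]
  have h0 := abs_nonneg (y - x)
  calc (2 : ℝ) ^ lv * |y - x| ≤ (2 ^ l0 * d ^ (-t)) * |y - x| :=
        mul_le_mul_of_nonneg_right hlv h0
    _ = (|y - x| * 2 ^ l0) * d ^ (-t) := by ring
    _ ≤ (K * d ^ t) * d ^ (-t) :=
        mul_le_mul_of_nonneg_right h1 (Real.rpow_nonneg hd.le _)
    _ = K * (d ^ t * d ^ (-t)) := by ring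
    _ = K := by rw [← Real.rpow_add hd, add_neg_cancel, Real.rpow_zero, mul_one]

section

variable {σ' : Type*} {B B' : Base} {I I1 J : ℕ → Finset (ℕ × ℝ)} {G : Geo σ' (Fin 3)}
    {L : ℕ → ℕ → Ln4} {π : Equiv.Perm (Fin 3)} {eE fA fB : ℕ → ℕ × ℝ → ℝ} {lev : ℕ → ℚ → ℕ}
    {A : ℕ → ℝ} {g : ℝ} {τ : Fin 3 → ℝ → ℝ} {f : ℕ → ℚ → ℕ → ℤ → ℕ} {b : ℕ → ℚ → ℕ → σ'}
    {vm : ℕ → ℚ → ℝ} {w : Fin 3 → ℕ → ℚ → ℝ} {q θ : Fin 3 → ℝ} {w0 R T0 : ℝ}
    {V T : Fin 11 → Prop} {PD : Set (Fin 11 → ℝ)} {DD : (Fin 11 → ℝ) → ℝ}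
    {rp : ℝ → Fin 11 → ℝ} {EE : ℝ → ℝ} {ν own : (Fin 11 → ℝ) → ℝ} {c₀ : ℝ} {rg : Rg}
    {S SJ : ℕ → ℝ} {X : ℕ → Fin 11 → ℝ} {wn : ℕ → ℝ} {DD' : Set (Fin 11 → ℝ)} {TT : ℕ → ℝ}
    {lam : (Fin 11 → ℝ) → ℝ} {R1 v t1 t2 t3 : ℕ → ℝ} {kN k1 v1 γ : ℝ}
    {co : ℕ → ℕ × ℝ → ℕ × ℝ → Fin 11 → ℝ} {o : ℝ → Fin 11 → ℝ}

/-- **the family `E` in one cell** -/
structure FamOk (B B' : Base) (I J : ℕ → Finset (ℕ × ℝ)) (co : ℕ → ℕ × ℝ → ℕ × ℝ → Fin 11 → ℝ)
    (lev : ℕ → ℚ → ℕ) (X : ℕ → Fin 11 → ℝ) (wn : ℕ → ℝ) (TT : ℕ → ℝ)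
    (lam : (Fin 11 → ℝ) → ℝ) (v : ℕ → ℝ) (kN k1 : ℝ) (i M : ℕ → ℕ) (J0 : ℕ → ℤ)
    (E : ℕ → Finset (ℕ × ℝ)) (s₀ : ℕ → ℕ × ℝ) : Prop where
  smem : ∀ᶠ n in (U : Filter ℕ), s₀ n ∈ J n
  ne : ∀ᶠ n in (U : Filter ℕ), (E n).Nonempty
  sub : ∀ᶠ n in (U : Filter ℕ), E n ⊆ J n
  lab : ∀ᶠ n in (U : Filter ℕ), ∀ x ∈ E n,
    zlab B I co monQ 2 X wn n 0 x = zlab B I co monQ 2 X wn n 0 (s₀ n)
  cell : ∀ᶠ n in (U : Filter ℕ), ∀ x ∈ E n, zc (i n) x.2 = J0 n
  lev1 : ∀ᶠ n in (U : Filter ℕ), (2 : ℝ) ^ lev n 0 * B.d n ^ (-(v n)) ≤ 2 * 2 ^ i n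
  lev2 : ∀ᶠ n in (U : Filter ℕ), (2 : ℝ) ^ i n ≤ 2 ^ lev n 0 * B.d n ^ (-(v n))
  snum : ∀ ε : ℝ, 0 < ε → ∀ᶠ n in (U : Filter ℕ),
    (((E n).image fun x => (zlab B I co monQ 2 X wn n (pdB k1 kN) x,
      zc (i n + M n + 1) x.2)).card : ℝ) * (TT n * B'.d n ^ (-lam (pdB k1 kN))) ≤
      B'.d n ^ (-ε) * (E n).card
  onum : ∀ ε : ℝ, 0 < ε → ∀ᶠ n in (U : Filter ℕ),
    (((E n).image fun x => (x.1, zc (i n) x.2)).card : ℝ) * B.d n ^ (-(1 - v n)) ≤
      B'.d n ^ (-ε) * (E n).card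
  oup : ∀ ε : ℝ, 0 < ε → ∀ᶠ n in (U : Filter ℕ), ∀ x ∈ E n,
    (((E n).filter fun y => y.1 = x.1 ∧
      zc (i n + M n + 1) y.2 = zc (i n + M n + 1) x.2).card : ℝ) ≤
      B.d n ^ (-(1 - v n)) * B'.d n ^ (k1 - ε)
  Mlow : ∀ ε : ℝ, 0 < ε → ∀ᶠ n in (U : Filter ℕ), B'.d n ^ (-(k1 - ε)) ≤ (2 : ℝ) ^ M n
  Mup : ∀ᶠ n in (U : Filter ℕ), (2 : ℝ) ^ M n ≤ 1 / 2 * B'.d n ^ (-k1)

set_option maxHeartbeats 1600000 in
theorem WinH.exists_fam (W : WinH B B' I I1 J co θ w0 R T0 o S SJ X wn DD' TT lam R1 v t1 t2 t3 kN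
    k1 v1 γ)
    (hG : ∀ᶠ n in (U : Filter ℕ), GlobP B I I1 L co lev g vm w q θ R o ν own c₀ rg v1 γ
      (S n) n)
    (hzco : ∀ n, ∀ x ∈ I n, ∀ y ∈ I n, co n x y 0 = B.d n ^ w0 * ((y.2 - x.2) * 2 ^ (lev n 0)))
    (hown : ∀ᶠ n in (U : Filter ℕ), ∀ c ∈ ({c | c = 0 ∨ c = pdB k1 kN} : Set (Fin 11 → ℝ)),
      X n + wn n • c ∈ Leg monQ R ∧ own (X n + wn n • c) = 1 - v n - wn n * c 0) :
    ∃ (i M : ℕ → ℕ) (J0 : ℕ → ℤ) (E : ℕ → Finset (ℕ × ℝ)) (s₀ : ℕ → ℕ × ℝ),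
      FamOk B B' I J co lev X wn TT lam v kN k1 i M J0 E s₀ := by
  have hk1 := W.k10
  have hpd0 : 0 ≤ pdB k1 kN := pdB_nonneg hk1.le W.kN0.le
  have hz := W.hz
  have hp' : ∀ n (t : ℝ), 0 < B'.d n ^ t := fun n t => Real.rpow_pos_of_pos (B'.pos n) t
  have e0 : ∀ n, X n + wn n • (0 : Fin 11 → ℝ) = X n := fun n => by simp
  have ho := W.own_zprof hG hown
  -- levels
  obtain ⟨i, hi1, -, hi3⟩ := exists_lev (B := B) (B' := B') (lev := lev) (kz := (0 : Fin 11))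
    (w0 := w0) (o := o) (X := X) (w := wn) (c := 0) (by
      refine Eventually.of_forall fun n => ?_
      rw [e0, W.X0]
      have h1 := W.v0 n
      have h2 := W.vv n
      have h3 := W.hv1
      constructor <;> linarith) (by
      filter_upwards [W.own0] with n h1 k
      rw [e0, W.X0, add_sub_cancel_left]
      exact h1 k)
  have hlev1 : ∀ᶠ n in (U : Filter ℕ), (2 : ℝ) ^ lev n 0 * B.d n ^ (-(v n)) ≤ 2 * 2 ^ i n := by
    filter_upwards [hi1.ge] with n h1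
    rw [e0, W.X0, add_sub_cancel_left] at h1
    exact h1
  have hlev2 : ∀ᶠ n in (U : Filter ℕ), (2 : ℝ) ^ i n ≤ 2 ^ lev n 0 * B.d n ^ (-(v n)) := by
    filter_upwards [hi3] with n h1
    rw [e0, W.X0, add_sub_cancel_left] at h1
    exact h1
  -- resolution
  have hMex : ∀ n, ∃ M : ℕ, 1 ≤ 1 / 2 * B'.d n ^ (-k1) →
      (2 : ℝ) ^ M ≤ 1 / 2 * B'.d n ^ (-k1) ∧ 1 / 2 * B'.d n ^ (-k1) < 2 ^ (M + 1) := fun n => by
    by_cases h : 1 ≤ 1 / 2 * B'.d n ^ (-k1)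
    · obtain ⟨M, h1, h2⟩ := exists_nat_pow_near h (by norm_num : (1 : ℝ) < 2)
      exact ⟨M, fun _ => ⟨h1, h2⟩⟩
    · exact ⟨0, fun h' => absurd h' h⟩
  choose M hM using hMex
  have hbig : ∀ᶠ n in (U : Filter ℕ), 1 ≤ 1 / 2 * B'.d n ^ (-k1) := by
    filter_upwards [ev_const_le B' (show (0 : ℝ) < 2 by norm_num) hk1] with n hn
    linarith
  have hMup : ∀ᶠ n in (U : Filter ℕ), (2 : ℝ) ^ M n ≤ 1 / 2 * B'.d n ^ (-k1) := by
    filter_upwards [hbig] with n hn using (hM n hn).1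
  have hMlow : ∀ ε : ℝ, 0 < ε → ∀ᶠ n in (U : Filter ℕ), B'.d n ^ (-(k1 - ε)) ≤ (2 : ℝ) ^ M n := by
    intro ε hε
    filter_upwards [hbig, ev_const_le B' (show (0 : ℝ) < 4 by norm_num) hε] with n hn h4
    have h1 := (hM n hn).2
    rw [pow_succ] at h1
    have e1 : B'.d n ^ (-(k1 - ε)) = B'.d n ^ ε * B'.d n ^ (-k1) := by
      rw [← Real.rpow_add (B'.pos n)]; congr 1; ring
    have e2 : B'.d n ^ ε * B'.d n ^ (-ε) = 1 := by
      rw [← Real.rpow_add (B'.pos n), add_neg_cancel, Real.rpow_zero]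
    have h2 : B'.d n ^ ε ≤ 1 / 4 := by
      have h3 := mul_le_mul_of_nonneg_left h4 (hp' n ε).le
      rw [e2] at h3
      linarith
    rw [e1]
    have h5 := hp' n (-k1)
    nlinarith
  -- levels of the two boxes
  set cc : ℕ → Fin 11 → ℝ := fun j => if j = 0 then 0 else pdB k1 kN with hcc
  set lvv : ℕ → ℕ → ℕ := fun j n => if j = 0 then i n else i n + M n + 1 with hlvv
  have hccm : ∀ j, cc j ∈ ({c | c = 0 ∨ c = pdB k1 kN} : Set (Fin 11 → ℝ)) := by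
    intro j
    show cc j = 0 ∨ cc j = pdB k1 kN
    simp only [hcc]
    split_ifs <;> simp
  have hcc0 : ∀ j, 0 ≤ cc j := by
    intro j
    simp only [hcc]
    split_ifs
    · exact le_rfl
    · exact hpd0
  have hccD : ∀ j, cc j ∈ DD' := by
    intro j
    simp only [hcc]
    split_ifs
    · exact hz.zero
    · exact W.pdD
  have hdk : ∀ n, B.d n ^ (-(v n + wn n * k1)) = B.d n ^ (-(v n)) * B'.d n ^ (-k1) := fun n => by
    rw [hz.base n, ← Real.rpow_mul (B.pos n).le, ← Real.rpow_add (B.pos n)]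
    congr 1; ring
  have hlev3 : ∀ᶠ n in (U : Filter ℕ), (2 : ℝ) ^ (i n + M n + 1) ≤
      2 ^ lev n 0 * B.d n ^ (-(v n + wn n * k1)) := by
    filter_upwards [hlev2, hMup] with n h1 h2
    have e1 : (2 : ℝ) ^ (i n + M n + 1) = 2 ^ i n * (2 * 2 ^ M n) := by
      rw [pow_succ, pow_add]; ring
    rw [e1, hdk, ← mul_assoc (2 ^ lev n 0 : ℝ)]
    refine mul_le_mul h1 (by linarith) (by positivity) ?_
    exact mul_nonneg (by positivity) (Real.rpow_nonneg (B.pos n).le _)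
  have hl : ∀ j, CellLev B B' lev (0 : Fin 11) w0 o X wn (fun _ => 4) (cc j) (lvv j) := by
    intro j
    by_cases hj : j = 0
    · simp only [hcc, hlvv, if_pos hj]
      exact
        { rng := hi1.rng
          le := hi1.le
          ge := by
            filter_upwards [hi1.ge] with n h1
            refine h1.trans ?_
            have : (0 : ℝ) < 2 ^ i n := by positivity
            linarith
          own := hi1.own }
    · simp only [hcc, hlvv, if_neg hj]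
      exact
        { rng := by
            filter_upwards [W.ev_w] with n h1
            rw [W.Xp0, add_sub_cancel_left]
            exact h1
          le := fun ε hε => by
            filter_upwards [hlev3] with n h1
            rw [W.Xp0, add_sub_cancel_left]
            refine h1.trans ?_
            have h2 : (1 : ℝ) ≤ B'.d n ^ (-ε) :=
              Real.one_le_rpow_of_pos_of_le_one_of_nonpos (B'.pos n) (B'.lt n).le (by linarith)
            exact le_mul_of_one_le_left (mul_nonneg (by positivity)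
              (Real.rpow_nonneg (B.pos n).le _)) h2
          ge := by
            filter_upwards [hlev1, hbig] with n h1 h2
            have h3 := (hM n h2).2
            rw [W.Xp0, add_sub_cancel_left, hdk]
            have e1 : (2 : ℝ) ^ (i n + M n + 1) = 2 ^ i n * 2 ^ (M n + 1) := by
              rw [← pow_add]; congr 1
            have h4 : B'.d n ^ (-k1) ≤ 2 * 2 ^ (M n + 1) := by linarith
            rw [e1]
            calc (2 : ℝ) ^ lev n 0 * (B.d n ^ (-(v n)) * B'.d n ^ (-k1)) =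
                  (2 ^ lev n 0 * B.d n ^ (-(v n))) * B'.d n ^ (-k1) := by ring
              _ ≤ (2 * 2 ^ i n) * (2 * 2 ^ (M n + 1)) :=
                  mul_le_mul h1 h4 (hp' n _).le (by positivity)
              _ = 4 * (2 ^ i n * 2 ^ (M n + 1)) := by ring
          own := by
            filter_upwards [W.own1] with n h1 k
            rw [W.Xp0, add_sub_cancel_left]
            exact h1 k }
  have hnear : OwnNearS B I lev co o (fun _ => 4) S := by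
    filter_upwards [hG] with n h1 v hv0 hv1 l hl x hx y hy hxy k
    exact h1.near v hv0 hv1 l hl x hx y hy hxy k
  obtain ⟨hup, s₀, hs₀, hZ, hnum⟩ := exists_zcls_cells (kz := (0 : Fin 11)) (w0 := w0)
    (lev := lev) hzco hz (fun _ => (0, 0)) (Gd := J) (E := J)
    (Eventually.of_forall fun n => Subset.rfl) (Eventually.of_forall fun n => Subset.rfl)
    (S := fun _ => 1) (Base.Sub.const one_pos) (Eventually.of_forall fun n => by rw [one_mul])
    hnear W.hS ho (fun n => Real.rpow_pos_of_pos (B.pos n) _) hcc0 hccD hccm hl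
  set Cl : ℕ → Finset (ℕ × ℝ) := fun n => cls (J n) (zlab B I co monQ 2 X wn n 0) (s₀ n) with hCl
  -- constants
  have hK0 : 1 ≤ cK0 monQ 2 := cK0_one (hz.chart 0).C0
  set K : ℝ := cK0 monQ 2 with hK
  have hK2 : 0 < 2 * K + 2 := by linarith
  -- cells in the class
  have hcells : ∀ᶠ n in (U : Filter ℕ), (((Cl n).image fun x => zc (i n) x.2).card : ℝ) ≤
      2 * K + 2 := by
    filter_upwards [hz.sub, hlev2, hs₀] with n h1 h2 h3
    refine cells_le (Cl n) (fun x : ℕ × ℝ => (2 : ℝ) ^ i n * x.2) ((2 : ℝ) ^ i n * (s₀ n).2)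
      (t := K) (fun x hx => ?_) (by linarith)
    obtain ⟨hx1, hx2⟩ := mem_cls.1 hx
    have h4 : Legal monQ (X n + wn n • (0 : Fin 11 → ℝ)) := by
      rw [e0]; exact (W.leg n).1
    have h5 := hz.near_of_zlab h4 (h1 h3) (h1 hx1) hx2.symm 0
    rw [Pi.zero_apply, Real.rpow_zero, mul_one, W.X0] at h5
    exact z_near (B.pos n) (hzco n _ (h1 h3) _ (h1 hx1)) h5 h2
  -- small boxes in the class
  have hsCl : ∀ ε : ℝ, 0 < ε → ∀ᶠ n in (U : Filter ℕ),
      (((Cl n).image fun x => (zlab B I co monQ 2 X wn n (pdB k1 kN) x,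
        zc (i n + M n + 1) x.2)).card : ℝ) * (TT n * B'.d n ^ (-lam (pdB k1 kN))) ≤
        TT n * B'.d n ^ (-ε) := by
    intro ε hε
    filter_upwards [hz.sub, hlev3, hs₀, hz.prof.num ‖pdB k1 kN‖ (ε / 2) (by positivity),
      hz.legal ‖pdB k1 kN‖, ev_const_le B' hK2 (half_pos hε)] with n h1 h2 h3 h4 h5 h6
    have hT := hz.T0 n
    have c1 := card_image_le_mul (Cl n) (fun x => (zlab B I co monQ 2 X wn n (pdB k1 kN) x,
      zc (i n + M n + 1) x.2)) (zlab B I co monQ 2 X wn n (pdB k1 kN)) (N := 2 * K + 2)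
      (fun x hx => by
        have hxJ : x ∈ J n := (mem_cls.1 hx).1
        have h7 := cells_le (cls (Cl n) (zlab B I co monQ 2 X wn n (pdB k1 kN)) x)
          (fun y : ℕ × ℝ => (2 : ℝ) ^ (i n + M n + 1) * y.2)
          ((2 : ℝ) ^ (i n + M n + 1) * x.2) (t := K) (fun y hy => by
            obtain ⟨hy1, hy2⟩ := mem_cls.1 hy
            have hyJ : y ∈ J n := (mem_cls.1 hy1).1
            have h8 := hz.near_of_zlab (h5 _ W.pdD le_rfl) (h1 hxJ) (h1 hyJ) hy2.symm 0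
            have e2 : B.d n ^ X n 0 * B'.d n ^ pdB k1 kN 0 = B.d n ^ (w0 + (v n + wn n * k1)) := by
              rw [hz.base n, ← Real.rpow_mul (B.pos n).le, ← Real.rpow_add (B.pos n), W.X0]
              congr 1
              simp [pdB]
              ring
            rw [e2] at h8
            exact z_near (B.pos n) (hzco n _ (h1 hxJ) _ (h1 hyJ)) h8 h2) (by linarith)
        refine le_trans (Nat.cast_le.2 ?_) h7
        refine (Nat.cast_le (α := ℝ)).1 (card_image_le_of _ _ _ fun y hy z hz' he => ?_)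
        have e1 := (mem_cls.1 hy).2
        have e2 := (mem_cls.1 hz').2
        exact Prod.ext (e1.trans e2.symm) he)
    have c2 := h4 0 hz.zero (by rw [norm_zero]; exact norm_nonneg _) _ W.pdD le_rfl hpd0 (s₀ n) h3
    rw [hz.lam0] at c2
    calc (((Cl n).image fun x => (zlab B I co monQ 2 X wn n (pdB k1 kN) x,
          zc (i n + M n + 1) x.2)).card : ℝ) * (TT n * B'.d n ^ (-lam (pdB k1 kN)))
        ≤ ((2 * K + 2) * B'.d n ^ (-(0 - lam (pdB k1 kN) + ε / 2))) *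
            (TT n * B'.d n ^ (-lam (pdB k1 kN))) := by
          refine mul_le_mul_of_nonneg_right (c1.trans ?_) (mul_pos hT (hp' n _)).le
          exact mul_le_mul_of_nonneg_left c2 hK2.le
      _ = (2 * K + 2) * (TT n * (B'.d n ^ (-(0 - lam (pdB k1 kN) + ε / 2)) *
            B'.d n ^ (-lam (pdB k1 kN)))) := by ring
      _ = (2 * K + 2) * (TT n * B'.d n ^ (-(ε / 2))) := by
          rw [← Real.rpow_add (B'.pos n)]; congr 3; ring
      _ ≤ B'.d n ^ (-(ε / 2)) * (TT n * B'.d n ^ (-(ε / 2))) :=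
          mul_le_mul_of_nonneg_right h6 (mul_pos hT (hp' n _)).le
      _ = TT n * B'.d n ^ (-ε) := by
          rw [mul_left_comm, ← Real.rpow_add (B'.pos n)]; congr 2; ring
  have hClne : ∀ᶠ n in (U : Filter ℕ), (Cl n).Nonempty := by
    filter_upwards [hs₀] with n h1 using ⟨s₀ n, mem_cls.2 ⟨h1, rfl⟩⟩
  -- the most popular cell
  have hJex : ∀ n, ∃ J0 : ℤ, (Cl n).Nonempty → ((Cl n).card : ℝ) ≤
      ((Cl n).image fun x => zc (i n) x.2).card *
        (((Cl n).filter fun x => zc (i n) x.2 = J0).card : ℝ) ∧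
      ((Cl n).filter fun x => zc (i n) x.2 = J0).Nonempty := fun n => by
    by_cases h : (Cl n).Nonempty
    · obtain ⟨b, hb⟩ := pop_cell (Cl n) (fun x => zc (i n) x.2) h
      exact ⟨b, fun _ => hb⟩
    · exact ⟨0, fun h' => absurd h' h⟩
  choose J0 hJ0 using hJex
  set E : ℕ → Finset (ℕ × ℝ) := fun n => (Cl n).filter fun x => zc (i n) x.2 = J0 n with hE
  have hEsub : ∀ᶠ n in (U : Filter ℕ), E n ⊆ Cl n :=
    Eventually.of_forall fun n => filter_subset _ _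
  have hdense : ∀ ε : ℝ, 0 < ε → ∀ᶠ n in (U : Filter ℕ),
      B'.d n ^ ε * ((Cl n).card : ℝ) ≤ ((E n).card : ℝ) := by
    intro ε hε
    filter_upwards [hClne, hcells, ev_const_le B' hK2 hε] with n h1 h2 h3
    have h4 := (hJ0 n h1).1
    have h5 : ((Cl n).card : ℝ) ≤ B'.d n ^ (-ε) * (E n).card :=
      h4.trans (mul_le_mul_of_nonneg_right (h2.trans h3) (Nat.cast_nonneg _))
    calc B'.d n ^ ε * ((Cl n).card : ℝ) ≤ B'.d n ^ ε * (B'.d n ^ (-ε) * (E n).card) :=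
          mul_le_mul_of_nonneg_left h5 (hp' n _).le
      _ = (E n).card := by
          rw [← mul_assoc, ← Real.rpow_add (B'.pos n), add_neg_cancel, Real.rpow_zero, one_mul]
  have hn0 := hnum 0
  have hu1 := hup 1
  simp only [hcc, hlvv, if_true, one_ne_zero, if_false, Pi.zero_apply, neg_zero, Real.rpow_zero,
    mul_one] at hn0 hu1
  have e1 : pdB k1 kN 0 = k1 := rfl
  refine ⟨i, M, J0, E, s₀,
    { smem := hs₀
      ne := by filter_upwards [hClne] with n h1 using (hJ0 n h1).2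
      sub := Eventually.of_forall fun n => (filter_subset _ _).trans (cls_subset _ _ _)
      lab := Eventually.of_forall fun n x hx => (mem_cls.1 (mem_filter.1 hx).1).2
      cell := Eventually.of_forall fun n x hx => (mem_filter.1 hx).2
      lev1 := hlev1
      lev2 := hlev2
      snum := fun ε hε => counts_dense (T := TT)
        (fun n => mul_pos (hz.T0 n) (hp' n _)) hZ.big hEsub hdense hsCl hε
      onum := fun ε hε => counts_dense (T := TT)
        (fun n => Real.rpow_pos_of_pos (B.pos n) _) hZ.big hEsub hdense hn0 hε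
      oup := fun ε hε => by
        filter_upwards [hu1 ε hε] with n h1 x hx
        have h2 := h1 x ((filter_subset _ _).trans (cls_subset _ _ _) hx)
        have e2 : -(-pdB k1 kN 0 + ε) = k1 - ε := by rw [e1]; ring
        rw [e2] at h2
        refine le_trans (Nat.cast_le.2 (card_le_card fun y hy => ?_)) h2
        obtain ⟨hy1, hy2⟩ := mem_filter.1 hy
        exact mem_filter.2 ⟨(filter_subset _ _).trans (cls_subset _ _ _) hy1, hy2⟩
      Mlow := hMlow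
      Mup := hMup }⟩

end

end Crest.Agent.R136.Lab926
end

-- ▼ part R136/LabG_371
section

/-!
# R136: END-LAB, geometry of one flag (helper371, literals of helper926)

`fn1 fn2 fn3` : the normalised functionals of a flag; `gχ gψ gφ` : slab, plank and dual basis of a
body; `frOk_of` : the frame data; `dt_fn`, `dt_fnv` : exact values on the difference of two lines in
terms of the relative coordinates of the scaled chart.
-/

set_option autoImplicit false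
set_option linter.unusedVariables false

namespace Crest.Agent.R136.Lab926

open Crest.Agent.R136.Sh605
open Crest.Agent.R136.NetQ186
open Crest.Agent.R136.GeoQ186
open Crest.Agent.R136.HR829 (Wd)
open Crest.Agent.R136.Lab544 (Dual)

noncomputable def fn1 (π : Equiv.Perm (Fin 3)) (W1 : ℝ) : V3 := pv π.symm ![0, 1 / W1, 0]
noncomputable def fn2 (π : Equiv.Perm (Fin 3)) (e W2 : ℝ) : V3 := pv π.symm ![0, -e / W2, 1 / W2]
noncomputable def fn3 (π : Equiv.Perm (Fin 3)) (fa fb a : ℝ) : V3 :=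
  pv π.symm ![1 / a, -fa / a, -fb / a]
noncomputable def gχ (π : Equiv.Perm (Fin 3)) (e fa fb W1 W2 a α β K : ℝ) : V3 :=
  (1 / K) • (fn3 π fa fb a - α • fn1 π W1 - β • fn2 π e W2)
noncomputable def gψ (π : Equiv.Perm (Fin 3)) (e W1 W2 K : ℝ) : Fin 2 → V3 :=
  ![(1 / K) • fn1 π W1, (1 / K) • fn2 π e W2]
noncomputable def gφ (π : Equiv.Perm (Fin 3)) (e fa fb W1 W2 a α β K : ℝ) : Fin 3 → V3 :=
  ![K • pv π.symm ![a, 0, 0],
    K • (pv π.symm ![W1 * (fa + fb * e), W1, W1 * e] + α • pv π.symm ![a, 0, 0]),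
    K • (pv π.symm ![W2 * fb, 0, W2] + β • pv π.symm ![a, 0, 0])]

/-! ### values -/

theorem pvs_apply (π : Equiv.Perm (Fin 3)) (x : V3) (k : Fin 3) : pv π.symm x (π k) = x k := by
  simp [pv]

theorem ext_perm (π : Equiv.Perm (Fin 3)) {x y : V3} (h : ∀ k, x (π k) = y (π k)) : x = y := by
  funext j
  obtain ⟨k, rfl⟩ := π.surjective j
  exact h k

theorem dt_fn1 (π : Equiv.Perm (Fin 3)) (W1 : ℝ) (x : V3) : dt (fn1 π W1) x = x (π 1) / W1 := by
  rw [fn1, dt_pvs]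
  simp only [dt, pv, Matrix.cons_val]
  ring

theorem dt_fn2 (π : Equiv.Perm (Fin 3)) (e W2 : ℝ) (x : V3) :
    dt (fn2 π e W2) x = (x (π 2) - e * x (π 1)) / W2 := by
  rw [fn2, dt_pvs]
  simp only [dt, pv, Matrix.cons_val]
  ring

theorem dt_fn3 (π : Equiv.Perm (Fin 3)) (fa fb a : ℝ) (x : V3) :
    dt (fn3 π fa fb a) x = (x (π 0) - fa * x (π 1) - fb * x (π 2)) / a := by
  rw [fn3, dt_pvs]
  simp only [dt, pv, Matrix.cons_val]
  ring

theorem sub_dt (x y z : V3) : dt (x - y) z = dt x z - dt y z := by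
  simp only [dt, Pi.sub_apply]; ring

theorem smul_dt' (x y : V3) (c : ℝ) : dt (c • x) y = c * dt x y := by
  simp only [dt, Pi.smul_apply, smul_eq_mul]; ring


/-- the dual basis -/
theorem dual_g {π : Equiv.Perm (Fin 3)} {e fa fb W1 W2 a α β K : ℝ} (hW1 : 0 < W1) (hW2 : 0 < W2)
    (ha : 0 < a) (hK : 0 < K) :
    Dual (gχ π e fa fb W1 W2 a α β K) (gψ π e W1 W2 K) (gφ π e fa fb W1 W2 a α β K) := by
  intro δ
  have hK' := hK.ne'
  have h1' := hW1.ne'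
  have h2' := hW2.ne'
  have ha' := ha.ne'
  have e0 : dt (gχ π e fa fb W1 W2 a α β K) δ =
      1 / K * ((δ (π 0) - fa * δ (π 1) - fb * δ (π 2)) / a - α * (δ (π 1) / W1) -
        β * ((δ (π 2) - e * δ (π 1)) / W2)) := by
    rw [gχ, smul_dt', sub_dt, sub_dt, smul_dt', smul_dt', dt_fn1, dt_fn2, dt_fn3]
  have e1 : dt (gψ π e W1 W2 K 0) δ = 1 / K * (δ (π 1) / W1) := by
    show dt ((1 / K) • fn1 π W1) δ = _
    rw [smul_dt', dt_fn1]
  have e2 : dt (gψ π e W1 W2 K 1) δ = 1 / K * ((δ (π 2) - e * δ (π 1)) / W2) := by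
    show dt ((1 / K) • fn2 π e W2) δ = _
    rw [smul_dt', dt_fn2]
  rw [e0, e1, e2]
  refine ext_perm π fun k => ?_
  simp only [gφ, Matrix.cons_val, Pi.add_apply, Pi.smul_apply, smul_eq_mul, pvs_apply]
  fin_cases k
  · simp only [Fin.zero_eta, Fin.isValue, Matrix.cons_val]
    field_simp
    ring
  · simp only [Fin.mk_one, Fin.isValue, Matrix.cons_val]
    field_simp
    ring
  · simp only [Fin.reduceFinMk, Fin.isValue, Matrix.cons_val]
    field_simp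
    ring

/-- the frame against the dual basis -/
theorem fr_g {π : Equiv.Perm (Fin 3)} {e fa fb W1 W2 a α β K S : ℝ} (he : |e| ≤ 1)
    (hfa : |fa| ≤ 1) (hfb : |fb| ≤ 1) (hW1 : 0 < W1) (hW2 : 0 < W2) (ha : 0 < a) (hS : 1 ≤ S)
    (h1 : a ≤ S * W2) (h2 : W2 ≤ S * W1) (hK : 0 < K) (i k : Fin 3) :
    |dt (fpv π (fr fa fb e) i) (gφ π e fa fb W1 W2 a α β K k)| ≤
      K * (5 + |α| + |β|) * Wd a ![0, S ^ 2 * W1, S * W2] i := by
  have hS0 : 0 < S := by linarith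
  have hA := fr_adm (Fa := fa) (Fb := fb) (E := e) π hfa hfb he
  have hu : ∀ i k, |fr fa fb e i k| ≤ 1 := by
    intro i k
    have h := hA.le_one i (π k)
    have e1 : fpv π (fr fa fb e) i (π k) = fr fa fb e i k := by simp [fpv, pv]
    rwa [e1] at h
  have p1 := (frn_pos fa fb).ne'
  have p2 := (frm1_pos fa fb e).ne'
  -- the products with the basis
  have b0 : ∀ i, |dt (fr fa fb e i) ![a, 0, 0]| ≤ a := by
    intro i
    have e1 : dt (fr fa fb e i) ![a, 0, 0] = fr fa fb e i 0 * a := by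
      simp only [dt, Matrix.cons_val]; ring
    rw [e1, abs_mul, abs_of_pos ha]
    exact mul_le_of_le_one_left ha.le (hu i 0)
  have b1 : ∀ i, |dt (fr fa fb e i) ![W1 * (fa + fb * e), W1, W1 * e]| ≤ 4 * W1 := by
    intro i
    have e1 : dt (fr fa fb e i) ![W1 * (fa + fb * e), W1, W1 * e] =
        W1 * (fr fa fb e i 0 * (fa + fb * e) + fr fa fb e i 1 + fr fa fb e i 2 * e) := by
      simp only [dt, Matrix.cons_val]; ring
    rw [e1, abs_mul, abs_of_pos hW1]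
    have := aux_a2 (aux_a2 (aux_m2 (hu i 0) (aux_a2 hfa (aux_m2 hfb he))) (hu i 1))
      (aux_m2 (hu i 2) he)
    nlinarith
  have b2 : ∀ i, |dt (fr fa fb e i) ![W2 * fb, 0, W2]| ≤ 2 * W2 := by
    intro i
    have e1 : dt (fr fa fb e i) ![W2 * fb, 0, W2] =
        W2 * (fr fa fb e i 0 * fb + fr fa fb e i 2) := by
      simp only [dt, Matrix.cons_val]; ring
    rw [e1, abs_mul, abs_of_pos hW2]
    have := aux_a2 (aux_m2 (hu i 0) hfb) (hu i 2)
    nlinarith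
  have c01 : dt (fr fa fb e 0) ![W1 * (fa + fb * e), W1, W1 * e] = 0 := by
    simp only [dt, fr, Matrix.cons_val]
    field_simp
    ring
  have c02 : dt (fr fa fb e 0) ![W2 * fb, 0, W2] = 0 := by
    simp only [dt, fr, Matrix.cons_val]
    field_simp
    ring
  have c21 : dt (fr fa fb e 2) ![W1 * (fa + fb * e), W1, W1 * e] = 0 := by
    simp only [dt, fr, Matrix.cons_val]
    field_simp
    ring
  -- the dual basis in the chart
  have g0 : dt (fpv π (fr fa fb e) i) (gφ π e fa fb W1 W2 a α β K 0) =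
      K * dt (fr fa fb e i) ![a, 0, 0] := by
    show dt (pv π.symm (fr fa fb e i)) (K • pv π.symm ![a, 0, 0]) = _
    rw [dt_smul, dt_pvs, pv_symm]
  have g1 : dt (fpv π (fr fa fb e) i) (gφ π e fa fb W1 W2 a α β K 1) =
      K * (dt (fr fa fb e i) ![W1 * (fa + fb * e), W1, W1 * e] +
        α * dt (fr fa fb e i) ![a, 0, 0]) := by
    show dt (pv π.symm (fr fa fb e i))
      (K • (pv π.symm ![W1 * (fa + fb * e), W1, W1 * e] + α • pv π.symm ![a, 0, 0])) = _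
    rw [dt_smul, dt_add, dt_smul, dt_pvs, dt_pvs, pv_symm, pv_symm]
  have g2 : dt (fpv π (fr fa fb e) i) (gφ π e fa fb W1 W2 a α β K 2) =
      K * (dt (fr fa fb e i) ![W2 * fb, 0, W2] + β * dt (fr fa fb e i) ![a, 0, 0]) := by
    show dt (pv π.symm (fr fa fb e i))
      (K • (pv π.symm ![W2 * fb, 0, W2] + β • pv π.symm ![a, 0, 0])) = _
    rw [dt_smul, dt_add, dt_smul, dt_pvs, dt_pvs, pv_symm, pv_symm]
  have hα := abs_nonneg α
  have hβ := abs_nonneg β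
  -- widths
  have w1 : a ≤ S ^ 2 * W1 := by nlinarith
  have w2 : W1 ≤ S ^ 2 * W1 := by nlinarith [mul_pos hS0 hS0]
  have w3 : W2 ≤ S ^ 2 * W1 := by nlinarith [mul_pos hS0 hW1]
  have w4 : W2 ≤ S * W2 := by nlinarith
  -- a bound by pieces
  have key : ∀ {X P Q W c : ℝ}, |P| ≤ c * W → |Q| ≤ W → 0 ≤ W → 0 ≤ c → c ≤ 4 →
      ∀ γ : ℝ, |γ| ≤ |α| + |β| → |K * (P + γ * Q)| ≤ K * (5 + |α| + |β|) * W := by
    intro X P Q W c hP hQ hW hc hc4 γ hγ
    rw [abs_mul, abs_of_pos hK, mul_assoc]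
    refine mul_le_mul_of_nonneg_left ?_ hK.le
    have h3 := aux_a2 hP (aux_m2 (le_refl |γ|) hQ)
    have h4 : |γ| * W ≤ (|α| + |β|) * W := mul_le_mul_of_nonneg_right hγ hW
    nlinarith
  have key0 : ∀ {P W c : ℝ}, |P| ≤ c * W → 0 ≤ W → 0 ≤ c → c ≤ 4 →
      |K * P| ≤ K * (5 + |α| + |β|) * W := by
    intro P W c hP hW hc hc4
    have h := key (X := 0) (P := P) (Q := 0) (W := W) (c := c) hP (by simpa using hW) hW hc hc4 0
      (by simpa using add_nonneg hα hβ)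
    simpa using h
  have hγα : |α| ≤ |α| + |β| := by linarith
  have hγβ : |β| ≤ |α| + |β| := by linarith
  have q0 := b0 i
  have q1 := b1 i
  have q2 := b2 i
  have d0 : Wd a ![0, S ^ 2 * W1, S * W2] 0 = a := rfl
  have d1 : Wd a ![0, S ^ 2 * W1, S * W2] 1 = S ^ 2 * W1 := rfl
  have d2 : Wd a ![0, S ^ 2 * W1, S * W2] 2 = S * W2 := rfl
  fin_cases k
  · show |dt (fpv π (fr fa fb e) i) (gφ π e fa fb W1 W2 a α β K 0)| ≤ _
    rw [g0]
    fin_cases i
    · show _ ≤ K * (5 + |α| + |β|) * Wd a ![0, S ^ 2 * W1, S * W2] 0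
      rw [d0]
      exact key0 (c := 1) (by simpa using q0) ha.le zero_le_one (by norm_num)
    · show _ ≤ K * (5 + |α| + |β|) * Wd a ![0, S ^ 2 * W1, S * W2] 1
      rw [d1]
      exact key0 (c := 1) (by simpa using q0.trans w1) (by positivity) zero_le_one (by norm_num)
    · show _ ≤ K * (5 + |α| + |β|) * Wd a ![0, S ^ 2 * W1, S * W2] 2
      rw [d2]
      exact key0 (c := 1) (by simpa using q0.trans h1) (by positivity) zero_le_one (by norm_num)
  · show |dt (fpv π (fr fa fb e) i) (gφ π e fa fb W1 W2 a α β K 1)| ≤ _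
    rw [g1]
    fin_cases i
    · show _ ≤ K * (5 + |α| + |β|) * Wd a ![0, S ^ 2 * W1, S * W2] 0
      rw [d0]
      show |K * (dt (fr fa fb e 0) _ + _)| ≤ _
      rw [c01]
      exact key (X := 0) (c := 0) (by simp) q0 ha.le le_rfl (by norm_num) α hγα
    · show _ ≤ K * (5 + |α| + |β|) * Wd a ![0, S ^ 2 * W1, S * W2] 1
      rw [d1]
      exact key (X := 0) (c := 4) (q1.trans (by linarith)) (q0.trans w1) (by positivity)
        (by norm_num) le_rfl α hγα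
    · show _ ≤ K * (5 + |α| + |β|) * Wd a ![0, S ^ 2 * W1, S * W2] 2
      rw [d2]
      show |K * (dt (fr fa fb e 2) _ + _)| ≤ _
      rw [c21]
      exact key (X := 0) (c := 0) (by simp) (q0.trans h1) (by positivity) le_rfl (by norm_num) α hγα
  · show |dt (fpv π (fr fa fb e) i) (gφ π e fa fb W1 W2 a α β K 2)| ≤ _
    rw [g2]
    fin_cases i
    · show _ ≤ K * (5 + |α| + |β|) * Wd a ![0, S ^ 2 * W1, S * W2] 0
      rw [d0]
      show |K * (dt (fr fa fb e 0) _ + _)| ≤ _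
      rw [c02]
      exact key (X := 0) (c := 0) (by simp) q0 ha.le le_rfl (by norm_num) β hγβ
    · show _ ≤ K * (5 + |α| + |β|) * Wd a ![0, S ^ 2 * W1, S * W2] 1
      rw [d1]
      exact key (X := 0) (c := 2) (q2.trans (by linarith)) (q0.trans w1) (by positivity)
        (by norm_num) (by norm_num) β hγβ
    · show _ ≤ K * (5 + |α| + |β|) * Wd a ![0, S ^ 2 * W1, S * W2] 2
      rw [d2]
      exact key (X := 0) (c := 2) (q2.trans (by linarith)) (q0.trans h1) (by positivity)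
        (by norm_num) (by norm_num) β hγβ

/-- **(G3) the normalised functionals on the frame** -/
theorem fn_fr {π : Equiv.Perm (Fin 3)} {e fa fb W1 W2 a : ℝ} (he : |e| ≤ 1) (hfa : |fa| ≤ 1)
    (hfb : |fb| ≤ 1) (hW1 : 0 < W1) (hW2 : 0 < W2) (ha : 0 < a) :
    dt (fn3 π fa fb a) (fpv π (fr fa fb e) 1) = 0 ∧
    dt (fn3 π fa fb a) (fpv π (fr fa fb e) 2) = 0 ∧
    |dt (fn1 π W1) (fpv π (fr fa fb e) 1)| ≤ 1 / W1 ∧
    |dt (fn1 π W1) (fpv π (fr fa fb e) 2)| ≤ 3 / W1 ∧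
    dt (fn2 π e W2) (fpv π (fr fa fb e) 1) = 0 ∧
    |dt (fn2 π e W2) (fpv π (fr fa fb e) 2)| ≤ 3 / W2 := by
  have p1 := frn_pos fa fb
  have p2 := frm1_pos fa fb e
  have q1 := frn_sq fa fb
  have q2 := frm1_sq fa fb e
  have hv : ∀ i k, fpv π (fr fa fb e) i (π k) = fr fa fb e i k := by
    intro i k; simp [fpv, pv]
  have n1 : 1 ≤ frn fa fb := by
    by_contra h
    push Not at h
    have : frn fa fb ^ 2 < 1 := by nlinarith
    nlinarith [sq_nonneg fa, sq_nonneg fb]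
  have m1 : 1 ≤ frm1 fa fb e := by
    by_contra h
    push Not at h
    have : frm1 fa fb e ^ 2 < 1 := by nlinarith
    nlinarith [sq_nonneg (fa + fb * e), sq_nonneg e]
  have hs : |fa + fb * e| ≤ 2 := by
    have := aux_a2 hfa (aux_m2 hfb he)
    linarith
  have m3 : frm1 fa fb e ≤ 3 := by
    have h1 : (fa + fb * e) ^ 2 ≤ 4 := by
      have := sq_le_sq' (abs_le.1 hs).1 (abs_le.1 hs).2
      linarith
    have h2 : e ^ 2 ≤ 1 := by
      have := sq_le_sq' (abs_le.1 he).1 (abs_le.1 he).2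
      linarith
    by_contra h
    push Not at h
    nlinarith
  have nm : 1 ≤ frn fa fb * frm1 fa fb e := by nlinarith
  have nm0 : 0 < frn fa fb * frm1 fa fb e := by linarith
  refine ⟨?_, ?_, ?_, ?_, ?_, ?_⟩
  · rw [dt_fn3, hv, hv, hv]
    simp only [fr, Matrix.cons_val]
    field_simp
    ring
  · rw [dt_fn3, hv, hv, hv]
    simp only [fr, Matrix.cons_val]
    field_simp
    ring
  · rw [dt_fn1, hv]
    simp only [fr, Matrix.cons_val]
    rw [abs_of_pos (by positivity), div_le_div_iff_of_pos_right hW1, div_le_one p2]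
    exact m1
  · rw [dt_fn1, hv]
    simp only [fr, Matrix.cons_val]
    rw [abs_div, abs_div, abs_of_pos hW1, abs_of_pos nm0, div_le_div_iff_of_pos_right hW1,
      div_le_iff₀ nm0]
    have h1 : |-fb * (fa + fb * e) - e| ≤ 1 * 2 + 1 :=
      aux_s2 (aux_m2 (by rwa [abs_neg]) hs) he
    linarith
  · rw [dt_fn2, hv, hv]
    simp only [fr, Matrix.cons_val]
    field_simp
    ring
  · rw [dt_fn2, hv, hv]
    simp only [fr, Matrix.cons_val]
    have e1 : (1 + fa * (fa + fb * e)) / (frn fa fb * frm1 fa fb e) -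
        e * ((-fb * (fa + fb * e) - e) / (frn fa fb * frm1 fa fb e)) =
        frm1 fa fb e / frn fa fb := by
      have e2 : (1 + fa * (fa + fb * e)) - e * (-fb * (fa + fb * e) - e) =
          frm1 fa fb e ^ 2 := by rw [q2]; ring
      rw [← mul_div_assoc, ← sub_div, e2]
      field_simp
    rw [e1, abs_of_pos (by positivity), div_le_div_iff_of_pos_right hW2, div_le_iff₀ p1]
    linarith

/-- squares of a sum of three bounded numbers -/
theorem sq3_le {x y z b : ℝ} (h : |x| + |y| + |z| ≤ b) : x ^ 2 + y ^ 2 + z ^ 2 ≤ b ^ 2 := by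
  have hx := abs_nonneg x
  have hy := abs_nonneg y
  have hz := abs_nonneg z
  have h1 : (|x| + |y| + |z|) ^ 2 ≤ b ^ 2 := pow_le_pow_left₀ (by positivity) h 2
  have e1 : x ^ 2 + y ^ 2 + z ^ 2 = |x| ^ 2 + |y| ^ 2 + |z| ^ 2 := by simp only [sq_abs]
  rw [e1]
  nlinarith [mul_nonneg hx hy, mul_nonneg hx hz, mul_nonneg hy hz]

/-- **(G1) the frame data of a flag** -/
theorem frOk_of {π : Equiv.Perm (Fin 3)} {e fa fb W1 W2 a α β K S r0 s σ ρ1 ρ2 : ℝ}
    (he : |e| ≤ 1)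
    (hfa : |fa| ≤ 1) (hfb : |fb| ≤ 1) (hW1 : 0 < W1) (hW2 : 0 < W2) (ha : 0 < a) (hS : 1 ≤ S)
    (h1 : a ≤ S * W2) (h2 : W2 ≤ S * W1) (hs : 0 < s) (hs1 : s ≤ 1) (hσ : 0 < σ) (hr : 0 ≤ r0)
    (r1 : r0 ≤ S * a * s) (r2 : r0 ≤ S * W1 * σ) (r3 : r0 ≤ S * W2 * σ)
    (hK : (2 + |α| * S ^ 2 + 2 * |β| * S) * S ≤ K) (hρ1 : 0 ≤ ρ1) (hρ2 : 0 ≤ ρ2)
    (o1 : ρ1 ≤ s * W1) (o1' : ρ1 ≤ σ * W1) (o2 : 2 * ρ2 ≤ s * W2) (o2' : ρ2 ≤ σ * W2) :
    FrOk (gχ π e fa fb W1 W2 a α β K) (gψ π e W1 W2 K) (gφ π e fa fb W1 W2 a α β K)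
      (fpv π (fr fa fb e)) ![0, S ^ 2 * W1, S * W2] a (K * (5 + |α| + |β|)) r0 s σ ρ1 ρ2 := by
  have hS0 : 0 < S := by linarith
  have hα := abs_nonneg α
  have hβ := abs_nonneg β
  have hK2 : 2 * S ≤ K := by
    have : 0 ≤ (|α| * S ^ 2 + 2 * |β| * S) * S := by positivity
    nlinarith
  have hK0 : 0 < K := by linarith
  have hK1 : 1 ≤ K := by linarith
  have hαK : |α| ≤ K := by
    have u1 : 0 ≤ |β| * S * S := by positivity
    have u2 : |α| * 1 ≤ |α| * (S ^ 2 * S) :=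
      mul_le_mul_of_nonneg_left (by nlinarith [pow_le_pow_left₀ zero_le_one hS 2]) hα
    nlinarith
  have hαβK : |α| * S + |β| ≤ K := by
    have u1 : |β| * 1 ≤ |β| * (S * S) := mul_le_mul_of_nonneg_left (by nlinarith) hβ
    have u2 : |α| * S * 1 ≤ |α| * S * (S * S) :=
      mul_le_mul_of_nonneg_left (by nlinarith) (by positivity)
    nlinarith
  obtain ⟨f1, f2, f3, f4, f5, f6⟩ := fn_fr (π := π) he hfa hfb hW1 hW2 ha
  have i12 : 1 / W1 ≤ S / W2 := by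
    rw [div_le_div_iff₀ hW1 hW2]; linarith
  have k1 : |dt (gχ π e fa fb W1 W2 a α β K) (fpv π (fr fa fb e) 1)| ≤ |α| / K * (1 / W1) := by
    have e1 : dt (gχ π e fa fb W1 W2 a α β K) (fpv π (fr fa fb e) 1) =
        -(α / K * dt (fn1 π W1) (fpv π (fr fa fb e) 1)) := by
      rw [gχ, smul_dt', sub_dt, sub_dt, smul_dt', smul_dt', f1, f5]
      ring
    rw [e1, abs_neg, abs_mul, abs_div, abs_of_pos hK0]
    exact mul_le_mul_of_nonneg_left f3 (by positivity)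
  have k2 : |dt (gχ π e fa fb W1 W2 a α β K) (fpv π (fr fa fb e) 2)| ≤
      |α| / K * (3 / W1) + |β| / K * (3 / W2) := by
    have e1 : dt (gχ π e fa fb W1 W2 a α β K) (fpv π (fr fa fb e) 2) =
        -(α / K * dt (fn1 π W1) (fpv π (fr fa fb e) 2) +
          β / K * dt (fn2 π e W2) (fpv π (fr fa fb e) 2)) := by
      rw [gχ, smul_dt', sub_dt, sub_dt, smul_dt', smul_dt', f2]
      ring
    rw [e1, abs_neg]
    refine (abs_add_le _ _).trans ?_
    rw [abs_mul, abs_mul, abs_div, abs_div, abs_of_pos hK0]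
    exact add_le_add (mul_le_mul_of_nonneg_left f4 (by positivity))
      (mul_le_mul_of_nonneg_left f6 (by positivity))
  have k3 : |dt (gψ π e W1 W2 K 0) (fpv π (fr fa fb e) 1)| ≤ 1 / K * (1 / W1) := by
    show |dt ((1 / K) • fn1 π W1) _| ≤ _
    rw [smul_dt', abs_mul, abs_of_pos (by positivity : 0 < 1 / K)]
    exact mul_le_mul_of_nonneg_left f3 (by positivity)
  have k4 : |dt (gψ π e W1 W2 K 0) (fpv π (fr fa fb e) 2)| ≤ 1 / K * (3 / W1) := by
    show |dt ((1 / K) • fn1 π W1) _| ≤ _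
    rw [smul_dt', abs_mul, abs_of_pos (by positivity : 0 < 1 / K)]
    exact mul_le_mul_of_nonneg_left f4 (by positivity)
  have k5 : |dt (gψ π e W1 W2 K 1) (fpv π (fr fa fb e) 1)| ≤ 0 := by
    show |dt ((1 / K) • fn2 π e W2) _| ≤ _
    rw [smul_dt', f5, mul_zero, abs_zero]
  have k6 : |dt (gψ π e W1 W2 K 1) (fpv π (fr fa fb e) 2)| ≤ 1 / K * (3 / W2) := by
    show |dt ((1 / K) • fn2 π e W2) _| ≤ _
    rw [smul_dt', abs_mul, abs_of_pos (by positivity : 0 < 1 / K)]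
    exact mul_le_mul_of_nonneg_left f6 (by positivity)
  have hαK' : |α| / K ≤ 1 := (div_le_one hK0).2 hαK
  have hK1' : 1 / K ≤ 1 := (div_le_one hK0).2 hK1
  have p1 : 0 < 1 / W1 := by positivity
  have p2 : 0 < 1 / W2 := by positivity
  have n1 : |dt (gχ π e fa fb W1 W2 a α β K) (fpv π (fr fa fb e) 1)| ≤ 1 / W1 :=
    k1.trans (mul_le_of_le_one_left p1.le hαK')
  have n2 : |dt (gχ π e fa fb W1 W2 a α β K) (fpv π (fr fa fb e) 1)| +
      |dt (gχ π e fa fb W1 W2 a α β K) (fpv π (fr fa fb e) 2)| ≤ 4 / W2 := by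
    have q1 : |α| / K * (1 / W1) ≤ |α| / K * (S / W2) :=
      mul_le_mul_of_nonneg_left i12 (by positivity)
    have q2 : |α| / K * (1 / W1) + (|α| / K * (3 / W1) + |β| / K * (3 / W2)) =
        4 * (|α| / K * (1 / W1)) + 3 * (|β| / K * (1 / W2)) := by ring
    have q3 : 4 * (|α| / K * (S / W2)) + 4 * (|β| / K * (1 / W2)) =
        (|α| * S + |β|) / K * (4 / W2) := by
      field_simp
    have q4 : (|α| * S + |β|) / K ≤ 1 := (div_le_one hK0).2 hαβK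
    have q5 : (|α| * S + |β|) / K * (4 / W2) ≤ 4 / W2 :=
      mul_le_of_le_one_left (by positivity) q4
    have q6 : 0 ≤ |β| / K * (1 / W2) := by positivity
    linarith
  have n3 : |dt (gψ π e W1 W2 K 0) (fpv π (fr fa fb e) 1)| ≤ 1 / W1 :=
    k3.trans (mul_le_of_le_one_left p1.le hK1')
  have n4 : |dt (gψ π e W1 W2 K 0) (fpv π (fr fa fb e) 1)| +
      |dt (gψ π e W1 W2 K 0) (fpv π (fr fa fb e) 2)| ≤ 4 / W2 := by
    have q1 : 1 / K * (1 / W1) ≤ 1 / K * (S / W2) :=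
      mul_le_mul_of_nonneg_left i12 (by positivity)
    have q2 : 1 / K * (3 / W1) = 3 * (1 / K * (1 / W1)) := by ring
    have q3 : 4 * (1 / K * (S / W2)) = S / K * (4 / W2) := by field_simp
    have q4 : S / K ≤ 1 := (div_le_one hK0).2 (by linarith)
    have q5 : S / K * (4 / W2) ≤ 4 / W2 := mul_le_of_le_one_left (by positivity) q4
    linarith
  have n6 : |dt (gψ π e W1 W2 K 1) (fpv π (fr fa fb e) 2)| ≤ 3 / W2 :=
    k6.trans (mul_le_of_le_one_left (by positivity) hK1')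
  have m1 : ∀ {x W ρ t : ℝ}, 0 < W → 0 ≤ ρ → x ≤ 1 / W → ρ ≤ t * W → x * ρ ≤ t := by
    intro x W ρ t hW hρ hx h
    calc x * ρ ≤ 1 / W * ρ := mul_le_mul_of_nonneg_right hx hρ
      _ ≤ 1 / W * (t * W) := mul_le_mul_of_nonneg_left h (by positivity)
      _ = t := by field_simp
  have lo1 : |dt (gχ π e fa fb W1 W2 a α β K) (fpv π (fr fa fb e) 1)| * ρ1 ≤ 2 * s := by
    have := m1 hW1 hρ1 n1 o1
    linarith
  have lo1' : ∀ j, |dt (gψ π e W1 W2 K j) (fpv π (fr fa fb e) 1)| * ρ1 ≤ 8 * σ := by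
    intro j
    fin_cases j
    · have := m1 hW1 hρ1 n3 o1'
      show |dt (gψ π e W1 W2 K 0) _| * ρ1 ≤ 8 * σ
      linarith
    · have h0 : |dt (gψ π e W1 W2 K 1) (fpv π (fr fa fb e) 1)| * ρ1 ≤ 0 * ρ1 :=
        mul_le_mul_of_nonneg_right k5 hρ1
      show |dt (gψ π e W1 W2 K 1) _| * ρ1 ≤ 8 * σ
      linarith
  have m4 : ∀ {x : ℝ}, x ≤ 4 / W2 → x / 4 ≤ 1 / W2 := fun {x} hx => by
    have : 4 / W2 = 4 * (1 / W2) := by ring
    linarith
  have lo2 : (|dt (gχ π e fa fb W1 W2 a α β K) (fpv π (fr fa fb e) 1)| +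
      |dt (gχ π e fa fb W1 W2 a α β K) (fpv π (fr fa fb e) 2)|) * ρ2 ≤ 2 * s := by
    have := m1 hW2 (by linarith : (0 : ℝ) ≤ 2 * ρ2) (m4 n2) o2
    linarith
  have lo2' : ∀ j, (|dt (gψ π e W1 W2 K j) (fpv π (fr fa fb e) 1)| +
      |dt (gψ π e W1 W2 K j) (fpv π (fr fa fb e) 2)|) * ρ2 ≤ 8 * σ := by
    intro j
    fin_cases j
    · have := m1 hW2 hρ2 (m4 n4) o2'
      show (|dt (gψ π e W1 W2 K 0) _| + |dt (gψ π e W1 W2 K 0) _|) * ρ2 ≤ 8 * σ
      linarith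
    · have q1 : |dt (gψ π e W1 W2 K 1) (fpv π (fr fa fb e) 1)| +
          |dt (gψ π e W1 W2 K 1) (fpv π (fr fa fb e) 2)| ≤ 4 / W2 := by
        have : 3 / W2 ≤ 4 / W2 := div_le_div_of_nonneg_right (by norm_num) hW2.le
        linarith
      have := m1 hW2 hρ2 (m4 q1) o2'
      show (|dt (gψ π e W1 W2 K 1) _| + |dt (gψ π e W1 W2 K 1) _|) * ρ2 ≤ 8 * σ
      linarith
  refine ⟨?_, ha, h1, ?_, dual_g hW1 hW2 ha hK0, ?_,
    fun i k => fr_g he hfa hfb hW1 hW2 ha hS h1 h2 hK0 i k, hs, hs1, hσ, ?_, ?_, hρ1, hρ2,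
    lo1, lo1', lo2, lo2'⟩
  · exact (fr_adm (Fa := fa) (Fb := fb) (E := e) π hfa hfb he).ortho
  · show S * W2 ≤ S ^ 2 * W1
    nlinarith
  · nlinarith
  · -- the normal functional
    set A := r0 / a with hA
    set B1 := r0 / W1 with hB1
    set B2 := r0 / W2 with hB2
    have A0 : 0 ≤ A := by positivity
    have B10 : 0 ≤ B1 := by positivity
    have B20 : 0 ≤ B2 := by positivity
    have hA1 : A ≤ S * s := by
      rw [hA, div_le_iff₀ ha]; linarith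
    have hB2' : B2 ≤ S ^ 2 * s := by
      rw [hB2, div_le_iff₀ hW2]
      calc r0 ≤ S * a * s := r1
        _ ≤ S * (S * W2) * s := by gcongr
        _ = S ^ 2 * s * W2 := by ring
    have hB1' : B1 ≤ S ^ 3 * s := by
      rw [hB1, div_le_iff₀ hW1]
      calc r0 ≤ S * a * s := r1
        _ ≤ S * (S * (S * W1)) * s := by
          have : a ≤ S * (S * W1) := h1.trans (mul_le_mul_of_nonneg_left h2 hS0.le)
          gcongr
        _ = S ^ 3 * s * W1 := by ring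
    have eχ : r0 ^ 2 * dt (gχ π e fa fb W1 W2 a α β K) (gχ π e fa fb W1 W2 a α β K) =
        ((A / K) ^ 2 + ((fa * A + α * B1 - β * (e * B2)) / K) ^ 2 +
          ((fb * A + β * B2) / K) ^ 2) := by
      have e1 : gχ π e fa fb W1 W2 a α β K = pv π.symm
          ![1 / K * (1 / a), 1 / K * (-fa / a - α * (1 / W1) - β * (-e / W2)),
            1 / K * (-fb / a - β * (1 / W2))] := by
        refine ext_perm π fun k => ?_
        simp only [gχ, fn1, fn2, fn3, Pi.sub_apply, Pi.smul_apply, smul_eq_mul, pvs_apply]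
        fin_cases k <;>
          simp only [Fin.zero_eta, Fin.mk_one, Fin.reduceFinMk, Fin.isValue, Matrix.cons_val] <;>
          ring
      rw [e1, dt_pv]
      simp only [dt, Matrix.cons_val, hA, hB1, hB2]
      ring
    rw [eχ]
    refine sq3_le ?_
    have t0 : |A / K| = A / K := abs_of_nonneg (by positivity)
    have t1 : |(fa * A + α * B1 - β * (e * B2)) / K| ≤ (A + |α| * B1 + |β| * B2) / K := by
      rw [abs_div, abs_of_pos hK0]
      refine div_le_div_of_nonneg_right ?_ hK0.le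
      have aA : |A| = A := abs_of_nonneg A0
      have aB1 : |B1| = B1 := abs_of_nonneg B10
      have aB2 : |B2| = B2 := abs_of_nonneg B20
      have := aux_s2 (aux_a2 (aux_m2 hfa (le_of_eq aA)) (aux_m2 (le_refl |α|) (le_of_eq aB1)))
        (aux_m2 (le_refl |β|) (aux_m2 he (le_of_eq aB2)))
      linarith
    have t2 : |(fb * A + β * B2) / K| ≤ (A + |β| * B2) / K := by
      rw [abs_div, abs_of_pos hK0]
      refine div_le_div_of_nonneg_right ?_ hK0.le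
      have aA : |A| = A := abs_of_nonneg A0
      have aB2 : |B2| = B2 := abs_of_nonneg B20
      have := aux_a2 (aux_m2 hfb (le_of_eq aA)) (aux_m2 (le_refl |β|) (le_of_eq aB2))
      linarith
    rw [t0]
    have t3 : A / K + (A + |α| * B1 + |β| * B2) / K + (A + |β| * B2) / K ≤ 2 * s := by
      rw [← add_div, ← add_div, div_le_iff₀ hK0]
      have u1 : |α| * B1 ≤ |α| * (S ^ 3 * s) := mul_le_mul_of_nonneg_left hB1' hα
      have u2 : |β| * B2 ≤ |β| * (S ^ 2 * s) := mul_le_mul_of_nonneg_left hB2' hβ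
      have u3 := mul_le_mul_of_nonneg_right hK hs.le
      have u4 : 0 ≤ |α| * (S ^ 3 * s) := by positivity
      have u5 : 0 ≤ |β| * (S ^ 2 * s) := by positivity
      have u6 : 0 ≤ S * s := by positivity
      nlinarith
    linarith
  · -- the lateral functionals
    have hc : ∀ {x W : ℝ}, 0 < W → r0 ≤ S * W * σ → x ^ 2 ≤ 2 →
        r0 ^ 2 * (1 / K * (1 / K) * (x ^ 2 / W ^ 2)) ≤ (8 * σ) ^ 2 := by
      intro x W hW hrW hx
      have e1 : r0 ^ 2 * (1 / K * (1 / K) * (x ^ 2 / W ^ 2)) = (r0 / (K * W)) ^ 2 * x ^ 2 := by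
        field_simp
      have e2 : r0 / (K * W) ≤ σ := by
        rw [div_le_iff₀ (by positivity)]
        have : S * W * σ ≤ K * W * σ := by
          have : S ≤ K := by linarith
          gcongr
        linarith
      have e3 : 0 ≤ r0 / (K * W) := by positivity
      have e4 : (r0 / (K * W)) ^ 2 ≤ σ ^ 2 := pow_le_pow_left₀ e3 e2 2
      rw [e1]
      nlinarith [sq_nonneg x, sq_nonneg σ, sq_nonneg (r0 / (K * W))]
    intro j
    fin_cases j
    · show r0 ^ 2 * dt ((1 / K) • fn1 π W1) ((1 / K) • fn1 π W1) ≤ _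
      have e1 : dt ((1 / K) • fn1 π W1) ((1 / K) • fn1 π W1) =
          1 / K * (1 / K) * ((1 : ℝ) ^ 2 / W1 ^ 2) := by
        rw [smul_dt', dt_smul, fn1, dt_pv]
        simp only [dt, Matrix.cons_val]
        ring
      rw [e1]
      exact hc hW1 r2 (by norm_num)
    · show r0 ^ 2 * dt ((1 / K) • fn2 π e W2) ((1 / K) • fn2 π e W2) ≤ _
      have e0 : Real.sqrt (1 + e ^ 2) ^ 2 = 1 + e ^ 2 := Real.sq_sqrt (by positivity)
      have e1 : dt ((1 / K) • fn2 π e W2) ((1 / K) • fn2 π e W2) =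
          1 / K * (1 / K) * (Real.sqrt (1 + e ^ 2) ^ 2 / W2 ^ 2) := by
        rw [smul_dt', dt_smul, fn2, dt_pv, e0]
        simp only [dt, Matrix.cons_val]
        ring
      rw [e1]
      refine hc hW2 r3 ?_
      rw [e0]
      have : e ^ 2 ≤ 1 := by
        rw [← sq_abs]
        exact pow_le_one₀ (abs_nonneg _) he
      linarith

/-! ### relative coordinates -/

/-- natural box -/
structure NatX (X : Fin 11 → ℝ) : Prop where
  h8 : X 8 = X 0 + X 5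
  h9 : X 9 = X 0 + X 6
  h10 : X 10 = X 0 + X 7
  h2 : X 9 = X 8 + X 2
  h3 : X 10 = X 9 + X 3
  h4 : X 10 = X 8 + X 4

/-- relative coordinates of the scaled chart in the units of a box -/
noncomputable abbrev relG (H Wa Wb Wy d : ℝ) (X : Fin 11 → ℝ) (i j : Fq4) (k : Fin 11) : ℝ :=
  coQ (scl H Wa Wb Wy i) (scl H Wa Wb Wy j) k / d ^ X k

theorem relG_eq {H Wa Wb Wy d : ℝ} (hH : 0 < H) (ha : 0 < Wa) (hb : 0 < Wb) (hy : 0 < Wy)
    (X : Fin 11 → ℝ) (i j : Fq4) (k : Fin 11) :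
    relG H Wa Wb Wy d X i j k = sfac H Wa Wb Wy k * coQ i j k / d ^ X k := by
  rw [relG, coQ_scl hH.ne' ha.ne' hb.ne' hy.ne']

section

variable {π : Equiv.Perm (Fin 3)} {H Wa Wb Wy d : ℝ} {X : Fin 11 → ℝ} {tx ty tO : Ln4}
  {zx ex fax fbx zy ey fay fby zo eo fao fbo : ℝ}

/-- the pieces of `dt_fn` for any difference vector `δ` with coefficients `c8 + ζ c5`, .. -/
theorem pieces (hd : 0 < d) (hH : 0 < H) (ha : 0 < Wa) (hb : 0 < Wb) (hy : 0 < Wy) (hX : NatX X)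
    (x y o : Fq4) (ζ : ℝ) :
    relG H Wa Wb Wy d X x y 8 + H * ζ / d ^ X 0 * relG H Wa Wb Wy d X x y 5 =
      (coQ x y 8 + ζ * coQ x y 5) / (Wa / H * d ^ X 8) ∧
    relG H Wa Wb Wy d X x y 9 + H * ζ / d ^ X 0 * relG H Wa Wb Wy d X x y 6 =
      (coQ x y 9 + ζ * coQ x y 6) / (Wb / H * d ^ X 9) ∧
    relG H Wa Wb Wy d X x y 10 + H * ζ / d ^ X 0 * relG H Wa Wb Wy d X x y 7 =
      (coQ x y 10 + ζ * coQ x y 7) / (Wy / H * d ^ X 10) ∧
    (∀ Y, relG H Wa Wb Wy d X o x 2 * (Y / (Wa / H * d ^ X 8)) =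
      coQ o x 2 * Y / (Wb / H * d ^ X 9)) ∧
    (∀ Y, relG H Wa Wb Wy d X o x 3 * (Y / (Wb / H * d ^ X 9)) =
      coQ o x 3 * Y / (Wy / H * d ^ X 10)) ∧
    (∀ Y, relG H Wa Wb Wy d X o x 4 * (Y / (Wa / H * d ^ X 8)) =
      coQ o x 4 * Y / (Wy / H * d ^ X 10)) ∧
    d ^ X 0 / H * (1 / (Wa / H * d ^ X 8)) * coQ x y 5 = relG H Wa Wb Wy d X x y 5 ∧
    d ^ X 0 / H * (1 / (Wb / H * d ^ X 9)) * coQ x y 6 = relG H Wa Wb Wy d X x y 6 ∧
    d ^ X 0 / H * (1 / (Wy / H * d ^ X 10)) * coQ x y 7 = relG H Wa Wb Wy d X x y 7 := by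
  have p0 : d ^ X 0 ≠ 0 := (Real.rpow_pos_of_pos hd _).ne'
  have p2 : d ^ X 2 ≠ 0 := (Real.rpow_pos_of_pos hd _).ne'
  have p3 : d ^ X 3 ≠ 0 := (Real.rpow_pos_of_pos hd _).ne'
  have p4 : d ^ X 4 ≠ 0 := (Real.rpow_pos_of_pos hd _).ne'
  have p5 : d ^ X 5 ≠ 0 := (Real.rpow_pos_of_pos hd _).ne'
  have p6 : d ^ X 6 ≠ 0 := (Real.rpow_pos_of_pos hd _).ne'
  have p7 : d ^ X 7 ≠ 0 := (Real.rpow_pos_of_pos hd _).ne'
  have p8 : d ^ X 8 ≠ 0 := (Real.rpow_pos_of_pos hd _).ne'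
  have p9 : d ^ X 9 ≠ 0 := (Real.rpow_pos_of_pos hd _).ne'
  have p10 : d ^ X 10 ≠ 0 := (Real.rpow_pos_of_pos hd _).ne'
  have q8 : d ^ X 8 = d ^ X 0 * d ^ X 5 := by rw [hX.h8, Real.rpow_add hd]
  have q9 : d ^ X 9 = d ^ X 0 * d ^ X 6 := by rw [hX.h9, Real.rpow_add hd]
  have q10 : d ^ X 10 = d ^ X 0 * d ^ X 7 := by rw [hX.h10, Real.rpow_add hd]
  have q2 : d ^ X 9 = d ^ X 8 * d ^ X 2 := by rw [hX.h2, Real.rpow_add hd]
  have q3 : d ^ X 10 = d ^ X 9 * d ^ X 3 := by rw [hX.h3, Real.rpow_add hd]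
  have q4 : d ^ X 10 = d ^ X 8 * d ^ X 4 := by rw [hX.h4, Real.rpow_add hd]
  have hH' := hH.ne'
  have ha' := ha.ne'
  have hb' := hb.ne'
  have hy' := hy.ne'
  have r : ∀ (i j : Fq4) (k : Fin 11),
      relG H Wa Wb Wy d X i j k = sfac H Wa Wb Wy k * coQ i j k / d ^ X k := fun i j k =>
    relG_eq hH ha hb hy X i j k
  have s2 : sfac H Wa Wb Wy 2 = Wa / Wb := rfl
  have s3 : sfac H Wa Wb Wy 3 = Wb / Wy := rfl
  have s4 : sfac H Wa Wb Wy 4 = Wa / Wy := rfl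
  have s5 : sfac H Wa Wb Wy 5 = 1 / Wa := rfl
  have s6 : sfac H Wa Wb Wy 6 = 1 / Wb := rfl
  have s7 : sfac H Wa Wb Wy 7 = 1 / Wy := rfl
  have s8 : sfac H Wa Wb Wy 8 = H / Wa := rfl
  have s9 : sfac H Wa Wb Wy 9 = H / Wb := rfl
  have s10 : sfac H Wa Wb Wy 10 = H / Wy := rfl
  refine ⟨?_, ?_, ?_, fun Y => ?_, fun Y => ?_, fun Y => ?_, ?_, ?_, ?_⟩
  · rw [r, r, s8, s5, q8]; field_simp
  · rw [r, r, s9, s6, q9]; field_simp
  · rw [r, r, s10, s7, q10]; field_simp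
  · rw [r, s2, q2]; field_simp
  · rw [r, s3, q3]; field_simp
  · rw [r, s4, q4]; field_simp
  · rw [r, s5, q8]; field_simp
  · rw [r, s6, q9]; field_simp
  · rw [r, s7, q10]; field_simp

/-- **(G2) the functionals of the flag of `o` on the difference of two lines** -/
theorem dt_fn (hd : 0 < d) (hH : 0 < H) (ha : 0 < Wa) (hb : 0 < Wb) (hy : 0 < Wy) (hX : NatX X)
    {x y o : Fq4} (hx : x = mkT (cLn π tx) zx ex fax fbx) (hy' : y = mkT (cLn π ty) zy ey fay fby)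
    (ho : o = mkT (cLn π tO) zo eo fao fbo) (z : ℝ) :
    dt (fn1 π (Wa / H * d ^ X 8)) (ty.pos z - tx.pos z) =
      relG H Wa Wb Wy d X x y 8 + H * (z - zx) / d ^ X 0 * relG H Wa Wb Wy d X x y 5 ∧
    dt (fn2 π eo (Wb / H * d ^ X 9)) (ty.pos z - tx.pos z) =
      relG H Wa Wb Wy d X x y 9 + H * (z - zx) / d ^ X 0 * relG H Wa Wb Wy d X x y 6 +
        relG H Wa Wb Wy d X o x 2 * (relG H Wa Wb Wy d X x y 8 +
          H * (z - zx) / d ^ X 0 * relG H Wa Wb Wy d X x y 5) ∧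
    dt (fn3 π fao fbo (Wy / H * d ^ X 10)) (ty.pos z - tx.pos z) =
      relG H Wa Wb Wy d X x y 10 + H * (z - zx) / d ^ X 0 * relG H Wa Wb Wy d X x y 7 +
        relG H Wa Wb Wy d X o x 4 * (relG H Wa Wb Wy d X x y 8 +
          H * (z - zx) / d ^ X 0 * relG H Wa Wb Wy d X x y 5) +
        relG H Wa Wb Wy d X o x 3 * (relG H Wa Wb Wy d X x y 9 +
          H * (z - zx) / d ^ X 0 * relG H Wa Wb Wy d X x y 6 +
          relG H Wa Wb Wy d X o x 2 * (relG H Wa Wb Wy d X x y 8 +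
            H * (z - zx) / d ^ X 0 * relG H Wa Wb Wy d X x y 5)) := by
  obtain ⟨g1, g2, g3, g4, g5, g6, -, -, -⟩ := pieces hd hH ha hb hy hX x y o (z - zx)
  have hxz : x.z = zx := by rw [hx]; rfl
  set δ : V3 := ty.pos z - tx.pos z with hδ
  have d1 : δ (π 1) = coQ x y 8 + (z - zx) * coQ x y 5 := by
    rw [← hxz, ← ra_eq, hx, hy']; rfl
  have d2 : δ (π 2) - ex * δ (π 1) = coQ x y 9 + (z - zx) * coQ x y 6 := by
    rw [← hxz, ← rb_eq, hx, hy']; rfl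
  have d3 : δ (π 0) - fax * δ (π 1) - fbx * δ (π 2) = coQ x y 10 + (z - zx) * coQ x y 7 := by
    have h1 := rn_eq x y z
    have h2 : coQ x y 1 = 0 := by rw [hx, hy']; simp [coQ, mkT]
    rw [h2, mul_zero, add_zero, hxz] at h1
    rw [← h1, hx, hy']
    simp only [rn, mkT, cLn, Fq4.py, Fq4.pa, Fq4.pb, hδ, Ln4.pos, Pi.sub_apply]
    ring
  have c2 : coQ o x 2 = ex - eo := by rw [ho, hx]; rfl
  have c3 : coQ o x 3 = fbx - fbo := by rw [ho, hx]; rfl
  have c4 : coQ o x 4 = (fax - fao) + eo * (fbx - fbo) := by rw [ho, hx]; rfl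
  rw [g1, g2, g3, ← d1, ← d2, ← d3, g4, g6, ← add_div, g5, ← add_div, ← add_div, dt_fn1, dt_fn2,
    dt_fn3, c2, c3, c4]
  refine ⟨rfl, ?_, ?_⟩
  · congr 1; ring
  · congr 1; ring

/-- **(G2) the functionals of the flag of `o` on the difference of two velocities** -/
theorem dt_fnv (hd : 0 < d) (hH : 0 < H) (ha : 0 < Wa) (hb : 0 < Wb) (hy : 0 < Wy) (hX : NatX X)
    {x y o : Fq4} (hx : x = mkT (cLn π tx) zx ex fax fbx) (hy' : y = mkT (cLn π ty) zy ey fay fby)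
    (ho : o = mkT (cLn π tO) zo eo fao fbo) :
    dt (fn1 π (Wa / H * d ^ X 8)) (ty.v - tx.v) * (d ^ X 0 / H) =
      relG H Wa Wb Wy d X x y 5 ∧
    dt (fn2 π eo (Wb / H * d ^ X 9)) (ty.v - tx.v) * (d ^ X 0 / H) =
      relG H Wa Wb Wy d X x y 6 +
        relG H Wa Wb Wy d X o x 2 * relG H Wa Wb Wy d X x y 5 ∧
    dt (fn3 π fao fbo (Wy / H * d ^ X 10)) (ty.v - tx.v) * (d ^ X 0 / H) =
      relG H Wa Wb Wy d X x y 7 +
        relG H Wa Wb Wy d X o x 4 * relG H Wa Wb Wy d X x y 5 +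
        relG H Wa Wb Wy d X o x 3 * (relG H Wa Wb Wy d X x y 6 +
          relG H Wa Wb Wy d X o x 2 * relG H Wa Wb Wy d X x y 5) := by
  obtain ⟨-, -, -, g4, g5, g6, g7, g8, g9⟩ := pieces hd hH ha hb hy hX x y o 0
  set δ : V3 := ty.v - tx.v with hδ
  have d1 : δ (π 1) = coQ x y 5 := by rw [hx, hy']; rfl
  have d2 : δ (π 2) - ex * δ (π 1) = coQ x y 6 := by rw [hx, hy']; rfl
  have d3 : δ (π 0) - fax * δ (π 1) - fbx * δ (π 2) = coQ x y 7 := by
    rw [hx, hy']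
    simp only [coQ, mkT, cLn, Fq4.vy, hδ, Pi.sub_apply, Matrix.cons_val]
    ring
  have c2 : coQ o x 2 = ex - eo := by rw [ho, hx]; rfl
  have c3 : coQ o x 3 = fbx - fbo := by rw [ho, hx]; rfl
  have c4 : coQ o x 4 = (fax - fao) + eo * (fbx - fbo) := by rw [ho, hx]; rfl
  have k1 : relG H Wa Wb Wy d X x y 5 = d ^ X 0 / H * δ (π 1) / (Wa / H * d ^ X 8) := by
    rw [← g7, d1]; ring
  have k2 : relG H Wa Wb Wy d X x y 6 =
      d ^ X 0 / H * (δ (π 2) - ex * δ (π 1)) / (Wb / H * d ^ X 9) := by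
    rw [← g8, d2]; ring
  have k3 : relG H Wa Wb Wy d X x y 7 =
      d ^ X 0 / H * (δ (π 0) - fax * δ (π 1) - fbx * δ (π 2)) / (Wy / H * d ^ X 10) := by
    rw [← g9, d3]; ring
  rw [k1, k2, k3, g4, g6, ← add_div, g5, ← add_div, ← add_div, dt_fn1, dt_fn2, dt_fn3, c2, c3, c4]
  refine ⟨?_, ?_, ?_⟩
  · ring
  · ring
  · ring

end

end Crest.Agent.R136.Lab926
end

-- ▼ part R136/LabW6_926

/-!
# R136: END-LAB, window side, part 6 (helper926)

Geometry of the family `E`: the functionals of the flag of the popular point in the natural units,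
`WinH.slabIn`.
-/

set_option autoImplicit false
set_option linter.unusedSectionVars false
set_option linter.unusedVariables false

open Filter Topology

namespace Crest.Agent.R136.Lab926

open Finset
open Crest.Agent.R138.Ex926
open Crest.Agent.R138.Mk163 (zc zl rho alive)
open Crest.Agent.R138.MkRef627 (lc kc mem_alive)
open Crest.Agent.R136.Sh605
open Crest.Agent.R136.End403
open Crest.Agent.R136.Net191
open Crest.Agent.R136.NetQ186
open Crest.Agent.R136.GeoQ186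
open Crest.Agent.R136.MkA627
open Crest.Agent.R136.Wq638
open Crest.Agent.R136.Lq196
open Crest.Agent.R136.Qg926

theorem natX_natB (w0 R1 v t1 t2 t3 : ℝ) : NatX (natB w0 R1 v t1 t2 t3) := by
  refine ⟨?_, ?_, ?_, ?_, ?_, ?_⟩ <;> simp only [natB, Matrix.cons_val] <;> ring

/-- bounds from bounded coefficients -/
theorem abs3_bd {r8 r5 r9 r6 r10 r7 s2 s3 s4 ζ κ t : ℝ} (hκ : 1 ≤ κ) (ht : 0 ≤ t)
    (h8 : |r8| ≤ κ * t) (h5 : |r5| ≤ κ * t) (h9 : |r9| ≤ κ * t) (h6 : |r6| ≤ κ * t)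
    (h10 : |r10| ≤ κ * t) (h7 : |r7| ≤ κ * t) (h2 : |s2| ≤ κ) (h3 : |s3| ≤ κ) (h4 : |s4| ≤ κ)
    (hζ : |ζ| ≤ 2) :
    |r8 + ζ * r5| ≤ 12 * κ ^ 3 * t ∧
    |r9 + ζ * r6 + s2 * (r8 + ζ * r5)| ≤ 12 * κ ^ 3 * t ∧
    |r10 + ζ * r7 + s4 * (r8 + ζ * r5) + s3 * (r9 + ζ * r6 + s2 * (r8 + ζ * r5))| ≤
      12 * κ ^ 3 * t := by
  have hκ0 : 0 < κ := by linarith
  have m : ∀ {a b x y : ℝ}, |a| ≤ x → |b| ≤ y → |a * b| ≤ x * y := fun {a b x y} ha hb => by
    rw [abs_mul]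
    exact mul_le_mul ha hb (abs_nonneg _) ((abs_nonneg _).trans ha)
  have ad : ∀ {a b x y : ℝ}, |a| ≤ x → |b| ≤ y → |a + b| ≤ x + y := fun {a b x y} ha hb =>
    (abs_add_le _ _).trans (add_le_add ha hb)
  have a1 : |r8 + ζ * r5| ≤ κ * t + 2 * (κ * t) := ad h8 (m hζ h5)
  have a2 : |r9 + ζ * r6 + s2 * (r8 + ζ * r5)| ≤
      κ * t + 2 * (κ * t) + κ * (κ * t + 2 * (κ * t)) := ad (ad h9 (m hζ h6)) (m h2 a1)
  have a3 : |r10 + ζ * r7 + s4 * (r8 + ζ * r5) + s3 * (r9 + ζ * r6 + s2 * (r8 + ζ * r5))| ≤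
      κ * t + 2 * (κ * t) + κ * (κ * t + 2 * (κ * t)) +
        κ * (κ * t + 2 * (κ * t) + κ * (κ * t + 2 * (κ * t))) :=
    ad (ad (ad h10 (m hζ h7)) (m h4 a1)) (m h3 a2)
  have k1 : κ ≤ κ ^ 3 := by
    calc κ = κ ^ 1 := (pow_one κ).symm
      _ ≤ κ ^ 3 := pow_le_pow_right₀ hκ (by norm_num)
  have k2 : κ ^ 2 ≤ κ ^ 3 := pow_le_pow_right₀ hκ (by norm_num)
  have t1 : κ * t ≤ κ ^ 3 * t := mul_le_mul_of_nonneg_right k1 ht
  have t2 : κ ^ 2 * t ≤ κ ^ 3 * t := mul_le_mul_of_nonneg_right k2 ht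
  have t3 : 0 ≤ κ ^ 3 * t := by positivity
  refine ⟨?_, ?_, ?_⟩
  · refine a1.trans ?_
    linarith
  · refine a2.trans ?_
    have e : κ * t + 2 * (κ * t) + κ * (κ * t + 2 * (κ * t)) = 3 * (κ * t) + 3 * (κ ^ 2 * t) := by
      ring
    rw [e]; linarith
  · refine a3.trans ?_
    have e : κ * t + 2 * (κ * t) + κ * (κ * t + 2 * (κ * t)) +
        κ * (κ * t + 2 * (κ * t) + κ * (κ * t + 2 * (κ * t))) =
        3 * (κ * t) + 6 * (κ ^ 2 * t) + 3 * (κ ^ 3 * t) := by ring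
    rw [e]; linarith

/-- bounds at the height of the incidence -/
theorem abs3_sm {r8 r9 r10 s2 s3 s4 κ t u : ℝ} (hκ : 1 ≤ κ) (hu : 0 ≤ u) (hut : u ≤ t)
    (h8 : |r8| ≤ κ * u) (h9 : |r9| ≤ κ * u)
    (h10 : |r10| ≤ κ * t) (h2 : |s2| ≤ κ) (h3 : |s3| ≤ κ) (h4 : |s4| ≤ κ) :
    |r8| ≤ 12 * κ ^ 3 * u ∧
    |r9 + s2 * r8| ≤ 12 * κ ^ 3 * u ∧
    |r10 + s4 * r8 + s3 * (r9 + s2 * r8)| ≤ 12 * κ ^ 3 * t := by
  have hκ0 : 0 < κ := by linarith
  have ht : 0 ≤ t := hu.trans hut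
  have m : ∀ {a b x y : ℝ}, |a| ≤ x → |b| ≤ y → |a * b| ≤ x * y := fun {a b x y} ha hb => by
    rw [abs_mul]
    exact mul_le_mul ha hb (abs_nonneg _) ((abs_nonneg _).trans ha)
  have ad : ∀ {a b x y : ℝ}, |a| ≤ x → |b| ≤ y → |a + b| ≤ x + y := fun {a b x y} ha hb =>
    (abs_add_le _ _).trans (add_le_add ha hb)
  have a2 : |r9 + s2 * r8| ≤ κ * u + κ * (κ * u) := ad h9 (m h2 h8)
  have a3 : |r10 + s4 * r8 + s3 * (r9 + s2 * r8)| ≤
      κ * t + κ * (κ * u) + κ * (κ * u + κ * (κ * u)) := ad (ad h10 (m h4 h8)) (m h3 a2)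
  have k1 : κ ≤ κ ^ 3 := by
    calc κ = κ ^ 1 := (pow_one κ).symm
      _ ≤ κ ^ 3 := pow_le_pow_right₀ hκ (by norm_num)
  have k2 : κ ^ 2 ≤ κ ^ 3 := pow_le_pow_right₀ hκ (by norm_num)
  have u1 : κ * u ≤ κ ^ 3 * u := mul_le_mul_of_nonneg_right k1 hu
  have u2 : κ ^ 2 * u ≤ κ ^ 3 * u := mul_le_mul_of_nonneg_right k2 hu
  have t1 : κ * t ≤ κ ^ 3 * t := mul_le_mul_of_nonneg_right k1 ht
  have t3 : κ ^ 3 * u ≤ κ ^ 3 * t := mul_le_mul_of_nonneg_left hut (by positivity)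
  have t4 : 0 ≤ κ ^ 3 * u := by positivity
  refine ⟨h8.trans (by linarith), ?_, ?_⟩
  · refine a2.trans ?_
    have e : κ * u + κ * (κ * u) = κ * u + κ ^ 2 * u := by ring
    rw [e]; linarith
  · refine a3.trans ?_
    have e : κ * t + κ * (κ * u) + κ * (κ * u + κ * (κ * u)) =
        κ * t + 2 * (κ ^ 2 * u) + κ ^ 3 * u := by ring
    rw [e]; linarith

/-- size of the class -/
noncomputable def wS (B : Base) (w : Fin 3 → ℕ → ℚ → ℝ) (j : Fin 3) (n : ℕ) (t : ℝ) : ℝ :=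
  w j n 0 * B.d n ^ t

section

variable {B : Base} {L : ℕ → ℕ → Ln4} {π : Equiv.Perm (Fin 3)} {eE fA fB : ℕ → ℕ × ℝ → ℝ}
    {lev : ℕ → ℚ → ℕ} {w : Fin 3 → ℕ → ℚ → ℝ} {w0 R1 v t1 t2 t3 : ℝ} {n : ℕ}

theorem uH_pos : 0 < uH B lev w0 n := by
  unfold uH
  have := Real.rpow_pos_of_pos (B.pos n) w0
  positivity

theorem uA_pos (h : ∀ j, 0 < w j n 0) : 0 < uA B lev w w0 n := by
  unfold uA
  have h1 := h 1
  have h2 := rho_pos' (lev n 0)
  have := Real.rpow_pos_of_pos (B.pos n) (-w0)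
  positivity

theorem uB_pos (h : ∀ j, 0 < w j n 0) : 0 < uB B lev w w0 n := by
  unfold uB
  have h1 := h 2
  have h2 := rho_pos' (lev n 0)
  have := Real.rpow_pos_of_pos (B.pos n) (-(2 * w0))
  positivity

theorem uY_pos (h : ∀ j, 0 < w j n 0) : 0 < uY B lev w w0 n := by
  unfold uY
  have h1 := h 0
  have h2 := rho_pos' (lev n 0)
  have := Real.rpow_pos_of_pos (B.pos n) (-(3 * w0))
  positivity

theorem unit_aux {d x c w0 s : ℝ} (hd : 0 < d) {l : ℕ} (k : ℝ) :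
    x / rho l * d ^ (-(k * w0)) / (d ^ w0 * 2 ^ l) * d ^ ((k + 1) * w0 + s) = x * d ^ s := by
  have p : 0 < d ^ w0 := Real.rpow_pos_of_pos hd _
  have p2 : (0 : ℝ) < 2 ^ l := by positivity
  have e1 : d ^ ((k + 1) * w0 + s) = d ^ (k * w0) * d ^ w0 * d ^ s := by
    rw [← Real.rpow_add hd, ← Real.rpow_add hd]; congr 1; ring
  have e2 : d ^ (-(k * w0)) = (d ^ (k * w0))⁻¹ := Real.rpow_neg hd.le _
  have p3 : 0 < d ^ (k * w0) := Real.rpow_pos_of_pos hd _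
  rw [e1, e2]
  unfold rho
  field_simp

theorem unit1 : uA B lev w w0 n / uH B lev w0 n * B.d n ^ natB w0 R1 v t1 t2 t3 8 =
    wS B w 1 n (v + t1) := by
  have h := unit_aux (x := w 1 n 0) (c := 0) (w0 := w0) (s := v + t1) (B.pos n) (l := lev n 0) 1
  rw [one_mul] at h
  unfold wS
  rw [← h]
  unfold uA uH
  congr 2
  simp only [natB, Matrix.cons_val]
  ring

theorem unit2 : uB B lev w w0 n / uH B lev w0 n * B.d n ^ natB w0 R1 v t1 t2 t3 9 =
    wS B w 2 n (v + t2) := by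
  have h := unit_aux (x := w 2 n 0) (c := 0) (w0 := w0) (s := v + t2) (B.pos n) (l := lev n 0) 2
  unfold wS
  rw [← h]
  unfold uB uH
  congr 2
  simp only [natB, Matrix.cons_val]
  ring

theorem unit3 : uY B lev w w0 n / uH B lev w0 n * B.d n ^ natB w0 R1 v t1 t2 t3 10 =
    wS B w 0 n (v + t3) := by
  have h := unit_aux (x := w 0 n 0) (c := 0) (w0 := w0) (s := v + t3) (B.pos n) (l := lev n 0) 3
  unfold wS
  rw [← h]
  unfold uY uH
  congr 2
  simp only [natB, Matrix.cons_val]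
  ring

/-- the functionals on the difference of two near lines -/
theorem fn_near (hw : ∀ j, 0 < w j n 0) {κ t : ℝ} (hκ : 1 ≤ κ) (ht : 0 ≤ t) {o x y : ℕ × ℝ}
    (hox : ∀ k, |couQ B lev w w0 (incQ π L eE fA fB) n o x k| ≤
      κ * B.d n ^ natB w0 R1 v t1 t2 t3 k)
    (hxy : ∀ k : Fin 11, 5 ≤ k → |couQ B lev w w0 (incQ π L eE fA fB) n x y k| ≤
      κ * t * B.d n ^ natB w0 R1 v t1 t2 t3 k) {z : ℝ}
    (hz : uH B lev w0 n * |z - x.2| ≤ 2 * B.d n ^ natB w0 R1 v t1 t2 t3 0) :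
    |dt (fn1 π (wS B w 1 n (v + t1))) ((L n y.1).pos z - (L n x.1).pos z)| ≤ 12 * κ ^ 3 * t ∧
    |dt (fn2 π (eE n o) (wS B w 2 n (v + t2))) ((L n y.1).pos z - (L n x.1).pos z)| ≤
      12 * κ ^ 3 * t ∧
    |dt (fn3 π (fA n o) (fB n o) (wS B w 0 n (v + t3))) ((L n y.1).pos z - (L n x.1).pos z)| ≤
      12 * κ ^ 3 * t := by
  obtain ⟨g1, g2, g3⟩ := dt_fn (π := π) (B.pos n) (uH_pos (B := B) (lev := lev) (w0 := w0))
    (uA_pos (B := B) (lev := lev) (w0 := w0) hw) (uB_pos hw) (uY_pos hw)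
    (natX_natB w0 R1 v t1 t2 t3) (x := incQ π L eE fA fB n x) (y := incQ π L eE fA fB n y)
    (o := incQ π L eE fA fB n o) rfl rfl rfl z
  rw [unit1] at g1
  rw [unit2] at g2
  rw [unit3] at g3
  rw [g1, g2, g3]
  have hp : ∀ k, 0 < B.d n ^ natB w0 R1 v t1 t2 t3 k := fun k => Real.rpow_pos_of_pos (B.pos n) _
  have b1 : ∀ k : Fin 11, 5 ≤ k → |relG (uH B lev w0 n) (uA B lev w w0 n) (uB B lev w w0 n)
      (uY B lev w w0 n) (B.d n) (natB w0 R1 v t1 t2 t3) (incQ π L eE fA fB n x)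
      (incQ π L eE fA fB n y) k| ≤ κ * t := fun k hk => by
    rw [relG, abs_div, abs_of_pos (hp k), div_le_iff₀ (hp k)]
    exact hxy k hk
  have b2 : ∀ k, |relG (uH B lev w0 n) (uA B lev w w0 n) (uB B lev w w0 n) (uY B lev w w0 n)
      (B.d n) (natB w0 R1 v t1 t2 t3) (incQ π L eE fA fB n o) (incQ π L eE fA fB n x) k| ≤
      κ := fun k => by
    rw [relG, abs_div, abs_of_pos (hp k), div_le_iff₀ (hp k)]
    exact hox k
  have hζ : |uH B lev w0 n * (z - x.2) / B.d n ^ natB w0 R1 v t1 t2 t3 0| ≤ 2 := by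
    rw [abs_div, abs_of_pos (hp 0), div_le_iff₀ (hp 0), abs_mul, abs_of_pos uH_pos]
    exact hz
  exact abs3_bd hκ ht (b1 8 (by decide)) (b1 5 (by decide)) (b1 9 (by decide))
    (b1 6 (by decide)) (b1 10 (by decide)) (b1 7 (by decide)) (b2 2) (b2 3) (b2 4) hζ

/-- the functionals at the height of the incidence -/
theorem fn_small (hw : ∀ j, 0 < w j n 0) {κ t u : ℝ} (hκ : 1 ≤ κ) (hu : 0 ≤ u) (hut : u ≤ t)
    {o x y : ℕ × ℝ}
    (hox : ∀ k, |couQ B lev w w0 (incQ π L eE fA fB) n o x k| ≤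
      κ * B.d n ^ natB w0 R1 v t1 t2 t3 k)
    (h8 : |couQ B lev w w0 (incQ π L eE fA fB) n x y 8| ≤
      κ * u * B.d n ^ natB w0 R1 v t1 t2 t3 8)
    (h9 : |couQ B lev w w0 (incQ π L eE fA fB) n x y 9| ≤
      κ * u * B.d n ^ natB w0 R1 v t1 t2 t3 9)
    (h10 : |couQ B lev w w0 (incQ π L eE fA fB) n x y 10| ≤
      κ * t * B.d n ^ natB w0 R1 v t1 t2 t3 10) :
    |dt (fn1 π (wS B w 1 n (v + t1))) ((L n y.1).pos x.2 - (L n x.1).pos x.2)| ≤
      12 * κ ^ 3 * u ∧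
    |dt (fn2 π (eE n o) (wS B w 2 n (v + t2))) ((L n y.1).pos x.2 - (L n x.1).pos x.2)| ≤
      12 * κ ^ 3 * u ∧
    |dt (fn3 π (fA n o) (fB n o) (wS B w 0 n (v + t3)))
      ((L n y.1).pos x.2 - (L n x.1).pos x.2)| ≤ 12 * κ ^ 3 * t := by
  obtain ⟨g1, g2, g3⟩ := dt_fn (π := π) (B.pos n) (uH_pos (B := B) (lev := lev) (w0 := w0))
    (uA_pos (B := B) (lev := lev) (w0 := w0) hw) (uB_pos hw) (uY_pos hw)
    (natX_natB w0 R1 v t1 t2 t3) (x := incQ π L eE fA fB n x) (y := incQ π L eE fA fB n y)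
    (o := incQ π L eE fA fB n o) rfl rfl rfl x.2
  rw [unit1] at g1
  rw [unit2] at g2
  rw [unit3] at g3
  simp only [sub_self, mul_zero, zero_div, zero_mul, add_zero] at g1 g2 g3
  rw [g1, g2, g3]
  have hp : ∀ k, 0 < B.d n ^ natB w0 R1 v t1 t2 t3 k := fun k => Real.rpow_pos_of_pos (B.pos n) _
  have b1 : ∀ (k : Fin 11) (c : ℝ), |couQ B lev w w0 (incQ π L eE fA fB) n x y k| ≤
      c * B.d n ^ natB w0 R1 v t1 t2 t3 k →
      |relG (uH B lev w0 n) (uA B lev w w0 n) (uB B lev w w0 n) (uY B lev w w0 n)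
      (B.d n) (natB w0 R1 v t1 t2 t3) (incQ π L eE fA fB n x) (incQ π L eE fA fB n y) k| ≤
      c := fun k c h => by
    rw [relG, abs_div, abs_of_pos (hp k), div_le_iff₀ (hp k)]
    exact h
  have b2 : ∀ k, |relG (uH B lev w0 n) (uA B lev w w0 n) (uB B lev w w0 n) (uY B lev w w0 n)
      (B.d n) (natB w0 R1 v t1 t2 t3) (incQ π L eE fA fB n o) (incQ π L eE fA fB n x) k| ≤
      κ := fun k => by
    rw [relG, abs_div, abs_of_pos (hp k), div_le_iff₀ (hp k)]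
    exact hox k
  exact abs3_sm hκ hu hut (b1 8 _ h8) (b1 9 _ h9) (b1 10 _ h10) (b2 2) (b2 3) (b2 4)

theorem coQ_self (i : Fq4) (k : Fin 11) : coQ i i k = 0 := by
  fin_cases k <;> simp [coQ]

/-- the functionals on the difference of two velocities -/
theorem fn_vel (hw : ∀ j, 0 < w j n 0) {o y : ℕ × ℝ} :
    dt (fn1 π (wS B w 1 n (v + t1))) ((L n y.1).v - (L n o.1).v) *
      (B.d n ^ natB w0 R1 v t1 t2 t3 0 / uH B lev w0 n) =
      couQ B lev w w0 (incQ π L eE fA fB) n o y 5 / B.d n ^ natB w0 R1 v t1 t2 t3 5 ∧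
    dt (fn2 π (eE n o) (wS B w 2 n (v + t2))) ((L n y.1).v - (L n o.1).v) *
      (B.d n ^ natB w0 R1 v t1 t2 t3 0 / uH B lev w0 n) =
      couQ B lev w w0 (incQ π L eE fA fB) n o y 6 / B.d n ^ natB w0 R1 v t1 t2 t3 6 ∧
    dt (fn3 π (fA n o) (fB n o) (wS B w 0 n (v + t3))) ((L n y.1).v - (L n o.1).v) *
      (B.d n ^ natB w0 R1 v t1 t2 t3 0 / uH B lev w0 n) =
      couQ B lev w w0 (incQ π L eE fA fB) n o y 7 / B.d n ^ natB w0 R1 v t1 t2 t3 7 := by
  obtain ⟨g1, g2, g3⟩ := dt_fnv (π := π) (B.pos n) (uH_pos (B := B) (lev := lev) (w0 := w0))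
    (uA_pos (B := B) (lev := lev) (w0 := w0) hw) (uB_pos hw) (uY_pos hw)
    (natX_natB w0 R1 v t1 t2 t3) (x := incQ π L eE fA fB n o) (y := incQ π L eE fA fB n y)
    (o := incQ π L eE fA fB n o) rfl rfl rfl
  have h0 : ∀ k, relG (uH B lev w0 n) (uA B lev w w0 n) (uB B lev w w0 n) (uY B lev w w0 n)
      (B.d n) (natB w0 R1 v t1 t2 t3) (incQ π L eE fA fB n o) (incQ π L eE fA fB n o) k = 0 :=
    fun k => by
      rw [relG, coQ_self, zero_div]
  rw [unit1] at g1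
  rw [unit2] at g2
  rw [unit3] at g3
  simp only [h0, zero_mul, add_zero] at g2 g3
  exact ⟨g1, g2, g3⟩

end

/-- the slab of the family -/
noncomputable def chE (B : Base) (π : Equiv.Perm (Fin 3)) (eE fA fB : ℕ → ℕ × ℝ → ℝ)
    (w : Fin 3 → ℕ → ℚ → ℝ) (v t1 t2 t3 : ℕ → ℝ) (s₀ : ℕ → ℕ × ℝ) (α β : ℕ → ℝ) (n : ℕ) : V3 :=
  gχ π (eE n (s₀ n)) (fA n (s₀ n)) (fB n (s₀ n)) (wS B w 1 n (v n + t1 n))
    (wS B w 2 n (v n + t2 n)) (wS B w 0 n (v n + t3 n)) (α n) (β n) 1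

/-- the two directions of the family -/
noncomputable def psE (B : Base) (π : Equiv.Perm (Fin 3)) (eE : ℕ → ℕ × ℝ → ℝ)
    (w : Fin 3 → ℕ → ℚ → ℝ) (v t1 t2 : ℕ → ℝ) (s₀ : ℕ → ℕ × ℝ) (n : ℕ) : Fin 2 → V3 :=
  gψ π (eE n (s₀ n)) (wS B w 1 n (v n + t1 n)) (wS B w 2 n (v n + t2 n)) 1

theorem dt_gχ (π : Equiv.Perm (Fin 3)) (e fa fb W1 W2 a α β K : ℝ) (x : V3) :
    dt (gχ π e fa fb W1 W2 a α β K) x =
      1 / K * (dt (fn3 π fa fb a) x - α * dt (fn1 π W1) x - β * dt (fn2 π e W2) x) := by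
  rw [gχ, smul_dt', sub_dt, sub_dt, smul_dt', smul_dt']

theorem dt_gψ0 (π : Equiv.Perm (Fin 3)) (e W1 W2 K : ℝ) (x : V3) :
    dt (gψ π e W1 W2 K 0) x = 1 / K * dt (fn1 π W1) x := by
  show dt ((1 / K) • fn1 π W1) x = _
  rw [smul_dt']

theorem dt_gψ1 (π : Equiv.Perm (Fin 3)) (e W1 W2 K : ℝ) (x : V3) :
    dt (gψ π e W1 W2 K 1) x = 1 / K * dt (fn2 π e W2) x := by
  show dt ((1 / K) • fn2 π e W2) x = _
  rw [smul_dt']

section

variable {σ' : Type*} {B B' : Base} {I I1 J : ℕ → Finset (ℕ × ℝ)} {G : Geo σ' (Fin 3)}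
    {L : ℕ → ℕ → Ln4} {π : Equiv.Perm (Fin 3)} {eE fA fB : ℕ → ℕ × ℝ → ℝ} {lev : ℕ → ℚ → ℕ}
    {w : Fin 3 → ℕ → ℚ → ℝ} {θ : Fin 3 → ℝ} {w0 R T0 : ℝ}
    {S SJ : ℕ → ℝ} {X : ℕ → Fin 11 → ℝ} {wn : ℕ → ℝ} {DD' : Set (Fin 11 → ℝ)} {TT : ℕ → ℝ}
    {lam : (Fin 11 → ℝ) → ℝ} {R1 v t1 t2 t3 : ℕ → ℝ} {kN k1 v1 γ : ℝ}
    {o : ℝ → Fin 11 → ℝ} {i M : ℕ → ℕ} {J0 : ℕ → ℤ} {E : ℕ → Finset (ℕ × ℝ)} {s₀ : ℕ → ℕ × ℝ}
    {co : ℕ → ℕ × ℝ → ℕ × ℝ → Fin 11 → ℝ}

theorem WinH.natle (W : WinH B B' I I1 J co θ w0 R T0 o S SJ X wn DD' TT lam R1 v t1 t2 t3 kN k1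
    v1 γ) (n : ℕ) (k : Fin 11) : natB w0 (R1 n) (v n) (t1 n) (t2 n) (t3 n) k ≤ X n k := by
  by_cases hk : k = 3
  · subst hk; exact W.nat3 n
  · rw [W.nat n k hk]

/-- the class is bounded in the natural units -/
theorem WinH.near0 (W : WinH B B' I I1 J co θ w0 R T0 o S SJ X wn DD' TT lam R1 v t1 t2 t3 kN k1
    v1 γ) {n : ℕ} {x y : ℕ × ℝ} (hx : x ∈ I n) (hy : y ∈ I n)
    (h : zlab B I co monQ 2 X wn n 0 x = zlab B I co monQ 2 X wn n 0 y) (k : Fin 11) :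
    |co n x y k| ≤ cK0 monQ 2 * B.d n ^ natB w0 (R1 n) (v n) (t1 n) (t2 n) (t3 n) k := by
  have h4 : Legal monQ (X n + wn n • (0 : Fin 11 → ℝ)) := by
    have e0 : X n + wn n • (0 : Fin 11 → ℝ) = X n := by simp
    rw [e0]; exact (W.leg n).1
  have h5 := W.hz.near_of_zlab h4 hx hy h k
  rw [Pi.zero_apply, Real.rpow_zero, mul_one] at h5
  have h6 : 1 ≤ cK0 monQ 2 := cK0_one (W.hz.chart 0).C0
  refine h5.trans (mul_le_mul_of_nonneg_left ?_ (by linarith))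
  exact Real.rpow_le_rpow_of_exponent_ge (B.pos n) (B.lt n).le (W.natle n k)

/-- heights in a cell -/
theorem cell_z {n : ℕ} {w0 v z zx : ℝ} {l i : ℕ} {J0 : ℤ} (hl : lev n 0 = l)
    (h1 : (2 : ℝ) ^ l * B.d n ^ (-v) ≤ 2 * 2 ^ i) (hz1 : zl i J0 ≤ z) (hz2 : z ≤ zl i J0 + rho i)
    (hx : zc i zx = J0) : uH B lev w0 n * |z - zx| ≤ 2 * B.d n ^ (w0 + v) := by
  obtain ⟨x1, x2⟩ := in_cell hx
  have h2 : |z - zx| ≤ rho i := by
    rw [abs_le]; constructor <;> linarith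
  have hH := uH_pos (B := B) (lev := lev) (w0 := w0) (n := n)
  refine (mul_le_mul_of_nonneg_left h2 hH.le).trans ?_
  have p1 := Real.rpow_pos_of_pos (B.pos n) w0
  have p2 := Real.rpow_pos_of_pos (B.pos n) v
  have p3 : (0 : ℝ) < 2 ^ i := by positivity
  have e1 : B.d n ^ (-v) = (B.d n ^ v)⁻¹ := Real.rpow_neg (B.pos n).le _
  rw [e1, ← div_eq_mul_inv, div_le_iff₀ p2] at h1
  unfold uH rho
  rw [hl, Real.rpow_add (B.pos n), mul_one_div, div_le_iff₀ p3]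
  calc B.d n ^ w0 * 2 ^ l ≤ B.d n ^ w0 * (2 * 2 ^ i * B.d n ^ v) :=
        mul_le_mul_of_nonneg_left h1 p1.le
    _ = _ := by ring

theorem rho_le_unit {n : ℕ} {w0 v : ℝ} {i : ℕ}
    (h1 : (2 : ℝ) ^ lev n 0 * B.d n ^ (-v) ≤ 2 * 2 ^ i) :
    rho i ≤ 2 * (B.d n ^ (w0 + v) / uH B lev w0 n) := by
  have hH := uH_pos (B := B) (lev := lev) (w0 := w0) (n := n)
  have p1 := Real.rpow_pos_of_pos (B.pos n) w0
  have p2 := Real.rpow_pos_of_pos (B.pos n) v
  have p3 : (0 : ℝ) < 2 ^ i := by positivity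
  have e1 : B.d n ^ (-v) = (B.d n ^ v)⁻¹ := Real.rpow_neg (B.pos n).le _
  rw [e1, ← div_eq_mul_inv, div_le_iff₀ p2] at h1
  rw [mul_div_assoc', le_div_iff₀ hH]
  unfold uH rho
  rw [Real.rpow_add (B.pos n), one_div_mul_eq_div, div_le_iff₀ p3]
  calc B.d n ^ w0 * 2 ^ lev n 0 ≤ B.d n ^ w0 * (2 * 2 ^ i * B.d n ^ v) :=
        mul_le_mul_of_nonneg_left h1 p1.le
    _ = _ := by ring

set_option maxHeartbeats 1600000 in
/-- **the family in slabs** -/
theorem WinH.slabIn (W : WinH B B' I I1 J (couQ B lev w w0 (incQ π L eE fA fB)) θ w0 R T0 o S SJ X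
    wn DD' TT lam R1 v t1 t2 t3 kN k1 v1 γ) (hw : ∀ᶠ n in (U : Filter ℕ), ∀ j, 0 < w j n 0)
    (hF : FamOk B B' I J (couQ B lev w w0 (incQ π L eE fA fB)) lev X wn TT lam v kN k1 i M J0 E
      s₀) {α β : ℕ → ℝ}
    (hα : ∀ ε : ℝ, 0 < ε → ∀ᶠ n in (U : Filter ℕ), |α n| ≤ B'.d n ^ (-ε) ∧
      |β n| ≤ B'.d n ^ (-ε))
    (hrel : ∀ ε : ℝ, 0 < ε → ∀ᶠ n in (U : Filter ℕ), ∃ c : ℝ, ∀ y ∈ J n,
      zlab B I (couQ B lev w w0 (incQ π L eE fA fB)) monQ 2 X wn n 0 y =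
        zlab B I (couQ B lev w w0 (incQ π L eE fA fB)) monQ 2 X wn n 0 (s₀ n) →
        |couQ B lev w w0 (incQ π L eE fA fB) n (s₀ n) y 7 / B.d n ^ X n 7 -
          α n * (couQ B lev w w0 (incQ π L eE fA fB) n (s₀ n) y 5 / B.d n ^ X n 5) -
          β n * (couQ B lev w w0 (incQ π L eE fA fB) n (s₀ n) y 6 / B.d n ^ X n 6) - c| ≤
          B'.d n ^ (kN - ε)) :
    SlabIn B' E L (chE B π eE fA fB w v t1 t2 t3 s₀ α β) (psE B π eE w v t1 t2 s₀) i M J0 TT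
      (fun n => B.d n ^ (-(1 - v n))) kN k1 (lam (pdB k1 kN))
      (fun n x => (zlab B I (couQ B lev w w0 (incQ π L eE fA fB)) monQ 2 X wn n (pdB k1 kN) x,
        zc (i n + M n + 1) x.2)) := by
  set co := couQ B lev w w0 (incQ π L eE fA fB) with hco
  have hz := W.hz
  have hk1 := W.k10
  have hkN := W.kN0
  set κ : ℝ := cK0 monQ 2 with hκ
  have hκ1 : 1 ≤ κ := cK0_one (hz.chart 0).C0
  have hκ0 : 0 < κ := by linarith
  have hp' : ∀ n (t : ℝ), 0 < B'.d n ^ t := fun n t => Real.rpow_pos_of_pos (B'.pos n) t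
  have hX0 : ∀ n, natB w0 (R1 n) (v n) (t1 n) (t2 n) (t3 n) 0 = w0 + v n := fun n => rfl
  have hC12 : 0 < 12 * κ ^ 3 := by positivity
  have hcl : ∀ᶠ n in (U : Filter ℕ), ∀ x ∈ E n, x ∈ I n ∧ s₀ n ∈ I n ∧
      ∀ k, |co n (s₀ n) x k| ≤ κ * B.d n ^ natB w0 (R1 n) (v n) (t1 n) (t2 n) (t3 n) k := by
    filter_upwards [hz.sub, hF.sub, hF.lab, hF.smem] with n h1 h2 h3 h4 x hx
    exact ⟨h1 (h2 hx), h1 h4, fun k => W.near0 (h1 h4) (h1 (h2 hx)) (h3 x hx).symm k⟩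
  refine
    { ne := hF.ne
      T0 := hz.T0
      To0 := fun n => Real.rpow_pos_of_pos (B.pos n) _
      kN0 := W.kN0
      k10 := hk1
      cell := hF.cell
      wide := ?_
      vel := ?_
      small := ?_
      snum := fun ε hε => by
        filter_upwards [hF.snum ε hε] with n hn
        convert hn
      onum := hF.onum
      oup := hF.oup
      Mlow := hF.Mlow
      Mup := hF.Mup }
  · intro ε hε
    filter_upwards [hcl, hF.lab, hw, hF.lev1, hF.cell, ev_const_le B' hC12 hε] with n h1 h2 h3 h4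
      h5 h6 x hx y hy z hz1 hz2
    obtain ⟨hxI, hsI, hox⟩ := h1 x hx
    obtain ⟨hyI, -, -⟩ := h1 y hy
    have hxy := fun k => W.near0 hxI hyI ((h2 x hx).trans (h2 y hy).symm) k
    have hζ := cell_z (B := B) (lev := lev) (w0 := w0) (n := n) rfl h4 hz1 hz2 (h5 x hx)
    obtain ⟨g1, g2, -⟩ := fn_near (R1 := R1 n) h3 hκ1 zero_le_one hox (fun k _ => by
      rw [mul_one]; exact hxy k) (z := z) hζ
    rw [mul_one] at g1 g2
    intro j
    fin_cases j
    · show |dt (gψ π _ _ _ 1 0) _| ≤ _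
      rw [dt_gψ0, one_div_one, one_mul]
      exact g1.trans h6
    · show |dt (gψ π _ _ _ 1 1) _| ≤ _
      rw [dt_gψ1, one_div_one, one_mul]
      exact g2.trans h6
  · intro ε hε
    filter_upwards [hF.sub, hF.lab, hw, hF.lev1, hrel (ε / 2) (half_pos hε),
      ev_const_le B' (show (0 : ℝ) < 4 by norm_num) (half_pos hε)] with n h1 h2 h3 h4 h5 h6 x hx
      y hy
    obtain ⟨c, hc⟩ := h5
    set χ := chE B π eE fA fB w v t1 t2 t3 s₀ α β n with hχ
    set P : ℝ := B.d n ^ (w0 + v n) / uH B lev w0 n with hP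
    have hP0 : 0 < P := div_pos (Real.rpow_pos_of_pos (B.pos n) _) uH_pos
    have key : ∀ y ∈ E n, |dt χ ((L n y.1).v - (L n (s₀ n).1).v) * P - c| ≤
        B'.d n ^ (kN - ε / 2) := by
      intro y hy
      obtain ⟨g1, g2, g3⟩ := fn_vel (B := B) (L := L) (π := π) (eE := eE) (fA := fA) (fB := fB)
        (lev := lev) (w0 := w0) (R1 := R1 n) (v := v n) (t1 := t1 n) (t2 := t2 n) (t3 := t3 n) h3
        (o := s₀ n) (y := y)
      have e5 := W.nat n 5 (by decide)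
      have e6 := W.nat n 6 (by decide)
      have e7 := W.nat n 7 (by decide)
      have h7 := hc y (h1 hy) (h2 y hy)
      rw [e5, e6, e7, ← g1, ← g2, ← g3] at h7
      have e8 : dt χ ((L n y.1).v - (L n (s₀ n).1).v) =
          dt (fn3 π (fA n (s₀ n)) (fB n (s₀ n)) (wS B w 0 n (v n + t3 n)))
            ((L n y.1).v - (L n (s₀ n).1).v) -
          α n * dt (fn1 π (wS B w 1 n (v n + t1 n))) ((L n y.1).v - (L n (s₀ n).1).v) -
          β n * dt (fn2 π (eE n (s₀ n)) (wS B w 2 n (v n + t2 n)))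
            ((L n y.1).v - (L n (s₀ n).1).v) := by
        rw [hχ, chE, dt_gχ, one_div_one, one_mul]
      rw [e8]
      refine le_trans (le_of_eq ?_) h7
      congr 1
      rw [hP, ← hX0 n]
      ring
    have k1' := key x hx
    have k2' := key y hy
    have e9 : dt χ ((L n y.1).v - (L n x.1).v) =
        dt χ ((L n y.1).v - (L n (s₀ n).1).v) - dt χ ((L n x.1).v - (L n (s₀ n).1).v) := by
      rw [← dt_sub]; congr 1; abel
    have k3 : |dt χ ((L n y.1).v - (L n x.1).v)| * P ≤ 2 * B'.d n ^ (kN - ε / 2) := by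
      have e10 : ∀ a : ℝ, |a| * P = |a * P| := fun a => by rw [abs_mul, abs_of_pos hP0]
      rw [e9, e10, sub_mul]
      rw [abs_le] at k1' k2' ⊢
      constructor <;> linarith [k1'.1, k1'.2, k2'.1, k2'.2]
    have k4 : rho (i n) ≤ 2 * P := rho_le_unit h4
    calc |dt χ ((L n y.1).v - (L n x.1).v)| * rho (i n) ≤
          |dt χ ((L n y.1).v - (L n x.1).v)| * (2 * P) :=
          mul_le_mul_of_nonneg_left k4 (abs_nonneg _)
      _ = 2 * (|dt χ ((L n y.1).v - (L n x.1).v)| * P) := by ring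
      _ ≤ 4 * B'.d n ^ (kN - ε / 2) := by linarith
      _ ≤ B'.d n ^ (-(ε / 2)) * B'.d n ^ (kN - ε / 2) :=
          mul_le_mul_of_nonneg_right h6 (hp' n _).le
      _ = B'.d n ^ (kN - ε) := by
          rw [← Real.rpow_add (B'.pos n)]; congr 1; ring
  · intro ε hε
    have hC36 : 0 < 12 * κ ^ 3 * 3 := by positivity
    filter_upwards [hcl, hF.lab, hw, hz.legal ‖pdB k1 kN‖, hα (ε / 2) (half_pos hε),
      ev_const_le B' hC36 (half_pos hε)] with n h1 h2 h3 h4 h5 h6 x hx y hy hxy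
    obtain ⟨hxI, hsI, hox⟩ := h1 x hx
    obtain ⟨hyI, -, -⟩ := h1 y hy
    have hz1 := (Prod.mk.injEq _ _ _ _ ▸ hxy : _ ∧ _)
    obtain ⟨hl1, hl2⟩ := hz1
    have hbox := hz.near_of_zlab (h4 _ W.pdD le_rfl) hxI hyI hl1
    have h8 : |co n x y 8| ≤
        κ * B'.d n ^ k1 * B.d n ^ natB w0 (R1 n) (v n) (t1 n) (t2 n) (t3 n) 8 := by
      have := hbox 8
      rw [W.nat n 8 (by decide)] at this
      refine this.trans (le_of_eq ?_)
      show κ * (_ * B'.d n ^ k1) = _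
      ring
    have h9 : |co n x y 9| ≤
        κ * B'.d n ^ k1 * B.d n ^ natB w0 (R1 n) (v n) (t1 n) (t2 n) (t3 n) 9 := by
      have := hbox 9
      rw [W.nat n 9 (by decide)] at this
      refine this.trans (le_of_eq ?_)
      show κ * (_ * B'.d n ^ k1) = _
      ring
    have h10 : |co n x y 10| ≤
        κ * B'.d n ^ kN * B.d n ^ natB w0 (R1 n) (v n) (t1 n) (t2 n) (t3 n) 10 := by
      have := hbox 10
      rw [W.nat n 10 (by decide)] at this
      refine this.trans (le_of_eq ?_)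
      show κ * (_ * B'.d n ^ kN) = _
      ring
    have hut : B'.d n ^ k1 ≤ B'.d n ^ kN :=
      Real.rpow_le_rpow_of_exponent_ge (B'.pos n) (B'.lt n).le W.kNk
    obtain ⟨g1, g2, g3⟩ := fn_small h3 hκ1 (hp' n k1).le hut hox h8 h9 h10
    have hY1 : (1 : ℝ) ≤ B'.d n ^ (-(ε / 2)) :=
      Real.one_le_rpow_of_pos_of_le_one_of_nonpos (B'.pos n) (B'.lt n).le (by linarith)
    have hfin : ∀ t : ℝ, 12 * κ ^ 3 * 3 * B'.d n ^ (-(ε / 2)) * B'.d n ^ t ≤ B'.d n ^ (t - ε) := by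
      intro t
      calc 12 * κ ^ 3 * 3 * B'.d n ^ (-(ε / 2)) * B'.d n ^ t ≤
            B'.d n ^ (-(ε / 2)) * B'.d n ^ (-(ε / 2)) * B'.d n ^ t := by
            have := hp' n (-(ε / 2))
            have := hp' n t
            gcongr
        _ = B'.d n ^ (t - ε) := by
            rw [← Real.rpow_add (B'.pos n), ← Real.rpow_add (B'.pos n)]; congr 1; ring
    have hψb : ∀ {r : ℝ}, r ≤ 12 * κ ^ 3 * B'.d n ^ k1 → r ≤ B'.d n ^ (k1 - ε) := fun {r} hr => by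
      refine (hr.trans ?_).trans (hfin k1)
      have := hp' n k1
      have h7 : 12 * κ ^ 3 * 1 ≤ 12 * κ ^ 3 * 3 * B'.d n ^ (-(ε / 2)) := by nlinarith
      rw [mul_one] at h7
      exact mul_le_mul_of_nonneg_right h7 this.le
    refine ⟨hl2.symm, ?_, ?_⟩
    · show |dt (gχ π _ _ _ _ _ _ _ _ 1) _| ≤ _
      rw [dt_gχ, one_div_one, one_mul]
      refine le_trans ?_ (hfin kN)
      have a1 : ∀ a b c : ℝ, |a - b - c| ≤ |a| + |b| + |c| := fun a b c => by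
        refine (abs_sub _ _).trans (add_le_add_left (abs_sub _ _) _)
      refine (a1 _ _ _).trans ?_
      rw [abs_mul, abs_mul]
      have b1 : |α n| * |dt (fn1 π (wS B w 1 n (v n + t1 n)))
          ((L n y.1).pos x.2 - (L n x.1).pos x.2)| ≤
          B'.d n ^ (-(ε / 2)) * (12 * κ ^ 3 * B'.d n ^ kN) :=
        mul_le_mul h5.1 (g1.trans (mul_le_mul_of_nonneg_left hut hC12.le)) (abs_nonneg _)
          (hp' n _).le
      have b2 : |β n| * |dt (fn2 π (eE n (s₀ n)) (wS B w 2 n (v n + t2 n)))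
          ((L n y.1).pos x.2 - (L n x.1).pos x.2)| ≤
          B'.d n ^ (-(ε / 2)) * (12 * κ ^ 3 * B'.d n ^ kN) :=
        mul_le_mul h5.2 (g2.trans (mul_le_mul_of_nonneg_left hut hC12.le)) (abs_nonneg _)
          (hp' n _).le
      have b3 : 12 * κ ^ 3 * B'.d n ^ kN ≤ B'.d n ^ (-(ε / 2)) * (12 * κ ^ 3 * B'.d n ^ kN) :=
        le_mul_of_one_le_left (mul_pos hC12 (hp' n _)).le hY1
      have b4 := g3.trans b3
      linarith
    · intro j
      fin_cases j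
      · show |dt (gψ π _ _ _ 1 0) _| ≤ _
        rw [dt_gψ0, one_div_one, one_mul]
        exact hψb g1
      · show |dt (gψ π _ _ _ 1 1) _| ≤ _
        rw [dt_gψ1, one_div_one, one_mul]
        exact hψb g2

end

end Crest.Agent.R136.Lab926
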