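import Mathlib
import Crest.Agent.R136.ZoomA_102
import Crest.Agent.R136.ReD_436
import Crest.Agent.R136.Ut2_627
import Crest.Agent.R136.Wq8_638
import Crest.Agent.R136.TopB_550

-- ▼ part R136/ReE1_436
section

/-!
# R136 (S0187), case E: re-flag (helper436), part 1: zoom restricted to a dense part

`zoomW` : `ZoomA102.zoomA` with the window sets as input.
`zoomR` : zoom of a marked sequence inside parts of share `B.d ^ (h k * e k)`, `e k → 0`, carrying any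
property of parts (monotone under subsets).
-/

set_option autoImplicit false
set_option linter.unusedVariables false

open Finset Filter Topology

namespace Crest.Agent.R136.Re436

open Crest.Agent.R138.Ex926 (Base U exists_diag)
open Crest.Agent.R138.Mk163 (zc zl rho alive)
open Crest.Agent.R138.Dp76 (Dense)
open Crest.Agent.R138.MkRef627 (lc kc)
open Crest.Agent.R138.MkZoom779
open Crest.Agent.R136.MkA627
open Crest.Agent.R136.ZoomA102

/-! ### windows in which a part is dense -/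

theorem win_dense {I S : Finset (ℕ × ℝ)} {i0 i1 : ℕ} {δ a b : ℝ} (h01 : i0 ≤ i1) (hS : S ⊆ I)
    (hne : I.Nonempty) (hδ : 0 < δ) (ha : 0 < a) (hb : 0 < b)
    (hd : δ * (I.card : ℝ) ≤ S.card)
    (hf : ∀ x ∈ I, a ≤ ((I.filter fun y => lc i1 y = lc i1 x).card : ℝ) ∧
      ((I.filter fun y => lc i1 y = lc i1 x).card : ℝ) ≤ b) :
    ∃ (I' : Finset (ℕ × ℝ)) (J0 : ℤ), IsWin I I' i0 i1 J0 ∧ I'.Nonempty ∧
      δ * a * (I'.card : ℝ) ≤ b * ((I'.filter fun x => x ∈ S).card : ℝ) := by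
  classical
  -- the cell
  obtain ⟨J0, hJ, hJ1⟩ : ∃ J0 : ℤ, (I.filter fun x => zc i0 x.2 = J0).Nonempty ∧
      δ * ((I.filter fun x => zc i0 x.2 = J0).card : ℝ) ≤
        ((S.filter fun x => zc i0 x.2 = J0).card : ℝ) := by
    by_contra hc
    push Not at hc
    have e1 : (I.card : ℝ) = ∑ J ∈ I.image (fun x => zc i0 x.2),
        ((I.filter fun x => zc i0 x.2 = J).card : ℝ) := by
      rw [card_eq_sum_card_fiberwise (f := fun x : ℕ × ℝ => zc i0 x.2)
        (t := I.image (fun x => zc i0 x.2)) (fun x hx => mem_coe.2 (mem_image_of_mem _ hx))]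
      push_cast
      rfl
    have e2 : (S.card : ℝ) = ∑ J ∈ I.image (fun x => zc i0 x.2),
        ((S.filter fun x => zc i0 x.2 = J).card : ℝ) := by
      rw [card_eq_sum_card_fiberwise (f := fun x : ℕ × ℝ => zc i0 x.2)
        (t := I.image (fun x => zc i0 x.2))
        (fun x hx => mem_coe.2 (mem_image_of_mem (fun x : ℕ × ℝ => zc i0 x.2) (hS hx)))]
      push_cast
      rfl
    have h3 : (S.card : ℝ) < δ * I.card := by
      rw [e1, e2, mul_sum]
      refine sum_lt_sum_of_nonempty (hne.image _) fun J hJ => ?_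
      obtain ⟨x, hx, hxJ⟩ := mem_image.1 hJ
      exact hc J ⟨x, mem_filter.2 ⟨hx, hxJ⟩⟩
    linarith
  set IJ := I.filter fun x => zc i0 x.2 = J0 with hIJ
  set SJ := S.filter fun x => zc i0 x.2 = J0 with hSJ
  have hSI : SJ ⊆ IJ := filter_subset_filter _ hS
  obtain ⟨T, hTS, hT1, hT2⟩ := exists_rep SJ i1
  obtain ⟨T', hTS', hT1', hT2'⟩ := exists_rep (IJ.filter fun x => lc i1 x ∉ SJ.image (lc i1)) i1
  have hT'I : T' ⊆ IJ := fun x hx => (mem_filter.1 (hTS' hx)).1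
  have hno : ∀ x ∈ T, ∀ y ∈ T', x.1 = y.1 → zc i1 x.2 = zc i1 y.2 → False := by
    intro x hx y hy h1 h2
    refine (mem_filter.1 (hTS' hy)).2 (mem_image.2 ⟨x, hTS hx, ?_⟩)
    exact Prod.ext h1 h2
  have hWin : IsWin I (T ∪ T') i0 i1 J0 := by
    refine ⟨fun x hx => ?_, fun x hx => ?_, fun x hx y hy h1 h2 => ?_, fun y hy hyJ => ?_⟩
    · rcases mem_union.1 hx with h | h
      · exact (mem_filter.1 (hSI (hTS h))).1
      · exact (mem_filter.1 (hT'I h)).1
    · rcases mem_union.1 hx with h | h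
      · exact (mem_filter.1 (hSI (hTS h))).2
      · exact (mem_filter.1 (hT'I h)).2
    · rcases mem_union.1 hx with hx | hx <;> rcases mem_union.1 hy with hy | hy
      · exact hT1 x hx y hy h1 h2
      · exact (hno x hx y hy h1 h2).elim
      · exact (hno y hy x hx h1.symm h2.symm).elim
      · exact hT1' x hx y hy h1 h2
    · have hyI : y ∈ IJ := mem_filter.2 ⟨hy, hyJ⟩
      by_cases hc : lc i1 y ∈ SJ.image (lc i1)
      · obtain ⟨z, hz, hzy⟩ := mem_image.1 hc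
        obtain ⟨x, hx, h1, h2⟩ := hT2 z hz
        have hz1 : z.1 = y.1 := (Prod.mk.inj hzy).1
        have hz2 : zc i1 z.2 = zc i1 y.2 := (Prod.mk.inj hzy).2
        exact ⟨x, mem_union_left _ hx, h1.trans hz1, h2.trans hz2⟩
      · obtain ⟨x, hx, h1, h2⟩ := hT2' y (mem_filter.2 ⟨hyI, hc⟩)
        exact ⟨x, mem_union_right _ hx, h1, h2⟩
  refine ⟨T ∪ T', J0, hWin, ?_, ?_⟩
  · obtain ⟨y, hy⟩ := hJ
    obtain ⟨hy1, hy2⟩ := mem_filter.1 hy
    obtain ⟨x, hx, -⟩ := hWin.full y hy1 hy2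
    exact ⟨x, hx⟩
  -- counts
  have c1 : a * ((T ∪ T').card : ℝ) ≤ (IJ.card : ℝ) := by
    have hinj : Set.InjOn (lc i1) (T ∪ T' : Finset (ℕ × ℝ)) := by
      intro x hx y hy hxy
      exact hWin.one x (mem_coe.1 hx) y (mem_coe.1 hy) (Prod.mk.inj hxy).1 (Prod.mk.inj hxy).2
    have e1 : ((T ∪ T').card : ℝ) = (((T ∪ T').image (lc i1)).card : ℝ) := by
      rw [card_image_of_injOn hinj]
    have e2 : (IJ.card : ℝ) = ∑ o ∈ IJ.image (lc i1), ((IJ.filter fun y => lc i1 y = o).card : ℝ) := by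
      rw [card_eq_sum_card_fiberwise (f := lc i1) (t := IJ.image (lc i1))
        (fun x hx => mem_coe.2 (mem_image_of_mem _ hx))]
      push_cast
      rfl
    have hsub : (T ∪ T').image (lc i1) ⊆ IJ.image (lc i1) := by
      refine image_subset_image fun x hx => ?_
      exact mem_filter.2 ⟨hWin.sub hx, hWin.cell x hx⟩
    rw [e1, e2]
    calc a * (((T ∪ T').image (lc i1)).card : ℝ) ≤ a * ((IJ.image (lc i1)).card : ℝ) :=
          mul_le_mul_of_nonneg_left (by exact_mod_cast card_le_card hsub) ha.le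
      _ = ∑ o ∈ IJ.image (lc i1), a := by rw [sum_const, nsmul_eq_mul, mul_comm]
      _ ≤ _ := by
          refine sum_le_sum fun o ho => ?_
          obtain ⟨x, hx, rfl⟩ := mem_image.1 ho
          obtain ⟨hx1, hx2⟩ := mem_filter.1 hx
          refine (hf x hx1).1.trans ?_
          refine Nat.cast_le.2 (card_le_card fun y hy => ?_)
          obtain ⟨hy1, hy2⟩ := mem_filter.1 hy
          refine mem_filter.2 ⟨mem_filter.2 ⟨hy1, ?_⟩, hy2⟩
          rw [← hx2]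
          exact Crest.Agent.R138.MkZoom779.zc_nested h01 (Prod.mk.inj hy2).2
  have c2 : (SJ.card : ℝ) ≤ b * ((T ∪ T').filter fun x => x ∈ S).card := by
    have e2 : (SJ.card : ℝ) = ∑ o ∈ SJ.image (lc i1), ((SJ.filter fun y => lc i1 y = o).card : ℝ) := by
      rw [card_eq_sum_card_fiberwise (f := lc i1) (t := SJ.image (lc i1))
        (fun x hx => mem_coe.2 (mem_image_of_mem _ hx))]
      push_cast
      rfl
    have h1 : (SJ.image (lc i1)).card ≤ T.card := by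
      have : SJ.image (lc i1) ⊆ T.image (lc i1) := by
        intro o ho
        obtain ⟨y, hy, rfl⟩ := mem_image.1 ho
        obtain ⟨x, hx, h1, h2⟩ := hT2 y hy
        exact mem_image.2 ⟨x, hx, Prod.ext h1 h2⟩
      exact (card_le_card this).trans card_image_le
    have h2 : T.card ≤ ((T ∪ T').filter fun x => x ∈ S).card := by
      refine card_le_card fun x hx => mem_filter.2 ⟨mem_union_left _ hx, ?_⟩
      exact (mem_filter.1 (hTS hx)).1
    have h3 : ((SJ.image (lc i1)).card : ℝ) ≤ ((T ∪ T').filter fun x => x ∈ S).card := by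
      exact_mod_cast h1.trans h2
    rw [e2]
    calc ∑ o ∈ SJ.image (lc i1), ((SJ.filter fun y => lc i1 y = o).card : ℝ)
        ≤ ∑ o ∈ SJ.image (lc i1), b := by
          refine sum_le_sum fun o ho => ?_
          obtain ⟨x, hx, rfl⟩ := mem_image.1 ho
          refine le_trans ?_ (hf x (hS (mem_filter.1 hx).1)).2
          refine Nat.cast_le.2 (card_le_card fun y hy => ?_)
          obtain ⟨hy1, hy2⟩ := mem_filter.1 hy
          exact mem_filter.2 ⟨hS (mem_filter.1 hy1).1, hy2⟩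
      _ = b * ((SJ.image (lc i1)).card : ℝ) := by rw [sum_const, nsmul_eq_mul, mul_comm]
      _ ≤ _ := mul_le_mul_of_nonneg_left h3 hb.le
  calc δ * a * ((T ∪ T').card : ℝ) = δ * (a * ((T ∪ T').card : ℝ)) := by ring
    _ ≤ δ * (IJ.card : ℝ) := mul_le_mul_of_nonneg_left c1 hδ.le
    _ ≤ (SJ.card : ℝ) := hJ1
    _ ≤ _ := c2

/-! ### zoom with prescribed windows -/

section zoomW

variable {σ κ : Type*} {B : Base} {I : ℕ → Finset (ℕ × ℝ)} {G : Geo σ κ}
    {lev : ℕ → ℚ → ℕ} {A : ℕ → ℝ} {c Λ : ℝ → ℝ} {τ : κ → ℝ → ℝ} {f : ℕ → ℚ → ℕ → ℤ → ℕ}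
    {b : ℕ → ℚ → ℕ → σ} {vm : ℕ → ℚ → ℝ} {w : κ → ℕ → ℚ → ℝ}

/-- **zoom with prescribed windows** (`zoomA` of 102 with the windows as input). -/
theorem zoomW [Countable κ] (H : MkA B I G lev A c Λ τ f b vm w) {h : ℕ → ℝ} {m : ℕ → ℚ → ℚ}
    {c' Λ' : ℝ → ℝ} {τ' : κ → ℝ → ℝ} (hpos : ∀ k, 0 < h k)
    (hmem : ∀ k, ∀ x : ℚ, 0 ≤ x → x ≤ 1 → 0 ≤ m k x ∧ m k x ≤ 1)
    (hmono : ∀ x y : ℚ, 0 ≤ x → x ≤ y → y ≤ 1 → ∀ᶠ k in atTop, m k x ≤ m k y)
    (hlev : ∀ x y : ℚ, 0 ≤ x → x ≤ y → y ≤ 1 →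
      Tendsto (fun k => ((m k y : ℝ) - m k x) / h k) atTop (𝓝 ((y : ℝ) - x)))
    (hc : ∀ x : ℚ, 0 ≤ x → x ≤ 1 →
      Tendsto (fun k => (c (m k x) - c (m k 0)) / h k) atTop (𝓝 (c' x)))
    (hΛ : ∀ x : ℚ, 0 ≤ x → x ≤ 1 →
      Tendsto (fun k => (Λ (m k x) - Λ (m k 0)) / h k) atTop (𝓝 (Λ' x)))
    (hτ : ∀ j, ∀ x : ℚ, 0 ≤ x → x ≤ 1 →
      Tendsto (fun k => (τ j (m k x) - τ j (m k 1)) / h k) atTop (𝓝 (τ' j x)))
    (hlam : ∀ u v : ℝ, 0 ≤ u → u ≤ v → v ≤ 1 → 0 ≤ Λ' v - Λ' u ∧ Λ' v - Λ' u ≤ v - u)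
    (hc0 : c' 0 = 0) (hΛ0 : Λ' 0 = 0) (hτ1 : ∀ j, τ' j 1 = 0) :
    ∃ s0 : ℕ → ℕ, Tendsto s0 U atTop ∧ ∀ s : ℕ → ℕ, Tendsto s U atTop →
      (∀ᶠ n in (U : Filter ℕ), s n ≤ s0 n) →
      ∀ (I' : ℕ → Finset (ℕ × ℝ)) (J0 : ℕ → ℤ),
        (∀ n, IsWin (I n) (I' n) (lev n (m (s n) 0)) (lev n (m (s n) 1)) (J0 n)) →
        (∀ n, (I n).Nonempty → (I' n).Nonempty) →
      ∃ (B' : Base) (A' : ℕ → ℝ), (∀ n, B'.d n = B.d n ^ h (s n)) ∧
        MkA B' I' G (fun n x => lev n (m (s n) x)) A' c' Λ' τ' (fun n x => f n (m (s n) x))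
          (fun n x => b n (m (s n) x)) (fun n x => vm n (m (s n) x))
          (fun j n x => w j n (m (s n) x)) := by
  classical
  obtain ⟨enc, henc⟩ := Countable.exists_injective_nat κ
  have hfin : ∀ k : ℕ, {j : κ | enc j ≤ k}.Finite := fun k =>
    (Set.finite_Iic k).preimage henc.injOn
  have hevκ : ∀ j : κ, ∀ᶠ k : ℕ in atTop, j ∈ {j : κ | enc j ≤ k} := fun j => by
    filter_upwards [eventually_ge_atTop (enc j)] with k hk using hk
  -- the stages
  obtain ⟨s0, hs0, hs0'⟩ := exists_diag (fun k n =>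
    ((k : ℝ) + 1) ≤ h k * B.L n ∧ Real.log ((I n).card : ℝ) ≤ B.d n ^ (-(del h k)) ∧
    (I n).Nonempty ∧ (∀ x ∈ Fq k, R1s B I G lev A c f b vm w (m k x) (del h k) n) ∧
    (∀ x ∈ Fq k, ∀ y ∈ Fq k, m k x ≤ m k y → R2s B I lev Λ (m k x) (m k y) (del h k) n) ∧
    ∀ j ∈ {j : κ | enc j ≤ k}, (0 < w j n 1 ∧
      ∀ x ∈ Fq k, PW B lev τ w j (m k x) (del h k) n)) (by
    intro k
    have hd := del_pos hpos k
    have e1 : ∀ᶠ n in (U : Filter ℕ), ((k : ℝ) + 1) ≤ h k * B.L n := by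
      filter_upwards [B.ev_L_ge (((k : ℝ) + 1) / h k)] with n hn
      rw [div_le_iff₀ (hpos k)] at hn
      linarith
    have e4 : ∀ᶠ n in (U : Filter ℕ), ∀ x ∈ Fq k,
        R1s B I G lev A c f b vm w (m k x) (del h k) n := by
      rw [Filter.eventually_all_finset]
      intro x hx
      obtain ⟨hx0, hx1⟩ := Fq_mem hx
      exact ev_R1 H (hmem k x hx0 hx1).1 (hmem k x hx0 hx1).2 hd
    have e5 : ∀ᶠ n in (U : Filter ℕ), ∀ x ∈ Fq k, ∀ y ∈ Fq k, m k x ≤ m k y →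
        R2s B I lev Λ (m k x) (m k y) (del h k) n := by
      rw [Filter.eventually_all_finset]
      intro x hx
      rw [Filter.eventually_all_finset]
      intro y hy
      obtain ⟨hx0, hx1⟩ := Fq_mem hx
      obtain ⟨hy0, hy1⟩ := Fq_mem hy
      rcases le_or_gt (m k x) (m k y) with hxy | hxy
      · filter_upwards [ev_R2 H (hmem k x hx0 hx1).1 hxy (hmem k y hy0 hy1).2 hd] with n hn _
        exact hn
      · exact Eventually.of_forall fun n hn => absurd hn (not_le.2 hxy)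
    have e6 : ∀ᶠ n in (U : Filter ℕ), ∀ j ∈ {j : κ | enc j ≤ k}, (0 < w j n 1 ∧
        ∀ x ∈ Fq k, PW B lev τ w j (m k x) (del h k) n) := by
      rw [Filter.eventually_all_finite (hfin k)]
      intro j hj
      refine (H.wpos j 1 zero_le_one le_rfl).and ?_
      rw [Filter.eventually_all_finset]
      intro x hx
      obtain ⟨hx0, hx1⟩ := Fq_mem hx
      exact ev_PW H j (hmem k x hx0 hx1).1 (hmem k x hx0 hx1).2 hd
    filter_upwards [e1, H.card (del h k) hd, H.ne, e4, e5, e6] with n a1 a2 a3 a4 a5 a6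
    exact ⟨a1, a2, a3, a4, a5, a6⟩)
  refine ⟨s0, hs0, fun s hs hsle I' J0 hwin hne => ?_⟩
  have hP := (hs0'.and hsle).mono fun n hn => hn.1 (s n) hn.2
  have hF : ∀ x : ℚ, 0 ≤ x → x ≤ 1 → ∀ᶠ n in (U : Filter ℕ), x ∈ Fq (s n) := fun x h0 h1 =>
    hs.eventually (ev_mem_Fq h0 h1)
  have hM : ∀ x y : ℚ, 0 ≤ x → x ≤ y → y ≤ 1 → ∀ᶠ n in (U : Filter ℕ), m (s n) x ≤ m (s n) y :=
    fun x y h0 h1 h2 => hs.eventually (hmono x y h0 h1 h2)
  -- the base
  have hlim : Tendsto (fun n => h (s n) * B.L n) U atTop := by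
    have h1 : Tendsto (fun n => (s n : ℝ)) U atTop := tendsto_natCast_atTop_atTop.comp hs
    refine tendsto_atTop_mono' _ ?_ h1
    filter_upwards [hP] with n hn
    linarith [hn.1]
  obtain ⟨B', hB', hL'⟩ := exists_base B (fun n => hpos (s n)) hlim
  have hBp : ∀ n a, B'.d n ^ a = B.d n ^ (h (s n) * a) := by
    intro n a
    rw [hB', ← Real.rpow_mul (B.pos n).le]
  -- amplitude
  set A' : ℕ → ℝ := fun n => A n * B.d n ^ (-(c (m (s n) 0))) with hA'
  -- errors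
  have hem : ∀ x : ℚ, 0 ≤ x → x ≤ 1 → ∀ ε : ℝ, 0 < ε → ∀ᶠ n in (U : Filter ℕ),
      |((m (s n) x : ℝ) - m (s n) 0) - h (s n) * x| ≤ ε * h (s n) := by
    intro x h0 h1 ε hε
    have h2 := hlev 0 x le_rfl h0 h1
    rw [Rat.cast_zero, sub_zero] at h2
    exact err (a := fun k => (m k x : ℝ) - m k 0) hpos h2 hs hε
  have hec : ∀ x : ℚ, 0 ≤ x → x ≤ 1 → ∀ ε : ℝ, 0 < ε → ∀ᶠ n in (U : Filter ℕ),
      |(c (m (s n) x) - c (m (s n) 0)) - h (s n) * c' x| ≤ ε * h (s n) := by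
    intro x h0 h1 ε hε
    exact err (a := fun k => c (m k x) - c (m k 0)) hpos (hc x h0 h1) hs hε
  have heΛ : ∀ x : ℚ, 0 ≤ x → x ≤ 1 → ∀ ε : ℝ, 0 < ε → ∀ᶠ n in (U : Filter ℕ),
      |(Λ (m (s n) x) - Λ (m (s n) 0)) - h (s n) * Λ' x| ≤ ε * h (s n) := by
    intro x h0 h1 ε hε
    exact err (a := fun k => Λ (m k x) - Λ (m k 0)) hpos (hΛ x h0 h1) hs hε
  have heτ : ∀ j, ∀ x : ℚ, 0 ≤ x → x ≤ 1 → ∀ ε : ℝ, 0 < ε → ∀ᶠ n in (U : Filter ℕ),
      |(τ j (m (s n) x) - τ j (m (s n) 1)) - h (s n) * τ' j x| ≤ ε * h (s n) := by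
    intro j x h0 h1 ε hε
    exact err (a := fun k => τ j (m k x) - τ j (m k 1)) hpos (hτ j x h0 h1) hs hε
  -- comparison of the amplitudes
  have hamp : ∀ x : ℚ, 0 ≤ x → x ≤ 1 → ∀ ε : ℝ, 0 < ε → ∀ᶠ n in (U : Filter ℕ),
      ampA B A c n (m (s n) x) ≤ B.d n ^ (-(ε * h (s n))) * ampA B' A' c' n x ∧
      ampA B' A' c' n x ≤ B.d n ^ (-(ε * h (s n))) * ampA B A c n (m (s n) x) := by
    intro x h0 h1 ε hε
    filter_upwards [hec x h0 h1 ε hε] with n a2
    obtain ⟨a2, a2'⟩ := abs_le.1 a2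
    have hAn := H.Apos n
    unfold ampA
    rw [hBp, hA']
    simp only
    constructor
    · have e3 : B.d n ^ (-(ε * h (s n))) * (A n * B.d n ^ (-(c (m (s n) 0))) *
          B.d n ^ (h (s n) * (-(c' x)))) =
          A n * B.d n ^ (-(ε * h (s n)) + -(c (m (s n) 0)) + h (s n) * (-(c' x))) := by
        rw [Real.rpow_add (B.pos n), Real.rpow_add (B.pos n)]
        ring
      rw [e3]
      have h2 := dpow_le B n (a := -(ε * h (s n)) + -(c (m (s n) 0)) + h (s n) * (-(c' x)))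
        (b := -(c (m (s n) x))) (by linarith)
      gcongr
    · have e3 : B.d n ^ (-(ε * h (s n))) * (A n * B.d n ^ (-(c (m (s n) x)))) =
          A n * B.d n ^ (-(ε * h (s n)) + -(c (m (s n) x))) := by
        rw [Real.rpow_add (B.pos n)]
        ring
      have e4 : A n * B.d n ^ (-(c (m (s n) 0))) * B.d n ^ (h (s n) * (-(c' x))) =
          A n * B.d n ^ (-(c (m (s n) 0)) + h (s n) * (-(c' x))) := by
        rw [Real.rpow_add (B.pos n)]
        ring
      rw [e3, e4]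
      have h2 := dpow_le B n (a := -(ε * h (s n)) + -(c (m (s n) x)))
        (b := -(c (m (s n) 0)) + h (s n) * (-(c' x))) (by linarith)
      gcongr
  have hamp0 : ∀ n x, 0 < ampA B A c n x := by
    intro n x
    unfold ampA
    exact mul_pos (H.Apos n) (dpow_pos B n _)
  have hamp0' : (∀ n, 0 < A' n) → ∀ n x, 0 < ampA B' A' c' n x := by
    intro hA0 n x
    unfold ampA
    exact mul_pos (hA0 n) (dpow_pos B' n _)
  -- nested levels
  have hlv0 : ∀ x : ℚ, 0 ≤ x → x ≤ 1 → ∀ᶠ n in (U : Filter ℕ),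
      lev n (m (s n) 0) ≤ lev n (m (s n) x) ∧ lev n (m (s n) x) ≤ lev n (m (s n) 1) := by
    intro x h0 h1
    filter_upwards [hP, hF x h0 h1, hM 0 x le_rfl h0 h1, hM x 1 h0 h1 le_rfl] with n a1 a2 a3 a4
    exact ⟨(a1.2.2.2.2.1 0 (zero_mem_Fq _) x a2 a3).le,
      (a1.2.2.2.2.1 x a2 1 (one_mem_Fq _) a4).le⟩
  refine ⟨B', A', hB', ?_⟩
  refine
    { ne := ?_, card := ?_, Apos := ?_, c0 := hc0
      lam0 := hΛ0, lam := hlam, tau1 := hτ1, lev_mono := ?_, lev_lim := ?_, cell0 := ?_, one := ?_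
      own := ?_, dmax := ?_, mark := ?_, near := ?_, vpos := ?_, wpos := ?_, tau := ?_ }
  · -- ne
    filter_upwards [hP] with n hn using hne n hn.2.2.1
  · -- card
    intro ε hε
    filter_upwards [hP, ev_del hpos hs hε] with n hn hd
    rw [hBp]
    have h1 : (0 : ℝ) < (I' n).card := by exact_mod_cast Finset.card_pos.2 (hne n hn.2.2.1)
    have h2 : ((I' n).card : ℝ) ≤ (I n).card := by
      exact_mod_cast Finset.card_le_card (hwin n).sub
    refine (Real.log_le_log h1 h2).trans (hn.2.1.trans (dpow_le B n ?_))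
    linarith
  · -- Apos
    intro n
    exact mul_pos (H.Apos n) (dpow_pos B n _)
  · -- lev_mono
    intro u v h0 huv h1
    filter_upwards [hP, hF u h0 (huv.trans h1), hF v (h0.trans huv) h1, hM u v h0 huv h1]
      with n a1 a2 a3 a4
    exact (a1.2.2.2.2.1 u a2 v a3 a4).le
  · -- lev_lim
    intro u v h0 huv h1
    rw [Metric.tendsto_nhds]
    intro ε hε
    filter_upwards [hP, hF u h0 (huv.trans h1), hF v (h0.trans huv) h1, hM u v h0 huv h1,
      hem u h0 (huv.trans h1) (ε / 8) (by positivity),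
      hem v (h0.trans huv) h1 (ε / 8) (by positivity), ev_del hpos hs (ε := ε / 4) (by positivity)]
      with n a1 a2 a3 a4 a5 a6 a7
    have hh := hpos (s n)
    have hLn := B.L_pos n
    have h2 := (a1.2.2.2.2.1 u a2 v a3 a4).ll
    rw [Real.dist_eq, hL']
    set X : ℝ := ((lev n (m (s n) v) : ℝ) - lev n (m (s n) u)) * Real.log 2 / B.L n with hX
    have e1 : ((lev n (m (s n) v) : ℝ) - lev n (m (s n) u)) * Real.log 2 / (h (s n) * B.L n) -
        ((v : ℝ) - u) = (X - h (s n) * (v - u)) / h (s n) := by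
      rw [hX]
      field_simp
    rw [e1, abs_div, abs_of_pos hh, div_lt_iff₀ hh]
    have h3 : |X - h (s n) * (v - u)| ≤ 3 / 4 * ε * h (s n) := by
      rw [abs_le] at h2 a5 a6 ⊢
      constructor <;> nlinarith
    have : 0 < ε * h (s n) := mul_pos hε hh
    linarith
  · -- cell0
    refine Eventually.of_forall fun n x hx y hy => ?_
    exact ((hwin n).cell x hx).trans ((hwin n).cell y hy).symm
  · -- one
    exact Eventually.of_forall fun n x hx y hy h1 h2 => (hwin n).one x hx y hy h1 h2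
  · -- own
    intro u v h0 huv h1 ε hε
    filter_upwards [hP, hF u h0 (huv.trans h1), hF v (h0.trans huv) h1, hM u v h0 huv h1,
      hem u h0 (huv.trans h1) (ε / 8) (by positivity),
      hem v (h0.trans huv) h1 (ε / 8) (by positivity),
      heΛ u h0 (huv.trans h1) (ε / 8) (by positivity),
      heΛ v (h0.trans huv) h1 (ε / 8) (by positivity),
      ev_del hpos hs (ε := ε / 4) (by positivity), hlv0 u h0 (huv.trans h1),
      hlv0 v (h0.trans huv) h1]
      with n a1 a2 a3 a4 a5 a6 b5 b6 a7 c1 c2 x hx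
    have h2 := (a1.2.2.2.2.1 u a2 v a3 a4).ow x ((hwin n).sub hx)
    rw [own_eq (hwin n) c1.1 c1.2 c2.2 hx, hBp, hBp]
    have hh := hpos (s n)
    rw [abs_le] at a5 a6 b5 b6
    constructor
    · refine le_trans (dpow_le B n ?_) h2.1
      nlinarith
    · refine h2.2.trans (dpow_le B n ?_)
      nlinarith
  · -- dmax
    intro v h0 h1 ε hε
    filter_upwards [hP, hF v h0 h1, hamp v h0 h1 (ε / 2) (by positivity),
      ev_del hpos hs (ε := ε / 2) (by positivity)] with n a1 a2 a3 a4 J σ0 hσ0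
    have h2 := (a1.2.2.2.1 v a2).dm J σ0 hσ0
    have hp0 : 0 < B.d n ^ (-del h (s n)) * ampA B A c n (m (s n) v) :=
      mul_pos (dpow_pos B n _) (hamp0 n _)
    have hval : 0 ≤ G.val n (lev n (m (s n) v)) J σ0 := by
      by_contra hneg
      have h3 := mul_neg_of_pos_of_neg hp0 (not_le.1 hneg)
      have h4 : (0 : ℝ) ≤ (((alive (I n) (lev n (m (s n) v)) J).filter fun t =>
        G.mem n (lev n (m (s n) v)) J σ0 t).card : ℝ) := by positivity
      linarith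
    have h3 : (((alive (I' n) (lev n (m (s n) v)) J).filter fun t =>
        G.mem n (lev n (m (s n) v)) J σ0 t).card : ℝ) ≤
        (((alive (I n) (lev n (m (s n) v)) J).filter fun t =>
        G.mem n (lev n (m (s n) v)) J σ0 t).card : ℝ) := by
      exact_mod_cast Finset.card_le_card (Finset.filter_subset_filter _ (alive_sub (hwin n) J))
    refine h3.trans (h2.trans (mul_le_mul_of_nonneg_right ?_ hval))
    rw [hBp]
    calc B.d n ^ (-del h (s n)) * ampA B A c n (m (s n) v)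
        ≤ B.d n ^ (-(ε / 2 * h (s n))) * (B.d n ^ (-(ε / 2 * h (s n))) *
          ampA B' A' c' n v) := by
          have h4 := dpow_le B n (a := -(ε / 2 * h (s n))) (b := -del h (s n)) (by linarith)
          have h5 := (hamp0 n (m (s n) v)).le
          have h6 := (dpow_pos B n (-(ε / 2 * h (s n)))).le
          exact mul_le_mul h4 a3.1 h5 h6
      _ = _ := by
          rw [← mul_assoc, ← Real.rpow_add (B.pos n)]
          congr 2
          ring
  · -- mark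
    intro v h0 h1
    filter_upwards [hP, hF v h0 h1] with n a1 a2 J t ht
    exact (a1.2.2.2.1 v a2).mr J t (alive_sub (hwin n) J ht)
  · -- near
    intro v h0 h1 ε hε
    filter_upwards [hP, hF v h0 h1, hamp v h0 h1 (ε / 2) (by positivity),
      ev_del hpos hs (ε := ε / 2) (by positivity), hlv0 v h0 h1] with n a1 a2 a3 a4 c1 J t ht
    have hp1 := a1.2.2.2.1 v a2
    have hal := alive_eq (hwin n) c1.1 c1.2 ⟨t, ht⟩
    have h2 := hp1.nr J t (by rw [← hal]; exact ht)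
    rw [hal]
    have hX : (0 : ℝ) ≤ (((alive (I n) (lev n (m (s n) v)) J).filter fun s_1 =>
        f n (m (s n) v) s_1 J = f n (m (s n) v) t J).card : ℝ) := by positivity
    calc ampA B' A' c' n v * vm n (m (s n) v)
        ≤ (B.d n ^ (-(ε / 2 * h (s n))) * ampA B A c n (m (s n) v)) * vm n (m (s n) v) :=
          mul_le_mul_of_nonneg_right a3.2 hp1.vp.le
      _ = B.d n ^ (-(ε / 2 * h (s n))) * (ampA B A c n (m (s n) v) * vm n (m (s n) v)) := by ring
      _ ≤ B.d n ^ (-(ε / 2 * h (s n))) * (B.d n ^ (-del h (s n)) *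
          (((alive (I n) (lev n (m (s n) v)) J).filter fun s_1 =>
          f n (m (s n) v) s_1 J = f n (m (s n) v) t J).card : ℝ)) :=
          mul_le_mul_of_nonneg_left h2 (dpow_pos B n _).le
      _ ≤ B.d n ^ (-(ε / 2 * h (s n))) * (B.d n ^ (-(ε / 2 * h (s n))) *
          (((alive (I n) (lev n (m (s n) v)) J).filter fun s_1 =>
          f n (m (s n) v) s_1 J = f n (m (s n) v) t J).card : ℝ)) := by
          refine mul_le_mul_of_nonneg_left (mul_le_mul_of_nonneg_right ?_ hX) (dpow_pos B n _).le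
          exact dpow_le B n (by linarith)
      _ = _ := by
          rw [hBp, ← mul_assoc, ← Real.rpow_add (B.pos n)]
          congr 2
          ring
  · -- vpos
    intro v h0 h1
    filter_upwards [hP, hF v h0 h1] with n a1 a2
    exact (a1.2.2.2.1 v a2).vp
  · -- wpos
    intro j v h0 h1
    filter_upwards [hP, hF v h0 h1, hs.eventually (hevκ j)] with n a1 a2 a3
    exact ((a1.2.2.2.2.2 j a3).2 v a2).wp
  · -- tau
    intro j v h0 h1
    rw [Metric.tendsto_nhds]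
    intro ε hε
    filter_upwards [hP, hF v h0 h1, heτ j v h0 h1 (ε / 4) (by positivity),
      ev_del hpos hs (ε := ε / 4) (by positivity), hs.eventually (hevκ j)]
      with n a1 a2 a5 a7 a8
    have hh := hpos (s n)
    have hLn := B.L_pos n
    have hp0 := a1.2.2.2.2.2 j a8
    have hp1 := hp0.2 v a2
    have hp2 := hp0.2 1 (one_mem_Fq _)
    have t1 := hp1.ta
    have t2 := hp2.ta
    have hr : ∀ i : ℕ, 0 < rho i := fun i => by
      unfold Crest.Agent.R138.Mk163.rho; positivity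
    have hw2v : 0 < w j n (m (s n) v) := hp1.wp
    have hw21 : 0 < w j n (m (s n) 1) := hp2.wp
    have hw1 : 0 < w j n 1 := hp0.1
    rw [Real.dist_eq, hL']
    set Rv : ℝ := rho (lev n (m (s n) v)) / w j n (m (s n) v) with hRv
    set Rm : ℝ := rho (lev n (m (s n) 1)) / w j n (m (s n) 1) with hRm
    set R1 : ℝ := rho (lev n 1) / w j n 1 with hR1
    have pv : 0 < Rv := div_pos (hr _) hw2v
    have pm : 0 < Rm := div_pos (hr _) hw21
    have p1 : 0 < R1 := div_pos (hr _) hw1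
    rw [Real.log_div pv.ne' p1.ne'] at t1
    rw [Real.log_div pm.ne' p1.ne'] at t2
    rw [Real.log_div pv.ne' pm.ne']
    set X : ℝ := (Real.log Rv - Real.log R1) / B.L n with hX
    set Y : ℝ := (Real.log Rm - Real.log R1) / B.L n with hY
    have e1 : (Real.log Rv - Real.log Rm) / (h (s n) * B.L n) - τ' j v =
        ((X - Y) - h (s n) * τ' j v) / h (s n) := by
      rw [hX, hY]
      field_simp
      ring
    rw [e1, abs_div, abs_of_pos hh, div_lt_iff₀ hh]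
    have h3 : |(X - Y) - h (s n) * τ' j v| ≤ 3 / 4 * ε * h (s n) := by
      rw [abs_le] at t1 t2 a5 ⊢
      constructor <;> nlinarith
    have : 0 < ε * h (s n) := mul_pos hε hh
    linarith


open Classical in
/-- **zoom inside dense parts, carrying a monotone property of parts.** -/
theorem zoomR [Countable κ] (H : MkA B I G lev A c Λ τ f b vm w) {h : ℕ → ℝ} {m : ℕ → ℚ → ℚ}
    {c' Λ' : ℝ → ℝ} {τ' : κ → ℝ → ℝ} (hpos : ∀ k, 0 < h k)
    (hmem : ∀ k, ∀ x : ℚ, 0 ≤ x → x ≤ 1 → 0 ≤ m k x ∧ m k x ≤ 1)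
    (hmono : ∀ x y : ℚ, 0 ≤ x → x ≤ y → y ≤ 1 → ∀ᶠ k in atTop, m k x ≤ m k y)
    (hlev : ∀ x y : ℚ, 0 ≤ x → x ≤ y → y ≤ 1 →
      Tendsto (fun k => ((m k y : ℝ) - m k x) / h k) atTop (𝓝 ((y : ℝ) - x)))
    (hc : ∀ x : ℚ, 0 ≤ x → x ≤ 1 →
      Tendsto (fun k => (c (m k x) - c (m k 0)) / h k) atTop (𝓝 (c' x)))
    (hΛ : ∀ x : ℚ, 0 ≤ x → x ≤ 1 →
      Tendsto (fun k => (Λ (m k x) - Λ (m k 0)) / h k) atTop (𝓝 (Λ' x)))
    (hτ : ∀ j, ∀ x : ℚ, 0 ≤ x → x ≤ 1 →
      Tendsto (fun k => (τ j (m k x) - τ j (m k 1)) / h k) atTop (𝓝 (τ' j x)))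
    (hlam : ∀ u v : ℝ, 0 ≤ u → u ≤ v → v ≤ 1 → 0 ≤ Λ' v - Λ' u ∧ Λ' v - Λ' u ≤ v - u)
    (hc0 : c' 0 = 0) (hΛ0 : Λ' 0 = 0) (hτ1 : ∀ j, τ' j 1 = 0)
    {e : ℕ → ℝ} (he : Tendsto e atTop (𝓝 0)) {P : ℕ → ℕ → Finset (ℕ × ℝ) → Prop}
    (hPm : ∀ k n, ∀ S T : Finset (ℕ × ℝ), T ⊆ S → P k n S → P k n T)
    (hP : ∀ k, ∀ᶠ n in (U : Filter ℕ), ∃ S ⊆ I n,
      B.d n ^ (h k * e k) * ((I n).card : ℝ) ≤ (S.card : ℝ) ∧ P k n S) :
    ∃ (s : ℕ → ℕ) (B' : Base) (I' : ℕ → Finset (ℕ × ℝ)) (A' : ℕ → ℝ), Tendsto s U atTop ∧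
      (∀ n, B'.d n = B.d n ^ h (s n)) ∧ (∀ n, I' n ⊆ I n) ∧
      MkA B' I' G (fun n x => lev n (m (s n) x)) A' c' Λ' τ' (fun n x => f n (m (s n) x))
        (fun n x => b n (m (s n) x)) (fun n x => vm n (m (s n) x))
        (fun j n x => w j n (m (s n) x)) ∧
      ∀ᶠ n in (U : Filter ℕ), P (s n) n (I' n) := by
  obtain ⟨s0, hs0, hz⟩ := zoomW H hpos hmem hmono hlev hc hΛ hτ hlam hc0 hΛ0 hτ1
  set X : ℕ → ℝ := fun k => -(1 - ((m k 1 : ℚ) : ℝ)) + (Λ 1 - Λ ((m k 1 : ℚ) : ℝ)) with hX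
  obtain ⟨s1, hs1, hs1'⟩ := exists_diag (fun k n =>
    (∃ S ⊆ I n, B.d n ^ (h k * e k) * ((I n).card : ℝ) ≤ (S.card : ℝ) ∧ P k n S) ∧
    (m k 0 ≤ m k 1 → lev n (m k 0) ≤ lev n (m k 1)) ∧ (I n).Nonempty ∧
    ∀ x ∈ I n, B.d n ^ (X k + del h k) ≤
        (((I n).filter fun y => lc (lev n (m k 1)) y = lc (lev n (m k 1)) x).card : ℝ) ∧
      (((I n).filter fun y => lc (lev n (m k 1)) y = lc (lev n (m k 1)) x).card : ℝ) ≤
        B.d n ^ (X k - del h k)) (by
    intro k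
    have e2 : ∀ᶠ n in (U : Filter ℕ), m k 0 ≤ m k 1 → lev n (m k 0) ≤ lev n (m k 1) := by
      rcases le_or_gt (m k 0) (m k 1) with hh | hh
      · filter_upwards [H.lev_mono (m k 0) (m k 1) (hmem k 0 le_rfl zero_le_one).1 hh
          (hmem k 1 zero_le_one le_rfl).2] with n hn _ using hn
      · exact Eventually.of_forall fun n hn => absurd hn (not_le.2 hh)
    filter_upwards [hP k, e2, H.ne, fib_bounds H (m k 1) (hmem k 1 zero_le_one le_rfl).1
      (hmem k 1 zero_le_one le_rfl).2 (del_pos hpos k)] with n a1 a2 a3 a4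
    exact ⟨a1, a2, a3, a4⟩)
  set s : ℕ → ℕ := fun n => min (s0 n) (s1 n) with hs
  have hst : Tendsto s U atTop := by
    rw [tendsto_atTop]
    intro K
    filter_upwards [tendsto_atTop.1 hs0 K, tendsto_atTop.1 hs1 K] with n h1 h2 using le_min h1 h2
  have hgood := hs1'.mono fun n hn => hn (s n) (min_le_right _ _)
  have hm01 : ∀ᶠ n in (U : Filter ℕ), m (s n) 0 ≤ m (s n) 1 :=
    hst.eventually (hmono 0 1 le_rfl zero_le_one le_rfl)
  -- the windows
  have hwin : ∀ n, ∃ (I' : Finset (ℕ × ℝ)) (J0 : ℤ) (T : Finset (ℕ × ℝ)),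
      IsWin (I n) I' (lev n (m (s n) 0)) (lev n (m (s n) 1)) J0 ∧
      ((I n).Nonempty → I'.Nonempty) ∧ T ⊆ I' ∧
      (((∃ S ⊆ I n, B.d n ^ (h (s n) * e (s n)) * ((I n).card : ℝ) ≤ (S.card : ℝ) ∧ P (s n) n S) ∧
        lev n (m (s n) 0) ≤ lev n (m (s n) 1) ∧ (I n).Nonempty ∧
        ∀ x ∈ I n, B.d n ^ (X (s n) + del h (s n)) ≤
          (((I n).filter fun y => lc (lev n (m (s n) 1)) y = lc (lev n (m (s n) 1)) x).card : ℝ) ∧
          (((I n).filter fun y => lc (lev n (m (s n) 1)) y = lc (lev n (m (s n) 1)) x).card : ℝ) ≤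
          B.d n ^ (X (s n) - del h (s n))) →
        P (s n) n T ∧ B.d n ^ (h (s n) * e (s n) + 2 * del h (s n)) * (I'.card : ℝ) ≤ (T.card : ℝ)) := by
    intro n
    by_cases hc : (∃ S ⊆ I n, B.d n ^ (h (s n) * e (s n)) * ((I n).card : ℝ) ≤ (S.card : ℝ) ∧
        P (s n) n S) ∧
        lev n (m (s n) 0) ≤ lev n (m (s n) 1) ∧ (I n).Nonempty ∧
        ∀ x ∈ I n, B.d n ^ (X (s n) + del h (s n)) ≤
          (((I n).filter fun y => lc (lev n (m (s n) 1)) y = lc (lev n (m (s n) 1)) x).card : ℝ) ∧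
          (((I n).filter fun y => lc (lev n (m (s n) 1)) y = lc (lev n (m (s n) 1)) x).card : ℝ) ≤
          B.d n ^ (X (s n) - del h (s n))
    · obtain ⟨⟨S, hS1, hS2, hS3⟩, h2, h3, h4⟩ := hc
      obtain ⟨I', J0, w1, w2, w3⟩ := win_dense h2 hS1 h3 (dpow_pos B n _) (dpow_pos B n _)
        (dpow_pos B n _) hS2 h4
      refine ⟨I', J0, I'.filter fun x => x ∈ S, w1, fun _ => w2, filter_subset _ _, fun _ => ⟨?_, ?_⟩⟩
      · exact hPm _ _ _ _ (fun x hx => (mem_filter.1 hx).2) hS3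
      · have hp := dpow_pos B n (X (s n) - del h (s n))
        have e1 : B.d n ^ (h (s n) * e (s n)) * B.d n ^ (X (s n) + del h (s n)) =
            B.d n ^ (X (s n) - del h (s n)) * B.d n ^ (h (s n) * e (s n) + 2 * del h (s n)) := by
          rw [← Real.rpow_add (B.pos n), ← Real.rpow_add (B.pos n)]
          congr 1
          ring
        rw [e1, mul_assoc] at w3
        exact le_of_mul_le_mul_left w3 hp
    · obtain ⟨I', J0, w1, w2⟩ := exists_win (I n) (lev n (m (s n) 0)) (lev n (m (s n) 1))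
      exact ⟨I', J0, ∅, w1, w2, empty_subset _, fun hc' => absurd hc' hc⟩
  choose I' J0 T w1 w2 w3 w4 using hwin
  obtain ⟨B', A', hB', hM'⟩ := hz s hst (Eventually.of_forall fun n => min_le_left _ _) I' J0 w1 w2
  have hd : Dense B' T I' := by
    refine ⟨Eventually.of_forall w3, fun η hη => ?_⟩
    have he' : ∀ᶠ n in (U : Filter ℕ), e (s n) < η / 3 :=
      hst.eventually (he.eventually_lt_const (by positivity))
    filter_upwards [hgood, hm01, he', ev_del hpos hst (ε := η / 3) (by positivity)]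
      with n a1 a2 a3 a4
    have h5 := (w4 n ⟨a1.1, a1.2.1 a2, a1.2.2.1, a1.2.2.2⟩).2
    refine le_trans (mul_le_mul_of_nonneg_right ?_ (Nat.cast_nonneg _)) h5
    rw [hB', ← Real.rpow_mul (B.pos n).le]
    refine dpow_le B n ?_
    have hh := hpos (s n)
    nlinarith
  obtain ⟨J', j1, j2, -, j3⟩ := MkA.refine' hM' hd
  refine ⟨s, B', J', A', hst, hB', fun n => (j1 n).trans ((w3 n).trans (w1 n).sub), j3, ?_⟩
  filter_upwards [hgood, hm01] with n a1 a2
  exact hPm _ _ _ _ (j1 n) (w4 n ⟨a1.1, a1.2.1 a2, a1.2.2.1, a1.2.2.2⟩).1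

end zoomW

end Crest.Agent.R136.Re436
end

-- ▼ part R136/ReE2_436
section

/-!
# R136 (S0187), case E: re-flag (helper436), part 2: zoom of raw systems
-/

set_option autoImplicit false
set_option linter.unusedVariables false

open Finset Filter Topology

namespace Crest.Agent.R136.Re436

open Crest.Agent.R138.Ex926 (Base U exists_diag)
open Crest.Agent.R138.Mk163 (zc zl rho alive)
open Crest.Agent.R138.Dp76 (Dense)
open Crest.Agent.R138.MkRef627 (lc kc)
open Crest.Agent.R138.MkZoom779 (Fq Fq_mem ev_mem_Fq dpow_pos dpow_le)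
open Crest.Agent.R136.MkA627
open Crest.Agent.R136.Net191
open Crest.Agent.R136.NetQ186
open Crest.Agent.R136.Wq638
open Crest.Agent.R136.Top484
open Crest.Agent.R136.NatT550

/-- a dense part of a raw system contains a dense raw system -/
theorem RawS.refine {p : Par4} {D : Dat4} {π : Equiv.Perm (Fin 3)} {eE fA fB : ℕ → ℕ × ℝ → ℝ}
    (h : RawS p D π eE fA fB) {J : ℕ → Finset (ℕ × ℝ)} (hJ : Dense D.B J D.I)
    (hJ' : ∀ n, J n ⊆ D.I n) :
    ∃ J' : ℕ → Finset (ℕ × ℝ), (∀ n, J' n ⊆ J n) ∧ RawS p (subD D J') π eE fA fB := by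
  obtain ⟨J', j1, -, -, j3⟩ := MkA.refine' h.mka hJ
  refine ⟨J', j1, ⟨j3, fun u h0 h1 ε hε => ?_, h.wrs⟩⟩
  filter_upwards [h.near u h0 h1 ε hε] with n hn x hx y hy
  exact hn x (hJ' n (j1 n hx)) y (hJ' n (j1 n hy))

/-- **zoom of a raw system inside dense parts** -/
theorem RawS.zoom {p : Par4} {D : Dat4} {π : Equiv.Perm (Fin 3)} {eE fA fB : ℕ → ℕ × ℝ → ℝ}
    (hR : RawS p D π eE fA fB) {u r : ℕ → ℚ} (hu : ∀ k, 0 ≤ u k) (hr : ∀ k, 0 < r k)
    (hur : ∀ k, u k + r k ≤ 1) {e : ℕ → ℝ} (he : Tendsto e atTop (𝓝 0))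
    {P : ℕ → ℕ → Finset (ℕ × ℝ) → Prop}
    (hPm : ∀ k n, ∀ S T : Finset (ℕ × ℝ), T ⊆ S → P k n S → P k n T)
    (hP : ∀ k, ∀ᶠ n in (U : Filter ℕ), ∃ S ⊆ D.I n,
      D.B.d n ^ ((r k : ℝ) * e k) * ((D.I n).card : ℝ) ≤ (S.card : ℝ) ∧ P k n S) :
    ∃ (s : ℕ → ℕ) (B' : Base) (I' : ℕ → Finset (ℕ × ℝ)) (A' : ℕ → ℝ), Tendsto s U atTop ∧
      (∀ n, B'.d n = D.B.d n ^ ((r (s n) : ℚ) : ℝ)) ∧ (∀ n, I' n ⊆ D.I n) ∧
      RawS p (zooR D B' I' A' fun n x => u (s n) + r (s n) * x) π eE fA fB ∧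
      ∀ᶠ n in (U : Filter ℕ), P (s n) n (I' n) := by
  have hrR : ∀ k, (0 : ℝ) < (r k : ℝ) := fun k => by exact_mod_cast hr k
  have hmem : ∀ k, ∀ x : ℚ, 0 ≤ x → x ≤ 1 → 0 ≤ u k + r k * x ∧ u k + r k * x ≤ 1 := by
    intro k x h0 h1
    have h2 := hu k
    have h3 := hr k
    have h4 := hur k
    constructor
    · positivity
    · nlinarith
  have hdiv : ∀ (a : ℝ) (k : ℕ) (x y : ℚ),
      (a * ((u k + r k * y : ℚ) : ℝ) - a * ((u k + r k * x : ℚ) : ℝ)) / (r k : ℝ) =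
        a * ((y : ℝ) - x) := by
    intro a k x y
    have := (hrR k).ne'
    push_cast
    field_simp
    ring
  obtain ⟨s, B', I', A', s1, s2, s3, s4, s5⟩ := zoomR (h := fun k => (r k : ℝ))
    (m := fun k x => u k + r k * x) (c' := fun v => p.g * v) (Λ' := fun v => 0 * v)
    (τ' := fun j v => p.θ j * (1 - v)) hR.mka hrR hmem
    (fun x y _ hxy _ => Eventually.of_forall fun k => by
      have := hr k
      nlinarith)
    (fun x y _ _ _ => by
      have h1 := fun k => hdiv 1 k x y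
      simp only [one_mul] at h1
      simp only [h1]
      exact tendsto_const_nhds)
    (fun x _ _ => by
      have h1 := fun k => hdiv p.g k 0 x
      simp only [Rat.cast_zero, sub_zero] at h1
      simp only [h1]
      exact tendsto_const_nhds)
    (fun x _ _ => by simp)
    (fun j x _ _ => by
      have h1 : ∀ k, (p.θ j * (1 - ((u k + r k * x : ℚ) : ℝ)) -
          p.θ j * (1 - ((u k + r k * 1 : ℚ) : ℝ))) / (r k : ℝ) = p.θ j * (1 - x) := by
        intro k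
        have := (hrR k).ne'
        push_cast
        field_simp
        ring
      simp only [h1]
      exact tendsto_const_nhds)
    (fun u v _ huv _ => by constructor <;> linarith) (by simp) (by simp) (fun j => by simp) he
    (P := fun k n S => P k n S ∧ (∀ x ∈ Fq k, ∀ i ∈ D.I n, ∀ j ∈ D.I n,
      kc (D.lev n (u k + r k * x)) (D.f n (u k + r k * x)) j =
        kc (D.lev n (u k + r k * x)) (D.f n (u k + r k * x)) i → ∀ t,
      |coQ (incQ π D.L eE fA fB n i) (incQ π D.L eE fA fB n j) t| ≤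
        natW D n (u k + r k * x) t * D.B.d n ^ (-((r k : ℝ) / (k + 1)))) ∧
      ∀ x ∈ Fq k, ∀ j, 0 < D.w j n (u k + r k * x) ∧
        D.wr j n ≤ D.B.d n ^ (k : ℝ) * D.w j n (u k + r k * x) ∧
        D.w j n (u k + r k * x) ≤ D.B.d n ^ (k : ℝ) * D.cr j n)
    (fun k n S T hTS h => ⟨hPm k n S T hTS h.1, h.2⟩) (by
      intro k
      have e2 : ∀ᶠ n in (U : Filter ℕ), ∀ x ∈ Fq k, ∀ j, 0 < D.w j n (u k + r k * x) ∧
          D.wr j n ≤ D.B.d n ^ (k : ℝ) * D.w j n (u k + r k * x) ∧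
          D.w j n (u k + r k * x) ≤ D.B.d n ^ (k : ℝ) * D.cr j n := by
        rw [Filter.eventually_all_finset]
        intro x hx
        obtain ⟨hx0, hx1⟩ := Fq_mem hx
        rw [Filter.eventually_all]
        intro j
        filter_upwards [hR.mka.wpos j _ (hmem k x hx0 hx1).1 (hmem k x hx0 hx1).2,
          hR.wrs (k : ℝ) j _ (hmem k x hx0 hx1).1 (hmem k x hx0 hx1).2] with n a1 a2
        exact ⟨a1, a2⟩
      have e1 : ∀ᶠ n in (U : Filter ℕ), ∀ x ∈ Fq k, ∀ i ∈ D.I n, ∀ j ∈ D.I n,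
          kc (D.lev n (u k + r k * x)) (D.f n (u k + r k * x)) j =
            kc (D.lev n (u k + r k * x)) (D.f n (u k + r k * x)) i → ∀ t,
          |coQ (incQ π D.L eE fA fB n i) (incQ π D.L eE fA fB n j) t| ≤
            natW D n (u k + r k * x) t * D.B.d n ^ (-((r k : ℝ) / (k + 1))) := by
        rw [Filter.eventually_all_finset]
        intro x hx
        obtain ⟨hx0, hx1⟩ := Fq_mem hx
        have hd : 0 < (r k : ℝ) / (k + 1) := div_pos (hrR k) (by positivity)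
        exact hR.near _ (hmem k x hx0 hx1).1 (hmem k x hx0 hx1).2 _ hd
      filter_upwards [hP k, e1, e2] with n h1 h2 h3
      obtain ⟨S, a1, a2, a3⟩ := h1
      exact ⟨S, a1, a2, a3, h2, h3⟩)
  refine ⟨s, B', I', A', s1, s2, s3, ⟨s4, fun v h0 h1 ε hε => ?_, fun C j v h0 h1 => ?_⟩,
    s5.mono fun n hn => hn.1⟩
  swap
  · have hC : ∀ᶠ n in (U : Filter ℕ), |C| ≤ (s n : ℝ) :=
      (tendsto_natCast_atTop_atTop.comp s1).eventually_ge_atTop |C|
    filter_upwards [s5, s1.eventually (ev_mem_Fq h0 h1), hC] with n a1 a2 a3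
    obtain ⟨b1, b2, b3⟩ := a1.2.2 v a2 j
    show D.wr j n ≤ B'.d n ^ C * D.w j n (u (s n) + r (s n) * v) ∧
      D.w j n (u (s n) + r (s n) * v) ≤ B'.d n ^ C * D.cr j n
    have h7 := hrR (s n)
    have h8 : (r (s n) : ℝ) ≤ 1 := by
      have h9 := hur (s n)
      have h10 := hu (s n)
      have : r (s n) ≤ 1 := by linarith
      exact_mod_cast this
    have e1 : D.B.d n ^ ((s n : ℕ) : ℝ) ≤ B'.d n ^ C := by
      rw [s2, ← Real.rpow_mul (D.B.pos n).le]
      refine dpow_le D.B n ?_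
      have h11 := le_abs_self C
      have h12 := abs_nonneg C
      nlinarith
    have hcr : 0 ≤ D.cr j n := by
      have h13 := b1.le.trans b3
      exact nonneg_of_mul_nonneg_right h13 (dpow_pos D.B n _)
    exact ⟨b2.trans (mul_le_mul_of_nonneg_right e1 b1.le),
      b3.trans (mul_le_mul_of_nonneg_right e1 hcr)⟩
  have hlim : ∀ᶠ n in (U : Filter ℕ), 1 / ((s n : ℝ) + 1) < ε :=
    (tendsto_one_div_add_atTop_nhds_zero_nat.comp s1).eventually_lt_const hε
  filter_upwards [s5, s1.eventually (ev_mem_Fq h0 h1), hlim] with n a1 a2 a3 x hx y hy hk t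
  have h5 := a1.2.1 v a2 x (s3 n hx) y (s3 n hy) hk t
  show _ ≤ natW D n (u (s n) + r (s n) * v) t * B'.d n ^ (-ε)
  refine h5.trans ?_
  have hn0 : 0 ≤ natW D n (u (s n) + r (s n) * v) t := by
    have h6 := (abs_nonneg _).trans h5
    exact nonneg_of_mul_nonneg_left h6 (dpow_pos D.B n _)
  refine mul_le_mul_of_nonneg_left ?_ hn0
  rw [s2, ← Real.rpow_mul (D.B.pos n).le]
  refine dpow_le D.B n ?_
  have h7 := hrR (s n)
  have e1 : (r (s n) : ℝ) / ((s n : ℝ) + 1) = (r (s n) : ℝ) * (1 / ((s n : ℝ) + 1)) := by ring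
  rw [e1]
  nlinarith

end Crest.Agent.R136.Re436
end

-- ▼ part R136/ReE3_436
section

/-!
# R136 (S0187), case E: re-flag (helper436), part 3: relation of infinite order after a zoom

`LineInf` : on every line the pairs `(E, F_a)` lie on one straight line, to infinite order.
`exists_lineInf` : `RawS` + slot 3 invisible + `LineRel` ⊢ a zoom with `RawS`, `InvS 3`, `LineInf`.
-/

set_option autoImplicit false
set_option linter.unusedVariables false

open Finset Filter Topology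

namespace Crest.Agent.R136.Re436

open Crest.Agent.R138.Ex926 (Base U exists_diag)
open Crest.Agent.R138.Mk163 (zc zl rho alive)
open Crest.Agent.R138.Dp76 (Dense)
open Crest.Agent.R138.MkRef627 (lc kc)
open Crest.Agent.R138.MkZoom779 (Fq Fq_mem ev_mem_Fq dpow_pos dpow_le)
open Crest.Agent.R136.MkA627
open Crest.Agent.R136.Net191
open Crest.Agent.R136.NetQ186
open Crest.Agent.R136.Wq638
open Crest.Agent.R136.Top484
open Crest.Agent.R136.NatT550
open Crest.Agent.R136.Ut627 (prF btF prLinF wpos_all)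
open Crest.Agent.R136.Slt627 (eq_exp)

/-- relation of infinite order on every line -/
def LineInf (D : Dat4) (π : Equiv.Perm (Fin 3)) (eE fA fB : ℕ → ℕ × ℝ → ℝ) : Prop :=
  ∀ M : ℝ, ∀ᶠ n in (U : Filter ℕ), ∀ x ∈ D.I n, ∃ a b : ℝ, a ^ 2 + b ^ 2 = 1 ∧ ∀ y ∈ D.I n,
    y.1 = x.1 →
      |a * (coQ (incQ π D.L eE fA fB n x) (incQ π D.L eE fA fB n y) 2 / natW D n 0 2) +
        b * (coQ (incQ π D.L eE fA fB n x) (incQ π D.L eE fA fB n y) 4 / natW D n 0 4)| ≤
        D.B.d n ^ M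

/-- infinite gap between thickness and narrow width -/
def GapInf (D : Dat4) : Prop :=
  ∀ M : ℝ, ∀ᶠ n in (U : Filter ℕ), D.w 0 n 0 ≤ D.B.d n ^ M * D.w 2 n 0

/-- no gap -/
def NoGap (D : Dat4) : Prop :=
  ∀ γ : ℝ, 0 < γ → ∀ᶠ n in (U : Filter ℕ), D.B.d n ^ γ * D.w 2 n 0 ≤ D.w 0 n 0

theorem noGap_of {D : Dat4} (h : ¬ Gap23 D) : NoGap D := by
  intro γ hγ
  have h1 : ¬ ∀ᶠ n in (U : Filter ℕ), D.w 0 n 0 ≤ D.B.d n ^ γ * D.w 2 n 0 := fun hc => h ⟨γ, hγ, hc⟩
  rw [← Ultrafilter.eventually_not] at h1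
  filter_upwards [h1] with n hn using (not_le.1 hn).le

theorem GapInf.gap {D : Dat4} (h : GapInf D) : Gap23 D := ⟨1, one_pos, h 1⟩

/-- comparison of the ratio `w 0 / w 2` at two levels, `θ 0 = θ 2` -/
theorem ratio_lev {p : Par4} {D : Dat4}
    (hM : MkA D.B D.I (D.G p) D.lev D.A (fun v => p.g * v) (fun v => 0 * v)
      (fun j v => p.θ j * (1 - v)) D.f D.b D.vm D.w) (h02 : p.θ 0 = p.θ 2) {u : ℚ} (h0 : 0 ≤ u)
    (h1 : u ≤ 1) {ε : ℝ} (hε : 0 < ε) :
    ∀ᶠ n in (U : Filter ℕ), (∀ k, 0 < D.w k n u) ∧ (∀ k, 0 < D.w k n 0) ∧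
      D.w 0 n u / D.w 2 n u ≤ D.w 0 n 0 / D.w 2 n 0 * D.B.d n ^ (-ε) ∧
      D.w 0 n 0 / D.w 2 n 0 * D.B.d n ^ ε ≤ D.w 0 n u / D.w 2 n u := by
  have hp := prLinF hM 1
  have h2 := hp.2 u h0 h1
  have hb : btF p.θ 1 * (u : ℝ) = 0 := by
    show (p.θ 2 - p.θ 0) * (u : ℝ) = 0
    rw [h02]; ring
  rw [hb] at h2
  have h3 := (Metric.tendsto_nhds.1 h2) ε hε
  filter_upwards [h3, wpos_all hM h0 h1, wpos_all hM le_rfl zero_le_one] with n a1 a2 a3
  rw [Real.dist_eq, sub_zero] at a1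
  obtain ⟨a4, a5⟩ := abs_le.1 a1.le
  have hS : 0 < D.w 0 n 0 / D.w 2 n 0 := div_pos (a3 0) (a3 2)
  have hP : 0 < D.w 0 n u / D.w 2 n u := div_pos (a2 0) (a2 2)
  have h5 := eq_exp (B := D.B) (n := n) hS hP
  refine ⟨a2, a3, ?_, ?_⟩
  · rw [h5]
    exact mul_le_mul_of_nonneg_left (dpow_le D.B n a4) hS.le
  · rw [h5]
    exact mul_le_mul_of_nonneg_left (dpow_le D.B n a5) hS.le

set_option maxHeartbeats 800000 in
/-- **zoom which makes the relation infinite** -/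
theorem exists_lineInf {p : Par4} {D : Dat4} {π : Equiv.Perm (Fin 3)} {eE fA fB : ℕ → ℕ × ℝ → ℝ}
    (hR : RawS p D π eE fA fB) (h02 : p.θ 0 = p.θ 2)
    (h3 : ∃ c : ℝ, 0 < c ∧ ∀ u : ℚ, 0 ≤ u → u ≤ 1 → ∀ᶠ n in (U : Filter ℕ),
      ∀ x ∈ D.I n, ∀ y ∈ D.I n, y.1 = x.1 →
        |coQ (incQ π D.L eE fA fB n x) (incQ π D.L eE fA fB n y) 3| ≤
          natW D n u 3 * D.B.d n ^ c) (hL : LineRel D π eE fA fB) :
    ∃ D' : Dat4, D'.L = D.L ∧ (∀ n, D'.I n ⊆ D.I n) ∧ RawS p D' π eE fA fB ∧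
      InvS D' π eE fA fB 3 ∧ LineInf D' π eE fA fB ∧ (Gap23 D → GapInf D') ∧
      (¬ Gap23 D → NoGap D') := by
  obtain ⟨θ, hθ, hL⟩ := hL
  obtain ⟨c, hc, h3⟩ := h3
  have hε : ∀ k : ℕ, (0 : ℝ) < 1 / ((k : ℝ) + 1) ^ 2 := fun k => by positivity
  choose u h hu hh hhe hul hS using fun k : ℕ => hL (1 / ((k : ℝ) + 1) ^ 2) (hε k)
  have hr : ∀ k : ℕ, ∃ r : ℚ, h k / (2 * ((k : ℝ) + 1)) < (r : ℝ) ∧ (r : ℝ) < h k / ((k : ℝ) + 1) :=
    fun k => exists_rat_btwn (by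
      have h1 := hh k
      rw [div_lt_div_iff₀ (by positivity) (by positivity)]
      nlinarith)
  choose r hr1 hr2 using hr
  have hr0 : ∀ k, 0 < r k := fun k => by
    have h1 := hh k
    have : (0 : ℝ) < (r k : ℝ) := lt_trans (by positivity) (hr1 k)
    exact_mod_cast this
  have hr0' : ∀ k, (0 : ℝ) < (r k : ℝ) := fun k => by exact_mod_cast hr0 k
  have hrk : ∀ k : ℕ, (r k : ℝ) * ((k : ℝ) + 1) ≤ h k := fun k => by
    have := (hr2 k).le
    rwa [le_div_iff₀ (by positivity)] at this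
  have hrh : ∀ k : ℕ, (r k : ℝ) ≤ h k := fun k => by
    have h1 := hrk k
    have h2 := hr0' k
    have h4 : (0 : ℝ) ≤ (k : ℝ) := Nat.cast_nonneg k
    nlinarith
  have hr1' : ∀ k : ℕ, (r k : ℝ) ≤ 1 := fun k => by
    have h1 := hrh k
    have h2 := hul k
    have h3 : (0 : ℝ) ≤ (u k : ℝ) := by exact_mod_cast hu k
    linarith
  -- gap at the levels
  obtain ⟨γ, hγ, hgap⟩ : ∃ γ : ℝ, 0 < γ ∧ ∀ k, ∀ᶠ n in (U : Filter ℕ),
      (Gap23 D → D.w 0 n (u k) ≤ D.B.d n ^ γ * D.w 2 n (u k)) ∧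
      (¬ Gap23 D → D.B.d n ^ ((r k : ℝ) * (1 / ((k : ℝ) + 1))) * D.w 2 n (u k) ≤
        D.w 0 n (u k)) := by
    have hu1 : ∀ k, u k ≤ 1 := fun k => by
      have h1 := hul k
      have h2 := hh k
      have : ((u k : ℚ) : ℝ) ≤ 1 := by linarith
      exact_mod_cast this
    by_cases hG : Gap23 D
    · obtain ⟨γ, hγ, hg⟩ := hG
      refine ⟨γ / 2, by positivity, fun k => ?_⟩
      filter_upwards [hg, ratio_lev hR.mka h02 (hu k) (hu1 k) (ε := γ / 2) (by positivity)]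
        with n a1 a2
      obtain ⟨b1, b2, b3, b4⟩ := a2
      refine ⟨fun _ => ?_, fun hn => absurd ⟨γ, hγ, hg⟩ hn⟩
      rw [← div_le_iff₀ (b1 2)]
      refine b3.trans ?_
      rw [← div_le_iff₀ (b2 2)] at a1
      calc D.w 0 n 0 / D.w 2 n 0 * D.B.d n ^ (-(γ / 2)) ≤ D.B.d n ^ γ * D.B.d n ^ (-(γ / 2)) :=
            mul_le_mul_of_nonneg_right a1 (dpow_pos D.B n _).le
        _ = D.B.d n ^ (γ / 2) := by rw [← Real.rpow_add (D.B.pos n)]; congr 1; ring
    · refine ⟨1, one_pos, fun k => ?_⟩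
      have hk : 0 < (r k : ℝ) * (1 / ((k : ℝ) + 1)) / 2 := by
        have := hr0' k
        positivity
      filter_upwards [noGap_of hG _ hk, ratio_lev hR.mka h02 (hu k) (hu1 k) hk] with n a1 a2
      obtain ⟨b1, b2, b3, b4⟩ := a2
      refine ⟨fun hn => absurd hn hG, fun _ => ?_⟩
      rw [← le_div_iff₀ (b1 2)]
      refine le_trans ?_ b4
      rw [← le_div_iff₀ (b2 2)] at a1
      calc D.B.d n ^ ((r k : ℝ) * (1 / ((k : ℝ) + 1)))
          = D.B.d n ^ ((r k : ℝ) * (1 / ((k : ℝ) + 1)) / 2) *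
            D.B.d n ^ ((r k : ℝ) * (1 / ((k : ℝ) + 1)) / 2) := by
            rw [← Real.rpow_add (D.B.pos n)]; congr 1; ring
        _ ≤ _ := mul_le_mul_of_nonneg_right a1 (dpow_pos D.B n _).le
  obtain ⟨s, B', I', A', s1, s2, s3, s4, s5⟩ := hR.zoom (u := u) (r := r) hu hr0
    (fun k => by
      have h1 := hul k
      have h2 := hrh k
      have : ((u k + r k : ℚ) : ℝ) ≤ 1 := by push_cast; linarith
      exact_mod_cast this)
    (e := fun k => h k * (1 / ((k : ℝ) + 1) ^ 2) / (r k : ℝ)) (by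
      refine squeeze_zero (g := fun k : ℕ => 2 * (1 / ((k : ℝ) + 1))) (fun k => ?_) (fun k => ?_) ?_
      · have h1 := hh k
        have h2 := hr0' k
        positivity
      · have h1 := hr1 k
        have h2 := hr0' k
        have h4 := hh k
        rw [div_lt_iff₀ (by positivity)] at h1
        rw [div_le_iff₀ h2]
        have e1 : 2 * (1 / ((k : ℝ) + 1)) * (r k : ℝ) =
            ((r k : ℝ) * (2 * ((k : ℝ) + 1))) * (1 / ((k : ℝ) + 1) ^ 2) := by
          field_simp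
        rw [e1]
        exact mul_le_mul_of_nonneg_right h1.le (by positivity)
      · have := (tendsto_one_div_add_atTop_nhds_zero_nat (𝕜 := ℝ)).const_mul 2
        simpa using this)
    (P := fun k n S =>
      (∀ x ∈ S, ∃ a b : ℝ, a ^ 2 + b ^ 2 = 1 ∧ ∀ y ∈ S, y.1 = x.1 →
        zc (D.lev n (u k)) y.2 = zc (D.lev n (u k)) x.2 →
          |a * (coQ (incQ π D.L eE fA fB n x) (incQ π D.L eE fA fB n y) 2 / natW D n (u k) 2) +
            b * (coQ (incQ π D.L eE fA fB n x) (incQ π D.L eE fA fB n y) 4 / natW D n (u k) 4)| ≤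
            D.B.d n ^ (h k * θ)) ∧
      (∀ x ∈ D.I n, ∀ y ∈ D.I n, y.1 = x.1 →
        |coQ (incQ π D.L eE fA fB n x) (incQ π D.L eE fA fB n y) 3| ≤
          natW D n (u k) 3 * D.B.d n ^ c) ∧
      (Gap23 D → D.w 0 n (u k) ≤ D.B.d n ^ γ * D.w 2 n (u k)) ∧
      (¬ Gap23 D → D.B.d n ^ ((r k : ℝ) * (1 / ((k : ℝ) + 1))) * D.w 2 n (u k) ≤
        D.w 0 n (u k)) ∧ ∀ j, 0 < D.w j n (u k))
    (fun k n S T hTS hP => by
      refine ⟨fun x hx => ?_, hP.2⟩
      obtain ⟨a, b, h1, h2⟩ := hP.1 x (hTS hx)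
      exact ⟨a, b, h1, fun y hy => h2 y (hTS hy)⟩)
    (by
      intro k
      have hu1 : u k ≤ 1 := by
        have h1 := hul k
        have h2 := hh k
        have : ((u k : ℚ) : ℝ) ≤ 1 := by linarith
        exact_mod_cast this
      filter_upwards [hS k, h3 (u k) (hu k) hu1, hgap k, wpos_all hR.mka (hu k) hu1]
        with n a1 a2 a3 a4
      obtain ⟨S, b1, b2, b3⟩ := a1
      refine ⟨S, b1, ?_, b3, a2, a3.1, a3.2, a4⟩
      have e1 : (r k : ℝ) * (h k * (1 / ((k : ℝ) + 1) ^ 2) / (r k : ℝ)) =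
          h k * (1 / ((k : ℝ) + 1) ^ 2) := by
        have := (hr0' k).ne'
        field_simp
      rw [e1]
      exact b2)
  have hM0 : ∀ n, (u (s n) + r (s n) * 0 : ℚ) = u (s n) := fun n => by ring
  have hrs : ∀ n, (0 : ℝ) < (r (s n) : ℝ) := fun n => hr0' _
  have hBe : ∀ n (a : ℝ), B'.d n ^ a = D.B.d n ^ ((r (s n) : ℝ) * a) := fun n a => by
    rw [s2, ← Real.rpow_mul (D.B.pos n).le]
  have hNat : ∀ n t, natW (zooR D B' I' A' fun n x => u (s n) + r (s n) * x) n 0 t =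
      natW D n (u (s n)) t := fun n t => by
    show natW D n (u (s n) + r (s n) * 0) t = _
    rw [hM0]
  have hlarge : ∀ C : ℝ, ∀ᶠ n in (U : Filter ℕ), C ≤ (s n : ℝ) := fun C =>
    (tendsto_natCast_atTop_atTop.comp s1).eventually_ge_atTop C
  have hrsm : ∀ δ : ℝ, 0 < δ → ∀ᶠ n in (U : Filter ℕ), (r (s n) : ℝ) ≤ δ := fun δ hδ => by
    have h1 : ∀ᶠ n in (U : Filter ℕ), 1 / ((s n : ℝ) + 1) < δ :=
      (tendsto_one_div_add_atTop_nhds_zero_nat.comp s1).eventually_lt_const hδ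
    filter_upwards [h1] with n hn
    have h2 := hrk (s n)
    have h3 : h (s n) ≤ 1 := by
      have h4 := hul (s n)
      have h5 : (0 : ℝ) ≤ (u (s n) : ℝ) := by exact_mod_cast hu (s n)
      linarith
    have h4 : (r (s n) : ℝ) ≤ 1 / ((s n : ℝ) + 1) := by
      rw [le_div_iff₀ (by positivity)]
      linarith
    linarith
  refine ⟨zooR D B' I' A' fun n x => u (s n) + r (s n) * x, rfl, s3, s4, ?_, ?_, ?_, ?_⟩
  · -- InvS 3
    intro M
    have h1 : ∀ᶠ n in (U : Filter ℕ), (r (s n) : ℝ) ≤ c / (|M| + 1) :=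
      hrsm _ (div_pos hc (by positivity))
    filter_upwards [s5, h1] with n a1 a2 x hx y hy hxy
    rw [hNat]
    show _ ≤ _ * B'.d n ^ M
    rw [hBe]
    refine (a1.2.1 x (s3 n hx) y (s3 n hy) hxy).trans ?_
    have hn0 : 0 ≤ natW D n (u (s n)) 3 := by
      have := a1.2.2.2.2
      exact (div_pos (this 0) (this 2)).le
    refine mul_le_mul_of_nonneg_left (dpow_le D.B n ?_) hn0
    rw [le_div_iff₀ (by positivity)] at a2
    have h5 := le_abs_self M
    have h6 := hrs n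
    nlinarith
  · -- LineInf
    intro M
    filter_upwards [s5, hlarge (|M| / θ), s4.mka.cell0] with n a1 a2 a3 x hx
    obtain ⟨a, b, h1, h2⟩ := a1.1 x hx
    refine ⟨a, b, h1, fun y hy hxy => ?_⟩
    have hz : zc (D.lev n (u (s n))) y.2 = zc (D.lev n (u (s n))) x.2 := by
      have h5 : zc (D.lev n (u (s n) + r (s n) * 0)) y.2 =
          zc (D.lev n (u (s n) + r (s n) * 0)) x.2 := a3 y hy x hx
      rwa [hM0] at h5
    have h5 := h2 y hy hxy hz
    rw [hNat, hNat]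
    refine h5.trans ?_
    show _ ≤ B'.d n ^ M
    rw [hBe]
    refine dpow_le D.B n ?_
    have h6 := hrk (s n)
    have h7 := hrs n
    rw [div_le_iff₀ hθ] at a2
    have h8 := le_abs_self M
    have h9 : (r (s n) : ℝ) * M ≤ (r (s n) : ℝ) * ((s n : ℝ) * θ) :=
      mul_le_mul_of_nonneg_left (h8.trans a2) h7.le
    have h10 : (r (s n) : ℝ) * ((s n : ℝ) + 1) * θ ≤ h (s n) * θ :=
      mul_le_mul_of_nonneg_right h6 hθ.le
    nlinarith [mul_pos h7 hθ]
  · -- gap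
    intro hG M
    have h1 : ∀ᶠ n in (U : Filter ℕ), (r (s n) : ℝ) ≤ γ / (|M| + 1) :=
      hrsm _ (div_pos hγ (by positivity))
    filter_upwards [s5, h1] with n a1 a2
    show D.w 0 n (u (s n) + r (s n) * 0) ≤ B'.d n ^ M * D.w 2 n (u (s n) + r (s n) * 0)
    rw [hM0, hBe]
    refine (a1.2.2.1 hG).trans ?_
    refine mul_le_mul_of_nonneg_right (dpow_le D.B n ?_) (a1.2.2.2.2 2).le
    rw [le_div_iff₀ (by positivity)] at a2
    have h5 := le_abs_self M
    have h6 := hrs n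
    nlinarith
  · -- no gap
    intro hG δ hδ
    have h1 : ∀ᶠ n in (U : Filter ℕ), 1 / ((s n : ℝ) + 1) < δ :=
      (tendsto_one_div_add_atTop_nhds_zero_nat.comp s1).eventually_lt_const hδ
    filter_upwards [s5, h1] with n a1 a2
    show B'.d n ^ δ * D.w 2 n (u (s n) + r (s n) * 0) ≤ D.w 0 n (u (s n) + r (s n) * 0)
    rw [hM0, hBe]
    refine le_trans ?_ (a1.2.2.2.1 hG)
    refine mul_le_mul_of_nonneg_right (dpow_le D.B n ?_) (a1.2.2.2.2 2).le
    exact mul_le_mul_of_nonneg_left a2.le (hrs n).le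

end Crest.Agent.R136.Re436
end

-- ▼ part R136/Exch1_201
section

/-!
# R136: exchange of the names of the narrow width and of the thickness (helper201)

`θ 0 = θ 2` and no power gap between the thickness and the narrow width: the frame of the lines in
the plane of the two last axes is free.  `π' = π * swap 0 2` (new narrow coordinate = old normal
coordinate and conversely), `V2` unchanged, `V3` = any plane through `V2`:
`e' = fa + e fb`, `fb' = φ`, `fa' = e - φ e'`.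

`coQ_exI` : relative coordinates after the exchange; `couQ_ex` : the same in the enlarged units,
`r` = thickness unit over narrow unit; `exb` : sizes.
-/

set_option autoImplicit false
set_option linter.unusedVariables false

open Finset Filter Topology

namespace Crest.Agent.R136.Exch201

open Crest.Agent.R136.NetQ186
open Crest.Agent.R136.GeoQ186
open Crest.Agent.R136.Sh605
open Crest.Agent.R138.Ex926 (Base U)
open Crest.Agent.R138.Dp76 (dpow_pos dpow_add dpow_le dpow_le_one)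
open Crest.Agent.R136.Wq638

/-- an incidence of a straight line after the exchange; new plane `V3` given by `φ` -/
def exI (i : Fq4) (φ : ℝ) : Fq4 where
  A := i.A
  B := i.y0
  ca := i.ca
  cb := i.y1
  y0 := i.B
  y1 := i.cb
  y2 := 0
  z := i.z
  e := i.fa + i.e * i.fb
  fa := i.e - φ * (i.fa + i.e * i.fb)
  fb := φ

/-- relative coordinates after the exchange -/
theorem coQ_exI (i j : Fq4) (hi : i.y2 = 0) (hj : j.y2 = 0) (φ φ' : ℝ) :
    coQ (exI i φ) (exI j φ') 0 = coQ i j 0 ∧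
    coQ (exI i φ) (exI j φ') 1 = 0 ∧
    coQ (exI i φ) (exI j φ') 2 = coQ i j 4 + j.fb * coQ i j 2 ∧
    coQ (exI i φ) (exI j φ') 3 = φ' - φ ∧
    coQ (exI i φ) (exI j φ') 4 = coQ i j 2 - φ' * (coQ i j 4 + j.fb * coQ i j 2) ∧
    coQ (exI i φ) (exI j φ') 5 = coQ i j 5 ∧
    coQ (exI i φ) (exI j φ') 6 = coQ i j 7 + i.fb * coQ i j 6 ∧
    coQ (exI i φ) (exI j φ') 7 = coQ i j 6 - φ * (coQ i j 7 + i.fb * coQ i j 6) ∧
    coQ (exI i φ) (exI j φ') 8 = coQ i j 8 ∧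
    coQ (exI i φ) (exI j φ') 9 = coQ i j 10 + i.fb * coQ i j 9 ∧
    coQ (exI i φ) (exI j φ') 10 = coQ i j 9 - φ * (coQ i j 10 + i.fb * coQ i j 9) := by
  simp only [coQ, exI, Fq4.pa, Fq4.pb, Fq4.py, Fq4.vy, Matrix.cons_val, hi, hj]
  refine ⟨trivial, by ring, by ring, trivial, by ring, trivial, by ring, by ring, trivial,
    by ring, by ring⟩

/-- new slope of `V2` -/
def eX (eE fA fB : ℕ → ℕ × ℝ → ℝ) : ℕ → ℕ × ℝ → ℝ := fun n x => fA n x + eE n x * fB n x

/-- new slope of `V3` in the wide direction -/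
def aX (eE fA fB φ : ℕ → ℕ × ℝ → ℝ) : ℕ → ℕ × ℝ → ℝ :=
  fun n x => eE n x - φ n x * (fA n x + eE n x * fB n x)

/-- thickness unit over narrow unit -/
noncomputable def rt (B : Base) (lev : ℕ → ℚ → ℕ) (w : Fin 3 → ℕ → ℚ → ℝ) (w0 : ℝ) (n : ℕ) : ℝ :=
  uY B lev w w0 n / uB B lev w w0 n

section

variable {B : Base} {lev : ℕ → ℚ → ℕ} {w : Fin 3 → ℕ → ℚ → ℝ} {w0 : ℝ} {π : Equiv.Perm (Fin 3)}
  {L : ℕ → ℕ → Ln4} {eE fA fB φ : ℕ → ℕ × ℝ → ℝ} {n : ℕ}

theorem incQ_ex (x : ℕ × ℝ) :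
    incQ (π * Equiv.swap 0 2) L (eX eE fA fB) (aX eE fA fB φ) φ n x =
      exI (incQ π L eE fA fB n x) (φ n x) := by
  have h0 : (Equiv.swap (0 : Fin 3) 2) 0 = 2 := by decide
  have h1 : (Equiv.swap (0 : Fin 3) 2) 1 = 1 := by decide
  have h2 : (Equiv.swap (0 : Fin 3) 2) 2 = 0 := by decide
  simp only [incQ, mkT, exI, cLn, Equiv.Perm.coe_mul, Function.comp_apply, h0, h1, h2, eX, aX]



end


end Crest.Agent.R136.Exch201
end

-- ▼ part R136/Exch2_201
section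

/-!
# R136: exchange of the narrow width and the thickness in `ThickPre` (helper201)

* `rt_bd` : without power gap (`¬ Gap23`) the two units agree up to `d^(-o(1))`;
* `exch_pre` : `ThickPre` for the exchanged names, any new plane `V3` through `V2` (`fB' = φ`);
* `exch_e3` : pattern `pE3` (31 without 21, thickness parallel to the narrow width, no gap) becomes
  `V' = T' = {2}`, i.e. `pE`;
* `e3_of_e` : `Dead η pE → DeadN η pE3`.
-/

set_option autoImplicit false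
set_option linter.unusedVariables false

open Finset Filter Topology

namespace Crest.Agent.R136.Exch201

open Crest.Agent.R138.Ex926 (Base U QProf)
open Crest.Agent.R138.Dp76 (dpow_pos dpow_add dpow_le dpow_le_one)
open Crest.Agent.R138.Mk163 (zc zl rho alive)
open Crest.Agent.R138.MkRef627 (lc kc)
open Crest.Agent.R136.MkA627
open Crest.Agent.R136.Net191
open Crest.Agent.R136.NetQ186
open Crest.Agent.R136.GeoQ186
open Crest.Agent.R136.Sh605
open Crest.Agent.R136.Lq196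
open Crest.Agent.R136.Wq638
open Crest.Agent.R136.Top484
open Crest.Agent.R136.NatT550
open Crest.Agent.R136.TopB550

variable {η : ℝ} {p : Par4} {D : Dat4} {π : Equiv.Perm (Fin 3)}
  {eE fA fB φ : ℕ → ℕ × ℝ → ℝ} {V T V' T' : Fin 11 → Prop} {w0 R T0 : ℝ}
  {PD : Set (Fin 11 → ℝ)}


/-- constants are absorbed by powers of `d` -/
theorem ev3 (B : Base) {ε : ℝ} (hε : 0 < ε) : ∀ᶠ n in (U : Filter ℕ), 3 ≤ B.d n ^ (-ε) := by
  filter_upwards [PqG464.ev_const B (show (0 : ℝ) < 3 by norm_num) hε] with n hn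
  have hd := B.pos n
  have h1 : 0 < B.d n ^ ε := Real.rpow_pos_of_pos hd ε
  rw [Real.rpow_neg hd.le, ← one_div, le_div_iff₀ h1]
  exact hn



end Crest.Agent.R136.Exch201
end

-- ▼ part R136/Rfl1_201
section

/-!
# R136: new plane `V3` through `V2`, same names (helper201)

`θ 0 = θ 2`.  New flags `fa - β e`, `fb + β`, `β` any function with `|β| ≤ d^(-ε) w₀/w₂` (all `ε`).
`couQ_rf` : the chart; `reflag_pre` : `ThickPre` for the new flags, `own_near` and `tw` of the three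
slots being the input.
-/

set_option autoImplicit false
set_option linter.unusedVariables false

open Finset Filter Topology

namespace Crest.Agent.R136.Exch201

open Crest.Agent.R138.Ex926 (Base U QProf)
open Crest.Agent.R138.Dp76 (dpow_pos dpow_add dpow_le dpow_le_one)
open Crest.Agent.R138.Mk163 (zc zl rho alive)
open Crest.Agent.R138.MkRef627 (lc kc)
open Crest.Agent.R136.MkA627
open Crest.Agent.R136.Net191
open Crest.Agent.R136.NetQ186
open Crest.Agent.R136.GeoQ186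
open Crest.Agent.R136.Sh605
open Crest.Agent.R136.Lq196
open Crest.Agent.R136.Wq638
open Crest.Agent.R136.Top484
open Crest.Agent.R136.NatT550
open Crest.Agent.R136.TopB550

/-- the same incidence with another plane `V3` through `V2` -/
def rfI (i : Fq4) (β : ℝ) : Fq4 where
  A := i.A
  B := i.B
  ca := i.ca
  cb := i.cb
  y0 := i.y0
  y1 := i.y1
  y2 := i.y2
  z := i.z
  e := i.e
  fa := i.fa - β * i.e
  fb := i.fb + β

theorem coQ_rfI (i j : Fq4) (β β' : ℝ) :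
    coQ (rfI i β) (rfI j β') 0 = coQ i j 0 ∧
    coQ (rfI i β) (rfI j β') 1 = coQ i j 1 ∧
    coQ (rfI i β) (rfI j β') 2 = coQ i j 2 ∧
    coQ (rfI i β) (rfI j β') 3 = coQ i j 3 + (β' - β) ∧
    coQ (rfI i β) (rfI j β') 4 = coQ i j 4 - β' * coQ i j 2 ∧
    coQ (rfI i β) (rfI j β') 5 = coQ i j 5 ∧
    coQ (rfI i β) (rfI j β') 6 = coQ i j 6 ∧
    coQ (rfI i β) (rfI j β') 7 = coQ i j 7 - β * coQ i j 6 ∧
    coQ (rfI i β) (rfI j β') 8 = coQ i j 8 ∧
    coQ (rfI i β) (rfI j β') 9 = coQ i j 9 ∧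
    coQ (rfI i β) (rfI j β') 10 = coQ i j 10 - β * coQ i j 9 := by
  simp only [coQ, rfI, Fq4.pa, Fq4.pb, Fq4.py, Fq4.vy, Matrix.cons_val]
  refine ⟨trivial, trivial, trivial, by ring, by ring, trivial, trivial, by ring, trivial,
    trivial, by ring⟩



section

variable {B : Base} {lev : ℕ → ℚ → ℕ} {w : Fin 3 → ℕ → ℚ → ℝ} {w0 : ℝ} {π : Equiv.Perm (Fin 3)}
  {L : ℕ → ℕ → Ln4} {eE fA fB β : ℕ → ℕ × ℝ → ℝ} {n : ℕ}


end


variable {η : ℝ} {p : Par4} {D : Dat4} {π : Equiv.Perm (Fin 3)}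
  {eE fA fB β : ℕ → ℕ × ℝ → ℝ} {V T V' T' : Fin 11 → Prop} {w0 R T0 : ℝ}
  {PD : Set (Fin 11 → ℝ)}



end Crest.Agent.R136.Exch201
end

-- ▼ part R136/ReP3_201

/-!
# R136 (S0187), case E: pieces (P3), (P3') of 436's back end (helper201)

`rawFlag : RawFlag`, `rawExch : RawExch`.
-/

set_option autoImplicit false
set_option linter.unusedVariables false

open Finset Filter Topology

namespace Crest.Agent.R136.Exch201

open Crest.Agent.R138.Ex926 (Base U QProf)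
open Crest.Agent.R138.Dp76 (dpow_pos dpow_add dpow_le dpow_le_one)
open Crest.Agent.R138.Mk163 (zc zl rho alive)
open Crest.Agent.R138.MkRef627 (lc kc)
open Crest.Agent.R136.MkA627
open Crest.Agent.R136.Net191
open Crest.Agent.R136.NetQ186
open Crest.Agent.R136.GeoQ186
open Crest.Agent.R136.Sh605
open Crest.Agent.R136.Wq638
open Crest.Agent.R136.Top484
open Crest.Agent.R136.NatT550
open Crest.Agent.R136.Re436

variable {p : Par4} {D : Dat4}

/-- thickness over narrow width has the same exponent at all levels if `θ 0 = θ 2` -/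
theorem ratio_lv {c Λ : ℝ → ℝ}
    (h : MkA D.B D.I (D.G p) D.lev D.A c Λ (fun j v => p.θ j * (1 - v)) D.f D.b D.vm D.w)
    (hθ : p.θ 0 = p.θ 2) {u v : ℚ} (hu0 : 0 ≤ u) (hu1 : u ≤ 1) (hv0 : 0 ≤ v) (hv1 : v ≤ 1)
    {ε : ℝ} (hε : 0 < ε) : ∀ᶠ n in (U : Filter ℕ),
      D.w 0 n u / D.w 2 n u ≤ D.w 0 n v / D.w 2 n v * D.B.d n ^ (-ε) := by
  have hw : ∀ x : ℚ, 0 ≤ x → x ≤ 1 → ∀ᶠ n in (U : Filter ℕ), ∀ k, 0 < D.w k n x := fun x a b =>
    Filter.eventually_all.2 fun k => h.wpos k x a b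
  have ht := (((h.tau 2 u hu0 hu1).sub (h.tau 0 u hu0 hu1)).sub
    ((h.tau 2 v hv0 hv1).sub (h.tau 0 v hv0 hv1))).eventually_lt_const
      (show _ < ε by
        have e : p.θ 2 * (1 - (u : ℝ)) - p.θ 0 * (1 - (u : ℝ)) -
          (p.θ 2 * (1 - (v : ℝ)) - p.θ 0 * (1 - (v : ℝ))) = 0 := by rw [hθ]; ring
        rw [e]; exact hε)
  filter_upwards [ht, hw u hu0 hu1, hw v hv0 hv1, hw 1 zero_le_one le_rfl] with n a1 a2 a3 a4
  have hL := D.B.L_pos n
  have u0 := a2 0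
  have u2 := a2 2
  have v0 := a3 0
  have v2 := a3 2
  have o0 := a4 0
  have o2 := a4 2
  have ru := rho_pos (D.lev n u)
  have rv := rho_pos (D.lev n v)
  have r1 := rho_pos (D.lev n 1)
  rw [← sub_div, ← sub_div, ← sub_div, div_lt_iff₀ hL] at a1
  have l : ∀ {a b c d : ℝ}, 0 < a → 0 < b → 0 < c → 0 < d →
      Real.log (a / b / (c / d)) = Real.log a - Real.log b - (Real.log c - Real.log d) :=
    fun ha hb hc hd => by
      rw [Real.log_div (div_pos ha hb).ne' (div_pos hc hd).ne', Real.log_div ha.ne' hb.ne',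
        Real.log_div hc.ne' hd.ne']
  rw [l ru u2 r1 o2, l ru u0 r1 o0, l rv v2 r1 o2, l rv v0 r1 o0] at a1
  rw [← Real.log_le_log_iff (by positivity) (mul_pos (div_pos v0 v2) (dpow_pos D.B n _)),
    Real.log_mul (div_pos v0 v2).ne' (dpow_pos D.B n _).ne', Real.log_rpow (D.B.pos n),
    Real.log_div u0.ne' u2.ne', Real.log_div v0.ne' v2.ne']
  unfold Base.L at a1
  linarith

/-- no gap: the two sizes agree at every level -/
theorem nogap_lv {c Λ : ℝ → ℝ}
    (h : MkA D.B D.I (D.G p) D.lev D.A c Λ (fun j v => p.θ j * (1 - v)) D.f D.b D.vm D.w)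
    (hθ : p.θ 0 = p.θ 2) (hg : ¬ Gap23 D) {u : ℚ} (hu0 : 0 ≤ u) (hu1 : u ≤ 1)
    {ε : ℝ} (hε : 0 < ε) : ∀ᶠ n in (U : Filter ℕ),
      D.w 2 n u ≤ D.w 0 n u * D.B.d n ^ (-ε) := by
  have hn : ∀ᶠ n in (U : Filter ℕ), ¬ (D.w 0 n 0 ≤ D.B.d n ^ (ε / 2) * D.w 2 n 0) := by
    rw [Ultrafilter.eventually_not]
    intro hc
    exact hg ⟨ε / 2, by linarith, hc⟩
  have hw : ∀ x : ℚ, 0 ≤ x → x ≤ 1 → ∀ᶠ n in (U : Filter ℕ), ∀ k, 0 < D.w k n x := fun x a b =>
    Filter.eventually_all.2 fun k => h.wpos k x a b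
  filter_upwards [hn, ratio_lv h hθ le_rfl zero_le_one hu0 hu1 (ε := ε / 2) (by linarith),
    hw u hu0 hu1, hw 0 le_rfl zero_le_one] with n a1 a2 a3 a4
  push Not at a1
  have u0 := a3 0
  have u2 := a3 2
  have v0 := a4 0
  have v2 := a4 2
  have e1 : D.B.d n ^ (ε / 2) ≤ D.w 0 n 0 / D.w 2 n 0 := by
    rw [le_div_iff₀ v2]; exact a1.le
  have e2 := e1.trans a2
  rw [div_mul_eq_mul_div, le_div_iff₀ u2] at e2
  have e3 : D.B.d n ^ (-(ε / 2)) * (D.B.d n ^ (ε / 2) * D.w 2 n u) ≤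
      D.B.d n ^ (-(ε / 2)) * (D.w 0 n u * D.B.d n ^ (-(ε / 2))) :=
    mul_le_mul_of_nonneg_left e2 (dpow_pos D.B n _).le
  have e4 : D.B.d n ^ (-(ε / 2)) * (D.B.d n ^ (ε / 2) * D.w 2 n u) = D.w 2 n u := by
    rw [← mul_assoc, ← dpow_add, neg_add_cancel, Real.rpow_zero, one_mul]
  have e5 : D.B.d n ^ (-(ε / 2)) * (D.w 0 n u * D.B.d n ^ (-(ε / 2))) =
      D.w 0 n u * D.B.d n ^ (-ε) := by
    rw [mul_comm, mul_assoc, ← dpow_add]; congr 2; ring
  rw [e4, e5] at e3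
  exact e3

/-- sizes of the exchanged pair, raw form: `a` = thickness, `b` = narrow, `s` = common unit,
`E = d^(-δ)` -/
theorem exr {a b s E f g X Y : ℝ} (ha : 0 ≤ a) (hab : a ≤ b) (hba : b ≤ a * E) (hs : 0 ≤ s)
    (hE : 3 ≤ E) (hf : |f| ≤ 1) (hg : |g| ≤ 1) (hX : |X| ≤ a * s * E) (hY : |Y| ≤ b * s * E) :
    |X + f * Y| ≤ b * s * (E * E * E) ∧ |Y - g * (X + f * Y)| ≤ a * s * (E * E * E) := by
  have hb : 0 ≤ b := ha.trans hab
  have bs : 0 ≤ b * s := mul_nonneg hb hs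
  have hE0 : 0 ≤ E := by linarith
  have e2 : |f| * |Y| ≤ b * s * E :=
    (mul_le_mul hf hY (abs_nonneg _) zero_le_one).trans (by rw [one_mul])
  have e1 : |X| ≤ b * s * E :=
    hX.trans (mul_le_mul_of_nonneg_right (mul_le_mul_of_nonneg_right hab hs) hE0)
  have e3 : |X + f * Y| ≤ 2 * (b * s * E) := by
    refine (abs_add_le _ _).trans ?_
    rw [abs_mul]
    linarith
  have p0 : 0 ≤ b * s * E := mul_nonneg bs hE0
  have e5 : |Y - g * (X + f * Y)| ≤ 3 * (b * s * E) := by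
    refine (abs_sub _ _).trans ?_
    rw [abs_mul]
    have := mul_le_mul hg e3 (abs_nonneg _) zero_le_one
    linarith
  have e6 : 3 * (b * s * E) ≤ b * s * (E * E) := by
    have := mul_le_mul_of_nonneg_right hE p0
    calc 3 * (b * s * E) ≤ E * (b * s * E) := this
      _ = _ := by ring
  constructor
  · have : b * s * (E * E) ≤ b * s * (E * E * E) := by
      refine mul_le_mul_of_nonneg_left ?_ bs
      exact le_mul_of_one_le_right (mul_nonneg hE0 hE0) (by linarith)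
    linarith
  · refine (e5.trans e6).trans ?_
    calc b * s * (E * E) ≤ a * E * s * (E * E) :=
          mul_le_mul_of_nonneg_right (mul_le_mul_of_nonneg_right hba hs) (by positivity)
      _ = _ := by ring

/-- natural sizes -/
noncomputable def nW (ρ a b c : ℝ) : Fin 11 → ℝ :=
  ![ρ, 0, b / c, a / b, a / c, c / ρ, b / ρ, a / ρ, c, b, a]

theorem natW_eq (D : Dat4) (n : ℕ) (u : ℚ) :
    natW D n u = nW (rho (D.lev n u)) (D.w 0 n u) (D.w 2 n u) (D.w 1 n u) := rfl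

theorem exch_num {C C' : Fin 11 → ℝ} {ρ a b c E f1 f2 g1 g2 : ℝ} (hr : 0 < ρ) (w0 : 0 < a)
    (w1 : 0 < c) (w2 : 0 < b) (o02 : a ≤ b) (hba : b ≤ a * E) (hE : 3 ≤ E)
    (fx : |f1| ≤ 1) (fy : |f2| ≤ 1) (gx : |g1| ≤ 1) (gy : |g2| ≤ 1)
    (hC : ∀ k, |C k| ≤ nW ρ a b c k * E)
    (k0 : C' 0 = C 0) (k1 : C' 1 = 0) (k2 : C' 2 = C 4 + f2 * C 2) (k3 : C' 3 = g2 - g1)
    (k4 : C' 4 = C 2 - g2 * (C 4 + f2 * C 2)) (k5 : C' 5 = C 5) (k6 : C' 6 = C 7 + f1 * C 6)
    (k7 : C' 7 = C 6 - g1 * (C 7 + f1 * C 6)) (k8 : C' 8 = C 8) (k9 : C' 9 = C 10 + f1 * C 9)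
    (k10 : C' 10 = C 9 - g1 * (C 10 + f1 * C 9)) (k : Fin 11) :
    |C' k| ≤ nW ρ a b c k * (E * E * E) := by
  have c0 : |C 0| ≤ ρ * E := hC 0
  have c2 : |C 2| ≤ b / c * E := hC 2
  have c4 : |C 4| ≤ a / c * E := hC 4
  have c5 : |C 5| ≤ c / ρ * E := hC 5
  have c6 : |C 6| ≤ b / ρ * E := hC 6
  have c7 : |C 7| ≤ a / ρ * E := hC 7
  have c8 : |C 8| ≤ c * E := hC 8
  have c9 : |C 9| ≤ b * E := hC 9
  have c10 : |C 10| ≤ a * E := hC 10
  have hE1 : 1 ≤ E := by linarith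
  have hE0 : 0 ≤ E := by linarith
  have hEE : E ≤ E * E := le_mul_of_one_le_right hE0 hE1
  have hE3 : E ≤ E * E * E := hEE.trans (le_mul_of_one_le_right (mul_nonneg hE0 hE0) hE1)
  have mono : ∀ {x W : ℝ}, 0 ≤ W → |x| ≤ W * E → |x| ≤ W * (E * E * E) := fun hW hx =>
    hx.trans (mul_le_mul_of_nonneg_left hE3 hW)
  obtain ⟨q2, q4⟩ := exr (s := 1 / c) (f := f2) (g := g2) (X := C 4) (Y := C 2) w0.le o02
    hba (one_div_pos.2 w1).le hE fy gy (by rw [mul_one_div]; exact c4) (by rw [mul_one_div]; exact c2)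
  obtain ⟨q6, q7⟩ := exr (s := 1 / ρ) (f := f1) (g := g1) (X := C 7) (Y := C 6) w0.le o02
    hba (one_div_pos.2 hr).le hE fx gx (by rw [mul_one_div]; exact c7) (by rw [mul_one_div]; exact c6)
  obtain ⟨q9, q10⟩ := exr (s := 1) (f := f1) (g := g1) (X := C 10) (Y := C 9) w0.le o02
    hba zero_le_one hE fx gx (by rw [mul_one]; exact c10) (by rw [mul_one]; exact c9)
  rw [← k2, mul_one_div] at q2
  rw [← k4, mul_one_div] at q4
  rw [← k6, mul_one_div] at q6
  rw [← k7, mul_one_div] at q7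
  rw [← k9, mul_one] at q9
  rw [← k10, mul_one] at q10
  rw [← k0] at c0
  rw [← k5] at c5
  rw [← k8] at c8
  have t3 : |C' 3| ≤ a / b * (E * E * E) := by
    rw [k3]
    have e1 : |g2 - g1| ≤ 3 := (abs_sub _ _).trans (by linarith)
    have e2 : 1 ≤ a / b * E := by
      rw [div_mul_eq_mul_div, le_div_iff₀ w2, one_mul]
      exact hba
    calc |g2 - g1| ≤ 3 := e1
      _ ≤ 1 * (E * E) := by rw [one_mul]; exact hE.trans hEE
      _ ≤ a / b * E * (E * E) := mul_le_mul_of_nonneg_right e2 (mul_nonneg hE0 hE0)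
      _ = _ := by ring
  have t0 := mono hr.le c0
  have t1 : |C' 1| ≤ 0 * (E * E * E) := by rw [k1, abs_zero, zero_mul]
  have t5 := mono (div_pos w1 hr).le c5
  have t8 := mono w1.le c8
  fin_cases k
  · exact t0
  · exact t1
  · exact q2
  · exact t3
  · exact q4
  · exact t5
  · exact q6
  · exact q7
  · exact t8
  · exact q9
  · exact q10

theorem flag_num {C C' : Fin 11 → ℝ} {ρ a b c E g1 g2 : ℝ} (hr : 0 < ρ) (w0 : 0 < a)
    (w1 : 0 < c) (w2 : 0 < b) (hE : 3 ≤ E)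
    (gx : |g1| ≤ a / b * (E * E)) (gy : |g2| ≤ a / b * (E * E))
    (hC : ∀ k, |C k| ≤ nW ρ a b c k * E)
    (k0 : C' 0 = C 0) (k1 : C' 1 = C 1) (k2 : C' 2 = C 2) (k3 : C' 3 = C 3 + (g2 - g1))
    (k4 : C' 4 = C 4 - g2 * C 2) (k5 : C' 5 = C 5) (k6 : C' 6 = C 6)
    (k7 : C' 7 = C 7 - g1 * C 6) (k8 : C' 8 = C 8) (k9 : C' 9 = C 9)
    (k10 : C' 10 = C 10 - g1 * C 9) (k : Fin 11) :
    |C' k| ≤ nW ρ a b c k * (E * E * E * E) := by
  have c0 : |C 0| ≤ ρ * E := hC 0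
  have c1 : |C 1| ≤ 0 * E := hC 1
  have c2 : |C 2| ≤ b / c * E := hC 2
  have c3 : |C 3| ≤ a / b * E := hC 3
  have c4 : |C 4| ≤ a / c * E := hC 4
  have c5 : |C 5| ≤ c / ρ * E := hC 5
  have c6 : |C 6| ≤ b / ρ * E := hC 6
  have c7 : |C 7| ≤ a / ρ * E := hC 7
  have c8 : |C 8| ≤ c * E := hC 8
  have c9 : |C 9| ≤ b * E := hC 9
  have c10 : |C 10| ≤ a * E := hC 10
  have hE1 : 1 ≤ E := by linarith
  have hE0 : 0 < E := by linarith
  have hEE : E ≤ E * E := le_mul_of_one_le_right hE0.le hE1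
  have hE3 : E ≤ E * E * E := hEE.trans (le_mul_of_one_le_right (mul_nonneg hE0.le hE0.le) hE1)
  have hE2 : E ≤ E * E * E * E :=
    hE3.trans (le_mul_of_one_le_right (mul_nonneg (mul_nonneg hE0.le hE0.le) hE0.le) hE1)
  have mono : ∀ {x W : ℝ}, 0 ≤ W → |x| ≤ W * E → |x| ≤ W * (E * E * E * E) := fun hW hx =>
    hx.trans (mul_le_mul_of_nonneg_left hE2 hW)
  have prod : ∀ {X g Y s : ℝ}, 0 ≤ s → |g| ≤ a / b * (E * E) →
      |Y| ≤ b * s * E → |X| ≤ a * s * E → |X - g * Y| ≤ a * s * (E * E * E * E) := by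
    intro X g Y s hs hg hY hX
    have e1 : |g| * |Y| ≤ a * s * (E * E * E) := by
      calc |g| * |Y| ≤ a / b * (E * E) * (b * s * E) :=
            mul_le_mul hg hY (abs_nonneg _) (by positivity)
        _ = _ := by field_simp
    refine (abs_sub _ _).trans ?_
    rw [abs_mul]
    have e2 : 0 ≤ a * s := mul_nonneg w0.le hs
    have e4 : a * s * E ≤ a * s * (E * E * E) := mul_le_mul_of_nonneg_left hE3 e2
    have e5 : a * s * (E * E * E) * 2 ≤ a * s * (E * E * E) * E :=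
      mul_le_mul_of_nonneg_left (by linarith) (by positivity)
    calc |X| + |g| * |Y| ≤ a * s * (E * E * E) * 2 := by linarith
      _ ≤ _ := e5
      _ = _ := by ring
  have t3 : |C' 3| ≤ a / b * (E * E * E * E) := by
    rw [k3]
    have hq : 0 < a / b := div_pos w0 w2
    refine (abs_add_le _ _).trans ?_
    have e1 : |g2 - g1| ≤ 2 * (a / b * (E * E)) := (abs_sub _ _).trans (by linarith)
    have e2 : a / b * E ≤ a / b * (E * E) := mul_le_mul_of_nonneg_left hEE hq.le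
    have e3 : a / b * (E * E) * 3 ≤ a / b * (E * E) * (E * E) :=
      mul_le_mul_of_nonneg_left (hE.trans hEE) (mul_nonneg hq.le (mul_nonneg hE0.le hE0.le))
    calc |C 3| + |g2 - g1| ≤ a / b * (E * E) * 3 := by linarith
      _ ≤ _ := e3
      _ = _ := by ring
  have t4 : |C' 4| ≤ a / c * (E * E * E * E) := by
    rw [k4]
    have := prod (s := 1 / c) (X := C 4) (Y := C 2) (one_div_pos.2 w1).le gy
      (by rw [mul_one_div]; exact c2) (by rw [mul_one_div]; exact c4)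
    rw [mul_one_div] at this
    exact this
  have t7 : |C' 7| ≤ a / ρ * (E * E * E * E) := by
    rw [k7]
    have := prod (s := 1 / ρ) (X := C 7) (Y := C 6) (one_div_pos.2 hr).le gx
      (by rw [mul_one_div]; exact c6) (by rw [mul_one_div]; exact c7)
    rw [mul_one_div] at this
    exact this
  have t10 : |C' 10| ≤ a * (E * E * E * E) := by
    rw [k10]
    have := prod (s := 1) (X := C 10) (Y := C 9) zero_le_one gx
      (by rw [mul_one]; exact c9) (by rw [mul_one]; exact c10)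
    rw [mul_one] at this
    exact this
  rw [← k0] at c0
  rw [← k1] at c1
  rw [← k2] at c2
  rw [← k5] at c5
  rw [← k6] at c6
  rw [← k8] at c8
  rw [← k9] at c9
  have t0 := mono hr.le c0
  have t1 := mono le_rfl c1
  have t2 := mono (div_pos w2 w1).le c2
  have t5 := mono (div_pos w1 hr).le c5
  have t6 := mono (div_pos w2 hr).le c6
  have t8 := mono w1.le c8
  have t9 := mono w2.le c9
  fin_cases k
  · exact t0
  · exact t1
  · exact t2
  · exact t3
  · exact t4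
  · exact t5
  · exact t6
  · exact t7
  · exact t8
  · exact t9
  · exact t10

/-- **(P3)** -/
theorem rawExch : RawExch := by
  intro p D π eE fA fB φ h hθ hg hfl
  refine ⟨h.mka, fun u hu0 hu1 ε hε => ?_, h.wrs⟩
  have hw : ∀ᶠ n in (U : Filter ℕ), ∀ k, 0 < D.w k n u :=
    Filter.eventually_all.2 fun k => h.mka.wpos k u hu0 hu1
  filter_upwards [h.near u hu0 hu1 (ε / 3) (by linarith), hfl, hw, mark_ord h.mka u hu0 hu1,
    nogap_lv h.mka hθ hg hu0 hu1 (ε := ε / 3) (by linarith), ev3 D.B (ε := ε / 3) (by linarith)]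
    with n a1 a2 a3 a4 a5 a6 x hx y hy hxy k
  have hE3 : D.B.d n ^ (-ε) =
      D.B.d n ^ (-(ε / 3)) * D.B.d n ^ (-(ε / 3)) * D.B.d n ^ (-(ε / 3)) := by
    rw [← dpow_add, ← dpow_add]; congr 1; ring
  have key : ∀ z : ℕ × ℝ, incQ (π * Equiv.swap 0 2) D.L (fun n x => fA n x + eE n x * fB n x)
      (fun n x => eE n x - φ n x * (fA n x + eE n x * fB n x)) φ n z =
      exI (incQ π D.L eE fA fB n z) (φ n z) := fun z => incQ_ex z
  obtain ⟨k0, k1, k2, k3, k4, k5, k6, k7, k8, k9, k10⟩ :=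
    coQ_exI (incQ π D.L eE fA fB n x) (incQ π D.L eE fA fB n y) rfl rfl (φ n x) (φ n y)
  rw [hE3, key x, key y, natW_eq]
  exact exch_num (rho_pos _) (a3 0) (a3 1) (a3 2) a4.2.1 a5 a6 (a2 x hx).2.2.1 (a2 y hy).2.2.1
    (a2 x hx).2.2.2 (a2 y hy).2.2.2 (a1 x hx y hy hxy) k0 k1 k2 k3 k4 k5 k6 k7 k8 k9 k10 k

/-- **(P3')** -/
theorem rawFlag : RawFlag := by
  intro p D π eE fA fB β h hθ hβ
  refine ⟨h.mka, fun u hu0 hu1 ε hε => ?_, h.wrs⟩
  have hw : ∀ᶠ n in (U : Filter ℕ), ∀ k, 0 < D.w k n u :=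
    Filter.eventually_all.2 fun k => h.mka.wpos k u hu0 hu1
  filter_upwards [h.near u hu0 hu1 (ε / 4) (by linarith), hβ (ε / 4) (by linarith), hw,
    ratio_lv h.mka hθ le_rfl zero_le_one hu0 hu1 (ε := ε / 4) (by linarith),
    ev3 D.B (ε := ε / 4) (by linarith)]
    with n a1 a2 a3 a5 a6 x hx y hy hxy k
  have hE3 : D.B.d n ^ (-ε) = D.B.d n ^ (-(ε / 4)) * D.B.d n ^ (-(ε / 4)) *
      D.B.d n ^ (-(ε / 4)) * D.B.d n ^ (-(ε / 4)) := by
    rw [← dpow_add, ← dpow_add, ← dpow_add]; congr 1; ring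
  have key : ∀ z : ℕ × ℝ, incQ π D.L eE (fun n x => fA n x - β n x * eE n x)
      (fun n x => fB n x + β n x) n z = rfI (incQ π D.L eE fA fB n z) (β n z) := fun z => rfl
  obtain ⟨k0, k1, k2, k3, k4, k5, k6, k7, k8, k9, k10⟩ :=
    coQ_rfI (incQ π D.L eE fA fB n x) (incQ π D.L eE fA fB n y) (β n x) (β n y)
  have bb : ∀ {b : ℝ}, |b| ≤ D.w 0 n 0 / D.w 2 n 0 * D.B.d n ^ (-(ε / 4)) →
      |b| ≤ D.w 0 n u / D.w 2 n u * (D.B.d n ^ (-(ε / 4)) * D.B.d n ^ (-(ε / 4))) := fun hb => by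
    refine hb.trans ?_
    rw [← mul_assoc]
    exact mul_le_mul_of_nonneg_right a5 (dpow_pos D.B n _).le
  rw [hE3, key x, key y, natW_eq]
  exact flag_num (rho_pos _) (a3 0) (a3 1) (a3 2) a6 (bb (a2 x hx)) (bb (a2 y hy))
    (a1 x hx y hy hxy) k0 k1 k2 k3 k4 k5 k6 k7 k8 k9 k10 k

end Crest.Agent.R136.Exch201
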