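import Crest.Agent.R136.Ut0_262
import Crest.Agent.R136.GD2_186
import Crest.Agent.R138.Dp1_76
import Crest.Agent.R136.Ut2_627
import Crest.Agent.R136.ZoomA_102
import Mathlib
import Crest.Agent.R136.TD5_627
import Crest.Agent.R136.Wq8_638

-- ▼ part R136/Ut1_262
section

/-!
# R136 (S0187), U6 thick side (helper262), part 1: slopes of nearby frames

Coordinates `0 = Y` (normal), `1 = A` (wide), `2 = B` (narrow).  For an orthonormal frame `F`
(`F 0` normal, `F 1` wide axis, `F 2` narrow axis) near the standard one: slopes `fbS`, `faS` of the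
hyperplane, `eS` of the wide axis in the `(A, B)` plane, `hS` of the wide axis in the `(A, Y)` plane.

`slE`, `slB`, `slA` : slopes with the rule for degenerate slots (`dE` : `w2/w1 = d^o(1)`, `dB` :
`a/w2 = d^o(1)`); `fr_size` : a plank in the frame with these slopes.
-/

set_option autoImplicit false
set_option linter.unusedVariables false

open Finset

namespace Crest.Agent.R136.Ut262

open Crest.Agent.R136.Sh605
open Crest.Agent.R136.GeoQ186 (fr fr_adm fr_ortho sA_fr sB_fr sE_fr Adm cLn fpv pv)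

/-! ### slopes -/

/-- slope of the hyperplane in the direction `B` -/
noncomputable def fbS (F : Fin 3 → V3) : ℝ := -F 0 2 / F 0 0
/-- slope of the hyperplane in the direction `A` -/
noncomputable def faS (F : Fin 3 → V3) : ℝ := -F 0 1 / F 0 0
/-- slope of the wide axis in the `(A, B)` plane -/
noncomputable def eS (F : Fin 3 → V3) : ℝ := F 1 2 / F 1 1
/-- slope of the wide axis in the `(A, Y)` plane -/
noncomputable def hS (F : Fin 3 → V3) : ℝ := F 1 0 / F 1 1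

theorem abs_coord {F : Fin 3 → V3} (h : Ortho F) (i j : Fin 3) : |F i j| ≤ 1 := by
  have h1 := h i i
  simp only [dt, if_true] at h1
  rw [← sq_le_one_iff_abs_le_one]
  fin_cases j
  · change F i 0 ^ 2 ≤ 1; nlinarith [sq_nonneg (F i 1), sq_nonneg (F i 2)]
  · change F i 1 ^ 2 ≤ 1; nlinarith [sq_nonneg (F i 0), sq_nonneg (F i 2)]
  · change F i 2 ^ 2 ≤ 1; nlinarith [sq_nonneg (F i 1), sq_nonneg (F i 0)]

theorem m2 {a b u w : ℝ} (ha : |a| ≤ u) (hb : |b| ≤ w) : |a * b| ≤ u * w := by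
  rw [abs_mul]; exact mul_le_mul ha hb (abs_nonneg _) ((abs_nonneg _).trans ha)

theorem a2 {a b u w : ℝ} (ha : |a| ≤ u) (hb : |b| ≤ w) : |a + b| ≤ u + w :=
  (abs_add_le _ _).trans (add_le_add ha hb)

theorem s2 {a b u w : ℝ} (ha : |a| ≤ u) (hb : |b| ≤ w) : |a - b| ≤ u + w :=
  (abs_sub _ _).trans (add_le_add ha hb)

/-- coordinate `j` of a vector in the frame -/
theorem exp3 {F : Fin 3 → V3} (h : Ortho F) (x : V3) (j : Fin 3) :
    x j = dt x (F 0) * F 0 j + dt x (F 1) * F 1 j + dt x (F 2) * F 2 j := by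
  have := h.expand x j
  rw [dt_comm x (F 0), dt_comm x (F 1), dt_comm x (F 2)]
  exact this

/-- the normal of a second frame -/
theorem normal_near {F F' : Fin 3 → V3} (h : Ortho F) {δ τ1 τ2 : ℝ} (j : Fin 3)
    (hj : |F 0 j| ≤ δ) (h' : Ortho F') (t1 : |dt (F' 0) (F 1)| ≤ τ1) (t2 : |dt (F' 0) (F 2)| ≤ τ2) :
    |F' 0 j| ≤ δ + τ1 + τ2 := by
  rw [exp3 h (F' 0) j]
  have c0 : |dt (F' 0) (F 0)| ≤ 1 := by
    have e1 := h.col 0 0
    have hn : dt (F' 0) (F 0) ^ 2 ≤ 1 := by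
      have f1 := h' 0 0
      have f2 := h 0 0
      simp only [dt, if_true] at f1 f2 ⊢
      nlinarith [sq_nonneg (F' 0 0 * F 0 1 - F' 0 1 * F 0 0),
        sq_nonneg (F' 0 0 * F 0 2 - F' 0 2 * F 0 0), sq_nonneg (F' 0 1 * F 0 2 - F' 0 2 * F 0 1)]
    rwa [sq_le_one_iff_abs_le_one] at hn
  have b := a2 (a2 (m2 c0 hj) (m2 t1 (abs_coord h 1 j))) (m2 t2 (abs_coord h 2 j))
  linarith

/-- the wide axis of a second frame -/
theorem wide_near {F F' : Fin 3 → V3} (h : Ortho F) {δ τ0 τ2 : ℝ} (j : Fin 3)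
    (hj : |F 1 j| ≤ δ) (h' : Ortho F') (t0 : |dt (F' 1) (F 0)| ≤ τ0) (t2 : |dt (F' 1) (F 2)| ≤ τ2) :
    |F' 1 j| ≤ δ + τ0 + τ2 := by
  rw [exp3 h (F' 1) j]
  have c0 : |dt (F' 1) (F 1)| ≤ 1 := by
    have hn : dt (F' 1) (F 1) ^ 2 ≤ 1 := by
      have f1 := h' 1 1
      have f2 := h 1 1
      simp only [dt, if_true] at f1 f2 ⊢
      nlinarith [sq_nonneg (F' 1 0 * F 1 1 - F' 1 1 * F 1 0),
        sq_nonneg (F' 1 0 * F 1 2 - F' 1 2 * F 1 0), sq_nonneg (F' 1 1 * F 1 2 - F' 1 2 * F 1 1)]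
    rwa [sq_le_one_iff_abs_le_one] at hn
  have b := a2 (a2 (m2 t0 (abs_coord h 0 j)) (m2 c0 hj)) (m2 t2 (abs_coord h 2 j))
  linarith

/-- near the standard frame the diagonal entry is large -/
theorem diag_ge {F : Fin 3 → V3} (h : Ortho F) {i j k l : Fin 3} (hjk : (j, k, l) = (0, 1, 2) ∨
    (j, k, l) = (1, 0, 2)) (hk : |F i k| ≤ 3 / 5) (hl : |F i l| ≤ 3 / 5) : 1 / 2 ≤ |F i j| := by
  have h1 := h i i
  simp only [dt, if_true] at h1
  have k1 : F i k ^ 2 ≤ 9 / 25 := by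
    rw [← sq_abs]; nlinarith [abs_nonneg (F i k)]
  have l1 : F i l ^ 2 ≤ 9 / 25 := by
    rw [← sq_abs]; nlinarith [abs_nonneg (F i l)]
  rcases hjk with h2 | h2
  · obtain ⟨rfl, rfl, rfl⟩ : j = 0 ∧ k = 1 ∧ l = 2 := by simpa using h2
    by_contra hc
    push Not at hc
    have : |F i 0| ^ 2 < 1 / 4 := by nlinarith [abs_nonneg (F i 0)]
    rw [sq_abs] at this
    nlinarith
  · obtain ⟨rfl, rfl, rfl⟩ : j = 1 ∧ k = 0 ∧ l = 2 := by simpa using h2
    by_contra hc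
    push Not at hc
    have : |F i 1| ^ 2 < 1 / 4 := by nlinarith [abs_nonneg (F i 1)]
    rw [sq_abs] at this
    nlinarith

theorem div_diff {x y p r T : ℝ} (hp : 1 / 2 ≤ |p|) (hr : 1 / 2 ≤ |r|) (h : |x * r - y * p| ≤ T) :
    |x / p - y / r| ≤ 4 * T := by
  have hp0 : p ≠ 0 := by intro h0; rw [h0, abs_zero] at hp; linarith
  have hr0 : r ≠ 0 := by intro h0; rw [h0, abs_zero] at hr; linarith
  have e1 : x / p - y / r = (x * r - y * p) / (p * r) := by field_simp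
  have hpr : 1 / 4 ≤ |p| * |r| := by nlinarith [abs_nonneg p, abs_nonneg r]
  have hT : 0 ≤ T := (abs_nonneg _).trans h
  rw [e1, abs_div, abs_mul, div_le_iff₀ (by linarith)]
  nlinarith

/-- **slopes of the hyperplane**, two frames -/
theorem normal_diff {F F' : Fin 3 → V3} (h : Ortho F) (h' : Ortho F') {τ1 τ2 : ℝ}
    (p : 1 / 2 ≤ |F 0 0|) (p' : 1 / 2 ≤ |F' 0 0|) (t1 : |dt (F' 0) (F 1)| ≤ τ1)
    (t2 : |dt (F' 0) (F 2)| ≤ τ2) :
    |faS F' - faS F| ≤ 8 * (τ1 + τ2) ∧ |fbS F' - fbS F| ≤ 8 * (τ1 + τ2) := by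
  have T1 : 0 ≤ τ1 := (abs_nonneg _).trans t1
  have T2 : 0 ≤ τ2 := (abs_nonneg _).trans t2
  have key : ∀ j : Fin 3, |F' 0 j * F 0 0 - F 0 j * F' 0 0| ≤ 2 * (τ1 + τ2) := by
    intro j
    have e0 := exp3 h (F' 0) 0
    have ej := exp3 h (F' 0) j
    have e1 : F' 0 j * F 0 0 - F 0 j * F' 0 0 =
        dt (F' 0) (F 1) * (F 1 j * F 0 0 - F 0 j * F 1 0) +
        dt (F' 0) (F 2) * (F 2 j * F 0 0 - F 0 j * F 2 0) := by
      rw [e0, ej]; ring
    have c1 : |F 1 j * F 0 0 - F 0 j * F 1 0| ≤ 2 := by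
      have := s2 (m2 (abs_coord h 1 j) (abs_coord h 0 0)) (m2 (abs_coord h 0 j) (abs_coord h 1 0))
      linarith
    have c2 : |F 2 j * F 0 0 - F 0 j * F 2 0| ≤ 2 := by
      have := s2 (m2 (abs_coord h 2 j) (abs_coord h 0 0)) (m2 (abs_coord h 0 j) (abs_coord h 2 0))
      linarith
    rw [e1]
    have := a2 (m2 t1 c1) (m2 t2 c2)
    linarith
  constructor
  · have := div_diff (x := F' 0 1) (y := F 0 1) p' p (key 1)
    have e1 : faS F' - faS F = -(F' 0 1 / F' 0 0 - F 0 1 / F 0 0) := by unfold faS; ring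
    rw [e1, abs_neg]; linarith
  · have := div_diff (x := F' 0 2) (y := F 0 2) p' p (key 2)
    have e1 : fbS F' - fbS F = -(F' 0 2 / F' 0 0 - F 0 2 / F 0 0) := by unfold fbS; ring
    rw [e1, abs_neg]; linarith

/-- **slopes of the wide axis**, two frames -/
theorem wide_diff {F F' : Fin 3 → V3} (h : Ortho F) (h' : Ortho F') {τ0 τ2 : ℝ}
    (p : 1 / 2 ≤ |F 1 1|) (p' : 1 / 2 ≤ |F' 1 1|) (t0 : |dt (F' 1) (F 0)| ≤ τ0)
    (t2 : |dt (F' 1) (F 2)| ≤ τ2) :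
    |eS F' - eS F| ≤ 8 * (τ0 + τ2) ∧ |hS F' - hS F| ≤ 8 * (τ0 + τ2) := by
  have T1 : 0 ≤ τ0 := (abs_nonneg _).trans t0
  have T2 : 0 ≤ τ2 := (abs_nonneg _).trans t2
  have key : ∀ j : Fin 3, |F' 1 j * F 1 1 - F 1 j * F' 1 1| ≤ 2 * (τ0 + τ2) := by
    intro j
    have e0 := exp3 h (F' 1) 1
    have ej := exp3 h (F' 1) j
    have e1 : F' 1 j * F 1 1 - F 1 j * F' 1 1 =
        dt (F' 1) (F 0) * (F 0 j * F 1 1 - F 1 j * F 0 1) +
        dt (F' 1) (F 2) * (F 2 j * F 1 1 - F 1 j * F 2 1) := by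
      rw [e0, ej]; ring
    have c1 : |F 0 j * F 1 1 - F 1 j * F 0 1| ≤ 2 := by
      have := s2 (m2 (abs_coord h 0 j) (abs_coord h 1 1)) (m2 (abs_coord h 1 j) (abs_coord h 0 1))
      linarith
    have c2 : |F 2 j * F 1 1 - F 1 j * F 2 1| ≤ 2 := by
      have := s2 (m2 (abs_coord h 2 j) (abs_coord h 1 1)) (m2 (abs_coord h 1 j) (abs_coord h 2 1))
      linarith
    rw [e1]
    have := a2 (m2 t0 c1) (m2 t2 c2)
    linarith
  constructor
  · have := div_diff (x := F' 1 2) (y := F 1 2) p' p (key 2)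
    unfold eS; linarith
  · have := div_diff (x := F' 1 0) (y := F 1 0) p' p (key 0)
    unfold hS; linarith

/-- the wide axis lies in the hyperplane -/
theorem hS_eq {F : Fin 3 → V3} (h : Ortho F) (p : F 0 0 ≠ 0) (p1 : F 1 1 ≠ 0) :
    hS F = faS F + eS F * fbS F := by
  have h1 := h 0 1
  simp only [dt, Fin.isValue, Fin.reduceEq, if_false] at h1
  unfold hS faS eS fbS
  field_simp
  linarith

/-- **the slot `31`** -/
theorem slotA_diff {F F' : Fin 3 → V3} (h : Ortho F) {τ : ℝ} (p : F 0 0 ≠ 0)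
    (p1 : 1 / 2 ≤ |F 1 1|) (p' : 1 / 2 ≤ |F' 0 0|) (t : |dt (F' 0) (F 1)| ≤ τ) :
    |(faS F' - faS F) + eS F * (fbS F' - fbS F)| ≤ 4 * τ := by
  have q1 : F 1 1 ≠ 0 := by intro h0; rw [h0, abs_zero] at p1; linarith
  have q' : F' 0 0 ≠ 0 := by intro h0; rw [h0, abs_zero] at p'; linarith
  have e1 : (faS F' - faS F) + eS F * (fbS F' - fbS F) =
      -(dt (F' 0) (F 1)) / (F 1 1 * F' 0 0) := by
    have e2 := hS_eq h p q1
    have e3 : faS F' + eS F * fbS F' - hS F = -(dt (F' 0) (F 1)) / (F 1 1 * F' 0 0) := by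
      unfold faS eS fbS hS dt
      field_simp
      ring
    rw [← e3, e2]; ring
  have hT : 0 ≤ τ := (abs_nonneg _).trans t
  have hpr : 1 / 4 ≤ |F 1 1| * |F' 0 0| := by nlinarith [abs_nonneg (F 1 1), abs_nonneg (F' 0 0)]
  rw [e1, abs_div, abs_neg, abs_mul, div_le_iff₀ (by linarith)]
  nlinarith

/-! ### slopes with degenerate slots -/

section

open Classical in
/-- slope `e` -/
noncomputable def slE (dE dB : Prop) (F : Fin 3 → V3) : ℝ := if dE then 0 else eS F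
open Classical in
/-- slope `fb` -/
noncomputable def slB (dE dB : Prop) (F : Fin 3 → V3) : ℝ := if dB then 0 else fbS F
open Classical in
/-- slope `fa` -/
noncomputable def slA (dE dB : Prop) (F : Fin 3 → V3) : ℝ :=
  if dB then (if dE then 0 else hS F) else faS F

/-- the relevant axes of `F` are near the standard ones -/
structure Nst (dE dB : Prop) (δ : ℝ) (F : Fin 3 → V3) : Prop where
  ortho : Ortho F
  n1 : ¬ dB → |F 0 1| ≤ δ
  n2 : ¬ dB → |F 0 2| ≤ δ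
  w0 : ¬ dE → |F 1 0| ≤ δ
  w2 : ¬ dE → |F 1 2| ≤ δ

theorem Nst.mono {dE dB : Prop} {δ δ' : ℝ} {F : Fin 3 → V3} (h : Nst dE dB δ F) (hδ : δ ≤ δ') :
    Nst dE dB δ' F :=
  ⟨h.ortho, fun a => (h.n1 a).trans hδ, fun a => (h.n2 a).trans hδ, fun a => (h.w0 a).trans hδ,
    fun a => (h.w2 a).trans hδ⟩

theorem Nst.p0 {dE dB : Prop} {δ : ℝ} {F : Fin 3 → V3} (h : Nst dE dB δ F) (hδ : δ ≤ 3 / 5)
    (hB : ¬ dB) : 1 / 2 ≤ |F 0 0| :=
  diag_ge h.ortho (i := 0) (j := 0) (k := 1) (l := 2) (Or.inl rfl) ((h.n1 hB).trans hδ)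
    ((h.n2 hB).trans hδ)

theorem Nst.p1 {dE dB : Prop} {δ : ℝ} {F : Fin 3 → V3} (h : Nst dE dB δ F) (hδ : δ ≤ 3 / 5)
    (hE : ¬ dE) : 1 / 2 ≤ |F 1 1| :=
  diag_ge h.ortho (i := 1) (j := 1) (k := 0) (l := 2) (Or.inr rfl) ((h.w0 hE).trans hδ)
    ((h.w2 hE).trans hδ)

theorem div_le_two {x p δ : ℝ} (hx : |x| ≤ δ) (hp : 1 / 2 ≤ |p|) : |x / p| ≤ 2 * δ := by
  have hδ : 0 ≤ δ := (abs_nonneg _).trans hx
  rw [abs_div, div_le_iff₀ (by linarith)]
  nlinarith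

/-- **the slopes are small** -/
theorem Nst.small {dE dB : Prop} {δ : ℝ} {F : Fin 3 → V3} (h : Nst dE dB δ F) (hδ : δ ≤ 3 / 5)
    (h0 : 0 ≤ δ) : |slE dE dB F| ≤ 2 * δ ∧ |slB dE dB F| ≤ 2 * δ ∧ |slA dE dB F| ≤ 2 * δ := by
  have z : |(0 : ℝ)| ≤ 2 * δ := by rw [abs_zero]; linarith
  unfold slE slB slA
  refine ⟨?_, ?_, ?_⟩
  · split_ifs with hE
    · exact z
    · exact div_le_two (h.w2 hE) (h.p1 hδ hE)
  · split_ifs with hB
    · exact z
    · unfold fbS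
      exact div_le_two (by rw [abs_neg]; exact h.n2 hB) (h.p0 hδ hB)
  · split_ifs with hB hE
    · exact z
    · exact div_le_two (h.w0 hE) (h.p1 hδ hE)
    · unfold faS
      exact div_le_two (by rw [abs_neg]; exact h.n1 hB) (h.p0 hδ hB)

/-- transfer of `Nst` to a second frame -/
theorem Nst.trans {dE dB : Prop} {δ η : ℝ} {F F' : Fin 3 → V3} (h : Nst dE dB δ F) (h' : Ortho F')
    (n1 : ¬ dB → |dt (F' 0) (F 1)| ≤ η) (n2 : ¬ dB → |dt (F' 0) (F 2)| ≤ η)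
    (w0 : ¬ dE → |dt (F' 1) (F 0)| ≤ η) (w2 : ¬ dE → |dt (F' 1) (F 2)| ≤ η) :
    Nst dE dB (δ + 2 * η) F' := by
  refine ⟨h', fun a => ?_, fun a => ?_, fun a => ?_, fun a => ?_⟩
  · have := normal_near h.ortho 1 (h.n1 a) h' (n1 a) (n2 a); linarith
  · have := normal_near h.ortho 2 (h.n2 a) h' (n1 a) (n2 a); linarith
  · have := wide_near h.ortho 0 (h.w0 a) h' (w0 a) (w2 a); linarith
  · have := wide_near h.ortho 2 (h.w2 a) h' (w0 a) (w2 a); linarith

/-- **slot differences of two frames** near the standard one.  `pE, pB, pA` = precisions of the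
slots `21, 32, 31`. -/
theorem slot_diff {dE dB : Prop} {δ : ℝ} {F F' : Fin 3 → V3} (h : Nst dE dB δ F)
    (h' : Nst dE dB δ F') (hδ : δ ≤ 3 / 5) {pE pB pA K : ℝ} (hK : 1 ≤ K) (p0 : 0 ≤ pA)
    (hAE : pA ≤ pE) (hAB : pA ≤ pB) (kE : dE → pB ≤ K * pA) (kB : dB → pE ≤ K * pA)
    (t12 : |dt (F' 1) (F 2)| ≤ pE) (t02 : |dt (F' 0) (F 2)| ≤ pB) (t01 : |dt (F' 0) (F 1)| ≤ pA)
    (t10 : |dt (F' 1) (F 0)| ≤ pA) :
    |slE dE dB F' - slE dE dB F| ≤ 16 * pE ∧ |slB dE dB F' - slB dE dB F| ≤ 16 * pB ∧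
    |(slA dE dB F' - slA dE dB F) + slE dE dB F * (slB dE dB F' - slB dE dB F)| ≤
      16 * (K * pA) := by
  have qE : 0 ≤ pE := p0.trans hAE
  have qB : 0 ≤ pB := p0.trans hAB
  have qK : pA ≤ K * pA := by nlinarith
  unfold slE slB slA
  by_cases hE : dE <;> by_cases hB : dB
  · simp only [hE, hB, if_true, mul_zero, add_zero, abs_zero, sub_self]
    exact ⟨by linarith, by linarith, by linarith⟩
  · simp only [hE, hB, if_true, if_false, add_zero, abs_zero, sub_self, zero_mul]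
    obtain ⟨d1, d2⟩ := normal_diff h.ortho h'.ortho (h.p0 hδ hB) (h'.p0 hδ hB) t01 t02
    refine ⟨by linarith, by linarith, ?_⟩
    have := kE hE
    linarith
  · simp only [hE, hB, if_true, if_false, mul_zero, add_zero, abs_zero, sub_self]
    obtain ⟨d1, d2⟩ := wide_diff h.ortho h'.ortho (h.p1 hδ hE) (h'.p1 hδ hE) t10 t12
    refine ⟨by linarith, by linarith, ?_⟩
    have := kB hB
    linarith
  · simp only [hE, hB, if_false]
    obtain ⟨d1, d2⟩ := normal_diff h.ortho h'.ortho (h.p0 hδ hB) (h'.p0 hδ hB) t01 t02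
    obtain ⟨d3, d4⟩ := wide_diff h.ortho h'.ortho (h.p1 hδ hE) (h'.p1 hδ hE) t10 t12
    have n0 : F 0 0 ≠ 0 := by
      intro h0; have := h.p0 hδ hB; rw [h0, abs_zero] at this; linarith
    have d5 := slotA_diff h.ortho n0 (h.p1 hδ hE) (h'.p0 hδ hB) t01
    exact ⟨by linarith, by linarith, by linarith⟩

/-! ### a plank in the frame with the given slopes -/

/-- **a plank of the frame `F` is a plank of the frame with the slopes `slA, slB, slE`**, up to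
`K ^ 2`. -/
theorem fr_size {dE dB : Prop} {δ : ℝ} {F : Fin 3 → V3} (h : Nst dE dB δ F) (hδ : δ ≤ 1 / 4)
    (hδ0 : 0 ≤ δ) {K a w1 w2 : ℝ} (hK : 1 ≤ K) (ha : 0 ≤ a) (haw : a ≤ w2) (hww : w2 ≤ w1)
    (kE : dE → w1 ≤ K * w2) (kB : dB → w2 ≤ K * a) {y : V3} (y0 : |dt (F 0) y| ≤ a)
    (y1 : |dt (F 1) y| ≤ w1) (y2 : |dt (F 2) y| ≤ w2) :
    |dt (fr (slA dE dB F) (slB dE dB F) (slE dE dB F) 0) y| ≤ 24 * K ^ 2 * a ∧
    |dt (fr (slA dE dB F) (slB dE dB F) (slE dE dB F) 1) y| ≤ 24 * K ^ 2 * w1 ∧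
    |dt (fr (slA dE dB F) (slB dE dB F) (slE dE dB F) 2) y| ≤ 24 * K ^ 2 * w2 := by
  obtain ⟨sE', sB', sA'⟩ := h.small (by linarith) hδ0
  have hE1 : |slE dE dB F| ≤ 1 := by linarith
  have hB1 : |slB dE dB F| ≤ 1 := by linarith
  have hA1 : |slA dE dB F| ≤ 1 := by linarith
  have hK2 : 1 ≤ K ^ 2 := one_le_pow₀ hK
  have hKK : K ≤ K ^ 2 := by nlinarith
  have qw2 : 0 ≤ w2 := ha.trans haw
  have qw1 : 0 ≤ w1 := qw2.trans hww
  -- coordinates
  have hc : ∀ j, |y j| ≤ a + w1 + w2 := by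
    intro j
    rw [h.ortho.expand y j]
    have := a2 (a2 (m2 y0 (abs_coord h.ortho 0 j)) (m2 y1 (abs_coord h.ortho 1 j)))
      (m2 y2 (abs_coord h.ortho 2 j))
    linarith
  -- normal coordinate, real hyperplane
  have hN : ¬ dB → |y 0 - faS F * y 1 - fbS F * y 2| ≤ 2 * a := by
    intro hB
    have p := h.p0 (by linarith) hB
    have q : F 0 0 ≠ 0 := by intro h0; rw [h0, abs_zero] at p; linarith
    have e1 : y 0 - faS F * y 1 - fbS F * y 2 = dt (F 0) y / F 0 0 := by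
      unfold faS fbS dt; field_simp; ring
    rw [e1]
    exact div_le_two y0 p
  -- coordinates transversal to the wide axis
  have hW : ¬ dE → |y 0 - hS F * y 1| ≤ 2 * (a + w2) ∧ |y 2 - eS F * y 1| ≤ 2 * (a + w2) := by
    intro hE
    have p := h.p1 (by linarith) hE
    have q : F 1 1 ≠ 0 := by intro h0; rw [h0, abs_zero] at p; linarith
    have b1 : |hS F| ≤ 1 := by have := div_le_two (h.w0 hE) p; unfold hS; linarith
    have b2 : |eS F| ≤ 1 := by have := div_le_two (h.w2 hE) p; unfold eS; linarith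
    have z0 : F 1 0 - hS F * F 1 1 = 0 := by unfold hS; field_simp; ring
    have z2 : F 1 2 - eS F * F 1 1 = 0 := by unfold eS; field_simp; ring
    have x0 := h.ortho.expand y 0
    have x1 := h.ortho.expand y 1
    have x2 := h.ortho.expand y 2
    constructor
    · have e1 : y 0 - hS F * y 1 = dt (F 0) y * (F 0 0 - hS F * F 0 1) +
          dt (F 2) y * (F 2 0 - hS F * F 2 1) := by
        rw [x0, x1]; linear_combination dt (F 1) y * z0
      rw [e1]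
      have c0 := s2 (abs_coord h.ortho 0 0) (m2 b1 (abs_coord h.ortho 0 1))
      have c2 := s2 (abs_coord h.ortho 2 0) (m2 b1 (abs_coord h.ortho 2 1))
      have := a2 (m2 y0 c0) (m2 y2 c2)
      linarith
    · have e1 : y 2 - eS F * y 1 = dt (F 0) y * (F 0 2 - eS F * F 0 1) +
          dt (F 2) y * (F 2 2 - eS F * F 2 1) := by
        rw [x1, x2]; linear_combination dt (F 1) y * z2
      rw [e1]
      have c0 := s2 (abs_coord h.ortho 0 2) (m2 b2 (abs_coord h.ortho 0 1))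
      have c2 := s2 (abs_coord h.ortho 2 2) (m2 b2 (abs_coord h.ortho 2 1))
      have := a2 (m2 y0 c0) (m2 y2 c2)
      linarith
  -- the three chart coordinates
  have key : |y 0 - slA dE dB F * y 1 - slB dE dB F * y 2| ≤ 4 * K ^ 2 * a ∧
      |y 2 - slE dE dB F * y 1| ≤ 4 * K ^ 2 * w2 := by
    unfold slE slB slA
    by_cases hE : dE <;> by_cases hB : dB
    · simp only [hE, hB, if_true, zero_mul, sub_zero]
      have k1 := kE hE
      have k2 := kB hB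
      have k3 : K * w2 ≤ K ^ 2 * a := by nlinarith
      constructor
      · have := hc 0; nlinarith
      · have := hc 2; nlinarith
    · simp only [hE, hB, if_true, if_false, zero_mul, sub_zero]
      have k1 := kE hE
      constructor
      · have := hN hB; nlinarith
      · have := hc 2; nlinarith
    · simp only [hE, hB, if_true, if_false, zero_mul, sub_zero]
      have k2 := kB hB
      obtain ⟨c1, c2⟩ := hW hE
      constructor
      · nlinarith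
      · nlinarith
    · simp only [hE, hB, if_false]
      obtain ⟨c1, c2⟩ := hW hE
      constructor
      · have := hN hB; nlinarith
      · nlinarith
  have hAd := fr_adm (Fa := slA dE dB F) (Fb := slB dE dB F) (E := slE dE dB F)
    (Equiv.refl (Fin 3)) hA1 hB1 hE1
  have e1 : fpv (Equiv.refl (Fin 3)) (fr (slA dE dB F) (slB dE dB F) (slE dE dB F)) =
      fr (slA dE dB F) (slB dE dB F) (slE dE dB F) := rfl
  have hx1 := hc 1
  have := Crest.Agent.R136.GeoQ186.from_chart hAd (u := y) (n := 4 * K ^ 2 * a)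
    (x := a + w1 + w2) (y := 4 * K ^ 2 * w2)
    (by rw [sA_fr, sB_fr]; exact key.1) hx1 (by rw [sE_fr]; exact key.2)
  rw [e1] at this
  obtain ⟨r0, r1, r2⟩ := this
  have k1 : K ^ 2 * a ≤ K ^ 2 * w2 := mul_le_mul_of_nonneg_left haw (by positivity)
  have k2 : K ^ 2 * w2 ≤ K ^ 2 * w1 := mul_le_mul_of_nonneg_left hww (by positivity)
  have k3 : w1 ≤ K ^ 2 * w1 := by nlinarith
  have k0 : 0 ≤ K ^ 2 * a := by positivity
  refine ⟨r0.trans (by linarith), r1.trans ?_, r2.trans ?_⟩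
  · nlinarith
  · nlinarith

end

end Crest.Agent.R136.Ut262
end

-- ▼ part R136/Ut3_262
section

/-!
# R136 (S0187), U6 thick side (helper262), part 2: rotation of the coordinates

`rv R x` : coordinates of `x` in the orthonormal frame `R`; `rl`, `rS` : rotated lines and sheets;
`MkA.rot` : a marked sequence in rotated coordinates; `exists_net` : finite net of frames;
`exists_pop` : a popular label is dense.
-/

set_option autoImplicit false
set_option linter.unusedVariables false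

open Finset Filter Topology

namespace Crest.Agent.R136.Ut262

open Crest.Agent.R138.Ex926 (Base U)
open Crest.Agent.R138.Dp76
open Crest.Agent.R138.Mk163 (zc zl rho alive own Negl)
open Crest.Agent.R136.MkA627 Crest.Agent.R136.Sh605 Crest.Agent.R136.K4 Crest.Agent.R136.Top484

/-! ### rotated vectors -/

/-- coordinates in the frame `R` -/
def rv (R : Fin 3 → V3) (x : V3) : V3 := fun i => dt (R i) x

/-- transposed frame -/
def rT (R : Fin 3 → V3) : Fin 3 → V3 := fun i j => R j i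

theorem rv_add (R : Fin 3 → V3) (x y : V3) : rv R (x + y) = rv R x + rv R y := by
  funext i; simp only [rv, dt_add, Pi.add_apply]

theorem rv_sub (R : Fin 3 → V3) (x y : V3) : rv R (x - y) = rv R x - rv R y := by
  funext i; simp only [rv, dt_sub, Pi.sub_apply]

theorem rv_smul (R : Fin 3 → V3) (c : ℝ) (x : V3) : rv R (c • x) = c • rv R x := by
  funext i; simp only [rv, dt_smul, Pi.smul_apply, smul_eq_mul]

theorem ortho_rT {R : Fin 3 → V3} (h : Ortho R) : Ortho (rT R) := by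
  intro i j
  have := h.col i j
  simp only [dt, rT]
  exact this

theorem rT_rT (R : Fin 3 → V3) : rT (rT R) = R := rfl

theorem rv_rT {R : Fin 3 → V3} (h : Ortho R) (x : V3) : rv (rT R) (rv R x) = x := by
  funext j
  rw [h.expand x j]
  simp only [rv, rT, dt]
  ring

theorem rv_rT' {R : Fin 3 → V3} (h : Ortho R) (x : V3) : rv R (rv (rT R) x) = x := by
  have := rv_rT (ortho_rT h) x
  rwa [rT_rT] at this

theorem dt_rv {R : Fin 3 → V3} (h : Ortho R) (x y : V3) : dt (rv R x) (rv R y) = dt x y := by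
  have e0 := h.expand x 0
  have e1 := h.expand x 1
  have e2 := h.expand x 2
  have : dt x y = dt (R 0) x * dt (R 0) y + dt (R 1) x * dt (R 1) y + dt (R 2) x * dt (R 2) y := by
    have k : dt x y = x 0 * y 0 + x 1 * y 1 + x 2 * y 2 := rfl
    rw [k, e0, e1, e2]
    simp only [dt]
    ring
  rw [this]
  simp only [rv, dt]

/-! ### rotated lines and sheets -/

/-- rotated line -/
def rl (R : Fin 3 → V3) (t : Ln4) : Ln4 := ⟨rv R t.p, rv R t.v⟩

theorem rl_pos (R : Fin 3 → V3) (t : Ln4) (z : ℝ) : (rl R t).pos z = rv R (t.pos z) := by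
  funext i
  simp only [Ln4.pos, rl, rv, dt]
  ring

theorem rl_rT {R : Fin 3 → V3} (h : Ortho R) (t : Ln4) : rl (rT R) (rl R t) = t := by
  cases t
  simp only [rl, rv_rT h]

/-- rotated frame -/
def rF (R : Fin 3 → V3) (e : Fin 3 → V3) : Fin 3 → V3 := fun i => rv R (e i)

/-- rotated quadratic function -/
def rQ (R : Fin 3 → V3) (q : ℝ → V3 → ℝ) : ℝ → V3 → ℝ := fun z y => q z (rv (rT R) y)

theorem rF_ortho {R e : Fin 3 → V3} (h : Ortho R) (he : Ortho e) : Ortho (rF R e) := by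
  intro i j
  show dt (rv R (e i)) (rv R (e j)) = _
  rw [dt_rv h]; exact he i j

theorem inK_rot {R e : Fin 3 → V3} (h : Ortho R) {c : Ln4} {w : V3} {z : ℝ} {x : V3} :
    InK (rF R e) (rl R c) w z (rv R x) ↔ InK e c w z x := by
  unfold InK
  refine forall_congr' fun i => ?_
  rw [rl_pos, ← rv_sub]
  show |dt (rv R (e i)) _| ≤ _ ↔ _
  rw [dt_rv h]

theorem inK_rot' {R e : Fin 3 → V3} (h : Ortho R) {c : Ln4} {w : V3} {z : ℝ} {y : V3} :
    InK (rF R e) (rl R c) w z y ↔ InK e c w z (rv (rT R) y) := by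
  rw [← inK_rot h (x := rv (rT R) y), rv_rT' h]

theorem isQ_rot {R : Fin 3 → V3} {q : ℝ → V3 → ℝ} (hq : IsQ q) : IsQ (rQ R q) := by
  obtain ⟨c0, c1, c2, b, d, g, h⟩ := hq
  refine ⟨c0, c1, c2, fun i => dt (R i) b, fun i => dt (R i) d,
    fun i j => ∑ k, ∑ l, g k l * (R i k * R j l), ?_⟩
  intro z y
  simp only [rQ, h, rv, rT, dt, Fin.sum_univ_three]
  ring

theorem inSheet_rot {R e : Fin 3 → V3} (h : Ortho R) {t c : Ln4} {w : V3} {q : ℝ → V3 → ℝ}
    {a z0 ρ : ℝ} : InSheet (rl R t) (rF R e) (rl R c) w (rQ R q) a z0 ρ ↔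
      InSheet t e c w q a z0 ρ := by
  unfold InSheet
  refine forall_congr' fun z => ?_
  rw [rl_pos, inK_rot h]
  simp only [rQ, rv_rT h]

theorem shN_rot {R e : Fin 3 → V3} (h : Ortho R) {c : Ln4} {w : V3} {q : ℝ → V3 → ℝ}
    {a z0 ρ r0 : ℝ} (hs : ShN e c w q a z0 ρ r0) :
    ShN (rF R e) (rl R c) w (rQ R q) a z0 ρ r0 where
  ortho := rF_ortho h hs.ortho
  isQ := isQ_rot hs.isQ
  a_le0 := hs.a_le0
  w0_le := hs.w0_le
  w_le := hs.w_le
  r0_le := hs.r0_le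
  st0 := by
    intro z h0 h1 x τ hτ hx hx'
    have e1 : rv (rT R) (x + τ • rF R e 0) = rv (rT R) x + τ • e 0 := by
      rw [rv_add, rv_smul]; show _ + τ • rv (rT R) (rv R (e 0)) = _; rw [rv_rT h]
    rw [inK_rot' h] at hx hx'
    rw [e1] at hx'
    have := hs.st0 z h0 h1 _ τ hτ hx hx'
    simp only [rQ, e1]
    exact this
  sl1 := by
    intro z h0 h1 x τ hτ hx hx'
    have e1 : rv (rT R) (x + τ • rF R e 1) = rv (rT R) x + τ • e 1 := by
      rw [rv_add, rv_smul]; show _ + τ • rv (rT R) (rv R (e 1)) = _; rw [rv_rT h]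
    rw [inK_rot' h] at hx hx'
    rw [e1] at hx'
    have := hs.sl1 z h0 h1 _ τ hτ hx hx'
    simp only [rQ, e1]
    exact this
  sl2 := by
    intro z h0 h1 x τ hτ hx hx'
    have e1 : rv (rT R) (x + τ • rF R e 2) = rv (rT R) x + τ • e 2 := by
      rw [rv_add, rv_smul]; show _ + τ • rv (rT R) (rv R (e 2)) = _; rw [rv_rT h]
    rw [inK_rot' h] at hx hx'
    rw [e1] at hx'
    have := hs.sl2 z h0 h1 _ τ hτ hx hx'
    simp only [rQ, e1]
    exact this

/-- rotated sheet -/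
def rS (R : Fin 3 → V3) (s : Plk4) : Plk4 := { s with e := rF R s.e, c := rl R s.c, q := rQ R s.q }

/-! ### marked sequences -/

open Classical in
/-- **a marked sequence of sheets in rotated coordinates** -/
theorem MkA.rot {B : Base} {I : ℕ → Finset (ℕ × ℝ)} {L : ℕ → ℕ → Ln4} {r0 : ℕ → ℝ}
    {wr cr : Fin 3 → ℕ → ℝ} {q : Fin 3 → ℝ}
    {lev : ℕ → ℚ → ℕ} {A : ℕ → ℝ} {c Λ : ℝ → ℝ} {τ : Fin 3 → ℝ → ℝ} {f : ℕ → ℚ → ℕ → ℤ → ℕ}
    {b : ℕ → ℚ → ℕ → Plk4} {vm : ℕ → ℚ → ℝ} {w : Fin 3 → ℕ → ℚ → ℝ}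
    (h : MkA B I (geo4 L r0 wr cr q) lev A c Λ τ f b vm w) {R : ℕ → Fin 3 → V3} (hR : ∀ n, Ortho (R n)) :
    MkA B I (geo4 (fun n t => rl (R n) (L n t)) r0 wr cr q) lev A c Λ τ f
      (fun n v i => rS (R n) (b n v i)) vm w where
  ne := h.ne
  card := h.card
  Apos := h.Apos
  c0 := h.c0
  lam0 := h.lam0
  lam := h.lam
  tau1 := h.tau1
  lev_mono := h.lev_mono
  lev_lim := h.lev_lim
  cell0 := h.cell0
  one := h.one
  own := h.own
  dmax := by
    intro v h0 h1 ε hε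
    filter_upwards [h.dmax v h0 h1 ε hε] with n hn J s hs
    have hs' : (geo4 L r0 wr cr q).adm n (lev n v) J (rS (rT (R n)) s) :=
      ⟨shN_rot (ortho_rT (hR n)) hs.1, hs.2⟩
    refine le_trans (Nat.cast_le.2 (card_le_card fun t ht => ?_)) (hn J (rS (rT (R n)) s) hs')
    rw [mem_filter] at ht ⊢
    refine ⟨ht.1, ?_⟩
    have h2 : InSheet (rl (R n) (L n t)) s.e s.c s.w s.q s.a (zl (lev n v) J) (rho (lev n v)) := ht.2
    have h3 := (inSheet_rot (ortho_rT (hR n))).2 h2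
    rw [rl_rT (hR n)] at h3
    exact h3
  mark := by
    intro v h0 h1
    filter_upwards [h.mark v h0 h1] with n hn J t ht
    obtain ⟨m1, m2, m3, m4⟩ := hn J t ht
    refine ⟨(inSheet_rot (hR n)).2 m1, ⟨shN_rot (hR n) m2.1, m2.2⟩, m3, fun j => ?_⟩
    have := m4 j
    fin_cases j <;> exact this
  near := h.near
  vpos := h.vpos
  wpos := h.wpos
  tau := h.tau

/-- flat marks in rotated coordinates -/
theorem flat_rot {R : Fin 3 → V3} (h : Ortho R) {s : Plk4}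
    (hs : ∀ z x, s.q z x = dt (s.e 0) (x - s.c.pos z)) (z : ℝ) (x : V3) :
    (rS R s).q z x = dt ((rS R s).e 0) (x - (rS R s).c.pos z) := by
  show s.q z (rv (rT R) x) = dt (rv R (s.e 0)) (x - (rl R s.c).pos z)
  rw [hs, rl_pos]
  have e1 : x - rv R (s.c.pos z) = rv R (rv (rT R) x - s.c.pos z) := by
    rw [rv_sub, rv_rT' h]
  rw [e1, dt_rv h]

/-! ### a finite net of frames -/

theorem exists_net {δ : ℝ} (hδ : 0 < δ) : ∃ (N : ℕ) (r : Fin N → Fin 3 → V3), (∀ k, Ortho (r k)) ∧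
    ∀ F : Fin 3 → V3, Ortho F → ∃ k, ∀ i j, |F i j - r k i j| ≤ δ := by
  set K : Set (Fin 3 → V3) := {F | Ortho F} with hK
  have hsub : K ⊆ Metric.closedBall (0 : Fin 3 → V3) 1 := by
    intro F hF
    rw [mem_closedBall_zero_iff, pi_norm_le_iff_of_nonneg zero_le_one]
    intro i
    rw [pi_norm_le_iff_of_nonneg zero_le_one]
    intro j
    exact abs_coord hF i j
  have htb : TotallyBounded K := (isCompact_closedBall (0 : Fin 3 → V3) 1).totallyBounded.subset hsub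
  obtain ⟨t, htK, htf, hcov⟩ := Metric.finite_approx_of_totallyBounded htb δ hδ
  obtain ⟨N, e⟩ := htf.fin_embedding
  obtain ⟨r, hr⟩ := e
  refine ⟨N, r, fun k => htK (by rw [← hr]; exact Set.mem_range_self k), fun F hF => ?_⟩
  obtain ⟨y, hy, hFy⟩ := Set.mem_iUnion₂.1 (hcov hF)
  rw [← hr] at hy
  obtain ⟨k, rfl⟩ := hy
  refine ⟨k, fun i j => ?_⟩
  have h1 : ‖F - r k‖ < δ := by rw [← dist_eq_norm]; exact hFy
  have h2 := (norm_le_pi_norm (F - r k) i)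
  have h3 := (norm_le_pi_norm ((F - r k) i) j)
  have h4 : ‖(F - r k) i j‖ = |F i j - r k i j| := by rw [Real.norm_eq_abs]; rfl
  linarith

/-- frames close to `r` are near the standard one after rotation -/
theorem near_rot {r F : Fin 3 → V3} (hr : Ortho r) (hF : Ortho F) {δ : ℝ}
    (h : ∀ i j, |F i j - r i j| ≤ δ) {i j : Fin 3} (hij : i ≠ j) : |rF r F i j| ≤ 3 * δ := by
  have e1 : rF r F i j = dt (r j) (r i) + dt (r j) (F i - r i) := by
    show dt (r j) (F i) = _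
    rw [dt_sub]; ring
  rw [e1, hr j i, if_neg hij.symm, zero_add]
  have c := abs_coord hr j
  have k0 := m2 (c 0) (h i 0)
  have k1 := m2 (c 1) (h i 1)
  have k2 := m2 (c 2) (h i 2)
  have : dt (r j) (F i - r i) = r j 0 * (F i 0 - r i 0) + r j 1 * (F i 1 - r i 1) +
    r j 2 * (F i 2 - r i 2) := rfl
  rw [this]
  have := a2 (a2 k0 k1) k2
  linarith

open Classical in
/-- **a popular label is dense** -/
theorem exists_pop {B : Base} {I : ℕ → Finset (ℕ × ℝ)} {N : ℕ} (cl : ℕ → ℕ × ℝ → Fin N)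
    (hne : ∀ᶠ n in (U : Filter ℕ), (I n).Nonempty) (hN : 0 < N) :
    ∃ k : ℕ → Fin N, Dense B (fun n => (I n).filter fun x => cl n x = k n) I := by
  have hNe : Nonempty (Fin N) := ⟨⟨0, hN⟩⟩
  have key : ∀ n, ∃ k : Fin N, ((I n).card : ℝ) ≤
      N * (((I n).filter fun x => cl n x = k).card : ℝ) := by
    intro n
    by_contra hc
    push Not at hc
    have h1 : ((I n).card : ℝ) = ∑ k : Fin N, (((I n).filter fun x => cl n x = k).card : ℝ) := by
      rw [card_eq_sum_card_fiberwise (f := cl n) (t := Finset.univ) (fun x _ => by simp)]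
      push_cast; rfl
    have h2 : ∑ k : Fin N, (N : ℝ) * (((I n).filter fun x => cl n x = k).card : ℝ) <
        ∑ k : Fin N, ((I n).card : ℝ) :=
      sum_lt_sum_of_nonempty Finset.univ_nonempty fun k _ => hc k
    rw [← mul_sum, ← h1, sum_const, card_univ, Fintype.card_fin, nsmul_eq_mul] at h2
    exact lt_irrefl _ h2
  choose k hk using key
  refine ⟨k, Eventually.of_forall fun n => filter_subset _ _, fun η hη => ?_⟩
  have hN' : (0 : ℝ) < N := by exact_mod_cast hN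
  filter_upwards [Crest.Agent.R138.Ps926.dpow_small B hη (ε := 1 / (N : ℝ)) (by positivity)]
    with n hn
  have h1 := hk n
  have h2 : B.d n ^ η * ((I n).card : ℝ) ≤ 1 / N * (N *
      (((I n).filter fun x => cl n x = k n).card : ℝ)) :=
    mul_le_mul hn.le h1 (Nat.cast_nonneg _) (by positivity)
  refine h2.trans (le_of_eq ?_)
  field_simp

end Crest.Agent.R136.Ut262
end

-- ▼ part R136/Ut4_262
section

/-!
# R136 (S0187), U6 thick side (helper262), part 3: window, degenerate slots, rotation, chain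

`MkF` : linear marked sequence with flat marks and tilt everywhere; `MkW` : all levels well inside,
slots `21`, `32` degenerate (`dE`, `dB`) or not; `exists_mkN` : after a rotation the relevant axes of
all marks of all levels are near the standard ones (`Nst`).
-/

set_option autoImplicit false
set_option linter.unusedVariables false
set_option linter.unusedSectionVars false

open Finset Filter Topology

namespace Crest.Agent.R136.Ut262

open Crest.Agent.R138.Ex926 (Base U)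
open Crest.Agent.R138.Dp76
open Crest.Agent.R138.Mk163 (zc zl rho alive own Negl)
open Crest.Agent.R138.NatTw76 (exists_avoid)
open Crest.Agent.R136.MkA627 Crest.Agent.R136.Sh605 Crest.Agent.R136.K4 Crest.Agent.R136.Top484
open Crest.Agent.R136.Ut627 (prF prF_zero prF_one prF_two prLinF wpos_all btF)
open Crest.Agent.R136.ArgA163 (PrLin mq mq_zero mq_last mq_succ mq_ge mq_le le_of_log)

/-! ### tilt everywhere -/

/-- six entries of the transition matrix of two frames -/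
def T6 (pE pB pA : ℝ) (F G : Fin 3 → V3) : Prop :=
  (|dt (F 1) (G 2)| ≤ pE ∧ |dt (F 2) (G 1)| ≤ pE) ∧
  (|dt (F 0) (G 2)| ≤ pB ∧ |dt (F 2) (G 0)| ≤ pB) ∧
  (|dt (F 0) (G 1)| ≤ pA ∧ |dt (F 1) (G 0)| ≤ pA)

theorem T6.mono {pE pB pA pE' pB' pA' : ℝ} {F G : Fin 3 → V3} (h : T6 pE pB pA F G)
    (hE : pE ≤ pE') (hB : pB ≤ pB') (hA : pA ≤ pA') : T6 pE' pB' pA' F G :=
  ⟨⟨h.1.1.trans hE, h.1.2.trans hE⟩, ⟨h.2.1.1.trans hB, h.2.1.2.trans hB⟩,
    ⟨h.2.2.1.trans hA, h.2.2.2.trans hA⟩⟩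

/-- bound of the slot `j` between the levels `u`, `v` -/
noncomputable def tb (D : Dat4) (C : ℝ) (u v : ℚ) (ε : ℝ) (n : ℕ) (j : Fin 3) : ℝ :=
  max (prF D.w j n u) (prF D.w j n v) * D.B.d n ^ (-(C * ((v : ℝ) - u)) - ε)

/-- tilt of the incidence `x` between the levels `u`, `v` -/
def TiltP (D : Dat4) (C : ℝ) (u v : ℚ) (ε : ℝ) (n : ℕ) (x : ℕ × ℝ) : Prop :=
  T6 (tb D C u v ε n 0) (tb D C u v ε n 1) (tb D C u v ε n 2) (mkS D n u x).e (mkS D n v x).e

/-- **tilt everywhere** -/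
def TiltA (D : Dat4) (C : ℝ) : Prop :=
  ∀ u v : ℚ, 0 ≤ u → u < v → v ≤ 1 → ∀ ε : ℝ, 0 < ε → ∀ᶠ n in (U : Filter ℕ),
    ∀ x ∈ D.I n, TiltP D C u v ε n x

/-- linear marked sequence with flat marks and tilt everywhere -/
structure MkF (p : Par4) (D : Dat4) (C : ℝ) : Prop where
  mka : MkA D.B D.I (D.G p) D.lev D.A (fun v => p.g * v) (fun v => 0 * v)
    (fun j v => p.θ j * (1 - v)) D.f D.b D.vm D.w
  flat : FlatMk D
  tilt : TiltA D C
  wrs : Rng D.B D.wr D.cr D.w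

theorem prF_pos {w : Fin 3 → ℕ → ℚ → ℝ} {n : ℕ} {v : ℚ} (h : ∀ k, 0 < w k n v) (j : Fin 3) :
    0 < prF w j n v := by
  fin_cases j
  · exact div_pos (h 2) (h 1)
  · exact div_pos (h 0) (h 2)
  · exact div_pos (h 0) (h 1)

open Classical in
/-- **tilt everywhere on a dense part** -/
theorem exists_mkF {p : Par4} {D : Dat4}
    (hM : MkA D.B D.I (D.G p) D.lev D.A (fun v => p.g * v) (fun v => 0 * v)
      (fun j v => p.θ j * (1 - v)) D.f D.b D.vm D.w) (hF : FlatMk D) (hT : TiltF D)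
    (hW : Rng D.B D.wr D.cr D.w) :
    ∃ (C : ℝ) (J : ℕ → Finset (ℕ × ℝ)), 0 ≤ C ∧ (∀ n, J n ⊆ D.I n) ∧ Dense D.B J D.I ∧
      MkF p { D with I := J } C := by
  obtain ⟨C, hC, hT⟩ := hT
  have : Nonempty ((ℚ × ℚ) × ℕ) := ⟨((0, 0), 0)⟩
  obtain ⟨en, hen⟩ := exists_surjective_nat ((ℚ × ℚ) × ℕ)
  have hN : ∀ k, Negl D.B D.I fun n x =>
      (0 ≤ (en k).1.1 ∧ (en k).1.1 < (en k).1.2 ∧ (en k).1.2 ≤ 1) ∧
      ¬ TiltP D C (en k).1.1 (en k).1.2 (1 / (((en k).2 : ℝ) + 1)) n x := by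
    intro k
    by_cases h : 0 ≤ (en k).1.1 ∧ (en k).1.1 < (en k).1.2 ∧ (en k).1.2 ≤ 1
    · exact (hT (en k).1.1 (en k).1.2 h.1 h.2.1 h.2.2 (1 / (((en k).2 : ℝ) + 1))
        (by positivity)).mono (Eventually.of_forall fun n x _ hx => hx.2)
    · exact Negl.false.mono (Eventually.of_forall fun n x _ hx => h hx.1)
  obtain ⟨J0, hJ0I, hJ0d, hJ0⟩ := exists_avoid (B := D.B) (I := D.I) _ hN
  obtain ⟨J, hJs, hJd, -, hJ⟩ := MkA.refine' hM hJ0d
  refine ⟨C, J, hC, fun n => (hJs n).trans (hJ0I n), hJd.trans hJ0d, ⟨hJ, hF, ?_, hW⟩⟩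
  intro u v h0 huv h1 ε hε
  obtain ⟨K, hK⟩ := exists_nat_one_div_lt hε
  obtain ⟨k, hk⟩ := hen ((u, v), K)
  have h2 := hJ0 k
  rw [hk] at h2
  filter_upwards [h2, wpos_all hM h0 (huv.le.trans h1)] with n a1 a2 x hx
  have a3 := a1 x (hJs n hx)
  have a4 : TiltP D C u v (1 / ((K : ℝ) + 1)) n x := by
    by_contra hc
    exact a3 ⟨⟨h0, huv, h1⟩, hc⟩
  have hb : ∀ j, tb D C u v (1 / ((K : ℝ) + 1)) n j ≤ tb D C u v ε n j := fun j =>
    mul_le_mul_of_nonneg_left (dpow_le D.B n (by linarith))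
      ((prF_pos a2 j).le.trans (le_max_left _ _))
  exact T6.mono a4 (hb 0) (hb 1) (hb 2)

/-! ### widths -/

section

variable {p : Par4} {D : Dat4}

/-- the marks are sheets with the common widths -/
theorem ord4 {c Λ : ℝ → ℝ} {τ : Fin 3 → ℝ → ℝ}
    (h : MkA D.B D.I (D.G p) D.lev D.A c Λ τ D.f D.b D.vm D.w) {v : ℚ} (h0 : 0 ≤ v) (h1 : v ≤ 1) :
    ∀ᶠ n in (U : Filter ℕ), D.w 0 n v ≤ D.w 2 n v ∧ D.w 2 n v ≤ D.w 1 n v := by
  filter_upwards [h.ne, h.mark v h0 h1] with n hne hmk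
  obtain ⟨x, hx⟩ := hne
  have hal : x.1 ∈ alive (D.I n) (D.lev n v) (zc (D.lev n v) x.2) :=
    Crest.Agent.R138.MkRef627.mem_alive.2 ⟨x, hx, rfl, rfl⟩
  obtain ⟨-, ⟨hs, hρ⟩, -, h4⟩ := hmk _ _ hal
  have e0 := h4 0
  have e1 := h4 1
  have e2 := h4 2
  simp only [Dat4.G, geo4, Matrix.cons_val] at e0 e1 e2
  rw [← e0, ← e1, ← e2]
  exact ⟨hs.a_le, hs.w_le⟩

/-- the mark of an incidence is a sheet which contains the line -/
theorem mark4 {c Λ : ℝ → ℝ} {τ : Fin 3 → ℝ → ℝ}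
    (h : MkA D.B D.I (D.G p) D.lev D.A c Λ τ D.f D.b D.vm D.w) {v : ℚ} (h0 : 0 ≤ v) (h1 : v ≤ 1) :
    ∀ᶠ n in (U : Filter ℕ), ∀ x ∈ D.I n,
      (InSheet (D.L n x.1) (mkS D n v x).e (mkS D n v x).c (mkS D n v x).w (mkS D n v x).q
        (mkS D n v x).a (zl (D.lev n v) (zc (D.lev n v) x.2)) (rho (D.lev n v))) ∧
      Ortho (mkS D n v x).e ∧ (mkS D n v x).a = D.w 0 n v ∧ (mkS D n v x).w 1 = D.w 1 n v ∧
      (mkS D n v x).w 2 = D.w 2 n v := by
  filter_upwards [h.mark v h0 h1] with n hmk x hx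
  have hal : x.1 ∈ alive (D.I n) (D.lev n v) (zc (D.lev n v) x.2) :=
    Crest.Agent.R138.MkRef627.mem_alive.2 ⟨x, hx, rfl, rfl⟩
  obtain ⟨hm, ⟨hs, hρ⟩, -, h4⟩ := hmk _ _ hal
  have e0 := h4 0
  have e1 := h4 1
  have e2 := h4 2
  simp only [Dat4.G, geo4, Matrix.cons_val] at e0 e1 e2
  exact ⟨hm, hs.ortho, e0, e1, e2⟩

/-- precisions are at most one, and the slot `31` is the finest -/
theorem prF_ord {w : Fin 3 → ℕ → ℚ → ℝ} {n : ℕ} {v : ℚ} (h : ∀ k, 0 < w k n v)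
    (h1 : w 0 n v ≤ w 2 n v) (h2 : w 2 n v ≤ w 1 n v) :
    prF w 0 n v ≤ 1 ∧ prF w 1 n v ≤ 1 ∧ prF w 2 n v ≤ prF w 0 n v ∧
      prF w 2 n v ≤ prF w 1 n v := by
  rw [prF_zero, prF_one, prF_two]
  have p0 := h 0
  have p1 := h 1
  have p2 := h 2
  refine ⟨(div_le_one p1).2 h2, (div_le_one p2).2 h1, div_le_div_of_nonneg_right h1 p1.le, ?_⟩
  exact div_le_div_of_nonneg_left p0.le p2 h2

end

/-! ### dichotomy of a slot -/

/-- **a slot is degenerate at all levels or non-degenerate at all inner levels** -/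
theorem dich {B : Base} {pr : Fin 3 → ℕ → ℚ → ℝ} {j : Fin 3} {β : ℝ} (h : PrLin B pr j β)
    (h1 : ∀ v : ℚ, 0 ≤ v → v ≤ 1 → ∀ᶠ n in (U : Filter ℕ), pr j n v ≤ 1) :
    (∀ v : ℚ, 0 ≤ v → v ≤ 1 → ∀ ε : ℝ, 0 < ε → ∀ᶠ n in (U : Filter ℕ), B.d n ^ ε ≤ pr j n v) ∨
    ∃ c : ℝ, 0 < c ∧ ∀ v : ℚ, 1 / 4 ≤ v → v ≤ 3 / 4 → ∀ᶠ n in (U : Filter ℕ),
      pr j n v ≤ B.d n ^ c := by
  classical
  set X : ℕ → ℚ → ℝ := fun n v => -Real.log (pr j n v) / B.L n with hX
  have hL := B.L_pos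
  have hd : ∀ n, B.d n = Real.exp (-(B.L n)) := by
    intro n
    have e1 : B.L n = -Real.log (B.d n) := by unfold Base.L; rfl
    rw [e1, neg_neg, Real.exp_log (B.pos n)]
  have hpow : ∀ n (c : ℝ), B.d n ^ c = Real.exp (-(c * B.L n)) := by
    intro n c
    rw [hd, ← Real.exp_mul]; congr 1; ring
  -- translation
  have tr1 : ∀ n v (c : ℝ), 0 < pr j n v → X n v ≤ c → B.d n ^ c ≤ pr j n v := by
    intro n v c hp hc
    rw [hpow, ← Real.exp_log hp]
    rw [hX] at hc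
    simp only at hc
    rw [div_le_iff₀ (hL n)] at hc
    exact Real.exp_le_exp.2 (by linarith)
  have tr2 : ∀ n v (c : ℝ), 0 < pr j n v → c ≤ X n v → pr j n v ≤ B.d n ^ c := by
    intro n v c hp hc
    rw [hpow, ← Real.exp_log hp]
    rw [hX] at hc
    simp only at hc
    rw [le_div_iff₀ (hL n)] at hc
    exact Real.exp_le_exp.2 (by linarith)
  have X0 : ∀ v : ℚ, 0 ≤ v → v ≤ 1 → ∀ᶠ n in (U : Filter ℕ), 0 ≤ X n v := by
    intro v h0 hv
    filter_upwards [h1 v h0 hv, h.1 v h0 hv] with n a b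
    exact div_nonneg (by have := Real.log_nonpos b.le a; linarith) (hL n).le
  -- differences
  have dif : ∀ u v : ℚ, 0 ≤ u → u ≤ 1 → 0 ≤ v → v ≤ 1 → ∀ δ : ℝ, 0 < δ →
      ∀ᶠ n in (U : Filter ℕ), |X n v - X n u - β * ((v : ℝ) - u)| ≤ δ := by
    intro u v hu0 hu1 hv0 hv1 δ hδ
    have h2 := h.pair hu0 hu1 hv0 hv1
    filter_upwards [(Metric.tendsto_nhds.1 h2) δ hδ, h.1 u hu0 hu1, h.1 v hv0 hv1] with n a b c
    rw [Real.dist_eq] at a
    have e1 : X n v - X n u = Real.log (pr j n u / pr j n v) / B.L n := by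
      rw [Real.log_div b.ne' c.ne', hX]; ring
    rw [e1]
    exact a.le
  by_cases hc : ∀ c : ℝ, 0 < c → ∀ᶠ n in (U : Filter ℕ), X n (1 / 2) ≤ c
  · left
    have hβ : β = 0 := by
      by_contra hb
      have hb' : 0 < |β| := abs_pos.2 hb
      have z0 := X0 0 le_rfl zero_le_one
      have z1 := X0 1 zero_le_one le_rfl
      have d0 := dif (1 / 2) 0 (by norm_num) (by norm_num) le_rfl zero_le_one (|β| / 8)
        (by positivity)
      have d1 := dif (1 / 2) 1 (by norm_num) (by norm_num) zero_le_one le_rfl (|β| / 8)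
        (by positivity)
      obtain ⟨n, a1, a2, a3, a4, a5⟩ :=
        (z0.and (z1.and (d0.and (d1.and (hc (|β| / 8) (by positivity)))))).exists
      rw [abs_le] at a3 a4
      push_cast at a3 a4
      rcases abs_cases β with ⟨e, _⟩ | ⟨e, _⟩ <;> linarith [a3.1, a3.2, a4.1, a4.2]
    intro v h0 hv ε hε
    filter_upwards [dif (1 / 2) v (by norm_num) (by norm_num) h0 hv (ε / 2) (by positivity),
      hc (ε / 2) (by positivity), h.1 v h0 hv] with n a b c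
    refine tr1 n v ε c ?_
    rw [hβ, abs_le] at a
    linarith [a.2]
  · right
    push Not at hc
    obtain ⟨c0, hc0, hc1⟩ := hc
    refine ⟨c0 / 4, by positivity, fun v hv0 hv1 => ?_⟩
    have g0 : (0 : ℚ) ≤ v := by linarith
    have g1 : v ≤ 1 := by linarith
    have r0 : (1 / 4 : ℝ) ≤ v := by
      have := (Rat.cast_le (K := ℝ)).2 hv0
      push_cast at this; exact this
    have r1 : (v : ℝ) ≤ 3 / 4 := by
      have := (Rat.cast_le (K := ℝ)).2 hv1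
      push_cast at this; exact this
    rcases le_total v (1 / 2) with hv | hv
    · have r2 : (v : ℝ) ≤ 1 / 2 := by
        have := (Rat.cast_le (K := ℝ)).2 hv
        push_cast at this; exact this
      filter_upwards [dif 0 v le_rfl zero_le_one g0 g1 (c0 / 8) (by positivity),
        dif 0 (1 / 2) le_rfl zero_le_one (by norm_num) (by norm_num) (c0 / 8) (by positivity),
        X0 0 le_rfl zero_le_one, hc1, h.1 v g0 g1] with n a1 a2 a3 a4 a5
      refine tr2 n v _ a5 ?_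
      rw [abs_le] at a1 a2
      push_cast at a1 a2
      have e1 : 2 * (v : ℝ) * X n (1 / 2) ≤ 2 * v * (X n 0 + β / 2 + c0 / 8) :=
        mul_le_mul_of_nonneg_left (by linarith [a2.2]) (by linarith)
      have e2 : 2 * (v : ℝ) * X n 0 ≤ X n 0 := by nlinarith
      have e3 : 2 * (1 / 4 : ℝ) * c0 ≤ 2 * v * X n (1 / 2) := by nlinarith
      have e4 : 2 * (v : ℝ) * (c0 / 8) ≤ c0 / 8 := by nlinarith
      nlinarith [a1.1]
    · have r2 : (1 / 2 : ℝ) ≤ v := by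
        have := (Rat.cast_le (K := ℝ)).2 hv
        push_cast at this; exact this
      filter_upwards [dif 1 v zero_le_one le_rfl g0 g1 (c0 / 8) (by positivity),
        dif 1 (1 / 2) zero_le_one le_rfl (by norm_num) (by norm_num) (c0 / 8) (by positivity),
        X0 1 zero_le_one le_rfl, hc1, h.1 v g0 g1] with n a1 a2 a3 a4 a5
      refine tr2 n v _ a5 ?_
      rw [abs_le] at a1 a2
      push_cast at a1 a2
      have e1 : 2 * (1 - (v : ℝ)) * X n (1 / 2) ≤ 2 * (1 - v) * (X n 1 - β / 2 + c0 / 8) :=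
        mul_le_mul_of_nonneg_left (by linarith [a2.2]) (by linarith)
      have e2 : 2 * (1 - (v : ℝ)) * X n 1 ≤ X n 1 := by nlinarith
      have e3 : 2 * (1 / 4 : ℝ) * c0 ≤ 2 * (1 - v) * X n (1 / 2) := by nlinarith
      have e4 : 2 * (1 - (v : ℝ)) * (c0 / 8) ≤ c0 / 8 := by nlinarith
      nlinarith [a1.1]

/-! ### window -/

/-- level map of the window `[1/4, 3/4]` -/
def wm (x : ℚ) : ℚ := 1 / 4 + x / 2

theorem wm_mem {x : ℚ} (h0 : 0 ≤ x) (h1 : x ≤ 1) : 1 / 4 ≤ wm x ∧ wm x ≤ 3 / 4 := by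
  unfold wm; constructor <;> linarith

theorem wm_cast (x : ℚ) : ((wm x : ℚ) : ℝ) = 1 / 4 + x / 2 := by unfold wm; push_cast; ring

/-- the data of the window -/
def winD (D : Dat4) (B' : Base) (I' : ℕ → Finset (ℕ × ℝ)) (A' : ℕ → ℝ) : Dat4 where
  B := B'
  I := I'
  L := D.L
  r0 := D.r0
  wr := D.wr
  cr := D.cr
  lev := fun n x => D.lev n (wm x)
  A := A'
  f := fun n x => D.f n (wm x)
  b := fun n x => D.b n (wm x)
  vm := fun n x => D.vm n (wm x)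
  w := fun j n x => D.w j n (wm x)

/-- the lateral range of the window -/
theorem rng_win {D : Dat4} (h : Rng D.B D.wr D.cr D.w) {B' : Base}
    (hB : ∀ n, B'.d n = D.B.d n ^ (1 / 2 : ℝ)) :
    Rng B' D.wr D.cr (fun j n x => D.w j n (wm x)) := by
  intro C k v h0 h1
  have hm := wm_mem h0 h1
  filter_upwards [h (C / 2) k (wm v) (by linarith [hm.1]) (by linarith [hm.2])] with n hn
  have e : B'.d n ^ C = D.B.d n ^ (C / 2) := by
    rw [hB, ← Real.rpow_mul (D.B.pos n).le]; congr 1; ring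
  rw [e]
  exact hn

/-- **window `[1/4, 3/4]`** -/
theorem exists_win {p : Par4} {D : Dat4} {C : ℝ} (h : MkF p D C) :
    ∃ (B' : Base) (I' : ℕ → Finset (ℕ × ℝ)) (A' : ℕ → ℝ), (∀ n, B'.d n = D.B.d n ^ (1 / 2 : ℝ)) ∧
      (∀ n, I' n ⊆ D.I n) ∧ MkF p (winD D B' I' A') C := by
  have hlin : ∀ a b : ℝ, a / (1 / 2 : ℝ) = b ↔ a = b / 2 := fun a b => by
    constructor
    · intro h; linarith
    · intro h; rw [h]; ring
  obtain ⟨s0, hs0, hz⟩ := Crest.Agent.R136.ZoomA102.zoomA h.mka (fun _ => 1 / 2) (fun _ x => wm x) (fun v => p.g * v)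
    (fun v => 0 * v) (fun j v => p.θ j * (1 - v)) (fun _ => by norm_num) (fun _ => by norm_num)
    (fun k x h0 h1 => by
      have := wm_mem h0 h1
      constructor <;> linarith [this.1, this.2])
    (fun x y h0 hxy h1 => Eventually.of_forall fun k => by unfold wm; linarith)
    (fun x y h0 hxy h1 => tendsto_const_nhds.congr fun k => by
      simp only [wm_cast]; ring)
    (fun x h0 h1 => tendsto_const_nhds.congr fun k => by
      simp only [wm_cast]; push_cast; ring)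
    (fun x h0 h1 => tendsto_const_nhds.congr fun k => by
      simp only [wm_cast]; push_cast; ring)
    (fun j x h0 h1 => tendsto_const_nhds.congr fun k => by
      simp only [wm_cast]; push_cast; ring)
    (fun u v h0 huv h1 => by constructor <;> linarith)
    (by simp) (by simp) (fun j => by simp)
  obtain ⟨B', I', A', hB, hI, hM⟩ := hz s0 hs0 (Eventually.of_forall fun n => le_rfl)
  refine ⟨B', I', A', hB, hI, ⟨hM, fun n v i z x => h.flat n (wm v) i z x, ?_, rng_win h.wrs hB⟩⟩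
  intro u v h0 huv h1 ε hε
  have a1 := wm_mem h0 (huv.le.trans h1)
  have a2 := wm_mem (h0.trans huv.le) h1
  filter_upwards [h.tilt (wm u) (wm v) (by linarith [a1.1]) (by unfold wm; linarith)
    (by linarith [a2.2]) (ε / 2) (by positivity)] with n hn x hx
  have h2 := hn x (hI n hx)
  have e1 : ∀ j, tb (winD D B' I' A') C u v ε n j = tb D C (wm u) (wm v) (ε / 2) n j := by
    intro j
    show max (prF D.w j n (wm u)) (prF D.w j n (wm v)) * B'.d n ^ (-(C * ((v : ℝ) - u)) - ε) = _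
    unfold tb
    rw [hB, ← Real.rpow_mul (D.B.pos n).le]
    congr 2
    simp only [wm_cast]
    ring
  show T6 _ _ _ _ _
  rw [e1, e1, e1]
  exact h2

/-- marked sequence with flat marks, tilt everywhere, slots `21` (`dE`) and `32` (`dB`) degenerate at
all levels or with a positive exponent at all levels -/
structure MkW (p : Par4) (D : Dat4) (C c : ℝ) (dE dB : Prop) : Prop extends MkF p D C where
  c0 : 0 < c
  E1 : dE → ∀ v : ℚ, 0 ≤ v → v ≤ 1 → ∀ ε : ℝ, 0 < ε → ∀ᶠ n in (U : Filter ℕ),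
    D.B.d n ^ ε ≤ prF D.w 0 n v
  E2 : ¬ dE → ∀ v : ℚ, 0 ≤ v → v ≤ 1 → ∀ᶠ n in (U : Filter ℕ), prF D.w 0 n v ≤ D.B.d n ^ c
  B1 : dB → ∀ v : ℚ, 0 ≤ v → v ≤ 1 → ∀ ε : ℝ, 0 < ε → ∀ᶠ n in (U : Filter ℕ),
    D.B.d n ^ ε ≤ prF D.w 1 n v
  B2 : ¬ dB → ∀ v : ℚ, 0 ≤ v → v ≤ 1 → ∀ᶠ n in (U : Filter ℕ), prF D.w 1 n v ≤ D.B.d n ^ c

/-- the dichotomy in the window -/
theorem dich_win {p : Par4} {D : Dat4} {C : ℝ} (h : MkF p D C) {B' : Base}
    (hB : ∀ n, B'.d n = D.B.d n ^ (1 / 2 : ℝ)) (j : Fin 3) :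
    (∀ v : ℚ, 0 ≤ v → v ≤ 1 → ∀ ε : ℝ, 0 < ε → ∀ᶠ n in (U : Filter ℕ),
      B'.d n ^ ε ≤ prF D.w j n (wm v)) ∨
    ∃ c : ℝ, 0 < c ∧ ∀ v : ℚ, 0 ≤ v → v ≤ 1 → ∀ᶠ n in (U : Filter ℕ),
      prF D.w j n (wm v) ≤ B'.d n ^ c := by
  have hpow : ∀ n (c : ℝ), B'.d n ^ c = D.B.d n ^ (c / 2) := by
    intro n c
    rw [hB, ← Real.rpow_mul (D.B.pos n).le]; congr 1; ring
  rcases dich (prLinF h.mka j) (fun v h0 h1 => by
    filter_upwards [wpos_all h.mka h0 h1, ord4 h.mka h0 h1] with n a1 a2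
    obtain ⟨b0, b1, b2, b3⟩ := prF_ord a1 a2.1 a2.2
    fin_cases j
    · exact b0
    · exact b1
    · exact b2.trans b0) with h1 | ⟨c, hc, h1⟩
  · left
    intro v h0 hv ε hε
    obtain ⟨m0, m1⟩ := wm_mem h0 hv
    filter_upwards [h1 (wm v) (by linarith) (by linarith) (ε / 2) (by positivity)] with n hn
    rw [hpow]; exact hn
  · right
    refine ⟨2 * c, by positivity, fun v h0 hv => ?_⟩
    obtain ⟨m0, m1⟩ := wm_mem h0 hv
    filter_upwards [h1 (wm v) m0 m1] with n hn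
    rw [hpow]
    convert hn using 2
    ring

/-- **window with degenerate and non-degenerate slots** -/
theorem exists_mkW {p : Par4} {D : Dat4} {C : ℝ} (h : MkF p D C) :
    ∃ (B' : Base) (I' : ℕ → Finset (ℕ × ℝ)) (A' : ℕ → ℝ) (c : ℝ) (dE dB : Prop),
      (∀ n, B'.d n = D.B.d n ^ (1 / 2 : ℝ)) ∧ (∀ n, I' n ⊆ D.I n) ∧
        MkW p (winD D B' I' A') C c dE dB := by
  obtain ⟨B', I', A', hB, hI, hM⟩ := exists_win h
  obtain ⟨c1, hc1, h1⟩ : ∃ c : ℝ, 0 < c ∧ ((¬ ∀ v : ℚ, 0 ≤ v → v ≤ 1 → ∀ ε : ℝ, 0 < ε →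
      ∀ᶠ n in (U : Filter ℕ), B'.d n ^ ε ≤ prF D.w 0 n (wm v)) →
      ∀ v : ℚ, 0 ≤ v → v ≤ 1 → ∀ᶠ n in (U : Filter ℕ), prF D.w 0 n (wm v) ≤ B'.d n ^ c) := by
    rcases dich_win h hB 0 with h1 | ⟨c, hc, h1⟩
    · exact ⟨1, one_pos, fun hn => absurd h1 hn⟩
    · exact ⟨c, hc, fun _ => h1⟩
  obtain ⟨c2, hc2, h2⟩ : ∃ c : ℝ, 0 < c ∧ ((¬ ∀ v : ℚ, 0 ≤ v → v ≤ 1 → ∀ ε : ℝ, 0 < ε →
      ∀ᶠ n in (U : Filter ℕ), B'.d n ^ ε ≤ prF D.w 1 n (wm v)) →
      ∀ v : ℚ, 0 ≤ v → v ≤ 1 → ∀ᶠ n in (U : Filter ℕ), prF D.w 1 n (wm v) ≤ B'.d n ^ c) := by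
    rcases dich_win h hB 1 with h1 | ⟨c, hc, h1⟩
    · exact ⟨1, one_pos, fun hn => absurd h1 hn⟩
    · exact ⟨c, hc, fun _ => h1⟩
  refine ⟨B', I', A', min c1 c2, _, _, hB, hI, ⟨hM, lt_min hc1 hc2, fun hd => hd, fun hd v h0 hv => ?_,
    fun hd => hd, fun hd v h0 hv => ?_⟩⟩
  · filter_upwards [h1 hd v h0 hv] with n hn
    exact hn.trans (dpow_le B' n (min_le_left _ _))
  · filter_upwards [h2 hd v h0 hv] with n hn
    exact hn.trans (dpow_le B' n (min_le_right _ _))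

/-! ### rotation -/

/-- rotated data -/
noncomputable def rotD (D : Dat4) (R : ℕ → Fin 3 → V3) : Dat4 :=
  { D with L := fun n t => rl (R n) (D.L n t), b := fun n v i => rS (R n) (D.b n v i) }

theorem MkF.rot {p : Par4} {D : Dat4} {C : ℝ} (h : MkF p D C) {R : ℕ → Fin 3 → V3}
    (hR : ∀ n, Ortho (R n)) : MkF p (rotD D R) C where
  mka := MkA.rot h.mka hR
  flat := fun n v i z x => flat_rot (hR n) (fun z x => h.flat n v i z x) z x
  tilt := by
    intro u v h0 huv h1 ε hε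
    filter_upwards [h.tilt u v h0 huv h1 ε hε] with n hn x hx
    have h2 := hn x hx
    have e1 : ∀ i j, dt ((mkS (rotD D R) n u x).e i) ((mkS (rotD D R) n v x).e j) =
        dt ((mkS D n u x).e i) ((mkS D n v x).e j) := fun i j => dt_rv (hR n) _ _
    unfold TiltP T6 at h2 ⊢
    simp only [e1]
    exact h2
  wrs := h.wrs

theorem MkW.rot {p : Par4} {D : Dat4} {C c : ℝ} {dE dB : Prop} (h : MkW p D C c dE dB)
    {R : ℕ → Fin 3 → V3} (hR : ∀ n, Ortho (R n)) : MkW p (rotD D R) C c dE dB :=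
  ⟨h.toMkF.rot hR, h.c0, h.E1, h.E2, h.B1, h.B2⟩

/-- dense parts -/
theorem MkW.sub {p : Par4} {D : Dat4} {C c : ℝ} {dE dB : Prop} (h : MkW p D C c dE dB)
    {J : ℕ → Finset (ℕ × ℝ)} (hJ : Dense D.B J D.I) (hJI : ∀ n, J n ⊆ D.I n) :
    ∃ J' : ℕ → Finset (ℕ × ℝ), (∀ n, J' n ⊆ J n) ∧ Dense D.B J' D.I ∧
      MkW p { D with I := J' } C c dE dB := by
  obtain ⟨J', h1, h2, -, h3⟩ := MkA.refine' h.mka hJ
  refine ⟨J', h1, h2.trans hJ, ⟨⟨h3, h.flat, ?_, h.wrs⟩, h.c0, h.E1, h.E2, h.B1, h.B2⟩⟩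
  intro u v h0 huv h4 ε hε
  filter_upwards [h.tilt u v h0 huv h4 ε hε] with n hn x hx using hn x (hJI n (h1 n hx))

open Classical in
/-- **rotation**: the axes of the marks of level `1` are near the standard ones -/
theorem exists_rot {p : Par4} {D : Dat4} {C c : ℝ} {dE dB : Prop} (h : MkW p D C c dE dB) :
    ∃ (R : ℕ → Fin 3 → V3) (J : ℕ → Finset (ℕ × ℝ)), (∀ n, Ortho (R n)) ∧ (∀ n, J n ⊆ D.I n) ∧
      Dense D.B J D.I ∧ MkW p { rotD D R with I := J } C c dE dB ∧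
      ∀ᶠ n in (U : Filter ℕ), ∀ x ∈ J n, Nst dE dB (1 / 20) (mkS (rotD D R) n 1 x).e := by
  obtain ⟨N, r, hr, hnet⟩ := exists_net (δ := 1 / 60) (by norm_num)
  have hN : 0 < N := by
    obtain ⟨k, -⟩ := hnet (fun i j => if i = j then 1 else 0) (by
      intro i j
      simp only [dt]
      fin_cases i <;> fin_cases j <;> simp)
    exact lt_of_le_of_lt (Nat.zero_le _) k.2
  have : Nonempty (Fin N) := ⟨⟨0, hN⟩⟩
  choose! cl0 hcl0 using hnet
  obtain ⟨k, hk⟩ := exists_pop (B := D.B) (I := D.I) (fun n x => cl0 (mkS D n 1 x).e) h.mka.ne hN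
  obtain ⟨J, hJ1, hJ2, hJ3⟩ := (h.rot (R := fun n => r (k n)) fun n => hr _).sub (J := fun n =>
    (D.I n).filter fun x => cl0 (mkS D n 1 x).e = k n) hk (fun n => filter_subset _ _)
  refine ⟨fun n => r (k n), J, fun n => hr _, fun n => (hJ1 n).trans (filter_subset _ _), hJ2, hJ3, ?_⟩
  filter_upwards [mark4 h.mka zero_le_one le_rfl] with n hn x hx
  obtain ⟨x1, x2⟩ := mem_filter.1 (hJ1 n hx)
  obtain ⟨-, ho, -⟩ := hn x x1
  have h1 := hcl0 (mkS D n 1 x).e ho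
  rw [x2] at h1
  have key : ∀ i j : Fin 3, i ≠ j → |(mkS (rotD D fun n => r (k n)) n 1 x).e i j| ≤ 1 / 20 := by
    intro i j hij
    have := near_rot (hr (k n)) ho h1 hij
    have e1 : (3 : ℝ) * (1 / 60) = 1 / 20 := by norm_num
    rw [e1] at this
    exact this
  exact ⟨rF_ortho (hr _) ho, fun _ => key 0 1 (by decide), fun _ => key 0 2 (by decide),
    fun _ => key 1 0 (by decide), fun _ => key 1 2 (by decide)⟩

/-! ### chain -/

/-- the slot `31` is the finest -/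
theorem tb_le {D : Dat4} {C : ℝ} {u v : ℚ} {ε : ℝ} {n : ℕ} (hu : ∀ k, 0 < D.w k n u)
    (hv : ∀ k, 0 < D.w k n v) (ou : D.w 0 n u ≤ D.w 2 n u ∧ D.w 2 n u ≤ D.w 1 n u)
    (ov : D.w 0 n v ≤ D.w 2 n v ∧ D.w 2 n v ≤ D.w 1 n v) :
    0 < tb D C u v ε n 2 ∧ tb D C u v ε n 2 ≤ tb D C u v ε n 0 ∧
      tb D C u v ε n 2 ≤ tb D C u v ε n 1 := by
  obtain ⟨-, -, a1, a2⟩ := prF_ord hu ou.1 ou.2
  obtain ⟨-, -, b1, b2⟩ := prF_ord hv ov.1 ov.2
  exact ⟨mul_pos (lt_max_of_lt_left (prF_pos hu 2)) (dpow_pos D.B n _),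
    mul_le_mul_of_nonneg_right (max_le_max a1 b1) (dpow_pos D.B n _).le,
    mul_le_mul_of_nonneg_right (max_le_max a2 b2) (dpow_pos D.B n _).le⟩

/-- **chain**: the relevant axes of the marks of all levels are near the standard ones -/
theorem MkW.chain {p : Par4} {D : Dat4} {C c : ℝ} {dE dB : Prop} (h : MkW p D C c dE dB)
    (hC : 0 ≤ C) (h1 : ∀ᶠ n in (U : Filter ℕ), ∀ x ∈ D.I n, Nst dE dB (1 / 20) (mkS D n 1 x).e)
    {v : ℚ} (h0 : 0 ≤ v) (hv : v ≤ 1) :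
    ∀ᶠ n in (U : Filter ℕ), ∀ x ∈ D.I n, Nst dE dB (1 / 5) (mkS D n v x).e := by
  rcases hv.eq_or_lt with rfl | hlt
  · filter_upwards [h1] with n hn x hx using (hn x hx).mono (by norm_num)
  have hc := h.c0
  obtain ⟨N, hN⟩ := exists_nat_gt (4 * C / c)
  have hNpos : 0 < N := by
    have : (0 : ℝ) < N := lt_of_le_of_lt (by positivity) hN
    exact_mod_cast this
  have hN' : (0 : ℝ) < N := by exact_mod_cast hNpos
  have hNq : (0 : ℚ) < N := by exact_mod_cast hNpos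
  have hCN : C / N ≤ c / 4 := by
    rw [div_lt_iff₀ hc] at hN
    rw [div_le_iff₀ hN']
    linarith
  set m : ℕ → ℚ := fun k => 1 - k * ((1 - v) / N) with hm
  have hs : 0 < (1 - v) / (N : ℚ) := div_pos (by linarith) hNq
  have m1 : ∀ k, m k ≤ 1 := fun k => by
    have : (0 : ℚ) ≤ k * ((1 - v) / N) := by positivity
    simp only [hm]; linarith
  have mN : m N = v := by
    simp only [hm]
    field_simp
    ring
  have ms : ∀ k, m k - m (k + 1) = (1 - v) / N := fun k => by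
    simp only [hm]; push_cast; ring
  have manti : ∀ k l, k ≤ l → m l ≤ m k := fun k l hkl => by
    have : (k : ℚ) ≤ l := by exact_mod_cast hkl
    simp only [hm]
    nlinarith
  have m0 : ∀ k, k ≤ N → v ≤ m k := fun k hk => by rw [← mN]; exact manti k N hk
  have key : ∀ k, k ≤ N → ∀ᶠ n in (U : Filter ℕ), ∀ x ∈ D.I n,
      Nst dE dB (1 / 20 + k / (20 * N)) (mkS D n (m k) x).e := by
    intro k
    induction k with
    | zero =>
      intro _
      have e1 : m 0 = 1 := by simp [hm]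
      filter_upwards [h1] with n hn x hx
      rw [e1]
      refine (hn x hx).mono ?_
      simp
    | succ k ih =>
      intro hk
      have g0 := h0.trans (m0 (k + 1) hk)
      have g1 := m1 k
      have glt : m (k + 1) < m k := by have := ms k; linarith
      have gk := g0.trans glt.le
      have hstep : C * (((m k : ℚ) : ℝ) - (m (k + 1) : ℚ)) ≤ c / 4 := by
        rw [← Rat.cast_sub, ms]
        push_cast
        have hv' : (0 : ℝ) ≤ v := by exact_mod_cast h0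
        calc C * ((1 - (v : ℝ)) / N) ≤ C * (1 / N) := by
              refine mul_le_mul_of_nonneg_left ?_ hC
              exact div_le_div_of_nonneg_right (by linarith) hN'.le
          _ = C / N := by ring
          _ ≤ c / 4 := hCN
      have hsl : ∀ j : Fin 3, (∀ᶠ n in (U : Filter ℕ), prF D.w j n (m (k + 1)) ≤ D.B.d n ^ c) →
          (∀ᶠ n in (U : Filter ℕ), prF D.w j n (m k) ≤ D.B.d n ^ c) →
          ∀ᶠ n in (U : Filter ℕ), tb D C (m (k + 1)) (m k) (c / 4) n j ≤ 1 / (40 * N) := by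
        intro j p1 p2
        filter_upwards [p1, p2, Crest.Agent.R138.Ps926.dpow_small D.B (show 0 < c / 2 by positivity)
          (ε := 1 / (40 * (N : ℝ))) (by positivity)] with n a1 a2 a3
        unfold tb
        calc max (prF D.w j n (m (k + 1))) (prF D.w j n (m k)) *
              D.B.d n ^ (-(C * (((m k : ℚ) : ℝ) - (m (k + 1) : ℚ))) - c / 4)
            ≤ D.B.d n ^ c * D.B.d n ^ (-(c / 2)) :=
              mul_le_mul (max_le a1 a2) (dpow_le D.B n (by linarith)) (dpow_pos D.B n _).le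
                (dpow_pos D.B n _).le
          _ = D.B.d n ^ (c / 2) := by rw [← dpow_add]; congr 1; ring
          _ ≤ _ := a3.le
      have hEs : ∀ᶠ n in (U : Filter ℕ), ¬ dE → tb D C (m (k + 1)) (m k) (c / 4) n 0 ≤
          1 / (40 * N) := by
        by_cases hd : dE
        · exact Eventually.of_forall fun n hn => absurd hd hn
        · filter_upwards [hsl 0 (h.E2 hd _ g0 (m1 _)) (h.E2 hd _ gk g1)] with n hn _ using hn
      have hBs : ∀ᶠ n in (U : Filter ℕ), ¬ dB → tb D C (m (k + 1)) (m k) (c / 4) n 1 ≤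
          1 / (40 * N) := by
        by_cases hd : dB
        · exact Eventually.of_forall fun n hn => absurd hd hn
        · filter_upwards [hsl 1 (h.B2 hd _ g0 (m1 _)) (h.B2 hd _ gk g1)] with n hn _ using hn
      filter_upwards [ih (by omega), h.tilt (m (k + 1)) (m k) g0 glt g1 (c / 4) (by positivity),
        hEs, hBs, mark4 h.mka g0 (m1 _), wpos_all h.mka g0 (m1 _), wpos_all h.mka gk g1,
        ord4 h.mka g0 (m1 _), ord4 h.mka gk g1] with n a1 a2 a3 a4 a5 a6 a7 a8 a9 x hx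
      obtain ⟨-, t20, t21⟩ := tb_le (C := C) (ε := c / 4) a6 a7 a8 a9
      obtain ⟨⟨b1, -⟩, ⟨b2, -⟩, ⟨b3, b4⟩⟩ := a2 x hx
      have h2 := (a1 x hx).trans (a5 x hx).2.1 (η := 1 / (40 * N))
        (fun hd => b3.trans (t21.trans (a4 hd))) (fun hd => b2.trans (a4 hd))
        (fun hd => b4.trans (t20.trans (a3 hd))) (fun hd => b1.trans (a3 hd))
      refine h2.mono (le_of_eq ?_)
      push_cast
      field_simp
      ring
  have h2 := key N le_rfl
  rw [mN] at h2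
  filter_upwards [h2] with n hn x hx
  refine (hn x hx).mono ?_
  have e1 : (N : ℝ) / (20 * N) = 1 / 20 := by field_simp
  rw [e1]; norm_num

end Crest.Agent.R136.Ut262
end

-- ▼ part R136/Ut4_627
section

/-!
# R136, U6 thick side (helper627): output of the second zoom for the flags of planks

`OutF` : one structure with everything the consumers of the second zoom need; `outF` : existence.
-/

set_option autoImplicit false
set_option linter.unusedVariables false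
set_option linter.unusedSectionVars false

open Finset Filter Topology

namespace Crest.Agent.R136.Ut627

open Crest.Agent.R138.Ex926 (Base U)
open Crest.Agent.R138.Dp76
open Crest.Agent.R138.Mk163 (zc zl rho alive own Negl)
open Crest.Agent.R136.MkA627
open Crest.Agent.R136.TD627

/-- trichotomy of one slot -/
def SlotT {m : ℕ} {φ : Type*} (P : TDist φ m) (β : Fin m → ℝ) (B : Base)
    (I : ℕ → Finset (ℕ × ℝ)) (lev : ℕ → ℚ → ℕ) (fl : ℕ → ℕ × ℝ → φ) (sc : Fin m → ℕ → ℝ)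
    (C0 : Fin m → ℝ) (j : Fin m) : Prop :=
  InvT P B I j fl (sc j) ∨
    (0 < β j ∧ RotT P B I lev j fl (sc j) (C0 j) (fun u => β j * u)) ∨
    (0 < β j ∧ ∃ a ∈ P.M.mon j, ∑ t, (a t : ℝ) * β t = β j ∧
      ∀ t, a t ≠ 0 → ¬ InvT P B I t fl (sc t))

/-- capped slot of a plank: the slot `F_a`, with `E` and `F_b` visible -/
theorem SlotT.planks {θ : Fin 3 → ℝ} {B : Base} {I : ℕ → Finset (ℕ × ℝ)} {lev : ℕ → ℚ → ℕ}
    {fl : ℕ → ℕ × ℝ → Fin 3 → ℝ} {sc : Fin 3 → ℕ → ℝ} {C0 : Fin 3 → ℝ} {j : Fin 3}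
    (h : SlotT tdF (btF θ) B I lev fl sc C0 j) :
    InvT tdF B I j fl (sc j) ∨
      (0 < btF θ j ∧ RotT tdF B I lev j fl (sc j) (C0 j) (fun u => btF θ j * u)) ∨
      (j = 2 ∧ 0 < btF θ 2 ∧ ¬ InvT tdF B I 0 fl (sc 0) ∧ ¬ InvT tdF B I 1 fl (sc 1)) := by
  rcases h with h | h | ⟨h0, a, ha, -, h1⟩
  · exact Or.inl h
  · exact Or.inr (Or.inl h)
  · obtain ⟨rfl, rfl⟩ := mem_monF (show a ∈ monF.mon j from ha)
    exact Or.inr (Or.inr ⟨rfl, h0, h1 0 (by simp), h1 1 (by simp)⟩)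

/-- **output of the second zoom for the flags of planks**: `H n` = length of the window, `mm n` =
level map, `B' I' A' sc'` = base, incidences, amplitude, scales of the window. -/
structure OutF {σ : Type*} (Q : ℕ → ℕ → ℚ → ℝ → Prop) (G : Geo σ (Fin 3)) (g s : ℝ) (θ : Fin 3 → ℝ)
    (B : Base) (I : ℕ → Finset (ℕ × ℝ)) (lev : ℕ → ℚ → ℕ) (f : ℕ → ℚ → ℕ → ℤ → ℕ)
    (b : ℕ → ℚ → ℕ → σ) (vm : ℕ → ℚ → ℝ) (w : Fin 3 → ℕ → ℚ → ℝ)
    (sn : ℕ → ℚ → ℕ × ℝ → Fin 3 → ℝ) (fl : ℕ → ℕ × ℝ → Fin 3 → ℝ)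
    (H : ℕ → ℝ) (mm : ℕ → ℚ → ℚ) (B' : Base) (I' : ℕ → Finset (ℕ × ℝ)) (A' : ℕ → ℝ)
    (sc' : Fin 3 → ℕ → ℝ) : Prop where
  H01 : ∀ n, 0 < H n ∧ H n ≤ 1
  mm01 : ∀ n, ∀ x : ℚ, 0 ≤ x → x ≤ 1 → 0 ≤ mm n x ∧ mm n x ≤ 1
  mmq : ∀ n, ∀ x y : ℚ, (mm n y : ℝ) - mm n x = H n * ((y : ℝ) - x)
  Bd : ∀ n, B'.d n = B.d n ^ H n
  sub : ∀ᶠ n in (U : Filter ℕ), I' n ⊆ I n
  carry : CarryH fun i n v δ => Q i n (mm n v) (H n * δ)
  sys : TSys tdF G g s θ (btF θ) B' I' (fun n x => lev n (mm n x)) A' (fun n x => f n (mm n x))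
    (fun n x => b n (mm n x)) (fun n x => vm n (mm n x)) (fun j n x => w j n (mm n x))
    (fun n x => sn n (mm n x)) (prF fun j n x => w j n (mm n x)) fl sc'
  slot : ∀ j, SlotT tdF (btF θ) B' I' (fun n x => lev n (mm n x)) fl sc'
    (fun j => |btF θ j| + 1) j

section

variable {σ : Type*} {Q : ℕ → ℕ → ℚ → ℝ → Prop} {G : Geo σ (Fin 3)} {g s : ℝ} {θ : Fin 3 → ℝ}
    {B : Base} {I : ℕ → Finset (ℕ × ℝ)} {lev : ℕ → ℚ → ℕ} {A : ℕ → ℝ}
    {f : ℕ → ℚ → ℕ → ℤ → ℕ} {b : ℕ → ℚ → ℕ → σ} {vm : ℕ → ℚ → ℝ} {w : Fin 3 → ℕ → ℚ → ℝ}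
    {sn : ℕ → ℚ → ℕ × ℝ → Fin 3 → ℝ}

/-- **second zoom for the flags of planks, with carried properties.** -/
theorem outF {C : ℝ} (hC : 0 ≤ C)
    (hM : MkA B I G lev A (fun v => g * v) (fun v => s * v) (fun j v => θ j * (1 - v)) f b vm w)
    (hsn : SnCell I lev sn) (hT : ∀ j, TiltT tdF B I sn (prF w) j C) (hQ : CarryH Q) :
    ∃ (H : ℕ → ℝ) (mm : ℕ → ℚ → ℚ) (B' : Base) (I' : ℕ → Finset (ℕ × ℝ)) (A' : ℕ → ℝ)
      (sc' : Fin 3 → ℕ → ℝ),
      OutF Q G g s θ B I lev f b vm w sn (flF θ sn) H mm B' I' A' sc' := by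
  obtain ⟨J, hJI, hJd, hS, hI⟩ := tsysF hC hM hsn hT
  obtain ⟨H, mm, B', I', A', sc', h1, h2, h3, h4, h5, h6, h7, h8, h9⟩ :=
    NatTQ.mono (Eventually.of_forall hJI) (hS.natTQ hQ hI (C0 := fun j => |btF θ j| + 1) fun j => by
      have := le_abs_self (btF θ j)
      linarith)
  exact ⟨H, mm, B', I', A', sc', h1, h2, h3, h4, h5, h6, h7, h9⟩

/-- the same from the tilt everywhere -/
theorem tiltT_of_tiltE {C : ℝ} {c Λ : ℝ → ℝ} {τ : Fin 3 → ℝ → ℝ}
    (hM : MkA B I G lev A c Λ τ f b vm w) {j : Fin 3} (hT : TiltE tdF B I sn (prF w) j C) :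
    TiltT tdF B I sn (prF w) j C := by
  intro u v h0 huv h1 ε hε
  refine Negl.false.mono ?_
  filter_upwards [hT u v h0 huv h1 (ε / 2) (by positivity),
    wpos_all hM h0 (huv.le.trans h1)] with n a1 a2 x hx hcon
  have hp : 0 < prF w j n u := by
    fin_cases j
    · exact div_pos (a2 2) (a2 1)
    · exact div_pos (a2 0) (a2 2)
    · exact div_pos (a2 0) (a2 1)
  have hM0 : 0 < max (prF w j n u) (prF w j n v) := hp.trans_le (le_max_left _ _)
  have h2 := hcon.trans (a1 x hx)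
  have h3 := le_of_mul_le_mul_left h2 hM0
  have h4 : B.d n ^ (-(C * ((v : ℝ) - u)) - ε / 2) < B.d n ^ (-(C * ((v : ℝ) - u)) - ε) := by
    refine Real.rpow_lt_rpow_of_exponent_gt (B.pos n) (B.lt n) (by linarith)
  exact absurd h3 (not_le.2 h4)

end

section out

variable {σ : Type*} {Q : ℕ → ℕ → ℚ → ℝ → Prop} {G : Geo σ (Fin 3)} {g s : ℝ} {θ : Fin 3 → ℝ}
    {B : Base} {I : ℕ → Finset (ℕ × ℝ)} {lev : ℕ → ℚ → ℕ} {A : ℕ → ℝ}
    {f : ℕ → ℚ → ℕ → ℤ → ℕ} {b : ℕ → ℚ → ℕ → σ} {vm : ℕ → ℚ → ℝ} {w : Fin 3 → ℕ → ℚ → ℝ}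
    {sn : ℕ → ℚ → ℕ × ℝ → Fin 3 → ℝ} {fl : ℕ → ℕ × ℝ → Fin 3 → ℝ} {sc : Fin 3 → ℕ → ℝ}

/-- closeness in the frame of the composite flag -/
theorem close_fl (h : TSys tdF G g s θ (btF θ) B I lev A f b vm w sn (prF w) fl sc)
    {v : ℚ} (h0 : 0 ≤ v) (h1 : v ≤ 1) {ε : ℝ} (hε : 0 < ε) : ∀ᶠ n in (U : Filter ℕ), ∀ x ∈ I n,
      |sn n v x 0 - fl n x 0| ≤ w 2 n v / w 1 n v * B.d n ^ (-ε) ∧
      |sn n v x 1 - fl n x 1| ≤ w 0 n v / w 2 n v * B.d n ^ (-ε) ∧
      |(sn n v x 2 - fl n x 2) + fl n x 0 * (sn n v x 1 - fl n x 1)| ≤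
        w 0 n v / w 1 n v * B.d n ^ (-ε) := by
  filter_upwards [h.close 0 v h0 h1 ε hε, h.close 1 v h0 h1 ε hε, h.close 2 v h0 h1 ε hε]
    with n a0 a1 a2 x hx
  exact ⟨a0 x hx, a1 x hx, a2 x hx⟩

/-- closeness in the frame of the mark -/
theorem close_sn (h : TSys tdF G g s θ (btF θ) B I lev A f b vm w sn (prF w) fl sc)
    {v : ℚ} (h0 : 0 ≤ v) (h1 : v ≤ 1) {ε : ℝ} (hε : 0 < ε) : ∀ᶠ n in (U : Filter ℕ), ∀ x ∈ I n,
      |fl n x 0 - sn n v x 0| ≤ w 2 n v / w 1 n v * B.d n ^ (-ε) ∧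
      |fl n x 1 - sn n v x 1| ≤ w 0 n v / w 2 n v * B.d n ^ (-ε) ∧
      |(fl n x 2 - sn n v x 2) + sn n v x 0 * (fl n x 1 - sn n v x 1)| ≤
        w 0 n v / w 1 n v * B.d n ^ (-ε) := by
  filter_upwards [close_fl h h0 h1 hε, close_fl h h0 h1 (ε := ε / 4) (by positivity),
    wpos_all h.mka h0 h1, ev_const B (C := (2 : ℝ)) (ε := ε / 4) (by norm_num) (by positivity)]
    with n a1 a2 a3 a4 x hx
  obtain ⟨b0, b1, b2⟩ := a1 x hx
  obtain ⟨c0, c1, c2⟩ := a2 x hx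
  refine ⟨by rwa [abs_sub_comm], by rwa [abs_sub_comm], ?_⟩
  have e1 : fl n x 2 - sn n v x 2 + sn n v x 0 * (fl n x 1 - sn n v x 1) =
      -((sn n v x 2 - fl n x 2) + fl n x 0 * (sn n v x 1 - fl n x 1)) +
        -((sn n v x 0 - fl n x 0) * (sn n v x 1 - fl n x 1)) := by ring
  rw [e1]
  refine (abs_add_le _ _).trans ?_
  rw [abs_neg, abs_neg, abs_mul]
  have p0 : 0 < w 2 n v / w 1 n v := div_pos (a3 2) (a3 1)
  have p2 : 0 < w 0 n v / w 1 n v := div_pos (a3 0) (a3 1)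
  have hmul : w 2 n v / w 1 n v * (w 0 n v / w 2 n v) = w 0 n v / w 1 n v := by
    have := a3 1
    have := a3 2
    field_simp
  have hprod : |sn n v x 0 - fl n x 0| * |sn n v x 1 - fl n x 1| ≤
      w 0 n v / w 1 n v * B.d n ^ (-(ε / 2)) := by
    calc |sn n v x 0 - fl n x 0| * |sn n v x 1 - fl n x 1|
        ≤ (w 2 n v / w 1 n v * B.d n ^ (-(ε / 4))) * (w 0 n v / w 2 n v * B.d n ^ (-(ε / 4))) :=
          mul_le_mul c0 c1 (abs_nonneg _) (mul_pos p0 (dpow_pos B n _)).le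
      _ = (w 2 n v / w 1 n v * (w 0 n v / w 2 n v)) * (B.d n ^ (-(ε / 4)) * B.d n ^ (-(ε / 4))) := by
          ring
      _ = _ := by
          rw [hmul, ← dpow_add]
          congr 2
          ring
  have h4 := a4 (w 0 n v / w 1 n v) (-ε) p2.le
  have h5 : w 0 n v / w 1 n v * B.d n ^ (-(ε / 4)) ≤ w 0 n v / w 1 n v * B.d n ^ (-ε + ε / 4) :=
    mul_le_mul_of_nonneg_left (dpow_le B n (by linarith)) p2.le
  have h6 : w 0 n v / w 1 n v * B.d n ^ (-(ε / 2)) ≤ w 0 n v / w 1 n v * B.d n ^ (-ε + ε / 4) :=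
    mul_le_mul_of_nonneg_left (dpow_le B n (by linarith)) p2.le
  linarith

end out

end Crest.Agent.R136.Ut627
end

-- ▼ part R136/Ut5_627
section

/-!
# R136, U6 thick side (helper627): visible and tied slots of the flags of planks

`visF` : if `E` and `F_b` are tied, then `F_a` is visible; `slotOk3` : summary.
-/

set_option autoImplicit false
set_option linter.unusedVariables false
set_option linter.unusedSectionVars false

open Finset Filter Topology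

namespace Crest.Agent.R136.Ut627

open Crest.Agent.R138.Ex926 (Base U)
open Crest.Agent.R138.Dp76
open Crest.Agent.R138.Ps926
open Crest.Agent.R138.Mk163 (zc zl rho alive own Negl)
open Crest.Agent.R136.MkA627
open Crest.Agent.R136.TD627
open Crest.Agent.R136.Slt627 (own_pos card_fibre)

variable {σ : Type*} {G : Geo σ (Fin 3)} {g s : ℝ} {θ : Fin 3 → ℝ}
    {B : Base} {I : ℕ → Finset (ℕ × ℝ)} {lev : ℕ → ℚ → ℕ} {A : ℕ → ℝ}
    {f : ℕ → ℚ → ℕ → ℤ → ℕ} {b : ℕ → ℚ → ℕ → σ} {vm : ℕ → ℚ → ℝ} {w : Fin 3 → ℕ → ℚ → ℝ}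
    {sn : ℕ → ℚ → ℕ × ℝ → Fin 3 → ℝ} {fl : ℕ → ℕ × ℝ → Fin 3 → ℝ} {sc : Fin 3 → ℕ → ℝ}

open Classical in
/-- a tied slot rotates: some incidence of the line is far -/
theorem exists_far {j : Fin 3} {C0 : ℝ}
    (hM : MkA B I G lev A (fun v => g * v) (fun v => s * v) (fun j v => θ j * (1 - v)) f b vm w)
    (hR : RotT tdF B I lev j fl (sc j) C0 (fun u => btF θ j * u)) {r : ℝ} (hr : 0 < r)
    (hrC : r ≤ C0) : ∀ᶠ n in (U : Filter ℕ), ∀ x ∈ I n, ∃ y ∈ I n, y.1 = x.1 ∧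
      sc j n * B.d n ^ r < |coF (fl n x) (fl n y) j| := by
  obtain ⟨γ, hγ, h1⟩ := hR.tw 0 le_rfl one_pos r (by
    show btF θ j * ((0 : ℚ) : ℝ) < r
    push_cast; rw [mul_zero]; exact hr) hrC
  filter_upwards [h1, dpow_small B hγ (ε := 1) one_pos, card_fibre hM] with n a1 a2 a3 x hx
  by_contra hcon
  push Not at hcon
  have b1 := a1 x hx
  have e1 : ((I n).filter fun y => y.1 = x.1 ∧ zc (lev n 0) y.2 = zc (lev n 0) x.2 ∧
      tdF.d j n (fl n x) (fl n y) ≤ sc j n * B.d n ^ r) =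
      (I n).filter fun y => y.1 = x.1 ∧ zc (lev n 0) y.2 = zc (lev n 0) x.2 := by
    refine filter_congr fun y hy => ⟨fun hh => ⟨hh.1, hh.2.1⟩, fun hh => ⟨hh.1, hh.2, ?_⟩⟩
    exact hcon y hy hh.1
  rw [e1, a3 x hx 0] at b1
  have hp : (0 : ℝ) < ((own (I n) (lev n 0) (lev n 1) x).card : ℝ) := by
    exact_mod_cast own_pos hx
  have b2 := mul_lt_mul_of_pos_right a2 hp
  linarith

/-- **if `E` and `F_b` are tied, then `F_a` is visible.** -/
theorem visF (hS : TSys tdF G g s θ (btF θ) B I lev A f b vm w sn (prF w) fl sc) {C0 : Fin 3 → ℝ}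
    (hC0 : 0 < C0 0) (hC1 : 0 < C0 1)
    (h0 : RotT tdF B I lev 0 fl (sc 0) (C0 0) (fun u => btF θ 0 * u))
    (h1 : RotT tdF B I lev 1 fl (sc 1) (C0 1) (fun u => btF θ 1 * u)) :
    ¬ InvT tdF B I 2 fl (sc 2) := by
  intro hI
  set r : ℝ := min (C0 0) (C0 1) with hr
  have hr0 : 0 < r := lt_min hC0 hC1
  have hfalse : ∀ᶠ n in (U : Filter ℕ), False := by
    filter_upwards [exists_far hS.mka h0 hr0 (min_le_left _ _),
      exists_far hS.mka h1 hr0 (min_le_right _ _), hI (2 * r + 3 + 1), hS.mka.ne,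
      hS.pr_le 0 le_rfl zero_le_one one_pos, hS.pr_le 1 le_rfl zero_le_one one_pos,
      hS.pr_le 2 le_rfl zero_le_one one_pos, wpos_all hS.mka le_rfl zero_le_one,
      dpow_small B (c := 1) one_pos (ε := 1 / 3) (by norm_num)] with n a0 a1 a2 a3 p0 p1 p2 a4 a5
    obtain ⟨x, hx⟩ := a3
    obtain ⟨y, hy, hyx, hE⟩ := a0 x hx
    obtain ⟨z, hz, hzy, hF⟩ := a1 y hy
    have c1 := a2 x hx y hy hyx
    have c2 := a2 y hy z hz hzy
    have c3 := a2 x hx z hz (hzy.trans hyx)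
    rw [tdF_d] at c1 c2 c3
    have e1 : coF (fl n x) (fl n y) 0 * coF (fl n y) (fl n z) 1 =
        coF (fl n x) (fl n y) 2 + coF (fl n y) (fl n z) 2 - coF (fl n x) (fl n z) 2 := by
      simp only [coF_zero, coF_one, coF_two]; ring
    have s0 := hS.scpos 0 n
    have s1 := hS.scpos 1 n
    have s2 := hS.scpos 2 n
    have hmul := prF_mul a4
    simp only [Rat.cast_zero, mul_zero, zero_sub, zero_add] at p0 p1 p2
    -- `sc₂ d³ ≤ sc₀ sc₁`
    have q2 : sc 2 n * B.d n ^ (3 : ℝ) ≤ sc 0 n * sc 1 n := by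
      have t0 : 0 < prF w 0 n 0 := div_pos (a4 2) (a4 1)
      have t1 : 0 < prF w 1 n 0 := div_pos (a4 0) (a4 2)
      have u1 : prF w 0 n 0 * prF w 1 n 0 ≤
          (sc 0 n * B.d n ^ (-(1 : ℝ))) * (sc 1 n * B.d n ^ (-(1 : ℝ))) :=
        mul_le_mul p0.1 p1.1 t1.le (mul_pos s0 (dpow_pos B n _)).le
      rw [hmul] at u1
      have u2 := p2.2.trans u1
      have u3 := mul_le_mul_of_nonneg_right u2 (dpow_pos B n (2 : ℝ)).le
      calc sc 2 n * B.d n ^ (3 : ℝ) = sc 2 n * B.d n ^ (1 : ℝ) * B.d n ^ (2 : ℝ) := by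
            rw [mul_assoc, ← dpow_add]; norm_num
        _ ≤ _ := u3
        _ = sc 0 n * sc 1 n * (B.d n ^ (-(1 : ℝ)) * B.d n ^ (-(1 : ℝ)) * B.d n ^ (2 : ℝ)) := by ring
        _ = sc 0 n * sc 1 n := by
            rw [← dpow_add, ← dpow_add]; norm_num
    have hlow : sc 2 n * B.d n ^ (2 * r + 3) < |coF (fl n x) (fl n y) 0| *
        |coF (fl n y) (fl n z) 1| := by
      have v1 : sc 0 n * B.d n ^ r * (sc 1 n * B.d n ^ r) <
          |coF (fl n x) (fl n y) 0| * |coF (fl n y) (fl n z) 1| :=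
        mul_lt_mul'' hE hF (mul_pos s0 (dpow_pos B n _)).le (mul_pos s1 (dpow_pos B n _)).le
      refine lt_of_le_of_lt ?_ v1
      calc sc 2 n * B.d n ^ (2 * r + 3) = (sc 2 n * B.d n ^ (3 : ℝ)) * B.d n ^ (2 * r) := by
            rw [mul_assoc, ← dpow_add]; ring_nf
        _ ≤ (sc 0 n * sc 1 n) * B.d n ^ (2 * r) :=
            mul_le_mul_of_nonneg_right q2 (dpow_pos B n _).le
        _ = sc 0 n * B.d n ^ r * (sc 1 n * B.d n ^ r) := by
            have : B.d n ^ (2 * r) = B.d n ^ r * B.d n ^ r := by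
              rw [← dpow_add]; congr 1; ring
            rw [this]; ring
    have hup : |coF (fl n x) (fl n y) 0| * |coF (fl n y) (fl n z) 1| ≤
        3 * (sc 2 n * B.d n ^ (2 * r + 3 + 1)) := by
      rw [← abs_mul, e1]
      have k1 := abs_sub (coF (fl n x) (fl n y) 2 + coF (fl n y) (fl n z) 2)
        (coF (fl n x) (fl n z) 2)
      have k2 := abs_add_le (coF (fl n x) (fl n y) 2) (coF (fl n y) (fl n z) 2)
      linarith
    have h3 : 3 * (sc 2 n * B.d n ^ (2 * r + 3 + 1)) ≤ sc 2 n * B.d n ^ (2 * r + 3) := by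
      rw [dpow_add B n (2 * r + 3) 1]
      have hd := dpow_pos B n (2 * r + 3)
      have : 3 * B.d n ^ (1 : ℝ) ≤ 1 := by linarith
      calc 3 * (sc 2 n * (B.d n ^ (2 * r + 3) * B.d n ^ (1 : ℝ)))
          = (sc 2 n * B.d n ^ (2 * r + 3)) * (3 * B.d n ^ (1 : ℝ)) := by ring
        _ ≤ (sc 2 n * B.d n ^ (2 * r + 3)) * 1 :=
            mul_le_mul_of_nonneg_left this (mul_pos s2 hd).le
        _ = _ := mul_one _
    linarith
  obtain ⟨n, hn⟩ := hfalse.exists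
  exact hn

/-- `V j` : the slot `j` is visible -/
def Vis (B : Base) (I : ℕ → Finset (ℕ × ℝ)) (fl : ℕ → ℕ × ℝ → Fin 3 → ℝ) (sc : Fin 3 → ℕ → ℝ)
    (j : Fin 3) : Prop := ¬ InvT tdF B I j fl (sc j)

/-- `T j` : the slot `j` is visible and not capped -/
def Tie (B : Base) (I : ℕ → Finset (ℕ × ℝ)) (fl : ℕ → ℕ × ℝ → Fin 3 → ℝ) (sc : Fin 3 → ℕ → ℝ)
    (j : Fin 3) : Prop :=
  Vis B I fl sc j ∧ (j = 2 → ¬ (Vis B I fl sc 0 ∧ Vis B I fl sc 1))

/-- **summary of the slots of planks.** -/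
theorem slotOk3 (hS : TSys tdF G g s θ (btF θ) B I lev A f b vm w sn (prF w) fl sc)
    (hT : ∀ j, SlotT tdF (btF θ) B I lev fl sc (fun j => |btF θ j| + 1) j) :
    (∀ j, Vis B I fl sc j → 0 < btF θ j) ∧
    (∀ j, Tie B I fl sc j →
      RotT tdF B I lev j fl (sc j) (|btF θ j| + 1) (fun u => btF θ j * u)) ∧
    (∀ j, Vis B I fl sc j → ¬ Tie B I fl sc j → j = 2 ∧ Vis B I fl sc 0 ∧ Vis B I fl sc 1) ∧
    (Vis B I fl sc 0 → Vis B I fl sc 1 → Vis B I fl sc 2 ∧ ¬ Tie B I fl sc 2) := by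
  have hrot : ∀ j, Tie B I fl sc j →
      RotT tdF B I lev j fl (sc j) (|btF θ j| + 1) (fun u => btF θ j * u) := by
    intro j hj
    rcases (hT j).planks with h | h | h
    · exact absurd h hj.1
    · exact h.2
    · exact absurd ⟨h.2.2.1, h.2.2.2⟩ (hj.2 h.1)
  refine ⟨fun j hj => ?_, hrot, fun j hj hjT => ?_, fun h0 h1 => ⟨?_, fun h => h.2 rfl ⟨h0, h1⟩⟩⟩
  · rcases hT j with h | h | h
    · exact absurd h hj
    · exact h.1
    · exact h.1
  · by_contra hcon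
    apply hjT
    refine ⟨hj, fun hj2 hV => hcon ⟨hj2, hV.1, hV.2⟩⟩
  · exact visF hS (C0 := fun j => |btF θ j| + 1) (by positivity) (by positivity)
      (hrot 0 ⟨h0, fun h => absurd h (by decide)⟩) (hrot 1 ⟨h1, fun h => absurd h (by decide)⟩)

end Crest.Agent.R136.Ut627
end

-- ▼ part R136/Ut6_262

/-!
# R136 (S0187), U6 thick side (helper262), part 4: slopes of the marks, final assembly

`snD` : clipped slopes of the marks; `tiltE_snD`, `snCell_snD` : inputs of 627's `outF`;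
`thickPre_of_flat` : linear marked sequence with flat marks and flat tilt ⊢ `ThickPre`.
-/

set_option autoImplicit false
set_option linter.unusedVariables false
set_option linter.unusedSectionVars false

open Finset Filter Topology

namespace Crest.Agent.R136.Ut262

open Crest.Agent.R138.Ex926 (Base U)
open Crest.Agent.R138.Dp76
open Crest.Agent.R138.Mk163 (zc zl rho alive own Negl)
open Crest.Agent.R138.MkRef627 (kc)
open Crest.Agent.R136.MkA627 Crest.Agent.R136.Sh605 Crest.Agent.R136.K4 Crest.Agent.R136.Top484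
open Crest.Agent.R136.GeoQ186 (fr fr_adm fr_ortho sA sB sE sA_fr sB_fr sE_fr Adm cLn fpv pv)
open Crest.Agent.R136.Ut627 (prF prF_zero prF_one prF_two prLinF wpos_all btF tdF tdF_d coF coF_zero
  coF_one coF_two SnCell flF tiltT_of_tiltE OutF outF close_sn)
open Crest.Agent.R136.TD627 (TiltE TiltT CarryH ev_const)
open Crest.Agent.R136.NatT550 (ParOk SlotOk ThickPre)
open Crest.Agent.R136.Wq638 (thickPre_of)

/-! ### everything up to the second zoom -/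

/-- **rotated window**: the relevant axes of all marks are near the standard ones -/
theorem exists_mkN {p : Par4} {D : Dat4}
    (hM : MkA D.B D.I (D.G p) D.lev D.A (fun v => p.g * v) (fun v => 0 * v)
      (fun j v => p.θ j * (1 - v)) D.f D.b D.vm D.w) (hF : FlatMk D) (hT : TiltF D)
    (hR : Rng D.B D.wr D.cr D.w) :
    ∃ (D' : Dat4) (C c : ℝ) (dE dB : Prop), 0 ≤ C ∧ MkW p D' C c dE dB ∧
      ∀ v : ℚ, 0 ≤ v → v ≤ 1 → ∀ᶠ n in (U : Filter ℕ), ∀ x ∈ D'.I n,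
        Nst dE dB (1 / 5) (mkS D' n v x).e := by
  obtain ⟨C, J, hC, -, -, h1⟩ := exists_mkF hM hF hT hR
  obtain ⟨B', I', A', c, dE, dB, -, -, h2⟩ := exists_mkW h1
  obtain ⟨R, J', -, -, -, h3, h4⟩ := exists_rot h2
  exact ⟨_, C, c, dE, dB, hC, h3, fun v h0 hv => h3.chain hC h4 h0 hv⟩

/-! ### slopes of the marks -/

/-- clipped slope -/
noncomputable def cl (y : ℝ) : ℝ := if |y| ≤ 2 / 5 then y else 0

theorem cl_abs (y : ℝ) : |cl y| ≤ 2 / 5 := by
  unfold cl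
  split_ifs with h
  · exact h
  · rw [abs_zero]; norm_num

theorem cl_of {y : ℝ} (h : |y| ≤ 2 / 5) : cl y = y := if_pos h

/-- clipped slopes `(e, fb, fa)` of a frame -/
noncomputable def slF (dE dB : Prop) (F : Fin 3 → V3) : Fin 3 → ℝ :=
  ![cl (slE dE dB F), cl (slB dE dB F), cl (slA dE dB F)]

theorem slF_abs (dE dB : Prop) (F : Fin 3 → V3) (j : Fin 3) : |slF dE dB F j| ≤ 2 / 5 := by
  fin_cases j <;> exact cl_abs _

/-- slopes of the marks -/
noncomputable def snD (D : Dat4) (dE dB : Prop) (n : ℕ) (v : ℚ) (x : ℕ × ℝ) : Fin 3 → ℝ :=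
  slF dE dB (mkS D n v x).e

theorem slF_of {dE dB : Prop} {F : Fin 3 → V3} (h : Nst dE dB (1 / 5) F) :
    slF dE dB F = ![slE dE dB F, slB dE dB F, slA dE dB F] := by
  obtain ⟨a, b, c⟩ := h.small (by norm_num) (by norm_num)
  unfold slF
  rw [cl_of (by linarith), cl_of (by linarith), cl_of (by linarith)]

theorem snCell_snD (D : Dat4) (dE dB : Prop) : SnCell D.I D.lev (snD D dE dB) := by
  intro v h0 h1
  refine Eventually.of_forall fun n x hx y hy hxy hz => ?_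
  unfold snD mkS
  rw [hxy, hz]

section

variable {p : Par4} {D : Dat4} {C c : ℝ} {dE dB : Prop}

/-- degenerate slots -/
theorem MkW.deg (h : MkW p D C c dE dB) {v : ℚ} (h0 : 0 ≤ v) (h1 : v ≤ 1) {δ : ℝ} (hδ : 0 < δ) :
    ∀ᶠ n in (U : Filter ℕ), (dE → D.w 1 n v ≤ D.w 2 n v * D.B.d n ^ (-δ)) ∧
      (dB → D.w 2 n v ≤ D.w 0 n v * D.B.d n ^ (-δ)) := by
  have hE : ∀ᶠ n in (U : Filter ℕ), dE → D.w 1 n v ≤ D.w 2 n v * D.B.d n ^ (-δ) := by
    by_cases hd : dE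
    · filter_upwards [h.E1 hd v h0 h1 δ hδ, wpos_all h.mka h0 h1] with n a1 a2 _
      rw [prF_zero, le_div_iff₀ (a2 1)] at a1
      have p1 := dpow_pos D.B n δ
      rw [Real.rpow_neg (D.B.pos n).le, ← div_eq_mul_inv, le_div_iff₀ p1]
      linarith
    · exact Eventually.of_forall fun n hn => absurd hn hd
  have hB : ∀ᶠ n in (U : Filter ℕ), dB → D.w 2 n v ≤ D.w 0 n v * D.B.d n ^ (-δ) := by
    by_cases hd : dB
    · filter_upwards [h.B1 hd v h0 h1 δ hδ, wpos_all h.mka h0 h1] with n a1 a2 _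
      rw [prF_one, le_div_iff₀ (a2 2)] at a1
      have p1 := dpow_pos D.B n δ
      rw [Real.rpow_neg (D.B.pos n).le, ← div_eq_mul_inv, le_div_iff₀ p1]
      linarith
    · exact Eventually.of_forall fun n hn => absurd hn hd
  exact hE.and hB

/-- comparison of the precisions of degenerate slots -/
theorem prF_deg {w : Fin 3 → ℕ → ℚ → ℝ} {n : ℕ} {v : ℚ} {K : ℝ} (h : ∀ k, 0 < w k n v) :
    (w 1 n v ≤ w 2 n v * K → prF w 1 n v ≤ K * prF w 2 n v) ∧
      (w 2 n v ≤ w 0 n v * K → prF w 0 n v ≤ K * prF w 2 n v) := by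
  rw [prF_zero, prF_one, prF_two]
  have p0 := h 0
  have p1 := h 1
  have p2 := h 2
  constructor
  · intro h1
    rw [div_le_iff₀ p2]
    have e1 : K * (w 0 n v / w 1 n v) * w 2 n v = w 0 n v * (w 2 n v * K) / w 1 n v := by ring
    rw [e1, le_div_iff₀ p1]
    exact mul_le_mul_of_nonneg_left h1 p0.le
  · intro h1
    rw [← mul_div_assoc]
    exact div_le_div_of_nonneg_right (by linarith) p1.le

/-- **tilt of the slopes** -/
theorem tiltE_snD (h : MkW p D C c dE dB)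
    (hN : ∀ v : ℚ, 0 ≤ v → v ≤ 1 → ∀ᶠ n in (U : Filter ℕ), ∀ x ∈ D.I n,
      Nst dE dB (1 / 5) (mkS D n v x).e) (j : Fin 3) :
    TiltE tdF D.B D.I (snD D dE dB) (prF D.w) j C := by
  intro u v h0 huv h1 ε hε
  have hu1 := huv.le.trans h1
  have hv0 := h0.trans huv.le
  filter_upwards [h.tilt u v h0 huv h1 (ε / 4) (by positivity), hN u h0 hu1, hN v hv0 h1,
    h.deg h0 hu1 (show 0 < ε / 4 by positivity), h.deg hv0 h1 (show 0 < ε / 4 by positivity),
    wpos_all h.mka h0 hu1, wpos_all h.mka hv0 h1, ord4 h.mka h0 hu1, ord4 h.mka hv0 h1,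
    ev_const D.B (C := (16 : ℝ)) (ε := ε / 2) (by norm_num) (by positivity)]
    with n a1 a2 a3 a4 a5 a6 a7 a8 a9 a10 x hx
  obtain ⟨⟨t1, t2⟩, ⟨t3, t4⟩, ⟨t5, t6⟩⟩ := a1 x hx
  have Nu := a2 x hx
  have Nv := a3 x hx
  set K : ℝ := D.B.d n ^ (-(ε / 4)) with hK
  have hK1 : 1 ≤ K := by
    have := dpow_le D.B n (show -(ε / 4) ≤ 0 by linarith)
    rwa [Real.rpow_zero] at this
  have hK0 : 0 ≤ K := by linarith
  obtain ⟨q0, q1, q2⟩ := tb_le (C := C) (ε := ε / 4) a6 a7 a8 a9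
  have hmx : ∀ i : Fin 3, prF D.w i n u ≤ K * prF D.w 2 n u → prF D.w i n v ≤ K * prF D.w 2 n v →
      tb D C u v (ε / 4) n i ≤ K * tb D C u v (ε / 4) n 2 := by
    intro i b1 b2
    unfold tb
    rw [← mul_assoc]
    refine mul_le_mul_of_nonneg_right (max_le (b1.trans ?_) (b2.trans ?_)) (dpow_pos D.B n _).le
    · exact mul_le_mul_of_nonneg_left (le_max_left _ _) hK0
    · exact mul_le_mul_of_nonneg_left (le_max_right _ _) hK0
  have kE : dE → tb D C u v (ε / 4) n 1 ≤ K * tb D C u v (ε / 4) n 2 := fun hd =>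
    hmx 1 ((prF_deg a6).1 (a4.1 hd)) ((prF_deg a7).1 (a5.1 hd))
  have kB : dB → tb D C u v (ε / 4) n 0 ≤ K * tb D C u v (ε / 4) n 2 := fun hd =>
    hmx 0 ((prF_deg a6).2 (a4.2 hd)) ((prF_deg a7).2 (a5.2 hd))
  have hsd := slot_diff Nu Nv (by norm_num) hK1 q0.le q1 q2 kE kB
    (by rw [dt_comm]; exact t2) (by rw [dt_comm]; exact t4) (by rw [dt_comm]; exact t6)
    (by rw [dt_comm]; exact t5)
  -- numbers
  have hnum : ∀ i : Fin 3, 16 * (K * tb D C u v (ε / 4) n i) ≤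
      max (prF D.w i n u) (prF D.w i n v) * D.B.d n ^ (-(C * ((v : ℝ) - u)) - ε) := by
    intro i
    have hS : 0 ≤ max (prF D.w i n u) (prF D.w i n v) := (prF_pos a6 i).le.trans (le_max_left _ _)
    have h2 := a10 (max (prF D.w i n u) (prF D.w i n v)) (-(C * ((v : ℝ) - u)) - ε) hS
    have e1 : K * tb D C u v (ε / 4) n i = max (prF D.w i n u) (prF D.w i n v) *
        D.B.d n ^ (-(C * ((v : ℝ) - u)) - ε + ε / 2) := by
      unfold tb
      rw [hK, mul_left_comm, ← dpow_add]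
      congr 2
      ring
    rw [e1]
    exact h2
  have hbig : ∀ i : Fin 3, 16 * tb D C u v (ε / 4) n i ≤ 16 * (K * tb D C u v (ε / 4) n i) := by
    intro i
    have : 0 ≤ tb D C u v (ε / 4) n i := by
      unfold tb
      exact mul_nonneg ((prF_pos a6 i).le.trans (le_max_left _ _)) (dpow_pos D.B n _).le
    nlinarith
  rw [tdF_d]
  unfold snD
  rw [slF_of Nu, slF_of Nv]
  fin_cases j
  · exact hsd.1.trans ((hbig 0).trans (hnum 0))
  · exact hsd.2.1.trans ((hbig 1).trans (hnum 1))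
  · exact hsd.2.2.trans (hnum 2)

/-- properties carried by the second zoom -/
def QN (D : Dat4) (dE dB : Prop) (i n : ℕ) (v : ℚ) (δ : ℝ) : Prop :=
  (∀ x ∈ D.I n, Nst dE dB (1 / 5) (mkS D n v x).e) ∧
    (dE → D.w 1 n v ≤ D.w 2 n v * D.B.d n ^ (-δ)) ∧
    (dB → D.w 2 n v ≤ D.w 0 n v * D.B.d n ^ (-δ)) ∧ 0 < D.w 2 n v ∧ 0 < D.w 0 n v ∧
    ∀ k : Fin 3, D.wr k n ≤ D.B.d n ^ (i : ℝ) * D.w k n v ∧
      D.w k n v ≤ D.B.d n ^ (i : ℝ) * D.cr k n

end

/-! ### slots of the chart -/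

section slots

open Crest.Agent.R136.Ut627 (Vis Tie slotOk3 SlotT)
open Crest.Agent.R136.TD627 (TSys InvT RotT)
open Crest.Agent.R136.Wq638 (SlotQ incQ isSl btQ prQ)
open Crest.Agent.R136.NetQ186 (coQ Fq4)

/-- a property of the three slots as a property of the chart coordinates -/
def up3 (P : Fin 3 → Prop) (k : Fin 11) : Prop := (k = 2 ∧ P 0) ∨ (k = 3 ∧ P 1) ∨ (k = 4 ∧ P 2)

/-- slot of a chart coordinate -/
def sl3 (k : Fin 11) : Fin 3 := if k = 2 then 0 else if k = 3 then 1 else 2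

theorem up3_isSl {P : Fin 3 → Prop} {k : Fin 11} (h : up3 P k) : isSl k ∧ P (sl3 k) := by
  rcases h with ⟨rfl, h⟩ | ⟨rfl, h⟩ | ⟨rfl, h⟩
  · exact ⟨Or.inl rfl, h⟩
  · exact ⟨Or.inr (Or.inl rfl), h⟩
  · exact ⟨Or.inr (Or.inr rfl), h⟩

theorem up3_of {P : Fin 3 → Prop} {k : Fin 11} (hk : isSl k) (h : P (sl3 k)) : up3 P k := by
  rcases hk with rfl | rfl | rfl
  · exact Or.inl ⟨rfl, h⟩
  · exact Or.inr (Or.inl ⟨rfl, h⟩)
  · exact Or.inr (Or.inr ⟨rfl, h⟩)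

theorem btQ_sl3 (θ : Fin 3 → ℝ) {k : Fin 11} (hk : isSl k) : btQ θ k = btF θ (sl3 k) := by
  rcases hk with rfl | rfl | rfl <;> simp [btQ, btF, sl3]

theorem prQ_sl3 (w : Fin 3 → ℕ → ℚ → ℝ) {k : Fin 11} (hk : isSl k) (n : ℕ) (v : ℚ) :
    prQ w k n v = prF w (sl3 k) n v := by
  rcases hk with rfl | rfl | rfl <;> simp [prQ, prF, sl3]

theorem coQ_sl3 (π : Equiv.Perm (Fin 3)) (L : ℕ → ℕ → Ln4) (fl : ℕ → ℕ × ℝ → Fin 3 → ℝ)
    {k : Fin 11} (hk : isSl k) (n : ℕ) (x y : ℕ × ℝ) :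
    coQ (incQ π L (fun n x => fl n x 0) (fun n x => fl n x 2) (fun n x => fl n x 1) n x)
      (incQ π L (fun n x => fl n x 0) (fun n x => fl n x 2) (fun n x => fl n x 1) n y) k =
      coF (fl n x) (fl n y) (sl3 k) := by
  rcases hk with rfl | rfl | rfl <;> rfl

/-- **slots of the second zoom ⊢ slots of the chart** -/
theorem slotQ_of {σ : Type*} {G : Geo σ (Fin 3)} {g s : ℝ} {θ : Fin 3 → ℝ} {B : Base}
    {I : ℕ → Finset (ℕ × ℝ)} {lev : ℕ → ℚ → ℕ} {A : ℕ → ℝ} {f : ℕ → ℚ → ℕ → ℤ → ℕ}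
    {b : ℕ → ℚ → ℕ → σ} {vm : ℕ → ℚ → ℝ} {w : Fin 3 → ℕ → ℚ → ℝ}
    {sn : ℕ → ℚ → ℕ × ℝ → Fin 3 → ℝ} {fl : ℕ → ℕ × ℝ → Fin 3 → ℝ} {sc : Fin 3 → ℕ → ℝ}
    (hS : TSys tdF G g s θ (btF θ) B I lev A f b vm w sn (prF w) fl sc)
    (hT : ∀ j, SlotT tdF (btF θ) B I lev fl sc (fun j => |btF θ j| + 1) j)
    (π : Equiv.Perm (Fin 3)) (L : ℕ → ℕ → Ln4) :
    SlotQ B I lev w θ (incQ π L (fun n x => fl n x 0) (fun n x => fl n x 2) (fun n x => fl n x 1))
      (fun k => sc (sl3 k)) (up3 (Vis B I fl sc)) (up3 (Tie B I fl sc)) ∧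
    SlotOk θ (up3 (Vis B I fl sc)) (up3 (Tie B I fl sc)) := by
  obtain ⟨p1, p2, p3, p4⟩ := slotOk3 hS hT
  have tied : ∀ k, up3 (Tie B I fl sc) k → up3 (Vis B I fl sc) k := fun k hk => by
    obtain ⟨h1, h2⟩ := up3_isSl hk
    exact up3_of h1 h2.1
  refine ⟨⟨fun k hk => (up3_isSl hk).1, tied, fun k n => hS.scpos _ n, ?_, ?_, ?_, ?_⟩,
    ⟨tied, fun k hk => ?_, fun k hk hkT => ?_, fun h2 h3 => ?_⟩⟩
  · intro k hk
    have := hS.prc (sl3 k) 0 le_rfl zero_le_one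
    simp only [Rat.cast_zero, mul_zero] at this
    simpa only [prQ_sl3 w hk] using this
  · intro k hk u h0 h1 ε hε
    obtain ⟨hs, -⟩ := up3_isSl hk
    filter_upwards [hS.same_cell (sl3 k) h0 h1 hε] with n hn x hx y hy hxy hz
    rw [coQ_sl3 π L fl hs, btQ_sl3 θ hs]
    exact hn x hx y hy hxy hz
  · intro k hk hkV M
    have hI : InvT tdF B I (sl3 k) fl (sc (sl3 k)) := by
      by_contra hc
      exact hkV (up3_of hk hc)
    filter_upwards [hI M] with n hn x hx y hy hxy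
    rw [coQ_sl3 π L fl hk]
    exact hn x hx y hy hxy
  · intro k hk u h0 h1 r hr
    obtain ⟨hs, hT'⟩ := up3_isSl hk
    have hR := p2 _ hT'
    rw [btQ_sl3 θ hs] at hr
    set C0 : ℝ := |btF θ (sl3 k)| + 1 with hC0
    have hu1 : (u : ℝ) < 1 := by exact_mod_cast h1
    have hu0 : (0 : ℝ) ≤ u := by exact_mod_cast h0
    have hC : btF θ (sl3 k) * u < C0 := by
      have h3 := le_abs_self (btF θ (sl3 k))
      have h4 := abs_nonneg (btF θ (sl3 k))
      nlinarith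
    obtain ⟨γ, hγ, h2⟩ := hR.tw u h0 h1 (min r C0) (lt_min hr hC) (min_le_right _ _)
    refine ⟨γ, hγ, ?_⟩
    filter_upwards [h2] with n hn x hx
    refine le_trans (Nat.cast_le.2 (card_le_card fun y hy => ?_)) (hn x hx)
    rw [mem_filter] at hy ⊢
    refine ⟨hy.1, hy.2.1, hy.2.2.1, ?_⟩
    have h5 := hy.2.2.2
    rw [coQ_sl3 π L fl hs] at h5
    rw [tdF_d]
    exact h5.trans (mul_le_mul_of_nonneg_left (dpow_le B n (min_le_left _ _)) (hS.scpos _ n).le)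
  · obtain ⟨hs, hV⟩ := up3_isSl hk
    refine ⟨hs, ?_⟩
    rw [btQ_sl3 θ hs]
    exact p1 _ hV
  · obtain ⟨hs, hV⟩ := up3_isSl hk
    obtain ⟨q1, q2, q3⟩ := p3 (sl3 k) hV fun hc => hkT (up3_of hs hc)
    refine ⟨?_, Or.inl ⟨rfl, q2⟩, Or.inr (Or.inl ⟨rfl, q3⟩)⟩
    rcases hs with rfl | rfl | rfl
    · exact absurd q1 (by decide)
    · exact absurd q1 (by decide)
    · rfl
  · obtain ⟨q1, q2⟩ := p4 (up3_isSl h2).2 (up3_isSl h3).2
    exact ⟨Or.inr (Or.inr ⟨rfl, q1⟩), fun h4 => q2 (up3_isSl h4).2⟩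

end slots

/-! ### final assembly -/

section final

variable {p : Par4} {D : Dat4} {C c : ℝ} {dE dB : Prop}

theorem carry_QN (h : MkW p D C c dE dB)
    (hN : ∀ v : ℚ, 0 ≤ v → v ≤ 1 → ∀ᶠ n in (U : Filter ℕ), ∀ x ∈ D.I n,
      Nst dE dB (1 / 5) (mkS D n v x).e) : CarryH (QN D dE dB) := by
  refine ⟨fun i n v δ δ' hδ hQ => ?_, fun i v h0 h1 δ hδ => ?_⟩
  · obtain ⟨q1, q2, q3, q4, q5, q6⟩ := hQ
    have hd : D.B.d n ^ (-δ) ≤ D.B.d n ^ (-δ') := dpow_le D.B n (by linarith)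
    exact ⟨q1, fun hd' => (q2 hd').trans (mul_le_mul_of_nonneg_left hd q4.le),
      fun hd' => (q3 hd').trans (mul_le_mul_of_nonneg_left hd q5.le), q4, q5, q6⟩
  · filter_upwards [hN v h0 h1, h.deg h0 h1 hδ, wpos_all h.mka h0 h1,
      h.wrs (i : ℝ) 0 v h0 h1, h.wrs (i : ℝ) 1 v h0 h1, h.wrs (i : ℝ) 2 v h0 h1]
      with n a1 a2 a3 a4 a5 a6
    refine ⟨a1, a2.1, a2.2, a3 2, a3 0, fun k => ?_⟩
    fin_cases k
    · exact a4
    · exact a5
    · exact a6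

/-- the composite slopes are at most one -/
theorem flF_abs (θ : Fin 3 → ℝ) (D : Dat4) (dE dB : Prop) (n : ℕ) (x : ℕ × ℝ) :
    |flF θ (snD D dE dB) n x 0| ≤ 1 ∧ |flF θ (snD D dE dB) n x 1| ≤ 1 ∧
      |flF θ (snD D dE dB) n x 2| ≤ 1 := by
  have hs : ∀ v j, |snD D dE dB n v x j| ≤ 2 / 5 := fun v j => slF_abs _ _ _ j
  refine ⟨(hs _ 0).trans (by norm_num), (hs _ 1).trans (by norm_num), ?_⟩
  show |snD D dE dB n _ x 2 + snD D dE dB n _ x 0 * snD D dE dB n _ x 1 -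
    snD D dE dB n _ x 0 * snD D dE dB n _ x 1| ≤ 1
  refine (s2 (a2 (hs _ 2) (m2 (hs _ 0) (hs _ 1))) (m2 (hs _ 0) (hs _ 1))).trans (by norm_num)

/-- the flag of the exchanged chart -/
theorem flF_abs2 (θ : Fin 3 → ℝ) (D : Dat4) (dE dB : Prop) (n : ℕ) (x : ℕ × ℝ) :
    |flF θ (snD D dE dB) n x 0| +
      |flF θ (snD D dE dB) n x 2 + flF θ (snD D dE dB) n x 0 * flF θ (snD D dE dB) n x 1| ≤ 1 := by
  have hs : ∀ v j, |snD D dE dB n v x j| ≤ 2 / 5 := fun v j => slF_abs _ _ _ j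
  have h1 : |flF θ (snD D dE dB) n x 0| ≤ 2 / 5 := hs _ 0
  have h2 : |flF θ (snD D dE dB) n x 2 +
      flF θ (snD D dE dB) n x 0 * flF θ (snD D dE dB) n x 1| ≤ 2 / 5 + 2 / 5 * (2 / 5) := by
    have e : flF θ (snD D dE dB) n x 2 + flF θ (snD D dE dB) n x 0 * flF θ (snD D dE dB) n x 1 =
        Ut627.FS θ (snD D dE dB) n (Ut627.lvl (btF θ 2)) x := by
      show Ut627.FS θ (snD D dE dB) n (Ut627.lvl (btF θ 2)) x - Ut627.eS θ (snD D dE dB) n x *
        Ut627.bS θ (snD D dE dB) n x + Ut627.eS θ (snD D dE dB) n x *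
        Ut627.bS θ (snD D dE dB) n x = _
      ring
    rw [e]
    exact a2 (hs _ 2) (m2 (hs _ 0) (hs _ 1))
  linarith

/-- the flag `F_b` is at most `2/5` -/
theorem flF_abs3 (θ : Fin 3 → ℝ) (D : Dat4) (dE dB : Prop) (n : ℕ) (x : ℕ × ℝ) :
    |flF θ (snD D dE dB) n x 1| ≤ 2 / 5 := slF_abs _ _ _ 1

/-- the data of the second zoom -/
def zooD (D : Dat4) (B' : Base) (I' : ℕ → Finset (ℕ × ℝ)) (A' : ℕ → ℝ) (mm : ℕ → ℚ → ℚ) :
    Dat4 where
  B := B'
  I := I'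
  L := D.L
  r0 := D.r0
  wr := D.wr
  cr := D.cr
  lev := fun n x => D.lev n (mm n x)
  A := A'
  f := fun n x => D.f n (mm n x)
  b := fun n x => D.b n (mm n x)
  vm := fun n x => D.vm n (mm n x)
  w := fun j n x => D.w j n (mm n x)

/-- **a line of a flat mark in the frame of its slopes** -/
theorem in_fr {t : Ln4} {S : Plk4} {z0 ρ K w0 w1 w2 z : ℝ}
    (hm : InSheet t S.e S.c S.w S.q S.a z0 ρ) (hf : ∀ z x, S.q z x = dt (S.e 0) (x - S.c.pos z))
    (hN : Nst dE dB (1 / 5) S.e) (e0 : S.a = w0) (e1 : S.w 1 = w1) (e2 : S.w 2 = w2)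
    (hK : 1 ≤ K) (p0 : 0 ≤ w0) (h02 : w0 ≤ w2) (h21 : w2 ≤ w1) (kE : dE → w1 ≤ K * w2)
    (kB : dB → w2 ≤ K * w0) (h0 : z0 ≤ z) (h1 : z ≤ z0 + ρ) :
    |dt (fr (slF dE dB S.e 2) (slF dE dB S.e 1) (slF dE dB S.e 0) 0) (t.pos z - S.c.pos z)| ≤
      24 * K ^ 2 * w0 ∧
    |dt (fr (slF dE dB S.e 2) (slF dE dB S.e 1) (slF dE dB S.e 0) 1) (t.pos z - S.c.pos z)| ≤
      24 * K ^ 2 * w1 ∧
    |dt (fr (slF dE dB S.e 2) (slF dE dB S.e 1) (slF dE dB S.e 0) 2) (t.pos z - S.c.pos z)| ≤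
      24 * K ^ 2 * w2 := by
  obtain ⟨i1, i2⟩ := hm z h0 h1
  have y1 := i1 1
  have y2 := i1 2
  rw [hf] at i2
  rw [e0] at i2
  rw [e1] at y1
  rw [e2] at y2
  rw [slF_of hN]
  exact fr_size hN (by norm_num) (by norm_num) hK p0 h02 h21 kE kB i2 y1 y2

/-- **U6, thick side**: linear marked sequence, flat marks, flat tilt ⊢ `ThickPre`. -/
theorem thickPre_of_flat {η : ℝ} (ok : ParOk η p)
    (hM : MkA D.B D.I (D.G p) D.lev D.A (fun v => p.g * v) (fun v => 0 * v)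
      (fun j v => p.θ j * (1 - v)) D.f D.b D.vm D.w) (hF : FlatMk D) (hT : TiltF D)
    (hR : Rng D.B D.wr D.cr D.w) :
    ∃ (D' : Dat4) (π : Equiv.Perm (Fin 3)) (eE fA fB : ℕ → ℕ × ℝ → ℝ) (V T : Fin 11 → Prop)
      (w0 R T0 : ℝ) (PD : Set (Fin 11 → ℝ)), ThickPre η p D' π eE fA fB V T w0 R T0 PD := by
  obtain ⟨D1, C, c, dE, dB, hC, hW, hN⟩ := exists_mkN hM hF hT hR
  obtain ⟨H, mm, B', I', A', sc', hO⟩ := outF hC hW.mka (snCell_snD D1 dE dB)
    (fun j => tiltT_of_tiltE hW.mka (tiltE_snD hW hN j)) (carry_QN hW hN)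
  obtain ⟨T0, w0, R, hbig⟩ := Crest.Agent.R136.Wq638.exists_bigQ p.θ
  obtain ⟨hSl, hOk⟩ := slotQ_of hO.sys hO.slot (Equiv.refl _) D1.L
  have hM' : MkA (zooD D1 B' I' A' mm).B (zooD D1 B' I' A' mm).I ((zooD D1 B' I' A' mm).G p)
      (zooD D1 B' I' A' mm).lev (zooD D1 B' I' A' mm).A (fun v => p.g * v) (fun v => 0 * v)
      (fun j v => p.θ j * (1 - v)) (zooD D1 B' I' A' mm).f (zooD D1 B' I' A' mm).b
      (zooD D1 B' I' A' mm).vm (zooD D1 B' I' A' mm).w := hO.sys.mka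
  refine ⟨zooD D1 B' I' A' mm, Equiv.refl _, fun n x => flF p.θ (snD D1 dE dB) n x 0,
    fun n x => flF p.θ (snD D1 dE dB) n x 2, fun n x => flF p.θ (snD D1 dE dB) n x 1, _, _, w0, R,
    T0, _, thickPre_of (D := zooD D1 B' I' A' mm) ok hOk hbig hM' (fun n x _ => ?_)
      (fun n x _ => flF_abs2 p.θ D1 dE dB n x)
      (fun _ => ⟨2 / 5, by norm_num, fun n x _ => flF_abs3 p.θ D1 dE dB n x⟩) ?_ hSl
      (E := fun n u a => fr (slF dE dB (D1.b n (mm n u) a.1).e 2)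
        (slF dE dB (D1.b n (mm n u) a.1).e 1) (slF dE dB (D1.b n (mm n u) a.1).e 0))
      (c := fun n u a => (D1.b n (mm n u) a.1).c) ?_ ?_ ?_⟩
  · obtain ⟨f0, f1, f2⟩ := flF_abs p.θ D1 dE dB n x
    exact ⟨f0, f2, f1⟩
  · intro C k v h0 h1
    obtain ⟨i, hi⟩ := exists_nat_ge C
    filter_upwards [hO.carry.2 i v h0 h1 1 one_pos, wpos_all hM' h0 h1] with n hn hw
    obtain ⟨-, -, -, -, -, q6⟩ := hn
    obtain ⟨q7, q8⟩ := q6 k
    have hH := hO.H01 n
    have e1 : D1.B.d n ^ (i : ℝ) ≤ B'.d n ^ C := by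
      rw [hO.Bd, ← Real.rpow_mul (D1.B.pos n).le]
      refine dpow_le D1.B n ?_
      have h2 : (0 : ℝ) ≤ i := Nat.cast_nonneg i
      rcases le_total C 0 with hC0 | hC0
      · exact (mul_nonpos_of_nonneg_of_nonpos hH.1.le hC0).trans h2
      · exact (mul_le_of_le_one_left hC0 hH.2).trans hi
    have hwk : 0 < D1.w k n (mm n v) := hw k
    have hcr : 0 < D1.cr k n := by
      by_contra hcon
      push Not at hcon
      have h3 := mul_nonneg (dpow_pos D1.B n (i : ℝ)).le (neg_nonneg.2 hcon)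
      linarith
    exact ⟨q7.trans (mul_le_mul_of_nonneg_right e1 hwk.le),
      q8.trans (mul_le_mul_of_nonneg_right e1 hcr.le)⟩
  · intro u h0 h1
    refine Eventually.of_forall fun n x hx => ?_
    have hs := slF_abs dE dB (D1.b n (mm n u) (kc ((zooD D1 B' I' A' mm).lev n u)
      ((zooD D1 B' I' A' mm).f n u) x).1).e
    exact fr_adm (Equiv.refl _) ((hs 2).trans (by norm_num)) ((hs 1).trans (by norm_num))
      ((hs 0).trans (by norm_num))
  · intro u h0 h1 ε hε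
    filter_upwards [mark4 hM' h0 h1, ord4 hM' h0 h1, wpos_all hM' h0 h1, hO.sub,
      hO.carry.2 0 u h0 h1 (ε / 4) (by positivity),
      ev_const B' (C := (24 : ℝ)) (ε := ε / 2) (by norm_num) (by positivity)]
      with n a1 a2 a3 a4 a5 a6 x hx z hz0 hz1
    obtain ⟨m1, -, m2, m3, m4⟩ := a1 x hx
    obtain ⟨q1, q2, q3, -, -, -⟩ := a5
    have hKe : B'.d n ^ (-(ε / 4)) = D1.B.d n ^ (-(H n * (ε / 4))) := by
      rw [hO.Bd, ← Real.rpow_mul (D1.B.pos n).le]; congr 1; ring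
    have hK1 : 1 ≤ B'.d n ^ (-(ε / 4)) := by
      have := dpow_le B' n (show -(ε / 4) ≤ 0 by linarith)
      rwa [Real.rpow_zero] at this
    obtain ⟨r0, r1, r2⟩ := in_fr (dE := dE) (dB := dB) (K := B'.d n ^ (-(ε / 4))) m1
      (fun z x => hW.flat n (mm n u) _ z x) (q1 x (a4 hx)) m2 m3 m4 hK1 (a3 0).le a2.1 a2.2
      (fun hd => by rw [hKe, mul_comm]; exact q2 hd) (fun hd => by rw [hKe, mul_comm]; exact q3 hd)
      hz0 hz1
    have hnum : ∀ j, 24 * (B'.d n ^ (-(ε / 4))) ^ 2 * (zooD D1 B' I' A' mm).w j n u ≤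
        (zooD D1 B' I' A' mm).w j n u * B'.d n ^ (-ε) := by
      intro j
      have h2 := a6 ((zooD D1 B' I' A' mm).w j n u) (-ε) (a3 j).le
      have e1 : (B'.d n ^ (-(ε / 4))) ^ 2 = B'.d n ^ (-ε + ε / 2) := by
        rw [pow_two, ← dpow_add]; congr 1; ring
      rw [e1]
      linarith
    intro j
    fin_cases j
    · exact r0.trans (hnum 0)
    · exact r1.trans (hnum 1)
    · exact r2.trans (hnum 2)
  · intro u h0 h1 ε hε
    filter_upwards [close_sn hO.sys h0 h1 hε] with n hn x hx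
    have h2 := hn x hx
    have e0 : ∀ a b c : ℝ, sE (Equiv.refl (Fin 3)) (fr a b c) = c := fun a b c =>
      sE_fr (Fa := a) (Fb := b) (E := c) (Equiv.refl (Fin 3))
    have e1 : ∀ a b c : ℝ, sB (Equiv.refl (Fin 3)) (fr a b c) = b := fun a b c =>
      sB_fr (Fa := a) (Fb := b) (E := c) (Equiv.refl (Fin 3))
    have e2 : ∀ a b c : ℝ, sA (Equiv.refl (Fin 3)) (fr a b c) = a := fun a b c =>
      sA_fr (Fa := a) (Fb := b) (E := c) (Equiv.refl (Fin 3))
    simp only [e0, e1, e2]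
    exact h2

end final

end Crest.Agent.R136.Ut262
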