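import Crest.Agent.R136.F2w_569
import Crest.Agent.R136.LdX5_403_Mg
import Crest.Agent.R136.ReD_436
import Crest.Agent.R136.Ut6_262
import Crest.Agent.R136.ReP3_201_Mg

-- ▼ part R136/F2z_569
section

/-!
# R136, row `pF2` of the thick table (helper569)

* **`caseF2`** : no thick point with 21 visible, 31 and 32 not, `θ 0 = θ 2`
-/

set_option autoImplicit false

namespace Crest.Agent.R136.F2w569

open Crest.Agent.R136.NatT550
open Crest.Agent.R136.TopB550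
open Crest.Agent.R136.Re436 (pF2)

/-- 544's no-slope theorem at `κ = 1`, in 403's form -/
theorem kappaF : LdX403.KappaF := fun _ _ _ _ _ _ _ _ _ _ _ H K htw =>
  NsF544.kappa_one_lin H K htw le_rfl

/-- **the row `pF2` of the thick table** -/
theorem caseF2 {η : ℝ} (hη : η ≤ 1 / 8) : Dead η pF2 :=
  caseF2_of_xbN hη fun _ _ _ _ _ _ _ _ _ _ _ _ _ _ _ _ h hp =>
    LdX403.xbN_of kappaF h (LadF115.kap_pos h hp.1) hp.1 hp.2.1 hp.2.2.1 one_pos fun _ _ => rfl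

end Crest.Agent.R136.F2w569
end

-- ▼ part R136/ReP1_346
section

/-!
# R136 (S0187), case E: (P1) raw system ⊢ `ThickPre` (helper346), part 1

`flR`, `snR` : flags and flags of the marks (value at a chosen representative of the class);
`tsysR` : raw system ⊢ `TSys`; `invT_of` : `InvS` ⊢ `InvT`; `QR`, `carryR` : carried properties;
`gR_raw` : record closeness in raw coordinates ⊢ `gR` of `PreQ`.
-/

set_option autoImplicit false
set_option linter.unusedVariables false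

open Finset Filter Topology

namespace Crest.Agent.R136.ReP346

open Crest.Agent.R138.Ex926 (Base U)
open Crest.Agent.R138.Dp76 (dpow_pos dpow_add dpow_le dpow_le_one)
open Crest.Agent.R138.Mk163 (zc zl rho alive own)
open Crest.Agent.R138.MkRef627 (lc kc)
open Crest.Agent.R136.MkA627
open Crest.Agent.R136.Net191
open Crest.Agent.R136.NetQ186
open Crest.Agent.R136.GeoQ186 (sfac coQ_scl scl)
open Crest.Agent.R136.Sh605 (Ln4 V3)
open Crest.Agent.R136.Wq638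
open Crest.Agent.R136.Top484
open Crest.Agent.R136.NatT550
open Crest.Agent.R136.GR650 (LinW)
open Crest.Agent.R136.TD627 (TSys InvT CarryH ps ps_pos ps_eq pr_pair)
open Crest.Agent.R136.Ut627 (tdF tdF_d coF prF prLinF prodF btF wpos_all)
open Crest.Agent.R136.Ut262 (up3 sl3 coQ_sl3 btQ_sl3 prQ_sl3 up3_isSl)
open Crest.Agent.R136.Re436

/-- flags in the order of `tdF` -/
def flR (eE fA fB : ℕ → ℕ × ℝ → ℝ) (n : ℕ) (x : ℕ × ℝ) : Fin 3 → ℝ :=
  ![eE n x, fB n x, fA n x]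

open Classical in
/-- a representative of the class `a` of level `v` -/
noncomputable def repC (D : Dat4) (n : ℕ) (v : ℚ) (a : ℕ × ℤ) : ℕ × ℝ :=
  if h : ∃ y ∈ D.I n, kc (D.lev n v) (D.f n v) y = a then h.choose else (0, 0)

theorem repC_spec {D : Dat4} {n : ℕ} {v : ℚ} {x : ℕ × ℝ} (hx : x ∈ D.I n) :
    repC D n v (kc (D.lev n v) (D.f n v) x) ∈ D.I n ∧
      kc (D.lev n v) (D.f n v) (repC D n v (kc (D.lev n v) (D.f n v) x)) =
        kc (D.lev n v) (D.f n v) x := by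
  have h : ∃ y ∈ D.I n, kc (D.lev n v) (D.f n v) y = kc (D.lev n v) (D.f n v) x := ⟨x, hx, rfl⟩
  unfold repC
  rw [dif_pos h]
  exact h.choose_spec

/-- flags of the marks -/
noncomputable def snR (D : Dat4) (eE fA fB : ℕ → ℕ × ℝ → ℝ) (n : ℕ) (v : ℚ) (x : ℕ × ℝ) :
    Fin 3 → ℝ := flR eE fA fB n (repC D n v (kc (D.lev n v) (D.f n v) x))

theorem coF_flR (π : Equiv.Perm (Fin 3)) (L : ℕ → ℕ → Ln4) (eE fA fB : ℕ → ℕ × ℝ → ℝ)
    {k : Fin 11} (hk : isSl k) (n : ℕ) (x y : ℕ × ℝ) :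
    coF (flR eE fA fB n x) (flR eE fA fB n y) (sl3 k) =
      coQ (incQ π L eE fA fB n x) (incQ π L eE fA fB n y) k :=
  (coQ_sl3 π L (flR eE fA fB) hk n x y).symm

theorem natW_sl (D : Dat4) (n : ℕ) (u : ℚ) {k : Fin 11} (hk : isSl k) :
    natW D n u k = prF D.w (sl3 k) n u := by
  rcases hk with rfl | rfl | rfl <;> rfl

/-- coordinate of a slot -/
def kS (j : Fin 3) : Fin 11 := ![2, 3, 4] j

theorem kS_isSl (j : Fin 3) : isSl (kS j) := by
  fin_cases j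
  · exact Or.inl rfl
  · exact Or.inr (Or.inl rfl)
  · exact Or.inr (Or.inr rfl)

theorem sl3_kS (j : Fin 3) : sl3 (kS j) = j := by
  fin_cases j <;> simp [kS, sl3]

section

variable {p : Par4} {D : Dat4} {π : Equiv.Perm (Fin 3)} {eE fA fB : ℕ → ℕ × ℝ → ℝ}

/-- **slot system of a raw system** -/
theorem tsysR (h : RawS p D π eE fA fB) :
    TSys tdF (D.G p) p.g 0 p.θ (btF p.θ) D.B D.I D.lev D.A D.f D.b D.vm D.w
      (snR D eE fA fB) (prF D.w) (flR eE fA fB) (ps (prF D.w) 0) where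
  mka := h.mka
  scpos := ps_pos (prF D.w) 0
  prpos := fun j => (prLinF h.mka j).1
  prc := by
    intro j v h0 h1
    refine ((prLinF h.mka j).2 v h0 h1).congr' ?_
    filter_upwards [(prLinF h.mka j).1 0 le_rfl zero_le_one] with n hn
    rw [ps_eq hn]
  cell := by
    intro j v h0 h1 ε hε
    filter_upwards [(prLinF h.mka j).1 v h0 h1] with n hp x hx y hy hxy hz
    have e1 : kc (D.lev n v) (D.f n v) y = kc (D.lev n v) (D.f n v) x := by
      unfold kc; rw [hxy, hz]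
    unfold snR
    rw [e1, tdF.self]
    exact (mul_pos hp (dpow_pos D.B n _)).le
  close := by
    intro j v h0 h1 ε hε
    filter_upwards [h.near v h0 h1 ε hε] with n hn x hx
    obtain ⟨r1, r2⟩ := repC_spec (v := v) hx
    have h2 := hn x hx _ r1 r2 (kS j)
    rw [natW_sl D n v (kS_isSl j), ← coF_flR π D.L eE fA fB (kS_isSl j), sl3_kS] at h2
    exact h2
  wpr := prodF h.mka

theorem ps_ev (h : RawS p D π eE fA fB) (j : Fin 3) : ∀ᶠ n in (U : Filter ℕ),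
    ps (prF D.w) 0 j n = prF D.w j n 0 := by
  filter_upwards [(prLinF h.mka j).1 0 le_rfl zero_le_one] with n hn using ps_eq hn

theorem invT_of (h : RawS p D π eE fA fB) {k : Fin 11} (hk : isSl k)
    (hI : InvS D π eE fA fB k) :
    InvT tdF D.B D.I (sl3 k) (flR eE fA fB) (ps (prF D.w) 0 (sl3 k)) := by
  intro M
  filter_upwards [hI M, ps_ev h (sl3 k)] with n hn e1 x hx y hy hxy
  rw [tdF_d, coF_flR π D.L eE fA fB hk, e1, ← natW_sl D n 0 hk]
  exact hn x hx y hy hxy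

/-- carried properties -/
def QR (D : Dat4) (π : Equiv.Perm (Fin 3)) (eE fA fB : ℕ → ℕ × ℝ → ℝ) (γ : ℝ) (i n : ℕ) (v : ℚ)
    (δ : ℝ) : Prop :=
  (∀ j, 0 < D.w j n v) ∧
  (∀ x ∈ D.I n, ∀ y ∈ D.I n, kc (D.lev n v) (D.f n v) y = kc (D.lev n v) (D.f n v) x → ∀ k,
    |coQ (incQ π D.L eE fA fB n x) (incQ π D.L eE fA fB n y) k| ≤
      natW D n v k * D.B.d n ^ (-δ)) ∧
  (∀ k, isSl k → InvS D π eE fA fB k → ∀ x ∈ D.I n, ∀ y ∈ D.I n, y.1 = x.1 →
    |coQ (incQ π D.L eE fA fB n x) (incQ π D.L eE fA fB n y) k| ≤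
      natW D n v k * D.B.d n ^ (i : ℝ)) ∧
  (Gap23 D → D.w 0 n v ≤ D.B.d n ^ γ * D.w 2 n v) ∧
  (¬ Gap23 D → D.B.d n ^ δ * D.w 2 n v ≤ D.w 0 n v) ∧
  ∀ k : Fin 3, D.wr k n ≤ D.B.d n ^ (i : ℝ) * D.w k n v ∧
    D.w k n v ≤ D.B.d n ^ (i : ℝ) * D.cr k n

theorem natW_nonneg {D : Dat4} {n : ℕ} {v : ℚ} (h : ∀ j, 0 < D.w j n v) (k : Fin 11) :
    0 ≤ natW D n v k := by
  have h0 := (h 0).le
  have h1 := (h 1).le
  have h2 := (h 2).le
  have hr := (rho_pos (D.lev n v)).le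
  unfold natW
  fin_cases k
  · exact hr
  · exact le_rfl
  · exact div_nonneg h2 h1
  · exact div_nonneg h0 h2
  · exact div_nonneg h0 h1
  · exact div_nonneg h1 hr
  · exact div_nonneg h2 hr
  · exact div_nonneg h0 hr
  · exact h1
  · exact h2
  · exact h0

/-- rates of the slots of a raw system -/
theorem pr_pair' (h : RawS p D π eE fA fB) (j : Fin 3) {u s : ℚ} (h0 : 0 ≤ u) (h1 : u ≤ 1)
    (h2 : 0 ≤ s) (h3 : s ≤ 1) {δ : ℝ} (hδ : btF p.θ j * ((u : ℝ) - s) < δ) :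
    ∀ᶠ n in (U : Filter ℕ), prF D.w j n s ≤ prF D.w j n u * D.B.d n ^ (-δ) :=
  pr_pair (β := btF p.θ) (prLinF h.mka) j h0 h1 h2 h3 hδ

theorem exists_gap (h : RawS p D π eE fA fB) (hθ : p.θ 0 = p.θ 2) :
    ∃ γ : ℝ, 0 < γ ∧ ∀ v : ℚ, 0 ≤ v → v ≤ 1 → ∀ᶠ n in (U : Filter ℕ),
      (Gap23 D → D.w 0 n v ≤ D.B.d n ^ γ * D.w 2 n v) := by
  by_cases hg : Gap23 D
  · obtain ⟨γ, hγ, h1⟩ := hg
    refine ⟨γ / 2, by positivity, fun v v0 v1 => ?_⟩
    filter_upwards [h1, pr_pair' h 1 (u := 0) (s := v) le_rfl zero_le_one v0 v1 (δ := γ / 2) (by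
      show (p.θ 2 - p.θ 0) * _ < _
      rw [hθ, sub_self, zero_mul]; positivity), wpos_all h.mka le_rfl zero_le_one,
      wpos_all h.mka v0 v1] with n a1 a2 a3 a4 _
    have e1 : D.w 0 n 0 / D.w 2 n 0 ≤ D.B.d n ^ γ := by
      rw [div_le_iff₀ (a3 2)]; exact a1
    have e2 : D.w 0 n v / D.w 2 n v ≤ D.w 0 n 0 / D.w 2 n 0 * D.B.d n ^ (-(γ / 2)) := a2
    have e3 : D.w 0 n v / D.w 2 n v ≤ D.B.d n ^ (γ / 2) := by
      refine e2.trans ?_
      calc D.w 0 n 0 / D.w 2 n 0 * D.B.d n ^ (-(γ / 2)) ≤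
            D.B.d n ^ γ * D.B.d n ^ (-(γ / 2)) :=
            mul_le_mul_of_nonneg_right e1 (dpow_pos D.B n _).le
        _ = D.B.d n ^ (γ / 2) := by rw [← dpow_add]; congr 1; ring
    rwa [div_le_iff₀ (a4 2)] at e3
  · exact ⟨1, one_pos, fun v v0 v1 => Eventually.of_forall fun n hc => absurd hc hg⟩

/-- no gap at all levels -/
theorem nogap_all (h : RawS p D π eE fA fB) (hθ : p.θ 0 = p.θ 2) {v : ℚ} (v0 : 0 ≤ v)
    (v1 : v ≤ 1) {δ : ℝ} (hδ : 0 < δ) : ∀ᶠ n in (U : Filter ℕ),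
      (¬ Gap23 D → D.B.d n ^ δ * D.w 2 n v ≤ D.w 0 n v) := by
  by_cases hg : Gap23 D
  · exact Eventually.of_forall fun n hc => absurd hg hc
  · have h1 : ¬ ∀ᶠ n in (U : Filter ℕ), D.w 0 n 0 ≤ D.B.d n ^ (δ / 2) * D.w 2 n 0 :=
      fun hc => hg ⟨δ / 2, by positivity, hc⟩
    rw [← Ultrafilter.eventually_not] at h1
    filter_upwards [h1, pr_pair' h 1 (u := v) (s := 0) v0 v1 le_rfl zero_le_one (δ := δ / 2) (by
      show (p.θ 2 - p.θ 0) * _ < _
      rw [hθ, sub_self, zero_mul]; positivity), wpos_all h.mka le_rfl zero_le_one,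
      wpos_all h.mka v0 v1] with n a1 a2 a3 a4 _
    have e1 : D.B.d n ^ (δ / 2) ≤ D.w 0 n 0 / D.w 2 n 0 := by
      rw [le_div_iff₀ (a3 2)]; exact (not_le.1 a1).le
    have e2 : D.w 0 n 0 / D.w 2 n 0 ≤ D.w 0 n v / D.w 2 n v * D.B.d n ^ (-(δ / 2)) := a2
    have e3 : D.B.d n ^ δ ≤ D.w 0 n v / D.w 2 n v := by
      have e4 : D.B.d n ^ (δ / 2) * D.B.d n ^ (δ / 2) ≤
          D.w 0 n v / D.w 2 n v * D.B.d n ^ (-(δ / 2)) * D.B.d n ^ (δ / 2) :=
        mul_le_mul_of_nonneg_right (e1.trans e2) (dpow_pos D.B n _).le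
      rw [← dpow_add, mul_assoc, ← dpow_add, neg_add_cancel, Real.rpow_zero, mul_one] at e4
      rwa [add_halves] at e4
    rwa [le_div_iff₀ (a4 2)] at e3

/-- **the carried properties** -/
theorem carryR (h : RawS p D π eE fA fB) (hθ : p.θ 0 = p.θ 2) {γ : ℝ}
    (hγ : ∀ v : ℚ, 0 ≤ v → v ≤ 1 → ∀ᶠ n in (U : Filter ℕ),
      (Gap23 D → D.w 0 n v ≤ D.B.d n ^ γ * D.w 2 n v)) :
    CarryH (QR D π eE fA fB γ) := by
  refine ⟨fun i n v δ δ' hδ hQ => ?_, fun i v h0 h1 δ hδ => ?_⟩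
  · obtain ⟨q1, q2, q3, q4, q5, q6⟩ := hQ
    refine ⟨q1, fun x hx y hy hxy k => (q2 x hx y hy hxy k).trans ?_, q3, q4,
      fun hg => (mul_le_mul_of_nonneg_right (dpow_le D.B n hδ) (q1 2).le).trans (q5 hg), q6⟩
    exact mul_le_mul_of_nonneg_left (dpow_le D.B n (by linarith)) (natW_nonneg q1 k)
  · have hinv : ∀ k, isSl k → InvS D π eE fA fB k → ∀ᶠ n in (U : Filter ℕ), ∀ x ∈ D.I n,
        ∀ y ∈ D.I n, y.1 = x.1 →
        |coQ (incQ π D.L eE fA fB n x) (incQ π D.L eE fA fB n y) k| ≤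
          natW D n v k * D.B.d n ^ (i : ℝ) := by
      intro k hk hI
      set β := btF p.θ (sl3 k) with hβ
      have hv0 : (0 : ℝ) ≤ v := by exact_mod_cast h0
      have hv1 : (v : ℝ) ≤ 1 := by exact_mod_cast h1
      have hlt : btF p.θ (sl3 k) * ((v : ℝ) - (0 : ℚ)) < |β| + 1 := by
        have := le_abs_self β
        have := abs_nonneg β
        push_cast
        rw [← hβ]
        nlinarith
      filter_upwards [hI ((i : ℝ) + (|β| + 1)),
        pr_pair' h (sl3 k) (u := v) (s := 0) h0 h1 le_rfl zero_le_one hlt] with n a1 a2 x hx y hy hxy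
      refine (a1 x hx y hy hxy).trans ?_
      rw [natW_sl D n 0 hk, natW_sl D n v hk]
      calc prF D.w (sl3 k) n 0 * D.B.d n ^ ((i : ℝ) + (|β| + 1)) ≤
            (prF D.w (sl3 k) n v * D.B.d n ^ (-(|β| + 1))) * D.B.d n ^ ((i : ℝ) + (|β| + 1)) :=
            mul_le_mul_of_nonneg_right a2 (dpow_pos D.B n _).le
        _ = prF D.w (sl3 k) n v * D.B.d n ^ (i : ℝ) := by
            rw [mul_assoc, ← dpow_add]; congr 2; ring
    have hinv' : ∀ᶠ n in (U : Filter ℕ), ∀ k, isSl k → InvS D π eE fA fB k → ∀ x ∈ D.I n,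
        ∀ y ∈ D.I n, y.1 = x.1 →
        |coQ (incQ π D.L eE fA fB n x) (incQ π D.L eE fA fB n y) k| ≤
          natW D n v k * D.B.d n ^ (i : ℝ) := by
      rw [Filter.eventually_all]
      intro k
      by_cases hk : isSl k ∧ InvS D π eE fA fB k
      · filter_upwards [hinv k hk.1 hk.2] with n hn _ _ using hn
      · exact Eventually.of_forall fun n a b => absurd ⟨a, b⟩ hk
    have hwr : ∀ᶠ n in (U : Filter ℕ), ∀ k : Fin 3, D.wr k n ≤ D.B.d n ^ (i : ℝ) * D.w k n v ∧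
        D.w k n v ≤ D.B.d n ^ (i : ℝ) * D.cr k n :=
      Filter.eventually_all.2 fun k => h.wrs (i : ℝ) k v h0 h1
    filter_upwards [wpos_all h.mka h0 h1, h.near v h0 h1 δ hδ, hinv', hγ v h0 h1,
      nogap_all h hθ h0 h1 hδ, hwr] with n a1 a2 a3 a4 a5 a6
    exact ⟨a1, a2, a3, a4, a5, a6⟩

end

/-! ### record closeness -/

section gR

variable {B : Base} {I : ℕ → Finset (ℕ × ℝ)} {lev : ℕ → ℚ → ℕ} {f : ℕ → ℚ → ℕ → ℤ → ℕ}
  {w : Fin 3 → ℕ → ℚ → ℝ} {θ : Fin 3 → ℝ} {w0 R : ℝ}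

/-- natural sizes -/
noncomputable def natV (lev : ℕ → ℚ → ℕ) (w : Fin 3 → ℕ → ℚ → ℝ) (n : ℕ) (u : ℚ) : Fin 11 → ℝ :=
  ![rho (lev n u), 0, w 2 n u / w 1 n u, w 0 n u / w 2 n u, w 0 n u / w 1 n u,
    w 1 n u / rho (lev n u), w 2 n u / rho (lev n u), w 0 n u / rho (lev n u),
    w 1 n u, w 2 n u, w 0 n u]

theorem sfac_natV {H Wa Wb Wy ρ w0 w1 w2 : ℝ} (hH : H ≠ 0) (ha : Wa ≠ 0) (hb : Wb ≠ 0)
    (hy : Wy ≠ 0) (hρ : ρ ≠ 0) (h0 : w0 ≠ 0) (h1 : w1 ≠ 0) (h2 : w2 ≠ 0) (k : Fin 11) :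
    sfac H Wa Wb Wy k * ![ρ, 0, w2 / w1, w0 / w2, w0 / w1, w1 / ρ, w2 / ρ, w0 / ρ, w1, w2, w0] k =
      ![H * ρ, 0, (w2 / ρ / Wb) / (w1 / ρ / Wa), (w0 / ρ / Wy) / (w2 / ρ / Wb),
        (w0 / ρ / Wy) / (w1 / ρ / Wa), w1 / ρ / Wa, w2 / ρ / Wb, w0 / ρ / Wy,
        H * ρ * (w1 / ρ / Wa), H * ρ * (w2 / ρ / Wb), H * ρ * (w0 / ρ / Wy)] k := by
  fin_cases k
  · rfl
  · show 1 / (H * Wy) * 0 = 0
    rw [mul_zero]
  · show Wa / Wb * (w2 / w1) = (w2 / ρ / Wb) / (w1 / ρ / Wa)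
    field_simp
  · show Wb / Wy * (w0 / w2) = (w0 / ρ / Wy) / (w2 / ρ / Wb)
    field_simp
  · show Wa / Wy * (w0 / w1) = (w0 / ρ / Wy) / (w1 / ρ / Wa)
    field_simp
  · show 1 / Wa * (w1 / ρ) = w1 / ρ / Wa
    field_simp
  · show 1 / Wb * (w2 / ρ) = w2 / ρ / Wb
    field_simp
  · show 1 / Wy * (w0 / ρ) = w0 / ρ / Wy
    field_simp
  · show H / Wa * w1 = H * ρ * (w1 / ρ / Wa)
    field_simp
  · show H / Wb * w2 = H * ρ * (w2 / ρ / Wb)
    field_simp
  · show H / Wy * w0 = H * ρ * (w0 / ρ / Wy)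
    field_simp

theorem sfac_pos {H Wa Wb Wy : ℝ} (hH : 0 < H) (ha : 0 < Wa) (hb : 0 < Wb) (hy : 0 < Wy)
    (k : Fin 11) : 0 < sfac H Wa Wb Wy k := by
  unfold sfac
  fin_cases k
  · exact hH
  · exact div_pos one_pos (mul_pos hH hy)
  · exact div_pos ha hb
  · exact div_pos hb hy
  · exact div_pos ha hy
  · exact div_pos one_pos ha
  · exact div_pos one_pos hb
  · exact div_pos one_pos hy
  · exact div_pos hH ha
  · exact div_pos hH hb
  · exact div_pos hH hy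

/-- **record closeness in raw coordinates ⊢ `gR`** -/
theorem gR_raw (h : LinW B lev w θ) {F : ℕ → ℕ × ℝ → Fq4}
    (hn : ∀ u : ℚ, 0 ≤ u → u ≤ 1 → ∀ ε : ℝ, 0 < ε → ∀ᶠ n in (U : Filter ℕ), ∀ x ∈ I n, ∀ y ∈ I n,
      kc (lev n u) (f n u) y = kc (lev n u) (f n u) x → ∀ k,
        |coQ (F n x) (F n y) k| ≤ natV lev w n u k * B.d n ^ (-ε))
    (u : ℚ) (u0 : 0 ≤ u) (u1 : u ≤ 1) (ε : ℝ) (hε : 0 < ε) :
    ∀ᶠ n in (U : Filter ℕ), ∀ x ∈ I n, ∀ y ∈ I n,
      kc (lev n u) (f n u) y = kc (lev n u) (f n u) x → ∀ k,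
        |couQ B lev w w0 F n x y k| ≤ B.d n ^ (pathQ θ w0 R u k - ε) := by
  have h2 : 0 < ε / 2 := by positivity
  filter_upwards [hn u u0 u1 _ h2, h.sizes0 (w0 := w0) (R := R) u0 u1 h2,
    h.wpos 0 0 le_rfl zero_le_one, h.wpos 1 0 le_rfl zero_le_one, h.wpos 2 0 le_rfl zero_le_one,
    h.wpos 0 u u0 u1, h.wpos 1 u u0 u1, h.wpos 2 u u0 u1]
    with n hn hsz p0 p1 p2 q0 q1 q2 x hx y hy hxy k
  have dp := dpow_pos B n
  have hρ := rho_pos (lev n u)
  have hH : 0 < Wq638.uH B lev w0 n := Wq638.uH_pos n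
  have hWa : 0 < uA B lev w w0 n := Wq638.uA_pos p1
  have hWb : 0 < uB B lev w w0 n := Wq638.uB_pos p2
  have hWy : 0 < uY B lev w w0 n := Wq638.uY_pos p0
  have h1 := hn x hx y hy hxy k
  show |coQ (scl _ _ _ _ (F n x)) (scl _ _ _ _ (F n y)) k| ≤ B.d n ^ (pathQ θ w0 R u k - ε)
  rw [coQ_scl hH.ne' hWa.ne' hWb.ne' hWy.ne', abs_mul, abs_of_pos (sfac_pos hH hWa hWb hWy k)]
  by_cases hk : k = 1
  · subst hk
    have e0 : natV lev w n u 1 = 0 := rfl
    rw [e0, zero_mul] at h1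
    have e1 : |coQ (F n x) (F n y) 1| = 0 := le_antisymm h1 (abs_nonneg _)
    rw [e1, mul_zero]
    exact (dp _).le
  · have h5 := hsz k hk
    rw [← sfac_natV hH.ne' hWa.ne' hWb.ne' hWy.ne' hρ.ne' q0.ne' q1.ne' q2.ne' k] at h5
    calc sfac (Wq638.uH B lev w0 n) (uA B lev w w0 n) (uB B lev w w0 n) (uY B lev w w0 n) k *
          |coQ (F n x) (F n y) k| ≤
          sfac (Wq638.uH B lev w0 n) (uA B lev w w0 n) (uB B lev w w0 n) (uY B lev w w0 n) k *
            (natV lev w n u k * B.d n ^ (-(ε / 2))) :=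
          mul_le_mul_of_nonneg_left h1 (sfac_pos hH hWa hWb hWy k).le
      _ = (sfac (Wq638.uH B lev w0 n) (uA B lev w w0 n) (uB B lev w w0 n) (uY B lev w w0 n) k *
            natV lev w n u k) * B.d n ^ (-(ε / 2)) := by ring
      _ ≤ B.d n ^ (pathQ θ w0 R u k - ε / 2) * B.d n ^ (-(ε / 2)) :=
          mul_le_mul_of_nonneg_right h5 (dp _).le
      _ = B.d n ^ (pathQ θ w0 R u k - ε) := by rw [← dpow_add]; congr 1; ring

end gR

end Crest.Agent.R136.ReP346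
end

-- ▼ part R136/ReP2_346
section

/-!
# R136 (S0187), case E: (P1) raw system ⊢ `ThickPre` (helper346), part 2

`mka_congr`, `slotQ_congr` : eventually equal families of incidences;
`thickPre_of_gR` : `Wq638.thickPre_of` with the record closeness given;
`preOfRaw : PreOfRaw η`.
-/

set_option autoImplicit false
set_option linter.unusedVariables false

open Finset Filter Topology

namespace Crest.Agent.R136.ReP346

open Crest.Agent.R138.Ex926 (Base U)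
open Crest.Agent.R138.Dp76 (dpow_pos dpow_add dpow_le dpow_le_one)
open Crest.Agent.R138.Mk163 (zc zl rho alive own)
open Crest.Agent.R138.MkRef627 (lc kc)
open Crest.Agent.R136.MkA627
open Crest.Agent.R136.Net191
open Crest.Agent.R136.NetQ186
open Crest.Agent.R136.GeoQ186 (w0_zero w0_one mem_PDQ PDQ PDQ_leg gD_couQ)
open Crest.Agent.R136.Sh605 (Ln4 V3)
open Crest.Agent.R136.Wq638
open Crest.Agent.R136.Top484
open Crest.Agent.R136.NatT550
open Crest.Agent.R136.GR650 (LinW)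
open Crest.Agent.R136.TD627 (TSys InvT CarryH ps ps_pos ps_eq)
open Crest.Agent.R136.Ut627 (tdF tdF_d coF prF btF wpos_all Vis Tie SlotT)
open Crest.Agent.R136.Ut262 (up3 sl3 btQ_sl3 up3_isSl slotQ_of)
open Crest.Agent.R136.Re436

section congr

variable {σ κ : Type*} {B : Base} {I J : ℕ → Finset (ℕ × ℝ)} {G : Geo σ κ} {lev : ℕ → ℚ → ℕ}
    {A : ℕ → ℝ} {c Λ : ℝ → ℝ} {τ : κ → ℝ → ℝ} {f : ℕ → ℚ → ℕ → ℤ → ℕ} {b : ℕ → ℚ → ℕ → σ}
    {vm : ℕ → ℚ → ℝ} {w : κ → ℕ → ℚ → ℝ}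

theorem mka_congr (h : MkA B I G lev A c Λ τ f b vm w) (hs : ∀ n, J n ⊆ I n)
    (he : ∀ᶠ n in (U : Filter ℕ), J n = I n) : MkA B J G lev A c Λ τ f b vm w := by
  refine h.of_fib hs ?_ (fun v h0 h1 ε hε => ?_) fun v h0 h1 ε hε => ?_
  · filter_upwards [h.ne, he] with n a1 a2
    rw [a2]; exact a1
  · filter_upwards [he] with n a2 x hx
    rw [a2]
    exact mul_le_of_le_one_left (Nat.cast_nonneg _) (dpow_le_one B n hε.le)
  · filter_upwards [he] with n a2 x hx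
    rw [a2]
    exact mul_le_of_le_one_left (Nat.cast_nonneg _) (dpow_le_one B n hε.le)

theorem slotQ_congr {w : Fin 3 → ℕ → ℚ → ℝ} {θ : Fin 3 → ℝ} {F : ℕ → ℕ × ℝ → Fq4}
    {sc : Fin 11 → ℕ → ℝ} {V T : Fin 11 → Prop} (h : SlotQ B I lev w θ F sc V T)
    (he : ∀ᶠ n in (U : Filter ℕ), J n = I n) : SlotQ B J lev w θ F sc V T where
  vis := h.vis
  tied := h.tied
  scpos := h.scpos
  sc0 := h.sc0
  rot := fun k hk u h0 h1 ε hε => by
    filter_upwards [h.rot k hk u h0 h1 ε hε, he] with n a1 a2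
    rw [a2]; exact a1
  inv := fun k hk hV M => by
    filter_upwards [h.inv k hk hV M, he] with n a1 a2
    rw [a2]; exact a1
  tw := fun k hk u h0 h1 r hr => by
    obtain ⟨γ, hγ, h2⟩ := h.tw k hk u h0 h1 r hr
    refine ⟨γ, hγ, ?_⟩
    filter_upwards [h2, he] with n a1 a2
    rw [a2]; exact a1

end congr

section final

variable {p : Par4} {D : Dat4}

/-- **`ThickPre` from the marked sequence with slots**, record closeness given -/
theorem thickPre_of_gR {η : ℝ} {π : Equiv.Perm (Fin 3)} {eE fA fB : ℕ → ℕ × ℝ → ℝ}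
    {V T : Fin 11 → Prop} {w0 R T0 : ℝ} {sc : Fin 11 → ℕ → ℝ}
    (ok : ParOk η p) (slots : SlotOk p.θ V T) (big : BigQ p.θ w0 R T0)
    (mka : MkA D.B D.I (D.G p) D.lev D.A (fun v => p.g * v) (fun v => 0 * v)
      (fun j v => p.θ j * (1 - v)) D.f D.b D.vm D.w)
    (flag : ∀ n, ∀ x ∈ D.I n, |eE n x| ≤ 1 ∧ |fA n x| ≤ 1 ∧ |fB n x| ≤ 1)
    (flag2 : ∀ n, ∀ x ∈ D.I n, |eE n x| + |fA n x + eE n x * fB n x| ≤ 1)
    (flag3 : Gap23 D → ∃ c : ℝ, c < 1 ∧ ∀ n, ∀ x ∈ D.I n, |fB n x| ≤ c)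
    (wrs : Rng D.B D.wr D.cr D.w)
    (hS : SlotQ D.B D.I D.lev D.w p.θ (incQ π D.L eE fA fB) sc V T)
    (gR : ∀ u : ℚ, 0 ≤ u → u ≤ 1 → ∀ ε : ℝ, 0 < ε → ∀ᶠ n in (U : Filter ℕ), ∀ x ∈ D.I n,
      ∀ y ∈ D.I n, kc (D.lev n u) (D.f n u) y = kc (D.lev n u) (D.f n u) x →
        ∀ k, |couQ D.B D.lev D.w w0 (incQ π D.L eE fA fB) n x y k| ≤
          D.B.d n ^ (pathQ p.θ w0 R u k - ε)) :
    ThickPre η p D π eE fA fB V T w0 R T0 (PDQ D.B D.r0 D.lev D.w w0 R) where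
  ok := ok
  slots := slots
  big := big
  flag := flag
  flag2 := flag2
  flag3 := flag3
  wrs := wrs
  pd := fun x hx => by
    have h := (w0_zero mka).mix (w0_one mka)
    obtain ⟨h1, h2, h3, h4, h5, h6, h7⟩ := hx
    refine mem_PDQ h h1 h2 h3 ?_ ?_ ?_ ?_
    · rcases le_total (p.θ 1) (p.θ 2) with hl | hl
      · rw [max_eq_right (by linarith)]
        rw [min_eq_right (by linarith)] at h5
        linarith
      · rw [max_eq_left (by linarith)]
        rw [min_eq_left (by linarith)] at h5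
        linarith
    · rcases le_total (p.θ 2) (p.θ 0) with hl | hl
      · rw [max_eq_right (by linarith)]
        rw [min_eq_right (by linarith)] at h6
        linarith
      · rw [max_eq_left (by linarith)]
        rw [min_eq_left (by linarith)] at h6
        linarith
    · linarith
    · rw [max_eq_right ok.θ1.le]
      linarith
  pre := by
    have hq : ∀ j, 0 ≤ p.q j := by
      intro j
      fin_cases j
      · exact ok.q0.1
      · exact ok.g0.2.le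
      · exact ok.q2.1.le
    exact preQ4 mka big (fun n i J t _ => rfl) hS ⟨_, path_PDQ mka big ok.θ1⟩ PDQ_leg
      (gD_couQ mka wrs hq (fun n x hx => (flag n x hx).1) (fun n x hx => (flag n x hx).2.1)
        (fun n x hx => (flag n x hx).2.2)) gR

/-- **(P1)** -/
theorem preOfRaw (η : ℝ) : PreOfRaw η := by
  classical
  intro p D π eE fA fB ok h hfl hθ hI3 hI2 hI4
  obtain ⟨γ, hγ, hgap⟩ := exists_gap h hθ
  have hβ : ∀ j, InvT tdF D.B D.I j (flR eE fA fB) (ps (prF D.w) 0 j) ∨ 0 < btF p.θ j := by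
    intro j
    fin_cases j
    · rcases hI2 with h2 | h2
      · exact Or.inl (invT_of h (k := 2) (Or.inl rfl) h2)
      · refine Or.inr ?_
        rw [btQ_sl3 p.θ (k := 2) (Or.inl rfl)] at h2
        exact h2
    · exact Or.inl (invT_of h (k := 3) (Or.inr (Or.inl rfl)) hI3)
    · rcases hI4 with h2 | h2
      · exact Or.inl (invT_of h (k := 4) (Or.inr (Or.inr rfl)) h2)
      · refine Or.inr ?_
        rw [btQ_sl3 p.θ (k := 4) (Or.inr (Or.inr rfl))] at h2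
        exact h2
  obtain ⟨H, mm, B', I', A', sc', h1, h2, h3, h4, h5, hQ, hS, -, hslot⟩ :=
    (tsysR h).natTQ (carryR h hθ hgap) hβ (C0 := fun j => |btF p.θ j| + 1) fun j => by
      have := le_abs_self (btF p.θ j)
      linarith
  obtain ⟨hSl, hOk⟩ := slotQ_of hS hslot π D.L
  -- the family of incidences, a subset for all `n`
  set J : ℕ → Finset (ℕ × ℝ) := fun n => if I' n ⊆ D.I n then I' n else ∅ with hJ
  have hJI : ∀ n, J n ⊆ I' n := by
    intro n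
    rw [hJ]
    dsimp only
    split_ifs with hc
    · exact Finset.Subset.refl _
    · exact Finset.empty_subset _
  have hJD : ∀ n, J n ⊆ D.I n := by
    intro n
    rw [hJ]
    dsimp only
    split_ifs with hc
    · exact hc
    · exact Finset.empty_subset _
  have hJe : ∀ᶠ n in (U : Filter ℕ), J n = I' n := by
    filter_upwards [h5] with n hn
    rw [hJ]
    dsimp only
    rw [if_pos hn]
  set D' : Dat4 := zooR D B' J A' mm with hD'
  have hM' : MkA D'.B D'.I (D'.G p) D'.lev D'.A (fun v => p.g * v) (fun v => 0 * v)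
      (fun j v => p.θ j * (1 - v)) D'.f D'.b D'.vm D'.w := mka_congr hS.mka hJI hJe
  have hSl' : SlotQ D'.B D'.I D'.lev D'.w p.θ (incQ π D'.L eE fA fB) (fun k => sc' (sl3 k))
      (up3 (Vis B' I' (flR eE fA fB) sc')) (up3 (Tie B' I' (flR eE fA fB) sc')) :=
    slotQ_congr hSl hJe
  obtain ⟨T0, w0, R, hbig⟩ := exists_bigQ p.θ
  have hpow : ∀ n a, B'.d n ^ a = D.B.d n ^ (H n * a) := by
    intro n a
    rw [h4, ← Real.rpow_mul (D.B.pos n).le]
  have hvis : ∀ k, isSl k → InvS D π eE fA fB k →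
      ¬ up3 (Vis B' I' (flR eE fA fB) sc') k := by
    intro k hk hI hV
    obtain ⟨-, hV'⟩ := up3_isSl hV
    refine hV' fun M => ?_
    set i : ℕ := ⌈|M| + 1 + |btF p.θ (sl3 k)|⌉₊ with hi
    have hi' : |M| + 1 + |btF p.θ (sl3 k)| ≤ (i : ℝ) := Nat.le_ceil _
    filter_upwards [hQ.2 i 0 le_rfl zero_le_one 1 one_pos, h5,
      hS.pr_le (sl3 k) le_rfl zero_le_one one_pos] with n a1 a2 a3 x hx y hy hxy
    obtain ⟨-, -, q3, -, -, -⟩ := a1
    have b1 := q3 k hk hI x (a2 hx) y (a2 hy) hxy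
    rw [tdF_d, coF_flR π D.L eE fA fB hk]
    refine b1.trans ?_
    rw [natW_sl D n _ hk]
    have c1 : prF D.w (sl3 k) n (mm n 0) ≤ sc' (sl3 k) n * B'.d n ^ (-(1 : ℝ)) := by
      have := a3.1
      simp only [Rat.cast_zero, mul_zero, zero_sub] at this
      exact this
    have c2 : D.B.d n ^ (i : ℝ) ≤ B'.d n ^ (i : ℝ) := by
      rw [hpow]
      refine dpow_le D.B n ?_
      have := (h1 n).2
      have : (0 : ℝ) ≤ i := Nat.cast_nonneg _
      nlinarith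
    have hp0 : 0 ≤ sc' (sl3 k) n * B'.d n ^ (-(1 : ℝ)) :=
      (mul_pos (hS.scpos _ n) (dpow_pos B' n _)).le
    calc prF D.w (sl3 k) n (mm n 0) * D.B.d n ^ (i : ℝ) ≤
          sc' (sl3 k) n * B'.d n ^ (-(1 : ℝ)) * B'.d n ^ (i : ℝ) :=
          mul_le_mul c1 c2 (dpow_pos D.B n _).le hp0
      _ = sc' (sl3 k) n * B'.d n ^ (-1 + (i : ℝ)) := by rw [mul_assoc, ← dpow_add]
      _ ≤ sc' (sl3 k) n * B'.d n ^ M := by
          refine mul_le_mul_of_nonneg_left (dpow_le B' n ?_) (hS.scpos _ n).le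
          have := le_abs_self M
          have := abs_nonneg (btF p.θ (sl3 k))
          linarith
  have hgg : Gap23 D' → Gap23 D := by
    rintro ⟨γ', hγ', hg'⟩
    by_contra hg
    obtain ⟨n, ⟨a1, a2⟩, a3⟩ := ((hQ.2 0 0 le_rfl zero_le_one (γ' / 2) (by positivity)).and
      hg').and (Eventually.of_forall fun n => h1 n) |>.exists
    obtain ⟨q1, -, -, -, q5, -⟩ := a1
    have b1 : D.B.d n ^ (H n * (γ' / 2)) * D.w 2 n (mm n 0) ≤ D.w 0 n (mm n 0) := q5 hg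
    have b2 : D.w 0 n (mm n 0) ≤ B'.d n ^ γ' * D.w 2 n (mm n 0) := a2
    have b3 := le_of_mul_le_mul_right (b1.trans b2) (q1 2)
    rw [← hpow] at b3
    have b4 : B'.d n ^ γ' < B'.d n ^ (γ' / 2) :=
      Real.rpow_lt_rpow_of_exponent_gt (B'.pos n) (B'.lt n) (by linarith)
    exact absurd b3 (not_le.2 b4)
  refine ⟨D', _, _, w0, R, T0, _, thickPre_of_gR ok hOk hbig hM'
    (fun n x hx => ?_) (fun n x hx => (hfl.bd n x (hJD n hx)).2.2.2)
    (fun hg => (hfl.gap (hgg hg)).imp fun c hc => ⟨hc.1, fun n x hx => hc.2 n x (hJD n hx)⟩)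
    ?_ hSl' ?_, hvis 3 (Or.inr (Or.inl rfl)) hI3,
    fun h2 => hvis 2 (Or.inl rfl) h2, fun h2 => hvis 4 (Or.inr (Or.inr rfl)) h2, fun hg => ?_⟩
  · obtain ⟨f1, f2, f3, -⟩ := hfl.bd n x (hJD n hx)
    exact ⟨f1, f2, f3⟩
  · intro C k v h0 hv1
    obtain ⟨i, hi⟩ := exists_nat_ge |C|
    filter_upwards [hQ.2 i v h0 hv1 1 one_pos] with n hn
    obtain ⟨q1, -, -, -, -, q6⟩ := hn
    obtain ⟨q7, q8⟩ := q6 k
    have hH := h1 n
    have e1 : D.B.d n ^ (i : ℝ) ≤ B'.d n ^ C := by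
      rw [hpow]
      refine dpow_le D.B n ?_
      have h2 := le_abs_self C
      have h3 := abs_nonneg C
      nlinarith [hH.1, hH.2]
    have hwk : 0 < D.w k n (mm n v) := q1 k
    have hcr : 0 ≤ D.cr k n := by
      have h13 := hwk.le.trans q8
      exact nonneg_of_mul_nonneg_right h13 (dpow_pos D.B n _)
    exact ⟨q7.trans (mul_le_mul_of_nonneg_right e1 hwk.le),
      q8.trans (mul_le_mul_of_nonneg_right e1 hcr)⟩
  · refine gR_raw (linW_of hM') fun u h0 h1 ε hε => ?_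
    filter_upwards [hQ.2 0 u h0 h1 ε hε] with n a1 x hx y hy hxy k
    obtain ⟨-, q2, -, -, -, -⟩ := a1
    have b1 := q2 x (hJD n hx) y (hJD n hy) hxy k
    have e1 : D'.B.d n ^ (-ε) = D.B.d n ^ (-(H n * ε)) := by
      show B'.d n ^ (-ε) = _
      rw [hpow]; congr 1; ring
    rw [e1]
    exact b1
  · refine ⟨γ, hγ, ?_⟩
    filter_upwards [hQ.2 0 0 le_rfl zero_le_one 1 one_pos] with n a1
    obtain ⟨q1, -, -, q4, -, -⟩ := a1
    have b1 := q4 hg
    refine (show D.w 0 n (mm n 0) ≤ D.B.d n ^ γ * D.w 2 n (mm n 0) from b1).trans ?_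
    show D.B.d n ^ γ * D.w 2 n (mm n 0) ≤ B'.d n ^ γ * D.w 2 n (mm n 0)
    refine mul_le_mul_of_nonneg_right ?_ (q1 2).le
    rw [hpow]
    refine dpow_le D.B n ?_
    have := (h1 n).2
    nlinarith

end final

end Crest.Agent.R136.ReP346
end

-- ▼ part R136/ReE4_436
section

/-!
# R136 (S0187), case E: re-flag (helper436), part 4: choice of the new flags
-/

set_option autoImplicit false
set_option linter.unusedVariables false

open Finset Filter Topology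

namespace Crest.Agent.R136.Re436

open Crest.Agent.R138.Ex926 (Base U exists_diag)
open Crest.Agent.R138.Mk163 (zc zl rho alive)
open Crest.Agent.R138.Dp76 (Dense)
open Crest.Agent.R138.Ps627 (dense_of_half)
open Crest.Agent.R138.MkRef627 (lc kc)
open Crest.Agent.R138.MkZoom779 (Fq Fq_mem ev_mem_Fq dpow_pos dpow_le)
open Crest.Agent.R136.MkA627
open Crest.Agent.R136.Net191
open Crest.Agent.R136.NetQ186
open Crest.Agent.R136.Wq638
open Crest.Agent.R136.Top484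
open Crest.Agent.R136.NatT550
open Crest.Agent.R136.Ut627 (prF btF prLinF wpos_all)
open Crest.Agent.R136.Slt627 (eq_exp)
open Crest.Agent.R136.Sh605 (Ln4)

section

variable (π : Equiv.Perm (Fin 3)) (L : ℕ → ℕ → Ln4) (eE fA fB : ℕ → ℕ × ℝ → ℝ) (n : ℕ) (x y : ℕ × ℝ)

theorem sl2 : coQ (incQ π L eE fA fB n x) (incQ π L eE fA fB n y) 2 = eE n y - eE n x := rfl
theorem sl3 : coQ (incQ π L eE fA fB n x) (incQ π L eE fA fB n y) 3 = fB n y - fB n x := rfl
theorem sl4 : coQ (incQ π L eE fA fB n x) (incQ π L eE fA fB n y) 4 =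
    (fA n y - fA n x) + eE n x * (fB n y - fB n x) := rfl

end

section

variable {p : Par4} {D : Dat4} {π : Equiv.Perm (Fin 3)} {eE fA fB : ℕ → ℕ × ℝ → ℝ}

theorem natW_two (D : Dat4) (n : ℕ) (u : ℚ) : natW D n u 2 = D.w 2 n u / D.w 1 n u := rfl
theorem natW_three (D : Dat4) (n : ℕ) (u : ℚ) : natW D n u 3 = D.w 0 n u / D.w 2 n u := rfl
theorem natW_four (D : Dat4) (n : ℕ) (u : ℚ) : natW D n u 4 = D.w 0 n u / D.w 1 n u := rfl

/-- incidences of one line, level `0` -/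
theorem RawS.near0 (h : RawS p D π eE fA fB) {ε : ℝ} (hε : 0 < ε) :
    ∀ᶠ n in (U : Filter ℕ), (∀ j, 0 < D.w j n 0) ∧ ∀ x ∈ D.I n, ∀ y ∈ D.I n, y.1 = x.1 → ∀ k,
      |coQ (incQ π D.L eE fA fB n x) (incQ π D.L eE fA fB n y) k| ≤
        natW D n 0 k * D.B.d n ^ (-ε) := by
  filter_upwards [h.near 0 le_rfl zero_le_one ε hε, h.mka.cell0, wpos_all h.mka le_rfl zero_le_one]
    with n a1 a2 a3
  refine ⟨a3, fun x hx y hy hxy k => a1 x hx y hy ?_ k⟩
  have h1 := a2 x hx y hy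
  unfold kc
  rw [hxy, h1]

theorem natW_mul {D : Dat4} {n : ℕ} (h : ∀ j, 0 < D.w j n 0) :
    natW D n 0 2 * natW D n 0 3 = natW D n 0 4 := by
  rw [natW_two, natW_three, natW_four]
  have h1 := (h 1).ne'
  have h2 := (h 2).ne'
  field_simp

/-- `C * d^(M+1) ≤ d^M` for large `n` -/
theorem ev_absorb (B : Base) {C : ℝ} (hC : 0 ≤ C) {ε : ℝ} (hε : 0 < ε) :
    ∀ᶠ n in (U : Filter ℕ), ∀ M : ℝ, C * B.d n ^ (M + ε) ≤ B.d n ^ M := by
  filter_upwards [Crest.Agent.R136.TD627.ev_const B hC hε] with n hn M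
  have h1 := hn 1 M zero_le_one
  simpa using h1

/-- **one unit vector per line** -/
theorem LineInf.fn (hL : LineInf D π eE fA fB) (hR : RawS p D π eE fA fB)
    (h3 : InvS D π eE fA fB 3) :
    ∃ a b : ℕ → ℕ → ℝ, (∀ᶠ n in (U : Filter ℕ), ∀ x ∈ D.I n, a n x.1 ^ 2 + b n x.1 ^ 2 = 1) ∧
      ∀ M : ℝ, ∀ᶠ n in (U : Filter ℕ), ∀ x ∈ D.I n, ∀ y ∈ D.I n, y.1 = x.1 →
        |a n x.1 * (coQ (incQ π D.L eE fA fB n x) (incQ π D.L eE fA fB n y) 2 / natW D n 0 2) +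
          b n x.1 * (coQ (incQ π D.L eE fA fB n x) (incQ π D.L eE fA fB n y) 4 / natW D n 0 4)| ≤
          D.B.d n ^ M := by
  classical
  obtain ⟨k, hk, hk'⟩ := exists_diag (fun k n => ∀ x ∈ D.I n, ∃ a b : ℝ, a ^ 2 + b ^ 2 = 1 ∧
    ∀ y ∈ D.I n, y.1 = x.1 →
      |a * (coQ (incQ π D.L eE fA fB n x) (incQ π D.L eE fA fB n y) 2 / natW D n 0 2) +
        b * (coQ (incQ π D.L eE fA fB n x) (incQ π D.L eE fA fB n y) 4 / natW D n 0 4)| ≤
        D.B.d n ^ (k : ℝ)) (fun k => hL k)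
  have hk2 := hk'.mono fun n hn => hn (k n) le_rfl
  have hch : ∀ n t, ∃ (a b : ℝ) (z : ℕ × ℝ),
      ((∀ x ∈ D.I n, ∃ a b : ℝ, a ^ 2 + b ^ 2 = 1 ∧ ∀ y ∈ D.I n, y.1 = x.1 →
      |a * (coQ (incQ π D.L eE fA fB n x) (incQ π D.L eE fA fB n y) 2 / natW D n 0 2) +
        b * (coQ (incQ π D.L eE fA fB n x) (incQ π D.L eE fA fB n y) 4 / natW D n 0 4)| ≤
        D.B.d n ^ (k n : ℝ)) → (∃ x ∈ D.I n, x.1 = t) →
      z ∈ D.I n ∧ z.1 = t ∧ a ^ 2 + b ^ 2 = 1 ∧ ∀ y ∈ D.I n, y.1 = z.1 →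
      |a * (coQ (incQ π D.L eE fA fB n z) (incQ π D.L eE fA fB n y) 2 / natW D n 0 2) +
        b * (coQ (incQ π D.L eE fA fB n z) (incQ π D.L eE fA fB n y) 4 / natW D n 0 4)| ≤
        D.B.d n ^ (k n : ℝ)) := by
    intro n t
    by_cases h1 : ∀ x ∈ D.I n, ∃ a b : ℝ, a ^ 2 + b ^ 2 = 1 ∧ ∀ y ∈ D.I n, y.1 = x.1 →
      |a * (coQ (incQ π D.L eE fA fB n x) (incQ π D.L eE fA fB n y) 2 / natW D n 0 2) +
        b * (coQ (incQ π D.L eE fA fB n x) (incQ π D.L eE fA fB n y) 4 / natW D n 0 4)| ≤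
        D.B.d n ^ (k n : ℝ)
    · by_cases h2 : ∃ x ∈ D.I n, x.1 = t
      · obtain ⟨z, hz, hzt⟩ := h2
        obtain ⟨a, b, h3, h4⟩ := h1 z hz
        exact ⟨a, b, z, fun _ _ => ⟨hz, hzt, h3, h4⟩⟩
      · exact ⟨0, 0, (0, 0), fun _ h => absurd h h2⟩
    · exact ⟨0, 0, (0, 0), fun h _ => absurd h h1⟩
  choose a b z hz using hch
  refine ⟨a, b, ?_, fun M => ?_⟩
  · filter_upwards [hk2] with n hn x hx
    exact (hz n x.1 hn ⟨x, hx, rfl⟩).2.2.1
  · have hkM : ∀ᶠ n in (U : Filter ℕ), M + 1 ≤ (k n : ℝ) :=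
      (tendsto_natCast_atTop_atTop.comp hk).eventually_ge_atTop _
    filter_upwards [hk2, hkM, hR.near0 one_pos, h3 (M + 2), ev_absorb D.B (C := 3) (by norm_num)
      one_pos] with n a1 a2 a3 a4 a5 x hx y hy hxy
    obtain ⟨z1, z2, z3, z4⟩ := hz n x.1 a1 ⟨x, hx, rfl⟩
    obtain ⟨hw, a3⟩ := a3
    have r1 := z4 x hx z2.symm
    have r2 := z4 y hy (hxy.trans z2.symm)
    have n1 := a3 (z n x.1) z1 x hx z2.symm 2
    have n2 := a4 x hx y hy hxy
    rw [sl2, sl4] at r1 r2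
    rw [sl2] at n1
    rw [sl3] at n2
    rw [sl2, sl4]
    have W2 : 0 < natW D n 0 2 := div_pos (hw 2) (hw 1)
    have W3 : 0 < natW D n 0 3 := div_pos (hw 0) (hw 2)
    have W4 : 0 < natW D n 0 4 := div_pos (hw 0) (hw 1)
    set X : ℝ := b n x.1 * ((eE n x - eE n (z n x.1)) * (fB n y - fB n x) / natW D n 0 4) with hX
    have hb : |b n x.1| ≤ 1 := by
      rw [← sq_le_one_iff_abs_le_one]
      nlinarith [sq_nonneg (a n x.1)]
    have hXb : |X| ≤ D.B.d n ^ (M + 1) := by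
      rw [hX, abs_mul, abs_div, abs_mul, abs_of_pos W4]
      have h5 : |eE n x - eE n (z n x.1)| * |fB n y - fB n x| / natW D n 0 4 ≤
          D.B.d n ^ (M + 1) := by
        rw [div_le_iff₀ W4, ← natW_mul hw]
        calc |eE n x - eE n (z n x.1)| * |fB n y - fB n x|
            ≤ (natW D n 0 2 * D.B.d n ^ (-(1 : ℝ))) * (natW D n 0 3 * D.B.d n ^ (M + 2)) :=
              mul_le_mul n1 n2 (abs_nonneg _) (mul_pos W2 (dpow_pos D.B n _)).le
          _ = D.B.d n ^ (M + 1) * (natW D n 0 2 * natW D n 0 3) := by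
              have e1 : D.B.d n ^ (M + 1) = D.B.d n ^ (-(1 : ℝ)) * D.B.d n ^ (M + 2) := by
                rw [← Real.rpow_add (D.B.pos n)]; congr 1; ring
              rw [e1]; ring
      have h6 : 0 ≤ |eE n x - eE n (z n x.1)| * |fB n y - fB n x| / natW D n 0 4 := by positivity
      calc |b n x.1| * (|eE n x - eE n (z n x.1)| * |fB n y - fB n x| / natW D n 0 4)
          ≤ 1 * (|eE n x - eE n (z n x.1)| * |fB n y - fB n x| / natW D n 0 4) :=
            mul_le_mul_of_nonneg_right hb h6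
        _ ≤ _ := by rw [one_mul]; exact h5
    have hdk : D.B.d n ^ (k n : ℝ) ≤ D.B.d n ^ (M + 1) := dpow_le D.B n a2
    have hfin := a5 M
    have key : a n x.1 * ((eE n y - eE n x) / natW D n 0 2) +
        b n x.1 * (((fA n y - fA n x) + eE n x * (fB n y - fB n x)) / natW D n 0 4) =
        (a n x.1 * ((eE n y - eE n (z n x.1)) / natW D n 0 2) +
          b n x.1 * (((fA n y - fA n (z n x.1)) +
            eE n (z n x.1) * (fB n y - fB n (z n x.1))) / natW D n 0 4)) -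
        (a n x.1 * ((eE n x - eE n (z n x.1)) / natW D n 0 2) +
          b n x.1 * (((fA n x - fA n (z n x.1)) +
            eE n (z n x.1) * (fB n x - fB n (z n x.1))) / natW D n 0 4)) + X := by
      rw [hX]
      have e2 := W2.ne'
      have e4 := W4.ne'
      field_simp
      ring
    rw [key]
    refine (abs_add_le _ _).trans ?_
    refine (add_le_add (abs_sub _ _) hXb).trans ?_
    linarith

end

end Crest.Agent.R136.Re436
end

-- ▼ part R136/ReE5_436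
section

/-!
# R136 (S0187), case E: re-flag (helper436), part 5: new flags in the three cases
-/

set_option autoImplicit false
set_option linter.unusedVariables false

open Finset Filter Topology

namespace Crest.Agent.R136.Re436

open Crest.Agent.R138.Ex926 (Base U exists_diag)
open Crest.Agent.R138.Mk163 (zc zl rho alive)
open Crest.Agent.R138.Dp76 (Dense)
open Crest.Agent.R138.Ps627 (dense_of_half)
open Crest.Agent.R138.MkRef627 (lc kc)
open Crest.Agent.R138.MkZoom779 (Fq Fq_mem ev_mem_Fq dpow_pos dpow_le)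
open Crest.Agent.R136.MkA627
open Crest.Agent.R136.Net191
open Crest.Agent.R136.NetQ186
open Crest.Agent.R136.Wq638
open Crest.Agent.R136.Top484
open Crest.Agent.R136.NatT550
open Crest.Agent.R136.Ut627 (prF btF prLinF wpos_all)
open Crest.Agent.R136.Slt627 (eq_exp)
open Crest.Agent.R136.Sh605 (Ln4)

section

variable {p : Par4} {D : Dat4} {π : Equiv.Perm (Fin 3)} {eE fA fB : ℕ → ℕ × ℝ → ℝ}

/-- output of the choice of the flags -/
structure FlagOut (p : Par4) (D' : Dat4) (π' : Equiv.Perm (Fin 3)) (e' fa' fb' : ℕ → ℕ × ℝ → ℝ) :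
    Prop where
  raw : RawS p D' π' e' fa' fb'
  flag : FlagC D' e' fa' fb'
  inv3 : InvS D' π' e' fa' fb' 3
  fin : InvS D' π' e' fa' fb' 4 ∨ (InvS D' π' e' fa' fb' 2 ∧ GapInf D')

theorem InvS.sub {k : Fin 11} (h : InvS D π eE fA fB k) {J : ℕ → Finset (ℕ × ℝ)}
    (hJ : ∀ n, J n ⊆ D.I n) : InvS (subD D J) π eE fA fB k := by
  intro M
  filter_upwards [h M] with n hn x hx y hy hxy
  exact hn x (hJ n hx) y (hJ n hy) hxy

/-- **`E` finer than natural by a power: zoom at the level `0`** -/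
theorem zoom_two (hR : RawS p D π eE fA fB) (h3 : InvS D π eE fA fB 3) (hG : GapInf D)
    {c : ℝ} (hc : 0 < c) (h2 : ∀ᶠ n in (U : Filter ℕ), ∀ x ∈ D.I n, ∀ y ∈ D.I n, y.1 = x.1 →
      |coQ (incQ π D.L eE fA fB n x) (incQ π D.L eE fA fB n y) 2| ≤ natW D n 0 2 * D.B.d n ^ c) :
    ∃ D' : Dat4, D'.L = D.L ∧ (∀ n, D'.I n ⊆ D.I n) ∧ RawS p D' π eE fA fB ∧
      InvS D' π eE fA fB 3 ∧ InvS D' π eE fA fB 2 ∧ GapInf D' := by
  have hr0 : ∀ k : ℕ, (0 : ℚ) < 1 / ((k : ℚ) + 1) := fun k => by positivity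
  have hr1 : ∀ k : ℕ, (1 : ℚ) / ((k : ℚ) + 1) ≤ 1 := fun k => by
    rw [div_le_one (by positivity)]
    linarith [Nat.cast_nonneg (α := ℚ) k]
  obtain ⟨s, B', I', A', s1, s2, s3, s4, s5⟩ := hR.zoom (u := fun _ => 0)
    (r := fun k => 1 / ((k : ℚ) + 1)) (fun _ => le_rfl) hr0
    (fun k => by simpa using hr1 k) (e := fun _ => 0) tendsto_const_nhds
    (P := fun k n S => (∀ x ∈ D.I n, ∀ y ∈ D.I n, y.1 = x.1 →
        |coQ (incQ π D.L eE fA fB n x) (incQ π D.L eE fA fB n y) 2| ≤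
          natW D n 0 2 * D.B.d n ^ c) ∧
      (∀ x ∈ D.I n, ∀ y ∈ D.I n, y.1 = x.1 →
        |coQ (incQ π D.L eE fA fB n x) (incQ π D.L eE fA fB n y) 3| ≤
          natW D n 0 3 * D.B.d n ^ (k : ℝ)) ∧ D.w 0 n 0 ≤ D.B.d n ^ (k : ℝ) * D.w 2 n 0 ∧
      ∀ j, 0 < D.w j n 0) (fun k n S T hTS hP => hP) (fun k => by
        filter_upwards [h2, h3 k, hG k, wpos_all hR.mka le_rfl zero_le_one] with n a1 a2 a3 a4
        exact ⟨D.I n, Subset.refl _, by simp, a1, a2, a3, a4⟩)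
  have hrs : ∀ n, (0 : ℝ) < ((1 / ((s n : ℚ) + 1) : ℚ) : ℝ) := fun n => by exact_mod_cast hr0 (s n)
  have hrs1 : ∀ n, ((1 / ((s n : ℚ) + 1) : ℚ) : ℝ) ≤ 1 := fun n => by exact_mod_cast hr1 (s n)
  have hrc : ∀ n, ((1 / ((s n : ℚ) + 1) : ℚ) : ℝ) = 1 / ((s n : ℝ) + 1) := fun n => by push_cast; rfl
  have hBe : ∀ n (a : ℝ), B'.d n ^ a = D.B.d n ^ (((1 / ((s n : ℚ) + 1) : ℚ) : ℝ) * a) := fun n a => by
    rw [s2, ← Real.rpow_mul (D.B.pos n).le]
  have hM0 : ∀ n, (0 + 1 / ((s n : ℚ) + 1) * 0 : ℚ) = 0 := fun n => by ring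
  have hNat : ∀ n t, natW (zooR D B' I' A' fun n x => 0 + 1 / ((s n : ℚ) + 1) * x) n 0 t =
      natW D n 0 t := fun n t => by
    show natW D n (0 + 1 / ((s n : ℚ) + 1) * 0) t = _
    rw [hM0]
  have hlarge : ∀ C : ℝ, ∀ᶠ n in (U : Filter ℕ), C ≤ (s n : ℝ) := fun C =>
    (tendsto_natCast_atTop_atTop.comp s1).eventually_ge_atTop C
  refine ⟨zooR D B' I' A' fun n x => 0 + 1 / ((s n : ℚ) + 1) * x, rfl, s3, s4, ?_, ?_, ?_⟩
  · intro M
    filter_upwards [s5, hlarge |M|] with n a1 a2 x hx y hy hxy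
    rw [hNat]
    show _ ≤ _ * B'.d n ^ M
    rw [hBe]
    refine (a1.2.1 x (s3 n hx) y (s3 n hy) hxy).trans ?_
    have hn0 : 0 ≤ natW D n 0 3 := (div_pos (a1.2.2.2 0) (a1.2.2.2 2)).le
    refine mul_le_mul_of_nonneg_left (dpow_le D.B n ?_) hn0
    have h5 := le_abs_self M
    have h6 := hrs n
    have h7 := hrs1 n
    have h8 := abs_nonneg M
    nlinarith
  · intro M
    filter_upwards [s5, hlarge (|M| / c)] with n a1 a2 x hx y hy hxy
    rw [hNat]
    show _ ≤ _ * B'.d n ^ M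
    rw [hBe]
    refine (a1.1 x (s3 n hx) y (s3 n hy) hxy).trans ?_
    have hn0 : 0 ≤ natW D n 0 2 := (div_pos (a1.2.2.2 2) (a1.2.2.2 1)).le
    refine mul_le_mul_of_nonneg_left (dpow_le D.B n ?_) hn0
    have h5 := le_abs_self M
    rw [div_le_iff₀ hc] at a2
    rw [hrc, div_mul_eq_mul_div, one_mul, div_le_iff₀ (by positivity)]
    nlinarith
  · intro M
    filter_upwards [s5, hlarge |M|] with n a1 a2
    show D.w 0 n (0 + 1 / ((s n : ℚ) + 1) * 0) ≤ B'.d n ^ M * D.w 2 n (0 + 1 / ((s n : ℚ) + 1) * 0)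
    rw [hM0, hBe]
    refine a1.2.2.1.trans ?_
    refine mul_le_mul_of_nonneg_right (dpow_le D.B n ?_) (a1.2.2.2 2).le
    have h5 := le_abs_self M
    have h6 := hrs n
    have h7 := hrs1 n
    have h8 := abs_nonneg M
    nlinarith

/-- a dense part from the negation of a density -/
theorem half_or {I J : ℕ → Finset (ℕ × ℝ)} (hJ : ∀ n, J n ⊆ I n)
    (h : ¬ ∀ᶠ n in (U : Filter ℕ), (I n).card ≤ 2 * (J n).card) :
    ∀ᶠ n in (U : Filter ℕ), (I n).card ≤ 2 * (I n \ J n).card := by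
  classical
  rw [← Ultrafilter.eventually_not] at h
  filter_upwards [h] with n hn
  have h1 := card_sdiff_add_card_inter (I n) (J n)
  rw [inter_eq_right.2 (hJ n)] at h1
  omega

end

end Crest.Agent.R136.Re436
end

-- ▼ part R136/ReE6_436
section

/-!
# R136 (S0187), case E: re-flag (helper436), part 6: the gap case
-/

set_option autoImplicit false
set_option linter.unusedVariables false

open Finset Filter Topology

namespace Crest.Agent.R136.Re436

open Crest.Agent.R138.Ex926 (Base U exists_diag)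
open Crest.Agent.R138.Mk163 (zc zl rho alive)
open Crest.Agent.R138.Dp76 (Dense)
open Crest.Agent.R138.Ps627 (dense_of_half)
open Crest.Agent.R138.MkRef627 (lc kc)
open Crest.Agent.R138.MkZoom779 (Fq Fq_mem ev_mem_Fq dpow_pos dpow_le)
open Crest.Agent.R136.MkA627
open Crest.Agent.R136.Net191
open Crest.Agent.R136.NetQ186
open Crest.Agent.R136.Wq638
open Crest.Agent.R136.Top484
open Crest.Agent.R136.NatT550
open Crest.Agent.R136.Ut627 (prF btF prLinF wpos_all)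
open Crest.Agent.R136.Sh605 (Ln4)

section

variable {p : Par4} {D : Dat4} {π : Equiv.Perm (Fin 3)} {eE fA fB : ℕ → ℕ × ℝ → ℝ}

theorem dense_card {B : Base} {I J : ℕ → Finset (ℕ × ℝ)} (hJ : ∀ n, J n ⊆ I n)
    (h : ∀ᶠ n in (U : Filter ℕ), (I n).card ≤ 2 * (J n).card) : Dense B J I :=
  dense_of_half (by
    filter_upwards [h] with n hn
    exact ⟨hJ n, by exact_mod_cast hn⟩)

open Classical in
/-- gap, `|b|` power-small on half of the incidences: `E` becomes invisible -/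
theorem flags_gap_small (hR : RawS p D π eE fA fB) (h3 : InvS D π eE fA fB 3) (hG : GapInf D)
    (hF : FlagB D eE fA fB) {a b : ℕ → ℕ → ℝ}
    (hab : ∀ᶠ n in (U : Filter ℕ), ∀ x ∈ D.I n, a n x.1 ^ 2 + b n x.1 ^ 2 = 1)
    (hrel : ∀ M : ℝ, ∀ᶠ n in (U : Filter ℕ), ∀ x ∈ D.I n, ∀ y ∈ D.I n, y.1 = x.1 →
        |a n x.1 * (coQ (incQ π D.L eE fA fB n x) (incQ π D.L eE fA fB n y) 2 / natW D n 0 2) +
          b n x.1 * (coQ (incQ π D.L eE fA fB n x) (incQ π D.L eE fA fB n y) 4 / natW D n 0 4)| ≤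
          D.B.d n ^ M) {c : ℝ} (hc : 0 < c)
    (hS : ∀ᶠ n in (U : Filter ℕ), (D.I n).card ≤
      2 * ((D.I n).filter fun x => |b n x.1| ≤ D.B.d n ^ c).card)
    {c1 : ℝ} (hc1 : c1 < 1) (hFc : ∀ n, ∀ x ∈ D.I n, |fB n x| ≤ c1) :
    ∃ D' : Dat4, FlagOut p D' π eE fA fB := by
  obtain ⟨J', j1, j2⟩ := hR.refine (J := fun n => (D.I n).filter fun x => |b n x.1| ≤ D.B.d n ^ c)
    (dense_card (fun n => filter_subset _ _) hS) (fun n => filter_subset _ _)
  have hJI : ∀ n, J' n ⊆ D.I n := fun n => (j1 n).trans (filter_subset _ _)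
  obtain ⟨D', z1, z2, z3, z4, z5, z6⟩ := zoom_two (D := subD D J') j2 (h3.sub hJI) hG
    (c := c / 2) (by positivity) (by
      filter_upwards [hab, hrel c, hR.near0 (ε := c / 4) (by positivity),
        ev_absorb D.B (C := 4) (ε := c / 4) (by norm_num) (by positivity),
        ev_absorb D.B (C := 2) (ε := c) (by norm_num) hc] with n a1 a2 a3 a4 a5 x hx y hy hxy
      show |coQ (incQ π D.L eE fA fB n x) (incQ π D.L eE fA fB n y) 2| ≤
        natW D n 0 2 * D.B.d n ^ (c / 2)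
      obtain ⟨hw, a3⟩ := a3
      have hxI := hJI n hx
      have hyI := hJI n hy
      have hb : |b n x.1| ≤ D.B.d n ^ c := (mem_filter.1 (j1 n hx)).2
      have W2 : 0 < natW D n 0 2 := div_pos (hw 2) (hw 1)
      have W4 : 0 < natW D n 0 4 := div_pos (hw 0) (hw 1)
      have r0 := a2 x hxI y hyI hxy
      have r4 := a3 x hxI y hyI hxy 4
      set s2 : ℝ := coQ (incQ π D.L eE fA fB n x) (incQ π D.L eE fA fB n y) 2 with hs2
      set s4 : ℝ := coQ (incQ π D.L eE fA fB n x) (incQ π D.L eE fA fB n y) 4 with hs4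
      have hd1 : D.B.d n ^ c ≤ 1 / 2 := by
        have := a5 0
        rw [zero_add, Real.rpow_zero] at this
        linarith
      have ha : 1 / 2 ≤ |a n x.1| := by
        have h1 := a1 x hxI
        have h2 : b n x.1 ^ 2 ≤ (1 / 2) ^ 2 := by
          rw [← sq_abs]
          exact pow_le_pow_left₀ (abs_nonneg _) (hb.trans hd1) 2
        by_contra hlt
        push Not at hlt
        have h3 : a n x.1 ^ 2 < (1 / 2) ^ 2 := by
          rw [← sq_abs]
          exact pow_lt_pow_left₀ hlt (abs_nonneg _) (by norm_num)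
        nlinarith
      have h4 : |b n x.1 * (s4 / natW D n 0 4)| ≤ D.B.d n ^ (3 * c / 4) := by
        rw [abs_mul, abs_div, abs_of_pos W4]
        have h5 : |s4| / natW D n 0 4 ≤ D.B.d n ^ (-(c / 4)) := by
          rw [div_le_iff₀ W4, mul_comm]; exact r4
        calc |b n x.1| * (|s4| / natW D n 0 4) ≤ D.B.d n ^ c * D.B.d n ^ (-(c / 4)) :=
              mul_le_mul hb h5 (by positivity) (dpow_pos D.B n _).le
          _ = _ := by rw [← Real.rpow_add (D.B.pos n)]; congr 1; ring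
      have h5 : |a n x.1 * (s2 / natW D n 0 2)| ≤ 2 * D.B.d n ^ (3 * c / 4) := by
        have h6 : a n x.1 * (s2 / natW D n 0 2) = (a n x.1 * (s2 / natW D n 0 2) +
            b n x.1 * (s4 / natW D n 0 4)) - b n x.1 * (s4 / natW D n 0 4) := by ring
        rw [h6]
        refine (abs_sub _ _).trans ?_
        have h7 : D.B.d n ^ c ≤ D.B.d n ^ (3 * c / 4) := dpow_le D.B n (by linarith)
        linarith
      rw [abs_mul, abs_div, abs_of_pos W2] at h5
      have h6 : |s2| / natW D n 0 2 ≤ 4 * D.B.d n ^ (3 * c / 4) := by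
        have h7 : 0 ≤ |s2| / natW D n 0 2 := by positivity
        nlinarith
      have h7 := a4 (c / 2)
      have e1 : c / 2 + c / 4 = 3 * c / 4 := by ring
      rw [e1] at h7
      have h8 := h6.trans h7
      rw [div_le_iff₀ W2] at h8
      linarith)
  exact ⟨D', z3, ⟨fun n x hx => hF n x (hJI n (z2 n hx)),
    fun _ => ⟨c1, hc1, fun n x hx => hFc n x (hJI n (z2 n hx))⟩⟩, z4, Or.inr ⟨z5, z6⟩⟩

/-- new flags without exchange: flag bounds -/
theorem flagB_num {e fa fb β : ℝ} (h1 : |e| ≤ 1) (h2 : |e| + |fa + e * fb| ≤ 1)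
    (h3 : |fb + β| ≤ 1) : |e| ≤ 1 ∧ |fa - β * e| ≤ 1 ∧ |fb + β| ≤ 1 ∧
      |e| + |(fa - β * e) + e * (fb + β)| ≤ 1 := by
  refine ⟨h1, ?_, h3, ?_⟩
  · have e1 : fa - β * e = (fa + e * fb) - e * (fb + β) := by ring
    rw [e1]
    refine (abs_sub _ _).trans ?_
    rw [abs_mul]
    have := mul_le_mul_of_nonneg_left h3 (abs_nonneg e)
    linarith
  · have e1 : (fa - β * e) + e * (fb + β) = fa + e * fb := by ring
    rw [e1]
    exact h2

open Classical in
/-- gap, `|b| ≥ d^o(1)` : re-flag -/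
theorem flags_gap_big (hR : RawS p D π eE fA fB) (h02 : p.θ 0 = p.θ 2)
    (h3 : InvS D π eE fA fB 3) (hG : GapInf D)
    (hF : FlagB D eE fA fB) {c : ℝ} (hc : c < 1) (hFc : ∀ n, ∀ x ∈ D.I n, |fB n x| ≤ c)
    {a b : ℕ → ℕ → ℝ}
    (hab : ∀ᶠ n in (U : Filter ℕ), ∀ x ∈ D.I n, a n x.1 ^ 2 + b n x.1 ^ 2 = 1)
    (hrel : ∀ M : ℝ, ∀ᶠ n in (U : Filter ℕ), ∀ x ∈ D.I n, ∀ y ∈ D.I n, y.1 = x.1 →
        |a n x.1 * (coQ (incQ π D.L eE fA fB n x) (incQ π D.L eE fA fB n y) 2 / natW D n 0 2) +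
          b n x.1 * (coQ (incQ π D.L eE fA fB n x) (incQ π D.L eE fA fB n y) 4 / natW D n 0 4)| ≤
          D.B.d n ^ M)
    (hS : ∀ c : ℝ, 0 < c → ∀ᶠ n in (U : Filter ℕ), (D.I n).card ≤
      2 * ((D.I n) \ (D.I n).filter fun x => |b n x.1| ≤ D.B.d n ^ c).card) :
    ∃ (D' : Dat4) (fa' fb' : ℕ → ℕ × ℝ → ℝ), FlagOut p D' π eE fa' fb' := by
  obtain ⟨k, hk, hk'⟩ := exists_diag (fun k n => (D.I n).card ≤
    2 * ((D.I n) \ (D.I n).filter fun x => |b n x.1| ≤ D.B.d n ^ (1 / ((k : ℝ) + 1))).card)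
    (fun k => hS _ (by positivity))
  have hk2 := hk'.mono fun n hn => hn (k n) le_rfl
  obtain ⟨J', j1, j2⟩ := hR.refine
    (J := fun n => (D.I n) \ (D.I n).filter fun x => |b n x.1| ≤ D.B.d n ^ (1 / ((k n : ℝ) + 1)))
    (dense_card (fun n => sdiff_subset) hk2) (fun n => sdiff_subset)
  have hJI : ∀ n, J' n ⊆ D.I n := fun n => (j1 n).trans sdiff_subset
  have hbk : ∀ n, ∀ x ∈ J' n, D.B.d n ^ (1 / ((k n : ℝ) + 1)) < |b n x.1| := by
    intro n x hx
    have h1 := mem_sdiff.1 (j1 n hx)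
    by_contra hlt
    exact h1.2 (mem_filter.2 ⟨h1.1, not_lt.1 hlt⟩)
  have hk0 : ∀ ε : ℝ, 0 < ε → ∀ᶠ n in (U : Filter ℕ), 1 / ((k n : ℝ) + 1) < ε := fun ε hε =>
    (tendsto_one_div_add_atTop_nhds_zero_nat.comp hk).eventually_lt_const hε
  -- the new slope
  set β0 : ℕ → ℕ × ℝ → ℝ := fun n x =>
    -(a n x.1 / b n x.1) * (D.w 0 n 0 / D.w 2 n 0) with hβ0
  set β : ℕ → ℕ × ℝ → ℝ := fun n x => if |β0 n x| ≤ (1 - c) / 2 then β0 n x else 0 with hβ
  have hβc : ∀ n x, |β n x| ≤ (1 - c) / 2 := by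
    intro n x
    simp only [hβ]
    split_ifs with h
    · exact h
    · rw [abs_zero]; linarith
  have hβline : ∀ n x y, y.1 = x.1 → β n y = β n x := by
    intro n x y hxy
    simp only [hβ, hβ0, hxy]
  have hβ0b : ∀ ε : ℝ, 0 < ε → ∀ᶠ n in (U : Filter ℕ), ∀ x ∈ J' n,
      |β0 n x| ≤ D.w 0 n 0 / D.w 2 n 0 * D.B.d n ^ (-ε) := by
    intro ε hε
    filter_upwards [hab, hk0 ε hε, wpos_all hR.mka le_rfl zero_le_one] with n a1 a2 hw x hx
    have h1 := a1 x (hJI n hx)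
    have h2 := hbk n x hx
    have ha : |a n x.1| ≤ 1 := by
      rw [← sq_le_one_iff_abs_le_one]
      nlinarith [sq_nonneg (b n x.1)]
    have hw0 : 0 < D.w 0 n 0 / D.w 2 n 0 := div_pos (hw 0) (hw 2)
    have hbp : 0 < |b n x.1| := (dpow_pos D.B n _).trans h2
    have h3 : |a n x.1| / |b n x.1| ≤ D.B.d n ^ (-ε) := by
      rw [div_le_iff₀ hbp]
      have h4 : D.B.d n ^ (-ε) * D.B.d n ^ (1 / ((k n : ℝ) + 1)) ≤ D.B.d n ^ (-ε) * |b n x.1| :=
        mul_le_mul_of_nonneg_left h2.le (dpow_pos D.B n _).le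
      have h5 : (1 : ℝ) ≤ D.B.d n ^ (-ε) * D.B.d n ^ (1 / ((k n : ℝ) + 1)) := by
        rw [← Real.rpow_add (D.B.pos n)]
        have := dpow_le D.B n (show -ε + 1 / ((k n : ℝ) + 1) ≤ 0 by linarith)
        rwa [Real.rpow_zero] at this
      linarith
    simp only [hβ0]
    rw [abs_mul, abs_neg, abs_div, abs_of_pos hw0, mul_comm]
    exact mul_le_mul_of_nonneg_left h3 hw0.le
  have hβeq : ∀ᶠ n in (U : Filter ℕ), ∀ x ∈ J' n, β n x = β0 n x := by
    have hsm : ∀ᶠ n in (U : Filter ℕ), D.B.d n ^ (1 : ℝ) ≤ (1 - c) / 2 := by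
      have h1 : ∀ᶠ n in (U : Filter ℕ),
          (1 / ((1 - c) / 2)) * D.B.d n ^ ((0 : ℝ) + 1) ≤ D.B.d n ^ (0 : ℝ) :=
        (ev_absorb D.B (C := 1 / ((1 - c) / 2)) (div_pos one_pos (by linarith)).le one_pos).mono
          fun n hn => hn 0
      filter_upwards [h1] with n hn
      rw [Real.rpow_zero, zero_add, one_div, inv_mul_le_iff₀ (by linarith), mul_one] at hn
      exact hn
    filter_upwards [hβ0b 1 one_pos, hG 2, hsm, wpos_all hR.mka le_rfl zero_le_one]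
      with n a1 a2 a3 hw x hx
    have h1 := a1 x hx
    have h2 : D.w 0 n 0 / D.w 2 n 0 ≤ D.B.d n ^ (2 : ℝ) := by
      rw [div_le_iff₀ (hw 2)]; exact a2
    have h3 : |β0 n x| ≤ D.B.d n ^ (1 : ℝ) := by
      refine h1.trans ((mul_le_mul_of_nonneg_right h2 (dpow_pos D.B n _).le).trans (le_of_eq ?_))
      rw [← Real.rpow_add (D.B.pos n)]
      norm_num
    simp only [hβ]
    rw [if_pos (h3.trans a3)]
  have hβb : ∀ ε : ℝ, 0 < ε → ∀ᶠ n in (U : Filter ℕ), ∀ x ∈ (subD D J').I n,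
      |β n x| ≤ (subD D J').w 0 n 0 / (subD D J').w 2 n 0 * (subD D J').B.d n ^ (-ε) := by
    intro ε hε
    filter_upwards [hβ0b ε hε, hβeq] with n a1 a2 x hx
    rw [a2 x hx]
    exact a1 x hx
  have hRaw := Crest.Agent.R136.Exch201.rawFlag p (subD D J') π eE fA fB β j2 h02 hβb
  have hnb : ∀ n, ∀ x ∈ J' n, |fB n x + β n x| ≤ (1 + c) / 2 := by
    intro n x hx
    refine (abs_add_le _ _).trans ?_
    have h1 := hFc n x (hJI n hx)
    have h2 := hβc n x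
    linarith
  refine ⟨subD D J', fun n x => fA n x - β n x * eE n x, fun n x => fB n x + β n x, hRaw,
    ⟨?_, fun _ => ⟨(1 + c) / 2, by linarith, hnb⟩⟩, ?_, ?_⟩
  · intro n x hx
    obtain ⟨f1, f2, f3, f4⟩ := hF n x (hJI n hx)
    refine flagB_num f1 f4 ?_
    have h1 := hnb n x hx
    linarith
  · intro M
    filter_upwards [h3 M] with n hn x hx y hy hxy
    have h1 := hn x (hJI n hx) y (hJI n hy) hxy
    rw [sl3] at h1 ⊢
    rw [hβline n x y hxy]
    have e1 : fB n y + β n x - (fB n x + β n x) = fB n y - fB n x := by ring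
    rw [e1]
    exact h1
  · left
    intro M
    filter_upwards [hrel (M + 1), hβeq, hk0 1 one_pos, wpos_all hR.mka le_rfl zero_le_one]
      with n a1 a2 a3 hw x hx y hy hxy
    have h1 := a1 x (hJI n hx) y (hJI n hy) hxy
    have hb := hbk n x hx
    have hbd : D.B.d n ^ (1 : ℝ) ≤ |b n x.1| := (dpow_le D.B n a3.le).trans hb.le
    have W2 : 0 < natW D n 0 2 := div_pos (hw 2) (hw 1)
    have W4 : 0 < natW D n 0 4 := div_pos (hw 0) (hw 1)
    have hb0 : b n x.1 ≠ 0 := by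
      intro h0
      rw [h0, abs_zero] at hb
      exact absurd hb (not_lt.2 (dpow_pos D.B n _).le)
    have hbp : 0 < |b n x.1| := abs_pos.2 hb0
    rw [sl2, sl4] at h1
    rw [sl4]
    have hb1 := hβline n x y hxy
    simp only [hb1, a2 x hx]
    have hr : D.w 0 n 0 / D.w 2 n 0 = natW D n 0 4 / natW D n 0 2 := by
      rw [natW_two, natW_four]
      have q1 := (hw 1).ne'
      have q2 := (hw 2).ne'
      field_simp
    have key : fA n y - β0 n x * eE n y - (fA n x - β0 n x * eE n x) +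
        eE n x * (fB n y + β0 n x - (fB n x + β0 n x)) =
        (natW D n 0 4 / b n x.1) * (a n x.1 * ((eE n y - eE n x) / natW D n 0 2) +
          b n x.1 * (((fA n y - fA n x) + eE n x * (fB n y - fB n x)) / natW D n 0 4)) := by
      simp only [hβ0]
      rw [hr]
      have q2 := W2.ne'
      have q4 := W4.ne'
      field_simp
      ring
    rw [key, abs_mul, abs_div, abs_of_pos W4]
    show _ ≤ natW D n 0 4 * D.B.d n ^ M
    calc natW D n 0 4 / |b n x.1| * |a n x.1 * ((eE n y - eE n x) / natW D n 0 2) +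
          b n x.1 * (((fA n y - fA n x) + eE n x * (fB n y - fB n x)) / natW D n 0 4)|
        ≤ natW D n 0 4 / |b n x.1| * D.B.d n ^ (M + 1) :=
          mul_le_mul_of_nonneg_left h1 (div_pos W4 hbp).le
      _ = natW D n 0 4 * (D.B.d n ^ (M + 1) / |b n x.1|) := by ring
      _ ≤ natW D n 0 4 * D.B.d n ^ M := by
          refine mul_le_mul_of_nonneg_left ?_ W4.le
          rw [div_le_iff₀ hbp, Real.rpow_add (D.B.pos n)]
          exact mul_le_mul_of_nonneg_left hbd (dpow_pos D.B n _).le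

open Classical in
/-- **gap case** -/
theorem flags_gap (hR : RawS p D π eE fA fB) (h02 : p.θ 0 = p.θ 2)
    (h3 : InvS D π eE fA fB 3) (hL : LineInf D π eE fA fB) (hG : GapInf D)
    (hF : FlagB D eE fA fB) {c : ℝ} (hc : c < 1) (hFc : ∀ n, ∀ x ∈ D.I n, |fB n x| ≤ c) :
    ∃ (D' : Dat4) (fa' fb' : ℕ → ℕ × ℝ → ℝ), FlagOut p D' π eE fa' fb' := by
  obtain ⟨a, b, hab, hrel⟩ := hL.fn hR h3
  by_cases hS : ∃ c0 : ℝ, 0 < c0 ∧ ∀ᶠ n in (U : Filter ℕ), (D.I n).card ≤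
      2 * ((D.I n).filter fun x => |b n x.1| ≤ D.B.d n ^ c0).card
  · obtain ⟨c0, hc0, hS⟩ := hS
    obtain ⟨D', h⟩ := flags_gap_small hR h3 hG hF hab hrel hc0 hS hc hFc
    exact ⟨D', fA, fB, h⟩
  · push Not at hS
    refine flags_gap_big hR h02 h3 hG hF hc hFc hab hrel fun c0 hc0 => ?_
    exact half_or (fun n => filter_subset _ _) (fun hc => by
      have h1 := hS c0 hc0
      obtain ⟨n, h3, h4⟩ := (h1.and hc).exists
      omega)

end

end Crest.Agent.R136.Re436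
end

-- ▼ part R136/ReE7_436
section

/-!
# R136 (S0187), case E: re-flag (helper436), part 7: the case without gap, choice of the flags
-/

set_option autoImplicit false
set_option linter.unusedVariables false

open Finset Filter Topology

namespace Crest.Agent.R136.Re436

open Crest.Agent.R138.Ex926 (Base U exists_diag)
open Crest.Agent.R138.Mk163 (zc zl rho alive)
open Crest.Agent.R138.Dp76 (Dense)
open Crest.Agent.R138.Ps627 (dense_of_half)
open Crest.Agent.R138.MkRef627 (lc kc)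
open Crest.Agent.R138.MkZoom779 (Fq Fq_mem ev_mem_Fq dpow_pos dpow_le)
open Crest.Agent.R136.MkA627
open Crest.Agent.R136.Net191
open Crest.Agent.R136.NetQ186
open Crest.Agent.R136.Wq638
open Crest.Agent.R136.Top484
open Crest.Agent.R136.NatT550
open Crest.Agent.R136.Ut627 (prF btF prLinF wpos_all)
open Crest.Agent.R136.Sh605 (Ln4)

section

variable {p : Par4} {D : Dat4} {π : Equiv.Perm (Fin 3)} {eE fA fB : ℕ → ℕ × ℝ → ℝ}

theorem NoGap.not_gap (h : NoGap D) (hw : ∀ᶠ n in (U : Filter ℕ), ∀ j, 0 < D.w j n 0) :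
    ¬ Gap23 D := by
  rintro ⟨γ, hγ, hg⟩
  obtain ⟨n, ⟨h1, h2⟩, h3⟩ := ((hg.and (h (γ / 2) (by positivity))).and hw).exists
  have h4 : D.B.d n ^ (γ / 2) * D.w 2 n 0 ≤ D.B.d n ^ γ * D.w 2 n 0 := h2.trans h1
  have h5 := le_of_mul_le_mul_right h4 (h3 2)
  have h6 : D.B.d n ^ γ < D.B.d n ^ (γ / 2) :=
    Real.rpow_lt_rpow_of_exponent_gt (D.B.pos n) (D.B.lt n) (by linarith)
  exact absurd h5 (not_le.2 h6)

/-- lower bound of the denominators -/
theorem den_low {a b r G : ℝ} (hab : a ^ 2 + b ^ 2 = 1) (hr : 0 < r) (hbG : |b| ≤ G)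
    (h : |a| * r ≤ 2 * G) : min r 1 / 4 ≤ G := by
  by_contra hlt
  push Not at hlt
  have h1 : G < 1 / 4 := lt_of_lt_of_le hlt (by
    have := min_le_right r 1
    linarith)
  have h2 : G < r / 4 := lt_of_lt_of_le hlt (by
    have := min_le_left r 1
    linarith)
  have hb2 : b ^ 2 ≤ (1 / 4) ^ 2 := by
    rw [← sq_abs]
    exact pow_le_pow_left₀ (abs_nonneg _) (by linarith) 2
  have ha : 1 / 2 < |a| := by
    by_contra hc
    push Not at hc
    have : a ^ 2 ≤ (1 / 2) ^ 2 := by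
      rw [← sq_abs]
      exact pow_le_pow_left₀ (abs_nonneg _) hc 2
    nlinarith
  nlinarith

/-- the denominators are at least `d` -/
theorem ev_min (hN : NoGap D) (hw : ∀ᶠ n in (U : Filter ℕ), ∀ j, 0 < D.w j n 0) :
    ∀ᶠ n in (U : Filter ℕ), D.B.d n ^ (1 : ℝ) ≤ min (D.w 0 n 0 / D.w 2 n 0) 1 / 4 := by
  filter_upwards [hN (1 / 2) (by norm_num), hw, ev_absorb D.B (C := 4) (ε := 1 / 2) (by norm_num)
    (by norm_num)] with n a1 a2 a3
  have h1 : D.B.d n ^ (1 / 2 : ℝ) ≤ D.w 0 n 0 / D.w 2 n 0 := by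
    rw [le_div_iff₀ (a2 2)]; exact a1
  have h2 : D.B.d n ^ (1 / 2 : ℝ) ≤ 1 := by
    have := dpow_le D.B n (show (0 : ℝ) ≤ 1 / 2 by norm_num)
    rwa [Real.rpow_zero] at this
  have h3 := a3 (1 / 2)
  have e1 : (1 / 2 : ℝ) + 1 / 2 = 1 := by norm_num
  rw [e1] at h3
  have h4 := le_min h1 h2
  linarith

open Classical in
/-- no gap, direct type -/
theorem flags_nogap_dir (hR : RawS p D π eE fA fB) (h02 : p.θ 0 = p.θ 2)
    (h3 : InvS D π eE fA fB 3) (hN : NoGap D) (hF : FlagB D eE fA fB)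
    {a b : ℕ → ℕ → ℝ}
    (hab : ∀ᶠ n in (U : Filter ℕ), ∀ x ∈ D.I n, a n x.1 ^ 2 + b n x.1 ^ 2 = 1)
    (hrel : ∀ M : ℝ, ∀ᶠ n in (U : Filter ℕ), ∀ x ∈ D.I n, ∀ y ∈ D.I n, y.1 = x.1 →
        |a n x.1 * (coQ (incQ π D.L eE fA fB n x) (incQ π D.L eE fA fB n y) 2 / natW D n 0 2) +
          b n x.1 * (coQ (incQ π D.L eE fA fB n x) (incQ π D.L eE fA fB n y) 4 / natW D n 0 4)| ≤
          D.B.d n ^ M)
    (hS : ∀ᶠ n in (U : Filter ℕ), (D.I n).card ≤ 2 * ((D.I n).filter fun x =>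
      |a n x.1 * (D.w 0 n 0 / D.w 2 n 0) - b n x.1 * fB n x| ≤ |b n x.1|).card) :
    ∃ (D' : Dat4) (fa' fb' : ℕ → ℕ × ℝ → ℝ), FlagOut p D' π eE fa' fb' := by
  obtain ⟨J', j1, j2⟩ := hR.refine (J := fun n => (D.I n).filter fun x =>
      |a n x.1 * (D.w 0 n 0 / D.w 2 n 0) - b n x.1 * fB n x| ≤ |b n x.1|)
    (dense_card (fun n => filter_subset _ _) hS) (fun n => filter_subset _ _)
  have hJI : ∀ n, J' n ⊆ D.I n := fun n => (j1 n).trans (filter_subset _ _)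
  have hJ : ∀ n, ∀ x ∈ J' n,
      |a n x.1 * (D.w 0 n 0 / D.w 2 n 0) - b n x.1 * fB n x| ≤ |b n x.1| := fun n x hx =>
    (mem_filter.1 (j1 n hx)).2
  have hw := wpos_all hR.mka le_rfl zero_le_one
  set β : ℕ → ℕ × ℝ → ℝ := fun n x => -(a n x.1 * (D.w 0 n 0 / D.w 2 n 0)) / b n x.1 with hβ
  have hβline : ∀ n x y, y.1 = x.1 → β n y = β n x := by
    intro n x y hxy
    simp only [hβ, hxy]
  have hfb : ∀ n, ∀ x ∈ J' n, |fB n x + β n x| ≤ 1 := by
    intro n x hx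
    obtain ⟨f1, f2, f3, f4⟩ := hF n x (hJI n hx)
    by_cases hb : b n x.1 = 0
    · simp only [hβ, hb, div_zero, add_zero]
      exact f3
    · have e1 : fB n x + β n x =
          -(a n x.1 * (D.w 0 n 0 / D.w 2 n 0) - b n x.1 * fB n x) / b n x.1 := by
        simp only [hβ]
        field_simp
        ring
      rw [e1, abs_div, abs_neg, div_le_one (abs_pos.2 hb)]
      exact hJ n x hx
  have hbl : ∀ᶠ n in (U : Filter ℕ), ∀ x ∈ J' n, D.B.d n ^ (1 : ℝ) ≤ |b n x.1| := by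
    filter_upwards [hab, ev_min hN hw, hw] with n a1 a2 a3 x hx
    refine a2.trans (den_low (a1 x (hJI n hx)) (div_pos (a3 0) (a3 2)) le_rfl ?_)
    obtain ⟨f1, f2, f3, f4⟩ := hF n x (hJI n hx)
    have h1 := hJ n x hx
    have hr := div_pos (a3 0) (a3 2)
    have h2 : |a n x.1 * (D.w 0 n 0 / D.w 2 n 0)| ≤ |b n x.1| + |b n x.1 * fB n x| := by
      have e1 : a n x.1 * (D.w 0 n 0 / D.w 2 n 0) =
        (a n x.1 * (D.w 0 n 0 / D.w 2 n 0) - b n x.1 * fB n x) + b n x.1 * fB n x := by ring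
      rw [e1]
      exact (abs_add_le _ _).trans (add_le_add h1 le_rfl)
    rw [abs_mul, abs_of_pos hr, abs_mul] at h2
    have h3 := mul_le_mul_of_nonneg_left f3 (abs_nonneg (b n x.1))
    linarith
  have hβb : ∀ ε : ℝ, 0 < ε → ∀ᶠ n in (U : Filter ℕ), ∀ x ∈ (subD D J').I n,
      |β n x| ≤ (subD D J').w 0 n 0 / (subD D J').w 2 n 0 * (subD D J').B.d n ^ (-ε) := by
    intro ε hε
    filter_upwards [hN (ε / 2) (by positivity), hw,
      ev_absorb D.B (C := 2) (ε := ε / 2) (by norm_num) (by positivity)] with n a1 a2 a3 x hx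
    obtain ⟨f1, f2, f3, f4⟩ := hF n x (hJI n hx)
    have h1 := hfb n x hx
    have h2 : |β n x| ≤ 2 := by
      have e1 : β n x = (fB n x + β n x) - fB n x := by ring
      rw [e1]
      refine (abs_sub _ _).trans ?_
      linarith
    refine h2.trans ?_
    show (2 : ℝ) ≤ D.w 0 n 0 / D.w 2 n 0 * D.B.d n ^ (-ε)
    have h4 : D.B.d n ^ (ε / 2) ≤ D.w 0 n 0 / D.w 2 n 0 := by
      rw [le_div_iff₀ (a2 2)]; exact a1
    have h5 : D.B.d n ^ (ε / 2) * D.B.d n ^ (-ε) ≤ D.w 0 n 0 / D.w 2 n 0 * D.B.d n ^ (-ε) :=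
      mul_le_mul_of_nonneg_right h4 (dpow_pos D.B n _).le
    refine le_trans ?_ h5
    rw [← Real.rpow_add (D.B.pos n)]
    have h6 := a3 (-(ε / 2))
    rw [neg_add_cancel, Real.rpow_zero, mul_one] at h6
    refine h6.trans (le_of_eq ?_)
    congr 1; ring
  have hRaw := Crest.Agent.R136.Exch201.rawFlag p (subD D J') π eE fA fB β j2 h02 hβb
  refine ⟨subD D J', fun n x => fA n x - β n x * eE n x, fun n x => fB n x + β n x, hRaw,
    ⟨?_, fun hg => absurd hg (hN.not_gap hw)⟩, ?_, ?_⟩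
  · intro n x hx
    obtain ⟨f1, f2, f3, f4⟩ := hF n x (hJI n hx)
    exact flagB_num f1 f4 (hfb n x hx)
  · intro M
    filter_upwards [h3 M] with n hn x hx y hy hxy
    have h1 := hn x (hJI n hx) y (hJI n hy) hxy
    rw [sl3] at h1 ⊢
    rw [hβline n x y hxy]
    have e1 : fB n y + β n x - (fB n x + β n x) = fB n y - fB n x := by ring
    rw [e1]
    exact h1
  · left
    intro M
    filter_upwards [hrel (M + 1), hbl, hw] with n a1 a2 hw x hx y hy hxy
    have h1 := a1 x (hJI n hx) y (hJI n hy) hxy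
    have hbd := a2 x hx
    have W2 : 0 < natW D n 0 2 := div_pos (hw 2) (hw 1)
    have W4 : 0 < natW D n 0 4 := div_pos (hw 0) (hw 1)
    have hbp : 0 < |b n x.1| := (dpow_pos D.B n _).trans_le hbd
    have hb0 : b n x.1 ≠ 0 := abs_pos.1 hbp
    rw [sl2, sl4] at h1
    rw [sl4]
    have hb1 := hβline n x y hxy
    simp only [hb1]
    have hr : D.w 0 n 0 / D.w 2 n 0 = natW D n 0 4 / natW D n 0 2 := by
      rw [natW_two, natW_four]
      have q1 := (hw 1).ne'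
      have q2 := (hw 2).ne'
      field_simp
    have key : fA n y - β n x * eE n y - (fA n x - β n x * eE n x) +
        eE n x * (fB n y + β n x - (fB n x + β n x)) =
        (natW D n 0 4 / b n x.1) * (a n x.1 * ((eE n y - eE n x) / natW D n 0 2) +
          b n x.1 * (((fA n y - fA n x) + eE n x * (fB n y - fB n x)) / natW D n 0 4)) := by
      simp only [hβ]
      rw [hr]
      have q2 := W2.ne'
      have q4 := W4.ne'
      field_simp
      ring
    rw [key, abs_mul, abs_div, abs_of_pos W4]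
    show _ ≤ natW D n 0 4 * D.B.d n ^ M
    calc natW D n 0 4 / |b n x.1| * |a n x.1 * ((eE n y - eE n x) / natW D n 0 2) +
          b n x.1 * (((fA n y - fA n x) + eE n x * (fB n y - fB n x)) / natW D n 0 4)|
        ≤ natW D n 0 4 / |b n x.1| * D.B.d n ^ (M + 1) :=
          mul_le_mul_of_nonneg_left h1 (div_pos W4 hbp).le
      _ = natW D n 0 4 * (D.B.d n ^ (M + 1) / |b n x.1|) := by ring
      _ ≤ natW D n 0 4 * D.B.d n ^ M := by
          refine mul_le_mul_of_nonneg_left ?_ W4.le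
          rw [div_le_iff₀ hbp, Real.rpow_add (D.B.pos n)]
          exact mul_le_mul_of_nonneg_left hbd (dpow_pos D.B n _).le

open Classical in
/-- no gap, exchanged type -/
theorem flags_nogap_exch (hR : RawS p D π eE fA fB) (h02 : p.θ 0 = p.θ 2)
    (h3 : InvS D π eE fA fB 3) (hN : NoGap D) (hF : FlagB D eE fA fB)
    {a b : ℕ → ℕ → ℝ}
    (hab : ∀ᶠ n in (U : Filter ℕ), ∀ x ∈ D.I n, a n x.1 ^ 2 + b n x.1 ^ 2 = 1)
    (hrel : ∀ M : ℝ, ∀ᶠ n in (U : Filter ℕ), ∀ x ∈ D.I n, ∀ y ∈ D.I n, y.1 = x.1 →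
        |a n x.1 * (coQ (incQ π D.L eE fA fB n x) (incQ π D.L eE fA fB n y) 2 / natW D n 0 2) +
          b n x.1 * (coQ (incQ π D.L eE fA fB n x) (incQ π D.L eE fA fB n y) 4 / natW D n 0 4)| ≤
          D.B.d n ^ M)
    (hS : ∀ᶠ n in (U : Filter ℕ), (D.I n).card ≤ 2 * ((D.I n) \ (D.I n).filter fun x =>
      |a n x.1 * (D.w 0 n 0 / D.w 2 n 0) - b n x.1 * fB n x| ≤ |b n x.1|).card) :
    ∃ (D' : Dat4) (π' : Equiv.Perm (Fin 3)) (e' fa' fb' : ℕ → ℕ × ℝ → ℝ),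
      FlagOut p D' π' e' fa' fb' := by
  obtain ⟨J', j1, j2⟩ := hR.refine (J := fun n => (D.I n) \ (D.I n).filter fun x =>
      |a n x.1 * (D.w 0 n 0 / D.w 2 n 0) - b n x.1 * fB n x| ≤ |b n x.1|)
    (dense_card (fun n => sdiff_subset) hS) (fun n => sdiff_subset)
  have hJI : ∀ n, J' n ⊆ D.I n := fun n => (j1 n).trans sdiff_subset
  set G : ℕ → ℕ × ℝ → ℝ := fun n x =>
    a n x.1 * (D.w 0 n 0 / D.w 2 n 0) - b n x.1 * fB n x with hGd
  have hJ : ∀ n, ∀ x ∈ J' n, |b n x.1| < |G n x| := by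
    intro n x hx
    have h1 := mem_sdiff.1 (j1 n hx)
    by_contra hlt
    exact h1.2 (mem_filter.2 ⟨h1.1, not_lt.1 hlt⟩)
  have hw := wpos_all hR.mka le_rfl zero_le_one
  set φ : ℕ → ℕ × ℝ → ℝ := fun n x => -b n x.1 / G n x with hφ
  have hφ1 : ∀ n, ∀ x ∈ J' n, |φ n x| ≤ 1 := by
    intro n x hx
    have h1 := hJ n x hx
    have h2 : 0 < |G n x| := (abs_nonneg _).trans_lt h1
    simp only [hφ]
    rw [abs_div, abs_neg, div_le_one h2]
    exact h1.le
  have hGl : ∀ᶠ n in (U : Filter ℕ), ∀ x ∈ J' n, D.B.d n ^ (1 : ℝ) ≤ |G n x| := by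
    filter_upwards [hab, ev_min hN hw, hw] with n a1 a2 a3 x hx
    have h1 := hJ n x hx
    refine a2.trans (den_low (a1 x (hJI n hx)) (div_pos (a3 0) (a3 2)) h1.le ?_)
    obtain ⟨f1, f2, f3, f4⟩ := hF n x (hJI n hx)
    have hr := div_pos (a3 0) (a3 2)
    have h2 : |a n x.1 * (D.w 0 n 0 / D.w 2 n 0)| ≤ |G n x| + |b n x.1 * fB n x| := by
      have e1 : a n x.1 * (D.w 0 n 0 / D.w 2 n 0) = G n x + b n x.1 * fB n x := by
        simp only [hGd]; ring
      rw [e1]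
      exact abs_add_le _ _
    rw [abs_mul, abs_of_pos hr, abs_mul] at h2
    have h3 := mul_le_mul_of_nonneg_left f3 (abs_nonneg (b n x.1))
    linarith
  have hng : ¬ Gap23 (subD D J') := hN.not_gap hw
  have hRaw := Crest.Agent.R136.Exch201.rawExch p (subD D J') π eE fA fB φ j2 h02 hng
    (Eventually.of_forall fun n x hx => by
      obtain ⟨f1, f2, f3, f4⟩ := hF n x (hJI n hx)
      exact ⟨f1, f2, f3, hφ1 n x hx⟩)
  refine ⟨subD D J', _, _, _, _, hRaw, ⟨?_, fun hg => absurd hg hng⟩, ?_, ?_⟩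
  · intro n x hx
    obtain ⟨f1, f2, f3, f4⟩ := hF n x (hJI n hx)
    have h1 := hφ1 n x hx
    have hc : |fA n x + eE n x * fB n x| ≤ 1 := by
      have := abs_nonneg (eE n x)
      linarith
    refine ⟨hc, ?_, h1, ?_⟩
    · refine (abs_sub _ _).trans ?_
      rw [abs_mul]
      have := mul_le_mul_of_nonneg_right h1 (abs_nonneg (fA n x + eE n x * fB n x))
      linarith
    · have e1 : eE n x - φ n x * (fA n x + eE n x * fB n x) +
          (fA n x + eE n x * fB n x) * φ n x = eE n x := by ring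
      rw [e1]
      linarith
  · intro M
    filter_upwards [h3 M] with n hn x hx y hy hxy
    have h1 := hn x (hJI n hx) y (hJI n hy) hxy
    rw [sl3] at h1 ⊢
    refine le_trans ?_ h1
    have gx := hJ n x hx
    have gy := hJ n y hy
    have px : 0 < |G n x| := (abs_nonneg _).trans_lt gx
    have py : 0 < |G n y| := (abs_nonneg _).trans_lt gy
    have nx : G n x ≠ 0 := abs_pos.1 px
    have ny : G n y ≠ 0 := abs_pos.1 py
    have e1 : φ n y - φ n x = -(b n x.1 * b n x.1 * (fB n y - fB n x)) / (G n x * G n y) := by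
      have e2 : G n y = G n x - b n x.1 * (fB n y - fB n x) := by
        simp only [hGd, hxy]; ring
      simp only [hφ, hxy]
      rw [div_sub_div _ _ ny nx, div_eq_div_iff (mul_ne_zero ny nx) (mul_ne_zero nx ny)]
      rw [e2]
      ring
    rw [e1, abs_div, abs_neg, abs_mul, abs_mul, abs_mul, div_le_iff₀ (mul_pos px py)]
    rw [hxy] at gy
    have h2 : |b n x.1| * |b n x.1| ≤ |G n x| * |G n y| :=
      mul_le_mul gx.le gy.le (abs_nonneg _) px.le
    calc |b n x.1| * |b n x.1| * |fB n y - fB n x| ≤ |G n x| * |G n y| * |fB n y - fB n x| :=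
          mul_le_mul_of_nonneg_right h2 (abs_nonneg _)
      _ = _ := by ring
  · left
    intro M
    filter_upwards [hrel (M + 1), hGl, hw] with n a1 a2 hw x hx y hy hxy
    have h1 := a1 x (hJI n hx) y (hJI n hy) hxy
    have hGd1 := a2 y hy
    have W2 : 0 < natW D n 0 2 := div_pos (hw 2) (hw 1)
    have W4 : 0 < natW D n 0 4 := div_pos (hw 0) (hw 1)
    have hGp : 0 < |G n y| := (dpow_pos D.B n _).trans_le hGd1
    have hG0 : G n y ≠ 0 := abs_pos.1 hGp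
    rw [sl2, sl4] at h1
    rw [sl4]
    have hr : D.w 0 n 0 / D.w 2 n 0 = natW D n 0 4 / natW D n 0 2 := by
      rw [natW_two, natW_four]
      have q1 := (hw 1).ne'
      have q2 := (hw 2).ne'
      field_simp
    have hφy : φ n y * G n y = -b n x.1 := by
      simp only [hφ, hxy]
      field_simp
    have hGy : G n y = a n x.1 * (natW D n 0 4 / natW D n 0 2) - b n x.1 * fB n y := by
      simp only [hGd, hxy]
      rw [hr]
    have key : eE n y - φ n y * (fA n y + eE n y * fB n y) -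
        (eE n x - φ n x * (fA n x + eE n x * fB n x)) +
        (fA n x + eE n x * fB n x) * (φ n y - φ n x) =
        (natW D n 0 4 / G n y) * (a n x.1 * ((eE n y - eE n x) / natW D n 0 2) +
          b n x.1 * (((fA n y - fA n x) + eE n x * (fB n y - fB n x)) / natW D n 0 4)) := by
      have q2 := W2.ne'
      have q4 := W4.ne'
      refine mul_right_cancel₀ hG0 ?_
      have e1 : (eE n y - φ n y * (fA n y + eE n y * fB n y) -
          (eE n x - φ n x * (fA n x + eE n x * fB n x)) +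
          (fA n x + eE n x * fB n x) * (φ n y - φ n x)) * G n y =
          (eE n y - eE n x) * G n y - (φ n y * G n y) *
            ((fA n y - fA n x) + eE n x * (fB n y - fB n x) + (eE n y - eE n x) * fB n y) := by
        ring
      have e2 : natW D n 0 4 / G n y * (a n x.1 * ((eE n y - eE n x) / natW D n 0 2) +
          b n x.1 * (((fA n y - fA n x) + eE n x * (fB n y - fB n x)) / natW D n 0 4)) * G n y =
          natW D n 0 4 * (a n x.1 * ((eE n y - eE n x) / natW D n 0 2) +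
          b n x.1 * (((fA n y - fA n x) + eE n x * (fB n y - fB n x)) / natW D n 0 4)) := by
        rw [mul_right_comm, div_mul_cancel₀ _ hG0]
      rw [e1, e2, hφy, hGy]
      generalize natW D n 0 4 = w4 at q4 ⊢
      generalize natW D n 0 2 = w2 at q2 ⊢
      field_simp
      ring
    rw [key, abs_mul, abs_div, abs_of_pos W4]
    show _ ≤ natW D n 0 4 * D.B.d n ^ M
    calc natW D n 0 4 / |G n y| * |a n x.1 * ((eE n y - eE n x) / natW D n 0 2) +
          b n x.1 * (((fA n y - fA n x) + eE n x * (fB n y - fB n x)) / natW D n 0 4)|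
        ≤ natW D n 0 4 / |G n y| * D.B.d n ^ (M + 1) :=
          mul_le_mul_of_nonneg_left h1 (div_pos W4 hGp).le
      _ = natW D n 0 4 * (D.B.d n ^ (M + 1) / |G n y|) := by ring
      _ ≤ natW D n 0 4 * D.B.d n ^ M := by
          refine mul_le_mul_of_nonneg_left ?_ W4.le
          rw [div_le_iff₀ hGp, Real.rpow_add (D.B.pos n)]
          exact mul_le_mul_of_nonneg_left hGd1 (dpow_pos D.B n _).le

open Classical in
/-- **choice of the new flags** -/
theorem exists_flags (hR : RawS p D π eE fA fB) (h02 : p.θ 0 = p.θ 2)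
    (h3 : InvS D π eE fA fB 3) (hL : LineInf D π eE fA fB) (hF : FlagB D eE fA fB)
    (hG : (GapInf D ∧ ∃ c : ℝ, c < 1 ∧ ∀ n, ∀ x ∈ D.I n, |fB n x| ≤ c) ∨ NoGap D) :
    ∃ (D' : Dat4) (π' : Equiv.Perm (Fin 3)) (e' fa' fb' : ℕ → ℕ × ℝ → ℝ),
      FlagOut p D' π' e' fa' fb' := by
  rcases hG with ⟨hG, c, hc, hFc⟩ | hN
  · obtain ⟨D', fa', fb', h⟩ := flags_gap hR h02 h3 hL hG hF hc hFc
    exact ⟨D', π, eE, fa', fb', h⟩
  · obtain ⟨a, b, hab, hrel⟩ := hL.fn hR h3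
    by_cases hS : ∀ᶠ n in (U : Filter ℕ), (D.I n).card ≤ 2 * ((D.I n).filter fun x =>
      |a n x.1 * (D.w 0 n 0 / D.w 2 n 0) - b n x.1 * fB n x| ≤ |b n x.1|).card
    · obtain ⟨D', fa', fb', h⟩ := flags_nogap_dir hR h02 h3 hN hF hab hrel hS
      exact ⟨D', π, eE, fa', fb', h⟩
    · exact flags_nogap_exch hR h02 h3 hN hF hab hrel
        (half_or (fun n => filter_subset _ _) hS)

end

end Crest.Agent.R136.Re436
end

-- ▼ part R136/ReQ1_210
section

/-!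
# R136 (S0187), case E: (P2) `ThickPre` ⊢ raw system (helper210)

`LinW.sizes0_lo` : lower bound of the sizes of the record box; `raw_of_couQ` : chart coordinates in
enlarged units ⊢ raw coordinates; `rawOfPre : RawOfPre η`.
-/

set_option autoImplicit false
set_option linter.unusedVariables false

open Finset Filter Topology

namespace Crest.Agent.R136.ReQ210

open Crest.Agent.R138.Ex926 (Base U)
open Crest.Agent.R138.Dp76 (dpow_pos dpow_add dpow_le dpow_le_one)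
open Crest.Agent.R138.Mk163 (zc zl rho alive own)
open Crest.Agent.R138.MkRef627 (lc kc)
open Crest.Agent.R136.MkA627
open Crest.Agent.R136.Net191
open Crest.Agent.R136.NetQ186
open Crest.Agent.R136.GeoQ186 (sfac coQ_scl scl)
open Crest.Agent.R136.Sh605 (Ln4 V3)
open Crest.Agent.R136.Wq638
open Crest.Agent.R136.Top484
open Crest.Agent.R136.NatT550
open Crest.Agent.R136.GR650 (LinW ev_rho)
open Crest.Agent.R136.ReP346 (natV sfac_natV sfac_pos natW_nonneg)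
open Crest.Agent.R136.Re436

section sizes

variable {B : Base} {lev : ℕ → ℚ → ℕ} {w : Fin 3 → ℕ → ℚ → ℝ} {θ : Fin 3 → ℝ} {w0 R : ℝ}

/-- lower bound of the sizes of the record box, in the units of level `0` -/
theorem sizes0_lo (h : LinW B lev w θ) {u : ℚ} (u0 : 0 ≤ u) (u1 : u ≤ 1) {t : ℝ} (ht : 0 < t) :
    ∀ᶠ n in (U : Filter ℕ), ∀ k : Fin 11, k ≠ 1 →
      B.d n ^ (pathQ θ w0 R u k + t) ≤
      ![Wq638.uH B lev w0 n * rho (lev n u), 0,
        (w 2 n u / rho (lev n u) / uB B lev w w0 n) / (w 1 n u / rho (lev n u) / uA B lev w w0 n),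
        (w 0 n u / rho (lev n u) / uY B lev w w0 n) / (w 2 n u / rho (lev n u) / uB B lev w w0 n),
        (w 0 n u / rho (lev n u) / uY B lev w w0 n) / (w 1 n u / rho (lev n u) / uA B lev w w0 n),
        w 1 n u / rho (lev n u) / uA B lev w w0 n, w 2 n u / rho (lev n u) / uB B lev w w0 n,
        w 0 n u / rho (lev n u) / uY B lev w w0 n,
        Wq638.uH B lev w0 n * rho (lev n u) * (w 1 n u / rho (lev n u) / uA B lev w w0 n),
        Wq638.uH B lev w0 n * rho (lev n u) * (w 2 n u / rho (lev n u) / uB B lev w w0 n),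
        Wq638.uH B lev w0 n * rho (lev n u) * (w 0 n u / rho (lev n u) / uY B lev w w0 n)] k := by
  have h2 : (0 : ℝ) < t / 2 := by positivity
  have hz := ev_rho (h.lev_lim 0 u le_rfl u0 u1) h2
  filter_upwards [hz, h.ang0 0 u0 u1 h2, h.ang0 1 u0 u1 h2, h.ang0 2 u0 u1 h2,
    h.wpos 0 0 le_rfl zero_le_one, h.wpos 1 0 le_rfl zero_le_one, h.wpos 2 0 le_rfl zero_le_one,
    h.wpos 0 u u0 u1, h.wpos 1 u u0 u1, h.wpos 2 u u0 u1] with n hz a0 a1 a2 p0 p1 p2 q0 q1 q2 k hk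
  have add : ∀ a b : ℝ, B.d n ^ a * B.d n ^ b = B.d n ^ (a + b) := fun a b => (dpow_add B n a b).symm
  have dp := dpow_pos B n
  have hρ := rho_pos (lev n u)
  have hρ0 := rho_pos (lev n 0)
  have key : ∀ (j : Fin 3) (s W : ℝ), W = w j n 0 / rho (lev n 0) * B.d n ^ (-s) →
      0 < w j n u → 0 < w j n 0 →
      B.d n ^ (-(θ j * u) + t / 2) ≤ (w j n u / rho (lev n u)) / (w j n 0 / rho (lev n 0)) →
      (w j n u / rho (lev n u)) / (w j n 0 / rho (lev n 0)) ≤ B.d n ^ (-(θ j * u) - t / 2) →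
      B.d n ^ (s - θ j * u + t / 2) ≤ w j n u / rho (lev n u) / W ∧
      w j n u / rho (lev n u) / W ≤ B.d n ^ (s - θ j * u - t / 2) := by
    intro j s W hW hu h1 a b
    have e1 : w j n u / rho (lev n u) / W =
        (w j n u / rho (lev n u)) / (w j n 0 / rho (lev n 0)) * B.d n ^ s := by
      rw [hW, Real.rpow_neg (B.pos n).le]
      have := dp s
      field_simp
    rw [e1]
    constructor
    · calc B.d n ^ (s - θ j * u + t / 2) = B.d n ^ (-(θ j * u) + t / 2) * B.d n ^ s := by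
            rw [add]; congr 1; ring
        _ ≤ _ := mul_le_mul_of_nonneg_right a (dp s).le
    · calc _ ≤ B.d n ^ (-(θ j * u) - t / 2) * B.d n ^ s :=
            mul_le_mul_of_nonneg_right b (dp s).le
        _ = _ := by rw [add]; congr 1; ring
  obtain ⟨ly, hy⟩ := key 0 (3 * w0) (uY B lev w w0 n) rfl q0 p0 a0.1 a0.2
  obtain ⟨la, ha⟩ := key 1 w0 (uA B lev w w0 n) rfl q1 p1 a1.1 a1.2
  obtain ⟨lb, hb⟩ := key 2 (2 * w0) (uB B lev w w0 n) rfl q2 p2 a2.1 a2.2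
  have hH : B.d n ^ (w0 + u + t / 2) ≤ Wq638.uH B lev w0 n * rho (lev n u) := by
    have e1 : Wq638.uH B lev w0 n * rho (lev n u) =
        B.d n ^ w0 * (rho (lev n u) / rho (lev n 0)) := by
      unfold Wq638.uH
      have : rho (lev n 0) = ((2 : ℝ) ^ (lev n 0))⁻¹ := by unfold rho; rw [one_div]
      rw [this, div_inv_eq_mul]; ring
    rw [e1]
    calc B.d n ^ (w0 + u + t / 2) = B.d n ^ w0 * B.d n ^ ((u : ℝ) - (0 : ℚ) + t / 2) := by
          rw [add]; congr 1; push_cast; ring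
      _ ≤ _ := mul_le_mul_of_nonneg_left hz.1 (dp w0).le
  generalize Wq638.uH B lev w0 n * rho (lev n u) = Z at hH ⊢
  generalize w 0 n u / rho (lev n u) / uY B lev w w0 n = Y at ly hy ⊢
  generalize w 1 n u / rho (lev n u) / uA B lev w w0 n = A at la ha ⊢
  generalize w 2 n u / rho (lev n u) / uB B lev w w0 n = Q at lb hb ⊢
  have hY0 : 0 < Y := (dp _).trans_le ly
  have hA0 : 0 < A := (dp _).trans_le la
  have hQ0 : 0 < Q := (dp _).trans_le lb
  have quo : ∀ {X Y a b c : ℝ}, 0 < Y → B.d n ^ a ≤ X → Y ≤ B.d n ^ b → a - b ≤ c →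
      B.d n ^ c ≤ X / Y := by
    intro X Y a b c h0 h1 h2 h3
    calc B.d n ^ c ≤ B.d n ^ (a - b) := dpow_le B n h3
      _ = B.d n ^ a / B.d n ^ b := by rw [← Real.rpow_sub (B.pos n)]
      _ ≤ X / Y := div_le_div₀ ((dp a).le.trans h1) h1 h0 h2
  have prd : ∀ {X Y a b c : ℝ}, B.d n ^ a ≤ X → B.d n ^ b ≤ Y → a + b ≤ c →
      B.d n ^ c ≤ X * Y := by
    intro X Y a b c h1 h2 h3
    calc B.d n ^ c ≤ B.d n ^ (a + b) := dpow_le B n h3
      _ = B.d n ^ a * B.d n ^ b := (add a b).symm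
      _ ≤ X * Y := mul_le_mul h1 h2 (dp b).le ((dp a).le.trans h1)
  fin_cases k
  · show B.d n ^ (w0 + u + t) ≤ Z
    exact (dpow_le B n (by linarith)).trans hH
  · exact absurd rfl hk
  · show B.d n ^ (w0 + (θ 1 - θ 2) * u + t) ≤ Q / A
    exact quo hA0 lb ha (by linarith)
  · show B.d n ^ (w0 + (θ 2 - θ 0) * u + t) ≤ Y / Q
    exact quo hQ0 ly hb (by linarith)
  · show B.d n ^ (2 * w0 + (θ 1 - θ 0) * u + t) ≤ Y / A
    exact quo hA0 ly ha (by linarith)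
  · show B.d n ^ (w0 - θ 1 * u + t) ≤ A
    exact (dpow_le B n (by linarith)).trans la
  · show B.d n ^ (2 * w0 - θ 2 * u + t) ≤ Q
    exact (dpow_le B n (by linarith)).trans lb
  · show B.d n ^ (3 * w0 - θ 0 * u + t) ≤ Y
    exact (dpow_le B n (by linarith)).trans ly
  · show B.d n ^ (2 * w0 + (1 - θ 1) * u + t) ≤ Z * A
    exact prd hH la (by linarith)
  · show B.d n ^ (3 * w0 + (1 - θ 2) * u + t) ≤ Z * Q
    exact prd hH lb (by linarith)
  · show B.d n ^ (4 * w0 + (1 - θ 0) * u + t) ≤ Z * Y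
    exact prd hH ly (by linarith)

/-- **chart coordinates ⊢ raw coordinates** -/
theorem raw_of_couQ (h : LinW B lev w θ) (R : ℝ) {F : ℕ → ℕ × ℝ → Fq4} {u : ℚ} (u0 : 0 ≤ u)
    (u1 : u ≤ 1) {t : ℝ} (ht : 0 < t) :
    ∀ᶠ n in (U : Filter ℕ), ∀ (x y : ℕ × ℝ) (k : Fin 11), k ≠ 1 → ∀ r : ℝ,
      |couQ B lev w w0 F n x y k| ≤ B.d n ^ r →
        |coQ (F n x) (F n y) k| ≤ natV lev w n u k * B.d n ^ (r - pathQ θ w0 R u k - t) := by
  filter_upwards [sizes0_lo (w0 := w0) (R := R) h u0 u1 ht,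
    h.wpos 0 0 le_rfl zero_le_one, h.wpos 1 0 le_rfl zero_le_one, h.wpos 2 0 le_rfl zero_le_one,
    h.wpos 0 u u0 u1, h.wpos 1 u u0 u1, h.wpos 2 u u0 u1]
    with n hsz p0 p1 p2 q0 q1 q2 x y k hk r hr
  have dp := dpow_pos B n
  have hρ := rho_pos (lev n u)
  have hH : 0 < Wq638.uH B lev w0 n := Wq638.uH_pos n
  have hWa : 0 < uA B lev w w0 n := Wq638.uA_pos p1
  have hWb : 0 < uB B lev w w0 n := Wq638.uB_pos p2
  have hWy : 0 < uY B lev w w0 n := Wq638.uY_pos p0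
  have hs := sfac_pos hH hWa hWb hWy k
  have h5 := hsz k hk
  rw [← sfac_natV hH.ne' hWa.ne' hWb.ne' hWy.ne' hρ.ne' q0.ne' q1.ne' q2.ne' k] at h5
  have h6 : sfac (Wq638.uH B lev w0 n) (uA B lev w w0 n) (uB B lev w w0 n) (uY B lev w w0 n) k *
      |coQ (F n x) (F n y) k| ≤ B.d n ^ r := by
    refine le_trans (le_of_eq ?_) hr
    show _ = |coQ (scl _ _ _ _ (F n x)) (scl _ _ _ _ (F n y)) k|
    rw [coQ_scl hH.ne' hWa.ne' hWb.ne' hWy.ne', abs_mul, abs_of_pos hs]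
  have h7 : B.d n ^ r ≤
      (sfac (Wq638.uH B lev w0 n) (uA B lev w w0 n) (uB B lev w w0 n) (uY B lev w w0 n) k *
        natV lev w n u k) * B.d n ^ (r - pathQ θ w0 R u k - t) := by
    calc B.d n ^ r = B.d n ^ (pathQ θ w0 R u k + t) * B.d n ^ (r - pathQ θ w0 R u k - t) := by
          rw [← dpow_add]; congr 1; ring
      _ ≤ _ := mul_le_mul_of_nonneg_right h5 (dp _).le
  have h8 := h6.trans h7
  rw [mul_assoc] at h8
  exact le_of_mul_le_mul_left h8 hs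

end sizes

/-- **(P2)** -/
theorem rawOfPre (η : ℝ) : RawOfPre η := by
  intro p D π eE fA fB V T w0 R T0 PD h
  have hL := linW_of h.pre.mka
  refine ⟨⟨h.pre.mka, ?_, h.wrs⟩, ?_⟩
  · intro u u0 u1 ε hε
    have h2 : 0 < ε / 2 := by positivity
    filter_upwards [h.pre.gR u u0 u1 _ h2,
      raw_of_couQ (w0 := w0) hL R (F := incQ π D.L eE fA fB) u0 u1 h2] with n h1 h2 x hx y hy hxy k
    by_cases hk : k = 1
    · subst hk
      show |(0 : ℝ) - 0| ≤ 0 * _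
      simp
    · refine (h2 x y k hk _ (h1 x hx y hy hxy k)).trans (le_of_eq ?_)
      show natW D n u k * _ = natW D n u k * _
      congr 2
      ring
  · intro k hk hV
    refine ⟨1, one_pos, fun u u0 u1 => ?_⟩
    have hwp : ∀ᶠ n in (U : Filter ℕ), ∀ j, 0 < D.w j n u :=
      Filter.eventually_all.2 fun j => h.pre.mka.wpos j u u0 u1
    have hhalf : (0 : ℝ) < 1 / 2 := by norm_num
    filter_upwards [h.pre.own_near 0 le_rfl zero_le_one _ hhalf, h.pre.mka.cell0,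
      raw_of_couQ (w0 := w0) hL R (F := incQ π D.L eE fA fB) u0 u1 hhalf, hwp]
      with n h1 h2 h3 h4 x hx y hy hxy
    have hlc : lc (D.lev n 0) y = lc (D.lev n 0) x := Prod.ext hxy (h2 y hy x hx)
    have hk0 : k ≠ 0 := by rcases hk with rfl | rfl | rfl <;> decide
    have hk1 : k ≠ 1 := by rcases hk with rfl | rfl | rfl <;> decide
    have h5 := h1 x hx y hy hlc k
    have e1 : ownQ p.θ w0 R V ((0 : ℚ) : ℝ) k = R := by
      unfold ownQ
      rw [if_neg hk0, if_neg hV]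
    rw [e1] at h5
    refine (h3 x y k hk1 _ h5).trans ?_
    show natW D n u k * _ ≤ natW D n u k * _
    refine mul_le_mul_of_nonneg_left (dpow_le D.B n ?_) (natW_nonneg h4 k)
    have v0 : (0 : ℝ) ≤ u := by exact_mod_cast u0
    have v1 : (u : ℝ) ≤ 1 := by exact_mod_cast u1
    have b0 := h.big.bd v0 v1 0
    have b1 := h.big.bd v0 v1 1
    have b2 := h.big.bd v0 v1 2
    have b3 := h.big.R0
    have b4 := h.big.w0T
    have b5 := h.big.T0
    rcases hk with rfl | rfl | rfl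
    · show 1 ≤ R - 1 / 2 - (w0 + (p.θ 1 - p.θ 2) * u) - 1 / 2
      linarith [b0.1, b0.2, b1.1, b1.2, b2.1, b2.2]
    · show 1 ≤ R - 1 / 2 - (w0 + (p.θ 2 - p.θ 0) * u) - 1 / 2
      linarith [b0.1, b0.2, b1.1, b1.2, b2.1, b2.2]
    · show 1 ≤ R - 1 / 2 - (2 * w0 + (p.θ 1 - p.θ 0) * u) - 1 / 2
      linarith [b0.1, b0.2, b1.1, b1.2, b2.1, b2.2]

end Crest.Agent.R136.ReQ210
end

-- ▼ part R136/ReL1_344
section

/-!
# R136 (S0187), case E: window relation ⊢ same-line relation (helper344), part 1: tools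
-/

set_option autoImplicit false
set_option linter.unusedVariables false
set_option linter.unusedSectionVars false

open Finset Filter Topology

namespace Crest.Agent.R136.ReL344

open Crest.Agent.R138.Ex926 (Base U)
open Crest.Agent.R138.Dp76 (dpow_pos dpow_add dpow_le dpow_le_one)
open Crest.Agent.R138.Mk163 (zc zl rho alive)
open Crest.Agent.R138.MkRef627 (lc kc)
open Crest.Agent.R136.MkA627
open Crest.Agent.R136.Net191
open Crest.Agent.R136.NetQ186
open Crest.Agent.R136.GeoQ186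
open Crest.Agent.R136.Wq638
open Crest.Agent.R136.Sh605 (Ln4 V3)

open Classical in
/-- one label per group -/
theorem pop_label {ι γ α : Type*} (F : Finset ι) (g : ι → γ) (κ : ι → α) {N : ℝ}
    (hN : ∀ j ∈ F, (((F.filter fun j' => g j' = g j).image κ).card : ℝ) ≤ N) :
    ∃ S ⊆ F, (F.card : ℝ) ≤ N * (S.card : ℝ) ∧ ∀ x ∈ S, ∀ y ∈ S, g x = g y → κ x = κ y := by
  -- popular label of the group `c`
  have h1 : ∀ c : γ, ∃ a : Option α, ((F.filter fun j => g j = c).card : ℝ) ≤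
      N * (((F.filter fun j => g j = c).filter fun j => some (κ j) = a).card : ℝ) := by
    intro c
    rcases (F.filter fun j => g j = c).eq_empty_or_nonempty with he | ⟨j0, hj0⟩
    · exact ⟨none, by rw [he]; simp⟩
    obtain ⟨hj1, hj2⟩ := Finset.mem_filter.1 hj0
    have hNj := hN j0 hj1
    rw [hj2] at hNj
    set Fc := F.filter fun j => g j = c with hFc
    by_contra hcon
    push Not at hcon
    have hne : (Fc.image κ).Nonempty := ⟨κ j0, Finset.mem_image_of_mem _ hj0⟩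
    have e1 : (Fc.card : ℝ) = ∑ a ∈ Fc.image κ, ((Fc.filter fun j => κ j = a).card : ℝ) := by
      have : Fc.card = ∑ a ∈ Fc.image κ, (Fc.filter fun j => κ j = a).card :=
        Finset.card_eq_sum_card_fiberwise fun j hj => Finset.mem_image_of_mem _ hj
      rw [this]; push_cast; rfl
    have e2 : ∀ a ∈ Fc.image κ, N * ((Fc.filter fun j => κ j = a).card : ℝ) < (Fc.card : ℝ) := by
      intro a _
      have := hcon (some a)
      simpa using this
    have e3 : ∑ a ∈ Fc.image κ, N * ((Fc.filter fun j => κ j = a).card : ℝ) <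
        ∑ _a ∈ Fc.image κ, (Fc.card : ℝ) := Finset.sum_lt_sum_of_nonempty hne e2
    rw [← Finset.mul_sum, ← e1, Finset.sum_const, nsmul_eq_mul] at e3
    have e4 : ((Fc.image κ).card : ℝ) * (Fc.card : ℝ) ≤ N * (Fc.card : ℝ) :=
      mul_le_mul_of_nonneg_right hNj (Nat.cast_nonneg _)
    linarith
  choose a ha using h1
  refine ⟨F.filter fun j => some (κ j) = a (g j), Finset.filter_subset _ _, ?_, ?_⟩
  · have e1 : (F.card : ℝ) = ∑ c ∈ F.image g, ((F.filter fun j => g j = c).card : ℝ) := by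
      have : F.card = ∑ c ∈ F.image g, (F.filter fun j => g j = c).card :=
        Finset.card_eq_sum_card_fiberwise fun j hj => Finset.mem_image_of_mem _ hj
      rw [this]; push_cast; rfl
    have e2 : ((F.filter fun j => some (κ j) = a (g j)).card : ℝ) = ∑ c ∈ F.image g,
        (((F.filter fun j => g j = c).filter fun j => some (κ j) = a c).card : ℝ) := by
      have : (F.filter fun j => some (κ j) = a (g j)).card = ∑ c ∈ F.image g,
          ((F.filter fun j => some (κ j) = a (g j)).filter fun j => g j = c).card :=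
        Finset.card_eq_sum_card_fiberwise fun j hj =>
          Finset.mem_image_of_mem _ (Finset.mem_filter.1 hj).1
      rw [this]
      push_cast
      refine Finset.sum_congr rfl fun c _ => ?_
      congr 2
      ext j
      simp only [Finset.mem_filter]
      constructor
      · rintro ⟨⟨x1, x2⟩, x3⟩
        exact ⟨⟨x1, x3⟩, by rw [← x3]; exact x2⟩
      · rintro ⟨⟨x1, x3⟩, x2⟩
        exact ⟨⟨x1, by rw [x3]; exact x2⟩, x3⟩
    rw [e1, e2, Finset.mul_sum]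
    exact Finset.sum_le_sum fun c _ => ha c
  · intro x hx y hy hxy
    have h2 := (Finset.mem_filter.1 hx).2
    have h3 := (Finset.mem_filter.1 hy).2
    rw [← hxy] at h3
    exact Option.some.inj (h2.trans h3.symm)

/-- the relation seen from two incidences -/
theorem rel_shift (i x y : Fq4) (a b p2 p4 : ℝ) :
    (a * (coQ i y 2 / p2) + b * ((coQ i y 4 + coQ i y 3 * coQ i y 2) / p4)) -
      (a * (coQ i x 2 / p2) + b * ((coQ i x 4 + coQ i x 3 * coQ i x 2) / p4)) =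
    a * (coQ x y 2 / p2) + b * ((coQ x y 4 + coQ x y 2 * coQ i y 3) / p4) := by
  simp only [coQ, Matrix.cons_val]
  ring

theorem co3_add (i x y : Fq4) : coQ i y 3 = coQ i x 3 + coQ x y 3 := by
  simp only [coQ, Matrix.cons_val]
  ring

/-- natural size of a slot -/
theorem natW_slot (D : Top484.Dat4) (n : ℕ) (u : ℚ) :
    Re436.natW D n u 2 = prQ D.w 2 n u ∧ Re436.natW D n u 4 = prQ D.w 4 n u := by
  constructor
  · simp [Re436.natW, prQ]
  · simp [Re436.natW, prQ]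

section ratio

variable {σ : Type*} {B : Base} {I : ℕ → Finset (ℕ × ℝ)} {G : Geo σ (Fin 3)} {lev : ℕ → ℚ → ℕ}
    {A : ℕ → ℝ} {c Λ : ℝ → ℝ} {θ : Fin 3 → ℝ} {f : ℕ → ℚ → ℕ → ℤ → ℕ} {b : ℕ → ℚ → ℕ → σ}
    {vm : ℕ → ℚ → ℝ} {w : Fin 3 → ℕ → ℚ → ℝ}

/-- ratio of two widths at level `u` over level `0` -/
theorem ratio_lim (h : MkA B I G lev A c Λ (fun j v => θ j * (1 - v)) f b vm w) (i j : Fin 3)
    {u : ℚ} (h0 : 0 ≤ u) (h1 : u ≤ 1) :
    Tendsto (fun n => Real.log ((w i n u / w j n u) / (w i n 0 / w j n 0)) / B.L n) U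
      (𝓝 (-((θ j - θ i) * u))) := by
  have t1 := h.tau i u h0 h1
  have t2 := h.tau i 0 le_rfl zero_le_one
  have t3 := h.tau j u h0 h1
  have t4 := h.tau j 0 le_rfl zero_le_one
  have t5 := (t3.sub t4).sub (t1.sub t2)
  have e1 : θ j * (1 - (u : ℝ)) - θ j * (1 - ((0 : ℚ) : ℝ)) - (θ i * (1 - (u : ℝ)) -
      θ i * (1 - ((0 : ℚ) : ℝ))) = -((θ j - θ i) * u) := by
    push_cast; ring
  rw [e1] at t5
  refine t5.congr' ?_
  filter_upwards [h.wpos i u h0 h1, h.wpos i 0 le_rfl zero_le_one, h.wpos j u h0 h1,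
    h.wpos j 0 le_rfl zero_le_one, h.wpos i 1 zero_le_one le_rfl,
    h.wpos j 1 zero_le_one le_rfl] with n a1 a2 a3 a4 a5 a6
  have r1 := rho_pos (lev n u)
  have r2 := rho_pos (lev n 0)
  have r3 := rho_pos (lev n 1)
  have lg : ∀ x y z t : ℝ, 0 < x → 0 < y → 0 < z → 0 < t → Real.log ((x / y) / (z / t)) =
      (Real.log x - Real.log y) - (Real.log z - Real.log t) := by
    intro x y z t hx hy hz ht
    rw [Real.log_div (div_pos hx hy).ne' (div_pos hz ht).ne', Real.log_div hx.ne' hy.ne',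
      Real.log_div hz.ne' ht.ne']
  rw [lg _ _ _ _ r1 a1 r3 a5, lg _ _ _ _ r2 a2 r3 a5, lg _ _ _ _ r1 a3 r3 a6,
    lg _ _ _ _ r2 a4 r3 a6, lg _ _ _ _ a1 a3 a2 a4]
  ring

/-- lower and upper bound of the ratio -/
theorem ratio_ev (h : MkA B I G lev A c Λ (fun j v => θ j * (1 - v)) f b vm w) (i j : Fin 3)
    {u : ℚ} (h0 : 0 ≤ u) (h1 : u ≤ 1) {ε : ℝ} (hε : 0 < ε) :
    ∀ᶠ n in (U : Filter ℕ), B.d n ^ ((θ j - θ i) * u + ε) * (w i n 0 / w j n 0) ≤
      w i n u / w j n u := by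
  filter_upwards [(ratio_lim h i j h0 h1).eventually_const_lt
    (show -((θ j - θ i) * (u : ℝ)) - ε < -((θ j - θ i) * u) by linarith),
    h.wpos i u h0 h1, h.wpos i 0 le_rfl zero_le_one, h.wpos j u h0 h1,
    h.wpos j 0 le_rfl zero_le_one] with n hn a1 a2 a3 a4
  have hL := B.L_pos n
  rw [lt_div_iff₀ hL] at hn
  have hp : 0 < (w i n u / w j n u) / (w i n 0 / w j n 0) :=
    div_pos (div_pos a1 a3) (div_pos a2 a4)
  rw [← le_div_iff₀ (div_pos a2 a4), ← Real.log_le_log_iff (dpow_pos B n _) hp,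
    Real.log_rpow (B.pos n)]
  have hL2 : B.L n = -Real.log (B.d n) := rfl
  rw [hL2] at hn
  nlinarith

end ratio

section labels

variable {B : Base} {I : ℕ → Finset (ℕ × ℝ)} {co : ∀ n : ℕ, ℕ × ℝ → ℕ × ℝ → Fin 11 → ℝ}

theorem legal_const {R : ℝ} (hR : 0 ≤ R) : Legal monQ (fun _ : Fin 11 => R) where
  nonneg := fun _ => hR
  wall := fun k e he => by
    have h1 := monQ.one_le he
    have h2 : (1 : ℝ) ≤ ∑ s, (e s : ℝ) := by exact_mod_cast h1
    rw [← Finset.sum_mul]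
    nlinarith

end labels

end Crest.Agent.R136.ReL344
end

-- ▼ part R136/ReL2_344
section

/-!
# R136 (S0187), case E: window relation ⊢ same-line relation (helper344), part 2: one scale
-/

set_option autoImplicit false
set_option linter.unusedVariables false
set_option linter.unusedSectionVars false

open Finset Filter Topology

namespace Crest.Agent.R136.ReL344

open Crest.Agent.R138.Ex926 (Base U)
open Crest.Agent.R138.Dp76 (dpow_pos dpow_add dpow_le dpow_le_one)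
open Crest.Agent.R138.Mk163 (zc zl rho alive)
open Crest.Agent.R138.MkRef627 (lc kc)
open Crest.Agent.R136.MkA627
open Crest.Agent.R136.Net191
open Crest.Agent.R136.NetQ186
open Crest.Agent.R136.GeoQ186
open Crest.Agent.R136.Wq638
open Crest.Agent.R136.Sh605 (Ln4 V3)

theorem ev_c (B : Base) {t : ℝ} (ht : 0 < t) (C : ℝ) :
    ∀ᶠ n in (U : Filter ℕ), C ≤ B.d n ^ (-t) := by
  have hC : 0 < 1 / (|C| + 1) := by positivity
  have h0 : Tendsto (fun n => B.d n ^ t) U (𝓝 0) := by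
    have := B.lim0.rpow_const (p := t) (Or.inr ht.le)
    simpa [Real.zero_rpow ht.ne'] using this
  filter_upwards [h0.eventually (gt_mem_nhds hC)] with n hn
  have hd := B.pos n
  rw [Real.rpow_neg hd.le]
  have h1 : 0 < B.d n ^ t := Real.rpow_pos_of_pos hd t
  rw [lt_div_iff₀ (by positivity)] at hn
  calc C ≤ |C| + 1 := by linarith [le_abs_self C]
    _ ≤ (B.d n ^ t)⁻¹ := by
        rw [le_inv_comm₀ (by positivity) h1, ← one_div, le_div_iff₀ (by positivity)]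
        exact hn.le

/-- normalised relation -/
theorem norm_rel {a b φ Φ l2 l4 l : ℝ} (hab : a ^ 2 + b ^ 2 = 1) (hφ : |φ| ≤ Φ) (hl : 0 < l)
    (h2 : l ≤ l2) (h4 : l ≤ l4) :
    ∃ a' b' : ℝ, a' ^ 2 + b' ^ 2 = 1 ∧ ∀ Q2 Q4 E : ℝ,
      |(a + b * φ) * (l2 * Q2) + b * (l4 * Q4)| ≤ E →
        |a' * Q2 + b' * Q4| ≤ E * (2 * (1 + Φ) / l) := by
  have hΦ : 0 ≤ Φ := (abs_nonneg _).trans hφ
  set P := (a + b * φ) * l2 with hP
  set Q := b * l4 with hQ
  have ha1 : |a| ≤ 1 := by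
    rw [abs_le]; constructor <;> nlinarith [sq_nonneg b]
  have hb1 : |b| ≤ 1 := by
    rw [abs_le]; constructor <;> nlinarith [sq_nonneg a]
  -- size of the first pair
  have hs1 : 1 ≤ |a| + |b| := by
    have e1 : |a| ^ 2 = a ^ 2 := sq_abs a
    have e2 : |b| ^ 2 = b ^ 2 := sq_abs b
    nlinarith [abs_nonneg a, abs_nonneg b]
  have hs2 : |a| ≤ |a + b * φ| + |b| * Φ := by
    have e1 : a = (a + b * φ) - b * φ := by ring
    have e2 := abs_sub (a + b * φ) (b * φ)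
    rw [← e1] at e2
    have e3 : |b * φ| ≤ |b| * Φ := by
      rw [abs_mul]; exact mul_le_mul_of_nonneg_left hφ (abs_nonneg _)
    linarith
  have hs3 : 1 ≤ (1 + Φ) * (|a + b * φ| + |b|) := by
    nlinarith [abs_nonneg (a + b * φ), abs_nonneg b]
  have hl2 : 0 < l2 := hl.trans_le h2
  have hl4 : 0 < l4 := hl.trans_le h4
  have hPa : l * |a + b * φ| ≤ |P| := by
    rw [hP, abs_mul, abs_of_pos hl2, mul_comm]
    exact mul_le_mul_of_nonneg_left h2 (abs_nonneg _)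
  have hQa : l * |b| ≤ |Q| := by
    rw [hQ, abs_mul, abs_of_pos hl4, mul_comm]
    exact mul_le_mul_of_nonneg_left h4 (abs_nonneg _)
  have hPQ : l ≤ (1 + Φ) * (|P| + |Q|) := by
    calc l = l * 1 := (mul_one l).symm
      _ ≤ l * ((1 + Φ) * (|a + b * φ| + |b|)) := mul_le_mul_of_nonneg_left hs3 hl.le
      _ = (1 + Φ) * (l * |a + b * φ| + l * |b|) := by ring
      _ ≤ (1 + Φ) * (|P| + |Q|) :=
        mul_le_mul_of_nonneg_left (add_le_add hPa hQa) (by linarith)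
  have hΦ1 : 0 < 1 + Φ := by linarith
  have hsum : 0 < |P| + |Q| := by
    by_contra hc
    have : (1 + Φ) * (|P| + |Q|) ≤ 0 := by nlinarith [not_lt.1 hc]
    linarith
  set N := Real.sqrt (P ^ 2 + Q ^ 2) with hN
  have hNN : N ^ 2 = P ^ 2 + Q ^ 2 := Real.sq_sqrt (by positivity)
  have hN0 : 0 ≤ N := Real.sqrt_nonneg _
  have hNge : |P| + |Q| ≤ 2 * N := by
    have e1 : |P| ≤ N := Real.abs_le_sqrt (by nlinarith [sq_nonneg Q])
    have e2 : |Q| ≤ N := Real.abs_le_sqrt (by nlinarith [sq_nonneg P])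
    linarith
  have hNpos : 0 < N := by linarith
  refine ⟨P / N, Q / N, ?_, fun Q2 Q4 E hE => ?_⟩
  · rw [div_pow, div_pow, ← add_div, ← hNN, div_self (by positivity)]
  · have e1 : P / N * Q2 + Q / N * Q4 = ((a + b * φ) * (l2 * Q2) + b * (l4 * Q4)) / N := by
      rw [hP, hQ]; field_simp
    rw [e1, abs_div, abs_of_pos hNpos]
    have hE0 : 0 ≤ E := (abs_nonneg _).trans hE
    calc |(a + b * φ) * (l2 * Q2) + b * (l4 * Q4)| / N ≤ E / N :=
          div_le_div_of_nonneg_right hE hN0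
      _ = E * (1 / N) := by ring
      _ ≤ E * (2 * (1 + Φ) / l) := by
          refine mul_le_mul_of_nonneg_left ?_ hE0
          rw [div_le_div_iff₀ hNpos hl]
          nlinarith

/-- the relation between two incidences with mates of the same label -/
theorem fix_rel {i x y mx my : Fq4} {a b e d X2 w0 R K E1 : ℝ} (hd : 0 < d) (hd1 : d ≤ 1)
    (hK : 1 ≤ K) (ha : |a| ≤ 1) (hb : |b| ≤ 1) (hX2 : 0 ≤ X2) (hw0 : 0 ≤ w0) (hwR : w0 ≤ R)
    (hx : ∀ k, |coQ mx x k| ≤ K * d ^ R) (hy : ∀ k, |coQ my y k| ≤ K * d ^ R)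
    (h3x : |coQ i mx 3| ≤ K * d ^ w0) (h3y : |coQ i my 3| ≤ K * d ^ w0)
    (hGx : |a * (coQ i mx 2 / d ^ X2) + b * ((coQ i mx 4 + coQ i mx 3 * coQ i mx 2) /
      d ^ (X2 + w0)) - e| ≤ E1)
    (hGy : |a * (coQ i my 2 / d ^ X2) + b * ((coQ i my 4 + coQ i my 3 * coQ i my 2) /
      d ^ (X2 + w0)) - e| ≤ E1)
    (hxy2 : |coQ x y 2| ≤ 1) (hxy3 : |coQ x y 3| ≤ d ^ (R - 1)) :
    |coQ i x 3 / d ^ w0| ≤ 2 * K ∧
    |(a + b * (coQ i x 3 / d ^ w0)) * (coQ x y 2 / d ^ X2) + b * (coQ x y 4 / d ^ (X2 + w0))| ≤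
      2 * E1 + (8 * K ^ 2 + 1) * d ^ (R - 1 - (X2 + w0)) := by
  have hW : 0 < d ^ w0 := Real.rpow_pos_of_pos hd _
  have hD2 : 0 < d ^ X2 := Real.rpow_pos_of_pos hd _
  have hr : 0 < d ^ R := Real.rpow_pos_of_pos hd _
  have hD4 : d ^ (X2 + w0) = d ^ X2 * d ^ w0 := Real.rpow_add hd _ _
  have hW1 : d ^ w0 ≤ 1 := Real.rpow_le_one hd.le hd1 hw0
  have hrW : d ^ R ≤ d ^ w0 := Real.rpow_le_rpow_of_exponent_ge hd hd1 hwR
  have hK0 : 0 ≤ K := by linarith
  -- slot 3 from `i`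
  have g3 : ∀ z mz : Fq4, (∀ k, |coQ mz z k| ≤ K * d ^ R) → |coQ i mz 3| ≤ K * d ^ w0 →
      |coQ i z 3| ≤ 2 * K * d ^ w0 := by
    intro z mz h1 h2
    rw [co3_add i mz z]
    have h3 := abs_add_le (coQ i mz 3) (coQ mz z 3)
    have h4 := h1 3
    have h5 : K * d ^ R ≤ K * d ^ w0 := mul_le_mul_of_nonneg_left hrW hK0
    linarith
  -- moving to the mate
  have gm : ∀ z mz : Fq4, (∀ k, |coQ mz z k| ≤ K * d ^ R) → |coQ i mz 3| ≤ K * d ^ w0 →
      |a * (coQ i mz 2 / d ^ X2) + b * ((coQ i mz 4 + coQ i mz 3 * coQ i mz 2) /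
        d ^ (X2 + w0)) - e| ≤ E1 →
      |a * (coQ i z 2 / d ^ X2) + b * ((coQ i z 4 + coQ i z 3 * coQ i z 2) /
        d ^ (X2 + w0)) - e| ≤ E1 + 4 * K ^ 2 * (d ^ R / d ^ (X2 + w0)) := by
    intro z mz h1 h2 h3
    have h4 := rel_shift i mz z a b (d ^ X2) (d ^ (X2 + w0))
    have h5 := g3 z mz h1 h2
    have c2 := h1 2
    have c4 := h1 4
    have t1 : |a * (coQ mz z 2 / d ^ X2)| ≤ K * (d ^ R / d ^ (X2 + w0)) := by
      rw [abs_mul, abs_div, abs_of_pos hD2]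
      calc |a| * (|coQ mz z 2| / d ^ X2) ≤ 1 * (K * d ^ R / d ^ X2) := by
            refine mul_le_mul ha (div_le_div_of_nonneg_right c2 hD2.le) (by positivity) zero_le_one
        _ = K * (d ^ R / d ^ X2) := by ring
        _ ≤ K * (d ^ R / d ^ (X2 + w0)) := by
            refine mul_le_mul_of_nonneg_left ?_ hK0
            refine div_le_div_of_nonneg_left hr.le (by rw [hD4]; positivity) ?_
            rw [hD4]
            nlinarith
    have t2 : |coQ mz z 4 + coQ mz z 2 * coQ i z 3| ≤ 3 * K ^ 2 * d ^ R := by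
      have s1 := abs_add_le (coQ mz z 4) (coQ mz z 2 * coQ i z 3)
      have s2 : |coQ mz z 2 * coQ i z 3| ≤ (K * d ^ R) * (2 * K * d ^ w0) := by
        rw [abs_mul]; exact mul_le_mul c2 h5 (abs_nonneg _) (by positivity)
      have s3 : (K * d ^ R) * (2 * K * d ^ w0) ≤ (K * d ^ R) * (2 * K * 1) :=
        mul_le_mul_of_nonneg_left (mul_le_mul_of_nonneg_left hW1 (by linarith)) (by positivity)
      have s4 : K * d ^ R ≤ K ^ 2 * d ^ R :=
        mul_le_mul_of_nonneg_right (by nlinarith) hr.le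
      nlinarith
    have t3 : |b * ((coQ mz z 4 + coQ mz z 2 * coQ i z 3) / d ^ (X2 + w0))| ≤
        3 * K ^ 2 * (d ^ R / d ^ (X2 + w0)) := by
      have hp : 0 < d ^ (X2 + w0) := by rw [hD4]; positivity
      rw [abs_mul, abs_div, abs_of_pos hp]
      calc |b| * (|coQ mz z 4 + coQ mz z 2 * coQ i z 3| / d ^ (X2 + w0)) ≤
            1 * (3 * K ^ 2 * d ^ R / d ^ (X2 + w0)) :=
            mul_le_mul hb (div_le_div_of_nonneg_right t2 hp.le) (by positivity) zero_le_one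
        _ = 3 * K ^ 2 * (d ^ R / d ^ (X2 + w0)) := by ring
    have t4 : K * (d ^ R / d ^ (X2 + w0)) ≤ K ^ 2 * (d ^ R / d ^ (X2 + w0)) :=
      mul_le_mul_of_nonneg_right (by nlinarith) (by rw [hD4]; positivity)
    have e1 : a * (coQ i z 2 / d ^ X2) + b * ((coQ i z 4 + coQ i z 3 * coQ i z 2) /
        d ^ (X2 + w0)) - e = (a * (coQ i mz 2 / d ^ X2) + b * ((coQ i mz 4 +
          coQ i mz 3 * coQ i mz 2) / d ^ (X2 + w0)) - e) +
        (a * (coQ mz z 2 / d ^ X2) + b * ((coQ mz z 4 + coQ mz z 2 * coQ i z 3) /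
          d ^ (X2 + w0))) := by
      rw [← h4]; ring
    rw [e1]
    have s5 := abs_add_le (a * (coQ i mz 2 / d ^ X2) + b * ((coQ i mz 4 +
          coQ i mz 3 * coQ i mz 2) / d ^ (X2 + w0)) - e) (a * (coQ mz z 2 / d ^ X2) +
            b * ((coQ mz z 4 + coQ mz z 2 * coQ i z 3) / d ^ (X2 + w0)))
    have s6 := abs_add_le (a * (coQ mz z 2 / d ^ X2))
      (b * ((coQ mz z 4 + coQ mz z 2 * coQ i z 3) / d ^ (X2 + w0)))
    linarith
  have Gx := gm x mx hx h3x hGx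
  have Gy := gm y my hy h3y hGy
  have hφ := g3 x mx hx h3x
  refine ⟨?_, ?_⟩
  · rw [abs_div, abs_of_pos hW, div_le_iff₀ hW]
    exact hφ
  · have h4 := rel_shift i x y a b (d ^ X2) (d ^ (X2 + w0))
    have h5 := co3_add i x y
    have hp : 0 < d ^ (X2 + w0) := by rw [hD4]; positivity
    have e1 : (a + b * (coQ i x 3 / d ^ w0)) * (coQ x y 2 / d ^ X2) +
        b * (coQ x y 4 / d ^ (X2 + w0)) =
        (a * (coQ x y 2 / d ^ X2) + b * ((coQ x y 4 + coQ x y 2 * coQ i y 3) / d ^ (X2 + w0))) -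
          b * (coQ x y 2 * coQ x y 3 / d ^ (X2 + w0)) := by
      rw [h5, hD4]
      field_simp
      ring
    have t1 : |b * (coQ x y 2 * coQ x y 3 / d ^ (X2 + w0))| ≤ d ^ (R - 1) / d ^ (X2 + w0) := by
      rw [abs_mul, abs_div, abs_of_pos hp, abs_mul]
      have s1 : |coQ x y 2| * |coQ x y 3| ≤ 1 * d ^ (R - 1) :=
        mul_le_mul hxy2 hxy3 (abs_nonneg _) zero_le_one
      calc |b| * (|coQ x y 2| * |coQ x y 3| / d ^ (X2 + w0)) ≤
            1 * (1 * d ^ (R - 1) / d ^ (X2 + w0)) :=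
            mul_le_mul hb (div_le_div_of_nonneg_right s1 hp.le) (by positivity) zero_le_one
        _ = d ^ (R - 1) / d ^ (X2 + w0) := by ring
    have t2 : d ^ R / d ^ (X2 + w0) ≤ d ^ (R - 1 - (X2 + w0)) := by
      rw [← Real.rpow_sub hd]
      exact Real.rpow_le_rpow_of_exponent_ge hd hd1 (by linarith)
    have t3 : d ^ (R - 1) / d ^ (X2 + w0) = d ^ (R - 1 - (X2 + w0)) := (Real.rpow_sub hd _ _).symm
    rw [e1, ← h4]
    have s1 := abs_sub ((a * (coQ i y 2 / d ^ X2) + b * ((coQ i y 4 + coQ i y 3 * coQ i y 2) /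
      d ^ (X2 + w0))) - (a * (coQ i x 2 / d ^ X2) + b * ((coQ i x 4 + coQ i x 3 * coQ i x 2) /
      d ^ (X2 + w0)))) (b * (coQ x y 2 * coQ x y 3 / d ^ (X2 + w0)))
    have s2 : |(a * (coQ i y 2 / d ^ X2) + b * ((coQ i y 4 + coQ i y 3 * coQ i y 2) /
      d ^ (X2 + w0))) - (a * (coQ i x 2 / d ^ X2) + b * ((coQ i x 4 + coQ i x 3 * coQ i x 2) /
      d ^ (X2 + w0)))| ≤ 2 * (E1 + 4 * K ^ 2 * (d ^ R / d ^ (X2 + w0))) := by
      rw [abs_le] at Gx Gy ⊢
      constructor <;> linarith [Gx.1, Gx.2, Gy.1, Gy.2]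
    have s3 : 4 * K ^ 2 * (d ^ R / d ^ (X2 + w0)) ≤ 4 * K ^ 2 * d ^ (R - 1 - (X2 + w0)) :=
      mul_le_mul_of_nonneg_left t2 (by positivity)
    rw [t3] at t1
    linarith

end Crest.Agent.R136.ReL344
end

-- ▼ part R136/ReL3_344
section

/-!
# R136 (S0187), case E: window relation ⊢ same-line relation (helper344), part 3
-/

set_option autoImplicit false
set_option linter.unusedVariables false
set_option linter.unusedSectionVars false

open Finset Filter Topology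

namespace Crest.Agent.R136.ReL344

open Crest.Agent.R138.Ex926 (Base U)
open Crest.Agent.R138.Dp76 (dpow_pos dpow_add dpow_le dpow_le_one)
open Crest.Agent.R138.Mk163 (zc zl rho alive)
open Crest.Agent.R138.MkRef627 (lc kc)
open Crest.Agent.R136.MkA627
open Crest.Agent.R136.Net191
open Crest.Agent.R136.NetQ186
open Crest.Agent.R136.GeoQ186
open Crest.Agent.R136.Wq638
open Crest.Agent.R136.Top484
open Crest.Agent.R136.NatT550
open Crest.Agent.R136.Sh605 (Ln4 V3)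

/-- constants -/
noncomputable def Kq : ℝ := cK0 monQ 2
noncomputable def Nq : ℝ := cN monQ 2 (triC monQ 2 Kq)
noncomputable def Wg : ℝ := ∑ k, wg monQ k

theorem Kq_one : 1 ≤ Kq := cK0_one zero_le_two

theorem Nq_pos : 0 < Nq :=
  cN_pos monQ zero_le_two (Kq_one.trans (triC_ge zero_le_two Kq_one))

theorem Wg_nonneg : 0 ≤ Wg := Finset.sum_nonneg fun k _ => zero_le_one.trans (wg_one monQ k)

open Classical in
/-- number of labels of the mates of one line and cell -/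
theorem group_labels {B : Base} {lev : ℕ → ℚ → ℕ} {w : Fin 3 → ℕ → ℚ → ℝ} {w0 R ε₁ : ℝ}
    {F : ℕ → ℕ × ℝ → Fq4} {I : ℕ → Finset (ℕ × ℝ)} {n : ℕ} {u : ℚ} {X o : Fin 11 → ℝ}
    (hR : 0 ≤ R) (hX : X ∈ Leg monQ R) (hε : 0 ≤ ε₁) (hXo : ∀ k, X k ≤ o k) (ho : ∀ k, ε₁ ≤ o k)
    (hown : ∀ x ∈ I n, ∀ y ∈ I n, lc (lev n u) y = lc (lev n u) x → ∀ k,
      |couQ B lev w w0 F n x y k| ≤ B.d n ^ (o k - ε₁))
    (F' : Finset (ℕ × ℝ)) (hF' : F' ⊆ I n) (μ : ℕ × ℝ → ℕ × ℝ) (hμI : ∀ j ∈ F', μ j ∈ I n)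
    (hμ : ∀ j ∈ F', nlab B I (couQ B lev w w0 F) monQ 2 n (fun _ => R) j =
      nlab B I (couQ B lev w w0 F) monQ 2 n (fun _ => R) (μ j)) (j0 : ℕ × ℝ) (hj0 : j0 ∈ F') :
    (((F'.filter fun j' => lc (lev n u) j' = lc (lev n u) j0).image
      fun j' => nlab B I (couQ B lev w w0 F) monQ 2 n X (μ j')).card : ℝ) ≤
      Nq * B.d n ^ (-(Wg * ε₁)) := by
  have hch : ∀ n, Chart (I n) (couQ B lev w w0 F n) monQ 2 := fun n => chart_couQ n (I n)
  have hd := B.pos n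
  have hd1 := (B.lt n).le
  set P : Fin 11 → ℝ := lowp monQ ε₁ X with hP
  have hPL : P ∈ Leg monQ R := lowp_mem hR hε hX
  have hPX : P ≤ X := by
    intro k
    refine max_le ?_ (hX.1.nonneg k)
    have := mul_nonneg (zero_le_one.trans (wg_one monQ k)) hε
    linarith
  have hPo : ∀ k, P k ≤ o k - ε₁ := by
    intro k
    refine max_le ?_ (by linarith [ho k])
    have h1 := hXo k
    have h2 : ε₁ ≤ wg monQ k * ε₁ := by nlinarith [wg_one monQ k]
    linarith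
  have hK := Kq_one
  have hK2 : 1 ≤ triC monQ 2 Kq := hK.trans (triC_ge zero_le_two hK)
  have hmain := card_nlab_le (B := B) hch hPL.1 hX.1 hPX hK2 (hF' hj0)
  have hsum : ∑ s, (X s - P s) ≤ Wg * ε₁ := by
    unfold Wg
    rw [Finset.sum_mul]
    refine Finset.sum_le_sum fun s _ => ?_
    have : X s - wg monQ s * ε₁ ≤ P s := le_max_left _ _
    linarith
  have hpow : B.d n ^ (-(∑ s, (X s - P s))) ≤ B.d n ^ (-(Wg * ε₁)) :=
    Real.rpow_le_rpow_of_exponent_ge hd hd1 (by linarith)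
  have hsub : ((F'.filter fun j' => lc (lev n u) j' = lc (lev n u) j0).image
      fun j' => nlab B I (couQ B lev w w0 F) monQ 2 n X (μ j')) ⊆
      ((I n).filter fun j => Near (couQ B lev w w0 F n) (B.d n) P (triC monQ 2 Kq) j0 j).image
        (nlab B I (couQ B lev w w0 F) monQ 2 n X) := by
    intro c hc
    obtain ⟨j', hj', rfl⟩ := Finset.mem_image.1 hc
    obtain ⟨h1, h2⟩ := Finset.mem_filter.1 hj'
    refine Finset.mem_image.2 ⟨μ j', Finset.mem_filter.2 ⟨hμI j' h1, ?_⟩, rfl⟩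
    have n1 : Near (couQ B lev w w0 F n) (B.d n) P Kq j0 j' := by
      intro k
      have h3 := hown j0 (hF' hj0) j' (hF' h1) h2 k
      have h4 : B.d n ^ (o k - ε₁) ≤ B.d n ^ P k :=
        Real.rpow_le_rpow_of_exponent_ge hd hd1 (hPo k)
      have h5 : B.d n ^ P k ≤ Kq * B.d n ^ P k := by
        have := Real.rpow_pos_of_pos hd (P k)
        nlinarith
      linarith
    have n2 : Near (couQ B lev w w0 F n) (B.d n) P Kq j' (μ j') :=
      (near_of_nlab hch (legal_const hR) (hF' h1) (hμI j' h1) (hμ j' h1)).anti hd hd1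
        (zero_le_one.trans hK) (fun k => hPL.2 k)
    exact (hch n).tri hPL.1 hd hd1 hK (hF' hj0) (hF' h1) (hμI j' h1) n1 n2
  calc (((F'.filter fun j' => lc (lev n u) j' = lc (lev n u) j0).image
      fun j' => nlab B I (couQ B lev w w0 F) monQ 2 n X (μ j')).card : ℝ) ≤
      ((((I n).filter fun j => Near (couQ B lev w w0 F n) (B.d n) P (triC monQ 2 Kq) j0 j).image
        (nlab B I (couQ B lev w w0 F) monQ 2 n X)).card : ℝ) := by
        exact_mod_cast Finset.card_le_card hsub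
    _ ≤ Nq * B.d n ^ (-(∑ s, (X s - P s))) := by
        unfold Nq
        convert hmain
    _ ≤ Nq * B.d n ^ (-(Wg * ε₁)) := mul_le_mul_of_nonneg_left hpow Nq_pos.le

end Crest.Agent.R136.ReL344
end

-- ▼ part R136/ReL4_344
section

/-!
# R136 (S0187), case E: window relation ⊢ same-line relation (helper344), part 4: `lineOfFlag`
-/

set_option autoImplicit false
set_option linter.unusedVariables false
set_option linter.unusedSectionVars false

open Finset Filter Topology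

namespace Crest.Agent.R136.ReL344

open Crest.Agent.R138.Ex926 (Base U)
open Crest.Agent.R138.Dp76 (dpow_pos dpow_add dpow_le dpow_le_one)
open Crest.Agent.R138.Mk163 (zc zl rho alive)
open Crest.Agent.R138.MkRef627 (lc kc)
open Crest.Agent.R136.MkA627
open Crest.Agent.R136.Net191
open Crest.Agent.R136.NetQ186
open Crest.Agent.R136.GeoQ186
open Crest.Agent.R136.Wq638
open Crest.Agent.R136.Top484
open Crest.Agent.R136.NatT550
open Crest.Agent.R136.Sh605 (Ln4 V3)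

/-- slots in the enlarged units -/
theorem couQ_slot {B : Base} {lev : ℕ → ℚ → ℕ} {w : Fin 3 → ℕ → ℚ → ℝ} {w0 : ℝ}
    {F : ℕ → ℕ × ℝ → Fq4} {n : ℕ} (hw : ∀ j, 0 < w j n 0) {k : Fin 11} (hk : isSl k)
    (x y : ℕ × ℝ) : couQ B lev w w0 F n x y k =
      B.d n ^ (wtQ k * w0) / prQ w k n 0 * coQ (F n x) (F n y) k := by
  unfold couQ
  rw [coQ_scl (uH_pos n).ne' (uA_pos (hw 1)).ne' (uB_pos (hw 2)).ne' (uY_pos (hw 0)).ne',
    sfac_slot hk hw]

/-- **the relation at one scale**, in natural units of the level `u` -/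
theorem scale_rel {B : Base} {lev : ℕ → ℚ → ℕ} {w : Fin 3 → ℕ → ℚ → ℝ} {w0 R v : ℝ}
    {F : ℕ → ℕ × ℝ → Fq4} {I : ℕ → Finset (ℕ × ℝ)} {n : ℕ} {u : ℚ} {β ε₁ E1 τ e a b : ℝ}
    {X : Fin 11 → ℝ} {i x mx : ℕ × ℝ} (hR : 0 ≤ R) (hw0 : 0 ≤ w0) (hwR : w0 ≤ R)
    (hX : X ∈ Leg monQ R) (hX2 : X 2 = w0 + β * v) (hX3 : X 3 = w0) (hX4 : X 4 = 2 * w0 + β * v)
    (hβv : 0 ≤ w0 + β * v)
    (hwp : ∀ j, 0 < w j n 0) (hwu : ∀ j, 0 < w j n u)
    (hr2 : B.d n ^ (β * u + ε₁) * prQ w 2 n 0 ≤ prQ w 2 n u)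
    (hr4 : B.d n ^ (β * u + ε₁) * prQ w 4 n 0 ≤ prQ w 4 n u)
    (hab : a ^ 2 + b ^ 2 = 1)
    (hi : i ∈ I n) (hx : x ∈ I n) (hmx : mx ∈ I n)
    (hlx : nlab B I (couQ B lev w w0 F) monQ 2 n (fun _ => R) mx =
      nlab B I (couQ B lev w w0 F) monQ 2 n (fun _ => R) x)
    (hli : nlab B I (couQ B lev w w0 F) monQ 2 n X i = nlab B I (couQ B lev w w0 F) monQ 2 n X mx)
    (hGx : |a * (couQ B lev w w0 F n i mx 2 / B.d n ^ X 2) +
      b * ((couQ B lev w w0 F n i mx 4 + couQ B lev w w0 F n i mx 3 * couQ B lev w w0 F n i mx 2) /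
        B.d n ^ X 4) - e| ≤ E1)
    (hE1 : E1 ≤ B.d n ^ τ) (hτ : τ ≤ R - 1 - (2 * w0 + β * v))
    (hC : (8 * Kq ^ 2 + 3) * (2 * (1 + 2 * Kq)) ≤ B.d n ^ (-ε₁)) :
    ∃ a' b' : ℝ, a' ^ 2 + b' ^ 2 = 1 ∧ ∀ y my : ℕ × ℝ, y ∈ I n → my ∈ I n →
      nlab B I (couQ B lev w w0 F) monQ 2 n (fun _ => R) my =
        nlab B I (couQ B lev w w0 F) monQ 2 n (fun _ => R) y →
      nlab B I (couQ B lev w w0 F) monQ 2 n X i = nlab B I (couQ B lev w w0 F) monQ 2 n X my →
      |a * (couQ B lev w w0 F n i my 2 / B.d n ^ X 2) +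
        b * ((couQ B lev w w0 F n i my 4 +
          couQ B lev w w0 F n i my 3 * couQ B lev w w0 F n i my 2) / B.d n ^ X 4) - e| ≤ E1 →
      |couQ B lev w w0 F n x y 2| ≤ 1 → |couQ B lev w w0 F n x y 3| ≤ B.d n ^ (R - 1) →
      |a' * (coQ (F n x) (F n y) 2 / prQ w 2 n u) + b' * (coQ (F n x) (F n y) 4 / prQ w 4 n u)| ≤
        B.d n ^ (τ - (β * (u - v) + ε₁) - ε₁) := by
  have hch : ∀ n, Chart (I n) (couQ B lev w w0 F n) monQ 2 := fun n => chart_couQ n (I n)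
  have hd := B.pos n
  have hd1 := (B.lt n).le
  have hK := Kq_one
  have ha1 : |a| ≤ 1 := by rw [abs_le]; constructor <;> nlinarith [sq_nonneg b]
  have hb1 : |b| ≤ 1 := by rw [abs_le]; constructor <;> nlinarith [sq_nonneg a]
  have hX24 : X 4 = X 2 + w0 := by rw [hX2, hX4]; ring
  rw [hX24] at hGx
  -- the units
  have p2 : 0 < prQ w 2 n 0 := prQ_pos hwp
  have p4 : 0 < prQ w 4 n 0 := prQ_pos hwp
  have q2 : 0 < prQ w 2 n u := prQ_pos hwu
  have q4 : 0 < prQ w 4 n u := prQ_pos hwu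
  have s2 : isSl 2 := Or.inl rfl
  have s4 : isSl 4 := Or.inr (Or.inr rfl)
  have w2 : wtQ 2 = 1 := by simp [wtQ]
  have w4 : wtQ 4 = 2 := by simp [wtQ]
  set l2 : ℝ := B.d n ^ (wtQ 2 * w0) / prQ w 2 n 0 * prQ w 2 n u / B.d n ^ X 2 with hl2
  set l4 : ℝ := B.d n ^ (wtQ 4 * w0) / prQ w 4 n 0 * prQ w 4 n u / B.d n ^ (X 2 + w0) with hl4
  set l : ℝ := B.d n ^ (β * (u - v) + ε₁) with hl
  have hl0 : 0 < l := dpow_pos B n _
  have hle2 : l ≤ l2 := by
    have e1 : B.d n ^ (wtQ 2 * w0) = B.d n ^ (-(β * v)) * B.d n ^ X 2 := by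
      rw [← dpow_add, w2, hX2]; congr 1; ring
    have e2 : l = B.d n ^ (-(β * v)) * B.d n ^ (β * u + ε₁) := by
      rw [hl, ← dpow_add]; congr 1; ring
    rw [hl2, e1, e2]
    have e3 : B.d n ^ (-(β * v)) * B.d n ^ X 2 / prQ w 2 n 0 * prQ w 2 n u / B.d n ^ X 2 =
        B.d n ^ (-(β * v)) * (prQ w 2 n u / prQ w 2 n 0) := by
      have := (dpow_pos B n (X 2)).ne'
      field_simp
    rw [e3]
    refine mul_le_mul_of_nonneg_left ?_ (dpow_pos B n _).le
    rw [le_div_iff₀ p2]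
    exact hr2
  have hle4 : l ≤ l4 := by
    have e1 : B.d n ^ (wtQ 4 * w0) = B.d n ^ (-(β * v)) * B.d n ^ (X 2 + w0) := by
      rw [← dpow_add, w4, hX2]; congr 1; ring
    have e2 : l = B.d n ^ (-(β * v)) * B.d n ^ (β * u + ε₁) := by
      rw [hl, ← dpow_add]; congr 1; ring
    rw [hl4, e1, e2]
    have e3 : B.d n ^ (-(β * v)) * B.d n ^ (X 2 + w0) / prQ w 4 n 0 * prQ w 4 n u /
        B.d n ^ (X 2 + w0) = B.d n ^ (-(β * v)) * (prQ w 4 n u / prQ w 4 n 0) := by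
      have := (dpow_pos B n (X 2 + w0)).ne'
      field_simp
    rw [e3]
    refine mul_le_mul_of_nonneg_left ?_ (dpow_pos B n _).le
    rw [le_div_iff₀ p4]
    exact hr4
  -- closeness of the mate
  have near3 : ∀ my ∈ I n, nlab B I (couQ B lev w w0 F) monQ 2 n X i =
      nlab B I (couQ B lev w w0 F) monQ 2 n X my →
      |couQ B lev w w0 F n i my 3| ≤ Kq * B.d n ^ w0 := by
    intro my hmy h1
    have := near_of_nlab hch hX.1 hi hmy h1 3
    rwa [hX3] at this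
  have nearR : ∀ y my, y ∈ I n → my ∈ I n →
      nlab B I (couQ B lev w w0 F) monQ 2 n (fun _ => R) my =
        nlab B I (couQ B lev w w0 F) monQ 2 n (fun _ => R) y →
      ∀ k, |couQ B lev w w0 F n my y k| ≤ Kq * B.d n ^ R := fun y my hy hmy h1 k =>
    near_of_nlab hch (legal_const hR) hmy hy h1 k
  have hX2n : 0 ≤ X 2 := by rw [hX2]; exact hβv
  -- the value of `φ`
  have hφ : |couQ B lev w w0 F n i x 3 / B.d n ^ w0| ≤ 2 * Kq := by
    have h1 : couQ B lev w w0 F n i x 3 = couQ B lev w w0 F n i mx 3 +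
        couQ B lev w w0 F n mx x 3 := co3_add _ _ _
    have h2 := near3 mx hmx hli
    have h3 := nearR x mx hx hmx hlx 3
    have h4 : B.d n ^ R ≤ B.d n ^ w0 := Real.rpow_le_rpow_of_exponent_ge hd hd1 hwR
    have h5 := abs_add_le (couQ B lev w w0 F n i mx 3) (couQ B lev w w0 F n mx x 3)
    rw [abs_div, abs_of_pos (dpow_pos B n w0), div_le_iff₀ (dpow_pos B n w0), h1]
    nlinarith
  obtain ⟨a', b', h1, h2⟩ := norm_rel hab hφ hl0 hle2 hle4
  refine ⟨a', b', h1, fun y my hy hmy hly hliy hGy hxy2 hxy3 => ?_⟩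
  rw [hX24] at hGy
  have hfix := (fix_rel (i := scl (uH B lev w0 n) (uA B lev w w0 n) (uB B lev w w0 n)
      (uY B lev w w0 n) (F n i)) (x := scl (uH B lev w0 n) (uA B lev w w0 n) (uB B lev w w0 n)
      (uY B lev w w0 n) (F n x)) (y := scl (uH B lev w0 n) (uA B lev w w0 n) (uB B lev w w0 n)
      (uY B lev w w0 n) (F n y)) (mx := scl (uH B lev w0 n) (uA B lev w w0 n) (uB B lev w w0 n)
      (uY B lev w w0 n) (F n mx)) (my := scl (uH B lev w0 n) (uA B lev w w0 n) (uB B lev w w0 n)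
      (uY B lev w w0 n) (F n my)) hd hd1 hK ha1 hb1 hX2n hw0 hwR (nearR x mx hx hmx hlx)
      (nearR y my hy hmy hly) (near3 mx hmx hli) (near3 my hmy hliy) hGx hGy hxy2 hxy3).2
  change |(a + b * (couQ B lev w w0 F n i x 3 / B.d n ^ w0)) *
      (couQ B lev w w0 F n x y 2 / B.d n ^ X 2) +
        b * (couQ B lev w w0 F n x y 4 / B.d n ^ (X 2 + w0))| ≤ _ at hfix
  have c2 : couQ B lev w w0 F n x y 2 / B.d n ^ X 2 =
      l2 * (coQ (F n x) (F n y) 2 / prQ w 2 n u) := by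
    rw [couQ_slot hwp s2, hl2]
    field_simp
  have c4 : couQ B lev w w0 F n x y 4 / B.d n ^ (X 2 + w0) =
      l4 * (coQ (F n x) (F n y) 4 / prQ w 4 n u) := by
    rw [couQ_slot hwp s4, hl4]
    field_simp
  rw [c2, c4] at hfix
  refine (h2 _ _ _ hfix).trans ?_
  have hE : 2 * E1 + (8 * Kq ^ 2 + 1) * B.d n ^ (R - 1 - (X 2 + w0)) ≤
      (8 * Kq ^ 2 + 3) * B.d n ^ τ := by
    have e1 : B.d n ^ (R - 1 - (X 2 + w0)) ≤ B.d n ^ τ := by
      refine Real.rpow_le_rpow_of_exponent_ge hd hd1 ?_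
      rw [hX2]
      linarith
    have e2 : (8 * Kq ^ 2 + 1) * B.d n ^ (R - 1 - (X 2 + w0)) ≤ (8 * Kq ^ 2 + 1) * B.d n ^ τ :=
      mul_le_mul_of_nonneg_left e1 (by positivity)
    linarith
  have hq : 0 < 2 * (1 + 2 * Kq) := by linarith
  calc (2 * E1 + (8 * Kq ^ 2 + 1) * B.d n ^ (R - 1 - (X 2 + w0))) * (2 * (1 + 2 * Kq) / l) ≤
      ((8 * Kq ^ 2 + 3) * B.d n ^ τ) * (2 * (1 + 2 * Kq) / l) :=
        mul_le_mul_of_nonneg_right hE (by positivity)
    _ = ((8 * Kq ^ 2 + 3) * (2 * (1 + 2 * Kq))) * (B.d n ^ τ / l) := by ring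
    _ ≤ B.d n ^ (-ε₁) * (B.d n ^ τ / l) := mul_le_mul_of_nonneg_right hC (by positivity)
    _ = B.d n ^ (τ - (β * (u - v) + ε₁) - ε₁) := by
        rw [hl, ← Real.rpow_sub hd, ← dpow_add]
        congr 1; ring

set_option maxHeartbeats 2000000 in
/-- **(P4)** -/
theorem lineOfFlag (η : ℝ) : Re436.LineOfFlag η := by
  classical
  intro p D I1 π eE fA fB V T w0 R T0 PD ν own c₀ h hV2 hV3 hθ hFR
  obtain ⟨θ, hθ0, hrel⟩ := hFR
  have hb := h.tp.big
  have hT0 := hb.T0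
  have hw0T := hb.w0T
  have hR0' := hb.R0
  have hR : 0 ≤ R := by linarith
  have hw0 : 0 ≤ w0 := by linarith
  have hwR : w0 ≤ R := by linarith
  have hm := h.tp.pre.mka
  set β : ℝ := p.θ 1 - p.θ 2 with hβ
  have hβ0 : 0 < β := by
    have := (h.tp.slots.vis 2 hV2).2
    simp [btQ] at this
    linarith
  have hβT : β ≤ 2 * T0 := by
    have a1 := abs_le.1 (hb.th 1)
    have a2 := abs_le.1 (hb.th 2)
    rw [hβ]; linarith [a1.2, a2.1]
  set θ₁ : ℝ := min θ 1 with hθ₁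
  have hθ₁0 : 0 < θ₁ := lt_min hθ0 one_pos
  have hθ₁1 : θ₁ ≤ 1 := min_le_right _ _
  have hθ₁θ : θ₁ ≤ θ := min_le_left _ _
  refine ⟨θ₁ / 2, by positivity, fun ε hε => ?_⟩
  obtain ⟨v, w, X, hv, hw, hwε, hvw, hX, hX0, hX2, hX3, hX4, hev⟩ := hrel (ε / 2) (half_pos hε)
  have hw1 : w ≤ 1 := by linarith
  -- the level `u`
  have hwθ : 0 < w * θ₁ := mul_pos hw hθ₁0
  obtain ⟨u, hu1, hu2⟩ : ∃ u : ℚ, v < (u : ℝ) ∧ (u : ℝ) < min (1 - w) (v + w * θ₁ / (8 * β)) := by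
    refine exists_rat_btwn (lt_min (by linarith) ?_)
    have : 0 < w * θ₁ / (8 * β) := by positivity
    linarith
  have hu3 : (u : ℝ) < 1 - w := hu2.trans_le (min_le_left _ _)
  have hu4 : (u : ℝ) < v + w * θ₁ / (8 * β) := hu2.trans_le (min_le_right _ _)
  have hβu : β * (u - v) ≤ w * θ₁ / 8 := by
    have h1 : (u : ℝ) - v ≤ w * θ₁ / (8 * β) := by linarith
    calc β * (u - v) ≤ β * (w * θ₁ / (8 * β)) := mul_le_mul_of_nonneg_left h1 hβ0.le
      _ = w * θ₁ / 8 := by field_simp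
  have hu0 : (0 : ℚ) ≤ u := by
    have : (0 : ℝ) < (u : ℝ) := hv.trans hu1
    exact_mod_cast this.le
  have hu01 : u ≤ (1 : ℚ) := by
    have : (u : ℝ) ≤ 1 := by linarith
    exact_mod_cast this
  have hur0 : (0 : ℝ) ≤ u := by exact_mod_cast hu0
  have hur1 : (u : ℝ) ≤ 1 := by exact_mod_cast hu01
  -- the loss
  set W := Wg with hW
  have hW0 : 0 ≤ W := Wg_nonneg
  set ε₁ : ℝ := min (w * ε / (2 * (W + 3))) (w * θ₁ / 16) with hε₁
  have hε₁0 : 0 < ε₁ := lt_min (by positivity) (by positivity)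
  have hε₁a : (W + 3) * ε₁ ≤ w * ε / 2 := by
    have h1 : ε₁ ≤ w * ε / (2 * (W + 3)) := min_le_left _ _
    calc (W + 3) * ε₁ ≤ (W + 3) * (w * ε / (2 * (W + 3))) :=
          mul_le_mul_of_nonneg_left h1 (by linarith)
      _ = w * ε / 2 := by field_simp
  have hε₁b : ε₁ ≤ w * θ₁ / 16 := min_le_right _ _
  have hwθ1 : w * θ₁ ≤ 1 := by nlinarith
  have hε₁c : ε₁ ≤ 1 := by linarith
  refine ⟨u, w, hu0, hw, by linarith, by linarith, ?_⟩
  obtain ⟨K, -, hK2, hK3⟩ := h.comb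
  -- own path at `u`
  have hown0 : ∀ k, 1 ≤ ownQ p.θ w0 R V u k := by
    intro k
    unfold ownQ
    split_ifs
    · linarith
    · exact (hb.path_bd hur0 hur1 k).1
    · linarith
  have hXo : ∀ k, X k ≤ ownQ p.θ w0 R V u k := by
    intro k
    unfold ownQ
    split_ifs with h1 h2
    · rw [h1, hX0]; linarith
    · rcases (h.tp.slots.vis k h2).1 with rfl | rfl | rfl
      · rw [hX2]
        simp only [pathQ, Matrix.cons_val]
        nlinarith
      · exact absurd h2 hV3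
      · rw [hX4]
        simp only [pathQ, Matrix.cons_val]
        rw [hθ]
        nlinarith
    · exact hX.2 k
  have hr2 := ratio_ev hm 2 1 hu0 hu01 hε₁0
  have hr4 := ratio_ev hm 0 1 hu0 hu01 hε₁0
  have hwp : ∀ᶠ n in (U : Filter ℕ), ∀ j, 0 < D.w j n 0 :=
    Filter.eventually_all.2 fun k => hm.wpos k 0 le_rfl zero_le_one
  have hwu : ∀ᶠ n in (U : Filter ℕ), ∀ j, 0 < D.w j n u :=
    Filter.eventually_all.2 fun k => hm.wpos k u hu0 hu01
  filter_upwards [hev, h.tp.pre.own_near u hu0 hu01 ε₁ hε₁0, hK2, hK3 ε₁ hε₁0, hr2, hr4, hwp, hwu,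
    ev_c D.B hε₁0 (16 * Nq), ev_c D.B hε₁0 ((8 * Kq ^ 2 + 3) * (2 * (1 + 2 * Kq)))] with
    n g1 g2 g3 g4 g5 g6 g7 g8 g9 g10
  obtain ⟨S, hS1, hS2, i, a, b, e, hS3⟩ := g1
  have hd := D.B.pos n
  have hd1 := (D.B.lt n).le
  have hI1 := h.ext.sub n
  set co := couQ D.B D.lev D.w w0 (incQ π D.L eE fA fB) with hco
  -- the saturated set
  set F' : Finset (ℕ × ℝ) := (D.I n).filter fun j => ∃ i ∈ S,
    nlab D.B D.I co monQ 2 n (fun _ => R) j = nlab D.B D.I co monQ 2 n (fun _ => R) i ∧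
      zc (D.lev n 1) j.2 = zc (D.lev n 1) i.2 with hF'
  have hF'I : F' ⊆ D.I n := Finset.filter_subset _ _
  have hc1 := g3 S hS1 F' hF'I fun i hi j hj h1 h2 =>
    Finset.mem_filter.2 ⟨hj, i, hi, h1, h2⟩
  have hmate : ∀ j, ∃ m, j ∈ F' → m ∈ S ∧ nlab D.B D.I co monQ 2 n (fun _ => R) j =
      nlab D.B D.I co monQ 2 n (fun _ => R) m := by
    intro j
    by_cases hj : j ∈ F'
    · obtain ⟨_, m, hm1, hm2, _⟩ := Finset.mem_filter.1 hj
      exact ⟨m, fun _ => ⟨hm1, hm2⟩⟩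
    · exact ⟨j, fun h => absurd h hj⟩
  choose μ hμ using hmate
  have hSI : S ⊆ D.I n := hS1.trans hI1
  have hgl := group_labels (F := incQ π D.L eE fA fB) hR hX hε₁0.le hXo
    (fun k => hε₁c.trans (hown0 k)) g2 F' hF'I μ (fun j hj => hSI (hμ j hj).1)
    (fun j hj => (hμ j hj).2)
  obtain ⟨S', hS'1, hS'2, hS'3⟩ := pop_label F' (lc (D.lev n u))
    (fun j' => nlab D.B D.I co monQ 2 n X (μ j')) (N := Nq * D.B.d n ^ (-(Wg * ε₁)))
    (fun j hj => by convert hgl j hj)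
  refine ⟨S', hS'1.trans hF'I, ?_, ?_⟩
  · -- counting
    have hKn : (0 : ℝ) ≤ K n := Nat.cast_nonneg _
    have c1 : (K n : ℝ) * S.card ≤ 16 * F'.card := by exact_mod_cast hc1
    have c2 : D.B.d n ^ (w * (ε / 2)) * (D.B.d n ^ ε₁ * ((D.I n).card : ℝ)) ≤ K n * S.card := by
      calc D.B.d n ^ (w * (ε / 2)) * (D.B.d n ^ ε₁ * ((D.I n).card : ℝ)) ≤
          D.B.d n ^ (w * (ε / 2)) * (K n * (I1 n).card) :=
            mul_le_mul_of_nonneg_left g4 (dpow_pos D.B n _).le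
        _ = K n * (D.B.d n ^ (w * (ε / 2)) * (I1 n).card) := by ring
        _ ≤ K n * S.card := mul_le_mul_of_nonneg_left hS2 hKn
    have c3 : (D.B.d n ^ (w * (ε / 2)) * D.B.d n ^ ε₁) * ((D.I n).card : ℝ) ≤
        (16 * Nq) * D.B.d n ^ (-(Wg * ε₁)) * S'.card := by
      have := mul_le_mul_of_nonneg_left hS'2 (show (0 : ℝ) ≤ 16 by norm_num)
      calc (D.B.d n ^ (w * (ε / 2)) * D.B.d n ^ ε₁) * ((D.I n).card : ℝ) =
          D.B.d n ^ (w * (ε / 2)) * (D.B.d n ^ ε₁ * ((D.I n).card : ℝ)) := by ring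
        _ ≤ 16 * F'.card := c2.trans c1
        _ ≤ 16 * (Nq * D.B.d n ^ (-(Wg * ε₁)) * S'.card) := this
        _ = (16 * Nq) * D.B.d n ^ (-(Wg * ε₁)) * S'.card := by ring
    have c4 : (16 * Nq) * D.B.d n ^ (-(Wg * ε₁)) * (S'.card : ℝ) ≤
        D.B.d n ^ (-((W + 1) * ε₁)) * S'.card := by
      refine mul_le_mul_of_nonneg_right ?_ (Nat.cast_nonneg _)
      calc (16 * Nq) * D.B.d n ^ (-(Wg * ε₁)) ≤ D.B.d n ^ (-ε₁) * D.B.d n ^ (-(Wg * ε₁)) :=
            mul_le_mul_of_nonneg_right g9 (dpow_pos D.B n _).le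
        _ = D.B.d n ^ (-((W + 1) * ε₁)) := by
            rw [← dpow_add, hW]; congr 1; ring
    have c5 := c3.trans c4
    -- multiply by `d^((W+1) ε₁)`
    have c6 := mul_le_mul_of_nonneg_left c5 (dpow_pos D.B n ((W + 1) * ε₁)).le
    have e1 : D.B.d n ^ ((W + 1) * ε₁) * (D.B.d n ^ (-((W + 1) * ε₁)) * (S'.card : ℝ)) =
        S'.card := by
      rw [← mul_assoc, ← dpow_add, add_neg_cancel, Real.rpow_zero, one_mul]
    have e2 : D.B.d n ^ ((W + 1) * ε₁) * ((D.B.d n ^ (w * (ε / 2)) * D.B.d n ^ ε₁) *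
        ((D.I n).card : ℝ)) = D.B.d n ^ ((W + 1) * ε₁ + w * (ε / 2) + ε₁) *
          ((D.I n).card : ℝ) := by
      rw [dpow_add, dpow_add]; ring
    rw [e1, e2] at c6
    refine le_trans ?_ c6
    refine mul_le_mul_of_nonneg_right ?_ (Nat.cast_nonneg _)
    refine Real.rpow_le_rpow_of_exponent_ge hd hd1 ?_
    have e3 : (W + 1) * ε₁ + w * (ε / 2) + ε₁ = (W + 3) * ε₁ - ε₁ + w * ε / 2 := by ring
    rw [e3]
    linarith
  · -- the relation
    intro x hx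
    have hxF := hS'1 hx
    have hxI := hF'I hxF
    obtain ⟨hmx1, hmx2⟩ := hμ x hxF
    set c := nlab D.B D.I co monQ 2 n X (μ x) with hc
    obtain ⟨hab, hic, hlic, hG⟩ := hS3 (μ x) hmx1 c rfl
    have hβv : 0 ≤ w0 + β * v := add_nonneg hw0 (mul_nonneg hβ0.le hv.le)
    have hτ : w * θ₁ ≤ R - 1 - (2 * w0 + β * v) := by
      have h1 : β * v ≤ 2 * T0 := by
        calc β * v ≤ β * 1 := mul_le_mul_of_nonneg_left (by linarith) hβ0.le
          _ ≤ 2 * T0 := by linarith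
      linarith
    have hE1 : D.B.d n ^ (w * θ) ≤ D.B.d n ^ (w * θ₁) :=
      Real.rpow_le_rpow_of_exponent_ge hd hd1 (mul_le_mul_of_nonneg_left hθ₁θ hw.le)
    have hq2 : D.B.d n ^ (β * u + ε₁) * prQ D.w 2 n 0 ≤ prQ D.w 2 n u := by
      simpa [prQ] using g5
    have hq4 : D.B.d n ^ (β * u + ε₁) * prQ D.w 4 n 0 ≤ prQ D.w 4 n u := by
      rw [hθ] at g6
      simpa [prQ] using g6
    obtain ⟨a', b', h1, h2⟩ := scale_rel (F := incQ π D.L eE fA fB) (I := D.I) (u := u) (v := v)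
      (i := i c) (x := x) (mx := μ x) hR hw0 hwR hX hX2 hX3 hX4 hβv g7 g8 hq2 hq4 hab hic hxI
      (hSI hmx1) hmx2.symm hlic hG hE1 hτ g10
    refine ⟨a', b', h1, fun y hy hyx hzc => ?_⟩
    have hyF := hS'1 hy
    have hyI := hF'I hyF
    obtain ⟨hmy1, hmy2⟩ := hμ y hyF
    have hlc : lc (D.lev n u) y = lc (D.lev n u) x := Prod.ext hyx hzc
    have hcy : nlab D.B D.I co monQ 2 n X (μ y) = c := hS'3 y hy x hx hlc
    obtain ⟨-, -, -, hGy⟩ := hS3 (μ y) hmy1 c hcy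
    have hnear := g2 x hxI y hyI hlc
    have h3 := h2 y (μ y) hyI (hSI hmy1) hmy2.symm (hlic.trans hcy.symm) hGy
      ((hnear 2).trans (dpow_le_one D.B n (by linarith [hown0 2])))
      ((hnear 3).trans (Real.rpow_le_rpow_of_exponent_ge hd hd1 (by
        have : ownQ p.θ w0 R V u 3 = R := by
          unfold ownQ
          rw [if_neg (by decide), if_neg hV3]
        rw [this]; linarith)))
    rw [(natW_slot D n u).1, (natW_slot D n u).2]
    refine h3.trans (Real.rpow_le_rpow_of_exponent_ge hd hd1 ?_)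
    have e4 : w * (θ₁ / 2) = w * θ₁ / 2 := by ring
    rw [e4]
    linarith

end Crest.Agent.R136.ReL344
end

-- ▼ part R136/ReE8_436

/-!
# R136 (S0187), case E: re-flag (helper436), part 8: glue

`reflag` : thick system of case E / E3 + same-line relation of the flags ⊢ a new thick system with
pattern `pF2`, `pA`, `pC1` or `pC1s`.
-/

set_option autoImplicit false
set_option linter.unusedVariables false

open Finset Filter Topology

namespace Crest.Agent.R136.Re436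

open Crest.Agent.R138.Ex926 (Base U exists_diag)
open Crest.Agent.R138.Mk163 (zc zl rho alive)
open Crest.Agent.R138.Dp76 (Dense)
open Crest.Agent.R138.MkRef627 (lc kc)
open Crest.Agent.R138.MkZoom779 (dpow_pos dpow_le)
open Crest.Agent.R136.MkA627
open Crest.Agent.R136.Net191
open Crest.Agent.R136.NetQ186
open Crest.Agent.R136.Wq638
open Crest.Agent.R136.Top484
open Crest.Agent.R136.NatT550
open Crest.Agent.R136.TopB550
open Crest.Agent.R136.Ut627 (wpos_all)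

theorem flagC_of {η : ℝ} {p : Par4} {D : Dat4} {π : Equiv.Perm (Fin 3)}
    {eE fA fB : ℕ → ℕ × ℝ → ℝ} {V T : Fin 11 → Prop} {w0 R T0 : ℝ} {PD : Set (Fin 11 → ℝ)}
    (h : ThickPre η p D π eE fA fB V T w0 R T0 PD) : FlagC D eE fA fB :=
  ⟨fun n x hx => ⟨(h.flag n x hx).1, (h.flag n x hx).2.1, (h.flag n x hx).2.2, h.flag2 n x hx⟩,
    h.flag3⟩

/-- **re-flag** -/
theorem reflag {η : ℝ} {p : Par4} {D : Dat4} {π : Equiv.Perm (Fin 3)}
    {eE fA fB : ℕ → ℕ × ℝ → ℝ} {V T : Fin 11 → Prop} {w0 R T0 : ℝ} {PD : Set (Fin 11 → ℝ)}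
    (h : ThickPre η p D π eE fA fB V T w0 R T0 PD) (hV3 : ¬ V 3) (h02 : p.θ 0 = p.θ 2)
    (hb : 0 < btQ p.θ 2) (hL : LineRel D π eE fA fB) :
    ∃ (D' : Dat4) (π' : Equiv.Perm (Fin 3)) (e' fa' fb' : ℕ → ℕ × ℝ → ℝ) (V' T' : Fin 11 → Prop)
      (w0' R' T0' : ℝ) (PD' : Set (Fin 11 → ℝ)),
      ThickPre η p D' π' e' fa' fb' V' T' w0' R' T0' PD' ∧ ¬ V' 3 ∧
        (¬ V' 4 ∨ (¬ V' 2 ∧ Gap23 D')) := by
  obtain ⟨hR, hinv⟩ := Crest.Agent.R136.ReQ210.rawOfPre η _ _ _ _ _ _ _ _ _ _ _ _ h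
  have hF := flagC_of h
  have s3 : isSl 3 := by simp [isSl]
  obtain ⟨D1, e1, e2, e3, e4, e5, e6, e7⟩ := exists_lineInf hR h02 (hinv 3 s3 hV3) hL
  have hFB : FlagB D1 eE fA fB := fun n x hx => hF.bd n x (e2 n hx)
  have hG : (GapInf D1 ∧ ∃ c : ℝ, c < 1 ∧ ∀ n, ∀ x ∈ D1.I n, |fB n x| ≤ c) ∨ NoGap D1 := by
    by_cases hg : Gap23 D
    · obtain ⟨c, hc, h1⟩ := hF.gap hg
      exact Or.inl ⟨e6 hg, c, hc, fun n x hx => h1 n x (e2 n hx)⟩
    · exact Or.inr (e7 hg)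
  obtain ⟨D2, π', e', fa', fb', hO⟩ := exists_flags e3 h02 e4 e5 hFB hG
  have hb4 : 0 < btQ p.θ 4 := by
    have : btQ p.θ 4 = btQ p.θ 2 := by
      simp only [btQ]
      simp [h02]
    rw [this]; exact hb
  obtain ⟨D3, V', T', w0', R', T0', PD', k1, k2, k3, k4, k5⟩ :=
    Crest.Agent.R136.ReP346.preOfRaw η p D2 π' e' fa' fb' h.ok hO.raw hO.flag h02 hO.inv3
      (Or.inr hb) (Or.inr hb4)
  refine ⟨D3, π', e', fa', fb', V', T', w0', R', T0', PD', k1, k2, ?_⟩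
  rcases hO.fin with h4 | ⟨h2, hg⟩
  · exact Or.inl (k4 h4)
  · exact Or.inr ⟨k3 h2, k5 hg.gap⟩

/-- **the dead patterns kill the re-flagged system** -/
theorem dead_of_pre {η : ℝ} (hF2 : Dead η pF2) (hA : Dead η pA) (hC1 : DeadG η pC1)
    (hC1s : DeadG η pC1s) {p : Par4} {D : Dat4} {π : Equiv.Perm (Fin 3)}
    {eE fA fB : ℕ → ℕ × ℝ → ℝ} {V T : Fin 11 → Prop} {w0 R T0 : ℝ} {PD : Set (Fin 11 → ℝ)}
    (h : ThickPre η p D π eE fA fB V T w0 R T0 PD) (hV3 : ¬ V 3) (h02 : p.θ 0 = p.θ 2)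
    (hb : 0 < btQ p.θ 2) (h4 : ¬ V 4 ∨ (¬ V 2 ∧ Gap23 D)) : False := by
  obtain ⟨J, I1, ν, own, c₀, hJ, hT⟩ := thick_of_pre h
  have h21 : p.θ 2 < p.θ 1 := by
    have h1 : btQ p.θ 2 = p.θ 1 - p.θ 2 := by
      simp [btQ]
    linarith
  by_cases v2 : V 2
  · have v4 : ¬ V 4 := h4.elim id fun h => absurd v2 h.1
    exact hF2 _ _ _ _ _ _ _ _ _ _ _ _ _ _ _ _ hT ⟨v2, hV3, v4, h02⟩
  · by_cases v4 : V 4
    · have hg : Gap23 D := (h4.resolve_left fun h => h v4).2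
      have hg' : p.θ 0 ≠ p.θ 2 ∨ Gap23 (subD D J) := Or.inr hg
      by_cases hs : LLs p
      · exact hC1s _ _ _ _ _ _ _ _ _ _ _ _ _ _ _ _ hT ⟨v2, v4, hs⟩ hg'
      · exact hC1 _ _ _ _ _ _ _ _ _ _ _ _ _ _ _ _ hT ⟨v2, v4, Or.inl h21, hs⟩ hg'
    · exact hA _ _ _ _ _ _ _ _ _ _ _ _ _ _ _ _ hT ⟨v2, hV3, v4⟩

/-- the relation is trivial if `E` is invisible -/
theorem lineRel_of_two {D : Dat4} {π : Equiv.Perm (Fin 3)} {eE fA fB : ℕ → ℕ × ℝ → ℝ}
    (hw : ∀ᶠ n in (U : Filter ℕ), ∀ k, 0 < D.w k n 0)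
    (h2 : ∃ c : ℝ, 0 < c ∧ ∀ u : ℚ, 0 ≤ u → u ≤ 1 → ∀ᶠ n in (U : Filter ℕ),
      ∀ x ∈ D.I n, ∀ y ∈ D.I n, y.1 = x.1 →
        |coQ (incQ π D.L eE fA fB n x) (incQ π D.L eE fA fB n y) 2| ≤
          natW D n u 2 * D.B.d n ^ c) : LineRel D π eE fA fB := by
  obtain ⟨c, hc, h2⟩ := h2
  refine ⟨c, hc, fun ε hε => ⟨0, min ε 1, le_rfl, lt_min hε one_pos, min_le_left _ _, by
    have := min_le_right ε 1
    push_cast
    linarith, ?_⟩⟩
  filter_upwards [h2 0 le_rfl zero_le_one, hw] with n hn hw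
  refine ⟨D.I n, Subset.refl _, ?_, fun x hx => ⟨1, 0, by norm_num, fun y hy hxy hz => ?_⟩⟩
  · have h1 : D.B.d n ^ (min ε 1 * ε) ≤ 1 :=
      Real.rpow_le_one (D.B.pos n).le (D.B.lt n).le (mul_nonneg (lt_min hε one_pos).le hε.le)
    exact mul_le_of_le_one_left (Nat.cast_nonneg _) h1
  · have h1 := hn x hx y hy hxy
    have hp : 0 < natW D n 0 2 := div_pos (hw 2) (hw 1)
    rw [one_mul, zero_mul, add_zero, abs_div, abs_of_pos hp, div_le_iff₀ hp]
    refine h1.trans ?_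
    rw [mul_comm]
    refine mul_le_mul_of_nonneg_right (dpow_le D.B n ?_) hp.le
    have := min_le_right ε 1
    nlinarith

/-- **case E**, over the window half `WinE` -/
theorem caseE {η : ℝ} (hW : WinE η) (hF2 : Dead η pF2) (hA : Dead η pA)
    (hC1 : DeadG η pC1) (hC1s : DeadG η pC1s) : Dead η pE := by
  intro p D I1 π eE fA fB V T w0 R T0 PD ν own c₀ h hE
  have hL := Crest.Agent.R136.ReL344.lineOfFlag η _ _ _ _ _ _ _ _ _ _ _ _ _ _ _ _ h hE.1 hE.2.1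
    hE.2.2 (hW _ _ _ _ _ _ _ _ _ _ _ _ _ _ _ _ h hE)
  have hb := (h.tp.slots.vis 2 hE.1).2
  obtain ⟨D', π', e', fa', fb', V', T', w0', R', T0', PD', k1, k2, k3⟩ :=
    reflag h.tp hE.2.1 hE.2.2 hb hL
  exact dead_of_pre hF2 hA hC1 hC1s k1 k2 hE.2.2 hb k3

/-- **case E3** : `E` invisible, thickness parallel to the narrow width (with or without gap) -/
theorem caseE3' {η : ℝ} (hF2 : Dead η pF2) (hA : Dead η pA) (hC1 : DeadG η pC1)
    (hC1s : DeadG η pC1s) : Dead η pE3 := by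
  intro p D I1 π eE fA fB V T w0 R T0 PD ν own c₀ h hE
  obtain ⟨hR, hinv⟩ := Crest.Agent.R136.ReQ210.rawOfPre η _ _ _ _ _ _ _ _ _ _ _ _ h.tp
  have s2 : isSl 2 := by simp [isSl]
  have hb4 := (h.tp.slots.vis 4 hE.2.1).2
  have hb : 0 < btQ p.θ 2 := by
    have : btQ p.θ 2 = btQ p.θ 4 := by
      simp only [btQ]
      simp [hE.2.2]
    rw [this]; exact hb4
  have hV3 : ¬ V 3 := fun h3 => by
    have h1 := (h.tp.slots.vis 3 h3).2
    have h2 : btQ p.θ 3 = 0 := by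
      simp [btQ, hE.2.2]
    linarith
  have hL := lineRel_of_two (wpos_all hR.mka le_rfl zero_le_one) (hinv 2 s2 hE.1)
  obtain ⟨D', π', e', fa', fb', V', T', w0', R', T0', PD', k1, k2, k3⟩ :=
    reflag h.tp hV3 hE.2.2 hb hL
  exact dead_of_pre hF2 hA hC1 hC1s k1 k2 hE.2.2 hb k3

/-- **case E3** -/
theorem caseE3 {η : ℝ} (hF2 : Dead η pF2) (hA : Dead η pA) (hC1 : DeadG η pC1)
    (hC1s : DeadG η pC1s) : DeadN η pE3 :=
  fun p D I1 π eE fA fB V T w0 R T0 PD ν own c₀ h hE _ =>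
    caseE3' hF2 hA hC1 hC1s p D I1 π eE fA fB V T w0 R T0 PD ν own c₀ h hE

end Crest.Agent.R136.Re436
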