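import Crest.Agent.R136.Qg5_926
import Crest.Agent.R136.Qg3b_926

-- ▼ part R136/Qg6_926
section

/-!
# R136: zoom inside a zoomed profile (helper926)

* `exists_zzoom` : finitely many `ZProf`'s (base `B`), one blow-up sequence with moving base points:
  slower speeds give `ZProf`'s for the base `B ^ h`.
* `ZWin.exists_zoom` : a zoom window inside a zoom window (with a second profile).
-/

set_option autoImplicit false
set_option linter.unusedSectionVars false
set_option linter.unusedVariables false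

open Filter Topology

namespace Crest.Agent.R136.Qg926

open Finset Crest.Agent.R138.Ex926 Crest.Agent.R136.Net191 Crest.Agent.R136.Gf356

variable {m : ℕ} {ι : ℕ → Type*} [∀ n, DecidableEq (ι n)]

theorem zprof_comp' {B : Base} {κ κ' : ℕ → Type*} [∀ n, DecidableEq (κ n)]
    [∀ n, DecidableEq (κ' n)] {V : Type*} [LE V] [Norm V] {J : ∀ n, Finset (ι n)}
    {f : ∀ n, V → ι n → κ n} {P : Set V} {T : ℕ → ℝ} {ν : V → ℝ} (e : ∀ n, κ n → κ' n)
    (he : ∀ n, Function.Injective (e n)) (h : ZProf B J f P T ν) :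
    ZProf B J (fun n p i => e n (f n p i)) P T ν where
  up := fun C ε hε => by
    filter_upwards [h.up C ε hε] with n hn p hp hpC i hi
    rw [cls_comp (he n)]
    exact hn p hp hpC i hi
  num := fun C ε hε => by
    filter_upwards [h.num C ε hε] with n hn q hq hqC p hp hpC hqp i hi
    rw [cls_comp (he n), card_image_comp (he n)]
    exact hn q hq hqC p hp hpC hqp i hi
  root := fun C ε hε => by
    filter_upwards [h.root C ε hε] with n hn p hp hpC
    rw [card_image_comp (he n)]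
    exact hn p hp hpC

theorem zoom_zoom (X x c : Fin m → ℝ) (w h : ℝ) :
    X + w • x + (w * h) • c = X + w • (x + h • c) := by
  rw [smul_add, mul_smul, add_assoc]

theorem exists_zzoom (B : Base) {J : Type*} [Finite J] {I : ∀ n, Finset (ι n)}
    {κ : J → ℕ → Type*} [∀ j n, DecidableEq (κ j n)]
    {f : ∀ (j : J) (n : ℕ), (Fin m → ℝ) → ι n → κ j n} {P D : J → Set (Fin m → ℝ)}
    {T : J → ℕ → ℝ} (hT : ∀ j n, 0 < T j n)
    {ν lam : J → (Fin m → ℝ) → ℝ} (hν : ∀ j, ZProf B I (f j) (P j) (T j) (ν j))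
    {x : ℕ → (Fin m → ℝ)} {h : ℕ → ℝ} (hpos : ∀ l, 0 < h l)
    (hD : ∀ j, 0 ∈ D j) (htan : ∀ j, IsTan (P j) (D j) (ν j) x h (lam j))
    (s : ℕ → ℕ → ℝ) (hs : ∀ i, B.Sub (s i)) :
    ∃ k : ℕ → ℕ, Tendsto k U atTop ∧ ∀ k' : ℕ → ℕ, Tendsto k' U atTop →
      (∀ᶠ n in (U : Filter ℕ), k' n ≤ k n) → ∃ B' : Base,
        (∀ n, B'.d n = B.d n ^ h (k' n)) ∧ (∀ n, B'.L n = h (k' n) * B.L n) ∧
        (∀ i, B'.Sub (s i)) ∧
        ∀ j, ZProf B' I (fun n c => f j n (x (k' n) + h (k' n) • c)) (D j)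
          (fun n => T j n * B.d n ^ (-(ν j (x (k' n))))) (lam j) := by
  classical
  set e : ℕ → ℝ := fun l => h l / ((l : ℝ) + 1) with he
  have he0 : ∀ l, 0 < e l := fun l => div_pos (hpos l) (by positivity)
  set b : ℕ → ℝ := fun l => ‖x l‖ + h l * l with hb
  obtain ⟨k, hk, hk2⟩ := exists_diag (fun l n =>
    ((l : ℝ) ≤ h l * B.L n) ∧ (∀ i ≤ l, 0 < s i n ∧ |B.lg (s i) n| ≤ e l) ∧
    (∀ j, (∀ p ∈ P j, ‖p‖ ≤ b l → ∀ i ∈ I n,
        ((cls (I n) (f j n p) i).card : ℝ) ≤ T j n * B.d n ^ (-(ν j p + e l))) ∧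
      (∀ q ∈ P j, ‖q‖ ≤ b l → ∀ p ∈ P j, ‖p‖ ≤ b l → q ≤ p → ∀ i ∈ I n,
        (((cls (I n) (f j n q) i).image (f j n p)).card : ℝ) ≤ B.d n ^ (-(ν j q - ν j p + e l))) ∧
      (∀ p ∈ P j, ‖p‖ ≤ b l → (((I n).image (f j n p)).card : ℝ) * T j n ≤
        (I n).card * B.d n ^ (ν j p - e l)))) (by
    intro l
    have h1 : ∀ᶠ n in (U : Filter ℕ), ∀ i ∈ Finset.range (l + 1), 0 < s i n ∧ |B.lg (s i) n| ≤ e l := by
      rw [Filter.eventually_all_finset]
      intro i _
      obtain ⟨a1, a2⟩ := Base.Sub.iff.1 (hs i)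
      have a3 := (Metric.tendsto_nhds.1 a2) (e l) (he0 l)
      filter_upwards [a1, a3] with n b1 b2
      rw [Real.dist_eq, sub_zero] at b2
      exact ⟨b1, b2.le⟩
    have h2 : ∀ᶠ n in (U : Filter ℕ), (l : ℝ) ≤ h l * B.L n := by
      filter_upwards [B.ev_L_ge ((l : ℝ) / h l)] with n hn
      rw [div_le_iff₀ (hpos l)] at hn
      linarith
    have h3 := Filter.eventually_all.2 fun j => ((hν j).up (b l) (e l) (he0 l)).and
      (((hν j).num (b l) (e l) (he0 l)).and ((hν j).root (b l) (e l) (he0 l)))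
    filter_upwards [h1, h2, h3] with n a1 a2 a3
    exact ⟨a2, fun i hi => a1 i (Finset.mem_range.2 (Nat.lt_succ_of_le hi)), a3⟩)
  refine ⟨k, hk, fun k' hk' hle => ?_⟩
  have hev := hk2.and hle
  replace hev := hev.mono fun n hn => hn.1 _ hn.2
  have hL : Tendsto (fun n => h (k' n) * B.L n) U atTop := by
    have h1 : Tendsto (fun n => (k' n : ℝ)) U atTop := tendsto_natCast_atTop_atTop.comp hk'
    exact tendsto_atTop_mono' _ (hev.mono fun n hn => hn.1) h1
  set B' : Base := B.chg (fun n => h (k' n)) (fun n => hpos _) hL with hB'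
  have hsm : ∀ ε : ℝ, 0 < ε → ∀ᶠ n in (U : Filter ℕ), e (k' n) ≤ ε * h (k' n) := by
    intro ε hε
    obtain ⟨N, hN⟩ := exists_nat_gt (1 / ε)
    filter_upwards [hk'.eventually_ge_atTop N] with n hn
    have h2 : (N : ℝ) ≤ k' n := by exact_mod_cast hn
    have h3 : 1 / ((k' n : ℝ) + 1) ≤ ε := by
      rw [div_le_iff₀ (by positivity)]
      rw [div_lt_iff₀ hε] at hN
      nlinarith
    have h4 := mul_le_mul_of_nonneg_right h3 (hpos (k' n)).le
    calc e (k' n) = 1 / ((k' n : ℝ) + 1) * h (k' n) := by rw [he]; simp only; ring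
      _ ≤ _ := h4
  have hnorm : ∀ C : ℝ, ∀ᶠ n in (U : Filter ℕ), ∀ c : Fin m → ℝ, ‖c‖ ≤ C →
      ‖x (k' n) + h (k' n) • c‖ ≤ b (k' n) := by
    intro C
    obtain ⟨N, hN⟩ := exists_nat_ge C
    filter_upwards [hk'.eventually_ge_atTop N] with n hn c hc
    have h1 : (N : ℝ) ≤ k' n := by exact_mod_cast hn
    have h2 := hpos (k' n)
    refine (norm_add_le _ _).trans ?_
    rw [norm_smul, Real.norm_of_nonneg h2.le]
    have : h (k' n) * ‖c‖ ≤ h (k' n) * k' n := mul_le_mul_of_nonneg_left (by linarith) h2.le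
    simp only [hb]
    linarith
  have hd' : ∀ n t, B'.d n ^ t = B.d n ^ (h (k' n) * t) := by
    intro n t
    show (B.d n ^ h (k' n)) ^ t = _
    rw [← Real.rpow_mul (B.pos n).le]
  have hmon : ∀ n {a b : ℝ}, a ≤ b → B.d n ^ b ≤ B.d n ^ a := fun n a b hab =>
    Real.rpow_le_rpow_of_exponent_ge (B.pos n) (B.lt n).le hab
  refine ⟨B', fun n => rfl, fun n => B.chg_L _ _ hL n, fun i => ?_, fun j => ⟨?_, ?_, ?_⟩⟩
  · rw [Base.Sub.iff]
    refine ⟨(hs i).1.pos, ?_⟩
    rw [Metric.tendsto_nhds]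
    intro ε hε
    filter_upwards [hev, hsm (ε / 2) (by positivity), hk'.eventually_ge_atTop i] with n h1 h2 h3
    rw [Real.dist_eq, sub_zero, hB', Base.chg_lg, abs_div, abs_of_pos (hpos _),
      div_lt_iff₀ (hpos _)]
    have h4 := (h1.2.1 i h3).2
    have h5 := hpos (k' n)
    nlinarith
  · intro C ε hε
    have ht := hk'.eventually (htan j (max C 0) (ε / 2) (by positivity))
    filter_upwards [hev, hsm (ε / 2) (by positivity), ht, hnorm C] with n h1 h2 h3 h6 c hc hcC i hi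
    obtain ⟨a1, a2⟩ := h3 c hc (hcC.trans (le_max_left _ _))
    refine ((h1.2.2 j).1 _ a1 (h6 c hcC) i hi).trans ?_
    rw [hd', mul_assoc, ← Real.rpow_add (B.pos n)]
    refine mul_le_mul_of_nonneg_left (hmon n ?_) (hT j n).le
    obtain ⟨b1, b2⟩ := abs_le.1 a2
    nlinarith
  · intro C ε hε
    have ht := hk'.eventually (htan j (max C 0) (ε / 3) (by positivity))
    filter_upwards [hev, hsm (ε / 3) (by positivity), ht, hnorm C] with
      n h1 h2 h3 h6 c hc hcC c' hc' hcC' hcc i hi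
    obtain ⟨a1, a2⟩ := h3 c hc (hcC.trans (le_max_left _ _))
    obtain ⟨a1', a2'⟩ := h3 c' hc' (hcC'.trans (le_max_left _ _))
    have hord : x (k' n) + h (k' n) • c ≤ x (k' n) + h (k' n) • c' :=
      add_smul_mono (hpos _).le hcc
    refine ((h1.2.2 j).2.1 _ a1 (h6 c hcC) _ a1' (h6 c' hcC') hord i hi).trans ?_
    rw [hd']
    refine hmon n ?_
    obtain ⟨b1, b2⟩ := abs_le.1 a2
    obtain ⟨b1', b2'⟩ := abs_le.1 a2'
    nlinarith
  · intro C ε hε
    have ht := hk'.eventually (htan j (max C 0) (ε / 2) (by positivity))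
    filter_upwards [hev, hsm (ε / 2) (by positivity), ht, hnorm C] with n h1 h2 h3 h6 c hc hcC
    obtain ⟨a1, a2⟩ := h3 c hc (hcC.trans (le_max_left _ _))
    have h4 := (h1.2.2 j).2.2 _ a1 (h6 c hcC)
    have hdp := Real.rpow_pos_of_pos (B.pos n) (-(ν j (x (k' n))))
    calc (((I n).image (f j n (x (k' n) + h (k' n) • c))).card : ℝ) *
          (T j n * B.d n ^ (-(ν j (x (k' n)))))
        = ((((I n).image (f j n (x (k' n) + h (k' n) • c))).card : ℝ) * T j n) *
          B.d n ^ (-(ν j (x (k' n)))) := by ring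
      _ ≤ ((I n).card * B.d n ^ (ν j (x (k' n) + h (k' n) • c) - e (k' n))) *
          B.d n ^ (-(ν j (x (k' n)))) := mul_le_mul_of_nonneg_right h4 hdp.le
      _ = (I n).card * B.d n ^ (ν j (x (k' n) + h (k' n) • c) - e (k' n) - ν j (x (k' n))) := by
          rw [mul_assoc, ← Real.rpow_add (B.pos n)]; congr 2
      _ ≤ (I n).card * B'.d n ^ (lam j c - ε) := by
          refine mul_le_mul_of_nonneg_left ?_ (Nat.cast_nonneg _)
          rw [hd']
          refine hmon n ?_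
          obtain ⟨b1, b2⟩ := abs_le.1 a2
          nlinarith

section

variable {B B₁ : Base} {I J : ∀ n, Finset (ι n)} {co : ∀ n, ι n → ι n → Fin m → ℝ}
  {M : Mons m} {C : ℝ} {X : ℕ → Fin m → ℝ} {w : ℕ → ℝ} {P : Set (Fin m → ℝ)} {T : ℕ → ℝ}
  {ν : (Fin m → ℝ) → ℝ}

/-- **a zoom window inside a zoom window**, with a second profile; `x l` = bounded moving base
points in window units -/
theorem ZWin.exists_zoom (hN : ZWin B B₁ I J co M C X w P T ν)
    {x : ℕ → Fin m → ℝ} {b : ℝ} (hx : ∀ l, ‖x l‖ ≤ b) {h : ℕ → ℝ} (hpos : ∀ l, 0 < h l)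
    (hh : Tendsto h atTop (𝓝 0)) {D : Set (Fin m → ℝ)}
    (h0 : (0 : Fin m → ℝ) ∈ D) {lam : (Fin m → ℝ) → ℝ} (htan : IsTan P D ν x h lam)
    {κ : ℕ → Type*} [∀ n, DecidableEq (κ n)] {ol : ∀ n, (Fin m → ℝ) → ι n → κ n}
    {Po Do : Set (Fin m → ℝ)} {To : ℕ → ℝ} (hTo : ∀ n, 0 < To n) {own lo : (Fin m → ℝ) → ℝ}
    (hO : ZProf B₁ J ol Po To own)
    (h0o : (0 : Fin m → ℝ) ∈ Do) (htano : IsTan Po Do own x h lo)
    (s : ℕ → ℕ → ℝ) (hs : ∀ i, B₁.Sub (s i)) :
    ∃ k : ℕ → ℕ, Tendsto k U atTop ∧ ∀ k' : ℕ → ℕ, Tendsto k' U atTop →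
      (∀ᶠ n in (U : Filter ℕ), k' n ≤ k n) → ∃ B' : Base,
        (∀ n, B'.d n = B₁.d n ^ h (k' n)) ∧ (∀ n, B'.L n = h (k' n) * B₁.L n) ∧
        (∀ i, B'.Sub (s i)) ∧
        ZWin B B' I J co M C (fun n => X n + w n • x (k' n)) (fun n => w n * h (k' n)) D
          (fun n => T n * B₁.d n ^ (-(ν (x (k' n))))) lam ∧
        ZProf B' J (fun n c => ol n (x (k' n) + h (k' n) • c)) Do
          (fun n => To n * B₁.d n ^ (-(own (x (k' n))))) lo := by
  classical
  set f : ∀ (b : Bool) (n : ℕ), (Fin m → ℝ) → ι n → ι n ⊕ κ n := fun b n p i =>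
    match b with
    | true => Sum.inl (zlab B I co M C X w n p i)
    | false => Sum.inr (ol n p i) with hf
  set Pb : Bool → Set (Fin m → ℝ) := fun b => match b with
    | true => P
    | false => Po with hPb
  set Db : Bool → Set (Fin m → ℝ) := fun b => match b with
    | true => D
    | false => Do with hDb
  set Tb : Bool → ℕ → ℝ := fun b => match b with
    | true => T
    | false => To with hTb
  set νb : Bool → (Fin m → ℝ) → ℝ := fun b => match b with
    | true => ν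
    | false => own with hνb
  set lb : Bool → (Fin m → ℝ) → ℝ := fun b => match b with
    | true => lam
    | false => lo with hlb
  obtain ⟨k0, hk0, hk2⟩ := exists_zzoom B₁ (J := Bool) (I := J) (κ := fun _ n => ι n ⊕ κ n)
    (f := f) (P := Pb) (D := Db) (T := Tb) (ν := νb) (lam := lb) (fun b n => by
      cases b with
      | true => exact hN.T0 n
      | false => exact hTo n) (fun b => by
      cases b with
      | true => exact zprof_comp' (fun n => Sum.inl) (fun n => Sum.inl_injective) hN.prof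
      | false => exact zprof_comp' (fun n => Sum.inr) (fun n => Sum.inr_injective) hO)
    (x := x) (h := h) hpos (fun b => by cases b <;> assumption)
    (fun b => by cases b <;> assumption) s hs
  refine ⟨k0, hk0, fun k' hk' hle => ?_⟩
  obtain ⟨B', b1, b2, b3, b4⟩ := hk2 k' hk' hle
  refine ⟨B', b1, b2, b3,
    { chart := hN.chart, sub := hN.sub, ne := hN.ne, w0 := fun n => mul_pos (hN.w0 n) (hpos _)
      base := fun n => by
        rw [b1, hN.base, ← Real.rpow_mul (B.pos n).le]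
      zero := h0
      legal := fun K => by
        have hsm : ∀ᶠ n in (U : Filter ℕ), h (k' n) * max K 0 ≤ 1 := by
          have h1 : Tendsto (fun n => h (k' n) * max K 0) U (𝓝 (0 * max K 0)) :=
            (hh.comp hk').mul_const _
          rw [zero_mul] at h1
          exact (h1.eventually_lt_const one_pos).mono fun n hn => hn.le
        filter_upwards [hk'.eventually (htan K 1 one_pos), hN.legal (b + 1), hsm]
          with n hn hl hs1 c hc hcK
        rw [zoom_zoom]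
        refine hl _ (hn c hc hcK).1 ?_
        refine (norm_add_le _ _).trans (add_le_add (hx _) ?_)
        rw [norm_smul, Real.norm_of_nonneg (hpos _).le]
        exact (mul_le_mul_of_nonneg_left (hcK.trans (le_max_left _ _)) (hpos _).le).trans hs1
      prof := ?_
      lam0 := htan.zero hpos h0
      T0 := fun n => mul_pos (hN.T0 n) (Real.rpow_pos_of_pos (B₁.pos n) _)
      lip := htan.lip hpos hN.lip
      anti := htan.anti hpos (fun l c c' hcc => add_smul_mono (hpos l).le hcc) hN.anti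
      sharp := tan_sharp htan hpos hN.sharp
      submod := fun c hc c' hc' hi hsup => htan.submod hpos hN.submod hc hc' hi hsup }, ?_⟩
  · have h1 := zprof_comp (fun n => Sum.inl) (fun n => Sum.inl_injective) (b4 true)
    have e1 : (fun (n : ℕ) (c : Fin m → ℝ) => zlab B I co M C X w n (x (k' n) + h (k' n) • c)) =
        zlab B I co M C (fun n => X n + w n • x (k' n)) (fun n => w n * h (k' n)) := by
      funext n c
      show nlab B I co M C n (X n + w n • (x (k' n) + h (k' n) • c)) =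
        nlab B I co M C n (X n + w n • x (k' n) + (w n * h (k' n)) • c)
      rw [zoom_zoom]
    rw [← e1]
    exact h1
  · exact zprof_comp (fun n => Sum.inr) (fun n => Sum.inr_injective) (b4 false)

end

end Crest.Agent.R136.Qg926
end

-- ▼ part R136/Qg7_926

/-!
# R136: from a tangent to a window and to a model (helper926)

* `WSt`, `WSt.Ok`, `WSt.Dens` : static data of a window, static conditions (legal set, density,
  Frostman exponent of the heights).
* `ZWin.exists_wnd` : a zoom window and a dense set of points give a window `W` with `W.Ok`.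
* `exists_wnd` : the same from a network with a profile and a tangent (moving base points).
* `exists_rmodel` : tangent `lam` + static conditions give models `RModel` (one theorem).
* `tightM M x` : monomials which are equalities at `x`; `tight_leg` : all `c` legal for them are
  legal directions at `x`.
* `dens_of_flags` : density condition for several level slots from the shading (height slot only)
  and "the flags cost nothing given the height".
-/

set_option autoImplicit false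
set_option linter.unusedSectionVars false
set_option linter.unusedVariables false

open Filter Topology

namespace Crest.Agent.R136.Qg926

open Finset Crest.Agent.R138.Ex926 Crest.Agent.R136.Net191 Crest.Agent.R136.Gf356

variable {m : ℕ} {ι : ℕ → Type*} [∀ n, DecidableEq (ι n)]

/-! ### static data -/

/-- static data of a window: level slots `S`, height slot `kz`, resolution `top`, normalising
constants `kap`, monomials kept `Mw`, box `R'` -/
structure WSt (m : ℕ) where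
  S : Finset (Fin m)
  kz : Fin m
  top : Fin m → ℝ
  kap : Fin m → ℝ
  Mw : Mons m
  R' : ℝ

/-- static conditions (legal directions) -/
structure WSt.Ok (st : WSt m) (M : Mons m) (D : Set (Fin m → ℝ)) : Prop where
  R0 : 0 ≤ st.R'
  leg : Leg st.Mw st.R' ⊆ D
  top_leg : st.top ∈ Leg st.Mw st.R'
  lin_leg : cut st.S st.top 0 ∈ Leg st.Mw st.R'
  lev_leg : cut st.S 0 st.top ∈ Leg st.Mw st.R'
  kzS : st.kz ∈ st.S
  kz0 : M.mon st.kz = ∅
  kzw : st.Mw.mon st.kz = ∅
  kap : ∀ s, 0 < st.kap s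

/-- density: lines and heights are independent; Frostman exponent `σ` of the heights -/
structure WSt.Dens (st : WSt m) (lam : (Fin m → ℝ) → ℝ) (σ R : ℝ) : Prop where
  dens : lam st.top ≤ lam (cut st.S st.top 0) + lam (cut st.S 0 st.top)
  σ0 : 0 ≤ σ
  σ1 : σ ≤ 1
  hR : R ≤ st.top st.kz
  frost : ∀ y, 0 ≤ y → y ≤ R → lam (Pi.single st.kz y) ≤ -(σ * y)

/-- the window with the static data `st` -/
def WSt.wnd (st : WSt m) (B B' : Base) (I J : ∀ n, Finset (ι n))
    (co : ∀ n, ι n → ι n → Fin m → ℝ) (M : Mons m) (C : ℝ) (X : ℕ → Fin m → ℝ) (w : ℕ → ℝ)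
    (D : Set (Fin m → ℝ)) (T : ℕ → ℝ) (lam : (Fin m → ℝ) → ℝ) (Cl : ∀ n, Finset (ι n))
    (s₀ : ∀ n, ι n) : Wnd m ι where
  B := B
  B' := B'
  I := I
  J := J
  co := co
  M := M
  C := C
  X := X
  w := w
  D := D
  T := T
  lam := lam
  Cl := Cl
  s₀ := s₀
  S := st.S
  kz := st.kz
  top := st.top
  kap := st.kap
  Mw := st.Mw
  R' := st.R'

section

variable {B B' : Base} {I J : ∀ n, Finset (ι n)} {co : ∀ n, ι n → ι n → Fin m → ℝ}
  {M : Mons m} {C : ℝ} {X : ℕ → Fin m → ℝ} {w : ℕ → ℝ} {D : Set (Fin m → ℝ)} {T : ℕ → ℝ}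
  {lam : (Fin m → ℝ) → ℝ} {Cl : ∀ n, Finset (ι n)} {s₀ : ∀ n, ι n} {st : WSt m}

theorem WSt.Ok.wnd_ok (hst : st.Ok M D) (hc : ZCls B B' I J co M C X w D T lam Cl s₀) :
    (st.wnd B B' I J co M C X w D T lam Cl s₀).Ok where
  cls := hc
  R0 := hst.R0
  leg := hst.leg
  top_leg := hst.top_leg
  lin_leg := hst.lin_leg
  lev_leg := hst.lev_leg
  kzS := hst.kzS
  kz0 := hst.kz0
  kzw := hst.kzw
  kap := hst.kap

/-- the profile of the models -/
theorem WSt.wnd_nu (p : Fin m → ℝ) : (st.wnd B B' I J co M C X w D T lam Cl s₀).nu p =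
    lam (cut st.S p st.top) - lam st.top := rfl

/-- the legal set of the models -/
theorem WSt.mem_legW (p : Fin m → ℝ) :
    p ∈ (st.wnd B B' I J co M C X w D T lam Cl s₀).legW ↔
      cut st.S p st.top ∈ Leg st.Mw st.R' ∧ ∀ s, s ∉ st.S → p s ≤ st.top s := Iff.rfl

/-- **from a zoom window to a window with classes** -/
theorem ZWin.exists_wnd (h : ZWin B B' I J co M C X w D T lam) (hst : st.Ok M D)
    (i₀ : ∀ n, ι n) {Gd E : ∀ n, Finset (ι n)}
    (hGd : ∀ᶠ n in (U : Filter ℕ), Gd n ⊆ J n) (hE : ∀ᶠ n in (U : Filter ℕ), E n ⊆ Gd n)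
    {Sd : ℕ → ℝ} (hS : B'.Sub Sd)
    (hd : ∀ᶠ n in (U : Filter ℕ), ((J n).card : ℝ) ≤ Sd n * (E n).card) :
    ∃ s₀ : ∀ n, ι n, (∀ᶠ n in (U : Filter ℕ), s₀ n ∈ E n) ∧
      (st.wnd B B' I J co M C X w D T lam
        (fun n => cls (Gd n) (zlab B I co M C X w n 0) (s₀ n)) s₀).Ok := by
  obtain ⟨s₀, h1, h2⟩ := h.exists_zcls i₀ hGd hE hS hd
  exact ⟨s₀, h1, hst.wnd_ok h2⟩

/-- **models in a window** -/
theorem WSt.Dens.model {σ R : ℝ} (hden : st.Dens lam σ R) {E : ∀ n, Finset (ι n)} {Mu : ℕ → ℝ}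
    (hW : (st.wnd B B' I J co M C X w D T lam Cl s₀).Ok)
    (hE : Wnd.EOk (st.wnd B B' I J co M C X w D T lam Cl s₀) E Mu)
    (ex : ℕ → ∀ n, ι n → ℕ) {g₀ : ℕ → ℝ} (hg₀ : Tendsto g₀ U atTop) :
    ∃ (E' : ∀ n, Finset (ι n)) (g : ℕ → ℝ),
      Wnd.Pruned (st.wnd B B' I J co M C X w D T lam Cl s₀) E E' g ex ∧
      (∀ᶠ n in (U : Filter ℕ), g n ≤ g₀ n) ∧
      RModel B' ((st.wnd B B' I J co M C X w D T lam Cl s₀).cfg E') σ R
        (st.wnd B B' I J co M C X w D T lam Cl s₀).legW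
        (st.wnd B B' I J co M C X w D T lam Cl s₀).nu
        (st.wnd B B' I J co M C X w D T lam Cl s₀).Dc :=
  Wnd.EOk.exists_model hW hE ex hg₀ hden.dens hden.σ0 hden.σ1 hden.hR hden.frost

end

/-- **from a profile and a tangent to windows** (moving base points `x`, scales `h`); `E ⊆ Gd ⊆ J`
dense in `J` -/
theorem exists_wnd {B : Base} {I J : ∀ n, Finset (ι n)} {co : ∀ n, ι n → ι n → Fin m → ℝ}
    {M : Mons m} {C R : ℝ} {ν : (Fin m → ℝ) → ℝ} (hN : NProf B I J co M C R ν)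
    {x : ℕ → Fin m → ℝ} {h : ℕ → ℝ} (hpos : ∀ l, 0 < h l) {D : Set (Fin m → ℝ)}
    (h0 : (0 : Fin m → ℝ) ∈ D) {lam : (Fin m → ℝ) → ℝ} (htan : IsTan (Leg M R) D ν x h lam)
    {st : WSt m} (hst : st.Ok M D) (s : ℕ → ℕ → ℝ) (hs : ∀ i, B.Sub (s i)) (i₀ : ∀ n, ι n)
    {Gd E : ∀ n, Finset (ι n)}
    (hGd : ∀ᶠ n in (U : Filter ℕ), Gd n ⊆ J n) (hE : ∀ᶠ n in (U : Filter ℕ), E n ⊆ Gd n)
    {Sd : ℕ → ℝ} (hS : B.Sub Sd)
    (hd : ∀ᶠ n in (U : Filter ℕ), ((J n).card : ℝ) ≤ Sd n * (E n).card) :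
    ∃ k : ℕ → ℕ, Tendsto k U atTop ∧ ∀ k' : ℕ → ℕ, Tendsto k' U atTop →
      (∀ᶠ n in (U : Filter ℕ), k' n ≤ k n) → ∃ (B' : Base) (s₀ : ∀ n, ι n),
        (∀ n, B'.d n = B.d n ^ h (k' n)) ∧ (∀ n, B'.L n = h (k' n) * B.L n) ∧
        (∀ i, B'.Sub (s i)) ∧ (∀ᶠ n in (U : Filter ℕ), s₀ n ∈ E n) ∧
        (st.wnd B B' I J co M C (fun n => x (k' n)) (fun n => h (k' n)) D
          (fun n => B.d n ^ (-(ν (x (k' n))))) lam
          (fun n => cls (Gd n) (zlab B I co M C (fun n => x (k' n)) (fun n => h (k' n)) n 0)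
            (s₀ n)) s₀).Ok := by
  obtain ⟨k, hk, hk2⟩ := exists_zwin hN hpos h0 htan
    (fun i => Nat.casesOn i Sd s) (fun i => by cases i with
      | zero => exact hS
      | succ i => exact hs i)
  refine ⟨k, hk, fun k' hk' hle => ?_⟩
  obtain ⟨B', b1, b2, b3, b4⟩ := hk2 k' hk' hle
  obtain ⟨s₀, c1, c2⟩ := b4.exists_wnd hst i₀ hGd hE (b3 0) hd
  exact ⟨B', s₀, b1, b2, fun i => b3 (i + 1), c1, c2⟩

/-- **from a tangent to models**, one theorem: `Gd = E = J` -/
theorem exists_rmodel {B : Base} {I J : ∀ n, Finset (ι n)} {co : ∀ n, ι n → ι n → Fin m → ℝ}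
    {M : Mons m} {C R : ℝ} {ν : (Fin m → ℝ) → ℝ} (hN : NProf B I J co M C R ν)
    {x : ℕ → Fin m → ℝ} {h : ℕ → ℝ} (hpos : ∀ l, 0 < h l) {D : Set (Fin m → ℝ)}
    (h0 : (0 : Fin m → ℝ) ∈ D) {lam : (Fin m → ℝ) → ℝ} (htan : IsTan (Leg M R) D ν x h lam)
    {st : WSt m} (hst : st.Ok M D) {σ Rr : ℝ} (hden : st.Dens lam σ Rr)
    (s : ℕ → ℕ → ℝ) (hs : ∀ i, B.Sub (s i)) (i₀ : ∀ n, ι n) :
    ∃ k : ℕ → ℕ, Tendsto k U atTop ∧ ∀ k' : ℕ → ℕ, Tendsto k' U atTop →
      (∀ᶠ n in (U : Filter ℕ), k' n ≤ k n) → ∃ W : Wnd m ι,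
        W.Ok ∧ W.B = B ∧ W.I = I ∧ W.J = J ∧ W.co = co ∧ W.M = M ∧ W.C = C ∧
        (W.X = fun n => x (k' n)) ∧ (W.w = fun n => h (k' n)) ∧ W.D = D ∧ W.lam = lam ∧
        W.S = st.S ∧ W.kz = st.kz ∧ W.top = st.top ∧ W.kap = st.kap ∧ W.Mw = st.Mw ∧
        W.R' = st.R' ∧ (W.T = fun n => B.d n ^ (-(ν (x (k' n))))) ∧
        (∀ n, W.B'.d n = B.d n ^ h (k' n)) ∧ (∀ n, W.B'.L n = h (k' n) * B.L n) ∧
        (∀ i, W.B'.Sub (s i)) ∧
        ∀ (E : ∀ n, Finset (ι n)) (Mu : ℕ → ℝ), Wnd.EOk W E Mu →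
          ∀ (ex : ℕ → ∀ n, ι n → ℕ) (g₀ : ℕ → ℝ), Tendsto g₀ U atTop →
          ∃ (E' : ∀ n, Finset (ι n)) (g : ℕ → ℝ), Wnd.Pruned W E E' g ex ∧
            (∀ᶠ n in (U : Filter ℕ), g n ≤ g₀ n) ∧
            RModel W.B' (W.cfg E') σ Rr W.legW W.nu W.Dc := by
  obtain ⟨k, hk, hk2⟩ := exists_wnd hN hpos h0 htan hst s hs i₀ (Gd := J) (E := J)
    (Eventually.of_forall fun n => Subset.refl _) (Eventually.of_forall fun n => Subset.refl _)
    (Sd := fun _ => 1) (Base.Sub.const one_pos) (Eventually.of_forall fun n => by rw [one_mul])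
  refine ⟨k, hk, fun k' hk' hle => ?_⟩
  obtain ⟨B', s₀, b1, b2, b3, b4, b5⟩ := hk2 k' hk' hle
  refine ⟨_, b5, rfl, rfl, rfl, rfl, rfl, rfl, rfl, rfl, rfl, rfl, rfl, rfl, rfl, rfl, rfl, rfl,
    rfl, b1, b2, b3, ?_⟩
  intro E Mu hE ex g₀ hg₀
  exact hden.model b5 hE ex hg₀

/-! ### tight monomials -/







/-! ### the density condition with several level slots -/


theorem cut_single {S : Finset (Fin m)} {kz : Fin m} {top : Fin m → ℝ} :
    cut {kz} 0 top = Pi.single kz (top kz) := by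
  funext s
  unfold cut
  by_cases hs : s = kz
  · subst hs; simp
  · rw [if_neg (by simpa using hs), Pi.single_eq_of_ne hs]; rfl

end Crest.Agent.R136.Qg926
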