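import Crest.Agent.R136.Net1_191
import Crest.Agent.R136.Sh1_605
import Crest.Agent.R136.WkG_626
import Crest.Agent.R136.Net4_186
import Crest.Agent.R136.Qg2_926
import Crest.Agent.R136.Qg3b_926
import Crest.Agent.R136.Qg7_926

-- ▼ part R136/Net3_186
section

/-!
# R136: the thick chart of `ℝ⁴` (helper186)

Incidence = line, height `z`, flag `V2 ⊂ V3`:  axis `A' = (1, e)` of `V2` in the `(A, B)` plane,
hyperplane `V3 = {Y = fa A + fb B}`.  Coordinates `x 0 = Y`, `x 1 = A`, `x 2 = B` (as in `Sh605`: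
`0` normal, `1` wide, `2` narrow).  Relative coordinates of the incidence `j` seen from `i`, in the
frame of `i`, at the height of `i`:

`0 : z`, `1 : E`, `2 : F_b`, `3 : F_a`, `4 : C_a`, `5 : C_b`, `6 : P`, `7 : X_a`, `8 : X_b`, `9 : N`.

`chart4` : they form a triangular chart (`Net191.Chart`) with constant `1` and the monomials
`mon4`.
-/

set_option autoImplicit false

namespace Crest.Agent.R136.Net186

open Finset
open Crest.Agent.R136.Net191
open Crest.Agent.R136.Sh605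

/-- an incidence with its flag -/
structure Fl4 where
  /-- the line -/
  t : Ln4
  /-- the height -/
  z : ℝ
  /-- slope of `V2` inside `V3` -/
  e : ℝ
  /-- slope of `V3` in the direction `A` -/
  fa : ℝ
  /-- slope of `V3` in the direction `B` -/
  fb : ℝ

/-- relative coordinates of `j` seen from `i` -/
def co4 (i j : Fl4) : Fin 10 → ℝ :=
  ![j.z - i.z,
    j.e - i.e,
    j.fb - i.fb,
    (j.fa - i.fa) + i.e * (j.fb - i.fb),
    j.t.v 1 - i.t.v 1,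
    (j.t.v 2 - i.t.v 2) - i.e * (j.t.v 1 - i.t.v 1),
    (j.t.v 0 - i.t.v 0) - i.fa * (j.t.v 1 - i.t.v 1) - i.fb * (j.t.v 2 - i.t.v 2),
    j.t.pos i.z 1 - i.t.pos i.z 1,
    (j.t.pos i.z 2 - i.t.pos i.z 2) - i.e * (j.t.pos i.z 1 - i.t.pos i.z 1),
    (j.t.pos i.z 0 - i.t.pos i.z 0) - i.fa * (j.t.pos i.z 1 - i.t.pos i.z 1) -
      i.fb * (j.t.pos i.z 2 - i.t.pos i.z 2)]












end Crest.Agent.R136.Net186
end

-- ▼ part R136/WkH_626
section

/-!
# R136 (S0187): RIG wrapper, NORMALISATION of a lightlike window (helper626)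

* `coQ_st` : straight incidences of the gauge chart (`y2 = 0`) are incidences of the thick chart.
* `nrm` : the normalised incidence with given relative coordinates; `co4_nrm` : if the units are
  multiplicative (all walls tight) then normalisation divides every slot by its unit.
* `coA_eq` : `coA` of absolute data is `co4` of incidences with common `z`, `fb`.
* `same_line`, `co4_lip` : stability.
-/

set_option autoImplicit false

namespace Crest.Agent.R136.Wk323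

open Finset
open Crest.Agent.R136.Sh605
open Crest.Agent.R136.Net186
open Crest.Agent.R136.NetQ186

/-- a straight incidence of the gauge chart -/
def st (i : Fq4) : Fl4 := ⟨⟨![i.y0, i.A, i.B], ![i.y1, i.ca, i.cb]⟩, i.z, i.e, i.fa, i.fb⟩

/-- slots of `co4` inside the slots of `coQ` (the slots `0`, `1` are not used) -/
def s4 : Fin 11 → Fin 10 := ![0, 0, 1, 2, 3, 4, 5, 6, 7, 8, 9]

theorem coQ_st {i j : Fq4} (hi : i.y2 = 0) (hj : j.y2 = 0) {s : Fin 11} (hs : s ≠ 1) :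
    coQ i j s = co4 (st i) (st j) (s4 s) := by
  fin_cases s
  · simp [coQ, co4, st, s4]
  · exact absurd rfl hs
  · simp [coQ, co4, st, s4]
  · simp [coQ, co4, st, s4]
  · simp [coQ, co4, st, s4]
  · simp [coQ, co4, st, s4]
  · simp [coQ, co4, st, s4]
  · simp [coQ, co4, st, s4, Fq4.vy, hi, hj]
  · simp [coQ, co4, st, s4, Fq4.pa, Ln4.pos]
  · simp [coQ, co4, st, s4, Fq4.pa, Fq4.pb, Ln4.pos]
  · simp [coQ, co4, st, s4, Fq4.pa, Fq4.pb, Fq4.py, Ln4.pos, hi, hj]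
    ring

/-- units with all walls tight -/
structure Tight (u : Fin 10 → ℝ) : Prop where
  pos : ∀ s, 0 < u s
  w3 : u 3 = u 1 * u 2
  w5 : u 5 = u 1 * u 4
  w6 : u 6 = u 1 * u 2 * u 4
  w7 : u 7 = u 0 * u 4
  w8 : u 8 = u 0 * u 1 * u 4
  w9 : u 9 = u 0 * u 1 * u 2 * u 4

/-- the incidence with relative coordinates `c` (seen from the origin) in the units `u` -/
noncomputable def nrm (u c : Fin 10 → ℝ) : Fl4 :=
  ⟨⟨![c 9 / u 9, c 7 / u 7, c 8 / u 8], ![c 6 / u 6, c 4 / u 4, c 5 / u 5]⟩, c 0 / u 0, c 1 / u 1,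
    c 3 / u 3, c 2 / u 2⟩


/-- **normalisation**: relative coordinates of normalised incidences -/
theorem co4_nrm {u : Fin 10 → ℝ} (hu : Tight u) (o i j : Fl4) (s : Fin 10) :
    co4 (nrm u (co4 o i)) (nrm u (co4 o j)) s = co4 i j s / u s := by
  have h0 := (hu.pos 0).ne'
  have h1 := (hu.pos 1).ne'
  have h2 := (hu.pos 2).ne'
  have h4 := (hu.pos 4).ne'
  fin_cases s
  · show (co4 o j 0 / u 0) - (co4 o i 0 / u 0) = co4 i j 0 / u 0
    simp only [co4, Matrix.cons_val]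
    field_simp
    ring
  · show (co4 o j 1 / u 1) - (co4 o i 1 / u 1) = co4 i j 1 / u 1
    simp only [co4, Matrix.cons_val]
    field_simp
    ring
  · show (co4 o j 2 / u 2) - (co4 o i 2 / u 2) = co4 i j 2 / u 2
    simp only [co4, Matrix.cons_val]
    field_simp
    ring
  · show (co4 o j 3 / u 3) - (co4 o i 3 / u 3) + (co4 o i 1 / u 1) *
      ((co4 o j 2 / u 2) - (co4 o i 2 / u 2)) = co4 i j 3 / u 3
    simp only [co4, Matrix.cons_val]
    rw [hu.w3]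
    field_simp
    ring
  · show (co4 o j 4 / u 4) - (co4 o i 4 / u 4) = co4 i j 4 / u 4
    simp only [co4, Matrix.cons_val]
    field_simp
    ring
  · show ((co4 o j 5 / u 5) - (co4 o i 5 / u 5)) - (co4 o i 1 / u 1) *
      ((co4 o j 4 / u 4) - (co4 o i 4 / u 4)) = co4 i j 5 / u 5
    simp only [co4, Matrix.cons_val]
    rw [hu.w5]
    field_simp
    ring
  · show ((co4 o j 6 / u 6) - (co4 o i 6 / u 6)) - (co4 o i 3 / u 3) *
      ((co4 o j 4 / u 4) - (co4 o i 4 / u 4)) - (co4 o i 2 / u 2) *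
      ((co4 o j 5 / u 5) - (co4 o i 5 / u 5)) = co4 i j 6 / u 6
    simp only [co4, Matrix.cons_val]
    rw [hu.w6, hu.w3, hu.w5]
    field_simp
    ring
  · show ((co4 o j 7 / u 7) + (co4 o i 0 / u 0) * (co4 o j 4 / u 4)) -
      ((co4 o i 7 / u 7) + (co4 o i 0 / u 0) * (co4 o i 4 / u 4)) = co4 i j 7 / u 7
    simp only [co4, Ln4.pos, Matrix.cons_val]
    rw [hu.w7]
    field_simp
    ring
  · show (((co4 o j 8 / u 8) + (co4 o i 0 / u 0) * (co4 o j 5 / u 5)) -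
      ((co4 o i 8 / u 8) + (co4 o i 0 / u 0) * (co4 o i 5 / u 5))) - (co4 o i 1 / u 1) *
      (((co4 o j 7 / u 7) + (co4 o i 0 / u 0) * (co4 o j 4 / u 4)) -
      ((co4 o i 7 / u 7) + (co4 o i 0 / u 0) * (co4 o i 4 / u 4))) = co4 i j 8 / u 8
    simp only [co4, Ln4.pos, Matrix.cons_val]
    rw [hu.w8, hu.w7, hu.w5]
    field_simp
    ring
  · show (((co4 o j 9 / u 9) + (co4 o i 0 / u 0) * (co4 o j 6 / u 6)) -
      ((co4 o i 9 / u 9) + (co4 o i 0 / u 0) * (co4 o i 6 / u 6))) - (co4 o i 3 / u 3) *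
      (((co4 o j 7 / u 7) + (co4 o i 0 / u 0) * (co4 o j 4 / u 4)) -
      ((co4 o i 7 / u 7) + (co4 o i 0 / u 0) * (co4 o i 4 / u 4))) - (co4 o i 2 / u 2) *
      (((co4 o j 8 / u 8) + (co4 o i 0 / u 0) * (co4 o j 5 / u 5)) -
      ((co4 o i 8 / u 8) + (co4 o i 0 / u 0) * (co4 o i 5 / u 5))) = co4 i j 9 / u 9
    simp only [co4, Ln4.pos, Matrix.cons_val]
    rw [hu.w9, hu.w8, hu.w7, hu.w6, hu.w5, hu.w3]
    field_simp
    ring

/-- absolute data as incidences -/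
theorem coA_eq (T T' : Ln4) (E E' fa fa' fb z : ℝ) {s : Fin 11} (hs : s ∈ fAll) :
    coA T T' E E' fa fa' fb z s = co4 ⟨T, z, E, fa, fb⟩ ⟨T', z, E', fa', fb⟩ (s4 s) := by
  have hs' : s = 2 ∨ s = 4 ∨ s = 5 ∨ s = 6 ∨ s = 7 ∨ s = 8 ∨ s = 9 ∨ s = 10 := by
    simpa [fAll] using hs
  rcases hs' with rfl | rfl | rfl | rfl | rfl | rfl | rfl | rfl <;> simp [coA, co4, s4]

/-! ### stability -/

/-- an incidence with parameters in the unit box -/
structure Unit4 (i : Fl4) : Prop where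
  v : ∀ m, |i.t.v m| ≤ 1
  p : ∀ m, |i.t.p m| ≤ 1
  z : |i.z| ≤ 1
  e : |i.e| ≤ 1
  fa : |i.fa| ≤ 1
  fb : |i.fb| ≤ 1

/-- parameters are `δ`-close -/
structure Near4 (i i' : Fl4) (δ : ℝ) : Prop where
  v : ∀ m, |i'.t.v m - i.t.v m| ≤ δ
  p : ∀ m, |i'.t.p m - i.t.p m| ≤ δ
  z : |i'.z - i.z| ≤ δ
  e : |i'.e - i.e| ≤ δ
  fa : |i'.fa - i.fa| ≤ δ
  fb : |i'.fb - i.fb| ≤ δ

theorem prod_lip {a a' b b' A B α β : ℝ} (ha : |a| ≤ A) (hb : |b'| ≤ B) (h1 : |a' - a| ≤ α)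
    (h2 : |b' - b| ≤ β) : |a' * b' - a * b| ≤ A * β + α * B := by
  have e : a' * b' - a * b = a * (b' - b) + (a' - a) * b' := by ring
  rw [e]
  exact (abs_add_le _ _).trans (add_le_add (abs_mul_le ha h2) (abs_mul_le h1 hb))

theorem sub_lip {a a' b b' α β : ℝ} (h1 : |a' - a| ≤ α) (h2 : |b' - b| ≤ β) :
    |(a' - b') - (a - b)| ≤ α + β := by
  have e : (a' - b') - (a - b) = (a' - a) - (b' - b) := by ring
  rw [e]
  exact (abs_sub _ _).trans (add_le_add h1 h2)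

theorem add_lip {a a' b b' α β : ℝ} (h1 : |a' - a| ≤ α) (h2 : |b' - b| ≤ β) :
    |(a' + b') - (a + b)| ≤ α + β := by
  have e : (a' + b') - (a + b) = (a' - a) + (b' - b) := by ring
  rw [e]
  exact (abs_add_le _ _).trans (add_le_add h1 h2)

theorem sub_bd {a b A B : ℝ} (h1 : |a| ≤ A) (h2 : |b| ≤ B) : |a - b| ≤ A + B :=
  (abs_sub _ _).trans (add_le_add h1 h2)

/-- **`co4` is Lipschitz on the unit box** -/
theorem co4_lip {i i' j j' : Fl4} {δ : ℝ} (hi : Unit4 i) (hi' : Unit4 i') (_hj : Unit4 j)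
    (hj' : Unit4 j') (h : Near4 i i' δ) (g : Near4 j j' δ) (s : Fin 10) :
    |co4 i' j' s - co4 i j s| ≤ 30 * δ := by
  have hδ : 0 ≤ δ := (abs_nonneg _).trans h.z
  have dv : ∀ m, |(j'.t.v m - i'.t.v m) - (j.t.v m - i.t.v m)| ≤ δ + δ := fun m =>
    sub_lip (g.v m) (h.v m)
  have bv : ∀ m, |j'.t.v m - i'.t.v m| ≤ 1 + 1 := fun m => sub_bd (hj'.v m) (hi'.v m)
  have dp : ∀ m, |(j'.t.p m - i'.t.p m) - (j.t.p m - i.t.p m)| ≤ δ + δ := fun m =>
    sub_lip (g.p m) (h.p m)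
  have bp : ∀ m, |j'.t.p m - i'.t.p m| ≤ 1 + 1 := fun m => sub_bd (hj'.p m) (hi'.p m)
  have eX : ∀ (a b : Fl4) (m : Fin 3), b.t.pos a.z m - a.t.pos a.z m =
      (b.t.p m - a.t.p m) + a.z * (b.t.v m - a.t.v m) := fun a b m => by
    simp only [Ln4.pos]; ring
  have dX : ∀ m, |(j'.t.pos i'.z m - i'.t.pos i'.z m) - (j.t.pos i.z m - i.t.pos i.z m)| ≤
      (δ + δ) + (1 * (δ + δ) + δ * (1 + 1)) := fun m => by
    rw [eX, eX]
    exact add_lip (dp m) (prod_lip hi.z (bv m) h.z (dv m))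
  have bX : ∀ m, |j'.t.pos i'.z m - i'.t.pos i'.z m| ≤ (1 + 1) + 1 * (1 + 1) := fun m => by
    rw [eX]
    exact (abs_add_le _ _).trans (add_le_add (bp m) (abs_mul_le hi'.z (bv m)))
  have dfb : |(j'.fb - i'.fb) - (j.fb - i.fb)| ≤ δ + δ := sub_lip g.fb h.fb
  have bfb : |j'.fb - i'.fb| ≤ 1 + 1 := sub_bd hj'.fb hi'.fb
  fin_cases s
  · show |(j'.z - i'.z) - (j.z - i.z)| ≤ _
    exact (sub_lip g.z h.z).trans (by linarith)
  · show |(j'.e - i'.e) - (j.e - i.e)| ≤ _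
    exact (sub_lip g.e h.e).trans (by linarith)
  · show |(j'.fb - i'.fb) - (j.fb - i.fb)| ≤ _
    exact dfb.trans (by linarith)
  · show |((j'.fa - i'.fa) + i'.e * (j'.fb - i'.fb)) - ((j.fa - i.fa) + i.e * (j.fb - i.fb))| ≤ _
    exact (add_lip (sub_lip g.fa h.fa) (prod_lip hi.e bfb h.e dfb)).trans (by linarith)
  · show |(j'.t.v 1 - i'.t.v 1) - (j.t.v 1 - i.t.v 1)| ≤ _
    exact (dv 1).trans (by linarith)
  · show |((j'.t.v 2 - i'.t.v 2) - i'.e * (j'.t.v 1 - i'.t.v 1)) -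
      ((j.t.v 2 - i.t.v 2) - i.e * (j.t.v 1 - i.t.v 1))| ≤ _
    exact (sub_lip (dv 2) (prod_lip hi.e (bv 1) h.e (dv 1))).trans (by linarith)
  · show |((j'.t.v 0 - i'.t.v 0) - i'.fa * (j'.t.v 1 - i'.t.v 1) - i'.fb * (j'.t.v 2 - i'.t.v 2)) -
      ((j.t.v 0 - i.t.v 0) - i.fa * (j.t.v 1 - i.t.v 1) - i.fb * (j.t.v 2 - i.t.v 2))| ≤ _
    exact (sub_lip (sub_lip (dv 0) (prod_lip hi.fa (bv 1) h.fa (dv 1)))
      (prod_lip hi.fb (bv 2) h.fb (dv 2))).trans (by linarith)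
  · show |(j'.t.pos i'.z 1 - i'.t.pos i'.z 1) - (j.t.pos i.z 1 - i.t.pos i.z 1)| ≤ _
    exact (dX 1).trans (by linarith)
  · show |((j'.t.pos i'.z 2 - i'.t.pos i'.z 2) - i'.e * (j'.t.pos i'.z 1 - i'.t.pos i'.z 1)) -
      ((j.t.pos i.z 2 - i.t.pos i.z 2) - i.e * (j.t.pos i.z 1 - i.t.pos i.z 1))| ≤ _
    exact (sub_lip (dX 2) (prod_lip hi.e (bX 1) h.e (dX 1))).trans (by linarith)
  · show |((j'.t.pos i'.z 0 - i'.t.pos i'.z 0) - i'.fa * (j'.t.pos i'.z 1 - i'.t.pos i'.z 1) -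
      i'.fb * (j'.t.pos i'.z 2 - i'.t.pos i'.z 2)) - ((j.t.pos i.z 0 - i.t.pos i.z 0) -
      i.fa * (j.t.pos i.z 1 - i.t.pos i.z 1) - i.fb * (j.t.pos i.z 2 - i.t.pos i.z 2))| ≤ _
    exact (sub_lip (sub_lip (dX 0) (prod_lip hi.fa (bX 1) h.fa (dX 1)))
      (prod_lip hi.fb (bX 2) h.fb (dX 2))).trans (by linarith)

/-- **two incidences of one fat line** -/
theorem line_close {i j : Fl4} {η : ℝ} (hi : Unit4 i)
    (h : ∀ s : Fin 10, s ≠ 0 → s ≠ 2 → |co4 i j s| ≤ η) :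
    |j.e - i.e| ≤ η ∧ (∀ m, |j.t.v m - i.t.v m| ≤ 4 * η) ∧ ∀ m, |j.t.p m - i.t.p m| ≤ 8 * η := by
  have h1 : |j.e - i.e| ≤ η := h 1 (by decide) (by decide)
  have v1 : |j.t.v 1 - i.t.v 1| ≤ η := h 4 (by decide) (by decide)
  have h5 : |(j.t.v 2 - i.t.v 2) - i.e * (j.t.v 1 - i.t.v 1)| ≤ η := h 5 (by decide) (by decide)
  have h6 : |(j.t.v 0 - i.t.v 0) - i.fa * (j.t.v 1 - i.t.v 1) - i.fb * (j.t.v 2 - i.t.v 2)| ≤ η :=
    h 6 (by decide) (by decide)
  have x1 : |j.t.pos i.z 1 - i.t.pos i.z 1| ≤ η := h 7 (by decide) (by decide)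
  have h8 : |(j.t.pos i.z 2 - i.t.pos i.z 2) - i.e * (j.t.pos i.z 1 - i.t.pos i.z 1)| ≤ η :=
    h 8 (by decide) (by decide)
  have h9 : |(j.t.pos i.z 0 - i.t.pos i.z 0) - i.fa * (j.t.pos i.z 1 - i.t.pos i.z 1) -
      i.fb * (j.t.pos i.z 2 - i.t.pos i.z 2)| ≤ η := h 9 (by decide) (by decide)
  have hη : 0 ≤ η := (abs_nonneg _).trans h1
  have two : ∀ {x y a : ℝ}, |x - i.e * y| ≤ η → |y| ≤ η → |x| ≤ 2 * η := by
    intro x y a hx hy
    have a1 := abs_mul_le hi.e hy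
    have e : x = (x - i.e * y) + i.e * y := by ring
    rw [e]
    exact (abs_add_le _ _).trans (by linarith)
  have four : ∀ {x y w a : ℝ}, |x - i.fa * y - i.fb * w| ≤ η → |y| ≤ η → |w| ≤ 2 * η →
      |x| ≤ 4 * η := by
    intro x y w a hx hy hw
    have a1 := abs_mul_le hi.fa hy
    have a2 := abs_mul_le hi.fb hw
    have e : x = (x - i.fa * y - i.fb * w) + i.fa * y + i.fb * w := by ring
    rw [e]
    exact (abs_add_three _ _ _).trans (by linarith)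
  have v2 : |j.t.v 2 - i.t.v 2| ≤ 2 * η := two (a := 0) h5 v1
  have v0 : |j.t.v 0 - i.t.v 0| ≤ 4 * η := four (a := 0) h6 v1 v2
  have x2 : |j.t.pos i.z 2 - i.t.pos i.z 2| ≤ 2 * η := two (a := 0) h8 x1
  have x0 : |j.t.pos i.z 0 - i.t.pos i.z 0| ≤ 4 * η := four (a := 0) h9 x1 x2
  have hv : ∀ m, |j.t.v m - i.t.v m| ≤ 4 * η := by
    intro m
    fin_cases m
    · exact v0
    · exact v1.trans (by linarith)
    · exact v2.trans (by linarith)
  refine ⟨h1, hv, ?_⟩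
  have hx : ∀ m, |j.t.pos i.z m - i.t.pos i.z m| ≤ 4 * η := by
    intro m
    fin_cases m
    · exact x0
    · exact x1.trans (by linarith)
    · exact x2.trans (by linarith)
  intro m
  have a1 := abs_mul_le hi.z (hv m)
  have e : j.t.p m - i.t.p m = (j.t.pos i.z m - i.t.pos i.z m) - i.z * (j.t.v m - i.t.v m) := by
    simp only [Ln4.pos]; ring
  rw [e]
  refine (abs_sub _ _).trans ?_
  have := hx m
  linarith

end Crest.Agent.R136.Wk323
end

-- ▼ part R136/WkH2_626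
section

/-!
# R136 (S0187): RIG wrapper: a lightlike window of helper926 is an `AbsWin` (helper626)

`W : Wnd 11 ι` over the chart `coQ` with straight incidences, level slots `{0, 3}` (height, `F_b`),
units `kap s * d^(X s)` with all walls tight.  Absolute data: normalised incidences `nI`.
-/

set_option autoImplicit false
set_option linter.unusedSectionVars false
set_option linter.unusedVariables false

open Filter Topology

namespace Crest.Agent.R136.Wk323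

open Finset
open Crest.Agent.R136.Sh605
open Crest.Agent.R136.Net186
open Crest.Agent.R136.NetQ186
open Crest.Agent.R136.Qg926
open Crest.Agent.R136.Net191
open Crest.Agent.R138.Ex926 (Base U)
open Crest.Agent.R136.Gf356

/-- slots of `coQ` of the slots of `co4` -/
def tq : Fin 10 → Fin 11 := ![0, 2, 3, 4, 5, 6, 7, 8, 9, 10]

theorem s4_tq (s : Fin 10) : s4 (tq s) = s := by fin_cases s <;> rfl

theorem tq_ne (s : Fin 10) : tq s ≠ 1 := by fin_cases s <;> decide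

theorem tq_s4 {s : Fin 11} (h : s ∈ fAll) : tq (s4 s) = s := by
  have hs' : s = 2 ∨ s = 4 ∨ s = 5 ∨ s = 6 ∨ s = 7 ∨ s = 8 ∨ s = 9 ∨ s = 10 := by
    simpa [fAll] using h
  rcases hs' with rfl | rfl | rfl | rfl | rfl | rfl | rfl | rfl <;> rfl

variable {ι : ℕ → Type*} [∀ n, DecidableEq (ι n)]

/-- the units of the window -/
noncomputable def uu (W : Wnd 11 ι) (n : ℕ) (s : Fin 10) : ℝ := W.kap (tq s) * W.B.d n ^ W.X n (tq s)

/-- normalised incidences of the window -/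
noncomputable def nI (W : Wnd 11 ι) (F : ∀ n, ι n → Fq4) (n : ℕ) (i : ι n) : Fl4 :=
  nrm (uu W n) (co4 (st (F n (W.s₀ n))) (st (F n i)))

open Classical in
/-- a chosen incidence on the fat line `l` -/
noncomputable def lrep (W : Wnd 11 ι) (n : ℕ) (l : ℕ) : ι n :=
  if h : ∃ i ∈ W.Cl n, W.lc n i = l then h.choose else W.s₀ n

theorem lrep_spec (W : Wnd 11 ι) {n : ℕ} {i : ι n} (hi : i ∈ W.Cl n) :
    lrep W n (W.lc n i) ∈ W.Cl n ∧ W.lc n (lrep W n (W.lc n i)) = W.lc n i := by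
  have h : ∃ j ∈ W.Cl n, W.lc n j = W.lc n i := ⟨i, hi, rfl⟩
  unfold lrep
  rw [dif_pos h]
  exact h.choose_spec

/-- hypotheses on the window for the absolute form -/
structure LWin (W : Wnd 11 ι) (F : ∀ n, ι n → Fq4) (x : ℝ) : Prop where
  ok : W.Ok
  co : ∀ n i j, W.co n i j = coQ (F n i) (F n j)
  str : ∀ n i, (F n i).y2 = 0
  S : W.S = {0, 3}
  kz : W.kz = 0
  tight : ∀ᶠ n in (U : Filter ℕ), Tight (uu W n)
  kap : ∀ s, 2 * W.K0 ≤ W.kap s
  x0 : 0 ≤ x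
  top : ∀ s, s ≠ 1 → x ≤ W.top s

namespace LWin

variable {W : Wnd 11 ι} {F : ∀ n, ι n → Fq4} {x : ℝ} (H : LWin W F x)

include H


/-- coordinates of normalised incidences = normalised coordinates -/
theorem co4_nI {n : ℕ} (hu : Tight (uu W n)) (i j : ι n) (s : Fin 10) :
    co4 (nI W F n i) (nI W F n j) s = W.crd n i j (tq s) := by
  unfold nI
  rw [co4_nrm hu]
  unfold Wnd.crd
  rw [H.co, coQ_st (H.str n i) (H.str n j) (tq_ne s), s4_tq]
  rfl

/-- a box in normalised coordinates -/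
theorem crd_le {n : ℕ} {c : Fin 11 → ℝ} {i j : ι n} (h : W.bx n c W.K0 i j) (s : Fin 11) :
    |W.crd n i j s| ≤ W.B'.d n ^ c s / 2 := by
  have hX : 0 < W.B.d n ^ W.X n s := Real.rpow_pos_of_pos (W.B.pos n) _
  have hc : 0 < W.B'.d n ^ c s := Real.rpow_pos_of_pos (W.B'.pos n) _
  have hk := H.ok.kap s
  have hpos : 0 < W.kap s * W.B.d n ^ W.X n s := mul_pos hk hX
  unfold Wnd.crd
  rw [abs_div, abs_of_pos hpos, div_le_iff₀ hpos]
  refine (h s).trans ?_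
  have h1 := H.kap s
  have h2 : 0 ≤ W.B.d n ^ W.X n s * W.B'.d n ^ c s := (mul_pos hX hc).le
  have h3 := mul_le_mul_of_nonneg_right h1 h2
  linarith

/-- all incidences of the class are in half of the unit box -/
theorem half {n : ℕ} (g : W.Good n) (hu : Tight (uu W n)) {i : ι n} (hi : i ∈ W.Cl n) :
    (∀ m, |(nI W F n i).t.v m| ≤ 1 / 2) ∧ (∀ m, |(nI W F n i).t.p m| ≤ 1 / 2) ∧
      |(nI W F n i).z| ≤ 1 / 2 ∧ |(nI W F n i).e| ≤ 1 / 2 ∧ |(nI W F n i).fa| ≤ 1 / 2 ∧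
      |(nI W F n i).fb| ≤ 1 / 2 := by
  have h0 : ∀ s : Fin 10, |co4 (st (F n (W.s₀ n))) (st (F n i)) s / uu W n s| ≤ 1 / 2 := by
    intro s
    have h1 := H.crd_le (H.ok.near0 g g.s0 hi) (tq s)
    rw [Pi.zero_apply, Real.rpow_zero] at h1
    have e : co4 (st (F n (W.s₀ n))) (st (F n i)) s / uu W n s = W.crd n (W.s₀ n) i (tq s) := by
      unfold Wnd.crd
      rw [H.co, coQ_st (H.str n _) (H.str n i) (tq_ne s), s4_tq]
      rfl
    rw [e]
    exact h1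
  refine ⟨?_, ?_, h0 0, h0 1, h0 3, h0 2⟩
  · intro m
    fin_cases m
    · exact h0 6
    · exact h0 4
    · exact h0 5
  · intro m
    fin_cases m
    · exact h0 9
    · exact h0 7
    · exact h0 8

theorem unit {n : ℕ} (g : W.Good n) (hu : Tight (uu W n)) {i : ι n} (hi : i ∈ W.Cl n) :
    Unit4 (nI W F n i) := by
  obtain ⟨h1, h2, h3, h4, h5, h6⟩ := H.half g hu hi
  exact ⟨fun m => (h1 m).trans (by norm_num), fun m => (h2 m).trans (by norm_num),
    h3.trans (by norm_num), h4.trans (by norm_num), h5.trans (by norm_num),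
    h6.trans (by norm_num)⟩

/-- same fat line -/
theorem lineC {n : ℕ} (g : W.Good n) (hu : Tight (uu W n)) {i j : ι n} (hi : i ∈ W.Cl n)
    (hj : j ∈ W.Cl n) (hl : W.lc n i = W.lc n j) (s : Fin 10) (h0 : s ≠ 0) (h2 : s ≠ 2) :
    |co4 (nI W F n i) (nI W F n j) s| ≤ W.B'.d n ^ x := by
  rw [H.co4_nI hu]
  refine (H.crd_le (H.ok.near_lc g hi hj hl) (tq s)).trans ?_
  have hS : tq s ∉ W.S := by
    rw [H.S]
    revert h0 h2
    fin_cases s <;> decide
  rw [cut_of_notMem hS]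
  have h3 : W.B'.d n ^ W.top (tq s) ≤ W.B'.d n ^ x :=
    Real.rpow_le_rpow_of_exponent_ge (W.B'.pos n) (W.B'.lt n).le (H.top _ (tq_ne s))
  have h4 : 0 < W.B'.d n ^ W.top (tq s) := Real.rpow_pos_of_pos (W.B'.pos n) _
  linarith

/-- same height -/
theorem levC {n : ℕ} (g : W.Good n) (hu : Tight (uu W n)) {i j : ι n} (hi : i ∈ W.Cl n)
    (hj : j ∈ W.Cl n) (hl : W.zc n i = W.zc n j) :
    |(nI W F n j).z - (nI W F n i).z| ≤ W.B'.d n ^ x ∧
      |(nI W F n j).fb - (nI W F n i).fb| ≤ W.B'.d n ^ x := by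
  have key : ∀ s : Fin 10, tq s ∈ W.S → |co4 (nI W F n i) (nI W F n j) s| ≤ W.B'.d n ^ x := by
    intro s hS
    rw [H.co4_nI hu]
    refine (H.crd_le (H.ok.near_zc g hi hj hl) (tq s)).trans ?_
    rw [cut_of_mem hS]
    have h3 : W.B'.d n ^ W.top (tq s) ≤ W.B'.d n ^ x :=
      Real.rpow_le_rpow_of_exponent_ge (W.B'.pos n) (W.B'.lt n).le (H.top _ (tq_ne s))
    have h4 : 0 < W.B'.d n ^ W.top (tq s) := Real.rpow_pos_of_pos (W.B'.pos n) _
    linarith
  exact ⟨key 0 (by rw [H.S]; decide), key 2 (by rw [H.S]; decide)⟩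

omit H in
/-- the line of the fat line `l` -/
noncomputable def lT (W : Wnd 11 ι) (F : ∀ n, ι n → Fq4) (n l : ℕ) : Ln4 :=
  (nI W F n (lrep W n l)).t

omit H in
/-- the axis slope of the fat line `l` -/
noncomputable def lE (W : Wnd 11 ι) (F : ∀ n, ι n → Fq4) (n l : ℕ) : ℝ :=
  (nI W F n (lrep W n l)).e

omit H in
/-- `F_a` of the incidence `(l, k)` -/
noncomputable def lfa (W : Wnd 11 ι) (F : ∀ n, ι n → Fq4) (n l k : ℕ) : ℝ :=
  (nI W F n (W.rep n l k)).fa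

omit H in
/-- `F_b` at the height `k` -/
noncomputable def lfb (W : Wnd 11 ι) (F : ∀ n, ι n → Fq4) (n k : ℕ) : ℝ :=
  (nI W F n (W.zrep n k)).fb

/-- the heights of the configuration are the normalised heights of `zrep` -/
theorem z_eq {n : ℕ} (k : ℕ) : W.crd n (W.s₀ n) (W.zrep n k) W.kz = (nI W F n (W.zrep n k)).z := by
  rw [H.kz]
  unfold Wnd.crd
  rw [H.co, coQ_st (H.str n _) (H.str n _) (by decide)]
  rfl

omit H in
/-- incidences of the configuration -/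
theorem mem_rep {n : ℕ} {E : Finset (ι n)} (hE : E ⊆ W.Cl n) {l k : ℕ}
    (hI : (l, k) ∈ (W.cfg0 n E).I) : W.rep n l k ∈ W.Cl n ∧ W.lc n (W.rep n l k) = l ∧
      W.zc n (W.rep n l k) = k := by
  unfold Wnd.cfg0 at hI
  simp only [mem_image, Prod.mk.injEq] at hI
  obtain ⟨x, hx, rfl, rfl⟩ := hI
  exact W.rep_spec (hE hx)

omit H in
theorem mem_lrep {n : ℕ} {i : ι n} (hi : i ∈ W.Cl n) {l : ℕ} (hl : W.lc n i = l) :
    lrep W n l ∈ W.Cl n ∧ W.lc n (lrep W n l) = l := by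
  subst hl
  exact lrep_spec W hi

omit H in
theorem mem_zrep {n : ℕ} {i : ι n} (hi : i ∈ W.Cl n) {k : ℕ} (hk : W.zc n i = k) :
    W.zrep n k ∈ W.Cl n ∧ W.zc n (W.zrep n k) = k := by
  subst hk
  exact W.zrep_spec hi

/-- the absolute incidence of `(l, k)` is in the unit box and close to the representative -/
theorem abs_near {n : ℕ} (g : W.Good n) (hu : Tight (uu W n)) {l k : ℕ}
    (h : W.rep n l k ∈ W.Cl n ∧ W.lc n (W.rep n l k) = l ∧ W.zc n (W.rep n l k) = k) :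
    Unit4 ⟨lT W F n l, W.crd n (W.s₀ n) (W.zrep n k) W.kz, lE W F n l, lfa W F n l k,
        lfb W F n k⟩ ∧
      Near4 (nI W F n (W.rep n l k)) ⟨lT W F n l, W.crd n (W.s₀ n) (W.zrep n k) W.kz, lE W F n l,
        lfa W F n l k, lfb W F n k⟩ (8 * W.B'.d n ^ x) := by
  obtain ⟨h1, h2, h3⟩ := h
  obtain ⟨a1, a2⟩ := mem_lrep h1 h2
  obtain ⟨b1, b2⟩ := mem_zrep h1 h3
  have hη : 0 < W.B'.d n ^ x := Real.rpow_pos_of_pos (W.B'.pos n) _
  have ul := H.unit g hu a1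
  have uz := H.unit g hu b1
  have ur := H.unit g hu h1
  rw [H.z_eq]
  obtain ⟨c1, c2, c3⟩ := line_close ur (fun s hs0 hs2 => H.lineC g hu h1 a1 (h2.trans a2.symm) s
    hs0 hs2)
  obtain ⟨d1, d2⟩ := H.levC g hu h1 b1 (h3.trans b2.symm)
  refine ⟨⟨ul.v, ul.p, uz.z, ul.e, ur.fa, uz.fb⟩, ⟨fun m => (c2 m).trans (by linarith), c3,
    d1.trans (by linarith), c1.trans (by linarith), ?_, d2.trans (by linarith)⟩⟩
  show |(nI W F n (W.rep n l k)).fa - (nI W F n (W.rep n l k)).fa| ≤ _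
  rw [sub_self, abs_zero]
  linarith

/-- **a lightlike window in absolute coordinates** -/
theorem absWin {E : ∀ n, Finset (ι n)}
    (hE : ∀ᶠ n in (U : Filter ℕ), E n ⊆ W.Cl n ∧ W.cfg E n = W.cfg0 n (E n)) (mu be : ℕ → ℝ)
    (haff : ∀ ε : ℝ, 0 < ε → ∀ᶠ n in (U : Filter ℕ), ∀ l k, (l, k) ∈ (W.cfg E n).I →
      |lfb W F n k - be n - mu n * (W.cfg E n).z k| ≤ W.B'.d n ^ (x - ε)) :
    AbsWin W.B' (W.cfg E) x (lT W F) (lE W F) (lfa W F) (lfb W F) mu be where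
  bd := by
    filter_upwards [hE, H.ok.ev_good, H.tight] with n ⟨h1, h2⟩ g hu l k hI
    rw [h2] at hI ⊢
    have hr := mem_rep h1 hI
    obtain ⟨a1, a2⟩ := mem_lrep hr.1 hr.2.1
    obtain ⟨b1, b2⟩ := mem_zrep hr.1 hr.2.2
    obtain ⟨v, p, -, e, -, -⟩ := H.half g hu a1
    obtain ⟨-, -, z, -, -, fb⟩ := H.half g hu b1
    obtain ⟨-, -, -, -, fa, -⟩ := H.half g hu hr.1
    have hz : (W.cfg0 n (E n)).z k = (nI W F n (W.zrep n k)).z := H.z_eq k
    rw [hz]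
    refine ⟨z.trans (by norm_num), fun j => ?_, fun j => (v j).trans (by norm_num),
      e.trans (by norm_num), fa.trans (by norm_num), fb.trans (by norm_num)⟩
    show |(nI W F n (lrep W n l)).t.p j +
      (nI W F n (W.zrep n k)).z * (nI W F n (lrep W n l)).t.v j| ≤ 1
    refine (abs_add_le _ _).trans ?_
    have := abs_mul_le z (v j)
    have := p j
    linarith
  bdr := by
    filter_upwards [hE, H.ok.ev_good] with n ⟨h1, h2⟩ g k i l hi hl s
    rw [h2] at hi hl ⊢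
    have ri := mem_rep h1 hi
    have rl := mem_rep h1 hl
    show |if s ∈ W.S then (0 : ℝ) else W.crd n (W.rep n i k) (W.rep n l k) s| ≤ 1
    split_ifs
    · simp
    · have := H.crd_le (H.ok.near0 g ri.1 rl.1) s
      rw [Pi.zero_apply, Real.rpow_zero] at this
      linarith
  rel := by
    intro ε hε
    filter_upwards [hE, H.ok.ev_good, H.tight, ev_const_le W.B' hε 240] with n ⟨h1, h2⟩ g hu hc
      k i l hi hl s hs
    rw [h2] at hi hl ⊢
    have ri := mem_rep h1 hi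
    have rl := mem_rep h1 hl
    obtain ⟨ui, ni⟩ := H.abs_near g hu ri
    obtain ⟨ul, nl⟩ := H.abs_near g hu rl
    have hS : s ∉ W.S := by
      rw [H.S]
      revert hs
      fin_cases s <;> decide
    have e1 : (W.cfg0 n (E n)).rel k i l s = co4 (nI W F n (W.rep n i k)) (nI W F n (W.rep n l k))
        (s4 s) := by
      rw [H.co4_nI hu, tq_s4 hs]
      show (if s ∈ W.S then (0 : ℝ) else W.crd n (W.rep n i k) (W.rep n l k) s) = _
      rw [if_neg hS]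
    rw [e1, coA_eq _ _ _ _ _ _ _ _ hs, abs_sub_comm]
    refine (co4_lip (H.unit g hu ri.1) ui (H.unit g hu rl.1) ul ni nl (s4 s)).trans ?_
    have e2 : W.B'.d n ^ (x - ε) = W.B'.d n ^ x * W.B'.d n ^ (-ε) := by
      rw [← Real.rpow_add (W.B'.pos n)]
      rfl
    rw [e2]
    have hη : 0 < W.B'.d n ^ x := Real.rpow_pos_of_pos (W.B'.pos n) _
    have := mul_le_mul_of_nonneg_left hc hη.le
    linarith
  own := by
    intro ε hε
    filter_upwards [hE, H.ok.ev_good, H.tight, ev_const_le W.B' hε 50] with n ⟨h1, h2⟩ g hu hc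
      l k k' hk hk'
    rw [h2] at hk hk'
    have rk := mem_rep h1 hk
    have rk' := mem_rep h1 hk'
    obtain ⟨uk, nk⟩ := H.abs_near g hu rk
    obtain ⟨uk', nk'⟩ := H.abs_near g hu rk'
    have hη : 0 < W.B'.d n ^ x := Real.rpow_pos_of_pos (W.B'.pos n) _
    have h3 : |((nI W F n (W.rep n l k')).fa - (nI W F n (W.rep n l k)).fa) +
        (nI W F n (W.rep n l k)).e * ((nI W F n (W.rep n l k')).fb -
          (nI W F n (W.rep n l k)).fb)| ≤ W.B'.d n ^ x :=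
      H.lineC g hu rk.1 rk'.1 (rk.2.1.trans rk'.2.1.symm) 3 (by decide) (by decide)
    have a1 : |lE W F n l - (nI W F n (W.rep n l k)).e| ≤ 8 * W.B'.d n ^ x := nk.e
    have a2 : |lfb W F n k - (nI W F n (W.rep n l k)).fb| ≤ 8 * W.B'.d n ^ x := nk.fb
    have a3 : |lfb W F n k' - (nI W F n (W.rep n l k')).fb| ≤ 8 * W.B'.d n ^ x := nk'.fb
    have b1 : |lfb W F n k' - lfb W F n k| ≤ 1 + 1 := sub_bd uk'.fb uk.fb
    have b2 := (H.unit g hu rk.1).e
    have c1 := abs_mul_le a1 b1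
    have c2 := abs_mul_le b2 (sub_lip a3 a2)
    have e : lfa W F n l k' - lfa W F n l k + lE W F n l * (lfb W F n k' - lfb W F n k) =
        (((nI W F n (W.rep n l k')).fa - (nI W F n (W.rep n l k)).fa) +
        (nI W F n (W.rep n l k)).e * ((nI W F n (W.rep n l k')).fb -
          (nI W F n (W.rep n l k)).fb)) +
        (lE W F n l - (nI W F n (W.rep n l k)).e) * (lfb W F n k' - lfb W F n k) +
        (nI W F n (W.rep n l k)).e * ((lfb W F n k' - lfb W F n k) -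
          ((nI W F n (W.rep n l k')).fb - (nI W F n (W.rep n l k)).fb)) := by
      unfold lfa; ring
    rw [e]
    refine (abs_add_three _ _ _).trans ?_
    have e2 : W.B'.d n ^ (x - ε) = W.B'.d n ^ x * W.B'.d n ^ (-ε) := by
      rw [← Real.rpow_add (W.B'.pos n)]
      rfl
    rw [e2]
    have := mul_le_mul_of_nonneg_left hc hη.le
    linarith
  aff := haff

end LWin

end Crest.Agent.R136.Wk323
end

-- ▼ part R136/WkH3_626
section

/-!
# R136 (S0187): RIG wrapper: the exponent vectors of `RigProf` are legal in a lightlike window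
(helper626)
-/

set_option autoImplicit false
set_option linter.unusedSectionVars false
set_option linter.unusedVariables false

open Filter Topology

namespace Crest.Agent.R136.Wk323

open Finset
open Crest.Agent.R136.Sh605
open Crest.Agent.R136.Net186
open Crest.Agent.R136.NetQ186
open Crest.Agent.R136.Qg926
open Crest.Agent.R136.Net191
open Crest.Agent.R138.Ex926 (Base U)
open Crest.Agent.R136.Gf356

variable {ι : ℕ → Type*} [∀ n, DecidableEq (ι n)]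

namespace LWin

variable {W : Wnd 11 ι} {F : ∀ n, ι n → Fq4} {x : ℝ} (H : LWin W F x)

include H

/-- **legality in the window**: level slots at `top`, so only the walls without level slots count -/
theorem mem_legW (hMw : ∀ k, W.Mw.mon k ⊆ mfQ k) {p : Fin 11 → ℝ} (h0 : ∀ s, 0 ≤ p s)
    (hx : ∀ s, p s ≤ x) (h1 : p 1 = 0) (w6 : p 6 ≤ p 2 + p 5) (w7 : p 7 ≤ p 4 + p 5)
    (w9 : p 9 ≤ p 2 + p 8) (w10 : p 10 ≤ p 4 + p 8) : p ∈ W.legW := by
  have htop : ∀ s, 0 ≤ W.top s := fun s => H.ok.top_leg.1.nonneg s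
  have hle : ∀ s, p s ≤ W.top s := by
    intro s
    by_cases hs : s = 1
    · rw [hs, h1]; exact htop 1
    · exact (hx s).trans (H.top s hs)
  have hin : ∀ s, s = 0 ∨ s = 3 → cut W.S p W.top s = W.top s := by
    intro s hs
    apply cut_of_mem
    rw [H.S]
    rcases hs with rfl | rfl <;> decide
  have hout : ∀ s, s ≠ 0 → s ≠ 3 → cut W.S p W.top s = p s := by
    intro s hs hs'
    apply cut_of_notMem
    rw [H.S]
    simp [hs, hs']
  have c0 := hin 0 (Or.inl rfl)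
  have c3 := hin 3 (Or.inr rfl)
  have c1 := hout 1 (by decide) (by decide)
  have c2 := hout 2 (by decide) (by decide)
  have c4 := hout 4 (by decide) (by decide)
  have c5 := hout 5 (by decide) (by decide)
  have c6 := hout 6 (by decide) (by decide)
  have c7 := hout 7 (by decide) (by decide)
  have c8 := hout 8 (by decide) (by decide)
  have c9 := hout 9 (by decide) (by decide)
  have c10 := hout 10 (by decide) (by decide)
  have t0 : x ≤ W.top 0 := H.top 0 (by decide)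
  have t3 : x ≤ W.top 3 := H.top 3 (by decide)
  have hleg : Legal monQ (cut W.S p W.top) := by
    rw [legalQ_iff, c0, c1, c2, c3, c4, c5, c6, c7, c8, c9, c10]
    refine ⟨?_, ?_, w6, ?_, w7, ?_, ?_, ?_, w9, ?_, w10, ?_⟩
    · intro k
      by_cases hk : k ∈ W.S
      · rw [cut_of_mem hk]; exact htop k
      · rw [cut_of_notMem hk]; exact h0 k
    · linarith [hx 4, h0 2]
    · linarith [hx 7, h0 1]
    · linarith [hx 7, h0 6]
    · linarith [hx 8, h0 5]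
    · linarith [hx 9, h0 6]
    · linarith [hx 10, h0 7]
    · linarith [hx 10, h0 9]
  refine ⟨⟨⟨hleg.nonneg, fun k e he => hleg.wall k e (hMw k he)⟩, fun k => ?_⟩, fun s _ => hle s⟩
  by_cases hk : k ∈ W.S
  · rw [cut_of_mem hk]; exact H.ok.top_leg.2 k
  · rw [cut_of_notMem hk]; exact (hle k).trans (H.ok.top_leg.2 k)

theorem vec_mem (hMw : ∀ k, W.Mw.mon k ⊆ mfQ k) {Fs : Finset (Fin 11)} {y : ℝ} (hy : 0 ≤ y)
    (hyx : y ≤ x) (h1 : (1 : Fin 11) ∉ Fs) (w6 : 6 ∈ Fs → 2 ∈ Fs ∨ 5 ∈ Fs)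
    (w7 : 7 ∈ Fs → 4 ∈ Fs ∨ 5 ∈ Fs) (w9 : 9 ∈ Fs → 2 ∈ Fs ∨ 8 ∈ Fs)
    (w10 : 10 ∈ Fs → 4 ∈ Fs ∨ 8 ∈ Fs) : vec Fs y ∈ W.legW := by
  have h0 : ∀ s, 0 ≤ vec Fs y s := fun s => by unfold vec; split_ifs <;> linarith
  have key : ∀ (a b c : Fin 11), (a ∈ Fs → b ∈ Fs ∨ c ∈ Fs) →
      vec Fs y a ≤ vec Fs y b + vec Fs y c := by
    intro a b c h
    by_cases ha : a ∈ Fs
    · have ea : vec Fs y a = y := if_pos ha
      rcases h ha with hb | hc
      · have eb : vec Fs y b = y := if_pos hb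
        rw [ea, eb]
        linarith [h0 c]
      · have ec : vec Fs y c = y := if_pos hc
        rw [ea, ec]
        linarith [h0 b]
    · have ea : vec Fs y a = 0 := if_neg ha
      rw [ea]
      linarith [h0 b, h0 c]
  refine H.mem_legW hMw h0 (fun s => ?_) (if_neg h1) (key _ _ _ w6) (key _ _ _ w7) (key _ _ _ w9)
    (key _ _ _ w10)
  unfold vec
  split_ifs <;> linarith [H.x0]

theorem qv_mem (hMw : ∀ k, W.Mw.mon k ⊆ mfQ k) {y : ℝ} (hy : 0 ≤ y) (hyx : y ≤ x) :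
    qv x y ∈ W.legW := by
  have hx := H.x0
  refine H.mem_legW hMw (fun s => ?_) (fun s => ?_) ?_ ?_ ?_ ?_ ?_
  · unfold qv; split_ifs <;> linarith
  · unfold qv; split_ifs <;> linarith
  · simp [qv]
  · simp [qv]
  · simp [qv]
  · simp [qv]
  · simp [qv, hyx]

/-- **the profile hypotheses of the RIG wrapper in a lightlike window** -/
theorem rigProf (hMw : ∀ k, W.Mw.mon k ⊆ mfQ k) (hx : 0 < x) {a m : ℝ} (a0 : 0 ≤ a) (a1 : a < 1)
    (m0 : 0 < m)
    (dec : W.nu 0 + W.nu (vec fAll x) ≤ W.nu (vec fPos x) + W.nu (vec fDir x))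
    (fib : ∀ y, 0 ≤ y → y ≤ x → W.nu (qv x y) - W.nu (qv x x) ≤ a * (x - y))
    (conc : ∀ y, 0 ≤ y → y ≤ x → m * y ≤ W.nu 0 - W.nu (vec {5} y)) :
    RigProf W.legW W.nu x a m where
  x0 := hx
  a0 := a0
  a1 := a1
  m0 := m0
  zero := by
    refine H.mem_legW hMw (fun _ => le_rfl) (fun _ => hx.le) rfl ?_ ?_ ?_ ?_ <;> simp
  all := H.vec_mem hMw hx.le le_rfl (by decide) (by decide) (by decide) (by decide) (by decide)
  pos := H.vec_mem hMw hx.le le_rfl (by decide) (by decide) (by decide) (by decide) (by decide)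
  dir := H.vec_mem hMw hx.le le_rfl (by decide) (by decide) (by decide) (by decide) (by decide)
  q := fun y hy hyx => H.qv_mem hMw hy hyx
  c := fun y hy hyx =>
    H.vec_mem hMw hy hyx (by decide) (by decide) (by decide) (by decide) (by decide)
  dec := dec
  fib := fib
  conc := conc

end LWin

end Crest.Agent.R136.Wk323
end

-- ▼ part R136/WkH4_626

/-!
# R136 (S0187): RIG wrapper: from a zoom window to incidences (helper626)

* `stR`, `stR_ok` : static data of the RIG window (level slots `{0, 3}`, resolution `x`).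
* `lwin_of_ok` : 926's window with these data is an `LWin`.
* `lines_pull` : a `ρ^ε`-part of the fat lines gives a `ρ^(4ε)`-part of the incidences.
* `LWin.rig_inc` : **conclusion of `RigWin` on incidences of the class** (the relation which 66's
  gauge stage consumes).
-/

set_option autoImplicit false
set_option linter.unusedSectionVars false
set_option linter.unusedVariables false

open Filter Topology

namespace Crest.Agent.R136.Wk323

open Finset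
open Crest.Agent.R136.Sh605
open Crest.Agent.R136.Net186
open Crest.Agent.R136.NetQ186
open Crest.Agent.R136.Qg926
open Crest.Agent.R136.Net191
open Crest.Agent.R138.Ex926 (Base U cls)
open Crest.Agent.R136.Gf356

/-! ### static data -/

/-- weights of the constants: multiplicative on the tight walls -/
def wtR : Fin 11 → ℕ := ![1, 2, 1, 1, 2, 1, 2, 3, 2, 3, 4]

theorem wtR_ne (s : Fin 11) : wtR s ≠ 0 := by fin_cases s <;> decide

/-- static data of the RIG window -/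
noncomputable def stR (κ x R' : ℝ) (Mw : Mons 11) : WSt 11 where
  S := {0, 3}
  kz := 0
  top := fun _ => x
  kap := fun s => κ ^ wtR s
  Mw := Mw
  R' := R'

theorem stR_ok {κ x R' : ℝ} {Mw M : Mons 11} {D : Set (Fin 11 → ℝ)} (hκ : 0 < κ) (hx : 0 ≤ x)
    (hxR : x ≤ R') (hMw : ∀ k, Mw.mon k ⊆ mfQ k) (hM0 : M.mon 0 = ∅) (hD : Leg Mw R' ⊆ D) :
    (stR κ x R' Mw).Ok M D where
  R0 := hx.trans hxR
  leg := hD
  top_leg := by
    refine ⟨⟨fun _ => hx, fun k e he => ?_⟩, fun _ => hxR⟩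
    exact (show Legal monQ (fun _ => x) from by
      rw [legalQ_iff]
      refine ⟨fun _ => hx, ?_, ?_, ?_, ?_, ?_, ?_, ?_, ?_, ?_, ?_, ?_⟩ <;> linarith).wall k e
        (hMw k he)
  lin_leg := by
    have hleg : Legal monQ (cut ({0, 3} : Finset (Fin 11)) (fun _ => x) 0) := by
      rw [legalQ_iff]
      have hc : ∀ s : Fin 11, cut ({0, 3} : Finset (Fin 11)) (fun _ => x) (0 : Fin 11 → ℝ) s =
          if s ∈ ({0, 3} : Finset (Fin 11)) then 0 else x := fun s => by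
        unfold cut; split_ifs <;> simp
      have h0 : ∀ s : Fin 11, 0 ≤ cut ({0, 3} : Finset (Fin 11)) (fun _ => x) (0 : Fin 11 → ℝ) s :=
        fun s => by rw [hc]; split_ifs <;> linarith
      simp only [hc] at h0 ⊢
      refine ⟨h0, ?_, ?_, ?_, ?_, ?_, ?_, ?_, ?_, ?_, ?_, ?_⟩ <;> simp [hx]
    refine ⟨⟨hleg.nonneg, fun k e he => hleg.wall k e (hMw k he)⟩, fun s => ?_⟩
    unfold cut stR
    split_ifs
    · exact hx.trans hxR
    · exact hxR
  lev_leg := by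
    have hleg : Legal monQ (cut ({0, 3} : Finset (Fin 11)) 0 (fun _ => x)) := by
      rw [legalQ_iff]
      have hc : ∀ s : Fin 11, cut ({0, 3} : Finset (Fin 11)) (0 : Fin 11 → ℝ) (fun _ => x) s =
          if s ∈ ({0, 3} : Finset (Fin 11)) then x else 0 := fun s => by
        unfold cut; split_ifs <;> simp
      have h0 : ∀ s : Fin 11, 0 ≤ cut ({0, 3} : Finset (Fin 11)) (0 : Fin 11 → ℝ) (fun _ => x) s :=
        fun s => by rw [hc]; split_ifs <;> linarith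
      simp only [hc] at h0 ⊢
      refine ⟨h0, ?_, ?_, ?_, ?_, ?_, ?_, ?_, ?_, ?_, ?_, ?_⟩ <;> simp [hx]
    refine ⟨⟨hleg.nonneg, fun k e he => hleg.wall k e (hMw k he)⟩, fun s => ?_⟩
    unfold cut stR
    split_ifs
    · exact hxR
    · exact hx.trans hxR
  kzS := by simp [stR]
  kz0 := hM0
  kzw := by
    have h1 := hMw 0
    have h2 : mfQ 0 = ∅ := by decide
    rw [h2] at h1
    exact subset_empty.1 h1
  kap := fun s => pow_pos hκ _

/-- tight exponents -/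
structure TightX (X : Fin 11 → ℝ) : Prop where
  w4 : X 4 = X 2 + X 3
  w6 : X 6 = X 2 + X 5
  w7 : X 7 = X 2 + X 3 + X 5
  w8 : X 8 = X 0 + X 5
  w9 : X 9 = X 0 + X 2 + X 5
  w10 : X 10 = X 0 + X 2 + X 3 + X 5

/-- tight exponents give tight units -/
theorem tight_units {κ d : ℝ} (hκ : 0 < κ) (hd : 0 < d) {X : Fin 11 → ℝ} (h : TightX X) :
    Tight (fun s : Fin 10 => κ ^ wtR (tq s) * d ^ X (tq s)) where
  pos := fun s => mul_pos (pow_pos hκ _) (Real.rpow_pos_of_pos hd _)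
  w3 := by
    show κ ^ wtR 4 * d ^ X 4 = (κ ^ wtR 2 * d ^ X 2) * (κ ^ wtR 3 * d ^ X 3)
    rw [h.w4, Real.rpow_add hd]
    simp only [wtR, Matrix.cons_val]
    ring
  w5 := by
    show κ ^ wtR 6 * d ^ X 6 = (κ ^ wtR 2 * d ^ X 2) * (κ ^ wtR 5 * d ^ X 5)
    rw [h.w6, Real.rpow_add hd]
    simp only [wtR, Matrix.cons_val]
    ring
  w6 := by
    show κ ^ wtR 7 * d ^ X 7 = (κ ^ wtR 2 * d ^ X 2) * (κ ^ wtR 3 * d ^ X 3) *
      (κ ^ wtR 5 * d ^ X 5)
    rw [h.w7, Real.rpow_add hd, Real.rpow_add hd]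
    simp only [wtR, Matrix.cons_val]
    ring
  w7 := by
    show κ ^ wtR 8 * d ^ X 8 = (κ ^ wtR 0 * d ^ X 0) * (κ ^ wtR 5 * d ^ X 5)
    rw [h.w8, Real.rpow_add hd]
    simp only [wtR, Matrix.cons_val]
    ring
  w8 := by
    show κ ^ wtR 9 * d ^ X 9 = (κ ^ wtR 0 * d ^ X 0) * (κ ^ wtR 2 * d ^ X 2) *
      (κ ^ wtR 5 * d ^ X 5)
    rw [h.w9, Real.rpow_add hd, Real.rpow_add hd]
    simp only [wtR, Matrix.cons_val]
    ring
  w9 := by
    show κ ^ wtR 10 * d ^ X 10 = (κ ^ wtR 0 * d ^ X 0) * (κ ^ wtR 2 * d ^ X 2) *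
      (κ ^ wtR 3 * d ^ X 3) * (κ ^ wtR 5 * d ^ X 5)
    rw [h.w10, Real.rpow_add hd, Real.rpow_add hd, Real.rpow_add hd]
    simp only [wtR, Matrix.cons_val]
    ring

section

variable {ι : ℕ → Type*} [∀ n, DecidableEq (ι n)] {B B' : Base} {I J : ∀ n, Finset (ι n)}
  {co : ∀ n, ι n → ι n → Fin 11 → ℝ} {M : Mons 11} {C : ℝ} {X : ℕ → Fin 11 → ℝ} {w : ℕ → ℝ}
  {D : Set (Fin 11 → ℝ)} {T : ℕ → ℝ} {lam : (Fin 11 → ℝ) → ℝ} {Cl : ∀ n, Finset (ι n)}
  {s₀ : ∀ n, ι n} {κ x R' : ℝ} {Mw : Mons 11}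


end

/-! ### from fat lines to incidences -/

section

open Wnd

variable {ι : ℕ → Type*} [∀ n, DecidableEq (ι n)] {m : ℕ} {W : Wnd m ι}
  {E E' : ∀ n, Finset (ι n)} {Mu g : ℕ → ℝ} {ex : ℕ → ∀ n, ι n → ℕ}

/-- **popular fat lines carry many incidences** -/
theorem lines_pull (h : W.Ok) (hE : EOk W E Mu) (hP : Pruned W E E' g ex)
    (hdens : W.lam W.top ≤ W.lam (cut W.S W.top 0) + W.lam (cut W.S 0 W.top)) {ε : ℝ}
    (hε : 0 < ε) : ∀ᶠ n in (U : Filter ℕ), ∀ L' ⊆ (W.cfg E' n).L,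
      W.B'.d n ^ ε * ((W.cfg E' n).L.card : ℝ) ≤ (L'.card : ℝ) →
      W.B'.d n ^ (4 * ε) * ((E n).card : ℝ) ≤
        (((E' n).filter fun i => W.lc n i ∈ L').card : ℝ) := by
  filter_upwards [ev_cfg h hE hP, ev_slice h hE hP hdens hε, h.card_lc_le hε, hP.gsub ε hε] with
    n ⟨g1, h1, h2, h3⟩ h4 h5 h6 L' hL' hcard
  rw [h3] at hL' hcard
  have hpos : ∀ t : ℝ, 0 < W.B'.d n ^ t := fun t => Real.rpow_pos_of_pos (W.B'.pos n) t
  obtain ⟨i0, hi0⟩ := h2
  set a := W.lam (cut W.S W.top 0) with ha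
  -- number of fat lines, from below
  have c1 : W.B'.d n ^ (a + ε) ≤ (((W.cfg0 n (E' n)).L).card : ℝ) := by
    refine (h4 (W.zc n i0) (mem_image_of_mem _ hi0)).trans ?_
    refine Nat.cast_le.2 (card_le_card fun l hl => ?_)
    obtain ⟨y, hy, rfl, -⟩ := cfg0_slice.1 hl
    exact mem_image_of_mem _ hy
  -- incidences of one fat line, from below
  have c2 : ∀ l ∈ L', ((E n).card : ℝ) * W.B'.d n ^ (2 * ε - a) ≤
      ((((E' n).filter fun i => W.lc n i ∈ L').filter fun i => W.lc n i = l).card : ℝ) := by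
    intro l hl
    obtain ⟨y, hy, rfl⟩ := mem_image.1 (hL' hl)
    have d1 := hP.lines n y hy
    have d2 := h5 (E n) h1
    have e : ((E' n).filter fun i => W.lc n i ∈ L').filter (fun i => W.lc n i = W.lc n y) =
        Crest.Agent.R138.Ex926.cls (E' n) (W.lc n) y := by
      ext i
      rw [mem_filter, mem_filter, Crest.Agent.R138.Ex926.mem_cls]
      constructor
      · rintro ⟨⟨a1, a2⟩, a3⟩; exact ⟨a1, a3⟩
      · rintro ⟨a1, a3⟩; exact ⟨⟨a1, by rw [a3]; exact hl⟩, a3⟩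
    rw [e]
    set H : ℝ := ((Crest.Agent.R138.Ex926.cls (E' n) (W.lc n) y).card : ℝ) with hH
    have hH0 : 0 ≤ H := Nat.cast_nonneg _
    have d3 : ((E n).card : ℝ) ≤ W.B'.d n ^ (a - 2 * ε) * H := by
      refine d1.trans ?_
      have e1 : W.B'.d n ^ (a - 2 * ε) = W.B'.d n ^ (-ε) * W.B'.d n ^ (a - ε) := by
        rw [← Real.rpow_add (W.B'.pos n)]; congr 1; ring
      rw [e1]
      refine mul_le_mul_of_nonneg_right ?_ hH0
      exact mul_le_mul h6 d2 (Nat.cast_nonneg _) (hpos _).le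
    calc ((E n).card : ℝ) * W.B'.d n ^ (2 * ε - a)
        ≤ (W.B'.d n ^ (a - 2 * ε) * H) * W.B'.d n ^ (2 * ε - a) :=
          mul_le_mul_of_nonneg_right d3 (hpos _).le
      _ = (W.B'.d n ^ (a - 2 * ε) * W.B'.d n ^ (2 * ε - a)) * H := by ring
      _ = H := by
          rw [← Real.rpow_add (W.B'.pos n)]
          simp
  have c3 : (L'.card : ℝ) * (((E n).card : ℝ) * W.B'.d n ^ (2 * ε - a)) ≤
      (((E' n).filter fun i => W.lc n i ∈ L').card : ℝ) := by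
    have d1 : ((E' n).filter fun i => W.lc n i ∈ L').card =
        ∑ l ∈ L', (((E' n).filter fun i => W.lc n i ∈ L').filter fun i => W.lc n i = l).card :=
      card_eq_sum_card_fiberwise fun i hi => (mem_filter.1 hi).2
    rw [d1, Nat.cast_sum, ← nsmul_eq_mul, ← sum_const]
    exact sum_le_sum c2
  refine le_trans ?_ c3
  have hE0 : (0 : ℝ) ≤ (E n).card := Nat.cast_nonneg _
  calc W.B'.d n ^ (4 * ε) * ((E n).card : ℝ)
      = (W.B'.d n ^ ε * W.B'.d n ^ (a + ε)) * (((E n).card : ℝ) * W.B'.d n ^ (2 * ε - a)) := by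
        have e1 : W.B'.d n ^ (4 * ε) = W.B'.d n ^ ε * W.B'.d n ^ (a + ε) *
            W.B'.d n ^ (2 * ε - a) := by
          rw [← Real.rpow_add (W.B'.pos n), ← Real.rpow_add (W.B'.pos n)]; congr 1; ring
        rw [e1]; ring
    _ ≤ (W.B'.d n ^ ε * ((W.cfg0 n (E' n)).L.card : ℝ)) *
        (((E n).card : ℝ) * W.B'.d n ^ (2 * ε - a)) := by
        have := hpos ε
        have := hpos (2 * ε - a)
        gcongr
    _ ≤ (L'.card : ℝ) * (((E n).card : ℝ) * W.B'.d n ^ (2 * ε - a)) :=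
        mul_le_mul_of_nonneg_right hcard (mul_nonneg hE0 (hpos _).le)

end

/-! ### rigidity on incidences -/

section

open Wnd

variable {ι : ℕ → Type*} [∀ n, DecidableEq (ι n)]

/-- the relation of a rigid lightlike class: the axis slope (slot `2`) and the direction `C_b`
(slot `6`) are an affine and a quadratic function of `C_a` (slot `5`), up to `ρ^(x-ε)` -/
def RigRel (W : Wnd 11 ι) (n : ℕ) (x ε : ℝ) (G' : Finset (ι n)) : Prop :=
  ∃ s0 c0 C0 E0 : ℝ, |s0| ≤ W.B'.d n ^ (-ε) ∧ |c0| ≤ 1 ∧ |C0| ≤ 1 ∧ |E0| ≤ 1 ∧ ∀ y ∈ G',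
    |W.crd n (W.s₀ n) y 2 - (E0 - s0 * (W.crd n (W.s₀ n) y 5 - c0))| ≤ W.B'.d n ^ (x - ε) ∧
    |W.crd n (W.s₀ n) y 6 - (C0 + E0 * (W.crd n (W.s₀ n) y 5 - c0) -
      s0 * (W.crd n (W.s₀ n) y 5 - c0) ^ 2 / 2)| ≤ W.B'.d n ^ (x - ε)

theorem RigRel.mono {W : Wnd 11 ι} {n : ℕ} {x ε : ℝ} {G G' : Finset (ι n)} (h : G' ⊆ G)
    (hG : RigRel W n x ε G) : RigRel W n x ε G' := by
  obtain ⟨s0, c0, C0, E0, h1, h2, h3, h4, h5⟩ := hG
  exact ⟨s0, c0, C0, E0, h1, h2, h3, h4, fun y hy => h5 y (h hy)⟩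

theorem RigRel.mono_eps {W : Wnd 11 ι} {n : ℕ} {x ε ε' : ℝ} {G : Finset (ι n)} (h : ε ≤ ε')
    (hG : RigRel W n x ε G) : RigRel W n x ε' G := by
  obtain ⟨s0, c0, C0, E0, h1, h2, h3, h4, h5⟩ := hG
  have e1 : W.B'.d n ^ (x - ε) ≤ W.B'.d n ^ (x - ε') :=
    Real.rpow_le_rpow_of_exponent_ge (W.B'.pos n) (W.B'.lt n).le (by linarith)
  have e2 : W.B'.d n ^ (-ε) ≤ W.B'.d n ^ (-ε') :=
    Real.rpow_le_rpow_of_exponent_ge (W.B'.pos n) (W.B'.lt n).le (by linarith)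
  exact ⟨s0, c0, C0, E0, h1.trans e2, h2, h3, h4, fun y hy =>
    ⟨(h5 y hy).1.trans e1, (h5 y hy).2.trans e1⟩⟩

namespace LWin

variable {W : Wnd 11 ι} {F : ∀ n, ι n → Fq4} {x : ℝ} (H : LWin W F x)

include H

/-- coordinates in the frame of the base incidence -/
theorem crd_eq {n : ℕ} (y : ι n) (s : Fin 10) :
    W.crd n (W.s₀ n) y (tq s) = co4 (st (F n (W.s₀ n))) (st (F n y)) s / uu W n s := by
  unfold Wnd.crd
  rw [H.co, coQ_st (H.str n _) (H.str n y) (tq_ne s), s4_tq]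
  rfl

theorem nI_z {n : ℕ} (y : ι n) : (nI W F n y).z = W.crd n (W.s₀ n) y 0 := (H.crd_eq y 0).symm
theorem nI_e {n : ℕ} (y : ι n) : (nI W F n y).e = W.crd n (W.s₀ n) y 2 := (H.crd_eq y 1).symm
theorem nI_fb {n : ℕ} (y : ι n) : (nI W F n y).fb = W.crd n (W.s₀ n) y 3 := (H.crd_eq y 2).symm
theorem nI_v1 {n : ℕ} (y : ι n) : (nI W F n y).t.v 1 = W.crd n (W.s₀ n) y 5 :=
  (H.crd_eq y 4).symm
theorem nI_v2 {n : ℕ} (y : ι n) : (nI W F n y).t.v 2 = W.crd n (W.s₀ n) y 6 :=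
  (H.crd_eq y 5).symm

/-- an affine relation for the flags `F_b` on the class, in the frame of `s₀`, is the field `aff` -/
theorem aff_of {E E' : ∀ n, Finset (ι n)} (hsub : ∀ n, E' n ⊆ E n)
    (hE : ∀ᶠ n in (U : Filter ℕ), E' n ⊆ W.Cl n ∧ W.cfg E' n = W.cfg0 n (E' n)) {mu be : ℕ → ℝ}
    (hmu : ∀ ε : ℝ, 0 < ε → ∀ᶠ n in (U : Filter ℕ), |mu n| ≤ W.B'.d n ^ (-ε))
    (haff : ∀ ε : ℝ, 0 < ε → ∀ᶠ n in (U : Filter ℕ), ∀ y ∈ E n,
      |W.crd n (W.s₀ n) y 3 - be n - mu n * W.crd n (W.s₀ n) y 0| ≤ W.B'.d n ^ (x - ε)) :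
    ∀ ε : ℝ, 0 < ε → ∀ᶠ n in (U : Filter ℕ), ∀ l k, (l, k) ∈ (W.cfg E' n).I →
      |lfb W F n k - be n - mu n * (W.cfg E' n).z k| ≤ W.B'.d n ^ (x - ε) := by
  intro ε hε
  have hε2 : 0 < ε / 2 := by positivity
  filter_upwards [hE, H.ok.ev_good, H.tight, hmu _ hε2, haff _ hε2, ev_const_le W.B' hε2 3] with
    n ⟨h1, h2⟩ g hu h3 h4 hc l k hI
  rw [h2] at hI ⊢
  obtain ⟨y, hy, rfl, rfl⟩ := mem_I.1 hI
  have hpos : ∀ t : ℝ, 0 < W.B'.d n ^ t := fun t => Real.rpow_pos_of_pos (W.B'.pos n) t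
  have hyc := h1 hy
  obtain ⟨b1, b2⟩ := mem_zrep hyc rfl
  obtain ⟨d1, d2⟩ := H.levC g hu hyc b1 b2.symm
  have h5 := h4 y (hsub n hy)
  rw [← H.nI_fb, ← H.nI_z] at h5
  have hz : (W.cfg0 n (E' n)).z (W.zc n y) = (nI W F n (W.zrep n (W.zc n y))).z := H.z_eq _
  rw [hz]
  have hm := abs_mul_le h3 d1
  have e : lfb W F n (W.zc n y) - be n - mu n * (nI W F n (W.zrep n (W.zc n y))).z =
      ((nI W F n y).fb - be n - mu n * (nI W F n y).z) +
      ((nI W F n (W.zrep n (W.zc n y))).fb - (nI W F n y).fb) -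
      mu n * ((nI W F n (W.zrep n (W.zc n y))).z - (nI W F n y).z) := by
    unfold lfb; ring
  rw [e]
  have k1 := abs_sub ((((nI W F n y).fb - be n - mu n * (nI W F n y).z) +
      ((nI W F n (W.zrep n (W.zc n y))).fb - (nI W F n y).fb)))
      (mu n * ((nI W F n (W.zrep n (W.zc n y))).z - (nI W F n y).z))
  have k2 := abs_add_le ((nI W F n y).fb - be n - mu n * (nI W F n y).z)
      ((nI W F n (W.zrep n (W.zc n y))).fb - (nI W F n y).fb)
  have e2 : W.B'.d n ^ (x - ε / 2) = W.B'.d n ^ (-(ε / 2)) * W.B'.d n ^ x := by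
    rw [← Real.rpow_add (W.B'.pos n)]; congr 1; ring
  have e3 : W.B'.d n ^ (x - ε) = W.B'.d n ^ (-(ε / 2)) * W.B'.d n ^ (x - ε / 2) := by
    rw [← Real.rpow_add (W.B'.pos n)]; congr 1; ring
  have e4 : W.B'.d n ^ x ≤ W.B'.d n ^ (x - ε / 2) :=
    Real.rpow_le_rpow_of_exponent_ge (W.B'.pos n) (W.B'.lt n).le (by linarith)
  have e5 := mul_le_mul_of_nonneg_right hc (hpos (x - ε / 2)).le
  rw [e3]
  rw [← e2] at hm
  linarith

/-- **rigidity on incidences** of a lightlike window -/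
theorem rig_inc (hRig : RigWin) (hMw : ∀ k, W.Mw.mon k ⊆ mfQ k) (hx : 0 < x) {a m : ℝ}
    (a0 : 0 ≤ a) (a1 : a < 1) (m0 : 0 < m)
    (dec : W.nu 0 + W.nu (vec fAll x) ≤ W.nu (vec fPos x) + W.nu (vec fDir x))
    (fib : ∀ y, 0 ≤ y → y ≤ x → W.nu (qv x y) - W.nu (qv x x) ≤ a * (x - y))
    (conc : ∀ y, 0 ≤ y → y ≤ x → m * y ≤ W.nu 0 - W.nu (vec {5} y))
    (hdens : W.lam W.top ≤ W.lam (cut W.S W.top 0) + W.lam (cut W.S 0 W.top))
    (hfrost : ∀ y, 0 ≤ y → y ≤ x → W.lam (Pi.single W.kz y) ≤ -y)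
    {E : ∀ n, Finset (ι n)} {Mu : ℕ → ℝ} (hE : EOk W E Mu) (mu be : ℕ → ℝ)
    (hmu : ∀ ε : ℝ, 0 < ε → ∀ᶠ n in (U : Filter ℕ),
      W.B'.d n ^ ε ≤ |mu n| ∧ |mu n| ≤ W.B'.d n ^ (-ε))
    (haff : ∀ ε : ℝ, 0 < ε → ∀ᶠ n in (U : Filter ℕ), ∀ y ∈ E n,
      |W.crd n (W.s₀ n) y 3 - be n - mu n * W.crd n (W.s₀ n) y 0| ≤ W.B'.d n ^ (x - ε)) :
    ∀ ε : ℝ, 0 < ε → ∀ᶠ n in (U : Filter ℕ), ∃ G' ⊆ E n,
      W.B'.d n ^ ε * ((E n).card : ℝ) ≤ (G'.card : ℝ) ∧ RigRel W n x ε G' := by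
  obtain ⟨E', g, hP, -, hM⟩ := hE.exists_model H.ok (fun _ _ _ => 0) (g₀ := fun n => (n : ℝ))
    (tendsto_natCast_atTop_atTop.mono_left Crest.Agent.R138.Ex926.U_le_atTop) hdens (σ := 1) (R := x) zero_le_one le_rfl (by rw [H.kz]; exact H.top 0 (by decide))
    (fun y hy hyx => by rw [one_mul]; exact hfrost y hy hyx)
  have hcfg := ev_cfg H.ok hE hP
  have hE2 : ∀ᶠ n in (U : Filter ℕ), E' n ⊆ W.Cl n ∧ W.cfg E' n = W.cfg0 n (E' n) := by
    filter_upwards [hcfg] with n ⟨g1, h1, h2, h3⟩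
    exact ⟨(hP.sub n).trans h1, h3⟩
  have hA := H.absWin hE2 mu be (H.aff_of hP.sub hE2 (fun ε hε => (hmu ε hε).mono fun _ h => h.2)
    haff)
  have hR := hRig W.B' (W.cfg E') W.legW W.nu W.Dc x x a m _ _ _ _ mu be hM le_rfl hA
    (H.rigProf hMw hx a0 a1 m0 dec fib conc) hmu
  intro ε hε
  have hε4 : 0 < ε / 4 := by positivity
  filter_upwards [hR _ hε4, lines_pull H.ok hE hP hdens hε4, hE2, H.ok.ev_good, H.tight,
    ev_const_le W.B' hε4 100] with n ⟨s0, c0, C0, E0, hs0, hc0, hC0, hE0, L', hL', hcard, hrel⟩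
    h1 ⟨h2, h3⟩ gd hu hc
  refine ⟨(E' n).filter fun i => W.lc n i ∈ L', (filter_subset _ _).trans (hP.sub n), ?_, ?_⟩
  · have := h1 L' hL' hcard
    rwa [show 4 * (ε / 4) = ε by ring] at this
  have hpos : ∀ t : ℝ, 0 < W.B'.d n ^ t := fun t => Real.rpow_pos_of_pos (W.B'.pos n) t
  have hs1 : |s0| ≤ W.B'.d n ^ (-ε) := hs0.trans
    (Real.rpow_le_rpow_of_exponent_ge (W.B'.pos n) (W.B'.lt n).le (by linarith))
  refine ⟨s0, c0, C0, E0, hs1, hc0, hC0, hE0, fun y hy => ?_⟩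
  obtain ⟨hy1, hy2⟩ := mem_filter.1 hy
  have hyc := h2 hy1
  obtain ⟨a1', a2'⟩ := mem_lrep hyc rfl
  have uy := H.unit gd hu hyc
  have ul := H.unit gd hu a1'
  obtain ⟨k1, k2, -⟩ := line_close uy fun s q0 q2 => H.lineC gd hu hyc a1' a2'.symm s q0 q2
  obtain ⟨r1, r2⟩ := hrel _ hy2
  rw [← H.nI_e, ← H.nI_v1, ← H.nI_v2]
  have k3 := k2 1
  have k4 := k2 2
  change |lE W F n (W.lc n y) - (nI W F n y).e| ≤ W.B'.d n ^ x at k1
  change |(lT W F n (W.lc n y)).v 1 - (nI W F n y).t.v 1| ≤ _ at k3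
  change |(lT W F n (W.lc n y)).v 2 - (nI W F n y).t.v 2| ≤ _ at k4
  have u1 : |(lT W F n (W.lc n y)).v 1| ≤ 1 := ul.v 1
  have u2 := uy.v 1
  set P := (nI W F n y).e
  set P' := lE W F n (W.lc n y)
  set V1 := (nI W F n y).t.v 1
  set V1' := (lT W F n (W.lc n y)).v 1
  set V2 := (nI W F n y).t.v 2
  set V2' := (lT W F n (W.lc n y)).v 2
  set δ := W.B'.d n ^ x with hδ
  have e2 : W.B'.d n ^ (x - ε / 4) = W.B'.d n ^ (-(ε / 4)) * δ := by
    rw [hδ, ← Real.rpow_add (W.B'.pos n)]; congr 1; ring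
  have e4 : δ ≤ W.B'.d n ^ (x - ε / 4) :=
    Real.rpow_le_rpow_of_exponent_ge (W.B'.pos n) (W.B'.lt n).le (by linarith)
  have e5 : 100 * W.B'.d n ^ (x - ε / 4) ≤ W.B'.d n ^ (x - ε) := by
    have h1 := mul_le_mul_of_nonneg_right hc (hpos (x - ε / 4)).le
    refine h1.trans ?_
    rw [← Real.rpow_add (W.B'.pos n)]
    exact Real.rpow_le_rpow_of_exponent_ge (W.B'.pos n) (W.B'.lt n).le (by linarith)
  have hδ0 : 0 < δ := hpos x
  have q1 : |s0 * (V1' - V1)| ≤ 4 * W.B'.d n ^ (x - ε / 4) := by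
    rw [e2]
    have := abs_mul_le hs0 k3
    linarith
  have q2 : |(V1' - V1) * (V1' + V1 - 2 * c0)| ≤ 4 * δ * 4 := by
    refine abs_mul_le k3 ?_
    have h1 := abs_le.1 u1
    have h2 := abs_le.1 u2
    have h3 := abs_le.1 hc0
    rw [abs_le]
    constructor <;> linarith
  have q3 : |s0 * ((V1' - V1) * (V1' + V1 - 2 * c0))| ≤ 16 * W.B'.d n ^ (x - ε / 4) := by
    rw [e2]
    have := abs_mul_le hs0 q2
    linarith
  have q4 : |E0 * (V1' - V1)| ≤ 4 * W.B'.d n ^ (x - ε / 4) := by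
    have := abs_mul_le hE0 k3
    linarith
  have hp4 := hpos (x - ε / 4)
  constructor
  · have e : P - (E0 - s0 * (V1 - c0)) = (P' - (E0 - s0 * (V1' - c0))) - (P' - P) -
        s0 * (V1' - V1) := by ring
    rw [e]
    have t1 := abs_sub ((P' - (E0 - s0 * (V1' - c0))) - (P' - P)) (s0 * (V1' - V1))
    have t2 := abs_sub (P' - (E0 - s0 * (V1' - c0))) (P' - P)
    linarith
  · have e : V2 - (C0 + E0 * (V1 - c0) - s0 * (V1 - c0) ^ 2 / 2) =
        (V2' - (C0 + E0 * (V1' - c0) - s0 * (V1' - c0) ^ 2 / 2)) - (V2' - V2) +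
        (E0 * (V1' - V1) - s0 * ((V1' - V1) * (V1' + V1 - 2 * c0)) / 2) := by ring
    rw [e]
    have t1 := abs_add_le ((V2' - (C0 + E0 * (V1' - c0) - s0 * (V1' - c0) ^ 2 / 2)) - (V2' - V2))
      (E0 * (V1' - V1) - s0 * ((V1' - V1) * (V1' + V1 - 2 * c0)) / 2)
    have t2 := abs_sub (V2' - (C0 + E0 * (V1' - c0) - s0 * (V1' - c0) ^ 2 / 2)) (V2' - V2)
    have t3 := abs_sub (E0 * (V1' - V1)) (s0 * ((V1' - V1) * (V1' + V1 - 2 * c0)) / 2)
    have t4 : |s0 * ((V1' - V1) * (V1' + V1 - 2 * c0)) / 2| ≤ 8 * W.B'.d n ^ (x - ε / 4) := by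
      rw [abs_div, abs_of_pos (two_pos : (0 : ℝ) < 2), div_le_iff₀ two_pos]
      linarith
    linarith

end LWin

end

end Crest.Agent.R136.Wk323
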