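import Crest.Agent.R136.WkE_344
import Crest.Agent.R136.WkH4_626
import Crest.Agent.R136.WkE2_344
import Crest.Agent.R136.WinE0_323

-- ▼ part R136/WinE1_323
section

/-!
# R136 (S0187), row E: a window with level slots `{0, 2, 3, 4}` in absolute coordinates (helper323)

As `WkH2_626` (level slots `{0, 3}`), but ALL flags are level slots: `AbsE` of `WkE_344`.

* `line_closeE` : two incidences of one fat line (flags not compared)
* `EWin`, `EWin.absE` : the window as an `AbsE`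
* `EWin.profE` : the profile numbers as a `ProfE`
-/

set_option autoImplicit false
set_option linter.unusedSectionVars false
set_option linter.unusedVariables false

open Filter Topology

namespace Crest.Agent.R136.WinE323

open Finset
open Crest.Agent.R136.Sh605
open Crest.Agent.R136.Net186
open Crest.Agent.R136.NetQ186
open Crest.Agent.R136.Qg926
open Crest.Agent.R136.Net191
open Crest.Agent.R138.Ex926 (Base U)
open Crest.Agent.R136.Gf356
open Crest.Agent.R136.RgE344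
open Crest.Agent.R136.Wk323 (tq s4 s4_tq tq_ne tq_s4 uu nI st coQ_st co4_nrm lrep lrep_spec Tight nrm
  Unit4 Near4 co4_lip coA coA_eq abs_mul_le fAll)
open Crest.Agent.R136.Wk323.LWin (lT lfb mem_rep mem_lrep mem_zrep)

/-- **two incidences of one fat line**, the flags are not compared -/
theorem line_closeE {i j : Fl4} {η : ℝ} (hi : Unit4 i)
    (h : ∀ s : Fin 10, 4 ≤ s → |co4 i j s| ≤ η) :
    (∀ m, |j.t.v m - i.t.v m| ≤ 4 * η) ∧ ∀ m, |j.t.p m - i.t.p m| ≤ 8 * η := by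
  have v1 : |j.t.v 1 - i.t.v 1| ≤ η := h 4 (by decide)
  have h5 : |(j.t.v 2 - i.t.v 2) - i.e * (j.t.v 1 - i.t.v 1)| ≤ η := h 5 (by decide)
  have h6 : |(j.t.v 0 - i.t.v 0) - i.fa * (j.t.v 1 - i.t.v 1) - i.fb * (j.t.v 2 - i.t.v 2)| ≤ η :=
    h 6 (by decide)
  have x1 : |j.t.pos i.z 1 - i.t.pos i.z 1| ≤ η := h 7 (by decide)
  have h8 : |(j.t.pos i.z 2 - i.t.pos i.z 2) - i.e * (j.t.pos i.z 1 - i.t.pos i.z 1)| ≤ η :=
    h 8 (by decide)
  have h9 : |(j.t.pos i.z 0 - i.t.pos i.z 0) - i.fa * (j.t.pos i.z 1 - i.t.pos i.z 1) -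
      i.fb * (j.t.pos i.z 2 - i.t.pos i.z 2)| ≤ η := h 9 (by decide)
  have hη : 0 ≤ η := (abs_nonneg _).trans v1
  have two : ∀ {x y : ℝ}, |x - i.e * y| ≤ η → |y| ≤ η → |x| ≤ 2 * η := by
    intro x y hx hy
    have a1 := abs_mul_le hi.e hy
    have e : x = (x - i.e * y) + i.e * y := by ring
    rw [e]
    exact (abs_add_le _ _).trans (by linarith)
  have four : ∀ {x y w : ℝ}, |x - i.fa * y - i.fb * w| ≤ η → |y| ≤ η → |w| ≤ 2 * η →
      |x| ≤ 4 * η := by
    intro x y w hx hy hw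
    have a1 := abs_mul_le hi.fa hy
    have a2 := abs_mul_le hi.fb hw
    have e : x = (x - i.fa * y - i.fb * w) + i.fa * y + i.fb * w := by ring
    rw [e]
    exact (abs_add_three _ _ _).trans (by linarith)
  have v2 : |j.t.v 2 - i.t.v 2| ≤ 2 * η := two h5 v1
  have v0 : |j.t.v 0 - i.t.v 0| ≤ 4 * η := four h6 v1 v2
  have x2 : |j.t.pos i.z 2 - i.t.pos i.z 2| ≤ 2 * η := two h8 x1
  have x0 : |j.t.pos i.z 0 - i.t.pos i.z 0| ≤ 4 * η := four h9 x1 x2
  have hv : ∀ m, |j.t.v m - i.t.v m| ≤ 4 * η := by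
    intro m
    fin_cases m
    · exact v0
    · exact v1.trans (by linarith)
    · exact v2.trans (by linarith)
  refine ⟨hv, ?_⟩
  have hx : ∀ m, |j.t.pos i.z m - i.t.pos i.z m| ≤ 4 * η := by
    intro m
    fin_cases m
    · exact x0
    · exact x1.trans (by linarith)
    · exact x2.trans (by linarith)
  intro m
  have a1 := abs_mul_le hi.z (hv m)
  have e : j.t.p m - i.t.p m = (j.t.pos i.z m - i.t.pos i.z m) - i.z * (j.t.v m - i.t.v m) := by
    simp only [Ln4.pos]; ring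
  rw [e]
  refine (abs_sub _ _).trans ?_
  have := hx m
  linarith

variable {ι : ℕ → Type*} [∀ n, DecidableEq (ι n)]

/-- hypotheses on the window for the absolute form -/
structure EWin (W : Wnd 11 ι) (F : ∀ n, ι n → Fq4) (x : ℝ) : Prop where
  ok : W.Ok
  co : ∀ n i j, W.co n i j = coQ (F n i) (F n j)
  str : ∀ n i, (F n i).y2 = 0
  S : W.S = {0, 2, 3, 4}
  kz : W.kz = 0
  tight : ∀ᶠ n in (U : Filter ℕ), Tight (uu W n)
  kap : ∀ s, 2 * W.K0 ≤ W.kap s
  x0 : 0 ≤ x
  top : ∀ s, W.top s = x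

/-- the flags at the level cell `k` -/
noncomputable def eW (W : Wnd 11 ι) (F : ∀ n, ι n → Fq4) (n k : ℕ) : ℝ := (nI W F n (W.zrep n k)).e

/-- `F_a` at the level cell `k` -/
noncomputable def faW (W : Wnd 11 ι) (F : ∀ n, ι n → Fq4) (n k : ℕ) : ℝ :=
  (nI W F n (W.zrep n k)).fa

namespace EWin

variable {W : Wnd 11 ι} {F : ∀ n, ι n → Fq4} {x : ℝ} (H : EWin W F x)

include H

/-- coordinates of normalised incidences = normalised coordinates -/
theorem co4_nI {n : ℕ} (hu : Tight (uu W n)) (i j : ι n) (s : Fin 10) :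
    co4 (nI W F n i) (nI W F n j) s = W.crd n i j (tq s) := by
  unfold nI
  rw [co4_nrm hu]
  unfold Wnd.crd
  rw [H.co, coQ_st (H.str n i) (H.str n j) (tq_ne s), s4_tq]
  rfl

/-- a box in normalised coordinates -/
theorem crd_le {n : ℕ} {c : Fin 11 → ℝ} {i j : ι n} (h : W.bx n c W.K0 i j) (s : Fin 11) :
    |W.crd n i j s| ≤ W.B'.d n ^ c s / 2 := by
  have hX : 0 < W.B.d n ^ W.X n s := Real.rpow_pos_of_pos (W.B.pos n) _
  have hc : 0 < W.B'.d n ^ c s := Real.rpow_pos_of_pos (W.B'.pos n) _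
  have hk := H.ok.kap s
  have hpos : 0 < W.kap s * W.B.d n ^ W.X n s := mul_pos hk hX
  unfold Wnd.crd
  rw [abs_div, abs_of_pos hpos, div_le_iff₀ hpos]
  refine (h s).trans ?_
  have h1 := H.kap s
  have h2 : 0 ≤ W.B.d n ^ W.X n s * W.B'.d n ^ c s := (mul_pos hX hc).le
  have h3 := mul_le_mul_of_nonneg_right h1 h2
  linarith

/-- all incidences of the class are in half of the unit box -/
theorem half {n : ℕ} (g : W.Good n) (hu : Tight (uu W n)) {i : ι n} (hi : i ∈ W.Cl n) :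
    (∀ m, |(nI W F n i).t.v m| ≤ 1 / 2) ∧ (∀ m, |(nI W F n i).t.p m| ≤ 1 / 2) ∧
      |(nI W F n i).z| ≤ 1 / 2 ∧ |(nI W F n i).e| ≤ 1 / 2 ∧ |(nI W F n i).fa| ≤ 1 / 2 ∧
      |(nI W F n i).fb| ≤ 1 / 2 := by
  have h0 : ∀ s : Fin 10, |co4 (st (F n (W.s₀ n))) (st (F n i)) s / uu W n s| ≤ 1 / 2 := by
    intro s
    have h1 := H.crd_le (H.ok.near0 g g.s0 hi) (tq s)
    rw [Pi.zero_apply, Real.rpow_zero] at h1
    have e : co4 (st (F n (W.s₀ n))) (st (F n i)) s / uu W n s = W.crd n (W.s₀ n) i (tq s) := by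
      unfold Wnd.crd
      rw [H.co, coQ_st (H.str n _) (H.str n i) (tq_ne s), s4_tq]
      rfl
    rw [e]
    exact h1
  refine ⟨?_, ?_, h0 0, h0 1, h0 3, h0 2⟩
  · intro m
    fin_cases m
    · exact h0 6
    · exact h0 4
    · exact h0 5
  · intro m
    fin_cases m
    · exact h0 9
    · exact h0 7
    · exact h0 8

theorem unit {n : ℕ} (g : W.Good n) (hu : Tight (uu W n)) {i : ι n} (hi : i ∈ W.Cl n) :
    Unit4 (nI W F n i) := by
  obtain ⟨h1, h2, h3, h4, h5, h6⟩ := H.half g hu hi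
  exact ⟨fun m => (h1 m).trans (by norm_num), fun m => (h2 m).trans (by norm_num),
    h3.trans (by norm_num), h4.trans (by norm_num), h5.trans (by norm_num),
    h6.trans (by norm_num)⟩

/-- same fat line -/
theorem lineC {n : ℕ} (g : W.Good n) (hu : Tight (uu W n)) {i j : ι n} (hi : i ∈ W.Cl n)
    (hj : j ∈ W.Cl n) (hl : W.lc n i = W.lc n j) (s : Fin 10) (h0 : 4 ≤ s) :
    |co4 (nI W F n i) (nI W F n j) s| ≤ W.B'.d n ^ x := by
  rw [H.co4_nI hu]
  refine (H.crd_le (H.ok.near_lc g hi hj hl) (tq s)).trans ?_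
  have hS : tq s ∉ W.S := by
    rw [H.S]
    revert h0
    fin_cases s <;> decide
  rw [cut_of_notMem hS, H.top]
  have h4 : 0 < W.B'.d n ^ x := Real.rpow_pos_of_pos (W.B'.pos n) _
  linarith

/-- same level cell -/
theorem levC {n : ℕ} (g : W.Good n) (hu : Tight (uu W n)) {i j : ι n} (hi : i ∈ W.Cl n)
    (hj : j ∈ W.Cl n) (hl : W.zc n i = W.zc n j) :
    |(nI W F n j).z - (nI W F n i).z| ≤ W.B'.d n ^ x ∧
      |(nI W F n j).e - (nI W F n i).e| ≤ W.B'.d n ^ x ∧
      |(nI W F n j).fb - (nI W F n i).fb| ≤ W.B'.d n ^ x ∧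
      |(nI W F n j).fa - (nI W F n i).fa| ≤ 2 * W.B'.d n ^ x := by
  have key : ∀ s : Fin 10, tq s ∈ W.S → |co4 (nI W F n i) (nI W F n j) s| ≤ W.B'.d n ^ x := by
    intro s hS
    rw [H.co4_nI hu]
    refine (H.crd_le (H.ok.near_zc g hi hj hl) (tq s)).trans ?_
    rw [cut_of_mem hS, H.top]
    have h4 : 0 < W.B'.d n ^ x := Real.rpow_pos_of_pos (W.B'.pos n) _
    linarith
  have k0 := key 0 (by rw [H.S]; decide)
  have k1 := key 1 (by rw [H.S]; decide)
  have k2 := key 2 (by rw [H.S]; decide)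
  have k3 := key 3 (by rw [H.S]; decide)
  refine ⟨k0, k1, k2, ?_⟩
  change |((nI W F n j).fa - (nI W F n i).fa) + (nI W F n i).e *
    ((nI W F n j).fb - (nI W F n i).fb)| ≤ _ at k3
  change |(nI W F n j).fb - (nI W F n i).fb| ≤ _ at k2
  have c := abs_mul_le (H.unit g hu hi).e k2
  have e : (nI W F n j).fa - (nI W F n i).fa = (((nI W F n j).fa - (nI W F n i).fa) +
      (nI W F n i).e * ((nI W F n j).fb - (nI W F n i).fb)) - (nI W F n i).e *
      ((nI W F n j).fb - (nI W F n i).fb) := by ring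
  rw [e]
  refine (abs_sub _ _).trans ?_
  linarith

/-- the heights of the configuration are the normalised heights of `zrep` -/
theorem z_eq {n : ℕ} (k : ℕ) : W.crd n (W.s₀ n) (W.zrep n k) W.kz = (nI W F n (W.zrep n k)).z := by
  rw [H.kz]
  unfold Wnd.crd
  rw [H.co, coQ_st (H.str n _) (H.str n _) (by decide)]
  rfl

/-- the absolute incidence of `(l, k)` is in the unit box and close to the representative -/
theorem abs_near {n : ℕ} (g : W.Good n) (hu : Tight (uu W n)) {l k : ℕ}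
    (h : W.rep n l k ∈ W.Cl n ∧ W.lc n (W.rep n l k) = l ∧ W.zc n (W.rep n l k) = k) :
    Unit4 ⟨lT W F n l, W.crd n (W.s₀ n) (W.zrep n k) W.kz, eW W F n k, faW W F n k,
        lfb W F n k⟩ ∧
      Near4 (nI W F n (W.rep n l k)) ⟨lT W F n l, W.crd n (W.s₀ n) (W.zrep n k) W.kz, eW W F n k,
        faW W F n k, lfb W F n k⟩ (8 * W.B'.d n ^ x) := by
  obtain ⟨h1, h2, h3⟩ := h
  obtain ⟨a1, a2⟩ := mem_lrep h1 h2
  obtain ⟨b1, b2⟩ := mem_zrep h1 h3
  have hη : 0 < W.B'.d n ^ x := Real.rpow_pos_of_pos (W.B'.pos n) _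
  have ul := H.unit g hu a1
  have uz := H.unit g hu b1
  have ur := H.unit g hu h1
  rw [H.z_eq]
  obtain ⟨c2, c3⟩ := line_closeE ur (fun s hs => H.lineC g hu h1 a1 (h2.trans a2.symm) s hs)
  obtain ⟨d1, d2, d3, d4⟩ := H.levC g hu h1 b1 (h3.trans b2.symm)
  refine ⟨⟨ul.v, ul.p, uz.z, uz.e, uz.fa, uz.fb⟩, ⟨fun m => (c2 m).trans (by linarith), c3,
    d1.trans (by linarith), d2.trans (by linarith), d4.trans (by linarith),
    d3.trans (by linarith)⟩⟩

/-- **a window of case E in absolute coordinates** -/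
theorem absE {E : ∀ n, Finset (ι n)}
    (hE : ∀ᶠ n in (U : Filter ℕ), E n ⊆ W.Cl n ∧ W.cfg E n = W.cfg0 n (E n)) :
    AbsE W.B' (W.cfg E) x (lT W F) (eW W F) (faW W F) (lfb W F) where
  bd := by
    filter_upwards [hE, H.ok.ev_good, H.tight] with n ⟨h1, h2⟩ g hu l k hI
    rw [h2] at hI ⊢
    have hr := mem_rep h1 hI
    obtain ⟨a1, a2⟩ := mem_lrep hr.1 hr.2.1
    obtain ⟨b1, b2⟩ := mem_zrep hr.1 hr.2.2
    obtain ⟨v, p, -, -, -, -⟩ := H.half g hu a1
    obtain ⟨-, -, z, e, fa, fb⟩ := H.half g hu b1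
    have hz : (W.cfg0 n (E n)).z k = (nI W F n (W.zrep n k)).z := H.z_eq k
    rw [hz]
    refine ⟨z.trans (by norm_num), fun j => ?_, fun j => (v j).trans (by norm_num),
      e.trans (by norm_num), fa.trans (by norm_num), fb.trans (by norm_num)⟩
    show |(nI W F n (lrep W n l)).t.p j +
      (nI W F n (W.zrep n k)).z * (nI W F n (lrep W n l)).t.v j| ≤ 1
    refine (abs_add_le _ _).trans ?_
    have := abs_mul_le z (v j)
    have := p j
    linarith
  bdr := by
    filter_upwards [hE, H.ok.ev_good] with n ⟨h1, h2⟩ g k i l hi hl s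
    rw [h2] at hi hl ⊢
    have ri := mem_rep h1 hi
    have rl := mem_rep h1 hl
    show |if s ∈ W.S then (0 : ℝ) else W.crd n (W.rep n i k) (W.rep n l k) s| ≤ 1
    split_ifs
    · simp
    · have := H.crd_le (H.ok.near0 g ri.1 rl.1) s
      rw [Pi.zero_apply, Real.rpow_zero] at this
      linarith
  rel := by
    intro ε hε
    filter_upwards [hE, H.ok.ev_good, H.tight, ev_const_le W.B' hε 240] with n ⟨h1, h2⟩ g hu hc
      k i l hi hl s hs
    rw [h2] at hi hl ⊢
    have ri := mem_rep h1 hi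
    have rl := mem_rep h1 hl
    obtain ⟨ui, ni⟩ := H.abs_near g hu ri
    obtain ⟨ul, nl⟩ := H.abs_near g hu rl
    have hs2 : s ∈ fAll := by
      revert hs
      fin_cases s <;> decide
    have hS : s ∉ W.S := by
      rw [H.S]
      revert hs
      fin_cases s <;> decide
    have e1 : (W.cfg0 n (E n)).rel k i l s = co4 (nI W F n (W.rep n i k)) (nI W F n (W.rep n l k))
        (s4 s) := by
      rw [H.co4_nI hu, tq_s4 hs2]
      show (if s ∈ W.S then (0 : ℝ) else W.crd n (W.rep n i k) (W.rep n l k) s) = _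
      rw [if_neg hS]
    rw [e1, coA_eq _ _ _ _ _ _ _ _ hs2, abs_sub_comm]
    refine (co4_lip (H.unit g hu ri.1) ui (H.unit g hu rl.1) ul ni nl (s4 s)).trans ?_
    have e2 : W.B'.d n ^ (x - ε) = W.B'.d n ^ x * W.B'.d n ^ (-ε) := by
      rw [← Real.rpow_add (W.B'.pos n)]
      rfl
    rw [e2]
    have hη : 0 < W.B'.d n ^ x := Real.rpow_pos_of_pos (W.B'.pos n) _
    have := mul_le_mul_of_nonneg_left hc hη.le
    linarith

end EWin

end Crest.Agent.R136.WinE323
end

-- ▼ part R136/WinE2_323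
section

/-!
# R136 (S0187), row E: the relation of RIG_E on incidences of a window (helper323)

* `pairs_pull` : a `ρ^ε`-part of the pairs gives a `ρ^(6ε)`-part of the incidences.
* `RelE` : the relation in the coordinates of the base incidence.
* `EWin.rig_inc` : **conclusion of `RigE'` on incidences of any dense part of the class**.
-/

set_option autoImplicit false
set_option linter.unusedSectionVars false
set_option linter.unusedVariables false

open Filter Topology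

namespace Crest.Agent.R136.WinE323

open Finset
open Crest.Agent.R136.Sh605
open Crest.Agent.R136.Net186
open Crest.Agent.R136.NetQ186
open Crest.Agent.R136.Qg926
open Crest.Agent.R136.Net191
open Crest.Agent.R138.Ex926 (Base U cls mem_cls le_count_mul)
open Crest.Agent.R136.Gf356
open Crest.Agent.R136.RgE344
open Crest.Agent.R136.Wk323 (tq s4 uu nI lrep Tight Unit4 Near4 abs_mul_le sub_lip)
open Crest.Agent.R136.Wk323.LWin (lT lfb mem_rep mem_lrep mem_zrep)

section pull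

open Wnd

variable {ι : ℕ → Type*} [∀ n, DecidableEq (ι n)] {m : ℕ} {W : Wnd m ι}
  {E E' : ∀ n, Finset (ι n)} {Mu g : ℕ → ℝ}

/-- code of the pair (fat line, level cell) -/
noncomputable def pcode (W : Wnd m ι) (n : ℕ) (i : ι n) : ℕ := Nat.pair (W.lc n i) (W.zc n i)

/-- **popular pairs carry many incidences** -/
theorem pairs_pull (h : W.Ok) (hE : EOk W E Mu) (hP : Pruned W E E' g fun _ => pcode W)
    (hdens : W.lam W.top ≤ W.lam (cut W.S W.top 0) + W.lam (cut W.S 0 W.top)) {ε : ℝ}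
    (hε : 0 < ε) : ∀ᶠ n in (U : Filter ℕ), ∀ I' ⊆ (W.cfg E' n).I,
      W.B'.d n ^ ε * ((W.cfg E' n).I.card : ℝ) ≤ (I'.card : ℝ) →
      W.B'.d n ^ (7 * ε) * ((E n).card : ℝ) ≤
        (((E' n).filter fun i => (W.lc n i, W.zc n i) ∈ I').card : ℝ) := by
  classical
  filter_upwards [ev_cfg h hE hP, h.card_lc_le hε, h.card_zc_le hε, hP.gsub ε hε, hP.extra 0,
    hE.mult ε hε, hE.big ε hε, Crest.Agent.R136.Gf356.ev_const_le W.B' hε 2] with
    n ⟨g1, h1, h2, h3⟩ h4 h5 h6 h7 h8 h9 h10 I' hI' hcard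
  rw [h3] at hI' hcard
  have hpos : ∀ t : ℝ, 0 < W.B'.d n ^ t := fun t => Real.rpow_pos_of_pos (W.B'.pos n) t
  have hadd : ∀ s t : ℝ, W.B'.d n ^ s * W.B'.d n ^ t = W.B'.d n ^ (s + t) := fun s t =>
    (Real.rpow_add (W.B'.pos n) s t).symm
  have hMu := hE.pos n
  set a := W.lam (cut W.S W.top 0) with ha
  set b := W.lam (cut W.S 0 W.top) with hb
  set t := W.lam W.top with ht
  have hE0 : (0 : ℝ) ≤ (E n).card := Nat.cast_nonneg _
  -- number of pairs of `E`
  have c1 : (((E n).image (pcode W n)).card : ℝ) ≤ W.B'.d n ^ (t - 2 * ε) := by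
    have e1 : ((E n).image (pcode W n)).card ≤
        ((E n).image (W.lc n)).card * ((E n).image (W.zc n)).card := by
      rw [← card_product]
      refine card_le_card_of_surjOn (fun p : ℕ × ℕ => Nat.pair p.1 p.2) ?_
      intro c hc
      obtain ⟨i, hi, rfl⟩ := mem_image.1 (Finset.mem_coe.1 hc)
      exact ⟨(W.lc n i, W.zc n i), by
        rw [Finset.mem_coe, mem_product]
        exact ⟨mem_image_of_mem _ hi, mem_image_of_mem _ hi⟩, rfl⟩
    have e2 : (((E n).image (pcode W n)).card : ℝ) ≤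
        (((E n).image (W.lc n)).card : ℝ) * (((E n).image (W.zc n)).card : ℝ) := by
      exact_mod_cast e1
    refine e2.trans ((mul_le_mul (h4 _ h1) (h5 _ h1) (Nat.cast_nonneg _) (hpos _).le).trans ?_)
    rw [hadd]
    exact Real.rpow_le_rpow_of_exponent_ge (W.B'.pos n) (W.B'.lt n).le (by linarith)
  -- multiplicity of a surviving pair, from below
  have c2 : ∀ i ∈ E' n, ((E n).card : ℝ) * W.B'.d n ^ (3 * ε - t) ≤
      ((cls (E' n) (W.pc n) i).card : ℝ) := by
    intro i hi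
    have d1 := h7 i hi
    have e : cls (E' n) (pcode W n) i = cls (E' n) (W.pc n) i := by
      ext j
      rw [mem_cls, mem_cls]
      unfold pcode pc
      rw [Nat.pair_eq_pair, Prod.mk.injEq]
    rw [e] at d1
    set H : ℝ := ((cls (E' n) (W.pc n) i).card : ℝ) with hH
    have hH0 : 0 ≤ H := Nat.cast_nonneg _
    have d3 : ((E n).card : ℝ) ≤ W.B'.d n ^ (t - 3 * ε) * H := by
      refine d1.trans ?_
      have e1 : W.B'.d n ^ (t - 3 * ε) = W.B'.d n ^ (-ε) * W.B'.d n ^ (t - 2 * ε) := by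
        rw [hadd]; congr 1; ring
      rw [e1]
      refine mul_le_mul_of_nonneg_right ?_ hH0
      exact mul_le_mul h6 c1 (Nat.cast_nonneg _) (hpos _).le
    calc ((E n).card : ℝ) * W.B'.d n ^ (3 * ε - t)
        ≤ (W.B'.d n ^ (t - 3 * ε) * H) * W.B'.d n ^ (3 * ε - t) :=
          mul_le_mul_of_nonneg_right d3 (hpos _).le
      _ = (W.B'.d n ^ (t - 3 * ε) * W.B'.d n ^ (3 * ε - t)) * H := by ring
      _ = H := by rw [hadd]; simp
  -- number of pairs of `E'`, from below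
  have c3 : ((E n).card : ℝ) * W.B'.d n ^ (2 * ε) ≤ Mu n * ((W.cfg0 n (E' n)).I.card : ℝ) := by
    have d1 : ((E' n).card : ℝ) ≤ Mu n * W.B'.d n ^ (-ε) * ((E' n).image (W.pc n)).card := by
      have := le_count_mul (E' n) (fun _ => (1 : ℝ)) (W.pc n) (m := Mu n * W.B'.d n ^ (-ε))
        (fun i hi => by
          rw [sum_const, nsmul_eq_mul, mul_one]
          refine le_trans ?_ (h8 i (hP.sub n hi))
          refine Nat.cast_le.2 (card_le_card fun j hj => ?_)
          obtain ⟨k1, k2⟩ := mem_cls.1 hj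
          exact mem_cls.2 ⟨hP.sub n k1, k2⟩)
      rwa [sum_const, nsmul_eq_mul, mul_one] at this
    have d2 : ((W.cfg0 n (E' n)).I.card : ℝ) = ((E' n).image (W.pc n)).card := by
      congr 1
    rw [d2]
    have d3 := hP.half n
    set N := (((E' n).image (W.pc n)).card : ℝ) with hN
    have hN0 : 0 ≤ N := Nat.cast_nonneg _
    have d4 : ((E n).card : ℝ) ≤ W.B'.d n ^ (-ε) * (Mu n * W.B'.d n ^ (-ε) * N) := by
      have e1 : (0:ℝ) ≤ Mu n * W.B'.d n ^ (-ε) * N := mul_nonneg (mul_pos hMu (hpos _)).le hN0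
      have e2 := mul_le_mul_of_nonneg_right h10 e1
      linarith
    calc ((E n).card : ℝ) * W.B'.d n ^ (2 * ε)
        ≤ (W.B'.d n ^ (-ε) * (Mu n * W.B'.d n ^ (-ε) * N)) * W.B'.d n ^ (2 * ε) :=
          mul_le_mul_of_nonneg_right d4 (hpos _).le
      _ = (W.B'.d n ^ (-ε) * W.B'.d n ^ (-ε) * W.B'.d n ^ (2 * ε)) * (Mu n * N) := by ring
      _ = Mu n * N := by
          rw [hadd, hadd, show -ε + -ε + 2 * ε = 0 by ring, Real.rpow_zero, one_mul]
  -- total
  have c4 : (I'.card : ℝ) * (((E n).card : ℝ) * W.B'.d n ^ (3 * ε - t)) ≤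
      (((E' n).filter fun i => (W.lc n i, W.zc n i) ∈ I').card : ℝ) := by
    have d1 : ((E' n).filter fun i => (W.lc n i, W.zc n i) ∈ I').card =
        ∑ p ∈ I', (((E' n).filter fun i => (W.lc n i, W.zc n i) ∈ I').filter
          fun i => (W.lc n i, W.zc n i) = p).card :=
      card_eq_sum_card_fiberwise fun i hi => (mem_filter.1 hi).2
    rw [d1, Nat.cast_sum, ← nsmul_eq_mul, ← sum_const]
    refine sum_le_sum fun p hp => ?_
    obtain ⟨l, k⟩ := p
    obtain ⟨y, hy, rfl, rfl⟩ := mem_I.1 (hI' hp)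
    refine (c2 y hy).trans (Nat.cast_le.2 (card_le_card fun j hj => ?_))
    obtain ⟨k1, k2⟩ := mem_cls.1 hj
    have k3 : (W.lc n j, W.zc n j) = (W.lc n y, W.zc n y) := k2
    exact mem_filter.2 ⟨mem_filter.2 ⟨k1, by rw [k3]; exact hp⟩, k3⟩
  refine le_trans ?_ c4
  have c5 : W.B'.d n ^ (3 * ε) * ((E n).card : ℝ) ≤ Mu n * (I'.card : ℝ) := by
    have e1 : W.B'.d n ^ (3 * ε) = W.B'.d n ^ ε * W.B'.d n ^ (2 * ε) := by
      rw [hadd]; congr 1; ring
    calc W.B'.d n ^ (3 * ε) * ((E n).card : ℝ)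
        = W.B'.d n ^ ε * (((E n).card : ℝ) * W.B'.d n ^ (2 * ε)) := by rw [e1]; ring
      _ ≤ W.B'.d n ^ ε * (Mu n * ((W.cfg0 n (E' n)).I.card : ℝ)) :=
          mul_le_mul_of_nonneg_left c3 (hpos _).le
      _ = Mu n * (W.B'.d n ^ ε * ((W.cfg0 n (E' n)).I.card : ℝ)) := by ring
      _ ≤ Mu n * (I'.card : ℝ) := mul_le_mul_of_nonneg_left hcard hMu.le
  have c6 : W.B'.d n ^ (7 * ε) * ((E n).card : ℝ) * Mu n ≤
      ((I'.card : ℝ) * (((E n).card : ℝ) * W.B'.d n ^ (3 * ε - t))) * Mu n := by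
    have e1 : W.B'.d n ^ (7 * ε) = W.B'.d n ^ (3 * ε) * W.B'.d n ^ (3 * ε - t) *
        W.B'.d n ^ (t + ε) := by
      rw [hadd, hadd]; congr 1; ring
    calc W.B'.d n ^ (7 * ε) * ((E n).card : ℝ) * Mu n
        = (W.B'.d n ^ (3 * ε) * ((E n).card : ℝ)) * W.B'.d n ^ (3 * ε - t) *
          (Mu n * W.B'.d n ^ (t + ε)) := by rw [e1]; ring
      _ ≤ (Mu n * (I'.card : ℝ)) * W.B'.d n ^ (3 * ε - t) * ((E n).card : ℝ) := by
          have k1 := hpos (3 * ε - t)
          have k2 : (0 : ℝ) ≤ Mu n * (I'.card : ℝ) := mul_nonneg hMu.le (Nat.cast_nonneg _)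
          have k3 : (0 : ℝ) ≤ Mu n * W.B'.d n ^ (t + ε) := (mul_pos hMu (hpos _)).le
          exact mul_le_mul (mul_le_mul_of_nonneg_right c5 k1.le) h9 k3 (mul_nonneg k2 k1.le)
      _ = _ := by ring
  exact le_of_mul_le_mul_right c6 hMu

end pull

section

open Wnd

variable {ι : ℕ → Type*} [∀ n, DecidableEq (ι n)]

/-- **the relation** in the coordinates of the base incidence: flags (slots `2, 3, 4`) and lines
(slots `5, 6, 7`), up to `δ` -/
def RelE (W : Wnd 11 ι) (n : ℕ) (δ : ℝ) (G' : Finset (ι n)) : Prop :=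
  ∃ a b e c : ℝ, a ^ 2 + b ^ 2 = 1 ∧ ∀ y ∈ G',
    |a * W.crd n (W.s₀ n) y 2 + b * (W.crd n (W.s₀ n) y 4 +
      W.crd n (W.s₀ n) y 3 * W.crd n (W.s₀ n) y 2) - e| ≤ δ ∧
    |a * W.crd n (W.s₀ n) y 6 + b * W.crd n (W.s₀ n) y 7 - e * W.crd n (W.s₀ n) y 5 - c| ≤ δ

/-- `RigE'` at fixed numbers -/
def RigAt (x y m β θ : ℝ) : Prop :=
  ∀ (B : Base) (G : ℕ → RCfg (Fin 11)) (Leg : Set (Fin 11 → ℝ)) (ν : (Fin 11 → ℝ) → ℝ)
    (D R : ℝ) (T : ℕ → ℕ → Ln4) (E fa fb : ℕ → ℕ → ℝ),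
    RModel B G 1 R Leg ν D → x ≤ R → AbsE B G x T E fa fb → ProfE Leg ν x y m β →
    ∀ ε : ℝ, 0 < ε → ∀ᶠ n in (U : Filter ℕ), ∃ (u : Fin 2 → ℝ) (e0 c0 : ℝ),
      u 0 ^ 2 + u 1 ^ 2 = 1 ∧ ∃ I' ⊆ (G n).I, B.d n ^ ε * ((G n).I.card : ℝ) ≤ (I'.card : ℝ) ∧
        ∀ l k, (l, k) ∈ I' →
          |u 0 * eE E fa fb n k 0 + u 1 * eE E fa fb n k 1 - e0| ≤ B.d n ^ θ ∧
          |u 0 * wE T n l 0 + u 1 * wE T n l 1 - e0 * (T n l).v 1 - c0| ≤ B.d n ^ θ

namespace EWin

variable {W : Wnd 11 ι} {F : ∀ n, ι n → Fq4} {x : ℝ} (H : EWin W F x)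

include H

/-- coordinates in the frame of the base incidence -/
theorem crd_eq {n : ℕ} (y : ι n) (s : Fin 10) :
    W.crd n (W.s₀ n) y (tq s) = co4 (Wk323.st (F n (W.s₀ n))) (Wk323.st (F n y)) s / uu W n s := by
  unfold Wnd.crd
  rw [H.co, Wk323.coQ_st (H.str n _) (H.str n y) (Wk323.tq_ne s), Wk323.s4_tq]
  rfl

theorem nI_e {n : ℕ} (y : ι n) : (nI W F n y).e = W.crd n (W.s₀ n) y 2 := (H.crd_eq y 1).symm
theorem nI_fb {n : ℕ} (y : ι n) : (nI W F n y).fb = W.crd n (W.s₀ n) y 3 := (H.crd_eq y 2).symm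
theorem nI_fa {n : ℕ} (y : ι n) : (nI W F n y).fa = W.crd n (W.s₀ n) y 4 := (H.crd_eq y 3).symm
theorem nI_v1 {n : ℕ} (y : ι n) : (nI W F n y).t.v 1 = W.crd n (W.s₀ n) y 5 :=
  (H.crd_eq y 4).symm
theorem nI_v2 {n : ℕ} (y : ι n) : (nI W F n y).t.v 2 = W.crd n (W.s₀ n) y 6 :=
  (H.crd_eq y 5).symm
theorem nI_v0 {n : ℕ} (y : ι n) : (nI W F n y).t.v 0 = W.crd n (W.s₀ n) y 7 :=
  (H.crd_eq y 6).symm

omit H in
theorem unit_le {a b : ℝ} (h : a ^ 2 + b ^ 2 = 1) : |a| ≤ 1 ∧ |b| ≤ 1 := by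
  constructor <;> rw [← sq_le_one_iff_abs_le_one] <;> nlinarith [sq_nonneg a, sq_nonneg b]

/-- **RIG_E on incidences** -/
theorem rig_inc {y m β θ θ' : ℝ} (hθ0 : 0 < θ') (hθ' : θ' < θ) (hθx : θ' < x) (hRig : RigAt x y m β θ)
    (P : ProfE W.legW W.nu x y m β)
    (hdens : W.lam W.top ≤ W.lam (cut W.S W.top 0) + W.lam (cut W.S 0 W.top))
    (hfrost : ∀ y, 0 ≤ y → y ≤ x → W.lam (Pi.single W.kz y) ≤ -y)
    {E : ∀ n, Finset (ι n)} {Mu : ℕ → ℝ} (hE : EOk W E Mu) :
    ∀ ε : ℝ, 0 < ε → ∀ᶠ n in (U : Filter ℕ), ∃ G' ⊆ E n,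
      W.B'.d n ^ ε * ((E n).card : ℝ) ≤ (G'.card : ℝ) ∧ RelE W n (W.B'.d n ^ θ') G' := by
  obtain ⟨E', g, hP, -, hM⟩ := hE.exists_model H.ok (fun _ => pcode W) (g₀ := fun n => (n : ℝ))
    (tendsto_natCast_atTop_atTop.mono_left Crest.Agent.R138.Ex926.U_le_atTop) hdens (σ := 1)
    (R := x) zero_le_one le_rfl (by rw [H.top]) (fun y hy hyx => by rw [one_mul]; exact hfrost y hy hyx)
  have hcfg := ev_cfg H.ok hE hP
  have hE2 : ∀ᶠ n in (U : Filter ℕ), E' n ⊆ W.Cl n ∧ W.cfg E' n = W.cfg0 n (E' n) := by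
    filter_upwards [hcfg] with n ⟨g1, h1, h2, h3⟩
    exact ⟨(hP.sub n).trans h1, h3⟩
  have hA := H.absE hE2
  have hR := hRig W.B' (W.cfg E') W.legW W.nu W.Dc x _ _ _ _ hM le_rfl hA P
  intro ε hε
  have hε7 : 0 < ε / 7 := by positivity
  set κ := min (θ - θ') (x - θ') with hκ
  have hκ0 : 0 < κ := lt_min (sub_pos.2 hθ') (sub_pos.2 hθx)
  filter_upwards [hR _ hε7, pairs_pull H.ok hE hP hdens hε7, hE2, H.ok.ev_good, H.tight,
    Crest.Agent.R136.Gf356.ev_const_le W.B' hκ0 100] with n ⟨u, e0, c0, hu1, I', hI', hcard, hrel⟩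
    h1 ⟨h2, h3⟩ gd hu hc
  refine ⟨(E' n).filter fun i => (W.lc n i, W.zc n i) ∈ I', (filter_subset _ _).trans (hP.sub n),
    ?_, u 0, u 1, e0, c0, hu1, fun y hy => ?_⟩
  · have := h1 I' hI' hcard
    rwa [show 7 * (ε / 7) = ε by ring] at this
  have hpos : ∀ t : ℝ, 0 < W.B'.d n ^ t := fun t => Real.rpow_pos_of_pos (W.B'.pos n) t
  obtain ⟨hy1, hy2⟩ := mem_filter.1 hy
  have hyc := h2 hy1
  obtain ⟨a1', a2'⟩ := mem_lrep hyc rfl
  obtain ⟨b1', b2'⟩ := mem_zrep hyc rfl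
  have uy := H.unit gd hu hyc
  have ul := H.unit gd hu a1'
  have uz := H.unit gd hu b1'
  obtain ⟨k2, -⟩ := line_closeE uy fun s q0 => H.lineC gd hu hyc a1' a2'.symm s q0
  obtain ⟨-, d2, d3, d4⟩ := H.levC gd hu hyc b1' b2'.symm
  obtain ⟨r1, r2⟩ := hrel _ _ hy2
  rw [← H.nI_e, ← H.nI_fa, ← H.nI_fb, ← H.nI_v1, ← H.nI_v2, ← H.nI_v0]
  obtain ⟨q0, q1⟩ := unit_le hu1
  set δ := W.B'.d n ^ x with hδ
  have e1 : 100 * W.B'.d n ^ θ ≤ W.B'.d n ^ θ' := by
    have := mul_le_mul_of_nonneg_right hc (hpos θ).le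
    refine this.trans ?_
    rw [← Real.rpow_add (W.B'.pos n)]
    exact Real.rpow_le_rpow_of_exponent_ge (W.B'.pos n) (W.B'.lt n).le (by
      have := min_le_left (θ - θ') (x - θ'); linarith)
  have e2 : 100 * δ ≤ W.B'.d n ^ θ' := by
    have := mul_le_mul_of_nonneg_right hc (hpos x).le
    refine this.trans ?_
    rw [← Real.rpow_add (W.B'.pos n)]
    exact Real.rpow_le_rpow_of_exponent_ge (W.B'.pos n) (W.B'.lt n).le (by
      have := min_le_right (θ - θ') (x - θ'); linarith)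
  have hδ0 : 0 < δ := hpos x
  -- flags
  set e := (nI W F n y).e
  set fa := (nI W F n y).fa
  set fb := (nI W F n y).fb
  set ez := (nI W F n (W.zrep n (W.zc n y))).e
  set faz := (nI W F n (W.zrep n (W.zc n y))).fa
  set fbz := (nI W F n (W.zrep n (W.zc n y))).fb
  change |u 0 * ez + u 1 * (faz + fbz * ez) - e0| ≤ _ at r1
  have f1 : |fbz * ez - fb * e| ≤ 1 * δ + δ * 1 :=
    Wk323.prod_lip uy.fb uz.e d3 d2
  have g1 : |u 0 * (ez - e)| ≤ 1 * δ := abs_mul_le q0 d2
  have g2 : |u 1 * ((faz - fa) + (fbz * ez - fb * e))| ≤ 1 * (2 * δ + (1 * δ + δ * 1)) :=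
    abs_mul_le q1 ((abs_add_le _ _).trans (add_le_add d4 f1))
  -- absolute constants
  have z3 : W.B'.d n ^ θ ≤ 1 := Real.rpow_le_one (W.B'.pos n).le (W.B'.lt n).le (hθ0.trans hθ').le
  have ee : |e0| ≤ 5 := by
    have z1 := abs_mul_le q0 uz.e
    have z2 : |u 1 * (faz + fbz * ez)| ≤ 1 * (1 + 1 * 1) :=
      abs_mul_le q1 ((abs_add_le _ _).trans (add_le_add uz.fa (abs_mul_le uz.fb uz.e)))
    have z4 : e0 = (u 0 * ez + u 1 * (faz + fbz * ez)) - (u 0 * ez + u 1 * (faz + fbz * ez) - e0) := by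
      ring
    rw [z4]
    refine (abs_sub _ _).trans ?_
    have := abs_add_le (u 0 * ez) (u 1 * (faz + fbz * ez))
    linarith
  constructor
  · have z4 : u 0 * e + u 1 * (fa + fb * e) - e0 = (u 0 * ez + u 1 * (faz + fbz * ez) - e0) -
        u 0 * (ez - e) - u 1 * ((faz - fa) + (fbz * ez - fb * e)) := by ring
    rw [z4]
    have t1 := abs_sub ((u 0 * ez + u 1 * (faz + fbz * ez) - e0) - u 0 * (ez - e))
      (u 1 * ((faz - fa) + (fbz * ez - fb * e)))
    have t2 := abs_sub (u 0 * ez + u 1 * (faz + fbz * ez) - e0) (u 0 * (ez - e))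
    linarith
  · set v1 := (nI W F n y).t.v 1
    set v2 := (nI W F n y).t.v 2
    set v0 := (nI W F n y).t.v 0
    have k1 := k2 1
    have k3 := k2 2
    have k0 := k2 0
    change |(lT W F n (W.lc n y)).v 1 - v1| ≤ _ at k1
    change |(lT W F n (W.lc n y)).v 2 - v2| ≤ _ at k3
    change |(lT W F n (W.lc n y)).v 0 - v0| ≤ _ at k0
    change |u 0 * (lT W F n (W.lc n y)).v 2 + u 1 * (lT W F n (W.lc n y)).v 0 -
      e0 * (lT W F n (W.lc n y)).v 1 - c0| ≤ _ at r2
    have t0 := abs_mul_le q0 k3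
    have t1 := abs_mul_le q1 k0
    have t2 := abs_mul_le ee k1
    have z4 : u 0 * v2 + u 1 * v0 - e0 * v1 - c0 = (u 0 * (lT W F n (W.lc n y)).v 2 +
        u 1 * (lT W F n (W.lc n y)).v 0 - e0 * (lT W F n (W.lc n y)).v 1 - c0) -
        u 0 * ((lT W F n (W.lc n y)).v 2 - v2) - u 1 * ((lT W F n (W.lc n y)).v 0 - v0) +
        e0 * ((lT W F n (W.lc n y)).v 1 - v1) := by ring
    rw [z4]
    have s1 := abs_add_le ((u 0 * (lT W F n (W.lc n y)).v 2 +
        u 1 * (lT W F n (W.lc n y)).v 0 - e0 * (lT W F n (W.lc n y)).v 1 - c0) -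
        u 0 * ((lT W F n (W.lc n y)).v 2 - v2) - u 1 * ((lT W F n (W.lc n y)).v 0 - v0))
        (e0 * ((lT W F n (W.lc n y)).v 1 - v1))
    have s2 := abs_sub ((u 0 * (lT W F n (W.lc n y)).v 2 +
        u 1 * (lT W F n (W.lc n y)).v 0 - e0 * (lT W F n (W.lc n y)).v 1 - c0) -
        u 0 * ((lT W F n (W.lc n y)).v 2 - v2)) (u 1 * ((lT W F n (W.lc n y)).v 0 - v0))
    have s3 := abs_sub (u 0 * (lT W F n (W.lc n y)).v 2 +
        u 1 * (lT W F n (W.lc n y)).v 0 - e0 * (lT W F n (W.lc n y)).v 1 - c0)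
        (u 0 * ((lT W F n (W.lc n y)).v 2 - v2))
    linarith

end EWin

end

end Crest.Agent.R136.WinE323
end

-- ▼ part R136/WinE3_323
section

/-!
# R136 (S0187), row E, window half, piece (A) (helper323)

* `RCfg.wr`, `RModel.wr` : another relative coordinate with the same boxes (for a part of the legal
  exponents).
* `FWin` : windows with level slots `z, E, F_a`, `F_b` not resolved; `FWin.absE`.
* `rigInc : RigInc`.
-/

set_option autoImplicit false
set_option linter.unusedSectionVars false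
set_option linter.unusedVariables false

open Filter Topology

namespace Crest.Agent.R136.WinE323

open Finset
open Crest.Agent.R136.Sh605
open Crest.Agent.R136.Net186
open Crest.Agent.R136.NetQ186
open Crest.Agent.R136.Qg926
open Crest.Agent.R136.Net191
open Crest.Agent.R138.Ex926 (Base U cls mem_cls le_count_mul)
open Crest.Agent.R136.Gf356
open Crest.Agent.R136.RgE344
open Crest.Agent.R136.Wk323 (tq s4 s4_tq tq_ne tq_s4 uu nI st coQ_st co4_nrm lrep lrep_spec Tight nrm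
  Unit4 Near4 co4_lip coA coA_eq abs_mul_le fAll TightX tight_units wtR)
open Crest.Agent.R136.Wk323.LWin (lT lfb mem_rep mem_lrep mem_zrep)

/-! ### changing the relative coordinates -/

section wr

variable {κ : Type} {B : Base} {G : ℕ → RCfg κ} {Leg Leg' : Set (κ → ℝ)} {ν : (κ → ℝ) → ℝ}
  {D σ R : ℝ}

/-- the same configuration with other relative coordinates -/
def wr (G : RCfg κ) (rel : ℕ → ℕ → ℕ → κ → ℝ) : RCfg κ :=
  { ρ := G.ρ, L := G.L, Z := G.Z, I := G.I, z := G.z, rel := rel }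

theorem runif_wr (H : RUnif B G Leg ν D) (rel : ℕ → ℕ → ℕ → ℕ → κ → ℝ) (hL : Leg' ⊆ Leg)
    (hr : ∀ n k i, (i, k) ∈ (G n).I → ∀ j, rel n k i i j = 0)
    (h1 : ∀ p ∈ Leg', ∀ ε : ℝ, 0 < ε → ∀ᶠ n in (U : Filter ℕ), ∀ k i l, (i, k) ∈ (G n).I →
      (l, k) ∈ (G n).I → (G n).loose p ε k i l → (wr (G n) (rel n)).loose p (2 * ε) k i l)
    (h2 : ∀ p ∈ Leg', ∀ ε : ℝ, 0 < ε → ∀ᶠ n in (U : Filter ℕ), ∀ k i l, (i, k) ∈ (G n).I →
      (l, k) ∈ (G n).I → (wr (G n) (rel n)).loose p ε k i l → (G n).loose p (2 * ε) k i l) :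
    RUnif B (fun n => wr (G n) (rel n)) Leg' ν (4 * D) where
  D1 := by have := H.D1; linarith
  base := H.base
  sub := H.sub
  nonempty := H.nonempty
  refl := hr
  symm := by
    intro p hp ε hε
    have hD := H.D1
    filter_upwards [h2 p hp ε hε, H.symm p (hL hp) (2 * ε) (by positivity),
      h1 p hp (D * (2 * ε)) (by positivity)] with n a b c k i l hi hl h
    have := c k l i hl hi (b k i l hi hl (a k i l hi hl h))
    rwa [show 2 * (D * (2 * ε)) = 4 * D * ε by ring] at this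
  tri := by
    intro p hp ε hε
    have hD := H.D1
    filter_upwards [h2 p hp ε hε, H.tri p (hL hp) (2 * ε) (by positivity),
      h1 p hp (D * (2 * ε)) (by positivity)] with n a b c k i l m hi hl hm h h'
    have := c k i m hi hm (b k i l m hi hl hm (a k i l hi hl h) (a k l m hl hm h'))
    rwa [show 2 * (D * (2 * ε)) = 4 * D * ε by ring] at this
  low := by
    intro p hp ε hε
    filter_upwards [h1 p hp (ε / 2) (by positivity), H.low p (hL hp) (ε / 2) (by positivity)]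
      with n a b i k hi
    refine le_trans ?_ ((b i k hi).trans (Nat.cast_le.2 (card_le_card fun l hl => ?_)))
    · refine Real.rpow_le_rpow_of_exponent_ge (B.pos n) (B.lt n).le (by linarith)
    · rw [RCfg.mem_box] at hl ⊢
      have hm := (RCfg.mem_slice.1 hl.1).2
      have := a k i l hi hm hl.2
      rw [show 2 * (ε / 2) = ε by ring] at this
      exact ⟨hl.1, this⟩
  up := by
    intro p hp ε hε
    have hD := H.D1
    filter_upwards [h2 p hp ε hε, H.up p (hL hp) (2 * ε) (by positivity)] with n a b i k hi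
    refine le_trans (Nat.cast_le.2 (card_le_card fun l hl => ?_)) ((b i k hi).trans ?_)
    · rw [RCfg.mem_box] at hl ⊢
      have hm := (RCfg.mem_slice.1 hl.1).2
      exact ⟨hl.1, a k i l hi hm hl.2⟩
    · refine Real.rpow_le_rpow_of_exponent_ge (B.pos n) (B.lt n).le ?_
      nlinarith

/-- **the same model in other relative coordinates** -/
theorem rmodel_wr (H : RModel B G σ R Leg ν D) (rel : ℕ → ℕ → ℕ → ℕ → κ → ℝ) (hL : Leg' ⊆ Leg)
    (hr : ∀ n k i, (i, k) ∈ (G n).I → ∀ j, rel n k i i j = 0)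
    (h1 : ∀ p ∈ Leg', ∀ ε : ℝ, 0 < ε → ∀ᶠ n in (U : Filter ℕ), ∀ k i l, (i, k) ∈ (G n).I →
      (l, k) ∈ (G n).I → (G n).loose p ε k i l → (wr (G n) (rel n)).loose p (2 * ε) k i l)
    (h2 : ∀ p ∈ Leg', ∀ ε : ℝ, 0 < ε → ∀ᶠ n in (U : Filter ℕ), ∀ k i l, (i, k) ∈ (G n).I →
      (l, k) ∈ (G n).I → (wr (G n) (rel n)).loose p ε k i l → (G n).loose p (2 * ε) k i l) :
    RModel B (fun n => wr (G n) (rel n)) σ R Leg' ν (4 * D) :=
  { runif_wr H.toRUnif rel hL hr h1 h2 with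
    σ_nonneg := H.σ_nonneg
    σ_le := H.σ_le
    line := H.line
    slice := H.slice
    frost := H.frost }

end wr

/-! ### incidences without `F_b` -/

/-- the incidence with the intrinsic slope `(E, F_a + F_b E)`, `F_b := 0` -/
noncomputable def mI (i : Fl4) : Fl4 := ⟨i.t, i.z, i.e, i.fa + i.fb * i.e, 0⟩

theorem co4_mI4 (i j : Fl4) : co4 (mI i) (mI j) 4 = co4 i j 4 := by simp [co4, mI]
theorem co4_mI5 (i j : Fl4) : co4 (mI i) (mI j) 5 = co4 i j 5 := by simp [co4, mI]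
theorem co4_mI6 (i j : Fl4) : co4 (mI i) (mI j) 6 = co4 i j 6 + i.fb * co4 i j 5 := by
  simp [co4, mI]; ring
theorem co4_mI7 (i j : Fl4) : co4 (mI i) (mI j) 7 = co4 i j 7 := by simp [co4, mI]
theorem co4_mI8 (i j : Fl4) : co4 (mI i) (mI j) 8 = co4 i j 8 := by simp [co4, mI]
theorem co4_mI9 (i j : Fl4) : co4 (mI i) (mI j) 9 = co4 i j 9 + i.fb * co4 i j 8 := by
  simp [co4, mI]; ring

theorem co4_self (i : Fl4) (s : Fin 10) : co4 i i s = 0 := by
  fin_cases s <;> simp [co4]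

/-! ### the window -/

section fwin

variable {ι : ℕ → Type*} [∀ n, DecidableEq (ι n)]

/-- hypotheses on the window, `F_b` is not resolved -/
structure FWin (W : Wnd 11 ι) (F : ∀ n, ι n → Fq4) (x : ℝ) : Prop where
  ok : W.Ok
  co : ∀ n i j, W.co n i j = coQ (F n i) (F n j)
  str : ∀ n i, (F n i).y2 = 0
  S : W.S = {0, 2, 4}
  kz : W.kz = 0
  tight : ∀ᶠ n in (U : Filter ℕ), Tight (uu W n)
  kap : ∀ s, 2 * W.K0 ≤ W.kap s
  x0 : 0 ≤ x
  top3 : W.top 3 = 0
  top : ∀ s, s ≠ 3 → W.top s = x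

/-- the line slots -/
def ls6 : Finset (Fin 11) := {5, 6, 7, 8, 9, 10}

/-- relative coordinates without `F_b` -/
noncomputable def relF (W : Wnd 11 ι) (F : ∀ n, ι n → Fq4) (n k i l : ℕ) (s : Fin 11) : ℝ :=
  if s ∈ ls6 then co4 (mI (nI W F n (W.rep n i k))) (mI (nI W F n (W.rep n l k))) (s4 s) else 0

/-- `E` at the level cell `k` -/
noncomputable def eF (W : Wnd 11 ι) (F : ∀ n, ι n → Fq4) (n k : ℕ) : ℝ := (nI W F n (W.zrep n k)).e

/-- `F_a + F_b E` at the level cell `k` -/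
noncomputable def gF (W : Wnd 11 ι) (F : ∀ n, ι n → Fq4) (n k : ℕ) : ℝ :=
  (mI (nI W F n (W.zrep n k))).fa

namespace FWin

variable {W : Wnd 11 ι} {F : ∀ n, ι n → Fq4} {x : ℝ} (H : FWin W F x)

include H

/-- coordinates of normalised incidences = normalised coordinates -/
theorem co4_nI {n : ℕ} (hu : Tight (uu W n)) (i j : ι n) (s : Fin 10) :
    co4 (nI W F n i) (nI W F n j) s = W.crd n i j (tq s) := by
  unfold nI
  rw [co4_nrm hu]
  unfold Wnd.crd
  rw [H.co, coQ_st (H.str n i) (H.str n j) (tq_ne s), s4_tq]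
  rfl

/-- a box in normalised coordinates -/
theorem crd_le {n : ℕ} {c : Fin 11 → ℝ} {i j : ι n} (h : W.bx n c W.K0 i j) (s : Fin 11) :
    |W.crd n i j s| ≤ W.B'.d n ^ c s / 2 := by
  have hX : 0 < W.B.d n ^ W.X n s := Real.rpow_pos_of_pos (W.B.pos n) _
  have hc : 0 < W.B'.d n ^ c s := Real.rpow_pos_of_pos (W.B'.pos n) _
  have hk := H.ok.kap s
  have hpos : 0 < W.kap s * W.B.d n ^ W.X n s := mul_pos hk hX
  unfold Wnd.crd
  rw [abs_div, abs_of_pos hpos, div_le_iff₀ hpos]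
  refine (h s).trans ?_
  have h1 := H.kap s
  have h2 : 0 ≤ W.B.d n ^ W.X n s * W.B'.d n ^ c s := (mul_pos hX hc).le
  have h3 := mul_le_mul_of_nonneg_right h1 h2
  linarith

/-- two incidences of the class -/
theorem crd0 {n : ℕ} (g : W.Good n) {i j : ι n} (hi : i ∈ W.Cl n) (hj : j ∈ W.Cl n)
    (s : Fin 11) : |W.crd n i j s| ≤ 1 / 2 := by
  have := H.crd_le (H.ok.near0 g hi hj) s
  rwa [Pi.zero_apply, Real.rpow_zero] at this

/-- all incidences of the class are in half of the unit box -/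
theorem half {n : ℕ} (g : W.Good n) (hu : Tight (uu W n)) {i : ι n} (hi : i ∈ W.Cl n) :
    (∀ m, |(nI W F n i).t.v m| ≤ 1 / 2) ∧ (∀ m, |(nI W F n i).t.p m| ≤ 1 / 2) ∧
      |(nI W F n i).z| ≤ 1 / 2 ∧ |(nI W F n i).e| ≤ 1 / 2 ∧ |(nI W F n i).fa| ≤ 1 / 2 ∧
      |(nI W F n i).fb| ≤ 1 / 2 := by
  have h0 : ∀ s : Fin 10, |co4 (st (F n (W.s₀ n))) (st (F n i)) s / uu W n s| ≤ 1 / 2 := by
    intro s
    have h1 := H.crd0 g g.s0 hi (tq s)
    have e : co4 (st (F n (W.s₀ n))) (st (F n i)) s / uu W n s = W.crd n (W.s₀ n) i (tq s) := by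
      unfold Wnd.crd
      rw [H.co, coQ_st (H.str n _) (H.str n i) (tq_ne s), s4_tq]
      rfl
    rw [e]
    exact h1
  refine ⟨?_, ?_, h0 0, h0 1, h0 3, h0 2⟩
  · intro m
    fin_cases m
    · exact h0 6
    · exact h0 4
    · exact h0 5
  · intro m
    fin_cases m
    · exact h0 9
    · exact h0 7
    · exact h0 8

theorem unit {n : ℕ} (g : W.Good n) (hu : Tight (uu W n)) {i : ι n} (hi : i ∈ W.Cl n) :
    Unit4 (nI W F n i) := by
  obtain ⟨h1, h2, h3, h4, h5, h6⟩ := H.half g hu hi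
  exact ⟨fun m => (h1 m).trans (by norm_num), fun m => (h2 m).trans (by norm_num),
    h3.trans (by norm_num), h4.trans (by norm_num), h5.trans (by norm_num),
    h6.trans (by norm_num)⟩

/-- the intrinsic slope is bounded -/
theorem unitM {n : ℕ} (g : W.Good n) (hu : Tight (uu W n)) {i : ι n} (hi : i ∈ W.Cl n) :
    Unit4 (mI (nI W F n i)) := by
  obtain ⟨h1, h2, h3, h4, h5, h6⟩ := H.half g hu hi
  refine ⟨fun m => (h1 m).trans (by norm_num), fun m => (h2 m).trans (by norm_num),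
    h3.trans (by norm_num), h4.trans (by norm_num), ?_, ?_⟩
  · show |(nI W F n i).fa + (nI W F n i).fb * (nI W F n i).e| ≤ 1
    have := abs_mul_le h6 h4
    exact (abs_add_le _ _).trans (by linarith)
  · show |(0 : ℝ)| ≤ 1
    rw [abs_zero]; exact zero_le_one

/-- same fat line -/
theorem lineC {n : ℕ} (g : W.Good n) (hu : Tight (uu W n)) {i j : ι n} (hi : i ∈ W.Cl n)
    (hj : j ∈ W.Cl n) (hl : W.lc n i = W.lc n j) (s : Fin 10) (h0 : 4 ≤ s) :
    |co4 (nI W F n i) (nI W F n j) s| ≤ W.B'.d n ^ x := by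
  rw [H.co4_nI hu]
  refine (H.crd_le (H.ok.near_lc g hi hj hl) (tq s)).trans ?_
  have hS : tq s ∉ W.S := by
    rw [H.S]
    revert h0
    fin_cases s <;> decide
  have h3 : tq s ≠ 3 := by
    revert h0
    fin_cases s <;> decide
  rw [cut_of_notMem hS, H.top _ h3]
  have h4 : 0 < W.B'.d n ^ x := Real.rpow_pos_of_pos (W.B'.pos n) _
  linarith

/-- same level cell: `z`, `E` and the intrinsic `F_a + F_b E` -/
theorem levC {n : ℕ} (g : W.Good n) (hu : Tight (uu W n)) {i j : ι n} (hi : i ∈ W.Cl n)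
    (hj : j ∈ W.Cl n) (hl : W.zc n i = W.zc n j) :
    |(nI W F n j).z - (nI W F n i).z| ≤ W.B'.d n ^ x ∧
      |(nI W F n j).e - (nI W F n i).e| ≤ W.B'.d n ^ x ∧
      |(mI (nI W F n j)).fa - (mI (nI W F n i)).fa| ≤ 2 * W.B'.d n ^ x := by
  have key : ∀ s : Fin 10, tq s ∈ W.S → tq s ≠ 3 →
      |co4 (nI W F n i) (nI W F n j) s| ≤ W.B'.d n ^ x := by
    intro s hS h3
    rw [H.co4_nI hu]
    refine (H.crd_le (H.ok.near_zc g hi hj hl) (tq s)).trans ?_
    rw [cut_of_mem hS, H.top _ h3]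
    have h4 : 0 < W.B'.d n ^ x := Real.rpow_pos_of_pos (W.B'.pos n) _
    linarith
  have k0 := key 0 (by rw [H.S]; decide) (by decide)
  have k1 := key 1 (by rw [H.S]; decide) (by decide)
  have k3 := key 3 (by rw [H.S]; decide) (by decide)
  refine ⟨k0, k1, ?_⟩
  change |((nI W F n j).fa - (nI W F n i).fa) + (nI W F n i).e *
    ((nI W F n j).fb - (nI W F n i).fb)| ≤ _ at k3
  change |(nI W F n j).e - (nI W F n i).e| ≤ _ at k1
  have c := abs_mul_le (H.unit g hu hj).fb k1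
  have e : (mI (nI W F n j)).fa - (mI (nI W F n i)).fa = (((nI W F n j).fa - (nI W F n i).fa) +
      (nI W F n i).e * ((nI W F n j).fb - (nI W F n i).fb)) + (nI W F n j).fb *
      ((nI W F n j).e - (nI W F n i).e) := by
    show ((nI W F n j).fa + (nI W F n j).fb * (nI W F n j).e) -
      ((nI W F n i).fa + (nI W F n i).fb * (nI W F n i).e) = _
    ring
  rw [e]
  refine (abs_add_le _ _).trans ?_
  linarith

/-- the heights of the configuration are the normalised heights of `zrep` -/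
theorem z_eq {n : ℕ} (k : ℕ) : W.crd n (W.s₀ n) (W.zrep n k) W.kz = (nI W F n (W.zrep n k)).z := by
  rw [H.kz]
  unfold Wnd.crd
  rw [H.co, coQ_st (H.str n _) (H.str n _) (by decide)]
  rfl

/-- the absolute incidence of `(l, k)` is in the unit box and close to the representative -/
theorem abs_near {n : ℕ} (g : W.Good n) (hu : Tight (uu W n)) {l k : ℕ}
    (h : W.rep n l k ∈ W.Cl n ∧ W.lc n (W.rep n l k) = l ∧ W.zc n (W.rep n l k) = k) :
    Unit4 ⟨lT W F n l, W.crd n (W.s₀ n) (W.zrep n k) W.kz, eF W F n k, gF W F n k, 0⟩ ∧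
      Near4 (mI (nI W F n (W.rep n l k))) ⟨lT W F n l, W.crd n (W.s₀ n) (W.zrep n k) W.kz,
        eF W F n k, gF W F n k, 0⟩ (8 * W.B'.d n ^ x) := by
  obtain ⟨h1, h2, h3⟩ := h
  obtain ⟨a1, a2⟩ := mem_lrep h1 h2
  obtain ⟨b1, b2⟩ := mem_zrep h1 h3
  have hη : 0 < W.B'.d n ^ x := Real.rpow_pos_of_pos (W.B'.pos n) _
  have ul := H.unit g hu a1
  have uz := H.unitM g hu b1
  have ur := H.unit g hu h1
  rw [H.z_eq]
  obtain ⟨c2, c3⟩ := line_closeE ur (fun s hs => H.lineC g hu h1 a1 (h2.trans a2.symm) s hs)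
  obtain ⟨d1, d2, d4⟩ := H.levC g hu h1 b1 (h3.trans b2.symm)
  refine ⟨⟨ul.v, ul.p, uz.z, uz.e, uz.fa, uz.fb⟩, ⟨fun m => (c2 m).trans (by linarith), c3,
    d1.trans (by linarith), d2.trans (by linarith), d4.trans (by linarith), ?_⟩⟩
  show |(0 : ℝ) - 0| ≤ _
  rw [sub_zero, abs_zero]
  positivity

omit H in
theorem ls6_fAll {s : Fin 11} (hs : s ∈ ls6) : s ∈ fAll := by
  revert hs
  unfold ls6
  fin_cases s <;> decide

/-- **a window of case E in absolute coordinates**, `F_b := 0` -/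
theorem absE {E : ∀ n, Finset (ι n)}
    (hE : ∀ᶠ n in (U : Filter ℕ), E n ⊆ W.Cl n ∧ W.cfg E n = W.cfg0 n (E n)) :
    AbsE W.B' (fun n => wr (W.cfg E n) (relF W F n)) x (lT W F) (eF W F) (gF W F)
      (fun _ _ => 0) where
  bd := by
    filter_upwards [hE, H.ok.ev_good, H.tight] with n ⟨h1, h2⟩ g hu l k hI
    change (l, k) ∈ (W.cfg E n).I at hI
    have hz : (wr (W.cfg E n) (relF W F n)).z k = (nI W F n (W.zrep n k)).z := by
      show (W.cfg E n).z k = _
      rw [h2]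
      exact H.z_eq k
    rw [h2] at hI
    have hr := mem_rep h1 hI
    obtain ⟨a1, a2⟩ := mem_lrep hr.1 hr.2.1
    obtain ⟨b1, b2⟩ := mem_zrep hr.1 hr.2.2
    obtain ⟨v, p, -, -, -, -⟩ := H.half g hu a1
    obtain ⟨-, -, z, e, -, -⟩ := H.half g hu b1
    rw [hz]
    refine ⟨z.trans (by norm_num), fun j => ?_, fun j => (v j).trans (by norm_num),
      e.trans (by norm_num), (H.unitM g hu b1).fa, by rw [abs_zero]; exact zero_le_one⟩
    show |(nI W F n (lrep W n l)).t.p j +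
      (nI W F n (W.zrep n k)).z * (nI W F n (lrep W n l)).t.v j| ≤ 1
    refine (abs_add_le _ _).trans ?_
    have := abs_mul_le z (v j)
    have := p j
    linarith
  bdr := by
    filter_upwards [hE, H.ok.ev_good, H.tight] with n ⟨h1, h2⟩ g hu k i l hi hl s
    change (i, k) ∈ (W.cfg E n).I at hi
    change (l, k) ∈ (W.cfg E n).I at hl
    rw [h2] at hi hl
    have ri := mem_rep h1 hi
    have rl := mem_rep h1 hl
    show |relF W F n k i l s| ≤ 1
    unfold relF
    split_ifs with hs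
    · have c : ∀ t : Fin 10, |co4 (nI W F n (W.rep n i k)) (nI W F n (W.rep n l k)) t| ≤ 1 / 2 :=
        fun t => by rw [H.co4_nI hu]; exact H.crd0 g ri.1 rl.1 _
      obtain ⟨-, -, -, -, -, fb⟩ := H.half g hu ri.1
      have m5 := abs_mul_le fb (c 5)
      have m8 := abs_mul_le fb (c 8)
      have hs' : s = 5 ∨ s = 6 ∨ s = 7 ∨ s = 8 ∨ s = 9 ∨ s = 10 := by simpa [ls6] using hs
      rcases hs' with rfl | rfl | rfl | rfl | rfl | rfl
      · show |co4 _ _ 4| ≤ 1
        rw [co4_mI4]; exact (c 4).trans (by norm_num)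
      · show |co4 _ _ 5| ≤ 1
        rw [co4_mI5]; exact (c 5).trans (by norm_num)
      · show |co4 _ _ 6| ≤ 1
        rw [co4_mI6]; exact (abs_add_le _ _).trans (by linarith [c 6])
      · show |co4 _ _ 7| ≤ 1
        rw [co4_mI7]; exact (c 7).trans (by norm_num)
      · show |co4 _ _ 8| ≤ 1
        rw [co4_mI8]; exact (c 8).trans (by norm_num)
      · show |co4 _ _ 9| ≤ 1
        rw [co4_mI9]; exact (abs_add_le _ _).trans (by linarith [c 9])
    · rw [abs_zero]; exact zero_le_one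
  rel := by
    intro ε hε
    filter_upwards [hE, H.ok.ev_good, H.tight, ev_const_le W.B' hε 240] with n ⟨h1, h2⟩ g hu hc
      k i l hi hl s hs
    change (i, k) ∈ (W.cfg E n).I at hi
    change (l, k) ∈ (W.cfg E n).I at hl
    have hz : (wr (W.cfg E n) (relF W F n)).z k = W.crd n (W.s₀ n) (W.zrep n k) W.kz := by
      show (W.cfg E n).z k = _
      rw [h2]
      rfl
    rw [h2] at hi hl
    have ri := mem_rep h1 hi
    have rl := mem_rep h1 hl
    obtain ⟨ui, ni⟩ := H.abs_near g hu ri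
    obtain ⟨ul, nl⟩ := H.abs_near g hu rl
    have hs6 : s ∈ ls6 := hs
    have e1 : (wr (W.cfg E n) (relF W F n)).rel k i l s =
        co4 (mI (nI W F n (W.rep n i k))) (mI (nI W F n (W.rep n l k))) (s4 s) := by
      show relF W F n k i l s = _
      unfold relF
      rw [if_pos hs6]
    rw [e1, hz, coA_eq _ _ _ _ _ _ _ _ (ls6_fAll hs6), abs_sub_comm]
    refine (co4_lip (H.unitM g hu ri.1) ui (H.unitM g hu rl.1) ul ni nl (s4 s)).trans ?_
    have e2 : W.B'.d n ^ (x - ε) = W.B'.d n ^ x * W.B'.d n ^ (-ε) := by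
      rw [← Real.rpow_add (W.B'.pos n)]
      rfl
    rw [e2]
    have hη : 0 < W.B'.d n ^ x := Real.rpow_pos_of_pos (W.B'.pos n) _
    have := mul_le_mul_of_nonneg_left hc hη.le
    linarith

end FWin

end fwin

end Crest.Agent.R136.WinE323
end

-- ▼ part R136/WinE4_323

/-!
# R136 (S0187), row E, window half, piece (A), end (helper323)

* `FWin.rmodel` : the model in the coordinates without `F_b`, isotropic boxes.
* `profE_of` : the profile.
* `FWin.rig_inc`, **`rigInc : RigInc`**.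
-/

set_option autoImplicit false
set_option linter.unusedSectionVars false
set_option linter.unusedVariables false

open Filter Topology

namespace Crest.Agent.R136.WinE323

open Finset
open Crest.Agent.R136.Sh605
open Crest.Agent.R136.Net186
open Crest.Agent.R136.NetQ186
open Crest.Agent.R136.Qg926
open Crest.Agent.R136.Net191
open Crest.Agent.R138.Ex926 (Base U cls mem_cls le_count_mul)
open Crest.Agent.R136.Gf356
open Crest.Agent.R136.RgE344
open Crest.Agent.R136.Xb403 (stP POk)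
open Crest.Agent.R136.Wk323 (tq s4 s4_tq tq_ne tq_s4 uu nI st coQ_st co4_nrm lrep lrep_spec Tight nrm
  Unit4 Near4 co4_lip coA coA_eq abs_mul_le fAll TightX tight_units wtR sub_lip)
open Crest.Agent.R136.Wk323.LWin (lT lfb mem_rep mem_lrep mem_zrep)

variable {ι : ℕ → Type*} [∀ n, DecidableEq (ι n)]

/-- isotropic legal boxes -/
def isoL (W : Wnd 11 ι) : Set (Fin 11 → ℝ) :=
  {p | p ∈ W.legW ∧ p 1 = 0 ∧ p 3 = 0 ∧ (∀ s ∈ W.S, p s = 0) ∧ p 6 = p 7 ∧ p 9 = p 10}

namespace FWin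

variable {W : Wnd 11 ι} {F : ∀ n, ι n → Fq4} {x : ℝ} (H : FWin W F x)

include H

theorem rel_eq {n : ℕ} (hu : Tight (uu W n)) {k i l : ℕ} {s : Fin 11} (hs : s ∈ ls6)
    {E : Finset (ι n)} :
    (W.cfg0 n E).rel k i l s = co4 (nI W F n (W.rep n i k)) (nI W F n (W.rep n l k)) (s4 s) := by
  rw [H.co4_nI hu, tq_s4 (ls6_fAll hs)]
  show (if s ∈ W.S then (0 : ℝ) else W.crd n (W.rep n i k) (W.rep n l k) s) = _
  rw [if_neg]
  rw [H.S]
  revert hs
  unfold ls6
  fin_cases s <;> decide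

/-- **the model in the coordinates without `F_b`** -/
theorem rmodel {E : ∀ n, Finset (ι n)} {D : ℝ}
    (hE : ∀ᶠ n in (U : Filter ℕ), E n ⊆ W.Cl n ∧ W.cfg E n = W.cfg0 n (E n))
    (hM : RModel W.B' (W.cfg E) 1 x W.legW W.nu D) :
    RModel W.B' (fun n => wr (W.cfg E n) (relF W F n)) 1 x (isoL W) W.nu (4 * D) := by
  refine rmodel_wr hM (relF W F) (fun p hp => hp.1) ?_ ?_ ?_
  · intro n k i _ j
    unfold relF
    split_ifs
    · exact co4_self _ _
    · rfl
  · intro p hp ε hε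
    obtain ⟨-, p1, p3, pS, p67, p910⟩ := hp
    filter_upwards [hE, H.ok.ev_good, H.tight, ev_const_le W.B' hε 2] with n ⟨h1, h2⟩ g hu hc
      k i l hi hl hlo
    rw [h2] at hi hl hlo
    have ri := mem_rep h1 hi
    have rl := mem_rep h1 hl
    have hρ : (wr (W.cfg E n) (relF W F n)).ρ = W.B'.d n := by
      show (W.cfg E n).ρ = _
      rw [h2]
      rfl
    have hpos : ∀ t : ℝ, 0 < W.B'.d n ^ t := fun t => Real.rpow_pos_of_pos (W.B'.pos n) t
    have hl2 : ∀ s, 2 * W.B'.d n ^ (p s - ε) ≤ W.B'.d n ^ (p s - 2 * ε) := by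
      intro s
      have := mul_le_mul_of_nonneg_right hc (hpos (p s - ε)).le
      rw [← Real.rpow_add (W.B'.pos n)] at this
      refine this.trans (le_of_eq ?_)
      congr 1; ring
    have c : ∀ s ∈ ls6, |co4 (nI W F n (W.rep n i k)) (nI W F n (W.rep n l k)) (s4 s)| ≤
        W.B'.d n ^ (p s - ε) := fun s hs => by
      rw [← H.rel_eq hu hs (E := E n)]
      exact hlo s
    obtain ⟨-, -, -, -, -, fb⟩ := H.half g hu ri.1
    intro s
    rw [hρ]
    show |relF W F n k i l s| ≤ _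
    unfold relF
    split_ifs with hs
    · have hs' : s = 5 ∨ s = 6 ∨ s = 7 ∨ s = 8 ∨ s = 9 ∨ s = 10 := by simpa [ls6] using hs
      have q5 := c 5 (by decide)
      have q6 := c 6 (by decide)
      have q7 := c 7 (by decide)
      have q8 := c 8 (by decide)
      have q9 := c 9 (by decide)
      have q10 := c 10 (by decide)
      have r7 := hl2 7
      have r10 := hl2 10
      have m6 := abs_mul_le fb q6
      have m9 := abs_mul_le fb q9
      have o : ∀ s, W.B'.d n ^ (p s - ε) ≤ W.B'.d n ^ (p s - 2 * ε) := fun s => by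
        have := hl2 s
        have := hpos (p s - ε)
        linarith
      rw [p67] at m6
      rw [p910] at m9
      rcases hs' with rfl | rfl | rfl | rfl | rfl | rfl
      · show |co4 _ _ 4| ≤ _
        rw [co4_mI4]; exact le_trans q5 (o _)
      · show |co4 _ _ 5| ≤ _
        rw [co4_mI5]; exact le_trans q6 (o _)
      · show |co4 _ _ 6| ≤ _
        rw [co4_mI6]
        refine le_trans (abs_add_le _ _) (le_trans (add_le_add q7 m6) ?_)
        have := hpos (p 7 - ε)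
        linarith
      · show |co4 _ _ 7| ≤ _
        rw [co4_mI7]; exact le_trans q8 (o _)
      · show |co4 _ _ 8| ≤ _
        rw [co4_mI8]; exact le_trans q9 (o _)
      · show |co4 _ _ 9| ≤ _
        rw [co4_mI9]
        refine le_trans (abs_add_le _ _) (le_trans (add_le_add q10 m9) ?_)
        have := hpos (p 10 - ε)
        linarith
    · rw [abs_zero]; exact (hpos _).le
  · intro p hp ε hε
    obtain ⟨-, p1, p3, pS, p67, p910⟩ := hp
    filter_upwards [hE, H.ok.ev_good, H.tight, ev_const_le W.B' hε 2] with n ⟨h1, h2⟩ g hu hc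
      k i l hi hl hlo
    rw [h2] at hi hl ⊢
    have ri := mem_rep h1 hi
    have rl := mem_rep h1 hl
    have hρ : (wr (W.cfg E n) (relF W F n)).ρ = W.B'.d n := by
      show (W.cfg E n).ρ = _
      rw [h2]
      rfl
    have hρ0 : (W.cfg0 n (E n)).ρ = W.B'.d n := rfl
    have hpos : ∀ t : ℝ, 0 < W.B'.d n ^ t := fun t => Real.rpow_pos_of_pos (W.B'.pos n) t
    have hl2 : ∀ s, 2 * W.B'.d n ^ (p s - ε) ≤ W.B'.d n ^ (p s - 2 * ε) := by
      intro s
      have := mul_le_mul_of_nonneg_right hc (hpos (p s - ε)).le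
      rw [← Real.rpow_add (W.B'.pos n)] at this
      refine this.trans (le_of_eq ?_)
      congr 1; ring
    have c : ∀ s ∈ ls6, |co4 (mI (nI W F n (W.rep n i k))) (mI (nI W F n (W.rep n l k))) (s4 s)| ≤
        W.B'.d n ^ (p s - ε) := fun s hs => by
      have := hlo s
      rw [hρ] at this
      change |relF W F n k i l s| ≤ _ at this
      unfold relF at this
      rwa [if_pos hs] at this
    obtain ⟨-, -, -, -, -, fb⟩ := H.half g hu ri.1
    intro s
    rw [hρ0]
    by_cases hs : s ∈ ls6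
    · rw [H.rel_eq hu hs]
      have hs' : s = 5 ∨ s = 6 ∨ s = 7 ∨ s = 8 ∨ s = 9 ∨ s = 10 := by simpa [ls6] using hs
      have q5 := c 5 (by decide)
      have q6 := c 6 (by decide)
      have q7 := c 7 (by decide)
      have q8 := c 8 (by decide)
      have q9 := c 9 (by decide)
      have q10 := c 10 (by decide)
      change |co4 _ _ 4| ≤ _ at q5
      change |co4 _ _ 5| ≤ _ at q6
      change |co4 _ _ 6| ≤ _ at q7
      change |co4 _ _ 7| ≤ _ at q8
      change |co4 _ _ 8| ≤ _ at q9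
      change |co4 _ _ 9| ≤ _ at q10
      rw [co4_mI4] at q5
      rw [co4_mI5] at q6
      rw [co4_mI6] at q7
      rw [co4_mI7] at q8
      rw [co4_mI8] at q9
      rw [co4_mI9] at q10
      have r7 := hl2 7
      have r10 := hl2 10
      have m6 := abs_mul_le fb q6
      have m9 := abs_mul_le fb q9
      have o : ∀ s, W.B'.d n ^ (p s - ε) ≤ W.B'.d n ^ (p s - 2 * ε) := fun s => by
        have := hl2 s
        have := hpos (p s - ε)
        linarith
      rw [p67] at m6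
      rw [p910] at m9
      rcases hs' with rfl | rfl | rfl | rfl | rfl | rfl
      · exact le_trans q5 (o _)
      · exact le_trans q6 (o _)
      · show |co4 _ _ 6| ≤ _
        have e : co4 (nI W F n (W.rep n i k)) (nI W F n (W.rep n l k)) 6 =
            (co4 (nI W F n (W.rep n i k)) (nI W F n (W.rep n l k)) 6 +
              (nI W F n (W.rep n i k)).fb * co4 (nI W F n (W.rep n i k)) (nI W F n (W.rep n l k)) 5) -
              (nI W F n (W.rep n i k)).fb *
                co4 (nI W F n (W.rep n i k)) (nI W F n (W.rep n l k)) 5 := by ring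
        rw [e]
        refine le_trans (abs_sub _ _) (le_trans (add_le_add q7 m6) ?_)
        have := hpos (p 7 - ε)
        linarith
      · exact le_trans q8 (o _)
      · exact le_trans q9 (o _)
      · show |co4 _ _ 9| ≤ _
        have e : co4 (nI W F n (W.rep n i k)) (nI W F n (W.rep n l k)) 9 =
            (co4 (nI W F n (W.rep n i k)) (nI W F n (W.rep n l k)) 9 +
              (nI W F n (W.rep n i k)).fb * co4 (nI W F n (W.rep n i k)) (nI W F n (W.rep n l k)) 8) -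
              (nI W F n (W.rep n i k)).fb *
                co4 (nI W F n (W.rep n i k)) (nI W F n (W.rep n l k)) 8 := by ring
        rw [e]
        refine le_trans (abs_sub _ _) (le_trans (add_le_add q10 m9) ?_)
        have := hpos (p 10 - ε)
        linarith
    · show |(if s ∈ W.S then (0 : ℝ) else W.crd n (W.rep n i k) (W.rep n l k) s)| ≤ _
      split_ifs with hS
      · rw [abs_zero]; exact (hpos _).le
      · have hs13 : s = 1 ∨ s = 3 := by
          rw [H.S] at hS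
          revert hS hs
          unfold ls6
          fin_cases s <;> decide
        have ps : p s = 0 := by rcases hs13 with rfl | rfl <;> assumption
        have q := H.crd0 g ri.1 rl.1 s
        rw [ps]
        refine q.trans (le_trans (by norm_num : (1 / 2 : ℝ) ≤ 1) ?_)
        exact Real.one_le_rpow_of_pos_of_le_one_of_nonpos (W.B'.pos n) (W.B'.lt n).le (by linarith)

end FWin

end Crest.Agent.R136.WinE323
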