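import Crest.Agent.R136.Ev6_356
import Crest.Agent.R136.Qg7_926
import Crest.Agent.R136.Z2a_403

-- ▼ part R136/Z2v_683
section

/-!
# R136: the block `(X_a, N)` with velocities `(C_a, P)` in the absolute frame of the base incidence
of a window of helper926, chart of helper186 (helper683)

`Z2W W x` : normalising constants `1`, resolution `≥ x` in the slots `z, C_a, P, X_a, N`, tight walls `X_a ≤ z + C_a`, `N ≤ z + P`,
slots `R` and `F_b` negligible at precision `ρ ^ x`.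

* `lrp W n l` : representative of a fat line;
* `bA`, `bV`, `bF` : position (at the height of the base incidence), velocity, position at height `k`;
* `Z2W.hF`, `.hlink`, `.hT`, `.hqf`, `.hql`, `.hCl` : hypotheses of 403's `strip_lam_R`, `block_R`.
-/

set_option autoImplicit false
set_option linter.unusedSectionVars false
set_option linter.unusedVariables false

open Filter Topology

namespace Crest.Agent.R136.Z2683

open Finset Crest.Agent.R136.NetQ186 Crest.Agent.R136.Net191 Crest.Agent.R136.Qg926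
open Crest.Agent.R136.Gf356 Crest.Agent.R136.Ev356
open Crest.Agent.R138.Ex926 (Base U)

/-! ### raw identities -/

theorem raw7 (p x y : Fq4) : coQ p y 7 - coQ p x 7 = coQ x y 7 - 2 * (coQ p x 0 * coQ x y 1) +
    coQ p x 4 * coQ x y 5 + coQ p x 2 * coQ p x 3 * coQ x y 5 + coQ p x 3 * coQ x y 6 := by
  simp only [coQ, Fq4.vy, Matrix.cons_val]
  ring

theorem raw8 (p x y : Fq4) (h : ℝ) : (coQ p y 8 + h * coQ p y 5) - (coQ p x 8 + h * coQ p x 5) =
    coQ x y 8 + (h - coQ p x 0) * coQ x y 5 := by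
  simp only [coQ, Fq4.pa, Matrix.cons_val]
  ring

theorem raw10 (p x y : Fq4) (h : ℝ) :
    (coQ p y 10 + h * coQ p y 7) - (coQ p x 10 + h * coQ p x 7) =
    coQ x y 10 + (h - coQ p x 0) * coQ x y 7 + ((h - coQ p x 0) ^ 2 - h ^ 2) * coQ x y 1 +
    coQ p x 4 * (coQ x y 8 + (h - coQ p x 0) * coQ x y 5) +
    coQ p x 2 * coQ p x 3 * (coQ x y 8 + (h - coQ p x 0) * coQ x y 5) +
    coQ p x 3 * (coQ x y 9 + (h - coQ p x 0) * coQ x y 6) := by
  simp only [coQ, Fq4.pa, Fq4.pb, Fq4.py, Fq4.vy, Matrix.cons_val]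
  ring

/-! ### estimates -/

theorem est7 {K η D a0 a2 a3 a4 b1 b5 b6 b7 c017 c457 c234 c367 : ℝ} (hK : 1 ≤ K) (hη : 0 ≤ η)
    (h : D = b7 - 2 * c017 * (a0 * b1) + c457 * (a4 * b5) + c234 * c457 * (a2 * a3 * b5) +
      c367 * (a3 * b6)) (ha0 : |a0| ≤ K) (ha2 : |a2| ≤ K) (ha3 : |a3| ≤ K) (ha4 : |a4| ≤ K)
    (hb1 : |b1| ≤ K) (hb6 : |b6| ≤ K) (h017 : 0 ≤ c017) (h017' : c017 ≤ η) (h367 : 0 ≤ c367)
    (h367' : c367 ≤ η) (h457 : 0 ≤ c457) (h457' : c457 ≤ 1) (h234 : 0 ≤ c234)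
    (h234' : c234 ≤ 1) : |D - b7| ≤ 3 * K ^ 2 * η + 2 * K ^ 2 * |b5| := by
  have e1 : |2 * c017 * (a0 * b1)| ≤ 2 * η * (K * K) := by
    rw [abs_mul, abs_mul a0, abs_of_nonneg (by positivity : 0 ≤ 2 * c017)]
    exact mul_le_mul (by linarith) (mul_le_mul ha0 hb1 (abs_nonneg _) (by linarith))
      (by positivity) (by positivity)
  have e2 : |c457 * (a4 * b5)| ≤ 1 * (K * |b5|) := by
    rw [abs_mul, abs_mul a4, abs_of_nonneg h457]
    exact mul_le_mul h457' (mul_le_mul_of_nonneg_right ha4 (abs_nonneg _)) (by positivity)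
      (by norm_num)
  have e3 : |c234 * c457 * (a2 * a3 * b5)| ≤ 1 * 1 * (K * K * |b5|) := by
    rw [abs_mul, abs_mul (a2 * a3), abs_mul a2, abs_of_nonneg (mul_nonneg h234 h457)]
    exact mul_le_mul (mul_le_mul h234' h457' h457 (by norm_num))
      (mul_le_mul_of_nonneg_right (mul_le_mul ha2 ha3 (abs_nonneg _) (by linarith))
        (abs_nonneg _)) (by positivity) (by norm_num)
  have e4 : |c367 * (a3 * b6)| ≤ η * (K * K) := by
    rw [abs_mul, abs_mul a3, abs_of_nonneg h367]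
    exact mul_le_mul h367' (mul_le_mul ha3 hb6 (abs_nonneg _) (by linarith)) (by positivity) hη
  have e5 : D - b7 = -(2 * c017 * (a0 * b1)) + c457 * (a4 * b5) +
      c234 * c457 * (a2 * a3 * b5) + c367 * (a3 * b6) := by rw [h]; ring
  have e6 := abs_add_le (-(2 * c017 * (a0 * b1)) + c457 * (a4 * b5) +
      c234 * c457 * (a2 * a3 * b5)) (c367 * (a3 * b6))
  have e7 := abs_add_le (-(2 * c017 * (a0 * b1)) + c457 * (a4 * b5))
      (c234 * c457 * (a2 * a3 * b5))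
  have e8 := abs_add_le (-(2 * c017 * (a0 * b1))) (c457 * (a4 * b5))
  rw [abs_neg] at e8
  rw [e5]
  have k2 : K * |b5| ≤ K ^ 2 * |b5| :=
    mul_le_mul_of_nonneg_right (by nlinarith) (abs_nonneg _)
  nlinarith

theorem est10 {K η D g h a2 a3 a4 b1 b5 b6 b7 b8 b9 b10 cR c4 c234 c3 c069 : ℝ} (hK : 1 ≤ K)
    (hη : 0 ≤ η)
    (hD : D = b10 + g * b7 + cR * ((g ^ 2 - h ^ 2) * b1) + c4 * (a4 * (b8 + g * b5)) +
      c234 * c4 * (a2 * a3 * (b8 + g * b5)) + c3 * (a3 * (b9 + c069 * (g * b6))))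
    (hg : |g| ≤ 2 * K) (hh : |h| ≤ K) (ha2 : |a2| ≤ K) (ha3 : |a3| ≤ K) (ha4 : |a4| ≤ K)
    (hb1 : |b1| ≤ K) (hb6 : |b6| ≤ K) (hb9 : |b9| ≤ K)
    (hR : 0 ≤ cR) (hR' : cR ≤ η) (h3 : 0 ≤ c3) (h3' : c3 ≤ η) (h4 : 0 ≤ c4) (h4' : c4 ≤ 1)
    (h234 : 0 ≤ c234) (h234' : c234 ≤ 1) (h069 : 0 ≤ c069) (h069' : c069 ≤ 1) :
    |D - b10| ≤ |g| * |b7| + 2 * K ^ 2 * (|b8| + |g| * |b5|) + 8 * K ^ 3 * η := by
  have K0 : 0 ≤ K := by linarith
  set q : ℝ := |b8| + |g| * |b5| with hq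
  have hq0 : 0 ≤ q := by positivity
  have hbq : |b8 + g * b5| ≤ q := by
    refine (abs_add_le _ _).trans ?_
    rw [abs_mul]
  have e1 : |g * b7| = |g| * |b7| := abs_mul _ _
  have e2 : |cR * ((g ^ 2 - h ^ 2) * b1)| ≤ η * ((5 * K ^ 2) * K) := by
    rw [abs_mul, abs_mul (g ^ 2 - h ^ 2), abs_of_nonneg hR]
    refine mul_le_mul hR' (mul_le_mul ?_ hb1 (abs_nonneg _) (by positivity)) (by positivity) hη
    have g2 : g ^ 2 ≤ (2 * K) ^ 2 := sq_le_sq' (by linarith [neg_abs_le g]) ((le_abs_self g).trans hg)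
    have h2 : h ^ 2 ≤ K ^ 2 := sq_le_sq' (by linarith [neg_abs_le h]) ((le_abs_self h).trans hh)
    rw [abs_le]
    constructor
    · nlinarith [sq_nonneg g]
    · nlinarith [sq_nonneg h]
  have e3 : |c4 * (a4 * (b8 + g * b5))| ≤ 1 * (K * q) := by
    rw [abs_mul, abs_mul a4, abs_of_nonneg h4]
    exact mul_le_mul h4' (mul_le_mul ha4 hbq (abs_nonneg _) K0) (by positivity) (by norm_num)
  have e4 : |c234 * c4 * (a2 * a3 * (b8 + g * b5))| ≤ 1 * 1 * (K * K * q) := by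
    rw [abs_mul, abs_mul (a2 * a3), abs_mul a2, abs_of_nonneg (mul_nonneg h234 h4)]
    exact mul_le_mul (mul_le_mul h234' h4' h4 (by norm_num))
      (mul_le_mul (mul_le_mul ha2 ha3 (abs_nonneg _) K0) hbq (abs_nonneg _) (by positivity))
      (by positivity) (by norm_num)
  have e5 : |c3 * (a3 * (b9 + c069 * (g * b6)))| ≤ η * (K * (K + 1 * (2 * K * K))) := by
    rw [abs_mul, abs_mul a3, abs_of_nonneg h3]
    refine mul_le_mul h3' (mul_le_mul ha3 ?_ (abs_nonneg _) K0) (by positivity) hη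
    refine (abs_add_le _ _).trans (add_le_add hb9 ?_)
    rw [abs_mul, abs_mul g, abs_of_nonneg h069]
    exact mul_le_mul h069' (mul_le_mul hg hb6 (abs_nonneg _) (by positivity)) (by positivity)
      (by norm_num)
  have e6 : D - b10 = g * b7 + cR * ((g ^ 2 - h ^ 2) * b1) + c4 * (a4 * (b8 + g * b5)) +
      c234 * c4 * (a2 * a3 * (b8 + g * b5)) + c3 * (a3 * (b9 + c069 * (g * b6))) := by
    rw [hD]; ring
  rw [e6]
  have t1 := abs_add_le (g * b7 + cR * ((g ^ 2 - h ^ 2) * b1) + c4 * (a4 * (b8 + g * b5)) +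
      c234 * c4 * (a2 * a3 * (b8 + g * b5))) (c3 * (a3 * (b9 + c069 * (g * b6))))
  have t2 := abs_add_le (g * b7 + cR * ((g ^ 2 - h ^ 2) * b1) + c4 * (a4 * (b8 + g * b5)))
      (c234 * c4 * (a2 * a3 * (b8 + g * b5)))
  have t3 := abs_add_le (g * b7 + cR * ((g ^ 2 - h ^ 2) * b1)) (c4 * (a4 * (b8 + g * b5)))
  have t4 := abs_add_le (g * b7) (cR * ((g ^ 2 - h ^ 2) * b1))
  have k0 : K ≤ K ^ 2 := le_self_pow₀ hK (by norm_num)
  have k0' : K ^ 2 ≤ K ^ 3 := pow_le_pow_right₀ hK (by norm_num)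
  have k1 : K * q ≤ K ^ 2 * q := mul_le_mul_of_nonneg_right k0 hq0
  have k2 : K ^ 2 * η ≤ K ^ 3 * η := mul_le_mul_of_nonneg_right k0' hη
  have r2 : η * ((5 * K ^ 2) * K) = 5 * (K ^ 3 * η) := by ring
  have r3 : 1 * (K * q) = K * q := by ring
  have r4 : 1 * 1 * (K * K * q) = K ^ 2 * q := by ring
  have r5 : η * (K * (K + 1 * (2 * K * K))) = K ^ 2 * η + 2 * (K ^ 3 * η) := by ring
  rw [r2] at e2
  rw [r3] at e3
  rw [r4] at e4
  rw [r5] at e5
  have r6 : 2 * K ^ 2 * q = 2 * (K ^ 2 * q) := by ring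
  have r7 : 8 * K ^ 3 * η = 8 * (K ^ 3 * η) := by ring
  rw [r6, r7]
  linarith

/-! ### windows -/

variable {ι : ℕ → Type*} [∀ n, DecidableEq (ι n)] {W : Wnd 11 ι} {f : ∀ n, ι n → Fq4} {x : ℝ}

/-- static hypotheses -/
structure Z2W (W : Wnd 11 ι) (f : ∀ n, ι n → Fq4) (x : ℝ) : Prop where
  q : QWnd W f
  kap : ∀ s, W.kap s = 1
  S0 : (0 : Fin 11) ∈ W.S
  kz : W.kz = 0
  x0 : 0 < x
  top : ∀ s, s = 0 ∨ s = 5 ∨ s = 7 ∨ s = 8 ∨ s = 10 → x ≤ W.top s

/-- hypotheses for one `n` -/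
structure Z2N (W : Wnd 11 ι) (x : ℝ) (n : ℕ) : Prop where
  g : W.Good n
  t8 : W.X n 8 = W.X n 0 + W.X n 5
  t10 : W.X n 10 = W.X n 0 + W.X n 7
  g7 : W.X n 7 + x * W.w n ≤ W.X n 0 + W.X n 1
  g7' : W.X n 7 + x * W.w n ≤ W.X n 3 + W.X n 6
  g10 : W.X n 10 + x * W.w n ≤ W.X n 3 + W.X n 9

/-- the precision of the window -/
noncomputable abbrev et (W : Wnd 11 ι) (x : ℝ) (n : ℕ) : ℝ := W.B'.d n ^ x

theorem et_pos (n : ℕ) : 0 < et W x n := Real.rpow_pos_of_pos (W.B'.pos n) x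

/-- coefficients -/
structure CfN (W : Wnd 11 ι) (x : ℝ) (n : ℕ) : Prop where
  p : ∀ i j s, 0 ≤ cf W n i j s
  c058 : cf W n 0 5 8 = 1
  c0710 : cf W n 0 7 10 = 1
  c017 : cf W n 0 1 7 ≤ et W x n
  c367 : cf W n 3 6 7 ≤ et W x n
  c3910 : cf W n 3 9 10 ≤ et W x n
  c457 : cf W n 4 5 7 ≤ 1
  c4810 : cf W n 4 8 10 ≤ 1
  c234 : cf W n 2 3 4 ≤ 1
  c069 : cf W n 0 6 9 ≤ 1

namespace Z2W

variable (h : Z2W W f x)

include h

theorem cfN {n : ℕ} (N : Z2N W x n) : CfN W x n := by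
  obtain ⟨w4, w6, w7a, w7b, w7c, w8, w9a, w9b, w10a, w10b, w10c⟩ := h.q.walls N.g
  have hk := h.kap
  have k1 : ∀ {i j s : Fin 11}, W.X n s ≤ W.X n i + W.X n j → cf W n i j s ≤ 1 := by
    intro i j s hw
    have := h.q.cf_le hw
    simp only [hk] at this
    linarith
  have k2 : ∀ {i j s : Fin 11}, W.X n s = W.X n i + W.X n j → cf W n i j s = 1 := by
    intro i j s hw
    rw [h.q.cf_eq hw]
    simp only [hk]
    norm_num
  have k3 : ∀ {i j s : Fin 11}, W.X n s + x * W.w n ≤ W.X n i + W.X n j →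
      cf W n i j s ≤ et W x n := by
    intro i j s hw
    have := h.q.cf_small hw
    simp only [hk] at this
    simpa using this
  exact ⟨fun i j s => (h.q.cf_pos n i j s).le, k2 N.t8, k2 N.t10, k3 N.g7, k3 N.g7', k3 N.g10,
    k1 w7b, k1 w10b, k1 w4, k1 w9a⟩

theorem K1 : 1 ≤ W.K0 := h.q.ok.K0_one

theorem bd {n : ℕ} (g : W.Good n) {a b : ι n} (ha : a ∈ W.Cl n) (hb : b ∈ W.Cl n)
    (s : Fin 11) : |W.crd n a b s| ≤ W.K0 := by
  have := h.q.crd_le g ha hb s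
  rwa [h.kap s, div_one] at this

theorem lev {n : ℕ} (g : W.Good n) {a b : ι n} (ha : a ∈ W.Cl n) (hb : b ∈ W.Cl n)
    (hl : W.zc n a = W.zc n b) : |W.crd n a b 0| ≤ W.K0 * et W x n := by
  have := h.q.crd_lev g ha hb hl h.S0 (h.top 0 (by simp))
  rwa [h.kap 0, div_one] at this

theorem own {n : ℕ} (g : W.Good n) {a b : ι n} (ha : a ∈ W.Cl n) (hb : b ∈ W.Cl n)
    (hl : W.lc n a = W.lc n b) {s : Fin 11} (hs : s = 5 ∨ s = 7 ∨ s = 8 ∨ s = 10) :
    |W.crd n a b s| ≤ W.K0 * et W x n := by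
  have := h.q.crd_own g ha hb hl (h.q.notMem (by tauto)) (h.top s (by tauto))
  rwa [h.kap s, div_one] at this


/-! ### the velocity and the position of a line in the frame of `p` -/

theorem pair5 {n : ℕ} (g : W.Good n) {p a b : ι n} (hp : p ∈ W.Cl n) (ha : a ∈ W.Cl n)
    (hb : b ∈ W.Cl n) : W.crd n p b 5 - W.crd n p a 5 = W.crd n a b 5 := by
  have := h.q.crd_add g hp ha hb (s := 5) (by simp)
  linarith

theorem nid7 {n : ℕ} (g : W.Good n) {p a b : ι n} (hp : p ∈ W.Cl n) (ha : a ∈ W.Cl n)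
    (hb : b ∈ W.Cl n) : W.crd n p b 7 - W.crd n p a 7 = W.crd n a b 7 -
      2 * cf W n 0 1 7 * (W.crd n p a 0 * W.crd n a b 1) +
      cf W n 4 5 7 * (W.crd n p a 4 * W.crd n a b 5) +
      cf W n 2 3 4 * cf W n 4 5 7 * (W.crd n p a 2 * W.crd n p a 3 * W.crd n a b 5) +
      cf W n 3 6 7 * (W.crd n p a 3 * W.crd n a b 6) := by
  have key := raw7 (f n p) (f n a) (f n b)
  simp only [h.q.crd_eq g hp ha, h.q.crd_eq g hp hb, h.q.crd_eq g ha hb] at key
  have u7 := (h.q.un_pos n 7).ne'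
  have u4 := (h.q.un_pos n 4).ne'
  refine mul_left_cancel₀ u7 ?_
  unfold cf
  field_simp
  linear_combination key

theorem nid8 {n : ℕ} (N : Z2N W x n) {p a b : ι n} (hp : p ∈ W.Cl n) (ha : a ∈ W.Cl n)
    (hb : b ∈ W.Cl n) (t : ℝ) :
    (W.crd n p b 8 + t * W.crd n p b 5) - (W.crd n p a 8 + t * W.crd n p a 5) =
      W.crd n a b 8 + (t - W.crd n p a 0) * W.crd n a b 5 := by
  have g := N.g
  have key := raw8 (f n p) (f n a) (f n b) (un W n 0 * t)
  simp only [h.q.crd_eq g hp ha, h.q.crd_eq g hp hb, h.q.crd_eq g ha hb] at key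
  have u8 := (h.q.un_pos n 8).ne'
  have c := (h.cfN N).c058
  unfold cf at c
  rw [div_eq_one_iff_eq u8] at c
  refine mul_left_cancel₀ u8 ?_
  linear_combination key + (-(t * W.crd n p b 5) + t * W.crd n p a 5 +
    (t - W.crd n p a 0) * W.crd n a b 5) * c

theorem nid10 {n : ℕ} (N : Z2N W x n) {p a b : ι n} (hp : p ∈ W.Cl n) (ha : a ∈ W.Cl n)
    (hb : b ∈ W.Cl n) (t : ℝ) :
    (W.crd n p b 10 + t * W.crd n p b 7) - (W.crd n p a 10 + t * W.crd n p a 7) =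
      W.crd n a b 10 + (t - W.crd n p a 0) * W.crd n a b 7 +
      cf W n 0 1 7 * (((t - W.crd n p a 0) ^ 2 - t ^ 2) * W.crd n a b 1) +
      cf W n 4 8 10 * (W.crd n p a 4 * (W.crd n a b 8 + (t - W.crd n p a 0) * W.crd n a b 5)) +
      cf W n 2 3 4 * cf W n 4 8 10 * (W.crd n p a 2 * W.crd n p a 3 *
        (W.crd n a b 8 + (t - W.crd n p a 0) * W.crd n a b 5)) +
      cf W n 3 9 10 * (W.crd n p a 3 * (W.crd n a b 9 +
        cf W n 0 6 9 * ((t - W.crd n p a 0) * W.crd n a b 6))) := by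
  have g := N.g
  have key := raw10 (f n p) (f n a) (f n b) (un W n 0 * t)
  simp only [h.q.crd_eq g hp ha, h.q.crd_eq g hp hb, h.q.crd_eq g ha hb] at key
  have u10 := (h.q.un_pos n 10).ne'
  have u8 := (h.q.un_pos n 8).ne'
  have u7 := (h.q.un_pos n 7).ne'
  have u4 := (h.q.un_pos n 4).ne'
  have u9 := (h.q.un_pos n 9).ne'
  have c := (h.cfN N).c0710
  have c' := (h.cfN N).c058
  unfold cf at c c'
  rw [div_eq_one_iff_eq u10] at c
  rw [div_eq_one_iff_eq u8] at c'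
  refine mul_left_cancel₀ u10 ?_
  have e1 : un W n 10 * (cf W n 0 1 7) = un W n 0 ^ 2 * un W n 1 := by
    rw [← c]; unfold cf; field_simp
  have e2 : un W n 10 * (cf W n 4 8 10) = un W n 4 * un W n 8 := by
    unfold cf; field_simp
  have e3 : un W n 10 * (cf W n 2 3 4 * cf W n 4 8 10) = un W n 2 * un W n 3 * un W n 8 := by
    unfold cf; field_simp
  have e4 : un W n 10 * (cf W n 3 9 10) = un W n 3 * un W n 9 := by
    unfold cf; field_simp
  have e5 : un W n 9 * (cf W n 0 6 9) = un W n 0 * un W n 6 := by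
    unfold cf; field_simp
  have e6 : un W n 10 * (cf W n 3 9 10 * (W.crd n p a 3 * (W.crd n a b 9 +
      cf W n 0 6 9 * ((t - W.crd n p a 0) * W.crd n a b 6)))) =
      un W n 3 * W.crd n p a 3 * (un W n 9 * W.crd n a b 9 +
        un W n 0 * un W n 6 * ((t - W.crd n p a 0) * W.crd n a b 6)) := by
    rw [← mul_assoc (un W n 10), e4, ← e5]; ring
  rw [mul_add, e6, mul_add, mul_add, mul_add]
  linear_combination key + (-(t * W.crd n p b 7) + t * W.crd n p a 7 +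
    (t - W.crd n p a 0) * W.crd n a b 7) * c + (((t - W.crd n p a 0) ^ 2 - t ^ 2) *
    W.crd n a b 1) * (-e1) + (W.crd n p a 4 * (W.crd n a b 8 + (t - W.crd n p a 0) *
    W.crd n a b 5)) * (-e2) + (W.crd n p a 2 * W.crd n p a 3 *
    (W.crd n a b 8 + (t - W.crd n p a 0) * W.crd n a b 5)) * (-e3) +
    (un W n 4 * W.crd n p a 4 + un W n 2 * un W n 3 * W.crd n p a 2 * W.crd n p a 3) *
    ((t - W.crd n p a 0) * W.crd n a b 5) * c'

theorem pair7 {n : ℕ} (N : Z2N W x n) {p a b : ι n} (hp : p ∈ W.Cl n) (ha : a ∈ W.Cl n)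
    (hb : b ∈ W.Cl n) : |(W.crd n p b 7 - W.crd n p a 7) - W.crd n a b 7| ≤
      3 * W.K0 ^ 2 * et W x n + 2 * W.K0 ^ 2 * |W.crd n a b 5| := by
  have c := h.cfN N
  exact est7 h.K1 (et_pos n).le (h.nid7 N.g hp ha hb) (h.bd N.g hp ha 0) (h.bd N.g hp ha 2)
    (h.bd N.g hp ha 3) (h.bd N.g hp ha 4) (h.bd N.g ha hb 1) (h.bd N.g ha hb 6) (c.p _ _ _) c.c017
    (c.p _ _ _) c.c367 (c.p _ _ _) c.c457 (c.p _ _ _) c.c234

theorem gK {n : ℕ} (N : Z2N W x n) {p a : ι n} (hp : p ∈ W.Cl n) (ha : a ∈ W.Cl n) {t : ℝ}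
    (ht : |t| ≤ W.K0) : |t - W.crd n p a 0| ≤ 2 * W.K0 := by
  have := abs_sub t (W.crd n p a 0)
  have := h.bd N.g hp ha 0
  linarith

theorem pair10 {n : ℕ} (N : Z2N W x n) {p a b : ι n} (hp : p ∈ W.Cl n) (ha : a ∈ W.Cl n)
    (hb : b ∈ W.Cl n) {t : ℝ} (ht : |t| ≤ W.K0) :
    |((W.crd n p b 10 + t * W.crd n p b 7) - (W.crd n p a 10 + t * W.crd n p a 7)) -
      W.crd n a b 10| ≤ |t - W.crd n p a 0| * |W.crd n a b 7| +
        2 * W.K0 ^ 2 * (|W.crd n a b 8| + |t - W.crd n p a 0| * |W.crd n a b 5|) +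
        8 * W.K0 ^ 3 * et W x n := by
  have c := h.cfN N
  exact est10 h.K1 (et_pos n).le (h.nid10 N hp ha hb t) (h.gK N hp ha ht) ht (h.bd N.g hp ha 2)
    (h.bd N.g hp ha 3) (h.bd N.g hp ha 4) (h.bd N.g ha hb 1) (h.bd N.g ha hb 6)
    (h.bd N.g ha hb 9) (c.p _ _ _) c.c017
    (c.p _ _ _) c.c3910 (c.p _ _ _) c.c4810 (c.p _ _ _) c.c234 (c.p _ _ _) c.c069

/-- fat lines have velocities and positions -/
theorem fl {n : ℕ} (N : Z2N W x n) {p a b : ι n} (hp : p ∈ W.Cl n) (ha : a ∈ W.Cl n)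
    (hb : b ∈ W.Cl n) (hl : W.lc n a = W.lc n b) :
    |W.crd n p b 5 - W.crd n p a 5| ≤ 20 * W.K0 ^ 4 * et W x n ∧
    |W.crd n p b 7 - W.crd n p a 7| ≤ 20 * W.K0 ^ 4 * et W x n ∧
    ∀ t : ℝ, |t| ≤ W.K0 →
      |(W.crd n p b 8 + t * W.crd n p b 5) - (W.crd n p a 8 + t * W.crd n p a 5)| ≤
        20 * W.K0 ^ 4 * et W x n ∧
      |(W.crd n p b 10 + t * W.crd n p b 7) - (W.crd n p a 10 + t * W.crd n p a 7)| ≤
        20 * W.K0 ^ 4 * et W x n := by
  have hK := h.K1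
  set K := W.K0 with hKd
  set η := et W x n with hη
  have hη0 : 0 ≤ η := (et_pos n).le
  have o : ∀ s : Fin 11, s = 5 ∨ s = 7 ∨ s = 8 ∨ s = 10 → |W.crd n a b s| ≤ K * η := by
    intro s hs
    exact h.own N.g ha hb hl hs
  have o5 := o 5 (by simp)
  have o7 := o 7 (by simp)
  have o8 := o 8 (by simp)
  have o10 := o 10 (by simp)
  have k1 : K * η ≤ K ^ 4 * η := mul_le_mul_of_nonneg_right (le_self_pow₀ hK (by norm_num)) hη0
  have k2 : K ^ 2 * η ≤ K ^ 4 * η :=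
    mul_le_mul_of_nonneg_right (pow_le_pow_right₀ hK (by norm_num)) hη0
  have k3 : K ^ 3 * η ≤ K ^ 4 * η :=
    mul_le_mul_of_nonneg_right (pow_le_pow_right₀ hK (by norm_num)) hη0
  have k4 : 0 ≤ K ^ 4 * η := by positivity
  have K20 : 0 ≤ 2 * K ^ 2 := by positivity
  refine ⟨?_, ?_, fun t ht => ⟨?_, ?_⟩⟩
  · rw [h.pair5 N.g hp ha hb]
    have : 20 * K ^ 4 * η = 20 * (K ^ 4 * η) := by ring
    rw [this]; linarith
  · have e1 := h.pair7 N hp ha hb
    have e2 := abs_sub_le (W.crd n p b 7 - W.crd n p a 7) (W.crd n a b 7) 0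
    rw [sub_zero, sub_zero] at e2
    have e3 := mul_le_mul_of_nonneg_left o5 K20
    have r1 : 2 * K ^ 2 * (K * η) = 2 * (K ^ 3 * η) := by ring
    have r2 : 3 * K ^ 2 * η = 3 * (K ^ 2 * η) := by ring
    have r3 : 20 * K ^ 4 * η = 20 * (K ^ 4 * η) := by ring
    rw [r1] at e3
    rw [← hKd, ← hη, r2] at e1
    rw [r3]; linarith
  · rw [h.nid8 N hp ha hb]
    have g2 := h.gK N hp ha ht
    have e1 := abs_add_le (W.crd n a b 8) ((t - W.crd n p a 0) * W.crd n a b 5)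
    rw [abs_mul] at e1
    have e2 := mul_le_mul g2 o5 (abs_nonneg _) (by positivity : 0 ≤ 2 * K)
    have r1 : 2 * K * (K * η) = 2 * (K ^ 2 * η) := by ring
    have r3 : 20 * K ^ 4 * η = 20 * (K ^ 4 * η) := by ring
    rw [r1] at e2
    rw [r3]; linarith
  · have e1 := h.pair10 N hp ha hb ht
    have g2 := h.gK N hp ha ht
    have e2 := abs_sub_le ((W.crd n p b 10 + t * W.crd n p b 7) -
      (W.crd n p a 10 + t * W.crd n p a 7)) (W.crd n a b 10) 0
    rw [sub_zero, sub_zero] at e2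
    have e3 := mul_le_mul g2 o7 (abs_nonneg _) (by positivity : 0 ≤ 2 * K)
    have e4 := mul_le_mul g2 o5 (abs_nonneg _) (by positivity : 0 ≤ 2 * K)
    have e5 := mul_le_mul_of_nonneg_left (add_le_add o8 e4) K20
    have r1 : 2 * K * (K * η) = 2 * (K ^ 2 * η) := by ring
    have r3 : 20 * K ^ 4 * η = 20 * (K ^ 4 * η) := by ring
    have r4 : 2 * K ^ 2 * (K * η + 2 * K * (K * η)) = 2 * (K ^ 3 * η) + 4 * (K ^ 4 * η) := by ring
    have r5 : 8 * K ^ 3 * η = 8 * (K ^ 3 * η) := by ring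
    rw [r1] at e3
    rw [r4] at e5
    rw [← hKd, ← hη, r5] at e1
    rw [r3]; linarith

end Z2W

/-! ### the data of the block -/

open Classical in
/-- a representative of the fat line `l` -/
noncomputable def lrp (W : Wnd 11 ι) (n l : ℕ) : ι n :=
  if h : ∃ i ∈ W.Cl n, W.lc n i = l then h.choose else W.s₀ n

theorem lrp_spec {n : ℕ} {i : ι n} (hi : i ∈ W.Cl n) :
    lrp W n (W.lc n i) ∈ W.Cl n ∧ W.lc n (lrp W n (W.lc n i)) = W.lc n i := by
  have h : ∃ j ∈ W.Cl n, W.lc n j = W.lc n i := ⟨i, hi, rfl⟩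
  unfold lrp
  rw [dif_pos h]
  exact h.choose_spec

/-- position at the height of the base incidence -/
noncomputable def bA (W : Wnd 11 ι) (n l : ℕ) : Fin 2 → ℝ :=
  ![W.crd n (W.s₀ n) (lrp W n l) 8, W.crd n (W.s₀ n) (lrp W n l) 10]

/-- velocity -/
noncomputable def bV (W : Wnd 11 ι) (n l : ℕ) : Fin 2 → ℝ :=
  ![W.crd n (W.s₀ n) (lrp W n l) 5, W.crd n (W.s₀ n) (lrp W n l) 7]

/-- position at the height `k` -/
noncomputable def bF (W : Wnd 11 ι) (n k l : ℕ) : Fin 2 → ℝ :=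
  ![W.crd n (W.s₀ n) (W.rep n l k) 8 + flg W n k 0 * W.crd n (W.s₀ n) (W.rep n l k) 5,
    W.crd n (W.s₀ n) (W.rep n l k) 10 + flg W n k 0 * W.crd n (W.s₀ n) (W.rep n l k) 7]

/-- what is known about an alive pair (line, height) -/
structure Alv (W : Wnd 11 ι) (n l k : ℕ) : Prop where
  r : W.rep n l k ∈ W.Cl n
  rl : W.lc n (W.rep n l k) = l
  rz : W.zc n (W.rep n l k) = k
  t : lrp W n l ∈ W.Cl n
  tl : W.lc n (lrp W n l) = l
  z : W.zrep n k ∈ W.Cl n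
  zz : W.zc n (W.zrep n k) = k

theorem alv_of {n : ℕ} {E : Finset (ι n)} (hE : E ⊆ W.Cl n) {l k : ℕ}
    (hI : (l, k) ∈ (W.cfg0 n E).I) : Alv W n l k := by
  obtain ⟨h1, h2, h3⟩ := rep_of_mem hE hI
  have h4 := lrp_spec h1
  have h5 := W.zrep_spec h1
  rw [h2] at h4
  rw [h3] at h5
  exact ⟨h1, h2, h3, h4.1, h4.2, h5.1, h5.2⟩

namespace Z2W

variable (h : Z2W W f x)

include h

/-- the height of an incidence and of the representative of its height -/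
theorem g_small {n : ℕ} (N : Z2N W x n) {l k : ℕ} (A : Alv W n l k) :
    |flg W n k 0 - W.crd n (W.s₀ n) (W.rep n l k) 0| ≤ W.K0 * et W x n := by
  have e1 := h.q.crd_add N.g N.g.s0 A.r A.z (s := 0) (by simp)
  have e2 := h.lev N.g A.r A.z (A.rz.trans A.zz.symm)
  have e3 : flg W n k 0 - W.crd n (W.s₀ n) (W.rep n l k) 0 =
      W.crd n (W.rep n l k) (W.zrep n k) 0 := by
    unfold flg; linarith
  rw [e3]; exact e2

/-- velocity and position of a representative -/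
theorem rep_V {n : ℕ} (N : Z2N W x n) {l k : ℕ} (A : Alv W n l k) :
    |W.crd n (W.s₀ n) (W.rep n l k) 5 - bV W n l 0| ≤ 20 * W.K0 ^ 4 * et W x n ∧
    |W.crd n (W.s₀ n) (W.rep n l k) 7 - bV W n l 1| ≤ 20 * W.K0 ^ 4 * et W x n := by
  have e := h.fl N N.g.s0 A.t A.r (A.tl.trans A.rl.symm)
  exact ⟨e.1, e.2.1⟩

theorem rep_F {n : ℕ} (N : Z2N W x n) {l k : ℕ} (A : Alv W n l k) (a : Fin 2) :
    |bF W n k l a - (bA W n l a + flg W n k 0 * bV W n l a)| ≤ 20 * W.K0 ^ 4 * et W x n := by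
  have ht : |flg W n k 0| ≤ W.K0 := h.bd N.g N.g.s0 A.z 0
  have e := (h.fl N N.g.s0 A.t A.r (A.tl.trans A.rl.symm)).2.2 _ ht
  fin_cases a
  · exact e.1
  · exact e.2

/-- two lines alive at one height: `b` = relative coordinates -/
theorem two {n : ℕ} (N : Z2N W x n) {i l k : ℕ} (A : Alv W n i k) (A' : Alv W n l k) :
    |(bV W n l 0 - bV W n i 0) - W.crd n (W.rep n i k) (W.rep n l k) 5| ≤
      40 * W.K0 ^ 4 * et W x n ∧
    |(bV W n l 1 - bV W n i 1) - W.crd n (W.rep n i k) (W.rep n l k) 7| ≤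
      43 * W.K0 ^ 4 * et W x n + 2 * W.K0 ^ 2 * |W.crd n (W.rep n i k) (W.rep n l k) 5| ∧
    |(bF W n k l 0 - bF W n k i 0) - W.crd n (W.rep n i k) (W.rep n l k) 8| ≤
      W.K0 ^ 4 * et W x n ∧
    |(bF W n k l 1 - bF W n k i 1) - W.crd n (W.rep n i k) (W.rep n l k) 10| ≤
      11 * W.K0 ^ 4 * et W x n + 2 * W.K0 ^ 2 * |W.crd n (W.rep n i k) (W.rep n l k) 8| := by
  have hK := h.K1
  have ht : |flg W n k 0| ≤ W.K0 := h.bd N.g N.g.s0 A.z 0
  have hg := h.g_small N A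
  have v1 := h.rep_V N A
  have v2 := h.rep_V N A'
  have b5 := h.bd N.g A.r A'.r 5
  have b7 := h.bd N.g A.r A'.r 7
  have p5 := h.pair5 N.g N.g.s0 A.r A'.r
  have p7 := h.pair7 N N.g.s0 A.r A'.r
  have p8 := h.nid8 N N.g.s0 A.r A'.r (flg W n k 0)
  have p10 := h.pair10 N N.g.s0 A.r A'.r ht
  set K := W.K0 with hKd
  set η := et W x n with hη
  have hη0 : 0 ≤ η := (et_pos n).le
  have k1 : K * η ≤ K ^ 4 * η := mul_le_mul_of_nonneg_right (le_self_pow₀ hK (by norm_num)) hη0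
  have k2 : K ^ 2 * η ≤ K ^ 4 * η :=
    mul_le_mul_of_nonneg_right (pow_le_pow_right₀ hK (by norm_num)) hη0
  have k3 : K ^ 3 * η ≤ K ^ 4 * η :=
    mul_le_mul_of_nonneg_right (pow_le_pow_right₀ hK (by norm_num)) hη0
  have k4 : 0 ≤ K ^ 4 * η := by positivity
  have K20 : 0 ≤ 2 * K ^ 2 := by positivity
  set c5 := W.crd n (W.rep n i k) (W.rep n l k) 5
  set c7 := W.crd n (W.rep n i k) (W.rep n l k) 7
  set c8 := W.crd n (W.rep n i k) (W.rep n l k) 8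
  set c10 := W.crd n (W.rep n i k) (W.rep n l k) 10
  set g := flg W n k 0 - W.crd n (W.s₀ n) (W.rep n i k) 0 with hgd
  have m5 : |g| * |c5| ≤ K ^ 4 * η := by
    have := mul_le_mul hg b5 (abs_nonneg _) (by positivity : 0 ≤ K * η)
    have r : K * η * K = K ^ 2 * η := by ring
    rw [r] at this; linarith
  have m7 : |g| * |c7| ≤ K ^ 4 * η := by
    have := mul_le_mul hg b7 (abs_nonneg _) (by positivity : 0 ≤ K * η)
    have r : K * η * K = K ^ 2 * η := by ring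
    rw [r] at this; linarith
  have m5' : 2 * K ^ 2 * (|g| * |c5|) ≤ 2 * (K ^ 4 * η) := by
    have := mul_le_mul hg b5 (abs_nonneg _) (by positivity : 0 ≤ K * η)
    have r : K * η * K = K ^ 2 * η := by ring
    rw [r] at this
    have e := mul_le_mul_of_nonneg_left this K20
    have r' : 2 * K ^ 2 * (K ^ 2 * η) = 2 * (K ^ 4 * η) := by ring
    rw [r'] at e; exact e
  refine ⟨?_, ?_, ?_, ?_⟩
  · have e1 : (bV W n l 0 - bV W n i 0) - c5 = -(W.crd n (W.s₀ n) (W.rep n l k) 5 - bV W n l 0) +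
        (W.crd n (W.s₀ n) (W.rep n i k) 5 - bV W n i 0) := by rw [← p5]; ring
    rw [e1]
    refine (abs_add_le _ _).trans ?_
    rw [abs_neg]
    have := v1.1
    have := v2.1
    linarith
  · have e1 : (bV W n l 1 - bV W n i 1) - c7 = -(W.crd n (W.s₀ n) (W.rep n l k) 7 - bV W n l 1) +
        (W.crd n (W.s₀ n) (W.rep n i k) 7 - bV W n i 1) +
        (W.crd n (W.s₀ n) (W.rep n l k) 7 - W.crd n (W.s₀ n) (W.rep n i k) 7 - c7) := by ring
    rw [e1]
    refine (abs_add_le _ _).trans ?_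
    have t2 := abs_add_le (-(W.crd n (W.s₀ n) (W.rep n l k) 7 - bV W n l 1))
      (W.crd n (W.s₀ n) (W.rep n i k) 7 - bV W n i 1)
    rw [abs_neg] at t2
    have q1 := v1.2
    have q2 := v2.2
    have r2 : 3 * K ^ 2 * η = 3 * (K ^ 2 * η) := by ring
    rw [r2] at p7
    have r3 : 20 * K ^ 4 * η = 20 * (K ^ 4 * η) := by ring
    rw [r3] at q1 q2
    have r4 : 43 * K ^ 4 * η = 43 * (K ^ 4 * η) := by ring
    rw [r4]
    linarith
  · have e1 : (bF W n k l 0 - bF W n k i 0) - c8 = g * c5 := by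
      have : bF W n k l 0 - bF W n k i 0 = c8 + g * c5 := p8
      rw [this]; ring
    rw [e1, abs_mul]
    exact m5
  · have e1 : bF W n k l 1 - bF W n k i 1 = (W.crd n (W.s₀ n) (W.rep n l k) 10 +
        flg W n k 0 * W.crd n (W.s₀ n) (W.rep n l k) 7) - (W.crd n (W.s₀ n) (W.rep n i k) 10 +
        flg W n k 0 * W.crd n (W.s₀ n) (W.rep n i k) 7) := rfl
    rw [e1]
    refine p10.trans ?_
    have r3 : 8 * K ^ 3 * η = 8 * (K ^ 3 * η) := by ring
    have r4 : 11 * K ^ 4 * η = 11 * (K ^ 4 * η) := by ring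
    have r5 : 2 * K ^ 2 * (|c8| + |g| * |c5|) = 2 * K ^ 2 * |c8| + 2 * K ^ 2 * (|g| * |c5|) := by
      ring
    rw [r3, r4, r5]
    linarith

end Z2W

end Crest.Agent.R136.Z2683
end

-- ▼ part R136/Z2b_403
section

/-!
# R136: the heavy strip in the form `P - lam C_a = const` (helper403)

`strip_lam_R` : `strip_alt_R` + loss of the slot `V 0` at the class (`ν (pC y) < ν pS`) ⊢ one `lam`,
`|lam| ≤ ρ^(-δ)`, with `|(V 1 i - V 1 i1) - lam (V 0 i - V 0 i1)| ≤ ρ^(t - δ)` on a `ρ^δ`-part of the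
class.
-/

set_option autoImplicit false
set_option linter.unusedVariables false

open Filter Topology Finset

namespace Crest.Agent.R136.Ful403

open Crest.Agent.R138.Ex926 (Base U)
open Crest.Agent.R136.Gf356

variable {κ : Type} {B : Base} {G : ℕ → RCfg κ} {Leg : Set (κ → ℝ)} {ν : (κ → ℝ) → ℝ} {D : ℝ}

set_option maxHeartbeats 1000000 in
/-- **heavy strip, slope form.** -/
theorem strip_lam_R (hKM : ∀ V : ℝ, Crest.Agent.R138.Tub70.KM32 V) (H : RUnif B G Leg ν D)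
    (i0 k0 : ℕ → ℕ)
    (h0 : ∀ᶠ n in (U : Filter ℕ), (i0 n, k0 n) ∈ (G n).I) (pS pT r Qc Qf : κ → ℝ)
    (hpS : pS ∈ Leg) (hpT : pT ∈ Leg) (hr : r ∈ Leg) (hQc : Qc ∈ Leg) (hQf : Qf ∈ Leg)
    (hTr : ∀ j, pT j ≤ r j) (hSQ : ∀ j, pS j ≤ Qc j) {x t : ℝ}
    (hx : 0 < x)
    (F : ℕ → ℕ → ℕ → Fin 2 → ℝ) (A V : ℕ → ℕ → Fin 2 → ℝ) (φ : ℕ → ℕ → ℝ) (Zg : ℕ → Finset ℕ)
    (hZg : ∀ᶠ n in (U : Filter ℕ), (Zg n).Nonempty) {C1 : ℝ} (hC1 : 0 < C1)
    (hφ : ∀ ε : ℝ, 0 < ε → ∀ᶠ n in (U : Filter ℕ), ∀ k ∈ Zg n, |φ n k| ≤ B.d n ^ (-(C1 * ε)))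
    (hA : ∀ ε : ℝ, 0 < ε → ∀ᶠ n in (U : Filter ℕ), ∀ i ∈ (G n).box pS ε (i0 n) (k0 n),
      ∀ i' ∈ (G n).box pS ε (i0 n) (k0 n), ∀ a, |A n i' a - A n i a| ≤ B.d n ^ (-(C1 * ε)))
    (hV : ∀ ε : ℝ, 0 < ε → ∀ᶠ n in (U : Filter ℕ), ∀ i ∈ (G n).box pS ε (i0 n) (k0 n),
      ∀ i' ∈ (G n).box pS ε (i0 n) (k0 n), ∀ a, |V n i' a - V n i a| ≤ B.d n ^ (-(C1 * ε)))
    (hF : ∀ ε : ℝ, 0 < ε → ∀ᶠ n in (U : Filter ℕ), ∀ k ∈ Zg n,
      ∀ i ∈ (G n).box pS ε (i0 n) (k0 n), (i, k) ∈ (G n).I →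
      ∀ i' ∈ (G n).box pS ε (i0 n) (k0 n), (i', k) ∈ (G n).I → ∀ a,
      |F n k i' a - F n k i a - ((A n i' a - A n i a) + φ n k * (V n i' a - V n i a))|
        ≤ B.d n ^ (x - C1 * ε))
    (hlink : ∀ ε : ℝ, 0 < ε → ∀ᶠ n in (U : Filter ℕ), ∀ k ∈ Zg n,
      ∀ i ∈ (G n).box pS ε (i0 n) (k0 n), (i, k) ∈ (G n).I → ∀ l, (l, k) ∈ (G n).I →
      (G n).loose r ε k i l → ∀ a, |F n k l a - F n k i a| ≤ B.d n ^ (x - C1 * ε))
    (hT : ∀ ε : ℝ, 0 < ε → ∀ᶠ n in (U : Filter ℕ), ∀ k ∈ Zg n,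
      ∀ i ∈ (G n).box pS ε (i0 n) (k0 n), ∀ i' ∈ (G n).box pS ε (i0 n) (k0 n),
      (i, k) ∈ (G n).I → (i', k) ∈ (G n).I → (G n).loose pT (C1 * ε) k i i')
    (hal : ∀ ε : ℝ, 0 < ε → ∀ᶠ n in (U : Filter ℕ), ∀ i ∈ (G n).box pS ε (i0 n) (k0 n),
      ∀ T ⊆ Zg n, (∀ k ∈ Zg n, (i, k) ∈ (G n).I → k ∈ T) →
      B.d n ^ (C1 * ε) * ((Zg n).card : ℝ) ≤ (T.card : ℝ))
    (hfr : ∀ y : ℝ, 0 ≤ y → y ≤ x → ∀ ε : ℝ, 0 < ε → ∀ᶠ n in (U : Filter ℕ), ∀ k ∈ Zg n,
      ∀ T ⊆ Zg n, (∀ k' ∈ T, |φ n k' - φ n k| ≤ B.d n ^ y) →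
      (T.card : ℝ) ≤ B.d n ^ (y - ε) * ((Zg n).card : ℝ))
    (hqf : ∀ C3 : ℝ, 0 < C3 → ∃ C4 : ℝ, 0 < C4 ∧ ∀ ε : ℝ, 0 < ε → ∀ᶠ n in (U : Filter ℕ),
      ∀ k ∈ Zg n, ∀ i ∈ (G n).box pS ε (i0 n) (k0 n), (i, k) ∈ (G n).I →
      ∀ i' ∈ (G n).box pS ε (i0 n) (k0 n), (i', k) ∈ (G n).I →
      (∀ a, |F n k i' a - F n k i a| ≤ B.d n ^ (x - C3 * ε)) →
      (∀ a, |V n i' a - V n i a| ≤ B.d n ^ (t - C3 * ε)) → (G n).loose Qf (C4 * ε) k i i')
    (hql : ∀ ε : ℝ, 0 < ε → ∀ᶠ n in (U : Filter ℕ), ∀ i ∈ (G n).box pS ε (i0 n) (k0 n),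
      ∀ l, (l, k0 n) ∈ (G n).I → (G n).loose Qc ε (k0 n) i l → ∀ a,
      |V n l a - V n i a| ≤ B.d n ^ (t - C1 * ε))
    (hprod : ν pS - ν Qc ≤ ν r - ν Qf) (hsize : ν pT ≤ ν pS)
    (hnf : (ν pT - ν r) + 2 * t < 2 * x) (ht : 0 < t)
    (pC : ℝ → κ → ℝ) {y0 : ℝ} (hy0 : 0 < y0)
    (hpC : ∀ y : ℝ, 0 < y → y ≤ y0 → pC y ∈ Leg ∧ ν (pC y) < ν pS)
    (hCl : ∀ y : ℝ, 0 < y → y ≤ y0 → ∀ ε : ℝ, 0 < ε → ∀ᶠ n in (U : Filter ℕ),
      ∀ i ∈ (G n).box pS ε (i0 n) (k0 n), ∀ i' ∈ (G n).box pS ε (i0 n) (k0 n),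
      |V n i' 0 - V n i 0| ≤ B.d n ^ y → (G n).loose (pC y) (C1 * ε) (k0 n) i i')
    {δ : ℝ} (hδ : 0 < δ) :
    ∃ ε0 : ℝ, 0 < ε0 ∧ ∀ ε : ℝ, 0 < ε → ε ≤ ε0 → ∀ᶠ n in (U : Filter ℕ),
      ∃ lam : ℝ, |lam| ≤ B.d n ^ (-δ) ∧ ∃ i1 ∈ (G n).box pS ε (i0 n) (k0 n),
      ∃ T ⊆ (G n).box pS ε (i0 n) (k0 n),
        (∀ i ∈ T, |(V n i 1 - V n i1 1) - lam * (V n i 0 - V n i1 0)| ≤ B.d n ^ (t - δ)) ∧
        B.d n ^ δ * (((G n).box pS ε (i0 n) (k0 n)).card : ℝ) ≤ (T.card : ℝ) := by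
  classical
  have hD := H.D1
  have hD0 : 0 < D := by linarith
  set y : ℝ := min y0 (min (t / 4) (δ / 8)) with hy
  have hyp : 0 < y := lt_min hy0 (lt_min (by positivity) (by positivity))
  have hy1 : y ≤ y0 := min_le_left _ _
  have hy2 : y ≤ t / 4 := (min_le_right _ _).trans (min_le_left _ _)
  have hy3 : y ≤ δ / 8 := (min_le_right _ _).trans (min_le_right _ _)
  obtain ⟨hLC, hlt⟩ := hpC y hyp hy1
  set c : ℝ := ν pS - ν (pC y) with hc
  have hc0 : 0 < c := by rw [hc]; linarith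
  set δ1 : ℝ := min (δ / 4) (min (t / 4) (c / 4)) with hδ1
  have hδ1p : 0 < δ1 := lt_min (by positivity) (lt_min (by positivity) (by positivity))
  have hd1 : δ1 ≤ δ / 4 := min_le_left _ _
  have hd2 : δ1 ≤ t / 4 := (min_le_right _ _).trans (min_le_left _ _)
  have hd3 : δ1 ≤ c / 4 := (min_le_right _ _).trans (min_le_right _ _)
  have key := strip_alt_R hKM H i0 k0 h0 pS pT r Qc Qf hpS hpT hr hQc hQf hTr hSQ hx F A V φ Zg
    hZg hC1 hφ hA hV hF hlink hT hal hfr hqf hql hprod hsize hnf hδ1p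
  have hq : 0 < 8 * (1 + D * C1) := by positivity
  refine ⟨min (δ1 / (2 * D)) (min (δ / (8 * C1)) (c / (4 * (1 + D * C1)))),
    lt_min (by positivity) (lt_min (by positivity) (by positivity)), fun ε hε hle => ?_⟩
  have he1 : ε ≤ δ1 / (2 * D) := hle.trans (min_le_left _ _)
  have he2 : ε ≤ δ / (8 * C1) := (hle.trans (min_le_right _ _)).trans (min_le_left _ _)
  have he3 : ε ≤ c / (4 * (1 + D * C1)) := (hle.trans (min_le_right _ _)).trans (min_le_right _ _)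
  have he2' : C1 * ε ≤ δ / 8 := by
    rw [le_div_iff₀ (by positivity)] at he2
    linarith
  have he3' : (1 + D * C1) * ε ≤ c / 4 := by
    rw [le_div_iff₀ (by positivity)] at he3
    linarith
  filter_upwards [key ε hε he1, hCl y hyp hy1 ε hε, H.up (pC y) hLC (C1 * ε) (by positivity),
    H.low pS hpS ε hε, h0, ev_const_le B (t := t / 2) (by positivity) 4,
    ev_const_le B (t := δ / 4) (by positivity) 4, ev_const_le B (t := δ / 2) (by positivity) 2,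
    hV ε hε] with n h1 h2 h3 h4 h5 h6 h7 h8 h9
  have hpow : ∀ s : ℝ, 0 < B.d n ^ s := fun s => rpos B n s
  obtain ⟨b, hb, i1, hi1, T, hTs, hstrip, hcard⟩ := h1
  have hcard' : B.d n ^ δ * (((G n).box pS ε (i0 n) (k0 n)).card : ℝ) ≤ (T.card : ℝ) := by
    refine le_trans (mul_le_mul_of_nonneg_right ?_ (Nat.cast_nonneg _)) hcard
    exact rpow_anti B n (by linarith)
  rcases le_or_gt (B.d n ^ (δ / 2)) |b 1| with hbig | hsmall
  · have hb1 : 0 < |b 1| := lt_of_lt_of_le (hpow _) hbig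
    have hb1' : b 1 ≠ 0 := abs_pos.1 hb1
    have hb0 : |b 0| ≤ 1 := by
      rw [← sq_le_one_iff_abs_le_one]; nlinarith [sq_nonneg (b 1)]
    have hinv : 1 / |b 1| ≤ B.d n ^ (-(δ / 2)) := by
      rw [Real.rpow_neg (B.pos n).le, one_div]
      exact inv_anti₀ (hpow _) hbig
    refine ⟨-(b 0) / b 1, ?_, i1, hi1, T, hTs, ?_, hcard'⟩
    · rw [abs_div, abs_neg]
      calc |b 0| / |b 1| ≤ 1 / |b 1| := by gcongr
        _ ≤ B.d n ^ (-(δ / 2)) := hinv
        _ ≤ B.d n ^ (-δ) := rpow_anti B n (by linarith)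
    · intro i hi
      have h10 := hstrip i hi
      have e1 : (V n i 1 - V n i1 1) - -(b 0) / b 1 * (V n i 0 - V n i1 0) =
          (b 0 * (V n i 0 - V n i1 0) + b 1 * (V n i 1 - V n i1 1)) / b 1 := by
        field_simp; ring
      rw [e1, abs_div]
      calc |b 0 * (V n i 0 - V n i1 0) + b 1 * (V n i 1 - V n i1 1)| / |b 1|
          = |b 0 * (V n i 0 - V n i1 0) + b 1 * (V n i 1 - V n i1 1)| * (1 / |b 1|) := by
            rw [mul_one_div]
        _ ≤ B.d n ^ (t - δ1) * B.d n ^ (-(δ / 2)) :=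
            mul_le_mul h10 hinv (by positivity) (hpow _).le
        _ = B.d n ^ (t - δ1 - δ / 2) := by rw [← rpow_add']; congr 1
        _ ≤ B.d n ^ (t - δ) := rpow_anti B n (by linarith)
  · -- the strip bounds `V 0`
    exfalso
    have hr1 : B.d n ^ (δ / 2) ≤ 1 / 2 := by
      have e1 : B.d n ^ (δ / 2) * B.d n ^ (-(δ / 2)) = 1 := by
        rw [← rpow_add', add_neg_cancel, Real.rpow_zero]
      nlinarith [hpow (δ / 2)]
    have hb1s : b 1 ^ 2 ≤ 1 / 4 := by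
      have := abs_nonneg (b 1)
      rw [← sq_abs]
      nlinarith
    have hb0 : 1 / 2 ≤ |b 0| := by
      by_contra hcon
      push Not at hcon
      have := abs_nonneg (b 0)
      have h11 : b 0 ^ 2 < 1 / 4 := by rw [← sq_abs]; nlinarith
      linarith
    have hsub : T ⊆ (G n).box (pC y) (C1 * ε) i1 (k0 n) := by
      intro i hi
      have hiS := hTs hi
      refine RCfg.mem_box.2 ⟨(RCfg.mem_box.1 hiS).1, h2 i1 hi1 i hiS ?_⟩
      have g1 := hstrip i hi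
      have g2 := h9 i1 hi1 i hiS 1
      have g3 : |b 0 * (V n i 0 - V n i1 0)| ≤ B.d n ^ (t - δ1) +
          B.d n ^ (δ / 2) * B.d n ^ (-(C1 * ε)) := by
        have e1 : b 0 * (V n i 0 - V n i1 0) =
            (b 0 * (V n i 0 - V n i1 0) + b 1 * (V n i 1 - V n i1 1)) -
              b 1 * (V n i 1 - V n i1 1) := by ring
        rw [e1]
        refine (abs_sub _ _).trans (add_le_add g1 ?_)
        rw [abs_mul]
        exact mul_le_mul hsmall.le g2 (abs_nonneg _) (hpow _).le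
      rw [abs_mul] at g3
      have g4 : |V n i 0 - V n i1 0| ≤ 2 * (B.d n ^ (t - δ1) +
          B.d n ^ (δ / 2) * B.d n ^ (-(C1 * ε))) := by
        have := abs_nonneg (V n i 0 - V n i1 0)
        nlinarith
      have g5 : 4 * B.d n ^ (t - δ1) ≤ B.d n ^ y := by
        calc 4 * B.d n ^ (t - δ1) ≤ B.d n ^ (-(t / 2)) * B.d n ^ (t - δ1) :=
              mul_le_mul_of_nonneg_right h6 (hpow _).le
          _ = B.d n ^ (-(t / 2) + (t - δ1)) := by rw [← rpow_add']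
          _ ≤ B.d n ^ y := rpow_anti B n (by linarith)
      have g6 : 4 * (B.d n ^ (δ / 2) * B.d n ^ (-(C1 * ε))) ≤ B.d n ^ y := by
        calc 4 * (B.d n ^ (δ / 2) * B.d n ^ (-(C1 * ε))) ≤
              B.d n ^ (-(δ / 4)) * (B.d n ^ (δ / 2) * B.d n ^ (-(C1 * ε))) :=
              mul_le_mul_of_nonneg_right h7 (mul_pos (hpow _) (hpow _)).le
          _ = B.d n ^ (-(δ / 4) + (δ / 2 + -(C1 * ε))) := by rw [← rpow_add', ← rpow_add']
          _ ≤ B.d n ^ y := rpow_anti B n (by linarith)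
      linarith
    have hi1I : (i1, k0 n) ∈ (G n).I := H.memSlice.1 (RCfg.mem_box.1 hi1).1
    have g1 : (T.card : ℝ) ≤ B.d n ^ (-ν (pC y) - D * (C1 * ε)) := by
      refine le_trans ?_ (h3 i1 (k0 n) hi1I)
      exact_mod_cast Finset.card_le_card hsub
    have g2 := h4 (i0 n) (k0 n) h5
    have g3 : B.d n ^ (δ1 + (-ν pS + ε)) ≤ B.d n ^ (-ν (pC y) - D * (C1 * ε)) := by
      rw [rpow_add']
      exact (mul_le_mul_of_nonneg_left g2 (hpow _).le).trans (hcard.trans g1)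
    have g4 := (Real.rpow_le_rpow_left_iff_of_base_lt_one (B.pos n) (B.lt n)).1 g3
    have g5 : D * (C1 * ε) = D * C1 * ε := by ring
    rw [hc] at hd3 he3' hc0
    nlinarith

end Crest.Agent.R136.Ful403
end

-- ▼ part R136/Z2w_683

/-!
# R136: rung `s = 1` of Z2, model form (helper683)

`Z2W.strip_model` : 403's `strip_lam_R` for the block `(X_a, N)`, `(C_a, P)` of `Z2v_683`.
-/

set_option autoImplicit false
set_option linter.unusedSectionVars false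
set_option linter.unusedVariables false

open Filter Topology

namespace Crest.Agent.R136.Z2683

open Finset Crest.Agent.R136.NetQ186 Crest.Agent.R136.Net191 Crest.Agent.R136.Qg926
open Crest.Agent.R136.Gf356 Crest.Agent.R136.Ev356
open Crest.Agent.R138.Ex926 (Base U)

/-- the box `X_a, N` narrowed by `x`, `C_a, P` narrowed by `t` -/
noncomputable def vb (x t : ℝ) : Fin 11 → ℝ := fun s =>
  if s = 5 ∨ s = 7 then t else if s = 8 ∨ s = 10 then x else 0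

/-- the box `C_a` narrowed by `y` -/
noncomputable def vC (y : ℝ) : Fin 11 → ℝ := fun s => if s = 5 then y else 0

theorem vb5 (x t : ℝ) : vb x t 5 = t := if_pos (by simp)
theorem vb7 (x t : ℝ) : vb x t 7 = t := if_pos (by simp)
theorem vb8 (x t : ℝ) : vb x t 8 = x := by
  unfold vb; rw [if_neg (by decide), if_pos (by simp)]
theorem vb10 (x t : ℝ) : vb x t 10 = x := by
  unfold vb; rw [if_neg (by decide), if_pos (by simp)]
theorem vb_off {x t : ℝ} {s : Fin 11} (h1 : ¬ (s = 5 ∨ s = 7)) (h2 : ¬ (s = 8 ∨ s = 10)) :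
    vb x t s = 0 := by
  unfold vb; rw [if_neg h1, if_neg h2]


theorem vb_nonneg {x t : ℝ} (hx : 0 ≤ x) (ht : 0 ≤ t) (s : Fin 11) : 0 ≤ vb x t s := by
  unfold vb; split_ifs <;> first | exact ht | exact hx | exact le_rfl


variable {ι : ℕ → Type*} [∀ n, DecidableEq (ι n)] {W : Wnd 11 ι} {f : ∀ n, ι n → Fq4} {x : ℝ}

/-- good `n` for the configurations of `E` -/
structure GN (W : Wnd 11 ι) (x : ℝ) (E : ∀ n, Finset (ι n)) (n : ℕ) : Prop where
  N : Z2N W x n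
  sub : E n ⊆ W.Cl n
  cfg : W.cfg E n = W.cfg0 n (E n)

namespace GN

variable {E : ∀ n, Finset (ι n)} {n : ℕ} (G : GN W x E n)

include G

theorem alv {i k : ℕ} (hI : (i, k) ∈ (W.cfg E n).I) : Alv W n i k := by
  rw [G.cfg] at hI; exact alv_of G.sub hI

theorem rel {k i l : ℕ} (s : Fin 11) (hs : s ∉ W.S) : (W.cfg E n).rel k i l s =
    W.crd n (W.rep n i k) (W.rep n l k) s := by
  rw [G.cfg, rel_cfg0, if_neg hs]

theorem loose_get {p : Fin 11 → ℝ} {ε : ℝ} {k i l : ℕ} (hl : (W.cfg E n).loose p ε k i l)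
    {s : Fin 11} (hs : s ∉ W.S) :
    |W.crd n (W.rep n i k) (W.rep n l k) s| ≤ W.B'.d n ^ (p s - ε) := by
  have := hl s
  rw [G.rel s hs] at this
  rw [G.cfg] at this
  exact this

theorem loose_of {p : Fin 11 → ℝ} {ε : ℝ} {k i l : ℕ}
    (hl : ∀ s, s ∉ W.S → |W.crd n (W.rep n i k) (W.rep n l k) s| ≤ W.B'.d n ^ (p s - ε)) :
    (W.cfg E n).loose p ε k i l := by
  intro s
  have e : (W.cfg E n).ρ = W.B'.d n := by rw [G.cfg]; rfl
  rw [e]
  by_cases hs : s ∈ W.S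
  · rw [G.cfg, rel_cfg0, if_pos hs, abs_zero]
    exact Real.rpow_nonneg (W.B'.pos n).le _
  · rw [G.rel s hs]; exact hl s hs

theorem box {p : Fin 11 → ℝ} {ε : ℝ} {i l k : ℕ} (hl : l ∈ (W.cfg E n).box p ε i k) :
    (l, k) ∈ (W.cfg E n).I ∧ (W.cfg E n).loose p ε k i l := by
  obtain ⟨h1, h2⟩ := RCfg.mem_box.1 hl
  exact ⟨(RCfg.mem_slice.1 h1).2, h2⟩

end GN

theorem S5 (h : Z2W W f x) : (5 : Fin 11) ∉ W.S := h.q.notMem (by simp)
theorem S7 (h : Z2W W f x) : (7 : Fin 11) ∉ W.S := h.q.notMem (by simp)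
theorem S8 (h : Z2W W f x) : (8 : Fin 11) ∉ W.S := h.q.notMem (by simp)
theorem S10 (h : Z2W W f x) : (10 : Fin 11) ∉ W.S := h.q.notMem (by simp)

/-- the constant of the estimates -/
noncomputable def cZ (W : Wnd 11 ι) : ℝ := 1000 * W.K0 ^ 6

theorem rmul (n : ℕ) {c e s : ℝ} (hc : c ≤ W.B'.d n ^ (-e)) :
    c * W.B'.d n ^ s ≤ W.B'.d n ^ (s - e) := by
  have h1 := mul_le_mul_of_nonneg_right hc (Real.rpow_nonneg (W.B'.pos n).le s)
  rw [← Real.rpow_add (W.B'.pos n)] at h1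
  have e1 : -e + s = s - e := by ring
  rwa [e1] at h1

theorem ranti (n : ℕ) {s t : ℝ} (h : s ≤ t) : W.B'.d n ^ t ≤ W.B'.d n ^ s :=
  Real.rpow_le_rpow_of_exponent_ge (W.B'.pos n) (W.B'.lt n).le h

/-- powers of `K0` -/
theorem Kpow (h : Z2W W f x) : W.K0 ≤ W.K0 ^ 6 ∧ W.K0 ^ 2 ≤ W.K0 ^ 6 ∧ W.K0 ^ 4 ≤ W.K0 ^ 6 ∧
    1 ≤ W.K0 ^ 6 :=
  ⟨le_self_pow₀ h.K1 (by norm_num), pow_le_pow_right₀ h.K1 (by norm_num),
    pow_le_pow_right₀ h.K1 (by norm_num), one_le_pow₀ h.K1⟩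

set_option maxHeartbeats 1000000 in
/-- **heavy strip of the block**, model form -/
theorem Z2W.strip_model (hKM : ∀ V : ℝ, Crest.Agent.R138.Tub70.KM32 V) (h : Z2W W f x)
    {E : ∀ n, Finset (ι n)} (hG : ∀ᶠ n in (U : Filter ℕ), GN W x E n)
    (H : RModel W.B' (W.cfg E) 1 x W.legW W.nu W.Dc) (i0 k0 : ℕ → ℕ)
    (h0 : ∀ᶠ n in (U : Filter ℕ), (i0 n, k0 n) ∈ (W.cfg E n).I) {t : ℝ} (ht : 0 < t)
    (htx : t ≤ x) (l0 : (0 : Fin 11 → ℝ) ∈ W.legW) (l1 : vb x 0 ∈ W.legW)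
    (l2 : vb 0 t ∈ W.legW) (l3 : vb x t ∈ W.legW)
    (hprod : W.nu 0 - W.nu (vb 0 t) ≤ W.nu (vb x 0) - W.nu (vb x t))
    (hnf : (W.nu 0 - W.nu (vb x 0)) + 2 * t < 2 * x) {y0 : ℝ} (hy0 : 0 < y0)
    (hC : ∀ y : ℝ, 0 < y → y ≤ y0 → vC y ∈ W.legW ∧ W.nu (vC y) < W.nu 0)
    {δ : ℝ} (hδ : 0 < δ) :
    ∃ ε0 : ℝ, 0 < ε0 ∧ ∀ ε : ℝ, 0 < ε → ε ≤ ε0 → ∀ᶠ n in (U : Filter ℕ),
      ∃ lam : ℝ, |lam| ≤ W.B'.d n ^ (-δ) ∧ ∃ i1 ∈ (W.cfg E n).box 0 ε (i0 n) (k0 n),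
      ∃ T ⊆ (W.cfg E n).box 0 ε (i0 n) (k0 n),
        (∀ i ∈ T, |(bV W n i 1 - bV W n i1 1) - lam * (bV W n i 0 - bV W n i1 0)| ≤
          W.B'.d n ^ (t - δ)) ∧
        W.B'.d n ^ δ * (((W.cfg E n).box 0 ε (i0 n) (k0 n)).card : ℝ) ≤ (T.card : ℝ) := by
  have hx := h.x0
  obtain ⟨K1, K2, K4, K6⟩ := Kpow h
  have hK := h.K1
  have hcst : ∀ e : ℝ, 0 < e → ∀ᶠ n in (U : Filter ℕ), cZ W ≤ W.B'.d n ^ (-e) := fun e he =>
    ev_const_le W.B' he (cZ W)
  have hc1 : 1 ≤ cZ W := by unfold cZ; linarith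
  have hpos : ∀ (n : ℕ) (s : ℝ), 0 < W.B'.d n ^ s := fun n s =>
    Real.rpow_pos_of_pos (W.B'.pos n) s
  have hZE : ∀ n, (W.cfg E n).Z.Nonempty := by
    intro n
    obtain ⟨⟨i, k⟩, hik⟩ := H.nonempty n
    exact ⟨k, (Finset.mem_product.1 (H.sub n hik)).2⟩
  refine Ful403.strip_lam_R hKM H.toRUnif i0 k0 h0 0 0 (vb x 0) (vb 0 t) (vb x t) l0 l0 l1 l2 l3
    (fun j => vb_nonneg hx.le le_rfl j) (fun j => vb_nonneg le_rfl ht.le j) hx (bF W) (bA W) (bV W)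
    (fun n k => flg W n k 0) (fun n => (W.cfg E n).Z) (Eventually.of_forall hZE)
    (C1 := 3) (by norm_num) ?_ ?_ ?_ ?_ ?_ ?_ ?_ ?_ ?_ ?_ hprod le_rfl hnf ht vC
    (y0 := min y0 x) (lt_min hy0 hx) ?_ ?_ hδ
  · -- hφ
    intro ε hε
    filter_upwards [hG, hcst (3 * ε) (by positivity)] with n G hc k hk
    obtain ⟨a, ha, e⟩ : ∃ a, (a, k) ∈ (W.cfg E n).I ∧ True := by
      rw [G.cfg] at hk ⊢
      obtain ⟨y, hy, rfl⟩ := mem_image.1 hk
      exact ⟨W.lc n y, mem_image.2 ⟨y, hy, rfl⟩, trivial⟩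
    have A := G.alv ha
    have := h.bd G.N.g G.N.g.s0 A.z 0
    refine (this.trans ?_).trans hc
    unfold cZ; linarith
  · -- hA
    intro ε hε
    filter_upwards [hG, hcst (3 * ε) (by positivity)] with n G hc i hi i' hi' a
    have A := G.alv (G.box hi).1
    have A' := G.alv (G.box hi').1
    refine le_trans ?_ hc
    have q1 := h.bd G.N.g G.N.g.s0 A.t
    have q2 := h.bd G.N.g G.N.g.s0 A'.t
    have q3 : ∀ s, |W.crd n (W.s₀ n) (lrp W n i') s - W.crd n (W.s₀ n) (lrp W n i) s| ≤ cZ W := by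
      intro s
      have := abs_sub (W.crd n (W.s₀ n) (lrp W n i') s) (W.crd n (W.s₀ n) (lrp W n i) s)
      have := q1 s
      have := q2 s
      unfold cZ; linarith
    fin_cases a
    · exact q3 8
    · exact q3 10
  · -- hV
    intro ε hε
    filter_upwards [hG, hcst (3 * ε) (by positivity)] with n G hc i hi i' hi' a
    have A := G.alv (G.box hi).1
    have A' := G.alv (G.box hi').1
    refine le_trans ?_ hc
    have q1 := h.bd G.N.g G.N.g.s0 A.t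
    have q2 := h.bd G.N.g G.N.g.s0 A'.t
    have q3 : ∀ s, |W.crd n (W.s₀ n) (lrp W n i') s - W.crd n (W.s₀ n) (lrp W n i) s| ≤ cZ W := by
      intro s
      have := abs_sub (W.crd n (W.s₀ n) (lrp W n i') s) (W.crd n (W.s₀ n) (lrp W n i) s)
      have := q1 s
      have := q2 s
      unfold cZ; linarith
    fin_cases a
    · exact q3 5
    · exact q3 7
  · -- hF
    intro ε hε
    filter_upwards [hG, hcst (3 * ε) (by positivity)] with n G hc k hk i hi hik i' hi' hi'k a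
    have A := G.alv hik
    have A' := G.alv hi'k
    have f1 := h.rep_F G.N A a
    have f2 := h.rep_F G.N A' a
    have e1 : bF W n k i' a - bF W n k i a - ((bA W n i' a - bA W n i a) +
        flg W n k 0 * (bV W n i' a - bV W n i a)) =
        (bF W n k i' a - (bA W n i' a + flg W n k 0 * bV W n i' a)) -
        (bF W n k i a - (bA W n i a + flg W n k 0 * bV W n i a)) := by ring
    rw [e1]
    refine (abs_sub _ _).trans ?_
    refine le_trans ?_ (rmul (W := W) n hc)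
    have k4 : 20 * W.K0 ^ 4 * et W x n + 20 * W.K0 ^ 4 * et W x n =
        (40 * W.K0 ^ 4) * et W x n := by ring
    refine (add_le_add f2 f1).trans ?_
    rw [k4]
    refine mul_le_mul_of_nonneg_right ?_ (et_pos n).le
    unfold cZ; linarith
  · -- hlink
    intro ε hε
    filter_upwards [hG, hcst (2 * ε) (by positivity)] with n G hc k hk i hi hik l hlk hl a
    have A := G.alv hik
    have A' := G.alv hlk
    obtain ⟨-, -, t8, t10⟩ := h.two G.N A A'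
    have c8 := G.loose_get hl (S8 h)
    have c10 := G.loose_get hl (S10 h)
    rw [vb8] at c8
    rw [vb10] at c10
    have hη : et W x n ≤ W.B'.d n ^ (x - ε) := ranti n (by linarith)
    have hp := hpos n (x - ε)
    have hm : cZ W * W.B'.d n ^ (x - ε) ≤ W.B'.d n ^ (x - 3 * ε) := by
      refine (rmul (W := W) n hc).trans (le_of_eq ?_)
      congr 1; ring
    refine le_trans ?_ hm
    set P := W.B'.d n ^ (x - ε) with hP
    have m1 : W.K0 ^ 4 * et W x n ≤ W.K0 ^ 6 * P :=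
      mul_le_mul K4 hη (et_pos n).le (by positivity)
    have m2 : W.K0 ^ 2 * |W.crd n (W.rep n i k) (W.rep n l k) 8| ≤ W.K0 ^ 6 * P :=
      mul_le_mul K2 c8 (abs_nonneg _) (by positivity)
    have m3 : P ≤ W.K0 ^ 6 * P := le_mul_of_one_le_left hp.le K6
    have cz : cZ W * P = 1000 * (W.K0 ^ 6 * P) := by unfold cZ; ring
    rw [cz]
    fin_cases a
    · have := abs_sub_le (bF W n k l 0 - bF W n k i 0) (W.crd n (W.rep n i k) (W.rep n l k) 8) 0
      rw [sub_zero, sub_zero] at this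
      show |bF W n k l 0 - bF W n k i 0| ≤ _
      have q : 0 ≤ W.K0 ^ 6 * P := by positivity
      linarith
    · have := abs_sub_le (bF W n k l 1 - bF W n k i 1) (W.crd n (W.rep n i k) (W.rep n l k) 10) 0
      rw [sub_zero, sub_zero] at this
      show |bF W n k l 1 - bF W n k i 1| ≤ _
      have q : 0 ≤ W.K0 ^ 6 * P := by positivity
      have r1 : 11 * W.K0 ^ 4 * et W x n = 11 * (W.K0 ^ 4 * et W x n) := by ring
      have r2 : 2 * W.K0 ^ 2 * |W.crd n (W.rep n i k) (W.rep n l k) 8| =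
          2 * (W.K0 ^ 2 * |W.crd n (W.rep n i k) (W.rep n l k) 8|) := by ring
      rw [r1, r2] at t10
      linarith
  · -- hT
    intro ε hε
    filter_upwards [hG, hcst (3 * ε) (by positivity)] with n G hc k hk i hi i' hi' hik hi'k
    have A := G.alv hik
    have A' := G.alv hi'k
    refine G.loose_of fun s hs => ?_
    rw [Pi.zero_apply, zero_sub]
    refine le_trans ?_ hc
    have := h.bd G.N.g A.r A'.r s
    unfold cZ; linarith
  · -- hal
    intro ε hε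
    filter_upwards [H.line ε hε] with n hl i hi T hT hTk
    have h1 : i ∈ (W.cfg E n).L := (RCfg.mem_slice.1 (RCfg.mem_box.1 hi).1).1
    have h2 := hl i h1
    have h3 : (W.cfg E n).hts i ⊆ T := fun k hk =>
      hTk k (RCfg.mem_hts.1 hk).1 (RCfg.mem_hts.1 hk).2
    have h4 : (((W.cfg E n).hts i).card : ℝ) ≤ (T.card : ℝ) := by exact_mod_cast card_le_card h3
    have h5 : W.B'.d n ^ (3 * ε) ≤ W.B'.d n ^ ε := ranti n (by linarith)
    have h6 := mul_le_mul_of_nonneg_right h5 (Nat.cast_nonneg (α := ℝ) (W.cfg E n).Z.card)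
    linarith
  · -- hfr
    intro y hy hyx ε hε
    have hc : ∀ᶠ n in (U : Filter ℕ), W.Good n ∧ E n ⊆ W.Cl n ∧ W.cfg E n = W.cfg0 n (E n) := by
      filter_upwards [hG] with n G using ⟨G.N.g, G.sub, G.cfg⟩
    filter_upwards [H.frost y hy hyx ε hε, h.q.z_eq h.kz hc, hG] with n hfr hz G k hk T hT hTk
    have h1 : T ⊆ (W.cfg E n).hbox y k := by
      intro k' hk'
      unfold RCfg.hbox
      rw [mem_filter]
      refine ⟨hT hk', ?_⟩
      rw [hz k', hz k]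
      have e : (W.cfg E n).ρ = W.B'.d n := by rw [G.cfg]; rfl
      rw [e]
      exact hTk k' hk'
    have h2 := hfr k hk
    rw [one_mul] at h2
    refine le_trans ?_ h2
    exact_mod_cast card_le_card h1
  · -- hqf
    intro C3 hC3
    refine ⟨C3 + 1, by positivity, fun ε hε => ?_⟩
    filter_upwards [hG, hcst ε hε] with n G hc k hk i hi hik i' hi' hi'k hFa hVa
    have A := G.alv hik
    have A' := G.alv hi'k
    obtain ⟨t5, t7, t8, t10⟩ := h.two G.N A A'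
    have hF0 := hFa 0
    have hF1 := hFa 1
    have hV0 := hVa 0
    have hV1 := hVa 1
    have ηt : et W x n ≤ W.B'.d n ^ (t - C3 * ε) := ranti n (by nlinarith)
    have ηx : et W x n ≤ W.B'.d n ^ (x - C3 * ε) := ranti n (by nlinarith)
    have mt : cZ W * W.B'.d n ^ (t - C3 * ε) ≤ W.B'.d n ^ (t - (C3 + 1) * ε) := by
      refine (rmul (W := W) n hc).trans (le_of_eq ?_)
      congr 1; ring
    have mx : cZ W * W.B'.d n ^ (x - C3 * ε) ≤ W.B'.d n ^ (x - (C3 + 1) * ε) := by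
      refine (rmul (W := W) n hc).trans (le_of_eq ?_)
      congr 1; ring
    set P := W.B'.d n ^ (t - C3 * ε) with hP
    set R := W.B'.d n ^ (x - C3 * ε) with hR
    have hP0 : 0 < P := hpos n _
    have hR0 : 0 < R := hpos n _
    set c5 := W.crd n (W.rep n i k) (W.rep n i' k) 5 with hc5
    set c7 := W.crd n (W.rep n i k) (W.rep n i' k) 7 with hc7
    set c8 := W.crd n (W.rep n i k) (W.rep n i' k) 8 with hc8
    set c10 := W.crd n (W.rep n i k) (W.rep n i' k) 10 with hc10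
    have tri : ∀ a b : ℝ, |b| ≤ |a| + |a - b| := by
      intro a b
      have := abs_sub_abs_le_abs_sub b a
      rw [abs_sub_comm b a] at this
      linarith
    have u4t : W.K0 ^ 4 * et W x n ≤ W.K0 ^ 4 * P := mul_le_mul_of_nonneg_left ηt (by positivity)
    have u4x : W.K0 ^ 4 * et W x n ≤ W.K0 ^ 4 * R := mul_le_mul_of_nonneg_left ηx (by positivity)
    have oneP : P ≤ W.K0 ^ 4 * P := le_mul_of_one_le_left hP0.le (one_le_pow₀ hK)
    have oneR : R ≤ W.K0 ^ 4 * R := le_mul_of_one_le_left hR0.le (one_le_pow₀ hK)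
    have b5 : |c5| ≤ 41 * (W.K0 ^ 4 * P) := by
      have q := tri (bV W n i' 0 - bV W n i 0) c5
      have r1 : 40 * W.K0 ^ 4 * et W x n = 40 * (W.K0 ^ 4 * et W x n) := by ring
      rw [r1] at t5
      linarith
    have b8 : |c8| ≤ 2 * (W.K0 ^ 4 * R) := by
      have q := tri (bF W n k i' 0 - bF W n k i 0) c8
      linarith
    have K46 : W.K0 ^ 4 * P ≤ W.K0 ^ 6 * P := mul_le_mul_of_nonneg_right K4 hP0.le
    have K46' : W.K0 ^ 4 * R ≤ W.K0 ^ 6 * R := mul_le_mul_of_nonneg_right K4 hR0.le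
    have b7 : |c7| ≤ 126 * (W.K0 ^ 6 * P) := by
      have q := tri (bV W n i' 1 - bV W n i 1) c7
      have r1 : 43 * W.K0 ^ 4 * et W x n = 43 * (W.K0 ^ 4 * et W x n) := by ring
      have r2 : 2 * W.K0 ^ 2 * |c5| ≤ 82 * (W.K0 ^ 6 * P) := by
        have := mul_le_mul_of_nonneg_left b5 (by positivity : 0 ≤ 2 * W.K0 ^ 2)
        refine this.trans (le_of_eq ?_); ring
      rw [r1] at t7
      linarith
    have b10 : |c10| ≤ 16 * (W.K0 ^ 6 * R) := by
      have q := tri (bF W n k i' 1 - bF W n k i 1) c10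
      have r1 : 11 * W.K0 ^ 4 * et W x n = 11 * (W.K0 ^ 4 * et W x n) := by ring
      have r2 : 2 * W.K0 ^ 2 * |c8| ≤ 4 * (W.K0 ^ 6 * R) := by
        have := mul_le_mul_of_nonneg_left b8 (by positivity : 0 ≤ 2 * W.K0 ^ 2)
        refine this.trans (le_of_eq ?_); ring
      rw [r1] at t10
      linarith
    have cP : cZ W * P = 1000 * (W.K0 ^ 6 * P) := by unfold cZ; ring
    have cR : cZ W * R = 1000 * (W.K0 ^ 6 * R) := by unfold cZ; ring
    have p6 : 0 < W.K0 ^ 6 * P := by positivity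
    have r6 : 0 < W.K0 ^ 6 * R := by positivity
    refine G.loose_of fun s hs => ?_
    by_cases s5 : s = 5
    · subst s5; rw [vb5]
      refine le_trans ?_ mt
      rw [cP]; linarith
    by_cases s7 : s = 7
    · subst s7; rw [vb7]
      refine le_trans ?_ mt
      rw [cP]; linarith
    by_cases s8 : s = 8
    · subst s8; rw [vb8]
      refine le_trans ?_ mx
      rw [cR]; linarith
    by_cases s10 : s = 10
    · subst s10; rw [vb10]
      refine le_trans ?_ mx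
      rw [cR]; linarith
    rw [vb_off (by tauto) (by tauto), zero_sub]
    have e1 := h.bd G.N.g A.r A'.r s
    have e2 : W.B'.d n ^ (-ε) ≤ W.B'.d n ^ (-((C3 + 1) * ε)) := ranti n (by nlinarith)
    refine le_trans ?_ (hc.trans e2)
    unfold cZ; linarith
  · -- hql
    intro ε hε
    filter_upwards [hG, hcst (2 * ε) (by positivity), h0] with n G hc h0n i hi l hlk hl a
    have A := G.alv (G.box hi).1
    have A' := G.alv hlk
    obtain ⟨t5, t7, -, -⟩ := h.two G.N A A'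
    have c5 := G.loose_get hl (S5 h)
    have c7 := G.loose_get hl (S7 h)
    rw [vb5] at c5
    rw [vb7] at c7
    have hη : et W x n ≤ W.B'.d n ^ (t - ε) := ranti n (by linarith)
    have hp := hpos n (t - ε)
    have hm : cZ W * W.B'.d n ^ (t - ε) ≤ W.B'.d n ^ (t - 3 * ε) := by
      refine (rmul (W := W) n hc).trans (le_of_eq ?_)
      congr 1; ring
    refine le_trans ?_ hm
    set P := W.B'.d n ^ (t - ε) with hP
    set k := k0 n
    have m1 : W.K0 ^ 4 * et W x n ≤ W.K0 ^ 6 * P :=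
      mul_le_mul K4 hη (et_pos n).le (by positivity)
    have m2 : W.K0 ^ 2 * |W.crd n (W.rep n i k) (W.rep n l k) 5| ≤ W.K0 ^ 6 * P :=
      mul_le_mul K2 c5 (abs_nonneg _) (by positivity)
    have m3 : P ≤ W.K0 ^ 6 * P := le_mul_of_one_le_left hp.le K6
    have cz : cZ W * P = 1000 * (W.K0 ^ 6 * P) := by unfold cZ; ring
    have q : 0 ≤ W.K0 ^ 6 * P := by positivity
    rw [cz]
    fin_cases a
    · have := abs_sub_le (bV W n l 0 - bV W n i 0) (W.crd n (W.rep n i k) (W.rep n l k) 5) 0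
      rw [sub_zero, sub_zero] at this
      show |bV W n l 0 - bV W n i 0| ≤ _
      have r1 : 40 * W.K0 ^ 4 * et W x n = 40 * (W.K0 ^ 4 * et W x n) := by ring
      rw [r1] at t5
      linarith
    · have := abs_sub_le (bV W n l 1 - bV W n i 1) (W.crd n (W.rep n i k) (W.rep n l k) 7) 0
      rw [sub_zero, sub_zero] at this
      show |bV W n l 1 - bV W n i 1| ≤ _
      have r1 : 43 * W.K0 ^ 4 * et W x n = 43 * (W.K0 ^ 4 * et W x n) := by ring
      have r2 : 2 * W.K0 ^ 2 * |W.crd n (W.rep n i k) (W.rep n l k) 5| =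
          2 * (W.K0 ^ 2 * |W.crd n (W.rep n i k) (W.rep n l k) 5|) := by ring
      rw [r1, r2] at t7
      linarith
  · -- hpC
    intro y hy hyy
    exact hC y hy (hyy.trans (min_le_left _ _))
  · -- hCl
    intro y hy hyy ε hε
    have hyx : y ≤ x := hyy.trans (min_le_right _ _)
    filter_upwards [hG, hcst (3 * ε) (by positivity)] with n G hc i hi i' hi' hV0
    have A := G.alv (G.box hi).1
    have A' := G.alv (G.box hi').1
    obtain ⟨t5, -, -, -⟩ := h.two G.N A A'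
    set k := k0 n
    have hη : et W x n ≤ W.B'.d n ^ y := ranti n hyx
    have hp := hpos n y
    refine G.loose_of fun s hs => ?_
    by_cases s5 : s = 5
    · subst s5
      have e : vC y 5 = y := if_pos rfl
      rw [e]
      refine le_trans ?_ (rmul (W := W) n hc)
      have tri := abs_sub_abs_le_abs_sub (W.crd n (W.rep n i k) (W.rep n i' k) 5)
        (bV W n i' 0 - bV W n i 0)
      rw [abs_sub_comm (W.crd n (W.rep n i k) (W.rep n i' k) 5)
        (bV W n i' 0 - bV W n i 0)] at tri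
      set P := W.B'.d n ^ y
      have m1 : W.K0 ^ 4 * et W x n ≤ W.K0 ^ 6 * P :=
        mul_le_mul K4 hη (et_pos n).le (by positivity)
      have m3 : P ≤ W.K0 ^ 6 * P := le_mul_of_one_le_left hp.le K6
      have cz : cZ W * P = 1000 * (W.K0 ^ 6 * P) := by unfold cZ; ring
      have q : 0 ≤ W.K0 ^ 6 * P := by positivity
      have r1 : 40 * W.K0 ^ 4 * et W x n = 40 * (W.K0 ^ 4 * et W x n) := by ring
      rw [r1] at t5
      rw [cz]
      linarith
    · have e : vC y s = 0 := if_neg s5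
      rw [e, zero_sub]
      refine le_trans ?_ hc
      have := h.bd G.N.g A.r A'.r s
      unfold cZ; linarith

end Crest.Agent.R136.Z2683
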