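import Crest.Agent.R136.RgR5_210_Mg
import Crest.Agent.R136.WinE4_323
import Crest.Agent.R136.Z2w_683
import Crest.Agent.R136.Gau1_66
import Crest.Agent.R136.Rc8_146
import Crest.Agent.R136.K2X_774
import Crest.Agent.R136.LdF3_511
import Crest.Agent.R136.K2Y_774
import Crest.Agent.R136.K2A_146
import Crest.Agent.R136.Qg5_926
import Crest.Agent.R138.Dp1_76
import Crest.Agent.R138.Pf_926

-- ▼ part R136/WkES6_501
section

/-!
# R136 (S0187): RIG_E, unconditional (helper501; pieces of helper344, helper210, helper356)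
-/

set_option autoImplicit false

namespace Crest.Agent.R136.StripE501

open Crest.Agent.R136.RgE344

/-- **RIG_E** -/
theorem rigE' : RigE' := Crest.Agent.R136.RgR210.rigE_of_strips strips_all

end Crest.Agent.R136.StripE501
end

-- ▼ part R136/WinE5_323
section

/-!
# R136 (S0187), row E, window half, piece (A), end (helper323)

* `profE_of` : the profile.
* `FWin.rig_inc`, **`rigInc : RigInc`**.
-/

set_option autoImplicit false
set_option linter.unusedSectionVars false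
set_option linter.unusedVariables false

open Filter Topology

namespace Crest.Agent.R136.WinE323

open Finset
open Crest.Agent.R136.Sh605
open Crest.Agent.R136.Net186
open Crest.Agent.R136.NetQ186
open Crest.Agent.R136.Qg926
open Crest.Agent.R136.Net191
open Crest.Agent.R138.Ex926 (Base U cls mem_cls le_count_mul)
open Crest.Agent.R136.Gf356
open Crest.Agent.R136.RgE344
open Crest.Agent.R136.Xb403 (stP POk)
open Crest.Agent.R136.Wq400 (kapQ wtQ)
open Crest.Agent.R136.Wk323 (tq s4 s4_tq tq_ne tq_s4 uu nI st coQ_st co4_nrm lrep lrep_spec Tight nrm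
  Unit4 Near4 co4_lip coA coA_eq abs_mul_le fAll TightX tight_units wtR sub_lip)
open Crest.Agent.R136.Wk323.LWin (lT lfb mem_rep mem_lrep mem_zrep)

/-! ### the boxes -/

theorem cut_qE {top : Fin 11 → ℝ} {x a b c d : ℝ} (h0 : top 0 = x) (h2 : top 2 = x)
    (h4 : top 4 = x) : cut ({0, 2, 4} : Finset (Fin 11)) (qE a b c d) top = bE x a b c d := by
  funext s
  unfold cut
  fin_cases s <;> simp [qE, bE, h0, h2, h4]

theorem legal_bE {x a b c d : ℝ} (hx : 0 ≤ x) (ha : 0 ≤ a) (hax : a ≤ x) (hb : 0 ≤ b)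
    (hbx : b ≤ x) (hc : 0 ≤ c) (hd : 0 ≤ d) (hdx : d ≤ x) : Legal monQ (bE x a b c d) := by
  refine legalQ_iff.2 ⟨fun k => ?_, ?_, ?_, ?_, ?_, ?_, ?_, ?_, ?_, ?_, ?_, ?_⟩
  · fin_cases k <;> simp [bE] <;> assumption
  all_goals
    simp only [bE, Matrix.cons_val, Fin.isValue]
    linarith

theorem bE_le {x a b c d : ℝ} (hx : 0 ≤ x) (hax : a ≤ x) (hbx : b ≤ x) (hcx : c ≤ x)
    (hdx : d ≤ x) (s : Fin 11) : bE x a b c d s ≤ x := by
  fin_cases s <;> simp [bE] <;> assumption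

variable {ι : ℕ → Type*} [∀ n, DecidableEq (ι n)]

/-- **the profile of the window** -/
theorem profE_of {W : Wnd 11 ι} {x y m β : ℝ} (hx : 0 < x) (eS : W.S = {0, 2, 4})
    (t3 : W.top 3 = 0) (top : ∀ s, s ≠ 3 → W.top s = x) (hMw : ∀ k, W.Mw.mon k ⊆ monQ.mon k)
    (eR : W.R' = x) (N : NumE W.lam y m β) : ProfE (isoL W) W.nu x y m β where
  x0 := hx
  y0 := N.y0
  y2 := N.y2
  m0 := N.m0
  m1 := N.m1
  β0 := N.β0
  leg := by
    intro a b c d a0 ax b0 bx c0 cx d0 dx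
    have hcut : cut W.S (qE a b c d) W.top = bE x a b c d := by
      rw [eS]; exact cut_qE (top 0 (by decide)) (top 2 (by decide)) (top 4 (by decide))
    have hl := legal_bE hx.le a0 ax b0 bx c0 d0 dx
    refine ⟨⟨?_, ?_⟩, ?_, ?_, ?_, ?_, ?_⟩
    · rw [hcut]
      exact ⟨⟨hl.nonneg, fun k e he => hl.wall k e (hMw k he)⟩, fun s => by
        rw [eR]; exact bE_le hx.le ax bx cx dx s⟩
    · intro s hs
      by_cases h3 : s = 3
      · subst h3; rw [t3]; simp [qE]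
      · rw [top s h3]
        rw [eS] at hs
        revert hs h3
        fin_cases s <;> simp [qE] <;> linarith
    · simp [qE]
    · simp [qE]
    · rw [eS]; intro s hs
      have : s = 0 ∨ s = 2 ∨ s = 4 := by simpa using hs
      rcases this with rfl | rfl | rfl <;> simp [qE]
    · simp [qE]
    · simp [qE]
  form := by
    intro a b c d d0 da ax b0 bx c0 cx
    have hcut : ∀ a b c d : ℝ, cut W.S (qE a b c d) W.top = bE x a b c d := fun a b c d => by
      rw [eS]; exact cut_qE (top 0 (by decide)) (top 2 (by decide)) (top 4 (by decide))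
    show W.lam (cut W.S (qE a b c d) W.top) - W.lam W.top =
      (W.lam (cut W.S (qE 0 0 0 0) W.top) - W.lam W.top) - _
    rw [hcut, hcut, N.form x a b c d d0 da ax b0 bx c0 cx]
    ring

/-- lines and level cells are independent -/
theorem dens_of {W : Wnd 11 ι} {x y m β : ℝ} (hx : 0 ≤ x) (eS : W.S = {0, 2, 4})
    (t3 : W.top 3 = 0) (top : ∀ s, s ≠ 3 → W.top s = x) (N : NumE W.lam y m β) :
    W.lam W.top ≤ W.lam (cut W.S W.top 0) + W.lam (cut W.S 0 W.top) := by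
  have e : ∀ s, W.top s = if s = 3 then 0 else x := fun s => by
    split_ifs with h
    · rw [h, t3]
    · exact top s h
  have e1 : W.top = ![x, x, x, 0, x, x, x, x, x, x, x] := by
    funext s
    rw [e]
    fin_cases s <;> simp
  have e2 : cut W.S W.top 0 = ![0, x, 0, 0, 0, x, x, x, x, x, x] := by
    rw [eS, e1]
    funext s
    unfold cut
    fin_cases s <;> simp
  have e3 : cut W.S 0 W.top = ![x, 0, x, 0, x, 0, 0, 0, 0, 0, 0] := by
    rw [eS, e1]
    funext s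
    unfold cut
    fin_cases s <;> simp
  rw [e2, e3, e1]
  exact N.dens x hx

namespace FWin

variable {W : Wnd 11 ι} {F : ∀ n, ι n → Fq4} {x : ℝ} (H : FWin W F x)

include H

/-- coordinates in the frame of the base incidence -/
theorem crd_eq {n : ℕ} (y : ι n) (s : Fin 10) :
    W.crd n (W.s₀ n) y (tq s) = co4 (Wk323.st (F n (W.s₀ n))) (Wk323.st (F n y)) s / uu W n s := by
  unfold Wnd.crd
  rw [H.co, Wk323.coQ_st (H.str n _) (H.str n y) (Wk323.tq_ne s), Wk323.s4_tq]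
  rfl

theorem nI_e {n : ℕ} (y : ι n) : (nI W F n y).e = W.crd n (W.s₀ n) y 2 := (H.crd_eq y 1).symm
theorem nI_fb {n : ℕ} (y : ι n) : (nI W F n y).fb = W.crd n (W.s₀ n) y 3 := (H.crd_eq y 2).symm
theorem nI_fa {n : ℕ} (y : ι n) : (nI W F n y).fa = W.crd n (W.s₀ n) y 4 := (H.crd_eq y 3).symm

/-- **RIG_E on incidences** -/
theorem rig_inc {y m β θ θ' : ℝ} (hθ0 : 0 < θ') (hθ' : θ' < θ) (hθx : θ' < x)
    (hRig : RigAtE x y m β θ) (P : ProfE (isoL W) W.nu x y m β)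
    (hdens : W.lam W.top ≤ W.lam (cut W.S W.top 0) + W.lam (cut W.S 0 W.top))
    (hfrost : ∀ y, 0 ≤ y → y ≤ x → W.lam (Pi.single W.kz y) ≤ -y)
    {E : ∀ n, Finset (ι n)} {Mu : ℕ → ℝ} (hE : Wnd.EOk W E Mu) :
    ∀ ε : ℝ, 0 < ε → ∀ᶠ n in (U : Filter ℕ), ∃ G' ⊆ E n,
      W.B'.d n ^ ε * ((E n).card : ℝ) ≤ (G'.card : ℝ) ∧ RelF W n (W.B'.d n ^ θ') G' := by
  have ht0 : W.top W.kz = x := by rw [H.kz]; exact H.top 0 (by decide)
  obtain ⟨E', g, hP, -, hM⟩ := hE.exists_model H.ok (fun _ => pcode W) (g₀ := fun n => (n : ℝ))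
    (tendsto_natCast_atTop_atTop.mono_left Crest.Agent.R138.Ex926.U_le_atTop) hdens (σ := 1)
    (R := x) zero_le_one le_rfl (by rw [ht0]) (fun y hy hyx => by rw [one_mul]; exact hfrost y hy hyx)
  have hcfg := Wnd.ev_cfg H.ok hE hP
  have hE2 : ∀ᶠ n in (U : Filter ℕ), E' n ⊆ W.Cl n ∧ W.cfg E' n = W.cfg0 n (E' n) := by
    filter_upwards [hcfg] with n ⟨g1, h1, h2, h3⟩
    exact ⟨(hP.sub n).trans h1, h3⟩
  have hA := H.absE hE2
  have hM' := H.rmodel hE2 hM
  have hR := hRig W.B' (fun n => wr (W.cfg E' n) (relF W F n)) (isoL W) W.nu _ x _ _ _ _ hM' le_rfl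
    hA P
  intro ε hε
  have hε7 : 0 < ε / 7 := by positivity
  set κ := min (θ - θ') (x - θ') with hκ
  have hκ0 : 0 < κ := lt_min (sub_pos.2 hθ') (sub_pos.2 hθx)
  filter_upwards [hR _ hε7, pairs_pull H.ok hE hP hdens hε7, hE2, H.ok.ev_good, H.tight,
    Crest.Agent.R136.Gf356.ev_const_le W.B' hκ0 100] with n ⟨u, e0, c0, hu1, I', hI', hcard, hrel⟩
    h1 ⟨h2, h3⟩ gd hu hc
  change I' ⊆ (W.cfg E' n).I at hI'
  change W.B'.d n ^ (ε / 7) * ((W.cfg E' n).I.card : ℝ) ≤ (I'.card : ℝ) at hcard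
  refine ⟨(E' n).filter fun i => (W.lc n i, W.zc n i) ∈ I', (filter_subset _ _).trans (hP.sub n),
    ?_, u 0, u 1, e0, hu1, fun y hy => ?_⟩
  · have := h1 I' hI' hcard
    rwa [show 7 * (ε / 7) = ε by ring] at this
  have hpos : ∀ t : ℝ, 0 < W.B'.d n ^ t := fun t => Real.rpow_pos_of_pos (W.B'.pos n) t
  obtain ⟨hy1, hy2⟩ := mem_filter.1 hy
  have hyc := h2 hy1
  obtain ⟨b1', b2'⟩ := mem_zrep hyc rfl
  obtain ⟨-, d2, d4⟩ := H.levC gd hu hyc b1' b2'.symm
  obtain ⟨r1, -⟩ := hrel _ _ hy2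
  rw [← H.nI_e, ← H.nI_fa, ← H.nI_fb]
  obtain ⟨q0, q1⟩ := EWin.unit_le hu1
  set δ := W.B'.d n ^ x with hδ
  have e1 : 100 * W.B'.d n ^ θ ≤ W.B'.d n ^ θ' := by
    have := mul_le_mul_of_nonneg_right hc (hpos θ).le
    refine this.trans ?_
    rw [← Real.rpow_add (W.B'.pos n)]
    exact Real.rpow_le_rpow_of_exponent_ge (W.B'.pos n) (W.B'.lt n).le (by
      have := min_le_left (θ - θ') (x - θ'); linarith)
  have e2 : 100 * δ ≤ W.B'.d n ^ θ' := by
    have := mul_le_mul_of_nonneg_right hc (hpos x).le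
    refine this.trans ?_
    rw [← Real.rpow_add (W.B'.pos n)]
    exact Real.rpow_le_rpow_of_exponent_ge (W.B'.pos n) (W.B'.lt n).le (by
      have := min_le_right (θ - θ') (x - θ'); linarith)
  have hδ0 : 0 < δ := hpos x
  set e := (nI W F n y).e with he
  set ez := (nI W F n (W.zrep n (W.zc n y))).e
  set gz := (mI (nI W F n (W.zrep n (W.zc n y)))).fa
  have hG : (nI W F n y).fa + (nI W F n y).fb * e = (mI (nI W F n y)).fa := rfl
  rw [hG]
  set gy := (mI (nI W F n y)).fa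
  change |u 0 * ez + u 1 * (gz + 0 * ez) - e0| ≤ _ at r1
  have g1 : |u 0 * (ez - e)| ≤ 1 * δ := abs_mul_le q0 d2
  have g2 : |u 1 * (gz - gy)| ≤ 1 * (2 * δ) := abs_mul_le q1 d4
  have z4 : u 0 * e + u 1 * gy - e0 = (u 0 * ez + u 1 * (gz + 0 * ez) - e0) -
      u 0 * (ez - e) - u 1 * (gz - gy) := by ring
  rw [z4]
  have t1 := abs_sub ((u 0 * ez + u 1 * (gz + 0 * ez) - e0) - u 0 * (ez - e)) (u 1 * (gz - gy))
  have t2 := abs_sub (u 0 * ez + u 1 * (gz + 0 * ez) - e0) (u 0 * (ez - e))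
  have := hpos θ
  linarith

end FWin

/-- **piece (A)** -/
theorem rigInc : RigInc := by
  intro x y m β θ θ' K C Ma B B' I J co F Y w D T lam Cl s₀ h0 h1 h2 hR N hco hstr hK1 hK hsub hY hok
  have hx : 0 < x := h0.trans h2
  set W := (stE K x Ma).wnd B B' I J co monQ C Y w D T lam Cl s₀ with hW
  have top3 : W.top 3 = 0 := by
    show (if (3 : Fin 11) ∈ rsE then x else 0) = 0
    rw [if_neg (by unfold rsE; decide)]
  have top : ∀ s, s ≠ 3 → W.top s = x := by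
    intro s hs
    show (if s ∈ rsE then x else 0) = x
    rw [if_pos]
    revert hs
    unfold rsE
    fin_cases s <;> decide
  have H : FWin W F x :=
    { ok := hok
      co := hco
      str := hstr
      S := rfl
      kz := rfl
      tight := by
        filter_upwards [hY] with n hn
        have e : uu W n = fun s : Fin 10 => K ^ wtR (tq s) * B.d n ^ Y n (tq s) := by
          funext s
          show K ^ wtQ (tq s) * B.d n ^ Y n (tq s) = _
          have e1 : wtQ (tq s) = wtR (tq s) := by fin_cases s <;> rfl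
          rw [e1]
        rw [e]
        exact tight_units (lt_of_lt_of_le one_pos hK1) (B.pos n) hn
      kap := fun s => by
        show 2 * cK0 monQ C ≤ K ^ wtQ s
        refine hK.trans (le_self_pow₀ hK1 ?_)
        fin_cases s <;> decide
      x0 := hx.le
      top3 := top3
      top := top }
  exact H.rig_inc h0 h1 h2 hR (profE_of hx rfl top3 top (fun k => hsub k) rfl N)
    (dens_of hx.le rfl top3 top N) (fun y hy _ => N.frost y hy) hok.eok_class

end Crest.Agent.R136.WinE323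
end

-- ▼ part R136/Z2x_683
section

/-!
# R136: rung `s = 1` of Z2: strip relation on a dense set of incidences (helper683)

* `Z2W.class_strip` : a `ρ^ε`-part of the class of a window lies in one strip `P - μ C_a = const`
* **`strip_rel`** : from a zoom window to one dense set all of whose classes satisfy the relation
-/

set_option autoImplicit false
set_option linter.unusedSectionVars false
set_option linter.unusedVariables false

open Filter Topology

namespace Crest.Agent.R136.Z2683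

open Finset Crest.Agent.R136.NetQ186 Crest.Agent.R136.Net191 Crest.Agent.R136.Qg926
open Crest.Agent.R136.Gf356 Crest.Agent.R136.Ev356
open Crest.Agent.R138.Ex926 (Base U U_le_atTop)
open Crest.Agent.R138 (Ex926.cls)

variable {ι : ℕ → Type*} [∀ n, DecidableEq (ι n)] {W : Wnd 11 ι} {f : ∀ n, ι n → Fq4} {x : ℝ}

/-- change of the base incidence: `P` up to a multiple of `C_a` -/
theorem Z2W.rebase (h : Z2W W f x) {n : ℕ} (N : Z2N W x n) {p a b : ι n} (hp : p ∈ W.Cl n)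
    (ha : a ∈ W.Cl n) : ∃ m : ℝ, |m| ≤ 2 * W.K0 ^ 2 ∧ ∀ b ∈ W.Cl n,
      |(W.crd n p b 7 - W.crd n p a 7) - W.crd n a b 7 - m * W.crd n a b 5| ≤
        3 * W.K0 ^ 2 * et W x n := by
  have c := h.cfN N
  have hK := h.K1
  have K0 : 0 ≤ W.K0 := by linarith
  have a0 := h.bd N.g hp ha 0
  have a2 := h.bd N.g hp ha 2
  have a3 := h.bd N.g hp ha 3
  have a4 := h.bd N.g hp ha 4
  have hη := (et_pos (W := W) (x := x) n).le
  refine ⟨cf W n 4 5 7 * W.crd n p a 4 + cf W n 2 3 4 * cf W n 4 5 7 *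
    (W.crd n p a 2 * W.crd n p a 3), ?_, fun b hb => ?_⟩
  · refine (abs_add_le _ _).trans ?_
    rw [abs_mul, abs_mul (cf W n 2 3 4 * cf W n 4 5 7), abs_mul (W.crd n p a 2),
      abs_of_nonneg (c.p 4 5 7), abs_of_nonneg (mul_nonneg (c.p 2 3 4) (c.p 4 5 7))]
    have e1 : cf W n 4 5 7 * |W.crd n p a 4| ≤ 1 * W.K0 :=
      mul_le_mul c.c457 a4 (abs_nonneg _) (by norm_num)
    have e2 : cf W n 2 3 4 * cf W n 4 5 7 * (|W.crd n p a 2| * |W.crd n p a 3|) ≤
        1 * 1 * (W.K0 * W.K0) :=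
      mul_le_mul (mul_le_mul c.c234 c.c457 (c.p _ _ _) (by norm_num))
        (mul_le_mul a2 a3 (abs_nonneg _) K0) (by positivity) (by norm_num)
    nlinarith
  · have b1 := h.bd N.g ha hb 1
    have b6 := h.bd N.g ha hb 6
    rw [h.nid7 N.g hp ha hb]
    have e0 : W.crd n a b 7 - 2 * cf W n 0 1 7 * (W.crd n p a 0 * W.crd n a b 1) +
        cf W n 4 5 7 * (W.crd n p a 4 * W.crd n a b 5) +
        cf W n 2 3 4 * cf W n 4 5 7 * (W.crd n p a 2 * W.crd n p a 3 * W.crd n a b 5) +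
        cf W n 3 6 7 * (W.crd n p a 3 * W.crd n a b 6) - W.crd n a b 7 -
        (cf W n 4 5 7 * W.crd n p a 4 + cf W n 2 3 4 * cf W n 4 5 7 *
          (W.crd n p a 2 * W.crd n p a 3)) * W.crd n a b 5 =
        -(2 * cf W n 0 1 7 * (W.crd n p a 0 * W.crd n a b 1)) +
          cf W n 3 6 7 * (W.crd n p a 3 * W.crd n a b 6) := by ring
    rw [e0]
    refine (abs_add_le _ _).trans ?_
    rw [abs_neg, abs_mul, abs_mul (W.crd n p a 0), abs_mul (cf W n 3 6 7),
      abs_mul (W.crd n p a 3), abs_of_nonneg (by linarith [c.p 0 1 7] : 0 ≤ 2 * cf W n 0 1 7),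
      abs_of_nonneg (c.p 3 6 7)]
    have e1 : 2 * cf W n 0 1 7 * (|W.crd n p a 0| * |W.crd n a b 1|) ≤
        2 * et W x n * (W.K0 * W.K0) :=
      mul_le_mul (by linarith [c.c017]) (mul_le_mul a0 b1 (abs_nonneg _) K0) (by positivity)
        (by positivity)
    have e2 : cf W n 3 6 7 * (|W.crd n p a 3| * |W.crd n a b 6|) ≤
        et W x n * (W.K0 * W.K0) :=
      mul_le_mul c.c367 (mul_le_mul a3 b6 (abs_nonneg _) K0) (by positivity) hη
    have e3 : 3 * W.K0 ^ 2 * et W x n = 2 * et W x n * (W.K0 * W.K0) +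
        et W x n * (W.K0 * W.K0) := by ring
    rw [e3]
    exact add_le_add e1 e2

/-- sum over fat lines -/
theorem sum_lines {α : Type*} [DecidableEq α] (E : Finset α) (lc : α → ℕ) (T : Finset ℕ) {A M : ℝ}
    (hM : 0 ≤ M) (h : ∀ l ∈ T, A ≤ M * ((E.filter fun y => lc y = l).card : ℝ)) :
    (T.card : ℝ) * A ≤ M * ((E.filter fun y => lc y ∈ T).card : ℝ) := by
  have e1 : ((E.filter fun y => lc y ∈ T).card : ℝ) =
      ∑ l ∈ T, ((E.filter fun y => lc y = l).card : ℝ) := by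
    have e2 := card_eq_sum_card_fiberwise (f := lc) (s := E.filter fun y => lc y ∈ T) (t := T)
      (fun y hy => (mem_filter.1 hy).2)
    rw [e2]
    push_cast
    refine sum_congr rfl fun l hl => ?_
    congr 2
    ext y
    simp only [mem_filter]
    constructor
    · rintro ⟨⟨h1, -⟩, h2⟩; exact ⟨h1, h2⟩
    · rintro ⟨h1, h2⟩; exact ⟨⟨h1, h2 ▸ hl⟩, h2⟩
  rw [e1, mul_sum]
  calc (T.card : ℝ) * A = ∑ l ∈ T, A := by rw [sum_const, nsmul_eq_mul]
    _ ≤ _ := sum_le_sum h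

set_option maxHeartbeats 1000000 in
/-- **a heavy strip in the class of a window** -/
theorem Z2W.class_strip (hKM : ∀ V : ℝ, Crest.Agent.R138.Tub70.KM32 V) (h : Z2W W f x)
    (hN : ∀ᶠ n in (U : Filter ℕ), Z2N W x n)
    (hdens : W.lam W.top ≤ W.lam (cut W.S W.top 0) + W.lam (cut W.S 0 W.top))
    (hfr : ∀ y, 0 ≤ y → y ≤ x → W.lam (Pi.single W.kz y) ≤ -(1 * y)) {t : ℝ} (ht : 0 < t)
    (htx : t ≤ x) (l0 : (0 : Fin 11 → ℝ) ∈ W.legW) (l1 : vb x 0 ∈ W.legW)
    (l2 : vb 0 t ∈ W.legW) (l3 : vb x t ∈ W.legW)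
    (hprod : W.nu 0 - W.nu (vb 0 t) ≤ W.nu (vb x 0) - W.nu (vb x t))
    (hnf : (W.nu 0 - W.nu (vb x 0)) + 2 * t < 2 * x) {y0 : ℝ} (hy0 : 0 < y0)
    (hC : ∀ y : ℝ, 0 < y → y ≤ y0 → vC y ∈ W.legW ∧ W.nu (vC y) < W.nu 0)
    {ε : ℝ} (hε : 0 < ε) :
    ∀ᶠ n in (U : Filter ℕ), ∃ G' ⊆ W.Cl n, W.T n * W.B'.d n ^ ε ≤ (G'.card : ℝ) ∧
      ∀ p ∈ G', ∃ μ : ℝ, |μ| ≤ W.B'.d n ^ (-ε) ∧ ∀ y ∈ G',
        |W.crd n p y 7 - μ * W.crd n p y 5| ≤ W.B'.d n ^ (t - ε) := by
  have hg₀ : Tendsto (fun n : ℕ => (n : ℝ)) U atTop :=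
    tendsto_natCast_atTop_atTop.mono_left U_le_atTop
  obtain ⟨E, g, hP, -, H⟩ := Wnd.EOk.exists_model h.q.ok h.q.ok.eok_class (fun _ _ _ => 0) hg₀
    hdens zero_le_one le_rfl (h.top _ (Or.inl h.kz)) hfr
  have hc := h.q.ev_hc h.q.ok.eok_class hP
  have hG : ∀ᶠ n in (U : Filter ℕ), GN W x E n := by
    filter_upwards [hc, hN] with n h1 h2 using ⟨h2, h1.2.1, h1.2.2⟩
  choose ik hik using H.nonempty
  have h0 : ∀ᶠ n in (U : Filter ℕ), ((ik n).1, (ik n).2) ∈ (W.cfg E n).I :=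
    Eventually.of_forall hik
  set δ : ℝ := ε / 8 with hδd
  have hδ : 0 < δ := by positivity
  obtain ⟨ε0, hε0, key⟩ := h.strip_model hKM hG H (fun n => (ik n).1) (fun n => (ik n).2) h0 ht
    htx l0 l1 l2 l3 hprod hnf hy0 hC hδ
  set e : ℝ := min ε0 (ε / 8) with hed
  have he : 0 < e := lt_min hε0 (by positivity)
  have he8 : e ≤ ε / 8 := min_le_right _ _
  have hcst : ∀ᶠ n in (U : Filter ℕ), cZ W ≤ W.B'.d n ^ (-δ) := ev_const_le W.B' hδ (cZ W)
  filter_upwards [hG, key e he (min_le_left _ _), hcst, H.low 0 l0 e he,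
    h.q.ok.card_lc_le he, hP.gsub e he, h.q.ok.cls.big e he] with n G hk hcn hlow hlc hg hbig
  obtain ⟨lam, hlam, i1, hi1, T, hT, hstrip, hcard⟩ := hk
  have hpos : ∀ s : ℝ, 0 < W.B'.d n ^ s := fun s => Real.rpow_pos_of_pos (W.B'.pos n) s
  have hTI : ∀ l ∈ T, (l, (ik n).2) ∈ (W.cfg E n).I := fun l hl => (G.box (hT hl)).1
  have hgpos : 0 ≤ g n := le_trans zero_le_one (hP.g1 n)
  refine ⟨(E n).filter fun y => W.lc n y ∈ T, (filter_subset _ _).trans G.sub, ?_, ?_⟩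
  · -- the count
    set M : ℝ := g n * (((W.Cl n).image (W.lc n)).card : ℝ) with hMd
    have hM : 0 ≤ M := mul_nonneg hgpos (Nat.cast_nonneg _)
    have h1 : (T.card : ℝ) * ((W.Cl n).card : ℝ) ≤
        M * (((E n).filter fun y => W.lc n y ∈ T).card : ℝ) := by
      refine sum_lines (E n) (W.lc n) T hM fun l hl => ?_
      have h2 := hTI l hl
      rw [G.cfg] at h2
      obtain ⟨y, hy, hyl, -⟩ := mem_cfg0 h2
      have h3 := hP.lines n y hy
      refine h3.trans (le_of_eq ?_)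
      rw [hMd]
      congr 2
      rw [← hyl]
      rfl
    have h4 : W.B'.d n ^ (-W.nu 0 + e) ≤
        (((W.cfg E n).box 0 e (ik n).1 (ik n).2).card : ℝ) := hlow _ _ (hik n)
    have h5 : W.B'.d n ^ δ * W.B'.d n ^ (-W.nu 0 + e) ≤ (T.card : ℝ) :=
      (mul_le_mul_of_nonneg_left h4 (hpos _).le).trans hcard
    have h6 : M ≤ W.B'.d n ^ (-e) * W.B'.d n ^ (W.lam (cut W.S W.top 0) - e) :=
      mul_le_mul hg (hlc (W.Cl n) (Subset.refl _)) (Nat.cast_nonneg _) (hpos _).le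
    have hT0 := h.q.ok.cls.T0 n
    set Gc : ℝ := (((E n).filter fun y => W.lc n y ∈ T).card : ℝ) with hGc
    have hGc0 : 0 ≤ Gc := Nat.cast_nonneg _
    have h7 : W.B'.d n ^ δ * W.B'.d n ^ (-W.nu 0 + e) * (W.T n * W.B'.d n ^ e) ≤
        W.B'.d n ^ (-e) * W.B'.d n ^ (W.lam (cut W.S W.top 0) - e) * Gc := by
      calc _ ≤ (T.card : ℝ) * ((W.Cl n).card : ℝ) :=
            mul_le_mul h5 hbig (mul_nonneg hT0.le (hpos _).le) (Nat.cast_nonneg _)
        _ ≤ M * Gc := h1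
        _ ≤ _ := mul_le_mul_of_nonneg_right h6 hGc0
    have hnu : W.nu 0 = W.lam (cut W.S 0 W.top) - W.lam W.top := rfl
    set a1 : ℝ := W.lam (cut W.S W.top 0) with ha1
    have e1 : W.B'.d n ^ δ * W.B'.d n ^ (-W.nu 0 + e) * (W.T n * W.B'.d n ^ e) =
        W.T n * W.B'.d n ^ (δ + (-W.nu 0 + e) + e) := by
      simp only [Real.rpow_add (W.B'.pos n)]; ring
    have e2 : W.B'.d n ^ (-e) * W.B'.d n ^ (a1 - e) = W.B'.d n ^ (a1 - 2 * e) := by
      rw [← Real.rpow_add (W.B'.pos n)]; congr 1; ring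
    rw [e1, e2] at h7
    have h8 : W.T n * W.B'.d n ^ (δ + (-W.nu 0 + e) + e) * W.B'.d n ^ (-(a1 - 2 * e)) ≤ Gc := by
      have := mul_le_mul_of_nonneg_right h7 (hpos (-(a1 - 2 * e))).le
      refine this.trans (le_of_eq ?_)
      rw [mul_comm (W.B'.d n ^ (a1 - 2 * e)) Gc, mul_assoc, ← Real.rpow_add (W.B'.pos n)]
      rw [add_neg_cancel, Real.rpow_zero, mul_one]
    refine le_trans ?_ h8
    rw [mul_assoc, ← Real.rpow_add (W.B'.pos n)]
    refine mul_le_mul_of_nonneg_left ?_ hT0.le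
    refine Real.rpow_le_rpow_of_exponent_ge (W.B'.pos n) (W.B'.lt n).le ?_
    rw [hnu]
    linarith
  · -- the strip
    intro p hp
    obtain ⟨hpE, hpT⟩ := mem_filter.1 hp
    have hpC := G.sub hpE
    obtain ⟨m, hm, hmb⟩ := h.rebase G.N (b := p) G.N.g.s0 hpC
    obtain ⟨K1, K2, K4, K6⟩ := Kpow h
    have hK := h.K1
    refine ⟨lam - m, ?_, fun y hy => ?_⟩
    · refine (abs_sub _ _).trans ?_
      have e1 : |m| ≤ cZ W := by
        unfold cZ
        linarith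
      have e2 : W.B'.d n ^ (-δ) ≤ W.B'.d n ^ (-(2 * δ)) := ranti n (by linarith)
      have e3 : 2 * W.B'.d n ^ (-δ) ≤ W.B'.d n ^ (-(2 * δ)) := by
        have q : (2:ℝ) ≤ W.B'.d n ^ (-δ) := by
          refine le_trans ?_ hcn
          unfold cZ; linarith
        have := mul_le_mul_of_nonneg_right q (hpos (-δ)).le
        rw [← Real.rpow_add (W.B'.pos n)] at this
        have e : -δ + -δ = -(2 * δ) := by ring
        rwa [e] at this
      have e4 : W.B'.d n ^ (-(2 * δ)) ≤ W.B'.d n ^ (-ε) := ranti n (by linarith)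
      linarith
    · obtain ⟨hyE, hyT⟩ := mem_filter.1 hy
      have hyC := G.sub hyE
      have Ly := lrp_spec hyC
      have Lp := lrp_spec hpC
      have fy := h.fl G.N G.N.g.s0 Ly.1 hyC Ly.2
      have fp := h.fl G.N G.N.g.s0 Lp.1 hpC Lp.2
      have sy := hstrip _ hyT
      have sp := hstrip _ hpT
      have hb := hmb y hyC
      have p5 := h.pair5 G.N.g G.N.g.s0 hpC hyC
      set η := et W x n with hη
      have hη0 : 0 ≤ η := (et_pos n).le
      have y0 : bV W n (W.lc n y) 0 = W.crd n (W.s₀ n) (lrp W n (W.lc n y)) 5 := rfl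
      have y1 : bV W n (W.lc n y) 1 = W.crd n (W.s₀ n) (lrp W n (W.lc n y)) 7 := rfl
      have q0 : bV W n (W.lc n p) 0 = W.crd n (W.s₀ n) (lrp W n (W.lc n p)) 5 := rfl
      have q1 : bV W n (W.lc n p) 1 = W.crd n (W.s₀ n) (lrp W n (W.lc n p)) 7 := rfl
      rw [← y0, ← y1] at fy
      rw [← q0, ← q1] at fp
      obtain ⟨fy5, fy7, -⟩ := fy
      obtain ⟨fp5, fp7, -⟩ := fp
      set Y5 := W.crd n (W.s₀ n) y 5
      set Y7 := W.crd n (W.s₀ n) y 7
      set P5 := W.crd n (W.s₀ n) p 5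
      set P7 := W.crd n (W.s₀ n) p 7
      have hid : W.crd n p y 7 - (lam - m) * W.crd n p y 5 =
          -((Y7 - P7) - W.crd n p y 7 - m * W.crd n p y 5) + (Y7 - bV W n (W.lc n y) 1) -
          (P7 - bV W n (W.lc n p) 1) - lam * (Y5 - bV W n (W.lc n y) 0) +
          lam * (P5 - bV W n (W.lc n p) 0) +
          ((bV W n (W.lc n y) 1 - bV W n i1 1) - lam * (bV W n (W.lc n y) 0 - bV W n i1 0)) -
          ((bV W n (W.lc n p) 1 - bV W n i1 1) - lam * (bV W n (W.lc n p) 0 - bV W n i1 0)) := by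
        rw [← p5]; ring
      rw [hid]
      have lamb : ∀ z : ℝ, |z| ≤ 20 * W.K0 ^ 4 * η → |lam * z| ≤
          W.B'.d n ^ (-δ) * (20 * W.K0 ^ 4 * η) := by
        intro z hz
        rw [abs_mul]
        exact mul_le_mul hlam hz (abs_nonneg _) (hpos _).le
      have l1' := lamb _ fy5
      have l2' := lamb _ fp5
      have t1 := abs_add_le (-((Y7 - P7) - W.crd n p y 7 - m * W.crd n p y 5))
        (Y7 - bV W n (W.lc n y) 1)
      rw [abs_neg] at t1
      have t2 := abs_sub (-((Y7 - P7) - W.crd n p y 7 - m * W.crd n p y 5) +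
        (Y7 - bV W n (W.lc n y) 1)) (P7 - bV W n (W.lc n p) 1)
      have t3 := abs_sub (-((Y7 - P7) - W.crd n p y 7 - m * W.crd n p y 5) +
        (Y7 - bV W n (W.lc n y) 1) - (P7 - bV W n (W.lc n p) 1))
        (lam * (Y5 - bV W n (W.lc n y) 0))
      have t4 := abs_add_le (-((Y7 - P7) - W.crd n p y 7 - m * W.crd n p y 5) +
        (Y7 - bV W n (W.lc n y) 1) - (P7 - bV W n (W.lc n p) 1) -
        lam * (Y5 - bV W n (W.lc n y) 0)) (lam * (P5 - bV W n (W.lc n p) 0))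
      have t5 := abs_add_le (-((Y7 - P7) - W.crd n p y 7 - m * W.crd n p y 5) +
        (Y7 - bV W n (W.lc n y) 1) - (P7 - bV W n (W.lc n p) 1) -
        lam * (Y5 - bV W n (W.lc n y) 0) + lam * (P5 - bV W n (W.lc n p) 0))
        ((bV W n (W.lc n y) 1 - bV W n i1 1) - lam * (bV W n (W.lc n y) 0 - bV W n i1 0))
      have t6 := abs_sub (-((Y7 - P7) - W.crd n p y 7 - m * W.crd n p y 5) +
        (Y7 - bV W n (W.lc n y) 1) - (P7 - bV W n (W.lc n p) 1) -
        lam * (Y5 - bV W n (W.lc n y) 0) + lam * (P5 - bV W n (W.lc n p) 0) +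
        ((bV W n (W.lc n y) 1 - bV W n i1 1) - lam * (bV W n (W.lc n y) 0 - bV W n i1 0)))
        ((bV W n (W.lc n p) 1 - bV W n i1 1) - lam * (bV W n (W.lc n p) 0 - bV W n i1 0))
      set R := W.B'.d n ^ (t - δ) with hR
      have hR0 : 0 < R := hpos _
      have ηR : η ≤ W.B'.d n ^ t := ranti n htx
      have tR : W.B'.d n ^ t ≤ R := ranti n (by linarith)
      have e1 : W.B'.d n ^ (-δ) * (20 * W.K0 ^ 4 * η) ≤ 20 * (W.K0 ^ 6 * R) := by
        have : W.B'.d n ^ (-δ) * η ≤ R := by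
          refine (mul_le_mul_of_nonneg_left ηR (hpos (-δ)).le).trans (le_of_eq ?_)
          rw [hR, ← Real.rpow_add (W.B'.pos n) (-δ) t]; congr 1; ring
        have e := mul_le_mul K4 this (mul_nonneg (hpos _).le hη0) (by positivity)
        calc _ = 20 * (W.K0 ^ 4 * (W.B'.d n ^ (-δ) * η)) := by ring
          _ ≤ _ := by linarith
      have e2 : 20 * W.K0 ^ 4 * η ≤ 20 * (W.K0 ^ 6 * R) := by
        have e := mul_le_mul K4 (ηR.trans tR) hη0 (by positivity : (0:ℝ) ≤ W.K0 ^ 6)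
        linarith
      have e3 : 3 * W.K0 ^ 2 * η ≤ 3 * (W.K0 ^ 6 * R) := by
        have e := mul_le_mul K2 (ηR.trans tR) hη0 (by positivity : (0:ℝ) ≤ W.K0 ^ 6)
        linarith
      have e4 : R ≤ W.K0 ^ 6 * R := le_mul_of_one_le_left hR0.le K6
      have e5 : cZ W * R ≤ W.B'.d n ^ (t - ε) := by
        refine (rmul (W := W) n hcn).trans (ranti n ?_)
        linarith
      have e6 : cZ W * R = 1000 * (W.K0 ^ 6 * R) := by unfold cZ; ring
      have e7 : 0 ≤ W.K0 ^ 6 * R := by positivity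
      linarith

/-! ### all classes -/

/-- **the relation** : in the frame of every incidence `p` of `G`, the slot `P` is a multiple of
the slot `C_a` on the part of `G` in the class of `p`, at precision `ρ ^ (t - ε)` -/
def RelP (B B' : Base) (co : ∀ n, ι n → ι n → Fin 11 → ℝ) (lab : ∀ n, ι n → ι n)
    (X : ℕ → Fin 11 → ℝ) (t : ℝ) (n : ℕ) (ε : ℝ) (G : Finset (ι n)) : Prop :=
  ∀ p ∈ G, ∃ μ : ℝ, |μ| ≤ B'.d n ^ (-ε) ∧ ∀ y ∈ G, lab n y = lab n p →
    |co n p y 7 / B.d n ^ X n 7 - μ * (co n p y 5 / B.d n ^ X n 5)| ≤ B'.d n ^ (t - ε)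

/-- numeric hypotheses on the profile of the class, `L p = cut S p top` -/
structure NumP (st : WSt 11) (lam : (Fin 11 → ℝ) → ℝ) (x t : ℝ) : Prop where
  t0 : 0 < t
  tx : t ≤ x
  l0 : cut st.S 0 st.top ∈ Leg st.Mw st.R'
  l1 : cut st.S (vb x 0) st.top ∈ Leg st.Mw st.R'
  l2 : cut st.S (vb 0 t) st.top ∈ Leg st.Mw st.R'
  l3 : cut st.S (vb x t) st.top ∈ Leg st.Mw st.R'
  prod : lam (cut st.S 0 st.top) - lam (cut st.S (vb 0 t) st.top) ≤
    lam (cut st.S (vb x 0) st.top) - lam (cut st.S (vb x t) st.top)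
  nf : lam (cut st.S 0 st.top) - lam (cut st.S (vb x 0) st.top) + 2 * t < 2 * x
  ca : ∃ y0 : ℝ, 0 < y0 ∧ ∀ y : ℝ, 0 < y → y ≤ y0 → cut st.S (vC y) st.top ∈ Leg st.Mw st.R' ∧
    lam (cut st.S (vC y) st.top) < lam (cut st.S 0 st.top)

/-- hypotheses on the base points: tight walls `X_a ≤ z + C_a`, `N ≤ z + P`; slots `R`, `F_b`
negligible -/
def GapP (X : ℕ → Fin 11 → ℝ) (w : ℕ → ℝ) (x : ℝ) (n : ℕ) : Prop :=
  X n 8 = X n 0 + X n 5 ∧ X n 10 = X n 0 + X n 7 ∧ X n 7 + x * w n ≤ X n 0 + X n 1 ∧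
    X n 7 + x * w n ≤ X n 3 + X n 6 ∧ X n 10 + x * w n ≤ X n 3 + X n 9

open Crest.Agent.R138.Ex926 in
/-- **RUNG `s = 1` OF Z2** : from a zoom window to one dense set all of whose classes satisfy the
strip relation -/
theorem strip_rel (hKM : ∀ V : ℝ, Crest.Agent.R138.Tub70.KM32 V) {B B' : Base}
    {I J : ∀ n, Finset (ι n)} {co : ∀ n, ι n → ι n → Fin 11 → ℝ} {C : ℝ} {X : ℕ → Fin 11 → ℝ}
    {w : ℕ → ℝ} {D : Set (Fin 11 → ℝ)} {T : ℕ → ℝ} {lam : (Fin 11 → ℝ) → ℝ}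
    (hZ : ZWin B B' I J co monQ C X w D T lam) {f : ∀ n, ι n → Fq4}
    (hco : ∀ n, ∀ i ∈ I n, ∀ j ∈ I n, co n i j = coQ (f n i) (f n j)) {st : WSt 11}
    (hst : st.Ok monQ D) (hS : ∀ s ∈ st.S, s = 0 ∨ s = 2 ∨ s = 3 ∨ s = 4) (hkz : st.kz = 0)
    {x : ℝ} (hx : 0 < x) (hden : st.Dens lam 1 x)
    (htop : ∀ s, s = 0 ∨ s = 5 ∨ s = 7 ∨ s = 8 ∨ s = 10 → x ≤ st.top s)
    (hgap : ∀ᶠ n in (U : Filter ℕ), GapP X w x n) {t : ℝ} (hnum : NumP st lam x t)
    (i₀ : ∀ n, ι n) :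
    ∃ J1 : ∀ n, Finset (ι n), (∀ n, J1 n ⊆ J n) ∧ Crest.Agent.R138.Dp76.Dense B' J1 J ∧
      ∀ ε : ℝ, 0 < ε → ∀ᶠ n in (U : Filter ℕ), ∀ s ∈ J1 n,
        RelP B B' co (fun n => zlab B I co monQ C X w n 0) X t n ε
          (cls (J1 n) (zlab B I co monQ C X w n 0) s) := by
  set st1 : WSt 11 := { st with kap := fun _ => 1 } with hst1
  have hok : st1.Ok monQ D :=
    { R0 := hst.R0, leg := hst.leg, top_leg := hst.top_leg, lin_leg := hst.lin_leg
      lev_leg := hst.lev_leg, kzS := hst.kzS, kz0 := hst.kz0, kzw := hst.kzw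
      kap := fun _ => one_pos }
  refine Gau66.local_to_global (B := B') (fun n => zlab B I co monQ C X w n 0) hZ.T0 ?_
    (RelP B B' co (fun n => zlab B I co monQ C X w n 0) X t) ?_ ?_ ?_
  · intro ε hε
    filter_upwards [hZ.prof.up 0 ε hε] with n hn s hs
    have := hn 0 hZ.zero (by simp) s hs
    rwa [hZ.lam0, zero_add] at this
  · intro n ε G G' hGG hQ p hp
    obtain ⟨μ, h1, h2⟩ := hQ p (hGG hp)
    exact ⟨μ, h1, fun y hy hl => h2 y (hGG hy) hl⟩
  · intro n ε ε' G hle hQ p hp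
    obtain ⟨μ, h1, h2⟩ := hQ p hp
    refine ⟨μ, h1.trans ?_, fun y hy hl => (h2 y hy hl).trans ?_⟩
    · exact Real.rpow_le_rpow_of_exponent_ge (B'.pos n) (B'.lt n).le (by linarith)
    · exact Real.rpow_le_rpow_of_exponent_ge (B'.pos n) (B'.lt n).le (by linarith)
  · intro Gd hGd hsat hd ε hε
    obtain ⟨s₀, hs₀, hW⟩ := hZ.exists_wnd hok i₀ (Gd := Gd) (E := Gd)
      (Eventually.of_forall hGd) (Eventually.of_forall fun n => Subset.refl _)
      (Sd := fun _ => 2) (Base.Sub.const two_pos) hd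
    set W := st1.wnd B B' I J co monQ C X w D T lam
      (fun n => cls (Gd n) (zlab B I co monQ C X w n 0) (s₀ n)) s₀ with hWd
    have hq : QWnd W f := ⟨hW, rfl, hco, hS⟩
    have hZ2 : Z2W W f x := ⟨hq, fun _ => rfl, by
      have := hst.kzS
      rw [hkz] at this; exact this, hkz, hx, htop⟩
    have hN : ∀ᶠ n in (U : Filter ℕ), Z2N W x n := by
      filter_upwards [hW.ev_good, hgap] with n g hg
      exact ⟨g, hg.1, hg.2.1, hg.2.2.1, hg.2.2.2.1, hg.2.2.2.2⟩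
    have tx := hnum.tx
    have t0 := hnum.t0
    have tn : ∀ s, 0 ≤ st.top s := fun s => hst.top_leg.1.nonneg s
    have vle : ∀ {x' t' : ℝ}, x' ≤ x → t' ≤ x → ∀ s, s ∉ st.S → vb x' t' s ≤ st.top s := by
      intro x' t' h1 h2 s _
      unfold vb
      split_ifs with q1 q2
      · exact h2.trans (htop s (by tauto))
      · exact h1.trans (htop s (by tauto))
      · exact tn s
    obtain ⟨y0, hy0, hca⟩ := hnum.ca
    have key := hZ2.class_strip hKM hN hden.dens (by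
        intro y hy hyx
        have := hden.frost y hy hyx
        exact this) t0 tx
      ⟨hnum.l0, fun s hs => tn s⟩
      ⟨hnum.l1, vle le_rfl hx.le⟩ ⟨hnum.l2, vle hx.le tx⟩ ⟨hnum.l3, vle le_rfl tx⟩
      (by
        have := hnum.prod
        show lam (cut st.S 0 st.top) - lam st.top - (lam (cut st.S (vb 0 t) st.top) - lam st.top) ≤
          lam (cut st.S (vb x 0) st.top) - lam st.top -
          (lam (cut st.S (vb x t) st.top) - lam st.top)
        linarith)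
      (by
        have := hnum.nf
        show lam (cut st.S 0 st.top) - lam st.top -
          (lam (cut st.S (vb x 0) st.top) - lam st.top) + 2 * t < 2 * x
        linarith) (y0 := min y0 x) (lt_min hy0 hx) (by
        intro y hy hyy
        obtain ⟨c1, c2⟩ := hca y hy (hyy.trans (min_le_left _ _))
        refine ⟨⟨c1, fun s hs => ?_⟩, ?_⟩
        · have h3 := hyy.trans (min_le_right y0 x)
          show vC y s ≤ st.top s
          unfold vC
          split_ifs with q1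
          · exact h3.trans (htop s (by tauto))
          · exact tn s
        · show lam (cut st.S (vC y) st.top) - lam st.top < lam (cut st.S 0 st.top) - lam st.top
          linarith) hε
    filter_upwards [key] with n hn
    obtain ⟨G', hG', hc, hr⟩ := hn
    refine ⟨s₀ n, G', hG', hc, fun p hp => ?_⟩
    obtain ⟨μ, hμ, hμ2⟩ := hr p hp
    refine ⟨μ, hμ, fun y hy _ => ?_⟩
    have e : ∀ s, W.crd n p y s = co n p y s / B.d n ^ X n s := by
      intro s
      show co n p y s / (1 * B.d n ^ X n s) = _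
      rw [one_mul]
    have := hμ2 y hy
    rw [e, e] at this
    exact this

end Crest.Agent.R136.Z2683
end

-- ▼ part R136/Z2y_683
section

/-!
# R136: rung `s = 1` of Z2: numbers of the window at an interior point (helper683)

* `mZ2` : monomials without `R`, `F_b`; `AZ` : the same walls in `mw monQ`
* `bx z c p a n` : box with `z, C_a, P, X_a, N`; `bx_leg` : legality
* `stZ x` : static data `S = {z}`, `top = x` on `z, C_a, P, X_a, N`; `stZ_ok`
* **`z2_num`** : from the decoupled tangent (`OutS`) : `Dens`, `NumP`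
* `gapP_of` : `GapP` from 774's `JT`
-/

set_option autoImplicit false
set_option linter.unusedSectionVars false
set_option linter.unusedVariables false

open Filter Topology

namespace Crest.Agent.R136.Z2683

open Finset Crest.Agent.R136.NetQ186 Crest.Agent.R136.Net191 Crest.Agent.R136.Qg926
open Crest.Agent.R136.Gf356 Crest.Agent.R136.Ev356
open Crest.Agent.R138.Ex926 (Base U U_le_atTop)
open Dg219 (OutS gset mw Walls)

/-! ### walls and boxes -/

/-- monomials without the slots `R`, `F_b` -/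
def mZ2 : Mons 11 where
  mon k := (monQ.mon k).filter fun e => e 1 = 0 ∧ e 3 = 0
  low := fun k e he => monQ.low k e (mem_filter.1 he).1
  ne := fun k e he => monQ.ne k e (mem_filter.1 he).1

theorem mZ2_zero : mZ2.mon 0 = ∅ := by decide

theorem legZ_of {p : Fin 11 → ℝ} (h0 : ∀ k, 0 ≤ p k) (h6 : p 6 ≤ p 2 + p 5)
    (h7 : p 7 ≤ p 4 + p 5) (h8 : p 8 ≤ p 0 + p 5) (h9 : p 9 ≤ p 0 + p 6) (h9' : p 9 ≤ p 2 + p 8)
    (h10 : p 10 ≤ p 0 + p 7) (h10' : p 10 ≤ p 4 + p 8) : Legal mZ2 p := by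
  have hs : ∀ e : Fin 11 → ℕ, ∑ s, (e s : ℝ) * p s = e 0 * p 0 + e 1 * p 1 + e 2 * p 2 +
      e 3 * p 3 + e 4 * p 4 + e 5 * p 5 + e 6 * p 6 + e 7 * p 7 + e 8 * p 8 + e 9 * p 9 +
      e 10 * p 10 := by
    intro e
    simp [Fin.sum_univ_succ]
    ring
  have q0 := h0 0
  have q2 := h0 2
  have q4 := h0 4
  have q5 := h0 5
  refine ⟨h0, fun k e he => ?_⟩
  obtain ⟨he, hf⟩ := mem_filter.1 he
  rw [hs]
  change e ∈ mfQ k at he
  fin_cases k <;> simp [mfQ] at he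
  · subst he; simp at hf
  · subst he; simp; linarith
  · rcases he with rfl | rfl | rfl | rfl <;> simp at hf ⊢ <;> linarith
  · subst he; simp; linarith
  · rcases he with rfl | rfl | rfl <;> simp at hf ⊢ <;> linarith
  · rcases he with rfl | rfl | rfl | rfl | rfl | rfl | rfl | rfl <;> simp at hf ⊢ <;> linarith

/-- the box with side exponents `z, C_a, P, X_a, N` -/
noncomputable def bx (z c p a n : ℝ) : Fin 11 → ℝ := ![z, 0, 0, 0, 0, c, 0, p, a, 0, n]

theorem bx_leg {x z c p a n : ℝ} (z0 : 0 ≤ z) (c0 : 0 ≤ c) (p0 : 0 ≤ p) (a0 : 0 ≤ a)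
    (n0 : 0 ≤ n) (zx : z ≤ x) (cx : c ≤ x) (px : p ≤ x) (ax : a ≤ x) (nx : n ≤ x) (pc : p ≤ c)
    (azc : a ≤ z + c) (nzp : n ≤ z + p) (na : n ≤ a) : bx z c p a n ∈ Leg mZ2 x := by
  have hx : 0 ≤ x := z0.trans zx
  refine ⟨legZ_of ?_ ?_ ?_ ?_ ?_ ?_ ?_ ?_, ?_⟩
  · intro k; fin_cases k <;> simp [bx] <;> assumption
  · simp [bx]; exact c0
  · simp [bx]; exact pc
  · simp [bx]; exact azc
  · simp [bx]; exact z0
  · simp [bx]; exact a0
  · simp [bx]; exact nzp
  · simp [bx]; exact na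
  · intro k; fin_cases k <;> simp [bx] <;> assumption

/-- resolution -/
noncomputable def tpv (x : ℝ) : Fin 11 → ℝ := bx x x x x x

/-- **static data of the windows of Z2** -/
noncomputable def stZ (x : ℝ) : WSt 11 where
  S := {0}
  kz := 0
  top := tpv x
  kap := fun _ => 1
  Mw := mZ2
  R' := x

theorem cut_vb (x a t : ℝ) : cut {0} (vb a t) (tpv x) = bx x t t a a := by
  funext s
  unfold cut vb tpv bx
  fin_cases s <;> simp

theorem cut_vC (x y : ℝ) : cut {0} (vC y) (tpv x) = bx x y 0 0 0 := by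
  funext s
  unfold cut vC tpv bx
  fin_cases s <;> simp

theorem cut_top (x : ℝ) : cut {0} (tpv x) 0 = bx 0 x x x x := by
  funext s
  unfold cut tpv bx
  fin_cases s <;> simp

theorem cut_lev (x : ℝ) : cut {0} (0 : Fin 11 → ℝ) (tpv x) = bx x 0 0 0 0 := by
  funext s
  unfold cut tpv bx
  fin_cases s <;> simp

theorem bx_zero : bx 0 0 0 0 0 = 0 := by
  funext s
  unfold bx
  fin_cases s <;> simp

theorem single_bx (y : ℝ) : (Pi.single 0 y : Fin 11 → ℝ) = bx y 0 0 0 0 := by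
  funext s
  unfold bx
  fin_cases s <;> simp [Pi.single_apply]

theorem stZ_ok {x : ℝ} (hx : 0 ≤ x) {D : Set (Fin 11 → ℝ)} (hD : Leg mZ2 x ⊆ D) :
    (stZ x).Ok monQ D where
  R0 := hx
  leg := hD
  top_leg := bx_leg hx hx hx hx hx le_rfl le_rfl le_rfl le_rfl le_rfl le_rfl (by linarith)
    (by linarith) le_rfl
  lin_leg := by
    show cut {0} (tpv x) 0 ∈ Leg mZ2 x
    rw [cut_top]
    exact bx_leg le_rfl hx hx hx hx hx le_rfl le_rfl le_rfl le_rfl le_rfl (by linarith)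
      (by linarith) le_rfl
  lev_leg := by
    show cut {0} (0 : Fin 11 → ℝ) (tpv x) ∈ Leg mZ2 x
    rw [cut_lev]
    exact bx_leg hx le_rfl le_rfl le_rfl le_rfl le_rfl hx hx hx hx le_rfl (by linarith)
      (by linarith) le_rfl
  kzS := mem_singleton_self _
  kz0 := rfl
  kzw := mZ2_zero
  kap := fun _ => one_pos

theorem stZ_top {x : ℝ} (s : Fin 11) (hs : s = 0 ∨ s = 5 ∨ s = 7 ∨ s = 8 ∨ s = 10) :
    x ≤ (stZ x).top s := by
  show x ≤ bx x x x x x s
  rcases hs with rfl | rfl | rfl | rfl | rfl <;> simp [bx]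

/-! ### numbers -/

/-- the profile splits on the boxes -/
def SplZ (lam : (Fin 11 → ℝ) → ℝ) : Prop :=
  ∃ (fz : ℝ → ℝ) (fc fx : ℝ → ℝ → ℝ), ∀ z c p a n : ℝ, 0 ≤ z → 0 ≤ c → 0 ≤ p → 0 ≤ a → 0 ≤ n →
    p ≤ c → a ≤ z + c → n ≤ z + p → n ≤ a → lam (bx z c p a n) = fz z + fc c p + fx a n

/-- the split from the groups of `OutS` -/
theorem splZ_of {κ : Type*} [DecidableEq κ] {grp : Fin 11 → κ} {L : Set (Fin 11 → ℝ)}
    {dh : Fin 11 → ℝ} {nn : κ → ℝ × ℝ} {lam : (Fin 11 → ℝ) → ℝ} {A : ℝ × ℝ}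
    {φ : κ → (Fin 11 → ℝ) → ℝ} {r : κ → ℝ} (O : OutS grp L dh nn lam A φ r)
    (hL : ∀ x, Leg mZ2 x ⊆ L) (g57 : grp 7 = grp 5) (g810 : grp 10 = grp 8)
    (g05 : grp 0 ≠ grp 5) (g08 : grp 0 ≠ grp 8) (g58 : grp 5 ≠ grp 8) : SplZ lam := by
  refine ⟨fun z => φ (grp 0) (bx z 0 0 0 0), fun c p => φ (grp 5) (bx 0 c p 0 0),
    fun a n => φ (grp 8) (bx 0 0 0 a n), ?_⟩
  intro z c p a n z0 c0 p0 a0 n0 pc azc nzp na
  have hm : bx z c p a n ∈ L := hL (z + c + a) (bx_leg z0 c0 p0 a0 n0 (by linarith)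
    (by linarith) (by linarith) (by linarith) (by linarith) pc azc nzp na)
  rw [O.sum _ hm]
  have mg : ∀ i : Fin 11, grp i ∈ gset grp := fun i => mem_image_of_mem _ (mem_univ _)
  have e0 : ∀ k ∈ gset grp, k ∉ ({grp 0, grp 5, grp 8} : Finset κ) →
      φ k (bx z c p a n) = 0 := by
    intro k _ hk
    refine O.zero k _ fun i hi => ?_
    simp only [mem_insert, mem_singleton, not_or] at hk
    obtain ⟨k0, k5, k8⟩ := hk
    have key : ∀ i : Fin 11, i = 0 ∨ i = 5 ∨ i = 7 ∨ i = 8 ∨ i = 10 ∨ bx z c p a n i = 0 := by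
      intro i; fin_cases i <;> simp [bx]
    rcases key i with h | h | h | h | h | h
    · subst h; exact absurd hi.symm k0
    · subst h; exact absurd hi.symm k5
    · subst h; rw [g57] at hi; exact absurd hi.symm k5
    · subst h; exact absurd hi.symm k8
    · subst h; rw [g810] at hi; exact absurd hi.symm k8
    · exact h
  have hsub : ({grp 0, grp 5, grp 8} : Finset κ) ⊆ gset grp := by
    intro k hk
    simp only [mem_insert, mem_singleton] at hk
    rcases hk with rfl | rfl | rfl <;> exact mg _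
  rw [← sum_subset hsub fun k hk hk' => e0 k hk hk']
  rw [sum_insert (by simp [g05, g08]), sum_insert (by simp [g58]), sum_singleton]
  have l0 : φ (grp 0) (bx z c p a n) = φ (grp 0) (bx z 0 0 0 0) := by
    refine O.loc _ _ _ fun i hi => ?_
    have key : ∀ i : Fin 11, i = 5 ∨ i = 7 ∨ i = 8 ∨ i = 10 ∨
        bx z c p a n i = bx z 0 0 0 0 i := by
      intro i; fin_cases i <;> simp [bx]
    rcases key i with h | h | h | h | h
    · subst h; exact absurd hi.symm g05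
    · subst h; rw [g57] at hi; exact absurd hi.symm g05
    · subst h; exact absurd hi.symm g08
    · subst h; rw [g810] at hi; exact absurd hi.symm g08
    · exact h
  have l5 : φ (grp 5) (bx z c p a n) = φ (grp 5) (bx 0 c p 0 0) := by
    refine O.loc _ _ _ fun i hi => ?_
    have key : ∀ i : Fin 11, i = 0 ∨ i = 8 ∨ i = 10 ∨
        bx z c p a n i = bx 0 c p 0 0 i := by
      intro i; fin_cases i <;> simp [bx]
    rcases key i with h | h | h | h
    · subst h; exact absurd hi g05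
    · subst h; exact absurd hi.symm g58
    · subst h; rw [g810] at hi; exact absurd hi.symm g58
    · exact h
  have l8 : φ (grp 8) (bx z c p a n) = φ (grp 8) (bx 0 0 0 a n) := by
    refine O.loc _ _ _ fun i hi => ?_
    have key : ∀ i : Fin 11, i = 0 ∨ i = 5 ∨ i = 7 ∨
        bx z c p a n i = bx 0 0 0 a n i := by
      intro i; fin_cases i <;> simp [bx]
    rcases key i with h | h | h | h
    · subst h; exact absurd hi g08
    · subst h; exact absurd hi g58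
    · subst h; rw [g57] at hi; exact absurd hi g58
    · exact h
  rw [l0, l5, l8, add_assoc]

/-- **numbers of the window of Z2** : `c` = deficit of the loss of `(X_a, N)` -/
theorem z2_num {lam : (Fin 11 → ℝ) → ℝ} (H : SplZ lam) (l0 : lam 0 = 0) {c : ℝ} (c2 : c ≤ 2)
    {x : ℝ} (hx : 0 < x) (nf : lam (bx x 0 0 0 0) - lam (bx x 0 0 x x) ≤ (2 - c) * x)
    (ca : ∀ y : ℝ, 0 < y → lam (bx 0 y 0 0 0) < 0)
    (fr : ∀ y : ℝ, 0 ≤ y → lam (bx y 0 0 0 0) ≤ -y) {t : ℝ} (ht : 0 < t) (htc : 2 * t < c * x) :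
    (stZ x).Dens lam 1 x ∧ NumP (stZ x) lam x t := by
  obtain ⟨fz, fc, fx, hs⟩ := H
  have hx0 := hx.le
  have ht0 := ht.le
  have htx : t ≤ x := by nlinarith
  have h0 := hs 0 0 0 0 0 le_rfl le_rfl le_rfl le_rfl le_rfl le_rfl (by simp) (by simp) le_rfl
  rw [bx_zero, l0] at h0
  refine ⟨⟨?_, zero_le_one, le_rfl, ?_, ?_⟩, ⟨ht, htx, ?_, ?_, ?_, ?_, ?_, ?_, ⟨x, hx, ?_⟩⟩⟩
  · show lam (bx x x x x x) ≤ lam (cut {0} (tpv x) 0) + lam (cut {0} (0 : Fin 11 → ℝ) (tpv x))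
    rw [cut_top, cut_lev, hs x x x x x hx0 hx0 hx0 hx0 hx0 le_rfl (by linarith) (by linarith)
      le_rfl, hs 0 x x x x le_rfl hx0 hx0 hx0 hx0 le_rfl (by linarith) (by linarith) le_rfl,
      hs x 0 0 0 0 hx0 le_rfl le_rfl le_rfl le_rfl le_rfl (by linarith) (by linarith) le_rfl]
    linarith
  · exact stZ_top 0 (by simp)
  · intro y hy _
    show lam (Pi.single 0 y) ≤ _
    rw [single_bx, one_mul]
    exact fr y hy
  · show cut {0} (0 : Fin 11 → ℝ) (tpv x) ∈ Leg mZ2 x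
    rw [cut_lev]
    exact bx_leg hx0 le_rfl le_rfl le_rfl le_rfl le_rfl hx0 hx0 hx0 hx0 le_rfl (by linarith)
      (by linarith) le_rfl
  · show cut {0} (vb x 0) (tpv x) ∈ Leg mZ2 x
    rw [cut_vb]
    exact bx_leg hx0 le_rfl le_rfl hx0 hx0 le_rfl hx0 hx0 le_rfl le_rfl le_rfl (by linarith)
      (by linarith) le_rfl
  · show cut {0} (vb 0 t) (tpv x) ∈ Leg mZ2 x
    rw [cut_vb]
    exact bx_leg hx0 ht0 ht0 le_rfl le_rfl le_rfl htx htx hx0 hx0 le_rfl (by linarith)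
      (by linarith) le_rfl
  · show cut {0} (vb x t) (tpv x) ∈ Leg mZ2 x
    rw [cut_vb]
    exact bx_leg hx0 ht0 ht0 hx0 hx0 le_rfl htx htx le_rfl le_rfl le_rfl (by linarith)
      (by linarith) le_rfl
  · show lam (cut {0} (0 : Fin 11 → ℝ) (tpv x)) - lam (cut {0} (vb 0 t) (tpv x)) ≤
      lam (cut {0} (vb x 0) (tpv x)) - lam (cut {0} (vb x t) (tpv x))
    rw [cut_lev, cut_vb, cut_vb, cut_vb,
      hs x 0 0 0 0 hx0 le_rfl le_rfl le_rfl le_rfl le_rfl (by linarith) (by linarith) le_rfl,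
      hs x t t 0 0 hx0 ht0 ht0 le_rfl le_rfl le_rfl (by linarith) (by linarith) le_rfl,
      hs x 0 0 x x hx0 le_rfl le_rfl hx0 hx0 le_rfl (by linarith) (by linarith) le_rfl,
      hs x t t x x hx0 ht0 ht0 hx0 hx0 le_rfl (by linarith) (by linarith) le_rfl]
    linarith
  · show lam (cut {0} (0 : Fin 11 → ℝ) (tpv x)) - lam (cut {0} (vb x 0) (tpv x)) + 2 * t < 2 * x
    rw [cut_lev, cut_vb]
    linarith
  · intro y hy hyx
    have hy0 := hy.le
    constructor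
    · show cut {0} (vC y) (tpv x) ∈ Leg mZ2 x
      rw [cut_vC]
      exact bx_leg hx0 hy0 le_rfl le_rfl le_rfl le_rfl hyx hx0 hx0 hx0 hy0 (by linarith)
        (by linarith) le_rfl
    · show lam (cut {0} (vC y) (tpv x)) < lam (cut {0} (0 : Fin 11 → ℝ) (tpv x))
      rw [cut_vC, cut_lev]
      have e1 := ca y hy
      rw [hs 0 y 0 0 0 le_rfl hy0 le_rfl le_rfl le_rfl hy0 (by linarith) (by linarith) le_rfl]
        at e1
      rw [hs x y 0 0 0 hx0 hy0 le_rfl le_rfl le_rfl hy0 (by linarith) (by linarith) le_rfl,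
        hs x 0 0 0 0 hx0 le_rfl le_rfl le_rfl le_rfl le_rfl (by linarith) (by linarith) le_rfl]
      linarith

end Crest.Agent.R136.Z2683
end

-- ▼ part R136/Z2n_403
section

/-!
# R136, case Z2: the deficit of the loss of `(X_a, N)` (helper403)

Plane `s = 1` of 511's ladder, `F_b` dropped, `θ 0 = θ 1`.

* `grp_ne` : the groups of `z`, `X_a`, `X_b` are different, `C_a, P` are in the group `0`, `N` is in
  the group of `X_a`;
* `r_sum` : `r (G_z) + r (G_Xa) + r (G_Xb) ≤ -A.1`;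
* **`z2_nf`** : `r (G_z) ≥ 1`, `r (G_Xb) ≥ 1 + κ`, `-A.1 ≤ 4 + κ - c` ⊢ loss of `(X_a, N)` by `x` at
  most `(2 - c) x`;
* `z2_split` : 683's `SplZ`;
* `z2_ca`, `z2_fr` : loss of `C_a` (D-max at the record points) and of `z` (own-wideness);
* **`z2_dens_num`** : the hypotheses of 683's `strip_rel`.
-/

set_option autoImplicit false
set_option linter.unusedVariables false
set_option linter.unusedSectionVars false

open Finset Filter Topology

namespace Crest.Agent.R136.Z2n403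

open Crest.Agent.R136.Net191 Crest.Agent.R136.NetQ186
open Crest.Agent.R136.LdF3511 Crest.Agent.R136.LdF511
open Crest.Agent.R136.NatR550 (nL)
open Crest.Agent.R136.Z2683
open Dg219 (OutS gC dhC nC gset lf mw Walls gC_zero gC_eq nC_of nC_zero)

/-- the ray of the rung `s = 1` of Z2 -/
theorem T_val (κ : ℝ) (x : Fin 11 → ℝ) :
    TF {3} κ 1 x = ![1, 0, κ, x 3, 0, 0, κ, 0, 1, 1 + κ, 1] := by
  funext i
  unfold TF
  rw [TpF_val]
  fin_cases i <;> simp

/-- the record direction -/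
theorem rho_val (θ : Fin 3 → ℝ) : rhoF θ = ![1, 0, θ 1 - θ 2, θ 2 - θ 0, θ 1 - θ 0, -θ 1, -θ 2,
    -θ 0, 1 - θ 1, 1 - θ 2, 1 - θ 0] := by
  funext i
  unfold rhoF nL
  fin_cases i <;> simp <;> ring

section

variable {θ : Fin 3 → ℝ} {κ : ℝ} {x b : Fin 11 → ℝ}

/-- data of the plane `s = 1` of Z2 -/
structure PlZ (θ : Fin 3 → ℝ) (κ : ℝ) (x b : Fin 11 → ℝ) : Prop where
  κeq : κ = θ 1 - θ 2
  κ0 : 0 < κ
  th1 : 0 < θ 1
  h01 : θ 0 = θ 1
  x3 : 0 < x 3
  bρ : ∀ i, i ≠ 3 → b i = rhoF θ i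

theorem T_nonneg (h : PlZ θ κ x b) (i : Fin 11) : 0 ≤ TF {3} κ 1 x i := by
  rw [T_val]
  have := h.κ0
  have := h.x3
  fin_cases i <;> simp <;> linarith



theorem T0 : TF {3} κ 1 x 0 = 1 := by rw [T_val]; simp
theorem T8 : TF {3} κ 1 x 8 = 1 := by rw [T_val]; simp
theorem T9 : TF {3} κ 1 x 9 = 1 + κ := by rw [T_val]; simp
theorem T10 : TF {3} κ 1 x 10 = 1 := by rw [T_val]; simp

theorem b0 (h : PlZ θ κ x b) : b 0 = 1 := by rw [h.bρ 0 (by decide), rho_val]; simp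
theorem b8 (h : PlZ θ κ x b) : b 8 = 1 - θ 1 := by rw [h.bρ 8 (by decide), rho_val]; simp
theorem b9 (h : PlZ θ κ x b) : b 9 = 1 - θ 2 := by rw [h.bρ 9 (by decide), rho_val]; simp
theorem b10 (h : PlZ θ κ x b) : b 10 = 1 - θ 0 := by rw [h.bρ 10 (by decide), rho_val]; simp

theorem g0_ne (h : PlZ θ κ x b) : gC (TF {3} κ 1 x) b 0 ≠ 0 := fun h' => by
  have := gC_zero.1 h'
  rw [T0] at this
  norm_num at this

theorem g8_ne (h : PlZ θ κ x b) : gC (TF {3} κ 1 x) b 8 ≠ 0 := fun h' => by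
  have := gC_zero.1 h'
  rw [T8] at this
  norm_num at this

theorem g9_ne (h : PlZ θ κ x b) : gC (TF {3} κ 1 x) b 9 ≠ 0 := fun h' => by
  have := gC_zero.1 h'
  rw [T9] at this
  have := h.κ0
  linarith

theorem g08 (h : PlZ θ κ x b) : gC (TF {3} κ 1 x) b 0 ≠ gC (TF {3} κ 1 x) b 8 := fun h' => by
  have h1 := (gC_eq (by rw [T0]; norm_num) (by rw [T8]; norm_num)).1 h'
  rw [T0, T8, b0 h, b8 h] at h1
  have := h.th1
  norm_num at h1
  linarith

theorem g09 (h : PlZ θ κ x b) : gC (TF {3} κ 1 x) b 0 ≠ gC (TF {3} κ 1 x) b 9 := fun h' => by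
  have hκ := h.κ0
  have h1 := (gC_eq (by rw [T0]; norm_num) (by rw [T9]; linarith)).1 h'
  rw [T0, T9, b0 h, b9 h, div_one, eq_div_iff (by linarith)] at h1
  have := h.th1
  have := h.κeq
  linarith

theorem g89 (h : PlZ θ κ x b) : gC (TF {3} κ 1 x) b 8 ≠ gC (TF {3} κ 1 x) b 9 := fun h' => by
  have hκ := h.κ0
  have h1 := (gC_eq (by rw [T8]; norm_num) (by rw [T9]; linarith)).1 h'
  rw [T8, T9, b8 h, b9 h, div_one, eq_div_iff (by linarith)] at h1
  have h2 := h.th1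
  have h3 := h.κeq
  have : θ 1 * κ = 0 := by nlinarith
  rcases mul_eq_zero.1 this with h4 | h4 <;> linarith

theorem g810 (h : PlZ θ κ x b) : gC (TF {3} κ 1 x) b 10 = gC (TF {3} κ 1 x) b 8 := by
  refine (gC_eq (by rw [T10]; norm_num) (by rw [T8]; norm_num)).2 ?_
  rw [T10, T8, b10 h, b8 h, h.h01]

variable {L : Set (Fin 11 → ℝ)} {lam : (Fin 11 → ℝ) → ℝ} {A : ℝ × ℝ}
  {φ : ℕ → (Fin 11 → ℝ) → ℝ} {r : ℕ → ℝ}

/-- **three rates** -/
theorem r_sum (h : PlZ θ κ x b)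
    (H : OutS (gC (TF {3} κ 1 x) b) L (dhC (TF {3} κ 1 x) b) (nC (TF {3} κ 1 x) b) lam A φ r) :
    r (gC (TF {3} κ 1 x) b 0) + r (gC (TF {3} κ 1 x) b 8) + r (gC (TF {3} κ 1 x) b 9) ≤ -A.1 := by
  set T := TF {3} κ 1 x with hT
  set g := gC T b with hg
  have hr0 : ∀ k, k ≠ 0 → 0 ≤ r k := by
    intro k hk
    refine H.r_nonneg k fun i hi => ?_
    have hTi : T i ≠ 0 := fun h0 => hk (by rw [← hi]; exact gC_zero.2 h0)
    unfold dhC
    rw [if_neg hTi]
    exact lt_of_le_of_ne (T_nonneg h i) (Ne.symm hTi)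
  have h1 := H.total (1, 0)
  have h2 : lf A (1, 0) = A.1 := by simp [lf]
  rw [h2] at h1
  have hn : ∀ k ∈ gset g, r k * lf (nC T b k) (1, 0) = if k = 0 then 0 else r k := by
    intro k hk
    split_ifs with h0
    · subst h0; rw [nC_zero]; simp [lf]
    · obtain ⟨i, hi⟩ : ∃ i, g i = k := by simpa [gset] using hk
      have hTi : T i ≠ 0 := fun h' => h0 (by rw [← hi]; exact gC_zero.2 h')
      rw [← hi, hg, nC_of hTi]
      simp [lf]
  rw [sum_congr rfl hn] at h1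
  have hsub : ({g 0, g 8, g 9} : Finset ℕ) ⊆ gset g := by
    intro k hk
    simp only [mem_insert, mem_singleton] at hk
    rcases hk with rfl | rfl | rfl <;> exact mem_image_of_mem _ (mem_univ _)
  have h3 : ∑ k ∈ ({g 0, g 8, g 9} : Finset ℕ), (if k = 0 then 0 else r k) ≤
      ∑ k ∈ gset g, (if k = 0 then 0 else r k) :=
    sum_le_sum_of_subset_of_nonneg hsub fun k _ _ => by
      split_ifs with h0
      · exact le_rfl
      · exact hr0 k h0
  rw [sum_insert (by simp only [mem_insert, mem_singleton, not_or]; exact ⟨g08 h, g09 h⟩),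
    sum_insert (by simp only [mem_singleton]; exact g89 h), sum_singleton,
    if_neg (g0_ne h), if_neg (g8_ne h), if_neg (g9_ne h)] at h3
  linarith

/-- cone after dropping `F_b` : the boxes -/
theorem bx_W7 {z c p a n : ℝ} (z0 : 0 ≤ z) (c0 : 0 ≤ c) (a0 : 0 ≤ a) (pc : p ≤ c)
    (azc : a ≤ z + c) (nzp : n ≤ z + p) (na : n ≤ a) : bx z c p a n ∈ W7 := by
  refine ⟨?_, ?_, ?_, ?_, ?_, ?_, ?_⟩ <;> simp [bx] <;> linarith

theorem ray_W7 (h : PlZ θ κ x b) {u : ℝ} : u • TF {3} κ 1 x ∈ W7 := by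
  have := h.κ0
  rw [T_val]
  refine ⟨?_, ?_, ?_, ?_, ?_, ?_, ?_⟩ <;> simp <;> nlinarith


/-- **the deficit** -/
theorem z2_nf (h : PlZ θ κ x b)
    (H : OutS (gC (TF {3} κ 1 x) b) L (dhC (TF {3} κ 1 x) b) (nC (TF {3} κ 1 x) b) lam A φ r)
    (hL : W7 ⊆ L) (rz : 1 ≤ r (gC (TF {3} κ 1 x) b 0)) (rb : 1 + κ ≤ r (gC (TF {3} κ 1 x) b 9))
    {c : ℝ} (hA : -A.1 ≤ 4 + κ - c) {y : ℝ} (hy : 0 < y) :
    lam (bx y 0 0 0 0) - lam (bx y 0 0 y y) ≤ (2 - c) * y := by
  have hs := r_sum h H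
  set T := TF {3} κ 1 x with hT
  set g := gC T b with hg
  have hr : r (g 8) ≤ 2 - c := by linarith
  have y0 := hy.le
  have m1 : bx y 0 0 0 0 ∈ L := hL (bx_W7 y0 le_rfl le_rfl le_rfl (by linarith) (by linarith)
    le_rfl)
  have m2 : bx y 0 0 y y ∈ L := hL (bx_W7 y0 le_rfl y0 le_rfl (by linarith) (by linarith) le_rfl)
  have m3 : y • T ∈ L := hL (ray_W7 h)
  rw [H.sum _ m1, H.sum _ m2, ← sum_sub_distrib]
  have mg : g 8 ∈ gset g := mem_image_of_mem _ (mem_univ _)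
  rw [sum_eq_single_of_mem (g 8) mg]
  · have e1 : φ (g 8) (bx y 0 0 0 0) = 0 := by
      refine H.zero _ _ fun i hi => ?_
      have key : ∀ i : Fin 11, i = 0 ∨ bx y 0 0 0 0 i = 0 := by
        intro i; fin_cases i <;> simp [bx]
      rcases key i with h' | h'
      · subst h'; exact absurd hi (g08 h)
      · exact h'
    have e2 : φ (g 8) (y • T) = -(r (g 8) * y) := by
      refine H.rate _ _ m3 y fun i hi => ?_
      have hTi : T i ≠ 0 := fun h' => g8_ne h (by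
        have h1 : g i = 0 := gC_zero.2 h'
        exact hi.symm.trans h1)
      unfold dhC
      rw [if_neg hTi]; rfl
    have e3 := (H.mono (g 8) _ m2 _ m3 fun i hi => by
      have key : ∀ i : Fin 11, bx y 0 0 y y i ≤ (y • T) i := by
        intro i
        rw [hT, T_val]
        have := h.κ0
        have := h.x3
        fin_cases i <;> simp [bx] <;> nlinarith
      exact key i).1
    rw [e1]
    rw [e2] at e3
    have := mul_le_mul_of_nonneg_right hr y0
    linarith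
  · intro k hk hk8
    have : φ k (bx y 0 0 0 0) = φ k (bx y 0 0 y y) := by
      refine H.loc k _ _ fun i hi => ?_
      have key : ∀ i : Fin 11, i = 8 ∨ i = 10 ∨ bx y 0 0 0 0 i = bx y 0 0 y y i := by
        intro i; fin_cases i <;> simp [bx]
      rcases key i with h' | h' | h'
      · subst h'; exact absurd hi.symm hk8
      · subst h'
        have h10 := g810 h
        exact absurd (by rw [← hi]; exact h10) hk8
      · exact h'
    rw [this, sub_self]

end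


/-! ### from the stage -/

section stage

open Crest.Agent.R138 (Ex926.IsTan)
open Crest.Agent.R136.Top484
open Crest.Agent.R136.Wq638
open K2S774 (cn Nat cn_zero)
open Dg262 (X)

variable {p : Par4} {ν own lam lo lam' lo' : (Fin 11 → ℝ) → ℝ} {w0 R v : ℝ} {x b : Fin 11 → ℝ}

theorem T0' (hκ : 0 < p.θ 1 - p.θ 2) (hx : 0 < x 3) (i : Fin 11) :
    0 ≤ TF {3} (p.θ 1 - p.θ 2) 1 x i := (TF_ii hκ hx).1 i

theorem natT' (κ : ℝ) : Nat (mw monQ) (AF {3}) (TF {3} κ 1 x) := fun w hw => natTF _ _ _ hw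

theorem mem_W7 {c : Fin 11 → ℝ} (h : c ∈ W7) : c ∈ cn (mw monQ) (AF {3}) := by
  rw [← cn_W7] at h; exact h

/-- **`C_a` is visible** -/
theorem z2_ca (H : StF p ν own w0 R v {3} lam lo) (hκ : 0 < p.θ 1 - p.θ 2) (hx : 0 < x 3)
    (hb : ∀ i, i ∉ ({3} : Finset (Fin 11)) → b i = rhoF p.θ i) {z : ℝ × ℝ} (hz : z.1 < 0)
    {k : ℕ → ℝ} (kpos : ∀ l, 0 < k l) (k0 : Tendsto k atTop (𝓝 0))
    (H1 : Crest.Agent.R138.Ex926.IsTan (cn (mw monQ) (AF {3})) (cn (mw monQ) (AF {3})) lam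
      (fun _ => X 0 (TF {3} (p.θ 1 - p.θ 2) 1 x) b z) k lam') (q1 : 0 < p.q 1) {y : ℝ}
    (hy : 0 < y) : lam' (bx 0 y 0 0 0) < 0 := by
  have e1 : (0 : Fin 11 → ℝ) + y • Pi.single (5 : Fin 11) (1:ℝ) = bx 0 y 0 0 0 := by
    funext i
    fin_cases i <;> simp [bx, Pi.single_apply]
  have hm : bx 0 y 0 0 0 ∈ cn (mw monQ) (AF {3}) :=
    mem_W7 (bx_W7 le_rfl hy.le le_rfl hy.le (by linarith) (by linarith) le_rfl)
  have h1 := H.sweep (recD_F p.θ {3}) (T0' hκ hx) (natT' _) (fun i hi => hb i (by simpa using hi))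
    hz kpos k0 H1 (u := Pi.single 5 1) (c' := 0) (σ := 0) (h := y)
    (fun i => by rw [Pi.single_apply]; split_ifs <;> norm_num) (qd_ca p.θ) hy.le cn_zero
    (by rw [e1]; exact hm) (fun i _ _ => by simp) (fun i _ hi => by
      have h5 : i = 5 := by
        by_contra h
        exact hi (by rw [Pi.single_apply, if_neg h])
      subst h5
      refine ⟨?_, by simp⟩
      rw [T_val]; simp)
  rw [e1, H1.zero kpos cn_zero] at h1
  have e2 : (DlFL p) (Pi.single 5 1) = -p.q 1 := DlF_ca p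
  rw [e2] at h1
  nlinarith

/-- **own rate of `z`** -/
theorem z2_fr (H : StF p ν own w0 R v {3} lam lo)
    (hb : ∀ i, i ∉ ({3} : Finset (Fin 11)) → b i = rhoF p.θ i) {z : ℝ × ℝ} (hz : z.1 < 0)
    {k : ℕ → ℝ} (kpos : ∀ l, 0 < k l) (k0 : Tendsto k atTop (𝓝 0))
    (H1 : Crest.Agent.R138.Ex926.IsTan (cn (mw monQ) (AF {3})) (cn (mw monQ) (AF {3})) lam
      (fun _ => X 0 (TF {3} (p.θ 1 - p.θ 2) 1 x) b z) k lam')
    (H2 : Crest.Agent.R138.Ex926.IsTan (cn (mw monQ) (AF {3})) (cn (mw monQ) (AF {3})) lo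
      (fun _ => X 0 (TF {3} (p.θ 1 - p.θ 2) 1 x) b z) k lo') {y : ℝ} (hy : 0 ≤ y) :
    lam' (bx y 0 0 0 0) ≤ -y := by
  have hm : bx y 0 0 0 0 ∈ cn (mw monQ) (AF {3}) :=
    mem_W7 (bx_W7 hy le_rfl le_rfl le_rfl (by linarith) (by linarith) le_rfl)
  have h1 := H.hown (recD_F p.θ {3}) (natT' _) (fun i hi => by
      have h2 : i = 2 := by simpa using hi
      subst h2
      rw [T_val]; simp [oF]) (fun i hi => hb i (by simpa using hi)) hz kpos k0 H1 H2 0 cn_zero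
    (bx y 0 0 0 0) hm (by
      intro i
      fin_cases i <;> simp [bx, hy]) (fun i _ _ => by simp)
  have e0 : bx y 0 0 0 0 0 = y := by simp [bx]
  rw [H1.zero kpos cn_zero, e0, Pi.zero_apply] at h1
  linarith


end stage

end Crest.Agent.R136.Z2n403
end

-- ▼ part R136/Z2e_403
section

/-!
# R136, case Z2: arithmetic of the final step (helper403)

`r_B` = record point of the stage after the rung `F_b`, `u` = its `z`; class of the final step
`X = r_B - w T'` (`s = 1`), i.e. `X = r_B + w • cX`, slot `3` raised; `δ`-box `pdZ`.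

* `lam_pd`  : `-2 κ ≤ lam (cX + pdZ)`
* `DN_X`    : D-max of `X` against the record
* `X_nat`   : `X` is natural off the slot `3`
* **`z2_arith`** : the inequality of END-LAB at `X` gives `g - q 2 * κ ≤ ε`
-/

set_option autoImplicit false
set_option linter.unusedVariables false

open Finset Filter Topology

namespace Crest.Agent.R136.Z2e403

open Crest.Agent.R138.Ex926 (Base U)
open Crest.Agent.R136.Net191
open Crest.Agent.R136.NetQ186
open Crest.Agent.R136.Wq638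
open Crest.Agent.R136.NatT550
open Crest.Agent.R136.NatR550 (nL DN rec_eq)
open Crest.Agent.R136.Top484
open Crest.Agent.R136.LdF511
open Crest.Agent.R136.LdF3511
open Dg219 (mw)
open K2S774 (cn Prf Stage)

/-- shift to the class of the final step -/
def cX (κ : ℝ) : Fin 11 → ℝ := ![-1, 0, -κ, 0, 0, 0, -κ, 0, -1, -1 - κ, -1]

/-- the `δ`-box : `k1 = 1 + κ` in `z, X_a, X_b`, `kN = 1` -/
def pdZ (κ : ℝ) : Fin 11 → ℝ := ![1 + κ, 0, 0, 0, 0, 0, 0, 0, 1 + κ, 1 + κ, 1]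

theorem cX_pd (κ : ℝ) : cX κ + pdZ κ = ![κ, 0, -κ, 0, 0, 0, -κ, 0, κ, 0, 0] := by
  funext k
  fin_cases k <;> simp [cX, pdZ]

theorem mem_cn {c : Fin 11 → ℝ} : c ∈ cn (mw monQ) (AF {3}) ↔ c ∈ W7 := by
  rw [← cn_W7]; rfl

theorem cX_mem {κ : ℝ} (hκ : 0 ≤ κ) : cX κ ∈ cn (mw monQ) (AF {3}) := by
  rw [mem_cn]
  refine ⟨?_, ?_, ?_, ?_, ?_, ?_, ?_⟩ <;> simp [cX] <;> linarith

theorem pd_mem {κ : ℝ} (hκ : 0 ≤ κ) : cX κ + pdZ κ ∈ cn (mw monQ) (AF {3}) := by
  rw [mem_cn, cX_pd]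
  refine ⟨?_, ?_, ?_, ?_, ?_, ?_, ?_⟩ <;> simp <;> linarith

/-- **`z` and `X_a` only** -/
theorem lam_pd {lam lo : (Fin 11 → ℝ) → ℝ} {K : ℝ} (H : Prf (cn (mw monQ) (AF {3})) lam lo K)
    (l0 : lam 0 = 0) {κ : ℝ} (hκ : 0 ≤ κ) : -(2 * κ) ≤ lam (cX κ + pdZ κ) := by
  set e : Fin 11 → ℝ := ![κ, 0, 0, 0, 0, 0, 0, 0, κ, 0, 0] with he
  have me : e ∈ cn (mw monQ) (AF {3}) := by
    rw [mem_cn]
    refine ⟨?_, ?_, ?_, ?_, ?_, ?_, ?_⟩ <;> simp [he] <;> linarith
  have m0 : (0 : Fin 11 → ℝ) ∈ cn (mw monQ) (AF {3}) := by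
    rw [mem_cn]
    refine ⟨?_, ?_, ?_, ?_, ?_, ?_, ?_⟩ <;> simp
  have h1 := H.mono _ (pd_mem hκ) _ me (by
    rw [cX_pd]
    intro k
    fin_cases k <;> simp [he] <;> linarith)
  have h2 := H.sharp _ m0 _ me (by
    intro k
    fin_cases k <;> simp [he] <;> linarith)
  have e1 : ∑ i, (e i - (0 : Fin 11 → ℝ) i) = 2 * κ := by
    simp [Fin.sum_univ_succ, he]
    ring
  rw [e1, l0] at h2
  linarith

/-- **D-max of the class of the final step** -/
theorem DN_X (p : Par4) (u w : ℝ) :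
    DN p (u - w) (-(p.θ 1 * u)) (-(p.θ 2 * u) - (p.θ 1 - p.θ 2) * w) (-(p.θ 0 * u)) =
      DN p u (-(p.θ 1 * u)) (-(p.θ 2 * u)) (-(p.θ 0 * u)) -
        w * (p.g - 4 - (p.θ 1 - p.θ 2) - p.q 2 * (p.θ 1 - p.θ 2)) := by
  unfold DN; ring

/-- `X` is natural off the slot `3` -/
theorem X_nat (θ : Fin 3 → ℝ) (w0 R1 v σ w : ℝ) {x : Fin 11 → ℝ}
    (hx : ∀ i, i ≠ 3 → x i = recF θ w0 R1 v i + σ * rhoF θ i) {i : Fin 11} (hi : i ≠ 3) :
    (x + w • cX (θ 1 - θ 2)) i = nat4 w0 R1 (v + σ - w) (-(θ 1 * (v + σ)))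
      (-(θ 2 * (v + σ)) - (θ 1 - θ 2) * w) (-(θ 0 * (v + σ))) i := by
  rw [Pi.add_apply, Pi.smul_apply, smul_eq_mul, hx i hi]
  revert hi
  fin_cases i <;> intro hi <;> first
    | exact absurd rfl hi
    | (simp only [recF, rhoF, nL, nat4, cX, Matrix.cons_val, Fin.zero_eta, Fin.mk_one,
        Fin.reduceFinMk, Fin.isValue]; ring)

/-- value of the natural box in the slot `3` -/
theorem nat_3 (θ : Fin 3 → ℝ) (w0 R1 v σ w : ℝ) :
    nat4 w0 R1 (v + σ - w) (-(θ 1 * (v + σ))) (-(θ 2 * (v + σ)) - (θ 1 - θ 2) * w)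
      (-(θ 0 * (v + σ))) 3 = recF θ w0 R1 v 3 + σ * rhoF θ 3 + (θ 1 - θ 2) * w := by
  simp only [recF, rhoF, nL, nat4, Matrix.cons_val]; ring

/-- record values as D-max values -/
theorem DN_rec (p : Par4) (v σ : ℝ) :
    DN p (v + σ) (-(p.θ 1 * (v + σ))) (-(p.θ 2 * (v + σ))) (-(p.θ 0 * (v + σ))) =
      DN p v (-(p.θ 1 * v)) (-(p.θ 2 * v)) (-(p.θ 0 * v)) + σ * DlF p (rhoF p.θ) := by
  unfold rhoF
  rw [DlF_nL]; unfold DN; ring

/-- **final arithmetic**: `νX` = value at `X`, `νr` = value at `r_B` -/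
theorem z2_arith {p : Par4} {νX νr c₀ v σ w ε lX lP : ℝ} (hw : 0 < w)
    (hr : νr + w * (lX - ε) ≤ νX)
    (hrec : c₀ + DN p v (-(p.θ 1 * v)) (-(p.θ 2 * v)) (-(p.θ 0 * v)) + σ * DlF p (rhoF p.θ) -
      ε * w ≤ νr)
    (hP : -(2 * (p.θ 1 - p.θ 2)) ≤ lP)
    (hL : νX + w * ((lP - lX) + 3 * (1 + (p.θ 1 - p.θ 2)) + 1 - ε) ≤
      c₀ + DN p (v + σ - w) (-(p.θ 1 * (v + σ)))
        (-(p.θ 2 * (v + σ)) - (p.θ 1 - p.θ 2) * w) (-(p.θ 0 * (v + σ)))) :
    p.g - p.q 2 * (p.θ 1 - p.θ 2) ≤ 3 * ε := by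
  rw [DN_X, DN_rec] at hL
  have h1 : w * (p.g - p.q 2 * (p.θ 1 - p.θ 2)) ≤ w * (3 * ε) := by
    have h2 := mul_le_mul_of_nonneg_left hP hw.le
    nlinarith
  exact le_of_mul_le_mul_left h1 hw

end Crest.Agent.R136.Z2e403
end

-- ▼ part R136/Twz_683
section

/-!
# R136: twin zoom (helper683)

Two natural points `y = z.1 T + z.2 b` (interior of the plane) and `r = z.2 b` (record line) of one
stage of the ladder, blown up along the same scales:

* `JT.of_psi`, `JT.twin` : joint tangents at both points, base points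
  `x (ψ l) + h (ψ l) • y`, `x (ψ l) + h (ψ l) • r`, same scales;
* `RecX` : value of `ν` at the moving base points; passes to `r`;
* `Twin` : the data; **`alive`** : contrapositive of 774's `Stage.dead` with the twin record point;
* `base_ext`, **`exists_zwin_twin`** : zoom windows of both with one base, one `J`;
* `few_coarse`, `popular`, **`exists_popular`** : coarse label constant on the fine classes of a
  dense part.
-/

set_option autoImplicit false
set_option linter.unusedSectionVars false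
set_option linter.unusedVariables false

open Set Filter Topology Metric MeasureTheory

namespace Crest.Agent.R136.Tw683

open Dg262 (X X_cont SupOn LegU)
open Dg219 (Tn BUp Walls OutS gC dhC nC)
open Rc146 (OutA)
open K2S774 K2A146
open Crest.Agent.R138

variable {m : ℕ} {W : Type*} [Fintype W] {Q : Walls (Fin m) W} {A : W → Prop}
  {P : Set (Fin m → ℝ)} {ν own : (Fin m → ℝ) → ℝ} {K : ℝ}
  {r0 ρ : Fin m → ℝ} {Dl : (Fin m → ℝ) →ₗ[ℝ] ℝ} {Qd : Set (Fin m → ℝ)} {Z Tie : Set (Fin m)}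
  {kz : Fin m} {o : Fin m → ℝ} {τ : ℝ} {Dr : Set (Fin m)}
  {lam lo lam' lo' lam1 lo1 : (Fin m → ℝ) → ℝ}

/-! ### joint tangents at two points -/

/-- joint tangent of a joint tangent, given index function -/
theorem JT_of_psi {y : Fin m → ℝ} {x : ℕ → Fin m → ℝ} {h k : ℕ → ℝ}
    (H : JT Q A P ν own r0 x h lam lo) (hyn : Nat Q A y)
    (kpos : ∀ l, 0 < k l) (k0 : Tendsto k atTop (𝓝 0))
    (H1 : Ex926.IsTan (cn Q A) (cn Q A) lam (fun _ => y) k lam')
    (H2 : Ex926.IsTan (cn Q A) (cn Q A) lo (fun _ => y) k lo')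
    {ψ : ℕ → ℕ} (hψ : ∀ m, m ≤ ψ m)
    (hψ2 : ∀ m : ℕ, ∀ c ∈ cn Q A, ‖c‖ ≤ ‖y‖ + k m * m → x (ψ m) + h (ψ m) • c ∈ P ∧
      |ν (x (ψ m) + h (ψ m) • c) - ν (x (ψ m)) - h (ψ m) * lam c| ≤ k m / (m + 1) * h (ψ m))
    (hψ3 : ∀ m : ℕ, ∀ c ∈ cn Q A, ‖c‖ ≤ ‖y‖ + k m * m → x (ψ m) + h (ψ m) • c ∈ P ∧
      |own (x (ψ m) + h (ψ m) • c) - own (x (ψ m)) - h (ψ m) * lo c| ≤
        k m / (m + 1) * h (ψ m)) :
    JT Q A P ν own r0 (fun m => x (ψ m) + h (ψ m) • y) (fun m => h (ψ m) * k m) lam' lo' := by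
  have hψt : Tendsto ψ atTop atTop := tendsto_atTop_mono hψ tendsto_id
  have h0 : Tendsto (fun n => h (ψ n)) atTop (𝓝 0) := H.zero.comp hψt
  refine ⟨fun l => mul_pos (H.pos _) (kpos l), ?_, ?_, ?_, ?_,
    tan_of_psi H.pos kpos hyn.mem H1 hψ2, tan_of_psi H.pos kpos hyn.mem H2 hψ3⟩
  · have := h0.mul k0
    rwa [zero_mul] at this
  · intro l w hw
    have h1 := H.nat (ψ l) w hw
    have h2 := hyn w hw
    rw [Q.rhs_add, Q.rhs_smul, Pi.add_apply, Pi.smul_apply, smul_eq_mul, h1, h2]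
    ring
  · intro w hwA R
    have hk1 : ∀ᶠ l in atTop, |k l| ≤ 1 := by
      have h1 := k0.abs
      rw [abs_zero] at h1
      exact (h1.eventually_lt_const one_pos).mono fun l hl => hl.le
    filter_upwards [hψt.eventually (H.gap w hwA (|y (Q.hd w)| + |Q.rhs w y| + |R|)), hk1]
      with l hl hk
    rw [Q.rhs_add, Q.rhs_smul, Pi.add_apply, Pi.smul_apply, smul_eq_mul]
    have hh := (H.pos (ψ l)).le
    have b1 : h (ψ l) * y (Q.hd w) ≤ h (ψ l) * |y (Q.hd w)| :=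
      mul_le_mul_of_nonneg_left (le_abs_self _) hh
    have b2 : h (ψ l) * -Q.rhs w y ≤ h (ψ l) * |Q.rhs w y| :=
      mul_le_mul_of_nonneg_left (neg_le_abs _) hh
    have b3 : R * k l ≤ |R| := by
      refine (le_abs_self _).trans ?_
      rw [abs_mul]
      exact mul_le_of_le_one_right (abs_nonneg _) hk
    have b4 : h (ψ l) * (R * k l) ≤ h (ψ l) * |R| := mul_le_mul_of_nonneg_left b3 hh
    nlinarith
  · have h1 : Tendsto (fun n => x (ψ n)) atTop (𝓝 r0) := H.base.comp hψt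
    have h2 : Tendsto (fun n => h (ψ n) • y) atTop (𝓝 0) := by
      have := h0.smul_const y
      rwa [zero_smul] at this
    have := h1.add h2
    rwa [add_zero] at this

/-- **joint tangents at two points, one sequence** -/
theorem JT_twin {y r : Fin m → ℝ} {x : ℕ → Fin m → ℝ} {h k : ℕ → ℝ}
    (H : JT Q A P ν own r0 x h lam lo) (hy : Nat Q A y) (hr : Nat Q A r)
    (kpos : ∀ l, 0 < k l) (k0 : Tendsto k atTop (𝓝 0))
    (H1 : Ex926.IsTan (cn Q A) (cn Q A) lam (fun _ => y) k lam')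
    (H2 : Ex926.IsTan (cn Q A) (cn Q A) lo (fun _ => y) k lo')
    (H3 : Ex926.IsTan (cn Q A) (cn Q A) lam (fun _ => r) k lam1)
    (H4 : Ex926.IsTan (cn Q A) (cn Q A) lo (fun _ => r) k lo1)
    {Xp : ℕ → ℕ → Prop} (hX : ∀ n, ∀ᶠ l in atTop, Xp n l) :
    ∃ ψ : ℕ → ℕ, (∀ m, m ≤ ψ m) ∧ (∀ m, Xp m (ψ m)) ∧
      JT Q A P ν own r0 (fun m => x (ψ m) + h (ψ m) • y) (fun m => h (ψ m) * k m) lam' lo' ∧
      JT Q A P ν own r0 (fun m => x (ψ m) + h (ψ m) • r) (fun m => h (ψ m) * k m) lam1 lo1 ∧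
      ∀ m : ℕ, |ν (x (ψ m) + h (ψ m) • r) - ν (x (ψ m)) - h (ψ m) * lam r| ≤
        k m / (m + 1) * h (ψ m) := by
  have key : ∀ n : ℕ, ∃ l : ℕ, n ≤ l ∧ Xp n l ∧
      (∀ c ∈ cn Q A, ‖c‖ ≤ max ‖y‖ ‖r‖ + k n * n →
      x l + h l • c ∈ P ∧ |ν (x l + h l • c) - ν (x l) - h l * lam c| ≤ k n / (n + 1) * h l) ∧
      (∀ c ∈ cn Q A, ‖c‖ ≤ max ‖y‖ ‖r‖ + k n * n →
      x l + h l • c ∈ P ∧ |own (x l + h l • c) - own (x l) - h l * lo c| ≤ k n / (n + 1) * h l) := by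
    intro n
    have h1 := H.tan (max ‖y‖ ‖r‖ + k n * n) (k n / (n + 1)) (div_pos (kpos n) (by positivity))
    have h2 := H.tano (max ‖y‖ ‖r‖ + k n * n) (k n / (n + 1)) (div_pos (kpos n) (by positivity))
    obtain ⟨l, ⟨⟨hl1, hl3⟩, hl2⟩, hl4⟩ :=
      (((h1.and h2).and (eventually_ge_atTop n)).and (hX n)).exists
    exact ⟨l, hl2, hl4, hl1, hl3⟩
  choose ψ hψ hψX hψ2 hψ3 using key
  refine ⟨ψ, hψ, hψX, ?_, ?_, fun n => ?_⟩
  · exact JT_of_psi H hy kpos k0 H1 H2 hψ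
      (fun n c hc hcn => hψ2 n c hc (hcn.trans (by gcongr; exact le_max_left _ _)))
      (fun n c hc hcn => hψ3 n c hc (hcn.trans (by gcongr; exact le_max_left _ _)))
  · exact JT_of_psi H hr kpos k0 H3 H4 hψ
      (fun n c hc hcn => hψ2 n c hc (hcn.trans (by gcongr; exact le_max_right _ _)))
      (fun n c hc hcn => hψ3 n c hc (hcn.trans (by gcongr; exact le_max_right _ _)))
  · refine (hψ2 n r hr.mem ?_).2
    have := mul_nonneg (kpos n).le (Nat.cast_nonneg n)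
    have := le_max_right ‖y‖ ‖r‖
    linarith

/-! ### values at the record base points -/

/-- `RecX` passes to the next record point -/
theorem RecX_next {x : ℕ → Fin m → ℝ} {h k : ℕ → ℝ} {r : Fin m → ℝ} {ξ : ℝ} {σ : ℕ → ℝ}
    (hpos : ∀ l, 0 < h l) (kpos : ∀ l, 0 < k l)
    (hσ : ∀ l, ∀ i, i ∉ Dr → x l i = r0 i + σ l * ρ i) {ψ : ℕ → ℕ}
    (hψX : ∀ m : ℕ, |ν (x (ψ m)) - ν r0 - σ (ψ m) * Dl ρ| ≤ k m / (m + 1) * h (ψ m))
    (hr : ∀ i, i ∉ Dr → r i = ξ * ρ i) (hlr : lam r = ξ * Dl ρ)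
    (hψr : ∀ m : ℕ, |ν (x (ψ m) + h (ψ m) • r) - ν (x (ψ m)) - h (ψ m) * lam r| ≤
        k m / (m + 1) * h (ψ m)) :
    RecX ν r0 ρ Dl Dr (fun m => x (ψ m) + h (ψ m) • r) (fun m => h (ψ m) * k m) := by
  refine ⟨fun l => σ (ψ l) + h (ψ l) * ξ, fun l i hi => ?_, ?_⟩
  · simp only [Pi.add_apply, Pi.smul_apply, smul_eq_mul]
    rw [hσ _ i hi, hr i hi]; ring
  · have h1 : Tendsto (fun l : ℕ => 2 * (1 / ((l : ℝ) + 1))) atTop (𝓝 0) := by
      have := tendsto_one_div_add_atTop_nhds_zero_nat (𝕜 := ℝ) |>.const_mul 2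
      rwa [mul_zero] at this
    refine squeeze_zero_norm (fun l => ?_) h1
    have hk := kpos l
    have hh := hpos (ψ l)
    have a1 := hψX l
    have a2 := hψr l
    rw [hlr] at a2
    rw [Real.norm_eq_abs, abs_div, abs_of_pos (mul_pos hh hk), div_le_iff₀ (mul_pos hh hk)]
    have e1 : ν (x (ψ l) + h (ψ l) • r) - ν r0 - (σ (ψ l) + h (ψ l) * ξ) * Dl ρ =
        (ν (x (ψ l) + h (ψ l) • r) - ν (x (ψ l)) - h (ψ l) * (ξ * Dl ρ)) +
          (ν (x (ψ l)) - ν r0 - σ (ψ l) * Dl ρ) := by ring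
    rw [e1]
    refine (abs_add_le _ _).trans ((add_le_add a2 a1).trans (le_of_eq ?_))
    field_simp
    ring

/-- own position of the interior base points -/
theorem baseOk_of {x : ℕ → Fin m → ℝ} {h k : ℕ → ℝ} {T b : Fin m → ℝ} {z : ℝ × ℝ} (hz : z.1 < 0)
    (hpos : ∀ l, 0 < h l) (k0 : Tendsto k atTop (𝓝 0))
    (hxt : ∀ l, ∀ i ∈ Tie, x l i - r0 i = o i * (x l kz - r0 kz))
    (hb : ∀ i ∈ Tie, b i = o i * b kz) (ψ : ℕ → ℕ) :
    BaseOk Tie kz o T r0 (fun m => x (ψ m) + h (ψ m) • X 0 T b z) (fun m => h (ψ m) * k m) := by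
  refine ⟨fun l i hi hT' => ?_, fun l i hi hT' => ?_, fun i hi hT' R => ?_⟩
  · have h1 := hxt (ψ l) i hi
    rw [X_zero]
    simp only [Pi.add_apply, Pi.smul_apply, smul_eq_mul]
    rw [hT', hb i hi]
    linear_combination h1
  · have h1 := hxt (ψ l) i hi
    have h3 : 0 ≤ h (ψ l) * ((-z.1) * (T i - o i * T kz)) :=
      mul_nonneg (hpos _).le (mul_nonneg (by linarith) (by linarith))
    rw [X_zero]
    simp only [Pi.add_apply, Pi.smul_apply, smul_eq_mul]
    rw [hb i hi]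
    nlinarith
  · have hs : 0 < (-z.1) * (T i - o i * T kz) := mul_pos (by linarith) (by linarith)
    have h3 : Tendsto (fun l => R * k l) atTop (𝓝 0) := by
      have := k0.const_mul R
      rwa [mul_zero] at this
    filter_upwards [h3.eventually_lt_const hs] with l hl
    have h1 := hxt (ψ l) i hi
    have h2 := mul_le_mul_of_nonneg_left hl.le (hpos (ψ l)).le
    rw [X_zero]
    simp only [Pi.add_apply, Pi.smul_apply, smul_eq_mul]
    rw [hb i hi]
    nlinarith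

/-- **the twin data** : `(lam', lo')` at the interior base points `x'`, `(lam1, lo1)` at the record
base points `x1`, same scales `h'`, distance `H • (z.1 • T)` with `h' = o(H)` -/
structure Twin (Q : Walls (Fin m) W) (A : W → Prop) (P : Set (Fin m → ℝ))
    (ν own : (Fin m → ℝ) → ℝ) (r0 ρ : Fin m → ℝ) (Dl : (Fin m → ℝ) →ₗ[ℝ] ℝ) (Tie : Set (Fin m))
    (kz : Fin m) (o : Fin m → ℝ) (Dr : Set (Fin m)) (T : Fin m → ℝ) (z1 : ℝ)
    (x' x1 : ℕ → Fin m → ℝ) (h' : ℕ → ℝ) (lam' lo' lam1 lo1 : (Fin m → ℝ) → ℝ) : Prop where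
  jt' : JT Q A P ν own r0 x' h' lam' lo'
  jt1 : JT Q A P ν own r0 x1 h' lam1 lo1
  base : BaseOk Tie kz o T r0 x' h'
  tie : ∀ l, ∀ i ∈ Tie, x1 l i - r0 i = o i * (x1 l kz - r0 kz)
  rel : ∃ H : ℕ → ℝ, (∀ l, 0 < H l) ∧ Tendsto (fun l => h' l / H l) atTop (𝓝 0) ∧
    ∀ l, x' l = x1 l + H l • (z1 • T)
  recx : RecX ν r0 ρ Dl Dr x1 h'

/-- **contrapositive of `Stage.dead` with the twin record point** -/
theorem alive (H : Stage Q P ν own K r0 ρ Dl Qd Z Tie kz o τ A Dr lam lo)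
    (R : RecD Q A ρ Qd Tie kz o) {T T' b : Fin m → ℝ} {J : Finset (Fin m)}
    (D : RungD Q A Dr Z Tie kz Qd ρ T T' b J) {g : ℝ} (hg : 0 < g) :
    ∃ z : ℝ × ℝ, z.1 < 0 ∧ ∃ E : ℝ × ℝ →L[ℝ] ℝ, HasFDerivAt (fun z => lam (X 0 T b z)) E z ∧
      -E (1, 0) + Dl T' < g ∧
      ∃ (k : ℕ → ℝ) (lam' lo' lam1 lo1 : (Fin m → ℝ) → ℝ), (∀ l, 0 < k l) ∧
        Tendsto k atTop (𝓝 0) ∧
        Ex926.IsTan (cn Q A) (cn Q A) lam (fun _ => X 0 T b z) k lam' ∧
        Ex926.IsTan (cn Q A) (cn Q A) lo (fun _ => X 0 T b z) k lo' ∧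
        Ex926.IsTan (cn Q A) (cn Q A) lam (fun _ => z.2 • b) k lam1 ∧
        Ex926.IsTan (cn Q A) (cn Q A) lo (fun _ => z.2 • b) k lo1 ∧
        (∃ (φ : ℕ → (Fin m → ℝ) → ℝ) (rt : ℕ → ℝ),
          OutA (gC T b) (cn Q A) T b (dhC T b) (nC T b) lam' (E (1, 0), E (0, 1)) φ rt) ∧
        Prf (cn Q A) lam' lo' K ∧
        Stage Q P ν own K r0 ρ Dl Qd Z Tie kz o τ A Dr lam1 lo1 ∧
        ∃ (x' x1 : ℕ → Fin m → ℝ) (h' : ℕ → ℝ),
          Twin Q A P ν own r0 ρ Dl Tie kz o Dr T z.1 x' x1 h' lam' lo' lam1 lo1 := by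
  by_contra hcon
  have hnb := H.nat_b R.nat D.bρ
  have hT : Nat Q A T := D.natT
  obtain ⟨x, h, hJ, hxt, σ, hσ, hσ0⟩ := H.jt
  have hF : ∀ᵐ z : ℝ × ℝ, z ∈ {z : ℝ × ℝ | z.1 < 0} → ∃ E : ℝ × ℝ →L[ℝ] ℝ,
      HasFDerivAt (fun z => lam (X 0 T b z)) E z ∧ g ≤ -E (1, 0) - -(Dl T') := by
    filter_upwards [cn_outA H.prf R.full D.T0 K2S774.Nat.zero hT hnb] with z hz hz1
    obtain ⟨E, hE, hout⟩ := hz
    refine ⟨E, hE, ?_⟩
    by_contra hlt
    apply hcon
    have hy : Nat Q A (X 0 T b z) := by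
      rw [X_zero]; exact (hT.smul _).add (hnb.smul _)
    have hr : Nat Q A (z.2 • b) := hnb.smul _
    set k : ℕ → ℝ := fun l => 1 / ((l : ℝ) + 1) with hk
    have kpos : ∀ l, 0 < k l := fun l => by positivity
    have k0 : Tendsto k atTop (𝓝 0) := tendsto_one_div_add_atTop_nhds_zero_nat
    obtain ⟨φ1, hφ1, lam', lo', H1, H2⟩ := exists_joint H.prf cn_closed cn_zero
      (fun C => ⟨1, one_pos, fun h hh _ c hc _ => cn_nat_add hy hc hh.le⟩) kpos k0
    obtain ⟨φ2, hφ2, lam1, lo1, H3, H4⟩ := exists_joint H.prf cn_closed cn_zero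
      (fun C => ⟨1, one_pos, fun h hh _ c hc _ => cn_nat_add hr hc hh.le⟩)
      (k := fun l => k (φ1 l)) (fun l => kpos _) (k0.comp hφ1.tendsto_atTop)
    set q : ℕ → ℝ := fun l => k (φ1 (φ2 l)) with hq
    have qpos : ∀ l, 0 < q l := fun l => kpos _
    have q0 : Tendsto q atTop (𝓝 0) :=
      (k0.comp hφ1.tendsto_atTop).comp hφ2.tendsto_atTop
    have H1' := tan_sub H1 hφ2.tendsto_atTop
    have H2' := tan_sub H2 hφ2.tendsto_atTop
    have hlr : lam (z.2 • b) = z.2 * Dl ρ := H.lam_b R.nat hr.mem fun i hi => by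
      rw [Pi.smul_apply, smul_eq_mul, D.bρ i hi]
    have hX : ∀ n : ℕ, ∀ᶠ l in atTop,
        |ν (x l) - ν r0 - σ l * Dl ρ| ≤ q n / (n + 1) * h l := by
      intro n
      have e : 0 < q n / (n + 1) := div_pos (qpos n) (by positivity)
      filter_upwards [(Metric.tendsto_nhds.1 hσ0) _ e] with l hl
      rw [Real.dist_eq, sub_zero, abs_div, abs_of_pos (hJ.pos l), div_lt_iff₀ (hJ.pos l)] at hl
      exact hl.le
    obtain ⟨ψ, hψ, hψX, J1, J2, hψr⟩ := JT_twin hJ hy hr qpos q0 H1' H2' H3 H4 hX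
    obtain ⟨f, rt, hO⟩ := hout _ lam' (Dg219.bup_of_tan qpos q0 H1')
    have hbk : b kz = ρ kz := D.bρ kz H.zD
    have hbt : ∀ i ∈ Tie, b i = o i * b kz := fun i hi => by
      rw [D.bρ i (H.TD i hi), hbk, R.tie i hi]
    refine ⟨z, hz1, E, hE, by linarith [not_le.1 hlt], q, lam', lo', lam1, lo1, qpos, q0, H1', H2',
      H3, H4, ⟨f, rt, hO⟩, H.prf.tan qpos H1' H2', H.at_rec R D.bρ qpos q0 H3 H4, _, _, _,
      ⟨J1, J2, baseOk_of hz1 hJ.pos q0 hxt hbt ψ, fun l i hi => ?_,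
        ⟨fun l => h (ψ l), fun l => hJ.pos _, ?_, fun l => ?_⟩, ?_⟩⟩
    · have h1 := hxt (ψ l) i hi
      simp only [Pi.add_apply, Pi.smul_apply, smul_eq_mul]
      rw [hbt i hi]
      linear_combination h1
    · refine q0.congr fun l => ?_
      have := (hJ.pos (ψ l)).ne'
      field_simp
    · rw [X_zero, smul_add, ← add_assoc, add_assoc, add_comm (h (ψ l) • z.1 • T), ← add_assoc]
    · exact RecX_next hJ.pos qpos hσ hψX (fun i hi => by
        rw [Pi.smul_apply, smul_eq_mul, D.bρ i hi]) hlr hψr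
  have hd := (H.ray R D).dead hg one_pos (O := {z : ℝ × ℝ | z.1 < 0}) (fun ξ _ s hs _ => by
    show (pt 0 (0, 1) (1, 0) ξ s).1 < 0
    simp [pt]; exact hs) (by
    filter_upwards [hF] with z hz hz1
    exact hz hz1)
  obtain ⟨ξ, hξ⟩ := hd.exists
  exact hξ (mem_univ _)

/-! ### windows -/

section win

open Finset Crest.Agent.R138.Ex926 Crest.Agent.R136.Net191 Crest.Agent.R136.Qg926

theorem base_ext {B1 B2 : Base} (h : ∀ n, B1.d n = B2.d n) : B1 = B2 := by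
  cases B1; cases B2
  simp only at h
  simp only [Base.mk.injEq]
  exact funext h

variable {ι : ℕ → Type*} [∀ n, DecidableEq (ι n)]

/-- **zoom windows of two joint blow-ups with one base and one set of incidences** -/
theorem exists_zwin_twin {B : Base} {I J : ∀ n, Finset (ι n)} {co : ∀ n, ι n → ι n → Fin m → ℝ}
    {M : Mons m} {C Rr : ℝ} {ν : (Fin m → ℝ) → ℝ} (hN : NProf B I J co M C Rr ν)
    {x' x1 : ℕ → Fin m → ℝ} {h : ℕ → ℝ} (hpos : ∀ l, 0 < h l) {D : Set (Fin m → ℝ)}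
    (h0 : (0 : Fin m → ℝ) ∈ D) {lam' lam1 : (Fin m → ℝ) → ℝ}
    (htan' : IsTan (Leg M Rr) D ν x' h lam') (htan1 : IsTan (Leg M Rr) D ν x1 h lam1)
    (s : ℕ → ℕ → ℝ) (hs : ∀ i, B.Sub (s i)) :
    ∃ k : ℕ → ℕ, Tendsto k U atTop ∧ ∀ k' : ℕ → ℕ, Tendsto k' U atTop →
      (∀ᶠ n in (U : Filter ℕ), k' n ≤ k n) → ∃ B' : Base,
        (∀ n, B'.d n = B.d n ^ h (k' n)) ∧ (∀ n, B'.L n = h (k' n) * B.L n) ∧
        (∀ i, B'.Sub (s i)) ∧
        ZWin B B' I J co M C (fun n => x' (k' n)) (fun n => h (k' n)) D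
          (fun n => B.d n ^ (-(ν (x' (k' n))))) lam' ∧
        ZWin B B' I J co M C (fun n => x1 (k' n)) (fun n => h (k' n)) D
          (fun n => B.d n ^ (-(ν (x1 (k' n))))) lam1 := by
  obtain ⟨k1, hk1, H1⟩ := exists_zwin hN hpos h0 htan' s hs
  obtain ⟨k2, hk2, H2⟩ := exists_zwin hN hpos h0 htan1 s hs
  refine ⟨fun n => min (k1 n) (k2 n), tendsto_atTop.2 fun a => ?_, fun k' hk' hle => ?_⟩
  · filter_upwards [hk1.eventually_ge_atTop a, hk2.eventually_ge_atTop a] with n a1 a2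
    exact le_min a1 a2
  · obtain ⟨B1, a1, a2, a3, a4⟩ := H1 k' hk' (hle.mono fun n hn => hn.trans (min_le_left _ _))
    obtain ⟨B2, b1, b2, b3, b4⟩ := H2 k' hk' (hle.mono fun n hn => hn.trans (min_le_right _ _))
    have e : B1 = B2 := base_ext fun n => by rw [a1, b1]
    subst e
    exact ⟨B1, a1, a2, a3, a4, b4⟩

/-- a fine class meets boundedly many coarse classes -/
theorem few_coarse {B : Base} {I : ∀ n, Finset (ι n)} {co : ∀ n, ι n → ι n → Fin m → ℝ}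
    {M : Mons m} {C : ℝ} (h : ∀ n, Chart (I n) (co n) M C) {n : ℕ} {p q : Fin m → ℝ}
    (hp : Legal M p) (hq : Legal M q) (hpq : p ≤ q) {i : ι n} (hi : i ∈ I n) :
    (((cls (I n) (nlab B I co M C n q) i).image (nlab B I co M C n p)).card : ℝ) ≤
      cN M C (cK0 M C) := by
  classical
  have hC0 := (h 0).C0
  have hK0 : 1 ≤ cK0 M C := cK0_one hC0
  have hd := B.pos n
  have hd1 := (B.lt n).le
  have h1 := card_nlab_le (B := B) h hp hp le_rfl hK0 hi
  simp only [sub_self, Finset.sum_const_zero, neg_zero, Real.rpow_zero, mul_one] at h1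
  refine le_trans ?_ h1
  have hsub : (cls (I n) (nlab B I co M C n q) i).image (nlab B I co M C n p) ⊆
      ((I n).filter fun j => Near (co n) (B.d n) p (cK0 M C) i j).image
        (nlab B I co M C n p) := by
    refine Finset.image_subset_image fun x hx => ?_
    obtain ⟨hxI, hxi⟩ := mem_cls.1 hx
    rw [Finset.mem_filter]
    exact ⟨hxI, (near_of_nlab h hq hi hxI hxi.symm).anti hd hd1 (by linarith) hpq⟩
  exact_mod_cast Finset.card_le_card hsub

/-- a label `g` with at most `N` values on every class of `f` : a part of size `≥ 1/N` on which `f`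
determines `g` -/
theorem popular {α β γ : Type*} [DecidableEq α] [DecidableEq β] [DecidableEq γ] (J : Finset α)
    (f : α → β) (g : α → γ) {N : ℝ}
    (hN : ∀ i ∈ J, (((cls J f i).image g).card : ℝ) ≤ N) :
    ∃ J' ⊆ J, (J.card : ℝ) ≤ N * J'.card ∧ ∀ a ∈ J', ∀ b ∈ J', f a = f b → g a = g b := by
  classical
  -- for every value `v` of `f` a popular value of `g`
  have key : ∀ v : β, ∃ c : Option γ, ((J.filter fun y => f y = v).card : ℝ) ≤
      N * ((J.filter fun y => f y = v ∧ some (g y) = c).card : ℝ) := by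
    intro v
    by_cases hne : (J.filter fun y => f y = v).Nonempty
    · obtain ⟨i, hi⟩ := hne
      obtain ⟨hiJ, hiv⟩ := mem_filter.1 hi
      have hcl : cls J f i = J.filter fun y => f y = v := by
        ext y
        rw [mem_cls, mem_filter, hiv]
      set A := J.filter fun y => f y = v with hA
      have hAi : (A.image g).Nonempty := ⟨g i, mem_image_of_mem _ hi⟩
      obtain ⟨c, hc, hmax⟩ := Finset.exists_max_image (A.image g)
        (fun c => (A.filter fun y => g y = c).card) hAi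
      refine ⟨some c, ?_⟩
      have h1 : A.card = ∑ c' ∈ A.image g, (A.filter fun y => g y = c').card :=
        card_eq_sum_card_fiberwise fun y hy => mem_image_of_mem _ hy
      have h2 : (A.card : ℝ) ≤ ((A.image g).card : ℝ) * ((A.filter fun y => g y = c).card : ℝ) := by
        have : A.card ≤ (A.image g).card * (A.filter fun y => g y = c).card := by
          rw [h1]
          exact (sum_le_card_nsmul _ _ _ fun c' hc' => hmax c' hc').trans (le_of_eq (by simp))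
        exact_mod_cast this
      have h3 := hN i hiJ
      rw [hcl] at h3
      refine h2.trans ?_
      have e1 : (J.filter fun y => f y = v ∧ some (g y) = some c) = A.filter fun y => g y = c := by
        ext y
        simp only [hA, mem_filter, Option.some.injEq]
        tauto
      rw [e1]
      exact mul_le_mul_of_nonneg_right h3 (Nat.cast_nonneg _)
    · refine ⟨none, ?_⟩
      rw [Finset.not_nonempty_iff_eq_empty.1 hne]
      simp
  choose c hc using key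
  refine ⟨J.filter fun y => some (g y) = c (f y), filter_subset _ _, ?_, ?_⟩
  · have e1 : (J.card : ℝ) = ∑ v ∈ J.image f, ((J.filter fun y => f y = v).card : ℝ) := by
      rw [card_eq_sum_card_fiberwise (f := f) (t := J.image f) fun y hy => mem_image_of_mem _ hy]
      push_cast
      rfl
    have e2 : (((J.filter fun y => some (g y) = c (f y)).card : ℕ) : ℝ) =
        ∑ v ∈ J.image f, ((J.filter fun y => f y = v ∧ some (g y) = c v).card : ℝ) := by
      rw [card_eq_sum_card_fiberwise (f := f) (t := J.image f)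
        fun y hy => mem_image_of_mem _ (mem_filter.1 hy).1]
      push_cast
      refine sum_congr rfl fun v _ => ?_
      congr 2
      ext y
      simp only [mem_filter]
      constructor
      · rintro ⟨⟨h1, h2⟩, h3⟩; exact ⟨h1, h3, h3 ▸ h2⟩
      · rintro ⟨h1, h2, h3⟩; exact ⟨⟨h1, h2 ▸ h3⟩, h2⟩
    rw [e1, e2, mul_sum]
    exact sum_le_sum fun v _ => hc v
  · intro a ha b hb hab
    have h1 := (mem_filter.1 ha).2
    have h2 := (mem_filter.1 hb).2
    rw [hab, ← h2] at h1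
    exact Option.some.inj h1

/-- the loss of a dense part as a sub-polynomial sequence -/
theorem dense_sub {B : Base} {J' J : ∀ n, Finset (ι n)} (h : Crest.Agent.R138.Dp76.Dense B J' J)
    (hne : ∀ᶠ n in (U : Filter ℕ), (J n).Nonempty) :
    ∃ S : ℕ → ℝ, B.Sub S ∧ ∀ᶠ n in (U : Filter ℕ), ((J n).card : ℝ) ≤ S n * (J' n).card ∧
      1 ≤ S n := by
  set S : ℕ → ℝ := fun n => max 1 ((J n).card / (J' n).card) with hS
  have hne' : ∀ᶠ n in (U : Filter ℕ), 0 < ((J' n).card : ℝ) := by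
    filter_upwards [hne, h.2 1 one_pos] with n h1 h2
    have h3 : 0 < ((J n).card : ℝ) := by exact_mod_cast h1.card_pos
    exact lt_of_lt_of_le (mul_pos (Real.rpow_pos_of_pos (B.pos n) _) h3) h2
  have hub : ∀ ε : ℝ, 0 < ε → ∀ᶠ n in (U : Filter ℕ), 1 ≤ S n ∧ S n ≤ B.d n ^ (-ε) := by
    intro ε hε
    filter_upwards [hne', h.2 ε hε] with n h1 h2
    refine ⟨le_max_left _ _, max_le ?_ ?_⟩
    · exact Real.one_le_rpow_of_pos_of_le_one_of_nonpos (B.pos n) (B.lt n).le (by linarith)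
    · rw [div_le_iff₀ h1, Real.rpow_neg (B.pos n).le]
      have h3 := Real.rpow_pos_of_pos (B.pos n) ε
      rw [inv_mul_eq_div, le_div_iff₀ h3]
      linarith
  refine ⟨S, ?_, ?_⟩
  · rw [Base.Sub.iff]
    refine ⟨(hub 1 one_pos).mono fun n hn => by linarith [hn.1], ?_⟩
    rw [Metric.tendsto_nhds]
    intro ε hε
    filter_upwards [hub (ε / 2) (by positivity)] with n hn
    have hL := B.L_pos n
    have h0 : 0 < S n := by linarith [hn.1]
    have h1 : 0 ≤ Real.log (S n) := Real.log_nonneg hn.1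
    have h2 := Real.log_le_log h0 hn.2
    rw [Real.log_rpow (B.pos n)] at h2
    have h3 : Real.log (B.d n) = -B.L n := by unfold Base.L; ring
    rw [h3] at h2
    rw [Real.dist_eq, sub_zero]
    unfold Base.lg
    rw [abs_of_nonneg (div_nonneg h1 hL.le), div_lt_iff₀ hL]
    nlinarith
  · filter_upwards [hne'] with n h1
    refine ⟨?_, le_max_left _ _⟩
    have := mul_le_mul_of_nonneg_right (le_max_right (1 : ℝ) ((J n).card / (J' n).card)) h1.le
    rwa [div_mul_cancel₀ _ h1.ne'] at this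

/-- **coarse labels constant on the fine classes of a dense part** -/
theorem exists_popular {B : Base} {I J : ∀ n, Finset (ι n)} {co : ∀ n, ι n → ι n → Fin m → ℝ}
    {M : Mons m} {C : ℝ} (h : ∀ n, Chart (I n) (co n) M C)
    (hsub : ∀ᶠ n in (U : Filter ℕ), J n ⊆ I n) {p q : ℕ → Fin m → ℝ}
    (hp : ∀ᶠ n in (U : Filter ℕ), Legal M (p n)) (hq : ∀ᶠ n in (U : Filter ℕ), Legal M (q n))
    (hpq : ∀ᶠ n in (U : Filter ℕ), p n ≤ q n) :
    ∃ J' : ∀ n, Finset (ι n), (∀ n, J' n ⊆ J n) ∧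
      (∀ᶠ n in (U : Filter ℕ), ((J n).card : ℝ) ≤ cN M C (cK0 M C) * (J' n).card) ∧
      ∀ᶠ n in (U : Filter ℕ), ∀ a ∈ J' n, ∀ b ∈ J' n,
        nlab B I co M C n (q n) a = nlab B I co M C n (q n) b →
        nlab B I co M C n (p n) a = nlab B I co M C n (p n) b := by
  have key : ∀ n, ∃ J' : Finset (ι n), J' ⊆ J n ∧
      (J n ⊆ I n → Legal M (p n) → Legal M (q n) → p n ≤ q n →
        ((J n).card : ℝ) ≤ cN M C (cK0 M C) * J'.card ∧ ∀ a ∈ J', ∀ b ∈ J',
        nlab B I co M C n (q n) a = nlab B I co M C n (q n) b →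
        nlab B I co M C n (p n) a = nlab B I co M C n (p n) b) := by
    intro n
    by_cases hc : J n ⊆ I n ∧ Legal M (p n) ∧ Legal M (q n) ∧ p n ≤ q n
    · obtain ⟨c1, c2, c3, c4⟩ := hc
      obtain ⟨J', h1, h2, h3⟩ := popular (J n) (nlab B I co M C n (q n))
        (nlab B I co M C n (p n)) (N := cN M C (cK0 M C)) (fun i hi => by
          refine le_trans ?_ (few_coarse (B := B) h c2 c3 c4 (c1 hi))
          exact_mod_cast Finset.card_le_card (Finset.image_subset_image (cls_mono c1 _ _)))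
      exact ⟨J', h1, fun _ _ _ _ => ⟨h2, h3⟩⟩
    · exact ⟨∅, empty_subset _, fun c1 c2 c3 c4 => absurd ⟨c1, c2, c3, c4⟩ hc⟩
  choose J' h1 h2 using key
  refine ⟨J', h1, ?_, ?_⟩
  · filter_upwards [hsub, hp, hq, hpq] with n a1 a2 a3 a4 using (h2 n a1 a2 a3 a4).1
  · filter_upwards [hsub, hp, hq, hpq] with n a1 a2 a3 a4 using (h2 n a1 a2 a3 a4).2

/-- the interior base points are coarser than the (shifted) record base points -/
theorem twin_le {x' x1 : ℕ → Fin m → ℝ} {h' H : ℕ → ℝ} {z1 : ℝ} {T c0 : Fin m → ℝ} (hz : z1 < 0)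
    (H0 : ∀ l, 0 < H l) (hH : Tendsto (fun l => h' l / H l) atTop (𝓝 0))
    (e : ∀ l, x' l = x1 l + H l • (z1 • T)) (hpos : ∀ l, 0 < h' l) (T0 : ∀ i, 0 ≤ T i)
    (hc : ∀ i, T i = 0 → 0 ≤ c0 i) : ∀ᶠ l in atTop, x' l ≤ x1 l + h' l • c0 := by
  have key : ∀ i : Fin m, ∀ᶠ l in atTop, x' l i ≤ (x1 l + h' l • c0) i := by
    intro i
    rcases (T0 i).eq_or_lt with hT | hT
    · refine Eventually.of_forall fun l => ?_
      rw [e]
      simp only [Pi.add_apply, Pi.smul_apply, smul_eq_mul, ← hT]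
      have := mul_nonneg (hpos l).le (hc i hT.symm)
      linarith
    · have h1 : Tendsto (fun l => (h' l / H l) * -c0 i) atTop (𝓝 0) := by
        have := hH.mul_const (-c0 i)
        rwa [zero_mul] at this
      have h2 : 0 < -(z1 * T i) := by nlinarith
      filter_upwards [h1.eventually_lt_const h2] with l hl
      rw [e]
      simp only [Pi.add_apply, Pi.smul_apply, smul_eq_mul]
      have h3 := H0 l
      have h4 : h' l / H l * -c0 i * H l < -(z1 * T i) * H l := mul_lt_mul_of_pos_right hl h3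
      have h5 : h' l / H l * -c0 i * H l = -(h' l * c0 i) := by
        field_simp
      rw [h5] at h4
      nlinarith
  filter_upwards [eventually_all.2 key] with l hl i using hl i

end win

end Crest.Agent.R136.Tw683
end

-- ▼ part R136/Z2z_683
section

/-!
# R136: rung `s = 1` of Z2, instance in the ladder `LdF3_511` (helper683)

* `legZ_cn` : the boxes of the window are in the cone `cn (mw monQ) (AF {3})`
* `gapP_of` : `GapP` at the base points of a joint tangent of the stage `{3}`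
* `splZ_gC` : the split from `OutA` on the plane of slope `1`, `θ 0 = θ 1 ≠ 0`
* **`strip_at`** : strip relation at the interior base points of a twin
-/

set_option autoImplicit false
set_option linter.unusedSectionVars false
set_option linter.unusedVariables false

open Filter Topology

namespace Crest.Agent.R136.Z2683

open Finset Crest.Agent.R136.NetQ186 Crest.Agent.R136.Net191 Crest.Agent.R136.Qg926
open Crest.Agent.R136.Gf356 Crest.Agent.R136.Ev356
open Crest.Agent.R138.Ex926 (Base U U_le_atTop)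
open Dg219 (OutS gset mw Walls gC dhC nC gC_zero gC_eq)
open Crest.Agent.R136.LdF511 (sm)
open Crest.Agent.R136.LdF3511 (WI AF cnF mem_cnF AF_mono TF TpF TF_off TF_on TpF_val rhoF)
open K2S774 (cn JT)
open Rc146 (OutA)

/-- the boxes of the window are in the cone of the stage -/
theorem legZ_cn (x : ℝ) : Leg mZ2 x ⊆ cn (mw monQ) (AF {3}) := by
  intro p hp
  show p ∈ cnF (AF {3})
  rw [mem_cnF]
  rintro k e he ⟨h1, h2, h3⟩
  exact hp.1.2 k e (mem_filter.2 ⟨he, h1, h3 3 (by simp)⟩)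

/-- wall of the chart -/
def wq (k : Fin 11) (e : Fin 11 → ℕ) (h : e ∈ monQ.mon k) : WI := ⟨k, e, h⟩

theorem wq_hd {k : Fin 11} {e : Fin 11 → ℕ} (h : e ∈ monQ.mon k) :
    (mw monQ).hd (wq k e h) = k := rfl

theorem wq_rhs {k : Fin 11} {e : Fin 11 → ℕ} (h : e ∈ monQ.mon k) (p : Fin 11 → ℝ) :
    (mw monQ).rhs (wq k e h) p + (mw monQ).cst (wq k e h) = ∑ s, (e s : ℝ) * p s := by
  show ∑ s, (e s : ℝ) * p s + 0 = _
  rw [add_zero]

theorem wq_AF {J : Finset (Fin 11)} {k : Fin 11} {e : Fin 11 → ℕ} (h : e ∈ monQ.mon k) :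
    AF J (wq k e h) ↔ (e 1 = 0 ∧ k ∉ J ∧ ∀ s ∈ J, e s = 0) := Iff.rfl

/-- **gaps at the base points** -/
theorem gapP_of {P : Set (Fin 11 → ℝ)} {ν own lam' lo' : (Fin 11 → ℝ) → ℝ} {r0 : Fin 11 → ℝ}
    {x' : ℕ → Fin 11 → ℝ} {h' : ℕ → ℝ} (H : JT (mw monQ) (AF {3}) P ν own r0 x' h' lam' lo')
    (x : ℝ) : ∀ᶠ l in atTop, GapP x' h' x l := by
  have m8 : (![1, 0, 0, 0, 0, 1, 0, 0, 0, 0, 0] : Fin 11 → ℕ) ∈ monQ.mon 8 := by decide
  have m10 : (![1, 0, 0, 0, 0, 0, 0, 1, 0, 0, 0] : Fin 11 → ℕ) ∈ monQ.mon 10 := by decide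
  have m71 : (![1, 1, 0, 0, 0, 0, 0, 0, 0, 0, 0] : Fin 11 → ℕ) ∈ monQ.mon 7 := by decide
  have m73 : (![0, 0, 0, 1, 0, 0, 1, 0, 0, 0, 0] : Fin 11 → ℕ) ∈ monQ.mon 7 := by decide
  have m103 : (![0, 0, 0, 1, 0, 0, 0, 0, 0, 1, 0] : Fin 11 → ℕ) ∈ monQ.mon 10 := by decide
  have n71 : ¬ AF {3} (wq 7 _ m71) := by rw [wq_AF]; decide
  have n73 : ¬ AF {3} (wq 7 _ m73) := by rw [wq_AF]; decide
  have n103 : ¬ AF {3} (wq 10 _ m103) := by rw [wq_AF]; decide
  have a8 : AF {3} (wq 8 _ m8) := by rw [wq_AF]; decide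
  have a10 : AF {3} (wq 10 _ m10) := by rw [wq_AF]; decide
  filter_upwards [H.gap _ n71 x, H.gap _ n73 x, H.gap _ n103 x] with l g1 g2 g3
  have e1 := H.nat l _ a8
  have e2 := H.nat l _ a10
  rw [wq_rhs, wq_hd, sm] at e1 e2 g1 g2 g3
  simp only [Matrix.cons_val] at e1 e2 g1 g2 g3
  push_cast at e1 e2 g1 g2 g3
  refine ⟨?_, ?_, ?_, ?_, ?_⟩ <;> linarith

/-- the ray of slope `1` on the slots of the window -/
theorem TF1_val (κ : ℝ) (x3 : Fin 11 → ℝ) : TF {3} κ 1 x3 0 = 1 ∧ TF {3} κ 1 x3 5 = 0 ∧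
    TF {3} κ 1 x3 7 = 0 ∧ TF {3} κ 1 x3 8 = 1 ∧ TF {3} κ 1 x3 10 = 1 := by
  have h : ∀ i : Fin 11, i ∉ ({3} : Finset (Fin 11)) → TF {3} κ 1 x3 i = TpF κ 1 i :=
    fun i hi => (TF_off hi).symm
  refine ⟨?_, ?_, ?_, ?_, ?_⟩ <;> rw [h _ (by decide), TpF_val] <;>
    simp only [Matrix.cons_val] <;> norm_num

/-- the record direction on the slots of the window -/
theorem rho_val (θ : Fin 3 → ℝ) : rhoF θ 0 = 1 ∧ rhoF θ 8 = 1 - θ 1 ∧
    rhoF θ 10 = 1 - θ 0 := by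
  refine ⟨?_, ?_, ?_⟩ <;> simp only [rhoF, NatR550.nL, Matrix.cons_val] <;> ring

/-- groups of the plane of slope `1`, `θ 0 = θ 1` -/
theorem gC_Z2 {θ : Fin 3 → ℝ} (h01 : θ 0 = θ 1) (h1 : θ 1 ≠ 0) {κ : ℝ} {x3 b : Fin 11 → ℝ}
    (hb : ∀ i, i ∉ ({3} : Finset (Fin 11)) → b i = rhoF θ i) :
    gC (TF {3} κ 1 x3) b 7 = gC (TF {3} κ 1 x3) b 5 ∧
    gC (TF {3} κ 1 x3) b 10 = gC (TF {3} κ 1 x3) b 8 ∧
    gC (TF {3} κ 1 x3) b 0 ≠ gC (TF {3} κ 1 x3) b 5 ∧
    gC (TF {3} κ 1 x3) b 0 ≠ gC (TF {3} κ 1 x3) b 8 ∧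
    gC (TF {3} κ 1 x3) b 5 ≠ gC (TF {3} κ 1 x3) b 8 := by
  obtain ⟨t0, t5, t7, t8, t10⟩ := TF1_val κ x3
  obtain ⟨r0, r8, r10⟩ := rho_val θ
  have b0 := hb 0 (by decide)
  have b8 := hb 8 (by decide)
  have b10 := hb 10 (by decide)
  have g5 : gC (TF {3} κ 1 x3) b 5 = 0 := gC_zero.2 t5
  have g7 : gC (TF {3} κ 1 x3) b 7 = 0 := gC_zero.2 t7
  have n0 : TF {3} κ 1 x3 0 ≠ 0 := by rw [t0]; norm_num
  have n8 : TF {3} κ 1 x3 8 ≠ 0 := by rw [t8]; norm_num
  have n10 : TF {3} κ 1 x3 10 ≠ 0 := by rw [t10]; norm_num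
  refine ⟨g7.trans g5.symm, ?_, ?_, ?_, ?_⟩
  · rw [gC_eq n10 n8, t10, t8, b10, b8, r10, r8, h01]
  · rw [g5]; exact fun h => n0 (gC_zero.1 h)
  · rw [Ne, gC_eq n0 n8, t0, t8, b0, b8, r0, r8, div_one, div_one]
    intro h
    apply h1
    linarith
  · rw [g5]; exact fun h => n8 (gC_zero.1 h.symm)

/-- the split on the plane of slope `1` -/
theorem splZ_gC {θ : Fin 3 → ℝ} (h01 : θ 0 = θ 1) (h1 : θ 1 ≠ 0) {κ : ℝ} {x3 b : Fin 11 → ℝ}
    (hb : ∀ i, i ∉ ({3} : Finset (Fin 11)) → b i = rhoF θ i) {lam' : (Fin 11 → ℝ) → ℝ}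
    {A0 : ℝ × ℝ} {φ : ℕ → (Fin 11 → ℝ) → ℝ} {rt : ℕ → ℝ}
    (O : OutS (gC (TF {3} κ 1 x3) b) (cn (mw monQ) (AF {3})) (dhC (TF {3} κ 1 x3) b)
      (nC (TF {3} κ 1 x3) b) lam' A0 φ rt) : SplZ lam' := by
  obtain ⟨g1, g2, g3, g4, g5⟩ := gC_Z2 h01 h1 (κ := κ) (x3 := x3) hb
  exact splZ_of O legZ_cn g1 g2 g3 g4 g5

end Crest.Agent.R136.Z2683
end

-- ▼ part R136/Z2t_683

/-!
# R136: rung `s = 1` of Z2: strip relation on fine classes at the record (helper683)

* **`z2_twin`** : twin + numbers of the interior tangent ⊢ record windows with a dense part on whose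
  fine classes `P - μ C_a` is constant at any precision `t` in units of the window
-/

set_option autoImplicit false
set_option linter.unusedSectionVars false
set_option linter.unusedVariables false

open Filter Topology

namespace Crest.Agent.R136.Z2683

open Finset Crest.Agent.R136.NetQ186 Crest.Agent.R136.Net191 Crest.Agent.R136.Qg926
open Crest.Agent.R136.Gf356 Crest.Agent.R136.Ev356
open Crest.Agent.R138.Ex926 (Base U U_le_atTop)
open Dg219 (OutS gset mw Walls gC dhC nC)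
open Crest.Agent.R136.LdF3511 (WI AF)
open K2S774 (cn JT)
open Tw683

variable {ι : ℕ → Type*} [∀ n, DecidableEq (ι n)]

/-- **strip relation on the fine classes of a twin record window** -/
theorem z2_twin (hKM : ∀ V : ℝ, Crest.Agent.R138.Tub70.KM32 V) {B : Base}
    {I J : ∀ n, Finset (ι n)} {co : ∀ n, ι n → ι n → Fin 11 → ℝ} {C R : ℝ}
    {ν own : (Fin 11 → ℝ) → ℝ} (hN : NProf B I J co monQ C R ν) {f : ∀ n, ι n → Fq4}
    (hco : ∀ n, ∀ i ∈ I n, ∀ j ∈ I n, co n i j = coQ (f n i) (f n j))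
    {r0 ρ : Fin 11 → ℝ} {Dl : (Fin 11 → ℝ) →ₗ[ℝ] ℝ} {Tie : Set (Fin 11)} {kz : Fin 11}
    {o : Fin 11 → ℝ} {Dr : Set (Fin 11)} {T : Fin 11 → ℝ} {z1 : ℝ} {x' x1 : ℕ → Fin 11 → ℝ}
    {h' : ℕ → ℝ} {lam' lo' lam1 lo1 : (Fin 11 → ℝ) → ℝ}
    (TW : Twin (mw monQ) (AF {3}) (Leg monQ R) ν own r0 ρ Dl Tie kz o Dr T z1 x' x1 h' lam' lo'
      lam1 lo1) (hz1 : z1 < 0) (T0 : ∀ i, 0 ≤ T i) (T5 : T 5 = 0) (T7 : T 7 = 0)
    (hsp : SplZ lam') {c : ℝ} (c0 : 0 < c) (c2 : c ≤ 2)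
    (nf : ∀ x : ℝ, 0 < x → lam' (bx x 0 0 0 0) - lam' (bx x 0 0 x x) ≤ (2 - c) * x)
    (ca : ∀ y : ℝ, 0 < y → lam' (bx 0 y 0 0 0) < 0)
    (fr : ∀ y : ℝ, 0 ≤ y → lam' (bx y 0 0 0 0) ≤ -y) {cf : Fin 11 → ℝ}
    (hcf : cf ∈ cn (mw monQ) (AF {3})) (cf5 : cf 5 = 0) (cf7 : cf 7 = 0)
    (cfT : ∀ i, T i = 0 → 0 ≤ cf i) {t : ℝ} (ht : 0 < t) (s : ℕ → ℕ → ℝ)
    (hs : ∀ i, B.Sub (s i)) (i₀ : ∀ n, ι n) :
    ∃ k : ℕ → ℕ, Tendsto k U atTop ∧ ∀ k' : ℕ → ℕ, Tendsto k' U atTop →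
      (∀ᶠ n in (U : Filter ℕ), k' n ≤ k n) → ∃ B' : Base,
        (∀ n, B'.d n = B.d n ^ h' (k' n)) ∧ (∀ n, B'.L n = h' (k' n) * B.L n) ∧
        (∀ i, B'.Sub (s i)) ∧
        ZWin B B' I J co monQ C (fun n => x1 (k' n)) (fun n => h' (k' n))
          (cn (mw monQ) (AF {3})) (fun n => B.d n ^ (-(ν (x1 (k' n))))) lam1 ∧
        ∃ (J2 : ∀ n, Finset (ι n)) (S2 : ℕ → ℝ), (∀ n, J2 n ⊆ J n) ∧ B'.Sub S2 ∧
          (∀ᶠ n in (U : Filter ℕ), (J2 n).Nonempty ∧
            ((J n).card : ℝ) ≤ S2 n * (J2 n).card ∧ 1 ≤ S2 n) ∧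
          ∀ ε : ℝ, 0 < ε → ∀ᶠ n in (U : Filter ℕ), ∀ i ∈ J2 n, ∃ μ : ℝ,
            |μ| ≤ B'.d n ^ (-ε) ∧ ∀ y ∈ J2 n,
              nlab B I co monQ C n (x1 (k' n) + h' (k' n) • cf) y =
                nlab B I co monQ C n (x1 (k' n) + h' (k' n) • cf) i →
              |co n i y 7 / B.d n ^ (x1 (k' n) + h' (k' n) • cf) 7 -
                μ * (co n i y 5 / B.d n ^ (x1 (k' n) + h' (k' n) • cf) 5)| ≤
                B'.d n ^ (t - ε) := by
  have h0 : (0 : Fin 11 → ℝ) ∈ cn (mw monQ) (AF {3}) := K2S774.cn_zero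
  have hpos := TW.jt'.pos
  obtain ⟨k, hk, key⟩ := exists_zwin_twin hN hpos h0 TW.jt'.tan TW.jt1.tan s hs
  refine ⟨k, hk, fun k' hk' hle => ?_⟩
  obtain ⟨B', b1, b2, b3, Z', Z1⟩ := key k' hk' hle
  refine ⟨B', b1, b2, b3, Z1, ?_⟩
  -- the strip relation at the interior points
  set x : ℝ := 2 * t / c + 1 with hx
  have hx0 : 0 < x := by positivity
  have htc : 2 * t < c * x := by
    have : c * x = 2 * t + c := by rw [hx]; field_simp
    linarith
  obtain ⟨n1, n2⟩ := z2_num hsp Z'.lam0 c2 hx0 (nf x hx0) ca fr ht htc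
  obtain ⟨J1, hJ1, hd, hrel⟩ := strip_rel hKM Z' hco (stZ_ok hx0.le (legZ_cn x))
    (fun s hs => Or.inl (by simpa [stZ] using hs)) rfl hx0 n1 (fun s hs => stZ_top s hs)
    (hk'.eventually (gapP_of TW.jt' x)) n2 i₀
  -- loss of the dense part
  obtain ⟨S1, hS1, hS1'⟩ := dense_sub hd Z'.ne
  -- the coarse label
  obtain ⟨H, H0, hH, he⟩ := TW.rel
  have hp : ∀ᶠ n in (U : Filter ℕ), Legal monQ (x' (k' n)) := by
    filter_upwards [Z'.legal 0] with n hn
    have := hn 0 h0 (by simp)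
    rwa [smul_zero, add_zero] at this
  have hq : ∀ᶠ n in (U : Filter ℕ), Legal monQ (x1 (k' n) + h' (k' n) • cf) := by
    filter_upwards [Z1.legal ‖cf‖] with n hn
    exact hn cf hcf le_rfl
  have hpq : ∀ᶠ n in (U : Filter ℕ), x' (k' n) ≤ x1 (k' n) + h' (k' n) • cf :=
    hk'.eventually (twin_le hz1 H0 hH he hpos T0 cfT)
  have hJ1I : ∀ᶠ n in (U : Filter ℕ), J1 n ⊆ I n := by
    filter_upwards [Z'.sub] with n hn using (hJ1 n).trans hn
  obtain ⟨J2, hJ2, hc2, hpop⟩ := exists_popular (B := B) Z'.chart hJ1I hp hq hpq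
  have hN0 : 0 < cN monQ C (cK0 monQ C) := cN_pos monQ (Z'.chart 0).C0 (cK0_one (Z'.chart 0).C0)
  refine ⟨J2, fun n => max 1 (cN monQ C (cK0 monQ C)) * S1 n, fun n => (hJ2 n).trans (hJ1 n),
    (Base.Sub.const (lt_of_lt_of_le one_pos (le_max_left _ _))).mul hS1, ?_, ?_⟩
  · filter_upwards [hS1', hc2, Z'.ne] with n a1 a2 a3
    have hS0 : 0 ≤ S1 n := by linarith [a1.2]
    have m1 : 1 ≤ max 1 (cN monQ C (cK0 monQ C)) := le_max_left _ _
    have h1 : ((J n).card : ℝ) ≤ max 1 (cN monQ C (cK0 monQ C)) * S1 n * (J2 n).card := by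
      calc ((J n).card : ℝ) ≤ S1 n * (J1 n).card := a1.1
        _ ≤ S1 n * (cN monQ C (cK0 monQ C) * (J2 n).card) := mul_le_mul_of_nonneg_left a2 hS0
        _ ≤ S1 n * (max 1 (cN monQ C (cK0 monQ C)) * (J2 n).card) := by
            refine mul_le_mul_of_nonneg_left ?_ hS0
            exact mul_le_mul_of_nonneg_right (le_max_right _ _) (Nat.cast_nonneg _)
        _ = _ := by ring
    refine ⟨?_, h1, ?_⟩
    · rw [← card_pos]
      by_contra hcon
      have e0 : (J2 n).card = 0 := by omega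
      rw [e0] at h1
      have : 0 < ((J n).card : ℝ) := by exact_mod_cast a3.card_pos
      simp at h1
      rw [h1] at a3
      exact absurd a3 (by simp)
    · nlinarith [a1.2]
  · intro ε hε
    filter_upwards [hrel ε hε, hpop] with n h1 h2 i hi
    have hi1 := hJ2 n hi
    have e0 : x' (k' n) + h' (k' n) • (0 : Fin 11 → ℝ) = x' (k' n) := by
      rw [smul_zero, add_zero]
    have hself : i ∈ Crest.Agent.R138.Ex926.cls (J1 n)
        (zlab B I co monQ C (fun n => x' (k' n)) (fun n => h' (k' n)) n 0) i :=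
      Crest.Agent.R138.Ex926.mem_cls.2 ⟨hi1, rfl⟩
    obtain ⟨μ, hμ, hr⟩ := h1 i hi1 i hself
    refine ⟨μ, hμ, fun y hy hyi => ?_⟩
    have hlab := h2 y hy i hi hyi
    have hlab' : zlab B I co monQ C (fun n => x' (k' n)) (fun n => h' (k' n)) n 0 y =
        zlab B I co monQ C (fun n => x' (k' n)) (fun n => h' (k' n)) n 0 i := by
      show nlab B I co monQ C n (x' (k' n) + h' (k' n) • (0 : Fin 11 → ℝ)) y =
        nlab B I co monQ C n (x' (k' n) + h' (k' n) • (0 : Fin 11 → ℝ)) i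
      rw [e0]; exact hlab
    have h3 := hr y (Crest.Agent.R138.Ex926.mem_cls.2 ⟨hJ2 n hy, hlab'⟩) hlab'
    have e7 : (x1 (k' n) + h' (k' n) • cf) 7 = x' (k' n) 7 := by
      rw [he]
      simp only [Pi.add_apply, Pi.smul_apply, smul_eq_mul, cf7, T7]; ring
    have e5 : (x1 (k' n) + h' (k' n) • cf) 5 = x' (k' n) 5 := by
      rw [he]
      simp only [Pi.add_apply, Pi.smul_apply, smul_eq_mul, cf5, T5]; ring
    rw [e7, e5]
    exact h3

end Crest.Agent.R136.Z2683
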