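import Crest.Agent.R136.NmE1_107_Mg
import Crest.Agent.R136.Z2t_683_Mg
import Crest.Agent.R136.LdF7_511
import Crest.Agent.R136.Aw1_413
import Crest.Agent.R136.LdF5_683

-- ▼ part R136/WinE9_344
section

/-! R136, case E: `Re436.WinE η` for `η ≤ 1/8`, with no hypotheses left. -/

namespace Crest.Agent.R136.WinC344

theorem winE {η : ℝ} (hη : η ≤ 1/8) : Re436.WinE η :=
  winE_of hη StripE501.rigE' WinE323.rigInc (NmE107.numsE hη)

end Crest.Agent.R136.WinC344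
end

-- ▼ part R136/Z2f_403
section

/-!
# R136, case Z2: from the record stage to the contradiction (helper403)

`x l → r0` = base points of the stage (`JT` with `RecX`), `w l = hh l`, `X l = x l + hh l • cX κ`.

* `z2_par` : `κ = θ 1 - θ 2 > 0`, `θ 0 ≠ θ 2`, `q 2 κ < g`
* **`FinH`**, **`fin_hyp`** : position of `X l` (input of END-LAB)
* **`z2_false`** : END-LAB at `X (k' n)` is contradictory
-/

set_option autoImplicit false
set_option linter.unusedVariables false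

open Finset Filter Topology

namespace Crest.Agent.R136.Z2e403

open Crest.Agent.R138.Ex926 (Base U)
open Crest.Agent.R136.Net191
open Crest.Agent.R136.NetQ186
open Crest.Agent.R136.Wq638
open Crest.Agent.R136.NatT550
open Crest.Agent.R136.NatR550 (nL DN rec_eq)
open Crest.Agent.R136.Top484
open Crest.Agent.R136.LdF511
open Crest.Agent.R136.LdF3511
open Dg219 (mw)
open K2S774 (cn Prf Stage JT RecX)

variable {η : ℝ} {p : Par4} {D : Dat4} {I1 : ℕ → Finset (ℕ × ℝ)} {π : Equiv.Perm (Fin 3)}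
  {eE fA fB : ℕ → ℕ × ℝ → ℝ} {V T : Fin 11 → Prop} {w0 R T0 : ℝ} {PD : Set (Fin 11 → ℝ)}
  {ν own : (Fin 11 → ℝ) → ℝ} {c₀ : ℝ}

/-- **parameters of Z2** -/
theorem z2_par (h : Thick η p D I1 π eE fA fB V T w0 R T0 PD ν own c₀) (hp : V 2 ∧ ¬ V 3 ∧ ¬ V 4 ∧ p.θ 0 = p.θ 1)
    (hη : η ≤ 1 / 8) : 0 < p.θ 1 - p.θ 2 ∧ p.θ 0 ≠ p.θ 2 ∧
      0 < p.g - p.q 2 * (p.θ 1 - p.θ 2) := by
  obtain ⟨v2, v3, v4, h01⟩ := hp
  have hκ : 0 < p.θ 1 - p.θ 2 := by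
    have := (h.tp.slots.vis 2 v2).2
    simpa [btQ] using this
  have g0 := h.tp.ok.g0.1
  refine ⟨hκ, fun h02 => by rw [h01] at h02; linarith, ?_⟩
  have c1 := LdF7511.slack_q2 h.tp.ok
  have c3 : η * p.g ≤ 1 / 8 * p.g := mul_le_mul_of_nonneg_right hη g0.le
  linarith

/-- **position of the class `X` of the final step**, `w` = scale, `σ` = shift of the record -/
structure FinH (θ : Fin 3 → ℝ) (w0 R v : ℝ) (V : Fin 11 → Prop) (x : Fin 11 → ℝ) (σ w : ℝ) :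
    Prop where
  nat : ∀ i, i ≠ 3 → (x + w • cX (θ 1 - θ 2)) i = nat4 w0 (R - 1) (v + σ - w) (-(θ 1 * (v + σ)))
      (-(θ 2 * (v + σ)) - (θ 1 - θ 2) * w) (-(θ 0 * (v + σ))) i
  nat3 : nat4 w0 (R - 1) (v + σ - w) (-(θ 1 * (v + σ)))
      (-(θ 2 * (v + σ)) - (θ 1 - θ 2) * w) (-(θ 0 * (v + σ))) 3 ≤
      (x + w • cX (θ 1 - θ 2)) 3
  leg : x + w • cX (θ 1 - θ 2) ∈ Leg monQ R
  v0 : 0 ≤ v + σ - w
  v1 : v + σ - w ≤ (1 + v) / 2
  γ : θ 1 * ((1 - v) / 2) ≤ -(θ 1 * (v + σ)) + θ 1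
  h12 : min 0 (θ 1 - θ 2) ≤ -(θ 2 * (v + σ)) - (θ 1 - θ 2) * w - -(θ 1 * (v + σ))
  h20 : min 0 (θ 2 - θ 0) ≤ -(θ 0 * (v + σ)) + w * 1 -
      (-(θ 2 * (v + σ)) - (θ 1 - θ 2) * w + w * (1 + (θ 1 - θ 2)))
  h0 : v + σ - w + -(θ 0 * (v + σ)) + w * 1 ≤ max 0 (1 - θ 0)
  tR : v + σ - w + -(θ 0 * (v + σ)) + (1 - v) / 2 ≤ 1
  own : x + w • cX (θ 1 - θ 2) ≤ ownQ θ w0 R V (v + σ - w)
  own' : x + w • cX (θ 1 - θ 2) + w • pdZ (θ 1 - θ 2) ≤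
      ownQ θ w0 R V (v + σ - w + w * (1 + (θ 1 - θ 2)))

/-- **the position of `X l`** -/
theorem fin_hyp (h : Thick η p D I1 π eE fA fB V T w0 R T0 PD ν own c₀) (hp : V 2 ∧ ¬ V 3 ∧ ¬ V 4 ∧ p.θ 0 = p.θ 1)
    {v : ℝ} (h0 : 0 < v) (h1 : v < 1) (hκ : 0 < p.θ 1 - p.θ 2) {x : ℕ → Fin 11 → ℝ} {hh : ℕ → ℝ}
    {lam lo : (Fin 11 → ℝ) → ℝ}
    (J : JT (mw monQ) (AF {3}) (Leg monQ R) ν own (recF p.θ w0 (R - 1) v) x hh lam lo)
    {σ : ℕ → ℝ} (hx : ∀ l i, i ≠ 3 → x l i = recF p.θ w0 (R - 1) v i + σ l * rhoF p.θ i) :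
    ∀ᶠ l in atTop, FinH p.θ w0 R v V (x l) (σ l) (hh l) := by
  obtain ⟨v2, v3, v4, h01⟩ := hp
  have hθ := h.tp.ok.θ1
  -- `σ → 0`
  have hσ : Tendsto σ atTop (𝓝 0) := by
    have e1 : (fun l => x l 0 - recF p.θ w0 (R - 1) v 0) = σ := by
      funext l
      rw [hx l 0 (by decide)]
      simp [rhoF, nL]
    rw [← e1]
    have h2 : Tendsto (fun l => x l 0) atTop (𝓝 (recF p.θ w0 (R - 1) v 0)) :=
      (tendsto_pi_nhds.1 J.base) 0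
    have := h2.sub_const (recF p.θ w0 (R - 1) v 0)
    rwa [sub_self] at this
  set e : ℝ := min v (1 - v) / 4 with he
  have he0 : 0 < e := by
    have : 0 < min v (1 - v) := lt_min h0 (by linarith)
    positivity
  have hev : e ≤ v / 4 := by
    have := min_le_left v (1 - v); rw [he]; linarith
  have he1 : e ≤ (1 - v) / 4 := by
    have := min_le_right v (1 - v); rw [he]; linarith
  have s1 : ∀ᶠ l in atTop, |σ l| < e := by
    have := hσ.abs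
    rw [abs_zero] at this
    exact this.eventually_lt_const he0
  have s2 : ∀ᶠ l in atTop, hh l < e := J.zero.eventually_lt_const he0
  -- the raised slot
  have hg := J.gap ⟨4, ![0, 0, 1, 1, 0, 0, 0, 0, 0, 0, 0], by simp [monQ, mfQ]⟩ (fun hA => by
    have := hA.2.2 3 (by decide)
    exact absurd this (by decide)) (p.θ 1 - p.θ 2)
  have t1 := J.tan ‖cX (p.θ 1 - p.θ 2)‖ 1 one_pos
  have t2 := J.tan ‖cX (p.θ 1 - p.θ 2) + pdZ (p.θ 1 - p.θ 2)‖ 1 one_pos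
  filter_upwards [s1, s2, hg, t1, t2] with l a1 a2 a3 a4 a5
  have b1 := a4 _ (cX_mem hκ.le) le_rfl
  have b2 := a5 _ (pd_mem hκ.le) le_rfl
  have hw := J.pos l
  have c1 := abs_lt.1 a1
  have u0 : 0 < v + σ l := by linarith
  have u1 : v + σ l < 1 := by linarith
  have eX : x l + hh l • cX (p.θ 1 - p.θ 2) + hh l • pdZ (p.θ 1 - p.θ 2) =
      x l + hh l • (cX (p.θ 1 - p.θ 2) + pdZ (p.θ 1 - p.θ 2)) := by
    rw [smul_add, add_assoc]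
  have hnat : ∀ i, i ≠ 3 → (x l + hh l • cX (p.θ 1 - p.θ 2)) i =
      nat4 w0 (R - 1) (v + σ l - hh l) (-(p.θ 1 * (v + σ l)))
      (-(p.θ 2 * (v + σ l)) - (p.θ 1 - p.θ 2) * hh l) (-(p.θ 0 * (v + σ l))) i := fun i hi =>
    X_nat p.θ w0 (R - 1) v (σ l) (hh l) (hx l) hi
  have own_k : ∀ k : Fin 11, k ≠ 0 → V k → k = 2 := fun k _ hk => own_path h.tp.slots v3 v4 hk
  refine ⟨hnat, ?_, b1.1, by linarith, by linarith, ?_, ?_, ?_, ?_, ?_, fun k => ?_,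
    fun k => ?_⟩
  · -- slot 3
    rw [nat_3]
    have e3 : (x l + hh l • cX (p.θ 1 - p.θ 2)) 3 = x l 3 := by
      simp [cX]
    rw [e3]
    have x4 := hx l 4 (by decide)
    have x2 := hx l 2 (by decide)
    have e4 : (mw monQ).rhs ⟨4, ![0, 0, 1, 1, 0, 0, 0, 0, 0, 0, 0], by simp [monQ, mfQ]⟩ (x l) =
        x l 2 + x l 3 := by
      show ∑ s, ((![0, 0, 1, 1, 0, 0, 0, 0, 0, 0, 0] : Fin 11 → ℕ) s : ℝ) * x l s = _
      simp [Fin.sum_univ_succ]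
    rw [e4] at a3
    change x l 4 + (p.θ 1 - p.θ 2) * hh l ≤ x l 2 + x l 3 + 0 at a3
    rw [x4, x2] at a3
    simp only [recF, nat4, rhoF, nL, Matrix.cons_val] at a3 ⊢
    linarith
  · nlinarith
  · rw [min_eq_left hκ.le]
    nlinarith
  · rw [h01, min_eq_right (by linarith)]
    nlinarith
  · rw [h01]
    rcases le_total (1 - p.θ 1) 0 with hc | hc
    · rw [max_eq_left hc]; nlinarith
    · rw [max_eq_right hc]; nlinarith
  · rw [h01]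
    have := mul_pos hθ u0
    linarith
  · unfold ownQ
    by_cases hk0 : k = 0
    · subst hk0
      rw [if_pos rfl, hnat 0 (by decide)]
      simp only [nat4, Matrix.cons_val]
      exact le_rfl
    · rw [if_neg hk0]
      split_ifs with hk
      · have := own_k k hk0 hk
        subst this
        rw [hnat 2 (by decide)]
        simp only [nat4, pathQ, Matrix.cons_val]
        linarith
      · exact b1.1.2 k
  · unfold ownQ
    by_cases hk0 : k = 0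
    · subst hk0
      rw [if_pos rfl, Pi.add_apply, hnat 0 (by decide)]
      simp only [nat4, pdZ, Pi.smul_apply, smul_eq_mul, Matrix.cons_val]
      linarith
    · rw [if_neg hk0]
      split_ifs with hk
      · have := own_k k hk0 hk
        subst this
        rw [Pi.add_apply, hnat 2 (by decide)]
        simp only [nat4, pathQ, pdZ, Pi.smul_apply, smul_eq_mul, Matrix.cons_val]
        nlinarith [mul_nonneg hκ.le (mul_nonneg hw.le hκ.le)]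
      · rw [eX]; exact b2.1.2 k

/-- **END-LAB at the classes `X (k' n)` is contradictory** -/
theorem z2_false (h : Thick η p D I1 π eE fA fB V T w0 R T0 PD ν own c₀)
    {v : ℝ} (h0 : 0 < v) (h1 : v < 1) (hκ : 0 < p.θ 1 - p.θ 2)
    (hg : 0 < p.g - p.q 2 * (p.θ 1 - p.θ 2)) {x : ℕ → Fin 11 → ℝ} {hh : ℕ → ℝ}
    {lam lo : (Fin 11 → ℝ) → ℝ} {K : ℝ}
    (J : JT (mw monQ) (AF {3}) (Leg monQ R) ν own (recF p.θ w0 (R - 1) v) x hh lam lo)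
    (Pf : Prf (cn (mw monQ) (AF {3})) lam lo K) (l0 : lam 0 = 0)
    {σ : ℕ → ℝ} (hσ : Tendsto (fun l => (ν (x l) - ν (recF p.θ w0 (R - 1) v) -
      σ l * DlFL p (rhoF p.θ)) / hh l) atTop (𝓝 0))
    {k' : ℕ → ℕ} (hk : Tendsto k' U atTop)
    (Lab : ∀ ε : ℝ, 0 < ε → ∀ᶠ n in (U : Filter ℕ),
      ν (x (k' n) + hh (k' n) • cX (p.θ 1 - p.θ 2)) + hh (k' n) *
        ((lam (cX (p.θ 1 - p.θ 2) + pdZ (p.θ 1 - p.θ 2)) - lam (cX (p.θ 1 - p.θ 2))) +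
          3 * (1 + (p.θ 1 - p.θ 2)) + 1 - ε) ≤
        c₀ + DN p (v + σ (k' n) - hh (k' n)) (-(p.θ 1 * (v + σ (k' n))))
        (-(p.θ 2 * (v + σ (k' n))) - (p.θ 1 - p.θ 2) * hh (k' n)) (-(p.θ 0 * (v + σ (k' n))))) :
    False := by
  obtain ⟨r1, r2, r3⟩ := R1_room h.tp.big
  set ε : ℝ := (p.g - p.q 2 * (p.θ 1 - p.θ 2)) / 4 with hε
  have hε0 : 0 < ε := by positivity
  have t1 := hk.eventually (J.tan ‖cX (p.θ 1 - p.θ 2)‖ ε hε0)
  have t2 := hk.eventually (hσ.eventually (lt_mem_nhds (show -ε < 0 by linarith)))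
  obtain ⟨n, a1, a2, a3⟩ := ((Lab ε hε0).and (t1.and t2)).exists
  have hw := J.pos (k' n)
  have b1 := (a2 _ (cX_mem hκ.le) le_rfl).2
  have hr0 : ν (recF p.θ w0 (R - 1) v) = c₀ + DN p v (-(p.θ 1 * v)) (-(p.θ 2 * v))
      (-(p.θ 0 * v)) := rec_eq h r2.le r1.le h0.le h1
  rw [lt_div_iff₀ hw] at a3
  have hD : DlFL p (rhoF p.θ) = DlF p (rhoF p.θ) := rfl
  rw [hr0, hD] at a3
  have := z2_arith (p := p) (v := v) (c₀ := c₀) (σ := σ (k' n)) (w := hh (k' n)) (ε := ε)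
    (νr := ν (x (k' n))) hw (by
      have := (abs_le.1 b1).1
      nlinarith) (by linarith) (lam_pd Pf l0 hκ.le) a1
  linarith

end Crest.Agent.R136.Z2e403
end

-- ▼ part R136/Z2g_403
section

/-!
# R136, case Z2: assembly (helper403)

* `F1Z`   : F-lemma of the rung `F_b` (860)
* `BaseZ` : rates of `z` and `X_b` on the plane `s = 1` (511)
* `LabZ`  : END-LAB in a window at the classes `X n` (926)
* **`z2_of`** : `F1Z`, `BaseZ`, `LabZ` are contradictory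
-/

set_option autoImplicit false
set_option linter.unusedVariables false

open Finset Filter Topology

namespace Crest.Agent.R136.Z2e403

open Crest.Agent.R138.Ex926 (Base U)
open Crest.Agent.R136.Net191
open Crest.Agent.R136.NetQ186
open Crest.Agent.R136.Qg926
open Crest.Agent.R136.Gf356
open Crest.Agent.R136.Wq638
open Crest.Agent.R136.GeoQ186 (scl)
open Crest.Agent.R136.NatT550
open Crest.Agent.R136.NatR550 (nL DN rec_eq)
open Crest.Agent.R136.Top484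
open Crest.Agent.R136.LdF511
open Crest.Agent.R136.LdF3511
open Dg219 (mw OutS gC dhC nC)
open Rc146 (OutA)
open Dg262 (X)
open K2S774 (cn Prf Stage JT RecX BaseOk ind1 A2)
open Tw683 (Twin)
open Z2683 (SplZ bx z2_twin splZ_gC)

variable {η : ℝ} {p : Par4} {D : Dat4} {I1 : ℕ → Finset (ℕ × ℝ)} {π : Equiv.Perm (Fin 3)}
  {eE fA fB : ℕ → ℕ × ℝ → ℝ} {V T : Fin 11 → Prop} {w0 R T0 : ℝ} {PD : Set (Fin 11 → ℝ)}
  {ν own : (Fin 11 → ℝ) → ℝ} {c₀ : ℝ}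


/-- rates of `z` and `X_b` on the plane `s = 1` -/
def BaseZ (p : Par4) (ν own : (Fin 11 → ℝ) → ℝ) (w0 R v : ℝ) (x b : Fin 11 → ℝ) : Prop :=
  ∀ lam lo, StF p ν own w0 R v {3} lam lo → ∀ z : ℝ × ℝ, z.1 < 0 →
    ∀ (k : ℕ → ℝ) (lam' lo' : (Fin 11 → ℝ) → ℝ), (∀ l, 0 < k l) → Tendsto k atTop (𝓝 0) →
    Crest.Agent.R138.Ex926.IsTan (cn (mw monQ) (AF {3})) (cn (mw monQ) (AF {3})) lam
      (fun _ => X 0 (TF {3} (p.θ 1 - p.θ 2) 1 x) b z) k lam' →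
    Crest.Agent.R138.Ex926.IsTan (cn (mw monQ) (AF {3})) (cn (mw monQ) (AF {3})) lo
      (fun _ => X 0 (TF {3} (p.θ 1 - p.θ 2) 1 x) b z) k lo' →
    ∀ (x' : ℕ → Fin 11 → ℝ) (h' : ℕ → ℝ),
      JT (mw monQ) (AF {3}) (Leg monQ R) ν own (recF p.θ w0 (R - 1) v) x' h' lam' lo' →
      BaseOk {2} 0 (oF p.θ) (TF {3} (p.θ 1 - p.θ 2) 1 x) (recF p.θ w0 (R - 1) v) x' h' →
    ∀ (AA : ℝ × ℝ) (φ : ℕ → (Fin 11 → ℝ) → ℝ) (rt : ℕ → ℝ),
      OutA (gC (TF {3} (p.θ 1 - p.θ 2) 1 x) b) (cn (mw monQ) (AF {3}))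
        (TF {3} (p.θ 1 - p.θ 2) 1 x) b (dhC (TF {3} (p.θ 1 - p.θ 2) 1 x) b)
        (nC (TF {3} (p.θ 1 - p.θ 2) 1 x) b) lam' AA φ rt →
    1 ≤ rt (gC (TF {3} (p.θ 1 - p.θ 2) 1 x) b 0) ∧
      1 + (p.θ 1 - p.θ 2) ≤ rt (gC (TF {3} (p.θ 1 - p.θ 2) 1 x) b 9)

/-- END-LAB in a window at the classes `X n = x n + w n • cX κ` -/
def LabZ (p : Par4) (D : Dat4) (I1 : ℕ → Finset (ℕ × ℝ))
    (co : ∀ n : ℕ, ℕ × ℝ → ℕ × ℝ → Fin 11 → ℝ) (V : Fin 11 → Prop) (w0 R : ℝ)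
    (ν : (Fin 11 → ℝ) → ℝ) (c₀ v : ℝ) : Prop :=
  ∃ S : ℕ → ℝ, D.B.Sub S ∧ ∀ (B' : Base) (J : ℕ → Finset (ℕ × ℝ)) (x : ℕ → Fin 11 → ℝ)
    (σ w : ℕ → ℝ) (DD : Set (Fin 11 → ℝ)) (TT : ℕ → ℝ) (lamX : (Fin 11 → ℝ) → ℝ), B'.Sub S →
    ZWin D.B B' D.I J co monQ 2 (fun n => x n + w n • cX (p.θ 1 - p.θ 2)) w DD TT lamX →
    (∀ n, J n ⊆ I1 n) → (∃ SJ : ℕ → ℝ, B'.Sub SJ ∧
      ∀ᶠ n in (U : Filter ℕ), ((I1 n).card : ℝ) ≤ SJ n * (J n).card) →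
    Tendsto w U (𝓝 0) → (∀ᶠ n in (U : Filter ℕ), FinH p.θ w0 R v V (x n) (σ n) (w n)) →
    pdZ (p.θ 1 - p.θ 2) ∈ DD →
    (∀ ε : ℝ, 0 < ε → ∀ᶠ n in (U : Filter ℕ), ∀ i ∈ J n, ∃ μ : ℝ, |μ| ≤ B'.d n ^ (-ε) ∧
      ∀ y ∈ J n, zlab D.B D.I co monQ 2 (fun n => x n + w n • cX (p.θ 1 - p.θ 2)) w n 0 y =
        zlab D.B D.I co monQ 2 (fun n => x n + w n • cX (p.θ 1 - p.θ 2)) w n 0 i →
        |co n i y 7 / D.B.d n ^ (x n + w n • cX (p.θ 1 - p.θ 2)) 7 -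
          μ * (co n i y 5 / D.B.d n ^ (x n + w n • cX (p.θ 1 - p.θ 2)) 5)| ≤
          B'.d n ^ (1 - ε)) →
    ∀ ε : ℝ, 0 < ε → ∀ᶠ n in (U : Filter ℕ),
      ν (x n + w n • cX (p.θ 1 - p.θ 2)) + w n *
        (lamX (pdZ (p.θ 1 - p.θ 2)) + 3 * (1 + (p.θ 1 - p.θ 2)) + 1 - ε) ≤
        c₀ + DN p (v + σ n - w n) (-(p.θ 1 * (v + σ n)))
        (-(p.θ 2 * (v + σ n)) - (p.θ 1 - p.θ 2) * w n) (-(p.θ 0 * (v + σ n)))

/-- **assembly of Z2**, from the stage after the rung `F_b` -/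
theorem z2_core (hKM : ∀ V : ℝ, Crest.Agent.R138.Tub70.KM32 V)
    (h : Thick η p D I1 π eE fA fB V T w0 R T0 PD ν own c₀)
    (hp : V 2 ∧ ¬ V 3 ∧ ¬ V 4 ∧ p.θ 0 = p.θ 1) (hη : η ≤ 1 / 8) {v : ℝ} (h0 : 0 < v)
    (h1 : v < 1) {lam2 lo2 : (Fin 11 → ℝ) → ℝ} (H2' : StF p ν own w0 R v {3} lam2 lo2)
    (base : BaseZ p ν own w0 R v (fun _ => 1) (rhoF p.θ))
    (lab : LabZ p D I1 (couQ D.B D.lev D.w w0 (incQ π D.L eE fA fB)) V w0 R ν c₀ v) : False := by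
  obtain ⟨hκ, h02, hg⟩ := z2_par h hp hη
  obtain ⟨v2, v3, v4, h01⟩ := hp
  have hθ := h.tp.ok.θ1
  have hq1 := h.tp.ok.g0.2
  have hR0 : 0 ≤ R := by
    obtain ⟨r1, r2, r3⟩ := R1_room h.tp.big
    linarith
  set κ : ℝ := p.θ 1 - p.θ 2 with hκd
  -- the twin points
  set x3 : Fin 11 → ℝ := fun _ => 1 with hx3
  have hb : ∀ i, i ∉ ({3} : Finset (Fin 11)) → rhoF p.θ i = rhoF p.θ i := fun _ _ => rfl
  have hg2 : 0 < (p.g - p.q 2 * κ) / 2 := by linarith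
  obtain ⟨z, hz, E, hE, hsl, k, lam', lo', lam1, lo1, kpos, k0, t1, t2, t3, t4, ⟨φ, rt, hO⟩, hPf,
    S1, x', x1, h', TW⟩ := Tw683.alive H2' (recD_F p.θ {3})
    (rungD_ii hκ (x := x3) one_pos hb) hg2
  obtain ⟨rz, rb⟩ := base lam2 lo2 H2' z hz k lam' lo' kpos k0 t1 t2 x' h' TW.jt' TW.base _ φ rt hO
  -- numbers
  set c : ℝ := min 2 ((p.g - p.q 2 * κ) / 2) with hc
  have c2 : c ≤ 2 := min_le_left _ _
  have c0 : 0 < c := lt_min two_pos hg2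
  have hA : -(E (1, 0)) ≤ 4 + κ - c := by
    have h3 : c ≤ (p.g - p.q 2 * κ) / 2 := min_le_right _ _
    have h4 : DlFL p (TpF κ 1) = p.g - 1 - 1 - (1 + κ) - 1 - p.q 0 * (1 - 1) - p.q 2 * κ :=
      DlF_ray p κ 1
    rw [h4] at hsl
    linarith
  have hL : W7 ⊆ cn (mw monQ) (AF {3}) := fun c hc => Z2n403.mem_W7 hc
  have P : Z2n403.PlZ p.θ κ x3 (rhoF p.θ) := ⟨rfl, hκ, hθ, h01, one_pos, fun _ _ => rfl⟩
  have hTv := Z2n403.T_val κ x3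
  obtain ⟨S, hS, hlab⟩ := lab
  obtain ⟨kk, hkk, hk2⟩ := z2_twin hKM (Aw413.nprof_of_ext h.ext hR0)
    (f := fun n i => scl (uH D.B D.lev w0 n) (uA D.B D.lev D.w w0 n) (uB D.B D.lev D.w w0 n)
      (uY D.B D.lev D.w w0 n) (incQ π D.L eE fA fB n i)) (fun n i _ j _ => rfl) TW hz
    (Z2n403.T_nonneg P) (by rw [hTv]; simp) (by rw [hTv]; simp)
    (splZ_gC h01 hθ.ne' hb hO.toOutS) c0 c2
    (fun y hy => Z2n403.z2_nf P hO.toOutS hL rz rb hA hy)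
    (fun y hy => Z2n403.z2_ca H2' hκ one_pos hb hz kpos k0 t1 hq1 hy)
    (fun y hy => Z2n403.z2_fr H2' hb hz kpos k0 t1 t2 hy)
    (cf := cX κ) (cX_mem hκ.le) (by simp [cX]) (by simp [cX]) (fun i => by
      rw [hTv]
      fin_cases i <;> simp [cX] <;> intro h5 <;> linarith) one_pos (fun _ => S) (fun _ => hS)
    (fun _ => ((0 : ℕ), (0 : ℝ)))
  obtain ⟨B', b1, b2, b3, hW, J2, S2, hJ2, hS2, hd2, hrel⟩ := hk2 kk hkk
    (Eventually.of_forall fun _ => le_rfl)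
  obtain ⟨σ, hσ, hσ0⟩ := TW.recx
  have hσ' : ∀ l i, i ≠ 3 → x1 l i = recF p.θ w0 (R - 1) v i + σ l * rhoF p.θ i :=
    fun l i hi => hσ l i (by simpa using hi)
  have hfin := hkk.eventually (fin_hyp h ⟨v2, v3, v4, h01⟩ h0 h1 hκ TW.jt1 hσ')
  have l0 : lam1 0 = 0 := by
    have := S1.rcd 0
    rwa [zero_smul, zero_mul] at this
  -- the window at the classes of the final step
  have hWr := hW.refine (J' := J2) (Eventually.of_forall hJ2) (hd2.mono fun n h => h.1) hS2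
    (hd2.mono fun n h => h.2.1)
  have hWs := hWr.shift (cX_mem hκ.le)
  refine z2_false h h0 h1 hκ hg TW.jt1 S1.prf l0 hσ0 hkk fun ε hε => ?_
  refine hlab B' J2 (fun n => x1 (kk n)) (fun n => σ (kk n)) (fun n => h' (kk n)) _ _ _ (b3 0)
    hWs hJ2 ⟨S2, hS2, hd2.mono fun n h => h.2.1⟩ (TW.jt1.zero.comp hkk) hfin ?_ ?_ ε hε
  · exact pd_mem hκ.le
  · intro ε' hε'
    filter_upwards [hrel ε' hε'] with n hn i hi
    obtain ⟨μ, hμ, hμ2⟩ := hn i hi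
    refine ⟨μ, hμ, fun y hy hl => hμ2 y hy ?_⟩
    simpa [zlab] using hl


end Crest.Agent.R136.Z2e403
end

-- ▼ part R136/Z2h_403
section

/-!
# R136, case Z2: `BaseZ` from the base row (helper403)
-/

set_option autoImplicit false
set_option linter.unusedVariables false

open Finset Filter Topology

namespace Crest.Agent.R136.Z2e403

open Crest.Agent.R138.Ex926 (Base U)
open Crest.Agent.R136.Net191
open Crest.Agent.R136.NetQ186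
open Crest.Agent.R136.NatT550
open Crest.Agent.R136.Top484
open Crest.Agent.R136.LdF3511

/-- **the rates of `z` and `X_b` on the plane `s = 1`** -/
theorem baseZ {η : ℝ} {p : Par4} {D : Dat4} {I1 : ℕ → Finset (ℕ × ℝ)} {π : Equiv.Perm (Fin 3)}
    {eE fA fB : ℕ → ℕ × ℝ → ℝ} {V T : Fin 11 → Prop} {w0 R T0 : ℝ} {PD : Set (Fin 11 → ℝ)}
    {ν own : (Fin 11 → ℝ) → ℝ} {c₀ : ℝ}
    (h : Thick η p D I1 π eE fA fB V T w0 R T0 PD ν own c₀)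
    (hp : V 2 ∧ ¬ V 3 ∧ ¬ V 4 ∧ p.θ 0 = p.θ 1) (hη : η ≤ 1 / 8) {v : ℝ} (h0 : 0 < v)
    (h1 : v < 1) : BaseZ p ν own w0 R v (fun _ => 1) (rhoF p.θ) := by
  intro lam lo H z hz k lam' lo' kpos k0 H1 H2 x' h' hJT hB AA φ rt hO
  obtain ⟨hκ, -, -⟩ := z2_par h hp hη
  obtain ⟨v2, v3, v4, -⟩ := hp
  obtain ⟨g0, -, g9⟩ := LdF7511.base_F h h0 h1 hκ v2 v3 v4 (by decide)
    (TF_ii hκ (x := fun _ => 1) one_pos).1 (fun _ _ => rfl) H hz kpos k0 H1 H2 hJT hB hO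
  exact ⟨g0, g9⟩

end Crest.Agent.R136.Z2e403
end

-- ▼ part R136/Z2i_403

/-!
# R136, case Z2: only END-LAB is left (helper403)
-/

set_option autoImplicit false
set_option linter.unusedVariables false

open Finset Filter Topology

namespace Crest.Agent.R136.Z2e403

open Crest.Agent.R138.Ex926 (Base U)
open Crest.Agent.R136.Net191
open Crest.Agent.R136.NetQ186
open Crest.Agent.R136.Wq638
open Crest.Agent.R136.NatT550
open Crest.Agent.R136.Top484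
open Crest.Agent.R136.LdF3511

/-- **Z2 from END-LAB** -/
theorem z2_lab (hKM : ∀ V : ℝ, Crest.Agent.R138.Tub70.KM32 V)
    {η : ℝ} {p : Par4} {D : Dat4} {I1 : ℕ → Finset (ℕ × ℝ)} {π : Equiv.Perm (Fin 3)}
    {eE fA fB : ℕ → ℕ × ℝ → ℝ} {V T : Fin 11 → Prop} {w0 R T0 : ℝ} {PD : Set (Fin 11 → ℝ)}
    {ν own : (Fin 11 → ℝ) → ℝ} {c₀ : ℝ}
    (h : Thick η p D I1 π eE fA fB V T w0 R T0 PD ν own c₀)
    (hp : V 2 ∧ ¬ V 3 ∧ ¬ V 4 ∧ p.θ 0 = p.θ 1) (hη : η ≤ 1 / 8) {v : ℝ} (h0 : 0 < v)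
    (h1 : v < 1)
    (lab : LabZ p D I1 (couQ D.B D.lev D.w w0 (incQ π D.L eE fA fB)) V w0 R ν c₀ v) : False := by
  obtain ⟨hκ, h02, -⟩ := z2_par h hp hη
  obtain ⟨lam2, lo2, H2⟩ := LdF5683.stage2_F h hη h0 h1 hκ h02 hp.1 hp.2.1 hp.2.2.1
  exact z2_core hKM h hp hη h0 h1 H2 (baseZ h hp hη h0 h1) lab

end Crest.Agent.R136.Z2e403
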