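import Crest.Agent.R136.NatR_550
import Crest.Agent.R136.K2S_774
import Crest.Agent.R136.GD5_186
import Crest.Agent.R138.Qf7_926

-- ▼ part R136/Tb1_628
section

/-!
# R136, scalar part of the thick table (helper628), part 1: surfaces and sweeps

Conventions of `NatT_550` v2 (level-`0` units; index `0` = thickness, `1` = wide, `2` = narrow).

`srf θ w0 R1 κ κ3 (v, t)` : natural boxes to the left of the record path.  `κ` = left slope of the
narrow width (`θ 1 - θ 2` if `21` is tied, `0` otherwise), `κ3` = left slope of the thickness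
(`1 + κ3` = left slope of `N`).

* `srf_eq` : `srf = Dg262.X (s0 ..) (sA ..) (sB ..)`; `sA` = slopes in `v`, all `≥ 0` if `0 ≤ κ ≤ κ3`
* `Cx` : the facts on `ν` which are used; `PDc` : boxes which are one sheet
* `srf_leg`, `srf_PD`, `srf_O` : legality, D-max region, open part
* `Prf.sweep`, `Cx.rec_Ca`, `Cx.rec_ECb` : sweeps
-/

set_option autoImplicit false
set_option linter.unusedVariables false

open Finset Filter Topology

namespace Crest.Agent.R136.Tb628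

open Crest.Agent.R136.Net191
open Crest.Agent.R136.NetQ186
open Crest.Agent.R136.NatT550
open Crest.Agent.R136.NatR550
open Crest.Agent.R136.Lq196
open Crest.Agent.R136.Wq638
open Crest.Agent.R136.Dg219 (Walls mw mw_P mem_mwO mem_mwL)
open Crest.Agent.R136.Dg262 (X)
open Crest.Agent.R138.Ex926 (Base U QProf)

/-! ### abstract part -/

section abs

variable {ι : Type*} [Fintype ι] {K : Set (ι → ℝ)} {φ : (ι → ℝ) → ℝ}

/-- facts on a profile `φ` on a legal set `K` -/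
structure Prf (K : Set (ι → ℝ)) (φ : (ι → ℝ) → ℝ) : Prop where
  lip : ∀ p ∈ K, ∀ q ∈ K, p ≤ q → 0 ≤ φ p - φ q ∧ φ p - φ q ≤ ∑ k, (q k - p k)
  submod : ∀ p ∈ K, ∀ q ∈ K, p ⊓ q ∈ K → φ p + φ q ≤ φ (p ⊔ q) + φ (p ⊓ q)

/-- **sweep, abstract form**: `e` = increment supported in slots in which `p ≤ q` agree -/
theorem Prf.sweep (H : Prf K φ) {p q e : ι → ℝ} (hp : p ∈ K) (hq : q ∈ K) (hpe : p + e ∈ K)
    (hpq : p ≤ q) (he : ∀ k, 0 ≤ e k) (hs : ∀ k, e k ≠ 0 → p k = q k) :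
    φ q - φ (q + e) ≤ φ p - φ (p + e) := by
  have e1 : q ⊓ (p + e) = p := by
    funext k
    simp only [Pi.inf_apply, Pi.add_apply]
    by_cases hk : e k = 0
    · rw [hk, add_zero]; exact min_eq_right (hpq k)
    · rw [← hs k hk]; exact min_eq_left (by linarith [he k])
  have e2 : q ⊔ (p + e) = q + e := by
    funext k
    simp only [Pi.sup_apply, Pi.add_apply]
    by_cases hk : e k = 0
    · rw [hk, add_zero, add_zero]; exact max_eq_left (hpq k)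
    · rw [← hs k hk]; exact max_eq_right (by linarith [he k])
  have := H.submod q hq (p + e) hpe (by rw [e1]; exact hp)
  rw [e1, e2] at this
  linarith

/-- loss at a box with full density: `e` = increment, `e'` = the same with the positions raised -/
theorem Prf.rec_loss (H : Prf K φ) {q e e' : ι → ℝ} {d d' : ℝ} (h1 : q + e ∈ K)
    (h2 : q + e' ∈ K) (he : e ≤ e') (hd : d ≤ φ q) (hd' : φ (q + e') ≤ d') :
    d - d' - ∑ k, (e' k - e k) ≤ φ q - φ (q + e) := by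
  have e3 := (H.lip _ h1 _ h2 (by
    intro k; simp only [Pi.add_apply]; linarith [he k])).2
  have e4 : ∑ k, ((q + e') k - (q + e) k) = ∑ k, (e' k - e k) :=
    Finset.sum_congr rfl fun k _ => by simp only [Pi.add_apply]; ring
  rw [e4] at e3
  linarith


end abs

/-! ### surfaces -/

/-- angular exponent of the narrow width -/
noncomputable def u2 (θ : Fin 3 → ℝ) (κ : ℝ) (z : ℝ × ℝ) : ℝ := κ * z.1 + (θ 2 + κ) / θ 1 * z.2

/-- angular exponent of the thickness -/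
noncomputable def u3 (θ : Fin 3 → ℝ) (κ3 : ℝ) (z : ℝ × ℝ) : ℝ := κ3 * z.1 + (θ 0 + κ3) / θ 1 * z.2

/-- natural boxes of the surface with left slopes `κ`, `κ3` -/
noncomputable def srf (θ : Fin 3 → ℝ) (w0 R1 κ κ3 : ℝ) (z : ℝ × ℝ) : Fin 11 → ℝ :=
  nat4 w0 R1 z.1 z.2 (u2 θ κ z) (u3 θ κ3 z)

/-- base point -/
noncomputable def s0 (w0 R1 : ℝ) : Fin 11 → ℝ := nat4 w0 R1 0 0 0 0

/-- slopes in `v` -/
def sA (κ κ3 : ℝ) : Fin 11 → ℝ := nL 1 0 κ κ3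

/-- slopes in `t` -/
noncomputable def sB (θ : Fin 3 → ℝ) (κ κ3 : ℝ) : Fin 11 → ℝ :=
  nL 0 1 ((θ 2 + κ) / θ 1) ((θ 0 + κ3) / θ 1)

theorem srf_eq (θ : Fin 3 → ℝ) (w0 R1 κ κ3 : ℝ) (z : ℝ × ℝ) :
    srf θ w0 R1 κ κ3 z = X (s0 w0 R1) (sA κ κ3) (sB θ κ κ3) z := by
  have := nat_X w0 R1 ![0, 0, 0] ![κ3, 0, κ] ![(θ 0 + κ3) / θ 1, 1, (θ 2 + κ) / θ 1] z
  simp only [Matrix.cons_val, Fin.isValue] at this
  rw [srf, s0, sA, sB, this, u2, u3]
  simp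

/-- the point of the surface at distance `x` to the left of the record point of level `v0` -/
def pt (θ : Fin 3 → ℝ) (v0 x : ℝ) : ℝ × ℝ := (v0 - x, -(θ 1 * v0))

theorem u2_pt {θ : Fin 3 → ℝ} (h1 : θ 1 ≠ 0) (κ v0 x : ℝ) :
    u2 θ κ (pt θ v0 x) = -(θ 2 * v0) - κ * x := by
  simp only [u2, pt]
  field_simp
  ring

theorem u3_pt {θ : Fin 3 → ℝ} (h1 : θ 1 ≠ 0) (κ3 v0 x : ℝ) :
    u3 θ κ3 (pt θ v0 x) = -(θ 0 * v0) - κ3 * x := by
  simp only [u3, pt]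
  field_simp
  ring

theorem srf_pt {θ : Fin 3 → ℝ} (h1 : θ 1 ≠ 0) (w0 R1 κ κ3 v0 x : ℝ) :
    srf θ w0 R1 κ κ3 (pt θ v0 x) = nat4 w0 R1 (v0 - x) (-(θ 1 * v0))
      (-(θ 2 * v0) - κ * x) (-(θ 0 * v0) - κ3 * x) := by
  rw [srf, u2_pt h1, u3_pt h1]
  rfl

theorem srf_zero {θ : Fin 3 → ℝ} (h1 : θ 1 ≠ 0) (w0 R κ κ3 v0 : ℝ) :
    srf θ w0 R κ κ3 (pt θ v0 0) = pathQ θ w0 R v0 := by
  rw [srf_pt h1, pathQ_nat]
  simp


/-- numerical conditions near the record line -/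
structure Near0 (κ κ3 v0 x : ℝ) : Prop where
  x0 : 0 ≤ x
  l0 : 0 ≤ v0 - x
  l1 : v0 < 1
  k : κ * x ≤ 1 / 4
  k3 : κ3 * x ≤ 1 / 4

section bounds

variable {θ q : Fin 3 → ℝ} {w0 R T0 κ κ3 v0 x : ℝ}

theorem slots (h : BigQ θ w0 R T0) (h1 : 0 < θ 1) (hk : 0 ≤ κ) (hk3 : κ ≤ κ3)
    (hn : Near0 κ κ3 v0 x) :
    (∀ k, 0 < srf θ w0 (R - 1) κ κ3 (pt θ v0 x) k ∧ srf θ w0 (R - 1) κ κ3 (pt θ v0 x) k < R) ∧
      2 * w0 + (-(θ 0 * v0) - κ3 * x) < (v0 - x) + (R - 1) := by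
  obtain ⟨hx0, hl0, hl1, hkx, hk3x⟩ := hn
  have hv0 : 0 ≤ v0 := by linarith
  have a0 := h.bd hv0 hl1.le 0
  have a1 := h.bd hv0 hl1.le 1
  have a2 := h.bd hv0 hl1.le 2
  have b0 := h.T0
  have b1 := h.w0T
  have b2 := h.R0
  have e1 : 0 ≤ κ * x := mul_nonneg hk hx0
  have e2 : κ * x ≤ κ3 * x := mul_le_mul_of_nonneg_right hk3 hx0
  have c0 := (abs_le.1 (h.th 0)).1
  have e3 : (1 - θ 0) * v0 < 1 + T0 := by
    have : (1 - θ 0) * v0 ≤ (1 + T0) * v0 := mul_le_mul_of_nonneg_right (by linarith) hv0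
    nlinarith
  rw [srf_pt h1.ne']
  refine ⟨fun k => ?_, by linarith⟩
  fin_cases k <;>
    simp only [nat4, Matrix.cons_val, Fin.zero_eta, Fin.mk_one, Fin.reduceFinMk, Fin.isValue] <;>
    constructor <;> linarith

/-- points near the record line lie in the open part of the legal region -/
theorem srf_OQ (h : BigQ θ w0 R T0) (h1 : 0 < θ 1) (hk : 0 ≤ κ) (hk3 : κ ≤ κ3)
    (hn : Near0 κ κ3 v0 x) :
    OQ R (s0 w0 (R - 1)) (sA κ κ3) (sB θ κ κ3) (pt θ v0 x) := by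
  obtain ⟨g1, g2⟩ := slots h h1 hk hk3 hn
  have g3 := nat_OQ (w0 := w0) (R1 := R - 1) (R := R) (al := ![0, 0, 0]) (be := ![κ3, 0, κ])
    (ga := ![(θ 0 + κ3) / θ 1, 1, (θ 2 + κ) / θ 1]) (z := pt θ v0 x)
  simp only [Matrix.cons_val, Fin.isValue, zero_mul, one_mul, zero_add] at g3
  refine g3 (fun k => ?_) ?_
  · have := g1 k
    rw [srf, u2, u3] at this
    exact this
  · have e1 := u3_pt h1.ne' κ3 v0 x
    rw [u3] at e1
    rw [e1]
    simpa [pt] using g2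

theorem srf_O (h : BigQ θ w0 R T0) (h1 : 0 < θ 1) (hk : 0 ≤ κ) (hk3 : κ ≤ κ3)
    (hn : Near0 κ κ3 v0 x) :
    pt θ v0 x ∈ (mw monQ).O (fun _ => 0) (fun _ => R) (s0 w0 (R - 1)) (sA κ κ3) (sB θ κ κ3) :=
  memO_monQ (srf_OQ h h1 hk hk3 hn)

/-- the cone of the walls which are tight along every surface -/
theorem srf_L (h : BigQ θ w0 R T0) (h1 : 0 < θ 1) (hk : 0 ≤ κ) (hk3 : κ ≤ κ3)
    (hn : Near0 κ κ3 v0 x) {c : Fin 11 → ℝ} :
    c ∈ (mw monQ).L (s0 w0 (R - 1)) (sA κ κ3) (sB θ κ κ3) ↔ c ∈ coneN := by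
  have g1 := srf_OQ h h1 hk hk3 hn
  have g2 := (slots h h1 hk hk3 hn).2
  have g3 := nat_memL (w0 := w0) (R1 := R - 1) (R := R) (al := ![0, 0, 0]) (be := ![κ3, 0, κ])
    (ga := ![(θ 0 + κ3) / θ 1, 1, (θ 2 + κ) / θ 1]) (z := pt θ v0 x) (c := c)
  simp only [Matrix.cons_val, Fin.isValue, zero_add] at g3
  refine g3 g1 ?_
  have e1 := u3_pt h1.ne' κ3 v0 x
  rw [u3] at e1
  rw [e1]
  simpa [pt] using g2

/-- the surface is legal near the record line -/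
theorem srf_leg (h : BigQ θ w0 R T0) (h1 : 0 < θ 1) (hk : 0 ≤ κ) (hk3 : κ ≤ κ3)
    (hn : Near0 κ κ3 v0 x) : srf θ w0 (R - 1) κ κ3 (pt θ v0 x) ∈ Leg monQ R := by
  obtain ⟨g, g'⟩ := slots h h1 hk hk3 hn
  refine ⟨?_, fun k => (g k).2.le⟩
  rw [srf_pt h1.ne'] at g ⊢
  have g0 := (g 0).1
  have g1 := (g 1).1
  have g2 := (g 2).1
  have g3 := (g 3).1
  have g5 := (g 5).1
  simp only [nat4, Matrix.cons_val, Fin.isValue] at g0 g1 g2 g3 g5
  have := h.w0pos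
  exact nat4_legal (by linarith) (by linarith) (by linarith) (by linarith) (by linarith)
    (by linarith) (by linarith)

/-- boxes which are one sheet (`GeoQ186.mem_PDQ`): `cab, cby, cr, cc` = exponents of the level-`0`
mark, `w₂/w₁ ≤ d^cab`, `a/w₂ ≤ d^cby`, `r₀/a ≤ d^cr`, `w₁/ρ ≤ d^cc` -/
def PDc (w0 R cab cby cr cc : ℝ) : Set (Fin 11 → ℝ) :=
  {p | p ∈ Leg monQ R ∧ w0 ≤ p 0 ∧ p 0 ≤ w0 + 1 ∧ p 8 + w0 ≤ p 9 + cab ∧ p 9 + w0 ≤ p 10 + cby ∧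
    p 10 ≤ cr + 4 * w0 ∧ p 0 + w0 < p 8 + cc}

/-- **facts on the profile used by the scalar part** -/
structure Cx (θ q : Fin 3 → ℝ) (g w0 R T0 cab cby cr : ℝ) (ν : (Fin 11 → ℝ) → ℝ) (c₀ : ℝ) :
    Prop where
  big : BigQ θ w0 R T0
  th1 : 0 < θ 1
  ab : 0 ≤ cab ∧ θ 2 - θ 1 ≤ cab
  by' : 0 ≤ cby ∧ θ 0 - θ 2 ≤ cby
  res : 0 ≤ cr ∧ 1 - θ 0 ≤ cr
  prf : Prf (Leg monQ R) ν
  dmax : ∀ p ∈ PDc w0 R cab cby cr (θ 1), ν p ≤ c₀ + DQ g 0 q w0 p
  record : ∀ v : ℝ, 0 ≤ v → v ≤ 1 → c₀ + DQ g 0 q w0 (pathQ θ w0 R v) ≤ ν (pathQ θ w0 R v)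

theorem Cx.of_ext {B : Base} {I0 I : ℕ → Finset (ℕ × ℝ)}
    {co : ∀ n : ℕ, ℕ × ℝ → ℕ × ℝ → Fin 11 → ℝ} {C : ℝ} {kz : Fin 11} {w0' : ℝ}
    {o : ℝ → Fin 11 → ℝ} {T : Fin 11 → Prop} {ν own : (Fin 11 → ℝ) → ℝ} {g c₀ : ℝ}
    {PD : Set (Fin 11 → ℝ)} {cab cby cr : ℝ} {D : (Fin 11 → ℝ) → ℝ}
    (h : ExtQ B I0 I co monQ C R kz w0' 0 PD D (pathQ θ w0 R) o (EQ θ g 0 q w0 R) T ν own c₀)
    (big : BigQ θ w0 R T0) (th1 : 0 < θ 1) (ab : 0 ≤ cab ∧ θ 2 - θ 1 ≤ cab)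
    (by' : 0 ≤ cby ∧ θ 0 - θ 2 ≤ cby) (res : 0 ≤ cr ∧ 1 - θ 0 ≤ cr)
    (hPD : PDc w0 R cab cby cr (θ 1) ⊆ PD)
    (hD : ∀ p ∈ PDc w0 R cab cby cr (θ 1), D p = DQ g 0 q w0 p) :
    Cx θ q g w0 R T0 cab cby cr ν c₀ :=
  ⟨big, th1, ab, by', res, ⟨h.lip, h.submod⟩,
    fun p hp => by rw [← hD p hp]; exact h.dmax p (hPD hp), h.record⟩

/-- room for the wide position, `X_a` against `X_b` -/
def rm12 (θ : Fin 3 → ℝ) (cab v : ℝ) : ℝ := (θ 1 - θ 2) * v + cab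
/-- room for the narrow position, `X_b` against `N` -/
def rm23 (θ : Fin 3 → ℝ) (cby v : ℝ) : ℝ := (θ 2 - θ 0) * v + cby

section facts

variable {g cab cby cr c₀ : ℝ} {ν : (Fin 11 → ℝ) → ℝ}

theorem Cx.rm12_nonneg (C : Cx θ q g w0 R T0 cab cby cr ν c₀) {v : ℝ} (h0 : 0 ≤ v) (h1 : v ≤ 1) :
    0 ≤ rm12 θ cab v := by
  obtain ⟨a, b⟩ := C.ab
  unfold rm12
  nlinarith

theorem Cx.rm23_nonneg (C : Cx θ q g w0 R T0 cab cby cr ν c₀) {v : ℝ} (h0 : 0 ≤ v) (h1 : v ≤ 1) :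
    0 ≤ rm23 θ cby v := by
  obtain ⟨a, b⟩ := C.by'
  unfold rm23
  nlinarith

theorem Cx.rm12_pos (C : Cx θ q g w0 R T0 cab cby cr ν c₀) (hne : θ 1 ≠ θ 2) {v : ℝ} (h0 : 0 < v)
    (h1 : v < 1) : 0 < rm12 θ cab v := by
  obtain ⟨a, b⟩ := C.ab
  unfold rm12
  rcases lt_or_gt_of_ne hne with h | h <;> nlinarith

theorem Cx.rm23_pos (C : Cx θ q g w0 R T0 cab cby cr ν c₀) (hne : θ 2 ≠ θ 0) {v : ℝ} (h0 : 0 < v)
    (h1 : v < 1) : 0 < rm23 θ cby v := by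
  obtain ⟨a, b⟩ := C.by'
  unfold rm23
  rcases lt_or_gt_of_ne hne with h | h <;> nlinarith

/-- the surface lies in the region of D-max -/
theorem Cx.srf_PD (C : Cx θ q g w0 R T0 cab cby cr ν c₀) (hk : 0 ≤ κ) (hk3 : κ ≤ κ3)
    (hn : Near0 κ κ3 v0 x) (h12 : κ * x ≤ rm12 θ cab v0) (h23 : (κ3 - κ) * x ≤ rm23 θ cby v0) :
    srf θ w0 (R - 1) κ κ3 (pt θ v0 x) ∈ PDc w0 R cab cby cr (θ 1) := by
  have hL := srf_leg C.big C.th1 hk hk3 hn
  obtain ⟨r0, r1⟩ := C.res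
  have hth := C.th1
  obtain ⟨hx0, hl0, hl1, hkx, hk3x⟩ := hn
  have hv0 : 0 ≤ v0 := by linarith
  have e1 : 0 ≤ κ * x := mul_nonneg hk hx0
  have e2 : κ * x ≤ κ3 * x := mul_le_mul_of_nonneg_right hk3 hx0
  have e3 : (1 - θ 0) * v0 ≤ cr := by nlinarith
  have e4 : θ 1 * v0 < θ 1 := by nlinarith
  rw [rm12, sub_mul] at h12
  rw [rm23, sub_mul, sub_mul] at h23
  rw [sub_mul] at e3
  refine ⟨hL, ?_, ?_, ?_, ?_, ?_, ?_⟩ <;> rw [srf_pt C.th1.ne'] <;>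
    simp only [nat4, Matrix.cons_val, Fin.isValue] <;> linarith

/-- **domination** along a surface -/
theorem srf_le (h1 : θ 1 ≠ 0) (hk : 0 ≤ κ) (hk3 : κ ≤ κ3) {R1 R2 x' : ℝ} (hR : R1 ≤ R2)
    (hx : x' ≤ x) : srf θ w0 R1 κ κ3 (pt θ v0 x) ≤ srf θ w0 R2 κ κ3 (pt θ v0 x') := by
  have e1 := mul_le_mul_of_nonneg_left hx hk
  have e2 := mul_le_mul_of_nonneg_left hx (hk.trans hk3)
  have e3 := mul_le_mul_of_nonneg_left hx (sub_nonneg.2 hk3)
  rw [sub_mul, sub_mul] at e3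
  rw [srf_pt h1, srf_pt h1]
  intro k
  fin_cases k <;>
    simp only [nat4, Matrix.cons_val, Fin.zero_eta, Fin.mk_one, Fin.reduceFinMk, Fin.isValue] <;>
    linarith

/-- D-max exponent along the surface -/
theorem D_srf (h1 : θ 1 ≠ 0) {R1 : ℝ} :
    DQ g 0 q w0 (srf θ w0 R1 κ κ3 (pt θ v0 x)) = DQ g 0 q w0 (pathQ θ w0 R v0) +
      (4 + κ + κ3 + q 2 * κ + q 0 * κ3 - g) * x := by
  rw [srf_pt h1, pathQ_nat, DQ_nat4, DQ_nat4]
  ring

theorem path_PD (C : Cx θ q g w0 R T0 cab cby cr ν c₀) (h0 : 0 ≤ v0) (h1 : v0 < 1) :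
    pathQ θ w0 R v0 ∈ PDc w0 R cab cby cr (θ 1) := by
  have hL := C.big.path_leg h0 h1.le
  obtain ⟨r0, r1⟩ := C.res
  have hth := C.th1
  have a1 := C.rm12_nonneg h0 h1.le
  have a2 := C.rm23_nonneg h0 h1.le
  have e3 : (1 - θ 0) * v0 ≤ cr := by nlinarith
  have e4 : θ 1 * v0 < θ 1 := by nlinarith
  unfold rm12 at a1
  unfold rm23 at a2
  refine ⟨hL, ?_, ?_, ?_, ?_, ?_, ?_⟩ <;>
    simp only [pathQ, Matrix.cons_val, Fin.isValue] <;> linarith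


/-- unit increments of the sweeps -/
def eCa (h : ℝ) : Fin 11 → ℝ := ![0, 0, 0, 0, 0, h, 0, 0, 0, 0, 0]
/-- `C_a` and `X_a` -/
def eCXa (h : ℝ) : Fin 11 → ℝ := ![0, 0, 0, 0, 0, h, 0, 0, h, 0, 0]
/-- `E` and `C_b` -/
def eECb (h : ℝ) : Fin 11 → ℝ := ![0, 0, h, 0, 0, 0, h, 0, 0, 0, 0]
/-- `E`, `C_b` and `X_b` -/
def eECXb (h : ℝ) : Fin 11 → ℝ := ![0, 0, h, 0, 0, 0, h, 0, 0, h, 0]
/-- `E` alone -/
def eE (h : ℝ) : Fin 11 → ℝ := ![0, 0, h, 0, 0, 0, 0, 0, 0, 0, 0]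

theorem leg_aux (h : BigQ θ w0 R T0) (h0 : 0 ≤ v0) (h1 : v0 ≤ 1) {a2 a5 a6 a8 a9 : ℝ}
    (b2 : 0 ≤ a2) (b5 : 0 ≤ a5) (b6 : 0 ≤ a6) (b8 : 0 ≤ a8) (b9 : 0 ≤ a9) (c2 : a2 ≤ 1)
    (c5 : a5 ≤ 1) (c6 : a6 ≤ 1) (c8 : a8 ≤ 1) (c9 : a9 ≤ 1)
    (d6 : a6 ≤ a2 + a5) (d8 : a8 ≤ a5) (d9 : a9 ≤ a6) (d9' : a9 ≤ a2 + a8) :
    pathQ θ w0 R v0 + ![0, 0, a2, 0, 0, a5, a6, 0, a8, a9, 0] ∈ Leg monQ R := by
  have a0 := h.bd h0 h1 0
  have a1 := h.bd h0 h1 1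
  have a2' := h.bd h0 h1 2
  have e0 := h.T0
  have e1 := h.w0T
  have e2 := h.R0
  refine ⟨legalQ_iff.2 ?_, fun k => ?_⟩
  · refine ⟨fun k => ?_, ?_, ?_, ?_, ?_, ?_, ?_, ?_, ?_, ?_, ?_, ?_⟩
    · fin_cases k <;> simp [pathQ] <;> linarith
    all_goals (simp [pathQ]; linarith)
  · fin_cases k <;> simp [pathQ] <;> linarith

/-- sweep of `C_a` at the record box -/
theorem Cx.rec_Ca (C : Cx θ q g w0 R T0 cab cby cr ν c₀) (h0 : 0 ≤ v0) (h1 : v0 < 1) {y : ℝ}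
    (hy : 0 ≤ y) (hy1 : y ≤ 1) (ho : y ≤ rm12 θ cab v0) :
    q 1 * y ≤ ν (pathQ θ w0 R v0) - ν (pathQ θ w0 R v0 + eCa y) := by
  have hL1 : pathQ θ w0 R v0 + eCa y ∈ Leg monQ R :=
    leg_aux C.big h0 h1.le le_rfl hy le_rfl le_rfl le_rfl zero_le_one hy1 zero_le_one zero_le_one
      zero_le_one (by linarith) hy le_rfl (by linarith)
  have hL2 : pathQ θ w0 R v0 + eCXa y ∈ Leg monQ R :=
    leg_aux C.big h0 h1.le le_rfl hy le_rfl hy le_rfl zero_le_one hy1 zero_le_one hy1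
      zero_le_one (by linarith) le_rfl le_rfl (by linarith)
  have hPD : pathQ θ w0 R v0 + eCXa y ∈ PDc w0 R cab cby cr (θ 1) := by
    obtain ⟨-, p1, p2, p3, p4, p5, p6⟩ := path_PD (v0 := v0) C h0 h1
    unfold rm12 at ho
    refine ⟨hL2, ?_, ?_, ?_, ?_, ?_, ?_⟩
    · simpa [eCXa] using p1
    · simpa [eCXa] using p2
    · simp [eCXa, pathQ]; linarith
    · simpa [eCXa] using p4
    · simpa [eCXa] using p5
    · simp [eCXa] at p6 ⊢; linarith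
  have e1 := C.prf.rec_loss (d := c₀ + DQ g 0 q w0 (pathQ θ w0 R v0)) hL1 hL2 (by
    intro k; fin_cases k <;> simp [eCa, eCXa, hy]) (C.record v0 h0 h1.le) (C.dmax _ hPD)
  have e2 : DQ g 0 q w0 (pathQ θ w0 R v0 + eCXa y) = DQ g 0 q w0 (pathQ θ w0 R v0) -
      (1 + q 1) * y := by
    simp [DQ, eCXa]; ring
  have e4 : ∑ k, (eCXa y k - eCa y k) = y := by
    simp [Fin.sum_univ_succ, eCa, eCXa]
  rw [e4, e2] at e1
  linarith

/-- sweep of the pair `(E, C_b)` at the record box -/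
theorem Cx.rec_ECb (C : Cx θ q g w0 R T0 cab cby cr ν c₀) (h0 : 0 ≤ v0) (h1 : v0 < 1) {y : ℝ}
    (hy : 0 ≤ y) (hy1 : y ≤ 1) (ho : y ≤ rm23 θ cby v0) :
    q 2 * y ≤ ν (pathQ θ w0 R v0) - ν (pathQ θ w0 R v0 + eECb y) := by
  have hL1 : pathQ θ w0 R v0 + eECb y ∈ Leg monQ R :=
    leg_aux C.big h0 h1.le hy le_rfl hy le_rfl le_rfl hy1 zero_le_one hy1 zero_le_one
      zero_le_one (by linarith) le_rfl hy (by linarith)
  have hL2 : pathQ θ w0 R v0 + eECXb y ∈ Leg monQ R :=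
    leg_aux C.big h0 h1.le hy le_rfl hy le_rfl hy hy1 zero_le_one hy1 zero_le_one
      hy1 (by linarith) le_rfl le_rfl (by linarith)
  have hPD : pathQ θ w0 R v0 + eECXb y ∈ PDc w0 R cab cby cr (θ 1) := by
    obtain ⟨-, p1, p2, p3, p4, p5, p6⟩ := path_PD (v0 := v0) C h0 h1
    unfold rm23 at ho
    refine ⟨hL2, ?_, ?_, ?_, ?_, ?_, ?_⟩
    · simpa [eECXb] using p1
    · simpa [eECXb] using p2
    · simp [eECXb] at p3 ⊢; linarith
    · simp [eECXb, pathQ]; linarith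
    · simpa [eECXb] using p5
    · simpa [eECXb] using p6
  have e1 := C.prf.rec_loss (d := c₀ + DQ g 0 q w0 (pathQ θ w0 R v0)) hL1 hL2 (by
    intro k; fin_cases k <;> simp [eECb, eECXb, hy]) (C.record v0 h0 h1.le) (C.dmax _ hPD)
  have e2 : DQ g 0 q w0 (pathQ θ w0 R v0 + eECXb y) = DQ g 0 q w0 (pathQ θ w0 R v0) -
      (1 + q 2) * y := by
    simp [DQ, eECXb]; ring
  have e4 : ∑ k, (eECXb y k - eECb y k) = y := by
    simp [Fin.sum_univ_succ, eECb, eECXb]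
  rw [e4, e2] at e1
  linarith



end facts

end bounds

end Crest.Agent.R136.Tb628
end

-- ▼ part R136/Tb2_628

/-!
# R136, scalar part of the thick table (helper628), part 2: last rung and sweeps of the tangents

* `Om θ S` : region of the plane `(v, t)` at distance `< S` to the left of the record line;
* `exists_small` : a good `S`;
* `Cx.ray`, `Cx.dead` : **if the left slope of `ν` on the surface is `≥ 4 + κ + κ3` at almost every
  point of `Om`, then False** (as soon as `q 2 κ + q 0 κ3 < g`);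
* `RecA c`, `RecB c` : sweeps of `C_a`, `(E, C_b)` at the record boxes with constant `c`;
* `tan_S1`, `tan_S2` : the same for the tangents `lam` at the points of `Om` (moving base points).
-/

set_option autoImplicit false
set_option linter.unusedVariables false

open Finset Filter Topology

namespace Crest.Agent.R136.Tb628

open Crest.Agent.R136.Net191
open Crest.Agent.R136.NetQ186
open Crest.Agent.R136.NatT550
open Crest.Agent.R136.NatR550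
open Crest.Agent.R136.Lq196
open Crest.Agent.R136.Wq638
open Crest.Agent.R136.Dg219 (Walls mw mw_P mem_mwO mem_mwL Tn)
open Crest.Agent.R136.Dg262 (X)
open Crest.Agent.R136.K2S774 (Ray)
open Crest.Agent.R138.Ex926 (Base U QProf IsTan)

variable {θ q : Fin 3 → ℝ} {g w0 R T0 cab cby cr c₀ κ κ3 : ℝ} {ν : (Fin 11 → ℝ) → ℝ}

/-- region to the left of the record line -/
def Om (θ : Fin 3 → ℝ) (S : ℝ) : Set (ℝ × ℝ) :=
  {z | ∃ ξ x : ℝ, 1 / 3 < ξ ∧ ξ < 2 / 3 ∧ 0 < x ∧ x < S ∧ z = pt θ ξ x}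

/-- `S` is small enough -/
structure Small (θ : Fin 3 → ℝ) (cab cby κ κ3 S : ℝ) : Prop where
  pos : 0 < S
  le : S ≤ 1 / 4
  k : κ * S ≤ 1 / 4
  k3 : κ3 * S ≤ 1 / 4
  r12 : ∀ v : ℝ, 1 / 3 ≤ v → v ≤ 2 / 3 → κ * S ≤ rm12 θ cab v
  r23 : ∀ v : ℝ, 1 / 3 ≤ v → v ≤ 2 / 3 → (κ3 - κ) * S ≤ rm23 θ cby v

theorem Small.near {S x ξ : ℝ} (h : Small θ cab cby κ κ3 S) (hk : 0 ≤ κ) (hk3 : κ ≤ κ3)
    (h1 : 1 / 3 ≤ ξ) (h2 : ξ ≤ 2 / 3) (hx : 0 ≤ x) (hxS : x ≤ S) : Near0 κ κ3 ξ x where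
  x0 := hx
  l0 := by have := h.le; linarith
  l1 := by linarith
  k := (mul_le_mul_of_nonneg_left hxS hk).trans h.k
  k3 := (mul_le_mul_of_nonneg_left hxS (hk.trans hk3)).trans h.k3

/-- a good `S` exists: if the left slope is positive, the room must be positive -/
theorem exists_small (C : Cx θ q g w0 R T0 cab cby cr ν c₀) (hk : 0 ≤ κ) (hk3 : κ ≤ κ3)
    (h12 : κ = 0 ∨ (0 < rm12 θ cab (1 / 3) ∧ 0 < rm12 θ cab (2 / 3)))
    (h23 : κ3 = κ ∨ (0 < rm23 θ cby (1 / 3) ∧ 0 < rm23 θ cby (2 / 3))) :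
    ∃ S : ℝ, Small θ cab cby κ κ3 S := by
  have hk3' : 0 ≤ κ3 := hk.trans hk3
  -- bound of a linear function on an interval
  have lin : ∀ a b v : ℝ, 1 / 3 ≤ v → v ≤ 2 / 3 →
      min (a * (1 / 3) + b) (a * (2 / 3) + b) ≤ a * v + b := by
    intro a b v h1 h2
    rcases le_total 0 a with ha | ha
    · exact (min_le_left _ _).trans (by nlinarith)
    · exact (min_le_right _ _).trans (by nlinarith)
  obtain ⟨s1, hs1, H1⟩ : ∃ s : ℝ, 0 < s ∧ ∀ v : ℝ, 1 / 3 ≤ v → v ≤ 2 / 3 → ∀ S : ℝ, 0 ≤ S →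
      S ≤ s → κ * S ≤ rm12 θ cab v := by
    rcases h12 with h | ⟨h1, h2⟩
    · refine ⟨1, one_pos, fun v hv1 hv2 S _ _ => ?_⟩
      rw [h, zero_mul]
      exact C.rm12_nonneg (by linarith) (by linarith)
    · set m : ℝ := min (rm12 θ cab (1 / 3)) (rm12 θ cab (2 / 3)) with hm
      have hm0 : 0 < m := lt_min h1 h2
      refine ⟨m / (1 + κ), by positivity, fun v hv1 hv2 S hS0 hS => ?_⟩
      have e1 : m ≤ rm12 θ cab v := lin _ _ v hv1 hv2
      have e2 : (1 + κ) * S ≤ m := by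
        rw [le_div_iff₀ (by linarith)] at hS; linarith
      nlinarith
  obtain ⟨s2, hs2, H2⟩ : ∃ s : ℝ, 0 < s ∧ ∀ v : ℝ, 1 / 3 ≤ v → v ≤ 2 / 3 → ∀ S : ℝ, 0 ≤ S →
      S ≤ s → (κ3 - κ) * S ≤ rm23 θ cby v := by
    rcases h23 with h | ⟨h1, h2⟩
    · refine ⟨1, one_pos, fun v hv1 hv2 S _ _ => ?_⟩
      rw [h, sub_self, zero_mul]
      exact C.rm23_nonneg (by linarith) (by linarith)
    · set m : ℝ := min (rm23 θ cby (1 / 3)) (rm23 θ cby (2 / 3)) with hm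
      have hm0 : 0 < m := lt_min h1 h2
      have hkk : 0 ≤ κ3 - κ := by linarith
      refine ⟨m / (1 + (κ3 - κ)), by positivity, fun v hv1 hv2 S hS0 hS => ?_⟩
      have e1 : m ≤ rm23 θ cby v := lin _ _ v hv1 hv2
      have e2 : (1 + (κ3 - κ)) * S ≤ m := by
        rw [le_div_iff₀ (by linarith)] at hS; linarith
      nlinarith
  set S : ℝ := min (min s1 s2) (1 / (4 * (1 + κ3))) with hSd
  have hp : 0 < 1 / (4 * (1 + κ3)) := by positivity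
  have hS0 : 0 < S := lt_min (lt_min hs1 hs2) hp
  have hSa : S ≤ s1 := (min_le_left _ _).trans (min_le_left _ _)
  have hSb : S ≤ s2 := (min_le_left _ _).trans (min_le_right _ _)
  have hSc : S ≤ 1 / (4 * (1 + κ3)) := min_le_right _ _
  rw [le_div_iff₀ (by linarith)] at hSc
  have hkS : 0 ≤ κ * S := mul_nonneg hk hS0.le
  have hkS3 : κ * S ≤ κ3 * S := mul_le_mul_of_nonneg_right hk3 hS0.le
  exact ⟨S, hS0, by nlinarith, by nlinarith, by nlinarith,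
    fun v h1 h2 => H1 v h1 h2 S hS0.le hSa, fun v h1 h2 => H2 v h1 h2 S hS0.le hSb⟩

/-! ### last rung -/

theorem leg_sup {M : Mons 11} {p q : Fin 11 → ℝ} (hp : p ∈ Leg M R) (hq : q ∈ Leg M R) :
    p ⊔ q ∈ Leg M R := by
  refine ⟨⟨fun k => (hp.1.nonneg k).trans le_sup_left, fun k e he => ?_⟩,
    fun k => sup_le (hp.2 k) (hq.2 k)⟩
  refine sup_le ((hp.1.wall k e he).trans ?_) ((hq.1.wall k e he).trans ?_)
  · exact sum_le_sum fun s _ => mul_le_mul_of_nonneg_left le_sup_left (Nat.cast_nonneg _)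
  · exact sum_le_sum fun s _ => mul_le_mul_of_nonneg_left le_sup_right (Nat.cast_nonneg _)

theorem Prf.lip' {M : Mons 11} (H : Prf (Leg M R) ν) {p q : Fin 11 → ℝ} (hp : p ∈ Leg M R)
    (hq : q ∈ Leg M R) : |ν p - ν q| ≤ 11 * dist p q := by
  have key : ∀ p q : Fin 11 → ℝ, p ∈ Leg M R → q ∈ Leg M R → ν p - ν q ≤ 11 * dist p q := by
    intro p q hp hq
    have hs := leg_sup hp hq
    have h1 := (H.lip p hp _ hs le_sup_left).2
    have h2 := (H.lip q hq _ hs le_sup_right).1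
    have h3 : ∑ k, ((p ⊔ q) k - p k) ≤ ∑ k : Fin 11, dist p q := by
      refine sum_le_sum fun k _ => ?_
      have h4 : |p k - q k| ≤ dist p q := by
        rw [← Real.dist_eq]; exact dist_le_pi_dist p q k
      have h5 := (abs_le.1 h4).1
      show p k ⊔ q k - p k ≤ _
      rcases le_total (p k) (q k) with h | h
      · rw [sup_eq_right.2 h]; linarith
      · rw [sup_eq_left.2 h, sub_self]; exact dist_nonneg
    rw [sum_const, card_univ, Fintype.card_fin, nsmul_eq_mul] at h3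
    push_cast at h3
    linarith
  rw [abs_sub_le_iff]
  exact ⟨key p q hp hq, by rw [dist_comm]; exact key q p hq hp⟩

theorem pt_eq (θ : Fin 3 → ℝ) (ξ x : ℝ) :
    K2S774.pt (0, 0) (1, -θ 1) (1, 0) ξ x = pt θ ξ x := by
  simp only [K2S774.pt, pt, Prod.smul_mk, smul_eq_mul, mul_one, mul_zero, Prod.mk_add_mk,
    Prod.mk_sub_mk, zero_add, sub_zero]
  congr 1
  ring

/-- the surface with its rays, form of `K2S_774` -/
theorem Cx.ray (C : Cx θ q g w0 R T0 cab cby cr ν c₀) (hk : 0 ≤ κ) (hk3 : κ ≤ κ3) {S : ℝ}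
    (hS : Small θ cab cby κ κ3 S) :
    Ray (Leg monQ R) ν (s0 w0 (R - 1)) (sA κ κ3) (sB θ κ κ3) (0, 0) (1, -θ 1) (1, 0)
      (fun ξ => c₀ + DQ g 0 q w0 (pathQ θ w0 R ξ)) (4 + κ + κ3 + q 2 * κ + q 0 * κ3 - g)
      (Set.Ioo (1 / 3) (2 / 3)) S 11 where
  det := by
    have := C.th1
    simp only [mul_zero, zero_sub, mul_one]
    intro h; linarith
  K0 := by norm_num
  lip := fun p hp q hq => C.prf.lip' hp hq
  leg := fun ξ hξ x h0 h1 => by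
    rw [pt_eq, ← srf_eq]
    exact srf_leg C.big C.th1 hk hk3 (hS.near hk hk3 hξ.1.le hξ.2.le h0 h1)
  dmax := fun ξ hξ => by
    rw [pt_eq, ← srf_eq]
    have h1 := C.dmax _ (C.srf_PD hk hk3 (hS.near hk hk3 hξ.1.le hξ.2.le hS.pos.le le_rfl)
      (hS.r12 ξ hξ.1.le hξ.2.le) (hS.r23 ξ hξ.1.le hξ.2.le))
    rw [D_srf C.th1.ne'] at h1
    linarith
  rcd := fun ξ hξ => by
    rw [pt_eq, ← srf_eq]
    have h0 : (0 : ℝ) ≤ ξ := by linarith [hξ.1]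
    have h1 : ξ ≤ 1 := by linarith [hξ.2]
    have h2 := C.record ξ h0 h1
    have h3 := srf_le (θ := θ) (w0 := w0) (v0 := ξ) (x := 0) C.th1.ne' hk hk3
      (show R - 1 ≤ R by linarith) (le_refl (0 : ℝ))
    rw [srf_zero C.th1.ne' w0 R] at h3
    have h4 := (C.prf.lip _ (srf_leg C.big C.th1 hk hk3
      (hS.near hk hk3 hξ.1.le hξ.2.le le_rfl hS.pos.le)) _ (C.big.path_leg h0 h1) h3).1
    linarith

/-- **last rung**: left slope `≥ 4 + κ + κ3` a.e. to the left of the record line is impossible -/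
theorem Cx.dead (C : Cx θ q g w0 R T0 cab cby cr ν c₀) (hk : 0 ≤ κ) (hk3 : κ ≤ κ3) {S : ℝ}
    (hS : Small θ cab cby κ κ3 S) (hsl : q 2 * κ + q 0 * κ3 < g)
    (hF : ∀ᵐ z : ℝ × ℝ, z ∈ Om θ S → ∃ D : ℝ × ℝ →L[ℝ] ℝ,
      HasFDerivAt (fun z => ν (X (s0 w0 (R - 1)) (sA κ κ3) (sB θ κ κ3) z)) D z ∧
        D (1, 0) ≤ -(4 + κ + κ3)) : False := by
  have h1 := (C.ray hk hk3 hS).dead (g := g - q 2 * κ - q 0 * κ3) (by linarith) hS.pos
    (O := Om θ S) (fun ξ hξ s h0 h1 => ⟨ξ, s, hξ.1, hξ.2, h0, h1, pt_eq θ ξ s⟩) (by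
      filter_upwards [hF] with z hz hzO
      obtain ⟨D, hD, hD2⟩ := hz hzO
      exact ⟨D, hD, by linarith⟩)
  have h2 : MeasureTheory.volume (Set.Ioo (1 / 3 : ℝ) (2 / 3)) = 0 := by
    have h3 : Set.Ioo (1 / 3 : ℝ) (2 / 3) = {ξ : ℝ | ¬ ξ ∉ Set.Ioo (1 / 3 : ℝ) (2 / 3)} := by
      ext ξ; simp
    rw [h3]
    exact h1
  rw [Real.volume_Ioo, ENNReal.ofReal_eq_zero] at h2
  norm_num at h2

/-! ### sweeps -/

/-- sweep of the direction `e` at the record boxes with constant `c` -/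
def RecS (θ : Fin 3 → ℝ) (w0 R : ℝ) (ν : (Fin 11 → ℝ) → ℝ) (e : Fin 11 → ℝ) (c : ℝ) : Prop :=
  ∃ y0 : ℝ, 0 < y0 ∧ ∀ v : ℝ, 1 / 4 ≤ v → v ≤ 3 / 4 → ∀ y : ℝ, 0 ≤ y → y ≤ y0 →
    c * y ≤ ν (pathQ θ w0 R v) - ν (pathQ θ w0 R v + y • e)

theorem smul_eCa (y : ℝ) : y • eCa 1 = eCa y := by
  funext k; fin_cases k <;> simp [eCa]

theorem smul_eECb (y : ℝ) : y • eECb 1 = eECb y := by
  funext k; fin_cases k <;> simp [eECb]


/-- **sweep of `C_a`** with constant `q 1` -/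
theorem Cx.recA (C : Cx θ q g w0 R T0 cab cby cr ν c₀) (h1 : 0 < rm12 θ cab (1 / 4))
    (h2 : 0 < rm12 θ cab (3 / 4)) : RecS θ w0 R ν (eCa 1) (q 1) := by
  refine ⟨min 1 (min (rm12 θ cab (1 / 4)) (rm12 θ cab (3 / 4))), by positivity,
    fun v hv1 hv2 y hy hy1 => ?_⟩
  rw [smul_eCa]
  refine C.rec_Ca (by linarith) (by linarith) hy (hy1.trans (min_le_left _ _)) ?_
  refine (hy1.trans (min_le_right _ _)).trans ?_
  unfold rm12
  rcases le_total 0 (θ 1 - θ 2) with ha | ha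
  · exact (min_le_left _ _).trans (by nlinarith)
  · exact (min_le_right _ _).trans (by nlinarith)

/-- **sweep of the pair `(E, C_b)`** with constant `q 2` -/
theorem Cx.recB (C : Cx θ q g w0 R T0 cab cby cr ν c₀) (h1 : 0 < rm23 θ cby (1 / 4))
    (h2 : 0 < rm23 θ cby (3 / 4)) : RecS θ w0 R ν (eECb 1) (q 2) := by
  refine ⟨min 1 (min (rm23 θ cby (1 / 4)) (rm23 θ cby (3 / 4))), by positivity,
    fun v hv1 hv2 y hy hy1 => ?_⟩
  rw [smul_eECb]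
  refine C.rec_ECb (by linarith) (by linarith) hy (hy1.trans (min_le_left _ _)) ?_
  refine (hy1.trans (min_le_right _ _)).trans ?_
  unfold rm23
  rcases le_total 0 (θ 2 - θ 0) with ha | ha
  · exact (min_le_left _ _).trans (by nlinarith)
  · exact (min_le_right _ _).trans (by nlinarith)

/-- sweep of `C_a` from a bound of the box with the raised position, any constant `c` -/
theorem Cx.recA_of (C : Cx θ q g w0 R T0 cab cby cr ν c₀) {c : ℝ}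
    (hX : ∃ y0 : ℝ, 0 < y0 ∧ ∀ v : ℝ, 1 / 4 ≤ v → v ≤ 3 / 4 → ∀ y : ℝ, 0 ≤ y → y ≤ y0 →
      ν (pathQ θ w0 R v + eCXa y) ≤ c₀ + DQ g 0 q w0 (pathQ θ w0 R v) - (1 + c) * y) :
    RecS θ w0 R ν (eCa 1) c := by
  obtain ⟨y0, hy0, H⟩ := hX
  refine ⟨min 1 y0, by positivity, fun v hv1 hv2 y hy hy1 => ?_⟩
  have hy2 : y ≤ 1 := hy1.trans (min_le_left _ _)
  have h0 : 0 ≤ v := by linarith
  have h1 : v ≤ 1 := by linarith
  rw [smul_eCa]
  have hL1 : pathQ θ w0 R v + eCa y ∈ Leg monQ R :=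
    leg_aux C.big h0 h1 le_rfl hy le_rfl le_rfl le_rfl zero_le_one hy2 zero_le_one zero_le_one
      zero_le_one (by linarith) hy le_rfl (by linarith)
  have hL2 : pathQ θ w0 R v + eCXa y ∈ Leg monQ R :=
    leg_aux C.big h0 h1 le_rfl hy le_rfl hy le_rfl zero_le_one hy2 zero_le_one hy2
      zero_le_one (by linarith) le_rfl le_rfl (by linarith)
  have e1 := C.prf.rec_loss (d := c₀ + DQ g 0 q w0 (pathQ θ w0 R v)) hL1 hL2 (by
    intro k; fin_cases k <;> simp [eCa, eCXa, hy]) (C.record v h0 h1)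
    (H v hv1 hv2 y hy (hy1.trans (min_le_right _ _)))
  have e4 : ∑ k, (eCXa y k - eCa y k) = y := by
    simp [Fin.sum_univ_succ, eCa, eCXa]
  rw [e4] at e1
  linarith

theorem sA_nonneg (hk : 0 ≤ κ) (hk3 : κ ≤ κ3) (k : Fin 11) : 0 ≤ sA κ κ3 k := by
  fin_cases k <;> simp only [sA, nL, Matrix.cons_val, Fin.zero_eta, Fin.mk_one, Fin.reduceFinMk,
    Fin.isValue] <;> linarith

/-- record box of the level `-(t + τ)/θ 1` minus a box near the surface point `(v, t)` -/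
theorem path_sub (h1 : θ 1 ≠ 0) {k : Fin 11} (hk : k ≠ 1) (z : ℝ × ℝ) (τ y : ℝ) :
    pathQ θ w0 R (-(z.2 / θ 1) - τ / θ 1) k -
      (X (s0 w0 (R - 1)) (sA κ κ3) (sB θ κ κ3) z k + y) =
      sA κ κ3 k * (-(z.2 / θ 1) - τ / θ 1 - z.1) + (sB θ κ κ3 k * τ - y) := by
  fin_cases k <;> first
    | exact absurd rfl hk
    | (simp only [pathQ, X, s0, sA, sB, nL, nat4, Matrix.cons_val, Fin.zero_eta,
        Fin.reduceFinMk, Fin.isValue]
       field_simp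
       ring)

/-- boxes near a surface point lie below the record box -/
theorem below (hth : 0 < θ 1) (hk : 0 ≤ κ) (hk3 : κ ≤ κ3) {ξ x : ℝ} (hx : 0 < x)
    {zl : ℕ → ℝ × ℝ} (hzl : Tendsto zl atTop (𝓝 (pt θ ξ x))) {h : ℕ → ℝ} (hpos : ∀ l, 0 < h l)
    (h0 : Tendsto h atTop (𝓝 0)) {c : Fin 11 → ℝ} {τ : ℝ}
    (hb : ∀ k, k ≠ 1 → sA κ κ3 k = 0 → c k ≤ sB θ κ κ3 k * τ) :
    ∀ᶠ l in atTop, X (s0 w0 (R - 1)) (sA κ κ3) (sB θ κ κ3) (zl l) + h l • c ≤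
      pathQ θ w0 R (-((zl l).2 / θ 1) - h l * τ / θ 1) := by
  have h1 : Tendsto (fun l => (zl l).1) atTop (𝓝 (ξ - x)) := (continuous_fst.tendsto _).comp hzl
  have h2 : Tendsto (fun l => (zl l).2) atTop (𝓝 (-(θ 1 * ξ))) :=
    (continuous_snd.tendsto _).comp hzl
  have key : ∀ k : Fin 11, ∀ᶠ l in atTop,
      (X (s0 w0 (R - 1)) (sA κ κ3) (sB θ κ κ3) (zl l) + h l • c) k ≤
        pathQ θ w0 R (-((zl l).2 / θ 1) - h l * τ / θ 1) k := by
    intro k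
    simp only [Pi.add_apply, Pi.smul_apply, smul_eq_mul]
    by_cases hk1 : k = 1
    · subst hk1
      have h3 : Tendsto (fun l => h l * c 1) atTop (𝓝 0) := by
        simpa using h0.mul_const (c 1)
      filter_upwards [h3.eventually (gt_mem_nhds (show (0:ℝ) < 1 by norm_num))] with l hl
      have e1 : X (s0 w0 (R - 1)) (sA κ κ3) (sB θ κ κ3) (zl l) 1 = R - 1 := by
        simp [X, s0, sA, sB, nL, nat4]
      have e2 : pathQ θ w0 R (-((zl l).2 / θ 1) - h l * τ / θ 1) 1 = R := by simp [pathQ]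
      rw [e1, e2]; linarith
    · by_cases hA : sA κ κ3 k = 0
      · filter_upwards with l
        have e1 := path_sub (w0 := w0) (R := R) (κ := κ) (κ3 := κ3) hth.ne' hk1 (zl l) (h l * τ)
          (h l * c k)
        rw [hA, zero_mul, zero_add] at e1
        have e2 : 0 ≤ h l * (sB θ κ κ3 k * τ - c k) :=
          mul_nonneg (hpos l).le (sub_nonneg.2 (hb k hk1 hA))
        have e3 : sB θ κ κ3 k * (h l * τ) - h l * c k = h l * (sB θ κ κ3 k * τ - c k) := by ring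
        linarith
      · have hA0 : 0 < sA κ κ3 k := lt_of_le_of_ne (sA_nonneg hk hk3 k) (Ne.symm hA)
        have h3 : Tendsto (fun l => sA κ κ3 k * (-((zl l).2 / θ 1) - h l * τ / θ 1 - (zl l).1) +
            (sB θ κ κ3 k * (h l * τ) - h l * c k)) atTop
            (𝓝 (sA κ κ3 k * (-(-(θ 1 * ξ) / θ 1) - 0 * τ / θ 1 - (ξ - x)) +
              (sB θ κ κ3 k * (0 * τ) - 0 * c k))) := by
          exact ((((h2.div_const _).neg.sub ((h0.mul_const τ).div_const _)).sub h1).const_mul _).add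
            (((h0.mul_const τ).const_mul _).sub (h0.mul_const _))
        have e4 : sA κ κ3 k * (-(-(θ 1 * ξ) / θ 1) - 0 * τ / θ 1 - (ξ - x)) +
              (sB θ κ κ3 k * (0 * τ) - 0 * c k) = sA κ κ3 k * x := by
          have := hth.ne'
          field_simp
          ring
        rw [e4] at h3
        filter_upwards [h3.eventually (lt_mem_nhds (mul_pos hA0 hx))] with l hl
        have e1 := path_sub (w0 := w0) (R := R) (κ := κ) (κ3 := κ3) hth.ne' hk1 (zl l) (h l * τ)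
          (h l * c k)
        linarith
  filter_upwards [eventually_all.2 key] with l hl
  exact hl




/-! ### the facts in the thick branch -/

section thick

open Crest.Agent.R136.Top484 (Par4 Dat4)
open Crest.Agent.R136.GeoQ186 (W0 w0_zero w0_one mem_PDQ PDQ)

variable {η : ℝ} {p : Par4} {D : Dat4} {I1 : ℕ → Finset (ℕ × ℝ)} {π : Equiv.Perm (Fin 3)}
  {eE fA fB : ℕ → ℕ × ℝ → ℝ} {V T : Fin 11 → Prop} {PD : Set (Fin 11 → ℝ)}
  {own : (Fin 11 → ℝ) → ℝ}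

/-- the facts for the scalar part, with the exponents `cab, cby, cr, cc` of a reading `W0` of the
level-`0` mark (power gaps) -/
theorem Cx.of_thick (h : Thick η p D I1 π eE fA fB V T w0 R T0 PD ν own c₀) (hη : 0 < η)
    {cc : ℝ} (hW : W0 D.B D.r0 D.lev D.w cab cby cr cc) :
    Cx p.θ p.q p.g w0 R T0 (max (max 0 (p.θ 2 - p.θ 1)) cab) (max (max 0 (p.θ 0 - p.θ 2)) cby)
      (max (max 0 (1 - p.θ 0)) cr) ν c₀ where
  big := h.tp.big
  th1 := h.tp.ok.θ1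
  ab := ⟨(le_max_left _ _).trans (le_max_left _ _), (le_max_right _ _).trans (le_max_left _ _)⟩
  by' := ⟨(le_max_left _ _).trans (le_max_left _ _), (le_max_right _ _).trans (le_max_left _ _)⟩
  res := ⟨(le_max_left _ _).trans (le_max_left _ _), (le_max_right _ _).trans (le_max_left _ _)⟩
  prf := ⟨h.ext.lip, h.ext.submod⟩
  dmax := fun x hx => by
    have hth := h.tp.ok.θ1
    have h1 := ((w0_zero h.tp.pre.mka).mix (w0_one h.tp.pre.mka)).mix hW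
    obtain ⟨p0, p1, p2, p3, p4, p5, p6⟩ := hx
    refine dmax_PDQ h (q_nonneg h.tp.ok hη) (mem_PDQ h1 p0 p1 p2 p3 p4 p5 ?_)
    have e1 : p.θ 1 ≤ max (max 0 (p.θ 1)) cc := (le_max_right _ _).trans (le_max_left _ _)
    linarith
  record := h.ext.record

/-- without gap -/
theorem Cx.of_thick0 (h : Thick η p D I1 π eE fA fB V T w0 R T0 PD ν own c₀) (hη : 0 < η) :
    Cx p.θ p.q p.g w0 R T0 (max 0 (p.θ 2 - p.θ 1)) (max 0 (p.θ 0 - p.θ 2))
      (max 0 (1 - p.θ 0)) ν c₀ := by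
  have h1 := Cx.of_thick h hη (w0_zero h.tp.pre.mka)
  rwa [max_eq_left (le_max_left _ _), max_eq_left (le_max_left _ _),
    max_eq_left (le_max_left _ _)] at h1

/-- with a power gap between thickness and narrow width -/
theorem Cx.of_gap (h : Thick η p D I1 π eE fA fB V T w0 R T0 PD ν own c₀) (hη : 0 < η)
    (hG : Gap23 D) : ∃ γ : ℝ, 0 < γ ∧
    Cx p.θ p.q p.g w0 R T0 (max 0 (p.θ 2 - p.θ 1)) (max (max 0 (p.θ 0 - p.θ 2)) γ)
      (max 0 (1 - p.θ 0)) ν c₀ := by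
  obtain ⟨γ, hγ, hG⟩ := hG
  refine ⟨γ, hγ, ?_⟩
  have h0 := w0_zero h.tp.pre.mka
  have hW : W0 D.B D.r0 D.lev D.w 0 γ 0 0 :=
    { pos := h0.pos, ab := h0.ab, res := h0.res, cap := h0.cap
      by' := fun ε hε => by
        filter_upwards [hG, h0.pos 2] with n hn h2
        exact hn.trans (mul_le_mul_of_nonneg_right
          (Crest.Agent.R138.Dp76.dpow_le D.B n (by linarith)) h2.le) }
  have h1 := Cx.of_thick h hη hW
  rwa [max_eq_left (le_max_left _ _), max_eq_left (le_max_left (0:ℝ) (1 - p.θ 0))] at h1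

theorem wk12 {a b c : ℝ} : b - c ≤ max (-a) 0 + |b| + |c| := by
  have h1 := le_max_right (-a) 0
  have h2 := le_abs_self b
  have h3 := neg_abs_le c
  linarith

theorem wk10 {a b c : ℝ} : b - a ≤ max (-a) 0 + |b| + |c| := by
  have h1 := le_max_left (-a) 0
  have h2 := le_abs_self b
  have h3 := abs_nonneg c
  linarith

theorem wk20 {a b c : ℝ} : c - a ≤ max (-a) 0 + |b| + |c| := by
  have h1 := le_max_left (-a) 0
  have h2 := le_abs_self c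
  have h3 := abs_nonneg b
  linarith

theorem wk00 {a b c : ℝ} : 0 ≤ max (-a) 0 + |b| + |c| := by
  have h1 := le_max_right (-a) 0
  have h2 := abs_nonneg b
  have h3 := abs_nonneg c
  linarith

/-- **the rewards are negligible against the growth**, from the weak bound of the slopes -/
theorem slackw (ok : ParOk η p) (hη1 : η ≤ 1 / 8) (w1 : κ ≤ max (p.θ 1 - p.θ 2) 0)
    (w2 : κ3 ≤ max (-(p.θ 0)) 0 + |p.θ 1| + |p.θ 2|) : p.q 2 * κ + p.q 0 * κ3 < p.g := by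
  have g0 := ok.g0.1
  have e1 := mul_le_mul_of_nonneg_left w1 ok.q2.1.le
  have e2 := mul_le_mul_of_nonneg_left w2 ok.q0.1
  have e3 : η * p.g ≤ 1 / 8 * p.g := mul_le_mul_of_nonneg_right hη1 g0.le
  linarith [ok.θb]

/-- the same, in the form of the rows: `h1`, `h2` are not used, the true conditions `w1`, `w2` are
proved automatically for `κ = 0, θ 1 - θ 2` and `κ3 = 0, θ i - θ 0, θ 1 - θ 2` -/
theorem slack (ok : ParOk η p) (hη : 0 < η) (hη1 : η ≤ 1 / 8)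
    (hθ : p.q 2 * max (p.θ 1 - p.θ 2) 0 + p.q 0 * (max (-(p.θ 0)) 0 + |p.θ 1| + |p.θ 2|) ≤
      η * p.g) {i j k l : Fin 3} (h1 : κ ≤ |p.θ i| + |p.θ j|)
    (h2 : κ3 ≤ |p.θ k| + |p.θ l|)
    (w1 : κ ≤ max (p.θ 1 - p.θ 2) 0 := by
      first | exact le_max_left _ _ | exact le_max_right _ _ |
        exact le_trans (by linarith) (le_max_left _ _))
    (w2 : κ3 ≤ max (-(p.θ 0)) 0 + |p.θ 1| + |p.θ 2| := by
      first | exact Crest.Agent.R136.Tb628.wk10 | exact Crest.Agent.R136.Tb628.wk20 |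
        exact Crest.Agent.R136.Tb628.wk12 | exact Crest.Agent.R136.Tb628.wk00 |
        exact le_trans (by linarith) Crest.Agent.R136.Tb628.wk10 |
        exact le_trans (by linarith) Crest.Agent.R136.Tb628.wk20) :
    p.q 2 * κ + p.q 0 * κ3 < p.g := slackw ok hη1 w1 w2

end thick

end Crest.Agent.R136.Tb628
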