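import Crest.Agent.R136.C2a_355
import Crest.Agent.R136.C2w_400
import Crest.Agent.R136.NatR_550
import Crest.Agent.R136.Wq0_400

-- ▼ part R136/C2b_355
section

/-!
# R136, case (C2), F-half, part 2 (helper355)

* `NM.shiftN` : loss of `X_b` given the rest `≤` loss of `N` given the rest (raw twist).

`NM` of a window is `C2w400.nm_of_wat`.
-/

set_option autoImplicit false
set_option linter.unusedVariables false
set_option linter.unusedSectionVars false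

open Filter Topology Finset

namespace Crest.Agent.R136.C2355

open Crest.Agent.R138.Ex926 (Base U)
open Crest.Agent.R136.Gf356
open Crest.Agent.R136.Fe1355
open Crest.Agent.R136.Fe2355

section

variable {B : Base} {G : ℕ → RCfg (Fin 11)} {Leg : Set (Fin 11 → ℝ)} {ν : (Fin 11 → ℝ) → ℝ}
  {T D : ℝ} {F : ℕ → ℕ → ℝ}

/-- **`N` pays at least what `X_b` pays** (`E, F_a` at `g`, everything else at `y`) -/
theorem NM.shiftN (h : NM B G Leg ν T D F)
    (htw : RawTw B G (fun n k k' => F n k' - F n k)) {g y : ℝ} (hg : 0 ≤ g) (hgy : g ≤ y)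
    (hyT : y ≤ T) :
    ν (bv g g y y y y 0 y) - ν (bv g g y y y y y y) ≤
      ν (bv g g y y y y 0 0) - ν (bv g g y y y y 0 y) := by
  have hT := h.T0
  have hy : 0 ≤ y := hg.trans hgy
  have L : ∀ xb n : ℝ, 0 ≤ xb → xb ≤ y → 0 ≤ n → n ≤ y → bv g g y y y y xb n ∈ Leg := by
    intro xb n h1 h2 h3 h4
    exact h.leg g g y y y y xb n hg (hgy.trans hyT) hg (hgy.trans hyT) hy hyT hy hyT hy hyT hy hyT
      h1 (h2.trans hyT) h3 (h4.trans hyT) (by linarith) (by linarith) (by linarith) (by linarith)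
  refine shift_R h.H _ _ _ _ (L 0 y le_rfl hy hy le_rfl) (L y y hy le_rfl hy le_rfl)
    (L 0 0 le_rfl hy le_rfl hy) (L 0 y le_rfl hy hy le_rfl) ?_ 9 10 (y := y) ?_ ?_ ?_
    (fun n k k' => -(F n k' - F n k)) ?_ ?_
  · intro j
    fin_cases j <;> simp [bv, hy]
  · simp [bv]
  · intro j hj
    fin_cases j <;> simp [bv] at hj ⊢
  · simp [bv]
  · intro ε hε
    filter_upwards [htw ε hε] with n hn i hi T' hT' hq
    exact hn i hi T' hT' fun q hqT => by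
      have := hq q hqT
      rwa [abs_neg] at this
  intro C0 hC0
  refine ⟨C0 + 3, by linarith, fun ε hε => ?_⟩
  filter_upwards [h.ev ε hε, h.zb ε hε, h.rb ε hε, ev_const_le B hε 4]
    with n hev hzb hrb h4 k hk k' hk' i i' hi hi' hl hl' hlo
  obtain ⟨hu, hφ⟩ := hzb k hk k' hk'
  have e := hev k k' i i' hi hl hi' hl'
  have e2 := e.e2
  have e4 := e.e4
  have e5 := e.e5
  have e6 := e.e6
  have e7 := e.e7
  have e8 := e.e8
  have e9 := e.e9
  have e10 := e.e10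
  set r := (G n).rel k i i' with hr
  set r' := (G n).rel k' i i' with hr'
  set u := (G n).z k' - (G n).z k with hu'
  set φ := F n k' - F n k with hφ'
  have ρ0 : ∀ t : ℝ, 0 < B.d n ^ t := fun t => rpos B n t
  have ra : ∀ {s t : ℝ}, t ≤ s → B.d n ^ s ≤ B.d n ^ t := fun hst => rpow_anti B n hst
  have hlo' : ∀ j, |r j| ≤ B.d n ^ (bv g g y y y y 0 y j - C0 * ε) := by
    intro j
    have := hlo j
    rwa [h.H.base n] at this
  have l2 : |r 2| ≤ B.d n ^ (g - C0 * ε) := by simpa [bv] using hlo' 2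
  have l4 : |r 4| ≤ B.d n ^ (g - C0 * ε) := by simpa [bv] using hlo' 4
  have l5 : |r 5| ≤ B.d n ^ (y - C0 * ε) := by simpa [bv] using hlo' 5
  have l6 : |r 6| ≤ B.d n ^ (y - C0 * ε) := by simpa [bv] using hlo' 6
  have l7 : |r 7| ≤ B.d n ^ (y - C0 * ε) := by simpa [bv] using hlo' 7
  have l8 : |r 8| ≤ B.d n ^ (y - C0 * ε) := by simpa [bv] using hlo' 8
  have l10 : |r 10| ≤ B.d n ^ (y - C0 * ε) := by simpa [bv] using hlo' 10
  have hC0ε : 0 ≤ C0 * ε := by positivity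
  -- products
  have mul1 : ∀ {w x t : ℝ}, |w| ≤ B.d n ^ (-ε) → |x| ≤ B.d n ^ t →
      |w * x| ≤ B.d n ^ (t - ε) := by
    intro w x t hw hx
    rw [abs_mul, show t - ε = -ε + t by ring, rpow_add']
    exact mul_le_mul hw hx (abs_nonneg _) (ρ0 _).le
  have four : ∀ {t : ℝ}, 4 * B.d n ^ t ≤ B.d n ^ (t - ε) := by
    intro t
    rw [show t - ε = -ε + t by ring, rpow_add']
    exact mul_le_mul_of_nonneg_right h4 (ρ0 _).le
  have hb : ∀ j, |r' j| ≤ B.d n ^ (-ε) := hrb k' i i' hi' hl'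
  have hδ : B.d n ^ (T - ε) ≤ B.d n ^ (y - (C0 + 2) * ε) := ra (by nlinarith)
  have hδg : B.d n ^ (T - ε) ≤ B.d n ^ (g - (C0 + 2) * ε) := ra (by nlinarith)
  have t0 : ∀ {t : ℝ}, B.d n ^ (t - C0 * ε) ≤ B.d n ^ (t - (C0 + 2) * ε) := fun {t} =>
    ra (by nlinarith)
  have t1 : ∀ {t : ℝ}, B.d n ^ (t - C0 * ε - ε) ≤ B.d n ^ (t - (C0 + 2) * ε) := fun {t} =>
    ra (by nlinarith)
  have t2 : ∀ {t : ℝ}, B.d n ^ (t - C0 * ε - ε - ε) ≤ B.d n ^ (t - (C0 + 2) * ε) := fun {t} =>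
    ra (by nlinarith)
  have fin : ∀ {t x : ℝ}, |x| ≤ 4 * B.d n ^ (t - (C0 + 2) * ε) →
      |x| ≤ B.d n ^ (t - (C0 + 3) * ε) := by
    intro t x hx
    refine hx.trans (four.trans (ra ?_))
    linarith
  refine ⟨?_, ?_⟩
  · have hz : ∀ j, bv g g y y y y 0 0 j = 0 → |r' j| ≤ (G n).ρ ^ (bv g g y y y y 0 0 j -
        (C0 + 3) * ε) := by
      intro j hj
      rw [h.H.base n, hj]
      exact (hb j).trans (ra (by nlinarith))
    intro j
    fin_cases j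
    · exact hz 0 (by simp [bv])
    · exact hz 1 (by simp [bv])
    · change |r' 2| ≤ (G n).ρ ^ (g - (C0 + 3) * ε)
      rw [h.H.base n]
      refine fin ?_
      have a1 : |r' 2| ≤ |r' 2 - r 2| + |r 2| := by
        have := abs_add_le (r' 2 - r 2) (r 2)
        rwa [sub_add_cancel] at this
      have := t0 (t := g)
      have := ρ0 (g - (C0 + 2) * ε)
      linarith
    · exact hz 3 (by simp [bv])
    · change |r' 4| ≤ (G n).ρ ^ (g - (C0 + 3) * ε)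
      rw [h.H.base n]
      refine fin ?_
      have a1 : |r' 4| ≤ |r' 4 - (r 4 - φ * r 2)| + |r 4 - φ * r 2| := by
        have := abs_add_le (r' 4 - (r 4 - φ * r 2)) (r 4 - φ * r 2)
        rwa [sub_add_cancel] at this
      have a2 := abs_sub (r 4) (φ * r 2)
      have a3 := mul1 hφ l2
      have := t0 (t := g)
      have := t1 (t := g)
      have := ρ0 (g - (C0 + 2) * ε)
      linarith
    · change |r' 5| ≤ (G n).ρ ^ (y - (C0 + 3) * ε)
      rw [h.H.base n]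
      refine fin ?_
      have a1 : |r' 5| ≤ |r' 5 - r 5| + |r 5| := by
        have := abs_add_le (r' 5 - r 5) (r 5)
        rwa [sub_add_cancel] at this
      have := t0 (t := y)
      have := ρ0 (y - (C0 + 2) * ε)
      linarith
    · change |r' 6| ≤ (G n).ρ ^ (y - (C0 + 3) * ε)
      rw [h.H.base n]
      refine fin ?_
      have a1 : |r' 6| ≤ |r' 6 - r 6| + |r 6| := by
        have := abs_add_le (r' 6 - r 6) (r 6)
        rwa [sub_add_cancel] at this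
      have := t0 (t := y)
      have := ρ0 (y - (C0 + 2) * ε)
      linarith
    · change |r' 7| ≤ (G n).ρ ^ (y - (C0 + 3) * ε)
      rw [h.H.base n]
      refine fin ?_
      have a1 : |r' 7| ≤ |r' 7 - (r 7 - φ * r 6)| + |r 7 - φ * r 6| := by
        have := abs_add_le (r' 7 - (r 7 - φ * r 6)) (r 7 - φ * r 6)
        rwa [sub_add_cancel] at this
      have a2 := abs_sub (r 7) (φ * r 6)
      have a3 := mul1 hφ l6
      have := t0 (t := y)
      have := t1 (t := y)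
      have := ρ0 (y - (C0 + 2) * ε)
      linarith
    · change |r' 8| ≤ (G n).ρ ^ (y - (C0 + 3) * ε)
      rw [h.H.base n]
      refine fin ?_
      have a1 : |r' 8| ≤ |r' 8 - (r 8 + u * r 5)| + |r 8 + u * r 5| := by
        have := abs_add_le (r' 8 - (r 8 + u * r 5)) (r 8 + u * r 5)
        rwa [sub_add_cancel] at this
      have a2 := abs_add_le (r 8) (u * r 5)
      have a3 := mul1 hu l5
      have := t0 (t := y)
      have := t1 (t := y)
      have := ρ0 (y - (C0 + 2) * ε)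
      linarith
    · exact hz 9 (by simp [bv])
    · exact hz 10 (by simp [bv])
  · refine fin ?_
    have a0 : r' 10 - -φ * r 9 = (r' 10 - (r 10 + u * r 7 - φ * (r 9 + u * r 6))) +
        (r 10 + (u * r 7 - φ * (u * r 6))) := by ring
    rw [a0]
    have a1 := abs_add_le (r' 10 - (r 10 + u * r 7 - φ * (r 9 + u * r 6)))
      (r 10 + (u * r 7 - φ * (u * r 6)))
    have a2 := abs_add_le (r 10) (u * r 7 - φ * (u * r 6))
    have a3 := abs_sub (u * r 7) (φ * (u * r 6))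
    have a4 := mul1 hu l7
    have a5 := mul1 hφ (mul1 hu l6)
    have := t0 (t := y)
    have := t1 (t := y)
    have := t2 (t := y)
    linarith

end

end Crest.Agent.R136.C2355
end

-- ▼ part R136/C2c_355
section

/-!
# R136, case (C2), F-half, part 3 (helper355): from the models to the slope

* `dec_slot` : the loss of a slot depends only on its own group (219's `OutS`);
* `lam_Tn` : the profile along the plane;
* `C2D` : tangent of the plane `v * nL 1 0 0 κ + t * nL 0 1 σ σ` together with the natural window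
  model `NM` and two sweeps;
* `C2D.xa`, `C2D.xb` : `X_a`, `X_b` are full; `C2D.slope` : `κ ≠ 1`: the slope is `≤ -(4 + κ)`.
-/

set_option autoImplicit false
set_option linter.unusedVariables false
set_option linter.unusedSectionVars false

open Filter Topology Finset

namespace Crest.Agent.R136.C2355

open Crest.Agent.R138.Ex926 (Base U)
open Crest.Agent.R136.Gf356
open Crest.Agent.R136.Fe1355
open Crest.Agent.R136.Dg219
open Crest.Agent.R136.NatR550 (coneN nL)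

section gen

variable {m : ℕ} {L : Set (Fin m → ℝ)} {lam : (Fin m → ℝ) → ℝ} {A : ℝ × ℝ}
  {φ : ℕ → (Fin m → ℝ) → ℝ} {r : ℕ → ℝ}

/-- **the loss of a slot depends only on its own group** -/
theorem dec_slot {grp : Fin m → ℕ} {dh : Fin m → ℝ} {nn : ℕ → ℝ × ℝ}
    (h : OutS grp L dh nn lam A φ r) (s : Fin m) {c c' d d' : Fin m → ℝ} (hc : c ∈ L)
    (hc' : c' ∈ L) (hd : d ∈ L) (hd' : d' ∈ L) (h1 : ∀ i, i ≠ s → c i = c' i)
    (h2 : ∀ i, i ≠ s → d i = d' i) (h3 : ∀ i, c i = d i ∨ grp i ≠ grp s) (h4 : c' s = d' s) :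
    lam c - lam c' = lam d - lam d' := by
  rw [h.sum _ hc, h.sum _ hc', h.sum _ hd, h.sum _ hd', ← sum_sub_distrib, ← sum_sub_distrib]
  refine sum_congr rfl fun k hk => ?_
  by_cases hks : k = grp s
  · subst hks
    have e1 : φ (grp s) c = φ (grp s) d := h.loc _ _ _ fun i hi =>
      (h3 i).resolve_right (fun hne => hne hi)
    have e2 : φ (grp s) c' = φ (grp s) d' := h.loc _ _ _ fun i hi => by
      by_cases his : i = s
      · subst his; exact h4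
      · rw [← h1 i his, ← h2 i his]; exact (h3 i).resolve_right (fun hne => hne hi)
    rw [e1, e2]
  · have e1 : φ k c = φ k c' := h.loc _ _ _ fun i hi => h1 i (by rintro rfl; exact hks hi.symm)
    have e2 : φ k d = φ k d' := h.loc _ _ _ fun i hi => h2 i (by rintro rfl; exact hks hi.symm)
    rw [e1, e2, sub_self, sub_self]

/-- **the profile along the plane** -/
theorem lam_Tn {a b : Fin m → ℝ} (h : OutS (gC a b) L (dhC a b) (nC a b) lam A φ r) {z : ℝ × ℝ}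
    (hz : Tn a b z ∈ L) : lam (Tn a b z) = lf A z := by
  rw [h.sum _ hz, h.total z, ← sum_neg_distrib]
  refine sum_congr rfl fun k hk => ?_
  exact h.rate k _ hz (lf (nC a b k) z) fun i hi => by rw [dirC.Tn_eq, hi]

end gen

/-! ### groups of the plane -/

section grp

variable {κ σ : ℝ}

theorem nL_a : nL 1 0 0 κ = ![1, 0, 0, κ, κ, 0, 0, κ, 1, 1, 1 + κ] := by
  unfold nL; simp

theorem nL_b : nL 0 1 σ σ = ![0, 0, σ - 1, 0, σ - 1, 1, σ, σ, 1, σ, σ] := by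
  unfold nL; simp

/-- groups of the natural plane of (C2) -/
structure Gr (κ σ : ℝ) (g : Fin 11 → ℕ) : Prop where
  z1 : g 1 = 0
  z2 : g 2 = 0
  z5 : g 5 = 0
  z6 : g 6 = 0
  n0 : g 0 ≠ 0
  n3 : g 3 ≠ 0
  n4 : g 4 ≠ 0
  n7 : g 7 ≠ 0
  n8 : g 8 ≠ 0
  n9 : g 9 ≠ 0
  n10 : g 10 ≠ 0
  e03 : g 0 = g 3
  n04 : g 0 ≠ g 4
  n07 : g 0 ≠ g 7
  n08 : g 0 ≠ g 8
  n09 : g 0 ≠ g 9
  n010 : g 0 ≠ g 10
  n89 : g 8 ≠ g 9
  n910 : g 9 ≠ g 10
  n79 : κ ≠ 1 → g 7 ≠ g 9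
  n49 : σ * (1 - κ) ≠ 1 → g 4 ≠ g 9
  n410 : σ ≠ 1 + κ → g 4 ≠ g 10
  n710 : g 7 ≠ g 10
  n810 : σ ≠ 1 + κ → g 8 ≠ g 10

theorem gr (hκ : 0 < κ) (hσ : σ ≠ 0) (hσ1 : σ ≠ 1) :
    Gr κ σ (gC (nL 1 0 0 κ) (nL 0 1 σ σ)) := by
  rw [nL_a, nL_b]
  set a : Fin 11 → ℝ := ![1, 0, 0, κ, κ, 0, 0, κ, 1, 1, 1 + κ] with ha
  set b : Fin 11 → ℝ := ![0, 0, σ - 1, 0, σ - 1, 1, σ, σ, 1, σ, σ] with hb
  have hκ0 := hκ.ne'
  have hκ1 : (1 : ℝ) + κ ≠ 0 := by positivity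
  have a0 : a 0 ≠ 0 := by simp [ha]
  have a3 : a 3 ≠ 0 := by simp [ha, hκ0]
  have a4 : a 4 ≠ 0 := by simp [ha, hκ0]
  have a7 : a 7 ≠ 0 := by simp [ha, hκ0]
  have a8 : a 8 ≠ 0 := by simp [ha]
  have a9 : a 9 ≠ 0 := by simp [ha]
  have a10 : a 10 ≠ 0 := by simp [ha, hκ1]
  have hσ1' : σ - 1 ≠ 0 := sub_ne_zero.2 hσ1
  refine ⟨gC_zero.2 (by simp [ha]), gC_zero.2 (by simp [ha]), gC_zero.2 (by simp [ha]),
    gC_zero.2 (by simp [ha]), fun e => a0 (gC_zero.1 e), fun e => a3 (gC_zero.1 e),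
    fun e => a4 (gC_zero.1 e), fun e => a7 (gC_zero.1 e), fun e => a8 (gC_zero.1 e),
    fun e => a9 (gC_zero.1 e), fun e => a10 (gC_zero.1 e), ?_, ?_, ?_, ?_, ?_, ?_, ?_, ?_, ?_, ?_,
    ?_, ?_, ?_⟩
  · rw [gC_eq a0 a3]; simp [ha, hb]
  · rw [Ne, gC_eq a0 a4]
    simp only [ha, hb, Matrix.cons_val]
    intro e
    rw [zero_div, eq_comm, div_eq_zero_iff] at e
    exact e.elim hσ1' hκ0
  · rw [Ne, gC_eq a0 a7]
    simp only [ha, hb, Matrix.cons_val]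
    intro e
    rw [zero_div, eq_comm, div_eq_zero_iff] at e
    exact e.elim hσ hκ0
  · rw [Ne, gC_eq a0 a8]; simp [ha, hb]
  · rw [Ne, gC_eq a0 a9]
    simp only [ha, hb, Matrix.cons_val]
    intro e
    rw [zero_div, div_one] at e
    exact hσ e.symm
  · rw [Ne, gC_eq a0 a10]
    simp only [ha, hb, Matrix.cons_val]
    intro e
    rw [zero_div, eq_comm, div_eq_zero_iff] at e
    exact e.elim hσ hκ1
  · rw [Ne, gC_eq a8 a9]
    simp only [ha, hb, Matrix.cons_val]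
    intro e
    rw [div_one, div_one] at e
    exact hσ1 e.symm
  · rw [Ne, gC_eq a9 a10]
    simp only [ha, hb, Matrix.cons_val]
    intro e
    rw [div_eq_div_iff one_ne_zero hκ1] at e
    have : σ * κ = 0 := by linarith
    rcases mul_eq_zero.1 this with h | h
    · exact hσ h
    · exact hκ0 h
  · intro h1
    rw [Ne, gC_eq a7 a9]
    simp only [ha, hb, Matrix.cons_val]
    intro e
    rw [div_eq_div_iff hκ0 one_ne_zero] at e
    have : σ * (1 - κ) = 0 := by linarith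
    rcases mul_eq_zero.1 this with h | h
    · exact hσ h
    · exact h1 (by linarith)
  · intro h1
    rw [Ne, gC_eq a4 a9]
    simp only [ha, hb, Matrix.cons_val]
    intro e
    rw [div_eq_div_iff hκ0 one_ne_zero] at e
    exact h1 (by linarith)
  · intro h1
    rw [Ne, gC_eq a4 a10]
    simp only [ha, hb, Matrix.cons_val]
    intro e
    rw [div_eq_div_iff hκ0 hκ1] at e
    exact h1 (by nlinarith)
  · rw [Ne, gC_eq a7 a10]
    simp only [ha, hb, Matrix.cons_val]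
    intro e
    rw [div_eq_div_iff hκ0 hκ1] at e
    exact hσ (by linarith)
  · intro h1
    rw [Ne, gC_eq a8 a10]
    simp only [ha, hb, Matrix.cons_val]
    intro e
    rw [div_eq_div_iff one_ne_zero hκ1] at e
    exact h1 (by linarith)

end grp

/-! ### vectors -/

/-- all slots but the first one (`z`, `F_b`, `E`, `F_a`, `C_a`, `C_b`, `P`, `X_a`, `X_b`, `N`) -/
def v11 (z fb e fa ca cb p xa xb n : ℝ) : Fin 11 → ℝ := ![z, 0, e, fb, fa, ca, cb, p, xa, xb, n]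

theorem v11_mem {z fb e fa ca cb p xa xb n : ℝ} (h1 : fa ≤ e + fb) (h2 : cb ≤ e + ca)
    (h3 : p ≤ fa + ca) (h4 : p ≤ fb + cb) (h5 : xa ≤ z + ca) (h6 : xb ≤ z + cb)
    (h7 : xb ≤ e + xa) (h8 : n ≤ z + p) (h9 : n ≤ fa + xa) (h10 : n ≤ fb + xb) :
    v11 z fb e fa ca cb p xa xb n ∈ coneN :=
  ⟨h1, h2, h3, h4, h5, h6, h7, h8, h9, h10⟩

theorem v11_zero : v11 0 0 0 0 0 0 0 0 0 0 = 0 := by
  funext i; fin_cases i <;> simp [v11]

theorem v11_5 (x : ℝ) : (Pi.single 5 x : Fin 11 → ℝ) = v11 0 0 0 0 x 0 0 0 0 0 := by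
  funext i; fin_cases i <;> simp [v11]


theorem v11_26 (x : ℝ) : (Pi.single 2 x + Pi.single 6 x : Fin 11 → ℝ) =
    v11 0 0 x 0 0 x 0 0 0 0 := by
  funext i; fin_cases i <;> simp [v11]

theorem v11_0 (x : ℝ) : (Pi.single 0 x : Fin 11 → ℝ) = v11 x 0 0 0 0 0 0 0 0 0 := by
  funext i; fin_cases i <;> simp [v11]

theorem m_zero : (0 : Fin 11 → ℝ) ∈ coneN := by
  rw [← v11_zero]; apply v11_mem <;> linarith

theorem m_5 {x : ℝ} (hx : 0 ≤ x) : (Pi.single 5 x : Fin 11 → ℝ) ∈ coneN := by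
  rw [v11_5]; apply v11_mem <;> linarith


theorem m_26 {x : ℝ} (hx : 0 ≤ x) : (Pi.single 2 x + Pi.single 6 x : Fin 11 → ℝ) ∈ coneN := by
  rw [v11_26]; apply v11_mem <;> linarith

theorem m_0 {x : ℝ} (hx : 0 ≤ x) : (Pi.single 0 x : Fin 11 → ℝ) ∈ coneN := by
  rw [v11_0]; apply v11_mem <;> linarith

theorem v11_le {z fb e fa ca cb p xa xb n z' fb' e' fa' ca' cb' p' xa' xb' n' : ℝ}
    (h0 : z ≤ z') (h3 : fb ≤ fb') (h2 : e ≤ e') (h4 : fa ≤ fa') (h5 : ca ≤ ca') (h6 : cb ≤ cb')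
    (h7 : p ≤ p') (h8 : xa ≤ xa') (h9 : xb ≤ xb') (h10 : n ≤ n') :
    v11 z fb e fa ca cb p xa xb n ≤ v11 z' fb' e' fa' ca' cb' p' xa' xb' n' := by
  intro i; fin_cases i <;> simp [v11] <;> assumption

theorem v11_Tn (κ σ u : ℝ) : Tn (nL 1 0 0 κ) (nL 0 1 σ σ) (u, 0) =
    v11 u (κ * u) 0 (κ * u) 0 0 (κ * u) u u ((1 + κ) * u) := by
  rw [nL_a, nL_b]
  funext i; fin_cases i <;> simp [v11, Tn]

/-! ### losses of the slots of `v11` -/

section dec

variable {κ σ : ℝ} {lam : (Fin 11 → ℝ) → ℝ} {A : ℝ × ℝ} {φ : ℕ → (Fin 11 → ℝ) → ℝ} {r : ℕ → ℝ}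



theorem ne2 {z fb e fa ca cb p xa xb n e' : ℝ} : ∀ i, i ≠ 2 →
    v11 z fb e fa ca cb p xa xb n i = v11 z fb e' fa ca cb p xa xb n i := by
  intro i hi; fin_cases i <;> simp [v11] at hi ⊢


theorem ne5 {z fb e fa ca cb p xa xb n ca' : ℝ} : ∀ i, i ≠ 5 →
    v11 z fb e fa ca cb p xa xb n i = v11 z fb e fa ca' cb p xa xb n i := by
  intro i hi; fin_cases i <;> simp [v11] at hi ⊢

theorem ne6 {z fb e fa ca cb p xa xb n cb' : ℝ} : ∀ i, i ≠ 6 →
    v11 z fb e fa ca cb p xa xb n i = v11 z fb e fa ca cb' p xa xb n i := by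
  intro i hi; fin_cases i <;> simp [v11] at hi ⊢


theorem ne8 {z fb e fa ca cb p xa xb n xa' : ℝ} : ∀ i, i ≠ 8 →
    v11 z fb e fa ca cb p xa xb n i = v11 z fb e fa ca cb p xa' xb n i := by
  intro i hi; fin_cases i <;> simp [v11] at hi ⊢

theorem ne9 {z fb e fa ca cb p xa xb n xb' : ℝ} : ∀ i, i ≠ 9 →
    v11 z fb e fa ca cb p xa xb n i = v11 z fb e fa ca cb p xa xb' n i := by
  intro i hi; fin_cases i <;> simp [v11] at hi ⊢

theorem ne10 {z fb e fa ca cb p xa xb n n' : ℝ} : ∀ i, i ≠ 10 →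
    v11 z fb e fa ca cb p xa xb n i = v11 z fb e fa ca cb p xa xb n' i := by
  intro i hi; fin_cases i <;> simp [v11] at hi ⊢

theorem dec5 {grp : Fin 11 → ℕ} (g : Gr κ σ grp) {dh : Fin 11 → ℝ} {nn : ℕ → ℝ × ℝ}
    (h : OutS grp coneN dh nn lam A φ r)
    {z fb e fa ca cb p xa xb n ca' z2 fb2 fa2 p2 xa2 xb2 n2 : ℝ}
    (m1 : v11 z fb e fa ca cb p xa xb n ∈ coneN) (m2 : v11 z fb e fa ca' cb p xa xb n ∈ coneN)
    (m3 : v11 z2 fb2 e fa2 ca cb p2 xa2 xb2 n2 ∈ coneN)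
    (m4 : v11 z2 fb2 e fa2 ca' cb p2 xa2 xb2 n2 ∈ coneN) :
    lam (v11 z fb e fa ca cb p xa xb n) - lam (v11 z fb e fa ca' cb p xa xb n) =
      lam (v11 z2 fb2 e fa2 ca cb p2 xa2 xb2 n2) -
        lam (v11 z2 fb2 e fa2 ca' cb p2 xa2 xb2 n2) := by
  have f0 : grp 0 ≠ grp 5 := fun e => g.n0 (e.trans g.z5)
  have f3 : grp 3 ≠ grp 5 := fun e => g.n3 (e.trans g.z5)
  have f4 : grp 4 ≠ grp 5 := fun e => g.n4 (e.trans g.z5)
  have f7 : grp 7 ≠ grp 5 := fun e => g.n7 (e.trans g.z5)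
  have f8 : grp 8 ≠ grp 5 := fun e => g.n8 (e.trans g.z5)
  have f9 : grp 9 ≠ grp 5 := fun e => g.n9 (e.trans g.z5)
  have f10 : grp 10 ≠ grp 5 := fun e => g.n10 (e.trans g.z5)
  refine dec_slot h 5 m1 m2 m3 m4 ne5 ne5 ?_ (by simp [v11])
  intro i
  fin_cases i <;> simp [v11, f0, f3, f4, f7, f8, f9, f10]

theorem dec2 {grp : Fin 11 → ℕ} (g : Gr κ σ grp) {dh : Fin 11 → ℝ} {nn : ℕ → ℝ × ℝ}
    (h : OutS grp coneN dh nn lam A φ r)
    {z fb e fa ca cb p xa xb n e' z2 fb2 fa2 p2 xa2 xb2 n2 : ℝ}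
    (m1 : v11 z fb e fa ca cb p xa xb n ∈ coneN) (m2 : v11 z fb e' fa ca cb p xa xb n ∈ coneN)
    (m3 : v11 z2 fb2 e fa2 ca cb p2 xa2 xb2 n2 ∈ coneN)
    (m4 : v11 z2 fb2 e' fa2 ca cb p2 xa2 xb2 n2 ∈ coneN) :
    lam (v11 z fb e fa ca cb p xa xb n) - lam (v11 z fb e' fa ca cb p xa xb n) =
      lam (v11 z2 fb2 e fa2 ca cb p2 xa2 xb2 n2) -
        lam (v11 z2 fb2 e' fa2 ca cb p2 xa2 xb2 n2) := by
  have f0 : grp 0 ≠ grp 2 := fun e => g.n0 (e.trans g.z2)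
  have f3 : grp 3 ≠ grp 2 := fun e => g.n3 (e.trans g.z2)
  have f4 : grp 4 ≠ grp 2 := fun e => g.n4 (e.trans g.z2)
  have f7 : grp 7 ≠ grp 2 := fun e => g.n7 (e.trans g.z2)
  have f8 : grp 8 ≠ grp 2 := fun e => g.n8 (e.trans g.z2)
  have f9 : grp 9 ≠ grp 2 := fun e => g.n9 (e.trans g.z2)
  have f10 : grp 10 ≠ grp 2 := fun e => g.n10 (e.trans g.z2)
  refine dec_slot h 2 m1 m2 m3 m4 ne2 ne2 ?_ (by simp [v11])
  intro i
  fin_cases i <;> simp [v11, f0, f3, f4, f7, f8, f9, f10]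

theorem dec6 {grp : Fin 11 → ℕ} (g : Gr κ σ grp) {dh : Fin 11 → ℝ} {nn : ℕ → ℝ × ℝ}
    (h : OutS grp coneN dh nn lam A φ r)
    {z fb e fa ca cb p xa xb n cb' z2 fb2 fa2 p2 xa2 xb2 n2 : ℝ}
    (m1 : v11 z fb e fa ca cb p xa xb n ∈ coneN) (m2 : v11 z fb e fa ca cb' p xa xb n ∈ coneN)
    (m3 : v11 z2 fb2 e fa2 ca cb p2 xa2 xb2 n2 ∈ coneN)
    (m4 : v11 z2 fb2 e fa2 ca cb' p2 xa2 xb2 n2 ∈ coneN) :
    lam (v11 z fb e fa ca cb p xa xb n) - lam (v11 z fb e fa ca cb' p xa xb n) =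
      lam (v11 z2 fb2 e fa2 ca cb p2 xa2 xb2 n2) -
        lam (v11 z2 fb2 e fa2 ca cb' p2 xa2 xb2 n2) := by
  have f0 : grp 0 ≠ grp 6 := fun e => g.n0 (e.trans g.z6)
  have f3 : grp 3 ≠ grp 6 := fun e => g.n3 (e.trans g.z6)
  have f4 : grp 4 ≠ grp 6 := fun e => g.n4 (e.trans g.z6)
  have f7 : grp 7 ≠ grp 6 := fun e => g.n7 (e.trans g.z6)
  have f8 : grp 8 ≠ grp 6 := fun e => g.n8 (e.trans g.z6)
  have f9 : grp 9 ≠ grp 6 := fun e => g.n9 (e.trans g.z6)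
  have f10 : grp 10 ≠ grp 6 := fun e => g.n10 (e.trans g.z6)
  refine dec_slot h 6 m1 m2 m3 m4 ne6 ne6 ?_ (by simp [v11])
  intro i
  fin_cases i <;> simp [v11, f0, f3, f4, f7, f8, f9, f10]

theorem dec8 {grp : Fin 11 → ℕ} (g : Gr κ σ grp) {dh : Fin 11 → ℝ} {nn : ℕ → ℝ × ℝ}
    (h : OutS grp coneN dh nn lam A φ r)
    {z fb e fa ca cb p xa xb n xa' z2 fb2 e2 ca2 cb2 xb2 : ℝ}
    (m1 : v11 z fb e fa ca cb p xa xb n ∈ coneN) (m2 : v11 z fb e fa ca cb p xa' xb n ∈ coneN)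
    (m3 : v11 z2 fb2 e2 fa ca2 cb2 p xa xb2 n ∈ coneN)
    (m4 : v11 z2 fb2 e2 fa ca2 cb2 p xa' xb2 n ∈ coneN) :
    lam (v11 z fb e fa ca cb p xa xb n) - lam (v11 z fb e fa ca cb p xa' xb n) =
      lam (v11 z2 fb2 e2 fa ca2 cb2 p xa xb2 n) -
        lam (v11 z2 fb2 e2 fa ca2 cb2 p xa' xb2 n) := by
  have f0 : grp 0 ≠ grp 8 := g.n08
  have f3 : grp 3 ≠ grp 8 := fun e => g.n08 (g.e03.trans e)
  have f2 : grp 2 ≠ grp 8 := fun e => g.n8 (e.symm.trans g.z2)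
  have f5 : grp 5 ≠ grp 8 := fun e => g.n8 (e.symm.trans g.z5)
  have f6 : grp 6 ≠ grp 8 := fun e => g.n8 (e.symm.trans g.z6)
  have f9 : grp 9 ≠ grp 8 := fun e => g.n89 e.symm
  refine dec_slot h 8 m1 m2 m3 m4 ne8 ne8 ?_ (by simp [v11])
  intro i
  fin_cases i <;> simp [v11, f0, f3, f2, f5, f6, f9]

theorem dec9 {grp : Fin 11 → ℕ} (g : Gr κ σ grp) {dh : Fin 11 → ℝ} {nn : ℕ → ℝ × ℝ}
    (h : OutS grp coneN dh nn lam A φ r)
    {z fb e fa ca cb p xa xb n xb' z2 fb2 e2 fa2 ca2 cb2 p2 xa2 n2 : ℝ}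
    (m1 : v11 z fb e fa ca cb p xa xb n ∈ coneN) (m2 : v11 z fb e fa ca cb p xa xb' n ∈ coneN)
    (m3 : v11 z2 fb2 e2 fa2 ca2 cb2 p2 xa2 xb n2 ∈ coneN)
    (m4 : v11 z2 fb2 e2 fa2 ca2 cb2 p2 xa2 xb' n2 ∈ coneN)
    (hfa : fa = fa2 ∨ grp 4 ≠ grp 9)
    (hp : p = p2 ∨ grp 7 ≠ grp 9) :
    lam (v11 z fb e fa ca cb p xa xb n) - lam (v11 z fb e fa ca cb p xa xb' n) =
      lam (v11 z2 fb2 e2 fa2 ca2 cb2 p2 xa2 xb n2) -
        lam (v11 z2 fb2 e2 fa2 ca2 cb2 p2 xa2 xb' n2) := by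
  have f0 : grp 0 ≠ grp 9 := g.n09
  have f3 : grp 3 ≠ grp 9 := fun e => g.n09 (g.e03.trans e)
  have f2 : grp 2 ≠ grp 9 := fun e => g.n9 (e.symm.trans g.z2)
  have f5 : grp 5 ≠ grp 9 := fun e => g.n9 (e.symm.trans g.z5)
  have f6 : grp 6 ≠ grp 9 := fun e => g.n9 (e.symm.trans g.z6)
  have f8 : grp 8 ≠ grp 9 := g.n89
  have f10 : grp 10 ≠ grp 9 := fun e => g.n910 e.symm
  refine dec_slot h 9 m1 m2 m3 m4 ne9 ne9 ?_ (by simp [v11])
  intro i
  fin_cases i <;> simp [v11, f0, f3, f2, f5, f6, f8, f10]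
  · exact hfa
  · exact hp

theorem dec10 {grp : Fin 11 → ℕ} (g : Gr κ σ grp) {dh : Fin 11 → ℝ} {nn : ℕ → ℝ × ℝ}
    (h : OutS grp coneN dh nn lam A φ r)
    {z fb e fa ca cb p xa xb n n' z2 fb2 e2 fa2 ca2 cb2 p2 xa2 xb2 : ℝ}
    (m1 : v11 z fb e fa ca cb p xa xb n ∈ coneN) (m2 : v11 z fb e fa ca cb p xa xb n' ∈ coneN)
    (m3 : v11 z2 fb2 e2 fa2 ca2 cb2 p2 xa2 xb2 n ∈ coneN)
    (m4 : v11 z2 fb2 e2 fa2 ca2 cb2 p2 xa2 xb2 n' ∈ coneN)
    (hfa : fa = fa2 ∨ grp 4 ≠ grp 10)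
    (hxa : xa = xa2 ∨ grp 8 ≠ grp 10) :
    lam (v11 z fb e fa ca cb p xa xb n) - lam (v11 z fb e fa ca cb p xa xb n') =
      lam (v11 z2 fb2 e2 fa2 ca2 cb2 p2 xa2 xb2 n) -
        lam (v11 z2 fb2 e2 fa2 ca2 cb2 p2 xa2 xb2 n') := by
  have f0 : grp 0 ≠ grp 10 := g.n010
  have f3 : grp 3 ≠ grp 10 := fun e => g.n010 (g.e03.trans e)
  have f2 : grp 2 ≠ grp 10 := fun e => g.n10 (e.symm.trans g.z2)
  have f5 : grp 5 ≠ grp 10 := fun e => g.n10 (e.symm.trans g.z5)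
  have f6 : grp 6 ≠ grp 10 := fun e => g.n10 (e.symm.trans g.z6)
  have f7 : grp 7 ≠ grp 10 := g.n710
  have f9 : grp 9 ≠ grp 10 := g.n910
  refine dec_slot h 10 m1 m2 m3 m4 ne10 ne10 ?_ (by simp [v11])
  intro i
  fin_cases i <;> simp [v11, f0, f3, f2, f5, f6, f7, f9]
  · exact hfa
  · exact hxa

end dec

end Crest.Agent.R136.C2355
end

-- ▼ part R136/C2d_355
section

/-!
# R136, case (C2), F-half, part 4 (helper355): the slope for `κ ≠ 1`

* `C2D` : tangent of the plane `v * nL 1 0 0 κ + t * nL 0 1 σ σ` together with the natural window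
  model `NM` and two sweeps;
* `C2D.xa`, `C2D.xb` : `X_a`, `X_b` are full; `C2D.slope` : `κ ≠ 1`: the slope is `≤ -(4 + κ)`;
* `c2d_of_aew`, `c2_ne` : from helper413's `AeW`.
-/

set_option autoImplicit false
set_option linter.unusedVariables false
set_option linter.unusedSectionVars false

open Filter Topology Finset

namespace Crest.Agent.R136.C2355

open Crest.Agent.R138.Ex926 (Base U)
open Crest.Agent.R136.Gf356
open Crest.Agent.R136.Fe1355
open Crest.Agent.R136.Dg219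
open Crest.Agent.R136.NatR550 (coneN nL)

/-- **tangent of the plane of (C2) with the natural window model and two sweeps** -/
structure C2D (κ σ T : ℝ) (lam : (Fin 11 → ℝ) → ℝ) (A : ℝ × ℝ) (φ : ℕ → (Fin 11 → ℝ) → ℝ)
    (r : ℕ → ℝ) (B : Base) (G : ℕ → RCfg (Fin 11)) (Leg : Set (Fin 11 → ℝ))
    (ν : (Fin 11 → ℝ) → ℝ) (D : ℝ) (F : ℕ → ℕ → ℝ) (c L0 : ℝ) : Prop where
  hκ : 0 < κ
  hσ : σ ≠ 0
  hσ1 : σ ≠ 1
  out : OutS (gC (nL 1 0 0 κ) (nL 0 1 σ σ)) coneN (dhC (nL 1 0 0 κ) (nL 0 1 σ σ))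
    (nC (nL 1 0 0 κ) (nL 0 1 σ σ)) lam A φ r
  zero : lam 0 = 0
  anti : ∀ c ∈ coneN, ∀ c' ∈ coneN, c ≤ c' → lam c' ≤ lam c
  sharp : ∀ c ∈ coneN, ∀ c' ∈ coneN, c ≤ c' → lam c - lam c' ≤ ∑ s, (c' s - c s)
  submod : ∀ c ∈ coneN, ∀ c' ∈ coneN, c ⊓ c' ∈ coneN → c ⊔ c' ∈ coneN →
    lam c + lam c' ≤ lam (c ⊔ c') + lam (c ⊓ c')
  own : ∀ u : ℝ, 0 ≤ u → u ≤ lam 0 - lam (Pi.single 0 u)
  nm : NM B G Leg ν T D F
  tw : RawTw B G (fun n k k' => F n k' - F n k)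
  hν : ∀ e fa ca cb p xa xb n : ℝ, ν (bv e fa ca cb p xa xb n) =
    lam (v11 T T e fa ca cb p xa xb n) - L0
  hc : 0 < c
  S1 : ∀ x : ℝ, 0 ≤ x → x ≤ T → c * x ≤ lam 0 - lam (Pi.single 5 x)
  S2 : ∀ x : ℝ, 0 ≤ x → x ≤ T → c * x ≤ lam 0 - lam (Pi.single 2 x + Pi.single 6 x)

namespace C2D

variable {κ σ T : ℝ} {lam : (Fin 11 → ℝ) → ℝ} {A : ℝ × ℝ} {φ : ℕ → (Fin 11 → ℝ) → ℝ}
  {r : ℕ → ℝ} {B : Base} {G : ℕ → RCfg (Fin 11)} {Leg : Set (Fin 11 → ℝ)}
  {ν : (Fin 11 → ℝ) → ℝ} {D : ℝ} {F : ℕ → ℕ → ℝ} {c L0 : ℝ}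
  (h : C2D κ σ T lam A φ r B G Leg ν D F c L0)

include h

/-- one slot is raised: the loss is at most the raise -/
theorem up1 {c c' : Fin 11 → ℝ} (hc : c ∈ coneN) (hc' : c' ∈ coneN) (s : Fin 11)
    (h1 : ∀ i, i ≠ s → c i = c' i) (h2 : c s ≤ c' s) : lam c - lam c' ≤ c' s - c s := by
  have hle : c ≤ c' := by
    intro i
    by_cases hi : i = s
    · subst hi; exact h2
    · exact (h1 i hi).le
  refine (h.sharp c hc c' hc' hle).trans (le_of_eq ?_)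
  rw [Finset.sum_eq_single s]
  · intro i _ hi
    rw [h1 i hi, sub_self]
  · intro hs; exact absurd (mem_univ s) hs

theorem upxa {z fb e fa ca cb p xa xa' xb n : ℝ} (m1 : v11 z fb e fa ca cb p xa xb n ∈ coneN)
    (m2 : v11 z fb e fa ca cb p xa' xb n ∈ coneN) (hx : xa ≤ xa') :
    lam (v11 z fb e fa ca cb p xa xb n) - lam (v11 z fb e fa ca cb p xa' xb n) ≤ xa' - xa := by
  have := h.up1 m1 m2 8 ne8 (by simpa [v11] using hx)
  simpa [v11] using this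

theorem upxb {z fb e fa ca cb p xa xb xb' n : ℝ} (m1 : v11 z fb e fa ca cb p xa xb n ∈ coneN)
    (m2 : v11 z fb e fa ca cb p xa xb' n ∈ coneN) (hx : xb ≤ xb') :
    lam (v11 z fb e fa ca cb p xa xb n) - lam (v11 z fb e fa ca cb p xa xb' n) ≤ xb' - xb := by
  have := h.up1 m1 m2 9 ne9 (by simpa [v11] using hx)
  simpa [v11] using this

/-- **`X_a` is full** -/
theorem xa {y : ℝ} (hy : 0 < y) (hyT : y ≤ T) :
    y ≤ lam (v11 T T 0 0 0 0 0 0 0 0) - lam (v11 T T 0 0 0 0 0 y 0 0) := by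
  have hT := h.nm.T0
  have g := gr h.hκ h.hσ h.hσ1
  have key := h.nm.xa (c := c) hy hyT h.hc
    (by
      intro t h1 h2
      rw [h.hν, h.hν]
      have hS1 := h.S1 t h1 (h2.trans hyT)
      have e := dec5 g h.out (z := T) (fb := T) (e := 0) (fa := 0) (ca := 0) (cb := 0) (p := 0)
        (xa := t) (xb := 0) (n := 0) (ca' := t) (z2 := 0) (fb2 := 0) (fa2 := 0) (p2 := 0)
        (xa2 := 0) (xb2 := 0) (n2 := 0) (by apply v11_mem <;> linarith)
        (by apply v11_mem <;> linarith) (by apply v11_mem <;> linarith)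
        (by apply v11_mem <;> linarith)
      rw [← v11_zero, v11_5] at hS1
      linarith)
    (by
      intro t h1 h2
      rw [h.hν, h.hν]
      have := h.upxa (z := T) (fb := T) (e := 0) (fa := 0) (ca := 0) (cb := 0) (p := 0)
        (xa := t) (xa' := y) (xb := 0) (n := 0) (by apply v11_mem <;> linarith)
        (by apply v11_mem <;> linarith) h2
      linarith)
  rw [h.hν, h.hν] at key
  linarith

/-- `X_a` is full, any base -/
theorem xaF {y z fb e ca cb xb : ℝ} (hy : 0 < y) (hyT : y ≤ T)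
    (m1 : v11 z fb e 0 ca cb 0 0 xb 0 ∈ coneN) (m2 : v11 z fb e 0 ca cb 0 y xb 0 ∈ coneN) :
    y ≤ lam (v11 z fb e 0 ca cb 0 0 xb 0) - lam (v11 z fb e 0 ca cb 0 y xb 0) := by
  have hT := h.nm.T0
  have g := gr h.hκ h.hσ h.hσ1
  rw [dec8 g h.out m1 m2 (z2 := T) (fb2 := T) (e2 := 0) (ca2 := 0) (cb2 := 0) (xb2 := 0)
    (by apply v11_mem <;> linarith) (by apply v11_mem <;> linarith)]
  exact h.xa hy hyT

/-- **`X_b` is full on an interval** -/
theorem xb : ∃ δ : ℝ, 0 < δ ∧ δ ≤ T ∧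
    δ ≤ lam (v11 T T δ 0 0 0 0 0 0 0) - lam (v11 T T δ 0 0 0 0 0 δ 0) := by
  have hT := h.nm.T0
  have g := gr h.hκ h.hσ h.hσ1
  by_cases hb : T ≤ lam (v11 T T T 0 0 0 0 0 0 0) - lam (v11 T T T 0 0 0 0 0 T 0)
  · exact ⟨T, hT, le_rfl, hb⟩
  set β := lam (v11 T T T 0 0 0 0 0 0 0) - lam (v11 T T T 0 0 0 0 0 T 0) with hβ
  push Not at hb
  have hβ0 : 0 ≤ β := by
    have := h.anti (v11 T T T 0 0 0 0 0 0 0) (by apply v11_mem <;> linarith)
      (v11 T T T 0 0 0 0 0 T 0) (by apply v11_mem <;> linarith)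
      (by apply v11_le <;> linarith)
    linarith
  set j := (T - β) / 2 with hj
  have hj0 : 0 < j := by rw [hj]; linarith
  have hjT : j ≤ T := by rw [hj]; linarith
  have hX := h.xaF (y := T) (z := T) (fb := T) (e := T) (ca := 0) (cb := 0) (xb := T) hT le_rfl
    (by apply v11_mem <;> linarith) (by apply v11_mem <;> linarith)
  have key := h.nm.leaf (x := T) (j := j) hj0.le hjT le_rfl (by
    rw [h.hν, h.hν]; linarith)
  rw [h.hν, h.hν, h.hν, h.hν, h.hν] at key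
  rcases key with key | key
  · -- `E` costs nothing up to `j`
    have e := dec2 g h.out (z := T) (fb := T) (e := 0) (e' := j) (fa := 0) (ca := 0) (cb := 0)
      (p := 0) (xa := T) (xb := T) (n := 0) (z2 := 0) (fb2 := 0) (fa2 := 0) (p2 := 0)
      (xa2 := 0) (xb2 := 0) (n2 := 0) (by apply v11_mem <;> linarith)
      (by apply v11_mem <;> linarith) (by apply v11_mem <;> linarith)
      (by apply v11_mem <;> linarith)
    refine ⟨j, hj0, hjT, ?_⟩
    have k2 := h.nm.xb (c := c) hj0 hjT h.hc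
      (by
        intro t h1 h2
        rw [h.hν, h.hν]
        have hS2 := h.S2 t h1 (h2.trans hjT)
        rw [← v11_zero, v11_26] at hS2
        have e2 := dec6 g h.out (z := T) (fb := T) (e := j) (fa := 0) (ca := 0) (cb := 0)
          (cb' := t) (p := 0) (xa := 0) (xb := t) (n := 0) (z2 := 0) (fb2 := 0) (fa2 := 0)
          (p2 := 0) (xa2 := 0) (xb2 := 0) (n2 := 0) (by apply v11_mem <;> linarith)
          (by apply v11_mem <;> linarith) (by apply v11_mem <;> linarith)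
          (by apply v11_mem <;> linarith)
        have e3 := h.anti (v11 0 0 t 0 0 t 0 0 0 0) (by apply v11_mem <;> linarith)
          (v11 0 0 j 0 0 t 0 0 0 0) (by apply v11_mem <;> linarith)
          (by apply v11_le <;> linarith)
        linarith)
      (by
        intro t h1 h2
        rw [h.hν, h.hν]
        have := h.upxb (z := T) (fb := T) (e := j) (fa := 0) (ca := 0) (cb := 0) (p := 0)
          (xa := 0) (xb := t) (xb' := j) (n := 0) (by apply v11_mem <;> linarith)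
          (by apply v11_mem <;> linarith) h2
        linarith)
    rw [h.hν, h.hν] at k2
    linarith
  · exfalso
    have a1 := h.upxa (z := T) (fb := T) (e := T) (fa := 0) (ca := 0) (cb := 0) (p := 0)
      (xa := T - j) (xa' := T) (xb := T) (n := 0) (by apply v11_mem <;> linarith)
      (by apply v11_mem <;> linarith) (by linarith)
    have a2 := dec2 g h.out (z := T) (fb := T) (e := 0) (e' := T) (fa := 0) (ca := 0) (cb := 0)
      (p := 0) (xa := T) (xb := T) (n := 0) (z2 := T) (fb2 := T) (fa2 := 0) (p2 := 0)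
      (xa2 := 0) (xb2 := 0) (n2 := 0) (by apply v11_mem <;> linarith)
      (by apply v11_mem <;> linarith) (by apply v11_mem <;> linarith)
      (by apply v11_mem <;> linarith)
    linarith

/-- `X_b` is full below `δ`, any base -/
theorem xbF {δ : ℝ} (hδ0 : 0 < δ) (hδT : δ ≤ T)
    (hδ : δ ≤ lam (v11 T T δ 0 0 0 0 0 0 0) - lam (v11 T T δ 0 0 0 0 0 δ 0))
    {u z fb e fa ca cb p xa n : ℝ} (hu : 0 ≤ u) (huδ : u ≤ δ)
    (m1 : v11 z fb e fa ca cb p xa 0 n ∈ coneN) (m2 : v11 z fb e fa ca cb p xa u n ∈ coneN)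
    (hfa : fa = 0 ∨ gC (nL 1 0 0 κ) (nL 0 1 σ σ) 4 ≠ gC (nL 1 0 0 κ) (nL 0 1 σ σ) 9)
    (hp : p = 0 ∨ gC (nL 1 0 0 κ) (nL 0 1 σ σ) 7 ≠ gC (nL 1 0 0 κ) (nL 0 1 σ σ) 9) :
    u ≤ lam (v11 z fb e fa ca cb p xa 0 n) - lam (v11 z fb e fa ca cb p xa u n) := by
  have hT := h.nm.T0
  have g := gr h.hκ h.hσ h.hσ1
  rw [dec9 g h.out m1 m2 (z2 := T) (fb2 := T) (e2 := δ) (fa2 := 0) (ca2 := 0) (cb2 := 0)
    (p2 := 0) (xa2 := 0) (n2 := 0) (by apply v11_mem <;> linarith)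
    (by apply v11_mem <;> linarith) hfa hp]
  have := h.upxb (z := T) (fb := T) (e := δ) (fa := 0) (ca := 0) (cb := 0) (p := 0)
    (xa := 0) (xb := u) (xb' := δ) (n := 0) (by apply v11_mem <;> linarith)
    (by apply v11_mem <;> linarith) huδ
  linarith

/-- **`N` is full given everything**, `κ ≠ 1` -/
theorem nfull (hκ1 : κ ≠ 1) : ∃ y : ℝ, 0 < y ∧ y ≤ T ∧
    (y ≤ lam (v11 T T y 0 0 0 0 0 0 0) - lam (v11 T T y 0 0 0 0 0 y 0)) ∧
    y ≤ lam (v11 T T y y y y y y y 0) - lam (v11 T T y y y y y y y y) := by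
  have hT := h.nm.T0
  have g := gr h.hκ h.hσ h.hσ1
  obtain ⟨y, hy, hyT, hb⟩ := h.xb
  refine ⟨y, hy, hyT, hb, ?_⟩
  obtain ⟨w, hw0, hwy, h49, h410⟩ : ∃ w : ℝ, 0 ≤ w ∧ w ≤ y ∧
      (w = 0 ∨ gC (nL 1 0 0 κ) (nL 0 1 σ σ) 4 ≠ gC (nL 1 0 0 κ) (nL 0 1 σ σ) 9) ∧
      (y = w ∨ gC (nL 1 0 0 κ) (nL 0 1 σ σ) 4 ≠ gC (nL 1 0 0 κ) (nL 0 1 σ σ) 10) := by
    by_cases hc : σ * (1 - κ) = 1
    · refine ⟨0, le_rfl, hy.le, Or.inl rfl, Or.inr (g.n410 ?_)⟩
      intro e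
      rw [e] at hc
      have : κ * κ = 0 := by linarith
      have := mul_pos h.hκ h.hκ
      linarith
    · exact ⟨y, hy.le, le_rfl, Or.inr (g.n49 hc), Or.inl rfl⟩
  have sh := h.nm.shiftN h.tw hw0 hwy hyT
  rw [h.hν, h.hν, h.hν] at sh
  have l1 := h.xbF hy hyT hb (u := y) (z := T) (fb := T) (e := w) (fa := w) (ca := y) (cb := y)
    (p := y) (xa := y) (n := y) hy.le le_rfl (by apply v11_mem <;> linarith)
    (by apply v11_mem <;> linarith) h49 (Or.inr (g.n79 hκ1))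
  have l2 := dec10 g h.out (z := T) (fb := T) (e := y) (fa := y) (ca := y) (cb := y) (p := y)
    (xa := y) (xb := y) (n := 0) (n' := y) (z2 := T) (fb2 := T) (e2 := w) (fa2 := w) (ca2 := y)
    (cb2 := y) (p2 := y) (xa2 := y) (xb2 := 0) (by apply v11_mem <;> linarith)
    (by apply v11_mem <;> linarith) (by apply v11_mem <;> linarith)
    (by apply v11_mem <;> linarith) h410 (Or.inl rfl)
  linarith

/-- **the slope** from: `X_a`, `X_b`, `N` full -/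
theorem slope_of {y : ℝ} (hy : 0 < y) (hyT : y ≤ T)
    (hb : y ≤ lam (v11 T T y 0 0 0 0 0 0 0) - lam (v11 T T y 0 0 0 0 0 y 0))
    (hn : y ≤ lam (v11 T T y y y y y y y 0) - lam (v11 T T y y y y y y y y)) :
    A.1 ≤ -(4 + κ) := by
  have hT := h.nm.T0
  have hκ := h.hκ
  set u := y / (1 + κ) with hu
  have hu0 : 0 < u := by positivity
  have hyu : y = (1 + κ) * u := by rw [hu]; field_simp
  have huy : u ≤ y := by nlinarith
  have hκu : κ * u ≤ y := by nlinarith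
  have hκu0 : 0 ≤ κ * u := by positivity
  -- the chain
  have s1 := h.own u hu0.le
  rw [← v11_zero, v11_0] at s1
  have s2 := h.xaF (y := u) (z := u) (fb := 0) (e := 0) (ca := 0) (cb := 0) (xb := 0) hu0
    (huy.trans hyT) (by apply v11_mem <;> linarith) (by apply v11_mem <;> linarith)
  have s3 := h.anti (v11 u 0 0 0 0 0 0 u 0 0) (by apply v11_mem <;> linarith)
    (v11 u (κ * u) 0 0 0 0 0 u 0 0) (by apply v11_mem <;> linarith)
    (by apply v11_le <;> linarith)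
  have s4 := h.xbF hy hyT hb (u := u) (z := u) (fb := κ * u) (e := 0) (fa := 0) (ca := 0)
    (cb := 0) (p := 0) (xa := u) (n := 0) hu0.le huy (by apply v11_mem <;> linarith)
    (by apply v11_mem <;> linarith) (Or.inl rfl) (Or.inl rfl)
  have s5 := h.anti (v11 u (κ * u) 0 0 0 0 0 u u 0) (by apply v11_mem <;> linarith)
    (v11 u (κ * u) 0 (κ * u) 0 0 (κ * u) u u 0) (by apply v11_mem <;> linarith)
    (by apply v11_le <;> linarith)
  have m7 : v11 u (κ * u) 0 (κ * u) 0 0 (κ * u) u u y ∈ coneN := by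
    apply v11_mem <;> linarith
  have hsup : v11 u (κ * u) 0 (κ * u) 0 0 (κ * u) u u y ⊔ v11 T T y y y y y y y 0 =
      v11 T T y y y y y y y y := by
    funext i
    fin_cases i <;> simp [v11] <;> linarith
  have hinf : v11 u (κ * u) 0 (κ * u) 0 0 (κ * u) u u y ⊓ v11 T T y y y y y y y 0 =
      v11 u (κ * u) 0 (κ * u) 0 0 (κ * u) u u 0 := by
    funext i
    fin_cases i <;> simp [v11] <;> linarith
  have s6 := h.submod _ m7 (v11 T T y y y y y y y 0) (by apply v11_mem <;> linarith)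
    (by rw [hinf]; apply v11_mem <;> linarith) (by rw [hsup]; apply v11_mem <;> linarith)
  rw [hsup, hinf] at s6
  have s7 := lam_Tn h.out (z := (u, 0)) (by
    rw [v11_Tn, ← hyu]; exact m7)
  rw [v11_Tn, ← hyu] at s7
  have e1 : lf A (u, 0) = A.1 * u := by simp [lf]
  rw [e1] at s7
  have hz := h.zero
  rw [← v11_zero] at hz
  have key : A.1 * u ≤ -(4 + κ) * u := by
    rw [← s7]
    have : (4 + κ) * u = 3 * u + y := by rw [hyu]; ring
    linarith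
  exact le_of_mul_le_mul_right key hu0

/-- **the slope**, `κ ≠ 1` -/
theorem slope (hκ1 : κ ≠ 1) : A.1 ≤ -(4 + κ) := by
  obtain ⟨y, hy, hyT, hb, hn⟩ := h.nfull hκ1
  exact h.slope_of hy hyT hb hn

end C2D

end Crest.Agent.R136.C2355
end

-- ▼ part R136/Wq1_400

/-!
# R136: `coneM Ma = coneN` (helper550's cone) gives `MaQ Ma` (helper400)
-/

set_option autoImplicit false
set_option linter.unusedSectionVars false
set_option linter.unusedVariables false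

namespace Crest.Agent.R136.Wq400

open Finset Crest.Agent.R136.NetQ186 Crest.Agent.R136.Net191
open Crest.Agent.R136.Aw413 Crest.Agent.R136.NatR550

/-- one wall of the list of simple walls: a test vector with natural entries -/
theorem wall_mem {Ma : Mons 11} (hsub : ∀ k, Ma.mon k ⊆ monQ.mon k) (hcone : coneM Ma = coneN)
    (k₀ : Fin 11) (e₀ : Fin 11 → ℕ) (c : Fin 11 → ℕ) (hn : (fun s => (c s : ℝ)) ∉ coneN)
    (hc : ∀ k, ∀ e ∈ mfQ k, ¬(k = k₀ ∧ e = e₀) → c k ≤ ∑ s, e s * c s) :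
    e₀ ∈ Ma.mon k₀ := by
  by_contra hne
  refine hn ?_
  rw [← hcone]
  intro k e he
  have h1 := hc k e (hsub k he) (by
    rintro ⟨rfl, rfl⟩
    exact hne he)
  have h2 : ((c k : ℕ) : ℝ) ≤ ((∑ s, e s * c s : ℕ) : ℝ) := by exact_mod_cast h1
  push_cast at h2
  exact h2

/-- **`coneM Ma = coneN` gives `MaQ Ma`** -/
theorem maQ_of_cone {Ma : Mons 11} (hsub : ∀ k, Ma.mon k ⊆ monQ.mon k)
    (hcone : coneM Ma = coneN) : MaQ Ma where
  m423 := wall_mem hsub hcone _ _ ![2, 2, 0, 0, 1, 2, 2, 2, 2, 2, 2] (by simp [coneN]) (by decide)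
  m625 := wall_mem hsub hcone _ _ ![2, 2, 0, 2, 2, 0, 1, 2, 2, 2, 2] (by simp [coneN]) (by decide)
  m745 := wall_mem hsub hcone _ _ ![2, 2, 2, 2, 0, 0, 2, 1, 2, 2, 2] (by simp [coneN]) (by decide)
  m736 := wall_mem hsub hcone _ _ ![2, 2, 2, 0, 2, 2, 0, 1, 2, 2, 2] (by simp [coneN]) (by decide)
  m805 := wall_mem hsub hcone _ _ ![0, 2, 2, 2, 2, 0, 2, 2, 1, 2, 2] (by simp [coneN]) (by decide)
  m906 := wall_mem hsub hcone _ _ ![0, 2, 2, 2, 2, 2, 0, 2, 2, 1, 2] (by simp [coneN]) (by decide)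
  m928 := wall_mem hsub hcone _ _ ![2, 2, 0, 2, 2, 2, 2, 2, 0, 1, 2] (by simp [coneN]) (by decide)
  m107 := wall_mem hsub hcone _ _ ![0, 2, 2, 2, 2, 2, 2, 0, 2, 2, 1] (by simp [coneN]) (by decide)
  m148 := wall_mem hsub hcone _ _ ![2, 2, 2, 2, 0, 2, 2, 2, 0, 2, 1] (by simp [coneN]) (by decide)
  m139 := wall_mem hsub hcone _ _ ![2, 2, 2, 0, 2, 2, 2, 2, 2, 0, 1] (by simp [coneN]) (by decide)
  m701 := by
    intro hm
    have h1 : (fun s => ((![0, 0, 2, 2, 2, 2, 2, 1, 2, 2, 1] : Fin 11 → ℕ) s : ℝ)) ∈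
        coneM Ma := by
      rw [hcone]
      simp [coneN]
      norm_num
    have h2 := h1 7 _ hm
    simp [Fin.sum_univ_succ] at h2
    norm_num at h2

end Crest.Agent.R136.Wq400
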