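import Crest.Agent.R136.C2k_400
import Crest.Agent.R136.Wq1_400_Mg
import Crest.Agent.R136.Bas1_938
import Crest.Agent.R136.Tb5_628
import Crest.Agent.R136.TopB_550
import Mathlib
import Crest.Agent.R136.Net4_186
import Crest.Agent.R136.Net2_191
import Crest.Agent.R136.Tb2_628
import Crest.Agent.R136.Tb4_628

-- ▼ part R136/C2m_400
section

/-!
# R136, case (C2), `κ = 1`: the last slot is full at a point of helper413's `AeW` (helper400)

* `OutS.diff` : change of one group; `OutS.alone` : a slot alone in its group;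
* `Gr1` : the groups of the plane with slopes `(z, t)`, `κ = 1`, slope `σ ≠ 0, 1, 2`;
* `sp_of_out` : the splitting `Sp` of the window profile;
* `n_full_one` : **`AeW` ⊢ the rate of `N` is at least `1`** (`2 ≤ r (gC a b 10)`).
-/

set_option autoImplicit false
set_option linter.unusedSectionVars false
set_option linter.unusedVariables false

open Filter Topology

namespace Crest.Agent.R136.C2k400

open Finset Crest.Agent.R136.NetQ186 Crest.Agent.R136.Net191 Crest.Agent.R136.Qg926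
open Crest.Agent.R136.Gf356 Crest.Agent.R136.Ev356 Crest.Agent.R136.Aw413
open Crest.Agent.R136.Wq400 Crest.Agent.R136.C2355 Crest.Agent.R136.Fe1355
open Crest.Agent.R136.C2w400 Crest.Agent.R136.Dg219
open Crest.Agent.R138.Ex926 (Base U)

/-! ### the splitting -/

section out

variable {m : ℕ} {grp : Fin m → ℕ} {L : Set (Fin m → ℝ)} {dh : Fin m → ℝ} {nn : ℕ → ℝ × ℝ}
  {lam : (Fin m → ℝ) → ℝ} {A : ℝ × ℝ} {φ : ℕ → (Fin m → ℝ) → ℝ} {r : ℕ → ℝ}

/-- change of one group -/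
theorem out_diff (H : OutS grp L dh nn lam A φ r) {c c' : Fin m → ℝ} (hc : c ∈ L) (hc' : c' ∈ L)
    (k : ℕ) (h : ∀ i, grp i ≠ k → c i = c' i) : lam c - lam c' = φ k c - φ k c' := by
  classical
  rw [H.sum c hc, H.sum c' hc', ← sum_sub_distrib]
  by_cases hk : k ∈ gset grp
  · rw [sum_eq_single k]
    · intro j _ hj
      rw [H.loc j c c' fun i hi => h i (by rw [hi]; exact hj), sub_self]
    · intro hn; exact absurd hk hn
  · have hno : ∀ i, grp i ≠ k := by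
      intro i hi
      apply hk
      rw [← hi]
      unfold gset
      exact mem_image_of_mem _ (mem_univ i)
    rw [H.loc k c c' fun i hi => absurd hi (hno i), sub_self]
    refine sum_eq_zero fun j _ => ?_
    rw [H.loc j c c' fun i _ => h i (hno i), sub_self]

/-- a slot alone in its group -/
theorem out_alone (H : OutS grp L dh nn lam A φ r) {i : Fin m} (hi : 0 < dh i)
    (hal : ∀ j, grp j = grp i → j = i) {c : Fin m → ℝ} (hc : c ∈ L) :
    φ (grp i) c = -(r (grp i) / dh i * c i) := by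
  rw [H.rate (grp i) c hc (c i / dh i) fun j hj => by
    rw [hal j hj]; field_simp]
  ring

end out

/-! ### the groups -/

/-- slopes of the plane in the height direction, `κ = 1` -/
def av : Fin 11 → ℝ := ![1, 0, 0, 1, 1, 0, 0, 1, 1, 1, 2]

/-- slopes of the plane in the direction `t` -/
def bt (σ : ℝ) : Fin 11 → ℝ := ![0, 0, σ - 1, 0, σ - 1, 1, σ, σ, 1, σ, σ]

/-- all that is used about the groups -/
structure Gr1 (g : Fin 11 → ℕ) : Prop where
  g1 : g 1 = g 5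
  g2 : g 2 = g 5
  g6 : g 6 = g 5
  z3 : g 3 = g 0
  p9 : g 9 = g 7
  n05 : g 0 ≠ g 5
  n45 : g 4 ≠ g 5
  n75 : g 7 ≠ g 5
  n85 : g 8 ≠ g 5
  nX5 : g 10 ≠ g 5
  n40 : g 4 ≠ g 0
  n70 : g 7 ≠ g 0
  n80 : g 8 ≠ g 0
  nX0 : g 10 ≠ g 0
  n47 : g 4 ≠ g 7
  n48 : g 4 ≠ g 8
  n4X : g 4 ≠ g 10
  n78 : g 7 ≠ g 8
  n7X : g 7 ≠ g 10
  n8X : g 8 ≠ g 10

theorem gr1_of {σ : ℝ} (h0 : σ ≠ 0) (h1 : σ ≠ 1) (h2 : σ ≠ 2) : Gr1 (gC av (bt σ)) := by
  have z : ∀ i : Fin 11, av i = 0 → gC av (bt σ) i = 0 := fun i hi => gC_zero.2 hi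
  have nz : ∀ i : Fin 11, av i ≠ 0 → gC av (bt σ) i ≠ 0 := fun i hi h => hi (gC_zero.1 h)
  have e1 : gC av (bt σ) 1 = 0 := z 1 (by simp [av])
  have e2 : gC av (bt σ) 2 = 0 := z 2 (by simp [av])
  have e5 : gC av (bt σ) 5 = 0 := z 5 (by simp [av])
  have e6 : gC av (bt σ) 6 = 0 := z 6 (by simp [av])
  have a0 : av 0 ≠ 0 := by simp [av]
  have a3 : av 3 ≠ 0 := by simp [av]
  have a4 : av 4 ≠ 0 := by simp [av]
  have a7 : av 7 ≠ 0 := by simp [av]
  have a8 : av 8 ≠ 0 := by simp [av]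
  have a9 : av 9 ≠ 0 := by simp [av]
  have aX : av 10 ≠ 0 := by simp [av]
  refine ⟨by rw [e1, e5], by rw [e2, e5], by rw [e6, e5], (gC_eq a3 a0).2 (by simp [av, bt]),
    (gC_eq a9 a7).2 (by simp [av, bt]), by rw [e5]; exact nz 0 a0, by rw [e5]; exact nz 4 a4,
    by rw [e5]; exact nz 7 a7, by rw [e5]; exact nz 8 a8, by rw [e5]; exact nz 10 aX, ?_, ?_, ?_,
    ?_, ?_, ?_, ?_, ?_, ?_, ?_⟩
  · intro h; have := (gC_eq a4 a0).1 h; simp [av, bt] at this
    exact h1 (by linarith)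
  · intro h; have := (gC_eq a7 a0).1 h; simp [av, bt] at this
    exact h0 this
  · intro h; have := (gC_eq a8 a0).1 h; simp [av, bt] at this
  · intro h; have := (gC_eq aX a0).1 h; simp [av, bt] at this
    exact h0 this
  · intro h; have := (gC_eq a4 a7).1 h; simp [av, bt] at this
  · intro h; have := (gC_eq a4 a8).1 h; simp [av, bt] at this
    exact h2 (by linarith)
  · intro h; have := (gC_eq a4 aX).1 h; simp [av, bt] at this
    exact h2 (by linarith)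
  · intro h; have := (gC_eq a7 a8).1 h; simp [av, bt] at this
    exact h1 this
  · intro h; have := (gC_eq a7 aX).1 h; simp [av, bt] at this
    exact h0 (by linarith)
  · intro h; have := (gC_eq a8 aX).1 h; simp [av, bt] at this
    exact h2 (by linarith)

/-- boxes of the window are in the cone -/
theorem bvT_cone {Ma : Mons 11} (hsub : ∀ k, Ma.mon k ⊆ monQ.mon k) {T : ℝ} (hT : 0 ≤ T)
    {e fa ca cb p xa xb n : ℝ} (e0 : 0 ≤ e) (e1 : e ≤ T)
    (fa0 : 0 ≤ fa) (fa1 : fa ≤ T) (ca0 : 0 ≤ ca) (ca1 : ca ≤ T) (cb0 : 0 ≤ cb) (cb1 : cb ≤ T)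
    (p0 : 0 ≤ p) (p1 : p ≤ T) (xa0 : 0 ≤ xa) (xa1 : xa ≤ T) (xb0 : 0 ≤ xb) (xb1 : xb ≤ T)
    (n0 : 0 ≤ n) (n1 : n ≤ T) (w6 : cb ≤ e + ca) (w7 : p ≤ fa + ca) (w9 : xb ≤ e + xa)
    (w10 : n ≤ fa + xa) : bvT T e fa ca cb p xa xb n ∈ coneM Ma := by
  obtain ⟨h1, h2⟩ := bvT_legal hT e0 e1 fa0 fa1 ca0 ca1 cb0 cb1 p0 p1 xa0 xa1 xb0 xb1 n0 n1
    w6 w7 w9 w10
  exact leg_cone (R := T) (fun k => Finset.Subset.refl _) ⟨legal_sub hsub h1, h2⟩

section coord

variable {T e fa ca cb p xa xb n : ℝ}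

theorem bvT_at4 : bvT T e fa ca cb p xa xb n 4 = fa := rfl

theorem bvT_at8 : bvT T e fa ca cb p xa xb n 8 = xa := rfl

theorem bvT_at10 : bvT T e fa ca cb p xa xb n 10 = n := rfl

theorem bvT_ne4 {fa' : ℝ} (j : Fin 11) (hj : j ≠ 4) :
    bvT T e fa ca cb p xa xb n j = bvT T e fa' ca cb p xa xb n j := by
  fin_cases j <;> first | exact absurd rfl hj | simp [bvT]

theorem bvT_ne8 {xa' : ℝ} (j : Fin 11) (hj : j ≠ 8) :
    bvT T e fa ca cb p xa xb n j = bvT T e fa ca cb p xa' xb n j := by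
  fin_cases j <;> first | exact absurd rfl hj | simp [bvT]

theorem bvT_ne79 {p' xb' : ℝ} (j : Fin 11) (hj : j ≠ 7) (hj' : j ≠ 9) :
    bvT T e fa ca cb p xa xb n j = bvT T e fa ca cb p' xa xb' n j := by
  fin_cases j <;> first | exact absurd rfl hj | exact absurd rfl hj' | simp [bvT]

theorem bvT_ne10 {n' : ℝ} (j : Fin 11) (hj : j ≠ 10) :
    bvT T e fa ca cb p xa xb n j = bvT T e fa ca cb p xa xb n' j := by
  fin_cases j <;> first | exact absurd rfl hj | simp [bvT]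

theorem bvT_79 {e' fa' ca' cb' xa' n' : ℝ} (j : Fin 11) (hj : j = 7 ∨ j = 9) :
    bvT T e fa ca cb p xa xb n j = bvT T e' fa' ca' cb' p xa' xb n' j := by
  rcases hj with rfl | rfl <;> simp [bvT]

end coord

section sp

variable {Ma : Mons 11} {g : Fin 11 → ℕ} {dh : Fin 11 → ℝ} {nn : ℕ → ℝ × ℝ}
  {lam : (Fin 11 → ℝ) → ℝ} {A : ℝ × ℝ} {φ : ℕ → (Fin 11 → ℝ) → ℝ} {r : ℕ → ℝ} {T : ℝ}

/-- **the splitting in the boxes of the window** -/
theorem split_box (H : OutS g (coneM Ma) dh nn lam A φ r) (hg : Gr1 g)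
    (hsub : ∀ k, Ma.mon k ⊆ monQ.mon k) (hT : 0 ≤ T) (d4 : 0 < dh 4) (d8 : 0 < dh 8)
    (dX : 0 < dh 10)
    {e fa ca cb p xa xb n : ℝ} (e0 : 0 ≤ e) (e1 : e ≤ T)
    (fa0 : 0 ≤ fa) (fa1 : fa ≤ T) (ca0 : 0 ≤ ca) (ca1 : ca ≤ T) (cb0 : 0 ≤ cb) (cb1 : cb ≤ T)
    (p0 : 0 ≤ p) (p1 : p ≤ T) (xa0 : 0 ≤ xa) (xa1 : xa ≤ T) (xb0 : 0 ≤ xb) (xb1 : xb ≤ T)
    (n0 : 0 ≤ n) (n1 : n ≤ T) (w6 : cb ≤ e + ca) (w7 : p ≤ fa + ca) (w9 : xb ≤ e + xa)
    (w10 : n ≤ fa + xa) :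
    lam (bvT T e fa ca cb p xa xb n) = lam (bvT T 0 0 0 0 0 0 0 0) -
      (lam (bvT T 0 0 0 0 0 0 0 0) - lam (bvT T e 0 ca cb 0 0 0 0)) -
      (φ (g 7) (bvT T 0 0 0 0 0 0 0 0) - φ (g 7) (bvT T 0 0 0 0 p 0 xb 0)) -
      r (g 4) / dh 4 * fa - r (g 8) / dh 8 * xa - r (g 10) / dh 10 * n := by
  have a4 : ∀ j, g j = g 4 → j = 4 := by
    intro j hj
    fin_cases j
    · exact absurd hj.symm hg.n40
    · exact absurd (hj.symm.trans hg.g1) hg.n45
    · exact absurd (hj.symm.trans hg.g2) hg.n45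
    · exact absurd (hj.symm.trans hg.z3) hg.n40
    · rfl
    · exact absurd hj.symm hg.n45
    · exact absurd (hj.symm.trans hg.g6) hg.n45
    · exact absurd hj.symm hg.n47
    · exact absurd hj.symm hg.n48
    · exact absurd (hj.symm.trans hg.p9) hg.n47
    · exact absurd hj.symm hg.n4X
  have a8 : ∀ j, g j = g 8 → j = 8 := by
    intro j hj
    fin_cases j
    · exact absurd hj.symm hg.n80
    · exact absurd (hj.symm.trans hg.g1) hg.n85
    · exact absurd (hj.symm.trans hg.g2) hg.n85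
    · exact absurd (hj.symm.trans hg.z3) hg.n80
    · exact absurd hj hg.n48
    · exact absurd hj.symm hg.n85
    · exact absurd (hj.symm.trans hg.g6) hg.n85
    · exact absurd hj hg.n78
    · rfl
    · exact absurd (hg.p9.symm.trans hj) hg.n78
    · exact absurd hj.symm hg.n8X
  have aX : ∀ j, g j = g 10 → j = 10 := by
    intro j hj
    fin_cases j
    · exact absurd hj.symm hg.nX0
    · exact absurd (hj.symm.trans hg.g1) hg.nX5
    · exact absurd (hj.symm.trans hg.g2) hg.nX5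
    · exact absurd (hj.symm.trans hg.z3) hg.nX0
    · exact absurd hj hg.n4X
    · exact absurd hj.symm hg.nX5
    · exact absurd (hj.symm.trans hg.g6) hg.nX5
    · exact absurd hj hg.n7X
    · exact absurd hj hg.n8X
    · exact absurd (hg.p9.symm.trans hj) hg.n7X
    · rfl
  -- the chain
  have L : ∀ {e fa ca cb p xa xb n : ℝ}, 0 ≤ e → e ≤ T → 0 ≤ fa → fa ≤ T → 0 ≤ ca → ca ≤ T →
      0 ≤ cb → cb ≤ T → 0 ≤ p → p ≤ T → 0 ≤ xa → xa ≤ T → 0 ≤ xb → xb ≤ T → 0 ≤ n → n ≤ T →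
      cb ≤ e + ca → p ≤ fa + ca → xb ≤ e + xa → n ≤ fa + xa →
      bvT T e fa ca cb p xa xb n ∈ coneM Ma :=
    fun h1 h2 h3 h4 h5 h6 h7 h8 h9 h10 h11 h12 h13 h14 h15 h16 h17 h18 h19 h20 =>
      bvT_cone hsub hT h1 h2 h3 h4 h5 h6 h7 h8 h9 h10 h11 h12 h13 h14 h15 h16 h17 h18 h19 h20
  have c1 : bvT T e 0 ca cb 0 0 0 0 ∈ coneM Ma := L e0 e1 le_rfl hT ca0 ca1 cb0 cb1 le_rfl hT
    le_rfl hT le_rfl hT le_rfl hT w6 (by linarith) (by linarith) (by linarith)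
  have c2 : bvT T e fa ca cb 0 0 0 0 ∈ coneM Ma := L e0 e1 fa0 fa1 ca0 ca1 cb0 cb1 le_rfl hT
    le_rfl hT le_rfl hT le_rfl hT w6 (by linarith) (by linarith) (by linarith)
  have c3 : bvT T e fa ca cb 0 xa 0 0 ∈ coneM Ma := L e0 e1 fa0 fa1 ca0 ca1 cb0 cb1 le_rfl hT
    xa0 xa1 le_rfl hT le_rfl hT w6 (by linarith) (by linarith) (by linarith)
  have c4 : bvT T e fa ca cb p xa xb 0 ∈ coneM Ma := L e0 e1 fa0 fa1 ca0 ca1 cb0 cb1 p0 p1
    xa0 xa1 xb0 xb1 le_rfl hT w6 w7 w9 (by linarith)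
  have c5 : bvT T e fa ca cb p xa xb n ∈ coneM Ma := L e0 e1 fa0 fa1 ca0 ca1 cb0 cb1 p0 p1
    xa0 xa1 xb0 xb1 n0 n1 w6 w7 w9 w10
  have a7 : ∀ j, g j = g 7 → j = 7 ∨ j = 9 := by
    intro j hj
    fin_cases j
    · exact absurd hj.symm hg.n70
    · exact absurd (hj.symm.trans hg.g1) hg.n75
    · exact absurd (hj.symm.trans hg.g2) hg.n75
    · exact absurd (hj.symm.trans hg.z3) hg.n70
    · exact absurd hj hg.n47
    · exact absurd hj.symm hg.n75
    · exact absurd (hj.symm.trans hg.g6) hg.n75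
    · left; rfl
    · exact absurd hj.symm hg.n78
    · right; rfl
    · exact absurd hj.symm hg.n7X
  have s2 := out_diff H c1 c2 (g 4) fun j hj => bvT_ne4 j fun h => hj (by rw [h])
  have s3 := out_diff H c2 c3 (g 8) fun j hj => bvT_ne8 j fun h => hj (by rw [h])
  have s4 := out_diff H c3 c4 (g 7) fun j hj => bvT_ne79 j (fun h => hj (by rw [h]))
    fun h => hj (by rw [h, hg.p9])
  have s5 := out_diff H c4 c5 (g 10) fun j hj => bvT_ne10 j fun h => hj (by rw [h])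
  rw [out_alone H d4 a4 c1, out_alone H d4 a4 c2, bvT_at4, bvT_at4] at s2
  rw [out_alone H d8 a8 c2, out_alone H d8 a8 c3, bvT_at8, bvT_at8] at s3
  rw [out_alone H dX aX c4, out_alone H dX aX c5, bvT_at10, bvT_at10] at s5
  have t1 : φ (g 7) (bvT T e fa ca cb 0 xa 0 0) = φ (g 7) (bvT T 0 0 0 0 0 0 0 0) :=
    H.loc _ _ _ fun j hj => bvT_79 j (a7 j hj)
  have t2 : φ (g 7) (bvT T e fa ca cb p xa xb 0) = φ (g 7) (bvT T 0 0 0 0 p 0 xb 0) :=
    H.loc _ _ _ fun j hj => bvT_79 j (a7 j hj)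
  rw [t1, t2] at s4
  linarith

end sp


end Crest.Agent.R136.C2k400
end

-- ▼ part R136/C2o_400
section

/-!
# R136, case (C2), `κ = 1`, windows of any size (helper400)

* `n_full_T` : `n_full_one` in a window with top `T`;
* `n_full_all` : `N` is full given everything (helper355's form `hn` of `C2D.slope_of`).
-/

set_option autoImplicit false
set_option linter.unusedSectionVars false
set_option linter.unusedVariables false

open Filter Topology

namespace Crest.Agent.R136.C2o400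

open Finset Crest.Agent.R136.NetQ186 Crest.Agent.R136.Net191 Crest.Agent.R136.Qg926
open Crest.Agent.R136.Gf356 Crest.Agent.R136.Ev356 Crest.Agent.R136.Aw413
open Crest.Agent.R136.Wq400 Crest.Agent.R136.C2355 Crest.Agent.R136.Fe1355
open Crest.Agent.R136.C2w400 Crest.Agent.R136.Dg219 Crest.Agent.R136.C2k400
open Crest.Agent.R136.NatR550 (coneN nL)
open Crest.Agent.R136.Bas938 (loss_single)
open Crest.Agent.R138.Ex926 (Base U)

/-- **`AeW`, `κ = 1`: `N` is full** (`2 = dh N`), window with top `T` -/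
theorem n_full_T {ι : ℕ → Type*} [∀ n, DecidableEq (ι n)] {B Bo : Base}
    {I J : ∀ n, Finset (ι n)} {co : ∀ n, ι n → ι n → Fin 11 → ℝ} {Ma : Mons 11} {C : ℝ}
    {lam : (Fin 11 → ℝ) → ℝ} {σ : ℝ} {A : ℝ × ℝ} {φ : ℕ → (Fin 11 → ℝ) → ℝ} {r : ℕ → ℝ}
    {κv : Fin 11 → ℝ} {V Tw : Fin 11 → Prop} {f : ∀ n, ι n → Fq4}
    (h : AeW B Bo I J co monQ Ma C lam av (bt σ) A φ r 0 1 κv V Tw)
    (hσ0 : σ ≠ 0) (hσ1 : σ ≠ 1) (hσ2 : σ ≠ 2)
    (hco : ∀ n, ∀ i ∈ I n, ∀ j ∈ I n, co n i j = coQ (f n i) (f n j)) (hM : MaQ Ma)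
    (hne : ∀ᶠ n in (U : Filter ℕ), (J n).Nonempty)
    (hV : ∀ k, V k → k = 0 ∨ k = 3) (hT3 : Tw 3)
    (hXa : r (gC av (bt σ) 8) = 1) {T : ℝ} (hT : 0 < T)
    (hXb : ∀ t : ℝ, 0 ≤ t → t ≤ T → t ≤ lam (bvT T t 0 0 0 0 0 0 0) - lam (bvT T t 0 0 0 0 0 t 0))
    {m : ℝ} (hm : 0 < m) (hS2 : ∀ t : ℝ, 0 ≤ t → t ≤ T →
      m * t ≤ lam (bvT T 0 0 0 0 0 0 0 0) - lam (bvT T t 0 0 t 0 0 0 0)) :
    2 ≤ r (gC av (bt σ) 10) := by
  have hsub := h.sub
  have hg := gr1_of hσ0 hσ1 hσ2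
  have d4 : dhC av (bt σ) 4 = 1 := by simp [dhC, av]
  have d8 : dhC av (bt σ) 8 = 1 := by simp [dhC, av]
  have dX : dhC av (bt σ) 10 = 2 := by simp [dhC, av]
  set K : ℝ := max 1 (cK0 monQ C) with hK
  have hK1 : (1 : ℝ) ≤ K := le_max_left _ _
  have hK0 : 0 < K := by linarith
  have hst := stQ_ok (Ma := Ma) sok_b hK0 hT.le hsub
  obtain ⟨W, hW, -, -⟩ := h.wnd (stQ {0, 3} K T Ma) rfl hst (fun _ _ => 1)
    (fun _ => Base.Sub.const one_pos) J (fun _ => 1)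
    (Eventually.of_forall fun n => Finset.Subset.refl _) hne (Base.Sub.const one_pos)
    (Eventually.of_forall fun n => by rw [one_mul])
  have hden := h.dens (st := stQ {0, 3} K T Ma) rfl hst (by
      show ∀ i j, gC av (bt σ) i = gC av (bt σ) j → i ∈ ({0, 3} : Finset (Fin 11)) →
        j ∈ ({0, 3} : Finset (Fin 11))
      intro i j hij hi
      have hi' : gC av (bt σ) i = gC av (bt σ) 0 := by
        rcases Finset.mem_insert.1 hi with rfl | hi
        · rfl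
        · rw [Finset.mem_singleton.1 hi]; exact hg.z3
      rw [hi'] at hij
      have key : ∀ j : Fin 11, gC av (bt σ) 0 = gC av (bt σ) j → j = 0 ∨ j = 3 := by
        intro j hj
        fin_cases j
        · left; rfl
        · exact absurd (hj.trans hg.g1) hg.n05
        · exact absurd (hj.trans hg.g2) hg.n05
        · right; rfl
        · exact absurd hj.symm hg.n40
        · exact absurd hj hg.n05
        · exact absurd (hj.trans hg.g6) hg.n05
        · exact absurd hj.symm hg.n70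
        · exact absurd hj.symm hg.n80
        · exact absurd (hj.trans hg.p9).symm hg.n70
        · exact absurd hj.symm hg.nX0
      rcases key j hij with rfl | rfl <;> decide)
    zero_le_one le_rfl (R := T) le_rfl (by
      intro y hy hy1
      refine leg_cone (R := T) (Mw := Ma) (fun k => Finset.Subset.refl _) ⟨legal_sub hsub ?_, ?_⟩
      · refine legalQ_iff.2 ⟨?_, ?_, ?_, ?_, ?_, ?_, ?_, ?_, ?_, ?_, ?_, ?_⟩
        · intro s
          by_cases hs : s = 0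
          · subst hs; simpa using hy
          · rw [Pi.single_eq_of_ne hs]
        all_goals simp [Pi.single_apply] <;> linarith
      · intro s
        by_cases hs : s = 0
        · subst hs; simpa using hy1
        · rw [Pi.single_eq_of_ne hs]; exact hT.le)
  obtain ⟨E', hNM, hbd, htw⟩ := nm_of_wat hW hco hM hsub (le_max_right _ _) hT hV hT3
    hden.dens (fun y hy hy1 => by
      have := hden.frost y hy hy1
      rw [one_mul] at this
      exact this)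
  have hw := winB_of_wat hW hM hsub (le_max_right _ _) hT
  have elam := hW.elam
  have sb := fun (e fa ca cb p xa xb n : ℝ) (e0 : 0 ≤ e) (e1 : e ≤ T)
    (fa0 : 0 ≤ fa) (fa1 : fa ≤ T) (ca0 : 0 ≤ ca) (ca1 : ca ≤ T) (cb0 : 0 ≤ cb) (cb1 : cb ≤ T)
    (p0 : 0 ≤ p) (p1 : p ≤ T) (xa0 : 0 ≤ xa) (xa1 : xa ≤ T) (xb0 : 0 ≤ xb) (xb1 : xb ≤ T)
    (n0 : 0 ≤ n) (n1 : n ≤ T) (w6 : cb ≤ e + ca) (w7 : p ≤ fa + ca) (w9 : xb ≤ e + xa)
    (w10 : n ≤ fa + xa) =>
    split_box h.out hg hsub hT.le (by rw [d4]; norm_num) (by rw [d8]; norm_num)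
      (by rw [dX]; norm_num) e0 e1 fa0 fa1 ca0 ca1 cb0 cb1 p0 p1 xa0 xa1 xb0 xb1 n0 n1 w6 w7 w9 w10
  have sp : Sp W.nu T (r (gC av (bt σ) 4)) 1 (r (gC av (bt σ) 10) / 2)
      (fun e ca cb => lam (bvT T 0 0 0 0 0 0 0 0) - lam (bvT T e 0 ca cb 0 0 0 0))
      (fun p xb => φ (gC av (bt σ) 7) (bvT T 0 0 0 0 0 0 0 0) -
        φ (gC av (bt σ) 7) (bvT T 0 0 0 0 p 0 xb 0)) := by
    refine ⟨by simp, by simp, ?_⟩
    intro e fa ca cb p xa xb n e0 e1 fa0 fa1 ca0 ca1 cb0 cb1 p0 p1 xa0 xa1 xb0 xb1 n0 n1 w6 w7 w9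
      w10
    have := sb e fa ca cb p xa xb n e0 e1 fa0 fa1 ca0 ca1 cb0 cb1 p0 p1 xa0 xa1 xb0 xb1 n0 n1 w6
      w7 w9 w10
    rw [d4, d8, dX, hXa, div_one, div_one] at this
    rw [nu_bv hw, nu_bv hw, elam]
    linarith
  have hT0 := hT.le
  have key := kone_NM hNM hbd htw sp hm (by
    intro t ht ht1
    have h1 := hXb t ht ht1
    have z1 := sb t 0 0 0 0 0 0 0 ht ht1 le_rfl hT0 le_rfl hT0 le_rfl hT0
      le_rfl hT0 le_rfl hT0 le_rfl hT0 le_rfl hT0 (by linarith)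
      (by linarith) (by linarith) (by linarith)
    have z2 := sb t 0 0 0 0 0 t 0 ht ht1 le_rfl hT0 le_rfl hT0 le_rfl hT0
      le_rfl hT0 le_rfl hT0 ht ht1 le_rfl hT0 (by linarith)
      (by linarith) (by linarith) (by linarith)
    linarith) (by
    intro t ht ht1
    exact hS2 t ht ht1)
  linarith

theorem av_eq : nL 1 0 0 1 = av := by
  funext j
  fin_cases j <;> simp [nL, av]
  norm_num

theorem bt_eq (σ : ℝ) : nL 0 1 σ σ = bt σ := by
  funext j
  fin_cases j <;> simp [nL, bt]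

theorem bvT_eq (T e fa ca cb p xa xb n : ℝ) :
    bvT T e fa ca cb p xa xb n = v11 T T e fa ca cb p xa xb n := rfl

/-- **`κ = 1`**: the slope from helper355's `C2D` at `T = 1` -/
theorem slope_one {ι : ℕ → Type*} [∀ n, DecidableEq (ι n)] {B Bo : Base}
    {I J : ∀ n, Finset (ι n)} {co : ∀ n, ι n → ι n → Fin 11 → ℝ} {Ma : Mons 11} {C : ℝ}
    {lam : (Fin 11 → ℝ) → ℝ} {σ : ℝ} {A : ℝ × ℝ} {φ : ℕ → (Fin 11 → ℝ) → ℝ} {r : ℕ → ℝ}
    {κv : Fin 11 → ℝ} {V Tw : Fin 11 → Prop} {f : ∀ n, ι n → Fq4}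
    (h : AeW B Bo I J co monQ Ma C lam (nL 1 0 0 1) (nL 0 1 σ σ) A φ r 0 1 κv V Tw)
    (hσ2 : σ ≠ 2) (hcone : coneM Ma = coneN)
    (hco : ∀ n, ∀ i ∈ I n, ∀ j ∈ I n, co n i j = coQ (f n i) (f n j))
    (hne : ∀ᶠ n in (U : Filter ℕ), (J n).Nonempty)
    (hV : ∀ k, V k → k = 0 ∨ k = 3) (hT3 : Tw 3) {T c : ℝ}
    {B' : Base} {G : ℕ → RCfg (Fin 11)} {Leg : Set (Fin 11 → ℝ)}
    {ν : (Fin 11 → ℝ) → ℝ} {D : ℝ} {F : ℕ → ℕ → ℝ} {L0 : ℝ}
    (H : C2D 1 σ T lam A φ r B' G Leg ν D F c L0) : A.1 ≤ -(4 + 1) := by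
  have hM : MaQ Ma := maQ_of_cone h.sub hcone
  have hT := H.nm.T0
  have g := gr H.hκ H.hσ H.hσ1
  have g1 := gr1_of H.hσ H.hσ1 hσ2
  have hout : OutS (gC av (bt σ)) coneN (dhC av (bt σ)) (nC av (bt σ)) lam A φ r := by
    have := H.out
    rwa [av_eq, bt_eq] at this
  have h' : AeW B Bo I J co monQ Ma C lam av (bt σ) A φ r 0 1 κv V Tw := by
    rwa [av_eq, bt_eq] at h
  obtain ⟨y, hy, hyT, hb⟩ := H.xb
  refine H.slope_of hy hyT hb ?_
  -- `X_a`
  have hXa : r (gC av (bt σ) 8) = 1 := by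
    have a8 : av 8 = 1 := by simp [av]
    have al : ∀ j, gC av (bt σ) j = gC av (bt σ) 8 → j = 8 := by
      intro j hj
      fin_cases j
      · exact absurd hj.symm g1.n80
      · exact absurd (hj.symm.trans g1.g1) g1.n85
      · exact absurd (hj.symm.trans g1.g2) g1.n85
      · exact absurd (hj.symm.trans g1.z3) g1.n80
      · exact absurd hj g1.n48
      · exact absurd hj.symm g1.n85
      · exact absurd (hj.symm.trans g1.g6) g1.n85
      · exact absurd hj g1.n78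
      · rfl
      · exact absurd (g1.p9.symm.trans hj) g1.n78
      · exact absurd hj.symm g1.n8X
    have m1 : v11 T T 0 0 0 0 0 0 0 0 ∈ coneN := by apply v11_mem <;> linarith
    have m2 : v11 T T 0 0 0 0 0 T 0 0 ∈ coneN := by apply v11_mem <;> linarith
    have e := loss_single hout (i := 8) (by rw [a8]; exact one_ne_zero) al m1 m2 ne8
    have e8 : v11 T T 0 0 0 0 0 T 0 0 8 - v11 T T 0 0 0 0 0 0 0 0 8 = T := by simp [v11]
    rw [a8, div_one, e8] at e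
    have l1 := H.xa hT le_rfl
    have l2 := H.upxa m1 m2 hT.le
    rw [e] at l1 l2
    nlinarith
  have S2 : ∀ t : ℝ, 0 ≤ t → t ≤ y →
      c * t ≤ lam (v11 y y 0 0 0 0 0 0 0 0) - lam (v11 y y t 0 0 t 0 0 0 0) := by
    intro t ht hty
    have hS2 := H.S2 t ht (hty.trans hyT)
    rw [← v11_zero, v11_26] at hS2
    have e1 := dec2 g H.out (z := y) (fb := y) (e := 0) (e' := t) (fa := 0) (ca := 0) (cb := 0)
      (p := 0) (xa := 0) (xb := 0) (n := 0) (z2 := 0) (fb2 := 0) (fa2 := 0) (p2 := 0)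
      (xa2 := 0) (xb2 := 0) (n2 := 0) (by apply v11_mem <;> linarith)
      (by apply v11_mem <;> linarith) (by apply v11_mem <;> linarith)
      (by apply v11_mem <;> linarith)
    have e2 := dec6 g H.out (z := y) (fb := y) (e := t) (fa := 0) (ca := 0) (cb := 0)
      (cb' := t) (p := 0) (xa := 0) (xb := 0) (n := 0) (z2 := 0) (fb2 := 0) (fa2 := 0)
      (p2 := 0) (xa2 := 0) (xb2 := 0) (n2 := 0) (by apply v11_mem <;> linarith)
      (by apply v11_mem <;> linarith) (by apply v11_mem <;> linarith)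
      (by apply v11_mem <;> linarith)
    linarith
  have key := n_full_T h' H.hσ H.hσ1 hσ2 hco hM hne hV hT3 hXa hy (fun t ht hty => by
    rw [bvT_eq, bvT_eq]
    exact H.xbF hy hyT hb ht hty (by apply v11_mem <;> linarith)
      (by apply v11_mem <;> linarith) (Or.inl rfl) (Or.inl rfl)) H.hc (fun t ht hty => by
    rw [bvT_eq, bvT_eq]
    exact S2 t ht hty)
  -- `N` alone in its group
  have aX : av 10 = 2 := by simp [av]
  have al : ∀ j, gC av (bt σ) j = gC av (bt σ) 10 → j = 10 := by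
    intro j hj
    fin_cases j
    · exact absurd hj.symm g1.nX0
    · exact absurd (hj.symm.trans g1.g1) g1.nX5
    · exact absurd (hj.symm.trans g1.g2) g1.nX5
    · exact absurd (hj.symm.trans g1.z3) g1.nX0
    · exact absurd hj g1.n4X
    · exact absurd hj.symm g1.nX5
    · exact absurd (hj.symm.trans g1.g6) g1.nX5
    · exact absurd hj g1.n7X
    · exact absurd hj g1.n8X
    · exact absurd (g1.p9.symm.trans hj) g1.n7X
    · rfl
  have m1 : v11 T T y y y y y y y 0 ∈ coneN := by apply v11_mem <;> linarith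
  have m2 : v11 T T y y y y y y y y ∈ coneN := by apply v11_mem <;> linarith
  have e := loss_single hout (i := 10) (by rw [aX]; exact two_ne_zero) al m1 m2 ne10
  have e10 : v11 T T y y y y y y y y 10 - v11 T T y y y y y y y 0 10 = y := by simp [v11]
  rw [aX, e10] at e
  rw [e]
  nlinarith

end Crest.Agent.R136.C2o400
end

-- ▼ part R136/C2p_400
section

/-!
# R136, case (C2) (helper400): **`caseC2`**

* `c2_all` : F-half for all `κ > 0`, slope `σ ≠ 0, 1`, `(κ, σ) ≠ (1, 2)`;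
* `caseC2` : the pattern `pC2` of the thick table is impossible.
-/

set_option autoImplicit false
set_option linter.unusedSectionVars false
set_option linter.unusedVariables false

open Filter Topology

namespace Crest.Agent.R136.C2p400

open Finset Crest.Agent.R136.NetQ186 Crest.Agent.R136.Net191 Crest.Agent.R136.Qg926
open Crest.Agent.R136.Gf356 Crest.Agent.R136.Aw413
open Crest.Agent.R136.C2355 Crest.Agent.R136.Dg219 Crest.Agent.R136.Wq400
open Crest.Agent.R136.Ev356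
open Crest.Agent.R136.NatT550 Crest.Agent.R136.Lq196 Crest.Agent.R136.Wq638
open Crest.Agent.R136.NatR550 (coneN nL)
open Crest.Agent.R136.Tb628
open Crest.Agent.R136.GeoQ186 (scl)
open Crest.Agent.R136.Top484 (Par4 Dat4)
open Crest.Agent.R136.TopB550 (Dead pC2 LL)
open Crest.Agent.R138.Ex926 (Base U)

/-- **`C2D` from `AeW`** (any window size `T ≤ 1`) -/
theorem exists_c2d {ι : ℕ → Type*} [∀ n, DecidableEq (ι n)] {B Bo : Base}
    {I J : ∀ n, Finset (ι n)} {co : ∀ n, ι n → ι n → Fin 11 → ℝ} {Ma : Mons 11} {C : ℝ}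
    {lam : (Fin 11 → ℝ) → ℝ} {κ σ : ℝ} {A : ℝ × ℝ} {φ : ℕ → (Fin 11 → ℝ) → ℝ} {r : ℕ → ℝ}
    {κv : Fin 11 → ℝ} {V Tw : Fin 11 → Prop} {f : ∀ n, ι n → Fq4}
    (hκ : 0 < κ) (hσ : σ ≠ 0) (hσ1 : σ ≠ 1)
    (h : AeW B Bo I J co monQ Ma C lam (nL 1 0 0 κ) (nL 0 1 σ σ) A φ r 0 1 κv V Tw)
    (hcone : coneM Ma = coneN)
    (hco : ∀ n, ∀ i ∈ I n, ∀ j ∈ I n, co n i j = coQ (f n i) (f n j))
    (hne : ∀ᶠ n in (U : Filter ℕ), (J n).Nonempty)
    (hV : ∀ k, V k → k = 0 ∨ k = 3) (hT3 : Tw 3) {c : ℝ} (hc : 0 < c)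
    (S1 : ∀ x : ℝ, 0 ≤ x → x ≤ 1 → c * x ≤ lam 0 - lam (Pi.single 5 x))
    (S2 : ∀ x : ℝ, 0 ≤ x → x ≤ 1 → c * x ≤ lam 0 - lam (Pi.single 2 x + Pi.single 6 x))
    {T : ℝ} (hT : 0 < T) (hT1 : T ≤ 1) :
    ∃ (B' : Base) (G : ℕ → RCfg (Fin 11)) (Leg : Set (Fin 11 → ℝ)) (ν : (Fin 11 → ℝ) → ℝ) (D : ℝ)
      (F : ℕ → ℕ → ℝ) (L0 : ℝ), C2D κ σ T lam A φ r B' G Leg ν D F c L0 := by
  have hM : MaQ Ma := maQ_of_cone h.sub hcone
  have hsub := h.sub
  have g := gr hκ hσ hσ1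
  set K : ℝ := max 1 (cK0 monQ C) with hK
  have hK1 : (1 : ℝ) ≤ K := le_max_left _ _
  have hK0 : 0 < K := by linarith
  have hst := stQ_ok (Ma := Ma) sok_b hK0 hT.le hsub
  obtain ⟨W, hW, -, -⟩ := h.wnd (stQ {0, 3} K T Ma) rfl hst (fun _ _ => 1)
    (fun _ => Base.Sub.const one_pos) J (fun _ => 1)
    (Eventually.of_forall fun n => Finset.Subset.refl _) hne (Base.Sub.const one_pos)
    (Eventually.of_forall fun n => by rw [one_mul])
  have hden := h.dens (st := stQ {0, 3} K T Ma) rfl hst (by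
      show ∀ i j, gC (nL 1 0 0 κ) (nL 0 1 σ σ) i = gC (nL 1 0 0 κ) (nL 0 1 σ σ) j →
        i ∈ ({0, 3} : Finset (Fin 11)) → j ∈ ({0, 3} : Finset (Fin 11))
      intro i j hij hi
      have hi' : gC (nL 1 0 0 κ) (nL 0 1 σ σ) i = gC (nL 1 0 0 κ) (nL 0 1 σ σ) 0 := by
        rcases Finset.mem_insert.1 hi with rfl | hi
        · rfl
        · rw [Finset.mem_singleton.1 hi]; exact g.e03.symm
      rw [hi'] at hij
      have key : ∀ j : Fin 11, gC (nL 1 0 0 κ) (nL 0 1 σ σ) 0 =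
          gC (nL 1 0 0 κ) (nL 0 1 σ σ) j → j = 0 ∨ j = 3 := by
        intro j hj
        fin_cases j
        · left; rfl
        · exact absurd (hj.trans g.z1) g.n0
        · exact absurd (hj.trans g.z2) g.n0
        · right; rfl
        · exact absurd hj g.n04
        · exact absurd (hj.trans g.z5) g.n0
        · exact absurd (hj.trans g.z6) g.n0
        · exact absurd hj g.n07
        · exact absurd hj g.n08
        · exact absurd hj g.n09
        · exact absurd hj g.n010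
      rcases key j hij with rfl | rfl <;> decide)
    zero_le_one le_rfl (R := T) le_rfl (by
      intro y hy hy1
      rw [hcone]; exact m_0 hy)
  obtain ⟨E', hNM, hbd, htw⟩ := C2w400.nm_of_wat hW hco hM hsub (le_max_right _ _) hT hV hT3
    hden.dens (fun y hy hy1 => by
      have := hden.frost y hy hy1
      rw [one_mul] at this
      exact this)
  have hw := C2w400.winB_of_wat hW hM hsub (le_max_right _ _) hT
  have elam := hW.elam
  refine ⟨W.B', W.cfg E', W.legW, W.nu, W.Dc, fun n k => flg W n k 3, lam fun _ => T, ?_⟩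
  refine ⟨hκ, hσ, hσ1, ?_, h.zero, ?_, ?_, ?_, ?_, hNM, htw, ?_, hc, ?_, ?_⟩
  · have := h.out
    rwa [hcone] at this
  · have := h.anti
    rwa [hcone] at this
  · have := h.sharp
    rwa [hcone] at this
  · have := h.submod
    rwa [hcone] at this
  · intro u hu
    have := h.own 0 (by rw [hcone]; exact m_zero) (Pi.single 0 u) (by rw [hcone]; exact m_0 hu)
      (by
        intro s
        by_cases hs : s = 0
        · subst hs; simpa using hu
        · rw [Pi.single_eq_of_ne hs]; exact le_rfl) (fun k _ => by simp)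
    simpa using this
  · intro e fa ca cb p xa xb n
    rw [C2w400.nu_bv hw, elam]
    rfl
  · intro x hx hxT
    exact S1 x hx (hxT.trans hT1)
  · intro x hx hxT
    exact S2 x hx (hxT.trans hT1)

/-- **F-half of (C2)**, all `κ > 0` -/
theorem c2_all {ι : ℕ → Type*} [∀ n, DecidableEq (ι n)] {B Bo : Base}
    {I J : ∀ n, Finset (ι n)} {co : ∀ n, ι n → ι n → Fin 11 → ℝ} {Ma : Mons 11} {C : ℝ}
    {lam : (Fin 11 → ℝ) → ℝ} {κ σ : ℝ} {A : ℝ × ℝ} {φ : ℕ → (Fin 11 → ℝ) → ℝ} {r : ℕ → ℝ}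
    {κv : Fin 11 → ℝ} {V Tw : Fin 11 → Prop} {f : ∀ n, ι n → Fq4}
    (hκ : 0 < κ) (hσ : σ ≠ 0) (hσ1 : σ ≠ 1) (hκσ : κ ≠ 1 ∨ σ ≠ 2)
    (h : AeW B Bo I J co monQ Ma C lam (nL 1 0 0 κ) (nL 0 1 σ σ) A φ r 0 1 κv V Tw)
    (hcone : coneM Ma = coneN)
    (hco : ∀ n, ∀ i ∈ I n, ∀ j ∈ I n, co n i j = coQ (f n i) (f n j))
    (hne : ∀ᶠ n in (U : Filter ℕ), (J n).Nonempty)
    (hV : ∀ k, V k → k = 0 ∨ k = 3) (hT3 : Tw 3) {c : ℝ} (hc : 0 < c)
    (S1 : ∀ x : ℝ, 0 ≤ x → x ≤ 1 → c * x ≤ lam 0 - lam (Pi.single 5 x))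
    (S2 : ∀ x : ℝ, 0 ≤ x → x ≤ 1 → c * x ≤ lam 0 - lam (Pi.single 2 x + Pi.single 6 x)) :
    A.1 ≤ -(4 + κ) := by
  obtain ⟨B', G, Leg, ν, D, F, L0, H⟩ := exists_c2d hκ hσ hσ1 h hcone hco hne hV hT3 hc S1 S2
    one_pos le_rfl
  by_cases hκ1 : κ = 1
  · subst hκ1
    exact C2o400.slope_one h (hκσ.resolve_left fun e => e rfl) hcone hco hne hV hT3 H
  · exact H.slope hκ1

theorem smulE (y : ℝ) : eCa y = Pi.single 5 y := by
  funext k; fin_cases k <;> simp [eCa]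

theorem smulB (y : ℝ) : eECb y = Pi.single 2 y + Pi.single 6 y := by
  funext k; fin_cases k <;> simp [eECb]

/-- the slack of case (C2) from the bounds of the slopes -/
theorem slackC {η q0 q2 g a b c : ℝ} (hη1 : η ≤ 1 / 8) (hq0 : 0 ≤ q0) (hq2 : 0 < q2)
    (hg : 0 < g) (hb : q2 * max (b - c) 0 + q0 * (max (-a) 0 + |b| + |c|) ≤ η * g) :
    q2 * 0 + q0 * (c - a) < g := by
  have e1 : 0 ≤ q2 * max (b - c) 0 := mul_nonneg hq2.le (le_max_right _ _)
  have e2 : c - a ≤ max (-a) 0 + |b| + |c| := by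
    linarith [le_max_left (-a) 0, abs_nonneg b, le_abs_self c]
  have e3 := mul_le_mul_of_nonneg_left e2 hq0
  have e4 := mul_le_mul_of_nonneg_right hη1 hg.le
  linarith

/-- **case (C2)** of the thick table -/
theorem caseC2 {η : ℝ} (hη1 : η ≤ 1 / 8) : Dead η pC2 := by
  intro p D I1 π eE gA gB V T w0 R T0 PD ν own c₀ h hp
  have hη : 0 < η := h.tp.ok.η_pos
  have h2pos : 0 < p.θ 2 := hp.pos h.tp.ok hη
  have hth := h.tp.ok.θ1
  obtain ⟨n2, v3, hcase, nLL⟩ := hp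
  have sl := h.tp.slots
  have hκ : 0 < p.θ 2 - p.θ 0 := by
    have := (sl.vis 3 v3).2
    simpa [btQ] using this
  have t3 : T 3 := by
    by_contra hT
    have := (sl.cap 3 v3 hT).1
    exact absurd this (by decide)
  have hne12 : p.θ 1 ≠ p.θ 2 := by
    rcases hcase with h1 | h1
    · exact h1.ne
    · exact h1.2.2.ne'
  have h4 : V 4 → p.θ 1 < p.θ 2 := by
    intro v4
    rcases hcase with h1 | h1
    · exact h1
    · exact absurd v4 h1.1
  have q1 := h.tp.ok.g0.2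
  have q2 := h.tp.ok.q2.1
  have hsl : p.q 2 * 0 + p.q 0 * (p.θ 2 - p.θ 0) < p.g := by
    first
    | exact slack h.tp.ok hη hη1 h.tp.ok.θb (i := 0) (j := 0) (k := 2) (l := 0) (by positivity) (by
        have a1 := le_abs_self (p.θ 2)
        have a2 := neg_abs_le (p.θ 0)
        linarith)
    | (have hb : p.q 2 * max (p.θ 1 - p.θ 2) 0 +
          p.q 0 * (max (-(p.θ 0)) 0 + |p.θ 1| + |p.θ 2|) ≤ η * p.g := h.tp.ok.θb
       exact slackC hη1 h.tp.ok.q0.1 q2 h.tp.ok.g0.1 hb)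
  refine row_nat0 h hη (κ := 0) (κ3 := p.θ 2 - p.θ 0) le_rfl hκ.le (Or.inl rfl)
    (Or.inr (Or.inl (by intro e; rw [e] at hκ; simp at hκ))) hsl
    (fun v2 => absurd v2 n2) (fun _ => by linarith) (fun v4 => by have := h4 v4; linarith) ?_
  intro g1 g2 hcone ξ x h' lam A φ r P hH
  have r1 := g1 hne12
  have r2 := g2 (Or.inl (by intro e; rw [e] at hκ; simp at hκ))
  set σ : ℝ := p.θ 2 / p.θ 1 with hσ
  have eA : sA 0 (p.θ 2 - p.θ 0) = nL 1 0 0 (p.θ 2 - p.θ 0) := rfl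
  have eB : sB p.θ 0 (p.θ 2 - p.θ 0) = nL 0 1 σ σ := by
    unfold sB
    rw [add_zero, add_sub_cancel]
  have hh := P.aew
  have hcone' := hcone
  have c1 : 0 < min (p.q 1) (p.q 2) := lt_min q1 q2
  have m0 : (0 : Fin 11 → ℝ) ∈
      coneM (actM monQ (s0 w0 (R - 1)) (sA 0 (p.θ 2 - p.θ 0)) (sB p.θ 0 (p.θ 2 - p.θ 0))) := by
    rw [hcone]; exact m_zero
  have S1 : ∀ x : ℝ, 0 ≤ x → x ≤ 1 → min (p.q 1) (p.q 2) * x ≤ lam 0 - lam (Pi.single 5 x) := by
    intro y hy _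
    have := P.S1 (by simp [sA, nL]) (by simp [sB, nL]) r1 (c := 0) m0 hy (by
      rw [zero_add, smulE, hcone]; exact m_5 hy) (by intro k _ _; simp)
    rw [zero_add, smulE] at this
    have h2 := mul_le_mul_of_nonneg_right (min_le_left (p.q 1) (p.q 2)) hy
    linarith
  have S2 : ∀ x : ℝ, 0 ≤ x → x ≤ 1 → min (p.q 1) (p.q 2) * x ≤
      lam 0 - lam (Pi.single 2 x + Pi.single 6 x) := by
    intro y hy _
    have := P.S2 (by simp [sA, nL]) (by simp [sA, nL]) r2 (c := 0) m0 (τ := 0) hy (by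
      rw [zero_add, smulB, hcone]; exact m_26 hy) (by intro k _ _; simp) (by simp) (by simp)
    rw [zero_add, smulB] at this
    have h2 := mul_le_mul_of_nonneg_right (min_le_right (p.q 1) (p.q 2)) hy
    linarith
  have hV' : ∀ k, (V k ∧ sB p.θ 0 (p.θ 2 - p.θ 0) k = 0) → k = 0 ∨ k = 3 := by
    rintro k ⟨hk, hb⟩
    rcases (sl.vis k hk).1 with rfl | rfl | rfl
    · exact absurd hk n2
    · right; rfl
    · exfalso
      rw [sB_four0 hth.ne'] at hb
      have := h4 hk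
      linarith
  have hT3 : T 3 ∧ sB p.θ 0 (p.θ 2 - p.θ 0) 3 = 0 := ⟨t3, by rw [sB_three0 hth.ne']; ring⟩
  rw [eB, eA] at hh hcone'
  rw [eB] at hV' hT3
  have key := c2_all hκ (σ := σ) (div_pos h2pos hth).ne' (by
      intro e
      rw [hσ, div_eq_one_iff_eq hth.ne'] at e
      exact hne12 e.symm) (by
      by_contra hcon
      push Not at hcon
      apply nLL
      refine ⟨hcon.1, ?_⟩
      have := hcon.2
      rw [hσ, div_eq_iff hth.ne'] at this
      exact this) hh hcone' (f := fun n x => scl (uH D.B D.lev w0 n) (uA D.B D.lev D.w w0 n)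
        (uB D.B D.lev D.w w0 n) (uY D.B D.lev D.w w0 n) (incQ π D.L eE gA gB n x))
      (fun n i _ j _ => rfl) (nprof h).ne hV' hT3 c1 S1 S2
  rw [add_zero]
  exact key

end Crest.Agent.R136.C2p400
end

-- ▼ part R136/Z2a_57
section

/-!
# R136, case (Z2) / (C2) with `σ < q1 / 4`, real analysis (helper57)

* `pos_of_deriv`    : `0 < deriv F x` gives uniform growth to the right of `x`
* `volume_good`     : for `F` monotone, `1`-Lipschitz on `[a, b]` the set of points with positive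
                      derivative has measure at least `F b - F a`
* `null_of_density` : a set whose complement has lower right density `≥ γ > 0` at each of its points
                      is null
* `sub_of_ae_deriv` : Lipschitz function with derivative `≤ -Λ` a.e.
-/

set_option autoImplicit false

open Set Filter Topology MeasureTheory Metric
open scoped NNReal ENNReal

namespace Crest.Agent.R136.Z2H57

/-- growth to the right of a point with positive derivative -/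
theorem pos_of_deriv {F : ℝ → ℝ} {x : ℝ} (h : 0 < deriv F x) :
    ∃ c > 0, ∃ h0 > 0, ∀ δ, 0 ≤ δ → δ ≤ h0 → c * δ ≤ F (x + δ) - F x := by
  have hd : DifferentiableAt ℝ F x := by
    by_contra hcon
    rw [deriv_zero_of_not_differentiableAt hcon] at h
    exact lt_irrefl _ h
  have h1 := hd.hasDerivAt.tendsto_slope_zero
  have h2 : ∀ᶠ t : ℝ in 𝓝[≠] 0, deriv F x / 2 < t⁻¹ • (F (x + t) - F x) :=
    h1.eventually (lt_mem_nhds (by linarith))
  have h3 : ∀ᶠ t : ℝ in 𝓝[>] 0, deriv F x / 2 < t⁻¹ • (F (x + t) - F x) :=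
    h2.filter_mono (nhdsWithin_mono _ fun t ht => (ne_of_gt ht))
  obtain ⟨h0, hh0, H⟩ := mem_nhdsGT_iff_exists_Ioo_subset.1 h3
  have hh0 : 0 < h0 := hh0
  refine ⟨deriv F x / 2, by linarith, h0 / 2, by linarith, fun δ h4 h5 => ?_⟩
  rcases h4.eq_or_lt with h6 | h6
  · rw [← h6]; simp
  · have h7 := H ⟨h6, by linarith⟩
    simp only [mem_ofPred_eq, smul_eq_mul] at h7
    rw [← div_eq_inv_mul, lt_div_iff₀ h6] at h7
    linarith

/-- monotone and `1`-Lipschitz on `[a, b]` -/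
def ML (F : ℝ → ℝ) (a b : ℝ) : Prop :=
  ∀ x ∈ Icc a b, ∀ y ∈ Icc a b, x ≤ y → 0 ≤ F y - F x ∧ F y - F x ≤ y - x

theorem ML.lip {F : ℝ → ℝ} {a b : ℝ} (h : ML F a b) : LipschitzOnWith 1 F (Icc a b) := by
  refine LipschitzOnWith.of_dist_le_mul fun x hx y hy => ?_
  rw [Real.dist_eq, Real.dist_eq, NNReal.coe_one, one_mul]
  rcases le_total x y with h1 | h1
  · have := h x hx y hy h1
    rw [abs_sub_comm, abs_of_nonneg this.1, abs_sub_comm x y, abs_of_nonneg (by linarith)]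
    exact this.2
  · have := h y hy x hx h1
    rw [abs_of_nonneg this.1, abs_of_nonneg (by linarith : 0 ≤ x - y)]
    exact this.2

theorem ML.mono {F : ℝ → ℝ} {a b a' b' : ℝ} (h : ML F a b) (h1 : a ≤ a') (h2 : b' ≤ b) :
    ML F a' b' := fun x hx y hy hxy =>
  h x ⟨h1.trans hx.1, hx.2.trans h2⟩ y ⟨h1.trans hy.1, hy.2.trans h2⟩ hxy

/-- points of positive derivative -/
def good (F : ℝ → ℝ) (a b : ℝ) : Set ℝ := {x | x ∈ Ioo a b ∧ 0 < deriv F x}

theorem measurableSet_good (F : ℝ → ℝ) (a b : ℝ) : MeasurableSet (good F a b) :=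
  measurableSet_Ioo.inter ((measurable_deriv F) measurableSet_Ioi)

theorem good_subset (F : ℝ → ℝ) (a b : ℝ) : good F a b ⊆ Ioo a b := fun _ h => h.1

theorem volume_good {F : ℝ → ℝ} {a b : ℝ} (hab : a ≤ b) (h : ML F a b) :
    ENNReal.ofReal (F b - F a) ≤ volume (good F a b) := by
  have hac : AbsolutelyContinuousOnInterval F a b := by
    refine LipschitzOnWith.absolutelyContinuousOnInterval (K := 1) ?_
    rw [uIcc_of_le hab]; exact h.lip
  have hint := hac.intervalIntegrable_deriv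
  have heq := hac.integral_deriv_eq_sub
  have hb1 : ∀ x ∈ Ioo a b, |deriv F x| ≤ 1 := by
    intro x hx
    have h1 : LipschitzOnWith 1 F (Ioo a b) := h.lip.mono Ioo_subset_Icc_self
    have h2 := norm_deriv_le_of_lipschitzOn (isOpen_Ioo.mem_nhds hx) h1
    simpa using h2
  have hfin : volume (good F a b) ≠ ⊤ := by
    have := measure_mono (μ := volume) (good_subset F a b)
    rw [Real.volume_Ioo] at this
    exact ne_top_of_le_ne_top ENNReal.ofReal_ne_top this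
  have h3 : F b - F a ≤ volume.real (good F a b) := by
    rw [← heq, intervalIntegral.integral_of_le hab, integral_Ioc_eq_integral_Ioo]
    have h4 : ∫ x in Ioo a b, deriv F x ≤ ∫ x in Ioo a b, (good F a b).indicator (fun _ => (1:ℝ)) x := by
      refine setIntegral_mono_on ?_ ?_ measurableSet_Ioo fun x hx => ?_
      · have := hint.1
        exact this.mono_set Ioo_subset_Ioc_self
      · refine Integrable.indicator ?_ (measurableSet_good F a b)
        refine integrableOn_const ?_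
        rw [Real.volume_Ioo]; exact ENNReal.ofReal_ne_top
      · by_cases hg : x ∈ good F a b
        · rw [indicator_of_mem hg]
          exact (le_abs_self _).trans (hb1 x hx)
        · rw [indicator_of_notMem hg]
          by_contra hcon
          exact hg ⟨hx, not_le.1 hcon⟩
    refine h4.trans (le_of_eq ?_)
    rw [setIntegral_indicator (measurableSet_good F a b),
      inter_eq_right.2 (good_subset F a b), setIntegral_const, smul_eq_mul, mul_one]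
  calc ENNReal.ofReal (F b - F a) ≤ ENNReal.ofReal (volume.real (good F a b)) :=
        ENNReal.ofReal_le_ofReal h3
    _ = volume (good F a b) := ENNReal.ofReal_toReal hfin

/-- **density lemma** (`N` arbitrary) -/
theorem null_of_density {N : Set ℝ} {γ : ℝ} (hγ : 0 < γ)
    (H : ∀ x ∈ N, ∃ h1 > 0, ∀ h, 0 < h → h < h1 → ∃ M : Set ℝ, MeasurableSet M ∧
      M ⊆ Ioo x (x + h) ∧ Disjoint M N ∧ ENNReal.ofReal (γ * h) ≤ volume M) :
    volume N = 0 := by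
  have h0 := Besicovitch.ae_tendsto_measure_inter_div (volume : Measure ℝ) N
  have h1 := ae_imp_of_ae_restrict h0
  have h2 : ∀ᵐ x : ℝ, x ∉ N := by
    filter_upwards [h1] with x hx hxN
    have h3 := hx hxN
    obtain ⟨h1, hh1, Hx⟩ := H x hxN
    have h4 : ∀ᶠ r : ℝ in 𝓝[>] 0, volume (N ∩ closedBall x r) / volume (closedBall x r) ≤
        ENNReal.ofReal (1 - γ / 2) := by
      filter_upwards [Ioo_mem_nhdsGT hh1] with r hr
      obtain ⟨M, hM, hMs, hMN, hMv⟩ := Hx r hr.1 hr.2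
      have h5 : N ∩ closedBall x r ⊆ closedBall x r \ M := by
        rintro y ⟨hy1, hy2⟩
        exact ⟨hy2, fun hy3 => (Set.disjoint_left.1 hMN hy3) hy1⟩
      have h6 : M ⊆ closedBall x r := by
        intro y hy
        have := hMs hy
        rw [Real.closedBall_eq_Icc]
        exact ⟨by linarith [this.1, hr.1], this.2.le⟩
      have hMfin : volume M ≠ ⊤ := by
        refine ne_top_of_le_ne_top ?_ (measure_mono h6)
        rw [Real.volume_closedBall]; exact ENNReal.ofReal_ne_top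
      have h7 : volume (N ∩ closedBall x r) ≤ ENNReal.ofReal (2 * r) - ENNReal.ofReal (γ * r) := by
        refine (measure_mono h5).trans ?_
        rw [measure_sdiff h6 hM.nullMeasurableSet hMfin, Real.volume_closedBall]
        exact tsub_le_tsub_left hMv _
      rw [Real.volume_closedBall]
      have hr0 : 0 < 2 * r := by linarith [hr.1]
      rw [ENNReal.div_le_iff (by simpa using hr0) ENNReal.ofReal_ne_top]
      refine h7.trans ?_
      rw [← ENNReal.ofReal_sub _ (by nlinarith [hr.1] : 0 ≤ γ * r)]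
      by_cases hγ2 : 0 ≤ 1 - γ / 2
      · rw [← ENNReal.ofReal_mul hγ2]
        refine ENNReal.ofReal_le_ofReal ?_
        nlinarith
      · have : 2 * r - γ * r ≤ 0 := by nlinarith [hr.1]
        rw [ENNReal.ofReal_of_nonpos this]
        exact bot_le
    have h8 := le_of_tendsto h3 h4
    rw [← ENNReal.ofReal_one, ENNReal.ofReal_le_ofReal_iff'] at h8
    rcases h8 with h8 | h8 <;> linarith
  rw [ae_iff] at h2
  simpa using h2

/-- Lipschitz on `[a, b]`, derivative `≤ -Λ` a.e. -/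
theorem sub_of_ae_deriv {F : ℝ → ℝ} {a b Λ : ℝ} {K : ℝ≥0} (hab : a ≤ b)
    (h : LipschitzOnWith K F (Icc a b))
    (hd : ∀ᵐ x : ℝ, x ∈ Ioo a b → ∃ s : ℝ, HasDerivAt F s x ∧ s ≤ -Λ) :
    F b - F a ≤ -(Λ * (b - a)) := by
  have hac : AbsolutelyContinuousOnInterval F a b := by
    refine LipschitzOnWith.absolutelyContinuousOnInterval (K := K) ?_
    rw [uIcc_of_le hab]; exact h
  have hint := hac.intervalIntegrable_deriv
  rw [← hac.integral_deriv_eq_sub, intervalIntegral.integral_of_le hab,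
    integral_Ioc_eq_integral_Ioo]
  have h4 : ∫ x in Ioo a b, deriv F x ≤ ∫ _ in Ioo a b, (-Λ) := by
    refine setIntegral_mono_on_ae ?_ ?_ measurableSet_Ioo ?_
    · have := hint.1
      exact this.mono_set Ioo_subset_Ioc_self
    · refine integrableOn_const ?_
      rw [Real.volume_Ioo]; exact ENNReal.ofReal_ne_top
    · filter_upwards [hd] with x hx hx2
      obtain ⟨s, hs1, hs2⟩ := hx hx2
      rw [hs1.deriv]; exact hs2
  refine h4.trans (le_of_eq ?_)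
  rw [setIntegral_const, smul_eq_mul, Measure.real, Real.volume_Ioo,
    ENNReal.toReal_ofReal (by linarith)]
  ring

end Crest.Agent.R136.Z2H57
end

-- ▼ part R136/Z2b_57
section

/-!
# R136, case (Z2') = (C2z) of the thick table, scalar half, part 1 (helper57)

Only `32` tied, `θ 2 < q1 / 4 * θ 1` (in particular `θ 2 ≤ 0`).  Slots of `186`:
`0 z, 1 R, 2 E, 3 F_b, 4 F_a, 5 C_a, 6 C_b, 7 P, 8 X_a, 9 X_b, 10 N`.

`nt` = `NatT550.nat4`.  `xx v t y` = natural box `(v; t, σ t + y, κ v + σ t + y)`.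

* `S1`, `S2` : uniform sweeps of `C_a`, resp. of `C_b` together with `E`, at a box
* `Dat` : profile, local D-max and record value near one part of the record line
-/

set_option autoImplicit false
set_option linter.unusedVariables false

open Set Filter Topology MeasureTheory

namespace Crest.Agent.R136.Z2H57

open Crest.Agent.R136.Net191
open Crest.Agent.R136.NetQ186

/-- natural box (literally `NatT550.nat4`) -/
def nt (w0 R v t1 t2 t3 : ℝ) : Fin 11 → ℝ :=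
  ![w0 + v, R, w0 + (t2 - t1), w0 + (t3 - t2), 2 * w0 + (t3 - t1), w0 + t1, 2 * w0 + t2,
    3 * w0 + t3, 2 * w0 + (v + t1), 3 * w0 + (v + t2), 4 * w0 + (v + t3)]

/-- direction `C_a` -/
def uC : Fin 11 → ℝ := ![0, 0, 0, 0, 0, 1, 0, 0, 0, 0, 0]

/-- direction `C_b + E` -/
def uB : Fin 11 → ℝ := ![0, 0, 1, 0, 0, 0, 1, 0, 0, 0, 0]

/-- profile facts -/
structure Prf (ν : (Fin 11 → ℝ) → ℝ) (R : ℝ) : Prop where
  lip : ∀ p ∈ Leg monQ R, ∀ q ∈ Leg monQ R, p ≤ q → 0 ≤ ν p - ν q ∧ ν p - ν q ≤ ∑ k, (q k - p k)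
  sub : ∀ p ∈ Leg monQ R, ∀ q ∈ Leg monQ R, p ⊓ q ∈ Leg monQ R → ν p + ν q ≤ ν (p ⊔ q) + ν (p ⊓ q)

section

variable {ν : (Fin 11 → ℝ) → ℝ} {R : ℝ}

/-- increments are antitone -/
theorem Prf.inc (H : Prf ν R) {p q d : Fin 11 → ℝ} (hp : p ∈ Leg monQ R) (hq : q ∈ Leg monQ R)
    (hpd : p + d ∈ Leg monQ R) (h0 : ∀ k, 0 ≤ d k) (hpq : p ≤ q)
    (he : ∀ k, d k = 0 ∨ p k = q k) : ν q - ν (q + d) ≤ ν p - ν (p + d) := by
  have e1 : (p + d) ⊓ q = p := by
    funext k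
    simp only [Pi.inf_apply, Pi.add_apply]
    rcases he k with h | h
    · rw [h, add_zero]; exact inf_eq_left.2 (hpq k)
    · rw [h]; exact inf_eq_right.2 (by linarith [h0 k])
  have e2 : (p + d) ⊔ q = q + d := by
    funext k
    simp only [Pi.sup_apply, Pi.add_apply]
    rcases he k with h | h
    · rw [h, add_zero, add_zero]; exact sup_eq_right.2 (hpq k)
    · rw [h]; exact sup_eq_left.2 (by linarith [h0 k])
  have := H.sub (p + d) hpd q hq (by rw [e1]; exact hp)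
  rw [e1, e2] at this
  linarith

/-- positive rate of `C_a` at a box -/
def Pos (ν : (Fin 11 → ℝ) → ℝ) (p : Fin 11 → ℝ) : Prop :=
  ∃ c > 0, ∃ h0 > 0, ∀ δ, 0 ≤ δ → δ ≤ h0 → c * δ ≤ ν p - ν (p + δ • uC)

/-- **uniform sweep of `C_a`** near the box `p` -/
def S1 (ν : (Fin 11 → ℝ) → ℝ) (R : ℝ) (p : Fin 11 → ℝ) : Prop :=
  ∃ c > 0, ∃ h0 > 0, ∀ d : Fin 11 → ℝ, (∀ k, |d k| ≤ h0) → d 5 = 0 → ∀ δ, 0 ≤ δ → δ ≤ h0 →
    p + d ∈ Leg monQ R → p + d + δ • uC ∈ Leg monQ R → c * δ ≤ ν (p + d) - ν (p + d + δ • uC)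

/-- **uniform joint sweep of `C_b` and `E`** near the box `p` -/
def S2 (ν : (Fin 11 → ℝ) → ℝ) (R : ℝ) (p : Fin 11 → ℝ) : Prop :=
  ∃ c > 0, ∃ h0 > 0, ∀ d : Fin 11 → ℝ, (∀ k, |d k| ≤ h0) → d 2 = 0 → d 6 = 0 → d 5 ≤ 0 →
    ∀ δ, 0 ≤ δ → δ ≤ h0 → p + d ∈ Leg monQ R → p + d + δ • uB ∈ Leg monQ R →
      c * δ ≤ ν (p + d) - ν (p + d + δ • uB)

/-- exponent of D-max of a natural box -/
def En (g s : ℝ) (q : Fin 3 → ℝ) (v t1 t2 t3 : ℝ) : ℝ :=
  g * v + (1 - s) * (1 - v) - (v + t3) - (v + t2) - (v + t1) - q 0 * t3 - q 1 * t1 - q 2 * t2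

/-- local data near a part of the record line `t_j = - θ_j v`, `va < v < vb`.  The record boxes have
`R` in the slot `1`, the boxes of the windows `Rs < R`. -/
structure Dat (ν : (Fin 11 → ℝ) → ℝ) (R Rs w0 : ℝ) (θ : Fin 3 → ℝ) (g s c₀ : ℝ) (q : Fin 3 → ℝ)
    (va vb η : ℝ) : Prop where
  prf : Prf ν R
  η0 : 0 < η
  vab : va < vb
  Rs0 : η ≤ Rs
  RsR : Rs + η ≤ R
  lo : ∀ v ∈ Ioo va vb, ∀ t1 t2 t3 : ℝ, |t1 + θ 1 * v| ≤ η → |t2 + θ 2 * v| ≤ η →
    |t3 + θ 0 * v| ≤ η → ∀ k, η ≤ nt w0 Rs v t1 t2 t3 k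
  hi : ∀ v ∈ Ioo va vb, ∀ t1 t2 t3 : ℝ, |t1 + θ 1 * v| ≤ η → |t2 + θ 2 * v| ≤ η →
    |t3 + θ 0 * v| ≤ η → ∀ k, nt w0 Rs v t1 t2 t3 k + η ≤ R
  pw : ∀ v ∈ Ioo va vb, ∀ t3 : ℝ, |t3 + θ 0 * v| ≤ η → 3 * w0 + t3 + η ≤ w0 + v + Rs
  dmax : ∀ v ∈ Ioo va vb, ∀ t1 t2 t3 : ℝ, |t1 + θ 1 * v| ≤ η → |t2 + θ 2 * v| ≤ η →
    |t3 + θ 0 * v| ≤ η → (∃ v' ∈ Ioo va vb, v + t3 ≤ (1 - θ 0) * v') →
      ν (nt w0 Rs v t1 t2 t3) ≤ c₀ + En g s q v t1 t2 t3
  rcd : ∀ v ∈ Ioo va vb, c₀ + En g s q v (-(θ 1 * v)) (-(θ 2 * v)) (-(θ 0 * v)) ≤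
    ν (nt w0 R v (-(θ 1 * v)) (-(θ 2 * v)) (-(θ 0 * v)))

/-- legality of a small modification of a natural box; slot `1` is `Rs` or `R` -/
theorem leg_add {w0 Rs Rt v t1 t2 t3 η : ℝ} {d : Fin 11 → ℝ}
    (lo : ∀ k, η ≤ nt w0 Rs v t1 t2 t3 k) (hi : ∀ k, nt w0 Rs v t1 t2 t3 k + η ≤ R)
    (pw : 3 * w0 + t3 + η ≤ w0 + v + Rs) (hRt : Rs ≤ Rt) (hRt' : Rt + d 1 ≤ R)
    (hd : ∀ k, |d k| ≤ η) (hd7 : d 7 ≤ d 0 + d 1 + η)
    (h4 : d 4 ≤ d 2 + d 3) (h6 : d 6 ≤ d 2 + d 5) (h7 : d 7 ≤ d 4 + d 5) (h7' : d 7 ≤ d 3 + d 6)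
    (h8 : d 8 ≤ d 0 + d 5) (h9 : d 9 ≤ d 0 + d 6) (h9' : d 9 ≤ d 2 + d 8)
    (h10 : d 10 ≤ d 0 + d 7) (h10' : d 10 ≤ d 4 + d 8) (h10'' : d 10 ≤ d 3 + d 9) :
    nt w0 Rt v t1 t2 t3 + d ∈ Leg monQ R := by
  have hk : ∀ k : Fin 11, k ≠ 1 → nt w0 Rt v t1 t2 t3 k = nt w0 Rs v t1 t2 t3 k := by
    intro k hk
    fin_cases k <;> first | rfl | exact absurd rfl hk
  have e1 : nt w0 Rt v t1 t2 t3 1 = Rt := rfl
  have e2 : nt w0 Rs v t1 t2 t3 1 = Rs := rfl
  refine ⟨?_, fun k => ?_⟩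
  · rw [legalQ_iff]
    refine ⟨fun k => ?_, ?_, ?_, ?_, ?_, ?_, ?_, ?_, ?_, ?_, ?_, ?_⟩
    · have h1 := lo k
      have h2 := neg_le_of_abs_le (hd k)
      rw [Pi.add_apply]
      by_cases hk1 : k = 1
      · subst hk1; rw [e1]; rw [e2] at h1; linarith
      · rw [hk k hk1]; linarith
    all_goals
      simp only [Pi.add_apply, nt, Matrix.cons_val]
      linarith
  · have h1 := hi k
    have h2 := le_of_abs_le (hd k)
    rw [Pi.add_apply]
    by_cases hk1 : k = 1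
    · subst hk1; rw [e1]; exact hRt'
    · rw [hk k hk1]; linarith

end

end Crest.Agent.R136.Z2H57
end

-- ▼ part R136/Z2c_57
section

/-!
# R136, case (Z2') = (C2z), scalar half, part 2 (helper57): sweeps

`xx w0 Rt θ v t y` : natural box `(v; t, σ t + y, κ v + σ t + y)`, `σ = θ 2 / θ 1`, `κ = θ 2 - θ 0`.
Record: `v = - t / θ 1`, `y = 0`.

* `Dat.pos_ae` : for every `v` and almost every `t` below the record, `C_a` has positive rate at
  `xx v t y` for some (hence all) small `y`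
* `Dat.s1`, `Dat.s2` : the uniform sweeps
-/

set_option autoImplicit false
set_option linter.unusedVariables false

open Set Filter Topology MeasureTheory

namespace Crest.Agent.R136.Z2H57

open Crest.Agent.R136.Net191
open Crest.Agent.R136.NetQ186

/-- the natural boxes of the plane -/
noncomputable def xx (w0 Rt : ℝ) (θ : Fin 3 → ℝ) (v t y : ℝ) : Fin 11 → ℝ :=
  nt w0 Rt v t (θ 2 / θ 1 * t + y) ((θ 2 - θ 0) * v + (θ 2 / θ 1 * t + y))

section

variable {ν : (Fin 11 → ℝ) → ℝ} {R Rs w0 : ℝ} {θ : Fin 3 → ℝ} {g s c₀ : ℝ} {q : Fin 3 → ℝ}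
  {va vb η : ℝ}

/-- size of the slopes -/
def Th (θ : Fin 3 → ℝ) : ℝ := θ 1 + |θ 2| + 1

/-- the boxes of the plane are near the record line -/
theorem near_xx (h1 : 0 < θ 1) {v t y : ℝ} (hv : Th θ * |v - -t / θ 1| ≤ η / 2)
    (hy : |y| ≤ η / 2) :
    |t + θ 1 * v| ≤ η ∧ |θ 2 / θ 1 * t + y + θ 2 * v| ≤ η ∧
      |(θ 2 - θ 0) * v + (θ 2 / θ 1 * t + y) + θ 0 * v| ≤ η := by
  have e1 : t + θ 1 * v = θ 1 * (v - -t / θ 1) := by field_simp; ring
  have e2 : θ 2 / θ 1 * t + y + θ 2 * v = θ 2 * (v - -t / θ 1) + y := by field_simp; ring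
  have e3 : (θ 2 - θ 0) * v + (θ 2 / θ 1 * t + y) + θ 0 * v = θ 2 * (v - -t / θ 1) + y := by
    rw [← e2]; ring
  set w := v - -t / θ 1 with hw
  have hw0 := abs_nonneg w
  have h2 := abs_nonneg (θ 2)
  have hη : 0 ≤ η / 2 := (abs_nonneg y).trans hy
  unfold Th at hv
  have b1 : θ 1 * |w| ≤ η / 2 := by nlinarith
  have b2 : |θ 2| * |w| ≤ η / 2 := by nlinarith
  refine ⟨?_, ?_, ?_⟩
  · rw [e1, abs_mul, abs_of_pos h1]; linarith
  · rw [e2]
    refine (abs_add_le _ _).trans ?_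
    rw [abs_mul]; linarith
  · rw [e3]
    refine (abs_add_le _ _).trans ?_
    rw [abs_mul]; linarith

theorem xx_rec (h1 : 0 < θ 1) (t : ℝ) : ∀ Rt : ℝ, xx w0 Rt θ (-t / θ 1) t 0 =
    nt w0 Rt (-t / θ 1) (-(θ 1 * (-t / θ 1))) (-(θ 2 * (-t / θ 1))) (-(θ 0 * (-t / θ 1))) := by
  intro Rt
  have e1 : -(θ 1 * (-t / θ 1)) = t := by field_simp
  have e2 : -(θ 2 * (-t / θ 1)) = θ 2 / θ 1 * t + 0 := by field_simp; ring
  have e3 : -(θ 0 * (-t / θ 1)) = (θ 2 - θ 0) * (-t / θ 1) + (θ 2 / θ 1 * t + 0) := by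
    rw [← e2]; ring
  rw [e1, e3, e2]; rfl

/-- exponent of D-max in the plane -/
noncomputable def Ex (g s : ℝ) (q θ : Fin 3 → ℝ) (v t y : ℝ) : ℝ :=
  En g s q v t (θ 2 / θ 1 * t + y) ((θ 2 - θ 0) * v + (θ 2 / θ 1 * t + y))

theorem Ex_rec (h1 : 0 < θ 1) (t : ℝ) : Ex g s q θ (-t / θ 1) t 0 =
    En g s q (-t / θ 1) (-(θ 1 * (-t / θ 1))) (-(θ 2 * (-t / θ 1))) (-(θ 0 * (-t / θ 1))) := by
  have e1 : -(θ 1 * (-t / θ 1)) = t := by field_simp
  have e2 : -(θ 2 * (-t / θ 1)) = θ 2 / θ 1 * t + 0 := by field_simp; ring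
  have e3 : -(θ 0 * (-t / θ 1)) = (θ 2 - θ 0) * (-t / θ 1) + (θ 2 / θ 1 * t + 0) := by
    rw [← e2]; ring
  rw [e1, e3, e2]; rfl

theorem Ex_sub (v t y v' y' : ℝ) : Ex g s q θ v' t y' - Ex g s q θ v t y =
    (g - q 0 * (θ 2 - θ 0) - ((1 - s) + 3 + (θ 2 - θ 0))) * (v' - v) -
      (2 + q 0 + q 2) * (y' - y) := by
  unfold Ex En; ring

namespace Dat

variable (H : Dat ν R Rs w0 θ g s c₀ q va vb η)
include H

/-- legality near the record line, any slot `1` between `Rs` and `R` -/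
theorem leg {v t1 t2 t3 : ℝ} (hv : v ∈ Ioo va vb)
    (hn : |t1 + θ 1 * v| ≤ η ∧ |t2 + θ 2 * v| ≤ η ∧ |t3 + θ 0 * v| ≤ η) {Rt : ℝ}
    (hR1 : Rs ≤ Rt) {d : Fin 11 → ℝ} (hR2 : Rt + d 1 ≤ R)
    (hd : ∀ k, |d k| ≤ η) (hd7 : d 7 ≤ d 0 + d 1 + η)
    (h4 : d 4 ≤ d 2 + d 3) (h6 : d 6 ≤ d 2 + d 5) (h7 : d 7 ≤ d 4 + d 5) (h7' : d 7 ≤ d 3 + d 6)
    (h8 : d 8 ≤ d 0 + d 5) (h9 : d 9 ≤ d 0 + d 6) (h9' : d 9 ≤ d 2 + d 8)
    (h10 : d 10 ≤ d 0 + d 7) (h10' : d 10 ≤ d 4 + d 8) (h10'' : d 10 ≤ d 3 + d 9) :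
    nt w0 Rt v t1 t2 t3 + d ∈ Leg monQ R :=
  leg_add (H.lo v hv t1 t2 t3 hn.1 hn.2.1 hn.2.2) (H.hi v hv t1 t2 t3 hn.1 hn.2.1 hn.2.2)
    (H.pw v hv t3 hn.2.2) hR1 hR2 hd hd7 h4 h6 h7 h7' h8 h9 h9' h10 h10' h10''

theorem leg0 {v t1 t2 t3 : ℝ} (hv : v ∈ Ioo va vb)
    (hn : |t1 + θ 1 * v| ≤ η ∧ |t2 + θ 2 * v| ≤ η ∧ |t3 + θ 0 * v| ≤ η) {Rt : ℝ}
    (hR1 : Rs ≤ Rt) (hR2 : Rt ≤ R) : nt w0 Rt v t1 t2 t3 ∈ Leg monQ R := by
  have h0 := H.η0
  have := H.leg hv hn hR1 (d := 0) (by simpa using hR2) (by intro k; simpa using h0.le)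
    (by simpa using h0.le)
    (by simp) (by simp) (by simp) (by simp) (by simp) (by simp) (by simp) (by simp) (by simp)
    (by simp)
  rwa [add_zero] at this

/-- D-max also for the boxes with a finer slot `1` -/
theorem dmx {v t1 t2 t3 : ℝ} (hv : v ∈ Ioo va vb)
    (hn : |t1 + θ 1 * v| ≤ η ∧ |t2 + θ 2 * v| ≤ η ∧ |t3 + θ 0 * v| ≤ η) {Rt : ℝ}
    (hR1 : Rs ≤ Rt) (hR2 : Rt ≤ R) (hr : ∃ v' ∈ Ioo va vb, v + t3 ≤ (1 - θ 0) * v') :
    ν (nt w0 Rt v t1 t2 t3) ≤ c₀ + En g s q v t1 t2 t3 := by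
  have hRR : Rs ≤ R := hR1.trans hR2
  have h1 := (H.prf.lip _ (H.leg0 hv hn le_rfl hRR) _ (H.leg0 hv hn hR1 hR2) (by
    intro k
    fin_cases k <;> first | exact le_rfl | exact hR1)).1
  have := H.dmax v hv t1 t2 t3 hn.1 hn.2.1 hn.2.2 hr
  linarith

variable (h1 : 0 < θ 1)
include h1

/-- record boxes with `C_b, E` narrowed by `Y` and `C_a` narrowed by `s'` are legal -/
theorem legB {t Y s' : ℝ} (hv : -t / θ 1 ∈ Ioo va vb) (hY : 0 ≤ Y) (hY' : Y ≤ η) (hs : 0 ≤ s')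
    (hs' : s' ≤ η) : xx w0 R θ (-t / θ 1) t 0 + Y • uB + s' • uC ∈ Leg monQ R := by
  have h0 := H.η0
  have hn := near_xx (η := η) h1 (v := -t / θ 1) (t := t) (y := 0) (by simp; linarith)
    (by simp; linarith)
  have hRR : Rs ≤ R := by linarith [H.RsR]
  rw [add_assoc]
  refine H.leg hv hn hRR ?_ ?_ ?_ ?_ ?_ ?_ ?_ ?_ ?_ ?_ ?_ ?_ ?_
  · simp [uB, uC]
  · intro k
    have a1 : |Y| ≤ η := by rw [abs_of_nonneg hY]; exact hY'
    have a2 : |s'| ≤ η := by rw [abs_of_nonneg hs]; exact hs'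
    have a3 : 0 ≤ η := h0.le
    fin_cases k <;> simp [uB, uC] <;> assumption
  all_goals
    simp only [Pi.add_apply, Pi.smul_apply, smul_eq_mul, uB, uC, Matrix.cons_val]
    linarith

/-- **loss of `C_a` at the narrowed record boxes** -/
theorem lossC {t Y s' : ℝ} (hv : -t / θ 1 ∈ Ioo va vb) (hY : 0 ≤ Y) (hY' : Y ≤ η) (hs : 0 ≤ s')
    (hs' : s' ≤ η) : q 1 * s' - 2 * Y ≤ ν (xx w0 R θ (-t / θ 1) t 0 + Y • uB) -
      ν (xx w0 R θ (-t / θ 1) t 0 + Y • uB + s' • uC) := by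
  have h0 := H.η0
  have hRR : Rs ≤ R := by linarith [H.RsR]
  have hn := near_xx (η := η) h1 (v := -t / θ 1) (t := t) (y := 0) (by simp; linarith)
    (by simp; linarith)
  set B := xx w0 R θ (-t / θ 1) t 0 with hB
  have z : ∀ x : ℝ, (0 : ℝ) • x = 0 := fun x => zero_mul x
  have l0 : B ∈ Leg monQ R := by
    have := H.legB h1 hv le_rfl h0.le le_rfl h0.le
    simpa using this
  have l1 : B + Y • uB + s' • uC ∈ Leg monQ R := H.legB h1 hv hY hY' hs hs'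
  have l2 : B + s' • uC ∈ Leg monQ R := by
    have := H.legB h1 hv le_rfl h0.le hs hs'
    simpa using this
  have l3 : B + Y • uB ∈ Leg monQ R := by
    have := H.legB h1 hv hY hY' le_rfl h0.le
    simpa using this
  -- `C_a` and `X_a`
  set uX : Fin 11 → ℝ := ![0, 0, 0, 0, 0, 1, 0, 0, 1, 0, 0] with huX
  have l4 : B + s' • uX ∈ Leg monQ R := by
    refine H.leg hv hn hRR ?_ ?_ ?_ ?_ ?_ ?_ ?_ ?_ ?_ ?_ ?_ ?_ ?_
    · simp [huX]
    · intro k
      have a2 : |s'| ≤ η := by rw [abs_of_nonneg hs]; exact hs'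
      have a3 : 0 ≤ η := h0.le
      fin_cases k <;> simp [huX] <;> assumption
    all_goals
      simp only [Pi.smul_apply, smul_eq_mul, huX, Matrix.cons_val]
      linarith
  have hn5 : |t + s' + θ 1 * (-t / θ 1)| ≤ η ∧
      |θ 2 / θ 1 * t + 0 + θ 2 * (-t / θ 1)| ≤ η ∧
      |(θ 2 - θ 0) * (-t / θ 1) + (θ 2 / θ 1 * t + 0) + θ 0 * (-t / θ 1)| ≤ η := by
    refine ⟨?_, hn.2.1, hn.2.2⟩
    have : t + s' + θ 1 * (-t / θ 1) = s' := by field_simp; ring
    rw [this, abs_of_nonneg hs]; exact hs'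
  have l5 := H.leg0 hv hn5 hRR le_rfl
  have d5 := H.dmx hv hn5 hRR le_rfl ⟨_, hv, le_of_eq (by ring)⟩
  set N := nt w0 R (-t / θ 1) (t + s') (θ 2 / θ 1 * t + 0)
    ((θ 2 - θ 0) * (-t / θ 1) + (θ 2 / θ 1 * t + 0)) with hN
  have i1 : 0 ≤ ν (B + s' • uC) - ν (B + Y • uB + s' • uC) := by
    refine (H.prf.lip _ l2 _ l1 ?_).1
    intro k
    simp only [Pi.add_apply, Pi.smul_apply, smul_eq_mul]
    have : 0 ≤ uB k := by fin_cases k <;> simp [uB]
    nlinarith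
  have i2 : ν (B + s' • uC) - ν (B + s' • uX) ≤ s' := by
    refine (H.prf.lip _ l2 _ l4 ?_).2.trans (le_of_eq ?_)
    · intro k
      simp only [Pi.add_apply, Pi.smul_apply, smul_eq_mul]
      have : uC k ≤ uX k := by fin_cases k <;> simp [uC, huX]
      nlinarith
    · simp [Fin.sum_univ_succ, uC, huX]
  have i3 : 0 ≤ ν N - ν (B + s' • uX) := by
    refine (H.prf.lip _ l5 _ l4 ?_).1
    intro k
    fin_cases k <;>
      simp only [hN, hB, xx, nt, huX, Pi.add_apply, Pi.smul_apply, smul_eq_mul, Matrix.cons_val,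
        Fin.zero_eta, Fin.mk_one, Fin.reduceFinMk, Fin.isValue] <;>
      linarith
  have i4 : ν B - ν (B + Y • uB) ≤ 2 * Y := by
    refine (H.prf.lip _ l0 _ l3 ?_).2.trans (le_of_eq ?_)
    · intro k
      simp only [Pi.add_apply, Pi.smul_apply, smul_eq_mul]
      have : 0 ≤ uB k := by fin_cases k <;> simp [uB]
      nlinarith
    · simp [Fin.sum_univ_succ, uB]; ring
  have i5 : c₀ + Ex g s q θ (-t / θ 1) t 0 ≤ ν B := by
    have := H.rcd _ hv
    rw [hB, xx_rec h1, Ex_rec h1]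
    exact this
  have i6 : En g s q (-t / θ 1) (t + s') (θ 2 / θ 1 * t + 0)
      ((θ 2 - θ 0) * (-t / θ 1) + (θ 2 / θ 1 * t + 0)) =
      Ex g s q θ (-t / θ 1) t 0 - (1 + q 1) * s' := by
    unfold Ex En; ring
  rw [i6] at d5
  linarith

/-- the loss function of `C_a` at a narrowed record box -/
theorem mlC {t Y : ℝ} (hv : -t / θ 1 ∈ Ioo va vb) (hY : 0 ≤ Y) (hY' : Y ≤ η) :
    ML (fun s' => ν (xx w0 R θ (-t / θ 1) t 0 + Y • uB) -
      ν (xx w0 R θ (-t / θ 1) t 0 + Y • uB + s' • uC)) 0 η := by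
  intro x hx y hy hxy
  have l1 := H.legB h1 hv hY hY' hx.1 hx.2
  have l2 := H.legB h1 hv hY hY' hy.1 hy.2
  have := H.prf.lip _ l1 _ l2 (by
    intro k
    simp only [Pi.add_apply, Pi.smul_apply, smul_eq_mul]
    have : 0 ≤ uC k := by fin_cases k <;> simp [uC]
    nlinarith)
  refine ⟨by linarith [this.1], ?_⟩
  have h2 := this.2
  have e : ∑ k, ((xx w0 R θ (-t / θ 1) t 0 + Y • uB + y • uC) k -
      (xx w0 R θ (-t / θ 1) t 0 + Y • uB + x • uC) k) = y - x := by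
    have : ∀ k, ((xx w0 R θ (-t / θ 1) t 0 + Y • uB + y • uC) k -
      (xx w0 R θ (-t / θ 1) t 0 + Y • uB + x • uC) k) = (y - x) * uC k := by
      intro k
      simp only [Pi.add_apply, Pi.smul_apply, smul_eq_mul]; ring
    simp only [this, ← Finset.mul_sum]
    simp [Fin.sum_univ_succ, uC]
  rw [e] at h2
  linarith

end Dat

end

end Crest.Agent.R136.Z2H57
end

-- ▼ part R136/Z2d_57
section

/-!
# R136, case (Z2') = (C2z), scalar half, part 3 (helper57): rates of `C_a` almost everywhere, uniform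
sweeps of `C_a` and of `C_b + E`
-/

set_option autoImplicit false
set_option linter.unusedVariables false
set_option linter.unusedSectionVars false
set_option linter.unnecessarySeqFocus false

open Set Filter Topology MeasureTheory

namespace Crest.Agent.R136.Z2H57

open Crest.Agent.R136.Net191
open Crest.Agent.R136.NetQ186

variable {ν : (Fin 11 → ℝ) → ℝ} {R Rs w0 : ℝ} {θ : Fin 3 → ℝ} {g s c₀ : ℝ} {q : Fin 3 → ℝ}
  {va vb η : ℝ}

theorem uC_nonneg (k : Fin 11) : 0 ≤ uC k := by fin_cases k <;> simp [uC]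
theorem uB_nonneg (k : Fin 11) : 0 ≤ uB k := by fin_cases k <;> simp [uB]

namespace Dat

variable (H : Dat ν R Rs w0 θ g s c₀ q va vb η) (h1 : 0 < θ 1)
include H h1

/-- legality of the boxes of the plane, with `C_a` narrowed -/
theorem legX {v t y δ Rt : ℝ} (hv : v ∈ Ioo va vb) (hn : Th θ * |v - -t / θ 1| ≤ η / 2)
    (hy : |y| ≤ η / 2) (hδ : 0 ≤ δ) (hδ' : δ ≤ η) (hR1 : Rs ≤ Rt) (hR2 : Rt ≤ R) :
    xx w0 Rt θ v t y + δ • uC ∈ Leg monQ R := by
  have h0 := H.η0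
  have hn := near_xx (η := η) h1 hn hy
  refine H.leg hv hn hR1 ?_ ?_ ?_ ?_ ?_ ?_ ?_ ?_ ?_ ?_ ?_ ?_ ?_
  · simpa [uC] using hR2
  · intro k
    have a2 : |δ| ≤ η := by rw [abs_of_nonneg hδ]; exact hδ'
    have a3 : 0 ≤ η := h0.le
    fin_cases k <;> simp [uC] <;> assumption
  all_goals
    simp only [Pi.smul_apply, smul_eq_mul, uC, Matrix.cons_val]
    linarith

theorem legX0 {v t y Rt : ℝ} (hv : v ∈ Ioo va vb) (hn : Th θ * |v - -t / θ 1| ≤ η / 2)
    (hy : |y| ≤ η / 2) (hR1 : Rs ≤ Rt) (hR2 : Rt ≤ R) : xx w0 Rt θ v t y ∈ Leg monQ R := by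
  have := H.legX h1 hv hn hy le_rfl H.η0.le hR1 hR2
  simpa using this

variable (hκ : 0 < θ 2 - θ 0)
include hκ

/-- a point of positive loss of `C_a` at the record box of `t'` gives `Pos` to the left -/
theorem pos_of_good {t' v y Y s' m : ℝ} (hv' : -t' / θ 1 ∈ Ioo va vb) (hv : v ∈ Ioo va vb)
    (hY : 0 ≤ Y) (hY' : Y ≤ η / 2) (hy : 0 ≤ y)
    (hs : s' ∈ good (fun s' => ν (xx w0 R θ (-t' / θ 1) t' 0 + Y • uB) -
      ν (xx w0 R θ (-t' / θ 1) t' 0 + Y • uB + s' • uC)) 0 (η / 2))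
    (hm : 0 ≤ m) (hmv : m ≤ -t' / θ 1 - v) (hmκ : m ≤ (θ 2 - θ 0) * (-t' / θ 1 - v))
    (hsm : s' ≤ m) (h2 : θ 2 / θ 1 * s' + y ≤ m) (h3 : θ 2 / θ 1 * s' + y ≤ Y)
    (hn : Th θ * |v - -(t' + s') / θ 1| ≤ η / 2) (hyη : y ≤ η / 2) :
    Pos ν (xx w0 R θ v (t' + s') y) := by
  have h0 := H.η0
  have hRR : Rs ≤ R := by linarith [H.RsR]
  obtain ⟨c, hc, h, hh, Hc⟩ := pos_of_deriv hs.2
  have hs0 := hs.1.1
  have hsη := hs.1.2
  refine ⟨c, hc, min h (η / 2), lt_min hh (by linarith), fun δ hδ hδ' => ?_⟩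
  have k1 := Hc δ hδ (hδ'.trans (min_le_left _ _))
  have hδ2 : δ ≤ η / 2 := hδ'.trans (min_le_right _ _)
  have lq := H.legB h1 hv' hY (by linarith) hs0.le (by linarith : s' ≤ η)
  have lp := H.legX0 h1 hv hn (by rw [abs_of_nonneg hy]; exact hyη) hRR le_rfl
  have lpd := H.legX h1 hv hn (by rw [abs_of_nonneg hy]; exact hyη) hδ (by linarith) hRR le_rfl
  have key := H.prf.inc lp lq lpd (fun k => mul_nonneg hδ (uC_nonneg k)) (by
    intro k
    fin_cases k <;>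
      simp only [xx, nt, uB, uC, Pi.add_apply, Pi.smul_apply, smul_eq_mul, Matrix.cons_val,
        Fin.zero_eta, Fin.mk_one, Fin.reduceFinMk, Fin.isValue] <;>
      linarith) (by
    intro k
    fin_cases k <;>
      simp [xx, nt, uB, uC] <;> (right; ring))
  have e : xx w0 R θ (-t' / θ 1) t' 0 + Y • uB + s' • uC + δ • uC =
      xx w0 R θ (-t' / θ 1) t' 0 + Y • uB + (s' + δ) • uC := by
    rw [add_smul, add_assoc]
  rw [e] at key
  linarith

variable (hq1 : 0 < q 1) (hσ : θ 2 ≤ q 1 / 4 * θ 1)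
include hq1 hσ

set_option maxHeartbeats 2000000 in
/-- **`C_a` has positive rate for almost every `t`** -/
theorem pos_ae {v y0 : ℝ} (hv : v ∈ Ioo va vb) (hy0 : 0 < y0) :
    ∀ᵐ t : ℝ, v < -t / θ 1 → -t / θ 1 < vb → Th θ * (-t / θ 1 - v) ≤ η / 4 →
      ∃ y, 0 < y ∧ y < y0 ∧ y ≤ η / 4 ∧ Pos ν (xx w0 R θ v t y) := by
  have h0 := H.η0
  set N : Set ℝ := {t | (v < -t / θ 1 ∧ -t / θ 1 < vb ∧ Th θ * (-t / θ 1 - v) ≤ η / 4) ∧
    ¬ ∃ y, 0 < y ∧ y < y0 ∧ y ≤ η / 4 ∧ Pos ν (xx w0 R θ v t y)} with hN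
  have hnull : volume N = 0 := by
    refine null_of_density (γ := q 1 / 4) (by positivity) fun t' ht' => ?_
    obtain ⟨⟨a1, a2, a3⟩, a4⟩ := ht'
    set Δ := -t' / θ 1 - v with hΔ
    have hΔ0 : 0 < Δ := by rw [hΔ]; linarith
    have hv' : -t' / θ 1 ∈ Ioo va vb := ⟨hv.1.trans a1, a2⟩
    set m := min Δ ((θ 2 - θ 0) * Δ) with hm
    have hm0 : 0 < m := lt_min hΔ0 (mul_pos hκ hΔ0)
    -- bound of `y` and `s`
    set K := |θ 2| / θ 1 + q 1 + 1 with hK
    have hK0 : 1 ≤ K := by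
      have : 0 ≤ |θ 2| / θ 1 := by positivity
      rw [hK]; linarith
    refine ⟨min (min (m / (2 * K)) (η / (8 * K))) (min (y0 / K) (θ 1 * Δ / (2 * K))), ?_,
      fun h hh hh' => ?_⟩
    · have : 0 < K := by linarith
      refine lt_min (lt_min (by positivity) (by positivity)) (lt_min (by positivity) (by positivity))
    have hKp : 0 < K := by linarith
    have b1 : h * (2 * K) < m := by
      have := hh'.trans_le ((min_le_left _ _).trans (min_le_left _ _))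
      rwa [lt_div_iff₀ (by positivity)] at this
    have b2 : h * (8 * K) < η := by
      have := hh'.trans_le ((min_le_left _ _).trans (min_le_right _ _))
      rwa [lt_div_iff₀ (by positivity)] at this
    have b3 : h * K < y0 := by
      have := hh'.trans_le ((min_le_right _ _).trans (min_le_left _ _))
      rwa [lt_div_iff₀ (by positivity)] at this
    have b4 : h * (2 * K) < θ 1 * Δ := by
      have := hh'.trans_le ((min_le_right _ _).trans (min_le_right _ _))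
      rwa [lt_div_iff₀ (by positivity)] at this
    obtain ⟨u, hu⟩ : ∃ u, u = h * K := ⟨_, rfl⟩
    have hhu : h ≤ u := by rw [hu]; exact le_mul_of_one_le_right hh.le hK0
    have c1 : 2 * u < m := by rw [hu]; linarith
    have c2 : 8 * u < η := by rw [hu]; linarith
    have c3 : u < y0 := by rw [hu]; exact b3
    have c4 : 2 * u < θ 1 * Δ := by rw [hu]; linarith
    set y := q 1 / 8 * h with hy
    set σp := max (θ 2 / θ 1) 0 with hσp
    have hσ0 : 0 ≤ σp := le_max_right _ _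
    have hσ1 : σp ≤ q 1 / 4 := by
      refine max_le ?_ (by positivity)
      rw [div_le_iff₀ h1]; exact hσ
    have hσK : σp ≤ |θ 2| / θ 1 := by
      refine max_le ?_ (by positivity)
      exact div_le_div_of_nonneg_right (le_abs_self _) h1.le
    set Y := y + σp * h with hYd
    have hq1h : 0 < q 1 * h := mul_pos hq1 hh
    have hσh0 : 0 ≤ σp * h := mul_nonneg hσ0 hh.le
    have hy0' : 0 < y := by rw [hy]; linarith
    have hY0 : 0 ≤ Y := by rw [hYd]; linarith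
    have hYu : Y ≤ u := by
      rw [hYd, hy, hu, hK]
      have : σp * h ≤ |θ 2| / θ 1 * h := mul_le_mul_of_nonneg_right hσK hh.le
      linarith [mul_comm h (|θ 2| / θ 1), mul_comm h (q 1), mul_add h (|θ 2| / θ 1 + q 1) 1,
        mul_add h (|θ 2| / θ 1) (q 1)]
    have hyY : y ≤ Y := by rw [hYd]; linarith
    set F : ℝ → ℝ := fun s' => ν (xx w0 R θ (-t' / θ 1) t' 0 + Y • uB) -
      ν (xx w0 R θ (-t' / θ 1) t' 0 + Y • uB + s' • uC) with hF
    have hYη : Y ≤ η := by linarith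
    have hml := H.mlC h1 hv' hY0 hYη
    have hhη : h ≤ η := by linarith
    have hvol := volume_good hh.le (hml.mono le_rfl hhη)
    have hloss := H.lossC h1 hv' hY0 hYη hh.le hhη
    have hF0 : F 0 = 0 := by simp [hF]
    have hFh : q 1 / 4 * h ≤ F h - F 0 := by
      have : F h = ν (xx w0 R θ (-t' / θ 1) t' 0 + Y • uB) -
        ν (xx w0 R θ (-t' / θ 1) t' 0 + Y • uB + h • uC) := rfl
      rw [hF0, this, sub_zero]
      have h5 : σp * h ≤ q 1 / 4 * h := mul_le_mul_of_nonneg_right hσ1 hh.le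
      rw [hYd, hy] at hloss
      rw [hYd, hy]
      linarith
    refine ⟨(fun t => t - t') ⁻¹' good F 0 h, ?_, ?_, ?_, ?_⟩
    · exact (measurableSet_good F 0 h).preimage (measurable_id.sub_const t')
    · intro t ht
      have := (good_subset F 0 h) ht
      exact ⟨by linarith [this.1], by linarith [this.2]⟩
    · rw [Set.disjoint_left]
      intro t ht htN
      apply htN.2
      have hg : t - t' ∈ good F 0 h := ht
      have g1 := hg.1
      have hbd : h ≤ η / 2 := by linarith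
      have hg2 : t - t' ∈ good F 0 (η / 2) := ⟨⟨g1.1, g1.2.trans_le hbd⟩, hg.2⟩
      have e : t' + (t - t') = t := by ring
      have hσs : θ 2 / θ 1 * (t - t') ≤ σp * h := by
        calc θ 2 / θ 1 * (t - t') ≤ σp * (t - t') :=
              mul_le_mul_of_nonneg_right (le_max_left _ _) g1.1.le
          _ ≤ σp * h := mul_le_mul_of_nonneg_left g1.2.le hσ0
      have hle : Th θ * |v - -t / θ 1| ≤ η / 2 := by
        have hTh : 0 ≤ Th θ := by unfold Th; positivity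
        have b5 : |v - -t / θ 1| ≤ Δ := by
          have e1 : v - -t / θ 1 = -Δ + (t - t') / θ 1 := by rw [hΔ]; ring
          have e2 : (t - t') / θ 1 ≤ Δ := by
            rw [div_le_iff₀ h1, mul_comm]
            linarith [g1.2]
          have e3 : 0 ≤ (t - t') / θ 1 := div_nonneg g1.1.le h1.le
          rw [e1, abs_le]
          constructor <;> linarith
        have := mul_le_mul_of_nonneg_left b5 hTh
        linarith
      refine ⟨y, hy0', by linarith, by linarith, ?_⟩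
      have := H.pos_of_good h1 hκ (t' := t') (v := v) (y := y) (Y := Y) (s' := t - t') (m := m)
        hv' hv hY0 (by linarith) hy0'.le hg2 hm0.le (min_le_left _ _) (min_le_right _ _)
        (by linarith [g1.2]) (by linarith) (by linarith)
        (by rw [e]; exact hle) (by linarith)
      rwa [e] at this
    · have e : volume ((fun t => t - t') ⁻¹' good F 0 h) = volume (good F 0 h) := by
        simp only [sub_eq_add_neg]
        exact measure_preimage_add_right volume (-t') (good F 0 h)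
      rw [e]
      exact (ENNReal.ofReal_le_ofReal hFh).trans hvol
  have : ∀ᵐ t : ℝ, t ∉ N := by
    rw [ae_iff]; simpa using hnull
  filter_upwards [this] with t ht b1 b2 b3
  by_contra hcon
  exact ht ⟨⟨b1, b2, b3⟩, hcon⟩

end Dat

end Crest.Agent.R136.Z2H57
end

-- ▼ part R136/Z2e_57
section

/-!
# R136, case (Z2') = (C2z), scalar half, part 4 (helper57): `z2_false`

Only `32` tied and `θ 2 ≤ q1 / 4 * θ 1`.  If at almost every point `(v, y)` of the plane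
`xx v t y` (fixed `t`) the uniform sweeps `S1`, `S2` force `∂_v ν ≤ - ((1 - s) + 3 + κ)` (all the
coordinates `X_a, X_b, N` full), then the D-max bound and the record value are contradictory.
-/

set_option autoImplicit false
set_option linter.unusedVariables false
set_option linter.unusedSectionVars false
set_option linter.unnecessarySeqFocus false

open Set Filter Topology MeasureTheory
open scoped NNReal ENNReal

namespace Crest.Agent.R136.Z2H57

open Crest.Agent.R136.Net191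
open Crest.Agent.R136.NetQ186

variable {ν : (Fin 11 → ℝ) → ℝ} {R Rs w0 : ℝ} {θ : Fin 3 → ℝ} {g s c₀ : ℝ} {q : Fin 3 → ℝ}
  {va vb η : ℝ}

namespace Dat

variable (H : Dat ν R Rs w0 θ g s c₀ q va vb η) (h1 : 0 < θ 1)
include H h1

/-- loss of `C_b + E` at the record box -/
theorem lossB {t h : ℝ} (hv : -t / θ 1 ∈ Ioo va vb) (hh : 0 ≤ h) (hh' : h ≤ η) :
    q 2 * h ≤ ν (xx w0 R θ (-t / θ 1) t 0) - ν (xx w0 R θ (-t / θ 1) t 0 + h • uB) := by
  have h0 := H.η0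
  have hRR : Rs ≤ R := by linarith [H.RsR]
  have hn := near_xx (η := η) h1 (v := -t / θ 1) (t := t) (y := 0) (by simp; linarith)
    (by simp; linarith)
  set B := xx w0 R θ (-t / θ 1) t 0 with hB
  have l3 : B + h • uB ∈ Leg monQ R := by
    have := H.legB h1 hv hh hh' le_rfl h0.le
    simpa using this
  set uX : Fin 11 → ℝ := ![0, 0, 1, 0, 0, 0, 1, 0, 0, 1, 0] with huX
  have l4 : B + h • uX ∈ Leg monQ R := by
    refine H.leg hv hn hRR ?_ ?_ ?_ ?_ ?_ ?_ ?_ ?_ ?_ ?_ ?_ ?_ ?_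
    · simp [huX]
    · intro k
      have a2 : |h| ≤ η := by rw [abs_of_nonneg hh]; exact hh'
      have a3 : 0 ≤ η := h0.le
      fin_cases k <;> simp [huX] <;> assumption
    all_goals
      simp only [Pi.smul_apply, smul_eq_mul, huX, Matrix.cons_val]
      linarith
  have hn5 : |t + θ 1 * (-t / θ 1)| ≤ η ∧
      |θ 2 / θ 1 * t + h + θ 2 * (-t / θ 1)| ≤ η ∧
      |(θ 2 - θ 0) * (-t / θ 1) + (θ 2 / θ 1 * t + 0) + θ 0 * (-t / θ 1)| ≤ η := by
    refine ⟨hn.1, ?_, hn.2.2⟩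
    have : θ 2 / θ 1 * t + h + θ 2 * (-t / θ 1) = h := by field_simp; ring
    rw [this, abs_of_nonneg hh]; exact hh'
  have l5 := H.leg0 hv hn5 hRR le_rfl
  have d5 := H.dmx hv hn5 hRR le_rfl ⟨_, hv, le_of_eq (by ring)⟩
  set N := nt w0 R (-t / θ 1) t (θ 2 / θ 1 * t + h)
    ((θ 2 - θ 0) * (-t / θ 1) + (θ 2 / θ 1 * t + 0)) with hN
  have i2 : ν (B + h • uB) - ν (B + h • uX) ≤ h := by
    refine (H.prf.lip _ l3 _ l4 ?_).2.trans (le_of_eq ?_)
    · intro k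
      simp only [Pi.add_apply, Pi.smul_apply, smul_eq_mul]
      have : uB k ≤ uX k := by fin_cases k <;> simp [uB, huX]
      nlinarith
    · simp [Fin.sum_univ_succ, uB, huX]
  have i3 : 0 ≤ ν N - ν (B + h • uX) := by
    refine (H.prf.lip _ l5 _ l4 ?_).1
    intro k
    fin_cases k <;>
      simp only [hN, hB, xx, nt, huX, Pi.add_apply, Pi.smul_apply, smul_eq_mul, Matrix.cons_val,
        Fin.zero_eta, Fin.mk_one, Fin.reduceFinMk, Fin.isValue] <;>
      linarith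
  have i5 : c₀ + Ex g s q θ (-t / θ 1) t 0 ≤ ν B := by
    have := H.rcd _ hv
    rw [hB, xx_rec h1, Ex_rec h1]
    exact this
  have i6 : En g s q (-t / θ 1) t (θ 2 / θ 1 * t + h)
      ((θ 2 - θ 0) * (-t / θ 1) + (θ 2 / θ 1 * t + 0)) =
      Ex g s q θ (-t / θ 1) t 0 - (1 + q 2) * h := by
    unfold Ex En; ring
  rw [i6] at d5
  linarith

/-- the loss function of `C_b + E` at a record box -/
theorem mlB {t : ℝ} (hv : -t / θ 1 ∈ Ioo va vb) :
    LipschitzOnWith 2 (fun h => ν (xx w0 R θ (-t / θ 1) t 0) -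
      ν (xx w0 R θ (-t / θ 1) t 0 + h • uB)) (Icc 0 η) ∧
    ∀ x ∈ Icc 0 η, ∀ y ∈ Icc 0 η, x ≤ y → 0 ≤ ν (xx w0 R θ (-t / θ 1) t 0 + x • uB) -
      ν (xx w0 R θ (-t / θ 1) t 0 + y • uB) ∧ ν (xx w0 R θ (-t / θ 1) t 0 + x • uB) -
      ν (xx w0 R θ (-t / θ 1) t 0 + y • uB) ≤ 2 * (y - x) := by
  have h0 := H.η0
  have key : ∀ x ∈ Icc 0 η, ∀ y ∈ Icc 0 η, x ≤ y → 0 ≤ ν (xx w0 R θ (-t / θ 1) t 0 + x • uB) -
      ν (xx w0 R θ (-t / θ 1) t 0 + y • uB) ∧ ν (xx w0 R θ (-t / θ 1) t 0 + x • uB) -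
      ν (xx w0 R θ (-t / θ 1) t 0 + y • uB) ≤ 2 * (y - x) := by
    intro x hx y hy hxy
    have l1 := H.legB h1 hv hx.1 hx.2 le_rfl h0.le
    have l2 := H.legB h1 hv hy.1 hy.2 le_rfl h0.le
    rw [zero_smul, add_zero] at l1 l2
    have := H.prf.lip _ l1 _ l2 (by
      intro k
      simp only [Pi.add_apply, Pi.smul_apply, smul_eq_mul]
      have := uB_nonneg k
      nlinarith)
    refine ⟨this.1, this.2.trans (le_of_eq ?_)⟩
    have e : ∀ k, ((xx w0 R θ (-t / θ 1) t 0 + y • uB) k -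
      (xx w0 R θ (-t / θ 1) t 0 + x • uB) k) = (y - x) * uB k := by
      intro k
      simp only [Pi.add_apply, Pi.smul_apply, smul_eq_mul]; ring
    simp only [e, ← Finset.mul_sum]
    simp [Fin.sum_univ_succ, uB]; ring
  refine ⟨LipschitzOnWith.of_dist_le_mul fun x hx y hy => ?_, key⟩
  rw [Real.dist_eq, Real.dist_eq]
  simp only [NNReal.coe_ofNat]
  rcases le_total x y with h2 | h2
  · have := key x hx y hy h2
    rw [abs_le, abs_sub_comm x y, abs_of_nonneg (by linarith : 0 ≤ y - x)]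
    constructor <;> linarith [this.1, this.2]
  · have := key y hy x hx h2
    rw [abs_le, abs_of_nonneg (by linarith : 0 ≤ x - y)]
    constructor <;> linarith [this.1, this.2]

/-- **(S1)** from the rate of `C_a` at a finer box -/
theorem s1_of_pos (hκ : 0 < θ 2 - θ 0) {t v v2 y y2 : ℝ} (hv : v ∈ Ioo va vb) (hv2 : v2 ∈ Ioo va vb)
    (hvv : v < v2) (hyy : y < y2) (hn2 : Th θ * |v2 - -t / θ 1| ≤ η / 2) (hy2 : |y2| ≤ η / 2)
    (hP : Pos ν (xx w0 R θ v2 t y2)) : S1 ν R (xx w0 Rs θ v t y) := by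
  have h0 := H.η0
  have hRR : Rs ≤ R := by linarith [H.RsR]
  obtain ⟨c, hc, h, hh, Hc⟩ := hP
  have hκv : 0 < (θ 2 - θ 0) * (v2 - v) := mul_pos hκ (by linarith)
  refine ⟨c, hc, min (min h η) (min (min (v2 - v) ((θ 2 - θ 0) * (v2 - v))) (y2 - y)),
    lt_min (lt_min hh h0) (lt_min (lt_min (by linarith) hκv) (by linarith)), ?_⟩
  intro d hd hd5 δ hδ hδ' hp hpd
  have m1 : ∀ k, d k ≤ η := fun k => (le_of_abs_le (hd k)).trans
    ((min_le_left _ _).trans (min_le_right _ _))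
  have m2 : ∀ k, d k ≤ v2 - v := fun k => (le_of_abs_le (hd k)).trans
    ((min_le_right _ _).trans ((min_le_left _ _).trans (min_le_left _ _)))
  have m3 : ∀ k, d k ≤ (θ 2 - θ 0) * (v2 - v) := fun k => (le_of_abs_le (hd k)).trans
    ((min_le_right _ _).trans ((min_le_left _ _).trans (min_le_right _ _)))
  have m4 : ∀ k, d k ≤ y2 - y := fun k => (le_of_abs_le (hd k)).trans
    ((min_le_right _ _).trans (min_le_right _ _))
  have lq := H.legX0 h1 hv2 hn2 hy2 hRR le_rfl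
  have k1 := Hc δ hδ (hδ'.trans ((min_le_left _ _).trans (min_le_left _ _)))
  have key := H.prf.inc hp lq hpd (fun k => mul_nonneg hδ (uC_nonneg k)) (by
    intro k
    have e1 := m1 k
    have e2 := m2 k
    have e3 := m3 k
    have e4 := m4 k
    have e5 := H.RsR
    rw [Pi.add_apply]
    fin_cases k <;>
      simp only [xx, nt, Matrix.cons_val, Fin.zero_eta, Fin.mk_one, Fin.reduceFinMk,
        Fin.isValue] at e1 e2 e3 e4 ⊢ <;>
      linarith) (by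
    intro k
    fin_cases k <;>
      simp [xx, nt, uC, hd5])
  linarith

/-- **(S2)** from a point of positive loss of `C_b + E` at the record box -/
theorem s2_of_good (hκ : 0 < θ 2 - θ 0) {t v y : ℝ} (hvt : -t / θ 1 ∈ Ioo va vb)
    (hvv : v < -t / θ 1) (hy1 : y < -t / θ 1 - v) (hy2 : y < (θ 2 - θ 0) * (-t / θ 1 - v))
    (hy : y ∈ good (fun h => ν (xx w0 R θ (-t / θ 1) t 0) -
      ν (xx w0 R θ (-t / θ 1) t 0 + h • uB)) 0 (η / 2)) : S2 ν R (xx w0 Rs θ v t y) := by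
  have h0 := H.η0
  have hRR : Rs ≤ R := by linarith [H.RsR]
  obtain ⟨c, hc, h, hh, Hc⟩ := pos_of_deriv hy.2
  have g0 := hy.1.1
  have g1 := hy.1.2
  refine ⟨c, hc, min (min h (η / 2))
    (min (-t / θ 1 - v - y) ((θ 2 - θ 0) * (-t / θ 1 - v) - y)),
    lt_min (lt_min hh (by linarith)) (lt_min (by linarith) (by linarith)), ?_⟩
  intro d hd hd2 hd6 hd5 δ hδ hδ' hp hpd
  have m1 : ∀ k, d k ≤ η / 2 := fun k => (le_of_abs_le (hd k)).trans
    ((min_le_left _ _).trans (min_le_right _ _))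
  have m2 : ∀ k, d k ≤ -t / θ 1 - v - y := fun k => (le_of_abs_le (hd k)).trans
    ((min_le_right _ _).trans (min_le_left _ _))
  have m3 : ∀ k, d k ≤ (θ 2 - θ 0) * (-t / θ 1 - v) - y := fun k => (le_of_abs_le (hd k)).trans
    ((min_le_right _ _).trans (min_le_right _ _))
  have lq := H.legB h1 hvt g0.le (by linarith : y ≤ η) le_rfl h0.le
  rw [zero_smul, add_zero] at lq
  have k1 := Hc δ hδ (hδ'.trans ((min_le_left _ _).trans (min_le_left _ _)))
  have key := H.prf.inc hp lq hpd (fun k => mul_nonneg hδ (uB_nonneg k)) (by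
    intro k
    have e1 := m1 k
    have e2 := m2 k
    have e3 := m3 k
    have e5 := H.RsR
    rw [Pi.add_apply]
    fin_cases k <;>
      simp only [xx, nt, uB, Pi.add_apply, Pi.smul_apply, smul_eq_mul, Matrix.cons_val,
        Fin.zero_eta, Fin.mk_one, Fin.reduceFinMk, Fin.isValue] at e1 e2 e3 ⊢ <;>
      linarith) (by
    intro k
    fin_cases k <;>
      simp [xx, nt, uB, hd2, hd6] <;> (right; ring))
  have e : xx w0 R θ (-t / θ 1) t 0 + y • uB + δ • uB =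
      xx w0 R θ (-t / θ 1) t 0 + (y + δ) • uB := by
    rw [add_smul, add_assoc]
  rw [e] at key
  linarith

end Dat

end Crest.Agent.R136.Z2H57
end

-- ▼ part R136/Z2f_57
section

/-!
# R136, case (Z2') = (C2z), scalar half, part 5 (helper57): tools
-/

set_option autoImplicit false
set_option linter.unusedVariables false
set_option linter.unusedSectionVars false
set_option linter.unnecessarySeqFocus false

open Set Filter Topology MeasureTheory
open scoped NNReal ENNReal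

namespace Crest.Agent.R136.Z2H57

open Crest.Agent.R136.Net191
open Crest.Agent.R136.NetQ186

variable {ν : (Fin 11 → ℝ) → ℝ} {R Rs w0 : ℝ} {θ : Fin 3 → ℝ} {g s c₀ : ℝ} {q : Fin 3 → ℝ}
  {va vb η : ℝ}

theorem exists_of_ae_of_volume {P : ℝ → Prop} (h : ∀ᵐ x : ℝ, P x) {A : Set ℝ}
    (hA : 0 < volume A) : ∃ x ∈ A, P x := by
  by_contra hcon
  push Not at hcon
  have h1 : A ⊆ {x | ¬ P x} := fun x hx => hcon x hx
  have h2 : volume {x | ¬ P x} = 0 := by rw [← ae_iff]; exact h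
  have := measure_mono_null h1 h2
  exact absurd this hA.ne'

theorem volume_good2 {F : ℝ → ℝ} {a b : ℝ} (hab : a ≤ b)
    (h : ∀ x ∈ Icc a b, ∀ y ∈ Icc a b, x ≤ y → 0 ≤ F y - F x ∧ F y - F x ≤ 2 * (y - x))
    (hF : 0 < F b - F a) : 0 < volume (good F a b) := by
  have h1 : ML (fun x => F x / 2) a b := by
    intro x hx y hy hxy
    have := h x hx y hy hxy
    constructor <;> linarith [this.1, this.2]
  have h2 := volume_good hab h1
  have h3 : good (fun x => F x / 2) a b = good F a b := by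
    ext x
    simp only [good, mem_ofPred_eq, deriv_div_const]
    constructor
    · rintro ⟨h4, h5⟩; exact ⟨h4, by linarith⟩
    · rintro ⟨h4, h5⟩; exact ⟨h4, by linarith⟩
  rw [h3] at h2
  refine lt_of_lt_of_le ?_ h2
  rw [ENNReal.ofReal_pos]; linarith

/-- Lipschitz on `[a, b]`, all derivatives `≤ -Λ` a.e. -/
theorem sub_of_ae_deriv' {F : ℝ → ℝ} {a b Λ : ℝ} {K : ℝ≥0} (hab : a ≤ b)
    (h : LipschitzOnWith K F (Icc a b))
    (hd : ∀ᵐ x : ℝ, x ∈ Ioo a b → ∀ s : ℝ, HasDerivAt F s x → s ≤ -Λ) :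
    F b - F a ≤ -(Λ * (b - a)) := by
  have hac : AbsolutelyContinuousOnInterval F a b := by
    refine LipschitzOnWith.absolutelyContinuousOnInterval (K := K) ?_
    rw [uIcc_of_le hab]; exact h
  refine sub_of_ae_deriv hab h ?_
  filter_upwards [hd, hac.ae_differentiableAt] with x h1 h2 h3
  have h4 := (h2 (by rw [uIcc_of_le hab]; exact Ioo_subset_Icc_self h3)).hasDerivAt
  exact ⟨_, h4, h1 h3 _ h4⟩

theorem sum_v (Rt v v' t y : ℝ) : ∑ k, (xx w0 Rt θ v' t y k - xx w0 Rt θ v t y k) =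
    (4 + 4 * (θ 2 - θ 0)) * (v' - v) := by
  simp only [Fin.sum_univ_succ, xx, nt]
  simp
  ring

theorem sum_y (Rt v t y : ℝ) : ∑ k, (xx w0 Rt θ v t y k - xx w0 Rt θ v t 0 k) = 6 * y := by
  simp only [Fin.sum_univ_succ, xx, nt]
  simp
  ring

theorem xx_mono {Rt Rt' v v' t y y' : ℝ} (hκ : 0 < θ 2 - θ 0) (hR : Rt ≤ Rt') (hv : v ≤ v')
    (hy : y ≤ y') : xx w0 Rt θ v t y ≤ xx w0 Rt' θ v' t y' := by
  have h1 : 0 ≤ (θ 2 - θ 0) * (v' - v) := mul_nonneg hκ.le (by linarith)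
  intro k
  fin_cases k <;>
    simp only [xx, nt, Matrix.cons_val, Fin.zero_eta, Fin.mk_one, Fin.reduceFinMk,
      Fin.isValue] <;>
    linarith

end Crest.Agent.R136.Z2H57
end

-- ▼ part R136/Z2g_57
section

/-!
# R136, case (C2z), scalar half (helper57): planes of any slope

`z2_core` : the contradiction on ONE horizontal line `v ↦ xx v t y`.
-/

set_option autoImplicit false
set_option linter.unusedVariables false
set_option linter.unusedSectionVars false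
set_option linter.unnecessarySeqFocus false

open Set Filter Topology MeasureTheory
open scoped NNReal ENNReal

namespace Crest.Agent.R136.Z2H57

open Crest.Agent.R136.Net191
open Crest.Agent.R136.NetQ186

variable {ν : (Fin 11 → ℝ) → ℝ} {R Rs w0 : ℝ} {θ : Fin 3 → ℝ} {g s c₀ : ℝ} {q : Fin 3 → ℝ}
  {va vb η : ℝ}

/-- loss of `C_b + E` at the record box of `t` -/
noncomputable def GB (ν : (Fin 11 → ℝ) → ℝ) (R w0 : ℝ) (θ : Fin 3 → ℝ) (t h : ℝ) : ℝ :=
  ν (xx w0 R θ (-t / θ 1) t 0) - ν (xx w0 R θ (-t / θ 1) t 0 + h • uB)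

/-- **contradiction on one horizontal line** -/
theorem z2_core (H : Dat ν R Rs w0 θ g s c₀ q va vb η) (h1 : 0 < θ 1) (hκ : 0 < θ 2 - θ 0)
    (hq0 : 0 ≤ q 0) (hq2 : 0 < q 2) (hg : q 0 * (θ 2 - θ 0) < g) {t vm v2 y y2 : ℝ}
    (hvmI : vm ∈ Ioo va vb) (hvtI : -t / θ 1 ∈ Ioo va vb) (hm2 : vm < v2) (h2t : v2 < -t / θ 1)
    (hn : Th θ * (-t / θ 1 - vm) ≤ η / 2)
    (hv2d : |(1 - s) + 3 + (θ 2 - θ 0)| * (-t / θ 1 - v2) ≤
      (g - q 0 * (θ 2 - θ 0)) * (-t / θ 1 - vm) / 4)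
    (hy0 : 0 < y) (hyy : y < y2) (hy2η : y2 ≤ η / 2) (hP : Pos ν (xx w0 R θ v2 t y2))
    (hyG : 0 < deriv (GB ν R w0 θ t) y) (hyη' : y < η / 2)
    (ym1 : y < -t / θ 1 - v2) (ym2 : y < (θ 2 - θ 0) * (-t / θ 1 - v2))
    (ym3 : y ≤ (g - q 0 * (θ 2 - θ 0)) * (-t / θ 1 - vm) / 16)
    (hyW : ∀ᵐ v : ℝ, v ∈ Ioo va vb →
      Th θ * |v - -t / θ 1| ≤ η / 2 → v < -t / θ 1 →
        S1 ν R (xx w0 Rs θ v t y) → S2 ν R (xx w0 Rs θ v t y) →
          ∀ d : ℝ, HasDerivAt (fun v => ν (xx w0 Rs θ v t y)) d v →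
            d ≤ -((1 - s) + 3 + (θ 2 - θ 0))) : False := by
  have h0 := H.η0
  have hRR : Rs ≤ R := by linarith [H.RsR]
  have hTh : 1 ≤ Th θ := by
    unfold Th; have := abs_nonneg (θ 2); linarith
  have hTh0 : 0 < Th θ := by linarith
  obtain ⟨κ, hκd⟩ : ∃ κ, κ = θ 2 - θ 0 := ⟨_, rfl⟩
  obtain ⟨g', hg'⟩ : ∃ g', g' = g - q 0 * κ := ⟨_, rfl⟩
  rw [← hκd, ← hg'] at hv2d ym3
  rw [← hκd] at hg hκ ym2 hyW
  have hg0 : 0 < g' := by rw [hg']; linarith
  obtain ⟨Λ, hΛ⟩ : ∃ Λ, Λ = (1 - s) + 3 + κ := ⟨_, rfl⟩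
  rw [← hΛ] at hv2d hyW
  obtain ⟨vt, hvt⟩ : ∃ vt, vt = -t / θ 1 := ⟨_, rfl⟩
  rw [← hvt] at hvtI h2t hn hv2d ym1 ym2 ym3 hyW
  obtain ⟨D, hD⟩ : ∃ D, D = vt - vm := ⟨_, rfl⟩
  rw [← hD] at hn hv2d ym3
  have hD0 : 0 < D := by rw [hD]; linarith
  have hv2I : v2 ∈ Ioo va vb := ⟨by linarith [hvmI.1], by linarith [hvtI.2]⟩
  have hyη : |y| ≤ η / 2 := by rw [abs_of_pos hy0]; linarith
  have hrη : ∀ v : ℝ, vm ≤ v → v ≤ vt → Th θ * |v - -t / θ 1| ≤ η / 2 := by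
    intro v ha hb
    rw [← hvt]
    have : |v - vt| ≤ D := by rw [abs_le, hD]; constructor <;> linarith
    exact (mul_le_mul_of_nonneg_left this hTh0.le).trans hn
  -- monotonicity in `v`
  set F : ℝ → ℝ := fun v => ν (xx w0 Rs θ v t y) with hF
  have hκ' : 0 < θ 2 - θ 0 := by rw [← hκd]; exact hκ
  have hmono : ∀ v ∈ Icc vm v2, ∀ v' ∈ Icc vm v2, v ≤ v' → 0 ≤ F v - F v' ∧
      F v - F v' ≤ (4 + 4 * κ) * (v' - v) := by
    intro v hv v' hv' hvv
    have hI : ∀ x ∈ Icc vm v2, x ∈ Ioo va vb := fun x hx =>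
      ⟨by linarith [hx.1, hvmI.1], by linarith [hx.2, hv2I.2]⟩
    have l1 := H.legX0 h1 (hI v hv) (hrη v hv.1 (by linarith [hv.2])) hyη le_rfl hRR
    have l2 := H.legX0 h1 (hI v' hv') (hrη v' hv'.1 (by linarith [hv'.2])) hyη le_rfl hRR
    have := H.prf.lip _ l1 _ l2 (xx_mono hκ' le_rfl hvv le_rfl)
    rw [hκd]
    exact ⟨this.1, this.2.trans (le_of_eq (sum_v _ _ _ _ _))⟩
  have hlip : LipschitzOnWith (4 + 4 * κ).toNNReal F (Icc vm v2) := by
    have hK : 0 ≤ 4 + 4 * κ := by linarith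
    refine LipschitzOnWith.of_dist_le_mul fun x hx y' hy' => ?_
    rw [Real.dist_eq, Real.dist_eq, Real.coe_toNNReal _ hK]
    rcases le_total x y' with h2 | h2
    · have := hmono x hx y' hy' h2
      rw [abs_sub_comm x y', abs_of_nonneg this.1, abs_of_nonneg (by linarith : 0 ≤ y' - x)]
      exact this.2
    · have := hmono y' hy' x hx h2
      rw [abs_sub_comm, abs_of_nonneg this.1, abs_of_nonneg (by linarith : 0 ≤ x - y')]
      exact this.2
  have hsub : F v2 - F vm ≤ -(Λ * (v2 - vm)) := by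
    refine sub_of_ae_deriv' hm2.le hlip ?_
    filter_upwards [hyW] with v hv hvI
    have hvI' : v ∈ Ioo va vb := ⟨by linarith [hvI.1, hvmI.1], by linarith [hvI.2, hv2I.2]⟩
    have hvlt : v < -t / θ 1 := by rw [← hvt]; linarith [hvI.2]
    have hnv := hrη v hvI.1.le (by linarith [hvI.2])
    have hmv1 : y < -t / θ 1 - v := by
      rw [← hvt]
      linarith [hvI.2]
    have hmv2 : y < (θ 2 - θ 0) * (-t / θ 1 - v) := by
      rw [← hvt, ← hκd]
      have e2 : κ * (vt - v2) ≤ κ * (vt - v) := mul_le_mul_of_nonneg_left (by linarith [hvI.2]) hκ.le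
      linarith
    have hs1 := H.s1_of_pos h1 hκ' hvI' hv2I hvI.2 hyy
      (hrη v2 hm2.le h2t.le) (by rw [abs_of_pos (by linarith)]; linarith) hP
    have hs2 := H.s2_of_good h1 hκ' (v := v) (y := y) (by rw [← hvt]; exact hvtI) hvlt hmv1 hmv2
      ⟨⟨hy0, hyη'⟩, hyG⟩
    exact hv hvI' (by rw [hvt]; exact hnv) (by rw [hvt]; exact hvlt) hs1 hs2
  -- the two ends
  have hnm := near_xx (η := η) h1 (hrη vm le_rfl (by linarith)) hyη
  have hup : F vm ≤ c₀ + Ex g s q θ vm t y := by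
    refine H.dmx hvmI hnm le_rfl hRR ⟨vt, hvtI, ?_⟩
    have e1 : θ 2 / θ 1 * t = -(θ 2 * vt) := by rw [hvt]; ring
    have e2 : 0 ≤ κ * (vt - vm) := mul_nonneg hκ.le (by linarith)
    rw [hκd] at e2
    rw [e1]
    nlinarith
  have hvtI' : -t / θ 1 ∈ Ioo va vb := by rw [← hvt]; exact hvtI
  have hlow : c₀ + Ex g s q θ (-t / θ 1) t 0 - 6 * y ≤ F v2 := by
    have hI0 : Th θ * |-t / θ 1 - -t / θ 1| ≤ η / 2 := by
      rw [sub_self, abs_zero, mul_zero]; linarith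
    have l1 := H.legX0 h1 hvtI' hI0 (y := 0) (by rw [abs_zero]; linarith) hRR le_rfl
    have l2 := H.legX0 h1 hvtI' hI0 hyη hRR le_rfl
    have l3 := H.legX0 h1 hv2I (hrη v2 hm2.le h2t.le) hyη le_rfl hRR
    have hr := H.rcd _ hvtI'
    rw [← xx_rec h1, ← Ex_rec h1] at hr
    have e1 := (H.prf.lip _ l1 _ l2 (xx_mono hκ' le_rfl le_rfl hy0.le)).2
    rw [sum_y] at e1
    have e3 := (H.prf.lip _ l3 _ l2 (xx_mono hκ' hRR (by rw [← hvt]; exact h2t.le) le_rfl)).1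
    have e4 : F v2 = ν (xx w0 Rs θ v2 t y) := rfl
    rw [e4]
    linarith
  have hEx := Ex_sub (g := g) (s := s) (q := q) (θ := θ) vm t y (-t / θ 1) 0
  rw [← hvt] at hEx hlow
  rw [← hκd, ← hΛ, ← hg'] at hEx
  have k1 : Λ * (vt - v2) ≤ |Λ| * (vt - v2) :=
    mul_le_mul_of_nonneg_right (le_abs_self _) (by linarith)
  have k2 : 0 ≤ (q 0 + q 2) * y := mul_nonneg (by linarith) hy0.le
  have k3 : (g' - Λ) * (vt - vm) + (2 + q 0 + q 2) * y ≤ 6 * y - Λ * (v2 - vm) := by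
    have : (g' - Λ) * (vt - vm) - (2 + q 0 + q 2) * (0 - y) =
      (g' - Λ) * (vt - vm) + (2 + q 0 + q 2) * y := by ring
    linarith
  have k4 : g' * D ≤ 4 * y + g' * D / 4 := by
    rw [hD] at hv2d ⊢
    nlinarith
  have k5 : 0 < g' * D := mul_pos hg0 hD0
  linarith

end Crest.Agent.R136.Z2H57
end

-- ▼ part R136/Z2h_57
section

/-!
# R136, case (C2z), scalar half (helper57): **`z2_falseP`**, planes of any slope `sg`
-/

set_option autoImplicit false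
set_option linter.unusedVariables false
set_option linter.unusedSectionVars false
set_option linter.unnecessarySeqFocus false

open Set Filter Topology MeasureTheory
open scoped NNReal ENNReal

namespace Crest.Agent.R136.Z2H57

open Crest.Agent.R136.Net191
open Crest.Agent.R136.NetQ186

variable {ν : (Fin 11 → ℝ) → ℝ} {R Rs w0 : ℝ} {θ : Fin 3 → ℝ} {g s c₀ : ℝ} {q : Fin 3 → ℝ}
  {va vb η : ℝ}

/-! ### measurability -/

theorem continuous_xx (w0 Rt : ℝ) (θ : Fin 3 → ℝ) :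
    Continuous fun z : ℝ × ℝ × ℝ => xx w0 Rt θ z.1 z.2.1 z.2.2 := by
  refine continuous_pi fun k => ?_
  fin_cases k <;> simp only [xx, nt, Matrix.cons_val, Fin.zero_eta, Fin.mk_one, Fin.reduceFinMk,
    Fin.isValue] <;> fun_prop


theorem measurableSet_pos (hc : Continuous ν) {α : Type*} [TopologicalSpace α]
    [MeasurableSpace α] [BorelSpace α] {f : α → Fin 11 → ℝ} (hf : Continuous f) :
    MeasurableSet {z | Pos ν (f z)} := by
  have e : {z | Pos ν (f z)} = ⋃ n : ℕ, {z | ∀ δ : ℝ, 0 ≤ δ → δ ≤ 1 / ((n : ℝ) + 1) →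
      1 / ((n : ℝ) + 1) * δ ≤ ν (f z) - ν (f z + δ • uC)} := by
    ext z
    simp only [mem_ofPred_eq, mem_iUnion]
    constructor
    · rintro ⟨c, hc, h0, hh, H⟩
      obtain ⟨n, hn⟩ := exists_nat_one_div_lt (lt_min hc hh)
      refine ⟨n, fun δ h1 h2 => ?_⟩
      have h3 := H δ h1 (h2.trans (hn.le.trans (min_le_right _ _)))
      refine le_trans ?_ h3
      exact mul_le_mul_of_nonneg_right (hn.le.trans (min_le_left _ _)) h1
    · rintro ⟨n, hn⟩
      have : (0 : ℝ) < 1 / ((n : ℝ) + 1) := by positivity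
      exact ⟨_, this, _, this, hn⟩
  rw [e]
  refine MeasurableSet.iUnion fun n => IsClosed.measurableSet ?_
  have e2 : {z | ∀ δ : ℝ, 0 ≤ δ → δ ≤ 1 / ((n : ℝ) + 1) →
      1 / ((n : ℝ) + 1) * δ ≤ ν (f z) - ν (f z + δ • uC)} =
      ⋂ δ : ℝ, ⋂ (_ : 0 ≤ δ), ⋂ (_ : δ ≤ 1 / ((n : ℝ) + 1)),
        {z | 1 / ((n : ℝ) + 1) * δ ≤ ν (f z) - ν (f z + δ • uC)} := by
    ext z; simp
  rw [e2]
  refine isClosed_iInter fun δ => isClosed_iInter fun _ => isClosed_iInter fun _ => ?_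
  exact isClosed_le continuous_const ((hc.comp hf).sub (hc.comp (hf.add continuous_const)))

theorem continuous_GB (hc : Continuous ν) (R w0 : ℝ) (θ : Fin 3 → ℝ) :
    Continuous (Function.uncurry (GB ν R w0 θ)) := by
  have h1 : Continuous fun z : ℝ × ℝ => xx w0 R θ (-z.1 / θ 1) z.1 0 :=
    (continuous_xx w0 R θ).comp (f := fun z : ℝ × ℝ => ((-z.1 / θ 1, z.1, 0) : ℝ × ℝ × ℝ))
      (by fun_prop)
  have h2 : Continuous fun z : ℝ × ℝ => xx w0 R θ (-z.1 / θ 1) z.1 0 + z.2 • uB :=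
    h1.add (by fun_prop)
  exact (hc.comp h1).sub (hc.comp h2)

/-! ### Fubini -/

/-- a measurable plane set whose vertical sections have positive measure for a.e. `t ∈ (a, b)` has a
horizontal section of positive measure -/
theorem exists_section {S : Set (ℝ × ℝ)} (hS : MeasurableSet S) {a b : ℝ} (hab : a < b)
    (h : ∀ᵐ t : ℝ, t ∈ Ioo a b → 0 < volume {c : ℝ | (t, c) ∈ S}) :
    ∃ c : ℝ, 0 < volume {t : ℝ | (t, c) ∈ S} := by
  by_contra hcon
  push Not at hcon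
  have h1 : ∀ c : ℝ, volume {t : ℝ | (t, c) ∈ S} = 0 := fun c => le_antisymm (hcon c) bot_le
  have hS2 : MeasurableSet (Prod.swap ⁻¹' S) := measurable_swap hS
  have h2 : ((volume : Measure ℝ).prod volume) (Prod.swap ⁻¹' S) = 0 := by
    rw [Measure.measure_prod_null hS2]
    exact Eventually.of_forall fun c => h1 c
  have h3 : ((volume : Measure ℝ).prod volume) S = 0 := by
    rw [← (Measure.measurePreserving_swap (μ := (volume : Measure ℝ))
      (ν := (volume : Measure ℝ))).measure_preimage hS.nullMeasurableSet]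
    exact h2
  rw [Measure.measure_prod_null hS] at h3
  obtain ⟨t, ht, h4⟩ := exists_of_ae_of_volume (h.and h3) (A := Ioo a b) (by
    rw [Real.volume_Ioo, ENNReal.ofReal_pos]; linarith)
  have h5 := h4.1 ht
  have h6 : volume (Prod.mk t ⁻¹' S) = 0 := h4.2
  exact absurd h6 h5.ne'

/-! ### the boxes of a plane of slope `sg` -/

/-- natural box on the plane of slope `sg`: `z = (v, t)` -/
noncomputable def bx (w0 Rt : ℝ) (θ : Fin 3 → ℝ) (sg c : ℝ) (z : ℝ × ℝ) : Fin 11 → ℝ :=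
  nt w0 Rt z.1 z.2 (sg * z.2 + c) ((θ 2 - θ 0) * z.1 + (sg * z.2 + c))

theorem bx_eq (w0 Rt : ℝ) (θ : Fin 3 → ℝ) (sg c : ℝ) (z : ℝ × ℝ) :
    bx w0 Rt θ sg c z = xx w0 Rt θ z.1 z.2 (sg * z.2 + c - θ 2 / θ 1 * z.2) := by
  unfold bx xx
  rw [show θ 2 / θ 1 * z.2 + (sg * z.2 + c - θ 2 / θ 1 * z.2) = sg * z.2 + c by ring]

/-- **window input**, planes of slope `sg`: at a.e. point `z = (v, t)` below the record and above
the diagonal the sweeps make all coordinates full -/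
def WP (ν : (Fin 11 → ℝ) → ℝ) (R Rs w0 : ℝ) (θ : Fin 3 → ℝ) (s va vb η sg : ℝ) : Prop :=
  ∀ c : ℝ, ∀ᵐ z : ℝ × ℝ, z.1 ∈ Ioo va vb → -z.2 / θ 1 ∈ Ioo va vb →
    Th θ * |z.1 - -z.2 / θ 1| ≤ η / 2 → z.1 < -z.2 / θ 1 →
      0 < sg * z.2 + c - θ 2 / θ 1 * z.2 → sg * z.2 + c - θ 2 / θ 1 * z.2 ≤ η / 2 →
        S1 ν R (bx w0 Rs θ sg c z) → S2 ν R (bx w0 Rs θ sg c z) →
          ∀ d : ℝ, HasDerivAt (fun v => ν (bx w0 Rs θ sg c (v, z.2))) d z.1 →
            d ≤ -((1 - s) + 3 + (θ 2 - θ 0))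

/-- `Pos` is inherited by smaller `y` -/
theorem Dat.pos_anti (H : Dat ν R Rs w0 θ g s c₀ q va vb η) (h1 : 0 < θ 1) {v t y y2 : ℝ}
    (hv : v ∈ Ioo va vb) (hn : Th θ * |v - -t / θ 1| ≤ η / 2) (hy : |y| ≤ η / 2)
    (hy2 : |y2| ≤ η / 2) (hyy : y ≤ y2) (hP : Pos ν (xx w0 R θ v t y2)) :
    Pos ν (xx w0 R θ v t y) := by
  have h0 := H.η0
  have hRR : Rs ≤ R := by linarith [H.RsR]
  obtain ⟨c, hc, h, hh, Hc⟩ := hP
  refine ⟨c, hc, min h η, lt_min hh h0, fun δ hδ hδ' => ?_⟩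
  have k1 := Hc δ hδ (hδ'.trans (min_le_left _ _))
  have lp := H.legX0 h1 hv hn hy hRR le_rfl
  have lq := H.legX0 h1 hv hn hy2 hRR le_rfl
  have lpd := H.legX h1 hv hn hy hδ (hδ'.trans (min_le_right _ _)) hRR le_rfl
  have key := H.prf.inc lp lq lpd (fun k => mul_nonneg hδ (uC_nonneg k)) (by
    intro k
    fin_cases k <;>
      simp only [xx, nt, Matrix.cons_val, Fin.zero_eta, Fin.mk_one, Fin.reduceFinMk,
        Fin.isValue] <;>
      linarith) (by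
    intro k
    fin_cases k <;> simp [xx, nt, uC])
  linarith

set_option maxHeartbeats 1000000 in
/-- continuous profile -/
theorem z2_falsePc (hc : Continuous ν) (H : Dat ν R Rs w0 θ g s c₀ q va vb η) (h1 : 0 < θ 1)
    (hκ : 0 < θ 2 - θ 0) (hq0 : 0 ≤ q 0) (hq1 : 0 < q 1) (hq2 : 0 < q 2)
    (hσ : θ 2 ≤ q 1 / 4 * θ 1) (hg : q 0 * (θ 2 - θ 0) < g) (sg : ℝ)
    (hW : WP ν R Rs w0 θ s va vb η sg) : False := by
  have h0 := H.η0
  have hab := H.vab
  have hRR : Rs ≤ R := by linarith [H.RsR]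
  have hTh : 1 ≤ Th θ := by
    unfold Th; have := abs_nonneg (θ 2); linarith
  have hTh0 : 0 < Th θ := by linarith
  obtain ⟨κ, hκd⟩ : ∃ κ, κ = θ 2 - θ 0 := ⟨_, rfl⟩
  obtain ⟨g', hg'⟩ : ∃ g', g' = g - q 0 * κ := ⟨_, rfl⟩
  have hκ0 : 0 < κ := by rw [hκd]; exact hκ
  have hg0 : 0 < g' := by rw [hg', hκd]; linarith
  obtain ⟨Λ, hΛ⟩ : ∃ Λ, Λ = (1 - s) + 3 + κ := ⟨_, rfl⟩
  obtain ⟨vm, hvm⟩ : ∃ vm, vm = (va + vb) / 2 := ⟨_, rfl⟩
  obtain ⟨r, hr⟩ : ∃ r, r = min ((vb - va) / 4) (η / (8 * Th θ)) := ⟨_, rfl⟩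
  have hr0 : 0 < r := by rw [hr]; exact lt_min (by linarith) (by positivity)
  have hr1 : r ≤ (vb - va) / 4 := by rw [hr]; exact min_le_left _ _
  have hr2 : Th θ * r ≤ η / 8 := by
    have : r ≤ η / (8 * Th θ) := by rw [hr]; exact min_le_right _ _
    rw [le_div_iff₀ (by positivity)] at this
    linarith
  -- `v2`, width `e`
  obtain ⟨v2, hv2⟩ : ∃ v2, v2 = vm + r / 2 := ⟨_, rfl⟩
  obtain ⟨e, he⟩ : ∃ e, e = min (r / 2) (g' * r / (8 * (|Λ| + 1))) := ⟨_, rfl⟩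
  have hΛ0 : 0 ≤ |Λ| := abs_nonneg _
  have he0 : 0 < e := by rw [he]; exact lt_min (by linarith) (by positivity)
  have he1 : e ≤ r / 2 := by rw [he]; exact min_le_left _ _
  have he2 : |Λ| * e ≤ g' * r / 8 := by
    have : e ≤ g' * r / (8 * (|Λ| + 1)) := by rw [he]; exact min_le_right _ _
    rw [le_div_iff₀ (by positivity)] at this
    nlinarith
  have hvmI : vm ∈ Ioo va vb := ⟨by linarith, by linarith⟩
  have hv2I : v2 ∈ Ioo va vb := ⟨by linarith, by linarith⟩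
  obtain ⟨y3, hy3⟩ : ∃ y3, y3 = min (min (e / 2) (κ * (e / 2))) (min (g' * r / 64) (η / 8)) :=
    ⟨_, rfl⟩
  have hy30 : 0 < y3 := by
    rw [hy3]
    exact lt_min (lt_min (by linarith) (mul_pos hκ0 (by linarith)))
      (lt_min (by positivity) (by positivity))
  have hy3a : y3 ≤ e / 2 := by rw [hy3]; exact (min_le_left _ _).trans (min_le_left _ _)
  have hy3b : y3 ≤ κ * (e / 2) := by rw [hy3]; exact (min_le_left _ _).trans (min_le_right _ _)
  have hy3c : y3 ≤ g' * r / 64 := by rw [hy3]; exact (min_le_right _ _).trans (min_le_left _ _)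
  have hy3d : y3 ≤ η / 8 := by rw [hy3]; exact (min_le_right _ _).trans (min_le_right _ _)
  obtain ⟨ta, hta⟩ : ∃ ta, ta = -(θ 1 * (v2 + e)) := ⟨_, rfl⟩
  obtain ⟨tb, htb⟩ : ∃ tb, tb = -(θ 1 * (v2 + e / 2)) := ⟨_, rfl⟩
  have htab : ta < tb := by rw [hta, htb]; nlinarith
  have hvt : ∀ t ∈ Ioo ta tb, v2 + e / 2 < -t / θ 1 ∧ -t / θ 1 < v2 + e := by
    intro t ht
    constructor
    · rw [lt_div_iff₀ h1]; linarith [ht.2, mul_comm (θ 1) (v2 + e / 2)]
    · rw [div_lt_iff₀ h1]; linarith [ht.1, mul_comm (θ 1) (v2 + e)]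
  have hvtI : ∀ t ∈ Ioo ta tb, -t / θ 1 ∈ Ioo va vb := by
    intro t ht
    have := hvt t ht
    exact ⟨by linarith [hv2I.1], by linarith⟩
  -- the set
  set Y : ℝ × ℝ → ℝ := fun z => sg * z.1 + z.2 - θ 2 / θ 1 * z.1 with hY
  have hYc : Continuous Y := by rw [hY]; fun_prop
  set S : Set (ℝ × ℝ) := {z | z.1 ∈ Ioo ta tb ∧ Y z ∈ Ioo 0 y3 ∧
    Pos ν (xx w0 R θ v2 z.1 (2 * Y z)) ∧ 0 < deriv (GB ν R w0 θ z.1) (Y z)} with hS
  have hSm : MeasurableSet S := by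
    have m1 : MeasurableSet {z : ℝ × ℝ | z.1 ∈ Ioo ta tb} := measurable_fst measurableSet_Ioo
    have m2 : MeasurableSet {z : ℝ × ℝ | Y z ∈ Ioo 0 y3} := hYc.measurable measurableSet_Ioo
    have m3 : MeasurableSet {z : ℝ × ℝ | Pos ν (xx w0 R θ v2 z.1 (2 * Y z))} := by
      refine measurableSet_pos hc ?_
      exact (continuous_xx w0 R θ).comp
        (f := fun z : ℝ × ℝ => ((v2, z.1, 2 * Y z) : ℝ × ℝ × ℝ)) (by fun_prop)
    have m4 : MeasurableSet {z : ℝ × ℝ | 0 < deriv (GB ν R w0 θ z.1) (Y z)} := by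
      have h5 := measurable_deriv_with_param (continuous_GB hc R w0 θ)
      have h6 : Measurable fun z : ℝ × ℝ => (z.1, Y z) := measurable_fst.prodMk hYc.measurable
      exact (h5.comp h6) measurableSet_Ioi
    exact m1.inter (m2.inter (m3.inter m4))
  -- sections
  have hsec : ∀ᵐ t : ℝ, t ∈ Ioo ta tb → 0 < volume {c : ℝ | (t, c) ∈ S} := by
    filter_upwards [H.pos_ae h1 hκ hq1 hσ hv2I one_pos] with t ht htI
    have hv := hvt t htI
    have hI := hvtI t htI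
    have hn2 : Th θ * (-t / θ 1 - v2) ≤ η / 4 := by
      have : -t / θ 1 - v2 ≤ r := by linarith
      nlinarith
    have hn2' : Th θ * |v2 - -t / θ 1| ≤ η / 2 := by
      rw [abs_sub_comm, abs_of_nonneg (by linarith)]; linarith
    obtain ⟨y2, hy20, -, hy2η, hP⟩ := ht (by linarith) hI.2 hn2
    obtain ⟨y4, hy4⟩ : ∃ y4, y4 = min (y2 / 2) y3 := ⟨_, rfl⟩
    have hy40 : 0 < y4 := by rw [hy4]; exact lt_min (by linarith) hy30
    have hy4a : y4 ≤ y2 / 2 := by rw [hy4]; exact min_le_left _ _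
    have hy4b : y4 ≤ y3 := by rw [hy4]; exact min_le_right _ _
    have hGv : 0 < volume (good (GB ν R w0 θ t) 0 y4) := by
      refine volume_good2 hy40.le ?_ ?_
      · intro x hx y hy hxy
        have := (H.mlB h1 hI).2 x ⟨hx.1, by linarith [hx.2]⟩ y ⟨hy.1, by linarith [hy.2]⟩ hxy
        have e : GB ν R w0 θ t y - GB ν R w0 θ t x = ν (xx w0 R θ (-t / θ 1) t 0 + x • uB) -
          ν (xx w0 R θ (-t / θ 1) t 0 + y • uB) := by simp only [GB]; ring
        rw [e]; exact this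
      · have e0 : GB ν R w0 θ t 0 = 0 := by simp [GB]
        have e1 := H.lossB h1 hI hy40.le (by linarith : y4 ≤ η)
        have e2 : GB ν R w0 θ t y4 = ν (xx w0 R θ (-t / θ 1) t 0) -
          ν (xx w0 R θ (-t / θ 1) t 0 + y4 • uB) := rfl
        rw [e0, e2, sub_zero]
        have : 0 < q 2 * y4 := mul_pos hq2 hy40
        linarith
    have hsub : (fun c => (sg * t - θ 2 / θ 1 * t) + c) ⁻¹' good (GB ν R w0 θ t) 0 y4 ⊆
        {c : ℝ | (t, c) ∈ S} := by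
      intro c hcg
      have e1 : Y (t, c) = (sg * t - θ 2 / θ 1 * t) + c := by simp only [hY]; ring
      have hcg' : Y (t, c) ∈ good (GB ν R w0 θ t) 0 y4 := by rw [e1]; exact hcg
      obtain ⟨⟨g1, g2⟩, g3⟩ := hcg'
      refine ⟨htI, ⟨g1, by linarith⟩, ?_, g3⟩
      refine H.pos_anti h1 hv2I hn2' ?_ ?_ ?_ hP
      · rw [abs_of_pos (by linarith)]; linarith
      · rw [abs_of_pos hy20]; linarith
      · linarith
    refine lt_of_lt_of_le ?_ (measure_mono hsub)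
    rw [measure_preimage_add]
    exact hGv
  obtain ⟨c, hcv⟩ := exists_section hSm htab hsec
  -- the window input on the line `c`
  have hWs : ∀ᵐ t : ℝ, ∀ᵐ v : ℝ, v ∈ Ioo va vb → -t / θ 1 ∈ Ioo va vb →
      Th θ * |v - -t / θ 1| ≤ η / 2 → v < -t / θ 1 →
      0 < sg * t + c - θ 2 / θ 1 * t → sg * t + c - θ 2 / θ 1 * t ≤ η / 2 →
        S1 ν R (bx w0 Rs θ sg c (v, t)) → S2 ν R (bx w0 Rs θ sg c (v, t)) →
          ∀ d : ℝ, HasDerivAt (fun v => ν (bx w0 Rs θ sg c (v, t))) d v →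
            d ≤ -((1 - s) + 3 + (θ 2 - θ 0)) := by
    have h3 : ∀ᵐ z : ℝ × ℝ ∂((volume : Measure ℝ).prod volume), z.2 ∈ Ioo va vb →
      -z.1 / θ 1 ∈ Ioo va vb →
      Th θ * |z.2 - -z.1 / θ 1| ≤ η / 2 → z.2 < -z.1 / θ 1 →
      0 < sg * z.1 + c - θ 2 / θ 1 * z.1 → sg * z.1 + c - θ 2 / θ 1 * z.1 ≤ η / 2 →
        S1 ν R (bx w0 Rs θ sg c (z.2, z.1)) → S2 ν R (bx w0 Rs θ sg c (z.2, z.1)) →
          ∀ d : ℝ, HasDerivAt (fun v => ν (bx w0 Rs θ sg c (v, z.1))) d z.2 →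
            d ≤ -((1 - s) + 3 + (θ 2 - θ 0)) :=
      (Measure.measurePreserving_swap (μ := (volume : Measure ℝ))
        (ν := (volume : Measure ℝ))).quasiMeasurePreserving.ae (hW c)
    exact Measure.ae_ae_of_ae_prod h3
  obtain ⟨t, htS, htW⟩ := exists_of_ae_of_volume hWs hcv
  obtain ⟨htI, hYI, hP, hG⟩ := htS
  obtain ⟨y, hy⟩ : ∃ y, y = Y (t, c) := ⟨_, rfl⟩
  rw [← hy] at hYI hP hG
  have hy' : y = sg * t + c - θ 2 / θ 1 * t := hy
  have hv := hvt t htI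
  have hI := hvtI t htI
  have hYI1 : 0 < y := hYI.1
  have hYI2 : y < y3 := hYI.2
  have hD1 : r / 2 ≤ -t / θ 1 - vm := by linarith
  refine z2_core H h1 hκ hq0 hq2 hg (t := t) (vm := vm) (v2 := v2) (y := y) (y2 := 2 * y) hvmI hI
    (by linarith) (by linarith) ?_ ?_ hYI1 (by linarith) (by linarith) hP hG (by linarith)
    (by linarith) ?_ ?_ ?_
  · have : -t / θ 1 - vm ≤ r := by linarith
    nlinarith
  · rw [← hκd, ← hg', ← hΛ]
    have a1 : |Λ| * (-t / θ 1 - v2) ≤ |Λ| * e := mul_le_mul_of_nonneg_left (by linarith) hΛ0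
    have a2 : g' * (r / 2) ≤ g' * (-t / θ 1 - vm) := mul_le_mul_of_nonneg_left hD1 hg0.le
    linarith
  · rw [← hκd]
    have a1 : κ * (e / 2) ≤ κ * (-t / θ 1 - v2) := mul_le_mul_of_nonneg_left (by linarith) hκ0.le
    linarith
  · rw [← hκd, ← hg']
    have a2 : g' * (r / 2) ≤ g' * (-t / θ 1 - vm) := mul_le_mul_of_nonneg_left hD1 hg0.le
    have a3 : 0 < g' * r := mul_pos hg0 hr0
    linarith
  · filter_upwards [htW] with v hvv b1 b2 b3 b4 b5 d hd
    have e1 : ∀ v' : ℝ, bx w0 Rs θ sg c (v', t) = xx w0 Rs θ v' t y := by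
      intro v'
      rw [bx_eq, hy']
    refine hvv b1 hI b2 b3 (by rw [← hy']; exact hYI1) (by rw [← hy']; linarith) ?_ ?_ d ?_
    · rw [e1]; exact b4
    · rw [e1]; exact b5
    · simp only [e1]; exact hd

/-! ### Lipschitz extension -/

theorem Prf.lipOn (H : Prf ν R) : LipschitzOnWith 11 ν (Leg monQ R) := by
  refine LipschitzOnWith.of_dist_le_mul fun p hp q hq => ?_
  have hs : p ⊔ q ∈ Leg monQ R := by
    refine ⟨⟨fun k => ?_, fun k e he => ?_⟩, fun k => ?_⟩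
    · exact (hp.1.nonneg k).trans (by rw [Pi.sup_apply]; exact le_sup_left)
    · rw [Pi.sup_apply]
      refine sup_le ((hp.1.wall k e he).trans ?_) ((hq.1.wall k e he).trans ?_)
      · exact Finset.sum_le_sum fun s _ => mul_le_mul_of_nonneg_left le_sup_left (Nat.cast_nonneg _)
      · exact Finset.sum_le_sum fun s _ =>
          mul_le_mul_of_nonneg_left le_sup_right (Nat.cast_nonneg _)
    · rw [Pi.sup_apply]; exact sup_le (hp.2 k) (hq.2 k)
  have h1 := H.lip p hp _ hs le_sup_left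
  have h2 := H.lip q hq _ hs le_sup_right
  have key : ∀ i, |(p ⊔ q) i - p i| ≤ dist p q ∧ |(p ⊔ q) i - q i| ≤ dist p q := by
    intro i
    have h3 : |p i - q i| ≤ dist p q := by
      have := dist_le_pi_dist p q i
      rwa [Real.dist_eq] at this
    have h4 : 0 ≤ dist p q := dist_nonneg
    rw [Pi.sup_apply]
    rcases le_total (p i) (q i) with h5 | h5
    · rw [sup_eq_right.2 h5, sub_self, abs_zero, abs_sub_comm]; exact ⟨h3, h4⟩
    · rw [sup_eq_left.2 h5, sub_self, abs_zero]; exact ⟨h4, h3⟩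
  have b1 : ∑ k, ((p ⊔ q) k - p k) ≤ 11 * dist p q := by
    calc ∑ k, ((p ⊔ q) k - p k) ≤ ∑ _k : Fin 11, dist p q :=
          Finset.sum_le_sum fun k _ => (le_abs_self _).trans (key k).1
      _ = 11 * dist p q := by
          rw [Finset.sum_const, Finset.card_univ, Fintype.card_fin, nsmul_eq_mul]; norm_num
  have b2 : ∑ k, ((p ⊔ q) k - q k) ≤ 11 * dist p q := by
    calc ∑ k, ((p ⊔ q) k - q k) ≤ ∑ _k : Fin 11, dist p q :=
          Finset.sum_le_sum fun k _ => (le_abs_self _).trans (key k).2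
      _ = 11 * dist p q := by
          rw [Finset.sum_const, Finset.card_univ, Fintype.card_fin, nsmul_eq_mul]; norm_num
  rw [Real.dist_eq, abs_le]
  simp only [NNReal.coe_ofNat]
  constructor <;> linarith [h1.1, h1.2, h2.1, h2.2]

/-- change of the profile outside the legal boxes, smaller `η` -/
theorem Dat.congr {ν' : (Fin 11 → ℝ) → ℝ} (H : Dat ν R Rs w0 θ g s c₀ q va vb η)
    (he : EqOn ν ν' (Leg monQ R)) {η' : ℝ} (h0' : 0 < η') (hη : η' ≤ η) :
    Dat ν' R Rs w0 θ g s c₀ q va vb η' := by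
  have hRR : Rs ≤ R := by linarith [H.RsR, H.η0]
  refine ⟨⟨fun p hp p' hp' hpq => ?_, fun p hp p' hp' hi => ?_⟩, h0', H.vab, hη.trans H.Rs0, ?_,
    fun v hv t1 t2 t3 a1 a2 a3 k => ?_, fun v hv t1 t2 t3 a1 a2 a3 k => ?_,
    fun v hv t3 a3 => ?_, fun v hv t1 t2 t3 a1 a2 a3 a4 => ?_, fun v hv => ?_⟩
  · rw [← he hp, ← he hp']; exact H.prf.lip p hp p' hp' hpq
  · have hs : p ⊔ p' ∈ Leg monQ R := by
      refine ⟨⟨fun k => ?_, fun k e he => ?_⟩, fun k => ?_⟩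
      · exact (hp.1.nonneg k).trans (by rw [Pi.sup_apply]; exact le_sup_left)
      · rw [Pi.sup_apply]
        refine sup_le ((hp.1.wall k e he).trans ?_) ((hp'.1.wall k e he).trans ?_)
        · exact Finset.sum_le_sum fun s _ =>
            mul_le_mul_of_nonneg_left le_sup_left (Nat.cast_nonneg _)
        · exact Finset.sum_le_sum fun s _ =>
            mul_le_mul_of_nonneg_left le_sup_right (Nat.cast_nonneg _)
      · rw [Pi.sup_apply]; exact sup_le (hp.2 k) (hp'.2 k)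
    rw [← he hp, ← he hp', ← he hs, ← he hi]; exact H.prf.sub p hp p' hp' hi
  · linarith [H.RsR]
  · linarith [H.lo v hv t1 t2 t3 (a1.trans hη) (a2.trans hη) (a3.trans hη) k]
  · linarith [H.hi v hv t1 t2 t3 (a1.trans hη) (a2.trans hη) (a3.trans hη) k]
  · linarith [H.pw v hv t3 (a3.trans hη)]
  · have hl := H.leg0 hv ⟨a1.trans hη, a2.trans hη, a3.trans hη⟩ le_rfl hRR
    rw [← he hl]
    exact H.dmax v hv t1 t2 t3 (a1.trans hη) (a2.trans hη) (a3.trans hη) a4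
  · have z : ∀ x : ℝ, |-(x * v) + x * v| ≤ η := by
      intro x
      rw [neg_add_cancel, abs_zero]; exact H.η0.le
    have hl := H.leg0 hv ⟨z _, z _, z _⟩ hRR le_rfl
    rw [← he hl]
    exact H.rcd v hv

/-- **(C2z), scalar half, planes of any slope** -/
theorem z2_falseP (H : Dat ν R Rs w0 θ g s c₀ q va vb η) (h1 : 0 < θ 1)
    (hκ : 0 < θ 2 - θ 0) (hq0 : 0 ≤ q 0) (hq1 : 0 < q 1) (hq2 : 0 < q 2)
    (hσ : θ 2 ≤ q 1 / 4 * θ 1) (hg : q 0 * (θ 2 - θ 0) < g) (sg : ℝ)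
    (hW : WP ν R Rs w0 θ s va vb η sg) : False := by
  have h0 := H.η0
  have hRR : Rs ≤ R := by linarith [H.RsR]
  obtain ⟨ν', hL, he⟩ := H.prf.lipOn.extend_real
  refine z2_falsePc hL.continuous (H.congr he (by linarith : 0 < η / 2) (by linarith)) h1 hκ hq0
    hq1 hq2 hσ hg sg fun c => ?_
  filter_upwards [hW c] with z hz a1 a2 a3 a4 a5 a6 a7 a8 d hd
  refine hz a1 a2 (by linarith) a4 a5 (by linarith) ?_ ?_ d ?_
  · obtain ⟨c', hc', h', hh', K⟩ := a7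
    refine ⟨c', hc', h', hh', fun d b1 b2 δ b3 b4 b5 b6 => ?_⟩
    rw [he b5, he b6]
    exact K d b1 b2 δ b3 b4 b5 b6
  · obtain ⟨c', hc', h', hh', K⟩ := a8
    refine ⟨c', hc', h', hh', fun d b1 b2 b2' b2'' δ b3 b4 b5 b6 => ?_⟩
    rw [he b5, he b6]
    exact K d b1 b2 b2' b2'' δ b3 b4 b5 b6
  · refine hd.congr_of_eventuallyEq ?_
    have o1 : ∀ᶠ v in 𝓝 z.1, v ∈ Ioo va vb := isOpen_Ioo.mem_nhds a1
    have o2 : ∀ᶠ v in 𝓝 z.1, Th θ * |v - -z.2 / θ 1| < η / 2 := by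
      have hcont : Continuous fun v : ℝ => Th θ * |v - -z.2 / θ 1| := by fun_prop
      refine hcont.continuousAt.eventually_lt_const ?_
      linarith
    filter_upwards [o1, o2] with v b1 b2
    have hl : bx w0 Rs θ sg c (v, z.2) ∈ Leg monQ R := by
      rw [bx_eq]
      refine H.legX0 h1 b1 b2.le ?_ le_rfl hRR
      simp only
      rw [abs_of_pos a5]
      linarith
    exact he hl

end Crest.Agent.R136.Z2H57
end

-- ▼ part R136/Z2i_57
section

/-!
# R136, case (C2z) (helper57): `Dat` in the thick branch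

`dat_of_cx` : from 628's `Cx`.
-/

set_option autoImplicit false
set_option linter.unusedVariables false
set_option linter.unusedSectionVars false
set_option linter.unnecessarySeqFocus false

open Set Filter Topology MeasureTheory

namespace Crest.Agent.R136.Z2H57

open Crest.Agent.R136.Net191
open Crest.Agent.R136.NetQ186
open Crest.Agent.R136.NatT550
open Crest.Agent.R136.NatR550
open Crest.Agent.R136.Wq638
open Crest.Agent.R136.Tb628 (Cx)

theorem nt_eq (w0 R v t1 t2 t3 : ℝ) : nt w0 R v t1 t2 t3 = nat4 w0 R v t1 t2 t3 := rfl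

theorem DQ_En (g s : ℝ) (q : Fin 3 → ℝ) (w0 R v t1 t2 t3 : ℝ) :
    DQ g s q w0 (nat4 w0 R v t1 t2 t3) = En g s q v t1 t2 t3 := by
  rw [DQ_nat4]; rfl

/-- slots of the natural boxes near the record line -/
theorem slots_near {θ : Fin 3 → ℝ} {w0 R T0 v t1 t2 t3 η : ℝ} (h : BigQ θ w0 R T0)
    (hv0 : 0 ≤ v) (hv1 : v ≤ 2 / 3) (h0 : 0 < η) (hη : η ≤ 1 / 8) (a1 : |t1 + θ 1 * v| ≤ η)
    (a2 : |t2 + θ 2 * v| ≤ η) (a3 : |t3 + θ 0 * v| ≤ η) :
    (∀ k, η ≤ nt w0 (R - 1) v t1 t2 t3 k) ∧ (∀ k, nt w0 (R - 1) v t1 t2 t3 k + η ≤ R) ∧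
      3 * w0 + t3 + η ≤ w0 + v + (R - 1) := by
  have b0 := h.bd hv0 (by linarith) 0
  have b1 := h.bd hv0 (by linarith) 1
  have b2 := h.bd hv0 (by linarith) 2
  have e0 := h.T0
  have e1 := h.w0T
  have e2 := h.R0
  rw [abs_le] at a1 a2 a3
  refine ⟨fun k => ?_, fun k => ?_, by linarith⟩ <;>
    fin_cases k <;>
      simp only [nt, Matrix.cons_val, Fin.zero_eta, Fin.mk_one, Fin.reduceFinMk, Fin.isValue] <;>
      linarith

/-- **`Dat` from 628's facts** -/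
theorem dat_of_cx {θ q : Fin 3 → ℝ} {g w0 R T0 cab cby cr c₀ : ℝ} {ν : (Fin 11 → ℝ) → ℝ}
    (C : Cx θ q g w0 R T0 cab cby cr ν c₀) (h21 : θ 2 < θ 1) (h20 : θ 0 < θ 2) :
    ∃ η : ℝ, Dat ν R (R - 1) w0 θ g 0 c₀ q (1 / 3) (2 / 3) η := by
  have hth := C.th1
  obtain ⟨η, hη⟩ : ∃ η, η = min (min (1 / 8) (θ 1 / 6)) (min ((θ 1 - θ 2) / 6) ((θ 2 - θ 0) / 6)) :=
    ⟨_, rfl⟩
  have h0 : 0 < η := by
    rw [hη]
    exact lt_min (lt_min (by norm_num) (by linarith)) (lt_min (by linarith) (by linarith))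
  have c1 : η ≤ 1 / 8 := by rw [hη]; exact (min_le_left _ _).trans (min_le_left _ _)
  have c2 : η ≤ θ 1 / 6 := by rw [hη]; exact (min_le_left _ _).trans (min_le_right _ _)
  have c3 : η ≤ (θ 1 - θ 2) / 6 := by rw [hη]; exact (min_le_right _ _).trans (min_le_left _ _)
  have c4 : η ≤ (θ 2 - θ 0) / 6 := by rw [hη]; exact (min_le_right _ _).trans (min_le_right _ _)
  have big := C.big
  have e0 := big.T0
  have e1 := big.w0T
  have e2 := big.R0
  have key : ∀ v ∈ Ioo (1 / 3 : ℝ) (2 / 3), ∀ t1 t2 t3 : ℝ, |t1 + θ 1 * v| ≤ η →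
      |t2 + θ 2 * v| ≤ η → |t3 + θ 0 * v| ≤ η → (∀ k, η ≤ nt w0 (R - 1) v t1 t2 t3 k) ∧
      (∀ k, nt w0 (R - 1) v t1 t2 t3 k + η ≤ R) ∧ 3 * w0 + t3 + η ≤ w0 + v + (R - 1) := by
    intro v hv t1 t2 t3 a1 a2 a3
    have hv1 : (1 / 3 : ℝ) < v := hv.1
    exact slots_near big (by linarith) hv.2.le h0 c1 a1 a2 a3
  refine ⟨η, ⟨fun p hp q hq hpq => C.prf.lip p hp q hq hpq,
    fun p hp q hq hpq => C.prf.submod p hp q hq hpq⟩, h0, by norm_num, by linarith, by linarith,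
    fun v hv t1 t2 t3 a1 a2 a3 => (key v hv t1 t2 t3 a1 a2 a3).1,
    fun v hv t1 t2 t3 a1 a2 a3 => (key v hv t1 t2 t3 a1 a2 a3).2.1, fun v hv t3 a3 => ?_,
    fun v hv t1 t2 t3 a1 a2 a3 hr => ?_, fun v hv => ?_⟩
  · have z : ∀ x : ℝ, |-(x * v) + x * v| ≤ η := by
      intro x
      rw [neg_add_cancel, abs_zero]; exact h0.le
    exact (key v hv _ _ t3 (z _) (z _) a3).2.2
  · obtain ⟨k1, k2, k3⟩ := key v hv t1 t2 t3 a1 a2 a3
    have hv1 : (1 / 3 : ℝ) < v := hv.1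
    have hv2 : v < 2 / 3 := hv.2
    have hL : nat4 w0 (R - 1) v t1 t2 t3 ∈ Leg monQ R := by
      have g0 := k1 0
      have g2 := k1 2
      have g3 := k1 3
      have g5 := k1 5
      simp only [nt, Matrix.cons_val, Fin.isValue] at g0 g2 g3 g5
      refine ⟨nat4_legal (by linarith) (by linarith) (by linarith) (by linarith) (by linarith)
        (by linarith) (by linarith), fun k => ?_⟩
      have := k2 k
      rw [nt_eq] at this
      linarith
    have hd := C.dmax (nat4 w0 (R - 1) v t1 t2 t3) ?_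
    · rw [DQ_En] at hd
      exact hd
    · obtain ⟨ab1, ab2⟩ := C.ab
      obtain ⟨by1, by2⟩ := C.by'
      obtain ⟨r1, r2⟩ := C.res
      rw [abs_le] at a1 a2 a3
      obtain ⟨v', ⟨hv'1, hv'2⟩, hv'3⟩ := hr
      have f1 : (θ 1 - θ 2) * (1 / 3) ≤ (θ 1 - θ 2) * v :=
        mul_le_mul_of_nonneg_left hv1.le (by linarith)
      have f2 : (θ 2 - θ 0) * (1 / 3) ≤ (θ 2 - θ 0) * v :=
        mul_le_mul_of_nonneg_left hv1.le (by linarith)
      have f3 : θ 1 * v ≤ θ 1 * (2 / 3) := mul_le_mul_of_nonneg_left hv2.le hth.le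
      have f4 : (1 - θ 0) * v' ≤ cr := by
        rcases le_total 0 (1 - θ 0) with h | h
        · have : (1 - θ 0) * v' ≤ (1 - θ 0) * 1 := mul_le_mul_of_nonneg_left (by linarith) h
          linarith
        · have : (1 - θ 0) * v' ≤ 0 := mul_nonpos_of_nonpos_of_nonneg h (by linarith)
          linarith
      refine ⟨hL, ?_, ?_, ?_, ?_, ?_, ?_⟩ <;>
        simp only [nat4, Matrix.cons_val, Fin.isValue] <;> linarith
  · have hv1 : (1 / 3 : ℝ) < v := hv.1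
    have hv2 : v < 2 / 3 := hv.2
    have h2 := C.record v (by linarith) (by linarith)
    rw [pathQ_nat, DQ_En] at h2
    exact h2

/-! ### sweeps of the tangents -/

open Crest.Agent.R138.Ex926 (IsTan)

/-- **(S1) for the tangent**: fixed base point `p` -/
theorem tan_s1 {ν : (Fin 11 → ℝ) → ℝ} {R : ℝ} {p : Fin 11 → ℝ} (h1 : S1 ν R p)
    {L : Set (Fin 11 → ℝ)} {h : ℕ → ℝ} (hpos : ∀ l, 0 < h l) (h0 : Tendsto h atTop (𝓝 0))
    {lam : (Fin 11 → ℝ) → ℝ} (ht : IsTan (Leg monQ R) L ν (fun _ => p) h lam) :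
    ∃ c : ℝ, 0 < c ∧ ∀ d ∈ L, d 5 = 0 → ∀ δ : ℝ, 0 ≤ δ → d + δ • uC ∈ L →
      c * δ ≤ lam d - lam (d + δ • uC) := by
  obtain ⟨c, hc, h', hh', K⟩ := h1
  refine ⟨c, hc, fun d hd hd5 δ hδ hdδ => ?_⟩
  refine le_of_forall_pos_le_add fun ε hε => ?_
  have hev := ht (max ‖d‖ ‖d + δ • uC‖) (ε / 2) (half_pos hε)
  have t1 : ∀ x : ℝ, Tendsto (fun l => h l * x) atTop (𝓝 0) := fun x => by
    simpa using h0.mul_const x
  have e1 : ∀ᶠ l in atTop, h l * ‖d‖ ≤ h' :=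
    ((t1 _).eventually (gt_mem_nhds hh')).mono fun l hl => hl.le
  have e2 : ∀ᶠ l in atTop, h l * δ ≤ h' :=
    ((t1 _).eventually (gt_mem_nhds hh')).mono fun l hl => hl.le
  obtain ⟨l, h6, g1, g2⟩ := (hev.and (e1.and e2)).exists
  obtain ⟨m1, n1⟩ := h6 d hd (le_max_left _ _)
  obtain ⟨m2, n2⟩ := h6 _ hdδ (le_max_right _ _)
  have hh := hpos l
  have e3 : p + h l • (d + δ • uC) = p + h l • d + (h l * δ) • uC := by
    rw [smul_add, smul_smul, add_assoc]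
  simp only [e3] at m2 n2
  have s1 := K (h l • d) (by
      intro k
      rw [Pi.smul_apply, smul_eq_mul, abs_mul, abs_of_pos hh]
      exact (mul_le_mul_of_nonneg_left (norm_le_pi_norm d k) hh.le).trans g1)
    (by rw [Pi.smul_apply, hd5, smul_zero]) (h l * δ) (by positivity) g2 m1 m2
  have a1 := abs_le.1 n1
  have a2 := abs_le.1 n2
  have b1 : h l * (c * δ) ≤ h l * (lam d - lam (d + δ • uC) + ε) := by
    nlinarith [a1.1, a1.2, a2.1, a2.2]
  exact le_of_mul_le_mul_left b1 hh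

/-- **(S2) for the tangent** -/
theorem tan_s2 {ν : (Fin 11 → ℝ) → ℝ} {R : ℝ} {p : Fin 11 → ℝ} (h1 : S2 ν R p)
    {L : Set (Fin 11 → ℝ)} {h : ℕ → ℝ} (hpos : ∀ l, 0 < h l) (h0 : Tendsto h atTop (𝓝 0))
    {lam : (Fin 11 → ℝ) → ℝ} (ht : IsTan (Leg monQ R) L ν (fun _ => p) h lam) :
    ∃ c : ℝ, 0 < c ∧ ∀ d ∈ L, d 2 = 0 → d 6 = 0 → d 5 ≤ 0 → ∀ δ : ℝ, 0 ≤ δ → d + δ • uB ∈ L →
      c * δ ≤ lam d - lam (d + δ • uB) := by
  obtain ⟨c, hc, h', hh', K⟩ := h1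
  refine ⟨c, hc, fun d hd hd2 hd6 hd5 δ hδ hdδ => ?_⟩
  refine le_of_forall_pos_le_add fun ε hε => ?_
  have hev := ht (max ‖d‖ ‖d + δ • uB‖) (ε / 2) (half_pos hε)
  have t1 : ∀ x : ℝ, Tendsto (fun l => h l * x) atTop (𝓝 0) := fun x => by
    simpa using h0.mul_const x
  have e1 : ∀ᶠ l in atTop, h l * ‖d‖ ≤ h' :=
    ((t1 _).eventually (gt_mem_nhds hh')).mono fun l hl => hl.le
  have e2 : ∀ᶠ l in atTop, h l * δ ≤ h' :=
    ((t1 _).eventually (gt_mem_nhds hh')).mono fun l hl => hl.le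
  obtain ⟨l, h6, g1, g2⟩ := (hev.and (e1.and e2)).exists
  obtain ⟨m1, n1⟩ := h6 d hd (le_max_left _ _)
  obtain ⟨m2, n2⟩ := h6 _ hdδ (le_max_right _ _)
  have hh := hpos l
  have e3 : p + h l • (d + δ • uB) = p + h l • d + (h l * δ) • uB := by
    rw [smul_add, smul_smul, add_assoc]
  simp only [e3] at m2 n2
  have s1 := K (h l • d) (by
      intro k
      rw [Pi.smul_apply, smul_eq_mul, abs_mul, abs_of_pos hh]
      exact (mul_le_mul_of_nonneg_left (norm_le_pi_norm d k) hh.le).trans g1)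
    (by rw [Pi.smul_apply, hd2, smul_zero]) (by rw [Pi.smul_apply, hd6, smul_zero])
    (by rw [Pi.smul_apply, smul_eq_mul]; exact mul_nonpos_of_nonneg_of_nonpos hh.le hd5)
    (h l * δ) (by positivity) g2 m1 m2
  have a1 := abs_le.1 n1
  have a2 := abs_le.1 n2
  have b1 : h l * (c * δ) ≤ h l * (lam d - lam (d + δ • uB) + ε) := by
    nlinarith [a1.1, a1.2, a2.1, a2.2]
  exact le_of_mul_le_mul_left b1 hh

end Crest.Agent.R136.Z2H57
end

-- ▼ part R136/Z2j_57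

/-!
# R136, case (C2z) (helper57): **`caseC2z`**

* `S1L`, `S2L` : sweeps of a tangent;
* `FC2 κ sg` : the F-half of (C2) on the planes with directions `nL 1 0 0 κ`, `nL 0 1 sg sg`, free
  slope `sg`, only `F_b` touches its own path, and it is tied (355 for `κ ≠ 1`, 400 for `κ = 1`);
* `caseC2z` : `∀ κ > 0, ∃ sg, FC2 κ sg` kills the pattern `pC2z`.
-/

set_option autoImplicit false
set_option linter.unusedVariables false
set_option linter.unusedSectionVars false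
set_option linter.unnecessarySeqFocus false

open Filter Topology MeasureTheory

namespace Crest.Agent.R136.Z2H57

open Crest.Agent.R136.Net191
open Crest.Agent.R136.NetQ186
open Crest.Agent.R136.NatT550
open Crest.Agent.R136.GeoQ186
open Crest.Agent.R136.NatR550
open Crest.Agent.R136.Wq638
open Crest.Agent.R136.Lq196
open Crest.Agent.R136.Gf356
open Crest.Agent.R136.Dg219
open Crest.Agent.R136.Dg262 (X)
open Crest.Agent.R136.Aw413
open Crest.Agent.R136.Rc146 (OutA)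
open Crest.Agent.R136.Tb628 (Cx ae_pt OwnP oS ownPath nprof ownF)
open Crest.Agent.R136.Top484 (Par4 Dat4)
open Crest.Agent.R136.TopB550 (Dead pC2z)
open Crest.Agent.R138.Ex926 (Base U IsTan)

/-- **(S1)** for a tangent -/
def S1L (L : Set (Fin 11 → ℝ)) (lam : (Fin 11 → ℝ) → ℝ) : Prop :=
  ∃ c : ℝ, 0 < c ∧ ∀ d ∈ L, d 5 = 0 → ∀ δ : ℝ, 0 ≤ δ → d + δ • uC ∈ L →
    c * δ ≤ lam d - lam (d + δ • uC)

/-- **(S2)** for a tangent -/
def S2L (L : Set (Fin 11 → ℝ)) (lam : (Fin 11 → ℝ) → ℝ) : Prop :=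
  ∃ c : ℝ, 0 < c ∧ ∀ d ∈ L, d 2 = 0 → d 6 = 0 → d 5 ≤ 0 → ∀ δ : ℝ, 0 ≤ δ → d + δ • uB ∈ L →
    c * δ ≤ lam d - lam (d + δ • uB)

/-- **F-half of (C2), free slope `sg`** -/
def FC2 (κ sg : ℝ) : Prop :=
  ∀ (B : Base) (I J : ℕ → Finset (ℕ × ℝ)) (co : ∀ n : ℕ, ℕ × ℝ → ℕ × ℝ → Fin 11 → ℝ)
    (f : ∀ n : ℕ, ℕ × ℝ → Fq4) (Ma : Mons 11) (C : ℝ) (lam : (Fin 11 → ℝ) → ℝ) (A : ℝ × ℝ)
    (φ : ℕ → (Fin 11 → ℝ) → ℝ) (r : ℕ → ℝ) (κo : Fin 11 → ℝ) (V Tw : Fin 11 → Prop),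
    0 ≤ C → (∀ n x y, co n x y = coQ (f n x) (f n y)) → coneM Ma = coneN →
    (∀ᶠ n in (U : Filter ℕ), (J n).Nonempty) →
    OutA (gC (nL 1 0 0 κ) (nL 0 1 sg sg)) (coneM Ma) (nL 1 0 0 κ) (nL 0 1 sg sg)
      (dhC (nL 1 0 0 κ) (nL 0 1 sg sg)) (nC (nL 1 0 0 κ) (nL 0 1 sg sg)) lam A φ r →
    (∀ k, (∀ i, gC (nL 1 0 0 κ) (nL 0 1 sg sg) i = k → 0 < dhC (nL 1 0 0 κ) (nL 0 1 sg sg) i) →
      ∀ c ∈ coneM Ma, ∀ s : ℝ, 0 ≤ s → φ k (s • c) = s * φ k c) →
    AeW B B I J co monQ Ma C lam (nL 1 0 0 κ) (nL 0 1 sg sg) A φ r 0 1 κo V Tw →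
    κo 0 = 1 → κo 3 = κ → (∀ k, V k ↔ k = 3) → (∀ k, Tw k ↔ k = 3) →
    S1L (coneM Ma) lam → S2L (coneM Ma) lam → A.1 ≤ -(4 + κ)

/-- base point of the plane -/
def pX (w0 R1 c : ℝ) : Fin 11 → ℝ := nat4 w0 R1 0 0 c c

theorem pX_X (w0 R1 κ sg c : ℝ) (z : ℝ × ℝ) :
    X (pX w0 R1 c) (nL 1 0 0 κ) (nL 0 1 sg sg) z =
      nat4 w0 R1 z.1 z.2 (sg * z.2 + c) (κ * z.1 + (sg * z.2 + c)) := by
  have := nat_X w0 R1 ![c, 0, c] ![κ, 0, 0] ![sg, 1, sg] z
  simp only [Matrix.cons_val, Fin.isValue] at this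
  rw [pX, this]
  congr 1 <;> ring

theorem bx_X (w0 R1 : ℝ) (θ : Fin 3 → ℝ) (sg c : ℝ) (z : ℝ × ℝ) :
    bx w0 R1 θ sg c z = X (pX w0 R1 c) (nL 1 0 0 (θ 2 - θ 0)) (nL 0 1 sg sg) z := by
  rw [pX_X]; rfl

theorem nL_nonneg {κ : ℝ} (hκ : 0 ≤ κ) (i : Fin 11) : 0 ≤ nL 1 0 0 κ i := by
  fin_cases i <;>
    simp only [nL, Matrix.cons_val, Fin.zero_eta, Fin.mk_one, Fin.reduceFinMk, Fin.isValue] <;>
    linarith

section plane

variable {w0 R R1 κ sg c : ℝ} {z : ℝ × ℝ}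

theorem pX_OQ (hbox : ∀ k, 0 < nat4 w0 R1 z.1 z.2 (sg * z.2 + c) (κ * z.1 + (sg * z.2 + c)) k ∧
      nat4 w0 R1 z.1 z.2 (sg * z.2 + c) (κ * z.1 + (sg * z.2 + c)) k < R)
    (hR : 2 * w0 + (κ * z.1 + (sg * z.2 + c)) < z.1 + R1) :
    OQ R (pX w0 R1 c) (nL 1 0 0 κ) (nL 0 1 sg sg) z := by
  have e1 : c + κ * z.1 + sg * z.2 = κ * z.1 + (sg * z.2 + c) := by ring
  have e2 : c + 0 * z.1 + sg * z.2 = sg * z.2 + c := by ring
  have e3 : 0 + 0 * z.1 + 1 * z.2 = z.2 := by ring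
  have := nat_OQ (w0 := w0) (R1 := R1) (R := R) (al := ![c, 0, c]) (be := ![κ, 0, 0])
    (ga := ![sg, 1, sg]) (z := z)
  simp only [Matrix.cons_val, Fin.isValue] at this
  rw [e1, e2, e3] at this
  exact this hbox hR

theorem pX_L (hbox : ∀ k, 0 < nat4 w0 R1 z.1 z.2 (sg * z.2 + c) (κ * z.1 + (sg * z.2 + c)) k ∧
      nat4 w0 R1 z.1 z.2 (sg * z.2 + c) (κ * z.1 + (sg * z.2 + c)) k < R)
    (hR : 2 * w0 + (κ * z.1 + (sg * z.2 + c)) < z.1 + R1) :
    coneM (actM monQ (pX w0 R1 c) (nL 1 0 0 κ) (nL 0 1 sg sg)) = coneN := by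
  rw [coneM_actM]
  ext d
  have e1 : c + κ * z.1 + sg * z.2 = κ * z.1 + (sg * z.2 + c) := by ring
  have := nat_memL (w0 := w0) (R1 := R1) (R := R) (al := ![c, 0, c]) (be := ![κ, 0, 0])
    (ga := ![sg, 1, sg]) (z := z) (c := d)
  simp only [Matrix.cons_val, Fin.isValue] at this
  refine this (pX_OQ hbox hR) ?_
  rw [e1]
  exact hR

end plane

section thick

variable {η η' : ℝ} {p : Par4} {D : Dat4} {I1 : ℕ → Finset (ℕ × ℝ)} {π : Equiv.Perm (Fin 3)}
  {eE fA fB : ℕ → ℕ × ℝ → ℝ} {V T : Fin 11 → Prop} {PD : Set (Fin 11 → ℝ)}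
  {w0 R T0 c₀ sg : ℝ} {ν own : (Fin 11 → ℝ) → ℝ}

/-- **the window input of the scalar half from the F-half** -/
theorem wp_of_FC2 (h : Thick η p D I1 π eE fA fB V T w0 R T0 PD ν own c₀)
    (hV : ∀ k, V k ↔ k = 3) (hT : T 3) (h1 : 0 < p.θ 1) (hκ : 0 < p.θ 2 - p.θ 0)
    {g : ℝ} {q : Fin 3 → ℝ}
    (H : Dat ν R (R - 1) w0 p.θ g 0 c₀ q (1 / 3) (2 / 3) η') (F : FC2 (p.θ 2 - p.θ 0) sg) :
    WP ν R (R - 1) w0 p.θ 0 (1 / 3) (2 / 3) η' sg := by
  intro c
  have h0 := H.η0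
  set κ := p.θ 2 - p.θ 0 with hκd
  set x0 := pX w0 (R - 1) c with hx0
  set a := nL 1 0 0 κ with ha
  set b := nL 0 1 sg sg with hb
  set Ω : Set (ℝ × ℝ) := {z | z ∈ (mw monQ).O (fun _ => 0) (fun _ => R) x0 a b ∧ 0 < z.1 ∧
    z.1 < 1} with hΩ
  have eX : ∀ z : ℝ × ℝ, X x0 a b z =
      nat4 w0 (R - 1) z.1 z.2 (sg * z.2 + c) (κ * z.1 + (sg * z.2 + c)) := fun z =>
    pX_X w0 (R - 1) κ sg c z
  have hown : ∀ z ∈ Ω, OwnP 0 w0 (ownQ p.θ w0 R V) T V (fun k => k = 3) (fun k => k = 3)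
      (X x0 a b z) := by
    rintro z ⟨hzO, hz0, hz1⟩
    have e0 : X x0 a b z 0 - w0 = z.1 := by
      rw [eX]; simp only [nat4, Matrix.cons_val]; ring
    have e3 : X x0 a b z 3 = ownQ p.θ w0 R V z.1 3 := by
      have hV3 : V 3 := (hV 3).2 rfl
      rw [eX]
      simp only [ownQ, if_pos hV3, pathQ, nat4, Matrix.cons_val]
      rw [if_neg (by decide), hκd]; ring
    refine ⟨by rw [e0]; exact hz0, by rw [e0]; exact hz1, fun k => ?_, fun k => ?_,
      fun k hk => ?_, by decide⟩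
    · rw [e0]
      by_cases hk0 : k = 0
      · subst hk0
        simp only [ownQ, if_true]
        rw [← e0]; linarith
      · by_cases hk3 : k = 3
        · subst hk3; exact e3.le
        · have : ¬ V k := fun hVk => hk3 ((hV k).1 hVk)
          simp only [ownQ, if_neg hk0, if_neg this]
          exact ((mem_mwO.1 hzO).1 k).2.le
    · rw [e0, hV k]
      constructor
      · rintro rfl; exact ⟨rfl, e3⟩
      · exact fun hk => hk.1
    · subst hk; exact ⟨hT, rfl⟩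
  have hae := ae_pt (nprof h) (ownF h) (ownPath p.θ w0 R V) (nL_nonneg hκ.le) (Ω := Ω)
    (b := b) (x0 := x0) (fun z hz => hz.1) hown
  filter_upwards [hae] with z hz a1 a2 a3 a4 a5 a6 a7 a8 d hd
  have a11 : (1 / 3 : ℝ) < z.1 := a1.1
  have a12 : z.1 < 2 / 3 := a1.2
  obtain ⟨y, hy⟩ : ∃ y, y = sg * z.2 + c - p.θ 2 / p.θ 1 * z.2 := ⟨_, rfl⟩
  rw [← hy] at a5 a6
  have hyc : sg * z.2 + c = p.θ 2 / p.θ 1 * z.2 + y := by rw [hy]; ring
  obtain ⟨n1, n2, n3⟩ := near_xx (η := η') h1 (v := z.1) (t := z.2) (y := y) a3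
    (by rw [abs_of_pos a5]; exact a6)
  rw [← hyc, ← hκd] at n3
  rw [← hyc] at n2
  have b1 := H.lo z.1 a1 _ _ _ n1 n2 n3
  have b2 := H.hi z.1 a1 _ _ _ n1 n2 n3
  have b3 := H.pw z.1 a1 _ n3
  have hbox : ∀ k, 0 < nat4 w0 (R - 1) z.1 z.2 (sg * z.2 + c) (κ * z.1 + (sg * z.2 + c)) k ∧
      nat4 w0 (R - 1) z.1 z.2 (sg * z.2 + c) (κ * z.1 + (sg * z.2 + c)) k < R := fun k => by
    have c1 := b1 k
    have c2 := b2 k
    rw [nt_eq] at c1 c2
    constructor <;> linarith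
  have hR : 2 * w0 + (κ * z.1 + (sg * z.2 + c)) < z.1 + (R - 1) := by linarith
  have hO : z ∈ (mw monQ).O (fun _ => 0) (fun _ => R) x0 a b := memO_monQ (pX_OQ hbox hR)
  have hL : coneM (actM monQ x0 a b) = coneN := pX_L hbox hR
  obtain ⟨D', hD, H1, H2⟩ := hz ⟨hO, by linarith, by linarith⟩
  obtain ⟨h', hpos, hh0⟩ := exists_seq
  obtain ⟨ψ, hψ, lam, ht⟩ := H1 h' hpos hh0
  obtain ⟨φ, r, -, -, ψ2, t, lam2, φ2, g2, g3, g4, g5, g6, g7, g8, -, g9⟩ :=
    H2 _ (fun l => hpos _) (hh0.comp hψ.tendsto_atTop) lam ht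
  have hψ2 : Tendsto ψ2 atTop atTop := tendsto_atTop_mono g2 tendsto_id
  have hpos2 : ∀ l, 0 < h' (ψ (ψ2 l)) * t l := fun l => mul_pos (hpos _) (g3 l)
  have hh2 : Tendsto (fun l => h' (ψ (ψ2 l)) * t l) atTop (𝓝 0) := by
    have h3 := ((hh0.comp hψ.tendsto_atTop).comp hψ2).mul g5
    simpa using h3
  have eb : bx w0 (R - 1) p.θ sg c z = X x0 a b z := bx_X w0 (R - 1) p.θ sg c z
  rw [eb] at a7 a8
  have s1 := tan_s1 a7 hpos2 hh2 g6
  have s2 := tan_s2 a8 hpos2 hh2 g6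
  rw [sub_zero] at g9
  have key := F D.B D.I I1 _ (fun n x => scl (uH D.B D.lev w0 n) (uA D.B D.lev D.w w0 n)
    (Wq638.uB D.B D.lev D.w w0 n) (uY D.B D.lev D.w w0 n) (incQ π D.L eE fA fB n x))
    (actM monQ x0 a b) 2 lam2 (D' (1, 0), D' (0, 1)) φ2 r (oS p.θ) (fun k => k = 3)
    (fun k => k = 3) (by norm_num) (fun n x y => rfl) hL (nprof h).ne g7 g8 g9 (by simp [oS, pathQ])
    (by simp [oS, pathQ, hκd]) (fun k => Iff.rfl) (fun k => Iff.rfl) s1 s2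
  have e4 : (fun v => ν (bx w0 (R - 1) p.θ sg c (v, z.2))) =
      fun v => ν (X x0 a b (v, z.2)) := by
    funext v
    rw [bx_X]
  rw [e4] at hd
  have e5 := hd.unique (hasDeriv_fst (f := fun z => ν (X x0 a b z)) hD)
  rw [e5]
  simp only at key
  linarith

/-- **row C2z of the thick table** -/
theorem caseC2z {η : ℝ} (hη : η ≤ 1 / 8) (hF : ∀ κ : ℝ, 0 < κ → ∃ sg : ℝ, FC2 κ sg) :
    Dead η pC2z := by
  intro p D I1 π eE fA fB V T w0 R T0 PD ν own c₀ h hp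
  obtain ⟨h2, h3, h4, hσ, hlt⟩ := hp
  have hη0 := h.tp.ok.η_pos
  have hθ1 := h.tp.ok.θ1
  have sl := h.tp.slots
  have hV : ∀ k, V k ↔ k = 3 := by
    intro k
    constructor
    · intro hk
      rcases (sl.vis k hk).1 with rfl | rfl | rfl
      · exact absurd hk h2
      · rfl
      · exact absurd hk h4
    · rintro rfl; exact h3
  have hT : T 3 := slot_T sl h3 (by decide)
  have hκ : 0 < p.θ 2 - p.θ 0 := by
    have := (sl.vis 3 h3).2
    simpa [btQ] using this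
  have C := Cx.of_thick0 h hη0
  obtain ⟨η', H⟩ := dat_of_cx C hlt (by linarith)
  obtain ⟨sg, F⟩ := hF _ hκ
  have q0 := h.tp.ok.q0.1
  have q1 := h.tp.ok.g0.2
  have q2 := h.tp.ok.q2.1
  refine z2_falseP H hθ1 hκ q0 q1 q2 (by linarith) ?_ sg (wp_of_FC2 h hV hT hθ1 hκ H F)
  have := Tb628.slack (κ := 0) (κ3 := p.θ 2 - p.θ 0) (i := 0) (j := 0) (k := 2) (l := 0)
    h.tp.ok hη0 hη h.tp.ok.θb (by positivity) (by
      have := le_abs_self (p.θ 2)
      have := neg_abs_le (p.θ 0)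
      linarith)
  linarith

end thick

end Crest.Agent.R136.Z2H57
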