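import Crest.Agent.R136.ExtG_779_Mg
import Crest.Agent.R136.DmL_829_Mg
import Crest.Agent.R136.PqG_464
import Crest.Agent.R136.NatT_550
import Crest.Agent.R136.HR10_829
import Crest.Agent.R136.LabW3_926
import Crest.Agent.R136.LabW6_926
import Crest.Agent.R138.KMs_630
import Crest.Agent.R136.TopB_550
import Crest.Agent.R136.C1e_865_Mg
import Crest.Agent.R136.C1sH_940
import Crest.Agent.R136.Z2j_57_Mg
import Crest.Agent.R136.Dl5_667_Mg
import Crest.Agent.R136.NmE1_107_Mg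
import Crest.Agent.R136.F2w_569
import Crest.Agent.R136.ReE8_436_Mg
import Crest.Agent.R136.Z2i_403_Mg
import Crest.Agent.R136.Z2j_403
import Crest.Agent.R136.LadG2_697

-- ▼ part R136/TL4_196
section

/-!
# R136, lightlike case of the thick table (helper196): assembly

**`dead_L_of`** : `Dead η pL` from `SeamExtZ η` and `SeamEnd η`; `SeamWin` = 66's `Gau66.seamWin`
(with 480, 560, 626), `SeamVis` = 831's `Lv831.seamVis`; **`dead_L_end`** : with 779's
`ExtG779.seamExtZ`, only `SeamEnd η` (882) is left.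
-/

set_option autoImplicit false
set_option linter.unusedVariables false

namespace Crest.Agent.R136.TL196

open Crest.Agent.R136.NatT550
open Crest.Agent.R136.TopB550

/-- **T.L** from two seams -/
theorem dead_L_of {η : ℝ} (hη : η < 1) (h2 : SeamExtZ η) (h4 : SeamEnd η) : Dead η pL :=
  dead_L (Gau66.seamWin hη) h2 (Lv831.seamVis hη.le) h4

/-- **T.L** from `SeamEnd` -/
theorem dead_L_end {η : ℝ} (hη : η < 1) (h4 : SeamEnd η) : Dead η pL :=
  dead_L_of hη ExtG779.seamExtZ h4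

end Crest.Agent.R136.TL196
end

-- ▼ part R136/End19_882
section

/-!
# R136 (S0187): END, part 19 (helper882): `seamEnd`

The two alternatives of `first` are the two forms of the geometry `geo4` (with and without the range
`wr, cr` of the widths of the test sheets).
-/

set_option autoImplicit false
set_option linter.unusedVariables false

open Finset Filter Topology

namespace Crest.Agent.R136.End882

open Crest.Agent.R138.Ex926
open Crest.Agent.R136.TL196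
open Crest.Agent.R138.Mk163 (zc zl rho alive own)

/-- **the seam END of the lightlike case** -/
theorem seamEnd {η₀ : ℝ} : TL196.SeamEnd η₀ := by
  intro c ok
  first
  | exact seamEnd_of ok (wl := fun n k => c.D.wr k n) (wh := fun n k => c.D.cr k n)
      (fun δ0 h0 => by
        obtain ⟨H, hH, -, hn⟩ := DmN829.dmax_ctx ok h0
        refine ⟨H, hH, ?_⟩
        filter_upwards [hn] with n hn m h0 h1 cl e c' w' q' a' hS hC
        exact hn m h0 h1 cl e c' w' q' a' hS ⟨hC.1.1, hC.1.2, hC.2⟩)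
      (fun C => DmN829.rng_ctx ok C)
  | refine seamEnd_of ok (wl := fun _ _ => 0)
      (wh := fun n k => c.D.w k n 0 * c.D.B.d n ^ (-(n : ℝ))) (fun δ0 h0 => ?_) (fun C => ?_)
    · obtain ⟨H, hH, -, hn⟩ := DmN829.dmax_ctx ok h0
      refine ⟨H, hH, ?_⟩
      filter_upwards [hn] with n hn m h0 h1 cl e c' w' q' a' hS hC
      exact hn m h0 h1 cl e c' w' q' a' hS hC.1
    · filter_upwards [Wid638.ord0 ok, U_le_atTop (eventually_ge_atTop (Nat.ceil C))] with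
        n ⟨P0, P1, P2, _⟩ hn k
      have hk : 0 < c.D.w k n 0 := by
        fin_cases k
        · exact P0
        · exact P1
        · exact P2
      have hd := c.D.B.pos n
      have hd1 := (c.D.B.lt n).le
      refine ⟨mul_nonneg (Real.rpow_nonneg hd.le _) hk.le, ?_⟩
      have h1 : 1 ≤ c.D.B.d n ^ (C + -(n : ℝ)) := by
        refine Real.one_le_rpow_of_pos_of_le_one_of_nonpos hd hd1 ?_
        have : C ≤ n := (Nat.le_ceil C).trans (by exact_mod_cast hn)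
        linarith
      calc c.D.w k n 0 ≤ c.D.w k n 0 * c.D.B.d n ^ (C + -(n : ℝ)) :=
            le_mul_of_one_le_right hk.le h1
        _ = _ := by rw [Real.rpow_add hd]; ring

end Crest.Agent.R136.End882
end

-- ▼ part R136/LabT1_371
section

/-!
# R136: END-LAB, the ambient sequence from `Thick`, part 1 (helper371)

Sizes of the marks of level `0` : the exponents `cAB, cBY, cRR` of `LabW3_926`.
-/

set_option autoImplicit false
set_option linter.unusedVariables false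

open Finset Filter Topology

namespace Crest.Agent.R136.LabT371

open Crest.Agent.R138.Ex926 (Base U)
open Crest.Agent.R138.Dp76 (dpow_pos dpow_add dpow_le dpow_le_one)
open Crest.Agent.R138.Mk163 (zc zl rho alive)
open Crest.Agent.R136.MkA627

section

variable {σ : Type*} {B : Base} {I : ℕ → Finset (ℕ × ℝ)} {G : Geo σ (Fin 3)} {lev : ℕ → ℚ → ℕ}
    {A : ℕ → ℝ} {g s : ℝ} {θ : Fin 3 → ℝ} {f : ℕ → ℚ → ℕ → ℤ → ℕ} {b : ℕ → ℚ → ℕ → σ}
    {vm : ℕ → ℚ → ℝ} {w : Fin 3 → ℕ → ℚ → ℝ}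

theorem rho_pos' (m : ℕ) : 0 < rho m := by
  unfold rho; positivity

/-- angular widths at level `0` against level `1` -/
theorem ang_bd {c Λ : ℝ → ℝ} (h : MkA B I G lev A c Λ (fun j v => θ j * (1 - v)) f b vm w)
    (k : Fin 3) {ε : ℝ} (hε : 0 < ε) : ∀ᶠ n in (U : Filter ℕ),
      B.d n ^ (θ k + ε) * (w k n 1 / rho (lev n 1)) ≤ w k n 0 / rho (lev n 0) ∧
      w k n 0 / rho (lev n 0) ≤ B.d n ^ (θ k - ε) * (w k n 1 / rho (lev n 1)) := by
  have h1 := (Metric.tendsto_nhds.1 (h.tau k 0 le_rfl zero_le_one)) ε hε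
  filter_upwards [h1, h.wpos k 0 le_rfl zero_le_one, h.wpos k 1 zero_le_one le_rfl] with n hn a0 a1
  have r0 := rho_pos' (lev n 0)
  have r1 := rho_pos' (lev n 1)
  have hL := B.L_pos n
  have hL2 : B.L n = -Real.log (B.d n) := rfl
  have e1 : θ k * (1 - ((0 : ℚ) : ℝ)) = θ k := by push_cast; ring
  rw [Real.dist_eq, e1, abs_lt] at hn
  have hlog : Real.log ((rho (lev n 0) / w k n 0) / (rho (lev n 1) / w k n 1)) =
      Real.log (w k n 1 / rho (lev n 1)) - Real.log (w k n 0 / rho (lev n 0)) := by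
    rw [Real.log_div (div_pos r0 a0).ne' (div_pos r1 a1).ne', Real.log_div r0.ne' a0.ne',
      Real.log_div r1.ne' a1.ne', Real.log_div a1.ne' r1.ne', Real.log_div a0.ne' r0.ne']
    ring
  rw [hlog] at hn
  have g1 : (Real.log (w k n 1 / rho (lev n 1)) - Real.log (w k n 0 / rho (lev n 0))) <
      (θ k + ε) * B.L n := by
    have := hn.2
    have h2 : (Real.log (w k n 1 / rho (lev n 1)) - Real.log (w k n 0 / rho (lev n 0))) / B.L n <
      θ k + ε := by linarith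
    rwa [div_lt_iff₀ hL] at h2
  have g2 : (θ k - ε) * B.L n <
      (Real.log (w k n 1 / rho (lev n 1)) - Real.log (w k n 0 / rho (lev n 0))) := by
    have := hn.1
    have h2 : θ k - ε <
      (Real.log (w k n 1 / rho (lev n 1)) - Real.log (w k n 0 / rho (lev n 0))) / B.L n := by
      linarith
    rwa [lt_div_iff₀ hL] at h2
  rw [hL2] at g1 g2
  have p0 := div_pos a0 r0
  have p1 := div_pos a1 r1
  constructor
  · rw [← Real.log_le_log_iff (mul_pos (dpow_pos B n _) p1) p0,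
      Real.log_mul (dpow_pos B n _).ne' p1.ne', Real.log_rpow (B.pos n)]
    linarith
  · rw [← Real.log_le_log_iff p0 (mul_pos (dpow_pos B n _) p1),
      Real.log_mul (dpow_pos B n _).ne' p1.ne', Real.log_rpow (B.pos n)]
    linarith

/-- comparison of two widths at level `0` -/
theorem cmp_bd {c Λ : ℝ → ℝ} (h : MkA B I G lev A c Λ (fun j v => θ j * (1 - v)) f b vm w)
    {i j : Fin 3} (h0 : ∀ᶠ n in (U : Filter ℕ), w i n 0 ≤ w j n 0)
    (h1 : ∀ᶠ n in (U : Filter ℕ), w i n 1 ≤ w j n 1) {ε : ℝ} (hε : 0 < ε) :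
    ∀ᶠ n in (U : Filter ℕ), w i n 0 ≤ B.d n ^ (max 0 (θ i - θ j) - ε) * w j n 0 := by
  rcases le_total (θ i - θ j) 0 with hle | hge
  · rw [max_eq_left hle]
    filter_upwards [h0, h.wpos j 0 le_rfl zero_le_one] with n g0 g1
    have h2 : (1 : ℝ) ≤ B.d n ^ (0 - ε) := by
      rw [zero_sub, Real.rpow_neg (B.pos n).le]
      rw [one_le_inv₀ (dpow_pos B n _)]
      exact dpow_le_one B n hε.le
    nlinarith
  · rw [max_eq_right hge]
    filter_upwards [ang_bd h i (half_pos hε), ang_bd h j (half_pos hε), h1,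
      h.wpos j 0 le_rfl zero_le_one, h.wpos j 1 zero_le_one le_rfl] with n gi gj g1 g2 g3
    have r0 := rho_pos' (lev n 0)
    have r1 := rho_pos' (lev n 1)
    have e1 : B.d n ^ (θ i - ε / 2) = B.d n ^ (θ i - θ j - ε) * B.d n ^ (θ j + ε / 2) := by
      rw [← dpow_add]; congr 1; ring
    have h3 : w i n 0 / rho (lev n 0) ≤ B.d n ^ (θ i - θ j - ε) * (w j n 0 / rho (lev n 0)) := by
      calc w i n 0 / rho (lev n 0) ≤ B.d n ^ (θ i - ε / 2) * (w i n 1 / rho (lev n 1)) := gi.2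
        _ ≤ B.d n ^ (θ i - ε / 2) * (w j n 1 / rho (lev n 1)) :=
          mul_le_mul_of_nonneg_left (div_le_div_of_nonneg_right g1 r1.le) (dpow_pos B n _).le
        _ = B.d n ^ (θ i - θ j - ε) * (B.d n ^ (θ j + ε / 2) * (w j n 1 / rho (lev n 1))) := by
          rw [e1]; ring
        _ ≤ B.d n ^ (θ i - θ j - ε) * (w j n 0 / rho (lev n 0)) :=
          mul_le_mul_of_nonneg_left gj.1 (dpow_pos B n _).le
    rw [← mul_div_assoc, div_le_div_iff_of_pos_right r0] at h3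
    exact h3

/-- the ratio of the scales of the levels `1` and `0` -/
theorem rho_bd {τ : Fin 3 → ℝ → ℝ}
    (h : MkA B I G lev A (fun v => g * v) (fun v => s * v) τ f b vm w) {ε : ℝ} (hε : 0 < ε) :
    ∀ᶠ n in (U : Filter ℕ), rho (lev n 1) ≤ B.d n ^ (1 - ε) * rho (lev n 0) := by
  filter_upwards [PqG464.pow_lev h 1 zero_le_one le_rfl hε] with n hn
  have h1 := hn.2
  have h2 : (0 : ℝ) < 2 ^ lev n 0 := by positivity
  have h3 : (0 : ℝ) < 2 ^ lev n 1 := by positivity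
  have h4 := dpow_pos B n (1 - ε)
  unfold rho
  have e1 : B.d n ^ (-(((1 : ℚ) : ℝ) - ε)) = (B.d n ^ (1 - ε))⁻¹ := by
    rw [Real.rpow_neg (B.pos n).le]; norm_num
  rw [e1] at h1
  have h5 : (2 : ℝ) ^ lev n 0 ≤ B.d n ^ (1 - ε) * 2 ^ lev n 1 := by
    have h6 := mul_le_mul_of_nonneg_left h1 h4.le
    have e2 : B.d n ^ (1 - ε) * ((2 : ℝ) ^ lev n 0 * (B.d n ^ (1 - ε))⁻¹) = 2 ^ lev n 0 := by
      field_simp
    linarith
  rw [mul_one_div, div_le_div_iff₀ h3 h2]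
  linarith

/-- resolution -/
theorem res_bd (h : MkA B I G lev A (fun v => g * v) (fun v => s * v)
    (fun j v => θ j * (1 - v)) f b vm w) {k : Fin 3} {r : ℕ → ℝ}
    (h0 : ∀ᶠ n in (U : Filter ℕ), r n ≤ w k n 0) (h1 : ∀ᶠ n in (U : Filter ℕ), r n ≤ w k n 1)
    {ε : ℝ} (hε : 0 < ε) :
    ∀ᶠ n in (U : Filter ℕ), r n ≤ B.d n ^ (max 0 (1 - θ k) - ε) * w k n 0 := by
  rcases le_total (1 - θ k) 0 with hle | hge
  · rw [max_eq_left hle]
    filter_upwards [h0, h.wpos k 0 le_rfl zero_le_one] with n g0 g1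
    have h2 : (1 : ℝ) ≤ B.d n ^ (0 - ε) := by
      rw [zero_sub, Real.rpow_neg (B.pos n).le]
      rw [one_le_inv₀ (dpow_pos B n _)]
      exact dpow_le_one B n hε.le
    nlinarith
  · rw [max_eq_right hge]
    filter_upwards [ang_bd h k (half_pos hε), rho_bd h (half_pos hε), h1,
      h.wpos k 0 le_rfl zero_le_one, h.wpos k 1 zero_le_one le_rfl] with n gk gr g1 g2 g3
    have r0 := rho_pos' (lev n 0)
    have r1 := rho_pos' (lev n 1)
    have dk := dpow_pos B n (θ k + ε / 2)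
    have h3 : B.d n ^ (θ k + ε / 2) * w k n 1 * rho (lev n 0) ≤ w k n 0 * rho (lev n 1) := by
      have := gk.1
      rw [← mul_div_assoc, div_le_div_iff₀ r1 r0] at this
      exact this
    have h4 : w k n 0 * rho (lev n 1) ≤ w k n 0 * (B.d n ^ (1 - ε / 2) * rho (lev n 0)) :=
      mul_le_mul_of_nonneg_left gr g2.le
    have h5 : B.d n ^ (θ k + ε / 2) * w k n 1 ≤ w k n 0 * B.d n ^ (1 - ε / 2) := by
      have h6 : B.d n ^ (θ k + ε / 2) * w k n 1 * rho (lev n 0) ≤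
          w k n 0 * B.d n ^ (1 - ε / 2) * rho (lev n 0) := by linarith
      exact le_of_mul_le_mul_right h6 r0
    have e1 : B.d n ^ (1 - ε / 2) = B.d n ^ (θ k + ε / 2) * B.d n ^ (1 - θ k - ε) := by
      rw [← dpow_add]; congr 1; ring
    have h7 : w k n 1 ≤ B.d n ^ (1 - θ k - ε) * w k n 0 := by
      refine le_of_mul_le_mul_left ?_ dk
      calc B.d n ^ (θ k + ε / 2) * w k n 1 ≤ w k n 0 * B.d n ^ (1 - ε / 2) := h5
        _ = B.d n ^ (θ k + ε / 2) * (B.d n ^ (1 - θ k - ε) * w k n 0) := by rw [e1]; ring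
    exact g1.trans h7

/-- cap -/
theorem cap_bd {c Λ : ℝ → ℝ} (h : MkA B I G lev A c Λ (fun j v => θ j * (1 - v)) f b vm w)
    {k : Fin 3} (h1 : ∀ᶠ n in (U : Filter ℕ), w k n 1 ≤ rho (lev n 1)) {ε : ℝ} (hε : 0 < ε) :
    ∀ᶠ n in (U : Filter ℕ), w k n 0 ≤ B.d n ^ (θ k - ε) * rho (lev n 0) := by
  filter_upwards [ang_bd h k hε, h1] with n gk g1
  have r0 := rho_pos' (lev n 0)
  have r1 := rho_pos' (lev n 1)
  have h2 : w k n 1 / rho (lev n 1) ≤ 1 := by rw [div_le_one r1]; exact g1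
  have h3 := gk.2.trans (mul_le_mul_of_nonneg_left h2 (dpow_pos B n _).le)
  rw [mul_one, div_le_iff₀ r0] at h3
  exact h3

end

end Crest.Agent.R136.LabT371
end

-- ▼ part R136/LabH_371
section

/-!
# R136: END-LAB, the ambient sequence from `Thick`, part 2 (helper371)

`labH_of_thick` : `Lab926.LabH` for the data of `NatT550.Thick` (`J1` v3c).
-/

set_option autoImplicit false
set_option linter.unusedVariables false

open Finset Filter Topology

namespace Crest.Agent.R136.LabT371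

open Crest.Agent.R138.Ex926 (Base U)
open Crest.Agent.R138.Dp76 (dpow_pos dpow_add dpow_le dpow_le_one)
open Crest.Agent.R138.Mk163 (zc zl rho alive)
open Crest.Agent.R136.MkA627 Crest.Agent.R136.Sh605 Crest.Agent.R136.K4
open Crest.Agent.R136.HR829 (Rq)
open Crest.Agent.R136.Top484 Crest.Agent.R136.NatT550
open Crest.Agent.R136.Wq638

section

variable {B : Base} {I : ℕ → Finset (ℕ × ℝ)} {L : ℕ → ℕ → Ln4} {r0 : ℕ → ℝ}
    {wr cr : Fin 3 → ℕ → ℝ} {q : Fin 3 → ℝ} {lev : ℕ → ℚ → ℕ} {A : ℕ → ℝ} {c Λ : ℝ → ℝ}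
    {τ : Fin 3 → ℝ → ℝ} {f : ℕ → ℚ → ℕ → ℤ → ℕ} {b : ℕ → ℚ → ℕ → Plk4}
    {vm : ℕ → ℚ → ℝ} {w : Fin 3 → ℕ → ℚ → ℝ}

/-- one mark of level `v` -/
theorem mark_bd (h : MkA B I (geo4 L r0 wr cr q) lev A c Λ τ f b vm w) {v : ℚ} (h0 : 0 ≤ v)
    (h1 : v ≤ 1) : ∀ᶠ n in (U : Filter ℕ),
      r0 n ≤ w 0 n v ∧ w 0 n v ≤ w 2 n v ∧ w 2 n v ≤ w 1 n v ∧ w 1 n v ≤ rho (lev n v) ∧
      (∀ k : Fin 3, wr k n ≤ w k n v ∧ w k n v ≤ cr k n) ∧
      vm n v = w 0 n v * w 2 n v * w 1 n v *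
        Rq q (rho (lev n v)) (w 0 n v) (w 2 n v) (w 1 n v) := by
  filter_upwards [h.ne, h.mark v h0 h1] with n hne hm
  obtain ⟨x, hx⟩ := hne
  have hal : x.1 ∈ alive (I n) (lev n v) (zc (lev n v) x.2) :=
    Crest.Agent.R138.MkRef627.mem_alive.2 ⟨x, hx, rfl, rfl⟩
  obtain ⟨-, ⟨h2, h3, h4⟩, h5, h6⟩ := hm _ _ hal
  have e0 : (b n v (f n v x.1 (zc (lev n v) x.2))).a = w 0 n v := h6 0
  have e1 : (b n v (f n v x.1 (zc (lev n v) x.2))).w 1 = w 1 n v := h6 1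
  have e2 : (b n v (f n v x.1 (zc (lev n v) x.2))).w 2 = w 2 n v := h6 2
  refine ⟨by rw [← e0]; exact h2.r0_le, by rw [← e0, ← e2]; exact h2.a_le,
    by rw [← e1, ← e2]; exact h2.w_le, by rw [← e1]; exact h3, fun k => ?_, ?_⟩
  · rw [← h6 k]; exact h4 k
  · rw [← h5, ← e0, ← e1, ← e2]; rfl

open Classical in
/-- D-max, sheet by sheet -/
theorem count_le (h : MkA B I (geo4 L r0 wr cr q) lev A c Λ τ f b vm w) {v : ℚ} (h0 : 0 ≤ v)
    (h1 : v ≤ 1) {ε : ℝ} (hε : 0 < ε) : ∀ᶠ n in (U : Filter ℕ), ∀ (J : ℤ) (e : Fin 3 → V3)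
      (cc : Ln4) (ww : V3) (qq : ℝ → V3 → ℝ) (a : ℝ),
      ShN e cc ww qq a (zl (lev n v) J) (rho (lev n v)) (r0 n) → ww 1 ≤ rho (lev n v) →
      (∀ k : Fin 3, wr k n ≤ ![a, ww 1, ww 2] k ∧ ![a, ww 1, ww 2] k ≤ cr k n) →
      (((alive (I n) (lev n v) J).filter fun t =>
        InSheet (L n t) e cc ww qq a (zl (lev n v) J) (rho (lev n v))).card : ℝ) ≤
        B.d n ^ (-ε) * ampA B A c n v *
          (a * ww 2 * ww 1 * Rq q (rho (lev n v)) a (ww 2) (ww 1)) := by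
  filter_upwards [h.dmax v h0 h1 ε hε] with n hn J e cc ww qq a hs hw hk
  exact hn J ⟨J, e, cc, ww, qq, a⟩ ⟨hs, hw, hk⟩

end

section

variable {η : ℝ} {p : Par4} {D : Dat4} {π : Equiv.Perm (Fin 3)}
    {eE fA fB : ℕ → ℕ × ℝ → ℝ} {V T : Fin 11 → Prop} {w0 R T0 : ℝ} {PD : Set (Fin 11 → ℝ)}

/-- own path below `R` -/
theorem ownQ_le {θ : Fin 3 → ℝ} (h : BigQ θ w0 R T0) (V : Fin 11 → Prop) {v : ℝ} (h0 : 0 ≤ v)
    (h1 : v ≤ 1) (k : Fin 11) : ownQ θ w0 R V v k ≤ R := by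
  unfold ownQ
  by_cases hk : k = 0
  · rw [if_pos hk]
    have := h.wR
    linarith
  · rw [if_neg hk]
    by_cases hV : V k
    · rw [if_pos hV]; exact (h.path_bd h0 h1 k).2
    · rw [if_neg hV]

/-- a positive resolution -/
noncomputable def rrD (p : Par4) (D : Dat4) (n : ℕ) : ℝ :=
  max (max (D.r0 n) (D.wr 0 n))
    (if 0 < D.w 0 n 0 then D.B.d n ^ max 0 (1 - p.θ 0) * D.w 0 n 0 else 1)

theorem rrD_pos (p : Par4) (D : Dat4) (n : ℕ) : 0 < rrD p D n := by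
  refine lt_of_lt_of_le ?_ (le_max_right _ _)
  by_cases h : 0 < D.w 0 n 0
  · rw [if_pos h]; exact mul_pos (dpow_pos _ n _) h
  · rw [if_neg h]; exact one_pos

theorem r0_le_rrD (p : Par4) (D : Dat4) (n : ℕ) : D.r0 n ≤ rrD p D n :=
  (le_max_left _ _).trans (le_max_left _ _)
theorem wr0_le_rrD (p : Par4) (D : Dat4) (n : ℕ) : D.wr 0 n ≤ rrD p D n :=
  (le_max_right _ _).trans (le_max_left _ _)

variable (h : ThickPre η p D π eE fA fB V T w0 R T0 PD)
include h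

theorem tp_wpos : ∀ᶠ n in (U : Filter ℕ), ∀ j, 0 < D.w j n 0 :=
  Filter.eventually_all.2 fun j => h.pre.mka.wpos j 0 le_rfl zero_le_one

theorem tp_wab {ε : ℝ} (hε : 0 < ε) : ∀ᶠ n in (U : Filter ℕ),
    D.w 2 n 0 ≤ D.B.d n ^ (max 0 (p.θ 2 - p.θ 1) - ε) * D.w 1 n 0 :=
  cmp_bd h.pre.mka (by filter_upwards [mark_bd h.pre.mka le_rfl zero_le_one] with n a using a.2.2.1)
    (by filter_upwards [mark_bd h.pre.mka zero_le_one le_rfl] with n a using a.2.2.1) hε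

theorem tp_wby {ε : ℝ} (hε : 0 < ε) : ∀ᶠ n in (U : Filter ℕ),
    D.w 0 n 0 ≤ D.B.d n ^ (max 0 (p.θ 0 - p.θ 2) - ε) * D.w 2 n 0 :=
  cmp_bd h.pre.mka (by filter_upwards [mark_bd h.pre.mka le_rfl zero_le_one] with n a using a.2.1)
    (by filter_upwards [mark_bd h.pre.mka zero_le_one le_rfl] with n a using a.2.1) hε

theorem tp_wres {ε : ℝ} (hε : 0 < ε) : ∀ᶠ n in (U : Filter ℕ),
    rrD p D n ≤ D.B.d n ^ (max 0 (1 - p.θ 0) - ε) * D.w 0 n 0 := by
  have h0 := mark_bd h.pre.mka le_rfl zero_le_one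
  have h1 := mark_bd h.pre.mka zero_le_one le_rfl
  have a1 := res_bd (k := 0) h.pre.mka (r := D.r0) (h0.mono fun n a => a.1)
    (h1.mono fun n a => a.1) hε
  have a2 := res_bd (k := 0) h.pre.mka (r := D.wr 0) (h0.mono fun n a => (a.2.2.2.2.1 0).1)
    (h1.mono fun n a => (a.2.2.2.2.1 0).1) hε
  filter_upwards [a1, a2, tp_wpos h] with n b1 b2 b3
  refine max_le (max_le b1 b2) ?_
  rw [if_pos (b3 0)]
  exact mul_le_mul_of_nonneg_right (dpow_le D.B n (by linarith)) (b3 0).le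

theorem tp_wcap {ε : ℝ} (hε : 0 < ε) : ∀ᶠ n in (U : Filter ℕ),
    D.w 1 n 0 ≤ D.B.d n ^ (p.θ 1 - ε) * rho (D.lev n 0) :=
  cap_bd h.pre.mka (by filter_upwards [mark_bd h.pre.mka zero_le_one le_rfl] with n a
    using a.2.2.2.1) hε

theorem tp_wvm : ∀ᶠ n in (U : Filter ℕ), D.vm n 0 = D.w 0 n 0 * D.w 2 n 0 * D.w 1 n 0 *
    Rq p.q (rho (D.lev n 0)) (D.w 0 n 0) (D.w 2 n 0) (D.w 1 n 0) := by
  filter_upwards [mark_bd h.pre.mka le_rfl zero_le_one] with n a using a.2.2.2.2.2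

theorem tp_m (k : Fin 3) (C : ℝ) : ∀ᶠ n in (U : Filter ℕ),
    D.w k n 0 ≤ D.B.d n ^ C * D.cr k n := (h.wrs C k 0 le_rfl zero_le_one).mono fun n a => a.2

theorem tp_o (k : Fin 3) (C : ℝ) : ∀ᶠ n in (U : Filter ℕ),
    D.wr k n ≤ D.B.d n ^ C * D.w k n 0 := (h.wrs C k 0 le_rfl zero_le_one).mono fun n a => a.1

theorem tp_q0 : ∀ j, 0 ≤ p.q j := by
  intro j
  fin_cases j
  · exact h.ok.q0.1
  · exact h.ok.g0.2.le
  · exact h.ok.q2.1.le

open Classical in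
theorem tp_dmax {v : ℚ} (h0 : 0 ≤ v) (h1 : v ≤ 1) {ε : ℝ} (hε : 0 < ε) :
    ∀ᶠ n in (U : Filter ℕ), ∀ J : ℤ,
      Lab926.DMX (alive (D.I n) (D.lev n v) J) (D.L n) (zl (D.lev n v) J) (rho (D.lev n v))
        (D.B.d n ^ (-ε) * ampA D.B D.A (fun v => p.g * v) n v) (Rq p.q (rho (D.lev n v)))
        (rrD p D n) (D.cr 0 n) (min (rho (D.lev n v)) (D.cr 1 n)) (D.cr 2 n) (D.wr 1 n)
        (D.wr 2 n) := by
  filter_upwards [count_le h.pre.mka h0 h1 hε] with n hn J e c w q a hs hm0 hm1 hm2 ho1 ho2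
  exact hn J e c w q a { hs with r0_le := (r0_le_rrD p D n).trans hs.r0_le }
    (hm1.trans (min_le_left _ _)) fun k => by
      fin_cases k
      · exact ⟨(wr0_le_rrD p D n).trans hs.r0_le, hm0⟩
      · exact ⟨ho1, hm1.trans (min_le_right _ _)⟩
      · exact ⟨ho2, hm2⟩

end

/-- **the ambient sequence of END-LAB from the thick branch** -/
theorem labH_of_thick {η : ℝ} {p : Par4} {D : Dat4} {I1 : ℕ → Finset (ℕ × ℝ)}
    {π : Equiv.Perm (Fin 3)} {eE fA fB : ℕ → ℕ × ℝ → ℝ} {V T : Fin 11 → Prop} {w0 R T0 : ℝ}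
    {PD : Set (Fin 11 → ℝ)} {ν own : (Fin 11 → ℝ) → ℝ} {c₀ : ℝ}
    (h : Thick η p D I1 π eE fA fB V T w0 R T0 PD ν own c₀) :
    Lab926.LabH D.B D.I I1 (D.G p) D.L π eE fA fB D.lev D.A p.g (fun j v => p.θ j * (1 - v))
      D.f D.b D.vm D.w p.q p.θ w0 R T0 V T PD (DQ p.g 0 p.q w0) (pathQ p.θ w0 R)
      (EQ p.θ p.g 0 p.q w0 R) ν own c₀
      ⟨rrD p D, D.cr 0, D.cr 1, D.cr 2, D.wr 1, D.wr 2⟩ where
  pre := h.tp.pre
  ext := h.ext
  comb := h.comb
  flag := h.tp.flag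
  q0 := tp_q0 h.tp
  big := h.tp.big
  oR := fun v h0 h1 k => ownQ_le h.tp.big V h0 h1 k
  θ1 := h.tp.ok.θ1
  rr0 := rrD_pos p D
  dmax := fun v h0 h1 ε hε => tp_dmax h.tp h0 h1 hε
  wpos := tp_wpos h.tp
  wab := fun ε hε => tp_wab h.tp hε
  wby := fun ε hε => tp_wby h.tp hε
  wres := fun ε hε => tp_wres h.tp hε
  wcap := fun ε hε => tp_wcap h.tp hε
  wvm := tp_wvm h.tp
  wm0 := tp_m h.tp 0
  wm1 := tp_m h.tp 1
  wm2 := tp_m h.tp 2
  wo1 := tp_o h.tp 1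
  wo2 := tp_o h.tp 2

end Crest.Agent.R136.LabT371
end

-- ▼ part R136/LabW7_926
section

/-!
# R136: END-LAB, window side, part 7 (helper926)

Bodies: `WinH.bodyIn` = number of incidences of the family in a slab cut with a rotated plank.
-/

set_option autoImplicit false
set_option linter.unusedSectionVars false
set_option linter.unusedVariables false

open Filter Topology

namespace Crest.Agent.R136.Lab926

open Finset
open Crest.Agent.R138.Ex926
open Crest.Agent.R138.Mk163 (zc zl rho alive)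
open Crest.Agent.R138.MkRef627 (lc kc mem_alive)
open Crest.Agent.R136.Sh605
open Crest.Agent.R136.HR829 (Rq Rq_nonneg Rq_mono Rq_scale Wd)
open Crest.Agent.R136.End403
open Crest.Agent.R136.Net191
open Crest.Agent.R136.NetQ186
open Crest.Agent.R136.GeoQ186
open Crest.Agent.R136.MkA627
open Crest.Agent.R136.Wq638
open Crest.Agent.R136.Lq196
open Crest.Agent.R136.Qg926

/-- frame data with one loss `Y` -/
theorem frOk_inst {π : Equiv.Perm (Fin 3)} {e fa fb W1 W2 W3 α β S Y r s σ : ℝ} (he : |e| ≤ 1)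
    (hfa : |fa| ≤ 1) (hfb : |fb| ≤ 1) (hW1 : 0 < W1) (hW2 : 0 < W2) (hW3 : 0 < W3) (hS : 1 ≤ S)
    (hSY : S ≤ Y) (hY : 4 ≤ Y) (hα : |α| ≤ Y) (hβ : |β| ≤ Y) (h1 : W3 ≤ S * W2)
    (h2 : W2 ≤ S * W1) (hs1 : s ≤ 1) (hσ : 0 < σ) (hσs : σ ≤ s) (hr : 0 ≤ r)
    (r1 : r ≤ S * W3 * s) (r2 : W3 * s ≤ S * W2 * σ) :
    FrOk (gχ π e fa fb W1 W2 W3 α β (Y ^ 11)) (gψ π e W1 W2 (Y ^ 11))
      (gφ π e fa fb W1 W2 W3 α β (Y ^ 11)) (fpv π (fr fa fb e))
      ![0, (S ^ 3) ^ 2 * W1, S ^ 3 * W2] W3 (Y ^ 11 * (5 + |α| + |β|)) r s σ (σ * W1)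
      (σ * W2 / 2) := by
  have hS0 : 0 < S := by linarith
  have hY0 : 0 < Y := by linarith
  have hs : 0 < s := hσ.trans_le hσs
  have hS13 : S ≤ S ^ 3 := by
    calc S = S ^ 1 := (pow_one S).symm
      _ ≤ S ^ 3 := pow_le_pow_right₀ hS (by norm_num)
  have hS23 : S ^ 2 ≤ S ^ 3 := pow_le_pow_right₀ hS (by norm_num)
  have h3Y : S ^ 3 ≤ Y ^ 3 := pow_le_pow_left₀ hS0.le hSY 3
  have q1 : r ≤ S ^ 2 * W2 * σ := by
    calc r ≤ S * W3 * s := r1
      _ = S * (W3 * s) := by ring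
      _ ≤ S * (S * W2 * σ) := mul_le_mul_of_nonneg_left r2 hS0.le
      _ = _ := by ring
  have q2 : r ≤ S ^ 3 * W1 * σ := by
    calc r ≤ S ^ 2 * W2 * σ := q1
      _ ≤ S ^ 2 * (S * W1) * σ := by gcongr
      _ = _ := by ring
  refine frOk_of he hfa hfb hW1 hW2 hW3 (one_le_pow₀ hS) ?_ ?_ hs hs1 hσ hr ?_ q2 ?_ ?_
    (by positivity) (by positivity) ?_ le_rfl ?_ ?_
  · exact h1.trans (mul_le_mul_of_nonneg_right hS13 hW2.le)
  · exact h2.trans (mul_le_mul_of_nonneg_right hS13 hW1.le)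
  · exact r1.trans (by gcongr)
  · exact q1.trans (by gcongr)
  · have a1 : |α| * (S ^ 3) ^ 2 ≤ Y * (Y ^ 3) ^ 2 := by
      have := pow_le_pow_left₀ (by positivity) h3Y 2
      exact mul_le_mul hα this (by positivity) hY0.le
    have a2 : 2 * |β| * S ^ 3 ≤ 2 * Y * Y ^ 3 := by
      have := mul_le_mul hβ h3Y (by positivity) hY0.le
      linarith
    have a3 : (2 : ℝ) ≤ Y ^ 7 := by
      calc (2 : ℝ) ≤ Y ^ 1 := by linarith
        _ ≤ Y ^ 7 := pow_le_pow_right₀ (by linarith) (by norm_num)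
    have a4 : 2 * Y * Y ^ 3 ≤ Y ^ 7 := by
      have e1 : 2 * Y * Y ^ 3 = 2 * Y ^ 4 := by ring
      have e2 : Y ^ 7 = Y ^ 3 * Y ^ 4 := by ring
      have e3 : (2 : ℝ) ≤ Y ^ 3 := by
        calc (2 : ℝ) ≤ Y ^ 1 := by linarith
          _ ≤ Y ^ 3 := pow_le_pow_right₀ (by linarith) (by norm_num)
      rw [e1, e2]
      exact mul_le_mul_of_nonneg_right e3 (by positivity)
    have a5 : Y * (Y ^ 3) ^ 2 = Y ^ 7 := by ring
    have a6 : 2 + |α| * (S ^ 3) ^ 2 + 2 * |β| * S ^ 3 ≤ 3 * Y ^ 7 := by linarith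
    have a7 : 0 < Y ^ 10 := by positivity
    calc (2 + |α| * (S ^ 3) ^ 2 + 2 * |β| * S ^ 3) * S ^ 3 ≤ (3 * Y ^ 7) * Y ^ 3 :=
          mul_le_mul a6 h3Y (by positivity) (by positivity)
      _ = 3 * Y ^ 10 := by ring
      _ ≤ Y * Y ^ 10 := mul_le_mul_of_nonneg_right (by linarith) a7.le
      _ = Y ^ 11 := by ring
  · exact mul_le_mul_of_nonneg_right hσs hW1.le
  · have := mul_le_mul_of_nonneg_right hσs hW2.le
    linarith
  · have : 0 < σ * W2 := by positivity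
    linarith

/-- a neighbour of a point of the body lies in the body -/
theorem bod_near {π : Equiv.Perm (Fin 3)} {e fa fb W1 W2 W3 α β K K0 s η α' β' : ℝ}
    {u : Fin 2 → ℝ} (hK0 : 1 ≤ K0) (hK : 2 * K0 ≤ K) (hs : 0 < s) (hu : ∀ j, 0 < u j)
    (hα' : |α'| ≤ 1) (hβ' : |β'| ≤ 1) {x i j : Ln4} {z : ℝ}
    (n1 : |dt (fn1 π W1) (j.pos z - i.pos z)| ≤ η) (n2 : |dt (fn2 π e W2) (j.pos z - i.pos z)| ≤ η)
    (n3 : |dt (fn3 π fa fb W3) (j.pos z - i.pos z)| ≤ η)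
    (hη : (1 + |α| + |β|) * η ≤ 2 * s) (hηu : ∀ j, 2 * η ≤ 16 * u j)
    (g1 : |dt (gχ π e fa fb W1 W2 W3 α β 1) (i.pos z - x.pos z)| ≤ K0 * (2 * s))
    (g2 : |α' * dt (gψ π e W1 W2 1 0) (i.pos z - x.pos z) +
      β' * dt (gψ π e W1 W2 1 1) (i.pos z - x.pos z)| ≤ K0 * (16 * u 0))
    (g3 : |-β' * dt (gψ π e W1 W2 1 0) (i.pos z - x.pos z) +
      α' * dt (gψ π e W1 W2 1 1) (i.pos z - x.pos z)| ≤ K0 * (16 * u 1)) :
    Bod (gχ π e fa fb W1 W2 W3 α β K) (gψ π e W1 W2 K) α' β' s u x j z := by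
  have hKp : 0 < K := by linarith
  have hη0 : 0 ≤ η := (abs_nonneg _).trans n1
  have e0 : j.pos z - x.pos z = (j.pos z - i.pos z) + (i.pos z - x.pos z) := by abel
  have dadd : ∀ a b c : V3, dt a (b + c) = dt a b + dt a c := fun a b c => by
    simp only [dt, Pi.add_apply]; ring
  rw [dt_gχ, one_div_one, one_mul] at g1
  rw [dt_gψ0, dt_gψ1, one_div_one, one_mul, one_mul] at g2 g3
  set P1 := dt (fn1 π W1) (j.pos z - i.pos z)
  set P2 := dt (fn2 π e W2) (j.pos z - i.pos z)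
  set P3 := dt (fn3 π fa fb W3) (j.pos z - i.pos z)
  set Q1 := dt (fn1 π W1) (i.pos z - x.pos z)
  set Q2 := dt (fn2 π e W2) (i.pos z - x.pos z)
  set Q3 := dt (fn3 π fa fb W3) (i.pos z - x.pos z)
  have fin : ∀ {a b : ℝ} {t : ℝ}, 0 < t → |a| ≤ t → |b| ≤ K0 * t →
      |1 / K * (a + b)| ≤ t := fun {a b t} ht ha hb => by
    rw [abs_mul, abs_of_pos (by positivity : 0 < 1 / K), one_div_mul_eq_div, div_le_iff₀ hKp]
    have h1 := (abs_add_le a b).trans (add_le_add ha hb)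
    have h2 : t ≤ K0 * t := le_mul_of_one_le_left ht.le hK0
    have h3 : 2 * K0 * t ≤ K * t := mul_le_mul_of_nonneg_right hK ht.le
    linarith
  have m : ∀ {a b x y : ℝ}, |a| ≤ x → |b| ≤ y → |a * b| ≤ x * y := fun {a b x y} ha hb => by
    rw [abs_mul]
    exact mul_le_mul ha hb (abs_nonneg _) ((abs_nonneg _).trans ha)
  have ad : ∀ {a b x y : ℝ}, |a| ≤ x → |b| ≤ y → |a + b| ≤ x + y := fun {a b x y} ha hb =>
    (abs_add_le _ _).trans (add_le_add ha hb)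
  have sb : ∀ {a b x y : ℝ}, |a| ≤ x → |b| ≤ y → |a - b| ≤ x + y := fun {a b x y} ha hb =>
    (abs_sub _ _).trans (add_le_add ha hb)
  refine ⟨?_, ?_, ?_⟩
  · rw [dt_gχ, e0, dadd, dadd, dadd]
    have h1 : |P3 - α * P1 - β * P2| ≤ 2 * s := by
      refine (sb (sb n3 (m (le_refl |α|) n1)) (m (le_refl |β|) n2)).trans ?_
      linarith
    have h2 := fin (by positivity : 0 < 2 * s) h1 g1
    refine le_trans (le_of_eq ?_) h2
    congr 1; ring
  · rw [dt_gψ0, dt_gψ1, e0, dadd, dadd]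
    have h1 : |α' * P1 + β' * P2| ≤ 16 * u 0 := by
      refine (ad (m hα' n1) (m hβ' n2)).trans ?_
      have := hηu 0
      linarith
    have h2 := fin (by have := hu 0; positivity : 0 < 16 * u 0) h1 g2
    refine le_trans (le_of_eq ?_) h2
    congr 1; ring
  · rw [dt_gψ0, dt_gψ1, e0, dadd, dadd]
    have h1 : |-β' * P1 + α' * P2| ≤ 16 * u 1 := by
      have hβn : |-β'| ≤ 1 := by rwa [abs_neg]
      refine (ad (m hβn n1) (m hα' n2)).trans ?_
      have := hηu 1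
      linarith
    have h2 := fin (by have := hu 1; positivity : 0 < 16 * u 1) h1 g3
    refine le_trans (le_of_eq ?_) h2
    congr 1; ring

/-- volume of the class of level `v` -/
theorem vol_bd {q : Fin 3 → ℝ} (hq : ∀ j, 0 ≤ q j) {d a0 a1 a2 ρ0 ρ v t1 t2 t3 : ℝ} (hd : 0 < d)
    (h0 : 0 < a0) (h1 : 0 < a1) (h2 : 0 < a2) (hρ0 : 0 < ρ0) (hρ : ρ0 * d ^ v ≤ ρ) :
    (a0 * d ^ (v + t3)) * (a2 * d ^ (v + t2)) * (a1 * d ^ (v + t1)) *
      Rq q ρ (a0 * d ^ (v + t3)) (a2 * d ^ (v + t2)) (a1 * d ^ (v + t1)) ≤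
      (a0 * a2 * a1 * Rq q ρ0 a0 a2 a1) *
        d ^ ((v + t3) + (v + t2) + (v + t1) + (q 0 * t3 + q 1 * t1 + q 2 * t2)) := by
  have hp : ∀ t : ℝ, 0 < d ^ t := fun t => Real.rpow_pos_of_pos hd t
  have hρp : 0 < ρ := (mul_pos hρ0 (hp v)).trans_le hρ
  have key : ∀ (a t : ℝ) (j : Fin 3), 0 < a → (a * d ^ (v + t) / ρ) ^ q j ≤
      (a / ρ0) ^ q j * d ^ (q j * t) := fun a t j ha => by
    have e1 : d ^ (q j * t) = (d ^ t) ^ q j := by
      rw [← Real.rpow_mul hd.le, mul_comm]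
    rw [e1, ← Real.mul_rpow (by positivity) (hp t).le]
    refine Real.rpow_le_rpow (by have := hp (v + t); positivity) ?_ (hq j)
    rw [Real.rpow_add hd, div_mul_eq_mul_div, div_le_div_iff₀ hρp hρ0]
    have := mul_le_mul_of_nonneg_left hρ (mul_pos ha (hp t)).le
    calc a * (d ^ v * d ^ t) * ρ0 = a * d ^ t * (ρ0 * d ^ v) := by ring
      _ ≤ a * d ^ t * ρ := this
  have k0 := key a0 t3 0 h0
  have k1 := key a1 t1 1 h1
  have k2 := key a2 t2 2 h2
  have e1 : d ^ ((v + t3) + (v + t2) + (v + t1) + (q 0 * t3 + q 1 * t1 + q 2 * t2)) =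
      (d ^ (v + t3) * d ^ (v + t2) * d ^ (v + t1)) *
        (d ^ (q 0 * t3) * d ^ (q 1 * t1) * d ^ (q 2 * t2)) := by
    rw [← Real.rpow_add hd, ← Real.rpow_add hd, ← Real.rpow_add hd, ← Real.rpow_add hd,
      ← Real.rpow_add hd]
  rw [e1]
  unfold Rq
  have n0 : 0 ≤ (a0 * d ^ (v + t3) / ρ) ^ q 0 := Real.rpow_nonneg (by
    have := hp (v + t3); positivity) _
  have n1 : 0 ≤ (a1 * d ^ (v + t1) / ρ) ^ q 1 := Real.rpow_nonneg (by
    have := hp (v + t1); positivity) _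
  have n2 : 0 ≤ (a2 * d ^ (v + t2) / ρ) ^ q 2 := Real.rpow_nonneg (by
    have := hp (v + t2); positivity) _
  have m0 : 0 ≤ (a0 / ρ0) ^ q 0 * d ^ (q 0 * t3) := n0.trans k0
  have m1 : 0 ≤ (a1 / ρ0) ^ q 1 * d ^ (q 1 * t1) := n1.trans k1
  have m2 : 0 ≤ (a2 / ρ0) ^ q 2 * d ^ (q 2 * t2) := n2.trans k2
  have c1 := mul_le_mul (mul_le_mul k0 k1 n1 m0) k2 n2 (mul_nonneg m0 m1)
  have V : 0 < (a0 * d ^ (v + t3)) * (a2 * d ^ (v + t2)) * (a1 * d ^ (v + t1)) := by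
    have := hp (v + t3)
    have := hp (v + t2)
    have := hp (v + t1)
    positivity
  refine (mul_le_mul_of_nonneg_left c1 V.le).trans (le_of_eq ?_)
  ring

/-- collecting the losses -/
theorem loss_bd {q : Fin 3 → ℝ} (hq : ∀ j, 0 ≤ q j) {S Y KB ρ W1 W2 W3 D s uu V : ℝ} (hS : 1 ≤ S)
    (hSY : S ≤ Y) (hY : 4 ≤ Y) (hKB0 : 0 < KB) (hKB : KB ≤ Y ^ 13) (hρ : 0 < ρ) (hW1 : 0 < W1)
    (hW2 : 0 < W2) (hW3 : 0 < W3) (hD : 0 ≤ D) (hs : 0 ≤ s) (huu : 0 ≤ uu)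
    (hV : W3 * W2 * W1 * Rq q ρ W3 W2 W1 ≤ V) :
    S * (KB ^ 3 * KB ^ (q 0 + q 1 + q 2)) * D * (s * uu) *
      (W3 * (S ^ 3 * W2) * ((S ^ 3) ^ 2 * W1) *
        Rq q ρ W3 (S ^ 3 * W2) ((S ^ 3) ^ 2 * W1)) ≤
      Y ^ (49 + 19 * (q 0 + q 1 + q 2)) * (D * V * s * uu) := by
  set Q : ℝ := q 0 + q 1 + q 2 with hQ
  have hQ0 : 0 ≤ Q := by have := hq 0; have := hq 1; have := hq 2; linarith
  have hS0 : 0 < S := by linarith
  have hY0 : 0 < Y := by linarith
  have hY1 : 1 ≤ Y := by linarith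
  have a1 : KB ^ 3 ≤ (Y ^ 13) ^ 3 := pow_le_pow_left₀ hKB0.le hKB 3
  have a2 : KB ^ Q ≤ (Y ^ 13) ^ Q := Real.rpow_le_rpow hKB0.le hKB hQ0
  have a3 : S ^ 3 ≤ Y ^ 3 := pow_le_pow_left₀ hS0.le hSY 3
  have a4 : (S ^ 3) ^ 2 ≤ Y ^ 6 := by
    calc (S ^ 3) ^ 2 ≤ (Y ^ 3) ^ 2 := pow_le_pow_left₀ (by positivity) a3 2
      _ = Y ^ 6 := by ring
  have a36 : Y ^ 3 ≤ Y ^ 6 := pow_le_pow_right₀ hY1 (by norm_num)
  have a5 : Rq q ρ W3 (S ^ 3 * W2) ((S ^ 3) ^ 2 * W1) ≤ (Y ^ 6) ^ Q * Rq q ρ W3 W2 W1 := by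
    have h1 : Rq q ρ W3 (S ^ 3 * W2) ((S ^ 3) ^ 2 * W1) ≤
        Rq q ρ (Y ^ 6 * W3) (Y ^ 6 * W2) (Y ^ 6 * W1) := by
      refine Rq_mono hq hρ hW3.le (by positivity) (by positivity) ?_ ?_ ?_
      · exact le_mul_of_one_le_left hW3.le (one_le_pow₀ hY1)
      · exact mul_le_mul_of_nonneg_right (a3.trans a36) hW2.le
      · exact mul_le_mul_of_nonneg_right a4 hW1.le
    have h2 := Rq_scale (q := q) (s := Y ^ 6) (ρ := ρ) (ρ' := ρ)
      (x := W3) (y := W2) (z := W1) (X := Y ^ 6 * W3) (Y := Y ^ 6 * W2) (Z := Y ^ 6 * W1)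
      (by positivity) (by positivity) (by positivity)
      (by positivity) (by ring) (by ring) (by ring)
    rw [h2] at h1
    exact h1
  have hR0 : 0 ≤ Rq q ρ W3 W2 W1 := Rq_nonneg hρ hW3.le hW2.le hW1.le
  have hR1 : 0 ≤ Rq q ρ W3 (S ^ 3 * W2) ((S ^ 3) ^ 2 * W1) :=
    Rq_nonneg hρ hW3.le (by positivity) (by positivity)
  have pQ : 0 ≤ (Y ^ 6 : ℝ) ^ Q := Real.rpow_nonneg (by positivity) _
  have pQ2 : 0 ≤ (Y ^ 13 : ℝ) ^ Q := Real.rpow_nonneg (by positivity) _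
  have pK : 0 ≤ KB ^ Q := Real.rpow_nonneg hKB0.le _
  have b1 : S * (KB ^ 3 * KB ^ Q) ≤ Y * ((Y ^ 13) ^ 3 * (Y ^ 13) ^ Q) :=
    mul_le_mul hSY (mul_le_mul a1 a2 pK (by positivity)) (by positivity) hY0.le
  have b2 : W3 * (S ^ 3 * W2) * ((S ^ 3) ^ 2 * W1) ≤ Y ^ 9 * (W3 * W2 * W1) := by
    calc W3 * (S ^ 3 * W2) * ((S ^ 3) ^ 2 * W1) = (S ^ 3 * (S ^ 3) ^ 2) * (W3 * W2 * W1) := by ring
      _ ≤ (Y ^ 3 * Y ^ 6) * (W3 * W2 * W1) :=
          mul_le_mul_of_nonneg_right (mul_le_mul a3 a4 (by positivity) (by positivity))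
            (by positivity)
      _ = _ := by ring
  have b3 : W3 * (S ^ 3 * W2) * ((S ^ 3) ^ 2 * W1) *
      Rq q ρ W3 (S ^ 3 * W2) ((S ^ 3) ^ 2 * W1) ≤ (Y ^ 9 * (Y ^ 6) ^ Q) * V := by
    calc _ ≤ Y ^ 9 * (W3 * W2 * W1) * ((Y ^ 6) ^ Q * Rq q ρ W3 W2 W1) :=
          mul_le_mul b2 a5 hR1 (by positivity)
      _ = (Y ^ 9 * (Y ^ 6) ^ Q) * (W3 * W2 * W1 * Rq q ρ W3 W2 W1) := by ring
      _ ≤ _ := mul_le_mul_of_nonneg_left hV (mul_nonneg (by positivity) pQ)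
  have hl : 0 ≤ W3 * (S ^ 3 * W2) * ((S ^ 3) ^ 2 * W1) *
      Rq q ρ W3 (S ^ 3 * W2) ((S ^ 3) ^ 2 * W1) := mul_nonneg (by positivity) hR1
  have hA : 0 ≤ Y * ((Y ^ 13) ^ 3 * (Y ^ 13) ^ Q) := by positivity
  have e1 : Y ^ (49 + 19 * Q) = Y * ((Y ^ 13) ^ 3 * (Y ^ 13) ^ Q) * (Y ^ 9 * (Y ^ 6) ^ Q) := by
    have g1 : (Y ^ 13 : ℝ) ^ Q = Y ^ (13 * Q) := by
      rw [← Real.rpow_natCast, ← Real.rpow_mul hY0.le]; norm_num
    have g2 : (Y ^ 6 : ℝ) ^ Q = Y ^ (6 * Q) := by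
      rw [← Real.rpow_natCast, ← Real.rpow_mul hY0.le]; norm_num
    have g3 : Y * ((Y ^ 13) ^ 3 * Y ^ (13 * Q)) * (Y ^ 9 * Y ^ (6 * Q)) =
        Y ^ 49 * (Y ^ (13 * Q) * Y ^ (6 * Q)) := by ring
    have g4 : (Y : ℝ) ^ 49 = Y ^ (49 : ℝ) := by
      rw [← Real.rpow_natCast]; norm_num
    rw [g1, g2, g3, g4, ← Real.rpow_add hY0, ← Real.rpow_add hY0]
    congr 1; ring
  calc S * (KB ^ 3 * KB ^ Q) * D * (s * uu) *
      (W3 * (S ^ 3 * W2) * ((S ^ 3) ^ 2 * W1) *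
        Rq q ρ W3 (S ^ 3 * W2) ((S ^ 3) ^ 2 * W1)) =
      (S * (KB ^ 3 * KB ^ Q)) * (W3 * (S ^ 3 * W2) * ((S ^ 3) ^ 2 * W1) *
        Rq q ρ W3 (S ^ 3 * W2) ((S ^ 3) ^ 2 * W1)) * (D * s * uu) := by ring
    _ ≤ (Y * ((Y ^ 13) ^ 3 * (Y ^ 13) ^ Q)) * ((Y ^ 9 * (Y ^ 6) ^ Q) * V) * (D * s * uu) :=
        mul_le_mul_of_nonneg_right (mul_le_mul b1 b3 hl hA) (by positivity)
    _ = _ := by rw [e1]; ring

theorem const_legal {R : ℝ} (hR : 0 ≤ R) : Legal monQ (fun _ => R) :=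
  ⟨fun _ => hR, fun k e he => by
    rw [← Finset.sum_mul]
    have h1 : (1 : ℝ) ≤ ∑ s, (e s : ℝ) := by exact_mod_cast monQ.one_le he
    exact le_mul_of_one_le_left hR h1⟩

/-- exponent of the number of incidences in a natural box -/
def DN (g : ℝ) (q : Fin 3 → ℝ) (v t1 t2 t3 : ℝ) : ℝ :=
  g * v + (1 - v) - ((v + t3) + (v + t2) + (v + t1)) - (q 0 * t3 + q 1 * t1 + q 2 * t2)

end Crest.Agent.R136.Lab926
end

-- ▼ part R136/LabW8_926
section

/-!
# R136: END-LAB, window side, part 8 (helper926)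

`body_n` : number of incidences of the family in a body, at one index.
-/

set_option autoImplicit false
set_option linter.unusedSectionVars false
set_option linter.unusedVariables false

open Filter Topology

namespace Crest.Agent.R136.Lab926

open Finset
open Crest.Agent.R138.Ex926
open Crest.Agent.R138.Mk163 (zc zl rho alive)
open Crest.Agent.R138.MkRef627 (lc kc mem_alive)
open Crest.Agent.R136.Sh605
open Crest.Agent.R136.HR829 (Rq Rq_nonneg Rq_mono Rq_scale Wd)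
open Crest.Agent.R136.End403
open Crest.Agent.R136.Net191
open Crest.Agent.R136.NetQ186
open Crest.Agent.R136.GeoQ186
open Crest.Agent.R136.MkA627
open Crest.Agent.R136.Wq638
open Crest.Agent.R136.Lq196
open Crest.Agent.R136.Qg926

theorem abs_le_one_of_sq {a b : ℝ} (h : a ^ 2 + b ^ 2 = 1) : |a| ≤ 1 ∧ |b| ≤ 1 := by
  constructor
  · rw [← abs_one (α := ℝ), ← sq_le_sq]; nlinarith [sq_nonneg b]
  · rw [← abs_one (α := ℝ), ← sq_le_sq]; nlinarith [sq_nonneg a]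

section

variable {B : Base} {I I1 : ℕ → Finset (ℕ × ℝ)} {L : ℕ → ℕ → Ln4} {π : Equiv.Perm (Fin 3)}
    {eE fA fB : ℕ → ℕ × ℝ → ℝ} {lev : ℕ → ℚ → ℕ} {g : ℝ} {vm : ℕ → ℚ → ℝ}
    {w : Fin 3 → ℕ → ℚ → ℝ} {q : Fin 3 → ℝ} {w0 R c₀ : ℝ} {rg : Rg}

set_option maxHeartbeats 3200000 in
open Classical in
/-- **number of incidences of the family in a body**, at one index -/
theorem body_n {n : ℕ} {E : Finset (ℕ × ℝ)} {o : ℕ × ℝ} {i : ℕ} {J0 : ℤ}
    {v t1 t2 t3 R1 Y S s σ α β γ v1 : ℝ}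
    (hchart : ∀ n, Chart (I n) (couQ B lev w w0 (incQ π L eE fA fB) n) monQ 2)
    (hw : ∀ j, 0 < w j n 0) (hvm : vm n 0 = w 0 n 0 * w 2 n 0 * w 1 n 0 *
      Rq q (rho (lev n 0)) (w 0 n 0) (w 2 n 0) (w 1 n 0)) (hq : ∀ j, 0 ≤ q j) (hR : 0 ≤ R)
    (hflag : |eE n o| ≤ 1 ∧ |fA n o| ≤ 1 ∧ |fB n o| ≤ 1)
    (hbody : BodyP B I I1 L rg q lev g vm (couQ B lev w w0 (incQ π L eE fA fB)) monQ 2 R c₀ v1
      (γ / 2) S n) (hv0 : 0 ≤ v) (hvv : v ≤ v1)
    (l1 : (2 : ℝ) ^ lev n 0 * B.d n ^ (-v) ≤ 2 * 2 ^ i)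
    (l2 : (2 : ℝ) ^ i ≤ 2 ^ lev n 0 * B.d n ^ (-v)) (l3 : i ≤ lev n 1)
    (hEI1 : E ⊆ I1 n) (hEI : E ⊆ I n) (hcell : ∀ x ∈ E, zc i x.2 = J0)
    (hκ1 : 1 ≤ cK0 monQ 2)
    (hnear : ∀ x ∈ E, ∀ k, |couQ B lev w w0 (incQ π L eE fA fB) n o x k| ≤
      cK0 monQ 2 * B.d n ^ natB w0 R1 v t1 t2 t3 k)
    (hRk : ∀ k : Fin 11, 5 ≤ k → natB w0 R1 v t1 t2 t3 k + γ ≤ R)
    (hS : 1 ≤ S) (hSY : S ≤ Y) (hY : 4 ≤ Y) (hα : |α| ≤ Y) (hβ : |β| ≤ Y)
    (hσ : 0 < σ) (hσs : σ ≤ s) (hs1 : s ≤ 1) (hr0 : 0 < rg.r n)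
    (z1 : wS B w 0 n (v + t3) ≤ S * wS B w 2 n (v + t2))
    (z2 : wS B w 2 n (v + t2) ≤ S * wS B w 1 n (v + t1))
    (z3 : rg.r n ≤ S * wS B w 0 n (v + t3) * s)
    (z4 : wS B w 0 n (v + t3) * s ≤ S * wS B w 2 n (v + t2) * σ)
    (hcap : 192 * (Y ^ 13 * ((S ^ 3) ^ 2 * wS B w 1 n (v + t1))) ≤ B.d n ^ (γ / 2) * rho i)
    (hm0 : 256 * (Y ^ 13 * wS B w 0 n (v + t3)) ≤ rg.m0 n)
    (hm1 : 192 * (Y ^ 13 * ((S ^ 3) ^ 2 * wS B w 1 n (v + t1))) ≤ rg.m1 n)
    (hm2 : 320 * (Y ^ 13 * (S ^ 3 * wS B w 2 n (v + t2))) ≤ rg.m2 n)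
    (ho1 : rg.o1 n ≤ σ * wS B w 1 n (v + t1) / 2)
    (ho2 : rg.o2 n ≤ σ * wS B w 2 n (v + t2) / 2 / 2)
    (hη : 12 * cK0 monQ 2 ^ 3 * B.d n ^ γ * Y ^ 2 ≤ σ)
    {K0 : ℝ} (hK0 : 1 ≤ K0) (hK0Y : K0 ≤ Y) {x : ℕ × ℝ} {α' β' : ℝ}
    (hαβ : α' ^ 2 + β' ^ 2 = 1) {u : Fin 2 → ℝ} (hu : ∀ j, σ ≤ u j ∧ u j ≤ 1) :
    ((E.filter fun y => ∀ z, zl i J0 ≤ z → z ≤ zl i J0 + rho i →
        |dt (gχ π (eE n o) (fA n o) (fB n o) (wS B w 1 n (v + t1)) (wS B w 2 n (v + t2))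
          (wS B w 0 n (v + t3)) α β 1) ((L n y.1).pos z - (L n x.1).pos z)| ≤ K0 * (2 * s) ∧
        |α' * dt (gψ π (eE n o) (wS B w 1 n (v + t1)) (wS B w 2 n (v + t2)) 1 0)
            ((L n y.1).pos z - (L n x.1).pos z) +
          β' * dt (gψ π (eE n o) (wS B w 1 n (v + t1)) (wS B w 2 n (v + t2)) 1 1)
            ((L n y.1).pos z - (L n x.1).pos z)| ≤ K0 * (16 * u 0) ∧
        |-β' * dt (gψ π (eE n o) (wS B w 1 n (v + t1)) (wS B w 2 n (v + t2)) 1 0)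
            ((L n y.1).pos z - (L n x.1).pos z) +
          α' * dt (gψ π (eE n o) (wS B w 1 n (v + t1)) (wS B w 2 n (v + t2)) 1 1)
            ((L n y.1).pos z - (L n x.1).pos z)| ≤ K0 * (16 * u 1)).card : ℝ) ≤
      Y ^ (49 + 19 * (q 0 + q 1 + q 2)) *
        (B.d n ^ (-(c₀ + DN g q v t1 t2 t3)) * s * (u 0 * u 1)) := by
  have hd := B.pos n
  have hp : ∀ t : ℝ, 0 < B.d n ^ t := fun t => Real.rpow_pos_of_pos hd t
  set W1 : ℝ := wS B w 1 n (v + t1) with hW1d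
  set W2 : ℝ := wS B w 2 n (v + t2) with hW2d
  set W3 : ℝ := wS B w 0 n (v + t3) with hW3d
  have hW1 : 0 < W1 := mul_pos (hw 1) (hp _)
  have hW2 : 0 < W2 := mul_pos (hw 2) (hp _)
  have hW3 : 0 < W3 := mul_pos (hw 0) (hp _)
  have hS0 : 0 < S := by linarith
  have hY0 : 0 < Y := by linarith
  have hY1 : 1 ≤ Y := by linarith
  have hs : 0 < s := hσ.trans_le hσs
  have hρi := rho_pos' i
  obtain ⟨f1, f2, f3⟩ := hflag
  have hF := frOk_inst (π := π) f1 f2 f3 hW1 hW2 hW3 hS hSY hY hα hβ z1 z2 hs1 hσ hσs hr0.le z3 z4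
  set KB : ℝ := Y ^ 11 * (5 + |α| + |β|) with hKBd
  have hα0 := abs_nonneg α
  have hβ0 := abs_nonneg β
  have hKB0 : 0 < KB := by positivity
  have hKB : KB ≤ Y ^ 13 := by
    have h1 : 5 + |α| + |β| ≤ Y ^ 2 := by nlinarith
    calc KB ≤ Y ^ 11 * Y ^ 2 := mul_le_mul_of_nonneg_left h1 (by positivity)
      _ = Y ^ 13 := by ring
  have hKm : ∀ {c x : ℝ}, 0 ≤ c → 0 ≤ x → c * KB * x ≤ c * (Y ^ 13 * x) := fun {c x} hc hx => by
    rw [mul_assoc]
    exact mul_le_mul_of_nonneg_left (mul_le_mul_of_nonneg_right hKB hx) hc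
  set w' : V3 := ![0, (S ^ 3) ^ 2 * W1, S ^ 3 * W2] with hw'
  have ew1 : w' 1 = (S ^ 3) ^ 2 * W1 := rfl
  have ew2 : w' 2 = S ^ 3 * W2 := rfl
  obtain ⟨hα'1, hβ'1⟩ := abs_le_one_of_sq hαβ
  set F := E.filter fun y => ∀ z, zl i J0 ≤ z → z ≤ zl i J0 + rho i →
        |dt (gχ π (eE n o) (fA n o) (fB n o) W1 W2 W3 α β 1)
          ((L n y.1).pos z - (L n x.1).pos z)| ≤ K0 * (2 * s) ∧
        |α' * dt (gψ π (eE n o) W1 W2 1 0) ((L n y.1).pos z - (L n x.1).pos z) +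
          β' * dt (gψ π (eE n o) W1 W2 1 1) ((L n y.1).pos z - (L n x.1).pos z)| ≤
            K0 * (16 * u 0) ∧
        |-β' * dt (gψ π (eE n o) W1 W2 1 0) ((L n y.1).pos z - (L n x.1).pos z) +
          α' * dt (gψ π (eE n o) W1 W2 1 1) ((L n y.1).pos z - (L n x.1).pos z)| ≤
            K0 * (16 * u 1) with hFd
  have hFE : F ⊆ E := filter_subset _ _
  set κ : ℝ := cK0 monQ 2 with hκd
  have hκ0 : 0 < κ := by linarith
  set η : ℝ := 12 * κ ^ 3 * B.d n ^ γ with hηd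
  have hη0 : 0 < η := by have := hp γ; positivity
  have hη2 : 1 + |α| + |β| ≤ Y ^ 2 := by nlinarith
  have hησ : η ≤ σ := by
    refine le_trans ?_ hη
    exact le_mul_of_one_le_right hη0.le (one_le_pow₀ hY1)
  have hbnd := hbody v hv0 hvv i J0 l1 l2 _ _ _ _ w' W3 KB s σ (σ * W1) (σ * W2 / 2) hF
    (by rw [ew1]; exact (hKm (by norm_num) (by positivity)).trans hcap)
    ((hKm (by norm_num) hW3.le).trans hm0)
    (by rw [ew1]; exact (hKm (by norm_num) (by positivity)).trans hm1)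
    (by rw [ew2]; exact (hKm (by norm_num) (by positivity)).trans hm2)
    (ho1.trans (le_of_eq (by ring))) (ho2.trans (le_of_eq (by ring)))
    α' β' hαβ u hu (L n x.1) F (hFE.trans hEI1) (by
      intro a ha b hb hab hcab
      have haE := hFE ha
      have haF := (mem_filter.1 ha).2
      have haI := hEI haE
      have hbc : zc i b.2 = J0 := by
        rw [zc_eq' l3, hcab, ← zc_eq' l3]
        exact hcell a haE
      refine ⟨hbc, fun z hz1 hz2 => ?_⟩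
      obtain ⟨g1, g2, g3⟩ := haF z hz1 hz2
      have hζ := cell_z (B := B) (lev := lev) (w0 := w0) (n := n) rfl l1 hz1 hz2 (hcell a haE)
      have hnr := near_of_nlab (B := B) hchart (const_legal hR) haI hb hab.symm
      obtain ⟨n1, n2, n3⟩ := fn_near (R1 := R1) hw hκ1 (hp γ).le (hnear a haE)
        (fun k hk => by
          refine (hnr k).trans ?_
          rw [mul_assoc, ← Real.rpow_add hd]
          refine mul_le_mul_of_nonneg_left ?_ hκ0.le
          refine Real.rpow_le_rpow_of_exponent_ge hd (B.lt n).le ?_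
          have := hRk k hk
          linarith) (y := b) (z := z) hζ
      refine bod_near hK0 ?_ hs (fun j => hσ.trans_le (hu j).1) hα'1 hβ'1 n1 n2 n3 ?_ ?_ g1 g2 g3
      · calc 2 * K0 ≤ Y * Y := mul_le_mul (by linarith) hK0Y (by linarith) hY0.le
          _ = Y ^ 2 := by ring
          _ ≤ Y ^ 11 := pow_le_pow_right₀ hY1 (by norm_num)
      · calc (1 + |α| + |β|) * (12 * κ ^ 3 * B.d n ^ γ) ≤ Y ^ 2 * (12 * κ ^ 3 * B.d n ^ γ) :=
              mul_le_mul_of_nonneg_right hη2 hη0.le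
          _ = 12 * κ ^ 3 * B.d n ^ γ * Y ^ 2 := by ring
          _ ≤ σ := hη
          _ ≤ 2 * s := by linarith
      · intro j
        have h1 := (hu j).1
        have h2 : 12 * κ ^ 3 * B.d n ^ γ ≤ σ := hησ
        linarith)
  rw [ew1, ew2] at hbnd
  -- volume
  have hρ : rho (lev n 0) * B.d n ^ v ≤ rho i := by
    have p1 := hp v
    have e1 : B.d n ^ (-v) = (B.d n ^ v)⁻¹ := Real.rpow_neg hd.le _
    rw [e1, ← div_eq_mul_inv, le_div_iff₀ p1] at l2
    unfold rho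
    have p3 : (0 : ℝ) < 2 ^ i := by positivity
    have p4 : (0 : ℝ) < 2 ^ lev n 0 := by positivity
    rw [one_div_mul_eq_div, div_le_div_iff₀ p4 p3]
    linarith
  have hvol := vol_bd (t1 := t1) (t2 := t2) (t3 := t3) hq hd (hw 0) (hw 1) (hw 2)
    (rho_pos' (lev n 0)) hρ
  rw [← hvm] at hvol
  have hvm0 : 0 < vm n 0 := by
    rw [hvm]
    have h0 := hw 0
    have h1 := hw 1
    have h2 := hw 2
    have h3 := rho_pos' (lev n 0)
    have : 0 < Rq q (rho (lev n 0)) (w 0 n 0) (w 2 n 0) (w 1 n 0) := by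
      unfold Rq; positivity
    positivity
  have hu0 := hσ.trans_le (hu 0).1
  have hu1 := hσ.trans_le (hu 1).1
  have hlb := loss_bd (q := q) (D := B.d n ^ (-(c₀ + g * v + (1 - v))) / vm n 0) (s := s)
    (uu := u 0 * u 1) hq hS hSY hY hKB0 hKB hρi hW1 hW2 hW3
    (div_nonneg (hp _).le hvm0.le) hs.le (mul_pos hu0 hu1).le hvol
  refine (hbnd.trans hlb).trans (le_of_eq ?_)
  congr 1
  have e1 : B.d n ^ (-(c₀ + g * v + (1 - v))) / vm n 0 * (vm n 0 *
      B.d n ^ ((v + t3) + (v + t2) + (v + t1) + (q 0 * t3 + q 1 * t1 + q 2 * t2))) =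
      B.d n ^ (-(c₀ + DN g q v t1 t2 t3)) := by
    have e0 : ∀ a b c : ℝ, c ≠ 0 → a / c * (c * b) = a * b := fun a b c hc => by field_simp
    rw [e0 _ _ _ hvm0.ne', ← Real.rpow_add hd]
    congr 1
    unfold DN
    ring
  rw [e1]

end

end Crest.Agent.R136.Lab926
end

-- ▼ part R136/LabW9_926
section

/-!
# R136: END-LAB, window side, part 9 (helper926)

`WinH.bodyIn` : bodies of the family; `LabH.window` : END-LAB in a window at a natural class.
-/

set_option autoImplicit false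
set_option linter.unusedSectionVars false
set_option linter.unusedVariables false

open Filter Topology

namespace Crest.Agent.R136.Lab926

open Finset
open Crest.Agent.R138.Ex926
open Crest.Agent.R138.Mk163 (zc zl rho alive)
open Crest.Agent.R138.MkRef627 (lc kc mem_alive)
open Crest.Agent.R136.Sh605
open Crest.Agent.R136.HR829 (Rq Rq_nonneg Rq_mono Rq_scale Wd)
open Crest.Agent.R136.End403
open Crest.Agent.R136.Net191
open Crest.Agent.R136.NetQ186
open Crest.Agent.R136.GeoQ186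
open Crest.Agent.R136.MkA627
open Crest.Agent.R136.Wq638
open Crest.Agent.R136.Lq196
open Crest.Agent.R136.Qg926

section

variable {σ' : Type*} {B B' : Base} {I I1 J : ℕ → Finset (ℕ × ℝ)} {G : Geo σ' (Fin 3)}
    {L : ℕ → ℕ → Ln4} {π : Equiv.Perm (Fin 3)} {eE fA fB : ℕ → ℕ × ℝ → ℝ} {lev : ℕ → ℚ → ℕ}
    {A : ℕ → ℝ} {g : ℝ} {τ : Fin 3 → ℝ → ℝ} {f : ℕ → ℚ → ℕ → ℤ → ℕ} {b : ℕ → ℚ → ℕ → σ'}
    {vm : ℕ → ℚ → ℝ} {w : Fin 3 → ℕ → ℚ → ℝ} {q θ : Fin 3 → ℝ} {w0 R T0 : ℝ}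
    {V T : Fin 11 → Prop} {PD : Set (Fin 11 → ℝ)} {DD : (Fin 11 → ℝ) → ℝ}
    {rp : ℝ → Fin 11 → ℝ} {EE : ℝ → ℝ} {ν own : (Fin 11 → ℝ) → ℝ} {c₀ : ℝ} {rg : Rg}
    {S SJ : ℕ → ℝ} {X : ℕ → Fin 11 → ℝ} {wn : ℕ → ℝ} {DD' : Set (Fin 11 → ℝ)} {TT : ℕ → ℝ}
    {lam : (Fin 11 → ℝ) → ℝ} {R1 v t1 t2 t3 : ℕ → ℝ} {kN k1 v1 γ : ℝ}
    {co : ℕ → ℕ × ℝ → ℕ × ℝ → Fin 11 → ℝ} {o : ℝ → Fin 11 → ℝ} {i M : ℕ → ℕ} {J0 : ℕ → ℤ}
    {E : ℕ → Finset (ℕ × ℝ)} {s₀ : ℕ → ℕ × ℝ}

/-- bounds of the exponents -/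
theorem WinH.exps (W : WinH B B' I I1 J co θ w0 R T0 o S SJ X wn DD' TT lam R1 v t1 t2 t3 kN k1 v1
    γ) (hb : BigQ θ w0 R T0) : ∀ᶠ n in (U : Filter ℕ),
      (-(5 * T0) ≤ v n + t1 n ∧ v n + t1 n ≤ 1 + 5 * T0) ∧
      (-(5 * T0) ≤ v n + t2 n ∧ v n + t2 n ≤ 1 + 5 * T0) ∧
      (-(5 * T0) ≤ v n + t3 n ∧ v n + t3 n ≤ 1 + 5 * T0) ∧
      ∀ k : Fin 11, 5 ≤ k → natB w0 (R1 n) (v n) (t1 n) (t2 n) (t3 n) k + γ ≤ R := by
  filter_upwards [W.tby] with n h1
  have h2 := W.tab n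
  have h3 := W.tg n
  have h4 := W.tR n
  have h5 := W.v0 n
  have h6 := W.vv n
  have h7 := W.hv1
  have h8 := W.hγ
  have h9 : wn n * kN ≤ wn n * k1 := mul_le_mul_of_nonneg_left W.kNk (W.hz.w0 n).le
  have a0 := abs_le.1 (hb.th 0)
  have a1 := abs_le.1 (hb.th 1)
  have a2 := abs_le.1 (hb.th 2)
  have hT := hb.T0
  have hw := hb.w0T
  have hR := hb.R0
  have m1 : -(2 * T0) ≤ min 0 (θ 1 - θ 2) := le_min (by linarith) (by linarith [a1.1, a2.2])
  have m2 : -(2 * T0) ≤ min 0 (θ 2 - θ 0) := le_min (by linarith) (by linarith [a2.1, a0.2])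
  have b1 : -T0 ≤ t1 n := by linarith [a1.2]
  have b2 : t1 n - 2 * T0 ≤ t2 n := by linarith
  have b3 : t2 n - 2 * T0 ≤ t3 n := by linarith
  refine ⟨⟨by linarith, by linarith⟩, ⟨by linarith, by linarith⟩, ⟨by linarith, by linarith⟩, ?_⟩
  intro k hk
  have hk6 : ∀ k : Fin 11, 5 ≤ k → k = 5 ∨ k = 6 ∨ k = 7 ∨ k = 8 ∨ k = 9 ∨ k = 10 := by decide
  rcases hk6 k hk with rfl | rfl | rfl | rfl | rfl | rfl
  · show w0 + t1 n + γ ≤ R; linarith
  · show 2 * w0 + t2 n + γ ≤ R; linarith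
  · show 3 * w0 + t3 n + γ ≤ R; linarith
  · show 2 * w0 + (v n + t1 n) + γ ≤ R; linarith
  · show 3 * w0 + (v n + t2 n) + γ ≤ R; linarith
  · show 4 * w0 + (v n + t3 n) + γ ≤ R; linarith

/-- powers of `d'` are sub-powers of `d` -/
theorem WinH.ev_small (W : WinH B B' I I1 J co θ w0 R T0 o S SJ X wn DD' TT lam R1 v t1 t2 t3 kN
    k1 v1 γ) {η : ℝ} (hη : 0 < η) (C : ℝ) :
    ∀ᶠ n in (U : Filter ℕ), B.d n ^ η ≤ B'.d n ^ C := by
  have h1 : Tendsto (fun n => wn n * C) U (𝓝 0) := by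
    have := W.wlim.mul_const C
    simpa using this
  filter_upwards [h1.eventually_lt_const hη] with n hn
  rw [W.hz.base n, ← Real.rpow_mul (B.pos n).le]
  exact Real.rpow_le_rpow_of_exponent_ge (B.pos n) (B.lt n).le hn.le

/-- the level of the cells is below the finest level -/
theorem FamOk.lev_le (hF : FamOk B B' I J co lev X wn TT lam v kN k1 i M J0 E s₀)
    (hM : MkA B I G lev A (fun v => g * v) (fun v => 0 * v) τ f b vm w) {v1 : ℝ} (hv1 : v1 < 1)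
    (hv : ∀ n, v n ≤ v1) : ∀ᶠ n in (U : Filter ℕ), i n ≤ lev n 1 := by
  have hδ : 0 < (1 - v1) / 2 := by linarith
  filter_upwards [hF.lev2, PqG464.pow_lev hM 1 zero_le_one le_rfl hδ] with n h1 h2
  have h3 := h2.2
  rw [Rat.cast_one] at h3
  have h4 : (2 : ℝ) ^ i n ≤ 2 ^ lev n 1 := by
    refine h1.trans (le_trans (mul_le_mul_of_nonneg_left ?_ (by positivity)) h3)
    refine Real.rpow_le_rpow_of_exponent_ge (B.pos n) (B.lt n).le ?_
    have := hv n
    linarith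
  exact (pow_le_pow_iff_right₀ (by norm_num : (1 : ℝ) < 2)).1 h4

theorem cmp_pow {d a b S c s t : ℝ} (hd : 0 < d) (hd1 : d ≤ 1) (hb : 0 < b) (hS : 0 < S)
    (h : a ≤ S * (d ^ c * b)) (hst : t ≤ c + s) : a * d ^ s ≤ S * (b * d ^ t) := by
  have hp : ∀ t : ℝ, 0 < d ^ t := fun t => Real.rpow_pos_of_pos hd t
  calc a * d ^ s ≤ S * (d ^ c * b) * d ^ s := mul_le_mul_of_nonneg_right h (hp s).le
    _ = S * (b * (d ^ c * d ^ s)) := by ring
    _ = S * (b * d ^ (c + s)) := by rw [← Real.rpow_add hd]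
    _ ≤ S * (b * d ^ t) := by
        have := Real.rpow_le_rpow_of_exponent_ge hd hd1 hst
        gcongr

set_option maxHeartbeats 3200000 in
/-- **bodies of the family** -/
theorem WinH.bodyIn (W : WinH B B' I I1 J (couQ B lev w w0 (incQ π L eE fA fB)) θ w0 R T0 o S SJ X
    wn DD' TT lam R1 v t1 t2 t3 kN k1 v1 γ)
    (H : LabH B I I1 G L π eE fA fB lev A g τ f b vm w q θ w0 R T0 V T PD DD rp EE ν own c₀ rg)
    (hG : ∀ᶠ n in (U : Filter ℕ), GlobP B I I1 L (couQ B lev w w0 (incQ π L eE fA fB)) lev g vm w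
      q θ R o ν own c₀ rg v1 (γ / 2) (S n) n)
    (hF : FamOk B B' I J (couQ B lev w w0 (incQ π L eE fA fB)) lev X wn TT lam v kN k1 i M J0 E
      s₀) {α β : ℕ → ℝ}
    (hα : ∀ ε : ℝ, 0 < ε → ∀ᶠ n in (U : Filter ℕ), |α n| ≤ B'.d n ^ (-ε) ∧
      |β n| ≤ B'.d n ^ (-ε)) :
    BodyIn B' E L (chE B π eE fA fB w v t1 t2 t3 s₀ α β) (psE B π eE w v t1 t2 s₀) i J0 kN k1
      (fun n => B.d n ^ (-(c₀ + DN g q (v n) (t1 n) (t2 n) (t3 n))) * B'.d n ^ kN) where
  P0 := fun n => (mul_pos (Real.rpow_pos_of_pos (B.pos n) _)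
    (Real.rpow_pos_of_pos (B'.pos n) _)).le
  body := by
    intro ε hε
    set co := couQ B lev w w0 (incQ π L eE fA fB) with hco
    have hz := W.hz
    have hk1 := W.k10
    have hkN := W.kN0
    have hγ := W.hγ
    set Q : ℝ := q 0 + q 1 + q 2 with hQ
    have hQ0 : 0 ≤ Q := by have := H.q0 0; have := H.q0 1; have := H.q0 2; linarith
    set κ : ℝ := cK0 monQ 2 with hκ
    have hκ1 : 1 ≤ κ := cK0_one (hz.chart 0).C0
    have hκ0 : 0 < κ := by linarith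
    have hT := H.big.T0
    have hR0 : 0 ≤ R := by
      have := H.big.R0
      have := H.big.w0T
      linarith
    obtain ⟨δ, hδ, hδQ⟩ : ∃ δ : ℝ, 0 < δ ∧ δ * (49 + 19 * Q) ≤ ε :=
      ⟨ε / (49 + 19 * Q), by positivity, le_of_eq (by field_simp)⟩
    refine ⟨δ, hδ, ?_⟩
    have hC12 : 0 < 12 * κ ^ 3 := by positivity
    have hcl : ∀ᶠ n in (U : Filter ℕ), E n ⊆ I1 n ∧ E n ⊆ I n ∧ s₀ n ∈ I n ∧ ∀ x ∈ E n,
        ∀ k, |co n (s₀ n) x k| ≤ κ * B.d n ^ natB w0 (R1 n) (v n) (t1 n) (t2 n) (t3 n) k := by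
      filter_upwards [hz.sub, hF.sub, hF.lab, hF.smem, W.sub] with n h1 h2 h3 h4 h5
      exact ⟨h2.trans h5, h2.trans h1, h1 h4, fun x hx k =>
        W.near0 (h1 h4) (h1 (h2 hx)) (h3 x hx).symm k⟩
    set Cm : ℝ := 5 * T0 + 2 with hCm
    filter_upwards [hG, hcl, H.wpos, H.wvm, hF.lev1, hF.lev2,
      hF.lev_le H.pre.mka W.hv1 W.vv, hF.cell, W.exps H.big, hα δ hδ, W.ev_S hδ,
      ev_const_le B' (show (0 : ℝ) < 4 by norm_num) hδ, ev_const_le B' hC12 hδ,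
      W.tby, W.tres, W.ev_small one_pos (24 * δ), W.ev_small one_pos (k1 + δ),
      W.ev_small hγ (k1 + 3 * δ), W.ev_small (half_pos hγ) (24 * δ),
      (H.wm0 Cm).and ((H.wm1 Cm).and ((H.wm2 Cm).and ((H.wo1 Cm).and (H.wo2 Cm))))] with
      n e1 e2 e3 e4 e5 e6 e7 e8 e9 e10 e11 e12 e13 e14 e15 e16 e17 e18 e19 e20
      K0 hK01 hK0Y x hx α' β' hαβ u hu
    obtain ⟨hEI1, hEI, hsI, hnear⟩ := e2
    obtain ⟨⟨x1, y1⟩, ⟨x2, y2⟩, ⟨x3, y3⟩, hRk⟩ := e9
    obtain ⟨hm0, hm1, hm2, ho1, ho2⟩ := e20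
    have hd := B.pos n
    have hd1 := (B.lt n).le
    have hd' := B'.pos n
    have hd1' := (B'.lt n).le
    have hp : ∀ t : ℝ, 0 < B.d n ^ t := fun t => Real.rpow_pos_of_pos hd t
    have hp' : ∀ t : ℝ, 0 < B'.d n ^ t := fun t => Real.rpow_pos_of_pos hd' t
    have hS1 := W.S1 n
    have hS0 : 0 < S n := by linarith
    have hw0 := e3 0
    have hw1 := e3 1
    have hw2 := e3 2
    set Y : ℝ := B'.d n ^ (-δ) with hY
    have hY0 : 0 < Y := hp' _
    have hY1 : 1 ≤ Y := by linarith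
    have hYp : ∀ k : ℕ, Y ^ k = B'.d n ^ (-(k * δ)) := fun k => by
      rw [hY, ← Real.rpow_natCast, ← Real.rpow_mul hd'.le]; congr 1; ring
    have hY24 : Y ^ 24 * B'.d n ^ (24 * δ) = 1 := by
      rw [hYp, ← Real.rpow_add hd']
      have : -(((24 : ℕ) : ℝ) * δ) + 24 * δ = 0 := by push_cast; ring
      rw [this, Real.rpow_zero]
    have hYd : Y ^ 24 * B.d n ≤ 1 := by
      rw [Real.rpow_one] at e16
      calc Y ^ 24 * B.d n ≤ Y ^ 24 * B'.d n ^ (24 * δ) :=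
            mul_le_mul_of_nonneg_left e16 (by positivity)
        _ = 1 := hY24
    have h4k : ∀ k : ℕ, (4 : ℝ) ^ k ≤ Y ^ k := fun k => pow_le_pow_left₀ (by norm_num) e12 k
    have hs : B'.d n ^ (wn n * 0) = 1 := by simp
    have hdkN : B'.d n ^ kN = B.d n ^ (wn n * kN) := by
      rw [hz.base n, ← Real.rpow_mul hd.le]
    have hdk1 : B'.d n ^ k1 = B.d n ^ (wn n * k1) := by
      rw [hz.base n, ← Real.rpow_mul hd.le]
    have hwkk : wn n * kN ≤ wn n * k1 := mul_le_mul_of_nonneg_left W.kNk (hz.w0 n).le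
    -- sizes
    have hmm : ∀ a b : ℝ, -max 0 (a - b) = min 0 (b - a) := fun a b => by
      rcases le_total 0 (a - b) with h | h
      · rw [max_eq_right h, min_eq_right (by linarith)]; ring
      · rw [max_eq_left h, min_eq_left (by linarith)]; ring
    have z1 : wS B w 0 n (v n + t3 n) ≤ S n * wS B w 2 n (v n + t2 n) := by
      refine cmp_pow hd hd1 hw2 hS0 e1.by' ?_
      have h1 := hmm (θ 0) (θ 2)
      unfold cBY
      linarith
    have z2 : wS B w 2 n (v n + t2 n) ≤ S n * wS B w 1 n (v n + t1 n) := by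
      refine cmp_pow hd hd1 hw1 hS0 e1.ab ?_
      have h1 := hmm (θ 2) (θ 1)
      have h2 := W.tab n
      unfold cAB
      linarith
    have z3 : rg.r n ≤ S n * wS B w 0 n (v n + t3 n) * B'.d n ^ kN := by
      have h1 := cmp_pow (s := 0) (t := v n + t3 n + wn n * kN) hd hd1 hw0 hS0 e1.res (by
        unfold cRR
        linarith)
      rw [Real.rpow_zero, mul_one, Real.rpow_add hd, ← hdkN] at h1
      unfold wS
      linarith
    have z4 : wS B w 0 n (v n + t3 n) * B'.d n ^ kN ≤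
        S n * wS B w 2 n (v n + t2 n) * B'.d n ^ k1 := by
      have h1 := cmp_pow (s := v n + t3 n + wn n * kN) (t := v n + t2 n + wn n * k1) hd hd1 hw2 hS0
        e1.by' (by
          have h1 := hmm (θ 0) (θ 2)
          unfold cBY
          linarith)
      have q1 : B.d n ^ (v n + t3 n + wn n * kN) = B.d n ^ (v n + t3 n) * B'.d n ^ kN := by
        rw [Real.rpow_add hd, hdkN]
      have q2 : B.d n ^ (v n + t2 n + wn n * k1) = B.d n ^ (v n + t2 n) * B'.d n ^ k1 := by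
        rw [Real.rpow_add hd, hdk1]
      rw [q1, q2] at h1
      unfold wS
      linarith
    -- the cap
    have hρ : rho (lev n 0) * B.d n ^ v n ≤ rho (i n) := by
      have p1 := hp (v n)
      have g1 : B.d n ^ (-(v n)) = (B.d n ^ v n)⁻¹ := Real.rpow_neg hd.le _
      rw [g1, ← div_eq_mul_inv, le_div_iff₀ p1] at e6
      unfold rho
      have p3 : (0 : ℝ) < 2 ^ i n := by positivity
      have p4 : (0 : ℝ) < 2 ^ lev n 0 := by positivity
      rw [one_div_mul_eq_div, div_le_div_iff₀ p4 p3]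
      linarith
    have hS6 : (S n ^ 3) ^ 2 ≤ Y ^ 6 := by
      calc (S n ^ 3) ^ 2 = S n ^ 6 := by ring
        _ ≤ Y ^ 6 := pow_le_pow_left₀ hS0.le e11 6
    have hS3 : S n ^ 3 ≤ Y ^ 3 := pow_le_pow_left₀ hS0.le e11 3
    have hcap : 192 * (Y ^ 13 * ((S n ^ 3) ^ 2 * wS B w 1 n (v n + t1 n))) ≤
        B.d n ^ (γ / 2) * rho (i n) := by
      have h1 : wS B w 1 n (v n + t1 n) ≤ Y * (B.d n ^ γ * rho (i n)) := by
        have h2 := mul_le_mul_of_nonneg_right e1.cap (hp (v n + t1 n)).le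
        have hρ0 := rho_pos' (lev n 0)
        calc wS B w 1 n (v n + t1 n) ≤ S n * (B.d n ^ θ 1 * rho (lev n 0)) *
              B.d n ^ (v n + t1 n) := h2
          _ = S n * (B.d n ^ (θ 1 + t1 n) * (rho (lev n 0) * B.d n ^ v n)) := by
              rw [Real.rpow_add hd, Real.rpow_add hd]; ring
          _ ≤ Y * (B.d n ^ γ * rho (i n)) := by
              have h3 : B.d n ^ (θ 1 + t1 n) ≤ B.d n ^ γ :=
                Real.rpow_le_rpow_of_exponent_ge hd hd1 (by have := W.tg n; linarith)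
              have h4 := hp (θ 1 + t1 n)
              have h5 := hp γ
              have h6 := hp (v n)
              gcongr
      have h2 : (192 : ℝ) ≤ Y ^ 4 := le_trans (by norm_num) (h4k 4)
      have h3 := rho_pos' (i n)
      have hwp : 0 < wS B w 1 n (v n + t1 n) := mul_pos hw1 (hp _)
      have hYp0 := hp γ
      calc 192 * (Y ^ 13 * ((S n ^ 3) ^ 2 * wS B w 1 n (v n + t1 n))) ≤
            Y ^ 4 * (Y ^ 13 * (Y ^ 6 * (Y * (B.d n ^ γ * rho (i n))))) := by gcongr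
        _ = Y ^ 24 * B.d n ^ (γ / 2) * (B.d n ^ (γ / 2) * rho (i n)) := by
            have : B.d n ^ γ = B.d n ^ (γ / 2) * B.d n ^ (γ / 2) := by
              rw [← Real.rpow_add hd]; congr 1; ring
            rw [this]; ring
        _ ≤ 1 * (B.d n ^ (γ / 2) * rho (i n)) := by
            refine mul_le_mul_of_nonneg_right ?_ (mul_pos (hp _) h3).le
            calc Y ^ 24 * B.d n ^ (γ / 2) ≤ Y ^ 24 * B'.d n ^ (24 * δ) :=
                  mul_le_mul_of_nonneg_left e19 (by positivity)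
              _ = 1 := hY24
        _ = _ := one_mul _
    -- power gaps
    have hgap : ∀ {a m t c K : ℝ}, 0 < a → a ≤ B.d n ^ Cm * m → -(5 * T0) ≤ t → 0 ≤ c →
        c * K ≤ Y ^ 24 → c * (K * (a * B.d n ^ t)) ≤ m := fun {a m t c K} ha ham ht hc hcK => by
      have hm : 0 < m := by
        have h1 : 0 < B.d n ^ Cm * m := ha.trans_le ham
        exact (pos_iff_pos_of_mul_pos h1).1 (hp Cm)
      have h1 : B.d n ^ Cm * B.d n ^ t ≤ B.d n := by
        rw [← Real.rpow_add hd]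
        calc B.d n ^ (Cm + t) ≤ B.d n ^ (1 : ℝ) :=
              Real.rpow_le_rpow_of_exponent_ge hd hd1 (by rw [hCm]; linarith)
          _ = B.d n := Real.rpow_one _
      have hat : 0 < a * B.d n ^ t := mul_pos ha (hp t)
      calc c * (K * (a * B.d n ^ t)) = (c * K) * (a * B.d n ^ t) := by ring
        _ ≤ Y ^ 24 * (a * B.d n ^ t) := mul_le_mul_of_nonneg_right hcK hat.le
        _ ≤ Y ^ 24 * ((B.d n ^ Cm * m) * B.d n ^ t) := by
            have := hp t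
            gcongr
        _ = Y ^ 24 * (B.d n ^ Cm * B.d n ^ t) * m := by ring
        _ ≤ Y ^ 24 * B.d n * m := by gcongr
        _ ≤ 1 * m := mul_le_mul_of_nonneg_right hYd hm.le
        _ = m := one_mul m
    have hY14 : ∀ {c : ℝ} {k : ℕ}, c ≤ 4 ^ (24 - k) → k ≤ 24 → c * Y ^ k ≤ Y ^ 24 :=
      fun {c k} hc hk => by
        calc c * Y ^ k ≤ Y ^ (24 - k) * Y ^ k :=
              mul_le_mul_of_nonneg_right (hc.trans (h4k _)) (by positivity)
          _ = Y ^ 24 := by rw [← pow_add, Nat.sub_add_cancel hk]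
    have hm0' : 256 * (Y ^ 13 * wS B w 0 n (v n + t3 n)) ≤ rg.m0 n :=
      hgap hw0 hm0 x3 (by norm_num) (hY14 (by norm_num) (by norm_num))
    have hm1' : 192 * (Y ^ 13 * ((S n ^ 3) ^ 2 * wS B w 1 n (v n + t1 n))) ≤ rg.m1 n := by
      have h1 := hgap (c := 192) (K := Y ^ 13 * (S n ^ 3) ^ 2) hw1 hm1 x1 (by norm_num) (by
        refine le_trans ?_ (hY14 (c := 192) (k := 19) (by norm_num) (by norm_num))
        have : Y ^ 13 * (S n ^ 3) ^ 2 ≤ Y ^ 13 * Y ^ 6 := by gcongr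
        have e : Y ^ 13 * Y ^ 6 = Y ^ 19 := by ring
        linarith)
      refine le_trans (le_of_eq ?_) h1
      unfold wS
      ring
    have hm2' : 320 * (Y ^ 13 * (S n ^ 3 * wS B w 2 n (v n + t2 n))) ≤ rg.m2 n := by
      have h1 := hgap (c := 320) (K := Y ^ 13 * S n ^ 3) hw2 hm2 x2 (by norm_num) (by
        refine le_trans ?_ (hY14 (c := 320) (k := 16) (by norm_num) (by norm_num))
        have : Y ^ 13 * S n ^ 3 ≤ Y ^ 13 * Y ^ 3 := by gcongr
        have e : Y ^ 13 * Y ^ 3 = Y ^ 16 := by ring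
        linarith)
      refine le_trans (le_of_eq ?_) h1
      unfold wS
      ring
    have hlow : ∀ {r a t : ℝ}, 0 < a → r ≤ B.d n ^ Cm * a → t ≤ 1 + 5 * T0 →
        r ≤ B'.d n ^ k1 * (a * B.d n ^ t) / 2 / 2 := fun {r a t} ha hra ht => by
      have h1 : B.d n ^ Cm ≤ B.d n ^ t * B.d n := by
        calc B.d n ^ Cm ≤ B.d n ^ (t + 1) :=
              Real.rpow_le_rpow_of_exponent_ge hd hd1 (by rw [hCm]; linarith)
          _ = B.d n ^ t * B.d n := by rw [Real.rpow_add hd, Real.rpow_one]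
      have h2 : B.d n ≤ B'.d n ^ k1 / 4 := by
        rw [Real.rpow_one] at e17
        refine e17.trans ?_
        rw [Real.rpow_add hd', le_div_iff₀ (by norm_num : (0 : ℝ) < 4), mul_assoc]
        have h3 : B'.d n ^ δ * 4 ≤ 1 := by
          calc B'.d n ^ δ * 4 ≤ B'.d n ^ δ * Y := mul_le_mul_of_nonneg_left e12 (hp' _).le
            _ = 1 := by rw [hY, ← Real.rpow_add hd', add_neg_cancel, Real.rpow_zero]
        exact mul_le_of_le_one_right (hp' _).le h3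
      calc r ≤ B.d n ^ Cm * a := hra
        _ ≤ (B.d n ^ t * B.d n) * a := mul_le_mul_of_nonneg_right h1 ha.le
        _ ≤ (B.d n ^ t * (B'.d n ^ k1 / 4)) * a := by
            have := hp t
            gcongr
        _ = _ := by ring
    have ho1' : rg.o1 n ≤ B'.d n ^ k1 * wS B w 1 n (v n + t1 n) / 2 := by
      refine (hlow hw1 ho1 y1).trans ?_
      have : 0 < B'.d n ^ k1 * wS B w 1 n (v n + t1 n) := mul_pos (hp' _) (mul_pos hw1 (hp _))
      unfold wS at this ⊢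
      linarith
    have ho2' : rg.o2 n ≤ B'.d n ^ k1 * wS B w 2 n (v n + t2 n) / 2 / 2 := hlow hw2 ho2 y2
    -- neighbours
    have hη : 12 * κ ^ 3 * B.d n ^ γ * Y ^ 2 ≤ B'.d n ^ k1 := by
      calc 12 * κ ^ 3 * B.d n ^ γ * Y ^ 2 ≤ Y * B'.d n ^ (k1 + 3 * δ) * Y ^ 2 := by gcongr
        _ = Y ^ 3 * B'.d n ^ (3 * δ) * B'.d n ^ k1 := by rw [Real.rpow_add hd']; ring
        _ = B'.d n ^ k1 := by
            have : Y ^ 3 * B'.d n ^ (3 * δ) = 1 := by
              rw [hYp, ← Real.rpow_add hd']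
              have : -(((3 : ℕ) : ℝ) * δ) + 3 * δ = 0 := by push_cast; ring
              rw [this, Real.rpow_zero]
            rw [this, one_mul]
    have hs1 : B'.d n ^ kN ≤ 1 := Real.rpow_le_one hd'.le hd1' hkN.le
    have hσs : B'.d n ^ k1 ≤ B'.d n ^ kN := Real.rpow_le_rpow_of_exponent_ge hd' hd1' W.kNk
    have hmain := body_n (B := B) (I := I) (I1 := I1) (L := L) (π := π) (eE := eE) (fA := fA)
      (fB := fB) (lev := lev) (g := g) (vm := vm) (w := w) (q := q) (w0 := w0) (R := R)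
      (c₀ := c₀) (rg := rg) (n := n) (E := E n) (o := s₀ n) (i := i n) (J0 := J0 n)
      (v := v n) (t1 := t1 n) (t2 := t2 n) (t3 := t3 n) (R1 := R1 n) (Y := Y) (S := S n)
      (s := B'.d n ^ kN) (σ := B'.d n ^ k1) (α := α n) (β := β n) (γ := γ) (v1 := v1)
      H.pre.chart e3 e4 H.q0 hR0 (H.flag n _ hsI) e1.body (W.v0 n) (W.vv n) e5 e6 e7 hEI1 hEI
      e8 hκ1 hnear hRk hS1 e11 e12 e10.1 e10.2 (hp' _) hσs hs1 (H.rr0 n) z1 z2 z3 z4 hcap hm0'
      hm1' hm2' ho1' ho2' hη hK01 hK0Y (x := x) hαβ hu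
    refine hmain.trans ?_
    have hfin : Y ^ (49 + 19 * (q 0 + q 1 + q 2)) ≤ B'.d n ^ (-ε) := by
      rw [hY, ← Real.rpow_mul hd'.le]
      refine Real.rpow_le_rpow_of_exponent_ge hd' hd1' ?_
      have : δ * (49 + 19 * (q 0 + q 1 + q 2)) ≤ ε := hδQ
      linarith
    have hu0 : 0 < u 0 := (hp' _).trans_le (hu 0).1
    have hu1 : 0 < u 1 := (hp' _).trans_le (hu 1).1
    calc Y ^ (49 + 19 * (q 0 + q 1 + q 2)) *
        (B.d n ^ (-(c₀ + DN g q (v n) (t1 n) (t2 n) (t3 n))) * B'.d n ^ kN * (u 0 * u 1)) ≤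
        B'.d n ^ (-ε) *
        (B.d n ^ (-(c₀ + DN g q (v n) (t1 n) (t2 n) (t3 n))) * B'.d n ^ kN * (u 0 * u 1)) := by
          refine mul_le_mul_of_nonneg_right hfin ?_
          have := hp (-(c₀ + DN g q (v n) (t1 n) (t2 n) (t3 n)))
          have := hp' kN
          positivity
      _ = _ := by ring

end

end Crest.Agent.R136.Lab926
end

-- ▼ part R136/LabW10_926
section

/-!
# R136: END-LAB, window side, part 10 (helper926)

**`LabH.window`** : END-LAB in a window at a natural class.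
-/

set_option autoImplicit false
set_option linter.unusedSectionVars false
set_option linter.unusedVariables false

open Filter Topology

namespace Crest.Agent.R136.Lab926

open Finset
open Crest.Agent.R138.Ex926
open Crest.Agent.R138.Mk163 (zc zl rho alive)
open Crest.Agent.R138.MkRef627 (lc kc mem_alive)
open Crest.Agent.R136.Sh605
open Crest.Agent.R136.End403
open Crest.Agent.R136.Net191
open Crest.Agent.R136.NetQ186
open Crest.Agent.R136.GeoQ186
open Crest.Agent.R136.MkA627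
open Crest.Agent.R136.Wq638
open Crest.Agent.R136.Lq196
open Crest.Agent.R136.Qg926

section

variable {σ' : Type*} {B B' : Base} {I I1 J : ℕ → Finset (ℕ × ℝ)} {G : Geo σ' (Fin 3)}
    {L : ℕ → ℕ → Ln4} {π : Equiv.Perm (Fin 3)} {eE fA fB : ℕ → ℕ × ℝ → ℝ} {lev : ℕ → ℚ → ℕ}
    {A : ℕ → ℝ} {g : ℝ} {τ : Fin 3 → ℝ → ℝ} {f : ℕ → ℚ → ℕ → ℤ → ℕ} {b : ℕ → ℚ → ℕ → σ'}
    {vm : ℕ → ℚ → ℝ} {w : Fin 3 → ℕ → ℚ → ℝ} {q θ : Fin 3 → ℝ} {w0 R T0 : ℝ}
    {V T : Fin 11 → Prop} {PD : Set (Fin 11 → ℝ)} {DD : (Fin 11 → ℝ) → ℝ}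
    {rp : ℝ → Fin 11 → ℝ} {EE : ℝ → ℝ} {ν own : (Fin 11 → ℝ) → ℝ} {c₀ : ℝ} {rg : Rg}
    {S SJ : ℕ → ℝ} {X : ℕ → Fin 11 → ℝ} {wn : ℕ → ℝ} {DD' : Set (Fin 11 → ℝ)} {TT : ℕ → ℝ}
    {lam : (Fin 11 → ℝ) → ℝ} {R1 v t1 t2 t3 : ℕ → ℝ} {kN k1 v1 γ : ℝ}
    {co : ℕ → ℕ × ℝ → ℕ × ℝ → Fin 11 → ℝ} {o : ℝ → Fin 11 → ℝ} {i M : ℕ → ℕ} {J0 : ℕ → ℤ}
    {E : ℕ → Finset (ℕ × ℝ)} {s₀ : ℕ → ℕ × ℝ}

/-- a smaller margin -/
theorem WinH.half (W : WinH B B' I I1 J co θ w0 R T0 o S SJ X wn DD' TT lam R1 v t1 t2 t3 kN k1 v1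
    γ) : WinH B B' I I1 J co θ w0 R T0 o S SJ X wn DD' TT lam R1 v t1 t2 t3 kN k1 v1 (γ / 2) :=
  { W with
    hγ := half_pos W.hγ
    tg := fun n => by have := W.tg n; have := W.hγ; linarith
    tR := fun n => by have := W.tR n; have := W.hγ; linarith }

/-- own counts at the two boxes -/
theorem WinH.hown (W : WinH B B' I I1 J co θ w0 R T0 (ownQ θ w0 R V) S SJ X wn DD' TT lam R1 v t1
    t2 t3 kN k1 v1 γ)
    (ext : ExtQ B I I1 co monQ 2 R 0 w0 0 PD DD rp (ownQ θ w0 R V) EE T ν own c₀)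
    (oR : ∀ v : ℝ, 0 ≤ v → v ≤ 1 → ∀ k, ownQ θ w0 R V v k ≤ R) :
    ∀ᶠ n in (U : Filter ℕ), ∀ c ∈ ({c | c = 0 ∨ c = pdB k1 kN} : Set (Fin 11 → ℝ)),
      X n + wn n • c ∈ Leg monQ R ∧ own (X n + wn n • c) = 1 - v n - wn n * c 0 := by
  filter_upwards [W.hz.legal ‖pdB k1 kN‖, W.own0, W.own1, W.ev_w] with n h1 h2 h3 h4 c hc
  rcases hc with rfl | rfl
  · have e0 : X n + wn n • (0 : Fin 11 → ℝ) = X n := by simp
    rw [e0]
    refine ⟨W.leg n, ?_⟩
    have hv0 := W.v0 n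
    have hv1 := W.vv n
    have hv2 := W.hv1
    rw [ext.own_rot (X n) (W.leg n) (v n) hv0 (by linarith) (W.X0 n) h2]
    simp
  · have hl : X n + wn n • pdB k1 kN ∈ Leg monQ R :=
      ⟨h1 _ W.pdD le_rfl, fun k => (h3 k).trans (oR _ h4.1 h4.2 k)⟩
    refine ⟨hl, ?_⟩
    rw [ext.own_rot _ hl (v n + wn n * k1) h4.1 h4.2 (W.Xp0 n) h3]
    have e1 : pdB k1 kN 0 = k1 := rfl
    rw [e1]
    ring

set_option maxHeartbeats 1600000 in
/-- **END-LAB in a window at a natural class** -/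
theorem LabH.window (H : LabH B I I1 G L π eE fA fB lev A g τ f b vm w q θ w0 R T0 V T PD DD rp
    EE ν own c₀ rg) (hKM : ∀ V : ℝ, Crest.Agent.R138.Tub70.KM32 V) {v1 γ : ℝ} (hv1 : v1 < 1)
    (hγ : 0 < γ) :
    ∃ S : ℕ → ℝ, B.Sub S ∧ (∀ n, 1 ≤ S n) ∧ ∀ (B' : Base) (J : ℕ → Finset (ℕ × ℝ)) (SJ : ℕ → ℝ)
      (X : ℕ → Fin 11 → ℝ) (wn : ℕ → ℝ) (DD' : Set (Fin 11 → ℝ)) (TT : ℕ → ℝ)
      (lam : (Fin 11 → ℝ) → ℝ) (R1 v t1 t2 t3 : ℕ → ℝ) (kN k1 : ℝ),
      WinH B B' I I1 J (couQ B lev w w0 (incQ π L eE fA fB)) θ w0 R T0 (ownQ θ w0 R V) S SJ X wn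
        DD' TT lam R1 v t1 t2 t3 kN k1 v1 γ →
      ∀ ε : ℝ, 0 < ε → ∀ᶠ n in (U : Filter ℕ),
        ν (X n) + wn n * (lam (pdB k1 kN) + 3 * k1 + kN - ε) ≤
          c₀ + (g * v n + (1 - v n) - ((v n + t3 n) + (v n + t2 n) + (v n + t1 n)) -
            (q 0 * t3 n + q 1 * t1 n + q 2 * t2 n)) := by
  obtain ⟨S, hS, hS1, hG⟩ := H.exists_glob hv1 (half_pos hγ)
  refine ⟨S, hS, hS1, ?_⟩
  intro B' J SJ X wn DD' TT lam R1 v t1 t2 t3 kN k1 W ε hε
  have W' := W.half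
  have hown := W.hown H.ext H.oR
  obtain ⟨i, M, J0, E, s₀, hF⟩ := W'.exists_fam hG H.pre.zco hown
  -- the relation
  obtain ⟨e, he, hesub, hrele⟩ := exists_err B' (fun ε n => ∀ s ∈ J n, ∃ α β c : ℝ,
    |α| ≤ B'.d n ^ (-ε) ∧ |β| ≤ B'.d n ^ (-ε) ∧ ∀ y ∈ J n,
      zlab B I (couQ B lev w w0 (incQ π L eE fA fB)) monQ 2 X wn n 0 y =
        zlab B I (couQ B lev w w0 (incQ π L eE fA fB)) monQ 2 X wn n 0 s →
        |couQ B lev w w0 (incQ π L eE fA fB) n s y 7 / B.d n ^ X n 7 -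
          α * (couQ B lev w w0 (incQ π L eE fA fB) n s y 5 / B.d n ^ X n 5) -
          β * (couQ B lev w w0 (incQ π L eE fA fB) n s y 6 / B.d n ^ X n 6) - c| ≤
          B'.d n ^ (kN - ε)) W.rel
  have hch : ∀ n, ∃ ab : ℝ × ℝ, (s₀ n ∈ J n → ∃ α β c : ℝ,
      |α| ≤ B'.d n ^ (-(e n)) ∧ |β| ≤ B'.d n ^ (-(e n)) ∧ ∀ y ∈ J n,
      zlab B I (couQ B lev w w0 (incQ π L eE fA fB)) monQ 2 X wn n 0 y =
        zlab B I (couQ B lev w w0 (incQ π L eE fA fB)) monQ 2 X wn n 0 (s₀ n) →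
        |couQ B lev w w0 (incQ π L eE fA fB) n (s₀ n) y 7 / B.d n ^ X n 7 -
          α * (couQ B lev w w0 (incQ π L eE fA fB) n (s₀ n) y 5 / B.d n ^ X n 5) -
          β * (couQ B lev w w0 (incQ π L eE fA fB) n (s₀ n) y 6 / B.d n ^ X n 6) - c| ≤
          B'.d n ^ (kN - e n)) → s₀ n ∈ J n →
      (|ab.1| ≤ B'.d n ^ (-(e n)) ∧ |ab.2| ≤ B'.d n ^ (-(e n)) ∧ ∃ c : ℝ, ∀ y ∈ J n,
      zlab B I (couQ B lev w w0 (incQ π L eE fA fB)) monQ 2 X wn n 0 y =
        zlab B I (couQ B lev w w0 (incQ π L eE fA fB)) monQ 2 X wn n 0 (s₀ n) →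
        |couQ B lev w w0 (incQ π L eE fA fB) n (s₀ n) y 7 / B.d n ^ X n 7 -
          ab.1 * (couQ B lev w w0 (incQ π L eE fA fB) n (s₀ n) y 5 / B.d n ^ X n 5) -
          ab.2 * (couQ B lev w w0 (incQ π L eE fA fB) n (s₀ n) y 6 / B.d n ^ X n 6) - c| ≤
          B'.d n ^ (kN - e n)) := by
    intro n
    by_cases h : s₀ n ∈ J n ∧ ∃ α β c : ℝ,
      |α| ≤ B'.d n ^ (-(e n)) ∧ |β| ≤ B'.d n ^ (-(e n)) ∧ ∀ y ∈ J n,
      zlab B I (couQ B lev w w0 (incQ π L eE fA fB)) monQ 2 X wn n 0 y =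
        zlab B I (couQ B lev w w0 (incQ π L eE fA fB)) monQ 2 X wn n 0 (s₀ n) →
        |couQ B lev w w0 (incQ π L eE fA fB) n (s₀ n) y 7 / B.d n ^ X n 7 -
          α * (couQ B lev w w0 (incQ π L eE fA fB) n (s₀ n) y 5 / B.d n ^ X n 5) -
          β * (couQ B lev w w0 (incQ π L eE fA fB) n (s₀ n) y 6 / B.d n ^ X n 6) - c| ≤
          B'.d n ^ (kN - e n)
    · obtain ⟨h1, a, b, c, h2, h3, h4⟩ := h
      exact ⟨(a, b), fun _ _ => ⟨h2, h3, c, h4⟩⟩
    · exact ⟨(0, 0), fun h1 h2 => absurd ⟨h2, h1 h2⟩ h⟩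
  choose ab hab using hch
  have hgood : ∀ᶠ n in (U : Filter ℕ), |(ab n).1| ≤ B'.d n ^ (-(e n)) ∧
      |(ab n).2| ≤ B'.d n ^ (-(e n)) ∧ ∃ c : ℝ, ∀ y ∈ J n,
      zlab B I (couQ B lev w w0 (incQ π L eE fA fB)) monQ 2 X wn n 0 y =
        zlab B I (couQ B lev w w0 (incQ π L eE fA fB)) monQ 2 X wn n 0 (s₀ n) →
        |couQ B lev w w0 (incQ π L eE fA fB) n (s₀ n) y 7 / B.d n ^ X n 7 -
          (ab n).1 * (couQ B lev w w0 (incQ π L eE fA fB) n (s₀ n) y 5 / B.d n ^ X n 5) -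
          (ab n).2 * (couQ B lev w w0 (incQ π L eE fA fB) n (s₀ n) y 6 / B.d n ^ X n 6) - c| ≤
          B'.d n ^ (kN - e n) := by
    filter_upwards [hrele, hF.smem] with n h1 h2
    exact hab n (fun h3 => h1 _ h3) h2
  have hα : ∀ ε : ℝ, 0 < ε → ∀ᶠ n in (U : Filter ℕ), |(ab n).1| ≤ B'.d n ^ (-ε) ∧
      |(ab n).2| ≤ B'.d n ^ (-ε) := by
    intro ε hε
    filter_upwards [hgood, sub_le_rpow hesub hε] with n h1 h2
    exact ⟨h1.1.trans h2.2, h1.2.1.trans h2.2⟩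
  have hrel : ∀ ε : ℝ, 0 < ε → ∀ᶠ n in (U : Filter ℕ), ∃ c : ℝ, ∀ y ∈ J n,
      zlab B I (couQ B lev w w0 (incQ π L eE fA fB)) monQ 2 X wn n 0 y =
        zlab B I (couQ B lev w w0 (incQ π L eE fA fB)) monQ 2 X wn n 0 (s₀ n) →
        |couQ B lev w w0 (incQ π L eE fA fB) n (s₀ n) y 7 / B.d n ^ X n 7 -
          (ab n).1 * (couQ B lev w w0 (incQ π L eE fA fB) n (s₀ n) y 5 / B.d n ^ X n 5) -
          (ab n).2 * (couQ B lev w w0 (incQ π L eE fA fB) n (s₀ n) y 6 / B.d n ^ X n 6) - c| ≤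
          B'.d n ^ (kN - ε) := by
    intro ε hε
    filter_upwards [hgood, sub_le_rpow hesub hε] with n h1 h2
    obtain ⟨-, -, c, hc⟩ := h1
    refine ⟨c, fun y hy hyl => (hc y hy hyl).trans ?_⟩
    rw [sub_eq_add_neg, Real.rpow_add (B'.pos n), sub_eq_add_neg, Real.rpow_add (B'.pos n)]
    exact mul_le_mul_of_nonneg_left h2.2 (Real.rpow_pos_of_pos (B'.pos n) _).le
  have hslab := W'.slabIn H.wpos hF hα hrel
  have hbody := W.bodyIn H hG hF hα
  filter_upwards [hslab.concl2 hKM hbody (half_pos hε), W'.T_low hG (half_pos hε)] with n h1 h2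
  have hd := B.pos n
  have hp' : ∀ t : ℝ, 0 < B'.d n ^ t := fun t => Real.rpow_pos_of_pos (B'.pos n) t
  have hdw : ∀ t : ℝ, B'.d n ^ t = B.d n ^ (wn n * t) := fun t => by
    rw [W.hz.base n, ← Real.rpow_mul hd.le]
  have h3 : B.d n ^ (-(ν (X n))) * B'.d n ^ (ε / 2) *
      B'.d n ^ (-lam (pdB k1 kN) - 3 * k1 + ε / 2) ≤
      B.d n ^ (-(c₀ + DN g q (v n) (t1 n) (t2 n) (t3 n))) * B'.d n ^ kN :=
    (mul_le_mul_of_nonneg_right h2 (hp' _).le).trans h1
  rw [hdw, hdw, hdw, ← Real.rpow_add hd, ← Real.rpow_add hd, ← Real.rpow_add hd,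
    Real.rpow_le_rpow_left_iff_of_base_lt_one hd (B.lt n)] at h3
  unfold DN at h3
  linarith

end

end Crest.Agent.R136.Lab926
end

-- ▼ part R136/Dry_774
section

/-!
# R136: the thick table (helper774)

All rows plugged into `TopB550.ThickTable`.

* **`thickTable (0 < η) (η ≤ 1 / 8) : ThickTable η`**
-/

set_option autoImplicit false
set_option linter.unusedVariables false

open Finset Filter Topology

namespace Crest.Agent.R136.Dry774

open Crest.Agent.R136.Net191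
open Crest.Agent.R136.NetQ186
open Crest.Agent.R136.Wq638
open Crest.Agent.R136.Top484
open Crest.Agent.R136.NatT550
open Crest.Agent.R136.TopB550

/-- **T.Z2** -/
theorem caseZ2 {η : ℝ} (hη : η ≤ 1 / 8) : Dead η pZ2 := by
  intro p D I1 π eE fA fB V T w0 R T0 PD ν own c₀ h hp
  have h1 : (1 : ℝ) / 2 < 1 := by norm_num
  have hθ := h.tp.ok.θ1
  exact Z2e403.z2_win Crest.Agent.R138.KMs630.km32 h hp hη (v := 1 / 2) (by norm_num) h1
    ((LabT371.labH_of_thick h).window Crest.Agent.R138.KMs630.km32 (by norm_num)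
      (lt_min (mul_pos hθ (by norm_num)) (by norm_num)))

/-- **the thick table** -/
theorem thickTable {η : ℝ} (hη0 : 0 < η) (hη : η ≤ 1 / 8) : ThickTable η where
  A := HR829.caseA Crest.Agent.R138.KMs630.km32 η
  F := LadF115.caseF hη
  Z2 := caseZ2 hη
  E := Re436.caseE (WinC344.winE hη) (F2w569.caseF2 hη)
    (HR829.caseA Crest.Agent.R138.KMs630.km32 η) (C1865.caseC1 hη) (C1s940.caseC1s hη0 hη)
  E3 := Re436.caseE3 (F2w569.caseF2 hη)
    (HR829.caseA Crest.Agent.R138.KMs630.km32 η) (C1865.caseC1 hη) (C1s940.caseC1s hη0 hη)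
  D1 := Dl667.caseD1 hη
  D2 := Xd272.caseD2 hη
  C1 := C1865.caseC1 hη
  C1s := C1s940.caseC1s hη0 hη
  C2 := C2p400.caseC2 hη
  C2z := Z2H57.caseC2z' hη
  L := TL196.dead_L_end (by linarith) End882.seamEnd
  C3 := C3h795.caseC3 hη Crest.Agent.R138.KMs630.km32

end Crest.Agent.R136.Dry774
end

-- ▼ part R136/SGa1_480
section

/-!
# R136 (helper480): the gauge step of the W-chart, part 1: finite lemmas

* `chart_coU` : the chart in multiplicative units;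
* `coW_gau2` : chart coordinates of labels with different gauges;
* `gauU` : sizes in the units, at legal natural exponents;
* `drop_narrow` : the dropped slots are infinitely narrow.
-/

set_option autoImplicit false
set_option linter.unusedVariables false

open Finset Filter Topology

namespace Crest.Agent.R136.SGa480

open Crest.Agent.R136.Net191
open Crest.Agent.R136.NetW191
open Crest.Agent.R136.PqG464 (chart_scl)
open Crest.Agent.R136.PrW464
open Crest.Agent.R136.LadW697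
open Crest.Agent.R136.LadG697
open Crest.Agent.R136.Zpr779
open Crest.Agent.R136.Qg926
open Crest.Agent.R136.EvW938
open Crest.Agent.R136.GauW619
open Crest.Agent.R136.AwJ774
open Crest.Agent.R136.K2S774
open Crest.Agent.R138.Ex926

/-- **the chart in the units `u`** -/
theorem chart_coU {κ : ℕ → ℝ} (hκ : ∀ n, |κ n| ≤ 1) {u : ℕ → Fin 18 → ℝ} (hu : ∀ n, GrU (u n))
    (F : ℕ → ℕ × ℝ → FW) (n : ℕ) (I : Finset (ℕ × ℝ)) : Chart I (coU u κ F n) monW 67 := by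
  refine chart_scl (chartW I (F n) (hκ n)) (hu n).pos fun k e he => le_of_eq ?_
  obtain ⟨l, hl, rfl⟩ := List.mem_map.1 (List.mem_toFinset.1 he)
  rw [← (hu n).mul k l hl, Finset.prod_list_map_count]
  refine Finset.prod_subset (Finset.subset_univ _) fun s _ hs => ?_
  rw [List.count_eq_zero.2 (fun h => hs (List.mem_toFinset.2 h)), pow_zero]

theorem coW_gau2_frame (κ : ℝ) (e e' : Fin 14 → ℝ) (f f' : FW) (i : Fin 4) :
    coW κ (gau κ e f) (gau κ e' f') (Fin.castAdd 14 i) = coW κ f f' (Fin.castAdd 14 i) := by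
  rw [coW_left, coW_left, gau_g, gau_g]

/-- **labels with different gauges** -/
theorem coW_gau2 (κ : ℝ) (e e' : Fin 14 → ℝ) (f f' : FW) (q : Fin 14) :
    coW κ (gau κ e f) (gau κ e' f') (Fin.natAdd 4 q) =
      coW κ f f' (Fin.natAdd 4 q) + e' q - tr κ (rel κ f.g f'.g) e q := by
  rw [coW_right, coW_right, gau_g, gau_G, gau_G]
  have e1 : f'.G + tr κ (inv κ f'.g) e' - (f.G + tr κ (inv κ f.g) e) =
      (f'.G - f.G) + tr κ (inv κ f'.g) e' - tr κ (inv κ f.g) e := by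
    abel
  have e2 : tr κ f'.g (tr κ (inv κ f.g) e) = tr κ (rel κ f.g f'.g) e := by
    rw [← tr_mul, ← rel_eq]
  rw [e1, tr_sub, tr_add, tr_inv, e2, Pi.sub_apply, Pi.add_apply]

section

variable {B B' : Base} {κ w : ℕ → ℝ} {u : ℕ → Fin 18 → ℝ} {F : ℕ → ℕ × ℝ → FW}
  {e : ℕ → ℕ × ℝ → Fin 14 → ℝ} {Y : ℕ → Fin 18 → ℝ} {n : ℕ} {c : Fin 18 → ℝ} {K : ℝ}
  {x y : ℕ × ℝ}

/-- the frame slots do not see the gauge -/
theorem coU_fG_frame (i : Fin 4) :
    coU u κ (fG κ e F) n x y (Fin.castAdd 14 i) = coU u κ F n x y (Fin.castAdd 14 i) := by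
  unfold coU fG
  rw [coW_gau2_frame]

theorem coU_fG_zero : coU u κ (fG κ e F) n x y 0 = coU u κ F n x y 0 :=
  coU_fG_frame (u := u) (κ := κ) (e := e) (F := F) (n := n) (x := x) (y := y) 0

/-- **one flag slot of the gauged chart** -/
theorem gauU (hκ : |κ n| ≤ 1) (hu : GrU (u n)) (hB : B'.d n = B.d n ^ w n)
    (hL : Legal monW (Y n + w n • c)) (hK : 1 ≤ K)
    (hf : ∀ i : Fin 4, |coU u κ F n x y (Fin.castAdd 14 i)| ≤
      K * (B.d n ^ Y n (Fin.castAdd 14 i) * B'.d n ^ c (Fin.castAdd 14 i)))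
    (hx : ∀ q : Fin 14, u n (Fin.natAdd 4 q) * |e n x q| ≤
      K * (B.d n ^ Y n (Fin.natAdd 4 q) * B'.d n ^ c (Fin.natAdd 4 q))) {q : Fin 14}
    (hy : u n (Fin.natAdd 4 q) * |e n y q| ≤
      K * (B.d n ^ Y n (Fin.natAdd 4 q) * B'.d n ^ c (Fin.natAdd 4 q)))
    (hq : |coU u κ F n x y (Fin.natAdd 4 q)| ≤
      K * (B.d n ^ Y n (Fin.natAdd 4 q) * B'.d n ^ c (Fin.natAdd 4 q))) :
    |coU u κ (fG κ e F) n x y (Fin.natAdd 4 q)| ≤
      472 * K ^ 7 * (B.d n ^ Y n (Fin.natAdd 4 q) * B'.d n ^ c (Fin.natAdd 4 q)) := by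
  set S : Fin 18 → ℝ := fun s => B.d n ^ (Y n + w n • c) s / u n s with hS
  have hd : ∀ s, B.d n ^ (Y n + w n • c) s = B.d n ^ Y n s * B'.d n ^ c s := by
    intro s
    rw [hB, ← Real.rpow_mul (B.pos n).le, ← Real.rpow_add (B.pos n)]
    rfl
  have hSd : SidesW S := sidesW_of_legalG (B.pos n) (B.lt n).le hu hL
  have hup := hu.pos
  have hK0 : 0 ≤ K := by linarith
  have hS0 : ∀ s, 0 ≤ B.d n ^ Y n s * B'.d n ^ c s := fun s => by
    have := B.pos n
    have := B'.pos n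
    positivity
  have conv : ∀ s (a : ℝ), u n s * |a| ≤ K * (B.d n ^ Y n s * B'.d n ^ c s) →
      |a| ≤ K * S s := by
    intro s a h
    rw [hS]
    simp only
    rw [hd s, ← mul_div_assoc, le_div_iff₀ (hup s), mul_comm]
    exact h
  have h1 : ∀ i : Fin 4, |rel (κ n) (F n x).g (F n y).g i| ≤ K * S (Fin.castAdd 14 i) := by
    intro i
    refine conv _ _ ?_
    have := hf i
    unfold coU at this
    rwa [abs_mul, abs_of_pos (hup _), coW_left] at this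
  have h2 : ∀ q : Fin 14, |e n x q| ≤ K * S (Fin.natAdd 4 q) := fun q => conv _ _ (hx q)
  have h3 := tr_size hκ hSd hK h1 h2 q
  have e1 : coU u κ (fG κ e F) n x y (Fin.natAdd 4 q) =
      coU u κ F n x y (Fin.natAdd 4 q) + u n (Fin.natAdd 4 q) * e n y q -
        u n (Fin.natAdd 4 q) * tr (κ n) (rel (κ n) (F n x).g (F n y).g) (e n x) q := by
    unfold coU fG
    rw [coW_gau2]
    ring
  have h4 : |u n (Fin.natAdd 4 q) * tr (κ n) (rel (κ n) (F n x).g (F n y).g) (e n x) q| ≤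
      470 * K ^ 7 * (B.d n ^ Y n (Fin.natAdd 4 q) * B'.d n ^ c (Fin.natAdd 4 q)) := by
    rw [abs_mul, abs_of_pos (hup _)]
    have h5 := mul_le_mul_of_nonneg_left h3 (hup (Fin.natAdd 4 q)).le
    refine h5.trans (le_of_eq ?_)
    rw [hS]
    simp only
    rw [hd]
    have := (hup (Fin.natAdd 4 q)).ne'
    field_simp
  have h5 : |u n (Fin.natAdd 4 q) * e n y q| ≤
      K * (B.d n ^ Y n (Fin.natAdd 4 q) * B'.d n ^ c (Fin.natAdd 4 q)) := by
    rw [abs_mul, abs_of_pos (hup _)]; exact hy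
  have hK7 : K ≤ K ^ 7 := by
    calc K = K ^ 1 := (pow_one K).symm
      _ ≤ K ^ 7 := pow_le_pow_right₀ hK (by norm_num)
  have h6 := mul_le_mul_of_nonneg_right hK7 (hS0 (Fin.natAdd 4 q))
  rw [e1]
  have h7 := abs_sub (coU u κ F n x y (Fin.natAdd 4 q) + u n (Fin.natAdd 4 q) * e n y q)
    (u n (Fin.natAdd 4 q) * tr (κ n) (rel (κ n) (F n x).g (F n y).g) (e n x) q)
  have h8 := abs_add_le (coU u κ F n x y (Fin.natAdd 4 q)) (u n (Fin.natAdd 4 q) * e n y q)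
  linarith

/-- **a whole box of the gauged chart** -/
theorem gauU_box (hκ : |κ n| ≤ 1) (hu : GrU (u n)) (hB : B'.d n = B.d n ^ w n)
    (hL : Legal monW (Y n + w n • c)) (hK : 1 ≤ K)
    (hold : ∀ s, |coU u κ F n x y s| ≤ K * (B.d n ^ Y n s * B'.d n ^ c s))
    (hx : ∀ q : Fin 14, u n (Fin.natAdd 4 q) * |e n x q| ≤
      K * (B.d n ^ Y n (Fin.natAdd 4 q) * B'.d n ^ c (Fin.natAdd 4 q)))
    (hy : ∀ q : Fin 14, u n (Fin.natAdd 4 q) * |e n y q| ≤
      K * (B.d n ^ Y n (Fin.natAdd 4 q) * B'.d n ^ c (Fin.natAdd 4 q))) (s : Fin 18) :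
    |coU u κ (fG κ e F) n x y s| ≤ 472 * K ^ 7 * (B.d n ^ Y n s * B'.d n ^ c s) := by
  have hK7 : K ≤ K ^ 7 := by
    calc K = K ^ 1 := (pow_one K).symm
      _ ≤ K ^ 7 := pow_le_pow_right₀ hK (by norm_num)
  have hS0 : ∀ s, 0 ≤ B.d n ^ Y n s * B'.d n ^ c s := fun s => by
    have := B.pos n
    have := B'.pos n
    positivity
  refine Fin.addCases (m := 4) (n := 14) (fun i => ?_) (fun q => ?_) s
  · rw [coU_fG_frame]
    refine (hold _).trans (mul_le_mul_of_nonneg_right ?_ (hS0 _))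
    have : 0 ≤ K ^ 7 := by positivity
    linarith
  · exact gauU hκ hu hB hL hK (fun i => hold _) hx (hy q) (hold _)

end

/-! ### exponents -/

@[simp] theorem natX_zero (X : ℕ → Fin 18 → ℝ) (n : ℕ) : natX X n 0 = X n 0 := by
  simp [natX, grW, wz, wc, wn]

@[simp] theorem natX_one (X : ℕ → Fin 18 → ℝ) (n : ℕ) : natX X n 1 = X n 1 := by
  simp [natX, grW, wz, wc, wn]

@[simp] theorem natX_last (X : ℕ → Fin 18 → ℝ) (n : ℕ) : natX X n 17 = X n 17 := by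
  simp [natX, grW, wz, wc, wn]

/-- base of the new frame -/
noncomputable def Xn (X : ℕ → Fin 18 → ℝ) (w : ℕ → ℝ) (w1 : ℝ) (n : ℕ) : Fin 18 → ℝ :=
  natX X n + w n • (-(w1 • wtR))

theorem Xn_apply (X : ℕ → Fin 18 → ℝ) (w : ℕ → ℝ) (w1 : ℝ) (n : ℕ) (k : Fin 18) :
    Xn X w w1 n k = natX X n k - w n * (w1 * wtR k) := by
  simp only [Xn, Pi.add_apply, Pi.smul_apply, Pi.neg_apply, smul_eq_mul]; ring

/-- the new base is natural -/
theorem Xn_grW (X : ℕ → Fin 18 → ℝ) (w : ℕ → ℝ) (w1 : ℝ) (n : ℕ) :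
    Xn X w w1 n = grW (X n 0 - w n * w1) (X n 1 - w n * w1) (X n 17 - 9 * (w n * w1)) := by
  funext k
  rw [Xn_apply]
  simp only [natX, grW, wtR]; ring

/-- sides of the new frame -/
theorem side_Xn {B B' : Base} {w : ℕ → ℝ} {n : ℕ} (hB : B'.d n = B.d n ^ w n)
    (X : ℕ → Fin 18 → ℝ) (w1 : ℝ) (p : Fin 18 → ℝ) (k : Fin 18) :
    B.d n ^ Xn X w w1 n k * B'.d n ^ p k =
      B.d n ^ natX X n k * B'.d n ^ (p k - w1 * wtR k) := by
  rw [Xn_apply, hB, ← Real.rpow_mul (B.pos n).le, ← Real.rpow_mul (B.pos n).le,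
    ← Real.rpow_add (B.pos n), ← Real.rpow_add (B.pos n)]
  congr 1
  ring

theorem ex_list17 : ∀ k : Fin 18, 4 ≤ k → k ≠ 17 →
    ∃ l ∈ mlW 17, l.count k = 1 ∧ ∀ s ∈ l, s ≠ k → s < 4 := by decide

/-- **the dropped slots are infinitely narrow** -/
theorem drop_narrow {X : ℕ → Fin 18 → ℝ} {w : ℕ → ℝ} {Dr : Set (Fin 18)}
    (hb : AwZ146.BasX monW (mA monW (actW Dr)) (mA monW (actW Dr)) X w)
    (hn : ∀ n k, k ∉ Dr → X n k = natX X n k) (hD : ∀ k ∈ Dr, 4 ≤ k ∧ k ≠ 17) {k : Fin 18}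
    (hk : k ∈ Dr) (R : ℝ) : ∀ᶠ n in (U : Filter ℕ), natX X n k + R * w n ≤ X n k := by
  obtain ⟨l, hl, h1, h2⟩ := ex_list17 k (hD k hk).1 (hD k hk).2
  have he : (fun s => l.count s) ∈ monW.mon 17 := List.mem_toFinset.2 (List.mem_map.2 ⟨l, hl, rfl⟩)
  have hne : (fun s => l.count s) ∉ (mA monW (actW Dr)).mon 17 := by
    intro h
    obtain ⟨h3, h4⟩ := mem_mA.1 h
    have h5 : l.count k = 0 := h4.2 k hk
    omega
  filter_upwards [hb.gap 17 _ he hne R] with n h3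
  have e1 : ∑ s, ((l.count s : ℕ) : ℝ) * X n s - ∑ s, ((l.count s : ℕ) : ℝ) * natX X n s =
      X n k - natX X n k := by
    rw [← Finset.sum_sub_distrib, Finset.sum_eq_single k]
    · rw [h1]; push_cast; ring
    · intro s _ hs
      by_cases hsl : s ∈ l
      · have h4 := h2 s hsl hs
        have h5 : s ∉ Dr := fun h => absurd (hD s h).1 (not_le.2 h4)
        rw [hn n s h5]; ring
      · rw [List.count_eq_zero.2 hsl]; push_cast; ring
    · intro h; exact absurd (Finset.mem_univ k) h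
  have e2 : ∑ s, ((l.count s : ℕ) : ℝ) * natX X n s = natX X n 17 := by
    rw [← sum_count]
    exact grW_list _ _ _ 17 l hl
  rw [natX_last] at e2
  linarith

end Crest.Agent.R136.SGa480
end

-- ▼ part R136/SGa2_480
section

/-!
# R136 (helper480): the gauge step of the W-chart, part 2: boxes of the class in the new chart

Over `GauW`: exponents of the class frame, old boxes in natural sides, size of the gauge, new boxes.
-/

set_option autoImplicit false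
set_option linter.unusedVariables false
set_option linter.unusedSectionVars false

open Finset Filter Topology

namespace Crest.Agent.R136.SGa480

open Crest.Agent.R136.Net191
open Crest.Agent.R136.NetW191
open Crest.Agent.R136.PrW464
open Crest.Agent.R136.LadW697
open Crest.Agent.R136.LadG697
open Crest.Agent.R136.Zpr779
open Crest.Agent.R136.Qg926
open Crest.Agent.R136.EvW938
open Crest.Agent.R136.GauW619
open Crest.Agent.R136.AwJ774
open Crest.Agent.R136.K2S774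
open Crest.Agent.R138.Ex926

/-! ### exponents of the class frame -/

open Classical in
/-- record box of level `v` -/
noncomputable def cR (θ : Fin 3 → ℝ) (Dr : Set (Fin 18)) (bC : Fin 18 → ℝ) (v : ℝ) (k : Fin 18) : ℝ :=
  if k ∈ Dr then bC k else v * btW θ k

open Classical in
/-- own box of level `v` -/
noncomputable def cO (θ : Fin 3 → ℝ) (V Dr : Set (Fin 18)) (bC : Fin 18 → ℝ) (K v : ℝ)
    (k : Fin 18) : ℝ :=
  if k = 0 then v else if k ∈ V then v * btW θ k else if k ∈ Dr then bC k else K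

open Classical in
/-- own box of level `0`, cut at the height `v` -/
noncomputable def cU (V Dr : Set (Fin 18)) (bC : Fin 18 → ℝ) (K v : ℝ) (k : Fin 18) : ℝ :=
  if k = 0 then v else if k ∈ V then 0 else if k ∈ Dr then bC k else K

theorem mem_two : ∀ l ∈ mlW 2, ∃ s ∈ l, s ≠ 0 ∧ s < 4 := by decide
theorem mem_three : ∀ l ∈ mlW 3, ∃ s ∈ l, s ≠ 0 ∧ s < 4 := by decide
theorem nil_zero : mlW 0 = [] := by decide
theorem nil_one : mlW 1 = [] := by decide

theorem sum_ge_one {l : List (Fin 18)} {c : Fin 18 → ℝ} (h0 : ∀ s ∈ l, 0 ≤ c s) {s : Fin 18}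
    (hs : s ∈ l) : c s ≤ (l.map c).sum := by
  induction l with
  | nil => simp at hs
  | cons a l ih =>
    simp only [List.map_cons, List.sum_cons]
    have ha := h0 a List.mem_cons_self
    have hl : 0 ≤ (l.map c).sum := by
      refine List.sum_nonneg fun x hx => ?_
      obtain ⟨y, hy, rfl⟩ := List.mem_map.1 hx
      exact h0 y (List.mem_cons_of_mem _ hy)
    rcases List.mem_cons.1 hs with rfl | h
    · linarith
    · linarith [ih (fun s hs => h0 s (List.mem_cons_of_mem _ hs)) h]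

theorem sum_le_list {l : List (Fin 18)} {c c' : Fin 18 → ℝ} (h : ∀ s ∈ l, c s ≤ c' s) :
    (l.map c).sum ≤ (l.map c').sum := by
  induction l with
  | nil => simp
  | cons a l ih =>
    simp only [List.map_cons, List.sum_cons]
    exact add_le_add (h a List.mem_cons_self) (ih fun s hs => h s (List.mem_cons_of_mem _ hs))

theorem btW_list (θ : Fin 3 → ℝ) (v : ℝ) {k : Fin 18} {l : List (Fin 18)} (hl : l ∈ mlW k) :
    (l.map fun s => v * btW θ s).sum = v * btW θ k := by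
  have h : (fun s => v * btW θ s) = grW v (-θ 1 * v) ((1 - θ 0) * v) := by
    funext s; simp only [btW, grW]; ring
  rw [h, grW_list _ _ _ k l hl]
  exact (congrFun h k).symm

theorem cR_mem (θ : Fin 3 → ℝ) (Dr : Set (Fin 18)) (bC : Fin 18 → ℝ) (v : ℝ) :
    cR θ Dr bC v ∈ cn QW (actW Dr) := by
  rw [mem_cnW]
  intro k hk l hl hs
  have e1 : (l.map (cR θ Dr bC v)).sum = (l.map fun s => v * btW θ s).sum := by
    congr 1
    refine List.map_congr_left fun s hsl => ?_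
    simp only [cR, if_neg (hs s hsl)]
  rw [e1, btW_list θ v hl]
  simp only [cR, if_neg hk]
  exact le_rfl

section

variable {θ : Fin 3 → ℝ} {V Dr : Set (Fin 18)} {bC : Fin 18 → ℝ} {K v : ℝ}

/-- common part: every wall of a slot off `{0} ∪ V` has a member off `{0} ∪ V` -/
theorem wall_out (capV : ∀ k, 4 ≤ k → ∀ l ∈ mlW k, (∀ s ∈ l, s = 0 ∨ s ∈ V) → k ∈ V)
    (hV : ∀ k ∈ V, 4 ≤ k) {k : Fin 18} (h0 : k ≠ 0) (hkV : k ∉ V) {l : List (Fin 18)}
    (hl : l ∈ mlW k) : ∃ s ∈ l, s ≠ 0 ∧ s ∉ V := by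
  by_cases h4 : 4 ≤ k
  · by_contra hcon
    push Not at hcon
    refine hkV (capV k h4 l hl fun s hs => ?_)
    by_cases h : s = 0
    · exact Or.inl h
    · exact Or.inr (hcon s hs h)
  · have hk : k = 1 ∨ k = 2 ∨ k = 3 := by omega
    rcases hk with rfl | rfl | rfl
    · rw [nil_one] at hl; simp at hl
    · obtain ⟨s, h1, h2, h3⟩ := mem_two l hl
      exact ⟨s, h1, h2, fun h => absurd (hV s h) (not_le.2 h3)⟩
    · obtain ⟨s, h1, h2, h3⟩ := mem_three l hl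
      exact ⟨s, h1, h2, fun h => absurd (hV s h) (not_le.2 h3)⟩

theorem cO_mem (capV : ∀ k, 4 ≤ k → ∀ l ∈ mlW k, (∀ s ∈ l, s = 0 ∨ s ∈ V) → k ∈ V)
    (hV : ∀ k ∈ V, 4 ≤ k ∧ 0 < btW θ k) (h0 : btW θ 0 = 1) (hv : 0 ≤ v)
    (hK : ∀ k, v * btW θ k ≤ K) (hK0 : 0 ≤ K) : cO θ V Dr bC K v ∈ cn QW (actW Dr) := by
  classical
  rw [mem_cnW]
  intro k hk l hl hs
  have hge : ∀ s ∈ l, v * btW θ s ≤ cO θ V Dr bC K v s := by
    intro s hsl
    simp only [cO]
    split_ifs with a b c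
    · rw [a, h0, mul_one]
    · exact le_rfl
    · exact absurd c (hs s hsl)
    · exact hK s
  have hnn : ∀ s ∈ l, 0 ≤ cO θ V Dr bC K v s := by
    intro s hsl
    simp only [cO]
    split_ifs with a b c
    · exact hv
    · exact mul_nonneg hv (hV s b).2.le
    · exact absurd c (hs s hsl)
    · exact hK0
  by_cases k0 : k = 0
  · subst k0; rw [nil_zero] at hl; simp at hl
  by_cases kV : k ∈ V
  · have e1 : cO θ V Dr bC K v k = v * btW θ k := by simp only [cO, if_neg k0, if_pos kV]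
    rw [e1, ← btW_list θ v hl]
    exact sum_le_list hge
  · have e1 : cO θ V Dr bC K v k = K := by simp only [cO, if_neg k0, if_neg kV, if_neg hk]
    obtain ⟨s, s1, s2, s3⟩ := wall_out capV (fun k h => (hV k h).1) k0 kV hl
    have e2 : cO θ V Dr bC K v s = K := by
      simp only [cO, if_neg s2, if_neg s3, if_neg (hs s s1)]
    rw [e1]
    have := sum_ge_one hnn s1
    rwa [e2] at this

theorem cU_mem (capV : ∀ k, 4 ≤ k → ∀ l ∈ mlW k, (∀ s ∈ l, s = 0 ∨ s ∈ V) → k ∈ V)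
    (hV : ∀ k ∈ V, 4 ≤ k) (hv : 0 ≤ v) (hK0 : 0 ≤ K) : cU V Dr bC K v ∈ cn QW (actW Dr) := by
  classical
  rw [mem_cnW]
  intro k hk l hl hs
  have hnn : ∀ s ∈ l, 0 ≤ cU V Dr bC K v s := by
    intro s hsl
    simp only [cU]
    split_ifs with a b c
    · exact hv
    · exact le_rfl
    · exact absurd c (hs s hsl)
    · exact hK0
  by_cases k0 : k = 0
  · subst k0; rw [nil_zero] at hl; simp at hl
  by_cases kV : k ∈ V
  · have e1 : cU V Dr bC K v k = 0 := by simp only [cU, if_neg k0, if_pos kV]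
    rw [e1]
    refine List.sum_nonneg fun x hx => ?_
    obtain ⟨y, hy, rfl⟩ := List.mem_map.1 hx
    exact hnn y hy
  · have e1 : cU V Dr bC K v k = K := by simp only [cU, if_neg k0, if_neg kV, if_neg hk]
    obtain ⟨s, s1, s2, s3⟩ := wall_out capV hV k0 kV hl
    have e2 : cU V Dr bC K v s = K := by
      simp only [cU, if_neg s2, if_neg s3, if_neg (hs s s1)]
    rw [e1]
    have := sum_ge_one hnn s1
    rwa [e2] at this

end

theorem wtR_ge (k : Fin 18) : 1 ≤ wtR k := by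
  fin_cases k <;> simp [wtR, grW, wz, wc, wn] <;> norm_num

theorem wtR_le (k : Fin 18) : wtR k ≤ 9 := by
  fin_cases k <;> simp [wtR, grW, wz, wc, wn] <;> norm_num

/-- record exponents -/
theorem vbt_bd {θ : Fin 3 → ℝ} {w1 R1 T1 : ℝ} (h : BigW θ w1 R1 T1) {v : ℝ} (h0 : 0 ≤ v)
    (h1 : v ≤ 1) (k : Fin 18) : 1 - w1 * wtR k ≤ v * btW θ k ∧ v * btW θ k ≤ R1 - w1 * wtR k := by
  have a := h.path_ge h0 h1 k
  have b := (h.path_leg h0 h1).2 k
  rw [pathW_eq] at a b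
  constructor <;> nlinarith

theorem vbt_abs {θ : Fin 3 → ℝ} {w1 R1 T1 : ℝ} (h : BigW θ w1 R1 T1) {v : ℝ} (h0 : 0 ≤ v)
    (h1 : v ≤ 1) (k : Fin 18) : |v * btW θ k| ≤ R1 := by
  obtain ⟨a, b⟩ := vbt_bd h h0 h1 k
  have c := h.w0pos
  have d := h.R0
  have t := h.T0
  have e1 := wtR_ge k
  have e2 := wtR_le k
  rw [abs_le]
  constructor <;> nlinarith

section main

variable {θ : Fin 3 → ℝ} {g : ℝ} {q : Fin 3 → ℝ} {V Dr : Set (Fin 18)}
  {P : Set (Fin 18 → ℝ)} {ν own : (Fin 18 → ℝ) → ℝ} {r0 : Fin 18 → ℝ}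
  {B B' : Base} {I0 J : ℕ → Finset (ℕ × ℝ)} {κ : ℕ → ℝ} {u : ℕ → Fin 18 → ℝ}
  {F : ℕ → ℕ × ℝ → FW} {X : ℕ → Fin 18 → ℝ} {w Tn To : ℕ → ℝ}
  {lam lo : (Fin 18 → ℝ) → ℝ} {w1 R1 T1 : ℝ} {bC : Fin 18 → ℝ}
  {Cl E : ℕ → Finset (ℕ × ℝ)} {s₀ : ℕ → ℕ × ℝ} {e : ℕ → ℕ × ℝ → Fin 14 → ℝ}
  {V' Zs : Set (Fin 18)}

variable (H : GauW θ g q V Dr P ν own r0 B B' I0 J κ u F X w Tn To lam lo w1 R1 T1 bC Cl E s₀ e V' Zs)

include H

theorem hB (n : ℕ) : B'.d n = B.d n ^ w n := H.iw.win.base n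

theorem sub_I0 : ∀ᶠ n in (U : Filter ℕ), E n ⊆ I0 n := by
  filter_upwards [H.esub, H.cls.csub, H.cls.sub] with n a b c using (a.trans b).trans c

theorem bC_le {k : Fin 18} (hk : k ∉ Dr) : bC k ≤ 0 := by
  have := H.bhi k hk 0 le_rfl zero_le_one
  rwa [zero_mul] at this

theorem V_not_Dr {k : Fin 18} (hk : k ∈ V) : k ∉ Dr := fun h => (H.dr4 k h).2.2 hk


/-- **old boxes in natural sides** -/
theorem old_box {a : Fin 18 → ℝ} (ha : bC + a ∈ cn QW (actW Dr)) {t : Fin 18 → ℝ}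
    (ht : ∀ k, k ∉ Dr → t k ≤ bC k + a k) :
    ∀ᶠ n in (U : Filter ℕ), ∀ i ∈ E n, ∀ j ∈ E n,
      zlab B I0 (coU u κ F) monW 67 (fun n => X n + w n • bC) w n a i =
        zlab B I0 (coU u κ F) monW 67 (fun n => X n + w n • bC) w n a j →
      ∀ k, |coU u κ F n i j k| ≤ cK0 monW 67 * (B.d n ^ natX X n k * B'.d n ^ t k) := by
  have hD : ∀ᶠ n in (U : Filter ℕ), ∀ k, k ∈ Dr →
      natX X n k + (t k - bC k - a k) * w n ≤ X n k := by
    refine eventually_all.2 fun k => ?_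
    by_cases hk : k ∈ Dr
    · filter_upwards [drop_narrow H.iw.bas H.iw.nat (fun k h => ⟨(H.dr4 k h).1, (H.dr4 k h).2.1⟩) hk
        (t k - bC k - a k)] with n hn _ using hn
    · exact Eventually.of_forall fun n h => absurd h hk
  filter_upwards [sub_I0 H, H.cls.legal ‖a‖, hD] with n h1 h2 h3 i hi j hj he k
  have h4 := wbox_of_zlab (co := coU u κ F) (fun n => chart_coU H.κ1 H.u0 F n (I0 n)) (hB H)
    (h2 a ha le_rfl) (h1 hi) (h1 hj) he k
  have hc := cK0_one (M := monW) (C := 67) (by norm_num)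
  refine h4.trans (mul_le_mul_of_nonneg_left ?_ (by linarith))
  have e1 : B.d n ^ (X n + w n • bC) k * B'.d n ^ a k = B.d n ^ (X n k + w n * (bC k + a k)) := by
    rw [hB H n, ← Real.rpow_mul (B.pos n).le, ← Real.rpow_add (B.pos n)]
    congr 1
    simp only [Pi.add_apply, Pi.smul_apply, smul_eq_mul]; ring
  have e2 : B.d n ^ natX X n k * B'.d n ^ t k = B.d n ^ (natX X n k + w n * t k) := by
    rw [hB H n, ← Real.rpow_mul (B.pos n).le, ← Real.rpow_add (B.pos n)]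
  rw [e1, e2]
  refine Real.rpow_le_rpow_of_exponent_ge (B.pos n) (B.lt n).le ?_
  have hw := H.iw.win.w0 n
  by_cases hk : k ∈ Dr
  · have := h3 k hk
    nlinarith
  · rw [H.iw.nat n k hk]
    have := mul_le_mul_of_nonneg_left (ht k hk) hw.le
    linarith

/-- size of the gauge -/
theorem size_t {t : Fin 18 → ℝ}
    (ht : ∀ p : Fin 14, t (Fin.natAdd 4 p) ≤ max 0 (btW θ (Fin.natAdd 4 p))) {ε : ℝ} (hε : 0 < ε) :
    ∀ᶠ n in (U : Filter ℕ), ∀ i ∈ E n, ∀ p : Fin 14,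
      u n (Fin.natAdd 4 p) * |e n i p| ≤ B'.d n ^ (-ε) *
        (B.d n ^ natX X n (Fin.natAdd 4 p) * B'.d n ^ t (Fin.natAdd 4 p)) := by
  filter_upwards [H.size ε hε] with n h1 i hi p
  refine (h1 i hi p).trans ?_
  rw [mul_comm (B'.d n ^ (-ε)), mul_assoc]
  refine mul_le_mul_of_nonneg_left ?_ (Real.rpow_nonneg (B.pos n).le _)
  rw [← Real.rpow_add (B'.pos n)]
  refine Real.rpow_le_rpow_of_exponent_ge (B'.pos n) (B'.lt n).le ?_
  linarith [ht p]

/-- absorbing the constant -/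
theorem absorb {ε : ℝ} (hε : 0 < ε) : ∃ δ : ℝ, 0 < δ ∧ δ ≤ ε ∧ ∀ᶠ n in (U : Filter ℕ),
    1 ≤ B'.d n ^ (-δ) ∧ cK0 monW 67 ≤ B'.d n ^ (-δ) ∧
      472 * (B'.d n ^ (-δ)) ^ 7 ≤ B'.d n ^ (-ε) := by
  refine ⟨ε / 8, by positivity, by linarith, ?_⟩
  have hc := cK0_one (M := monW) (C := 67) (by norm_num)
  filter_upwards [ev_const_le B' one_pos (ε := ε / 8) (by positivity),
    ev_const_le B' (by linarith : 0 < cK0 monW 67) (ε := ε / 8) (by positivity),
    ev_const_le B' (by norm_num : (0 : ℝ) < 472) (ε := ε / 8) (by positivity)] with n h1 h2 h3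
  refine ⟨h1, h2, ?_⟩
  have hp := Real.rpow_pos_of_pos (B'.pos n) (-(ε / 8))
  calc 472 * (B'.d n ^ (-(ε / 8))) ^ 7 ≤ B'.d n ^ (-(ε / 8)) * (B'.d n ^ (-(ε / 8))) ^ 7 :=
        mul_le_mul_of_nonneg_right h3 (pow_nonneg hp.le _)
    _ = (B'.d n ^ (-(ε / 8))) ^ 8 := by ring
    _ = B'.d n ^ (-ε) := by
        rw [← Real.rpow_natCast, ← Real.rpow_mul (B'.pos n).le]
        congr 1; push_cast; ring

/-- **new boxes from old boxes** at natural exponents `t` -/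
theorem new_box (hpos : ∀ R : ℝ, ∀ᶠ n in (U : Filter ℕ), ∀ k, R * w n ≤ natX X n k)
    {a : Fin 18 → ℝ} (ha : bC + a ∈ cn QW (actW Dr)) {ζ χ μ : ℝ}
    (ht : ∀ k, k ∉ Dr → grW ζ χ μ k ≤ bC k + a k)
    (hm : ∀ p : Fin 14, grW ζ χ μ (Fin.natAdd 4 p) ≤ max 0 (btW θ (Fin.natAdd 4 p)))
    {ε : ℝ} (hε : 0 < ε) :
    ∀ᶠ n in (U : Filter ℕ), ∀ i ∈ E n, ∀ j ∈ E n,
      zlab B I0 (coU u κ F) monW 67 (fun n => X n + w n • bC) w n a i =
        zlab B I0 (coU u κ F) monW 67 (fun n => X n + w n • bC) w n a j →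
      ∀ k, |coU u κ (fG κ e F) n i j k| ≤
        B'.d n ^ (-ε) * (B.d n ^ natX X n k * B'.d n ^ grW ζ χ μ k) := by
  obtain ⟨δ, hδ, hδε, hev⟩ := absorb H hε
  have hneg : ∀ᶠ n in (U : Filter ℕ), Legal monW (natX X n + w n • grW ζ χ μ) := by
    filter_upwards [hpos (∑ k, |grW ζ χ μ k|)] with n h1
    refine legal_ofLists.2 ⟨fun k => ?_, fun k l hl => ?_⟩
    · simp only [Pi.add_apply, Pi.smul_apply, smul_eq_mul]
      have hw := H.iw.win.w0 n
      have h2 : |grW ζ χ μ k| ≤ ∑ k, |grW ζ χ μ k| :=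
        Finset.single_le_sum (f := fun k => |grW ζ χ μ k|) (fun k _ => abs_nonneg _)
          (Finset.mem_univ k)
      have h3 := h1 k
      have h4 := neg_abs_le (grW ζ χ μ k)
      nlinarith
    · have e1 : natX X n + w n • grW ζ χ μ =
          grW (X n 0 + w n * ζ) (X n 1 + w n * χ) (X n 17 + w n * μ) := by
        funext s
        simp only [natX, grW, Pi.add_apply, Pi.smul_apply, smul_eq_mul]; ring
      rw [e1, grW_list _ _ _ k l hl]
  filter_upwards [old_box H ha ht, size_t H hm hδ, hev, hneg] with n h1 h2 h3 h4 i hi j hj he k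
  have hS0 : ∀ s, 0 ≤ B.d n ^ natX X n s * B'.d n ^ grW ζ χ μ s := fun s =>
    mul_nonneg (Real.rpow_nonneg (B.pos n).le _) (Real.rpow_nonneg (B'.pos n).le _)
  have h5 := gauU_box (e := e) (H.κ1 n) (H.u0 n) (hB H n) h4 h3.1
    (fun s => (h1 i hi j hj he s).trans (mul_le_mul_of_nonneg_right h3.2.1 (hS0 s)))
    (fun p => h2 i hi p) (fun p => h2 j hj p) k
  exact h5.trans (mul_le_mul_of_nonneg_right h3.2.2 (hS0 k))

end main

end Crest.Agent.R136.SGa480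
end

-- ▼ part R136/SGa3_480
section

/-!
# R136 (helper480): the gauge step of the W-chart, part 3

Own counts, own boxes, D-max, zero slots.
-/

set_option autoImplicit false
set_option linter.unusedVariables false
set_option linter.unusedSectionVars false

open Finset Filter Topology

namespace Crest.Agent.R136.SGa480

open Crest.Agent.R136.Net191
open Crest.Agent.R136.NetW191
open Crest.Agent.R136.PrW464
open Crest.Agent.R136.LadW697
open Crest.Agent.R136.LadG697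
open Crest.Agent.R136.Zpr779
open Crest.Agent.R136.Qg926
open Crest.Agent.R136.EvW938
open Crest.Agent.R136.GauW619
open Crest.Agent.R136.AwJ774
open Crest.Agent.R136.K2S774
open Crest.Agent.R136.ThS830 (Pdn btW_zero)
open Crest.Agent.R138.Ex926

theorem grW_vbt (θ : Fin 3 → ℝ) (v : ℝ) (k : Fin 18) :
    grW v (-θ 1 * v) ((1 - θ 0) * v) k = v * btW θ k := by
  simp only [btW, grW]; ring

theorem grW_neg_wt (w1 : ℝ) (k : Fin 18) : grW (-w1) (-w1) (-(9 * w1)) k = -(w1 * wtR k) := by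
  simp only [wtR, grW]; ring

theorem vbt_max {θ : Fin 3 → ℝ} {v : ℝ} (h0 : 0 ≤ v) (h1 : v ≤ 1) (k : Fin 18) :
    v * btW θ k ≤ max 0 (btW θ k) := by
  rcases le_total 0 (btW θ k) with h | h
  · exact (mul_le_of_le_one_left h h1).trans (le_max_right _ _)
  · exact (mul_nonpos_of_nonneg_of_nonpos h0 h).trans (le_max_left _ _)

section main

variable {θ : Fin 3 → ℝ} {g : ℝ} {q : Fin 3 → ℝ} {V Dr : Set (Fin 18)}
  {P : Set (Fin 18 → ℝ)} {ν own : (Fin 18 → ℝ) → ℝ} {r0 : Fin 18 → ℝ}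
  {B B' : Base} {I0 J : ℕ → Finset (ℕ × ℝ)} {κ : ℕ → ℝ} {u : ℕ → Fin 18 → ℝ}
  {F : ℕ → ℕ × ℝ → FW} {X : ℕ → Fin 18 → ℝ} {w Tn To : ℕ → ℝ}
  {lam lo : (Fin 18 → ℝ) → ℝ} {w1 R1 T1 : ℝ} {bC : Fin 18 → ℝ}
  {Cl E : ℕ → Finset (ℕ × ℝ)} {s₀ : ℕ → ℕ × ℝ} {e : ℕ → ℕ × ℝ → Fin 14 → ℝ}
  {V' Zs : Set (Fin 18)}

variable (H : GauW θ g q V Dr P ν own r0 B B' I0 J κ u F X w Tn To lam lo w1 R1 T1 bC Cl E s₀ e V' Zs)

include H

theorem R1pos : 0 ≤ R1 := by
  have := H.big.w0pos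
  have := H.big.wR
  linarith

theorem sub_mem {c : Fin 18 → ℝ} (hc : c ∈ cn QW (actW Dr)) : bC + (c - bC) ∈ cn QW (actW Dr) := by
  rwa [add_sub_cancel]

theorem cO_memH {v : ℝ} (h0 : 0 ≤ v) (h1 : v ≤ 1) :
    cO θ V Dr bC (20 * R1) v ∈ cn QW (actW Dr) := by
  have hR := R1pos H
  refine cO_mem (fun k _ l hl h => H.capV k ⟨l, hl, h⟩) (fun k hk => ⟨(H.vis k hk).1.1, (H.vis k hk).2⟩)
    (btW_zero θ) h0 (fun k => ?_) (by linarith)
  have := vbt_abs H.big h0 h1 k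
  rw [abs_le] at this
  linarith

theorem cU_memH {v : ℝ} (h0 : 0 ≤ v) : cU V Dr bC (20 * R1) v ∈ cn QW (actW Dr) := by
  have hR := R1pos H
  exact cU_mem (fun k _ l hl h => H.capV k ⟨l, hl, h⟩) (fun k hk => (H.vis k hk).1.1) h0
    (by linarith)

theorem cR_ge {v : ℝ} (h0 : 0 ≤ v) (h1 : v ≤ 1) (k : Fin 18) : bC k ≤ cR θ Dr bC v k := by
  simp only [cR]
  split_ifs with h
  · exact le_rfl
  · exact H.bhi k h v h0 h1

theorem cO_ge {v : ℝ} (h0 : 0 ≤ v) (h1 : v ≤ 1) (k : Fin 18) :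
    bC k ≤ cO θ V Dr bC (20 * R1) v k := by
  have hR := R1pos H
  simp only [cO]
  split_ifs with a b c
  · rw [a, H.bz]; exact h0
  · exact H.bhi k (V_not_Dr H b) v h0 h1
  · exact le_rfl
  · have := bC_le H c
    linarith

theorem cU_ge {v : ℝ} (h0 : 0 ≤ v) (k : Fin 18) : bC k ≤ cU V Dr bC (20 * R1) v k := by
  have hR := R1pos H
  simp only [cU]
  split_ifs with a b c
  · rw [a, H.bz]; exact h0
  · exact bC_le H (V_not_Dr H b)
  · exact le_rfl
  · have := bC_le H c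
    linarith

/-- bound of all exponents -/
noncomputable def Rb (R1 : ℝ) (bC : Fin 18 → ℝ) : ℝ := 20 * R1 + 1 + 2 * ‖bC‖

theorem norm_le_Rb {c : Fin 18 → ℝ} (hc : ∀ k, |c k| ≤ 20 * R1 + 1 + ‖bC‖) :
    ‖c - bC‖ ≤ Rb R1 bC := by
  have hR := R1pos H
  have hb := norm_nonneg bC
  refine (pi_norm_le_iff_of_nonneg (by unfold Rb; linarith)).2 fun k => ?_
  rw [Pi.sub_apply, Real.norm_eq_abs]
  have h1 := abs_sub (c k) (bC k)
  have h2 : |bC k| ≤ ‖bC‖ := by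
    have := norm_le_pi_norm bC k
    rwa [Real.norm_eq_abs] at this
  have h3 := hc k
  unfold Rb
  linarith

theorem bC_abs (k : Fin 18) : |bC k| ≤ ‖bC‖ := by
  have := norm_le_pi_norm bC k
  rwa [Real.norm_eq_abs] at this

theorem cR_bd {v : ℝ} (h0 : 0 ≤ v) (h1 : v ≤ 1) (k : Fin 18) :
    |cR θ Dr bC v k| ≤ 20 * R1 + 1 + ‖bC‖ := by
  have hR := R1pos H
  have hb := norm_nonneg bC
  simp only [cR]
  split_ifs with h
  · have := bC_abs H k; linarith
  · have := vbt_abs H.big h0 h1 k; linarith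

theorem cO_bd {v : ℝ} (h0 : 0 ≤ v) (h1 : v ≤ 1) (k : Fin 18) :
    |cO θ V Dr bC (20 * R1) v k| ≤ 20 * R1 + 1 + ‖bC‖ := by
  have hR := R1pos H
  have hb := norm_nonneg bC
  simp only [cO]
  split_ifs with a b c
  · rw [abs_of_nonneg h0]; linarith
  · have := vbt_abs H.big h0 h1 k; linarith
  · have := bC_abs H k; linarith
  · rw [abs_of_nonneg (by linarith)]; linarith

theorem cU_bd {v : ℝ} (h0 : 0 ≤ v) (h1 : v ≤ 1) (k : Fin 18) :
    |cU V Dr bC (20 * R1) v k| ≤ 20 * R1 + 1 + ‖bC‖ := by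
  have hR := R1pos H
  have hb := norm_nonneg bC
  simp only [cU]
  split_ifs with a b c
  · rw [abs_of_nonneg h0]; linarith
  · rw [abs_zero]; linarith
  · have := bC_abs H k; linarith
  · rw [abs_of_nonneg (by linarith)]; linarith

/-! ### values of the profiles -/

theorem lo_eq {c : Fin 18 → ℝ} (hc : c ∈ cn QW (actW Dr))
    (h : ∀ k ∈ V, c k ≤ btW θ k * c 0) : lo c = -c 0 := by
  obtain ⟨Z, st⟩ := H.st
  have := st.ownr c hc h
  linarith

theorem lo_bC : lo bC = 0 := by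
  have := lo_eq H (H.bnat.mem) fun k hk => by
    rw [H.bz, mul_zero]; exact bC_le H (V_not_Dr H hk)
  rw [this, H.bz, neg_zero]

theorem lo_cO {v : ℝ} (h0 : 0 ≤ v) (h1 : v ≤ 1) : lo (cO θ V Dr bC (20 * R1) v) = -v := by
  have e0 : cO θ V Dr bC (20 * R1) v 0 = v := by simp only [cO, if_true]
  have := lo_eq H (cO_memH H h0 h1) fun k hk => by
    have h0' : k ≠ 0 := by
      rintro rfl
      exact absurd (H.vis 0 hk).1.1 (by decide)
    rw [e0]
    simp only [cO, if_neg h0', if_pos hk]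
    linarith
  rw [this, e0]

theorem lo_cU {v : ℝ} (h0 : 0 ≤ v) : lo (cU V Dr bC (20 * R1) v) = -v := by
  have e0 : cU V Dr bC (20 * R1) v 0 = v := by simp only [cU, if_true]
  have := lo_eq H (cU_memH H h0) fun k hk => by
    have h0' : k ≠ 0 := by
      rintro rfl
      exact absurd (H.vis 0 hk).1.1 (by decide)
    rw [e0]
    simp only [cU, if_neg h0', if_pos hk]
    exact mul_nonneg (H.vis k hk).2.le h0
  rw [this, e0]

theorem lam_cR (v : ℝ) : lam (cR θ Dr bC v) = v * DlW g q (btW θ) := by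
  obtain ⟨Z, st⟩ := H.st
  rw [← st.rcd v]
  refine st.ind _ (cR_mem θ Dr bC v) _ ((nat_btW _ θ).smul v).mem (fun k hk => ?_) ⟨v, fun k hk => ?_⟩
  · simp only [cR, if_neg hk, Pi.smul_apply, smul_eq_mul]
  · have := st.ZD k hk
    simp only [cR, if_neg this]
    exact le_rfl

theorem DW_pathW (v : ℝ) : DW g 0 q w1 (pathW θ w1 v) = 1 + v * DlW g q (btW θ) := by
  have e1 : pathW θ w1 v = w1 • wtR + v • btW θ := by
    funext k
    rw [pathW_eq]
    simp only [Pi.add_apply, Pi.smul_apply, smul_eq_mul]; ring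
  have e2 : DW g 0 q w1 (w1 • wtR) = 1 := by
    simp [DW, wtR, grW, wz, wc, wn]
    ring
  rw [e1, DW_add, e2, map_smul, smul_eq_mul]

theorem DW_sub (p : Fin 18 → ℝ) : DW g 0 q w1 p = 1 + DlW g q (p - w1 • wtR) := by
  have e1 : p = w1 • wtR + (p - w1 • wtR) := by abel
  have e2 : DW g 0 q w1 (w1 • wtR) = 1 := by
    simp [DW, wtR, grW, wz, wc, wn]
    ring
  conv_lhs => rw [e1]
  rw [DW_add, e2]

/-! ### own count -/

/-- **number of incidences of a line in a piece of height** -/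
theorem own_count {P₁ : Set (Fin 18 → ℝ)} {T' : ℕ → ℝ} {o₁ : (Fin 18 → ℝ) → ℝ}
    (hown : TProf B' E (zolb B I0 (coU u κ F) monW 67 (fun n => X n + w n • bC) w) P₁ T' o₁)
    {v : ℝ} (h0 : 0 ≤ v) (h1 : v ≤ 1) (hP : cU V Dr bC (20 * R1) v - bC ∈ P₁)
    {ε : ℝ} (hε : 0 < ε) :
    ∀ᶠ n in (U : Filter ℕ), ∀ F' ⊆ E n, ∀ i ∈ E n, (∀ j ∈ F', j.1 = i.1 ∧
      |coU u κ F n i j 0| ≤ cK0 monW 67 * (B.d n ^ natX X n 0 * B'.d n ^ v)) →
      (F'.card : ℝ) ≤ T' n * B'.d n ^ (-(o₁ (cU V Dr bC (20 * R1) v - bC) + ε)) := by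
  classical
  set a := cU V Dr bC (20 * R1) v - bC with ha
  have hmem : bC + a ∈ cn QW (actW Dr) := sub_mem H (cU_memH H h0)
  have hlegp : ∀ᶠ n in (U : Filter ℕ), Legal monW ((X n + w n • bC) + w n • a) :=
    (H.cls.legal ‖a‖).mono fun n hn => hn a hmem le_rfl
  have hε2 : 0 < ε / 2 := by positivity
  obtain ⟨δ, hδ, hδε, hev⟩ := card_zlab_close (B' := B') (I := I0)
    (fun n => chart_coU H.κ1 H.u0 F n (I0 n)) (hB H) (X := fun n => X n + w n • bC) hlegp hε2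
  have hc1 := cK0_one (M := monW) (C := 67) (by norm_num)
  -- base labels
  have hbase := old_box H (a := 0) (by rw [add_zero]; exact H.bnat.mem) (t := fun k => bC k)
    (fun k _ => by simp)
  have hnar : ∀ᶠ n in (U : Filter ℕ), ∀ i ∈ E n, ∀ j ∈ E n, ∀ k, k ∈ Dr →
      |coU u κ F n i j k| ≤ cK0 monW 67 *
        (B.d n ^ (X n + w n • bC) k * B'.d n ^ (0 : Fin 18 → ℝ) k) := by
    filter_upwards [sub_I0 H, H.esub, H.cls.clab, H.cls.legal 0] with n g1 g2 g3 g4 i hi j hj k _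
    exact wbox_of_zlab (co := coU u κ F) (fun n => chart_coU H.κ1 H.u0 F n (I0 n)) (hB H)
      (g4 0 (by show bC + 0 ∈ _; rw [add_zero]; exact H.bnat.mem) (by rw [norm_zero]))
      (g1 hi) (g1 hj) (g3 i (g2 hi) j (g2 hj)) k
  filter_upwards [hev, hown.up (ε / 2) hε2, sub_I0 H, H.ownc (δ / 2) (by positivity), hnar,
    ev_const_le B' (by linarith : 0 < cK0 monW 67) (ε := δ / 2) (by positivity),
    ev_const_le B' one_pos (ε := δ / 2) (by positivity)] with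
    n g1 g2 g3 g4 g5 g6 g7 F' hF' i hi hF
  have hpos : ∀ t : ℝ, 0 < B'.d n ^ t := fun t => Real.rpow_pos_of_pos (B'.pos n) t
  have hT : 0 < T' n := hown.pos n
  have hbx : ∀ j ∈ F', wbox B B' (coU u κ F) (fun n => X n + w n • bC) n a (B'.d n ^ (-δ)) i j := by
    intro j hj k
    have hjE := hF' hj
    have hδ1 : B'.d n ^ (-(δ / 2)) ≤ B'.d n ^ (-δ) :=
      Real.rpow_le_rpow_of_exponent_ge (B'.pos n) (B'.lt n).le (by linarith)
    have hside : 0 ≤ B.d n ^ (X n + w n • bC) k * B'.d n ^ a k :=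
      mul_nonneg (Real.rpow_nonneg (B.pos n).le _) (hpos _).le
    have e1 : B.d n ^ (X n + w n • bC) k * B'.d n ^ a k =
        B.d n ^ X n k * B'.d n ^ (bC k + a k) := by
      rw [hB H n, ← Real.rpow_mul (B.pos n).le, ← Real.rpow_mul (B.pos n).le,
        ← Real.rpow_add (B.pos n), ← Real.rpow_add (B.pos n)]
      congr 1
      simp only [Pi.add_apply, Pi.smul_apply, smul_eq_mul]; ring
    have e2 : bC k + a k = cU V Dr bC (20 * R1) v k := by
      rw [ha]; simp only [Pi.sub_apply]; ring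
    by_cases hk : k ∈ Dr
    · have e3 : a k = (0 : Fin 18 → ℝ) k := by
        have h0k : k ≠ 0 := fun h => absurd (H.dr4 k hk).1 (by rw [h]; decide)
        have hkV : k ∉ V := (H.dr4 k hk).2.2
        have : cU V Dr bC (20 * R1) v k = bC k := by
          simp only [cU, if_neg h0k, if_neg hkV, if_pos hk]
        rw [Pi.zero_apply]; linarith
      rw [e3]
      refine (g5 i hi j hjE k hk).trans ?_
      exact mul_le_mul_of_nonneg_right (g6.trans hδ1)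
        (mul_nonneg (Real.rpow_nonneg (B.pos n).le _) (hpos _).le)
    · rw [e1, e2, H.iw.nat n k hk]
      have hX : 0 ≤ B.d n ^ natX X n k := Real.rpow_nonneg (B.pos n).le _
      by_cases h0k : k = 0
      · subst h0k
        have e4 : cU V Dr bC (20 * R1) v 0 = v := by simp only [cU, if_true]
        rw [e4]
        refine (hF j hj).2.trans ?_
        exact mul_le_mul_of_nonneg_right (g6.trans hδ1) (mul_nonneg hX (hpos _).le)
      · have e5 : cU V Dr bC (20 * R1) v k = ob0 V (20 * R1) k := by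
          by_cases hkV : k ∈ V
          · rw [cU, ob0, if_neg h0k, if_pos hkV, if_pos (Or.inr hkV)]
          · rw [cU, ob0, if_neg h0k, if_neg hkV, if_neg hk, if_neg (fun h => h.elim h0k hkV)]
        rw [e5]
        refine (g4 i hi j hjE (hF j hj).1.symm k).trans ?_
        have e6 : B.d n ^ natX X n k * B'.d n ^ (ob0 V (20 * R1) k - δ / 2) =
            B'.d n ^ (-(δ / 2)) * (B.d n ^ natX X n k * B'.d n ^ ob0 V (20 * R1) k) := by
          rw [sub_eq_add_neg, Real.rpow_add (B'.pos n)]; ring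
        rw [e6]
        exact mul_le_mul_of_nonneg_right hδ1 (mul_nonneg hX (hpos _).le)
  have hlab := g1 i (g3 hi) F' (hF'.trans g3) hbx
  have hcnt := le_count_mul F' (fun _ => (1 : ℝ))
    (zolb B I0 (coU u κ F) monW 67 (fun n => X n + w n • bC) w n a)
    (m := T' n * B'.d n ^ (-(o₁ a + ε / 2))) (fun x hx => by
      rw [sum_const, nsmul_eq_mul, mul_one]
      refine le_trans ?_ (g2 a hP x (hF' hx))
      exact_mod_cast card_le_card (cls_mono hF' _ _))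
  rw [sum_const, nsmul_eq_mul, mul_one] at hcnt
  have hs : F'.image (zolb B I0 (coU u κ F) monW 67 (fun n => X n + w n • bC) w n a) ⊆
      (F'.image (zlab B I0 (coU u κ F) monW 67 (fun n => X n + w n • bC) w n a)).image
        fun y => (i.1, y) := by
    intro y hy
    obtain ⟨x, hx, rfl⟩ := mem_image.1 hy
    refine mem_image.2 ⟨_, mem_image_of_mem _ hx, ?_⟩
    unfold zolb
    rw [(hF x hx).1]
  have hlab2 : ((F'.image (zolb B I0 (coU u κ F) monW 67 (fun n => X n + w n • bC) w n a)).card : ℝ)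
      ≤ B'.d n ^ (-(ε / 2)) := by
    refine le_trans ?_ hlab
    exact_mod_cast (card_le_card hs).trans card_image_le
  calc (F'.card : ℝ) ≤ T' n * B'.d n ^ (-(o₁ a + ε / 2)) * B'.d n ^ (-(ε / 2)) :=
        hcnt.trans (mul_le_mul_of_nonneg_left hlab2 (mul_pos hT (hpos _)).le)
    _ = _ := by rw [mul_assoc, ← Real.rpow_add (B'.pos n)]; congr 2; ring

end main

end Crest.Agent.R136.SGa480
end

-- ▼ part R136/SGa4_480

/-!
# R136 (helper480): the gauge step of the W-chart, part 4: assembly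

`gd_new` : D-max for all gauges in the new chart; **`ob_of`** : `GauW ⊢ Ob`; **`seamGau`**.
-/

set_option autoImplicit false
set_option linter.unusedVariables false
set_option linter.unusedSectionVars false

open Finset Filter Topology

namespace Crest.Agent.R136.SGa480

open Crest.Agent.R136.Net191
open Crest.Agent.R136.NetW191
open Crest.Agent.R136.PrW464
open Crest.Agent.R136.LadW697
open Crest.Agent.R136.LadG697
open Crest.Agent.R136.Zpr779
open Crest.Agent.R136.Qg926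
open Crest.Agent.R136.EvW938
open Crest.Agent.R136.GauW619
open Crest.Agent.R136.AwJ774
open Crest.Agent.R136.K2S774
open Crest.Agent.R136.ThS830 (Pdn btW_zero)
open Crest.Agent.R138.Ex926

/-- D-max set of the new object -/
def PDn (θ : Fin 3 → ℝ) (w1 R1 : ℝ) : Set (Fin 18 → ℝ) :=
  {p | p ∈ Leg monW R1 ∧ (θ 0 = 1 → p 17 ≤ 9 * w1)}

theorem pdn_PDn (θ : Fin 3 → ℝ) (w1 R1 : ℝ) : Pdn θ w1 R1 (PDn θ w1 R1) := by
  intro v1 _ _
  refine ⟨1, one_pos, fun x hx _ _ _ _ h => ⟨hx, fun h0 => ?_⟩⟩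
  rw [h0, sub_self, max_self, add_zero] at h
  exact h

/-- the rescaled exponents are D-max directions -/
theorem sub_QdW {θ : Fin 3 → ℝ} {w1 R1 : ℝ} {x : Fin 18 → ℝ} (hx : x ∈ PDn θ w1 R1) :
    x - w1 • wtR ∈ QdW θ := by
  obtain ⟨⟨h1, _⟩, h2⟩ := hx
  obtain ⟨_, hw⟩ := legal_ofLists.1 h1
  refine ⟨mem_cnW0.2 fun k l hl => ?_, fun h0 => ?_⟩
  · have e1 : (l.map (x - w1 • wtR)).sum = (l.map x).sum - w1 * (l.map wtR).sum := by
      clear hl
      induction l with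
      | nil => simp
      | cons a l ih =>
        simp only [List.map_cons, List.sum_cons, ih, Pi.sub_apply, Pi.smul_apply, smul_eq_mul]
        ring
    have e2 : (l.map wtR).sum = wtR k := grW_list 1 1 9 k l hl
    rw [e1, e2]
    have := hw k l hl
    simp only [Pi.sub_apply, Pi.smul_apply, smul_eq_mul]
    linarith
  · have e3 : wtR 17 = 9 := by simp [wtR, grW, wz, wc, wn]
    have := h2 h0
    simp only [Pi.sub_apply, Pi.smul_apply, smul_eq_mul, e3]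
    linarith

/-- the new frame is legal -/
theorem legal_new {B' : Base} {X : ℕ → Fin 18 → ℝ} {w : ℕ → ℝ} (w0 : ∀ n, 0 < w n)
    (hpos : ∀ R : ℝ, ∀ᶠ n in (U : Filter ℕ), ∀ k, R * w n ≤ natX X n k) (w1 R : ℝ) :
    ∀ᶠ n in (U : Filter ℕ), ∀ c ∈ Leg monW R, Legal monW (Xn X w w1 n + w n • c) := by
  filter_upwards [hpos (∑ k, |w1 * wtR k|)] with n h1 c hc
  obtain ⟨h2, h3⟩ := legal_ofLists.1 hc.1
  refine legal_ofLists.2 ⟨fun k => ?_, fun k l hl => ?_⟩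
  · have hw := w0 n
    have h4 : |w1 * wtR k| ≤ ∑ k, |w1 * wtR k| :=
      Finset.single_le_sum (f := fun k => |w1 * wtR k|) (fun k _ => abs_nonneg _)
        (Finset.mem_univ k)
    have h5 := h1 k
    have h6 := le_abs_self (w1 * wtR k)
    have h7 := h2 k
    simp only [Pi.add_apply, Pi.smul_apply, smul_eq_mul]
    rw [Xn_apply]
    nlinarith [mul_nonneg hw.le h7]
  · have e1 : (l.map (Xn X w w1 n + w n • c)).sum =
        (l.map (Xn X w w1 n)).sum + w n * (l.map c).sum := by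
      clear hl
      induction l with
      | nil => simp
      | cons a l ih =>
        simp only [List.map_cons, List.sum_cons, ih, Pi.add_apply, Pi.smul_apply, smul_eq_mul]
        ring
    rw [e1, Xn_grW, grW_list _ _ _ k l hl]
    simp only [Pi.add_apply, Pi.smul_apply, smul_eq_mul]
    have := mul_le_mul_of_nonneg_left (h3 k l hl) (w0 n).le
    linarith

section main

variable {θ : Fin 3 → ℝ} {g : ℝ} {q : Fin 3 → ℝ} {V Dr : Set (Fin 18)}
  {P : Set (Fin 18 → ℝ)} {ν own : (Fin 18 → ℝ) → ℝ} {r0 : Fin 18 → ℝ}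
  {B B' : Base} {I0 J : ℕ → Finset (ℕ × ℝ)} {κ : ℕ → ℝ} {u : ℕ → Fin 18 → ℝ}
  {F : ℕ → ℕ × ℝ → FW} {X : ℕ → Fin 18 → ℝ} {w Tn To : ℕ → ℝ}
  {lam lo : (Fin 18 → ℝ) → ℝ} {w1 R1 T1 : ℝ} {bC : Fin 18 → ℝ}
  {Cl E : ℕ → Finset (ℕ × ℝ)} {s₀ : ℕ → ℕ × ℝ} {e : ℕ → ℕ × ℝ → Fin 14 → ℝ}
  {V' Zs : Set (Fin 18)}

variable (H : GauW θ g q V Dr P ν own r0 B B' I0 J κ u F X w Tn To lam lo w1 R1 T1 bC Cl E s₀ e V' Zs)

include H

/-- **D-max for all gauges in the new chart** -/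
theorem gd_new (hpos : ∀ R : ℝ, ∀ᶠ n in (U : Filter ℕ), ∀ k, R * w n ≤ natX X n k)
    {E' : ℕ → Finset (ℕ × ℝ)} (hE' : ∀ᶠ n in (U : Filter ℕ), E' n ⊆ E n) :
    GdG B B' E' κ u (fG κ e F) (Xn X w w1) (fun n => Tn n * B'.d n ^ (-lam bC)) (PDn θ w1 R1)
      (DW g 0 q w1) (-lam bC - 1) := by
  classical
  obtain ⟨C, hC, hgd⟩ := H.gd
  refine ⟨C / 2, by positivity, fun x hx K hK ε hε => ?_⟩
  have hd := sub_QdW hx
  filter_upwards [hgd (x - w1 • wtR) hd K hK ε hε, hE', H.esub, H.cls.csub,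
    H.size 1 one_pos, hpos 1, ev_const_le B two_pos (ε := C / 2) (by positivity)] with
    n g1 g2 g3 g4 g5 g6 g7 e'' he'' i hi G hG hbx
  have hB' := hB H n
  have hsz : ∀ j ∈ E n, ∀ k, u n (Fin.natAdd 4 k) * |e n j k| ≤ 1 := by
    intro j hj k
    refine (g5 j hj k).trans ?_
    rw [hB', ← Real.rpow_mul (B.pos n).le, ← Real.rpow_add (B.pos n)]
    refine Real.rpow_le_one (B.pos n).le (B.lt n).le ?_
    have h1 := g6 (Fin.natAdd 4 k)
    have h2 := H.iw.win.w0 n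
    have h3 : 0 ≤ max 0 (btW θ (Fin.natAdd 4 k)) := le_max_left _ _
    nlinarith [mul_nonneg h2.le h3]
  set e' : ℕ × ℝ → Fin 14 → ℝ := fun j => if j ∈ E' n then e n j + e'' j else 0 with he'
  have hcond : ∀ j ∈ J n, (e' j 9 = 0 ∧ e' j 12 = 0 ∧ e' j 13 = 0) ∧
      ∀ k, u n (Fin.natAdd 4 k) * |e' j k| ≤ B.d n ^ (-C) := by
    intro j _
    by_cases hj : j ∈ E' n
    · have e1 : e' j = e n j + e'' j := by rw [he']; simp only [if_pos hj]
      obtain ⟨h1, h2, h3⟩ := H.supp n j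
      obtain ⟨⟨h4, h5, h6⟩, h7⟩ := he'' j hj
      rw [e1]
      refine ⟨⟨by rw [Pi.add_apply, h1, h4, add_zero], by rw [Pi.add_apply, h2, h5, add_zero],
        by rw [Pi.add_apply, h3, h6, add_zero]⟩, fun k => ?_⟩
      have hu := (H.u0 n).pos (Fin.natAdd 4 k)
      have hp : 0 < B.d n := B.pos n
      have c1 : u n (Fin.natAdd 4 k) * |(e n j + e'' j) k| ≤
          u n (Fin.natAdd 4 k) * |e n j k| + u n (Fin.natAdd 4 k) * |e'' j k| := by
        rw [← mul_add]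
        exact mul_le_mul_of_nonneg_left (abs_add_le _ _) hu.le
      have c2 : (1 : ℝ) ≤ B.d n ^ (-(C / 2)) :=
        Real.one_le_rpow_of_pos_of_le_one_of_nonpos hp (B.lt n).le (by linarith)
      calc _ ≤ _ := c1
        _ ≤ 1 + B.d n ^ (-(C / 2)) := add_le_add (hsz j (g2 hj) k) (h7 k)
        _ ≤ B.d n ^ (-(C / 2)) * 2 := by linarith
        _ ≤ B.d n ^ (-(C / 2)) * B.d n ^ (-(C / 2)) :=
            mul_le_mul_of_nonneg_left g7 (Real.rpow_nonneg hp.le _)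
        _ = _ := by rw [← Real.rpow_add hp]; congr 1; ring
    · have e1 : e' j = 0 := by rw [he']; simp only [if_neg hj]
      rw [e1]
      refine ⟨⟨rfl, rfl, rfl⟩, fun k => ?_⟩
      rw [Pi.zero_apply, abs_zero, mul_zero]
      exact Real.rpow_nonneg (B.pos n).le _
  have hJ : E' n ⊆ J n := (g2.trans g3).trans g4
  have h1 := g1 e' hcond i (hJ hi) G (hG.trans hJ) (fun j hj k => by
    have h2 := hbx j hj k
    rw [side_Xn hB'] at h2
    have e1 : e' i = e n i + e'' i := by rw [he']; simp only [if_pos hi]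
    have e2 : e' j = e n j + e'' j := by rw [he']; simp only [if_pos (hG hj)]
    rw [e1, e2, ← gau_gau, ← gau_gau]
    exact h2)
  refine h1.trans (le_of_eq ?_)
  rw [mul_assoc, ← Real.rpow_add (B'.pos n), DW_sub H x]
  congr 2
  ring

/-- **the gauge step** -/
theorem ob_of : Ob θ g q V' ∅ Zs := by
  classical
  have hpos := H.natpos
  obtain ⟨Hc, hHc, hcard⟩ := H.card
  have hR := R1pos H
  have hB' := hB H
  have hc1 := cK0_one (M := monW) (C := 67) (by norm_num)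
  set D₁ : Set (Fin 18 → ℝ) := {a | bC + a ∈ cn QW (actW Dr)} with hD₁
  set P₁ : Set (Fin 18 → ℝ) := {a | a ∈ D₁ ∧ 0 ≤ a ∧ ‖a‖ ≤ Rb R1 bC} with hP₁
  set T₁ : ℕ → ℝ := fun n => Tn n * B'.d n ^ (-lam bC) with hT₁
  set o₁ : (Fin 18 → ℝ) → ℝ := fun a => (lo (bC + a) - lo bC) + 1 with ho₁
  set To' : ℕ → ℝ := fun n => To n * B'.d n ^ (-lo bC) * B'.d n ^ (1 : ℝ) with hTo'
  have memP : ∀ c : Fin 18 → ℝ, c ∈ cn QW (actW Dr) → (∀ k, bC k ≤ c k) →
      (∀ k, |c k| ≤ 20 * R1 + 1 + ‖bC‖) → c - bC ∈ P₁ := by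
    intro c h1 h2 h3
    refine ⟨sub_mem H h1, fun k => ?_, norm_le_Rb H h3⟩
    rw [Pi.zero_apply, Pi.sub_apply]
    linarith [h2 k]
  have h0P : (0 : Fin 18 → ℝ) ∈ P₁ := by
    refine ⟨?_, le_rfl, ?_⟩
    · show bC + 0 ∈ cn QW (actW Dr)
      rw [add_zero]; exact H.bnat.mem
    · rw [norm_zero]
      have := norm_nonneg bC
      unfold Rb; linarith
  have hown : TProf B' E (zolb B I0 (coU u κ F) monW 67 (fun n => X n + w n • bC) w) P₁ To' o₁ :=
    (H.own P₁ (fun a ha => ha.1) (Rb R1 bC) (fun a ha => ha.2.2) (fun a ha => ha.2.1)).shift 1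
  have hch : ∀ n, Chart (E n) (coU u κ (fG κ e F) n) monW 67 :=
    fun n => chart_coU H.κ1 H.u0 _ n (E n)
  have hcardE : ∀ᶠ n in (U : Filter ℕ), (Nat.log 2 (E n).card : ℝ) + 1 ≤ Hc n := by
    filter_upwards [hcard, H.esub, H.cls.csub] with n h1 h2 h3
    refine le_trans ?_ h1
    have := Nat.log_mono_right (b := 2) (card_le_card (h2.trans h3))
    have h3 : ((Nat.log 2 (E n).card : ℕ) : ℝ) ≤ (Nat.log 2 (J n).card : ℕ) := by
      exact_mod_cast this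
    linarith
  -- base
  have hbase : ∀ ε : ℝ, 0 < ε → ∀ᶠ n in (U : Filter ℕ), ∀ i ∈ E n, ∀ j ∈ E n,
      wbox B B' (coU u κ (fG κ e F)) (Xn X w w1) n 0 (B'.d n ^ (-ε)) i j := by
    intro ε hε
    have h1 := new_box H hpos (a := 0) (by rw [add_zero]; exact H.bnat.mem) (ζ := -w1) (χ := -w1)
      (μ := -(9 * w1)) (fun k hk => by
        rw [grW_neg_wt, Pi.zero_apply, add_zero]
        have := H.blo k hk
        linarith) (fun p => by
        rw [grW_neg_wt]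
        have h2 : (0 : ℝ) ≤ max 0 (btW θ (Fin.natAdd 4 p)) := le_max_left _ _
        have h3 := mul_nonneg (by linarith [H.big.w0pos] : 0 ≤ w1)
          (by linarith [wtR_ge (Fin.natAdd 4 p)] : 0 ≤ wtR (Fin.natAdd 4 p))
        linarith) hε
    filter_upwards [h1, H.esub, H.cls.clab] with n g1 g2 g3 i hi j hj k
    rw [side_Xn (hB' n)]
    have := g1 i hi j hj (g3 i (g2 hi) j (g2 hj)) k
    rw [grW_neg_wt] at this
    rw [Pi.zero_apply, zero_sub]
    exact this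
  -- record
  have hrecb : ∀ v : ℝ, 0 ≤ v → v ≤ 1 → ∀ c : Fin 18 → ℝ, c ∈ cn QW (actW Dr) →
      (∀ k, k ∉ Dr → v * btW θ k ≤ c k) → ∀ ε : ℝ, 0 < ε →
      ∀ᶠ n in (U : Filter ℕ), ∀ i ∈ E n, ∀ j ∈ E n,
        zlab B I0 (coU u κ F) monW 67 (fun n => X n + w n • bC) w n (c - bC) i =
          zlab B I0 (coU u κ F) monW 67 (fun n => X n + w n • bC) w n (c - bC) j →
        ∀ k, |coU u κ (fG κ e F) n i j k| ≤
          B'.d n ^ (-ε) * (B.d n ^ natX X n k * B'.d n ^ (v * btW θ k)) := by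
    intro v h0 h1 c hc hcv ε hε
    have h2 := new_box H hpos (a := c - bC) (sub_mem H hc) (ζ := v) (χ := -θ 1 * v)
      (μ := (1 - θ 0) * v) (fun k hk => by
        rw [grW_vbt, Pi.sub_apply]
        have := hcv k hk
        linarith) (fun p => by rw [grW_vbt]; exact vbt_max h0 h1 _) hε
    filter_upwards [h2] with n g1 i hi j hj he k
    have := g1 i hi j hj he k
    rwa [grW_vbt] at this
  have hpath : ∀ (n : ℕ) (v : ℝ) (k : Fin 18), B.d n ^ Xn X w w1 n k * B'.d n ^ pathW θ w1 v k =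
      B.d n ^ natX X n k * B'.d n ^ (v * btW θ k) := by
    intro n v k
    rw [side_Xn (hB' n), pathW_eq]
    congr 2
    ring
  obtain ⟨J', ν', own', hJ', hdJ', hext⟩ := exists_extZ (co := coU u κ (fG κ e F)) (M := monW)
    (C := 67) (X := Xn X w w1) (P₁ := P₁) H.cls H.esub H.edens (fun a ha => ha.1)
    (R₁ := Rb R1 bC) (fun a ha => ha.2.2) (fun a ha => ha.2.1) h0P hown hch monW hR
    (legal_new (B' := B') H.iw.win.w0 hpos w1 R1) hHc hcardE hbase (kz := 0) (w0 := w1) (s := 0)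
    le_rfl zero_le_one (PD := PDn θ w1 R1) (D := DW g 0 q w1) (r := pathW θ w1)
    (o := ownW θ w1 R1 fun k => k ∈ V') (Er := fun v => DW g 0 q w1 (pathW θ w1 v))
    (Tw := fun k => k ∈ (∅ : Set (Fin 18))) (c₀ := -lam bC - 1)
    (by
      intro p hp _ ε hε
      obtain ⟨C, hC, hgd⟩ := gd_new H hpos (E' := E) (Eventually.of_forall fun n => Subset.rfl)
      filter_upwards [hgd p hp (cK0 monW 67) hc1 ε hε] with n g1 F' hF' i hi hbx
      refine g1 0 (fun j _ => ⟨⟨rfl, rfl, rfl⟩, fun k => ?_⟩) i hi F' hF' fun j hj k => ?_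
      · rw [Pi.zero_apply, Pi.zero_apply, abs_zero, mul_zero]
        exact Real.rpow_nonneg (B.pos n).le _
      · rw [Pi.zero_apply, Pi.zero_apply, gau_zero, gau_zero]
        exact hbx j hj k)
    (fun v => cR θ Dr bC v - bC)
    (by
      intro v h0 h1
      refine ⟨H.big.path_leg h0 h1, memP _ (cR_mem θ Dr bC v) (cR_ge H h0 h1) (cR_bd H h0 h1),
        le_of_eq ?_, fun ε hε => ?_⟩
      · show -lam bC - 1 + DW g 0 q w1 (pathW θ w1 v) = lam (bC + (cR θ Dr bC v - bC)) - lam bC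
        rw [add_sub_cancel, lam_cR H, DW_pathW H]; ring
      · filter_upwards [hrecb v h0 h1 _ (cR_mem θ Dr bC v)
          (fun k hk => by simp only [cR, if_neg hk]; exact le_rfl) ε hε] with n g1 i hi j hj he k
        rw [hpath n v k]
        exact g1 i hi j hj he k)
    (fun v => cO θ V Dr bC (20 * R1) v - bC)
    (by
      intro v h0 h1
      refine ⟨memP _ (cO_memH H h0 h1) (cO_ge H h0 h1) (cO_bd H h0 h1), le_of_eq ?_,
        fun ε hε => ?_⟩
      · show (1 - (0 : ℝ)) * (1 - v) = (lo (bC + (cO θ V Dr bC (20 * R1) v - bC)) - lo bC) + 1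
        rw [add_sub_cancel, lo_cO H h0 h1, lo_bC H]; ring
      · have hge : ∀ k, k ∉ Dr → v * btW θ k ≤ cO θ V Dr bC (20 * R1) v k := by
          intro k hk
          simp only [cO]
          split_ifs with a b
          · rw [a, btW_zero, mul_one]
          · exact le_rfl
          · have := vbt_abs H.big h0 h1 k
            rw [abs_le] at this
            linarith
        filter_upwards [hrecb v h0 h1 _ (cO_memH H h0 h1) hge ε hε, H.ownc ε hε,
          H.ownz ε hε] with n g1 g2 g3 i hi j hj hl he k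
        have hX : 0 ≤ B.d n ^ natX X n k := Real.rpow_nonneg (B.pos n).le _
        have hexp : ∀ x y : ℝ, y - ε ≤ x → B.d n ^ natX X n k * B'.d n ^ x ≤
            B'.d n ^ (-ε) * (B.d n ^ natX X n k * B'.d n ^ y) := by
          intro x y hxy
          have e1 : B'.d n ^ (-ε) * (B.d n ^ natX X n k * B'.d n ^ y) =
              B.d n ^ natX X n k * B'.d n ^ (y - ε) := by
            rw [sub_eq_add_neg, Real.rpow_add (B'.pos n)]; ring
          rw [e1]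
          exact mul_le_mul_of_nonneg_left
            (Real.rpow_le_rpow_of_exponent_ge (B'.pos n) (B'.lt n).le hxy) hX
        have hww : 0 ≤ w1 * wtR k := mul_nonneg (by linarith [H.big.w0pos])
          (by linarith [wtR_ge k])
        by_cases k0 : k = 0
        · subst k0
          have e1 : ownW θ w1 R1 (fun k => k ∈ V') v 0 = pathW θ w1 v 0 := by
            simp only [ownW, if_true, pathW_eq, btW_zero]
            simp [wtR, grW, wz, wc, wn]
          rw [e1, hpath n v 0]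
          exact g1 i hi j hj he 0
        by_cases kV : k ∈ V'
        · have e1 : ownW θ w1 R1 (fun k => k ∈ V') v k = pathW θ w1 v k := by
            simp only [ownW, if_neg k0, if_pos kV]
          rw [e1, hpath n v k]
          exact g1 i hi j hj he k
        · have e1 : ownW θ w1 R1 (fun k => k ∈ V') v k = R1 := by
            simp only [ownW, if_neg k0, if_neg kV]
          have e5 : B.d n ^ Xn X w w1 n k * B'.d n ^ R1 =
              B.d n ^ natX X n k * B'.d n ^ (R1 - w1 * wtR k) :=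
            side_Xn (hB' n) X w1 (fun _ => R1) k
          rw [e1, e5]
          by_cases h4 : 4 ≤ k
          · exact (g3 i hi j hj hl k h4 kV).trans (hexp _ _ (by linarith))
          · have hk3 : k = 1 ∨ k = 2 ∨ k = 3 := by omega
            have hfr : coU u κ (fG κ e F) n i j k = coU u κ F n i j k := by
              rcases hk3 with rfl | rfl | rfl
              · exact coU_fG_frame 1
              · exact coU_fG_frame 2
              · exact coU_fG_frame 3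
            have hkV : k ∉ V := fun h => h4 (H.vis k h).1.1
            have e2 : ob0 V (20 * R1) k = 20 * R1 := by
              rw [ob0, if_neg (fun h => h.elim k0 hkV)]
            rw [hfr]
            refine (g2 i hi j hj hl k).trans ?_
            rw [e2]
            exact hexp _ _ (by linarith))
    (by
      intro v h0 h1 ε hε
      filter_upwards [own_count H hown h0 h1
        (memP _ (cU_memH H h0) (cU_ge H h0) (cU_bd H h0 h1)) hε] with n g1 F' hF' i hi hF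
      refine (g1 F' hF' i hi fun j hj => ⟨(hF j hj).1, ?_⟩).trans (le_of_eq ?_)
      · have h2 := (hF j hj).2
        rw [coU_fG_zero] at h2
        have e1 : B.d n ^ Xn X w w1 n 0 * B'.d n ^ (w1 + v) =
            B.d n ^ natX X n 0 * B'.d n ^ v := by
          have := side_Xn (hB' n) X w1 (fun _ => w1 + v) 0
          rw [this]
          congr 2
          simp [wtR, grW, wz, wc, wn]
        rwa [e1] at h2
      · have e1 : o₁ (cU V Dr bC (20 * R1) v - bC) = (1 - (0 : ℝ)) * (1 - v) := by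
          show (lo (bC + (cU V Dr bC (20 * R1) v - bC)) - lo bC) + 1 = _
          rw [add_sub_cancel, lo_cU H h0, lo_bC H]; ring
        rw [e1])
    (fun k hk => absurd hk (by simp))
  have hJs : ∀ᶠ n in (U : Filter ℕ), J' n ⊆ E n := hJ'.mono fun n hn => hn.1
  have hJn : ∀ᶠ n in (U : Filter ℕ), (J' n).Nonempty := hJ'.mono fun n hn => hn.2
  refine ⟨w1, R1, T1, B, B', E, J', κ, u, fG κ e F, Xn X w w1, w, T₁, To', PDn θ w1 R1, ν', own',
    -lam bC - 1, ?_, ?_⟩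
  · exact
      { th1 := H.th1, q1 := H.q1, q2 := H.q2, q0 := H.q0, qg := H.qg, qθ := H.qθ
        vis := fun k hk => H.vis k (H.sub' hk)
        tied := fun k hk => absurd hk (by simp)
        u0 := H.u0, κ1 := H.κ1, κ0 := H.iw.kap, big := H.big
        bas :=
          { sub := fun k => subset_rfl
            act := fun k e' he' n => by
              obtain ⟨l, hl, rfl⟩ := List.mem_map.1 (List.mem_toFinset.1 he')
              rw [← sum_count, Xn_grW, grW_list _ _ _ k l hl]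
            gap := fun k e' he' hne => absurd he' hne }
        pdn := pdn_PDn θ w1 R1
        ext := hext
        gd := gd_new H hpos hJs
        card := ⟨Hc, hHc, by
          filter_upwards [hcardE, hJs] with n h1 h2
          refine le_trans ?_ h1
          have := Nat.log_mono_right (b := 2) (card_le_card h2)
          have h3 : ((Nat.log 2 (J' n).card : ℕ) : ℝ) ≤ (Nat.log 2 (E n).card : ℕ) := by
            exact_mod_cast this
          linarith⟩ }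
  · -- zero slots
    have hTP : TProf B' J' (zlab B E (coU u κ (fG κ e F)) monW 67 (Xn X w w1) w) (Leg monW R1)
        T₁ ν' := TProf.ofZ hext.win.prof H.cls.T0 (Set.Subset.refl _) fun p hp => Leg_norm hR hp
    have hleg1 : ∀ p ∈ Leg monW R1, ∀ᶠ n in (U : Filter ℕ), Legal monW (Xn X w w1 n + w n • p) :=
      fun p hp => (legal_new (B' := B') H.iw.win.w0 hpos w1 R1).mono fun n hn => hn p hp
    have hTT : ∀ (Z : ℕ → ℝ), (∀ n, 0 < Z n) → ∀ ε : ℝ, 0 < ε → ∀ᶠ n in (U : Filter ℕ),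
        Z n ≤ Z n * B'.d n ^ (-((0 : ℝ) + ε)) := by
      intro Z hZ ε hε
      filter_upwards with n
      refine le_mul_of_one_le_right (hZ n).le ?_
      exact Real.one_le_rpow_of_pos_of_le_one_of_nonpos (B'.pos n) (B'.lt n).le (by linarith)
    have hzb : ∀ a ∈ Leg monW R1, ∀ b ∈ Leg monW R1, (∀ k, k ∉ Zs → a k = b k) → ∀ ε : ℝ, 0 < ε →
        ∀ᶠ n in (U : Filter ℕ), ∀ i ∈ J' n, ∀ j ∈ J' n,
          zlab B E (coU u κ (fG κ e F)) monW 67 (Xn X w w1) w n a i =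
            zlab B E (coU u κ (fG κ e F)) monW 67 (Xn X w w1) w n a j →
          wbox B B' (coU u κ (fG κ e F)) (Xn X w w1) n b (B'.d n ^ (-ε)) i j := by
      intro a ha b hb hab ε hε
      have hz : ∀ᶠ n in (U : Filter ℕ), ∀ k, k ∈ Zs → ∀ i ∈ E n, ∀ j ∈ E n,
          |coU u κ (fG κ e F) n i j k| ≤ B.d n ^ natX X n k * B'.d n ^ (R1 - ε) := by
        refine eventually_all.2 fun k => ?_
        by_cases hk : k ∈ Zs
        · exact (H.zero k hk ε hε).mono fun n hn _ => hn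
        · exact Eventually.of_forall fun n h => absurd h hk
      filter_upwards [hz, ev_const_le B' (by linarith : 0 < cK0 monW 67) hε, hJs, hleg1 a ha] with
        n g1 g2 g3 g4 i hi j hj he k
      by_cases hk : k ∈ Zs
      · refine (g1 k hk i (g3 hi) j (g3 hj)).trans ?_
        rw [side_Xn (hB' n)]
        have e1 : B'.d n ^ (-ε) * (B.d n ^ natX X n k * B'.d n ^ (b k - w1 * wtR k)) =
            B.d n ^ natX X n k * B'.d n ^ (b k - w1 * wtR k - ε) := by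
          rw [sub_eq_add_neg _ ε, Real.rpow_add (B'.pos n)]; ring
        rw [e1]
        have hww : 0 ≤ w1 * wtR k := mul_nonneg (by linarith [H.big.w0pos])
          (by linarith [wtR_ge k])
        exact mul_le_mul_of_nonneg_left (Real.rpow_le_rpow_of_exponent_ge (B'.pos n) (B'.lt n).le
          (by linarith [hb.2 k])) (Real.rpow_nonneg (B.pos n).le _)
      · have h1 := wbox_of_zlab hch hB' g4 (g3 hi) (g3 hj) he k
        rw [← hab k hk]
        exact h1.trans (mul_le_mul_of_nonneg_right g2 (wside_pos B B' (Xn X w w1) n a k).le)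
    have hle : ∀ a ∈ Leg monW R1, ∀ b ∈ Leg monW R1, (∀ k, k ∉ Zs → a k = b k) →
        ν' a ≤ ν' b ∧ own' a ≤ own' b := by
      intro a ha b hb hab
      constructor
      · have := le_net (c := 0) hTP hch hB' hJs hJn hTP ha hb (hleg1 b hb) (hTT T₁ H.cls.T0)
          fun ε hε => hzb a ha b hb hab ε hε
        linarith
      · have := le_net_own (c := 0) hext.oprof hch hB' hJs hJn (line := fun _ x => x.1) hext.oprof
          ha hb (hleg1 b hb) (hTT To' hown.pos)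
          (by
            filter_upwards with n i _ j _ he
            exact (Prod.mk.inj he).1)
          fun ε hε => by
            filter_upwards [hzb a ha b hb hab ε hε] with n h5 i hi j hj he
            exact h5 i hi j hj (Prod.mk.inj he).2
        linarith
    intro a ha b hb hab
    obtain ⟨h1, h2⟩ := hle a ha b hb hab
    obtain ⟨h3, h4⟩ := hle b hb a ha fun k hk => (hab k hk).symm
    exact ⟨le_antisymm h1 h3, le_antisymm h2 h4⟩

end main

/-- **(G) the gauge step** -/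
theorem seamGau : SeamGau := by
  intro θ g q V Dr P ν own r0 B B' I0 J κ u F X w Tn To lam lo w1 R1 T1 bC Cl E s₀ e V' Zs H
  exact ob_of H

end Crest.Agent.R136.SGa480
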