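import Crest.Agent.R136.Fl8_808
import Crest.Agent.R136.Deep0_770
import Crest.Agent.R136.KDef4_879
import Crest.Agent.R136.Sh6_605
import Crest.Agent.R136.MkA_627

-- ▼ part R136/Fl9_808
section

/-!
# R136 (S0187): the finite pair theorem for flat boxes (helper808)

`flat_pair` : two systems of near-maximal flat boxes (defect `W`) over one set `O` of objects of
level `i`, dyadic tilts `2^j`, `2^k'`, D-max at the levels `i + j`, `i + k'`, `i + k' + j` on parts of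
relative size `δ0` ⊢ `j, k' ≤ C (1 + log (W / δ0))`.
-/

set_option autoImplicit false
set_option linter.unusedVariables false
set_option linter.unusedSectionVars false

namespace Crest.Agent.R136.Fl808

open Finset Crest.Agent.R136.Sh605
open Crest.Agent.R138.Mk163 (zl rho)

/-- scaling of the penalised volume -/
theorem capB_scale {q0 q1 q2 a w1 w2 x0 x1 x2 : ℝ} (ha : 0 ≤ a) (h1 : 0 ≤ w1) (h2 : 0 ≤ w2)
    (hx0 : 0 ≤ x0) (hx1 : 0 ≤ x1) (hx2 : 0 ≤ x2) :
    capB q0 q1 q2 (x0 * a) (x1 * w1) (x2 * w2) =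
      x0 ^ (1 + q0) * x2 ^ (1 + q2) * x1 ^ (1 + q1) * capB q0 q1 q2 a w1 w2 := by
  unfold capB
  rw [Real.mul_rpow hx0 ha, Real.mul_rpow hx1 h1, Real.mul_rpow hx2 h2]
  ring

theorem capB_mono {q0 q1 q2 a w1 w2 a' w1' w2' : ℝ} (h0 : 0 ≤ q0) (h1 : 0 ≤ q1) (h2 : 0 ≤ q2)
    (ha : 0 ≤ a) (hw1 : 0 ≤ w1) (hw2 : 0 ≤ w2) (ha' : a ≤ a') (hw1' : w1 ≤ w1') (hw2' : w2 ≤ w2') :
    capB q0 q1 q2 a w1 w2 ≤ capB q0 q1 q2 a' w1' w2' := by
  unfold capB
  have : 0 ≤ 1 + q0 := by linarith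
  have : 0 ≤ 1 + q1 := by linarith
  have : 0 ≤ 1 + q2 := by linarith
  have := ha.trans ha'
  have := hw1.trans hw1'
  have := hw2.trans hw2'
  have : 0 ≤ a' ^ (1 + q0) := by positivity
  have : 0 ≤ a' ^ (1 + q0) * w2' ^ (1 + q2) := by positivity
  gcongr



/-- constant of the base part -/
noncomputable def c1F (q0 q1 q2 : ℝ) : ℝ :=
  1296 * (124 ^ (1 + q0) * 992 ^ (1 + q2) * 1984 ^ (1 + q1)) ^ 2

/-- constant of the thickness part -/
noncomputable def c2F (q0 q1 q2 : ℝ) : ℝ :=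
  8192 * (cF q0 q1 q2 / (1 - 2 ^ (-(q2 - q0)))) * (2 ^ (1 + q0) * 10 ^ (1 + q2) * 20 ^ (1 + q1)) ^ 2




section

variable {α β : Type*} {O Pj P P' : Finset (ℕ × ℤ)} {L : ℕ → Ln4} {i : ℕ} {f : ℕ × ℤ → α}
  {g : ℕ × ℤ → β} {bf : α → Ln4} {ef : α → Fin 3 → V3} {bg : β → Ln4} {eg : β → Fin 3 → V3}
  {a w1 w2 A1 A2 q0 q1 q2 r0 M W δ0 ω1 ω2 g' : ℝ} {j k' : ℕ}



/-- elementary elimination -/
theorem elim {x y c1 c2 ω g' q0 q1 q2 : ℝ} (hx : 0 ≤ x) (hω : 0 ≤ ω) (hc1 : 0 ≤ c1) (hc2 : 0 ≤ c2)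
    (hg : 0 ≤ g') (hq2 : 0 < q2) (hq0 : 2 * q0 ≤ q2) (hq21 : 8 * q2 ≤ q1) (hg1 : 64 * g' ≤ q1)
    (hgq : 64 * g' ^ 2 ≤ q1 * q2)
    (h1 : (q1 - q2 - g') * x ≤ c1 + 2 * ω + 2 * g' * y)
    (h2 : 0 ≤ y → (q2 - q0) * y ≤ c2 + 2 * ω + 2 * (g' + q2) * x) :
    x ≤ 4 / q1 * (c1 + 4 * g' / q2 * c2 + (2 + 8 * g' / q2) * ω) := by
  have hq1 : 0 < q1 := by linarith
  have hx1 : q1 / 2 * x ≤ (q1 - q2 - g') * x := by
    refine mul_le_mul_of_nonneg_right ?_ hx
    linarith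
  rcases le_total 0 y with hy | hy
  · have h3 := h2 hy
    have h4 : q2 / 2 * y ≤ (q2 - q0) * y := mul_le_mul_of_nonneg_right (by linarith) hy
    have h5 : y ≤ 2 / q2 * (c2 + 2 * ω + 2 * (g' + q2) * x) := by
      rw [div_mul_eq_mul_div, le_div_iff₀ hq2]; linarith
    have h6 : 2 * g' * y ≤ 2 * g' * (2 / q2 * (c2 + 2 * ω + 2 * (g' + q2) * x)) := by gcongr
    have h7 : 2 * g' * (2 / q2 * (c2 + 2 * ω + 2 * (g' + q2) * x)) =
        4 * g' / q2 * c2 + 8 * g' / q2 * ω + (8 * g' ^ 2 / q2 + 8 * g') * x := by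
      field_simp; ring
    have h8 : 8 * g' ^ 2 / q2 ≤ q1 / 8 := by
      rw [div_le_iff₀ hq2]; linarith
    have h9 : (8 * g' ^ 2 / q2 + 8 * g') * x ≤ q1 / 4 * x :=
      mul_le_mul_of_nonneg_right (by linarith) hx
    have h10 : q1 / 4 * x ≤ c1 + 4 * g' / q2 * c2 + (2 + 8 * g' / q2) * ω := by linarith
    rw [div_mul_eq_mul_div, le_div_iff₀ hq1]
    linarith
  · have h3 : 2 * g' * y ≤ 0 := mul_nonpos_of_nonneg_of_nonpos (by positivity) hy
    have h4 : 0 ≤ 4 * g' / q2 * c2 := by positivity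
    have h5 : 0 ≤ 8 * g' / q2 * ω := by positivity
    have h6 : 0 ≤ q1 * x := by positivity
    rw [div_mul_eq_mul_div, le_div_iff₀ hq1]
    linarith

/-- constants of the pair theorem -/
noncomputable def X1 (q0 q1 q2 g' : ℝ) : ℝ :=
  4 / q1 * ((|Real.log (c1F q0 q1 q2)| + 4 * g' * Real.log 2) +
    4 * g' / q2 * |Real.log (c2F q0 q1 q2)| + (2 + 8 * g' / q2))








end

end Crest.Agent.R136.Fl808
end

-- ▼ part R136/Fm1_808
section

/-!
# R136 (S0187): flat tilt, finite wiring (helper808)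

* `FSys.zoom`, `FSys.mono` : a system of flat boxes over the cells of level `i` read over the cells of
  level `i + k`.
* `fsys_of_mark` : the marked classes are a system.
* `own_count`, `ext_low`, `ext_up`, `part_count` : numbers of objects and of deep objects.
-/

set_option autoImplicit false
set_option linter.unusedVariables false
set_option linter.unusedSectionVars false

namespace Crest.Agent.R136.Fl808

open Finset Crest.Agent.R136.Sh605
open Crest.Agent.R138.Mk163 (zc zl rho alive own)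
open Crest.Agent.R138.MkRef627 (lc mem_alive card_class)
open Crest.Agent.R136.Deep51 (card_fib card_le_of_fib classes_le)
open Crest.Agent.R136.Dia770 (extO zc_div mem_extO_le mem_extO_ge extO_anc card_extO ico_div)
open Crest.Agent.R136.K4 (Plk4)

/-! ### systems -/

theorem image_card_inst {X Y : Type*} (i1 i2 : DecidableEq Y) (F : X → Y) (S : Finset X) :
    (@Finset.image X Y i1 F S).card = (@Finset.image X Y i2 F S).card := by
  have : i1 = i2 := Subsingleton.elim _ _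
  subst this
  rfl

section

variable {α : Type*} {O Ov : Finset (ℕ × ℤ)} {L : ℕ → Ln4} {i k : ℕ} {f : ℕ × ℤ → α}
  {bf : α → Ln4} {ef : α → Fin 3 → V3} {a w1 w2 A : ℝ}

open Classical in
theorem FSys.mono (h : FSys O L i f bf ef a w1 w2 A) {a' w1' w2' A' : ℝ} (h0 : a ≤ a')
    (h1 : w1 ≤ w1') (h2 : w2 ≤ w2') (hA : A' ≤ A) : FSys O L i f bf ef a' w1' w2' A' := by
  refine ⟨h.ortho, fun o ho => InB.mono (h.mem o ho) h0 h1 h2, h.cell, ?_⟩
  exact (mul_le_mul_of_nonneg_left hA (Nat.cast_nonneg _)).trans h.num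

open Classical in
/-- **a system read over shorter cells** -/
theorem FSys.zoom (h : FSys O L i f bf ef a w1 w2 A) (hP : ∀ x ∈ Ov, par k x ∈ O) (hA : 0 < A)
    {s1 s2 c : ℝ} (hs1 : 0 < s1) (hs2 : 0 < s2) (hw1 : 0 ≤ w1) (hw2 : 0 ≤ w2)
    (h1 : w1 ≤ 2 ^ k * s1) (h2 : w2 ≤ 2 ^ k * s2) (hc : 0 < c)
    (hcard : c * (O.card : ℝ) ≤ (Ov.card : ℝ)) :
    FSys Ov L (i + k) (lab L i k f bf ef s1 s2) (bb Ov L (lab L i k f bf ef s1 s2))
      (fun κ => ef κ.1) (2 * a) (5 * s1) (5 * s2)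
      (A * c / (2 ^ k * ((2 * (w1 / s1) + 2) * (2 * (w2 / s2) + 2)))) := by
  refine ⟨fun o ho => h.ortho _ (hP o ho), ?_, ?_, ?_⟩
  · intro o ho
    obtain ⟨y, hy, hys, hyb⟩ := bb_spec (L := L) (s := lab L i k f bf ef s1 s2) ho
    rw [hyb]
    obtain ⟨e1, e2, e3⟩ := lab_box h hP hs1 hs2 h1 h2 hy ho hys.symm
    rw [← e2, ← e1] at e3
    exact e3
  · intro o ho o' ho' hoo
    exact congrArg (fun p : α × ℤ × ℤ × ℤ => p.2.1) hoo
  · have e1 := card_lab (k := k) h hP hs1 hs2 hw1 hw2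
    have e2 := h.num' hA
    have hN : 0 < (2 * (w1 / s1) + 2) * (2 * (w2 / s2) + 2) := by positivity
    generalize (2 * (w1 / s1) + 2) * (2 * (w2 / s2) + 2) = N at *
    have hkN : (0:ℝ) < 2 ^ k * N := by positivity
    have e3 : ((Ov.image (lab L i k f bf ef s1 s2)).card : ℝ) ≤ (O.card : ℝ) / A * (2 ^ k * N) := by
      refine e1.trans ?_
      rw [mul_assoc]
      exact mul_le_mul_of_nonneg_right e2 hkN.le
    have e4 : ((Ov.image (lab L i k f bf ef s1 s2)).card : ℝ) * (A * c / (2 ^ k * N)) ≤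
        (O.card : ℝ) / A * (2 ^ k * N) * (A * c / (2 ^ k * N)) :=
      mul_le_mul_of_nonneg_right e3 (by positivity)
    have e5 : (O.card : ℝ) / A * (2 ^ k * N) * (A * c / (2 ^ k * N)) = c * O.card := by
      field_simp
    rw [e5] at e4
    have e6 := e4.trans hcard
    refine le_trans (le_of_eq ?_) e6
    exact congrArg (fun n : ℕ => (n : ℝ) * (A * c / (2 ^ k * N))) (image_card_inst _ _ _ _)

end

/-! ### marks -/

open Classical in
/-- **the marked classes are a system of flat boxes** -/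
theorem fsys_of_mark {J : Finset (ℕ × ℝ)} {L : ℕ → Ln4} {i : ℕ} {f : ℕ → ℤ → ℕ} {b : ℕ → Plk4}
    {a w1 w2 A r0 : ℝ}
    (hmark : ∀ c : ℤ, ∀ t ∈ alive J i c,
      InSheet (L t) (b (f t c)).e (b (f t c)).c (b (f t c)).w (b (f t c)).q (b (f t c)).a
        (zl i c) (rho i) ∧
      ShN (b (f t c)).e (b (f t c)).c (b (f t c)).w (b (f t c)).q (b (f t c)).a (zl i c) (rho i) r0 ∧
      (b (f t c)).a = a ∧ (b (f t c)).w 1 = w1 ∧ (b (f t c)).w 2 = w2)
    (hflat : ∀ c : ℤ, ∀ t ∈ alive J i c, ∀ z x, (b (f t c)).q z x =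
      dt ((b (f t c)).e 0) (x - (b (f t c)).c.pos z))
    (hnear : ∀ c : ℤ, ∀ t ∈ alive J i c,
      A ≤ (((alive J i c).filter fun s => f s c = f t c).card : ℝ)) :
    FSys (J.image (lc i)) L i (fun o => (o.2, f o.1 o.2)) (fun κ : ℤ × ℕ => (b κ.2).c)
      (fun κ => (b κ.2).e) a w1 w2 A := by
  have hal : ∀ o ∈ J.image (lc i), o.1 ∈ alive J i o.2 := by
    intro o ho
    obtain ⟨x, hx, rfl⟩ := mem_image.1 ho
    exact mem_alive.2 ⟨x, hx, rfl, rfl⟩
  refine ⟨fun o ho => (hmark _ _ (hal o ho)).2.1.ortho, ?_, ?_, ?_⟩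
  · intro o ho z hz hz' k
    obtain ⟨h1, -, h3, h4, h5⟩ := hmark _ _ (hal o ho)
    obtain ⟨h6, h7⟩ := h1 z hz hz'
    rw [hflat _ _ (hal o ho), h3] at h7
    fin_cases k
    · simpa using h7
    · have := h6 1
      rw [h4] at this
      simpa using this
    · have := h6 2
      rw [h5] at this
      simpa using this
  · intro o ho o' ho' h
    exact congrArg Prod.fst h
  · have e6 := classes_le (J.image (lc i)) ((J.image (lc i)).image fun o : ℕ × ℤ => (o.2, f o.1 o.2))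
      (fun o : ℕ × ℤ => (o.2, f o.1 o.2)) (m := A) ?_
    · exact le_trans (le_of_eq (congrArg (fun n : ℕ => (n : ℝ) * A) (image_card_inst _ _ _ _))) e6
    intro κ hκ
    obtain ⟨o, ho, rfl⟩ := mem_image.1 hκ
    refine (hnear _ _ (hal o ho)).trans ?_
    rw [card_class J i o.2 (fun s => f s o.2) (f o.1 o.2)]
    refine Nat.cast_le.2 (card_le_card ?_)
    intro o' ho'
    rw [mem_filter] at ho' ⊢
    obtain ⟨h1, h2, h3⟩ := ho'
    refine ⟨h1, ?_⟩
    simp only [Prod.mk.injEq]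
    exact ⟨h2, by rw [h2]; exact h3⟩

/-! ### numbers of objects -/


theorem par_lc {i j : ℕ} (h : i ≤ j) (x : ℕ × ℝ) : par (j - i) (lc j x) = lc i x := by
  unfold par lc
  rw [zc_div h]

open Classical in
/-- number of objects and own profile -/
theorem own_count {J : Finset (ℕ × ℝ)} {i j : ℕ} (hij : i ≤ j) {c : ℝ}
    (hc : ∀ x ∈ J, c ≤ ((own J i j x).card : ℝ)) :
    c * ((J.image (lc i)).card : ℝ) ≤ ((J.image (lc j)).card : ℝ) := by
  rw [mul_comm]
  refine classes_le _ _ (par (j - i)) ?_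
  intro o ho
  obtain ⟨x, hx, rfl⟩ := mem_image.1 ho
  refine (hc x hx).trans (Nat.cast_le.2 ?_)
  refine card_le_card_of_injOn (fun c' : ℤ => (x.1, c')) ?_ ?_
  · intro c' hc'
    have h1 := mem_coe.1 hc'
    unfold own at h1
    obtain ⟨y, hy, rfl⟩ := mem_image.1 h1
    obtain ⟨hyJ, hy1, hy2⟩ := mem_filter.1 hy
    rw [mem_coe, mem_filter]
    refine ⟨mem_image.2 ⟨y, hyJ, by simp only [lc, hy1]⟩, ?_⟩
    have h3 := par_lc hij y
    simp only [lc, hy1, hy2] at h3 ⊢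
    exact h3
  · intro a _ b _ hab
    exact congrArg Prod.snd hab






end Crest.Agent.R136.Fl808
end

-- ▼ part R136/Fm2_808
section

/-!
# R136 (S0187): flat tilt, common dimensions and the one-stage theorem (helper808)
-/

set_option autoImplicit false
set_option linter.unusedVariables false
set_option linter.unusedSectionVars false

namespace Crest.Agent.R136.Fl808

open Finset Crest.Agent.R136.Sh605
open Crest.Agent.R138.Mk163 (zc zl rho alive own)
open Crest.Agent.R138.MkRef627 (lc mem_alive card_class)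

/-! ### wider boxes -/

/-- an affine function bounded at the two ends of an interval is bounded on it -/
theorem aff_le {A B z0 ρ s z : ℝ} (hρ : 0 < ρ) (h0 : |A + z0 * B| ≤ s)
    (h1 : |A + (z0 + ρ) * B| ≤ s) (hz0 : z0 ≤ z) (hz1 : z ≤ z0 + ρ) : |A + z * B| ≤ s := by
  rw [abs_le] at h0 h1 ⊢
  have h2 : 0 ≤ z - z0 := by linarith
  have h3 : 0 ≤ z0 + ρ - z := by linarith
  have e : ρ * (A + z * B) = (z0 + ρ - z) * (A + z0 * B) + (z - z0) * (A + (z0 + ρ) * B) := by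
    ring
  have h4 := mul_le_mul_of_nonneg_left h0.1 h3
  have h5 := mul_le_mul_of_nonneg_left h0.2 h3
  have h6 := mul_le_mul_of_nonneg_left h1.1 h2
  have h7 := mul_le_mul_of_nonneg_left h1.2 h2
  constructor
  · have : ρ * (-s) ≤ ρ * (A + z * B) := by rw [e]; linarith
    exact le_of_mul_le_mul_left this hρ
  · have : ρ * (A + z * B) ≤ ρ * s := by rw [e]; linarith
    exact le_of_mul_le_mul_left this hρ

theorem pos_aff (e : V3) (t l : Ln4) (z : ℝ) :
    dt e (t.pos z - l.pos z) = dt e (t.p - l.p) + z * dt e (t.v - l.v) := by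
  simp only [dt, Ln4.pos, Pi.sub_apply]; ring

theorem inB_of_ends {t l : Ln4} {e : Fin 3 → V3} {s : V3} {z0 ρ : ℝ} (hρ : 0 < ρ)
    (h0 : ∀ i, |dt (e i) (t.pos z0 - l.pos z0)| ≤ s i)
    (h1 : ∀ i, |dt (e i) (t.pos (z0 + ρ) - l.pos (z0 + ρ))| ≤ s i) : InB t l e s z0 ρ := by
  intro z hz0 hz1 i
  have k0 := h0 i
  have k1 := h1 i
  rw [pos_aff] at k0 k1 ⊢
  exact aff_le hρ k0 k1 hz0 hz1

/-- the cell of a number of `[-s, s]` in the mesh `s'` -/
noncomputable def cel (s s' u : ℝ) : ℕ := ⌊(u + s) / s'⌋₊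

theorem cel_lt {s s' u K : ℝ} (hs' : 0 < s') (hs : s ≤ K * s') (hu : |u| ≤ s) :
    cel s s' u < ⌊2 * K⌋₊ + 1 := by
  unfold cel
  rw [Nat.lt_add_one_iff]
  apply Nat.floor_le_floor
  rw [div_le_iff₀ hs']
  have := (abs_le.1 hu).2
  linarith

theorem cel_eq {s s' u v : ℝ} (hs' : 0 < s') (hu : |u| ≤ s) (hv : |v| ≤ s)
    (h : cel s s' u = cel s s' v) : |u - v| ≤ s' := by
  unfold cel at h
  have h1 : 0 ≤ (u + s) / s' := div_nonneg (by linarith [(abs_le.1 hu).1]) hs'.le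
  have h2 : 0 ≤ (v + s) / s' := div_nonneg (by linarith [(abs_le.1 hv).1]) hs'.le
  have a1 := Nat.floor_le h1
  have a2 := Nat.lt_floor_add_one ((u + s) / s')
  have b1 := Nat.floor_le h2
  have b2 := Nat.lt_floor_add_one ((v + s) / s')
  rw [h] at a1 a2
  set m : ℝ := (⌊(v + s) / s'⌋₊ : ℝ) with hm
  rw [le_div_iff₀ hs'] at a1 b1
  rw [div_lt_iff₀ hs'] at a2 b2
  rw [abs_le]
  constructor <;> nlinarith

open Classical in
/-- **wider boxes** (helper413's `dmaxB_wide` with lower bounds of the widths) -/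
theorem dmaxW_wide {ι : Type*} {T : Finset ι} {L : ι → Ln4}
    {z0 ρ D q0 q1 q2 r0 ω1 ω2 K C1 R2 Ra : ℝ}
    (H : DMaxW T L z0 ρ D q0 q1 q2 r0 ω1 ω2 (min ρ C1) R2 Ra) (h0 : 0 ≤ q0) (h1 : 0 ≤ q1) (h2 : 0 ≤ q2)
    (hr0 : 0 < r0) (hr : r0 ≤ ρ) (hω1 : ω1 ≤ ρ) (hω2 : ω2 ≤ ρ) (hD : 0 ≤ D) (hK : 1 ≤ K) :
    DMaxW T L z0 ρ ((2 * K + 1) ^ 6 * D) q0 q1 q2 r0 ω1 ω2 (min (K * ρ) C1) R2 Ra := by
  have hρ : 0 < ρ := hr0.trans_le hr
  intro n l a w1 w2 hn ha haw hw ho1 ho2 hwKC hwR2 haRa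
  have hwK : w1 ≤ K * ρ := hwKC.trans (min_le_left _ _)
  have hwC : w1 ≤ C1 := hwKC.trans (min_le_right _ _)
  have pa : 0 < a := hr0.trans_le ha
  have pw2 : 0 < w2 := pa.trans_le haw
  have pw1 : 0 < w1 := pw2.trans_le hw
  set S := T.filter fun t => InB (L t) l n ![a, w1, w2] z0 ρ with hS
  set s : V3 := ![a, w1, w2] with hs
  set s' : V3 := ![min a ρ, min w1 ρ, min w2 ρ] with hs'
  have hsp : ∀ i, 0 < s' i := by
    intro i
    fin_cases i
    · exact lt_min pa hρ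
    · exact lt_min pw1 hρ
    · exact lt_min pw2 hρ
  have hmin : ∀ w : ℝ, 0 < w → w ≤ K * ρ → w ≤ K * min w ρ := by
    intro w hw0 hwk
    rcases le_total w ρ with h | h
    · rw [min_eq_left h]; nlinarith
    · rw [min_eq_right h]; exact hwk
  have hsK : ∀ i, s i ≤ K * s' i := by
    intro i
    fin_cases i
    · exact hmin a pa (by linarith)
    · exact hmin w1 pw1 hwK
    · exact hmin w2 pw2 (by linarith)
  set cd : ι → Fin 3 → ℕ × ℕ := fun t i =>
    (cel (s i) (s' i) (dt (n i) ((L t).pos z0 - l.pos z0)),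
      cel (s i) (s' i) (dt (n i) ((L t).pos (z0 + ρ) - l.pos (z0 + ρ)))) with hcd
  set N := ⌊2 * K⌋₊ + 1 with hN
  set C : Finset (Fin 3 → ℕ × ℕ) := Fintype.piFinset fun _ => range N ×ˢ range N with hC
  have hcard : (C.card : ℝ) ≤ (2 * K + 1) ^ 6 := by
    have e1 : C.card = (N * N) ^ 3 := by
      rw [hC, Fintype.card_piFinset]
      simp
    have e2 : (N : ℝ) ≤ 2 * K + 1 := by
      rw [hN]; push_cast
      linarith [Nat.floor_le (show (0:ℝ) ≤ 2 * K by linarith)]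
    rw [e1]
    push_cast
    calc ((N : ℝ) * N) ^ 3 = (N : ℝ) ^ 6 := by ring
      _ ≤ (2 * K + 1) ^ 6 := pow_le_pow_left₀ (Nat.cast_nonneg _) e2 6
  have hmap : ∀ t ∈ S, cd t ∈ C := by
    intro t ht
    rw [hS, mem_filter] at ht
    rw [hC, Fintype.mem_piFinset]
    intro i
    rw [mem_product, mem_range, mem_range]
    exact ⟨cel_lt (hsp i) (hsK i) (ht.2 z0 le_rfl (by linarith) i),
      cel_lt (hsp i) (hsK i) (ht.2 (z0 + ρ) (by linarith) le_rfl i)⟩
  have hfib : ∀ c ∈ C, ((S.filter fun t => cd t = c).card : ℝ) ≤ D * capB q0 q1 q2 a w1 w2 := by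
    intro c hc
    rcases (S.filter fun t => cd t = c).eq_empty_or_nonempty with hE | ⟨t0, ht0⟩
    · rw [hE]
      simp only [card_empty, Nat.cast_zero]
      exact mul_nonneg hD (capB_pos pa pw1 pw2).le
    · have ht0' := ht0
      rw [mem_filter] at ht0'
      obtain ⟨hS0, hc0⟩ := ht0'
      have hb0 := (mem_filter.1 hS0).2
      have key : ∀ t ∈ S.filter fun t => cd t = c, InB (L t) (L t0) n s' z0 ρ := by
        intro t ht
        rw [mem_filter] at ht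
        obtain ⟨hSt, hct⟩ := ht
        have hbt := (mem_filter.1 hSt).2
        have hcc : cd t = cd t0 := by rw [hct, hc0]
        have hdiff : ∀ (i : Fin 3) (z : ℝ), dt (n i) ((L t).pos z - (L t0).pos z) =
            dt (n i) ((L t).pos z - l.pos z) - dt (n i) ((L t0).pos z - l.pos z) := by
          intro i z
          simp only [dt, Pi.sub_apply]; ring
        apply inB_of_ends hρ
        · intro i
          rw [hdiff]
          have := congrArg Prod.fst (congrFun hcc i)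
          exact cel_eq (hsp i) (hbt z0 le_rfl (by linarith) i) (hb0 z0 le_rfl (by linarith) i) this
        · intro i
          rw [hdiff]
          have := congrArg Prod.snd (congrFun hcc i)
          exact cel_eq (hsp i) (hbt (z0 + ρ) (by linarith) le_rfl i)
            (hb0 (z0 + ρ) (by linarith) le_rfl i) this
      have h3 : ((S.filter fun t => cd t = c).card : ℝ) ≤
          ((T.filter fun t => InB (L t) (L t0) n s' z0 ρ).card : ℝ) := by
        refine Nat.cast_le.2 (card_le_card fun t ht => ?_)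
        have hk := key t ht
        rw [mem_filter] at ht ⊢
        exact ⟨(mem_filter.1 ht.1).1, hk⟩
      have h4 := H n (L t0) (min a ρ) (min w1 ρ) (min w2 ρ) hn (le_min ha hr)
        (min_le_min_right _ haw) (min_le_min_right _ hw) (le_min ho1 hω1) (le_min ho2 hω2)
        (le_min (min_le_right _ _) ((min_le_left _ _).trans hwC)) ((min_le_left _ _).trans hwR2)
        ((min_le_left _ _).trans haRa)
      refine h3.trans (h4.trans (mul_le_mul_of_nonneg_left ?_ hD))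
      exact capB_mono h0 h1 h2 (lt_min pa hρ).le (lt_min pw1 hρ).le (lt_min pw2 hρ).le
        (min_le_left _ _) (min_le_left _ _) (min_le_left _ _)
  have e1 : (S.card : ℝ) = ∑ c ∈ C, ((S.filter fun t => cd t = c).card : ℝ) := by
    rw [card_eq_sum_card_fiberwise (f := cd) (t := C) hmap]
    push_cast
    rfl
  rw [e1]
  calc ∑ c ∈ C, ((S.filter fun t => cd t = c).card : ℝ)
      ≤ ∑ c ∈ C, D * capB q0 q1 q2 a w1 w2 := sum_le_sum hfib
    _ = C.card * (D * capB q0 q1 q2 a w1 w2) := by rw [sum_const, nsmul_eq_mul]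
    _ ≤ (2 * K + 1) ^ 6 * (D * capB q0 q1 q2 a w1 w2) :=
        mul_le_mul_of_nonneg_right hcard (mul_nonneg hD (capB_pos pa pw1 pw2).le)
    _ = (2 * K + 1) ^ 6 * D * capB q0 q1 q2 a w1 w2 := by ring

/-- smaller upper bounds of the widths -/
theorem DMaxW.anti {ι : Type*} {T : Finset ι} {L : ι → Ln4}
    {z0 ρ D D' q0 q1 q2 r0 ω1 ω2 R0 R0' R2 R2' Ra Ra' : ℝ}
    (H : DMaxW T L z0 ρ D q0 q1 q2 r0 ω1 ω2 R0 R2 Ra) (hR : R0' ≤ R0) (hR2 : R2' ≤ R2)
    (hRa : Ra' ≤ Ra) (hD : D ≤ D')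
    (hr0 : 0 < r0) : DMaxW T L z0 ρ D' q0 q1 q2 r0 ω1 ω2 R0' R2' Ra' := by
  classical
  intro n l a w1 w2 h1 h2 h3 h4 h5 h6 h7 h8 h9
  refine le_trans ?_ (mul_le_mul_of_nonneg_right hD (capB_pos (q0 := q0) (q1 := q1) (q2 := q2)
    (hr0.trans_le h2) (((hr0.trans_le h2).trans_le h3).trans_le h4) ((hr0.trans_le h2).trans_le h3)).le)
  convert H n l a w1 w2 h1 h2 h3 h4 h5 h6 (h7.trans hR) (h8.trans hR2) (h9.trans hRa)

theorem DMaxP.wide {P : Finset (ℕ × ℤ)} {L : ℕ → Ln4} {m : ℕ}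
    {D D' q0 q1 q2 r0 ω1 ω2 K R0 R2 Ra C1 C2 Ca : ℝ}
    (H : DMaxP P L m D q0 q1 q2 r0 ω1 ω2 (min (rho m) C1) C2 Ca) (h0 : 0 ≤ q0)
    (h1 : 0 ≤ q1) (h2 : 0 ≤ q2) (hr0 : 0 < r0) (hr : r0 ≤ rho m) (hω1 : ω1 ≤ rho m)
    (hω2 : ω2 ≤ rho m) (hD : 0 ≤ D) (hK : 1 ≤ K) (hR : R0 ≤ K * rho m) (hRC : R0 ≤ C1)
    (hR2 : R2 ≤ C2) (hRa : Ra ≤ Ca) (hD' : (2 * K + 1) ^ 6 * D ≤ D') :
    DMaxP P L m D' q0 q1 q2 r0 ω1 ω2 R0 R2 Ra :=
  fun c => (dmaxW_wide (H c) h0 h1 h2 hr0 hr hω1 hω2 hD hK).anti (le_min hR hRC) hR2 hRa hD' hr0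

/-! ### common dimensions -/

/-- common thickness -/
noncomputable def aC (au av : ℝ) : ℝ := 40 * max au av
/-- common lateral widths -/
noncomputable def wC (k0 : ℕ) (au av wu wv : ℝ) : ℝ := 5 * max (max wv (wu / 2 ^ k0)) (aC au av)

section

variable {k0 : ℕ} {au av w1u w1v w2u w2v E : ℝ}

theorem aC_pos (hu : 0 < au) : 0 < aC au av := by
  have : au ≤ max au av := le_max_left _ _
  unfold aC; linarith

theorem aC_u (hu : 0 < au) : 2 * au ≤ aC au av := by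
  have : au ≤ max au av := le_max_left _ _
  unfold aC; linarith

theorem aC_v (hv : 0 < av) : av ≤ aC au av := by
  have : av ≤ max au av := le_max_right _ _
  unfold aC; linarith

theorem aC_leV (hv : 0 < av) (hE : 1 ≤ E) (h : au ≤ E * av) : aC au av ≤ 40 * E * av := by
  unfold aC
  have : max au av ≤ E * av := max_le h (by nlinarith)
  linarith


theorem wC_a : 5 * aC au av ≤ wC k0 au av w1u w1v := by
  unfold wC
  exact mul_le_mul_of_nonneg_left (le_max_right _ _) (by norm_num)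

theorem wC_v : 5 * w1v ≤ wC k0 au av w1u w1v := by
  unfold wC
  exact mul_le_mul_of_nonneg_left ((le_max_left _ _).trans (le_max_left _ _)) (by norm_num)

theorem wC_u : w1u ≤ 2 ^ k0 * (wC k0 au av w1u w1v / 5) := by
  have h : w1u / 2 ^ k0 ≤ wC k0 au av w1u w1v / 5 := by
    unfold wC
    rw [mul_div_cancel_left₀ _ (by norm_num : (5:ℝ) ≠ 0)]
    exact (le_max_right _ _).trans (le_max_left _ _)
  rw [div_le_iff₀ (by positivity)] at h
  linarith

theorem wC_mono (h1 : w2u ≤ w1u) (h2 : w2v ≤ w1v) :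
    wC k0 au av w2u w2v ≤ wC k0 au av w1u w1v := by
  unfold wC
  refine mul_le_mul_of_nonneg_left (max_le_max (max_le_max h2 ?_) le_rfl) (by norm_num)
  exact div_le_div_of_nonneg_right h1 (by positivity)

theorem wC_leV (hv : 0 < av) (hw : av ≤ w1v) (hE : 1 ≤ E) (h : au ≤ E * av) (h1 : w1u ≤ E * w1v) :
    wC k0 au av w1u w1v ≤ 200 * E * w1v := by
  unfold wC
  have hw0 : 0 < w1v := hv.trans_le hw
  have p : (1:ℝ) ≤ 2 ^ k0 := one_le_pow₀ (by norm_num)
  have h2 : w1u / 2 ^ k0 ≤ 40 * E * w1v := by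
    rw [div_le_iff₀ (by positivity)]
    have : 0 < E * w1v := by positivity
    calc w1u ≤ E * w1v := h1
      _ ≤ 40 * E * w1v := by linarith
      _ ≤ 40 * E * w1v * 2 ^ k0 := le_mul_of_one_le_right (by positivity) p
  have h3 : aC au av ≤ 40 * E * w1v := (aC_leV hv hE h).trans (by gcongr)
  have h4 : w1v ≤ 40 * E * w1v := by nlinarith
  have := max_le (max_le h4 h2) h3
  linarith


end

end Crest.Agent.R136.Fl808
end

-- ▼ part R136/Fm3_808
section

/-!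
# R136 (S0187): flat tilt, the one-stage theorem (helper808)

`one_n` : marks of two levels of one stage, compared over the cells of the finer level.
-/

set_option autoImplicit false
set_option linter.unusedVariables false
set_option linter.unusedSectionVars false

namespace Crest.Agent.R136.Fl808

open Finset Crest.Agent.R136.Sh605
open Crest.Agent.R138.Mk163 (zc zl rho alive own)
open Crest.Agent.R138.MkRef627 (lc mem_alive card_class)

theorem capB_cube {q0 q1 q2 a w1 w2 x : ℝ} (ha : 0 ≤ a) (h1 : 0 ≤ w1) (h2 : 0 ≤ w2) (hx : 0 < x) :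
    capB q0 q1 q2 (x * a) (x * w1) (x * w2) =
      x ^ (3 + (q0 + q1 + q2)) * capB q0 q1 q2 a w1 w2 := by
  rw [capB_scale ha h1 h2 hx.le hx.le hx.le, ← Real.rpow_add hx, ← Real.rpow_add hx]
  congr 2
  ring

/-- number of small boxes -/
theorem N_le {w1 w2 s1 s2 : ℝ} {k0 : ℕ} (hw1 : 0 ≤ w1) (hw2 : 0 ≤ w2) (hs1 : 0 < s1) (hs2 : 0 < s2)
    (h1 : w1 ≤ 2 ^ k0 * s1) (h2 : w2 ≤ 2 ^ k0 * s2) :
    (2 * (w1 / s1) + 2) * (2 * (w2 / s2) + 2) ≤ 16 * 4 ^ k0 := by
  have p : (1:ℝ) ≤ 2 ^ k0 := one_le_pow₀ (by norm_num)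
  have e1 : w1 / s1 ≤ 2 ^ k0 := by rw [div_le_iff₀ hs1]; exact h1
  have e2 : w2 / s2 ≤ 2 ^ k0 := by rw [div_le_iff₀ hs2]; exact h2
  have e3 : (16:ℝ) * 4 ^ k0 = (4 * 2 ^ k0) * (4 * 2 ^ k0) := by
    have : (4:ℝ) ^ k0 = 2 ^ k0 * 2 ^ k0 := by rw [← mul_pow]; norm_num
    rw [this]; ring
  rw [e3]
  have : 0 ≤ w2 / s2 := by positivity
  refine mul_le_mul (by linarith) (by linarith) (by positivity) (by positivity)

section

variable {α β : Type*} {Ou Ov Pj P P' : Finset (ℕ × ℤ)} {L : ℕ → Ln4} {i k0 : ℕ} {f : ℕ × ℤ → α}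
  {g : ℕ × ℤ → β} {bf : α → Ln4} {ef : α → Fin 3 → V3} {bg : β → Ln4} {eg : β → Fin 3 → V3}
  {au w1u w2u Au av w1v w2v Av q0 q1 q2 r0 M W Wu Wv δ0 ω1 ω2 g' c E : ℝ} {j k' : ℕ}


end

end Crest.Agent.R136.Fl808
end

-- ▼ part R136/Fm4_808

/-!
# R136 (S0187): flat tilt, facts of the marked sequence (helper808)
-/

set_option autoImplicit false
set_option linter.unusedVariables false
set_option linter.unusedSectionVars false

namespace Crest.Agent.R136.Fl808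

open Finset Filter Topology Crest.Agent.R136.Sh605
open Crest.Agent.R138.Ex926 (Base U)
open Crest.Agent.R138.Dp76 (Dense dpow_pos dpow_add dpow_le dpow_le_one)
open Crest.Agent.R138.Mk163 (zc zl rho alive own Negl)
open Crest.Agent.R138.MkRef627 (lc mem_alive card_class)
open Crest.Agent.R136.K4 (Plk4)
open Crest.Agent.R136.MkA627
open Crest.Agent.R136.Dia770 (extO)

/-- what is used of the geometry -/
structure GeoOk (G : Geo Plk4 (Fin 3)) (L : ℕ → ℕ → Ln4) (r0 : ℕ → ℝ) (q : Fin 3 → ℝ) : Prop where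
  mem : ∀ n i J s t, G.mem n i J s t → InSheet (L n t) s.e s.c s.w s.q s.a (zl i J) (rho i)
  adm : ∀ n i J s, G.adm n i J s →
    ShN s.e s.c s.w s.q s.a (zl i J) (rho i) (r0 n) ∧ s.w 1 ≤ rho i
  val : ∀ n i J s, G.val n i J s = s.a * s.w 2 * s.w 1 *
    ((s.a / rho i) ^ q 0 * (s.w 1 / rho i) ^ q 1 * (s.w 2 / rho i) ^ q 2)
  wid : ∀ k s, G.wid k s = ![s.a, s.w 1, s.w 2] k

theorem val_eq {a w1 w2 ρ q0 q1 q2 : ℝ} (ha : 0 < a) (h1 : 0 < w1) (h2 : 0 < w2) (hρ : 0 < ρ) :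
    a * w2 * w1 * ((a / ρ) ^ q0 * (w1 / ρ) ^ q1 * (w2 / ρ) ^ q2) =
      capB q0 q1 q2 a w1 w2 * ρ ^ (-(q0 + q1 + q2)) := by
  unfold capB
  rw [Real.div_rpow ha.le hρ.le, Real.div_rpow h1.le hρ.le, Real.div_rpow h2.le hρ.le,
    Real.rpow_add ha, Real.rpow_add h1, Real.rpow_add h2, Real.rpow_one, Real.rpow_one,
    Real.rpow_one, Real.rpow_neg hρ.le, Real.rpow_add hρ, Real.rpow_add hρ]
  field_simp

/-! ### exponents -/

theorem dpow_exp (B : Base) (n : ℕ) (x : ℝ) : B.d n ^ x = Real.exp (-(x * B.L n)) := by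
  rw [Real.rpow_def_of_pos (B.pos n)]
  congr 1
  unfold Base.L
  ring

theorem le_dpow {B : Base} {n : ℕ} {x y : ℝ} (hy : 0 < y) (h : Real.log y ≤ -(x * B.L n)) :
    y ≤ B.d n ^ x := by
  rw [dpow_exp, ← Real.log_le_iff_le_exp hy]; exact h

theorem dpow_le' {B : Base} {n : ℕ} {x y : ℝ} (hy : 0 < y) (h : -(x * B.L n) ≤ Real.log y) :
    B.d n ^ x ≤ y := by
  rw [dpow_exp, ← Real.le_log_iff_exp_le hy]; exact h

/-- constants are small powers -/
theorem const_le (B : Base) (C : ℝ) {ε : ℝ} (hε : 0 < ε) :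
    ∀ᶠ n in (U : Filter ℕ), C ≤ B.d n ^ (-ε) := by
  filter_upwards [B.ev_L_ge (Real.log (max C 1) / ε)] with n hn
  refine (le_max_left C 1).trans (le_dpow (lt_of_lt_of_le one_pos (le_max_right _ _)) ?_)
  rw [div_le_iff₀ hε] at hn
  linarith

section

variable {B : Base} {I : ℕ → Finset (ℕ × ℝ)} {G : Geo Plk4 (Fin 3)} {lev : ℕ → ℚ → ℕ}
    {A : ℕ → ℝ} {g : ℝ} {θ : Fin 3 → ℝ} {f : ℕ → ℚ → ℕ → ℤ → ℕ} {b : ℕ → ℚ → ℕ → Plk4}
    {vm : ℕ → ℚ → ℝ} {w : Fin 3 → ℕ → ℚ → ℝ} {L : ℕ → ℕ → Ln4} {r0 : ℕ → ℝ} {q : Fin 3 → ℝ}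

/-- the class of sequences considered -/
abbrev MkF (B : Base) (I : ℕ → Finset (ℕ × ℝ)) (G : Geo Plk4 (Fin 3)) (lev : ℕ → ℚ → ℕ)
    (A : ℕ → ℝ) (g : ℝ) (θ : Fin 3 → ℝ) (f : ℕ → ℚ → ℕ → ℤ → ℕ) (b : ℕ → ℚ → ℕ → Plk4)
    (vm : ℕ → ℚ → ℝ) (w : Fin 3 → ℕ → ℚ → ℝ) : Prop :=
  MkA B I G lev A (fun v => g * v) (fun v => 0 * v) (fun j v => θ j * (1 - v)) f b vm w

/-- (S1) number of cells between two levels -/
theorem lev_pow (h : MkF B I G lev A g θ f b vm w) {u v : ℚ} (hu : 0 ≤ u) (huv : u ≤ v)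
    (hv : v ≤ 1) {ε : ℝ} (hε : 0 < ε) : ∀ᶠ n in (U : Filter ℕ), lev n u ≤ lev n v ∧
      (2:ℝ) ^ (lev n v - lev n u) ≤ B.d n ^ (-((v:ℝ) - u) - ε) ∧
      B.d n ^ (-((v:ℝ) - u) + ε) ≤ (2:ℝ) ^ (lev n v - lev n u) := by
  have h1 := (Metric.tendsto_nhds.1 (h.lev_lim u v hu huv hv)) ε hε
  filter_upwards [h.lev_mono u v hu huv hv, h1] with n hn h2
  have hL := B.L_pos n
  rw [Real.dist_eq, abs_lt] at h2
  have e1 : ((lev n v - lev n u : ℕ) : ℝ) = (lev n v : ℝ) - lev n u := by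
    rw [Nat.cast_sub hn]
  have e2 : Real.log ((2:ℝ) ^ (lev n v - lev n u)) = ((lev n v : ℝ) - lev n u) * Real.log 2 := by
    rw [Real.log_pow, e1]
  have e3 : ((lev n v : ℝ) - lev n u) * Real.log 2 / B.L n * B.L n =
      ((lev n v : ℝ) - lev n u) * Real.log 2 := by field_simp
  refine ⟨hn, le_dpow (by positivity) ?_, dpow_le' (by positivity) ?_⟩
  · rw [e2, ← e3]
    nlinarith
  · rw [e2, ← e3]
    nlinarith

/-- `2^(level difference)` and lengths of cells -/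
theorem rho_two {i j : ℕ} (h : i ≤ j) : rho i = rho j * 2 ^ (j - i) := by
  have := rho_add i (j - i)
  rw [← this]
  congr 2
  omega

/-- (S2) comparable widths -/
theorem wid_comp (h : MkF B I G lev A g θ f b vm w) (j : Fin 3) {u v : ℚ} (hu : 0 ≤ u)
    (huv : u ≤ v) (hv : v ≤ 1) {ε : ℝ} (hε : 0 < ε) : ∀ᶠ n in (U : Filter ℕ),
      w j n u ≤ B.d n ^ (-((|θ j| + 1) * ((v:ℝ) - u)) - ε) * w j n v ∧
      w j n v ≤ B.d n ^ (-((|θ j| + 1) * ((v:ℝ) - u)) - ε) * w j n u := by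
  have hε4 : 0 < ε / 4 := by linarith
  have t1 := (Metric.tendsto_nhds.1 (h.tau j u hu (huv.trans hv))) _ hε4
  have t2 := (Metric.tendsto_nhds.1 (h.tau j v (hu.trans huv) hv)) _ hε4
  filter_upwards [lev_pow h hu huv hv hε4, t1, t2, h.wpos j u hu (huv.trans hv),
    h.wpos j v (hu.trans huv) hv, h.wpos j 1 zero_le_one le_rfl] with n hl h1 h2 pu pv p1
  obtain ⟨hmono, hl1, hl2⟩ := hl
  have hL := B.L_pos n
  have hvu : (0:ℝ) ≤ (v:ℝ) - u := by
    have : (u:ℝ) ≤ v := by exact_mod_cast huv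
    linarith
  rw [Real.dist_eq, abs_lt] at h1 h2
  have ru := rho_pos (lev n u)
  have rv := rho_pos (lev n v)
  have r1 := rho_pos (lev n 1)
  -- logarithms
  have lU : Real.log ((rho (lev n u) / w j n u) / (rho (lev n 1) / w j n 1)) =
      Real.log (rho (lev n u)) - Real.log (w j n u) - (Real.log (rho (lev n 1)) -
        Real.log (w j n 1)) := by
    rw [Real.log_div (by positivity) (by positivity), Real.log_div (by positivity) (by positivity),
      Real.log_div (by positivity) (by positivity)]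
  have lV : Real.log ((rho (lev n v) / w j n v) / (rho (lev n 1) / w j n 1)) =
      Real.log (rho (lev n v)) - Real.log (w j n v) - (Real.log (rho (lev n 1)) -
        Real.log (w j n 1)) := by
    rw [Real.log_div (by positivity) (by positivity), Real.log_div (by positivity) (by positivity),
      Real.log_div (by positivity) (by positivity)]
  rw [lU] at h1
  rw [lV] at h2
  have lρ : Real.log (rho (lev n u)) = Real.log (rho (lev n v)) +
      Real.log ((2:ℝ) ^ (lev n v - lev n u)) := by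
    rw [rho_two hmono, Real.log_mul (by positivity) (by positivity)]
  have k1 : Real.log ((2:ℝ) ^ (lev n v - lev n u)) ≤ ((v:ℝ) - u + ε / 4) * B.L n := by
    have := Real.log_le_log (by positivity) hl1
    rw [dpow_exp, Real.log_exp] at this
    linarith
  have k2 : 0 ≤ Real.log ((2:ℝ) ^ (lev n v - lev n u)) :=
    Real.log_nonneg (one_le_pow₀ (by norm_num))
  set x := Real.log (rho (lev n u)) - Real.log (w j n u) - (Real.log (rho (lev n 1)) -
        Real.log (w j n 1)) with hx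
  set y := Real.log (rho (lev n v)) - Real.log (w j n v) - (Real.log (rho (lev n 1)) -
        Real.log (w j n 1)) with hy
  have ex : x / B.L n * B.L n = x := by field_simp
  have ey : y / B.L n * B.L n = y := by field_simp
  have hxy : Real.log (w j n v) - Real.log (w j n u) =
      x - y - Real.log ((2:ℝ) ^ (lev n v - lev n u)) := by
    rw [hx, hy, lρ]; ring
  have hab := abs_nonneg (θ j)
  have hθ : -(|θ j| * ((v:ℝ) - u)) ≤ θ j * ((v:ℝ) - u) ∧
      θ j * ((v:ℝ) - u) ≤ |θ j| * ((v:ℝ) - u) := by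
    constructor
    · have := neg_abs_le (θ j); nlinarith
    · have := le_abs_self (θ j); nlinarith
  have hxy1 : |x - y| ≤ (|θ j| * ((v:ℝ) - u) + ε / 2) * B.L n := by
    rw [← ex, ← ey, ← sub_mul, abs_mul, abs_of_pos hL]
    refine mul_le_mul_of_nonneg_right ?_ hL.le
    rw [abs_le]
    constructor <;> linarith [hθ.1, hθ.2, h1.1, h1.2, h2.1, h2.2]
  rw [abs_le] at hxy1
  have hmain : |Real.log (w j n v) - Real.log (w j n u)| ≤
      ((|θ j| + 1) * ((v:ℝ) - u) + ε) * B.L n := by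
    have hεL : 0 ≤ ε * B.L n := by positivity
    have hvL : 0 ≤ ((v:ℝ) - u) * B.L n := by positivity
    obtain ⟨c1, c2⟩ := hxy1
    rw [hxy, abs_le]
    generalize Real.log ((2:ℝ) ^ (lev n v - lev n u)) = P at *
    generalize B.L n = Ln at *
    generalize (v:ℝ) - u = vu at *
    generalize |θ j| = T at *
    constructor
    · linarith
    · linarith
  rw [abs_le] at hmain
  have hd : 0 < B.d n ^ (-((|θ j| + 1) * ((v:ℝ) - u)) - ε) := dpow_pos B n _
  have ld : Real.log (B.d n ^ (-((|θ j| + 1) * ((v:ℝ) - u)) - ε)) =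
      ((|θ j| + 1) * ((v:ℝ) - u) + ε) * B.L n := by
    rw [dpow_exp, Real.log_exp]; ring
  constructor
  · rw [← Real.log_le_log_iff pu (by positivity), Real.log_mul hd.ne' pv.ne', ld]
    linarith [hmain.1]
  · rw [← Real.log_le_log_iff pv (by positivity), Real.log_mul hd.ne' pu.ne', ld]
    linarith [hmain.2]

/-- (S3) dimensions of the marks -/
theorem dims (h : MkF B I G lev A g θ f b vm w) (hG : GeoOk G L r0 q) (hr0 : ∀ n, 0 < r0 n) {v : ℚ}
    (hv0 : 0 ≤ v) (hv1 : v ≤ 1) : ∀ᶠ n in (U : Filter ℕ),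
      r0 n ≤ w 0 n v ∧ w 0 n v ≤ w 2 n v ∧ w 2 n v ≤ w 1 n v ∧ w 1 n v ≤ rho (lev n v) ∧
      vm n v = capB (q 0) (q 1) (q 2) (w 0 n v) (w 1 n v) (w 2 n v) *
        rho (lev n v) ^ (-(q 0 + q 1 + q 2)) := by
  filter_upwards [h.ne, h.mark v hv0 hv1] with n hne hm
  obtain ⟨x, hx⟩ := hne
  have hal : x.1 ∈ alive (I n) (lev n v) (zc (lev n v) x.2) := mem_alive.2 ⟨x, hx, rfl, rfl⟩
  obtain ⟨m1, m2, m3, m4⟩ := hm _ _ hal
  obtain ⟨a1, a2⟩ := hG.adm _ _ _ _ m2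
  have w0 := m4 0
  have w1 := m4 1
  have w2 := m4 2
  rw [hG.wid] at w0 w1 w2
  simp only [Matrix.cons_val_zero, Matrix.cons_val_one, Matrix.cons_val] at w0 w1 w2
  have p0 : 0 < w 0 n v := by rw [← w0]; exact (hr0 n).trans_le a1.r0_le
  have e0 : w 0 n v ≤ w 2 n v := by rw [← w0, ← w2]; exact a1.a_le
  have e1 : w 2 n v ≤ w 1 n v := by rw [← w1, ← w2]; exact a1.w_le
  refine ⟨by rw [← w0]; exact a1.r0_le, e0, e1, by rw [← w1]; exact a2, ?_⟩
  rw [← m3, hG.val, w0, w1, w2]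
  exact val_eq p0 ((p0.trans_le e0).trans_le e1) (p0.trans_le e0) (rho_pos _)

/-- flat marks -/
def FlatE (I : ℕ → Finset (ℕ × ℝ)) (lev : ℕ → ℚ → ℕ) (f : ℕ → ℚ → ℕ → ℤ → ℕ)
    (b : ℕ → ℚ → ℕ → Plk4) : Prop :=
  ∀ v : ℚ, 0 ≤ v → v ≤ 1 → ∀ᶠ n in (U : Filter ℕ), ∀ J : ℤ, ∀ t ∈ alive (I n) (lev n v) J,
    ∀ z x, (b n v (f n v t J)).q z x =
      dt ((b n v (f n v t J)).e 0) (x - (b n v (f n v t J)).c.pos z)

/-- (S4) the marks of a level are a system of flat boxes -/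
theorem sys_ev (h : MkF B I G lev A g θ f b vm w) (hG : GeoOk G L r0 q)
    (hF : FlatE I lev f b) {v : ℚ} (hv0 : 0 ≤ v) (hv1 : v ≤ 1) {ε : ℝ} (hε : 0 < ε) :
    ∀ᶠ n in (U : Filter ℕ),
      FSys ((I n).image (lc (lev n v))) (L n) (lev n v) (fun o => (o.2, f n v o.1 o.2))
        (fun κ : ℤ × ℕ => (b n v κ.2).c) (fun κ => (b n v κ.2).e) (w 0 n v) (w 1 n v) (w 2 n v)
        (B.d n ^ ε * (ampA B A (fun v => g * v) n v * vm n v)) := by
  filter_upwards [h.mark v hv0 hv1, hF v hv0 hv1, h.near v hv0 hv1 ε hε] with n hm hf hn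
  refine fsys_of_mark (r0 := r0 n) ?_ hf ?_
  · intro c t ht
    obtain ⟨m1, m2, m3, m4⟩ := hm c t ht
    obtain ⟨a1, a2⟩ := hG.adm _ _ _ _ m2
    have w0 := m4 0
    have w1 := m4 1
    have w2 := m4 2
    rw [hG.wid] at w0 w1 w2
    simp only [Matrix.cons_val_zero, Matrix.cons_val_one, Matrix.cons_val] at w0 w1 w2
    exact ⟨hG.mem _ _ _ _ _ m1, a1, w0, w1, w2⟩
  · intro c t ht
    have h1 := hn c t ht
    have h2 := mul_le_mul_of_nonneg_left h1 (dpow_pos B n ε).le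
    refine h2.trans (le_of_eq ?_)
    rw [← mul_assoc, ← dpow_add, add_neg_cancel, Real.rpow_zero, one_mul]

end

end Crest.Agent.R136.Fl808
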