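import Crest.Agent.R136.StM5_555
import Crest.Agent.R136.Prs3_262
import Crest.Agent.R136.Fm4_808
import Crest.Agent.R136.Us4_555
import Crest.Agent.R138.Ctn2_829
import Crest.Agent.R136.Tlt1_51
import Crest.Agent.R136.StM7_555
import Crest.Agent.R136.Cap2_102
import Crest.Agent.R136.KapP_335
import Crest.Agent.R136.Thn1_768
import Crest.Agent.R136.Cap3_102
import Crest.Agent.R136.Fl1_808
import Crest.Agent.R136.Sh7_321
import Crest.Agent.R136.TopD_484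
import Crest.Agent.R138.ArgM1_163
import Crest.Agent.R136.StM4_555

-- ▼ part R136/StM6_555
section

/-!
# R136 (S0187), U6 thin side (helper555): `MPre` gives the window `ThinW`
-/

set_option autoImplicit false
set_option linter.unusedVariables false
set_option linter.unusedSectionVars false

open Finset Filter Topology

namespace Crest.Agent.R136.Us555

open Crest.Agent.R138.Ex926 (Base U exists_diag ev_em)
open Crest.Agent.R138.Dp76
open Crest.Agent.R138.Mk163 (zc zl rho alive own Negl)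
open Crest.Agent.R136.MkA627 Crest.Agent.R136.Sh605 Crest.Agent.R136.K4 Crest.Agent.R136.Top484
open Crest.Agent.R136.Tlt51 (mk4 zx rh Close)
open Crest.Agent.R136.KapP335 (kapP DetP kapP_eq)
open Crest.Agent.R136.Thn768 (Tay cr Frm Cont ThinW Own Snd D3 nm exists_tay)

/-- **macroscopic facts on a dense part** -/
theorem MPre.exists_mac {p : Par4} {D : Dat4} {l r : ℚ} (h : MPre p D l r) (hK : Kil D)
    (hw : Rng D.B D.wr D.cr D.w) :
    ∃ (J : ℕ → Finset (ℕ × ℝ)) (a b : ℚ), (∀ n, J n ⊆ D.I n) ∧ Dense D.B J D.I ∧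
      Mac p { D with I := J } a b := by
  obtain ⟨hl0, hlr, hr1⟩ := h.lr
  set a : ℚ := l + (r - l) / 4 with ha
  set b : ℚ := l + (r - l) / 2 with hb
  set s : ℚ := l + 3 * (r - l) / 4 with hs
  have hla : l < a := by rw [ha]; linarith
  have hab : a < b := by rw [ha, hb]; linarith
  have hbs : b < s := by rw [hb, hs]; linarith
  have hsr : s < r := by rw [hs]; linarith
  obtain ⟨J, hJI, hJd, hJ, hsc⟩ := h.exists_sc hK hla hsr
  have hθ : p.θ 2 = 2 * p.θ 1 :=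
    hJ.θ2 hla (hab.trans hbs) hsr.le
      (hJ.lowA hla (hab.le.trans (hbs.le.trans hsr.le)) (hsc a le_rfl (hab.trans hbs).le))
      (hJ.lowA (hla.trans (hab.trans hbs)) hsr.le (hsc s (hab.trans hbs).le le_rfl))
  obtain ⟨c, hc, hcont⟩ := hJ.cont hθ hla hbs hsr.le hsc
  refine ⟨J, a, b, hJI, hJd, ⟨⟨hl0.trans hla.le, hab, (hbs.le.trans hsr.le).trans hr1⟩, hJ.mka,
    hJ.vel, hJ.θ1, hθ, fun v h1 h2 ε hε => ?_, ?_, ?_, ⟨c, hc, hcont⟩, hw⟩⟩
  · filter_upwards [hJ.own v (hla.le.trans h1) (h2.trans (hbs.le.trans hsr.le)) ε hε]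
      with n hn x hx
    obtain ⟨b0, b1, G, O⟩ := hn x hx
    exact O.det
  · obtain ⟨c', hc', ht⟩ := hJ.thin
    refine ⟨c', hc', fun v h1 h2 => ?_⟩
    filter_upwards [ht v (hla.le.trans h1) (h2.trans (hbs.le.trans hsr.le)),
      hJ.own v (hla.le.trans h1) (h2.trans (hbs.le.trans hsr.le)) 1 one_pos] with n hn ho x hx
    obtain ⟨b0, b1, G, O⟩ := ho x hx
    refine ⟨?_, hn x hx⟩
    have := Ye_eq hJ O
    unfold Ye at this
    rw [this]
    exact (mul_pos (O.pos 0) O.k0).le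
  · obtain ⟨C, hC, ht⟩ := hJ.tilt
    exact ⟨C, hC, fun u v h1 h2 h3 ε hε =>
      ht u v (hla.le.trans h1) h2 (h3.trans (hbs.le.trans hsr.le)) ε hε⟩

/-- **the window of the thin branch** -/
theorem MPre.exists_thinW {p : Par4} {D : Dat4} {l r : ℚ} (h : MPre p D l r) (hK : Kil D)
    (hw : Rng D.B D.wr D.cr D.w) : ∃ D' : Dat4, ThinW p D' := by
  obtain ⟨J, a, b, -, -, hM⟩ := h.exists_mac hK hw
  exact thinW_of_mac hM

end Crest.Agent.R136.Us555
end

-- ▼ part R136/Prs4_262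
section

/-!
# R136 (S0187), U6 thin side (helper262): persistence of the curvature, marked sequences

`persist` : if all marks of a level `v1` are non-flat (`¬ FltSM D (d ^ (-ε))`) and the two-level tilt
holds, then on an interval of levels around `v1` the curvature extent is a power larger than the
thickness.
-/

set_option autoImplicit false
set_option linter.unusedVariables false

open Finset Filter Topology

namespace Crest.Agent.R136.Prs262

open Crest.Agent.R138.Ex926 (Base U)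
open Crest.Agent.R138.Dp76 (dpow_pos dpow_add dpow_le)
open Crest.Agent.R138.Mk163 (zc zl rho alive own Negl)
open Crest.Agent.R138.MkRef627 (mem_alive)
open Crest.Agent.R136.MkA627 Crest.Agent.R136.Top484
open Crest.Agent.R136.Sh605 Crest.Agent.R136.K4
open Crest.Agent.R136.Tl102 (QF Fq bz shB0 shB1 shG kap NrmC IsExp fr cmb unsh Fq_unsh StP
  dt_cmb_fr)
open Crest.Agent.R136.Us555 (kap_entries abs_mul_le2 abs_dt_le_one point_eq_cmb dt_expand FltSM
  J1c.mark_pos J1c.kap_of_not_flat)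
open Crest.Agent.R136.Tlt51 (Close TiltOK ang mk4 zx rh)
open Crest.Agent.R136.KapP335 (kapP expP expP_spec)
open Crest.Agent.R136.Fl808 (lev_pow wid_comp const_le rho_two)

/-- the two mixed components of two nearly equal long axes -/
theorem ang_swap {e e' : Fin 3 → V3} (he : Ortho e) (he' : Ortho e') :
    |dt (e' 2) (e 1)| ≤ 4 * ang e e' := by
  have h1 := dt_expand he (e' 1) (e' 1)
  have h2 := dt_expand he (e' 1) (e' 2)
  have g1 : dt (e' 1) (e' 1) = 1 := by rw [he' 1 1]; simp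
  have g2 : dt (e' 1) (e' 2) = 0 := by rw [he' 1 2]; simp
  rw [g1] at h1
  rw [g2] at h2
  have b : ∀ i, |dt (e i) (e' 2)| ≤ 1 := fun i =>
    abs_dt_le_one (by rw [he i i]; simp) (by rw [he' 2 2]; simp)
  have a0 : |dt (e 0) (e' 1)| ≤ ang e e' := le_max_left _ _
  have a2 : |dt (e 2) (e' 1)| ≤ ang e e' := le_max_right _ _
  rw [dt_comm (e' 2) (e 1)]
  generalize ang e e' = A at a0 a2
  have b0 := b 0
  have b1 := b 1
  have b2 := b 2
  generalize dt (e 0) (e' 1) = x0 at *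
  generalize dt (e 1) (e' 1) = x1 at *
  generalize dt (e 2) (e' 1) = x2 at *
  generalize dt (e 0) (e' 2) = y0 at *
  generalize dt (e 1) (e' 2) = y1 at *
  generalize dt (e 2) (e' 2) = y2 at *
  rcases le_or_gt (1 / 4) A with hA | hA
  · linarith
  have k0 : x0 * x0 ≤ 1 / 16 := by
    rw [← abs_mul_abs_self x0]
    nlinarith [abs_nonneg x0]
  have k2 : x2 * x2 ≤ 1 / 16 := by
    rw [← abs_mul_abs_self x2]
    nlinarith [abs_nonneg x2]
  have k1 : 1 / 2 ≤ |x1| := by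
    by_contra hc
    push Not at hc
    have : x1 * x1 ≤ 1 / 4 := by
      rw [← abs_mul_abs_self x1]
      nlinarith [abs_nonneg x1]
    linarith
  have k3 : |x1 * y1| ≤ A * 1 + A * 1 := by
    have e1 : x1 * y1 = -(x0 * y0 + x2 * y2) := by linarith
    rw [e1, abs_neg]
    exact bd_add (abs_mul_le2 a0 b0) (abs_mul_le2 a2 b2)
  rw [abs_mul] at k3
  have k4 : 1 / 2 * |y1| ≤ |x1| * |y1| := mul_le_mul_of_nonneg_right k1 (abs_nonneg _)
  linarith

/-- cells are nested -/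
theorem cell_nested {i j : ℕ} (h : i ≤ j) (z : ℝ) : zl i (zc i z) ≤ zl j (zc j z) ∧
    zl j (zc j z) + rho j ≤ zl i (zc i z) + rho i := by
  have hp : (0:ℝ) < 2 ^ i := by positivity
  have hq : (0:ℝ) < 2 ^ j := by positivity
  have e0 : (2:ℝ) ^ j = 2 ^ (j - i) * 2 ^ i := by rw [← pow_add]; congr 1; omega
  have e1 : 2 ^ (j - i) * zc i z ≤ zc j z := by
    unfold zc
    rw [Int.le_floor]
    push_cast
    rw [e0, mul_assoc]
    exact mul_le_mul_of_nonneg_left (Int.floor_le _) (by positivity)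
  have e2 : zc j z + 1 ≤ 2 ^ (j - i) * (zc i z + 1) := by
    have h3 : zc j z < 2 ^ (j - i) * (zc i z + 1) := by
      unfold zc
      rw [Int.floor_lt]
      push_cast
      rw [e0, mul_assoc]
      exact mul_lt_mul_of_pos_left (Int.lt_floor_add_one _) (by positivity)
    omega
  have e3 : (2:ℝ) ^ (j - i) * (zc i z : ℝ) ≤ zc j z := by exact_mod_cast e1
  have e4 : (zc j z : ℝ) + 1 ≤ 2 ^ (j - i) * ((zc i z : ℝ) + 1) := by exact_mod_cast e2
  unfold zl rho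
  constructor
  · rw [div_le_div_iff₀ hp hq, e0]
    nlinarith
  · rw [← add_div, ← add_div, div_le_div_iff₀ hq hp, e0]
    nlinarith

section

variable {η : ℝ} {p : Par4} {D : Dat4}

set_option maxHeartbeats 1000000 in
/-- **two marks of one incidence** -/
theorem ev_two (hJ : J1c η p D) {C : ℝ} (hC : 0 ≤ C) :
    ∃ K : ℝ, 0 ≤ K ∧ ∀ u v : ℚ, 0 ≤ u → u < v → v ≤ 1 → ∀ δ : ℝ, 0 < δ →
      ∀ᶠ n in (U : Filter ℕ), ∀ x ∈ D.I n,
        (TiltOK D (D.B.d n ^ (-(C * ((v : ℝ) - u)) - δ / 4)) u v n x →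
          Two' (D.B.d n ^ (-(K * ((v : ℝ) - u)) - δ))
          (D.B.d n ^ (-(K * ((v : ℝ) - u)) - δ) * (mk4 D n v x).a) (mk4 D n v x) (mk4 D n u x)
          (D.L n x.1) (zx D n v x) (rh D n v) (zx D n u x) (rh D n u)) ∧
        (mk4 D n u x).a ≤ D.B.d n ^ (-(K * ((v : ℝ) - u)) - δ) * (mk4 D n v x).a ∧
        (mk4 D n v x).a ≤ D.B.d n ^ (-(K * ((v : ℝ) - u)) - δ) * (mk4 D n u x).a ∧
        D.B.d n ^ (-(C * ((v : ℝ) - u)) - δ / 4) * max (D.w 0 n u) (D.w 0 n v) ≤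
          D.B.d n ^ (-(K * ((v : ℝ) - u)) - δ) * (mk4 D n v x).a ∧
        D.B.d n ^ (-(C * ((v : ℝ) - u)) - δ / 4) * max (D.w 0 n u) (D.w 0 n v) ≤
          D.B.d n ^ (-(K * ((v : ℝ) - u)) - δ) * (mk4 D n u x).a ∧
        0 < (mk4 D n u x).a ∧ 0 < (mk4 D n v x).a := by
  set Th := |p.θ 0| + |p.θ 1| + |p.θ 2| + 1 with hTh
  have t0 := abs_nonneg (p.θ 0)
  have t1 := abs_nonneg (p.θ 1)
  have t2 := abs_nonneg (p.θ 2)
  have hθ : ∀ j, |p.θ j| + 1 ≤ Th := by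
    intro j
    fin_cases j
    · change |p.θ 0| + 1 ≤ Th; linarith
    · change |p.θ 1| + 1 ≤ Th; linarith
    · change |p.θ 2| + 1 ≤ Th; linarith
  refine ⟨C + Th, by linarith, fun u v h0 huv h1 δ hδ => ?_⟩
  have hs : (0:ℝ) < (v : ℝ) - u := by
    have : (u : ℝ) < v := by exact_mod_cast huv
    linarith
  have hv0 : (0 : ℚ) ≤ v := h0.trans huv.le
  have hu1 : u ≤ (1 : ℚ) := huv.le.trans h1
  set ε := δ / 4 with hε
  have ε0 : 0 < ε := by positivity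
  have hwid : ∀ᶠ n in (U : Filter ℕ), ∀ j, D.w j n u ≤ D.B.d n ^ (-(Th * ((v:ℝ) - u)) - ε) *
      D.w j n v ∧ D.w j n v ≤ D.B.d n ^ (-(Th * ((v:ℝ) - u)) - ε) * D.w j n u := by
    rw [eventually_all]
    intro j
    filter_upwards [wid_comp hJ.mka j h0 huv.le h1 ε0, hJ.mka.wpos j u h0 hu1,
      hJ.mka.wpos j v hv0 h1] with n hn p1 p2
    have e1 : D.B.d n ^ (-((|p.θ j| + 1) * ((v:ℝ) - u)) - ε) ≤
        D.B.d n ^ (-(Th * ((v:ℝ) - u)) - ε) := by
      apply dpow_le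
      have := mul_le_mul_of_nonneg_right (hθ j) hs.le
      linarith
    exact ⟨hn.1.trans (mul_le_mul_of_nonneg_right e1 p2.le),
      hn.2.trans (mul_le_mul_of_nonneg_right e1 p1.le)⟩
  filter_upwards [hwid, lev_pow hJ.mka h0 huv.le h1 ε0,
    hJ.mka.mark u h0 hu1, hJ.mka.mark v hv0 h1, const_le D.B 4 ε0]
    with n hw hlv hmu hmv h4 x hx
  obtain ⟨u1, u2, u3, u4⟩ := hmu (zc (D.lev n u) x.2) x.1 (mem_alive.2 ⟨x, hx, rfl, rfl⟩)
  obtain ⟨v1, v2, v3, v4⟩ := hmv (zc (D.lev n v) x.2) x.1 (mem_alive.2 ⟨x, hx, rfl, rfl⟩)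
  obtain ⟨l1, l2, -⟩ := hlv
  have au : 0 < (mk4 D n u x).a := J1c.mark_pos hJ u2
  have av : 0 < (mk4 D n v x).a := J1c.mark_pos hJ v2
  have su : ShN (mk4 D n u x).e (mk4 D n u x).c (mk4 D n u x).w (mk4 D n u x).q (mk4 D n u x).a
    (zl (D.lev n u) (zc (D.lev n u) x.2)) (rho (D.lev n u)) (D.r0 n) := u2.1
  have sv : ShN (mk4 D n v x).e (mk4 D n v x).c (mk4 D n v x).w (mk4 D n v x).q (mk4 D n v x).a
    (zl (D.lev n v) (zc (D.lev n v) x.2)) (rho (D.lev n v)) (D.r0 n) := v2.1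
  have Su := StP.of_shN su (au.trans_le su.a_le0)
  have Sv := StP.of_shN sv (av.trans_le sv.a_le0)
  -- widths
  have wu0 : (mk4 D n u x).a = D.w 0 n u := u4 0
  have wu1 : (mk4 D n u x).w 1 = D.w 1 n u := u4 1
  have wu2 : (mk4 D n u x).w 2 = D.w 2 n u := u4 2
  have wv0 : (mk4 D n v x).a = D.w 0 n v := v4 0
  have wv1 : (mk4 D n v x).w 1 = D.w 1 n v := v4 1
  have wv2 : (mk4 D n v x).w 2 = D.w 2 n v := v4 2
  obtain ⟨a1, a2⟩ := hw 0
  obtain ⟨b1, b2⟩ := hw 1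
  obtain ⟨c1, c2⟩ := hw 2
  rw [← wu0, ← wv0] at a1 a2
  rw [← wu1, ← wv1] at b1 b2
  rw [← wu2, ← wv2] at c1 c2
  have pu1 := Su.pos 1
  have pu2 := Su.pos 2
  have pv1 := Sv.pos 1
  have pv2 := Sv.pos 2
  -- powers
  obtain ⟨W, hW⟩ : ∃ W, W = D.B.d n ^ (-(Th * ((v:ℝ) - u)) - ε) := ⟨_, rfl⟩
  obtain ⟨E, hE⟩ : ∃ E, E = D.B.d n ^ (-(C * ((v:ℝ) - u)) - ε) := ⟨_, rfl⟩
  obtain ⟨X, hX⟩ : ∃ X, X = D.B.d n ^ (-((C + Th) * ((v:ℝ) - u)) - δ) := ⟨_, rfl⟩
  have one : ∀ y : ℝ, y ≤ 0 → 1 ≤ D.B.d n ^ y := fun y hy => by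
    have := dpow_le D.B n hy
    rwa [Real.rpow_zero] at this
  have hTh0 : 0 ≤ Th * ((v:ℝ) - u) := by positivity
  have hC0 : 0 ≤ C * ((v:ℝ) - u) := by positivity
  have W1 : 1 ≤ W := by rw [hW]; exact one _ (by linarith)
  have E1 : 1 ≤ E := by rw [hE]; exact one _ (by linarith)
  have X4 : 4 * (E * W) ≤ X := by
    have e1 : D.B.d n ^ (-ε) * (E * W) ≤ X := by
      rw [hE, hW, hX, ← dpow_add, ← dpow_add]
      apply dpow_le
      rw [hε]
      linarith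
    have e2 : 4 * (E * W) ≤ D.B.d n ^ (-ε) * (E * W) :=
      mul_le_mul_of_nonneg_right h4 (by positivity)
    linarith
  rw [← hW] at a1 a2 b1 b2 c1 c2
  rw [← hE]
  rw [← hX]
  have EW : 1 ≤ E * W := by nlinarith
  have WX : W ≤ X := by nlinarith
  have X1 : 1 ≤ X := by linarith
  have hρ : rh D n u ≤ X * rh D n v := by
    have e1 : rh D n u = rh D n v * 2 ^ (D.lev n v - D.lev n u) := rho_two l1
    have e2 : (2:ℝ) ^ (D.lev n v - D.lev n u) ≤ X := by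
      refine l2.trans ?_
      rw [hX]
      apply dpow_le
      have : 1 * ((v:ℝ) - u) ≤ (C + Th) * ((v:ℝ) - u) :=
        mul_le_mul_of_nonneg_right (by linarith) hs.le
      rw [hε]
      linarith
    rw [e1, mul_comm]
    exact mul_le_mul_of_nonneg_right e2 (Crest.Agent.R136.Us555.rho_pos _).le
  have hmax : max ((mk4 D n u x).w 2 / (mk4 D n u x).w 1) ((mk4 D n v x).w 2 / (mk4 D n v x).w 1) *
      (mk4 D n v x).w 1 ≤ W * (mk4 D n u x).w 2 := by
    rw [max_mul_of_nonneg _ _ pv1.le]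
    refine max_le ?_ ?_
    · rw [div_mul_eq_mul_div, div_le_iff₀ pu1]
      have := mul_le_mul_of_nonneg_left b2 pu2.le
      linarith
    · rw [div_mul_cancel₀ _ pv1.ne']
      exact c2
  have hmax' : max ((mk4 D n u x).w 2 / (mk4 D n u x).w 1) ((mk4 D n v x).w 2 / (mk4 D n v x).w 1) *
      (mk4 D n u x).w 1 ≤ W * (mk4 D n v x).w 2 := by
    rw [max_mul_of_nonneg _ _ pu1.le]
    refine max_le ?_ ?_
    · rw [div_mul_cancel₀ _ pu1.ne']
      exact c1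
    · rw [div_mul_eq_mul_div, div_le_iff₀ pv1]
      have := mul_le_mul_of_nonneg_left b1 pv2.le
      linarith
  obtain ⟨n1, n2⟩ := cell_nested l1 x.2
  have mxv : E * max (D.w 0 n u) (D.w 0 n v) ≤ X * (mk4 D n v x).a := by
    rw [← wu0, ← wv0]
    have e1 : max (mk4 D n u x).a (mk4 D n v x).a ≤ W * (mk4 D n v x).a :=
      max_le a1 (by nlinarith)
    calc E * max (mk4 D n u x).a (mk4 D n v x).a ≤ E * (W * (mk4 D n v x).a) :=
          mul_le_mul_of_nonneg_left e1 (by linarith)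
      _ = (E * W) * (mk4 D n v x).a := by ring
      _ ≤ X * (mk4 D n v x).a := mul_le_mul_of_nonneg_right (by linarith) av.le
  have mxu : E * max (D.w 0 n u) (D.w 0 n v) ≤ X * (mk4 D n u x).a := by
    rw [← wu0, ← wv0]
    have e1 : max (mk4 D n u x).a (mk4 D n v x).a ≤ W * (mk4 D n u x).a :=
      max_le (by nlinarith) a2
    calc E * max (mk4 D n u x).a (mk4 D n v x).a ≤ E * (W * (mk4 D n u x).a) :=
          mul_le_mul_of_nonneg_left e1 (by linarith)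
      _ = (E * W) * (mk4 D n u x).a := by ring
      _ ≤ X * (mk4 D n u x).a := mul_le_mul_of_nonneg_right (by linarith) au.le
  refine ⟨fun htl => ?_, a1.trans (mul_le_mul_of_nonneg_right WX av.le),
    a2.trans (mul_le_mul_of_nonneg_right WX au.le), mxv, mxu, au, av⟩
  obtain ⟨hcl, hag⟩ := htl
  rw [← wu1, ← wu2, ← wv1, ← wv2] at hag
  refine { one := X1, ρ0 := Us555.rho_pos _, ρ0' := Us555.rho_pos _, c1 := n1, c2 := n2,
            st := Sv, st' := Su, o1 := sv.w0_le, o2 := sv.w_le, a0 := au, inn := v1, inn' := u1, cl := ?_, w1 := ?_, w2 := ?_, g := ?_,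
            o1' := su.w0_le, o2' := su.w_le, w1' := ?_, w2' := ?_, g' := ?_, hρ := hρ }
  · exact Us555.Close_mono mxv hcl
  · exact b2.trans (mul_le_mul_of_nonneg_right WX pu1.le)
  · exact c2.trans (mul_le_mul_of_nonneg_right WX pu2.le)
  · have e1 := ang_swap Sv.ortho Su.ortho
    have e2 := mul_le_mul_of_nonneg_right (e1.trans (mul_le_mul_of_nonneg_left hag (by norm_num)))
      pv1.le
    have e3 := mul_le_mul_of_nonneg_left hmax (by positivity : 0 ≤ 4 * E)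
    have e4 := mul_le_mul_of_nonneg_right X4 pu2.le
    linarith
  · exact b1.trans (mul_le_mul_of_nonneg_right WX pv1.le)
  · exact c1.trans (mul_le_mul_of_nonneg_right WX pv2.le)
  · have e1 : |dt ((mk4 D n v x).e 2) ((mk4 D n u x).e 1)| ≤ ang (mk4 D n v x).e (mk4 D n u x).e :=
      le_max_right _ _
    have e2 := mul_le_mul_of_nonneg_right (e1.trans hag) pu1.le
    have e3 := mul_le_mul_of_nonneg_left hmax' (by positivity : 0 ≤ E)
    have e4 := mul_le_mul_of_nonneg_right X4 pv2.le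
    have e5 : 0 ≤ E * W * (mk4 D n v x).w 2 := by positivity
    linarith

/-- the two inequalities between the curvature extents -/
theorem kapP_two {X E : ℝ} {S S' : Plk4} {T : Ln4} {z0 ρ z0' ρ' : ℝ}
    (h : Two' X E S S' T z0 ρ z0' ρ') :
    kapP S z0 ρ T ≤ 10 ^ 14 * X ^ 2 * (E + S'.a + kapP S' z0' ρ' T) ∧
      kapP S' z0' ρ' T ≤ 10 ^ 22 * X ^ 5 * (E + S'.a + kapP S z0 ρ T) := by
  have e1 := expP_spec h.st.isQ (h.st.pos 0).ne' z0 ρ T
  have e2 := expP_spec h.st'.isQ (h.st'.pos 0).ne' z0' ρ' T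
  exact ⟨h.toTwo.kap_down e1 e2, h.kap_up e1 e2⟩

set_option maxHeartbeats 2000000 in
/-- **PERSISTENCE OF THE CURVATURE** : if the marks of one level are non-flat then on an interval of
levels the curvature extent is a power larger than the thickness. -/
theorem persist (hJ : J1c η p D) {J : ℕ → Finset (ℕ × ℝ)} (hJI : ∀ n, J n ⊆ D.I n) {C : ℝ}
    (hC : 0 ≤ C) (hT : ∀ u v : ℚ, 0 ≤ u → u < v → v ≤ 1 → ∀ ε : ℝ, 0 < ε →
      ∀ᶠ n in (U : Filter ℕ), ∀ x ∈ J n,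
        D.B.d n ^ (-(C * ((v : ℝ) - u)) - ε) * max (D.w 0 n u) (D.w 0 n v) ≤
          max (kapP (mk4 D n v x) (zx D n v x) (rh D n v) (D.L n x.1))
            (kapP (mk4 D n u x) (zx D n u x) (rh D n u) (D.L n x.1)) →
        TiltOK D (D.B.d n ^ (-(C * ((v : ℝ) - u)) - ε)) u v n x)
    {v1 : ℚ} (h0 : 0 ≤ v1) (h1 : v1 ≤ 1) {ε : ℝ} (hε : 0 < ε)
    (hf : ∀ᶠ n in (U : Filter ℕ), ∀ x ∈ J n, ¬ FltSM D (D.B.d n ^ (-ε)) n v1 x) :
    ∃ a0 b0 : ℚ, 0 ≤ a0 ∧ a0 < b0 ∧ b0 ≤ 1 ∧ a0 ≤ v1 ∧ v1 ≤ b0 ∧ ∃ c : ℝ, 0 < c ∧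
      ∀ v : ℚ, a0 ≤ v → v ≤ b0 → ∀ᶠ n in (U : Filter ℕ), ∀ x ∈ J n,
        (mk4 D n v x).a ≤
          D.B.d n ^ c * kapP (mk4 D n v x) (zx D n v x) (rh D n v) (D.L n x.1) := by
  obtain ⟨K, hK, hK2⟩ := ev_two hJ hC
  -- the interval
  obtain ⟨s, hs0, hs1⟩ := exists_rat_btwn (show (0:ℝ) < ε / (40 * (K + 1)) by positivity)
  have s0 : (0 : ℚ) < s := by exact_mod_cast hs0
  have hKs : K * (s : ℝ) ≤ ε / 40 := by
    rw [lt_div_iff₀ (by positivity)] at hs1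
    nlinarith
  -- the given level
  have hk1 : ∀ᶠ n in (U : Filter ℕ), ∀ x ∈ J n, D.B.d n ^ (-(ε / 2)) * (mk4 D n v1 x).a <
      kapP (mk4 D n v1 x) (zx D n v1 x) (rh D n v1) (D.L n x.1) := by
    filter_upwards [J1c.kap_of_not_flat hJ v1 h0 h1 hε hJI hf, hJ.mka.mark v1 h0 h1] with n a1 a2 x hx
    obtain ⟨m1, m2, -, -⟩ := a2 (zc (D.lev n v1) x.2) x.1 (mem_alive.2 ⟨x, hJI n hx, rfl, rfl⟩)
    have av : 0 < (mk4 D n v1 x).a := J1c.mark_pos hJ m2
    have sv : ShN (mk4 D n v1 x).e (mk4 D n v1 x).c (mk4 D n v1 x).w (mk4 D n v1 x).q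
      (mk4 D n v1 x).a (zl (D.lev n v1) (zc (D.lev n v1) x.2)) (rho (D.lev n v1)) (D.r0 n) := m2.1
    exact a1 x hx (D.L n x.1) _ _ _ m1
      (expP_spec sv.isQ (av.trans_le sv.a_le0).ne' _ _ _)
  have one : ∀ n, ∀ y : ℝ, y ≤ 0 → 1 ≤ D.B.d n ^ y := fun n y hy => by
    have := dpow_le D.B n hy
    rwa [Real.rpow_zero] at this
  -- coarser levels
  have down : ∀ u : ℚ, 0 ≤ u → u < v1 → v1 - s ≤ u → ∀ᶠ n in (U : Filter ℕ), ∀ x ∈ J n,
      (mk4 D n u x).a ≤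
        D.B.d n ^ (ε / 10) * kapP (mk4 D n u x) (zx D n u x) (rh D n u) (D.L n x.1) := by
    intro u hu0 huv hus
    have hvu : (0:ℝ) < (v1 : ℝ) - u := by
      have : (u : ℝ) < v1 := by exact_mod_cast huv
      linarith
    have hvs : (v1 : ℝ) - u ≤ s := by
      have : (v1 : ℝ) - s ≤ u := by exact_mod_cast hus
      linarith
    filter_upwards [hk1, hK2 u v1 hu0 huv h1 (ε / 40) (by positivity),
      const_le D.B (4 * 10 ^ 22) (show (0:ℝ) < ε / 20 by positivity),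
      hT u v1 hu0 huv h1 (ε / 40 / 4) (by positivity)] with n a1 a2 a3 a4 x hx
    obtain ⟨t1, t2, t3, t4, t5, av, aV⟩ := a2 x (hJI n hx)
    have b1 := a1 x hx
    set kv := kapP (mk4 D n v1 x) (zx D n v1 x) (rh D n v1) (D.L n x.1)
    set ku := kapP (mk4 D n u x) (zx D n u x) (rh D n u) (D.L n x.1)
    set X := D.B.d n ^ (-(K * ((v1 : ℝ) - u)) - ε / 40) with hX
    have X1 : 1 ≤ X := one n _ (by have := mul_nonneg hK hvu.le; linarith)
    have XF : X ≤ D.B.d n ^ (-(ε / 20)) := by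
      rw [hX]; apply dpow_le
      have := mul_le_mul_of_nonneg_left hvs hK
      linarith
    set F := D.B.d n ^ (-(ε / 20)) with hF
    have F0 : 0 < F := dpow_pos D.B n _
    have hFi : D.B.d n ^ (ε / 10) * (F * F) = 1 := by
      rw [hF, ← dpow_add, ← dpow_add]
      have : ε / 10 + (-(ε / 20) + -(ε / 20)) = 0 := by ring
      rw [this, Real.rpow_zero]
    have hF10 : D.B.d n ^ (-(ε / 2)) = F ^ 10 := by
      rw [hF, ← Real.rpow_natCast, ← Real.rpow_mul (D.B.pos n).le]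
      congr 1; push_cast; ring
    rw [hF10] at b1
    have F1 : 1 ≤ F := X1.trans XF
    have XF10 : X ≤ F ^ 10 := XF.trans (by
      have := pow_le_pow_right₀ F1 (show 1 ≤ 10 by norm_num)
      rwa [pow_one] at this)
    obtain ⟨k1, -⟩ := kapP_two (t1 (a4 x hx (le_trans (t4.trans
      ((mul_le_mul_of_nonneg_right XF10 aV.le).trans b1.le)) (le_max_left _ _))))
    set av1 := (mk4 D n v1 x).a
    set au := (mk4 D n u x).a
    -- kv ≤ 10^14 X^2 (X av1 + au + ku) ≤ 10^14 X^2 (2 X av1 + ku)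
    have e1 : kv ≤ 10 ^ 14 * X ^ 2 * (2 * X * av1 + ku) := by
      refine k1.trans (mul_le_mul_of_nonneg_left ?_ (by positivity))
      linarith
    have X3 : X ^ 3 ≤ F ^ 3 := pow_le_pow_left₀ (by linarith) XF 3
    have e2 : 10 ^ 14 * X ^ 2 * (2 * X * av1) ≤ 1 / 2 * (F ^ 10 * av1) := by
      have h5 : 10 ^ 14 * X ^ 2 * (2 * X * av1) = (2 * 10 ^ 14 * X ^ 3) * av1 := by ring
      rw [h5, ← mul_assoc]
      refine mul_le_mul_of_nonneg_right ?_ aV.le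
      have h6 : F ^ 4 ≤ F ^ 10 := pow_le_pow_right₀ F1 (by norm_num)
      have h7 : F ^ 3 * (4 * 10 ^ 22) ≤ F ^ 3 * F := mul_le_mul_of_nonneg_left a3 (by positivity)
      have h8 : F ^ 3 * F = F ^ 4 := by ring
      nlinarith
    have e3 : 1 / 2 * (F ^ 10 * av1) ≤ 10 ^ 14 * X ^ 2 * ku := by
      have : 10 ^ 14 * X ^ 2 * (2 * X * av1 + ku) = 10 ^ 14 * X ^ 2 * (2 * X * av1) +
        10 ^ 14 * X ^ 2 * ku := by ring
      linarith
    have e4 : 1 / 2 * (F ^ 10 * au) ≤ 10 ^ 14 * X ^ 3 * ku := by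
      have h5 : F ^ 10 * au ≤ F ^ 10 * (X * av1) := mul_le_mul_of_nonneg_left t2 (by positivity)
      have h6 := mul_le_mul_of_nonneg_right e3 (by linarith : 0 ≤ X)
      have h7 : 10 ^ 14 * X ^ 2 * ku * X = 10 ^ 14 * X ^ 3 * ku := by ring
      linarith
    have ku0 : 0 < ku := by
      have : 0 < 10 ^ 14 * X ^ 3 * ku := lt_of_lt_of_le (by positivity) e4
      exact (pos_iff_pos_of_mul_pos this).1 (by positivity)
    have e5 : 2 * (10 ^ 14 * X ^ 3 * ku) ≤ F ^ 4 * ku := by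
      have h7 : F ^ 3 * (4 * 10 ^ 22) ≤ F ^ 3 * F := mul_le_mul_of_nonneg_left a3 (by positivity)
      have h8 : 2 * (10 ^ 14 * X ^ 3) ≤ F ^ 4 := by
        have h8 : F ^ 3 * F = F ^ 4 := by ring
        nlinarith [pow_pos F0 3]
      have := mul_le_mul_of_nonneg_right h8 ku0.le
      linarith
    have e6 : F ^ 10 * au ≤ F ^ 4 * ku := by linarith
    have e7 : F ^ 6 * au ≤ ku := by
      have h5 : F ^ 10 * au = F ^ 4 * (F ^ 6 * au) := by ring
      rw [h5] at e6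
      exact le_of_mul_le_mul_left e6 (by positivity)
    have e8 : F * F * au ≤ ku := by
      have h5 : F * F ≤ F ^ 6 := by
        have := pow_le_pow_right₀ F1 (show 2 ≤ 6 by norm_num)
        rwa [sq] at this
      exact (mul_le_mul_of_nonneg_right h5 av.le).trans e7
    have e9 := mul_le_mul_of_nonneg_left e8 (dpow_pos D.B n (ε / 10)).le
    rw [← mul_assoc, hFi, one_mul] at e9
    exact e9
  -- finer levels
  have up : ∀ v : ℚ, v1 < v → v ≤ 1 → v ≤ v1 + s → ∀ᶠ n in (U : Filter ℕ), ∀ x ∈ J n,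
      (mk4 D n v x).a ≤
        D.B.d n ^ (ε / 10) * kapP (mk4 D n v x) (zx D n v x) (rh D n v) (D.L n x.1) := by
    intro v huv hv1 hus
    have hvu : (0:ℝ) < (v : ℝ) - v1 := by
      have : (v1 : ℝ) < v := by exact_mod_cast huv
      linarith
    have hvs : (v : ℝ) - v1 ≤ s := by
      have : (v : ℝ) ≤ v1 + s := by exact_mod_cast hus
      linarith
    filter_upwards [hk1, hK2 v1 v h0 huv hv1 (ε / 40) (by positivity),
      const_le D.B (4 * 10 ^ 22) (show (0:ℝ) < ε / 20 by positivity),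
      hT v1 v h0 huv hv1 (ε / 40 / 4) (by positivity)] with n a1 a2 a3 a4 x hx
    obtain ⟨t1, t2, t3, t4, t5, av, aV⟩ := a2 x (hJI n hx)
    have b1 := a1 x hx
    set kv := kapP (mk4 D n v x) (zx D n v x) (rh D n v) (D.L n x.1)
    set ku := kapP (mk4 D n v1 x) (zx D n v1 x) (rh D n v1) (D.L n x.1)
    set X := D.B.d n ^ (-(K * ((v : ℝ) - v1)) - ε / 40) with hX
    have X1 : 1 ≤ X := one n _ (by have := mul_nonneg hK hvu.le; linarith)
    have XF : X ≤ D.B.d n ^ (-(ε / 20)) := by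
      rw [hX]; apply dpow_le
      have := mul_le_mul_of_nonneg_left hvs hK
      linarith
    set F := D.B.d n ^ (-(ε / 20)) with hF
    have F0 : 0 < F := dpow_pos D.B n _
    have hFi : D.B.d n ^ (ε / 10) * (F * F) = 1 := by
      rw [hF, ← dpow_add, ← dpow_add]
      have : ε / 10 + (-(ε / 20) + -(ε / 20)) = 0 := by ring
      rw [this, Real.rpow_zero]
    have hF10 : D.B.d n ^ (-(ε / 2)) = F ^ 10 := by
      rw [hF, ← Real.rpow_natCast, ← Real.rpow_mul (D.B.pos n).le]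
      congr 1; push_cast; ring
    rw [hF10] at b1
    have F1 : 1 ≤ F := X1.trans XF
    have XF10 : X ≤ F ^ 10 := XF.trans (by
      have := pow_le_pow_right₀ F1 (show 1 ≤ 10 by norm_num)
      rwa [pow_one] at this)
    obtain ⟨-, k1⟩ := kapP_two (t1 (a4 x hx (le_trans (t5.trans
      ((mul_le_mul_of_nonneg_right XF10 av.le).trans b1.le)) (le_max_right _ _))))
    set au := (mk4 D n v1 x).a
    set ag := (mk4 D n v x).a
    -- ku ≤ 10^22 X^5 (X ag + au + kv) ≤ 10^22 X^5 (2 X^2 au + kv)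
    have e1 : ku ≤ 10 ^ 22 * X ^ 5 * (2 * X ^ 2 * au + kv) := by
      refine k1.trans (mul_le_mul_of_nonneg_left ?_ (by positivity))
      have h5 : X * ag ≤ X * (X * au) := mul_le_mul_of_nonneg_left t3 (by linarith)
      have h6 : 1 * au ≤ X ^ 2 * au := mul_le_mul_of_nonneg_right (one_le_pow₀ X1) av.le
      nlinarith
    have e2 : 10 ^ 22 * X ^ 5 * (2 * X ^ 2 * au) ≤ 1 / 2 * (F ^ 10 * au) := by
      have h5 : 10 ^ 22 * X ^ 5 * (2 * X ^ 2 * au) = (2 * 10 ^ 22 * X ^ 7) * au := by ring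
      rw [h5, ← mul_assoc]
      refine mul_le_mul_of_nonneg_right ?_ av.le
      have h6 : F ^ 8 ≤ F ^ 10 := pow_le_pow_right₀ F1 (by norm_num)
      have h7 : F ^ 7 * (4 * 10 ^ 22) ≤ F ^ 7 * F := mul_le_mul_of_nonneg_left a3 (by positivity)
      have h8 : F ^ 7 * F = F ^ 8 := by ring
      have h9 : X ^ 7 ≤ F ^ 7 := pow_le_pow_left₀ (by linarith) XF 7
      nlinarith
    have e3 : 1 / 2 * (F ^ 10 * au) ≤ 10 ^ 22 * X ^ 5 * kv := by
      have : 10 ^ 22 * X ^ 5 * (2 * X ^ 2 * au + kv) = 10 ^ 22 * X ^ 5 * (2 * X ^ 2 * au) +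
        10 ^ 22 * X ^ 5 * kv := by ring
      linarith
    have e4 : 1 / 2 * (F ^ 10 * ag) ≤ 10 ^ 22 * X ^ 6 * kv := by
      have h5 : F ^ 10 * ag ≤ F ^ 10 * (X * au) := mul_le_mul_of_nonneg_left t3 (by positivity)
      have h6 := mul_le_mul_of_nonneg_right e3 (by linarith : 0 ≤ X)
      have h7 : 10 ^ 22 * X ^ 5 * kv * X = 10 ^ 22 * X ^ 6 * kv := by ring
      linarith
    have kv0 : 0 < kv := by
      have : 0 < 10 ^ 22 * X ^ 6 * kv := lt_of_lt_of_le (by positivity) e4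
      exact (pos_iff_pos_of_mul_pos this).1 (by positivity)
    have e5 : 2 * (10 ^ 22 * X ^ 6 * kv) ≤ F ^ 7 * kv := by
      have h7 : F ^ 6 * (4 * 10 ^ 22) ≤ F ^ 6 * F := mul_le_mul_of_nonneg_left a3 (by positivity)
      have h8 : 2 * (10 ^ 22 * X ^ 6) ≤ F ^ 7 := by
        have h8 : F ^ 6 * F = F ^ 7 := by ring
        have h9 : X ^ 6 ≤ F ^ 6 := pow_le_pow_left₀ (by linarith) XF 6
        nlinarith [pow_pos F0 6]
      have := mul_le_mul_of_nonneg_right h8 kv0.le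
      linarith
    have e6 : F ^ 10 * ag ≤ F ^ 7 * kv := by linarith
    have e7 : F ^ 3 * ag ≤ kv := by
      have h5 : F ^ 10 * ag = F ^ 7 * (F ^ 3 * ag) := by ring
      rw [h5] at e6
      exact le_of_mul_le_mul_left e6 (by positivity)
    have e8 : F * F * ag ≤ kv := by
      have h5 : F * F ≤ F ^ 3 := by
        have := pow_le_pow_right₀ F1 (show 2 ≤ 3 by norm_num)
        rwa [sq] at this
      exact (mul_le_mul_of_nonneg_right h5 aV.le).trans e7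
    have e9 := mul_le_mul_of_nonneg_left e8 (dpow_pos D.B n (ε / 10)).le
    rw [← mul_assoc, hFi, one_mul] at e9
    exact e9
  -- the level itself
  have self : ∀ᶠ n in (U : Filter ℕ), ∀ x ∈ J n, (mk4 D n v1 x).a ≤
        D.B.d n ^ (ε / 10) * kapP (mk4 D n v1 x) (zx D n v1 x) (rh D n v1) (D.L n x.1) := by
    filter_upwards [hk1, hJ.mka.mark v1 h0 h1] with n a1 a2 x hx
    obtain ⟨m1, m2, -, -⟩ := a2 (zc (D.lev n v1) x.2) x.1 (mem_alive.2 ⟨x, hJI n hx, rfl, rfl⟩)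
    have av : 0 < (mk4 D n v1 x).a := J1c.mark_pos hJ m2
    have b1 := mul_le_mul_of_nonneg_left (a1 x hx).le (dpow_pos D.B n (ε / 10)).le
    refine le_trans ?_ b1
    rw [← mul_assoc, ← dpow_add]
    exact le_mul_of_one_le_left av.le (one n _ (by linarith))
  refine ⟨max 0 (v1 - s), min 1 (v1 + s), le_max_left _ _, ?_, min_le_left _ _,
    max_le h0 (by linarith), le_min h1 (by linarith), ε / 10, by positivity, fun v hv hv' => ?_⟩
  · rw [max_lt_iff, lt_min_iff, lt_min_iff]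
    exact ⟨⟨zero_lt_one, by linarith⟩, ⟨by linarith, by linarith⟩⟩
  · rcases lt_trichotomy v v1 with h | h | h
    · exact down v ((le_max_left _ _).trans hv) h ((le_max_right _ _).trans hv)
    · rw [h]; exact self
    · exact up v h (hv'.trans (min_le_left _ _)) (hv'.trans (min_le_right _ _))

end

end Crest.Agent.R136.Prs262
end

-- ▼ part R136/Prs5_262
section

/-!
# R136 (S0187), U6 thin side (helper262): persistence, form over `Tilt4C`
-/

set_option autoImplicit false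
set_option linter.unusedVariables false

open Finset Filter Topology

namespace Crest.Agent.R136.Prs262

open Crest.Agent.R138.Ex926 (Base U)
open Crest.Agent.R136.Top484 Crest.Agent.R136.Sh605 Crest.Agent.R136.K4
open Crest.Agent.R136.Us555 (FltSM)
open Crest.Agent.R136.Tlt51
open Crest.Agent.R136.KapP335 (kapP)

theorem tiltOK_of_C {D : Dat4} {E : ℝ} {u v : ℚ} {n : ℕ} {x : ℕ × ℝ} (h : TiltOKC D E u v n x) :
    TiltOK D E u v n x :=
  ⟨h.close, max_le (h.ang 0 (by decide)).2 (h.ang 2 (by decide)).2⟩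

/-- **PERSISTENCE OF THE CURVATURE**, hypothesis = conclusion of the tilt block on a dense part -/
theorem persistC {η : ℝ} {p : Par4} {D : Dat4} (hJ : J1c η p D) {J : ℕ → Finset (ℕ × ℝ)}
    (hJI : ∀ n, J n ⊆ D.I n) {C : ℝ} (hC : 0 ≤ C)
    (hT : ∀ u v : ℚ, 0 ≤ u → u < v → v ≤ 1 → ∀ ε : ℝ, 0 < ε →
      ∀ᶠ n in (U : Filter ℕ), ∀ x ∈ J n,
        D.B.d n ^ (-(C * ((v : ℝ) - u)) - ε) * max (D.w 0 n u) (D.w 0 n v) ≤
          max (kapP (mk4 D n v x) (zx D n v x) (rh D n v) (D.L n x.1))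
            (kapP (mk4 D n u x) (zx D n u x) (rh D n u) (D.L n x.1)) →
        TiltOKC D (D.B.d n ^ (-(C * ((v : ℝ) - u)) - ε)) u v n x)
    {v1 : ℚ} (h0 : 0 ≤ v1) (h1 : v1 ≤ 1) {ε : ℝ} (hε : 0 < ε)
    (hf : ∀ᶠ n in (U : Filter ℕ), ∀ x ∈ J n, ¬ FltSM D (D.B.d n ^ (-ε)) n v1 x) :
    ∃ a0 b0 : ℚ, 0 ≤ a0 ∧ a0 < b0 ∧ b0 ≤ 1 ∧ a0 ≤ v1 ∧ v1 ≤ b0 ∧ ∃ c : ℝ, 0 < c ∧
      ∀ v : ℚ, a0 ≤ v → v ≤ b0 → ∀ᶠ n in (U : Filter ℕ), ∀ x ∈ J n,
        (mk4 D n v x).a ≤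
          D.B.d n ^ c * kapP (mk4 D n v x) (zx D n v x) (rh D n v) (D.L n x.1) :=
  persist hJ hJI hC (fun u v k0 k1 k2 e he => (hT u v k0 k1 k2 e he).mono fun n hn x hx h =>
    tiltOK_of_C (hn x hx h)) h0 h1 hε hf

end Crest.Agent.R136.Prs262
end

-- ▼ part R136/StM8_555
section

/-!
# R136 (S0187), U6 thin side (helper555): the window `ThinW` from a marked sequence

* `mka_avoid`, `mka_good` : dense marked parts which avoid negligible sets (`MkA` only);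
* **`exists_thinW_core`** : curved marks at one level + tilt of curved pairs + nondegeneracy ⊢ `ThinW`
  (persistence and helper327's lemma as hypotheses);
* **`exists_thinW`** : the same over `J1`, persistence = `Prs262.persistC`.
-/

set_option autoImplicit false
set_option linter.unusedVariables false

open Finset Filter Topology

namespace Crest.Agent.R136.Us555

open Crest.Agent.R138.Ex926 (Base U exists_diag ev_em)
open Crest.Agent.R138.Dp76
open Crest.Agent.R138.Mk163 (zc zl rho alive own Negl)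
open Crest.Agent.R138.NatTw76 (exists_avoid)
open Crest.Agent.R136.MkA627 Crest.Agent.R136.Sh605 Crest.Agent.R136.K4 Crest.Agent.R136.Top484
open Crest.Agent.R136.Tlt51 (mk4 zx rh Close TiltOKC Tilt4C NonDeg)
open Crest.Agent.R136.KapP335 (kapP DetP DetP.mono)
open Crest.Agent.R136.Thn768 (ThinW)

section

variable {σ κ : Type*} {B : Base} {I : ℕ → Finset (ℕ × ℝ)} {G : Geo σ κ} {lev : ℕ → ℚ → ℕ}
    {A : ℕ → ℝ} {c Λ : ℝ → ℝ} {τ : κ → ℝ → ℝ} {f : ℕ → ℚ → ℕ → ℤ → ℕ} {b : ℕ → ℚ → ℕ → σ}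
    {vm : ℕ → ℚ → ℝ} {w : κ → ℕ → ℚ → ℝ}

/-- **a dense marked part avoids countably many negligible sets** -/
theorem mka_avoid {ι : Type*} [Countable ι] (h : MkA B I G lev A c Λ τ f b vm w)
    (N : ι → ℕ → ℕ × ℝ → Prop) (hN : ∀ k, Negl B I (N k)) :
    ∃ J : ℕ → Finset (ℕ × ℝ), (∀ n, J n ⊆ I n) ∧ Dense B J I ∧
      MkA B J G lev A c Λ τ f b vm w ∧ ∀ k, ∀ᶠ n in (U : Filter ℕ), ∀ x ∈ J n, ¬ N k n x := by
  classical
  rcases isEmpty_or_nonempty ι with hι | hι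
  · exact ⟨I, fun n => Finset.Subset.refl _, Dense.refl B I, h, fun k => (hι.false k).elim⟩
  obtain ⟨en, hen⟩ := exists_surjective_nat ι
  obtain ⟨J0, h1, h2, h3⟩ := exists_avoid (B := B) (I := I) (fun k => N (en k)) fun k => hN (en k)
  obtain ⟨J, h4, h5, -, h6⟩ := MkA.refine' h h2
  refine ⟨J, fun n => (h4 n).trans (h1 n), h5.trans h2, h6, fun k => ?_⟩
  obtain ⟨j, rfl⟩ := hen k
  filter_upwards [h3 j] with n hn x hx using hn x (h4 n hx)

/-- **two-level and one-level statements for all incidences of a dense part** -/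
theorem mka_good (h : MkA B I G lev A c Λ τ f b vm w) {T : ℚ → ℚ → ℝ → ℕ → ℕ × ℝ → Prop}
    {S : ℚ → ℝ → ℕ → ℕ × ℝ → Prop}
    (hTm : ∀ u v : ℚ, 0 ≤ u → u < v → v ≤ 1 → ∀ ε ε' : ℝ, 0 < ε → ε ≤ ε' →
      ∀ᶠ n in (U : Filter ℕ), ∀ x ∈ I n, T u v ε n x → T u v ε' n x)
    (hT : ∀ u v : ℚ, 0 ≤ u → u < v → v ≤ 1 → ∀ ε : ℝ, 0 < ε → Negl B I fun n x => ¬ T u v ε n x)
    (hSm : ∀ v : ℚ, 0 ≤ v → v ≤ 1 → ∀ ε ε' : ℝ, 0 < ε → ε ≤ ε' →
      ∀ᶠ n in (U : Filter ℕ), ∀ x ∈ I n, S v ε n x → S v ε' n x)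
    (hS : ∀ v : ℚ, 0 ≤ v → v ≤ 1 → ∀ ε : ℝ, 0 < ε → Negl B I fun n x => ¬ S v ε n x) :
    ∃ J : ℕ → Finset (ℕ × ℝ), (∀ n, J n ⊆ I n) ∧ Dense B J I ∧
      MkA B J G lev A c Λ τ f b vm w ∧
      (∀ u v : ℚ, 0 ≤ u → u < v → v ≤ 1 → ∀ ε : ℝ, 0 < ε →
        ∀ᶠ n in (U : Filter ℕ), ∀ x ∈ J n, T u v ε n x) ∧
      ∀ v : ℚ, 0 ≤ v → v ≤ 1 → ∀ ε : ℝ, 0 < ε → ∀ᶠ n in (U : Filter ℕ), ∀ x ∈ J n, S v ε n x := by
  obtain ⟨J, h1, h2, h3, h4⟩ := mka_avoid h (ι := (ℚ × ℚ × ℕ) ⊕ (ℚ × ℕ))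
    (fun k n x => match k with
      | Sum.inl (u, v, K) => (0 ≤ u ∧ u < v ∧ v ≤ 1) ∧ ¬ T u v (1 / ((K : ℝ) + 1)) n x
      | Sum.inr (v, K) => (0 ≤ v ∧ v ≤ 1) ∧ ¬ S v (1 / ((K : ℝ) + 1)) n x) (by
    rintro (⟨u, v, K⟩ | ⟨v, K⟩)
    · by_cases hc : 0 ≤ u ∧ u < v ∧ v ≤ 1
      · exact (hT u v hc.1 hc.2.1 hc.2.2 (1 / ((K : ℝ) + 1)) (by positivity)).mono
          (Eventually.of_forall fun n x _ hx => hx.2)
      · exact Negl.false.mono (Eventually.of_forall fun n x _ hx => hc hx.1)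
    · by_cases hc : 0 ≤ v ∧ v ≤ 1
      · exact (hS v hc.1 hc.2 (1 / ((K : ℝ) + 1)) (by positivity)).mono
          (Eventually.of_forall fun n x _ hx => hx.2)
      · exact Negl.false.mono (Eventually.of_forall fun n x _ hx => hc hx.1))
  refine ⟨J, h1, h2, h3, fun u v g0 g01 g1 ε hε => ?_, fun v g0 g1 ε hε => ?_⟩
  · obtain ⟨K, hK⟩ := exists_nat_one_div_lt hε
    filter_upwards [h4 (Sum.inl (u, v, K)), hTm u v g0 g01 g1 (1 / ((K : ℝ) + 1)) ε
      (by positivity) hK.le] with n a1 a2 x hx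
    refine a2 x (h1 n hx) ?_
    by_contra hc
    exact a1 x hx ⟨⟨g0, g01, g1⟩, hc⟩
  · obtain ⟨K, hK⟩ := exists_nat_one_div_lt hε
    filter_upwards [h4 (Sum.inr (v, K)), hSm v g0 g1 (1 / ((K : ℝ) + 1)) ε
      (by positivity) hK.le] with n a1 a2 x hx
    refine a2 x (h1 n hx) ?_
    by_contra hc
    exact a1 x hx ⟨⟨g0, g1⟩, hc⟩

end

/-- tilt of the curved pairs (hypothesis and conclusion of `Tilt4C`, one pair) -/
def TiltC (D : Dat4) (C : ℝ) (u v : ℚ) (ε : ℝ) (n : ℕ) (x : ℕ × ℝ) : Prop :=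
  D.B.d n ^ (-(C * ((v : ℝ) - u)) - ε) * max (D.w 0 n u) (D.w 0 n v) ≤
    max (kapP (mk4 D n v x) (zx D n v x) (rh D n v) (D.L n x.1))
      (kapP (mk4 D n u x) (zx D n u x) (rh D n u) (D.L n x.1)) →
  TiltOKC D (D.B.d n ^ (-(C * ((v : ℝ) - u)) - ε)) u v n x

/-- nondegeneracy of one curved mark -/
def DetC (D : Dat4) (v : ℚ) (ε : ℝ) (n : ℕ) (x : ℕ × ℝ) : Prop :=
  D.B.d n ^ (-ε) * (mk4 D n v x).a < kapP (mk4 D n v x) (zx D n v x) (rh D n v) (D.L n x.1) →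
    DetP (D.B.d n ^ ε) (mk4 D n v x) (zx D n v x) (rh D n v) (D.L n x.1)

section

variable {p : Par4} {D : Dat4}

theorem tiltOKC_mono' {E E' : ℝ} (hE : E ≤ E') {u v : ℚ} {n : ℕ} {x : ℕ × ℝ}
    (hw : ∀ j, 0 ≤ D.w j n u) (h : TiltOKC D E u v n x) : TiltOKC D E' u v n x := by
  have h0 : 0 ≤ max (D.w 0 n u) (D.w 0 n v) := (hw 0).trans (le_max_left _ _)
  have h1 : 0 ≤ max (D.w 2 n u / D.w 1 n u) (D.w 2 n v / D.w 1 n v) :=
    (div_nonneg (hw 2) (hw 1)).trans (le_max_left _ _)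
  have k0 := mul_le_mul_of_nonneg_right hE h0
  have k1 := mul_le_mul_of_nonneg_right hE h1
  exact ⟨fun z a b x hx hq => (h.close z a b x hx hq).trans k0,
    fun z a b x hx hq => (h.close' z a b x hx hq).trans k0,
    fun i hi => ⟨(h.ang i hi).1.trans k1, (h.ang i hi).2.trans k1⟩⟩

theorem tiltC_mono {C : ℝ} {u v : ℚ} {ε ε' : ℝ} (hε : ε ≤ ε') {n : ℕ} {x : ℕ × ℝ}
    (hw : ∀ j, 0 ≤ D.w j n u) (h : TiltC D C u v ε n x) : TiltC D C u v ε' n x := by
  intro h1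
  have h2 : D.B.d n ^ (-(C * ((v : ℝ) - u)) - ε) ≤ D.B.d n ^ (-(C * ((v : ℝ) - u)) - ε') :=
    dpow_le D.B n (by linarith)
  have h0 : 0 ≤ max (D.w 0 n u) (D.w 0 n v) := (hw 0).trans (le_max_left _ _)
  exact tiltOKC_mono' h2 hw (h ((mul_le_mul_of_nonneg_right h2 h0).trans h1))

theorem detC_mono {v : ℚ} {ε ε' : ℝ} (hε : ε ≤ ε') {n : ℕ} {x : ℕ × ℝ}
    (ha : 0 ≤ (mk4 D n v x).a) (h : DetC D v ε n x) : DetC D v ε' n x := by
  intro h1
  refine (h (lt_of_le_of_lt (mul_le_mul_of_nonneg_right (dpow_le D.B n ?_) ha) h1)).mono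
    (dpow_le D.B n hε)
  linarith

/-- **THE WINDOW OF THE THIN BRANCH** from a marked sequence: tilt of the curved pairs,
nondegeneracy, persistence of the curvature, helper327's lemma. -/
theorem exists_thinW_core (hM : MkA D.B D.I (D.G p) D.lev D.A (fun v => p.g * v) (fun v => 0 * v)
      (fun j v => p.θ j * (1 - v)) D.f D.b D.vm D.w) (hr0 : ∀ n, 0 < D.r0 n)
    (hvel : ∀ᶠ n in (U : Filter ℕ), ∀ x ∈ D.I n, ∀ i, |(D.L n x.1).v i| ≤ 1)
    (hwrs : Rng D.B D.wr D.cr D.w) (hθ1 : 0 < p.θ 1) {C : ℝ} (hC : 0 ≤ C)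
    (hT : ∀ u v : ℚ, 0 ≤ u → u < v → v ≤ 1 → ∀ ε : ℝ, 0 < ε →
      Negl D.B D.I fun n x => ¬ TiltC D C u v ε n x)
    (hN : ∀ v : ℚ, 0 ≤ v → v ≤ 1 → ∀ ε : ℝ, 0 < ε → Negl D.B D.I fun n x => ¬ DetC D v ε n x)
    (hPe : ∀ J : ℕ → Finset (ℕ × ℝ), (∀ n, J n ⊆ D.I n) →
      (∀ u v : ℚ, 0 ≤ u → u < v → v ≤ 1 → ∀ ε : ℝ, 0 < ε → ∀ᶠ n in (U : Filter ℕ), ∀ x ∈ J n,
        TiltC D C u v ε n x) →
      ∃ a0 b0 : ℚ, 0 ≤ a0 ∧ a0 < b0 ∧ b0 ≤ 1 ∧ ∃ c : ℝ, 0 < c ∧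
        ∀ v : ℚ, a0 ≤ v → v ≤ b0 → ∀ᶠ n in (U : Filter ℕ), ∀ x ∈ J n,
          (mk4 D n v x).a ≤
            D.B.d n ^ c * kapP (mk4 D n v x) (zx D n v x) (rh D n v) (D.L n x.1))
    (hK : ∀ J : ℕ → Finset (ℕ × ℝ), (∀ n, J n ⊆ D.I n) → Dense D.B J D.I →
      MkA D.B J (D.G p) D.lev D.A (fun v => p.g * v) (fun v => 0 * v)
        (fun j v => p.θ j * (1 - v)) D.f D.b D.vm D.w → Kil { D with I := J }) :
    ∃ D' : Dat4, ThinW p D' := by
  obtain ⟨J, hJI, hJd, hJM, hJT, hJN⟩ := mka_good hM (T := fun u v ε n x => TiltC D C u v ε n x)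
    (S := fun v ε n x => DetC D v ε n x) (by
      intro u v h0 huv h1 ε ε' hε hεε
      filter_upwards [hM.wpos 0 u h0 (huv.le.trans h1), hM.wpos 1 u h0 (huv.le.trans h1),
        hM.wpos 2 u h0 (huv.le.trans h1)] with n a1 a2 a3 x hx h
      refine tiltC_mono hεε ?_ h
      intro j
      fin_cases j
      · exact a1.le
      · exact a2.le
      · exact a3.le) hT (by
      intro v h0 h1 ε ε' hε hεε
      filter_upwards [marks_M hM h0 h1] with n a1 x hx h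
      refine detC_mono hεε ?_ h
      rw [(a1.2 x hx).2.2]
      exact a1.1.le) hN
  obtain ⟨a0, b0, h0, h1, h2, c, hc, hP⟩ := hPe J hJI hJT
  -- a short interval
  set K : ℝ := C + |1 - p.θ 0| with hKd
  have hK0 : 0 ≤ K := by positivity
  obtain ⟨r, hr1, hr2⟩ : ∃ r : ℚ, a0 < r ∧ r < b0 ∧ K * ((r : ℝ) - a0) ≤ c / 8 := by
    obtain ⟨m, hm⟩ := exists_nat_gt (K * ((b0 : ℝ) - a0) / (c / 8) + 2)
    have e1 : (0 : ℝ) ≤ K * ((b0 : ℝ) - a0) / (c / 8) := by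
      have : (a0 : ℝ) < b0 := by exact_mod_cast h1
      have : 0 ≤ (b0 : ℝ) - a0 := by linarith
      positivity
    have hm2 : (2 : ℝ) < m := by linarith
    have hm2' : 2 < m := by exact_mod_cast hm2
    have hm0 : (0 : ℚ) < m := by
      have : 0 < m := by omega
      exact_mod_cast this
    have hm0' : (0 : ℝ) < m := by linarith
    refine ⟨a0 + (b0 - a0) / m, ?_, ?_, ?_⟩
    · have : 0 < (b0 - a0) / m := div_pos (by linarith) hm0
      linarith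
    · have : (b0 - a0) / m < b0 - a0 := by
        rw [div_lt_iff₀ hm0]
        have : (1 : ℚ) < m := by
          have : 1 < m := by omega
          exact_mod_cast this
        nlinarith
      linarith
    · push_cast
      have e2 : (a0 : ℝ) + ((b0 : ℝ) - a0) / m - a0 = ((b0 : ℝ) - a0) / m := by ring
      rw [e2, mul_div_assoc', div_le_iff₀ hm0']
      have : K * ((b0 : ℝ) - a0) / (c / 8) ≤ m := by linarith
      rw [div_le_iff₀ (by positivity)] at this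
      linarith
  obtain ⟨hr2, hr3⟩ := hr2
  have hpre : MPre p { D with I := J } a0 r := by
    refine mPre_of (D := { D with I := J }) hJM hr0 ?_ hθ1 h0 hr1 (hr2.le.trans h2) hC hc hr3
      (fun v k0 k1 => hP v k0 (k1.trans hr2.le)) ?_ ?_
    · filter_upwards [hvel] with n hn x hx using hn x (hJI n hx)
    · intro u v k0 k1 k2 ε hε
      filter_upwards [hJT u v k0 k1 k2 ε hε] with n hn x hx hk
      exact (hn x hx hk).close
    · intro v k0 k1 ε hε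
      filter_upwards [hJN v k0 k1 ε hε] with n hn x hx hk
      exact hn x hx hk
  exact hpre.exists_thinW (hK J hJI hJd hJM) hwrs

/-- **the window from `J1c`** with one curved level -/
theorem exists_thinW {η : ℝ} (h : J1c η p D) {C : ℝ} (hC : 0 ≤ C)
    (hT : ∀ u v : ℚ, 0 ≤ u → u < v → v ≤ 1 → ∀ ε : ℝ, 0 < ε →
      Negl D.B D.I fun n x => ¬ TiltC D C u v ε n x)
    (hN : ∀ v : ℚ, 0 ≤ v → v ≤ 1 → ∀ ε : ℝ, 0 < ε → Negl D.B D.I fun n x => ¬ DetC D v ε n x)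
    (hK : ∀ J : ℕ → Finset (ℕ × ℝ), (∀ n, J n ⊆ D.I n) → Dense D.B J D.I →
      MkA D.B J (D.G p) D.lev D.A (fun v => p.g * v) (fun v => 0 * v)
        (fun j v => p.θ j * (1 - v)) D.f D.b D.vm D.w → Kil { D with I := J })
    {v1 : ℚ} (h0 : 0 ≤ v1) (h1 : v1 ≤ 1) {ε : ℝ} (hε : 0 < ε)
    (hf : ∀ᶠ n in (U : Filter ℕ), ∀ x ∈ D.I n, ¬ FltSM D (D.B.d n ^ (-ε)) n v1 x) :
    ∃ D' : Dat4, ThinW p D' := by
  refine exists_thinW_core h.mka h.r0pos h.vel h.wrs h.θ1 hC hT hN ?_ hK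
  intro J hJI hJT
  obtain ⟨a0, b0, k0, k1, k2, -, -, c, hc, hP⟩ := Prs262.persistC h hJI hC hJT h0 h1 hε
    (by filter_upwards [hf] with n hn x hx using hn x (hJI n hx))
  exact ⟨a0, b0, k0, k1, k2, c, hc, hP⟩

/-- **the window from `J1c`**, hypotheses = conclusions of `Tilt4C` and `NonDeg` for the data `D` -/
theorem exists_thinW_J1c {η : ℝ} (h : J1c η p D)
    (hT : ∃ C : ℝ, 0 ≤ C ∧ ∀ u v : ℚ, 0 ≤ u → u < v → v ≤ 1 → ∀ ε : ℝ, 0 < ε →
      Negl D.B D.I fun n x =>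
        D.B.d n ^ (-(C * ((v : ℝ) - u)) - ε) * max (D.w 0 n u) (D.w 0 n v) ≤
          max (kapP (mk4 D n v x) (zx D n v x) (rh D n v) (D.L n x.1))
            (kapP (mk4 D n u x) (zx D n u x) (rh D n u) (D.L n x.1)) ∧
        ¬ TiltOKC D (D.B.d n ^ (-(C * ((v : ℝ) - u)) - ε)) u v n x)
    (hN : ∀ v : ℚ, 0 ≤ v → v ≤ 1 → ∀ ε : ℝ, 0 < ε → Negl D.B D.I fun n x =>
      D.B.d n ^ (-ε) * (mk4 D n v x).a < kapP (mk4 D n v x) (zx D n v x) (rh D n v) (D.L n x.1) ∧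
        ¬ DetP (D.B.d n ^ ε) (mk4 D n v x) (zx D n v x) (rh D n v) (D.L n x.1))
    (hK : ∀ J : ℕ → Finset (ℕ × ℝ), (∀ n, J n ⊆ D.I n) → Dense D.B J D.I →
      MkA D.B J (D.G p) D.lev D.A (fun v => p.g * v) (fun v => 0 * v)
        (fun j v => p.θ j * (1 - v)) D.f D.b D.vm D.w → Kil { D with I := J })
    {v1 : ℚ} (h0 : 0 ≤ v1) (h1 : v1 ≤ 1) {ε : ℝ} (hε : 0 < ε)
    (hf : ∀ᶠ n in (U : Filter ℕ), ∀ x ∈ D.I n, ¬ FltSM D (D.B.d n ^ (-ε)) n v1 x) :
    ∃ D' : Dat4, ThinW p D' := by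
  obtain ⟨C, hC, hT⟩ := hT
  refine exists_thinW h hC (fun u v k0 k1 k2 e he => ?_) (fun v k0 k1 e he => ?_) hK h0 h1 hε hf
  · refine (hT u v k0 k1 k2 e he).mono (Eventually.of_forall fun n x _ hx => ?_)
    unfold TiltC at hx
    push Not at hx
    exact hx
  · refine (hN v k0 k1 e he).mono (Eventually.of_forall fun n x _ hx => ?_)
    unfold DetC at hx
    push Not at hx
    exact hx



end

end Crest.Agent.R136.Us555
end

-- ▼ part R136/Kil1_327
section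

/-!
# R136, U6 thin (helper327): the branch `θ1 = 2 θ2` is impossible, finite algebra

Scaled tangent coordinates of the sheet along a line `T`: normal covector `N = (n0, 0, 0)`, rotation
`R = (r0, l1, l2)`, second order part `H`.

* `adj`, `adj_id` : the Binet–Cauchy identity
  `H(Om, Om) H(V, V) = H(Om, V)² + Wᵗ adj(H) W`, `W = R (N·V) - N (R·V)`;
* **`rot_kill`** : if `r0`, `l2`, the three numbers `N adj N`, `N adj R`, `R adj R` and, at a second
  line `T'` of the sheet of relative velocity `V`, the turning rate `R' 0` and the rotation along the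
  second axis are at most `δ`, and `|H(Om, Om)| ≥ η`, then `|V 1| ≤ 10^5 δ / η²`.
-/

set_option autoImplicit false
set_option linter.unusedVariables false

namespace Crest.Agent.R136.Kil327

open Crest.Agent.R136.Sh605 Crest.Agent.R136.Tl102

/-- `xᵗ adj(M) y` -/
noncomputable def adj (M : QF) (x y : V3) : ℝ :=
  (M.uu * M.vv - M.uv ^ 2 / 4) * (x 0 * y 0) +
    (M.uv * M.yv / 4 - M.yu * M.vv / 2) * (x 0 * y 1 + x 1 * y 0) +
    (M.yu * M.uv / 4 - M.uu * M.yv / 2) * (x 0 * y 2 + x 2 * y 0) +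
    (M.yy * M.vv - M.yv ^ 2 / 4) * (x 1 * y 1) +
    (M.yu * M.yv / 4 - M.yy * M.uv / 2) * (x 1 * y 2 + x 2 * y 1) +
    (M.yy * M.uu - M.yu ^ 2 / 4) * (x 2 * y 2)

/-- the second form on the kernel of the rotation -/
def dd (M : QF) (R : V3) : ℝ := M.uu * R 2 ^ 2 - M.uv * (R 1 * R 2) + M.vv * R 1 ^ 2

/-- `2 H(Om, V)`, `Om = (0, R 2, -R 1)` -/
def ho (M : QF) (R V : V3) : ℝ :=
  R 2 * (M.yu * V 0 + 2 * M.uu * V 1 + M.uv * V 2) -
    R 1 * (M.yv * V 0 + M.uv * V 1 + 2 * M.vv * V 2)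


theorem a3 {x y z A B C : ℝ} (hx : |x| ≤ A) (hy : |y| ≤ B) (hz : |z| ≤ C) :
    |x + y + z| ≤ A + B + C :=
  (abs_add_le _ _).trans (add_le_add ((abs_add_le _ _).trans (add_le_add hx hy)) hz)

theorem mm {x y A B : ℝ} (hx : |x| ≤ A) (hy : |y| ≤ B) : |x * y| ≤ A * B := by
  rw [abs_mul]; exact mul_le_mul hx hy (abs_nonneg _) ((abs_nonneg _).trans hx)


end Crest.Agent.R136.Kil327
end

-- ▼ part R136/Kil2_327
section

/-!
# R136, U6 thin (helper327): the branch `θ1 = 2 θ2` is impossible, two lines of one sheet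

* `grd` : gradient of a quadratic form; `isExp_move` : the expansion along a second line;
* `kap_move` : the curvature extents along two nearby lines of a sheet are comparable;
* **`kill_sheet`** : two lines `T`, `T'` of the sheet, near each other (`1/8` of the base), small
  turning rate and small rotation along the second axis at both lines, small invariants `P4` at `T`,
  nondegenerate at `T` ⊢ the relative velocity along the first axis is small.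
-/

set_option autoImplicit false
set_option linter.unusedVariables false

namespace Crest.Agent.R136.Kil327

open Crest.Agent.R136.Sh605 Crest.Agent.R136.Tl102
open Crest.Agent.R136.Thn768 (P4)
open Crest.Agent.R136.Arc880 (det3)

/-- gradient of a quadratic form -/
def grd (M : QF) (x : V3) : V3 :=
  ![2 * M.yy * x 0 + M.yu * x 1 + M.yv * x 2, M.yu * x 0 + 2 * M.uu * x 1 + M.uv * x 2,
    M.yv * x 0 + M.uv * x 1 + 2 * M.vv * x 2]

theorem Fq_add (b0 b1 : V3) (G : QF) (ζ : ℝ) (X V x : V3) :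
    Fq b0 b1 G ζ ((fun k => X k + ζ * V k) + x) = Fq b0 b1 G ζ (fun k => X k + ζ * V k) +
      Fq (fun k => b0 k + grd G X k) (fun k => b1 k + grd G V k) G ζ x := by
  simp only [Fq, dt, bz, QF.ev, grd, Pi.add_apply, Matrix.cons_val]
  ring


theorem cmb_add (f : Fin 3 → V3) (x y : V3) : cmb f (x + y) = cmb f x + cmb f y := by
  ext i
  simp only [cmb, Pi.add_apply]
  ring

/-- **the expansion along a second line** -/
theorem isExp_move {q : ℝ → V3 → ℝ} {e : Fin 3 → V3} (he : Ortho e) {w : V3} (hw : ∀ k, w k ≠ 0)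
    {T : Ln4} {z0 ρ : ℝ} {b0 b1 : V3} {G : QF} (hE : IsExp q e w T z0 ρ b0 b1 G) (T' : Ln4) :
    IsExp q e w T' z0 ρ (fun k => b0 k + grd G (rp e w z0 ρ T T' 0) k)
      (fun k => b1 k + grd G (vel e w ρ T T') k) G := by
  intro ζ x
  have h1 : T.pos (z0 + ρ * ζ) + cmb (fr e w) (rp e w z0 ρ T T' ζ) = T'.pos (z0 + ρ * ζ) :=
    cmb_pc he hw T _ _
  have h2 : T'.pos (z0 + ρ * ζ) + cmb (fr e w) x =
      T.pos (z0 + ρ * ζ) + cmb (fr e w) (rp e w z0 ρ T T' ζ + x) := by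
    rw [cmb_add, ← add_assoc, h1]
  have h3 : rp e w z0 ρ T T' ζ = fun k => rp e w z0 ρ T T' 0 k + ζ * vel e w ρ T T' k := by
    funext k
    have := rp_affine e w z0 ρ T T' 0 ζ k
    rw [this]; ring
  have h4 : q (z0 + ρ * ζ) (T'.pos (z0 + ρ * ζ)) = q (z0 + ρ * ζ) (T.pos (z0 + ρ * ζ)) +
      w 0 * Fq b0 b1 G ζ (rp e w z0 ρ T T' ζ) := by
    rw [← hE ζ, h1]
  rw [h2, hE ζ, h4, h3, Fq_add]
  ring

/-- `gl` of a gradient -/
theorem gl_grd {κ s₁ s₂ : ℝ} (hκ : κ ≠ 0) (G : QF) (x : V3) :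
    gl κ s₁ s₂ (grd G x) =
      grd (gM κ s₁ s₂ G) ![(x 0 + s₁ * x 1 + s₂ * x 2) / κ, x 1, x 2] := by
  ext k
  fin_cases k
  · show (grd G x) 0 =
      grd (gM κ s₁ s₂ G) ![(x 0 + s₁ * x 1 + s₂ * x 2) / κ, x 1, x 2] 0
    simp only [grd, gM, Matrix.cons_val]
    field_simp
    ring
  · show ((grd G x) 1 - s₁ * (grd G x) 0) / κ =
      grd (gM κ s₁ s₂ G) ![(x 0 + s₁ * x 1 + s₂ * x 2) / κ, x 1, x 2] 1
    simp only [grd, gM, Matrix.cons_val]
    field_simp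
    ring
  · show ((grd G x) 2 - s₂ * (grd G x) 0) / κ =
      grd (gM κ s₁ s₂ G) ![(x 0 + s₁ * x 1 + s₂ * x 2) / κ, x 1, x 2] 2
    simp only [grd, gM, Matrix.cons_val]
    field_simp
    ring

theorem gl_add (κ s₁ s₂ : ℝ) (l l' : V3) :
    gl κ s₁ s₂ (fun k => l k + l' k) = fun k => gl κ s₁ s₂ l k + gl κ s₁ s₂ l' k := by
  ext k
  fin_cases k
  · rfl
  · show (l 1 + l' 1 - s₁ * (l 0 + l' 0)) / κ = (l 1 - s₁ * l 0) / κ + (l' 1 - s₁ * l' 0) / κ
    ring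
  · show (l 2 + l' 2 - s₂ * (l 0 + l' 0)) / κ = (l 2 - s₂ * l 0) / κ + (l' 2 - s₂ * l' 0) / κ
    ring

/-- rotation along the axis `k` in the coordinates of another slope -/
theorem shB1_gl {κ s₁ s₂ : ℝ} (hκ : κ ≠ 0) {b0 b1 : V3} (h : b0 0 ≠ 0) :
    shB1 b0 b1 1 / κ = gl κ s₁ s₂ b1 1 - gl κ s₁ s₂ b0 1 / b0 0 * b1 0 ∧
    shB1 b0 b1 2 / κ = gl κ s₁ s₂ b1 2 - gl κ s₁ s₂ b0 2 / b0 0 * b1 0 := by
  constructor
  · show (b1 1 - b0 1 / b0 0 * b1 0) / κ = (b1 1 - s₁ * b1 0) / κ -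
      (b0 1 - s₁ * b0 0) / κ / b0 0 * b1 0
    field_simp
    ring
  · show (b1 2 - b0 2 / b0 0 * b1 0) / κ = (b1 2 - s₂ * b1 0) / κ -
      (b0 2 - s₂ * b0 0) / κ / b0 0 * b1 0
    field_simp
    ring

/-- second order part in the coordinates of another slope -/
theorem shG_gM {κ s₁ s₂ : ℝ} (hκ : κ ≠ 0) {b0 : V3} (h : b0 0 ≠ 0) (G : QF) :
    (shG b0 G).uu / κ = (gM κ s₁ s₂ G).uu -
        gl κ s₁ s₂ b0 1 / b0 0 * (gM κ s₁ s₂ G).yu +
        (gl κ s₁ s₂ b0 1 / b0 0) ^ 2 * (gM κ s₁ s₂ G).yy ∧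
    (shG b0 G).uv / κ = (gM κ s₁ s₂ G).uv -
        gl κ s₁ s₂ b0 2 / b0 0 * (gM κ s₁ s₂ G).yu - gl κ s₁ s₂ b0 1 / b0 0 * (gM κ s₁ s₂ G).yv +
        2 * (gl κ s₁ s₂ b0 1 / b0 0 * (gl κ s₁ s₂ b0 2 / b0 0)) * (gM κ s₁ s₂ G).yy ∧
    (shG b0 G).vv / κ = (gM κ s₁ s₂ G).vv -
        gl κ s₁ s₂ b0 2 / b0 0 * (gM κ s₁ s₂ G).yv +
        (gl κ s₁ s₂ b0 2 / b0 0) ^ 2 * (gM κ s₁ s₂ G).yy := by
  refine ⟨?_, ?_, ?_⟩ <;>
  · simp only [shG, gl, gM, Matrix.cons_val]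
    field_simp
    ring

/-- determinant of the fan at the height `0` in scaled tangent coordinates -/
theorem det3_fan0 {b0 b1 : V3} (h : b0 0 ≠ 0) (R : V3) (M : QF) :
    det3 (fan (shB0 b0) R M 0) = -(dd M R) / 2 ^ 24 := by
  have s1 : slp (shB0 b0) R 1 0 = 0 := by
    show -((0 : ℝ) + 0 * R 1) / (b0 0 + 0 * R 0) = 0
    simp
  have s2 : slp (shB0 b0) R 2 0 = 0 := by
    show -((0 : ℝ) + 0 * R 2) / (b0 0 + 0 * R 0) = 0
    simp
  simp only [det3, fan, s1, s2, dd, Matrix.cons_val]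
  ring


/-- coefficients of the expansion along the second line, in the coordinates of the first one -/
theorem gl_move {κ : ℝ} (hκ : κ ≠ 0) {b0 : V3} (hb0 : b0 0 ≠ 0) (b1 : V3) (G : QF) (X V : V3) :
    gl κ (b0 1 / b0 0) (b0 2 / b0 0) (fun k => b0 k + grd G X k) =
      (fun k => shB0 b0 k + grd (scG κ b0 G) (sD κ b0 X) k) ∧
    gl κ (b0 1 / b0 0) (b0 2 / b0 0) (fun k => b1 k + grd G V k) =
      (fun k => scB1 κ b0 b1 k + grd (scG κ b0 G) (sD κ b0 V) k) := by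
  constructor
  · rw [gl_add, gl_own hb0, gl_grd hκ, gM_own]
    rfl
  · rw [gl_add, gl_own1, gl_grd hκ, gM_own]
    rfl



end Crest.Agent.R136.Kil327
end

-- ▼ part R136/Cpp2_565
section

/-!
# R136 (U5 TILT, curved), seam (C2): captured lines in the frames of the two sheets (helper565)

* `near_cap`  : a line of the sheet captured by `T` is tangent to the sheet at `T`;
* `area_pass` : transversality (areas of the lateral velocities) passes from the frame `(e', w')`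
  to the frame `(e, w)` of the sheet;
* `rp_pass`   : the capture in the frame of `S` gives the capture in the frame of `S'`;
* `vel_pass`  : closeness of lateral velocities passes from the frame of `S'` to the frame of `S`;
* `balls_pass`: three balls of velocities in the frame of `S'` give three balls in the frame of `S`.
-/

set_option autoImplicit false
set_option linter.unusedVariables false

namespace Crest.Agent.R136.Cpp565

open Crest.Agent.R136.Sh605 Crest.Agent.R136.Tl102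
open Crest.Agent.R136.Arc880 (abs_mul_le abs_add2 abs_sub2)
open Crest.Agent.R136.Fl808 (dt_expand abs_dt_le_one)

/-- relative positions of two lines of the sheet -/
theorem rp_le_two {e : Fin 3 → V3} {c : Ln4} {w : V3} {q : ℝ → V3 → ℝ} {z0 ρ a : ℝ}
    (hw : ∀ i, 0 < w i) (hρ : 0 ≤ ρ) {T L : Ln4} (hT : InSheet T e c w q a z0 ρ)
    (hL : InSheet L e c w q a z0 ρ) {ζ : ℝ} (hζ : 0 ≤ ζ) (hζ' : ζ ≤ 1) (k : Fin 3) :
    |rp e w z0 ρ T L ζ k| ≤ 2 := by
  have z1 : z0 ≤ z0 + ρ * ζ := by nlinarith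
  have z2 : z0 + ρ * ζ ≤ z0 + ρ := by nlinarith
  have k1 := (hL _ z1 z2).1 k
  have k2 := (hT _ z1 z2).1 k
  have hwk := hw k
  have e1 : dt (e k) (L.pos (z0 + ρ * ζ) - T.pos (z0 + ρ * ζ)) =
      dt (e k) (L.pos (z0 + ρ * ζ) - c.pos (z0 + ρ * ζ)) -
        dt (e k) (T.pos (z0 + ρ * ζ) - c.pos (z0 + ρ * ζ)) := by
    rw [dt_sub, dt_sub, dt_sub]; ring
  change |dt (e k) (L.pos (z0 + ρ * ζ) - T.pos (z0 + ρ * ζ)) / w k| ≤ 2
  rw [abs_div, abs_of_pos hwk, div_le_iff₀ hwk, e1]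
  exact (abs_sub _ _).trans (by linarith)

theorem vel_le_four {e : Fin 3 → V3} {c : Ln4} {w : V3} {q : ℝ → V3 → ℝ} {z0 ρ a : ℝ}
    (hw : ∀ i, 0 < w i) (hρ : 0 ≤ ρ) {T L : Ln4} (hT : InSheet T e c w q a z0 ρ)
    (hL : InSheet L e c w q a z0 ρ) (k : Fin 3) : |vel e w ρ T L k| ≤ 4 := by
  have e1 := rp_affine e w z0 ρ T L 0 1 k
  have e2 : vel e w ρ T L k = rp e w z0 ρ T L 1 k - rp e w z0 ρ T L 0 k := by
    rw [e1]; ring
  rw [e2]
  refine (abs_sub _ _).trans ?_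
  have := rp_le_two hw hρ hT hL zero_le_one le_rfl k
  have := rp_le_two hw hρ hT hL le_rfl zero_le_one k
  linarith

/-- **a captured line is tangent to the sheet** -/
theorem near_cap {e : Fin 3 → V3} {c : Ln4} {w : V3} {q : ℝ → V3 → ℝ} {z0 ρ a : ℝ}
    (S : StP e c w q z0 ρ) (hρ : 0 ≤ ρ) {T L : Ln4} (hT : InSheet T e c w q a z0 ρ)
    (hL : InSheet L e c w q a z0 ρ) {b0 b1 : V3} {G : QF} (hE : IsExp q e w T z0 ρ b0 b1 G)
    {s r : ℝ} (hs : 0 ≤ s) (hs' : s ≤ 1) (hr : r ≤ 1 / 8)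
    (h1 : |rp e w z0 ρ T L s 1| ≤ r) (h2 : |rp e w z0 ρ T L s 2| ≤ r) :
    |rp e w z0 ρ T L s 0| ≤ 69 * r + 4 * (a / w 0) ∧
      |dt (bz b0 b1 s) (vel e w ρ T L)| ≤ 4000 * (r + a / w 0) := by
  have hTK : ∀ z, z0 ≤ z → z ≤ z0 + ρ → InK e c w z (T.pos z) := fun z h1 h2 => (hT z h1 h2).1
  have N := hE.nrmC S hρ hTK
  obtain ⟨g1, g2, g3, g4, g5, g6, g7, s1, s2⟩ := N.b1_le
  have hw0 := S.pos 0
  have hwne : ∀ i, w i ≠ 0 := fun i => (S.pos i).ne'
  have hr0 : 0 ≤ r := (abs_nonneg _).trans h1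
  have ha : 0 ≤ a := (abs_nonneg _).trans (hT z0 le_rfl (by linarith)).2
  set A := a / w 0 with hAd
  have hA0 : 0 ≤ A := by positivity
  have haA : a = A * w 0 := by rw [hAd, div_mul_cancel₀ _ hw0.ne']
  have hz : ∀ ζ, 0 ≤ ζ → ζ ≤ 1 → z0 ≤ z0 + ρ * ζ ∧ z0 + ρ * ζ ≤ z0 + ρ := by
    intro ζ h1 h2
    constructor
    · nlinarith
    · nlinarith
  have D0 : |rp e w z0 ρ T L s 0| ≤ 69 * r + 4 * A := by
    obtain ⟨z1, z2⟩ := hz s hs hs'
    have := yc_le S hρ hTK hE hs hs' (hL _ z1 z2).1 hr h1 h2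
    have q1 := (hL _ z1 z2).2
    have q2 := (hT _ z1 z2).2
    have hk := kap_le N
    have h3 : w 0 * |yc b0 (rp e w z0 ρ T L s)| ≤ w 0 * (4 * A + 65 * r) := by
      have h4 : 5 * r * (w 0 * kap b0 b1 G) ≤ 5 * r * (w 0 * 13) := by gcongr
      have e1 : w 0 * (4 * A + 65 * r) = 2 * (a + a) + 5 * r * (w 0 * 13) := by rw [haA]; ring
      rw [e1]
      exact this.trans (add_le_add (by linarith) h4)
    have h5 : |yc b0 (rp e w z0 ρ T L s)| ≤ 4 * A + 65 * r := le_of_mul_le_mul_left h3 hw0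
    have e2 : rp e w z0 ρ T L s 0 = yc b0 (rp e w z0 ρ T L s) -
        b0 1 / b0 0 * rp e w z0 ρ T L s 1 - b0 2 / b0 0 * rp e w z0 ρ T L s 2 := by
      unfold yc; ring
    rw [e2]
    have := abs_sub2 (abs_sub2 h5 (abs_mul_le s1 h1)) (abs_mul_le s2 h2)
    linarith only [this]
  refine ⟨D0, ?_⟩
  have hF : ∀ z, 0 ≤ z → z ≤ 1 →
      |Fq b0 b1 G z (pos (rp e w z0 ρ T L s) (vel e w ρ T L) s z)| ≤ 2 * A := by
    intro z hz1 hz2
    obtain ⟨z1, z2⟩ := hz z hz1 hz2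
    have e1 : pos (rp e w z0 ρ T L s) (vel e w ρ T L) s z = rp e w z0 ρ T L z := by
      funext k
      rw [rp_affine e w z0 ρ T L s z k]
      rfl
    rw [e1]
    have h3 := hE z (rp e w z0 ρ T L z)
    have e2 : T.pos (z0 + ρ * z) + Tl102.cmb (fr e w) (rp e w z0 ρ T L z) =
        L.pos (z0 + ρ * z) := cmb_pc S.ortho hwne T _ _
    rw [e2] at h3
    have q1 := (hL _ z1 z2).2
    have q2 := (hT _ z1 z2).2
    have h4 : w 0 * |Fq b0 b1 G z (rp e w z0 ρ T L z)| ≤ w 0 * (2 * A) := by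
      rw [← abs_of_pos hw0, ← abs_mul, abs_of_pos hw0]
      have e3 : w 0 * Fq b0 b1 G z (rp e w z0 ρ T L z) =
          q (z0 + ρ * z) (L.pos (z0 + ρ * z)) - q (z0 + ρ * z) (T.pos (z0 + ρ * z)) := by
        rw [h3]; ring
      rw [e3]
      refine (abs_sub _ _).trans ?_
      have : w 0 * (2 * A) = a + a := by rw [haA]; ring
      linarith
    exact le_of_mul_le_mul_left h4 hw0
  have hD : ∀ k, |rp e w z0 ρ T L s k| ≤ 69 * r + 4 * A := by
    intro k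
    fin_cases k
    · exact D0
    · exact h1.trans (by linarith)
    · exact h2.trans (by linarith)
  have hb : ∀ k, |b1 k| ≤ 2 := by
    intro k
    fin_cases k
    · exact g5.trans (by norm_num)
    · exact g6
    · exact g7
  have := (line_coef hs hs' hF N.G_le hb hD
    (fun k => vel_le_four S.pos hρ hT hL k)).1
  linarith only [this, hA0, hr0]










end Crest.Agent.R136.Cpp565
end

-- ▼ part R136/Kil4_327
section

/-!
# R136, U6 thin (helper327): two bad lines of one sheet, no smallness of the sheet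

A line `T` of a sheet is bad if its rotation along the second axis (scaled tangent coordinates) is at
most `μ`.

* **`clusters`** : a bad line `T'` which passes `T` at the height `0` within `μ` has its lateral
  velocity within `10^10 μ / η²` of `0` or of `(vB1, vB2)`, which depends on `T` only;
* `kap_move'`, `two_lines'` : as in `Kil2_327`, for lines near each other at the height `0` only;
* **`two_cl`** : the sheet version.
-/

set_option autoImplicit false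
set_option linter.unusedVariables false

namespace Crest.Agent.R136.Kil327

open Crest.Agent.R136.Sh605 Crest.Agent.R136.Tl102
open Crest.Agent.R136.Arc880 (det3)

/-- the second cluster, first axis -/
noncomputable def vB1 (M : QF) (R : V3) : ℝ := -(4 * M.vv * R 1) / (4 * M.uu * M.vv - M.uv ^ 2)

/-- the second cluster, second axis -/
noncomputable def vB2 (M : QF) (R : V3) : ℝ := -(M.uv * vB1 M R) / (2 * M.vv)

/-- **two bad lines: the relative velocity is near one of two points** -/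
theorem clusters {N R X V : V3} {M : QF} {μ η : ℝ} (hμ : 0 ≤ μ) (hμ1 : μ ≤ 1) (hη : 0 < η)
    (hμη : 4 * μ ≤ η) (h1 : N 1 = 0) (h2 : N 2 = 0) (n0 : 1 / 2 ≤ N 0) (r0 : |R 0| ≤ 3 / 2)
    (r1 : |R 1| ≤ 1) (r2 : |R 2| ≤ μ) (yy : |M.yy| ≤ 13) (yu : |M.yu| ≤ 5) (yv : |M.yv| ≤ 5)
    (uu : |M.uu| ≤ 1) (uv : |M.uv| ≤ 1) (vv : |M.vv| ≤ 1) (hX : ∀ k, |X k| ≤ μ)
    (hV : ∀ k, |V k| ≤ 256) (f1 : |dt N V + dt R X + M.pol X V| ≤ μ)
    (f2 : |dt R V + M.ev V| ≤ μ) (n0' : 1 / 4 ≤ |N 0 + grd M X 0|)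
    (r0' : |R 0 + grd M V 0| ≤ 3 / 2)
    (r2' : |(R 2 + grd M V 2) - grd M X 2 / (N 0 + grd M X 0) * (R 0 + grd M V 0)| ≤ μ)
    (hD : η ≤ |dd M R|) :
    (|V 1| ≤ 10 ^ 10 * μ / η ^ 2 ∧ |V 2| ≤ 10 ^ 10 * μ / η ^ 2) ∨
    (|V 1 - vB1 M R| ≤ 10 ^ 10 * μ / η ^ 2 ∧ |V 2 - vB2 M R| ≤ 10 ^ 10 * μ / η ^ 2) := by
  have two : |(2 : ℝ)| ≤ 2 := by norm_num
  have neg : ∀ {x A : ℝ}, |x| ≤ A → |-x| ≤ A := fun h => by rw [abs_neg]; exact h
  have q1 : μ * μ ≤ μ := mul_le_of_le_one_left hμ hμ1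
  -- size of `vv`, `R 1`
  have d3 : |dd M R| ≤ 2 * μ + |M.vv * R 1| := by
    have e : dd M R = M.uu * (R 2 * R 2) + -(M.uv * (R 1 * R 2)) + M.vv * R 1 * R 1 := by
      simp only [dd]; ring
    rw [e]
    refine (a3 (mm uu (mm r2 r2)) (neg (mm uv (mm r1 r2))) (mm (le_refl |M.vv * R 1|) r1)).trans ?_
    linarith
  have hvr : η / 2 ≤ |M.vv * R 1| := by linarith
  have hvv : η / 2 ≤ |M.vv| := by
    refine hvr.trans ?_
    rw [abs_mul]
    exact mul_le_of_le_one_right (abs_nonneg _) r1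
  have hη2 : η ≤ 2 := by linarith
  have hvv0 : M.vv ≠ 0 := by
    intro h
    rw [h, abs_zero] at hvv
    linarith
  -- the velocity along the normal
  have hV0 : |V 0| ≤ 27000 * μ := by
    have e : N 0 * V 0 = (dt N V + dt R X + M.pol X V) + -(dt R X) + -(M.pol X V) := by
      simp only [dt, h1, h2]; ring
    have b1 : |dt R X| ≤ 3 / 2 * μ + 1 * μ + μ * μ :=
      a3 (mm r0 (hX 0)) (mm r1 (hX 1)) (mm r2 (hX 2))
    have b2 : |M.pol X V| ≤ 13312 * μ := by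
      have e2 : M.pol X V = (2 * M.yy * (X 0 * V 0) + M.yu * (X 0 * V 1 + X 1 * V 0) +
          M.yv * (X 0 * V 2 + X 2 * V 0)) + 0 + (2 * M.uu * (X 1 * V 1) +
          M.uv * (X 1 * V 2 + X 2 * V 1) + 2 * M.vv * (X 2 * V 2)) := by
        simp only [QF.pol]; ring
      have z : |(0 : ℝ)| ≤ 0 := by norm_num
      have p : ∀ i j k l, |X i * V j + X k * V l| ≤ μ * 256 + μ * 256 := fun i j k l =>
        (abs_add_le _ _).trans (add_le_add (mm (hX i) (hV j)) (mm (hX k) (hV l)))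
      rw [e2]
      refine (a3 (a3 (mm (mm two yy) (mm (hX 0) (hV 0))) (mm yu (p 0 1 1 0)) (mm yv (p 0 2 2 0))) z
        (a3 (mm (mm two uu) (mm (hX 1) (hV 1))) (mm uv (p 1 2 2 1))
          (mm (mm two vv) (mm (hX 2) (hV 2))))).trans ?_
      linarith
    have b3 : |N 0 * V 0| ≤ 13317 * μ := by
      rw [e]
      refine (a3 f1 (neg b1) (neg b2)).trans ?_
      linarith
    rw [abs_mul, abs_of_pos (by linarith : 0 < N 0)] at b3
    have b4 : 1 / 2 * |V 0| ≤ N 0 * |V 0| := mul_le_mul_of_nonneg_right n0 (abs_nonneg _)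
    linarith
  -- the linear condition
  obtain ⟨W, hW⟩ : ∃ W, W = M.uv * V 1 + 2 * M.vv * V 2 := ⟨_, rfl⟩
  have bW' : |W| ≤ 768 := by
    rw [hW]
    refine (abs_add_le _ _).trans ((add_le_add (mm uv (hV 1)) (mm (mm two vv) (hV 2))).trans ?_)
    norm_num
  have bN2 : |grd M X 2| ≤ 8 * μ := by
    show |M.yv * X 0 + M.uv * X 1 + 2 * M.vv * X 2| ≤ 8 * μ
    refine (a3 (mm yv (hX 0)) (mm uv (hX 1)) (mm (mm two vv) (hX 2))).trans ?_
    linarith
  have bq : |grd M X 2 / (N 0 + grd M X 0)| ≤ 32 * μ := by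
    rw [abs_div, div_le_iff₀ (by linarith)]
    have := mul_le_mul_of_nonneg_left n0' (by linarith : 0 ≤ 32 * μ)
    linarith
  have bW : |W| ≤ 136000 * μ := by
    have e : W = ((R 2 + grd M V 2) - grd M X 2 / (N 0 + grd M X 0) * (R 0 + grd M V 0)) +
        grd M X 2 / (N 0 + grd M X 0) * (R 0 + grd M V 0) + -(R 2 + M.yv * V 0) := by
      rw [hW]
      have : grd M V 2 = M.yv * V 0 + M.uv * V 1 + 2 * M.vv * V 2 := rfl
      rw [this]; ring
    rw [e]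
    refine (a3 r2' (mm bq r0') (neg ((abs_add_le _ _).trans (add_le_add r2 (mm yv hV0))))).trans ?_
    linarith
  -- the conic
  obtain ⟨P, hP⟩ : ∃ P, P = R 1 * V 1 + (M.uu * V 1 ^ 2 + M.uv * (V 1 * V 2) + M.vv * V 2 ^ 2) :=
    ⟨_, rfl⟩
  have bP : |P| ≤ 160000000 * μ := by
    have e : P = ((dt R V + M.ev V) + -(R 0 * V 0) + -(R 2 * V 2)) + -(M.yy * (V 0 * V 0)) +
        -(V 0 * (M.yu * V 1 + M.yv * V 2)) := by
      rw [hP]; simp only [dt, QF.ev]; ring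
    rw [e]
    refine (a3 (a3 f2 (neg (mm r0 hV0)) (neg (mm r2 (hV 2)))) (neg (mm yy (mm hV0 (hV 0))))
      (neg (mm hV0 ((abs_add_le _ _).trans (add_le_add (mm yu (hV 1)) (mm yv (hV 2))))))).trans ?_
    linarith
  obtain ⟨D, hDd⟩ : ∃ D, D = 4 * M.uu * M.vv - M.uv ^ 2 := ⟨_, rfl⟩
  obtain ⟨F, hF⟩ : ∃ F, F = 4 * (M.vv * R 1) + D * V 1 := ⟨_, rfl⟩
  have bE : |V 1| * |F| ≤ 10 ^ 9 * μ := by
    rw [← abs_mul]
    have e : V 1 * F = 4 * M.vv * P + -(W * W) + 0 := by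
      rw [hF, hDd, hP, hW]; ring
    have z : |(0 : ℝ)| ≤ 0 := by norm_num
    have four : |(4 : ℝ)| ≤ 4 := by norm_num
    rw [e]
    refine (a3 (mm (mm four vv) bP) (neg (mm bW bW')) z).trans ?_
    linarith
  have h4 : 2 * η ≤ |4 * (M.vv * R 1)| := by
    rw [abs_mul, abs_of_pos (by norm_num : (0 : ℝ) < 4)]
    linarith
  have hη' : 0 < η ^ 2 := by positivity
  -- from the first axis to the second one
  have fin : ∀ v1 v2 : ℝ, 2 * M.vv * v2 = -(M.uv * v1) → |V 1 - v1| * η ≤ 10 ^ 9 * μ →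
      |V 1 - v1| ≤ 10 ^ 10 * μ / η ^ 2 ∧ |V 2 - v2| ≤ 10 ^ 10 * μ / η ^ 2 := by
    intro v1 v2 e1 hb
    constructor
    · rw [le_div_iff₀ hη']
      have e2 : |V 1 - v1| * η ^ 2 = (|V 1 - v1| * η) * η := by ring
      rw [e2]
      have := mul_le_mul hb hη2 hη.le (by positivity)
      linarith
    · rw [le_div_iff₀ hη']
      have e2 : 2 * M.vv * (V 2 - v2) = W + -(M.uv * (V 1 - v1)) := by
        rw [hW]; linarith
      have b1 : |2 * M.vv * (V 2 - v2)| ≤ 136000 * μ + 1 * |V 1 - v1| := by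
        rw [e2]
        exact (abs_add_le _ _).trans (add_le_add bW (neg (mm uv (le_refl _))))
      rw [abs_mul, abs_mul, abs_of_pos (by norm_num : (0 : ℝ) < 2)] at b1
      have b2 : η * |V 2 - v2| ≤ 2 * |M.vv| * |V 2 - v2| :=
        mul_le_mul_of_nonneg_right (by linarith) (abs_nonneg _)
      have b3 : η * |V 2 - v2| * η ≤ (136000 * μ + 1 * |V 1 - v1|) * η :=
        mul_le_mul_of_nonneg_right (b2.trans b1) hη.le
      have b4 : 136000 * μ * η ≤ 136000 * μ * 2 := mul_le_mul_of_nonneg_left hη2 (by positivity)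
      have e3 : |V 2 - v2| * η ^ 2 = η * |V 2 - v2| * η := by ring
      rw [e3]
      linarith
  rcases le_or_gt η |F| with hc | hc
  · left
    have h := fin 0 0 (by ring) (by
      rw [sub_zero]
      exact (mul_le_mul_of_nonneg_left hc (abs_nonneg _)).trans bE)
    rw [sub_zero, sub_zero] at h
    exact h
  · right
    have hDV : η ≤ |D * V 1| := by
      have e : 4 * (M.vv * R 1) = F + -(D * V 1) := by rw [hF]; ring
      rw [e] at h4
      have := (abs_add_le F (-(D * V 1)))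
      rw [abs_neg] at this
      linarith
    have hD0 : D ≠ 0 := by
      intro h
      rw [h, zero_mul, abs_zero] at hDV
      linarith
    have e1 : vB1 M R * D = -(4 * (M.vv * R 1)) := by
      unfold vB1
      rw [← hDd, div_mul_cancel₀ _ hD0]; ring
    refine fin _ _ ?_ ?_
    · unfold vB2
      field_simp
    · have e2 : (V 1 - vB1 M R) * D = F := by rw [sub_mul, e1, hF]; ring
      have e3 : |V 1 - vB1 M R| * |D * V 1| = |V 1| * |F| := by
        rw [← e2, abs_mul, abs_mul]; ring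
      calc |V 1 - vB1 M R| * η ≤ |V 1 - vB1 M R| * |D * V 1| :=
            mul_le_mul_of_nonneg_left hDV (abs_nonneg _)
        _ = |V 1| * |F| := e3
        _ ≤ _ := bE

/-- data of two lines of a sheet near each other at the height `0` -/
theorem two_lines' {e : Fin 3 → V3} {c : Ln4} {w : V3} {q : ℝ → V3 → ℝ} {z0 ρ a : ℝ}
    (S : StP e c w q z0 ρ) (hρ : 0 ≤ ρ) {T T' : Ln4} (hT : InSheet T e c w q a z0 ρ)
    (hT' : InSheet T' e c w q a z0 ρ) {b0 b1 : V3} {G : QF}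
    (hE : IsExp q e w T z0 ρ b0 b1 G) (hκ : 0 < kap b0 b1 G) :
    |dt (shB0 b0) (sD (kap b0 b1 G) b0 (vel e w ρ T T')) +
      dt (scB1 (kap b0 b1 G) b0 b1) (sD (kap b0 b1 G) b0 (rp e w z0 ρ T T' 0)) +
      (scG (kap b0 b1 G) b0 G).pol (sD (kap b0 b1 G) b0 (rp e w z0 ρ T T' 0))
        (sD (kap b0 b1 G) b0 (vel e w ρ T T'))| ≤ 16 * (a / (w 0 * kap b0 b1 G)) ∧
    |dt (scB1 (kap b0 b1 G) b0 b1) (sD (kap b0 b1 G) b0 (vel e w ρ T T')) +
      (scG (kap b0 b1 G) b0 G).ev (sD (kap b0 b1 G) b0 (vel e w ρ T T'))| ≤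
        16 * (a / (w 0 * kap b0 b1 G)) := by
  set κ := kap b0 b1 G with hκd
  have hw0 := S.pos 0
  have hwk : 0 < w 0 * κ := mul_pos hw0 hκ
  have N := hE.nrmC S hρ (fun z h1 h2 => (hT z h1 h2).1)
  obtain ⟨g1, g2, -⟩ := N.b1_le
  have hb0 : b0 0 ≠ 0 := by linarith
  have hz : ∀ ζ : ℝ, 0 ≤ ζ → ζ ≤ 1 → z0 ≤ z0 + ρ * ζ ∧ z0 + ρ * ζ ≤ z0 + ρ := by
    intro ζ h1 h2
    constructor
    · nlinarith
    · nlinarith
  have val : ∀ ζ : ℝ, 0 ≤ ζ → ζ ≤ 1 →
      |Fq (shB0 b0) (scB1 κ b0 b1) (scG κ b0 G) ζ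
        (pos (sD κ b0 (rp e w z0 ρ T T' 0)) (sD κ b0 (vel e w ρ T T')) 0 ζ)| ≤
        2 * (a / (w 0 * κ)) := by
    intro ζ hζ hζ'
    obtain ⟨z1, z2⟩ := hz ζ hζ hζ'
    have q1 := (hT' _ z1 z2).2
    have q2 := (hT _ z1 z2).2
    have h1 := hE.at S.ortho (fun k => (S.pos k).ne') hκ.ne' b0 ζ (T'.pos (z0 + ρ * ζ))
    rw [gl_own hb0, gl_own1, gM_own] at h1
    rw [sD_pos]
    have e1 : w 0 * κ * Fq (shB0 b0) (scB1 κ b0 b1) (scG κ b0 G) ζ
        (sD κ b0 (rp e w z0 ρ T T' ζ)) =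
        q (z0 + ρ * ζ) (T'.pos (z0 + ρ * ζ)) - q (z0 + ρ * ζ) (T.pos (z0 + ρ * ζ)) := by
      rw [h1]
      unfold rp
      ring
    have e2 : ∀ y : ℝ, |y| * (w 0 * κ) = |w 0 * κ * y| := fun y => by
      rw [abs_mul, abs_of_pos hwk, mul_comm]
    have e3 : 2 * (a / (w 0 * κ)) = (2 * a) / (w 0 * κ) := by ring
    rw [e3, le_div_iff₀ hwk, e2, e1]
    exact (abs_sub _ _).trans (by linarith)
  have v0 := val 0 le_rfl zero_le_one
  have v1 := val (1 / 2) (by norm_num) (by norm_num)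
  have v2 := val 1 zero_le_one le_rfl
  rw [Fq_pos] at v0 v1 v2
  have e0 : bz (shB0 b0) (scB1 κ b0 b1) 0 = shB0 b0 := by
    funext k
    simp only [bz]
    ring
  rw [e0] at v0 v1 v2
  set α := dt (shB0 b0) (sD κ b0 (rp e w z0 ρ T T' 0)) +
    (scG κ b0 G).ev (sD κ b0 (rp e w z0 ρ T T' 0)) with hα
  set β := dt (shB0 b0) (sD κ b0 (vel e w ρ T T')) +
    dt (scB1 κ b0 b1) (sD κ b0 (rp e w z0 ρ T T' 0)) +
    (scG κ b0 G).pol (sD κ b0 (rp e w z0 ρ T T' 0)) (sD κ b0 (vel e w ρ T T')) with hβ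
  set γ := dt (scB1 κ b0 b1) (sD κ b0 (vel e w ρ T T')) +
    (scG κ b0 G).ev (sD κ b0 (vel e w ρ T T')) with hγ
  set A := a / (w 0 * κ) with hA
  constructor
  · rw [abs_le] at v0 v1 v2 ⊢
    constructor <;> nlinarith [v0.1, v0.2, v1.1, v1.2, v2.1, v2.2]
  · rw [abs_le] at v0 v1 v2 ⊢
    constructor <;> nlinarith [v0.1, v0.2, v1.1, v1.2, v2.1, v2.2]

/-- **the curvature extents along two lines of the sheet are comparable** -/
theorem kap_move' {b0 b1 b0' b1' : V3} {G : QF} (N : NrmC b0 b1 G) (N' : NrmC b0' b1' G)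
    {x v : V3} (hκ : 0 < kap b0 b1 G) (e1 : b0' = fun k => b0 k + grd G x k)
    (e2 : b1' = fun k => b1 k + grd G v k) (bX : ∀ k, |sD (kap b0 b1 G) b0 x k| ≤ 1)
    (bV : ∀ k, |sD (kap b0 b1 G) b0 v k| ≤ 256) :
    kap b0' b1' G ≤ 60000 * kap b0 b1 G := by
  set κ := kap b0 b1 G with hκd
  obtain ⟨g1, g2, -⟩ := N.b1_le
  have hb0 : b0 0 ≠ 0 := by linarith
  obtain ⟨g1', g2', -, -, g3', -⟩ := N'.b1_le
  have hb0' : b0' 0 ≠ 0 := by linarith
  obtain ⟨m1, m2⟩ := gl_move hκ.ne' hb0 b1 G x v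
  rw [← e1] at m1
  rw [← e2] at m2
  have sc := N.sc_le hκ
  rw [← hκd] at sc
  obtain ⟨c1, c2, c3, c4, yy, yu, yv, uu, uv, vv⟩ := sc
  set X := sD κ b0 x with hX
  set V := sD κ b0 v with hV
  set M := scG κ b0 G with hM
  have two : |(2 : ℝ)| ≤ 2 := by norm_num
  have gX1 : |gl κ (b0 1 / b0 0) (b0 2 / b0 0) b0' 1| ≤ 8 := by
    rw [m1]
    show |0 + (M.yu * X 0 + 2 * M.uu * X 1 + M.uv * X 2)| ≤ 8
    rw [zero_add]
    exact (a3 (mm yu (bX 0)) (mm (mm two uu) (bX 1)) (mm uv (bX 2))).trans (by norm_num)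
  have gX2 : |gl κ (b0 1 / b0 0) (b0 2 / b0 0) b0' 2| ≤ 8 := by
    rw [m1]
    show |0 + (M.yv * X 0 + M.uv * X 1 + 2 * M.vv * X 2)| ≤ 8
    rw [zero_add]
    exact (a3 (mm yv (bX 0)) (mm uv (bX 1)) (mm (mm two vv) (bX 2))).trans (by norm_num)
  have gV1 : |gl κ (b0 1 / b0 0) (b0 2 / b0 0) b1' 1| ≤ 2049 := by
    rw [m2]
    show |scB1 κ b0 b1 1 + (M.yu * V 0 + 2 * M.uu * V 1 + M.uv * V 2)| ≤ 2049
    refine (abs_add_le _ _).trans ?_
    have := (a3 (mm yu (bV 0)) (mm (mm two uu) (bV 1)) (mm uv (bV 2)))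
    linarith
  have gV2 : |gl κ (b0 1 / b0 0) (b0 2 / b0 0) b1' 2| ≤ 2049 := by
    rw [m2]
    show |scB1 κ b0 b1 2 + (M.yv * V 0 + M.uv * V 1 + 2 * M.vv * V 2)| ≤ 2049
    refine (abs_add_le _ _).trans ?_
    have := (a3 (mm yv (bV 0)) (mm uv (bV 1)) (mm (mm two vv) (bV 2)))
    linarith
  have t1 : |gl κ (b0 1 / b0 0) (b0 2 / b0 0) b0' 1 / b0' 0| ≤ 16 := by
    rw [abs_div, abs_of_pos (by linarith : 0 < b0' 0), div_le_iff₀ (by linarith)]
    linarith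
  have t2 : |gl κ (b0 1 / b0 0) (b0 2 / b0 0) b0' 2 / b0' 0| ≤ 16 := by
    rw [abs_div, abs_of_pos (by linarith : 0 < b0' 0), div_le_iff₀ (by linarith)]
    linarith
  obtain ⟨r1, r2⟩ := shB1_gl (s₁ := b0 1 / b0 0) (s₂ := b0 2 / b0 0) hκ.ne' hb0' (b1 := b1')
  obtain ⟨u1, u2, u3⟩ := shG_gM (s₁ := b0 1 / b0 0) (s₂ := b0 2 / b0 0) hκ.ne' hb0' G
  rw [gM_own, ← hM] at u1 u2 u3
  have fin : ∀ y : ℝ, |y / κ| ≤ 60000 → |y| ≤ 60000 * κ := by
    intro y hy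
    rw [abs_div, abs_of_pos hκ, div_le_iff₀ hκ] at hy
    exact hy
  have sq1 : |(gl κ (b0 1 / b0 0) (b0 2 / b0 0) b0' 1 / b0' 0) ^ 2| ≤ 16 * 16 := by
    rw [sq]; exact mm t1 t1
  have sq2 : |(gl κ (b0 1 / b0 0) (b0 2 / b0 0) b0' 2 / b0' 0) ^ 2| ≤ 16 * 16 := by
    rw [sq]; exact mm t2 t2
  show max (max |shB1 b0' b1' 1| |shB1 b0' b1' 2|)
    (max (max |(shG b0' G).uu| |(shG b0' G).uv|) |(shG b0' G).vv|) ≤ 60000 * κ
  refine max_le (max_le (fin _ ?_) (fin _ ?_)) (max_le (max_le (fin _ ?_) (fin _ ?_)) (fin _ ?_))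
  · rw [r1]
    exact (abs_sub _ _).trans (by have := mm t1 g3'; linarith)
  · rw [r2]
    exact (abs_sub _ _).trans (by have := mm t2 g3'; linarith)
  · rw [u1, sub_eq_add_neg]
    have q1 := mm t1 yu
    rw [← abs_neg] at q1
    exact (a3 uu q1 (mm sq1 yy)).trans (by norm_num)
  · rw [u2]
    have q1 := mm t2 yu
    have q2 := mm t1 yv
    have q3 := mm (mm two (mm t1 t2)) yy
    refine (abs_add_le _ _).trans ?_
    refine (add_le_add ((abs_sub _ _).trans (add_le_add (abs_sub _ _) le_rfl)) le_rfl).trans ?_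
    linarith
  · rw [u3, sub_eq_add_neg]
    have q1 := mm t2 yv
    rw [← abs_neg] at q1
    exact (a3 vv q1 (mm sq2 yy)).trans (by norm_num)

set_option maxHeartbeats 800000 in
/-- **two bad lines of the sheet which pass each other at the height `0`** -/
theorem two_cl {e : Fin 3 → V3} {c : Ln4} {w : V3} {q : ℝ → V3 → ℝ} {z0 ρ a : ℝ}
    (S : StP e c w q z0 ρ) (hρ : 0 ≤ ρ) {T T' : Ln4} (hT : InSheet T e c w q a z0 ρ)
    (hT' : InSheet T' e c w q a z0 ρ) {b0 b1 b0' b1' : V3} {G G' : QF}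
    (hE : IsExp q e w T z0 ρ b0 b1 G) (hE' : IsExp q e w T' z0 ρ b0' b1' G')
    {δ η : ℝ} (hδ : 0 < δ) (hη : 0 < η) (hδη : 240000 * δ ≤ η) (hη1 : η ≤ 1)
    (hκ : 0 < kap b0 b1 G) (hA : a ≤ δ * (w 0 * kap b0 b1 G))
    (x1 : |rp e w z0 ρ T T' 0 1| ≤ δ) (x2 : |rp e w z0 ρ T T' 0 2| ≤ δ)
    (l2 : |shB1 b0 b1 2| ≤ δ * kap b0 b1 G) (l2' : |shB1 b0' b1' 2| ≤ δ * kap b0' b1' G')
    (hD : η ≤ |det3 (fan (shB0 b0) (scB1 (kap b0 b1 G) b0 b1) (scG (kap b0 b1 G) b0 G) 0)|) :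
    (|vel e w ρ T T' 1| ≤ 10 ^ 15 * δ / η ^ 2 ∧ |vel e w ρ T T' 2| ≤ 10 ^ 15 * δ / η ^ 2) ∨
    (|vel e w ρ T T' 1 - vB1 (scG (kap b0 b1 G) b0 G) (scB1 (kap b0 b1 G) b0 b1)| ≤
        10 ^ 15 * δ / η ^ 2 ∧
      |vel e w ρ T T' 2 - vB2 (scG (kap b0 b1 G) b0 G) (scB1 (kap b0 b1 G) b0 b1)| ≤
        10 ^ 15 * δ / η ^ 2) := by
  have hw0 := S.pos 0
  have hδ1 : δ ≤ 1 := by linarith
  have hwk : 0 < w 0 * kap b0 b1 G := mul_pos hw0 hκ
  have hA' : a / (w 0 * kap b0 b1 G) ≤ δ := (div_le_iff₀ hwk).2 hA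
  obtain ⟨bX, bV⟩ := captured S hρ hT hT' hE hκ (by linarith) le_rfl zero_le_one
    (by linarith : δ ≤ 1 / 40) x1 x2
  obtain ⟨fn1, fn2⟩ := two_lines' S hρ hT hT' hE hκ
  set κ := kap b0 b1 G with hκd
  have N := hE.nrmC S hρ (fun z h1 h2 => (hT z h1 h2).1)
  obtain ⟨g1, g2, -⟩ := N.b1_le
  have hb0 : b0 0 ≠ 0 := by linarith
  have hw : ∀ k, w k ≠ 0 := fun k => (S.pos k).ne'
  obtain ⟨e1, e2, e3⟩ := KapP335.isExp_unique (hw 0) hE' (isExp_move S.ortho hw hE T')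
  subst e3
  have N' := hE'.nrmC S hρ (fun z h1 h2 => (hT' z h1 h2).1)
  obtain ⟨g1', g2', -, -, g3', -⟩ := N'.b1_le
  have hb0' : b0' 0 ≠ 0 := by linarith
  have hκκ : kap b0' b1' G' ≤ 60000 * κ := kap_move' N N' hκ e1 e2
    (fun k => (bX k).trans (by linarith)) bV
  obtain ⟨m1, m2⟩ := gl_move hκ.ne' hb0 b1 G' (rp e w z0 ρ T T' 0) (vel e w ρ T T')
  rw [← e1] at m1
  rw [← e2] at m2
  have sc := N.sc_le hκ
  rw [← hκd] at sc
  obtain ⟨-, c2, c5, c4, yy, yu, yv, uu, uv, vv⟩ := sc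
  obtain ⟨-, q2⟩ := shB1_gl (s₁ := b0 1 / b0 0) (s₂ := b0 2 / b0 0) hκ.ne' hb0' (b1 := b1')
  have i1 : gl κ (b0 1 / b0 0) (b0 2 / b0 0) b1' 2 = scB1 κ b0 b1 2 +
      grd (scG κ b0 G') (sD κ b0 (vel e w ρ T T')) 2 := by rw [m2]
  have i2 : gl κ (b0 1 / b0 0) (b0 2 / b0 0) b0' 2 =
      grd (scG κ b0 G') (sD κ b0 (rp e w z0 ρ T T' 0)) 2 := by
    rw [m1]
    show 0 + grd (scG κ b0 G') (sD κ b0 (rp e w z0 ρ T T' 0)) 2 = _
    rw [zero_add]
  have i3 : b0' 0 = shB0 b0 0 + grd (scG κ b0 G') (sD κ b0 (rp e w z0 ρ T T' 0)) 0 := by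
    have : gl κ (b0 1 / b0 0) (b0 2 / b0 0) b0' 0 = b0' 0 := rfl
    rw [← this, m1]
  have i4 : b1' 0 = scB1 κ b0 b1 0 + grd (scG κ b0 G') (sD κ b0 (vel e w ρ T T')) 0 := by
    have : gl κ (b0 1 / b0 0) (b0 2 / b0 0) b1' 0 = b1' 0 := rfl
    rw [← this, m2]
  rw [i1, i2, i3, i4] at q2
  rw [i4] at g3'
  have n0' : 1 / 4 ≤ |shB0 b0 0 + grd (scG κ b0 G') (sD κ b0 (rp e w z0 ρ T T' 0)) 0| := by
    rw [← i3, abs_of_pos (by linarith)]; linarith
  have l2s : |shB1 b0' b1' 2 / κ| ≤ 60000 * δ := by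
    rw [abs_div, abs_of_pos hκ, div_le_iff₀ hκ]
    calc _ ≤ δ * kap b0' b1' G' := l2'
      _ ≤ δ * (60000 * κ) := mul_le_mul_of_nonneg_left hκκ hδ.le
      _ = _ := by ring
  rw [q2] at l2s
  have l2t : |scB1 κ b0 b1 2| ≤ δ := by
    change |shB1 b0 b1 2 / κ| ≤ δ
    rw [abs_div, abs_of_pos hκ, div_le_iff₀ hκ]
    exact l2
  have hdd : η ≤ |dd (scG κ b0 G') (scB1 κ b0 b1)| := by
    rw [det3_fan0 hb0 _ _ (b1 := b1), abs_div, abs_neg] at hD
    have e5 : |(2 : ℝ) ^ 24| = 2 ^ 24 := abs_of_pos (by positivity)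
    rw [e5, le_div_iff₀ (by positivity)] at hD
    refine le_trans ?_ hD
    have : (1 : ℝ) ≤ 2 ^ 24 := by norm_num
    exact le_mul_of_one_le_right hη.le this
  have key := clusters (N := shB0 b0) (R := scB1 κ b0 b1)
    (X := sD κ b0 (rp e w z0 ρ T T' 0)) (V := sD κ b0 (vel e w ρ T T')) (M := scG κ b0 G')
    (μ := 60000 * δ) (η := η) (by positivity) (by linarith) hη (by linarith) rfl rfl g1
    (c2 0) c5 (by linarith) yy yu yv uu uv vv (fun k => (bX k).trans (by linarith)) bV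
    (fn1.trans (by linarith)) (fn2.trans (by linarith)) n0' g3' l2s hdd
  have hfin : 10 ^ 10 * (60000 * δ) / η ^ 2 ≤ 10 ^ 15 * δ / η ^ 2 := by
    apply div_le_div_of_nonneg_right _ (by positivity)
    linarith
  rcases key with ⟨k1, k2⟩ | ⟨k1, k2⟩
  · exact Or.inl ⟨k1.trans hfin, k2.trans hfin⟩
  · exact Or.inr ⟨k1.trans hfin, k2.trans hfin⟩

end Crest.Agent.R136.Kil327
end

-- ▼ part R136/TnA_327
section

/-!
# R136, U6 thin (helper327): velocities of a near-maximal sheet are spread along the wide axis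

`chop1` : a family of lines in one sheet whose `e 1`-velocities differ by at most `(r / 2) w₁ / ρ` is
covered by `7 / r` sheets of width `r w₁`.
-/

set_option autoImplicit false
set_option linter.unusedVariables false

open Finset

namespace Crest.Agent.R136.Tn327

open Sh605 Sh321

/-- centre line of a piece: `e 1`-component moved by `s + (z - z0) μ` -/
def cmv (e : Fin 3 → V3) (c : Ln4) (s μ z0 : ℝ) : Ln4 where
  p := c.p + (s - z0 * μ) • e 1
  v := c.v + μ • e 1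

theorem cmv_pos (e : Fin 3 → V3) (c : Ln4) (s μ z0 z : ℝ) :
    (cmv e c s μ z0).pos z = c.pos z + (s + (z - z0) * μ) • e 1 := by
  funext i
  simp only [cmv, Ln4.pos, Pi.add_apply, Pi.smul_apply, smul_eq_mul]
  ring

theorem dt_cmv {e : Fin 3 → V3} (he : Ortho e) (c : Ln4) (s μ z0 z : ℝ) (x : V3) (i : Fin 3) :
    dt (e i) (x - (cmv e c s μ z0).pos z) =
      dt (e i) (x - c.pos z) - (if i = 1 then s + (z - z0) * μ else 0) := by
  have h1 : x - (cmv e c s μ z0).pos z = (x - c.pos z) - (s + (z - z0) * μ) • e 1 := by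
    rw [cmv_pos]; abel
  rw [h1, dt_sub, dt_smul, he i 1]
  split_ifs <;> ring

theorem dt_line (u : V3) (t c : Ln4) (z z0 : ℝ) :
    dt u (t.pos z - c.pos z) = dt u (t.pos z0 - c.pos z0) + (z - z0) * dt u (t.v - c.v) := by
  simp only [dt, Ln4.pos, Pi.sub_apply]; ring

open Classical in
/-- **chopping the wide side into pieces which move with the lines** -/
theorem chop1 {A : Finset ℕ} {L : ℕ → Ln4} {e : Fin 3 → V3} {c : Ln4} {w : V3}
    {q : ℝ → V3 → ℝ} {a z0 ρ r0 : ℝ} (hr0 : 0 < r0) (hρ : 0 ≤ ρ) (hS' : ShN e c w q a z0 ρ r0)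
    (hA : ∀ t ∈ A, InSheet (L t) e c w q a z0 ρ) {r : ℝ} (h0 : 0 < r) (h1 : r ≤ 1 / 4)
    (hw : w 2 ≤ r * w 1)
    (hv : ∀ t ∈ A, ∀ t' ∈ A, |dt (e 1) ((L t).v - (L t').v)| * ρ ≤ r / 2 * w 1)
    {N : ℝ} (hN' : ∀ c' : Ln4, ShN e c' ![w 0, r * w 1, w 2] q a z0 ρ r0 →
      ((A.filter fun t => InSheet (L t) e c' ![w 0, r * w 1, w 2] q a z0 ρ).card : ℝ) ≤ N) :
    (A.card : ℝ) ≤ 7 / r * N := by
  have hS : ShC e c w q a z0 ρ r0 := ShN.toC hr0 hS'
  have hN : ∀ c' : Ln4, ShC e c' ![w 0, r * w 1, w 2] q a z0 ρ r0 →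
      ((A.filter fun t => InSheet (L t) e c' ![w 0, r * w 1, w 2] q a z0 ρ).card : ℝ) ≤ N :=
    fun c' h => hN' c' h.toN
  obtain ⟨pa, p0, p2, p1⟩ := hS.pos hr0
  rcases A.eq_empty_or_nonempty with rfl | ⟨t1, ht1⟩
  · -- the empty family
    have hN0 : (0 : ℝ) ≤ N ∨ N < 0 := le_or_gt 0 N
    rcases hN0 with hN0 | hN0
    · simp only [card_empty, Nat.cast_zero]; positivity
    · exfalso
      -- the piece around the centre is a sheet
      have hp : ShC e (cmv e c 0 0 z0) ![w 0, r * w 1, w 2] q a z0 ρ r0 := by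
        refine hS.sub hr0 le_rfl le_rfl ?_ hS.r0_le hS.w0_ge hS.w0_le hw ?_ ?_
        · intro z hz hz' x hx i
          have := hx i
          rw [dt_cmv hS.ortho] at this
          have h2 : (if i = 1 then (0 : ℝ) + (z - z0) * 0 else 0) = 0 := by split_ifs <;> ring
          rw [h2, sub_zero] at this
          refine this.trans ?_
          fin_cases i
          · exact le_rfl
          · show 2 * (r * w 1) ≤ 2 * w 1
            nlinarith
          · exact le_rfl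
        · show w 0 * (r * w 1) ≤ w 0 * w 1
          nlinarith [mul_pos p0 p1]
        · exact le_rfl
      have := hN _ hp
      have h3 : (0 : ℝ) ≤ ((((∅ : Finset ℕ).filter fun t => InSheet (L t) e (cmv e c 0 0 z0)
        ![w 0, r * w 1, w 2] q a z0 ρ).card : ℕ) : ℝ) := Nat.cast_nonneg _
      linarith
  -- cells
  set μ : ℝ := dt (e 1) ((L t1).v - c.v) with hμ
  set h : ℝ := r / 2 * w 1 with hh
  have hpos : 0 < h := by positivity
  set ps : ℕ → ℝ := fun t => dt (e 1) ((L t).pos z0 - c.pos z0) with hps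
  set k : ℕ → ℤ := fun t => ⌊ps t / h⌋ with hk
  have hzz : z0 ≤ z0 + ρ := by linarith
  have hps1 : ∀ t ∈ A, |ps t| ≤ w 1 := fun t ht => (hA t ht z0 le_rfl hzz).1 1
  -- the lines of one cell stay in one piece
  have hin : ∀ t ∈ A, ∀ z, z0 ≤ z → z ≤ z0 + ρ →
      |dt (e 1) ((L t).pos z - c.pos z) - ((k t : ℝ) * h + (z - z0) * μ)| ≤ r * w 1 := by
    intro t ht z hz hz'
    have e1 := dt_line (e 1) (L t) c z z0
    have e2 : dt (e 1) ((L t).v - c.v) - μ = dt (e 1) ((L t).v - (L t1).v) := by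
      rw [hμ]; simp only [dt, Pi.sub_apply]; ring
    have e3 : dt (e 1) ((L t).pos z - c.pos z) - ((k t : ℝ) * h + (z - z0) * μ) =
        (ps t - (k t : ℝ) * h) + (z - z0) * dt (e 1) ((L t).v - (L t1).v) := by
      rw [e1, ← e2]; simp only [hps]; ring
    have f1 : (k t : ℝ) ≤ ps t / h := Int.floor_le _
    have f2 : ps t / h < k t + 1 := Int.lt_floor_add_one _
    rw [le_div_iff₀ hpos] at f1
    rw [div_lt_iff₀ hpos] at f2
    have f3 : |ps t - (k t : ℝ) * h| ≤ h := by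
      rw [abs_le]; constructor <;> linarith
    have f4 : |(z - z0) * dt (e 1) ((L t).v - (L t1).v)| ≤ h := by
      rw [abs_mul, abs_of_nonneg (by linarith : 0 ≤ z - z0)]
      calc (z - z0) * |dt (e 1) ((L t).v - (L t1).v)|
          ≤ ρ * |dt (e 1) ((L t).v - (L t1).v)| :=
            mul_le_mul_of_nonneg_right (by linarith) (abs_nonneg _)
        _ = |dt (e 1) ((L t).v - (L t1).v)| * ρ := mul_comm _ _
        _ ≤ h := hv t ht t1 ht1
    rw [e3]
    have := (abs_add_le (ps t - (k t : ℝ) * h) ((z - z0) * dt (e 1) ((L t).v - (L t1).v))).trans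
      (add_le_add f3 f4)
    refine this.trans (le_of_eq ?_)
    rw [hh]; ring
  -- one cell
  have hcell : ∀ j ∈ A.image k, ((A.filter fun t => k t = j).card : ℝ) ≤ N := by
    intro j hj
    obtain ⟨t2, ht2, rfl⟩ := mem_image.1 hj
    have hp : ShC e (cmv e c ((k t2 : ℝ) * h) μ z0) ![w 0, r * w 1, w 2] q a z0 ρ r0 := by
      refine hS.sub hr0 le_rfl le_rfl ?_ hS.r0_le hS.w0_ge hS.w0_le hw ?_ ?_
      · intro z hz hz' x hx i
        have hi := hx i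
        rw [dt_cmv hS.ortho] at hi
        fin_cases i
        · simpa [dbl3] using hi
        · simp only [Fin.mk_one, if_true] at hi
          have h5 := hin t2 ht2 z hz hz'
          have h6 := (hA t2 ht2 z hz hz').1 1
          have h7 : |dt (e 1) (x - c.pos z) - ((k t2 : ℝ) * h + (z - z0) * μ)| ≤
              2 * (r * w 1) := hi
          show |dt (e 1) (x - c.pos z)| ≤ 2 * w 1
          have h8 : |(k t2 : ℝ) * h + (z - z0) * μ| ≤ w 1 + r * w 1 := by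
            rw [abs_le] at h5 h6 ⊢
            constructor <;> linarith [h5.1, h5.2, h6.1, h6.2]
          rw [abs_le] at h7 h8 ⊢
          have h9 : r * w 1 ≤ 1 / 4 * w 1 := mul_le_mul_of_nonneg_right h1 p1.le
          constructor <;> linarith [h7.1, h7.2, h8.1, h8.2]
        · simpa [dbl3] using hi
      · show w 0 * (r * w 1) ≤ w 0 * w 1
        have h9 : r * w 1 ≤ w 1 := by nlinarith
        exact mul_le_mul_of_nonneg_left h9 p0.le
      · exact le_rfl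
    refine le_trans ?_ (hN _ hp)
    refine Nat.cast_le.2 (card_le_card ?_)
    intro t ht
    rw [mem_filter] at ht ⊢
    refine ⟨ht.1, fun z hz hz' => ?_⟩
    have h5 := hin t ht.1 z hz hz'
    have h6 := hA t ht.1 z hz hz'
    refine ⟨fun i => ?_, h6.2⟩
    rw [dt_cmv hS.ortho]
    fin_cases i
    · simpa using h6.1 0
    · simp only [Fin.mk_one, if_true]
      rw [← ht.2]
      exact h5
    · simpa using h6.1 2
  -- number of cells
  have hNn : 0 ≤ N := by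
    have := hcell (k t1) (mem_image_of_mem _ ht1)
    exact le_trans (Nat.cast_nonneg _) this
  have hsub : A.image k ⊆ Finset.Icc (-(⌈2 / r⌉ + 1)) ⌈2 / r⌉ := by
    intro j hj
    obtain ⟨t, ht, rfl⟩ := mem_image.1 hj
    have h5 := hps1 t ht
    rw [abs_le] at h5
    have e4 : w 1 / h = 2 / r := by rw [hh]; field_simp
    have h6 : ps t / h ≤ 2 / r := by rw [← e4]; exact div_le_div_of_nonneg_right h5.2 hpos.le
    have h7 : -(2 / r) ≤ ps t / h := by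
      rw [← e4, ← neg_div]; exact div_le_div_of_nonneg_right h5.1 hpos.le
    rw [Finset.mem_Icc]
    constructor
    · rw [hk]
      refine Int.le_floor.2 ?_
      push_cast
      have := Int.le_ceil (2 / r)
      linarith
    · refine Int.floor_le_iff.2 ?_
      have := Int.le_ceil (2 / r)
      linarith
  have hcard : ((A.image k).card : ℝ) ≤ 7 / r := by
    have h5 := card_le_card hsub
    rw [Int.card_Icc] at h5
    have hr2 : 0 < 2 / r := by positivity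
    have h6 : (0 : ℤ) ≤ ⌈2 / r⌉ := Int.ceil_nonneg hr2.le
    have h7 : (((⌈2 / r⌉ + 1 - -(⌈2 / r⌉ + 1)).toNat : ℕ) : ℝ) = 2 * (⌈2 / r⌉ : ℝ) + 2 := by
      have h8 : (((⌈2 / r⌉ + 1 - -(⌈2 / r⌉ + 1)).toNat : ℕ) : ℤ) = 2 * ⌈2 / r⌉ + 2 := by
        rw [Int.toNat_of_nonneg (by linarith)]; ring
      exact_mod_cast h8
    have h9 : ((A.image k).card : ℝ) ≤ 2 * (⌈2 / r⌉ : ℝ) + 2 := by
      rw [← h7]; exact_mod_cast h5
    have h10 := Int.ceil_lt_add_one (2 / r)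
    have h11 : 4 ≤ 1 / r := by
      rw [le_div_iff₀ h0]; linarith
    have h12 : 7 / r = 2 * (2 / r) + 3 * (1 / r) := by ring
    rw [h12]
    linarith
  calc (A.card : ℝ) = ((∑ j ∈ A.image k, (A.filter fun t => k t = j).card : ℕ) : ℝ) := by
        rw [card_eq_sum_card_image k A]
    _ = ∑ j ∈ A.image k, ((A.filter fun t => k t = j).card : ℝ) := by push_cast; rfl
    _ ≤ ∑ j ∈ A.image k, N := sum_le_sum hcell
    _ = (A.image k).card * N := by rw [sum_const, nsmul_eq_mul]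
    _ ≤ 7 / r * N := mul_le_mul_of_nonneg_right hcard hNn

end Crest.Agent.R136.Tn327
end

-- ▼ part R136/TnB_327
section

/-!
# R136, U6 thin (helper327), part 2: non-concentration of the `e 1`-velocities, sequence form

`GeoS` : the geometry of sheets with the size `a w₂ w₁ · rewards`; `cls` : the class of an incidence;
`nonconc` : a part of a class whose `e 1`-velocities lie in an interval of length `(r / 2) w₁ / ρ` has at
most `d^-ε r^(q 1)` times the number of lines of the class.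
-/

set_option autoImplicit false
set_option linter.unusedVariables false

open Finset Filter Topology

namespace Crest.Agent.R136.Tn327

open Crest.Agent.R138.Ex926 (Base U)
open Crest.Agent.R138.Mk163 (zc zl rho alive own Negl)
open Crest.Agent.R138.Dp76 (dpow_pos dpow_add dpow_le)
open Crest.Agent.R138.Ps926 (dpow_small)
open Crest.Agent.R136.MkA627 Crest.Agent.R136.Sh605 Crest.Agent.R136.K4 Crest.Agent.R136.Sh321

/-- a geometry of sheets with rewards `q` -/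
structure GeoS (G : Geo Plk4 (Fin 3)) (L : ℕ → ℕ → Ln4) (r0 : ℕ → ℝ) (q : Fin 3 → ℝ) : Prop where
  mem : ∀ n i J s t, G.mem n i J s t ↔ InSheet (L n t) s.e s.c s.w s.q s.a (zl i J) (rho i)
  adm : ∀ n i J s, G.adm n i J s → ShN s.e s.c s.w s.q s.a (zl i J) (rho i) (r0 n)
  val : ∀ n i J s, G.val n i J s = s.a * s.w 2 * s.w 1 *
    ((s.a / rho i) ^ q 0 * (s.w 1 / rho i) ^ q 1 * (s.w 2 / rho i) ^ q 2)

open Classical in
/-- lines of the class of the incidence `x` at level `u` -/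
noncomputable def cls (I : ℕ → Finset (ℕ × ℝ)) (lev : ℕ → ℚ → ℕ) (f : ℕ → ℚ → ℕ → ℤ → ℕ) (n : ℕ)
    (u : ℚ) (x : ℕ × ℝ) : Finset ℕ :=
  (alive (I n) (lev n u) (zc (lev n u) x.2)).filter fun t =>
    f n u t (zc (lev n u) x.2) = f n u x.1 (zc (lev n u) x.2)

/-- the mark of the incidence `x` at level `u` -/
noncomputable def mk (lev : ℕ → ℚ → ℕ) (f : ℕ → ℚ → ℕ → ℤ → ℕ) (b : ℕ → ℚ → ℕ → Plk4) (n : ℕ) (u : ℚ)
    (x : ℕ × ℝ) : Plk4 := b n u (f n u x.1 (zc (lev n u) x.2))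

/-- the piece of `s` of relative width `r` around `c'` -/
def pc (s : Plk4) (r : ℝ) (c' : Ln4) : Plk4 :=
  { s with c := c', w := ![s.w 0, r * s.w 1, s.w 2] }

theorem rho_pos' (i : ℕ) : 0 < rho i := by unfold rho; positivity

theorem val_pc {G : Geo Plk4 (Fin 3)} {L : ℕ → ℕ → Ln4} {r0 : ℕ → ℝ} {q : Fin 3 → ℝ}
    (hG : GeoS G L r0 q) (n i : ℕ) (J : ℤ) (s : Plk4) {r : ℝ} (hr : 0 < r) (c' : Ln4)
    (h1 : 0 < s.w 1) : G.val n i J (pc s r c') = r * r ^ q 1 * G.val n i J s := by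
  rw [hG.val, hG.val]
  have e1 : r * s.w 1 / rho i = r * (s.w 1 / rho i) := by ring
  have h2 : 0 ≤ s.w 1 / rho i := div_nonneg h1.le (rho_pos' i).le
  show s.a * s.w 2 * (r * s.w 1) *
    ((s.a / rho i) ^ q 0 * (r * s.w 1 / rho i) ^ q 1 * (s.w 2 / rho i) ^ q 2) = _
  rw [e1, Real.mul_rpow hr.le h2]
  ring

theorem mem_alive_of {I : Finset (ℕ × ℝ)} {i : ℕ} {x : ℕ × ℝ} (hx : x ∈ I) :
    x.1 ∈ alive I i (zc i x.2) := by
  classical
  unfold alive
  exact mem_image.2 ⟨x, mem_filter.2 ⟨hx, rfl⟩, rfl⟩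

open Classical in
/-- **non-concentration of the velocities along the wide axis.** -/
theorem nonconc {B : Base} {I : ℕ → Finset (ℕ × ℝ)} {G : Geo Plk4 (Fin 3)} {lev : ℕ → ℚ → ℕ}
    {A : ℕ → ℝ} {c Λ : ℝ → ℝ} {τ : Fin 3 → ℝ → ℝ} {f : ℕ → ℚ → ℕ → ℤ → ℕ} {b : ℕ → ℚ → ℕ → Plk4}
    {vm : ℕ → ℚ → ℝ} {w : Fin 3 → ℕ → ℚ → ℝ} {L : ℕ → ℕ → Ln4} {r0 : ℕ → ℝ} {q : Fin 3 → ℝ}
    (hM : MkA B I G lev A c Λ τ f b vm w) (hG : GeoS G L r0 q) (hr0 : ∀ n, 0 < r0 n)
    {u : ℚ} (hu0 : 0 ≤ u) (hu1 : u ≤ 1) {ε : ℝ} (hε : 0 < ε) :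
    ∀ᶠ n in (U : Filter ℕ), ∀ x ∈ I n, ∀ A' ⊆ cls I lev f n u x, ∀ r : ℝ, 0 < r → r ≤ 1 / 4 →
      (mk lev f b n u x).w 2 ≤ r * (mk lev f b n u x).w 1 →
      (∀ c' : Ln4, ShN (mk lev f b n u x).e c'
          ![(mk lev f b n u x).w 0, r * (mk lev f b n u x).w 1, (mk lev f b n u x).w 2]
          (mk lev f b n u x).q (mk lev f b n u x).a (zl (lev n u) (zc (lev n u) x.2))
          (rho (lev n u)) (r0 n) →
        G.adm n (lev n u) (zc (lev n u) x.2) (pc (mk lev f b n u x) r c')) →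
      (∀ t ∈ A', ∀ t' ∈ A', |dt ((mk lev f b n u x).e 1) ((L n t).v - (L n t').v)| *
        rho (lev n u) ≤ r / 2 * (mk lev f b n u x).w 1) →
      (A'.card : ℝ) ≤ B.d n ^ (-ε) * r ^ q 1 * ((cls I lev f n u x).card : ℝ) := by
  have h4 : 0 < ε / 4 := by positivity
  filter_upwards [hM.dmax u hu0 hu1 (ε / 4) h4, hM.near u hu0 hu1 (ε / 4) h4,
    hM.mark u hu0 hu1, dpow_small B (show 0 < ε / 4 from h4) (show (0 : ℝ) < 1 / 7 by norm_num),
    hM.vpos u hu0 hu1]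
    with n hd hn hm h7 hvp x hx A' hA' r h0 h1 hw hadm hv
  set i := lev n u with hi
  set J := zc i x.2 with hJ
  set s := mk lev f b n u x with hs
  have hxa : x.1 ∈ alive (I n) i J := mem_alive_of hx
  have hmx := hm J x.1 hxa
  have hsb : b n u (f n u x.1 J) = s := rfl
  rw [hsb] at hmx
  have hS := hG.adm _ _ _ _ hmx.2.1
  obtain ⟨pa, p0, p2, p1⟩ := (ShN.toC (hr0 n) hS).pos (hr0 n)
  -- lines of the class
  have hcl : ∀ t ∈ A', t ∈ alive (I n) i J ∧ f n u t J = f n u x.1 J := by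
    intro t ht
    have := hA' ht
    simp only [cls, mem_filter] at this
    exact this
  have hin : ∀ t ∈ A', InSheet (L n t) s.e s.c s.w s.q s.a (zl i J) (rho i) := by
    intro t ht
    have h5 := (hm J t (hcl t ht).1).1
    rw [(hcl t ht).2, hsb] at h5
    exact (hG.mem _ _ _ _ _).1 h5
  -- bound of one piece
  set N : ℝ := B.d n ^ (-(ε / 4)) * ampA B A c n u * (r * r ^ q 1 * vm n u) with hN
  have key := chop1 (hr0 n) (rho_pos' i).le hS hin h0 h1 hw hv (N := N) (by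
    intro c' hc'
    have h5 := hd J (pc s r c') (hadm c' hc')
    rw [val_pc hG n i J s h0 c' p1, hmx.2.2.1] at h5
    refine le_trans ?_ h5
    refine Nat.cast_le.2 (card_le_card ?_)
    intro t ht
    rw [mem_filter] at ht ⊢
    exact ⟨(hcl t ht.1).1, (hG.mem _ _ _ _ _).2 ht.2⟩)
  have hnx := hn J x.1 hxa
  have hcard : (((alive (I n) i J).filter fun t => f n u t J = f n u x.1 J).card : ℝ) =
      ((cls I lev f n u x).card : ℝ) := rfl
  rw [hcard] at hnx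
  -- arithmetic
  have dp := dpow_pos B n
  have hrq : 0 < r ^ q 1 := Real.rpow_pos_of_pos h0 _
  have e1 : 7 / r * N = 7 * (B.d n ^ (-(ε / 4)) * r ^ q 1 * (ampA B A c n u * vm n u)) := by
    rw [hN]; field_simp
  rw [e1] at key
  have h8 : 7 ≤ B.d n ^ (-(ε / 4)) := by
    have h9 : B.d n ^ (ε / 4) * 7 ≤ 1 := by linarith
    have h10 : B.d n ^ (-(ε / 4)) * B.d n ^ (ε / 4) = 1 := by
      rw [← dpow_add]; simp
    calc (7 : ℝ) = B.d n ^ (-(ε / 4)) * (B.d n ^ (ε / 4) * 7) := by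
          rw [← mul_assoc, h10, one_mul]
      _ ≤ B.d n ^ (-(ε / 4)) * 1 := mul_le_mul_of_nonneg_left h9 (dp _).le
      _ = _ := mul_one _
  have c0 : (0 : ℝ) ≤ ((cls I lev f n u x).card : ℝ) := Nat.cast_nonneg _
  calc (A'.card : ℝ) ≤ 7 * (B.d n ^ (-(ε / 4)) * r ^ q 1 * (ampA B A c n u * vm n u)) := key
    _ ≤ 7 * (B.d n ^ (-(ε / 4)) * r ^ q 1 *
        (B.d n ^ (-(ε / 4)) * ((cls I lev f n u x).card : ℝ))) := by
        have := mul_le_mul_of_nonneg_left hnx (mul_nonneg (dp (-(ε / 4))).le hrq.le)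
        linarith
    _ ≤ B.d n ^ (-(ε / 4)) * (B.d n ^ (-(ε / 4)) * r ^ q 1 *
        (B.d n ^ (-(ε / 4)) * ((cls I lev f n u x).card : ℝ))) := by
        refine mul_le_mul_of_nonneg_right h8 ?_
        have := (dp (-(ε / 4))).le
        positivity
    _ = (B.d n ^ (-(ε / 4)) * B.d n ^ (-(ε / 4)) * B.d n ^ (-(ε / 4))) * r ^ q 1 *
        ((cls I lev f n u x).card : ℝ) := by ring
    _ ≤ B.d n ^ (-ε) * r ^ q 1 * ((cls I lev f n u x).card : ℝ) := by
        refine mul_le_mul_of_nonneg_right (mul_le_mul_of_nonneg_right ?_ hrq.le) c0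
        rw [← dpow_add, ← dpow_add]
        exact dpow_le B n (by linarith)

end Crest.Agent.R136.Tn327
end

-- ▼ part R136/Kil3_327
section

/-!
# R136, U6 thin (helper327): the branch `θ1 = 2 θ2` is impossible, sequences

* `exists_near` : pigeonhole, a positive part of the lines of a sheet are pairwise near each other;
* `SmP` : smallness of the sheet along its line;
* **`kill`** : small rotation along the second axis at all lines of all classes of one level is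
  impossible.
-/

set_option autoImplicit false
set_option linter.unusedVariables false

open Finset Filter Topology

namespace Crest.Agent.R136.Kil327

open Crest.Agent.R138.Ex926 (Base U)
open Crest.Agent.R138.Mk163 (zc zl rho alive own Negl)
open Crest.Agent.R138.Dp76 (dpow_pos dpow_add dpow_le dpow_le_one)
open Crest.Agent.R138.ArgM163 (ev_const ev_const_mul)
open Crest.Agent.R136.MkA627 Crest.Agent.R136.K4
open Crest.Agent.R136.Sh605 Crest.Agent.R136.Tl102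
open Crest.Agent.R136.Thn768 (P4)
open Crest.Agent.R136.KapP335 (DetP detP_iff)
open Crest.Agent.R136.Tn327 (GeoS cls mk mem_alive_of nonconc)

/-- lateral coordinate of a line at a height -/
noncomputable def lc' (e : Fin 3 → V3) (c : Ln4) (w : V3) (z : ℝ) (t : Ln4) (k : Fin 3) : ℝ :=
  dt (e k) (t.pos z - c.pos z) / w k

theorem rp_eq_lc {e : Fin 3 → V3} {c : Ln4} {w : V3} (z0 ρ ζ : ℝ) (T T' : Ln4) (k : Fin 3) :
    rp e w z0 ρ T T' ζ k = lc' e c w (z0 + ρ * ζ) T' k - lc' e c w (z0 + ρ * ζ) T k := by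
  simp only [rp, pc, lc', dt, Pi.sub_apply]
  ring




end Crest.Agent.R136.Kil327
end

-- ▼ part R136/Kil5_327
section

/-!
# R136, U6 thin (helper327): the bad lines of one sheet are few

* `ShN.scale` : the plank scaled by `λ ≤ 1/2` around a line of the sheet is a sheet;
* `in_scaled` : two lines of the sheet which are `λ / 73`-near in lateral position and velocity;
* **`bad_card`** : number of the bad lines of one sheet;
* `negl_of_cls` : a power small part of the lines of every class is negligible.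
-/

set_option autoImplicit false
set_option linter.unusedVariables false

open Finset Filter Topology

namespace Crest.Agent.R136.Kil327

open Crest.Agent.R138.Ex926 (Base U)
open Crest.Agent.R138.Mk163 (zc zl rho alive own Negl)
open Crest.Agent.R138.Dp76 (dpow_pos dpow_add dpow_le dpow_le_one)
open Crest.Agent.R138.Ps627 (card_filter_le_mul mul_card_filter_le)
open Crest.Agent.R138.MkRef627 (lc kc card_class)
open Crest.Agent.R138.ArgM163 (ev_const ev_const_mul)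
open Crest.Agent.R136.MkA627 Crest.Agent.R136.K4
open Crest.Agent.R136.Sh605 Crest.Agent.R136.Tl102
open Crest.Agent.R136.Arc880 (det3)
open Crest.Agent.R136.Tn327 (cls mk)

/-- **the scaled plank** -/
theorem shN_scale {e : Fin 3 → V3} {c c' : Ln4} {w : V3} {q : ℝ → V3 → ℝ} {z0 ρ a r0 lam : ℝ}
    (h : ShN e c w q a z0 ρ r0) (hw : ∀ k, 0 < w k) (hl : 0 < lam) (hl2 : lam ≤ 1 / 2)
    (ha : a ≤ lam * w 0) (hc : ∀ z, z0 ≤ z → z ≤ z0 + ρ → InK e c w z (c'.pos z)) :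
    ShN e c' (fun k => lam * w k) q a z0 ρ r0 := by
  have hin : ∀ z, z0 ≤ z → z ≤ z0 + ρ → ∀ x, InK e c' (dbl3 (fun k => lam * w k)) z x →
      InK e c (dbl3 w) z x := by
    intro z h1 h2 x hx i
    have e1 : dt (e i) (x - c.pos z) = dt (e i) (x - c'.pos z) + dt (e i) (c'.pos z - c.pos z) := by
      simp only [dt, Pi.sub_apply]; ring
    have h3 : |dt (e i) (x - c'.pos z)| ≤ 2 * (lam * w i) := hx i
    have h4 := hc z h1 h2 i
    have h5 : lam * w i ≤ 1 / 2 * w i := mul_le_mul_of_nonneg_right hl2 (hw i).le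
    show |dt (e i) (x - c.pos z)| ≤ 2 * w i
    rw [e1]
    exact (abs_add_le _ _).trans (by linarith)
  have hdiv : ∀ i, lam * w 0 / (lam * w i) = w 0 / w i := fun i =>
    mul_div_mul_left _ _ hl.ne'
  refine ⟨h.ortho, h.isQ, ha, ?_, ?_, h.r0_le, ?_, ?_, ?_⟩
  · exact mul_le_mul_of_nonneg_left h.w0_le hl.le
  · exact mul_le_mul_of_nonneg_left h.w_le hl.le
  · intro z h1 h2 x t ht k1 k2
    exact h.st0 z h1 h2 x t ht (hin z h1 h2 _ k1) (hin z h1 h2 _ k2)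
  · intro z h1 h2 x t ht k1 k2
    have := h.sl1 z h1 h2 x t ht (hin z h1 h2 _ k1) (hin z h1 h2 _ k2)
    simp only [hdiv]
    exact this
  · intro z h1 h2 x t ht k1 k2
    have := h.sl2 z h1 h2 x t ht (hin z h1 h2 _ k1) (hin z h1 h2 _ k2)
    simp only [hdiv]
    exact this

/-- lines near each other lie in the scaled plank -/
theorem in_scaled {e : Fin 3 → V3} {c : Ln4} {w : V3} {q : ℝ → V3 → ℝ} {z0 ρ a : ℝ}
    (S : StP e c w q z0 ρ) (hρ : 0 < ρ) {T T' : Ln4} (hT : InSheet T e c w q a z0 ρ)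
    (hT' : InSheet T' e c w q a z0 ρ) {b0 b1 : V3} {G : QF}
    (hE : IsExp q e w T z0 ρ b0 b1 G) {r om lam : ℝ} (x1 : |rp e w z0 ρ T T' 0 1| ≤ r)
    (x2 : |rp e w z0 ρ T T' 0 2| ≤ r) (v1 : |vel e w ρ T T' 1| ≤ om)
    (v2 : |vel e w ρ T T' 2| ≤ om) (hr : r + om ≤ 1 / 8) (ha : a / w 0 ≤ r + om)
    (hl : 73 * (r + om) ≤ lam) : InSheet T' e T (fun k => lam * w k) q a z0 ρ := by
  intro z hz hz'
  refine ⟨?_, (hT' z hz hz').2⟩
  have hr0 : 0 ≤ r := (abs_nonneg _).trans x1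
  have ho0 : 0 ≤ om := (abs_nonneg _).trans v1
  obtain ⟨ζ, hζ⟩ : ∃ ζ, ζ = (z - z0) / ρ := ⟨_, rfl⟩
  have h0 : 0 ≤ ζ := by rw [hζ]; exact div_nonneg (by linarith) hρ.le
  have h1 : ζ ≤ 1 := by rw [hζ, div_le_one hρ]; linarith
  have hzz : z0 + ρ * ζ = z := by rw [hζ]; field_simp; ring
  have lat : ∀ k, |rp e w z0 ρ T T' 0 k| ≤ r → |vel e w ρ T T' k| ≤ om →
      |rp e w z0 ρ T T' ζ k| ≤ r + om := by
    intro k k1 k2
    rw [rp_affine e w z0 ρ T T' 0 ζ k, sub_zero]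
    refine (abs_add_le _ _).trans (add_le_add k1 ?_)
    rw [abs_mul, abs_of_nonneg h0]
    calc ζ * |vel e w ρ T T' k| ≤ 1 * |vel e w ρ T T' k| :=
          mul_le_mul_of_nonneg_right h1 (abs_nonneg _)
      _ ≤ om := by rw [one_mul]; exact k2
  have l1 := lat 1 x1 v1
  have l2 := lat 2 x2 v2
  have l0 := (Cpp565.near_cap S hρ.le hT hT' hE h0 h1 hr l1 l2).1
  have all : ∀ k, |rp e w z0 ρ T T' ζ k| ≤ lam := by
    intro k
    fin_cases k
    · exact l0.trans (by linarith)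
    · exact l1.trans (by linarith)
    · exact l2.trans (by linarith)
  intro i
  have h5 := all i
  have e1 : rp e w z0 ρ T T' ζ i = dt (e i) (T'.pos z - T.pos z) / w i := by
    simp only [rp, pc, hzz]
  rw [e1, abs_div, abs_of_pos (S.pos i), div_le_iff₀ (S.pos i)] at h5
  exact h5

open Classical in
/-- **the bad lines of a sheet are few** -/
theorem bad_card {e : Fin 3 → V3} {c : Ln4} {w : V3} {q : ℝ → V3 → ℝ} {z0 ρ a : ℝ}
    (S : StP e c w q z0 ρ) (hq : IsQ q) (hρ : 0 < ρ) {L : ℕ → Ln4} {A Bd : Finset ℕ}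
    (hBA : Bd ⊆ A) (hA : ∀ t ∈ A, InSheet (L t) e c w q a z0 ρ) {δ η lam N : ℝ}
    (hδ : 0 < δ) (hη : 0 < η) (hδη : 240000 * δ ≤ η) (hη1 : η ≤ 1)
    (hB : ∀ t ∈ Bd, ∀ b0 b1 G, IsExp q e w (L t) z0 ρ b0 b1 G → 0 < kap b0 b1 G ∧
      a ≤ δ * (w 0 * kap b0 b1 G) ∧ |shB1 b0 b1 2| ≤ δ * kap b0 b1 G ∧
      η ≤ |det3 (fan (shB0 b0) (scB1 (kap b0 b1 G) b0 b1) (scG (kap b0 b1 G) b0 G) 0)|)
    (hl : 73 * (δ + 2 * (10 ^ 15 * δ / η ^ 2)) ≤ lam) (hl1 : lam ≤ 1 / 2) (hN0 : 0 ≤ N)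
    (hN : ∀ t ∈ A, ((A.filter fun t' => InSheet (L t') e (L t) (fun k => lam * w k) q a z0 ρ).card :
      ℝ) ≤ N) : (Bd.card : ℝ) ≤ 18 / δ ^ 2 * N := by
  have hδ1 : δ ≤ 1 / 240000 := by linarith
  obtain ⟨om, hom⟩ : ∃ om, om = 10 ^ 15 * δ / η ^ 2 := ⟨_, rfl⟩
  rw [← hom] at hl
  have hom0 : 0 < om := by rw [hom]; positivity
  have hδom : 12 * δ ≤ om := by
    rw [hom, le_div_iff₀ (by positivity)]
    have h1 : η ^ 2 ≤ 1 := pow_le_one₀ hη.le hη1
    have h2 : 12 * δ * η ^ 2 ≤ 12 * δ * 1 := mul_le_mul_of_nonneg_left h1 (by positivity)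
    linarith
  -- lines of one cell and one cluster
  have clus : ∀ P ⊆ A, ∀ T : Ln4, ∀ m1 m2 : ℝ,
      (∀ t ∈ P, ∀ t' ∈ P, |rp e w z0 ρ (L t) (L t') 0 1| ≤ δ ∧ |rp e w z0 ρ (L t) (L t') 0 2| ≤ δ) →
      (∀ t ∈ P, a / w 0 ≤ 13 * δ) →
      (∀ t ∈ P, |vel e w ρ T (L t) 1 - m1| ≤ om ∧ |vel e w ρ T (L t) 2 - m2| ≤ om) →
      (P.card : ℝ) ≤ N := by
    intro P hP T m1 m2 hx ha hv
    rcases P.eq_empty_or_nonempty with rfl | ⟨t1, ht1⟩
    · simpa using hN0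
    refine le_trans ?_ (hN t1 (hP ht1))
    refine Nat.cast_le.2 (card_le_card fun t ht => ?_)
    rw [mem_filter]
    refine ⟨hP ht, ?_⟩
    obtain ⟨b0, b1, G, hE⟩ := exists_isExp hq e (S.pos 0).ne' (L t1) z0 ρ
    have hvv : ∀ k (m : ℝ), |vel e w ρ T (L t) k - m| ≤ om → |vel e w ρ T (L t1) k - m| ≤ om →
        |vel e w ρ (L t1) (L t) k| ≤ 2 * om := by
      intro k m k1 k2
      have e1 : vel e w ρ (L t1) (L t) k = (vel e w ρ T (L t) k - m) -
          (vel e w ρ T (L t1) k - m) := by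
        simp only [vel, dt, Pi.sub_apply]; ring
      rw [e1]
      exact (abs_sub _ _).trans (by linarith)
    have ha1 := ha t1 ht1
    exact in_scaled S hρ (hA t1 (hP ht1)) (hA t (hP ht)) hE (hx t1 ht1 t ht).1 (hx t1 ht1 t ht).2
      (hvv 1 m1 (hv t ht).1 (hv t1 ht1).1) (hvv 2 m2 (hv t ht).2 (hv t1 ht1).2)
      (by linarith) (by linarith) hl
  -- thickness
  have hthick : ∀ t ∈ Bd, a / w 0 ≤ 13 * δ := by
    intro t ht
    obtain ⟨b0, b1, G, hE⟩ := exists_isExp hq e (S.pos 0).ne' (L t) z0 ρ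
    obtain ⟨k0, ka, -, -⟩ := hB t ht b0 b1 G hE
    have Nn := hE.nrmC S hρ.le (fun z h1 h2 => (hA t (hBA ht) z h1 h2).1)
    have h13 := kap_le Nn
    rw [div_le_iff₀ (S.pos 0)]
    refine ka.trans ?_
    have h2 : w 0 * kap b0 b1 G ≤ w 0 * 13 := mul_le_mul_of_nonneg_left h13 (S.pos 0).le
    have h3 := mul_le_mul_of_nonneg_left h2 hδ.le
    linarith
  -- cells
  obtain ⟨F, hF⟩ : ∃ F : ℕ → ℤ × ℤ, F = fun t =>
    (⌊lc' e c w z0 (L t) 1 / δ⌋, ⌊lc' e c w z0 (L t) 2 / δ⌋) := ⟨_, rfl⟩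
  obtain ⟨Z, hZ⟩ : ∃ Z : Finset ℤ, Z = Icc (-⌈1 / δ⌉) ⌈1 / δ⌉ := ⟨_, rfl⟩
  have hδi : 3 ≤ 1 / δ := by
    rw [le_div_iff₀ hδ]; linarith
  have hZc : (Z.card : ℝ) ≤ 3 / δ := by
    have h1 := Int.ceil_lt_add_one (1 / δ)
    have h0 : (0 : ℤ) ≤ ⌈1 / δ⌉ := Int.ceil_nonneg (by linarith)
    have h2 : (Z.card : ℤ) = 2 * ⌈1 / δ⌉ + 1 := by
      rw [hZ, Int.card_Icc, Int.toNat_of_nonneg (by linarith)]; ring
    have h3 : (Z.card : ℝ) = 2 * (⌈1 / δ⌉ : ℝ) + 1 := by exact_mod_cast h2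
    have h4 : 3 / δ = 3 * (1 / δ) := by ring
    rw [h3, h4]
    linarith
  have hmem : ∀ t ∈ A, ∀ k, ⌊lc' e c w z0 (L t) k / δ⌋ ∈ Z := by
    intro t ht k
    have h3 := (hA t ht z0 le_rfl (by linarith)).1 k
    have h4 : |lc' e c w z0 (L t) k| ≤ 1 := by
      unfold lc'
      rw [abs_div, abs_of_pos (S.pos k), div_le_one (S.pos k)]
      exact h3
    rw [abs_le] at h4
    have h5 : lc' e c w z0 (L t) k / δ ≤ 1 / δ := div_le_div_of_nonneg_right h4.2 hδ.le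
    have h6 : -(1 / δ) ≤ lc' e c w z0 (L t) k / δ := by
      rw [← neg_div]; exact div_le_div_of_nonneg_right h4.1 hδ.le
    have h7 := Int.le_ceil (1 / δ)
    rw [hZ, mem_Icc]
    constructor
    · rw [Int.le_floor]; push_cast; linarith
    · exact Int.floor_le_iff.2 (by linarith)
  have hnear : ∀ t t' : ℕ, F t = F t' → |rp e w z0 ρ (L t) (L t') 0 1| ≤ δ ∧
      |rp e w z0 ρ (L t) (L t') 0 2| ≤ δ := by
    intro t t' hFF
    have e1 := congrArg (fun p => p.1) hFF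
    have e2 := congrArg (fun p => p.2) hFF
    simp only [hF] at e1 e2
    have near : ∀ {x y : ℝ}, ⌊x / δ⌋ = ⌊y / δ⌋ → |y - x| ≤ δ := by
      intro x y h
      have := Int.abs_sub_lt_one_of_floor_eq_floor h
      have e : x / δ - y / δ = -((y - x) / δ) := by ring
      rw [e, abs_neg, abs_div, abs_of_pos hδ, div_lt_one hδ] at this
      exact this.le
    constructor
    · rw [rp_eq_lc (c := c), mul_zero, add_zero]
      exact near e1
    · rw [rp_eq_lc (c := c), mul_zero, add_zero]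
      exact near e2
  -- one cell
  have hcell : ∀ y ∈ Bd.image F, ((Bd.filter fun t => F t = y).card : ℝ) ≤ 2 * N := by
    intro y hy
    obtain ⟨t0, ht0, hFt0⟩ := mem_image.1 hy
    obtain ⟨b0, b1, G, hE⟩ := exists_isExp hq e (S.pos 0).ne' (L t0) z0 ρ
    obtain ⟨k0, ka, kl, kd⟩ := hB t0 ht0 b0 b1 G hE
    obtain ⟨Y, hY⟩ : ∃ Y, Y = Bd.filter fun t => F t = y := ⟨_, rfl⟩
    rw [← hY]
    have hYB : ∀ t ∈ Y, t ∈ Bd ∧ F t = y := by
      intro t ht
      rw [hY, mem_filter] at ht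
      exact ht
    have hdich : ∀ t ∈ Y, (|vel e w ρ (L t0) (L t) 1| ≤ om ∧ |vel e w ρ (L t0) (L t) 2| ≤ om) ∨
        (|vel e w ρ (L t0) (L t) 1 - vB1 (scG (kap b0 b1 G) b0 G) (scB1 (kap b0 b1 G) b0 b1)| ≤ om ∧
          |vel e w ρ (L t0) (L t) 2 - vB2 (scG (kap b0 b1 G) b0 G)
            (scB1 (kap b0 b1 G) b0 b1)| ≤ om) := by
      intro t ht
      obtain ⟨h1, h2⟩ := hYB t ht
      obtain ⟨b0', b1', G', hE'⟩ := exists_isExp hq e (S.pos 0).ne' (L t) z0 ρ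
      obtain ⟨-, -, kl', -⟩ := hB t h1 b0' b1' G' hE'
      have hx := hnear t0 t (hFt0.trans h2.symm)
      have := two_cl S hρ.le (hA t0 (hBA ht0)) (hA t (hBA h1)) hE hE' hδ hη hδη hη1 k0 ka hx.1 hx.2
        kl kl' kd
      rw [← hom] at this
      exact this
    obtain ⟨p1, hp1⟩ : ∃ p1 : ℕ → Prop, ∀ t, p1 t ↔ (|vel e w ρ (L t0) (L t) 1 - 0| ≤ om ∧
        |vel e w ρ (L t0) (L t) 2 - 0| ≤ om) := ⟨_, fun _ => Iff.rfl⟩
    obtain ⟨p2, hp2⟩ : ∃ p2 : ℕ → Prop, ∀ t, p2 t ↔ (|vel e w ρ (L t0) (L t) 1 -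
        vB1 (scG (kap b0 b1 G) b0 G) (scB1 (kap b0 b1 G) b0 b1)| ≤ om ∧
        |vel e w ρ (L t0) (L t) 2 - vB2 (scG (kap b0 b1 G) b0 G)
          (scB1 (kap b0 b1 G) b0 b1)| ≤ om) := ⟨_, fun _ => Iff.rfl⟩
    have hsub : Y ⊆ Y.filter p1 ∪ Y.filter p2 := by
      intro t ht
      rw [mem_union, mem_filter, mem_filter, hp1, hp2]
      rcases hdich t ht with h | h
      · left
        rw [sub_zero, sub_zero]
        exact ⟨ht, h⟩
      · right
        exact ⟨ht, h⟩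
    have hYA : ∀ p : ℕ → Prop, Y.filter p ⊆ A := fun p t ht =>
      hBA (hYB t (mem_filter.1 ht).1).1
    have hYx : ∀ p : ℕ → Prop, ∀ t ∈ Y.filter p, ∀ t' ∈ Y.filter p,
        |rp e w z0 ρ (L t) (L t') 0 1| ≤ δ ∧ |rp e w z0 ρ (L t) (L t') 0 2| ≤ δ := by
      intro p t ht t' ht'
      exact hnear t t' ((hYB t (mem_filter.1 ht).1).2.trans (hYB t' (mem_filter.1 ht').1).2.symm)
    have hYt : ∀ p : ℕ → Prop, ∀ t ∈ Y.filter p, a / w 0 ≤ 13 * δ := fun p t ht =>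
      hthick t (hYB t (mem_filter.1 ht).1).1
    have c1 := clus _ (hYA p1) (L t0) 0 0 (hYx p1) (hYt p1)
      (fun t ht => (hp1 t).1 (mem_filter.1 ht).2)
    have c2 := clus _ (hYA p2) (L t0) (vB1 (scG (kap b0 b1 G) b0 G) (scB1 (kap b0 b1 G) b0 b1))
      (vB2 (scG (kap b0 b1 G) b0 G) (scB1 (kap b0 b1 G) b0 b1)) (hYx p2) (hYt p2)
      (fun t ht => (hp2 t).1 (mem_filter.1 ht).2)
    have h3 := (card_le_card hsub).trans (card_union_le _ _)
    have h4 : (Y.card : ℝ) ≤ ((Y.filter p1).card : ℝ) + ((Y.filter p2).card : ℝ) := by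
      exact_mod_cast h3
    linarith
  -- number of cells
  have hsub : Bd.image F ⊆ Z ×ˢ Z := by
    intro y hy
    obtain ⟨t, ht, rfl⟩ := mem_image.1 hy
    simp only [hF, mem_product]
    exact ⟨hmem t (hBA ht) 1, hmem t (hBA ht) 2⟩
  have hcells : ((Bd.image F).card : ℝ) ≤ 9 / δ ^ 2 := by
    have h1 : ((Bd.image F).card : ℝ) ≤ (Z.card : ℝ) * (Z.card : ℝ) := by
      have := card_le_card hsub
      rw [card_product] at this
      exact_mod_cast this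
    have h2 : (Z.card : ℝ) * (Z.card : ℝ) ≤ 3 / δ * (3 / δ) :=
      mul_le_mul hZc hZc (Nat.cast_nonneg _) (by positivity)
    have h3 : 3 / δ * (3 / δ) = 9 / δ ^ 2 := by field_simp; norm_num
    linarith
  calc (Bd.card : ℝ) = ((∑ y ∈ Bd.image F, (Bd.filter fun t => F t = y).card : ℕ) : ℝ) := by
        rw [card_eq_sum_card_image F Bd]
    _ = ∑ y ∈ Bd.image F, ((Bd.filter fun t => F t = y).card : ℝ) := by push_cast; rfl
    _ ≤ ∑ y ∈ Bd.image F, 2 * N := sum_le_sum hcell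
    _ = (Bd.image F).card * (2 * N) := by rw [sum_const, nsmul_eq_mul]
    _ ≤ 9 / δ ^ 2 * (2 * N) := mul_le_mul_of_nonneg_right hcells (by linarith)
    _ = 18 / δ ^ 2 * N := by ring

section negl

variable {σ κ : Type*} {B : Base} {I : ℕ → Finset (ℕ × ℝ)} {G : Geo σ κ} {lev : ℕ → ℚ → ℕ}
    {A : ℕ → ℝ} {c Λ : ℝ → ℝ} {τ : κ → ℝ → ℝ} {f : ℕ → ℚ → ℕ → ℤ → ℕ} {b : ℕ → ℚ → ℕ → σ}
    {vm : ℕ → ℚ → ℝ} {w : κ → ℕ → ℚ → ℝ}

open Classical in
/-- **a power small part of the lines of every class of one level is negligible** -/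
theorem negl_of_cls (h : MkA B I G lev A c Λ τ f b vm w) {v : ℚ} (hv0 : 0 ≤ v) (hv1 : v ≤ 1)
    (P : ℕ → ℤ → ℕ → Prop) {k : ℝ} (hk : 0 < k)
    (hP : ∀ᶠ n in (U : Filter ℕ), ∀ x ∈ I n,
      (((cls I lev f n v x).filter fun t => P n (zc (lev n v) x.2) t).card : ℝ) ≤
        B.d n ^ k * ((cls I lev f n v x).card : ℝ)) :
    Negl B I fun n x => P n (zc (lev n v) x.2) x.1 := by
  have k4 : 0 < k / 4 := by positivity
  refine ⟨k / 2, by positivity, ?_⟩
  filter_upwards [hP, fib_bounds h v hv0 hv1 k4] with n hP hfb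
  have dp := dpow_pos B n
  obtain ⟨i, hi⟩ : ∃ i, i = lev n v := ⟨_, rfl⟩
  obtain ⟨g, hg⟩ : ∃ g, g = kc i (f n v) := ⟨_, rfl⟩
  -- one class
  have one : ∀ o ∈ (I n).image g,
      ((((I n).filter fun x => P n (zc (lev n v) x.2) x.1).filter fun x => g x = o).card : ℝ) ≤
        B.d n ^ (k / 2) * (((I n).filter fun x => g x = o).card : ℝ) := by
    intro o ho
    obtain ⟨x, hx, rfl⟩ := mem_image.1 ho
    have h1 := hP x hx
    rw [← hi] at h1
    obtain ⟨J, hJ⟩ : ∃ J, J = zc i x.2 := ⟨_, rfl⟩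
    obtain ⟨a, ha⟩ : ∃ a, a = f n v x.1 J := ⟨_, rfl⟩
    rw [← hJ] at h1
    have hcls : cls I lev f n v x = (alive (I n) i J).filter fun t => f n v t J = a := by
      rw [ha, hJ, hi]; rfl
    rw [hcls] at h1
    -- incidences of the class
    have kI : ((I n).filter fun y => g y = g x) =
        (I n).filter fun y => (lc i y).2 = J ∧ f n v (lc i y).1 J = a := by
      ext y
      rw [mem_filter, mem_filter]
      simp only [hg, kc, lc, Prod.mk.injEq, ← hJ, ← ha]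
      constructor
      · rintro ⟨h5, h6, h7⟩
        exact ⟨h5, h7, by rw [← h7]; exact h6⟩
      · rintro ⟨h5, h7, h6⟩
        exact ⟨h5, by rw [h7]; exact h6, h7⟩
    obtain ⟨ψ, hψ⟩ : ∃ ψ : ℕ → ℕ, ∀ s, ψ s = 1 ↔ (f n v s J = a ∧ P n J s) := by
      refine ⟨fun s => if (f n v s J = a ∧ P n J s) then 1 else 0, fun s => ?_⟩
      by_cases hc : f n v s J = a ∧ P n J s
      · simp [hc]
      · simp only [if_neg hc]
        exact iff_of_false (by norm_num) hc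
    have kB : (((I n).filter fun x => P n (zc (lev n v) x.2) x.1).filter fun y => g y = g x) =
        (I n).filter fun y => (lc i y).2 = J ∧ ψ (lc i y).1 = 1 := by
      ext y
      rw [filter_filter, mem_filter, mem_filter, hψ]
      simp only [hg, kc, lc, Prod.mk.injEq, ← hJ, ← ha, ← hi]
      constructor
      · rintro ⟨h5, h8, h6, h7⟩
        exact ⟨h5, h7, by rw [← h7]; exact h6, by rw [← h7]; exact h8⟩
      · rintro ⟨h5, h7, h6, h8⟩
        exact ⟨h5, by rw [h7]; exact h8, by rw [h7]; exact h6, h7⟩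
    have l1 : B.d n ^ (-(1 - (v : ℝ)) + (Λ 1 - Λ v) + k / 4) *
        (((alive (I n) i J).filter fun t => f n v t J = a).card : ℝ) ≤
        (((I n).filter fun y => g y = g x).card : ℝ) := by
      rw [kI, card_class (I n) i J (fun s => f n v s J) a]
      have := mul_card_filter_le (n₁ := B.d n ^ (-(1 - (v : ℝ)) + (Λ 1 - Λ v) + k / 4)) (lc i)
        (I n) (fun o => o.2 = J ∧ f n v o.1 J = a) (fun y hy => by
          rw [hi]; convert (hfb y hy).1)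
      convert this
    have l2 : ((((I n).filter fun x => P n (zc (lev n v) x.2) x.1).filter
        fun y => g y = g x).card : ℝ) ≤ B.d n ^ (-(1 - (v : ℝ)) + (Λ 1 - Λ v) - k / 4) *
        (((alive (I n) i J).filter fun s => ψ s = 1).card : ℝ) := by
      rw [kB, card_class (I n) i J ψ 1]
      have := card_filter_le_mul (n₂ := B.d n ^ (-(1 - (v : ℝ)) + (Λ 1 - Λ v) - k / 4)) (lc i)
        (I n) (fun o => o.2 = J ∧ ψ o.1 = 1) (fun y hy => by
          rw [hi]; convert (hfb y hy).2)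
      convert this
    have c3 : ((alive (I n) i J).filter fun s => ψ s = 1) =
        ((alive (I n) i J).filter fun t => f n v t J = a).filter fun t => P n J t := by
      ext s
      rw [filter_filter, mem_filter, mem_filter, hψ]
    rw [c3] at l2
    refine l2.trans ?_
    obtain ⟨X, hX⟩ : ∃ X : ℝ, X = (((alive (I n) i J).filter fun t => f n v t J = a).card : ℝ) :=
      ⟨_, rfl⟩
    rw [← hX] at l1 h1
    have e3 : B.d n ^ (-(1 - (v : ℝ)) + (Λ 1 - Λ v) - k / 4) * B.d n ^ k =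
        B.d n ^ (k / 2) * B.d n ^ (-(1 - (v : ℝ)) + (Λ 1 - Λ v) + k / 4) := by
      rw [← dpow_add, ← dpow_add]; congr 1; ring
    calc _ ≤ B.d n ^ (-(1 - (v : ℝ)) + (Λ 1 - Λ v) - k / 4) * (B.d n ^ k * X) :=
          mul_le_mul_of_nonneg_left h1 (dp _).le
      _ = B.d n ^ (k / 2) * (B.d n ^ (-(1 - (v : ℝ)) + (Λ 1 - Λ v) + k / 4) * X) := by
          rw [← mul_assoc, e3, mul_assoc]
      _ ≤ _ := mul_le_mul_of_nonneg_left l1 (dp _).le
  have h1 : (((I n).filter fun x => P n (zc (lev n v) x.2) x.1).card : ℝ) =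
      ∑ o ∈ (I n).image g,
        ((((I n).filter fun x => P n (zc (lev n v) x.2) x.1).filter fun x => g x = o).card : ℝ) := by
    rw [card_eq_sum_card_fiberwise (f := g) (t := (I n).image g) (fun x hx => by
      simp only [coe_filter, Set.mem_ofPred_eq] at hx
      exact mem_coe.2 (mem_image_of_mem _ hx.1))]
    push_cast; rfl
  have h2 : ((I n).card : ℝ) = ∑ o ∈ (I n).image g, (((I n).filter fun x => g x = o).card : ℝ) := by
    rw [card_eq_sum_card_image g (I n)]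
    push_cast; rfl
  rw [h1, h2, mul_sum]
  exact sum_le_sum one

end negl

end Crest.Agent.R136.Kil327
end

-- ▼ part R136/Kil6_327
section

/-!
# R136, U6 thin (helper327): typical lines rotate along the second axis

**`kilN`** : at one level, thin and nondegenerate along all lines: off a negligible set the rotation of
the sheet along the second axis (scaled tangent coordinates) is at least `d^ε`, for every `ε > 0`.
No smallness of the sheet, no tilt, no second level.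
-/

set_option autoImplicit false
set_option linter.unusedVariables false

open Finset Filter Topology

namespace Crest.Agent.R136.Kil327

open Crest.Agent.R138.Ex926 (Base U)
open Crest.Agent.R138.Mk163 (zc zl rho alive own Negl)
open Crest.Agent.R138.Dp76 (dpow_pos dpow_add dpow_le dpow_le_one)
open Crest.Agent.R138.ArgM163 (ev_const ev_const_mul)
open Crest.Agent.R136.MkA627 Crest.Agent.R136.K4
open Crest.Agent.R136.Sh605 Crest.Agent.R136.Tl102
open Crest.Agent.R136.Arc880 (det3)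
open Crest.Agent.R136.KapP335 (DetP kapP detP_iff kapP_eq isExp_unique)
open Crest.Agent.R136.Tn327 (GeoS cls mk mem_alive_of)

/-- the sheet `s` scaled by `r` around the line `c'` -/
noncomputable def scl (s : Plk4) (r : ℝ) (c' : Ln4) : Plk4 :=
  { s with c := c', w := fun k => r * s.w k }

theorem val_scl {Γ : Geo Plk4 (Fin 3)} {L : ℕ → ℕ → Ln4} {r0 : ℕ → ℝ} {q : Fin 3 → ℝ}
    (hG : GeoS Γ L r0 q) (n i : ℕ) (J : ℤ) (s : Plk4) {r : ℝ} (hr : 0 < r) (c' : Ln4)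
    (h1 : 0 < s.w 1) (h2 : 0 < s.w 2) :
    Γ.val n i J (scl s r c') = r ^ (2 + (q 1 + q 2)) * Γ.val n i J s := by
  rw [hG.val, hG.val]
  have hρ := Tn327.rho_pos' i
  have e1 : r * s.w 1 / rho i = r * (s.w 1 / rho i) := by ring
  have e2 : r * s.w 2 / rho i = r * (s.w 2 / rho i) := by ring
  have h3 : 0 ≤ s.w 1 / rho i := div_nonneg h1.le hρ.le
  have h4 : 0 ≤ s.w 2 / rho i := div_nonneg h2.le hρ.le
  have e3 : r ^ (2 + (q 1 + q 2)) = r * r * (r ^ q 1 * r ^ q 2) := by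
    rw [Real.rpow_add hr, Real.rpow_add hr, Real.rpow_two, sq]
  show s.a * (r * s.w 2) * (r * s.w 1) *
    ((s.a / rho i) ^ q 0 * (r * s.w 1 / rho i) ^ q 1 * (r * s.w 2 / rho i) ^ q 2) = _
  rw [e1, e2, Real.mul_rpow hr.le h3, Real.mul_rpow hr.le h4, e3]
  ring

theorem kap_pos_of_det {b0 b1 : V3} {G : QF} (h : b0 0 ≠ 0) {η : ℝ} (hη : 0 < η)
    (hD : η ≤ |det3 (fan (shB0 b0) (scB1 (kap b0 b1 G) b0 b1) (scG (kap b0 b1 G) b0 G) 0)|) :
    0 < kap b0 b1 G := by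
  rcases (kap_nonneg b0 b1 G).lt_or_eq with h1 | h1
  · exact h1
  · exfalso
    rw [← h1, det3_fan0 h _ _ (b1 := b1)] at hD
    have e1 : (scG 0 b0 G).uu = 0 := div_zero _
    have e2 : (scG 0 b0 G).uv = 0 := div_zero _
    have e3 : (scG 0 b0 G).vv = 0 := div_zero _
    have e4 : dd (scG 0 b0 G) (scB1 0 b0 b1) = 0 := by
      simp only [dd, e1, e2, e3]; ring
    rw [e4, neg_zero, zero_div, abs_zero] at hD
    linarith

set_option maxHeartbeats 1000000 in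
open Classical in
/-- **typical lines rotate along the second axis** -/
theorem kilN {B : Base} {I : ℕ → Finset (ℕ × ℝ)} {Γ : Geo Plk4 (Fin 3)} {lev : ℕ → ℚ → ℕ}
    {A : ℕ → ℝ} {c Λ : ℝ → ℝ} {τ : Fin 3 → ℝ → ℝ} {f : ℕ → ℚ → ℕ → ℤ → ℕ} {b : ℕ → ℚ → ℕ → Plk4}
    {vm : ℕ → ℚ → ℝ} {w : Fin 3 → ℕ → ℚ → ℝ} {L : ℕ → ℕ → Ln4} {r0 : ℕ → ℝ} {q : Fin 3 → ℝ}
    (hM : MkA B I Γ lev A c Λ τ f b vm w) (hG : GeoS Γ L r0 q) (hr0 : ∀ n, 0 < r0 n)
    (hq : 0 < q 1 + q 2) {v : ℚ} (hv0 : 0 ≤ v) (hv1 : v ≤ 1)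
    (hadm : ∀ p : ℝ, 0 < p → ∀ᶠ n in (U : Filter ℕ), ∀ x ∈ I n, ∀ r : ℝ, B.d n ^ p ≤ r → r ≤ 1 →
      ∀ c' : Ln4, ShN (mk lev f b n v x).e c' (fun k => r * (mk lev f b n v x).w k)
          (mk lev f b n v x).q (mk lev f b n v x).a (zl (lev n v) (zc (lev n v) x.2))
          (rho (lev n v)) (r0 n) →
        Γ.adm n (lev n v) (zc (lev n v) x.2) (scl (mk lev f b n v x) r c'))
    (hd : ∀ ε : ℝ, 0 < ε → ∀ᶠ n in (U : Filter ℕ), ∀ x ∈ I n, DetP (B.d n ^ ε)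
      (mk lev f b n v x) (zl (lev n v) (zc (lev n v) x.2)) (rho (lev n v)) (L n x.1))
    {c0 : ℝ} (hc0 : 0 < c0) (ht : ∀ᶠ n in (U : Filter ℕ), ∀ x ∈ I n,
      (mk lev f b n v x).a ≤ B.d n ^ c0 * kapP (mk lev f b n v x)
        (zl (lev n v) (zc (lev n v) x.2)) (rho (lev n v)) (L n x.1))
    {ε : ℝ} (hε : 0 < ε) :
    Negl B I fun n x => ¬ ∀ b0 b1 G, IsExp (mk lev f b n v x).q (mk lev f b n v x).e
      (mk lev f b n v x).w (L n x.1) (zl (lev n v) (zc (lev n v) x.2)) (rho (lev n v)) b0 b1 G →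
        B.d n ^ ε ≤ |scB1 (kap b0 b1 G) b0 b1 2| := by
  obtain ⟨s, hs⟩ : ∃ s, s = q 1 + q 2 := ⟨_, rfl⟩
  rw [← hs] at hq
  obtain ⟨ε₁, hε₁⟩ : ∃ e, e = min ε c0 := ⟨_, rfl⟩
  have he0 : 0 < ε₁ := by rw [hε₁]; exact lt_min hε hc0
  have heε : ε₁ ≤ ε := by rw [hε₁]; exact min_le_left _ _
  have hec : ε₁ ≤ c0 := by rw [hε₁]; exact min_le_right _ _
  obtain ⟨σ, hσ⟩ : ∃ σ, σ = s / (12 * (2 + s)) := ⟨_, rfl⟩
  have hσ0 : 0 < σ := by rw [hσ]; positivity
  have hσ1 : 3 * σ * (2 + s) = s / 4 := by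
    rw [hσ]; field_simp; ring
  have hσ2 : σ ≤ 1 / 12 := by
    rw [hσ, div_le_div_iff₀ (by positivity) (by norm_num)]
    nlinarith
  have p1 : 0 < (1 - σ) * ε₁ := mul_pos (by linarith) he0
  have p2 : 0 < σ * ε₁ := mul_pos hσ0 he0
  have p3 : 0 < (1 - 3 * σ) * ε₁ := mul_pos (by linarith) he0
  have p4 : 0 < ε₁ * s / 4 := by positivity
  have p8 : 0 < ε₁ * s / 8 := by positivity
  obtain ⟨P, hP⟩ : ∃ P : ℕ → ℤ → ℕ → Prop, ∀ n J t, P n J t ↔ ¬ ∀ b0 b1 G,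
      IsExp (b n v (f n v t J)).q (b n v (f n v t J)).e (b n v (f n v t J)).w (L n t)
        (zl (lev n v) J) (rho (lev n v)) b0 b1 G → B.d n ^ ε ≤ |scB1 (kap b0 b1 G) b0 b1 2| :=
    ⟨_, fun _ _ _ => Iff.rfl⟩
  have hPe : (fun (n : ℕ) (x : ℕ × ℝ) => ¬ ∀ b0 b1 G, IsExp (mk lev f b n v x).q
      (mk lev f b n v x).e (mk lev f b n v x).w (L n x.1) (zl (lev n v) (zc (lev n v) x.2))
        (rho (lev n v)) b0 b1 G → B.d n ^ ε ≤ |scB1 (kap b0 b1 G) b0 b1 2|) =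
      fun n x => P n (zc (lev n v) x.2) x.1 := by
    funext n x
    exact propext (hP n _ _).symm
  rw [hPe]
  refine negl_of_cls hM hv0 hv1 P p4 ?_
  filter_upwards [hd (σ * ε₁) p2, ht, hM.dmax v hv0 hv1 _ p8, hM.near v hv0 hv1 _ p8,
    hM.mark v hv0 hv1, hadm _ p3, ev_const_mul B (show (0 : ℝ) < 240000 by norm_num) p1,
    ev_const_mul B (show (0 : ℝ) < 10 ^ 18 by norm_num) p2,
    ev_const_mul B (show (0 : ℝ) < 2 by norm_num) p3,
    ev_const_mul B (show (0 : ℝ) < 18 by norm_num) p4, hM.vpos v hv0 hv1]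
    with n hd ht hdm hnr hm hadm c1 c2 c3 c4 hvp x hx
  have dp := dpow_pos B n
  obtain ⟨i, hi⟩ : ∃ i, i = lev n v := ⟨_, rfl⟩
  obtain ⟨J, hJ⟩ : ∃ J, J = zc i x.2 := ⟨_, rfl⟩
  obtain ⟨S, hS⟩ : ∃ S, S = mk lev f b n v x := ⟨_, rfl⟩
  rw [← hi, ← hJ]
  have hadm := hadm x hx
  simp only [← hi] at hd ht hdm hnr hm hadm
  simp only [← hJ, ← hS] at hadm
  have hxa : x.1 ∈ alive (I n) i J := by rw [hJ]; exact mem_alive_of hx
  have hSx : b n v (f n v x.1 J) = S := by rw [hS, hJ, hi]; rfl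
  -- lines of the class
  have hcl : ∀ t ∈ cls (I) lev f n v x, t ∈ alive (I n) i J ∧ f n v t J = f n v x.1 J := by
    intro t ht
    simp only [cls, mem_filter, ← hi, ← hJ] at ht
    exact ht
  have hbt : ∀ t ∈ cls I lev f n v x, b n v (f n v t J) = S := by
    intro t ht
    rw [(hcl t ht).2, hSx]
  have hinc : ∀ t ∈ cls (I) lev f n v x, ∃ y ∈ I n, y.1 = t ∧ zc i y.2 = J := by
    intro t ht
    have h1 := (hcl t ht).1
    simp only [alive, mem_image, mem_filter] at h1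
    obtain ⟨y, ⟨h2, h3⟩, h4⟩ := h1
    exact ⟨y, h2, h4, h3⟩
  have hmk : ∀ y : ℕ × ℝ, y.1 ∈ cls I lev f n v x → zc i y.2 = J → mk lev f b n v y = S := by
    intro y h1 h2
    rw [← hbt y.1 h1]
    show b n v (f n v y.1 (zc (lev n v) y.2)) = _
    rw [← hi, h2]
  have hmx := hm J x.1 hxa
  rw [hSx] at hmx
  have hShN : ShN S.e S.c S.w S.q S.a (zl i J) (rho i) (r0 n) := hG.adm _ _ _ _ hmx.2.1
  have hpos := (Sh321.ShN.toC (hr0 n) hShN).pos (hr0 n)
  have hw0 : 0 < S.w 0 := hpos.2.1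
  have hSt : StP S.e S.c S.w S.q (zl i J) (rho i) := StP.of_shN hShN hw0
  have hρ : 0 < rho i := Tn327.rho_pos' i
  have hin : ∀ t ∈ cls I lev f n v x, InSheet (L n t) S.e S.c S.w S.q S.a (zl i J) (rho i) := by
    intro t ht
    have h5 := (hm J t (hcl t ht).1).1
    rw [hbt t ht] at h5
    exact (hG.mem _ _ _ _ _).1 h5
  -- parameters
  obtain ⟨δ, hδ⟩ : ∃ δ, δ = B.d n ^ ε₁ := ⟨_, rfl⟩
  obtain ⟨η, hη⟩ : ∃ η, η = B.d n ^ (σ * ε₁) := ⟨_, rfl⟩
  obtain ⟨lam, hlam⟩ : ∃ l, l = B.d n ^ ((1 - 3 * σ) * ε₁) := ⟨_, rfl⟩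
  rw [← hη] at hd
  have hδ0 : 0 < δ := by rw [hδ]; exact dp _
  have hη0 : 0 < η := by rw [hη]; exact dp _
  have hl0 : 0 < lam := by rw [hlam]; exact dp _
  have hη1 : η ≤ 1 := by rw [hη]; exact dpow_le_one B n p2.le
  have hδη : 240000 * δ ≤ η := by
    have e1 : δ = B.d n ^ ((1 - σ) * ε₁) * η := by
      rw [hδ, hη, ← dpow_add]; congr 1; ring
    rw [e1]
    calc 240000 * (B.d n ^ ((1 - σ) * ε₁) * η) = (240000 * B.d n ^ ((1 - σ) * ε₁)) * η := by ring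
      _ ≤ 1 * η := mul_le_mul_of_nonneg_right c1 hη0.le
      _ = η := one_mul _
  have hη2 : η ^ 2 = B.d n ^ (2 * (σ * ε₁)) := by
    rw [hη, sq, ← dpow_add]; congr 1; ring
  have hl : 73 * (δ + 2 * (10 ^ 15 * δ / η ^ 2)) ≤ lam := by
    have e1 : δ / η ^ 2 = B.d n ^ (σ * ε₁) * lam := by
      rw [div_eq_iff (by positivity), hη2, hδ, hlam, ← dpow_add, ← dpow_add]; congr 1; ring
    have e2 : δ ≤ δ / η ^ 2 := by
      rw [le_div_iff₀ (by positivity)]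
      have h1 : η ^ 2 ≤ 1 := pow_le_one₀ hη0.le hη1
      calc δ * η ^ 2 ≤ δ * 1 := mul_le_mul_of_nonneg_left h1 hδ0.le
        _ = δ := mul_one _
    have e3 : 10 ^ 15 * δ / η ^ 2 = 10 ^ 15 * (δ / η ^ 2) := by ring
    rw [e3]
    have e4 : 73 * (δ + 2 * (10 ^ 15 * (δ / η ^ 2))) ≤ 10 ^ 18 * (δ / η ^ 2) := by
      have h1 : 0 ≤ δ / η ^ 2 := by positivity
      linarith
    refine e4.trans ?_
    rw [e1]
    calc 10 ^ 18 * (B.d n ^ (σ * ε₁) * lam) = (10 ^ 18 * B.d n ^ (σ * ε₁)) * lam := by ring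
      _ ≤ 1 * lam := mul_le_mul_of_nonneg_right c2 hl0.le
      _ = lam := one_mul _
  have hl1 : lam ≤ 1 / 2 := by rw [hlam]; linarith
  have hδl : 13 * δ ≤ lam := by
    have : 0 ≤ 10 ^ 15 * δ / η ^ 2 := by positivity
    linarith
  have hdε : B.d n ^ ε ≤ δ := by rw [hδ]; exact dpow_le B n heε
  have hdc : B.d n ^ c0 ≤ δ := by rw [hδ]; exact dpow_le B n hec
  -- expansions of the lines of the class
  have hex : ∀ t ∈ cls I lev f n v x, ∀ b0 b1 G, IsExp S.q S.e S.w (L n t) (zl i J) (rho i) b0 b1 G →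
      0 < kap b0 b1 G ∧ S.a ≤ δ * (S.w 0 * kap b0 b1 G) ∧
      η ≤ |det3 (fan (shB0 b0) (scB1 (kap b0 b1 G) b0 b1) (scG (kap b0 b1 G) b0 G) 0)| ∧
      kap b0 b1 G ≤ 13 := by
    intro t htc b0 b1 G hE
    obtain ⟨y, hy, hy1, hy2⟩ := hinc t htc
    have dy := hd y hy
    have ty := ht y hy
    rw [hmk y (by rw [hy1]; exact htc) hy2, hy2, hy1] at dy ty
    have hdet := (detP_iff hw0.ne' hE _).1 dy 0 le_rfl zero_le_one
    rw [kapP_eq hw0.ne' hE] at ty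
    have Nn := hE.nrmC hSt hρ.le (fun z h1 h2 => (hin t htc z h1 h2).1)
    have hb0 : b0 0 ≠ 0 := by
      have := Nn.b1_le.1
      linarith
    have hk := kap_pos_of_det hb0 hη0 hdet
    refine ⟨hk, ty.trans ?_, hdet, kap_le Nn⟩
    exact mul_le_mul_of_nonneg_right hdc (mul_pos hw0 hk).le
  have hal : S.a ≤ lam * S.w 0 := by
    obtain ⟨b0, b1, G, hE⟩ := exists_isExp hShN.isQ S.e hw0.ne' (L n x.1) (zl i J) (rho i)
    have hxc : x.1 ∈ cls I lev f n v x := by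
      simp only [cls, mem_filter, ← hi, ← hJ]
      exact ⟨hxa, trivial⟩
    obtain ⟨k1, k2, -, k4⟩ := hex x.1 hxc b0 b1 G hE
    refine k2.trans ?_
    calc δ * (S.w 0 * kap b0 b1 G) ≤ δ * (S.w 0 * 13) :=
          mul_le_mul_of_nonneg_left (mul_le_mul_of_nonneg_left k4 hw0.le) hδ0.le
      _ = 13 * δ * S.w 0 := by ring
      _ ≤ lam * S.w 0 := mul_le_mul_of_nonneg_right hδl hw0.le
  -- the count of one scaled plank
  obtain ⟨N, hNd⟩ : ∃ N, N = B.d n ^ (-(ε₁ * s / 8)) * ampA B A c n v *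
      (lam ^ (2 + s) * vm n v) := ⟨_, rfl⟩
  have hamp : 0 < ampA B A c n v := by
    unfold ampA
    exact mul_pos (hM.Apos n) (dp _)
  have hls : 0 < lam ^ (2 + s) := Real.rpow_pos_of_pos hl0 _
  have hN0 : 0 ≤ N := by
    rw [hNd]
    exact mul_nonneg (mul_nonneg (dp _).le hamp.le) (mul_nonneg hls.le hvp.le)
  have hN : ∀ t ∈ cls I lev f n v x, (((cls I lev f n v x).filter fun t' => InSheet (L n t') S.e
      (L n t) (fun k => lam * S.w k) S.q S.a (zl i J) (rho i)).card : ℝ) ≤ N := by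
    intro t htc
    have hsc := shN_scale (c' := L n t) hShN hSt.pos hl0 hl1 hal
      (fun z h1 h2 => (hin t htc z h1 h2).1)
    have h5 := hdm J (scl S lam (L n t)) (hadm lam hlam.ge (by linarith) _ hsc)
    rw [val_scl hG n i J S hl0 _ (hSt.pos 1) (hSt.pos 2), hmx.2.2.1, ← hs, ← hNd] at h5
    refine le_trans ?_ h5
    refine Nat.cast_le.2 (card_le_card ?_)
    intro t' ht'
    rw [mem_filter] at ht' ⊢
    exact ⟨(hcl t' ht'.1).1, (hG.mem _ _ _ _ _).2 ht'.2⟩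
  -- the bad lines
  have key := bad_card hSt hShN.isQ hρ (A := cls I lev f n v x)
    (Bd := (cls I lev f n v x).filter fun t => P n J t) (filter_subset _ _) hin hδ0 hη0 hδη hη1 (by
      intro t htB b0 b1 G hE
      rw [mem_filter, hP, ← hi] at htB
      obtain ⟨htc, hbad⟩ := htB
      obtain ⟨k1, k2, k3, k4⟩ := hex t htc b0 b1 G hE
      refine ⟨k1, k2, ?_, k3⟩
      rw [hbt t htc] at hbad
      push Not at hbad
      obtain ⟨b0', b1', G', hE', hlt⟩ := hbad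
      obtain ⟨e1, e2, e3⟩ := isExp_unique hw0.ne' hE' hE
      rw [e1, e2, e3] at hlt
      have h6 : |shB1 b0 b1 2 / kap b0 b1 G| ≤ δ := hlt.le.trans hdε
      rw [abs_div, abs_of_pos k1, div_le_iff₀ k1] at h6
      exact h6) hl hl1 hN0 hN
  -- arithmetic
  have hnx := hnr J x.1 hxa
  obtain ⟨X, hX⟩ : ∃ X : ℝ, X = ((cls I lev f n v x).card : ℝ) := ⟨_, rfl⟩
  have hcard : (((alive (I n) i J).filter fun t => f n v t J = f n v x.1 J).card : ℝ) = X := by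
    rw [hX]
    simp only [cls, ← hi, ← hJ]
  rw [hcard] at hnx
  rw [← hX]
  have hX0 : 0 ≤ X := by rw [hX]; exact Nat.cast_nonneg _
  have e1 : lam ^ (2 + s) = B.d n ^ ((1 - 3 * σ) * ε₁ * (2 + s)) := by
    rw [hlam, ← Real.rpow_mul (B.pos n).le]
  have e2 : 18 / δ ^ 2 * N = 18 * (B.d n ^ (-(2 * ε₁)) * B.d n ^ (-(ε₁ * s / 8)) * lam ^ (2 + s)) *
      (ampA B A c n v * vm n v) := by
    have h1 : 18 / δ ^ 2 = 18 * B.d n ^ (-(2 * ε₁)) := by
      rw [div_eq_mul_inv]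
      congr 1
      rw [hδ, Real.rpow_neg (B.pos n).le, sq, ← dpow_add]
      congr 2; ring
    rw [h1, hNd]; ring
  rw [e2] at key
  have e3 : B.d n ^ (-(2 * ε₁)) * B.d n ^ (-(ε₁ * s / 8)) * lam ^ (2 + s) *
      B.d n ^ (-(ε₁ * s / 8)) = B.d n ^ (ε₁ * s / 4) * B.d n ^ (ε₁ * s / 4) := by
    rw [e1, ← dpow_add, ← dpow_add, ← dpow_add, ← dpow_add]
    congr 1
    have : (1 - 3 * σ) * ε₁ * (2 + s) = ε₁ * (2 + s) - ε₁ * (3 * σ * (2 + s)) := by ring
    rw [this, hσ1]; ring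
  calc _ ≤ 18 * (B.d n ^ (-(2 * ε₁)) * B.d n ^ (-(ε₁ * s / 8)) * lam ^ (2 + s)) *
      (ampA B A c n v * vm n v) := key
    _ ≤ 18 * (B.d n ^ (-(2 * ε₁)) * B.d n ^ (-(ε₁ * s / 8)) * lam ^ (2 + s)) *
        (B.d n ^ (-(ε₁ * s / 8)) * X) :=
      mul_le_mul_of_nonneg_left hnx (mul_nonneg (by norm_num)
        (mul_nonneg (mul_nonneg (dp _).le (dp _).le) hls.le))
    _ = (18 * (B.d n ^ (-(2 * ε₁)) * B.d n ^ (-(ε₁ * s / 8)) * lam ^ (2 + s) *
        B.d n ^ (-(ε₁ * s / 8)))) * X := by ring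
    _ = (18 * B.d n ^ (ε₁ * s / 4)) * B.d n ^ (ε₁ * s / 4) * X := by rw [e3]; ring
    _ ≤ 1 * B.d n ^ (ε₁ * s / 4) * X :=
      mul_le_mul_of_nonneg_right (mul_le_mul_of_nonneg_right c4 (dp _).le) hX0
    _ = B.d n ^ (ε₁ * s / 4) * X := by rw [one_mul]

end Crest.Agent.R136.Kil327
end

-- ▼ part R136/Kil7_327
section

/-!
# R136, U6 thin (helper327): `kilN` for the geometry `geo4` (range of the widths)

`hadm_geo4` : the scaled marks are admissible; **`kilN4`** : typical lines rotate along the second axis.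
-/

set_option autoImplicit false
set_option linter.unusedVariables false

open Finset Filter Topology

namespace Crest.Agent.R136.Kil327

open Crest.Agent.R138.Ex926 (Base U)
open Crest.Agent.R138.Mk163 (zc zl rho alive own Negl)
open Crest.Agent.R136.MkA627 Crest.Agent.R136.K4 Crest.Agent.R136.Top484
open Crest.Agent.R136.Sh605 Crest.Agent.R136.Tl102
open Crest.Agent.R136.KapP335 (DetP kapP)
open Crest.Agent.R136.Tn327 (GeoS cls mk mem_alive_of)

section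

variable {B : Base} {I : ℕ → Finset (ℕ × ℝ)} {lev : ℕ → ℚ → ℕ}
    {A : ℕ → ℝ} {c Λ : ℝ → ℝ} {τ : Fin 3 → ℝ → ℝ} {f : ℕ → ℚ → ℕ → ℤ → ℕ} {b : ℕ → ℚ → ℕ → Plk4}
    {vm : ℕ → ℚ → ℝ} {w : Fin 3 → ℕ → ℚ → ℝ} {L : ℕ → ℕ → Ln4} {r0 : ℕ → ℝ}
    {wr cr : Fin 3 → ℕ → ℝ} {q : Fin 3 → ℝ}

theorem geoS4 (L : ℕ → ℕ → Ln4) (r0 : ℕ → ℝ) (wr cr : Fin 3 → ℕ → ℝ) (q : Fin 3 → ℝ) :
    GeoS (geo4 L r0 wr cr q) L r0 q where
  mem := fun _ _ _ _ _ => Iff.rfl
  adm := fun _ _ _ _ h => h.1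
  val := fun _ _ _ _ => rfl

/-- **the scaled marks are admissible** -/
theorem hadm_geo4 (hM : MkA B I (geo4 L r0 wr cr q) lev A c Λ τ f b vm w) (hr0 : ∀ n, 0 < r0 n)
    (hR : Rng B wr cr w) {v : ℚ} (hv0 : 0 ≤ v) (hv1 : v ≤ 1) :
    ∀ p : ℝ, 0 < p → ∀ᶠ n in (U : Filter ℕ), ∀ x ∈ I n, ∀ r : ℝ, B.d n ^ p ≤ r → r ≤ 1 →
      ∀ c' : Ln4, ShN (mk lev f b n v x).e c' (fun k => r * (mk lev f b n v x).w k)
          (mk lev f b n v x).q (mk lev f b n v x).a (zl (lev n v) (zc (lev n v) x.2))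
          (rho (lev n v)) (r0 n) →
        (geo4 L r0 wr cr q).adm n (lev n v) (zc (lev n v) x.2) (scl (mk lev f b n v x) r c') := by
  intro p hp
  filter_upwards [hR p 1 v hv0 hv1, hR p 2 v hv0 hv1, hM.mark v hv0 hv1] with n h1 h2 hm x hx r hr
    hr1 c' hc'
  obtain ⟨-, ⟨m1, m2, m3⟩, -, m4⟩ := hm (zc (lev n v) x.2) x.1 (mem_alive_of hx)
  have hS : b n v (f n v x.1 (zc (lev n v) x.2)) = mk lev f b n v x := rfl
  rw [hS] at m1 m2 m3 m4
  have hpos := (Sh321.ShN.toC (hr0 n) m1).pos (hr0 n)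
  have w1 : (mk lev f b n v x).w 1 = w 1 n v := m4 1
  have w2 : (mk lev f b n v x).w 2 = w 2 n v := m4 2
  have p1 : 0 < (mk lev f b n v x).w 1 := hpos.2.2.2
  have p2 : 0 < (mk lev f b n v x).w 2 := hpos.2.2.1
  have k1 : r * (mk lev f b n v x).w 1 ≤ (mk lev f b n v x).w 1 :=
    mul_le_of_le_one_left p1.le hr1
  have k2 : r * (mk lev f b n v x).w 2 ≤ (mk lev f b n v x).w 2 :=
    mul_le_of_le_one_left p2.le hr1
  have l1 : B.d n ^ p * (mk lev f b n v x).w 1 ≤ r * (mk lev f b n v x).w 1 :=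
    mul_le_mul_of_nonneg_right hr p1.le
  have l2 : B.d n ^ p * (mk lev f b n v x).w 2 ≤ r * (mk lev f b n v x).w 2 :=
    mul_le_mul_of_nonneg_right hr p2.le
  rw [← w1] at h1
  rw [← w2] at h2
  refine ⟨hc', k1.trans m2, fun k => ?_⟩
  have m3k := m3 k
  fin_cases k
  · exact m3k
  · exact ⟨h1.1.trans l1, k1.trans m3k.2⟩
  · exact ⟨h2.1.trans l2, k2.trans m3k.2⟩

/-- **typical lines rotate along the second axis**, geometry `geo4` -/
theorem kilN4 (hM : MkA B I (geo4 L r0 wr cr q) lev A c Λ τ f b vm w) (hr0 : ∀ n, 0 < r0 n)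
    (hR : Rng B wr cr w) (hq : 0 < q 1 + q 2) {v : ℚ} (hv0 : 0 ≤ v) (hv1 : v ≤ 1)
    (hd : ∀ ε : ℝ, 0 < ε → ∀ᶠ n in (U : Filter ℕ), ∀ x ∈ I n, DetP (B.d n ^ ε)
      (mk lev f b n v x) (zl (lev n v) (zc (lev n v) x.2)) (rho (lev n v)) (L n x.1))
    {c0 : ℝ} (hc0 : 0 < c0) (ht : ∀ᶠ n in (U : Filter ℕ), ∀ x ∈ I n,
      (mk lev f b n v x).a ≤ B.d n ^ c0 * kapP (mk lev f b n v x)
        (zl (lev n v) (zc (lev n v) x.2)) (rho (lev n v)) (L n x.1))
    {ε : ℝ} (hε : 0 < ε) :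
    Negl B I fun n x => ¬ ∀ b0 b1 G, IsExp (mk lev f b n v x).q (mk lev f b n v x).e
      (mk lev f b n v x).w (L n x.1) (zl (lev n v) (zc (lev n v) x.2)) (rho (lev n v)) b0 b1 G →
        B.d n ^ ε ≤ |scB1 (kap b0 b1 G) b0 b1 2| :=
  kilN hM (geoS4 L r0 wr cr q) hr0 hq hv0 hv1 (hadm_geo4 hM hr0 hR hv0 hv1) hd hc0 ht hε

end

end Crest.Agent.R136.Kil327
end

-- ▼ part R136/Kil8_327

/-!
# R136, U6 thin (helper327): the literal `Us555.Kil`
-/

set_option autoImplicit false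
set_option linter.unusedVariables false

open Finset Filter Topology

namespace Crest.Agent.R136.Kil327

open Crest.Agent.R138.Ex926 (Base U)
open Crest.Agent.R136.MkA627 Crest.Agent.R136.K4 Crest.Agent.R136.Top484
open Crest.Agent.R136.Us555 (Kil)

variable {p : Par4} {D : Dat4}

/-- **typical lines rotate along the second axis**, primitive hypotheses -/
theorem kil_of_mka {c Λ : ℝ → ℝ} {τ : Fin 3 → ℝ → ℝ}
    (hM : MkA D.B D.I (D.G p) D.lev D.A c Λ τ D.f D.b D.vm D.w) (hr0 : ∀ n, 0 < D.r0 n)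
    (hR : Rng D.B D.wr D.cr D.w) (hq : 0 < p.q 1 + p.q 2) : Kil D :=
  fun v h0 h1 c hc hd ht ε hε => kilN4 hM hr0 hR hq h0.le h1.le hd hc ht hε

/-- **typical lines rotate along the second axis** -/
theorem kil_of {η : ℝ} (h : J1c η p D) : Kil D :=
  kil_of_mka h.mka h.r0pos h.wrs (add_pos h.g0.2 h.q2.1)

end Crest.Agent.R136.Kil327
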