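import Crest.Agent.R136.Nd7_565

/-!
# R136 (S0187), U5: number of lines of a `C*` sheet in a strip around one of its lines (helper565)

* `strip_sheet` : the `(β, σ)`-strip around `T` lies in one sheet of class `C*` (over a cell 128 times
  shorter) of base area `≤ 240000 K β σ w1 w2`.
* `strip_count` : hence the number of lines in it.
* `FlatAt.scale`.
-/

set_option autoImplicit false
set_option linter.unusedVariables false

namespace Crest.Agent.R136.Nd565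

open Finset Sh605 UB683

theorem FlatAt.scale {q : ℝ → V3 → ℝ} {e : Fin 3 → V3} {w : V3} {T : Ln4}
    {z0 ρ nA nB β κ : ℝ} (hq : IsQ q) (hρ : 0 ≤ ρ) (hβ : 0 ≤ β)
    (hF : FlatAt q e w T z0 ρ nA nB β κ) : FlatAt q e w T z0 ρ nA nB (2 * β) (6 * κ) := by
  obtain ⟨p, r, H, hG⟩ := exists_TD hq e T
  obtain ⟨y, hF⟩ := hF
  refine ⟨y, fun z h0 h1 α hα => ?_⟩
  have e1 : y • e 0 + (w 1 * -nB) • e 1 + (w 2 * nA) • e 2 = cmb e (Ev w nA nB y) := rfl
  have v : ∀ α : ℝ, q z (T.pos z + α • cmb e (Ev w nA nB y)) - q z (T.pos z) =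
      α * dt (gr p r z) (Ev w nA nB y) + α ^ 2 * bl H (Ev w nA nB y) (Ev w nA nB y) := by
    intro α
    rw [← cmb_smul, hG.exp, dt_smul, bl_smul_left, bl_smul_right]; ring
  have f1 := hF z h0 h1 β (by rw [abs_of_nonneg hβ])
  have f2 := hF z h0 h1 (-β) (by rw [abs_neg, abs_of_nonneg hβ])
  rw [e1, v, abs_le] at f1 f2
  rw [e1, v]
  set G := dt (gr p r z) (Ev w nA nB y)
  set E := bl H (Ev w nA nB y) (Ev w nA nB y)
  have g1 : |β * G| ≤ κ := by
    rw [abs_le]; constructor <;> linarith [f1.1, f1.2, f2.1, f2.2]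
  have g2 : |β ^ 2 * E| ≤ κ := by
    rw [abs_le]; constructor <;> nlinarith [f1.1, f1.2, f2.1, f2.2]
  have g3 : |α * G| ≤ 2 * κ := by
    rw [abs_mul]
    calc |α| * |G| ≤ 2 * β * |G| := mul_le_mul_of_nonneg_right hα (abs_nonneg _)
      _ = 2 * |β * G| := by rw [abs_mul, abs_of_nonneg hβ]; ring
      _ ≤ 2 * κ := by linarith
  have g4 : |α ^ 2 * E| ≤ 4 * κ := by
    have : |α ^ 2| ≤ (2 * β) ^ 2 := by
      rw [abs_pow]; exact pow_le_pow_left₀ (abs_nonneg _) hα 2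
    rw [abs_mul]
    calc |α ^ 2| * |E| ≤ (2 * β) ^ 2 * |E| := mul_le_mul_of_nonneg_right this (abs_nonneg _)
      _ = 4 * |β ^ 2 * E| := by rw [abs_mul, abs_of_nonneg (by positivity : 0 ≤ β ^ 2)]; ring
      _ ≤ 4 * κ := by linarith
  refine (abs_add_le _ _).trans ?_
  linarith



/-- the reward of the class satisfies the comparison -/
theorem pow_reward {q0 q1 q2 s a w1 w2 : ℝ} (h0 : 0 ≤ q0) (h12 : q2 ≤ q1) (h2 : 0 ≤ q2)
    (hs : 0 < s) (ha : 0 < a) (hw2 : 0 < w2) (hw1 : 0 < w1) :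
    ∀ a' w2' w1' x, a ≤ a' → a' ≤ 3 * a → 0 < w2' → w2' ≤ w1' → w1' ≤ w1 → 0 < x →
      w2' * w1' ≤ x * (w2 * w1) →
      (a' * s) ^ q0 * (w1' * s) ^ q1 * (w2' * s) ^ q2 ≤
        (3 : ℝ) ^ q0 * x ^ q2 * ((a * s) ^ q0 * (w1 * s) ^ q1 * (w2 * s) ^ q2) := by
  intro a' w2' w1' x g1 g2 g3 g4 g5 g6 g7
  have hw1' : 0 < w1' := by linarith
  have ha' : 0 < a' := by linarith
  have t1 : (a' * s) ^ q0 ≤ 3 ^ q0 * (a * s) ^ q0 := by
    rw [← Real.mul_rpow (by norm_num) (by positivity)]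
    exact Real.rpow_le_rpow (by positivity) (by nlinarith) h0
  have t2 : (w1' * s) ^ q1 * (w2' * s) ^ q2 ≤ x ^ q2 * ((w1 * s) ^ q1 * (w2 * s) ^ q2) := by
    have e1 : ∀ u : ℝ, 0 < u → (u * s) ^ q1 = (u * s) ^ (q1 - q2) * (u * s) ^ q2 := by
      intro u hu
      rw [← Real.rpow_add (by positivity)]; congr 1; ring
    rw [e1 w1' hw1', e1 w1 hw1]
    have t3 : (w1' * s) ^ (q1 - q2) ≤ (w1 * s) ^ (q1 - q2) :=
      Real.rpow_le_rpow (by positivity) (mul_le_mul_of_nonneg_right g5 hs.le) (by linarith)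
    have t4 : (w1' * s) ^ q2 * (w2' * s) ^ q2 ≤ x ^ q2 * ((w1 * s) ^ q2 * (w2 * s) ^ q2) := by
      rw [← Real.mul_rpow (by positivity) (by positivity),
        ← Real.mul_rpow (by positivity) (by positivity),
        ← Real.mul_rpow (by positivity) (by positivity)]
      refine Real.rpow_le_rpow (by positivity) ?_ h2
      have := mul_le_mul_of_nonneg_right g7 (by positivity : 0 ≤ s * s)
      linarith
    have p1 : 0 ≤ (w1' * s) ^ (q1 - q2) := by positivity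
    have p2 : 0 ≤ x ^ q2 * ((w1 * s) ^ q2 * (w2 * s) ^ q2) := by positivity
    calc (w1' * s) ^ (q1 - q2) * (w1' * s) ^ q2 * (w2' * s) ^ q2
        = (w1' * s) ^ (q1 - q2) * ((w1' * s) ^ q2 * (w2' * s) ^ q2) := by ring
      _ ≤ (w1 * s) ^ (q1 - q2) * (x ^ q2 * ((w1 * s) ^ q2 * (w2 * s) ^ q2)) :=
          mul_le_mul t3 t4 (by positivity) (by positivity)
      _ = _ := by ring
  calc (a' * s) ^ q0 * (w1' * s) ^ q1 * (w2' * s) ^ q2
      = (a' * s) ^ q0 * ((w1' * s) ^ q1 * (w2' * s) ^ q2) := by ring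
    _ ≤ (3 ^ q0 * (a * s) ^ q0) * (x ^ q2 * ((w1 * s) ^ q1 * (w2 * s) ^ q2)) :=
        mul_le_mul t1 t2 (by positivity) (by positivity)
    _ = _ := by ring

end Crest.Agent.R136.Nd565
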