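import Mathlib
import Crest.Agent.R136.Sh6_605

-- ▼ part R136/Nd1_565
section

/-!
# R136 / U5, non-degeneracy of near-maximal sheets (214's (3.0)): abstract pair count (helper565)

`A` = lines of a class, `X` = small boxes, `inc t x` = the line `t` meets the box `x`. Every line
meets at least `H` boxes; in every box at least a quarter of the pairs of lines is in the relation
`St` (the second line lies in a strip around a fixed plane of the first one). Two lines of dyadic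
angle `2^{-k}` have at most `K 2^k` common boxes, and the strip of a line contains at most
`S 2^{-(1+q) j}` lines of angle at most `2^{-j}`. Then `#A H² ≤ 4 K S (1 - 2^{-q})⁻¹ #X`.
-/

set_option autoImplicit false
set_option linter.unusedVariables false

open Finset

namespace Crest.Agent.R136.Nd565

/-- sum of `2^k` over a family whose dyadic tails are `≤ S 2^{-(1+q) j}` -/
theorem sum_two_pow_le {ι : Type*} (B : Finset ι) (k : ι → ℕ) {S q : ℝ} (hS : 0 ≤ S) (hq : 0 < q)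
    (h : ∀ j : ℕ, ((B.filter fun t => j ≤ k t).card : ℝ) ≤ S * ((2 : ℝ) ^ (-(1 + q))) ^ j) :
    (∑ t ∈ B, (2 : ℝ) ^ (k t)) ≤ S * (1 - (2 : ℝ) ^ (-q))⁻¹ := by
  classical
  set N := B.sup k with hN
  have hk : ∀ t ∈ B, k t ∈ range (N + 1) := fun t ht =>
    mem_range.2 (Nat.lt_succ_of_le (le_sup (f := k) ht))
  have h1 : (∑ t ∈ B, (2 : ℝ) ^ (k t)) = ∑ j ∈ range (N + 1), ∑ t ∈ B.filter (fun t => k t = j),
      (2 : ℝ) ^ (k t) := (sum_fiberwise_of_maps_to hk _).symm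
  have hlt : (2 : ℝ) ^ (-q) < 1 := Real.rpow_lt_one_of_one_lt_of_neg (by norm_num) (by linarith)
  have hpos : (0 : ℝ) < (2 : ℝ) ^ (-q) := Real.rpow_pos_of_pos (by norm_num) _
  have h2 : ∀ j ∈ range (N + 1), (∑ t ∈ B.filter (fun t => k t = j), (2 : ℝ) ^ (k t)) ≤
      S * ((2 : ℝ) ^ (-q)) ^ j := by
    intro j _
    have e1 : (∑ t ∈ B.filter (fun t => k t = j), (2 : ℝ) ^ (k t)) =
        ((B.filter fun t => k t = j).card : ℝ) * 2 ^ j := by
      rw [sum_congr rfl (g := fun _ => (2 : ℝ) ^ j), sum_const, nsmul_eq_mul]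
      intro t ht
      rw [(mem_filter.1 ht).2]
    have e2 : ((B.filter fun t => k t = j).card : ℝ) ≤ S * ((2 : ℝ) ^ (-(1 + q))) ^ j := by
      refine le_trans ?_ (h j)
      have : (B.filter fun t => k t = j) ⊆ (B.filter fun t => j ≤ k t) := by
        intro t ht
        rw [mem_filter] at ht ⊢
        exact ⟨ht.1, ht.2.ge⟩
      exact_mod_cast card_le_card this
    have e3 : ((2 : ℝ) ^ (-(1 + q))) * 2 = (2 : ℝ) ^ (-q) := by
      have : (2 : ℝ) ^ (-(1 + q)) * (2 : ℝ) ^ (1 : ℝ) = (2 : ℝ) ^ (-(1 + q) + 1) :=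
        (Real.rpow_add (by norm_num) _ _).symm
      rw [Real.rpow_one] at this
      rw [this]; congr 1; ring
    rw [e1]
    calc ((B.filter fun t => k t = j).card : ℝ) * 2 ^ j
        ≤ S * ((2 : ℝ) ^ (-(1 + q))) ^ j * 2 ^ j :=
          mul_le_mul_of_nonneg_right e2 (by positivity)
      _ = S * (((2 : ℝ) ^ (-(1 + q))) * 2) ^ j := by rw [mul_pow]; ring
      _ = S * ((2 : ℝ) ^ (-q)) ^ j := by rw [e3]
  rw [h1]
  refine (sum_le_sum h2).trans ?_
  rw [← mul_sum]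
  refine mul_le_mul_of_nonneg_left ?_ hS
  have h3 := (hasSum_geometric_of_lt_one hpos.le hlt)
  exact h3.tsum_eq ▸ (h3.summable.sum_le_tsum _ (fun i _ => by positivity))

/-- **pair count.** -/
theorem pair_count {ι β : Type*} (A : Finset ι) (X : Finset β) (inc : ι → β → Prop)
    (St : ι → ι → Prop) (k : ι → ι → ℕ) [DecidableEq ι] [∀ t x, Decidable (inc t x)]
    [∀ t t', Decidable (St t t')] {H K S q : ℝ} (hH : 0 ≤ H)
    (hK : 0 ≤ K) (hS : 0 ≤ S) (hq : 0 < q)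
    (hinc : ∀ t ∈ A, H ≤ ((X.filter fun x => inc t x).card : ℝ))
    (hpair : ∀ x ∈ X, ((A.filter fun t => inc t x).card : ℝ) ^ 2 ≤
      4 * (((A ×ˢ A).filter fun p => inc p.1 x ∧ inc p.2 x ∧ St p.1 p.2).card : ℝ))
    (hcom : ∀ t ∈ A, ∀ t' ∈ A, St t t' →
      ((X.filter fun x => inc t x ∧ inc t' x).card : ℝ) ≤ K * 2 ^ (k t t'))
    (hst : ∀ t ∈ A, ∀ j : ℕ, ((A.filter fun t' => St t t' ∧ j ≤ k t t').card : ℝ) ≤
      S * ((2 : ℝ) ^ (-(1 + q))) ^ j) :
    (A.card : ℝ) * H ^ 2 ≤ 4 * K * S * (1 - (2 : ℝ) ^ (-q))⁻¹ * (X.card : ℝ) := by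
  classical
  rcases A.eq_empty_or_nonempty with rfl | hA
  · have hlt : (2 : ℝ) ^ (-q) < 1 := Real.rpow_lt_one_of_one_lt_of_neg (by norm_num) (by linarith)
    have : (0 : ℝ) ≤ (1 - (2 : ℝ) ^ (-q))⁻¹ := inv_nonneg.2 (by linarith)
    simp only [card_empty, Nat.cast_zero, zero_mul]
    positivity
  have hApos : (0 : ℝ) < (A.card : ℝ) := by exact_mod_cast card_pos.2 hA
  -- double counting of incidences
  have h1 : (A.card : ℝ) * H ≤ ∑ x ∈ X, ((A.filter fun t => inc t x).card : ℝ) := by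
    have e : (∑ x ∈ X, ((A.filter fun t => inc t x).card : ℝ)) =
        ∑ t ∈ A, ((X.filter fun x => inc t x).card : ℝ) := by
      have := Finset.sum_card_bipartiteAbove_eq_sum_card_bipartiteBelow (s := A) (t := X)
        (fun t x => inc t x)
      simp only [bipartiteAbove, bipartiteBelow] at this
      exact_mod_cast this.symm
    rw [e]
    calc (A.card : ℝ) * H = ∑ t ∈ A, H := by rw [sum_const, nsmul_eq_mul]
      _ ≤ _ := sum_le_sum hinc
  -- Cauchy-Schwarz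
  have h2 : (∑ x ∈ X, ((A.filter fun t => inc t x).card : ℝ)) ^ 2 ≤
      (X.card : ℝ) * ∑ x ∈ X, ((A.filter fun t => inc t x).card : ℝ) ^ 2 :=
    sq_sum_le_card_mul_sum_sq
  -- pairs
  have h3 : (∑ x ∈ X, ((A.filter fun t => inc t x).card : ℝ) ^ 2) ≤
      4 * ∑ p ∈ (A ×ˢ A).filter (fun p => St p.1 p.2),
        ((X.filter fun x => inc p.1 x ∧ inc p.2 x).card : ℝ) := by
    refine (sum_le_sum hpair).trans ?_
    rw [← mul_sum]
    refine mul_le_mul_of_nonneg_left (le_of_eq ?_) (by norm_num)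
    have := Finset.sum_card_bipartiteAbove_eq_sum_card_bipartiteBelow
      (s := (A ×ˢ A).filter (fun p => St p.1 p.2)) (t := X)
      (fun p x => inc p.1 x ∧ inc p.2 x)
    simp only [bipartiteAbove, bipartiteBelow] at this
    have e : ∀ x, (((A ×ˢ A).filter fun p => inc p.1 x ∧ inc p.2 x ∧ St p.1 p.2)) =
        (((A ×ˢ A).filter (fun p => St p.1 p.2)).filter fun p => inc p.1 x ∧ inc p.2 x) := by
      intro x
      rw [filter_filter]
      refine filter_congr fun p _ => ?_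
      tauto
    simp only [e]
    exact_mod_cast this.symm
  have h4 : (∑ p ∈ (A ×ˢ A).filter (fun p => St p.1 p.2),
      ((X.filter fun x => inc p.1 x ∧ inc p.2 x).card : ℝ)) ≤
      (A.card : ℝ) * (K * (S * (1 - (2 : ℝ) ^ (-q))⁻¹)) := by
    rw [sum_filter, sum_product]
    have : ∀ t ∈ A, (∑ t' ∈ A, if St t t' then
        ((X.filter fun x => inc t x ∧ inc t' x).card : ℝ) else 0) ≤
        K * (S * (1 - (2 : ℝ) ^ (-q))⁻¹) := by
      intro t ht
      rw [← sum_filter]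
      calc (∑ t' ∈ A.filter (fun t' => St t t'),
            ((X.filter fun x => inc t x ∧ inc t' x).card : ℝ))
          ≤ ∑ t' ∈ A.filter (fun t' => St t t'), K * 2 ^ (k t t') :=
            sum_le_sum fun t' ht' => hcom t ht t' (mem_filter.1 ht').1 (mem_filter.1 ht').2
        _ = K * ∑ t' ∈ A.filter (fun t' => St t t'), (2 : ℝ) ^ (k t t') := by rw [mul_sum]
        _ ≤ K * (S * (1 - (2 : ℝ) ^ (-q))⁻¹) := by
            refine mul_le_mul_of_nonneg_left (sum_two_pow_le _ _ hS hq fun j => ?_) hK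
            have := hst t ht j
            rw [filter_filter]
            exact this
    refine (sum_le_sum this).trans ?_
    rw [sum_const, nsmul_eq_mul]
  have h5 : ((A.card : ℝ) * H) ^ 2 ≤
      (X.card : ℝ) * (4 * ((A.card : ℝ) * (K * (S * (1 - (2 : ℝ) ^ (-q))⁻¹)))) := by
    calc ((A.card : ℝ) * H) ^ 2 ≤ (∑ x ∈ X, ((A.filter fun t => inc t x).card : ℝ)) ^ 2 :=
          pow_le_pow_left₀ (by positivity) h1 2
      _ ≤ _ := h2
      _ ≤ _ := mul_le_mul_of_nonneg_left (h3.trans (mul_le_mul_of_nonneg_left h4 (by norm_num)))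
          (by positivity)
  have h6 : (A.card : ℝ) * ((A.card : ℝ) * H ^ 2) ≤
      (A.card : ℝ) * (4 * K * S * (1 - (2 : ℝ) ^ (-q))⁻¹ * (X.card : ℝ)) := by
    calc (A.card : ℝ) * ((A.card : ℝ) * H ^ 2) = ((A.card : ℝ) * H) ^ 2 := by ring
      _ ≤ _ := h5
      _ = _ := by ring
  exact le_of_mul_le_mul_left h6 hApos

end Crest.Agent.R136.Nd565
end

-- ▼ part R136/Ndc1_335
section

/-!
# R136 / U5, non-degeneracy (214's (3.0)), Dg3: cells, common cells and the abstract conclusion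
(helper335)

Lines are given by their normalised lateral coordinates `x k t + (s / 128) v k t` (`k = 1, 2`) at the
height `s ∈ [0, 1]` of a sub-cell (`v` = velocity with respect to the full cell, which is `128` times
longer). `nd_abs`: if in every small cell (side `2^{-J}`) a quarter of the pairs is in the relation
`St`, and the lines in relation with a given line, meeting it in a small cell, with angle at most
`2^{-j}`, are at most `S 2^{-(1+q) j}`, then `#A ≤ C S (1 - 2^{-q})⁻¹ 2^J`.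
-/

set_option autoImplicit false
set_option linter.unusedVariables false

open Finset

namespace Crest.Agent.R136.Ndc335

/-- a set of naturals of small diameter -/
theorem card_le_of_diam (I : Finset ℕ) (M : ℕ) (h : ∀ i ∈ I, ∀ i' ∈ I, i' < i + M) :
    I.card ≤ M := by
  rcases I.eq_empty_or_nonempty with h0 | hne
  · rw [h0]; simp
  · have hsub : I ⊆ Ico (I.min' hne) (I.min' hne + M) := by
      intro i hi
      exact mem_Ico.2 ⟨I.min'_le i hi, h _ (I.min'_mem hne) i hi⟩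
    refine (card_le_card hsub).trans ?_
    rw [Nat.card_Ico]; omega

/-- equal codes: close -/
theorem close_of_floor {J : ℕ} {x y : ℝ} (h : ⌊(2:ℝ) ^ J * x⌋ = ⌊(2:ℝ) ^ J * y⌋) :
    |x - y| ≤ 1 / 2 ^ J := by
  have h1 := Int.abs_sub_lt_one_of_floor_eq_floor h
  have hp : (0:ℝ) < 2 ^ J := by positivity
  rw [← mul_sub, abs_mul, abs_of_pos hp] at h1
  rw [le_div_iff₀ hp]
  linarith

/-- range of the codes -/
theorem floor_mem {J : ℕ} {x : ℝ} (h : |x| ≤ 1) :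
    ⌊(2:ℝ) ^ J * x⌋ ∈ Icc (-(2:ℤ) ^ J) (2 ^ J) := by
  have hp : (0:ℝ) < 2 ^ J := by positivity
  have h1 := abs_le.1 h
  rw [mem_Icc]
  constructor
  · rw [Int.le_floor]; push_cast; nlinarith
  · have : ⌊(2:ℝ) ^ J * x⌋ ≤ ⌊((2:ℤ) ^ J : ℝ)⌋ := by
      apply Int.floor_le_floor
      push_cast; nlinarith
    have h2 : ⌊((2:ℤ) ^ J : ℝ)⌋ = (2:ℤ) ^ J := by
      have : ((2:ℤ) ^ J : ℝ) = (((2:ℤ) ^ J : ℤ) : ℝ) := by push_cast; rfl
      rw [this, Int.floor_intCast]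
    omega

section main

variable {ι : Type*} (x1 x2 v1 v2 : ι → ℝ) (J : ℕ)

/-- incidence of a line and a small cell -/
def inc (t : ι) (x : ℕ × ℤ × ℤ) : Prop :=
  ⌊(2:ℝ) ^ J * (x1 t + ((x.1 : ℝ) / 2 ^ J) / 128 * v1 t)⌋ = x.2.1 ∧
    ⌊(2:ℝ) ^ J * (x2 t + ((x.1 : ℝ) / 2 ^ J) / 128 * v2 t)⌋ = x.2.2

/-- the small cells -/
noncomputable def cells : Finset (ℕ × ℤ × ℤ) :=
  range (2 ^ J) ×ˢ (Icc (-(2:ℤ) ^ J) (2 ^ J) ×ˢ Icc (-(2:ℤ) ^ J) (2 ^ J))

theorem card_cells : ((cells J).card : ℝ) ≤ 9 * 8 ^ J := by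
  unfold cells
  rw [card_product, card_product, card_range, Int.card_Icc]
  have h1 : ((2:ℤ) ^ J + 1 - -(2:ℤ) ^ J).toNat = 2 * 2 ^ J + 1 := by
    have : (2:ℤ) ^ J + 1 - -(2:ℤ) ^ J = ((2 * 2 ^ J + 1 : ℕ) : ℤ) := by push_cast; ring
    rw [this, Int.toNat_natCast]
  rw [h1]
  push_cast
  have hp : (1:ℝ) ≤ 2 ^ J := one_le_pow₀ (by norm_num)
  have h8 : (8:ℝ) ^ J = 2 ^ J * 2 ^ J * 2 ^ J := by
    rw [← mul_pow, ← mul_pow]; norm_num
  rw [h8]
  have h2 : (2 * 2 ^ J + 1 : ℝ) ≤ 3 * 2 ^ J := by linarith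
  calc (2:ℝ) ^ J * ((2 * 2 ^ J + 1) * (2 * 2 ^ J + 1)) ≤ 2 ^ J * ((3 * 2 ^ J) * (3 * 2 ^ J)) := by
        gcongr
    _ = _ := by ring

/-- dyadic angle of two lines, at most `J` -/
noncomputable def ang (t t' : ι) : ℕ := by
  classical
  exact Nat.findGreatest (fun k => |v1 t' - v1 t| ≤ 1 / 2 ^ k ∧ |v2 t' - v2 t| ≤ 1 / 2 ^ k) J

theorem ang_le (t t' : ι) : ang v1 v2 J t t' ≤ J := by
  classical
  unfold ang
  exact Nat.findGreatest_le J

theorem ang_spec {t t' : ι} (h1 : |v1 t' - v1 t| ≤ 1) (h2 : |v2 t' - v2 t| ≤ 1) :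
    |v1 t' - v1 t| ≤ 1 / 2 ^ (ang v1 v2 J t t') ∧ |v2 t' - v2 t| ≤ 1 / 2 ^ (ang v1 v2 J t t') := by
  classical
  unfold ang
  exact Nat.findGreatest_spec (P := fun k => |v1 t' - v1 t| ≤ 1 / 2 ^ k ∧
    |v2 t' - v2 t| ≤ 1 / 2 ^ k) (Nat.zero_le J) (by simpa using ⟨h1, h2⟩)

theorem ang_lt {t t' : ι} (h : ang v1 v2 J t t' < J) :
    1 / 2 ^ (ang v1 v2 J t t' + 1) < |v1 t' - v1 t| ∨
      1 / 2 ^ (ang v1 v2 J t t' + 1) < |v2 t' - v2 t| := by
  classical
  by_contra hc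
  push Not at hc
  have h1 := Nat.findGreatest_is_greatest (P := fun k => |v1 t' - v1 t| ≤ 1 / 2 ^ k ∧
    |v2 t' - v2 t| ≤ 1 / 2 ^ k) (n := J) (k := ang v1 v2 J t t' + 1)
    (by unfold ang; exact Nat.lt_succ_self _) h
  exact h1 hc

/-- heights at which two affine functions of relative slope `u` are close -/
theorem few_heights {d u : ℝ} {k : ℕ} (hu : 1 / 2 ^ (k + 1) < |u|) (I : Finset ℕ)
    (hI : ∀ i ∈ I, |d + ((i : ℝ) / 2 ^ J) / 128 * u| ≤ 1 / 2 ^ J) : I.card ≤ 513 * 2 ^ k := by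
  refine card_le_of_diam I _ fun i hi i' hi' => ?_
  by_contra hc
  rw [not_lt] at hc
  have h1 := hI i hi
  have h2 := hI i' hi'
  have hp : (0:ℝ) < 2 ^ J := by positivity
  have hk : (0:ℝ) < 2 ^ k := by positivity
  have hc' : (i:ℝ) + 513 * 2 ^ k ≤ i' := by exact_mod_cast hc
  have h3 : |((i':ℝ) - i) / 2 ^ J / 128 * u| ≤ 2 / 2 ^ J := by
    have e1 : ((i':ℝ) - i) / 2 ^ J / 128 * u = (d + ((i' : ℝ) / 2 ^ J) / 128 * u) -
        (d + ((i : ℝ) / 2 ^ J) / 128 * u) := by ring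
    rw [e1]
    refine (abs_sub _ _).trans ?_
    have : (2:ℝ) / 2 ^ J = 1 / 2 ^ J + 1 / 2 ^ J := by ring
    rw [this]; linarith
  have hii : (513:ℝ) * 2 ^ k ≤ (i':ℝ) - i := by linarith
  have hii0 : (0:ℝ) ≤ (i':ℝ) - i := by linarith [mul_pos (by norm_num : (0:ℝ) < 513) hk]
  have hnn : 0 ≤ ((i':ℝ) - i) / 2 ^ J / 128 := by positivity
  rw [abs_mul, abs_of_nonneg hnn] at h3
  have h4 : 513 * 2 ^ k / 2 ^ J / 128 * (1 / 2 ^ (k + 1)) ≤ ((i':ℝ) - i) / 2 ^ J / 128 * |u| := by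
    refine mul_le_mul ?_ hu.le (by positivity) hnn
    gcongr
  have e2 : (513:ℝ) * 2 ^ k / 2 ^ J / 128 * (1 / 2 ^ (k + 1)) = (513 / 256) / 2 ^ J := by
    rw [pow_succ]; field_simp; norm_num
  rw [e2] at h4
  have h5 : (513 / 256 : ℝ) / 2 ^ J ≤ 2 / 2 ^ J := h4.trans h3
  have h6 : (513 / 256 : ℝ) ≤ 2 := by
    by_contra hcc
    rw [not_le] at hcc
    exact absurd h5 (not_le.2 (div_lt_div_of_pos_right hcc hp))
  norm_num at h6

open Classical in
/-- **(b)** common cells -/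
theorem common {t t' : ι} :
    (((cells J).filter fun x => inc x1 x2 v1 v2 J t x ∧ inc x1 x2 v1 v2 J t' x).card : ℝ) ≤
      513 * 2 ^ (ang v1 v2 J t t') := by
  set F := (cells J).filter fun x => inc x1 x2 v1 v2 J t x ∧ inc x1 x2 v1 v2 J t' x with hF
  set I := F.image Prod.fst with hI
  have hinj : F.card = I.card := by
    rw [hI, card_image_of_injOn]
    intro x hx y hy hxy
    rw [hF, mem_coe, mem_filter] at hx hy
    obtain ⟨-, ⟨a1, a2⟩, -⟩ := hx
    obtain ⟨-, ⟨b1, b2⟩, -⟩ := hy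
    have hxy' : x.1 = y.1 := hxy
    refine Prod.ext hxy' (Prod.ext ?_ ?_)
    · rw [← a1, ← b1, hxy']
    · rw [← a2, ← b2, hxy']
  have hcl : ∀ i ∈ I, |(x1 t' - x1 t) + ((i : ℝ) / 2 ^ J) / 128 * (v1 t' - v1 t)| ≤ 1 / 2 ^ J ∧
      |(x2 t' - x2 t) + ((i : ℝ) / 2 ^ J) / 128 * (v2 t' - v2 t)| ≤ 1 / 2 ^ J := by
    intro i hi
    rw [hI, mem_image] at hi
    obtain ⟨x, hx, rfl⟩ := hi
    rw [hF, mem_filter] at hx
    obtain ⟨-, ⟨a1, a2⟩, ⟨b1, b2⟩⟩ := hx
    constructor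
    · have := close_of_floor (b1.trans a1.symm)
      convert this using 2; ring
    · have := close_of_floor (b2.trans a2.symm)
      convert this using 2; ring
  rw [hinj]
  rcases lt_or_eq_of_le (ang_le v1 v2 J t t') with hlt | heq
  · rcases ang_lt v1 v2 J hlt with h | h
    · have := few_heights J h I fun i hi => (hcl i hi).1
      exact_mod_cast this
    · have := few_heights J h I fun i hi => (hcl i hi).2
      exact_mod_cast this
  · rw [heq]
    have hsub : I ⊆ range (2 ^ J) := by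
      intro i hi
      rw [hI, mem_image] at hi
      obtain ⟨x, hx, rfl⟩ := hi
      rw [hF, mem_filter, cells, mem_product] at hx
      exact hx.1.1
    have h1 := card_le_card hsub
    rw [card_range] at h1
    have h2 : (I.card : ℝ) ≤ 2 ^ J := by exact_mod_cast h1
    have h3 : (0:ℝ) < 2 ^ J := by positivity
    linarith

open Classical in
/-- **(a)** every line meets `2^J` cells -/
theorem meets {t : ι} (h1 : ∀ s : ℝ, 0 ≤ s → s ≤ 1 → |x1 t + s / 128 * v1 t| ≤ 1)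
    (h2 : ∀ s : ℝ, 0 ≤ s → s ≤ 1 → |x2 t + s / 128 * v2 t| ≤ 1) :
    (2:ℝ) ^ J ≤ (((cells J).filter fun x => inc x1 x2 v1 v2 J t x).card : ℝ) := by
  have hsub : (range (2 ^ J)).image (fun i : ℕ =>
      (i, ⌊(2:ℝ) ^ J * (x1 t + ((i : ℝ) / 2 ^ J) / 128 * v1 t)⌋,
        ⌊(2:ℝ) ^ J * (x2 t + ((i : ℝ) / 2 ^ J) / 128 * v2 t)⌋)) ⊆
      (cells J).filter fun x => inc x1 x2 v1 v2 J t x := by
    intro x hx
    rw [mem_image] at hx
    obtain ⟨i, hi, rfl⟩ := hx
    rw [mem_range] at hi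
    have hp : (0:ℝ) < 2 ^ J := by positivity
    have hs : (i:ℝ) / 2 ^ J ≤ 1 := by
      rw [div_le_one hp]; exact_mod_cast hi.le
    have hs0 : (0:ℝ) ≤ (i:ℝ) / 2 ^ J := by positivity
    rw [mem_filter, cells, mem_product, mem_product]
    exact ⟨⟨mem_range.2 hi, floor_mem (h1 _ hs0 hs), floor_mem (h2 _ hs0 hs)⟩, rfl, rfl⟩
  have hc := card_le_card hsub
  rw [card_image_of_injective _ (fun i j hij => (Prod.ext_iff.1 hij).1), card_range] at hc
  exact_mod_cast hc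

/-- popular fibre -/
theorem exists_fiber {κ : Type*} [DecidableEq κ] (A : Finset ι) (f : ι → κ) (T : Finset κ)
    (hT : T.Nonempty) (h : ∀ t ∈ A, f t ∈ T) :
    ∃ y ∈ T, (A.card : ℝ) ≤ T.card * ((A.filter fun t => f t = y).card : ℝ) := by
  have hpos : (0:ℝ) < T.card := by exact_mod_cast hT.card_pos
  obtain ⟨y, hy, h1⟩ := exists_le_card_fiber_of_nsmul_le_card_of_maps_to (b := (A.card : ℝ) / T.card)
    h hT (by rw [nsmul_eq_mul]; field_simp; exact le_refl _)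
  refine ⟨y, hy, ?_⟩
  rw [div_le_iff₀ hpos] at h1
  linarith

open Classical in
/-- pigeonhole on the velocities -/
theorem vel_fiber (A : Finset ι) (n : ℕ) (hn : 0 < n) (hv1 : ∀ t ∈ A, |v1 t| ≤ 2)
    (hv2 : ∀ t ∈ A, |v2 t| ≤ 2) :
    ∃ A' ⊆ A, (A.card : ℝ) ≤ (4 * n + 1) ^ 2 * (A'.card : ℝ) ∧
      ∀ t ∈ A', ∀ t' ∈ A', |v1 t' - v1 t| ≤ 1 / n ∧ |v2 t' - v2 t| ≤ 1 / n := by
  have hn' : (0:ℝ) < n := by exact_mod_cast hn
  have hcode : ∀ v : ℝ, |v| ≤ 2 → ⌊(n:ℝ) * v⌋ ∈ Icc (-(2 * n) : ℤ) (2 * n) := by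
    intro v hv
    have := abs_le.1 hv
    rw [mem_Icc]
    constructor
    · rw [Int.le_floor]; push_cast; nlinarith
    · have h1 : ⌊(n:ℝ) * v⌋ ≤ ⌊((2 * n : ℤ) : ℝ)⌋ := Int.floor_le_floor (by push_cast; nlinarith)
      rw [Int.floor_intCast] at h1
      exact h1
  obtain ⟨y, hy, hA'⟩ := exists_fiber A (fun t => (⌊(n:ℝ) * v1 t⌋, ⌊(n:ℝ) * v2 t⌋))
    (Icc (-(2 * n) : ℤ) (2 * n) ×ˢ Icc (-(2 * n) : ℤ) (2 * n))
    ⟨(0, 0), by simp only [mem_product, mem_Icc]; omega⟩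
    (fun t ht => mem_product.2 ⟨hcode _ (hv1 t ht), hcode _ (hv2 t ht)⟩)
  refine ⟨A.filter fun t => (⌊(n:ℝ) * v1 t⌋, ⌊(n:ℝ) * v2 t⌋) = y, filter_subset _ _, ?_, ?_⟩
  · have hcardT : ((Icc (-(2 * n) : ℤ) (2 * n) ×ˢ Icc (-(2 * n) : ℤ) (2 * n)).card : ℝ) =
        (4 * n + 1) ^ 2 := by
      rw [card_product, Int.card_Icc]
      have : ((2 * n : ℤ) + 1 - -(2 * n)).toNat = 4 * n + 1 := by omega
      rw [this]; push_cast; ring
    rw [hcardT] at hA'
    exact hA'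
  · intro t ht t' ht'
    rw [mem_filter] at ht ht'
    have h1 : ⌊(n:ℝ) * v1 t'⌋ = ⌊(n:ℝ) * v1 t⌋ := (Prod.ext_iff.1 (ht'.2.trans ht.2.symm)).1
    have h2 : ⌊(n:ℝ) * v2 t'⌋ = ⌊(n:ℝ) * v2 t⌋ := (Prod.ext_iff.1 (ht'.2.trans ht.2.symm)).2
    have g1 := Int.abs_sub_lt_one_of_floor_eq_floor h1
    have g2 := Int.abs_sub_lt_one_of_floor_eq_floor h2
    rw [← mul_sub, abs_mul, abs_of_pos hn'] at g1 g2
    rw [le_div_iff₀ hn', le_div_iff₀ hn']
    constructor <;> linarith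

open Classical in
/-- **abstract conclusion** -/
theorem nd_abs (A : Finset ι) (St : ι → ι → Prop) {q Sb : ℝ} (n : ℕ) (hn : 0 < n) (hq : 0 < q)
    (hSb : 0 ≤ Sb)
    (hx1 : ∀ t ∈ A, ∀ s : ℝ, 0 ≤ s → s ≤ 1 → |x1 t + s / 128 * v1 t| ≤ 1)
    (hx2 : ∀ t ∈ A, ∀ s : ℝ, 0 ≤ s → s ≤ 1 → |x2 t + s / 128 * v2 t| ≤ 1)
    (hv1 : ∀ t ∈ A, |v1 t| ≤ 2) (hv2 : ∀ t ∈ A, |v2 t| ≤ 2)
    (hpair : ∀ B ⊆ A, ∀ s : ℝ, 0 ≤ s → s ≤ 1 → (∀ t ∈ B, ∀ t' ∈ B,
        |(x1 t' + s / 128 * v1 t') - (x1 t + s / 128 * v1 t)| ≤ 1 / 2 ^ J ∧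
        |(x2 t' + s / 128 * v2 t') - (x2 t + s / 128 * v2 t)| ≤ 1 / 2 ^ J) →
      (B.card : ℝ) ^ 2 ≤ 4 * (((B ×ˢ B).filter fun p => St p.1 p.2).card : ℝ))
    (hst : ∀ t ∈ A, ∀ B ⊆ A, ∀ j : ℕ, j ≤ J → (∀ t' ∈ B, St t t' ∧
        (∃ s : ℝ, 0 ≤ s ∧ s ≤ 1 ∧ |(x1 t' + s / 128 * v1 t') - (x1 t + s / 128 * v1 t)| ≤ 1 / 2 ^ J ∧
          |(x2 t' + s / 128 * v2 t') - (x2 t + s / 128 * v2 t)| ≤ 1 / 2 ^ J) ∧
        |v1 t' - v1 t| ≤ 1 / 2 ^ j ∧ |v2 t' - v2 t| ≤ 1 / 2 ^ j ∧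
        |v1 t' - v1 t| ≤ 1 / n ∧ |v2 t' - v2 t| ≤ 1 / n) →
      (B.card : ℝ) ≤ Sb * ((2 : ℝ) ^ (-(1 + q))) ^ j) :
    (A.card : ℝ) ≤ (4 * n + 1) ^ 2 * (18468 * Sb * (1 - (2 : ℝ) ^ (-q))⁻¹ * 2 ^ J) := by
  -- velocities
  obtain ⟨A', hAA, hA', hclose⟩ := vel_fiber v1 v2 A n hn hv1 hv2
  have hn1 : (1:ℝ) / n ≤ 1 := by
    rw [div_le_one (by exact_mod_cast hn)]; exact_mod_cast hn
  refine hA'.trans (mul_le_mul_of_nonneg_left ?_ (by positivity))
  -- the pair count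
  set St' : ι → ι → Prop := fun t t' => St t t' ∧ ∃ x ∈ cells J, inc x1 x2 v1 v2 J t x ∧
    inc x1 x2 v1 v2 J t' x with hSt'
  have hpc := Nd565.pair_count A' (cells J) (inc x1 x2 v1 v2 J) St' (ang v1 v2 J)
    (H := 2 ^ J) (K := 513) (S := Sb) (q := q) (by positivity) (by norm_num) hSb hq
    (fun t ht => meets x1 x2 v1 v2 J (hx1 t (hAA ht)) (hx2 t (hAA ht)))
    (by
      intro x hx
      have hx' := hx
      rw [cells, mem_product, mem_range] at hx'
      have hp : (0:ℝ) < 2 ^ J := by positivity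
      have hs : (x.1:ℝ) / 2 ^ J ≤ 1 := by
        rw [div_le_one hp]; exact_mod_cast hx'.1.le
      have hs0 : (0:ℝ) ≤ (x.1:ℝ) / 2 ^ J := by positivity
      have h1 := hpair (A'.filter fun t => inc x1 x2 v1 v2 J t x)
        ((filter_subset _ _).trans hAA) _ hs0 hs (by
          intro t ht t' ht'
          rw [mem_filter] at ht ht'
          exact ⟨close_of_floor (ht'.2.1.trans ht.2.1.symm),
            close_of_floor (ht'.2.2.trans ht.2.2.symm)⟩)
      refine h1.trans (mul_le_mul_of_nonneg_left ?_ (by norm_num))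
      have hsub : ((A'.filter fun t => inc x1 x2 v1 v2 J t x) ×ˢ
          (A'.filter fun t => inc x1 x2 v1 v2 J t x)).filter (fun p => St p.1 p.2) ⊆
          (A' ×ˢ A').filter fun p => inc x1 x2 v1 v2 J p.1 x ∧ inc x1 x2 v1 v2 J p.2 x ∧
            St' p.1 p.2 := by
        intro p hp
        rw [mem_filter, mem_product, mem_filter, mem_filter] at hp
        rw [mem_filter, mem_product]
        exact ⟨⟨hp.1.1.1, hp.1.2.1⟩, hp.1.1.2, hp.1.2.2, hp.2, x, hx, hp.1.1.2, hp.1.2.2⟩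
      exact_mod_cast card_le_card hsub)
    (fun t ht t' ht' _ => common x1 x2 v1 v2 J)
    (by
      intro t ht j
      by_cases hj : j ≤ J
      · refine hst t (hAA ht) _ ((filter_subset _ _).trans hAA) j hj ?_
        intro t' ht'
        rw [mem_filter] at ht'
        obtain ⟨ht'A, ⟨hS, x, hx, hxt, hxt'⟩, hang⟩ := ht'
        have hcl := hclose t ht t' ht'A
        have hsp := ang_spec v1 v2 J (t := t) (t' := t') (hcl.1.trans hn1) (hcl.2.trans hn1)
        have hmono : (1:ℝ) / 2 ^ (ang v1 v2 J t t') ≤ 1 / 2 ^ j :=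
          one_div_le_one_div_of_le (by positivity) (pow_le_pow_right₀ (by norm_num) hang)
        have hx' := hx
        rw [cells, mem_product, mem_range] at hx'
        have hp : (0:ℝ) < 2 ^ J := by positivity
        have hs : (x.1:ℝ) / 2 ^ J ≤ 1 := by
          rw [div_le_one hp]; exact_mod_cast hx'.1.le
        have hs0 : (0:ℝ) ≤ (x.1:ℝ) / 2 ^ J := by positivity
        exact ⟨hS, ⟨_, hs0, hs, close_of_floor (hxt'.1.trans hxt.1.symm),
          close_of_floor (hxt'.2.trans hxt.2.symm)⟩, hsp.1.trans hmono, hsp.2.trans hmono,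
          hcl.1, hcl.2⟩
      · have h0 : (A'.filter fun t' => St' t t' ∧ j ≤ ang v1 v2 J t t') = ∅ := by
          rw [filter_eq_empty_iff]
          rintro t' - ⟨-, h⟩
          exact hj (h.trans (ang_le v1 v2 J t t'))
        rw [h0]
        simp only [card_empty, Nat.cast_zero]
        positivity)
  have hX := card_cells J
  have hlt : (2 : ℝ) ^ (-q) < 1 := Real.rpow_lt_one_of_one_lt_of_neg (by norm_num) (by linarith)
  have hinv : (0 : ℝ) ≤ (1 - (2 : ℝ) ^ (-q))⁻¹ := inv_nonneg.2 (by linarith)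
  have h4 : (A'.card : ℝ) * (2 ^ J) ^ 2 ≤
      4 * 513 * Sb * (1 - (2 : ℝ) ^ (-q))⁻¹ * (9 * 8 ^ J) :=
    hpc.trans (mul_le_mul_of_nonneg_left hX (by positivity))
  have h8 : (8:ℝ) ^ J = 2 ^ J * (2 ^ J) ^ 2 := by
    rw [← pow_mul, ← pow_add, mul_comm J 2, show J + 2 * J = 3 * J by ring, pow_mul]; norm_num
  rw [h8] at h4
  have hp2 : (0:ℝ) < (2 ^ J) ^ 2 := by positivity
  refine le_of_mul_le_mul_right (h4.trans (le_of_eq ?_)) hp2
  ring

end main

end Crest.Agent.R136.Ndc335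
end

-- ▼ part R136/Ndc2_335

/-!
# R136 / U5, non-degeneracy (214's (3.0)), Dg3: conclusion for lines of `ℝ⁴` (helper335)

`nd_lines`: `Ndc335.nd_abs` for lines in a box with axes `e` around a centre line; the count of the
lines in a strip around a line (`strip_count`) and the flatness predicate are parameters, so the
statement does not depend on the class of sheets.
-/

set_option autoImplicit false
set_option linter.unusedVariables false

open Finset

namespace Crest.Agent.R136.Ndc335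

open Sh605

variable {ι : Type}

/-- difference of two lines in an axis, at two heights -/
theorem dt_pos_diff (f : V3) (t t' : Ln4) (z z' : ℝ) :
    dt f (t'.pos z - t.pos z) = dt f (t'.pos z' - t.pos z') + (z - z') * dt f (t'.v - t.v) := by
  simp only [dt, Pi.sub_apply, Ln4.pos]; ring

theorem abs_add_n {nA nB : ℝ} (h : nA ^ 2 + nB ^ 2 = 1) : |nA| + |nB| ≤ 3 / 2 := by
  have h1 := sq_abs nA
  have h2 := sq_abs nB
  nlinarith [sq_nonneg (|nA| - |nB|), abs_nonneg nA, abs_nonneg nB]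

theorem comb_le {nA nB x y b : ℝ} (h : nA ^ 2 + nB ^ 2 = 1) (hx : |x| ≤ b) (hy : |y| ≤ b) :
    |nA * x + nB * y| ≤ 3 / 2 * b := by
  have hb : 0 ≤ b := (abs_nonneg _).trans hx
  calc |nA * x + nB * y| ≤ |nA * x| + |nB * y| := abs_add_le _ _
    _ = |nA| * |x| + |nB| * |y| := by rw [abs_mul, abs_mul]
    _ ≤ |nA| * b + |nB| * b := by gcongr
    _ = (|nA| + |nB|) * b := by ring
    _ ≤ 3 / 2 * b := mul_le_mul_of_nonneg_right (abs_add_n h) hb

open Classical in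
/-- **count of the lines of a sheet** in which a quarter of the pairs through every small cell is in
a strip relation. `hstrip` = 565's `strip_count` for one line `t` (direction `nA t, nB t`). -/
theorem nd_lines (A : Finset ι) (L : ι → Ln4) {e : Fin 3 → V3} {c : Ln4} {w : V3}
    {z0 ρ z1 ρ1 : ℝ} (hw1 : 0 < w 1) (hw2 : 0 < w 2) (hρ1 : 0 < ρ1) (hρ : ρ = 128 * ρ1)
    (h01 : z0 ≤ z1) (h02 : z1 + ρ1 ≤ z0 + ρ)
    (hA : ∀ t ∈ A, ∀ z, z0 ≤ z → z ≤ z0 + ρ → |dt (e 1) ((L t).pos z - c.pos z)| ≤ w 1 ∧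
      |dt (e 2) ((L t).pos z - c.pos z)| ≤ w 2)
    {J : ℕ} (hJ : 17 ≤ J) {K σ q2 a W M0 : ℝ} (hK : 1 ≤ K) (hσ : 1 / 2 ^ J ≤ σ) (hq2 : 0 < q2)
    (hW : 0 ≤ W) (ha : a * 2 ^ J ≤ W) (hM0 : 0 ≤ M0)
    (nA nB : ι → ℝ) (hn : ∀ t ∈ A, nA t ^ 2 + nB t ^ 2 = 1) (St : ι → ι → Prop)
    (Flat : ι → ℝ → ℝ → Prop)
    (hpair : ∀ B ⊆ A, ∀ z, z1 ≤ z → z ≤ z1 + ρ1 → (∀ t ∈ B, ∀ t' ∈ B,
        |dt (e 1) ((L t').pos z - (L t).pos z)| ≤ w 1 / 2 ^ J ∧
        |dt (e 2) ((L t').pos z - (L t).pos z)| ≤ w 2 / 2 ^ J) →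
      (B.card : ℝ) ^ 2 ≤ 4 * (((B ×ˢ B).filter fun p => St p.1 p.2).card : ℝ))
    (hSt : ∀ t ∈ A, ∀ t' ∈ A, St t t' →
      |nA t * (ρ * dt (e 1) ((L t').v - (L t).v) / w 1) +
        nB t * (ρ * dt (e 2) ((L t').v - (L t).v) / w 2)| ≤ σ ∧
      Flat t (max |ρ * dt (e 1) ((L t').v - (L t).v) / w 1| |ρ * dt (e 2) ((L t').v - (L t).v) / w 2|)
        (K * σ * W))
    (hscale : ∀ t ∈ A, ∀ β κ, 0 ≤ β → 0 ≤ κ → Flat t β κ → Flat t (2 * β) (6 * κ))
    (hstrip : ∀ t ∈ A, ∀ B ⊆ A, ∀ β σ' K' : ℝ, 0 < β → β ≤ 1 / 40000 → 0 < σ' → 1 ≤ K' →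
      a ≤ β * W → a ≤ σ' * W → (Flat t β (K' * σ' * W) ∨ β ≤ 2 * σ') →
      (∀ t' ∈ B, ∀ z, z1 ≤ z → z ≤ z1 + ρ1 →
        |dt (e 1) ((L t').pos z - (L t).pos z) / w 1| ≤ β ∧
        |dt (e 2) ((L t').pos z - (L t).pos z) / w 2| ≤ β ∧
        |nA t * (dt (e 1) ((L t').pos z - (L t).pos z) / w 1) +
          nB t * (dt (e 2) ((L t').pos z - (L t).pos z) / w 2)| ≤ σ') →
      (B.card : ℝ) ≤ M0 * (240000 * K' * β * σ') ^ (1 + q2)) :
    (A.card : ℝ) ≤ 2 ^ 52 * M0 * (2880000 * K * σ) ^ (1 + q2) * (1 - (2 : ℝ) ^ (-q2))⁻¹ * 2 ^ J := by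
  have hρ0 : 0 < ρ := by rw [hρ]; linarith
  have hp : (0:ℝ) < 2 ^ J := by positivity
  have hσ0 : 0 < σ := lt_of_lt_of_le (by positivity) hσ
  -- coordinates
  set x1 : ι → ℝ := fun t => dt (e 1) ((L t).pos z1 - c.pos z1) / w 1 with hx1
  set x2 : ι → ℝ := fun t => dt (e 2) ((L t).pos z1 - c.pos z1) / w 2 with hx2
  set v1 : ι → ℝ := fun t => ρ * dt (e 1) ((L t).v - c.v) / w 1 with hv1
  set v2 : ι → ℝ := fun t => ρ * dt (e 2) ((L t).v - c.v) / w 2 with hv2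
  have hc1 : ∀ t, ∀ s : ℝ, x1 t + s / 128 * v1 t =
      dt (e 1) ((L t).pos (z1 + s * ρ1) - c.pos (z1 + s * ρ1)) / w 1 := by
    intro t s
    rw [dt_pos_diff (e 1) c (L t) (z1 + s * ρ1) z1, hx1, hv1, hρ]
    simp only
    field_simp; ring
  have hc2 : ∀ t, ∀ s : ℝ, x2 t + s / 128 * v2 t =
      dt (e 2) ((L t).pos (z1 + s * ρ1) - c.pos (z1 + s * ρ1)) / w 2 := by
    intro t s
    rw [dt_pos_diff (e 2) c (L t) (z1 + s * ρ1) z1, hx2, hv2, hρ]
    simp only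
    field_simp; ring
  have hV1 : ∀ t t', v1 t' - v1 t = ρ * dt (e 1) ((L t').v - (L t).v) / w 1 := by
    intro t t'
    rw [hv1]; simp only [dt, Pi.sub_apply]; ring
  have hV2 : ∀ t t', v2 t' - v2 t = ρ * dt (e 2) ((L t').v - (L t).v) / w 2 := by
    intro t t'
    rw [hv2]; simp only [dt, Pi.sub_apply]; ring
  have hD1 : ∀ t t', ∀ s : ℝ, (x1 t' + s / 128 * v1 t') - (x1 t + s / 128 * v1 t) =
      dt (e 1) ((L t').pos (z1 + s * ρ1) - (L t).pos (z1 + s * ρ1)) / w 1 := by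
    intro t t' s
    rw [hc1, hc1, ← sub_div]
    congr 1
    simp only [dt, Pi.sub_apply]; ring
  have hD2 : ∀ t t', ∀ s : ℝ, (x2 t' + s / 128 * v2 t') - (x2 t + s / 128 * v2 t) =
      dt (e 2) ((L t').pos (z1 + s * ρ1) - (L t).pos (z1 + s * ρ1)) / w 2 := by
    intro t t' s
    rw [hc2, hc2, ← sub_div]
    congr 1
    simp only [dt, Pi.sub_apply]; ring
  have hzs : ∀ s : ℝ, 0 ≤ s → s ≤ 1 → z1 ≤ z1 + s * ρ1 ∧ z1 + s * ρ1 ≤ z1 + ρ1 := by
    intro s h0 h1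
    constructor
    · nlinarith
    · nlinarith
  have hXle : ∀ t ∈ A, ∀ s : ℝ, 0 ≤ s → s ≤ 1 → |x1 t + s / 128 * v1 t| ≤ 1 ∧
      |x2 t + s / 128 * v2 t| ≤ 1 := by
    intro t ht s h0 h1
    obtain ⟨g1, g2⟩ := hzs s h0 h1
    have := hA t ht (z1 + s * ρ1) (by linarith) (by linarith)
    rw [hc1, hc2, abs_div, abs_div, abs_of_pos hw1, abs_of_pos hw2, div_le_one hw1, div_le_one hw2]
    exact this
  have hVle : ∀ t ∈ A, |v1 t| ≤ 2 ∧ |v2 t| ≤ 2 := by
    intro t ht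
    have g0 := hA t ht z0 le_rfl (by linarith)
    have g1 := hA t ht (z0 + ρ) (by linarith) le_rfl
    have e1 := dt_pos_diff (e 1) c (L t) (z0 + ρ) z0
    have e2 := dt_pos_diff (e 2) c (L t) (z0 + ρ) z0
    have e1' : ρ * dt (e 1) ((L t).v - c.v) = dt (e 1) ((L t).pos (z0 + ρ) - c.pos (z0 + ρ)) -
        dt (e 1) ((L t).pos z0 - c.pos z0) := by rw [e1]; ring
    have e2' : ρ * dt (e 2) ((L t).v - c.v) = dt (e 2) ((L t).pos (z0 + ρ) - c.pos (z0 + ρ)) -
        dt (e 2) ((L t).pos z0 - c.pos z0) := by rw [e2]; ring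
    constructor
    · rw [hv1]
      simp only
      rw [e1', abs_div, abs_of_pos hw1, div_le_iff₀ hw1]
      exact (abs_sub _ _).trans (by linarith [g0.1, g1.1])
    · rw [hv2]
      simp only
      rw [e2', abs_div, abs_of_pos hw2, div_le_iff₀ hw2]
      exact (abs_sub _ _).trans (by linarith [g0.2, g1.2])
  have hdiv : ∀ {x b : ℝ} (w' : ℝ), 0 < w' → |x / w'| ≤ 1 / 2 ^ J → |x| ≤ w' / 2 ^ J := by
    intro x b w' hw' h
    rw [abs_div, abs_of_pos hw', div_le_iff₀ hw'] at h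
    calc |x| ≤ 1 / 2 ^ J * w' := h
      _ = w' / 2 ^ J := by ring
  have hKσ : 0 ≤ K * σ * W := by positivity
  have main := nd_abs x1 x2 v1 v2 J A St (q := q2)
    (Sb := M0 * (2880000 * K * σ) ^ (1 + q2)) 100000 (by norm_num) hq2 (by positivity)
    (fun t ht s h0 h1 => (hXle t ht s h0 h1).1) (fun t ht s h0 h1 => (hXle t ht s h0 h1).2)
    (fun t ht => (hVle t ht).1) (fun t ht => (hVle t ht).2)
    (by
      intro B hB s h0 h1 h
      obtain ⟨g1, g2⟩ := hzs s h0 h1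
      refine hpair B hB (z1 + s * ρ1) g1 g2 fun t ht t' ht' => ?_
      have := h t ht t' ht'
      rw [hD1, hD2] at this
      exact ⟨hdiv (b := 0) _ hw1 this.1, hdiv (b := 0) _ hw2 this.2⟩)
    (by
      intro t ht B hB j hj hBt
      rcases B.eq_empty_or_nonempty with h0 | hne
      · rw [h0]
        simp only [card_empty, Nat.cast_zero]
        positivity
      -- the largest angle
      obtain ⟨t0, ht0, hmax⟩ := exists_max_image B
        (fun t' => max |v1 t' - v1 t| |v2 t' - v2 t|) hne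
      set bm := max |v1 t0 - v1 t| |v2 t0 - v2 t| with hbm
      have hbm0 : 0 ≤ bm := (abs_nonneg _).trans (le_max_left _ _)
      set b := max bm (1 / 2 ^ J) with hb
      have hb0 : 0 < b := lt_of_lt_of_le (by positivity) (le_max_right _ _)
      have hbmb : bm ≤ b := le_max_left _ _
      have hJb : 1 / 2 ^ J ≤ b := le_max_right _ _
      have h2J : (1:ℝ) / 2 ^ J ≤ 1 / 100000 := by
        have : (100000:ℝ) ≤ 2 ^ J := by
          calc (100000:ℝ) ≤ 2 ^ 17 := by norm_num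
            _ ≤ 2 ^ J := pow_le_pow_right₀ (by norm_num) hJ
        exact one_div_le_one_div_of_le (by norm_num) this
      have e100 : (1:ℝ) / ((100000:ℕ):ℝ) = 1 / 100000 := by norm_num
      have hq1 := (hBt t0 ht0).2.2.2.2.1
      have hq2' := (hBt t0 ht0).2.2.2.2.2
      rw [e100] at hq1 hq2'
      have hbs : b ≤ 1 / 100000 := max_le (max_le hq1 hq2') h2J
      have hbj : b ≤ 1 / 2 ^ j := max_le (max_le (hBt t0 ht0).2.2.1 (hBt t0 ht0).2.2.2.1)
        (one_div_le_one_div_of_le (by positivity) (pow_le_pow_right₀ (by norm_num) hj))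
      have hn' := hn t ht
      have hflat : Flat t (2 * b) (3 * K * (2 * σ) * W) ∨ 2 * b ≤ 2 * (2 * σ) := by
        by_cases hc : 1 / 2 ^ J ≤ bm
        · left
          have eb : b = bm := max_eq_left hc
          have h1 := (hSt t ht t0 (hB ht0) (hBt t0 ht0).1).2
          rw [← hV1, ← hV2] at h1
          have h2 := hscale t ht _ _ hbm0 hKσ h1
          rw [eb]
          have e6 : 3 * K * (2 * σ) * W = 6 * (K * σ * W) := by ring
          rw [e6]
          exact h2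
        · right
          rw [not_le] at hc
          have eb : b = 1 / 2 ^ J := max_eq_right hc.le
          rw [eb]; linarith
      have hmem : ∀ t' ∈ B, ∀ z, z1 ≤ z → z ≤ z1 + ρ1 →
          |dt (e 1) ((L t').pos z - (L t).pos z) / w 1| ≤ 2 * b ∧
          |dt (e 2) ((L t').pos z - (L t).pos z) / w 2| ≤ 2 * b ∧
          |nA t * (dt (e 1) ((L t').pos z - (L t).pos z) / w 1) +
            nB t * (dt (e 2) ((L t').pos z - (L t).pos z) / w 2)| ≤ 2 * σ := by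
        intro t' ht' z hz0 hz1
        obtain ⟨s, hs0, hs1, hzs'⟩ : ∃ s : ℝ, 0 ≤ s ∧ s ≤ 1 ∧ z = z1 + s * ρ1 := by
          refine ⟨(z - z1) / ρ1, by have := sub_nonneg.2 hz0; positivity, ?_, by field_simp; ring⟩
          rw [div_le_one hρ1]; linarith
        obtain ⟨hS, ⟨s', hs'0, hs'1, hc1', hc2'⟩, -, -, -, -⟩ := hBt t' ht'
        have hm := hmax t' ht'
        set X1 := (x1 t' + s / 128 * v1 t') - (x1 t + s / 128 * v1 t) with hX1
        set X2 := (x2 t' + s / 128 * v2 t') - (x2 t + s / 128 * v2 t) with hX2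
        set Y1 := (x1 t' + s' / 128 * v1 t') - (x1 t + s' / 128 * v1 t) with hY1
        set Y2 := (x2 t' + s' / 128 * v2 t') - (x2 t + s' / 128 * v2 t) with hY2
        have eX1 : X1 = Y1 + (s - s') / 128 * (v1 t' - v1 t) := by rw [hX1, hY1]; ring
        have eX2 : X2 = Y2 + (s - s') / 128 * (v2 t' - v2 t) := by rw [hX2, hY2]; ring
        have hu1 : |v1 t' - v1 t| ≤ b := ((le_max_left _ _).trans hm).trans hbmb
        have hu2 : |v2 t' - v2 t| ≤ b := ((le_max_right _ _).trans hm).trans hbmb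
        have hss : |(s - s') / 128| ≤ 1 / 128 := by
          rw [abs_le]; constructor <;> linarith
        have hXb1 : |X1| ≤ 129 / 128 * b := by
          rw [eX1]
          refine (abs_add_le _ _).trans ?_
          rw [abs_mul]
          have h1 : |(s - s') / 128| * |v1 t' - v1 t| ≤ 1 / 128 * b :=
            mul_le_mul hss hu1 (abs_nonneg _) (by norm_num)
          linarith
        have hXb2 : |X2| ≤ 129 / 128 * b := by
          rw [eX2]
          refine (abs_add_le _ _).trans ?_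
          rw [abs_mul]
          have h1 : |(s - s') / 128| * |v2 t' - v2 t| ≤ 1 / 128 * b :=
            mul_le_mul hss hu2 (abs_nonneg _) (by norm_num)
          linarith
        rw [hzs', ← hD1, ← hD2, ← hX1, ← hX2]
        refine ⟨by linarith, by linarith, ?_⟩
        have e1 : nA t * X1 + nB t * X2 = (nA t * Y1 + nB t * Y2) +
            (s - s') / 128 * (nA t * (v1 t' - v1 t) + nB t * (v2 t' - v2 t)) := by
          rw [eX1, eX2]; ring
        rw [e1]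
        refine (abs_add_le _ _).trans ?_
        have h1 := comb_le hn' (hc1'.trans hσ) (hc2'.trans hσ)
        have h2 := (hSt t ht t' (hB ht') hS).1
        rw [← hV1, ← hV2] at h2
        rw [abs_mul]
        have h3 : |(s - s') / 128| * |nA t * (v1 t' - v1 t) + nB t * (v2 t' - v2 t)| ≤
            1 / 128 * σ := mul_le_mul hss h2 (abs_nonneg _) (by norm_num)
        linarith
      have haJ : a ≤ 1 / 2 ^ J * W := by
        rw [one_div, inv_mul_eq_div, le_div_iff₀ hp]; exact ha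
      have ha1 : a ≤ 2 * b * W := haJ.trans (mul_le_mul_of_nonneg_right (by linarith) hW)
      have ha2 : a ≤ 2 * σ * W := haJ.trans (mul_le_mul_of_nonneg_right (by linarith) hW)
      have h1 := hstrip t ht B hB (2 * b) (2 * σ) (3 * K) (by linarith) (by linarith)
        (by linarith) (by linarith) ha1 ha2 hflat hmem
      refine h1.trans ?_
      have h2 : 240000 * (3 * K) * (2 * b) * (2 * σ) ≤ 2880000 * K * σ * (1 / 2 ^ j) := by
        have : 240000 * (3 * K) * (2 * b) * (2 * σ) = 2880000 * K * σ * b := by ring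
        rw [this]
        exact mul_le_mul_of_nonneg_left hbj (by positivity)
      have h3 : (240000 * (3 * K) * (2 * b) * (2 * σ)) ^ (1 + q2) ≤
          (2880000 * K * σ * (1 / 2 ^ j)) ^ (1 + q2) :=
        Real.rpow_le_rpow (by positivity) h2 (by linarith)
      have h4 : (2880000 * K * σ * (1 / 2 ^ j)) ^ (1 + q2) =
          (2880000 * K * σ) ^ (1 + q2) * ((2 : ℝ) ^ (-(1 + q2))) ^ j := by
        rw [Real.mul_rpow (by positivity) (by positivity)]
        congr 1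
        rw [one_div, Real.inv_rpow (by positivity), ← Real.rpow_natCast 2 j,
          ← Real.rpow_natCast ((2:ℝ) ^ (-(1 + q2))) j, ← Real.rpow_mul (by norm_num),
          ← Real.rpow_mul (by norm_num), ← Real.rpow_neg (by norm_num)]
        congr 1; ring
      calc M0 * (240000 * (3 * K) * (2 * b) * (2 * σ)) ^ (1 + q2)
          ≤ M0 * ((2880000 * K * σ) ^ (1 + q2) * ((2 : ℝ) ^ (-(1 + q2))) ^ j) := by
            rw [← h4]; exact mul_le_mul_of_nonneg_left h3 hM0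
        _ = _ := by ring)
  have hlt : (2 : ℝ) ^ (-q2) < 1 := Real.rpow_lt_one_of_one_lt_of_neg (by norm_num) (by linarith)
  have hinv : (0 : ℝ) ≤ (1 - (2 : ℝ) ^ (-q2))⁻¹ := inv_nonneg.2 (by linarith)
  refine main.trans ?_
  have hX : 0 ≤ M0 * (2880000 * K * σ) ^ (1 + q2) * (1 - (2 : ℝ) ^ (-q2))⁻¹ * 2 ^ J := by positivity
  push_cast
  nlinarith [hX]

end Crest.Agent.R136.Ndc335
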