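import Crest.Agent.R136.Deep0_770
import Crest.Agent.R138.ArgM1_163

/-!
# R136 / U5, non-degeneracy (3.0), sequence half: rich sub-cells (helper335)

* `rich_fin` : a part `P` of the deep objects (level `i + k`) which contains almost all of them.  The
  pairs (line, cell of level `i`) which have, in no sub-cell, many near lines of their class in `P`,
  are few.
* `rich_cell` : the same for a marked sequence with deep D-max (`DeepP`).
-/

set_option autoImplicit false
set_option linter.unusedVariables false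
set_option linter.unusedSectionVars false

open Finset Filter Topology

namespace Crest.Agent.R136.Ndc335

open Crest.Agent.R138.Ex926 Crest.Agent.R138.Dp76
open Crest.Agent.R138.Mk163 (zc zl rho alive own Negl)
open Crest.Agent.R138.MkRef627 (lc kc mem_alive card_class alive_mono)
open Crest.Agent.R138.ArgM163 (ev_const_mul ev_const)
open Crest.Agent.R136.MkA627 Crest.Agent.R136.Dia770


/-- a set of pairs which is a small part of all pairs carries a small part of the incidences -/
theorem bad_inc (I : Finset (ℕ × ℝ)) (i : ℕ) (bad : ℕ × ℤ → Prop) [DecidablePred bad]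
    {lo hi κ : ℝ} (hlo : 0 < lo) (hhi : 0 ≤ hi) (hκ : 0 ≤ κ)
    (h1 : ∀ x ∈ I, lo ≤ ((I.filter fun y => lc i y = lc i x).card : ℝ))
    (h2 : ∀ x ∈ I, ((I.filter fun y => lc i y = lc i x).card : ℝ) ≤ hi)
    (h3 : (((I.image (lc i)).filter bad).card : ℝ) ≤ κ * ((I.image (lc i)).card : ℝ)) :
    ((I.filter fun x => bad (lc i x)).card : ℝ) ≤ κ * (hi / lo) * I.card := by
  classical
  have e1 : ((I.filter fun x => bad (lc i x)).card : ℝ) ≤
      (((I.image (lc i)).filter bad).card : ℝ) * hi := by
    have hm : ∀ x ∈ I.filter fun x => bad (lc i x), lc i x ∈ (I.image (lc i)).filter bad := by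
      intro x hx
      rw [mem_filter] at hx
      exact mem_filter.2 ⟨mem_image_of_mem _ hx.1, hx.2⟩
    rw [card_eq_sum_card_fiberwise hm]
    push_cast
    refine (sum_le_sum (g := fun _ => hi) ?_).trans ?_
    · intro o ho
      rw [mem_filter] at ho
      obtain ⟨x, hx, rfl⟩ := mem_image.1 ho.1
      refine le_trans ?_ (h2 x hx)
      exact_mod_cast card_le_card (filter_subset_filter _ (filter_subset _ _))
    · rw [sum_const, nsmul_eq_mul]
  have e2 : ((I.image (lc i)).card : ℝ) * lo ≤ I.card := by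
    rw [card_eq_sum_card_image (lc i) I]
    push_cast
    rw [← nsmul_eq_mul, ← sum_const]
    refine sum_le_sum fun o ho => ?_
    obtain ⟨x, hx, rfl⟩ := mem_image.1 ho
    exact h1 x hx
  have e3 : ((I.image (lc i)).card : ℝ) ≤ I.card / lo := by rw [le_div_iff₀ hlo]; exact e2
  calc ((I.filter fun x => bad (lc i x)).card : ℝ) ≤ _ := e1
    _ ≤ κ * ((I.image (lc i)).card : ℝ) * hi := mul_le_mul_of_nonneg_right h3 hhi
    _ ≤ κ * (I.card / lo) * hi :=
        mul_le_mul_of_nonneg_right (mul_le_mul_of_nonneg_left e3 hκ) hhi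
    _ = _ := by ring

section

variable {σ κ : Type} {B : Base} {I : ℕ → Finset (ℕ × ℝ)} {G : Geo σ κ} {lev : ℕ → ℚ → ℕ}
    {A : ℕ → ℝ} {g : ℝ} {τ : κ → ℝ → ℝ} {f : ℕ → ℚ → ℕ → ℤ → ℕ} {b : ℕ → ℚ → ℕ → σ}
    {vm : ℕ → ℚ → ℝ} {w : κ → ℕ → ℚ → ℝ} {r0 : ℕ → ℝ}





end

end Crest.Agent.R136.Ndc335
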