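import Crest.Agent.R136.Ndc2_335
import Crest.Agent.R136.Nd3_214
import Crest.Agent.R136.Cap1_102
import Crest.Agent.R136.Nd3_880
import Crest.Agent.R136.Nd7_565
import Crest.Agent.R136.Fn1_880
import Crest.Agent.R136.Nd8_565
import Crest.Agent.R136.Nds_335
import Crest.Agent.R136.Rich_335
import Crest.Agent.R136.KapP_335
import Crest.Agent.R136.SubD_335
import Crest.Agent.R136.Tlt0_51

-- ▼ part R136/Ndp_335
section

/-!
# R136 / U5, non-degeneracy (214's (3.0)): lines with a poor neighbourhood (helper335)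

`poor_le`: among the lines of a box (half-widths `w`, axes `e`, centre line `c`, over a cell), those
which have less than `θ #A` lines of `A` within `w / N` over the whole cell are at most
`(2 N + 1) ^ 6 θ #A`.
-/

set_option autoImplicit false
set_option linter.unusedVariables false

open Finset

namespace Crest.Agent.R136.Ndc335

open Sh605

/-- bound of an affine function by its values at the two ends -/
theorem aff_le {b z0 ρ z d v : ℝ} (h0 : z0 ≤ z) (h1 : z ≤ z0 + ρ) (hb0 : |d| ≤ b)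
    (hb1 : |d + ρ * v| ≤ b) : |d + (z - z0) * v| ≤ b := by
  rcases eq_or_lt_of_le (h0.trans h1) with h | h
  · have hz : z = z0 := by
      have : ρ = 0 := by linarith
      linarith
    rw [hz]; simpa using hb0
  · have hρ : 0 < ρ := by linarith
    have e1 : d + (z - z0) * v = (1 - (z - z0) / ρ) * d + (z - z0) / ρ * (d + ρ * v) := by
      field_simp; ring
    have hs0 : 0 ≤ (z - z0) / ρ := div_nonneg (by linarith) hρ.le
    have hs1 : (z - z0) / ρ ≤ 1 := by rw [div_le_one hρ]; linarith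
    rw [e1]
    refine (abs_add_le _ _).trans ?_
    rw [abs_mul, abs_mul, abs_of_nonneg hs0, abs_of_nonneg (by linarith : 0 ≤ 1 - (z - z0) / ρ)]
    nlinarith

variable {ι : Type}

open Classical in
/-- **lines with a poor neighbourhood** -/
theorem poor_le (A : Finset ι) (L : ι → Ln4) {e : Fin 3 → V3} {c : Ln4} {w : V3} {z0 ρ : ℝ}
    (hw : ∀ i, 0 < w i) (hρ : 0 ≤ ρ) {N : ℕ} (hN : 0 < N) {θ : ℝ} (hθ : 0 ≤ θ)
    (hA : ∀ t ∈ A, ∀ z, z0 ≤ z → z ≤ z0 + ρ → ∀ i, |dt (e i) ((L t).pos z - c.pos z)| ≤ w i) :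
    ((A.filter fun t => ((A.filter fun t' => ∀ i, ∀ z, z0 ≤ z → z ≤ z0 + ρ →
        |dt (e i) ((L t').pos z - (L t).pos z)| ≤ w i / N).card : ℝ) < θ * A.card).card : ℝ) ≤
      (2 * N + 1) ^ 6 * (θ * A.card) := by
  have hN' : (0:ℝ) < N := by exact_mod_cast hN
  set x : Fin 3 → ℝ → ι → ℝ := fun i z t => dt (e i) ((L t).pos z - c.pos z) / w i with hx
  set code : ι → Fin 3 → ℤ × ℤ := fun t i => (⌊(N:ℝ) * x i z0 t⌋, ⌊(N:ℝ) * x i (z0 + ρ) t⌋)
    with hcode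
  set T : Finset (Fin 3 → ℤ × ℤ) := Fintype.piFinset fun _ =>
    (Icc (-N : ℤ) N ×ˢ Icc (-N : ℤ) N) with hT
  set P := A.filter fun t => ((A.filter fun t' => ∀ i, ∀ z, z0 ≤ z → z ≤ z0 + ρ →
        |dt (e i) ((L t').pos z - (L t).pos z)| ≤ w i / N).card : ℝ) < θ * A.card with hP
  have hfl : ∀ u : ℝ, |u| ≤ 1 → ⌊(N:ℝ) * u⌋ ∈ Icc (-N : ℤ) N := by
    intro u hu
    have := abs_le.1 hu
    rw [mem_Icc]
    constructor
    · rw [Int.le_floor]; push_cast; nlinarith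
    · have h1 : ⌊(N:ℝ) * u⌋ ≤ ⌊((N : ℤ) : ℝ)⌋ := Int.floor_le_floor (by push_cast; nlinarith)
      rw [Int.floor_intCast] at h1
      exact h1
  have hx1 : ∀ t ∈ A, ∀ i, ∀ z, z0 ≤ z → z ≤ z0 + ρ → |x i z t| ≤ 1 := by
    intro t ht i z h0 h1
    rw [hx]
    simp only
    rw [abs_div, abs_of_pos (hw i), div_le_one (hw i)]
    exact hA t ht z h0 h1 i
  have hmem : ∀ t ∈ P, code t ∈ T := by
    intro t ht
    rw [hP, mem_filter] at ht
    rw [hT, Fintype.mem_piFinset]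
    intro i
    exact mem_product.2 ⟨hfl _ (hx1 t ht.1 i z0 le_rfl (by linarith)),
      hfl _ (hx1 t ht.1 i (z0 + ρ) (by linarith) le_rfl)⟩
  have hcardT : (T.card : ℝ) = (2 * N + 1) ^ 6 := by
    rw [hT, Fintype.card_piFinset]
    simp only [card_product, Int.card_Icc, Finset.prod_const, Finset.card_univ, Fintype.card_fin]
    have h1 : ((N : ℤ) + 1 - -(N : ℤ)).toNat = 2 * N + 1 := by omega
    rw [h1]; push_cast; ring
  have hsame : ∀ t ∈ A, ∀ t' ∈ A, code t' = code t → ∀ i, ∀ z, z0 ≤ z → z ≤ z0 + ρ →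
      |dt (e i) ((L t').pos z - (L t).pos z)| ≤ w i / N := by
    intro t ht t' ht' hc i z h0 h1
    have hci := congrFun hc i
    rw [hcode] at hci
    simp only [Prod.mk.injEq] at hci
    have key : ∀ z', ⌊(N:ℝ) * x i z' t'⌋ = ⌊(N:ℝ) * x i z' t⌋ →
        |dt (e i) ((L t').pos z' - (L t).pos z')| ≤ w i / N := by
      intro z' h
      have g := Int.abs_sub_lt_one_of_floor_eq_floor h
      rw [← mul_sub, abs_mul, abs_of_pos hN'] at g
      have e1 : x i z' t' - x i z' t = dt (e i) ((L t').pos z' - (L t).pos z') / w i := by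
        rw [hx]; simp only [dt, Pi.sub_apply]; ring
      rw [e1, abs_div, abs_of_pos (hw i)] at g
      rw [le_div_iff₀ hN']
      have hwi := hw i
      have g2 : (N:ℝ) * (|dt (e i) ((L t').pos z' - (L t).pos z')| / w i) * w i ≤ 1 * w i :=
        mul_le_mul_of_nonneg_right g.le hwi.le
      have e2 : (N:ℝ) * (|dt (e i) ((L t').pos z' - (L t).pos z')| / w i) * w i =
          |dt (e i) ((L t').pos z' - (L t).pos z')| * N := by field_simp
      linarith
    have k0 := key z0 hci.1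
    have k1 := key (z0 + ρ) hci.2
    rw [dt_pos_diff (e i) (L t) (L t') z z0]
    rw [dt_pos_diff (e i) (L t) (L t') (z0 + ρ) z0] at k1
    refine aff_le h0 h1 k0 ?_
    have e3 : z0 + ρ - z0 = ρ := by ring
    rw [e3] at k1
    exact k1
  have hfib : ∀ y ∈ T, ((P.filter fun t => code t = y).card : ℝ) ≤ θ * A.card := by
    intro y hy
    rcases (P.filter fun t => code t = y).eq_empty_or_nonempty with h0 | ⟨t, ht⟩
    · rw [h0]
      simp only [card_empty, Nat.cast_zero]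
      positivity
    · rw [mem_filter, hP, mem_filter] at ht
      obtain ⟨⟨htA, hpoor⟩, hty⟩ := ht
      refine le_of_lt (lt_of_le_of_lt ?_ hpoor)
      have hsub : (P.filter fun t => code t = y) ⊆ A.filter fun t' => ∀ i, ∀ z, z0 ≤ z →
          z ≤ z0 + ρ → |dt (e i) ((L t').pos z - (L t).pos z)| ≤ w i / N := by
        intro t' ht'
        rw [mem_filter, hP, mem_filter] at ht'
        rw [mem_filter]
        exact ⟨ht'.1.1, hsame t htA t' ht'.1.1 (ht'.2.trans hty.symm)⟩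
      exact_mod_cast card_le_card hsub
  have e1 : (P.card : ℝ) = ∑ y ∈ T, ((P.filter fun t => code t = y).card : ℝ) := by
    have := card_eq_sum_card_fiberwise (s := P) (t := T) (f := code) (fun t ht => hmem t ht)
    rw [this]; push_cast; rfl
  rw [e1]
  calc ∑ y ∈ T, ((P.filter fun t => code t = y).card : ℝ) ≤ ∑ y ∈ T, θ * A.card :=
        sum_le_sum hfib
    _ = T.card * (θ * A.card) := by rw [sum_const, nsmul_eq_mul]
    _ = (2 * N + 1) ^ 6 * (θ * A.card) := by rw [hcardT]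

end Crest.Agent.R136.Ndc335
end

-- ▼ part R136/Nd4_214
section

/-!
# R136, non-degeneracy of near-maximal sheets (helper214), part 4: the normalised quadratic polynomial
of a sheet in the plank coordinates around one of its lines (dictionary of Cap1_102)
-/

set_option autoImplicit false
set_option linter.unusedVariables false

namespace Crest.Agent.R136.Nd214

open Crest.Agent.R136.Tl214 Crest.Agent.R136.Tl102
open Crest.Agent.R136.Sh605 (V3 dt Ln4 InK InSheet ShN Ortho IsQ)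

/-- (height, plank coordinates) -/
abbrev V4 := ℝ × V3

/-- the linear part of `qB` -/
noncomputable def lB (φ : V3) (κ : ℝ) (b0 : V3) : V4 →ₗ[ℝ] ℝ where
  toFun X := φ 1 * X.1 + κ⁻¹ * dt b0 X.2
  map_add' X Y := by
    simp only [dt, Prod.fst_add, Prod.snd_add, Pi.add_apply]; ring
  map_smul' c X := by
    simp only [dt, Prod.smul_fst, Prod.smul_snd, Pi.smul_apply, smul_eq_mul, RingHom.id_apply]; ring

/-- the second order part of `qB` -/
noncomputable def HB (φ : V3) (κ : ℝ) (b1 : V3) (G : QF) : V4 →ₗ[ℝ] V4 →ₗ[ℝ] ℝ :=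
  LinearMap.mk₂ ℝ
    (fun X Y => φ 2 * (X.1 * Y.1) + κ⁻¹ * ((X.1 * dt b1 Y.2 + Y.1 * dt b1 X.2 + G.pol X.2 Y.2) / 2))
    (by
      intro X X' Y
      simp only [dt, QF.pol, Prod.fst_add, Prod.snd_add, Pi.add_apply]; ring)
    (by
      intro c X Y
      simp only [dt, QF.pol, Prod.smul_fst, Prod.smul_snd, Pi.smul_apply, smul_eq_mul]; ring)
    (by
      intro X Y Y'
      simp only [dt, QF.pol, Prod.fst_add, Prod.snd_add, Pi.add_apply]; ring)
    (by
      intro c X Y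
      simp only [dt, QF.pol, Prod.smul_fst, Prod.smul_snd, Pi.smul_apply, smul_eq_mul]; ring)

/-- **the normalised quadratic polynomial** `φ 0 + φ 1 ζ + φ 2 ζ² + κ⁻¹ Fq b0 b1 G ζ x` on
`(ζ, x) ∈ ℝ × V3` -/
noncomputable def qB (φ : V3) (κ : ℝ) (b0 b1 : V3) (G : QF) : QP V4 where
  c := φ 0
  l := lB φ κ b0
  H := HB φ κ b1 G
  symm X Y := by
    simp only [HB, LinearMap.mk₂_apply, QF.pol]; ring

theorem qB_H (φ : V3) (κ : ℝ) (b0 b1 : V3) (G : QF) (X Y : V4) : (qB φ κ b0 b1 G).H X Y =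
    φ 2 * (X.1 * Y.1) + κ⁻¹ * ((X.1 * dt b1 Y.2 + Y.1 * dt b1 X.2 + G.pol X.2 Y.2) / 2) := rfl

theorem qB_l (φ : V3) (κ : ℝ) (b0 b1 : V3) (G : QF) (X : V4) :
    (qB φ κ b0 b1 G).l X = φ 1 * X.1 + κ⁻¹ * dt b0 X.2 := rfl

theorem qB_f (φ : V3) (κ : ℝ) (b0 b1 : V3) (G : QF) (ζ : ℝ) (x : V3) :
    (qB φ κ b0 b1 G).f (ζ, x) = (φ 0 + φ 1 * ζ + φ 2 * ζ ^ 2) + κ⁻¹ * Fq b0 b1 G ζ x := by
  change φ 0 + (φ 1 * ζ + κ⁻¹ * dt b0 x) + (φ 2 * (ζ * ζ) +
    κ⁻¹ * ((ζ * dt b1 x + ζ * dt b1 x + G.pol x x) / 2)) = _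
  simp only [Fq, bz, dt, QF.ev, QF.pol]
  ring

theorem qB_G (φ : V3) (κ : ℝ) (b0 b1 : V3) (G : QF) (ζ : ℝ) (x : V3) (ω : ℝ) (y : V3) :
    (qB φ κ b0 b1 G).G (ζ, x) (ω, y) = (φ 1 * ω + 2 * φ 2 * ζ * ω) +
      κ⁻¹ * (dt (bz b0 b1 ζ) y + ω * dt b1 x + G.pol x y) := by
  simp only [QP.G, qB_H, qB_l, bz, dt, QF.pol]
  ring

/-- lateral directions, tangent at height `ζ = 0` -/
noncomputable def eA (b0 : V3) : V4 := (0, ![-(b0 1 / b0 0), 1, 0])

noncomputable def eB (b0 : V3) : V4 := (0, ![-(b0 2 / b0 0), 0, 1])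

/-- steep direction, length `κ` -/
def eY (κ : ℝ) : V4 := (0, ![κ, 0, 0])

/-- the central line -/
def eT : V4 := (1, 0)

end Crest.Agent.R136.Nd214
end

-- ▼ part R136/Nd5_214
section

/-!
# R136, non-degeneracy of near-maximal sheets (helper214), part 5: from the class `ShN` to the
normalised structures `Loc`, `Lin`
-/

set_option autoImplicit false
set_option linter.unusedVariables false

namespace Crest.Agent.R136.Nd214

open Crest.Agent.R136.Tl214 Crest.Agent.R136.Tl102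
open Crest.Agent.R136.Sh605 (V3 dt Ln4 InK InSheet ShN Ortho IsQ)

/-- plank coordinates of the line `t` relative to `T` at height `z` -/
noncomputable def crd (e : Fin 3 → V3) (w : V3) (T t : Ln4) (z : ℝ) : V3 :=
  fun i => dt (e i) (t.pos z - T.pos z) / w i

/-- their velocity, time unit `ρ` -/
noncomputable def vel (e : Fin 3 → V3) (w : V3) (T t : Ln4) (ρ : ℝ) : V3 :=
  fun i => ρ * dt (e i) (t.v - T.v) / w i

theorem crd_add (e : Fin 3 → V3) (w : V3) (T t : Ln4) (z0 ρ ζ : ℝ) (i : Fin 3) :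
    crd e w T t (z0 + ρ * ζ) i = crd e w T t z0 i + ζ * vel e w T t ρ i := by
  simp only [crd, vel, dt, Ln4.pos, Pi.sub_apply]
  ring

theorem pos_eq_cmb {e : Fin 3 → V3} (he : Ortho e) {w : V3} (hw : ∀ i, 0 < w i) (T t : Ln4)
    (z : ℝ) : t.pos z = T.pos z + cmb (fr e w) (crd e w T t z) := by
  funext j
  have h := he.expand (t.pos z - T.pos z) j
  have h0 := (hw 0).ne'
  have h1 := (hw 1).ne'
  have h2 := (hw 2).ne'
  have e1 : (t.pos z - T.pos z) j = t.pos z j - T.pos z j := rfl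
  rw [e1] at h
  have e2 : (T.pos z + cmb (fr e w) (crd e w T t z)) j = T.pos z j +
      (dt (e 0) (t.pos z - T.pos z) * e 0 j + dt (e 1) (t.pos z - T.pos z) * e 1 j +
        dt (e 2) (t.pos z - T.pos z) * e 2 j) := by
    simp only [Pi.add_apply, cmb, fr, crd, Pi.smul_apply, smul_eq_mul]
    field_simp
  rw [e2]
  linarith

/-- the value along the central line is a quadratic polynomial -/
theorem exists_phi {q : ℝ → V3 → ℝ} (hq : IsQ q) (T : Ln4) (z0 ρ : ℝ) {N : ℝ} (hN : N ≠ 0) :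
    ∃ φ : V3, ∀ ζ, q (z0 + ρ * ζ) (T.pos (z0 + ρ * ζ)) = N * (φ 0 + φ 1 * ζ + φ 2 * ζ ^ 2) := by
  obtain ⟨c0, c1, c2, b, d, g, h⟩ := hq
  refine ⟨fun k => N⁻¹ * (![c0 + c1 * z0 + c2 * z0 ^ 2 +
      ∑ i, (b i + d i * z0) * (T.p i + z0 * T.v i) +
      ∑ i, ∑ j, g i j * ((T.p i + z0 * T.v i) * (T.p j + z0 * T.v j)),
    c1 * ρ + 2 * c2 * z0 * ρ + ∑ i, ((b i + d i * z0) * (ρ * T.v i) +
      d i * ρ * (T.p i + z0 * T.v i)) + ∑ i, ∑ j, g i j * ((T.p i + z0 * T.v i) * (ρ * T.v j) +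
        (ρ * T.v i) * (T.p j + z0 * T.v j)),
    c2 * ρ ^ 2 + ∑ i, d i * ρ * (ρ * T.v i) + ∑ i, ∑ j, g i j * ((ρ * T.v i) * (ρ * T.v j))] : V3) k,
    fun ζ => ?_⟩
  rw [h]
  simp only [Ln4.pos, Matrix.cons_val]
  have e1 : ∀ x y z' : ℝ, N * (N⁻¹ * x + N⁻¹ * y * ζ + N⁻¹ * z' * ζ ^ 2) =
      x + y * ζ + z' * ζ ^ 2 := by
    intro x y z'; field_simp
  rw [e1]
  simp only [Fin.sum_univ_three]
  ring

/-- data of a sheet around one of its lines -/
structure Dta (e : Fin 3 → V3) (c : Ln4) (w : V3) (q : ℝ → V3 → ℝ) (a z0 ρ : ℝ) (T : Ln4)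
    (b0 b1 : V3) (G : QF) (κ : ℝ) (φ : V3) : Prop where
  sh : StP e c w q z0 ρ
  ρ0 : 0 < ρ
  inS : InSheet T e c w q a z0 ρ
  exp : IsExp q e w T z0 ρ b0 b1 G
  κe : κ = kap b0 b1 G
  κ0 : 0 < κ
  hφ : ∀ ζ, q (z0 + ρ * ζ) (T.pos (z0 + ρ * ζ)) = (w 0 * κ) * (φ 0 + φ 1 * ζ + φ 2 * ζ ^ 2)

variable {e : Fin 3 → V3} {c : Ln4} {w : V3} {q : ℝ → V3 → ℝ} {a z0 ρ : ℝ} {T : Ln4}
  {b0 b1 : V3} {G : QF} {κ : ℝ} {φ : V3}

theorem Dta.w_pos (D : Dta e c w q a z0 ρ T b0 b1 G κ φ) (i : Fin 3) : 0 < w i := D.sh.pos i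

theorem Dta.nrm (D : Dta e c w q a z0 ρ T b0 b1 G κ φ) : NrmC b0 b1 G :=
  IsExp.nrmC D.sh D.ρ0.le (fun z h1 h2 => (D.inS z h1 h2).1) D.exp

theorem Dta.hz (D : Dta e c w q a z0 ρ T b0 b1 G κ φ) {ζ : ℝ} (h0 : 0 ≤ ζ) (h1 : ζ ≤ 1) :
    z0 ≤ z0 + ρ * ζ ∧ z0 + ρ * ζ ≤ z0 + ρ := by
  have := D.ρ0
  constructor <;> nlinarith

/-- the value of `qB` -/
theorem Dta.f_eq (D : Dta e c w q a z0 ρ T b0 b1 G κ φ) (ζ : ℝ) (x : V3) :
    q (z0 + ρ * ζ) (T.pos (z0 + ρ * ζ) + cmb (fr e w) x) =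
      (w 0 * κ) * (qB φ κ b0 b1 G).f (ζ, x) := by
  rw [D.exp, D.hφ, qB_f]
  have := D.κ0.ne'
  field_simp

theorem Dta.f_line (D : Dta e c w q a z0 ρ T b0 b1 G κ φ) (t : Ln4) (ζ : ℝ) :
    q (z0 + ρ * ζ) (t.pos (z0 + ρ * ζ)) =
      (w 0 * κ) * (qB φ κ b0 b1 G).f (ζ, crd e w T t (z0 + ρ * ζ)) := by
  rw [← D.f_eq, ← pos_eq_cmb D.sh.ortho D.w_pos]

theorem abs_le_div {x y N A : ℝ} (hN : 0 < N) (h : x = N * y) (hx : |x| ≤ A) : |y| ≤ A / N := by
  rw [le_div_iff₀ hN]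
  rw [h, abs_mul, abs_of_pos hN] at hx
  linarith

/-- **the central line** -/
theorem Dta.loc (D : Dta e c w q a z0 ρ T b0 b1 G κ φ) (ha : 0 ≤ a)
    (hs : 1000 * a ≤ w 0 * κ) :
    Loc (qB φ κ b0 b1 G) (eA b0) (eB b0) (eY κ) 0 eT (a / (w 0 * κ)) := by
  have N := D.nrm
  have hκ := D.κ0
  have hw := D.w_pos 0
  have hwκ : 0 < w 0 * κ := mul_pos hw hκ
  obtain ⟨g1, g2, g3, g4, -, -, -, s1, s2⟩ := N.b1_le
  have hb : b0 0 ≠ 0 := by linarith
  have hκ' : 0 < kap b0 b1 G := by rw [← D.κe]; exact hκ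
  obtain ⟨k1, k2, k3, k4, k5, k6, k7, k8, k9, k10⟩ := N.sc_le hκ'
  rw [← D.κe] at k2 k3 k4 k5 k6 k7 k8 k9 k10
  obtain ⟨m1, -⟩ := N.G_le
  have hκ13 : κ ≤ 13 := by rw [D.κe]; exact kap_le N
  have e0 : ∀ s : ℝ, (0 : V4) + s • eT = (s, 0) := by
    intro s; simp [eT]
  have ez : (0 : V4) = (0, 0) := rfl
  have hY : ∀ s : ℝ, (qB φ κ b0 b1 G).G (s, 0) (eY κ) = b0 0 + s * b1 0 := by
    intro s
    rw [eY, qB_G]
    simp only [dt, bz, QF.pol, Pi.zero_apply, Matrix.cons_val]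
    field_simp
    ring
  refine ⟨by positivity, ?_, ?_, ?_, ?_, ?_, ?_, ?_, ?_, ?_, ?_, ?_, ?_, ?_, ?_⟩
  · rw [div_le_iff₀ hwκ]; linarith
  · rw [ez, eA, qB_G]
    simp only [dt, bz, QF.pol, Pi.zero_apply, Matrix.cons_val]
    field_simp
    ring
  · rw [ez, eB, qB_G]
    simp only [dt, bz, QF.pol, Pi.zero_apply, Matrix.cons_val]
    field_simp
    ring
  · intro s hs0 hs1
    rw [e0, hY]
    constructor <;> nlinarith
  · intro s hs0 hs1
    rw [e0]
    obtain ⟨z1, z2⟩ := D.hz hs0 hs1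
    have h := (D.inS _ z1 z2).2
    refine abs_le_div hwκ ?_ h
    rw [D.hφ, qB_f]
    simp only [Fq, dt, QF.ev, Pi.zero_apply]
    ring
  · have e1 : (qB φ κ b0 b1 G).H (eA b0) (eA b0) = (scG κ b0 G).uu := by
      rw [qB_H]
      simp only [eA, dt, QF.pol, Matrix.cons_val, scG, shG]
      field_simp
      ring
    rw [e1]; exact k8
  · have e1 : (qB φ κ b0 b1 G).H (eA b0) (eB b0) = (scG κ b0 G).uv / 2 := by
      rw [qB_H]
      simp only [eA, eB, dt, QF.pol, Matrix.cons_val, scG, shG]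
      field_simp
      ring
    rw [e1, abs_div, abs_two]; linarith
  · have e1 : (qB φ κ b0 b1 G).H (eB b0) (eB b0) = (scG κ b0 G).vv := by
      rw [qB_H]
      simp only [eB, dt, QF.pol, Matrix.cons_val, scG, shG]
      field_simp
      ring
    rw [e1]; exact k10
  · have e1 : (qB φ κ b0 b1 G).H eT (eA b0) = scB1 κ b0 b1 1 / 2 := by
      rw [qB_H]
      simp only [eA, eT, dt, QF.pol, Matrix.cons_val, scB1, shB1, Pi.zero_apply]
      field_simp
      ring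
    rw [e1, abs_div, abs_two]; linarith
  · have e1 : (qB φ κ b0 b1 G).H eT (eB b0) = scB1 κ b0 b1 2 / 2 := by
      rw [qB_H]
      simp only [eB, eT, dt, QF.pol, Matrix.cons_val, scB1, shB1, Pi.zero_apply]
      field_simp
      ring
    rw [e1, abs_div, abs_two]; linarith
  · have e1 : (qB φ κ b0 b1 G).H (eA b0) (eY κ) = (scG κ b0 G).yu / 2 := by
      rw [qB_H]
      simp only [eA, eY, dt, QF.pol, Matrix.cons_val, scG, shG]
      field_simp
      ring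
    rw [e1, abs_div, abs_two]; linarith
  · have e1 : (qB φ κ b0 b1 G).H (eB b0) (eY κ) = (scG κ b0 G).yv / 2 := by
      rw [qB_H]
      simp only [eB, eY, dt, QF.pol, Matrix.cons_val, scG, shG]
      field_simp
      ring
    rw [e1, abs_div, abs_two]; linarith
  · have e1 : (qB φ κ b0 b1 G).H (eY κ) (eY κ) = (scG κ b0 G).yy := by
      rw [qB_H]
      simp only [eY, dt, QF.pol, Matrix.cons_val, scG, shG]
      field_simp
      ring
    rw [e1]; linarith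
  · have e1 : (qB φ κ b0 b1 G).H eT (eY κ) = b1 0 / 2 := by
      rw [qB_H]
      simp only [eT, eY, dt, QF.pol, Matrix.cons_val, Pi.zero_apply]
      field_simp
      ring
    have := k2 0
    have e2 : scB1 κ b0 b1 0 = b1 0 := rfl
    rw [e2] at this
    rw [e1, abs_div, abs_two]; linarith

/-- the coordinates `(uA, uB, uY)` from plank coordinates -/
noncomputable def cY (b0 : V3) (κ : ℝ) (x : V3) : ℝ :=
  (x 0 + b0 1 / b0 0 * x 1 + b0 2 / b0 0 * x 2) / κ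

theorem basis_eq (b0 : V3) {κ : ℝ} (hκ : κ ≠ 0) (x : V3) :
    ((0 : ℝ), x) = x 1 • eA b0 + x 2 • eB b0 + cY b0 κ x • eY κ := by
  ext i
  · simp [eA, eB, eY]
  · simp only [eA, eB, eY, cY, Prod.snd_add, Prod.smul_snd, Pi.add_apply, Pi.smul_apply,
      smul_eq_mul]
    fin_cases i
    · simp only [Fin.zero_eta, Matrix.cons_val]
      field_simp
      ring
    · simp
    · simp

/-- **a line of the sheet in the small box of `T`** -/
theorem Dta.lin (D : Dta e c w q a z0 ρ T b0 b1 G κ φ) {t : Ln4}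
    (ht : InSheet t e c w q a z0 ρ)
    (hn : ∀ z, z0 ≤ z → z ≤ z0 + ρ → ∀ i, |crd e w T t z i| ≤ 1 / 1000) :
    Lin (qB φ κ b0 b1 G) (eA b0) (eB b0) (eY κ) 0 eT (a / (w 0 * κ))
      (0, crd e w T t z0) (1, vel e w T t ρ) (crd e w T t z0 1) (crd e w T t z0 2)
      (cY b0 κ (crd e w T t z0)) (vel e w T t ρ 1) (vel e w T t ρ 2)
      (cY b0 κ (vel e w T t ρ)) := by
  have N := D.nrm
  have hκ := D.κ0
  have hw := D.w_pos 0
  have hwκ : 0 < w 0 * κ := mul_pos hw hκ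
  obtain ⟨g1, g2, g3, g4, -, -, -, s1, s2⟩ := N.b1_le
  obtain ⟨m1, -⟩ := N.G_le
  have hx : ∀ s : ℝ, 0 ≤ s → s ≤ 1 → ∀ i, |crd e w T t z0 i + s * vel e w T t ρ i| ≤ 1 / 1000 := by
    intro s hs0 hs1 i
    rw [← crd_add]
    obtain ⟨z1, z2⟩ := D.hz hs0 hs1
    exact hn _ z1 z2 i
  have ept : ∀ s : ℝ, ((0 : ℝ), crd e w T t z0) + s • ((1 : ℝ), vel e w T t ρ) =
      (s, crd e w T t (z0 + ρ * s)) := by
    intro s
    ext i
    · simp
    · simp only [Prod.snd_add, Prod.smul_snd, Pi.add_apply, Pi.smul_apply, smul_eq_mul]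
      rw [crd_add]
  refine ⟨?_, ?_, ?_, ?_, ?_, ?_, ?_⟩
  · rw [zero_add]; exact basis_eq b0 hκ.ne' _
  · rw [← basis_eq b0 hκ.ne']
    ext i
    · simp [eT]
    · simp [eT]
  · intro s hs0 hs1; exact hx s hs0 hs1 1
  · intro s hs0 hs1; exact hx s hs0 hs1 2
  · intro s hs0 hs1
    have e1 : (qB φ κ b0 b1 G).H (eY κ) (eY κ) = κ * G.yy := by
      rw [qB_H]
      simp only [eY, dt, QF.pol, Matrix.cons_val]
      field_simp
      ring
    have e2 : cY b0 κ (crd e w T t z0) + s * cY b0 κ (vel e w T t ρ) =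
        ((crd e w T t z0 0 + s * vel e w T t ρ 0) +
          b0 1 / b0 0 * (crd e w T t z0 1 + s * vel e w T t ρ 1) +
          b0 2 / b0 0 * (crd e w T t z0 2 + s * vel e w T t ρ 2)) / κ := by
      simp only [cY]; ring
    rw [e1, e2, ← abs_mul]
    have e3 : ∀ x : ℝ, x / κ * (κ * G.yy) = x * G.yy := by intro x; field_simp
    rw [e3]
    have h0 := hx s hs0 hs1 0
    have h1 := abs_mul_le' s1 (hx s hs0 hs1 1)
    have h2 := abs_mul_le' s2 (hx s hs0 hs1 2)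
    refine (abs_mul_le' ((abs_add3 _ _ _).trans (add_le_add (add_le_add h0 h1) h2)) m1).trans ?_
    norm_num
  · intro s hs0 hs1
    rw [ept]
    obtain ⟨z1, z2⟩ := D.hz hs0 hs1
    exact abs_le_div hwκ (D.f_line t s) (ht _ z1 z2).2
  · intro s hs0 hs1
    rw [ept, eY, qB_G]
    obtain ⟨z1, z2⟩ := D.hz hs0 hs1
    have hx0 := hn _ z1 z2 0
    have hx1 := hn _ z1 z2 1
    have hx2 := hn _ z1 z2 2
    have e1 : φ 1 * 0 + 2 * φ 2 * s * 0 + κ⁻¹ * (dt (bz b0 b1 s) ![κ, 0, 0] +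
        0 * dt b1 (crd e w T t (z0 + ρ * s)) + G.pol (crd e w T t (z0 + ρ * s)) ![κ, 0, 0]) =
        b0 0 + s * b1 0 + G.yy * (2 * crd e w T t (z0 + ρ * s) 0) +
          G.yu * crd e w T t (z0 + ρ * s) 1 + G.yv * crd e w T t (z0 + ρ * s) 2 := by
      simp only [dt, bz, QF.pol, Matrix.cons_val]
      field_simp
      ring
    rw [e1]
    refine N.st s hs0 hs1 _ _ _ ?_ (hx1.trans (by norm_num)) (hx2.trans (by norm_num))
    rw [abs_mul, abs_two]; linarith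

end Crest.Agent.R136.Nd214
end

-- ▼ part R136/Nd6_214
section

/-!
# R136, non-degeneracy of near-maximal sheets (helper214), part 6: pairs of lines of a degenerate
sheet through one small cell, high and low lines
-/

set_option autoImplicit false
set_option linter.unusedVariables false
set_option linter.unusedSectionVars false

open Finset

namespace Crest.Agent.R136.Nd214

open Crest.Agent.R136.Tl214 Crest.Agent.R136.Nd880
open Crest.Agent.R136.Arc880 (det3)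

variable {E : Type*} [AddCommGroup E] [Module ℝ E]
variable {q : QP E} {eA eB eY x0 τ0 p τ : E} {a uA uB uY vA vB vY : ℝ}

/-- the central line -/
theorem Loc.lin0 (L : Loc q eA eB eY x0 τ0 a) : Lin q eA eB eY x0 τ0 a x0 τ0 0 0 0 0 0 0 where
  hp := by simp
  hτ := by simp
  bA := fun s _ _ => by norm_num
  bB := fun s _ _ => by norm_num
  bY := fun s _ _ => by simp
  hf := L.f0
  hg := L.g

/-- **the degeneracy spreads over the whole class** -/
theorem Lin.det_le (L : Loc q eA eB eY x0 τ0 a)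
    (T : Lin q eA eB eY x0 τ0 a p τ uA uB uY vA vB vY) {s s0 : ℝ} (hs : 0 ≤ s) (hs1 : s ≤ 1)
    (h0 : 0 ≤ s0) (h1 : s0 ≤ 1) :
    |det3 (fanQ q eA eB eY (p + s • τ) τ)| ≤
      16 * |det3 (fanQ q eA eB eY (x0 + s0 • τ0) τ0)| + 10 ^ 16 * a := by
  have F0 := L.lin0.frm L h0 h1
  have F := T.frm L hs hs1
  have c0 := L.lin0.coef h0 h1
  have c := T.coef hs hs1
  have a0 := L.a0
  have a1 := L.a1
  have n0 : q.G (x0 + s0 • τ0) eY ≠ 0 := by linarith [F0.g0]
  have hY : lift q eY (x0 + s0 • τ0) eY = 0 := lift_eY n0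
  have key := det_move (a := 8 * a) F0 F (by linarith) ((L.f0 s0 h0 h1).trans (by linarith))
    ((T.hf s hs hs1).trans (by linarith)) c0.1 c.1 c0.2 c.2 (t0 := s - s0) (t1 := uA + s * vA)
    (t2 := uB + s * vB) (dA := vA) (dB := vB) ?_ ?_
  · refine key.trans ?_
    have : 8000 * (600 : ℝ) ^ 4 * (8 * a) ≤ 10 ^ 16 * a := by nlinarith
    linarith
  · have e1 : p + s • τ - (x0 + s0 • τ0) = (s - s0) • τ0 + (uA + s * vA) • eA +
        (uB + s * vB) • eB + (uY + s * vY) • eY := by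
      rw [T.pt s]; module
    rw [e1, lift_add', lift_add', lift_add', lift_smul', lift_smul', lift_smul', lift_smul', hY,
      smul_zero, add_zero]
  · rw [T.hτ, lift_add', lift_add', lift_add', lift_smul', lift_smul', lift_smul', hY, smul_zero,
      add_zero, ← add_assoc]

/-- the normal offset at height `0` -/
theorem Lin.uY0 (L : Loc q eA eB eY x0 τ0 a) (T : Lin q eA eB eY x0 τ0 a p τ uA uB uY vA vB vY)
    (ha : a ≤ 1 / 1000000) : |uY| ≤ 1 / 30000 := by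
  have hg0 := L.g 0 le_rfl zero_le_one
  have h1 := T.hf 0 le_rfl zero_le_one
  rw [T.pt 0, val3] at h1
  have h0 := L.f0 0 le_rfl zero_le_one
  have hU := T.bA 0 le_rfl zero_le_one
  have hV := T.bB 0 le_rfl zero_le_one
  have hW := T.bY 0 le_rfl zero_le_one
  simp only [zero_mul, add_zero, zero_smul] at h1 h0 hg0 hU hV hW
  rw [L.gA, L.gB] at h1
  have k3 : |uA ^ 2 * q.H eA eA| ≤ 1 / 1000000 := by
    rw [sq, mul_assoc]
    refine (abs_mul_le' hU (abs_mul_le' hU L.HAA)).trans (by norm_num)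
  have k4 : |2 * (uA * uB) * q.H eA eB| ≤ 2 / 1000000 := by
    rw [mul_assoc, mul_assoc]
    refine (abs_mul_le' (le_of_eq abs_two) (abs_mul_le' hU (abs_mul_le' hV L.HAB))).trans
      (by norm_num)
  have k5 : |uB ^ 2 * q.H eB eB| ≤ 1 / 1000000 := by
    rw [sq, mul_assoc]
    refine (abs_mul_le' hV (abs_mul_le' hV L.HBB)).trans (by norm_num)
  have k6 : |2 * uA * q.H eA eY + 2 * uB * q.H eB eY + uY * q.H eY eY| ≤ 1 / 10 := by
    have e1 : |2 * uA * q.H eA eY| ≤ 2 * (1 / 1000) * 5 :=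
      abs_mul_le' (abs_mul_le' (le_of_eq abs_two) hU) L.HAY
    have e2 : |2 * uB * q.H eB eY| ≤ 2 * (1 / 1000) * 5 :=
      abs_mul_le' (abs_mul_le' (le_of_eq abs_two) hV) L.HBY
    have e3 : |uY * q.H eY eY| ≤ 1 / 100 := by rw [abs_mul]; exact hW
    refine (abs_add3 _ _ _).trans ?_
    linarith
  have h2 : |uY * (q.G x0 eY + (2 * uA * q.H eA eY + 2 * uB * q.H eB eY + uY * q.H eY eY))| ≤
      6 / 1000000 := by
    have e : uY * (q.G x0 eY + (2 * uA * q.H eA eY + 2 * uB * q.H eB eY + uY * q.H eY eY)) =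
        (q.f x0 + (uA * 0 + uB * 0 + uY * q.G x0 eY) + (uA ^ 2 * q.H eA eA +
        2 * (uA * uB) * q.H eA eB + uB ^ 2 * q.H eB eB + uY * (2 * uA * q.H eA eY +
        2 * uB * q.H eB eY + uY * q.H eY eY))) - q.f x0 - uA ^ 2 * q.H eA eA -
        2 * (uA * uB) * q.H eA eB - uB ^ 2 * q.H eB eB := by ring
    rw [e]
    rw [mul_zero, mul_zero] at h1
    rw [mul_zero, mul_zero]
    rw [abs_le] at h1 h0 k3 k4 k5 ⊢
    constructor <;> linarith [h1.1, h1.2, h0.1, h0.2, k3.1, k3.2, k4.1, k4.2, k5.1, k5.2]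
  exact (W_le hg0.1 k6 h2).trans (by norm_num)

/-- slopes at height `0` are small -/
theorem Lin.slope0 (L : Loc q eA eB eY x0 τ0 a)
    (T : Lin q eA eB eY x0 τ0 a p τ uA uB uY vA vB vY) (ha : a ≤ 1 / 1000000) :
    |q.G p eA / q.G p eY| ≤ 1 / 100 ∧ |q.G p eB / q.G p eY| ≤ 1 / 100 := by
  have hY := T.uY0 L ha
  have hg := T.hg 0 le_rfl zero_le_one
  have hU := T.bA 0 le_rfl zero_le_one
  have hV := T.bB 0 le_rfl zero_le_one
  simp only [zero_mul, add_zero, zero_smul] at hg hU hV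
  have eA' : q.G p eA = 2 * (uA * q.H eA eA + uB * q.H eA eB + uY * q.H eA eY) := by
    rw [T.hp, q.G_add, L.gA]
    simp only [map_add, map_smul, LinearMap.add_apply, LinearMap.smul_apply, smul_eq_mul]
    rw [q.symm eB eA, q.symm eY eA]
    ring
  have eB' : q.G p eB = 2 * (uA * q.H eA eB + uB * q.H eB eB + uY * q.H eB eY) := by
    rw [T.hp, q.G_add, L.gB]
    simp only [map_add, map_smul, LinearMap.add_apply, LinearMap.smul_apply, smul_eq_mul]
    rw [q.symm eY eB]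
    ring
  have k1 := abs_mul_le' hU L.HAA
  have k2 := abs_mul_le' hV L.HAB
  have k3 := abs_mul_le' hY L.HAY
  have k4 := abs_mul_le' hU L.HAB
  have k5 := abs_mul_le' hV L.HBB
  have k6 := abs_mul_le' hY L.HBY
  have m1 : |q.G p eA| ≤ 5 / 1000 := by
    rw [eA', abs_mul, abs_two]
    have := abs_add3 (uA * q.H eA eA) (uB * q.H eA eB) (uY * q.H eA eY)
    linarith
  have m2 : |q.G p eB| ≤ 5 / 1000 := by
    rw [eB', abs_mul, abs_two]
    have := abs_add3 (uA * q.H eA eB) (uB * q.H eB eB) (uY * q.H eB eY)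
    linarith
  have gp : 0 < q.G p eY := by linarith [hg.1]
  constructor
  · rw [abs_div, abs_of_pos gp, div_le_iff₀ gp]; linarith [hg.1]
  · rw [abs_div, abs_of_pos gp, div_le_iff₀ gp]; linarith [hg.1]

/-- **low lines are curved**: if the rotation of the line is small, its second fundamental form is
not. -/
theorem Lin.low_sec (L : Loc q eA eB eY x0 τ0 a)
    (T : Lin q eA eB eY x0 τ0 a p τ uA uB uY vA vB vY) (ha : a ≤ 1 / 1000000)
    (hext : 1 ≤ 2 * |q.H τ0 eA| ∨ 1 ≤ 2 * |q.H τ0 eB| ∨ 1 ≤ |q.H eA eA| ∨ 1 ≤ 2 * |q.H eA eB| ∨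
      1 ≤ |q.H eB eB|)
    (hA : |bet q eY p τ eA| ≤ 1 / 10) (hB : |bet q eY p τ eB| ≤ 1 / 10) :
    1 / 4 ≤ |sec q eY p eA eA| ∨ 1 / 4 ≤ |sec q eY p eA eB| ∨ 1 / 4 ≤ |sec q eY p eB eB| := by
  obtain ⟨mA, mB⟩ := T.slope0 L ha
  have lA : lift q eY p eA = eA - (q.G p eA / q.G p eY) • eY := rfl
  have lB : lift q eY p eB = eB - (q.G p eB / q.G p eY) • eY := rfl
  set m := q.G p eA / q.G p eY with hm
  set n := q.G p eB / q.G p eY with hn
  have hvA := T.vA_le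
  have hvB := T.vB_le
  have hvY := T.vY_le L
  have hAA := L.HAA
  have hAB := L.HAB
  have hBB := L.HBB
  have hAY := L.HAY
  have hBY := L.HBY
  have hYY := L.HYY
  have mAY := abs_mul_le' mA hAY
  have mBY := abs_mul_le' mA hBY
  have nAY := abs_mul_le' mB hAY
  have nBY := abs_mul_le' mB hBY
  have mmYY := abs_mul_le' mA (abs_mul_le' mA hYY)
  have mnYY := abs_mul_le' mA (abs_mul_le' mB hYY)
  have nnYY := abs_mul_le' mB (abs_mul_le' mB hYY)
  have bτY : |q.H τ eY| ≤ 5 / 2 := by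
    rw [T.hτ]
    simp only [map_add, map_smul, LinearMap.add_apply, LinearMap.smul_apply, smul_eq_mul]
    have k1 := abs_mul_le' hvA hAY
    have k2 := abs_mul_le' hvB hBY
    have k3 := abs_mul_le' hvY hYY
    have k4 := L.HτY
    have := abs_add_le (q.H τ0 eY) (vA * q.H eA eY + vB * q.H eB eY + vY * q.H eY eY)
    have := abs_add3 (vA * q.H eA eY) (vB * q.H eB eY) (vY * q.H eY eY)
    linarith
  have mτ := abs_mul_le' mA bτY
  have nτ := abs_mul_le' mB bτY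
  rcases hext with h | h | h | h | h
  · -- rotation in direction A
    exfalso
    have e : bet q eY p τ eA = q.H τ0 eA + (vA * q.H eA eA + vB * q.H eB eA + vY * q.H eY eA) -
        m * q.H τ eY := by
      unfold bet
      rw [lA, map_sub, map_smul, smul_eq_mul]
      conv_lhs => rw [T.hτ]
      simp only [map_add, map_smul, LinearMap.add_apply, LinearMap.smul_apply, smul_eq_mul]
      rw [T.hτ]
      simp only [map_add, map_smul, LinearMap.add_apply, LinearMap.smul_apply, smul_eq_mul]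
    have k1 := abs_mul_le' hvA hAA
    have k2 := abs_mul_le' hvB (show |q.H eB eA| ≤ 1 by rw [q.symm]; exact hAB)
    have k3 := abs_mul_le' hvY (show |q.H eY eA| ≤ 5 by rw [q.symm]; exact hAY)
    rw [e] at hA
    have k4 := abs_add3 (vA * q.H eA eA) (vB * q.H eB eA) (vY * q.H eY eA)
    have k5 : |q.H τ0 eA| ≤ |q.H τ0 eA + (vA * q.H eA eA + vB * q.H eB eA + vY * q.H eY eA) -
        m * q.H τ eY| + |vA * q.H eA eA + vB * q.H eB eA + vY * q.H eY eA| + |m * q.H τ eY| := by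
      have e2 : q.H τ0 eA = (q.H τ0 eA + (vA * q.H eA eA + vB * q.H eB eA + vY * q.H eY eA) -
        m * q.H τ eY) + -(vA * q.H eA eA + vB * q.H eB eA + vY * q.H eY eA) + m * q.H τ eY := by
        ring
      conv_lhs => rw [e2]
      refine (abs_add3 _ _ _).trans ?_
      rw [abs_neg]
    linarith
  · exfalso
    have e : bet q eY p τ eB = q.H τ0 eB + (vA * q.H eA eB + vB * q.H eB eB + vY * q.H eY eB) -
        n * q.H τ eY := by
      unfold bet
      rw [lB, map_sub, map_smul, smul_eq_mul]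
      conv_lhs => rw [T.hτ]
      simp only [map_add, map_smul, LinearMap.add_apply, LinearMap.smul_apply, smul_eq_mul]
      rw [T.hτ]
      simp only [map_add, map_smul, LinearMap.add_apply, LinearMap.smul_apply, smul_eq_mul]
    have k1 := abs_mul_le' hvA hAB
    have k2 := abs_mul_le' hvB hBB
    have k3 := abs_mul_le' hvY (show |q.H eY eB| ≤ 5 by rw [q.symm]; exact hBY)
    rw [e] at hB
    have k4 := abs_add3 (vA * q.H eA eB) (vB * q.H eB eB) (vY * q.H eY eB)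
    have k5 : |q.H τ0 eB| ≤ |q.H τ0 eB + (vA * q.H eA eB + vB * q.H eB eB + vY * q.H eY eB) -
        n * q.H τ eY| + |vA * q.H eA eB + vB * q.H eB eB + vY * q.H eY eB| + |n * q.H τ eY| := by
      have e2 : q.H τ0 eB = (q.H τ0 eB + (vA * q.H eA eB + vB * q.H eB eB + vY * q.H eY eB) -
        n * q.H τ eY) + -(vA * q.H eA eB + vB * q.H eB eB + vY * q.H eY eB) + n * q.H τ eY := by
        ring
      conv_lhs => rw [e2]
      refine (abs_add3 _ _ _).trans ?_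
      rw [abs_neg]
    linarith
  · left
    have e : sec q eY p eA eA = q.H eA eA - 2 * (m * q.H eA eY) + m * (m * q.H eY eY) := by
      unfold sec
      rw [lA]
      simp only [map_sub, map_smul, LinearMap.sub_apply, LinearMap.smul_apply, smul_eq_mul]
      rw [q.symm eY eA]; ring
    have e2 : q.H eA eA = sec q eY p eA eA + 2 * (m * q.H eA eY) + -(m * (m * q.H eY eY)) := by
      rw [e]; ring
    rw [e2] at h
    have h2 := abs_add3 (sec q eY p eA eA) (2 * (m * q.H eA eY)) (-(m * (m * q.H eY eY)))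
    rw [abs_neg, abs_mul 2, abs_two] at h2
    linarith
  · right; left
    have e : sec q eY p eA eB = q.H eA eB - n * q.H eA eY - m * q.H eB eY +
        m * (n * q.H eY eY) := by
      unfold sec
      rw [lA, lB]
      simp only [map_sub, map_smul, LinearMap.sub_apply, LinearMap.smul_apply, smul_eq_mul]
      rw [q.symm eY eB]; ring
    have e2 : q.H eA eB = sec q eY p eA eB + (n * q.H eA eY + m * q.H eB eY) +
        -(m * (n * q.H eY eY)) := by rw [e]; ring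
    have h2 := abs_add3 (sec q eY p eA eB) (n * q.H eA eY + m * q.H eB eY)
      (-(m * (n * q.H eY eY)))
    rw [← e2, abs_neg] at h2
    have h3 := abs_add_le (n * q.H eA eY) (m * q.H eB eY)
    linarith
  · right; right
    have e : sec q eY p eB eB = q.H eB eB - 2 * (n * q.H eB eY) + n * (n * q.H eY eY) := by
      unfold sec
      rw [lB]
      simp only [map_sub, map_smul, LinearMap.sub_apply, LinearMap.smul_apply, smul_eq_mul]
      rw [q.symm eY eB]; ring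
    have e2 : q.H eB eB = sec q eY p eB eB + 2 * (n * q.H eB eY) + -(n * (n * q.H eY eY)) := by
      rw [e]; ring
    rw [e2] at h
    have h2 := abs_add3 (sec q eY p eB eB) (2 * (n * q.H eB eY)) (-(n * (n * q.H eY eY)))
    rw [abs_neg, abs_mul 2, abs_two] at h2
    linarith

/-- the rotation at height `s` and at height `0` -/
theorem bet_s (T : Lin q eA eB eY x0 τ0 a p τ uA uB uY vA vB vY) {s : ℝ} (hs : 0 ≤ s)
    (hs1 : s ≤ 1) : ∃ m : ℝ, 1 / 4 ≤ m ∧ m ≤ 4 ∧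
      ∀ D, bet q eY (p + s • τ) τ D = m * bet q eY p τ D := by
  have hg := T.hg s hs hs1
  have hg0 := T.hg 0 le_rfl zero_le_one
  rw [zero_smul, add_zero] at hg0
  have p0 : 0 < q.G p eY := by linarith [hg0.1]
  have ps : 0 < q.G (p + s • τ) eY := by linarith [hg.1]
  refine ⟨q.G p eY / q.G (p + s • τ) eY, ?_, ?_, fun D => ?_⟩
  · rw [le_div_iff₀ ps]; linarith [hg.2, hg0.1]
  · rw [div_le_iff₀ ps]; linarith [hg.1, hg0.2]
  · have h := bet_const (q := q) (τ := τ) s p0.ne' ps.ne' D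
    rw [div_mul_eq_mul_div, eq_div_iff ps.ne']
    linarith

end Crest.Agent.R136.Nd214
end

-- ▼ part R136/Nd7_214
section

/-!
# R136, non-degeneracy of near-maximal sheets (helper214), part 7: output of the pair lemmas in the
form of the count (strip relation + flatness)
-/

set_option autoImplicit false
set_option linter.unusedVariables false
set_option linter.unusedSectionVars false

open Finset

namespace Crest.Agent.R136.Nd214

open Crest.Agent.R136.Tl214 Crest.Agent.R136.Nd880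
open Crest.Agent.R136.Arc880 (det3)

variable {E : Type*} [AddCommGroup E] [Module ℝ E]

/-- a family of lines near the central line -/
structure Fam {ι : Type*} (A : Finset ι) (q : QP E) (eA eB eY x0 τ0 : E) (a : ℝ) (p τ : ι → E)
    (uA uB uY vA vB vY : ι → ℝ) : Prop where
  loc : Loc q eA eB eY x0 τ0 a
  lin : ∀ t ∈ A, Lin q eA eB eY x0 τ0 a (p t) (τ t) (uA t) (uB t) (uY t) (vA t) (vB t) (vY t)

/-- flatness of the sheet along the ribbon of half-width `β` in the direction orthogonal to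
`(nA, nB)` -/
def FlN (q : QP E) (eA eB eY p τ : E) (nA nB β σ : ℝ) : Prop :=
  2 * β * |bet q eY p τ ((-nB) • eA + nA • eB)| +
    β ^ 2 * |sec q eY p ((-nB) • eA + nA • eB) ((-nB) • eA + nA • eB)| ≤ σ

open Classical in
/-- output of the pair lemmas -/
structure Out {ι : Type*} (A : Finset ι) (q : QP E) (eA eB eY : E) (p τ : ι → E)
    (uA uB vA vB : ι → ℝ) (nA nB : ι → ℝ) (St : ι → ι → Prop) (r σ : ℝ) : Prop where
  nrm : ∀ t ∈ A, nA t ^ 2 + nB t ^ 2 = 1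
  pair : ∀ B ⊆ A, ∀ s : ℝ, 0 ≤ s → s ≤ 1 → (∀ t ∈ B, ∀ t' ∈ B,
      |(uA t' + s * vA t') - (uA t + s * vA t)| ≤ r ∧
      |(uB t' + s * vB t') - (uB t + s * vB t)| ≤ r) →
    (B.card : ℝ) ^ 2 ≤ 4 * (((B ×ˢ B).filter fun z => St z.1 z.2).card : ℝ)
  strip : ∀ t ∈ A, ∀ t' ∈ A, St t t' →
    |nA t * (vA t' - vA t) + nB t * (vB t' - vB t)| ≤ σ ∧
      FlN q eA eB eY (p t) (τ t) (nA t) (nB t) (max |vA t' - vA t| |vB t' - vB t|) σ

variable {ι : Type*} {A : Finset ι} {q : QP E} {eA eB eY x0 τ0 : E} {a : ℝ} {p τ : ι → E}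
  {uA uB uY vA vB vY : ι → ℝ}

theorem dv_le (F : Fam A q eA eB eY x0 τ0 a p τ uA uB uY vA vB vY) {t t' : ι} (ht : t ∈ A)
    (ht' : t' ∈ A) : |vA t' - vA t| ≤ 1 / 250 ∧ |vB t' - vB t| ≤ 1 / 250 := by
  have h1 := (F.lin t ht).vA_le
  have h2 := (F.lin t' ht').vA_le
  have h3 := (F.lin t ht).vB_le
  have h4 := (F.lin t' ht').vB_le
  rw [abs_le] at h1 h2 h3 h4
  constructor <;> rw [abs_le] <;> constructor <;>
    linarith [h1.1, h1.2, h2.1, h2.2, h3.1, h3.2, h4.1, h4.2]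

/-- **three high lines** through one cell -/
theorem high3 (F : Fam A q eA eB eY x0 τ0 a p τ uA uB uY vA vB vY) {κ b0 r s : ℝ}
    (hs : 0 ≤ s) (hs1 : s ≤ 1) (hr0 : 0 ≤ r) (hr : r ≤ 1 / 100000) (hb0 : 0 < b0) (hb1 : b0 ≤ 1)
    {i : Fin 3 → ι} (hi : ∀ k, i k ∈ A)
    (hκ : |det3 (fanQ q eA eB eY (p (i 0) + s • τ (i 0)) (τ (i 0)))| ≤ κ)
    (hb : ∀ k, b0 ≤ |bet q eY (p (i k)) (τ (i k)) eA| + |bet q eY (p (i k)) (τ (i k)) eB|)
    (hcell : ∀ k, |(uA (i k) + s * vA (i k)) - (uA (i 0) + s * vA (i 0))| ≤ r ∧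
      |(uB (i k) + s * vB (i k)) - (uB (i 0) + s * vB (i 0))| ≤ r)
    (hsm : 10 ^ 38 * (κ + a + r) ≤ b0 ^ 6) :
    ∃ k l, k ≠ l ∧
      |bet q eY (p (i k)) (τ (i k)) eA * (vA (i l) - vA (i k)) +
        bet q eY (p (i k)) (τ (i k)) eB * (vB (i l) - vB (i k))| ≤ 10 ^ 21 * (κ + a + r) / b0 ^ 2 ∧
      |bet q eY (p (i l)) (τ (i l)) eA * (vA (i l) - vA (i k)) +
        bet q eY (p (i l)) (τ (i l)) eB * (vB (i l) - vB (i k))| ≤
        10 ^ 21 * (κ + a + r) / b0 ^ 2 := by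
  have L := F.loc
  have a0 := L.a0
  have a1 := L.a1
  have κ0 : 0 ≤ κ := (abs_nonneg _).trans hκ
  have T := fun k => F.lin (i k) (hi k)
  have hx : ∀ k, ∃ y xY : ℝ, _ := fun k => (T 0).two L (T k) hs hs1 hr0 hr (hcell k).1 (hcell k).2
  choose y xY hxY using hx
  have hm := fun k => bet_s (T k) hs hs1
  choose m hm1 hm4 hm using hm
  have hβ : b0 / 4 ≤ 1 := by linarith
  have key := large_w (q := q) (eA := eA) (eB := eB) (eY := eY) (fun k => (hxY k).2.2)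
    (by linarith) (fun k => (hxY k).1) (fun k => (hxY k).2.1) hκ (b0 := b0 / 4) (by positivity) hβ
    (fun k => ?_) ?_
  · obtain ⟨k, l, hkl, h1, h2⟩ := key
    rw [hm k, hm k] at h1
    rw [hm l, hm l] at h2
    have e1 : (vA (i l) - vA (i 0)) - (vA (i k) - vA (i 0)) = vA (i l) - vA (i k) := by ring
    have e2 : (vB (i l) - vB (i 0)) - (vB (i k) - vB (i 0)) = vB (i l) - vB (i k) := by ring
    rw [e1, e2] at h1 h2
    have hb2 : 0 < b0 ^ 2 := by positivity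
    have hC : 2000000 * (600 : ℝ) ^ 4 * (κ + 8 * a + 5 * (a + r)) / (b0 / 4) ^ 2 ≤
        10 ^ 21 / 4 * (κ + a + r) / b0 ^ 2 := by
      have e3 : (b0 / 4) ^ 2 = b0 ^ 2 / 16 := by ring
      rw [e3, div_div_eq_mul_div]
      apply div_le_div_of_nonneg_right _ hb2.le
      nlinarith
    have fin : ∀ (k : Fin 3) (X Y : ℝ), |m k * X + m k * Y| ≤
        10 ^ 21 / 4 * (κ + a + r) / b0 ^ 2 → |X + Y| ≤ 10 ^ 21 * (κ + a + r) / b0 ^ 2 := by
      intro k X Y h
      rw [← mul_add, abs_mul, abs_of_pos (by linarith [hm1 k] : 0 < m k)] at h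
      have h5 : 1 / 4 * |X + Y| ≤ 10 ^ 21 / 4 * (κ + a + r) / b0 ^ 2 :=
        (mul_le_mul_of_nonneg_right (hm1 k) (abs_nonneg _)).trans h
      have h6 : 10 ^ 21 / 4 * (κ + a + r) / b0 ^ 2 = 1 / 4 * (10 ^ 21 * (κ + a + r) / b0 ^ 2) := by
        ring
      rw [h6] at h5
      linarith
    refine ⟨k, l, hkl, fin k _ _ ?_, fin l _ _ ?_⟩
    · refine le_trans (le_of_eq (congrArg _ ?_)) (h1.trans hC); ring
    · refine le_trans (le_of_eq (congrArg _ ?_)) (h2.trans hC); ring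
  · rw [hm k, hm k, abs_mul, abs_mul, abs_of_pos (by linarith [hm1 k] : 0 < m k)]
    have h1 := hb k
    have h2 := hm1 k
    have h3 := abs_nonneg (bet q eY (p (i k)) (τ (i k)) eA)
    have h4 := abs_nonneg (bet q eY (p (i k)) (τ (i k)) eB)
    nlinarith
  · have e3 : (b0 / 4) ^ 6 = b0 ^ 6 / 4096 := by ring
    rw [e3, le_div_iff₀ (by norm_num)]
    refine le_trans ?_ hsm
    have h1 : κ + 8 * a + 5 * (a + r) ≤ 13 * (κ + a + r) := by linarith
    have h2 : 0 ≤ κ + a + r := by linarith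
    calc 50000000000000 * (600 : ℝ) ^ 7 * (κ + 8 * a + 5 * (a + r)) * 4096 ≤
        50000000000000 * (600 : ℝ) ^ 7 * (13 * (κ + a + r)) * 4096 := by gcongr
      _ = (50000000000000 * (600 : ℝ) ^ 7 * 13 * 4096) * (κ + a + r) := by ring
      _ ≤ 10 ^ 38 * (κ + a + r) := by gcongr; norm_num

/-- **high family** -/
theorem high_out (F : Fam A q eA eB eY x0 τ0 a p τ uA uB uY vA vB vY) {κ b0 r : ℝ}
    (hr0 : 0 ≤ r) (hr : r ≤ 1 / 100000) (hb0 : 0 < b0) (hb1 : b0 ≤ 1)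
    (hκ : ∀ t ∈ A, ∀ s : ℝ, 0 ≤ s → s ≤ 1 → |det3 (fanQ q eA eB eY (p t + s • τ t) (τ t))| ≤ κ)
    (hb : ∀ t ∈ A, b0 ≤ |bet q eY (p t) (τ t) eA| + |bet q eY (p t) (τ t) eB|)
    (hsm : 10 ^ 38 * (κ + a + r) ≤ b0 ^ 6) :
    ∃ (nA nB : ι → ℝ) (St : ι → ι → Prop),
      Out A q eA eB eY p τ uA uB vA vB nA nB St r (10 ^ 22 * (κ + a + r) / b0 ^ 3) := by
  classical
  have L := F.loc
  have a0 := L.a0
  have a1 := L.a1
  rcases A.eq_empty_or_nonempty with rfl | ⟨t0, ht0⟩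
  · refine ⟨fun _ => 1, fun _ => 0, fun _ _ => False, ⟨by simp, ?_, by simp⟩⟩
    intro B hB s _ _ _
    have : B = ∅ := subset_empty.1 hB
    subst this; simp
  have κ0 : 0 ≤ κ := (abs_nonneg _).trans (hκ t0 ht0 0 le_rfl zero_le_one)
  set rA : ι → ℝ := fun t => bet q eY (p t) (τ t) eA with hrA
  set rB : ι → ℝ := fun t => bet q eY (p t) (τ t) eB with hrB
  set N : ι → ℝ := fun t => Real.sqrt (rA t ^ 2 + rB t ^ 2) with hN
  have hNsq : ∀ t, N t ^ 2 = rA t ^ 2 + rB t ^ 2 := fun t => Real.sq_sqrt (by positivity)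
  have hN0 : ∀ t, 0 ≤ N t := fun t => Real.sqrt_nonneg _
  have hNb : ∀ t ∈ A, b0 / 2 ≤ N t := by
    intro t ht
    have h1 := hb t ht
    have h2 : b0 ^ 2 / 4 ≤ N t ^ 2 := by
      rw [hNsq, ← sq_abs (rA t), ← sq_abs (rB t)]
      have h3 : b0 ≤ |rA t| + |rB t| := h1
      nlinarith [sq_nonneg (|rA t| - |rB t|), abs_nonneg (rA t), abs_nonneg (rB t)]
    nlinarith [hN0 t]
  set M := 10 ^ 21 * (κ + a + r) / b0 ^ 2 with hM
  have hM0 : 0 ≤ M := by rw [hM]; positivity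
  set R : ι → ι → Prop := fun t t' =>
    |rA t * (vA t' - vA t) + rB t * (vB t' - vB t)| ≤ M ∧
      |rA t' * (vA t' - vA t) + rB t' * (vB t' - vB t)| ≤ M with hR
  have hσ : M / (b0 / 2) ≤ 10 ^ 22 * (κ + a + r) / b0 ^ 3 := by
    have e1 : M / (b0 / 2) = 2 * 10 ^ 21 * (κ + a + r) / b0 ^ 3 := by
      rw [hM]; field_simp
    rw [e1]
    apply div_le_div_of_nonneg_right _ (by positivity)
    nlinarith
  refine ⟨fun t => rA t / N t, fun t => rB t / N t, R, ⟨?_, ?_, ?_⟩⟩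
  · intro t ht
    have h1 : 0 < N t := lt_of_lt_of_le (by positivity) (hNb t ht)
    rw [div_pow, div_pow, ← add_div, ← hNsq t, div_self (by positivity)]
  · intro B hB s hs hs1 hcell
    have key := pairs3 B R ?_ ?_ ?_
    · have h1 : ((B.card ^ 2 : ℕ) : ℝ) ≤ ((4 * _ : ℕ) : ℝ) := Nat.cast_le.2 key
      push_cast at h1
      convert h1
    · intro t _
      simp only [hR, sub_self, mul_zero, add_zero, abs_zero]
      exact ⟨hM0, hM0⟩
    · intro t _ t' _ h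
      refine ⟨?_, ?_⟩
      · have e : rA t' * (vA t - vA t') + rB t' * (vB t - vB t') =
          -(rA t' * (vA t' - vA t) + rB t' * (vB t' - vB t)) := by ring
        change |rA t' * (vA t - vA t') + rB t' * (vB t - vB t')| ≤ M
        rw [e, abs_neg]; exact h.2
      · have e : rA t * (vA t - vA t') + rB t * (vB t - vB t') =
          -(rA t * (vA t' - vA t) + rB t * (vB t' - vB t)) := by ring
        change |rA t * (vA t - vA t') + rB t * (vB t - vB t')| ≤ M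
        rw [e, abs_neg]; exact h.1
    · intro t1 h1 t2 h2 t3 h3 h12 h13 h23
      have hin : ∀ k, (![t1, t2, t3] : Fin 3 → ι) k ∈ B := by
        intro k; fin_cases k
        · exact h1
        · exact h2
        · exact h3
      obtain ⟨k, l, hkl, g1, g2⟩ := high3 F hs hs1 hr0 hr hb0 hb1
        (i := ![t1, t2, t3]) (fun k => hB (hin k)) (hκ _ (hB h1) s hs hs1)
        (fun k => hb _ (hB (hin k))) (fun k => hcell _ h1 _ (hin k)) hsm
      have hsymm : ∀ {t t' : ι}, R t t' → R t' t := by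
        intro t t' h
        refine ⟨?_, ?_⟩
        · have e : rA t' * (vA t - vA t') + rB t' * (vB t - vB t') =
            -(rA t' * (vA t' - vA t) + rB t' * (vB t' - vB t)) := by ring
          change |rA t' * (vA t - vA t') + rB t' * (vB t - vB t')| ≤ M
          rw [e, abs_neg]; exact h.2
        · have e : rA t * (vA t - vA t') + rB t * (vB t - vB t') =
            -(rA t * (vA t' - vA t) + rB t * (vB t' - vB t)) := by ring
          change |rA t * (vA t - vA t') + rB t * (vB t - vB t')| ≤ M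
          rw [e, abs_neg]; exact h.1
      have hkR : R ((![t1, t2, t3] : Fin 3 → ι) k) ((![t1, t2, t3] : Fin 3 → ι) l) := ⟨g1, g2⟩
      fin_cases k <;> fin_cases l
      · exact absurd rfl hkl
      · exact Or.inl hkR
      · exact Or.inr (Or.inl hkR)
      · exact Or.inl (hsymm hkR)
      · exact absurd rfl hkl
      · exact Or.inr (Or.inr hkR)
      · exact Or.inr (Or.inl (hsymm hkR))
      · exact Or.inr (Or.inr (hsymm hkR))
      · exact absurd rfl hkl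
  · intro t ht t' ht' hSt
    have hNt := hNb t ht
    have hNp : 0 < N t := lt_of_lt_of_le (by positivity) hNt
    refine ⟨?_, ?_⟩
    · have e1 : rA t / N t * (vA t' - vA t) + rB t / N t * (vB t' - vB t) =
          (rA t * (vA t' - vA t) + rB t * (vB t' - vB t)) / N t := by ring
      rw [e1, abs_div, abs_of_pos hNp]
      refine le_trans ?_ hσ
      exact div_le_div₀ hM0 hSt.1 (by positivity) hNt
    · obtain ⟨d1, d2⟩ := dv_le F ht ht'
      have T := F.lin t ht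
      have Fr := T.frm L le_rfl zero_le_one
      have cf := T.coef le_rfl zero_le_one
      rw [zero_smul, add_zero] at Fr cf
      have h0 := hκ t ht 0 le_rfl zero_le_one
      rw [zero_smul, add_zero] at h0
      have nA1 : |rA t / N t| ≤ 1 := by
        rw [abs_div, abs_of_pos hNp, div_le_one hNp]
        refine abs_le_of_sq_le_sq ?_ (hN0 t)
        rw [hNsq]; nlinarith [sq_nonneg (rB t)]
      have nB1 : |rB t / N t| ≤ 1 := by
        rw [abs_div, abs_of_pos hNp, div_le_one hNp]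
        refine abs_le_of_sq_le_sq ?_ (hN0 t)
        rw [hNsq]; nlinarith [sq_nonneg (rA t)]
      have hbe : bet q eY (p t) (τ t) ((-(rB t / N t)) • eA + (rA t / N t) • eB) = 0 := by
        rw [bet_add, bet_smul, bet_smul]
        change -(rB t / N t) * rA t + rA t / N t * rB t = 0
        ring
      have hfl := flat_e Fr cf.2 h0 hb0 (hb t ht) (u := -(rB t / N t)) (v := rA t / N t)
        (by rw [abs_neg]; exact nB1) nA1 (by
          change -(rB t / N t) * rA t + rA t / N t * rB t = 0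
          ring)
      have hse : sec q eY (p t) ((-(rB t / N t)) • eA + (rA t / N t) • eB)
          ((-(rB t / N t)) • eA + (rA t / N t) • eB) =
          sec q eY (p t) eA eA * (-(rB t / N t)) ^ 2 +
          2 * sec q eY (p t) eA eB * (-(rB t / N t) * (rA t / N t)) +
          sec q eY (p t) eB eB * (rA t / N t) ^ 2 := by
        rw [sec_add, sec_smul, sec_smul, sec_symm _ eA, sec_symm _ eB, sec_add, sec_add, sec_smul,
          sec_smul, sec_smul, sec_smul, sec_symm _ eB eA]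
        ring
      unfold FlN
      rw [hbe, abs_zero, mul_zero, zero_add, hse]
      have hβ0 : 0 ≤ max |vA t' - vA t| |vB t' - vB t| := (abs_nonneg _).trans (le_max_left _ _)
      have hβ1 : max |vA t' - vA t| |vB t' - vB t| ≤ 1 := max_le (by linarith) (by linarith)
      have hβ2 : (max |vA t' - vA t| |vB t' - vB t|) ^ 2 ≤ 1 := pow_le_one₀ hβ0 hβ1
      have hb3 : 0 < b0 ^ 3 := by positivity
      refine (mul_le_mul hβ2 hfl (abs_nonneg _) zero_le_one).trans ?_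
      rw [one_mul]
      have e5 : 4 * (κ + 2 * 600 ^ 2 * (8 * a)) / b0 ^ 2 =
          4 * (κ + 2 * 600 ^ 2 * (8 * a)) * b0 / b0 ^ 3 := by field_simp
      rw [e5]
      apply div_le_div_of_nonneg_right _ hb3.le
      have h7 : 4 * (κ + 2 * 600 ^ 2 * (8 * a)) * b0 ≤ 4 * (κ + 2 * 600 ^ 2 * (8 * a)) * 1 := by
        gcongr
      nlinarith

/-- **low family** -/
theorem low_out (F : Fam A q eA eB eY x0 τ0 a p τ uA uB uY vA vB vY) {b0 r : ℝ}
    (hr0 : 0 ≤ r) (hr : r ≤ 1 / 100000) (hb0 : 0 < b0) (hb1 : b0 ≤ 1 / 10)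
    (ha : a ≤ 1 / 1000000)
    (hext : 1 ≤ 2 * |q.H τ0 eA| ∨ 1 ≤ 2 * |q.H τ0 eB| ∨ 1 ≤ |q.H eA eA| ∨ 1 ≤ 2 * |q.H eA eB| ∨
      1 ≤ |q.H eB eB|)
    (hb : ∀ t ∈ A, |bet q eY (p t) (τ t) eA| ≤ b0 ∧ |bet q eY (p t) (τ t) eB| ≤ b0) :
    ∃ (nA nB : ι → ℝ) (St : ι → ι → Prop),
      Out A q eA eB eY p τ uA uB vA vB nA nB St r (10 ^ 14 * (b0 + a + r)) := by
  classical
  have L := F.loc
  have a0 := L.a0
  -- strips
  have hex : ∀ t : ι, ∃ n : ℝ × ℝ, t ∈ A → (n.1 ^ 2 + n.2 ^ 2 = 1 ∧ ∀ u v ρ : ℝ,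
      |sec q eY (p t) eA eA * u + sec q eY (p t) eA eB * v| ≤ ρ →
      |sec q eY (p t) eA eB * u + sec q eY (p t) eB eB * v| ≤ ρ →
      |n.1 * u + n.2 * v| ≤ 4 * ρ ∧
      |sec q eY (p t) ((-n.2) • eA + n.1 • eB) ((-n.2) • eA + n.1 • eB)| * max |u| |v| ≤
        28800 * ρ) := by
    intro t
    by_cases ht : t ∈ A
    swap
    · exact ⟨(1, 0), fun h => absurd h ht⟩
    have T := F.lin t ht
    have Fr := T.frm L le_rfl zero_le_one
    rw [zero_smul, add_zero] at Fr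
    have hc := T.low_sec L ha hext ((hb t ht).1.trans hb1) ((hb t ht).2.trans hb1)
    obtain ⟨nA, nB, ⟨n1, n2, n3⟩, hn⟩ := low_strip (K := 600) (c := 1 / 4) Fr.HAA Fr.HAB Fr.HBB
      (by norm_num) hc
    have hN2 : 1 ≤ nA ^ 2 + nB ^ 2 := by
      rcases n3 with h | h
      · rw [← sq_abs nA, h]; nlinarith [sq_nonneg nB]
      · rw [← sq_abs nB, h]; nlinarith [sq_nonneg nA]
    set N := Real.sqrt (nA ^ 2 + nB ^ 2) with hN
    have hNsq : N ^ 2 = nA ^ 2 + nB ^ 2 := Real.sq_sqrt (by positivity)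
    have hN1 : 1 ≤ N := by
      rw [hN]; exact Real.one_le_sqrt.2 hN2
    have hNp : 0 < N := by linarith
    refine ⟨(nA / N, nB / N), fun _ => ⟨?_, ?_⟩⟩
    · change (nA / N) ^ 2 + (nB / N) ^ 2 = 1
      rw [div_pow, div_pow, ← add_div, ← hNsq, div_self (by positivity)]
    · intro u v ρ h1 h2
      obtain ⟨g1, g2, g3⟩ := hn u v ρ h1 h2
      have hρ0 : 0 ≤ ρ := (abs_nonneg _).trans h1
      refine ⟨?_, ?_⟩
      · change |nA / N * u + nB / N * v| ≤ 4 * ρ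
        have e1 : nA / N * u + nB / N * v = (nA * u + nB * v) / N := by ring
        rw [e1, abs_div, abs_of_pos hNp, div_le_iff₀ hNp]
        have e2 : ρ / (1 / 4) = 4 * ρ := by ring
        rw [e2] at g1
        nlinarith
      · change |sec q eY (p t) ((-(nB / N)) • eA + (nA / N) • eB)
          ((-(nB / N)) • eA + (nA / N) • eB)| * max |u| |v| ≤ 28800 * ρ
        have hse : sec q eY (p t) ((-(nB / N)) • eA + (nA / N) • eB)
            ((-(nB / N)) • eA + (nA / N) • eB) =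
            (sec q eY (p t) eA eA * nB ^ 2 - 2 * sec q eY (p t) eA eB * (nA * nB) +
            sec q eY (p t) eB eB * nA ^ 2) / N ^ 2 := by
          rw [sec_add, sec_smul, sec_smul, sec_symm _ eA, sec_symm _ eB, sec_add, sec_add,
            sec_smul, sec_smul, sec_smul, sec_smul, sec_symm _ eB eA]
          field_simp
          ring
        have e3 : 12 * 600 * ρ / (1 / 4) = 28800 * ρ := by ring
        rw [e3] at g2 g3
        rw [hse, abs_div, abs_of_pos (by positivity : 0 < N ^ 2)]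
        set X := |sec q eY (p t) eA eA * nB ^ 2 - 2 * sec q eY (p t) eA eB * (nA * nB) +
            sec q eY (p t) eB eB * nA ^ 2| with hX
        have hX0 : 0 ≤ X := abs_nonneg _
        have hXN : X / N ^ 2 ≤ X := div_le_self hX0 (by nlinarith)
        have hm0 : 0 ≤ max |u| |v| := (abs_nonneg _).trans (le_max_left _ _)
        refine (mul_le_mul_of_nonneg_right hXN hm0).trans ?_
        rcases le_total |u| |v| with h | h
        · rw [max_eq_right h]; exact g3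
        · rw [max_eq_left h]; exact g2
  choose n hn using hex
  set ρL := 10 ^ 9 * (b0 + a + r) with hρL
  have hρ0 : 0 ≤ ρL := by rw [hρL]; positivity
  set R : ι → ι → Prop := fun t t' =>
    |sec q eY (p t) eA eA * (vA t' - vA t) + sec q eY (p t) eA eB * (vB t' - vB t)| ≤ ρL ∧
    |sec q eY (p t) eA eB * (vA t' - vA t) + sec q eY (p t) eB eB * (vB t' - vB t)| ≤ ρL with hR
  refine ⟨fun t => (n t).1, fun t => (n t).2, R, ⟨fun t ht => (hn t ht).1, ?_, ?_⟩⟩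
  · intro B hB s hs hs1 hcell
    have hall : ∀ z ∈ B ×ˢ B, R z.1 z.2 := by
      rintro ⟨t, t'⟩ hz
      rw [mem_product] at hz
      obtain ⟨ht, ht'⟩ := hz
      simp only at ht ht'
      have T := F.lin t (hB ht)
      have T' := F.lin t' (hB ht')
      obtain ⟨c1, c2⟩ := hcell t ht t' ht'
      obtain ⟨y, xY, h1, h2, h3⟩ := T.two L T' hs hs1 hr0 hr c1 c2
      obtain ⟨m, m1, m4, hm⟩ := bet_s T hs hs1
      obtain ⟨m', m1', m4', hm'⟩ := bet_s T' hs hs1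
      obtain ⟨b1, b2⟩ := hb t (hB ht)
      obtain ⟨b1', b2'⟩ := hb t' (hB ht')
      have bd : ∀ {m x : ℝ}, 1 / 4 ≤ m → m ≤ 4 → |x| ≤ b0 → |m * x| ≤ 4 * b0 := by
        intro m x h h' hx
        rw [abs_mul, abs_of_pos (by linarith)]
        exact mul_le_mul h' hx (abs_nonneg _) (by norm_num)
      obtain ⟨g1, g2⟩ := small_w (b0 := 4 * b0) h3 h1 h2 (by rw [hm]; exact bd m1 m4 b1)
        (by rw [hm]; exact bd m1 m4 b2) (by rw [hm']; exact bd m1' m4' b1')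
        (by rw [hm']; exact bd m1' m4' b2')
      -- back to height `0`
      have Fr := T.frm L le_rfl zero_le_one
      rw [zero_smul, add_zero] at Fr
      have gs := (T.hg s hs hs1).1
      have hsa : |s| ≤ 1 := abs_le.2 ⟨by linarith, hs1⟩
      have k1 := sec_move Fr hsa gs (by linarith : b0 ≤ 1) Fr.HAY Fr.HAY b1 b1
      have k2 := sec_move Fr hsa gs (by linarith : b0 ≤ 1) Fr.HAY Fr.HBY b1 b2
      have k3 := sec_move Fr hsa gs (by linarith : b0 ≤ 1) Fr.HBY Fr.HBY b2 b2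
      obtain ⟨d1, d2⟩ := dv_le F (hB ht) (hB ht')
      have j1 := abs_mul_le' k1 d1
      have j2 := abs_mul_le' k2 d2
      have j3 := abs_mul_le' k2 d1
      have j4 := abs_mul_le' k3 d2
      constructor
      · change |sec q eY (p t) eA eA * (vA t' - vA t) + sec q eY (p t) eA eB * (vB t' - vB t)| ≤ ρL
        rw [hρL]
        rw [abs_le] at g1 j1 j2 ⊢
        constructor <;> nlinarith [g1.1, g1.2, j1.1, j1.2, j2.1, j2.2]
      · change |sec q eY (p t) eA eB * (vA t' - vA t) + sec q eY (p t) eB eB * (vB t' - vB t)| ≤ ρL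
        rw [hρL]
        rw [abs_le] at g2 j3 j4 ⊢
        constructor <;> nlinarith [g2.1, g2.2, j3.1, j3.2, j4.1, j4.2]
    have hsub : B ×ˢ B ⊆ ((B ×ˢ B).filter fun z => R z.1 z.2) :=
      fun z hz => mem_filter.2 ⟨hz, hall z hz⟩
    have h1 : (((B ×ˢ B).card : ℕ) : ℝ) ≤ _ := Nat.cast_le.2 (card_le_card hsub)
    rw [card_product] at h1
    push_cast at h1
    have h2 : (B.card : ℝ) ^ 2 ≤ 4 * (((B ×ˢ B).filter fun z => R z.1 z.2).card : ℝ) := by
      nlinarith [sq_nonneg (B.card : ℝ)]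
    convert h2
  · intro t ht t' ht' hSt
    obtain ⟨hn1, hn2⟩ := hn t ht
    obtain ⟨g1, g2⟩ := hn2 _ _ _ hSt.1 hSt.2
    have hbig : 4 * ρL ≤ 10 ^ 14 * (b0 + a + r) := by rw [hρL]; nlinarith
    refine ⟨g1.trans hbig, ?_⟩
    obtain ⟨b1, b2⟩ := hb t ht
    obtain ⟨d1, d2⟩ := dv_le F ht ht'
    set β := max |vA t' - vA t| |vB t' - vB t| with hβ
    have hβ0 : 0 ≤ β := (abs_nonneg _).trans (le_max_left _ _)
    have hβ1 : β ≤ 1 := max_le (by linarith) (by linarith)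
    have nA1 : |(n t).1| ≤ 1 := by
      refine abs_le_of_sq_le_sq ?_ zero_le_one
      nlinarith [sq_nonneg (n t).2]
    have nB1 : |(n t).2| ≤ 1 := by
      refine abs_le_of_sq_le_sq ?_ zero_le_one
      nlinarith [sq_nonneg (n t).1]
    have hbe : |bet q eY (p t) (τ t) ((-(n t).2) • eA + (n t).1 • eB)| ≤ 2 * b0 := by
      rw [bet_add, bet_smul, bet_smul]
      refine (abs_add_le _ _).trans ?_
      have h1 := abs_mul_le' (show |(-(n t).2)| ≤ 1 by rw [abs_neg]; exact nB1) b1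
      have h2 := abs_mul_le' nA1 b2
      linarith
    unfold FlN
    change 2 * β * |bet q eY (p t) (τ t) ((-(n t).2) • eA + (n t).1 • eB)| + β ^ 2 *
      |sec q eY (p t) ((-(n t).2) • eA + (n t).1 • eB) ((-(n t).2) • eA + (n t).1 • eB)| ≤ _
    set X := |sec q eY (p t) ((-(n t).2) • eA + (n t).1 • eB)
      ((-(n t).2) • eA + (n t).1 • eB)| with hX
    have h1 : 2 * β * |bet q eY (p t) (τ t) ((-(n t).2) • eA + (n t).1 • eB)| ≤
        2 * 1 * (2 * b0) := by gcongr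
    have h2 : β ^ 2 * X ≤ 28800 * ρL := by
      have e : β ^ 2 * X = β * (X * β) := by ring
      rw [e]
      calc β * (X * β) ≤ 1 * (28800 * ρL) := by
            apply mul_le_mul hβ1 g2 (by positivity) zero_le_one
        _ = 28800 * ρL := one_mul _
    rw [hρL] at h2
    nlinarith

end Crest.Agent.R136.Nd214
end

-- ▼ part R136/Nd8_214
section

/-!
# R136, non-degeneracy of near-maximal sheets (helper214), part 8: the family of a sheet, flat
ribbons, choice of the scales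
-/

set_option autoImplicit false
set_option linter.unusedVariables false

open Finset

namespace Crest.Agent.R136.Nd214

open Crest.Agent.R136.Tl214 Crest.Agent.R136.Tl102 Crest.Agent.R136.Nd880
open Crest.Agent.R136.Sh605 (V3 dt Ln4 InK InSheet ShN Ortho IsQ)
open Crest.Agent.R136.Arc880 (det3)
open Crest.Agent.R136.Nd565 (FlatAt)

variable {e : Fin 3 → V3} {c : Ln4} {w : V3} {q : ℝ → V3 → ℝ} {a z0 ρ : ℝ} {T : Ln4}
  {b0 b1 : V3} {G : QF} {κ : ℝ} {φ : V3}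

theorem vel_sub (e : Fin 3 → V3) (w : V3) (T t t' : Ln4) (ρ : ℝ) (i : Fin 3) :
    vel e w T t' ρ i - vel e w T t ρ i = ρ * dt (e i) (t'.v - t.v) / w i := by
  simp only [vel, dt, Pi.sub_apply]
  ring

theorem crd_sub (e : Fin 3 → V3) (w : V3) (T t t' : Ln4) (z0 ρ ζ : ℝ) (i : Fin 3) :
    (crd e w T t' z0 i + ζ * vel e w T t' ρ i) - (crd e w T t z0 i + ζ * vel e w T t ρ i) =
      dt (e i) (t'.pos (z0 + ρ * ζ) - t.pos (z0 + ρ * ζ)) / w i := by
  rw [← crd_add, ← crd_add]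
  simp only [crd, dt, Pi.sub_apply]
  ring

/-- **the family of the lines near `T`** -/
theorem Dta.fam {ι : Type*} (D : Dta e c w q a z0 ρ T b0 b1 G κ φ) (ha : 0 ≤ a)
    (hs : 1000 * a ≤ w 0 * κ) (A : Finset ι) (L : ι → Ln4)
    (hA : ∀ t ∈ A, InSheet (L t) e c w q a z0 ρ ∧ ∀ z, z0 ≤ z → z ≤ z0 + ρ → ∀ i,
      |dt (e i) ((L t).pos z - T.pos z)| ≤ w i / 1000) :
    Fam A (qB φ κ b0 b1 G) (eA b0) (eB b0) (eY κ) 0 eT (a / (w 0 * κ))
      (fun t => ((0 : ℝ), crd e w T (L t) z0)) (fun t => ((1 : ℝ), vel e w T (L t) ρ))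
      (fun t => crd e w T (L t) z0 1) (fun t => crd e w T (L t) z0 2)
      (fun t => cY b0 κ (crd e w T (L t) z0)) (fun t => vel e w T (L t) ρ 1)
      (fun t => vel e w T (L t) ρ 2) (fun t => cY b0 κ (vel e w T (L t) ρ)) where
  loc := D.loc ha hs
  lin := fun t ht => D.lin (hA t ht).1 fun z h0 h1 i => by
    have hw := D.w_pos i
    rw [crd, abs_div, abs_of_pos hw, div_le_iff₀ hw]
    have := (hA t ht).2 z h0 h1 i
    linarith

/-- **flat ribbons** -/
theorem Dta.flat (D : Dta e c w q a z0 ρ T b0 b1 G κ φ) {t : Ln4} {nA nB β σ : ℝ}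
    (hg : 1 / 2 ≤ (qB φ κ b0 b1 G).G (0, crd e w T t z0) (eY κ)) (hβ : 0 ≤ β)
    (h : FlN (qB φ κ b0 b1 G) (eA b0) (eB b0) (eY κ) (0, crd e w T t z0) (1, vel e w T t ρ)
      nA nB β σ) : FlatAt q e w t z0 ρ nA nB β (σ * (w 0 * κ)) := by
  set Q := qB φ κ b0 b1 G with hQ
  set P : V4 := (0, crd e w T t z0) with hP
  set τ : V4 := (1, vel e w T t ρ) with hτ
  set D0 : V4 := (-nB) • eA b0 + nA • eB b0 with hD0
  set m := Q.G P D0 / Q.G P (eY κ) with hm
  set y0 : ℝ := nB * (b0 1 / b0 0) - nA * (b0 2 / b0 0) - m * κ with hy0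
  have hwκ : 0 < w 0 * κ := mul_pos (D.w_pos 0) D.κ0
  have n0 : Q.G P (eY κ) ≠ 0 := by linarith
  have eξ : lift Q (eY κ) P D0 = ((0 : ℝ), (![y0, -nB, nA] : V3)) := by
    change D0 - m • eY κ = _
    rw [hD0]
    ext i
    · simp [eA, eB, eY]
    · fin_cases i <;> simp [eA, eB, eY, hy0] <;> ring
  refine ⟨w 0 * y0, fun z hz0 hz1 α hα => ?_⟩
  obtain ⟨s, hs0, hs1, rfl⟩ : ∃ s, 0 ≤ s ∧ s ≤ 1 ∧ z = z0 + ρ * s := by
    have hρ := D.ρ0
    refine ⟨(z - z0) / ρ, div_nonneg (by linarith) hρ.le, ?_, ?_⟩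
    · rw [div_le_one hρ]; linarith
    · field_simp; ring
  have e1 : t.pos (z0 + ρ * s) + α • ((w 0 * y0) • e 0 + (w 1 * -nB) • e 1 + (w 2 * nA) • e 2) =
      T.pos (z0 + ρ * s) + cmb (fr e w)
        (crd e w T t (z0 + ρ * s) + α • (![y0, -nB, nA] : V3)) := by
    rw [pos_eq_cmb D.sh.ortho D.w_pos T t (z0 + ρ * s)]
    funext j
    simp only [cmb, fr, Pi.add_apply, Pi.smul_apply, smul_eq_mul, Matrix.cons_val]
    ring
  have e2 : ((s : ℝ), crd e w T t (z0 + ρ * s)) = P + s • τ := by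
    rw [hP, hτ]
    ext i
    · simp
    · simp only [Prod.snd_add, Prod.smul_snd, Pi.add_apply, Pi.smul_apply, smul_eq_mul]
      rw [crd_add]
  have e3 : ((s : ℝ), crd e w T t (z0 + ρ * s) + α • (![y0, -nB, nA] : V3)) =
      (P + s • τ) + α • lift Q (eY κ) P D0 := by
    rw [eξ, ← e2]
    refine Prod.ext ?_ ?_
    · change s = s + α * 0
      ring
    · rfl
  rw [e1, D.f_eq, D.f_line, e3, e2, Q.taylor, Q.G_smul, Q.G_add, G_lift n0]
  have e4 : (w 0 * κ) * (Q.f (P + s • τ) + α * (0 + 2 * Q.H (s • τ) (lift Q (eY κ) P D0)) +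
      Q.H (α • lift Q (eY κ) P D0) (α • lift Q (eY κ) P D0)) - (w 0 * κ) * Q.f (P + s • τ) =
      (w 0 * κ) * ((2 * α * s) * bet Q (eY κ) P τ D0 + α ^ 2 * sec Q (eY κ) P D0 D0) := by
    simp only [bet, sec, map_smul, LinearMap.smul_apply, smul_eq_mul]
    ring
  rw [e4, abs_mul, abs_of_pos hwκ, mul_comm σ]
  apply mul_le_mul_of_nonneg_left _ hwκ.le
  refine (abs_add_le _ _).trans (le_trans ?_ h)
  have hs' : |s| ≤ 1 := abs_le.2 ⟨by linarith, hs1⟩
  have k1 : |2 * α * s| ≤ 2 * β * 1 :=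
    abs_mul_le' (abs_mul_le' (le_of_eq abs_two) hα) hs'
  have k2 : α ^ 2 ≤ β ^ 2 := by
    rw [← sq_abs α]; exact pow_le_pow_left₀ (abs_nonneg _) hα 2
  have k3 := abs_nonneg (bet Q (eY κ) P τ D0)
  have k4 := abs_nonneg (sec Q (eY κ) P D0 D0)
  refine add_le_add ?_ ?_
  · rw [abs_mul]
    refine (mul_le_mul_of_nonneg_right k1 k3).trans (le_of_eq (by rw [mul_one]))
  · rw [abs_mul, abs_of_nonneg (sq_nonneg α)]
    exact mul_le_mul_of_nonneg_right k2 k4

theorem FlatAt.mono {nA nB β σ σ' : ℝ} {t : Ln4} (h : FlatAt q e w t z0 ρ nA nB β σ)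
    (hσ : σ ≤ σ') : FlatAt q e w t z0 ρ nA nB β σ' := by
  obtain ⟨y, hy⟩ := h
  exact ⟨y, fun z h0 h1 α hα => (hy z h0 h1 α hα).trans hσ⟩

/-! ### choice of the scales -/

/-- **choice of a scale** -/
theorem pick {qq M0 B : ℝ} (hq : 0 < qq) (hM : 0 ≤ M0) (hB : 1 ≤ B) :
    ∃ N0 : ℕ, ∀ N : ℕ, N0 ≤ N → ∀ m : ℕ, 1 ≤ m →
      M0 * B ^ m * (((1 / 2 : ℝ) ^ (N * m)) ^ qq) < (1 / 2) ^ m := by
  have hy0 : (0 : ℝ) < (1 / 2 : ℝ) ^ qq := Real.rpow_pos_of_pos (by norm_num) _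
  have hy1 : (1 / 2 : ℝ) ^ qq < 1 := Real.rpow_lt_one (by norm_num) (by norm_num) hq
  have hpos : 0 < 1 / (2 * (M0 + 1) * B) := by positivity
  obtain ⟨N0, hN0⟩ := exists_pow_lt_of_lt_one hpos hy1
  refine ⟨N0, fun N hN m hm => ?_⟩
  have e1 : ((1 / 2 : ℝ) ^ (N * m)) ^ qq = (((1 / 2 : ℝ) ^ qq) ^ N) ^ m := by
    rw [← pow_mul, ← Real.rpow_natCast, ← Real.rpow_natCast, ← Real.rpow_mul (by norm_num),
      ← Real.rpow_mul (by norm_num), mul_comm]
  rw [e1]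
  set y := ((1 / 2 : ℝ) ^ qq) ^ N with hy
  have hyN : y ≤ 1 / (2 * (M0 + 1) * B) :=
    (pow_le_pow_of_le_one hy0.le hy1.le hN).trans hN0.le
  have hyp : 0 < y := by rw [hy]; positivity
  have h1 : B * y ≤ 1 / (2 * (M0 + 1)) := by
    have : B * y ≤ B * (1 / (2 * (M0 + 1) * B)) := mul_le_mul_of_nonneg_left hyN (by linarith)
    refine this.trans (le_of_eq ?_)
    field_simp
  have h2 : (B * y) ^ m ≤ (1 / (2 * (M0 + 1))) ^ m :=
    pow_le_pow_left₀ (by positivity) h1 m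
  have h3 : (1 / (2 * (M0 + 1))) ^ m = (1 / 2 : ℝ) ^ m * (1 / (M0 + 1)) ^ m := by
    rw [← mul_pow]; congr 1; field_simp
  have h4 : (1 / (M0 + 1)) ^ m ≤ 1 / (M0 + 1) := by
    have h5 : 1 / (M0 + 1) ≤ 1 := by rw [div_le_one (by linarith)]; linarith
    have h6 : (0:ℝ) ≤ 1 / (M0 + 1) := by positivity
    calc (1 / (M0 + 1)) ^ m ≤ (1 / (M0 + 1)) ^ 1 := pow_le_pow_of_le_one h6 h5 hm
      _ = _ := pow_one _
  have hh : (0 : ℝ) < (1 / 2 : ℝ) ^ m := by positivity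
  calc M0 * B ^ m * y ^ m = M0 * (B * y) ^ m := by rw [mul_pow]; ring
    _ ≤ M0 * ((1 / 2 : ℝ) ^ m * (1 / (M0 + 1))) := by
        apply mul_le_mul_of_nonneg_left _ hM
        rw [h3] at h2
        exact h2.trans (mul_le_mul_of_nonneg_left h4 hh.le)
    _ = (1 / 2 : ℝ) ^ m * (M0 / (M0 + 1)) := by ring
    _ < (1 / 2 : ℝ) ^ m * 1 := by
        apply mul_lt_mul_of_pos_left _ hh
        rw [div_lt_one (by linarith)]; linarith
    _ = _ := mul_one _

/-- dyadic size of `θ` -/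
theorem dyad {θ : ℝ} (h0 : 0 < θ) (h1 : θ ≤ 1 / 2) :
    ∃ m : ℕ, 1 ≤ m ∧ (1 / 2 : ℝ) ^ m ≤ θ ∧ θ ^ 2 ≤ (1 / 2) ^ m := by
  obtain ⟨n, hn⟩ := exists_pow_lt_of_lt_one h0 (by norm_num : (1 / 2 : ℝ) < 1)
  classical
  let m := Nat.find (⟨n, hn.le⟩ : ∃ n : ℕ, (1 / 2 : ℝ) ^ n ≤ θ)
  have hm : (1 / 2 : ℝ) ^ m ≤ θ := Nat.find_spec (⟨n, hn.le⟩ : ∃ n : ℕ, (1 / 2 : ℝ) ^ n ≤ θ)
  have hm1 : 1 ≤ m := by
    rcases Nat.eq_zero_or_pos m with h | h
    · rw [h] at hm; norm_num at hm; linarith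
    · exact h
  refine ⟨m, hm1, hm, ?_⟩
  have h2 : θ < (1 / 2 : ℝ) ^ (m - 1) := by
    have := Nat.find_min (⟨n, hn.le⟩ : ∃ n : ℕ, (1 / 2 : ℝ) ^ n ≤ θ)
      (show m - 1 < m by omega)
    push Not at this
    exact this
  have h3 : (1 / 2 : ℝ) ^ m = (1 / 2) ^ (m - 1) * (1 / 2) := by
    rw [← pow_succ]; congr 1; omega
  rw [h3, sq]
  exact mul_le_mul h2.le h1 h0.le (by positivity)

end Crest.Agent.R136.Nd214
end

-- ▼ part R136/Fn2_880
section

/-!
# R136: the seam between `qB` (Nd4_214) and 102's fan (helper880)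

`det3_qB` : `|det3 (fanQ (qB φ κ b0 b1 G) (eA b0) (eB b0) (eY κ) (ζ • eT) eT) -
  2 ^ 22 * det3 (fan (shB0 b0) (scB1 κ b0 b1) (scG κ b0 G) ζ)| ≤ 8192 |φ 2|`.
-/

set_option autoImplicit false
set_option linter.unusedVariables false

namespace Crest.Agent.R136.Fn880

open Crest.Agent.R136.Sh605 (V3 Ln4 dt IsQ)
open Crest.Agent.R136.Arc880 (det3 abs_mul_le abs_add2 abs_sub2)
open Crest.Agent.R136.Tl214 (QP lift)
open Crest.Agent.R136.Nd214 (bet sec Frm Two V4 qB qB_f qB_H qB_G eA eB eY eT lift_add' lift_smul')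
open Crest.Agent.R136.Tl102 (QF Fq bz fan slp shB0 scB1 scG shG shB1 kap NrmC IsExp fr cmb)
open Crest.Agent.R136.Nd880 (fanQ D3 det3_fanQ lift_eY)

/-- the plank frame of `V4` -/
def fV : Fin 3 → V4 := ![((0 : ℝ), ![1, 0, 0]), ((0 : ℝ), ![0, 1, 0]), ((0 : ℝ), ![0, 0, 1])]

theorem fV0 : fV 0 = ((0 : ℝ), ![1, 0, 0]) := rfl
theorem fV1 : fV 1 = ((0 : ℝ), ![0, 1, 0]) := rfl
theorem fV2 : fV 2 = ((0 : ℝ), ![0, 0, 1]) := rfl

theorem eY_eq (κ : ℝ) : eY κ = κ • fV 0 := by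
  rw [fV0]
  refine Prod.ext ?_ ?_
  · simp [eY]
  · funext i
    fin_cases i <;> simp [eY]

theorem eA_eq (b0 : V3) : eA b0 = fV 1 + (-(b0 1 / b0 0)) • fV 0 := by
  rw [fV0, fV1]
  refine Prod.ext ?_ ?_
  · simp [eA]
  · funext i
    fin_cases i <;> simp [eA]

theorem eB_eq (b0 : V3) : eB b0 = fV 2 + (-(b0 2 / b0 0)) • fV 0 := by
  rw [fV0, fV2]
  refine Prod.ext ?_ ?_
  · simp [eB]
  · funext i
    fin_cases i <;> simp [eB]

theorem rep_qB (φ : V3) (κ : ℝ) (b0 b1 : V3) (G : QF) :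
    Rep (qB φ κ b0 b1 G) fV 0 eT κ⁻¹ b0 b1 G := by
  intro ζ x
  have e1 : (0 : V4) + ζ • eT = (ζ, 0) := by
    refine Prod.ext ?_ ?_
    · simp [eT]
    · simp [eT]
  have e2 : ((ζ, 0) : V4) + (x 0 • fV 0 + x 1 • fV 1 + x 2 • fV 2) = (ζ, x) := by
    rw [fV0, fV1, fV2]
    refine Prod.ext ?_ ?_
    · simp
    · funext i
      fin_cases i <;> simp
  rw [e1, e2, qB_f, qB_f]
  have e3 : Fq b0 b1 G ζ 0 = 0 := by simp [Fq, dt, QF.ev]
  rw [e3]; ring

theorem qB_Hττ (φ : V3) (κ : ℝ) (b0 b1 : V3) (G : QF) : (qB φ κ b0 b1 G).H eT eT = φ 2 := by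
  rw [qB_H]
  simp [eT, dt, QF.pol]

/-- `bet` and `sec` do not see the shear -/
theorem bet_qB {φ : V3} {κ : ℝ} {b0 b1 : V3} {G : QF} {x : V4} (hκ : κ ≠ 0)
    (h : (qB φ κ b0 b1 G).G x (eY κ) ≠ 0) :
    lift (qB φ κ b0 b1 G) (eY κ) x (eA b0) = lift (qB φ κ b0 b1 G) (κ • fV 0) x (fV 1) ∧
      lift (qB φ κ b0 b1 G) (eY κ) x (eB b0) = lift (qB φ κ b0 b1 G) (κ • fV 0) x (fV 2) := by
  have e0 : lift (qB φ κ b0 b1 G) (eY κ) x (fV 0) = 0 := by
    have e1 : fV 0 = κ⁻¹ • eY κ := by rw [eY_eq, smul_smul, inv_mul_cancel₀ hκ, one_smul]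
    rw [e1, lift_smul', lift_eY h, smul_zero]
  constructor
  · rw [eA_eq, lift_add', lift_smul', e0, smul_zero, add_zero, eY_eq]
  · rw [eB_eq, lift_add', lift_smul', e0, smul_zero, add_zero, eY_eq]

theorem fanQ_qB {φ : V3} {κ : ℝ} {b0 b1 : V3} {G : QF} {x τ : V4} (hκ : κ ≠ 0)
    (h : (qB φ κ b0 b1 G).G x (eY κ) ≠ 0) :
    fanQ (qB φ κ b0 b1 G) (eA b0) (eB b0) (eY κ) x τ =
      fanQ (qB φ κ b0 b1 G) (fV 1) (fV 2) (κ • fV 0) x τ := by
  obtain ⟨e1, e2⟩ := bet_qB hκ h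
  unfold fanQ bet sec
  rw [e1, e2]

/-- the normal derivative along the central line -/
theorem G_qB (φ : V3) {κ : ℝ} (b0 b1 : V3) (G : QF) (hκ : κ ≠ 0) (ζ : ℝ) :
    (qB φ κ b0 b1 G).G (ζ • eT) (eY κ) = b0 0 + ζ * b1 0 := by
  have h := (rep_qB φ κ b0 b1 G).G0 ζ
  rw [zero_add] at h
  rw [eY_eq, QP.G_smul, h, ← mul_assoc, mul_inv_cancel₀ hκ, one_mul]

/-- **the seam** -/
theorem det3_qB {φ : V3} {κ : ℝ} {b0 b1 : V3} {G : QF} (N : NrmC b0 b1 G) (hκ0 : 0 < κ)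
    (hκ : kap b0 b1 G ≤ κ) (hκ1 : κ ≤ 13) {ζ : ℝ} (hζ : 0 ≤ ζ) (hζ1 : ζ ≤ 1) :
    |det3 (fanQ (qB φ κ b0 b1 G) (eA b0) (eB b0) (eY κ) (ζ • eT) eT) -
      2 ^ 22 * det3 (fan (shB0 b0) (scB1 κ b0 b1) (scG κ b0 G) ζ)| ≤ 8192 * |φ 2| := by
  obtain ⟨hg, -⟩ := sc_bounds N hκ0 hκ hκ1 hζ hζ1
  have h1 := (rep_qB φ κ b0 b1 G).det3_kap N hκ0 hκ hκ1 hζ hζ1
  rw [zero_add, qB_Hττ] at h1
  rw [fanQ_qB hκ0.ne' (by rw [G_qB _ _ _ _ hκ0.ne']; exact ne_of_gt (by linarith only [hg.1]))]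
  have e : (2 : ℝ) ^ 22 = 4194304 := by norm_num
  rw [e]; exact h1


end Crest.Agent.R136.Fn880
end

-- ▼ part R136/Nd9_214
section

/-!
# R136, non-degeneracy of near-maximal sheets (helper214), part 9: the finite theorem, up to the
count `nd_count` of helper335
-/

set_option autoImplicit false
set_option linter.unusedVariables false

open Finset

namespace Crest.Agent.R136.Nd214

open Crest.Agent.R136.Tl214 Crest.Agent.R136.Tl102 Crest.Agent.R136.Nd880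
open Crest.Agent.R136.Sh605 (V3 dt Ln4 InK InSheet ShN Ortho IsQ DMaxN)
open Crest.Agent.R136.Arc880 (det3)
open Crest.Agent.R136.Nd565 (FlatAt)

variable {e : Fin 3 → V3} {c : Ln4} {w : V3} {q : ℝ → V3 → ℝ} {a z0 ρ : ℝ} {T : Ln4}
  {b0 b1 : V3} {G : QF} {κ : ℝ} {φ : V3}

/-- the curvature extent is attained -/
theorem Dta.ext (D : Dta e c w q a z0 ρ T b0 b1 G κ φ) :
    1 ≤ 2 * |(qB φ κ b0 b1 G).H eT (eA b0)| ∨ 1 ≤ 2 * |(qB φ κ b0 b1 G).H eT (eB b0)| ∨
      1 ≤ |(qB φ κ b0 b1 G).H (eA b0) (eA b0)| ∨ 1 ≤ 2 * |(qB φ κ b0 b1 G).H (eA b0) (eB b0)| ∨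
      1 ≤ |(qB φ κ b0 b1 G).H (eB b0) (eB b0)| := by
  have N := D.nrm
  have hκ := D.κ0
  obtain ⟨g1, g2, g3, g4, -, -, -, s1, s2⟩ := N.b1_le
  have hb : b0 0 ≠ 0 := by linarith
  have e1 : (qB φ κ b0 b1 G).H (eA b0) (eA b0) = (shG b0 G).uu / κ := by
    rw [qB_H]
    simp only [eA, dt, QF.pol, Matrix.cons_val, shG]
    field_simp
    ring
  have e2 : (qB φ κ b0 b1 G).H (eA b0) (eB b0) = (shG b0 G).uv / κ / 2 := by
    rw [qB_H]
    simp only [eA, eB, dt, QF.pol, Matrix.cons_val, shG]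
    field_simp
    ring
  have e3 : (qB φ κ b0 b1 G).H (eB b0) (eB b0) = (shG b0 G).vv / κ := by
    rw [qB_H]
    simp only [eB, dt, QF.pol, Matrix.cons_val, shG]
    field_simp
    ring
  have e4 : (qB φ κ b0 b1 G).H eT (eA b0) = shB1 b0 b1 1 / κ / 2 := by
    rw [qB_H]
    simp only [eA, eT, dt, QF.pol, Matrix.cons_val, shB1, Pi.zero_apply]
    field_simp
    ring
  have e5 : (qB φ κ b0 b1 G).H eT (eB b0) = shB1 b0 b1 2 / κ / 2 := by
    rw [qB_H]
    simp only [eB, eT, dt, QF.pol, Matrix.cons_val, shB1, Pi.zero_apply]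
    field_simp
    ring
  rw [e1, e2, e3, e4, e5]
  have d2 : ∀ x : ℝ, κ ≤ |x| → 1 ≤ 2 * |x / κ / 2| := by
    intro x hx
    rw [abs_div, abs_div, abs_two, abs_of_pos hκ]
    have : 1 ≤ |x| / κ := by rw [le_div_iff₀ hκ]; linarith
    linarith
  have d1 : ∀ x : ℝ, κ ≤ |x| → 1 ≤ |x / κ| := by
    intro x hx
    rw [abs_div, abs_of_pos hκ, le_div_iff₀ hκ]; linarith
  have h : κ = kap b0 b1 G := D.κe
  unfold kap at h
  rcases le_total (max |shB1 b0 b1 1| |shB1 b0 b1 2|)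
    (max (max |(shG b0 G).uu| |(shG b0 G).uv|) |(shG b0 G).vv|) with h1 | h1
  · rw [max_eq_right h1] at h
    rcases le_total (max |(shG b0 G).uu| |(shG b0 G).uv|) |(shG b0 G).vv| with h2 | h2
    · rw [max_eq_right h2] at h
      exact Or.inr (Or.inr (Or.inr (Or.inr (d1 _ h.le))))
    · rw [max_eq_left h2] at h
      rcases le_total |(shG b0 G).uu| |(shG b0 G).uv| with h3 | h3
      · rw [max_eq_right h3] at h
        exact Or.inr (Or.inr (Or.inr (Or.inl (d2 _ h.le))))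
      · rw [max_eq_left h3] at h
        exact Or.inr (Or.inr (Or.inl (d1 _ h.le)))
  · rw [max_eq_left h1] at h
    rcases le_total |shB1 b0 b1 1| |shB1 b0 b1 2| with h3 | h3
    · rw [max_eq_right h3] at h
      exact Or.inr (Or.inl (d2 _ h.le))
    · rw [max_eq_left h3] at h
      exact Or.inl (d2 _ h.le)

theorem Fam.mono {E : Type*} [AddCommGroup E] [Module ℝ E] {ι : Type*} {A B : Finset ι}
    {q : QP E} {eA eB eY x0 τ0 : E} {a : ℝ} {p τ : ι → E} {uA uB uY vA vB vY : ι → ℝ}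
    (F : Fam A q eA eB eY x0 τ0 a p τ uA uB uY vA vB vY) (h : B ⊆ A) :
    Fam B q eA eB eY x0 τ0 a p τ uA uB uY vA vB vY where
  loc := F.loc
  lin := fun t ht => F.lin t (h ht)

/-- powers -/
theorem rp {s x q2 : ℝ} (hs : 0 ≤ s) (hx : 0 < x) :
    (s * x) ^ (1 + q2) * x⁻¹ = s ^ (1 + q2) * x ^ q2 := by
  rw [Real.mul_rpow hs hx.le, Real.rpow_add hx, Real.rpow_one]
  field_simp

/-- **the output of the pair lemmas in the form of the count** -/
theorem Dta.toCount {ι : Type*} (D : Dta e c w q a z0 ρ T b0 b1 G κ φ) (ha : 0 ≤ a)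
    (hs : 1000 * a ≤ w 0 * κ) (A : Finset ι) (L : ι → Ln4)
    (hA : ∀ t ∈ A, InSheet (L t) e c w q a z0 ρ ∧ ∀ z, z0 ≤ z → z ≤ z0 + ρ → ∀ i,
      |dt (e i) ((L t).pos z - T.pos z)| ≤ w i / 1000) {J : ℕ} {σ : ℝ} (hσ : 0 ≤ σ)
    {nA nB : ι → ℝ} {St : ι → ι → Prop}
    (O : Out A (qB φ κ b0 b1 G) (eA b0) (eB b0) (eY κ) (fun t => ((0 : ℝ), crd e w T (L t) z0))
      (fun t => ((1 : ℝ), vel e w T (L t) ρ)) (fun t => crd e w T (L t) z0 1)
      (fun t => crd e w T (L t) z0 2) (fun t => vel e w T (L t) ρ 1)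
      (fun t => vel e w T (L t) ρ 2) nA nB St ((1 / 2) ^ J) σ) :
    (∀ B ⊆ A, ∀ z, z0 ≤ z → z ≤ z0 + ρ → (∀ t ∈ B, ∀ t' ∈ B,
        |dt (e 1) ((L t').pos z - (L t).pos z)| ≤ w 1 / 2 ^ J ∧
        |dt (e 2) ((L t').pos z - (L t).pos z)| ≤ w 2 / 2 ^ J) →
      (B.card : ℝ) ^ 2 ≤ 4 * (((@Finset.filter _ (fun p => St p.1 p.2)
        (fun _ => Classical.propDecidable _) (B ×ˢ B))).card : ℝ)) ∧
    (∀ t ∈ A, ∀ t' ∈ A, St t t' →
      |nA t * (ρ * dt (e 1) ((L t').v - (L t).v) / w 1) +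
        nB t * (ρ * dt (e 2) ((L t').v - (L t).v) / w 2)| ≤ σ ∧
      FlatAt q e w (L t) z0 ρ (nA t) (nB t)
        (max |ρ * dt (e 1) ((L t').v - (L t).v) / w 1| |ρ * dt (e 2) ((L t').v - (L t).v) / w 2|)
        (13 * σ * w 0)) := by
  have F := D.fam ha hs A L hA
  have hκ13 : κ ≤ 13 := by rw [D.κe]; exact kap_le D.nrm
  have hw := D.w_pos
  refine ⟨fun B hB z hz0 hz1 hc => ?_, fun t ht t' ht' hSt => ?_⟩
  · obtain ⟨s, hs0, hs1, rfl⟩ : ∃ s, 0 ≤ s ∧ s ≤ 1 ∧ z = z0 + ρ * s := by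
      have hρ := D.ρ0
      refine ⟨(z - z0) / ρ, div_nonneg (by linarith) hρ.le, ?_, ?_⟩
      · rw [div_le_one hρ]; linarith
      · field_simp; ring
    have h := O.pair B hB s hs0 hs1 (fun t ht t' ht' => by
      obtain ⟨h1, h2⟩ := hc t ht t' ht'
      constructor
      · change |(crd e w T (L t') z0 1 + s * vel e w T (L t') ρ 1) -
          (crd e w T (L t) z0 1 + s * vel e w T (L t) ρ 1)| ≤ _
        rw [crd_sub, abs_div, abs_of_pos (hw 1), div_le_iff₀ (hw 1)]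
        refine h1.trans (le_of_eq ?_)
        rw [one_div, inv_pow]; ring
      · change |(crd e w T (L t') z0 2 + s * vel e w T (L t') ρ 2) -
          (crd e w T (L t) z0 2 + s * vel e w T (L t) ρ 2)| ≤ _
        rw [crd_sub, abs_div, abs_of_pos (hw 2), div_le_iff₀ (hw 2)]
        refine h2.trans (le_of_eq ?_)
        rw [one_div, inv_pow]; ring)
    convert h
  · obtain ⟨h1, h2⟩ := O.strip t ht t' ht' hSt
    simp only [vel_sub] at h1 h2
    refine ⟨h1, ?_⟩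
    have Tt := F.lin t ht
    have hg := (Tt.hg 0 le_rfl zero_le_one).1
    rw [zero_smul, add_zero] at hg
    refine FlatAt.mono (D.flat hg ((abs_nonneg _).trans (le_max_left _ _)) h2) ?_
    have : σ * (w 0 * κ) ≤ σ * (w 0 * 13) := by
      apply mul_le_mul_of_nonneg_left _ hσ
      exact mul_le_mul_of_nonneg_left hκ13 (hw 0).le
    linarith

end Crest.Agent.R136.Nd214
end

-- ▼ part R136/Nd10_214
section

/-!
# R136, non-degeneracy of near-maximal sheets (helper214), part 10: `nondeg`, the finite theorem (3.0)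
-/

set_option autoImplicit false
set_option linter.unusedVariables false

open Finset

namespace Crest.Agent.R136.Nd214

open Crest.Agent.R136.Tl214 Crest.Agent.R136.Tl102 Crest.Agent.R136.Nd880
open Crest.Agent.R136.Sh605 (V3 dt Ln4 InK InSheet ShN Ortho IsQ DMaxN)
open Crest.Agent.R136.Arc880 (det3)
open Crest.Agent.R136.Nd565 (FlatAt)

theorem DMaxN.mono {ι : Type} {A B : Finset ι} {L : ι → Ln4} {z0 ρ D : ℝ} {R : ℝ → ℝ → ℝ → ℝ}
    {r0 wmax : ℝ} (h : DMaxN A L z0 ρ D R r0 wmax) (hB : B ⊆ A) : DMaxN B L z0 ρ D R r0 wmax := by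
  classical
  intro e c w q a hS hw
  refine le_trans ?_ (h e c w q a hS hw)
  exact_mod_cast card_le_card (filter_subset_filter _ hB)

/-- constant of the count -/
noncomputable def Lam (CR q2 : ℝ) : ℝ := 2 ^ 54 * CR * (1 - (2 : ℝ) ^ (-q2))⁻¹

theorem Lam_nonneg {CR q2 : ℝ} (hCR : 0 ≤ CR) (hq2 : 0 < q2) : 0 ≤ Lam CR q2 := by
  have hlt : (2 : ℝ) ^ (-q2) < 1 := Real.rpow_lt_one_of_one_lt_of_neg (by norm_num) (by linarith)
  have hinv : (0 : ℝ) ≤ (1 - (2 : ℝ) ^ (-q2))⁻¹ := inv_nonneg.2 (by linarith)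
  unfold Lam
  positivity

/-- the inequality of the count for a subfamily with at least half of the lines -/
theorem half_count {NA NA' Dc θ X : ℝ} (h0 : 0 < NA) (h1 : NA ≤ 2 * NA') (hθ : 0 < θ)
    (h2 : θ * Dc ≤ NA) (hX : 0 ≤ X) (h3 : NA' ≤ X * Dc) : θ ≤ 2 * X := by
  have h4 : NA ≤ 2 * X * Dc := by linarith
  have h5 : θ * NA ≤ 2 * X * (θ * Dc) := by nlinarith
  have h6 : θ * NA ≤ 2 * X * NA := h5.trans (mul_le_mul_of_nonneg_left h2 (by positivity))
  exact le_of_mul_le_mul_right h6 h0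

section numbers

/-- numbers of the low case -/
theorem low_num {M1 Λ s1 q2 θ σ : ℝ} {N1 m : ℕ} (hΛ : 0 ≤ Λ) (hs1 : 0 ≤ s1) (hq2 : 0 < q2)
    (hM1 : M1 = 2 * Λ * s1 ^ (1 + q2))
    (hN1 : M1 * 1 ^ m * (((1 / 2 : ℝ) ^ (N1 * m)) ^ q2) < (1 / 2) ^ m)
    (hm : (1 / 2 : ℝ) ^ m ≤ θ) (hσ0 : 0 ≤ σ) (hσ : 2880000 * 13 * σ ≤ s1 * (1 / 2) ^ (N1 * m)) :
    2 * (Λ * ((2880000 * 13 * σ) ^ (1 + q2) * 2 ^ (N1 * m))) < θ := by
  refine lt_of_lt_of_le ?_ hm
  refine lt_of_le_of_lt ?_ hN1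
  set x := (1 / 2 : ℝ) ^ (N1 * m) with hx
  have hxp : 0 < x := by rw [hx]; positivity
  have h2 : (2 : ℝ) ^ (N1 * m) = x⁻¹ := by rw [hx, one_div, inv_pow, inv_inv]
  rw [h2]
  have h3 : (2880000 * 13 * σ) ^ (1 + q2) ≤ (s1 * x) ^ (1 + q2) :=
    Real.rpow_le_rpow (by positivity) hσ (by linarith)
  have h4 : (2880000 * 13 * σ) ^ (1 + q2) * x⁻¹ ≤ s1 ^ (1 + q2) * x ^ q2 := by
    rw [← rp hs1 hxp]
    exact mul_le_mul_of_nonneg_right h3 (inv_nonneg.2 hxp.le)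
  rw [hM1, one_pow, mul_one]
  calc 2 * (Λ * ((2880000 * 13 * σ) ^ (1 + q2) * x⁻¹)) ≤ 2 * (Λ * (s1 ^ (1 + q2) * x ^ q2)) := by
        gcongr
    _ = _ := by ring

/-- numbers of the high case -/
theorem high_num {M2 Λ s2 q2 θ σ B : ℝ} {N1 N2 m : ℕ} (hΛ : 0 ≤ Λ) (hs2 : 0 ≤ s2) (hq2 : 0 < q2)
    (hM2 : M2 = 2 * Λ * s2 ^ (1 + q2)) (hB : B = ((2 : ℝ) ^ (3 * N1)) ^ (1 + q2))
    (hN2 : M2 * B ^ m * (((1 / 2 : ℝ) ^ (N2 * m)) ^ q2) < (1 / 2) ^ m)
    (hm : (1 / 2 : ℝ) ^ m ≤ θ) (hσ0 : 0 ≤ σ)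
    (hσ : 2880000 * 13 * σ ≤ s2 * (1 / 2) ^ (N2 * m) / ((1 / 2) ^ (N1 * m)) ^ 3) :
    2 * (Λ * ((2880000 * 13 * σ) ^ (1 + q2) * 2 ^ (N2 * m))) < θ := by
  refine lt_of_lt_of_le ?_ hm
  refine lt_of_le_of_lt ?_ hN2
  set x := (1 / 2 : ℝ) ^ (N2 * m) with hx
  have hxp : 0 < x := by rw [hx]; positivity
  have h2 : (2 : ℝ) ^ (N2 * m) = x⁻¹ := by rw [hx, one_div, inv_pow, inv_inv]
  set y := ((2 : ℝ) ^ (3 * N1)) ^ m with hy
  have hyp : 0 < y := by rw [hy]; positivity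
  have e1 : s2 * x / ((1 / 2) ^ (N1 * m)) ^ 3 = (s2 * y) * x := by
    have : ((1 / 2 : ℝ) ^ (N1 * m)) ^ 3 = y⁻¹ := by
      rw [hy, ← pow_mul, ← pow_mul, one_div, inv_pow]
      congr 2; ring
    rw [this, div_inv_eq_mul]; ring
  rw [e1] at hσ
  rw [h2]
  have h3 : (2880000 * 13 * σ) ^ (1 + q2) ≤ ((s2 * y) * x) ^ (1 + q2) :=
    Real.rpow_le_rpow (by positivity) hσ (by linarith)
  have h4 : (2880000 * 13 * σ) ^ (1 + q2) * x⁻¹ ≤ (s2 * y) ^ (1 + q2) * x ^ q2 := by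
    rw [← rp (by positivity) hxp]
    exact mul_le_mul_of_nonneg_right h3 (inv_nonneg.2 hxp.le)
  have e2 : (s2 * y) ^ (1 + q2) = s2 ^ (1 + q2) * B ^ m := by
    rw [Real.mul_rpow hs2 hyp.le, hB, hy]
    congr 1
    rw [← Real.rpow_natCast, ← Real.rpow_natCast (((2 : ℝ) ^ (3 * N1)) ^ (1 + q2)),
      ← Real.rpow_mul (by positivity), ← Real.rpow_mul (by positivity), mul_comm (m : ℝ)]
  rw [e2] at h4
  rw [hM2]
  calc 2 * (Λ * ((2880000 * 13 * σ) ^ (1 + q2) * x⁻¹)) ≤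
      2 * (Λ * (s2 ^ (1 + q2) * B ^ m * x ^ q2)) := by gcongr
    _ = _ := by ring

end numbers


end Crest.Agent.R136.Nd214
end

-- ▼ part R136/Nd11_335
section

/-!
# R136 / U5, non-degeneracy (3.0): the finite theorem, range version (helper335; proof = 214's `nondeg`
with `nd_countR`)
-/

set_option autoImplicit false
set_option linter.unusedVariables false

open Finset

namespace Crest.Agent.R136.Ndc335

open Crest.Agent.R136.Tl214 Crest.Agent.R136.Tl102 Crest.Agent.R136.Nd880 Crest.Agent.R136.Nd214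
open Crest.Agent.R136.Sh605 (V3 dt Ln4 InK InSheet ShN Ortho IsQ DMaxN)
open Crest.Agent.R136.Arc880 (det3)
open Crest.Agent.R136.Nd565 (FlatAt)

theorem DMaxR.mono {ι : Type} {A B : Finset ι} {L : ι → Ln4} {z0 ρ D : ℝ} {R : ℝ → ℝ → ℝ → ℝ}
    {r0 a0 ω1 ω2 wmax wm2 : ℝ} (h : DMaxR A L z0 ρ D R r0 a0 ω1 ω2 wmax wm2) (hB : B ⊆ A) :
    DMaxR B L z0 ρ D R r0 a0 ω1 ω2 wmax wm2 := by
  classical
  intro e c w q a hS g1 g2 hw h0 h1 h2
  refine le_trans ?_ (h e c w q a hS g1 g2 hw h0 h1 h2)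
  exact_mod_cast card_le_card (filter_subset_filter _ hB)

theorem hi_sm {x1 x2 α : ℝ} (hx1 : 0 ≤ x1 ^ 6) (hα : α ≤ x2) (hx21 : x2 ≤ x1 ^ 6 * (1 / 2) ^ 140) :
    (10 : ℝ) ^ 38 * (17 * x2 + α + x2) ≤ x1 ^ 6 := by
  have h1 : (10 : ℝ) ^ 38 * (17 * x2 + α + x2) ≤ 10 ^ 38 * (19 * x2) :=
    mul_le_mul_of_nonneg_left (by linarith only [hα]) (by positivity)
  refine h1.trans ?_
  have h2 : (10 : ℝ) ^ 38 * 19 * (1 / 2) ^ 140 ≤ 1 := by norm_num
  have h3 : (10 : ℝ) ^ 38 * (19 * x2) ≤ (10 ^ 38 * 19 * (1 / 2) ^ 140) * x1 ^ 6 := by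
    have := mul_le_mul_of_nonneg_left hx21 (by positivity : (0 : ℝ) ≤ 10 ^ 38 * 19)
    calc (10 : ℝ) ^ 38 * (19 * x2) = 10 ^ 38 * 19 * x2 := by rw [mul_assoc]
      _ ≤ 10 ^ 38 * 19 * (x1 ^ 6 * (1 / 2) ^ 140) := this
      _ = _ := by ring
  exact h3.trans (mul_le_of_le_one_left hx1 h2)

theorem hi_le {x1 x2 α : ℝ} (hx13 : 0 < x1 ^ 3) (hx13' : x1 ^ 3 ≤ 1) (hx2 : 0 < x2) (hα : 0 ≤ α) :
    x2 ≤ 10 ^ 22 * (17 * x2 + α + x2) / x1 ^ 3 := by
  rw [le_div_iff₀ hx13]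
  calc x2 * x1 ^ 3 ≤ x2 * 1 := mul_le_mul_of_nonneg_left hx13' hx2.le
    _ ≤ 10 ^ 22 * (17 * x2 + α + x2) := by linarith only [hx2, hα]

theorem hi_sig {x1 x2 α : ℝ} (hx13 : 0 < x1 ^ 3) (hα : α ≤ x2) :
    2880000 * 13 * (10 ^ 22 * (17 * x2 + α + x2) / x1 ^ 3) ≤
      2880000 * 13 * (19 * 10 ^ 22) * x2 / x1 ^ 3 := by
  rw [← mul_div_assoc]
  apply div_le_div_of_nonneg_right _ hx13.le
  linarith only [hα]

theorem lo_sig {x1 α : ℝ} (hα : α ≤ x1) :
    2880000 * 13 * (10 ^ 14 * (x1 + α + x1)) ≤ 2880000 * 13 * (3 * 10 ^ 14) * x1 := by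
  linarith only [hα]

/-- **(3.0)** a near-maximal sheet is flat along `T0` or non-degenerate at every point of `T0`. -/
theorem nondegR {q2 CR : ℝ} (hq2 : 0 < q2) (hCR : 0 ≤ CR) : ∃ C : ℝ, 1 ≤ C ∧
    ∀ {ι : Type} (A : Finset ι) (L : ι → Ln4) (e : Fin 3 → V3) (c : Ln4) (w : V3)
      (q : ℝ → V3 → ℝ) (a z0 ρ r0 z1 ρ1 D ω1 ω2 wmax wm2 : ℝ) (R : ℝ → ℝ → ℝ → ℝ) (θ : ℝ) (T0 : Ln4)
      (b0 b1 : V3) (G : QF),
      ShN e c w q a z0 ρ r0 → 0 < r0 → 0 < ρ1 → InSheet T0 e c w q a z0 ρ →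
      (∀ t ∈ A, InSheet (L t) e c w q a z0 ρ ∧ ∀ z, z0 ≤ z → z ≤ z0 + ρ → ∀ i,
        |dt (e i) ((L t).pos z - T0.pos z)| ≤ w i / 1000) →
      ρ = 128 * ρ1 → z0 ≤ z1 → z1 + ρ1 ≤ z0 + ρ → 0 ≤ D →
      DMaxR A L z1 ρ1 D R r0 a ω1 ω2 wmax wm2 → w 1 ≤ 128 * wmax → w 2 ≤ wm2 → ω1 ≤ θ ^ C * w 1 →
      ω2 ≤ θ ^ C * w 2 → 0 ≤ R a (w 2) (w 1) →
      (∀ a' w2' w1' x, a ≤ a' → a' ≤ 3 * a → 0 < w2' → w2' ≤ w1' → w1' ≤ w 1 → 0 < x →
        w2' * w1' ≤ x * (w 2 * w 1) → R a' w2' w1' ≤ CR * x ^ q2 * R a (w 2) (w 1)) →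
      0 < θ → θ ≤ 1 / 2 → θ * (D * (a * w 2 * w 1 * R a (w 2) (w 1))) ≤ (A.card : ℝ) →
      0 < (A.card : ℝ) → IsExp q e w T0 z0 ρ b0 b1 G → θ ^ (-C) * a ≤ w 0 * kap b0 b1 G →
      ∀ ζ, 0 ≤ ζ → ζ ≤ 1 →
        θ ^ C ≤ |det3 (fan (shB0 b0) (scB1 (kap b0 b1 G) b0 b1) (scG (kap b0 b1 G) b0 G) ζ)| := by
  classical
  set Λ := Lam CR q2 with hΛe
  have hΛ : 0 ≤ Λ := Lam_nonneg hCR hq2
  -- constants
  set s1 : ℝ := 2880000 * 13 * (3 * 10 ^ 14) with hs1
  set s2 : ℝ := 2880000 * 13 * (19 * 10 ^ 22) with hs2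
  have hs10 : 0 ≤ s1 := by rw [hs1]; norm_num
  have hs20 : 0 ≤ s2 := by rw [hs2]; norm_num
  set M1 := 2 * Λ * s1 ^ (1 + q2) with hM1
  have hM10 : 0 ≤ M1 := by rw [hM1]; positivity
  obtain ⟨N1', hN1'⟩ := pick hq2 hM10 (le_refl (1 : ℝ))
  set N1 := max N1' 17 with hN1
  set B := ((2 : ℝ) ^ (3 * N1)) ^ (1 + q2) with hB
  have hB1 : 1 ≤ B := by
    rw [hB]
    exact Real.one_le_rpow (one_le_pow₀ (by norm_num)) (by linarith)
  set M2 := 2 * Λ * s2 ^ (1 + q2) with hM2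
  have hM20 : 0 ≤ M2 := by rw [hM2]; positivity
  obtain ⟨N2', hN2'⟩ := pick hq2 hM20 hB1
  set N2 := max N2' (6 * N1 + 140) with hN2
  have hN2a : 6 * N1 + 140 ≤ N2 := le_max_right _ _
  have hN1a : 17 ≤ N1 := le_max_right _ _
  refine ⟨2 * ((N2 : ℝ) + 60), by have : (0 : ℝ) ≤ N2 := Nat.cast_nonneg _; linarith, ?_⟩
  intro ι A L e c w q a z0 ρ r0 z1 ρ1 D ω1 ω2 wmax wm2 R θ T0 b0 b1 G S hr0 hρ1 hT0 hA hρ h01 h02 hD0
    hD hwm hwm2 hω1 hω2 hR0 hR hθ0 hθ1 hbig hApos hE hcur ζ hζ0 hζ1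
  have hω : ω1 ≤ θ ^ (2 * ((N2 : ℝ) + 60)) * w 1 ∧ ω2 ≤ θ ^ (2 * ((N2 : ℝ) + 60)) * w 2 :=
    ⟨hω1, hω2⟩
  clear hω1 hω2
  -- positivity
  have hap : 0 < a := lt_of_lt_of_le hr0 S.r0_le
  have hw0 : 0 < w 0 := lt_of_lt_of_le hap S.a_le0
  have hρ0 : 0 < ρ := by rw [hρ]; linarith
  set κ := kap b0 b1 G with hκe
  have hθC : 0 < θ ^ (-(2 * ((N2 : ℝ) + 60))) := Real.rpow_pos_of_pos hθ0 _
  have hwκ : 0 < w 0 * κ := lt_of_lt_of_le (by positivity) hcur
  have hκ : 0 < κ := (mul_pos_iff_of_pos_left hw0).1 hwκ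
  obtain ⟨φ, hφ⟩ := exists_phi S.isQ T0 z0 ρ hwκ.ne'
  have DT : Dta e c w q a z0 ρ T0 b0 b1 G κ φ := ⟨StP.of_shN S hw0, hρ0, hT0, hE, rfl, hκ, hφ⟩
  have hκ13 : κ ≤ 13 := kap_le DT.nrm
  -- the dyadic scale
  obtain ⟨m, hm1, hmθ, hθm⟩ := dyad hθ0 hθ1
  set x1 := (1 / 2 : ℝ) ^ (N1 * m) with hx1
  set x2 := (1 / 2 : ℝ) ^ (N2 * m) with hx2
  have hx1p : 0 < x1 := by rw [hx1]; positivity
  have hx2p : 0 < x2 := by rw [hx2]; positivity
  have half1 : (1 / 2 : ℝ) ≤ 1 := by norm_num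
  have half0 : (0 : ℝ) ≤ 1 / 2 := by norm_num
  set τ0 := (1 / 2 : ℝ) ^ ((N2 + 60) * m) with hτ0
  have hτ0p : 0 < τ0 := by rw [hτ0]; positivity
  have hθτ : θ ^ (2 * ((N2 : ℝ) + 60)) ≤ τ0 := by
    have e1 : θ ^ (2 * ((N2 : ℝ) + 60)) = (θ ^ 2) ^ (N2 + 60) := by
      rw [← pow_mul, ← Real.rpow_natCast]
      congr 1; push_cast; ring
    rw [e1, hτ0, mul_comm (N2 + 60) m, pow_mul]
    exact pow_le_pow_left₀ (by positivity) hθm _
  have hτx : τ0 ≤ x2 * (1 / 2) ^ 60 := by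
    rw [hτ0, hx2, ← pow_add]
    apply pow_le_pow_of_le_one half0 half1
    rw [add_mul]
    exact Nat.add_le_add_left (by omega) _
  have hx21 : x2 ≤ x1 ^ 6 * (1 / 2) ^ 140 := by
    rw [hx1, hx2, ← pow_mul, ← pow_add]
    apply pow_le_pow_of_le_one half0 half1
    have h1 : (6 * N1 + 140) * m ≤ N2 * m := Nat.mul_le_mul_right m hN2a
    have h2 : 140 ≤ 140 * m := by omega
    calc N1 * m * 6 + 140 ≤ N1 * m * 6 + 140 * m := Nat.add_le_add_left h2 _
      _ = (6 * N1 + 140) * m := by ring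
      _ ≤ N2 * m := h1
  have hx1s : x1 ≤ (1 / 2) ^ 17 := by
    rw [hx1]
    apply pow_le_pow_of_le_one half0 half1
    exact hN1a.trans (Nat.le_mul_of_pos_right _ hm1)
  have h17 : (1 / 2 : ℝ) ^ 17 ≤ 1 / 100000 := by norm_num
  have hx1l : x1 ≤ 1 := by linarith
  have hx16 : x1 ^ 6 ≤ x1 := by
    have := pow_le_pow_of_le_one hx1p.le hx1l (show 1 ≤ 6 by norm_num)
    rwa [pow_one] at this
  have hx2x1 : x2 ≤ x1 / 100 := by
    have h1 : (1 / 2 : ℝ) ^ 140 ≤ 1 / 100 := by norm_num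
    have h2 : x1 ^ 6 * (1 / 2) ^ 140 ≤ x1 * (1 / 100) := by gcongr
    linarith
  -- the thickness
  have hanorm : a / (w 0 * κ) ≤ τ0 := by
    rw [div_le_iff₀ hwκ]
    have h1 : a ≤ θ ^ (2 * ((N2 : ℝ) + 60)) * (w 0 * κ) := by
      rw [Real.rpow_neg hθ0.le, inv_mul_le_iff₀ (Real.rpow_pos_of_pos hθ0 _)] at hcur
      exact hcur
    exact h1.trans (mul_le_mul_of_nonneg_right hθτ hwκ.le)
  set α := a / (w 0 * κ) with hα
  have hα0 : 0 ≤ α := by rw [hα]; positivity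
  have e60 : (1 / 2 : ℝ) ^ 60 ≤ 1 / 10 ^ 18 := by norm_num
  have hαx : 10 ^ 18 * α ≤ x2 := by
    have h1 : α ≤ x2 * (1 / 10 ^ 18) :=
      hanorm.trans (hτx.trans (mul_le_mul_of_nonneg_left e60 hx2p.le))
    linarith
  have haα : a = α * (w 0 * κ) := by rw [hα]; field_simp
  have hαle : α ≤ x2 := by linarith only [hαx, hα0]
  have hαle1 : α ≤ x1 := by linarith only [hαle, hx2x1, hx1p]
  have hs1000 : 1000 * a ≤ w 0 * κ := by
    rw [haα]
    have h1 : 1000 * α ≤ 1 := by linarith only [hαx, hx2x1, hx1l, hα0]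
    calc 1000 * (α * (w 0 * κ)) = 1000 * α * (w 0 * κ) := by ring
      _ ≤ 1 * (w 0 * κ) := mul_le_mul_of_nonneg_right h1 hwκ.le
      _ = _ := one_mul _
  have haw : a ≤ α * 13 * w 0 := by
    rw [haα]
    have : α * (w 0 * κ) ≤ α * (w 0 * 13) := by gcongr
    linarith only [this]
  have F := DT.fam hap.le hs1000 A L hA
  -- contradiction
  by_contra hcon
  push Not at hcon
  have hdet0 : |det3 (fanQ (qB φ κ b0 b1 G) (eA b0) (eB b0) (eY κ) ((0 : V4) + ζ • eT) eT)| ≤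
      x2 := by
    rw [zero_add]
    have h1 := Fn880.det3_qB (φ := φ) DT.nrm hκ le_rfl hκ13 hζ0 hζ1
    have h2 := (F.loc.lin0.coef le_rfl zero_le_one).2
    have h3 : (qB φ κ b0 b1 G).H eT eT = φ 2 := by
      rw [qB_H]
      simp only [eT, dt, QF.pol, Pi.zero_apply]
      ring
    rw [h3] at h2
    have h4 := abs_add_le (det3 (fanQ (qB φ κ b0 b1 G) (eA b0) (eB b0) (eY κ) (ζ • eT) eT) -
      2 ^ 22 * det3 (fan (shB0 b0) (scB1 κ b0 b1) (scG κ b0 G) ζ))
      (2 ^ 22 * det3 (fan (shB0 b0) (scB1 κ b0 b1) (scG κ b0 G) ζ))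
    rw [sub_add_cancel, abs_mul, abs_of_pos (by positivity : (0 : ℝ) < 2 ^ 22)] at h4
    have h5 : |det3 (fan (shB0 b0) (scB1 κ b0 b1) (scG κ b0 G) ζ)| ≤ τ0 := hcon.le.trans hθτ
    have h6 : τ0 ≤ x2 * (1 / 10 ^ 18) := hτx.trans (mul_le_mul_of_nonneg_left e60 hx2p.le)
    have h7 : (2 : ℝ) ^ 22 = 4194304 := by norm_num
    rw [h7] at h4 h1
    linarith
  have hdet : ∀ t ∈ A, ∀ s : ℝ, 0 ≤ s → s ≤ 1 →
      |det3 (fanQ (qB φ κ b0 b1 G) (eA b0) (eB b0) (eY κ)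
        (((0 : ℝ), crd e w T0 (L t) z0) + s • ((1 : ℝ), vel e w T0 (L t) ρ))
        ((1 : ℝ), vel e w T0 (L t) ρ))| ≤ 17 * x2 := by
    intro t ht s hs0 hs1
    have h1 := (F.lin t ht).det_le F.loc hs0 hs1 hζ0 hζ1
    refine h1.trans ?_
    linarith
  have hwmpos : ∀ A' : Finset ι, A' ⊆ A → ∀ (J : ℕ) (σ : ℝ) (nA nB : ι → ℝ) (St : ι → ι → Prop),
      17 ≤ J → (1 / 2 : ℝ) ^ J ≤ σ → a * 2 ^ J ≤ w 0 → ω1 * 2 ^ J ≤ w 1 → ω2 * 2 ^ J ≤ w 2 →
      Out A' (qB φ κ b0 b1 G) (eA b0) (eB b0) (eY κ) (fun t => ((0 : ℝ), crd e w T0 (L t) z0))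
      (fun t => ((1 : ℝ), vel e w T0 (L t) ρ)) (fun t => crd e w T0 (L t) z0 1)
      (fun t => crd e w T0 (L t) z0 2) (fun t => vel e w T0 (L t) ρ 1)
      (fun t => vel e w T0 (L t) ρ 2) nA nB St ((1 / 2) ^ J) σ →
      (A'.card : ℝ) ≤ (Λ * ((2880000 * 13 * σ) ^ (1 + q2) * 2 ^ J)) *
        (D * (a * w 2 * w 1 * R a (w 2) (w 1))) := by
    intro A' hA' J σ nA nB St hJ hσ haJ hω1J hω2J O
    have hσ0 : 0 ≤ σ := le_trans (by positivity) hσ
    obtain ⟨hp, hs⟩ := DT.toCount hap.le hs1000 A' L (fun t ht => hA t (hA' ht)) hσ0 O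
    have h := Ndc335.nd_countR A' L S hr0 hρ1 hρ h01 h02 (fun t ht => (hA t (hA' ht)).1) hD0
      (DMaxR.mono hD hA') hwm hwm2 hJ hω1J hω2J (K := 13) (σ := σ) (q2 := q2) (CR := CR) (by norm_num)
      (by rw [one_div, ← inv_pow, ← one_div]; exact hσ) hq2 haJ nA nB O.nrm St
      (fun B hB z hz0 hz1 hc => hp B hB z (by linarith) (by linarith) hc) hs hR0 hCR hR
    refine h.trans (le_of_eq ?_)
    rw [hΛe, Lam]
    ring
  have hx1e : (2 : ℝ) ^ (N1 * m) = x1⁻¹ := by rw [hx1, one_div, inv_pow, inv_inv]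
  have hx2e : (2 : ℝ) ^ (N2 * m) = x2⁻¹ := by rw [hx2, one_div, inv_pow, inv_inv]
  have h13α : a ≤ x2 * w 0 := by
    refine haw.trans (mul_le_mul_of_nonneg_right ?_ hw0.le)
    linarith
  have haJ1 : a * 2 ^ (N1 * m) ≤ w 0 := by
    rw [hx1e, mul_inv_le_iff₀ hx1p]
    have : x2 * w 0 ≤ x1 * w 0 := mul_le_mul_of_nonneg_right (by linarith) hw0.le
    linarith
  have haJ2 : a * 2 ^ (N2 * m) ≤ w 0 := by
    rw [hx2e, mul_inv_le_iff₀ hx2p]
    linarith
  have hωJ : (ω1 * 2 ^ (N1 * m) ≤ w 1 ∧ ω1 * 2 ^ (N2 * m) ≤ w 1) ∧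
      (ω2 * 2 ^ (N1 * m) ≤ w 2 ∧ ω2 * 2 ^ (N2 * m) ≤ w 2) := by
    have hw1 : 0 < w 1 := lt_of_lt_of_le hw0 (S.w0_le.trans S.w_le)
    have hw2 : 0 < w 2 := lt_of_lt_of_le hw0 S.w0_le
    have hθx : θ ^ (2 * ((N2 : ℝ) + 60)) ≤ x2 :=
      hθτ.trans (hτx.trans (mul_le_of_le_one_right hx2p.le (pow_le_one₀ half0 half1)))
    have hωx : ∀ ω W : ℝ, 0 < W → ω ≤ θ ^ (2 * ((N2 : ℝ) + 60)) * W →
        ω * 2 ^ (N1 * m) ≤ W ∧ ω * 2 ^ (N2 * m) ≤ W := by
      intro ω W hW h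
      have h1 : ω ≤ x2 * W := h.trans (mul_le_mul_of_nonneg_right hθx hW.le)
      constructor
      · rw [hx1e, mul_inv_le_iff₀ hx1p]
        have : x2 * W ≤ x1 * W :=
          mul_le_mul_of_nonneg_right (hx2x1.trans (by linarith only [hx1p])) hW.le
        linarith only [h1, this]
      · rw [hx2e, mul_inv_le_iff₀ hx2p]
        linarith only [h1]
    exact ⟨hωx ω1 (w 1) hw1 hω.1, hωx ω2 (w 2) hw2 hω.2⟩
  have hJ1 : 17 ≤ N1 * m := hN1a.trans (Nat.le_mul_of_pos_right _ hm1)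
  have hJ2 : 17 ≤ N2 * m :=
    (show 17 ≤ N2 by omega).trans (Nat.le_mul_of_pos_right _ hm1)
  -- high / low
  set hi : ι → Prop := fun t => x1 ≤ |bet (qB φ κ b0 b1 G) (eY κ) ((0 : ℝ), crd e w T0 (L t) z0)
    ((1 : ℝ), vel e w T0 (L t) ρ) (eA b0)| + |bet (qB φ κ b0 b1 G) (eY κ)
    ((0 : ℝ), crd e w T0 (L t) z0) ((1 : ℝ), vel e w T0 (L t) ρ) (eB b0)| with hhi
  have hsplit : (A.card : ℝ) = ((A.filter hi).card : ℝ) + ((A.filter fun t => ¬ hi t).card : ℝ) := by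
    rw [← Nat.cast_add, card_filter_add_card_filter_not]
  rcases le_total ((A.filter fun t => ¬ hi t).card : ℝ) ((A.filter hi).card : ℝ) with hcase | hcase
  · -- high
    have F1 := F.mono (filter_subset hi A)
    obtain ⟨nA, nB, St, O⟩ := high_out F1 (κ := 17 * x2) (b0 := x1) (r := x2) hx2p.le
      (by linarith) hx1p hx1l (fun t ht => hdet t (mem_of_mem_filter t ht))
      (fun t ht => (mem_filter.1 ht).2) (hi_sm (pow_nonneg hx1p.le 6) hαle hx21)
    set σ := 10 ^ 22 * (17 * x2 + α + x2) / x1 ^ 3 with hσ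
    have hσ0 : 0 ≤ σ := by rw [hσ]; positivity
    have hx13 : 0 < x1 ^ 3 := by positivity
    have hx13' : x1 ^ 3 ≤ 1 := pow_le_one₀ hx1p.le hx1l
    have hσx : x2 ≤ σ := hi_le hx13 hx13' hx2p hα0
    have hc := hwmpos _ (filter_subset hi A) (N2 * m) σ nA nB St hJ2 hσx haJ2
      hωJ.1.2 hωJ.2.2 O
    have hX : 0 ≤ Λ * ((2880000 * 13 * σ) ^ (1 + q2) * 2 ^ (N2 * m)) :=
      mul_nonneg hΛ (mul_nonneg (Real.rpow_nonneg (mul_nonneg (by norm_num) hσ0) _)
        (pow_nonneg (by norm_num) _))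
    have hf := half_count hApos (by linarith) hθ0 hbig hX hc
    have hl := high_num (θ := θ) (σ := σ) hΛ hs20 hq2 hM2 hB
      (hN2' N2 (le_max_left _ _) m hm1) hmθ hσ0 (hi_sig hx13 hαle)
    linarith
  · -- low
    have F1 := F.mono (filter_subset (fun t => ¬ hi t) A)
    have hlow : ∀ t ∈ A.filter fun t => ¬ hi t,
        |bet (qB φ κ b0 b1 G) (eY κ) ((0 : ℝ), crd e w T0 (L t) z0)
          ((1 : ℝ), vel e w T0 (L t) ρ) (eA b0)| ≤ x1 ∧
        |bet (qB φ κ b0 b1 G) (eY κ) ((0 : ℝ), crd e w T0 (L t) z0)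
          ((1 : ℝ), vel e w T0 (L t) ρ) (eB b0)| ≤ x1 := by
      intro t ht
      have h1 : ¬ hi t := (mem_filter.1 ht).2
      rw [hhi] at h1
      push Not at h1
      have h2 := abs_nonneg (bet (qB φ κ b0 b1 G) (eY κ) ((0 : ℝ), crd e w T0 (L t) z0)
          ((1 : ℝ), vel e w T0 (L t) ρ) (eA b0))
      have h3 := abs_nonneg (bet (qB φ κ b0 b1 G) (eY κ) ((0 : ℝ), crd e w T0 (L t) z0)
          ((1 : ℝ), vel e w T0 (L t) ρ) (eB b0))
      constructor <;> linarith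
    obtain ⟨nA, nB, St, O⟩ := low_out F1 (b0 := x1) (r := x1) hx1p.le (by linarith) hx1p
      (by linarith) (by linarith) DT.ext hlow
    set σ := 10 ^ 14 * (x1 + α + x1) with hσ
    have hσ0 : 0 ≤ σ := by rw [hσ]; positivity
    have hσx : x1 ≤ σ := by rw [hσ]; linarith
    have hc := hwmpos _ (filter_subset (fun t => ¬ hi t) A) (N1 * m) σ nA nB St hJ1 hσx haJ1
      hωJ.1.1 hωJ.2.1 O
    have hX : 0 ≤ Λ * ((2880000 * 13 * σ) ^ (1 + q2) * 2 ^ (N1 * m)) :=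
      mul_nonneg hΛ (mul_nonneg (Real.rpow_nonneg (mul_nonneg (by norm_num) hσ0) _)
        (pow_nonneg (by norm_num) _))
    have hf := half_count hApos (by linarith) hθ0 hbig hX hc
    have hl := low_num (θ := θ) (σ := σ) hΛ hs10 hq2 hM1
      (hN1' N1 (le_max_left _ _) m hm1) hmθ hσ0 (lo_sig hαle1)
    linarith

end Crest.Agent.R136.Ndc335
end

-- ▼ part R136/Ndj_335
section

/-!
# R136 / U5, non-degeneracy (3.0): the sequence form (helper335)

**`nonDeg_of`**: for a marked sequence of sheets with deep D-max, the marks are flat or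
non-degenerate along their lines, at every level, outside a negligible set.  The geometry is abstract
(`GeoS`): membership, admissibility (`ShN`, `w 1 ≤ rho`, lateral widths in a range), size.
-/

set_option autoImplicit false
set_option linter.unusedVariables false
set_option linter.unusedSectionVars false

open Finset Filter Topology

namespace Crest.Agent.R136.Ndc335

open Crest.Agent.R138.Ex926 Crest.Agent.R138.Dp76
open Crest.Agent.R138.Mk163 (zc zl rho alive own Negl)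
open Crest.Agent.R138.MkRef627 (lc kc mem_alive card_class alive_mono)
open Crest.Agent.R138.ArgM163 (ev_const_mul ev_const)
open Crest.Agent.R136.MkA627 Crest.Agent.R136.Dia770
open Crest.Agent.R136.Sh605 Crest.Agent.R136.K4 Crest.Agent.R136.KapP335
open Crest.Agent.R136.Tl102 (QF fan shB0 scB1 scG kap NrmC IsExp StP kap_le)
open Crest.Agent.R136.Arc880 (det3)

/-- the geometry of sheets of class `C*` with rewards `(a/ρ)^(q 0) (w₁/ρ)^(q 1) (w₂/ρ)^(q 2)`; the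
widths of the test sheets are in the range `[wr k n, cr k n]` (`k = 0` : thickness) -/
structure GeoS (G : Geo Plk4 (Fin 3)) (L : ℕ → ℕ → Ln4) (r0 : ℕ → ℝ) (q : Fin 3 → ℝ)
    (wr cr : Fin 3 → ℕ → ℝ) : Prop where
  mem : ∀ n i J s t, G.mem n i J s t ↔ InSheet (L n t) s.e s.c s.w s.q s.a (zl i J) (rho i)
  adm : ∀ n i J s, G.adm n i J s →
    ShN s.e s.c s.w s.q s.a (zl i J) (rho i) (r0 n) ∧ s.w 1 ≤ rho i
  adm' : ∀ n i J s, ShN s.e s.c s.w s.q s.a (zl i J) (rho i) (r0 n) → s.w 1 ≤ rho i →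
    (∀ k, wr k n ≤ ![s.a, s.w 1, s.w 2] k ∧ ![s.a, s.w 1, s.w 2] k ≤ cr k n) → G.adm n i J s
  val : ∀ n i J s, G.val n i J s = s.a * s.w 2 * s.w 1 *
    ((s.a / rho i) ^ q 0 * (s.w 1 / rho i) ^ q 1 * (s.w 2 / rho i) ^ q 2)
  wid : ∀ k s, G.wid k s = ![s.a, s.w 1, s.w 2] k

theorem rho_pos (i : ℕ) : 0 < rho i := by unfold Crest.Agent.R138.Mk163.rho; positivity

theorem rho_add (i k : ℕ) : rho i = 2 ^ k * rho (i + k) := by
  unfold Crest.Agent.R138.Mk163.rho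
  rw [pow_add]; field_simp

/-- a sub-cell lies in its cell -/
theorem sub_cell {i k : ℕ} {j J : ℤ} (h : j / 2 ^ k = J) :
    zl i J ≤ zl (i + k) j ∧ zl (i + k) j + rho (i + k) ≤ zl i J + rho i := by
  have h1 := ico_div.2 h
  rw [Finset.mem_Ico] at h1
  unfold Crest.Agent.R138.Mk163.zl Crest.Agent.R138.Mk163.rho
  have hi : (0:ℝ) < 2 ^ i := by positivity
  have hk : (0:ℝ) < 2 ^ k := by positivity
  have a1 : (J : ℝ) * 2 ^ k ≤ j := by exact_mod_cast h1.1
  have a2 : (j : ℝ) + 1 ≤ J * 2 ^ k + 2 ^ k := by exact_mod_cast h1.2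
  rw [pow_add]
  constructor
  · rw [div_le_div_iff₀ hi (by positivity)]
    nlinarith
  · rw [← add_div, ← add_div, div_le_div_iff₀ (by positivity) hi]
    nlinarith

section

variable {B : Base} {I : ℕ → Finset (ℕ × ℝ)} {L : ℕ → ℕ → Ln4} {r0 : ℕ → ℝ} {q : Fin 3 → ℝ}
    {G : Geo Plk4 (Fin 3)} {wr cr : Fin 3 → ℕ → ℝ}
    {lev : ℕ → ℚ → ℕ} {A : ℕ → ℝ} {g : ℝ} {τ : Fin 3 → ℝ → ℝ} {f : ℕ → ℚ → ℕ → ℤ → ℕ}
    {b : ℕ → ℚ → ℕ → Plk4} {vm : ℕ → ℚ → ℝ} {w : Fin 3 → ℕ → ℚ → ℝ}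

/-- near lines: within `1 / 1000` of the box of the mark, over the whole cell -/
def NearL (L : ℕ → ℕ → Ln4) (lev : ℕ → ℚ → ℕ) (f : ℕ → ℚ → ℕ → ℤ → ℕ) (b : ℕ → ℚ → ℕ → Plk4)
    (v : ℚ) (n : ℕ) (J : ℤ) (t t' : ℕ) : Prop :=
  ∀ i, ∀ z, zl (lev n v) J ≤ z → z ≤ zl (lev n v) J + rho (lev n v) →
    |dt ((b n v (f n v t J)).e i) ((L n t').pos z - (L n t).pos z)| ≤
      (b n v (f n v t J)).w i / 1000


end

end Crest.Agent.R136.Ndc335
end

-- ▼ part R136/Rich2_335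
section

/-!
# R136 / U5, non-degeneracy (3.0): rich sub-cells from ONE sub-cell per line (helper335)

`SubD` : a family `P` of (line, cell of level `lev n v + k`) with D-max, such that every incidence has
a sub-cell in `P`.  It follows from D-max at all natural levels (`AllD`, `v < 1`), from the deep D-max,
and passes to parts.  `rich_cell2` : rich sub-cells from `SubD`.
-/

set_option autoImplicit false
set_option linter.unusedVariables false
set_option linter.unusedSectionVars false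

open Finset Filter Topology

namespace Crest.Agent.R136.Ndc335

open Crest.Agent.R138.Ex926 Crest.Agent.R138.Dp76
open Crest.Agent.R138.Mk163 (zc zl rho alive own Negl)
open Crest.Agent.R138.MkRef627 (lc kc mem_alive card_class alive_mono)
open Crest.Agent.R138.ArgM163 (ev_const_mul ev_const)
open Crest.Agent.R136.MkA627 Crest.Agent.R136.Dia770

open Classical in
/-- **rich sub-cells**, finite version, every pair has a sub-cell in `P` -/
theorem rich_fin2 (I : Finset (ℕ × ℝ)) {i k : ℕ} (P : Finset (ℕ × ℤ))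
    (hcov0 : ∀ o ∈ I.image (lc i), ∃ j : ℤ, j / 2 ^ k = o.2 ∧ (o.1, j) ∈ P)
    (φ : ℕ → ℤ → ℕ) (N : ℤ → ℕ → ℕ → Prop) {K thr η : ℝ} (hK : 0 ≤ K) (hthr0 : 0 < thr)
    (hη : 0 ≤ η)
    (poor : ∀ J : ℤ, ∀ t0 ∈ alive I i J, ∀ A ⊆ (alive I i J).filter fun s => φ s J = φ t0 J,
      ∀ θ : ℝ, 0 ≤ θ →
        ((A.filter fun t => ((A.filter fun t' => N J t t').card : ℝ) < θ * A.card).card : ℝ) ≤
          K * (θ * A.card))
    (hthr : ∀ J : ℤ, ∀ t ∈ alive I i J, K * (2 ^ k * thr) ≤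
      η * (((alive I i J).filter fun s => φ s J = φ t J).card : ℝ)) :
    (((I.image (lc i)).filter fun o => ∀ j : ℤ, j / 2 ^ k = o.2 →
        (((alive I i o.2).filter fun t' => φ t' o.2 = φ o.1 o.2 ∧ N o.2 o.1 t' ∧
          (t', j) ∈ P).card : ℝ) < thr).card : ℝ) ≤
      η * ((I.image (lc i)).card : ℝ) := by
  set O := I.image (lc i) with hO
  set cov : ℕ × ℤ → Prop := fun o => ∃ j, j / 2 ^ k = o.2 ∧ (o.1, j) ∈ P with hcov
  set bad : ℕ × ℤ → Prop := fun o => ∀ j : ℤ, j / 2 ^ k = o.2 →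
        (((alive I i o.2).filter fun t' => φ t' o.2 = φ o.1 o.2 ∧ N o.2 o.1 t' ∧
          (t', j) ∈ P).card : ℝ) < thr with hbad
  have hcb : ((O.filter fun o => cov o ∧ bad o).card : ℝ) ≤ η * O.card := by
    set κ : ℕ × ℤ → ℕ × ℤ := fun o => (φ o.1 o.2, o.2) with hκ
    have h1 : ((O.filter fun o => cov o ∧ bad o).card : ℝ) =
        ∑ y ∈ O.image κ, (((O.filter fun o => cov o ∧ bad o).filter fun o => κ o = y).card : ℝ) := by
      rw [card_eq_sum_card_fiberwise (f := κ) (t := O.image κ)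
        (fun o ho => mem_image_of_mem _ (mem_filter.1 ho).1)]
      push_cast; rfl
    have h2 : (O.card : ℝ) = ∑ y ∈ O.image κ, ((O.filter fun o => κ o = y).card : ℝ) := by
      rw [card_eq_sum_card_image κ O]
      push_cast; rfl
    rw [h1, h2, mul_sum]
    refine sum_le_sum fun y hy => ?_
    obtain ⟨o0, ho0, rfl⟩ := mem_image.1 hy
    obtain ⟨x0, hx0, hx0o⟩ := mem_image.1 ho0
    have hal : o0.1 ∈ alive I i o0.2 := mem_alive.2 ⟨x0, hx0, by rw [← hx0o]; rfl, by rw [← hx0o]; rfl⟩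
    set cls := (alive I i o0.2).filter fun s => φ s o0.2 = φ o0.1 o0.2 with hcls
    have e3 : ((O.filter fun o => κ o = κ o0).card : ℝ) = cls.card := by
      rw [hcls, card_class I i o0.2 (fun s => φ s o0.2) (φ o0.1 o0.2)]
      congr 2
      ext o
      simp only [mem_filter, hκ, Prod.mk.injEq, hO]
      constructor
      · rintro ⟨a1, a2, a3⟩
        exact ⟨a1, a3, by rw [← a3]; exact a2.trans (by rw [a3])⟩
      · rintro ⟨a1, a3, a2⟩
        exact ⟨a1, by rw [a3]; exact a2, a3⟩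
    rw [e3]
    set A := cls.filter fun s => cov (s, o0.2) with hA
    -- the bad pairs of the class are poor in `A`
    have e4 : (((O.filter fun o => cov o ∧ bad o).filter fun o => κ o = κ o0).card : ℝ) ≤
        ((A.filter fun t => ((A.filter fun t' => N o0.2 t t').card : ℝ) <
          (2 ^ k * thr / A.card) * A.card).card : ℝ) := by
      norm_cast
      refine card_le_card_of_injOn (fun o => o.1) ?_ ?_
      · intro o ho
        have ho' := mem_filter.1 (mem_coe.1 ho)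
        have ho'' := mem_filter.1 ho'.1
        have hk2 : o.2 = o0.2 := (Prod.mk.inj ho'.2).2
        have hk1 : φ o.1 o0.2 = φ o0.1 o0.2 := by
          have := (Prod.mk.inj ho'.2).1
          rw [hk2] at this
          exact this
        have hoA : o.1 ∈ alive I i o0.2 := by
          obtain ⟨x, hx, hxo⟩ := mem_image.1 ho''.1
          exact mem_alive.2 ⟨x, hx, by rw [← hxo]; rfl, by rw [← hk2, ← hxo]; rfl⟩
        have hoo : (o.1, o0.2) = o := by rw [← hk2]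
        have hmA : o.1 ∈ A := by
          rw [hA, mem_filter, hcls, mem_filter]
          refine ⟨⟨hoA, hk1⟩, ?_⟩
          rw [hoo]; exact ho''.2.1
        refine mem_coe.2 (mem_filter.2 ⟨hmA, ?_⟩)
        have hApos : (0:ℝ) < A.card := by exact_mod_cast card_pos.2 ⟨_, hmA⟩
        rw [div_mul_cancel₀ _ hApos.ne']
        -- near lines in A are covered by the sub-cells
        have hsub : (A.filter fun t' => N o0.2 o.1 t') ⊆
            (Finset.Ico (o0.2 * 2 ^ k) (o0.2 * 2 ^ k + 2 ^ k)).biUnion fun j =>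
              (alive I i o.2).filter fun t' => φ t' o.2 = φ o.1 o.2 ∧ N o.2 o.1 t' ∧ (t', j) ∈ P := by
          intro t' ht'
          rw [mem_filter, hA, mem_filter, hcls, mem_filter] at ht'
          obtain ⟨⟨⟨a1, a2⟩, j, a3, a4⟩, a5⟩ := ht'
          rw [mem_biUnion]
          refine ⟨j, ico_div.2 a3, ?_⟩
          rw [mem_filter, hk2]
          exact ⟨a1, a2.trans hk1.symm, a5, a4⟩
        have h5 : ((A.filter fun t' => N o0.2 o.1 t').card : ℝ) ≤
            ∑ j ∈ Finset.Ico (o0.2 * 2 ^ k) (o0.2 * 2 ^ k + 2 ^ k),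
              (((alive I i o.2).filter fun t' => φ t' o.2 = φ o.1 o.2 ∧ N o.2 o.1 t' ∧
                (t', j) ∈ P).card : ℝ) := by
          have := (card_le_card hsub).trans card_biUnion_le
          exact_mod_cast this
        refine lt_of_le_of_lt h5 ?_
        have h6 : (Finset.Ico (o0.2 * 2 ^ k) (o0.2 * 2 ^ k + 2 ^ k)).Nonempty := by
          rw [nonempty_Ico]
          have : (0:ℤ) < 2 ^ k := by positivity
          linarith
        have h7 := sum_lt_sum_of_nonempty h6 (f := fun j =>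
              (((alive I i o.2).filter fun t' => φ t' o.2 = φ o.1 o.2 ∧ N o.2 o.1 t' ∧
                (t', j) ∈ P).card : ℝ)) (g := fun _ => thr) (by
            intro j hj
            exact ho''.2.2 j (by rw [ico_div.1 hj, hk2]))
        refine lt_of_lt_of_le h7 (le_of_eq ?_)
        rw [sum_const, Int.card_Ico, nsmul_eq_mul]
        have e2 : o0.2 * 2 ^ k + 2 ^ k - o0.2 * 2 ^ k = ((2 ^ k : ℕ) : ℤ) := by push_cast; ring
        rw [e2, Int.toNat_natCast, Nat.cast_pow, Nat.cast_ofNat]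
      · intro o ho o' ho' h
        have ho1 := (mem_filter.1 (mem_coe.1 ho)).2
        have ho2 := (mem_filter.1 (mem_coe.1 ho')).2
        have h3 : o.2 = o'.2 := (Prod.mk.inj ho1).2.trans (Prod.mk.inj ho2).2.symm
        exact Prod.ext h h3
    refine e4.trans ?_
    rcases A.eq_empty_or_nonempty with hAe | hAn
    · rw [hAe]
      simp only [filter_empty, card_empty, Nat.cast_zero]
      positivity
    · have hApos : (0:ℝ) < A.card := by exact_mod_cast card_pos.2 hAn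
      have h8 := poor o0.2 o0.1 hal A (filter_subset _ _) (2 ^ k * thr / A.card) (by positivity)
      refine h8.trans ?_
      rw [div_mul_cancel₀ _ hApos.ne']
      exact hthr o0.2 o0.1 hal
  refine le_trans ?_ hcb
  norm_cast
  refine card_le_card fun o ho => ?_
  rw [mem_filter] at ho ⊢
  exact ⟨ho.1, hcov0 o ho.1, ho.2⟩

section

variable {σ κ : Type} {B : Base} {I : ℕ → Finset (ℕ × ℝ)} {G : Geo σ κ} {lev : ℕ → ℚ → ℕ}
    {A : ℕ → ℝ} {g : ℝ} {c Λ : ℝ → ℝ} {τ : κ → ℝ → ℝ} {f : ℕ → ℚ → ℕ → ℤ → ℕ} {b : ℕ → ℚ → ℕ → σ}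
    {vm : ℕ → ℚ → ℝ} {w : κ → ℕ → ℚ → ℝ} {r0 : ℕ → ℝ}

theorem level_room (hlim : ∀ u v : ℚ, 0 ≤ u → u ≤ v → v ≤ 1 →
    Tendsto (fun n => ((lev n v : ℝ) - lev n u) * Real.log 2 / B.L n) U (𝓝 ((v : ℝ) - u)))
    {v : ℚ} (hv0 : 0 ≤ v) (hv1 : v < 1) (k : ℕ) :
    ∀ᶠ n in (U : Filter ℕ), lev n v + k ≤ lev n 1 := by
  have h1 := hlim v 1 hv0 hv1.le le_rfl
  have hv1' : (v : ℝ) < 1 := by exact_mod_cast hv1
  have e1 : ((1 : ℚ) : ℝ) = 1 := by norm_num
  rw [e1] at h1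
  have hpos : 0 < (1 - (v : ℝ)) / 2 := by linarith
  filter_upwards [h1.eventually_const_lt (show (1 - (v : ℝ)) / 2 < 1 - v by linarith),
    ev_const_mul B (C := (2 : ℝ) ^ (k + 1)) (by positivity) hpos] with n h2 h3
  have hL := B.L_pos n
  rw [lt_div_iff₀ hL] at h2
  have h4 := Real.log_le_log (mul_pos (by positivity) (dpow_pos B n _)) h3
  rw [Real.log_one, Real.log_mul (by positivity) (dpow_pos B n _).ne', Real.log_pow,
    Real.log_rpow (B.pos n)] at h4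
  have hl2 : 0 < Real.log 2 := Real.log_pos (by norm_num)
  have h5 : ((k + 1 : ℕ) : ℝ) * Real.log 2 ≤ (1 - (v : ℝ)) / 2 * B.L n := by
    unfold Base.L
    linarith
  have h6 : ((k + 1 : ℕ) : ℝ) * Real.log 2 < ((lev n 1 : ℝ) - lev n v) * Real.log 2 := by linarith
  have h7 : ((k + 1 : ℕ) : ℝ) < (lev n 1 : ℝ) - lev n v := lt_of_mul_lt_mul_right h6 hl2.le
  push_cast at h7
  have h8 : ((lev n v + k : ℕ) : ℝ) ≤ ((lev n 1 : ℕ) : ℝ) := by push_cast; linarith
  exact_mod_cast h8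

open Classical in
/-- **from D-max at all natural levels**, `v < 1` -/
theorem subD_of_allD (h : AllD B I G lev A g) (hA : ∀ n, 0 < A n)
    (hval : ∀ n i j s, G.adm n i j s → 0 ≤ G.val n i j s)
    (hmono : ∀ u v : ℚ, 0 ≤ u → u ≤ v → v ≤ 1 → ∀ᶠ n in (U : Filter ℕ), lev n u ≤ lev n v)
    (hlim : ∀ u v : ℚ, 0 ≤ u → u ≤ v → v ≤ 1 →
      Tendsto (fun n => ((lev n v : ℝ) - lev n u) * Real.log 2 / B.L n) U (𝓝 ((v : ℝ) - u)))
    {v : ℚ} (hv0 : 0 ≤ v) (hv1 : v < 1) (k : ℕ) : SubD B I G lev A g v k := by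
  intro ε hε
  have hε2 : 0 < ε / 2 := by positivity
  refine ⟨fun n => (I n).image (lc (lev n v + k)), ?_, ?_⟩
  · refine Eventually.of_forall fun n x hx => ⟨zc (lev n v + k) x.2, ?_, mem_image_of_mem _ hx⟩
    have := zc_div (Nat.le_add_right (lev n v) k) x.2
    rw [this]
    congr 2
    omega
  · have h1 := hlim 0 v le_rfl hv0 hv1.le
    have e0 : ((0 : ℚ) : ℝ) = 0 := by norm_num
    rw [e0, sub_zero] at h1
    have h2 : Tendsto (fun n => g * (((lev n v : ℝ) - lev n 0) * Real.log 2 / B.L n)) U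
        (𝓝 (g * v)) := h1.const_mul g
    filter_upwards [h (ε / 2) hε2, level_room hlim hv0 hv1 k, hmono 0 v le_rfl hv0 hv1.le,
      h2.eventually_lt_const (show g * (v : ℝ) < g * v + ε / 2 by linarith)] with n n1 n2 n3 n4
    intro j s hs
    have hdp := fun a => dpow_pos B n a
    have hL := B.L_pos n
    have h5 := n1 (lev n v + k) (by omega) n2 j s hs
    have h6 : ((((I n).image (lc (lev n v + k))).filter fun o => o.2 = j ∧
        G.mem n (lev n v + k) j s o.1).card : ℝ) ≤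
        (((alive (I n) (lev n v + k) j).filter fun t => G.mem n (lev n v + k) j s t).card : ℝ) := by
      norm_cast
      refine card_le_card_of_injOn (fun o => o.1) ?_ ?_
      · intro o ho
        have ho' := mem_filter.1 (mem_coe.1 ho)
        obtain ⟨x, hx, hxo⟩ := mem_image.1 ho'.1
        refine mem_coe.2 (mem_filter.2 ⟨mem_alive.2 ⟨x, hx, by rw [← hxo]; rfl, ?_⟩, ho'.2.2⟩)
        rw [← ho'.2.1, ← hxo]; rfl
      · intro o ho o' ho' hh
        have h1 := (mem_filter.1 (mem_coe.1 ho)).2.1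
        have h2 := (mem_filter.1 (mem_coe.1 ho')).2.1
        exact Prod.ext hh (h1.trans h2.symm)
    refine (h6.trans h5).trans (mul_le_mul_of_nonneg_right ?_ (hval _ _ _ _ hs))
    -- the growth factor
    have h7 : (2:ℝ) ^ (g * (((lev n v + k : ℕ) : ℝ) - lev n 0)) ≤
        B.d n ^ (-(g * v + ε / 2)) * 2 ^ (g * k) := by
      have e1 : g * (((lev n v + k : ℕ) : ℝ) - lev n 0) =
          g * ((lev n v : ℝ) - lev n 0) + g * k := by push_cast; ring
      rw [e1, Real.rpow_add (by norm_num)]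
      refine mul_le_mul_of_nonneg_right ?_ (by positivity)
      rw [← Real.log_le_log_iff (by positivity) (hdp _), Real.log_rpow (by norm_num),
        Real.log_rpow (B.pos n)]
      have e2 : g * (((lev n v : ℝ) - lev n 0) * Real.log 2 / B.L n) =
          (g * ((lev n v : ℝ) - lev n 0) * Real.log 2) / B.L n := by ring
      rw [e2, div_lt_iff₀ hL] at n4
      unfold Base.L at n4
      linarith
    have h8 : (2:ℝ) ^ (g * k) ≤ 2 ^ ((g + ε) * k) := by
      apply Real.rpow_le_rpow_of_exponent_le (by norm_num)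
      have : (0:ℝ) ≤ ε * k := by positivity
      linarith
    have e3 : B.d n ^ (-(ε / 2)) * B.d n ^ (-(g * v + ε / 2)) =
        B.d n ^ (-ε) * B.d n ^ (-(g * v)) := by
      rw [← dpow_add, ← dpow_add]; congr 1; ring
    have hAn := hA n
    have q1 := hdp (-(ε / 2))
    have q2 := hdp (-(g * v + ε / 2))
    calc B.d n ^ (-(ε / 2)) * (A n * 2 ^ (g * (((lev n v + k : ℕ) : ℝ) - lev n 0))) ≤
          B.d n ^ (-(ε / 2)) * (A n * (B.d n ^ (-(g * v + ε / 2)) * 2 ^ ((g + ε) * k))) := by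
          refine mul_le_mul_of_nonneg_left (mul_le_mul_of_nonneg_left ?_ hAn.le) q1.le
          exact h7.trans (mul_le_mul_of_nonneg_left h8 q2.le)
      _ = (B.d n ^ (-(ε / 2)) * B.d n ^ (-(g * v + ε / 2))) * A n * 2 ^ ((g + ε) * k) := by ring
      _ = _ := by rw [e3]; ring

open Classical in
/-- **rich sub-cells** for a marked sequence, from `SubD` -/
theorem rich_cell2 (h : MkA B I G lev A (fun v => g * v) (fun v => 0 * v) τ f b vm w)
    {v : ℚ} (hv0 : 0 ≤ v) (hv1 : v ≤ 1) {k : ℕ} (hd : SubD B I G lev A g v k)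
    (N : ℕ → ℤ → ℕ → ℕ → Prop) {K : ℝ} (hK : 0 ≤ K)
    (poor : ∀ᶠ n in (U : Filter ℕ), ∀ J : ℤ, ∀ t0 ∈ alive (I n) (lev n v) J,
      ∀ A' ⊆ (alive (I n) (lev n v) J).filter fun s => f n v s J = f n v t0 J,
      ∀ θ : ℝ, 0 ≤ θ →
        ((A'.filter fun t => ((A'.filter fun t' => N n J t t').card : ℝ) < θ * A'.card).card : ℝ) ≤
          K * (θ * A'.card)) {ε ε' : ℝ} (hε : 0 < ε) (hε' : 0 < ε') :
    ∃ P : ℕ → Finset (ℕ × ℤ),
      (∀ᶠ n in (U : Filter ℕ), ∀ (j : ℤ) (s : σ), G.adm n (lev n v + k) j s →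
        (((P n).filter fun o => o.2 = j ∧ G.mem n (lev n v + k) j s o.1).card : ℝ) ≤
          B.d n ^ (-ε') * (A n * B.d n ^ (-(g * v))) * 2 ^ ((g + ε') * k) *
            G.val n (lev n v + k) j s) ∧
      Negl B I fun n x => ∀ j : ℤ, j / 2 ^ k = zc (lev n v) x.2 →
        (((alive (I n) (lev n v) (zc (lev n v) x.2)).filter fun t' =>
          f n v t' (zc (lev n v) x.2) = f n v x.1 (zc (lev n v) x.2) ∧
            N n (zc (lev n v) x.2) x.1 t' ∧ (t', j) ∈ P n).card : ℝ) <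
          B.d n ^ ε * (ampA B A (fun v => g * v) n v * vm n v) := by
  obtain ⟨P, hcov, hmax⟩ := hd ε' hε'
  refine ⟨P, hmax, ?_⟩
  · set μ : ℝ := ε / 8 with hμ
    have hμ0 : 0 < μ := by rw [hμ]; positivity
    have hμε : 8 * μ ≤ ε := by rw [hμ]; linarith
    refine ⟨μ, hμ0, ?_⟩
    have hC : 0 < (1 + K) * 2 ^ k := by positivity
    filter_upwards [hcov, h.near v hv0 hv1 (ε / 2) (by linarith),
      fib_bounds h v hv0 hv1 hμ0, ev_const_mul B hC hμ0, h.vpos v hv0 hv1, poor]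
      with n n1 n3 n4 n5 n6 n7
    have hdp := fun a => dpow_pos B n a
    have hamp : 0 < ampA B A (fun v => g * v) n v := mul_pos (h.Apos n) (hdp _)
    have hR := rich_fin2 (I n) (P n) (by
        intro o ho
        obtain ⟨x, hx, rfl⟩ := mem_image.1 ho
        exact n1 x hx) (f n v) (N n) hK
      (thr := B.d n ^ ε * (ampA B A (fun v => g * v) n v * vm n v))
      (η := K * 2 ^ k * B.d n ^ (ε / 2)) (by have := hdp ε; positivity)
      (by have := hdp (ε / 2); positivity) n7 (by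
        intro J t ht
        have h3 := n3 J t ht
        have e1 : B.d n ^ ε = B.d n ^ (ε / 2) * B.d n ^ (ε / 2) := by rw [← dpow_add]; congr 1; ring
        have e2 : B.d n ^ (ε / 2) * B.d n ^ (-(ε / 2)) = 1 := by
          rw [← dpow_add, add_neg_cancel, Real.rpow_zero]
        have h4 : B.d n ^ (ε / 2) * (ampA B A (fun v => g * v) n v * vm n v) ≤
            (((alive (I n) (lev n v) J).filter fun s => f n v s J = f n v t J).card : ℝ) := by
          refine (mul_le_mul_of_nonneg_left h3 (hdp (ε / 2)).le).trans (le_of_eq ?_)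
          rw [← mul_assoc, e2, one_mul]
        calc K * (2 ^ k * (B.d n ^ ε * (ampA B A (fun v => g * v) n v * vm n v)))
            = K * 2 ^ k * B.d n ^ (ε / 2) *
              (B.d n ^ (ε / 2) * (ampA B A (fun v => g * v) n v * vm n v)) := by rw [e1]; ring
          _ ≤ _ := mul_le_mul_of_nonneg_left h4 (by have := hdp (ε / 2); positivity))
    have hB := bad_inc (I n) (lev n v) (fun o => ∀ j : ℤ, j / 2 ^ k = o.2 →
        (((alive (I n) (lev n v) o.2).filter fun t' => f n v t' o.2 = f n v o.1 o.2 ∧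
          N n o.2 o.1 t' ∧ (t', j) ∈ P n).card : ℝ) <
          B.d n ^ ε * (ampA B A (fun v => g * v) n v * vm n v)) (hdp _) (hdp _).le
        (by have := hdp (ε / 2); positivity) (fun x hx => (n4 x hx).1)
        (fun x hx => (n4 x hx).2) hR
    refine le_trans (le_of_eq ?_) (hB.trans ?_)
    · rfl
    · have h0 : (0:ℝ) ≤ ((I n).card : ℝ) := Nat.cast_nonneg _
      refine mul_le_mul_of_nonneg_right ?_ h0
      rw [← Real.rpow_sub (B.pos n)]
      have e1 : -(1 - (v:ℝ)) + (0 * (1:ℝ) - 0 * (v:ℝ)) - μ - (-(1 - (v:ℝ)) + (0 * (1:ℝ) - 0 * (v:ℝ)) + μ)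
          = -(2 * μ) := by ring
      rw [e1]
      have a2 : B.d n ^ (ε / 2) ≤ B.d n ^ (4 * μ) := dpow_le B n (by linarith)
      have a3 : B.d n ^ (4 * μ) * B.d n ^ (-(2 * μ)) = B.d n ^ μ * B.d n ^ μ := by
        rw [← dpow_add, ← dpow_add]; congr 1; ring
      have p1 := hdp (-(2 * μ))
      have p2 := hdp μ
      have p3 := hdp (4 * μ)
      calc (K * 2 ^ k * B.d n ^ (ε / 2)) * B.d n ^ (-(2 * μ))
          ≤ (K * 2 ^ k * B.d n ^ (4 * μ)) * B.d n ^ (-(2 * μ)) := by gcongr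
        _ = K * 2 ^ k * (B.d n ^ (4 * μ) * B.d n ^ (-(2 * μ))) := by ring
        _ ≤ (1 + K) * 2 ^ k * (B.d n ^ (4 * μ) * B.d n ^ (-(2 * μ))) := by
            refine mul_le_mul_of_nonneg_right ?_ (by positivity)
            have : (0:ℝ) < 2 ^ k := by positivity
            nlinarith
        _ = ((1 + K) * 2 ^ k * B.d n ^ μ) * B.d n ^ μ := by rw [a3]; ring
        _ ≤ 1 * B.d n ^ μ := mul_le_mul_of_nonneg_right n5 p2.le
        _ = _ := one_mul _

end

end Crest.Agent.R136.Ndc335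
end

-- ▼ part R136/Ndj2_335
section

/-!
# R136 / U5, non-degeneracy (3.0): the sequence form, from `SubD` (helper335)

**`nonDeg_of2`** : as `nonDeg_of`, but the only information below the level `lev n v` is `SubD` : D-max
at the level `lev n v + 7` for a family of (line, cell) which meets every incidence.
-/

set_option autoImplicit false
set_option linter.unusedVariables false
set_option linter.unusedSectionVars false

open Finset Filter Topology

namespace Crest.Agent.R136.Ndc335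

open Crest.Agent.R138.Ex926 Crest.Agent.R138.Dp76
open Crest.Agent.R138.Mk163 (zc zl rho alive own Negl)
open Crest.Agent.R138.MkRef627 (lc kc mem_alive card_class alive_mono)
open Crest.Agent.R138.ArgM163 (ev_const_mul ev_const)
open Crest.Agent.R136.MkA627 Crest.Agent.R136.Dia770
open Crest.Agent.R136.Sh605 Crest.Agent.R136.K4 Crest.Agent.R136.KapP335
open Crest.Agent.R136.Tl102 (QF fan shB0 scB1 scG kap NrmC IsExp StP kap_le)
open Crest.Agent.R136.Arc880 (det3)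

section

variable {B : Base} {I : ℕ → Finset (ℕ × ℝ)} {L : ℕ → ℕ → Ln4} {r0 : ℕ → ℝ} {q : Fin 3 → ℝ}
    {G : Geo Plk4 (Fin 3)} {wr cr : Fin 3 → ℕ → ℝ}
    {lev : ℕ → ℚ → ℕ} {A : ℕ → ℝ} {g : ℝ} {τ : Fin 3 → ℝ → ℝ} {f : ℕ → ℚ → ℕ → ℤ → ℕ}
    {b : ℕ → ℚ → ℕ → Plk4} {vm : ℕ → ℚ → ℝ} {w : Fin 3 → ℕ → ℚ → ℝ}

/-- **(3.0), sequence form, from `SubD`** -/
theorem nonDeg_of2 (h : MkA B I G lev A (fun v => g * v) (fun v => 0 * v) τ f b vm w)
    (hG : GeoS G L r0 q wr cr) (hq0 : 0 ≤ q 0) (hq2 : 0 < q 2) (hq21 : q 2 ≤ q 1)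
    (hr0 : ∀ n, 0 < r0 n) {v : ℚ} (hv0 : 0 ≤ v) (hv1 : v ≤ 1)
    (hd : (∀ᶠ n in (U : Filter ℕ), r0 n ≤ rho (lev n v + 7)) → SubD B I G lev A g v 7)
    (hwr0 : ∀ᶠ n in (U : Filter ℕ), wr 0 n ≤ w 0 n v)
    (hcr0 : ∀ᶠ n in (U : Filter ℕ), 3 * w 0 n v ≤ cr 0 n)
    (hwr : ∀ C : ℝ, ∀ k : Fin 3, k ≠ 0 → ∀ᶠ n in (U : Filter ℕ), wr k n ≤ B.d n ^ C * w k n v)
    (hcr : ∀ k : Fin 3, k ≠ 0 → ∀ᶠ n in (U : Filter ℕ), w k n v ≤ cr k n) {ε : ℝ} (hε : 0 < ε) :
    Negl B I fun n x =>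
      B.d n ^ (-ε) * (b n v (f n v x.1 (zc (lev n v) x.2))).a <
          kapP (b n v (f n v x.1 (zc (lev n v) x.2))) (zl (lev n v) (zc (lev n v) x.2))
            (rho (lev n v)) (L n x.1) ∧
        ¬ DetP (B.d n ^ ε) (b n v (f n v x.1 (zc (lev n v) x.2))) (zl (lev n v) (zc (lev n v) x.2))
            (rho (lev n v)) (L n x.1) := by
  classical
  obtain ⟨C, hC1, hC⟩ := nondegR (q2 := q 2) (CR := 3 ^ q 0) hq2 (by positivity)
  have hmark : ∀ᶠ n in (U : Filter ℕ), ∀ J : ℤ, ∀ t ∈ alive (I n) (lev n v) J,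
      InSheet (L n t) (b n v (f n v t J)).e (b n v (f n v t J)).c (b n v (f n v t J)).w
        (b n v (f n v t J)).q (b n v (f n v t J)).a (zl (lev n v) J) (rho (lev n v)) ∧
      (ShN (b n v (f n v t J)).e (b n v (f n v t J)).c (b n v (f n v t J)).w
        (b n v (f n v t J)).q (b n v (f n v t J)).a (zl (lev n v) J) (rho (lev n v)) (r0 n) ∧
        (b n v (f n v t J)).w 1 ≤ rho (lev n v)) ∧
      G.val n (lev n v) J (b n v (f n v t J)) = vm n v ∧
      ((b n v (f n v t J)).a = w 0 n v ∧ (b n v (f n v t J)).w 1 = w 1 n v ∧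
        (b n v (f n v t J)).w 2 = w 2 n v) := by
    filter_upwards [h.mark v hv0 hv1] with n hn J t ht
    obtain ⟨h1, h2, h3, h4⟩ := hn J t ht
    refine ⟨(hG.mem _ _ _ _ _).1 h1, hG.adm _ _ _ _ h2, h3, ?_, ?_, ?_⟩
    · have := h4 0; rw [hG.wid] at this; exact this
    · have := h4 1; rw [hG.wid] at this; exact this
    · have := h4 2; rw [hG.wid] at this; exact this
  have hC0 : 0 < C := by linarith
  rcases ev_em (fun n => r0 n ≤ rho (lev n v + 7)) with hr | hr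
  swap
  · -- the thickness of the mark is comparable to the cell: no curved marks
    refine Negl.false.mono ?_
    filter_upwards [hr, hmark, ev_const B (C := 2000) (by norm_num) hε]
      with n n1 n2 n3 x hx hbad
    have hal : x.1 ∈ alive (I n) (lev n v) (zc (lev n v) x.2) := mem_alive.2 ⟨x, hx, rfl, rfl⟩
    obtain ⟨hmem, ⟨hadm, hw1⟩, -, -⟩ := n2 _ _ hal
    set S := b n v (f n v x.1 (zc (lev n v) x.2)) with hS
    have hrp := hr0 n
    have hap : 0 < S.a := by linarith [hadm.r0_le]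
    have hw0 : 0 < S.w 0 := by linarith [hadm.a_le0]
    have hE := expP_spec hadm.isQ hw0.ne' (zl (lev n v) (zc (lev n v) x.2)) (rho (lev n v)) (L n x.1)
    have hN := IsExp.nrmC (StP.of_shN hadm hw0) (rho_pos _).le (fun z h1 h2 => (hmem z h1 h2).1) hE
    have hk := kap_le hN
    have h1 := hbad.1
    unfold kapP at h1
    have h2 : rho (lev n v) = 2 ^ 7 * rho (lev n v + 7) := rho_add _ _
    push Not at n1
    have h3 : S.w 0 ≤ 128 * S.a := by
      calc S.w 0 ≤ S.w 1 := hadm.w0_le.trans hadm.w_le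
        _ ≤ rho (lev n v) := hw1
        _ = 128 * rho (lev n v + 7) := by rw [h2]; norm_num
        _ ≤ 128 * S.a := by linarith [hadm.r0_le]
    have h4 : S.w 0 * kap (expP S (zl (lev n v) (zc (lev n v) x.2)) (rho (lev n v)) (L n x.1)).1
        (expP S (zl (lev n v) (zc (lev n v) x.2)) (rho (lev n v)) (L n x.1)).2.1
        (expP S (zl (lev n v) (zc (lev n v) x.2)) (rho (lev n v)) (L n x.1)).2.2 ≤
        128 * S.a * 13 := mul_le_mul h3 hk (Tl102.kap_nonneg _ _ _) (by positivity)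
    have h5 : 2000 * S.a ≤ B.d n ^ (-ε) * S.a := mul_le_mul_of_nonneg_right n3 hap.le
    linarith
  · -- main case
    have hpoor : ∀ᶠ n in (U : Filter ℕ), ∀ J : ℤ, ∀ t0 ∈ alive (I n) (lev n v) J,
      ∀ A' ⊆ (alive (I n) (lev n v) J).filter fun s => f n v s J = f n v t0 J,
      ∀ θ : ℝ, 0 ≤ θ →
        ((A'.filter fun t => ((A'.filter fun t' => NearL L lev f b v n J t t').card : ℝ) <
          θ * A'.card).card : ℝ) ≤ (2 * (1000 : ℕ) + 1) ^ 6 * (θ * A'.card) := by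
      filter_upwards [hmark] with n n1 J t0 ht0 A' hA' θ hθ
      set S := b n v (f n v t0 J) with hS
      obtain ⟨-, ⟨hadm, -⟩, -, -⟩ := n1 J t0 ht0
      have hrp := hr0 n
      have hap : 0 < S.a := by linarith [hadm.r0_le]
      have hw0 : 0 < S.w 0 := by linarith [hadm.a_le0]
      have hw2 : 0 < S.w 2 := by linarith [hadm.w0_le]
      have hw1 : 0 < S.w 1 := by linarith [hadm.w_le]
      have hA2 : ∀ t ∈ A', t ∈ alive (I n) (lev n v) J ∧ b n v (f n v t J) = S := by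
        intro t ht
        have := mem_filter.1 (hA' ht)
        exact ⟨this.1, by rw [hS, this.2]⟩
      have hp := poor_le A' (L n) (e := S.e) (c := S.c) (w := S.w) (z0 := zl (lev n v) J)
        (ρ := rho (lev n v)) (by intro i; fin_cases i <;> assumption) (rho_pos _).le
        (N := 1000) (by norm_num) hθ (by
          intro t ht z g0 g1 i
          obtain ⟨ha, hb⟩ := hA2 t ht
          have := (n1 J t ha).1
          rw [hb] at this
          exact (this z g0 g1).1 i)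
      refine le_trans (le_of_eq ?_) hp
      congr 2
      refine filter_congr fun t ht => ?_
      have e1 : (A'.filter fun t' => NearL L lev f b v n J t t') =
          A'.filter fun t' => ∀ i, ∀ z, zl (lev n v) J ≤ z → z ≤ zl (lev n v) J + rho (lev n v) →
            |dt (S.e i) ((L n t').pos z - (L n t).pos z)| ≤ S.w i / (1000 : ℕ) := by
        refine filter_congr fun t' ht' => ?_
        unfold NearL
        rw [(hA2 t ht).2]
        push_cast
        rfl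
      rw [e1]
    set δ : ℝ := ε / (4 * C) with hδ
    have hδ0 : 0 < δ := by rw [hδ]; positivity
    obtain ⟨P, hmax, hneg⟩ := rich_cell2 h hv0 hv1 (hd hr) (NearL L lev f b v)
      (K := (2 * (1000 : ℕ) + 1) ^ 6) (by positivity) hpoor hδ0 hδ0
    refine hneg.mono ?_
    set sq : ℝ := q 0 + q 1 + q 2 with hsq
    set C' : ℝ := 2 ^ ((g + δ) * (7 : ℕ)) * 128 ^ sq with hC'
    have hC'0 : 0 < C' := by rw [hC']; positivity
    have hεC : 0 < ε / C := by positivity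
    filter_upwards [hmark, hmax, h.vpos v hv0 hv1,
      ev_const_mul B hC'0 (show 0 < 2 * δ by positivity),
      ev_const_mul B (C := 2) (by norm_num) hεC, hwr ε 1 (by decide), hwr ε 2 (by decide),
      hcr 1 (by decide), hcr 2 (by decide), hwr0, hcr0]
      with n n1 n2 n3 n4 n5 n6 n7 n8 n9 n10 n11 x hx hbad j hj
    by_contra hcount
    push Not at hcount
    apply hbad.2
    have hdp := fun a => dpow_pos B n a
    have hamp : 0 < ampA B A (fun v => g * v) n v := mul_pos (h.Apos n) (hdp _)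
    have hal : x.1 ∈ alive (I n) (lev n v) (zc (lev n v) x.2) := mem_alive.2 ⟨x, hx, rfl, rfl⟩
    obtain ⟨hmem, ⟨hadm, hw1⟩, hval, hwd0, hwd1, hwd2⟩ := n1 _ _ hal
    rw [← hwd0] at n10 n11
    rw [hG.val] at hval
    rw [← hwd1] at n6 n8
    rw [← hwd2] at n7 n9
    set i := lev n v with hi
    set J := zc i x.2 with hJ
    set S := b n v (f n v x.1 J) with hS
    have hrp := hr0 n
    have hap : 0 < S.a := by linarith [hadm.r0_le]
    have hw0 : 0 < S.w 0 := by linarith [hadm.a_le0]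
    have hw2 : 0 < S.w 2 := by linarith [hadm.w0_le]
    have hw1p : 0 < S.w 1 := by linarith [hadm.w_le]
    have hE := expP_spec hadm.isQ hw0.ne' (zl i J) (rho i) (L n x.1)
    obtain ⟨sc1, sc2⟩ := sub_cell (i := i) hj
    set A' := (alive (I n) i J).filter fun t' => f n v t' J = f n v x.1 J ∧
      NearL L lev f b v n J x.1 t' ∧ (t', j) ∈ P n with hA'
    have hρ1 := rho_pos (i + 7)
    set D : ℝ := B.d n ^ (-δ) * (A n * B.d n ^ (-(g * v))) * 2 ^ ((g + δ) * (7 : ℕ)) with hD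
    have hD0 : 0 < D := by have := hdp (-δ); have := hdp (-(g * v)); have := h.Apos n; positivity
    set R : ℝ → ℝ → ℝ → ℝ := fun a' w2' w1' =>
      (a' * (rho (i + 7))⁻¹) ^ q 0 * (w1' * (rho (i + 7))⁻¹) ^ q 1 * (w2' * (rho (i + 7))⁻¹) ^ q 2
      with hR
    have hdm : DMaxR A' (L n) (zl (i + 7) j) (rho (i + 7)) D R (r0 n) S.a (wr 1 n) (wr 2 n)
        (min (rho (i + 7)) (cr 1 n)) (cr 2 n) := by
      intro e' c' w' q' a' hS' ha1 ha3 hw' hw2' hr1 hr2
      have h1 := n2 j ⟨j, e', c', w', q', a'⟩ (hG.adm' _ _ _ _ hS' (hw'.trans (min_le_left _ _))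
        (by
          intro k
          fin_cases k
          · exact ⟨n10.trans ha1, ha3.trans n11⟩
          · exact ⟨hr1, hw'.trans (min_le_right _ _)⟩
          · exact ⟨hr2, hw2'⟩))
      rw [hG.val] at h1
      have h2 : ((A'.filter fun t => InSheet (L n t) e' c' w' q' a' (zl (i + 7) j)
          (rho (i + 7))).card : ℝ) ≤ (((P n).filter fun o => o.2 = j ∧
          G.mem n (i + 7) j ⟨j, e', c', w', q', a'⟩ o.1).card : ℝ) := by
        norm_cast
        refine card_le_card_of_injOn (fun t => (t, j)) ?_ ?_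
        · intro t ht
          have ht' := mem_filter.1 (mem_coe.1 ht)
          have ht'' := mem_filter.1 ht'.1
          exact mem_coe.2 (mem_filter.2 ⟨ht''.2.2.2, rfl, (hG.mem _ _ _ _ _).2 ht'.2⟩)
        · intro t ht t' ht' hh
          exact (Prod.mk.inj hh).1
      refine (h2.trans h1).trans (le_of_eq ?_)
      rw [hD, hR]
      simp only [div_eq_mul_inv]
    have hval' : S.a * S.w 2 * S.w 1 * ((S.a / rho i) ^ q 0 * (S.w 1 / rho i) ^ q 1 *
        (S.w 2 / rho i) ^ q 2) = vm n v := hval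
    have hRS : R S.a (S.w 2) (S.w 1) = 128 ^ sq * ((S.a / rho i) ^ q 0 * (S.w 1 / rho i) ^ q 1 *
        (S.w 2 / rho i) ^ q 2) := by
      have e1 : ∀ u : ℝ, u * (rho (i + 7))⁻¹ = 128 * (u / rho i) := by
        intro u
        rw [rho_add i 7]
        field_simp
        norm_num
      have hri := rho_pos i
      rw [hR]
      simp only [e1]
      rw [Real.mul_rpow (by norm_num) (by positivity), Real.mul_rpow (by norm_num) (by positivity),
        Real.mul_rpow (by norm_num) (by positivity), hsq, Real.rpow_add (by norm_num),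
        Real.rpow_add (by norm_num)]
      ring
    set θ : ℝ := B.d n ^ (ε / C) with hθ
    have hθ0 : 0 < θ := hdp _
    have hθC : θ ^ C = B.d n ^ ε := by
      rw [hθ, ← Real.rpow_mul (B.pos n).le, div_mul_cancel₀ _ hC0.ne']
    have hθC' : θ ^ (-C) = B.d n ^ (-ε) := by
      rw [hθ, ← Real.rpow_mul (B.pos n).le]
      congr 1
      field_simp
    have hcard : B.d n ^ δ * (ampA B A (fun v => g * v) n v * vm n v) ≤ (A'.card : ℝ) := hcount
    have hvm := n3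
    have hApos : (0:ℝ) < A'.card := lt_of_lt_of_le (by have := hdp δ; positivity) hcard
    have hθle : θ * (D * (S.a * S.w 2 * S.w 1 * R S.a (S.w 2) (S.w 1))) ≤ A'.card := by
      refine le_trans ?_ hcard
      rw [hRS]
      have e1 : S.a * S.w 2 * S.w 1 * (128 ^ sq * ((S.a / rho i) ^ q 0 * (S.w 1 / rho i) ^ q 1 *
          (S.w 2 / rho i) ^ q 2)) = 128 ^ sq * vm n v := by rw [← hval']; ring
      rw [e1]
      have e2 : θ = B.d n ^ (2 * δ) * (B.d n ^ δ * B.d n ^ δ) := by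
        rw [hθ, ← dpow_add, ← dpow_add]
        congr 1
        rw [hδ]; field_simp; ring
      have e3 : B.d n ^ δ * B.d n ^ (-δ) = 1 := by rw [← dpow_add, add_neg_cancel, Real.rpow_zero]
      have e4 : θ * (D * (128 ^ sq * vm n v)) = (C' * B.d n ^ (2 * δ)) * (B.d n ^ δ *
          (ampA B A (fun v => g * v) n v * vm n v)) * (B.d n ^ δ * B.d n ^ (-δ)) := by
        rw [e2, hD, hC']
        unfold ampA
        ring
      rw [e4, e3, mul_one]
      have hp : 0 ≤ B.d n ^ δ * (ampA B A (fun v => g * v) n v * vm n v) := by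
        have := hdp δ; positivity
      calc _ ≤ 1 * (B.d n ^ δ * (ampA B A (fun v => g * v) n v * vm n v)) :=
            mul_le_mul_of_nonneg_right n4 hp
        _ = _ := one_mul _
    have hfin := hC A' (L n) S.e S.c S.w S.q S.a (zl i J) (rho i) (r0 n) (zl (i + 7) j) (rho (i + 7))
      D (wr 1 n) (wr 2 n) (min (rho (i + 7)) (cr 1 n)) (cr 2 n) R θ (L n x.1) _ _ _ hadm hrp
      (rho_pos _) hmem (by
        intro t ht
        have ht' := mem_filter.1 ht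
        have hm := (n1 J t ht'.1).1
        rw [ht'.2.1] at hm
        refine ⟨hm, fun z g0 g1 k => ?_⟩
        exact ht'.2.2.1 k z g0 g1) (by rw [rho_add i 7]; norm_num) sc1 sc2 hD0.le hdm
      (by
        have h7 := rho_add i 7
        have h8 : S.w 1 ≤ 128 * rho (i + 7) := by
          calc S.w 1 ≤ rho i := hw1
            _ = 128 * rho (i + 7) := by rw [h7]; norm_num
        rcases min_choice (rho (i + 7)) (cr 1 n) with hm | hm
        · rw [hm]; exact h8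
        · rw [hm]; linarith) n9 (by rw [hθC]; exact n6) (by rw [hθC]; exact n7)
      (by rw [hR]; positivity)
      (by
        rw [hR]
        exact Nd565.pow_reward hq0 hq21 hq2.le (by positivity) hap hw2 hw1p) hθ0 (by linarith)
      hθle hApos hE (by rw [hθC']; exact hbad.1.le)
    intro ζ h0 h1
    have := hfin ζ h0 h1
    rw [hθC] at this
    exact this

end

end Crest.Agent.R136.Ndc335
end

-- ▼ part R136/Ndk_335

/-!
# R136 / U5: non-degeneracy (3.0) for `J1c`, `J1` (helper335)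

`nonDeg_J1c` : every level `v ∈ [0, 1]`, no relation between `g` and `q 1`; used: `mka`, `alld`
(`v < 1`), `sub7` (`v = 1`), `wrs`, `r0pos`, `0 ≤ q 0`, `0 < q 2 ≤ q 1`.
`nonDeg : Tlt51.NonDeg kapP DetP`.
-/

set_option autoImplicit false
set_option linter.unusedVariables false

open Finset Filter Topology

namespace Crest.Agent.R136.Ndc335

open Crest.Agent.R138.Ex926 (Base U)
open Crest.Agent.R138.Mk163 (zc zl rho alive own Negl)
open Crest.Agent.R138.ArgM163 (ev_const_mul ev_const)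
open Crest.Agent.R136.MkA627 Crest.Agent.R136.Dia770
open Crest.Agent.R136.Sh605 Crest.Agent.R136.K4 Crest.Agent.R136.KapP335 Crest.Agent.R136.Top484
open Crest.Agent.R136.Tlt51 (mk4 zx rh)

theorem geoS_geo4 (L : ℕ → ℕ → Ln4) (r0 : ℕ → ℝ) (wr cr : Fin 3 → ℕ → ℝ) (q : Fin 3 → ℝ) :
    GeoS (geo4 L r0 wr cr q) L r0 q wr cr where
  mem := fun n i J s t => Iff.rfl
  adm := fun n i J s h => ⟨h.1, h.2.1⟩
  adm' := fun n i J s h1 h2 h3 => ⟨h1, h2, h3⟩
  val := fun n i J s => rfl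
  wid := fun k s => rfl

theorem geo4_val_nonneg {L : ℕ → ℕ → Ln4} {r0 : ℕ → ℝ} {wr cr : Fin 3 → ℕ → ℝ} {q : Fin 3 → ℝ}
    (hr0 : ∀ n, 0 < r0 n) (n i : ℕ) (j : ℤ) (s : Plk4) (h : (geo4 L r0 wr cr q).adm n i j s) :
    0 ≤ (geo4 L r0 wr cr q).val n i j s := by
  have hS := h.1
  have ha : 0 < s.a := (hr0 n).trans_le hS.r0_le
  have h0 : 0 < s.w 0 := ha.trans_le hS.a_le0
  have h2 : 0 < s.w 2 := h0.trans_le hS.w0_le
  have h1 : 0 < s.w 1 := h2.trans_le hS.w_le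
  have hρ := rho_pos i
  show 0 ≤ s.a * s.w 2 * s.w 1 *
    ((s.a / rho i) ^ q 0 * (s.w 1 / rho i) ^ q 1 * (s.w 2 / rho i) ^ q 2)
  positivity

/-- (3.0) for the data: only `mka`, `wrs`, `r0pos`, the signs of the rewards, `q 2 ≤ q 1` and
D-max on sub-cells (`SubD`) are used -/
theorem nonDeg_dat {p : Par4} {D : Dat4} {τ : Fin 3 → ℝ → ℝ}
    (hM : MkA D.B D.I (D.G p) D.lev D.A (fun v => p.g * v) (fun v => 0 * v) τ D.f D.b D.vm D.w)
    (hq0 : 0 ≤ p.q 0) (hq2 : 0 < p.q 2) (hq21 : p.q 2 ≤ p.q 1) (hr0 : ∀ n, 0 < D.r0 n)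
    (hR : Rng D.B D.wr D.cr D.w) {v : ℚ} (hv0 : 0 ≤ v) (hv1 : v ≤ 1)
    (hd : (∀ᶠ n in (U : Filter ℕ), D.r0 n ≤ rho (D.lev n v + 7)) →
      SubD D.B D.I (D.G p) D.lev D.A p.g v 7) {ε : ℝ} (hε : 0 < ε) :
    Negl D.B D.I fun n x =>
      D.B.d n ^ (-ε) * (mk4 D n v x).a < kapP (mk4 D n v x) (zx D n v x) (rh D n v) (D.L n x.1) ∧
        ¬ DetP (D.B.d n ^ ε) (mk4 D n v x) (zx D n v x) (rh D n v) (D.L n x.1) := by
  refine nonDeg_of2 hM (geoS_geo4 D.L D.r0 D.wr D.cr p.q) hq0 hq2 hq21 hr0 hv0 hv1 hd ?_ ?_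
    (fun C k _ => ?_) (fun k _ => ?_) hε
  · filter_upwards [hR 0 0 v hv0 hv1] with n hn
    have := hn.1
    rwa [Real.rpow_zero, one_mul] at this
  · filter_upwards [hR 1 0 v hv0 hv1, ev_const_mul D.B (C := 3) (by norm_num)
      (show (0:ℝ) < 1 by norm_num), hM.wpos 0 v hv0 hv1] with n hn hn' hn''
    have h1 : D.w 0 n v ≤ D.B.d n ^ (1:ℝ) * D.cr 0 n := hn.2
    have h0 : 0 < D.w 0 n v := hn''
    have h2 := D.B.pos n
    rw [Real.rpow_one] at h1 hn'
    have h3 : 0 < D.cr 0 n := by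
      by_contra hc
      push Not at hc
      exact lt_irrefl _ (h0.trans_le (h1.trans (mul_nonpos_of_nonneg_of_nonpos h2.le hc)))
    calc 3 * D.w 0 n v ≤ 3 * (D.B.d n * D.cr 0 n) := mul_le_mul_of_nonneg_left h1 (by norm_num)
      _ = (3 * D.B.d n) * D.cr 0 n := by ring
      _ ≤ 1 * D.cr 0 n := mul_le_mul_of_nonneg_right hn' h3.le
      _ = _ := one_mul _
  · filter_upwards [hR C k v hv0 hv1] with n hn using hn.1
  · filter_upwards [hR 0 k v hv0 hv1] with n hn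
    have := hn.2
    rwa [Real.rpow_zero, one_mul] at this

/-- **(3.0)** for the core of `J1` -/
theorem nonDeg_J1c {η : ℝ} {p : Par4} {D : Dat4} (hJ : J1c η p D) (hq21 : p.q 2 ≤ p.q 1) {v : ℚ}
    (hv0 : 0 ≤ v) (hv1 : v ≤ 1) {ε : ℝ} (hε : 0 < ε) :
    Negl D.B D.I fun n x =>
      D.B.d n ^ (-ε) * (mk4 D n v x).a < kapP (mk4 D n v x) (zx D n v x) (rh D n v) (D.L n x.1) ∧
        ¬ DetP (D.B.d n ^ ε) (mk4 D n v x) (zx D n v x) (rh D n v) (D.L n x.1) := by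
  refine nonDeg_dat hJ.mka hJ.q0.1 hJ.q2.1 hq21 hJ.r0pos hJ.wrs hv0 hv1 (fun _ => ?_) hε
  rcases hv1.lt_or_eq with h1 | h1
  · exact subD_of_allD hJ.alld hJ.mka.Apos (geo4_val_nonneg hJ.r0pos) hJ.mka.lev_mono
      hJ.mka.lev_lim hv0 h1 7
  · subst h1
    exact hJ.sub7

/-- **(3.0)** for the core of `J1`, any `η ≤ 1` -/
theorem nonDeg_core {η : ℝ} (hη : η ≤ 1) {p : Par4} {D : Dat4} (hJ : J1c η p D) {v : ℚ}
    (hv0 : 0 ≤ v) (hv1 : v ≤ 1) {ε : ℝ} (hε : 0 < ε) :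
    Negl D.B D.I fun n x =>
      D.B.d n ^ (-ε) * (mk4 D n v x).a < kapP (mk4 D n v x) (zx D n v x) (rh D n v) (D.L n x.1) ∧
        ¬ DetP (D.B.d n ^ ε) (mk4 D n v x) (zx D n v x) (rh D n v) (D.L n x.1) :=
  nonDeg_J1c hJ (by
    have h1 := hJ.q21
    have h2 := hJ.g0.2
    have h3 : η * p.q 1 ≤ 1 * p.q 1 := mul_le_mul_of_nonneg_right hη h2.le
    linarith) hv0 hv1 hε


end Crest.Agent.R136.Ndc335
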