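import Crest.Agent.R136.PrW5_464
import Crest.Agent.R136.NatW2_697
import Crest.Agent.R136.Fw4_650
import Crest.Agent.R136.GDW3_778
import Crest.Agent.R136.PrW2_464
import Crest.Agent.R136.GauW_619
import Crest.Agent.R136.EvW1_938
import Crest.Agent.R136.GmD_778
import Crest.Agent.R136.Wcn3_464
import Crest.Agent.R136.TwL3_327
import Crest.Agent.R136.Stk1_464
import Crest.Agent.R136.Stc9_321
import Crest.Agent.R136.Kil8_327_Mg
import Crest.Agent.R136.Ste_650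
import Crest.Agent.R136.Ut7_262
import Crest.Agent.R136.Stk6_464
import Crest.Agent.R136.Lat2_327
import Crest.Agent.R136.Ndk_335

-- ▼ part R136/PrW6_464
section

/-!
# R136, wrapper `J2 → PreQ` for the W-chart (helper464), part 6: `NatW697.ThinPre`

`thinPre_of` : `WSys` (final window of the thin branch in normal coordinates) + D-max in the chart
(778) ⊢ `ThinPre`.
-/

set_option autoImplicit false
set_option linter.unusedVariables false

open Finset Filter Topology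

namespace Crest.Agent.R136.PrW464

open Crest.Agent.R138
open Crest.Agent.R138.Ex926 (Base U QProf)
open Crest.Agent.R138.Dp76 (dpow_pos dpow_add dpow_le dpow_le_one)
open Crest.Agent.R138.Mk163 (zc zl rho alive own)
open Crest.Agent.R138.MkRef627 (lc kc)
open Crest.Agent.R136.MkA627
open Crest.Agent.R136.Net191
open Crest.Agent.R136.NetW191
open Crest.Agent.R136.Sh605
open Crest.Agent.R136.TD627
open Crest.Agent.R136.Top484
open Crest.Agent.R136.NatT550 (ParOk)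
open Crest.Agent.R136.NatW697 (thW qW SlotOkW ThinPre)
open Crest.Agent.R136.Wq638 (capQ EQ EQ_eq N0Q vm_eq gH_Q)

section

variable {σ : Type*} {G : Geo σ (Fin 3)} {g s : ℝ} {θ ϑ : Fin 3 → ℝ} {B0 B : Base}
    {I : ℕ → Finset (ℕ × ℝ)} {lev : ℕ → ℚ → ℕ} {A : ℕ → ℝ} {f : ℕ → ℚ → ℕ → ℤ → ℕ}
    {b : ℕ → ℚ → ℕ → σ} {vm : ℕ → ℚ → ℝ} {w : Fin 3 → ℕ → ℚ → ℝ}
    {kp sg hz zs : ℕ → ℝ} {hκ : ∀ n, |kp n| ≤ 1} {L : ℕ → ℕ → Ln4} {F : ℕ → ℕ × ℝ → FW}
    {fr : ℕ → ℚ → ℕ × ℝ → FW} {pr : Fin 18 → ℕ → ℚ → ℝ} {sc : Fin 18 → ℕ → ℝ}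
    {uz uc un : ℕ → ℝ} {w0 : ℝ} {C0 : Fin 18 → ℝ}

/-- slots in 697's form -/
theorem WSys.slotsW
    (h : WSys G g s θ ϑ B0 B I lev A f b vm w kp sg hz zs hκ L F fr pr sc uz uc un w0 C0) :
    SlotOkW ϑ (VW kp hκ B I F sc) (TW kp hκ ϑ B I lev F sc C0) where
  tied := h.slots.tied
  vis := by
    intro k hk
    obtain ⟨h0, h1, h2, h3, h13, h16, h17, hb⟩ := h.slots.vis k hk
    refine ⟨⟨?_, h13, h16, h17⟩, hb⟩
    revert h0 h1 h2 h3
    clear hk hb h13 h16 h17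
    revert k
    decide
  cap := by
    intro k hk hnt
    rcases h.alt k with h1 | h1 | ⟨h1, a, ha, -, hn⟩
    · exact absurd h1 hk.2
    · exact absurd ⟨hk, h1.2⟩ hnt
    · obtain ⟨l, hl, rfl⟩ := List.mem_map.1 (List.mem_toFinset.1 ha)
      refine ⟨l, hl, fun t ht => ?_⟩
      by_cases h0 : t = 0
      · exact Or.inl h0
      · exact Or.inr ⟨h0, hn t (List.count_pos_iff.2 ht).ne'⟩

end

section

variable {η : ℝ} {p : Par4} {D : Dat4} {π : Equiv.Perm (Fin 3)} {B0 : Base}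
    {kp sg hz zs : ℕ → ℝ} {hκ : ∀ n, |kp n| ≤ 1} {L : ℕ → ℕ → Ln4} {F : ℕ → ℕ × ℝ → FW}
    {fr : ℕ → ℚ → ℕ × ℝ → FW} {pr : Fin 18 → ℕ → ℚ → ℝ} {sc : Fin 18 → ℕ → ℝ}
    {uz uc un : ℕ → ℝ} {w0 R T0 : ℝ} {C0 : Fin 18 → ℝ} {PD : Set (Fin 18 → ℝ)}

open Classical in
/-- **`ThinPre` from the final window of the thin branch.** -/
theorem thinPre_of
    (h : WSys (D.G p) p.g 0 p.θ (thW p π) B0 D.B D.I D.lev D.A D.f D.b D.vm D.w kp sg hz zs hκ
      L F fr pr sc uz uc un w0 C0)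
    (ok : ParOk η p) (pi0 : π 0 = 0) (th1 : 0 < thW p π 1) (th2 : thW p π 2 = 2 * thW p π 1)
    (q1 : 0 < qW p π 1) (q2 : 0 < qW p π 2) (big : BigW (thW p π) w0 R T0)
    (kp0 : ∀ ε : ℝ, 0 < ε → ∀ᶠ n in (U : Filter ℕ), D.B.d n ^ ε ≤ |kp n|)
    (PDne : PD.Nonempty) (PDleg : PD ⊆ Leg monW R)
    (gD : ∀ x ∈ PD, ∀ K : ℝ, 1 ≤ K → ∀ ε : ℝ, 0 < ε → ∀ᶠ n in (U : Filter ℕ), ∀ i ∈ D.I n,
      (((D.I n).filter fun j => Near (couW kp uz uc un F n) (D.B.d n) x K i j).card : ℝ) ≤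
        N0Q D.A D.vm n * D.B.d n ^ (-(DW p.g 0 (qW p π) w0 x + ε)))
    (pdn : ∀ v1 : ℝ, 0 < v1 → v1 < 1 → ∃ δ : ℝ, 0 < δ ∧ ∀ x ∈ Leg monW R,
      |x 0 - pathW (thW p π) w0 v1 0| ≤ δ → |x 2 - pathW (thW p π) w0 v1 2| ≤ δ →
      |x 3 - pathW (thW p π) w0 v1 3| ≤ δ → |x 17 - pathW (thW p π) w0 v1 17| ≤ δ →
      x 17 ≤ 9 * w0 + max 0 (1 - thW p π 0) → x ∈ PD)
    (gmax : ∀ x ∈ PD,
      GeoN778.GmAt D.B D.I kp uz uc un F (N0Q D.A D.vm) (DW p.g 0 (qW p π) w0) x)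
    (pdc : ∀ x ∈ PD, ∀ y ∈ Leg monW R, y 0 = x 0 → y 2 = x 2 → y 3 = x 3 → y 17 = x 17 → y ∈ PD)
    (pdr : ∀ x ∈ PD, x 17 ≤ 9 * w0 + max 0 (1 - thW p π 0)) :
    ThinPre η p D π kp uz uc un F (VW kp hκ D.B D.I F sc)
      (TW kp hκ (thW p π) D.B D.I D.lev F sc C0) w0 R T0 PD where
  ok := ok
  pi0 := pi0
  th1 := th1
  th2 := th2
  q1 := q1
  q2 := q2
  slots := h.slotsW
  big := big
  kp1 := hκ
  kp0 := kp0
  uz0 := h.unit.z0
  uc0 := h.unit.c0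
  un0 := h.unit.n0
  pre := by
    have hE : EQ p.θ p.g 0 p.q w0 R = EQ (thW p π) p.g 0 (qW p π) w0 R := by
      funext v
      rw [← DW_path_EQ p.θ p.g 0 p.q w0 R v π pi0 th2, EQ_eq]
      exact DW_path _ _ _ _ _ _ th2
    rw [← hE]
    exact h.preW big (fun n i J t _ => rfl) PDne PDleg gD
  pdn := pdn
  gmax := gmax
  pdc := pdc
  pdr := pdr

end

end Crest.Agent.R136.PrW464
end

-- ▼ part R136/PrW7_464
section

/-!
# R136, wrapper `J2 → PreQ` for the W-chart (helper464), part 7: the end of the thin branch of U6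

* `Zm D H mm D'` : `D'` is the data `D` zoomed to the levels `mm n [0,1]` (length `H n`);
* `GDmax` : D-max in the chart (778);
* **`thin_end`** : first thin window (`ThinG`, 650; tilt of the flags, 327) + D-max on every final
  window ⊢ `ThinPre`.
-/

set_option autoImplicit false
set_option linter.unusedVariables false

open Finset Filter Topology

namespace Crest.Agent.R136.PrW464

open Crest.Agent.R138
open Crest.Agent.R138.Ex926 (Base U QProf)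
open Crest.Agent.R138.Dp76 (dpow_pos dpow_add dpow_le dpow_le_one)
open Crest.Agent.R138.Mk163 (zc zl rho alive own)
open Crest.Agent.R138.MkRef627 (lc kc)
open Crest.Agent.R136.MkA627
open Crest.Agent.R136.Net191
open Crest.Agent.R136.NetW191
open Crest.Agent.R136.Sh605
open Crest.Agent.R136.TD627
open Crest.Agent.R136.Top484
open Crest.Agent.R136.NatT550 (ParOk)
open Crest.Agent.R136.NatW697 (thW qW SlotOkW ThinPre)
open Crest.Agent.R136.Wq638 (capQ EQ EQ_eq N0Q vm_eq gH_Q)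
open Crest.Agent.R136.GW650 (prG)
open Crest.Agent.R136.Fw650 (ThinG TiltG FlagsW flags_of flW hW rhN)

/-- **`D'` is the zoom of `D`** to the levels `mm n [0,1]` of length `H n`. -/
structure Zm (D : Dat4) (H : ℕ → ℝ) (mm : ℕ → ℚ → ℚ) (D' : Dat4) : Prop where
  H01 : ∀ n, 0 < H n ∧ H n ≤ 1
  mm01 : ∀ n, ∀ x : ℚ, 0 ≤ x → x ≤ 1 → 0 ≤ mm n x ∧ mm n x ≤ 1
  mml : ∀ n, ∀ x y : ℚ, (mm n y : ℝ) - mm n x = H n * ((y : ℝ) - x)
  d : ∀ n, D'.B.d n = D.B.d n ^ H n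
  I : ∀ᶠ n in (U : Filter ℕ), D'.I n ⊆ D.I n
  L : D'.L = D.L
  r0 : D'.r0 = D.r0
  wr : D'.wr = D.wr
  cr : D'.cr = D.cr
  lev : D'.lev = fun n x => D.lev n (mm n x)
  f : D'.f = fun n x => D.f n (mm n x)
  b : D'.b = fun n x => D.b n (mm n x)
  vm : D'.vm = fun n x => D.vm n (mm n x)
  w : D'.w = fun j n x => D.w j n (mm n x)

/-- losses of the carried properties -/
theorem Zm.pow {D D' : Dat4} {H : ℕ → ℝ} {mm : ℕ → ℚ → ℚ} (h : Zm D H mm D') (n : ℕ) (e : ℝ) :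
    D.B.d n ^ (H n * e) = D'.B.d n ^ e := by
  rw [h.d, ← Real.rpow_mul (D.B.pos n).le]

open Classical in
/-- **D-max in the W-chart** -/
structure GDmax (p : Par4) (D : Dat4) (π : Equiv.Perm (Fin 3)) (kp uz uc un : ℕ → ℝ)
    (F : ℕ → ℕ × ℝ → FW) (w0 R : ℝ) (PD : Set (Fin 18 → ℝ)) : Prop where
  ne : PD.Nonempty
  leg : PD ⊆ Leg monW R
  gD : ∀ x ∈ PD, ∀ K : ℝ, 1 ≤ K → ∀ ε : ℝ, 0 < ε → ∀ᶠ n in (U : Filter ℕ), ∀ i ∈ D.I n,
      (((D.I n).filter fun j => Near (couW kp uz uc un F n) (D.B.d n) x K i j).card : ℝ) ≤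
        N0Q D.A D.vm n * D.B.d n ^ (-(DW p.g 0 (qW p π) w0 x + ε))
  pdn : ∀ v1 : ℝ, 0 < v1 → v1 < 1 → ∃ δ : ℝ, 0 < δ ∧ ∀ x ∈ Leg monW R,
      |x 0 - pathW (thW p π) w0 v1 0| ≤ δ → |x 2 - pathW (thW p π) w0 v1 2| ≤ δ →
      |x 3 - pathW (thW p π) w0 v1 3| ≤ δ → |x 17 - pathW (thW p π) w0 v1 17| ≤ δ →
    x 17 ≤ 9 * w0 + max 0 (1 - thW p π 0) → x ∈ PD
  /-- all gauges -/
  gmax : ∀ x ∈ PD, GeoN778.GmAt D.B D.I kp uz uc un F (N0Q D.A D.vm) (DW p.g 0 (qW p π) w0) x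
  pdc : ∀ x ∈ PD, ∀ y ∈ Leg monW R, y 0 = x 0 → y 2 = x 2 → y 3 = x 3 → y 17 = x 17 → y ∈ PD
  pdr : ∀ x ∈ PD, x 17 ≤ 9 * w0 + max 0 (1 - thW p π 0)

/-- one more carried property -/
theorem carryH_cons {Q : ℕ → ℕ → ℚ → ℝ → Prop} (hQ : CarryH Q) {P : ℕ → ℚ → ℝ → Prop}
    (h1 : ∀ n v δ δ', δ ≤ δ' → P n v δ → P n v δ')
    (h2 : ∀ v : ℚ, 0 ≤ v → v ≤ 1 → ∀ δ : ℝ, 0 < δ → ∀ᶠ n in (U : Filter ℕ), P n v δ) :
    CarryH fun i n v δ => Nat.casesOn i (P n v δ) fun j => Q j n v δ := by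
  refine ⟨?_, ?_⟩
  · intro i n v δ δ' hd
    rcases i with _ | i
    · exact h1 n v δ δ' hd
    · exact hQ.1 i n v δ δ' hd
  · intro i
    rcases i with _ | i
    · exact h2
    · exact hQ.2 i

section

variable {η : ℝ} {p : Par4} {D : Dat4} {π : Equiv.Perm (Fin 3)}
    {kp sg hz zs : ℕ → ℝ} {L : ℕ → ℕ → Ln4} {wA wB a : ℕ → ℚ → ℝ}
    {Mk : ℚ → ℕ → ℕ × ℤ → Fin 14 → ℝ} {E : ℚ → ℕ → ℕ × ℤ → ℝ} {w0 R T0 : ℝ}
    {Qx : ℕ → ℕ → ℚ → ℝ → Prop}

theorem grW_eq_btW (ϑ : Fin 3 → ℝ) : grW 1 (-ϑ 1) (1 - ϑ 0) = btW ϑ := by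
  funext k
  unfold btW
  rfl

/-- **end of the thin branch of U6.** -/
theorem thin_end
    (hM : MkA D.B D.I (D.G p) D.lev D.A (fun v => p.g * v) (fun v => 0 * v)
      (fun j v => p.θ j * (1 - v)) D.f D.b D.vm D.w)
    (hT : ThinG D.B D.I D.lev D.f kp sg hz zs L wA wB a Mk E)
    (hA : GW650.Lin D.B wA (1 + -thW p π 1)) (ha : GW650.Lin D.B a (1 - thW p π 0)) {C : ℝ}
    (hC : 0 ≤ C)
    (tilt : TiltG D.B D.I (hW kp hz zs L D.lev D.f Mk) (prG (rhN D.lev hz) wA a) C)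
    (ok : ParOk η p) (pi0 : π 0 = 0) (th1 : 0 < thW p π 1) (th2 : thW p π 2 = 2 * thW p π 1)
    (q1 : 0 < qW p π 1) (q2 : 0 < qW p π 2) (big : BigW (thW p π) w0 R T0)
    (kp0 : ∀ ε : ℝ, 0 < ε → ∀ᶠ n in (U : Filter ℕ), D.B.d n ^ ε ≤ |kp n|)
    (hQ : CarryH Qx)
    (hD : ∀ (H : ℕ → ℝ) (mm : ℕ → ℚ → ℚ) (D' : Dat4) (sc' : Fin 18 → ℕ → ℝ) (uz uc un : ℕ → ℝ),
      Zm D H mm D' → CarryH (fun i n v δ => Qx i n (mm n v) (H n * δ)) →
      (∀ᶠ n in (U : Filter ℕ), uz n = D'.B.d n ^ w0 / (hz n * rho (D.lev n (mm n 0))) ∧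
        uc n = D'.B.d n ^ w0 / (wA n (mm n 0) / (hz n * rho (D.lev n (mm n 0)))) ∧
        un n = D'.B.d n ^ (9 * w0) / a n (mm n 0) ∧ 0 < wA n (mm n 0) ∧ 0 < a n (mm n 0)) →
      WSys (D'.G p) p.g 0 p.θ (thW p π) D.B D'.B D'.I D'.lev D'.A D'.f D'.b D'.vm D'.w kp sg hz zs
        hT.kp1 L (flW kp sg hz zs L D.lev D.f Mk (-thW p π 1) (1 - thW p π 0))
        (fun n x => GW650.frW D.lev D.f Mk
          (flW kp sg hz zs L D.lev D.f Mk (-thW p π 1) (1 - thW p π 0)) n (mm n x))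
        (fun j n x => prG (rhN D.lev hz) wA a j n (mm n x)) sc' uz uc un w0
        (fun k => |btW (thW p π) k| + 1) →
      ∃ PD, GDmax p D' π kp uz uc un
        (flW kp sg hz zs L D.lev D.f Mk (-thW p π 1) (1 - thW p π 0)) w0 R PD) :
    ∃ (D' : Dat4) (uz uc un : ℕ → ℝ) (F : ℕ → ℕ × ℝ → FW) (V T : Fin 18 → Prop)
      (PD : Set (Fin 18 → ℝ)), ThinPre η p D' π kp uz uc un F V T w0 R T0 PD := by
  obtain ⟨J, hJ, hJd, hJM, hJT, hF⟩ := flags_of hT hM (θ := p.θ) (g := p.g) (s := 0) hC hA ha tilt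
  have hsys := hF.sys
  rw [grW_eq_btW] at hsys
  have halt := hF.alt
  rw [grW_eq_btW] at halt
  obtain ⟨C1, hC1⟩ := hF.low
  have hpos : ∀ᶠ n in (U : Filter ℕ), ∀ k, 0 < prG (rhN D.lev hz) wA a k n 0 := by
    filter_upwards [hA.1 0 le_rfl zero_le_one, ha.1 0 le_rfl zero_le_one] with n h1 h2 k
    have hr : 0 < rhN D.lev hz n 0 :=
      mul_pos (hT.hz0 n) (Crest.Agent.R136.ArgA163.rho_pos _)
    exact unW_pos hr (div_pos h1 hr) h2 k
  have hlow : ∃ C : ℝ, ∀ᶠ n in (U : Filter ℕ), ∀ k,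
      D.B.d n ^ C ≤ prG (rhN D.lev hz) wA a k n 0 := by
    refine ⟨C1, ?_⟩
    filter_upwards [hC1, hpos] with n h1 h2 k
    have h3 := h1 k
    rwa [ps_eq (h2 k)] at h3
  have hQ' : CarryH fun i n v δ => Nat.casesOn i (D.B.d n ^ δ ≤ |kp n|) fun j => Qx j n v δ :=
    carryH_cons hQ (P := fun n _ δ => D.B.d n ^ δ ≤ |kp n|)
      (fun n v δ δ' h1 h2 => (dpow_le D.B n h1).trans h2) (fun v h0 h1 δ hδ => kp0 δ hδ)
  obtain ⟨H, mm, B', I', A', sc', uz, uc, un, H01, mm01, mml, hd, hI, hQ2, hu, hW⟩ :=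
    exists_wsys hF.wd hsys (fun n v => rfl) (fun u h0 h1 ε hε => hF.marks.cls h0 h1 hε)
      (fun u h0 h1 => (hA.1 u h0 h1).and (ha.1 u h0 h1)) halt hlow hQ' w0
  set D' : Dat4 := ⟨B', I', D.L, D.r0, D.wr, D.cr, fun n x => D.lev n (mm n x), A',
    fun n x => D.f n (mm n x),
    fun n x => D.b n (mm n x), fun n x => D.vm n (mm n x), fun j n x => D.w j n (mm n x)⟩ with hD'
  have hZ : Zm D H mm D' := ⟨H01, mm01, mml, hd, by
    filter_upwards [hI] with n hn using hn.trans (hJ n), rfl, rfl, rfl, rfl, rfl, rfl, rfl, rfl,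
      rfl⟩
  have hQ3 : CarryH (fun i n v δ => Qx i n (mm n v) (H n * δ)) :=
    ⟨fun i n v δ δ' h1 h2 => hQ2.1 (i + 1) n v δ δ' h1 h2, fun i v h0 h1 δ hδ =>
      hQ2.2 (i + 1) v h0 h1 δ hδ⟩
  obtain ⟨PD, hPD⟩ := hD H mm D' sc' uz uc un hZ hQ3 hu hW
  refine ⟨D', uz, uc, un, _, _, _, PD, thinPre_of hW ok pi0 th1 th2 q1 q2 big ?_ hPD.ne hPD.leg
    hPD.gD hPD.pdn hPD.gmax hPD.pdc hPD.pdr⟩
  intro ε hε
  filter_upwards [hQ2.2 0 0 le_rfl zero_le_one ε hε] with n hn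
  rw [← hZ.pow]
  exact hn

end

end Crest.Agent.R136.PrW464
end

-- ▼ part R136/GDW4_778
section

/-!
# R136, [GEO-D] for the W-chart, sizes of one stage (helper778)

`Pol` : sequences between two powers of the first base.  `SzW` : the sizes of a box with exponents
`p` in the units of the chart satisfy the hypotheses of `numW_of`.
-/

set_option autoImplicit false
set_option linter.unusedVariables false
set_option maxHeartbeats 400000

open Finset Filter Topology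

namespace Crest.Agent.R136.GeoN778

open Crest.Agent.R138
open Crest.Agent.R138.Ex926 (Base U)
open Crest.Agent.R138.Dp76 (dpow_pos dpow_add dpow_le dpow_le_one)
open Crest.Agent.R138.Mk163 (zc zl rho alive)
open Crest.Agent.R136.Net191
open Crest.Agent.R136.NetW191
open Crest.Agent.R136.Sh605
open Crest.Agent.R136.PrW464 (unW unW_pos)
open Crest.Agent.R136.ArgA163 (rho_pos)

/-! ### polynomial sequences -/

/-- between two powers of the base -/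
def Pol (B : Base) (x : ℕ → ℝ) : Prop :=
  ∃ C : ℝ, 0 ≤ C ∧ ∀ᶠ n in (U : Filter ℕ), B.d n ^ C ≤ x n ∧ x n ≤ B.d n ^ (-C)

namespace Pol

variable {B : Base} {x y : ℕ → ℝ}

theorem mul (hx : Pol B x) (hy : Pol B y) : Pol B fun n => x n * y n := by
  obtain ⟨C, hC, h⟩ := hx
  obtain ⟨D, hD, k⟩ := hy
  refine ⟨C + D, by positivity, ?_⟩
  filter_upwards [h, k] with n h k
  have p1 := dpow_pos B n C
  have p2 := dpow_pos B n D
  constructor
  · rw [dpow_add]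
    exact mul_le_mul h.1 k.1 p2.le (p1.le.trans h.1)
  · rw [neg_add, dpow_add]
    exact mul_le_mul h.2 k.2 (p2.le.trans k.1) (dpow_pos B n _).le

theorem inv (hx : Pol B x) : Pol B fun n => (x n)⁻¹ := by
  obtain ⟨C, hC, h⟩ := hx
  refine ⟨C, hC, ?_⟩
  filter_upwards [h] with n h
  have p1 := dpow_pos B n C
  have hx0 : 0 < x n := lt_of_lt_of_le p1 h.1
  have e1 : B.d n ^ C = (B.d n ^ (-C))⁻¹ := by rw [Real.rpow_neg (B.pos n).le, inv_inv]
  have e2 : B.d n ^ (-C) = (B.d n ^ C)⁻¹ := Real.rpow_neg (B.pos n).le _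
  constructor
  · rw [e1]
    exact inv_anti₀ hx0 h.2
  · rw [e2]
    exact inv_anti₀ p1 h.1

theorem div (hx : Pol B x) (hy : Pol B y) : Pol B fun n => x n / y n := by
  simp only [div_eq_mul_inv]
  exact hx.mul hy.inv

theorem dpow {B' : Base} (hB : ∀ n, B.d n ≤ B'.d n) (a : ℝ) : Pol B fun n => B'.d n ^ a := by
  have main : ∀ a : ℝ, 0 ≤ a → Pol B fun n => B'.d n ^ a := fun a ha => by
    refine ⟨a, ha, Filter.Eventually.of_forall fun n => ⟨?_, ?_⟩⟩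
    · exact Real.rpow_le_rpow (B.pos n).le (hB n) ha
    · have h1 := dpow_le_one B' n ha
      have h2 : 1 ≤ B.d n ^ (-a) := by
        have := dpow_le B n (show -a ≤ 0 by linarith)
        rwa [Real.rpow_zero] at this
      exact h1.trans h2
  rcases le_total 0 a with h | h
  · exact main a h
  · have h1 := (main (-a) (by linarith)).inv
    have e : (fun n => (B'.d n ^ (-a))⁻¹) = fun n => B'.d n ^ a := by
      funext n
      rw [Real.rpow_neg (B'.pos n).le, inv_inv]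
    rwa [e] at h1

theorem of_le {C D : ℝ} (h : ∀ᶠ n in (U : Filter ℕ), B.d n ^ C ≤ x n ∧ x n ≤ B.d n ^ D) :
    Pol B x := by
  refine ⟨|C| + |D|, by positivity, ?_⟩
  filter_upwards [h] with n hn
  refine ⟨(dpow_le B n ?_).trans hn.1, hn.2.trans (dpow_le B n ?_)⟩
  · linarith [le_abs_self C, abs_nonneg D]
  · linarith [neg_abs_le D, abs_nonneg C]

/-- one large number for all -/
theorem big (hx : Pol B x) : ∃ C : ℝ, 0 ≤ C ∧ ∀ C' : ℝ, C ≤ C' → ∀ᶠ n in (U : Filter ℕ),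
    1 ≤ x n * B.d n ^ (-C') ∧ x n ≤ B.d n ^ (-C') := by
  obtain ⟨C, hC, h⟩ := hx
  refine ⟨C, hC, fun C' hC' => ?_⟩
  filter_upwards [h] with n hn
  refine ⟨?_, hn.2.trans (dpow_le B n (by linarith))⟩
  have h1 : B.d n ^ C' ≤ x n := (dpow_le B n hC').trans hn.1
  have h2 := mul_le_mul_of_nonneg_right h1 (dpow_pos B n (-C')).le
  rwa [← dpow_add, add_neg_cancel, Real.rpow_zero] at h2

end Pol

/-! ### the sizes -/

section sz

variable {d uz uc un w0 t T K : ℝ} {p : Fin 18 → ℝ}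

/-- the walls used -/
theorem wallsGD (h : Legal monW p) : p 2 ≤ p 0 + p 1 ∧ p 3 ≤ p 0 + 2 * p 1 ∧ p 17 ≤ p 0 + p 16 ∧
    p 17 ≤ 2 * p 0 + p 13 := by
  have h2 := (legal_ofLists.1 h).2
  have a1 := h2 2 [1, 0] (by decide)
  have a2 := h2 3 [1, 1, 0] (by decide)
  simp only [List.map_cons, List.map_nil, List.sum_cons, List.sum_nil] at a1 a2
  have a3 : p 17 ≤ p 0 + p 16 := by
    have : ([0, 16] : List (Fin 18)) ∈ mlW 17 ∨ ([16, 0] : List (Fin 18)) ∈ mlW 17 := by decide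
    rcases this with k | k
    · have := h2 17 _ k
      simp only [List.map_cons, List.map_nil, List.sum_cons, List.sum_nil] at this
      linarith
    · have := h2 17 _ k
      simp only [List.map_cons, List.map_nil, List.sum_cons, List.sum_nil] at this
      linarith
  have a4 : p 16 ≤ p 0 + p 13 := by
    have : ([0, 13] : List (Fin 18)) ∈ mlW 16 ∨ ([13, 0] : List (Fin 18)) ∈ mlW 16 := by decide
    rcases this with k | k
    · have := h2 16 _ k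
      simp only [List.map_cons, List.map_nil, List.sum_cons, List.sum_nil] at this
      linarith
    · have := h2 16 _ k
      simp only [List.map_cons, List.map_nil, List.sum_cons, List.sum_nil] at this
      linarith
  refine ⟨by linarith, by linarith, a3, by linarith⟩

/-- units of the slots used -/
theorem unW_vals (hz : 0 < uz) (hc : 0 < uc) (hn : 0 < un) : unW uz uc un 0 = uz ∧
    unW uz uc un 1 = uc ∧ unW uz uc un 2 = uz * uc ∧ unW uz uc un 3 = uz * uc ^ 2 ∧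
    unW uz uc un 17 = un ∧ unW uz uc un 16 = un / uz ∧ unW uz uc un 13 = un / uz ^ 2 := by
  have h1 := hz.ne'
  refine ⟨?_, ?_, ?_, ?_, ?_, ?_, ?_⟩
  · simp [unW, PrW464.wz, PrW464.wc, PrW464.wn]
  · simp [unW, PrW464.wz, PrW464.wc, PrW464.wn]
  · simp [unW, PrW464.wz, PrW464.wc, PrW464.wn]
  · simp [unW, PrW464.wz, PrW464.wc, PrW464.wn]
  · simp [unW, PrW464.wz, PrW464.wc, PrW464.wn]
  · simp [unW, PrW464.wz, PrW464.wc, PrW464.wn]
    field_simp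
  · simp only [unW, PrW464.wz, PrW464.wc, PrW464.wn, Matrix.cons_val, zpow_zero, zpow_one, mul_one]
    rw [zpow_neg]
    norm_cast
    field_simp

/-- sizes of the coordinates in a box -/
noncomputable def sW (d uz uc un K : ℝ) (p : Fin 18 → ℝ) (k : Fin 18) : ℝ :=
  K * d ^ p k / unW uz uc un k
/-- length of the cell -/
noncomputable def PW (d uz T : ℝ) (p : Fin 18 → ℝ) : ℝ := d ^ (p 0 - T) / uz
/-- size of `A` -/
noncomputable def b2W (d uz uc T : ℝ) (p : Fin 18 → ℝ) : ℝ := d ^ (p 2 - 2 * T) / (uz * uc)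
/-- size of `B` -/
noncomputable def b3W (d uz uc T : ℝ) (p : Fin 18 → ℝ) : ℝ := d ^ (p 3 - 2 * T) / (uz * uc ^ 2)
/-- size of the last slot -/
noncomputable def nW (d un T : ℝ) (p : Fin 18 → ℝ) : ℝ := d ^ (p 17 - 2 * T) / un

/-- the inequalities between the sizes -/
structure SzW (s : Fin 18 → ℝ) (K Z P b2 b3 n17 : ℝ) : Prop where
  s1 : 0 ≤ s 1
  hs0 : s 0 ≤ K * (P * Z)
  hs2 : s 2 ≤ K * b2
  hs1 : P * s 1 ≤ K * b2
  hs3 : s 3 ≤ K * b3
  hs1' : P * s 1 ^ 2 ≤ K ^ 2 * b3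
  hs17 : s 17 ≤ K * n17
  hs16 : P * s 16 ≤ K * n17
  hs13 : P ^ 2 * s 13 ≤ K * n17
  PZ : P * Z ^ 3 ≤ 1
  g1 : b2 ^ 2 * Z ^ 12 ≤ b3

theorem dq {a b c e : ℝ} (hd : 0 < d) (hd1 : d < 1) (hc : 0 < c) (h : b ≤ a) (he : e = c) :
    d ^ a / e ≤ d ^ b / c := by
  rw [he]
  exact div_le_div_of_nonneg_right (Real.rpow_le_rpow_of_exponent_ge hd hd1.le h) hc.le

/-- **the sizes of a legal box** -/
theorem szW_of (hd : 0 < d) (hd1 : d < 1) (hz : 0 < uz) (hc : 0 < uc) (hn : 0 < un)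
    (hK : 1 ≤ K) (hp : Legal monW p) (hT : 0 ≤ T) (ht : 0 < t) (hu : w0 + 3 * t + T ≤ p 0)
    (hzc : d ^ w0 ≤ uz) (hγ : w0 + 2 * T + 12 * t ≤ 2 * p 2 - p 3) :
    SzW (sW d uz uc un K p) K (d ^ (-t)) (PW d uz T p) (b2W d uz uc T p) (b3W d uz uc T p)
      (nW d un T p) := by
  obtain ⟨w2, w3, w16, w13⟩ := wallsGD hp
  obtain ⟨u0, u1, u2, u3, u17, u16, u13⟩ := unW_vals hz hc hn
  have hK0 : 0 < K := by linarith
  have dp := fun a => Real.rpow_pos_of_pos hd a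
  have add : ∀ a b : ℝ, d ^ a * d ^ b = d ^ (a + b) := fun a b => (Real.rpow_add hd a b).symm
  have dle : ∀ {a b : ℝ}, a ≤ b → d ^ b ≤ d ^ a := fun h =>
    Real.rpow_le_rpow_of_exponent_ge hd hd1.le h
  have pw : ∀ (a : ℝ) (m : ℕ), (d ^ a) ^ m = d ^ (a * m) := fun a m => by
    rw [← Real.rpow_natCast, ← Real.rpow_mul hd.le]
  refine ⟨?_, ?_, ?_, ?_, ?_, ?_, ?_, ?_, ?_, ?_, ?_⟩
  · unfold sW
    have := dp (p 1)
    rw [u1]; positivity
  · unfold sW PW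
    rw [u0]
    have e : K * (d ^ (p 0 - T) / uz * d ^ (-t)) = K * d ^ (p 0 - T + -t) / uz := by
      rw [← add]; ring
    rw [e]
    exact div_le_div_of_nonneg_right (mul_le_mul_of_nonneg_left (dle (by linarith)) hK0.le) hz.le
  · unfold sW b2W
    rw [u2, ← mul_div_assoc]
    exact div_le_div_of_nonneg_right (mul_le_mul_of_nonneg_left (dle (by linarith)) hK0.le)
      (by positivity)
  · unfold sW PW b2W
    rw [u1]
    have e : d ^ (p 0 - T) / uz * (K * d ^ p 1 / uc) = K * (d ^ (p 0 - T + p 1) / (uz * uc)) := by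
      rw [← add]; field_simp
    rw [e]
    exact mul_le_mul_of_nonneg_left (dq hd hd1 (by positivity) (by linarith) rfl) hK0.le
  · unfold sW b3W
    rw [u3, ← mul_div_assoc]
    exact div_le_div_of_nonneg_right (mul_le_mul_of_nonneg_left (dle (by linarith)) hK0.le)
      (by positivity)
  · unfold sW PW b3W
    rw [u1]
    have e : d ^ (p 0 - T) / uz * (K * d ^ p 1 / uc) ^ 2 =
        K ^ 2 * (d ^ (p 0 - T + (p 1 + p 1)) / (uz * uc ^ 2)) := by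
      rw [← add, ← add]; field_simp
    rw [e]
    exact mul_le_mul_of_nonneg_left (dq hd hd1 (by positivity) (by linarith) rfl) (by positivity)
  · unfold sW nW
    rw [u17, ← mul_div_assoc]
    exact div_le_div_of_nonneg_right (mul_le_mul_of_nonneg_left (dle (by linarith)) hK0.le) hn.le
  · unfold sW PW nW
    rw [u16]
    have e : d ^ (p 0 - T) / uz * (K * d ^ p 16 / (un / uz)) =
        K * (d ^ (p 0 - T + p 16) / un) := by
      rw [← add]; field_simp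
    rw [e]
    exact mul_le_mul_of_nonneg_left (dq hd hd1 hn (by linarith) rfl) hK0.le
  · unfold sW PW nW
    rw [u13]
    have e : (d ^ (p 0 - T) / uz) ^ 2 * (K * d ^ p 13 / (un / uz ^ 2)) =
        K * (d ^ (p 0 - T + (p 0 - T) + p 13) / un) := by
      rw [← add, ← add]; field_simp
    rw [e]
    exact mul_le_mul_of_nonneg_left (dq hd hd1 hn (by linarith) rfl) hK0.le
  · unfold PW
    rw [pw, div_mul_eq_mul_div, div_le_one hz, add]
    refine le_trans (dle ?_) hzc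
    push_cast
    linarith
  · unfold b2W b3W
    rw [pw, div_pow, div_mul_eq_mul_div, pw, add, div_le_div_iff₀ (by positivity) (by positivity)]
    have h1 : d ^ ((p 2 - 2 * T) * (2 : ℕ) + -t * (12 : ℕ)) ≤ d ^ (p 3 - 2 * T) * uz := by
      have h2 : d ^ (p 3 - 2 * T) * d ^ w0 ≤ d ^ (p 3 - 2 * T) * uz :=
        mul_le_mul_of_nonneg_left hzc (dp _).le
      refine le_trans ?_ h2
      rw [add]
      refine dle ?_
      push_cast
      linarith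
    have h3 := mul_le_mul_of_nonneg_right h1 (show 0 ≤ uz * uc ^ 2 by positivity)
    calc _ ≤ _ := h3
      _ = _ := by ring

end sz

/-- **the sizes are polynomial in the first base** -/
theorem pol_sizes {B0 B : Base} {I : ℕ → Finset (ℕ × ℝ)} {lev : ℕ → ℚ → ℕ}
    {w : Fin 3 → ℕ → ℚ → ℝ} {kp sg hz : ℕ → ℝ} {F : ℕ → ℕ × ℝ → FW} {u : ℕ → Un}
    {uz uc un : ℕ → ℝ} {w0 : ℝ} (h : WLev B0 B I lev w kp sg hz F u uz uc un w0)
    (p : Fin 18 → ℝ) (T : ℝ) :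
    Pol B0 (fun n => PW (B.d n) (uz n) T p) ∧ Pol B0 (fun n => b2W (B.d n) (uz n) (uc n) T p) ∧
      Pol B0 (fun n => b3W (B.d n) (uz n) (uc n) T p) ∧ Pol B0 fun n => nW (B.d n) (un n) T p := by
  obtain ⟨C1, h1⟩ := h.low
  obtain ⟨C2, h2⟩ := h.top
  have pd := fun a => Pol.dpow (B := B0) h.base a
  have puz : Pol B0 uz := by
    obtain ⟨C, hC, hw⟩ := pd w0
    refine Pol.of_le (C := C) (D := -C1) ?_
    filter_upwards [hw, h.zc, h1] with n a1 a2 a3 using ⟨a1.1.trans a2, a3.1⟩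
  have pzc : Pol B0 fun n => uz n * uc n := by
    refine Pol.of_le (C := C2) (D := -C1 + -C1) ?_
    filter_upwards [h1, h2] with n a1 a2
    refine ⟨a2.1, ?_⟩
    rw [dpow_add]
    exact mul_le_mul a1.1 a1.2.1 (h.c0 n).le (dpow_pos B0 n _).le
  have pun : Pol B0 un := by
    refine Pol.of_le (C := C2) (D := -C1) ?_
    filter_upwards [h1, h2] with n a1 a2 using ⟨a2.2, a1.2.2⟩
  refine ⟨(pd _).div puz, (pd _).div pzc, ?_, (pd _).div pun⟩
  have h3 := (pd (p 3 - 2 * T)).div ((pzc.mul pzc).div puz)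
  have e : (fun n => B.d n ^ (p 3 - 2 * T) / (uz n * uc n * (uz n * uc n) / uz n)) =
      fun n => b3W (B.d n) (uz n) (uc n) T p := by
    funext n
    unfold b3W
    have := (h.z0 n).ne'
    congr 1
    field_simp
  rwa [e] at h3

end Crest.Agent.R136.GeoN778
end

-- ▼ part R136/GDW5_778
section

/-!
# R136, [GEO-D] for the W-chart, sequence form (helper778)

* `phys_*` : the physical sizes of the test sheet against the widths of the mark of level `0`;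
* `ev_stW` : the facts `StW` about one stage from `WData`, `WCon`, `WLev`;
* `boxIn_W` : 464's `BoxIn` for the W-chart in graded units.
-/

set_option autoImplicit false
set_option linter.unusedVariables false
set_option maxHeartbeats 400000

open Finset Filter Topology

namespace Crest.Agent.R136.GeoN778

open Crest.Agent.R138
open Crest.Agent.R138.Ex926 (Base U)
open Crest.Agent.R138.Dp76 (dpow_pos dpow_add dpow_le dpow_le_one)
open Crest.Agent.R138.Mk163 (zc zl rho alive)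
open Crest.Agent.R136.MkA627
open Crest.Agent.R136.Net191
open Crest.Agent.R136.NetW191
open Crest.Agent.R136.Sh605
open Crest.Agent.R136.GeoW778 (qS TrueW dB DW EW)
open Crest.Agent.R136.Wq638 (capQ N0Q)
open Crest.Agent.R136.PrW464 (WData unW unW_pos couW)
open Crest.Agent.R136.PqG464 (BoxIn gD_of pow_lev ev_const)
open Crest.Agent.R136.GeoQ186 (H_lo H_hi const_le exists_level val_bd Vn mem_cell)
open Crest.Agent.R136.ArgA163 (rho_pos)

/-! ### comparison of sizes, one stage -/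

section phys

variable {d : ℝ}

theorem Cmp.le1 {ε x y : ℝ} (hd : 0 < d) (h : Cmp (d ^ ε) x y) : y ≤ d ^ (-ε) * x := by
  have hp := Real.rpow_pos_of_pos hd (-ε)
  have h1 := mul_le_mul_of_nonneg_left h.1 hp.le
  rwa [← mul_assoc, ← Real.rpow_add hd, neg_add_cancel, Real.rpow_zero, one_mul] at h1

theorem Cmp.le2 {ε x y : ℝ} (hd : 0 < d) (h : Cmp (d ^ ε) x y) : x ≤ d ^ (-ε) * y :=
  Cmp.le1 hd (⟨h.2, h.1⟩ : Cmp (d ^ ε) y x)

variable {uz uc un w0 t T W σ : ℝ} {p : Fin 18 → ℝ}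

/-- physical size of `A` -/
theorem physA (hd : 0 < d) (hz : 0 < uz) (hc : 0 < uc) (m : ℕ) :
    W * (b2W d uz uc T p * (d ^ (-t)) ^ m) =
      W * (d ^ (2 * w0) / (uz * uc)) * d ^ (p 2 - 2 * w0 - 2 * T - m * t) := by
  unfold b2W
  have e1 : (d ^ (-t)) ^ m = d ^ (-(m * t)) := by
    rw [← Real.rpow_natCast, ← Real.rpow_mul hd.le]; congr 1; ring
  have e2 : p 2 - 2 * w0 - 2 * T - m * t = (p 2 - 2 * T) + (-(2 * w0)) + (-(m * t)) := by ring
  have e3 : d ^ (2 * w0) * d ^ (-(2 * w0)) = 1 := by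
    rw [← Real.rpow_add hd, add_neg_cancel, Real.rpow_zero]
  rw [e1, e2, Real.rpow_add hd, Real.rpow_add hd]
  calc _ = W * (d ^ (p 2 - 2 * T) / (uz * uc) * d ^ (-(m * t))) *
        (d ^ (2 * w0) * d ^ (-(2 * w0))) := by rw [e3, mul_one]
    _ = _ := by ring

/-- physical size of `B` -/
theorem physB (hd : 0 < d) (hz : 0 < uz) (hc : 0 < uc) (m : ℕ) :
    W * (b3W d uz uc T p * (d ^ (-t)) ^ m) =
      W * (d ^ (3 * w0) / (uz * uc ^ 2)) * d ^ (p 3 - 3 * w0 - 2 * T - m * t) := by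
  unfold b3W
  have e1 : (d ^ (-t)) ^ m = d ^ (-(m * t)) := by
    rw [← Real.rpow_natCast, ← Real.rpow_mul hd.le]; congr 1; ring
  have e2 : p 3 - 3 * w0 - 2 * T - m * t = (p 3 - 2 * T) + (-(3 * w0)) + (-(m * t)) := by ring
  have e3 : d ^ (3 * w0) * d ^ (-(3 * w0)) = 1 := by
    rw [← Real.rpow_add hd, add_neg_cancel, Real.rpow_zero]
  rw [e1, e2, Real.rpow_add hd, Real.rpow_add hd]
  calc _ = W * (d ^ (p 3 - 2 * T) / (uz * uc ^ 2) * d ^ (-(m * t))) *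
        (d ^ (3 * w0) * d ^ (-(3 * w0))) := by rw [e3, mul_one]
    _ = _ := by ring

/-- physical size of `Y` -/
theorem physY (hd : 0 < d) (hn : 0 < un) (m : ℕ) :
    W * (σ * nW d un T p * (d ^ (-t)) ^ m) =
      W * (σ * (d ^ (9 * w0) / un)) * d ^ (p 17 - 9 * w0 - 2 * T - m * t) := by
  unfold nW
  have e1 : (d ^ (-t)) ^ m = d ^ (-(m * t)) := by
    rw [← Real.rpow_natCast, ← Real.rpow_mul hd.le]; congr 1; ring
  have e2 : p 17 - 9 * w0 - 2 * T - m * t = (p 17 - 2 * T) + (-(9 * w0)) + (-(m * t)) := by ring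
  have e3 : d ^ (9 * w0) * d ^ (-(9 * w0)) = 1 := by
    rw [← Real.rpow_add hd, add_neg_cancel, Real.rpow_zero]
  rw [e1, e2, Real.rpow_add hd, Real.rpow_add hd]
  calc _ = W * (σ * (d ^ (p 17 - 2 * T) / un) * d ^ (-(m * t))) *
        (d ^ (9 * w0) * d ^ (-(9 * w0))) := by rw [e3, mul_one]
    _ = _ := by ring

/-- upper bound of a physical size -/
theorem phys_le (hd : 0 < d) (hd1 : d < 1) {A w ε x y : ℝ} (hw : 0 ≤ w)
    (h : Cmp (d ^ ε) w A) (hxy : y ≤ x - ε) : A * d ^ x ≤ w * d ^ y := by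
  have h1 := mul_le_mul_of_nonneg_right (h.le1 hd) (Real.rpow_pos_of_pos hd x).le
  refine h1.trans ?_
  have e : d ^ (-ε) * w * d ^ x = w * d ^ (x - ε) := by
    rw [sub_eq_add_neg, Real.rpow_add hd]; ring
  rw [e]
  exact mul_le_mul_of_nonneg_left (Real.rpow_le_rpow_of_exponent_ge hd hd1.le hxy) hw

/-- lower bound of a physical size -/
theorem phys_ge (hd : 0 < d) (hd1 : d < 1) {A w ε x y : ℝ} (hw : 0 ≤ w)
    (h : Cmp (d ^ ε) w A) (hxy : x + ε ≤ y) : w * d ^ y ≤ A * d ^ x := by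
  have h1 := mul_le_mul_of_nonneg_right h.2 (Real.rpow_pos_of_pos hd x).le
  refine le_trans ?_ h1
  have e : d ^ ε * w * d ^ x = w * d ^ (x + ε) := by
    rw [Real.rpow_add hd]; ring
  rw [e]
  exact mul_le_mul_of_nonneg_left (Real.rpow_le_rpow_of_exponent_ge hd hd1.le hxy) hw

/-- `g2` -/
theorem phys_g2 (hd : 0 < d) (hd1 : d < 1) {A B' wA wB x2 x3 : ℝ} (hA : 0 < A) (hwA : 0 ≤ wA)
    (hwB : 0 ≤ wB) (ht : 0 < t)
    (h1 : Cmp (d ^ (t / 3)) wA A) (h2 : Cmp (d ^ (t / 3)) wB B')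
    (hab : wB * d ^ x3 ≤ d ^ (-(t / 3)) * (wA * d ^ x2)) :
    B' * d ^ (x3 - 2 * T) ≤ d ^ (-t) * (A * d ^ (x2 - 2 * T)) := by
  have dp := fun a => Real.rpow_pos_of_pos hd a
  have s1 : B' * d ^ (x3 - 2 * T) ≤ wB * d ^ (x3 + (-(2 * T) - t / 3)) :=
    phys_le hd hd1 hwB h2 (by linarith)
  have s2 : wB * d ^ (x3 + (-(2 * T) - t / 3)) ≤
      d ^ (-(t / 3)) * (wA * d ^ x2) * d ^ (-(2 * T) - t / 3) := by
    rw [Real.rpow_add hd, ← mul_assoc]
    exact mul_le_mul_of_nonneg_right hab (dp _).le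
  have s3 : wA ≤ d ^ (-(t / 3)) * A := h1.le2 hd
  have e : d ^ (-(t / 3)) * (wA * d ^ x2) * d ^ (-(2 * T) - t / 3) =
      wA * d ^ (-(t / 3) + x2 + (-(2 * T) - t / 3)) := by
    rw [Real.rpow_add hd, Real.rpow_add hd]; ring
  rw [e] at s2
  have s4 := mul_le_mul_of_nonneg_right s3 (dp (-(t / 3) + x2 + (-(2 * T) - t / 3))).le
  refine (s1.trans s2).trans (s4.trans (le_of_eq ?_))
  have e2 : d ^ (-(t / 3)) * A * d ^ (-(t / 3) + x2 + (-(2 * T) - t / 3)) =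
      A * (d ^ (-(t / 3)) * d ^ (-(t / 3) + x2 + (-(2 * T) - t / 3))) := by ring
  have e3 : d ^ (-t) * (A * d ^ (x2 - 2 * T)) = A * (d ^ (-t) * d ^ (x2 - 2 * T)) := by ring
  rw [e2, e3, ← Real.rpow_add hd, ← Real.rpow_add hd]
  congr 2
  ring

end phys

/-! ### the penalised size -/

theorem capQ_mono {q : Fin 3 → ℝ} (hq : ∀ j, 0 ≤ q j) {ρ : ℝ} (hρ : 0 < ρ) {x y : Fin 3 → ℝ}
    (hx : ∀ k, 0 ≤ x k) (h : ∀ k, x k ≤ y k) : capQ q ρ x ≤ capQ q ρ y := by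
  have hy : ∀ k, 0 ≤ y k := fun k => (hx k).trans (h k)
  have r : ∀ k, (x k / ρ) ^ q k ≤ (y k / ρ) ^ q k := fun k =>
    Real.rpow_le_rpow (div_nonneg (hx k) hρ.le) (div_le_div_of_nonneg_right (h k) hρ.le) (hq k)
  have r0 : ∀ k, 0 ≤ (x k / ρ) ^ q k := fun k => Real.rpow_nonneg (div_nonneg (hx k) hρ.le) _
  have r1 : ∀ k, 0 ≤ (y k / ρ) ^ q k := fun k => Real.rpow_nonneg (div_nonneg (hy k) hρ.le) _
  unfold capQ
  refine mul_le_mul (mul_le_mul (mul_le_mul (h 0) (h 2) (hx 2) (hy 0)) (h 1) (hx 1)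
    (mul_nonneg (hy 0) (hy 2))) (mul_le_mul (mul_le_mul (r 0) (r 1) (r0 1) (r1 0)) (r 2) (r0 2)
    (mul_nonneg (r1 0) (r1 1))) (mul_nonneg (mul_nonneg (r0 0) (r0 1)) (r0 2))
    (mul_nonneg (mul_nonneg (hy 0) (hy 2)) (hy 1))

/-- exponent of the penalised size -/
def FpW (q : Fin 3 → ℝ) (w0 : ℝ) (p : Fin 18 → ℝ) : ℝ :=
  (p 17 - 9 * w0) + (p 3 - 3 * w0) + (p 2 - 2 * w0) + (q 0 * ((p 17 - 9 * w0) - (p 0 - w0)) +
    q 1 * ((p 2 - 2 * w0) - (p 0 - w0)) + q 2 * ((p 3 - 3 * w0) - (p 0 - w0)))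

theorem capQ_Vn {q : Fin 3 → ℝ} {w : Fin 3 → ℝ} {H ρ : ℝ} (hH : 0 < H) (hρ : ρ = 1 / H) :
    Vn q H (w 1 * H) (w 2 * H) (w 0 * H) = capQ q ρ w := by
  have e : ∀ k, w k / ρ = w k * H := fun k => by rw [hρ]; field_simp
  unfold Vn capQ
  rw [e, e, e]
  have := hH.ne'
  field_simp

/-- **the penalised size of the test sheet** -/
theorem val_W {d : ℝ} (hd : 0 < d) (hd1 : d < 1) {q : Fin 3 → ℝ} (hq : ∀ j, 0 ≤ q j)
    {i0 i : ℕ} {u t T w0 ε : ℝ} {p : Fin 18 → ℝ} (hlo : d ^ (u + t) ≤ 2 ^ i0 * rho i)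
    (hv : p 0 - w0 = u + T) (hT : 0 ≤ T) (ht : 0 < t) (hε : 40 * (1 + (q 0 + q 1 + q 2)) * t ≤ ε)
    {w : Fin 3 → ℝ} (hw : ∀ k, 0 < w k) {a w1 w2 : ℝ} (a0 : 0 ≤ a) (w10 : 0 ≤ w1) (w20 : 0 ≤ w2)
    (ha : a ≤ w 0 * d ^ (p 17 - 9 * w0 - 10 * t - t))
    (h1 : w1 ≤ w 1 * d ^ (p 2 - 2 * w0 - 10 * t - 5 * t))
    (h2 : w2 ≤ w 2 * d ^ (p 3 - 3 * w0 - 10 * t - 3 * t)) :
    capQ q (rho i) ![a, w1, w2] ≤ capQ q (rho i0) w * d ^ (FpW q w0 p - ε) := by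
  have hρ := rho_pos i
  have hH : (0 : ℝ) < 2 ^ i0 := by positivity
  have hm : capQ q (rho i) ![a, w1, w2] ≤ capQ q (rho i)
      ![w 0 * d ^ (p 17 - 9 * w0 - 10 * t - t), w 1 * d ^ (p 2 - 2 * w0 - 10 * t - 5 * t),
        w 2 * d ^ (p 3 - 3 * w0 - 10 * t - 3 * t)] := by
    refine capQ_mono hq hρ (fun k => ?_) fun k => ?_
    · fin_cases k
      · exact a0
      · exact w10
      · exact w20
    · fin_cases k
      · exact ha
      · exact h1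
      · exact h2
  refine hm.trans ?_
  have key := val_bd hd hd1 (H := 2 ^ i0) (ρ := rho i) (v := u) (t := t) (p0 := p 0 - w0) (T := T)
    (Wy := w 0 * 2 ^ i0) (Wa := w 1 * 2 ^ i0) (Wb := w 2 * 2 ^ i0) (q := q) hq hH hρ hlo hv hT ht
    (mul_pos (hw 0) hH) (mul_pos (hw 1) hH) (mul_pos (hw 2) hH) (CG := 1) zero_le_one
    (by
      have := Real.rpow_le_rpow_of_exponent_ge hd hd1.le (show -t ≤ 0 by linarith)
      rwa [Real.rpow_zero] at this) (p 17 - 9 * w0) (p 2 - 2 * w0) (p 3 - 3 * w0) (10 * t)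
  have ee : ∀ k, w k * 2 ^ i0 / 2 ^ i0 = w k := fun k => by field_simp
  rw [ee, ee, ee, one_mul, capQ_Vn (w := w) hH (ρ := rho i0) rfl] at key
  refine key.trans ?_
  have hc : 0 ≤ capQ q (rho i0) w := by
    have h0 := fun k => (hw k).le
    have hr := rho_pos i0
    have r := fun k => Real.rpow_nonneg (div_nonneg (h0 k) hr.le) (q k)
    unfold capQ
    exact mul_nonneg (mul_nonneg (mul_nonneg (h0 0) (h0 2)) (h0 1))
      (mul_nonneg (mul_nonneg (r 0) (r 1)) (r 2))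
  refine mul_le_mul_of_nonneg_left (Real.rpow_le_rpow_of_exponent_ge hd hd1.le ?_) hc
  have hQ : 0 ≤ q 0 + q 1 + q 2 := by
    have := hq 0; have := hq 1; have := hq 2; linarith
  unfold FpW
  have e1 : (3 + (q 0 + q 1 + q 2)) * (10 * t) + (10 + 6 * (q 0 + q 1 + q 2)) * t =
      40 * t + 16 * ((q 0 + q 1 + q 2) * t) := by ring
  have e2 : 40 * (1 + (q 0 + q 1 + q 2)) * t = 40 * t + 40 * ((q 0 + q 1 + q 2) * t) := by ring
  have e3 : 0 ≤ (q 0 + q 1 + q 2) * t := mul_nonneg hQ ht.le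
  linarith

end Crest.Agent.R136.GeoN778
end

-- ▼ part R136/GDW6_778
section

/-!
# R136, [GEO-D] for the W-chart, one stage of the sequence (helper778)

* `ev_stW` : the facts `StW` about one stage from `WData`, `WCon`, `WLev`;
* `ev_numW` : the sizes `NumW` of a box with exponents in `PDW`.
-/

set_option autoImplicit false
set_option linter.unusedVariables false
set_option maxHeartbeats 400000

open Finset Filter Topology

namespace Crest.Agent.R136.GeoN778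

open Crest.Agent.R138
open Crest.Agent.R138.Ex926 (Base U)
open Crest.Agent.R138.Dp76 (dpow_pos dpow_add dpow_le dpow_le_one)
open Crest.Agent.R138.Mk163 (zc zl rho alive)
open Crest.Agent.R136.MkA627
open Crest.Agent.R136.Net191
open Crest.Agent.R136.NetW191
open Crest.Agent.R136.Sh605
open Crest.Agent.R136.GeoW778 (qS TrueW dB DW EW)
open Crest.Agent.R136.Wq638 (capQ N0Q)
open Crest.Agent.R136.PrW464 (WData unW unW_pos couW)
open Crest.Agent.R136.PqG464 (ev_const)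
open Crest.Agent.R136.GeoQ186 (const_le)

section seq

variable {B0 B : Base} {I : ℕ → Finset (ℕ × ℝ)} {lev : ℕ → ℚ → ℕ}
    {w : Fin 3 → ℕ → ℚ → ℝ} {kp sg hz zs : ℕ → ℝ} {F : ℕ → ℕ × ℝ → FW} {L0 L : ℕ → ℕ → Ln4}
    {fr : ℕ → Fin 3 → V3} {c : ℕ → Ln4} {u : ℕ → Un} {Q : ℕ → ℕ × ℝ → Qd}
    {uz uc un : ℕ → ℝ} {w0 : ℝ}

/-- a power of a smaller base -/
theorem dpow_base (hB : ∀ n, B0.d n ≤ B.d n) {a C : ℝ} (ha : 0 ≤ a) (haC : a ≤ C) (n : ℕ) :
    B.d n ^ (-a) ≤ B0.d n ^ (-C) := by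
  have h1 : B.d n ^ (-a) ≤ B0.d n ^ (-a) :=
    Real.rpow_le_rpow_of_nonpos (B0.pos n) (hB n) (by linarith)
  exact h1.trans (dpow_le B0 n (by linarith))

theorem pow_neg_eq (B : Base) (n : ℕ) (C : ℝ) (m : ℕ) :
    (B.d n ^ (-C)) ^ m = B.d n ^ (-(m * C)) := by
  rw [← Real.rpow_natCast, ← Real.rpow_mul (B.pos n).le]; congr 1; ring

/-- **the facts about one stage** -/
theorem ev_stW (wd : WData B0 I kp sg hz zs L F) (hC : WCon B0 I kp sg hz zs F L0 L fr c u Q)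
    (hL : WLev B0 B I lev w kp sg hz F u uz uc un w0) {t : ℝ} (ht : 0 < t) :
    ∃ C0 : ℝ, 1 ≤ C0 ∧ ∀ C : ℝ, C0 ≤ C → ∀ᶠ n in (U : Filter ℕ),
      StW (I n) (fr n) (c n) (u n) (kp n) (sg n) (hz n) (B0.d n ^ (-C)) (B.d n ^ (-(t / 2)))
        (B.d n ^ (-(t / 4))) (B0.d n ^ (20 * C)) (F n) (L0 n) (L n) (Q n) := by
  obtain ⟨Cb, hCb, hbd⟩ := wd.bd
  refine ⟨Cb + 1 + t, by linarith, fun C hCC => ?_⟩
  filter_upwards [hC.ortho, hC.ok, hC.zh, hC.near (3 * C + 1) (20 * C), hC.bent (20 * C), wd.zb,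
    wd.tru, hbd, hL.slc (t / 4) (by positivity), hL.slA (t / 4) (by positivity),
    ev_const B0 (c := 200) (by norm_num) one_pos, ev_const B (c := 6) (by norm_num)
      (show 0 < t / 4 by positivity)] with n h1 h2 h3 h4 h5 h6 h7 h8 h9 h10 h11 h12
  have hd := dpow_pos B0 n
  have hd' := dpow_pos B n
  have c200 : 200 ≤ B0.d n ^ (-(1 : ℝ)) := const_le h11
  have c6 : 6 ≤ B.d n ^ (-(t / 4)) := const_le h12
  have hXb : B0.d n ^ (-Cb) ≤ B0.d n ^ (-C) := dpow_le B0 n (by linarith)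
  have hXb4 : 4 * B0.d n ^ (-Cb) ≤ B0.d n ^ (-C) := by
    have e : B0.d n ^ (-(1 : ℝ)) * B0.d n ^ (-Cb) ≤ B0.d n ^ (-C) := by
      rw [← dpow_add]; exact dpow_le B0 n (by linarith)
    refine le_trans (mul_le_mul_of_nonneg_right ?_ (hd _).le) e
    linarith
  refine ⟨h1, h2, hL.hz0 n, ?_, ?_, h6, h7, ?_, ?_, ?_, ?_, h5, h9, h10, (hd' _).le, ?_⟩
  · intro z z'
    rw [h3, h3]; ring
  · intro x hx
    rw [h3]
    exact wd.gz n x
  · exact fun x hx k => ((h8 x hx).1 k).trans hXb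
  · exact fun x hx k => ((h8 x hx).2.1 k).trans hXb
  · intro x hx z' hz' k
    refine le_trans ?_ hXb4
    simp only [Ln4.pos]
    have := a2 ((h8 x hx).2.2 k) (m2 hz' ((h8 x hx).2.1 k))
    linarith
  · intro x hx z hz y hy
    refine h4 x hx z hz y fun k => (hy k).trans ?_
    have hS : B.d n ^ (-(t / 2)) ≤ B0.d n ^ (-C) :=
      dpow_base hL.base (by positivity) (by linarith) n
    have e3 : B0.d n ^ (-(3 * C + 1)) = B0.d n ^ (-(1 : ℝ)) *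
        (B0.d n ^ (-C)) ^ 2 * B0.d n ^ (-C) := by
      rw [pow_neg_eq, ← dpow_add, ← dpow_add]; congr 1; push_cast; ring
    rw [e3]
    have hX0 := hd (-C)
    refine mul_le_mul (mul_le_mul_of_nonneg_right c200 (by positivity)) hS (hd' _).le ?_
    have := hd (-(1 : ℝ))
    positivity
  · have e : B.d n ^ (-(t / 2)) = B.d n ^ (-(t / 4)) * B.d n ^ (-(t / 4)) := by
      rw [← dpow_add]; congr 1; ring
    rw [e]
    nlinarith

/-- **the sizes of a box** -/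
theorem ev_numW (wd : WData B0 I kp sg hz zs L F)
    (hL : WLev B0 B I lev w kp sg hz F u uz uc un w0) (hok : ∀ᶠ n in (U : Filter ℕ), (u n).Ok)
    (hw : ∀ k, ∀ᶠ n in (U : Filter ℕ), 0 < w k n 0)
    {K t T : ℝ} {p : Fin 18 → ℝ} (hK : 1 ≤ K) (hp : Legal monW p) (hT : 0 ≤ T) (ht : 0 < t)
    (hu : w0 + 3 * t + T ≤ p 0) (hγ : w0 + 2 * T + 12 * t ≤ 2 * p 2 - p 3)
    (hab : ∀ ε : ℝ, 0 < ε → ∀ᶠ n in (U : Filter ℕ), w 2 n 0 * B.d n ^ (p 3 - 3 * w0) ≤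
      B.d n ^ (-ε) * (w 1 n 0 * B.d n ^ (p 2 - 2 * w0))) :
    ∃ C0 : ℝ, 1 ≤ C0 ∧ ∀ C : ℝ, C0 ≤ C → ∀ᶠ n in (U : Filter ℕ),
      NumW (u n) (kp n) (sg n) (B0.d n ^ (-C)) (B0.d n ^ (-C)) (B.d n ^ (-(t / 2)))
        (B0.d n ^ (20 * C)) K (B.d n ^ (-t)) (PW (B.d n) (uz n) T p)
        (b2W (B.d n) (uz n) (uc n) T p) (b3W (B.d n) (uz n) (uc n) T p) (nW (B.d n) (un n) T p)
        (sW (B.d n) (uz n) (uc n) (un n) K p) ∧
      sW (B.d n) (uz n) (uc n) (un n) K p 0 ≤ K * (PW (B.d n) (uz n) T p * B.d n ^ (-t)) := by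
  obtain ⟨pP, p2, p3, pn⟩ := pol_sizes hL p T
  have pZ := fun a => Pol.dpow (B := B0) (B' := B) hL.base a
  have pZm : ∀ m : ℕ, Pol B0 fun n => (B.d n ^ (-t)) ^ m := fun m => by
    have h := pZ (-(m * t))
    have e : (fun n => B.d n ^ (-(m * t))) = fun n => (B.d n ^ (-t)) ^ m := by
      funext n
      rw [← Real.rpow_natCast, ← Real.rpow_mul (B.pos n).le]; congr 1; ring
    rwa [e] at h
  obtain ⟨C1, g1, k1⟩ := pP.big
  obtain ⟨C2, g2, k2⟩ := p2.big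
  obtain ⟨C3, g3, k3⟩ := p3.big
  obtain ⟨C4, g4, k4⟩ := pn.big
  obtain ⟨C5, g5, k5⟩ := (p2.mul (pZm 8)).big
  obtain ⟨C6, g6, k6⟩ := (p3.mul (pZm 6)).big
  refine ⟨1 + C1 + C2 + C3 + C4 + C5 + C6 + t, by linarith, fun C hC => ?_⟩
  filter_upwards [k1 C (by linarith), k2 C (by linarith), k3 C (by linarith), k4 C (by linarith),
    k5 C (by linarith), k6 C (by linarith), ev_const B0 (c := 10) (by norm_num) one_pos,
    ev_const B (c := 1000 * K ^ 3) (by positivity) (show 0 < t / 2 by positivity),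
    wd.sgs (20 * C), hok, hL.zc, hw 1, hw 2, hL.wA (t / 3) (by positivity),
    hL.wB (t / 3) (by positivity), hab (t / 3) (by positivity)]
    with n a1 a2 a3 a4 a5 a6 h10 hKd hσ ok hzc hw1 hw2 hA hB hab
  have hd := dpow_pos B0 n
  have hd' := dpow_pos B n
  have hz := hL.z0 n
  have hc := hL.c0 n
  have hn := hL.n0 n
  have sz := szW_of (B.pos n) (B.lt n) hz hc hn hK hp hT ht hu hzc hγ
  have c10 : 10 ≤ B0.d n ^ (-C) := (const_le h10).trans (dpow_le B0 n (by linarith))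
  have cK : 1000 * K ^ 3 ≤ B.d n ^ (-(t / 2)) := const_le hKd
  refine ⟨numW_of (wd.kp1 n) (wd.sg0 n) c10 (hd _).le ?_ hσ hK ?_ ?_ ?_ sz.PZ a1.1 a2.1 a3.1 a4.1
    a4.2 sz.s1 sz.hs2 sz.hs1 sz.hs3 sz.hs1' sz.hs17 sz.hs16 sz.hs13 sz.g1 ?_ a5.2 a6.2, sz.hs0⟩
  · rw [pow_neg_eq, ← dpow_add]
    push_cast
    rw [show 20 * C + -(20 * C) = 0 by ring, Real.rpow_zero]
  · have := dpow_le B n (show -(t / 2) ≤ 0 by linarith)
    rwa [Real.rpow_zero] at this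
  · exact dpow_base hL.base (by positivity) (by linarith) n
  · have e : B.d n ^ (-t) = B.d n ^ (-(t / 2)) * B.d n ^ (-(t / 2)) := by
      rw [← dpow_add]; congr 1; ring
    rw [e]
    have := mul_le_mul_of_nonneg_right cK (hd' (-(t / 2))).le
    linarith
  · have e3 := physB (W := (u n).WB) (w0 := w0) (t := t) (T := T) (p := p) (B.pos n) hz hc 0
    have e2 := physA (W := (u n).WA) (w0 := w0) (t := t) (T := T) (p := p) (B.pos n) hz hc 0
    rw [pow_zero, mul_one, Nat.cast_zero, zero_mul, sub_zero] at e2 e3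
    rw [e3, e2]
    have hA0 : 0 < (u n).WA * (B.d n ^ (2 * w0) / (uz n * uc n)) :=
      mul_pos ok.A0 (div_pos (hd' _) (mul_pos hz hc))
    exact phys_g2 (T := T) (B.pos n) (B.lt n) hA0 hw1.le hw2.le ht hA hB hab

end seq

end Crest.Agent.R136.GeoN778
end

-- ▼ part R136/GDW7_778
section

/-!
# R136, [GEO-D] for the W-chart, sequence form (helper778)

* `boxIn_W` : 464's `BoxIn` for the W-chart in graded units;
* `gD_W` : the field `gD` of `PreQ` on `PDW`.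
-/

set_option autoImplicit false
set_option linter.unusedVariables false
set_option maxHeartbeats 400000

open Finset Filter Topology

namespace Crest.Agent.R136.GeoN778

open Crest.Agent.R138
open Crest.Agent.R138.Ex926 (Base U)
open Crest.Agent.R138.Dp76 (dpow_pos dpow_add dpow_le dpow_le_one)
open Crest.Agent.R138.Mk163 (zc zl rho alive)
open Crest.Agent.R136.MkA627
open Crest.Agent.R136.Net191
open Crest.Agent.R136.NetW191
open Crest.Agent.R136.Sh605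
open Crest.Agent.R136.GeoW778 (qS TrueW dB EW)
open Crest.Agent.R136.Wq638 (capQ N0Q)
open Crest.Agent.R136.PrW464 (WData unW unW_pos couW)
open Crest.Agent.R136.PqG464 (BoxIn gD_of pow_lev ev_const)
open Crest.Agent.R136.GeoQ186 (H_lo H_hi const_le exists_level mem_cell)
open Crest.Agent.R136.ArgA163 (rho_pos)

section fin

variable {I : Finset (ℕ × ℝ)} {f : Fin 3 → V3} {c : Ln4} {u : Un} {κ σ hz X S S1 η : ℝ}
    {F : ℕ × ℝ → FW} {L0 L : ℕ → Ln4} {Q : ℕ × ℝ → Qd}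

/-- the length of the cell in unit heights -/
theorem cell_len {d uz hz w0 u' t T : ℝ} {p : Fin 18 → ℝ} {i0 i : ℕ} (hd : 0 < d) (hz' : 0 < uz)
    (h : uz * hz = d ^ w0 * 2 ^ i0) (hhi : d ^ w0 * 2 ^ i0 * rho i ≤ d ^ (w0 + u' - t))
    (hv : p 0 - T = w0 + u') : hz * rho i ≤ PW d uz T p * d ^ (-t) := by
  unfold PW
  rw [hv, div_mul_eq_mul_div, ← Real.rpow_add hd, le_div_iff₀ hz']
  rw [← h] at hhi
  refine le_trans (le_of_eq (by ring)) (hhi.trans (le_of_eq ?_))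
  congr 1

end fin

section seq

variable {σ κ : Type*} {B0 B : Base} {I : ℕ → Finset (ℕ × ℝ)} {G : Geo σ κ} {lev : ℕ → ℚ → ℕ}
    {A : ℕ → ℝ} {g s : ℝ} {τ : κ → ℝ → ℝ} {f : ℕ → ℚ → ℕ → ℤ → ℕ} {b : ℕ → ℚ → ℕ → σ}
    {vm : ℕ → ℚ → ℝ} {w : κ → ℕ → ℚ → ℝ} {w' : Fin 3 → ℕ → ℚ → ℝ}
    {kp sg hz zs : ℕ → ℝ} {F : ℕ → ℕ × ℝ → FW} {L0 L : ℕ → ℕ → Ln4}
    {fr : ℕ → Fin 3 → V3} {c : ℕ → Ln4} {u : ℕ → Un} {Q : ℕ → ℕ × ℝ → Qd}
    {uz uc un : ℕ → ℝ} {w0 : ℝ} {r0 : ℕ → ℝ} {wr cr : Fin 3 → ℕ → ℝ} {q : Fin 3 → ℝ}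
    {p : Fin 18 → ℝ} {R : ℝ}

/-- **[GEO-D], geometric hypothesis**, W-chart in graded units -/
theorem boxIn_W (hM : MkA B I G lev A (fun v => g * v) (fun v => s * v) τ f b vm w)
    (hG : SheetGeo G L0 r0 wr cr q) (hq : ∀ j, 0 ≤ q j)
    (wd : WData B0 I kp sg hz zs L F) (hC : WCon B0 I kp sg hz zs F L0 L fr c u Q)
    (hL : WLev B0 B I lev w' kp sg hz F u uz uc un w0)
    (hw : ∀ k, ∀ᶠ n in (U : Filter ℕ), 0 < w' k n 0)
    (hwr : ∀ (C : ℝ) (k : Fin 3), ∀ᶠ n in (U : Filter ℕ),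
      wr k n ≤ B.d n ^ C * w' k n 0 ∧ w' k n 0 ≤ B.d n ^ C * cr k n)
    (hp : p ∈ PDW B r0 lev w' w0 R) :
    BoxIn B I G lev (couW kp uz uc un F) 0 w0
      (fun n => capQ q (rho (lev n 0)) fun k => w' k n 0) p (FpW q w0 p) := by
  obtain ⟨hpL, hp0, hp1, hp3, hO⟩ := hp
  intro K hK ε hε
  obtain ⟨δ, hδ, hcap⟩ := hO.cap
  have hQ0 : 0 ≤ q 0 + q 1 + q 2 := by
    have := hq 0; have := hq 1; have := hq 2; linarith
  obtain ⟨m0, hm0⟩ : ∃ m0 : ℝ, m0 = min (min ε δ) (min (p 0 - w0) (2 * p 2 - w0 - p 3)) :=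
    ⟨_, rfl⟩
  have hm0p : 0 < m0 := by
    rw [hm0]
    exact lt_min (lt_min hε hδ) (lt_min (by linarith) (by linarith))
  have m1 : m0 ≤ ε := by rw [hm0]; exact (min_le_left _ _).trans (min_le_left _ _)
  have m2' : m0 ≤ δ := by rw [hm0]; exact (min_le_left _ _).trans (min_le_right _ _)
  have m3 : m0 ≤ p 0 - w0 := by rw [hm0]; exact (min_le_right _ _).trans (min_le_left _ _)
  have m4 : m0 ≤ 2 * p 2 - w0 - p 3 := by
    rw [hm0]; exact (min_le_right _ _).trans (min_le_right _ _)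
  obtain ⟨t, ht⟩ : ∃ t : ℝ, t = m0 / (40 * (1 + (q 0 + q 1 + q 2))) := ⟨_, rfl⟩
  have hc : 0 < 40 * (1 + (q 0 + q 1 + q 2)) := by positivity
  have ht0 : 0 < t := by rw [ht]; exact div_pos hm0p hc
  have htm : 40 * (1 + (q 0 + q 1 + q 2)) * t = m0 := by rw [ht]; field_simp
  have h40 : 40 * t ≤ m0 := by
    rw [← htm]
    have : 0 ≤ (q 0 + q 1 + q 2) * t := mul_nonneg hQ0 ht0.le
    linarith
  obtain ⟨u', hu0, hu1, hT0, hTt, hor⟩ :=
    exists_level (y := p 0 - w0) (t := t) (by linarith) (by linarith) ht0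
  obtain ⟨T, hTe⟩ : ∃ T : ℝ, T = p 0 - w0 - u' := ⟨_, rfl⟩
  rw [← hTe] at hT0 hTt
  refine ⟨u', hu0, hu1, by linarith, hor, ?_⟩
  obtain ⟨C1, hC1, e1⟩ := ev_stW wd hC hL ht0
  obtain ⟨C2, hC2, e2⟩ := ev_numW wd hL hC.ok hw (K := K) (t := t) (T := T) (p := p) hK hpL.1 hT0
    ht0 (by linarith) (by linarith) hO.ab
  filter_upwards [pow_lev hM u' hu0 hu1 ht0, e1 (max C1 C2) (le_max_left _ _),
    e2 (max C1 C2) (le_max_right _ _), hL.wA (t / 3) (by positivity),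
    hL.wB (t / 3) (by positivity), hL.wY (t / 3) (by positivity), hO.res (t / 3) (by positivity),
    hcap, hw 0, hw 1, hw 2, hwr (p 17 - 9 * w0) 0, hwr (p 2 - 2 * w0) 1, hwr (p 3 - 3 * w0) 2,
    hwr (-(p 17 - 9 * w0 - 11 * t)) 0, hwr (-(p 2 - 2 * w0 - 11 * t)) 1,
    hwr (-(p 3 - 3 * w0 - 11 * t)) 2]
    with n h1 hst hN hA hB hY hres hcp p0' p1' p2' hr0 hr1 hr2 hk0 hk1 hk2 x hx J
  have hd := B.pos n
  have hd1 := B.lt n
  have dp := fun a => dpow_pos B n a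
  obtain ⟨hN, hs0⟩ := hN
  have hz := hL.z0 n
  have hcc := hL.c0 n
  have hn := hL.n0 n
  have hlo := H_lo (w0 := 0) h1.1
  rw [Real.rpow_zero, one_mul, zero_add] at hlo
  have hhi := H_hi (w0 := w0) h1.2
  have hρP := cell_len (p := p) (T := T) hd hz (hL.hz n) hhi (by linarith)
  -- physical sizes
  have eA := physA (W := (u n).WA) (w0 := w0) (t := t) (T := T) (p := p) hd hz hcc 8
  have eB := physB (W := (u n).WB) (w0 := w0) (t := t) (T := T) (p := p) hd hz hcc 6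
  have eY := physY (W := (u n).WY) (σ := sg n) (w0 := w0) (t := t) (T := T) (p := p) hd hn 4
  push_cast at eA eB eY
  have hr : r0 n ≤ (u n).WY * (sg n * nW (B.d n) (un n) T p * (B.d n ^ (-t)) ^ 4) := by
    rw [eY]
    refine hres.trans ?_
    have e : B.d n ^ (-(t / 3)) * (w' 0 n 0 * B.d n ^ (p 17 - 9 * w0)) =
        w' 0 n 0 * B.d n ^ (p 17 - 9 * w0 - t / 3) := by
      rw [sub_eq_add_neg (p 17 - 9 * w0), dpow_add]; ring
    rw [e]
    exact phys_ge hd hd1 p0'.le hY (by linarith)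
  obtain ⟨e, T', wv, qv, r1, r2, r3, r4⟩ := hst.cell hN hx (z0 := zl (lev n u') J)
    (ρ := rho (lev n u')) (r0 := r0 n) (rho_pos _).le hρP hs0 hr
  -- `w 1 ≤ ρ`
  have hw1ρ : wv 1 ≤ rho (lev n u') := by
    rw [r1, eA]
    have s1 : (u n).WA * (B.d n ^ (2 * w0) / (uz n * uc n)) *
        B.d n ^ (p 2 - 2 * w0 - 2 * T - 8 * t) ≤
        w' 1 n 0 * B.d n ^ (p 2 - 2 * w0 + (-(2 * T + 8 * t + t / 3))) :=
      phys_le hd hd1 p1'.le hA (by linarith)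
    have s2 : w' 1 n 0 * B.d n ^ (p 2 - 2 * w0 + (-(2 * T + 8 * t + t / 3))) ≤
        rho (lev n 0) * B.d n ^ (p 0 - w0 + δ) * B.d n ^ (-(2 * T + 8 * t + t / 3)) := by
      rw [dpow_add, ← mul_assoc]
      exact mul_le_mul_of_nonneg_right hcp (dp _).le
    have s3 : rho (lev n 0) * B.d n ^ (p 0 - w0 + δ) * B.d n ^ (-(2 * T + 8 * t + t / 3)) ≤
        rho (lev n 0) * B.d n ^ ((u' : ℝ) + t) := by
      rw [mul_assoc, ← dpow_add]
      exact mul_le_mul_of_nonneg_left (dpow_le B n (by linarith)) (rho_pos _).le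
    have s4 : rho (lev n 0) * B.d n ^ ((u' : ℝ) + t) ≤ rho (lev n u') := by
      have h := mul_le_mul_of_nonneg_left hlo (rho_pos (lev n 0)).le
      have e : rho (lev n 0) * (2 ^ lev n 0 * rho (lev n u')) = rho (lev n u') := by
        have hp2 : (2 : ℝ) ^ lev n 0 ≠ 0 := by positivity
        unfold rho
        field_simp
      rwa [e] at h
    exact s1.trans (s2.trans (s3.trans s4))
  have up : ∀ (W X c' y : ℝ), 0 ≤ W → W ≤ B.d n ^ (-y) * c' → X ≤ W * B.d n ^ y → X ≤ c' := by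
    intro W X c' y hW hW' hX
    refine hX.trans ?_
    have h := mul_le_mul_of_nonneg_right hW' (dp y).le
    have e : B.d n ^ (-y) * c' * B.d n ^ y = c' := by
      have h2 : B.d n ^ (-y) * B.d n ^ y = 1 := by
        rw [← dpow_add, neg_add_cancel, Real.rpow_zero]
      calc B.d n ^ (-y) * c' * B.d n ^ y = (B.d n ^ (-y) * B.d n ^ y) * c' := by ring
        _ = c' := by rw [h2, one_mul]
    rwa [e] at h
  have hrg : ∀ k : Fin 3, wr k n ≤ (![(u n).WY * (sg n * nW (B.d n) (un n) T p *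
      (B.d n ^ (-t)) ^ 4), wv 1, wv 2] : Fin 3 → ℝ) k ∧ (![(u n).WY * (sg n * nW (B.d n) (un n) T p *
      (B.d n ^ (-t)) ^ 4), wv 1, wv 2] : Fin 3 → ℝ) k ≤ cr k n := by
    intro k
    fin_cases k
    · show wr 0 n ≤ (u n).WY * (sg n * nW (B.d n) (un n) T p * (B.d n ^ (-t)) ^ 4) ∧
        (u n).WY * (sg n * nW (B.d n) (un n) T p * (B.d n ^ (-t)) ^ 4) ≤ cr 0 n
      rw [eY]
      refine ⟨hr0.1.trans ?_, up _ _ _ _ p0'.le hk0.2 (phys_le hd hd1 p0'.le hY (by linarith))⟩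
      rw [mul_comm (B.d n ^ _)]
      exact phys_ge hd hd1 p0'.le hY (by linarith)
    · show wr 1 n ≤ wv 1 ∧ wv 1 ≤ cr 1 n
      rw [r1, eA]
      refine ⟨hr1.1.trans ?_, up _ _ _ _ p1'.le hk1.2 (phys_le hd hd1 p1'.le hA (by linarith))⟩
      rw [mul_comm (B.d n ^ _)]
      exact phys_ge hd hd1 p1'.le hA (by linarith)
    · show wr 2 n ≤ wv 2 ∧ wv 2 ≤ cr 2 n
      rw [r2, eB]
      refine ⟨hr2.1.trans ?_, up _ _ _ _ p2'.le hk2.2 (phys_le hd hd1 p2'.le hB (by linarith))⟩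
      rw [mul_comm (B.d n ^ _)]
      exact phys_ge hd hd1 p2'.le hB (by linarith)
  obtain ⟨S, hadm, hval, hmem⟩ := hG.sheet n (lev n u') J e T' wv qv _ r3 hw1ρ hrg
  refine ⟨S, hadm, ?_, fun y hy hyN hyJ => ?_⟩
  · rw [hval, r1, r2]
    have hZ := hN.Z0
    have hσ := hN.σ0
    have hn17 := hN.n0
    have hb2 := hN.b20
    have hb3 := hN.b30
    have hok := hst.ok
    refine val_W hd hd1 hq (i0 := lev n 0) (i := lev n u') (u := u') (t := t) (T := T) (w0 := w0)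
      (ε := ε) (p := p) hlo (by linarith) hT0 ht0 (by linarith) (w := fun k => w' k n 0)
      (fun k => ?_) ?_ ?_ ?_ ?_ ?_ ?_
    · fin_cases k
      · exact p0'
      · exact p1'
      · exact p2'
    · have := hok.Y0; positivity
    · have := hok.A0; positivity
    · have := hok.B0; positivity
    · rw [eY]
      exact phys_le hd hd1 p0'.le hY (by linarith)
    · rw [eA]
      exact phys_le hd hd1 p1'.le hA (by linarith)
    · rw [eB]
      exact phys_le hd hd1 p2'.le hB (by linarith)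
  · obtain ⟨y1, y2⟩ := mem_cell hyJ
    refine hmem _ (r4 y hy y1 y2 fun k => ?_)
    have hk := hyN k
    have hu := unW_pos hz hcc hn k
    unfold couW at hk
    rw [abs_mul, abs_of_pos hu] at hk
    unfold sW
    rw [le_div_iff₀ hu, mul_comm]
    exact hk

open Classical in
/-- **[GEO-D]: the field `gD` of `PreQ`**, W-chart in graded units. -/
theorem gD_W (hM : MkA B I G lev A (fun v => g * v) (fun v => s * v) τ f b vm w)
    (hG : SheetGeo G L0 r0 wr cr q) (hq : ∀ j, 0 ≤ q j)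
    (wd : WData B0 I kp sg hz zs L F) (hC : WCon B0 I kp sg hz zs F L0 L fr c u Q)
    (hL : WLev B0 B I lev w' kp sg hz F u uz uc un w0)
    (hw : ∀ k, ∀ᶠ n in (U : Filter ℕ), 0 < w' k n 0)
    (hwr : ∀ (C : ℝ) (k : Fin 3), ∀ᶠ n in (U : Filter ℕ),
      wr k n ≤ B.d n ^ C * w' k n 0 ∧ w' k n 0 ≤ B.d n ^ C * cr k n)
    (hvm : ∀ᶠ n in (U : Filter ℕ), vm n 0 = capQ q (rho (lev n 0)) fun k => w' k n 0) :
    ∀ p ∈ PDW B r0 lev w' w0 R, ∀ K : ℝ, 1 ≤ K → ∀ ε : ℝ, 0 < ε →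
      ∀ᶠ n in (U : Filter ℕ), ∀ x ∈ I n,
        (((I n).filter fun y => Near (couW kp uz uc un F n) (B.d n) p K x y).card : ℝ) ≤
          N0Q A vm n * B.d n ^ (-(PrW464.DW g s q w0 p + ε)) := by
  intro p hp K hK ε hε
  have hBx := boxIn_W hM hG hq wd hC hL hw hwr hp
  have hV : ∀ᶠ n in (U : Filter ℕ), 0 < capQ q (rho (lev n 0)) fun k => w' k n 0 := by
    filter_upwards [hw 0, hw 1, hw 2] with n h0 h1 h2
    have hr := rho_pos (lev n 0)
    have r := fun k (h : 0 < w' k n 0) => Real.rpow_pos_of_pos (div_pos h hr) (q k)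
    unfold capQ
    exact mul_pos (mul_pos (mul_pos h0 h2) h1) (mul_pos (mul_pos (r 0 h0) (r 1 h1)) (r 2 h2))
  have hcore := gD_of hM (fun n x _ y _ => by
    unfold couW
    rw [PrW464.unW_zero, PrW464.coW_zero, wd.gz n y, wd.gz n x]
    have := hL.hz n
    linear_combination (y.2 - x.2) * this) hV hBx
    (D := (g - (1 - s)) * max (p 0 - w0) 0 - FpW q w0 p) rfl K hK ε hε
  filter_upwards [hcore, hvm] with n hn hvm x hx
  refine (hn x hx).trans (le_of_eq ?_)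
  rw [← hvm, max_eq_left (by linarith [hp.2.1])]
  have e5 : A n * vm n 0 * B.d n ^ (-(1 - s)) *
      B.d n ^ (-((g - (1 - s)) * (p 0 - w0) - FpW q w0 p + ε)) =
      A n * vm n 0 * (B.d n ^ (-(1 - s)) *
      B.d n ^ (-((g - (1 - s)) * (p 0 - w0) - FpW q w0 p + ε))) := by ring
  rw [e5, ← dpow_add]
  unfold N0Q
  congr 2
  unfold PrW464.DW FpW
  ring

end seq

end Crest.Agent.R136.GeoN778
end

-- ▼ part R136/GgA_893
section

/-!
# R136 (S0187): gauged flags of a marked sequence (helper893, literal of helper464)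

* `gau_fix` : the gauge change `gau κ e f` of a true flag `f` of the line `t`, corrected in the slots
  `9, 12, 13` by `O(σ)`, is again a true flag of `t`.
* `wdata_gau` : sequence form (`WData`).
-/

set_option autoImplicit false
set_option linter.unusedVariables false

open Finset Filter Topology

namespace Crest.Agent.R136.GgA893

open Crest.Agent.R138.Ex926 (Base U)
open Crest.Agent.R138.Dp76 (dpow_pos dpow_add dpow_le)
open Crest.Agent.R138.ArgM163 (ev_const)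
open Crest.Agent.R136.Sh605
open Crest.Agent.R136.NetW191
open Crest.Agent.R136.GeoW778 (qS TrueW q_bound evY_sub a2 m2 s2 n1)
open Crest.Agent.R136.GauW619 (gau gau_g gau_G tr_inv inv)
open Crest.Agent.R136.PrW464 (WData)

/-! ### one line -/

/-- flag with the coefficients `c2 z² + c1 z + c0` -/
def dlt (c0 c1 c2 : ℝ) : Fin 14 → ℝ := fun k =>
  if k = 9 then c2 else if k = 12 then c1 else if k = 13 then c0 else 0

theorem evY_dlt (c0 c1 c2 z A B Y : ℝ) :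
    evY (dlt c0 c1 c2) z A B Y = c2 * z ^ 2 + c1 * z + c0 := by
  have e : ∀ k : Fin 14, k ≠ 9 → k ≠ 12 → k ≠ 13 → dlt c0 c1 c2 k = 0 := by
    intro k h1 h2 h3
    simp only [dlt, if_neg h1, if_neg h2, if_neg h3]
  have e9 : dlt c0 c1 c2 9 = c2 := by simp only [dlt, if_true]
  have e12 : dlt c0 c1 c2 12 = c1 := by
    simp only [dlt, if_neg (show (12 : Fin 14) ≠ 9 by decide), if_true]
  have e13 : dlt c0 c1 c2 13 = c0 := by
    simp only [dlt, if_neg (show (13 : Fin 14) ≠ 9 by decide),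
      if_neg (show (13 : Fin 14) ≠ 12 by decide), if_true]
  simp only [evY, e9, e12, e13, e 0 (by decide) (by decide) (by decide),
    e 1 (by decide) (by decide) (by decide), e 2 (by decide) (by decide) (by decide),
    e 3 (by decide) (by decide) (by decide), e 4 (by decide) (by decide) (by decide),
    e 5 (by decide) (by decide) (by decide), e 6 (by decide) (by decide) (by decide),
    e 7 (by decide) (by decide) (by decide), e 8 (by decide) (by decide) (by decide),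
    e 10 (by decide) (by decide) (by decide), e 11 (by decide) (by decide) (by decide)]
  ring

theorem abs_dlt {c0 c1 c2 E : ℝ} (h0 : |c0| ≤ E) (h1 : |c1| ≤ E) (h2 : |c2| ≤ E) (k : Fin 14) :
    |dlt c0 c1 c2 k| ≤ E := by
  have hE : 0 ≤ E := (abs_nonneg _).trans h0
  unfold dlt
  split_ifs
  · exact h2
  · exact h1
  · exact h0
  · simpa using hE

theorem qS_add (κ σ : ℝ) (g : Fin 4 → ℝ) (G δ : Fin 14 → ℝ) (z : ℝ) (x : V3) :
    qS κ σ ⟨g, G + δ⟩ z x = qS κ σ ⟨g, G⟩ z x - σ * evY δ z (x 1) (x 2) (x 0) := by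
  simp only [qS, evY, Pi.add_apply]
  ring

/-- the function of a sheet along a line is quadratic -/
theorem qS_quad (κ σ : ℝ) (f : FW) (t : Ln4) (z : ℝ) :
    qS κ σ f z (t.pos z) = qS κ σ f 0 (t.pos 0) +
      (qS κ σ f 1 (t.pos 1) - qS κ σ f (-1) (t.pos (-1))) / 2 * z +
      ((qS κ σ f 1 (t.pos 1) + qS κ σ f (-1) (t.pos (-1))) / 2 - qS κ σ f 0 (t.pos 0)) * z ^ 2 := by
  simp only [qS, ht, evY, Ln4.pos]
  ring

/-- the flag seen from its gauge change -/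
theorem coW_gau_self (κ : ℝ) (e : Fin 14 → ℝ) (f : FW) (q : Fin 14) :
    coW κ (gau κ e f) f (Fin.natAdd 4 q) = -e q := by
  rw [coW_right, gau_G]
  have h1 : f.G - (f.G + tr κ (inv κ f.g) e) = 0 - tr κ (inv κ f.g) e := by abel
  rw [h1, tr_sub, tr_zero, tr_inv]
  simp

/-- **gauge change of a true flag** (literal of helper464): the centred gauge polynomial vanishes on
the null line, the true line is `σ`-close to it; correction in the slots `9, 12, 13`. -/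
theorem gau_fix {κ σ : ℝ} {f : FW} {t : Ln4} {e : Fin 14 → ℝ} (ht : TrueW κ σ f t) (hσ : 0 < σ)
    {Γ V X : ℝ} (hG : ∀ k, |f.G k| ≤ Γ) (hG2 : ∀ k, |(gau κ e f).G k| ≤ Γ)
    (he : e 9 = 0 ∧ e 12 = 0 ∧ e 13 = 0) (hV : ∀ k, |t.v k| ≤ V)
    (hX : ∀ z, |z| ≤ 1 → ∀ k, |t.pos z k| ≤ X) (h0 : |f.g 0| ≤ 1)
    (hsm : σ * GeoW778.DW Γ 1 X V 2 ≤ 1) :
    ∃ δ : Fin 14 → ℝ, (∀ k, |δ k| ≤ 2 * (σ * GeoW778.EW Γ 1 X V 2)) ∧
      TrueW κ σ ⟨f.g, (gau κ e f).G + δ⟩ t := by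
  have e17 : coW κ (gau κ e f) f 17 = 0 := by
    have h := coW_gau_self κ e f 13
    rw [he.2.2, neg_zero] at h
    exact h
  have e16 : coW κ (gau κ e f) f 16 = 0 := by
    have h := coW_gau_self κ e f 12
    rw [he.2.1, neg_zero] at h
    exact h
  have e13 : coW κ (gau κ e f) f 13 = 0 := by
    have h := coW_gau_self κ e f 9
    rw [he.1, neg_zero] at h
    exact h
  obtain ⟨E, hE⟩ : ∃ E, E = σ * GeoW778.EW Γ 1 X V 2 := ⟨_, rfl⟩
  obtain ⟨Q, hQ⟩ : ∃ Q : ℝ → ℝ, ∀ z, Q z = qS κ σ (gau κ e f) z (t.pos z) := ⟨_, fun _ => rfl⟩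
  have hb : ∀ z, |z| ≤ 1 → |Q z / σ| ≤ E := by
    intro z hz
    have h1 := q_bound (i := gau κ e f) ht hσ.le hG2 hG hV hz (hX z hz) (ρ' := 2)
      (by
        have a := abs_le.1 hz
        have b := abs_le.1 h0
        rw [abs_le]; constructor <;> linarith)
      (s := fun k => |coW κ (gau κ e f) f k|) (fun k => le_rfl) hsm
    simp only [e17, e16, e13, abs_zero, mul_zero, add_zero, zero_add] at h1
    rw [hQ, abs_div, abs_of_pos hσ, div_le_iff₀ hσ, hE, mul_comm _ σ]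
    exact h1
  have hE0 : 0 ≤ E := (abs_nonneg _).trans (hb 0 (by simp))
  have b0 := hb 0 (by simp)
  have b1 := hb 1 (by simp)
  have b2 := hb (-1) (by simp)
  refine ⟨dlt (Q 0 / σ) ((Q 1 / σ - Q (-1) / σ) / 2) ((Q 1 / σ + Q (-1) / σ) / 2 - Q 0 / σ),
    fun k => ?_, ?_⟩
  · rw [← hE]
    have c0 := abs_le.1 b0
    have c1 := abs_le.1 b1
    have c2 := abs_le.1 b2
    refine abs_dlt ?_ ?_ ?_ k
    · rw [abs_le]; constructor <;> linarith
    · rw [abs_le]; constructor <;> linarith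
    · rw [abs_le]; constructor <;> linarith
  · refine ⟨ht.c, ht.A, ht.B, fun z => ?_⟩
    rw [qS_add, evY_dlt]
    have h1 := qS_quad κ σ (gau κ e f) t z
    rw [← hQ, ← hQ, ← hQ, ← hQ] at h1
    have h2 : qS κ σ ⟨f.g, (gau κ e f).G⟩ z (t.pos z) = Q z := by rw [hQ]; rfl
    rw [h2, h1]
    field_simp
    ring

/-! ### sizes -/

lemma tms_len : ∀ q, ∀ t ∈ tms q, t.hl.length ≤ 6 := by decide

theorem tr_bound {κ : ℝ} (hκ : |κ| ≤ 1) {h : Fin 4 → ℝ} {w : Fin 14 → ℝ} {H W : ℝ} (h1 : 1 ≤ H)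
    (hh : ∀ i, |h i| ≤ H) (hw : ∀ q, |w q| ≤ W) (q : Fin 14) :
    |tr κ h w q| ≤ 68 * (H ^ 6 * W) := by
  have hW : 0 ≤ W := (abs_nonneg _).trans (hw 0)
  have hH0 : 0 ≤ H := by linarith
  have key := sum_ev_le hκ (X := Fin.append (m := 4) (n := 14) (fun _ => H) (fun _ => W))
    (h := h) (w := w) (S := H ^ 6 * W)
    (fun i => by rw [Fin.append_left]; exact hh i) (fun i => by rw [Fin.append_right]; exact hw i)
    (tms q) (fun t ht => by
      have e1 : (t.idx.map (Fin.append (m := 4) (n := 14) (fun _ => H) (fun _ => W))).prod =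
          H ^ t.hl.length * W := by
        simp [Tm.idx, List.map_append, List.prod_append, Function.comp_def, Fin.append_left,
          Fin.append_right]
      rw [e1]
      exact mul_le_mul_of_nonneg_right (pow_le_pow_right₀ h1 (tms_len q t ht)) hW)
  have h67 : ((((tms q).map fun t => t.n.natAbs).sum : ℕ) : ℝ) ≤ 67 := by
    exact_mod_cast tms_sum q
  have hS : 0 ≤ H ^ 6 * W := by positivity
  have hWS : W ≤ H ^ 6 * W := le_mul_of_one_le_left hW (one_le_pow₀ h1)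
  rw [tr_tms]
  refine (abs_add_le _ _).trans ?_
  have h2 := key.trans (mul_le_mul_of_nonneg_right h67 hS)
  have h3 := hw q
  linarith

theorem inv_bound {κ : ℝ} (hκ : |κ| ≤ 1) {g : Fin 4 → ℝ} {y : ℝ} (hy : 1 ≤ y) (h0 : |g 0| ≤ 1)
    (h1 : |g 1| ≤ y) (h2 : |g 2| ≤ 2 * y) (h3 : |g 3| ≤ 2 * y) (i : Fin 4) :
    |inv κ g i| ≤ 9 * y ^ 3 := by
  have y0 : 0 ≤ y := by linarith
  have y2 : y ≤ y ^ 2 := by nlinarith
  have y3 : y ^ 2 ≤ y ^ 3 := by nlinarith [sq_nonneg y]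
  have c0 : |0 - g 0| ≤ 1 := by rwa [zero_sub, abs_neg]
  have c2 : |0 - g 2 - g 1 * (0 - g 0)| ≤ 3 * y := by
    have := s2 (n1 h2) (m2 h1 c0)
    rw [zero_sub]
    linarith
  have e : inv κ g = ![0 - g 0, 0 - g 1, 0 - g 2 - g 1 * (0 - g 0),
      0 - g 3 + 2 * κ * g 1 * (0 - g 2 - g 1 * (0 - g 0)) + κ * g 1 ^ 2 * (0 - g 0)] := rfl
  rw [e]
  fin_cases i
  · show |0 - g 0| ≤ _
    linarith
  · show |0 - g 1| ≤ _
    rw [zero_sub, abs_neg]
    linarith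
  · show |0 - g 2 - g 1 * (0 - g 0)| ≤ _
    linarith
  · show |0 - g 3 + 2 * κ * g 1 * (0 - g 2 - g 1 * (0 - g 0)) + κ * g 1 ^ 2 * (0 - g 0)| ≤ _
    have c3 : |0 - g 3| ≤ 2 * y := by rwa [zero_sub, abs_neg]
    have k2 : |2 * κ * g 1| ≤ 2 * 1 * y := by
      refine m2 (m2 ?_ hκ) h1
      norm_num
    have k3 : |κ * g 1 ^ 2| ≤ 1 * y ^ 2 := by
      refine m2 hκ ?_
      rw [abs_pow]
      exact pow_le_pow_left₀ (abs_nonneg _) h1 2
    have := a2 (a2 c3 (m2 k2 c2)) (m2 k3 c0)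
    refine this.trans ?_
    nlinarith

/-- constants -/
def K1 : ℝ := 68 * 9 ^ 6 + 1

theorem gauG_bound {κ : ℝ} (hκ : |κ| ≤ 1) {f : FW} {e : Fin 14 → ℝ} {y : ℝ} (hy : 1 ≤ y)
    (h0 : |f.g 0| ≤ 1) (h1 : |f.g 1| ≤ y) (h2 : |f.g 2| ≤ 2 * y) (h3 : |f.g 3| ≤ 2 * y)
    (hG : ∀ k, |f.G k| ≤ y) (he : ∀ k, |e k| ≤ y) (k : Fin 14) :
    |(gau κ e f).G k| ≤ K1 * y ^ 19 := by
  have hH : 1 ≤ 9 * y ^ 3 := by
    have := one_le_pow₀ hy (n := 3)
    linarith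
  have b := tr_bound hκ hH (inv_bound hκ hy h0 h1 h2 h3) he k
  have y19 : y ≤ y ^ 19 := by
    calc y = y ^ 1 := (pow_one y).symm
      _ ≤ y ^ 19 := pow_le_pow_right₀ hy (by norm_num)
  have e1 : 68 * ((9 * y ^ 3) ^ 6 * y) = 68 * 9 ^ 6 * y ^ 19 := by ring
  rw [gau_G, Pi.add_apply]
  rw [e1] at b
  refine (a2 (hG k) b).trans ?_
  unfold K1
  linarith

theorem DW_bound {Γ y : ℝ} (hΓ : 0 ≤ Γ) (hy : 1 ≤ y) :
    GeoW778.DW Γ 1 (2 * y) y 2 ≤ 77 * (Γ * y ^ 2) := by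
  have y2 : y ≤ y ^ 2 := by nlinarith
  have y1 : 1 ≤ y ^ 2 := one_le_pow₀ hy
  have e : GeoW778.DW Γ 1 (2 * y) y 2 = Γ * (7 + 22 * y + 48 * y ^ 2) := by
    unfold GeoW778.DW; ring
  rw [e, show 77 * (Γ * y ^ 2) = Γ * (77 * y ^ 2) by ring]
  exact mul_le_mul_of_nonneg_left (by linarith) hΓ

theorem DW_nonneg {Γ y : ℝ} (hΓ : 0 ≤ Γ) (hy : 1 ≤ y) : 0 ≤ GeoW778.DW Γ 1 (2 * y) y 2 := by
  unfold GeoW778.DW
  positivity

theorem EW_bound {Γ y : ℝ} (hΓ : 0 ≤ Γ) (hy : 1 ≤ y) :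
    GeoW778.EW Γ 1 (2 * y) y 2 ≤ 2156 * (Γ ^ 2 * y ^ 3) := by
  have hD := DW_bound hΓ hy
  have hD0 := DW_nonneg hΓ hy
  have h1 : 2 * Γ * (1 + 1 + 4 * (2 * y + 1)) ≤ 28 * (Γ * y) := by nlinarith
  have h0 : 0 ≤ 2 * Γ * (1 + 1 + 4 * (2 * y + 1)) := by positivity
  unfold GeoW778.EW
  calc 2 * Γ * (1 + 1 + 4 * (2 * y + 1)) * GeoW778.DW Γ 1 (2 * y) y 2
      ≤ 28 * (Γ * y) * (77 * (Γ * y ^ 2)) := mul_le_mul h1 hD hD0 (h0.trans h1)
    _ = 2156 * (Γ ^ 2 * y ^ 3) := by ring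

theorem EW_nonneg {Γ y : ℝ} (hΓ : 0 ≤ Γ) (hy : 1 ≤ y) : 0 ≤ GeoW778.EW Γ 1 (2 * y) y 2 := by
  have := DW_nonneg hΓ hy
  unfold GeoW778.EW
  positivity

/-- the chart after a correction of the flags -/
theorem coW_corr (κ : ℝ) (f f' : FW) (δ δ' : Fin 14 → ℝ) (k : Fin 18) :
    coW κ ⟨f.g, f.G + δ⟩ ⟨f'.g, f'.G + δ'⟩ k - coW κ f f' k =
      Fin.append (m := 4) (n := 14) (fun _ => (0:ℝ)) (tr κ f'.g (δ' - δ)) k := by
  refine Fin.addCases (m := 4) (n := 14) (fun i => ?_) (fun q => ?_) k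
  · rw [Fin.append_left, coW_left, coW_left, sub_self]
  · rw [Fin.append_right, coW_right, coW_right]
    have e1 : f'.G + δ' - (f.G + δ) = (f'.G - f.G) + (δ' - δ) := by abel
    show tr κ f'.g (f'.G + δ' - (f.G + δ)) q - tr κ f'.g (f'.G - f.G) q = _
    rw [e1, tr_add, Pi.add_apply]
    ring

theorem coW_corr_le {κ : ℝ} (hκ : |κ| ≤ 1) {f f' : FW} {δ δ' : Fin 14 → ℝ} {H D : ℝ} (hH : 1 ≤ H)
    (hg : ∀ i, |f'.g i| ≤ H) (h1 : ∀ q, |δ q| ≤ D) (h2 : ∀ q, |δ' q| ≤ D) (k : Fin 18) :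
    |coW κ ⟨f.g, f.G + δ⟩ ⟨f'.g, f'.G + δ'⟩ k - coW κ f f' k| ≤ 136 * (H ^ 6 * D) := by
  have hD : 0 ≤ D := (abs_nonneg _).trans (h1 0)
  have hH0 : 0 ≤ H := by linarith
  rw [coW_corr]
  refine Fin.addCases (m := 4) (n := 14) (fun i => ?_) (fun q => ?_) k
  · rw [Fin.append_left, abs_zero]
    positivity
  · rw [Fin.append_right]
    refine (tr_bound hκ hH hg (W := 2 * D) (fun q => ?_) q).trans (le_of_eq (by ring))
    rw [Pi.sub_apply]
    linarith [s2 (h2 q) (h1 q)]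

/-! ### sequences -/

section seq

variable {B : Base} {I : ℕ → Finset (ℕ × ℝ)} {kp sg hz zs : ℕ → ℝ}
    {L : ℕ → ℕ → Ln4} {F : ℕ → ℕ × ℝ → FW}

/-- the sizes of a marked sequence with gauge parameters: one exponent `C` -/
theorem sizes (h : WData B I kp sg hz zs L F) {e : ℕ → ℕ × ℝ → Fin 14 → ℝ} {C0 : ℝ}
    (he : ∀ᶠ n in (U : Filter ℕ), ∀ x ∈ I n, ∀ k, |e n x k| ≤ B.d n ^ (-C0)) :
    ∃ C : ℝ, 0 ≤ C ∧ ∀ᶠ n in (U : Filter ℕ), ∀ x ∈ I n, ∀ y : ℝ, y = B.d n ^ (-C) →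
      1 ≤ y ∧ TrueW (kp n) (sg n) (F n x) (L n x.1) ∧ |(F n x).g 0| ≤ 1 ∧
        (∀ k, |(F n x).g k| ≤ 2 * y) ∧ (∀ k, |(F n x).G k| ≤ y) ∧ (∀ k, |e n x k| ≤ y) ∧
        (∀ k, |(L n x.1).v k| ≤ y) ∧ (∀ z, |z| ≤ 1 → ∀ k, |(L n x.1).pos z k| ≤ 2 * y) ∧
        ∀ k, |(gau (kp n) (e n x) (F n x)).G k| ≤ K1 * y ^ 19 := by
  obtain ⟨C1, hC1, hbd⟩ := h.bd
  refine ⟨max C1 (max C0 0), le_max_of_le_right (le_max_right _ _), ?_⟩
  filter_upwards [h.zb, h.tru, hbd, he] with n n1' n2 n3 n4 x hx y hy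
  have m1 : B.d n ^ (-C1) ≤ y := by
    rw [hy]; exact dpow_le B n (neg_le_neg (le_max_left _ _))
  have m2' : B.d n ^ (-C0) ≤ y := by
    rw [hy]; exact dpow_le B n (neg_le_neg ((le_max_left _ _).trans (le_max_right _ _)))
  have m3 : 1 ≤ y := by
    rw [hy, ← Real.rpow_zero (B.d n)]
    refine dpow_le B n ?_
    have : (0:ℝ) ≤ max C1 (max C0 0) := le_max_of_le_right (le_max_right _ _)
    linarith
  have tx := n2 x hx
  have bG := fun k => ((n3 x hx).1 k).trans m1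
  have bv := fun k => ((n3 x hx).2.1 k).trans m1
  have bp := fun k => ((n3 x hx).2.2 k).trans m1
  have be := fun k => (n4 x hx k).trans m2'
  have bpos : ∀ z, |z| ≤ 1 → ∀ k, |(L n x.1).pos z k| ≤ 2 * y := by
    intro z hz k
    have h1 := m2 hz (bv k)
    have h2 := a2 (bp k) h1
    have e1 : (L n x.1).pos z k = (L n x.1).p k + z * (L n x.1).v k := by
      simp only [Ln4.pos]
    rw [e1]
    linarith
  have g0 := n1' x hx
  have g1 : |(F n x).g 1| ≤ y := by rw [← tx.c]; exact bv 1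
  have g2 : |(F n x).g 2| ≤ 2 * y := by rw [← tx.A]; exact bpos _ g0 1
  have g3 : |(F n x).g 3| ≤ 2 * y := by rw [← tx.B]; exact bpos _ g0 2
  refine ⟨m3, tx, g0, fun k => ?_, bG, be, bv, bpos,
    gauG_bound (h.kp1 n) m3 g0 g1 g2 g3 bG be⟩
  fin_cases k
  · show |(F n x).g 0| ≤ 2 * y
    linarith
  · show |(F n x).g 1| ≤ 2 * y
    linarith
  · exact g2
  · exact g3

/-- **gauged flags of a marked sequence** (literal of helper464), with the size of the correction. -/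
theorem wdata_gau' (h : WData B I kp sg hz zs L F) (e : ℕ → ℕ × ℝ → Fin 14 → ℝ) {C : ℝ}
    (he : ∀ᶠ n in (U : Filter ℕ), ∀ x ∈ I n, (e n x 9 = 0 ∧ e n x 12 = 0 ∧ e n x 13 = 0) ∧
      ∀ k, |e n x k| ≤ B.d n ^ (-C)) :
    ∃ F2 : ℕ → ℕ × ℝ → FW, WData B I kp sg hz zs L F2 ∧ (∀ n x, (F2 n x).g = (F n x).g) ∧
      (∀ M : ℝ, ∀ᶠ n in (U : Filter ℕ), ∀ x ∈ I n, ∀ k,
        |(F2 n x).G k - (gau (kp n) (e n x) (F n x)).G k| ≤ B.d n ^ M) ∧
      ∀ M : ℝ, ∀ᶠ n in (U : Filter ℕ), ∀ i ∈ I n, ∀ j ∈ I n, ∀ k,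
        |coW (kp n) (F2 n i) (F2 n j) k -
          coW (kp n) (gau (kp n) (e n i) (F n i)) (gau (kp n) (e n j) (F n j)) k| ≤
            B.d n ^ M := by
  classical
  obtain ⟨C1, hC1, hsz⟩ := sizes h (he.mono fun n hn x hx => (hn x hx).2)
  set y : ℕ → ℝ := fun n => B.d n ^ (-C1) with hy
  set W : ℕ → ℝ := fun n => 2 * (sg n * GeoW778.EW (K1 * y n ^ 19) 1 (2 * y n) (y n) 2) with hW
  have K1p : 0 < K1 := by unfold K1; norm_num
  have yp : ∀ n, 0 < y n := fun n => dpow_pos B n _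
  have y1 : ∀ n, 1 ≤ y n := by
    intro n
    show 1 ≤ B.d n ^ (-C1)
    rw [← Real.rpow_zero (B.d n)]
    exact dpow_le B n (by linarith)
  have ypow : ∀ (n m : ℕ), y n ^ m = B.d n ^ (-(m * C1)) := by
    intro n m
    show (B.d n ^ (-C1)) ^ m = _
    rw [← Real.rpow_natCast, ← Real.rpow_mul (B.pos n).le]; congr 1; ring
  have W0 : ∀ n, 0 ≤ W n := by
    intro n
    have h1 := EW_nonneg (Γ := K1 * y n ^ 19) (by have := yp n; positivity) (y1 n)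
    have h2 := (h.sg0 n).le
    show 0 ≤ 2 * (sg n * GeoW778.EW (K1 * y n ^ 19) 1 (2 * y n) (y n) 2)
    positivity
  -- the correction is infinitely small
  have Wle : ∀ n, W n ≤ sg n * (4312 * K1 ^ 2 * B.d n ^ (-(41 * C1))) := by
    intro n
    have h1 := EW_bound (Γ := K1 * y n ^ 19) (by have := yp n; positivity) (y1 n)
    have e41 := ypow n 41
    push_cast at e41
    calc W n = 2 * (sg n * GeoW778.EW (K1 * y n ^ 19) 1 (2 * y n) (y n) 2) := rfl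
      _ ≤ 2 * (sg n * (2156 * ((K1 * y n ^ 19) ^ 2 * y n ^ 3))) := by
          have := (h.sg0 n).le
          gcongr
      _ = sg n * (4312 * K1 ^ 2 * y n ^ 41) := by ring
      _ = _ := by rw [e41]
  have Wsm : ∀ M : ℝ, ∀ᶠ n in (U : Filter ℕ), W n ≤ B.d n ^ M := by
    intro M
    filter_upwards [h.small (4312 * K1 ^ 2) (-(41 * C1)) M (by positivity)] with n hn
    exact (Wle n).trans hn
  -- the corrections
  set P : ℕ → ℕ × ℝ → (Fin 14 → ℝ) → Prop := fun n x δ => (∀ k, |δ k| ≤ W n) ∧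
    TrueW (kp n) (sg n) ⟨(F n x).g, (gau (kp n) (e n x) (F n x)).G + δ⟩ (L n x.1) with hP
  set D : ℕ → ℕ × ℝ → Fin 14 → ℝ := fun n x => if hx : ∃ δ, P n x δ then hx.choose else 0 with hD
  have hPD : ∀ᶠ n in (U : Filter ℕ), ∀ x ∈ I n, P n x (D n x) := by
    filter_upwards [hsz, he, h.small (77 * K1) (-(21 * C1)) 0 (by positivity)] with n n1' n2 n3 x hx
    obtain ⟨a1, a2', a3, a4, a5, a6, a7, a8, a9⟩ := n1' x hx (y n) rfl
    have hex : ∃ δ, P n x δ := by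
      have hG : ∀ k, |(F n x).G k| ≤ K1 * y n ^ 19 := fun k => by
        refine (a5 k).trans ?_
        have e1 : y n ≤ y n ^ 19 := by
          calc y n = y n ^ 1 := (pow_one _).symm
            _ ≤ y n ^ 19 := pow_le_pow_right₀ a1 (by norm_num)
        have e2 : (1:ℝ) ≤ K1 := by unfold K1; norm_num
        have e3 : 0 ≤ y n ^ 19 := by have := yp n; positivity
        nlinarith
      refine gau_fix a2' (h.sg0 n) (Γ := K1 * y n ^ 19) (V := y n) (X := 2 * y n) hG a9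
        (n2 x hx).1 a7 a8 a3 ?_
      have e21 := ypow n 21
      push_cast at e21
      rw [Real.rpow_zero] at n3
      calc sg n * GeoW778.DW (K1 * y n ^ 19) 1 (2 * y n) (y n) 2
          ≤ sg n * (77 * ((K1 * y n ^ 19) * y n ^ 2)) :=
            mul_le_mul_of_nonneg_left (DW_bound (by have := yp n; positivity) a1) (h.sg0 n).le
        _ = sg n * (77 * K1 * y n ^ 21) := by ring
        _ = sg n * (77 * K1 * B.d n ^ (-(21 * C1))) := by rw [e21]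
        _ ≤ 1 := n3
    show P n x (if hx : ∃ δ, P n x δ then hx.choose else 0)
    rw [dif_pos hex]
    exact hex.choose_spec
  refine ⟨fun n x => ⟨(F n x).g, (gau (kp n) (e n x) (F n x)).G + D n x⟩, ?_, fun _ _ => rfl,
    fun M => ?_, fun M => ?_⟩
  · refine ⟨h.kp1, h.sg0, h.hz0, h.sgs, h.gz, h.zb, hPD.mono fun n hn x hx => (hn x hx).2,
      19 * C1 + 1, by positivity, ?_⟩
    filter_upwards [hsz, hPD, Wsm 0, ev_const B (C := K1 + 1) (by positivity) one_pos]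
      with n n1' n2 n3 n4 x hx
    obtain ⟨a1, a2', a3, a4, a5, a6, a7, a8, a9⟩ := n1' x hx (y n) rfl
    have e19 := ypow n 19
    push_cast at e19
    have p19 : 1 ≤ y n ^ 19 := one_le_pow₀ a1
    have big : (K1 + 1) * y n ^ 19 ≤ B.d n ^ (-(19 * C1 + 1)) := by
      rw [show -(19 * C1 + 1) = -1 + -(19 * C1) by ring, dpow_add, ← e19]
      exact mul_le_mul_of_nonneg_right n4 (by linarith)
    have ylow : y n ≤ B.d n ^ (-(19 * C1 + 1)) := by
      show B.d n ^ (-C1) ≤ _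
      exact dpow_le B n (by linarith)
    have y0 := yp n
    refine ⟨fun k => ?_, fun k => (a7 k).trans ylow, fun k => ?_⟩
    · refine le_trans ?_ big
      show |(gau (kp n) (e n x) (F n x)).G k + D n x k| ≤ _
      have h1 := a2 (a9 k) ((n2 x hx).1 k)
      rw [Real.rpow_zero] at n3
      linarith
    · have h1 := a8 0 (by simp) k
      have e1 : (L n x.1).pos 0 k = (L n x.1).p k := by simp only [Ln4.pos]; ring
      rw [e1] at h1
      refine h1.trans (le_trans ?_ big)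
      have e2 : (2:ℝ) ≤ K1 + 1 := by unfold K1; norm_num
      have e3 : y n ≤ y n ^ 19 := by
        calc y n = y n ^ 1 := (pow_one _).symm
          _ ≤ y n ^ 19 := pow_le_pow_right₀ a1 (by norm_num)
      exact mul_le_mul e2 e3 y0.le (by linarith)
  · filter_upwards [hPD, Wsm M] with n n1' n2 x hx k
    show |(gau (kp n) (e n x) (F n x)).G k + D n x k - (gau (kp n) (e n x) (F n x)).G k| ≤ _
    rw [add_sub_cancel_left]
    exact ((n1' x hx).1 k).trans n2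
  · filter_upwards [hsz, hPD, h.small (136 * 64 * (4312 * K1 ^ 2)) (-(47 * C1)) M (by positivity)]
      with n n1' n2 n3 i hi j hj k
    obtain ⟨b1, b2, b3, b4, -⟩ := n1' j hj (y n) rfl
    have e1 := coW_corr_le (f := gau (kp n) (e n i) (F n i)) (f' := gau (kp n) (e n j) (F n j))
      (h.kp1 n) (H := 2 * y n) (by linarith) b4 (n2 i hi).1 (n2 j hj).1 k
    refine e1.trans (le_trans ?_ n3)
    have y0 := yp n
    have e47 := ypow n 47
    have e41 := ypow n 41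
    push_cast at e47 e41
    calc 136 * ((2 * y n) ^ 6 * W n)
        ≤ 136 * ((2 * y n) ^ 6 * (sg n * (4312 * K1 ^ 2 * B.d n ^ (-(41 * C1))))) := by
          have := Wle n
          gcongr
      _ = sg n * (136 * 64 * (4312 * K1 ^ 2) * y n ^ 47) := by rw [← e41]; ring
      _ = _ := by rw [e47]

/-- **gauged flags of a marked sequence** (literal of helper464) -/
theorem wdata_gau (h : WData B I kp sg hz zs L F) (e : ℕ → ℕ × ℝ → Fin 14 → ℝ) {C : ℝ}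
    (he : ∀ᶠ n in (U : Filter ℕ), ∀ x ∈ I n, (e n x 9 = 0 ∧ e n x 12 = 0 ∧ e n x 13 = 0) ∧
      ∀ k, |e n x k| ≤ B.d n ^ (-C)) :
    ∃ F2 : ℕ → ℕ × ℝ → FW, WData B I kp sg hz zs L F2 ∧ (∀ n x, (F2 n x).g = (F n x).g) ∧
      ∀ M : ℝ, ∀ᶠ n in (U : Filter ℕ), ∀ i ∈ I n, ∀ j ∈ I n, ∀ k,
        |coW (kp n) (F2 n i) (F2 n j) k -
          coW (kp n) (gau (kp n) (e n i) (F n i)) (gau (kp n) (e n j) (F n j)) k| ≤
            B.d n ^ M := by
  obtain ⟨F2, h1, h2, -, h3⟩ := wdata_gau' h e he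
  exact ⟨F2, h1, h2, h3⟩

end seq

end Crest.Agent.R136.GgA893
end

-- ▼ part R136/GDW9_778
section

/-!
# R136, [GEO-D] for the W-chart, ALL GAUGES (helper778)

* `unW_bd` : the graded units are between two powers of the first base;
* `SeqFix` : gauged flags can be corrected such that the true lines lie on their sheets (893);
* **`gmax_W`** : the count of `gD_W` for all gauged charts, uniformly in the gauge.
-/

set_option autoImplicit false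
set_option linter.unusedVariables false
set_option maxHeartbeats 400000

open Finset Filter Topology

namespace Crest.Agent.R136.GeoN778

open Crest.Agent.R138
open Crest.Agent.R138.Ex926 (Base U)
open Crest.Agent.R138.Dp76 (dpow_pos dpow_add dpow_le dpow_le_one)
open Crest.Agent.R138.Mk163 (zc zl rho alive)
open Crest.Agent.R136.MkA627
open Crest.Agent.R136.Net191
open Crest.Agent.R136.NetW191
open Crest.Agent.R136.Sh605
open Crest.Agent.R136.Wq638 (capQ N0Q)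
open Crest.Agent.R136.PrW464 (WData unW unW_pos couW wz wc wn)
open Crest.Agent.R136.GauW619 (gau)

/-! ### the units -/

/-- the graded units are between two powers -/
theorem unW_bd {uz uc un Y : ℝ} (hY : 1 ≤ Y) (z0 : 0 < uz) (c0 : 0 < uc) (n0 : 0 < un)
    (z1 : uz ≤ Y) (c1 : uc ≤ Y) (n1 : un ≤ Y) (z2 : 1 ≤ Y * uz) (c2 : 1 ≤ Y * uc)
    (n2 : 1 ≤ Y * un) (k : Fin 18) : unW uz uc un k ≤ Y ^ 9 ∧ 1 ≤ Y ^ 9 * unW uz uc un k := by
  have hY0 : 0 < Y := by linarith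
  have hlog : ∀ x : ℝ, 0 < x → x ≤ Y → 1 ≤ Y * x → |Real.log x| ≤ Real.log Y := by
    intro x hx h1 h2
    rw [abs_le]
    constructor
    · have := Real.log_nonneg h2
      rw [Real.log_mul hY0.ne' hx.ne'] at this
      linarith
    · exact Real.log_le_log hx h1
  have hz := hlog uz z0 z1 z2
  have hc := hlog uc c0 c1 c2
  have hn := hlog un n0 n1 n2
  have hu := unW_pos z0 c0 n0 k
  have e : Real.log (unW uz uc un k) = (wz k : ℝ) * Real.log uz + (wc k : ℝ) * Real.log uc +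
      (wn k : ℝ) * Real.log un := by
    unfold unW
    rw [Real.log_mul (mul_pos (zpow_pos z0 _) (zpow_pos c0 _)).ne' (zpow_pos n0 _).ne',
      Real.log_mul (zpow_pos z0 _).ne' (zpow_pos c0 _).ne', Real.log_zpow, Real.log_zpow,
      Real.log_zpow]
  have h1 : ∀ k, |wz k| ≤ 4 := by decide
  have h2 : ∀ k, |wc k| ≤ 4 := by decide
  have h3 : ∀ k, |wn k| ≤ 1 := by decide
  have a1 : |(wz k : ℝ)| ≤ 4 := by exact_mod_cast h1 k
  have a2 : |(wc k : ℝ)| ≤ 4 := by exact_mod_cast h2 k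
  have a3 : |(wn k : ℝ)| ≤ 1 := by exact_mod_cast h3 k
  have b1 : |(wz k : ℝ) * Real.log uz| ≤ 4 * Real.log Y := by
    rw [abs_mul]; exact mul_le_mul a1 hz (abs_nonneg _) (by norm_num)
  have b2 : |(wc k : ℝ) * Real.log uc| ≤ 4 * Real.log Y := by
    rw [abs_mul]; exact mul_le_mul a2 hc (abs_nonneg _) (by norm_num)
  have b3 : |(wn k : ℝ) * Real.log un| ≤ 1 * Real.log Y := by
    rw [abs_mul]; exact mul_le_mul a3 hn (abs_nonneg _) (by norm_num)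
  have b1' := abs_le.1 b1
  have b2' := abs_le.1 b2
  have b3' := abs_le.1 b3
  have e9 : Real.log (Y ^ 9) = 9 * Real.log Y := by
    rw [Real.log_pow]; norm_num
  constructor
  · rw [← Real.log_le_log_iff hu (by positivity), e, e9]
    linarith [b1'.2, b2'.2, b3'.2]
  · have h4 : 0 ≤ Real.log (Y ^ 9 * unW uz uc un k) := by
      rw [Real.log_mul (by positivity) hu.ne', e, e9]
      linarith [b1'.1, b2'.1, b3'.1]
    by_contra hcon
    push Not at hcon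
    have := Real.log_neg (by positivity) hcon
    linarith

/-! ### correction of gauged flags -/

/-- **gauged flags, corrected** : flags `F2` over the same frames, the true lines are on the sheets,
superpolynomially close to the gauged flags (helper893) -/
def SeqFix (B0 : Base) (I : ℕ → Finset (ℕ × ℝ)) (kp sg hz zs : ℕ → ℝ) (L : ℕ → ℕ → Ln4)
    (F : ℕ → ℕ × ℝ → FW) : Prop :=
  ∀ e : ℕ → ℕ × ℝ → Fin 14 → ℝ,
    (∃ C : ℝ, ∀ᶠ n in (U : Filter ℕ), ∀ j ∈ I n,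
      (e n j 9 = 0 ∧ e n j 12 = 0 ∧ e n j 13 = 0) ∧ ∀ k, |e n j k| ≤ B0.d n ^ (-C)) →
    ∃ F2 : ℕ → ℕ × ℝ → FW, WData B0 I kp sg hz zs L F2 ∧
      (∀ n x, (F2 n x).g = (F n x).g) ∧
      ∀ M : ℝ, ∀ᶠ n in (U : Filter ℕ), ∀ i ∈ I n, ∀ j ∈ I n, ∀ k,
        |coW (kp n) (F2 n i) (F2 n j) k -
          coW (kp n) (gau (kp n) (e n i) (F n i)) (gau (kp n) (e n j) (F n j)) k| ≤ B0.d n ^ M

/-- the correction exists (helper893 `wdata_gau`) -/
theorem seqFix_of {B0 : Base} {I : ℕ → Finset (ℕ × ℝ)} {kp sg hz zs : ℕ → ℝ} {L : ℕ → ℕ → Ln4}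
    {F : ℕ → ℕ × ℝ → FW} (wd : WData B0 I kp sg hz zs L F) : SeqFix B0 I kp sg hz zs L F := by
  rintro e ⟨C, he⟩
  exact GgA893.wdata_gau wd e he

/-- the level data only depend on the frames -/
theorem WLev.congr {B0 B : Base} {I : ℕ → Finset (ℕ × ℝ)} {lev : ℕ → ℚ → ℕ}
    {w : Fin 3 → ℕ → ℚ → ℝ} {kp sg hz : ℕ → ℝ} {F F2 : ℕ → ℕ × ℝ → FW} {u : ℕ → Un}
    {uz uc un : ℕ → ℝ} {w0 : ℝ} (h : WLev B0 B I lev w kp sg hz F u uz uc un w0)
    (hg : ∀ n x, (F2 n x).g = (F n x).g) : WLev B0 B I lev w kp sg hz F2 u uz uc un w0 :=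
  { h with
    slc := fun ε hε => by
      filter_upwards [h.slc ε hε] with n hn x hx
      rw [hg]; exact hn x hx
    slA := fun ε hε => by
      filter_upwards [h.slA ε hε] with n hn x hx
      rw [hg]; exact hn x hx }

/-- the units between two powers of the first base -/
theorem WLev.unit {B0 B : Base} {I : ℕ → Finset (ℕ × ℝ)} {lev : ℕ → ℚ → ℕ}
    {w : Fin 3 → ℕ → ℚ → ℝ} {kp sg hz : ℕ → ℝ} {F : ℕ → ℕ × ℝ → FW} {u : ℕ → Un}
    {uz uc un : ℕ → ℝ} {w0 : ℝ} (h : WLev B0 B I lev w kp sg hz F u uz uc un w0) :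
    ∃ C : ℝ, 0 ≤ C ∧ ∀ᶠ n in (U : Filter ℕ), ∀ k,
      unW (uz n) (uc n) (un n) k ≤ B0.d n ^ (-C) ∧
      1 ≤ B0.d n ^ (-C) * unW (uz n) (uc n) (un n) k := by
  obtain ⟨C1, h1⟩ := h.low
  obtain ⟨C2, h2⟩ := h.top
  have a1 := abs_nonneg C1
  have a2 := abs_nonneg C2
  have a3 := abs_nonneg w0
  have l1 := le_abs_self C1
  have l2 := le_abs_self C2
  have l3 := le_abs_self w0
  set D : ℝ := |C1| + |C2| + |w0| with hD
  have hD0 : 0 ≤ D := by positivity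
  refine ⟨9 * D, by positivity, ?_⟩
  filter_upwards [h1, h2, h.zc] with n g1 g2 g3 k
  have hp := fun a => dpow_pos B0 n a
  have hY : 1 ≤ B0.d n ^ (-D) :=
    Real.one_le_rpow_of_pos_of_le_one_of_nonpos (B0.pos n) (B0.lt n).le (by linarith)
  have hup : ∀ x : ℝ, x ≤ B0.d n ^ (-C1) → x ≤ B0.d n ^ (-D) := fun x hx =>
    hx.trans (dpow_le B0 n (by linarith))
  have hinv : B0.d n ^ (-D) * B0.d n ^ D = 1 := by
    rw [← dpow_add, neg_add_cancel, Real.rpow_zero]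
  have hlo : ∀ x : ℝ, B0.d n ^ D ≤ x → 1 ≤ B0.d n ^ (-D) * x := fun x hx => by
    rw [← hinv]
    exact mul_le_mul_of_nonneg_left hx (hp _).le
  have hz : B0.d n ^ D ≤ uz n := by
    refine le_trans ?_ g3
    rcases le_total 0 w0 with h0 | h0
    · refine le_trans (dpow_le B0 n (by linarith : w0 ≤ D)) ?_
      exact Real.rpow_le_rpow (B0.pos n).le (h.base n) h0
    · have : (1 : ℝ) ≤ B.d n ^ w0 :=
        Real.one_le_rpow_of_pos_of_le_one_of_nonpos (B.pos n) (B.lt n).le h0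
      exact (dpow_le_one B0 n hD0).trans this
  have hc : B0.d n ^ D ≤ uc n := by
    have i1 : B0.d n ^ C2 ≤ B0.d n ^ (-C1) * uc n :=
      g2.1.trans (mul_le_mul_of_nonneg_right g1.1 (h.c0 n).le)
    have i2 := mul_le_mul_of_nonneg_left i1 (hp C1).le
    rw [← mul_assoc, ← dpow_add, ← dpow_add, add_neg_cancel, Real.rpow_zero, one_mul] at i2
    exact (dpow_le B0 n (by linarith)).trans i2
  have hn : B0.d n ^ D ≤ un n := (dpow_le B0 n (by linarith)).trans g2.2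
  have key := unW_bd hY (h.z0 n) (h.c0 n) (h.n0 n) (hup _ g1.1) (hup _ g1.2.1) (hup _ g1.2.2)
    (hlo _ hz) (hlo _ hc) (hlo _ hn) k
  have e9 : (B0.d n ^ (-D)) ^ 9 = B0.d n ^ (-(9 * D)) := by
    rw [← Real.rpow_natCast, ← Real.rpow_mul (B0.pos n).le]
    congr 1; push_cast; ring
  rwa [e9] at key

section seq

variable {σ : Type*} {B0 B : Base} {I : ℕ → Finset (ℕ × ℝ)} {G : Geo σ (Fin 3)} {lev : ℕ → ℚ → ℕ}
    {A : ℕ → ℝ} {g s : ℝ} {τ : Fin 3 → ℝ → ℝ} {f : ℕ → ℚ → ℕ → ℤ → ℕ}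
    {b : ℕ → ℚ → ℕ → σ} {vm : ℕ → ℚ → ℝ} {w w' : Fin 3 → ℕ → ℚ → ℝ}
    {kp sg hz zs : ℕ → ℝ} {L0 L : ℕ → ℕ → Ln4} {F : ℕ → ℕ × ℝ → FW}
    {fr : ℕ → Fin 3 → V3} {c : ℕ → Ln4} {u : ℕ → Un}
    {uz uc un : ℕ → ℝ} {w0 R : ℝ} {r0 : ℕ → ℝ} {wr cr : Fin 3 → ℕ → ℝ} {q : Fin 3 → ℝ}

open Classical in
/-- **[GEO-D] for all gauges** -/
theorem gmax_W (hM : MkA B I G lev A (fun v => g * v) (fun v => s * v) τ f b vm w)
    (hG : SheetGeo G L0 r0 wr cr q) (hq : ∀ j, 0 ≤ q j)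
    (hS : SeqFix B0 I kp sg hz zs L F)
    (hC : ∀ F2 : ℕ → ℕ × ℝ → FW, WData B0 I kp sg hz zs L F2 →
      ∃ Q, WCon B0 I kp sg hz zs F2 L0 L fr c u Q)
    (hL : WLev B0 B I lev w' kp sg hz F u uz uc un w0)
    (hw : ∀ k, ∀ᶠ n in (U : Filter ℕ), 0 < w' k n 0)
    (hwr : ∀ (C : ℝ) (k : Fin 3), ∀ᶠ n in (U : Filter ℕ),
      wr k n ≤ B.d n ^ C * w' k n 0 ∧ w' k n 0 ≤ B.d n ^ C * cr k n)
    (hvm : ∀ᶠ n in (U : Filter ℕ), vm n 0 = capQ q (rho (lev n 0)) fun k => w' k n 0) :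
    ∀ p ∈ PDW B r0 lev w' w0 R,
      GmAt B I kp uz uc un F (N0Q A vm) (PrW464.DW g s q w0) p := by
  intro p hp C K hK ε hε
  obtain ⟨D, hD0, hunit⟩ := hL.unit
  -- the worst gauge
  let Gd : ℕ → (ℕ × ℝ → Fin 14 → ℝ) → Prop := fun n e =>
    ∀ j ∈ I n, (e j 9 = 0 ∧ e j 12 = 0 ∧ e j 13 = 0) ∧
      ∀ k, unW (uz n) (uc n) (un n) (Fin.natAdd 4 k) * |e j k| ≤ B.d n ^ (-C)
  let Ok : ℕ → (ℕ × ℝ → Fin 14 → ℝ) → Prop := fun n e =>
    ∀ i ∈ I n, ∀ S ⊆ I n, (∀ j ∈ S, ∀ k, |unW (uz n) (uc n) (un n) k *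
      coW (kp n) (gau (kp n) (e i) (F n i)) (gau (kp n) (e j) (F n j)) k| ≤ K * B.d n ^ p k) →
      (S.card : ℝ) ≤ N0Q A vm n * B.d n ^ (-(PrW464.DW g s q w0 p + ε))
  have hz0 : ∀ n, Gd n (fun _ _ => 0) := fun n j _ => ⟨⟨rfl, rfl, rfl⟩, fun k => by
    rw [abs_zero, mul_zero]; exact (dpow_pos B n _).le⟩
  have hex : ∀ n, ∃ e, Gd n e ∧ ((∃ e', Gd n e' ∧ ¬ Ok n e') → ¬ Ok n e) := by
    intro n
    by_cases h : ∃ e', Gd n e' ∧ ¬ Ok n e'
    · obtain ⟨e', h1, h2⟩ := h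
      exact ⟨e', h1, fun _ => h2⟩
    · exact ⟨fun _ _ => 0, hz0 n, fun h' => absurd h' h⟩
  choose e he1 he2 using hex
  -- its corrected flags
  have hbd : ∃ C' : ℝ, ∀ᶠ n in (U : Filter ℕ), ∀ j ∈ I n,
      (e n j 9 = 0 ∧ e n j 12 = 0 ∧ e n j 13 = 0) ∧ ∀ k, |e n j k| ≤ B0.d n ^ (-C') := by
    refine ⟨|C| + D, ?_⟩
    filter_upwards [hunit] with n h1 j hj
    obtain ⟨h2, h3⟩ := he1 n j hj
    refine ⟨h2, fun k => ?_⟩
    have h4 := (h1 (Fin.natAdd 4 k)).2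
    have h5 := h3 k
    have hB : B.d n ^ (-C) ≤ B0.d n ^ (-|C|) := by
      refine (dpow_le B n (neg_le_neg (le_abs_self C))).trans ?_
      exact Real.rpow_le_rpow_of_nonpos (B0.pos n) (hL.base n) (by
        have := abs_nonneg C; linarith)
    calc |e n j k| = 1 * |e n j k| := (one_mul _).symm
      _ ≤ (B0.d n ^ (-D) * unW (uz n) (uc n) (un n) (Fin.natAdd 4 k)) * |e n j k| :=
          mul_le_mul_of_nonneg_right h4 (abs_nonneg _)
      _ = B0.d n ^ (-D) * (unW (uz n) (uc n) (un n) (Fin.natAdd 4 k) * |e n j k|) := by ring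
      _ ≤ B0.d n ^ (-D) * B0.d n ^ (-|C|) :=
          mul_le_mul_of_nonneg_left (h5.trans hB) (dpow_pos B0 n _).le
      _ = B0.d n ^ (-(|C| + D)) := by rw [← dpow_add]; congr 1; ring
  obtain ⟨F2, wd2, hg2, hcl⟩ := hS e hbd
  obtain ⟨Q, hQ⟩ := hC F2 wd2
  have hcnt := gD_W hM hG hq wd2 hQ (hL.congr hg2) hw hwr hvm p hp (K + 1) (by linarith) ε hε
  obtain ⟨P, hP0, hP⟩ : ∃ P : ℝ, 0 ≤ P ∧ ∀ k, p k ≤ P := by
    refine ⟨∑ k, |p k|, Finset.sum_nonneg fun k _ => abs_nonneg _, fun k => ?_⟩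
    exact (le_abs_self _).trans
      (Finset.single_le_sum (f := fun k => |p k|) (fun k _ => abs_nonneg _) (Finset.mem_univ k))
  filter_upwards [hcnt, hcl (D + P), hunit] with n h1 h2 h3
  by_contra hcon
  push Not at hcon
  obtain ⟨e', hg', i', hi', S', hS', hb', hlt⟩ := hcon
  have hbad : ¬ Ok n (e n) :=
    he2 n ⟨e', hg', fun hok => absurd (hok i' hi' S' hS' hb') (not_le.2 hlt)⟩
  refine hbad fun i hi S hS hb => ?_
  refine le_trans ?_ (h1 i hi)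
  norm_cast
  refine card_le_card fun j hj => ?_
  have hj1 := hS hj
  have hj2 := hb j hj
  refine mem_filter.2 ⟨hj1, fun k => ?_⟩
  unfold couW
  have hu := unW_pos (hL.z0 n) (hL.c0 n) (hL.n0 n) k
  have g1 := h2 i hi j hj1 k
  have g2 := hj2 k
  have e1 : unW (uz n) (uc n) (un n) k * coW (kp n) (F2 n i) (F2 n j) k =
      unW (uz n) (uc n) (un n) k * coW (kp n) (gau (kp n) (e n i) (F n i))
        (gau (kp n) (e n j) (F n j)) k +
      unW (uz n) (uc n) (un n) k * (coW (kp n) (F2 n i) (F2 n j) k -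
        coW (kp n) (gau (kp n) (e n i) (F n i)) (gau (kp n) (e n j) (F n j)) k) := by ring
  rw [e1]
  refine (abs_add_le _ _).trans ?_
  rw [abs_mul (unW (uz n) (uc n) (un n) k) (_ - _), abs_of_pos hu]
  have hB : B0.d n ^ P ≤ B.d n ^ p k := by
    refine le_trans (Real.rpow_le_rpow (B0.pos n).le (hL.base n) hP0) ?_
    exact dpow_le B n (hP k)
  have h4 : unW (uz n) (uc n) (un n) k * |coW (kp n) (F2 n i) (F2 n j) k -
      coW (kp n) (gau (kp n) (e n i) (F n i)) (gau (kp n) (e n j) (F n j)) k| ≤ B.d n ^ p k := by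
    calc _ ≤ B0.d n ^ (-D) * B0.d n ^ (D + P) :=
          mul_le_mul (h3 k).1 g1 (abs_nonneg _) (dpow_pos B0 n _).le
      _ = B0.d n ^ P := by rw [← dpow_add]; congr 1; ring
      _ ≤ _ := hB
  linarith

end seq

end Crest.Agent.R136.GeoN778
end

-- ▼ part R136/GDW8_778
section

/-!
# R136, [GEO-D] for the W-chart, final form (helper778)

* `pdn_W` : near an interior record point all legal boxes above the resolution are in `PDW`;
* `pdW_ne` : `PDW` is not empty;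
* **`gdmax_W`** : 464's `GDmax` on the final window of the thin branch.
-/

set_option autoImplicit false
set_option linter.unusedVariables false
set_option maxHeartbeats 400000

open Finset Filter Topology

namespace Crest.Agent.R136.GeoN778

open Crest.Agent.R138
open Crest.Agent.R138.Ex926 (Base U)
open Crest.Agent.R138.Dp76 (dpow_pos dpow_add dpow_le dpow_le_one)
open Crest.Agent.R138.Mk163 (zc zl rho alive)
open Crest.Agent.R136.MkA627
open Crest.Agent.R136.Net191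
open Crest.Agent.R136.NetW191
open Crest.Agent.R136.Sh605
open Crest.Agent.R136.Top484
open Crest.Agent.R136.NatW697 (thW qW)
open Crest.Agent.R136.Wq638 (capQ N0Q)
open Crest.Agent.R136.PrW464 (WSys GDmax BigW pathW WData unW unW_pos couW)

section pd

variable {B : Base} {r0 : ℕ → ℝ} {lev : ℕ → ℚ → ℕ} {w : Fin 3 → ℕ → ℚ → ℝ} {θ : Fin 3 → ℝ}
    {w0 R T0 cby cr : ℝ}

/-- **near an interior record point all legal boxes above the resolution are one sheet** -/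
theorem pdn_W (h : GeoQ186.W0 B r0 lev w (θ 2 - θ 1) cby cr (θ 1)) (θ1 : 0 < θ 1)
    (θ2 : θ 2 = 2 * θ 1) {v1 : ℝ} (h0 : 0 < v1) (h1 : v1 < 1) : ∃ δ : ℝ, 0 < δ ∧
      ∀ x ∈ Leg monW R, |x 0 - pathW θ w0 v1 0| ≤ δ → |x 2 - pathW θ w0 v1 2| ≤ δ →
      |x 3 - pathW θ w0 v1 3| ≤ δ → x 17 ≤ 9 * w0 + cr → x ∈ PDW B r0 lev w w0 R := by
  have e0 : pathW θ w0 v1 0 = w0 + v1 := by
    simp [pathW, PrW464.grW, PrW464.wz, PrW464.wc, PrW464.wn]
  have e2 : pathW θ w0 v1 2 = 2 * w0 + (1 - θ 1) * v1 := by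
    simp [pathW, PrW464.grW, PrW464.wz, PrW464.wc, PrW464.wn]; ring
  have e3 : pathW θ w0 v1 3 = 3 * w0 + (1 - 2 * θ 1) * v1 := by
    simp [pathW, PrW464.grW, PrW464.wz, PrW464.wc, PrW464.wn]; ring
  have hm : 0 < θ 1 * (1 - v1) := mul_pos θ1 (by linarith)
  obtain ⟨δ, hδ⟩ : ∃ δ : ℝ, δ = min (min v1 (1 - v1)) (θ 1 * (1 - v1)) / 8 := ⟨_, rfl⟩
  have d0 : 0 < min (min v1 (1 - v1)) (θ 1 * (1 - v1)) :=
    lt_min (lt_min h0 (by linarith)) hm
  have d1 : 8 * δ ≤ v1 := by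
    rw [hδ, mul_div_cancel₀ _ (by norm_num)]
    exact (min_le_left _ _).trans (min_le_left _ _)
  have d2 : 8 * δ ≤ 1 - v1 := by
    rw [hδ, mul_div_cancel₀ _ (by norm_num)]
    exact (min_le_left _ _).trans (min_le_right _ _)
  have d3 : 8 * δ ≤ θ 1 * (1 - v1) := by
    rw [hδ, mul_div_cancel₀ _ (by norm_num)]
    exact min_le_right _ _
  have hδ0 : 0 < δ := by rw [hδ]; positivity
  refine ⟨δ, hδ0, fun x hx x0 x2 x3 x17 => ?_⟩
  rw [e0] at x0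
  rw [e2] at x2
  rw [e3] at x3
  obtain ⟨a0, b0⟩ := abs_le.1 x0
  obtain ⟨a2, b2⟩ := abs_le.1 x2
  obtain ⟨a3, b3⟩ := abs_le.1 x3
  refine mem_PDW h hx (by linarith) (by linarith) (by linarith) ?_ (by linarith) ?_
  · rw [θ2]; linarith
  · linarith


end pd

section main

variable {p : Par4} {D : Dat4} {B0 : Base}
    {kp sg hz zs : ℕ → ℝ} {hκ : ∀ n, |kp n| ≤ 1} {L : ℕ → ℕ → Ln4} {F : ℕ → ℕ × ℝ → FW}
    {fr : ℕ → ℚ → ℕ × ℝ → FW} {pr : Fin 18 → ℕ → ℚ → ℝ} {sc : Fin 18 → ℕ → ℝ}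
    {uz uc un : ℕ → ℝ} {w0 R T0 : ℝ} {C0 : Fin 18 → ℝ}
    {f : ℕ → Fin 3 → V3} {c : ℕ → Ln4} {u : ℕ → Un} {Q : ℕ → ℕ × ℝ → Qd}

/-- the exponents of the mark of level `0`, the best of the levels `0` and `1` -/
theorem w0_best (hM : MkA D.B D.I (D.G p) D.lev D.A (fun v => p.g * v) (fun v => 0 * v)
      (fun j v => p.θ j * (1 - v)) D.f D.b D.vm D.w) :
    ∃ cby, GeoQ186.W0 D.B D.r0 D.lev D.w (p.θ 2 - p.θ 1) cby (max 0 (1 - p.θ 0)) (p.θ 1) := by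
  have h1 := GeoQ186.w0_one hM
  have h0 := GeoQ186.w0_zero hM
  refine ⟨max (p.θ 0 - p.θ 2) 0, (h1.mix h0).mono (le_max_left _ _) le_rfl ?_ (le_max_left _ _)⟩
  rw [max_comm]

/-- exponents of the boxes which are one sheet, thickness above the resolution -/
def PDG (B : Base) (r0 : ℕ → ℝ) (lev : ℕ → ℚ → ℕ) (w : Fin 3 → ℕ → ℚ → ℝ) (w0 R cr : ℝ) :
    Set (Fin 18 → ℝ) :=
  {x | x ∈ PDW B r0 lev w w0 R ∧ x 17 ≤ 9 * w0 + cr}

/-- `PDW` does not see the slots other than `z, A, B, N` -/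
theorem pdw_congr {B : Base} {r0 : ℕ → ℝ} {lev : ℕ → ℚ → ℕ} {w : Fin 3 → ℕ → ℚ → ℝ} {w0 R : ℝ}
    {x y : Fin 18 → ℝ} (hx : x ∈ PDW B r0 lev w w0 R) (hy : y ∈ Leg monW R) (h0 : y 0 = x 0)
    (h2 : y 2 = x 2) (h3 : y 3 = x 3) (h17 : y 17 = x 17) : y ∈ PDW B r0 lev w w0 R := by
  obtain ⟨-, a1, a2, a3, a4⟩ := hx
  refine ⟨hy, ?_, ?_, ?_, ?_⟩
  · rw [h0]; exact a1
  · rw [h0]; exact a2
  · rw [h3, h2]; exact a3
  · obtain ⟨b1, b2, b3⟩ := a4
    refine ⟨?_, ?_, ?_⟩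
    · rw [h2, h3]; exact b1
    · rw [h17]; exact b2
    · rw [h0, h2]; exact b3

/-- **D-max in the W-chart on the final window of the thin branch.** -/
theorem gdmax_W
    (h : WSys (D.G p) p.g 0 p.θ (thW p 1) B0 D.B D.I D.lev D.A D.f D.b D.vm D.w kp sg hz zs hκ
      L F fr pr sc uz uc un w0 C0)
    (hC : ∀ F2 : ℕ → ℕ × ℝ → FW, WData B0 D.I kp sg hz zs L F2 →
      ∃ Q, WCon B0 D.I kp sg hz zs F2 D.L L f c u Q)
    (hS : SeqFix B0 D.I kp sg hz zs L F)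
    (hL : WLev B0 D.B D.I D.lev D.w kp sg hz F u uz uc un w0)
    (hq : ∀ j, 0 ≤ p.q j) (θ1 : 0 < p.θ 1) (θ2 : p.θ 2 = 2 * p.θ 1)
    (big : BigW (thW p 1) w0 R T0) (hwr : Rng D.B D.wr D.cr D.w) :
    GDmax p D 1 kp uz uc un F w0 R
      (PDG D.B D.r0 D.lev D.w w0 R (max 0 (1 - thW p 1 0))) := by
  have hM := h.sys.mka
  obtain ⟨cby, hW⟩ := w0_best hM
  have hwp : ∀ k, ∀ᶠ n in (U : Filter ℕ), 0 < D.w k n 0 := fun k =>
    hM.wpos k 0 le_rfl zero_le_one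
  obtain ⟨Q, hQ⟩ := hC F h.wd
  have hpd : ∀ v1 : ℝ, 0 < v1 → v1 < 1 → ∃ δ : ℝ, 0 < δ ∧ ∀ x ∈ Leg monW R,
      |x 0 - pathW (thW p 1) w0 v1 0| ≤ δ → |x 2 - pathW (thW p 1) w0 v1 2| ≤ δ →
      |x 3 - pathW (thW p 1) w0 v1 3| ≤ δ → |x 17 - pathW (thW p 1) w0 v1 17| ≤ δ →
      x 17 ≤ 9 * w0 + max 0 (1 - thW p 1 0) →
      x ∈ PDG D.B D.r0 D.lev D.w w0 R (max 0 (1 - thW p 1 0)) := by
    intro v1 h0 h1
    obtain ⟨δ, hδ, H⟩ := pdn_W (w0 := w0) (R := R) (θ := p.θ) hW θ1 θ2 h0 h1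
    exact ⟨δ, hδ, fun x hx a0 a2 a3 _ a17 => ⟨H x hx a0 a2 a3 a17, a17⟩⟩
  refine ⟨?_, fun x hx => hx.1.1, ?_, hpd, ?_, ?_, ?_⟩
  · obtain ⟨δ, hδ, H⟩ := hpd (1 / 2) (by norm_num) (by norm_num)
    refine ⟨pathW (thW p 1) w0 (1 / 2), H _ (big.path_leg (by norm_num) (by norm_num)) ?_ ?_ ?_ ?_ ?_⟩
    · rw [sub_self, abs_zero]; exact hδ.le
    · rw [sub_self, abs_zero]; exact hδ.le
    · rw [sub_self, abs_zero]; exact hδ.le
    · rw [sub_self, abs_zero]; exact hδ.le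
    · have e : pathW (thW p 1) w0 (1 / 2) 17 = 9 * w0 + (1 - thW p 1 0) * (1 / 2) := by
        simp [pathW, PrW464.grW, PrW464.wz, PrW464.wc, PrW464.wn]
      rw [e]
      have h1 := le_max_left 0 (1 - thW p 1 0)
      have h2 := le_max_right 0 (1 - thW p 1 0)
      linarith
  · intro x hx
    exact gD_W hM (sheetGeo_geo4 D.L D.r0 D.wr D.cr p.q) hq h.wd hQ hL hwp
      (fun C k => hwr C k 0 le_rfl zero_le_one)
      (GeoQ186.vm_eq hM le_rfl zero_le_one) x hx.1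
  · intro x hx
    exact gmax_W hM (sheetGeo_geo4 D.L D.r0 D.wr D.cr p.q) hq hS hC hL hwp
      (fun C k => hwr C k 0 le_rfl zero_le_one)
      (GeoQ186.vm_eq hM le_rfl zero_le_one) x hx.1
  · intro x hx y hy h0 h2 h3 h17
    exact ⟨pdw_congr hx.1 hy h0 h2 h3 h17, by rw [h17]; exact hx.2⟩
  · intro x hx
    exact hx.2

end main

end Crest.Agent.R136.GeoN778
end

-- ▼ part R136/PrW8_464
section

/-!
# R136, wrapper `J2 → PreQ` for the W-chart (helper464), part 8: hand-over of the thin branch of U6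

`ThinC` : everything about the first thin window in normal coordinates; `thinPre_of_C` : `ThinC` ⊢
`NatW697.ThinPre` (flags 650, second zoom 627, D-max 778).
-/

set_option autoImplicit false
set_option linter.unusedVariables false

open Finset Filter Topology

namespace Crest.Agent.R136.PrW464

open Crest.Agent.R138
open Crest.Agent.R138.Ex926 (Base U QProf)
open Crest.Agent.R138.Dp76 (dpow_pos dpow_add dpow_le dpow_le_one)
open Crest.Agent.R138.Mk163 (zc zl rho alive own)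
open Crest.Agent.R138.MkRef627 (lc kc)
open Crest.Agent.R136.MkA627
open Crest.Agent.R136.Net191
open Crest.Agent.R136.NetW191
open Crest.Agent.R136.Sh605
open Crest.Agent.R136.TD627
open Crest.Agent.R136.Top484
open Crest.Agent.R136.NatT550 (ParOk)
open Crest.Agent.R136.NatW697 (thW qW SlotOkW ThinPre)
open Crest.Agent.R136.Wq638 (capQ EQ EQ_eq N0Q vm_eq gH_Q)
open Crest.Agent.R136.GW650 (prG)
open Crest.Agent.R136.Fw650 (ThinG TiltG FlagsW flags_of flW hW rhN)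
open Crest.Agent.R136.GeoN778 (WCon Qw WLev wlev_of carry_Qw Un Qd)

/-- **the first thin window in normal coordinates.**  `D` = data of the window (base `D.B`), `L` =
model lines, `Mk v n c` = flags of the marks, container: frame `f`, origin `c`, units `u`, quadrics
`Q`. -/
structure ThinC (p : Par4) (D : Dat4) (kp sg hz zs : ℕ → ℝ) (L : ℕ → ℕ → Ln4)
    (wA wB a : ℕ → ℚ → ℝ) (Mk : ℚ → ℕ → ℕ × ℤ → Fin 14 → ℝ) (E : ℚ → ℕ → ℕ × ℤ → ℝ)
    (f : ℕ → Fin 3 → V3) (c : ℕ → Ln4) (u : ℕ → Un) (Q : ℕ → ℕ × ℝ → Qd) : Prop where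
  mka : MkA D.B D.I (D.G p) D.lev D.A (fun v => p.g * v) (fun v => 0 * v)
    (fun j v => p.θ j * (1 - v)) D.f D.b D.vm D.w
  thin : ThinG D.B D.I D.lev D.f kp sg hz zs L wA wB a Mk E
  linA : GW650.Lin D.B wA (1 + -p.θ 1)
  lina : GW650.Lin D.B a (1 - p.θ 0)
  tilt : ∃ C : ℝ, 0 ≤ C ∧ TiltG D.B D.I (hW kp hz zs L D.lev D.f Mk) (prG (rhN D.lev hz) wA a) C
  con : WCon D.B D.I kp sg hz zs (flW kp sg hz zs L D.lev D.f Mk (-p.θ 1) (1 - p.θ 0)) D.L L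
    f c u Q
  qw : ∃ C : ℝ, ∀ i, ∀ v : ℚ, 0 ≤ v → v ≤ 1 → ∀ δ : ℝ, 0 < δ → ∀ᶠ n in (U : Filter ℕ),
    Qw D.B D.I D.w kp sg (flW kp sg hz zs L D.lev D.f Mk (-p.θ 1) (1 - p.θ 0)) u (rhN D.lev hz)
      wA a C i n v δ
  kp0 : ∀ ε : ℝ, 0 < ε → ∀ᶠ n in (U : Filter ℕ), D.B.d n ^ ε ≤ |kp n|
  /-- range of the tests -/
  wrs : Rng D.B D.wr D.cr D.w
  /-- the container, for all flags over the same lines -/
  conG : ∀ J : ℕ → Finset (ℕ × ℝ), (∀ᶠ n in (U : Filter ℕ), J n ⊆ D.I n) →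
    ∀ F2 : ℕ → ℕ × ℝ → FW, WData D.B J kp sg hz zs L F2 →
      ∃ Q2, WCon D.B J kp sg hz zs F2 D.L L f c u Q2

/-- the range of the tests, as a carried property -/
def RngQ (D : Dat4) (n : ℕ) (v : ℚ) (δ : ℝ) : Prop :=
  0 < δ ∧ ∀ k : Fin 3, 0 < D.w k n v ∧ D.wr k n ≤ D.B.d n ^ (1 / δ) * D.w k n v ∧
    D.w k n v ≤ D.B.d n ^ (1 / δ) * D.cr k n

theorem RngQ.mono {D : Dat4} (n : ℕ) (v : ℚ) (δ δ' : ℝ) (hd : δ ≤ δ') (h : RngQ D n v δ) :
    RngQ D n v δ' := by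
  obtain ⟨h0, h⟩ := h
  have h0' : 0 < δ' := h0.trans_le hd
  have hm : D.B.d n ^ (1 / δ) ≤ D.B.d n ^ (1 / δ') :=
    dpow_le D.B n (one_div_le_one_div_of_le h0 hd)
  refine ⟨h0', fun k => ?_⟩
  obtain ⟨a1, a2, a3⟩ := h k
  have hc : 0 < D.cr k n := by
    have h1 : 0 < D.B.d n ^ (1 / δ) * D.cr k n := a1.trans_le a3
    exact (pos_iff_pos_of_mul_pos h1).1 (dpow_pos D.B n _)
  exact ⟨a1, a2.trans (mul_le_mul_of_nonneg_right hm a1.le),
    a3.trans (mul_le_mul_of_nonneg_right hm hc.le)⟩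

/-- the range of the zoomed data -/
theorem Zm.rng {D D' : Dat4} {H : ℕ → ℝ} {mm : ℕ → ℚ → ℚ} (h : Zm D H mm D')
    (hQ : ∀ v : ℚ, 0 ≤ v → v ≤ 1 → ∀ δ : ℝ, 0 < δ → ∀ᶠ n in (U : Filter ℕ),
      RngQ D n (mm n v) (H n * δ)) : Rng D'.B D'.wr D'.cr D'.w := by
  intro C k v h0 h1
  rw [h.wr, h.cr, h.w]
  have hC0 : 0 < max C 1 := lt_max_of_lt_right one_pos
  filter_upwards [hQ v h0 h1 (1 / max C 1) (by positivity)] with n hn
  obtain ⟨H0, H1⟩ := h.H01 n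
  obtain ⟨b0, b⟩ := hn
  obtain ⟨a1, a2, a3⟩ := b k
  have e : D.B.d n ^ (1 / (H n * (1 / max C 1))) ≤ D'.B.d n ^ C := by
    rw [← h.pow]
    refine dpow_le D.B n ?_
    have e1 : 1 / (H n * (1 / max C 1)) = max C 1 / H n := by field_simp
    rw [e1, le_div_iff₀ H0]
    have h2 : H n * C ≤ H n * max C 1 := mul_le_mul_of_nonneg_left (le_max_left _ _) H0.le
    have h3 : H n * max C 1 ≤ max C 1 := mul_le_of_le_one_left hC0.le H1
    nlinarith
  have hc : 0 < D.cr k n := by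
    have h1 : 0 < D.B.d n ^ (1 / (H n * (1 / max C 1))) * D.cr k n := a1.trans_le a3
    exact (pos_iff_pos_of_mul_pos h1).1 (dpow_pos D.B n _)
  exact ⟨a2.trans (mul_le_mul_of_nonneg_right e a1.le),
    a3.trans (mul_le_mul_of_nonneg_right e hc.le)⟩

section

variable {η : ℝ} {p : Par4} {D : Dat4}
    {kp sg hz zs : ℕ → ℝ} {L : ℕ → ℕ → Ln4} {wA wB a : ℕ → ℚ → ℝ}
    {Mk : ℚ → ℕ → ℕ × ℤ → Fin 14 → ℝ} {E : ℚ → ℕ → ℕ × ℤ → ℝ}
    {f : ℕ → Fin 3 → V3} {c : ℕ → Ln4} {u : ℕ → Un} {Q : ℕ → ℕ × ℝ → Qd}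

/-- **hand-over of the thin branch of U6** -/
theorem thinPre_of_C (ok : ParOk η p) (th1 : 0 < p.θ 1) (th2 : p.θ 2 = 2 * p.θ 1)
    (hq : ∀ j, 0 ≤ p.q j) (q1 : 0 < p.q 1) (q2 : 0 < p.q 2) (h : ThinC p D kp sg hz zs L wA wB a Mk E f c u Q) :
    ∃ (D' : Dat4) (π : Equiv.Perm (Fin 3)) (kp uz uc un : ℕ → ℝ) (F : ℕ → ℕ × ℝ → FW)
      (V T : Fin 18 → Prop) (w0 R T0 : ℝ) (PD : Set (Fin 18 → ℝ)),
      ThinPre η p D' π kp uz uc un F V T w0 R T0 PD := by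
  obtain ⟨T0, w0, R, big⟩ := exists_bigW p.θ
  obtain ⟨C, hC, tilt⟩ := h.tilt
  obtain ⟨C1, hqw⟩ := h.qw
  obtain ⟨D', uz, uc, un, F, V, T, PD, hT⟩ := thin_end (π := 1) (w0 := w0) (R := R) (T0 := T0)
    h.mka h.thin h.linA h.lina hC tilt ok rfl th1 th2 q1 q2 big h.kp0
    (carryH_cons (carry_Qw hqw) (P := RngQ D) RngQ.mono (fun v h0 h1 δ hδ => by
      filter_upwards [h.wrs (1 / δ) 0 v h0 h1, h.wrs (1 / δ) 1 v h0 h1, h.wrs (1 / δ) 2 v h0 h1,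
        h.mka.wpos 0 v h0 h1, h.mka.wpos 1 v h0 h1, h.mka.wpos 2 v h0 h1] with n a0 a1 a2 b0 b1 b2
      refine ⟨hδ, fun k => ?_⟩
      fin_cases k
      · exact ⟨b0, a0⟩
      · exact ⟨b1, a1⟩
      · exact ⟨b2, a2⟩))
    (by
      intro H mm D' sc' uz uc un hZ hQ1 hu hW
      have hQ : CarryH (fun i n v δ => Qw D.B D.I D.w kp sg
          (flW kp sg hz zs L D.lev D.f Mk (-p.θ 1) (1 - p.θ 0)) u (rhN D.lev hz)
          wA a C1 i n (mm n v) (H n * δ)) :=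
        ⟨fun i n v δ δ' h1 h2 => hQ1.1 (i + 1) n v δ δ' h1 h2, fun i v h0 h1 δ hδ =>
          hQ1.2 (i + 1) v h0 h1 δ hδ⟩
      have hwr : Rng D'.B D'.wr D'.cr D'.w :=
        hZ.rng fun v h0 h1 δ hδ => hQ1.2 0 v h0 h1 δ hδ
      have hlev : WLev D.B D'.B D'.I D'.lev D'.w kp sg hz
          (flW kp sg hz zs L D.lev D.f Mk (-p.θ 1) (1 - p.θ 0)) u uz uc un w0 := by
        have h1 := hW.unit
        rw [hZ.lev] at h1 ⊢
        rw [hZ.w]
        exact wlev_of h.thin.hz0 hW.base hZ.d hZ.I (fun n v => rfl) hQ h1 hW.low hu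
      have hcon := h.conG D'.I hZ.I
      rw [← hZ.L] at hcon
      exact ⟨_, GeoN778.gdmax_W hW hcon (GeoN778.seqFix_of hW.wd) hlev hq th1 th2 big hwr⟩)
  exact ⟨D', 1, kp, uz, uc, un, F, V, T, w0, R, T0, PD, hT⟩

/-- the same with the parameters from `ParOk` -/
theorem thinPre_of_ok (ok : ParOk η p) (th2 : p.θ 2 = 2 * p.θ 1)
    (h : ThinC p D kp sg hz zs L wA wB a Mk E f c u Q) :
    ∃ (D' : Dat4) (π : Equiv.Perm (Fin 3)) (kp uz uc un : ℕ → ℝ) (F : ℕ → ℕ × ℝ → FW)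
      (V T : Fin 18 → Prop) (w0 R T0 : ℝ) (PD : Set (Fin 18 → ℝ)),
      ThinPre η p D' π kp uz uc un F V T w0 R T0 PD :=
  thinPre_of_C ok ok.θ1 th2 (by
    intro j
    fin_cases j
    · exact ok.q0.1
    · exact ok.g0.2.le
    · exact ok.q2.1.le) ok.g0.2 ok.q2.1 h

end

end Crest.Agent.R136.PrW464
end

-- ▼ part R136/Wcn4_464
section

/-!
# R136 (S0187), thin branch (helper464): `ThinC` from stage C, part 4

* `StgC` : the sequences of 321's straightening on the ball (units, projective maps, model lines,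
  flags of the level-`0` marks, 768's `Frm`);
* `thinC_of` : `StgC` + `ThinG` (650) + `ClW` (327) ⊢ `PrW464.ThinC`;
* `thinPre_of_stgC` : ⊢ `NatW697.ThinPre`.
-/

set_option autoImplicit false
set_option linter.unusedVariables false

open Finset Filter Topology

namespace Crest.Agent.R136.Wcn464

open Crest.Agent.R138
open Crest.Agent.R138.Ex926 (Base U)
open Crest.Agent.R138.Dp76 (dpow_pos dpow_add dpow_le dpow_le_one)
open Crest.Agent.R138.ArgM163 (ev_const log_dpow)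
open Crest.Agent.R138.Mk163 (zc zl rho alive)
open Crest.Agent.R138.MkRef627 (lc kc)
open Crest.Agent.R136.MkA627 Crest.Agent.R136.K4
open Crest.Agent.R136.NetW191
open Crest.Agent.R136.Sh605
open Crest.Agent.R136.ArgA163 (tau_zero)
open Crest.Agent.R136.PrW464 (WData ThinC thinPre_of_ok)
open Crest.Agent.R136.GeoN778
open Crest.Agent.R136.Wit321
open Crest.Agent.R136.GeoW778 (qS TrueW)
open Crest.Agent.R136.Thn768 (Frm)
open Crest.Agent.R136.Top484 (Par4 Dat4 Rng)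
open Crest.Agent.R136.Tlt51 (mk4 zx rh)
open Crest.Agent.R136.NatT550 (ParOk)
open Crest.Agent.R136.NatW697 (ThinPre)
open Crest.Agent.R136.Fw650 (ThinG TiltG zhN rhN flW flW_g hW)
open Crest.Agent.R136.GW650 (prG Lin)
open Crest.Agent.R136.Tn327 (ClW zmN tiltG_of_clW)

/-- **the sequences of the straightened container** -/
structure StgC (D : Dat4) (kp sg hz zs : ℕ → ℝ) (L : ℕ → ℕ → Ln4) (wA a : ℕ → ℚ → ℝ)
    (Mk : ℚ → ℕ → ℕ × ℤ → Fin 14 → ℝ) (f : ℕ → Fin 3 → V3) (c : ℕ → Ln4) (u : ℕ → Un)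
    (P : ℕ → Pj) : Prop where
  ortho : ∀ᶠ n in (U : Filter ℕ), Ortho (f n)
  ok : ∀ᶠ n in (U : Filter ℕ), (u n).Ok
  zh : ∀ᶠ n in (U : Filter ℕ), ∀ z, (u n).zh z = hz n * z - zs n
  /-- `u.H = 2 ρ(0)` -/
  r0 : ∀ᶠ n in (U : Filter ℕ), hz n * rho (D.lev n 0) = 1 / 2
  /-- the conic is not degenerate -/
  kap : ∃ k0 : ℝ, 0 < k0 ∧ ∀ᶠ n in (U : Filter ℕ), k0 ≤ |kp n|
  sm : ∀ M : ℝ, ∀ᶠ n in (U : Filter ℕ), (P n).Sm (D.B.d n ^ M)
  line : ∀ᶠ n in (U : Filter ℕ), ∀ x ∈ D.I n,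
    L n x.1 = (P n).line (ul (u n) (rl (f n) (c n) (D.L n x.1)))
  bd : ∃ C : ℝ, ∀ᶠ n in (U : Filter ℕ), ∀ x ∈ D.I n, ∀ k,
    |(ul (u n) (rl (f n) (c n) (D.L n x.1))).p k| ≤ D.B.d n ^ (-C) ∧
      |(ul (u n) (rl (f n) (c n) (D.L n x.1))).v k| ≤ D.B.d n ^ (-C)
  frm : ∀ᶠ n in (U : Filter ℕ), ∀ x ∈ D.I n, Frm (mk4 D n 0 x) (D.L n x.1) x.2 (f n)
  /-- flags of the level-`0` marks -/
  mk0 : ∀ᶠ n in (U : Filter ℕ), ∀ x ∈ D.I n, ∃ Q : Qd, (mk4 D n 0 x).q = Q.ev ∧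
    (pullQ (P n).inv (hatQ (f n) (c n) (u n) Q)).b 0 ≠ 0 ∧
    Mk 0 n (kc (D.lev n 0) (D.f n 0) x) =
      flg (kp n) (sg n) (pullQ (P n).inv (hatQ (f n) (c n) (u n) Q))
  wA : ∀ v : ℚ, 0 ≤ v → v ≤ 1 → ∀ᶠ n in (U : Filter ℕ), (u n).WA * wA n v = D.w 1 n v
  a : ∀ v : ℚ, 0 ≤ v → v ≤ 1 → ∀ᶠ n in (U : Filter ℕ), (u n).WY * (sg n * a n v) = D.w 0 n v
  s0 : ∀ᶠ n in (U : Filter ℕ), (u n).WY * sg n = D.w 0 n 0
  wid : ∀ ε : ℝ, 0 < ε → ∀ᶠ n in (U : Filter ℕ),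
    D.B.d n ^ ε * (u n).WA ≤ D.w 1 n 0 ∧ D.w 1 n 0 ≤ D.B.d n ^ (-ε) * (u n).WA ∧
    D.B.d n ^ ε * (u n).WB ≤ D.w 2 n 0 ∧ D.w 2 n 0 ≤ D.B.d n ^ (-ε) * (u n).WB

section

variable {η : ℝ} {p : Par4} {D : Dat4} {kp sg hz zs : ℕ → ℝ} {L : ℕ → ℕ → Ln4}
  {wA wB a : ℕ → ℚ → ℝ} {Mk : ℚ → ℕ → ℕ × ℤ → Fin 14 → ℝ} {E : ℚ → ℕ → ℕ × ℤ → ℝ}
  {f : ℕ → Fin 3 → V3} {c : ℕ → Ln4} {u : ℕ → Un} {P : ℕ → Pj}

/-- widths up to a factor have linear exponents -/
theorem lin_of_wid {σ' : Type*} {G : Geo σ' (Fin 3)} {B : Base} {I : ℕ → Finset (ℕ × ℝ)}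
    {lev : ℕ → ℚ → ℕ} {A : ℕ → ℝ} {cc Λ : ℝ → ℝ} {θ : Fin 3 → ℝ} {ff : ℕ → ℚ → ℕ → ℤ → ℕ}
    {b : ℕ → ℚ → ℕ → σ'} {vm : ℕ → ℚ → ℝ} {w : Fin 3 → ℕ → ℚ → ℝ}
    (h : MkA B I G lev A cc Λ (fun j v => θ j * (1 - v)) ff b vm w) (k : Fin 3) {W : ℕ → ℝ}
    {x : ℕ → ℚ → ℝ} (hW : ∀ᶠ n in (U : Filter ℕ), 0 < W n)
    (hx : ∀ v : ℚ, 0 ≤ v → v ≤ 1 → ∀ᶠ n in (U : Filter ℕ), W n * x n v = w k n v) :
    Lin B x (1 - θ k) := by
  have hp : ∀ v : ℚ, 0 ≤ v → v ≤ 1 → ∀ᶠ n in (U : Filter ℕ), 0 < x n v := fun v h0 h1 => by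
    filter_upwards [hW, hx v h0 h1, h.wpos k v h0 h1] with n a1 a2 a3
    rw [← a2] at a3
    exact (mul_pos_iff_of_pos_left a1).1 a3
  refine ⟨hp, fun v h0 h1 => (tau_zero h k h0 h1).congr' ?_⟩
  filter_upwards [hW, hx v h0 h1, hx 0 le_rfl zero_le_one, hp v h0 h1, hp 0 le_rfl zero_le_one]
    with n a1 a2 a3 a4 a5
  rw [← a2, ← a3, Real.log_mul a1.ne' a4.ne', Real.log_mul a1.ne' a5.ne']
  ring

theorem StgC.linA (S : StgC D kp sg hz zs L wA a Mk f c u P)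
    (mka : MkA D.B D.I (D.G p) D.lev D.A (fun v => p.g * v) (fun v => 0 * v)
      (fun j v => p.θ j * (1 - v)) D.f D.b D.vm D.w) : Lin D.B wA (1 + -p.θ 1) := by
  have := lin_of_wid mka 1 (W := fun n => (u n).WA) (S.ok.mono fun n h => h.A0) S.wA
  rwa [sub_eq_add_neg] at this

theorem StgC.lina (S : StgC D kp sg hz zs L wA a Mk f c u P) (sg0 : ∀ n, 0 < sg n)
    (mka : MkA D.B D.I (D.G p) D.lev D.A (fun v => p.g * v) (fun v => 0 * v)
      (fun j v => p.θ j * (1 - v)) D.f D.b D.vm D.w) : Lin D.B a (1 - p.θ 0) :=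
  lin_of_wid mka 0 (W := fun n => (u n).WY * sg n)
    (S.ok.mono fun n h => mul_pos h.Y0 (sg0 n))
    fun v h0 h1 => (S.a v h0 h1).mono fun n h => by rw [mul_assoc]; exact h

/-- **stage C ⊢ `ThinC`** -/
theorem thinC_of
    (mka : MkA D.B D.I (D.G p) D.lev D.A (fun v => p.g * v) (fun v => 0 * v)
      (fun j v => p.θ j * (1 - v)) D.f D.b D.vm D.w) (θ2 : p.θ 2 = 2 * p.θ 1)
    (hT : ThinG D.B D.I D.lev D.f kp sg hz zs L wA wB a Mk E)
    (tilt : ∃ C : ℝ, 0 ≤ C ∧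
      TiltG D.B D.I (hW kp hz zs L D.lev D.f Mk) (prG (rhN D.lev hz) wA a) C)
    (S : StgC D kp sg hz zs L wA a Mk f c u P) (wrs : Rng D.B D.wr D.cr D.w) :
    ThinC p D kp sg hz zs L wA wB a Mk E f c u fun n x => pullQ (P n) (qSd (kp n) (sg n)
      (flW kp sg hz zs L D.lev D.f Mk (-p.θ 1) (1 - p.θ 0) n x)) where
  mka := mka
  thin := hT
  linA := S.linA mka
  lina := S.lina hT.σ0 mka
  tilt := tilt
  con := wcon_of (hT.wdata mka _ _) S.ortho S.ok S.zh S.sm S.line S.bd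
  qw := qw_of mka θ2 S.ok hT.hz0 S.wA S.a S.s0 S.r0 S.wid fun δ hδ =>
    slopes hT.kp1 hT.σ0 hT.σs hT.zb S.ortho S.ok S.zh S.sm S.line S.bd S.frm S.mk0
      (hT.Mb 0 le_rfl zero_le_one) δ hδ
  wrs := wrs
  conG := fun J hJ F2 wd2 => ⟨_, wcon_of wd2 S.ortho S.ok S.zh S.sm (by
    filter_upwards [S.line, hJ] with n h1 h2 x hx using h1 x (h2 hx)) (by
    obtain ⟨C, hC⟩ := S.bd
    refine ⟨C, ?_⟩
    filter_upwards [hC, hJ] with n h1 h2 x hx using h1 x (h2 hx))⟩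
  kp0 := fun ε hε => by
    obtain ⟨k0, hk, h0⟩ := S.kap
    filter_upwards [h0, ev_const D.B (C := 1 / k0) (by positivity) hε] with n h1 h2
    refine le_trans ?_ h1
    have dp := dpow_pos D.B n ε
    rw [Real.rpow_neg (D.B.pos n).le, one_div, inv_le_inv₀ hk dp] at h2
    exact h2

/-- **stage C ⊢ `ThinPre`** -/
theorem thinPre_of_stgC (ok : ParOk η p)
    (mka : MkA D.B D.I (D.G p) D.lev D.A (fun v => p.g * v) (fun v => 0 * v)
      (fun j v => p.θ j * (1 - v)) D.f D.b D.vm D.w) (θ2 : p.θ 2 = 2 * p.θ 1)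
    (hT : ThinG D.B D.I D.lev D.f kp sg hz zs L wA wB a Mk E)
    (S : StgC D kp sg hz zs L wA a Mk f c u P) (wrs : Rng D.B D.wr D.cr D.w)
    (hcl : ClW D.B D.I D.lev D.f kp L (zmN D.lev hz zs) (rhN D.lev hz) wA a Mk) :
    ∃ (D' : Dat4) (π : Equiv.Perm (Fin 3)) (kp uz uc un : ℕ → ℝ) (F : ℕ → ℕ × ℝ → FW)
      (V T : Fin 18 → Prop) (w0 R T0 : ℝ) (PD : Set (Fin 18 → ℝ)),
      ThinPre η p D' π kp uz uc un F V T w0 R T0 PD :=
  thinPre_of_ok ok θ2 (thinC_of mka θ2 hT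
    (tiltG_of_clW hT mka (S.linA mka) (S.lina hT.σ0 mka) hcl) S wrs)

end

end Crest.Agent.R136.Wcn464
end

-- ▼ part R136/Wcn5_464
section

/-!
# R136 (S0187), thin branch (helper464): `ThinPre` from stage C, part 5

`stgC_of` : 321's `StcA` restricted to a part of good incidences ⊢ `StgC`; `thinPre_of_stcA` :
`StcA` + the output of 650's `exists_thinG` ⊢ `ThinPre`.
-/

set_option autoImplicit false
set_option linter.unusedVariables false

open Finset Filter Topology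

namespace Crest.Agent.R136.Wcn464

open Crest.Agent.R138
open Crest.Agent.R138.Ex926 (Base U)
open Crest.Agent.R138.Dp76 (dpow_pos dpow_add dpow_le dpow_le_one)
open Crest.Agent.R138.Mk163 (zc zl rho alive)
open Crest.Agent.R138.MkRef627 (lc kc mem_alive)
open Crest.Agent.R136.MkA627 Crest.Agent.R136.K4
open Crest.Agent.R136.NetW191
open Crest.Agent.R136.Sh605
open Crest.Agent.R136.GeoN778
open Crest.Agent.R136.Wit321
open Crest.Agent.R136.Thn768 (Frm)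
open Crest.Agent.R136.Top484 (Par4 Dat4 Rng)
open Crest.Agent.R136.Tlt51 (mk4 zx rh)
open Crest.Agent.R136.NatT550 (ParOk)
open Crest.Agent.R136.NatW697 (ThinPre)
open Crest.Agent.R136.Fw650 (ThinG TiltG zhN rhN)
open Crest.Agent.R136.GW650 (prG Lin)
open Crest.Agent.R136.Tn327 (ClW zmN)
open Crest.Agent.R136.Stc321 (CtD StcA Gd hzS zsS LS wAS wBS aS MkS qdOf)
open Crest.Agent.R136.Stk464 (qdOf_spec)

section

variable {η : ℝ} {p : Par4} {D : Dat4} {K : ℕ → CtD} {x0 : ℕ → ℕ × ℝ} {I' : ℕ → Finset (ℕ × ℝ)}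

/-- **`StgC` from `StcA`** -/
theorem stgC_of (hs : StcA p D K x0)
    (mka : MkA D.B I' (D.G p) D.lev D.A (fun v => p.g * v) (fun v => 0 * v)
      (fun j v => p.θ j * (1 - v)) D.f D.b D.vm D.w) (hI : ∀ n, I' n ⊆ D.I n) {C : ℝ}
    (hgd : ∀ᶠ n in (U : Filter ℕ), ∀ x ∈ I' n, Gd D K C n x) :
    StgC { D with I := I' } (fun n => (K n).κ) (fun n => (K n).σ) (hzS K) (zsS K) (LS D K)
      (wAS D K) (aS D) (MkS D K) (fun n => (K n).f) (fun n => (K n).c) (fun n => (K n).u)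
      (fun n => (K n).P) where
  ortho := Eventually.of_forall hs.ortho
  ok := Eventually.of_forall hs.ok
  zh := Eventually.of_forall fun n z => by
    have := (hs.ok n).H0.ne'
    show (z - (K n).u.zc) / (K n).u.H = 1 / (K n).u.H * z - (K n).u.zc / (K n).u.H
    field_simp
  r0 := by
    filter_upwards [hs.H] with n h
    show 1 / (K n).u.H * rho (D.lev n 0) = 1 / 2
    have : (0 : ℝ) < rho (D.lev n 0) := by unfold rho; positivity
    rw [h]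
    field_simp
  kap := ⟨1 / 5, by norm_num, hs.kp0⟩
  sm := hs.sm
  line := Eventually.of_forall fun n x hx => rfl
  bd := ⟨C, hgd.mono fun n h x hx => (h x hx).1⟩
  frm := hs.frm.mono fun n h x hx => h x (hI n hx)
  mk0 := by
    filter_upwards [hgd, mka.mark 0 le_rfl zero_le_one] with n h1 h2 x hx
    obtain ⟨m1, m2, m3, m4⟩ := h2 (zc (D.lev n 0) x.2) x.1 (mem_alive.2 ⟨x, hx, rfl, rfl⟩)
    exact ⟨qdOf (mk4 D n 0 x).q, (qdOf_spec m2.1.isQ).1, (h1 x hx).2.1, rfl⟩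
  wA := fun v _ _ => Eventually.of_forall fun n => by
    have := (hs.ok n).A0.ne'
    show (K n).u.WA * (D.w 1 n v / (K n).u.WA) = D.w 1 n v
    field_simp
  a := fun v _ _ => by
    filter_upwards [hs.σw, mka.wpos 0 0 le_rfl zero_le_one] with n a1 a2
    show (K n).u.WY * ((K n).σ * (D.w 0 n v / D.w 0 n 0)) = D.w 0 n v
    rw [← mul_assoc, a1]
    have := a2.ne'
    field_simp
  s0 := hs.σw
  wid := hs.wid

/-- **`ThinPre` from `StcA` and the assembly** -/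
theorem thinPre_of_stcA (ok : ParOk η p) (θ2 : p.θ 2 = 2 * p.θ 1) (hs : StcA p D K x0)
    {E : ℚ → ℕ → ℕ × ℤ → ℝ} {C : ℝ} (hI : ∀ n, I' n ⊆ D.I n)
    (mka : MkA D.B I' (D.G p) D.lev D.A (fun v => p.g * v) (fun v => 0 * v)
      (fun j v => p.θ j * (1 - v)) D.f D.b D.vm D.w) (wrs : Rng D.B D.wr D.cr D.w)
    (hgd : ∀ᶠ n in (U : Filter ℕ), ∀ x ∈ I' n, Gd D K C n x)
    (hT : ThinG D.B I' D.lev D.f (fun n => (K n).κ) (fun n => (K n).σ) (hzS K) (zsS K)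
      (LS D K) (wAS D K) (wBS D K) (aS D) (MkS D K) E)
    (hcl : ClW D.B I' D.lev D.f (fun n => (K n).κ) (LS D K) (zmN D.lev (hzS K) (zsS K))
      (rhN D.lev (hzS K)) (wAS D K) (aS D) (MkS D K)) :
    ∃ (D' : Dat4) (π : Equiv.Perm (Fin 3)) (kp uz uc un : ℕ → ℝ) (F : ℕ → ℕ × ℝ → FW)
      (V T : Fin 18 → Prop) (w0 R T0 : ℝ) (PD : Set (Fin 18 → ℝ)),
      ThinPre η p D' π kp uz uc un F V T w0 R T0 PD :=
  thinPre_of_stgC (D := { D with I := I' }) ok mka θ2 hT (stgC_of hs mka hI hgd) wrs hcl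

end

end Crest.Agent.R136.Wcn464
end

-- ▼ part R136/StcZ_321
section

/-!
# R136, U6 thin side, stage C (helper321): `StcA` from the container data and the level lemmas
-/

set_option autoImplicit false
set_option linter.unusedVariables false

open Finset Filter Topology

namespace Crest.Agent.R136.Stc321

open Crest.Agent.R138.Ex926 (Base U)
open Crest.Agent.R138.Mk163 (zc zl rho)
open Crest.Agent.R138.MkRef627 (lc kc)
open Crest.Agent.R136.Sh605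
open Crest.Agent.R136.NetW191
open Crest.Agent.R136.GeoN778
open Crest.Agent.R136.Top484
open Crest.Agent.R136.Tlt51 (mk4 zx rh)
open Crest.Agent.R136.Fw650 (z0N zhN rhN)
open Crest.Agent.R136.Tn327 (CloseW zmN)
open Crest.Agent.R136.FlW464 (frW)
open Crest.Agent.R136.Thn768 (ThinW)
open Crest.Agent.R136.Stk464 (StcK)

/-- **`StcA` from `StcK` and the five level lemmas** -/
theorem stcA_of {p : Par4} {D : Dat4} {K : ℕ → CtD} {x0 : ℕ → ℕ × ℝ} (hk : StcK p D K x0)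
    (mate : ∀ C : ℝ, ∀ v : ℚ, 0 ≤ v → v ≤ 1 → ∃ C' : ℝ, ∀ᶠ n in (U : Filter ℕ), ∀ x ∈ D.I n,
      ∀ y ∈ D.I n, kc (D.lev n v) (D.f n v) y = kc (D.lev n v) (D.f n v) x → Gd D K C n x →
        Gd D K C' n y)
    (Mb : ∀ C : ℝ, ∀ v : ℚ, 0 ≤ v → v ≤ 1 → ∃ C' : ℝ, ∀ᶠ n in (U : Filter ℕ), ∀ x ∈ D.I n,
      Gd D K C n x → ((K n).Q (mk4 D n v x).q).b 0 ≠ 0 ∧
        ∀ k, |MkS D K v n (kc (D.lev n v) (D.f n v) x) k| ≤ D.B.d n ^ (-C'))
    (thick : ∀ C : ℝ, ∀ v : ℚ, 0 ≤ v → v ≤ 1 → ∀ ε : ℝ, 0 < ε → ∀ᶠ n in (U : Filter ℕ),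
      ∀ x ∈ D.I n, Gd D K C n x → ∀ z, z0N D.lev (hzS K) (zsS K) v n (zc (D.lev n v) x.2) ≤ z →
      z ≤ z0N D.lev (hzS K) (zsS K) v n (zc (D.lev n v) x.2) + rhN D.lev (hzS K) n v →
      |ht (K n).κ z ((LS D K n x.1).pos z 1) ((LS D K n x.1).pos z 2) ((LS D K n x.1).pos z 0) -
        (K n).σ * evY (MkS D K v n (kc (D.lev n v) (D.f n v) x)) z ((LS D K n x.1).pos z 1)
          ((LS D K n x.1).pos z 2) ((LS D K n x.1).pos z 0)| ≤
        (K n).σ * (aS D n v * D.B.d n ^ (-ε)))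
    (lat : ∀ C : ℝ, ∀ v : ℚ, 0 ≤ v → v ≤ 1 → ∀ ε : ℝ, 0 < ε → ∀ᶠ n in (U : Filter ℕ),
      ∀ x ∈ D.I n, ∀ y ∈ D.I n, kc (D.lev n v) (D.f n v) y = kc (D.lev n v) (D.f n v) x →
      Gd D K C n x → ∀ z, z0N D.lev (hzS K) (zsS K) v n (zc (D.lev n v) x.2) ≤ z →
      z ≤ z0N D.lev (hzS K) (zsS K) v n (zc (D.lev n v) x.2) + rhN D.lev (hzS K) n v →
      |(LS D K n y.1).pos z 1 - (LS D K n x.1).pos z 1| ≤ wAS D K n v * D.B.d n ^ (-ε) ∧
      |((LS D K n y.1).pos z 2 - (LS D K n x.1).pos z 2) +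
        2 * (K n).κ * (LS D K n x.1).v 1 *
          ((LS D K n y.1).pos z 1 - (LS D K n x.1).pos z 1)| ≤ wBS D K n v * D.B.d n ^ (-ε))
    (clw : ∃ C0 : ℝ, 0 ≤ C0 ∧ ∀ C : ℝ, ∀ u v : ℚ, 0 ≤ u → u < v → v ≤ 1 → ∀ ε : ℝ, 0 < ε →
      ∀ᶠ n in (U : Filter ℕ), ∀ x ∈ D.I n, Gd D K C n x →
      CloseW (K n).κ (frW (LS D K n x.1) (zmN D.lev (hzS K) (zsS K) v n x))
        (rhN D.lev (hzS K) n v * D.B.d n ^ ε) (wAS D K n v * D.B.d n ^ ε)
        (wAS D K n v ^ 2 / rhN D.lev (hzS K) n v * D.B.d n ^ ε)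
        (max (aS D n u) (aS D n v) * D.B.d n ^ (-(C0 * ((v : ℝ) - u)) - ε))
        (MkS D K v n (kc (D.lev n v) (D.f n v) x)) (MkS D K u n (kc (D.lev n u) (D.f n u) x))) :
    StcA p D K x0 :=
  { kp1 := hk.kp1
    σ0 := hk.σ0
    ok := hk.ok
    ortho := hk.ortho
    kp0 := hk.kp0
    sm := hk.sm
    σs := hk.σs
    YB := hk.YB
    BA := hk.BA
    σw := hk.σw
    H := hk.H
    zcc := hk.zcc
    wid := hk.wid
    frm := hk.frm
    cen := hk.cen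
    cenG := hk.cenG
    mate := mate
    Mb := Mb
    thick := thick
    lat := lat
    clw := clw
    bal := hk.bal }

end Crest.Agent.R136.Stc321
end

-- ▼ part R136/SmT_163

/-!
# R136 (S0187), U6 thin side (helper163): assembly of the thin half

`J1c` + tilt of the curved pairs + nondegeneracy + helper327's lemma + one non-flat level
⊢ `ThinW` (helper555) ⊢ `StcA` (helper321, 464, 768, 327) ⊢ ball, `ThinG`, `ClW` (helper650)
⊢ `ThinPre` (helper464, 778).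

* `MateL`, `ClwL` : the two last level lemmas; `stcA_of_mate` : `ThinW` ⊢ `StcA`;
* `SeamStcA` : the level lemmas, as a seam; `thinOut_of_thinW` : `ThinW` ⊢ `ThinOut`;
* `TiltB`, `DetB` : tilt and nondegeneracy for one data `D`; `detB_J1c` (helper335);
* `thinOut_of` : one data; `seamThinQ_of` : general; **`seamThinQ_J1c`** : over `J1c`, `Q` trivial.
-/

set_option autoImplicit false
set_option linter.unusedVariables false

open Finset Filter Topology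

namespace Crest.Agent.R136.SmT163

open Crest.Agent.R138.Ex926 (Base U)
open Crest.Agent.R138.Dp76
open Crest.Agent.R138.Mk163 (zc zl rho alive own Negl)
open Crest.Agent.R136.MkA627 Crest.Agent.R136.Sh605 Crest.Agent.R136.K4 Crest.Agent.R136.Top484
open Crest.Agent.R136.Tlt51 (mk4 zx rh Close TiltOKC Tilt4C NonDeg)
open Crest.Agent.R136.KapP335 (kapP DetP)
open Crest.Agent.R136.Thn768 (ThinW)
open Crest.Agent.R136.Us555 (FltSM Kil exists_thinW_J1c)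
open Crest.Agent.R136.NatT550 (ParOk)
open Crest.Agent.R138.MkRef627 (lc kc)
open Crest.Agent.R136.Fw650 (z0N zhN rhN)
open Crest.Agent.R136.Tn327 (CloseW zmN)
open Crest.Agent.R136.FlW464 (frW)
open Crest.Agent.R136.Stc321 (CtD StcA Gd hzS zsS LS wAS wBS aS MkS stcA_of)
open Crest.Agent.R136.Stk464 (StcK)
open Crest.Agent.R136.Ste650 (exists_thinG)
open Crest.Agent.R136.Wcn464 (thinPre_of_stcA)
open Crest.Agent.R136.Ut262 (ThinOut SeamThin SeamThinQ)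

/-- the level lemmas of stage C, as a seam -/
def SeamStcA : Prop :=
  ∀ (p : Par4) (D : Dat4), ThinW p D → ∃ (K : ℕ → CtD) (x0 : ℕ → ℕ × ℝ), StcA p D K x0

/-- **last level lemma 1** (helper650): class mates of good incidences are good -/
def MateL (D : Dat4) (K : ℕ → CtD) : Prop :=
  ∀ C : ℝ, ∀ v : ℚ, 0 ≤ v → v ≤ 1 → ∃ C' : ℝ, ∀ᶠ n in (U : Filter ℕ), ∀ x ∈ D.I n,
    ∀ y ∈ D.I n, kc (D.lev n v) (D.f n v) y = kc (D.lev n v) (D.f n v) x → Gd D K C n x →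
      Gd D K C' n y

/-- **last level lemma 2** (helper768): closeness of the sheets of two levels -/
def ClwL (D : Dat4) (K : ℕ → CtD) : Prop :=
  ∃ C0 : ℝ, 0 ≤ C0 ∧ ∀ C : ℝ, ∀ u v : ℚ, 0 ≤ u → u < v → v ≤ 1 → ∀ ε : ℝ, 0 < ε →
    ∀ᶠ n in (U : Filter ℕ), ∀ x ∈ D.I n, Gd D K C n x →
      CloseW (K n).κ (frW (LS D K n x.1) (zmN D.lev (hzS K) (zsS K) v n x))
        (rhN D.lev (hzS K) n v * D.B.d n ^ ε) (wAS D K n v * D.B.d n ^ ε)
        (wAS D K n v ^ 2 / rhN D.lev (hzS K) n v * D.B.d n ^ ε)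
        (max (aS D n u) (aS D n v) * D.B.d n ^ (-(C0 * ((v : ℝ) - u)) - ε))
        (MkS D K v n (kc (D.lev n v) (D.f n v) x)) (MkS D K u n (kc (D.lev n u) (D.f n u) x))

/-- `ThinW` ⊢ `StcA`, one data -/
theorem stcA_of_mate {p : Par4} {D : Dat4} (h : ThinW p D)
    (hm : ∀ (K : ℕ → CtD) (x0 : ℕ → ℕ × ℝ), StcK p D K x0 → MateL D K)
    (hc : ∀ (K : ℕ → CtD) (x0 : ℕ → ℕ × ℝ), StcK p D K x0 → ClwL D K) :
    ∃ (K : ℕ → CtD) (x0 : ℕ → ℕ × ℝ), StcA p D K x0 := by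
  obtain ⟨K, x0, hk⟩ := Stk464.exists_stk h
  exact ⟨K, x0, stcA_of hk (hm K x0 hk) (Stk464.Mb_all h hk) (Stk464.thick_all h hk)
    (Lat327.lat_of h hk) (hc K x0 hk)⟩

theorem seamStcA_of
    (hm : ∀ (p : Par4) (D : Dat4) (K : ℕ → CtD) (x0 : ℕ → ℕ × ℝ), ThinW p D → StcK p D K x0 →
      MateL D K)
    (hc : ∀ (p : Par4) (D : Dat4) (K : ℕ → CtD) (x0 : ℕ → ℕ × ℝ), ThinW p D → StcK p D K x0 →
      ClwL D K) : SeamStcA :=
  fun p D h => stcA_of_mate h (fun K x0 hk => hm p D K x0 h hk) fun K x0 hk => hc p D K x0 h hk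

/-- **stage C** -/
theorem thinOut_of_thinW {η : ℝ} {p : Par4} {D : Dat4} (hA : SeamStcA) (ok : ParOk η p)
    (h : ThinW p D) : ThinOut η p := by
  obtain ⟨K, x0, hs⟩ := hA p D h
  obtain ⟨I', E, C, hI, hM, hg, hT, hcl, -, -⟩ := exists_thinG h hs
  exact thinPre_of_stcA ok h.θ2 hs hI hM h.wrs hg hT hcl

/-- tilt of the curved pairs, conclusion of `Tilt4C` for the data `D` -/
def TiltB (D : Dat4) : Prop :=
  ∃ C : ℝ, 0 ≤ C ∧ ∀ u v : ℚ, 0 ≤ u → u < v → v ≤ 1 → ∀ ε : ℝ, 0 < ε →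
    Negl D.B D.I fun n x =>
      D.B.d n ^ (-(C * ((v : ℝ) - u)) - ε) * max (D.w 0 n u) (D.w 0 n v) ≤
        max (kapP (mk4 D n v x) (zx D n v x) (rh D n v) (D.L n x.1))
          (kapP (mk4 D n u x) (zx D n u x) (rh D n u) (D.L n x.1)) ∧
      ¬ TiltOKC D (D.B.d n ^ (-(C * ((v : ℝ) - u)) - ε)) u v n x

/-- nondegeneracy of the curved marks, conclusion of `NonDeg` for the data `D` -/
def DetB (D : Dat4) : Prop :=
  ∀ v : ℚ, 0 ≤ v → v ≤ 1 → ∀ ε : ℝ, 0 < ε → Negl D.B D.I fun n x =>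
    D.B.d n ^ (-ε) * (mk4 D n v x).a < kapP (mk4 D n v x) (zx D n v x) (rh D n v) (D.L n x.1) ∧
      ¬ DetP (D.B.d n ^ ε) (mk4 D n v x) (zx D n v x) (rh D n v) (D.L n x.1)

theorem detB_J1c {η : ℝ} (hη : η ≤ 1) {p : Par4} {D : Dat4} (h : J1c η p D) : DetB D :=
  fun v h0 h1 ε hε => Ndc335.nonDeg_core hη h h0 h1 hε

/-- **the thin half for one data** -/
theorem thinOut_of {η : ℝ} {p : Par4} {D : Dat4} (hA : SeamStcA) (ok : ParOk η p)
    (h : J1c η p D) (hT : TiltB D) (hN : DetB D)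
    (hK : ∀ J : ℕ → Finset (ℕ × ℝ), J1c η p { D with I := J } → Kil { D with I := J })
    {v : ℚ} {ε : ℝ} (h0 : 0 ≤ v) (h1 : v ≤ 1) (hε : 0 < ε)
    (hf : ∀ᶠ n in (U : Filter ℕ), ∀ x ∈ D.I n, ¬ FltSM D (D.B.d n ^ (-ε)) n v x) :
    ThinOut η p := by
  obtain ⟨D', hW⟩ := exists_thinW_J1c h hT hN
    (fun J hJ hd hM => hK J (Us555.J1c.sub' h hJ hd hM)) h0 h1 hε hf
  exact thinOut_of_thinW hA ok hW

/-- **THE THIN HALF OF U6** over `J1c` and any class `Q` of parameters -/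
theorem seamThinQ_of {Q : Par4 → Prop} {η : ℝ} (hA : SeamStcA)
    (hok : ∀ (p : Par4) (D : Dat4), Q p → J1c η p D → ParOk η p)
    (hT : ∀ (p : Par4) (D : Dat4), Q p → J1c η p D → TiltB D)
    (hN : ∀ (p : Par4) (D : Dat4), Q p → J1c η p D → DetB D)
    (hK : ∀ (p : Par4) (D : Dat4), Q p → J1c η p D → Kil D) : SeamThinQ Q η :=
  fun p D hQ h v ε h0 h1 hε hf => thinOut_of hA (hok p D hQ h) h (hT p D hQ h) (hN p D hQ h)
    (fun J hJ => hK p _ hQ hJ) h0 h1 hε hf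

/-- **THE THIN HALF OF U6 over `J1c`**: only the tilt of the curved pairs is left -/
theorem seamThinQ_J1c {η : ℝ} (hη : η ≤ 1) (hA : SeamStcA)
    (hT : ∀ (p : Par4) (D : Dat4), J1c η p D → TiltB D) : SeamThinQ (fun _ => True) η :=
  seamThinQ_of hA (fun p D _ h => ParOk.of_J1c h) (fun p D _ h => hT p D h)
    (fun p D _ h => detB_J1c hη h) fun p D _ h => Kil327.kil_of h

end Crest.Agent.R136.SmT163
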