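import Crest.Agent.R136.Ff4_880
import Crest.Agent.R136.Cbc_372
import Crest.Agent.R136.TopB_550
import Crest.Agent.R136.SGa4_480_Mg
import Crest.Agent.R136.OwW5_831_Mg
import Crest.Agent.R136.RwY_848_Mg
import Crest.Agent.R136.Pin3_851
import Crest.Agent.R136.CtxZ_830
import Crest.Agent.R136.Ut7_262
import Crest.Agent.R136.J1m_484_Mg
import Crest.Agent.R136.SmT_163
import Crest.Agent.R136.Mat2_464
import Crest.Agent.R136.TopD_484

-- ▼ part R136/Ff5_880
section

/-!
# R136 (S0187): `flatFree : FlatFree` (helper880; `TiltCore` is helper372's `tiltCore`)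
-/

set_option autoImplicit false

namespace Crest.Agent.R136.Ff880

/-- **the finite theorem of the flat tilt** -/
theorem flatFree : Crest.Agent.R136.Fl808.FlatFree := flatFree_of Crest.Agent.R136.Cbc372.tiltCore

end Crest.Agent.R136.Ff880
end

-- ▼ part R136/Top_484
section

/-!
# R136 (S0187): final wiring (helper484)

`Open` = the hypotheses which are still open; `ks4_of_open`, `s0187_of_open`.
-/

set_option autoImplicit false
set_option linter.unusedVariables false

open Finset Filter Topology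

namespace Crest.Agent.R136.Fin484

open Crest.Agent.R136.Top484
open Crest.Agent.R136.TopB550
open Crest.Agent.R136.NatT550
open Crest.Agent.R136.LadG697

/-- **open hypotheses** -/
structure Open (η : ℝ) : Prop where
  /-- tilt of the curved pairs: 102 / 904 / 51 over BT (879) and AL (877) -/
  tilt : ∀ (p : Par4) (D : Dat4), J1c η p D → SmT163.TiltB D
  /-- 191, 851 -/
  s35 : Pin851.Spec35
  s34 : Pin851.Spec34
  /-- 831, 312 -/
  quad : SeamQuadG
  /-- 403, 560 -/
  lin : SeamLinG

theorem rowsC {η : ℝ} (O : Open η) : RowsC :=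
  Rws938.rowsC_of (Pin851.pin3_of O.s35 O.s34) Vw848.deadhi2

/-- **thin table** -/
theorem thinTable {η : ℝ} (hη : 0 < η) (h8 : η ≤ 1 / 8) (O : Open η) : ThinTable η :=
  thinTable_res (ThO830.seamThinOb hη h8 GeoN778.gdThin) (rowsC O) CtxZ830.seamCtx
    (seamWall_of SGa480.seamGau (RL626.seamWallG_rows (rowsC O) CtxZ830.seamCtx))
    OwW831.seamOwnC OwW831.seamClose OwW831.seamCap
    (seamQuad_of SGa480.seamGau O.quad) (seamLin_of SGa480.seamGau O.lin)

/-- **U6** -/
theorem seamU6 {η : ℝ} (h1 : η ≤ 1) (O : Open η) : SeamU6J (fun p D => J1c η p D ∧ True) η :=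
  Ut262.seamU6Q_of (Q := fun _ => True) (fun p D _ h => ParOk.of_J1c h)
    (Fl808.seamTiltFQ Ff880.flatFree (fun _ => True) η)
    (SmT163.seamThinQ_J1c h1
      (SmT163.seamStcA_of (fun p D K x0 h hK => Stk464.mate_of h hK)
        fun p D K x0 h hK => Clw768.clw_of h hK) O.tilt)

theorem ks4_of_open {η : ℝ} (hη : 0 < η) (h8 : η ≤ 1 / 8) (O : Open η) : KS879.KS4 :=
  ks4_of_seamsJ (J := fun p D => J1c η p D ∧ True)
    (fun h => by
      obtain ⟨p, D, hJ⟩ := U4G879.exists_core hη h
      exact ⟨p, D, hJ, trivial⟩)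
    (seamU6 (by linarith) O) (Dry774.thickTable hη h8) (thinTable hη h8 O)


end Crest.Agent.R136.Fin484
end

-- ▼ part R136/Fin_484

/-!
# R136 (S0187): final wiring, last step (helper484)
-/

set_option autoImplicit false
set_option linter.unusedVariables false

namespace Crest.Agent.R136.Fin484

open Crest.Agent.R136.Top484
open Crest.Agent.R136.LadG697

/-- **KS4 from the five last leaves**; `η` is chosen here -/
theorem ks4_of_leaves (tilt : ∃ η : ℝ, 0 < η ∧ ∀ (p : Par4) (D : Dat4), J1c η p D → SmT163.TiltB D)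
    (s35 : Pin851.Spec35) (s34 : Pin851.Spec34) (quad : SeamQuadG) (lin : SeamLinG) :
    KS879.KS4 := by
  obtain ⟨η0, h0, hT⟩ := tilt
  have hη : 0 < min (1 / 8) η0 := lt_min (by norm_num) h0
  exact ks4_of_open hη (min_le_left _ _)
    ⟨fun p D h => hT p D (J1c.mono h (min_le_right _ _)), s35, s34, quad, lin⟩


end Crest.Agent.R136.Fin484
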