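import Crest.Agent.R136.Pl2B_860
import Crest.Agent.R136.Fl8_808
import Crest.Agent.R136.Pl2C_860
import Crest.Agent.R136.Bl6_667
import Crest.Agent.R136.Cap2_102
import Crest.Agent.R136.KapP_335
import Crest.Agent.R136.Fl1_808
import Crest.Agent.R136.Pl7d_186

-- ▼ part R136/Cod_248
section

/-!
# R136 (S0187), PLAN 2, leaf (B6a) : `CloseOfDy` (helper248)

From small tilts of the hull frames `f`, `g` of two sheets `S`, `S'` with a common line `T` to the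
angle of the long axes and the closeness of `S'` to `S`.
-/

set_option autoImplicit false
set_option linter.unusedVariables false

namespace Crest.Agent.R136.Cod248

open Crest.Agent.R136.Sh605 Crest.Agent.R136.Fl808
open Crest.Agent.R136.K4 (Plk4)
open Crest.Agent.R136.Tlt51 (Shp InP)
open Crest.Agent.R136.Deep51 (CloseC)
open Crest.Agent.R136.Tl102 (angC)
open Crest.Agent.R136.Pl2W102 (Near)
open Crest.Agent.R136.Pl2

/-- off-diagonal row and column sums agree -/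
theorem off {f g : Fin 3 → V3} (hf : Ortho f) (hg : Ortho g) :
    dt (g 1) (f 0) ^ 2 + dt (g 1) (f 2) ^ 2 = dt (g 0) (f 1) ^ 2 + dt (g 2) (f 1) ^ 2 := by
  have h1 := dt_expand hf (g 1) (g 1)
  have h2 := dt_expand hg (f 1) (f 1)
  have u1 : dt (g 1) (g 1) = 1 := by have := hg 1 1; simpa using this
  have u2 : dt (f 1) (f 1) = 1 := by have := hf 1 1; simpa using this
  rw [u1, dt_comm (f 0), dt_comm (f 1) (g 1), dt_comm (f 2) (g 1)] at h1
  rw [u2, dt_comm (f 1) (g 0), dt_comm (f 1) (g 1), dt_comm (f 1) (g 2)] at h2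
  nlinarith

theorem off_abs {f g : Fin 3 → V3} (hf : Ortho f) (hg : Ortho g) {s : ℝ}
    (h0 : |dt (g 0) (f 1)| ≤ s) (h2 : |dt (g 2) (f 1)| ≤ s) :
    |dt (g 1) (f 0)| ≤ 2 * s ∧ |dt (g 1) (f 2)| ≤ 2 * s := by
  have s0 : 0 ≤ s := (abs_nonneg _).trans h0
  have h := off hf hg
  have a0 := sq_abs (dt (g 0) (f 1))
  have a2 := sq_abs (dt (g 2) (f 1))
  have b0 := sq_abs (dt (g 1) (f 0))
  have b2 := sq_abs (dt (g 1) (f 2))
  have c0 := abs_nonneg (dt (g 0) (f 1))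
  have c2 := abs_nonneg (dt (g 2) (f 1))
  have m0 : |dt (g 0) (f 1)| ^ 2 ≤ s ^ 2 := pow_le_pow_left₀ c0 h0 2
  have m2 : |dt (g 2) (f 1)| ^ 2 ≤ s ^ 2 := pow_le_pow_left₀ c2 h2 2
  constructor
  · refine abs_le_of_sq_le_sq ?_ (by linarith)
    nlinarith [sq_nonneg (dt (g 1) (f 2))]
  · refine abs_le_of_sq_le_sq ?_ (by linarith)
    nlinarith [sq_nonneg (dt (g 1) (f 0))]

/-- `⟨x, y⟩` through an orthonormal frame -/
theorem dt3 {f : Fin 3 → V3} (hf : Ortho f) (x y : V3) :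
    |dt x y| ≤ |dt x (f 0)| * |dt (f 0) y| + |dt x (f 1)| * |dt (f 1) y| +
      |dt x (f 2)| * |dt (f 2) y| := by
  rw [dt_expand hf x y, ← abs_mul, ← abs_mul, ← abs_mul]
  exact abs_add_three _ _ _

theorem ang_core {S S' : Plk4} {f g : Fin 3 → V3} (hS : Ortho S.e) (hS' : Ortho S'.e)
    (hf : Ortho f) (hg : Ortho g) {σ τ : ℝ}
    (f01 : |dt (f 0) (S.e 1)| ≤ σ) (f10 : |dt (f 1) (S.e 0)| ≤ σ) (f12 : |dt (f 1) (S.e 2)| ≤ σ)
    (f21 : |dt (f 2) (S.e 1)| ≤ σ)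
    (g01 : |dt (g 0) (S'.e 1)| ≤ σ) (g10 : |dt (g 1) (S'.e 0)| ≤ σ)
    (g12 : |dt (g 1) (S'.e 2)| ≤ σ) (g21 : |dt (g 2) (S'.e 1)| ≤ σ)
    (h01 : |dt (g 0) (f 1)| ≤ τ) (h21 : |dt (g 2) (f 1)| ≤ τ) :
    angC S S' ≤ 3 * σ + 4 * τ := by
  have s0 : 0 ≤ σ := (abs_nonneg _).trans f01
  have t0 : 0 ≤ τ := (abs_nonneg _).trans h01
  obtain ⟨h10, h12⟩ := off_abs hf hg h01 h21
  have key : ∀ {e e' : Fin 3 → V3} {u v : Fin 3 → V3}, Ortho e → Ortho e' → Ortho u → Ortho v →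
      (∀ k, k = 0 ∨ k = 2 → |dt (u k) (e 1)| ≤ σ) → (∀ k, k = 0 ∨ k = 2 → |dt (v 1) (e' k)| ≤ σ) →
      (∀ k, k = 0 ∨ k = 2 → |dt (u 1) (v k)| ≤ 2 * τ) → ∀ k, k = 0 ∨ k = 2 →
      |dt (e 1) (e' k)| ≤ 3 * σ + 4 * τ := by
    intro e e' u v he he' hu hv c1 c2 c3 k hk
    have x1 := dt3 hu (e 1) (e' k)
    have x2 := dt3 hv (u 1) (e' k)
    have y0 := abs_dt_le_one he' hu 0 k
    have y2 := abs_dt_le_one he' hu 2 k
    have y1 := abs_dt_le_one he hu 1 1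
    have z0 := abs_dt_le_one he' hv 0 k
    have z2 := abs_dt_le_one he' hv 2 k
    have z1 := abs_dt_le_one hv hu 1 1
    have d0 := c1 0 (Or.inl rfl)
    have d2 := c1 2 (Or.inr rfl)
    have e0 := c3 0 (Or.inl rfl)
    have e2 := c3 2 (Or.inr rfl)
    have e1 := c2 k hk
    rw [dt_comm (e 1) (u 0), dt_comm (e 1) (u 1), dt_comm (e 1) (u 2)] at x1
    have m1 : |dt (u 0) (e 1)| * |dt (u 0) (e' k)| ≤ σ * 1 :=
      mul_le_mul d0 y0 (abs_nonneg _) s0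
    have m2 : |dt (u 2) (e 1)| * |dt (u 2) (e' k)| ≤ σ * 1 :=
      mul_le_mul d2 y2 (abs_nonneg _) s0
    have m3 : |dt (u 1) (e 1)| * |dt (u 1) (e' k)| ≤ 1 * |dt (u 1) (e' k)| :=
      mul_le_mul_of_nonneg_right y1 (abs_nonneg _)
    have n1 : |dt (u 1) (v 0)| * |dt (v 0) (e' k)| ≤ 2 * τ * 1 :=
      mul_le_mul e0 z0 (abs_nonneg _) (by linarith)
    have n2 : |dt (u 1) (v 2)| * |dt (v 2) (e' k)| ≤ 2 * τ * 1 :=
      mul_le_mul e2 z2 (abs_nonneg _) (by linarith)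
    have n3 : |dt (u 1) (v 1)| * |dt (v 1) (e' k)| ≤ 1 * σ :=
      mul_le_mul z1 e1 (abs_nonneg _) zero_le_one
    linarith
  have k1 := key hS hS' hf hg (by rintro k (rfl | rfl); exacts [f01, f21])
    (by rintro k (rfl | rfl); exacts [g10, g12])
    (by
      rintro k (rfl | rfl)
      · rw [dt_comm]; linarith
      · rw [dt_comm]; linarith)
  have k2 := key hS' hS hg hf (by rintro k (rfl | rfl); exacts [g01, g21])
    (by rintro k (rfl | rfl); exacts [f10, f12])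
    (by rintro k (rfl | rfl); exacts [h10, h12])
  unfold angC
  refine max_le (max_le (k1 0 (Or.inl rfl)) (k1 2 (Or.inr rfl))) (max_le ?_ ?_)
  · rw [dt_comm]; exact k2 0 (Or.inl rfl)
  · rw [dt_comm]; exact k2 2 (Or.inr rfl)

/-- coordinates of a point in the frame `f`, given its coordinates in the frame `g` -/
theorem tr_le {f g : Fin 3 → V3} (hg : Ortho g) (y : V3) (i : Fin 3) {y0 y1 y2 c0 c1 c2 : ℝ}
    (h0 : |dt (g 0) y| ≤ y0) (h1 : |dt (g 1) y| ≤ y1) (h2 : |dt (g 2) y| ≤ y2)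
    (k0 : |dt (g 0) (f i)| * y0 ≤ c0) (k1 : |dt (g 1) (f i)| * y1 ≤ c1)
    (k2 : |dt (g 2) (f i)| * y2 ≤ c2) : |dt (f i) y| ≤ c0 + c1 + c2 := by
  have h := dt3 hg (f i) y
  rw [dt_comm (f i) (g 0), dt_comm (f i) (g 1), dt_comm (f i) (g 2)] at h
  have e0 := mul_le_mul_of_nonneg_left h0 (abs_nonneg (dt (g 0) (f i)))
  have e1 := mul_le_mul_of_nonneg_left h1 (abs_nonneg (dt (g 1) (f i)))
  have e2 := mul_le_mul_of_nonneg_left h2 (abs_nonneg (dt (g 2) (f i)))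
  linarith

/-- the constants at the end -/
theorem pow_end {W N C1 : ℝ} (hW : 1 ≤ W) (hN : 1 ≤ N) (hC : 0 ≤ C1) :
    32 * ((2 * W) ^ C1) ^ 5 * W ^ 4 * N ^ 2 ≤ (2 * W * N) ^ (5 * C1 + 12) := by
  have w0 : 0 < 2 * W := by linarith
  have n0 : 0 < N := by linarith
  rw [Real.mul_rpow w0.le n0.le, Real.rpow_add w0]
  have e1 : ((2 * W) ^ C1) ^ 5 = (2 * W) ^ (5 * C1) := by
    rw [← Real.rpow_natCast ((2 * W) ^ C1) 5, ← Real.rpow_mul w0.le]
    congr 1; push_cast; ring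
  have e2 : (2 * W) ^ (12:ℝ) = 4096 * W ^ 12 := by
    rw [show (12:ℝ) = ((12:ℕ):ℝ) by norm_num, Real.rpow_natCast]
    ring
  have e3 : N ^ 2 ≤ N ^ (5 * C1 + 12) := by
    rw [← Real.rpow_natCast N 2]
    exact Real.rpow_le_rpow_of_exponent_le hN (by push_cast; linarith)
  have e4 : W ^ 4 ≤ W ^ 12 := pow_le_pow_right₀ hW (by norm_num)
  have e5 : 0 ≤ (2 * W) ^ (5 * C1) := by positivity
  rw [e1, e2]
  have w4 : 0 ≤ W ^ 4 := by positivity
  calc 32 * (2 * W) ^ (5 * C1) * W ^ 4 * N ^ 2 = (2 * W) ^ (5 * C1) * (32 * W ^ 4) * N ^ 2 := by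
        ring
    _ ≤ (2 * W) ^ (5 * C1) * (4096 * W ^ 12) * N ^ (5 * C1 + 12) := by
        refine mul_le_mul (mul_le_mul_of_nonneg_left (by linarith) e5) e3 (by positivity)
          (by positivity)

/-- **(B6a)** -/
theorem closeOfDy : CloseOfDy := by
  intro C1 hC1
  refine ⟨5 * C1 + 12, by linarith, ?_⟩
  intro S S' T f g W Y w1 w2 w1' w2' z0 ρ r j k' hW hρ hr hw1 hw2 hS hS' hT hT' n1 n2 n1' n2'
    hSY hSY' hY2 h21 g1 g1' g2 g2' FS LS FS' D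
  have hB : 1 ≤ (2 * W) ^ C1 := Real.one_le_rpow (by linarith) hC1
  set B := (2 * W) ^ C1 with hBd
  have hΛ : (1:ℝ) ≤ 2 ^ j := one_le_pow₀ one_le_two
  have hE : (1:ℝ) ≤ 2 ^ k' := one_le_pow₀ one_le_two
  set Λ : ℝ := 2 ^ j with hΛd
  set E : ℝ := 2 ^ k' with hEd
  have hN : 1 ≤ Λ * E := one_le_mul_of_one_le_of_one_le hΛ hE
  have hend := pow_end hW hN hC1
  rw [← hBd] at hend
  set N := Λ * E with hNd
  have hΛN : Λ ≤ N := le_mul_of_one_le_right (by linarith) hE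
  have hEN : E ≤ N := le_mul_of_one_le_left (by linarith) hΛ
  have W0 : 0 < W := by linarith
  have B0 : 0 < B := by linarith
  have N0 : 0 < N := by linarith
  have Λ0 : 0 < Λ := by linarith
  have E0 : 0 < E := by linarith
  have a0 : 0 < S.a := hr.trans_le hS.r0_le
  have a0' : 0 < S'.a := hr.trans_le hS'.r0_le
  have Y0 : 0 < Y := a0.trans_le hSY
  have w20' : 0 < w2' := hw2.trans_le g2
  have w10' : 0 < w1' := hw1.trans_le g1
  have s20 : 0 < S.w 2 := a0.trans_le hS.a_le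
  have s10 : 0 < S.w 1 := s20.trans_le hS.w_le
  have s20' : 0 < S'.w 2 := a0'.trans_le hS'.a_le
  have s10' : 0 < S'.w 1 := s20'.trans_le hS'.w_le
  have s00' : 0 < S'.w 0 := a0'.trans_le hS'.a_le0
  obtain ⟨n1a, n1b⟩ := n1
  obtain ⟨n2a, n2b⟩ := n2
  obtain ⟨n1a', n1b'⟩ := n1'
  obtain ⟨n2a', n2b'⟩ := n2'
  have hf := FS.ortho
  have hg := FS'.ortho
  have b21 := D.b21
  have b01 := D.b01
  have b12 := D.b12 hf hg Y0 hY2 h21
  have t10 := D.t10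
  have t20 := D.t20
  rw [← hΛd] at b21 b01 b12 t10 t20
  rw [← hEd] at t10 t20
  have W2 : 1 ≤ W ^ 2 := one_le_pow₀ hW
  have hWW : W ≤ W ^ 2 := by nlinarith
  have hBB : B ≤ B ^ 2 := by nlinarith
  constructor
  · -- the angle of the long axes
    have fr : ∀ {Q : Plk4} {x : ℝ}, w1 ≤ W * Q.w 1 → Q.w 2 ≤ W * w2 → 0 < Q.w 1 →
        x * Q.w 1 ≤ B * Q.w 2 → x ≤ B * W ^ 2 * w2 / w1 := by
      intro Q x h1 h2 h3 h4
      rw [le_div_iff₀ hw1]
      rcases le_total x 0 with hx | hx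
      · have : x * w1 ≤ 0 := mul_nonpos_of_nonpos_of_nonneg hx hw1.le
        have : 0 ≤ B * W ^ 2 * w2 := by positivity
        linarith
      · calc x * w1 ≤ x * (W * Q.w 1) := mul_le_mul_of_nonneg_left h1 hx
          _ = W * (x * Q.w 1) := by ring
          _ ≤ W * (B * Q.w 2) := mul_le_mul_of_nonneg_left h4 W0.le
          _ ≤ W * (B * (W * w2)) := by gcongr
          _ = _ := by ring
    have tr : ∀ {x : ℝ}, 0 ≤ x → x * w1' ≤ Λ * w2' → x ≤ Λ * B * w2 / w1 := by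
      intro x hx h
      rw [le_div_iff₀ hw1]
      calc x * w1 ≤ x * w1' := mul_le_mul_of_nonneg_left g1 hx
        _ ≤ Λ * w2' := h
        _ ≤ Λ * (B * w2) := mul_le_mul_of_nonneg_left g2' Λ0.le
        _ = _ := by ring
    have h := ang_core hS.ortho hS'.ortho hf hg (fr n1a n2b s10 FS.e01) (fr n1a n2b s10 FS.e10)
      (fr n1a n2b s10 FS.e12) (fr n1a n2b s10 FS.e21) (fr n1a' n2b' s10' FS'.e01)
      (fr n1a' n2b' s10' FS'.e10) (fr n1a' n2b' s10' FS'.e12) (fr n1a' n2b' s10' FS'.e21)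
      (tr (abs_nonneg _) b01) (tr (abs_nonneg _) b21)
    have h2 : angC S S' * w1 ≤ (3 * (B * W ^ 2 * w2 / w1) + 4 * (Λ * B * w2 / w1)) * w1 :=
      mul_le_mul_of_nonneg_right h hw1.le
    have h3 : (3 * (B * W ^ 2 * w2 / w1) + 4 * (Λ * B * w2 / w1)) * w1 =
        (3 * (B * W ^ 2) + 4 * (Λ * B)) * w2 := by
      field_simp
    rw [h3] at h2
    refine h2.trans (mul_le_mul_of_nonneg_right (le_trans ?_ hend) hw2.le)
    have B5 : B ≤ B ^ 5 := le_self_pow₀ hB (by norm_num)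
    have W4 : W ^ 2 ≤ W ^ 4 := pow_le_pow_right₀ hW (by norm_num)
    have W41 : 1 ≤ W ^ 4 := one_le_pow₀ hW
    have N2 : N ≤ N ^ 2 := le_self_pow₀ hN (by norm_num)
    have N21 : 1 ≤ N ^ 2 := one_le_pow₀ hN
    have c1 : B * W ^ 2 ≤ B ^ 5 * W ^ 4 * N ^ 2 := by
      calc B * W ^ 2 = B * W ^ 2 * 1 := by ring
        _ ≤ B ^ 5 * W ^ 4 * N ^ 2 := by gcongr
    have c2 : Λ * B ≤ B ^ 5 * W ^ 4 * N ^ 2 := by
      calc Λ * B = B * 1 * Λ := by ring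
        _ ≤ B ^ 5 * W ^ 4 * N ^ 2 := by
          have : Λ ≤ N ^ 2 := hΛN.trans N2
          gcongr
    nlinarith
  · -- closeness
    intro z hz hz' x hx hq
    have p0 := FS'.pt T hT' z hz hz' x hx hq
    set y := x - T.pos z with hy
    have x0 : |dt (S'.e 0) y| ≤ S'.w 0 / 8 := hx 0
    have x1 : |dt (S'.e 1) y| ≤ S'.w 1 / 8 := hx 1
    have x2 : |dt (S'.e 2) y| ≤ S'.w 2 / 8 := hx 2
    have w02 := hS'.w0_le
    have w21 := hS'.w_le
    have so := hS'.ortho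
    have one : ∀ (i l : Fin 3) {u : ℝ}, 0 ≤ u → |dt (S'.e l) (g i)| * u ≤ u := by
      intro i l u hu
      have := mul_le_mul_of_nonneg_right (abs_dt_le_one hg so l i) hu
      linarith
    have q1 : |dt (g 1) y| ≤ S'.w 1 := by
      have := tr_le (f := g) so y 1 x0 x1 x2 (one 1 0 (by positivity)) (one 1 1 (by positivity))
        (one 1 2 (by positivity))
      linarith
    have q2 : |dt (g 2) y| ≤ B * S'.w 2 := by
      have e : |dt (S'.e 1) (g 2)| * (S'.w 1 / 8) ≤ B * S'.w 2 / 8 := by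
        have := FS'.e21
        rw [dt_comm (g 2)] at this
        linarith
      have := tr_le (f := g) so y 2 x0 x1 x2 (one 2 0 (by positivity)) e
        (one 2 2 (by positivity))
      nlinarith
    have oneg : ∀ (i l : Fin 3) {u : ℝ}, 0 ≤ u → |dt (g l) (f i)| * u ≤ u := by
      intro i l u hu
      have := mul_le_mul_of_nonneg_right (abs_dt_le_one hf hg l i) hu
      linarith
    have BY0 : 0 ≤ B * Y := by positivity
    have Bw0 : 0 ≤ B * S'.w 2 := by positivity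
    have YS : Y ≤ B * W * S.w 2 := by
      calc Y ≤ w2' := hY2
        _ ≤ B * w2 := g2'
        _ ≤ B * (W * S.w 2) := mul_le_mul_of_nonneg_left n2a B0.le
        _ = _ := by ring
    have w2S : S'.w 2 ≤ W ^ 2 * S.w 2 := by
      calc S'.w 2 ≤ W * w2 := n2b'
        _ ≤ W * (W * S.w 2) := mul_le_mul_of_nonneg_left n2a W0.le
        _ = _ := by ring
    have w1S : S'.w 1 ≤ W ^ 2 * S.w 1 := by
      calc S'.w 1 ≤ W * w1 := n1b'
        _ ≤ W * (W * S.w 1) := mul_le_mul_of_nonneg_left n1a W0.le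
        _ = _ := by ring
    have hm : 1 ≤ 4 * B ^ 2 * W ^ 2 * N := by
      have : 1 ≤ B ^ 2 * W ^ 2 * N :=
        one_le_mul_of_one_le_of_one_le (one_le_mul_of_one_le_of_one_le (one_le_pow₀ hB) W2) hN
      linarith
    set m := 4 * B ^ 2 * W ^ 2 * N with hmd
    have BW : B ^ 2 * W ^ 2 ≤ B ^ 2 * W ^ 2 * N := le_mul_of_one_le_right (by positivity) hN
    have B2W : B ^ 2 * W ≤ B ^ 2 * W ^ 2 := by gcongr
    have BW2 : B * W ^ 2 ≤ B ^ 2 * W ^ 2 := by gcongr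
    have WBW : W ^ 2 ≤ B ^ 2 * W ^ 2 := le_mul_of_one_le_left (by positivity) (one_le_pow₀ hB)
    have r1 : |dt (f 1) y| ≤ m * S.w 1 := by
      have h := tr_le (f := f) hg y 1 p0 q1 q2 (oneg 1 0 BY0) (oneg 1 1 s10'.le) (oneg 1 2 Bw0)
      have e1 : B * Y ≤ B ^ 2 * W ^ 2 * N * S.w 1 := by
        calc B * Y ≤ B * (B * W * S.w 2) := mul_le_mul_of_nonneg_left YS B0.le
          _ = B ^ 2 * W * S.w 2 := by ring
          _ ≤ B ^ 2 * W ^ 2 * N * S.w 1 :=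
            mul_le_mul (B2W.trans BW) hS.w_le s20.le (by positivity)
      have e2 : S'.w 1 ≤ B ^ 2 * W ^ 2 * N * S.w 1 :=
        w1S.trans (mul_le_mul_of_nonneg_right (WBW.trans BW) s10.le)
      have e3 : B * S'.w 2 ≤ B ^ 2 * W ^ 2 * N * S.w 1 := by
        calc B * S'.w 2 ≤ B * (W ^ 2 * S.w 2) := mul_le_mul_of_nonneg_left w2S B0.le
          _ = B * W ^ 2 * S.w 2 := by ring
          _ ≤ B ^ 2 * W ^ 2 * N * S.w 1 :=
            mul_le_mul (BW2.trans BW) hS.w_le s20.le (by positivity)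
      have e4 : m * S.w 1 = 4 * (B ^ 2 * W ^ 2 * N * S.w 1) := by rw [hmd]; ring
      have e5 : 0 ≤ B ^ 2 * W ^ 2 * N * S.w 1 := by positivity
      linarith
    have r2 : |dt (f 2) y| ≤ m * S.w 2 := by
      have k1 : |dt (g 1) (f 2)| * S'.w 1 ≤ 2 * (B ^ 2 * W ^ 2 * N * S.w 2) := by
        calc |dt (g 1) (f 2)| * S'.w 1 ≤ |dt (g 1) (f 2)| * (W * w1') := by
              gcongr
              exact n1b'.trans (mul_le_mul_of_nonneg_left g1 W0.le)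
          _ = W * (|dt (g 1) (f 2)| * w1') := by ring
          _ ≤ W * (2 * (Λ * w2')) := mul_le_mul_of_nonneg_left b12 W0.le
          _ ≤ W * (2 * (N * (B * (W * S.w 2)))) := by
              gcongr
              exact g2'.trans (mul_le_mul_of_nonneg_left n2a B0.le)
          _ = 2 * (B * W ^ 2 * N * S.w 2) := by ring
          _ ≤ _ := by gcongr
      have h := tr_le (f := f) hg y 2 p0 q1 q2 (oneg 2 0 BY0) k1 (oneg 2 2 Bw0)
      have e1 : B * Y ≤ B ^ 2 * W ^ 2 * N * S.w 2 := by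
        calc B * Y ≤ B * (B * W * S.w 2) := mul_le_mul_of_nonneg_left YS B0.le
          _ = B ^ 2 * W * S.w 2 := by ring
          _ ≤ B ^ 2 * W ^ 2 * N * S.w 2 := mul_le_mul_of_nonneg_right (B2W.trans BW) s20.le
      have e3 : B * S'.w 2 ≤ B ^ 2 * W ^ 2 * N * S.w 2 := by
        calc B * S'.w 2 ≤ B * (W ^ 2 * S.w 2) := mul_le_mul_of_nonneg_left w2S B0.le
          _ = B * W ^ 2 * S.w 2 := by ring
          _ ≤ B ^ 2 * W ^ 2 * N * S.w 2 := mul_le_mul_of_nonneg_right (BW2.trans BW) s20.le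
      have e4 : m * S.w 2 = 4 * (B ^ 2 * W ^ 2 * N * S.w 2) := by rw [hmd]; ring
      linarith
    have r0 : |dt (f 0) y| ≤ m * Y := by
      have k1 : |dt (g 1) (f 0)| * S'.w 1 ≤ B ^ 2 * W ^ 2 * N * Y := by
        calc |dt (g 1) (f 0)| * S'.w 1 ≤ |dt (g 1) (f 0)| * (W * w1') := by
              gcongr
              exact n1b'.trans (mul_le_mul_of_nonneg_left g1 W0.le)
          _ = W * (|dt (g 1) (f 0)| * w1') := by ring
          _ ≤ W * (E * (Λ * Y)) := mul_le_mul_of_nonneg_left t10 W0.le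
          _ = W * N * Y := by rw [hNd]; ring
          _ ≤ B ^ 2 * W ^ 2 * N * Y := by
              have : W ≤ B ^ 2 * W ^ 2 := hWW.trans WBW
              gcongr
      have k2 : |dt (g 2) (f 0)| * (B * S'.w 2) ≤ B ^ 2 * W ^ 2 * N * Y := by
        have t : |dt (g 2) (f 0)| * w2' ≤ E * Y := by
          have : Λ * (|dt (g 2) (f 0)| * w2') ≤ Λ * (E * Y) := by
            calc _ ≤ E * (Λ * Y) := t20
              _ = _ := by ring
          exact le_of_mul_le_mul_left this Λ0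
        calc |dt (g 2) (f 0)| * (B * S'.w 2) ≤ |dt (g 2) (f 0)| * (B * (W * w2')) := by
              gcongr
              exact n2b'.trans (mul_le_mul_of_nonneg_left g2 W0.le)
          _ = B * W * (|dt (g 2) (f 0)| * w2') := by ring
          _ ≤ B * W * (E * Y) := mul_le_mul_of_nonneg_left t (by positivity)
          _ ≤ B ^ 2 * W ^ 2 * (N * Y) := by gcongr
          _ = _ := by ring
      have h := tr_le (f := f) hg y 0 p0 q1 q2 (oneg 0 0 BY0) k1 k2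
      have e1 : B * Y ≤ B ^ 2 * W ^ 2 * N * Y := by
        have : B ≤ B ^ 2 * W ^ 2 * N := by
          calc B ≤ B ^ 2 := hBB
            _ ≤ B ^ 2 * W ^ 2 := le_mul_of_one_le_right (by positivity) W2
            _ ≤ _ := BW
        exact mul_le_mul_of_nonneg_right this Y0.le
      have e4 : m * Y = 4 * (B ^ 2 * W ^ 2 * N * Y) := by rw [hmd]; ring
      have e5 : 0 ≤ B ^ 2 * W ^ 2 * N * Y := by positivity
      linarith
    obtain ⟨b0, hb, hb', hFL⟩ := LS T hT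
    have b00 : 0 < b0 := by
      by_contra hneg
      have : B * b0 ≤ 0 := mul_nonpos_of_nonneg_of_nonpos B0.le (not_lt.1 hneg)
      linarith
    have h := hFL m hm z hz hz' x r0 r1 r2
    rw [← hy] at h
    have h5 : |b0 * dt (f 0) y| ≤ B * (m * Y) := by
      rw [abs_mul, abs_of_pos b00]
      exact mul_le_mul hb' r0 (abs_nonneg _) B0.le
    have h6 : |S.q z x| ≤ B * m ^ 2 * Y + B * (m * Y) := by
      have := abs_add_le (S.q z x - b0 * dt (f 0) y) (b0 * dt (f 0) y)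
      rw [sub_add_cancel] at this
      linarith
    have m0 : 0 < m := by linarith
    have h7 : B * (m * Y) ≤ B * m ^ 2 * Y := by
      have : m ≤ m ^ 2 := le_self_pow₀ hm (by norm_num)
      calc B * (m * Y) = B * m * Y := by ring
        _ ≤ B * m ^ 2 * Y := by gcongr
    have h8 : B * m ^ 2 * Y + B * m ^ 2 * Y = 32 * B ^ 5 * W ^ 4 * N ^ 2 * Y := by
      rw [hmd]; ring
    calc |S.q z x| ≤ B * m ^ 2 * Y + B * m ^ 2 * Y := by linarith
      _ = 32 * B ^ 5 * W ^ 4 * N ^ 2 * Y := h8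
      _ ≤ _ := mul_le_mul_of_nonneg_right hend Y0.le

end Crest.Agent.R136.Cod248
end

-- ▼ part R136/Dys_140
section

/-!
# R136 (U4, PLAN 2, B6): change of the flat thickness in `Dy` (helper140)

`dy_scale` : the same base tilt `2 ^ j`, the thickness tilt `2 ^ k2` at the thickness `Y0`, and
`2 ^ k' * Y ≤ C * (2 ^ k2 * Y0)` when `Y ≤ C * Y0`.
-/

set_option autoImplicit false
set_option linter.unusedVariables false

namespace Crest.Agent.R136.Dys140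

open Crest.Agent.R136.Sh605
open Crest.Agent.R136.Fl808 (Dy exists_pow)

theorem dy_scale {e e' : Fin 3 → V3} {Y0 Y w1 w2 C : ℝ} {j k' : ℕ} (H : Dy e e' Y w1 w2 j k')
    (hY0 : 0 < Y0) (hC2 : 2 ≤ C) (hC : Y ≤ C * Y0) :
    ∃ k2 : ℕ, Dy e e' Y0 w1 w2 j k2 ∧ (2:ℝ) ^ k' * Y ≤ C * (2 ^ k2 * Y0) := by
  have hj : (0:ℝ) < 2 ^ j * Y0 := by positivity
  have hj' : (0:ℝ) < 2 ^ j := by positivity
  obtain ⟨k2, h3, h4⟩ := exists_pow
    (x := max (max (|dt (e' 1) (e 0)| * w1) (2 ^ j * (|dt (e' 2) (e 0)| * w2)))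
      (max (|dt (e' 0) (e 1)| * w1) (2 ^ j * (|dt (e' 0) (e 2)| * w2))) / (2 ^ j * Y0))
  rw [div_le_iff₀ hj] at h3
  set m := max (max (|dt (e' 1) (e 0)| * w1) (2 ^ j * (|dt (e' 2) (e 0)| * w2)))
    (max (|dt (e' 0) (e 1)| * w1) (2 ^ j * (|dt (e' 0) (e 2)| * w2))) with hm
  have a1 : |dt (e' 1) (e 0)| * w1 ≤ m := (le_max_left _ _).trans (le_max_left _ _)
  have a2 : 2 ^ j * (|dt (e' 2) (e 0)| * w2) ≤ m := (le_max_right _ _).trans (le_max_left _ _)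
  have a3 : |dt (e' 0) (e 1)| * w1 ≤ m := (le_max_left _ _).trans (le_max_right _ _)
  have a4 : 2 ^ j * (|dt (e' 0) (e 2)| * w2) ≤ m := (le_max_right _ _).trans (le_max_right _ _)
  have hp2 : (0:ℝ) < 2 ^ k2 := by positivity
  refine ⟨k2, ⟨H.b21, H.b01, H.blo, a1.trans h3, a2.trans h3, a3.trans h3, a4.trans h3, ?_⟩, ?_⟩
  · rcases h4 with h4 | h4
    · exact Or.inl h4
    · right
      have h5 : (2:ℝ) ^ k2 * (2 ^ j * Y0) ≤ 2 * m := by
        have := mul_le_mul_of_nonneg_right h4 hj.le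
        have e5 : 2 * (m / (2 ^ j * Y0)) * (2 ^ j * Y0) = 2 * m := by field_simp
        linarith
      rcases max_choice (max (|dt (e' 1) (e 0)| * w1) (2 ^ j * (|dt (e' 2) (e 0)| * w2)))
        (max (|dt (e' 0) (e 1)| * w1) (2 ^ j * (|dt (e' 0) (e 2)| * w2))) with h6 | h6
      · rw [hm, h6] at h5
        rcases max_choice (|dt (e' 1) (e 0)| * w1) (2 ^ j * (|dt (e' 2) (e 0)| * w2)) with h7 | h7
        · rw [h7] at h5; exact Or.inl h5
        · rw [h7] at h5; exact Or.inr (Or.inl h5)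
      · rw [hm, h6] at h5
        rcases max_choice (|dt (e' 0) (e 1)| * w1) (2 ^ j * (|dt (e' 0) (e 2)| * w2)) with h7 | h7
        · rw [h7] at h5; exact Or.inr (Or.inr (Or.inl h5))
        · rw [h7] at h5; exact Or.inr (Or.inr (Or.inr h5))
  · have hpp : (0:ℝ) < 2 ^ k2 * Y0 := by positivity
    have key : ∀ x : ℝ, x ≤ m → (2:ℝ) ^ k' * (2 ^ j * Y) ≤ 2 * x →
        (2:ℝ) ^ k' * Y ≤ C * (2 ^ k2 * Y0) := by
      intro x hx h
      have h5 : (2 ^ k' * Y) * 2 ^ j ≤ (2 * (2 ^ k2 * Y0)) * 2 ^ j := by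
        calc (2 ^ k' * Y) * 2 ^ j = (2:ℝ) ^ k' * (2 ^ j * Y) := by ring
          _ ≤ 2 * m := h.trans (by linarith)
          _ ≤ 2 * (2 ^ k2 * (2 ^ j * Y0)) := by linarith
          _ = _ := by ring
      have h6 := le_of_mul_le_mul_right h5 hj'
      exact h6.trans (mul_le_mul_of_nonneg_right hC2 hpp.le)
    rcases H.tlo with h | h | h | h | h
    · rw [h, pow_zero, one_mul]
      have h7 : (1:ℝ) ≤ 2 ^ k2 := one_le_pow₀ (by norm_num)
      calc Y ≤ C * Y0 := hC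
        _ = C * (1 * Y0) := by ring
        _ ≤ C * (2 ^ k2 * Y0) := by
          have : (0:ℝ) ≤ C := by linarith
          gcongr
    · exact key _ a1 h
    · exact key _ a2 h
    · exact key _ a3 h
    · exact key _ a4 h

end Crest.Agent.R136.Dys140
end

-- ▼ part R136/Btr_879
section

/-!
# R136 (S0187), PLAN 2, leaf (B6): base tilt theorem `BTR Al1` (helper879)

`btr_of` : `TiltCore`, `FlatFrame` (B1), `WideHull` (B2), `TubeL` (B3), `ShareL` (B4) ⊢ `BTR Al1`.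
-/

set_option autoImplicit false
set_option linter.unusedVariables false

open Finset

namespace Crest.Agent.R136.Btr879

open Crest.Agent.R136.Sh605 Crest.Agent.R136.Fl808 Crest.Agent.R136.Pl2
open Crest.Agent.R136.K4 (Plk4)
open Crest.Agent.R136.Tlt51 (Shp InP)
open Crest.Agent.R136.Phc248 (ph phC)
open Crest.Agent.R136.Deep51 (CloseC)
open Crest.Agent.R136.KapP335 (kapP expP DetP)
open Crest.Agent.R136.Tl102 (angC)
open Crest.Agent.R136.Pl2W102 (Near Ex2 Two1)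
open Crest.Agent.R136.Bl5667 (shp_pos kp_le lift two_lift le_lift rpow_two_lift ylevelP)
open Crest.Agent.R136.Dys140 (dy_scale)

/-! ### monotonicity of the frames -/

theorem FH.mono {C C' Y Y' : ℝ} {S : Plk4} {f : Fin 3 → V3} {z0 ρ : ℝ} (h : FH C Y S f z0 ρ)
    (h1 : 0 ≤ S.w 1) (h2 : 0 ≤ S.w 2) (hC : C ≤ C') (hY : C * Y ≤ C' * Y') :
    FH C' Y' S f z0 ρ where
  ortho := h.ortho
  e01 := h.e01.trans (mul_le_mul_of_nonneg_right hC h2)
  e10 := h.e10.trans (mul_le_mul_of_nonneg_right hC h2)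
  e12 := h.e12.trans (mul_le_mul_of_nonneg_right hC h2)
  e21 := h.e21.trans (mul_le_mul_of_nonneg_right hC h2)
  e00 := h.e00.trans (mul_le_mul_of_nonneg_right hC (abs_nonneg _))
  box := fun t t' ht ht' z hz hz' i => by
    have := h.box t t' ht ht' z hz hz' i
    fin_cases i
    · exact this.trans hY
    · exact this.trans (mul_le_mul_of_nonneg_right hC h1)
    · exact this.trans (mul_le_mul_of_nonneg_right hC h2)
  pt := fun T hT z hz hz' x hx hq => (h.pt T hT z hz hz' x hx hq).trans hY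

theorem FL.down {C C' Y Y' : ℝ} {S : Plk4} {f : Fin 3 → V3} {z0 ρ : ℝ} (h : FL C Y S f z0 ρ)
    (hC0 : 0 < C) (hC : C ≤ C') (hY : Y' ≤ Y) (hY' : C * Y ≤ C' * Y') : FL C' Y' S f z0 ρ := by
  intro T hT
  obtain ⟨b0, h1, h2, h3⟩ := h T hT
  have hb : 0 < b0 := by
    by_contra hc
    have := mul_nonpos_of_nonneg_of_nonpos hC0.le (not_lt.1 hc)
    linarith
  refine ⟨b0, h1.trans (mul_le_mul_of_nonneg_right hC hb.le), h2.trans hC, ?_⟩
  intro m hm z hz hz' x x0 x1 x2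
  have hm0 : 0 ≤ m := by linarith
  refine (h3 m hm z hz hz' x (x0.trans (mul_le_mul_of_nonneg_left hY hm0)) x1 x2).trans ?_
  calc C * m ^ 2 * Y = m ^ 2 * (C * Y) := by ring
    _ ≤ m ^ 2 * (C' * Y') := mul_le_mul_of_nonneg_left hY' (by positivity)
    _ = _ := by ring

theorem FL.up {C C' κ Y : ℝ} {S : Plk4} {f : Fin 3 → V3} {z0 ρ : ℝ} (h : FL C Y S f z0 ρ)
    (hC0 : 0 < C) (hκ : 1 ≤ κ) (hC : C * κ ≤ C') (hY : 0 ≤ Y) (h1 : 0 ≤ S.w 1)
    (h2 : 0 ≤ S.w 2) : FL C' (κ * Y) S f z0 ρ := by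
  have hκ0 : 0 ≤ κ := by linarith
  have hCC : C ≤ C' := (le_mul_of_one_le_right hC0.le hκ).trans hC
  intro T hT
  obtain ⟨b0, b1, b2, h3⟩ := h T hT
  have hb : 0 < b0 := by
    by_contra hc
    have := mul_nonpos_of_nonneg_of_nonpos hC0.le (not_lt.1 hc)
    linarith
  refine ⟨b0, b1.trans (mul_le_mul_of_nonneg_right hCC hb.le), b2.trans hCC, ?_⟩
  intro m hm z hz hz' x x0 x1 x2
  have hm0 : 0 ≤ m := by linarith
  have hmκ : m ≤ m * κ := le_mul_of_one_le_right hm0 hκ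
  have k := h3 (m * κ) (hm.trans hmκ) z hz hz' x (x0.trans (by rw [mul_assoc]))
    (x1.trans (mul_le_mul_of_nonneg_right hmκ h1)) (x2.trans (mul_le_mul_of_nonneg_right hmκ h2))
  refine k.trans ?_
  calc C * (m * κ) ^ 2 * Y = (C * κ) * (m ^ 2 * (κ * Y)) := by ring
    _ ≤ C' * (m ^ 2 * (κ * Y)) := mul_le_mul_of_nonneg_right hC (by positivity)
    _ = _ := by ring

theorem CloseC.mono {e : Fin 3 → V3} {w : V3} {q q' : ℝ → V3 → ℝ} {a E E' z0 ρ : ℝ} {T : Ln4}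
    (h : CloseC e w q a q' E T z0 ρ) (hE : E ≤ E') : CloseC e w q a q' E' T z0 ρ :=
  fun z hz hz' x hx hq => (h z hz hz' x hx hq).trans hE

/-- any constant is at most a power of `x ≥ 2` -/
theorem exc (A : ℝ) : ∃ c : ℝ, 0 ≤ c ∧ ∀ x : ℝ, 2 ≤ x → A ≤ x ^ c := by
  refine ⟨2 * max A 0, by positivity, fun x hx => ?_⟩
  have h1 : (0:ℝ) ≤ max A 0 := le_max_right _ _
  have h2 : A ≤ max A 0 := le_max_left _ _
  have h3 : (2:ℝ) ^ (2 * max A 0) ≤ x ^ (2 * max A 0) :=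
    Real.rpow_le_rpow (by norm_num) hx (by positivity)
  have h4 : (2:ℝ) ^ (2 * max A 0) = Real.exp (Real.log 2 * (2 * max A 0)) :=
    Real.rpow_def_of_pos (by norm_num) _
  have h5 := Real.add_one_le_exp (Real.log 2 * (2 * max A 0))
  have h6 : (0.69 : ℝ) ≤ Real.log 2 := by have := Real.log_two_gt_d9; linarith
  have h7 : 0.69 * (2 * max A 0) ≤ Real.log 2 * (2 * max A 0) :=
    mul_le_mul_of_nonneg_right h6 (by positivity)
  linarith

/-- frames of the classes -/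
theorem frames {CF : ℝ}
    (hF : ∀ (S : Plk4) (T : Ln4) (z0 ρ r : ℝ), 0 < ρ → 0 < r → Shp S z0 ρ r → InP T S z0 ρ →
      ∃ f : Fin 3 → V3, ∀ Y : ℝ, S.a ≤ Y → kapP S z0 ρ T ≤ Y →
        FH CF Y S f z0 ρ ∧ (Y ≤ 100 * S.w 0 → FL CF Y S f z0 ρ))
    {P : Finset ℕ} {L : ℕ → Ln4} {cu : ℕ → ℕ} {Uf : ℕ → Plk4} {z0 ρ r Y : ℝ} (hρ : 0 < ρ)
    (hr : 0 < r) (sh : ∀ t ∈ P, Shp (Uf (cu t)) z0 ρ r)
    (inU : ∀ t ∈ P, InP (L t) (Uf (cu t)) z0 ρ)
    (hY : ∀ t ∈ P, (Uf (cu t)).a ≤ Y ∧ kp (Uf (cu t)) z0 ρ (L t) ≤ Y) :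
    ∃ (eu : ℕ → Fin 3 → V3) (bu : ℕ → Ln4), ∀ t ∈ P, InP (bu (cu t)) (Uf (cu t)) z0 ρ ∧
      FH CF Y (Uf (cu t)) (eu (cu t)) z0 ρ ∧
      (Y ≤ 100 * (Uf (cu t)).w 0 → FL CF Y (Uf (cu t)) (eu (cu t)) z0 ρ) := by
  have key : ∀ c : ℕ, ∃ p : (Fin 3 → V3) × Ln4, ∀ t ∈ P, cu t = c → InP p.2 (Uf c) z0 ρ ∧
      FH CF Y (Uf c) p.1 z0 ρ ∧ (Y ≤ 100 * (Uf c).w 0 → FL CF Y (Uf c) p.1 z0 ρ) := by
    intro c
    by_cases h : ∃ t ∈ P, cu t = c
    · obtain ⟨t, ht, rfl⟩ := h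
      obtain ⟨f, hf⟩ := hF _ _ z0 ρ r hρ hr (sh t ht) (inU t ht)
      obtain ⟨h1, h2⟩ := hf Y (hY t ht).1 (hY t ht).2
      exact ⟨(f, L t), fun s hs hst => ⟨inU t ht, h1, h2⟩⟩
    · exact ⟨(fun _ => 0, L 0), fun s hs hst => absurd ⟨s, hs, hst⟩ h⟩
  choose p hp using key
  exact ⟨fun c => (p c).1, fun c => (p c).2, fun t ht => hp (cu t) t ht rfl⟩

section

variable {qm qp : Fin 3 → ℝ} {L : ℕ → Ln4} {P : Finset ℕ} {cu cv : ℕ → ℕ} {Uf Vf : ℕ → Plk4}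
  {W M a w1 w2 z0 ρ r : ℝ}

theorem pw {x s t : ℝ} (hx : 1 ≤ x) (h : s ≤ t) : x ^ s ≤ x ^ t :=
  Real.rpow_le_rpow_of_exponent_le hx h

open Classical in
/-- tubes of the first system at the widths `x ^ c1 * w1`, `x ^ c2 * w2` -/
theorem tube_one {CB CF c1 c2 cT Y : ℝ} {eu : ℕ → Fin 3 → V3} (hx : 512 ≤ 2 * W)
    (hc2 : 2 ≤ c2) (hc1 : c2 ≤ c1) (hCB0 : 0 ≤ CB) (hCF : CF ≤ (2 * W) ^ c1) (hCF0 : 0 ≤ CF)
    (hcT : (c1 + 1) * CB + c1 * (1 + qm 1) ≤ cT) (hq : 0 ≤ qm 1)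
    (H : Two1 qm qp L P cu cv Uf Vf W M a w1 w2 z0 ρ r)
    (hY0 : 0 ≤ Y) (hY : Y ≤ 26 * W * w2)
    (hB : ∀ t ∈ P, ∀ (m δ Y : ℝ) (f : Fin 3 → V3), 1 ≤ m → FH m Y (Uf (cu t)) f z0 ρ →
      Y ≤ m * w2 → w2 ≤ m * (δ * w1) → δ ≤ m →
      ((P.filter fun s => cu s = cu t ∧ ∀ z, z0 ≤ z → z ≤ z0 + ρ →
        |dt (f 1) ((L s).pos z - (L t).pos z)| ≤ δ * w1).card : ℝ) ≤
          (2 * W * m) ^ CB * M * δ ^ (1 + qm 1))
    (hFH : ∀ t ∈ P, FH CF Y (Uf (cu t)) (eu (cu t)) z0 ρ) :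
    ∀ t ∈ P, ∀ δ : ℝ, (2 * W) ^ c2 * w2 ≤ 8 * (δ * ((2 * W) ^ c1 * w1)) → δ ≤ 1 →
      ((P.filter fun s => cu s = cu t ∧ ∀ z, z0 ≤ z → z ≤ z0 + ρ →
        |dt (eu (cu t) 1) ((L s).pos z - (L t).pos z)| ≤ δ * ((2 * W) ^ c1 * w1)).card : ℝ) ≤
        (2 * W) ^ cT * M * δ ^ (1 + qm 1) := by
  intro t ht δ hδ hδ1
  have hW := H.W1
  have hM := H.M0
  have hw1 := H.w10
  have hw2 := H.w20
  obtain ⟨s1, s2, s3, s4⟩ := shp_pos H.r0 (H.shU t ht)
  set x := 2 * W with hxd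
  have x1 : 1 ≤ x := by linarith
  have x0 : 0 < x := by linarith
  have p1 : 0 < x ^ c1 := Real.rpow_pos_of_pos x0 _
  have p2 : 0 < x ^ c2 := Real.rpow_pos_of_pos x0 _
  have hδ0 : 0 < δ := by
    by_contra hc
    have h1 : δ * (x ^ c1 * w1) ≤ 0 :=
      mul_nonpos_of_nonpos_of_nonneg (not_lt.1 hc) (by positivity)
    have : 0 < x ^ c2 * w2 := by positivity
    linarith
  have q1 : x * x ≤ x ^ c1 := by
    have := pw x1 (hc2.trans hc1)
    rwa [Real.rpow_two, sq] at this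
  have q2 : x ≤ x ^ c1 := by
    have : x * 1 ≤ x * x := mul_le_mul_of_nonneg_left x1 x0.le
    linarith
  have hm1 : 1 ≤ x ^ c1 := x1.trans q2
  have q3 : (1:ℝ) ≤ x ^ c2 := Real.one_le_rpow x1 (by linarith)
  have hYm : Y ≤ x ^ c1 * w2 := by
    refine hY.trans (mul_le_mul_of_nonneg_right ?_ hw2.le)
    have : 26 * W ≤ x * x := by nlinarith
    linarith
  have e1 : δ * (x ^ c1 * w1) = (δ * x ^ c1) * w1 := by ring
  rw [e1] at hδ ⊢
  have k := hB t ht (x ^ c1) (δ * x ^ c1) Y (eu (cu t)) hm1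
    (FH.mono (hFH t ht) s4.le s3.le hCF (mul_le_mul_of_nonneg_right hCF hY0)) hYm (by
      have h1 : w2 ≤ x ^ c2 * w2 := le_mul_of_one_le_left hw2.le q3
      have h2 : 0 ≤ δ * x ^ c1 * w1 := by positivity
      have h3 : 8 * (δ * x ^ c1 * w1) ≤ x ^ c1 * (δ * x ^ c1 * w1) :=
        mul_le_mul_of_nonneg_right (by linarith) h2
      linarith) (by
      have := mul_le_mul_of_nonneg_right hδ1 p1.le
      linarith)
  refine k.trans ?_
  have hq1 : 0 ≤ 1 + qm 1 := by linarith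
  rw [Real.mul_rpow hδ0.le p1.le, ← Real.rpow_mul x0.le]
  have e2 : x * x ^ c1 = x ^ (c1 + 1) := by rw [Real.rpow_add x0, Real.rpow_one, mul_comm]
  rw [e2, ← Real.rpow_mul x0.le]
  calc x ^ ((c1 + 1) * CB) * M * (δ ^ (1 + qm 1) * x ^ (c1 * (1 + qm 1)))
      = (x ^ ((c1 + 1) * CB) * x ^ (c1 * (1 + qm 1))) * (M * δ ^ (1 + qm 1)) := by ring
    _ = x ^ ((c1 + 1) * CB + c1 * (1 + qm 1)) * (M * δ ^ (1 + qm 1)) := by
        rw [← Real.rpow_add x0]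
    _ ≤ x ^ cT * (M * δ ^ (1 + qm 1)) := by
        refine mul_le_mul_of_nonneg_right (pw x1 hcT) ?_
        have : 0 ≤ δ ^ (1 + qm 1) := Real.rpow_nonneg hδ0.le _
        positivity
    _ = _ := by ring

open Classical in
/-- hull D-max at the widths `x ^ c1 * w1`, `x ^ c2 * w2` -/
theorem hull_one {CH c1 c2 cT : ℝ} (hx : 512 ≤ 2 * W)
    (hc2 : 0 ≤ c2) (hc1 : c2 ≤ c1) (hCH0 : 0 ≤ CH)
    (hcT : (c1 + 4) * CH + c2 * (1 + qp 2) ≤ cT) (hq0 : 0 ≤ qp 0) (hq : 0 ≤ qp 2)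
    (H : Two1 qm qp L P cu cv Uf Vf W M a w1 w2 z0 ρ r)
    (hH : ∀ (m : ℝ) (b : Ln4) (f : Fin 3 → V3) (X0 X2 : ℝ), 1 ≤ m → Ortho f → a ≤ X0 → w2 ≤ X2 →
      X0 ≤ X2 → X2 ≤ m * w1 →
      ((P.filter fun t => InB (L t) b f ![X0, m * w1, X2] z0 ρ).card : ℝ) ≤
        (2 * W * m) ^ CH * M * ((X0 / a) ^ (1 + qp 0) * (X2 / w2) ^ (1 + qp 2))) :
    ∀ (b : Ln4) (f : Fin 3 → V3) (X0 X2 : ℝ), Ortho f → a ≤ X0 → (2 * W) ^ c2 * w2 ≤ X2 →
      X0 ≤ X2 → X2 ≤ 10 ^ 6 * ((2 * W) ^ c1 * w1) →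
      ((P.filter fun t => InB (L t) b f ![X0, 10 ^ 6 * ((2 * W) ^ c1 * w1), X2] z0 ρ).card : ℝ) ≤
        (2 * W) ^ cT * M * ((X0 / a) ^ (1 + qp 0) * (X2 / ((2 * W) ^ c2 * w2)) ^ (1 + qp 2)) := by
  intro b f X0 X2 hf h0 h2 h02 h21
  have hW := H.W1
  have hM := H.M0
  have hw1 := H.w10
  have hw2 := H.w20
  have ha := H.a0
  set x := 2 * W with hxd
  have x1 : 1 ≤ x := by linarith
  have x0 : 0 < x := by linarith
  have p1 : 0 < x ^ c1 := Real.rpow_pos_of_pos x0 _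
  have p2 : 0 < x ^ c2 := Real.rpow_pos_of_pos x0 _
  have q3 : (1:ℝ) ≤ x ^ c2 := Real.one_le_rpow x1 hc2
  have m1 : (1:ℝ) ≤ x ^ (c1 + 3) := Real.one_le_rpow x1 (by linarith)
  have e3 : x ^ (c1 + 3) = x ^ c1 * x ^ 3 := by
    rw [Real.rpow_add x0]; norm_num
  have hx3 : (10:ℝ) ^ 6 ≤ x ^ 3 := by
    have : (512:ℝ) ^ 3 ≤ x ^ 3 := by gcongr
    norm_num at this ⊢; linarith
  have hm : 10 ^ 6 * (x ^ c1 * w1) ≤ x ^ (c1 + 3) * w1 := by
    rw [e3]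
    calc 10 ^ 6 * (x ^ c1 * w1) ≤ x ^ 3 * (x ^ c1 * w1) :=
          mul_le_mul_of_nonneg_right hx3 (by positivity)
      _ = _ := by ring
  have hw2X : w2 ≤ X2 := (le_mul_of_one_le_left hw2.le q3).trans h2
  have k := hH (x ^ (c1 + 3)) b f X0 X2 m1 hf h0 hw2X h02 (h21.trans hm)
  have hsub : ((P.filter fun t => InB (L t) b f ![X0, 10 ^ 6 * (x ^ c1 * w1), X2] z0 ρ).card : ℝ) ≤
      ((P.filter fun t => InB (L t) b f ![X0, x ^ (c1 + 3) * w1, X2] z0 ρ).card : ℝ) := by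
    refine Nat.cast_le.2 (Finset.card_le_card ?_)
    intro t ht
    rw [Finset.mem_filter] at ht ⊢
    refine ⟨ht.1, fun z hz hz' i => ?_⟩
    have := ht.2 z hz hz' i
    fin_cases i
    · exact this
    · exact this.trans hm
    · exact this
  refine (hsub.trans k).trans ?_
  have X00 : 0 < X0 := ha.trans_le h0
  have X20 : 0 < X2 := X00.trans_le h02
  have e4 : X2 / w2 = x ^ c2 * (X2 / (x ^ c2 * w2)) := by field_simp
  have hq1 : 0 ≤ 1 + qp 2 := by linarith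
  have e5 : (X2 / w2) ^ (1 + qp 2) = x ^ (c2 * (1 + qp 2)) * (X2 / (x ^ c2 * w2)) ^ (1 + qp 2) := by
    rw [e4, Real.mul_rpow p2.le (by positivity), ← Real.rpow_mul x0.le]
  have e2 : x * x ^ (c1 + 3) = x ^ (c1 + 4) := by
    have : c1 + 4 = (c1 + 3) + 1 := by ring
    rw [this, Real.rpow_add x0 (c1 + 3) 1, Real.rpow_one, mul_comm]
  rw [e5, e2, ← Real.rpow_mul x0.le]
  set A := (X0 / a) ^ (1 + qp 0)
  set B := (X2 / (x ^ c2 * w2)) ^ (1 + qp 2)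
  have hA : 0 ≤ A := Real.rpow_nonneg (by positivity) _
  have hB : 0 ≤ B := Real.rpow_nonneg (by positivity) _
  calc x ^ ((c1 + 4) * CH) * M * (A * (x ^ (c2 * (1 + qp 2)) * B))
      = (x ^ ((c1 + 4) * CH) * x ^ (c2 * (1 + qp 2))) * (M * (A * B)) := by ring
    _ = x ^ ((c1 + 4) * CH + c2 * (1 + qp 2)) * (M * (A * B)) := by rw [← Real.rpow_add x0]
    _ ≤ x ^ cT * (M * (A * B)) := mul_le_mul_of_nonneg_right (pw x1 hcT) (by positivity)
    _ = _ := by ring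

/-- share at the thickness `κ Y` from the share at the thickness `Y` -/
theorem share_one {K1 CS cF cT κ Y N w1' w2' : ℝ} {f g : Fin 3 → V3} (hx : 512 ≤ 2 * W)
    (hκ : 2 ≤ κ) (hκF : κ ≤ (2 * W) ^ cF) (hcF : 0 ≤ cF) (ha : 0 < a) (hM : 0 < M) (hY : 0 < Y)
    (hq : 0 ≤ qm 2) (hcT : CS + cF * (1 + qm 2) ≤ cT) (hK1 : K1 ≤ cT)
    (hS : ∀ j k' : ℕ, Dy f g Y w1' w2' j k' → (2 * W) ^ K1 ≤ (2:ℝ) ^ j * 2 ^ k' →
      N ≤ (2 * W) ^ CS * M / (((2:ℝ) ^ j) ^ (1 + qm 1) * ((2:ℝ) ^ k' * (Y / a)) ^ (1 + qm 2))) :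
    ∀ j k' : ℕ, Dy f g (κ * Y) w1' w2' j k' → (2 * W) ^ cT ≤ (2:ℝ) ^ j * 2 ^ k' →
      N ≤ (2 * W) ^ cT * M /
        (((2:ℝ) ^ j) ^ (1 + qm 1) * ((2:ℝ) ^ k' * (κ * Y / a)) ^ (1 + qm 2)) := by
  intro j k' hD hj
  set x := 2 * W with hxd
  have x1 : 1 ≤ x := by linarith
  have x0 : 0 < x := by linarith
  have κ0 : 0 < κ := by linarith
  obtain ⟨k2, hD2, h2⟩ := dy_scale hD hY hκ le_rfl
  have hk : (2:ℝ) ^ k' ≤ 2 ^ k2 := by
    refine le_of_mul_le_mul_right ?_ (mul_pos κ0 hY)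
    calc (2:ℝ) ^ k' * (κ * Y) ≤ κ * (2 ^ k2 * Y) := h2
      _ = 2 ^ k2 * (κ * Y) := by ring
  have hj2 : (2:ℝ) ^ j * 2 ^ k' ≤ 2 ^ j * 2 ^ k2 := mul_le_mul_of_nonneg_left hk (by positivity)
  have k := hS j k2 hD2 ((pw x1 hK1).trans (hj.trans hj2))
  refine k.trans ?_
  have hq1 : 0 ≤ 1 + qm 2 := by linarith
  have b2 : 0 < (2:ℝ) ^ k2 * (Y / a) := by positivity
  have b1 : 0 < (2:ℝ) ^ k' * (κ * Y / a) := by positivity
  have b3 : (2:ℝ) ^ k' * (κ * Y / a) ≤ κ * ((2:ℝ) ^ k2 * (Y / a)) := by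
    calc (2:ℝ) ^ k' * (κ * Y / a) ≤ 2 ^ k2 * (κ * Y / a) :=
          mul_le_mul_of_nonneg_right hk (by positivity)
      _ = _ := by ring
  set A := ((2:ℝ) ^ j) ^ (1 + qm 1)
  have hA : 0 < A := Real.rpow_pos_of_pos (by positivity) _
  have c1 : ((2:ℝ) ^ k' * (κ * Y / a)) ^ (1 + qm 2) ≤
      x ^ (cF * (1 + qm 2)) * ((2:ℝ) ^ k2 * (Y / a)) ^ (1 + qm 2) := by
    calc ((2:ℝ) ^ k' * (κ * Y / a)) ^ (1 + qm 2)
        ≤ (κ * ((2:ℝ) ^ k2 * (Y / a))) ^ (1 + qm 2) := Real.rpow_le_rpow b1.le b3 hq1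
      _ = κ ^ (1 + qm 2) * ((2:ℝ) ^ k2 * (Y / a)) ^ (1 + qm 2) := Real.mul_rpow κ0.le b2.le
      _ ≤ (x ^ cF) ^ (1 + qm 2) * ((2:ℝ) ^ k2 * (Y / a)) ^ (1 + qm 2) :=
          mul_le_mul_of_nonneg_right (Real.rpow_le_rpow κ0.le hκF hq1)
            (Real.rpow_nonneg b2.le _)
      _ = _ := by rw [← Real.rpow_mul x0.le]
  have d2 : 0 < ((2:ℝ) ^ k2 * (Y / a)) ^ (1 + qm 2) := Real.rpow_pos_of_pos b2 _
  have d1 : 0 < ((2:ℝ) ^ k' * (κ * Y / a)) ^ (1 + qm 2) := Real.rpow_pos_of_pos b1 _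
  have p1 : 0 < x ^ CS := Real.rpow_pos_of_pos x0 _
  rw [div_le_div_iff₀ (by positivity) (by positivity)]
  set B1 := ((2:ℝ) ^ k' * (κ * Y / a)) ^ (1 + qm 2)
  set B2 := ((2:ℝ) ^ k2 * (Y / a)) ^ (1 + qm 2)
  calc x ^ CS * M * (A * B1) ≤ x ^ CS * M * (A * (x ^ (cF * (1 + qm 2)) * B2)) := by gcongr
    _ = (x ^ CS * x ^ (cF * (1 + qm 2))) * (M * (A * B2)) := by ring
    _ = x ^ (CS + cF * (1 + qm 2)) * (M * (A * B2)) := by rw [← Real.rpow_add x0]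
    _ ≤ x ^ cT * (M * (A * B2)) := mul_le_mul_of_nonneg_right (pw x1 hcT) (by positivity)
    _ = _ := by ring


theorem r_le_rho {K0 : ℝ} (hK04 : 4 ≤ K0) (H : Two1 qm qp L P cu cv Uf Vf W M a w1 w2 z0 ρ r)
    {t0 : ℕ} (ht0 : t0 ∈ P) (b : (2 * W) ^ K0 * a ≤ kp (Uf (cu t0)) z0 ρ (L t0)) : r ≤ ρ := by
  have hW := H.W1
  have W0 : 0 < W := by linarith
  have ha := H.a0
  have hU := H.shU t0 ht0
  have l1 := kp_le H.r0 H.ρ0.le hU (H.inU t0 ht0)
  have b1 : (2 * W) ^ (4:ℝ) ≤ (2 * W) ^ K0 := pw (by linarith) hK04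
  have b3 : (2 * W) ^ (4:ℝ) = (2 * W) ^ 4 := by exact_mod_cast Real.rpow_natCast (2 * W) 4
  have d1 := (H.dimU t0 ht0).1.2
  have d2 := (H.dimU t0 ht0).2.1.2
  have r1 : r ≤ W * a := hU.r0_le.trans d1
  have u1 : (Uf (cu t0)).w 0 ≤ W * (W * ρ) :=
    (hU.w0_le.trans hU.w_le).trans (d2.trans (mul_le_mul_of_nonneg_left H.w1ρ W0.le))
  have b4 : (2 * W) ^ 4 * a ≤ 13 * (W * (W * ρ)) := by
    rw [b3] at b1
    have := mul_le_mul_of_nonneg_right b1 ha.le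
    linarith
  have hρ := H.ρ0
  have b5 : 16 * (W * W) * (W * W * a) ≤ 13 * ρ * (W * W) := by
    calc 16 * (W * W) * (W * W * a) = (2 * W) ^ 4 * a := by ring
      _ ≤ 13 * (W * (W * ρ)) := b4
      _ = _ := by ring
  have b6 : 16 * (W * W * a) ≤ 13 * ρ := by
    have h5 : (16 * (W * W * a)) * (W * W) ≤ (13 * ρ) * (W * W) := by linarith
    exact le_of_mul_le_mul_right h5 (by positivity)
  have b7 : W * a ≤ W * W * a := by
    have : W * a * 1 ≤ W * a * W := mul_le_mul_of_nonneg_left hW (by positivity)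
    linarith
  have b8 : 0 < W * a := by positivity
  linarith

theorem nx {W x : ℝ} (hW : 1 ≤ W) (hxd : x = 2 * W) (x5 : 512 ≤ x) :
    26 * W ≤ x * x ∧ W * W ≤ x * x ∧ W ≤ 26 * W ∧ W ≤ x ∧ 8 ≤ x := by
  subst hxd
  refine ⟨by nlinarith, by nlinarith, by linarith, by linarith, by linarith⟩

theorem log_one {c1 cl cT x : ℝ} (hxd : x = 2 * W) (x5 : 512 ≤ x) (ha : 0 < a) (hw1 : 0 < w1)
    (hc1 : 0 ≤ c1) (lg : Real.log (w1 / a) ≤ W) (hcl : c1 + 1 ≤ x ^ cl) (hcT : cl + 1 ≤ cT) :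
    Real.log (x ^ c1 * w1 / a) ≤ x ^ cT := by
  have x0 : 0 < x := by linarith
  have x1 : 1 ≤ x := by linarith
  have e : x ^ c1 * w1 / a = x ^ c1 * (w1 / a) := by ring
  have h1 : Real.log x ≤ x := (Real.log_le_sub_one_of_pos x0).trans (by linarith)
  have h2 : c1 * Real.log x ≤ c1 * x := mul_le_mul_of_nonneg_left h1 hc1
  rw [e, Real.log_mul (Real.rpow_pos_of_pos x0 _).ne' (div_pos hw1 ha).ne', Real.log_rpow x0]
  have h3 : (c1 + 1) * x ≤ x ^ cT := by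
    calc (c1 + 1) * x ≤ x ^ cl * x := mul_le_mul_of_nonneg_right hcl x0.le
      _ = x ^ (cl + 1) := by rw [Real.rpow_add x0, Real.rpow_one]
      _ ≤ x ^ cT := pw x1 hcT
  linarith


/-- from the output of `TiltCore` to `Al1` -/
theorem al1_of {CF κ Y x cF c1 c2 cN cA CC : ℝ} {f g : Fin 3 → V3} {j k' t : ℕ}
    (H : Two1 qm qp L P cu cv Uf Vf W M a w1 w2 z0 ρ r) (ht : t ∈ P) (hxd : x = 2 * W)
    (x5 : 512 ≤ x) (hCF1 : 1 ≤ CF) (hCFκ : CF ≤ κ) (κF : κ ≤ x ^ cF) (hcF : 0 ≤ cF)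
    (hc1 : c1 = cF + 4) (hc2 : c2 = cF + 2) (hY0 : 0 < Y) (hcN : 0 ≤ cN) (hcA0 : 0 ≤ cA)
    (hCC0 : 0 ≤ CC)
    (hk1 : Y ≤ 2 * kp (Uf (cu t)) z0 ρ (L t)) (hk2 : kp (Uf (cu t)) z0 ρ (L t) ≤ Y)
    (haU : (Uf (cu t)).a ≤ Y) (haV : (Vf (cv t)).a ≤ Y) (hYw : κ * Y ≤ x ^ c2 * w2)
    (hww : x ^ c2 * w2 ≤ x ^ c1 * w1) (fu : FH CF Y (Uf (cu t)) f z0 ρ)
    (fl : FL CF Y (Uf (cu t)) f z0 ρ) (fv : FH CF Y (Vf (cv t)) g z0 ρ)
    (hD : Dy f g (κ * Y) (x ^ c1 * w1) (x ^ c2 * w2) j k')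
    (hjk : (2:ℝ) ^ j * 2 ^ k' ≤ x ^ cN) (hcA : cA = (1 + cN) * CC)
    (hCC : ∀ (S S' : Plk4) (T : Ln4) (f g : Fin 3 → V3) (W Y w1 w2 w1' w2' z0 ρ r : ℝ)
      (j k' : ℕ), 1 ≤ W → 0 < ρ → 0 < r → 0 < w1 → 0 < w2 → Shp S z0 ρ r → Shp S' z0 ρ r →
      InP T S z0 ρ → InP T S' z0 ρ → Near W w1 (S.w 1) → Near W w2 (S.w 2) →
      Near W w1 (S'.w 1) → Near W w2 (S'.w 2) → S.a ≤ Y → S'.a ≤ Y → Y ≤ w2' → w2' ≤ w1' →
      w1 ≤ w1' → w1' ≤ (2 * W) ^ (2 * cF + 4) * w1 → w2 ≤ w2' →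
      w2' ≤ (2 * W) ^ (2 * cF + 4) * w2 →
      FH ((2 * W) ^ (2 * cF + 4)) Y S f z0 ρ → FL ((2 * W) ^ (2 * cF + 4)) Y S f z0 ρ →
      FH ((2 * W) ^ (2 * cF + 4)) Y S' g z0 ρ → Dy f g Y w1' w2' j k' →
      angC S S' * w1 ≤ (2 * W * (2 ^ j * 2 ^ k')) ^ CC * w2 ∧
        CloseC S'.e S'.w S'.q S'.a S.q ((2 * W * (2 ^ j * 2 ^ k')) ^ CC * Y) T z0 ρ) :
    Al1 ((2 * W) ^ (cA + cN + cF + 1)) (Uf (cu t)) (Vf (cv t)) (L t) a w1 w2 z0 ρ := by
  have hW := H.W1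
  have hw1 := H.w10
  have hw2 := H.w20
  have ha := H.a0
  have x1 : 1 ≤ x := by linarith
  have x0 : 0 < x := by linarith
  have κ1 : 1 ≤ κ := hCF1.trans hCFκ
  have κ0 : 0 < κ := by linarith
  have CF0 : 0 < CF := by linarith
  have p2 : 0 < x ^ c2 := Real.rpow_pos_of_pos x0 _
  have p1 : 0 < x ^ c1 := Real.rpow_pos_of_pos x0 _
  have g2 : (1:ℝ) ≤ x ^ c2 := Real.one_le_rpow x1 (by linarith)
  have g1 : (1:ℝ) ≤ x ^ c1 := Real.one_le_rpow x1 (by linarith)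
  obtain ⟨s1, s2, s3, s4⟩ := shp_pos H.r0 (H.shU t ht)
  obtain ⟨v1, v2, v3, v4⟩ := shp_pos H.r0 (H.shV t ht)
  have hYκ : Y ≤ κ * Y := le_mul_of_one_le_left hY0.le κ1
  obtain ⟨K, hK⟩ : ∃ K : ℝ, K = kp (Uf (cu t)) z0 ρ (L t) := ⟨_, rfl⟩
  rw [← hK] at hk1 hk2
  have hK0 : 0 < K := by linarith
  -- constants
  have z1 : κ ≤ (2 * W) ^ (2 * cF + 4) := by
    rw [← hxd]; exact κF.trans (pw x1 (by linarith))
  have z2 : CF ≤ (2 * W) ^ (2 * cF + 4) := hCFκ.trans z1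
  have z3 : CF * κ ≤ (2 * W) ^ (2 * cF + 4) := by
    rw [← hxd]
    calc CF * κ ≤ x ^ cF * x ^ cF :=
          mul_le_mul (hCFκ.trans κF) κF κ0.le (Real.rpow_nonneg x0.le _)
      _ = x ^ (cF + cF) := by rw [Real.rpow_add x0]
      _ ≤ _ := pw x1 (by linarith)
  have z4 : x ^ c1 * w1 ≤ (2 * W) ^ (2 * cF + 4) * w1 := by
    rw [← hxd]; exact mul_le_mul_of_nonneg_right (pw x1 (by linarith)) hw1.le
  have z5 : x ^ c2 * w2 ≤ (2 * W) ^ (2 * cF + 4) * w2 := by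
    rw [← hxd]; exact mul_le_mul_of_nonneg_right (pw x1 (by linarith)) hw2.le
  obtain ⟨A1, A2⟩ := hCC (Uf (cu t)) (Vf (cv t)) (L t) f g W (κ * Y) w1 w2 (x ^ c1 * w1)
    (x ^ c2 * w2) z0 ρ r j k' hW H.ρ0 H.r0 hw1 hw2 (H.shU t ht) (H.shV t ht) (H.inU t ht)
    (H.inV t ht) (H.dimU t ht).2.1 (H.dimU t ht).2.2 (H.dimV t ht).2.1 (H.dimV t ht).2.2
    (haU.trans hYκ) (haV.trans hYκ) hYw hww (le_mul_of_one_le_left hw1.le g1) z4
    (le_mul_of_one_le_left hw2.le g2) z5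
    (FH.mono fu s4.le s3.le z2 (mul_le_mul z2 hYκ hY0.le (by linarith)))
    (FL.up fl CF0 κ1 z3 hY0.le s4.le s3.le)
    (FH.mono fv v4.le v3.le z2 (mul_le_mul z2 hYκ hY0.le (by linarith))) hD
  -- the final constant
  obtain ⟨E, hEd⟩ : ∃ E : ℝ, E = (2 * W) ^ (cA + cN + cF + 1) := ⟨_, rfl⟩
  rw [← hEd]
  have hN0 : (0:ℝ) < 2 ^ j * 2 ^ k' := by positivity
  have b1 : (2 * W * (2 ^ j * 2 ^ k')) ^ CC ≤ x ^ cA := by
    rw [← hxd, hcA, Real.rpow_mul x0.le]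
    refine Real.rpow_le_rpow (by positivity) ?_ hCC0
    rw [add_comm, Real.rpow_add x0, Real.rpow_one, mul_comm (x ^ cN) x]
    exact mul_le_mul_of_nonneg_left hjk x0.le
  have b0 : 0 ≤ (2 * W * (2 ^ j * 2 ^ k')) ^ CC :=
    Real.rpow_nonneg (by rw [← hxd]; positivity) _
  have hx2 : (2:ℝ) ≤ x := by linarith
  have c3 : 2 * κ ≤ x ^ (cF + 1) := by
    rw [Real.rpow_add x0, Real.rpow_one, mul_comm 2 κ]
    exact mul_le_mul κF hx2 (by norm_num) (Real.rpow_nonneg x0.le _)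
  have EA : x ^ cA ≤ E := by rw [hEd, ← hxd]; exact pw x1 (by linarith)
  have Eκ : 2 * κ ≤ E := by
    rw [hEd, ← hxd]; exact c3.trans (pw x1 (by linarith))
  have EAκ : x ^ cA * (2 * κ) ≤ E := by
    rw [hEd, ← hxd]
    calc x ^ cA * (2 * κ) ≤ x ^ cA * x ^ (cF + 1) :=
          mul_le_mul_of_nonneg_left c3 (Real.rpow_nonneg x0.le _)
      _ = x ^ (cA + (cF + 1)) := by rw [← Real.rpow_add x0]
      _ ≤ _ := pw x1 (by linarith)
  have ENκ : x ^ cN * (2 * κ) ≤ E := by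
    rw [hEd, ← hxd]
    calc x ^ cN * (2 * κ) ≤ x ^ cN * x ^ (cF + 1) :=
          mul_le_mul_of_nonneg_left c3 (Real.rpow_nonneg x0.le _)
      _ = x ^ (cN + (cF + 1)) := by rw [← Real.rpow_add x0]
      _ ≤ _ := pw x1 (by linarith)
  have E0 : 0 < E := by linarith
  have CFE : CF ≤ E := by linarith
  have CYE : CF * Y ≤ E * K := by
    calc CF * Y ≤ κ * (2 * K) := mul_le_mul hCFκ hk1 hY0.le κ0.le
      _ = 2 * κ * K := by ring
      _ ≤ E * K := mul_le_mul_of_nonneg_right Eκ hK0.le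
  have hκYK : κ * Y ≤ 2 * κ * K := by
    calc κ * Y ≤ κ * (2 * K) := mul_le_mul_of_nonneg_left hk1 κ0.le
      _ = _ := by ring
  -- tilts
  have hkj : (2:ℝ) ^ k' * (2 ^ j * (κ * Y)) ≤ E * K := by
    calc (2:ℝ) ^ k' * (2 ^ j * (κ * Y)) = (2 ^ j * 2 ^ k') * (κ * Y) := by ring
      _ ≤ x ^ cN * (2 * κ * K) := mul_le_mul hjk hκYK (by positivity) (Real.rpow_nonneg x0.le _)
      _ = x ^ cN * (2 * κ) * K := by ring
      _ ≤ E * K := mul_le_mul_of_nonneg_right ENκ hK0.le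
  have hj1 : (1:ℝ) ≤ 2 ^ j := one_le_pow₀ (by norm_num)
  have up1 : ∀ y : ℝ, 0 ≤ y → y * (x ^ c1 * w1) ≤ 2 ^ k' * (2 ^ j * (κ * Y)) →
      y * w1 ≤ E * K := by
    intro y hy h
    exact (mul_le_mul_of_nonneg_left (le_mul_of_one_le_left hw1.le g1) hy).trans (h.trans hkj)
  have up2 : ∀ y : ℝ, 0 ≤ y → 2 ^ j * (y * (x ^ c2 * w2)) ≤ 2 ^ k' * (2 ^ j * (κ * Y)) →
      y * w2 ≤ E * K := by
    intro y hy h
    have h1 : y * w2 ≤ y * (x ^ c2 * w2) :=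
      mul_le_mul_of_nonneg_left (le_mul_of_one_le_left hw2.le g2) hy
    have h2 : y * (x ^ c2 * w2) ≤ 2 ^ j * (y * (x ^ c2 * w2)) :=
      le_mul_of_one_le_left (by positivity) hj1
    exact h1.trans (h2.trans (h.trans hkj))
  refine ⟨?_, ?_, f, g, ?_, ?_, ?_, ?_, ?_, ?_, ?_⟩
  · exact A1.trans (mul_le_mul_of_nonneg_right (b1.trans EA) hw2.le)
  · refine CloseC.mono A2 ?_
    rw [← hK]
    calc (2 * W * (2 ^ j * 2 ^ k')) ^ CC * (κ * Y) ≤ x ^ cA * (2 * κ * K) :=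
          mul_le_mul b1 hκYK (by positivity) (Real.rpow_nonneg x0.le _)
      _ = x ^ cA * (2 * κ) * K := by ring
      _ ≤ E * K := mul_le_mul_of_nonneg_right EAκ hK0.le
  · rw [← hK]; exact FH.mono fu s4.le s3.le CFE CYE
  · rw [← hK]; exact FL.down fl CF0 CFE hk2 CYE
  · rw [← hK]; exact FH.mono fv v4.le v3.le CFE CYE
  · rw [← hK, dt_comm]; exact up1 _ (abs_nonneg _) hD.t10
  · rw [← hK, dt_comm]; exact up2 _ (abs_nonneg _) hD.t20
  · rw [← hK]; exact up1 _ (abs_nonneg _) hD.t01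
  · rw [← hK]; exact up2 _ (abs_nonneg _) hD.t02

end

set_option maxHeartbeats 4000000 in
/-- **core** : constant `W` with `512 ≤ 2 W`, extents at one level `Y0` -/
theorem core (hTC : TiltCore) (hFF : FlatFrame) (hWH : WideHull) (hTL : TubeL) (hSh : ShareL)
    (η : ℝ) (qm qp : Fin 3 → ℝ) (hE : Ex2 η qm qp) : ∃ K0 C : ℝ, 0 ≤ K0 ∧ 0 ≤ C ∧
    ∀ (L : ℕ → Ln4) (P : Finset ℕ) (cu cv : ℕ → ℕ) (Uf Vf : ℕ → Plk4) (W M a w1 w2 z0 ρ r Y0 : ℝ),
      512 ≤ 2 * W → Two1 qm qp L P cu cv Uf Vf W M a w1 w2 z0 ρ r → P.Nonempty →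
      (∀ t ∈ P, TypP ((2 * W) ^ K0) W a (Uf (cu t)) (Vf (cv t)) (L t) z0 ρ) → a ≤ Y0 →
      (∀ t ∈ P, Y0 ≤ kp (Uf (cu t)) z0 ρ (L t) ∧ kp (Uf (cu t)) z0 ρ (L t) ≤ 2 * Y0 ∧
        kp (Vf (cv t)) z0 ρ (L t) ≤ 2 * Y0) →
      ∃ t ∈ P, Al1 ((2 * W) ^ C) (Uf (cu t)) (Vf (cv t)) (L t) a w1 w2 z0 ρ := by
  classical
  obtain ⟨CF, hCF1, hF⟩ := hFF
  obtain ⟨CH, hCH0, hH⟩ := hWH η qm qp hE
  obtain ⟨CB, hCB0, hB⟩ := hTL η qm qp hE
  obtain ⟨CT, hCT0, hT⟩ := hTC η qm qp hE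
  obtain ⟨κ, hκd⟩ : ∃ κ : ℝ, κ = max CF 2 := ⟨_, rfl⟩
  have hκ2 : 2 ≤ κ := hκd ▸ le_max_right _ _
  have hCFκ : CF ≤ κ := hκd ▸ le_max_left _ _
  obtain ⟨cF, hcF0, hcF⟩ := exc κ
  obtain ⟨c2, hc2d⟩ : ∃ c2 : ℝ, c2 = cF + 2 := ⟨_, rfl⟩
  obtain ⟨c1, hc1d⟩ : ∃ c1 : ℝ, c1 = cF + 4 := ⟨_, rfl⟩
  obtain ⟨K2, hK20, hK2⟩ := hSh η qm qp hE c1 (by linarith)
  obtain ⟨K0, hK0d⟩ : ∃ K0 : ℝ, K0 = max K2 4 := ⟨_, rfl⟩
  have hK04 : 4 ≤ K0 := hK0d ▸ le_max_right _ _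
  obtain ⟨K1, CS, hK10, hCS0, hS⟩ := hK2 K0 (hK0d ▸ le_max_left _ _)
  obtain ⟨CC, hCC0, hCC⟩ := Cod248.closeOfDy (2 * cF + 4) (by linarith)
  obtain ⟨cl, hcl0, hcl⟩ := exc (c1 + 1)
  have hq0 : 0 ≤ qm 0 := (hE.le 0).1
  have hq1 : 0 ≤ qm 1 := (hE.le 1).1
  have hq2 : 0 ≤ qm 2 := (hE.le 2).1
  have hp0 : 0 ≤ qp 0 := hq0.trans (hE.le 0).2
  have hp2 : 0 ≤ qp 2 := hq2.trans (hE.le 2).2
  have n1 : 0 ≤ (c1 + 4) * CH + c2 * (1 + qp 2) := by
    have : 0 ≤ c1 := by linarith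
    have : 0 ≤ c2 := by linarith
    positivity
  have n2 : 0 ≤ (c1 + 1) * CB + c1 * (1 + qm 1) := by
    have : 0 ≤ c1 := by linarith
    positivity
  have n3 : 0 ≤ CS + cF * (1 + qm 2) := by positivity
  obtain ⟨cT, hcTd⟩ : ∃ cT : ℝ, cT = (cl + 1) + ((c1 + 4) * CH + c2 * (1 + qp 2)) +
    ((c1 + 1) * CB + c1 * (1 + qm 1)) + (CS + cF * (1 + qm 2)) + K1 := ⟨_, rfl⟩
  obtain ⟨cN, hcNd⟩ : ∃ cN : ℝ, cN = (cT + 1) * CT := ⟨_, rfl⟩
  have hcN0 : 0 ≤ cN := by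
    rw [hcNd]
    have : 0 ≤ cT := by linarith
    positivity
  obtain ⟨cA, hcAd⟩ : ∃ cA : ℝ, cA = (1 + cN) * CC := ⟨_, rfl⟩
  have hcA0 : 0 ≤ cA := by rw [hcAd]; positivity
  refine ⟨K0, cA + cN + cF + 1, by linarith, by positivity, ?_⟩
  intro L P cu cv Uf Vf W M a w1 w2 z0 ρ r Y0 hx H hne hTy haY hk
  have hW := H.W1
  have hM := H.M0
  have hw1 := H.w10
  have hw2 := H.w20
  have ha := H.a0
  obtain ⟨x, hxd⟩ : ∃ x : ℝ, x = 2 * W := ⟨_, rfl⟩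
  have x5 : 512 ≤ x := by rw [hxd]; exact hx
  have x1 : 1 ≤ x := by linarith
  have x0 : 0 < x := by linarith
  have x2 : 2 ≤ x := by linarith
  have κF : κ ≤ x ^ cF := hcF x x2
  have κ0 : 0 < κ := by linarith
  have W0 : 0 < W := by linarith
  have pF : 0 < x ^ cF := Real.rpow_pos_of_pos x0 _
  -- `x ^ c2`, `x ^ c1`
  have e2 : x ^ c2 = x ^ cF * (x * x) := by
    rw [hc2d, Real.rpow_add x0, Real.rpow_two, sq]
  have e1 : x ^ c1 = x ^ c2 * (x * x) := by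
    have : c1 = c2 + 2 := by rw [hc1d, hc2d]; ring
    rw [this, Real.rpow_add x0, Real.rpow_two, sq]
  have p2 : 0 < x ^ c2 := Real.rpow_pos_of_pos x0 _
  have p1 : 0 < x ^ c1 := Real.rpow_pos_of_pos x0 _
  have g2 : (1:ℝ) ≤ x ^ c2 := Real.one_le_rpow x1 (by linarith)
  have g1 : (1:ℝ) ≤ x ^ c1 := Real.one_le_rpow x1 (by linarith)
  have k2 : κ * (26 * W) ≤ x ^ c2 := by
    rw [e2]
    exact mul_le_mul κF (nx hW hxd x5).1 (by positivity) pF.le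
  have k2' : κ * W ≤ x ^ c2 :=
    (mul_le_mul_of_nonneg_left (nx hW hxd x5).2.2.1 κ0.le).trans k2
  have k1 : x ^ c2 * (W * W) ≤ x ^ c1 := by
    rw [e1]
    exact mul_le_mul_of_nonneg_left (nx hW hxd x5).2.1 p2.le
  have x21 : x ^ c2 ≤ x ^ c1 := pw x1 (by linarith)
  -- sizes
  obtain ⟨Y, hYd⟩ : ∃ Y : ℝ, Y = 2 * Y0 := ⟨_, rfl⟩
  have hY0 : 0 < Y := by linarith
  obtain ⟨t0, ht0⟩ := hne
  have sz : ∀ t ∈ P, (Uf (cu t)).a ≤ Y ∧ (Vf (cv t)).a ≤ Y ∧ Y ≤ 26 * (Uf (cu t)).w 0 := by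
    intro t ht
    obtain ⟨h1, h2, h3⟩ := hk t ht
    have b := (hTy t ht).big
    have b1 : W ≤ (2 * W) ^ K0 := by
      have := pw (x := 2 * W) (by linarith) (show (1:ℝ) ≤ K0 by linarith)
      rw [Real.rpow_one] at this
      linarith
    have b2 : W * a ≤ (2 * W) ^ K0 * a := mul_le_mul_of_nonneg_right b1 ha.le
    have d1 := (H.dimU t ht).1.2
    have d2 := (H.dimV t ht).1.2
    have l1 := kp_le H.r0 H.ρ0.le (H.shU t ht) (H.inU t ht)
    refine ⟨by linarith, by linarith, by linarith⟩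
  have rρ : r ≤ ρ := r_le_rho hK04 H ht0 (hTy t0 ht0).big
  have hY26 : Y ≤ 26 * W * w2 := by
    have h1 := (sz t0 ht0).2.2
    have h2 := (H.shU t0 ht0).w0_le
    have h3 := (H.dimU t0 ht0).2.2.2
    calc Y ≤ 26 * (Uf (cu t0)).w 0 := h1
      _ ≤ 26 * (W * w2) := by linarith
      _ = _ := by ring
  have hYw : κ * Y ≤ x ^ c2 * w2 := by
    calc κ * Y ≤ κ * (26 * W * w2) := mul_le_mul_of_nonneg_left hY26 κ0.le
      _ = κ * (26 * W) * w2 := by ring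
      _ ≤ _ := mul_le_mul_of_nonneg_right k2 hw2.le
  have hww : x ^ c2 * w2 ≤ x ^ c1 * w1 := by
    have h1 := (H.dimU t0 ht0).2.2.1
    have h2 := (H.dimU t0 ht0).2.1.2
    have h3 := (H.shU t0 ht0).w_le
    have h4 : w2 ≤ W * W * w1 := by
      calc w2 ≤ W * (Uf (cu t0)).w 2 := h1
        _ ≤ W * (W * w1) := mul_le_mul_of_nonneg_left (h3.trans h2) W0.le
        _ = _ := by ring
    calc x ^ c2 * w2 ≤ x ^ c2 * (W * W * w1) := mul_le_mul_of_nonneg_left h4 p2.le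
      _ = x ^ c2 * (W * W) * w1 := by ring
      _ ≤ _ := mul_le_mul_of_nonneg_right k1 hw1.le
  have haY' : a ≤ Y := by linarith
  have hYκ : Y ≤ κ * Y := le_mul_of_one_le_left hY0.le (by linarith)
  -- frames
  obtain ⟨eu, bu, hu⟩ := frames hF H.ρ0 H.r0 H.shU H.inU (Y := Y)
    (fun t ht => ⟨(sz t ht).1, by have := (hk t ht).2.1; rw [hYd]; exact this⟩)
  obtain ⟨ev, bv, hv⟩ := frames hF H.ρ0 H.r0 H.shV H.inV (Y := Y)
    (fun t ht => ⟨(sz t ht).2.1, by have := (hk t ht).2.2; rw [hYd]; exact this⟩)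
  have hFL : ∀ t ∈ P, FL CF Y (Uf (cu t)) (eu (cu t)) z0 ρ := fun t ht =>
    (hu t ht).2.2 (by
      have h1 := (sz t ht).2.2
      have h2 := (shp_pos H.r0 (H.shU t ht)).2.1
      linarith)
  have CF0 : 0 < CF := by linarith
  have CFx : CF ≤ x ^ cF := hCFκ.trans κF
  have cF1 : x ^ cF ≤ x ^ c1 := pw x1 (by linarith)
  -- the abstract data
  have wd1 : ∀ y : ℝ, y ≤ W * w1 → CF * y ≤ x ^ c1 * w1 := by
    intro y hy
    calc CF * y ≤ κ * (W * w1) := (mul_le_mul_of_nonneg_left hy CF0.le).trans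
          (mul_le_mul_of_nonneg_right hCFκ (by positivity))
      _ = κ * W * w1 := by ring
      _ ≤ x ^ c1 * w1 := mul_le_mul_of_nonneg_right (k2'.trans x21) hw1.le
  have wd2 : ∀ y : ℝ, y ≤ W * w2 → CF * y ≤ x ^ c2 * w2 := by
    intro y hy
    calc CF * y ≤ κ * (W * w2) := (mul_le_mul_of_nonneg_left hy CF0.le).trans
          (mul_le_mul_of_nonneg_right hCFκ (by positivity))
      _ = κ * W * w2 := by ring
      _ ≤ x ^ c2 * w2 := mul_le_mul_of_nonneg_right k2' hw2.le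
  have hWT : W ≤ x ^ cT := by
    have := pw x1 (show (1:ℝ) ≤ cT by linarith)
    rw [Real.rpow_one] at this
    linarith
  have HC : TCore qm qp L P cu cv bu bv eu ev (x ^ cT) M a (κ * Y) (x ^ c1 * w1) (x ^ c2 * w2)
      z0 ρ := by
    have cT0 : 0 ≤ cT := by linarith
    refine
      { W1 := Real.one_le_rpow x1 cT0
        M0 := hM
        ρ0 := H.ρ0
        a0 := ha
        aY := haY'.trans hYκ
        Yw := hYw
        ww := hww
        lg := ?_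
        ou := fun t ht => (hu t ht).2.1.ortho
        ov := fun t ht => (hv t ht).2.1.ortho
        mu := ?_
        mv := ?_
        fu := ?_
        fv := ?_
        hull := ?_
        tubeu := ?_
        tubev := ?_
        share := ?_ }
    · exact log_one hxd x5 ha hw1 (by linarith) H.lg (hcl x x2) (by linarith)
    · intro t ht z hz hz' i
      have := (hu t ht).2.1.box (L t) (bu (cu t)) (H.inU t ht) (hu t ht).1 z hz hz' i
      fin_cases i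
      · exact this.trans (mul_le_mul_of_nonneg_right hCFκ hY0.le)
      · exact this.trans (wd1 _ (H.dimU t ht).2.1.2)
      · exact this.trans (wd2 _ (H.dimU t ht).2.2.2)
    · intro t ht z hz hz' i
      have := (hv t ht).2.1.box (L t) (bv (cv t)) (H.inV t ht) (hv t ht).1 z hz hz' i
      fin_cases i
      · exact this.trans (mul_le_mul_of_nonneg_right hCFκ hY0.le)
      · exact this.trans (wd1 _ (H.dimV t ht).2.1.2)
      · exact this.trans (wd2 _ (H.dimV t ht).2.2.2)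
    · intro t ht
      exact (H.fullU t ht).trans (mul_le_mul_of_nonneg_right hWT (Nat.cast_nonneg _))
    · intro t ht
      exact (H.fullV t ht).trans (mul_le_mul_of_nonneg_right hWT (Nat.cast_nonneg _))
    · have := hull_one (c1 := c1) (c2 := c2) (cT := cT) hx (by linarith) (by linarith) hCH0
        (by linarith) hp0 hp2 H (hH L P cu cv Uf Vf W M a w1 w2 z0 ρ r H rρ)
      rw [← hxd] at this
      exact this
    · have := tube_one (c1 := c1) (c2 := c2) (cT := cT) (CF := CF) (Y := Y) (eu := eu) hx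
        (by linarith) (by linarith) hCB0 (by rw [← hxd]; exact CFx.trans cF1) CF0.le
        (by linarith) hq1 H hY0.le hY26 (hB L P cu cv Uf Vf W M a w1 w2 z0 ρ r H rρ)
        (fun t ht => (hu t ht).2.1)
      rw [← hxd] at this
      intro t ht δ h1 h2
      exact this t ht δ (h1.trans_eq (by ring)) h2
    · have := tube_one (c1 := c1) (c2 := c2) (cT := cT) (CF := CF) (Y := Y) (eu := ev) hx
        (by linarith) (by linarith) hCB0 (by rw [← hxd]; exact CFx.trans cF1) CF0.le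
        (by linarith) hq1 (Bl5667.Two1.swap H) hY0.le hY26
        (hB L P cv cu Vf Uf W M a w1 w2 z0 ρ r (Bl5667.Two1.swap H) rρ)
        (fun t ht => (hv t ht).2.1)
      rw [← hxd] at this
      intro t ht δ h1 h2
      exact this t ht δ (h1.trans_eq (by ring)) h2
    · intro t ht
      have hC1 : CF ≤ (2 * W) ^ c1 := by rw [← hxd]; exact CFx.trans cF1
      obtain ⟨s1, s2, s3, s4⟩ := shp_pos H.r0 (H.shU t ht)
      obtain ⟨v1, v2, v3, v4⟩ := shp_pos H.r0 (H.shV t ht)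
      have := share_one (K1 := K1) (CS := CS) (cF := cF) (cT := cT) (κ := κ) (Y := Y)
        (N := ((P.filter fun s => cu s = cu t ∧ cv s = cv t).card : ℝ)) (w1' := x ^ c1 * w1)
        (w2' := x ^ c2 * w2) (f := eu (cu t)) (g := ev (cv t)) (qm := qm) hx hκ2
        (by rw [← hxd]; exact κF) hcF0 ha hM hY0 hq2 (by linarith) (by linarith)
        (hS L P cu cv Uf Vf W M a w1 w2 z0 ρ r H rρ t ht (eu (cu t)) (ev (cv t)) Y (x ^ c1 * w1)
          (x ^ c2 * w2) (fun s hs h1 h2 => by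
            have q1 := hTy s hs
            have q2 := hk s hs
            rw [h1, h2] at q1 q2
            exact ⟨q1, by linarith, by linarith⟩) haY' (hYκ.trans hYw) hww
          (le_mul_of_one_le_left hw1.le g1) (by rw [hxd]) (le_mul_of_one_le_left hw2.le g2)
          (by rw [← hxd]; exact mul_le_mul_of_nonneg_right x21 hw2.le)
          (FH.mono (hu t ht).2.1 s4.le s3.le hC1 (mul_le_mul_of_nonneg_right hC1 hY0.le))
          (FL.down (hFL t ht) CF0 hC1 le_rfl (mul_le_mul_of_nonneg_right hC1 hY0.le))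
          (FH.mono (hv t ht).2.1 v4.le v3.le hC1 (mul_le_mul_of_nonneg_right hC1 hY0.le)))
      rw [← hxd] at this
      exact this
  obtain ⟨t, ht, j, k', hD, hjk⟩ := hT L P cu cv bu bv eu ev (x ^ cT) M a (κ * Y) (x ^ c1 * w1)
    (x ^ c2 * w2) z0 ρ HC ⟨t0, ht0⟩
  have hjk2 : (2:ℝ) ^ j * 2 ^ k' ≤ x ^ cN := by
    refine hjk.trans ?_
    rw [hcNd, Real.rpow_mul x0.le]
    refine Real.rpow_le_rpow (by positivity) ?_ hCT0
    rw [Real.rpow_add x0, Real.rpow_one, mul_comm]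
    exact mul_le_mul_of_nonneg_left x2 (Real.rpow_nonneg x0.le _)
  obtain ⟨h1, h2, h3⟩ := hk t ht
  exact ⟨t, ht, al1_of H ht hxd x5 hCF1 hCFκ κF hcF0 hc1d hc2d hY0 hcN0 hcA0 hCC0
    (by linarith) (by linarith) (sz t ht).1 (sz t ht).2.1 hYw hww (hu t ht).2.1 (hFL t ht)
    (hv t ht).2.1 hD hjk2 hcAd hCC⟩

/-- **(B6) base tilt theorem** -/
theorem btr_of (hTC : TiltCore) (hFF : FlatFrame) (hWH : WideHull) (hTL : TubeL)
    (hSh : ShareL) : BTR Al1 := by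
  intro η qm qp hE
  obtain ⟨K0, C, hK0, hC0, hc⟩ := core hTC hFF hWH hTL hSh η qm qp hE
  refine ⟨9 * K0, 9 * C, by positivity, by positivity, ?_⟩
  intro L P cu cv Uf Vf W M a w1 w2 z0 ρ r H hne hT
  obtain ⟨P', p1, p2, H', hT', Y, haY, hk⟩ := ylevelP hK0 H hne hT
  have hW := H.W1
  have h5 : 512 ≤ 2 * lift W 9 := by
    rw [two_lift]
    calc (512:ℝ) = 2 ^ (9:ℝ) := by norm_num
      _ ≤ (2 * W) ^ (9:ℝ) := Real.rpow_le_rpow (by norm_num) (by linarith) (by norm_num)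
  obtain ⟨t, ht, h⟩ := hc L P' cu cv Uf Vf (lift W 9) M a w1 w2 z0 ρ r Y h5 H' p2 hT' haY hk
  rw [rpow_two_lift hW] at h
  exact ⟨t, p1 ht, h⟩


end Crest.Agent.R136.Btr879
end

-- ▼ part R136/Ffr1_262
section

/-!
# R136 (S0187), PLAN 2 (B1): height over the tangent plane on the whole plank (helper262)

`S` = sheet (`StP`), `T` a line of its box, `(b0, b1, G)` = expansion of `q` around `T` in plank
coordinates, `yc b0 x = x 0 + s₁ x 1 + s₂ x 2` = height over the tangent plane of `T`.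

* `slope_exact` : `∂₀ ∈ [1/2, 2]` at every point of the doubled box;
* `br_ge` : the mean slope between a point of the plank and the tangent plane is `≥ 1/100`;
* `y_line` : `w 0 |y| ≤ 2200 (|q X| + |q T| + kapP)` for points `X` of the plank with no restriction;
* `y_point` : the same near a second point of the plank.
-/

set_option autoImplicit false
set_option linter.unusedVariables false

namespace Crest.Agent.R136.Ffr262

open Crest.Agent.R136.Sh605 Crest.Agent.R136.Tl102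

/-! ### real numbers -/

theorem lim_ge {D g : ℝ} (h : ∀ δ : ℝ, 0 < δ → δ ≤ 1 → 1 / 2 ≤ D + g * δ) : 1 / 2 ≤ D := by
  by_contra hc
  push Not at hc
  set δ := min 1 ((1 / 2 - D) / (2 * (|g| + 1))) with hδ
  have hg : 0 ≤ |g| := abs_nonneg g
  have h1 : 0 < (1 / 2 - D) / (2 * (|g| + 1)) := div_pos (by linarith) (by linarith)
  have h0 : 0 < δ := lt_min one_pos h1
  have h2 := h δ h0 (min_le_left _ _)
  have h3 : δ ≤ (1 / 2 - D) / (2 * (|g| + 1)) := min_le_right _ _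
  rw [le_div_iff₀ (by linarith)] at h3
  have h4 : g * δ ≤ |g| * δ := mul_le_mul_of_nonneg_right (le_abs_self g) h0.le
  nlinarith

theorem lim_le {D g : ℝ} (h : ∀ δ : ℝ, 0 < δ → δ ≤ 1 → D + g * δ ≤ 2) : D ≤ 2 := by
  have := lim_ge (D := 5 / 2 - D) (g := -g) (fun δ h0 h1 => by have := h δ h0 h1; linarith)
  linarith

theorem sgn_ex (g : ℝ) : ∃ s : ℝ, |s| ≤ 1 ∧ s * g = |g| := by
  rcases le_total 0 g with h | h
  · exact ⟨1, by norm_num, by rw [abs_of_nonneg h, one_mul]⟩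
  · exact ⟨-1, by norm_num, by rw [abs_of_nonpos h]; ring⟩

/-- **mean slope** between a point of the plank and the tangent plane -/
theorem br_ge {A g p1 p2 s1 s2 x0 u v κ : ℝ} (hA : 1 / 2 + 2 * |g| + |p1| + |p2| ≤ A)
    (hD : 1 / 2 + 2 * |g| + |p1| + |p2| ≤ A + 2 * g * x0 + p1 * u + p2 * v)
    (h38 : 2 * |g| + |p1| + |p2| ≤ 3 / 8) (hs1 : |s1| * A ≤ 1 + κ) (hs2 : |s2| * A ≤ 1 + κ)
    (hκ0 : 0 ≤ κ) (hκ : κ ≤ 1 / 200) (hu : |u| ≤ 2) (hv : |v| ≤ 2) :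
    1 / 100 ≤ A + g * x0 + p1 * u + p2 * v - g * (s1 * u + s2 * v) := by
  obtain ⟨G, hG⟩ : ∃ G, G = |g| := ⟨_, rfl⟩
  obtain ⟨P, hP⟩ : ∃ P, P = |p1| + |p2| := ⟨_, rfl⟩
  obtain ⟨D, hDd⟩ : ∃ D, D = A + 2 * g * x0 + p1 * u + p2 * v := ⟨_, rfl⟩
  have hG0 : 0 ≤ G := by rw [hG]; exact abs_nonneg _
  have hP0 : 0 ≤ P := by rw [hP]; positivity
  rw [← hDd] at hD
  have a1 : -(2 * |p1|) ≤ p1 * u := by
    have := Arc880.abs_mul_le (le_refl |p1|) hu
    rw [abs_le] at this; linarith [this.1]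
  have a2 : -(2 * |p2|) ≤ p2 * v := by
    have := Arc880.abs_mul_le (le_refl |p2|) hv
    rw [abs_le] at this; linarith [this.1]
  have a3 : g * (s1 * u + s2 * v) ≤ G * (2 * |s1| + 2 * |s2|) := by
    have b1 := Arc880.abs_mul_le (le_refl |s1|) hu
    have b2 := Arc880.abs_mul_le (le_refl |s2|) hv
    have b3 : |s1 * u + s2 * v| ≤ |s1| * 2 + |s2| * 2 := Arc880.abs_add2 b1 b2
    have b4 := Arc880.abs_mul_le (le_refl |g|) b3
    have b5 := (le_abs_self _).trans b4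
    rw [hG]
    linarith
  have hBr : A + g * x0 + p1 * u + p2 * v - g * (s1 * u + s2 * v) =
      (A + D) / 2 + (p1 * u + p2 * v) / 2 - g * (s1 * u + s2 * v) := by rw [hDd]; ring
  have hlow : (A + D) / 2 - P - 2 * G * (|s1| + |s2|) ≤
      A + g * x0 + p1 * u + p2 * v - g * (s1 * u + s2 * v) := by
    rw [hBr, hP]; linarith
  have hA' : 1 / 2 + 2 * G + P ≤ A := by rw [hG, hP]; linarith
  have hD' : 1 / 2 + 2 * G + P ≤ D := by rw [hG, hP]; linarith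
  have hA0 : 0 < A := by linarith
  have h38' : 2 * G + P ≤ 3 / 8 := by rw [hG, hP]; linarith
  refine le_trans ?_ hlow
  -- multiply by A
  have c1 : G * ((|s1| + |s2|) * A) ≤ G * (2 * (1 + κ)) :=
    mul_le_mul_of_nonneg_left (by linarith) hG0
  have c2 : 1 / 100 * A ≤ ((A + D) / 2 - P - 2 * G * (|s1| + |s2|)) * A := by
    have d1 : ((A + D) / 2 - P - 2 * G * (|s1| + |s2|)) * A =
      (A + D) / 2 * A - P * A - 2 * (G * ((|s1| + |s2|) * A)) := by ring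
    rw [d1]
    have d2 : (A + (1 / 2 + 2 * G + P)) / 2 * A ≤ (A + D) / 2 * A :=
      mul_le_mul_of_nonneg_right (by linarith) hA0.le
    have d3 : (1 / 2 + 2 * G + P) * A ≤ A * A := mul_le_mul_of_nonneg_right hA' hA0.le
    have d4 : (1 / 2 + 2 * G) * (1 / 2 + 2 * G - 1 / 100) ≤ A * (1 / 2 + 2 * G - 1 / 100) :=
      mul_le_mul_of_nonneg_right (by linarith) (by linarith)
    have d5 : 0 ≤ G * κ := mul_nonneg hG0 hκ0
    have d6 : G * κ ≤ 3 / 16 * (1 / 200) := mul_le_mul (by linarith) hκ hκ0 (by norm_num)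
    have d7 : 0 ≤ (3 / 16 - G) * (5 / 16 - G) := mul_nonneg (by linarith) (by linarith)
    nlinarith
  exact le_of_mul_le_mul_right c2 hA0

/-- slope `∂₀` of the expansion at the point with plank coordinates `x` -/
def slo (b0 b1 : V3) (G : QF) (ζ : ℝ) (x : V3) : ℝ :=
  b0 0 + ζ * b1 0 + 2 * G.yy * x 0 + G.yu * x 1 + G.yv * x 2

section
variable {e : Fin 3 → V3} {c : Ln4} {w : V3} {q : ℝ → V3 → ℝ} {z0 ρ : ℝ}

theorem inK_shift (he : Ortho e) {z : ℝ} {P : V3} {s : ℝ} :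
    (∀ i, |dt (e i) (P - c.pos z) + (if i = 0 then s else 0)| ≤ dbl3 w i) →
      InK e c (dbl3 w) z (P + s • e 0) := by
  intro h i
  have e1 : dt (e i) (P + s • e 0 - c.pos z) =
      dt (e i) (P - c.pos z) + (if i = 0 then s else 0) := by
    have h0 := he i 0
    have : dt (e i) (P + s • e 0 - c.pos z) = dt (e i) (P - c.pos z) + s * dt (e i) (e 0) := by
      simp only [dt, Pi.add_apply, Pi.sub_apply, Pi.smul_apply, smul_eq_mul]; ring
    rw [this, h0]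
    split_ifs <;> ring
  rw [e1]; exact h i

/-- **exact slope** in the direction `e 0` on the doubled box -/
theorem slope_exact (S : StP e c w q z0 ρ) (hρ : 0 ≤ ρ) {T : Ln4} {b0 b1 : V3} {G : QF}
    (hE : IsExp q e w T z0 ρ b0 b1 G) {ζ : ℝ} (hζ : 0 ≤ ζ) (hζ' : ζ ≤ 1) {x : V3}
    (hx : InK e c (dbl3 w) (z0 + ρ * ζ) (T.pos (z0 + ρ * ζ) + cmb (fr e w) x)) :
    1 / 2 ≤ slo b0 b1 G ζ x ∧ slo b0 b1 G ζ x ≤ 2 := by
  have hw0 := S.pos 0
  set z := z0 + ρ * ζ with hz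
  have z1 : z0 ≤ z := by rw [hz]; nlinarith
  have z2 : z ≤ z0 + ρ := by rw [hz]; nlinarith
  set P := T.pos z + cmb (fr e w) x with hP
  have hx3 : x = ![x 0, x 1, x 2] := by ext i; fin_cases i <;> rfl
  have hqP : ∀ s : ℝ, q z (P + (s * w 0) • e 0) = q z (T.pos z) + w 0 * Fq b0 b1 G ζ
      ![x 0 + s, x 1, x 2] := by
    intro s
    rw [← hE ζ, ← hz, cmb_add_zero, ← hx3]
  have hdF : ∀ s s' : ℝ, Fq b0 b1 G ζ ![x 0 + s, x 1, x 2] - Fq b0 b1 G ζ ![x 0 + s', x 1, x 2] =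
      (s - s') * (slo b0 b1 G ζ x + G.yy * (s + s')) := by
    intro s s'
    simp only [Fq, dt, bz, QF.ev, slo, Matrix.cons_val]
    ring
  have key : ∀ s s' : ℝ, s' < s → InK e c (dbl3 w) z (P + (s' * w 0) • e 0) →
      InK e c (dbl3 w) z (P + (s * w 0) • e 0) →
      1 / 2 ≤ slo b0 b1 G ζ x + G.yy * (s + s') ∧ slo b0 b1 G ζ x + G.yy * (s + s') ≤ 2 := by
    intro s s' hss h1 h2
    have e2 : P + (s * w 0) • e 0 = (P + (s' * w 0) • e 0) + ((s - s') * w 0) • e 0 := by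
      ext i
      simp only [Pi.add_apply, Pi.smul_apply, smul_eq_mul]; ring
    have h3 := S.st0 z z1 z2 _ ((s - s') * w 0) (mul_nonneg (by linarith) hw0.le) h1
      (by rw [← e2]; exact h2)
    rw [← e2, hqP, hqP] at h3
    have e3 : q z (T.pos z) + w 0 * Fq b0 b1 G ζ ![x 0 + s, x 1, x 2] -
        (q z (T.pos z) + w 0 * Fq b0 b1 G ζ ![x 0 + s', x 1, x 2]) =
        ((s - s') * w 0) * (slo b0 b1 G ζ x + G.yy * (s + s')) := by
      have := hdF s s'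
      calc _ = w 0 * (Fq b0 b1 G ζ ![x 0 + s, x 1, x 2] -
            Fq b0 b1 G ζ ![x 0 + s', x 1, x 2]) := by ring
        _ = _ := by rw [this]; ring
    rw [e3] at h3
    have h4 : 0 < (s - s') * w 0 := mul_pos (by linarith) hw0
    obtain ⟨h5, h6⟩ := h3
    constructor
    · by_contra hc
      push Not at hc
      have := mul_lt_mul_of_pos_left hc h4
      linarith
    · by_contra hc
      push Not at hc
      have := mul_lt_mul_of_pos_left hc h4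
      linarith
  have h00 := hx 0
  have hin : ∀ s : ℝ, |dt (e 0) (P - c.pos z) + s * w 0| ≤ 2 * w 0 →
      InK e c (dbl3 w) z (P + (s * w 0) • e 0) := by
    intro s hs
    refine inK_shift S.ortho fun i => ?_
    by_cases hi : i = 0
    · subst hi
      simp only [if_true]
      exact hs
    · simp only [hi, if_false, add_zero]
      exact hx i
  have hbase : InK e c (dbl3 w) z (P + ((0:ℝ) * w 0) • e 0) := by
    refine hin 0 ?_
    rw [zero_mul, add_zero]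
    exact h00
  change |dt (e 0) (P - c.pos z)| ≤ 2 * w 0 at h00
  rw [abs_le] at h00
  rcases le_total 0 (dt (e 0) (P - c.pos z)) with hs | hs
  · -- steps down
    have h : ∀ δ : ℝ, 0 < δ → δ ≤ 1 → 1 / 2 ≤ slo b0 b1 G ζ x + -G.yy * δ ∧
        slo b0 b1 G ζ x + -G.yy * δ ≤ 2 := by
      intro δ h0 h1
      have := key 0 (-δ) (by linarith) (hin (-δ) (by
        rw [abs_le]; constructor <;> nlinarith [h00.1, h00.2, mul_pos h0 hw0,
          mul_le_mul_of_nonneg_right h1 hw0.le])) hbase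
      constructor <;> linarith [this.1, this.2]
    exact ⟨lim_ge fun δ h0 h1 => (h δ h0 h1).1, lim_le fun δ h0 h1 => (h δ h0 h1).2⟩
  · have h : ∀ δ : ℝ, 0 < δ → δ ≤ 1 → 1 / 2 ≤ slo b0 b1 G ζ x + G.yy * δ ∧
        slo b0 b1 G ζ x + G.yy * δ ≤ 2 := by
      intro δ h0 h1
      have := key δ 0 h0 hbase (hin δ (by
        rw [abs_le]; constructor <;> nlinarith [h00.1, h00.2, mul_pos h0 hw0,
          mul_le_mul_of_nonneg_right h1 hw0.le]))
      constructor <;> linarith [this.1, this.2]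
    exact ⟨lim_ge fun δ h0 h1 => (h δ h0 h1).1, lim_le fun δ h0 h1 => (h δ h0 h1).2⟩

/-- plank coordinates of a point, relative to the centre -/
theorem dt_cmb_c (he : Ortho e) {T : Ln4} {z : ℝ} (x : V3) (i : Fin 3) :
    dt (e i) (T.pos z + cmb (fr e w) x - c.pos z) = dt (e i) (T.pos z - c.pos z) + w i * x i := by
  rw [← dt_cmb_fr he w x i]
  simp only [dt, Pi.add_apply, Pi.sub_apply]; ring

/-- **exact slope with margins** at a point of the plank -/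
theorem slope_margin (S : StP e c w q z0 ρ) (hρ : 0 ≤ ρ) {T : Ln4} {b0 b1 : V3} {G : QF}
    (hE : IsExp q e w T z0 ρ b0 b1 G) {ζ : ℝ} (hζ : 0 ≤ ζ) (hζ' : ζ ≤ 1) {x : V3}
    (hx : InK e c w (z0 + ρ * ζ) (T.pos (z0 + ρ * ζ) + cmb (fr e w) x)) :
    1 / 2 + 2 * |G.yy| + |G.yu| + |G.yv| ≤ slo b0 b1 G ζ x := by
  obtain ⟨s0, hs0, hs0'⟩ := sgn_ex G.yy
  obtain ⟨s1, hs1, hs1'⟩ := sgn_ex G.yu
  obtain ⟨s2, hs2, hs2'⟩ := sgn_ex G.yv
  have h := (slope_exact S hρ hE hζ hζ' (x := ![x 0 - s0, x 1 - s1, x 2 - s2]) (by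
    intro i
    have h1 := hx i
    rw [dt_cmb_c S.ortho] at h1 ⊢
    have hw := S.pos i
    have h2 : ∀ s : ℝ, |s| ≤ 1 → |w i * s| ≤ w i := by
      intro s hs
      rw [abs_mul, abs_of_pos hw]
      exact mul_le_of_le_one_right hw.le hs
    have h3 : ∀ s : ℝ, |s| ≤ 1 → |dt (e i) (T.pos (z0 + ρ * ζ) - c.pos (z0 + ρ * ζ)) +
        w i * (x i - s)| ≤ 2 * w i := by
      intro s hs
      have e1 : dt (e i) (T.pos (z0 + ρ * ζ) - c.pos (z0 + ρ * ζ)) + w i * (x i - s) =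
        (dt (e i) (T.pos (z0 + ρ * ζ) - c.pos (z0 + ρ * ζ)) + w i * x i) - w i * s := by ring
      rw [e1]
      have := Arc880.abs_sub2 h1 (h2 s hs)
      linarith
    change _ ≤ 2 * w i
    fin_cases i
    · exact h3 s0 hs0
    · exact h3 s1 hs1
    · exact h3 s2 hs2)).1
  have e1 : slo b0 b1 G ζ ![x 0 - s0, x 1 - s1, x 2 - s2] =
      slo b0 b1 G ζ x - 2 * (s0 * G.yy) - s1 * G.yu - s2 * G.yv := by
    simp only [slo, Matrix.cons_val]; ring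
  rw [e1, hs0', hs1', hs2'] at h
  linarith

/-- **second order terms are small** -/
theorem second_le (S : StP e c w q z0 ρ) (hρ : 0 ≤ ρ) {T : Ln4} {b0 b1 : V3} {G : QF}
    (hE : IsExp q e w T z0 ρ b0 b1 G) : 2 * |G.yy| + |G.yu| + |G.yv| ≤ 3 / 8 := by
  obtain ⟨s0, hs0, hs0'⟩ := sgn_ex G.yy
  obtain ⟨s1, hs1, hs1'⟩ := sgn_ex G.yu
  obtain ⟨s2, hs2, hs2'⟩ := sgn_ex G.yv
  -- the corner with signs `m * s`
  obtain ⟨y, hy⟩ : ∃ y : V3, y = fun i => dt (e i) (T.pos (z0 + ρ * 0) - c.pos (z0 + ρ * 0)) / w i :=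
    ⟨_, rfl⟩
  have hin : ∀ m : ℝ, |m| ≤ 2 → InK e c (dbl3 w) (z0 + ρ * 0) (T.pos (z0 + ρ * 0) +
      cmb (fr e w) ![m * s0 - y 0, m * s1 - y 1, m * s2 - y 2]) := by
    intro m hm i
    rw [dt_cmb_c S.ortho]
    have hw := S.pos i
    have h3 : ∀ s : ℝ, |s| ≤ 1 → |dt (e i) (T.pos (z0 + ρ * 0) - c.pos (z0 + ρ * 0)) +
        w i * (m * s - y i)| ≤ 2 * w i := by
      intro s hs
      have e1 : dt (e i) (T.pos (z0 + ρ * 0) - c.pos (z0 + ρ * 0)) + w i * (m * s - y i) =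
        w i * (m * s) := by
        rw [hy]; field_simp; ring
      rw [e1, abs_mul, abs_of_pos hw]
      have := Arc880.abs_mul_le hm hs
      nlinarith
    change _ ≤ 2 * w i
    fin_cases i
    · exact h3 s0 hs0
    · exact h3 s1 hs1
    · exact h3 s2 hs2
  have h1 := (slope_exact S hρ hE le_rfl zero_le_one (hin 2 (by norm_num))).2
  have h2 := (slope_exact S hρ hE le_rfl zero_le_one (hin (-2) (by norm_num))).1
  have e1 : ∀ m : ℝ, slo b0 b1 G 0 ![m * s0 - y 0, m * s1 - y 1, m * s2 - y 2] =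
      m * (2 * (s0 * G.yy) + s1 * G.yu + s2 * G.yv) +
        (b0 0 - 2 * G.yy * y 0 - G.yu * y 1 - G.yv * y 2) := by
    intro m
    simp only [slo, Matrix.cons_val]; ring
  rw [e1, hs0', hs1', hs2'] at h1 h2
  linarith

/-- the mean slope -/
noncomputable def bra (b0 b1 : V3) (G : QF) (ζ : ℝ) (x : V3) : ℝ :=
  b0 0 + ζ * b1 0 + G.yy * x 0 + G.yu * x 1 + G.yv * x 2 -
    G.yy * (b0 1 / b0 0 * x 1 + b0 2 / b0 0 * x 2)

/-- the part of the expansion on the tangent plane -/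
noncomputable def rem (b0 b1 : V3) (G : QF) (ζ : ℝ) (x : V3) : ℝ :=
  ζ * shB1 b0 b1 1 * x 1 + ζ * shB1 b0 b1 2 * x 2 + ((shG b0 G).uu * (x 1 * x 1) +
    (shG b0 G).uv * (x 1 * x 2) + (shG b0 G).vv * (x 2 * x 2))

theorem Fq_split {b0 b1 : V3} {G : QF} (h : b0 0 ≠ 0) (ζ : ℝ) (x : V3) :
    Fq b0 b1 G ζ x = yc b0 x * bra b0 b1 G ζ x + rem b0 b1 G ζ x := by
  have h1 := Fq_unsh (b0 := b0) (b1 := b1) (G := G) h ζ (yc b0 x) (x 1) (x 2)
  rw [unsh_yc] at h1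
  rw [h1]
  have e0 : shB1 b0 b1 0 = b1 0 := rfl
  simp only [Fq, dt, bz, QF.ev, shB0, shG, bra, rem, yc, Matrix.cons_val, e0]
  ring

theorem rem_le {b0 b1 : V3} {G : QF} {ζ : ℝ} (hζ : 0 ≤ ζ) (hζ' : ζ ≤ 1) {x : V3} {m : ℝ}
    (hm : 1 ≤ m) (h1 : |x 1| ≤ m) (h2 : |x 2| ≤ m) :
    |rem b0 b1 G ζ x| ≤ 5 * m ^ 2 * kap b0 b1 G := by
  have k1 : |shB1 b0 b1 1| ≤ kap b0 b1 G := (le_max_left _ _).trans (le_max_left _ _)
  have k2 : |shB1 b0 b1 2| ≤ kap b0 b1 G := (le_max_right _ _).trans (le_max_left _ _)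
  have k3 : |(shG b0 G).uu| ≤ kap b0 b1 G :=
    (le_max_left _ _).trans ((le_max_left _ _).trans (le_max_right _ _))
  have k4 : |(shG b0 G).uv| ≤ kap b0 b1 G :=
    (le_max_right _ _).trans ((le_max_left _ _).trans (le_max_right _ _))
  have k5 : |(shG b0 G).vv| ≤ kap b0 b1 G := (le_max_right _ _).trans (le_max_right _ _)
  have k0 := kap_nonneg b0 b1 G
  have hζa : |ζ| ≤ 1 := by rw [abs_of_nonneg hζ]; exact hζ'
  unfold rem
  have a1 := Tl102.mul_abs_le (Tl102.mul_abs_le hζa k1) h1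
  have a2 := Tl102.mul_abs_le (Tl102.mul_abs_le hζa k2) h2
  have a3 := Tl102.mul_abs_le k3 (Tl102.mul_abs_le h1 h1)
  have a4 := Tl102.mul_abs_le k4 (Tl102.mul_abs_le h1 h2)
  have a5 := Tl102.mul_abs_le k5 (Tl102.mul_abs_le h2 h2)
  refine (Arc880.abs_add2 (Arc880.abs_add2 a1 a2)
    (Arc880.abs_add2 (Arc880.abs_add2 a3 a4) a5)).trans ?_
  have a6 : kap b0 b1 G * m ≤ kap b0 b1 G * (m * m) :=
    mul_le_mul_of_nonneg_left (le_mul_of_one_le_left (by linarith) hm) k0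
  nlinarith

/-- slopes of the tangent plane -/
theorem slopes {b0 b1 : V3} {G : QF} (N : NrmC b0 b1 G) {ζ : ℝ} (hζ : 0 ≤ ζ) (hζ' : ζ ≤ 1) :
    0 < b0 0 + ζ * b1 0 ∧ |b0 1 / b0 0| * (b0 0 + ζ * b1 0) ≤ 1 + kap b0 b1 G ∧
      |b0 2 / b0 0| * (b0 0 + ζ * b1 0) ≤ 1 + kap b0 b1 G := by
  obtain ⟨g1, g2, g3, g4, -⟩ := N.b1_le
  have hA : 0 < b0 0 + ζ * b1 0 := by nlinarith
  have hb0 : b0 0 ≠ 0 := by linarith
  have k1 : |shB1 b0 b1 1| ≤ kap b0 b1 G := (le_max_left _ _).trans (le_max_left _ _)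
  have k2 : |shB1 b0 b1 2| ≤ kap b0 b1 G := (le_max_right _ _).trans (le_max_left _ _)
  have hζa : |ζ| ≤ 1 := by rw [abs_of_nonneg hζ]; exact hζ'
  have cv : ∀ k : Fin 3, |b0 k| ≤ 1 → |b0 k + b1 k| ≤ 1 → |b0 k + ζ * b1 k| ≤ 1 := by
    intro k h1 h2
    rw [abs_le] at h1 h2 ⊢
    constructor <;> nlinarith [h1.1, h1.2, h2.1, h2.2]
  have fin : ∀ k : Fin 3, |b0 k| ≤ 1 → |b0 k + b1 k| ≤ 1 →
      |b1 k - b0 k / b0 0 * b1 0| ≤ kap b0 b1 G →
      |b0 k / b0 0| * (b0 0 + ζ * b1 0) ≤ 1 + kap b0 b1 G := by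
    intro k h1 h2 h3
    have e1 : |b0 k / b0 0| * (b0 0 + ζ * b1 0) = |b0 k / b0 0 * (b0 0 + ζ * b1 0)| := by
      rw [abs_mul, abs_of_pos hA]
    have e2 : b0 k / b0 0 * (b0 0 + ζ * b1 0) = (b0 k + ζ * b1 k) -
        ζ * (b1 k - b0 k / b0 0 * b1 0) := by
      field_simp; ring
    rw [e1, e2]
    have := Arc880.abs_sub2 (cv k h1 h2) (Tl102.mul_abs_le hζa h3)
    linarith
  exact ⟨hA, fin 1 N.b01 N.b11 k1, fin 2 N.b02 N.b12 k2⟩

/-- coordinates of two points of boxes around the same centre -/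
theorem pc_le (S : StP e c w q z0 ρ) {T : Ln4} {z : ℝ} {X : V3} {m : ℝ}
    (hT : InK e c w z (T.pos z)) (hX : ∀ i, |dt (e i) (X - c.pos z)| ≤ m * w i) (i : Fin 3) :
    |pc e w T z X i| ≤ m + 1 := by
  have hw := S.pos i
  unfold pc
  rw [abs_div, abs_of_pos hw, div_le_iff₀ hw]
  have e1 : dt (e i) (X - T.pos z) = dt (e i) (X - c.pos z) - dt (e i) (T.pos z - c.pos z) := by
    simp only [dt, Pi.sub_apply]; ring
  rw [e1]
  have := Arc880.abs_sub2 (hX i) (hT i)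
  linarith

theorem yc_abs {b0 b1 : V3} {G : QF} (N : NrmC b0 b1 G) {x : V3} {m : ℝ} (h : ∀ i, |x i| ≤ m) :
    |yc b0 x| ≤ 5 * m := by
  obtain ⟨-, -, -, -, -, -, -, s1, s2⟩ := N.b1_le
  unfold yc
  have := Arc880.abs_add2 (Arc880.abs_add2 (h 0) (Tl102.mul_abs_le s1 (h 1)))
    (Tl102.mul_abs_le s2 (h 2))
  linarith

/-- **normalised bound on the plank** -/
theorem y_norm (S : StP e c w q z0 ρ) (hρ : 0 ≤ ρ) {T : Ln4}
    (hT : ∀ z, z0 ≤ z → z ≤ z0 + ρ → InK e c w z (T.pos z)) {b0 b1 : V3} {G : QF}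
    (hE : IsExp q e w T z0 ρ b0 b1 G) {ζ : ℝ} (hζ : 0 ≤ ζ) (hζ' : ζ ≤ 1) {X : V3}
    (hX : InK e c w (z0 + ρ * ζ) X) :
    |yc b0 (pc e w T (z0 + ρ * ζ) X)| ≤
      2200 * (|Fq b0 b1 G ζ (pc e w T (z0 + ρ * ζ) X)| + kap b0 b1 G) := by
  have N := hE.nrmC S hρ hT
  obtain ⟨g1, -⟩ := N.b1_le
  have hb0 : b0 0 ≠ 0 := by linarith
  have k0 := kap_nonneg b0 b1 G
  set z := z0 + ρ * ζ with hz
  have z1 : z0 ≤ z := by rw [hz]; nlinarith
  have z2 : z ≤ z0 + ρ := by rw [hz]; nlinarith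
  set x := pc e w T z X with hx
  have hxX : T.pos z + cmb (fr e w) x = X := cmb_pc S.ortho (fun i => (S.pos i).ne') T z X
  have hxl : ∀ i, |x i| ≤ 2 := by
    intro i
    have := pc_le S (m := 1) (hT z z1 z2) (fun i => by rw [one_mul]; exact hX i) i
    rw [← hx] at this; linarith
  have hF0 := abs_nonneg (Fq b0 b1 G ζ x)
  rcases le_total (kap b0 b1 G) (1 / 200) with hk | hk
  · obtain ⟨hA0, hs1, hs2⟩ := slopes N hζ hζ'
    have hmX := slope_margin S hρ hE hζ hζ' (x := x) (by rw [← hz, hxX]; exact hX)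
    have hmT := slope_margin S hρ hE hζ hζ' (x := fun _ => 0) (by
      have : T.pos (z0 + ρ * ζ) + cmb (fr e w) (fun _ => (0:ℝ)) = T.pos (z0 + ρ * ζ) := by
        ext i; simp [cmb]
      rw [this]; exact hT z z1 z2)
    have hsec := second_le S hρ hE
    simp only [slo] at hmX hmT
    have hbr := br_ge (A := b0 0 + ζ * b1 0) (g := G.yy) (p1 := G.yu) (p2 := G.yv)
      (s1 := b0 1 / b0 0) (s2 := b0 2 / b0 0) (x0 := x 0) (u := x 1) (v := x 2)
      (by linarith) hmX hsec hs1 hs2 k0 hk (hxl 1) (hxl 2)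
    have hbr' : 1 / 100 ≤ bra b0 b1 G ζ x := hbr
    have hR := rem_le (b0 := b0) (b1 := b1) (G := G) hζ hζ' (m := 2) (by norm_num) (hxl 1) (hxl 2)
    have hsp := Fq_split (b0 := b0) (b1 := b1) (G := G) hb0 ζ x
    have h1 : yc b0 x * bra b0 b1 G ζ x = Fq b0 b1 G ζ x - rem b0 b1 G ζ x := by rw [hsp]; ring
    have h2 : |yc b0 x| * bra b0 b1 G ζ x ≤ |Fq b0 b1 G ζ x| + 5 * 2 ^ 2 * kap b0 b1 G := by
      rw [← abs_of_pos (by linarith : 0 < bra b0 b1 G ζ x), ← abs_mul, h1]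
      exact Arc880.abs_sub2 le_rfl hR
    have h3 : |yc b0 x| * (1 / 100) ≤ |yc b0 x| * bra b0 b1 G ζ x :=
      mul_le_mul_of_nonneg_left hbr' (abs_nonneg _)
    linarith
  · have := yc_abs N hxl
    linarith

/-- **normalised bound near a point of the plank** -/
theorem y_norm' (S : StP e c w q z0 ρ) (hρ : 0 ≤ ρ) {T : Ln4}
    (hT : ∀ z, z0 ≤ z → z ≤ z0 + ρ → InK e c w z (T.pos z)) {b0 b1 : V3} {G : QF}
    (hE : IsExp q e w T z0 ρ b0 b1 G) {ζ : ℝ} (hζ : 0 ≤ ζ) (hζ' : ζ ≤ 1) {X' X : V3}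
    (hX' : InK e c w (z0 + ρ * ζ) X') (hX : ∀ i, |dt (e i) (X - X')| ≤ w i / 8) :
    |yc b0 (pc e w T (z0 + ρ * ζ) X)| ≤
      20000 * (|Fq b0 b1 G ζ (pc e w T (z0 + ρ * ζ) X)| +
        |Fq b0 b1 G ζ (pc e w T (z0 + ρ * ζ) X')| + kap b0 b1 G) := by
  have N := hE.nrmC S hρ hT
  obtain ⟨g1, -, -, -, -, -, -, sl1, sl2⟩ := N.b1_le
  have hb0 : b0 0 ≠ 0 := by linarith
  have k0 := kap_nonneg b0 b1 G
  have hy' := y_norm S hρ hT hE hζ hζ' hX'
  set z := z0 + ρ * ζ with hz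
  have z1 : z0 ≤ z := by rw [hz]; nlinarith
  have z2 : z ≤ z0 + ρ := by rw [hz]; nlinarith
  set x := pc e w T z X with hx
  set x' := pc e w T z X' with hx'
  have hxX' : T.pos z + cmb (fr e w) x' = X' := cmb_pc S.ortho (fun i => (S.pos i).ne') T z X'
  have hxl : ∀ i, |x i| ≤ 17 / 8 := by
    intro i
    have := pc_le S (m := 9 / 8) (hT z z1 z2) (X := X) (fun i => by
      have e1 : dt (e i) (X - c.pos z) = dt (e i) (X - X') + dt (e i) (X' - c.pos z) := by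
        simp only [dt, Pi.sub_apply]; ring
      rw [e1]
      have := Arc880.abs_add2 (hX i) (hX' i)
      linarith) i
    rw [← hx] at this; linarith
  have hF0 := abs_nonneg (Fq b0 b1 G ζ x)
  have hF0' := abs_nonneg (Fq b0 b1 G ζ x')
  have hyx := yc_abs N hxl
  rcases le_total (kap b0 b1 G) (1 / 200) with hk | hk
  · rcases le_total |yc b0 x'| (4 / 3) with hy | hy
    · obtain ⟨hA0, hs1, hs2⟩ := slopes N hζ hζ'
      have hmX := slope_margin S hρ hE hζ hζ' (x := x') (by rw [← hz, hxX']; exact hX')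
      have hsec := second_le S hρ hE
      simp only [slo] at hmX
      -- differences of coordinates
      have hd : ∀ i, |x i - x' i| ≤ 1 / 8 := by
        intro i
        have hw := S.pos i
        have e1 : x i - x' i = dt (e i) (X - X') / w i := by
          simp only [hx, hx', pc, dt, Pi.sub_apply]; ring
        rw [e1, abs_div, abs_of_pos hw, div_le_iff₀ hw]
        have := hX i
        linarith
      have hbr : 1 / 4 ≤ bra b0 b1 G ζ x := by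
        have e1 : bra b0 b1 G ζ x = (b0 0 + ζ * b1 0 + 2 * G.yy * x' 0 + G.yu * x' 1 + G.yv * x' 2) -
            G.yy * yc b0 x' + G.yy * (x 0 - x' 0) + G.yu * (x 1 - x' 1) + G.yv * (x 2 - x' 2) -
            G.yy * (b0 1 / b0 0 * (x 1 - x' 1) + b0 2 / b0 0 * (x 2 - x' 2)) := by
          unfold bra yc; ring
        have t1 := Arc880.abs_mul_le (le_refl |G.yy|) hy
        have t2 := Arc880.abs_mul_le (le_refl |G.yy|) (hd 0)
        have t3 := Arc880.abs_mul_le (le_refl |G.yu|) (hd 1)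
        have t4 := Arc880.abs_mul_le (le_refl |G.yv|) (hd 2)
        have t5 := Arc880.abs_mul_le (le_refl |G.yy|)
          (Arc880.abs_add2 (Arc880.abs_mul_le sl1 (hd 1)) (Arc880.abs_mul_le sl2 (hd 2)))
        have p1 := abs_nonneg G.yy
        have p2 := abs_nonneg G.yu
        have p3 := abs_nonneg G.yv
        rw [abs_le] at t1 t2 t3 t4 t5
        rw [e1]
        linarith [t1.1, t1.2, t2.1, t2.2, t3.1, t3.2, t4.1, t4.2, t5.1, t5.2]
      have hR := rem_le (b0 := b0) (b1 := b1) (G := G) hζ hζ' (m := 17 / 8) (by norm_num)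
        (hxl 1) (hxl 2)
      have hsp := Fq_split (b0 := b0) (b1 := b1) (G := G) hb0 ζ x
      have h1 : yc b0 x * bra b0 b1 G ζ x = Fq b0 b1 G ζ x - rem b0 b1 G ζ x := by rw [hsp]; ring
      have h2 : |yc b0 x| * bra b0 b1 G ζ x ≤ |Fq b0 b1 G ζ x| +
          5 * (17 / 8) ^ 2 * kap b0 b1 G := by
        rw [← abs_of_pos (by linarith : 0 < bra b0 b1 G ζ x), ← abs_mul, h1]
        exact Arc880.abs_sub2 le_rfl hR
      have h3 : |yc b0 x| * (1 / 4) ≤ |yc b0 x| * bra b0 b1 G ζ x :=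
        mul_le_mul_of_nonneg_left hbr (abs_nonneg _)
      linarith
    · linarith
  · linarith

end

end Crest.Agent.R136.Ffr262
end

-- ▼ part R136/Ffr2_262
section

/-!
# R136 (S0187), PLAN 2 (B1): flat hull frame of a sheet at one of its lines (helper262)

`fF e α β` : orthonormal frame with `f 0 ∥ e 0 + α e 1 + β e 2`, `f 2 ⟂ e 1`.
`flatFrame : Pl2.FlatFrame`.
-/

set_option autoImplicit false
set_option linter.unusedVariables false

namespace Crest.Agent.R136.Ffr262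

open Crest.Agent.R136.Sh605 Crest.Agent.R136.Tl102 Crest.Agent.R136.Fl808
open Crest.Agent.R136.K4 (Plk4)
open Crest.Agent.R136.Tlt51 (Shp InP)
open Crest.Agent.R136.KapP335 (kapP expP expP_spec)
open Crest.Agent.R136.Pl2 (FH FL FlatFrame)

theorem dt_cmb (e : Fin 3 → V3) (x v : V3) :
    dt (cmb e x) v = x 0 * dt (e 0) v + x 1 * dt (e 1) v + x 2 * dt (e 2) v := by
  simp only [dt, cmb]; ring

theorem dt_cmb_e {e : Fin 3 → V3} (he : Ortho e) (x : V3) (i : Fin 3) :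
    dt (cmb e x) (e i) = x i := by
  rw [dt_cmb, he 0 i, he 1 i, he 2 i]
  fin_cases i <;> simp

theorem dt_cmb_cmb {e : Fin 3 → V3} (he : Ortho e) (x y : V3) :
    dt (cmb e x) (cmb e y) = x 0 * y 0 + x 1 * y 1 + x 2 * y 2 := by
  rw [dt_comm, dt_cmb, dt_comm (e 0), dt_comm (e 1), dt_comm (e 2), dt_cmb_e he, dt_cmb_e he,
    dt_cmb_e he]
  ring

/-- `√(1 + α² + β²)` -/
noncomputable def n0 (α β : ℝ) : ℝ := √(1 + α ^ 2 + β ^ 2)
/-- `√(1 + β²)` -/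
noncomputable def n2 (β : ℝ) : ℝ := √(1 + β ^ 2)

theorem n0_sq (α β : ℝ) : n0 α β ^ 2 = 1 + α ^ 2 + β ^ 2 := Real.sq_sqrt (by positivity)
theorem n2_sq (β : ℝ) : n2 β ^ 2 = 1 + β ^ 2 := Real.sq_sqrt (by positivity)
theorem n0_ge (α β : ℝ) : 1 ≤ n0 α β := by
  unfold n0; rw [Real.one_le_sqrt]; nlinarith [sq_nonneg α, sq_nonneg β]
theorem n2_ge (β : ℝ) : 1 ≤ n2 β := by
  unfold n2; rw [Real.one_le_sqrt]; nlinarith [sq_nonneg β]

/-- the frame -/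
noncomputable def fF (e : Fin 3 → V3) (α β : ℝ) : Fin 3 → V3 :=
  ![cmb e ![1 / n0 α β, α / n0 α β, β / n0 α β],
    cmb e ![-α / (n0 α β * n2 β), (1 + β ^ 2) / (n0 α β * n2 β), -(α * β) / (n0 α β * n2 β)],
    cmb e ![-β / n2 β, 0, 1 / n2 β]]

theorem fF_ortho {e : Fin 3 → V3} (he : Ortho e) (α β : ℝ) : Ortho (fF e α β) := by
  have h0 := n0_sq α β
  have h2 := n2_sq β
  have p0 : 0 < n0 α β := lt_of_lt_of_le one_pos (n0_ge α β)
  have p2 : 0 < n2 β := lt_of_lt_of_le one_pos (n2_ge β)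
  obtain ⟨a, ha⟩ : ∃ a, a = n0 α β := ⟨_, rfl⟩
  obtain ⟨b, hb⟩ : ∃ b, b = n2 β := ⟨_, rfl⟩
  rw [← ha] at h0 p0
  rw [← hb] at h2 p2
  intro i j
  unfold fF
  rw [← ha, ← hb]
  have e00 : 1 / a * (1 / a) + α / a * (α / a) + β / a * (β / a) = 1 := by
    field_simp; linarith
  have e11 : -α / (a * b) * (-α / (a * b)) + (1 + β ^ 2) / (a * b) * ((1 + β ^ 2) / (a * b)) +
      -(α * β) / (a * b) * (-(α * β) / (a * b)) = 1 := by
    field_simp; rw [h0, h2]; ring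
  have e22 : -β / b * (-β / b) + 0 * 0 + 1 / b * (1 / b) = 1 := by
    field_simp; linarith
  have e01 : 1 / a * (-α / (a * b)) + α / a * ((1 + β ^ 2) / (a * b)) +
      β / a * (-(α * β) / (a * b)) = 0 := by
    field_simp; ring
  have e02 : 1 / a * (-β / b) + α / a * 0 + β / a * (1 / b) = 0 := by
    field_simp; ring
  have e12 : -α / (a * b) * (-β / b) + (1 + β ^ 2) / (a * b) * 0 +
      -(α * β) / (a * b) * (1 / b) = 0 := by
    field_simp; ring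
  fin_cases i <;> fin_cases j <;>
    simp only [Fin.zero_eta, Fin.mk_one, Fin.reduceFinMk, Matrix.cons_val_zero,
      Matrix.cons_val_one, Matrix.cons_val, dt_cmb_cmb he, if_true, Fin.isValue, Fin.reduceEq,
      if_false] <;> linarith

/-- coefficients of the frame -/
theorem fF_coef {e : Fin 3 → V3} (he : Ortho e) (α β : ℝ) :
    |dt (fF e α β 0) (e 1)| ≤ |α| ∧ |dt (fF e α β 0) (e 2)| ≤ |β| ∧
    |dt (fF e α β 1) (e 0)| ≤ |α| ∧ |dt (fF e α β 1) (e 2)| ≤ |α| ∧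
    dt (fF e α β 2) (e 1) = 0 ∧ 1 ≤ n0 α β * |dt (fF e α β 0) (e 0)| := by
  have p0 := n0_ge α β
  have p2 := n2_ge β
  have h2 := n2_sq β
  have q0 : 0 < n0 α β := by linarith
  have q2 : 0 < n2 β := by linarith
  have hβ : |β| ≤ n2 β := by
    have : |β| ^ 2 ≤ n2 β ^ 2 := by rw [sq_abs, h2]; linarith
    exact (sq_le_sq₀ (abs_nonneg _) q2.le).1 this
  have e0 : fF e α β 0 = cmb e ![1 / n0 α β, α / n0 α β, β / n0 α β] := rfl
  have e1 : fF e α β 1 = cmb e ![-α / (n0 α β * n2 β), (1 + β ^ 2) / (n0 α β * n2 β),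
    -(α * β) / (n0 α β * n2 β)] := rfl
  have e2 : fF e α β 2 = cmb e ![-β / n2 β, 0, 1 / n2 β] := rfl
  rw [e0, e1, e2]
  simp only [dt_cmb_e he]
  simp only [Matrix.cons_val_zero, Matrix.cons_val_one, Matrix.cons_val]
  have dv : ∀ x : ℝ, |x / n0 α β| ≤ |x| := by
    intro x
    rw [abs_div, abs_of_pos q0]
    exact div_le_self (abs_nonneg _) p0
  have p02 : 1 ≤ n0 α β * n2 β := by nlinarith
  refine ⟨dv α, dv β, ?_, ?_, trivial, ?_⟩
  · rw [abs_div, abs_neg, abs_of_pos (mul_pos q0 q2)]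
    exact div_le_self (abs_nonneg _) p02
  · rw [abs_div, abs_neg, abs_mul, abs_of_pos (mul_pos q0 q2), div_le_iff₀ (mul_pos q0 q2)]
    have h3 : |α| * |β| ≤ |α| * n2 β := mul_le_mul_of_nonneg_left hβ (abs_nonneg _)
    have h4 : |α| * n2 β ≤ |α| * (n0 α β * n2 β) := by
      refine mul_le_mul_of_nonneg_left ?_ (abs_nonneg _)
      nlinarith
    linarith
  · rw [abs_of_pos (by positivity : (0:ℝ) < 1 / n0 α β)]
    exact le_of_eq (by field_simp)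

/-- hypotheses and notation of one sheet around one of its lines -/
structure Sit (S : Plk4) (T : Ln4) (z0 ρ r : ℝ) (b0 b1 : V3) (G : QF) : Prop where
  ρ0 : 0 < ρ
  r0 : 0 < r
  sh : Shp S z0 ρ r
  inT : InP T S z0 ρ
  exp : IsExp S.q S.e S.w T z0 ρ b0 b1 G

namespace Sit

variable {S : Plk4} {T : Ln4} {z0 ρ r : ℝ} {b0 b1 : V3} {G : QF} (H : Sit S T z0 ρ r b0 b1 G)
include H

theorem a0 : 0 < S.a := H.r0.trans_le H.sh.r0_le
theorem w0 : 0 < S.w 0 := H.a0.trans_le H.sh.a_le0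
theorem w2 : 0 < S.w 2 := H.w0.trans_le H.sh.w0_le
theorem w1 : 0 < S.w 1 := H.w2.trans_le H.sh.w_le
theorem stp : StP S.e S.c S.w S.q z0 ρ := StP.of_shN H.sh H.w0
theorem hT : ∀ z, z0 ≤ z → z ≤ z0 + ρ → InK S.e S.c S.w z (T.pos z) :=
  fun z h h' => (H.inT z h h').1
theorem nrm : NrmC b0 b1 G := H.exp.nrmC H.stp H.ρ0.le H.hT
theorem ne0 : b0 0 ≠ 0 := by have := H.nrm.b1_le.1; linarith

theorem kapP_eq : kapP S z0 ρ T = S.w 0 * kap b0 b1 G :=
  Crest.Agent.R136.KapP335.kapP_eq H.w0.ne' H.exp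

/-- height parameter -/
theorem zeta {z : ℝ} (h : z0 ≤ z) (h' : z ≤ z0 + ρ) : ∃ ζ, 0 ≤ ζ ∧ ζ ≤ 1 ∧ z = z0 + ρ * ζ := by
  have := H.ρ0
  refine ⟨(z - z0) / ρ, div_nonneg (by linarith) this.le, ?_, by field_simp; ring⟩
  rw [div_le_one this]; linarith

/-- the value of `q` -/
theorem val {z ζ : ℝ} (hz : z = z0 + ρ * ζ) (X : V3) :
    S.w 0 * Fq b0 b1 G ζ (pc S.e S.w T z X) = S.q z X - S.q z (T.pos z) := by
  have h1 := H.exp ζ (pc S.e S.w T z X)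
  rw [← hz, cmb_pc H.sh.ortho (fun i => (H.stp.pos i).ne') T z X] at h1
  linarith

theorem val_abs {z ζ : ℝ} (hz : z = z0 + ρ * ζ) (X : V3) :
    S.w 0 * |Fq b0 b1 G ζ (pc S.e S.w T z X)| ≤ |S.q z X| + |S.q z (T.pos z)| := by
  have h1 := H.val hz X
  have h2 : S.w 0 * |Fq b0 b1 G ζ (pc S.e S.w T z X)| =
      |S.w 0 * Fq b0 b1 G ζ (pc S.e S.w T z X)| := by rw [abs_mul, abs_of_pos H.w0]
  rw [h2, h1]
  exact abs_sub _ _

/-- height of a point of the plank over the tangent plane -/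
theorem y_line {z : ℝ} (h : z0 ≤ z) (h' : z ≤ z0 + ρ) {X : V3} (hX : InK S.e S.c S.w z X)
    (hq : |S.q z X| ≤ S.a) : S.w 0 * |yc b0 (pc S.e S.w T z X)| ≤
      2200 * (2 * S.a + kapP S z0 ρ T) := by
  obtain ⟨ζ, h0, h1, hz⟩ := H.zeta h h'
  have h2 := y_norm H.stp H.ρ0.le H.hT H.exp h0 h1 (X := X) (by rw [← hz]; exact hX)
  rw [← hz] at h2
  have h3 := H.val_abs hz X
  have h4 := (H.inT z h h').2
  rw [H.kapP_eq]
  have h5 := mul_le_mul_of_nonneg_left h2 H.w0.le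
  nlinarith

/-- height of a point near a point of the plank over the tangent plane -/
theorem y_point {z : ℝ} (h : z0 ≤ z) (h' : z ≤ z0 + ρ) {X X' : V3} (hX' : InK S.e S.c S.w z X')
    (hq' : |S.q z X'| ≤ S.a) (hX : ∀ i, |dt (S.e i) (X - X')| ≤ S.w i / 8)
    (hq : |S.q z X| ≤ S.a) : S.w 0 * |yc b0 (pc S.e S.w T z X)| ≤
      20000 * (4 * S.a + kapP S z0 ρ T) := by
  obtain ⟨ζ, h0, h1, hz⟩ := H.zeta h h'
  have h2 := y_norm' H.stp H.ρ0.le H.hT H.exp h0 h1 (X' := X') (X := X)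
    (by rw [← hz]; exact hX') hX
  rw [← hz] at h2
  have h3 := H.val_abs hz X
  have h3' := H.val_abs hz X'
  have h4 := (H.inT z h h').2
  rw [H.kapP_eq]
  have h5 := mul_le_mul_of_nonneg_left h2 H.w0.le
  nlinarith

end Sit

/-- tilt of the long axis -/
noncomputable def al (S : Plk4) (b0 : V3) : ℝ := b0 1 / b0 0 * (S.w 0 / S.w 1)
/-- tilt of the second axis -/
noncomputable def be (S : Plk4) (b0 : V3) : ℝ := b0 2 / b0 0 * (S.w 0 / S.w 2)

namespace Sit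

variable {S : Plk4} {T : Ln4} {z0 ρ r : ℝ} {b0 b1 : V3} {G : QF} (H : Sit S T z0 ρ r b0 b1 G)
include H

theorem al_le : |al S b0| * S.w 1 ≤ 2 * S.w 0 := by
  have h := H.nrm.b1_le.2.2.2.2.2.2.2.1
  unfold al
  rw [abs_mul, abs_div (S.w 0), abs_of_pos H.w0, abs_of_pos H.w1]
  have e1 : |b0 1 / b0 0| * (S.w 0 / S.w 1) * S.w 1 = |b0 1 / b0 0| * S.w 0 := by
    have := H.w1.ne'
    field_simp
  rw [e1]
  exact mul_le_mul_of_nonneg_right h H.w0.le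

theorem be_le : |be S b0| * S.w 2 ≤ 2 * S.w 0 := by
  have h := H.nrm.b1_le.2.2.2.2.2.2.2.2
  unfold be
  rw [abs_mul, abs_div (S.w 0), abs_of_pos H.w0, abs_of_pos H.w2]
  have e1 : |b0 2 / b0 0| * (S.w 0 / S.w 2) * S.w 2 = |b0 2 / b0 0| * S.w 0 := by
    have := H.w2.ne'
    field_simp
  rw [e1]
  exact mul_le_mul_of_nonneg_right h H.w0.le

theorem al_two : |al S b0| ≤ 2 := by
  have h := H.al_le
  have h1 := H.w1
  have h2 : S.w 0 ≤ S.w 1 := H.sh.w0_le.trans H.sh.w_le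
  by_contra hc
  push Not at hc
  nlinarith

theorem be_two : |be S b0| ≤ 2 := by
  have h := H.be_le
  have h1 := H.w2
  have h2 := H.sh.w0_le
  by_contra hc
  push Not at hc
  nlinarith

theorem n0_le : n0 (al S b0) (be S b0) ≤ 3 := by
  have h1 := H.al_two
  have h2 := H.be_two
  unfold n0
  rw [Real.sqrt_le_left (by norm_num)]
  rw [abs_le] at h1 h2
  nlinarith [h1.1, h1.2, h2.1, h2.2]

/-- normal offset -/
theorem f0_eq (z : ℝ) (X : V3) : n0 (al S b0) (be S b0) *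
    dt (fF S.e (al S b0) (be S b0) 0) (X - T.pos z) = S.w 0 * yc b0 (pc S.e S.w T z X) := by
  have e0 : fF S.e (al S b0) (be S b0) 0 = cmb S.e ![1 / n0 (al S b0) (be S b0),
    al S b0 / n0 (al S b0) (be S b0), be S b0 / n0 (al S b0) (be S b0)] := rfl
  have p0 : n0 (al S b0) (be S b0) ≠ 0 := by have := n0_ge (al S b0) (be S b0); linarith
  rw [e0, dt_cmb]
  simp only [Matrix.cons_val_zero, Matrix.cons_val_one, Matrix.cons_val]
  have h0 := H.w0.ne'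
  have h1 := H.w1.ne'
  have h2 := H.w2.ne'
  have hb := H.ne0
  generalize n0 (al S b0) (be S b0) = ν at p0 ⊢
  have e1 : ν * (1 / ν * dt (S.e 0) (X - T.pos z) + al S b0 / ν * dt (S.e 1) (X - T.pos z) +
      be S b0 / ν * dt (S.e 2) (X - T.pos z)) = dt (S.e 0) (X - T.pos z) +
      al S b0 * dt (S.e 1) (X - T.pos z) + be S b0 * dt (S.e 2) (X - T.pos z) := by
    field_simp
  rw [e1]
  unfold yc pc al be
  field_simp

theorem f0_le (z : ℝ) (X : V3) : |dt (fF S.e (al S b0) (be S b0) 0) (X - T.pos z)| ≤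
    S.w 0 * |yc b0 (pc S.e S.w T z X)| := by
  have h := H.f0_eq z X
  have p0 := n0_ge (al S b0) (be S b0)
  have h1 : n0 (al S b0) (be S b0) * |dt (fF S.e (al S b0) (be S b0) 0) (X - T.pos z)| =
      S.w 0 * |yc b0 (pc S.e S.w T z X)| := by
    rw [← abs_of_pos (by linarith : 0 < n0 (al S b0) (be S b0)), ← abs_mul, h, abs_mul,
      abs_of_pos H.w0]
  rw [← h1]
  exact le_mul_of_one_le_left (abs_nonneg _) p0

theorem f0_ge (z : ℝ) (X : V3) : S.w 0 * |yc b0 (pc S.e S.w T z X)| ≤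
    3 * |dt (fF S.e (al S b0) (be S b0) 0) (X - T.pos z)| := by
  have h := H.f0_eq z X
  have p0 := n0_ge (al S b0) (be S b0)
  have h1 : n0 (al S b0) (be S b0) * |dt (fF S.e (al S b0) (be S b0) 0) (X - T.pos z)| =
      S.w 0 * |yc b0 (pc S.e S.w T z X)| := by
    rw [← abs_of_pos (by linarith : 0 < n0 (al S b0) (be S b0)), ← abs_mul, h, abs_mul,
      abs_of_pos H.w0]
  rw [← h1]
  exact mul_le_mul_of_nonneg_right H.n0_le (abs_nonneg _)

/-- normal offset of a line of the sheet -/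
theorem off_line {t : Ln4} (ht : InP t S z0 ρ) {z : ℝ} (h : z0 ≤ z) (h' : z ≤ z0 + ρ) {Y : ℝ}
    (haY : S.a ≤ Y) (hkY : kapP S z0 ρ T ≤ Y) :
    |dt (fF S.e (al S b0) (be S b0) 0) (t.pos z - T.pos z)| ≤ 6600 * Y := by
  obtain ⟨h1, h2⟩ := ht z h h'
  have h3 := H.f0_le z (t.pos z)
  have h4 := H.y_line h h' h1 h2
  linarith

theorem off_point {t : Ln4} (ht : InP t S z0 ρ) {z : ℝ} (h : z0 ≤ z) (h' : z ≤ z0 + ρ) {Y : ℝ}
    (haY : S.a ≤ Y) (hkY : kapP S z0 ρ T ≤ Y) {x : V3}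
    (hx : InK S.e t (fun i => S.w i / 8) z x) (hq : |S.q z x| ≤ S.a) :
    |dt (fF S.e (al S b0) (be S b0) 0) (x - T.pos z)| ≤ 100000 * Y := by
  obtain ⟨h1, h2⟩ := ht z h h'
  have h3 := H.f0_le z x
  have h4 := H.y_point h h' h1 h2 hx hq
  linarith

omit H in
/-- axis offsets of two lines -/
theorem ax {t t' : Ln4} (ht : InP t S z0 ρ) (ht' : InP t' S z0 ρ) {z : ℝ} (h : z0 ≤ z)
    (h' : z ≤ z0 + ρ) (i : Fin 3) : |dt (S.e i) (t.pos z - t'.pos z)| ≤ 2 * S.w i := by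
  have e1 : dt (S.e i) (t.pos z - t'.pos z) = dt (S.e i) (t.pos z - S.c.pos z) -
    dt (S.e i) (t'.pos z - S.c.pos z) := by simp only [dt, Pi.sub_apply]; ring
  rw [e1]
  have := Arc880.abs_sub2 ((ht z h h').1 i) ((ht' z h h').1 i)
  linarith

theorem box {t t' : Ln4} (ht : InP t S z0 ρ) (ht' : InP t' S z0 ρ) {Y : ℝ}
    (haY : S.a ≤ Y) (hkY : kapP S z0 ρ T ≤ Y) :
    InB t t' (fF S.e (al S b0) (be S b0)) ![13200 * Y, 6 * S.w 1, 4 * S.w 2] z0 ρ := by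
  have hw0 := H.w0
  have hw1 := H.w1
  have hw2 := H.w2
  have he := H.sh.ortho
  have hf := fF_ortho he (al S b0) (be S b0)
  have h02 := H.sh.w0_le
  have h21 := H.sh.w_le
  obtain ⟨c01, c02, c10, c12, c21, -⟩ := fF_coef he (al S b0) (be S b0)
  intro z h h' i
  have a0 := Sit.ax ht ht' h h' 0
  have a1 := Sit.ax ht ht' h h' 1
  have a2 := Sit.ax ht ht' h h' 2
  fin_cases i
  · change |dt (fF S.e (al S b0) (be S b0) 0) (t.pos z - t'.pos z)| ≤ 13200 * Y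
    have e1 : dt (fF S.e (al S b0) (be S b0) 0) (t.pos z - t'.pos z) =
      dt (fF S.e (al S b0) (be S b0) 0) (t.pos z - T.pos z) -
        dt (fF S.e (al S b0) (be S b0) 0) (t'.pos z - T.pos z) := by
      simp only [dt, Pi.sub_apply]; ring
    rw [e1]
    have := Arc880.abs_sub2 (H.off_line ht h h' haY hkY) (H.off_line ht' h h' haY hkY)
    linarith
  · change |dt (fF S.e (al S b0) (be S b0) 1) (t.pos z - t'.pos z)| ≤ 6 * S.w 1
    rw [dt_expand he]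
    have g0 := Arc880.abs_mul_le (abs_dt_le_one he hf 1 0) a0
    have g1 := Arc880.abs_mul_le (abs_dt_le_one he hf 1 1) a1
    have g2 := Arc880.abs_mul_le (abs_dt_le_one he hf 1 2) a2
    have := Arc880.abs_add2 (Arc880.abs_add2 g0 g1) g2
    linarith
  · change |dt (fF S.e (al S b0) (be S b0) 2) (t.pos z - t'.pos z)| ≤ 4 * S.w 2
    rw [dt_expand he, c21, zero_mul, add_zero]
    have g0 := Arc880.abs_mul_le (abs_dt_le_one he hf 2 0) a0
    have g2 := Arc880.abs_mul_le (abs_dt_le_one he hf 2 2) a2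
    have := Arc880.abs_add2 g0 g2
    linarith

/-- **(B1), first half** -/
theorem fh {Y : ℝ} (haY : S.a ≤ Y) (hkY : kapP S z0 ρ T ≤ Y) {C : ℝ} (hC : 120000 ≤ C) :
    FH C Y S (fF S.e (al S b0) (be S b0)) z0 ρ := by
  have hw0 := H.w0
  have hw1 := H.w1
  have hw2 := H.w2
  have hY : 0 < Y := H.a0.trans_le haY
  have he := H.sh.ortho
  have h02 := H.sh.w0_le
  have hal := H.al_le
  obtain ⟨c01, c02, c10, c12, c21, c00⟩ := fF_coef he (al S b0) (be S b0)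
  have k1 : |al S b0| * S.w 1 ≤ C * S.w 2 := by nlinarith
  refine ⟨fF_ortho he _ _, ?_, ?_, ?_, ?_, ?_, ?_, ?_⟩
  · exact (mul_le_mul_of_nonneg_right c01 hw1.le).trans k1
  · exact (mul_le_mul_of_nonneg_right c10 hw1.le).trans k1
  · exact (mul_le_mul_of_nonneg_right c12 hw1.le).trans k1
  · rw [c21, abs_zero, zero_mul]; positivity
  · refine c00.trans (mul_le_mul_of_nonneg_right ?_ (abs_nonneg _))
    have := H.n0_le
    linarith
  · intro t t' ht ht' z h h' i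
    refine (H.box ht ht' haY hkY z h h' i).trans ?_
    fin_cases i
    · change 13200 * Y ≤ C * Y; nlinarith
    · change 6 * S.w 1 ≤ C * S.w 1; nlinarith
    · change 4 * S.w 2 ≤ C * S.w 2; nlinarith
  · intro t ht z h h' x hx hq
    have e1 : dt (fF S.e (al S b0) (be S b0) 0) (x - t.pos z) =
      dt (fF S.e (al S b0) (be S b0) 0) (x - T.pos z) -
        dt (fF S.e (al S b0) (be S b0) 0) (t.pos z - T.pos z) := by
      simp only [dt, Pi.sub_apply]; ring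
    rw [e1]
    have := Arc880.abs_sub2 (H.off_point ht h h' haY hkY hx hq) (H.off_line ht h h' haY hkY)
    nlinarith

set_option maxHeartbeats 1600000 in
/-- **(B1), second half** -/
theorem fl {Y : ℝ} (haY : S.a ≤ Y) (hkY : kapP S z0 ρ T ≤ Y) (hYw : Y ≤ 100 * S.w 0) {C : ℝ}
    (hC : 10 ^ 12 ≤ C) : FL C Y S (fF S.e (al S b0) (be S b0)) z0 ρ := by
  have hw0 := H.w0
  have hw1 := H.w1
  have hw2 := H.w2
  have hY : 0 < Y := H.a0.trans_le haY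
  have he := H.sh.ortho
  have hf := fF_ortho he (al S b0) (be S b0)
  have h02 := H.sh.w0_le
  have h21 := H.sh.w_le
  have hal := H.al_le
  have hbe := H.be_le
  have N := H.nrm
  obtain ⟨c01, c02, c10, c12, c21, c00⟩ := fF_coef he (al S b0) (be S b0)
  intro t ht
  refine ⟨1, by linarith, by linarith, fun m hm z h h' x hx0 hx1 hx2 => ?_⟩
  obtain ⟨ζ, hζ, hζ', hz⟩ := H.zeta h h'
  -- offsets from T
  have m0 : 0 < m := by linarith
  have v0 : |dt (fF S.e (al S b0) (be S b0) 0) (x - T.pos z)| ≤ 6601 * (m * Y) := by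
    have e1 : dt (fF S.e (al S b0) (be S b0) 0) (x - T.pos z) =
      dt (fF S.e (al S b0) (be S b0) 0) (x - t.pos z) +
        dt (fF S.e (al S b0) (be S b0) 0) (t.pos z - T.pos z) := by
      simp only [dt, Pi.sub_apply]; ring
    rw [e1]
    have := Arc880.abs_add2 hx0 (H.off_line ht h h' haY hkY)
    have : Y ≤ m * Y := le_mul_of_one_le_left hY.le hm
    linarith
  have k1 : |dt (S.e 1) (x - t.pos z)| ≤ 201 * (m * S.w 1) := by
    rw [dt_expand hf]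
    have g0 := Arc880.abs_mul_le (show |dt (S.e 1) (fF S.e (al S b0) (be S b0) 0)| ≤ |al S b0| by
      rw [dt_comm]; exact c01) hx0
    have g1 := Arc880.abs_mul_le (abs_dt_le_one hf he 1 1) hx1
    rw [dt_comm (S.e 1) (fF S.e (al S b0) (be S b0) 2), c21, zero_mul, add_zero]
    have g2 : |al S b0| * (m * Y) ≤ 200 * (m * S.w 1) := by
      have q1 : |al S b0| * Y ≤ |al S b0| * (100 * S.w 1) :=
        mul_le_mul_of_nonneg_left (by linarith) (abs_nonneg _)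
      have q2 : |al S b0| * Y ≤ 200 * S.w 1 := by linarith
      have q3 := mul_le_mul_of_nonneg_left q2 m0.le
      linarith
    have := Arc880.abs_add2 g0 g1
    linarith
  have k2 : |dt (S.e 2) (x - t.pos z)| ≤ 205 * (m * S.w 2) := by
    rw [dt_expand hf]
    have g0 := Arc880.abs_mul_le (show |dt (S.e 2) (fF S.e (al S b0) (be S b0) 0)| ≤ |be S b0| by
      rw [dt_comm]; exact c02) hx0
    have g1 := Arc880.abs_mul_le (show |dt (S.e 2) (fF S.e (al S b0) (be S b0) 1)| ≤ |al S b0| by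
      rw [dt_comm]; exact c12) hx1
    have g2 := Arc880.abs_mul_le (abs_dt_le_one hf he 2 2) hx2
    have g3 : |be S b0| * (m * Y) ≤ 200 * (m * S.w 2) := by
      have q1 : |be S b0| * Y ≤ |be S b0| * (100 * S.w 2) :=
        mul_le_mul_of_nonneg_left (by linarith) (abs_nonneg _)
      have q2 : |be S b0| * Y ≤ 200 * S.w 2 := by linarith
      have q3 := mul_le_mul_of_nonneg_left q2 m0.le
      linarith
    have g4 : |al S b0| * (m * S.w 1) ≤ 4 * (m * S.w 2) := by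
      have q2 : |al S b0| * S.w 1 ≤ 4 * S.w 2 := by linarith
      have q3 := mul_le_mul_of_nonneg_left q2 m0.le
      linarith
    have := Arc880.abs_add2 (Arc880.abs_add2 g0 g1) g2
    linarith
  set X := pc S.e S.w T z x with hX
  have u1 : |X 1| ≤ 207 * m := by
    have e1 : X 1 = (dt (S.e 1) (x - t.pos z) + dt (S.e 1) (t.pos z - T.pos z)) / S.w 1 := by
      rw [hX]; simp only [pc, dt, Pi.sub_apply]; ring
    rw [e1, abs_div, abs_of_pos hw1, div_le_iff₀ hw1]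
    have := Arc880.abs_add2 k1 (Sit.ax ht H.inT h h' 1)
    nlinarith
  have u2 : |X 2| ≤ 207 * m := by
    have e1 : X 2 = (dt (S.e 2) (x - t.pos z) + dt (S.e 2) (t.pos z - T.pos z)) / S.w 2 := by
      rw [hX]; simp only [pc, dt, Pi.sub_apply]; ring
    rw [e1, abs_div, abs_of_pos hw2, div_le_iff₀ hw2]
    have := Arc880.abs_add2 k2 (Sit.ax ht H.inT h h' 2)
    nlinarith
  have y1 : S.w 0 * |yc b0 X| ≤ 19803 * (m * Y) := by
    have := H.f0_ge z x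
    rw [← hX] at this
    linarith
  have y2 : |yc b0 X| ≤ 1980300 * m := by
    by_contra hc
    push Not at hc
    have h1 : S.w 0 * (1980300 * m) < S.w 0 * |yc b0 X| := mul_lt_mul_of_pos_left hc hw0
    have h2 : m * Y ≤ m * (100 * S.w 0) := mul_le_mul_of_nonneg_left hYw m0.le
    nlinarith
  obtain ⟨-, -, -, -, -, -, -, sl1, sl2⟩ := N.b1_le
  obtain ⟨gy, gu, gv, -⟩ := N.G_le
  have hA : |b0 0 + ζ * b1 0| ≤ 2 := by
    have a0 : |(0 : ℝ)| ≤ 1 := by norm_num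
    have := N.st ζ hζ hζ' 0 0 0 a0 a0 a0
    rw [abs_le]; constructor <;> linarith [this.1, this.2]
  have s12 := Arc880.abs_add2 (Arc880.abs_mul_le sl1 u1) (Arc880.abs_mul_le sl2 u2)
  have x0 : |X 0| ≤ 2000000 * m := by
    have e1 : X 0 = yc b0 X - (b0 1 / b0 0 * X 1 + b0 2 / b0 0 * X 2) := by unfold yc; ring
    rw [e1]
    have := Arc880.abs_sub2 y2 s12
    linarith
  have hbra : |bra b0 b1 G ζ X| ≤ 3000000 * m := by
    unfold bra
    have := Arc880.abs_sub2 (Arc880.abs_add2 (Arc880.abs_add2 (Arc880.abs_add2 hA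
      (Arc880.abs_mul_le gy x0)) (Arc880.abs_mul_le gu u1)) (Arc880.abs_mul_le gv u2))
      (Arc880.abs_mul_le gy s12)
    linarith
  have hrem := rem_le (b0 := b0) (b1 := b1) (G := G) hζ hζ' (m := 207 * m) (by linarith) u1 u2
  have hF : |Fq b0 b1 G ζ X| ≤ |yc b0 X| * (3000000 * m) +
      5 * (207 * m) ^ 2 * kap b0 b1 G := by
    rw [Fq_split H.ne0]
    exact Arc880.abs_add2 (Arc880.abs_mul_le le_rfl hbra) hrem
  have hval := H.val hz x
  rw [← hX] at hval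
  have hqT := (H.inT z h h').2
  have hq : |S.q z x| ≤ S.w 0 * |Fq b0 b1 G ζ X| + S.a := by
    have e1 : S.q z x = S.w 0 * Fq b0 b1 G ζ X + S.q z (T.pos z) := by linarith
    rw [e1]
    have e2 : |S.w 0 * Fq b0 b1 G ζ X| ≤ S.w 0 * |Fq b0 b1 G ζ X| := by
      rw [abs_mul, abs_of_pos hw0]
    exact Arc880.abs_add2 e2 hqT
  have hk : S.w 0 * kap b0 b1 G ≤ Y := by rw [← H.kapP_eq]; exact hkY
  have f1 := mul_le_mul_of_nonneg_left hF hw0.le
  have f2 : S.w 0 * (|yc b0 X| * (3000000 * m) + 5 * (207 * m) ^ 2 * kap b0 b1 G) =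
    (S.w 0 * |yc b0 X|) * (3000000 * m) + 5 * 207 ^ 2 * (m ^ 2 * (S.w 0 * kap b0 b1 G)) := by ring
  have f3 : (S.w 0 * |yc b0 X|) * (3000000 * m) ≤ 19803 * (m * Y) * (3000000 * m) :=
    mul_le_mul_of_nonneg_right y1 (by linarith)
  have f4 : m ^ 2 * (S.w 0 * kap b0 b1 G) ≤ m ^ 2 * Y := mul_le_mul_of_nonneg_left hk (by positivity)
  have f5 : Y ≤ m ^ 2 * Y := le_mul_of_one_le_left hY.le (one_le_pow₀ hm)
  have f6 : m * Y ≤ m ^ 2 * Y := mul_le_mul_of_nonneg_right (by nlinarith) hY.le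
  have f7 : 10 ^ 12 * (m ^ 2 * Y) ≤ C * (m ^ 2 * Y) := mul_le_mul_of_nonneg_right hC (by positivity)
  have f8 : |S.q z x - 1 * dt (fF S.e (al S b0) (be S b0) 0) (x - t.pos z)| ≤
      (S.w 0 * |Fq b0 b1 G ζ X| + S.a) + m * Y := by
    rw [one_mul]; exact Arc880.abs_sub2 hq hx0
  have f9 : C * m ^ 2 * Y = C * (m ^ 2 * Y) := by ring
  have f10 : 19803 * (m * Y) * (3000000 * m) = 59409000000 * (m ^ 2 * Y) := by ring
  rw [f9]
  rw [f10] at f3
  rw [f2] at f1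
  linarith

end Sit

/-- **(B1)** literal of `Pl2B_860`. -/
theorem flatFrame : FlatFrame := by
  refine ⟨10 ^ 12, by norm_num, fun S T z0 ρ r hρ hr hS hT => ?_⟩
  have hw0 : 0 < S.w 0 := (hr.trans_le hS.r0_le).trans_le hS.a_le0
  have hE := expP_spec hS.isQ hw0.ne' z0 ρ T
  have H : Sit S T z0 ρ r (expP S z0 ρ T).1 (expP S z0 ρ T).2.1 (expP S z0 ρ T).2.2 :=
    ⟨hρ, hr, hS, hT, hE⟩
  exact ⟨fF S.e (al S (expP S z0 ρ T).1) (be S (expP S z0 ρ T).1), fun Y haY hkY =>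
    ⟨H.fh haY hkY (by norm_num), fun hYw => H.fl haY hkY hYw le_rfl⟩⟩

end Crest.Agent.R136.Ffr262
end

-- ▼ part R136/Pl7e_186

/-!
# R136 (S0187), PLAN 2, leaf (B3): tubes in the classes (helper186)

`tube_two` : the tube bound of `TubeL` for 102's `Two1` (with `r ≤ ρ`), from `DMx.wide`.
-/

set_option autoImplicit false
set_option linter.unusedVariables false
set_option linter.unusedSectionVars false

namespace Crest.Agent.R136.Pl7186

open Finset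
open Crest.Agent.R136.Sh605
open Crest.Agent.R136.K4 (Plk4)
open Crest.Agent.R136.Tlt51 (Shp InP)
open Crest.Agent.R136.Phc248
open Crest.Agent.R136.Pl2W102 (Near Ex2 Two1)
open Crest.Agent.R136.Pl2 (FH)

section

variable {qm qp : Fin 3 → ℝ} {L : ℕ → Ln4} {P : Finset ℕ} {cu cv : ℕ → ℕ} {Uf Vf : ℕ → Plk4}
  {W M a w1 w2 z0 ρ r : ℝ}

theorem Two1.dmx (h : Two1 qm qp L P cu cv Uf Vf W M a w1 w2 z0 ρ r) :
    DMx P L z0 ρ r (fun _ x _ => x ≤ ρ) (fun a' x y => W * M * phC qm qp a w1 w2 a' x y) := by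
  intro e c w Q α hS hw
  exact h.dmax ⟨0, e, c, w, Q, α⟩ hS hw

/-- D-max for sheets with `w 1 ≤ K ρ` -/
theorem Two1.wide (h : Two1 qm qp L P cu cv Uf Vf W M a w1 w2 z0 ρ r)
    (hq : ∀ k, 0 ≤ qm k ∧ qm k ≤ qp k) (hrρ : r ≤ ρ) {K : ℝ} (hK : 1 ≤ K) :
    DMx P L z0 ρ r (fun _ x _ => x ≤ K * ρ)
      (fun a' x y => ((35 * K) ^ 6 * (17 * K) ^ (1 + qp 0) * (W * M)) *
        phC qm qp a w1 w2 a' x y) :=
  DMx.wide (fun k => (hq k).1) (fun k => (hq k).2)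
    (mul_nonneg (by linarith [h.W1]) h.M0.le) h.ρ0 h.r0 hrρ h.a0 h.w10 h.w20 (Two1.dmx h) hK

/-- the sheet of a class contains the whole class -/
theorem sheet_count {ι : Type*} {P : Finset ι} {L : ι → Ln4} {Rg : ℝ → ℝ → ℝ → Prop}
    {cap : ℝ → ℝ → ℝ → ℝ} (hd : DMx P L z0 ρ r Rg cap) {S : Plk4} (hS : Shp S z0 ρ r)
    (hR : Rg S.a (S.w 1) (S.w 2)) (F : Finset ι) (hF : F ⊆ P) (hb : ∀ t ∈ F, InP (L t) S z0 ρ) :
    (F.card : ℝ) ≤ cap S.a (S.w 1) (S.w 2) := by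
  classical
  refine le_trans ?_ (hd _ _ _ _ _ hS hR)
  have : F ⊆ P.filter fun t => InSheet (L t) S.e S.c S.w S.q S.a z0 ρ := by
    intro t ht
    rw [mem_filter]
    exact ⟨hF ht, hb t ht⟩
  exact_mod_cast card_le_card this

set_option maxHeartbeats 1000000 in
open Classical in
/-- **(B3)** -/
theorem tube_two (h : Two1 qm qp L P cu cv Uf Vf W M a w1 w2 z0 ρ r)
    (hq : ∀ k, 0 ≤ qm k ∧ qm k ≤ qp k) (hrρ : r ≤ ρ) {t : ℕ} (ht : t ∈ P) {m δ Y : ℝ}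
    {f : Fin 3 → V3} (hm : 1 ≤ m) (hf : FH m Y (Uf (cu t)) f z0 ρ) (hY : Y ≤ m * w2)
    (hδ : w2 ≤ m * (δ * w1)) (hδm : δ ≤ m) :
    ((P.filter fun s => cu s = cu t ∧ ∀ z, z0 ≤ z → z ≤ z0 + ρ →
        |dt (f 1) ((L s).pos z - (L t).pos z)| ≤ δ * w1).card : ℝ) ≤
          (2 * W * m) ^ (49 + 6 * qp 0 + 5 * qp 1 + qp 2) * M * δ ^ (1 + qm 1) := by
  have hW := h.W1
  have hW0 : 0 < W := by linarith
  have hm0 : 0 < m := by linarith
  have hM := h.M0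
  have ha := h.a0
  have hw1 := h.w10
  have hw2 := h.w20
  have hρ := h.ρ0
  have q0 := hq 0
  have q1 := hq 1
  have q2 := hq 2
  have hqm : ∀ k, 0 ≤ qm k := fun k => (hq k).1
  have hqmp : ∀ k, qm k ≤ qp k := fun k => (hq k).2
  have hqp : ∀ k, 0 ≤ qp k := fun k => (hq k).1.trans (hq k).2
  have hδ0 : 0 < δ := by
    have h1 : 0 < m * (δ * w1) := hw2.trans_le hδ
    have h2 : 0 < δ * w1 := (pos_iff_pos_of_mul_pos h1).1 hm0
    exact (pos_iff_pos_of_mul_pos h2).2 hw1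
  obtain ⟨S, hSd⟩ : ∃ S, S = Uf (cu t) := ⟨_, rfl⟩
  rw [← hSd] at hf
  have hS : Shp S z0 ρ r := by rw [hSd]; exact h.shU t ht
  have hT : InP (L t) S z0 ρ := by rw [hSd]; exact h.inU t ht
  obtain ⟨⟨d0, d0'⟩, ⟨d1, d1'⟩, ⟨d2, d2'⟩⟩ := h.dimU t ht
  rw [← hSd] at d0 d0' d1 d1' d2 d2'
  have sa : 0 < S.a := h.r0.trans_le hS.r0_le
  have s0 : 0 < S.w 0 := sa.trans_le hS.a_le0
  have s2 : 0 < S.w 2 := s0.trans_le hS.w0_le
  have s1 : 0 < S.w 1 := s2.trans_le hS.w_le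
  set F := P.filter fun s => cu s = cu t ∧ ∀ z, z0 ≤ z → z ≤ z0 + ρ →
        |dt (f 1) ((L s).pos z - (L t).pos z)| ≤ δ * w1 with hF
  have hFP : F ⊆ P := filter_subset _ _
  have hFS : ∀ s ∈ F, InP (L s) S z0 ρ := by
    intro s hs
    have h1 := mem_filter.1 hs
    rw [hSd, ← h1.2.1]; exact h.inU s h1.1
  -- the wide direction of `S`
  obtain ⟨x, hx⟩ : ∃ x, x = 3 * m ^ 4 * W * (δ * w1) := ⟨_, rfl⟩
  have hδw : 0 < δ * w1 := by positivity
  have m1 : (1 : ℝ) ≤ m ^ 3 := one_le_pow₀ hm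
  have m4 : (1 : ℝ) ≤ m ^ 4 := one_le_pow₀ hm
  have hSx : S.w 2 ≤ x := by
    have h1 : S.w 2 ≤ W * (m * (δ * w1)) := d2'.trans (mul_le_mul_of_nonneg_left hδ hW0.le)
    refine h1.trans ?_
    rw [hx]
    have h2 : m ≤ m ^ 4 := by
      calc m = m ^ 1 := (pow_one m).symm
        _ ≤ m ^ 4 := pow_le_pow_right₀ hm (by norm_num)
    have h3 : W * (m * (δ * w1)) ≤ W * (m ^ 4 * (δ * w1)) := by gcongr
    have h4 : 0 ≤ W * (m ^ 4 * (δ * w1)) := by positivity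
    nlinarith
  have hwide : ∀ s ∈ F, ∀ z, z0 ≤ z → z ≤ z0 + ρ →
      |dt (S.e 1) ((L s).pos z - (L t).pos z)| ≤ x := by
    intro s hs z hz hz'
    have h1 := (mem_filter.1 hs).2.2 z hz hz'
    have h2 := hf.box (L s) (L t) (hFS s hs) hT z hz hz'
    set Δ := (L s).pos z - (L t).pos z with hΔ
    have b0 : |dt (f 0) Δ| ≤ m * Y := h2 0
    have b2 : |dt (f 2) Δ| ≤ m * S.w 2 := h2 2
    have e1 := Crest.Agent.R136.Fl808.dt_expand hf.ortho (S.e 1) Δ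
    have c0 : |dt (S.e 1) (f 0)| ≤ m := by
      rw [dt_comm]
      have h3 : |dt (f 0) (S.e 1)| * S.w 1 ≤ m * S.w 1 :=
        hf.e01.trans (mul_le_mul_of_nonneg_left hS.w_le hm0.le)
      exact le_of_mul_le_mul_right h3 s1
    have c2 : |dt (S.e 1) (f 2)| ≤ m := by
      rw [dt_comm]
      have h3 : |dt (f 2) (S.e 1)| * S.w 1 ≤ m * S.w 1 :=
        hf.e21.trans (mul_le_mul_of_nonneg_left hS.w_le hm0.le)
      exact le_of_mul_le_mul_right h3 s1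
    have c1 : |dt (S.e 1) (f 1)| ≤ 1 := by
      rw [dt_comm]
      exact Crest.Agent.R136.Fl808.abs_dt_le_one hS.ortho hf.ortho 1 1
    rw [e1]
    refine (abs_add_le _ _).trans ((add_le_add (abs_add_le _ _) le_rfl).trans ?_)
    rw [abs_mul, abs_mul, abs_mul]
    have g0 : |dt (S.e 1) (f 0)| * |dt (f 0) Δ| ≤ m * (m * Y) :=
      mul_le_mul c0 b0 (abs_nonneg _) hm0.le
    have g1 : |dt (S.e 1) (f 1)| * |dt (f 1) Δ| ≤ 1 * (δ * w1) :=
      mul_le_mul c1 h1 (abs_nonneg _) zero_le_one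
    have g2 : |dt (S.e 1) (f 2)| * |dt (f 2) Δ| ≤ m * (m * S.w 2) :=
      mul_le_mul c2 b2 (abs_nonneg _) hm0.le
    have k0 : m * (m * Y) ≤ m ^ 4 * W * (δ * w1) := by
      calc m * (m * Y) ≤ m * (m * (m * (m * (δ * w1)))) := by
            have : Y ≤ m * (m * (δ * w1)) := hY.trans (mul_le_mul_of_nonneg_left hδ hm0.le)
            gcongr
        _ = m ^ 4 * 1 * (δ * w1) := by ring
        _ ≤ m ^ 4 * W * (δ * w1) := by gcongr
    have k1 : 1 * (δ * w1) ≤ m ^ 4 * W * (δ * w1) := by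
      have : 1 * 1 ≤ m ^ 4 * W := mul_le_mul m4 hW zero_le_one (by positivity)
      rw [one_mul] at this
      gcongr
    have k2 : m * (m * S.w 2) ≤ m ^ 4 * W * (δ * w1) := by
      have h4 : S.w 2 ≤ W * (m * (δ * w1)) := d2'.trans (mul_le_mul_of_nonneg_left hδ hW0.le)
      calc m * (m * S.w 2) ≤ m * (m * (W * (m * (δ * w1)))) := by gcongr
        _ = m ^ 3 * (W * (δ * w1)) := by ring
        _ ≤ m ^ 4 * (W * (δ * w1)) := by
            have : m ^ 3 ≤ m ^ 4 := pow_le_pow_right₀ hm (by norm_num)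
            gcongr
        _ = _ := by ring
    rw [hx]
    linarith
  -- D-max
  have hWW : 1 ≤ W ^ 2 := one_le_pow₀ hW
  have hd := Two1.wide h hq hrρ hWW
  have hS1ρ : S.w 1 ≤ W ^ 2 * ρ := by
    calc S.w 1 ≤ W * w1 := d1'
      _ ≤ W * (W * ρ) := mul_le_mul_of_nonneg_left h.w1ρ hW0.le
      _ = _ := by ring
  set Dw := (35 * W ^ 2) ^ 6 * (17 * W ^ 2) ^ (1 + qp 0) * (W * M) with hDw
  have hDw0 : 0 ≤ Dw := by rw [hDw]; positivity
  have hx0 : 0 < x := s2.trans_le hSx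
  have hcount : (F.card : ℝ) ≤ Dw * phC qm qp a w1 w2 (W * a) (2 * x) (W * w2) := by
    rcases le_total (2 * x) (S.w 1) with hc | hc
    · have h1 := tube_count hd hS hT hc hSx sa
        (show x ≤ W ^ 2 * ρ by linarith) F hFP
        (fun s hs => ⟨hFS s hs, fun z hz hz' => hwide s hs z hz hz'⟩)
      refine h1.trans (mul_le_mul_of_nonneg_left ?_ hDw0)
      exact phC_mono hqm hqp ha.le hw1.le hw2.le sa.le hx0.le s2.le d0' (by linarith) d2'
    · have h1 := sheet_count hd hS hS1ρ F hFP hFS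
      refine h1.trans (mul_le_mul_of_nonneg_left ?_ hDw0)
      exact phC_mono hqm hqp ha.le hw1.le hw2.le sa.le s1.le s2.le d0' hc d2'
  -- numbers
  have hphi : phC qm qp a w1 w2 (W * a) (2 * x) (W * w2) ≤
      W ^ (1 + qp 0) * (6 * m ^ 5 * W) ^ (1 + qp 1) * W ^ (1 + qp 2) * δ ^ (1 + qm 1) := by
    have e1 : 2 * x = (6 * m ^ 5 * W) * (δ / m * w1) := by
      rw [hx]; field_simp; ring
    have c6 : 1 ≤ 6 * m ^ 5 * W := by
      have h1 : (1 : ℝ) ≤ m ^ 5 := one_le_pow₀ hm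
      have h2 : 1 * 1 ≤ m ^ 5 * W := mul_le_mul h1 hW zero_le_one (by positivity)
      nlinarith
    rw [e1]
    refine (phC_mul hqm hqmp ha.le hw1.le hw2.le ha.le (by positivity) hw2.le hW c6 hW).trans ?_
    refine mul_le_mul_of_nonneg_left ?_ (by positivity)
    unfold phC
    rw [div_self ha.ne', div_self hw2.ne', mul_div_assoc, div_self hw1.ne', mul_one, ph_one,
      ph_one, one_mul, mul_one]
    have h3 : δ / m ≤ 1 := (div_le_one hm0).2 hδm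
    rw [ph_le_one (hqm 1) (hqmp 1) (by positivity) h3]
    refine Real.rpow_le_rpow (by positivity) ?_ (by linarith [hqm 1])
    rw [div_le_iff₀ hm0]; nlinarith
  refine (hcount.trans (mul_le_mul_of_nonneg_left hphi hDw0)).trans ?_
  obtain ⟨B, hB⟩ : ∃ B, B = 2 * W * m := ⟨_, rfl⟩
  have hB2 : 2 ≤ B := by rw [hB]; nlinarith
  have hB1 : 1 ≤ B := by linarith
  have hB0 : 0 < B := by linarith
  have hWB : W ≤ B := by rw [hB]; nlinarith
  have hW2B : W ^ 2 ≤ B ^ 2 := pow_le_pow_left₀ hW0.le hWB 2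
  have r1 : 35 * W ^ 2 ≤ B ^ 6 := by
    have h1 : 2 * W ≤ B := by rw [hB]; nlinarith
    have h2 : (2 * W) ^ 6 ≤ B ^ 6 := pow_le_pow_left₀ (by positivity) h1 6
    have h3 : W ^ 2 ≤ W ^ 6 := pow_le_pow_right₀ hW (by norm_num)
    have h4 : (2 * W) ^ 6 = 64 * W ^ 6 := by ring
    have h5 : 0 < W ^ 2 := by positivity
    linarith
  have r2 : 17 * W ^ 2 ≤ B ^ 5 := by
    have h1 : 2 * W ≤ B := by rw [hB]; nlinarith
    have h2 : (2 * W) ^ 5 ≤ B ^ 5 := pow_le_pow_left₀ (by positivity) h1 5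
    have h3 : W ^ 2 ≤ W ^ 5 := pow_le_pow_right₀ hW (by norm_num)
    have h4 : (2 * W) ^ 5 = 32 * W ^ 5 := by ring
    have h5 : 0 < W ^ 2 := by positivity
    linarith
  have r3 : 6 * m ^ 5 * W ≤ B ^ 5 := by
    have h3 : W ≤ W ^ 5 := by
      calc W = W ^ 1 := (pow_one W).symm
        _ ≤ W ^ 5 := pow_le_pow_right₀ hW (by norm_num)
    have h4 : B ^ 5 = 32 * (m ^ 5 * W ^ 5) := by rw [hB]; ring
    have h5 : m ^ 5 * W ≤ m ^ 5 * W ^ 5 := by gcongr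
    have h6 : 0 < m ^ 5 * W := by positivity
    rw [h4]; linarith
  have t1 : (35 * W ^ 2) ^ 6 ≤ B ^ (36 : ℝ) := by
    have h1 : (35 * W ^ 2) ^ 6 ≤ (B ^ 6) ^ 6 := pow_le_pow_left₀ (by positivity) r1 6
    have h2 : (B ^ (6 : ℕ)) ^ (6 : ℕ) = B ^ ((36 : ℕ) : ℝ) := by
      rw [Real.rpow_natCast, ← pow_mul]
    have h3 : ((36 : ℕ) : ℝ) = (36 : ℝ) := by norm_num
    rw [h3] at h2
    exact h1.trans h2.le
  have powr : ∀ (y : ℝ) (n : ℕ), (B ^ n) ^ y = B ^ ((n : ℝ) * y) := by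
    intro y n
    rw [← Real.rpow_natCast, ← Real.rpow_mul hB0.le]
  have t2 : (17 * W ^ 2) ^ (1 + qp 0) ≤ B ^ (5 * (1 + qp 0)) := by
    have h1 := Real.rpow_le_rpow (by positivity) r2 (by linarith [hqp 0] : 0 ≤ 1 + qp 0)
    rw [powr] at h1
    exact_mod_cast h1
  have t3 : (6 * m ^ 5 * W) ^ (1 + qp 1) ≤ B ^ (5 * (1 + qp 1)) := by
    have h1 := Real.rpow_le_rpow (by positivity) r3 (by linarith [hqp 1] : 0 ≤ 1 + qp 1)
    rw [powr] at h1
    exact_mod_cast h1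
  have t4 : W ^ (1 + qp 0) ≤ B ^ (1 + qp 0) := Real.rpow_le_rpow hW0.le hWB (by linarith [hqp 0])
  have t5 : W ^ (1 + qp 2) ≤ B ^ (1 + qp 2) := Real.rpow_le_rpow hW0.le hWB (by linarith [hqp 2])
  have t6 : W ≤ B ^ (1 : ℝ) := by rw [Real.rpow_one]; exact hWB
  have hδq : 0 ≤ δ ^ (1 + qm 1) := by positivity
  rw [← hB]
  calc Dw * (W ^ (1 + qp 0) * (6 * m ^ 5 * W) ^ (1 + qp 1) * W ^ (1 + qp 2) * δ ^ (1 + qm 1)) =
      ((35 * W ^ 2) ^ 6 * (17 * W ^ 2) ^ (1 + qp 0) * W * W ^ (1 + qp 0) *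
        (6 * m ^ 5 * W) ^ (1 + qp 1) * W ^ (1 + qp 2)) * (M * δ ^ (1 + qm 1)) := by
        rw [hDw]; ring
    _ ≤ (B ^ (36 : ℝ) * B ^ (5 * (1 + qp 0)) * B ^ (1 : ℝ) * B ^ (1 + qp 0) *
        B ^ (5 * (1 + qp 1)) * B ^ (1 + qp 2)) * (M * δ ^ (1 + qm 1)) := by
        refine mul_le_mul_of_nonneg_right ?_ (by positivity)
        gcongr
    _ = B ^ (49 + 6 * qp 0 + 5 * qp 1 + qp 2) * M * δ ^ (1 + qm 1) := by
        rw [← Real.rpow_add hB0, ← Real.rpow_add hB0, ← Real.rpow_add hB0, ← Real.rpow_add hB0,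
          ← Real.rpow_add hB0, mul_assoc]
        congr 2
        ring

end

/-- **(B3)** = `TubeL` of `Pl2B_860` -/
theorem tubeL : Crest.Agent.R136.Pl2.TubeL := by
  intro η qm qp hE
  refine ⟨49 + 6 * qp 0 + 5 * qp 1 + qp 2, ?_, ?_⟩
  · have h0 := hE.le 0
    have h1 := hE.le 1
    have h2 := hE.le 2
    linarith [h0.1, h0.2, h1.1, h1.2, h2.1, h2.2]
  · intro L P cu cv Uf Vf W M a w1 w2 z0 ρ r h hrρ t ht m δ Y f hm hf hY hδ hδm
    exact tube_two h hE.le hrρ ht hm hf hY hδ hδm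

end Crest.Agent.R136.Pl7186
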