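import Crest.Agent.R136.Kcl3_44
import Crest.Agent.R138.KMs_630
import Crest.Agent.R136.Pl7e_186_Mg
import Crest.Agent.R136.Cbc_372
import Crest.Agent.R136.HulW_565
import Crest.Agent.R136.Amx5_325_Mg
import Crest.Agent.R136.Cre_544
import Crest.Agent.R136.Cub6_191
import Crest.Agent.R136.CubZ_848
import Crest.Agent.R136.Asm4_102
import Crest.Agent.R136.AdjB_214
import Crest.Agent.R136.Hc1_792
import Crest.Agent.R136.Rft_877
import Crest.Agent.R136.Pl2H_417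
import Crest.Agent.R136.Fh1_792
import Crest.Agent.R136.Hcp2_208
import Crest.Agent.R136.AlK_500

-- ▼ part R136/Kcl4_44
section

/-!
# R136 (S0187), PLAN 2 (AL) (A): `UBalA Al1` from the three leaves PLMx, HullMx, NdMx (helper44)
-/

set_option autoImplicit false

namespace Crest.Agent.R136.Kcl44

/-- outer part of case (A) with `KM32` and `KapClose` plugged in -/
theorem ubalA_of (hPL : Amx325.PLMx) (hHu : Amx325.HullMx) (hNd : Amx325.NdMx) :
    Alr877.UBalA Pl2.Al1 :=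
  Amx325.ubalA_of Crest.Agent.R138.KMs630.km32 kapClose hPL hHu hNd

end Crest.Agent.R136.Kcl44
end

-- ▼ part R136/BtrF_879
section

/-!
# R136 (S0187), PLAN 2: the base tilt theorem from the share leaf alone (helper879)
-/

set_option autoImplicit false

namespace Crest.Agent.R136.Btr879

open Crest.Agent.R136.Pl2

/-- `BTR Al1` from `ShareL` -/
theorem btr_of1 (hS : ShareL) : BTR Al1 :=
  btr_of Cbc372.tiltCore Ffr262.flatFrame Hul565.wideHull Pl7186.tubeL hS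

end Crest.Agent.R136.Btr879
end

-- ▼ part R136/Ndx_325
section

/-!
# R136 (S0187), PLAN 2, mixed curvatures: `NdMx` from the chart and the nondegeneracy (helper325)

`ndMx_of_chart : ChartMx → NdPt → Amx84.NdMx`, `ndMx_of : ChartMx → NdPt → Amx325.NdMx`.
-/

set_option autoImplicit false
set_option linter.unusedVariables false

open Finset

namespace Crest.Agent.R136.Ndw325

open Crest.Agent.R136.Rk601 Crest.Agent.R136.Sh605
open Crest.Agent.R136.Tl102 (cmb fr)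
open Crest.Agent.R136.K4 (Plk4)
open Crest.Agent.R136.Tlt51 (Shp InP)
open Crest.Agent.R136.KapP335 (kapP DetP)
open Crest.Agent.R136.Pl2W102 (Near)
open Crest.Agent.R136.Pl2 (kp Al1)
open Crest.Agent.R136.Hcp208 (Dims)
open Crest.Agent.R136.Gbx862 (zj gb lc zj_mem)
open Crest.Agent.R136.AlD601 (Nd jS)
open Crest.Agent.R136.Adp876
open Crest.Agent.R136.Bl5667 (shp_pos kp_nonneg)

theorem num2 : (6 ^ 6 * 10 ^ 240 : ℝ) ≤ (2 ^ 16) * (2 ^ 4) ^ 240 := by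
  have h1 : (6 ^ 6 : ℝ) ≤ 2 ^ 16 := by norm_num
  have h2 : (10 : ℝ) ^ 240 ≤ (2 ^ 4) ^ 240 := pow_le_pow_left₀ (by norm_num) (by norm_num) 240
  exact mul_le_mul h1 h2 (by positivity) (by positivity)

/-- **`NdMx` of helper84** -/
theorem ndMx_of_chart (hCh : ChartMx) (hNd : NdPt) : Amx84.NdMx := by
  classical
  obtain ⟨C1, hC1, ch⟩ := hCh
  obtain ⟨C2, hC2, nd⟩ := hNd
  refine ⟨976 + 420 * (C1 + C2), by linarith, ?_⟩
  intro W Y a w1 w2 z0 ρ r H U V P L hW hr hρ hrρ ha hU hV hin dU dV hal hdet hnear hfl hbig hH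
    hHa T hT
  have b1 : (1:ℝ) ≤ 2 * W := by linarith
  have b0 : (0:ℝ) < 2 * W := by linarith
  have pw : ∀ {x y : ℝ}, x ≤ y → (2 * W) ^ x ≤ (2 * W) ^ y := fun hxy =>
    Real.rpow_le_rpow_of_exponent_le b1 hxy
  have pp : ∀ x : ℝ, 0 < (2 * W) ^ x := fun x => Real.rpow_pos_of_pos b0 _
  have hHr : (1 : ℝ) ≤ H := by exact_mod_cast hH
  have hH0 : (0 : ℝ) < H := by linarith
  have hl0 : 0 ≤ Real.log H := Real.log_nonneg hHr
  obtain ⟨va, vw0, v2, v1⟩ := shp_pos hr hV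
  have hw : ∀ k, 0 < V.w k := by
    intro k; fin_cases k
    · exact vw0
    · exact v1
    · exact v2
  set K : ℝ := (2 * W) ^ C1 with hKd
  set X : ℝ := (2 * W) ^ (C1 + C2) with hXd
  have hWK2 : 2 * W ≤ K := by
    have : (2 * W) ^ (1:ℝ) ≤ (2 * W) ^ C1 := pw hC1
    rwa [Real.rpow_one] at this
  have hK2 : 2 ≤ K := by linarith
  have hWK : W ≤ K := by linarith
  have hKX : K ≤ X := pw (by linarith)
  have hK0 : 0 < K := by linarith
  have hX0 : 0 < X := by linarith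
  have hY : 0 < Y := (mul_pos (pp _) ha).trans_le hbig
  set m : ℕ := ⌈K⌉₊ with hm
  have hKm : K ≤ m := Nat.le_ceil K
  have hm2 : (m : ℝ) ≤ 2 * K := by
    have := Nat.ceil_lt_add_one hK0.le
    rw [← hm] at this
    linarith
  have hm1 : 1 ≤ m := by
    have : (1:ℝ) ≤ m := by linarith
    exact_mod_cast this
  have hmr : (0:ℝ) < m := by exact_mod_cast (show 0 < m by omega)
  set B : ℝ := 10 ^ 240 * X ^ 414 * (1 + Real.log H) * (H : ℝ) ^ 2 with hB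
  have hB0 : 0 ≤ B := by positivity
  have key := Nmw84.cells_sum3 (V := V) (P := P) (L := L) (z0 := z0) (ρ := ρ) (B := B) (m := m) hm1
    hρ.le hw (fun t ht => (hin t ht).2) T
    (fun y t => y.2 < H ∧ gb V.e V.c w1 w2 z0 ρ H (L t) y.2 = y.1) hT hB0 ?_
  · refine key.trans ?_
    have e1 : (3 * (m : ℝ)) ^ 6 ≤ 6 ^ 6 * X ^ 6 := by
      calc (3 * (m : ℝ)) ^ 6 ≤ (6 * X) ^ 6 :=
            pow_le_pow_left₀ (by positivity) (by linarith) 6
        _ = 6 ^ 6 * X ^ 6 := by ring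
    have e2 : X ^ 420 = (2 * W) ^ (420 * (C1 + C2)) := by
      rw [hXd, ← Real.rpow_natCast, ← Real.rpow_mul b0.le]
      congr 1
      push_cast; ring
    have e3 : (2 ^ 16 * (2 ^ 4) ^ 240 : ℝ) ≤ (2 * W) ^ (976 : ℝ) := by
      have f1 : (2 * W) ^ (976 : ℝ) = (2 * W) ^ (976 : ℕ) := by
        exact_mod_cast Real.rpow_natCast (2 * W) 976
      rw [f1]
      calc (2 ^ 16 * (2 ^ 4) ^ 240 : ℝ) = 2 ^ 976 := by
            rw [← pow_mul, ← pow_add]
        _ ≤ (2 * W) ^ 976 := pow_le_pow_left₀ (by norm_num) (by linarith) 976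
    have e4 : 0 ≤ (1 + Real.log H) * (H : ℝ) ^ 2 := by positivity
    calc (3 * (m : ℝ)) ^ 6 * B ≤ (6 ^ 6 * X ^ 6) * B := mul_le_mul_of_nonneg_right e1 hB0
      _ = (6 ^ 6 * 10 ^ 240) * X ^ 420 * ((1 + Real.log H) * (H : ℝ) ^ 2) := by
          rw [hB]; ring
      _ ≤ (2 * W) ^ (976 : ℝ) * X ^ 420 * ((1 + Real.log H) * (H : ℝ) ^ 2) :=
          mul_le_mul_of_nonneg_right (mul_le_mul_of_nonneg_right (num2.trans e3) (by positivity)) e4
      _ = (2 * W) ^ (976 + 420 * (C1 + C2)) * (1 + Real.log H) * (H : ℝ) ^ 2 := by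
          rw [e2, Real.rpow_add b0]; ring
  · intro T0 hT0 T' hTT hcell
    have hex : ∀ y : (ℤ × ℤ) × ℕ, ∃ t : ℕ, y ∈ T' → t ∈ P ∧ (y.2 < H ∧
        gb V.e V.c w1 w2 z0 ρ H (L t) y.2 = y.1) ∧ Nmw84.Cl3 m V z0 ρ (L t) (L T0) := by
      intro y
      by_cases hy : y ∈ T'
      · obtain ⟨t, h1, h2, h3⟩ := hcell y hy
        exact ⟨t, fun _ => ⟨h1, h2, h3⟩⟩
      · exact ⟨0, fun h => absurd h hy⟩
    choose f hf using hex
    have le1 : (2 * W) ^ C1 ≤ (2 * W) ^ (976 + 420 * (C1 + C2)) := pw (by linarith)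
    have le2 : (2 * W) ^ C2 ≤ (2 * W) ^ (976 + 420 * (C1 + C2)) := pw (by linarith)
    obtain ⟨σ, s1, s2, rr, k0, μ, Λ, cq, cP, ε, αq, Jq, JP, hc⟩ := ch W Y a w1 w2 z0 ρ r U V (L T0)
      hW hr hρ hrρ ha hU hV (hin T0 hT0).1 (hin T0 hT0).2 dU dV (hal T0 hT0) (hdet T0 hT0)
      (hnear T0 hT0)
      ((mul_le_mul_of_nonneg_right le1 (kp_nonneg vw0.le z0 ρ (L T0))).trans (hfl T0 hT0))
      ((mul_le_mul_of_nonneg_right le1 ha.le).trans hbig)
    refine cell_count hK2 hKX hc hH hW hWK hr hρ ha hY hHa hU hV dU dV (hin T0 hT0).2 T'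
      (fun y => L (f y)) (fun y hy => (hf y hy).2.1.1) (fun y hy => hin _ (hf y hy).1)
      (fun y hy => (hf y hy).2.1.2) (fun y hy z h1 h2 k => ?_) (fun y hy => ?_)
    · refine ((hf y hy).2.2 z h1 h2 k).trans ?_
      exact div_le_div_of_nonneg_left (hw k).le hK0 hKm
    · have hfy := (hf y hy).1
      have h1 := nd W Y a w1 w2 z0 ρ r U V (L (f y)) H y.2 hW hr hρ hrρ ha hU hV (hin _ hfy).1
        (hin _ hfy).2 dU dV (hal _ hfy) (hdet _ hfy) (hnear _ hfy)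
        ((mul_le_mul_of_nonneg_right le2 (kp_nonneg vw0.le z0 ρ (L (f y)))).trans (hfl _ hfy))
        ((mul_le_mul_of_nonneg_right le2 ha.le).trans hbig) hH (hf y hy).2.1.1.le
      have h2 : X⁻¹ ≤ ((2 * W) ^ C2)⁻¹ := inv_anti₀ (pp C2) (pw (by linarith))
      exact h1.mono hY.le h2 h2

/-- **`NdMx` of `Amx3_325`** -/
theorem ndMx_of (hCh : ChartMx) (hNd : NdPt) : Amx325.NdMx :=
  Amx325.ndMx_of (ndMx_of_chart hCh hNd)

end Crest.Agent.R136.Ndw325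
end

-- ▼ part R136/Crf_544
section

/-!
# R136, specials of the thin pins, rows (helper544), part 6: errors, rows and closures in a window
-/

set_option autoImplicit false
set_option linter.unusedSectionVars false
set_option linter.unusedVariables false

open Filter Topology

namespace Crest.Agent.R136.Cr544

open Finset Crest.Agent.R136.NetW191 Crest.Agent.R136.EvW938 Crest.Agent.R136.PrW464
open Crest.Agent.R136.Net191 Crest.Agent.R136.Qg926 Crest.Agent.R136.Pin851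
open Crest.Agent.R136.Gf356
open Crest.Agent.R138.Ex926 (Base U)

variable {ι : ℕ → Type*} [∀ n, DecidableEq (ι n)]

/-- constant of the rows -/
noncomputable def RR (W : Wnd 18 ι) : ℝ := CR (KK W)

/-- the big constant -/
noncomputable def NN (W : Wnd 18 ι) : ℝ := 10 * (RR W + 10) * KK W ^ 4

/-- good `n` -/
structure Ge (W : Wnd 18 ι) (E : ∀ n, Finset (ι n)) (ε : ℝ) (n : ℕ) : Prop where
  g : W.Good n
  s : E n ⊆ W.Cl n
  c : W.cfg E n = W.cfg0 n (E n)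
  N : NN W ≤ W.B'.d n ^ (-ε)

section

variable {W : Wnd 18 ι} {E : ∀ n, Finset (ι n)} {κ : ℕ → ℝ} {u : ℕ → Fin 18 → ℝ}
  {f : ∀ n, ι n → FW} {lam : (Fin 18 → ℝ) → ℝ} {x ε : ℝ} {n : ℕ}

theorem ev_Ge (hW : PWin W E κ u f {4} lam x) (hε : 0 < ε) :
    ∀ᶠ n in (U : Filter ℕ), Ge W E ε n := by
  filter_upwards [hW.ev, Gf356.ev_const_le W.B' hε (NN W)] with n h1 h2
  exact ⟨h1.1, h1.2.1, h1.2.2, h2⟩

theorem KR (hW : PWin W E κ u f {4} lam x) : 1 ≤ KK W ∧ 0 ≤ RR W ∧ KK W ≤ KK W ^ 2 ∧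
    KK W ^ 2 ≤ KK W ^ 3 ∧ KK W ^ 3 ≤ KK W ^ 4 := by
  have h1 : 1 ≤ KK W := by linarith [(KK_ge hW 0).1]
  have h2 := one_CP h1
  refine ⟨h1, ?_, ?_, pow_le_pow_right₀ h1 (by norm_num), pow_le_pow_right₀ h1 (by norm_num)⟩
  · unfold RR CR; positivity
  · nlinarith

/-- what the big constant dominates -/
theorem NN_ge (hW : PWin W E κ u f {4} lam x) : 1 ≤ NN W ∧ 100 * KK W ^ 4 ≤ NN W ∧
    2 * RR W * KK W ^ 2 ≤ NN W ∧ KK W + 2 * KK W ^ 3 ≤ NN W ∧
    KK W + RR W * KK W ^ 3 ≤ NN W ∧ 3 * RR W * KK W ^ 3 + 3 * KK W ^ 2 ≤ NN W ∧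
    7 * KK W ^ 2 ≤ NN W := by
  obtain ⟨k1, k2, k3, k4, k5⟩ := KR hW
  have e : NN W = 10 * (RR W * KK W ^ 4) + 100 * KK W ^ 4 := by unfold NN; ring
  have r4 : RR W * KK W ^ 3 ≤ RR W * KK W ^ 4 := mul_le_mul_of_nonneg_left k5 k2
  have r3 : RR W * KK W ^ 2 ≤ RR W * KK W ^ 3 := mul_le_mul_of_nonneg_left k4 k2
  have r0 : 0 ≤ RR W * KK W ^ 2 := by positivity
  rw [e]
  refine ⟨?_, ?_, ?_, ?_, ?_, ?_, ?_⟩ <;> linarith

theorem rp (W : Wnd 18 ι) (n : ℕ) (t : ℝ) : 0 < W.B'.d n ^ t := Real.rpow_pos_of_pos (W.B'.pos n) t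

theorem ra (W : Wnd 18 ι) (n : ℕ) {s t : ℝ} (h : s ≤ t) : W.B'.d n ^ t ≤ W.B'.d n ^ s :=
  Real.rpow_le_rpow_of_exponent_ge (W.B'.pos n) (W.B'.lt n).le h

/-- the constant is absorbed -/
theorem Ge.absorb (H : Ge W E ε n) {a t : ℝ} (h : |a| ≤ NN W * W.B'.d n ^ t) :
    |a| ≤ W.B'.d n ^ (t - ε) := by
  refine h.trans ?_
  have h1 := mul_le_mul_of_nonneg_right H.N (rp W n t).le
  rw [← Real.rpow_add (W.B'.pos n)] at h1
  refine h1.trans (le_of_eq ?_)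
  congr 1; ring

/-- **errors** -/
theorem Ge.fin (H : Ge W E ε n) (hε : 0 < ε) {a : ℝ} (h1 : |a| ≤ NN W)
    (h2 : ε < x / 8 → |a| ≤ NN W * W.B'.d n ^ (x - ε)) : |a| ≤ W.B'.d n ^ (x - 16 * ε) := by
  by_cases h8 : ε < x / 8
  · exact (H.absorb (h2 h8)).trans (ra W n (by linarith))
  · exact (h1.trans H.N).trans (ra W n (by linarith))

/-- the small quantity -/
theorem Ge.small (hW : PWin W E κ u f {4} lam x) (H : Ge W E ε n) (hε : 0 < ε)
    (h8 : ε < x / 8) : KK W ^ 2 * W.B'.d n ^ (x - ε) ≤ 1 := by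
  obtain ⟨k1, k2, k3, k4, k5⟩ := KR hW
  have h0 : 0 ≤ KK W ^ 2 * W.B'.d n ^ (x - ε) := mul_nonneg (by positivity) (rp W n _).le
  have h1 : |KK W ^ 2 * W.B'.d n ^ (x - ε)| ≤ NN W * W.B'.d n ^ (x - ε) := by
    rw [abs_of_nonneg h0]
    refine mul_le_mul_of_nonneg_right ?_ (rp W n _).le
    linarith [(NN_ge hW).2.1]
  have h2 := H.absorb h1
  rw [abs_of_nonneg h0] at h2
  exact h2.trans (Real.rpow_le_one (W.B'.pos n).le (W.B'.lt n).le (by linarith))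

/-- one row -/
theorem Ge.row (hW : PWin W E κ u f {4} lam x) (H : Ge W E ε n) (hε : 0 < ε) {a : ℝ}
    (h1 : |a| ≤ 36 * KK W ^ 4)
    (h2 : ε < x / 8 → |a| ≤ 2 * (RR W * (KK W ^ 2 * W.B'.d n ^ (x - ε)))) :
    |a| ≤ W.B'.d n ^ (x - 16 * ε) := by
  obtain ⟨k1, k2, k3, k4, k5⟩ := KR hW
  obtain ⟨n0, n1, n2, n3, n4, n5, n6⟩ := NN_ge hW
  have : 0 ≤ KK W ^ 4 := by positivity
  refine H.fin hε (by linarith) fun h8 => (h2 h8).trans ?_
  have := mul_le_mul_of_nonneg_right n2 (rp W n (x - ε)).le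
  linarith

/-- pair of a loose box -/
theorem pr_loose (hW : PWin W E κ u f {4} lam x) (hx : 0 < x) (hε : 0 < ε) (g : W.Good n)
    (hE : E n ⊆ W.Cl n) (hτ : KK W ^ 2 * W.B'.d n ^ (x - ε) ≤ 1) {k l l' : ℕ}
    (hl : (l, k) ∈ (W.cfg0 n (E n)).I) (hl' : (l', k) ∈ (W.cfg0 n (E n)).I)
    (hs : ∀ s : Fin 18, s = 4 ∨ s = 5 ∨ s = 7 →
      |(W.cfg0 n (E n)).rel k l l' s| ≤ KK W * W.B'.d n ^ (x - ε)) :
    Pr (κ n) (KK W) (KK W ^ 2 * W.B'.d n ^ (x - ε)) (PP W E κ u f n k l)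
      (PP W E κ u f n k l') := by
  obtain ⟨k1, k2, k3, k4, k5⟩ := KR hW
  have b1 := PP_bn hW g hE hl
  have b2 := PP_bn hW g hE hl'
  have e1 := PP_g0 hW g hE hl
  have e2 := PP_g0 hW g hE hl'
  have hρ : KK W * W.B'.d n ^ x ≤ KK W ^ 2 * W.B'.d n ^ (x - ε) :=
    mul_le_mul k3 (ra W n (by linarith)) (rp W n _).le (by positivity)
  have hd : ∀ s : Fin 18, s ≠ 0 → s = 4 ∨ s = 5 ∨ s = 7 →
      |coW (κ n) (PP W E κ u f n k l) (PP W E κ u f n k l') s| ≤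
        KK W ^ 2 * W.B'.d n ^ (x - ε) := by
    intro s h0 h
    refine (pair_slot hW g hE hl hl' h0).trans ?_
    have := mul_le_mul_of_nonneg_left (hs s h) (by linarith : (0:ℝ) ≤ KK W)
    refine this.trans (le_of_eq ?_)
    ring
  exact ⟨b1.hκ, k1, mul_nonneg (by positivity) (rp W n _).le, hτ, b1.g, b2.g, b1.G, b2.G,
    e1.trans hρ, e2.trans hρ, hd 4 (by decide) (Or.inl rfl), hd 5 (by decide) (Or.inr (Or.inl rfl)),
    hd 7 (by decide) (Or.inr (Or.inr rfl))⟩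

/-- slots of a loose box -/
theorem sl_loose (hW : PWin W E κ u f {4} lam x) (g : W.Good n)
    (hE : E n ⊆ W.Cl n) {k l l' : ℕ} (hl : (l, k) ∈ (W.cfg0 n (E n)).I)
    (hl' : (l', k) ∈ (W.cfg0 n (E n)).I) {p : Fin 18 → ℝ}
    (L : (W.cfg0 n (E n)).loose p ε k l l') {s : Fin 18} (h0 : s ≠ 0) (hp : p s = x) :
    |coW (κ n) (PP W E κ u f n k l) (PP W E κ u f n k l') s| ≤
      KK W ^ 2 * W.B'.d n ^ (x - ε) := by
  obtain ⟨k1, k2, k3, k4, k5⟩ := KR hW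
  refine (pair_slot hW g hE hl hl' h0).trans ?_
  have h1 : |(W.cfg0 n (E n)).rel k l l' s| ≤ W.B'.d n ^ (x - ε) := by
    have := L s
    rwa [hp] at this
  exact mul_le_mul k3 h1 (abs_nonneg _) (by positivity)

theorem dt_loose (hW : PWin W E κ u f {4} lam x) (hx : 0 < x) (hε : 0 < ε) (g : W.Good n)
    (hE : E n ⊆ W.Cl n) (hτ : KK W ^ 2 * W.B'.d n ^ (x - ε) ≤ 1) {k l l' : ℕ}
    (hl : (l, k) ∈ (W.cfg0 n (E n)).I) (hl' : (l', k) ∈ (W.cfg0 n (E n)).I) {p : Fin 18 → ℝ}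
    (L : (W.cfg0 n (E n)).loose p ε k l l') (hp : p 4 = x ∧ p 5 = x ∧ p 7 = x) :
    Dt (κ n) (KK W) (KK W ^ 2 * W.B'.d n ^ (x - ε))
      ((1 + CP (KK W)) * (KK W ^ 2 * W.B'.d n ^ (x - ε))) (PP W E κ u f n k l)
      (PP W E κ u f n k l') := by
  obtain ⟨k1, k2, k3, k4, k5⟩ := KR hW
  refine (pr_loose hW hx hε g hE hτ hl hl' fun s hs => ?_).dt
  have h1 : |(W.cfg0 n (E n)).rel k l l' s| ≤ W.B'.d n ^ (x - ε) := by
    have := L s
    rcases hs with rfl | rfl | rfl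
    · rwa [hp.1] at this
    · rwa [hp.2.1] at this
    · rwa [hp.2.2] at this
  have := rp W n (x - ε)
  nlinarith

theorem two {a b c : ℝ} (h : |a - b| ≤ c) (hc : 0 ≤ c) : |b - a| ≤ 2 * c := by
  rw [abs_sub_comm]; linarith

end

end Crest.Agent.R136.Cr544
end

-- ▼ part R136/Crg_544
section

/-!
# R136, specials of the thin pins, rows (helper544), part 7: rows and closures of `34`

The functions: `a = g 2`, `F = G 5`, `Q = fQ`, `c = g 1`, `β = fB`, `Y = fY`, `K = fK`, `Φ = fP` of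
the normalised flags `PP`.
-/

set_option autoImplicit false
set_option linter.unusedSectionVars false
set_option linter.unusedVariables false

open Filter Topology

namespace Crest.Agent.R136.Cr544

open Finset Crest.Agent.R136.NetW191 Crest.Agent.R136.EvW938 Crest.Agent.R136.PrW464
open Crest.Agent.R136.Net191 Crest.Agent.R136.Qg926 Crest.Agent.R136.Pin851
open Crest.Agent.R136.Gf356 Crest.Agent.R136.Cub191 Crest.Agent.R136.NetW191
open Crest.Agent.R138.Ex926 (Base U)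

variable {ι : ℕ → Type*} [∀ n, DecidableEq (ι n)]

section

variable {W : Wnd 18 ι} {E : ∀ n, Finset (ι n)} {κ : ℕ → ℝ} {u : ℕ → Fin 18 → ℝ}
  {f : ∀ n, ι n → FW} {lam : (Fin 18 → ℝ) → ℝ} {x ε : ℝ} {n : ℕ}

/-- the position row -/
noncomputable def wP (κ : ℝ) (P : FW) : ℝ :=
  fP κ P + κ * P.g 2 ^ 2 * fY P + P.g 2 * fK κ P + κ * (P.g 1 * fQ P)

/-- **rows of the positions** -/
theorem rows_p (hW : PWin W E κ u f {4} lam x) (hx : 0 < x) (hε : 0 < ε) (H : Ge W E ε n)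
    {k l l' : ℕ} (hl : (l, k) ∈ (W.cfg0 n (E n)).I) (hl' : (l', k) ∈ (W.cfg0 n (E n)).I)
    (L : (W.cfg0 n (E n)).loose (ind {0, 2, 4, 5, 7, 9, 14, 15} x) ε k l l') :
    |(PP W E κ u f n k l).g 2 - (PP W E κ u f n k l').g 2| ≤ W.B'.d n ^ (x - 16 * ε) ∧
    |(PP W E κ u f n k l).G 5 - (PP W E κ u f n k l').G 5| ≤ W.B'.d n ^ (x - 16 * ε) ∧
    |fQ (PP W E κ u f n k l) - fQ (PP W E κ u f n k l')| ≤ W.B'.d n ^ (x - 16 * ε) ∧
    |wP (κ n) (PP W E κ u f n k l) - wP (κ n) (PP W E κ u f n k l')| ≤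
      W.B'.d n ^ (x - 16 * ε) := by
  have b1 := PP_bn hW H.g H.s hl
  have b2 := PP_bn hW H.g H.s hl'
  obtain ⟨m1, m2, m3, m4, m5, m6, m7⟩ := b1.low
  obtain ⟨o1, o2, o3, o4, o5, o6, o7⟩ := b2.low
  have e36 : 36 * KK W ^ 4 = 2 * (18 * KK W ^ 4) := by ring
  have hτ := fun h8 => Ge.small hW H hε h8
  have D := fun h8 => dt_loose hW hx hε H.g H.s (hτ h8) hl hl' L
    ⟨ind_mem (by decide), ind_mem (by decide), ind_mem (by decide)⟩
  have d2 := sl_loose hW H.g H.s hl hl' L (s := 2) (by decide) (ind_mem (by decide))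
  have d9 := sl_loose hW H.g H.s hl hl' L (s := 9) (by decide) (ind_mem (by decide))
  have d14 := sl_loose hW H.g H.s hl hl' L (s := 14) (by decide) (ind_mem (by decide))
  have d15 := sl_loose hW H.g H.s hl hl' L (s := 15) (by decide) (ind_mem (by decide))
  have hc : 0 ≤ RR W * (KK W ^ 2 * W.B'.d n ^ (x - ε)) := by
    have h1 := (KR hW).2.1
    have h2 := rp W n (x - ε)
    positivity
  refine ⟨?_, ?_, ?_, ?_⟩
  · exact H.row hW hε (by rw [e36]; exact crude2 m1 o1) fun h8 => two ((D h8).ra d2) hc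
  · exact H.row hW hε (by rw [e36]; exact crude2 m2 o2) fun h8 => two ((D h8).rF d9) hc
  · exact H.row hW hε (by rw [e36]; exact crude2 m3 o3) fun h8 => two ((D h8).rQ d2 d9 d14) hc
  · exact H.row hW hε (by rw [e36]; exact crude2 b1.pos b2.pos) fun h8 =>
      two ((D h8).rp d2 d9 d14 d15) hc

/-- **rows of the velocities** -/
theorem rows_v (hW : PWin W E κ u f {4} lam x) (hx : 0 < x) (hε : 0 < ε) (H : Ge W E ε n)
    {k l l' : ℕ} (hl : (l, k) ∈ (W.cfg0 n (E n)).I) (hl' : (l', k) ∈ (W.cfg0 n (E n)).I)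
    (L : (W.cfg0 n (E n)).loose (ind {0, 1, 3, 4, 5, 6, 7, 10, 15} x) ε k l l') :
    |(PP W E κ u f n k l).g 1 - (PP W E κ u f n k l').g 1| ≤ W.B'.d n ^ (x - 16 * ε) ∧
    |fB (κ n) (PP W E κ u f n k l) - fB (κ n) (PP W E κ u f n k l')| ≤
      W.B'.d n ^ (x - 16 * ε) ∧
    |fY (PP W E κ u f n k l) - fY (PP W E κ u f n k l')| ≤ W.B'.d n ^ (x - 16 * ε) ∧
    |fK (κ n) (PP W E κ u f n k l) - fK (κ n) (PP W E κ u f n k l')| ≤
      W.B'.d n ^ (x - 16 * ε) ∧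
    |(fP (κ n) (PP W E κ u f n k l) + fB (κ n) (PP W E κ u f n k l) *
        (PP W E κ u f n k l).G 5) -
      (fP (κ n) (PP W E κ u f n k l') + fB (κ n) (PP W E κ u f n k l') *
        (PP W E κ u f n k l').G 5)| ≤ W.B'.d n ^ (x - 16 * ε) := by
  have b1 := PP_bn hW H.g H.s hl
  have b2 := PP_bn hW H.g H.s hl'
  obtain ⟨m1, m2, m3, m4, m5, m6, m7⟩ := b1.low
  obtain ⟨o1, o2, o3, o4, o5, o6, o7⟩ := b2.low
  have e36 : 36 * KK W ^ 4 = 2 * (18 * KK W ^ 4) := by ring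
  have hτ := fun h8 => Ge.small hW H hε h8
  have D := fun h8 => dt_loose hW hx hε H.g H.s (hτ h8) hl hl' L
    ⟨ind_mem (by decide), ind_mem (by decide), ind_mem (by decide)⟩
  have d1 := sl_loose hW H.g H.s hl hl' L (s := 1) (by decide) (ind_mem (by decide))
  have d3 := sl_loose hW H.g H.s hl hl' L (s := 3) (by decide) (ind_mem (by decide))
  have d6 := sl_loose hW H.g H.s hl hl' L (s := 6) (by decide) (ind_mem (by decide))
  have d10 := sl_loose hW H.g H.s hl hl' L (s := 10) (by decide) (ind_mem (by decide))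
  have d15 := sl_loose hW H.g H.s hl hl' L (s := 15) (by decide) (ind_mem (by decide))
  have hc : 0 ≤ RR W * (KK W ^ 2 * W.B'.d n ^ (x - ε)) := by
    have h1 := (KR hW).2.1
    have h2 := rp W n (x - ε)
    positivity
  refine ⟨?_, ?_, ?_, ?_, ?_⟩
  · exact H.row hW hε (by rw [e36]; exact crude2 m4 o4) fun h8 => two ((D h8).rc d1) hc
  · exact H.row hW hε (by rw [e36]; exact crude2 m5 o5) fun h8 => two ((D h8).rB d1 d3) hc
  · exact H.row hW hε (by rw [e36]; exact crude2 m6 o6) fun h8 => two ((D h8).rY d6) hc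
  · exact H.row hW hε (by rw [e36]; exact crude2 m7 o7) fun h8 => two ((D h8).rK d1 d6 d10) hc
  · exact H.row hW hε (by rw [e36]; exact crude2 b1.vel b2.vel) fun h8 => by
      rw [abs_sub_comm]; exact (D h8).rv d1 d3 d6 d10 d15

/-- rows of the small boxes of the velocities -/
theorem rows_c (hW : PWin W E κ u f {4} lam x) (hx : 0 < x) (hε : 0 < ε) (H : Ge W E ε n)
    {k l l' : ℕ} (hl : (l, k) ∈ (W.cfg0 n (E n)).I) (hl' : (l', k) ∈ (W.cfg0 n (E n)).I)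
    (L : (W.cfg0 n (E n)).loose (ind {0, 1, 4, 5, 6, 7} x) ε k l l') :
    |(PP W E κ u f n k l).g 1 - (PP W E κ u f n k l').g 1| ≤ W.B'.d n ^ (x - 16 * ε) ∧
    |fY (PP W E κ u f n k l) - fY (PP W E κ u f n k l')| ≤ W.B'.d n ^ (x - 16 * ε) := by
  have b1 := PP_bn hW H.g H.s hl
  have b2 := PP_bn hW H.g H.s hl'
  obtain ⟨m1, m2, m3, m4, m5, m6, m7⟩ := b1.low
  obtain ⟨o1, o2, o3, o4, o5, o6, o7⟩ := b2.low
  have e36 : 36 * KK W ^ 4 = 2 * (18 * KK W ^ 4) := by ring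
  have D := fun h8 => dt_loose hW hx hε H.g H.s (Ge.small hW H hε h8) hl hl' L
    ⟨ind_mem (by decide), ind_mem (by decide), ind_mem (by decide)⟩
  have d1 := sl_loose hW H.g H.s hl hl' L (s := 1) (by decide) (ind_mem (by decide))
  have d6 := sl_loose hW H.g H.s hl hl' L (s := 6) (by decide) (ind_mem (by decide))
  have hc : 0 ≤ RR W * (KK W ^ 2 * W.B'.d n ^ (x - ε)) := by
    have h1 := (KR hW).2.1
    have h2 := rp W n (x - ε)
    positivity
  refine ⟨?_, ?_⟩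
  · exact H.row hW hε (by rw [e36]; exact crude2 m4 o4) fun h8 => two ((D h8).rc d1) hc
  · exact H.row hW hε (by rw [e36]; exact crude2 m6 o6) fun h8 => two ((D h8).rY d6) hc

/-- rows of the sheet -/
theorem rows_z (hW : PWin W E κ u f {4} lam x) (hx : 0 < x) (hε : 0 < ε) (H : Ge W E ε n)
    {k l l' : ℕ} (hl : (l, k) ∈ (W.cfg0 n (E n)).I) (hl' : (l', k) ∈ (W.cfg0 n (E n)).I)
    (L : (W.cfg0 n (E n)).loose (ind {0, 2, 3, 4, 5, 7, 9, 10} x) ε k l l') :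
    |(PP W E κ u f n k l).g 2 - (PP W E κ u f n k l').g 2| ≤ W.B'.d n ^ (x - 16 * ε) ∧
    |(PP W E κ u f n k l).G 5 - (PP W E κ u f n k l').G 5| ≤ W.B'.d n ^ (x - 16 * ε) ∧
    |(fB (κ n) (PP W E κ u f n k l) - fB (κ n) (PP W E κ u f n k l')) -
      2 * κ n * (PP W E κ u f n k l).g 2 * ((PP W E κ u f n k l).g 1 -
        (PP W E κ u f n k l').g 1)| ≤ W.B'.d n ^ (x - 16 * ε) ∧
    |(fK (κ n) (PP W E κ u f n k l) + 4 * κ n * (PP W E κ u f n k l).g 1 *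
        (PP W E κ u f n k l).G 5 + 2 * κ n * (PP W E κ u f n k l).g 2 *
          fY (PP W E κ u f n k l)) -
      (fK (κ n) (PP W E κ u f n k l') + 4 * κ n * (PP W E κ u f n k l').g 1 *
        (PP W E κ u f n k l').G 5 + 2 * κ n * (PP W E κ u f n k l').g 2 *
          fY (PP W E κ u f n k l'))| ≤ W.B'.d n ^ (x - 16 * ε) := by
  have b1 := PP_bn hW H.g H.s hl
  have b2 := PP_bn hW H.g H.s hl'
  obtain ⟨m1, m2, m3, m4, m5, m6, m7⟩ := b1.low
  obtain ⟨o1, o2, o3, o4, o5, o6, o7⟩ := b2.low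
  have e36 : 36 * KK W ^ 4 = 2 * (18 * KK W ^ 4) := by ring
  have D := fun h8 => dt_loose hW hx hε H.g H.s (Ge.small hW H hε h8) hl hl' L
    ⟨ind_mem (by decide), ind_mem (by decide), ind_mem (by decide)⟩
  have d2 := sl_loose hW H.g H.s hl hl' L (s := 2) (by decide) (ind_mem (by decide))
  have d3 := sl_loose hW H.g H.s hl hl' L (s := 3) (by decide) (ind_mem (by decide))
  have d9 := sl_loose hW H.g H.s hl hl' L (s := 9) (by decide) (ind_mem (by decide))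
  have d10 := sl_loose hW H.g H.s hl hl' L (s := 10) (by decide) (ind_mem (by decide))
  have hc : 0 ≤ RR W * (KK W ^ 2 * W.B'.d n ^ (x - ε)) := by
    have h1 := (KR hW).2.1
    have h2 := rp W n (x - ε)
    positivity
  obtain ⟨k1, k2, k3, k4, k5⟩ := KR hW
  refine ⟨?_, ?_, ?_, ?_⟩
  · exact H.row hW hε (by rw [e36]; exact crude2 m1 o1) fun h8 => two ((D h8).ra d2) hc
  · exact H.row hW hε (by rw [e36]; exact crude2 m2 o2) fun h8 => two ((D h8).rF d9) hc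
  · refine H.row hW hε ?_ fun h8 => ?_
    · have t1 := crude2 b1.B b2.B
      have t2 := mm (mm b1.κ2 (b1.g 2)) (crude2 (b1.g 1) (b2.g 1))
      have t3 := abs_sub (fB (κ n) (PP W E κ u f n k l) - fB (κ n) (PP W E κ u f n k l'))
        (2 * κ n * (PP W E κ u f n k l).g 2 * ((PP W E κ u f n k l).g 1 -
        (PP W E κ u f n k l').g 1))
      have e1 : 2 * KK W * (2 * KK W) = 4 * KK W ^ 2 := by ring
      rw [e1] at t2
      linarith [pow_nonneg (zero_le_one.trans k1) 4]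
    · have h1 : |coW (κ n) (PP W E κ u f n k l) (PP W E κ u f n k l') 1| ≤ 6 * KK W := by
        have h2 := (frames (κ n) (PP W E κ u f n k l) (PP W E κ u f n k l')).2.1
        have h3 : coW (κ n) (PP W E κ u f n k l) (PP W E κ u f n k l') 1 =
          (PP W E κ u f n k l').g 1 - (PP W E κ u f n k l).g 1 := by linarith
        rw [h3]
        have := crude2 (b2.g 1) (b1.g 1)
        linarith
      have := (D h8).rBz h1 d2 d3
      change |_| ≤ RR W * (KK W ^ 2 * W.B'.d n ^ (x - ε)) at this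
      linarith
  · exact H.row hW hε (by rw [e36]; exact crude2 b1.sheet b2.sheet) fun h8 =>
      two ((D h8).rz d2 d9 d10) hc

/-! ### closures -/

/-- a slot is narrowed -/
theorem loose_upd (G : RCfg (Fin 18)) {p q : Fin 18 → ℝ} {s : Fin 18} {y : ℝ} {k l l' : ℕ}
    (hs : |G.rel k l l' s| ≤ G.ρ ^ (y - ε))
    (hj : ∀ j, j ≠ s → p j = q j) (L : G.loose q ε k l l') :
    G.loose (Function.update p s y) ε k l l' := by
  intro j
  by_cases h : j = s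
  · subst h; rw [Function.update_self]; exact hs
  · rw [Function.update_of_ne h, hj j h]; exact L j

theorem acl34 (hW : PWin W E κ u f {4} lam x) (hx : 0 < x) (hε : 0 < ε) (H : Ge W E ε n)
    {k l l' : ℕ} (hl : (l, k) ∈ (W.cfg0 n (E n)).I) (hl' : (l', k) ∈ (W.cfg0 n (E n)).I)
    {y : ℝ} (hy0 : 0 ≤ y) (hy : y ≤ x)
    (L : (W.cfg0 n (E n)).loose (ind {0, 4, 5, 7} x) ε k l l')
    (h : |(PP W E κ u f n k l').g 2 - (PP W E κ u f n k l).g 2| ≤ W.B'.d n ^ y) :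
    (W.cfg0 n (E n)).loose (Function.update (ind {0, 4, 5, 7} x) 2 y) ε k l l' := by
  refine loose_upd _ ?_ (fun _ _ => rfl) L
  obtain ⟨k1, k2, k3, k4, k5⟩ := KR hW
  obtain ⟨n0, n1, n2, n3, n4, n5, n6⟩ := NN_ge hW
  have b1 := PP_bn hW H.g H.s hl
  have e1 := PP_g0 hW H.g H.s hl
  have e2 := PP_g0 hW H.g H.s hl'
  have hs := slot_pair hW H.g H.s hl hl' (s := 2) (by decide) (by decide)
  obtain ⟨f0, f1, f2, f3⟩ := frames (κ n) (PP W E κ u f n k l) (PP W E κ u f n k l')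
  have hρ := ra W n hy
  have hp := rp W n x
  have hc : |coW (κ n) (PP W E κ u f n k l) (PP W E κ u f n k l') 2| ≤
      (1 + 2 * KK W ^ 2) * W.B'.d n ^ y := by
    have e3 : coW (κ n) (PP W E κ u f n k l) (PP W E κ u f n k l') 2 =
        ((PP W E κ u f n k l').g 2 - (PP W E κ u f n k l).g 2) -
        (PP W E κ u f n k l).g 1 * ((PP W E κ u f n k l').g 0 - (PP W E κ u f n k l).g 0) := by
      rw [f2, f0]; ring
    rw [e3]
    have h1 := mm (b1.g 1) (crude2 e2 e1)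
    have h2 := abs_sub ((PP W E κ u f n k l').g 2 - (PP W E κ u f n k l).g 2)
      ((PP W E κ u f n k l).g 1 * ((PP W E κ u f n k l').g 0 - (PP W E κ u f n k l).g 0))
    have h3 : KK W * (2 * (KK W * W.B'.d n ^ x)) ≤ 2 * KK W ^ 2 * W.B'.d n ^ y := by
      have := mul_le_mul_of_nonneg_left hρ (by positivity : 0 ≤ 2 * KK W ^ 2)
      linarith
    linarith
  refine H.absorb (hs.trans ?_)
  have h4 := mul_le_mul_of_nonneg_left hc (by linarith : (0:ℝ) ≤ KK W)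
  have h5 := mul_le_mul_of_nonneg_right n3 (rp W n y).le
  refine h4.trans (le_trans (le_of_eq ?_) h5)
  ring

/-- the slot `c` -/
theorem c34 (hW : PWin W E κ u f {4} lam x) (H : Ge W E ε n)
    {k l l' : ℕ} (hl : (l, k) ∈ (W.cfg0 n (E n)).I) (hl' : (l', k) ∈ (W.cfg0 n (E n)).I)
    {y : ℝ} (h : |(PP W E κ u f n k l').g 1 - (PP W E κ u f n k l).g 1| ≤ W.B'.d n ^ y) :
    |(W.cfg0 n (E n)).rel k l l' 1| ≤ W.B'.d n ^ (y - ε) := by
  obtain ⟨k1, k2, k3, k4, k5⟩ := KR hW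
  obtain ⟨n0, n1, n2, n3, n4, n5, n6⟩ := NN_ge hW
  have hs := slot_pair hW H.g H.s hl hl' (s := 1) (by decide) (by decide)
  obtain ⟨f0, f1, f2, f3⟩ := frames (κ n) (PP W E κ u f n k l) (PP W E κ u f n k l')
  have e3 : coW (κ n) (PP W E κ u f n k l) (PP W E κ u f n k l') 1 =
      (PP W E κ u f n k l').g 1 - (PP W E κ u f n k l).g 1 := by linarith
  rw [e3] at hs
  refine H.absorb (hs.trans ?_)
  exact mul_le_mul (by nlinarith) h (abs_nonneg _) (by linarith)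

theorem bcl34 (hW : PWin W E κ u f {4} lam x) (hx : 0 < x) (hε : 0 < ε) (H : Ge W E ε n)
    {k l l' : ℕ} (hl : (l, k) ∈ (W.cfg0 n (E n)).I) (hl' : (l', k) ∈ (W.cfg0 n (E n)).I)
    {y : ℝ} (hy0 : 0 ≤ y) (hy : y + 16 * ε ≤ x)
    (L : (W.cfg0 n (E n)).loose (ind {0, 2, 4, 5, 7, 9, 14, 15} x) ε k l l')
    (L' : (W.cfg0 n (E n)).loose (ind {0, 1, 4, 5, 6, 7} x) ε k l l')
    (h : |fB (κ n) (PP W E κ u f n k l') - fB (κ n) (PP W E κ u f n k l)| ≤ W.B'.d n ^ y) :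
    (W.cfg0 n (E n)).loose (Function.update (ind {0, 1, 2, 4, 5, 6, 7, 9, 14, 15} x) 3 y) ε
      k l l' := by
  obtain ⟨k1, k2, k3, k4, k5⟩ := KR hW
  obtain ⟨n0, n1, n2, n3, n4, n5, n6⟩ := NN_ge hW
  have h8 : ε < x / 8 := by linarith
  have D := dt_loose hW hx hε H.g H.s (Ge.small hW H hε h8) hl hl' L
    ⟨ind_mem (by decide), ind_mem (by decide), ind_mem (by decide)⟩
  have d1 := sl_loose hW H.g H.s hl hl' L' (s := 1) (by decide) (ind_mem (by decide))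
  have hb := D.sb d1
  have hs := slot_pair hW H.g H.s hl hl' (s := 3) (by decide) (by decide)
  have h3 : |(W.cfg0 n (E n)).rel k l l' 3| ≤ W.B'.d n ^ (y - ε) := by
    refine H.absorb (hs.trans ?_)
    have hc : |coW (κ n) (PP W E κ u f n k l) (PP W E κ u f n k l') 3| ≤
        (1 + RR W * KK W ^ 2) * W.B'.d n ^ y := by
      have h4 := abs_add_le (coW (κ n) (PP W E κ u f n k l) (PP W E κ u f n k l') 3 -
        (fB (κ n) (PP W E κ u f n k l') - fB (κ n) (PP W E κ u f n k l)))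
        (fB (κ n) (PP W E κ u f n k l') - fB (κ n) (PP W E κ u f n k l))
      rw [sub_add_cancel] at h4
      have h5 : RR W * (KK W ^ 2 * W.B'.d n ^ (x - ε)) ≤ RR W * KK W ^ 2 * W.B'.d n ^ y := by
        rw [← mul_assoc]
        exact mul_le_mul_of_nonneg_left (ra W n (by linarith)) (by positivity)
      change |_| ≤ RR W * (KK W ^ 2 * W.B'.d n ^ (x - ε)) at hb
      linarith
    have h4 := mul_le_mul_of_nonneg_left hc (by linarith : (0:ℝ) ≤ KK W)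
    have h5 := mul_le_mul_of_nonneg_right n4 (rp W n y).le
    refine h4.trans (le_trans (le_of_eq ?_) h5)
    ring
  have key : ∀ j : Fin 18, j ≠ 3 →
      (j ∈ ({0, 1, 2, 4, 5, 6, 7, 9, 14, 15} : Finset (Fin 18)) ↔
        j ∈ ({0, 2, 4, 5, 7, 9, 14, 15} : Finset (Fin 18))) ∨
      (j ∈ ({0, 1, 2, 4, 5, 6, 7, 9, 14, 15} : Finset (Fin 18)) ↔
        j ∈ ({0, 1, 4, 5, 6, 7} : Finset (Fin 18))) := by decide
  intro j
  by_cases hj : j = 3
  · subst hj; rw [Function.update_self]; exact h3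
  · rw [Function.update_of_ne hj]
    rcases key j hj with e | e
    · have e1 : ind {0, 1, 2, 4, 5, 6, 7, 9, 14, 15} x j =
          ind {0, 2, 4, 5, 7, 9, 14, 15} x j := by unfold ind; simp only [e]
      rw [e1]; exact L j
    · have e1 : ind {0, 1, 2, 4, 5, 6, 7, 9, 14, 15} x j =
          ind {0, 1, 4, 5, 6, 7} x j := by unfold ind; simp only [e]
      rw [e1]; exact L' j

theorem ycl34 (hW : PWin W E κ u f {4} lam x) (hx : 0 < x) (hε : 0 < ε) (H : Ge W E ε n)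
    (hc : KK W ^ 2 * W.B'.d n ^ (x - ε) ≤ 1 ∨ x ≤ ε)
    {k l l' : ℕ} (hl : (l, k) ∈ (W.cfg0 n (E n)).I) (hl' : (l', k) ∈ (W.cfg0 n (E n)).I)
    (L : (W.cfg0 n (E n)).loose (ind {0, 4, 5, 7} x) ε k l l')
    (h : |fY (PP W E κ u f n k l') - fY (PP W E κ u f n k l)| ≤ W.B'.d n ^ (x - ε)) :
    (W.cfg0 n (E n)).loose (ind {0, 4, 5, 6, 7} x) (2 * ε) k l l' := by
  obtain ⟨k1, k2, k3, k4, k5⟩ := KR hW
  obtain ⟨n0, n1, n2, n3, n4, n5, n6⟩ := NN_ge hW
  have h6 : |(W.cfg0 n (E n)).rel k l l' 6| ≤ W.B'.d n ^ (x - 2 * ε) := by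
    rcases hc with hc | hc
    · have D := dt_loose hW hx hε H.g H.s hc hl hl' L
        ⟨ind_mem (by decide), ind_mem (by decide), ind_mem (by decide)⟩
      have hb := D.sY
      change |_| ≤ RR W * (KK W ^ 2 * W.B'.d n ^ (x - ε)) at hb
      have hs := slot_pair hW H.g H.s hl hl' (s := 6) (by decide) (by decide)
      have e2 : x - 2 * ε = (x - ε) - ε := by ring
      rw [e2]
      refine H.absorb (hs.trans ?_)
      have h4 := abs_add_le (coW (κ n) (PP W E κ u f n k l) (PP W E κ u f n k l') 6 -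
        (fY (PP W E κ u f n k l') - fY (PP W E κ u f n k l)) / 3)
        ((fY (PP W E κ u f n k l') - fY (PP W E κ u f n k l)) / 3)
      rw [sub_add_cancel, abs_div (fY (PP W E κ u f n k l') - fY (PP W E κ u f n k l)),
        abs_of_pos (by norm_num : (0:ℝ) < 3)] at h4
      have h7 : |coW (κ n) (PP W E κ u f n k l) (PP W E κ u f n k l') 6| ≤
          (1 + RR W * KK W ^ 2) * W.B'.d n ^ (x - ε) := by
        have := rp W n (x - ε)
        linarith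
      have h4 := mul_le_mul_of_nonneg_left h7 (by linarith : (0:ℝ) ≤ KK W)
      have h5 := mul_le_mul_of_nonneg_right n4 (rp W n (x - ε)).le
      refine h4.trans (le_trans (le_of_eq ?_) h5)
      ring
    · have h1 : |(W.cfg0 n (E n)).rel k l l' 6| ≤ NN W * W.B'.d n ^ (0:ℝ) := by
        rw [Real.rpow_zero, mul_one]
        refine (hW.ww.rel_le H.g H.s hl hl' 6).trans ?_
        have h2 := (KK_ge hW 6).2.2.2.2.2.1
        have h3 := (tS_parts hW 6).2.2.2.2.2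
        nlinarith
      refine (H.absorb h1).trans (ra W n (by linarith))
  intro j
  by_cases hj : j = 6
  · subst hj; rw [ind_mem (by decide)]; exact h6
  · have key : ∀ j : Fin 18, j ≠ 6 → (j ∈ ({0, 4, 5, 6, 7} : Finset (Fin 18)) ↔
      j ∈ ({0, 4, 5, 7} : Finset (Fin 18))) := by decide
    have e := key j hj
    have e1 : ind {0, 4, 5, 6, 7} x j = ind {0, 4, 5, 7} x j := by unfold ind; simp only [e]
    rw [e1]
    exact (L j).trans (ra W n (by linarith))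

end

end Crest.Agent.R136.Cr544
end

-- ▼ part R136/Crh_544
section

/-!
# R136, specials of the thin pins, rows (helper544), part 8: the rows of `34`

`rows34` : `SRow`, `SEvo`, the closures of `slope34` and `spec_fin`.
-/

set_option autoImplicit false
set_option linter.unusedSectionVars false
set_option linter.unusedVariables false

open Filter Topology

namespace Crest.Agent.R136.Cr544

open Finset Crest.Agent.R136.NetW191 Crest.Agent.R136.EvW938 Crest.Agent.R136.PrW464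
open Crest.Agent.R136.Net191 Crest.Agent.R136.Qg926 Crest.Agent.R136.Pin851
open Crest.Agent.R136.Gf356 Crest.Agent.R136.Cub191
open Crest.Agent.R138.Ex926 (Base U)

variable {ι : ℕ → Type*} [∀ n, DecidableEq (ι n)]

section

variable {W : Wnd 18 ι} {E : ∀ n, Finset (ι n)} {κ : ℕ → ℝ} {u : ℕ → Fin 18 → ℝ}
  {f : ∀ n, ι n → FW} {lam : (Fin 18 → ℝ) → ℝ} {x ε : ℝ} {n : ℕ}

/-- the heights of the window -/
theorem z_bd (hW : PWin W E κ u f {4} lam x) (g : W.Good n) (hE : E n ⊆ W.Cl n) {k k' : ℕ}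
    (hk : k ∈ (W.cfg0 n (E n)).Z) (hk' : k' ∈ (W.cfg0 n (E n)).Z) :
    |(W.cfg0 n (E n)).z k' - (W.cfg0 n (E n)).z k| ≤ KK W := by
  have key : ∀ k, k ∈ (W.cfg0 n (E n)).Z → |(W.cfg0 n (E n)).z k| ≤ W.K0 / W.kap 0 := by
    intro k hk
    obtain ⟨i, hi, rfl⟩ := Finset.mem_image.1 (show k ∈ (E n).image (W.zc n) from hk)
    have h1 := (W.zrep_spec (hE hi)).1
    have e : (W.cfg0 n (E n)).z (W.zc n i) = W.crd n (W.s₀ n) (W.zrep n (W.zc n i)) 0 := by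
      show W.crd n (W.s₀ n) (W.zrep n (W.zc n i)) W.kz = _
      rw [hW.ww.kz]
    rw [e]
    exact hW.ww.crd_le g g.s0 h1 0
  have := crude2 (key k' hk') (key k hk)
  exact this.trans (KK_ge hW 0).2.2.2.2.2.1

theorem mem_Z {k l : ℕ} (h : (l, k) ∈ (W.cfg0 n (E n)).I) : k ∈ (W.cfg0 n (E n)).Z := by
  obtain ⟨i, hi, h1, h2⟩ := Wnd.mem_I.1 h
  exact Finset.mem_image.2 ⟨i, hi, h2⟩

/-- **base of the evolution** -/
theorem base34 (hW : PWin W E κ u f {4} lam x) (hx : 0 < x) (hε : 0 < ε) (H : Ge W E ε n)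
    {k k' l l' : ℕ} (h1 : (l, k) ∈ (W.cfg0 n (E n)).I) (h2 : (l, k') ∈ (W.cfg0 n (E n)).I)
    (h3 : (l', k) ∈ (W.cfg0 n (E n)).I) (h4 : (l', k') ∈ (W.cfg0 n (E n)).I)
    (L : (W.cfg0 n (E n)).loose (ind {0, 4, 5, 7} x) ε k l l') :
    (W.cfg0 n (E n)).loose (ind {0, 4, 5, 7} x) (16 * ε) k' l l' := by
  obtain ⟨k1, k2, k3, k4, k5⟩ := KR hW
  obtain ⟨n0, n1, n2, n3, n4, n5, n6⟩ := NN_ge hW
  have hK4 : KK W ≤ NN W := by linarith
  have hb := base_slot hW H.g H.s h1 h2 h3 h4 (δ := W.B'.d n ^ (x - ε)) (ra W n (by linarith))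
    (by
      rintro s (rfl | rfl | rfl)
      · have := L 4
        rwa [ind_mem (by decide)] at this
      · have := L 5
        rwa [ind_mem (by decide)] at this
      · have := L 7
        rwa [ind_mem (by decide)] at this)
  have hs : ∀ s : Fin 18, s = 4 ∨ s = 5 ∨ s = 7 →
      |(W.cfg0 n (E n)).rel k' l l' s| ≤ W.B'.d n ^ (x - 16 * ε) := fun s h => by
    have h5 := hb s h
    have h6 := mul_le_mul_of_nonneg_right hK4 (rp W n (x - ε)).le
    exact (H.absorb (h5.trans h6)).trans (ra W n (by linarith))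
  have ho : ∀ s : Fin 18, |(W.cfg0 n (E n)).rel k' l l' s| ≤ W.B'.d n ^ (0 - 16 * ε) :=
      fun s => by
    have h5 : |(W.cfg0 n (E n)).rel k' l l' s| ≤ NN W * W.B'.d n ^ (0:ℝ) := by
      rw [Real.rpow_zero, mul_one]
      refine (hW.ww.rel_le H.g H.s h2 h4 s).trans ?_
      have h2 := (KK_ge hW s).2.2.2.2.2.1
      have h3 := (tS_parts hW s).2.2.2.2.2
      linarith
    exact (H.absorb h5).trans (ra W n (by linarith))
  intro j
  by_cases hj : j ∈ ({0, 4, 5, 7} : Finset (Fin 18))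
  · rw [ind_mem hj]
    by_cases h0 : j = 0
    · have e : (W.cfg0 n (E n)).rel k' l l' j = 0 :=
        if_pos (by rw [hW.S, h0]; exact mem_singleton_self _)
      rw [e, abs_zero]
      exact (rp W n _).le
    · have key : ∀ j : Fin 18, j ∈ ({0, 4, 5, 7} : Finset (Fin 18)) → j ≠ 0 →
        j = 4 ∨ j = 5 ∨ j = 7 := by decide
      exact hs j (key j hj h0)
  · rw [ind_notMem hj]; exact ho j

/-- algebra of the evolution of `F` -/
theorem evoF_alg {w9 v9 v6 D1 D0 dY o z K Rτ δ : ℝ} (s1 : |w9 - D1| ≤ Rτ) (s2 : |v9 - D0| ≤ Rτ)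
    (s3 : |v6 - dY / 3| ≤ Rτ) (s4 : |w9 - (v9 + o * v6)| ≤ K * δ) (s5 : |o - z| ≤ K * δ)
    (ho : |o| ≤ K) (hY : |dY| ≤ 6 * K) :
    |D1 - (D0 + 1 / 3 * z * dY)| ≤ (2 + K) * Rτ + K * δ + 2 * K ^ 2 * δ := by
  have e : D1 - (D0 + 1 / 3 * z * dY) = -(w9 - D1) + (w9 - (v9 + o * v6)) + (v9 - D0) +
      o * (v6 - dY / 3) + (o - z) * (dY / 3) := by ring
  have hY3 : |dY / 3| ≤ 2 * K := by
    rw [abs_div, abs_of_pos (by norm_num : (0:ℝ) < 3)]; linarith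
  have t1 := mm ho s3
  have t2 := mm s5 hY3
  rw [e]
  have a1 := abs_add_le (-(w9 - D1) + (w9 - (v9 + o * v6)) + (v9 - D0) + o * (v6 - dY / 3))
    ((o - z) * (dY / 3))
  have a2 := abs_add_le (-(w9 - D1) + (w9 - (v9 + o * v6)) + (v9 - D0)) (o * (v6 - dY / 3))
  have a3 := abs_add_le (-(w9 - D1) + (w9 - (v9 + o * v6))) (v9 - D0)
  have a4 := abs_add_le (-(w9 - D1)) (w9 - (v9 + o * v6))
  rw [abs_neg] at a4
  have e2 : K * δ * (2 * K) = 2 * K ^ 2 * δ := by ring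
  linarith

/-- algebra of the evolution of `a` -/
theorem evoA_alg {w2 v2 v1 D1 D0 t1 t0 o z K δ : ℝ} (hw : w2 = D1 - t1) (hv : v2 = D0 - t0)
    (s4 : |w2 - (v2 + o * v1)| ≤ K * δ) (s5 : |o - z| ≤ K * δ) (h1 : |t1| ≤ 2 * K ^ 2 * δ)
    (h0 : |t0| ≤ 2 * K ^ 2 * δ) (hc : |v1| ≤ 2 * K) :
    |D1 - (D0 + z * v1)| ≤ K * δ + 4 * K ^ 2 * δ + 2 * K ^ 2 * δ := by
  have e : D1 - (D0 + z * v1) = (w2 - (v2 + o * v1)) + t1 - t0 + (o - z) * v1 := by
    rw [hw, hv]; ring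
  have t2 := mm s5 hc
  rw [e]
  have a1 := abs_add_le ((w2 - (v2 + o * v1)) + t1 - t0) ((o - z) * v1)
  have a2 := abs_sub ((w2 - (v2 + o * v1)) + t1) t0
  have a3 := abs_add_le (w2 - (v2 + o * v1)) t1
  have e2 : K * δ * (2 * K) = 2 * K ^ 2 * δ := by ring
  linarith

set_option maxHeartbeats 2000000 in
/-- **the evolution of a pair** -/
theorem evo34 (hW : PWin W E κ u f {4} lam x) (hx : 0 < x) (hε : 0 < ε) (H : Ge W E ε n)
    {k k' l l' : ℕ} (h1 : (l, k) ∈ (W.cfg0 n (E n)).I) (h2 : (l, k') ∈ (W.cfg0 n (E n)).I)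
    (h3 : (l', k) ∈ (W.cfg0 n (E n)).I) (h4 : (l', k') ∈ (W.cfg0 n (E n)).I)
    (L : (W.cfg0 n (E n)).loose (ind {0, 4, 5, 7} x) ε k l l') :
    |((PP W E κ u f n k' l).g 2 - (PP W E κ u f n k' l').g 2) -
      (((PP W E κ u f n k l).g 2 - (PP W E κ u f n k l').g 2) +
      ((W.cfg0 n (E n)).z k' - (W.cfg0 n (E n)).z k) *
        ((PP W E κ u f n k l).g 1 - (PP W E κ u f n k l').g 1))| ≤ W.B'.d n ^ (x - 16 * ε) ∧
    |((PP W E κ u f n k' l).G 5 - (PP W E κ u f n k' l').G 5) -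
      (((PP W E κ u f n k l).G 5 - (PP W E κ u f n k l').G 5) +
      1 / 3 * ((W.cfg0 n (E n)).z k' - (W.cfg0 n (E n)).z k) *
        (fY (PP W E κ u f n k l) - fY (PP W E κ u f n k l')))| ≤ W.B'.d n ^ (x - 16 * ε) ∧
    |((PP W E κ u f n k' l).g 1 - (PP W E κ u f n k' l').g 1) -
      ((PP W E κ u f n k l).g 1 - (PP W E κ u f n k l').g 1)| ≤ W.B'.d n ^ (x - 16 * ε) := by
  obtain ⟨k1, k2, k3, k4, k5⟩ := KR hW
  obtain ⟨n0, n1, n2, n3, n4, n5, n6⟩ := NN_ge hW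
  have p4 : 0 ≤ KK W ^ 4 := by positivity
  have b1 := PP_bn hW H.g H.s h1
  have b2 := PP_bn hW H.g H.s h2
  have b3 := PP_bn hW H.g H.s h3
  have b4 := PP_bn hW H.g H.s h4
  have c1 := PP_g0 hW H.g H.s h1
  have c2 := PP_g0 hW H.g H.s h2
  have c3 := PP_g0 hW H.g H.s h3
  have c4 := PP_g0 hW H.g H.s h4
  obtain ⟨v1, v2, v9⟩ := evo_pp hW H.g H.s h1 h2 h3 h4
  have hz := z_bd hW H.g H.s (mem_Z h1) (mem_Z h2)
  have ho : |ownC W n l k k' 0| ≤ KK W := by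
    refine (hW.ww.own_le H.g H.s h1 h2 0).trans ?_
    have h5 := (KK_ge hW 0).2.2.2.2.2.1
    have h6 := (tS_parts hW 0).2.2.2.2.2
    linarith
  have hoz : |ownC W n l k k' 0 - ((W.cfg0 n (E n)).z k' - (W.cfg0 n (E n)).z k)| ≤
      KK W * W.B'.d n ^ x := by
    refine (hW.ww.own_zero H.g H.s h1 h2 (t := x) (hW.top 0).ge).trans ?_
    have h5 := mul_le_mul_of_nonneg_right (KK_ge hW 0).2.2.2.2.2.1 (rp W n x).le
    refine le_trans (le_of_eq ?_) h5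
    ring
  obtain ⟨f0, f1, f2, f3⟩ := frames (κ n) (PP W E κ u f n k l) (PP W E κ u f n k l')
  obtain ⟨g0, g1, g2, g3⟩ := frames (κ n) (PP W E κ u f n k' l) (PP W E κ u f n k' l')
  have e1 : coW (κ n) (PP W E κ u f n k l) (PP W E κ u f n k l') 1 =
      (PP W E κ u f n k l').g 1 - (PP W E κ u f n k l).g 1 := by linarith
  have e1' : coW (κ n) (PP W E κ u f n k' l) (PP W E κ u f n k' l') 1 =
      (PP W E κ u f n k' l').g 1 - (PP W E κ u f n k' l).g 1 := by linarith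
  have e2 : coW (κ n) (PP W E κ u f n k l) (PP W E κ u f n k l') 2 =
      ((PP W E κ u f n k l').g 2 - (PP W E κ u f n k l).g 2) - (PP W E κ u f n k l).g 1 *
        ((PP W E κ u f n k l').g 0 - (PP W E κ u f n k l).g 0) := by rw [f2, f0]; ring
  have e2' : coW (κ n) (PP W E κ u f n k' l) (PP W E κ u f n k' l') 2 =
      ((PP W E κ u f n k' l').g 2 - (PP W E κ u f n k' l).g 2) - (PP W E κ u f n k' l).g 1 *
        ((PP W E κ u f n k' l').g 0 - (PP W E κ u f n k' l).g 0) := by rw [g2, g0]; ring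
  have eK : KK W * (2 * (KK W * W.B'.d n ^ x)) = 2 * KK W ^ 2 * W.B'.d n ^ x := by ring
  have t0 : |(PP W E κ u f n k l).g 1 *
      ((PP W E κ u f n k l').g 0 - (PP W E κ u f n k l).g 0)| ≤ 2 * KK W ^ 2 * W.B'.d n ^ x := by
    rw [← eK]; exact mm (b1.g 1) (crude2 c3 c1)
  have t1 : |(PP W E κ u f n k' l).g 1 *
      ((PP W E κ u f n k' l').g 0 - (PP W E κ u f n k' l).g 0)| ≤
        2 * KK W ^ 2 * W.B'.d n ^ x := by
    rw [← eK]; exact mm (b2.g 1) (crude2 c4 c2)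
  have dc := crude2 (b3.g 1) (b1.g 1)
  have hρ : W.B'.d n ^ x ≤ W.B'.d n ^ (x - ε) := ra W n (by linarith)
  have r0 := (rp W n x).le
  have r1 := (rp W n (x - ε)).le
  refine ⟨?_, ?_, ?_⟩
  · -- `a`
    rw [e1] at v2
    have h5 := evoA_alg e2' e2 v2 hoz t1 t0 dc
    have e5 : ((PP W E κ u f n k' l).g 2 - (PP W E κ u f n k' l').g 2) -
      (((PP W E κ u f n k l).g 2 - (PP W E κ u f n k l').g 2) +
      ((W.cfg0 n (E n)).z k' - (W.cfg0 n (E n)).z k) *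
        ((PP W E κ u f n k l).g 1 - (PP W E κ u f n k l').g 1)) =
      -(((PP W E κ u f n k' l').g 2 - (PP W E κ u f n k' l).g 2) -
      (((PP W E κ u f n k l').g 2 - (PP W E κ u f n k l).g 2) +
      ((W.cfg0 n (E n)).z k' - (W.cfg0 n (E n)).z k) *
        ((PP W E κ u f n k l').g 1 - (PP W E κ u f n k l).g 1))) := by ring
    rw [e5, abs_neg]
    have h6 : KK W * W.B'.d n ^ x + 4 * KK W ^ 2 * W.B'.d n ^ x + 2 * KK W ^ 2 * W.B'.d n ^ x ≤
        NN W * W.B'.d n ^ (x - ε) := by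
      calc _ ≤ 7 * KK W ^ 2 * W.B'.d n ^ x := by nlinarith
        _ ≤ NN W * W.B'.d n ^ x := mul_le_mul_of_nonneg_right n6 r0
        _ ≤ _ := mul_le_mul_of_nonneg_left hρ (by linarith)
    exact (H.absorb (h5.trans h6)).trans (ra W n (by linarith))
  · -- `F`
    have dY := crude2 b3.Y b1.Y
    have dY' : |fY (PP W E κ u f n k l') - fY (PP W E κ u f n k l)| ≤ 6 * KK W := by linarith
    have e5 : ((PP W E κ u f n k' l).G 5 - (PP W E κ u f n k' l').G 5) -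
      (((PP W E κ u f n k l).G 5 - (PP W E κ u f n k l').G 5) +
      1 / 3 * ((W.cfg0 n (E n)).z k' - (W.cfg0 n (E n)).z k) *
        (fY (PP W E κ u f n k l) - fY (PP W E κ u f n k l'))) =
      -(((PP W E κ u f n k' l').G 5 - (PP W E κ u f n k' l).G 5) -
      (((PP W E κ u f n k l').G 5 - (PP W E κ u f n k l).G 5) +
      1 / 3 * ((W.cfg0 n (E n)).z k' - (W.cfg0 n (E n)).z k) *
        (fY (PP W E κ u f n k l') - fY (PP W E κ u f n k l)))) := by ring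
    rw [e5, abs_neg]
    refine H.fin hε ?_ fun h8 => ?_
    · have a1 := crude2 (b4.G 5) (b2.G 5)
      have a2 := crude2 (b3.G 5) (b1.G 5)
      have a3 : |1 / 3 * ((W.cfg0 n (E n)).z k' - (W.cfg0 n (E n)).z k) *
        (fY (PP W E κ u f n k l') - fY (PP W E κ u f n k l))| ≤ 1 / 3 * KK W * (6 * KK W) :=
        mm (mm (by rw [abs_of_pos (by norm_num : (0:ℝ) < 1 / 3)]) hz) dY'
      have a4 := abs_sub ((PP W E κ u f n k' l').G 5 - (PP W E κ u f n k' l).G 5)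
        (((PP W E κ u f n k l').G 5 - (PP W E κ u f n k l).G 5) +
        1 / 3 * ((W.cfg0 n (E n)).z k' - (W.cfg0 n (E n)).z k) *
          (fY (PP W E κ u f n k l') - fY (PP W E κ u f n k l)))
      have a5 := abs_add_le ((PP W E κ u f n k l').G 5 - (PP W E κ u f n k l).G 5)
        (1 / 3 * ((W.cfg0 n (E n)).z k' - (W.cfg0 n (E n)).z k) *
          (fY (PP W E κ u f n k l') - fY (PP W E κ u f n k l)))
      have e6 : 1 / 3 * KK W * (6 * KK W) = 2 * KK W ^ 2 := by ring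
      rw [e6] at a3
      linarith
    · have hτ := Ge.small hW H hε h8
      have D := dt_loose hW hx hε H.g H.s hτ h1 h3 L
        ⟨ind_mem (by decide), ind_mem (by decide), ind_mem (by decide)⟩
      have hb := base_slot hW H.g H.s h1 h2 h3 h4 (δ := W.B'.d n ^ (x - ε)) hρ (by
        rintro s (rfl | rfl | rfl)
        · have := L 4
          rwa [ind_mem (by decide)] at this
        · have := L 5
          rwa [ind_mem (by decide)] at this
        · have := L 7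
          rwa [ind_mem (by decide)] at this)
      have D' := (pr_loose hW hx hε H.g H.s hτ h2 h4 hb).dt
      have s1 := D'.sF
      have s2 := D.sF
      have s3 := D.sY
      have h5 := evoF_alg s1 s2 s3 v9 hoz ho dY'
      refine h5.trans ?_
      change (2 + KK W) * (RR W * (KK W ^ 2 * W.B'.d n ^ (x - ε))) + _ + _ ≤ _
      have q1 : (2 + KK W) * (RR W * (KK W ^ 2 * W.B'.d n ^ (x - ε))) ≤
          3 * RR W * KK W ^ 3 * W.B'.d n ^ (x - ε) := by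
        have : (2 + KK W) * (RR W * (KK W ^ 2 * W.B'.d n ^ (x - ε))) ≤
          (3 * KK W) * (RR W * (KK W ^ 2 * W.B'.d n ^ (x - ε))) :=
          mul_le_mul_of_nonneg_right (by linarith) (by positivity)
        refine this.trans (le_of_eq ?_)
        ring
      have q2 : KK W * W.B'.d n ^ x + 2 * KK W ^ 2 * W.B'.d n ^ x ≤
          3 * KK W ^ 2 * W.B'.d n ^ (x - ε) := by
        calc _ ≤ 3 * KK W ^ 2 * W.B'.d n ^ x := by nlinarith
          _ ≤ _ := mul_le_mul_of_nonneg_left hρ (by positivity)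
      have q3 := mul_le_mul_of_nonneg_right n5 r1
      linarith
  · -- `c`
    rw [e1, e1'] at v1
    have e5 : ((PP W E κ u f n k' l).g 1 - (PP W E κ u f n k' l').g 1) -
      ((PP W E κ u f n k l).g 1 - (PP W E κ u f n k l').g 1) =
      -(((PP W E κ u f n k' l').g 1 - (PP W E κ u f n k' l).g 1) -
      ((PP W E κ u f n k l').g 1 - (PP W E κ u f n k l).g 1)) := by ring
    rw [e5, abs_neg]
    have h6 : KK W * W.B'.d n ^ x ≤ NN W * W.B'.d n ^ (x - ε) :=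
      mul_le_mul (by linarith) hρ r0 (by linarith)
    exact (H.absorb (v1.trans h6)).trans (ra W n (by linarith))

/-- **the rows of `34`** -/
theorem rows34 (hW : PWin W E κ u f {4} lam x) (hx : 0 < x) :
    ∃ (M C : ℝ) (a F Q c β Y K Φ : ℕ → ℕ → ℕ → ℝ),
      SRow W.B' (W.cfg E) x M C (ind {0, 4, 5, 7} x) (ind {0, 2, 4, 5, 7, 9, 14, 15} x)
        (ind {0, 1, 3, 4, 5, 6, 7, 10, 15} x) (ind {0, 1, 4, 5, 6, 7} x)
        (fun y => Function.update (ind {0, 4, 5, 7} x) 2 y)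
        (fun y => Function.update (ind {0, 1, 2, 4, 5, 6, 7, 9, 14, 15} x) 3 y)
        (fun y => Function.update (ind {0, 2, 4, 5, 7, 9, 14, 15} x) 1 y) a F Q c β Y K Φ κ ∧
      SEvo W.B' (W.cfg E) x M C (1 / 3) (ind {0, 4, 5, 7} x) a F c Y ∧
      (∀ y : ℝ, 0 ≤ y → y ≤ x → ∀ ε : ℝ, 0 < ε → ∀ᶠ n in (U : Filter ℕ), ∀ k l l',
        (l, k) ∈ (W.cfg E n).I → (l', k) ∈ (W.cfg E n).I →
        (W.cfg E n).loose (ind {0, 2, 3, 4, 5, 7, 9, 10} x) ε k l l' →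
          |c n k l' - c n k l| ≤ W.B'.d n ^ y →
          (W.cfg E n).loose (Function.update (ind {0, 2, 3, 4, 5, 7, 9, 10} x) 1 y) ε k l l') ∧
      (∀ ε : ℝ, 0 < ε → ∀ᶠ n in (U : Filter ℕ), ∀ k l l', (l, k) ∈ (W.cfg E n).I →
        (l', k) ∈ (W.cfg E n).I →
        (W.cfg E n).loose (ind {0, 2, 3, 4, 5, 7, 9, 10} x) ε k l l' →
          |a n k l - a n k l'| ≤ W.B'.d n ^ (x - C * ε) ∧
          |F n k l - F n k l'| ≤ W.B'.d n ^ (x - C * ε) ∧
          |(β n k l - β n k l') - 2 * κ n * a n k l * (c n k l - c n k l')| ≤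
            W.B'.d n ^ (x - C * ε) ∧
          |(K n k l + 4 * κ n * c n k l * F n k l + 2 * κ n * a n k l * Y n k l) -
            (K n k l' + 4 * κ n * c n k l' * F n k l' + 2 * κ n * a n k l' * Y n k l')| ≤
            W.B'.d n ^ (x - C * ε)) ∧
      (∀ ε : ℝ, 0 < ε → ∀ᶠ n in (U : Filter ℕ), ∀ k l l', (l, k) ∈ (W.cfg E n).I →
        (l', k) ∈ (W.cfg E n).I → (W.cfg E n).loose (ind {0, 4, 5, 7} x) ε k l l' →
          |Y n k l' - Y n k l| ≤ W.B'.d n ^ (x - ε) →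
          (W.cfg E n).loose (ind {0, 4, 5, 6, 7} x) (2 * ε) k l l') := by
  obtain ⟨k1, k2, k3, k4, k5⟩ := KR hW
  refine ⟨6 * KK W ^ 2, 16, fun n k l => (PP W E κ u f n k l).g 2,
    fun n k l => (PP W E κ u f n k l).G 5, fun n k l => fQ (PP W E κ u f n k l),
    fun n k l => (PP W E κ u f n k l).g 1, fun n k l => fB (κ n) (PP W E κ u f n k l),
    fun n k l => fY (PP W E κ u f n k l), fun n k l => fK (κ n) (PP W E κ u f n k l),
    fun n k l => fP (κ n) (PP W E κ u f n k l), ⟨hx, by linarith, by norm_num, hW.ww.hκ,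
    hW.kap, ?_, ?_, ?_, ?_, ?_, ?_, ?_⟩, ⟨?_, ?_, ?_⟩, ?_, ?_, ?_⟩
  · filter_upwards [hW.ev] with n hn k l hl
    rw [hn.2.2] at hl
    have b := PP_bn hW hn.1 hn.2.1 hl
    have h1 := b.g 2
    have h2 := b.G 5
    have h3 := b.Q
    have h4 := b.g 1
    have h5 := b.B
    have h6 := b.Y
    have h7 := b.kk
    refine ⟨?_, ?_, h3, ?_, ?_, ?_, h7⟩ <;> linarith
  · intro ε hε
    filter_upwards [ev_Ge hW hε] with n H k l l' hl hl' L
    rw [H.c] at hl hl' L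
    exact rows_p hW hx hε H hl hl' L
  · intro ε hε
    filter_upwards [ev_Ge hW hε] with n H k l l' hl hl' L
    rw [H.c] at hl hl' L
    exact rows_v hW hx hε H hl hl' L
  · intro ε hε
    filter_upwards [ev_Ge hW hε] with n H k l l' hl hl' L
    rw [H.c] at hl hl' L
    exact rows_c hW hx hε H hl hl' L
  · intro y hy0 hy ε hε
    filter_upwards [ev_Ge hW hε] with n H k l l' hl hl' L h
    rw [H.c] at hl hl' L ⊢
    exact acl34 hW hx hε H hl hl' hy0 hy L h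
  · intro y hy0 ε hε hy
    filter_upwards [ev_Ge hW hε] with n H k l l' hl hl' L L' h
    rw [H.c] at hl hl' L L' ⊢
    exact bcl34 hW hx hε H hl hl' hy0 hy L L' h
  · intro y hy0 hy ε hε
    filter_upwards [ev_Ge hW hε] with n H k l l' hl hl' L h
    rw [H.c] at hl hl' L ⊢
    exact loose_upd _ (c34 hW H hl hl' h) (fun _ _ => rfl) L
  · intro ε hε
    filter_upwards [ev_Ge hW hε] with n H k k' l l' h1 h2 h3 h4 L
    rw [H.c] at h1 h2 h3 h4 L ⊢
    exact base34 hW hx hε H h1 h2 h3 h4 L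
  · filter_upwards [hW.ev] with n hn k hk k' hk'
    rw [hn.2.2] at hk hk' ⊢
    exact (z_bd hW hn.1 hn.2.1 hk hk').trans (by linarith)
  · intro ε hε
    filter_upwards [ev_Ge hW hε] with n H k k' l l' h1 h2 h3 h4 L
    rw [H.c] at h1 h2 h3 h4 L ⊢
    exact evo34 hW hx hε H h1 h2 h3 h4 L
  · intro y hy0 hy ε hε
    filter_upwards [ev_Ge hW hε] with n H k l l' hl hl' L h
    rw [H.c] at hl hl' L ⊢
    exact loose_upd _ (c34 hW H hl hl' h) (fun _ _ => rfl) L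
  · intro ε hε
    filter_upwards [ev_Ge hW hε] with n H k l l' hl hl' L
    rw [H.c] at hl hl' L
    exact rows_z hW hx hε H hl hl' L
  · intro ε hε
    have hc : ∀ᶠ n in (U : Filter ℕ), KK W ^ 2 * W.B'.d n ^ (x - ε) ≤ 1 ∨ x ≤ ε := by
      by_cases h : ε < x
      · filter_upwards [Gf356.ev_const_le W.B' (sub_pos.2 h) (KK W ^ 2)] with n hn
        left
        have h1 := mul_le_mul_of_nonneg_right hn (rp W n (x - ε)).le
        rw [← Real.rpow_add (W.B'.pos n), neg_add_cancel, Real.rpow_zero] at h1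
        exact h1
      · exact Eventually.of_forall fun n => Or.inr (not_lt.1 h)
    filter_upwards [ev_Ge hW hε, hc] with n H hc k l l' hl hl' L h
    rw [H.c] at hl hl' L ⊢
    exact ycl34 hW hx hε H hc hl hl' L h

end

end Crest.Agent.R136.Cr544
end

-- ▼ part R136/Hul1_412
section

/-!
# R136 (S0187), PLAN 2 (AL) (C): hull counts, one step (helper412)

`step` : a point near the common line `T`, in the second sheet fattened to `A`, lies in the first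
sheet fattened to `S.a + 32 A + 16 E`, near `T` (base sheet curved, `PolyC E`).
-/

set_option autoImplicit false
set_option linter.unusedVariables false

namespace Crest.Agent.R136.Hul412

open Crest.Agent.R136.Sh605
open Crest.Agent.R136.Tl102
open Crest.Agent.R136.K4 (Plk4)
open Crest.Agent.R136.Deep51 (CoinC CloseC dt_exp abs_dt_exp abs_dt_unit)
open Crest.Agent.R136.Tlt51 (CompC Shp InP)
open Crest.Agent.R136.KapP335

/-- offset along the normal axis of two points of the doubled box -/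
theorem off0 {S : Plk4} {z0 ρ r : ℝ} (hr : 0 < r) (hS : Shp S z0 ρ r) {z : ℝ} (hz : z0 ≤ z)
    (hz' : z ≤ z0 + ρ) {x y : V3} (hx : InK S.e S.c (dbl3 S.w) z x)
    (hy : InK S.e S.c (dbl3 S.w) z y) {A κ : ℝ} (hκ : 0 ≤ κ) (hqx : |S.q z x| ≤ A) (hqy : |S.q z y| ≤ A)
    (h1 : |dt (S.e 1) (y - x)| ≤ κ * S.w 1) (h2 : |dt (S.e 2) (y - x)| ≤ κ * S.w 2) :
    |dt (S.e 0) (y - x)| ≤ 4 * A + 4 * κ * S.w 0 := by
  have hw0 : 0 < S.w 0 := hr.trans_le (hS.r0_le.trans hS.a_le0)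
  have P := StP.of_shN hS hw0
  have hw1 := P.pos 1
  have hw2 := P.pos 2
  have h := (P.path hz hz' hx hy).2
  have a1 : S.w 0 / S.w 1 * |dt (S.e 1) (y - x)| ≤ κ * S.w 0 := by
    calc S.w 0 / S.w 1 * |dt (S.e 1) (y - x)| ≤ S.w 0 / S.w 1 * (κ * S.w 1) :=
          mul_le_mul_of_nonneg_left h1 (by positivity)
      _ = _ := by field_simp
  have a2 : S.w 0 / S.w 2 * |dt (S.e 2) (y - x)| ≤ κ * S.w 0 := by
    calc S.w 0 / S.w 2 * |dt (S.e 2) (y - x)| ≤ S.w 0 / S.w 2 * (κ * S.w 2) :=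
          mul_le_mul_of_nonneg_left h2 (by positivity)
      _ = _ := by field_simp
  have a3 : |S.q z y - S.q z x| ≤ A + A := (abs_sub _ _).trans (add_le_add hqy hqx)
  linarith

/-- curvature extent at most `13 w 0` -/
theorem kapP_le {S : Plk4} {z0 ρ r : ℝ} (hr : 0 < r) (hρ : 0 ≤ ρ) (hS : Shp S z0 ρ r) {T : Ln4}
    (hT : InP T S z0 ρ) : kapP S z0 ρ T ≤ 13 * S.w 0 := by
  have hw0 : 0 < S.w 0 := hr.trans_le (hS.r0_le.trans hS.a_le0)
  have P := StP.of_shN hS hw0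
  obtain ⟨b0, b1, G, hE⟩ := exists_isExp P.isQ S.e hw0.ne' T z0 ρ
  have N := hE.nrmC P hρ (fun z h1 h2 => (hT z h1 h2).1)
  rw [kapP_eq hw0.ne' hE]
  have := mul_le_mul_of_nonneg_left (Tl102.kap_le N) hw0.le
  linarith

/-- change of frame of an offset -/
theorem frame_loc {S S' : Plk4} {B lam δ κ : ℝ} {V : V3} (he : Ortho S.e) (he' : Ortho S'.e)
    (hB : 1 ≤ B) (hlam : 1 ≤ lam) (hC : CompC B lam S S') (hw0 : 0 ≤ S.w 0) (h02 : S.w 0 ≤ S.w 2)
    (h21 : S.w 2 ≤ S.w 1) (h02' : S'.w 0 ≤ S'.w 2) (hδ : 0 ≤ δ) (hκ0 : 0 ≤ κ)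
    (h0 : |dt (S'.e 0) V| ≤ 52 * δ * S.w 0 + 4 * κ * S'.w 0)
    (h1 : |dt (S'.e 1) V| ≤ κ * S'.w 1) (h2 : |dt (S'.e 2) V| ≤ κ * S'.w 2) :
    |dt (S.e 1) V| ≤ (52 * δ + 6 * (κ * (B * lam))) * S.w 1 ∧
      |dt (S.e 2) V| ≤ (52 * δ + 6 * (κ * (B * lam))) * S.w 2 := by
  have c2 := (hC.w 2 (by decide)).2
  have c1 := (hC.w 1 (by decide)).2
  have hw2 : 0 ≤ S.w 2 := hw0.trans h02
  have hw1 : 0 ≤ S.w 1 := hw2.trans h21
  have hBl : B ≤ B * lam := le_mul_of_one_le_right (by linarith) hlam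
  have hκB : 0 ≤ κ * (B * lam) := mul_nonneg hκ0 (by linarith)
  have d2 : κ * S'.w 2 ≤ κ * (B * lam) * S.w 2 := by
    calc κ * S'.w 2 ≤ κ * (B * S.w 2) := mul_le_mul_of_nonneg_left c2 hκ0
      _ ≤ κ * (B * lam * S.w 2) :=
          mul_le_mul_of_nonneg_left (mul_le_mul_of_nonneg_right hBl hw2) hκ0
      _ = _ := by ring
  have d1 : κ * S'.w 1 ≤ κ * (B * lam) * S.w 1 := by
    calc κ * S'.w 1 ≤ κ * (B * S.w 1) := mul_le_mul_of_nonneg_left c1 hκ0
      _ ≤ κ * (B * lam * S.w 1) :=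
          mul_le_mul_of_nonneg_left (mul_le_mul_of_nonneg_right hBl hw1) hκ0
      _ = _ := by ring
  have d0 : κ * S'.w 0 ≤ κ * (B * lam) * S.w 2 := (mul_le_mul_of_nonneg_left h02' hκ0).trans d2
  have m0 : δ * S.w 0 ≤ δ * S.w 2 := mul_le_mul_of_nonneg_left h02 hδ
  have e0 : |dt (S'.e 0) V| ≤ 52 * (δ * S.w 2) + 4 * (κ * (B * lam) * S.w 2) := by linarith
  have m1 : δ * S.w 2 ≤ δ * S.w 1 := mul_le_mul_of_nonneg_left h21 hδ
  have m2 : κ * (B * lam) * S.w 2 ≤ κ * (B * lam) * S.w 1 := mul_le_mul_of_nonneg_left h21 hκB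
  have hone : ∀ i j (x y : ℝ), |dt (S'.e j) V| ≤ y → |dt (S.e i) (S'.e j)| * |dt (S'.e j) V| ≤ y := by
    intro i j x y hy
    have := mul_le_mul (abs_dt_unit he he' i j) hy (abs_nonneg _) zero_le_one
    linarith
  constructor
  · have g := abs_dt_exp he he' 1 V
    have g0 := hone 1 0 0 _ e0
    have g1 := hone 1 1 0 _ (h1.trans d1)
    have g2 := hone 1 2 0 _ (h2.trans d2)
    refine (g.trans (add_le_add (add_le_add g0 g1) g2)).trans ?_
    have e : (52 * δ + 6 * (κ * (B * lam))) * S.w 1 =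
        52 * (δ * S.w 1) + 6 * (κ * (B * lam) * S.w 1) := by ring
    rw [e]
    linarith
  · have g := abs_dt_exp he he' 2 V
    have g0 := hone 2 0 0 _ e0
    have g2 := hone 2 2 0 _ (h2.trans d2)
    have g1 : |dt (S.e 2) (S'.e 1)| * |dt (S'.e 1) V| ≤ κ * (B * lam) * S.w 2 := by
      calc |dt (S.e 2) (S'.e 1)| * |dt (S'.e 1) V| ≤ |dt (S.e 2) (S'.e 1)| * (κ * (B * S.w 1)) :=
            mul_le_mul_of_nonneg_left (h1.trans (mul_le_mul_of_nonneg_left c1 hκ0)) (abs_nonneg _)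
        _ = κ * B * (|dt (S.e 2) (S'.e 1)| * S.w 1) := by ring
        _ ≤ κ * B * (lam * S.w 2) :=
            mul_le_mul_of_nonneg_left (hC.g' 2 (by decide)) (mul_nonneg hκ0 (by linarith))
        _ = _ := by ring
    refine (g.trans (add_le_add (add_le_add g0 g1) g2)).trans ?_
    have e : (52 * δ + 6 * (κ * (B * lam))) * S.w 2 =
        52 * (δ * S.w 2) + 6 * (κ * (B * lam) * S.w 2) := by ring
    rw [e]
    linarith


end Crest.Agent.R136.Hul412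
end

-- ▼ part R136/Hul3_412
section

/-!
# R136 (S0187), PLAN 2 (AL) (B), `LeafHull`: one step (helper412)

`mem_div` : a point near the line `T` (common to the sheets `S`, `S'`), in `S` fattened to `A`, lies
near `T` in `S'` fattened to `S'.a + C A + C κ D` if `S'.q` is at most `D` on `S` near `T`.
-/

set_option autoImplicit false
set_option linter.unusedVariables false

namespace Crest.Agent.R136.Hul412

open Crest.Agent.R136.Sh605
open Crest.Agent.R136.Tl102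
open Crest.Agent.R136.K4 (Plk4)
open Crest.Agent.R136.Deep51 (CloseC)
open Crest.Agent.R136.Tlt51 (CompC Shp InP)
open Crest.Agent.R136.KapP335 (kapP)
open Crest.Agent.R136.Adj214 (ev JB cx abs2 divide chart KD KD_pos KD_one)
open Crest.Agent.R136.Rk601 (Jt dp qf)

/-- variation of a jet -/
theorem ev_diff {J : Jt} {N c η : ℝ} (h : JB N c J) (hη : 0 ≤ η) (hη1 : η ≤ 1) {ζ y u v : ℝ}
    (hζ : 0 ≤ ζ) (hζ' : ζ ≤ 1) (hy : |y| ≤ η) (hu : |u| ≤ η) (hv : |v| ≤ η) :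
    |ev J y ![ζ, u, v] - ev J 0 ![ζ, 0, 0]| ≤ 11 * (N * η) := by
  have hN : 0 ≤ N := (abs_nonneg _).trans h.a0
  have hz : |ζ| ≤ 1 := abs_le.2 ⟨by linarith, hζ'⟩
  have one : ∀ {x y : ℝ}, |x| ≤ 1 → |y| ≤ η → |x * y| ≤ η := fun hx hy =>
    (abs2 hx hy).trans (le_of_eq (one_mul _))
  have yy := one (hy.trans hη1) hy
  have zy := one hz hy
  have uy := one (hu.trans hη1) hy
  have vy := one (hv.trans hη1) hy
  have zu := one hz hu
  have zv := one hz hv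
  have uu := one (hu.trans hη1) hu
  have uv := one (hu.trans hη1) hv
  have vv := one (hv.trans hη1) hv
  have t1 := abs_le.1 (abs2 h.a0 hy)
  have t2 := abs_le.1 (abs2 (h.a 1) hu)
  have t3 := abs_le.1 (abs2 (h.a 2) hv)
  have t4 := abs_le.1 (abs2 h.h00 yy)
  have t5 := abs_le.1 (abs2 (h.h0 0) zy)
  have t6 := abs_le.1 (abs2 (h.h0 1) uy)
  have t7 := abs_le.1 (abs2 (h.h0 2) vy)
  have t8 := abs_le.1 (abs2 (h.h 0 1) zu)
  have t8' := abs_le.1 (abs2 (h.h 1 0) zu)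
  have t9 := abs_le.1 (abs2 (h.h 0 2) zv)
  have t9' := abs_le.1 (abs2 (h.h 2 0) zv)
  have s1 := abs_le.1 (abs2 (h.h 1 1) uu)
  have s2 := abs_le.1 (abs2 (h.h 1 2) uv)
  have s2' := abs_le.1 (abs2 (h.h 2 1) uv)
  have s3 := abs_le.1 (abs2 (h.h 2 2) vv)
  have hNη : 0 ≤ N * η := mul_nonneg hN hη
  have e : ev J y ![ζ, u, v] - ev J 0 ![ζ, 0, 0] = J.a0 * y + J.a 1 * u + J.a 2 * v +
      1 / 2 * (J.h00 * (y * y)) + J.h0 0 * (ζ * y) + J.h0 1 * (u * y) + J.h0 2 * (v * y) +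
      1 / 2 * (J.h 0 1 * (ζ * u)) + 1 / 2 * (J.h 1 0 * (ζ * u)) + 1 / 2 * (J.h 0 2 * (ζ * v)) +
      1 / 2 * (J.h 2 0 * (ζ * v)) + 1 / 2 * (J.h 1 1 * (u * u)) + 1 / 2 * (J.h 1 2 * (u * v)) +
      1 / 2 * (J.h 2 1 * (u * v)) + 1 / 2 * (J.h 2 2 * (v * v)) := by
    simp only [ev, dp, qf, Fin.sum_univ_three, Matrix.cons_val]
    ring
  rw [e]
  generalize N * η = X at *
  rw [abs_le]
  constructor
  · linarith [t1.1, t2.1, t3.1, t4.1, t5.1, t6.1, t7.1, t8.1, t8'.1, t9.1, t9'.1, s1.1, s2.1,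
      s2'.1, s3.1]
  · linarith [t1.2, t2.2, t3.2, t4.2, t5.2, t6.2, t7.2, t8.2, t8'.2, t9.2, t9'.2, s1.2, s2.2,
      s2'.2, s3.2]

/-- chart points on a segment which starts on the line -/
theorem cx_seg {e : Fin 3 → V3} (he : Ortho e) {w : V3} (hw : ∀ k, w k ≠ 0) {b0 : V3} {κ : ℝ}
    (hκ : κ ≠ 0) (z0 ρ ζ : ℝ) (T : Ln4) (p : V3) (τ : ℝ) :
    cx e w b0 κ z0 ρ T ζ (τ * (256 * yc b0 (pc e w T (z0 + ρ * ζ) p) / κ))
      (τ * (256 * pc e w T (z0 + ρ * ζ) p 1)) (τ * (256 * pc e w T (z0 + ρ * ζ) p 2)) =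
      T.pos (z0 + ρ * ζ) + τ • (p - T.pos (z0 + ρ * ζ)) := by
  set X := pc e w T (z0 + ρ * ζ) p with hX
  have h1 := cmb_pc he hw T (z0 + ρ * ζ) p
  rw [← hX] at h1
  have h2 : p - T.pos (z0 + ρ * ζ) = cmb (fr e w) X := by
    rw [← h1]; exact add_sub_cancel_left _ _
  rw [h2]
  unfold cx
  have e1 : κ * (1 / 256 * (τ * (256 * yc b0 X / κ))) = τ * yc b0 X := by
    field_simp
  have e2 : 1 / 256 * (τ * (256 * X 1)) = τ * X 1 := by ring
  have e3 : 1 / 256 * (τ * (256 * X 2)) = τ * X 2 := by ring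
  rw [e1, e2, e3]
  congr 1
  funext i
  simp only [cmb, unsh, yc, Pi.smul_apply, smul_eq_mul, Matrix.cons_val]
  ring

/-- numbers of the step -/
theorem md_num1 {A Sa kS κ δ h η : ℝ} (hkS : 0 < kS) (hA : Sa ≤ A) (hδ : 0 ≤ δ)
    (hAδ : A ≤ δ * kS) (hκ0 : 0 ≤ κ)
    (hy : kS * h ≤ 256 * (2 * (A + Sa) + 5 * κ * kS)) (hη : η = 1024 * (A / kS) + 1280 * κ) :
    h ≤ η ∧ η ≤ 1280 * (δ + κ) := by
  have h1 : A / kS ≤ δ := by rw [div_le_iff₀ hkS]; exact hAδ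
  constructor
  · rw [hη]
    have h2 : kS * h ≤ kS * (1024 * (A / kS) + 1280 * κ) := by
      have e : kS * (1024 * (A / kS) + 1280 * κ) = 1024 * A + 1280 * κ * kS := by field_simp
      rw [e]; linarith
    exact le_of_mul_le_mul_left h2 hkS
  · rw [hη]; linarith

theorem md_num2 {m τ k D K kS : ℝ} (hτ : 0 < τ) (hk : 1 ≤ k) (hK : 1 ≤ K)
    (hm : m * (τ / 2) ≤ 4 * τ + 11 * (k * D * (1 / K))) (hD : D ≤ 2 * K * kS)
    (hkS : kS = 256 * K * τ) : m ≤ 11272 * (k * K) := by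
  have hK0 : 0 < K := by linarith
  have h1 : k * D * (1 / K) ≤ 512 * (k * K) * τ := by
    calc k * D * (1 / K) ≤ k * (2 * K * kS) * (1 / K) := by gcongr
      _ = 512 * (k * K) * τ := by rw [hkS]; field_simp; ring
  have h2 : 1 ≤ k * K := one_le_mul_of_one_le_of_one_le hk hK
  have h3 : τ ≤ k * K * τ := le_mul_of_one_le_left hτ.le h2
  have h4 : m * (τ / 2) ≤ 11272 * (k * K) * (τ / 2) := by linarith
  exact le_of_mul_le_mul_right h4 (by positivity)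

theorem md_num3 {m k D K kS w η d : ℝ} (hk : 0 ≤ k) (hK : 0 ≤ K) (hη : 0 ≤ η) (hkS : 0 ≤ kS)
    (hm : m ≤ 11272 * (k * K)) (hd0 : 0 ≤ d)
    (hd : d ≤ kS / 256 * (11 * (2 * η))) (hD : D ≤ 2 * K * kS) (hw : kS ≤ 13 * K * w) :
    m * d + 11 * (k * D * η) ≤ 12900 * (k * K ^ 2 * η * w) := by
  have h1 : m * d ≤ 11272 * (k * K) * (kS / 256 * (11 * (2 * η))) :=
    mul_le_mul hm hd hd0 (by positivity)
  have h2 : k * D * η ≤ k * (2 * K * kS) * η := by gcongr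
  have h3 : k * K * η * kS ≤ k * K * η * (13 * K * w) := by gcongr
  have h0 : 0 ≤ k * K * η * kS := by positivity
  have e1 : 11272 * (k * K) * (kS / 256 * (11 * (2 * η))) = 30998 / 32 * (k * K * η * kS) := by ring
  have e2 : k * (2 * K * kS) * η = 2 * (k * K * η * kS) := by ring
  have e3 : k * K * η * (13 * K * w) = 13 * (k * K ^ 2 * η * w) := by ring
  rw [e1] at h1
  rw [e2] at h2
  rw [e3] at h3
  linarith

theorem md_num4 {x k K Bl δ κ η κ2 w : ℝ} (hk : 1 ≤ k) (hK : 1 ≤ K) (hB : 1 ≤ Bl) (hδ : 0 ≤ δ)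
    (hκ : 0 ≤ κ) (hw : 0 ≤ w) (hη : η ≤ 1280 * (δ + κ))
    (hκ2 : κ2 = 52 * (K * δ) + 6 * (κ * Bl))
    (hx : x ≤ 2 * (12900 * (k * K ^ 2 * η * w) + κ2 * w + κ2 * w)) :
    x ≤ 4 * 10 ^ 7 * (k * K ^ 2 * Bl * (δ + κ)) * w := by
  have hK0 : 0 ≤ K := by linarith
  have hk0 : 0 ≤ k := by linarith
  have hB0 : 0 ≤ Bl := by linarith
  have hs : 0 ≤ δ + κ := by linarith
  have h1 : k * K ^ 2 * η * w ≤ 1280 * (k * K ^ 2 * Bl * (δ + κ)) * w := by
    calc k * K ^ 2 * η * w ≤ k * K ^ 2 * (1280 * (δ + κ)) * w := by gcongr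
      _ = 1280 * (k * K ^ 2 * 1 * (δ + κ)) * w := by ring
      _ ≤ _ := by gcongr
  have hkK : 1 ≤ k * K := one_le_mul_of_one_le_of_one_le hk hK
  have a1 : K * δ ≤ k * K ^ 2 * Bl * (δ + κ) := by
    calc K * δ = 1 * K * 1 * δ := by ring
      _ ≤ (k * K) * K * Bl * (δ + κ) := by
          gcongr
          linarith
      _ = _ := by ring
  have a2 : κ * Bl ≤ k * K ^ 2 * Bl * (δ + κ) := by
    have h2 : 1 ≤ k * K ^ 2 := by
      calc (1:ℝ) = 1 * 1 := by ring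
        _ ≤ (k * K) * K := mul_le_mul hkK hK zero_le_one (by linarith)
        _ = _ := by ring
    calc κ * Bl = 1 * Bl * κ := by ring
      _ ≤ (k * K ^ 2) * Bl * (δ + κ) := by
          gcongr
          linarith
  have h2 : κ2 * w ≤ 58 * (k * K ^ 2 * Bl * (δ + κ)) * w := by
    apply mul_le_mul_of_nonneg_right _ hw
    rw [hκ2]
    linarith
  have h0 : 0 ≤ (k * K ^ 2 * Bl * (δ + κ)) * w := by positivity
  linarith

theorem md_num5 {m k D K kS κ A Sa η : ℝ} (hk : 0 ≤ k) (hK : 0 ≤ K) (hkS : 0 < kS) (hSa : 0 ≤ Sa)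
    (hA : Sa ≤ A) (hm : m ≤ 11272 * (k * K)) (hD : D ≤ 2 * K * kS)
    (hη : η = 1024 * (A / kS) + 1280 * κ) (hD0 : 0 ≤ k * D) (hκ : 0 ≤ κ) :
    m * (A + Sa) + 11 * (k * D * η) ≤ 50000 * (k * K) * A + 15000 * k * κ * D := by
  have hA0 : 0 ≤ A := hSa.trans hA
  have h1 : m * (A + Sa) ≤ 11272 * (k * K) * (2 * A) :=
    mul_le_mul hm (by linarith) (by linarith) (by positivity)
  have h2 : k * D * (A / kS) ≤ k * (2 * K * kS) * (A / kS) := by
    have : 0 ≤ A / kS := by positivity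
    gcongr
  have e2 : k * (2 * K * kS) * (A / kS) = 2 * (k * K) * A := by field_simp
  have h3 : 0 ≤ k * D * κ := mul_nonneg hD0 hκ
  have h4 : 0 ≤ k * K * A := by positivity
  rw [e2] at h2
  have e : k * D * η = 1024 * (k * D * (A / kS)) + 1280 * (k * D * κ) := by rw [hη]; ring
  rw [e]
  linarith

/-- **one step**, by division -/
theorem mem_div {S S' : Plk4} {T : Ln4} {z0 ρ r B lam K D A δ κ : ℝ} (hr : 0 < r) (hρ : 0 < ρ)
    (hS : Shp S z0 ρ r) (hS' : Shp S' z0 ρ r) (hB : 1 ≤ B) (hlam : 1 ≤ lam) (hK : 1 ≤ K)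
    (hC : CompC B lam S' S) (hT : InP T S z0 ρ) (hT' : InP T S' z0 ρ)
    (hcl : CloseC S.e S.w S.q S.a S'.q D T z0 ρ)
    (hka : 10 ^ 6 * S.a ≤ kapP S z0 ρ T) (hD : D ≤ 2 * K * kapP S z0 ρ T)
    (hkw : kapP S z0 ρ T ≤ 13 * K * S'.w 0)
    (hA : S.a ≤ A) (hδ : 0 ≤ δ) (hAδ : A ≤ δ * kapP S z0 ρ T) (hκ0 : 0 ≤ κ)
    (hε : 10 ^ 8 * (KD * K ^ 2 * (B * lam) * (δ + κ)) ≤ 1)
    {z : ℝ} (hz : z0 ≤ z) (hz' : z ≤ z0 + ρ) {p : V3}
    (hp : InK S.e S.c (dbl3 S.w) z p) (hq : |S.q z p| ≤ A)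
    (h1 : |dt (S.e 1) (p - T.pos z)| ≤ κ * S.w 1)
    (h2 : |dt (S.e 2) (p - T.pos z)| ≤ κ * S.w 2) :
    |dt (S'.e 0) (p - T.pos z)| ≤
        4 * 10 ^ 7 * (KD * K ^ 2 * (B * lam) * (δ + κ)) * S'.w 0 ∧
      |dt (S'.e 1) (p - T.pos z)| ≤ (52 * (K * δ) + 6 * (κ * (B * lam))) * S'.w 1 ∧
      |dt (S'.e 2) (p - T.pos z)| ≤ (52 * (K * δ) + 6 * (κ * (B * lam))) * S'.w 2 ∧
      |S'.q z p| ≤ S'.a + 50000 * (KD * K) * A + 15000 * KD * κ * D := by
  have ha : 0 < S.a := hr.trans_le hS.r0_le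
  have hw0 : 0 < S.w 0 := ha.trans_le hS.a_le0
  have hw0' : 0 < S'.w 0 := hr.trans_le (hS'.r0_le.trans hS'.a_le0)
  have P := StP.of_shN hS hw0
  have P' := StP.of_shN hS' hw0'
  have hKD : 1 ≤ KD := KD_one
  have hKD0 : 0 ≤ KD := by linarith
  have hK0 : 0 < K := by linarith
  have hBl : 1 ≤ B * lam := one_le_mul_of_one_le_of_one_le hB hlam
  -- own location
  have hTK : InK S.e S.c (dbl3 S.w) z (T.pos z) := by
    intro i
    have := (hT _ hz hz').1 i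
    have hwi := (P.pos i).le
    change _ ≤ 2 * S.w i
    linarith
  have hTK' : InK S'.e S'.c (dbl3 S'.w) z (T.pos z) := by
    intro i
    have := (hT' _ hz hz').1 i
    have hwi := (P'.pos i).le
    change _ ≤ 2 * S'.w i
    linarith
  have h0 := off0 hr hS hz hz' hTK hp hκ0 ((hT _ hz hz').2.trans hA) hq h1 h2
  have h0' : |dt (S.e 0) (p - T.pos z)| ≤ 52 * (K * δ) * S'.w 0 + 4 * κ * S.w 0 := by
    have := mul_le_mul_of_nonneg_left hkw hδ
    linarith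
  obtain ⟨f1, f2⟩ := frame_loc hS'.ortho hS.ortho hB hlam hC hw0'.le hS'.w0_le hS'.w_le hS.w0_le
    (by positivity : 0 ≤ K * δ) hκ0 h0' h1 h2
  set κ2 := 52 * (K * δ) + 6 * (κ * (B * lam)) with hκ2
  have hκ20 : 0 ≤ κ2 := by positivity
  have hX1 : κ ≤ 1 / 8 := by
    have h3 : κ ≤ KD * K ^ 2 * (B * lam) * (δ + κ) := by
      have h4 : 1 ≤ KD * K ^ 2 * (B * lam) :=
        one_le_mul_of_one_le_of_one_le (one_le_mul_of_one_le_of_one_le hKD (one_le_pow₀ hK)) hBl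
      calc κ = 1 * κ := by ring
        _ ≤ (KD * K ^ 2 * (B * lam)) * (δ + κ) := by
            apply mul_le_mul h4 (by linarith) hκ0 (by linarith)
    linarith
  obtain ⟨ζ, hζ, hζ', rfl⟩ := height_exists hρ hz hz'
  obtain ⟨b0, b1, G, hE⟩ := exists_isExp P.isQ S.e hw0.ne' T z0 ρ
  have hkE : kapP S z0 ρ T = S.w 0 * kap b0 b1 G := KapP335.kapP_eq hw0.ne' hE
  have N := hE.nrmC P hρ.le (fun z h1 h2 => (hT z h1 h2).1)
  have hk13 : kap b0 b1 G ≤ 13 := Tl102.kap_le N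
  rw [hkE] at hka hD hkw hAδ
  have hkp : 0 < kap b0 b1 G := Adj214.kap_pos_of hw0 ha hka
  obtain ⟨c0, J, NN, -, -, -, hqJ⟩ := chart hS ha hρ.le hT hE hka
  obtain ⟨μ, c', Dj, hJB, hdiv⟩ := divide hS ha hρ.le hT hE hka P'.isQ hcl
  have hKDD : 0 ≤ KD * D := (abs_nonneg _).trans hJB.c
  set k := kap b0 b1 G with hkdef
  have hkS : 0 < S.w 0 * k := mul_pos hw0 hkp
  set X := pc S.e S.w T (z0 + ρ * ζ) p with hX
  have hwne : ∀ i, S.w i ≠ 0 := fun i => (P.pos i).ne'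
  have x1 : |X 1| ≤ κ := by
    change |dt (S.e 1) (p - T.pos (z0 + ρ * ζ)) / S.w 1| ≤ _
    rw [abs_div, abs_of_pos (P.pos 1), div_le_iff₀ (P.pos 1)]
    exact h1
  have x2 : |X 2| ≤ κ := by
    change |dt (S.e 2) (p - T.pos (z0 + ρ * ζ)) / S.w 2| ≤ _
    rw [abs_div, abs_of_pos (P.pos 2), div_le_iff₀ (P.pos 2)]
    exact h2
  have hy := yc_le2 P hρ.le (fun z h1 h2 => (hT z h1 h2).1) hE hζ hζ' hp hX1 x1 x2
  have hqT : |S.q (z0 + ρ * ζ) (T.pos (z0 + ρ * ζ))| ≤ S.a := (hT _ hz hz').2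
  have hpt := cx_seg P.ortho hwne (b0 := b0) hkp.ne' z0 ρ ζ T p
  rw [← hX] at hpt hy
  set Y := 256 * yc b0 X / k with hY
  set η := 1024 * (A / (S.w 0 * k)) + 1280 * κ with hη
  have hYη : |Y| ≤ η ∧ η ≤ 1280 * (δ + κ) := by
    refine md_num1 hkS hA hδ hAδ hκ0 ?_ hη
    have e : S.w 0 * k * |Y| = 256 * (S.w 0 * |yc b0 X|) := by
      rw [hY, abs_div, abs_mul, abs_of_pos hkp, abs_of_pos (by norm_num : (0:ℝ) < 256)]
      field_simp
    rw [e]
    have : 5 * κ * (S.w 0 * k) = 5 * κ * (S.w 0 * k) := rfl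
    linarith
  obtain ⟨hYη, hηδ⟩ := hYη
  have hA0 : 0 ≤ A := ha.le.trans hA
  have hAk : 0 ≤ A / (S.w 0 * k) := div_nonneg hA0 hkS.le
  have hη0 : 0 ≤ η := by rw [hη]; positivity
  have hXbig : KD * K ^ 2 * (B * lam) * (δ + κ) ≥ δ + κ := by
    have h4 : 1 ≤ KD * K ^ 2 * (B * lam) :=
      one_le_mul_of_one_le_of_one_le (one_le_mul_of_one_le_of_one_le hKD (one_le_pow₀ hK)) hBl
    exact le_mul_of_one_le_left (by linarith) h4
  have hη1 : η ≤ 1 := by linarith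
  have hUη : |256 * X 1| ≤ η := by
    rw [abs_mul, abs_of_pos (by norm_num : (0:ℝ) < 256), hη]; linarith
  have hVη : |256 * X 2| ≤ η := by
    rw [abs_mul, abs_of_pos (by norm_num : (0:ℝ) < 256), hη]; linarith
  have sc : ∀ {τ x : ℝ}, 0 ≤ τ → τ ≤ 1 → |x| ≤ η → |τ * x| ≤ η := by
    intro τ x t0 t1 hx
    rw [abs_mul, abs_of_nonneg t0]
    calc τ * |x| ≤ 1 * |x| := mul_le_mul_of_nonneg_right t1 (abs_nonneg _)
      _ ≤ η := by rw [one_mul]; exact hx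
  have hJ0 := hpt 0
  simp only [zero_mul, zero_smul, add_zero] at hJ0
  -- values along the segment
  have vq : ∀ τ : ℝ, 0 ≤ τ → τ ≤ 1 →
      |S.q (z0 + ρ * ζ) (T.pos (z0 + ρ * ζ) + τ • (p - T.pos (z0 + ρ * ζ))) -
        S.q (z0 + ρ * ζ) (T.pos (z0 + ρ * ζ))| ≤ S.w 0 * k / 256 * (11 * (2 * η)) := by
    intro τ t0 t1
    have a1 := hqJ ζ (τ * Y) (τ * (256 * X 1)) (τ * (256 * X 2))
    have a0 := hqJ ζ 0 0 0
    rw [hpt τ] at a1
    rw [hJ0] at a0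
    have hd := ev_diff NN.jb hη0 hη1 hζ hζ' (sc t0 t1 hYη) (sc t0 t1 hUη) (sc t0 t1 hVη)
    have e : k * (1 / 256) * S.w 0 * (c0 + ev J (τ * Y) ![ζ, τ * (256 * X 1), τ * (256 * X 2)]) -
        k * (1 / 256) * S.w 0 * (c0 + ev J 0 ![ζ, 0, 0]) = (S.w 0 * k / 256) *
        (ev J (τ * Y) ![ζ, τ * (256 * X 1), τ * (256 * X 2)] - ev J 0 ![ζ, 0, 0]) := by ring
    rw [a1, a0, e, abs_mul, abs_of_pos (by positivity : 0 < S.w 0 * k / 256)]
    exact mul_le_mul_of_nonneg_left hd (by positivity)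
  have vq' : ∀ τ : ℝ, 0 ≤ τ → τ ≤ 1 →
      |S'.q (z0 + ρ * ζ) (T.pos (z0 + ρ * ζ) + τ • (p - T.pos (z0 + ρ * ζ))) -
        S'.q (z0 + ρ * ζ) (T.pos (z0 + ρ * ζ))| ≤
      |μ| * |S.q (z0 + ρ * ζ) (T.pos (z0 + ρ * ζ) + τ • (p - T.pos (z0 + ρ * ζ))) -
        S.q (z0 + ρ * ζ) (T.pos (z0 + ρ * ζ))| + 11 * (KD * D * η) := by
    intro τ t0 t1
    have a1 := hdiv ζ (τ * Y) (τ * (256 * X 1)) (τ * (256 * X 2))
    have a0 := hdiv ζ 0 0 0
    rw [hpt τ] at a1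
    rw [hJ0] at a0
    have hd := ev_diff hJB hη0 hη1 hζ hζ' (sc t0 t1 hYη) (sc t0 t1 hUη) (sc t0 t1 hVη)
    rw [← abs_mul]
    generalize S.q (z0 + ρ * ζ) (T.pos (z0 + ρ * ζ) + τ • (p - T.pos (z0 + ρ * ζ))) = q1 at *
    generalize S'.q (z0 + ρ * ζ) (T.pos (z0 + ρ * ζ) + τ • (p - T.pos (z0 + ρ * ζ))) = q1' at *
    generalize S.q (z0 + ρ * ζ) (T.pos (z0 + ρ * ζ)) = q0 at *
    generalize S'.q (z0 + ρ * ζ) (T.pos (z0 + ρ * ζ)) = q0' at *
    generalize ev Dj (τ * Y) ![ζ, τ * (256 * X 1), τ * (256 * X 2)] = v1 at *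
    generalize ev Dj 0 ![ζ, 0, 0] = v0 at *
    have e : q1' - q0' = μ * (q1 - q0) + (v1 - v0) := by linarith
    rw [e]
    exact (abs_add_le _ _).trans (add_le_add le_rfl hd)
  -- the multiplier
  have hμ : |μ| ≤ 11272 * (KD * K) := by
    set τ1 := S.w 0 * k / (256 * K) with hτ1
    have hτp : 0 < τ1 := by positivity
    have hkτ : S.w 0 * k = 256 * K * τ1 := by rw [hτ1]; field_simp
    have hK1 : 0 ≤ 1 / K := by positivity
    have hK1' : 1 / K ≤ 1 := by rw [div_le_one hK0]; exact hK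
    have a1 := hdiv ζ (1 / K) 0 0
    have a0 := hdiv ζ 0 0 0
    have hd := ev_diff hJB hK1 hK1' hζ hζ' (y := 1 / K) (u := 0) (v := 0)
      (by rw [abs_of_nonneg hK1]) (by rw [abs_zero]; exact hK1) (by rw [abs_zero]; exact hK1)
    have hPs : cx S.e S.w b0 k z0 ρ T ζ (1 / K) 0 0 =
        T.pos (z0 + ρ * ζ) + τ1 • S.e 0 := by
      unfold cx
      congr 1
      funext i
      simp only [cmb, fr, unsh, Pi.smul_apply, smul_eq_mul, Matrix.cons_val, hτ1]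
      field_simp
      ring
    rw [hPs] at a1
    rw [hJ0] at a0
    have hτw : τ1 ≤ S.w 0 := by
      have h3 : S.w 0 * k ≤ S.w 0 * 13 := mul_le_mul_of_nonneg_left hk13 hw0.le
      have h4 : S.w 0 ≤ K * S.w 0 := le_mul_of_one_le_left hw0.le hK
      rw [hτ1, div_le_iff₀ (by positivity)]
      linarith
    have hτw' : τ1 ≤ S'.w 0 := by
      rw [hτ1, div_le_iff₀ (by positivity)]
      have : 0 ≤ K * S'.w 0 := by positivity
      linarith
    have kP : InK S.e S.c (dbl3 S.w) (z0 + ρ * ζ) (T.pos (z0 + ρ * ζ) + τ1 • S.e 0) := by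
      intro i
      have h3 := (hT _ hz hz').1 i
      have e : dt (S.e i) (T.pos (z0 + ρ * ζ) + τ1 • S.e 0 - S.c.pos (z0 + ρ * ζ)) =
          dt (S.e i) (T.pos (z0 + ρ * ζ) - S.c.pos (z0 + ρ * ζ)) + τ1 * dt (S.e i) (S.e 0) := by
        simp only [dt, Pi.add_apply, Pi.sub_apply, Pi.smul_apply, smul_eq_mul]; ring
      rw [e]
      change _ ≤ 2 * S.w i
      have h4 : |τ1 * dt (S.e i) (S.e 0)| ≤ S.w i := by
        have o : dt (S.e i) (S.e 0) = if i = 0 then 1 else 0 := P.ortho i 0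
        rw [o]
        split_ifs with hi
        · rw [mul_one, abs_of_pos hτp, hi]; exact hτw
        · rw [mul_zero, abs_zero]; exact (P.pos i).le
      exact (abs_add_le _ _).trans (by linarith)
    have d1 : ∀ i, |dt (S'.e i) (τ1 • S.e 0)| ≤ τ1 := by
      intro i
      have e : dt (S'.e i) (τ1 • S.e 0) = τ1 * dt (S'.e i) (S.e 0) := by
        simp only [dt, Pi.smul_apply, smul_eq_mul]; ring
      rw [e, abs_mul, abs_of_pos hτp]
      have := Deep51.abs_dt_unit hS'.ortho hS.ortho i 0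
      calc τ1 * _ ≤ τ1 * 1 := mul_le_mul_of_nonneg_left this hτp.le
        _ = τ1 := mul_one _
    have hwle : ∀ i, S'.w 0 ≤ S'.w i := by
      intro i
      fin_cases i
      · exact le_rfl
      · exact hS'.w0_le.trans hS'.w_le
      · exact hS'.w0_le
    have kP' : InK S'.e S'.c (dbl3 S'.w) (z0 + ρ * ζ) (T.pos (z0 + ρ * ζ) + τ1 • S.e 0) := by
      intro i
      have h3 := (hT' _ hz hz').1 i
      have e : dt (S'.e i) (T.pos (z0 + ρ * ζ) + τ1 • S.e 0 - S'.c.pos (z0 + ρ * ζ)) =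
          dt (S'.e i) (T.pos (z0 + ρ * ζ) - S'.c.pos (z0 + ρ * ζ)) + dt (S'.e i) (τ1 • S.e 0) := by
        simp only [dt, Pi.add_apply, Pi.sub_apply, Pi.smul_apply, smul_eq_mul]; ring
      rw [e]
      change _ ≤ 2 * S'.w i
      have h4 := d1 i
      have h5 := hwle i
      exact (abs_add_le _ _).trans (by linarith)
    have st := (P.st0 _ hz hz' _ τ1 hτp.le hTK kP).1
    have pa := (P'.path hz hz' hTK' kP').1
    rw [add_sub_cancel_left] at pa
    have r1 : S'.w 0 / S'.w 1 * |dt (S'.e 1) (τ1 • S.e 0)| ≤ τ1 := by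
      have h5 : S'.w 0 / S'.w 1 ≤ 1 := (div_le_one (P'.pos 1)).2 (hwle 1)
      calc _ ≤ 1 * τ1 := mul_le_mul h5 (d1 1) (abs_nonneg _) zero_le_one
        _ = τ1 := one_mul _
    have r2 : S'.w 0 / S'.w 2 * |dt (S'.e 2) (τ1 • S.e 0)| ≤ τ1 := by
      have h5 : S'.w 0 / S'.w 2 ≤ 1 := (div_le_one (P'.pos 2)).2 (hwle 2)
      calc _ ≤ 1 * τ1 := mul_le_mul h5 (d1 2) (abs_nonneg _) zero_le_one
        _ = τ1 := one_mul _
    have r0 := d1 0
    refine md_num2 (m := |μ|) hτp hKD hK ?_ hD hkτ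
    generalize S.q (z0 + ρ * ζ) (T.pos (z0 + ρ * ζ) + τ1 • S.e 0) = q1 at *
    generalize S'.q (z0 + ρ * ζ) (T.pos (z0 + ρ * ζ) + τ1 • S.e 0) = q1' at *
    generalize S.q (z0 + ρ * ζ) (T.pos (z0 + ρ * ζ)) = q0 at *
    generalize S'.q (z0 + ρ * ζ) (T.pos (z0 + ρ * ζ)) = q0' at *
    generalize ev Dj (1 / K) ![ζ, 0, 0] = v1 at *
    generalize ev Dj 0 ![ζ, 0, 0] = v0 at *
    have e : μ * (q1 - q0) = (q1' - q0') - (v1 - v0) := by linarith
    have h5 : |μ| * (τ1 / 2) ≤ |μ * (q1 - q0)| := by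
      rw [abs_mul]
      exact mul_le_mul_of_nonneg_left (st.trans (le_abs_self _)) (abs_nonneg _)
    rw [e] at h5
    refine h5.trans ((abs_sub _ _).trans ?_)
    have h6 : |q1' - q0'| ≤ 4 * τ1 := by linarith
    exact add_le_add h6 hd
  -- size of the difference
  have vv : ∀ τ : ℝ, 0 ≤ τ → τ ≤ 1 →
      |S'.q (z0 + ρ * ζ) (T.pos (z0 + ρ * ζ) + τ • (p - T.pos (z0 + ρ * ζ))) -
        S'.q (z0 + ρ * ζ) (T.pos (z0 + ρ * ζ))| ≤ 12900 * (KD * K ^ 2 * η * S'.w 0) := by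
    intro τ t0 t1
    exact (vq' τ t0 t1).trans (md_num3 hKD0 hK0.le hη0 hkS.le hμ (abs_nonneg _) (vq τ t0 t1) hD hkw)
  set V := p - T.pos (z0 + ρ * ζ) with hV
  have dts : ∀ (i : Fin 3) (τ : ℝ), dt (S'.e i) (τ • V) = τ * dt (S'.e i) V := by
    intro i τ; simp only [dt, Pi.smul_apply, smul_eq_mul]; ring
  have small : ∀ (i : Fin 3) (τ κ' : ℝ), 0 ≤ τ → τ ≤ 1 → |dt (S'.e i) V| ≤ κ' → |dt (S'.e i) (τ • V)| ≤ κ' := by
    intro i τ κ' t0 t1 h
    rw [dts, abs_mul, abs_of_nonneg t0]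
    calc τ * |dt (S'.e i) V| ≤ 1 * |dt (S'.e i) V| := mul_le_mul_of_nonneg_right t1 (abs_nonneg _)
      _ ≤ κ' := by rw [one_mul]; exact h
  have hκ2X : κ2 ≤ 1 := by
    have hs := hXbig
    have a1 : K * δ ≤ KD * K ^ 2 * (B * lam) * (δ + κ) := by
      calc K * δ = 1 * K * 1 * δ := by ring
        _ ≤ (KD * K) * K * (B * lam) * (δ + κ) := by
            gcongr
            · exact one_le_mul_of_one_le_of_one_le hKD hK
            · linarith
        _ = _ := by ring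
    have a2 : κ * (B * lam) ≤ KD * K ^ 2 * (B * lam) * (δ + κ) := by
      calc κ * (B * lam) = 1 * (B * lam) * κ := by ring
        _ ≤ (KD * K ^ 2) * (B * lam) * (δ + κ) := by
            gcongr
            · exact one_le_mul_of_one_le_of_one_le hKD (one_le_pow₀ hK)
            · linarith
    rw [hκ2]; linarith
  have key : ∀ τ : ℝ, 0 ≤ τ → τ ≤ 1 → |dt (S'.e 0) (τ • V)| ≤ S'.w 0 →
      |dt (S'.e 0) (τ • V)| ≤ 4 * 10 ^ 7 * (KD * K ^ 2 * (B * lam) * (δ + κ)) * S'.w 0 := by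
    intro τ t0 t1 hbox
    have s1 := small 1 τ _ t0 t1 f1
    have s2 := small 2 τ _ t0 t1 f2
    have kx : InK S'.e S'.c (dbl3 S'.w) (z0 + ρ * ζ) (T.pos (z0 + ρ * ζ) + τ • V) := by
      intro i
      have h3 := (hT' _ hz hz').1 i
      have e : dt (S'.e i) (T.pos (z0 + ρ * ζ) + τ • V - S'.c.pos (z0 + ρ * ζ)) =
          dt (S'.e i) (T.pos (z0 + ρ * ζ) - S'.c.pos (z0 + ρ * ζ)) + dt (S'.e i) (τ • V) := by
        simp only [dt, Pi.add_apply, Pi.sub_apply]; ring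
      rw [e]
      change _ ≤ 2 * S'.w i
      have h4 : |dt (S'.e i) (τ • V)| ≤ S'.w i := by
        fin_cases i
        · exact hbox
        · refine s1.trans ?_
          calc κ2 * S'.w 1 ≤ 1 * S'.w 1 := mul_le_mul_of_nonneg_right hκ2X (P'.pos 1).le
            _ = _ := one_mul _
        · refine s2.trans ?_
          calc κ2 * S'.w 2 ≤ 1 * S'.w 2 := mul_le_mul_of_nonneg_right hκ2X (P'.pos 2).le
            _ = _ := one_mul _
      exact (abs_add_le _ _).trans (by linarith)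
    have pa := (P'.path hz hz' hTK' kx).2
    rw [add_sub_cancel_left] at pa
    have r1 : S'.w 0 / S'.w 1 * |dt (S'.e 1) (τ • V)| ≤ κ2 * S'.w 0 := by
      have hw1 := P'.pos 1
      calc _ ≤ S'.w 0 / S'.w 1 * (κ2 * S'.w 1) := mul_le_mul_of_nonneg_left s1 (by positivity)
        _ = κ2 * S'.w 0 := by field_simp
    have r2 : S'.w 0 / S'.w 2 * |dt (S'.e 2) (τ • V)| ≤ κ2 * S'.w 0 := by
      have hw2 := P'.pos 2
      calc _ ≤ S'.w 0 / S'.w 2 * (κ2 * S'.w 2) := mul_le_mul_of_nonneg_left s2 (by positivity)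
        _ = κ2 * S'.w 0 := by field_simp
    refine md_num4 (η := η) (κ2 := κ2) hKD hK hBl hδ hκ0 hw0'.le hηδ hκ2 (pa.trans ?_)
    have := vv τ t0 t1
    linarith
  have hX04 : 4 * 10 ^ 7 * (KD * K ^ 2 * (B * lam) * (δ + κ)) * S'.w 0 < S'.w 0 := by
    have : 4 * 10 ^ 7 * (KD * K ^ 2 * (B * lam) * (δ + κ)) < 1 := by linarith
    calc _ < 1 * S'.w 0 := mul_lt_mul_of_pos_right this hw0'
      _ = _ := one_mul _
  have main : |dt (S'.e 0) V| ≤ S'.w 0 := by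
    by_contra hc
    push Not at hc
    have hg : 0 < |dt (S'.e 0) V| := hw0'.trans hc
    have t0 : 0 ≤ S'.w 0 / |dt (S'.e 0) V| := by positivity
    have t1 : S'.w 0 / |dt (S'.e 0) V| ≤ 1 := by rw [div_le_one hg]; exact hc.le
    have e : |dt (S'.e 0) ((S'.w 0 / |dt (S'.e 0) V|) • V)| = S'.w 0 := by
      rw [dts, abs_mul, abs_of_nonneg t0]
      field_simp
    have := key _ t0 t1 e.le
    rw [e] at this
    linarith
  have k1 := key 1 zero_le_one le_rfl (by rw [one_smul]; exact main)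
  rw [one_smul] at k1
  refine ⟨k1, f1, f2, ?_⟩
  have v1 := vq' 1 zero_le_one le_rfl
  have epT : T.pos (z0 + ρ * ζ) + (1 : ℝ) • V = p := by
    rw [one_smul, hV]; exact add_sub_cancel _ _
  rw [epT] at v1
  have hqd : |S.q (z0 + ρ * ζ) p - S.q (z0 + ρ * ζ) (T.pos (z0 + ρ * ζ))| ≤ A + S.a :=
    (abs_sub _ _).trans (add_le_add hq hqT)
  have v2 : |μ| * |S.q (z0 + ρ * ζ) p - S.q (z0 + ρ * ζ) (T.pos (z0 + ρ * ζ))| ≤
      |μ| * (A + S.a) := mul_le_mul_of_nonneg_left hqd (abs_nonneg _)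
  have v3 := md_num5 hKD0 hK0.le hkS ha.le hA hμ hD hη hKDD hκ0
  have v4 := (hT' _ hz hz').2
  have v5 := abs_add_le (S'.q (z0 + ρ * ζ) p - S'.q (z0 + ρ * ζ) (T.pos (z0 + ρ * ζ)))
    (S'.q (z0 + ρ * ζ) (T.pos (z0 + ρ * ζ)))
  rw [sub_add_cancel] at v5
  linarith

end Crest.Agent.R136.Hul412
end

-- ▼ part R136/Hul2_412
section

/-!
# R136 (S0187), PLAN 2 (AL) (C): hull counts, curved sheets (helper412)

* `Par` : aligned pair with coefficient closeness `E`, both sheets with curvature `≥ 10^18 W^12 E`.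
* `mem_one`, `mem_two` : lines of a class reached in one / two steps lie in the fattened base sheet.
* `hull_one`, `hull_two` : the counts.
-/

set_option autoImplicit false
set_option linter.unusedVariables false

open Finset

namespace Crest.Agent.R136.Hul412

open Crest.Agent.R136.Sh605
open Crest.Agent.R136.Tl102
open Crest.Agent.R136.K4 (Plk4)
open Crest.Agent.R136.Deep51 (CoinC CloseC dt_exp abs_dt_exp abs_dt_unit)
open Crest.Agent.R136.Tlt51 (CompC Shp InP)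
open Crest.Agent.R136.KapP335
open Crest.Agent.R136.Pl2W102 (Near Ex2 Two1)
open Crest.Agent.R136.Phc248 (ph phC ph_ge_one)
open Crest.Agent.R136.Rf877 (Tub)

/-- dimensions of a sheet, `Near W` -/
def Dim (W a w1 w2 : ℝ) (S : Plk4) : Prop := Near W a S.a ∧ Near W w1 (S.w 1) ∧ Near W w2 (S.w 2)

/-- aligned pair `S`, `S'` through the line `T`, coefficients close up to `E`, curved -/
structure Par (W E w1 w2 : ℝ) (S S' : Plk4) (T : Ln4) (z0 ρ : ℝ) : Prop where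
  ang : angC S S' * w1 ≤ W * w2
  p : PolyC E S S' T z0 ρ
  k : 10 ^ 18 * W ^ 12 * E ≤ kapP S z0 ρ T

theorem compC_near {W a w1 w2 : ℝ} {S S' : Plk4} (hW : 1 ≤ W) (ha : 0 < a) (h1 : 0 < w1)
    (h2 : 0 < w2) (hS : Dim W a w1 w2 S) (hS' : Dim W a w1 w2 S') (hw1 : 0 ≤ S.w 1)
    (hang : angC S S' * w1 ≤ W * w2) : CompC (W ^ 2) (W ^ 3) S S' := by
  have W0 : 0 < W := by linarith
  have key : ∀ {x y z : ℝ}, Near W x y → Near W x z → y ≤ W ^ 2 * z := by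
    intro x y z h h'
    calc y ≤ W * x := h.2
      _ ≤ W * (W * z) := mul_le_mul_of_nonneg_left h'.1 W0.le
      _ = _ := by ring
  have ang0 : 0 ≤ angC S S' := angC_nonneg S S'
  refine compC_of ?_ ⟨key hS.1 hS'.1, key hS'.1 hS.1⟩ hw1 ?_
  · intro i hi
    fin_cases i
    · exact absurd rfl hi
    · exact ⟨key hS.2.1 hS'.2.1, key hS'.2.1 hS.2.1⟩
    · exact ⟨key hS.2.2 hS'.2.2, key hS'.2.2 hS.2.2⟩
  · calc angC S S' * S.w 1 ≤ angC S S' * (W * w1) := mul_le_mul_of_nonneg_left hS.2.1.2 ang0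
      _ = W * (angC S S' * w1) := by ring
      _ ≤ W * (W * w2) := mul_le_mul_of_nonneg_left hang W0.le
      _ = W ^ 2 * w2 := by ring
      _ ≤ W ^ 2 * (W * S.w 2) := mul_le_mul_of_nonneg_left hS.2.2.1 (by positivity)
      _ = _ := by ring





end Crest.Agent.R136.Hul412
end

-- ▼ part R136/Tc1_792
section

/-!
# R136 (S0187), PLAN 2, (AL) (C): hull count for a thick copy of a sheet, any thickness (helper792)

`thick_cover` : the lines of `P` within `w / 4` of `T` with `|q| ≤ b`, `S.a ≤ b ≤ w 0`; the sheet has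
the common dimensions up to `W`, `Two1` has the constant `B ≥ W`.
-/

set_option autoImplicit false
set_option linter.unusedVariables false

open Finset

namespace Crest.Agent.R136.Hc792

open Crest.Agent.R136.Sh605 Crest.Agent.R136.Fl808
open Crest.Agent.R136.K4 (Plk4)
open Crest.Agent.R136.Tlt51 (Shp InP)
open Crest.Agent.R136.Pl2W102 (Near Ex2 Two1)
open Crest.Agent.R136.Phc248

/-- **the scaled plank** with another thickness, centre in the `5/4`-box -/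
theorem shN_thick2 {e : Fin 3 → V3} {c c' : Ln4} {w : V3} {q : ℝ → V3 → ℝ} {z0 ρ a r0 lam b : ℝ}
    (h : ShN e c w q a z0 ρ r0) (hw : ∀ k, 0 < w k) (hl : 0 < lam) (hl2 : lam ≤ 3 / 8)
    (hr : r0 ≤ b) (hb : b ≤ lam * w 0)
    (hc : ∀ z, z0 ≤ z → z ≤ z0 + ρ → ∀ i, |dt (e i) (c'.pos z - c.pos z)| ≤ 5 / 4 * w i) :
    ShN e c' (fun k => lam * w k) q b z0 ρ r0 := by
  have hin : ∀ z, z0 ≤ z → z ≤ z0 + ρ → ∀ x, InK e c' (dbl3 (fun k => lam * w k)) z x →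
      InK e c (dbl3 w) z x := by
    intro z h1 h2 x hx i
    have e1 : dt (e i) (x - c.pos z) = dt (e i) (x - c'.pos z) + dt (e i) (c'.pos z - c.pos z) := by
      simp only [dt, Pi.sub_apply]; ring
    have h3 : |dt (e i) (x - c'.pos z)| ≤ 2 * (lam * w i) := hx i
    have h4 := hc z h1 h2 i
    have h5 : lam * w i ≤ 3 / 8 * w i := mul_le_mul_of_nonneg_right hl2 (hw i).le
    show |dt (e i) (x - c.pos z)| ≤ 2 * w i
    rw [e1]
    exact (abs_add_le _ _).trans (by linarith)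
  have hdiv : ∀ i, lam * w 0 / (lam * w i) = w 0 / w i := fun i =>
    mul_div_mul_left _ _ hl.ne'
  refine ⟨h.ortho, h.isQ, hb, ?_, ?_, hr, ?_, ?_, ?_⟩
  · exact mul_le_mul_of_nonneg_left h.w0_le hl.le
  · exact mul_le_mul_of_nonneg_left h.w_le hl.le
  · intro z h1 h2 x t ht k1 k2
    exact h.st0 z h1 h2 x t ht (hin z h1 h2 _ k1) (hin z h1 h2 _ k2)
  · intro z h1 h2 x t ht k1 k2
    have := h.sl1 z h1 h2 x t ht (hin z h1 h2 _ k1) (hin z h1 h2 _ k2)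
    simp only [hdiv]
    exact this
  · intro z h1 h2 x t ht k1 k2
    have := h.sl2 z h1 h2 x t ht (hin z h1 h2 _ k1) (hin z h1 h2 _ k2)
    simp only [hdiv]
    exact this

section
variable {qm qp : Fin 3 → ℝ} {L : ℕ → Ln4} {P : Finset ℕ} {cu cv : ℕ → ℕ} {Uf Vf : ℕ → Plk4}
  {W B M a w1 w2 z0 ρ r : ℝ}

open Classical in
/-- count of one small cell -/
theorem cell_card (h : Two1 qm qp L P cu cv Uf Vf B M a w1 w2 z0 ρ r)
    (hq : ∀ k, 0 ≤ qm k ∧ qm k ≤ qp k) (hW : 1 ≤ W) {S : Plk4} (hS : Shp S z0 ρ r)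
    (hd : Near W a S.a ∧ Near W w1 (S.w 1) ∧ Near W w2 (S.w 2)) {T : Ln4}
    {lam b : ℝ} (hl : 0 < lam) (hlW : 8 * lam * W * B ≤ 1) (hb : r ≤ b) (hbw : b ≤ lam * S.w 0)
    (hc : ∀ z, z0 ≤ z → z ≤ z0 + ρ → ∀ i, |dt (S.e i) (T.pos z - S.c.pos z)| ≤ 5 / 4 * S.w i)
    {Q : Finset ℕ} (hQ : Q ⊆ P)
    (hQ' : ∀ s ∈ Q, ∀ z, z0 ≤ z → z ≤ z0 + ρ →
      (∀ i, |dt (S.e i) ((L s).pos z - T.pos z)| ≤ lam * S.w i) ∧ |S.q z ((L s).pos z)| ≤ b) :
    (Q.card : ℝ) ≤ B * M * ph (qm 0) (qp 0) (b / a) := by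
  have B1 := h.W1
  have W0 : 0 < W := by linarith
  have B0 : 0 < B := by linarith
  have WB : 1 ≤ W * B := by nlinarith
  have hlWB : lam * (W * B) ≤ 1 / 8 := by linarith
  have hl8 : lam ≤ 1 / 8 := by nlinarith
  have hlW1 : lam * W ≤ 1 := by nlinarith [mul_pos hl W0]
  have hSw0 : 0 < S.w 0 := by
    have := hS.a_le0
    have h2 := hS.r0_le
    linarith [h.r0]
  have hSw2 : 0 < S.w 2 := hSw0.trans_le hS.w0_le
  have hSw1 : 0 < S.w 1 := hSw2.trans_le hS.w_le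
  have hw : ∀ k, 0 < S.w k := by
    intro k
    fin_cases k
    · exact hSw0
    · exact hSw1
    · exact hSw2
  have hleg : ShN S.e T (fun k => lam * S.w k) S.q b z0 ρ r :=
    shN_thick2 hS hw hl (by linarith) hb hbw hc
  have hwρ : lam * S.w 1 ≤ ρ := by
    have h1 : S.w 1 ≤ W * w1 := hd.2.1.2
    have h2 := h.w1ρ
    have h3 : S.w 1 ≤ (W * B) * ρ := by
      calc S.w 1 ≤ W * w1 := h1
        _ ≤ W * (B * ρ) := mul_le_mul_of_nonneg_left h2 W0.le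
        _ = (W * B) * ρ := by ring
    calc lam * S.w 1 ≤ lam * ((W * B) * ρ) := mul_le_mul_of_nonneg_left h3 hl.le
      _ = (lam * (W * B)) * ρ := by ring
      _ ≤ 1 * ρ := mul_le_mul_of_nonneg_right (by linarith) h.ρ0.le
      _ = ρ := one_mul _
  have hdm := h.dmax ⟨S.j, S.e, T, fun k => lam * S.w k, S.q, b⟩ hleg hwρ
  have hsub : Q ⊆ P.filter fun t => InP (L t) ⟨S.j, S.e, T, fun k => lam * S.w k, S.q, b⟩ z0 ρ := by
    intro s hs
    rw [Finset.mem_filter]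
    refine ⟨hQ hs, fun z h1 h2 => ?_⟩
    obtain ⟨k1, k2⟩ := hQ' s hs z h1 h2
    exact ⟨fun i => k1 i, k2⟩
  have hc1 : (Q.card : ℝ) ≤ _ := (Nat.cast_le.2 (Finset.card_le_card hsub)).trans hdm
  refine hc1.trans ?_
  have hb0 : 0 < b := h.r0.trans_le hb
  have f1 : ph (qm 1) (qp 1) (lam * S.w 1 / w1) ≤ 1 := by
    refine (ph_le_narrow (hq 1).1 (hq 1).2 (by have := h.w10; positivity) ?_ le_rfl).trans
      (le_of_eq (Real.one_rpow _))
    rw [div_le_one h.w10]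
    have h1 : S.w 1 ≤ W * w1 := hd.2.1.2
    calc lam * S.w 1 ≤ lam * (W * w1) := mul_le_mul_of_nonneg_left h1 hl.le
      _ = (lam * W) * w1 := by ring
      _ ≤ 1 * w1 := mul_le_mul_of_nonneg_right hlW1 h.w10.le
      _ = w1 := one_mul _
  have f2 : ph (qm 2) (qp 2) (lam * S.w 2 / w2) ≤ 1 := by
    refine (ph_le_narrow (hq 2).1 (hq 2).2 (by have := h.w20; positivity) ?_ le_rfl).trans
      (le_of_eq (Real.one_rpow _))
    rw [div_le_one h.w20]
    have h1 : S.w 2 ≤ W * w2 := hd.2.2.2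
    calc lam * S.w 2 ≤ lam * (W * w2) := mul_le_mul_of_nonneg_left h1 hl.le
      _ = (lam * W) * w2 := by ring
      _ ≤ 1 * w2 := mul_le_mul_of_nonneg_right hlW1 h.w20.le
      _ = w2 := one_mul _
  have g0 : 0 ≤ ph (qm 0) (qp 0) (b / a) := ph_nonneg (div_nonneg hb0.le h.a0.le)
  have g1 : 0 ≤ ph (qm 1) (qp 1) (lam * S.w 1 / w1) := ph_nonneg (by have := h.w10; positivity)
  have g2 : 0 ≤ ph (qm 2) (qp 2) (lam * S.w 2 / w2) := ph_nonneg (by have := h.w20; positivity)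
  have hprod : phC qm qp a w1 w2 b (lam * S.w 1) (lam * S.w 2) ≤ ph (qm 0) (qp 0) (b / a) := by
    unfold phC
    calc _ ≤ ph (qm 0) (qp 0) (b / a) * 1 * 1 :=
          mul_le_mul (mul_le_mul_of_nonneg_left f1 g0) f2 g2 (by positivity)
      _ = _ := by ring
  exact mul_le_mul_of_nonneg_left hprod (mul_nonneg B0.le h.M0.le)

open Classical in
/-- **thin case** : cover by cells of size `1 / (8 W B)` -/
theorem cover_thin (h : Two1 qm qp L P cu cv Uf Vf B M a w1 w2 z0 ρ r)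
    (hq : ∀ k, 0 ≤ qm k ∧ qm k ≤ qp k) (hW : 1 ≤ W) {S : Plk4} (hS : Shp S z0 ρ r)
    (hd : Near W a S.a ∧ Near W w1 (S.w 1) ∧ Near W w2 (S.w 2)) {T : Ln4} (hT : InP T S z0 ρ)
    {lam b : ℝ} (hl : lam ≤ 1 / 4) (hb : r ≤ b) (hbw : 8 * W * B * b ≤ S.w 0)
    {Q : Finset ℕ} (hQ : Q ⊆ P)
    (hQ' : ∀ s ∈ Q, ∀ z, z0 ≤ z → z ≤ z0 + ρ →
      (∀ i, |dt (S.e i) ((L s).pos z - T.pos z)| ≤ lam * S.w i) ∧ |S.q z ((L s).pos z)| ≤ b) :
    (Q.card : ℝ) ≤ (7 * (W * B)) ^ 6 * (B * M * ph (qm 0) (qp 0) (b / a)) := by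
  have B1 := h.W1
  have W0 : 0 < W := by linarith
  have B0 : 0 < B := by linarith
  have WB : 1 ≤ W * B := by nlinarith
  have WB0 : 0 < W * B := by positivity
  have hb0 : 0 < b := h.r0.trans_le hb
  have hSw0 : 0 < S.w 0 := by
    have := hS.a_le0
    have h2 := hS.r0_le
    linarith [h.r0]
  have hSw2 : 0 < S.w 2 := hSw0.trans_le hS.w0_le
  have hSw1 : 0 < S.w 1 := hSw2.trans_le hS.w_le
  have hw : ∀ k, 0 < S.w k := by
    intro k
    fin_cases k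
    · exact hSw0
    · exact hSw1
    · exact hSw2
  set d : ℝ := 1 / (8 * (W * B)) with hd'
  have hd0 : 0 < d := by positivity
  have hd1 : d * (8 * (W * B)) = 1 := by rw [hd']; field_simp
  obtain ⟨m, hm1, hm2⟩ : ∃ m : ℕ, 2 * (W * B) ≤ m ∧ (m : ℝ) ≤ 3 * (W * B) := by
    refine ⟨⌈2 * (W * B)⌉₊, Nat.le_ceil _, ?_⟩
    have := (Nat.ceil_lt_add_one (show 0 ≤ 2 * (W * B) by positivity)).le
    linarith
  set K : ℝ := B * M * ph (qm 0) (qp 0) (b / a) with hK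
  have K0 : 0 ≤ K := by
    have := h.M0
    have := ph_nonneg (m := qm 0) (p := qp 0) (div_nonneg hb0.le h.a0.le)
    positivity
  let x : V3 := fun i => d * S.w i
  have hx : ∀ i, 0 < x i := fun i => mul_pos hd0 (hw i)
  have hmx : ∀ i, lam * S.w i ≤ m * x i := by
    intro i
    have h1 : lam ≤ m * d := by
      have : 2 * (W * B) * d ≤ m * d := mul_le_mul_of_nonneg_right hm1 hd0.le
      nlinarith
    have := mul_le_mul_of_nonneg_right h1 (hw i).le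
    show lam * S.w i ≤ m * (d * S.w i)
    linarith
  let cd : ℕ → (Fin 3 → ℤ) × (Fin 3 → ℤ) := fun s =>
    (fun i => cdx S.e x T (L s) z0 i, fun i => cdx S.e x T (L s) (z0 + ρ) i)
  have hfib : ∀ c ∈ Q.image cd, ((Q.filter fun s => cd s = c).card : ℕ) ≤ ⌊K⌋₊ := by
    intro c hc
    obtain ⟨s0, hs0, rfl⟩ := Finset.mem_image.1 hc
    refine Nat.le_floor ?_
    refine cell_card h hq hW hS hd (T := L s0) (lam := d) (b := b) hd0 ?_ hb ?_ ?_
      ((Finset.filter_subset _ _).trans hQ) ?_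
    · calc 8 * d * W * B = d * (8 * (W * B)) := by ring
        _ = 1 := hd1
        _ ≤ 1 := le_rfl
    · rw [hd', div_mul_eq_mul_div, one_mul, le_div_iff₀ (by positivity)]
      linarith
    · intro z h1 h2 i
      have k1 := (hQ' s0 hs0 z h1 h2).1 i
      have k2 := (hT z h1 h2).1 i
      have e1 : dt (S.e i) ((L s0).pos z - S.c.pos z) =
          dt (S.e i) ((L s0).pos z - T.pos z) + dt (S.e i) (T.pos z - S.c.pos z) := by
        simp only [dt, Pi.sub_apply]; ring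
      rw [e1]
      have k3 : lam * S.w i ≤ 1 / 4 * S.w i := mul_le_mul_of_nonneg_right hl (hw i).le
      exact (abs_add_le _ _).trans (by linarith)
    · intro s hs z h1 h2
      obtain ⟨hs1, hs2⟩ := Finset.mem_filter.1 hs
      refine ⟨fun i => ?_, (hQ' s hs1 z h1 h2).2⟩
      have k1 := congrFun (congrArg Prod.fst hs2) i
      have k2 := congrFun (congrArg Prod.snd hs2) i
      exact seg_le (cdx_close (hx i) k1) (cdx_close (hx i) k2) h1 h2
  have him : (Q.image cd).card ≤ (2 * m + 1) ^ 6 := by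
    have hsub : Q.image cd ⊆ (Fintype.piFinset fun _ : Fin 3 => Finset.Icc (-(m : ℤ)) (m : ℤ)) ×ˢ
        (Fintype.piFinset fun _ : Fin 3 => Finset.Icc (-(m : ℤ)) (m : ℤ)) := by
      intro c hc
      obtain ⟨s, hs, rfl⟩ := Finset.mem_image.1 hc
      rw [Finset.mem_product, Fintype.mem_piFinset, Fintype.mem_piFinset]
      have hρ := h.ρ0
      exact ⟨fun i => cdx_mem (hx i)
          (((hQ' s hs z0 le_rfl (by linarith)).1 i).trans (hmx i)),
        fun i => cdx_mem (hx i)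
          (((hQ' s hs (z0 + ρ) (by linarith) le_rfl).1 i).trans (hmx i))⟩
    refine (Finset.card_le_card hsub).trans (le_of_eq ?_)
    rw [Finset.card_product, Fintype.card_piFinset]
    simp only [Int.card_Icc, Finset.prod_const, Finset.card_univ, Fintype.card_fin]
    have : ((m : ℤ) + 1 - -(m : ℤ)).toNat = 2 * m + 1 := by omega
    rw [this]; ring
  have h1 := Finset.card_le_mul_card_image Q ⌊K⌋₊ hfib
  have h2 : (Q.card : ℝ) ≤ (⌊K⌋₊ : ℝ) * ((Q.image cd).card : ℝ) := by exact_mod_cast h1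
  have h3 : ((Q.image cd).card : ℝ) ≤ (2 * m + 1) ^ 6 := by exact_mod_cast him
  have h4 : (2 * (m:ℝ) + 1) ^ 6 ≤ (7 * (W * B)) ^ 6 := by
    apply pow_le_pow_left₀ (by positivity)
    linarith
  calc (Q.card : ℝ) ≤ (⌊K⌋₊ : ℝ) * ((Q.image cd).card : ℝ) := h2
    _ ≤ K * (2 * m + 1) ^ 6 := mul_le_mul (Nat.floor_le K0) h3 (Nat.cast_nonneg _) K0
    _ ≤ K * (7 * (W * B)) ^ 6 := mul_le_mul_of_nonneg_left h4 K0
    _ = _ := by ring

open Classical in
/-- **fat case** : the plain box of the sheet -/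
theorem cover_fat (h : Two1 qm qp L P cu cv Uf Vf B M a w1 w2 z0 ρ r) (hr : r ≤ ρ)
    (hq : ∀ k, 0 ≤ qm k ∧ qm k ≤ qp k) (hW : 1 ≤ W) {S : Plk4} (hS : Shp S z0 ρ r)
    (hd : Near W a S.a ∧ Near W w1 (S.w 1) ∧ Near W w2 (S.w 2)) {T : Ln4}
    {lam b : ℝ} (hl : lam ≤ 1 / 4) (hb : S.a ≤ b) (hb2 : b ≤ S.w 0)
    (hbw : S.w 0 ≤ 8 * W * B * b) {Q : Finset ℕ} (hQ : Q ⊆ P)
    (hQ' : ∀ s ∈ Q, ∀ z, z0 ≤ z → z ≤ z0 + ρ →
      (∀ i, |dt (S.e i) ((L s).pos z - T.pos z)| ≤ lam * S.w i) ∧ |S.q z ((L s).pos z)| ≤ b) :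
    (Q.card : ℝ) ≤ (2 * B * (8 * W ^ 4 * B)) ^ (22 + qp 0 + qp 1 + qp 2) * M *
      ((8 * W * B * b / a) ^ (1 + qp 0) * (8 * W ^ 2 * B) ^ (1 + qp 2)) := by
  have B1 := h.W1
  have W0 : 0 < W := by linarith
  have B0 : 0 < B := by linarith
  have WB : 1 ≤ W * B := by nlinarith
  have W2 : 1 ≤ W ^ 2 := one_le_pow₀ hW
  have W4 : 1 ≤ W ^ 4 := one_le_pow₀ hW
  have hSw0 : 0 < S.w 0 := by
    have := hS.a_le0
    have h2 := hS.r0_le
    linarith [h.r0]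
  have hSw2 : 0 < S.w 2 := hSw0.trans_le hS.w0_le
  have hSw1 : 0 < S.w 1 := hSw2.trans_le hS.w_le
  have hw1 := h.w10
  have hw2 := h.w20
  have ha := h.a0
  have n1 : S.w 1 ≤ W * w1 := hd.2.1.2
  have n2 : S.w 2 ≤ W * w2 := hd.2.2.2
  have n2' : w2 ≤ W * S.w 2 := hd.2.2.1
  have n0 : a ≤ W * S.a := hd.1.1
  have hb0 : 0 < b := h.r0.trans_le (hS.r0_le.trans hb)
  have k1 : 1 ≤ 8 * W ^ 4 * B := by nlinarith
  have g0 : a ≤ 8 * W * B * b := by
    calc a ≤ W * S.a := n0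
      _ ≤ W * b := mul_le_mul_of_nonneg_left hb W0.le
      _ = 1 * (W * b) := (one_mul _).symm
      _ ≤ (8 * B) * (W * b) := mul_le_mul_of_nonneg_right (by linarith) (by positivity)
      _ = _ := by ring
  have g1 : w2 ≤ 8 * W ^ 2 * B * w2 := by
    have : 1 ≤ 8 * W ^ 2 * B := by nlinarith
    nlinarith
  have g2 : 8 * W * B * b ≤ 8 * W ^ 2 * B * w2 := by
    calc 8 * W * B * b ≤ 8 * W * B * (W * w2) :=
          mul_le_mul_of_nonneg_left (hb2.trans (hS.w0_le.trans n2)) (by positivity)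
      _ = _ := by ring
  have g3 : 8 * W ^ 2 * B * w2 ≤ 8 * W ^ 4 * B * w1 := by
    have h1 : w2 ≤ W ^ 2 * w1 := by
      calc w2 ≤ W * S.w 2 := n2'
        _ ≤ W * (W * w1) := mul_le_mul_of_nonneg_left (hS.w_le.trans n1) W0.le
        _ = _ := by ring
    calc 8 * W ^ 2 * B * w2 ≤ 8 * W ^ 2 * B * (W ^ 2 * w1) :=
          mul_le_mul_of_nonneg_left h1 (by positivity)
      _ = _ := by ring
  have hc := Pl2H417.hull_card hq h hr k1 T S.e (8 * W * B * b) (8 * W ^ 2 * B * w2) hS.ortho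
    g0 g1 g2 g3
  have hsub : Q ⊆ P.filter fun t => InB (L t) T S.e
      ![8 * W * B * b, 8 * W ^ 4 * B * w1, 8 * W ^ 2 * B * w2] z0 ρ := by
    intro s hs
    refine Finset.mem_filter.2 ⟨hQ hs, fun z hz hz' i => ?_⟩
    have hi := (hQ' s hs z hz hz').1 i
    fin_cases i
    · refine hi.trans ?_
      show lam * S.w 0 ≤ 8 * W * B * b
      nlinarith
    · refine hi.trans ?_
      show lam * S.w 1 ≤ 8 * W ^ 4 * B * w1
      have e1 : lam * S.w 1 ≤ S.w 1 := by nlinarith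
      have e2 : W * w1 ≤ 8 * W ^ 4 * B * w1 := by
        have e3 : W ≤ 8 * W ^ 4 * B := by
          have : W ^ 1 ≤ W ^ 4 := pow_le_pow_right₀ hW (by norm_num)
          nlinarith
        exact mul_le_mul_of_nonneg_right e3 hw1.le
      linarith
    · refine hi.trans ?_
      show lam * S.w 2 ≤ 8 * W ^ 2 * B * w2
      have e1 : lam * S.w 2 ≤ S.w 2 := by nlinarith
      have e2 : W * w2 ≤ 8 * W ^ 2 * B * w2 := by
        have e3 : W ≤ 8 * W ^ 2 * B := by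
          have : W ^ 1 ≤ W ^ 2 := pow_le_pow_right₀ hW (by norm_num)
          nlinarith
        exact mul_le_mul_of_nonneg_right e3 hw2.le
      linarith
  refine (Nat.cast_le.2 (Finset.card_le_card hsub)).trans (hc.trans (le_of_eq ?_))
  rw [mul_div_assoc (8 * W ^ 2 * B) w2 w2, div_self hw2.ne', mul_one]

open Classical in
/-- **hull count for a thick copy of a sheet, any thickness** -/
theorem thick_cover (h : Two1 qm qp L P cu cv Uf Vf B M a w1 w2 z0 ρ r) (hr : r ≤ ρ)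
    (hq : ∀ k, 0 ≤ qm k ∧ qm k ≤ qp k) (hW : 1 ≤ W) (hWB : W ≤ B) {S : Plk4}
    (hS : Shp S z0 ρ r) (hd : Near W a S.a ∧ Near W w1 (S.w 1) ∧ Near W w2 (S.w 2)) {T : Ln4}
    (hT : InP T S z0 ρ) {lam b : ℝ} (hl : lam ≤ 1 / 4) (hb : S.a ≤ b) (hb2 : b ≤ S.w 0)
    {Q : Finset ℕ} (hQ : Q ⊆ P)
    (hQ' : ∀ s ∈ Q, ∀ z, z0 ≤ z → z ≤ z0 + ρ →
      (∀ i, |dt (S.e i) ((L s).pos z - T.pos z)| ≤ lam * S.w i) ∧ |S.q z ((L s).pos z)| ≤ b) :
    (Q.card : ℝ) ≤ (64 * B) ^ (13 + 6 * (22 + qp 0 + qp 1 + qp 2) + 2 * (1 + qp 0) +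
      3 * (1 + qp 2)) * M * ph (qm 0) (qp 0) (b / a) := by
  have B1 := h.W1
  have W0 : 0 < W := by linarith
  have B0 : 0 < B := by linarith
  have ha := h.a0
  have hM := h.M0
  have hb0 : 0 < b := h.r0.trans_le (hS.r0_le.trans hb)
  have q0 : 0 ≤ qp 0 := (hq 0).1.trans (hq 0).2
  have q1 : 0 ≤ qp 1 := (hq 1).1.trans (hq 1).2
  have q2 : 0 ≤ qp 2 := (hq 2).1.trans (hq 2).2
  set X := 64 * B with hX
  have X1 : 1 ≤ X := by linarith
  have X0 : 0 < X := by linarith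
  have BX : B ≤ X := by linarith
  have hph : 0 ≤ ph (qm 0) (qp 0) (b / a) := ph_nonneg (div_nonneg hb0.le ha.le)
  have BB : B * B ≤ X * X := mul_le_mul BX BX B0.le X0.le
  have WB2 : W * B ≤ B * B := mul_le_mul_of_nonneg_right hWB B0.le
  rcases le_total (8 * W * B * b) (S.w 0) with hc | hc
  · refine (cover_thin h hq hW hS hd hT hl (hS.r0_le.trans hb) hc hQ hQ').trans ?_
    have e1 : 7 * (W * B) ≤ X ^ 2 := by
      have : X ^ 2 = 4096 * (B * B) := by rw [hX]; ring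
      rw [this]; nlinarith [mul_pos B0 B0]
    have e2 : (7 * (W * B)) ^ 6 * B ≤ X ^ (13:ℝ) := by
      have e3 : X ^ (13:ℝ) = (X ^ 2) ^ 6 * X := by
        have : X ^ (13:ℝ) = X ^ (13:ℕ) := by norm_cast
        rw [this]; ring
      rw [e3]
      exact mul_le_mul (pow_le_pow_left₀ (by positivity) e1 6) BX B0.le (by positivity)
    calc (7 * (W * B)) ^ 6 * (B * M * ph (qm 0) (qp 0) (b / a))
        = ((7 * (W * B)) ^ 6 * B) * (M * ph (qm 0) (qp 0) (b / a)) := by ring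
      _ ≤ X ^ (13:ℝ) * (M * ph (qm 0) (qp 0) (b / a)) :=
          mul_le_mul_of_nonneg_right e2 (by positivity)
      _ ≤ X ^ (13 + 6 * (22 + qp 0 + qp 1 + qp 2) + 2 * (1 + qp 0) + 3 * (1 + qp 2)) *
          (M * ph (qm 0) (qp 0) (b / a)) :=
          mul_le_mul_of_nonneg_right (Real.rpow_le_rpow_of_exponent_le X1 (by linarith))
            (by positivity)
      _ = _ := by ring
  · refine (cover_fat h hr hq hW hS hd hl hb hb2 hc hQ hQ').trans ?_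
    have p6 : X ^ (6:ℝ) = X ^ 6 := by norm_cast
    have p2 : X ^ (2:ℝ) = X ^ 2 := by norm_cast
    have p3 : X ^ (3:ℝ) = X ^ 3 := by norm_cast
    have W4 : W ^ 4 ≤ B ^ 4 := pow_le_pow_left₀ W0.le hWB 4
    have W2 : W ^ 2 ≤ B ^ 2 := pow_le_pow_left₀ W0.le hWB 2
    have f1 : 2 * B * (8 * W ^ 4 * B) ≤ X ^ (6:ℝ) := by
      rw [p6]
      calc 2 * B * (8 * W ^ 4 * B) = 16 * W ^ 4 * B ^ 2 := by ring
        _ ≤ 16 * B ^ 4 * B ^ 2 := by gcongr
        _ = 16 * B ^ 6 := by ring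
        _ ≤ 64 ^ 6 * B ^ 6 := by gcongr; norm_num
        _ = X ^ 6 := by rw [hX]; ring
    have f2 : 8 * W * B ≤ X ^ (2:ℝ) := by
      rw [p2]
      calc 8 * W * B = 8 * (W * B) := by ring
        _ ≤ 8 * (B * B) := by linarith
        _ ≤ 64 ^ 2 * (B * B) := by nlinarith [mul_pos B0 B0]
        _ = X ^ 2 := by rw [hX]; ring
    have f3 : 8 * W ^ 2 * B ≤ X ^ (3:ℝ) := by
      rw [p3]
      calc 8 * W ^ 2 * B ≤ 8 * B ^ 2 * B := by gcongr
        _ = 8 * B ^ 3 := by ring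
        _ ≤ 64 ^ 3 * B ^ 3 := by gcongr; norm_num
        _ = X ^ 3 := by rw [hX]; ring
    have e5 : 8 * W * B * b / a = 8 * W * B * (b / a) := by ring
    have hba : 0 ≤ b / a := div_nonneg hb0.le ha.le
    have g1 : (2 * B * (8 * W ^ 4 * B)) ^ (22 + qp 0 + qp 1 + qp 2) ≤
        X ^ (6 * (22 + qp 0 + qp 1 + qp 2)) := by
      rw [Real.rpow_mul X0.le]
      exact Real.rpow_le_rpow (by positivity) f1 (by linarith)
    have g2 : (8 * W * B * b / a) ^ (1 + qp 0) ≤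
        X ^ (2 * (1 + qp 0)) * ph (qm 0) (qp 0) (b / a) := by
      rw [e5, Real.mul_rpow (by positivity) hba, Real.rpow_mul X0.le]
      exact mul_le_mul (Real.rpow_le_rpow (by positivity) f2 (by linarith)) (ph_ge_p _ _ _)
        (by positivity) (by positivity)
    have g3 : (8 * W ^ 2 * B) ^ (1 + qp 2) ≤ X ^ (3 * (1 + qp 2)) := by
      rw [Real.rpow_mul X0.le]
      exact Real.rpow_le_rpow (by positivity) f3 (by linarith)
    calc (2 * B * (8 * W ^ 4 * B)) ^ (22 + qp 0 + qp 1 + qp 2) * M *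
          ((8 * W * B * b / a) ^ (1 + qp 0) * (8 * W ^ 2 * B) ^ (1 + qp 2))
        ≤ X ^ (6 * (22 + qp 0 + qp 1 + qp 2)) * M *
          ((X ^ (2 * (1 + qp 0)) * ph (qm 0) (qp 0) (b / a)) * X ^ (3 * (1 + qp 2))) := by
          refine mul_le_mul (mul_le_mul_of_nonneg_right g1 hM.le)
            (mul_le_mul g2 g3 (by positivity) (by positivity)) (by positivity) (by positivity)
      _ = X ^ (6 * (22 + qp 0 + qp 1 + qp 2)) * X ^ (2 * (1 + qp 0)) * X ^ (3 * (1 + qp 2)) *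
          (M * ph (qm 0) (qp 0) (b / a)) := by ring
      _ = X ^ (6 * (22 + qp 0 + qp 1 + qp 2) + 2 * (1 + qp 0) + 3 * (1 + qp 2)) *
          (M * ph (qm 0) (qp 0) (b / a)) := by
          rw [← Real.rpow_add X0, ← Real.rpow_add X0]
      _ ≤ X ^ (13 + 6 * (22 + qp 0 + qp 1 + qp 2) + 2 * (1 + qp 0) + 3 * (1 + qp 2)) *
          (M * ph (qm 0) (qp 0) (b / a)) :=
          mul_le_mul_of_nonneg_right (Real.rpow_le_rpow_of_exponent_le X1 (by linarith))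
            (by positivity)
      _ = _ := by ring

end

end Crest.Agent.R136.Hc792
end

-- ▼ part R136/Hul4_412
section

/-!
# R136 (S0187), PLAN 2 (AL) (B), `LeafHull` (helper412)

`hop` : one step in normalised units, `Ctx` : numbers, `leafHull`.
-/

set_option autoImplicit false
set_option linter.unusedVariables false

open Finset

namespace Crest.Agent.R136.Hul412

open Crest.Agent.R136.Sh605
open Crest.Agent.R136.Tl102
open Crest.Agent.R136.K4 (Plk4)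
open Crest.Agent.R136.Deep51 (CloseC)
open Crest.Agent.R136.Tlt51 (CompC Shp InP)
open Crest.Agent.R136.KapP335 (kapP)
open Crest.Agent.R136.Adj214 (KD KD_pos KD_one)
open Crest.Agent.R136.Pl2W102 (Near Ex2 Two1)
open Crest.Agent.R136.Phc248 (ph phC ph_ge_one)
open Crest.Agent.R136.Rf877 (Tub)
open Crest.Agent.R136.Al500 (Dm Cl2 Cf LeafHull)

/-- data of one pair of sheets at a common line -/
structure HP (W a w1 w2 E z0 ρ r : ℝ) (S S' : Plk4) (T : Ln4) : Prop where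
  hS : Shp S z0 ρ r
  hS' : Shp S' z0 ρ r
  dS : Dm W a w1 w2 S
  dS' : Dm W a w1 w2 S'
  ang : angC S' S * w1 ≤ W * w2
  hT : InP T S z0 ρ
  hT' : InP T S' z0 ρ
  cl : CloseC S.e S.w S.q S.a S'.q (2 * E * a) T z0 ρ
  kE : E * a ≤ W * kapP S z0 ρ T
  kk : kapP S z0 ρ T ≤ W * kapP S' z0 ρ T

/-- **one step**, normalised: `A = α E a ε`, `κ = β ε`, `1 ≤ E ε` -/
theorem hop {W a w1 w2 E z0 ρ r ε α β : ℝ} {S S' : Plk4} {T : Ln4} (hr : 0 < r) (hρ : 0 < ρ)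
    (hW : 1 ≤ W) (ha : 0 < a) (h1 : 0 < w1) (h2 : 0 < w2) (h : HP W a w1 w2 E z0 ρ r S S' T)
    (hE : 1 ≤ E) (hε : 0 < ε) (hEε : 1 ≤ E * ε) (hα : W ≤ α) (hβ : 0 ≤ β)
    (hsm : 10 ^ 8 * (KD * W ^ 7 * (α * W + β)) * ε ≤ 1) (h6 : 10 ^ 6 * W ^ 2 ≤ E) {z : ℝ}
    (hz : z0 ≤ z) (hz' : z ≤ z0 + ρ) {p : V3} (hp : InK S.e S.c (dbl3 S.w) z p)
    (hq : |S.q z p| ≤ α * (E * a) * ε)
    (k1 : |dt (S.e 1) (p - T.pos z)| ≤ β * ε * S.w 1)
    (k2 : |dt (S.e 2) (p - T.pos z)| ≤ β * ε * S.w 2) :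
    |dt (S'.e 0) (p - T.pos z)| ≤ 4 * 10 ^ 7 * (KD * W ^ 7 * (α * W + β)) * ε * S'.w 0 ∧
      |dt (S'.e 1) (p - T.pos z)| ≤ (52 * (α * W ^ 2) + 6 * (β * W ^ 5)) * ε * S'.w 1 ∧
      |dt (S'.e 2) (p - T.pos z)| ≤ (52 * (α * W ^ 2) + 6 * (β * W ^ 5)) * ε * S'.w 2 ∧
      |S'.q z p| ≤ (W + 50000 * KD * W * α + 30000 * KD * β) * (E * a) * ε := by
  have W0 : 0 < W := by linarith
  have hE0 : 0 < E := by linarith
  have hEa : 0 < E * a := mul_pos hE0 ha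
  have hα0 : 0 ≤ α := by linarith
  have hKD := KD_one
  have hS := h.hS
  have hS' := h.hS'
  have hwp' : 0 < S'.w 0 := hr.trans_le (hS'.r0_le.trans hS'.a_le0)
  have hw1' : 0 ≤ S'.w 1 := (hwp'.le.trans hS'.w0_le).trans hS'.w_le
  have hC : CompC (W ^ 2) (W ^ 3) S' S := compC_near hW ha h1 h2 h.dS' h.dS hw1' h.ang
  have aEε : a ≤ (E * a) * ε := by
    calc a = 1 * a := by ring
      _ ≤ (E * ε) * a := mul_le_mul_of_nonneg_right hEε ha.le
      _ = _ := by ring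
  have hSa : S.a ≤ W * a := h.dS.1.2
  have hSa' : S'.a ≤ W * a := h.dS'.1.2
  have hka : 10 ^ 6 * S.a ≤ kapP S z0 ρ T := by
    have e1 : W * (10 ^ 6 * S.a) ≤ W * kapP S z0 ρ T := by
      calc W * (10 ^ 6 * S.a) ≤ W * (10 ^ 6 * (W * a)) := by gcongr
        _ = 10 ^ 6 * W ^ 2 * a := by ring
        _ ≤ E * a := mul_le_mul_of_nonneg_right h6 ha.le
        _ ≤ _ := h.kE
    exact le_of_mul_le_mul_left e1 W0
  have hk13 := kapP_le hr hρ.le hS' h.hT'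
  have hkw : kapP S z0 ρ T ≤ 13 * W * S'.w 0 := by
    have := mul_le_mul_of_nonneg_left hk13 W0.le
    linarith [h.kk]
  have hA : S.a ≤ α * (E * a) * ε := by
    calc S.a ≤ W * a := hSa
      _ ≤ α * ((E * a) * ε) := mul_le_mul hα aEε ha.le hα0
      _ = _ := by ring
  have hAδ : α * (E * a) * ε ≤ α * W * ε * kapP S z0 ρ T := by
    have := mul_le_mul_of_nonneg_left h.kE (mul_nonneg hα0 hε.le)
    linarith
  have hD : 2 * E * a ≤ 2 * W * kapP S z0 ρ T := by linarith [h.kE]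
  have hδ : 0 ≤ α * W * ε := by positivity
  have hκ : 0 ≤ β * ε := by positivity
  have e5 : KD * W ^ 2 * (W ^ 2 * W ^ 3) * (α * W * ε + β * ε) =
      (KD * W ^ 7 * (α * W + β)) * ε := by ring
  obtain ⟨g0, g1, g2, g3⟩ := mem_div hr hρ hS hS' (one_le_pow₀ hW) (one_le_pow₀ hW) hW hC h.hT h.hT'
    h.cl hka hD hkw hA hδ hAδ hκ (by rw [e5]; linarith) hz hz' hp hq k1 k2
  rw [e5] at g0
  refine ⟨g0.trans (le_of_eq (by ring)), g1.trans (le_of_eq (by ring)),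
    g2.trans (le_of_eq (by ring)), g3.trans ?_⟩
  have e6 : W * a ≤ W * ((E * a) * ε) := mul_le_mul_of_nonneg_left aEε W0.le
  have e7 : (W + 50000 * KD * W * α + 30000 * KD * β) * (E * a) * ε =
      W * ((E * a) * ε) + 50000 * (KD * W) * (α * (E * a) * ε) +
        15000 * KD * (β * ε) * (2 * E * a) := by ring
  rw [e7]
  linarith

/-! ### numbers -/

section num
variable {W ε : ℝ}

theorem mono_le (hW : 1 ≤ W) (i j : ℕ) (hi : i ≤ 2) (hj : j ≤ 12) :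
    KD ^ i * W ^ j ≤ KD ^ 2 * W ^ 12 :=
  mul_le_mul (pow_le_pow_right₀ KD_one hi) (pow_le_pow_right₀ hW hj)
    (pow_nonneg (by linarith) _) (pow_nonneg KD_pos.le _)

theorem n0 (hW : 1 ≤ W) : KD * W ^ 7 * ((10 ^ 5 * (KD * W ^ 2)) * W + 60 * W ^ 5) ≤
    100060 * (KD ^ 2 * W ^ 12) := by
  have h1 := mono_le hW 2 10 le_rfl (by norm_num)
  have h2 := mono_le hW 1 12 (by norm_num) le_rfl
  have e : KD * W ^ 7 * ((10 ^ 5 * (KD * W ^ 2)) * W + 60 * W ^ 5) =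
      100000 * (KD ^ 2 * W ^ 10) + 60 * (KD ^ 1 * W ^ 12) := by ring
  rw [e]; linarith

theorem n2 (hW : 1 ≤ W) : 52 * ((10 ^ 5 * (KD * W ^ 2)) * W ^ 2) + 6 * ((60 * W ^ 5) * W ^ 5) ≤
    5200360 * (KD ^ 2 * W ^ 12) := by
  have h1 := mono_le hW 1 4 (by norm_num) (by norm_num)
  have h2 := mono_le hW 0 10 (by norm_num) (by norm_num)
  have e : 52 * ((10 ^ 5 * (KD * W ^ 2)) * W ^ 2) + 6 * ((60 * W ^ 5) * W ^ 5) =
      5200000 * (KD ^ 1 * W ^ 4) + 360 * (KD ^ 0 * W ^ 10) := by ring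
  rw [e]; linarith

theorem n3 (hW : 1 ≤ W) : W + 50000 * KD * W * (10 ^ 5 * (KD * W ^ 2)) + 30000 * KD * (60 * W ^ 5) ≤
    10 ^ 10 * (KD ^ 2 * W ^ 5) := by
  have hK := KD_one
  have hK0 : 0 ≤ KD := by linarith
  have W0 : 0 ≤ W := by linarith
  have h1 : KD ^ 0 * W ^ 1 ≤ KD ^ 2 * W ^ 5 :=
    mul_le_mul (pow_le_pow_right₀ hK (by norm_num)) (pow_le_pow_right₀ hW (by norm_num))
      (by positivity) (by positivity)
  have h2 : KD ^ 2 * W ^ 3 ≤ KD ^ 2 * W ^ 5 :=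
    mul_le_mul (pow_le_pow_right₀ hK (by norm_num)) (pow_le_pow_right₀ hW (by norm_num))
      (by positivity) (by positivity)
  have h3 : KD ^ 1 * W ^ 5 ≤ KD ^ 2 * W ^ 5 :=
    mul_le_mul (pow_le_pow_right₀ hK (by norm_num)) (pow_le_pow_right₀ hW (by norm_num))
      (by positivity) (by positivity)
  have e : W + 50000 * KD * W * (10 ^ 5 * (KD * W ^ 2)) + 30000 * KD * (60 * W ^ 5) =
      KD ^ 0 * W ^ 1 + 5000000000 * (KD ^ 2 * W ^ 3) + 1800000 * (KD ^ 1 * W ^ 5) := by ring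
  have h0 : 0 ≤ KD ^ 2 * W ^ 5 := by positivity
  rw [e]; linarith

/-- first step -/
theorem m0 (hW : 1 ≤ W) : KD * W ^ 7 * (W * W + 1) ≤ 100060 * (KD ^ 2 * W ^ 12) := by
  have h1 := mono_le hW 1 9 (by norm_num) (by norm_num)
  have h2 := mono_le hW 1 7 (by norm_num) (by norm_num)
  have e : KD * W ^ 7 * (W * W + 1) = KD ^ 1 * W ^ 9 + KD ^ 1 * W ^ 7 := by ring
  have h0 : 0 ≤ KD ^ 2 * W ^ 12 := mul_nonneg (by positivity) (by positivity)
  rw [e]; linarith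

theorem m2 (hW : 1 ≤ W) : 52 * (W * W ^ 2) + 6 * (1 * W ^ 5) + 1 ≤ 60 * W ^ 5 := by
  have h1 : W ^ 3 ≤ W ^ 5 := pow_le_pow_right₀ hW (by norm_num)
  have h2 : 1 ≤ W ^ 5 := one_le_pow₀ hW
  have e : W * W ^ 2 = W ^ 3 := by ring
  rw [e]; linarith

theorem m3 (hW : 1 ≤ W) : W + 50000 * KD * W * W + 30000 * KD * 1 ≤ 10 ^ 5 * (KD * W ^ 2) := by
  have hK := KD_one
  have hK0 : 0 ≤ KD := by linarith
  have W0 : 0 ≤ W := by linarith
  have h1 : W ≤ W ^ 2 := by nlinarith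
  have h2 : 1 ≤ W ^ 2 := one_le_pow₀ hW
  have h3 : KD * 1 ≤ KD * W ^ 2 := mul_le_mul_of_nonneg_left h2 hK0
  have h4 : 1 * W ^ 2 ≤ KD * W ^ 2 := mul_le_mul_of_nonneg_right hK (by positivity)
  have e : W + 50000 * KD * W * W + 30000 * KD * 1 = W + 50000 * (KD * W ^ 2) + 30000 * KD := by
    ring
  rw [e]; linarith

end num

theorem dbl_near {e : Fin 3 → V3} {c T : Ln4} {w : V3} {z : ℝ} {p : V3}
    (hT : InK e c w z (T.pos z)) (h : ∀ i, |dt (e i) (p - T.pos z)| ≤ w i) :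
    InK e c (dbl3 w) z p := by
  intro i
  have e1 : dt (e i) (p - c.pos z) = dt (e i) (p - T.pos z) + dt (e i) (T.pos z - c.pos z) := by
    simp only [dt, Pi.sub_apply]; ring
  rw [e1]
  change _ ≤ 2 * w i
  have h1 := h i
  have h2 : |dt (e i) (T.pos z - c.pos z)| ≤ w i := hT i
  exact (abs_add_le _ _).trans (by linarith)

theorem dt_via (f p x y : V3) : |dt f (p - y)| ≤ |dt f (p - x)| + |dt f (x - y)| := by
  have e1 : dt f (p - y) = dt f (p - x) + dt f (x - y) := by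
    simp only [dt, Pi.sub_apply]; ring
  rw [e1]
  exact abs_add_le _ _

section leaf
variable {qm qp : Fin 3 → ℝ} {L : ℕ → Ln4} {P : Finset ℕ} {cu cv : ℕ → ℕ} {Uf Vf : ℕ → Plk4}
  {W B M a w1 w2 z0 ρ zL ρL r κ E ε : ℝ} {H : ℕ}

theorem hpVU (h : Cf qm qp L P cu cv Uf Vf W B M a w1 w2 z0 ρ zL ρL r κ E H) {t : ℕ}
    (ht : t ∈ P) : HP W a w1 w2 E z0 ρ r (Vf (cv t)) (Uf (cu t)) (L t) where
  hS := h.two.to1.shV t ht
  hS' := h.two.to1.shU t ht
  dS := h.dmV t ht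
  dS' := h.dmU t ht
  ang := h.ang t ht
  hT := h.two.to1.inV t ht
  hT' := h.two.to1.inU t ht
  cl := (h.up t ht).2
  kE := h.kE' t ht
  kk := h.kVU t ht

theorem hpUV (h : Cf qm qp L P cu cv Uf Vf W B M a w1 w2 z0 ρ zL ρL r κ E H) {t : ℕ}
    (ht : t ∈ P) : HP W a w1 w2 E z0 ρ r (Uf (cu t)) (Vf (cv t)) (L t) where
  hS := h.two.to1.shU t ht
  hS' := h.two.to1.shV t ht
  dS := h.dmU t ht
  dS' := h.dmV t ht
  ang := by rw [Hcp208.angC_comm]; exact h.ang t ht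
  hT := h.two.to1.inU t ht
  hT' := h.two.to1.inV t ht
  cl := (h.up t ht).1
  kE := h.kE t ht
  kk := h.kUV t ht

/-- numbers of the configuration -/
structure Sml (W κ E ε : ℝ) : Prop where
  W1 : 1 ≤ W
  E1 : 1 ≤ E
  κ0 : 0 ≤ κ
  κε : κ ≤ ε
  Eε : 1 ≤ E * ε
  ε0 : 0 < ε
  sm : 10 ^ 15 * (KD ^ 2 * W ^ 12 * ε) ≤ 1
  h6 : 10 ^ 6 * W ^ 2 ≤ E

theorem Sml.a_le (n : Sml W κ E ε) (ha : 0 < a) : a ≤ (E * a) * ε := by
  calc a = 1 * a := by ring
    _ ≤ (E * ε) * a := mul_le_mul_of_nonneg_right n.Eε ha.le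
    _ = _ := by ring

theorem Sml.ε_le (n : Sml W κ E ε) : ε ≤ KD ^ 2 * W ^ 12 * ε :=
  le_mul_of_one_le_left n.ε0.le
    (one_le_mul_of_one_le_of_one_le (one_le_pow₀ KD_one) (one_le_pow₀ n.W1))

/-- thickness against the width -/
theorem Ea_le (h : Cf qm qp L P cu cv Uf Vf W B M a w1 w2 z0 ρ zL ρL r κ E H) {t : ℕ}
    (ht : t ∈ P) : E * a ≤ 13 * W * (Uf (cu t)).w 0 := by
  have h1 := h.kE t ht
  have h2 : Pl2.kp (Uf (cu t)) z0 ρ (L t) ≤ 13 * (Uf (cu t)).w 0 :=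
    kapP_le h.two.to1.r0 h.two.to1.ρ0.le (h.two.to1.shU t ht) (h.two.to1.inU t ht)
  have W0 : 0 ≤ W := by linarith [h.W1]
  have := mul_le_mul_of_nonneg_left h2 W0
  linarith

/-- **last step**: from the sheet `V` at `t` to the sheet `U` and its line `t0` -/
theorem fin_step (h : Cf qm qp L P cu cv Uf Vf W B M a w1 w2 z0 ρ zL ρL r κ E H)
    (n : Sml W κ E ε) {t t0 : ℕ} (ht : t ∈ P) (ht0 : t0 ∈ P) (e : cu t = cu t0) {z : ℝ}
    (hz : z0 ≤ z) (hz' : z ≤ z0 + ρ) {p : V3}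
    (hp : InK (Vf (cv t)).e (Vf (cv t)).c (dbl3 (Vf (cv t)).w) z p)
    (hq : |(Vf (cv t)).q z p| ≤ (10 ^ 5 * (KD * W ^ 2)) * (E * a) * ε)
    (k1 : |dt ((Vf (cv t)).e 1) (p - (L t).pos z)| ≤ (60 * W ^ 5) * ε * (Vf (cv t)).w 1)
    (k2 : |dt ((Vf (cv t)).e 2) (p - (L t).pos z)| ≤ (60 * W ^ 5) * ε * (Vf (cv t)).w 2) :
    (∀ i, |dt ((Uf (cu t0)).e i) (p - (L t0).pos z)| ≤ 1 / 4 * (Uf (cu t0)).w i) ∧
      |(Uf (cu t0)).q z p| ≤ 10 ^ 10 * (KD ^ 2 * W ^ 5) * (E * a) * ε := by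
  have hr := h.two.to1.r0
  have ha := h.two.to1.a0
  have W0 : 0 ≤ W := by linarith [n.W1]
  have hKD := KD_one
  have hX := n.ε_le
  have hsm := n.sm
  have hEa : 0 ≤ E * a := mul_nonneg (by linarith [n.E1]) ha.le
  have hHP := hpVU h ht
  have b0 := n0 n.W1
  have b2 := n2 n.W1
  have b3 := n3 n.W1
  have c0 := mul_le_mul_of_nonneg_right b0 n.ε0.le
  have c2 := mul_le_mul_of_nonneg_right b2 n.ε0.le
  rw [e] at hHP
  have hw0 : 0 < (Uf (cu t0)).w 0 := hr.trans_le (hHP.hS'.r0_le.trans hHP.hS'.a_le0)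
  have hw2 : 0 < (Uf (cu t0)).w 2 := hw0.trans_le hHP.hS'.w0_le
  have hw1 : 0 < (Uf (cu t0)).w 1 := hw2.trans_le hHP.hS'.w_le
  have hWα : W ≤ 10 ^ 5 * (KD * W ^ 2) := by
    have h1 : W ≤ W ^ 2 := by nlinarith [n.W1]
    have h2 : 1 * W ^ 2 ≤ KD * W ^ 2 := mul_le_mul_of_nonneg_right hKD (by positivity)
    linarith
  obtain ⟨g0, g1, g2, g3⟩ := hop hr h.two.to1.ρ0 n.W1 ha h.two.to1.w10 h.two.to1.w20 hHP n.E1 n.ε0
    n.Eε hWα (by positivity) (by linarith) n.h6 hz hz' hp hq k1 k2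
  obtain ⟨t1, t2, t0'⟩ := h.tubU t ht t0 ht0 e z hz hz'
  have hκX : κ ≤ KD ^ 2 * W ^ 12 * ε := n.κε.trans hX
  set X := KD ^ 2 * W ^ 12 * ε with hXdef
  constructor
  · have kX1 : κ * (Uf (cu t0)).w 1 ≤ X * (Uf (cu t0)).w 1 := mul_le_mul_of_nonneg_right hκX hw1.le
    have kX2 : κ * (Uf (cu t0)).w 2 ≤ X * (Uf (cu t0)).w 2 := mul_le_mul_of_nonneg_right hκX hw2.le
    have kX0 : κ * (Uf (cu t0)).w 0 ≤ X * (Uf (cu t0)).w 0 := mul_le_mul_of_nonneg_right hκX hw0.le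
    have sX : ∀ w : ℝ, 0 ≤ w → 10 ^ 15 * (X * w) ≤ w := by
      intro w hw
      have := mul_le_mul_of_nonneg_right hsm hw
      linarith
    have aa : (Uf (cu t0)).a ≤ 13 * (X * (Uf (cu t0)).w 0) := by
      have h1 := Ea_le h ht0
      have h2 : (Uf (cu t0)).a ≤ W * a := (h.dmU t0 ht0).1.2
      have h3 := n.a_le ha
      have h4 : W ^ 2 * ε ≤ X := by
        have := mono_le n.W1 0 2 (by norm_num) (by norm_num)
        rw [pow_zero, one_mul] at this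
        exact mul_le_mul_of_nonneg_right this n.ε0.le
      calc (Uf (cu t0)).a ≤ W * a := h2
        _ ≤ W * ((E * a) * ε) := mul_le_mul_of_nonneg_left h3 W0
        _ = W * ε * (E * a) := by ring
        _ ≤ W * ε * (13 * W * (Uf (cu t0)).w 0) :=
            mul_le_mul_of_nonneg_left h1 (mul_nonneg W0 n.ε0.le)
        _ = 13 * ((W ^ 2 * ε) * (Uf (cu t0)).w 0) := by ring
        _ ≤ 13 * (X * (Uf (cu t0)).w 0) := by gcongr
    intro i
    have via := dt_via ((Uf (cu t0)).e i) p ((L t).pos z) ((L t0).pos z)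
    refine via.trans ?_
    fin_cases i
    · have s0 := sX _ hw0.le
      have d0 : 4 * 10 ^ 7 * (KD * W ^ 7 * (10 ^ 5 * (KD * W ^ 2) * W + 60 * W ^ 5)) * ε *
          (Uf (cu t0)).w 0 ≤ 4 * 10 ^ 7 * 100060 * (X * (Uf (cu t0)).w 0) := by
        have := mul_le_mul_of_nonneg_right c0 hw0.le
        calc _ = 4 * 10 ^ 7 * (KD * W ^ 7 * (10 ^ 5 * (KD * W ^ 2) * W + 60 * W ^ 5) * ε *
              (Uf (cu t0)).w 0) := by ring
          _ ≤ 4 * 10 ^ 7 * (100060 * (KD ^ 2 * W ^ 12) * ε * (Uf (cu t0)).w 0) := by linarith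
          _ = _ := by rw [hXdef]; ring
      have hX0 : 0 ≤ X * (Uf (cu t0)).w 0 := by
        have : 0 ≤ X := n.ε0.le.trans hX
        positivity
      show |dt ((Uf (cu t0)).e 0) (p - (L t).pos z)| +
        |dt ((Uf (cu t0)).e 0) ((L t).pos z - (L t0).pos z)| ≤ 1 / 4 * (Uf (cu t0)).w 0
      linarith
    · have s0 := sX _ hw1.le
      have d0 : (52 * (10 ^ 5 * (KD * W ^ 2) * W ^ 2) + 6 * (60 * W ^ 5 * W ^ 5)) * ε *
          (Uf (cu t0)).w 1 ≤ 5200360 * (X * (Uf (cu t0)).w 1) := by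
        have := mul_le_mul_of_nonneg_right c2 hw1.le
        refine this.trans (le_of_eq ?_)
        rw [hXdef]; ring
      have hX0 : 0 ≤ X * (Uf (cu t0)).w 1 := by
        have : 0 ≤ X := n.ε0.le.trans hX
        positivity
      show |dt ((Uf (cu t0)).e 1) (p - (L t).pos z)| +
        |dt ((Uf (cu t0)).e 1) ((L t).pos z - (L t0).pos z)| ≤ 1 / 4 * (Uf (cu t0)).w 1
      linarith
    · have s0 := sX _ hw2.le
      have d0 : (52 * (10 ^ 5 * (KD * W ^ 2) * W ^ 2) + 6 * (60 * W ^ 5 * W ^ 5)) * ε *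
          (Uf (cu t0)).w 2 ≤ 5200360 * (X * (Uf (cu t0)).w 2) := by
        have := mul_le_mul_of_nonneg_right c2 hw2.le
        refine this.trans (le_of_eq ?_)
        rw [hXdef]; ring
      have hX0 : 0 ≤ X * (Uf (cu t0)).w 2 := by
        have : 0 ≤ X := n.ε0.le.trans hX
        positivity
      show |dt ((Uf (cu t0)).e 2) (p - (L t).pos z)| +
        |dt ((Uf (cu t0)).e 2) ((L t).pos z - (L t0).pos z)| ≤ 1 / 4 * (Uf (cu t0)).w 2
      linarith
  · refine g3.trans ?_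
    have := mul_le_mul_of_nonneg_right (mul_le_mul_of_nonneg_right b3 hEa) n.ε0.le
    exact this

end leaf

end Crest.Agent.R136.Hul412
end

-- ▼ part R136/Hul5_412

/-!
# R136 (S0187), PLAN 2 (AL) (B): `LeafHull` (helper412)
-/

set_option autoImplicit false
set_option linter.unusedVariables false

open Finset

namespace Crest.Agent.R136.Hul412

open Crest.Agent.R136.Sh605
open Crest.Agent.R136.Tl102
open Crest.Agent.R136.K4 (Plk4)
open Crest.Agent.R136.Tlt51 (Shp InP)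
open Crest.Agent.R136.Adj214 (KD KD_pos KD_one)
open Crest.Agent.R136.Phc248 (ph ph_ge_one ph_mono)
open Crest.Agent.R136.Rf877 (Tub)
open Crest.Agent.R136.Al500 (Dm Cl2 Cf LeafHull)
open Crest.Agent.R136.Hc792 (thick_cover)
open Crest.Agent.R136.Fh792 (card_met' card_met2')

section leaf
variable {qm qp : Fin 3 → ℝ} {L : ℕ → Ln4} {P : Finset ℕ} {cu cv : ℕ → ℕ} {Uf Vf : ℕ → Plk4}
  {W B M a w1 w2 z0 ρ zL ρL r κ E ε : ℝ} {H : ℕ}

/-- lines `s` of the sheet `V` of `t`: in the state of `fin_step` -/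
theorem reach1 (h : Cf qm qp L P cu cv Uf Vf W B M a w1 w2 z0 ρ zL ρL r κ E H)
    (n : Sml W κ E ε) {t t0 s : ℕ} (ht : t ∈ P) (ht0 : t0 ∈ P) (hs : s ∈ P) (e : cu t = cu t0)
    (e1 : cv s = cv t) {z : ℝ} (hz : z0 ≤ z) (hz' : z ≤ z0 + ρ) :
    (∀ i, |dt ((Uf (cu t0)).e i) ((L s).pos z - (L t0).pos z)| ≤ 1 / 4 * (Uf (cu t0)).w i) ∧
      |(Uf (cu t0)).q z ((L s).pos z)| ≤ 10 ^ 10 * (KD ^ 2 * W ^ 5) * (E * a) * ε := by
  have hr := h.two.to1.r0
  have ha := h.two.to1.a0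
  have W0 : 0 ≤ W := by linarith [n.W1]
  have hKD := KD_one
  have hV := h.two.to1.inV s hs
  rw [e1] at hV
  have hSV := h.two.to1.shV t ht
  have hw0 : 0 < (Vf (cv t)).w 0 := hr.trans_le (hSV.r0_le.trans hSV.a_le0)
  have hw2 : 0 < (Vf (cv t)).w 2 := hw0.trans_le hSV.w0_le
  have hw1 : 0 < (Vf (cv t)).w 1 := hw2.trans_le hSV.w_le
  obtain ⟨t1, t2, -⟩ := h.tubV s hs t ht e1 z hz hz'
  have hκ : κ ≤ (60 * W ^ 5) * ε := by
    have h1 : 1 ≤ 60 * W ^ 5 := by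
      have := one_le_pow₀ n.W1 (n := 5)
      linarith
    exact n.κε.trans (le_mul_of_one_le_left n.ε0.le h1)
  refine fin_step h n ht ht0 e hz hz' ?_ ?_ (t1.trans (mul_le_mul_of_nonneg_right hκ hw1.le))
    (t2.trans (mul_le_mul_of_nonneg_right hκ hw2.le))
  · intro i
    have h1 := (hV z hz hz').1 i
    have h2 : 0 ≤ (Vf (cv t)).w i := by
      fin_cases i
      · exact hw0.le
      · exact hw1.le
      · exact hw2.le
    change _ ≤ 2 * (Vf (cv t)).w i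
    linarith
  · have h2 : (Vf (cv t)).a ≤ W * a := (h.dmV t ht).1.2
    have h3 := n.a_le ha
    have hWα : W ≤ 10 ^ 5 * (KD * W ^ 2) := by
      have h1 : W ≤ W ^ 2 := by nlinarith [n.W1]
      have h2 : 1 * W ^ 2 ≤ KD * W ^ 2 := mul_le_mul_of_nonneg_right hKD (by positivity)
      linarith
    calc _ ≤ (Vf (cv t)).a := (hV z hz hz').2
      _ ≤ W * a := h2
      _ ≤ (10 ^ 5 * (KD * W ^ 2)) * ((E * a) * ε) := mul_le_mul hWα h3 ha.le (by positivity)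
      _ = _ := by ring

/-- lines `s` of the sheet `U` of `t'`, `t'` in the sheet `V` of `t` -/
theorem reach2 (h : Cf qm qp L P cu cv Uf Vf W B M a w1 w2 z0 ρ zL ρL r κ E H)
    (n : Sml W κ E ε) {t t' t0 s : ℕ} (ht : t ∈ P) (ht' : t' ∈ P) (ht0 : t0 ∈ P) (hs : s ∈ P)
    (e : cu t = cu t0) (ev : cv t' = cv t) (e1 : cu s = cu t') {z : ℝ} (hz : z0 ≤ z)
    (hz' : z ≤ z0 + ρ) :
    (∀ i, |dt ((Uf (cu t0)).e i) ((L s).pos z - (L t0).pos z)| ≤ 1 / 4 * (Uf (cu t0)).w i) ∧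
      |(Uf (cu t0)).q z ((L s).pos z)| ≤ 10 ^ 10 * (KD ^ 2 * W ^ 5) * (E * a) * ε := by
  have hr := h.two.to1.r0
  have ha := h.two.to1.a0
  have W0 : 0 ≤ W := by linarith [n.W1]
  have hKD := KD_one
  have hEa : 0 ≤ E * a := mul_nonneg (by linarith [n.E1]) ha.le
  have hX := n.ε_le
  have hsm := n.sm
  have hU := h.two.to1.inU s hs
  rw [e1] at hU
  have hSU := h.two.to1.shU t' ht'
  have hu0 : 0 < (Uf (cu t')).w 0 := hr.trans_le (hSU.r0_le.trans hSU.a_le0)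
  have hu2 : 0 < (Uf (cu t')).w 2 := hu0.trans_le hSU.w0_le
  have hu1 : 0 < (Uf (cu t')).w 1 := hu2.trans_le hSU.w_le
  have hHP := hpUV h ht'
  rw [ev] at hHP
  have hSV := hHP.hS'
  have hw0 : 0 < (Vf (cv t)).w 0 := hr.trans_le (hSV.r0_le.trans hSV.a_le0)
  have hw2 : 0 < (Vf (cv t)).w 2 := hw0.trans_le hSV.w0_le
  have hw1 : 0 < (Vf (cv t)).w 1 := hw2.trans_le hSV.w_le
  obtain ⟨t1, t2, -⟩ := h.tubU s hs t' ht' e1 z hz hz'
  obtain ⟨v1, v2, -⟩ := h.tubV t' ht' t ht ev z hz hz'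
  have hκ1 : κ ≤ 1 * ε := by rw [one_mul]; exact n.κε
  have b0 := m0 n.W1
  have b2 := m2 n.W1
  have b3 := m3 n.W1
  have c0 := mul_le_mul_of_nonneg_right b0 n.ε0.le
  obtain ⟨g0, g1, g2, g3⟩ := hop hr h.two.to1.ρ0 n.W1 ha h.two.to1.w10 h.two.to1.w20 hHP n.E1 n.ε0
    n.Eε le_rfl zero_le_one (by linarith) n.h6 hz hz' (p := (L s).pos z) (by
      intro i
      have h1 := (hU z hz hz').1 i
      have h2 : 0 ≤ (Uf (cu t')).w i := by
        fin_cases i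
        · exact hu0.le
        · exact hu1.le
        · exact hu2.le
      change _ ≤ 2 * (Uf (cu t')).w i
      linarith) (by
      have h2 : (Uf (cu t')).a ≤ W * a := (h.dmU t' ht').1.2
      have h3 := n.a_le ha
      calc _ ≤ (Uf (cu t')).a := (hU z hz hz').2
        _ ≤ W * a := h2
        _ ≤ W * ((E * a) * ε) := mul_le_mul_of_nonneg_left h3 W0
        _ = _ := by ring)
    (t1.trans (mul_le_mul_of_nonneg_right hκ1 hu1.le))
    (t2.trans (mul_le_mul_of_nonneg_right hκ1 hu2.le))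
  have hε1 : (60 * W ^ 5) * ε ≤ 1 := by
    have h1 := mono_le n.W1 0 5 (by norm_num) (by norm_num)
    rw [pow_zero, one_mul] at h1
    have h2 := mul_le_mul_of_nonneg_right h1 n.ε0.le
    linarith
  have d2 : (52 * (W * W ^ 2) + 6 * (1 * W ^ 5)) * ε + κ ≤ (60 * W ^ 5) * ε := by
    have := mul_le_mul_of_nonneg_right b2 n.ε0.le
    linarith [n.κε]
  have s0 : 4 * 10 ^ 7 * (KD * W ^ 7 * (W * W + 1)) * ε ≤ 1 := by linarith
  refine fin_step h n ht ht0 e hz hz' ?_ ?_ ?_ ?_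
  · refine dbl_near ((hHP.hT' z hz hz').1) ?_
    have hκ0 := n.κ0
    intro i
    fin_cases i
    · refine g0.trans ?_
      calc _ ≤ 1 * (Vf (cv t)).w 0 := mul_le_mul_of_nonneg_right s0 hw0.le
        _ = _ := one_mul _
    · refine g1.trans ?_
      calc _ ≤ 1 * (Vf (cv t)).w 1 := mul_le_mul_of_nonneg_right (by linarith) hw1.le
        _ = _ := one_mul _
    · refine g2.trans ?_
      calc _ ≤ 1 * (Vf (cv t)).w 2 := mul_le_mul_of_nonneg_right (by linarith) hw2.le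
        _ = _ := one_mul _
  · refine g3.trans ?_
    exact mul_le_mul_of_nonneg_right (mul_le_mul_of_nonneg_right b3 hEa) n.ε0.le
  · refine (dt_via _ _ ((L t').pos z) _).trans ((add_le_add g1 v1).trans ?_)
    have := mul_le_mul_of_nonneg_right d2 hw1.le
    linarith
  · refine (dt_via _ _ ((L t').pos z) _).trans ((add_le_add g2 v2).trans ?_)
    have := mul_le_mul_of_nonneg_right d2 hw2.le
    linarith

/-- exponent of the covering -/
noncomputable def Nx (qp : Fin 3 → ℝ) : ℝ :=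
  13 + 6 * (22 + qp 0 + qp 1 + qp 2) + 2 * (1 + qp 0) + 3 * (1 + qp 2)

/-- **lines reached** -/
theorem q_card (h : Cf qm qp L P cu cv Uf Vf W B M a w1 w2 z0 ρ zL ρL r κ E H)
    (n : Sml W κ E ε) {t0 : ℕ} (ht0 : t0 ∈ P) {Q : Finset ℕ} (hQ : Q ⊆ P)
    (hQ' : ∀ s ∈ Q, ∀ z, z0 ≤ z → z ≤ z0 + ρ →
      (∀ i, |dt ((Uf (cu t0)).e i) ((L s).pos z - (L t0).pos z)| ≤ 1 / 4 * (Uf (cu t0)).w i) ∧
        |(Uf (cu t0)).q z ((L s).pos z)| ≤ 10 ^ 10 * (KD ^ 2 * W ^ 5) * (E * a) * ε) :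
    (Q.card : ℝ) ≤ ((64 * B) ^ Nx qp * E ^ (1 + qp 0)) * M := by
  have ha := h.two.to1.a0
  have hM := h.two.to1.M0
  have hB := h.two.to1.W1
  have W0 : 0 ≤ W := by linarith [n.W1]
  have hKD := KD_one
  have hEa : 0 ≤ E * a := mul_nonneg (by linarith [n.E1]) ha.le
  have hsm := n.sm
  have hS := h.two.to1.shU t0 ht0
  have hw0 : 0 < (Uf (cu t0)).w 0 := h.two.to1.r0.trans_le (hS.r0_le.trans hS.a_le0)
  have h3 := n.a_le ha
  have p5 : 1 ≤ KD ^ 2 * W ^ 4 := one_le_mul_of_one_le_of_one_le (one_le_pow₀ hKD) (one_le_pow₀ n.W1)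
  have hb : (Uf (cu t0)).a ≤ 10 ^ 10 * (KD ^ 2 * W ^ 5) * (E * a) * ε := by
    have hWα : W ≤ 10 ^ 10 * (KD ^ 2 * W ^ 5) := by
      have : W * 1 ≤ W * (KD ^ 2 * W ^ 4) := mul_le_mul_of_nonneg_left p5 W0
      have e : W * (KD ^ 2 * W ^ 4) = KD ^ 2 * W ^ 5 := by ring
      linarith
    calc (Uf (cu t0)).a ≤ W * a := (h.dmU t0 ht0).1.2
      _ ≤ (10 ^ 10 * (KD ^ 2 * W ^ 5)) * ((E * a) * ε) := mul_le_mul hWα h3 ha.le (by positivity)
      _ = _ := by ring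
  have hb2 : 10 ^ 10 * (KD ^ 2 * W ^ 5) * (E * a) * ε ≤ (Uf (cu t0)).w 0 := by
    have h1 := Ea_le h ht0
    have h4 := mono_le n.W1 2 6 le_rfl (by norm_num)
    have h5 := mul_le_mul_of_nonneg_right h4 n.ε0.le
    have h6 : 10 ^ 10 * 13 * (KD ^ 2 * W ^ 6 * ε) ≤ 1 := by linarith
    calc 10 ^ 10 * (KD ^ 2 * W ^ 5) * (E * a) * ε
        = 10 ^ 10 * (KD ^ 2 * W ^ 5) * ε * (E * a) := by ring
      _ ≤ 10 ^ 10 * (KD ^ 2 * W ^ 5) * ε * (13 * W * (Uf (cu t0)).w 0) := by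
          have : 0 ≤ 10 ^ 10 * (KD ^ 2 * W ^ 5) * ε := by have := n.ε0; positivity
          exact mul_le_mul_of_nonneg_left h1 this
      _ = (10 ^ 10 * 13 * (KD ^ 2 * W ^ 6 * ε)) * (Uf (cu t0)).w 0 := by ring
      _ ≤ 1 * (Uf (cu t0)).w 0 := mul_le_mul_of_nonneg_right h6 hw0.le
      _ = _ := one_mul _
  have hbE : 10 ^ 10 * (KD ^ 2 * W ^ 5) * (E * a) * ε / a ≤ E := by
    rw [div_le_iff₀ ha]
    have h4 := mono_le n.W1 2 5 le_rfl (by norm_num)
    have h5 := mul_le_mul_of_nonneg_right h4 n.ε0.le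
    have h6 : 10 ^ 10 * (KD ^ 2 * W ^ 5 * ε) ≤ 1 := by linarith
    calc 10 ^ 10 * (KD ^ 2 * W ^ 5) * (E * a) * ε
        = (10 ^ 10 * (KD ^ 2 * W ^ 5 * ε)) * (E * a) := by ring
      _ ≤ 1 * (E * a) := mul_le_mul_of_nonneg_right h6 hEa
      _ = _ := one_mul _
  have main := thick_cover h.two.to1 h.two.rρ h.qq n.W1 h.WB hS (h.dmU t0 ht0)
    (h.two.to1.inU t0 ht0) (lam := 1 / 4) le_rfl hb hb2 hQ hQ'
  have hph : ph (qm 0) (qp 0) (10 ^ 10 * (KD ^ 2 * W ^ 5) * (E * a) * ε / a) ≤ E ^ (1 + qp 0) := by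
    have hb0 : 0 ≤ 10 ^ 10 * (KD ^ 2 * W ^ 5) * (E * a) * ε / a := by
      have := n.ε0
      positivity
    rw [← ph_ge_one (h.qq 0).2 n.E1]
    exact ph_mono (h.qq 0).1 ((h.qq 0).1.trans (h.qq 0).2) hb0 hbE
  refine main.trans ?_
  have h0 : 0 ≤ (64 * B) ^ Nx qp * M := by
    have : 0 ≤ (64 * B) ^ Nx qp := Real.rpow_nonneg (by linarith) _
    positivity
  calc (64 * B) ^ Nx qp * M * ph (qm 0) (qp 0) (10 ^ 10 * (KD ^ 2 * W ^ 5) * (E * a) * ε / a)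
      ≤ (64 * B) ^ Nx qp * M * E ^ (1 + qp 0) := mul_le_mul_of_nonneg_left hph h0
    _ = _ := by ring

end leaf

/-- numbers -/
theorem sml_of {C W B κ E : ℝ} {H : ℕ} (hC : 4 * 10 ^ 15 * KD ^ 2 ≤ C) (hC2 : 100 ≤ C)
    (hW : 1 ≤ W) (hWB : W ≤ B) (hκ : C * W ^ C * κ ≤ 1) (κ0 : 0 < κ) (hH : (C * B) ^ C ≤ H)
    (hHE : (H : ℝ) ≤ 2 * E) (E1 : 1 ≤ E) : Sml W κ E (1 / E + κ) := by
  have hE0 : 0 < E := by linarith
  have W0 : 0 < W := by linarith
  have hKD : 1 ≤ KD ^ 2 := one_le_pow₀ KD_one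
  have hC0 : 0 < C := by linarith
  have w12 : W ^ 12 ≤ W ^ C := by
    rw [← Real.rpow_natCast W 12]
    exact Real.rpow_le_rpow_of_exponent_le hW (by norm_num; linarith)
  have hW12 : 0 < W ^ 12 := by positivity
  -- κ
  have a1 : 10 ^ 15 * (KD ^ 2 * W ^ 12 * κ) ≤ 1 / 4 := by
    have h1 : 4 * 10 ^ 15 * KD ^ 2 * W ^ 12 * κ ≤ C * W ^ C * κ :=
      mul_le_mul_of_nonneg_right (mul_le_mul hC w12 hW12.le hC0.le) κ0.le
    linarith
  -- E
  have a2 : C * W ^ 12 ≤ 2 * E := by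
    refine le_trans ?_ (hH.trans hHE)
    have hCB : 1 ≤ C * B := by nlinarith
    have h1 : (C * B) ^ 13 ≤ (C * B) ^ C := by
      rw [← Real.rpow_natCast (C * B) 13]
      exact Real.rpow_le_rpow_of_exponent_le hCB (by norm_num; linarith)
    refine le_trans ?_ h1
    have h2 : W ≤ C * B := by nlinarith
    have h3 : C ≤ C * B := by nlinarith
    calc C * W ^ 12 ≤ (C * B) * (C * B) ^ 12 := by gcongr
      _ = _ := by ring
  have a3 : 10 ^ 15 * (KD ^ 2 * W ^ 12 * (1 / E)) ≤ 1 / 2 := by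
    have h1 : 4 * 10 ^ 15 * KD ^ 2 * W ^ 12 ≤ 2 * E :=
      (mul_le_mul_of_nonneg_right hC hW12.le).trans a2
    have e : 10 ^ 15 * (KD ^ 2 * W ^ 12 * (1 / E)) = 10 ^ 15 * KD ^ 2 * W ^ 12 / E := by
      field_simp
    rw [e, div_le_iff₀ hE0]
    linarith
  have hE1 : 0 < 1 / E := by positivity
  refine ⟨hW, E1, κ0.le, by linarith, ?_, by linarith, ?_, ?_⟩
  · have : E * (1 / E + κ) = 1 + E * κ := by field_simp
    rw [this]
    have : 0 ≤ E * κ := by positivity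
    linarith
  · have e : 10 ^ 15 * (KD ^ 2 * W ^ 12 * (1 / E + κ)) =
        10 ^ 15 * (KD ^ 2 * W ^ 12 * (1 / E)) + 10 ^ 15 * (KD ^ 2 * W ^ 12 * κ) := by ring
    rw [e]; linarith
  · have h1 : W ^ 2 ≤ W ^ 12 := pow_le_pow_right₀ hW (by norm_num)
    have h2 : 4 * 10 ^ 15 * KD ^ 2 * W ^ 12 ≤ 2 * E :=
      (mul_le_mul_of_nonneg_right hC hW12.le).trans a2
    have h3 : 1 * W ^ 12 ≤ KD ^ 2 * W ^ 12 := mul_le_mul_of_nonneg_right hKD hW12.le
    have h4 : 0 < W ^ 2 := by positivity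
    linarith

theorem num_fin {C B N E p : ℝ} (hN : 0 ≤ N) (hB : 1 ≤ B) (hC : 64 + N + 1 ≤ C) (hE : 1 ≤ E) :
    B * ((64 * B) ^ N * E ^ p) ≤ (C * B) ^ C * E ^ p := by
  have h1 : 0 ≤ E ^ p := Real.rpow_nonneg (by linarith) _
  have hB0 : 0 < 64 * B := by linarith
  have h2 : B * (64 * B) ^ N ≤ (C * B) ^ C := by
    calc B * (64 * B) ^ N ≤ (64 * B) * (64 * B) ^ N :=
          mul_le_mul_of_nonneg_right (by linarith) (Real.rpow_nonneg hB0.le _)
      _ = (64 * B) ^ (1 + N) := by rw [Real.rpow_add hB0, Real.rpow_one]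
      _ ≤ (C * B) ^ (1 + N) :=
          Real.rpow_le_rpow hB0.le (mul_le_mul_of_nonneg_right (by linarith) (by linarith))
            (by linarith)
      _ ≤ (C * B) ^ C := Real.rpow_le_rpow_of_exponent_le (by nlinarith) (by linarith)
  calc B * ((64 * B) ^ N * E ^ p) = (B * (64 * B) ^ N) * E ^ p := by ring
    _ ≤ _ := mul_le_mul_of_nonneg_right h2 h1

open Classical in
/-- **the leaf** -/
theorem leafHull : LeafHull := by
  intro qm qp hqq
  have q0 := fun k => (hqq k).1.trans (hqq k).2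
  have hN : 0 ≤ Nx qp := by
    unfold Nx
    linarith [q0 0, q0 1, q0 2]
  have hKD2 : 1 ≤ KD ^ 2 := one_le_pow₀ KD_one
  refine ⟨4 * 10 ^ 15 * KD ^ 2 + 100 + Nx qp, by linarith, ?_⟩
  intro L P cu cv Uf Vf W B M a w1 w2 z0 ρ zL ρL r κ E H h hκ hH
  set C := 4 * 10 ^ 15 * KD ^ 2 + 100 + Nx qp with hC
  have n : Sml W κ E (1 / E + κ) := sml_of (C := C) (by linarith) (by linarith) h.W1 h.WB hκ h.κ0
    hH h.HE h.E1
  have hB : 1 ≤ B := h.two.to1.W1
  have hB0 : 0 < B := by linarith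
  have hnum := num_fin (C := C) (B := B) (N := Nx qp) (E := E) (p := 1 + qp 0) hN hB
    (by linarith) h.E1
  have hpos : 0 ≤ (C * B) ^ C * E ^ (1 + qp 0) := by
    have h1 : 0 ≤ (C * B) ^ C := Real.rpow_nonneg (mul_nonneg (by linarith) hB0.le) _
    have h2 : 0 ≤ E ^ (1 + qp 0) := Real.rpow_nonneg (by linarith [h.E1]) _
    exact mul_nonneg h1 h2
  constructor
  · intro c
    by_cases hc : ∃ t0 ∈ P, cu t0 = c
    · obtain ⟨t0, ht0, rfl⟩ := hc
      set Q := P.filter fun s => ∃ t ∈ P, cu t = cu t0 ∧ cv s = cv t with hQdef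
      have hQ := q_card h n ht0 (Q := Q) (Finset.filter_subset _ _) (by
        intro s hs z hz hz'
        obtain ⟨hs1, t, ht, e1, e2⟩ := Finset.mem_filter.1 hs
        exact reach1 h n ht ht0 hs1 e1 e2 hz hz')
      refine le_trans (card_met' (u := cu) (v := cv) (c := cu t0) hB0 h.two.to1.M0
        h.two.to1.fullV (Q := Q) ?_ hQ) hnum
      intro t ht e1 s hs e2
      exact Finset.mem_filter.2 ⟨hs, t, ht, e1, e2⟩
    · have : (P.filter fun t => cu t = c) = ∅ := by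
        rw [Finset.filter_eq_empty_iff]
        intro t ht e
        exact hc ⟨t, ht, e⟩
      rw [this, Finset.image_empty, Finset.card_empty, Nat.cast_zero]
      exact hpos
  · intro c T hT
    by_cases hc : ∃ t0 ∈ P, cu t0 = c
    · obtain ⟨t0, ht0, rfl⟩ := hc
      set Q := P.filter fun s => ∃ t ∈ P, ∃ t' ∈ P, cu t = cu t0 ∧ cv t' = cv t ∧ cu s = cu t'
        with hQdef
      have hQ := q_card h n ht0 (Q := Q) (Finset.filter_subset _ _) (by
        intro s hs z hz hz'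
        obtain ⟨hs1, t, ht, t', ht', e1, e2, e3⟩ := Finset.mem_filter.1 hs
        exact reach2 h n ht ht' ht0 hs1 e1 e2 e3 hz hz')
      refine le_trans (card_met2' (u := cu) (v := cv) (c := cu t0) hB0 h.two.to1.M0
        h.two.to1.fullU hT (Q := Q) ?_ hQ) hnum
      intro t ht e1 t' ht' e2 s hs e3
      exact Finset.mem_filter.2 ⟨hs, t, ht, t', ht', e1, e2, e3⟩
    · have : T = ∅ := by
        rw [Finset.eq_empty_iff_forall_notMem]
        intro c1 hc1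
        obtain ⟨t, ht, t', ht', e1, -, -⟩ := hT c1 hc1
        exact hc ⟨t, ht, e1⟩
      rw [this, Finset.card_empty, Nat.cast_zero]
      exact hpos

end Crest.Agent.R136.Hul412
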