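import Crest.Agent.R136.Cap1_102
import Crest.Agent.R136.KapP_335
import Crest.Agent.R136.Cap2_102
import Crest.Agent.R136.Tlt0_51

-- ▼ part R136/Brn_104
section

/-!
# R136 (S0187), PLAN 2 (B1): the branch lemma (helper104)

A sheet of the class `StP` is, on its whole box, within `C (a + kap)` of the tangent plane at one of
its lines: the second branch of the quadric does not meet the box.
-/

set_option autoImplicit false
set_option linter.unusedVariables false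

namespace Crest.Agent.R136.Brn104

open Crest.Agent.R136.Sh605
open Crest.Agent.R136.Tl102 (QF Fq bz shB0 shB1 shG kap NrmC IsExp fr cmb StP dt_cmb_fr
  cmb_add_zero cmb_add_one cmb_add_two)

/-! ### the real inequality -/

theorem branch_core {A R s q : ℝ} (h1 : 45 / 100 + 71 / 40 * |A| ≤ A * s)
    (h2 : 45 / 100 + 71 / 40 * |A| ≤ R) (hq : |q| ≤ 14 / 100)
    (hG : |-(s * R) + q| ≤ 5 / 2) : False := by
  have hA : 0 ≤ |A| := abs_nonneg _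
  have h3 : (45 / 100 + 71 / 40 * |A|) * (45 / 100 + 71 / 40 * |A|) ≤ A * s * R :=
    mul_le_mul h1 h2 (by positivity) (le_trans (by positivity) h1)
  have h4 : |A * s * R| ≤ |A| * |s * R| := by rw [mul_assoc, abs_mul]
  have h5 := le_abs_self (A * s * R)
  have h6 : |s * R| ≤ 264 / 100 := by
    have e : s * R = q - (-(s * R) + q) := by ring
    rw [e]
    exact (abs_sub _ _).trans (by linarith)
  have h7 : |A| * |s * R| ≤ |A| * (264 / 100) := mul_le_mul_of_nonneg_left h6 hA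
  nlinarith [sq_nonneg (45 / 100 - 71 / 40 * |A|)]

theorem lat_le {a b c κ u v : ℝ} (k1 : |a| ≤ κ) (k2 : |b| ≤ κ) (k3 : |c| ≤ κ) (hu : |u| ≤ 17 / 8)
    (hv : |v| ≤ 17 / 8) : |a * u ^ 2 + b * (u * v) + c * v ^ 2| ≤ 14 * κ := by
  have hκ0 : 0 ≤ κ := (abs_nonneg _).trans k1
  have h0u := abs_nonneg u
  have h0v := abs_nonneg v
  have hu2 : |u ^ 2| ≤ 14 / 3 := by rw [abs_pow]; nlinarith
  have hv2 : |v ^ 2| ≤ 14 / 3 := by rw [abs_pow]; nlinarith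
  have huv : |u * v| ≤ 14 / 3 := by rw [abs_mul]; nlinarith
  have t1 := mul_le_mul k1 hu2 (abs_nonneg _) hκ0
  have t2 := mul_le_mul k2 huv (abs_nonneg _) hκ0
  have t3 := mul_le_mul k3 hv2 (abs_nonneg _) hκ0
  rw [← abs_mul] at t1 t2 t3
  have t4 := abs_add_le (a * u ^ 2 + b * (u * v)) (c * v ^ 2)
  have t5 := abs_add_le (a * u ^ 2) (b * (u * v))
  linarith

theorem lat_slope {D D' E E' g u v : ℝ} (h1 : |D| ≤ 1) (h2 : |D'| ≤ 1) (h3 : |E| ≤ 1)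
    (h4 : |E'| ≤ 1) (hu : |u| ≤ 17 / 8) (hv : |v| ≤ 17 / 8)
    (hg : g = ((D - D') * u + (E - E') * v) / (34 / 10)) : |g| ≤ 5 / 2 := by
  rw [hg, abs_div, abs_of_pos (by norm_num : (0:ℝ) < 34 / 10), div_le_iff₀ (by norm_num)]
  refine (abs_add_le _ _).trans ?_
  rw [abs_mul, abs_mul]
  have g1 := (abs_sub D D').trans (add_le_add h1 h2)
  have g2 := (abs_sub E E').trans (add_le_add h3 h4)
  have g3 := mul_le_mul g1 hu (abs_nonneg _) (by norm_num)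
  have g4 := mul_le_mul g2 hv (abs_nonneg _) (by norm_num)
  linarith

/-- box bookkeeping -/
theorem bb {P t B : ℝ} (h : -B ≤ P + t) (h' : P + t ≤ B) : |P + t| ≤ B := abs_le.2 ⟨h, h'⟩

/-- the second branch stays away -/
theorem branch {β β1 β2 A yu yv uu uv vv s1 s2 κ P0 P1 P2 x u v : ℝ}
    (p0 : |P0| ≤ 1) (p1 : |P1| ≤ 1) (p2 : |P2| ≤ 1) (q0 : |P0 + x| ≤ 9 / 8) (q1 : |P1 + u| ≤ 9 / 8)
    (q2 : |P2 + v| ≤ 9 / 8)
    (H0 : ∀ a b c : ℝ, |P0 + a| ≤ 39 / 20 → |P1 + b| ≤ 39 / 20 → |P2 + c| ≤ 39 / 20 →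
      1 / 2 ≤ β + 2 * A * a + yu * b + yv * c)
    (H1 : ∀ a b c : ℝ, |P0 + a| ≤ 39 / 20 → |P1 + b| ≤ 39 / 20 → |P2 + c| ≤ 39 / 20 →
      |β1 + 2 * uu * b + yu * a + uv * c| ≤ 1)
    (H2 : ∀ a b c : ℝ, |P0 + a| ≤ 39 / 20 → |P1 + b| ≤ 39 / 20 → |P2 + c| ≤ 39 / 20 →
      |β2 + 2 * vv * c + yv * a + uv * b| ≤ 1)
    (k1 : |uu - s1 * yu + s1 ^ 2 * A| ≤ κ) (k2 : |uv - s2 * yu - s1 * yv + 2 * (s1 * s2) * A| ≤ κ)
    (k3 : |vv - s2 * yv + s2 ^ 2 * A| ≤ κ) (hκ : κ ≤ 1 / 100) :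
    1 / 20 ≤ |β + (2 * A * x + yu * u + yv * v) - A * (x + s1 * u + s2 * v)| := by
  by_contra hcon
  push Not at hcon
  obtain ⟨c1, c2⟩ := abs_lt.1 hcon
  obtain ⟨p01, p02⟩ := abs_le.1 p0
  obtain ⟨p11, p12⟩ := abs_le.1 p1
  obtain ⟨p21, p22⟩ := abs_le.1 p2
  obtain ⟨q01, q02⟩ := abs_le.1 q0
  obtain ⟨q11, q12⟩ := abs_le.1 q1
  obtain ⟨q21, q22⟩ := abs_le.1 q2
  have hu : |u| ≤ 17 / 8 := abs_le.2 ⟨by linarith only [p12, q11], by linarith only [p11, q12]⟩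
  have hv : |v| ≤ 17 / 8 := abs_le.2 ⟨by linarith only [p22, q21], by linarith only [p21, q22]⟩
  have n0 : |P0 + 0| ≤ 39 / 20 := bb (by linarith only [p01]) (by linarith only [p02])
  have n1 : |P1 + 0| ≤ 39 / 20 := bb (by linarith only [p11]) (by linarith only [p12])
  have n2 : |P2 + 0| ≤ 39 / 20 := bb (by linarith only [p21]) (by linarith only [p22])
  have nu : |P1 + u| ≤ 39 / 20 := q1.trans (by norm_num)
  have nv : |P2 + v| ≤ 39 / 20 := q2.trans (by norm_num)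
  have nlo : |P0 + (-(39 / 20) - P0)| ≤ 39 / 20 := by
    have : P0 + (-(39 / 20) - P0) = -(39 / 20) := by ring
    rw [this, abs_neg, abs_of_pos (by norm_num)]
  have nhi : |P0 + (39 / 20 - P0)| ≤ 39 / 20 := by
    have : P0 + (39 / 20 - P0) = 39 / 20 := by ring
    rw [this, abs_of_pos (by norm_num)]
  have r1 : |P1 + 27 / 20 * u| ≤ 39 / 20 :=
    bb (by linarith only [p11, p12, q11, q12]) (by linarith only [p11, p12, q11, q12])
  have r2 : |P2 + 27 / 20 * v| ≤ 39 / 20 :=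
    bb (by linarith only [p21, p22, q21, q22]) (by linarith only [p21, p22, q21, q22])
  have r3 : |P1 + -(7 / 20) * u| ≤ 39 / 20 :=
    bb (by linarith only [p11, p12, q11, q12]) (by linarith only [p11, p12, q11, q12])
  have r4 : |P2 + -(7 / 20) * v| ≤ 39 / 20 :=
    bb (by linarith only [p21, p22, q21, q22]) (by linarith only [p21, p22, q21, q22])
  have hG : |uu * u ^ 2 + uv * (u * v) + vv * v ^ 2| ≤ 5 / 2 :=
    lat_slope (H1 0 (27 / 20 * u) (27 / 20 * v) n0 r1 r2)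
      (H1 0 (-(7 / 20) * u) (-(7 / 20) * v) n0 r3 r4)
      (H2 0 (27 / 20 * u) (27 / 20 * v) n0 r1 r2)
      (H2 0 (-(7 / 20) * u) (-(7 / 20) * v) n0 r3 r4) hu hv (by ring)
  have hlat := lat_le k1 k2 k3 hu hv
  have hid : uu * u ^ 2 + uv * (u * v) + vv * v ^ 2 =
      -((s1 * u + s2 * v) * (β + A * x - (β + (2 * A * x + yu * u + yv * v) -
        A * (x + s1 * u + s2 * v)))) + ((uu - s1 * yu + s1 ^ 2 * A) * u ^ 2 +
      (uv - s2 * yu - s1 * yv + 2 * (s1 * s2) * A) * (u * v) +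
      (vv - s2 * yv + s2 ^ 2 * A) * v ^ 2) := by ring
  rw [hid] at hG
  -- vertical slopes
  have b0 := H0 (-(39 / 20) - P0) 0 0 nlo n1 n2
  have b0' := H0 (39 / 20 - P0) 0 0 nhi n1 n2
  have d0 := H0 (-(39 / 20) - P0) u v nlo nu nv
  have d0' := H0 (39 / 20 - P0) u v nhi nu nv
  have hw1 : A * (P0 + (P0 + x)) ≤ 17 / 8 * |A| := by
    have : |A * (P0 + (P0 + x))| ≤ |A| * (17 / 8) := by
      rw [abs_mul]
      exact mul_le_mul_of_nonneg_left ((abs_add_le _ _).trans (by linarith only [p0, q0]))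
        (abs_nonneg _)
    linarith only [this, le_abs_self (A * (P0 + (P0 + x)))]
  have hw2 : -(17 / 8 * |A|) ≤ A * (P0 + (P0 + x)) := by
    have : |A * (P0 + (P0 + x))| ≤ |A| * (17 / 8) := by
      rw [abs_mul]
      exact mul_le_mul_of_nonneg_left ((abs_add_le _ _).trans (by linarith only [p0, q0]))
        (abs_nonneg _)
    linarith only [this, neg_abs_le (A * (P0 + (P0 + x)))]
  refine branch_core (A := A) (R := β + A * x - (β + (2 * A * x + yu * u + yv * v) -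
        A * (x + s1 * u + s2 * v))) (s := s1 * u + s2 * v) ?_ ?_
    (hlat.trans (by linarith only [hκ])) hG
  · rcases abs_cases A with ⟨h, h'⟩ | ⟨h, h'⟩
    · rw [h] at hw1 hw2 ⊢
      linarith only [c1, c2, b0, b0', d0, d0', hw1, hw2]
    · rw [h] at hw1 hw2 ⊢
      linarith only [c1, c2, b0, b0', d0, d0', hw1, hw2]
  · rcases abs_cases A with ⟨h, h'⟩ | ⟨h, h'⟩
    · rw [h] at hw1 hw2 ⊢
      linarith only [c1, c2, b0, b0', d0, d0', hw1, hw2]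
    · rw [h] at hw1 hw2 ⊢
      linarith only [c1, c2, b0, b0', d0, d0', hw1, hw2]


/-! ### slopes of the expansion -/

section
variable {e : Fin 3 → V3} {c : Ln4} {w : V3} {q : ℝ → V3 → ℝ} {z0 ρ : ℝ}

theorem inD (S : StP e c w q z0 ρ) (T : Ln4) (z : ℝ) {y : V3}
    (hy : ∀ i, |dt (e i) (T.pos z - c.pos z) / w i + y i| ≤ 2) :
    InK e c (dbl3 w) z (T.pos z + cmb (fr e w) y) := by
  intro i
  have hw := S.pos i
  have e1 : dt (e i) (T.pos z + cmb (fr e w) y - c.pos z) =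
      w i * (dt (e i) (T.pos z - c.pos z) / w i + y i) := by
    have e2 : dt (e i) (T.pos z + cmb (fr e w) y - c.pos z) =
      dt (e i) (T.pos z - c.pos z) + dt (e i) (cmb (fr e w) y) := by
      simp only [dt, Pi.add_apply, Pi.sub_apply]; ring
    rw [e2, dt_cmb_fr S.ortho]
    field_simp
  rw [e1, abs_mul, abs_of_pos hw]
  change _ ≤ 2 * w i
  have := mul_le_mul_of_nonneg_left (hy i) hw.le
  linarith

theorem vec3 {P : V3} {a b c B : ℝ} (h0 : |P 0 + a| ≤ B) (h1 : |P 1 + b| ≤ B)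
    (h2 : |P 2 + c| ≤ B) : ∀ i, |P i + (![a, b, c] : V3) i| ≤ B := by
  intro i
  fin_cases i
  · exact h0
  · exact h1
  · exact h2

theorem sh {P t : ℝ} (h : |P + t| ≤ 39 / 20) : |P + (t - 1 / 20)| ≤ 2 := by
  rw [abs_le] at *; constructor <;> linarith [h.1, h.2]

theorem sh' {P t : ℝ} (h : |P + t| ≤ 39 / 20) : |P + (t - 1 / 20 + 1 / 10)| ≤ 2 := by
  rw [abs_le] at *; constructor <;> linarith [h.1, h.2]

theorem sh0 {P t : ℝ} (h : |P + t| ≤ 39 / 20) : |P + t| ≤ 2 := h.trans (by norm_num)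

variable {T : Ln4} {b0 b1 : V3} {G : QF}

theorem slope0 (S : StP e c w q z0 ρ) (hρ : 0 ≤ ρ) (h' : IsExp q e w T z0 ρ b0 b1 G) {ζ : ℝ}
    (hζ : 0 ≤ ζ) (hζ' : ζ ≤ 1) {P : V3}
    (hP : ∀ i, P i = dt (e i) (T.pos (z0 + ρ * ζ) - c.pos (z0 + ρ * ζ)) / w i) {a b d : ℝ}
    (h0 : |P 0 + a| ≤ 39 / 20) (h1 : |P 1 + b| ≤ 39 / 20) (h2 : |P 2 + d| ≤ 39 / 20) :
    1 / 2 ≤ (b0 0 + ζ * b1 0) + 2 * G.yy * a + G.yu * b + G.yv * d := by
  have hw0 := S.pos 0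
  have z1 : z0 ≤ z0 + ρ * ζ := by nlinarith
  have z2 : z0 + ρ * ζ ≤ z0 + ρ := by nlinarith
  have i1 := inD S T (z0 + ρ * ζ) (y := ![a - 1 / 20, b, d]) (by
    intro i; rw [← hP]; exact vec3 (sh h0) (sh0 h1) (sh0 h2) i)
  have i2 := inD S T (z0 + ρ * ζ) (y := ![a - 1 / 20 + 1 / 10, b, d]) (by
    intro i; rw [← hP]; exact vec3 (sh' h0) (sh0 h1) (sh0 h2) i)
  rw [cmb_add_zero e w _ (a - 1 / 20) b d (1 / 10)] at i2
  have := (S.st0 _ z1 z2 _ (1 / 10 * w 0) (by positivity) i1 i2).1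
  have e1 := h' ζ ![a - 1 / 20 + 1 / 10, b, d]
  have e2 := h' ζ ![a - 1 / 20, b, d]
  rw [cmb_add_zero e w _ (a - 1 / 20) b d (1 / 10)] at e1
  rw [e1, e2] at this
  have e3 : w 0 * Fq b0 b1 G ζ ![a - 1 / 20 + 1 / 10, b, d] -
      w 0 * Fq b0 b1 G ζ ![a - 1 / 20, b, d] =
      (1 / 10 * w 0) * ((b0 0 + ζ * b1 0) + 2 * G.yy * a + G.yu * b + G.yv * d) := by
    simp only [Fq, dt, bz, QF.ev, Matrix.cons_val]
    ring
  have h5 : (1 / 10 * w 0) * (1 / 2) ≤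
      (1 / 10 * w 0) * ((b0 0 + ζ * b1 0) + 2 * G.yy * a + G.yu * b + G.yv * d) := by
    linarith only [this, e3]
  exact le_of_mul_le_mul_left h5 (by positivity)

theorem slope1 (S : StP e c w q z0 ρ) (hρ : 0 ≤ ρ) (h' : IsExp q e w T z0 ρ b0 b1 G) {ζ : ℝ}
    (hζ : 0 ≤ ζ) (hζ' : ζ ≤ 1) {P : V3}
    (hP : ∀ i, P i = dt (e i) (T.pos (z0 + ρ * ζ) - c.pos (z0 + ρ * ζ)) / w i) {a b d : ℝ}
    (h0 : |P 0 + a| ≤ 39 / 20) (h1 : |P 1 + b| ≤ 39 / 20) (h2 : |P 2 + d| ≤ 39 / 20) :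
    |(b0 1 + ζ * b1 1) + 2 * G.uu * b + G.yu * a + G.uv * d| ≤ 1 := by
  have hw0 := S.pos 0
  have hw1 := S.pos 1
  have z1 : z0 ≤ z0 + ρ * ζ := by nlinarith
  have z2 : z0 + ρ * ζ ≤ z0 + ρ := by nlinarith
  have i1 := inD S T (z0 + ρ * ζ) (y := ![a, b - 1 / 20, d]) (by
    intro i; rw [← hP]; exact vec3 (sh0 h0) (sh h1) (sh0 h2) i)
  have i2 := inD S T (z0 + ρ * ζ) (y := ![a, b - 1 / 20 + 1 / 10, d]) (by
    intro i; rw [← hP]; exact vec3 (sh0 h0) (sh' h1) (sh0 h2) i)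
  rw [cmb_add_one e w _ a (b - 1 / 20) d (1 / 10)] at i2
  have := S.st1 _ z1 z2 _ (1 / 10 * w 1) (by positivity) i1 i2
  have e1 := h' ζ ![a, b - 1 / 20 + 1 / 10, d]
  have e2 := h' ζ ![a, b - 1 / 20, d]
  rw [cmb_add_one e w _ a (b - 1 / 20) d (1 / 10)] at e1
  rw [e1, e2] at this
  have e3 : q (z0 + ρ * ζ) (T.pos (z0 + ρ * ζ)) + w 0 * Fq b0 b1 G ζ ![a, b - 1 / 20 + 1 / 10, d] -
      (q (z0 + ρ * ζ) (T.pos (z0 + ρ * ζ)) + w 0 * Fq b0 b1 G ζ ![a, b - 1 / 20, d]) =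
      (1 / 10 * w 0) * ((b0 1 + ζ * b1 1) + 2 * G.uu * b + G.yu * a + G.uv * d) := by
    simp only [Fq, dt, bz, QF.ev, Matrix.cons_val]
    ring
  have e4 : w 0 / w 1 * (1 / 10 * w 1) = (1 / 10 * w 0) * 1 := by field_simp
  rw [e3, e4, abs_mul, abs_of_pos (by positivity : (0:ℝ) < 1 / 10 * w 0)] at this
  exact le_of_mul_le_mul_left this (by positivity)

theorem slope2 (S : StP e c w q z0 ρ) (hρ : 0 ≤ ρ) (h' : IsExp q e w T z0 ρ b0 b1 G) {ζ : ℝ}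
    (hζ : 0 ≤ ζ) (hζ' : ζ ≤ 1) {P : V3}
    (hP : ∀ i, P i = dt (e i) (T.pos (z0 + ρ * ζ) - c.pos (z0 + ρ * ζ)) / w i) {a b d : ℝ}
    (h0 : |P 0 + a| ≤ 39 / 20) (h1 : |P 1 + b| ≤ 39 / 20) (h2 : |P 2 + d| ≤ 39 / 20) :
    |(b0 2 + ζ * b1 2) + 2 * G.vv * d + G.yv * a + G.uv * b| ≤ 1 := by
  have hw0 := S.pos 0
  have hw2 := S.pos 2
  have z1 : z0 ≤ z0 + ρ * ζ := by nlinarith
  have z2 : z0 + ρ * ζ ≤ z0 + ρ := by nlinarith
  have i1 := inD S T (z0 + ρ * ζ) (y := ![a, b, d - 1 / 20]) (by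
    intro i; rw [← hP]; exact vec3 (sh0 h0) (sh0 h1) (sh h2) i)
  have i2 := inD S T (z0 + ρ * ζ) (y := ![a, b, d - 1 / 20 + 1 / 10]) (by
    intro i; rw [← hP]; exact vec3 (sh0 h0) (sh0 h1) (sh' h2) i)
  rw [cmb_add_two e w _ a b (d - 1 / 20) (1 / 10)] at i2
  have := S.st2 _ z1 z2 _ (1 / 10 * w 2) (by positivity) i1 i2
  have e1 := h' ζ ![a, b, d - 1 / 20 + 1 / 10]
  have e2 := h' ζ ![a, b, d - 1 / 20]
  rw [cmb_add_two e w _ a b (d - 1 / 20) (1 / 10)] at e1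
  rw [e1, e2] at this
  have e3 : q (z0 + ρ * ζ) (T.pos (z0 + ρ * ζ)) + w 0 * Fq b0 b1 G ζ ![a, b, d - 1 / 20 + 1 / 10] -
      (q (z0 + ρ * ζ) (T.pos (z0 + ρ * ζ)) + w 0 * Fq b0 b1 G ζ ![a, b, d - 1 / 20]) =
      (1 / 10 * w 0) * ((b0 2 + ζ * b1 2) + 2 * G.vv * d + G.yv * a + G.uv * b) := by
    simp only [Fq, dt, bz, QF.ev, Matrix.cons_val]
    ring
  have e4 : w 0 / w 2 * (1 / 10 * w 2) = (1 / 10 * w 0) * 1 := by field_simp
  rw [e3, e4, abs_mul, abs_of_pos (by positivity : (0:ℝ) < 1 / 10 * w 0)] at this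
  exact le_of_mul_le_mul_left this (by positivity)

/-- components of `kap` -/
theorem kap_comp (b0 b1 : V3) (G : QF) : |shB1 b0 b1 1| ≤ kap b0 b1 G ∧
    |shB1 b0 b1 2| ≤ kap b0 b1 G ∧ |(shG b0 G).uu| ≤ kap b0 b1 G ∧
    |(shG b0 G).uv| ≤ kap b0 b1 G ∧ |(shG b0 G).vv| ≤ kap b0 b1 G := by
  unfold kap
  refine ⟨?_, ?_, ?_, ?_, ?_⟩ <;> simp

/-- **the sheet stays near the tangent plane at the line `T`, on the whole box** -/
theorem tan_le (S : StP e c w q z0 ρ) (hρ : 0 ≤ ρ) (hb : NrmC b0 b1 G)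
    (h' : IsExp q e w T z0 ρ b0 b1 G) {ζ : ℝ} (hζ : 0 ≤ ζ) (hζ' : ζ ≤ 1)
    (hT : InK e c w (z0 + ρ * ζ) (T.pos (z0 + ρ * ζ))) {X x : V3}
    (hX : ∀ i, |dt (e i) (X - c.pos (z0 + ρ * ζ))| ≤ 9 / 8 * w i)
    (hx : ∀ i, x i = dt (e i) (X - T.pos (z0 + ρ * ζ)) / w i) :
    |b0 0 * x 0 + b0 1 * x 1 + b0 2 * x 2| ≤ 40 * |Fq b0 b1 G ζ x| + 900 * kap b0 b1 G := by
  obtain ⟨kb1, kb2, kuu, kuv, kvv⟩ := kap_comp b0 b1 G
  set κ := kap b0 b1 G with hκdef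
  have hκ0 : 0 ≤ κ := (abs_nonneg _).trans kb1
  -- sizes
  have hb0 := hb.st 0 le_rfl zero_le_one 0 0 0 (by norm_num) (by norm_num) (by norm_num)
  simp only [zero_mul, mul_zero, add_zero] at hb0
  obtain ⟨hb01, hb02⟩ := hb0
  have hbp : 0 < b0 0 := by linarith
  set P : V3 := fun i => dt (e i) (T.pos (z0 + ρ * ζ) - c.pos (z0 + ρ * ζ)) / w i with hP
  have hP1 : ∀ i, |P i| ≤ 1 := by
    intro i
    simp only [hP]
    rw [abs_div, abs_of_pos (S.pos i), div_le_one (S.pos i)]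
    exact hT i
  have hPx : ∀ i, |P i + x i| ≤ 9 / 8 := by
    intro i
    have e1 : P i + x i = dt (e i) (X - c.pos (z0 + ρ * ζ)) / w i := by
      rw [hx i]
      simp only [hP]
      rw [← add_div, ← dt_add]
      congr 2
      abel
    rw [e1, abs_div, abs_of_pos (S.pos i), div_le_iff₀ (S.pos i)]
    exact hX i
  have hxi : ∀ i, |x i| ≤ 17 / 8 := by
    intro i
    have h1 := abs_le.1 (hP1 i)
    have h2 := abs_le.1 (hPx i)
    rw [abs_le]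
    constructor
    · linarith [h1.2, h2.1]
    · linarith [h1.1, h2.2]
  by_cases hk : κ ≤ 1 / 100
  · have hbr := branch (β := b0 0 + ζ * b1 0) (β1 := b0 1 + ζ * b1 1) (β2 := b0 2 + ζ * b1 2)
      (A := G.yy) (yu := G.yu) (yv := G.yv) (uu := G.uu) (uv := G.uv) (vv := G.vv)
      (s1 := b0 1 / b0 0) (s2 := b0 2 / b0 0) (κ := κ) (hP1 0) (hP1 1) (hP1 2) (hPx 0) (hPx 1)
      (hPx 2) (fun a b d h0 h1 h2 => slope0 S hρ h' hζ hζ' (fun _ => rfl) h0 h1 h2)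
      (fun a b d h0 h1 h2 => slope1 S hρ h' hζ hζ' (fun _ => rfl) h0 h1 h2)
      (fun a b d h0 h1 h2 => slope2 S hρ h' hζ hζ' (fun _ => rfl) h0 h1 h2)
      kuu kuv kvv hk
    set y := x 0 + b0 1 / b0 0 * x 1 + b0 2 / b0 0 * x 2 with hy
    set Φ := b0 0 + ζ * b1 0 + (2 * G.yy * x 0 + G.yu * x 1 + G.yv * x 2) - G.yy * y with hΦ
    have hF : Fq b0 b1 G ζ x = y * Φ + (ζ * (shB1 b0 b1 1 * x 1 + shB1 b0 b1 2 * x 2) +
        ((shG b0 G).uu * x 1 ^ 2 + (shG b0 G).uv * (x 1 * x 2) + (shG b0 G).vv * x 2 ^ 2)) := by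
      simp only [Fq, dt, bz, QF.ev, shB1, shG, hΦ, hy, Matrix.cons_val]
      field_simp
      ring
    have l1 := lat_le kuu kuv kvv (hxi 1) (hxi 2)
    have l2 : |ζ * (shB1 b0 b1 1 * x 1 + shB1 b0 b1 2 * x 2)| ≤ 17 / 4 * κ := by
      rw [abs_mul, abs_of_nonneg hζ]
      have g1 : |shB1 b0 b1 1 * x 1| ≤ κ * (17 / 8) := by
        rw [abs_mul]; exact mul_le_mul kb1 (hxi 1) (abs_nonneg _) hκ0
      have g2 : |shB1 b0 b1 2 * x 2| ≤ κ * (17 / 8) := by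
        rw [abs_mul]; exact mul_le_mul kb2 (hxi 2) (abs_nonneg _) hκ0
      have g3 := abs_add_le (shB1 b0 b1 1 * x 1) (shB1 b0 b1 2 * x 2)
      have g4 := abs_nonneg (shB1 b0 b1 1 * x 1 + shB1 b0 b1 2 * x 2)
      nlinarith
    have l3 : |y * Φ| ≤ |Fq b0 b1 G ζ x| + 20 * κ := by
      have e1 : y * Φ = Fq b0 b1 G ζ x - (ζ * (shB1 b0 b1 1 * x 1 + shB1 b0 b1 2 * x 2) +
        ((shG b0 G).uu * x 1 ^ 2 + (shG b0 G).uv * (x 1 * x 2) + (shG b0 G).vv * x 2 ^ 2)) := by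
        rw [hF]; ring
      rw [e1]
      refine (abs_sub _ _).trans ?_
      have := abs_add_le (ζ * (shB1 b0 b1 1 * x 1 + shB1 b0 b1 2 * x 2))
        ((shG b0 G).uu * x 1 ^ 2 + (shG b0 G).uv * (x 1 * x 2) + (shG b0 G).vv * x 2 ^ 2)
      linarith
    have l4 : |y| * (1 / 20) ≤ |y * Φ| := by
      rw [abs_mul]; exact mul_le_mul_of_nonneg_left hbr (abs_nonneg _)
    have e2 : b0 0 * x 0 + b0 1 * x 1 + b0 2 * x 2 = b0 0 * y := by
      rw [hy]; field_simp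
    rw [e2, abs_mul, abs_of_pos hbp]
    have l5 : b0 0 * |y| ≤ 2 * |y| := mul_le_mul_of_nonneg_right hb02 (abs_nonneg _)
    linarith
  · push Not at hk
    have g0 : |b0 0 * x 0| ≤ 2 * (17 / 8) := by
      rw [abs_mul, abs_of_pos hbp]; exact mul_le_mul hb02 (hxi 0) (abs_nonneg _) (by norm_num)
    have g1 : |b0 1 * x 1| ≤ 1 * (17 / 8) := by
      rw [abs_mul]; exact mul_le_mul hb.b01 (hxi 1) (abs_nonneg _) (by norm_num)
    have g2 : |b0 2 * x 2| ≤ 1 * (17 / 8) := by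
      rw [abs_mul]; exact mul_le_mul hb.b02 (hxi 2) (abs_nonneg _) (by norm_num)
    have g3 := abs_add_le (b0 0 * x 0 + b0 1 * x 1) (b0 2 * x 2)
    have g4 := abs_add_le (b0 0 * x 0) (b0 1 * x 1)
    have g5 := abs_nonneg (Fq b0 b1 G ζ x)
    linarith

end

end Crest.Agent.R136.Brn104
end

-- ▼ part R136/Kpc_104

/-!
# R136 (S0187), PLAN 2 (B1): the curvature extents of a sheet at two of its lines are comparable
(helper104)

`kapP_comp : kapP S z0 ρ T' ≤ 400000 * (S.a + kapP S z0 ρ T)` for two lines `T`, `T'` of `S`.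
-/

set_option autoImplicit false
set_option linter.unusedVariables false

namespace Crest.Agent.R136.Kpc104

open Crest.Agent.R136.Sh605
open Crest.Agent.R136.K4 (Plk4)
open Crest.Agent.R136.Tlt51 (Shp InP)
open Crest.Agent.R136.KapP335
open Crest.Agent.R136.Brn104
open Crest.Agent.R136.Tl102 (QF Fq bz shB0 shB1 shG kap NrmC IsExp fr cmb StP dt_cmb_fr pc cmb_pc)

/-- gradient of a quadratic form -/
def gr (G : QF) (x : V3) : V3 :=
  ![2 * G.yy * x 0 + G.yu * x 1 + G.yv * x 2, G.yu * x 0 + 2 * G.uu * x 1 + G.uv * x 2,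
    G.yv * x 0 + G.uv * x 1 + 2 * G.vv * x 2]

theorem Fq_add (b0 b1 : V3) (G : QF) (ζ : ℝ) (x0 x1 y : V3) :
    Fq b0 b1 G ζ (fun k => (x0 k + ζ * x1 k) + y k) =
      Fq b0 b1 G ζ (fun k => x0 k + ζ * x1 k) +
        Fq (fun k => b0 k + gr G x0 k) (fun k => b1 k + gr G x1 k) G ζ y := by
  simp only [Fq, dt, bz, QF.ev, gr, Matrix.cons_val]
  ring

/-- the expansion around another line -/
theorem isExp_shift {q : ℝ → V3 → ℝ} {e : Fin 3 → V3} (he : Ortho e) {w : V3}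
    (hw : ∀ k, w k ≠ 0) {T T' : Ln4} {z0 ρ : ℝ} {b0 b1 : V3} {G : QF}
    (h : IsExp q e w T z0 ρ b0 b1 G) {x0 x1 : V3}
    (hx : ∀ ζ k, dt (e k) (T'.pos (z0 + ρ * ζ) - T.pos (z0 + ρ * ζ)) / w k = x0 k + ζ * x1 k) :
    IsExp q e w T' z0 ρ (fun k => b0 k + gr G x0 k) (fun k => b1 k + gr G x1 k) G := by
  intro ζ y
  have e1 : T'.pos (z0 + ρ * ζ) = T.pos (z0 + ρ * ζ) + cmb (fr e w) (fun k => x0 k + ζ * x1 k) := by
    have h1 := cmb_pc he hw T (z0 + ρ * ζ) (T'.pos (z0 + ρ * ζ))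
    have h2 : pc e w T (z0 + ρ * ζ) (T'.pos (z0 + ρ * ζ)) = fun k => x0 k + ζ * x1 k := by
      funext k; exact hx ζ k
    rw [h2] at h1
    exact h1.symm
  have e2 : T'.pos (z0 + ρ * ζ) + cmb (fr e w) y =
      T.pos (z0 + ρ * ζ) + cmb (fr e w) (fun k => (x0 k + ζ * x1 k) + y k) := by
    rw [e1]
    funext i
    simp only [Pi.add_apply, cmb]
    ring
  rw [e2, h, e1, h, Fq_add]
  ring

/-! ### algebra -/

theorem tan_gr {b0 : V3} (h : b0 0 ≠ 0) (G : QF) (x : V3) :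
    gr G x 1 - b0 1 / b0 0 * gr G x 0 = (shG b0 G).yu * (x 0 + b0 1 / b0 0 * x 1 +
      b0 2 / b0 0 * x 2) + (2 * (shG b0 G).uu * x 1 + (shG b0 G).uv * x 2) ∧
    gr G x 2 - b0 2 / b0 0 * gr G x 0 = (shG b0 G).yv * (x 0 + b0 1 / b0 0 * x 1 +
      b0 2 / b0 0 * x 2) + ((shG b0 G).uv * x 1 + 2 * (shG b0 G).vv * x 2) := by
  simp only [gr, shG, Matrix.cons_val]
  constructor <;> field_simp <;> ring

theorem three_le {p y g u v κ E : ℝ} (hp : |p| ≤ 5) (hy : |y| ≤ E)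
    (hg : |g| ≤ κ * 3 * v) : |p * y + g| ≤ 5 * E + κ * 3 * v := by
  refine (abs_add_le _ _).trans (add_le_add ?_ hg)
  rw [abs_mul]
  exact mul_le_mul hp hy (abs_nonneg _) (by norm_num)

theorem lat3 {a b κ u v m : ℝ} (ha : |a| ≤ κ) (hb : |b| ≤ κ) (hu : |u| ≤ m) (hv : |v| ≤ m) :
    |2 * a * u + b * v| ≤ κ * 3 * m := by
  have hκ : 0 ≤ κ := (abs_nonneg _).trans ha
  have h1 := mul_le_mul ha hu (abs_nonneg _) hκ
  have h2 := mul_le_mul hb hv (abs_nonneg _) hκ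
  rw [← abs_mul] at h1 h2
  have h3 := abs_add_le (2 * a * u) (b * v)
  have h4 : |2 * a * u| = 2 * |a * u| := by
    rw [mul_assoc, abs_mul, abs_of_pos (by norm_num : (0:ℝ) < 2)]
  linarith

theorem lat3' {a b κ u v m : ℝ} (ha : |a| ≤ κ) (hb : |b| ≤ κ) (hu : |u| ≤ m) (hv : |v| ≤ m) :
    |b * u + 2 * a * v| ≤ κ * 3 * m := by
  rw [add_comm]; exact lat3 ha hb hv hu

theorem sh_le {b0 : V3} {G : QF} (hG : G.Le 1) (hs1 : |b0 1 / b0 0| ≤ 2)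
    (hs2 : |b0 2 / b0 0| ≤ 2) : |(shG b0 G).yu| ≤ 5 ∧ |(shG b0 G).yv| ≤ 5 := by
  obtain ⟨m1, m2, m3, m4, m5, m6⟩ := hG
  simp only [shG]
  constructor
  · refine (abs_sub _ _).trans ?_
    rw [abs_mul, abs_mul, abs_of_pos (by norm_num : (0:ℝ) < 2)]
    have := mul_le_mul hs1 m1 (abs_nonneg _) (by norm_num)
    linarith
  · refine (abs_sub _ _).trans ?_
    rw [abs_mul, abs_mul, abs_of_pos (by norm_num : (0:ℝ) < 2)]
    have := mul_le_mul hs2 m1 (abs_nonneg _) (by norm_num)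
    linarith

/-- `kap` at the second line -/
theorem kap_alg {b0 b1 x0 x1 : V3} {G : QF} {E : ℝ} (hb : NrmC b0 b1 G)
    (hb' : NrmC (fun k => b0 k + gr G x0 k) (fun k => b1 k + gr G x1 k) G)
    (hx0 : ∀ k, |x0 k| ≤ 2) (hx1 : ∀ k, |x1 k| ≤ 4)
    (hy0 : |x0 0 + b0 1 / b0 0 * x0 1 + b0 2 / b0 0 * x0 2| ≤ E)
    (hy1 : |x1 0 + b0 1 / b0 0 * x1 1 + b0 2 / b0 0 * x1 2| ≤ 2 * E) :
    kap (fun k => b0 k + gr G x0 k) (fun k => b1 k + gr G x1 k) G ≤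
      300 * (E + kap b0 b1 G) := by
  obtain ⟨kb1, kb2, kuu, kuv, kvv⟩ := kap_comp b0 b1 G
  set κ := kap b0 b1 G with hκdef
  have hκ0 : 0 ≤ κ := (abs_nonneg _).trans kb1
  have hE0 : 0 ≤ E := (abs_nonneg _).trans hy0
  set c0 : V3 := fun k => b0 k + gr G x0 k with hc0
  set c1 : V3 := fun k => b1 k + gr G x1 k with hc1
  have a1 : |(1:ℝ)| ≤ 1 := by norm_num
  have a0 : |(0:ℝ)| ≤ 1 := by norm_num
  -- sizes
  have g0 := hb.st 0 le_rfl zero_le_one 0 0 0 a0 a0 a0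
  have g0' := hb'.st 0 le_rfl zero_le_one 0 0 0 a0 a0 a0
  have g1' := hb'.st 1 zero_le_one le_rfl 0 0 0 a0 a0 a0
  simp only [zero_mul, mul_zero, add_zero, one_mul] at g0 g0' g1'
  obtain ⟨gl, gu⟩ := g0
  obtain ⟨gl', gu'⟩ := g0'
  obtain ⟨gl1', gu1'⟩ := g1'
  have hbp : 0 < b0 0 := by linarith
  have hcp : 0 < c0 0 := by linarith
  have slope : ∀ {p r : ℝ}, 1 / 2 ≤ p → |r| ≤ 1 → |r / p| ≤ 2 := by
    intro p r hp hr
    rw [abs_div, abs_of_pos (by linarith : (0:ℝ) < p), div_le_iff₀ (by linarith)]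
    linarith
  have s1 := slope gl hb.b01
  have s2 := slope gl hb.b02
  have s1' := slope gl' hb'.b01
  have s2' := slope gl' hb'.b02
  have hc1 : |c1 0| ≤ 3 / 2 := by rw [abs_le]; constructor <;> linarith
  obtain ⟨m1, m2, m3, m4, m5, m6⟩ := hb.G_le
  obtain ⟨y1, y2⟩ := sh_le hb.G_le s1 s2
  obtain ⟨t1, t2⟩ := tan_gr hbp.ne' G x0
  obtain ⟨t3, t4⟩ := tan_gr hbp.ne' G x1
  set δ1 := c0 1 / c0 0 - b0 1 / b0 0 with hδ1
  set δ2 := c0 2 / c0 0 - b0 2 / b0 0 with hδ2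
  have d1 : c0 0 * δ1 = gr G x0 1 - b0 1 / b0 0 * gr G x0 0 := by
    rw [hδ1, mul_sub, mul_div_cancel₀ _ hcp.ne']
    simp only [hc0]
    field_simp
    ring
  have d2 : c0 0 * δ2 = gr G x0 2 - b0 2 / b0 0 * gr G x0 0 := by
    rw [hδ2, mul_sub, mul_div_cancel₀ _ hcp.ne']
    simp only [hc0]
    field_simp
    ring
  have n1 : |c0 0 * δ1| ≤ 5 * E + κ * 3 * 2 := by
    rw [d1, t1]
    exact three_le (u := 0) y1 hy0 (lat3 kuu kuv (hx0 1) (hx0 2))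
  have n2 : |c0 0 * δ2| ≤ 5 * E + κ * 3 * 2 := by
    rw [d2, t2]
    exact three_le (u := 0) y2 hy0 (lat3' kvv kuv (hx0 1) (hx0 2))
  have hδ : ∀ {d : ℝ}, |c0 0 * d| ≤ 5 * E + κ * 3 * 2 → |d| ≤ 10 * E + 12 * κ := by
    intro d hd
    rw [abs_mul, abs_of_pos hcp] at hd
    have := mul_le_mul_of_nonneg_right gl' (abs_nonneg d)
    linarith
  have k1 := hδ n1
  have k2 := hδ n2
  have b4 : |δ1| ≤ 4 := by rw [hδ1]; exact (abs_sub _ _).trans (by linarith)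
  have b4' : |δ2| ≤ 4 := by rw [hδ2]; exact (abs_sub _ _).trans (by linarith)
  have r1 : b0 1 / b0 0 = c0 1 / c0 0 - δ1 := by rw [hδ1]; ring
  have r2 : b0 2 / b0 0 = c0 2 / c0 0 - δ2 := by rw [hδ2]; ring
  have mm : ∀ {a b A B : ℝ}, |a| ≤ A → |b| ≤ B → |a * b| ≤ A * B := by
    intro a b A B h1 h2
    rw [abs_mul]; exact mul_le_mul h1 h2 (abs_nonneg _) ((abs_nonneg _).trans h1)
  have p11 : |δ1 * (shG b0 G).yu| ≤ (10 * E + 12 * κ) * 5 := mm k1 y1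
  have p12 : |δ2 * (shG b0 G).yu| ≤ (10 * E + 12 * κ) * 5 := mm k2 y1
  have p21 : |δ1 * (shG b0 G).yv| ≤ (10 * E + 12 * κ) * 5 := mm k1 y2
  have p22 : |δ2 * (shG b0 G).yv| ≤ (10 * E + 12 * κ) * 5 := mm k2 y2
  have q11 : |δ1 * (δ1 * G.yy)| ≤ (10 * E + 12 * κ) * (4 * 1) := mm k1 (mm b4 m1)
  have q12 : |δ1 * (δ2 * G.yy)| ≤ (10 * E + 12 * κ) * (4 * 1) := mm k1 (mm b4' m1)
  have q22 : |δ2 * (δ2 * G.yy)| ≤ (10 * E + 12 * κ) * (4 * 1) := mm k2 (mm b4' m1)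
  have c11 : |δ1 * c1 0| ≤ (10 * E + 12 * κ) * (3 / 2) := mm k1 hc1
  have c21 : |δ2 * c1 0| ≤ (10 * E + 12 * κ) * (3 / 2) := mm k2 hc1
  unfold kap
  refine max_le (max_le ?_ ?_) (max_le (max_le ?_ ?_) ?_)
  · have e1 : shB1 c0 c1 1 = shB1 b0 b1 1 + (gr G x1 1 - b0 1 / b0 0 * gr G x1 0) - δ1 * c1 0 := by
      simp only [shB1, hδ1, Matrix.cons_val]
      simp only [c1]
      ring
    have n3 : |gr G x1 1 - b0 1 / b0 0 * gr G x1 0| ≤ 5 * (2 * E) + κ * 3 * 4 := by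
      rw [t3]; exact three_le (u := 0) y1 hy1 (lat3 kuu kuv (hx1 1) (hx1 2))
    rw [e1]
    have := abs_sub (shB1 b0 b1 1 + (gr G x1 1 - b0 1 / b0 0 * gr G x1 0)) (δ1 * c1 0)
    have := abs_add_le (shB1 b0 b1 1) (gr G x1 1 - b0 1 / b0 0 * gr G x1 0)
    linarith
  · have e1 : shB1 c0 c1 2 = shB1 b0 b1 2 + (gr G x1 2 - b0 2 / b0 0 * gr G x1 0) - δ2 * c1 0 := by
      simp only [shB1, hδ2, Matrix.cons_val]
      simp only [c1]
      ring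
    have n3 : |gr G x1 2 - b0 2 / b0 0 * gr G x1 0| ≤ 5 * (2 * E) + κ * 3 * 4 := by
      rw [t4]; exact three_le (u := 0) y2 hy1 (lat3' kvv kuv (hx1 1) (hx1 2))
    rw [e1]
    have := abs_sub (shB1 b0 b1 2 + (gr G x1 2 - b0 2 / b0 0 * gr G x1 0)) (δ2 * c1 0)
    have := abs_add_le (shB1 b0 b1 2) (gr G x1 2 - b0 2 / b0 0 * gr G x1 0)
    linarith
  · have e1 : (shG c0 G).uu = (shG b0 G).uu - δ1 * (shG b0 G).yu + δ1 * (δ1 * G.yy) := by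
      simp only [shG, r1]; ring
    rw [e1]
    have := abs_add_le ((shG b0 G).uu - δ1 * (shG b0 G).yu) (δ1 * (δ1 * G.yy))
    have := abs_sub (shG b0 G).uu (δ1 * (shG b0 G).yu)
    linarith
  · have e1 : (shG c0 G).uv = (shG b0 G).uv - δ2 * (shG b0 G).yu - δ1 * (shG b0 G).yv +
        2 * (δ1 * (δ2 * G.yy)) := by
      simp only [shG, r1, r2]; ring
    rw [e1]
    have := abs_add_le ((shG b0 G).uv - δ2 * (shG b0 G).yu - δ1 * (shG b0 G).yv)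
      (2 * (δ1 * (δ2 * G.yy)))
    have := abs_sub ((shG b0 G).uv - δ2 * (shG b0 G).yu) (δ1 * (shG b0 G).yv)
    have := abs_sub (shG b0 G).uv (δ2 * (shG b0 G).yu)
    have e5 : |2 * (δ1 * (δ2 * G.yy))| = 2 * |δ1 * (δ2 * G.yy)| := by
      rw [abs_mul, abs_of_pos (by norm_num : (0:ℝ) < 2)]
    linarith
  · have e1 : (shG c0 G).vv = (shG b0 G).vv - δ2 * (shG b0 G).yv + δ2 * (δ2 * G.yy) := by
      simp only [shG, r2]; ring
    rw [e1]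
    have := abs_add_le ((shG b0 G).vv - δ2 * (shG b0 G).yv) (δ2 * (δ2 * G.yy))
    have := abs_sub (shG b0 G).vv (δ2 * (shG b0 G).yv)
    linarith


/-! ### two lines of a sheet -/

/-- **the sheet stays near its tangent plane** : lines of `S` -/
theorem line_tan {S : Plk4} {T T' : Ln4} {z0 ρ r : ℝ} (hρ : 0 < ρ) (hr : 0 < r)
    (hS : Shp S z0 ρ r) (hT : InP T S z0 ρ) (hT' : InP T' S z0 ρ) {ζ : ℝ} (hζ : 0 ≤ ζ)
    (hζ' : ζ ≤ 1) {x : V3}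
    (hx : ∀ i, x i = dt (S.e i) (T'.pos (z0 + ρ * ζ) - T.pos (z0 + ρ * ζ)) / S.w i) :
    S.w 0 * |(expP S z0 ρ T).1 0 * x 0 + (expP S z0 ρ T).1 1 * x 1 + (expP S z0 ρ T).1 2 * x 2| ≤
      80 * S.a + 900 * kapP S z0 ρ T := by
  have hw0 : 0 < S.w 0 := (hr.trans_le hS.r0_le).trans_le hS.a_le0
  have hSt := StP.of_shN hS hw0
  have hwne : ∀ k, S.w k ≠ 0 := fun k => (hSt.pos k).ne'
  have hE := expP_spec hS.isQ hw0.ne' z0 ρ T
  set b0 := (expP S z0 ρ T).1 with hb0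
  set b1 := (expP S z0 ρ T).2.1 with hb1
  set G := (expP S z0 ρ T).2.2 with hG
  have z1 : z0 ≤ z0 + ρ * ζ := by nlinarith
  have z2 : z0 + ρ * ζ ≤ z0 + ρ := by nlinarith
  have hN := IsExp.nrmC hSt hρ.le (fun z h1 h2 => (hT z h1 h2).1) hE
  have h1 := tan_le hSt hρ.le hN hE hζ hζ' (hT _ z1 z2).1 (X := T'.pos (z0 + ρ * ζ)) (x := x)
    (fun i => ((hT' _ z1 z2).1 i).trans (by have := hSt.pos i; linarith)) hx
  have h2 : x = pc S.e S.w T (z0 + ρ * ζ) (T'.pos (z0 + ρ * ζ)) := by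
    funext i; rw [hx]; rfl
  have h3 := hE ζ x
  rw [h2, cmb_pc hSt.ortho hwne, ← h2] at h3
  have h4 : S.w 0 * |Fq b0 b1 G ζ x| ≤ 2 * S.a := by
    have e1 : S.w 0 * |Fq b0 b1 G ζ x| = |S.w 0 * Fq b0 b1 G ζ x| := by
      rw [abs_mul, abs_of_pos hw0]
    have e2 : S.w 0 * Fq b0 b1 G ζ x = S.q (z0 + ρ * ζ) (T'.pos (z0 + ρ * ζ)) -
        S.q (z0 + ρ * ζ) (T.pos (z0 + ρ * ζ)) := by rw [h3]; ring
    rw [e1, e2]
    refine (abs_sub _ _).trans ?_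
    linarith [(hT _ z1 z2).2, (hT' _ z1 z2).2]
  have h5 : kapP S z0 ρ T = S.w 0 * kap b0 b1 G := rfl
  rw [h5]
  have h6 := mul_le_mul_of_nonneg_left h1 hw0.le
  linarith

/-- **the curvature extents at two lines of a sheet are comparable** -/
theorem kapP_comp {S : Plk4} {T T' : Ln4} {z0 ρ r : ℝ} (hρ : 0 < ρ) (hr : 0 < r)
    (hS : Shp S z0 ρ r) (hT : InP T S z0 ρ) (hT' : InP T' S z0 ρ) :
    kapP S z0 ρ T' ≤ 600000 * (S.a + kapP S z0 ρ T) := by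
  have ha : 0 < S.a := hr.trans_le hS.r0_le
  have hw0 : 0 < S.w 0 := ha.trans_le hS.a_le0
  have hSt := StP.of_shN hS hw0
  have hwne : ∀ k, S.w k ≠ 0 := fun k => (hSt.pos k).ne'
  have hE := expP_spec hS.isQ hw0.ne' z0 ρ T
  have hN := IsExp.nrmC hSt hρ.le (fun z h1 h2 => (hT z h1 h2).1) hE
  set x0 : V3 := fun k => dt (S.e k) (T'.pos z0 - T.pos z0) / S.w k with hx0
  set x1 : V3 := fun k => ρ * dt (S.e k) (T'.v - T.v) / S.w k with hx1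
  have hx : ∀ ζ k, dt (S.e k) (T'.pos (z0 + ρ * ζ) - T.pos (z0 + ρ * ζ)) / S.w k =
      x0 k + ζ * x1 k := by
    intro ζ k
    have hk := hwne k
    simp only [hx0, hx1, dt, Ln4.pos, Pi.sub_apply]
    field_simp
    ring
  have hE' := isExp_shift hSt.ortho hwne hE hx
  have hN' := IsExp.nrmC hSt hρ.le (fun z h1 h2 => (hT' z h1 h2).1) hE'
  have l0 := line_tan hρ hr hS hT hT' (ζ := 0) le_rfl zero_le_one (x := fun k => x0 k + 0 * x1 k)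
    (fun i => (hx 0 i).symm)
  have l1 := line_tan hρ hr hS hT hT' (ζ := 1) zero_le_one le_rfl (x := fun k => x0 k + 1 * x1 k)
    (fun i => (hx 1 i).symm)
  have hk : kapP S z0 ρ T = S.w 0 * kap (expP S z0 ρ T).1 (expP S z0 ρ T).2.1
    (expP S z0 ρ T).2.2 := rfl
  have hk' : kapP S z0 ρ T' = S.w 0 * kap (fun k => (expP S z0 ρ T).1 k +
      gr (expP S z0 ρ T).2.2 x0 k) (fun k => (expP S z0 ρ T).2.1 k +
      gr (expP S z0 ρ T).2.2 x1 k) (expP S z0 ρ T).2.2 := kapP_eq hw0.ne' hE'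
  set b0 := (expP S z0 ρ T).1 with hb0
  set b1 := (expP S z0 ρ T).2.1 with hb1
  set G := (expP S z0 ρ T).2.2 with hG
  have bx : ∀ ζ, 0 ≤ ζ → ζ ≤ 1 → ∀ k, |x0 k + ζ * x1 k| ≤ 2 := by
    intro ζ h1 h2 k
    have z1 : z0 ≤ z0 + ρ * ζ := by nlinarith
    have z2 : z0 + ρ * ζ ≤ z0 + ρ := by nlinarith
    rw [← hx, abs_div, abs_of_pos (hSt.pos k), div_le_iff₀ (hSt.pos k)]
    have e1 : T'.pos (z0 + ρ * ζ) - T.pos (z0 + ρ * ζ) = (T'.pos (z0 + ρ * ζ) -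
      S.c.pos (z0 + ρ * ζ)) - (T.pos (z0 + ρ * ζ) - S.c.pos (z0 + ρ * ζ)) := by abel
    rw [e1, dt_sub]
    refine (abs_sub _ _).trans ?_
    linarith [(hT _ z1 z2).1 k, (hT' _ z1 z2).1 k]
  have b00 := bx 0 le_rfl zero_le_one
  have b11 := bx 1 zero_le_one le_rfl
  have c0 : ∀ k, |x0 k| ≤ 2 := fun k => by have := b00 k; simpa using this
  have c1 : ∀ k, |x1 k| ≤ 4 := by
    intro k
    have h1 := abs_le.1 (b11 k)
    have h2 := abs_le.1 (c0 k)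
    rw [abs_le]
    constructor
    · linarith [h1.1, h2.2]
    · linarith [h1.2, h2.1]
  have g0 := hN.st 0 le_rfl zero_le_one 0 0 0 (by norm_num) (by norm_num) (by norm_num)
  simp only [zero_mul, mul_zero, add_zero] at g0
  obtain ⟨gl, gu⟩ := g0
  have hbp : 0 < b0 0 := by linarith
  set κ := kap b0 b1 G with hκ
  set E1 := (80 * S.a + 900 * (S.w 0 * κ)) / S.w 0 with hE1
  have hy : ∀ v : V3, S.w 0 * |b0 0 * v 0 + b0 1 * v 1 + b0 2 * v 2| ≤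
      80 * S.a + 900 * kapP S z0 ρ T →
      |v 0 + b0 1 / b0 0 * v 1 + b0 2 / b0 0 * v 2| ≤ 2 * E1 := by
    intro v hv
    have e1 : b0 0 * (v 0 + b0 1 / b0 0 * v 1 + b0 2 / b0 0 * v 2) =
        b0 0 * v 0 + b0 1 * v 1 + b0 2 * v 2 := by field_simp
    have h1 : |b0 0 * v 0 + b0 1 * v 1 + b0 2 * v 2| ≤ E1 := by
      rw [hE1, le_div_iff₀ hw0, mul_comm]
      rw [hk] at hv
      exact hv
    rw [← e1, abs_mul, abs_of_pos hbp] at h1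
    have h2 := mul_le_mul_of_nonneg_right gl
      (abs_nonneg (v 0 + b0 1 / b0 0 * v 1 + b0 2 / b0 0 * v 2))
    linarith
  have y0 : |x0 0 + b0 1 / b0 0 * x0 1 + b0 2 / b0 0 * x0 2| ≤ 2 * E1 := by
    have := hy (fun k => x0 k + 0 * x1 k) l0
    simpa using this
  have y1 : |x1 0 + b0 1 / b0 0 * x1 1 + b0 2 / b0 0 * x1 2| ≤ 2 * (2 * E1) := by
    have h1 := hy (fun k => x0 k + 1 * x1 k) l1
    have e1 : x1 0 + b0 1 / b0 0 * x1 1 + b0 2 / b0 0 * x1 2 =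
      ((x0 0 + 1 * x1 0) + b0 1 / b0 0 * (x0 1 + 1 * x1 1) + b0 2 / b0 0 * (x0 2 + 1 * x1 2)) -
      (x0 0 + b0 1 / b0 0 * x0 1 + b0 2 / b0 0 * x0 2) := by ring
    rw [e1]
    refine (abs_sub _ _).trans ?_
    linarith
  have hfin := kap_alg hN hN' c0 c1 y0 y1
  rw [hk', hk]
  have h7 := mul_le_mul_of_nonneg_left hfin hw0.le
  have h8 : S.w 0 * (300 * (2 * E1 + κ)) = 600 * (80 * S.a + 900 * (S.w 0 * κ)) +
      300 * (S.w 0 * κ) := by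
    rw [hE1]; field_simp; ring
  have h9 : 0 ≤ S.w 0 * κ := mul_nonneg hw0.le ((abs_nonneg _).trans (kap_comp b0 b1 G).1)
  linarith

end Crest.Agent.R136.Kpc104
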