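import Crest.Agent.R136.Gr2_356
import Crest.Agent.R136.EvW3_938

-- ▼ part R136/TrI_938
section

/-!
# R136: transfer principle with a twist depending on the line (helper938)

`transferI_R` : `transfer_R` of helper356 where the good pairs of heights may depend on the line and
are only a `ρ^ε`-part of all pairs.  `shiftI_R` : visible shift of a slot `sX` in a slot `sN` with
a multiplier depending on the line.
-/

set_option autoImplicit false
set_option linter.unusedVariables false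
set_option linter.unusedSectionVars false

open Filter Topology Finset

namespace Crest.Agent.R136.TrI938

open Crest.Agent.R138.Ex926 (Base U)
open Crest.Agent.R136.Gf356

variable {κ : Type} {B : Base} {G : ℕ → RCfg κ} {Leg : Set (κ → ℝ)} {ν : (κ → ℝ) → ℝ}
  {σ R D : ℝ}

/-- a pair of heights which is good for many lines -/
theorem good_pairI {L Z : Finset ℕ} {I : Finset (ℕ × ℕ)} {T : ℕ → Finset (ℕ × ℕ)} {θ τ : ℝ}
    (hθ : 0 ≤ θ) (hτ : 0 ≤ τ) (hL : L.Nonempty) (hZ : Z.Nonempty) (h : ℕ → Finset ℕ)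
    (hh : ∀ i ∈ L, h i ⊆ Z) (hal : ∀ i ∈ L, θ * (Z.card : ℝ) ≤ ((h i).card : ℝ))
    (hT : ∀ i ∈ L, T i ⊆ h i ×ˢ h i) (hTc : ∀ i ∈ L, τ * ((h i).card : ℝ) ^ 2 ≤ ((T i).card : ℝ)) :
    ∃ k ∈ Z, ∃ k' ∈ Z, τ * θ ^ 2 * (L.card : ℝ) ≤
      ((L.filter fun i => (k, k') ∈ T i).card : ℝ) := by
  classical
  by_contra hcon
  push Not at hcon
  have hZ0 : (0 : ℝ) < Z.card := by exact_mod_cast hZ.card_pos
  have hL0 : (0 : ℝ) < L.card := by exact_mod_cast hL.card_pos
  have h1 : ∑ i ∈ L, ((T i).card : ℝ) =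
      ∑ q ∈ Z ×ˢ Z, ((L.filter fun i => q ∈ T i).card : ℝ) := by
    have e : ∀ i ∈ L, (T i).card = ((Z ×ˢ Z).filter fun q => q ∈ T i).card := by
      intro i hi
      congr 1
      ext q
      rw [Finset.mem_filter]
      constructor
      · intro hq
        have := Finset.mem_product.1 (hT i hi hq)
        exact ⟨Finset.mem_product.2 ⟨hh i hi this.1, hh i hi this.2⟩, hq⟩
      · exact fun hq => hq.2
    have : ∑ i ∈ L, (T i).card = ∑ q ∈ Z ×ˢ Z, (L.filter fun i => q ∈ T i).card := by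
      rw [Finset.sum_congr rfl e]
      simp only [Finset.card_filter]
      exact Finset.sum_comm
    exact_mod_cast this
  have h2 : (L.card : ℝ) * (τ * θ ^ 2 * (Z.card : ℝ) ^ 2) ≤ ∑ i ∈ L, ((T i).card : ℝ) := by
    calc (L.card : ℝ) * (τ * θ ^ 2 * (Z.card : ℝ) ^ 2)
        = ∑ i ∈ L, τ * θ ^ 2 * (Z.card : ℝ) ^ 2 := by rw [Finset.sum_const, nsmul_eq_mul]
      _ ≤ _ := Finset.sum_le_sum fun i hi => by
          refine le_trans ?_ (hTc i hi)
          have e6 : (θ * (Z.card : ℝ)) ^ 2 ≤ ((h i).card : ℝ) ^ 2 :=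
            pow_le_pow_left₀ (by positivity) (hal i hi) 2
          have := mul_le_mul_of_nonneg_left e6 hτ
          calc τ * θ ^ 2 * (Z.card : ℝ) ^ 2 = τ * (θ * (Z.card : ℝ)) ^ 2 := by ring
            _ ≤ _ := this
  have hne : (Z ×ˢ Z).Nonempty := hZ.product hZ
  have h3 : ∑ q ∈ Z ×ˢ Z, ((L.filter fun i => q ∈ T i).card : ℝ) <
      ∑ q ∈ Z ×ˢ Z, τ * θ ^ 2 * (L.card : ℝ) := by
    refine Finset.sum_lt_sum_of_nonempty hne fun q hq => ?_
    obtain ⟨a, b⟩ := Finset.mem_product.1 hq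
    exact hcon q.1 a q.2 b
  rw [Finset.sum_const, nsmul_eq_mul, Finset.card_product] at h3
  push_cast at h3
  have e : (Z.card : ℝ) * Z.card * (τ * θ ^ 2 * L.card) =
      (L.card : ℝ) * (τ * θ ^ 2 * (Z.card : ℝ) ^ 2) := by ring
  rw [e] at h3
  linarith

/-- **transfer principle**, good pairs depending on the line. -/
theorem transferI_R (H : RModel B G σ R Leg ν D) (p p' pT r : κ → ℝ)
    (hp : p ∈ Leg) (hp' : p' ∈ Leg) (hpT : pT ∈ Leg) (hr : r ∈ Leg) (hTr : ∀ j, pT j ≤ r j)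
    (good : ℕ → ℝ → ℕ → ℕ → ℕ → Prop)
    (hgood : ∀ ε : ℝ, 0 < ε → ∀ᶠ n in (U : Filter ℕ), ∀ i ∈ (G n).L,
      ∃ T ⊆ ((G n).hts i) ×ˢ ((G n).hts i), (∀ q ∈ T, good n ε i q.1 q.2) ∧
      B.d n ^ ε * (((G n).hts i).card : ℝ) ^ 2 ≤ (T.card : ℝ))
    (hgeo : ∀ C0 : ℝ, 0 < C0 → ∃ C1 : ℝ, 0 < C1 ∧ ∀ C2 : ℝ, 0 < C2 → ∃ C3 : ℝ, 0 < C3 ∧
      ∀ ε : ℝ, 0 < ε → ∀ᶠ n in (U : Filter ℕ), ∀ k ∈ (G n).Z, ∀ k' ∈ (G n).Z,
      ∀ i i', (i, k) ∈ (G n).I → (i, k') ∈ (G n).I → (i', k) ∈ (G n).I →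
      (i', k') ∈ (G n).I → good n ε i k k' → good n ε i' k k' →
      (G n).loose p (C0 * ε) k i i' →
      (G n).loose pT (C1 * ε) k' i i' ∧
      ((G n).loose r (C2 * ε) k' i i' → (G n).loose p' (C3 * ε) k i i')) :
    ν p - ν p' ≤ ν pT - ν r := by
  classical
  have hD := H.D1
  have hD0 : 0 < D := by linarith
  obtain ⟨C1, hC1, hgeo1⟩ := hgeo (D ^ 5) (by positivity)
  obtain ⟨C3, hC3, hgeo2⟩ := hgeo1 (D ^ 5 * C1) (by positivity)
  have key := le_of_ev B (-ν p) (-(ν pT - ν r) - ν p') ((D ^ 2 + 1) * C1 + D * C3 + 6) 1 (by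
    intro ε hε
    have hC1ε : 0 < C1 * ε := by positivity
    have hC3ε : 0 < C3 * ε := by positivity
    filter_upwards [H.line ε hε, hgood ε hε, hgeo2 ε hε, H.exists_lab p hp hε,
      H.exists_lab_loose pT r hpT hr hTr hC1ε, H.up p' hp' (C3 * ε) hC3ε] with n hline hgoodn
      hgeon hlabp hcells hup
    have hpow : ∀ t : ℝ, 0 < B.d n ^ t := fun t => rpos B n t
    obtain ⟨⟨i1, k1⟩, hI1⟩ := H.nonempty n
    have hLne : (G n).L.Nonempty := ⟨i1, H.memL hI1⟩
    have hZne : (G n).Z.Nonempty := ⟨k1, H.memZ hI1⟩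
    have hL0 : (0 : ℝ) < (G n).L.card := by exact_mod_cast hLne.card_pos
    choose! T hT1 hT2 hT3 using hgoodn
    -- good pair
    obtain ⟨k, hk, k', hk', hcard⟩ := good_pairI (I := (G n).I) (hpow ε).le (hpow ε).le hLne hZne
      (fun i => (G n).hts i) (fun i hi => Finset.filter_subset _ _) hline hT1 hT3
    set T0 := (G n).L.filter fun i => (k, k') ∈ T i with hT0
    have hT0I : ∀ i ∈ T0, (i, k) ∈ (G n).I ∧ (i, k') ∈ (G n).I ∧ good n ε i k k' := by
      intro i hi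
      obtain ⟨a, b⟩ := Finset.mem_filter.1 hi
      have c := Finset.mem_product.1 (hT1 i a b)
      exact ⟨(RCfg.mem_hts.1 c.1).2, (RCfg.mem_hts.1 c.2).2, hT2 i a _ b⟩
    have hT0pos : (0 : ℝ) < T0.card := by
      have e1 := hpow ε
      exact lt_of_lt_of_le (by positivity) hcard
    have hT0ne : T0.Nonempty := by rw [← Finset.card_pos]; exact_mod_cast hT0pos
    -- cells at `k`
    obtain ⟨lab, hlab1, hlab2⟩ := hlabp k T0 (fun i hi => H.memSlice.2 (hT0I i hi).1) (G n).L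
      (fun t _ => RCfg.box_subset_slice.trans (Finset.filter_subset _ _))
    obtain ⟨i0, hi0, hfib⟩ := exists_fibre T0 lab hT0ne hlab2
    set S := T0.filter fun i => lab i = lab i0 with hS
    have hSI : ∀ i ∈ S, (i, k) ∈ (G n).I ∧ (i, k') ∈ (G n).I ∧ good n ε i k k' := by
      intro i hi
      exact hT0I i (Finset.mem_filter.1 hi).1
    have hSnear : ∀ i ∈ S, ∀ i' ∈ S, (G n).loose p (D ^ 5 * ε) k i i' := by
      intro i hi i' hi'
      obtain ⟨a1, a2⟩ := Finset.mem_filter.1 hi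
      obtain ⟨b1, b2⟩ := Finset.mem_filter.1 hi'
      exact hlab1 i a1 i' b1 (by rw [a2, b2])
    -- lower bound of `S`
    have hSlow : B.d n ^ (-ν p + 4 * ε) ≤ (S.card : ℝ) := by
      have g1 : B.d n ^ ε * (B.d n ^ ε) ^ 2 * ((G n).L.card : ℝ) ≤
          (G n).L.card * B.d n ^ (ν p - ε) * (S.card : ℝ) := hcard.trans hfib
      have g2 : B.d n ^ ε * (B.d n ^ ε) ^ 2 ≤ B.d n ^ (ν p - ε) * (S.card : ℝ) := by
        have : (B.d n ^ ε * (B.d n ^ ε) ^ 2) * ((G n).L.card : ℝ) ≤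
            (B.d n ^ (ν p - ε) * (S.card : ℝ)) * ((G n).L.card : ℝ) := by linarith
        exact le_of_mul_le_mul_right this hL0
      have g3 : B.d n ^ (3 * ε) = B.d n ^ ε * (B.d n ^ ε) ^ 2 := by
        rw [sq, ← rpow_add', ← rpow_add']; congr 1; ring
      have g4 : B.d n ^ (3 * ε) ≤ (S.card : ℝ) * B.d n ^ (ν p - ε) := by
        rw [g3]
        exact g2.trans (le_of_eq (mul_comm _ _))
      have g5 : B.d n ^ (-ν p + 4 * ε) * B.d n ^ (ν p - ε) = B.d n ^ (3 * ε) := by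
        rw [← rpow_add']; congr 1; ring
      rw [← g5] at g4
      exact le_of_mul_le_mul_right g4 (hpow _)
    -- cells at `k'`
    have hSsl : S ⊆ (G n).slice k' := fun i hi => H.memSlice.2 (hSI i hi).2.1
    have hgeoS : ∀ i ∈ S, ∀ i' ∈ S, (G n).loose pT (C1 * ε) k' i i' ∧
        ((G n).loose r (D ^ 5 * C1 * ε) k' i i' → (G n).loose p' (C3 * ε) k i i') := by
      intro i hi i' hi'
      exact hgeon k hk k' hk' i i' (hSI i hi).1 (hSI i hi).2.1 (hSI i' hi').1 (hSI i' hi').2.1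
        (hSI i hi).2.2 (hSI i' hi').2.2 (hSnear i hi i' hi')
    obtain ⟨lab', hlab1', hlab2'⟩ := hcells k' S hSsl (fun i hi i' hi' => (hgeoS i hi i' hi').1)
    have hSne : S.Nonempty := ⟨i0, Finset.mem_filter.2 ⟨hi0, rfl⟩⟩
    obtain ⟨i2, hi2, hfib2⟩ := exists_fibre S lab' hSne hlab2'
    have hfc : ((S.filter fun i => lab' i = lab' i2).card : ℝ) ≤
        B.d n ^ (-ν p' - D * (C3 * ε)) := by
      refine le_trans ?_ (hup i2 k (hSI i2 hi2).1)
      refine mod_cast Finset.card_le_card ?_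
      intro i hi
      obtain ⟨b1, b2⟩ := Finset.mem_filter.1 hi
      refine RCfg.mem_box.2 ⟨H.memSlice.2 (hSI i b1).1, ?_⟩
      refine (hgeoS i2 hi2 i b1).2 ?_
      have := hlab1' i2 hi2 i b1 b2.symm
      have e1 : D ^ 5 * (C1 * ε) = D ^ 5 * C1 * ε := by ring
      rwa [e1] at this
    calc B.d n ^ (-ν p + ((D ^ 2 + 1) * C1 + D * C3 + 6) * ε)
        ≤ B.d n ^ (-ν p + 4 * ε) := rpow_anti B n (by
          have : 0 ≤ ((D ^ 2 + 1) * C1 + D * C3) * ε := by positivity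
          nlinarith)
      _ ≤ (S.card : ℝ) := hSlow
      _ ≤ _ := hfib2
      _ ≤ B.d n ^ (-(ν pT - ν r) - (D ^ 2 + 1) * (C1 * ε)) * B.d n ^ (-ν p' - D * (C3 * ε)) :=
          mul_le_mul_of_nonneg_left hfc (hpow _).le
      _ = B.d n ^ (-(ν pT - ν r) - ν p' - ((D ^ 2 + 1) * C1 + D * C3) * ε) := by
          rw [← rpow_add']; congr 1; ring
      _ ≤ B.d n ^ (-(ν pT - ν r) - ν p' - ((D ^ 2 + 1) * C1 + D * C3 + 6) * ε) :=
          rpow_anti B n (by nlinarith)
      _ = _ := by rw [one_mul])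
  linarith

/-- **raw twist depending on the line**: a `ρ^ε`-part of the pairs of heights of every line has a
multiplier `> ρ^ε`. -/
def RawTwI (B : Base) (G : ℕ → RCfg κ) (φ : ℕ → ℕ → ℕ → ℕ → ℝ) : Prop :=
  ∀ ε : ℝ, 0 < ε → ∀ᶠ n in (U : Filter ℕ), ∀ i ∈ (G n).L,
    ∃ T ⊆ ((G n).hts i) ×ˢ ((G n).hts i), (∀ q ∈ T, B.d n ^ ε < |φ n i q.1 q.2|) ∧
    B.d n ^ ε * (((G n).hts i).card : ℝ) ^ 2 ≤ (T.card : ℝ)


/-- **visible shift**, multiplier depending on the line. -/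
theorem shiftI_R (H : RModel B G σ R Leg ν D) (p p' pT r : κ → ℝ)
    (hp : p ∈ Leg) (hp' : p' ∈ Leg) (hpT : pT ∈ Leg) (hr : r ∈ Leg) (hTr : ∀ j, pT j ≤ r j)
    (sX sN : κ) {y : ℝ} (hX : p' sX ≤ y) (ho : ∀ j, j ≠ sX → p' j ≤ p j) (hN : y ≤ r sN)
    (φ : ℕ → ℕ → ℕ → ℕ → ℝ) (htw : RawTwI B G φ)
    (hgeo : ∀ C0 : ℝ, 0 < C0 → ∃ C1 : ℝ, 0 < C1 ∧ ∀ ε : ℝ, 0 < ε → ∀ᶠ n in (U : Filter ℕ),
      ∀ k ∈ (G n).Z, ∀ k' ∈ (G n).Z, ∀ i i', (i, k) ∈ (G n).I → (i, k') ∈ (G n).I →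
      (i', k) ∈ (G n).I → (i', k') ∈ (G n).I → (G n).loose p (C0 * ε) k i i' →
      (G n).loose pT (C1 * ε) k' i i' ∧
      |(G n).rel k' i i' sN - φ n i k k' * (G n).rel k i i' sX| ≤ B.d n ^ (y - C1 * ε)) :
    ν p - ν p' ≤ ν pT - ν r := by
  refine transferI_R H p p' pT r hp hp' hpT hr hTr (fun n ε i k k' => B.d n ^ ε < |φ n i k k'|)
    (fun ε hε => htw ε hε) ?_
  intro C0 hC0
  obtain ⟨C1, hC1, h1⟩ := hgeo C0 hC0
  refine ⟨C1, hC1, fun C2 hC2 => ⟨C0 + C1 + C2 + 2, by positivity, fun ε hε => ?_⟩⟩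
  filter_upwards [h1 ε hε, ev_const_le B hε 2] with n hn h2 k hk k' hk' i i' hi hi' hl hl' hnb _
    hlo
  obtain ⟨a1, a2⟩ := hn k hk k' hk' i i' hi hi' hl hl' hlo
  refine ⟨a1, fun hr' j => ?_⟩
  have hpow : ∀ t : ℝ, 0 < B.d n ^ t := fun t => rpos B n t
  rw [H.base n]
  by_cases hj : j = sX
  · subst hj
    have b1 : |(G n).rel k' i i' sN| ≤ B.d n ^ (y - (C1 + C2) * ε) := by
      have := hr' sN
      rw [H.base n] at this
      refine this.trans (rpow_anti B n ?_)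
      have : 0 ≤ C1 * ε := by positivity
      nlinarith
    have b2 : |φ n i k k' * (G n).rel k i i' j| ≤ 2 * B.d n ^ (y - (C1 + C2) * ε) := by
      have e1 : φ n i k k' * (G n).rel k i i' j = (G n).rel k' i i' sN -
          ((G n).rel k' i i' sN - φ n i k k' * (G n).rel k i i' j) := by ring
      rw [e1]
      have b3 := abs_sub ((G n).rel k' i i' sN)
        ((G n).rel k' i i' sN - φ n i k k' * (G n).rel k i i' j)
      have b4 : B.d n ^ (y - C1 * ε) ≤ B.d n ^ (y - (C1 + C2) * ε) := rpow_anti B n (by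
        have : 0 ≤ C2 * ε := by positivity
        nlinarith)
      linarith
    rw [abs_mul] at b2
    have b5 : B.d n ^ ε * |(G n).rel k i i' j| ≤ 2 * B.d n ^ (y - (C1 + C2) * ε) :=
      (mul_le_mul_of_nonneg_right hnb.le (abs_nonneg _)).trans b2
    have b6 : |(G n).rel k i i' j| ≤ B.d n ^ (-ε) * (2 * B.d n ^ (y - (C1 + C2) * ε)) := by
      have e2 : B.d n ^ (-ε) * B.d n ^ ε = 1 := by
        rw [← rpow_add', neg_add_cancel, Real.rpow_zero]
      calc |(G n).rel k i i' j| = B.d n ^ (-ε) * (B.d n ^ ε * |(G n).rel k i i' j|) := by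
            rw [← mul_assoc, e2, one_mul]
        _ ≤ _ := mul_le_mul_of_nonneg_left b5 (hpow _).le
    calc |(G n).rel k i i' j| ≤ B.d n ^ (-ε) * (2 * B.d n ^ (y - (C1 + C2) * ε)) := b6
      _ ≤ B.d n ^ (-ε) * (B.d n ^ (-ε) * B.d n ^ (y - (C1 + C2) * ε)) := by
          refine mul_le_mul_of_nonneg_left ?_ (hpow _).le
          exact mul_le_mul_of_nonneg_right h2 (hpow _).le
      _ = B.d n ^ (y - (C1 + C2 + 2) * ε) := by
          rw [← rpow_add', ← rpow_add']; congr 1; ring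
      _ ≤ _ := rpow_anti B n (by
          have : 0 ≤ C0 * ε := by positivity
          nlinarith)
  · have := hlo j
    rw [H.base n] at this
    refine this.trans (rpow_anti B n ?_)
    have h3 := ho j hj
    have : 0 ≤ (C1 + C2 + 2) * ε := by positivity
    nlinarith

end Crest.Agent.R136.TrI938
end

-- ▼ part R136/W1a_938

/-!
# R136: row (i) of 5b (weight 1), part a: the slot `P` sees `c` (helper938)

Own rotation of weight 1 (slots `zA` = 12 and `A` = 15); all line slots of the pair narrow (`η`)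
except `c`.  Then `P` at the new height is `-(own 15 + u * own 12) * c` up to `η`.
-/

set_option autoImplicit false
set_option linter.unusedSectionVars false
set_option linter.unusedVariables false

open Filter Topology

namespace Crest.Agent.R136.EvW938

open Finset Crest.Agent.R136.NetW191 Crest.Agent.R136.Net191 Crest.Agent.R136.Qg926
open Crest.Agent.R136.PqG464 (wtW wtW_list)
open Crest.Agent.R138.Ex926 (Base U)

section raw

variable {κ : ℝ} {S : Finset (Fin 18)} {X : Fin 18 → ℝ} {K η : ℝ} {a b : Fin 18 → ℝ}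

/-- the frame at the new height has natural size -/
theorem frE_le (hκ : |κ| ≤ 1) (hX : SidesW X) (hK : 1 ≤ K) {u : ℝ} (hu : |u| ≤ K * X 0)
    (hb : ∀ s, |b s| ≤ K * X s) (i : Fin 4) :
    |frE κ u b i| ≤ 2 * K ^ 3 * X (Fin.castAdd 14 i) := by
  obtain ⟨w2, w3, w4⟩ := walls_frame hX
  have X0 := hX.pos 0
  have X1 := hX.pos 1
  have X2 := hX.pos 2
  have X3 := hX.pos 3
  have K0 : 0 ≤ K := by linarith
  have K2 : K ≤ K ^ 3 := by nlinarith [mul_nonneg K0 K0]
  have K3 : K * K ≤ K ^ 3 := by nlinarith [mul_nonneg K0 K0]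
  have p7 : |u * b 1| ≤ (K * K) * X 2 := by
    rw [mul_comm u]
    exact bm (hb 1) hu K0 K0 X1 w2
  have p8 : |b 1 * (u * b 1)| ≤ (K * (K * K)) * X 3 := bm (hb 1) p7 K0 (by positivity) X1 w3
  have s1 : ∀ {D : ℝ}, 0 ≤ D → K * D ≤ K ^ 3 * D := fun hD => mul_le_mul_of_nonneg_right K2 hD
  have s2 : ∀ {D : ℝ}, 0 ≤ D → K * K * D ≤ K ^ 3 * D := fun hD =>
    mul_le_mul_of_nonneg_right K3 hD
  have v0 : ∀ {D : ℝ}, 0 ≤ D → 0 ≤ K ^ 3 * D := fun hD => by positivity
  fin_cases i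
  · change |(0 : ℝ)| ≤ 2 * K ^ 3 * X 0
    rw [abs_zero]
    positivity
  · change |b 1| ≤ 2 * K ^ 3 * X 1
    have := hb 1
    have := s1 X1
    have := v0 X1
    linarith
  · change |b 2 + u * b 1| ≤ 2 * K ^ 3 * X 2
    have := hb 2
    have := s1 X2
    have := s2 X2
    have := abs_add_le (b 2) (u * b 1)
    linarith
  · change |b 3 - κ * u * b 1 ^ 2| ≤ 2 * K ^ 3 * X 3
    have h : b 3 - κ * u * b 1 ^ 2 = b 3 - κ * (b 1 * (u * b 1)) := by ring
    rw [h]
    have g1 := abs_sub (b 3) (κ * (b 1 * (u * b 1)))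
    have g2 : |κ * (b 1 * (u * b 1))| ≤ (K * (K * K)) * X 3 := by
      rw [abs_mul]
      calc |κ| * |b 1 * (u * b 1)| ≤ 1 * |b 1 * (u * b 1)| :=
            mul_le_mul_of_nonneg_right hκ (abs_nonneg _)
        _ ≤ _ := by linarith
    have q6 : K * (K * K) = K ^ 3 := by ring
    rw [q6] at g2
    have := hb 3
    have := s1 X3
    linarith

/-- the two weight-1 slots of a flag -/
def two (w : Fin 14 → ℝ) : Fin 14 → ℝ := fun q => if q = 8 ∨ q = 11 then w q else 0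

lemma two8 (w : Fin 14 → ℝ) : two w 8 = w 8 := by simp [two]
lemma two11 (w : Fin 14 → ℝ) : two w 11 = w 11 := by simp [two]
lemma two_ne {w : Fin 14 → ℝ} {q : Fin 14} (h1 : q ≠ 8) (h2 : q ≠ 11) : two w q = 0 := by
  simp [two, h1, h2]

lemma tr_two12 {h : Fin 4 → ℝ} (w : Fin 14 → ℝ) (h0 : h 0 = 0) :
    tr κ h (two w) 12 = h 2 * w 8 + h 1 * w 11 := by
  rw [tr12]
  simp only [h0, two8, two11, two_ne (w := w) (show (0 : Fin 14) ≠ 8 by decide) (by decide),
    two_ne (w := w) (show (1 : Fin 14) ≠ 8 by decide) (by decide),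
    two_ne (w := w) (show (2 : Fin 14) ≠ 8 by decide) (by decide),
    two_ne (w := w) (show (3 : Fin 14) ≠ 8 by decide) (by decide),
    two_ne (w := w) (show (4 : Fin 14) ≠ 8 by decide) (by decide),
    two_ne (w := w) (show (5 : Fin 14) ≠ 8 by decide) (by decide),
    two_ne (w := w) (show (6 : Fin 14) ≠ 8 by decide) (by decide),
    two_ne (w := w) (show (7 : Fin 14) ≠ 8 by decide) (by decide),
    two_ne (w := w) (show (9 : Fin 14) ≠ 8 by decide) (by decide),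
    two_ne (w := w) (show (10 : Fin 14) ≠ 8 by decide) (by decide),
    two_ne (w := w) (show (12 : Fin 14) ≠ 8 by decide) (by decide)]
  ring

/-- flags of the line slots do not see the weight-1 rotation -/
lemma tr_two_line {h : Fin 4 → ℝ} (w : Fin 14 → ℝ) (h0 : h 0 = 0) {q : Fin 14} (hq : w q = 0)
    (h9 : q ≠ 9) (h12 : q ≠ 12) (h13 : q ≠ 13) : tr κ h (two w) q = 0 := by
  have z0 := two_ne (w := w) (show (0 : Fin 14) ≠ 8 by decide) (by decide)
  have z1 := two_ne (w := w) (show (1 : Fin 14) ≠ 8 by decide) (by decide)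
  have z2 := two_ne (w := w) (show (2 : Fin 14) ≠ 8 by decide) (by decide)
  have z3 := two_ne (w := w) (show (3 : Fin 14) ≠ 8 by decide) (by decide)
  have z4 := two_ne (w := w) (show (4 : Fin 14) ≠ 8 by decide) (by decide)
  have z5 := two_ne (w := w) (show (5 : Fin 14) ≠ 8 by decide) (by decide)
  have z6 := two_ne (w := w) (show (6 : Fin 14) ≠ 8 by decide) (by decide)
  have z7 := two_ne (w := w) (show (7 : Fin 14) ≠ 8 by decide) (by decide)
  have z10 := two_ne (w := w) (show (10 : Fin 14) ≠ 8 by decide) (by decide)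
  fin_cases q
  · show tr κ h (two w) 0 = 0
    rw [tr0, z0]
  · show tr κ h (two w) 1 = 0
    rw [tr1, z0, z1]; ring
  · show tr κ h (two w) 2 = 0
    rw [tr2, z0, z1, z2]; ring
  · show tr κ h (two w) 3 = 0
    rw [tr3, z0, z1, z3]; ring
  · show tr κ h (two w) 4 = 0
    rw [tr4, z0, z1, z2, z4]; ring
  · show tr κ h (two w) 5 = 0
    rw [tr5, z0, z1, z2, z3, z5]; ring
  · show tr κ h (two w) 6 = 0
    rw [tr6, z0, z1, z2, z3, z4, z5, z6]; ring
  · show tr κ h (two w) 7 = 0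
    rw [tr7, z0, z1, z2, z3, z4, z5, z7]; ring
  · have hq' : w 8 = 0 := hq
    show tr κ h (two w) 8 = 0
    rw [tr8, z0, z1, z2, z3, z4, z5, z6, z7, two8, hq']; ring
  · exact absurd rfl h9
  · show tr κ h (two w) 10 = 0
    rw [tr10, z0, z1, z2, z3, z4, z5, z7, z10]; ring
  · have hq' : w 11 = 0 := hq
    show tr κ h (two w) 11 = 0
    rw [tr11, z0, z1, z2, z3, z4, z5, z6, z7, z10, two11, hq', h0]; ring
  · exact absurd rfl h12
  · exact absurd rfl h13

/-- **the slot `P` sees `c`**, raw form -/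
theorem rowP_raw (hκ : |κ| ≤ 1) (hX : SidesW X) (hK : 1 ≤ K) (hη : 0 ≤ η)
    (n13 : (13 : Fin 18) ∉ S) (n16 : (16 : Fin 18) ∉ S) (n17 : (17 : Fin 18) ∉ S)
    (ha : ∀ s, |a s| ≤ K * X s)
    (ha' : ∀ s ∈ S, s ≠ 0 → s ≠ 12 → s ≠ 15 → |a s| ≤ K * η * X s)
    (hb : ∀ s, |b s| ≤ K * X s) (n2 : (2 : Fin 18) ∉ S)
    (hb' : ∀ s, s ∉ S → s ≠ 1 → |b s| ≤ K * η * X s) :
    (∀ q : Fin 14, Fin.natAdd 4 q ∉ S → q ≠ 9 → q ≠ 12 → q ≠ 13 →
      |evoW κ S a b (Fin.natAdd 4 q)| ≤ 942 * (2 * K ^ 3) ^ 7 * η * X (Fin.natAdd 4 q)) ∧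
    |evoW κ S a b 16 + b 1 * (onS S (flg a) 11 + a 0 * onS S (flg a) 8)| ≤
      942 * (2 * K ^ 3) ^ 7 * η * X 16 := by
  have K0 : 0 ≤ K := by linarith
  have hKK : K ≤ K ^ 3 := by nlinarith [mul_nonneg K0 K0]
  have hK3 : 1 ≤ K ^ 3 := one_le_pow₀ hK
  set L := 2 * K ^ 3 with hL
  have hL1 : 1 ≤ L := by linarith
  have hKL : K ≤ L := by linarith
  have hL0 : 0 ≤ L := by linarith
  have hLL : L * L ≤ L ^ 7 := by
    have : L ^ 2 ≤ L ^ 7 := pow_le_pow_right₀ hL1 (by norm_num)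
    nlinarith
  have L1 : ∀ {x D : ℝ}, 0 ≤ D → |x| ≤ K * D → |x| ≤ L * D := fun hD h =>
    h.trans (mul_le_mul_of_nonneg_right hKL hD)
  have L2 : ∀ {x D : ℝ}, 0 ≤ D → |x| ≤ K * η * D → |x| ≤ L * η * D := fun hD h =>
    h.trans (mul_le_mul_of_nonneg_right (mul_le_mul_of_nonneg_right hKL hη) hD)
  have hfr := frE_le hκ hX hK (ha 0) hb
  have hsh : ∀ i : Fin 4, |sh (a 0) i| ≤ L * X (Fin.castAdd 14 i) := by
    intro i
    fin_cases i
    · exact L1 (hX.pos _) (ha 0)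
    · change |(0 : ℝ)| ≤ L * X 1
      rw [abs_zero]; exact mul_nonneg hL0 (hX.pos _)
    · change |(0 : ℝ)| ≤ L * X 2
      rw [abs_zero]; exact mul_nonneg hL0 (hX.pos _)
    · change |(0 : ℝ)| ≤ L * X 3
      rw [abs_zero]; exact mul_nonneg hL0 (hX.pos _)
  have hsame : ∀ (h : Fin 4 → ℝ) (i : Fin 4), |h i - h i| ≤ L * η * X (Fin.castAdd 14 i) := by
    intro h i
    rw [sub_self, abs_zero]
    exact mul_nonneg (mul_nonneg hL0 hη) (hX.pos _)
  -- the b-part
  have g1 : ∀ q : Fin 14, |tr κ (sh (a 0)) (offS S (flg b)) q| ≤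
      470 * L ^ 7 * η * X (Fin.natAdd 4 q) := by
    intro q
    have := tr_lip (h' := sh (a 0)) (w' := 0) hκ hX hL1 hη hsh hsh (hsame _)
      (w := offS S (flg b)) (fun q => by
        unfold offS flg
        split_ifs with hq
        · rw [abs_zero]; exact mul_nonneg hL0 (hX.pos _)
        · exact L1 (hX.pos _) (hb _))
      (fun q => by
        rw [Pi.zero_apply, sub_zero]
        unfold offS flg
        split_ifs with hq
        · rw [abs_zero]; exact mul_nonneg (mul_nonneg hL0 hη) (hX.pos _)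
        · refine L2 (hX.pos _) (hb' _ hq ?_)
          intro he
          have := congrArg Fin.val he
          simp at this
          omega) q
    rwa [tr_zero, Pi.zero_apply, sub_zero] at this
  -- the a-part
  have g2 : ∀ q : Fin 14, |tr κ (frE κ (a 0) b) (onS S (flg a)) q -
      tr κ (frE κ (a 0) b) (two (onS S (flg a))) q| ≤ 470 * L ^ 7 * η * X (Fin.natAdd 4 q) := by
    intro q
    refine tr_lip (h' := frE κ (a 0) b) hκ hX hL1 hη hfr hfr (hsame _) (fun q => ?_)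
      (fun q => ?_) q
    · unfold onS flg
      split_ifs with hq
      · exact L1 (hX.pos _) (ha _)
      · rw [abs_zero]; exact mul_nonneg hL0 (hX.pos _)
    · unfold two
      split_ifs with hq
      · rw [sub_self, abs_zero]; exact mul_nonneg (mul_nonneg hL0 hη) (hX.pos _)
      · rw [sub_zero]
        push Not at hq
        unfold onS flg
        split_ifs with hqS
        · refine L2 (hX.pos _) (ha' _ hqS ?_ ?_ ?_)
          · intro he
            have := congrArg Fin.val he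
            simp at this
          · intro he
            have := congrArg Fin.val he
            simp at this
            exact hq.1 (Fin.ext (by simpa using (by omega : (q : ℕ) = 8)))
          · intro he
            have := congrArg Fin.val he
            simp at this
            exact hq.2 (Fin.ext (by simpa using (by omega : (q : ℕ) = 11)))
        · rw [abs_zero]; exact mul_nonneg (mul_nonneg hL0 hη) (hX.pos _)
  refine ⟨?_, ?_⟩
  · intro q hq h9 h12 h13
    have e1 : evoW κ S a b (Fin.natAdd 4 q) = tr κ (sh (a 0)) (offS S (flg b)) q -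
        tr κ (frE κ (a 0) b) (onS S (flg a)) q := Fin.append_right _ _ _
    have e2 := tr_two_line (κ := κ) (h := frE κ (a 0) b) (onS S (flg a)) rfl (onS_not hq) h9 h12
      h13
    have h1 := g1 q
    have h2 := g2 q
    rw [e2, sub_zero] at h2
    rw [e1]
    refine (abs_sub _ _).trans ?_
    have h3 : 0 ≤ L ^ 7 * η * X (Fin.natAdd 4 q) :=
      mul_nonneg (mul_nonneg (by positivity) hη) (hX.pos _)
    nlinarith
  · have e1 : evoW κ S a b 16 = tr κ (sh (a 0)) (offS S (flg b)) 12 -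
        tr κ (frE κ (a 0) b) (onS S (flg a)) 12 := rfl
    have e2 := tr_two12 (κ := κ) (h := frE κ (a 0) b) (onS S (flg a)) rfl
    have e3 : frE κ (a 0) b 2 = b 2 + a 0 * b 1 := rfl
    have e4 : frE κ (a 0) b 1 = b 1 := rfl
    rw [e3, e4] at e2
    have h1 := g1 12
    have h2 := g2 12
    have e5 : evoW κ S a b 16 + b 1 * (onS S (flg a) 11 + a 0 * onS S (flg a) 8) =
        tr κ (sh (a 0)) (offS S (flg b)) 12 -
        (tr κ (frE κ (a 0) b) (onS S (flg a)) 12 -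
          tr κ (frE κ (a 0) b) (two (onS S (flg a))) 12) - b 2 * onS S (flg a) 8 := by
      rw [e1, e2]; ring
    rw [e5]
    have w12 : X 2 * X 12 ≤ X 16 := by
      have := hX.wall 16 [2, 12] (by decide)
      simpa using this
    have h8 : |onS S (flg a) 8| ≤ K * X 12 := by
      unfold onS flg
      split_ifs with hq
      · exact ha _
      · rw [abs_zero]; exact mul_nonneg K0 (hX.pos _)
    have h3 : |b 2 * onS S (flg a) 8| ≤ (K * η * K) * X 16 :=
      bm (hb' 2 n2 (by decide)) h8 (mul_nonneg K0 hη) K0 (hX.pos _) w12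
    have h4 := abs_sub (tr κ (sh (a 0)) (offS S (flg b)) 12 -
        (tr κ (frE κ (a 0) b) (onS S (flg a)) 12 -
          tr κ (frE κ (a 0) b) (two (onS S (flg a))) 12)) (b 2 * onS S (flg a) 8)
    have h5 := abs_sub (tr κ (sh (a 0)) (offS S (flg b)) 12)
        (tr κ (frE κ (a 0) b) (onS S (flg a)) 12 -
          tr κ (frE κ (a 0) b) (two (onS S (flg a))) 12)
    have h6 : (K * η * K) * X 16 ≤ L ^ 7 * η * X 16 := by
      have : K * K ≤ L ^ 7 := (mul_le_mul hKL hKL K0 hL0).trans hLL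
      have e : K * η * K = K * K * η := by ring
      rw [e]
      exact mul_le_mul_of_nonneg_right (mul_le_mul_of_nonneg_right this hη) (hX.pos _)
    have h7 : 0 ≤ L ^ 7 * η * X 16 := mul_nonneg (mul_nonneg (by positivity) hη) (hX.pos _)
    have e6 : X (Fin.natAdd 4 (12 : Fin 14)) = X 16 := rfl
    rw [e6] at h1 h2
    nlinarith

end raw

end Crest.Agent.R136.EvW938
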