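import Crest.Agent.R136.Res1_648
import Crest.Agent.R136.W1a_938
import Crest.Agent.R136.NetW7_191

-- ▼ part R136/Res2_648
section

/-!
# R136: rows at the wall resonances of 5b (helper648), part 2: finite rows, general part

`Raw κ S V X K τ f A lc zc` : a set `A` of incidences with flags `f` and sides `X` (W-chart), level
slots `S`, own motion only in the slot `z` and in the flag slots `V` (up to `τ`).

* `Raw.lev_row`, `Raw.lin_row`, `Raw.frm_row` : rows of the second line;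
* `Raw.own_comp`, `Raw.ref_comp` : cocycles along a line;
* `Raw.spread` : from "the own motion of ONE line `i`, from ONE height, is `ψ * fk`" to the same
  statement for all lines, between all heights, with `ψ` replaced by `ψ - β_j(line)`.
-/

set_option autoImplicit false
set_option linter.unusedVariables false
set_option linter.unusedSectionVars false

namespace Crest.Agent.R136.Res2648

open Finset Crest.Agent.R136.NetW191 Crest.Agent.R136.EvW938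

/-- keep the slots of `V` -/
def only (V : Finset (Fin 14)) (w : Fin 14 → ℝ) : Fin 14 → ℝ := fun q => if q ∈ V then w q else 0

/-- motion of the unit flag `j` -/
noncomputable def fk (κ u : ℝ) (j q : Fin 14) : ℝ :=
  tr κ (sh u) (Pi.single j 1) q - (Pi.single j 1 : Fin 14 → ℝ) q

/-- right-hand side of the rows -/
def row (κ : ℝ) (S : Finset (Fin 18)) (V : Finset (Fin 14)) (a b : Fin 18 → ℝ) (q : Fin 14) : ℝ :=
  tr κ (sh (a 0)) (offS S (flg b)) q - tr κ (frE κ (a 0) b) (only V (flg a)) q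

/-- **incidences with own motion in `z` and `V`** -/
structure Raw {β : Type*} (κ : ℝ) (S : Finset (Fin 18)) (V : Finset (Fin 14)) (X : Fin 18 → ℝ)
    (K τ : ℝ) (f : β → FW) (A : Set β) (lc zc : β → ℕ) : Prop where
  hκ : |κ| ≤ 1
  hX : SidesW X
  pos : ∀ s, 0 < X s
  hK : 1 ≤ K
  hτ : 0 ≤ τ
  hτ1 : τ ≤ 1
  h0 : (0 : Fin 18) ∈ S
  h1 : (1 : Fin 18) ∉ S
  h2 : (2 : Fin 18) ∉ S
  h3 : (3 : Fin 18) ∉ S
  hV : ∀ q ∈ V, Fin.natAdd 4 q ∈ S
  bnd : ∀ x ∈ A, ∀ y ∈ A, ∀ s, |coW κ (f x) (f y) s| ≤ K * X s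
  own : ∀ x ∈ A, ∀ x' ∈ A, lc x = lc x' → ∀ s, s ≠ 0 → (∀ q ∈ V, s ≠ Fin.natAdd 4 q) →
    |coW κ (f x) (f x') s| ≤ K * τ * X s
  lev : ∀ x ∈ A, ∀ y ∈ A, zc x = zc y → ∀ s ∈ S, |coW κ (f x) (f y) s| ≤ K * τ * X s

/-- the constant of the rows -/
noncomputable def CR (K : ℝ) : ℝ := CW K + 470 * (2 * K ^ 3) ^ 7

lemma evoW_right (κ : ℝ) (S : Finset (Fin 18)) (a b : Fin 18 → ℝ) (q : Fin 14) :
    evoW κ S a b (Fin.natAdd 4 q) = tr κ (sh (a 0)) (offS S (flg b)) q -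
      tr κ (frE κ (a 0) b) (onS S (flg a)) q := by
  unfold evoW
  rw [Fin.append_right]
  rfl

lemma evoW_left (κ : ℝ) (S : Finset (Fin 18)) (a b : Fin 18 → ℝ) (i : Fin 4) :
    evoW κ S a b (Fin.castAdd 14 i) = frE κ (a 0) b i := by
  unfold evoW
  rw [Fin.append_left]

lemma natAdd_ne_zero (q : Fin 14) : (Fin.natAdd 4 q : Fin 18) ≠ 0 := by
  intro he
  have := congrArg Fin.val he
  simp at this

lemma natAdd_inj {q q' : Fin 14} (h : (Fin.natAdd 4 q : Fin 18) = Fin.natAdd 4 q') : q = q' := by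
  have := congrArg Fin.val h
  simp only [Fin.val_natAdd] at this
  exact Fin.ext (by omega)

lemma coW_zero (κ : ℝ) (f f' : FW) : coW κ f f' 0 = f'.g 0 - f.g 0 :=
  coW_left κ f f' 0

section

variable {β : Type*} {κ : ℝ} {S : Finset (Fin 18)} {V : Finset (Fin 14)} {X : Fin 18 → ℝ}
  {K τ : ℝ} {f : β → FW} {A : Set β} {lc zc : β → ℕ}

lemma CR_ge (hK : 1 ≤ K) : 0 ≤ CR K ∧ CW K ≤ CR K ∧ 470 * (2 * K ^ 3) ^ 7 ≤ CR K ∧
    470 * K ^ 7 ≤ CR K ∧ K ≤ CR K := by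
  have K0 : 0 ≤ K := by linarith
  have h1 := CW_pos hK
  have h2 : 1 ≤ K ^ 3 := one_le_pow₀ hK
  have h3 : K ≤ 2 * K ^ 3 := by nlinarith [mul_nonneg K0 K0]
  have h4 : K ^ 7 ≤ (2 * K ^ 3) ^ 7 := pow_le_pow_left₀ K0 h3 7
  have h5 : K ≤ K ^ 7 := by
    calc K = K ^ 1 := (pow_one K).symm
      _ ≤ K ^ 7 := pow_le_pow_right₀ hK (by norm_num)
  have h6 : 0 ≤ K ^ 7 := by positivity
  unfold CR
  refine ⟨by positivity, ?_, ?_, ?_, ?_⟩ <;> linarith

namespace Raw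

variable (R : Raw κ S V X K τ f A lc zc)

include R

lemma off {x x' : β} (hx : x ∈ A) (hx' : x' ∈ A) (hl : lc x = lc x') (s : Fin 18) (hs : s ∉ S) :
    |coW κ (f x) (f x') s| ≤ K * τ * X s := by
  refine R.own x hx x' hx' hl s ?_ ?_
  · rintro rfl; exact hs R.h0
  · rintro q hq rfl; exact hs (R.hV q hq)

lemma K0 : 0 ≤ K := by linarith [R.hK]

/-- the two forms of the rows -/
theorem row_evoW {x x' y : β} (hx : x ∈ A) (hx' : x' ∈ A) (hy : y ∈ A) (hl : lc x = lc x')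
    (q : Fin 14) : |evoW κ S (coW κ (f x) (f x')) (coW κ (f x) (f y)) (Fin.natAdd 4 q) -
      row κ S V (coW κ (f x) (f x')) (coW κ (f x) (f y)) q| ≤
      470 * (2 * K ^ 3) ^ 7 * τ * X (Fin.natAdd 4 q) := by
  have hK0 := R.K0
  have hK := R.hK
  have hL : 1 ≤ 2 * K ^ 3 := by
    have := one_le_pow₀ hK (n := 3)
    linarith
  have hKL : K ≤ 2 * K ^ 3 := by nlinarith [mul_nonneg hK0 hK0]
  have hfr := frE_le R.hκ R.hX hK (u := coW κ (f x) (f x') 0) (R.bnd x hx x' hx' 0)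
    (R.bnd x hx y hy)
  have key := tr_lip (q := q) (h := frE κ (coW κ (f x) (f x') 0) (coW κ (f x) (f y)))
    (h' := frE κ (coW κ (f x) (f x') 0) (coW κ (f x) (f y)))
    (w := only V (flg (coW κ (f x) (f x')))) (w' := onS S (flg (coW κ (f x) (f x'))))
    R.hκ R.hX hL R.hτ hfr hfr (fun i => by
      rw [sub_self, abs_zero]
      exact mul_nonneg (mul_nonneg (by linarith) R.hτ) (R.pos _).le)
    (fun q => by
      unfold only
      split_ifs with hq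
      · exact (R.bnd x hx x' hx' _).trans (mul_le_mul_of_nonneg_right hKL (R.pos _).le)
      · rw [abs_zero]; exact mul_nonneg (by linarith) (R.pos _).le)
    (fun q => by
      unfold only
      split_ifs with hq
      · rw [onS_mem (R.hV q hq), sub_self, abs_zero]
        exact mul_nonneg (mul_nonneg (by linarith) R.hτ) (R.pos _).le
      · by_cases hS : (Fin.natAdd 4 q : Fin 18) ∈ S
        · rw [onS_mem hS, zero_sub, abs_neg]
          refine (R.own x hx x' hx' hl _ (natAdd_ne_zero q) ?_).trans ?_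
          · intro q' hq' he
            exact hq (natAdd_inj he ▸ hq')
          · exact mul_le_mul_of_nonneg_right (mul_le_mul_of_nonneg_right hKL R.hτ) (R.pos _).le
        · rw [onS_not hS, sub_self, abs_zero]
          exact mul_nonneg (mul_nonneg (by linarith) R.hτ) (R.pos _).le)
  rw [evoW_right]
  unfold row
  have e : tr κ (sh (coW κ (f x) (f x') 0)) (offS S (flg (coW κ (f x) (f y)))) q -
      tr κ (frE κ (coW κ (f x) (f x') 0) (coW κ (f x) (f y)))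
        (onS S (flg (coW κ (f x) (f x')))) q -
      (tr κ (sh (coW κ (f x) (f x') 0)) (offS S (flg (coW κ (f x) (f y)))) q -
      tr κ (frE κ (coW κ (f x) (f x') 0) (coW κ (f x) (f y)))
        (only V (flg (coW κ (f x) (f x')))) q) =
      tr κ (frE κ (coW κ (f x) (f x') 0) (coW κ (f x) (f y)))
        (only V (flg (coW κ (f x) (f x')))) q -
      tr κ (frE κ (coW κ (f x) (f x') 0) (coW κ (f x) (f y)))
        (onS S (flg (coW κ (f x) (f x')))) q := by ring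
  rw [e]
  exact key

section four

variable {x x' y y' : β} (hx : x ∈ A) (hx' : x' ∈ A) (hy : y ∈ A) (hy' : y' ∈ A)
  (hl : lc x = lc x') (hl' : lc y = lc y') (hz : zc x = zc y) (hz' : zc x' = zc y')

include hx hx' hy hy' hl hl' hz hz'

/-- **own motion of the second line** -/
theorem lev_row {q : Fin 14} (hq : Fin.natAdd 4 q ∈ S) :
    |coW κ (f y) (f y') (Fin.natAdd 4 q) +
      row κ S V (coW κ (f x) (f x')) (coW κ (f x) (f y)) q| ≤
      CR K * τ * X (Fin.natAdd 4 q) := by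
  have g1 := ownW_fat R.hκ R.h0 R.h1 R.h2 R.h3 R.hX R.hK R.hτ (R.bnd x hx x' hx')
    (R.bnd x hx y hy) (R.bnd y hy y' hy') (R.bnd x' hx' y' hy') (R.off hx hx' hl)
    (R.off hy hy' hl') (R.lev x hx y hy hz) (R.lev x' hx' y' hy' hz') q hq
  have g2 := R.row_evoW hx hx' hy hl q
  have e : CR K * τ * X (Fin.natAdd 4 q) = CW K * τ * X (Fin.natAdd 4 q) +
      470 * (2 * K ^ 3) ^ 7 * τ * X (Fin.natAdd 4 q) := by unfold CR; ring
  rw [e]
  rw [abs_le] at g1 g2 ⊢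
  constructor <;> linarith [g1.1, g1.2, g2.1, g2.2]

/-- **evolution of the flag slots** -/
theorem lin_row {q : Fin 14} (hq : Fin.natAdd 4 q ∉ S) :
    |coW κ (f x') (f y') (Fin.natAdd 4 q) -
      row κ S V (coW κ (f x) (f x')) (coW κ (f x) (f y)) q| ≤
      CR K * τ * X (Fin.natAdd 4 q) := by
  have g1 := evoW_fat R.hκ R.h0 R.h1 R.h2 R.h3 R.hX R.hK R.hτ (R.bnd x hx x' hx')
    (R.bnd x hx y hy) (R.bnd y hy y' hy') (R.bnd x' hx' y' hy') (R.off hx hx' hl)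
    (R.off hy hy' hl') (R.lev x hx y hy hz) (R.lev x' hx' y' hy' hz') _ hq
  have g2 := R.row_evoW hx hx' hy hl q
  have e : CR K * τ * X (Fin.natAdd 4 q) = CW K * τ * X (Fin.natAdd 4 q) +
      470 * (2 * K ^ 3) ^ 7 * τ * X (Fin.natAdd 4 q) := by unfold CR; ring
  rw [e]
  rw [abs_le] at g1 g2 ⊢
  constructor <;> linarith [g1.1, g1.2, g2.1, g2.2]

/-- **evolution of the frame** -/
theorem frm_row {i : Fin 4} (hi : Fin.castAdd 14 i ∉ S) :
    |coW κ (f x') (f y') (Fin.castAdd 14 i) -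
      frE κ (coW κ (f x) (f x') 0) (coW κ (f x) (f y)) i| ≤
      CR K * τ * X (Fin.castAdd 14 i) := by
  have g1 := evoW_fat R.hκ R.h0 R.h1 R.h2 R.h3 R.hX R.hK R.hτ (R.bnd x hx x' hx')
    (R.bnd x hx y hy) (R.bnd y hy y' hy') (R.bnd x' hx' y' hy') (R.off hx hx' hl)
    (R.off hy hy' hl') (R.lev x hx y hy hz) (R.lev x' hx' y' hy' hz') _ hi
  rw [evoW_left] at g1
  refine g1.trans ?_
  exact mul_le_mul_of_nonneg_right (mul_le_mul_of_nonneg_right (CR_ge R.hK).2.1 R.hτ) (R.pos _).le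

/-- the height slots agree -/
theorem hgt_row : |coW κ (f y) (f y') 0 - coW κ (f x) (f x') 0| ≤ 2 * K * τ * X 0 := by
  have g1 := R.lev x hx y hy hz 0 R.h0
  have g2 := R.lev x' hx' y' hy' hz' 0 R.h0
  have e : coW κ (f y) (f y') 0 - coW κ (f x) (f x') 0 =
      coW κ (f x') (f y') 0 - coW κ (f x) (f y) 0 := by
    simp only [coW_zero]; ring
  rw [e]
  have h := abs_sub (coW κ (f x') (f y') 0) (coW κ (f x) (f y) 0)
  linarith

end four

lemma comp_id (x x' x'' : β) (q : Fin 14) : coW κ (f x) (f x'') (Fin.natAdd 4 q) =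
    coW κ (f x') (f x'') (Fin.natAdd 4 q) +
      tr κ (frm (coW κ (f x') (f x''))) (flg (coW κ (f x) (f x'))) q := by
  have e1 := congrFun (cocycle κ (f x) (f x') (f x'')) q
  rw [Pi.add_apply] at e1
  rw [coW_right, coW_right, frm_coW, flg_coW]
  exact e1

lemma flg_only {x x' : β} (hx : x ∈ A) (hx' : x' ∈ A) (hl : lc x = lc x') (q : Fin 14) :
    |flg (coW κ (f x) (f x')) q - only V (flg (coW κ (f x) (f x'))) q| ≤
      K * τ * X (Fin.natAdd 4 q) := by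
  unfold only
  split_ifs with hq
  · rw [sub_self, abs_zero]
    exact mul_nonneg (mul_nonneg R.K0 R.hτ) (R.pos _).le
  · rw [sub_zero]
    exact R.own x hx x' hx' hl _ (natAdd_ne_zero q) fun q' hq' he => hq (natAdd_inj he ▸ hq')

lemma frm_sh {x x' : β} (hx : x ∈ A) (hx' : x' ∈ A) (hl : lc x = lc x') (i : Fin 4) :
    |frm (coW κ (f x) (f x')) i - sh (coW κ (f x) (f x') 0) i| ≤
      K * τ * X (Fin.castAdd 14 i) := by
  fin_cases i
  · change |coW κ (f x) (f x') 0 - coW κ (f x) (f x') 0| ≤ K * τ * X 0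
    rw [sub_self, abs_zero]
    exact mul_nonneg (mul_nonneg R.K0 R.hτ) (R.pos _).le
  · change |coW κ (f x) (f x') 1 - 0| ≤ K * τ * X 1
    rw [sub_zero]
    exact R.off hx hx' hl 1 R.h1
  · change |coW κ (f x) (f x') 2 - 0| ≤ K * τ * X 2
    rw [sub_zero]
    exact R.off hx hx' hl 2 R.h2
  · change |coW κ (f x) (f x') 3 - 0| ≤ K * τ * X 3
    rw [sub_zero]
    exact R.off hx hx' hl 3 R.h3

lemma sh_le {x x' : β} (hx : x ∈ A) (hx' : x' ∈ A) (i : Fin 4) :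
    |sh (coW κ (f x) (f x') 0) i| ≤ K * X (Fin.castAdd 14 i) := by
  fin_cases i
  · exact R.bnd x hx x' hx' 0
  · change |(0 : ℝ)| ≤ K * X 1
    rw [abs_zero]; exact mul_nonneg R.K0 (R.pos _).le
  · change |(0 : ℝ)| ≤ K * X 2
    rw [abs_zero]; exact mul_nonneg R.K0 (R.pos _).le
  · change |(0 : ℝ)| ≤ K * X 3
    rw [abs_zero]; exact mul_nonneg R.K0 (R.pos _).le

/-- **composition along one line** -/
theorem own_comp {x x' x'' : β} (hx : x ∈ A) (hx' : x' ∈ A) (hx'' : x'' ∈ A)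
    (hl : lc x = lc x') (hl' : lc x' = lc x'') (q : Fin 14) :
    |coW κ (f x) (f x'') (Fin.natAdd 4 q) - coW κ (f x') (f x'') (Fin.natAdd 4 q) -
      tr κ (sh (coW κ (f x') (f x'') 0)) (only V (flg (coW κ (f x) (f x')))) q| ≤
      470 * K ^ 7 * τ * X (Fin.natAdd 4 q) := by
  have key := tr_lip (q := q) (h := frm (coW κ (f x') (f x'')))
    (h' := sh (coW κ (f x') (f x'') 0)) (w := flg (coW κ (f x) (f x')))
    (w' := only V (flg (coW κ (f x) (f x')))) R.hκ R.hX R.hK R.hτ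
    (fun i => R.bnd x' hx' x'' hx'' _) (R.sh_le hx' hx'') (R.frm_sh hx' hx'' hl')
    (fun q => R.bnd x hx x' hx' _) (R.flg_only hx hx' hl)
  rw [R.comp_id x x' x'' q]
  have e : coW κ (f x') (f x'') (Fin.natAdd 4 q) +
      tr κ (frm (coW κ (f x') (f x''))) (flg (coW κ (f x) (f x'))) q -
      coW κ (f x') (f x'') (Fin.natAdd 4 q) -
      tr κ (sh (coW κ (f x') (f x'') 0)) (only V (flg (coW κ (f x) (f x')))) q =
      tr κ (frm (coW κ (f x') (f x''))) (flg (coW κ (f x) (f x'))) q -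
      tr κ (sh (coW κ (f x') (f x'') 0)) (only V (flg (coW κ (f x) (f x')))) q := by ring
  rw [e]
  exact key

/-- **change of the reference on its line** -/
theorem ref_comp {x x' y : β} (hx : x ∈ A) (hx' : x' ∈ A) (hy : y ∈ A)
    (hl : lc x = lc x') (j : Fin 14) (hj : ∀ h w, tr κ h (only V w) j = 0) :
    |coW κ (f x) (f y) (Fin.natAdd 4 j) - coW κ (f x') (f y) (Fin.natAdd 4 j)| ≤
      470 * K ^ 7 * τ * X (Fin.natAdd 4 j) := by
  have key := tr_lip (q := j) (h := frm (coW κ (f x') (f y)))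
    (h' := frm (coW κ (f x') (f y))) (w := flg (coW κ (f x) (f x')))
    (w' := only V (flg (coW κ (f x) (f x')))) R.hκ R.hX R.hK R.hτ
    (fun i => R.bnd x' hx' y hy _) (fun i => R.bnd x' hx' y hy _) (fun i => by
      rw [sub_self, abs_zero]
      exact mul_nonneg (mul_nonneg R.K0 R.hτ) (R.pos _).le)
    (fun q => R.bnd x hx x' hx' _) (R.flg_only hx hx' hl)
  rw [hj, sub_zero] at key
  rw [R.comp_id x x' y j]
  have e : coW κ (f x') (f y) (Fin.natAdd 4 j) +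
      tr κ (frm (coW κ (f x') (f y))) (flg (coW κ (f x) (f x'))) j -
      coW κ (f x') (f y) (Fin.natAdd 4 j) =
      tr κ (frm (coW κ (f x') (f y))) (flg (coW κ (f x) (f x'))) j := by ring
  rw [e]
  exact key

end Raw

end

/-! ### the motion of the unit flag -/

lemma mul_sh (κ u u' : ℝ) : mul κ (sh u) (sh u') = sh (u + u') := by
  funext k
  fin_cases k <;> simp [mul, sh]

lemma fk_fun (κ u : ℝ) (j : Fin 14) :
    fk κ u j = tr κ (sh u) (Pi.single j 1) - (Pi.single j 1 : Fin 14 → ℝ) := rfl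

/-- cocycle of `fk` -/
lemma fk_add (κ u u' : ℝ) (j q : Fin 14) :
    tr κ (sh u') (fk κ u j) q = fk κ (u + u') j q - fk κ u' j q := by
  rw [fk_fun κ u j, tr_sub, ← tr_mul, mul_sh]
  unfold fk
  rw [Pi.sub_apply]
  ring

lemma smul_fk (κ u c : ℝ) (j q : Fin 14) :
    c * fk κ u j q = tr κ (sh u) (c • Pi.single j 1) q - (c • (Pi.single j 1 : Fin 14 → ℝ)) q := by
  rw [NetW191.tr_smul, Pi.smul_apply, Pi.smul_apply, smul_eq_mul, smul_eq_mul]
  unfold fk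
  ring

lemma single_le {X : Fin 18 → ℝ} (hX : ∀ s, 0 < X s) {c D : ℝ} {j : Fin 14} (hD : 0 ≤ D)
    (hc : |c| ≤ D * X (Fin.natAdd 4 j)) (q : Fin 14) :
    |(c • (Pi.single j 1 : Fin 14 → ℝ)) q| ≤ D * X (Fin.natAdd 4 q) := by
  rw [Pi.smul_apply, smul_eq_mul]
  by_cases h : q = j
  · subst h
    rw [Pi.single_eq_same, mul_one]
    exact hc
  · rw [Pi.single_eq_of_ne h, mul_zero, abs_zero]
    exact mul_nonneg hD (hX _).le

/-- algebraic conditions on the pair (own slots, source) -/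
structure Adm (V : Finset (Fin 14)) (j : Fin 14) : Prop where
  jV : j ∉ V
  zero : ∀ (κ : ℝ) (h : Fin 4 → ℝ) (w : Fin 14 → ℝ), tr κ h (only V w) j = 0
  own : ∀ (κ : ℝ) (h : Fin 4 → ℝ) (w : Fin 14 → ℝ), h 0 = 0 → ∀ q ∈ V,
    tr κ h (only V w) q = w q
  sup : ∀ (κ u : ℝ) (q : Fin 14), q ∉ V → fk κ u j q = 0

/-- the constant of `spread` -/
noncomputable def CS (K M Ch : ℝ) : ℝ :=
  CR K + Ch + 470 * K ^ 7 + 470 * M ^ 7 + 1 + 470 * K ^ 7 * (470 * K ^ 7) + 470 * (2 * M) ^ 7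

section

variable {β : Type*} {κ : ℝ} {S : Finset (Fin 18)} {V : Finset (Fin 14)} {X : Fin 18 → ℝ}
  {K τ : ℝ} {f : β → FW} {A : Set β} {lc zc : β → ℕ} {j : Fin 14}

/-- size of `fk` -/
lemma fk_size (hκ : |κ| ≤ 1) (hX : SidesW X) (pos : ∀ s, 0 < X s) (hK : 1 ≤ K) {u : ℝ}
    (hu : |u| ≤ K * X 0) {q : Fin 14} (hq : q ≠ j) :
    X (Fin.natAdd 4 j) * |fk κ u j q| ≤ 470 * K ^ 7 * X (Fin.natAdd 4 q) := by
  have hK0 : 0 ≤ K := by linarith
  have key := tr_size (q := q) (h := sh u) (w := X (Fin.natAdd 4 j) • Pi.single j 1) hκ hX hK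
    (fun i => by
      fin_cases i
      · exact hu
      · change |(0 : ℝ)| ≤ K * X 1
        rw [abs_zero]; exact mul_nonneg hK0 (pos _).le
      · change |(0 : ℝ)| ≤ K * X 2
        rw [abs_zero]; exact mul_nonneg hK0 (pos _).le
      · change |(0 : ℝ)| ≤ K * X 3
        rw [abs_zero]; exact mul_nonneg hK0 (pos _).le)
    (fun q => single_le pos hK0 (by
      rw [abs_of_pos (pos _)]
      nlinarith [pos (Fin.natAdd 4 j)]) q)
  have e := smul_fk κ u (X (Fin.natAdd 4 j)) j q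
  have e2 : (X (Fin.natAdd 4 j) • (Pi.single j 1 : Fin 14 → ℝ)) q = 0 := by
    rw [Pi.smul_apply, Pi.single_eq_of_ne hq, smul_zero]
  rw [e2, sub_zero] at e
  have e3 : X (Fin.natAdd 4 j) * |fk κ u j q| = |X (Fin.natAdd 4 j) * fk κ u j q| := by
    rw [abs_mul, abs_of_pos (pos _)]
  rw [e3, e]
  exact key

namespace Raw

variable (R : Raw κ S V X K τ f A lc zc)

include R

/-- **from one line and one height to all lines and heights** -/
theorem spread (ad : Adm V j) {ψ η M Ch : ℝ} (hM : 2 * K ≤ M) (hη : τ ≤ η)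
    (hCh : 0 ≤ Ch) (hψ : |ψ| ≤ M * X (Fin.natAdd 4 j))
    (hsh : ∀ x ∈ A, ∀ x' ∈ A, ∀ y ∈ A, lc x = lc x' → zc x = zc y → ∀ q ∈ V,
      |tr κ (sh (coW κ (f x) (f x') 0)) (offS S (flg (coW κ (f x) (f y)))) q -
        coW κ (f x) (f y) (Fin.natAdd 4 j) * fk κ (coW κ (f x) (f x') 0) j q| ≤
        Ch * η * X (Fin.natAdd 4 q))
    {x₀ x x' y y' : β} (hx₀ : x₀ ∈ A) (hx : x ∈ A) (hx' : x' ∈ A) (hy : y ∈ A) (hy' : y' ∈ A)
    (hl₀ : lc x₀ = lc x) (hl : lc x = lc x') (hl' : lc y = lc y') (hz : zc x = zc y)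
    (hz' : zc x' = zc y')
    (h1 : ∀ q ∈ V, |coW κ (f x₀) (f x) (Fin.natAdd 4 q) - ψ * fk κ (coW κ (f x₀) (f x) 0) j q| ≤
      η * X (Fin.natAdd 4 q))
    (h2 : ∀ q ∈ V, |coW κ (f x₀) (f x') (Fin.natAdd 4 q) -
      ψ * fk κ (coW κ (f x₀) (f x') 0) j q| ≤ η * X (Fin.natAdd 4 q)) :
    ∀ q ∈ V, |coW κ (f y) (f y') (Fin.natAdd 4 q) -
      (ψ - coW κ (f x₀) (f y) (Fin.natAdd 4 j)) * fk κ (coW κ (f y) (f y') 0) j q| ≤
      CS K M Ch * η * X (Fin.natAdd 4 q) := by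
  intro q hq
  have hK := R.hK
  have hK0 := R.K0
  have hM1 : 1 ≤ M := by linarith
  have hM0 : 0 ≤ M := by linarith
  have hKM : K ≤ M := by linarith
  have hη0 : 0 ≤ η := R.hτ.trans hη
  have hXq := R.pos (Fin.natAdd 4 q)
  have hXj := R.pos (Fin.natAdd 4 j)
  have hqj : q ≠ j := fun h => ad.jV (h ▸ hq)
  set u := coW κ (f x) (f x') 0 with hu
  set u₀ := coW κ (f x₀) (f x) 0 with hu₀
  set v := coW κ (f y) (f y') 0 with hv
  have hu01 : coW κ (f x₀) (f x') 0 = u₀ + u := by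
    rw [hu, hu₀]; simp only [coW_zero]; ring
  -- (a) the row of the second line
  have ga := R.lev_row hx hx' hy hy' hl hl' hz hz' (R.hV q hq)
  have gb := hsh x hx x' hx' y hy hl hz q hq
  have gc : tr κ (frE κ (coW κ (f x) (f x') 0) (coW κ (f x) (f y)))
      (only V (flg (coW κ (f x) (f x')))) q = coW κ (f x) (f x') (Fin.natAdd 4 q) :=
    ad.own κ _ _ rfl q hq
  have erow : row κ S V (coW κ (f x) (f x')) (coW κ (f x) (f y)) q =
      tr κ (sh (coW κ (f x) (f x') 0)) (offS S (flg (coW κ (f x) (f y)))) q -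
        coW κ (f x) (f x') (Fin.natAdd 4 q) := by
    unfold row
    rw [gc]
  rw [erow] at ga
  -- (d) composition on the first line
  have gd := R.own_comp hx₀ hx hx' hl₀ hl q
  -- (e) the transported part
  have ge : |tr κ (sh u) (only V (flg (coW κ (f x₀) (f x)))) q -
      tr κ (sh u) (ψ • fk κ u₀ j) q| ≤ 470 * M ^ 7 * η * X (Fin.natAdd 4 q) := by
    have hsM : ∀ i : Fin 4, |sh u i| ≤ M * X (Fin.castAdd 14 i) := fun i =>
      (R.sh_le hx hx' i).trans (mul_le_mul_of_nonneg_right hKM (R.pos _).le)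
    refine tr_lip (q := q) R.hκ R.hX hM1 hη0 hsM hsM (fun i => by
      rw [sub_self, abs_zero]
      exact mul_nonneg (mul_nonneg hM0 hη0) (R.pos _).le) (fun p => ?_) (fun p => ?_)
    · unfold only
      split_ifs with hp
      · exact (R.bnd _ hx₀ _ hx _).trans (mul_le_mul_of_nonneg_right hKM (R.pos _).le)
      · rw [abs_zero]; exact mul_nonneg hM0 (R.pos _).le
    · have hηM : η * X (Fin.natAdd 4 p) ≤ M * η * X (Fin.natAdd 4 p) := by
        refine mul_le_mul_of_nonneg_right ?_ (R.pos _).le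
        nlinarith
      unfold only
      split_ifs with hp
      · exact (h1 p hp).trans hηM
      · rw [Pi.smul_apply, ad.sup κ u₀ p hp, smul_zero, sub_zero, abs_zero]
        exact mul_nonneg (mul_nonneg hM0 hη0) (R.pos _).le
  rw [NetW191.tr_smul, Pi.smul_apply, smul_eq_mul, fk_add] at ge
  -- (f)
  have gf := h2 q hq
  rw [hu01] at gf
  -- (g) the reference
  have gg := R.ref_comp hx₀ hx hy hl₀ j (ad.zero κ)
  have gs := fk_size (j := j) R.hκ R.hX R.pos hK (u := u) (R.bnd x hx x' hx' 0) hqj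
  have gg2 : |(coW κ (f x₀) (f y) (Fin.natAdd 4 j) - coW κ (f x) (f y) (Fin.natAdd 4 j)) *
      fk κ u j q| ≤ 470 * K ^ 7 * (470 * K ^ 7) * η * X (Fin.natAdd 4 q) := by
    rw [abs_mul]
    calc |coW κ (f x₀) (f y) (Fin.natAdd 4 j) - coW κ (f x) (f y) (Fin.natAdd 4 j)| *
          |fk κ u j q| ≤ (470 * K ^ 7 * τ * X (Fin.natAdd 4 j)) * |fk κ u j q| :=
          mul_le_mul_of_nonneg_right gg (abs_nonneg _)
      _ = (470 * K ^ 7 * τ) * (X (Fin.natAdd 4 j) * |fk κ u j q|) := by ring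
      _ ≤ (470 * K ^ 7 * τ) * (470 * K ^ 7 * X (Fin.natAdd 4 q)) := by
          refine mul_le_mul_of_nonneg_left gs ?_
          have := R.hτ
          positivity
      _ = τ * (470 * K ^ 7 * (470 * K ^ 7) * X (Fin.natAdd 4 q)) := by ring
      _ ≤ η * (470 * K ^ 7 * (470 * K ^ 7) * X (Fin.natAdd 4 q)) :=
          mul_le_mul_of_nonneg_right hη (by positivity)
      _ = _ := by ring
  -- (h) the height slots
  set ψ' := ψ - coW κ (f x₀) (f y) (Fin.natAdd 4 j) with hψ'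
  have hψ'b : |ψ'| ≤ 2 * M * X (Fin.natAdd 4 j) := by
    have h3 := R.bnd x₀ hx₀ y hy (Fin.natAdd 4 j)
    have h4 := abs_sub ψ (coW κ (f x₀) (f y) (Fin.natAdd 4 j))
    have h5 := mul_le_mul_of_nonneg_right hKM hXj.le
    rw [hψ']
    linarith
  have gh : |ψ' * fk κ u j q - ψ' * fk κ v j q| ≤
      470 * (2 * M) ^ 7 * η * X (Fin.natAdd 4 q) := by
    have hh := R.hgt_row hx hx' hy hy' hl hl' hz hz'
    have h2M : K ≤ 2 * M := by linarith
    have key := tr_lip (q := q) (h := sh u) (h' := sh v) (w := ψ' • Pi.single j 1)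
      (w' := ψ' • Pi.single j 1) R.hκ R.hX (K := 2 * M) (by linarith) hη0
      (fun i => (R.sh_le hx hx' i).trans (mul_le_mul_of_nonneg_right h2M (R.pos _).le))
      (fun i => (R.sh_le hy hy' i).trans (mul_le_mul_of_nonneg_right h2M (R.pos _).le))
      (fun i => by
        fin_cases i
        · change |u - v| ≤ 2 * M * η * X 0
          rw [abs_sub_comm]
          refine hh.trans (mul_le_mul_of_nonneg_right ?_ (R.pos _).le)
          exact mul_le_mul (by linarith) hη R.hτ (by linarith)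
        · change |(0 : ℝ) - 0| ≤ 2 * M * η * X 1
          rw [sub_zero, abs_zero]; exact mul_nonneg (mul_nonneg (by linarith) hη0) (R.pos _).le
        · change |(0 : ℝ) - 0| ≤ 2 * M * η * X 2
          rw [sub_zero, abs_zero]; exact mul_nonneg (mul_nonneg (by linarith) hη0) (R.pos _).le
        · change |(0 : ℝ) - 0| ≤ 2 * M * η * X 3
          rw [sub_zero, abs_zero]; exact mul_nonneg (mul_nonneg (by linarith) hη0) (R.pos _).le)
      (fun p => single_le R.pos (by linarith) hψ'b p) (fun p => by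
        rw [sub_self, abs_zero]
        exact mul_nonneg (mul_nonneg (by linarith) hη0) (R.pos _).le)
    rw [smul_fk, smul_fk]
    have e : tr κ (sh u) (ψ' • Pi.single j 1) q - (ψ' • (Pi.single j 1 : Fin 14 → ℝ)) q -
        (tr κ (sh v) (ψ' • Pi.single j 1) q - (ψ' • (Pi.single j 1 : Fin 14 → ℝ)) q) =
        tr κ (sh u) (ψ' • Pi.single j 1) q - tr κ (sh v) (ψ' • Pi.single j 1) q := by ring
    rw [e]
    exact key
  -- sum
  have hτη : ∀ {C : ℝ}, 0 ≤ C → C * τ * X (Fin.natAdd 4 q) ≤ C * η * X (Fin.natAdd 4 q) :=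
    fun hC => mul_le_mul_of_nonneg_right (mul_le_mul_of_nonneg_left hη hC) hXq.le
  have ga' := ga.trans (hτη (CR_ge hK).1)
  have gd' := gd.trans (hτη (by positivity))
  have e : CS K M Ch * η * X (Fin.natAdd 4 q) = CR K * η * X (Fin.natAdd 4 q) +
      Ch * η * X (Fin.natAdd 4 q) + 470 * K ^ 7 * η * X (Fin.natAdd 4 q) +
      470 * M ^ 7 * η * X (Fin.natAdd 4 q) + η * X (Fin.natAdd 4 q) +
      470 * K ^ 7 * (470 * K ^ 7) * η * X (Fin.natAdd 4 q) +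
      470 * (2 * M) ^ 7 * η * X (Fin.natAdd 4 q) := by
    unfold CS; ring
  rw [e]
  have hψe : ψ' * fk κ u j q = ψ * fk κ u j q -
      coW κ (f x₀) (f y) (Fin.natAdd 4 j) * fk κ u j q := by rw [hψ']; ring
  rw [sub_mul] at gg2
  rw [hψe] at gh
  rw [mul_sub] at ge
  rw [abs_le] at ga' gb gd' ge gf gg2 gh ⊢
  constructor
  · linarith [ga'.1, ga'.2, gb.1, gb.2, gd'.1, gd'.2, ge.1, ge.2, gf.1, gf.2, gg2.1, gg2.2,
      gh.1, gh.2]
  · linarith [ga'.1, ga'.2, gb.1, gb.2, gd'.1, gd'.2, ge.1, ge.2, gf.1, gf.2, gg2.1, gg2.2,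
      gh.1, gh.2]

end Raw

end

end Crest.Agent.R136.Res2648
end

-- ▼ part R136/Res3_648
section

/-!
# R136: rows at the wall resonances of 5b (helper648), part 3: the four resonances, finite rows

* `adm_AY`, `adm_BY`, `adm_YY`, `adm_zY` : `Adm V j`;
* `AY_ratio`, `BY_ratio`, `YY_ratio`, `zY_ratio` : the ratio seen by a pair `b 1` small, `b 2` (`b 3`)
  not small;
* `YY_r1`, `zY_r1` : the relation seen by a pair `b 2` small, `b 1` not small, for every line;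
* `YY_fin`, `zY_fin` : the own motion is `ψ * fk`.
-/

set_option autoImplicit false
set_option linter.unusedVariables false
set_option linter.unusedSectionVars false

namespace Crest.Agent.R136.Res2648

open Finset Crest.Agent.R136.NetW191 Crest.Agent.R136.EvW938

lemma forall14 {P : Fin 14 → Prop} (h0 : P 0) (h1 : P 1) (h2 : P 2) (h3 : P 3) (h4 : P 4)
    (h5 : P 5) (h6 : P 6) (h7 : P 7) (h8 : P 8) (h9 : P 9) (h10 : P 10) (h11 : P 11)
    (h12 : P 12) (h13 : P 13) : ∀ q, P q := by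
  intro q
  fin_cases q <;> assumption

/-! ### values of `fk` -/

section
variable (κ u : ℝ)

lemma fk_AY : fk κ u 2 5 = u := by
  unfold fk; rw [tr_sh5]; simp [Pi.single_apply]
lemma fk_BY : fk κ u 1 3 = u := by
  unfold fk; rw [tr_sh3]; simp [Pi.single_apply]
lemma fk_YY1 : fk κ u 0 1 = 2 * u := by
  unfold fk; rw [tr_sh1]; simp [Pi.single_apply]
lemma fk_YY3 : fk κ u 0 3 = u ^ 2 := by
  unfold fk; rw [tr_sh3]; simp [Pi.single_apply]
lemma fk_zY6 : fk κ u 4 6 = κ * u := by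
  unfold fk; rw [tr_sh6]; simp [Pi.single_apply]
lemma fk_zY7 : fk κ u 4 7 = 2 * u := by
  unfold fk; rw [tr_sh7]; simp [Pi.single_apply]
lemma fk_zY10 : fk κ u 4 10 = u ^ 2 := by
  unfold fk; rw [tr_sh10]; simp [Pi.single_apply]

end

theorem adm_AY : Adm {5} 2 where
  jV := by decide
  zero κ h w := by rw [tr2]; simp [only]
  own κ h w h0 q hq := by
    rw [mem_singleton] at hq
    subst hq
    rw [tr5]; simp [only]
  sup κ u := by
    refine forall14 ?_ ?_ ?_ ?_ ?_ ?_ ?_ ?_ ?_ ?_ ?_ ?_ ?_ ?_ <;> intro hq <;>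
    first
    | exact absurd hq (by decide)
    | (unfold fk
       simp [tr_sh0, tr_sh1, tr_sh2, tr_sh3, tr_sh4, tr_sh5, tr_sh6, tr_sh7, tr_sh8, tr_sh9,
         tr_sh10, tr_sh11, tr_sh12, tr_sh13, Pi.single_apply])

theorem adm_BY : Adm {3} 1 where
  jV := by decide
  zero κ h w := by rw [tr1]; simp [only]
  own κ h w h0 q hq := by
    rw [mem_singleton] at hq
    subst hq
    rw [tr3]; simp [only]
  sup κ u := by
    refine forall14 ?_ ?_ ?_ ?_ ?_ ?_ ?_ ?_ ?_ ?_ ?_ ?_ ?_ ?_ <;> intro hq <;>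
    first
    | exact absurd hq (by decide)
    | (unfold fk
       simp [tr_sh0, tr_sh1, tr_sh2, tr_sh3, tr_sh4, tr_sh5, tr_sh6, tr_sh7, tr_sh8, tr_sh9,
         tr_sh10, tr_sh11, tr_sh12, tr_sh13, Pi.single_apply])

theorem adm_YY : Adm {1, 3} 0 where
  jV := by decide
  zero κ h w := by rw [tr0]; simp [only]
  own κ h w h0 q hq := by
    simp only [mem_insert, mem_singleton] at hq
    rcases hq with rfl | rfl
    · rw [tr1, h0]; simp [only]
    · rw [tr3, h0]; simp [only]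
  sup κ u := by
    refine forall14 ?_ ?_ ?_ ?_ ?_ ?_ ?_ ?_ ?_ ?_ ?_ ?_ ?_ ?_ <;> intro hq <;>
    first
    | exact absurd hq (by decide)
    | (unfold fk
       simp [tr_sh0, tr_sh1, tr_sh2, tr_sh3, tr_sh4, tr_sh5, tr_sh6, tr_sh7, tr_sh8, tr_sh9,
         tr_sh10, tr_sh11, tr_sh12, tr_sh13, Pi.single_apply])

theorem adm_zY : Adm {6, 7, 10} 4 where
  jV := by decide
  zero κ h w := by rw [tr4]; simp [only]
  own κ h w h0 q hq := by
    simp only [mem_insert, mem_singleton] at hq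
    rcases hq with rfl | rfl | rfl
    · rw [tr6]; simp [only]
    · rw [tr7]; simp [only]
    · rw [tr10, h0]; simp [only]
  sup κ u := by
    refine forall14 ?_ ?_ ?_ ?_ ?_ ?_ ?_ ?_ ?_ ?_ ?_ ?_ ?_ ?_ <;> intro hq <;>
    first
    | exact absurd hq (by decide)
    | (unfold fk
       simp [tr_sh0, tr_sh1, tr_sh2, tr_sh3, tr_sh4, tr_sh5, tr_sh6, tr_sh7, tr_sh8, tr_sh9,
         tr_sh10, tr_sh11, tr_sh12, tr_sh13, Pi.single_apply])

/-! ### rows -/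

section rows

variable (κ : ℝ) {S : Finset (Fin 18)} (a b : Fin 18 → ℝ)

lemma offS_on {q : Fin 14} {s : Fin 18} (hs : Fin.natAdd 4 q = s) (h : s ∈ S) (w : Fin 14 → ℝ) :
    offS S w q = 0 := offS_mem (hs ▸ h)

lemma offS_of {q : Fin 14} {s : Fin 18} (hs : Fin.natAdd 4 q = s) (h : s ∉ S)
    (b : Fin 18 → ℝ) : offS S (flg b) q = b s := by
  rw [offS_not (hs ▸ h)]
  unfold flg
  rw [hs]

lemma flg_at {q : Fin 14} {s : Fin 18} (hs : Fin.natAdd 4 q = s) (b : Fin 18 → ℝ) :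
    flg b q = b s := by
  unfold flg
  rw [hs]

/-- slot `B` (14), own slot `AB` (9), all of it -/
lemma row_AY (h14 : (14 : Fin 18) ∈ S) (h11 : (11 : Fin 18) ∉ S) (h8 : (8 : Fin 18) ∉ S) :
    row κ S {5} a b 10 = a 0 * b 11 + a 0 ^ 2 * b 8 - (b 2 + a 0 * b 1) * a 9 := by
  unfold row
  rw [tr_sh10, tr10, offS_on (q := 10) (s := 14) rfl h14, offS_of (q := 7) (s := 11) rfl h11,
    offS_of (q := 4) (s := 8) rfl h8]
  simp only [only, flg_at (q := 5) (s := 9) rfl]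
  simp [frE]

lemma row_BY (h14 : (14 : Fin 18) ∉ S) (h11 : (11 : Fin 18) ∉ S) (h8 : (8 : Fin 18) ∉ S) :
    row κ S {3} a b 10 = b 14 + a 0 * b 11 + a 0 ^ 2 * b 8 -
      2 * (b 3 - κ * a 0 * b 1 ^ 2) * a 7 := by
  unfold row
  rw [tr_sh10, tr10, offS_of (q := 10) (s := 14) rfl h14, offS_of (q := 7) (s := 11) rfl h11,
    offS_of (q := 4) (s := 8) rfl h8]
  simp only [only, flg_at (q := 3) (s := 7) rfl]
  simp [frE]

lemma row_BY8 (h8 : (8 : Fin 18) ∉ S) : row κ S {3} a b 4 = b 8 := by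
  unfold row
  rw [tr_sh4, tr4, offS_of (q := 4) (s := 8) rfl h8]
  simp [only]

lemma row_YY (h9 : (9 : Fin 18) ∈ S) (h6 : (6 : Fin 18) ∉ S) :
    row κ S {1, 3} a b 5 = a 0 * b 6 - 2 * κ * (b 2 + a 0 * b 1) * a 5 +
      4 * κ * b 1 * a 7 := by
  unfold row
  rw [tr_sh5, tr5, offS_on (q := 5) (s := 9) rfl h9, offS_of (q := 2) (s := 6) rfl h6]
  simp only [only, flg_at (q := 1) (s := 5) rfl, flg_at (q := 3) (s := 7) rfl]
  simp [frE]
  ring

lemma row_zY (h15 : (15 : Fin 18) ∈ S) (h12 : (12 : Fin 18) ∉ S) :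
    row κ S {6, 7, 10} a b 11 = a 0 * b 12 - 2 * (b 2 + a 0 * b 1) * a 10 +
      2 * κ * b 1 * a 14 := by
  unfold row
  rw [tr_sh11, tr11, offS_on (q := 11) (s := 15) rfl h15, offS_of (q := 8) (s := 12) rfl h12]
  simp only [only, flg_at (q := 6) (s := 10) rfl, flg_at (q := 7) (s := 11) rfl,
    flg_at (q := 10) (s := 14) rfl]
  simp [frE]
  ring

/-- the shear part of the own slots -/
lemma sh_AY (h9 : (9 : Fin 18) ∈ S) (h6 : (6 : Fin 18) ∉ S) (u : ℝ) : ∀ q ∈ ({5} : Finset (Fin 14)),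
    tr κ (sh u) (offS S (flg b)) q = b 6 * fk κ u 2 q := by
  intro q hq
  rw [mem_singleton] at hq
  subst hq
  rw [tr_sh5, fk_AY, offS_on (q := 5) (s := 9) rfl h9, offS_of (q := 2) (s := 6) rfl h6]
  ring

lemma sh_YY (h5 : (5 : Fin 18) ∈ S) (h7 : (7 : Fin 18) ∈ S) (h4 : (4 : Fin 18) ∉ S) (u : ℝ) :
    ∀ q ∈ ({1, 3} : Finset (Fin 14)),
    tr κ (sh u) (offS S (flg b)) q = b 4 * fk κ u 0 q := by
  intro q hq
  simp only [mem_insert, mem_singleton] at hq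
  rcases hq with rfl | rfl
  · rw [tr_sh1, fk_YY1, offS_on (q := 1) (s := 5) rfl h5, offS_of (q := 0) (s := 4) rfl h4]
    ring
  · rw [tr_sh3, fk_YY3, offS_on (q := 3) (s := 7) rfl h7, offS_on (q := 1) (s := 5) rfl h5,
      offS_of (q := 0) (s := 4) rfl h4]
    ring

lemma sh_zY (h10 : (10 : Fin 18) ∈ S) (h11 : (11 : Fin 18) ∈ S) (h14 : (14 : Fin 18) ∈ S)
    (h8 : (8 : Fin 18) ∉ S) (u : ℝ) : ∀ q ∈ ({6, 7, 10} : Finset (Fin 14)),
    tr κ (sh u) (offS S (flg b)) q = b 8 * fk κ u 4 q := by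
  intro q hq
  simp only [mem_insert, mem_singleton] at hq
  rcases hq with rfl | rfl | rfl
  · rw [tr_sh6, fk_zY6, offS_on (q := 6) (s := 10) rfl h10, offS_of (q := 4) (s := 8) rfl h8]
    ring
  · rw [tr_sh7, fk_zY7, offS_on (q := 7) (s := 11) rfl h11, offS_of (q := 4) (s := 8) rfl h8]
    ring
  · rw [tr_sh10, fk_zY10, offS_on (q := 10) (s := 14) rfl h14,
      offS_on (q := 7) (s := 11) rfl h11, offS_of (q := 4) (s := 8) rfl h8]
    ring

/-- slot `BY`: with the `YY` part -/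
lemma sh_BY (h7 : (7 : Fin 18) ∈ S) (h5 : (5 : Fin 18) ∉ S) (u : ℝ) :
    ∀ q ∈ ({3} : Finset (Fin 14)),
    tr κ (sh u) (offS S (flg b)) q - b 5 * fk κ u 1 q = u ^ 2 * offS S (flg b) 0 := by
  intro q hq
  rw [mem_singleton] at hq
  subst hq
  rw [tr_sh3, fk_BY, offS_on (q := 3) (s := 7) rfl h7, offS_of (q := 1) (s := 5) rfl h5]
  ring

end rows

/-! ### finite statements -/

lemma divb {N D E β P Q T : ℝ} (hβ : 0 < β) (hQ : 0 < Q) (hT : 0 ≤ T) (hE : 0 ≤ E)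
    (hN : |N| ≤ E * P) (hP : P = Q * T) (hD : β * Q ≤ |D|) : |N / D| ≤ E / β * T := by
  have hD0 : 0 < |D| := lt_of_lt_of_le (mul_pos hβ hQ) hD
  rw [abs_div, div_le_iff₀ hD0]
  calc |N| ≤ E * P := hN
    _ = (E / β * T) * (β * Q) := by rw [hP]; field_simp
    _ ≤ (E / β * T) * |D| := mul_le_mul_of_nonneg_left hD (by positivity)

section fin

variable {β' : Type*} {κ : ℝ} {S : Finset (Fin 18)} {X : Fin 18 → ℝ}
  {K τ : ℝ} {f : β' → FW} {A : Set β'} {lc zc : β' → ℕ}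

/-- the row of an own slot outside `V` -/
theorem Raw.row_small {V : Finset (Fin 14)} (R : Raw κ S V X K τ f A lc zc) {x x' y y' : β'}
    (hx : x ∈ A) (hx' : x' ∈ A) (hy : y ∈ A) (hy' : y' ∈ A)
    (hl : lc x = lc x') (hl' : lc y = lc y') (hz : zc x = zc y) (hz' : zc x' = zc y')
    {q : Fin 14} (hq : Fin.natAdd 4 q ∈ S) (hqV : q ∉ V) :
    |row κ S V (coW κ (f x) (f x')) (coW κ (f x) (f y)) q| ≤
      (CR K + K) * τ * X (Fin.natAdd 4 q) := by
  have g1 := R.lev_row hx hx' hy hy' hl hl' hz hz' hq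
  have g2 := R.own y hy y' hy' hl' (Fin.natAdd 4 q) (natAdd_ne_zero q)
    (fun q' hq' he => hqV (natAdd_inj he ▸ hq'))
  have e : (CR K + K) * τ * X (Fin.natAdd 4 q) = CR K * τ * X (Fin.natAdd 4 q) +
      K * τ * X (Fin.natAdd 4 q) := by ring
  rw [e]
  rw [abs_le] at g1 g2 ⊢
  constructor <;> linarith [g1.1, g1.2, g2.1, g2.2]

/-- **`AY` : the ratio** -/
theorem AY_ratio (R : Raw κ S {5} X K τ f A lc zc) (h14 : (14 : Fin 18) ∈ S)
    (h11 : (11 : Fin 18) ∉ S) (h8 : (8 : Fin 18) ∉ S) (t14 : X 14 = X 2 * X 9)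
    (t11 : X 11 = X 2 * X 6) {x x' y y' : β'} (hx : x ∈ A) (hx' : x' ∈ A) (hy : y ∈ A)
    (hy' : y' ∈ A) (hl : lc x = lc x') (hl' : lc y = lc y') (hz : zc x = zc y)
    (hz' : zc x' = zc y') {δ β : ℝ} (hδ : 0 ≤ δ) (hβ : 0 < β)
    (b1 : |coW κ (f x) (f y) 1| ≤ δ * X 1) (b8 : |coW κ (f x) (f y) 8| ≤ δ * X 8)
    (b2 : β * X 2 ≤ |coW κ (f x) (f y) 2|) :
    |coW κ (f x) (f x') 9 - coW κ (f x) (f y) 11 / coW κ (f x) (f y) 2 *
      coW κ (f x) (f x') 0| ≤ ((CR K + K) * τ + 2 * K ^ 2 * δ) / β * X 9 ∧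
    |coW κ (f x) (f y) 11 / coW κ (f x) (f y) 2| ≤ K / β * X 6 := by
  have hK := R.hK
  have hK0 := R.K0
  have hC := (CR_ge hK).1
  have hτ := R.hτ
  have g := R.row_small hx hx' hy hy' hl hl' hz hz' (q := 10) h14 (by decide)
  rw [row_AY κ _ _ h14 h11 h8] at g
  change _ ≤ (CR K + K) * τ * X 14 at g
  set a := coW κ (f x) (f x') with ha
  set b := coW κ (f x) (f y) with hb
  have ab : ∀ s, |a s| ≤ K * X s := R.bnd x hx x' hx'
  have bb : ∀ s, |b s| ≤ K * X s := R.bnd x hx y hy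
  have w2 : X 1 * X 0 ≤ X 2 := (walls_frame R.hX).1
  have w14 : X 0 * (X 0 * X 8) ≤ X 14 := by
    have := R.hX.wall 14 [0, 0, 8] (by decide)
    simpa only [List.map_cons, List.map_nil, List.prod_cons, List.prod_nil, mul_one] using this
  have X0 := (R.pos 0).le
  have X9 := (R.pos 9).le
  have m1 : |a 0 * (a 0 * b 8)| ≤ (K * (K * δ)) * X 14 :=
    bm (ab 0) (bm (ab 0) b8 hK0 hδ X0 le_rfl) hK0 (by positivity) X0 w14
  have m2 : |b 1 * a 0| ≤ (δ * K) * X 2 := bm b1 (ab 0) hδ hK0 (R.pos 1).le w2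
  have m3 : |b 1 * a 0 * a 9| ≤ (δ * K * K) * X 14 :=
    bm m2 (ab 9) (by positivity) hK0 (R.pos 2).le t14.ge
  have hN : |a 0 * b 11 - b 2 * a 9| ≤ ((CR K + K) * τ + 2 * K ^ 2 * δ) * X 14 := by
    have e : a 0 * b 11 - b 2 * a 9 = (a 0 * b 11 + a 0 ^ 2 * b 8 - (b 2 + a 0 * b 1) * a 9) -
        a 0 * (a 0 * b 8) + b 1 * a 0 * a 9 := by ring
    have e2 : ((CR K + K) * τ + 2 * K ^ 2 * δ) * X 14 = (CR K + K) * τ * X 14 +
        (K * (K * δ)) * X 14 + (δ * K * K) * X 14 := by ring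
    rw [e, e2]
    rw [abs_le] at g m1 m3 ⊢
    constructor <;> linarith [g.1, g.2, m1.1, m1.2, m3.1, m3.2]
  have hb2 : b 2 ≠ 0 := by
    intro h0
    rw [h0, abs_zero] at b2
    linarith [mul_pos hβ (R.pos 2)]
  constructor
  · have e : a 9 - b 11 / b 2 * a 0 = -((a 0 * b 11 - b 2 * a 9) / b 2) := by
      field_simp
      ring
    rw [e, abs_neg]
    exact divb hβ (R.pos 2) X9 (by positivity) hN t14 b2
  · exact divb hβ (R.pos 2) (R.pos 6).le hK0 (bb 11) t11 b2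

/-- **`BY` : the ratio** (slot `B` is a line slot) -/
theorem BY_ratio (R : Raw κ S {3} X K τ f A lc zc) (h14 : (14 : Fin 18) ∉ S)
    (h11 : (11 : Fin 18) ∉ S) (h8 : (8 : Fin 18) ∉ S) (t14 : X 14 = X 3 * X 7)
    (t11 : X 11 = X 3 * X 5) {x x' y y' : β'} (hx : x ∈ A) (hx' : x' ∈ A) (hy : y ∈ A)
    (hy' : y' ∈ A) (hl : lc x = lc x') (hl' : lc y = lc y') (hz : zc x = zc y)
    (hz' : zc x' = zc y') {δ β : ℝ} (hδ : 0 ≤ δ) (hβ : 0 < β)
    (b1 : |coW κ (f x) (f y) 1| ≤ δ * X 1) (b8 : |coW κ (f x) (f y) 8| ≤ δ * X 8)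
    (b14 : |coW κ (f x) (f y) 14| ≤ δ * X 14) (r14 : |coW κ (f x') (f y') 14| ≤ δ * X 14)
    (b3 : β * X 3 ≤ |coW κ (f x) (f y) 3|) :
    |coW κ (f x) (f x') 7 - coW κ (f x) (f y) 11 / (2 * coW κ (f x) (f y) 3) *
      coW κ (f x) (f x') 0| ≤ (CR K * τ + (2 + 3 * K ^ 3) * δ) / β * X 7 ∧
    |coW κ (f x) (f y) 11 / (2 * coW κ (f x) (f y) 3)| ≤ K / β * X 5 := by
  have hK := R.hK
  have hK0 := R.K0
  have hC := (CR_ge hK).1
  have hτ := R.hτ
  have g := R.lin_row hx hx' hy hy' hl hl' hz hz' (q := 10) h14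
  rw [row_BY κ _ _ h14 h11 h8] at g
  change |coW κ (f x') (f y') 14 - _| ≤ CR K * τ * X 14 at g
  set r := coW κ (f x') (f y') with hr
  set a := coW κ (f x) (f x') with ha
  set b := coW κ (f x) (f y) with hb
  have ab : ∀ s, |a s| ≤ K * X s := R.bnd x hx x' hx'
  have bb : ∀ s, |b s| ≤ K * X s := R.bnd x hx y hy
  have w2 : X 1 * X 0 ≤ X 2 := (walls_frame R.hX).1
  have w3 : X 1 * (X 1 * X 0) ≤ X 3 := (walls_frame R.hX).2.2
  have w14 : X 0 * (X 0 * X 8) ≤ X 14 := by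
    have := R.hX.wall 14 [0, 0, 8] (by decide)
    simpa only [List.map_cons, List.map_nil, List.prod_cons, List.prod_nil, mul_one] using this
  have X0 := (R.pos 0).le
  have X1 := (R.pos 1).le
  have X3 := (R.pos 3).le
  have X7 := (R.pos 7).le
  have X14 := (R.pos 14).le
  have m1 : |a 0 * (a 0 * b 8)| ≤ (K * (K * δ)) * X 14 :=
    bm (ab 0) (bm (ab 0) b8 hK0 hδ X0 le_rfl) hK0 (by positivity) X0 w14
  have m2 : |b 1 * (b 1 * a 0)| ≤ (δ * (K * K)) * X 3 :=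
    bm b1 (bm (bb 1) (ab 0) hK0 hK0 X1 le_rfl) hδ (by positivity) X1 w3
  have m3 : |b 1 * (b 1 * a 0) * a 7| ≤ (δ * (K * K) * K) * X 14 :=
    bm m2 (ab 7) (by positivity) hK0 X3 t14.ge
  have m4 : |κ * (b 1 * (b 1 * a 0) * a 7)| ≤ (δ * (K * K) * K) * X 14 := by
    rw [abs_mul]
    calc |κ| * |b 1 * (b 1 * a 0) * a 7| ≤ 1 * |b 1 * (b 1 * a 0) * a 7| :=
          mul_le_mul_of_nonneg_right R.hκ (abs_nonneg _)
      _ ≤ _ := by linarith
  have hN : |a 0 * b 11 - 2 * b 3 * a 7| ≤ (CR K * τ + (2 + 3 * K ^ 3) * δ) * X 14 := by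
    have e : a 0 * b 11 - 2 * b 3 * a 7 = -(r 14 - (b 14 + a 0 * b 11 + a 0 ^ 2 * b 8 -
        2 * (b 3 - κ * a 0 * b 1 ^ 2) * a 7)) + r 14 - b 14 -
        a 0 * (a 0 * b 8) - 2 * (κ * (b 1 * (b 1 * a 0) * a 7)) := by ring
    have K23 : K * (K * δ) ≤ K ^ 3 * δ := by
      have h1 : K * K ≤ K ^ 3 := by nlinarith [mul_nonneg hK0 hK0]
      have h2 := mul_le_mul_of_nonneg_right h1 hδ
      linarith
    have e2 : (CR K * τ + (2 + 3 * K ^ 3) * δ) * X 14 = CR K * τ * X 14 +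
        δ * X 14 + δ * X 14 + (K ^ 3 * δ) * X 14 + 2 * ((δ * (K * K) * K) * X 14) := by ring
    have m1' := m1.trans (mul_le_mul_of_nonneg_right K23 X14)
    rw [e, e2]
    rw [abs_le] at g m1' m4 b14 r14 ⊢
    constructor <;> linarith [g.1, g.2, m1'.1, m1'.2, m4.1, m4.2, b14.1, b14.2, r14.1, r14.2]
  have hb3 : b 3 ≠ 0 := by
    intro h0
    rw [h0, abs_zero] at b3
    linarith [mul_pos hβ (R.pos 3)]
  have b3' : β * X 3 ≤ |2 * b 3| := by
    rw [abs_mul, abs_two]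
    linarith [abs_nonneg (b 3)]
  constructor
  · have e : a 7 - b 11 / (2 * b 3) * a 0 = -((a 0 * b 11 - 2 * b 3 * a 7) / (2 * b 3)) := by
      field_simp
      ring
    rw [e, abs_neg]
    exact divb hβ (R.pos 3) X7 (by positivity) hN t14 b3'
  · exact divb hβ (R.pos 3) (R.pos 5).le hK0 (bb 11) t11 b3'

/-- **`YY` : the ratio** -/
theorem YY_ratio (R : Raw κ S {1, 3} X K τ f A lc zc) (h9 : (9 : Fin 18) ∈ S)
    (h6 : (6 : Fin 18) ∉ S) (t9 : X 9 = X 2 * X 5) (t9' : X 9 = X 1 * X 7)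
    (t6 : X 6 = X 2 * X 4) {x x' y y' : β'} (hx : x ∈ A) (hx' : x' ∈ A) (hy : y ∈ A)
    (hy' : y' ∈ A) (hl : lc x = lc x') (hl' : lc y = lc y') (hz : zc x = zc y)
    (hz' : zc x' = zc y') {δ β : ℝ} (hδ : 0 ≤ δ) (hβ : 0 < β)
    (b1 : |coW κ (f x) (f y) 1| ≤ δ * X 1)
    (b2 : β * X 2 ≤ |κ| * |coW κ (f x) (f y) 2|) :
    |coW κ (f x) (f x') 5 - coW κ (f x) (f y) 6 / (4 * κ * coW κ (f x) (f y) 2) *
      (2 * coW κ (f x) (f x') 0)| ≤ ((CR K + K) * τ + 6 * K ^ 2 * δ) / β * X 5 ∧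
    |coW κ (f x) (f y) 6 / (4 * κ * coW κ (f x) (f y) 2)| ≤ K / β * X 4 := by
  have hK := R.hK
  have hK0 := R.K0
  have hC := (CR_ge hK).1
  have hτ := R.hτ
  have g := R.row_small hx hx' hy hy' hl hl' hz hz' (q := 5) h9 (by decide)
  rw [row_YY κ _ _ h9 h6] at g
  change _ ≤ (CR K + K) * τ * X 9 at g
  set a := coW κ (f x) (f x') with ha
  set b := coW κ (f x) (f y) with hb
  have ab : ∀ s, |a s| ≤ K * X s := R.bnd x hx x' hx'
  have bb : ∀ s, |b s| ≤ K * X s := R.bnd x hx y hy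
  have w2 : X 1 * X 0 ≤ X 2 := (walls_frame R.hX).1
  have X9 := (R.pos 9).le
  have kb : ∀ {v D : ℝ}, |v| ≤ D → |κ * v| ≤ D := by
    intro v D h
    rw [abs_mul]
    calc |κ| * |v| ≤ 1 * |v| := mul_le_mul_of_nonneg_right R.hκ (abs_nonneg _)
      _ ≤ D := by linarith
  have m2 : |b 1 * a 0| ≤ (δ * K) * X 2 := bm b1 (ab 0) hδ hK0 (R.pos 1).le w2
  have m3 : |κ * (b 1 * a 0 * a 5)| ≤ (δ * K * K) * X 9 :=
    kb (bm m2 (ab 5) (by positivity) hK0 (R.pos 2).le t9.ge)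
  have m4 : |κ * (b 1 * a 7)| ≤ (δ * K) * X 9 :=
    kb (bm b1 (ab 7) hδ hK0 (R.pos 1).le t9'.ge)
  have hN : |a 0 * b 6 - 2 * κ * b 2 * a 5| ≤ ((CR K + K) * τ + 6 * K ^ 2 * δ) * X 9 := by
    have e : a 0 * b 6 - 2 * κ * b 2 * a 5 = (a 0 * b 6 - 2 * κ * (b 2 + a 0 * b 1) * a 5 +
      4 * κ * b 1 * a 7) + 2 * (κ * (b 1 * a 0 * a 5)) - 4 * (κ * (b 1 * a 7)) := by ring
    have K12 : δ * K ≤ δ * K * K := le_mul_of_one_le_right (by positivity) hK
    have e2 : ((CR K + K) * τ + 6 * K ^ 2 * δ) * X 9 = (CR K + K) * τ * X 9 +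
        2 * ((δ * K * K) * X 9) + 4 * ((δ * K * K) * X 9) := by ring
    have m4' := m4.trans (mul_le_mul_of_nonneg_right K12 X9)
    rw [e, e2]
    rw [abs_le] at g m3 m4' ⊢
    constructor <;> linarith [g.1, g.2, m3.1, m3.2, m4'.1, m4'.2]
  have hκb : κ * b 2 ≠ 0 := by
    intro h0
    rw [← abs_mul, h0, abs_zero] at b2
    linarith [mul_pos hβ (R.pos 2)]
  have hκ0 : κ ≠ 0 := left_ne_zero_of_mul hκb
  have hb2 : b 2 ≠ 0 := right_ne_zero_of_mul hκb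
  have b2' : β * X 2 ≤ |2 * κ * b 2| := by
    rw [abs_mul, abs_mul, abs_two]
    have : 0 ≤ |κ| * |b 2| := by positivity
    linarith
  have b2'' : β * X 2 ≤ |4 * κ * b 2| := by
    rw [abs_mul, abs_mul, abs_of_pos (show (0 : ℝ) < 4 by norm_num)]
    have : 0 ≤ |κ| * |b 2| := by positivity
    linarith
  constructor
  · have e : a 5 - b 6 / (4 * κ * b 2) * (2 * a 0) =
        -((a 0 * b 6 - 2 * κ * b 2 * a 5) / (2 * κ * b 2)) := by
      field_simp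
      ring
    rw [e, abs_neg]
    exact divb hβ (R.pos 2) (R.pos 5).le (by positivity) hN t9 b2'
  · exact divb hβ (R.pos 2) (R.pos 4).le hK0 (bb 6) t6 b2''

/-- **`zY` : the ratio** -/
theorem zY_ratio (R : Raw κ S {6, 7, 10} X K τ f A lc zc) (h15 : (15 : Fin 18) ∈ S)
    (h12 : (12 : Fin 18) ∉ S) (t15 : X 15 = X 2 * X 10) (t15' : X 15 = X 1 * X 14)
    (t12 : X 12 = X 2 * X 8) {x x' y y' : β'} (hx : x ∈ A) (hx' : x' ∈ A) (hy : y ∈ A)
    (hy' : y' ∈ A) (hl : lc x = lc x') (hl' : lc y = lc y') (hz : zc x = zc y)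
    (hz' : zc x' = zc y') {δ β : ℝ} (hδ : 0 ≤ δ) (hβ : 0 < β)
    (b1 : |coW κ (f x) (f y) 1| ≤ δ * X 1)
    (b2 : β * X 2 ≤ |κ| * |coW κ (f x) (f y) 2|) :
    |coW κ (f x) (f x') 10 - coW κ (f x) (f y) 12 / (2 * κ * coW κ (f x) (f y) 2) *
      (κ * coW κ (f x) (f x') 0)| ≤ ((CR K + K) * τ + 4 * K ^ 2 * δ) / β * X 10 ∧
    |coW κ (f x) (f y) 12 / (2 * κ * coW κ (f x) (f y) 2)| ≤ K / β * X 8 := by
  have hK := R.hK
  have hK0 := R.K0
  have hC := (CR_ge hK).1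
  have hτ := R.hτ
  have g := R.row_small hx hx' hy hy' hl hl' hz hz' (q := 11) h15 (by decide)
  rw [row_zY κ _ _ h15 h12] at g
  change _ ≤ (CR K + K) * τ * X 15 at g
  set a := coW κ (f x) (f x') with ha
  set b := coW κ (f x) (f y) with hb
  have ab : ∀ s, |a s| ≤ K * X s := R.bnd x hx x' hx'
  have bb : ∀ s, |b s| ≤ K * X s := R.bnd x hx y hy
  have w2 : X 1 * X 0 ≤ X 2 := (walls_frame R.hX).1
  have X15 := (R.pos 15).le
  have kb : ∀ {v D : ℝ}, |v| ≤ D → |κ * v| ≤ D := by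
    intro v D h
    rw [abs_mul]
    calc |κ| * |v| ≤ 1 * |v| := mul_le_mul_of_nonneg_right R.hκ (abs_nonneg _)
      _ ≤ D := by linarith
  have m2 : |b 1 * a 0| ≤ (δ * K) * X 2 := bm b1 (ab 0) hδ hK0 (R.pos 1).le w2
  have m3 : |b 1 * a 0 * a 10| ≤ (δ * K * K) * X 15 :=
    bm m2 (ab 10) (by positivity) hK0 (R.pos 2).le t15.ge
  have m4 : |κ * (b 1 * a 14)| ≤ (δ * K) * X 15 :=
    kb (bm b1 (ab 14) hδ hK0 (R.pos 1).le t15'.ge)
  have hN : |a 0 * b 12 - 2 * b 2 * a 10| ≤ ((CR K + K) * τ + 4 * K ^ 2 * δ) * X 15 := by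
    have e : a 0 * b 12 - 2 * b 2 * a 10 = (a 0 * b 12 - 2 * (b 2 + a 0 * b 1) * a 10 +
      2 * κ * b 1 * a 14) + 2 * (b 1 * a 0 * a 10) - 2 * (κ * (b 1 * a 14)) := by ring
    have K12 : δ * K ≤ δ * K * K := le_mul_of_one_le_right (by positivity) hK
    have e2 : ((CR K + K) * τ + 4 * K ^ 2 * δ) * X 15 = (CR K + K) * τ * X 15 +
        2 * ((δ * K * K) * X 15) + 2 * ((δ * K * K) * X 15) := by ring
    have m4' := m4.trans (mul_le_mul_of_nonneg_right K12 X15)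
    rw [e, e2]
    rw [abs_le] at g m3 m4' ⊢
    constructor <;> linarith [g.1, g.2, m3.1, m3.2, m4'.1, m4'.2]
  have hκb : κ * b 2 ≠ 0 := by
    intro h0
    rw [← abs_mul, h0, abs_zero] at b2
    linarith [mul_pos hβ (R.pos 2)]
  have hκ0 : κ ≠ 0 := left_ne_zero_of_mul hκb
  have hb2 : b 2 ≠ 0 := right_ne_zero_of_mul hκb
  have hκ1 := R.hκ
  have b2' : β * X 2 ≤ |2 * b 2| := by
    rw [abs_mul, abs_two]
    have h1 := mul_le_mul_of_nonneg_right hκ1 (abs_nonneg (b 2))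
    linarith [abs_nonneg (b 2)]
  have b2'' : β * X 2 ≤ |2 * κ * b 2| := by
    rw [abs_mul, abs_mul, abs_two]
    have : 0 ≤ |κ| * |b 2| := by positivity
    linarith
  constructor
  · have e : a 10 - b 12 / (2 * κ * b 2) * (κ * a 0) =
        -((a 0 * b 12 - 2 * b 2 * a 10) / (2 * b 2)) := by
      field_simp
      ring
    rw [e, abs_neg]
    exact divb hβ (R.pos 2) (R.pos 10).le (by positivity) hN t15 b2'
  · exact divb hβ (R.pos 2) (R.pos 8).le hK0 (bb 12) t12 b2''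

end fin

/-! ### the second relation -/

section fin2

variable {β' : Type*} {κ : ℝ} {S : Finset (Fin 18)} {X : Fin 18 → ℝ}
  {K τ : ℝ} {f : β' → FW} {A : Set β'} {lc zc : β' → ℕ}

/-- **`YY` : relation of the two own slots**, seen by a pair with `b 1` not small -/
theorem YY_r1 (R : Raw κ S {1, 3} X K τ f A lc zc) (h9 : (9 : Fin 18) ∈ S)
    (h6 : (6 : Fin 18) ∉ S) (t9 : X 9 = X 2 * X 5) (t9' : X 9 = X 1 * X 7)
    {x x' y y' : β'} (hx : x ∈ A) (hx' : x' ∈ A) (hy : y ∈ A)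
    (hy' : y' ∈ A) (hl : lc x = lc x') (hl' : lc y = lc y') (hz : zc x = zc y)
    (hz' : zc x' = zc y') {δ β : ℝ} (hδ : 0 ≤ δ) (hβ : 0 < β)
    (b2 : |coW κ (f x) (f y) 2| ≤ δ * X 2) (b6 : |coW κ (f x) (f y) 6| ≤ δ * X 6)
    (b1 : β * X 1 ≤ |κ| * |coW κ (f x) (f y) 1|) :
    |coW κ (f x) (f x') 7 - coW κ (f x) (f x') 0 * coW κ (f x) (f x') 5 / 2| ≤
      ((CR K + K) * τ + 3 * K * δ) / β * X 7 := by
  have hK := R.hK
  have hK0 := R.K0
  have hC := (CR_ge hK).1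
  have hτ := R.hτ
  have g := R.row_small hx hx' hy hy' hl hl' hz hz' (q := 5) h9 (by decide)
  rw [row_YY κ _ _ h9 h6] at g
  change _ ≤ (CR K + K) * τ * X 9 at g
  set a := coW κ (f x) (f x') with ha
  set b := coW κ (f x) (f y) with hb
  have ab : ∀ s, |a s| ≤ K * X s := R.bnd x hx x' hx'
  have X9 := (R.pos 9).le
  have w9 : X 0 * X 6 ≤ X 9 := by
    have := R.hX.wall 9 [0, 6] (by decide)
    simpa only [List.map_cons, List.map_nil, List.prod_cons, List.prod_nil, mul_one] using this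
  have kb : ∀ {v D : ℝ}, |v| ≤ D → |κ * v| ≤ D := by
    intro v D h
    rw [abs_mul]
    calc |κ| * |v| ≤ 1 * |v| := mul_le_mul_of_nonneg_right R.hκ (abs_nonneg _)
      _ ≤ D := by linarith
  have m1 : |a 0 * b 6| ≤ (K * δ) * X 9 := bm (ab 0) b6 hK0 hδ (R.pos 0).le w9
  have m2 : |κ * (b 2 * a 5)| ≤ (δ * K) * X 9 :=
    kb (bm b2 (ab 5) hδ hK0 (R.pos 2).le t9.ge)
  have hN : |4 * κ * b 1 * (a 7 - a 0 * a 5 / 2)| ≤ ((CR K + K) * τ + 3 * K * δ) * X 9 := by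
    have e : 4 * κ * b 1 * (a 7 - a 0 * a 5 / 2) = (a 0 * b 6 - 2 * κ * (b 2 + a 0 * b 1) * a 5 +
      4 * κ * b 1 * a 7) - a 0 * b 6 + 2 * (κ * (b 2 * a 5)) := by ring
    have e2 : ((CR K + K) * τ + 3 * K * δ) * X 9 = (CR K + K) * τ * X 9 +
        (K * δ) * X 9 + 2 * ((δ * K) * X 9) := by ring
    rw [e, e2]
    rw [abs_le] at g m1 m2 ⊢
    constructor <;> linarith [g.1, g.2, m1.1, m1.2, m2.1, m2.2]
  have hκb : κ * b 1 ≠ 0 := by
    intro h0
    rw [← abs_mul, h0, abs_zero] at b1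
    linarith [mul_pos hβ (R.pos 1)]
  have hκ0 : κ ≠ 0 := left_ne_zero_of_mul hκb
  have hb1 : b 1 ≠ 0 := right_ne_zero_of_mul hκb
  have b1' : β * X 1 ≤ |4 * κ * b 1| := by
    rw [abs_mul, abs_mul, abs_of_pos (show (0 : ℝ) < 4 by norm_num)]
    have : 0 ≤ |κ| * |b 1| := by positivity
    linarith
  have e : a 7 - a 0 * a 5 / 2 = (4 * κ * b 1 * (a 7 - a 0 * a 5 / 2)) / (4 * κ * b 1) := by
    field_simp
  rw [e]
  exact divb hβ (R.pos 1) (R.pos 7).le (by positivity) hN t9' b1'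

/-- the relation of `YY_r1` does not depend on the line -/
theorem YY_tr (R : Raw κ S {1, 3} X K τ f A lc zc) (h5 : (5 : Fin 18) ∈ S)
    (h7 : (7 : Fin 18) ∈ S) (h4 : (4 : Fin 18) ∉ S)
    {x x' y y' : β'} (hx : x ∈ A) (hx' : x' ∈ A) (hy : y ∈ A)
    (hy' : y' ∈ A) (hl : lc x = lc x') (hl' : lc y = lc y') (hz : zc x = zc y)
    (hz' : zc x' = zc y') {E : ℝ}
    (h : |coW κ (f x) (f x') 7 - coW κ (f x) (f x') 0 * coW κ (f x) (f x') 5 / 2| ≤ E * X 7) :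
    |coW κ (f y) (f y') 7 - coW κ (f y) (f y') 0 * coW κ (f y) (f y') 5 / 2| ≤
      (E + (CR K + K ^ 2 + K * CR K) * τ) * X 7 := by
  have hK := R.hK
  have hK0 := R.K0
  have hC := (CR_ge hK).1
  have hτ := R.hτ
  have g1 := R.lev_row hx hx' hy hy' hl hl' hz hz' (q := 1) h5
  have g3 := R.lev_row hx hx' hy hy' hl hl' hz hz' (q := 3) h7
  have g0 := R.hgt_row hx hx' hy hy' hl hl' hz hz'
  unfold row at g1 g3
  rw [sh_YY κ _ h5 h7 h4 _ 1 (by decide), fk_YY1, adm_YY.own κ _ _ rfl 1 (by decide)] at g1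
  rw [sh_YY κ _ h5 h7 h4 _ 3 (by decide), fk_YY3, adm_YY.own κ _ _ rfl 3 (by decide)] at g3
  change |coW κ (f y) (f y') 5 + (_ - coW κ (f x) (f x') 5)| ≤ CR K * τ * X 5 at g1
  change |coW κ (f y) (f y') 7 + (_ - coW κ (f x) (f x') 7)| ≤ CR K * τ * X 7 at g3
  have ab : ∀ s, |coW κ (f x) (f x') s| ≤ K * X s := R.bnd x hx x' hx'
  have eb : ∀ s, |coW κ (f y) (f y') s| ≤ K * X s := R.bnd y hy y' hy'
  set a := coW κ (f x) (f x') with ha
  set b := coW κ (f x) (f y) with hb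
  set e := coW κ (f y) (f y') with he
  have w7 : X 0 * X 5 ≤ X 7 := by
    have := R.hX.wall 7 [0, 5] (by decide)
    simpa only [List.map_cons, List.map_nil, List.prod_cons, List.prod_nil, mul_one] using this
  have X7 := (R.pos 7).le
  have m1 : |(e 0 - a 0) * e 5| ≤ (2 * K * τ * K) * X 7 :=
    bm g0 (eb 5) (by positivity) hK0 (R.pos 0).le w7
  have m2 : |a 0 * (e 5 + (b 4 * (2 * a 0) - a 5))| ≤ (K * (CR K * τ)) * X 7 :=
    bm (ab 0) g1 hK0 (by positivity) (R.pos 0).le w7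
  have e1 : e 7 - e 0 * e 5 / 2 = (a 7 - a 0 * a 5 / 2) + (e 7 + (b 4 * a 0 ^ 2 - a 7)) -
      (e 0 - a 0) * e 5 / 2 - a 0 * (e 5 + (b 4 * (2 * a 0) - a 5)) / 2 := by ring
  have e2 : (E + (CR K + K ^ 2 + K * CR K) * τ) * X 7 = E * X 7 + CR K * τ * X 7 +
      (2 * K * τ * K) * X 7 / 2 + (K * (CR K * τ)) * X 7 := by ring
  have n2 : 0 ≤ (K * (CR K * τ)) * X 7 := by positivity
  rw [e1, e2]
  rw [abs_le] at h g3 m1 m2 ⊢
  constructor <;> linarith [h.1, h.2, g3.1, g3.2, m1.1, m1.2, m2.1, m2.2]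

/-- **`zY` : relation of the two own slots**, seen by a pair with `b 1` not small -/
theorem zY_r1 (R : Raw κ S {6, 7, 10} X K τ f A lc zc) (h15 : (15 : Fin 18) ∈ S)
    (h12 : (12 : Fin 18) ∉ S) (t15 : X 15 = X 2 * X 10) (t15' : X 15 = X 1 * X 14)
    {x x' y y' : β'} (hx : x ∈ A) (hx' : x' ∈ A) (hy : y ∈ A)
    (hy' : y' ∈ A) (hl : lc x = lc x') (hl' : lc y = lc y') (hz : zc x = zc y)
    (hz' : zc x' = zc y') {δ β : ℝ} (hδ : 0 ≤ δ) (hβ : 0 < β)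
    (b2 : |coW κ (f x) (f y) 2| ≤ δ * X 2) (b12 : |coW κ (f x) (f y) 12| ≤ δ * X 12)
    (b1 : β * X 1 ≤ |coW κ (f x) (f y) 1|) :
    |κ * coW κ (f x) (f x') 14 - coW κ (f x) (f x') 0 * coW κ (f x) (f x') 10| ≤
      ((CR K + K) * τ + 3 * K * δ) / β * X 14 := by
  have hK := R.hK
  have hK0 := R.K0
  have hC := (CR_ge hK).1
  have hτ := R.hτ
  have g := R.row_small hx hx' hy hy' hl hl' hz hz' (q := 11) h15 (by decide)
  rw [row_zY κ _ _ h15 h12] at g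
  change _ ≤ (CR K + K) * τ * X 15 at g
  set a := coW κ (f x) (f x') with ha
  set b := coW κ (f x) (f y) with hb
  have ab : ∀ s, |a s| ≤ K * X s := R.bnd x hx x' hx'
  have X15 := (R.pos 15).le
  have w15 : X 0 * X 12 ≤ X 15 := by
    have := R.hX.wall 15 [0, 12] (by decide)
    simpa only [List.map_cons, List.map_nil, List.prod_cons, List.prod_nil, mul_one] using this
  have m1 : |a 0 * b 12| ≤ (K * δ) * X 15 := bm (ab 0) b12 hK0 hδ (R.pos 0).le w15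
  have m2 : |b 2 * a 10| ≤ (δ * K) * X 15 := bm b2 (ab 10) hδ hK0 (R.pos 2).le t15.ge
  have hN : |2 * b 1 * (κ * a 14 - a 0 * a 10)| ≤ ((CR K + K) * τ + 3 * K * δ) * X 15 := by
    have e : 2 * b 1 * (κ * a 14 - a 0 * a 10) = (a 0 * b 12 - 2 * (b 2 + a 0 * b 1) * a 10 +
      2 * κ * b 1 * a 14) - a 0 * b 12 + 2 * (b 2 * a 10) := by ring
    have e2 : ((CR K + K) * τ + 3 * K * δ) * X 15 = (CR K + K) * τ * X 15 +
        (K * δ) * X 15 + 2 * ((δ * K) * X 15) := by ring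
    rw [e, e2]
    rw [abs_le] at g m1 m2 ⊢
    constructor <;> linarith [g.1, g.2, m1.1, m1.2, m2.1, m2.2]
  have hb1 : b 1 ≠ 0 := by
    intro h0
    rw [h0, abs_zero] at b1
    linarith [mul_pos hβ (R.pos 1)]
  have b1' : β * X 1 ≤ |2 * b 1| := by
    rw [abs_mul, abs_two]
    linarith [abs_nonneg (b 1)]
  have e : κ * a 14 - a 0 * a 10 = (2 * b 1 * (κ * a 14 - a 0 * a 10)) / (2 * b 1) := by
    field_simp
  rw [e]
  exact divb hβ (R.pos 1) (R.pos 14).le (by positivity) hN t15' b1'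

/-- the relation of `zY_r1` does not depend on the line -/
theorem zY_tr (R : Raw κ S {6, 7, 10} X K τ f A lc zc) (h10 : (10 : Fin 18) ∈ S)
    (h11 : (11 : Fin 18) ∈ S) (h14 : (14 : Fin 18) ∈ S) (h8 : (8 : Fin 18) ∉ S)
    (t14 : X 14 = X 0 * X 10)
    {x x' y y' : β'} (hx : x ∈ A) (hx' : x' ∈ A) (hy : y ∈ A)
    (hy' : y' ∈ A) (hl : lc x = lc x') (hl' : lc y = lc y') (hz : zc x = zc y)
    (hz' : zc x' = zc y') {E : ℝ}
    (h : |κ * coW κ (f x) (f x') 14 - coW κ (f x) (f x') 0 * coW κ (f x) (f x') 10| ≤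
      E * X 14) :
    |κ * coW κ (f y) (f y') 14 - coW κ (f y) (f y') 0 * coW κ (f y) (f y') 10| ≤
      (E + (CR K + 2 * K ^ 2 + K * CR K) * τ) * X 14 := by
  have hK := R.hK
  have hK0 := R.K0
  have hC := (CR_ge hK).1
  have hτ := R.hτ
  have g1 := R.lev_row hx hx' hy hy' hl hl' hz hz' (q := 6) h10
  have g3 := R.lev_row hx hx' hy hy' hl hl' hz hz' (q := 10) h14
  have g0 := R.hgt_row hx hx' hy hy' hl hl' hz hz'
  unfold row at g1 g3
  rw [sh_zY κ _ h10 h11 h14 h8 _ 6 (by decide), fk_zY6,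
    adm_zY.own κ _ _ rfl 6 (by decide)] at g1
  rw [sh_zY κ _ h10 h11 h14 h8 _ 10 (by decide), fk_zY10,
    adm_zY.own κ _ _ rfl 10 (by decide)] at g3
  change |coW κ (f y) (f y') 10 + (_ - coW κ (f x) (f x') 10)| ≤ CR K * τ * X 10 at g1
  change |coW κ (f y) (f y') 14 + (_ - coW κ (f x) (f x') 14)| ≤ CR K * τ * X 14 at g3
  have ab : ∀ s, |coW κ (f x) (f x') s| ≤ K * X s := R.bnd x hx x' hx'
  have eb : ∀ s, |coW κ (f y) (f y') s| ≤ K * X s := R.bnd y hy y' hy'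
  set a := coW κ (f x) (f x') with ha
  set b := coW κ (f x) (f y) with hb
  set e := coW κ (f y) (f y') with he
  have X14 := (R.pos 14).le
  have kb : ∀ {v D : ℝ}, |v| ≤ D → |κ * v| ≤ D := by
    intro v D h
    rw [abs_mul]
    calc |κ| * |v| ≤ 1 * |v| := mul_le_mul_of_nonneg_right R.hκ (abs_nonneg _)
      _ ≤ D := by linarith
  have m1 : |(e 0 - a 0) * e 10| ≤ (2 * K * τ * K) * X 14 :=
    bm g0 (eb 10) (by positivity) hK0 (R.pos 0).le t14.ge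
  have m2 : |a 0 * (e 10 + (b 8 * (κ * a 0) - a 10))| ≤ (K * (CR K * τ)) * X 14 :=
    bm (ab 0) g1 hK0 (by positivity) (R.pos 0).le t14.ge
  have m3 := kb g3
  have e1 : κ * e 14 - e 0 * e 10 = (κ * a 14 - a 0 * a 10) +
      κ * (e 14 + (b 8 * a 0 ^ 2 - a 14)) -
      (e 0 - a 0) * e 10 - a 0 * (e 10 + (b 8 * (κ * a 0) - a 10)) := by ring
  have e2 : (E + (CR K + 2 * K ^ 2 + K * CR K) * τ) * X 14 = E * X 14 + CR K * τ * X 14 +
      (2 * K * τ * K) * X 14 + (K * (CR K * τ)) * X 14 := by ring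
  rw [e1, e2]
  rw [abs_le] at h m3 m1 m2 ⊢
  constructor <;> linarith [h.1, h.2, m3.1, m3.2, m1.1, m1.2, m2.1, m2.2]

/-- **`YY` : the own motion is `ψ * fk`** -/
theorem YY_fin (R : Raw κ S {1, 3} X K τ f A lc zc) {x x' : β'} (hx : x ∈ A) (hx' : x' ∈ A)
    {ψ E1 E2 : ℝ} (hE1 : 0 ≤ E1) (hE2 : 0 ≤ E2)
    (h5 : |coW κ (f x) (f x') 5 - ψ * (2 * coW κ (f x) (f x') 0)| ≤ E1 * X 5)
    (h7 : |coW κ (f x) (f x') 7 - coW κ (f x) (f x') 0 * coW κ (f x) (f x') 5 / 2| ≤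
      E2 * X 7) : ∀ q ∈ ({1, 3} : Finset (Fin 14)),
      |coW κ (f x) (f x') (Fin.natAdd 4 q) - ψ * fk κ (coW κ (f x) (f x') 0) 0 q| ≤
      (E1 + K * E1 + E2) * X (Fin.natAdd 4 q) := by
  have hK0 := R.K0
  have a0 := R.bnd x hx x' hx' 0
  have w7 : X 0 * X 5 ≤ X 7 := by
    have := R.hX.wall 7 [0, 5] (by decide)
    simpa only [List.map_cons, List.map_nil, List.prod_cons, List.prod_nil, mul_one] using this
  have X5 := (R.pos 5).le
  have X7 := (R.pos 7).le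
  intro q hq
  simp only [mem_insert, mem_singleton] at hq
  rcases hq with rfl | rfl
  · rw [fk_YY1]
    change |coW κ (f x) (f x') 5 - _| ≤ _ * X 5
    refine h5.trans (mul_le_mul_of_nonneg_right ?_ X5)
    have : 0 ≤ K * E1 := by positivity
    linarith
  · rw [fk_YY3]
    change |coW κ (f x) (f x') 7 - _| ≤ _ * X 7
    set a := coW κ (f x) (f x') with ha
    have m1 : |a 0 * (a 5 - ψ * (2 * a 0))| ≤ (K * E1) * X 7 :=
      bm a0 h5 hK0 hE1 (R.pos 0).le w7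
    have e : a 7 - ψ * a 0 ^ 2 = (a 7 - a 0 * a 5 / 2) + a 0 * (a 5 - ψ * (2 * a 0)) / 2 := by
      ring
    have e2 : (E1 + K * E1 + E2) * X 7 = E1 * X 7 + (K * E1) * X 7 + E2 * X 7 := by ring
    have n1 : 0 ≤ E1 * X 7 := by positivity
    have n2 : 0 ≤ (K * E1) * X 7 := by positivity
    rw [e, e2]
    rw [abs_le] at h7 m1 ⊢
    constructor <;> linarith [h7.1, h7.2, m1.1, m1.2]

/-- **`zY` : the own motion is `ψ * fk`** -/
theorem zY_fin (R : Raw κ S {6, 7, 10} X K τ f A lc zc) (t14 : X 14 = X 0 * X 10)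
    (t14' : X 14 = X 0 * X 11) {x₀ x x' : β'} (hx₀ : x₀ ∈ A) (hx : x ∈ A) (hx' : x' ∈ A)
    (hl₀ : lc x₀ = lc x) (hl : lc x = lc x')
    {ψ E1 E2 β : ℝ} (hE1 : 0 ≤ E1) (hE2 : 0 ≤ E2) (hβ : 0 < β) (hβ1 : β ≤ |κ|)
    (hβv : β * X 0 ≤ |κ| * |coW κ (f x) (f x') 0|)
    (h1 : |coW κ (f x₀) (f x) 10 - ψ * (κ * coW κ (f x₀) (f x) 0)| ≤ E1 * X 10)
    (h2 : |coW κ (f x₀) (f x') 10 - ψ * (κ * coW κ (f x₀) (f x') 0)| ≤ E1 * X 10)
    (r1 : |κ * coW κ (f x₀) (f x) 14 - coW κ (f x₀) (f x) 0 * coW κ (f x₀) (f x) 10| ≤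
      E2 * X 14)
    (r2 : |κ * coW κ (f x₀) (f x') 14 - coW κ (f x₀) (f x') 0 * coW κ (f x₀) (f x') 10| ≤
      E2 * X 14)
    (r3 : |κ * coW κ (f x) (f x') 14 - coW κ (f x) (f x') 0 * coW κ (f x) (f x') 10| ≤
      E2 * X 14) : ∀ q ∈ ({6, 7, 10} : Finset (Fin 14)),
      |coW κ (f x₀) (f x) (Fin.natAdd 4 q) - ψ * fk κ (coW κ (f x₀) (f x) 0) 4 q| ≤
      (E1 + (3 * E2 + 3 * K * E1 + 470 * K ^ 7 * (1 + K) * τ) / β) *
        X (Fin.natAdd 4 q) := by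
  have hK := R.hK
  have hK0 := R.K0
  have hτ := R.hτ
  have c6 := R.own_comp hx₀ hx hx' hl₀ hl 6
  have c10 := R.own_comp hx₀ hx hx' hl₀ hl 10
  rw [tr_sh6] at c6
  rw [tr_sh10] at c10
  simp only [only, flg_at (q := 6) (s := 10) rfl, flg_at (q := 7) (s := 11) rfl,
    flg_at (q := 10) (s := 14) rfl] at c6 c10
  rw [if_pos (by decide), if_neg (by decide)] at c6
  rw [if_pos (by decide), if_pos (by decide), if_neg (by decide)] at c10
  change |coW κ (f x₀) (f x') 10 - coW κ (f x) (f x') 10 - _| ≤ 470 * K ^ 7 * τ * X 10 at c6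
  change |coW κ (f x₀) (f x') 14 - coW κ (f x) (f x') 14 - _| ≤ 470 * K ^ 7 * τ * X 14 at c10
  have hu : coW κ (f x₀) (f x') 0 = coW κ (f x₀) (f x) 0 + coW κ (f x) (f x') 0 := by
    simp only [coW_zero]; ring
  rw [hu] at h2 r2
  have ab := R.bnd x₀ hx₀ x hx
  have cb := R.bnd x hx x' hx'
  set a := coW κ (f x₀) (f x) with ha
  set a' := coW κ (f x₀) (f x') with ha'
  set c := coW κ (f x) (f x') with hc
  have X10 := (R.pos 10).le
  have X14 := (R.pos 14).le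
  have X11 := (R.pos 11).le
  have kb : ∀ {v D : ℝ}, |v| ≤ D → |κ * v| ≤ D := by
    intro v D h
    rw [abs_mul]
    calc |κ| * |v| ≤ 1 * |v| := mul_le_mul_of_nonneg_right R.hκ (abs_nonneg _)
      _ ≤ D := by linarith
  have w : X 0 * X 10 ≤ X 14 := t14.ge
  -- products
  have m1 : |a 0 * (a 10 - ψ * (κ * a 0))| ≤ (K * E1) * X 14 :=
    bm (ab 0) h1 hK0 hE1 (R.pos 0).le w
  have m2 : |a 0 * (a' 10 - ψ * (κ * (a 0 + c 0)))| ≤ (K * E1) * X 14 :=
    bm (ab 0) h2 hK0 hE1 (R.pos 0).le w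
  have m3 : |c 0 * (a 10 - ψ * (κ * a 0))| ≤ (K * E1) * X 14 :=
    bm (cb 0) h1 hK0 hE1 (R.pos 0).le w
  have m4 : |c 0 * (a' 10 - c 10 - (a 10 + κ * c 0 * 0))| ≤ (K * (470 * K ^ 7 * τ)) * X 14 :=
    bm (cb 0) c6 hK0 (by positivity) (R.pos 0).le w
  have m5 := kb c10
  have hE3 : 0 ≤ 3 * E2 + 3 * K * E1 + 470 * K ^ 7 * (1 + K) * τ := by positivity
  have key : |κ * c 0 * (a 11 - ψ * (2 * a 0))| ≤
      (3 * E2 + 3 * K * E1 + 470 * K ^ 7 * (1 + K) * τ) * X 14 := by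
    have e : κ * c 0 * (a 11 - ψ * (2 * a 0)) =
        -(κ * (a' 14 - c 14 - (a 14 + c 0 * a 11 + c 0 ^ 2 * 0))) +
        (κ * a' 14 - (a 0 + c 0) * a' 10) - (κ * c 14 - c 0 * c 10) - (κ * a 14 - a 0 * a 10) +
        c 0 * (a' 10 - c 10 - (a 10 + κ * c 0 * 0)) +
        a 0 * (a' 10 - ψ * (κ * (a 0 + c 0))) - a 0 * (a 10 - ψ * (κ * a 0)) +
        c 0 * (a 10 - ψ * (κ * a 0)) := by ring
    have e2 : (3 * E2 + 3 * K * E1 + 470 * K ^ 7 * (1 + K) * τ) * X 14 =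
        E2 * X 14 + E2 * X 14 + E2 * X 14 + (K * E1) * X 14 + (K * E1) * X 14 +
        (K * E1) * X 14 + 470 * K ^ 7 * τ * X 14 + (K * (470 * K ^ 7 * τ)) * X 14 := by ring
    rw [e, e2]
    rw [abs_le] at r1 r2 r3 m1 m2 m3 m4 m5 ⊢
    constructor <;> linarith [r1.1, r1.2, r2.1, r2.2, r3.1, r3.2, m1.1, m1.2, m2.1, m2.2,
      m3.1, m3.2, m4.1, m4.2, m5.1, m5.2]
  have hκc : κ * c 0 ≠ 0 := by
    intro h0
    rw [← abs_mul, h0, abs_zero] at hβv
    linarith [mul_pos hβ (R.pos 0)]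
  have hκ0 : κ ≠ 0 := left_ne_zero_of_mul hκc
  have hc0 : c 0 ≠ 0 := right_ne_zero_of_mul hκc
  have f7 : |a 11 - ψ * (2 * a 0)| ≤
      (3 * E2 + 3 * K * E1 + 470 * K ^ 7 * (1 + K) * τ) / β * X 11 := by
    have e : a 11 - ψ * (2 * a 0) = (κ * c 0 * (a 11 - ψ * (2 * a 0))) / (κ * c 0) := by
      field_simp
    rw [e]
    exact divb hβ (R.pos 0) X11 hE3 key t14' (by rw [abs_mul]; exact hβv)
  have f10 : |a 14 - ψ * a 0 ^ 2| ≤
      (3 * E2 + 3 * K * E1 + 470 * K ^ 7 * (1 + K) * τ) / β * X 14 := by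
    have e : a 14 - ψ * a 0 ^ 2 = (κ * (a 14 - ψ * a 0 ^ 2)) / κ := by
      field_simp
    rw [e]
    refine divb (Q := 1) hβ one_pos X14 hE3 ?_ (one_mul _).symm (by rw [mul_one]; exact hβ1)
    have e1 : κ * (a 14 - ψ * a 0 ^ 2) = (κ * a 14 - a 0 * a 10) +
        a 0 * (a 10 - ψ * (κ * a 0)) := by ring
    have e2 : (3 * E2 + 3 * K * E1 + 470 * K ^ 7 * (1 + K) * τ) * X 14 =
        E2 * X 14 + 2 * (E2 * X 14) + (K * E1) * X 14 + 2 * ((K * E1) * X 14) +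
        470 * K ^ 7 * (1 + K) * τ * X 14 := by ring
    have n1 : 0 ≤ E2 * X 14 := by positivity
    have n2 : 0 ≤ (K * E1) * X 14 := by positivity
    have n3 : 0 ≤ 470 * K ^ 7 * (1 + K) * τ * X 14 := by positivity
    rw [e1, e2]
    rw [abs_le] at r1 m1 ⊢
    constructor <;> linarith [r1.1, r1.2, m1.1, m1.2]
  have hE4 : 0 ≤ (3 * E2 + 3 * K * E1 + 470 * K ^ 7 * (1 + K) * τ) / β := by positivity
  intro q hq
  simp only [mem_insert, mem_singleton] at hq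
  rcases hq with rfl | rfl | rfl
  · rw [fk_zY6]
    change |a 10 - _| ≤ _ * X 10
    exact h1.trans (mul_le_mul_of_nonneg_right (by linarith) X10)
  · rw [fk_zY7]
    change |a 11 - _| ≤ _ * X 11
    exact f7.trans (mul_le_mul_of_nonneg_right (by linarith) X11)
  · rw [fk_zY10]
    change |a 14 - _| ≤ _ * X 14
    exact f10.trans (mul_le_mul_of_nonneg_right (by linarith) X14)

end fin2

end Crest.Agent.R136.Res2648
end

-- ▼ part R136/Res4_648
section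

/-!
# R136: wall resonances of 5b (helper648), part 4: from the window to `Raw`

* `mass_of_heights` : a part of the heights carries its share of the incidences;
* `WinD` : hypotheses on the window, common part;  `ResQ` : the output;
* `WinD.raw` : `Raw` for all incidences of the pairs of the configuration;
* `resq_of` : from the motion of one line to `ResQ`.
-/

set_option autoImplicit false
set_option linter.unusedVariables false
set_option linter.unusedSectionVars false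

open Filter Topology

namespace Crest.Agent.R136.Res2648

open Finset Crest.Agent.R136.NetW191 Crest.Agent.R136.Net191 Crest.Agent.R136.Qg926
open Crest.Agent.R136.EvW938 Crest.Agent.R136.Gf356 Crest.Agent.R136.Res1648
open Crest.Agent.R138.Ex926 (Base U)

/-! ### masses -/

section mass

variable {m : ℕ} {ι : ℕ → Type*} [∀ n, DecidableEq (ι n)] {W : Wnd m ι}
  {E E' : ∀ n, Finset (ι n)} {Mu g : ℕ → ℝ} {ex : ℕ → ∀ n, ι n → ℕ}

open Classical in
/-- **a part of the heights carries its share of the incidences** -/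
theorem mass_of_heights (h : W.Ok) (hE : Wnd.EOk W E Mu) (hP : Wnd.Pruned W E E' g ex)
    (hdens : W.lam W.top ≤ W.lam (cut W.S W.top 0) + W.lam (cut W.S 0 W.top)) {ε : ℝ}
    (hε : 0 < ε) : ∀ᶠ n in (U : Filter ℕ), ∀ (t : ℝ) (H : Finset ℕ), H ⊆ (W.cfg E' n).Z →
      W.B'.d n ^ t * ((W.cfg E' n).Z.card : ℝ) ≤ (H.card : ℝ) →
      Mu n * W.B'.d n ^ (W.lam W.top + t + ε) ≤
        (((E' n).filter fun i => W.zc n i ∈ H).card : ℝ) := by
  have hε4 : 0 < ε / 4 := by positivity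
  filter_upwards [Wnd.ev_cfg h hE hP, Wnd.ev_hts h hE hP hdens hε4, h.card_zc_le hε4,
    hE.big (ε / 4) hε4, hP.gsub (ε / 4) hε4] with n g8 g2 g3 g4 g5 t H hH hcard
  obtain ⟨hgood, hEC, hne, hcfg⟩ := g8
  set ρ := W.B'.d n with hρ
  have hd : ∀ u : ℝ, 0 < ρ ^ u := fun u => rpos W.B' n u
  have hdn : ∀ {u v : ℝ}, u ≤ v → ρ ^ v ≤ ρ ^ u := fun {u v} h' => rpow_anti W.B' n h'
  have radd : ∀ u v : ℝ, ρ ^ (u + v) = ρ ^ u * ρ ^ v := fun u v => rpow_add' W.B' n u v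
  rw [hcfg] at hH hcard
  set Z := (W.cfg0 n (E' n)).Z with hZ
  have hZim : Z = (E' n).image (W.zc n) := rfl
  have hEC' : E' n ⊆ W.Cl n := (hP.sub n).trans hEC
  set G' := (E' n).filter fun i => W.zc n i ∈ H with hG'
  have c1 : (G'.card : ℝ) = ∑ k ∈ H, (((E' n).filter fun i => W.zc n i = k).card : ℝ) := by
    have h1 : G'.card = ∑ k ∈ H, (G'.filter fun i => W.zc n i = k).card :=
      card_eq_sum_card_fiberwise fun i hi => (mem_filter.1 hi).2
    rw [h1]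
    push_cast
    refine sum_congr rfl fun k hk => ?_
    congr 2
    ext i
    simp only [hG', mem_filter]
    constructor
    · rintro ⟨⟨a1, a2⟩, a3⟩; exact ⟨a1, a3⟩
    · rintro ⟨a1, a3⟩; exact ⟨⟨a1, a3 ▸ hk⟩, a3⟩
  set N0 : ℝ := (((E n).image (W.zc n)).card : ℝ) with hN0
  have hE0 : (0 : ℝ) < (E n).card := lt_of_lt_of_le (mul_pos (hE.pos n) (hd _)) g4
  have hN00 : 0 < N0 := by
    have h1 : (E n).Nonempty := card_pos.1 (by exact_mod_cast hE0)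
    have h2 := (h1.image (W.zc n)).card_pos
    rw [hN0]
    exact_mod_cast h2
  have hg1 := hP.g1 n
  have c2 : ∀ k ∈ H, ((E n).card : ℝ) / (ρ ^ (-(ε / 4)) * N0) ≤
      (((E' n).filter fun i => W.zc n i = k).card : ℝ) := by
    intro k hk
    have hkZ := hH hk
    rw [hZim] at hkZ
    obtain ⟨i, hi, rfl⟩ := mem_image.1 hkZ
    have h1 := hP.slices n i hi
    rw [div_le_iff₀ (mul_pos (hd _) hN00)]
    have e1 : R138.Ex926.cls (E' n) (W.zc n) i = (E' n).filter fun j => W.zc n j = W.zc n i := by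
      ext j
      rw [R138.Ex926.mem_cls, mem_filter]
    rw [e1] at h1
    refine h1.trans ?_
    have h2 : (0 : ℝ) ≤ (((E' n).filter fun j => W.zc n j = W.zc n i).card : ℝ) :=
      Nat.cast_nonneg _
    calc g n * N0 * (((E' n).filter fun j => W.zc n j = W.zc n i).card : ℝ)
        ≤ ρ ^ (-(ε / 4)) * N0 * (((E' n).filter fun j => W.zc n j = W.zc n i).card : ℝ) := by
          refine mul_le_mul_of_nonneg_right ?_ h2
          exact mul_le_mul_of_nonneg_right g5 hN00.le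
      _ = _ := by ring
  have c3 : (H.card : ℝ) * (((E n).card : ℝ) / (ρ ^ (-(ε / 4)) * N0)) ≤ (G'.card : ℝ) := by
    rw [c1, ← nsmul_eq_mul, ← sum_const]
    exact sum_le_sum c2
  -- number of heights
  obtain ⟨i0, hi0⟩ := hne
  have c4 : ρ ^ (W.lam (cut W.S 0 W.top) + ε / 4) ≤ (Z.card : ℝ) := by
    refine (g2 (W.lc n i0) (mem_image_of_mem _ hi0)).trans ?_
    exact Nat.cast_le.2 (card_le_card fun k hk => (RCfg.mem_hts.1 hk).1)
  have c5 : N0 ≤ ρ ^ (W.lam (cut W.S 0 W.top) - ε / 4) := g3 (E n) hEC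
  have c6 : ρ ^ t * ρ ^ (W.lam (cut W.S 0 W.top) + ε / 4) ≤ (H.card : ℝ) :=
    (mul_le_mul_of_nonneg_left c4 (hd _).le).trans hcard
  have hT0 := hE.pos n
  refine le_trans ?_ c3
  rw [← mul_div_assoc, le_div_iff₀ (mul_pos (hd _) hN00)]
  calc Mu n * ρ ^ (W.lam W.top + t + ε) * (ρ ^ (-(ε / 4)) * N0)
      ≤ Mu n * ρ ^ (W.lam W.top + t + ε) *
          (ρ ^ (-(ε / 4)) * ρ ^ (W.lam (cut W.S 0 W.top) - ε / 4)) := by
        refine mul_le_mul_of_nonneg_left ?_ (mul_pos hT0 (hd _)).le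
        exact mul_le_mul_of_nonneg_left c5 (hd _).le
    _ = Mu n * ρ ^ ((W.lam W.top + t + ε) +
          (-(ε / 4) + (W.lam (cut W.S 0 W.top) - ε / 4))) := by
        rw [radd (W.lam W.top + t + ε) (-(ε / 4) + (W.lam (cut W.S 0 W.top) - ε / 4)),
          radd (-(ε / 4)) (W.lam (cut W.S 0 W.top) - ε / 4)]
        ring
    _ ≤ Mu n * ρ ^ ((t + (W.lam (cut W.S 0 W.top) + ε / 4)) + (W.lam W.top + ε / 4)) := by
        refine mul_le_mul_of_nonneg_left (hdn ?_) hT0.le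
        linarith
    _ = ρ ^ t * ρ ^ (W.lam (cut W.S 0 W.top) + ε / 4) * (Mu n * ρ ^ (W.lam W.top + ε / 4)) := by
        rw [radd (t + (W.lam (cut W.S 0 W.top) + ε / 4)) (W.lam W.top + ε / 4),
          radd t (W.lam (cut W.S 0 W.top) + ε / 4)]
        ring
    _ ≤ (H.card : ℝ) * ((E n).card : ℝ) :=
        mul_le_mul c6 g4 (mul_pos hT0 (hd _)).le (Nat.cast_nonneg _)

end mass

/-! ### incidences of one pair (line, height) -/

/-- own motion between other representatives of the same pairs -/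
theorem own_rep {κ : ℝ} (hκ : |κ| ≤ 1) {X : Fin 18 → ℝ} (hX : SidesW X) {K τ : ℝ} (hK : 1 ≤ K)
    (hτ : 0 ≤ τ) (hτ1 : τ ≤ 1) {r r' x x' : FW}
    (h1 : ∀ s, |coW κ r x s| ≤ K * τ * X s) (h2 : ∀ s, |coW κ r' x' s| ≤ K * τ * X s)
    (h3 : ∀ s, |coW κ r r' s| ≤ K * X s) (h4 : ∀ s, |coW κ x x' s| ≤ K * X s) (q : Fin 14) :
    |coW κ x x' (Fin.natAdd 4 q) - coW κ r r' (Fin.natAdd 4 q)| ≤
      (K + 940 * K ^ 7) * τ * X (Fin.natAdd 4 q) := by
  have hK0 : 0 ≤ K := by linarith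
  have Kτ : K * τ ≤ K := mul_le_of_le_one_right hK0 hτ1
  have e1 := congrFun (cocycle κ r r' x') q
  have e2 := congrFun (cocycle κ r x x') q
  rw [Pi.add_apply] at e1 e2
  rw [← coW_right, ← coW_right, ← frm_coW, ← flg_coW] at e1 e2
  have k1 := tr_lip (q := q) (h := frm (coW κ r' x')) (h' := 0) (w := flg (coW κ r r'))
    (w' := flg (coW κ r r')) hκ hX hK hτ
    (fun i => (h2 _).trans (mul_le_mul_of_nonneg_right Kτ (hX.pos _)))
    (fun i => by rw [Pi.zero_apply, abs_zero]; exact mul_nonneg hK0 (hX.pos _))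
    (fun i => by rw [Pi.zero_apply, sub_zero]; exact h2 _) (fun q => h3 _)
    (fun q => by rw [sub_self, abs_zero]; exact mul_nonneg (mul_nonneg hK0 hτ) (hX.pos _))
  have k2 := tr_lip (q := q) (h := frm (coW κ x x')) (h' := frm (coW κ x x'))
    (w := flg (coW κ r x)) (w' := 0) hκ hX hK hτ (fun i => h4 _) (fun i => h4 _)
    (fun i => by rw [sub_self, abs_zero]; exact mul_nonneg (mul_nonneg hK0 hτ) (hX.pos _))
    (fun q => (h1 _).trans (mul_le_mul_of_nonneg_right Kτ (hX.pos _)))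
    (fun q => by rw [Pi.zero_apply, sub_zero]; exact h1 _)
  rw [NetW191.tr_id] at k1
  rw [tr_zero, Pi.zero_apply, sub_zero] at k2
  have k3 := h2 (Fin.natAdd 4 q)
  change |_ - coW κ r r' (Fin.natAdd 4 q)| ≤ _ at k1
  have e : coW κ x x' (Fin.natAdd 4 q) - coW κ r r' (Fin.natAdd 4 q) =
      coW κ r' x' (Fin.natAdd 4 q) +
      (tr κ (frm (coW κ r' x')) (flg (coW κ r r')) q - coW κ r r' (Fin.natAdd 4 q)) -
      tr κ (frm (coW κ x x')) (flg (coW κ r x)) q := by linarith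
  have e3 : (K + 940 * K ^ 7) * τ * X (Fin.natAdd 4 q) = K * τ * X (Fin.natAdd 4 q) +
      470 * K ^ 7 * τ * X (Fin.natAdd 4 q) + 470 * K ^ 7 * τ * X (Fin.natAdd 4 q) := by ring
  rw [e, e3]
  rw [abs_le] at k1 k2 k3 ⊢
  constructor <;> linarith [k1.1, k1.2, k2.1, k2.2, k3.1, k3.2]

/-! ### the window -/

section window

variable {ι : ℕ → Type*} [∀ n, DecidableEq (ι n)]

/-- **the output at one `n`** -/
def ResQ (W : Wnd 18 ι) (κ : ℕ → ℝ) (lam : ℕ → Fin 18 → ℝ) (f : ∀ n, ι n → FW) (j : Fin 14)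
    (V : Finset (Fin 14)) (x : ℝ) (n : ℕ) (ε : ℝ) (G : Finset (ι n)) : Prop :=
  ∃ x0 ∈ W.Cl n, ∃ ψ : ℝ, |ψ| ≤ W.B'.d n ^ (-ε) * sd W lam n (Fin.natAdd 4 j) ∧
    ∀ i ∈ G, ∀ i' ∈ G, W.lc n i = W.lc n i' → ∀ q ∈ V,
      |coW (κ n) (f n i) (f n i') (Fin.natAdd 4 q) -
        (ψ - coW (κ n) (f n x0) (f n i) (Fin.natAdd 4 j)) *
          (tr (κ n) (sh (coW (κ n) (f n i) (f n i') 0)) (Pi.single j 1) q -
            (Pi.single j 1 : Fin 14 → ℝ) q)| ≤
        W.B'.d n ^ (x - ε) * sd W lam n (Fin.natAdd 4 q)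

/-- **hypotheses on the window**, common part; `V` = own slots of the resonance -/
structure WinD (W : Wnd 18 ι) (κ : ℕ → ℝ) (lam : ℕ → Fin 18 → ℝ) (f : ∀ n, ι n → FW)
    (V : Finset (Fin 14)) (E : ∀ n, Finset (ι n)) (x σ : ℝ) : Prop where
  x_pos : 0 < x
  σ0 : 0 < σ
  σ1 : σ ≤ 1
  hV : ∀ q ∈ V, Fin.natAdd 4 q ∈ W.S
  top : ∀ s, x ≤ W.top s
  dens : W.lam W.top ≤ W.lam (cut W.S W.top 0) + W.lam (cut W.S 0 W.top)
  frost : ∀ y : ℝ, 0 ≤ y → y ≤ x → W.lam (Pi.single 0 y) ≤ -(σ * y)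
  kap : ∀ ε : ℝ, 0 < ε → ∀ᶠ n in (U : Filter ℕ), W.B'.d n ^ ε ≤ |κ n|
  inv : ∀ ε : ℝ, 0 < ε → ∀ᶠ n in (U : Filter ℕ), ∀ i k k', (i, k) ∈ (W.cfg E n).I →
    (i, k') ∈ (W.cfg E n).I → ∀ s ∈ W.S, s ≠ 0 → (∀ q ∈ V, s ≠ Fin.natAdd 4 q) →
    |ownC W n i k k' s| ≤ W.B'.d n ^ (x - ε)

/-- all incidences of the pairs of the configuration -/
def Aset (W : Wnd 18 ι) (E : ∀ n, Finset (ι n)) (n : ℕ) : Set (ι n) :=
  {i | i ∈ W.Cl n ∧ (W.lc n i, W.zc n i) ∈ (W.cfg E n).I}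

/-- the constant of `WinD.raw` -/
noncomputable def KR (W : Wnd 18 ι) : ℝ := W.K0 + (W.K0 + 940 * W.K0 ^ 7) + W.K2

variable {W : Wnd 18 ι} {κ : ℕ → ℝ} {lam : ℕ → Fin 18 → ℝ} {f : ∀ n, ι n → FW}
  {V : Finset (Fin 14)} {x σ : ℝ} {E E' : ∀ n, Finset (ι n)} {Mu g : ℕ → ℝ}
  {ex : ℕ → ∀ n, ι n → ℕ}

theorem KR_one (h : W.Ok) : 1 ≤ KR W := by
  have h1 := h.K0_one
  have h2 := Wnd.K2_one h
  have h3 : 0 ≤ W.K0 ^ 7 := by positivity
  unfold KR
  linarith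

/-- **`Raw` in the window** -/
theorem WinD.raw (D : WinD W κ lam f V E x σ) (h : WWnd W κ lam f) (hE : Wnd.EOk W E Mu)
    (hP : Wnd.Pruned W E E' g ex) {ε : ℝ} (hε : 0 < ε) (hεx : ε ≤ x) :
    ∀ᶠ n in (U : Filter ℕ), W.Good n ∧ E' n ⊆ W.Cl n ∧ W.cfg E' n = W.cfg0 n (E' n) ∧
      Raw (κ n) W.S V (sd W lam n) (KR W) (W.B'.d n ^ (x - ε)) (f n) (Aset W E' n)
        (W.lc n) (W.zc n) := by
  filter_upwards [Wnd.ev_cfg h.ok hE hP, D.inv ε hε] with n g1 g2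
  obtain ⟨hg, hEC, hne, hcfg⟩ := g1
  have hE'C : E' n ⊆ W.Cl n := (hP.sub n).trans hEC
  have hneE : (E n).Nonempty := hne.mono (hP.sub n)
  have hcfgE : W.cfg E n = W.cfg0 n (E n) := Wnd.cfg_eq hEC hg.clI hneE
  refine ⟨hg, hE'C, hcfg, ?_⟩
  have hK := KR_one h.ok
  have hK0 := h.ok.K0_one
  have hK2 := Wnd.K2_one h.ok
  have hK7 : 0 ≤ W.K0 ^ 7 := by positivity
  have hKK : W.K0 ≤ KR W := by unfold KR; linarith
  set ρ := W.B'.d n with hρ
  have hd : ∀ u : ℝ, 0 < ρ ^ u := fun u => rpos W.B' n u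
  have hdn : ∀ {u v : ℝ}, u ≤ v → ρ ^ v ≤ ρ ^ u := fun {u v} h' => rpow_anti W.B' n h'
  have hτ1 : ρ ^ (x - ε) ≤ 1 := Real.rpow_le_one (W.B'.pos n).le (W.B'.lt n).le (by linarith)
  have sp := h.sd_pos n
  have hKτ : ∀ {s : Fin 18} {y : ℝ}, |y| ≤ W.K0 * ρ ^ (x - ε) * sd W lam n s →
      |y| ≤ KR W * ρ ^ (x - ε) * sd W lam n s := fun {s y} hy =>
    hy.trans (mul_le_mul_of_nonneg_right (mul_le_mul_of_nonneg_right hKK (hd _).le) (sp s).le)
  have htop : ∀ s, x - ε ≤ W.top s := fun s => by linarith [D.top s]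
  -- representatives
  have hA : ∀ i ∈ Aset W E' n, ∃ r, r ∈ W.Cl n ∧ W.lc n r = W.lc n i ∧ W.zc n r = W.zc n i ∧
      r = W.rep n (W.lc n i) (W.zc n i) := fun i hi =>
    ⟨_, (W.rep_spec hi.1).1, (W.rep_spec hi.1).2.1, (W.rep_spec hi.1).2.2, rfl⟩
  have hI : ∀ i ∈ Aset W E' n, (W.lc n i, W.zc n i) ∈ (W.cfg E n).I := by
    intro i hi
    have h1 := hi.2
    rw [hcfg] at h1
    rw [hcfgE]
    obtain ⟨y, hy, e1, e2⟩ := Wnd.mem_I.1 h1
    exact Wnd.mem_I.2 ⟨y, hP.sub n hy, e1, e2⟩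
  have hbx : ∀ r ∈ W.Cl n, ∀ i ∈ W.Cl n, W.lc n r = W.lc n i → W.zc n r = W.zc n i →
      ∀ s, |coW (κ n) (f n r) (f n i) s| ≤ W.K0 * ρ ^ (x - ε) * sd W lam n s := by
    intro r hr i hi e1 e2 s
    by_cases hs : s ∈ W.S
    · exact h.lev_small hg hr hi e2 hs (htop s)
    · exact h.own_small hg hr hi e1 hs (htop s)
  refine
    { hκ := h.hκ n, hX := h.sides hg, pos := sp, hK := hK, hτ := (hd _).le, hτ1 := hτ1
      h0 := h.h0, h1 := h.n1, h2 := h.n2, h3 := h.n3, hV := D.hV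
      bnd := fun i hi i' hi' s => (h.bnd hg hi.1 hi'.1 s).trans
        (mul_le_mul_of_nonneg_right hKK (sp s).le)
      own := ?_
      lev := fun i hi i' hi' hz s hs => hKτ (h.lev_small hg hi.1 hi'.1 hz hs (htop s)) }
  intro i hi i' hi' hl s hs0 hsV
  by_cases hs : s ∈ W.S
  · obtain ⟨r, r1, r2, r3, r4⟩ := hA i hi
    obtain ⟨r', r1', r2', r3', r4'⟩ := hA i' hi'
    obtain ⟨q, rfl⟩ : ∃ q : Fin 14, s = Fin.natAdd 4 q := by
      induction s using Fin.addCases (m := 4) (n := 14) with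
      | left p =>
        exfalso
        fin_cases p
        · exact hs0 rfl
        · exact h.n1 hs
        · exact h.n2 hs
        · exact h.n3 hs
      | right q => exact ⟨q, rfl⟩
    have k1 := own_rep (h.hκ n) (h.sides hg) hK0 (hd (x - ε)).le hτ1 (hbx r r1 i hi.1 r2 r3)
      (hbx r' r1' i' hi'.1 r2' r3') (h.bnd hg r1 r1') (h.bnd hg hi.1 hi'.1) q
    have k2 := g2 (W.lc n i) (W.zc n i) (W.zc n i') (hI i hi)
      (by rw [hl]; exact hI i' hi') _ hs hs0 hsV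
    have k3 : |coW (κ n) (f n r) (f n r') (Fin.natAdd 4 q)| ≤
        W.K2 * ρ ^ (x - ε) * sd W lam n (Fin.natAdd 4 q) := by
      have e1 : coW (κ n) (f n r) (f n r') (Fin.natAdd 4 q) = un W lam n (Fin.natAdd 4 q) *
          ownC W n (W.lc n i) (W.zc n i) (W.zc n i') (Fin.natAdd 4 q) := by
        rw [h.crd_eq hg r1 r1', r4, r4', ← hl]
        rfl
      rw [e1]
      refine (h.raw_le k2).trans ?_
      refine mul_le_mul_of_nonneg_right ?_ (sp _).le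
      exact mul_le_mul_of_nonneg_right (Wnd.kap_le_K2 h.ok _) (hd _).le
    have k4 := abs_add_le (coW (κ n) (f n i) (f n i') (Fin.natAdd 4 q) -
      coW (κ n) (f n r) (f n r') (Fin.natAdd 4 q)) (coW (κ n) (f n r) (f n r') (Fin.natAdd 4 q))
    rw [sub_add_cancel] at k4
    have e2 : KR W * ρ ^ (x - ε) * sd W lam n (Fin.natAdd 4 q) =
        W.K0 * ρ ^ (x - ε) * sd W lam n (Fin.natAdd 4 q) +
        (W.K0 + 940 * W.K0 ^ 7) * ρ ^ (x - ε) * sd W lam n (Fin.natAdd 4 q) +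
        W.K2 * ρ ^ (x - ε) * sd W lam n (Fin.natAdd 4 q) := by unfold KR; ring
    have k5 : 0 ≤ W.K0 * ρ ^ (x - ε) * sd W lam n (Fin.natAdd 4 q) := by
      have := sp (Fin.natAdd 4 q)
      have := hd (x - ε)
      positivity
    rw [e2]
    linarith
  · exact hKτ (h.own_small hg hi.1 hi'.1 hl hs (htop s))

/-- the representative of a pair of the configuration -/
theorem rep_Aset {n : ℕ} (hE : E n ⊆ W.Cl n) (hcfg : W.cfg E n = W.cfg0 n (E n)) {i k : ℕ}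
    (hi : (i, k) ∈ (W.cfg E n).I) : W.rep n i k ∈ Aset W E n ∧ W.lc n (W.rep n i k) = i ∧
      W.zc n (W.rep n i k) = k := by
  have h0 := hi
  rw [hcfg] at hi
  obtain ⟨a, b, c⟩ := Wnd.rep_of_mem hE hi
  exact ⟨⟨a, by rw [b, c]; exact h0⟩, b, c⟩

/-- raw coordinates of two lines at one height -/
theorem co_rel {n : ℕ} (h : WWnd W κ lam f) (hg : W.Good n) (hE : E n ⊆ W.Cl n)
    (hcfg : W.cfg E n = W.cfg0 n (E n)) {i l k : ℕ}
    (hi : (i, k) ∈ (W.cfg E n).I) (hl : (l, k) ∈ (W.cfg E n).I) {s : Fin 18} (hs : s ∉ W.S) :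
    coW (κ n) (f n (W.rep n i k)) (f n (W.rep n l k)) s =
      un W lam n s * (W.cfg E n).rel k i l s := by
  rw [h.crd_eq hg (rep_Aset hE hcfg hi).1.1 (rep_Aset hE hcfg hl).1.1, hcfg,
    WWnd.rel_eq h i l k hs]

end window

end Crest.Agent.R136.Res2648
end

-- ▼ part R136/Res5_648
section

/-!
# R136: wall resonances of 5b (helper648), part 5: the output

* `resq_of` : from the motion of one line to `ResQ` on a dense part;
* `AY_win`, `BY_win`, `YY_win`, `zY_win` : the four resonances.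
-/

set_option autoImplicit false
set_option linter.unusedVariables false
set_option linter.unusedSectionVars false

open Filter Topology

namespace Crest.Agent.R136.Res2648

open Finset Crest.Agent.R136.NetW191 Crest.Agent.R136.Net191 Crest.Agent.R136.Qg926
open Crest.Agent.R136.EvW938 Crest.Agent.R136.Gf356 Crest.Agent.R136.Res1648
open Crest.Agent.R138.Ex926 (Base U)

section

variable {ι : ℕ → Type*} [∀ n, DecidableEq (ι n)]
variable {W : Wnd 18 ι} {κ : ℕ → ℝ} {lam : ℕ → Fin 18 → ℝ} {f : ∀ n, ι n → FW}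
  {V : Finset (Fin 14)} {x σ : ℝ} {E E' : ∀ n, Finset (ι n)} {Mu g : ℕ → ℝ}
  {ex : ℕ → ∀ n, ι n → ℕ}

lemma CS_le {K M Ch : ℝ} (hK : 1 ≤ K) (hCh : 0 ≤ Ch) (hM : 1 ≤ M) :
    CS K M Ch ≤ (CR K + Ch + 470 * K ^ 7 + 1 + 470 * K ^ 7 * (470 * K ^ 7) +
      470 + 470 * 128) * M ^ 7 := by
  have h1 : 1 ≤ M ^ 7 := one_le_pow₀ hM
  have h2 := (CR_ge hK).1
  have h3 : 0 ≤ CR K + Ch + 470 * K ^ 7 + 1 + 470 * K ^ 7 * (470 * K ^ 7) := by positivity
  have h4 := le_mul_of_one_le_right h3 h1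
  unfold CS
  have e : (2 * M) ^ 7 = 128 * M ^ 7 := by ring
  rw [e]
  linarith

/-- **from the motion of one line to the output** -/
theorem resq_of (D : WinD W κ lam f V E x σ) (h : WWnd W κ lam f) (hE : Wnd.EOk W E Mu)
    (hP : Wnd.Pruned W E E' g ex) {j : Fin 14} (ad : Adm V j) {Ch : ℝ} (hCh : 0 ≤ Ch)
    (hsh : ∀ ε : ℝ, 0 < ε → ∀ᶠ n in (U : Filter ℕ), ∀ i ∈ Aset W E' n, ∀ i' ∈ Aset W E' n,
      ∀ l ∈ Aset W E' n, W.lc n i = W.lc n i' → W.zc n i = W.zc n l → ∀ q ∈ V,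
      |tr (κ n) (sh (coW (κ n) (f n i) (f n i') 0)) (offS W.S (flg (coW (κ n) (f n i) (f n l)))) q -
        coW (κ n) (f n i) (f n l) (Fin.natAdd 4 j) *
          fk (κ n) (coW (κ n) (f n i) (f n i') 0) j q| ≤
        Ch * W.B'.d n ^ (x - ε) * sd W lam n (Fin.natAdd 4 q))
    {C : ℝ} (hC : 0 < C)
    (hfin : ∀ ε : ℝ, 0 < ε → C * ε ≤ x → ∀ᶠ n in (U : Filter ℕ),
      ∃ (k₀ i : ℕ) (ψ : ℝ) (H : Finset ℕ), H ⊆ (W.cfg E' n).Z ∧
        W.B'.d n ^ (C * ε) * ((W.cfg E' n).Z.card : ℝ) ≤ (H.card : ℝ) ∧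
        (i, k₀) ∈ (W.cfg E' n).I ∧ (∀ k ∈ H, (i, k) ∈ (W.cfg E' n).I) ∧
        |ψ| ≤ W.B'.d n ^ (-(C * ε)) * sd W lam n (Fin.natAdd 4 j) ∧
        ∀ k ∈ H, ∀ q ∈ V,
          |coW (κ n) (f n (W.rep n i k₀)) (f n (W.rep n i k)) (Fin.natAdd 4 q) -
            ψ * fk (κ n) (coW (κ n) (f n (W.rep n i k₀)) (f n (W.rep n i k)) 0) j q| ≤
            W.B'.d n ^ (x - C * ε) * sd W lam n (Fin.natAdd 4 q)) :
    ∀ ε : ℝ, 0 < ε → ∀ᶠ n in (U : Filter ℕ), ∃ G ⊆ E n,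
      Mu n * W.B'.d n ^ (W.lam W.top + ε) ≤ (G.card : ℝ) ∧ ResQ W κ lam f j V x n ε G := by
  classical
  intro ε hε
  have hx := D.x_pos
  set m₀ : ℝ := min ε x with hm₀
  have hm0 : 0 < m₀ := lt_min hε hx
  have hm1 : m₀ ≤ ε := min_le_left _ _
  have hm2 : m₀ ≤ x := min_le_right _ _
  set ε₁ : ℝ := m₀ / (9 * (C + 1)) with hε₁
  have hC1 : 0 < 9 * (C + 1) := by positivity
  have hε1 : 0 < ε₁ := by positivity
  set δ : ℝ := (C + 1) * ε₁ with hδ
  have hδ0 : 0 < δ := by positivity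
  have hδm : 9 * δ = m₀ := by
    rw [hδ, hε₁]
    field_simp
  have hCε : C * ε₁ ≤ δ := by rw [hδ]; nlinarith
  have h1ε : ε₁ ≤ δ := by
    rw [hδ]
    have : 0 < C * ε₁ := by positivity
    linarith
  have hKR := KR_one h.ok
  set c1 : ℝ := CR (KR W) + Ch + 470 * (KR W) ^ 7 + 1 + 470 * (KR W) ^ 7 * (470 * (KR W) ^ 7) +
      470 + 470 * 128 with hc1
  filter_upwards [D.raw h hE hP hε1 (by linarith), hsh ε₁ hε1, hfin ε₁ hε1 (by linarith),
    mass_of_heights h.ok hE hP D.dens (ε := ε / 2) (by positivity),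
    ev_const_le W.B' hδ0 (2 * KR W), ev_const_le W.B' hδ0 c1] with n g1 g2 g3 g4 g5 g6
  obtain ⟨hg, hEC, hcfg, R⟩ := g1
  obtain ⟨k₀, i, ψ, H, hH, hcard, hi0, hiH, hψ, hmot⟩ := g3
  set ρ := W.B'.d n with hρ
  have hd : ∀ u : ℝ, 0 < ρ ^ u := fun u => rpos W.B' n u
  have hdn : ∀ {u v : ℝ}, u ≤ v → ρ ^ v ≤ ρ ^ u := fun {u v} h' => rpow_anti W.B' n h'
  have radd : ∀ u v : ℝ, ρ ^ (u + v) = ρ ^ u * ρ ^ v := fun u v => rpow_add' W.B' n u v
  have sp := h.sd_pos n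
  refine ⟨(E' n).filter fun i => W.zc n i ∈ H, (filter_subset _ _).trans (hP.sub n), ?_, ?_⟩
  · refine le_trans ?_ (g4 (C * ε₁) H hH hcard)
    refine mul_le_mul_of_nonneg_left (hdn ?_) (hE.pos n).le
    linarith
  · obtain ⟨rA, rl, rz⟩ := rep_Aset hEC hcfg hi0
    refine ⟨W.rep n i k₀, rA.1, ψ, ?_, ?_⟩
    · refine hψ.trans (mul_le_mul_of_nonneg_right (hdn ?_) (sp _).le)
      linarith
    · intro l hl l' hl' hll q hq
      obtain ⟨hlE, hlH⟩ := mem_filter.1 hl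
      obtain ⟨hlE', hlH'⟩ := mem_filter.1 hl'
      have hk := hiH _ hlH
      have hk' := hiH _ hlH'
      obtain ⟨pA, pl, pz⟩ := rep_Aset hEC hcfg hk
      obtain ⟨pA', pl', pz'⟩ := rep_Aset hEC hcfg hk'
      have lA : l ∈ Aset W E' n := ⟨hEC hlE, by
        rw [hcfg]; exact Wnd.mem_I.2 ⟨l, hlE, rfl, rfl⟩⟩
      have lA' : l' ∈ Aset W E' n := ⟨hEC hlE', by
        rw [hcfg]; exact Wnd.mem_I.2 ⟨l', hlE', rfl, rfl⟩⟩
      have hτη : ρ ^ (x - ε₁) ≤ ρ ^ (x - δ) := hdn (by linarith)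
      have hηη : ρ ^ (x - C * ε₁) ≤ ρ ^ (x - δ) := hdn (by linarith)
      have key := R.spread (j := j) ad (ψ := ψ) (η := ρ ^ (x - δ)) (M := ρ ^ (-δ)) (Ch := Ch)
        g5 hτη hCh
        (hψ.trans (mul_le_mul_of_nonneg_right (hdn (by linarith)) (sp _).le))
        (fun a ha a' ha' b hb e1 e2 p hp => (g2 a ha a' ha' b hb e1 e2 p hp).trans
          (mul_le_mul_of_nonneg_right (mul_le_mul_of_nonneg_left hτη hCh) (sp _).le))
        rA pA pA' lA lA' (rl.trans pl.symm) (pl.trans pl'.symm) hll pz pz'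
        (fun p hp => (hmot _ hlH p hp).trans (mul_le_mul_of_nonneg_right hηη (sp _).le))
        (fun p hp => (hmot _ hlH' p hp).trans (mul_le_mul_of_nonneg_right hηη (sp _).le)) q hq
      have hM1 : 1 ≤ ρ ^ (-δ) := by linarith
      have hCS := CS_le hKR hCh hM1
      have e7 : (ρ ^ (-δ)) ^ 7 = ρ ^ (-(7 * δ)) := by
        rw [← Real.rpow_natCast, ← Real.rpow_mul (W.B'.pos n).le]
        congr 1
        push_cast
        ring
      rw [e7, ← hc1] at hCS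
      refine key.trans (mul_le_mul_of_nonneg_right ?_ (sp _).le)
      calc CS (KR W) (ρ ^ (-δ)) Ch * ρ ^ (x - δ)
          ≤ (c1 * ρ ^ (-(7 * δ))) * ρ ^ (x - δ) :=
            mul_le_mul_of_nonneg_right hCS (hd _).le
        _ ≤ (ρ ^ (-δ) * ρ ^ (-(7 * δ))) * ρ ^ (x - δ) := by
            refine mul_le_mul_of_nonneg_right ?_ (hd _).le
            exact mul_le_mul_of_nonneg_right g6 (hd _).le
        _ = ρ ^ (-δ + -(7 * δ) + (x - δ)) := by rw [radd (-δ + -(7 * δ)), radd (-δ)]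
        _ ≤ ρ ^ (x - ε) := hdn (by linarith)

end

/-! ### boxes and rates -/

/-- exponent `x` in the slots of `T` -/
def bxs (T : Finset (Fin 18)) (x : ℝ) : Fin 18 → ℝ := fun s => if s ∈ T then x else 0

/-- **the slot `a` costs at the rate `s` given the slots `T`** -/
structure Rate {ι : ℕ → Type*} [∀ n, DecidableEq (ι n)] (W : Wnd 18 ι) (T : Finset (Fin 18))
    (a : Fin 18) (x s : ℝ) : Prop where
  pos : 0 < s
  aT : a ∉ T
  aS : a ∉ W.S
  TS : ∀ b ∈ T, b ∉ W.S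
  leg : ∀ t, 0 ≤ t → t ≤ x → Function.update (bxs T x) a t ∈ W.legW
  rate : ∀ t, 0 ≤ t → t ≤ x → s * t ≤ W.nu (bxs T x) - W.nu (Function.update (bxs T x) a t)

section

variable {ι : ℕ → Type*} [∀ n, DecidableEq (ι n)]
variable {W : Wnd 18 ι} {κ : ℕ → ℝ} {lam : ℕ → Fin 18 → ℝ} {f : ∀ n, ι n → FW}
  {V : Finset (Fin 14)} {x σ : ℝ} {E E' : ∀ n, Finset (ι n)} {Mu g : ℕ → ℝ}
  {ex : ℕ → ∀ n, ι n → ℕ} {T : Finset (Fin 18)} {a : Fin 18} {s : ℝ}

theorem Rate.leg0 (Rt : Rate W T a x s) (hx : 0 ≤ x) : bxs T x ∈ W.legW := by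
  have h1 := Rt.leg 0 le_rfl hx
  have e : Function.update (bxs T x) a 0 = bxs T x := by
    rw [Function.update_eq_self_iff]
    exact (if_neg Rt.aT).symm
  rwa [e] at h1

/-- the box of the dropped slot -/
theorem big_slot {G : RCfg (Fin 18)} {p : Fin 18 → ℝ} {c t : ℝ} {k i l : ℕ}
    (hl : G.loose p c k i l) (hn : ¬ G.loose (Function.update p a t) c k i l) :
    G.ρ ^ (t - c) < |G.rel k i l a| := by
  by_contra hcon
  push Not at hcon
  refine hn fun s => ?_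
  by_cases hs : s = a
  · subst hs
    rw [Function.update_self]
    exact hcon
  · rw [Function.update_of_ne hs]
    exact hl s

/-- facts on a pair of lines at one height -/
structure Two (W : Wnd 18 ι) (κ : ℕ → ℝ) (lam : ℕ → Fin 18 → ℝ) (f : ∀ n, ι n → FW)
    (E : ∀ n, Finset (ι n)) (T : Finset (Fin 18)) (a : Fin 18) (x c : ℝ) (n k i l : ℕ) :
    Prop where
  hi : (i, k) ∈ (W.cfg E n).I
  hl : (l, k) ∈ (W.cfg E n).I
  sm : ∀ b ∈ T, |coW (κ n) (f n (W.rep n i k)) (f n (W.rep n l k)) b| ≤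
    W.B'.d n ^ (x - c) * sd W lam n b
  big : W.B'.d n ^ c * sd W lam n a ≤ |coW (κ n) (f n (W.rep n i k)) (f n (W.rep n l k)) a|

/-- from the configuration to raw coordinates -/
theorem ev_two (h : WWnd W κ lam f) (hE : Wnd.EOk W E Mu) (hP : Wnd.Pruned W E E' g ex)
    (Rt : Rate W T a x s) {ε : ℝ} (hε : 0 < ε) :
    ∀ᶠ n in (U : Filter ℕ), ∀ (c t : ℝ) (k i l : ℕ), (i, k) ∈ (W.cfg E' n).I →
      (l, k) ∈ (W.cfg E' n).I → (W.cfg E' n).loose (bxs T x) c k i l →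
      ¬ (W.cfg E' n).loose (Function.update (bxs T x) a t) c k i l → 0 ≤ c →
      ∀ c', t + ε ≤ c' → c + ε ≤ c' → Two W κ lam f E' T a x c' n k i l := by
  filter_upwards [Wnd.ev_cfg h.ok hE hP, ev_const_le W.B' hε W.K2,
    ev_const_le W.B' hε (1 / W.kap a)] with n g1 g2 g3 c t k i l hi hl hlo hnl hc c' ht hc'
  obtain ⟨hg, hEC, hne, hcfg⟩ := g1
  have hE'C : E' n ⊆ W.Cl n := (hP.sub n).trans hEC
  have hρe : (W.cfg E' n).ρ = W.B'.d n := Wnd.cfg_ρ E' n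
  set ρ := W.B'.d n with hρ
  have hd : ∀ u : ℝ, 0 < ρ ^ u := fun u => rpos W.B' n u
  have hdn : ∀ {u v : ℝ}, u ≤ v → ρ ^ v ≤ ρ ^ u := fun {u v} h' => rpow_anti W.B' n h'
  have radd : ∀ u v : ℝ, ρ ^ (u + v) = ρ ^ u * ρ ^ v := fun u v => rpow_add' W.B' n u v
  have sp := h.sd_pos n
  refine ⟨hi, hl, fun b hb => ?_, ?_⟩
  · have h1 := hlo b
    rw [hρe] at h1
    have e1 : bxs T x b = x := if_pos hb
    rw [e1] at h1
    rw [co_rel h hg hE'C hcfg hi hl (Rt.TS b hb)]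
    refine (h.raw_le h1).trans (mul_le_mul_of_nonneg_right ?_ (sp b).le)
    calc W.kap b * ρ ^ (x - c) ≤ ρ ^ (-ε) * ρ ^ (x - c) :=
          mul_le_mul_of_nonneg_right ((Wnd.kap_le_K2 h.ok b).trans g2) (hd _).le
      _ = ρ ^ (-ε + (x - c)) := (radd _ _).symm
      _ ≤ ρ ^ (x - c') := hdn (by linarith)
  · have h1 := big_slot hlo hnl
    rw [hρe] at h1
    rw [co_rel h hg hE'C hcfg hi hl Rt.aS, abs_mul, abs_of_pos (h.un_pos n a)]
    have hk := h.ok.kap a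
    have h2 : 1 ≤ W.kap a * ρ ^ (-ε) := by
      rw [div_le_iff₀ hk] at g3
      linarith
    have h3 : ρ ^ c' ≤ W.kap a * ρ ^ (t - c) := by
      calc ρ ^ c' ≤ 1 * ρ ^ c' := by rw [one_mul]
        _ ≤ (W.kap a * ρ ^ (-ε)) * ρ ^ c' := mul_le_mul_of_nonneg_right h2 (hd _).le
        _ = W.kap a * ρ ^ (-ε + c') := by rw [radd]; ring
        _ ≤ W.kap a * ρ ^ (t - c) := mul_le_mul_of_nonneg_left (hdn (by linarith)) hk.le
    calc ρ ^ c' * sd W lam n a ≤ (W.kap a * ρ ^ (t - c)) * sd W lam n a :=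
          mul_le_mul_of_nonneg_right h3 (sp a).le
      _ = un W lam n a * ρ ^ (t - c) := by unfold un; ring
      _ ≤ un W lam n a * |(W.cfg E' n).rel k i l a| :=
          mul_le_mul_of_nonneg_left h1.le (h.un_pos n a).le

theorem zero_legW (h : W.Ok) : (0 : Fin 18 → ℝ) ∈ W.legW :=
  ⟨h.lev_leg, fun s _ => h.top_leg.1.nonneg s⟩

/-- relative coordinates are bounded -/
theorem loose_zero (h : WWnd W κ lam f) (hE : Wnd.EOk W E Mu) (hP : Wnd.Pruned W E E' g ex)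
    {ε : ℝ} (hε : 0 < ε) : ∀ᶠ n in (U : Filter ℕ), ∀ k i l, (i, k) ∈ (W.cfg E' n).I →
      (l, k) ∈ (W.cfg E' n).I → (W.cfg E' n).loose 0 ε k i l := by
  have hb : ∀ᶠ n in (U : Filter ℕ), ∀ s : Fin 18, W.K0 / W.kap s ≤ W.B'.d n ^ (-ε) := by
    rw [Filter.eventually_all]
    intro s
    exact ev_const_le W.B' hε _
  filter_upwards [Wnd.ev_cfg h.ok hE hP, hb] with n g1 g2 k i l hi hl s
  obtain ⟨hg, hEC, hne, hcfg⟩ := g1
  have hE'C : E' n ⊆ W.Cl n := (hP.sub n).trans hEC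
  have hρe : (W.cfg E' n).ρ = W.B'.d n := Wnd.cfg_ρ E' n
  rw [hρe, Pi.zero_apply, zero_sub]
  rw [hcfg] at hi hl ⊢
  exact (h.rel_le hg hE'C hi hl s).trans (g2 s)

open Classical in
/-- **two lines in one cell which meet at many pairs of heights** -/
theorem two_many (h : WWnd W κ lam f) (hE : Wnd.EOk W E Mu) (hP : Wnd.Pruned W E E' g ex)
    (H : RModel W.B' (W.cfg E') σ x W.legW W.nu W.Dc) (hx : 0 < x) (Rt : Rate W T a x s)
    (pT r : Fin 18 → ℝ) (hpT : pT ∈ W.legW)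
    (hr : r ∈ W.legW) (hTr : ∀ j, pT j ≤ r j) (hz : W.nu pT ≤ W.nu r) {C1 : ℝ} (hC1 : 0 < C1)
    (inT : ∀ ε : ℝ, 0 < ε → ∀ᶠ n in (U : Filter ℕ), ∀ k k' i i', (i, k) ∈ (W.cfg E' n).I →
      (i, k') ∈ (W.cfg E' n).I → (i', k) ∈ (W.cfg E' n).I → (i', k') ∈ (W.cfg E' n).I →
      (W.cfg E' n).loose (bxs T x) ε k i i' → (W.cfg E' n).loose pT (C1 * ε) k' i i') :
    ∃ C : ℝ, 0 < C ∧ ∀ ε : ℝ, 0 < ε → C * ε ≤ x → ∀ᶠ n in (U : Filter ℕ),
      ∃ k₀ i l : ℕ, ∃ P ⊆ (W.cfg E' n).Z ×ˢ (W.cfg E' n).Z,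
        Two W κ lam f E' T a x (C * ε) n k₀ i l ∧
        W.B'.d n ^ (C * ε) * ((W.cfg E' n).Z.card : ℝ) ^ 2 ≤ (P.card : ℝ) ∧
        ∀ q ∈ P, (i, q.1) ∈ (W.cfg E' n).I ∧ (l, q.1) ∈ (W.cfg E' n).I ∧
          (i, q.2) ∈ (W.cfg E' n).I ∧ (l, q.2) ∈ (W.cfg E' n).I ∧
          (W.cfg E' n).loose r (C * ε) q.1 i l ∧ (W.cfg E' n).loose r (C * ε) q.2 i l ∧
          Pop W.B' (W.cfg E') (4 * ε) n k₀ q.1 ∧ Pop W.B' (W.cfg E') (4 * ε) n k₀ q.2 ∧
          Pop W.B' (W.cfg E') (4 * ε) n q.1 q.2 := by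
  have hD := H.D1
  have hD0 : 0 < W.Dc := by linarith
  have hD5 : 0 < W.Dc ^ 5 := by positivity
  obtain ⟨C0, hC0, hmain⟩ := pair_many H (bxs T x) pT r (Rt.leg0 hx.le) hpT hr hTr hz hC1 inT
    (fun t => Function.update (bxs T x) a t) Rt.pos Rt.leg Rt.rate (C4 := W.Dc ^ 5) hD5
  refine ⟨C0 + W.Dc ^ 5 + 1, by positivity, fun ε hε hCx => ?_⟩
  have h1 : C0 * ε ≤ x := by nlinarith
  filter_upwards [hmain ε hε h1, ev_two (κ := κ) (lam := lam) (f := f) h hE hP Rt hε] with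
    n ⟨k₀, i, l, P, hPZ, hi, hl, hlo, hnl, hcard, hq⟩ g2
  have hdn : ∀ {u v : ℝ}, u ≤ v → W.B'.d n ^ v ≤ W.B'.d n ^ u := fun {u v} h' =>
    rpow_anti W.B' n h'
  have hρe : (W.cfg E' n).ρ = W.B'.d n := Wnd.cfg_ρ E' n
  refine ⟨k₀, i, l, P, hPZ, ?_, ?_, fun q hqP => ?_⟩
  · exact g2 (W.Dc ^ 5 * ε) (C0 * ε) k₀ i l hi hl hlo hnl (by positivity) _ (by nlinarith)
      (by nlinarith)
  · refine le_trans ?_ hcard
    exact mul_le_mul_of_nonneg_right (hdn (by nlinarith)) (by positivity)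
  · obtain ⟨a1, a2, a3, a4, a5, a6, a7, a8, a9⟩ := hq q hqP
    refine ⟨a1, a2, a3, a4, fun s => ?_, fun s => ?_, a7, a8, a9⟩
    · refine (a5 s).trans ?_
      rw [hρe]
      exact hdn (by nlinarith)
    · refine (a6 s).trans ?_
      rw [hρe]
      exact hdn (by nlinarith)

/-- **two lines for every popular pair of heights** -/
theorem two_cell (h : WWnd W κ lam f) (hE : Wnd.EOk W E Mu) (hP : Wnd.Pruned W E E' g ex)
    (H : RModel W.B' (W.cfg E') σ x W.legW W.nu W.Dc) (hx : 0 < x) (Rt : Rate W T a x s) :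
    ∃ C : ℝ, 0 < C ∧ ∀ ε : ℝ, 0 < ε → C * ε ≤ x → ∀ᶠ n in (U : Filter ℕ), ∀ k k',
      Pop W.B' (W.cfg E') (4 * ε) n k k' → ∃ i l, (i, k') ∈ (W.cfg E' n).I ∧
        (l, k') ∈ (W.cfg E' n).I ∧ Two W κ lam f E' T a x (C * ε) n k i l := by
  have hD := H.D1
  have hD0 : 0 < W.Dc := by linarith
  have hD5 : 0 < W.Dc ^ 5 := by positivity
  obtain ⟨C0, hC0, hmain⟩ := pair_cell H.toRUnif (bxs T x) (Rt.leg0 hx.le)
    (fun t => Function.update (bxs T x) a t) Rt.pos Rt.leg Rt.rate (b := 4) (C4 := W.Dc ^ 5)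
    (by norm_num) hD5
  refine ⟨C0 + W.Dc ^ 5 + 1, by positivity, fun ε hε hCx => ?_⟩
  have h1 : C0 * ε ≤ x := by nlinarith
  filter_upwards [hmain ε hε h1, ev_two (κ := κ) (lam := lam) (f := f) h hE hP Rt hε] with
    n g1 g2 k k' hpop
  obtain ⟨i, l, hi, hi', hl, hl', hlo, hnl⟩ := g1 k k' hpop
  exact ⟨i, l, hi', hl', g2 (W.Dc ^ 5 * ε) (C0 * ε) k i l hi hl hlo hnl (by positivity) _
    (by nlinarith) (by nlinarith)⟩

/-- tight walls -/
theorem sd_mul (h : WWnd W κ lam f) {n : ℕ} {u v s : Fin 18} (hl : [u, v] ∈ mlW s)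
    (ht : W.X n s = W.X n u + W.X n v) : sd W lam n s = sd W lam n u * sd W lam n v := by
  have h1 := (h.hl n).mul s [u, v] hl
  simp only [List.map_cons, List.map_nil, List.prod_cons, List.prod_nil, mul_one] at h1
  have hu := ((h.hl n).pos u).ne'
  have hv := ((h.hl n).pos v).ne'
  unfold sd
  rw [ht, Real.rpow_add (W.B.pos n), ← h1]
  field_simp

/-- heights of a set of pairs -/
theorem card_fst {Z : Finset ℕ} {P : Finset (ℕ × ℕ)} (hP : P ⊆ Z ×ˢ Z) {c : ℝ}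
    (hc : c * (Z.card : ℝ) ^ 2 ≤ (P.card : ℝ)) (hZ : Z.Nonempty) :
    c * (Z.card : ℝ) ≤ ((P.image Prod.fst).card : ℝ) := by
  have hZ0 : (0 : ℝ) < Z.card := by exact_mod_cast hZ.card_pos
  have h1 : P ⊆ (P.image Prod.fst) ×ˢ Z := fun q hq =>
    mem_product.2 ⟨mem_image_of_mem _ hq, (mem_product.1 (hP hq)).2⟩
  have h2 : (P.card : ℝ) ≤ ((P.image Prod.fst).card : ℝ) * Z.card := by
    have := card_le_card h1
    rw [card_product] at this
    exact_mod_cast this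
  have h3 : (c * (Z.card : ℝ)) * Z.card ≤ ((P.image Prod.fst).card : ℝ) * Z.card := by
    calc (c * (Z.card : ℝ)) * Z.card = c * (Z.card : ℝ) ^ 2 := by ring
      _ ≤ _ := hc.trans h2
  exact le_of_mul_le_mul_right h3 hZ0

end

end Crest.Agent.R136.Res2648
end

-- ▼ part R136/Res6_648

/-!
# R136: wall resonances of 5b (helper648), part 6: the four windows

* `AY_win` ((w, K) = (3, 3)), `BY_win` ((3, 4)), `YY_win` ((4, 4)), `zY_win` ((3, 2)):
  the own motion is `(ψ - β_j(line)) * fk` on a dense part, `ψ` one constant per class (`ResQ`).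
-/

set_option autoImplicit false
set_option linter.unusedVariables false
set_option linter.unusedSectionVars false

open Filter Topology

namespace Crest.Agent.R136.Res2648

open Finset Crest.Agent.R136.NetW191 Crest.Agent.R136.Net191 Crest.Agent.R136.Qg926
open Crest.Agent.R136.EvW938 Crest.Agent.R136.Gf356 Crest.Agent.R136.Res1648
open Crest.Agent.R138.Ex926 (Base U)

/-- quotient of powers -/
lemma quo {ρ A v a b e : ℝ} (hρ : 0 < ρ) (hρ1 : ρ ≤ 1) (hA : A ≤ ρ ^ (-e)) (hv : v ≤ A * ρ ^ a) :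
    v / ρ ^ b ≤ ρ ^ (a - b - e) := by
  have hd : ∀ u : ℝ, 0 < ρ ^ u := fun u => Real.rpow_pos_of_pos hρ u
  rw [div_le_iff₀ (hd b), ← Real.rpow_add hρ]
  refine hv.trans ((mul_le_mul_of_nonneg_right hA (hd a).le).trans (le_of_eq ?_))
  rw [← Real.rpow_add hρ]
  congr 1
  ring

section

variable {ι : ℕ → Type*} [∀ n, DecidableEq (ι n)]
variable {W : Wnd 18 ι} {κ : ℕ → ℝ} {lam : ℕ → Fin 18 → ℝ} {f : ∀ n, ι n → FW}
  {V : Finset (Fin 14)} {x σ : ℝ} {E E' : ∀ n, Finset (ι n)} {Mu g : ℕ → ℝ}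
  {ex : ℕ → ∀ n, ι n → ℕ} {T : Finset (Fin 18)} {a : Fin 18} {s : ℝ}

/-- the model -/
theorem WinD.model (D : WinD W κ lam f V E x σ) (h : WWnd W κ lam f) (hE : Wnd.EOk W E Mu) :
    ∃ (E' : ∀ n, Finset (ι n)) (g : ℕ → ℝ), Wnd.Pruned W E E' g (fun _ _ _ => 0) ∧
      RModel W.B' (W.cfg E') σ x W.legW W.nu W.Dc := by
  have hfr : ∀ y, 0 ≤ y → y ≤ x → W.lam (Pi.single W.kz y) ≤ -(σ * y) := by
    rw [h.kz]; exact D.frost
  obtain ⟨E', g, hP, -, H⟩ := Wnd.EOk.exists_model h.ok hE (fun _ _ _ => 0)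
    (g₀ := fun n => W.B'.L n) W.B'.L_tendsto D.dens D.σ0.le D.σ1 (D.top _) hfr
  exact ⟨E', g, hP, H⟩

theorem Z_nonempty (H : RModel W.B' (W.cfg E') σ x W.legW W.nu W.Dc) (n : ℕ) :
    (W.cfg E' n).Z.Nonempty := by
  obtain ⟨⟨i, k⟩, hI⟩ := H.nonempty n
  exact ⟨k, H.memZ hI⟩

/-- `two_many` without transfer -/
theorem two_many0 (h : WWnd W κ lam f) (hE : Wnd.EOk W E Mu) (hP : Wnd.Pruned W E E' g ex)
    (H : RModel W.B' (W.cfg E') σ x W.legW W.nu W.Dc) (hx : 0 < x) (Rt : Rate W T a x s) :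
    ∃ C : ℝ, 0 < C ∧ ∀ ε : ℝ, 0 < ε → C * ε ≤ x → ∀ᶠ n in (U : Filter ℕ),
      ∃ k₀ i l : ℕ, ∃ P ⊆ (W.cfg E' n).Z ×ˢ (W.cfg E' n).Z,
        Two W κ lam f E' T a x (C * ε) n k₀ i l ∧
        W.B'.d n ^ (C * ε) * ((W.cfg E' n).Z.card : ℝ) ^ 2 ≤ (P.card : ℝ) ∧
        ∀ q ∈ P, (i, q.1) ∈ (W.cfg E' n).I ∧ (l, q.1) ∈ (W.cfg E' n).I ∧
          (i, q.2) ∈ (W.cfg E' n).I ∧ (l, q.2) ∈ (W.cfg E' n).I ∧
          Pop W.B' (W.cfg E') (4 * ε) n k₀ q.1 ∧ Pop W.B' (W.cfg E') (4 * ε) n k₀ q.2 ∧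
          Pop W.B' (W.cfg E') (4 * ε) n q.1 q.2 := by
  obtain ⟨C, hC, hm⟩ := two_many h hE hP H hx Rt 0 0 (zero_legW h.ok) (zero_legW h.ok)
    (fun _ => le_rfl) le_rfl one_pos (fun ε hε => by
      filter_upwards [loose_zero h hE hP hε] with n g1 k k' i i' h1 h2 h3 h4 h5
      rw [one_mul]
      exact g1 k' i i' h2 h4)
  refine ⟨C, hC, fun ε hε hCx => ?_⟩
  filter_upwards [hm ε hε hCx] with n ⟨k₀, i, l, P, h1, h2, h3, h4⟩
  exact ⟨k₀, i, l, P, h1, h2, h3, fun q hq => ⟨(h4 q hq).1, (h4 q hq).2.1, (h4 q hq).2.2.1,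
    (h4 q hq).2.2.2.1, (h4 q hq).2.2.2.2.2.2.1, (h4 q hq).2.2.2.2.2.2.2.1,
    (h4 q hq).2.2.2.2.2.2.2.2⟩⟩

/-! ### `AY`, (w, K) = (3, 3) -/

/-- **the resonance `AY`** -/
theorem AY_win (h : WWnd W κ lam f) (hE : Wnd.EOk W E Mu) (D : WinD W κ lam f {5} E x σ)
    (s14 : (14 : Fin 18) ∈ W.S) (s6 : (6 : Fin 18) ∉ W.S) (s8 : (8 : Fin 18) ∉ W.S)
    (s11 : (11 : Fin 18) ∉ W.S)
    (t14 : ∀ᶠ n in (U : Filter ℕ), W.X n 14 = W.X n 2 + W.X n 9)
    (t11 : ∀ᶠ n in (U : Filter ℕ), W.X n 11 = W.X n 2 + W.X n 6)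
    (Rt : Rate W {1, 8} 2 x s) :
    ∀ ε : ℝ, 0 < ε → ∀ᶠ n in (U : Filter ℕ), ∃ G ⊆ E n,
      Mu n * W.B'.d n ^ (W.lam W.top + ε) ≤ (G.card : ℝ) ∧ ResQ W κ lam f 2 {5} x n ε G := by
  have hx := D.x_pos
  obtain ⟨E', g, hP, H⟩ := D.model h hE
  have s9 : (9 : Fin 18) ∈ W.S := D.hV 5 (by decide)
  obtain ⟨C, hC, hmany⟩ := two_many0 h hE hP H hx Rt
  have hKR := KR_one h.ok
  have hK0 : 0 ≤ KR W := by linarith
  have hCR := (CR_ge hKR).1
  refine resq_of D h hE hP adm_AY (Ch := 0) le_rfl ?_ (C := 2 * C + 2) (by positivity) ?_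
  · intro ε hε
    filter_upwards with n i hi i' hi' l hl e1 e2 q hq
    have := sh_AY (κ n) (coW (κ n) (f n i) (f n l)) s9 s6 (coW (κ n) (f n i) (f n i') 0) q hq
    rw [this]
    change |coW (κ n) (f n i) (f n l) 6 * _ - coW (κ n) (f n i) (f n l) 6 * _| ≤ _
    rw [sub_self, abs_zero, zero_mul, zero_mul]
  · intro ε hε hεx
    have hCε : 0 < C * ε := by positivity
    have hεx1 : ε ≤ x := by linarith
    filter_upwards [hmany ε hε (by linarith), D.raw h hE hP hε hεx1, t14, t11,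
      ev_const_le W.B' hε (CR (KR W) + KR W + 2 * KR W ^ 2)] with n g1 g2 g3 g4 g5
    obtain ⟨k₀, i, l, P, hPZ, hT, hcard, hq⟩ := g1
    obtain ⟨hg, hEC, hcfg, R⟩ := g2
    set ρ := W.B'.d n with hρ
    have hρ0 : 0 < ρ := W.B'.pos n
    have hρ1 : ρ ≤ 1 := (W.B'.lt n).le
    have hd : ∀ u : ℝ, 0 < ρ ^ u := fun u => rpos W.B' n u
    have hdn : ∀ {u v : ℝ}, u ≤ v → ρ ^ v ≤ ρ ^ u := fun {u v} h' => rpow_anti W.B' n h'
    have sp := h.sd_pos n
    have T14 := sd_mul h (n := n) (u := 2) (v := 9) (s := 14) (by decide) g3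
    have T11 := sd_mul h (n := n) (u := 2) (v := 6) (s := 11) (by decide) g4
    obtain ⟨xA, xl, xz⟩ := rep_Aset hEC hcfg hT.hi
    obtain ⟨yA, yl, yz⟩ := rep_Aset hEC hcfg hT.hl
    have hA5 : KR W ≤ ρ ^ (-ε) := by
      refine le_trans ?_ g5
      have : 0 ≤ 2 * KR W ^ 2 := by positivity
      linarith
    refine ⟨k₀, i, coW (κ n) (f n (W.rep n i k₀)) (f n (W.rep n l k₀)) 11 /
      coW (κ n) (f n (W.rep n i k₀)) (f n (W.rep n l k₀)) 2, P.image Prod.fst, ?_, ?_,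
      hT.hi, ?_, ?_, ?_⟩
    · intro k hk
      obtain ⟨q, hqP, rfl⟩ := mem_image.1 hk
      exact (mem_product.1 (hPZ hqP)).1
    · refine le_trans ?_ (card_fst hPZ hcard (Z_nonempty H n))
      exact mul_le_mul_of_nonneg_right (hdn (by linarith)) (Nat.cast_nonneg _)
    · intro k hk
      obtain ⟨q, hqP, rfl⟩ := mem_image.1 hk
      exact (hq q hqP).1
    · -- size of ψ
      have hb11 := R.bnd _ xA _ yA 11
      refine (divb (hd (C * ε)) (sp 2) (sp 6).le hK0 hb11 T11 hT.big).trans ?_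
      refine mul_le_mul_of_nonneg_right ?_ (sp _).le
      have h1 : KR W ≤ ρ ^ (-ε) * ρ ^ (0 : ℝ) := by rw [Real.rpow_zero, mul_one]; exact hA5
      have h2 := quo (v := KR W) (A := ρ ^ (-ε)) (a := 0) (b := C * ε) (e := ε) hρ0 hρ1
        le_rfl h1
      exact h2.trans (hdn (by linarith))
    · intro k hk q hqV
      obtain ⟨p, hpP, rfl⟩ := mem_image.1 hk
      obtain ⟨p1, p2, -⟩ := hq p hpP
      obtain ⟨xA', xl', xz'⟩ := rep_Aset hEC hcfg p1
      obtain ⟨yA', yl', yz'⟩ := rep_Aset hEC hcfg p2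
      have key := (AY_ratio R s14 s11 s8 T14 T11 xA xA' yA yA' (xl.trans xl'.symm)
        (yl.trans yl'.symm) (xz.trans yz.symm) (xz'.trans yz'.symm) (hd (x - C * ε)).le
        (hd (C * ε)) (hT.sm 1 (by decide)) (hT.sm 8 (by decide)) hT.big).1
      rw [mem_singleton] at hqV
      subst hqV
      rw [fk_AY]
      refine key.trans (mul_le_mul_of_nonneg_right ?_ (sp _).le)
      have h1 : (CR (KR W) + KR W) * ρ ^ (x - ε) + 2 * KR W ^ 2 * ρ ^ (x - C * ε) ≤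
          (CR (KR W) + KR W + 2 * KR W ^ 2) * ρ ^ (x - (C * ε + ε)) := by
        have a1 := mul_le_mul_of_nonneg_left (hdn (show x - (C * ε + ε) ≤ x - ε by linarith))
          (show 0 ≤ CR (KR W) + KR W by linarith)
        have a2 := mul_le_mul_of_nonneg_left (hdn (show x - (C * ε + ε) ≤ x - C * ε by linarith))
          (show 0 ≤ 2 * KR W ^ 2 by positivity)
        linarith
      refine (quo hρ0 hρ1 g5 h1 (b := C * ε)).trans (hdn ?_)
      linarith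

/-! ### `YY`, (w, K) = (4, 4) -/

/-- **the resonance `YY`** -/
theorem YY_win (h : WWnd W κ lam f) (hE : Wnd.EOk W E Mu) (D : WinD W κ lam f {1, 3} E x σ)
    (s9 : (9 : Fin 18) ∈ W.S) (s4 : (4 : Fin 18) ∉ W.S) (s6 : (6 : Fin 18) ∉ W.S)
    (t9 : ∀ᶠ n in (U : Filter ℕ), W.X n 9 = W.X n 2 + W.X n 5)
    (t9' : ∀ᶠ n in (U : Filter ℕ), W.X n 9 = W.X n 1 + W.X n 7)
    (t6 : ∀ᶠ n in (U : Filter ℕ), W.X n 6 = W.X n 2 + W.X n 4)
    (Rt : Rate W {1} 2 x s) {s' : ℝ} (Rt' : Rate W {2, 6} 1 x s') :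
    ∀ ε : ℝ, 0 < ε → ∀ᶠ n in (U : Filter ℕ), ∃ G ⊆ E n,
      Mu n * W.B'.d n ^ (W.lam W.top + ε) ≤ (G.card : ℝ) ∧
        ResQ W κ lam f 0 {1, 3} x n ε G := by
  have hx := D.x_pos
  obtain ⟨E', g, hP, H⟩ := D.model h hE
  have s5 : (5 : Fin 18) ∈ W.S := D.hV 1 (by decide)
  have s7 : (7 : Fin 18) ∈ W.S := D.hV 3 (by decide)
  obtain ⟨C, hC, hmany⟩ := two_many0 h hE hP H hx Rt
  obtain ⟨C', hC', hcell⟩ := two_cell (κ := κ) (lam := lam) (f := f) h hE hP H hx Rt'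
  have hKR := KR_one h.ok
  have hK0 : 0 ≤ KR W := by linarith
  have hCR := (CR_ge hKR).1
  refine resq_of D h hE hP adm_YY (Ch := 0) le_rfl ?_ (C := 2 * C + 2 * C' + 6)
    (by positivity) ?_
  · intro ε hε
    filter_upwards with n i hi i' hi' l hl e1 e2 q hq
    have := sh_YY (κ n) (coW (κ n) (f n i) (f n l)) s5 s7 s4 (coW (κ n) (f n i) (f n i') 0) q hq
    rw [this]
    change |coW (κ n) (f n i) (f n l) 4 * _ - coW (κ n) (f n i) (f n l) 4 * _| ≤ _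
    rw [sub_self, abs_zero, zero_mul, zero_mul]
  · intro ε hε hεx
    have hCε : 0 < C * ε := by positivity
    have hCε' : 0 < C' * ε := by positivity
    have hεx1 : ε ≤ x := by linarith
    have hK2 : 0 ≤ KR W ^ 2 := by positivity
    obtain ⟨A, hA⟩ : ∃ A : ℝ, A = (CR (KR W) + KR W + 6 * KR W ^ 2) +
      (CR (KR W) + KR W + 3 * KR W) + (CR (KR W) + KR W ^ 2 + KR W * CR (KR W)) +
      (3 + KR W) := ⟨_, rfl⟩
    filter_upwards [hmany ε hε (by linarith), hcell ε hε (by linarith), D.raw h hE hP hε hεx1,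
      t9, t9', t6, D.kap ε hε, ev_const_le W.B' hε A]
      with n g1 gc g2 g3 g3' g4 gκ g5
    obtain ⟨k₀, i, l, P, hPZ, hT, hcard, hq⟩ := g1
    obtain ⟨hg, hEC, hcfg, R⟩ := g2
    set ρ := W.B'.d n with hρ
    have hρ0 : 0 < ρ := W.B'.pos n
    have hρ1 : ρ ≤ 1 := (W.B'.lt n).le
    have hd : ∀ u : ℝ, 0 < ρ ^ u := fun u => rpos W.B' n u
    have hdn : ∀ {u v : ℝ}, u ≤ v → ρ ^ v ≤ ρ ^ u := fun {u v} h' => rpow_anti W.B' n h'
    have radd : ∀ u v : ℝ, ρ ^ (u + v) = ρ ^ u * ρ ^ v := fun u v => rpow_add' W.B' n u v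
    have sp := h.sd_pos n
    have T9 := sd_mul h (n := n) (u := 2) (v := 5) (s := 9) (by decide) g3
    have T9' := sd_mul h (n := n) (u := 1) (v := 7) (s := 9) (by decide) g3'
    have T6 := sd_mul h (n := n) (u := 2) (v := 4) (s := 6) (by decide) g4
    obtain ⟨xA, xl, xz⟩ := rep_Aset hEC hcfg hT.hi
    obtain ⟨yA, yl, yz⟩ := rep_Aset hEC hcfg hT.hl
    have nn1 : 0 ≤ CR (KR W) + KR W + 6 * KR W ^ 2 := by positivity
    have nn2 : 0 ≤ CR (KR W) + KR W + 3 * KR W := by positivity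
    have nn3 : 0 ≤ CR (KR W) + KR W ^ 2 + KR W * CR (KR W) := by positivity
    have A1 : CR (KR W) + KR W + 6 * KR W ^ 2 ≤ ρ ^ (-ε) := by
      refine le_trans ?_ g5
      rw [hA]; linarith
    have A2 : CR (KR W) + KR W + 3 * KR W ≤ ρ ^ (-ε) := by
      refine le_trans ?_ g5
      rw [hA]; linarith
    have A3 : CR (KR W) + KR W ^ 2 + KR W * CR (KR W) ≤ ρ ^ (-ε) := by
      refine le_trans ?_ g5
      rw [hA]; linarith
    have A4 : 3 + KR W ≤ ρ ^ (-ε) := by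
      refine le_trans ?_ g5
      rw [hA]; linarith
    have hA5 : KR W ≤ ρ ^ (-ε) := by linarith
    -- β of the two pairs
    have hbig : ∀ {c : ℝ} {v w : ℝ}, ρ ^ c * v ≤ |w| → 0 < v →
        ρ ^ (c + ε) * v ≤ |κ n| * |w| := by
      intro c v w h1 hv
      calc ρ ^ (c + ε) * v = ρ ^ ε * (ρ ^ c * v) := by rw [radd]; ring
        _ ≤ |κ n| * |w| := mul_le_mul gκ h1 (by have := hd c; positivity) (abs_nonneg _)
    refine ⟨k₀, i, coW (κ n) (f n (W.rep n i k₀)) (f n (W.rep n l k₀)) 6 /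
      (4 * κ n * coW (κ n) (f n (W.rep n i k₀)) (f n (W.rep n l k₀)) 2), P.image Prod.fst,
      ?_, ?_, hT.hi, ?_, ?_, ?_⟩
    · intro k hk
      obtain ⟨q, hqP, rfl⟩ := mem_image.1 hk
      exact (mem_product.1 (hPZ hqP)).1
    · refine le_trans ?_ (card_fst hPZ hcard (Z_nonempty H n))
      exact mul_le_mul_of_nonneg_right (hdn (by linarith)) (Nat.cast_nonneg _)
    · intro k hk
      obtain ⟨q, hqP, rfl⟩ := mem_image.1 hk
      exact (hq q hqP).1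
    · -- size of ψ
      have key := (YY_ratio R s9 s6 T9 T9' T6 xA xA yA yA rfl rfl (xz.trans yz.symm)
        (xz.trans yz.symm) (hd (x - C * ε)).le
        (hd (C * ε + ε)) (hT.sm 1 (by decide)) (hbig hT.big (sp 2))).2
      refine key.trans ?_
      refine mul_le_mul_of_nonneg_right ?_ (sp _).le
      have h1 : KR W ≤ ρ ^ (-ε) * ρ ^ (0 : ℝ) := by rw [Real.rpow_zero, mul_one]; exact hA5
      have h2 := quo (v := KR W) (A := ρ ^ (-ε)) (a := 0) (b := C * ε + ε) (e := ε) hρ0 hρ1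
        le_rfl h1
      exact h2.trans (hdn (by linarith))
    · intro k hk q hqV
      obtain ⟨p, hpP, rfl⟩ := mem_image.1 hk
      obtain ⟨p1, p2, p3, p4, p5, p6, p7⟩ := hq p hpP
      obtain ⟨xA', xl', xz'⟩ := rep_Aset hEC hcfg p1
      obtain ⟨yA', yl', yz'⟩ := rep_Aset hEC hcfg p2
      have r1 := (YY_ratio R s9 s6 T9 T9' T6 xA xA' yA yA' (xl.trans xl'.symm)
        (yl.trans yl'.symm) (xz.trans yz.symm) (xz'.trans yz'.symm) (hd (x - C * ε)).le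
        (hd (C * ε + ε)) (hT.sm 1 (by decide)) (hbig hT.big (sp 2))).1
      -- the second relation
      obtain ⟨i1, l1, c1, c2, hT'⟩ := gc k₀ p.1 p5
      obtain ⟨uA, ul, uz⟩ := rep_Aset hEC hcfg hT'.hi
      obtain ⟨vA, vl, vz⟩ := rep_Aset hEC hcfg hT'.hl
      obtain ⟨uA', ul', uz'⟩ := rep_Aset hEC hcfg c1
      obtain ⟨vA', vl', vz'⟩ := rep_Aset hEC hcfg c2
      have r2 := YY_r1 R s9 s6 T9 T9' uA uA' vA vA' (ul.trans ul'.symm) (vl.trans vl'.symm)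
        (uz.trans vz.symm) (uz'.trans vz'.symm) (hd (x - C' * ε)).le (hd (C' * ε + ε))
        (hT'.sm 2 (by decide)) (hT'.sm 6 (by decide)) (hbig hT'.big (sp 1))
      have r3 := YY_tr R s5 s7 s4 uA uA' xA xA' (ul.trans ul'.symm) (xl.trans xl'.symm)
        (uz.trans xz.symm) (uz'.trans xz'.symm) r2
      -- exponents
      have m1 : ((CR (KR W) + KR W) * ρ ^ (x - ε) + 6 * KR W ^ 2 * ρ ^ (x - C * ε)) /
          ρ ^ (C * ε + ε) ≤ ρ ^ (x - (2 * C + 2 * C' + 5) * ε) := by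
        have h1 : (CR (KR W) + KR W) * ρ ^ (x - ε) + 6 * KR W ^ 2 * ρ ^ (x - C * ε) ≤
            (CR (KR W) + KR W + 6 * KR W ^ 2) * ρ ^ (x - (C * ε + ε)) := by
          have a1 := mul_le_mul_of_nonneg_left (hdn (show x - (C * ε + ε) ≤ x - ε by linarith))
            (show 0 ≤ CR (KR W) + KR W by linarith)
          have a2 := mul_le_mul_of_nonneg_left
            (hdn (show x - (C * ε + ε) ≤ x - C * ε by linarith))
            (show 0 ≤ 6 * KR W ^ 2 by positivity)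
          linarith
        exact (quo hρ0 hρ1 A1 h1 (b := C * ε + ε)).trans (hdn (by linarith))
      have m2 : ((CR (KR W) + KR W) * ρ ^ (x - ε) + 3 * KR W * ρ ^ (x - C' * ε)) /
          ρ ^ (C' * ε + ε) ≤ ρ ^ (x - (2 * C + 2 * C' + 4) * ε) := by
        have h1 : (CR (KR W) + KR W) * ρ ^ (x - ε) + 3 * KR W * ρ ^ (x - C' * ε) ≤
            (CR (KR W) + KR W + 3 * KR W) * ρ ^ (x - (C' * ε + ε)) := by
          have a1 := mul_le_mul_of_nonneg_left (hdn (show x - (C' * ε + ε) ≤ x - ε by linarith))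
            (show 0 ≤ CR (KR W) + KR W by linarith)
          have a2 := mul_le_mul_of_nonneg_left
            (hdn (show x - (C' * ε + ε) ≤ x - C' * ε by linarith))
            (show 0 ≤ 3 * KR W by positivity)
          linarith
        exact (quo hρ0 hρ1 A2 h1 (b := C' * ε + ε)).trans (hdn (by linarith))
      have m3 : (CR (KR W) + KR W ^ 2 + KR W * CR (KR W)) * ρ ^ (x - ε) ≤
          ρ ^ (x - (2 * C + 2 * C' + 4) * ε) := by
        calc _ ≤ ρ ^ (-ε) * ρ ^ (x - ε) := mul_le_mul_of_nonneg_right A3 (hd _).le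
          _ = ρ ^ (-ε + (x - ε)) := (radd _ _).symm
          _ ≤ _ := hdn (by linarith)
      have m4 : ρ ^ (x - (2 * C + 2 * C' + 4) * ε) ≤ ρ ^ (x - (2 * C + 2 * C' + 5) * ε) :=
        hdn (by linarith)
      set e5 : ℝ := ρ ^ (x - (2 * C + 2 * C' + 5) * ε) with he5
      have r1' : |coW (κ n) (f n (W.rep n i k₀)) (f n (W.rep n i p.1)) 5 -
          coW (κ n) (f n (W.rep n i k₀)) (f n (W.rep n l k₀)) 6 /
          (4 * κ n * coW (κ n) (f n (W.rep n i k₀)) (f n (W.rep n l k₀)) 2) *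
          (2 * coW (κ n) (f n (W.rep n i k₀)) (f n (W.rep n i p.1)) 0)| ≤ e5 * sd W lam n 5 :=
        r1.trans (mul_le_mul_of_nonneg_right m1 (sp _).le)
      have r3' := r3.trans (mul_le_mul_of_nonneg_right
        (show _ ≤ e5 + e5 by linarith) (sp 7).le)
      have he0 : 0 < e5 := hd _
      have key := YY_fin R xA xA' he0.le (by linarith) r1' r3' q hqV
      refine key.trans (mul_le_mul_of_nonneg_right ?_ (sp _).le)
      calc e5 + KR W * e5 + (e5 + e5) = (3 + KR W) * e5 := by ring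
        _ ≤ ρ ^ (-ε) * e5 := mul_le_mul_of_nonneg_right A4 he0.le
        _ = ρ ^ (-ε + (x - (2 * C + 2 * C' + 5) * ε)) := (radd _ _).symm
        _ ≤ ρ ^ (x - (2 * C + 2 * C' + 6) * ε) := hdn (by linarith)

end

end Crest.Agent.R136.Res2648
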