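import Crest.Agent.R136.Qg3b_926
import Crest.Agent.R136.Res6_648
import Crest.Agent.R136.RnL_648
import Crest.Agent.R136.Bas2_938
import Crest.Agent.R136.Qg7_926
import Crest.Agent.R136.Gau1_66

-- ▼ part R136/Inv1_599
section

/-!
# R136 (helper599): level slots which are constant along the fat lines

* `const_part` : finite lemma, the most popular code of every line.
* `EOk.exists_const` : in a window, if `lam top ≤ lam c + lam (lev)` (narrowing the box of a fat line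
  from `cut S top 0` to `c` costs nothing), a dense part of `E` has one `c`-label on every fat line.
-/

set_option autoImplicit false
set_option linter.unusedSectionVars false
set_option linter.unusedVariables false

open Filter Topology

namespace Crest.Agent.R136.Inv599

open Finset Crest.Agent.R138.Ex926 Crest.Agent.R136.Net191 Crest.Agent.R136.Gf356
open Crest.Agent.R136.Qg926

/-! ### finite lemma -/

/-- pairs in one fibre -/
theorem sq_pairs {α β : Type*} [DecidableEq α] [DecidableEq β] (T : Finset α) (f : α → β) :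
    (T.card : ℝ) ^ 2 ≤ ((T.image f).card : ℝ) *
      (((T ×ˢ T).filter fun q => f q.1 = f q.2).card : ℝ) := by
  have h1 : (T.card : ℝ) = ∑ c ∈ T.image f, ((T.filter fun i => f i = c).card : ℝ) := by
    have : T.card = ∑ c ∈ T.image f, (T.filter fun i => f i = c).card :=
      Finset.card_eq_sum_card_fiberwise fun i hi => Finset.mem_image_of_mem _ hi
    exact_mod_cast this
  have h2 := sq_sum_le_card_mul_sum_sq (s := T.image f)
    (f := fun c => ((T.filter fun i => f i = c).card : ℝ))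
  rw [← h1] at h2
  refine h2.trans (mul_le_mul_of_nonneg_left ?_ (Nat.cast_nonneg _))
  have h3 : ((T ×ˢ T).filter fun q => f q.1 = f q.2).card =
      ∑ c ∈ T.image f, (((T ×ˢ T).filter fun q => f q.1 = f q.2).filter
        fun q => f q.1 = c).card :=
    Finset.card_eq_sum_card_fiberwise fun q hq =>
      Finset.mem_image_of_mem _ (mem_product.1 (mem_filter.1 hq).1).1
  rw [h3]
  push_cast
  refine sum_le_sum fun c hc => ?_
  have h4 : (T.filter fun i => f i = c) ×ˢ (T.filter fun i => f i = c) ⊆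
      ((T ×ˢ T).filter fun q => f q.1 = f q.2).filter fun q => f q.1 = c := by
    intro q hq
    obtain ⟨a, b⟩ := mem_product.1 hq
    obtain ⟨a1, a2⟩ := mem_filter.1 a
    obtain ⟨b1, b2⟩ := mem_filter.1 b
    exact mem_filter.2 ⟨mem_filter.2 ⟨mem_product.2 ⟨a1, b1⟩, a2.trans b2.symm⟩, a2⟩
  have h5 := card_le_card h4
  rw [card_product] at h5
  have h6 : (((T.filter fun i => f i = c).card * (T.filter fun i => f i = c).card : ℕ) : ℝ) ≤
      ((((T ×ˢ T).filter fun q => f q.1 = f q.2).filter fun q => f q.1 = c).card : ℝ) := by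
    exact_mod_cast h5
  rw [Nat.cast_mul] at h6
  rw [sq]
  exact h6

/-- **the most popular code on every line** -/
theorem const_part {α : Type*} [DecidableEq α] (E : Finset α) (l f : α → ℕ) {M : ℝ}
    (hM : ∀ i ∈ E, ((cls E l i).card : ℝ) ≤ M) :
    ∃ E₁ ⊆ E, (∀ i ∈ E₁, ∀ j ∈ E₁, l i = l j → f i = f j) ∧
      (E.card : ℝ) ^ 2 ≤ ((E.image fun i => (l i, f i)).card : ℝ) * (M * E₁.card) := by
  classical
  rcases E.eq_empty_or_nonempty with rfl | hne
  · exact ⟨∅, Subset.refl _, by simp, by simp⟩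
  obtain ⟨i₀, hi₀⟩ := hne
  have hb : ∀ a : ℕ, ∃ b : ℕ, ∀ b', (E.filter fun i => l i = a ∧ f i = b').card ≤
      (E.filter fun i => l i = a ∧ f i = b).card := by
    intro a
    obtain ⟨x, hx, hmax⟩ := exists_max_image E
      (fun x => (E.filter fun i => l i = a ∧ f i = f x).card) ⟨i₀, hi₀⟩
    refine ⟨f x, fun b' => ?_⟩
    rcases (E.filter fun i => l i = a ∧ f i = b').eq_empty_or_nonempty with h0 | ⟨y, hy⟩
    · rw [h0]; exact Nat.zero_le _
    · obtain ⟨hyE, -, hyb⟩ := mem_filter.1 hy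
      have := hmax y hyE
      rw [hyb] at this
      exact this
  choose b hb using hb
  refine ⟨E.filter fun i => f i = b (l i), filter_subset _ _, ?_, ?_⟩
  · intro i hi j hj hl
    rw [(mem_filter.1 hi).2, (mem_filter.1 hj).2, hl]
  · set E₁ := E.filter fun i => f i = b (l i) with hE₁
    refine (sq_pairs E fun i => (l i, f i)).trans (mul_le_mul_of_nonneg_left ?_ (Nat.cast_nonneg _))
    -- the pairs, first for fixed first entry
    have h1 : ((E ×ˢ E).filter fun q => (l q.1, f q.1) = (l q.2, f q.2)).card ≤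
        ((E ×ˢ E₁).filter fun q => l q.1 = l q.2).card := by
      have e1 : ((E ×ˢ E).filter fun q => (l q.1, f q.1) = (l q.2, f q.2)).card =
          ∑ i ∈ E, (E.filter fun j => l j = l i ∧ f j = f i).card := by
        rw [card_eq_sum_card_fiberwise (f := Prod.fst) (t := E) fun q hq =>
          (mem_product.1 (mem_filter.1 hq).1).1]
        refine sum_congr rfl fun i hi => ?_
        refine card_bij (fun q _ => q.2) ?_ ?_ ?_
        · intro q hq
          obtain ⟨q1, q2⟩ := mem_filter.1 hq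
          obtain ⟨q3, q4⟩ := mem_filter.1 q1
          have q5 := Prod.mk.inj q4
          refine mem_filter.2 ⟨(mem_product.1 q3).2, ?_, ?_⟩
          · rw [← q5.1, q2]
          · rw [← q5.2, q2]
        · intro q hq q' hq' he
          have h2 := (mem_filter.1 hq).2
          have h3 := (mem_filter.1 hq').2
          exact Prod.ext (h2.trans h3.symm) he
        · intro j hj
          obtain ⟨j1, j2, j3⟩ := mem_filter.1 hj
          exact ⟨(i, j), mem_filter.2 ⟨mem_filter.2 ⟨mem_product.2 ⟨hi, j1⟩, by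
            simp only [j2, j3]⟩, rfl⟩, rfl⟩
      have e2 : ((E ×ˢ E₁).filter fun q => l q.1 = l q.2).card =
          ∑ i ∈ E, (E.filter fun j => l j = l i ∧ f j = b (l i)).card := by
        rw [card_eq_sum_card_fiberwise (f := Prod.fst) (t := E) fun q hq =>
          (mem_product.1 (mem_filter.1 hq).1).1]
        refine sum_congr rfl fun i hi => ?_
        refine card_bij (fun q _ => q.2) ?_ ?_ ?_
        · intro q hq
          obtain ⟨q1, q2⟩ := mem_filter.1 hq
          obtain ⟨q3, q4⟩ := mem_filter.1 q1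
          obtain ⟨q5, q6⟩ := mem_filter.1 (mem_product.1 q3).2
          refine mem_filter.2 ⟨q5, ?_, ?_⟩
          · rw [← q4, q2]
          · rw [q6, ← q4, q2]
        · intro q hq q' hq' he
          have h2 := (mem_filter.1 hq).2
          have h3 := (mem_filter.1 hq').2
          exact Prod.ext (h2.trans h3.symm) he
        · intro j hj
          obtain ⟨j1, j2, j3⟩ := mem_filter.1 hj
          exact ⟨(i, j), mem_filter.2 ⟨mem_filter.2 ⟨mem_product.2 ⟨hi, mem_filter.2 ⟨j1, by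
            rw [j3, j2]⟩⟩, j2.symm⟩, rfl⟩, rfl⟩
      rw [e1, e2]
      exact sum_le_sum fun i hi => hb (l i) (f i)
    have h2 : (((E ×ˢ E₁).filter fun q => l q.1 = l q.2).card : ℝ) ≤ M * E₁.card := by
      have e1 : ((E ×ˢ E₁).filter fun q => l q.1 = l q.2).card =
          ∑ j ∈ E₁, (cls E l j).card := by
        rw [card_eq_sum_card_fiberwise (f := Prod.snd) (t := E₁) fun q hq =>
          (mem_product.1 (mem_filter.1 hq).1).2]
        refine sum_congr rfl fun j hj => ?_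
        refine card_bij (fun q _ => q.1) ?_ ?_ ?_
        · intro q hq
          obtain ⟨q1, q2⟩ := mem_filter.1 hq
          obtain ⟨q3, q4⟩ := mem_filter.1 q1
          exact mem_cls.2 ⟨(mem_product.1 q3).1, by rw [q4, q2]⟩
        · intro q hq q' hq' he
          have h2 := (mem_filter.1 hq).2
          have h3 := (mem_filter.1 hq').2
          exact Prod.ext he (h2.trans h3.symm)
        · intro i hi
          obtain ⟨i1, i2⟩ := mem_cls.1 hi
          exact ⟨(i, j), mem_filter.2 ⟨mem_filter.2 ⟨mem_product.2 ⟨i1, hj⟩, i2⟩, rfl⟩, rfl⟩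
      rw [e1]
      push_cast
      calc ∑ j ∈ E₁, ((cls E l j).card : ℝ) ≤ ∑ j ∈ E₁, M :=
            sum_le_sum fun j hj => hM j (filter_subset _ _ hj)
        _ = M * E₁.card := by rw [sum_const, nsmul_eq_mul]; ring
    have h3 : (((E ×ˢ E).filter fun q => (l q.1, f q.1) = (l q.2, f q.2)).card : ℝ) ≤
        (((E ×ˢ E₁).filter fun q => l q.1 = l q.2).card : ℝ) := by exact_mod_cast h1
    exact h3.trans h2

/-! ### in the window -/

section window

open Crest.Agent.R136.Qg926.Wnd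

variable {m : ℕ} {ι : ℕ → Type*} [∀ n, DecidableEq (ι n)] {W : Wnd m ι}
  {E : ∀ n, Finset (ι n)} {Mu : ℕ → ℝ}

/-- **one `c`-label on every fat line**: a dense part, if narrowing the box of a fat line from
`cut S top 0` to `c` costs nothing -/
theorem exists_const (h : W.Ok) (hE : EOk W E Mu) {c : Fin m → ℝ} (hc : c ∈ Leg W.Mw W.R')
    (hcl : cut W.S W.top 0 ≤ c)
    (H : W.lam W.top ≤ W.lam c + W.lam (cut W.S 0 W.top)) :
    ∃ E₁ : ∀ n, Finset (ι n), (∀ n, E₁ n ⊆ E n) ∧ EOk W E₁ Mu ∧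
      (∀ ε : ℝ, 0 < ε → ∀ᶠ n in (U : Filter ℕ),
        W.B'.d n ^ ε * ((E n).card : ℝ) ≤ ((E₁ n).card : ℝ)) ∧
      ∀ n, ∀ i ∈ E₁ n, ∀ j ∈ E₁ n, W.lc n i = W.lc n j →
        enc (W.I n) (W.lab n c i) = enc (W.I n) (W.lab n c j) := by
  classical
  have hN := h.N_pos h.K0_one
  -- the bound of the lines
  have hmain : ∀ n, ∃ E₁ ⊆ E n, (∀ i ∈ E₁, ∀ j ∈ E₁, W.lc n i = W.lc n j →
      enc (W.I n) (W.lab n c i) = enc (W.I n) (W.lab n c j)) ∧
      ∀ M : ℝ, (∀ i ∈ E n, ((cls (E n) (W.lc n) i).card : ℝ) ≤ M) → ((E n).card : ℝ) ^ 2 ≤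
        (((E n).image fun i => (W.lc n i, enc (W.I n) (W.lab n c i))).card : ℝ) *
          (M * E₁.card) := by
    intro n
    rcases (E n).eq_empty_or_nonempty with h0 | hne
    · refine ⟨∅, Finset.empty_subset _, by simp, fun M _ => ?_⟩
      rw [h0]; simp
    · obtain ⟨x, hx, hmax⟩ := exists_max_image (E n)
        (fun i => (cls (E n) (W.lc n) i).card) hne
      obtain ⟨E₁, h1, h2, h3⟩ := const_part (E n) (W.lc n)
        (fun i => enc (W.I n) (W.lab n c i)) (M := ((cls (E n) (W.lc n) x).card : ℝ))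
        (fun i hi => by exact_mod_cast hmax i hi)
      refine ⟨E₁, h1, h2, fun M hM => h3.trans ?_⟩
      exact mul_le_mul_of_nonneg_left (mul_le_mul_of_nonneg_right (hM x hx) (Nat.cast_nonneg _))
        (Nat.cast_nonneg _)
  choose E₁ hsub hconst hcard using hmain
  have hd : ∀ ε : ℝ, 0 < ε → ∀ᶠ n in (U : Filter ℕ),
      W.B'.d n ^ ε * ((E n).card : ℝ) ≤ ((E₁ n).card : ℝ) := by
    intro ε hε
    have hε8 : 0 < ε / 8 := by positivity
    filter_upwards [h.ev_good, hE.sub, h.card_lab_le hε8, h.card_zc_le hε8, hE.mult _ hε8,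
      hE.big _ hε8, ev_const_le W.B' hN hε8] with n hg hEC h1 h2 h3 h4 h5
    have hpos : ∀ t : ℝ, 0 < W.B'.d n ^ t := fun t => Real.rpow_pos_of_pos (W.B'.pos n) t
    have radd : ∀ u v : ℝ, W.B'.d n ^ (u + v) = W.B'.d n ^ u * W.B'.d n ^ v := fun u v =>
      Real.rpow_add (W.B'.pos n) u v
    have hMu := hE.pos n
    -- number of pairs (line, label)
    have c1 : (((E n).image fun i => (W.lc n i, enc (W.I n) (W.lab n c i))).card : ℝ) ≤
        W.N W.K0 * W.B'.d n ^ (W.lam c - ε / 8) := by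
      have e1 : (((E n).image fun i => (W.lc n i, enc (W.I n) (W.lab n c i))).card : ℝ) ≤
          W.N W.K0 * ((E n).image (W.lab n c)).card := by
        refine card_image_le_mul (E n) _ _ fun x hx => ?_
        set O := cls (E n) (W.lab n c) x with hO
        have hOI : O ⊆ W.I n := (cls_subset _ _ _).trans (hEC.trans hg.clI)
        have e2 : ((O.image (W.lab n (cut W.S W.top 0))).card : ℝ) ≤ W.N W.K0 :=
          h.card_lab_box hg h.lin_leg hcl h.K0_one hOI (hg.clI (hEC hx)) fun j hj =>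
            h.near_lab hg hc (hg.clI (hEC hx)) (hOI hj) (mem_cls.1 hj).2.symm
        refine le_trans ?_ e2
        have e3 : (O.image fun i => (W.lc n i, enc (W.I n) (W.lab n c i))) =
            (O.image (W.lc n)).image fun k => (k, enc (W.I n) (W.lab n c x)) := by
          rw [image_image]
          refine image_congr fun j hj => ?_
          have : W.lab n c j = W.lab n c x := (mem_cls.1 (Finset.mem_coe.1 hj)).2
          simp only [Function.comp, this]
        rw [e3]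
        have e4 := card_enc_image (W.I n) (W.lab n (cut W.S W.top 0)) O
        exact_mod_cast card_image_le.trans e4
      exact e1.trans (mul_le_mul_of_nonneg_left (h1 c hc (E n) hEC) hN.le)
    -- mass of a line
    have c2 : ∀ i ∈ E n, ((cls (E n) (W.lc n) i).card : ℝ) ≤
        Mu n * W.B'.d n ^ (-(ε / 8)) * W.B'.d n ^ (W.lam (cut W.S 0 W.top) - ε / 8) := by
      intro x hx
      set A := cls (E n) (W.lc n) x with hA
      have hAE : A ⊆ E n := cls_subset _ _ _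
      have d1 : (A.card : ℝ) ≤ Mu n * W.B'.d n ^ (-(ε / 8)) * (A.image (W.zc n)).card := by
        refine card_le_mult (W := W) (fun i hi => ?_) _ (fun i hi j hj he => ?_)
        · refine le_trans ?_ (h3 i (hAE hi))
          exact_mod_cast card_le_card (cls_mono hAE _ _)
        · have e1 := (mem_cls.1 hi).2.trans (mem_cls.1 hj).2.symm
          unfold pc
          rw [e1, he]
      refine d1.trans (mul_le_mul_of_nonneg_left (h2 A (hAE.trans hEC)) ?_)
      exact (mul_pos hMu (hpos _)).le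
    have c3 := hcard n _ c2
    have hE0 : 0 < ((E n).card : ℝ) := lt_of_lt_of_le (mul_pos hMu (hpos _)) h4
    have hE1 : (0 : ℝ) ≤ (E₁ n).card := Nat.cast_nonneg _
    have c4 : ((E n).card : ℝ) ^ 2 ≤ (W.B'.d n ^ (-(ε / 8)) * W.B'.d n ^ (W.lam c - ε / 8)) *
        (Mu n * W.B'.d n ^ (-(ε / 8)) * W.B'.d n ^ (W.lam (cut W.S 0 W.top) - ε / 8) *
          (E₁ n).card) := by
      refine c3.trans (mul_le_mul_of_nonneg_right (c1.trans ?_) ?_)
      · exact mul_le_mul_of_nonneg_right h5 (hpos _).le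
      · have := hpos (-(ε / 8))
        have := hpos (W.lam (cut W.S 0 W.top) - ε / 8)
        positivity
    have c5 : W.B'.d n ^ ε * ((E n).card : ℝ) * (Mu n * W.B'.d n ^ (W.lam W.top + ε / 8)) ≤
        W.B'.d n ^ ε * ((E n).card : ℝ) ^ 2 := by
      have e1 : W.B'.d n ^ ε * ((E n).card : ℝ) ^ 2 =
          W.B'.d n ^ ε * ((E n).card : ℝ) * ((E n).card : ℝ) := by rw [sq]; ring
      rw [e1]
      exact mul_le_mul_of_nonneg_left h4 (mul_pos (hpos _) hE0).le
    have c6 : W.B'.d n ^ ε * ((E n).card : ℝ) ^ 2 ≤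
        (Mu n * W.B'.d n ^ (W.lam W.top + ε / 8)) * (E₁ n).card := by
      refine (mul_le_mul_of_nonneg_left c4 (hpos ε).le).trans ?_
      have e1 : W.B'.d n ^ ε * ((W.B'.d n ^ (-(ε / 8)) * W.B'.d n ^ (W.lam c - ε / 8)) *
          (Mu n * W.B'.d n ^ (-(ε / 8)) * W.B'.d n ^ (W.lam (cut W.S 0 W.top) - ε / 8) *
          (E₁ n).card)) = (Mu n * W.B'.d n ^ (ε + -(ε / 8) + (W.lam c - ε / 8) + -(ε / 8) +
            (W.lam (cut W.S 0 W.top) - ε / 8))) * (E₁ n).card := by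
        rw [radd, radd, radd, radd]; ring
      rw [e1]
      refine mul_le_mul_of_nonneg_right (mul_le_mul_of_nonneg_left ?_ hMu.le) hE1
      exact Real.rpow_le_rpow_of_exponent_ge (W.B'.pos n) (W.B'.lt n).le (by linarith)
    have c7 := c5.trans c6
    have hq : 0 < Mu n * W.B'.d n ^ (W.lam W.top + ε / 8) := mul_pos hMu (hpos _)
    have c8 : (Mu n * W.B'.d n ^ (W.lam W.top + ε / 8)) * (W.B'.d n ^ ε * ((E n).card : ℝ)) ≤
        (Mu n * W.B'.d n ^ (W.lam W.top + ε / 8)) * (E₁ n).card := by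
      rw [mul_comm]; exact c7
    exact le_of_mul_le_mul_left c8 hq
  exact ⟨E₁, hsub, hE.refine (Eventually.of_forall hsub) hd, hd, fun n => hconst n⟩

end window

end Crest.Agent.R136.Inv599
end

-- ▼ part R136/Inv2_599
section

/-!
# R136 (helper599): `WinD` of the wall resonances without the hypothesis `inv`

* `inv_of_const` : if a set of incidences has one `c`-label on every fat line, the own motion of the
  level slots resolved by `c` is `≤ ρ^(x - ε)`.
* `lowV W V` : resolution of a fat line with narrow level slots except `z` and the slots of `V`.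
* **`exists_winD`** : any `E` with `EOk` contains a dense `E₁` with `WinD` (all fields), if
  `lam top ≤ lam (lowV V) + lam (lev)`.
-/

set_option autoImplicit false
set_option linter.unusedSectionVars false
set_option linter.unusedVariables false

open Filter Topology

namespace Crest.Agent.R136.Inv599

open Finset Crest.Agent.R136.NetW191 Crest.Agent.R136.Net191 Crest.Agent.R136.Qg926
open Crest.Agent.R136.EvW938 Crest.Agent.R136.Gf356 Crest.Agent.R136.Res2648
open Crest.Agent.R138.Ex926 (Base U)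

variable {ι : ℕ → Type*} [∀ n, DecidableEq (ι n)]
variable {W : Wnd 18 ι} {κ : ℕ → ℝ} {lam : ℕ → Fin 18 → ℝ} {f : ∀ n, ι n → FW}
  {V : Finset (Fin 14)} {x σ : ℝ} {E E₁ : ∀ n, Finset (ι n)} {Mu : ℕ → ℝ}

/-- **own motion of the level slots resolved by `c`** -/
theorem inv_of_const (h : WWnd W κ lam f) (hE : Wnd.EOk W E Mu) {c : Fin 18 → ℝ}
    (hc : c ∈ Leg W.Mw W.R') (hx : 0 < x) (top : ∀ s, x ≤ W.top s)
    (hconst : ∀ n, ∀ i ∈ E n, ∀ j ∈ E n, W.lc n i = W.lc n j →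
      enc (W.I n) (W.lab n c i) = enc (W.I n) (W.lab n c j)) {ε : ℝ} (hε : 0 < ε) :
    ∀ᶠ n in (U : Filter ℕ), ∀ i k k', (i, k) ∈ (W.cfg E n).I → (i, k') ∈ (W.cfg E n).I →
      ∀ q : Fin 14, x ≤ c (Fin.natAdd 4 q) →
      |ownC W n i k k' (Fin.natAdd 4 q)| ≤ W.B'.d n ^ (x - ε) := by
  have hne : ∀ᶠ n in (U : Filter ℕ), (E n).Nonempty := by
    filter_upwards [hE.big 1 one_pos] with n h1
    rw [← card_pos]
    have h2 : (0 : ℝ) < (E n).card :=
      lt_of_lt_of_le (mul_pos (hE.pos n) (Real.rpow_pos_of_pos (W.B'.pos n) _)) h1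
    exact_mod_cast h2
  have hkap : ∀ᶠ n in (U : Filter ℕ), ∀ s : Fin 18,
      (W.K0 + (W.K0 + 940 * W.K0 ^ 7)) / W.kap s ≤ W.B'.d n ^ (-ε) := by
    rw [Filter.eventually_all]
    intro s
    exact ev_const_le W.B' hε _
  filter_upwards [h.ok.ev_good, hE.sub, hne, hkap] with n hg hEC hn hk i k k' hi hi' q hq
  have hK0 := h.ok.K0_one
  set ρ := W.B'.d n with hρ
  have hd : ∀ u : ℝ, 0 < ρ ^ u := fun u => rpos W.B' n u
  have hdn : ∀ {u v : ℝ}, u ≤ v → ρ ^ v ≤ ρ ^ u := fun {u v} h' => rpow_anti W.B' n h'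
  have hτ1 : ρ ^ x ≤ 1 := Real.rpow_le_one (W.B'.pos n).le (W.B'.lt n).le hx.le
  have sp := h.sd_pos n
  rw [Wnd.cfg_eq hEC hg.clI hn] at hi hi'
  obtain ⟨y, hy, e1, e2⟩ := Wnd.mem_I.1 hi
  obtain ⟨y', hy', e1', e2'⟩ := Wnd.mem_I.1 hi'
  have yC := hEC hy
  have yC' := hEC hy'
  obtain ⟨r1, r2, r3⟩ := W.rep_spec yC
  obtain ⟨r1', r2', r3'⟩ := W.rep_spec yC'
  rw [e1, e2] at r1 r2 r3
  rw [e1', e2'] at r1' r2' r3'
  have hbx : ∀ a ∈ W.Cl n, ∀ b ∈ W.Cl n, W.lc n a = W.lc n b → W.zc n a = W.zc n b →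
      ∀ s, |coW (κ n) (f n a) (f n b) s| ≤ W.K0 * ρ ^ x * sd W lam n s := by
    intro a ha b hb u1 u2 s
    by_cases hs : s ∈ W.S
    · exact h.lev_small hg ha hb u2 hs (top s)
    · exact h.own_small hg ha hb u1 hs (top s)
  have k1 := own_rep (h.hκ n) (h.sides hg) hK0 (hd x).le hτ1
    (hbx y yC _ r1 (e1.trans r2.symm) (e2.trans r3.symm))
    (hbx y' yC' _ r1' (e1'.trans r2'.symm) (e2'.trans r3'.symm))
    (h.bnd hg yC yC') (h.bnd hg r1 r1') q
  -- the motion between `y` and `y'`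
  have hlab : W.lab n c y = W.lab n c y' :=
    enc_inj (h.ok.lab_mem hg hc (hg.clI yC)) (h.ok.lab_mem hg hc (hg.clI yC'))
      (hconst n y hy y' hy' (e1.trans e1'.symm))
  have k2 := h.ok.near_lab hg hc (hg.clI yC) (hg.clI yC') hlab (Fin.natAdd 4 q)
  have k3 : |coW (κ n) (f n y) (f n y') (Fin.natAdd 4 q)| ≤
      W.K0 * ρ ^ x * sd W lam n (Fin.natAdd 4 q) := by
    refine h.abs_co hg yC yC' (k2.trans ?_)
    have h2 := mul_le_mul_of_nonneg_left (hdn hq)
      (mul_pos (show (0 : ℝ) < W.K0 by linarith)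
        (Real.rpow_pos_of_pos (W.B.pos n) (W.X n (Fin.natAdd 4 q)))).le
    calc _ = W.K0 * W.B.d n ^ W.X n (Fin.natAdd 4 q) * ρ ^ c (Fin.natAdd 4 q) := by ring
      _ ≤ _ := h2
      _ = _ := by ring
  have k4 := abs_add_le (coW (κ n) (f n (W.rep n i k)) (f n (W.rep n i k')) (Fin.natAdd 4 q) -
    coW (κ n) (f n y) (f n y') (Fin.natAdd 4 q)) (coW (κ n) (f n y) (f n y') (Fin.natAdd 4 q))
  rw [sub_add_cancel] at k4
  have k5 : |coW (κ n) (f n (W.rep n i k)) (f n (W.rep n i k')) (Fin.natAdd 4 q)| ≤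
      ((W.K0 + (W.K0 + 940 * W.K0 ^ 7)) * ρ ^ x) * sd W lam n (Fin.natAdd 4 q) := by
    refine k4.trans ((add_le_add k1 k3).trans (le_of_eq ?_))
    ring
  rw [h.crd_eq hg r1 r1'] at k5
  have k6 := h.norm_le k5
  rw [mul_div_cancel_left₀ _ (h.un_pos n _).ne'] at k6
  refine k6.trans ?_
  calc (W.K0 + (W.K0 + 940 * W.K0 ^ 7)) * ρ ^ x / W.kap (Fin.natAdd 4 q)
      = (W.K0 + (W.K0 + 940 * W.K0 ^ 7)) / W.kap (Fin.natAdd 4 q) * ρ ^ x := by ring
    _ ≤ ρ ^ (-ε) * ρ ^ x := mul_le_mul_of_nonneg_right (hk _) (hd _).le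
    _ = ρ ^ (-ε + x) := (Real.rpow_add (W.B'.pos n) _ _).symm
    _ = ρ ^ (x - ε) := by congr 1; ring

/-- resolution of a fat line with narrow level slots, except `z` and the slots of `V` -/
def lowV (W : Wnd 18 ι) (V : Finset (Fin 14)) : Fin 18 → ℝ := fun s =>
  if s = 0 ∨ ∃ q ∈ V, s = Fin.natAdd 4 q then 0 else W.top s

theorem lowV_of {s : Fin 18} (h0 : s ≠ 0) (hV : ∀ q ∈ V, s ≠ Fin.natAdd 4 q) :
    lowV W V s = W.top s := by
  unfold lowV
  rw [if_neg]
  push Not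
  exact ⟨h0, hV⟩

/-- **`WinD` for a dense part of any set of incidences** -/
theorem exists_winD (h : WWnd W κ lam f) (hE : Wnd.EOk W E Mu) (x_pos : 0 < x) (σ0 : 0 < σ)
    (σ1 : σ ≤ 1) (hV : ∀ q ∈ V, Fin.natAdd 4 q ∈ W.S) (top : ∀ s, x ≤ W.top s)
    (dens : W.lam W.top ≤ W.lam (cut W.S W.top 0) + W.lam (cut W.S 0 W.top))
    (frost : ∀ y : ℝ, 0 ≤ y → y ≤ x → W.lam (Pi.single 0 y) ≤ -(σ * y))
    (kap : ∀ ε : ℝ, 0 < ε → ∀ᶠ n in (U : Filter ℕ), W.B'.d n ^ ε ≤ |κ n|)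
    (lowl : lowV W V ∈ Leg W.Mw W.R')
    (own : W.lam W.top ≤ W.lam (lowV W V) + W.lam (cut W.S 0 W.top)) :
    ∃ E₁ : ∀ n, Finset (ι n), (∀ n, E₁ n ⊆ E n) ∧ Wnd.EOk W E₁ Mu ∧
      (∀ ε : ℝ, 0 < ε → ∀ᶠ n in (U : Filter ℕ),
        W.B'.d n ^ ε * ((E n).card : ℝ) ≤ ((E₁ n).card : ℝ)) ∧
      WinD W κ lam f V E₁ x σ := by
  have hle : cut W.S W.top 0 ≤ lowV W V := by
    intro s
    by_cases hs : s ∈ W.S
    · rw [cut_of_mem hs]
      unfold lowV
      split_ifs
      · exact le_rfl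
      · exact h.ok.top_leg.1.nonneg s
    · rw [cut_of_notMem hs, lowV_of]
      · rintro rfl; exact hs h.h0
      · rintro q hq rfl; exact hs (hV q hq)
  obtain ⟨E₁, h1, h2, h3, h4⟩ := exists_const h.ok hE lowl hle own
  refine ⟨E₁, h1, h2, h3,
    { x_pos := x_pos, σ0 := σ0, σ1 := σ1, hV := hV, top := top, dens := dens, frost := frost
      kap := kap, inv := fun ε hε => ?_ }⟩
  filter_upwards [inv_of_const h h2 lowl x_pos top h4 hε] with n h5 i k k' hi hi' s hs hs0 hsV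
  obtain ⟨q, rfl⟩ : ∃ q : Fin 14, s = Fin.natAdd 4 q := by
    induction s using Fin.addCases (m := 4) (n := 14) with
    | left p =>
      exfalso
      fin_cases p
      · exact hs0 rfl
      · exact h.n1 hs
      · exact h.n2 hs
      · exact h.n3 hs
    | right q => exact ⟨q, rfl⟩
  refine h5 i k k' hi hi' q ?_
  rw [lowV_of hs0 hsV]
  exact top _

end Crest.Agent.R136.Inv599
end

-- ▼ part R136/Int1_599
section

/-!
# R136 (helper599): the wall resonances in an interior window of a `ZWin`, part 1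

* `OkD Dd n` : the integer vector `n` is a direction of the cone of the active walls (slots of `Dd`
  dropped), decidable.
* `iw` : the window of resolution `x` in every slot on the class of `s₀` in `Gd`.
* `iw_winD`, `iw_rate` : `WinD`, `Rate` of 648 from the numbers `NumW`, `NumR` (RnL_648).
-/

set_option autoImplicit false
set_option linter.unusedVariables false
set_option linter.unusedSectionVars false

open Filter Topology

namespace Crest.Agent.R136.Int599

open Finset Crest.Agent.R136.NetW191 Crest.Agent.R136.Net191 Crest.Agent.R136.Qg926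
open Crest.Agent.R136.EvW938 Crest.Agent.R136.Bas938 Crest.Agent.R136.Gf356
open Crest.Agent.R136.Aw413 Crest.Agent.R136.Dg219
open Crest.Agent.R136.Res2648 Crest.Agent.R136.Inv599
open Crest.Agent.R136.Rnl648 (S0 NumW NumR)
open Crest.Agent.R138.Ex926 (Base U cls)

/-! ### boxes -/

/-- indicator -/
def ind (T : Finset (Fin 18)) : Fin 18 → ℕ := fun k => if k ∈ T then 1 else 0

theorem scV_ind (T : Finset (Fin 18)) (y : ℝ) : scV y (ind T) = bxs T y := by
  funext k
  unfold scV ind bxs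
  split_ifs <;> simp

theorem scV_one (y : ℝ) : scV y (fun _ => 1) = fun _ => y := by
  funext k; simp [scV]

theorem scV_nil (y : ℝ) : scV y (fun _ => 0) = 0 := by
  funext k; simp [scV]

/-- direction of the cone of the walls without the slots `Dd` -/
def OkD (Dd : Finset (Fin 18)) (n : Fin 18 → ℕ) : Prop :=
  ∀ k, ∀ l ∈ mlW k, k ∈ Dd ∨ (∃ s ∈ l, s ∈ Dd) ∨ n k ≤ (l.map n).sum

instance (Dd : Finset (Fin 18)) (n : Fin 18 → ℕ) : Decidable (OkD Dd n) := by
  unfold OkD; infer_instance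

theorem cone_scV {Ma : Mons 18} {Dr : Set (Fin 18)} (hA : ActM Ma Dr) {Dd : Finset (Fin 18)}
    (hD : ∀ s ∈ Dd, s ∈ Dr) {n n' : Fin 18 → ℕ} (h : OkD Dd n) (h' : OkD Dd n') {α β : ℝ}
    (hα : 0 ≤ α) (hβ : 0 ≤ β) : scV α n + scV β n' ∈ coneM Ma := by
  rw [hA.cone]
  intro k hk l hl hls
  rw [sum_add', sum_scV, sum_scV]
  have hn : ∀ n : Fin 18 → ℕ, OkD Dd n → (n k : ℝ) ≤ ((l.map n).sum : ℕ) := by
    intro n h
    rcases h k l hl with h1 | ⟨s, h1, h2⟩ | h1
    · exact absurd (hD k h1) hk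
    · exact absurd (hD s h2) (hls s h1)
    · exact_mod_cast h1
  exact add_le_add (mul_le_mul_of_nonneg_left (hn n h) hα) (mul_le_mul_of_nonneg_left (hn n' h') hβ)

/-- `update` as a sum -/
theorem upd_scV {T : Finset (Fin 18)} {a : Fin 18} (ha : a ∉ T) (y t : ℝ) :
    scV t (ind (insert a T)) + scV (y - t) (ind T) = Function.update (bxs T y) a t := by
  funext k
  rw [Pi.add_apply]
  by_cases hk : k = a
  · subst hk
    rw [Function.update_self]
    simp [scV, ind, ha]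
  · rw [Function.update_of_ne hk]
    unfold scV ind bxs
    by_cases hT : k ∈ T
    · rw [if_pos (mem_insert_of_mem hT), if_pos hT, if_pos hT]; push_cast; ring
    · rw [if_neg (by simp [hk, hT]), if_neg hT, if_neg hT]; simp

theorem cut_bxs (S T : Finset (Fin 18)) (y : ℝ) : cut S (bxs T y) (fun _ => y) = bxs (S ∪ T) y := by
  funext k
  by_cases hk : k ∈ S
  · rw [cut_of_mem hk]; exact (if_pos (mem_union_left _ hk)).symm
  · rw [cut_of_notMem hk]
    unfold bxs
    by_cases hT : k ∈ T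
    · rw [if_pos hT, if_pos (mem_union_right _ hT)]
    · rw [if_neg hT, if_neg (by simp [hk, hT])]

theorem cut_upd {S T : Finset (Fin 18)} {a : Fin 18} (ha : a ∉ S) (y t : ℝ) :
    cut S (Function.update (bxs T y) a t) (fun _ => y) =
      Function.update (bxs (S ∪ T) y) a t := by
  rw [← cut_bxs]
  funext k
  by_cases hk : k = a
  · subst hk
    rw [cut_of_notMem ha, Function.update_self, Function.update_self]
  · rw [Function.update_of_ne hk]
    by_cases hS : k ∈ S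
    · rw [cut_of_mem hS, cut_of_mem hS]
    · rw [cut_of_notMem hS, cut_of_notMem hS, Function.update_of_ne hk]

/-! ### the window of a class -/

section

variable {B B' : Base} {I J : ℕ → Finset (ℕ × ℝ)} {co : ∀ n : ℕ, ℕ × ℝ → ℕ × ℝ → Fin 18 → ℝ}
  {kp : ℕ → ℝ} {u : ℕ → Fin 18 → ℝ} {f : ∀ n : ℕ, ℕ × ℝ → FW} {C : ℝ} {Y : ℕ → Fin 18 → ℝ}
  {w : ℕ → ℝ} {Tz : ℕ → ℝ} {Ma : Mons 18} {Dr : Set (Fin 18)} {lam : (Fin 18 → ℝ) → ℝ}
  {S : Finset (Fin 18)} {V : Finset (Fin 14)} {x : ℝ} {Dd : Finset (Fin 18)}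

/-- decidable conditions on `S`, `V` -/
structure SDat (S : Finset (Fin 18)) (V : Finset (Fin 14)) : Prop where
  wd : WDat (fun _ => 0) (fun _ => 1) 1 S
  low : OkD ∅ (ind (univ \ S0 V))
  hV : ∀ q ∈ V, Fin.natAdd 4 q ∈ S

instance (S : Finset (Fin 18)) (V : Finset (Fin 14)) : Decidable (SDat S V) :=
  decidable_of_iff (WDat (fun _ => 0) (fun _ => 1) 1 S ∧ OkD ∅ (ind (univ \ S0 V)) ∧
    ∀ q ∈ V, Fin.natAdd 4 q ∈ S) ⟨fun ⟨a, b, c⟩ => ⟨a, b, c⟩, fun ⟨a, b, c⟩ => ⟨a, b, c⟩⟩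

/-- **the window of resolution `x`** on the class of `s₀` in `Gd` -/
noncomputable abbrev iw (B B' : Base) (I J : ℕ → Finset (ℕ × ℝ))
    (co : ∀ n : ℕ, ℕ × ℝ → ℕ × ℝ → Fin 18 → ℝ) (C : ℝ) (Y : ℕ → Fin 18 → ℝ) (w : ℕ → ℝ)
    (Ma : Mons 18) (Tz : ℕ → ℝ) (lam : (Fin 18 → ℝ) → ℝ) (S : Finset (Fin 18)) (x : ℝ)
    (Gd : ℕ → Finset (ℕ × ℝ)) (s₀ : ℕ → ℕ × ℝ) : Wnd 18 fun _ => ℕ × ℝ :=
  (wst Ma (fun _ => 0) (fun _ => 1) 1 S x).wnd B B' I J co monW C Y w (coneM Ma) Tz lam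
    (fun n => cls (Gd n) (zlab B I co monW C Y w n 0) (s₀ n)) s₀

variable {Gd : ℕ → Finset (ℕ × ℝ)} {s₀ : ℕ → ℕ × ℝ}

theorem iw_st_ok (hA : ActM Ma Dr) (hd : WDat (fun _ => 0) (fun _ => 1) 1 S) (hx : 0 ≤ x) :
    (wst Ma (fun _ => 0) (fun _ => 1) 1 S x).Ok monW (coneM Ma) := by
  have h := wst_ok hA hd hx
  have e : {p | scV x (fun _ => 0) + p ∈ coneM Ma} = coneM Ma := by
    ext p
    show scV x (fun _ => 0) + p ∈ coneM Ma ↔ _
    rw [scV_nil, zero_add]
  rwa [e] at h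

theorem iw_top : (iw B B' I J co C Y w Ma Tz lam S x Gd s₀).top = fun _ => x := scV_one x

/-- legality in the window from the cone -/
theorem iw_leg {p : Fin 18 → ℝ} (hc : p ∈ coneM Ma) (h0 : ∀ k, 0 ≤ p k) (hp : ∀ k, p k ≤ x) :
    p ∈ Leg (iw B B' I J co C Y w Ma Tz lam S x Gd s₀).Mw
      (iw B B' I J co C Y w Ma Tz lam S x Gd s₀).R' := by
  refine ⟨⟨h0, fun k e he => hc k e (mem_offM.1 he).1⟩, fun k => ?_⟩
  show p k ≤ x * ((1 : ℕ) : ℝ)
  rw [Nat.cast_one, mul_one]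
  exact hp k

theorem bxs_nonneg {T : Finset (Fin 18)} (hx : 0 ≤ x) (k : Fin 18) : 0 ≤ bxs T x k := by
  unfold bxs; split_ifs
  · exact hx
  · exact le_rfl

theorem bxs_le {T : Finset (Fin 18)} (hx : 0 ≤ x) (k : Fin 18) : bxs T x k ≤ x := by
  unfold bxs; split_ifs
  · exact le_rfl
  · exact hx

theorem cone_bxs (hA : ActM Ma Dr) (hD : ∀ s ∈ Dd, s ∈ Dr) {T : Finset (Fin 18)}
    (h : OkD Dd (ind T)) (hx : 0 ≤ x) : bxs T x ∈ coneM Ma := by
  have := cone_scV hA hD h h (α := x) (β := 0) hx le_rfl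
  have e : scV x (ind T) + scV 0 (ind T) = bxs T x := by
    rw [← scV_ind]; funext k; simp [scV]
  rwa [e] at this

/-- legality of a box in the window -/
theorem iw_legW_bxs (hA : ActM Ma Dr) (hD : ∀ s ∈ Dd, s ∈ Dr) {T : Finset (Fin 18)}
    (h : OkD Dd (ind (S ∪ T))) (hx : 0 ≤ x) :
    bxs T x ∈ (iw B B' I J co C Y w Ma Tz lam S x Gd s₀).legW := by
  rw [WSt.mem_legW]
  refine ⟨?_, fun k _ => ?_⟩
  · show cut S (bxs T x) (scV x fun _ => 1) ∈ _
    rw [scV_one, cut_bxs]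
    exact iw_leg (Gd := Gd) (s₀ := s₀) (B := B) (B' := B') (I := I) (J := J) (co := co) (C := C)
      (Y := Y) (w := w) (Tz := Tz) (lam := lam) (S := S) (cone_bxs hA hD h hx) (bxs_nonneg hx)
      (bxs_le hx)
  · show bxs T x k ≤ scV x (fun _ => 1) k
    rw [scV_one]
    exact bxs_le hx k

theorem iw_legW_upd (hA : ActM Ma Dr) (hD : ∀ s ∈ Dd, s ∈ Dr) {T : Finset (Fin 18)} {a : Fin 18}
    (haT : a ∉ T) (haS : a ∉ S) (h : OkD Dd (ind (S ∪ T))) (h' : OkD Dd (ind (insert a (S ∪ T))))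
    {t : ℝ} (ht : 0 ≤ t) (htx : t ≤ x) :
    Function.update (bxs T x) a t ∈ (iw B B' I J co C Y w Ma Tz lam S x Gd s₀).legW := by
  have hx : 0 ≤ x := ht.trans htx
  rw [WSt.mem_legW]
  refine ⟨?_, fun k _ => ?_⟩
  · show cut S (Function.update (bxs T x) a t) (scV x fun _ => 1) ∈ _
    rw [scV_one, cut_upd haS]
    refine iw_leg (Gd := Gd) (s₀ := s₀) (B := B) (B' := B') (I := I) (J := J) (co := co) (C := C)
      (Y := Y) (w := w) (Tz := Tz) (lam := lam) (S := S) ?_ (fun k => ?_) (fun k => ?_)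
    · rw [← upd_scV (by simp [haT, haS])]
      exact cone_scV hA hD h' h ht (by linarith)
    · by_cases hk : k = a
      · subst hk; rw [Function.update_self]; exact ht
      · rw [Function.update_of_ne hk]; exact bxs_nonneg hx k
    · by_cases hk : k = a
      · subst hk; rw [Function.update_self]; exact htx
      · rw [Function.update_of_ne hk]; exact bxs_le hx k
  · show Function.update (bxs T x) a t k ≤ scV x (fun _ => 1) k
    rw [scV_one]
    by_cases hk : k = a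
    · subst hk; rw [Function.update_self]; exact htx
    · rw [Function.update_of_ne hk]; exact bxs_le hx k

/-- **the rates** -/
theorem iw_rate (hA : ActM Ma Dr) (hD : ∀ s ∈ Dd, s ∈ Dr) (hx : 0 ≤ x) {T : Finset (Fin 18)}
    {a : Fin 18} {s : ℝ} (haT : a ∉ T) (haS : a ∉ S) (hTS : ∀ b ∈ T, b ∉ S)
    (k1 : OkD Dd (ind (S ∪ T))) (k2 : OkD Dd (ind (insert a (S ∪ T))))
    (hR : NumR S T a s lam) : Rate (iw B B' I J co C Y w Ma Tz lam S x Gd s₀) T a x s where
  pos := hR.1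
  aT := haT
  aS := haS
  TS := hTS
  leg := fun t ht htx => iw_legW_upd hA hD haT haS k1 k2 ht htx
  rate := fun t ht htx => by
    rw [WSt.wnd_nu, WSt.wnd_nu]
    show s * t ≤ lam (cut S (bxs T x) (scV x fun _ => 1)) - lam (scV x fun _ => 1) -
      (lam (cut S (Function.update (bxs T x) a t) (scV x fun _ => 1)) - lam (scV x fun _ => 1))
    rw [scV_one]
    have := hR.2 x t ht htx
    linarith

theorem lowV_iw : lowV (iw B B' I J co C Y w Ma Tz lam S x Gd s₀) V =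
    cut (S0 V) (fun _ => x) 0 := by
  funext k
  unfold lowV
  rw [iw_top]
  by_cases hk : k = 0 ∨ ∃ q ∈ V, k = Fin.natAdd 4 q
  · rw [if_pos hk, cut_of_mem]
    · rfl
    · unfold S0
      refine mem_insert.2 ?_
      rcases hk with hk | ⟨q, hq, hk⟩
      · exact Or.inl hk
      · exact Or.inr (mem_image.2 ⟨q, hq, hk.symm⟩)
  · rw [if_neg hk, cut_of_notMem]
    intro hm
    refine hk ?_
    rcases mem_insert.1 hm with hm | hm
    · exact Or.inl hm
    · obtain ⟨q, hq, hk'⟩ := mem_image.1 hm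
      exact Or.inr ⟨q, hq, hk'.symm⟩

theorem cut_S0 : cut (S0 V) (fun _ => x) (0 : Fin 18 → ℝ) = bxs (univ \ S0 V) x := by
  funext k
  unfold bxs
  by_cases hk : k ∈ S0 V
  · rw [cut_of_mem hk, if_neg (by simp [hk])]; rfl
  · rw [cut_of_notMem hk, if_pos (by simp [hk])]

/-- **`WinD` for a dense part of any set of incidences** -/
theorem iw_winD (hA : ActM Ma Dr) (hd : SDat S V) (hx : 0 < x)
    (hw : WWnd (iw B B' I J co C Y w Ma Tz lam S x Gd s₀) kp u f)
    (hkp : B'.Sub fun n => |kp n|⁻¹) (hN : NumW S V lam) {E : ℕ → Finset (ℕ × ℝ)} {Mu : ℕ → ℝ}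
    (hE : Wnd.EOk (iw B B' I J co C Y w Ma Tz lam S x Gd s₀) E Mu) :
    ∃ E₁ : ℕ → Finset (ℕ × ℝ), (∀ n, E₁ n ⊆ E n) ∧
      Wnd.EOk (iw B B' I J co C Y w Ma Tz lam S x Gd s₀) E₁ Mu ∧
      WinD (iw B B' I J co C Y w Ma Tz lam S x Gd s₀) kp u f V E₁ x 1 := by
  obtain ⟨E₁, h1, h2, _, h3⟩ := exists_winD hw hE hx one_pos le_rfl hd.hV
    (fun s => by rw [iw_top]) (V := V) (x := x) (by
      rw [iw_top]
      exact hN.dens x hx.le) (fun y hy _ => by
      rw [one_mul]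
      exact hN.frost y hy) (by
      intro ε hε
      filter_upwards [hkp.ev_le hε, hkp.1.pos] with n hn hpos
      have h3 : 0 < |kp n| := inv_pos.1 hpos
      have h5 := hn.2
      rw [Real.log_inv] at h5
      show B'.d n ^ ε ≤ |kp n|
      rw [Real.rpow_def_of_pos (B'.pos n), ← Real.exp_log h3]
      refine Real.exp_le_exp.2 ?_
      unfold Base.L at h5
      linarith) (by
      rw [lowV_iw, cut_S0]
      exact iw_leg (cone_bxs hA (Dd := ∅) (fun s hs => absurd hs (notMem_empty s)) hd.low hx.le)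
        (bxs_nonneg hx.le) (bxs_le hx.le)) (by
      rw [lowV_iw, iw_top]
      have h1 := hN.dens x hx.le
      have h2 := hN.inv x hx.le
      show lam (fun _ => x) ≤ lam (cut (S0 V) (fun _ => x) 0) + lam (cut S 0 fun _ => x)
      linarith)
  exact ⟨E₁, h1, h2, h3⟩

end

end Crest.Agent.R136.Int599
end

-- ▼ part R136/Int2_599

/-!
# R136 (helper599): the wall resonances in an interior window of a `ZWin`, part 2

* `ResAy` : 648's `ResA` with labels at `x` and precision `y` (`ResAy .. x x = ResA .. x`).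
* `resA_of` : from `ResQ` (window) to `ResAy` (absolute units).
* **`int_core`** : a resonance theorem of 648 (`ResQ` on a part of full size of every `E` with `WinD`)
  gives `ResAy` on all classes of a dense part of the family.
-/

set_option autoImplicit false
set_option linter.unusedVariables false
set_option linter.unusedSectionVars false

open Filter Topology

namespace Crest.Agent.R136.Int599

open Finset Crest.Agent.R136.NetW191 Crest.Agent.R136.Net191 Crest.Agent.R136.Qg926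
open Crest.Agent.R136.EvW938 Crest.Agent.R136.Bas938 Crest.Agent.R136.Gf356
open Crest.Agent.R136.Aw413 Crest.Agent.R136.Dg219
open Crest.Agent.R136.Res2648 Crest.Agent.R136.Inv599
open Crest.Agent.R136.Rnl648 (S0 NumW NumR ResA)
open Crest.Agent.R136.LadG697 (coU)
open Crest.Agent.R136.Gau66 (local_to_global)
open Crest.Agent.R138.Ex926 (Base U cls)
open Crest.Agent.R138.Dp76 (Dense)

variable {B B' : Base} {I J : ℕ → Finset (ℕ × ℝ)}
  {kp : ℕ → ℝ} {u : ℕ → Fin 18 → ℝ} {f : ℕ → ℕ × ℝ → FW} {Y : ℕ → Fin 18 → ℝ}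
  {w : ℕ → ℝ} {Tz : ℕ → ℝ} {Ma : Mons 18} {Dr : Set (Fin 18)} {lam : (Fin 18 → ℝ) → ℝ}
  {S : Finset (Fin 18)} {V : Finset (Fin 14)} {x : ℝ} {j : Fin 14}
  {Gd : ℕ → Finset (ℕ × ℝ)} {s₀ : ℕ → ℕ × ℝ}

/-- **the relation of a resonance in absolute units** (class `G`, labels at the resolution `x`,
precision `y`, loss `ε`) -/
def ResAy (B B' : Base) (I : ℕ → Finset (ℕ × ℝ)) (u : ℕ → Fin 18 → ℝ) (κ : ℕ → ℝ)
    (F : ℕ → ℕ × ℝ → FW) (Y : ℕ → Fin 18 → ℝ) (w : ℕ → ℝ) (S : Finset (Fin 18)) (j : Fin 14)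
    (V : Finset (Fin 14)) (x y : ℝ) (n : ℕ) (ε : ℝ) (G : Finset (ℕ × ℝ)) : Prop :=
  ∃ x0 ∈ I n, ∃ ψ : ℝ,
    u n (Fin.natAdd 4 j) * |ψ| ≤ B'.d n ^ (-ε) * B.d n ^ Y n (Fin.natAdd 4 j) ∧
    (∀ i ∈ G, ∀ s, u n s * |coW (κ n) (F n x0) (F n i) s| ≤ B'.d n ^ (-ε) * B.d n ^ Y n s) ∧
    ∀ i ∈ G, ∀ i' ∈ G,
      zlab B I (coU u κ F) monW 67 Y w n (cut S (fun _ => x) 0) i =
        zlab B I (coU u κ F) monW 67 Y w n (cut S (fun _ => x) 0) i' → ∀ q ∈ V,
      u n (Fin.natAdd 4 q) * |coW (κ n) (F n i) (F n i') (Fin.natAdd 4 q) -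
        (ψ - coW (κ n) (F n x0) (F n i) (Fin.natAdd 4 j)) *
          (tr (κ n) (sh (coW (κ n) (F n i) (F n i') 0)) (Pi.single j 1) q -
            (Pi.single j 1 : Fin 14 → ℝ) q)| ≤
        B'.d n ^ (y - ε) * B.d n ^ Y n (Fin.natAdd 4 q)


theorem ResAy.mono {y : ℝ} {n : ℕ} {ε : ℝ} {G G' : Finset (ℕ × ℝ)} (h : G' ⊆ G)
    (H : ResAy B B' I u kp f Y w S j V x y n ε G) : ResAy B B' I u kp f Y w S j V x y n ε G' := by
  obtain ⟨x0, h0, ψ, h1, h2, h3⟩ := H
  exact ⟨x0, h0, ψ, h1, fun i hi => h2 i (h hi), fun i hi i' hi' => h3 i (h hi) i' (h hi')⟩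

theorem ResAy.weak {y : ℝ} {n : ℕ} {ε ε' : ℝ} {G : Finset (ℕ × ℝ)} (hε : ε ≤ ε')
    (H : ResAy B B' I u kp f Y w S j V x y n ε G) :
    ResAy B B' I u kp f Y w S j V x y n ε' G := by
  obtain ⟨x0, h0, ψ, h1, h2, h3⟩ := H
  have hd : ∀ s, 0 ≤ B.d n ^ Y n s := fun s => (Real.rpow_pos_of_pos (B.pos n) _).le
  have e1 : B'.d n ^ (-ε) ≤ B'.d n ^ (-ε') :=
    Real.rpow_le_rpow_of_exponent_ge (B'.pos n) (B'.lt n).le (by linarith)
  have e2 : B'.d n ^ (y - ε) ≤ B'.d n ^ (y - ε') :=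
    Real.rpow_le_rpow_of_exponent_ge (B'.pos n) (B'.lt n).le (by linarith)
  exact ⟨x0, h0, ψ, h1.trans (mul_le_mul_of_nonneg_right e1 (hd _)),
    fun i hi s => (h2 i hi s).trans (mul_le_mul_of_nonneg_right e1 (hd _)),
    fun i hi i' hi' hl q hq => (h3 i hi i' hi' hl q hq).trans
      (mul_le_mul_of_nonneg_right e2 (hd _))⟩

/-- **from the window to absolute units** -/
theorem resA_of (h : WWnd (iw B B' I J (coU u kp f) 67 Y w Ma Tz lam S x Gd s₀) kp u f) {n : ℕ}
    (g : (iw B B' I J (coU u kp f) 67 Y w Ma Tz lam S x Gd s₀).Good n) {y ε : ℝ}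
    {G : Finset (ℕ × ℝ)}
    (hK : (iw B B' I J (coU u kp f) 67 Y w Ma Tz lam S x Gd s₀).K0 ≤ B'.d n ^ (-ε))
    (hG : G ⊆ (iw B B' I J (coU u kp f) 67 Y w Ma Tz lam S x Gd s₀).Cl n)
    (H : ResQ (iw B B' I J (coU u kp f) 67 Y w Ma Tz lam S x Gd s₀) kp u f j V y n ε G) :
    ResAy B B' I u kp f Y w S j V x y n ε G := by
  obtain ⟨x0, hx0, ψ, h1, h2⟩ := H
  have hu : ∀ s, 0 < u n s := fun s => (h.hl n).pos s
  have hsd : ∀ (s : Fin 18) (a y : ℝ), |y| ≤ a * sd
      (iw B B' I J (coU u kp f) 67 Y w Ma Tz lam S x Gd s₀) u n s →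
      u n s * |y| ≤ a * B.d n ^ Y n s := by
    intro s a y hy
    have h3 := mul_le_mul_of_nonneg_left hy (hu s).le
    refine h3.trans (le_of_eq ?_)
    show u n s * (a * (B.d n ^ Y n s / u n s)) = _
    have := (hu s).ne'
    field_simp
  refine ⟨x0, g.clI hx0, ψ, hsd _ _ _ h1, fun i hi s => hsd _ _ _ ?_,
    fun i hi i' hi' hl q hq => hsd _ _ _ (h2 i hi i' hi' ?_ q hq)⟩
  · exact (h.bnd g hx0 (hG hi) s).trans (mul_le_mul_of_nonneg_right hK (h.sd_pos n s).le)
  · unfold Wnd.lc Wnd.lab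
    rw [iw_top]
    exact congrArg _ hl

/-- **from one class to all classes** -/
theorem int_core (hZ : ZWin B B' I J (coU u kp f) monW 67 Y w (coneM Ma) Tz lam)
    (hA : ActM Ma Dr) (hgr : ∀ n, GrU (u n)) (hk1 : ∀ n, |kp n| ≤ 1)
    (hkp : B'.Sub fun n => |kp n|⁻¹) (hd : SDat S V) (hN : NumW S V lam) (hx : 0 < x) {y : ℝ}
    (hres : ∀ (Gd : ℕ → Finset (ℕ × ℝ)) (s₀ : ℕ → ℕ × ℝ) (E : ℕ → Finset (ℕ × ℝ)) (Mu : ℕ → ℝ),
      WWnd (iw B B' I J (coU u kp f) 67 Y w Ma Tz lam S x Gd s₀) kp u f →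
      Wnd.EOk (iw B B' I J (coU u kp f) 67 Y w Ma Tz lam S x Gd s₀) E Mu →
      WinD (iw B B' I J (coU u kp f) 67 Y w Ma Tz lam S x Gd s₀) kp u f V E x 1 →
      ∀ ε : ℝ, 0 < ε → ∀ᶠ n in (U : Filter ℕ), ∃ G ⊆ E n,
        Mu n * (iw B B' I J (coU u kp f) 67 Y w Ma Tz lam S x Gd s₀).B'.d n ^
          ((iw B B' I J (coU u kp f) 67 Y w Ma Tz lam S x Gd s₀).lam
            (iw B B' I J (coU u kp f) 67 Y w Ma Tz lam S x Gd s₀).top + ε) ≤ (G.card : ℝ) ∧
        ResQ (iw B B' I J (coU u kp f) 67 Y w Ma Tz lam S x Gd s₀) kp u f j V y n ε G) :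
    ∃ J1 : ℕ → Finset (ℕ × ℝ), (∀ n, J1 n ⊆ J n) ∧ Dense B' J1 J ∧
      ∀ ε : ℝ, 0 < ε → ∀ᶠ n in (U : Filter ℕ), ∀ s ∈ J1 n,
        ResAy B B' I u kp f Y w S j V x y n ε
          (cls (J1 n) (zlab B I (coU u kp f) monW 67 Y w n 0) s) := by
  have hst := iw_st_ok hA hd.wd hx.le
  refine local_to_global (B := B') (J := J) (fun n => zlab B I (coU u kp f) monW 67 Y w n 0)
    hZ.T0 (fun ε hε => by
      filter_upwards [hZ.prof.up 0 ε hε] with n hn s hs
      have := hn 0 hZ.zero (by rw [norm_zero]) s hs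
      rwa [hZ.lam0, zero_add] at this)
    (fun n ε G => ResAy B B' I u kp f Y w S j V x y n ε G)
    (fun n ε G G' hG h => h.mono hG) (fun n ε ε' G hε h => h.weak hε) ?_
  intro Gd hGd _ hdens ε hε
  obtain ⟨s₀, hs₀, hok⟩ := hZ.exists_wnd hst (fun _ => (0, 0)) (Gd := Gd) (E := Gd)
    (Eventually.of_forall hGd) (Eventually.of_forall fun n => Subset.refl _)
    (Sd := fun _ => 2) (Base.Sub.const two_pos) hdens
  have hww : WWnd (iw B B' I J (coU u kp f) 67 Y w Ma Tz lam S x Gd s₀) kp u f :=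
    { ok := hok
      hκ := hk1
      hl := hgr
      hM := rfl
      hco := fun n i _ j _ s => rfl
      kz := rfl
      h0 := hd.wd.zS
      hS := hd.wd.hS }
  obtain ⟨E₁, e1, e2, e3⟩ := iw_winD hA hd hx hww hkp hN hok.eok_class
  filter_upwards [hres Gd s₀ E₁ _ hww e2 e3 ε hε, hok.ev_good,
    Gf356.ev_const_le B' hε (iw B B' I J (coU u kp f) 67 Y w Ma Tz lam S x Gd s₀).K0]
    with n hn g hc
  obtain ⟨G, hG1, hG2, hG3⟩ := hn
  have hGC : G ⊆ (iw B B' I J (coU u kp f) 67 Y w Ma Tz lam S x Gd s₀).Cl n :=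
    hG1.trans (e1 n)
  refine ⟨s₀ n, G, hGC, ?_, resA_of hww g hc hGC hG3⟩
  refine le_trans (le_of_eq ?_) hG2
  show Tz n * B'.d n ^ ε = Tz n * B'.d n ^ (-lam (scV x fun _ => 1)) *
    B'.d n ^ (lam (scV x fun _ => 1) + ε)
  rw [mul_assoc, ← Real.rpow_add (B'.pos n)]
  congr 2
  ring

end Crest.Agent.R136.Int599
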