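import Crest.Agent.R136.RL7_478
import Crest.Agent.R136.RLb_66

/-!
# R136 (helper478): windows for the resonances of the rungs `2` and `1`

* `dense_sub` : a dense part, sub-polynomial form; `IWG.dense` : record window on a dense part.
* `front_win` : object + stage + tangents at an interior point ⊢ twin windows (record and interior, the
  same part and unit).
* `front_le` : interior labels are coarser than record classes; `front_legal`.
-/

set_option autoImplicit false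
set_option linter.unusedVariables false

open Finset Filter Topology

namespace Crest.Agent.R136.RL478

open Crest.Agent.R136.Net191
open Crest.Agent.R136.NetW191
open Crest.Agent.R136.PrW464
open Crest.Agent.R136.NatW697
open Crest.Agent.R136.LadW697
open Crest.Agent.R136.LadG697
open Crest.Agent.R136.Zpr779
open Crest.Agent.R136.Qg926
open Crest.Agent.R136.EvW938
open Crest.Agent.R136.Bas938
open Crest.Agent.R136.AwJ774
open Crest.Agent.R136.K2S774
open Crest.Agent.R136.ThS830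
open Crest.Agent.R136.GauW619
open Crest.Agent.R138.Dp76 (Dense)
open Crest.Agent.R138.Ex926

/-- a dense part, sub-polynomial form -/
theorem dense_sub {B : Base} {J1 J : ℕ → Finset (ℕ × ℝ)} (h : Dense B J1 J) :
    ∃ S : ℕ → ℝ, B.Sub S ∧ ∀ᶠ n in (U : Filter ℕ),
      ((J n).card : ℝ) ≤ S n * ((J1 n).card : ℝ) := by
  obtain ⟨k, hk, hk2⟩ := exists_diag (fun l n =>
    B.d n ^ (1 / ((l : ℝ) + 1)) * ((J n).card : ℝ) ≤ ((J1 n).card : ℝ))
    (fun l => h.2 _ (by positivity))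
  have h0 : Tendsto (fun n => 1 / ((k n : ℝ) + 1)) U (𝓝 0) :=
    (tendsto_one_div_add_atTop_nhds_zero_nat (𝕜 := ℝ)).comp hk
  refine ⟨_, Gau66.sub_rpow h0, ?_⟩
  filter_upwards [hk2] with n hn
  have h1 := hn (k n) le_rfl
  have hp : 0 < B.d n ^ (-(1 / ((k n : ℝ) + 1))) := Real.rpow_pos_of_pos (B.pos n) _
  have h2 := mul_le_mul_of_nonneg_left h1 hp.le
  rwa [← mul_assoc, ← Real.rpow_add (B.pos n), neg_add_cancel, Real.rpow_zero, one_mul] at h2

section iwg

variable {θ : Fin 3 → ℝ} {g : ℝ} {q : Fin 3 → ℝ} {B B' B1 B2 : Base}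
  {I0 J J' J1 : ℕ → Finset (ℕ × ℝ)} {κ : ℕ → ℝ} {u : ℕ → Fin 18 → ℝ}
  {F : ℕ → ℕ × ℝ → FW} {X : ℕ → Fin 18 → ℝ} {w : ℕ → ℝ} {Dr : Set (Fin 18)}
  {Tn To To' : ℕ → ℝ} {lam lo lam' lo' : (Fin 18 → ℝ) → ℝ}

/-- D-max for parts -/
theorem GdU.sub {C : ℝ} (h : GdU θ g q C B B' J κ u F X Tn)
    (hJ : ∀ᶠ n in (U : Filter ℕ), J' n ⊆ J n) : GdU θ g q C B B' J' κ u F X Tn := by
  intro R K ε hK hε
  filter_upwards [h R K ε hK hε, hJ] with n hn h2 d hd hdR
  exact gdAt_sub (hn d hd hdR) h2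


end iwg

/-! ### positions -/

/-- **interior labels are coarser than record classes** -/
theorem front_le {X1 : ℕ → Fin 18 → ℝ} {w1 h : ℕ → ℝ} (hw : ∀ n, 0 < w1 n) (hpos : ∀ n, 0 < h n)
    (hh : Tendsto h U (𝓝 0)) {T b a bC : Fin 18 → ℝ} {z : ℝ × ℝ} (hz : z.1 < 0)
    (hT : ∀ k, 0 ≤ T k) (ha : ∀ k, T k = 0 → a k ≤ bC k) :
    ∀ᶠ n in (U : Filter ℕ), ∀ k,
      (X1 n + w1 n • (z.1 • T + z.2 • b) + (w1 n * h n) • a) k ≤
        (X1 n + w1 n • (z.2 • b) + (w1 n * h n) • bC) k := by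
  rw [Filter.eventually_all]
  intro k
  have key : ∀ᶠ n in (U : Filter ℕ), z.1 * T k + h n * (a k - bC k) ≤ 0 := by
    rcases (hT k).eq_or_lt with h0 | h0
    · refine Eventually.of_forall fun n => ?_
      rw [← h0, mul_zero, zero_add]
      exact mul_nonpos_of_nonneg_of_nonpos (hpos n).le (by linarith [ha k h0.symm])
    · have h1 := hh.mul_const (a k - bC k)
      rw [zero_mul] at h1
      filter_upwards [h1.eventually_lt_const (show 0 < -(z.1 * T k) by nlinarith)] with n hn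
      linarith
  filter_upwards [key] with n hn
  have := mul_nonpos_of_nonneg_of_nonpos (hw n).le hn
  simp only [Pi.add_apply, Pi.smul_apply, smul_eq_mul]
  nlinarith

section front

variable {θ : Fin 3 → ℝ} {g : ℝ} {q : Fin 3 → ℝ} {V T : Set (Fin 18)} {w0 R T0 : ℝ}
  {B B' : Base} {I0 I : ℕ → Finset (ℕ × ℝ)} {κ : ℕ → ℝ} {u : ℕ → Fin 18 → ℝ}
  {F : ℕ → ℕ × ℝ → FW} {X : ℕ → Fin 18 → ℝ} {w : ℕ → ℝ} {Tn To : ℕ → ℝ}
  {PD : Set (Fin 18 → ℝ)} {ν own : (Fin 18 → ℝ) → ℝ} {c₀ : ℝ}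


end front

end Crest.Agent.R136.RL478
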