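import Crest.Agent.R136.RL5_478
import Crest.Agent.R136.RLc_66
import Crest.Agent.R136.RL10_478
import Crest.Agent.R136.Qgn3_887

-- ▼ part R136/QGa_312
section

/-!
# R136, thin branch (helper312): twin windows with a moving record point

* `twin_iwgM` : the record points are `(t - c k l) • btW θ`, `k` = units of the blow-up; `y` = any
  point with tangents `lamI, loI`. Output: on the same part and with one unit the window at `y` and the
  record window at `(t - c h) • btW θ`.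
* `pos_eq`, `pos_le` : positions of the interior base with respect to the record class.
-/

set_option autoImplicit false
set_option linter.unusedVariables false

open Finset Filter Topology

namespace Crest.Agent.R136.QG312

open Crest.Agent.R136.Net191
open Crest.Agent.R136.NetW191
open Crest.Agent.R136.PrW464
open Crest.Agent.R136.NatW697
open Crest.Agent.R136.LadW697
open Crest.Agent.R136.LadG697
open Crest.Agent.R136.Zpr779
open Crest.Agent.R136.Qg926
open Crest.Agent.R136.EvW938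
open Crest.Agent.R136.Bas938
open Crest.Agent.R136.AwJ774
open Crest.Agent.R136.K2S774
open Crest.Agent.R136.RL478
open Crest.Agent.R136.Gau66 (base_ext tendsto_min)
open Crest.Agent.R138.Ex926

section twin

variable {θ : Fin 3 → ℝ} {g : ℝ} {q : Fin 3 → ℝ} {V Z : Set (Fin 18)} {P : Set (Fin 18 → ℝ)}
  {ν own : (Fin 18 → ℝ) → ℝ} {r0 : Fin 18 → ℝ} {B B1 : Base} {I0 J : ℕ → Finset (ℕ × ℝ)}
  {κ : ℕ → ℝ} {u : ℕ → Fin 18 → ℝ} {F : ℕ → ℕ × ℝ → FW} {X1 : ℕ → Fin 18 → ℝ} {w1 : ℕ → ℝ}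
  {Dr : Set (Fin 18)} {Tn To : ℕ → ℝ} {lam0 lo0 lamI loI : (Fin 18 → ℝ) → ℝ}

/-- **twin windows, moving record point** -/
theorem twin_iwgM (hD : Dr3 Dr) (W : IWG θ g q B B1 I0 J κ u F X1 w1 Dr Tn To lam0 lo0)
    (S0 : Stage QW P ν own 18 r0 (btW θ) (DlW g q) (QdW θ) Z V 0 (btW θ) 1 (actW Dr) Dr lam0 lo0)
    (t c : ℝ) {y : Fin 18 → ℝ} {k : ℕ → ℝ} (kpos : ∀ l, 0 < k l) (k0 : Tendsto k atTop (𝓝 0))
    (tI : IsTan (cn QW (actW Dr)) (cn QW (actW Dr)) lam0 (fun _ => y) k lamI)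
    (tIo : IsTan (cn QW (actW Dr)) (cn QW (actW Dr)) lo0 (fun _ => y) k loI)
    (H : ℕ → ℕ → ℝ) (hH : ∀ i, B1.Sub (H i)) :
    ∃ (B2 : Base) (h TI ToI TR ToR : ℕ → ℝ) (lamR loR : (Fin 18 → ℝ) → ℝ),
      (∀ n, 0 < h n) ∧ Tendsto h U (𝓝 0) ∧ (∀ n, B2.d n = B1.d n ^ h n) ∧
      ZWin B B2 I0 J (coU u κ F) monW 67 (fun n => X1 n + w1 n • y) (fun n => w1 n * h n)
        (cn QW (actW Dr)) TI lamI ∧
      ZProf B2 J (zolb B I0 (coU u κ F) monW 67 (fun n => X1 n + w1 n • y)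
        (fun n => w1 n * h n)) (cn QW (actW Dr)) ToI loI ∧ (∀ n, 0 < ToI n) ∧
      IWG θ g q B B2 I0 J κ u F (fun n => X1 n + w1 n • ((t - c * h n) • btW θ))
        (fun n => w1 n * h n) Dr TR ToR lamR loR ∧
      Stage QW P ν own 18 r0 (btW θ) (DlW g q) (QdW θ) Z V 0 (btW θ) 1 (actW Dr) Dr lamR loR ∧
      ∀ i, B2.Sub (H i) := by
  classical
  obtain ⟨φ, hφ, lamR, loR, tR, tRo, SR⟩ := S0.exists_recM (recW θ Dr V)
    (y := fun l => (t - c * k l) • btW θ) (σ := fun l => t - c * k l) (fun l i _ => rfl) kpos k0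
  have kk0 : Tendsto (fun l => k (φ l)) atTop (𝓝 0) := k0.comp hφ.tendsto_atTop
  have tI' := tan_sub tI hφ.tendsto_atTop
  have tIo' := tan_sub tIo hφ.tendsto_atTop
  obtain ⟨C, hC, hG⟩ := W.gdu
  obtain ⟨Hc, hHc, hcard⟩ := W.card
  -- bounded record points
  obtain ⟨b0, hb0⟩ : ∃ S : ℝ, ∀ l, |t - c * k l| ≤ S := by
    have h1 : Tendsto (fun l => |t - c * k l|) atTop (𝓝 |t - c * 0|) :=
      (((k0.const_mul c).const_sub t)).abs
    obtain ⟨b, hb⟩ := h1.bddAbove_range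
    exact ⟨b, fun l => hb ⟨l, rfl⟩⟩
  have hbn : ∀ l, ‖(t - c * k (φ l)) • btW θ‖ ≤ b0 * ‖btW θ‖ := fun l => by
    rw [norm_smul, Real.norm_eq_abs]
    exact mul_le_mul_of_nonneg_right (hb0 _) (norm_nonneg _)
  set H' : ℕ → ℕ → ℝ := fun i => Nat.casesOn i Hc fun i => Nat.casesOn i (fun n => |κ n|⁻¹) H
    with hH'
  have hs : ∀ i, B1.Sub (H' i) := fun i => by
    rcases i with _ | i
    · exact hHc
    · rcases i with _ | i
      · exact W.iw.kap
      · exact hH i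
  obtain ⟨k1, hk1, H1⟩ := W.iw.win.exists_zoom (x := fun _ => y) (fun _ => le_rfl)
    (h := fun l => k (φ l)) (fun l => kpos _) kk0 cn_zero tI' W.iw.To0 W.iw.own cn_zero tIo' H' hs
  obtain ⟨k2, hk2, H2⟩ := W.iw.win.exists_zoom (x := fun l => (t - c * k (φ l)) • btW θ) hbn
    (h := fun l => k (φ l)) (fun l => kpos _) kk0 cn_zero tR W.iw.To0 W.iw.own cn_zero tRo H' hs
  obtain ⟨k3, hk3, H3⟩ := exists_diag _
    (fun l => hG.level (fun l => t - c * k (φ l)) (h := fun l => k (φ l)) (fun l => kpos _) l)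
  set kk : ℕ → ℕ := fun n => min (k1 n) (min (k2 n) (k3 n)) with hkk
  have hkt : Tendsto kk U atTop := tendsto_min hk1 (tendsto_min hk2 hk3)
  obtain ⟨B', b1, b2, b3, b4, b5⟩ := H1 kk hkt (Eventually.of_forall fun n => min_le_left _ _)
  obtain ⟨B'', c1, c2, c3, c4, c5⟩ := H2 kk hkt
    (Eventually.of_forall fun n => (min_le_right _ _).trans (min_le_left _ _))
  have e : B'' = B' := base_ext fun n => by rw [b1, c1]
  subst e
  have hO1 : ∀ n, 0 < To n * B1.d n ^ (-(lo0 y)) := fun n =>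
    mul_pos (W.iw.To0 n) (Real.rpow_pos_of_pos (B1.pos n) _)
  have hO2 : ∀ n, 0 < To n * B1.d n ^ (-(lo0 ((t - c * k (φ (kk n))) • btW θ))) := fun n =>
    mul_pos (W.iw.To0 n) (Real.rpow_pos_of_pos (B1.pos n) _)
  have W2 := W.zoom hD S0.rcd (σ := fun l => t - c * k (φ l)) (S := b0) (fun l => hb0 _)
    (h := fun l => k (φ l)) (fun l => kpos _) kk0 hkt (Eventually.of_forall fun n => subset_rfl)
    b1 hC (H3.mono fun n hn => hn _ ((min_le_right _ _).trans (min_le_right _ _))) hO2 c4 c5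
    (b3 1) (b3 0) hcard
  exact ⟨B'', fun n => k (φ (kk n)), _, _, _, _, lamR, loR, fun n => kpos _, kk0.comp hkt, b1, b4,
    zprof_zolb (y := fun _ => y) (v := fun n => k (φ (kk n))) b5, hO1, W2, SR,
    fun i => b3 (i + 2)⟩

end twin

end Crest.Agent.R136.QG312
end

-- ▼ part R136/QGb_312
section

/-!
# R136, thin branch (helper312): front half of the resonances of the rungs `2` and `1`

* `front_winM` : object + stage + tangents at an interior point ⊢ twin windows, record point moved by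
  `-c h • btW θ`.
* `posM`, `posM_le`, `natX_posM` : positions of the interior base.
* `pair_rec`, `size_rec` : law at the interior base ⊢ law in the units of the record window.
-/

set_option autoImplicit false
set_option linter.unusedVariables false

open Finset Filter Topology

namespace Crest.Agent.R136.QG312

open Crest.Agent.R136.Net191
open Crest.Agent.R136.NetW191
open Crest.Agent.R136.PrW464
open Crest.Agent.R136.NatW697
open Crest.Agent.R136.LadW697
open Crest.Agent.R136.LadG697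
open Crest.Agent.R136.Zpr779
open Crest.Agent.R136.Qg926
open Crest.Agent.R136.EvW938
open Crest.Agent.R136.Bas938
open Crest.Agent.R136.AwJ774
open Crest.Agent.R136.K2S774
open Crest.Agent.R136.RL478
open Crest.Agent.R136.ThS830
open Crest.Agent.R136.GauW619
open Crest.Agent.R136.Qgn887 (TDs TDs_not TDs_mem TDs_nonneg)
open Crest.Agent.R138.Ex926

/-! ### twin windows of an object -/

section front

variable {θ : Fin 3 → ℝ} {g : ℝ} {q : Fin 3 → ℝ} {V T : Set (Fin 18)} {w0 R T0 : ℝ}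
  {B B' : Base} {I0 I : ℕ → Finset (ℕ × ℝ)} {κ : ℕ → ℝ} {u : ℕ → Fin 18 → ℝ}
  {F : ℕ → ℕ × ℝ → FW} {X : ℕ → Fin 18 → ℝ} {w : ℕ → ℝ} {Tn To : ℕ → ℝ}
  {PD : Set (Fin 18 → ℝ)} {ν own : (Fin 18 → ℝ) → ℝ} {c₀ : ℝ}

/-- **twin windows of an object**, record window at `(t - c h) • btW θ`, interior window at `y` -/
theorem front_winM (H : ZW θ g q V T w0 R T0 B B' I0 I κ u F X w Tn To PD ν own c₀)
    {v1 : ℝ} (h0 : 0 < v1) (h1 : v1 < 1) {Dr Z V' : Set (Fin 18)} (hD : Dr3 Dr)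
    {lam0 lo0 lamI loI : (Fin 18 → ℝ) → ℝ}
    (S : Stage QW (Leg monW R) ν own 18 (pathW θ w0 v1) (btW θ) (DlW g q) (QdW θ) Z V' 0 (btW θ) 1
      (actW Dr) Dr lam0 lo0)
    (t c : ℝ) {y : Fin 18 → ℝ} (hy : NatG Dr y) {k : ℕ → ℝ} (kpos : ∀ l, 0 < k l)
    (k0 : Tendsto k atTop (𝓝 0))
    (tI : IsTan (cn QW (actW Dr)) (cn QW (actW Dr)) lam0 (fun _ => y) k lamI)
    (tIo : IsTan (cn QW (actW Dr)) (cn QW (actW Dr)) lo0 (fun _ => y) k loI) :
    ∃ (B2 : Base) (X1 : ℕ → Fin 18 → ℝ) (w1 h TI ToI TR ToR : ℕ → ℝ)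
      (lamR loR : (Fin 18 → ℝ) → ℝ),
      (∀ n, 0 < w1 n) ∧ (∀ n, 0 < h n) ∧ Tendsto h U (𝓝 0) ∧
      (∀ n, B2.d n = B.d n ^ (w1 n * h n)) ∧ (∀ n, NatG Dr (X1 n)) ∧
      AwZ146.BasX monW (mA monW (actW Dr)) (mA monW (actW Dr)) (fun n => X1 n + w1 n • y)
        (fun n => w1 n * h n) ∧
      ZWin B B2 I0 I (coU u κ F) monW 67 (fun n => X1 n + w1 n • y) (fun n => w1 n * h n)
        (cn QW (actW Dr)) TI lamI ∧
      ZProf B2 I (zolb B I0 (coU u κ F) monW 67 (fun n => X1 n + w1 n • y)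
        (fun n => w1 n * h n)) (cn QW (actW Dr)) ToI loI ∧ (∀ n, 0 < ToI n) ∧
      IWG θ g q B B2 I0 I κ u F (fun n => X1 n + w1 n • ((t - c * h n) • btW θ))
        (fun n => w1 n * h n) Dr TR ToR lamR loR ∧
      Stage QW (Leg monW R) ν own 18 (pathW θ w0 v1) (btW θ) (DlW g q) (QdW θ) Z V' 0 (btW θ) 1
        (actW Dr) Dr lamR loR := by
  obtain ⟨C, hC, hgd⟩ := OwW831.ZW.gd_unif H
  obtain ⟨δ, hδ, hG⟩ := hgd v1 h0 h1
  obtain ⟨B1, X1, w1, T1, To1, W1, -⟩ := exists_iwg H h0 h1 ⟨C, hC, δ, hδ, hG⟩ H.card hD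
    S (fun _ n => |κ n|⁻¹) (fun _ => H.κ0)
  obtain ⟨B2, h, TI, ToI, TR, ToR, lamR, loR, a1, a2, a3, a4, a5, a6, a7, a8, a9⟩ :=
    twin_iwgM hD W1 S t c kpos k0 tI tIo (fun _ n => |κ n|⁻¹) (fun _ => W1.iw.kap)
  exact ⟨B2, X1, w1, h, TI, ToI, TR, ToR, lamR, loR, W1.iw.win.w0, a1, a2, a7.iw.win.base,
    fun n => NatG.of_IW W1.iw n, basX_shift W1.iw.bas W1.iw.win.w0 (fun n => hy.nat)
      (fun n => le_rfl) a1 a2, a4, a5, a6, a7, a8⟩

end front

/-! ### positions -/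

/-- the ray with dropped slots is natural -/
theorem natG_TDs {Dr : Set (Fin 18)} (hD : Dr3 Dr) {s : ℝ} (hlo : ∀ k ∈ DrW s, k ∈ Dr) :
    NatG Dr (TDs s Dr) :=
  natG_of hD fun k hk => by rw [TDs_not hk, TW_of_not fun h => hk (hlo k h), saW_grW]

/-- the interior point is natural -/
theorem natG_yD {Dr : Set (Fin 18)} (hD : Dr3 Dr) {s : ℝ} (hlo : ∀ k ∈ DrW s, k ∈ Dr)
    (θ : Fin 3 → ℝ) (z : ℝ × ℝ) : NatG Dr (Dg262.X 0 (TDs s Dr) (btW θ) z) := by
  rw [X_zero]
  exact NatG.add ((natG_TDs hD hlo).smul _) ((natG_btW hD θ).smul _)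

section pos

variable {X1 : ℕ → Fin 18 → ℝ} {w1 h : ℕ → ℝ} {T b : Fin 18 → ℝ} {z : ℝ × ℝ} {c : ℝ}

/-- interior base minus record base -/
theorem posM (n : ℕ) (k : Fin 18) :
    (X1 n + w1 n • Dg262.X 0 T b z) k =
      (X1 n + w1 n • ((z.2 - c * h n) • b)) k + w1 n * h n * (c * b k) + w1 n * (z.1 * T k) := by
  simp only [Dg262.X, Pi.add_apply, Pi.smul_apply, smul_eq_mul, Pi.zero_apply]
  ring

/-- **interior labels are coarser than the record classes of base `bC`** -/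
theorem posM_le (hw : ∀ n, 0 < w1 n) (hpos : ∀ n, 0 < h n) (hh : Tendsto h U (𝓝 0)) (hz : z.1 < 0)
    (hT : ∀ k, 0 ≤ T k) {bC : Fin 18 → ℝ} (ha : ∀ k, T k = 0 → c * b k ≤ bC k) :
    ∀ᶠ n in (U : Filter ℕ), ∀ k, (X1 n + w1 n • Dg262.X 0 T b z) k ≤
      (X1 n + w1 n • ((z.2 - c * h n) • b)) k + w1 n * h n * bC k := by
  filter_upwards [front_le (X1 := X1) (b := b) (a := c • b) (bC := bC) hw hpos hh hz hT
    (fun k hk => by simpa using ha k hk)] with n hn k
  have h1 := hn k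
  rw [posM (c := c) (h := h)]
  simp only [Pi.add_apply, Pi.smul_apply, smul_eq_mul] at h1 ⊢
  nlinarith

/-- natural completions of the two bases -/
theorem natX_posM {θ : Fin 3 → ℝ} (n : ℕ) (k : Fin 18) :
    natX (fun n => X1 n + w1 n • Dg262.X 0 T (btW θ) z) n k =
      natX (fun n => X1 n + w1 n • ((z.2 - c * h n) • btW θ)) n k + w1 n * h n * (c * btW θ k) +
        w1 n * (z.1 * grW (T 0) (T 1) (T 17) k) := by
  rw [natX_shift (X := X1) (w := w1) (fun _ => Dg262.X 0 T (btW θ) z),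
    natX_shift (X := X1) (w := w1) (fun n => (z.2 - c * h n) • btW θ), grW_btW]
  have e1 : ∀ i, Dg262.X 0 T (btW θ) z i = z.1 * T i + z.2 * btW θ i := fun i => by
    simp only [Dg262.X, Pi.zero_apply]; ring
  have e2 : grW (Dg262.X 0 T (btW θ) z 0) (Dg262.X 0 T (btW θ) z 1) (Dg262.X 0 T (btW θ) z 17) k =
      z.1 * grW (T 0) (T 1) (T 17) k + z.2 * btW θ k := by
    rw [e1, e1, e1, grW_add, grW_smul, grW_smul]
    congr 2
    simp only [btW, grW_0, grW_1, grW_17]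
  rw [e2]
  ring

end pos

/-- the natural completion of the ray vanishes on the slots of weight `s` -/
theorem grW_TDs {Dr : Set (Fin 18)} (hD : Dr3 Dr) {s : ℝ} (hlo : ∀ k ∈ DrW s, k ∈ Dr)
    {k : Fin 18} (h4 : 4 ≤ k) (hk : (alW k : ℝ) = s) :
    grW (TDs s Dr 0) (TDs s Dr 1) (TDs s Dr 17) k = 0 := by
  have e : ∀ i, i ∉ Dr → TDs s Dr i = saW s i := fun i hi => by
    rw [TDs_not hi, TW_of_not fun h => hi (hlo i h)]
  rw [e 0 hD.h0, e 1 hD.h1, e 17 hD.h17]
  have h1 : grW (saW s 0) (saW s 1) (saW s 17) k = saW s k := by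
    simp only [saW_grW, grW_0, grW_1, grW_17]
  rw [h1, saW_alW h4, hk, sub_self]

end Crest.Agent.R136.QG312
end

-- ▼ part R136/QGc_312

/-!
# R136, thin branch (helper312): the law at the interior base in the units of the record window

`YI` = interior base, `XR` = record base, `natX YI k = natX XR k + w (c btW θ k)` in the slots of
weight `s`; `j` = one correction per incidence.
* `pair_rec` : pair law, precision `x` at `YI` ⊢ precision `K` at `XR`.
* `size_rec` : sizes at `YI` (dropped slots: precision `x`; slots with `btW θ k < 0`: natural at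
  `t = 0`) ⊢ sizes at `XR`.
-/

set_option autoImplicit false
set_option linter.unusedVariables false

open Finset Filter Topology

namespace Crest.Agent.R136.QG312

open Crest.Agent.R136.Net191
open Crest.Agent.R136.NetW191
open Crest.Agent.R136.PrW464
open Crest.Agent.R136.NatW697
open Crest.Agent.R136.LadW697
open Crest.Agent.R136.LadG697
open Crest.Agent.R138.Ex926

section law

variable {θ : Fin 3 → ℝ} {s : ℤ} {Dr : Set (Fin 18)} {B B' : Base} {J : ℕ → Finset (ℕ × ℝ)}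
  {u : ℕ → Fin 18 → ℝ} {YI XR : ℕ → Fin 18 → ℝ} {w : ℕ → ℝ} {c K x : ℝ}

/-- change of units -/
theorem unit_rec (hB : ∀ n, B'.d n = B.d n ^ w n)
    (hpos : ∀ n, ∀ k ∈ JW s, natX YI n k = natX XR n k + w n * (c * btW θ k)) {n : ℕ} {k : Fin 18}
    (hk : k ∈ JW s) {a b : ℝ} (hab : b ≤ c * btW θ k + a) :
    B.d n ^ natX YI n k * B'.d n ^ a ≤ B.d n ^ natX XR n k * B'.d n ^ b := by
  have hB0 := B.pos n
  have hB1 := B'.pos n
  have e1 : B.d n ^ (w n * (c * btW θ k)) = B'.d n ^ (c * btW θ k) := by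
    rw [Real.rpow_mul hB0.le, ← hB]
  rw [hpos n k hk, Real.rpow_add hB0, e1, mul_assoc, ← Real.rpow_add hB1]
  exact mul_le_mul_of_nonneg_left
    (Real.rpow_le_rpow_of_exponent_ge hB1 (B'.lt n).le hab) (Real.rpow_pos_of_pos hB0 _).le



end law

/-- a precision which is large enough for all slots -/
theorem exists_prec (θ : Fin 3 → ℝ) (c K : ℝ) :
    ∃ x : ℝ, 1 ≤ x ∧ (∀ k, K ≤ c * btW θ k + x) ∧ ∀ k, max 0 (btW θ k) ≤ c * btW θ k + x := by
  refine ⟨1 + |K| + |c| * ‖btW θ‖ + ‖btW θ‖, ?_, fun k => ?_, fun k => ?_⟩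
  · have h1 := abs_nonneg K
    have h2 := mul_nonneg (abs_nonneg c) (norm_nonneg (btW θ))
    have h3 := norm_nonneg (btW θ)
    linarith
  all_goals
    have h0 := norm_le_pi_norm (btW θ) k
    rw [Real.norm_eq_abs] at h0
    have h1 : |c * btW θ k| ≤ |c| * ‖btW θ‖ := by
      rw [abs_mul]; exact mul_le_mul_of_nonneg_left h0 (abs_nonneg c)
    have h2 := (abs_le.1 h1).1
    have h3 := le_abs_self K
    have h4 := abs_nonneg K
    have h5 := norm_nonneg (btW θ)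
    have h6 := le_abs_self (btW θ k)
    first
    | linarith
    | (refine max_le ?_ ?_ <;> linarith)

end Crest.Agent.R136.QG312
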