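import Crest.Agent.R136.LadG1_697
import Crest.Agent.R136.Qgn3_887
import Crest.Agent.R136.PinS_851
import Crest.Agent.R136.CtxZ_830

-- ▼ part R136/SZ1_480
section

/-!
# R136, thin branch (helper480): STAGES OF `quad` AND `lin`

* `Stage.monoZ` : more never dropped slots
* `rungJ`, `stage_J` : only the slots `J ⊆ JW j` of the rung `j` are dropped
* `DrR θ j` : slots of weight `> j` and slots of weight `j` with positive rate; `ZR θ j`
* **`stage_quad`**, **`stage_lin`** : the stages of the resonances `Res2`, `Res1` of a `ZW`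
-/

set_option autoImplicit false
set_option linter.unusedVariables false

open Finset Filter Topology

namespace Crest.Agent.R136.SZ480

open Crest.Agent.R138.Ex926
open Crest.Agent.R136.Net191
open Crest.Agent.R136.NetW191
open Crest.Agent.R136.PrW464
open Crest.Agent.R136.NatW697
open Crest.Agent.R136.LadW697
open Crest.Agent.R136.LadT830
open Crest.Agent.R136.LadG697
open Crest.Agent.R136.EvW938
open Crest.Agent.R136.AwJ774
open Crest.Agent.R136.K2S774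
open Crest.Agent.R136.K2A146
open Crest.Agent.R136.Qgn887
open Crest.Agent.R136.Dg219 (Walls mw)
open Crest.Agent.R136.Dg262 (X)

/-- **more never dropped slots** -/
theorem monoZ {m : ℕ} {W : Type*} [Fintype W] {Q : Walls (Fin m) W} {P : Set (Fin m → ℝ)}
    {ν own : (Fin m → ℝ) → ℝ} {K : ℝ} {r0 ρ : Fin m → ℝ} {Dl : (Fin m → ℝ) →ₗ[ℝ] ℝ}
    {Qd : Set (Fin m → ℝ)} {Z Z' Tie : Set (Fin m)} {kz : Fin m} {o : Fin m → ℝ} {τ : ℝ}
    {A : W → Prop} {Dr : Set (Fin m)} {lam lo : (Fin m → ℝ) → ℝ}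
    (H : Stage Q P ν own K r0 ρ Dl Qd Z Tie kz o τ A Dr lam lo) (h : Z ⊆ Z')
    (hD : ∀ i ∈ Z', i ∉ Dr) : Stage Q P ν own K r0 ρ Dl Qd Z' Tie kz o τ A Dr lam lo :=
  { jt := H.jt
    prf := H.prf
    noD := H.noD
    ZD := hD
    TD := H.TD
    zD := H.zD
    ind := fun c hc c' hc' e ⟨σ, hσ⟩ => H.ind c hc c' hc' e ⟨σ, fun i hi => hσ i (h hi)⟩
    rcd := H.rcd
    dmx := H.dmx
    ownr := H.ownr
    ownu := H.ownu }

/-- every active wall with a head in `J` contains a slot of `J` (rung `j`) -/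
def HeadOk (j : ℤ) (J : Finset (Fin 18)) : Prop :=
  ∀ k ∈ J, ∀ l ∈ mlW k, (∀ s ∈ l, alW s ≤ j) → ∃ s ∈ l, s ∈ J

instance (j : ℤ) (J : Finset (Fin 18)) : Decidable (HeadOk j J) := by
  unfold HeadOk; infer_instance

/-- **data of a rung which drops only `J ⊆ JW j`** -/
theorem rungJ {θ : Fin 3 → ℝ} {j : ℤ} (hj : 0 < j) {V : Set (Fin 18)}
    (hV : ∀ k ∈ V, 4 ≤ k ∧ (alW k : ℝ) < (j : ℝ)) {b : Fin 18 → ℝ}
    (hb : ∀ k, k ∉ DrW j → b k = btW θ k) {J : Finset (Fin 18)} (hJ : J ⊆ JW j)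
    (hh : HeadOk j J) :
    RungD QW (actW (DrW j)) (DrW j) {k | k = 1 ∨ (k ∈ JW j ∧ k ∉ J)} V 0 (QdW θ) (btW θ) (TW j)
      (saW j) b J := by
  have hj0 : (0 : ℝ) < (j : ℝ) := by exact_mod_cast hj
  have hJW : ∀ k, k ∈ JW j ↔ 4 ≤ k ∧ (alW k : ℝ) = (j : ℝ) := fun k => by
    rw [mem_JW]
    constructor
    · rintro ⟨h3, h4⟩; exact ⟨h3, by rw [h4]⟩
    · rintro ⟨h3, h4⟩; exact ⟨h3, by exact_mod_cast h4⟩
  have R := rungW (θ := θ) hj0 hV hb hJW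
  refine ⟨R.T0, fun i hi => R.TJ i (hJ hi), fun i hi hZ => ?_, R.natT, R.bρ, R.TT, R.qd, ?_, ?_,
    fun i hi => R.JT i (hJ hi), fun h => R.Jz (hJ h)⟩
  · have h1 : i ≠ 1 := fun h => hZ (Or.inl h)
    have h2 : i ∉ JW j := fun h => hZ (Or.inr ⟨h, hi⟩)
    exact R.TZ i h2 h1
  · intro w hw hwJ
    obtain ⟨l, hl, h2, -⟩ := wall_list w
    have h0 : ∀ i, alW i ≤ j ∨ i ∈ DrW j := by
      intro i
      by_cases h : alW i ≤ j
      · exact Or.inl h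
      · right
        refine ⟨?_, by exact_mod_cast not_le.1 h⟩
        by_contra h4
        simp only [alW, if_neg h4] at h
        exact h hj.le
    obtain ⟨s, hs, hsJ⟩ := hh w.1 hwJ l hl fun i hi => by
      rcases h0 i with h | h
      · exact h
      · exact absurd (hw.2 i h) ((co_ne h2 i).2 hi)
    exact ⟨s, hsJ, (co_ne h2 s).2 hs⟩
  · intro i hi hZ
    rcases hZ with h | h
    · have h4 := ((hJW i).1 (hJ hi)).1
      rw [h] at h4
      exact absurd h4 (by decide)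
    · exact h.2 hi

variable {P : Set (Fin 18 → ℝ)} {ν own : (Fin 18 → ℝ) → ℝ} {K : ℝ} {r0 : Fin 18 → ℝ}
  {θ : Fin 3 → ℝ} {g : ℝ} {q : Fin 3 → ℝ} {V T : Set (Fin 18)} {lam lo : (Fin 18 → ℝ) → ℝ}

/-- **one rung which drops only `J ⊆ JW j`** -/
theorem stage_J {j : ℤ} (hj : 0 < j) (hV : ∀ k ∈ V, 4 ≤ k ∧ (alW k : ℝ) < (j : ℝ))
    {J : Finset (Fin 18)} (hJ : J ⊆ JW j) (hh : HeadOk j J)
    (H : StW P ν own K r0 θ g q V j lam lo) {g' : ℝ} (hg : 0 < g')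
    (F : FlW P ν own K r0 θ g q V j (fun lam' => lam' (ind1 J) < 0) g') :
    ∃ lam2 lo2, Stage QW P ν own K r0 (btW θ) (DlW g q) (QdW θ) {k | k = 1 ∨ (k ∈ JW j ∧ k ∉ J)}
      V 0 (btW θ) 1 (actW (DrW j ∪ ↑J)) (DrW j ∪ ↑J) lam2 lo2 := by
  obtain ⟨b, hb, hF⟩ := F
  have hZ : ({1} : Set (Fin 18)) ⊆ {k | k = 1 ∨ (k ∈ JW j ∧ k ∉ J)} := fun k hk =>
    Or.inl (Set.mem_singleton_iff.1 hk)
  have hD : ∀ i ∈ {k : Fin 18 | k = 1 ∨ (k ∈ JW j ∧ k ∉ J)}, i ∉ DrW (j : ℝ) := by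
    rintro i (h | ⟨h, -⟩)
    · rw [h]; exact H.ZD 1 rfl
    · rintro ⟨-, h2⟩
      rw [(mem_JW.1 h).2] at h2
      exact lt_irrefl _ h2
  obtain ⟨lam2, lo2, h3⟩ := rungA (monoZ H hZ hD) (recW θ _ _) (rungJ hj hV hb hJ hh) hg
    (hF lam lo H)
  rw [A2_actW] at h3
  exact ⟨lam2, lo2, h3⟩

/-! ### dropped slots of a resonance -/

/-- slots of weight `j` with positive rate -/
def JR (θ : Fin 3 → ℝ) (j : ℤ) : Set (Fin 18) := {k | k ∈ JW j ∧ 0 < btW θ k}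

/-- **dropped slots of the stage of a resonance of the rung `j`** -/
def DrR (θ : Fin 3 → ℝ) (j : ℤ) : Set (Fin 18) := DrW j ∪ JR θ j

/-- **never dropped slots** -/
def ZR (θ : Fin 3 → ℝ) (j : ℤ) : Set (Fin 18) := {k | k = 1 ∨ (k ∈ JW j ∧ k ∉ DrR θ j)}

theorem ZR_eq {j : ℤ} {J : Finset (Fin 18)} (hJ : ∀ k, k ∈ J ↔ k ∈ JR θ j) :
    ({k | k = 1 ∨ (k ∈ JW j ∧ k ∉ J)} : Set (Fin 18)) = ZR θ j := by
  ext k
  simp only [ZR, Set.mem_ofPred_eq, DrR, Set.mem_union, not_or, hJ]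
  constructor
  · rintro (h | ⟨h1, h2⟩)
    · exact Or.inl h
    · refine Or.inr ⟨h1, ?_, h2⟩
      rintro ⟨-, h3⟩
      rw [(mem_JW.1 h1).2] at h3
      exact lt_irrefl _ h3
  · rintro (h | ⟨h1, -, h2⟩)
    · exact Or.inl h
    · exact Or.inr ⟨h1, h2⟩

theorem DrR_eq {j : ℤ} {J : Finset (Fin 18)} (hJ : ∀ k, k ∈ J ↔ k ∈ JR θ j) :
    DrW (j : ℝ) ∪ ↑J = DrR θ j := by
  unfold DrR
  congr 1
  ext k
  exact hJ k

/-- rates of the slots of one weight -/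
theorem btW_sub {k l : Fin 18} (hz : wz k = wz l) (hn : wn k = wn l) :
    btW θ k = btW θ l + ((wc l - wc k : ℤ) : ℝ) * θ 1 := by
  simp only [btW, grW, hz, hn]
  push_cast
  ring

/-- the stage of the rung `j`, `J = JR θ j` -/
theorem stage_R {j : ℤ} (hj : 0 < j) (hV : ∀ k ∈ V, 4 ≤ k ∧ (alW k : ℝ) < (j : ℝ))
    {J : Finset (Fin 18)} (hJ : ∀ k, k ∈ J ↔ k ∈ JR θ j) (hh : HeadOk j J)
    (H : StW P ν own K r0 θ g q V j lam lo) {g' : ℝ} (hg : 0 < g')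
    (F : FlW P ν own K r0 θ g q V j (fun lam' => lam' (ind1 J) < 0) g') :
    ∃ lam2 lo2, Stage QW P ν own K r0 (btW θ) (DlW g q) (QdW θ) (ZR θ j)
      V 0 (btW θ) 1 (actW (DrR θ j)) (DrR θ j) lam2 lo2 := by
  have := stage_J hj hV (fun k hk => ((hJ k).1 hk).1) hh H hg F
  rwa [ZR_eq hJ, DrR_eq hJ] at this

/-- nothing to drop -/
theorem stage_R0 {j : ℤ} (hJ : ∀ k, k ∉ JR θ j) (H : StW P ν own K r0 θ g q V j lam lo) :
    Stage QW P ν own K r0 (btW θ) (DlW g q) (QdW θ) (ZR θ j)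
      V 0 (btW θ) 1 (actW (DrR θ j)) (DrR θ j) lam lo := by
  have e : DrR θ j = DrW (j : ℝ) := by
    unfold DrR
    rw [Set.eq_empty_of_forall_notMem hJ, Set.union_empty]
  rw [e]
  refine monoZ H (fun k hk => Or.inl (Set.mem_singleton_iff.1 hk)) ?_
  rintro i (h | ⟨-, h⟩)
  · rw [h]; exact H.ZD 1 rfl
  · rwa [e] at h

end Crest.Agent.R136.SZ480
end

-- ▼ part R136/SZ2_480

/-!
# R136, thin branch (helper480): stages of the resonances `Res2`, `Res1`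

* `mem_JR` : the slots of positive rate next to a slot of rate `0`
* `drR2_ok`, `drR1_14`, `drR1_15` : the dropped slots
* **`stage_quad`**, **`stage_lin`** : the stages
* **`ob_quad`**, **`ob_lin`** : the same from an object; `ob_quadN` : with 887's interior point
-/

set_option autoImplicit false
set_option linter.unusedVariables false

open Finset Filter Topology

namespace Crest.Agent.R136.SZ480

open Crest.Agent.R138.Ex926
open Crest.Agent.R136.Net191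
open Crest.Agent.R136.NetW191
open Crest.Agent.R136.PrW464
open Crest.Agent.R136.NatW697
open Crest.Agent.R136.LadW697
open Crest.Agent.R136.LadT830
open Crest.Agent.R136.LadG697
open Crest.Agent.R136.EvW938
open Crest.Agent.R136.AwJ774
open Crest.Agent.R136.K2S774
open Crest.Agent.R136.K2A146
open Crest.Agent.R136.Qgn887
open Crest.Agent.R136.QdH887
open Crest.Agent.R136.ThS830
open Crest.Agent.R136.Lq196
open Crest.Agent.R136.Dg219 (Walls mw)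
open Crest.Agent.R136.Dg262 (X)

variable {P : Set (Fin 18 → ℝ)} {ν own : (Fin 18 → ℝ) → ℝ} {K : ℝ} {r0 : Fin 18 → ℝ}
  {θ : Fin 3 → ℝ} {g : ℝ} {q : Fin 3 → ℝ} {V T Zs : Set (Fin 18)}
  {lam lo : (Fin 18 → ℝ) → ℝ}

theorem wn_flag : ∀ k : Fin 18, 4 ≤ k → wn k = 1 := by decide

/-- **the slots of positive rate next to a slot of rate `0`** -/
theorem mem_JR (h1 : 0 < θ 1) {j : ℤ} {l : Fin 18} (hl : l ∈ JW j) (h0 : btW θ l = 0)
    (k : Fin 18) : k ∈ JR θ j ↔ k ∈ JW j ∧ wc k < wc l := by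
  obtain ⟨l4, lj⟩ := mem_JW.1 hl
  simp only [alW, if_pos l4] at lj
  constructor
  · rintro ⟨hk, hb⟩
    obtain ⟨k4, kj⟩ := mem_JW.1 hk
    simp only [alW, if_pos k4] at kj
    refine ⟨hk, ?_⟩
    rw [btW_sub (θ := θ) (k := k) (l := l) (by omega) (by rw [wn_flag k k4, wn_flag l l4]), h0,
      zero_add] at hb
    have h2 : (0 : ℝ) < ((wc l - wc k : ℤ) : ℝ) := pos_of_mul_pos_left hb h1.le
    have h3 : 0 < wc l - wc k := by exact_mod_cast h2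
    omega
  · rintro ⟨hk, hc⟩
    obtain ⟨k4, kj⟩ := mem_JW.1 hk
    simp only [alW, if_pos k4] at kj
    refine ⟨hk, ?_⟩
    rw [btW_sub (θ := θ) (k := k) (l := l) (by omega) (by rw [wn_flag k k4, wn_flag l l4]), h0,
      zero_add]
    have h3 : 0 < wc l - wc k := by omega
    have h2 : (0 : ℝ) < ((wc l - wc k : ℤ) : ℝ) := by exact_mod_cast h3
    exact mul_pos h2 h1

theorem jr7 (h1 : 0 < θ 1) (h0 : btW θ 7 = 0) (k : Fin 18) : k ∉ JR θ 2 := by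
  rw [mem_JR h1 (l := 7) (by decide) h0]
  revert k; decide

theorem jr9 (h1 : 0 < θ 1) (h0 : btW θ 9 = 0) (k : Fin 18) :
    k ∈ ({7} : Finset (Fin 18)) ↔ k ∈ JR θ 2 := by
  rw [mem_JR h1 (l := 9) (by decide) h0]
  revert k; decide

theorem jr10 (h1 : 0 < θ 1) (h0 : btW θ 10 = 0) (k : Fin 18) :
    k ∈ ({7, 9} : Finset (Fin 18)) ↔ k ∈ JR θ 2 := by
  rw [mem_JR h1 (l := 10) (by decide) h0]
  revert k; decide

theorem jr14 (h1 : 0 < θ 1) (h0 : btW θ 14 = 0) (k : Fin 18) : k ∉ JR θ 1 := by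
  rw [mem_JR h1 (l := 14) (by decide) h0]
  revert k; decide

theorem jr15 (h1 : 0 < θ 1) (h0 : btW θ 15 = 0) (k : Fin 18) :
    k ∈ ({14} : Finset (Fin 18)) ↔ k ∈ JR θ 1 := by
  rw [mem_JR h1 (l := 15) (by decide) h0]
  revert k; decide

theorem two_cast : ((2 : ℤ) : ℝ) = 2 := by norm_num


theorem JW2_79 (h1 : 0 < θ 1) (hres : Res2 θ) {k : Fin 18} (hk : k ∈ JR θ 2) :
    k = 7 ∨ k = 9 := by
  rcases hres with h | h | h
  · exact absurd hk (jr7 h1 h k)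
  · exact Or.inl (mem_singleton.1 ((jr9 h1 h k).2 hk))
  · have := (jr10 h1 h k).2 hk
    rcases mem_insert.1 this with h2 | h2
    · exact Or.inl h2
    · exact Or.inr (mem_singleton.1 h2)

/-- **the dropped slots of `quad`** -/
theorem drR2_ok (h1 : 0 < θ 1) (hres : Res2 θ) : DrOk (DrR θ 2) where
  lo := fun k hk => Or.inl (by rw [two_cast]; exact (mem_D2 k).2 hk)
  hi := fun k hk => by
    rcases hk with h | h
    · rw [two_cast] at h; exact Or.inl ((mem_D2 k).1 h)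
    · exact Or.inr (JW2_79 h1 hres h)

theorem not_D2_of {k : Fin 18} (h : k ∈ DrR θ 2) (hk : alW k = 2) : 0 < btW θ k := by
  rcases h with h | h
  · have := h.2
    rw [hk] at this
    exact absurd this (lt_irrefl _)
  · exact h.2

theorem drR2_7 (h : (7 : Fin 18) ∈ DrR θ 2) : btW θ 7 ≠ 0 := (not_D2_of h (by decide)).ne'
theorem drR2_9 (h : (9 : Fin 18) ∈ DrR θ 2) : btW θ 9 ≠ 0 := (not_D2_of h (by decide)).ne'

/-- the dropped slots of `lin` at `b1 = 2` -/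
theorem drR1_14 (h1 : 0 < θ 1) (h0 : btW θ 14 = 0) (k : Fin 18) :
    k ∈ DrR θ 1 ↔ k ∈ ({4, 5, 6, 7, 8, 9, 10, 11, 12, 13} : Finset (Fin 18)) := by
  have e : k ∈ DrR θ 1 ↔ 4 ≤ k ∧ 1 < alW k := by
    constructor
    · rintro (⟨h, h2⟩ | h)
      · exact ⟨h, by exact_mod_cast h2⟩
      · exact absurd h (jr14 h1 h0 k)
    · rintro ⟨h, h2⟩
      exact Or.inl ⟨h, by exact_mod_cast h2⟩
  rw [e]
  clear e
  revert k; decide

/-- the dropped slots of `lin` at `b1 = 1` -/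
theorem drR1_15 (h1 : 0 < θ 1) (h0 : btW θ 15 = 0) (k : Fin 18) :
    k ∈ DrR θ 1 ↔ k ∈ ({4, 5, 6, 7, 8, 9, 10, 11, 12, 13, 14} : Finset (Fin 18)) := by
  have e : k ∈ DrR θ 1 ↔ (4 ≤ k ∧ 1 < alW k) ∨ k ∈ ({14} : Finset (Fin 18)) := by
    rw [jr15 h1 h0 k]
    constructor
    · rintro (⟨h, h2⟩ | h)
      · exact Or.inl ⟨h, by exact_mod_cast h2⟩
      · exact Or.inr h
    · rintro (⟨h, h2⟩ | h)
      · exact Or.inl ⟨h, by exact_mod_cast h2⟩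
      · exact Or.inr h
  rw [e]
  clear e
  revert k; decide

theorem btW14_ne (h1 : 0 < θ 1) (h0 : btW θ 15 = 0) : btW θ 14 ≠ 0 := by
  have h := (jr15 h1 h0 14).1 (by decide)
  exact h.2.ne'

/-- visible slots have weight `< j` if all walls are `< j` -/
theorem vis_lt (h : CtxW P ν own K r0 θ g q V T) {s : ℝ} (hs : ∀ k ∈ V, KW θ k ≤ s) :
    ∀ k ∈ V, 4 ≤ k ∧ (alW k : ℝ) < s := fun k hk => by
  obtain ⟨h4, -, h5⟩ := vis_al' h.slots hk
  exact ⟨h4, h5.trans_le (hs k hk)⟩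

/-- **the stage of `quad`** -/
theorem stage_quad (hR : RowsC) (h : CtxW P ν own K r0 θ g q V T)
    (hst : ∃ lam lo, StW P ν own K r0 θ g q V 4 lam lo) (hs : ∀ k ∈ V, KW θ k < 2)
    (hres : Res2 θ) :
    ∃ lam lo, Stage QW P ν own K r0 (btW θ) (DlW g q) (QdW θ) (ZR θ 2) V 0 (btW θ) 1
      (actW (DrR θ 2)) (DrR θ 2) lam lo := by
  have hlt : ∀ {t : ℝ}, 2 < t → ∀ k ∈ V, KW θ k < t := fun ht k hk => (hs k hk).trans ht
  have hV := vis_lt h (s := 2) fun k hk => (hs k hk).le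
  obtain ⟨lam, lo, H⟩ := StW.down two_pos hV hst (fun j hj1 hj4 hsj => by
    rcases j4 hj1 hj4 with rfl | rfl | rfl | rfl
    · exact hR.pin4 _ _ _ _ _ _ _ _ _ _ h (hlt (by norm_num))
    · exact hR.pin3 _ _ _ _ _ _ _ _ _ _ h (hlt (by norm_num))
    · norm_num at hsj
    · norm_num at hsj)
  have hg : 0 < g / 4 := by have := h.g0; positivity
  have e2 : (2 : ℝ) = ((2 : ℤ) : ℝ) := by norm_num
  rcases hres with h7 | h9 | h10
  · rw [e2] at H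
    exact ⟨lam, lo, stage_R0 (jr7 h.θ1 h7) H⟩
  · have F := Pin851.drop3 h hs h9
    rw [e2] at H F
    rw [e2] at hV
    exact stage_R (by norm_num) hV (jr9 h.θ1 h9) (by decide) H hg F
  · have F := Pin851.drop2 h hs h10
    rw [e2] at H F
    rw [e2] at hV
    exact stage_R (by norm_num) hV (jr10 h.θ1 h10) (by decide) H hg F

/-- **the stage of `lin`** -/
theorem stage_lin (hR : RowsC) (h : CtxW P ν own K r0 θ g q V T) (hz : ZeroS P ν own Zs)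
    (hst : ∃ lam lo, StW P ν own K r0 θ g q V 4 lam lo) (hV0 : ∀ k, k ∉ V)
    (h2 : ↑(JW 2) ⊆ Zs ∨ ¬ Res2 θ) (hres : Res1 θ) :
    ∃ lam lo, Stage QW P ν own K r0 (btW θ) (DlW g q) (QdW θ) (ZR θ 1) V 0 (btW θ) 1
      (actW (DrR θ 1)) (DrR θ 1) lam lo := by
  have hlt : ∀ {t : ℝ}, ∀ k ∈ V, KW θ k < t := fun k hk => absurd hk (hV0 k)
  have hV : ∀ k ∈ V, 4 ≤ k ∧ (alW k : ℝ) < 1 := fun k hk => absurd hk (hV0 k)
  obtain ⟨lam, lo, H⟩ := StW.down one_pos hV hst (fun j hj1 hj4 hsj => by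
    rcases j4 hj1 hj4 with rfl | rfl | rfl | rfl
    · exact hR.pin4 _ _ _ _ _ _ _ _ _ _ h hlt
    · exact hR.pin3 _ _ _ _ _ _ _ _ _ _ h hlt
    · rcases h2 with h2 | h2
      · exact hR.pin2z _ _ _ _ _ _ _ _ _ _ h (hz.mono h2) trivial
      · exact hR.pin2 _ _ _ _ _ _ _ _ _ _ h ⟨hlt, h2⟩
    · norm_num at hsj)
  have hg : 0 < g / 4 := by have := h.g0; positivity
  have e1 : (1 : ℝ) = ((1 : ℤ) : ℝ) := by norm_num
  rcases hres with h14 | h15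
  · rw [e1] at H
    exact ⟨lam, lo, stage_R0 (jr14 h.θ1 h14) H⟩
  · have F := Pin851.drop1 h hlt h15
    rw [e1] at H F
    rw [e1] at hV
    exact stage_R (by norm_num) hV (jr15 h.θ1 h15) (by decide) H hg F

/-! ### from an object -/

/-- **the stage of `quad` from an object**, record point at `v1` -/
theorem ob_quad (hR : RowsC) {w0 R T0 : ℝ} {B B' : Base} {I0 I : ℕ → Finset (ℕ × ℝ)} {κ : ℕ → ℝ}
    {u : ℕ → Fin 18 → ℝ} {F : ℕ → ℕ × ℝ → FW} {X : ℕ → Fin 18 → ℝ} {w Tn To : ℕ → ℝ}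
    {PD : Set (Fin 18 → ℝ)} {c₀ : ℝ}
    (H : ZW θ g q V T w0 R T0 B B' I0 I κ u F X w Tn To PD ν own c₀)
    (hS : SlotOkW θ (fun k => k ∈ V) (fun k => k ∈ T)) (hs : ∀ k ∈ V, KW θ k < 2)
    (hres : Res2 θ) {v1 : ℝ} (h0 : 0 < v1) (h1 : v1 < 1) :
    CtxW (Leg monW R) ν own 18 (pathW θ w0 v1) θ g q V T ∧
    ∃ lam lo, Stage QW (Leg monW R) ν own 18 (pathW θ w0 v1) (btW θ) (DlW g q) (QdW θ) (ZR θ 2)
      V 0 (btW θ) 1 (actW (DrR θ 2)) (DrR θ 2) lam lo := by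
  have C := CtxZ830.seamCtx _ _ _ _ _ _ _ _ _ _ _ _ _ _ _ _ _ _ _ _ _ _ _ H hS v1 h0 h1
  exact ⟨C, stage_quad hR C (H.init h0 h1) hs hres⟩

/-- **the stage of `lin` from an object**, record point at `v1` -/
theorem ob_lin (hR : RowsC) {w0 R T0 : ℝ} {B B' : Base} {I0 I : ℕ → Finset (ℕ × ℝ)} {κ : ℕ → ℝ}
    {u : ℕ → Fin 18 → ℝ} {F : ℕ → ℕ × ℝ → FW} {X : ℕ → Fin 18 → ℝ} {w Tn To : ℕ → ℝ}
    {PD : Set (Fin 18 → ℝ)} {c₀ : ℝ}
    (H : ZW θ g q V T w0 R T0 B B' I0 I κ u F X w Tn To PD ν own c₀)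
    (hz : ZeroS (Leg monW R) ν own Zs)
    (hS : SlotOkW θ (fun k => k ∈ V) (fun k => k ∈ T)) (hV0 : ∀ k, k ∉ V)
    (h2 : ↑(JW 2) ⊆ Zs ∨ ¬ Res2 θ) (hres : Res1 θ) {v1 : ℝ} (h0 : 0 < v1) (h1 : v1 < 1) :
    CtxW (Leg monW R) ν own 18 (pathW θ w0 v1) θ g q V T ∧
    ∃ lam lo, Stage QW (Leg monW R) ν own 18 (pathW θ w0 v1) (btW θ) (DlW g q) (QdW θ) (ZR θ 1)
      V 0 (btW θ) 1 (actW (DrR θ 1)) (DrR θ 1) lam lo := by
  have C := CtxZ830.seamCtx _ _ _ _ _ _ _ _ _ _ _ _ _ _ _ _ _ _ _ _ _ _ _ H hS v1 h0 h1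
  exact ⟨C, stage_lin hR C hz (H.init h0 h1) hV0 h2 hres⟩


end Crest.Agent.R136.SZ480
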