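import Crest.Agent.R136.LnN_619
import Crest.Agent.R136.Int2_599
import Crest.Agent.R136.LinD_560
import Crest.Agent.R136.RLb_66
import Crest.Agent.R136.Js_893
import Crest.Agent.R136.LadW4_697
import Crest.Agent.R136.Qgn3_887
import Crest.Agent.R136.QGd_312
import Crest.Agent.R136.QGc_312
import Crest.Agent.R136.Qh3_831
import Crest.Agent.R136.SZ2_480
import Crest.Agent.R136.RL10_478

-- ▼ part R136/LnW_619
section

/-!
# R136, thin branch (helper619): the window of `lin` (rung `s = 1`)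

* `LnW Dq Uq W κ u f mm σ x` : window with `S = {0}`, every top `x`, tight walls between the slots
  which are not dropped, the other walls at infinite distance, `|κ| ≥ ρ^ε`, density and Frostman
  conditions, legality, and the numbers of `LnL` in `W.nu`
* `LnW.of_lnL` : the numbers from `LnL`
* `LnW.modelE` : pruned set and `RModel` inside any dense part
* **`exists_lnW`** : at a point `PtN`, inside any dense set `J'`, with any losses
-/

set_option autoImplicit false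
set_option linter.unusedSectionVars false
set_option linter.unusedVariables false

open Filter Topology

namespace Crest.Agent.R136.Ln619

open Finset Crest.Agent.R138.Ex926 Crest.Agent.R136.Net191 Crest.Agent.R136.Gf356
open Crest.Agent.R136.Qg926 Crest.Agent.R136.Dg219 Crest.Agent.R136.Aw413
open Crest.Agent.R136.NetW191 Crest.Agent.R136.EvW938 Crest.Agent.R136.PrW464
open Crest.Agent.R136.LadW697 Crest.Agent.R136.AwJ774 Crest.Agent.R136.Bas938
open Crest.Agent.R136.Ht887 Crest.Agent.R136.Win887 Crest.Agent.R136.Qgn887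
open Crest.Agent.R136.QdH887 (bv bv_in bv_out wdatA)
open Crest.Agent.R136.K2S774 (cn)

/-- **the window of `lin`** : positions `Uq`, velocities `{1, 16}`, dropped slots `Dq` -/
structure LnW (Dq Uq : Finset (Fin 18)) (W : Wnd 18 fun _ => ℕ × ℝ) (κ : ℕ → ℝ)
    (u : ℕ → Fin 18 → ℝ) (f : ∀ n : ℕ, ℕ × ℝ → FW) (mm σ x : ℝ) : Prop where
  x0 : 0 < x
  m0 : 0 < mm
  s0 : 0 < σ
  ww : WWnd W κ u f
  eS : W.S = {0}
  etop : W.top = fun _ => x
  ekap : W.kap = fun _ => 1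
  dw : ∀ n, W.B'.d n = W.B.d n ^ W.w n
  hk : ∀ ε : ℝ, 0 < ε → ∀ᶠ n in (U : Filter ℕ), W.B'.d n ^ ε ≤ |κ n|
  /-- walls between slots which are not dropped -/
  tight : ∀ k, k ∉ Dq → ∀ l ∈ mlW k, (∀ s ∈ l, s ∉ Dq) → ∀ n, W.X n k = (l.map (W.X n)).sum
  /-- the other walls are at infinite distance -/
  gap : ∀ k, ∀ l ∈ mlW k, (k ∈ Dq ∨ ∃ s ∈ l, s ∈ Dq) → ∀ R : ℝ, ∀ᶠ n in (U : Filter ℕ),
    W.X n k + R * W.w n ≤ (l.map (W.X n)).sum
  room : ∀ s, ∀ R : ℝ, ∀ᶠ n in (U : Filter ℕ), R * W.w n ≤ W.X n s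
  dens : W.lam W.top ≤ W.lam (cut W.S W.top 0) + W.lam (cut W.S 0 W.top)
  frost : ∀ y : ℝ, 0 ≤ y → y ≤ x → W.lam (Pi.single 0 y) ≤ -(1 * y)
  /-- legal boxes -/
  leg : ∀ p : Fin 18 → ℝ, (∀ s, 0 ≤ p s) → (∀ s, p s ≤ x) →
    (∀ k, k ∉ Dq → ∀ l ∈ mlW k, (∀ s ∈ l, s ∉ Dq) →
      cut {0} p (fun _ => x) k ≤ (l.map (cut {0} p (fun _ => x))).sum) → p ∈ W.legW
  n3 : W.nu 0 + W.nu (bv x (Uq ∪ {1, 16})) ≤ W.nu (bv x Uq) + W.nu (bv x {1, 16})
  n4 : W.nu 0 - ((Uq.card : ℝ) - σ) * x ≤ W.nu (bv x Uq)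
  n5 : ∀ y, 0 ≤ y → W.nu (Pi.single 1 y) ≤ W.nu 0 - mm * y

section fin

variable {Dq Uq : Finset (Fin 18)} {W : Wnd 18 fun _ => ℕ × ℝ} {κ : ℕ → ℝ}
  {u : ℕ → Fin 18 → ℝ} {f : ∀ n : ℕ, ℕ × ℝ → FW} {mm σ x : ℝ}

theorem cut_bv (x : ℝ) (Q : Finset (Fin 18)) :
    cut {0} (bv x Q) (fun _ => x) = bv x (insert 0 Q) := by
  funext s
  by_cases h0 : s = 0
  · subst h0
    rw [cut_of_mem (mem_singleton_self 0), bv_in (mem_insert_self _ _)]
  · rw [cut_of_notMem (by rw [mem_singleton]; exact h0)]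
    unfold bv
    simp only [mem_insert, h0, false_or]

theorem cut_zero0 (x : ℝ) : cut {0} (0 : Fin 18 → ℝ) (fun _ => x) = bv x {0} := by
  have e : (0 : Fin 18 → ℝ) = bv x ∅ := by funext s; simp [bv]
  rw [e, cut_bv]
  rfl

theorem cut_one (x y : ℝ) : cut {0} (Pi.single (1 : Fin 18) y) (fun _ => x) =
    Function.update (bv x {0}) 1 y := by
  funext s
  by_cases h0 : s = 0
  · subst h0
    rw [cut_of_mem (mem_singleton_self 0), Function.update_of_ne (by decide),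
      bv_in (mem_singleton_self 0)]
  · rw [cut_of_notMem (by rw [mem_singleton]; exact h0)]
    by_cases h1 : s = 1
    · subst h1; rw [Pi.single_eq_same, Function.update_self]
    · rw [Pi.single_eq_of_ne h1, Function.update_of_ne h1,
        bv_out (by rw [mem_singleton]; exact h0)]

/-- **the numbers of the window from the numbers of the tangent** -/
theorem LnL.nums {lam : (Fin 18 → ℝ) → ℝ} (h : LnL Uq lam mm σ x) (eS : W.S = {0})
    (etop : W.top = fun _ => x) (elam : W.lam = lam) :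
    (W.nu 0 + W.nu (bv x (Uq ∪ {1, 16})) ≤ W.nu (bv x Uq) + W.nu (bv x {1, 16})) ∧
    (W.nu 0 - ((Uq.card : ℝ) - σ) * x ≤ W.nu (bv x Uq)) ∧
    (∀ y, 0 ≤ y → W.nu (Pi.single 1 y) ≤ W.nu 0 - mm * y) := by
  have hnu : ∀ p, W.nu p = lam (cut {0} p fun _ => x) - lam fun _ => x := by
    intro p
    unfold Wnd.nu
    rw [eS, etop, elam]
  have c0 := cut_zero0 x
  have c1 := cut_bv x (Uq ∪ {1, 16})
  have c2 := cut_bv x Uq
  have c3 := cut_bv x {1, 16}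
  have e3 : insert (0 : Fin 18) ({1, 16} : Finset (Fin 18)) = {0, 1, 16} := rfl
  rw [e3] at c3
  refine ⟨?_, ?_, fun y hy => ?_⟩
  · rw [hnu, hnu, hnu, hnu, c0, c1, c2, c3]
    linarith [h.h3]
  · rw [hnu, hnu, c0, c2]
    linarith [h.h4]
  · rw [hnu, hnu, cut_one, c0]
    linarith [h.h5 y hy]





end fin

section pt

variable {B Bo : Base} {I J : ∀ n : ℕ, Finset (ℕ × ℝ)}
  {co : ∀ n : ℕ, ℕ × ℝ → ℕ × ℝ → Fin 18 → ℝ} {kp : ℕ → ℝ} {u : ℕ → Fin 18 → ℝ}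
  {F : ∀ n : ℕ, ℕ × ℝ → FW} {Ma : Mons 18} {Dr : Set (Fin 18)} {C : ℝ}
  {lam : (Fin 18 → ℝ) → ℝ} {a b : Fin 18 → ℝ} {A : ℝ × ℝ} {φ : ℕ → (Fin 18 → ℝ) → ℝ}
  {r : ℕ → ℝ} {κ : Fin 18 → ℝ} {V Tw : Fin 18 → Prop} {Dq Uq : Finset (Fin 18)}




end pt

/-! ### `PtC` form, `N ∥ B` -/

section ptC

variable {B Bo : Base} {I J : ℕ → Finset (ℕ × ℝ)} {co : ∀ n : ℕ, ℕ × ℝ → ℕ × ℝ → Fin 18 → ℝ}
  {C : ℝ} {κ : ℕ → ℝ} {u : ℕ → Fin 18 → ℝ} {f : ℕ → ℕ × ℝ → FW} {K : ℝ} {θ q : Fin 3 → ℝ}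
  {V T : Set (Fin 18)} {lam lo : (Fin 18 → ℝ) → ℝ} {A : ℝ × ℝ}
  {φ : ℕ → (Fin 18 → ℝ) → ℝ} {r : ℕ → ℝ}

open Crest.Agent.R136.NatW697 (KW)


end ptC

end Crest.Agent.R136.Ln619
end

-- ▼ part R136/LnI_619
section

/-!
# R136, thin branch (helper619): the window of `lin` inside an interior `ZWin`

* `LnD lam x` : density and Frostman conditions of the tangent, `lnD_of`
* `room_of` : room of a `ZWin`
* **`lnW_iw`** : `LnW` for 599's window `iw` (`S = {0}`) over a `ZWin` with `BasX`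
* **`ln_core`** : a relation on a `ρ^ε` part of every such window gives the relation on all classes
  of one dense part of the family
-/

set_option autoImplicit false
set_option linter.unusedSectionVars false
set_option linter.unusedVariables false

open Filter Topology

namespace Crest.Agent.R136.Ln619

open Finset Crest.Agent.R138.Ex926 Crest.Agent.R136.Net191 Crest.Agent.R136.Gf356
open Crest.Agent.R136.Qg926 Crest.Agent.R136.Dg219 Crest.Agent.R136.Aw413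
open Crest.Agent.R136.NetW191 Crest.Agent.R136.EvW938 Crest.Agent.R136.PrW464
open Crest.Agent.R136.LadW697 Crest.Agent.R136.AwJ774 Crest.Agent.R136.Bas938
open Crest.Agent.R136.Ht887 Crest.Agent.R136.Win887 Crest.Agent.R136.Qgn887
open Crest.Agent.R136.QdH887 (bv bv_in bv_out wdatA)
open Crest.Agent.R136.K2S774 (cn)
open Crest.Agent.R136.LadG697 (coU)
open Crest.Agent.R136.Int599 (iw iw_st_ok iw_top iw_leg)
open Crest.Agent.R136.Gau66 (local_to_global)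
open Crest.Agent.R138.Dp76 (Dense)

/-- **density and Frostman conditions** of the tangent at the scale `x` -/
structure LnD (lam : (Fin 18 → ℝ) → ℝ) (x : ℝ) : Prop where
  dens : lam (fun _ => x) ≤ lam (cut {0} (fun _ => x) 0) + lam (cut {0} 0 (fun _ => x))
  frost : ∀ y : ℝ, 0 ≤ y → y ≤ x → lam (Pi.single 0 y) ≤ -(1 * y)

section pt

variable {B Bo : Base} {I J : ∀ n : ℕ, Finset (ℕ × ℝ)}
  {co : ∀ n : ℕ, ℕ × ℝ → ℕ × ℝ → Fin 18 → ℝ} {kp : ℕ → ℝ} {u : ℕ → Fin 18 → ℝ}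
  {F : ∀ n : ℕ, ℕ × ℝ → FW} {Ma : Mons 18} {Dr : Set (Fin 18)} {C : ℝ}
  {lam : (Fin 18 → ℝ) → ℝ} {a b : Fin 18 → ℝ} {A : ℝ × ℝ} {φ : ℕ → (Fin 18 → ℝ) → ℝ}
  {r : ℕ → ℝ} {κ : Fin 18 → ℝ} {V Tw : Fin 18 → Prop}

/-- **density and Frostman conditions at a point** without visible slots -/
theorem lnD_of (h : PtN B Bo I J co kp u F Ma Dr C lam a b A φ r κ V Tw) (hV : ∀ k, ¬ V k)
    {x : ℝ} (hx : 0 < x) : LnD lam x := by
  have hden := PtN.dens0 h wdatA hx fun k hk => absurd hk (hV k)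
  have e0 : scV x (fun _ : Fin 18 => 0) = 0 := scV_zero x
  have et : scV x (fun _ : Fin 18 => 1) = fun _ => x := by
    funext k; simp [scV]
  refine ⟨?_, fun y hy hyx => ?_⟩
  · have := hden.dens
    rw [e0] at this
    simp only [zero_add, h.aew.zero, sub_zero] at this
    have e1 : (wst Ma (fun _ => 0) (fun _ => 1) 1 {0} x).top = fun _ => x := et
    have e2 : (wst Ma (fun _ => 0) (fun _ => 1) 1 {0} x).S = {0} := rfl
    rw [e1, e2] at this
    exact this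
  · have := hden.frost y hy hyx
    rw [e0] at this
    simp only [zero_add, h.aew.zero, sub_zero] at this
    exact this

end pt

section zw

variable {B B' : Base} {I J : ℕ → Finset (ℕ × ℝ)}
  {kp : ℕ → ℝ} {u : ℕ → Fin 18 → ℝ} {f : ℕ → ℕ × ℝ → FW} {Y : ℕ → Fin 18 → ℝ}
  {w : ℕ → ℝ} {Tz : ℕ → ℝ} {Ma : Mons 18} {Dr : Set (Fin 18)} {lam : (Fin 18 → ℝ) → ℝ}
  {x mm σ : ℝ} {Dq Uq : Finset (Fin 18)} {Gd : ℕ → Finset (ℕ × ℝ)} {s₀ : ℕ → ℕ × ℝ}
  {co : ∀ n : ℕ, ℕ × ℝ → ℕ × ℝ → Fin 18 → ℝ} {C : ℝ}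

/-- a negative natural direction -/
theorem gr_neg (k : Fin 18) : grW (-1) (-1) (-10) k ≤ -1 := by
  have h : ∀ k : Fin 18, wz k * (-1) + wc k * (-1) + wn k * (-10) ≤ -1 := by decide
  have := h k
  unfold grW
  exact_mod_cast this

theorem gr_mem (hA : ActM Ma Dr) {R : ℝ} : R • grW (-1) (-1) (-10) ∈ coneM Ma := by
  have h1 : R • grW (-1) (-1) (-10) ∈ coneM (mA monW (actW Dr)) := by
    rw [coneM_mA]
    exact ((nat_grW _ (-1) (-1) (-10)).smul R).mem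
  rw [(actM_mA Dr).cone] at h1
  rw [hA.cone]
  exact h1

/-- **room** -/
theorem room_of (hZ : ZWin B B' I J co monW C Y w (coneM Ma) Tz lam) (hA : ActM Ma Dr)
    (s : Fin 18) (R : ℝ) : ∀ᶠ n in (U : Filter ℕ), R * w n ≤ Y n s := by
  have h0 : (0:ℝ) ≤ max R 0 := le_max_right _ _
  filter_upwards [hZ.legal ‖max R 0 • grW (-1) (-1) (-10)‖] with n hn
  have h1 := (hn _ (gr_mem hA) le_rfl).nonneg s
  have hw := hZ.w0 n
  have h2 := gr_neg s
  simp only [Pi.add_apply, Pi.smul_apply, smul_eq_mul] at h1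
  have h3 : w n * (max R 0 * grW (-1) (-1) (-10) s) ≤ w n * (max R 0 * (-1)) :=
    mul_le_mul_of_nonneg_left (mul_le_mul_of_nonneg_left h2 h0) hw.le
  have h4 : R * w n ≤ max R 0 * w n := mul_le_mul_of_nonneg_right (le_max_left _ _) hw.le
  nlinarith

/-- **the window of `lin` on a class inside an interior `ZWin`** -/
theorem lnW_iw (hZ : ZWin B B' I J (coU u kp f) monW 67 Y w (coneM Ma) Tz lam)
    (hX : AwZ146.BasX monW Ma Ma Y w) (hA : ActM Ma Dr) (hDq : ∀ k, k ∈ Dr ↔ k ∈ Dq)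
    (hgr : ∀ n, GrU (u n)) (hk1 : ∀ n, |kp n| ≤ 1) (hkp : B'.Sub fun n => |kp n|⁻¹)
    (hx : 0 < x) (hm : 0 < mm) (hσ : 0 < σ) (hD : LnD lam x) (hN : LnL Uq lam mm σ x)
    (hok : (iw B B' I J (coU u kp f) 67 Y w Ma Tz lam {0} x Gd s₀).Ok) :
    LnW Dq Uq (iw B B' I J (coU u kp f) 67 Y w Ma Tz lam {0} x Gd s₀) kp u f mm σ x := by
  have hd := wdatA
  have eS : (iw B B' I J (coU u kp f) 67 Y w Ma Tz lam {0} x Gd s₀).S = {0} := rfl
  have etop : (iw B B' I J (coU u kp f) 67 Y w Ma Tz lam {0} x Gd s₀).top = fun _ => x := iw_top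
  have elam : (iw B B' I J (coU u kp f) 67 Y w Ma Tz lam {0} x Gd s₀).lam = lam := rfl
  obtain ⟨n3, n4, n5⟩ := hN.nums eS etop elam
  refine
    { x0 := hx
      m0 := hm
      s0 := hσ
      ww :=
        { ok := hok
          hκ := hk1
          hl := hgr
          hM := rfl
          hco := fun n i _ j _ s => rfl
          kz := rfl
          h0 := hd.zS
          hS := hd.hS }
      eS := eS
      etop := etop
      ekap := rfl
      dw := hZ.base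
      hk := ?_
      tight := ?_
      gap := ?_
      room := fun s R => room_of hZ hA s R
      dens := ?_
      frost := fun y h0 h1 => hD.frost y h0 h1
      leg := ?_
      n3 := n3
      n4 := n4
      n5 := n5 }
  · intro ε hε
    filter_upwards [hkp.ev_le hε, hkp.1.pos] with n hn hpos
    have h3 : 0 < |kp n| := inv_pos.1 hpos
    have h5 := hn.2
    rw [Real.log_inv] at h5
    show B'.d n ^ ε ≤ |kp n|
    rw [Real.rpow_def_of_pos (B'.pos n), ← Real.exp_log h3]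
    refine Real.exp_le_exp.2 ?_
    unfold Base.L at h5
    linarith
  · intro k hk l hl hls n
    have := hX.act k _ ((hA.iff k _).2 ⟨fun h1 => hk ((hDq k).1 h1), l, hl,
      fun s hs' h1 => hls s hs' ((hDq s).1 h1), rfl⟩) n
    rwa [← sum_count] at this
  · intro k l hl hor R
    have := hX.gap k (fun s => l.count s) (mem_monW.2 ⟨l, hl, rfl⟩) (fun he => by
      obtain ⟨hkD, l', hl', hls', e⟩ := (hA.iff k _).1 he
      rcases hor with h1 | ⟨s, hs', h1⟩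
      · exact hkD ((hDq k).2 h1)
      · have h2 : 0 < l.count s := List.count_pos_iff.2 hs'
        have h3 : l.count s = l'.count s := congrFun e s
        rw [h3] at h2
        exact hls' s (List.count_pos_iff.1 h2) ((hDq s).2 h1)) R
    filter_upwards [this] with n hn
    rwa [← sum_count] at hn
  · rw [etop, eS]; exact hD.dens
  · intro p hp0 hpx hw
    rw [WSt.mem_legW]
    have hcn : ∀ s, 0 ≤ cut {0} p (fun _ => x) s := fun s => by
      by_cases h0 : s ∈ ({0} : Finset (Fin 18))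
      · rw [cut_of_mem h0]; exact hx.le
      · rw [cut_of_notMem h0]; exact hp0 s
    refine ⟨?_, fun k _ => ?_⟩
    · show cut {0} p (scV x fun _ => 1) ∈ _
      rw [Int599.scV_one]
      refine iw_leg (Gd := Gd) (s₀ := s₀) (B := B) (B' := B') (I := I) (J := J)
        (co := coU u kp f) (C := 67) (Y := Y) (w := w) (Tz := Tz) (lam := lam) (S := {0}) ?_ hcn
        (fun s => ?_)
      · rw [hA.cone]
        exact fun k hk l hl hs => hw k (fun h1 => hk ((hDq k).2 h1)) l hl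
          fun s hs' h1 => hs s hs' ((hDq s).2 h1)
      · by_cases h0 : s ∈ ({0} : Finset (Fin 18))
        · rw [cut_of_mem h0]
        · rw [cut_of_notMem h0]; exact hpx s
    · show p k ≤ scV x (fun _ => 1) k
      rw [Int599.scV_one]
      exact hpx k

/-- **from the windows to all classes of a dense part** -/
theorem ln_core (hZ : ZWin B B' I J (coU u kp f) monW 67 Y w (coneM Ma) Tz lam)
    (hX : AwZ146.BasX monW Ma Ma Y w) (hA : ActM Ma Dr) (hDq : ∀ k, k ∈ Dr ↔ k ∈ Dq)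
    (hgr : ∀ n, GrU (u n)) (hk1 : ∀ n, |kp n| ≤ 1) (hkp : B'.Sub fun n => |kp n|⁻¹)
    (hx : 0 < x) (hm : 0 < mm) (hσ : 0 < σ) (hD : LnD lam x) (hN : LnL Uq lam mm σ x)
    (Rel : ℕ → ℝ → Finset (ℕ × ℝ) → Prop)
    (hmono : ∀ n ε G G', G' ⊆ G → Rel n ε G → Rel n ε G')
    (hweak : ∀ n ε ε' G, ε ≤ ε' → Rel n ε G → Rel n ε' G)
    (hres : ∀ (Gd : ℕ → Finset (ℕ × ℝ)) (s₀ : ℕ → ℕ × ℝ),
      LnW Dq Uq (iw B B' I J (coU u kp f) 67 Y w Ma Tz lam {0} x Gd s₀) kp u f mm σ x →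
      ∀ ε : ℝ, 0 < ε → ∀ᶠ n in (U : Filter ℕ),
        ∃ G ⊆ (iw B B' I J (coU u kp f) 67 Y w Ma Tz lam {0} x Gd s₀).Cl n,
          B'.d n ^ ε * (((iw B B' I J (coU u kp f) 67 Y w Ma Tz lam {0} x Gd s₀).Cl n).card : ℝ) ≤
            (G.card : ℝ) ∧ Rel n ε G) :
    ∃ J1 : ℕ → Finset (ℕ × ℝ), (∀ n, J1 n ⊆ J n) ∧ Dense B' J1 J ∧
      ∀ ε : ℝ, 0 < ε → ∀ᶠ n in (U : Filter ℕ), ∀ s ∈ J1 n,
        Rel n ε (cls (J1 n) (zlab B I (coU u kp f) monW 67 Y w n 0) s) := by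
  have hst := iw_st_ok hA wdatA hx.le
  refine local_to_global (B := B') (J := J) (fun n => zlab B I (coU u kp f) monW 67 Y w n 0)
    hZ.T0 (fun ε hε => by
      filter_upwards [hZ.prof.up 0 ε hε] with n hn s hs
      have := hn 0 hZ.zero (by rw [norm_zero]) s hs
      rwa [hZ.lam0, zero_add] at this)
    Rel hmono hweak ?_
  intro Gd hGd _ hdens ε hε
  obtain ⟨s₀, hs₀, hok⟩ := hZ.exists_wnd hst (fun _ => (0, 0)) (Gd := Gd) (E := Gd)
    (Eventually.of_forall hGd) (Eventually.of_forall fun n => Subset.refl _)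
    (Sd := fun _ => 2) (Base.Sub.const two_pos) hdens
  have hW := lnW_iw hZ hX hA hDq hgr hk1 hkp hx hm hσ hD hN hok
  filter_upwards [hres Gd s₀ hW (ε / 2) (by positivity), hok.cls.big (ε / 2) (by positivity)]
    with n hn hb
  obtain ⟨G, hG1, hG2, hG3⟩ := hn
  refine ⟨s₀ n, G, hG1, ?_, hweak n _ _ G (by linarith) hG3⟩
  refine le_trans ?_ hG2
  have hb' : Tz n * B'.d n ^ (ε / 2) ≤
      (((iw B B' I J (coU u kp f) 67 Y w Ma Tz lam {0} x Gd s₀).Cl n).card : ℝ) := hb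
  have hp : 0 < B'.d n ^ (ε / 2) := Real.rpow_pos_of_pos (B'.pos n) _
  calc Tz n * B'.d n ^ ε = B'.d n ^ (ε / 2) * (Tz n * B'.d n ^ (ε / 2)) := by
        have : ε = ε / 2 + ε / 2 := by ring
        nth_rewrite 1 [this]
        rw [Real.rpow_add (B'.pos n)]; ring
    _ ≤ _ := mul_le_mul_of_nonneg_left hb' hp.le

end zw

end Crest.Agent.R136.Ln619
end

-- ▼ part R136/LinF1_403
section

/-!
# R136, thin branch (helper403): `lin`, from the windows to one gauge on a dense part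

* `LRel` : 560's `LinRel` in absolute units
* **`lin_front`** : an interior `ZWin` with the numbers of `lin` and 560's relation on every window
  give a dense part `J1` and ONE gauge `j` (all losses), supported on `Qj`, of natural size at the base
  of the window, with the relation of precision `K` for all pairs of every class
-/

set_option autoImplicit false
set_option linter.unusedSectionVars false
set_option linter.unusedVariables false

open Filter Topology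

namespace Crest.Agent.R136.LinF403

open Finset Crest.Agent.R138.Ex926 Crest.Agent.R136.Net191 Crest.Agent.R136.Gf356
open Crest.Agent.R136.Qg926 Crest.Agent.R136.Dg219 Crest.Agent.R136.Aw413
open Crest.Agent.R136.NetW191 Crest.Agent.R136.EvW938 Crest.Agent.R136.PrW464
open Crest.Agent.R136.LadW697 Crest.Agent.R136.AwJ774 Crest.Agent.R136.Bas938
open Crest.Agent.R136.LadG697 (coU)
open Crest.Agent.R136.Int599 (iw)
open Crest.Agent.R136.Ln619 (LnL LnD ln_core)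
open Crest.Agent.R138.Dp76 (Dense)

/-- the windows of 619 are windows of 560 -/
theorem lnW_560 {Dq Uq : Finset (Fin 18)} {W : Wnd 18 fun _ => ℕ × ℝ} {κ : ℕ → ℝ}
    {u : ℕ → Fin 18 → ℝ} {f : ∀ n : ℕ, ℕ × ℝ → FW} {mm σ x : ℝ}
    (g : Ln619.LnW Dq Uq W κ u f mm σ x) : Lin560.LnW Dq Uq W κ u f mm σ x :=
  { x0 := g.x0
    m0 := g.m0
    s0 := g.s0
    ww := g.ww
    eS := g.eS
    etop := g.etop
    ekap := g.ekap
    dw := g.dw
    hk := g.hk
    tight := g.tight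
    gap := g.gap
    room := g.room
    dens := g.dens
    frost := g.frost
    leg := g.leg
    n3 := g.n3
    n4 := g.n4
    n5 := g.n5 }

/-- side of the slot `4 + q` at the base -/
noncomputable def sda (B : Base) (Y u : ℕ → Fin 18 → ℝ) (n : ℕ) (q : Fin 14) : ℝ :=
  B.d n ^ Y n (Fin.natAdd 4 q) / u n (Fin.natAdd 4 q)

/-- **`LinRel` in absolute units** -/
def LRel (Qj : Finset (Fin 14)) (B B' : Base) (Y : ℕ → Fin 18 → ℝ) (κ : ℕ → ℝ)
    (u : ℕ → Fin 18 → ℝ) (f : ℕ → ℕ × ℝ → FW) (n : ℕ) (s t : ℝ) (G : Finset (ℕ × ℝ)) : Prop :=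
  ∃ j : ℕ × ℝ → Fin 14 → ℝ, (∀ y, ∀ q, q ∉ Qj → j y q = 0) ∧
    (∀ y ∈ G, ∀ q ∈ Qj, |j y q| ≤ B'.d n ^ (-s) * sda B Y u n q) ∧
    ∀ y ∈ G, ∀ y' ∈ G, ∀ q ∈ Qj ∪ {12},
      |coW (κ n) (f n y) (f n y') (Fin.natAdd 4 q) -
        (j y' q - tr (κ n) (rel (κ n) (f n y).g (f n y').g) (j y) q)| ≤
        B'.d n ^ t * sda B Y u n q

theorem LRel.mono {Qj : Finset (Fin 14)} {B B' : Base} {Y : ℕ → Fin 18 → ℝ} {κ : ℕ → ℝ}
    {u : ℕ → Fin 18 → ℝ} {f : ℕ → ℕ × ℝ → FW} {n : ℕ} {s t : ℝ} {G G' : Finset (ℕ × ℝ)}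
    (h : LRel Qj B B' Y κ u f n s t G) (hG : G' ⊆ G) : LRel Qj B B' Y κ u f n s t G' := by
  obtain ⟨j, h1, h2, h3⟩ := h
  exact ⟨j, h1, fun y hy => h2 y (hG hy), fun y hy y' hy' => h3 y (hG hy) y' (hG hy')⟩

theorem sda_pos {B : Base} {Y u : ℕ → Fin 18 → ℝ} {n : ℕ} (hu : GrU (u n)) (q : Fin 14) :
    0 < sda B Y u n q :=
  div_pos (Real.rpow_pos_of_pos (B.pos n) _) (hu.pos _)

theorem LRel.weak {Qj : Finset (Fin 14)} {B B' : Base} {Y : ℕ → Fin 18 → ℝ} {κ : ℕ → ℝ}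
    {u : ℕ → Fin 18 → ℝ} {f : ℕ → ℕ × ℝ → FW} {n : ℕ} {s s' t t' : ℝ} {G : Finset (ℕ × ℝ)}
    (h : LRel Qj B B' Y κ u f n s t G) (hu : GrU (u n)) (hs : s ≤ s') (ht : t' ≤ t) :
    LRel Qj B B' Y κ u f n s' t' G := by
  obtain ⟨j, h1, h2, h3⟩ := h
  refine ⟨j, h1, fun y hy q hq => (h2 y hy q hq).trans ?_,
    fun y hy y' hy' q hq => (h3 y hy y' hy' q hq).trans ?_⟩
  · exact mul_le_mul_of_nonneg_right (Real.rpow_le_rpow_of_exponent_ge (B'.pos n) (B'.lt n).le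
      (by linarith)) (sda_pos hu q).le
  · exact mul_le_mul_of_nonneg_right (Real.rpow_le_rpow_of_exponent_ge (B'.pos n) (B'.lt n).le
      ht) (sda_pos hu q).le

variable {B B' : Base} {I J : ℕ → Finset (ℕ × ℝ)}
  {kp : ℕ → ℝ} {u : ℕ → Fin 18 → ℝ} {f : ℕ → ℕ × ℝ → FW} {Y : ℕ → Fin 18 → ℝ}
  {w : ℕ → ℝ} {Tz : ℕ → ℝ} {Ma : Mons 18} {Dr : Set (Fin 18)} {lam : (Fin 18 → ℝ) → ℝ}
  {x mm σ : ℝ} {Dq Uq : Finset (Fin 18)} {Qj : Finset (Fin 14)}

/-- **one gauge on a dense part** -/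
theorem lin_front (hZ : ZWin B B' I J (coU u kp f) monW 67 Y w (coneM Ma) Tz lam)
    (hX : AwZ146.BasX monW Ma Ma Y w) (hA : ActM Ma Dr) (hDq : ∀ k, k ∈ Dr ↔ k ∈ Dq)
    (hgr : ∀ n, GrU (u n)) (hk1 : ∀ n, |kp n| ≤ 1) (hkp : B'.Sub fun n => |kp n|⁻¹)
    (hx : 0 < x) (hm : 0 < mm) (hσ : 0 < σ) (hD : LnD lam x) (hN : LnL Uq lam mm σ x) {K : ℝ}
    (hrel : ∀ W : Wnd 18 fun _ => ℕ × ℝ, Lin560.LnW Dq Uq W kp u f mm σ x →
      ∀ ε : ℝ, 0 < ε → ∀ᶠ n in (U : Filter ℕ), ∃ G ⊆ W.Cl n,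
        W.B'.d n ^ ε * ((W.Cl n).card : ℝ) ≤ (G.card : ℝ) ∧
        Lin560.LinRel Qj W kp u f n ε (K - ε) G) :
    ∃ J1 : ℕ → Finset (ℕ × ℝ), (∀ n, J1 n ⊆ J n) ∧ Dense B' J1 J ∧
      ∃ j : ℕ → ℕ × ℝ → Fin 14 → ℝ, (∀ n i p, p ∉ Qj → j n i p = 0) ∧
        (∀ ε : ℝ, 0 < ε → ∀ᶠ n in (U : Filter ℕ), ∀ i ∈ J1 n, ∀ p ∈ Qj,
          |j n i p| ≤ B'.d n ^ (-ε) * sda B Y u n p) ∧
        ∀ ε : ℝ, 0 < ε → ∀ᶠ n in (U : Filter ℕ), ∀ i ∈ J1 n, ∀ i' ∈ J1 n,
          zlab B I (coU u kp f) monW 67 Y w n 0 i' = zlab B I (coU u kp f) monW 67 Y w n 0 i →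
          ∀ q ∈ Qj ∪ {12}, |coW (kp n) (f n i) (f n i') (Fin.natAdd 4 q) -
            (j n i' q - tr (kp n) (rel (kp n) (f n i).g (f n i').g) (j n i) q)| ≤
            B'.d n ^ (K - ε) * sda B Y u n q := by
  classical
  obtain ⟨J1, h1, h2, h3⟩ := ln_core hZ hX hA hDq hgr hk1 hkp hx hm hσ hD hN
    (fun n ε G => LRel Qj B B' Y kp u f n ε (K - ε) G)
    (fun n ε G G' hG h => h.mono hG)
    (fun n ε ε' G hε h => h.weak (hgr n) hε (by linarith))
    (fun Gd s₀ hW ε hε => by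
      filter_upwards [hrel _ (lnW_560 hW) ε hε] with n hn
      obtain ⟨G, g1, g2, g3⟩ := hn
      exact ⟨G, g1, g2, g3⟩)
  obtain ⟨e, he, he0, h4⟩ := RL66.diag_eps _ h3
  -- the gauge of the class of a base incidence
  set lb : ℕ → ℕ × ℝ → _ := fun n i => zlab B I (coU u kp f) monW 67 Y w n 0 i with hlb
  have hcls : ∀ᶠ n in (U : Filter ℕ), ∀ s ∈ J1 n,
      LRel Qj B B' Y kp u f n (e n) (K - e n) (cls (J1 n) (lb n) s) := h4
  -- representative of a class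
  set rp : ℕ → ℕ × ℝ → ℕ × ℝ := fun n i =>
    if h : ∃ i' ∈ J1 n, lb n i' = lb n i then h.choose else i with hrp
  have hrp1 : ∀ n, ∀ i ∈ J1 n, rp n i ∈ J1 n ∧ lb n (rp n i) = lb n i := fun n i hi => by
    have h : ∃ i' ∈ J1 n, lb n i' = lb n i := ⟨i, hi, rfl⟩
    have e1 : rp n i = h.choose := dif_pos h
    rw [e1]
    exact h.choose_spec
  have hrp2 : ∀ n, ∀ i ∈ J1 n, ∀ i' ∈ J1 n, lb n i' = lb n i → rp n i' = rp n i :=
    fun n i hi i' hi' hii => by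
    simp only [hrp, hii]
    have h : ∃ i' ∈ J1 n, lb n i' = lb n i := ⟨i, hi, rfl⟩
    rw [dif_pos h, dif_pos h]
  set jj : ℕ → ℕ × ℝ → (ℕ × ℝ → Fin 14 → ℝ) := fun n s =>
    if h : LRel Qj B B' Y kp u f n (e n) (K - e n) (cls (J1 n) (lb n) s) then h.choose
    else 0 with hjj
  refine ⟨J1, h1, h2, fun n i => jj n (rp n i) i, fun n i p hp => ?_, fun ε hε => ?_,
    fun ε hε => ?_⟩
  · by_cases h : LRel Qj B B' Y kp u f n (e n) (K - e n) (cls (J1 n) (lb n) (rp n i))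
    · have e1 : jj n (rp n i) = h.choose := dif_pos h
      beta_reduce
      rw [e1]
      exact h.choose_spec.1 i p hp
    · have e1 : jj n (rp n i) = 0 := dif_neg h
      beta_reduce
      rw [e1]
      rfl
  · filter_upwards [hcls, he0.eventually_lt_const hε] with n hn hlt i hi p hp
    obtain ⟨r1, r2⟩ := hrp1 n i hi
    have h := hn _ r1
    have e1 : jj n (rp n i) = h.choose := dif_pos h
    rw [e1]
    refine (h.choose_spec.2.1 i (mem_cls.2 ⟨hi, r2.symm⟩) p hp).trans ?_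
    exact mul_le_mul_of_nonneg_right (Real.rpow_le_rpow_of_exponent_ge (B'.pos n) (B'.lt n).le
      (by linarith)) (sda_pos (hgr n) p).le
  · filter_upwards [hcls, he0.eventually_lt_const hε] with n hn hlt i hi i' hi' hii q hq
    obtain ⟨r1, r2⟩ := hrp1 n i hi
    have r3 := hrp2 n i hi i' hi' hii
    have h := hn _ r1
    have e1 : jj n (rp n i) = h.choose := dif_pos h
    rw [r3, e1]
    refine (h.choose_spec.2.2 i (mem_cls.2 ⟨hi, r2.symm⟩) i'
      (mem_cls.2 ⟨hi', (hii.trans r2.symm)⟩) q hq).trans ?_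
    exact mul_le_mul_of_nonneg_right (Real.rpow_le_rpow_of_exponent_ge (B'.pos n) (B'.lt n).le
      (by linarith)) (sda_pos (hgr n) q).le

end Crest.Agent.R136.LinF403
end

-- ▼ part R136/LinF2_403
section

/-!
# R136, thin branch (helper403): `lin`, size of the gauge in the slot `15`

**`size15`** : `c` costs something at the box `p`, so the class of a typical incidence has a partner
with full `c`; the relation in the slot `16` (`= c * (slot 15)`) bounds the slot `15` of the gauge.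
-/

set_option autoImplicit false
set_option linter.unusedSectionVars false
set_option linter.unusedVariables false

open Filter Topology

namespace Crest.Agent.R136.LinF403

open Finset Crest.Agent.R138.Ex926 Crest.Agent.R136.Net191 Crest.Agent.R136.Gf356
open Crest.Agent.R136.Qg926 Crest.Agent.R136.Dg219 Crest.Agent.R136.Aw413
open Crest.Agent.R136.NetW191 Crest.Agent.R136.EvW938 Crest.Agent.R136.PrW464
open Crest.Agent.R136.LadW697 Crest.Agent.R136.AwJ774 Crest.Agent.R136.Bas938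
open Crest.Agent.R136.LadG697 (coU)
open Crest.Agent.R138.Dp76 (Dense)

/-- the slot `16` of a transported gauge supported on the slots `14, 15` -/
theorem tr_12 (κ : ℝ) (h : Fin 4 → ℝ) (w : Fin 14 → ℝ)
    (hw : ∀ p, p ∉ ({10, 11} : Finset (Fin 14)) → w p = 0) :
    tr κ h w 12 = -(κ * h 1 ^ 2 * w 10) + h 1 * w 11 := by
  have e : ∀ p : Fin 14, p ∉ ({10, 11} : Finset (Fin 14)) → w p = 0 := hw
  have h0 := e 0 (by decide)
  have h1 := e 1 (by decide)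
  have h2 := e 2 (by decide)
  have h3 := e 3 (by decide)
  have h4 := e 4 (by decide)
  have h5 := e 5 (by decide)
  have h6 := e 6 (by decide)
  have h7 := e 7 (by decide)
  have h8 := e 8 (by decide)
  have h9 := e 9 (by decide)
  have h12 := e 12 (by decide)
  have h13 := e 13 (by decide)
  show w 12 + 4 * κ ^ 2 * h 1 * h 2 ^ 3 * w 0 + 2 * κ * h 2 ^ 2 * h 3 * w 0
      - 2 * κ ^ 2 * h 0 * h 1 ^ 2 * h 2 ^ 2 * w 0 + 4 * κ * h 0 * h 1 * h 2 * h 3 * w 0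
      + 2 * h 0 * h 3 ^ 2 * w 0 - 2 * κ * h 0 ^ 2 * h 1 ^ 2 * h 3 * w 0
      - κ ^ 2 * h 1 ^ 2 * h 2 ^ 2 * w 1 + 2 * κ * h 1 * h 2 * h 3 * w 1 + h 3 ^ 2 * w 1
      - 2 * κ * h 0 * h 1 ^ 2 * h 3 * w 1 + 3 * κ * h 1 * h 2 ^ 2 * w 2 + h 2 * h 3 * w 2
      - κ * h 0 * h 1 ^ 2 * h 2 * w 2 + h 0 * h 1 * h 3 * w 2 - 2 * κ * h 1 ^ 2 * h 3 * w 3
      + κ * h 2 ^ 2 * w 4 + 2 * κ * h 0 * h 1 * h 2 * w 4 + 2 * h 0 * h 3 * w 4
      - κ * h 0 ^ 2 * h 1 ^ 2 * w 4 - κ * h 1 ^ 2 * h 2 * w 5 + h 1 * h 3 * w 5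
      + 2 * h 1 * h 2 * w 6 + h 3 * w 7 - κ * h 0 * h 1 ^ 2 * w 7 + h 2 * w 8 + h 0 * h 1 * w 8
      + 2 * h 0 * w 9 - κ * h 1 ^ 2 * w 10 + h 1 * w 11 = _
  rw [h0, h1, h2, h3, h4, h5, h6, h7, h8, h9, h12]
  ring

variable {B B' : Base} {I J : ℕ → Finset (ℕ × ℝ)}
  {kp : ℕ → ℝ} {u : ℕ → Fin 18 → ℝ} {f : ℕ → ℕ × ℝ → FW} {Y : ℕ → Fin 18 → ℝ}
  {w : ℕ → ℝ} {Tz : ℕ → ℝ} {Ma : Mons 18} {Dr : Set (Fin 18)} {lam : (Fin 18 → ℝ) → ℝ}

/-- kept walls are tight -/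
theorem tight_list (hX : AwZ146.BasX monW Ma Ma Y w) (hA : ActM Ma Dr) {k : Fin 18} (hk : k ∉ Dr)
    {l : List (Fin 18)} (hl : l ∈ mlW k) (hls : ∀ s ∈ l, s ∉ Dr) (n : ℕ) :
    Y n k = (l.map (Y n)).sum := by
  have := hX.act k _ ((hA.iff k _).2 ⟨hk, l, hl, hls, rfl⟩) n
  rwa [← sum_count] at this

theorem ml16a : ([1, 15] : List (Fin 18)) ∈ mlW 16 := by decide
theorem ml16b : ([1, 1, 14] : List (Fin 18)) ∈ mlW 16 := by decide

/-- real inequality of `size15` -/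
theorem size15_real {u1 u14 u15 u16 h w10 w11 co er κ S1 S14 S15 S16 K ρ2 ρe ρ1 : ℝ}
    (hu1 : 0 < u1) (hu14 : 0 < u14) (hu15 : 0 < u15) (e1 : u1 * u15 = u16)
    (e2 : u1 * (u1 * u14) = u16) (hκ : |κ| ≤ 1) (hK : 1 ≤ K) (S1p : 0 < S1) (S14p : 0 < S14)
    (s1 : S16 = S1 * S15) (s2 : S16 = S1 * (S1 * S14)) (r2 : 0 < ρ2) (re : 1 ≤ ρe) (r1 : 0 < ρ1)
    (hc : u1 * |h| ≤ K * S1 * ρ1) (hfar : K * S1 * (ρ1 * ρ2) ≤ u1 * |h|)
    (h10 : u14 * |w10| ≤ ρe * S14) (hco : u16 * |co| ≤ K * S16 * ρ1 ^ 2)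
    (her : u16 * |er| ≤ ρe * S16 * ρ1 ^ 2)
    (hrel : co - er = κ * h ^ 2 * w10 - h * w11) :
    u15 * |w11| * ρ2 ≤ 3 * K * ρe * S15 * ρ1 := by
  have hu16 : 0 < u16 := by rw [← e1]; positivity
  have S16p : 0 < S16 := by rw [s2]; positivity
  have S15p : 0 < S15 := by
    rw [s1] at S16p
    exact (mul_pos_iff_of_pos_left S1p).1 S16p
  have k1 : |h * w11| ≤ |co| + |er| + |h| ^ 2 * |w10| := by
    have e : h * w11 = -co + er + κ * h ^ 2 * w10 := by linarith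
    rw [e]
    refine (abs_add_le _ _).trans ?_
    have a1 : |-co + er| ≤ |co| + |er| := by
      refine (abs_add_le _ _).trans ?_
      rw [abs_neg]
    have a2 : |κ * h ^ 2 * w10| ≤ |h| ^ 2 * |w10| := by
      rw [abs_mul, abs_mul, abs_pow]
      refine mul_le_mul_of_nonneg_right ?_ (abs_nonneg _)
      exact mul_le_of_le_one_left (by positivity) hκ
    linarith
  have k2 : (u1 * |h|) * (u15 * |w11|) ≤ 3 * K ^ 2 * ρe * S16 * ρ1 ^ 2 := by
    have b1 : (u1 * |h|) * (u15 * |w11|) = u16 * |h * w11| := by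
      rw [← e1, abs_mul]; ring
    rw [b1]
    have b2 : u16 * (|h| ^ 2 * |w10|) ≤ K ^ 2 * ρe * S16 * ρ1 ^ 2 := by
      have c1 : u16 * (|h| ^ 2 * |w10|) = (u1 * |h|) ^ 2 * (u14 * |w10|) := by
        rw [← e2]; ring
      rw [c1]
      have c2 : (u1 * |h|) ^ 2 ≤ (K * S1 * ρ1) ^ 2 :=
        pow_le_pow_left₀ (by positivity) hc 2
      calc (u1 * |h|) ^ 2 * (u14 * |w10|) ≤ (K * S1 * ρ1) ^ 2 * (ρe * S14) :=
            mul_le_mul c2 h10 (by positivity) (by positivity)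
        _ = K ^ 2 * ρe * S16 * ρ1 ^ 2 := by rw [s2]; ring
    have b3 : K * S16 * ρ1 ^ 2 ≤ K ^ 2 * ρe * S16 * ρ1 ^ 2 := by
      have : K ≤ K ^ 2 * ρe := by nlinarith [mul_nonneg (by linarith : (0:ℝ) ≤ K - 1) (by linarith : (0:ℝ) ≤ ρe - 1), mul_nonneg (by linarith : (0:ℝ) ≤ K) (by linarith : (0:ℝ) ≤ K - 1), sq_nonneg K]
      have h0 : 0 ≤ S16 * ρ1 ^ 2 := by positivity
      nlinarith
    have b4 : ρe * S16 * ρ1 ^ 2 ≤ K ^ 2 * ρe * S16 * ρ1 ^ 2 := by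
      have : 1 ≤ K ^ 2 := one_le_pow₀ hK
      have h0 : 0 ≤ ρe * S16 * ρ1 ^ 2 := by positivity
      nlinarith
    have b5 := mul_le_mul_of_nonneg_left k1 hu16.le
    have b6 : u16 * (|co| + |er| + |h| ^ 2 * |w10|) =
        u16 * |co| + u16 * |er| + u16 * (|h| ^ 2 * |w10|) := by ring
    rw [b6] at b5
    linarith
  have k3 : (K * S1 * (ρ1 * ρ2)) * (u15 * |w11|) ≤ 3 * K ^ 2 * ρe * S16 * ρ1 ^ 2 :=
    (mul_le_mul_of_nonneg_right hfar (by positivity)).trans k2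
  have k4 : K * S1 * ρ1 * (u15 * |w11| * ρ2) ≤ K * S1 * ρ1 * (3 * K * ρe * S15 * ρ1) := by
    have d1 : K * S1 * ρ1 * (u15 * |w11| * ρ2) = (K * S1 * (ρ1 * ρ2)) * (u15 * |w11|) := by ring
    have d2 : K * S1 * ρ1 * (3 * K * ρe * S15 * ρ1) = 3 * K ^ 2 * ρe * S16 * ρ1 ^ 2 := by
      rw [s1]; ring
    rw [d1, d2]; exact k3
  exact le_of_mul_le_mul_left k4 (by positivity)

/-- **size of the gauge in the slot `15`** -/
theorem size15 (hZ : ZWin B B' I J (coU u kp f) monW 67 Y w (coneM Ma) Tz lam)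
    (hX : AwZ146.BasX monW Ma Ma Y w) (hA : ActM Ma Dr)
    (h1 : (1 : Fin 18) ∉ Dr) (h14 : (14 : Fin 18) ∉ Dr) (h15 : (15 : Fin 18) ∉ Dr)
    (h16 : (16 : Fin 18) ∉ Dr) (hgr : ∀ n, GrU (u n)) (hk1 : ∀ n, |kp n| ≤ 1)
    {J1 : ℕ → Finset (ℕ × ℝ)} (hJ1 : Dense B' J1 J) {j : ℕ → ℕ × ℝ → Fin 14 → ℝ}
    (supp : ∀ n i p, p ∉ ({10, 11} : Finset (Fin 14)) → j n i p = 0)
    (size : ∀ ε : ℝ, 0 < ε → ∀ᶠ n in (U : Filter ℕ), ∀ i ∈ J1 n,
      ∀ p ∈ ({10, 11} : Finset (Fin 14)), |j n i p| ≤ B'.d n ^ (-ε) * sda B Y u n p)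
    {K w1 : ℝ} (hw1 : 0 ≤ w1) (hK : 2 * w1 ≤ K)
    (pair : ∀ ε : ℝ, 0 < ε → ∀ᶠ n in (U : Filter ℕ), ∀ i ∈ J1 n, ∀ i' ∈ J1 n,
      zlab B I (coU u kp f) monW 67 Y w n 0 i' = zlab B I (coU u kp f) monW 67 Y w n 0 i →
      |coW (kp n) (f n i) (f n i') (Fin.natAdd 4 (12 : Fin 14)) -
        (j n i' 12 - tr (kp n) (rel (kp n) (f n i).g (f n i').g) (j n i) 12)| ≤
        B'.d n ^ (K - ε) * sda B Y u n 12)
    {p : Fin 18 → ℝ} (hp : p ∈ coneM Ma) (p0 : 0 ≤ p) (p1 : p 1 = w1) (p16 : p 16 = 2 * w1)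
    (pe : ∀ t : ℝ, 0 ≤ t → p + t • e1W ∈ coneM Ma)
    (hsw : ∀ t : ℝ, 0 < t → lam (p + t • e1W) < lam p) :
    ∃ J2 : ℕ → Finset (ℕ × ℝ), (∀ n, J2 n ⊆ J1 n) ∧ Dense B' J2 J ∧
      ∀ ε : ℝ, 0 < ε → ∀ᶠ n in (U : Filter ℕ), ∀ i ∈ J2 n,
        |j n i 11| ≤ B'.d n ^ (w1 - ε) * sda B Y u n 11 := by
  obtain ⟨J2, a1, a2, a3⟩ := Js893.far_dense hZ hJ1 (a := 0) hZ.zero (fun _ => p)
    (fun k => p + (1 / ((k : ℝ) + 1)) • e1W) (fun _ => hp) (fun k => pe _ (by positivity))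
    (fun _ => p0) (fun k => hsw _ (by positivity))
  refine ⟨J2, a1, a2, fun ε hε => ?_⟩
  obtain ⟨k, hk⟩ := exists_nat_one_div_lt (show (0:ℝ) < ε / 4 by positivity)
  set δ : ℝ := 1 / ((k : ℝ) + 1) with hδ
  have hC0 : 1 ≤ cK0 monW 67 := cK0_one (hZ.chart 0).C0
  have hC3 : 0 < 3 * cK0 monW 67 := by linarith
  filter_upwards [a3 k, size (ε / 4) (by positivity), pair (ε / 4) (by positivity),
    Qg926.ev_const_le B' hC3 (ε := ε / 4) (by positivity)] with n b1 b2 b3 b4 i hi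
  obtain ⟨i', hi', hl, hb, hnb⟩ := b1 i hi
  have hiJ := a1 n hi
  have hu := (hgr n).pos
  have hρ := B'.pos n
  have hρ1 := (B'.lt n).le
  have pw : ∀ t : ℝ, 0 < B'.d n ^ t := fun t => Real.rpow_pos_of_pos hρ t
  set h : Fin 4 → ℝ := rel (kp n) (f n i).g (f n i').g with hh
  have hc1 : |coU u kp f n i i' 1| = u n 1 * |h 1| := by
    show |u n 1 * coW (kp n) (f n i) (f n i') (Fin.castAdd 14 1)| = _
    rw [coW_left, abs_mul, abs_of_pos (hu 1)]
  have hc16 : |coU u kp f n i i' 16| =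
      u n 16 * |coW (kp n) (f n i) (f n i') (Fin.natAdd 4 (12 : Fin 14))| := by
    show |u n 16 * coW (kp n) (f n i) (f n i') (Fin.natAdd 4 (12 : Fin 14))| = _
    rw [abs_mul, abs_of_pos (hu 16)]
  -- `c` is far
  have far : cK0 monW 67 * (B.d n ^ Y n 1) * (B'.d n ^ w1 * B'.d n ^ δ) ≤ u n 1 * |h 1| := by
    by_contra hcon
    push Not at hcon
    refine hnb fun s => ?_
    by_cases hs : s = 1
    · subst hs
      rw [hc1]
      have e1 : (p + δ • e1W) 1 = w1 + δ := by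
        simp only [Pi.add_apply, Pi.smul_apply, smul_eq_mul, p1]
        simp [e1W]
      rw [e1, Real.rpow_add hρ]
      have := hcon.le
      calc u n 1 * |h 1| ≤ cK0 monW 67 * (B.d n ^ Y n 1) * (B'.d n ^ w1 * B'.d n ^ δ) := this
        _ = _ := by ring
    · have e1 : (p + δ • e1W) s = p s := by
        simp only [Pi.add_apply, Pi.smul_apply, smul_eq_mul]
        unfold e1W
        rw [Pi.single_eq_of_ne hs, mul_zero, add_zero]
      rw [e1]
      exact hb s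
  have t1 := tight_list hX hA h16 ml16a (fun s hs => by
    rcases List.mem_cons.1 hs with e | hs
    · rw [e]; exact h1
    · rw [List.mem_singleton.1 hs]; exact h15) n
  have t2 := tight_list hX hA h16 ml16b (fun s hs => by
    rcases List.mem_cons.1 hs with e | hs
    · rw [e]; exact h1
    rcases List.mem_cons.1 hs with e | hs
    · rw [e]; exact h1
    · rw [List.mem_singleton.1 hs]; exact h14) n
  have m1 := (hgr n).mul 16 _ ml16a
  have m2 := (hgr n).mul 16 _ ml16b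
  simp only [List.map_cons, List.map_nil, List.sum_cons, List.sum_nil, add_zero] at t1 t2
  simp only [List.map_cons, List.map_nil, List.prod_cons, List.prod_nil, mul_one] at m1 m2
  have hB := B.pos n
  have e10 : Fin.natAdd 4 (10 : Fin 14) = (14 : Fin 18) := rfl
  have e11 : Fin.natAdd 4 (11 : Fin 14) = (15 : Fin 18) := rfl
  have e12 : Fin.natAdd 4 (12 : Fin 14) = (16 : Fin 18) := rfl
  have hj12 : j n i' 12 = 0 := supp n i' 12 (by decide)
  have htr := tr_12 (kp n) h (j n i) (supp n i)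
  set er : ℝ := coW (kp n) (f n i) (f n i') (Fin.natAdd 4 (12 : Fin 14)) -
    (j n i' 12 - tr (kp n) h (j n i) 12) with her
  have hre : coW (kp n) (f n i) (f n i') (Fin.natAdd 4 (12 : Fin 14)) - er =
      kp n * h 1 ^ 2 * j n i 10 - h 1 * j n i 11 := by
    rw [her, htr, hj12]; ring
  have key := size15_real (u1 := u n 1) (u14 := u n 14) (u15 := u n 15) (u16 := u n 16)
    (h := h 1) (w10 := j n i 10) (w11 := j n i 11)
    (co := coW (kp n) (f n i) (f n i') (Fin.natAdd 4 (12 : Fin 14))) (er := er) (κ := kp n)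
    (S1 := B.d n ^ Y n 1) (S14 := B.d n ^ Y n 14) (S15 := B.d n ^ Y n 15) (S16 := B.d n ^ Y n 16)
    (K := cK0 monW 67) (ρ2 := B'.d n ^ δ) (ρe := B'.d n ^ (-(ε / 4))) (ρ1 := B'.d n ^ w1)
    (hu 1) (hu 14) (hu 15) m1 m2 (hk1 n) hC0 (Real.rpow_pos_of_pos hB _)
    (Real.rpow_pos_of_pos hB _) (by rw [← Real.rpow_add hB, ← t1])
    (by rw [← Real.rpow_add hB, ← Real.rpow_add hB, ← t2]) (pw _)
    (Real.one_le_rpow_of_pos_of_le_one_of_nonpos hρ hρ1 (by linarith)) (pw _)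
    (by
      have := hb 1
      rw [hc1, p1] at this
      linarith) far
    (by
      have := b2 i hiJ 10 (by decide)
      rw [sda, e10, ← mul_div_assoc, le_div_iff₀ (hu 14)] at this
      linarith)
    (by
      have := hb 16
      rw [hc16, p16] at this
      have e : B'.d n ^ w1 ^ 2 = B'.d n ^ w1 ^ 2 := rfl
      have e2 : (B'.d n ^ w1) ^ 2 = B'.d n ^ (2 * w1) := by
        rw [two_mul, Real.rpow_add hρ, sq]
      rw [e2]
      linarith)
    (by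
      have := b3 i hiJ i' hi' hl
      rw [sda, e12, ← mul_div_assoc, le_div_iff₀ (hu 16)] at this
      have e2 : (B'.d n ^ w1) ^ 2 = B'.d n ^ (2 * w1) := by
        rw [two_mul, Real.rpow_add hρ, sq]
      have e3 : B'.d n ^ (K - ε / 4) ≤ B'.d n ^ (-(ε / 4)) * B'.d n ^ (2 * w1) := by
        rw [← Real.rpow_add hρ]
        exact Real.rpow_le_rpow_of_exponent_ge hρ hρ1 (by linarith)
      have e4 : |er| * u n 16 ≤ B'.d n ^ (K - ε / 4) * B.d n ^ Y n 16 := this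
      have e5 := mul_le_mul_of_nonneg_right e3 (Real.rpow_pos_of_pos hB (Y n 16)).le
      rw [e2]
      nlinarith)
    hre
  rw [sda, e11, ← mul_div_assoc, le_div_iff₀ (hu 15)]
  -- divide by `ρ ^ δ`
  have k1 : u n 15 * |j n i 11| * B'.d n ^ δ ≤
      B'.d n ^ (-(ε / 4)) * B'.d n ^ (-(ε / 4)) * B.d n ^ Y n 15 * B'.d n ^ w1 := by
    refine key.trans ?_
    have h0 : 0 ≤ B'.d n ^ (-(ε / 4)) * B.d n ^ Y n 15 * B'.d n ^ w1 :=
      mul_nonneg (mul_nonneg (pw _).le (Real.rpow_pos_of_pos hB _).le) (pw _).le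
    have := mul_le_mul_of_nonneg_right b4 h0
    linarith
  have k2 : u n 15 * |j n i 11| ≤
      B'.d n ^ (-(ε / 4)) * B'.d n ^ (-(ε / 4)) * B.d n ^ Y n 15 * B'.d n ^ w1 * B'.d n ^ (-δ) := by
    have h0 := mul_le_mul_of_nonneg_right k1 (pw (-δ)).le
    rwa [mul_assoc (u n 15 * |j n i 11|), ← Real.rpow_add hρ, add_neg_cancel, Real.rpow_zero,
      mul_one] at h0
  have k3 : B'.d n ^ (-(ε / 4)) * B'.d n ^ (-(ε / 4)) * B.d n ^ Y n 15 * B'.d n ^ w1 *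
      B'.d n ^ (-δ) ≤ B'.d n ^ (w1 - ε) * B.d n ^ Y n 15 := by
    have e : B'.d n ^ (-(ε / 4)) * B'.d n ^ (-(ε / 4)) * B.d n ^ Y n 15 * B'.d n ^ w1 *
        B'.d n ^ (-δ) = B'.d n ^ (-(ε / 4) + -(ε / 4) + w1 + -δ) * B.d n ^ Y n 15 := by
      rw [Real.rpow_add hρ, Real.rpow_add hρ, Real.rpow_add hρ]; ring
    rw [e]
    exact mul_le_mul_of_nonneg_right (Real.rpow_le_rpow_of_exponent_ge hρ hρ1 (by linarith))
      (Real.rpow_pos_of_pos hB _).le
  rw [mul_comm]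
  exact k2.trans k3

end Crest.Agent.R136.LinF403
end

-- ▼ part R136/LnS_619
section

/-!
# R136, thin branch (helper619): interior points of a stage of slope `1`

* `LnS Dr Uq lam mm σ` : numbers of `lin` at an interior point
* **`hasLinN2`** : dropped slots `{4, .., 13}`, positions `{A, B, N}`
* **`hasLinN1`** : dropped slots `{4, .., 14}`, `btW 14 ≠ 0`, positions `{A, N}`
-/

set_option autoImplicit false
set_option linter.unusedSectionVars false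
set_option linter.unusedVariables false

open Filter Topology

namespace Crest.Agent.R136.Ln619

open Finset Crest.Agent.R138.Ex926 Crest.Agent.R136.Net191 Crest.Agent.R136.Gf356
open Crest.Agent.R136.Qg926 Crest.Agent.R136.Dg219 Crest.Agent.R136.Aw413
open Crest.Agent.R136.NetW191 Crest.Agent.R136.EvW938 Crest.Agent.R136.PrW464
open Crest.Agent.R136.LadW697 Crest.Agent.R136.AwJ774 Crest.Agent.R136.Bas938
open Crest.Agent.R136.Ht887 Crest.Agent.R136.Win887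
open Crest.Agent.R136.Qgn887 (PtN TDs TDs_not StgOk rungN flemN)
open Crest.Agent.R136.K2S774 Crest.Agent.R136.K2A146 Crest.Agent.R136.NatW697
open Crest.Agent.R136.LadT830 Crest.Agent.R136.ThB830 Crest.Agent.R136.Top484
open Crest.Agent.R136.Dg262 (X)
open Crest.Agent.R136.Rc146 (OutA)

/-- **numbers of `lin` at an interior point**, dropped slots `Dr`, positions `Uq` -/
structure LnS (Dr : Set (Fin 18)) (Uq : Finset (Fin 18)) (lam : (Fin 18 → ℝ) → ℝ)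
    (mm σ : ℝ) : Prop where
  m0 : 0 < mm
  s0 : 0 < σ
  zero : lam 0 = 0
  sharp : ∀ c ∈ cn QW (actW Dr), ∀ c' ∈ cn QW (actW Dr), c ≤ c' →
    lam c - lam c' ≤ ∑ s, (c' s - c s)
  anti : ∀ c ∈ cn QW (actW Dr), ∀ c' ∈ cn QW (actW Dr), c ≤ c' → lam c' ≤ lam c
  own : ∀ c ∈ cn QW (actW Dr), ∀ c' ∈ cn QW (actW Dr), c ≤ c' → c' 0 - c 0 ≤ lam c - lam c'
  num : ∀ x, 0 < x → LnL Uq lam mm σ x
  dn : ∀ x, 0 < x → LnD lam x

/-! ### slots -/

theorem cases_D1 (k : Fin 18) : k ∈ D11 ∨ k ∈ ({1, 14, 15, 16} : Finset (Fin 18)) ∨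
    k ∈ ({0, 2, 3, 17} : Finset (Fin 18)) := by
  revert k; decide

theorem stgOk_aux {Dr Z : Set (Fin 18)} {Dq : Finset (Fin 18)} (hDr : ∀ k, k ∈ Dr ↔ k ∈ Dq)
    (hlo : ∀ k ∈ D11, k ∈ Dq) (h4 : ∀ k ∈ Dq, (4 : Fin 18) ≤ k)
    (hZ : Z = {k | k = 1 ∨ (k ∈ JW 1 ∧ k ∉ Dr)}) : StgOk 1 Dr Z where
  lo := fun k hk => (hDr k).2 (hlo k ((mem_D11 k).1 hk))
  h4 := fun k hk => h4 k ((hDr k).1 hk)
  zz := fun k hk h0 => by
    rw [hZ]
    rcases cases_D1 k with h | h | h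
    · exact absurd ((hDr k).2 (hlo k h)) hk
    · have h1 : ∀ k ∈ ({1, 14, 15, 16} : Finset (Fin 18)), k = 1 ∨ k ∈ JW 1 := by decide
      rcases h1 k h with h2 | h2
      · exact Or.inl h2
      · exact Or.inr ⟨h2, hk⟩
    · rw [TW1_1 k h] at h0; exact absurd h0 one_ne_zero
  z0 := fun k hk hkD => by
    rw [hZ] at hk
    rcases hk with h | ⟨h, -⟩
    · rw [h]; exact TW_c 1
    · have h1 : ∀ k ∈ JW 1, k ∈ ({1, 14, 15, 16} : Finset (Fin 18)) := by decide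
      exact TW1_0 k (h1 k h)

section lin

variable {P : Set (Fin 18 → ℝ)} {ν own : (Fin 18 → ℝ) → ℝ} {K : ℝ} {r0 : Fin 18 → ℝ}
  {θ : Fin 3 → ℝ} {g : ℝ} {q : Fin 3 → ℝ} {V T Z Dr : Set (Fin 18)}
  {lam lo : (Fin 18 → ℝ) → ℝ}

/-- the common frame -/
theorem hasLinN_aux (h : CtxW P ν own K r0 θ g q V T) (hs : ∀ k ∈ V, KW θ k < 1)
    {Uq : Finset (Fin 18)} (hD : StgOk 1 Dr Z)
    (hst : Stage QW P ν own K r0 (btW θ) (DlW g q) (QdW θ) Z V 0 (btW θ) 1 (actW Dr) Dr lam lo)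
    (hnum : ∀ (B Bo : Base) (I J : ℕ → Finset (ℕ × ℝ))
      (co : ∀ n : ℕ, ℕ × ℝ → ℕ × ℝ → Fin 18 → ℝ) (C : ℝ) (κ : ℕ → ℝ) (u : ℕ → Fin 18 → ℝ)
      (f : ℕ → ℕ × ℝ → FW) (lam' : (Fin 18 → ℝ) → ℝ) (A : ℝ × ℝ) (φ : ℕ → (Fin 18 → ℝ) → ℝ)
      (r : ℕ → ℝ),
      PtN B Bo I J co κ u f (mA monW (actW Dr)) Dr C lam' (TDs 1 Dr) (btW θ) A φ r (btW θ)
        (fun k => k ∈ V ∧ KW θ k = 1) (fun k => k ∈ T ∧ k ∈ V ∧ KW θ k = 1) →
      BasG lam' (mA monW (actW Dr)) Dr (TDs 1 Dr) (btW θ) (fun k => k ∈ V ∧ KW θ k = 1) →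
      -A.1 < 4 → ∃ mm σ : ℝ, 0 < mm ∧ 0 < σ ∧ ∀ x, 0 < x → LnL Uq lam' mm σ x) :
    ∃ z : ℝ × ℝ, z.1 < 0 ∧ ∃ k : ℕ → ℝ, (∀ l, 0 < k l) ∧ Tendsto k atTop (𝓝 0) ∧
      ∃ (lamI loI : (Fin 18 → ℝ) → ℝ) (mm σ : ℝ),
        IsTan (cn QW (actW Dr)) (cn QW (actW Dr)) lam (fun _ => X 0 (TDs 1 Dr) (btW θ) z) k lamI ∧
        IsTan (cn QW (actW Dr)) (cn QW (actW Dr)) lo (fun _ => X 0 (TDs 1 Dr) (btW θ) z) k loI ∧
        LnS Dr Uq lamI mm σ := by
  by_contra hcon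
  have hg : 0 < g - q 0 := by
    have := h.q0; have := h.qg; linarith
  refine deadA hst (recW θ _ _) (rungN (s := 1) one_pos hD) hg
    (flemN h one_pos (fun k hk => (hs k hk).le) hD hst (Vis := fun _ => True) ?_)
  intro B Bo I J co C κ u f z k lam' lo' A φ r hz kpos k0 H1 H2 hco hP hO hB hprf _
  rcases le_or_gt 4 (-A.1) with h5 | h5
  · have := full_enough (g := g) (q := q) (s := 1) (C := 0) (A := A) (by linarith)
    have hq0 := h.q0
    linarith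
  · exfalso
    have hVf : ∀ k, ¬ (k ∈ V ∧ KW θ k = 1) := fun k hk => (hs k hk.1).ne hk.2
    obtain ⟨mm, σ, hm, hσ, hn⟩ := hnum B Bo I J co C κ u f lam' A φ r hP hB h5
    refine hcon ⟨z, hz, k, kpos, k0, lam', lo', mm, σ, H1, H2, hm, hσ, hP.aew.zero, ?_, ?_, ?_, hn,
      fun x hx => lnD_of hP hVf hx⟩
    · intro c hc c' hc' hcc
      exact hP.aew.sharp c (by rw [coneM_mA]; exact hc) c' (by rw [coneM_mA]; exact hc') hcc
    · intro c hc c' hc' hcc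
      exact hP.aew.anti c (by rw [coneM_mA]; exact hc) c' (by rw [coneM_mA]; exact hc') hcc
    · intro c hc c' hc' hcc
      have := hP.aew.own c (by rw [coneM_mA]; exact hc) c' (by rw [coneM_mA]; exact hc') hcc
        fun k hk => absurd hk (hVf k)
      linarith

/-- **the interior point of `lin`**, dropped slots `{4, .., 13}` -/
theorem hasLinN2 (h : CtxW P ν own K r0 θ g q V T) (hs : ∀ k ∈ V, KW θ k < 1)
    (hDr : ∀ k, k ∈ Dr ↔ k ∈ D11) (hZ : Z = {k | k = 1 ∨ (k ∈ JW 1 ∧ k ∉ Dr)})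
    (hst : Stage QW P ν own K r0 (btW θ) (DlW g q) (QdW θ) Z V 0 (btW θ) 1 (actW Dr) Dr lam lo) :
    ∃ z : ℝ × ℝ, z.1 < 0 ∧ ∃ k : ℕ → ℝ, (∀ l, 0 < k l) ∧ Tendsto k atTop (𝓝 0) ∧
      ∃ (lamI loI : (Fin 18 → ℝ) → ℝ) (mm σ : ℝ),
        IsTan (cn QW (actW Dr)) (cn QW (actW Dr)) lam (fun _ => X 0 (TDs 1 Dr) (btW θ) z) k lamI ∧
        IsTan (cn QW (actW Dr)) (cn QW (actW Dr)) lo (fun _ => X 0 (TDs 1 Dr) (btW θ) z) k loI ∧
        LnS Dr {2, 3, 17} lamI mm σ :=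
  hasLinN_aux h hs (stgOk_aux hDr (fun k hk => hk) (by decide) hZ) hst
    fun B Bo I J co C κ u f lam' A φ r hP hB h5 =>
      lnL2_of hP hB (fun k hk => TDs_not hk) (fun k hk => (hDr k).2 hk)
        (fun k hk => by
          have h1 : ∀ k ∈ D11, k ∈ D12 := by decide
          exact h1 k ((hDr k).1 hk)) h5

/-- **the interior point of `lin`**, dropped slots `{4, .., 14}` -/
theorem hasLinN1 (h : CtxW P ν own K r0 θ g q V T) (hs : ∀ k ∈ V, KW θ k < 1)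
    (hDr : ∀ k, k ∈ Dr ↔ k ∈ D12) (h14 : btW θ 14 ≠ 0)
    (hZ : Z = {k | k = 1 ∨ (k ∈ JW 1 ∧ k ∉ Dr)})
    (hst : Stage QW P ν own K r0 (btW θ) (DlW g q) (QdW θ) Z V 0 (btW θ) 1 (actW Dr) Dr lam lo) :
    ∃ z : ℝ × ℝ, z.1 < 0 ∧ ∃ k : ℕ → ℝ, (∀ l, 0 < k l) ∧ Tendsto k atTop (𝓝 0) ∧
      ∃ (lamI loI : (Fin 18 → ℝ) → ℝ) (mm σ : ℝ),
        IsTan (cn QW (actW Dr)) (cn QW (actW Dr)) lam (fun _ => X 0 (TDs 1 Dr) (btW θ) z) k lamI ∧
        IsTan (cn QW (actW Dr)) (cn QW (actW Dr)) lo (fun _ => X 0 (TDs 1 Dr) (btW θ) z) k loI ∧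
        LnS Dr {2, 17} lamI mm σ :=
  hasLinN_aux h hs (stgOk_aux hDr (by decide) (by decide) hZ) hst
    fun B Bo I J co C κ u f lam' A φ r hP hB h5 =>
      lnL1_of hP hB (fun k hk => TDs_not hk) (fun k hk => (hDr k).2 hk)
        (fun k hk => (hDr k).1 hk) h14 h5

end lin

end Crest.Agent.R136.Ln619
end

-- ▼ part R136/LnT_619
section

/-!
# R136, thin branch (helper619): interior points of a stage of slope `1`, numbers at every base

`LnA` : output of the F-half with the splitting `OutA` and the numbers `LnL`, `LnD` at every base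
point of the plane; **`hasLinA2`, `hasLinA1`**.
-/

set_option autoImplicit false
set_option linter.unusedSectionVars false
set_option linter.unusedVariables false

open Filter Topology

namespace Crest.Agent.R136.Ln619

open Finset Crest.Agent.R138.Ex926 Crest.Agent.R136.Net191 Crest.Agent.R136.Gf356
open Crest.Agent.R136.Qg926 Crest.Agent.R136.Dg219 Crest.Agent.R136.Aw413
open Crest.Agent.R136.NetW191 Crest.Agent.R136.EvW938 Crest.Agent.R136.PrW464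
open Crest.Agent.R136.LadW697 Crest.Agent.R136.AwJ774 Crest.Agent.R136.Bas938
open Crest.Agent.R136.Ht887 Crest.Agent.R136.Win887
open Crest.Agent.R136.Qgn887 (PtN TDs TDs_not TDs_nonneg natTDs StgOk rungN flemN sweep_recN)
open Crest.Agent.R136.QdH887 (bv bv_in bv_out wdatA)
open Crest.Agent.R136.K2S774 Crest.Agent.R136.K2A146 Crest.Agent.R136.NatW697
open Crest.Agent.R136.LadT830 Crest.Agent.R136.ThB830 Crest.Agent.R136.Top484
open Crest.Agent.R136.Dg262 (X)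
open Crest.Agent.R136.Rc146 (OutA X_eq)

/-- the profile seen from the base point `p` -/
def shp (lam : (Fin 18 → ℝ) → ℝ) (p : Fin 18 → ℝ) : (Fin 18 → ℝ) → ℝ :=
  fun c => lam (p + c) - lam p

/-- **numbers of `lin` at an interior point, at every base of the plane** -/
structure LnA (Dr Z : Set (Fin 18)) (Uq : Finset (Fin 18)) (θ : Fin 3 → ℝ)
    (lam : (Fin 18 → ℝ) → ℝ) (A : ℝ × ℝ) (φ : ℕ → (Fin 18 → ℝ) → ℝ) (r : ℕ → ℝ)
    (mm σ : ℝ) : Prop where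
  s : LnS Dr Uq lam mm σ
  out : OutA (gC (TDs 1 Dr) (btW θ)) (cn QW (actW Dr)) (TDs 1 Dr) (btW θ)
    (dhC (TDs 1 Dr) (btW θ)) (nC (TDs 1 Dr) (btW θ)) lam A φ r
  A4 : -A.1 < 4
  num : ∀ (v : ℝ × ℝ) (x : ℝ), 0 < x → LnL Uq (shp lam (X 0 (TDs 1 Dr) (btW θ) v)) mm σ x
  dn : ∀ (v : ℝ × ℝ) (x : ℝ), 0 < x → LnD (shp lam (X 0 (TDs 1 Dr) (btW θ) v)) x
  ind : ∀ η : ℝ, ∀ c ∈ cn QW (actW Dr), ∀ c' ∈ cn QW (actW Dr), (∀ i ∈ Z, η * btW θ i ≤ c i) →
    (∀ i, i ∉ Dr → c i = c' i) → lam c = lam c'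



section lin

variable {P : Set (Fin 18 → ℝ)} {ν own : (Fin 18 → ℝ) → ℝ} {K : ℝ} {r0 : Fin 18 → ℝ}
  {θ : Fin 3 → ℝ} {g : ℝ} {q : Fin 3 → ℝ} {V T Z Dr : Set (Fin 18)}
  {lam lo lam' : (Fin 18 → ℝ) → ℝ}









end lin

end Crest.Agent.R136.Ln619
end

-- ▼ part R136/LnX_619
section

/-!
# R136, thin branch (helper619): adapter to helper560's window of `lin`

* `LnW.to560 : LnW .. → Lin560.LnW ..`; `D11 = Lin560.Db`, `D12 = Lin560.Da`
* **`lin_core`** : `ln_core` over `Lin560.LnW`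
* **`sweepS`** : `c` costs at every box on the record line or left of it
-/

set_option autoImplicit false
set_option linter.unusedSectionVars false
set_option linter.unusedVariables false

open Filter Topology

namespace Crest.Agent.R136.Ln619

open Finset Crest.Agent.R138.Ex926 Crest.Agent.R136.Net191 Crest.Agent.R136.Gf356
open Crest.Agent.R136.Qg926 Crest.Agent.R136.Dg219 Crest.Agent.R136.Aw413
open Crest.Agent.R136.NetW191 Crest.Agent.R136.EvW938 Crest.Agent.R136.PrW464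
open Crest.Agent.R136.LadW697 Crest.Agent.R136.AwJ774 Crest.Agent.R136.Bas938
open Crest.Agent.R136.Ht887 Crest.Agent.R136.Win887
open Crest.Agent.R136.Qgn887 (PtN TDs TDs_not TDs_nonneg natTDs StgOk rungN flemN sweep_recN)
open Crest.Agent.R136.QdH887 (bv bv_in bv_out wdatA)
open Crest.Agent.R136.K2S774 Crest.Agent.R136.K2A146 Crest.Agent.R136.NatW697
open Crest.Agent.R136.LadT830 Crest.Agent.R136.ThB830 Crest.Agent.R136.Top484
open Crest.Agent.R136.Dg262 (X)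
open Crest.Agent.R136.Rc146 (OutA X_eq)
open Crest.Agent.R136.LadG697 (coU)
open Crest.Agent.R136.Int599 (iw iw_st_ok iw_top iw_leg)
open Crest.Agent.R138.Dp76 (Dense)



section zw

variable {B B' : Base} {I J : ℕ → Finset (ℕ × ℝ)}
  {kp : ℕ → ℝ} {u : ℕ → Fin 18 → ℝ} {f : ℕ → ℕ × ℝ → FW} {Y : ℕ → Fin 18 → ℝ}
  {w : ℕ → ℝ} {Tz : ℕ → ℝ} {Ma : Mons 18} {Dr : Set (Fin 18)} {lam : (Fin 18 → ℝ) → ℝ}
  {x mm σ : ℝ} {Dq Uq : Finset (Fin 18)}


end zw

section sw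

variable {P : Set (Fin 18 → ℝ)} {ν own : (Fin 18 → ℝ) → ℝ} {K : ℝ} {r0 : Fin 18 → ℝ}
  {θ : Fin 3 → ℝ} {g : ℝ} {q : Fin 3 → ℝ} {V Z Dr : Set (Fin 18)}
  {lam lo lam' : (Fin 18 → ℝ) → ℝ}

/-- **`c` costs at every box on the record line or left of it** -/
theorem sweepS {s : ℝ} (hs : 0 < s) (hD : StgOk s Dr Z)
    (H : Stage QW P ν own K r0 (btW θ) (DlW g q) (QdW θ) Z V 0 (btW θ) 1 (actW Dr) Dr lam lo)
    {z : ℝ × ℝ} (hz : z.1 < 0) {k : ℕ → ℝ} (kpos : ∀ l, 0 < k l) (k0 : Tendsto k atTop (𝓝 0))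
    (H1 : IsTan (cn QW (actW Dr)) (cn QW (actW Dr)) lam
      (fun _ => X 0 (TDs s Dr) (btW θ) z) k lam') (σ : ℝ) {t : ℝ} (ht : 0 ≤ t)
    {c : Fin 18 → ℝ} (hc : c ∈ cn QW (actW Dr)) (hc1 : c 1 = σ * btW θ 1)
    (hcT : ∀ i, i ∉ Dr → TDs s Dr i = 0 → c i ≤ σ * btW θ i) :
    lam' (c + t • e1W) ≤ lam' c - (q 1 + 2 * q 2) * t := by
  have key := H.sweepR (nat_btW _ θ) (TDs_nonneg hs Dr) (natTDs hD) (fun i _ => rfl) hz kpos
    k0 H1 (u := e1W) (c' := c) (mm := q 1 + 2 * q 2) (σ := σ) (h := t) e1W_nonneg ht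
    (fun σ h hh _ => by
      have := sweep_recN H σ hh
      linarith) hc (add_e1_mem hc ht) hcT (fun i _ hu => by
      have h1 : i = 1 := by
        by_contra hne
        exact hu (by unfold e1W; rw [Pi.single_eq_of_ne hne])
      subst h1
      rw [hD.TDs1, hc1]
      exact ⟨rfl, rfl⟩)
  linarith

end sw

end Crest.Agent.R136.Ln619
end

-- ▼ part R136/LinF3_403

/-!
# R136, thin branch (helper403): the rung `1`, from the relation on windows to `SeamLinG`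

* `RelH Dq Uq Qj` : 560's relation on every window of `lin`
* `LCase` : static data of the two resonances (`btW 14 = 0`: `b = 2`; `btW 15 = 0`: `b = 1`)
* **`lin_case`** : object, stage, interior point and relation give the gauge input
* **`seamLinG_of`** : `SeamLinG` from the rows and the two relations
-/

set_option autoImplicit false
set_option linter.unusedSectionVars false
set_option linter.unusedVariables false

open Filter Topology

namespace Crest.Agent.R136.LinF403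

open Finset Crest.Agent.R138.Ex926 Crest.Agent.R136.Net191 Crest.Agent.R136.Gf356
open Crest.Agent.R136.Qg926 Crest.Agent.R136.Dg219 Crest.Agent.R136.Aw413
open Crest.Agent.R136.NetW191 Crest.Agent.R136.EvW938 Crest.Agent.R136.PrW464
open Crest.Agent.R136.LadW697 Crest.Agent.R136.AwJ774 Crest.Agent.R136.Bas938
open Crest.Agent.R136.LadG697 Crest.Agent.R136.NatW697 Crest.Agent.R136.LadT830
open Crest.Agent.R136.ThS830 Crest.Agent.R136.Top484
open Crest.Agent.R136.K2S774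
open Crest.Agent.R136.RL478 (NatG Dr3 natG_of grW_0 grW_1 grW_17 dense_sub natG_btW)
open Crest.Agent.R136.QG312
open Crest.Agent.R136.Qh831 (JLaw bCq hasGau_of_law Sq)
open Crest.Agent.R136.Qi599 (SzQ ErQ)
open Crest.Agent.R136.Qgn887 (TDs TDs_not TDs_mem TDs_nonneg StgOk)
open Crest.Agent.R136.Ln619 (LnS D11 D12 mem_D11 sweepS)
open Crest.Agent.R138.Dp76 (Dense)

/-- **560's relation** on every window of `lin` -/
def RelH (Dq Uq : Finset (Fin 18)) (Qj : Finset (Fin 14)) : Prop :=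
  ∀ (κ : ℕ → ℝ) (u : ℕ → Fin 18 → ℝ) (f : ℕ → ℕ × ℝ → FW) (mm σ K : ℝ), 0 < mm → 0 < σ →
    ∃ x : ℝ, 0 < x ∧ ∀ W : Wnd 18 fun _ => ℕ × ℝ, Lin560.LnW Dq Uq W κ u f mm σ x →
      ∀ ε : ℝ, 0 < ε → ∀ᶠ n in (U : Filter ℕ), ∃ G ⊆ W.Cl n,
        W.B'.d n ^ ε * ((W.Cl n).card : ℝ) ≤ (G.card : ℝ) ∧
        Lin560.LinRel Qj W κ u f n ε (K - ε) G

/-- **static data** of a resonance of the rung `1` -/
structure LCase (Dq : Finset (Fin 18)) (Qj : Finset (Fin 14)) (b : ℤ) : Prop where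
  b0 : 0 < b
  b4 : b ≤ 4
  d4 : ∀ k ∈ Dq, 4 ≤ k ∧ k ≠ 17
  d11 : ∀ k ∈ D11, k ∈ Dq
  wcb : ∀ k, 4 ≤ k → k ∉ Dq → 0 ≤ wc k + b
  wc0 : ∀ k, 4 ≤ k → k ∉ Dq → wc k + b = 0 → k ∈ JW 1
  d15 : (15 : Fin 18) ∉ Dq
  d16 : (16 : Fin 18) ∉ Dq
  q1 : Qj ⊆ {10, 11}
  q2 : ∀ p ∈ Qj ∪ {12}, Fin.natAdd 4 p ∉ Dq ∧ Fin.natAdd 4 p ∈ JW 1
  q3 : ∀ k ∈ JW 1, k ∉ Dq → ∃ q ∈ Qj ∪ {12}, k = Fin.natAdd 4 q
  q4 : ∀ k ∈ JW 1 ∪ JW 2, k ∈ Dq → ∃ q, k = Fin.natAdd 4 q ∧ q ∉ Qj ∧ ∀ t ∈ tms q, t.s ∉ Qj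
  j2 : ∀ k ∈ JW 2, k ∈ Dq
  cs : (b = 2 ∧ Qj = {10, 11} ∧ (14 : Fin 18) ∉ Dq) ∨ (b = 1 ∧ Qj = {11})

theorem lcase2 : LCase D11 {10, 11} 2 where
  b0 := by decide
  b4 := by decide
  d4 := by decide
  d11 := by decide
  wcb := by decide
  wc0 := by decide
  d15 := by decide
  d16 := by decide
  q1 := by decide
  q2 := by decide
  q3 := by decide
  q4 := by decide
  j2 := by decide
  cs := Or.inl (by decide)

theorem lcase1 : LCase D12 {11} 1 where
  b0 := by decide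
  b4 := by decide
  d4 := by decide
  d11 := by decide
  wcb := by decide
  wc0 := by decide
  d15 := by decide
  d16 := by decide
  q1 := by decide
  q2 := by decide
  q3 := by decide
  q4 := by decide
  j2 := by decide
  cs := Or.inr (by decide)

/-- values of the record direction on the slots of weight `1` -/
theorem btW_JW1 {θ : Fin 3 → ℝ} {b : ℤ} (hb : θ 0 = b * θ 1) {k : Fin 18} (hk : k ∈ JW 1) :
    btW θ k = -(θ 1 * ((wc k : ℝ) + b)) := by
  have h1 : ∀ k ∈ JW 1, wz k = -1 ∧ wn k = 1 := by decide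
  obtain ⟨e1, e2⟩ := h1 k hk
  simp only [btW, grW, e1, e2]
  push_cast
  rw [hb]; ring

theorem bCq_JW1 {b : ℤ} {W1 : ℝ} {k : Fin 18} (hk : k ∈ JW 1) :
    bCq b W1 k = -(W1 * ((wc k : ℝ) + b)) := by
  have h1 : ∀ k ∈ JW 1, wn k = 1 := by decide
  simp only [bCq, grW, h1 k hk]
  push_cast
  ring

/-- slots where the ray vanishes -/
theorem TDs_zero {Dr : Set (Fin 18)} (hlo : ∀ k ∈ DrW 1, k ∈ Dr) {k : Fin 18}
    (h : TDs 1 Dr k = 0) : k ∉ Dr ∧ (k = 1 ∨ k ∈ JW 1) := by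
  have hk : k ∉ Dr := fun hD => by rw [TDs_mem hD] at h; exact one_ne_zero h
  refine ⟨hk, ?_⟩
  have hT : TW 1 k = 0 := by rw [← TDs_not hk]; exact h
  have c1 : ∀ k : Fin 18, k ∈ D11 ∨ (k = 1 ∨ k ∈ JW 1) ∨ k ∈ ({0, 2, 3, 17} : Finset (Fin 18)) := by
    decide
  rcases c1 k with h1 | h1 | h1
  · exact absurd (hlo k ((mem_D11 k).2 h1)) hk
  · exact h1
  · rw [Ln619.TW1_1 k h1] at hT
    exact absurd hT one_ne_zero

/-- the ray is not zero off `c` and the slots of weight `1` -/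
theorem capCl_empty : CapCl (∅ : Set (Fin 18)) := by
  rintro k ⟨l, hl, h⟩
  exfalso
  have key : ∀ k : Fin 18, ∀ l ∈ mlW k, ∃ t ∈ l, t ≠ 0 := by decide
  obtain ⟨t, ht, h0⟩ := key k l hl
  rcases h t ht with h1 | h1
  · exact h0 h1
  · exact h1

section main

variable {θ : Fin 3 → ℝ} {g : ℝ} {q : Fin 3 → ℝ} {w0 R T0 : ℝ}
  {B B' : Base} {I0 I : ℕ → Finset (ℕ × ℝ)} {κ : ℕ → ℝ} {u : ℕ → Fin 18 → ℝ}
  {F : ℕ → ℕ × ℝ → FW} {X' : ℕ → Fin 18 → ℝ} {w : ℕ → ℝ} {Tn To : ℕ → ℝ}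
  {PD : Set (Fin 18 → ℝ)} {ν own : (Fin 18 → ℝ) → ℝ} {c₀ : ℝ}
  {Dq Uq : Finset (Fin 18)} {Qj : Finset (Fin 14)} {Dr Z : Set (Fin 18)}
  {lam lo lamI loI : (Fin 18 → ℝ) → ℝ} {b : ℤ}

/-- **one resonance of the rung `1`** -/
theorem lin_case (hL : LCase Dq Qj b) (hrel : RelH Dq Uq Qj)
    (H : ZW θ g q ∅ ∅ w0 R T0 B B' I0 I κ u F X' w Tn To PD ν own c₀)
    {v1 : ℝ} (h0 : 0 < v1) (h1 : v1 < 1) (hb : θ 0 = b * θ 1) (hDr : ∀ k, k ∈ Dr ↔ k ∈ Dq)
    (hSt : StgOk 1 Dr Z)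
    (S : Stage QW (Leg monW R) ν own 18 (pathW θ w0 v1) (btW θ) (DlW g q) (QdW θ) Z ∅ 0 (btW θ) 1
      (actW Dr) Dr lam lo)
    {z : ℝ × ℝ} (hz : z.1 < 0) {k : ℕ → ℝ} (kpos : ∀ l, 0 < k l) (k0 : Tendsto k atTop (𝓝 0))
    (tI : IsTan (cn QW (actW Dr)) (cn QW (actW Dr)) lam (fun _ => Dg262.X 0 (TDs 1 Dr) (btW θ) z)
      k lamI)
    (tIo : IsTan (cn QW (actW Dr)) (cn QW (actW Dr)) lo (fun _ => Dg262.X 0 (TDs 1 Dr) (btW θ) z)
      k loI)
    {mm σ : ℝ} (N : LnS Dr Uq lamI mm σ) {Zs : Set (Fin 18)} (hZs : ∀ k ∈ Zs, k ∈ JW 2) :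
    HasGau θ g q ∅ (Zs ∪ ↑(JW 1)) := by
  classical
  have ht1 := H.th1
  have hD3 : Dr3 Dr := ⟨fun h => absurd (hL.d4 _ ((hDr _).1 h)).1 (by decide),
    fun h => absurd (hL.d4 _ ((hDr _).1 h)).1 (by decide),
    fun h => (hL.d4 _ ((hDr _).1 h)).2 rfl⟩
  have hlo := hSt.lo
  obtain ⟨T1, W1, R1, big⟩ := exists_bigW θ
  have hW1 : 0 ≤ W1 := by have := big.T0; have := big.w0T; linarith
  have hW1' : 0 < W1 := by have := big.T0; have := big.w0T; linarith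
  set c : ℝ := W1 / θ 1 with hc
  have hcθ : c * θ 1 = W1 := by rw [hc]; field_simp
  obtain ⟨x, hx1, hxK, hxm⟩ := exists_prec θ c R1
  -- twin windows
  obtain ⟨B2, X1, w1, h, TI, ToI, TR, ToR, lamR, loR, w1p, hp, hh, hbase, hX1, hbas, hZW, -, -, hIW,
    hSR⟩ := front_winM H h0 h1 hD3 S z.2 c (natG_yD hD3 hlo θ z) kpos k0 tI tIo
  set y : Fin 18 → ℝ := Dg262.X 0 (TDs 1 Dr) (btW θ) z with hy
  set YI : ℕ → Fin 18 → ℝ := fun n => X1 n + w1 n • y with hYI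
  set XR : ℕ → Fin 18 → ℝ := fun n => X1 n + w1 n • ((z.2 - c * h n) • btW θ) with hXR
  set ww : ℕ → ℝ := fun n => w1 n * h n with hww
  -- the relation
  obtain ⟨xr, hxr, hR⟩ := hrel κ u F mm σ (x + 2 * W1) N.m0 N.s0
  have hZW' := hZW
  rw [← coneM_mA (M := monW) (A := actW Dr)] at hZW'
  obtain ⟨J1, s1, s2, j, jsup, jsz, jpr⟩ := lin_front hZW' hbas (actM_mA Dr) hDr H.u0 H.κ1
    hIW.iw.kap hxr N.m0 N.s0 (N.dn xr hxr) (N.num xr hxr) (K := x + 2 * W1) hR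
  -- positions
  have hNG : ∀ n, NatG Dr (YI n) := fun n => (hX1 n).add ((natG_yD hD3 hlo θ z).smul _)
  have hnat : ∀ n k, k ∉ Dr → YI n k = natX YI n k := fun n k hk => hNG n k hk
  have hpos : ∀ n, ∀ k ∈ JW 1, natX YI n k = natX XR n k + ww n * (c * btW θ k) := by
    intro n k hk
    have h2 := natX_posM (X1 := X1) (w1 := w1) (h := h) (T := TDs 1 Dr) (z := z) (c := c)
      (θ := θ) n k
    rw [grW_TDs hD3 hlo (mem_JW.1 hk).1 (by rw [(mem_JW.1 hk).2]; norm_num), mul_zero, mul_zero,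
      add_zero] at h2
    exact h2
  have hnotD : ∀ {k : Fin 18}, k ∉ Dq → k ∉ Dr := fun hk h => hk ((hDr _).1 h)
  have hQD : ∀ p ∈ Qj ∪ {12}, Fin.natAdd 4 p ∉ Dr := fun p hp => hnotD (hL.q2 p hp).1
  have hQJ : ∀ p ∈ Qj ∪ {12}, Fin.natAdd 4 p ∈ JW 1 := fun p hp => (hL.q2 p hp).2
  have hcb : ∀ k ∈ JW 1, c * btW θ k = -(W1 * ((wc k : ℝ) + b)) := fun k hk => by
    rw [btW_JW1 hb hk, ← hcθ]; ring
  have hwcb : ∀ k ∈ JW 1, k ∉ Dr → 0 ≤ (wc k : ℝ) + b := fun k hk hkD => by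
    have := hL.wcb k (mem_JW.1 hk).1 fun h => hkD ((hDr k).2 h)
    exact_mod_cast this
  -- size of the slot `15`
  have hJ2 : ∃ J2 : ℕ → Finset (ℕ × ℝ), (∀ n, J2 n ⊆ J1 n) ∧ Dense B2 J2 I ∧
      ∀ p ∈ Qj, Fin.natAdd 4 p ∉ Dr → btW θ (Fin.natAdd 4 p) < 0 → ∀ ε : ℝ, 0 < ε →
      ∀ᶠ n in (U : Filter ℕ), ∀ i ∈ J2 n, u n (Fin.natAdd 4 p) * |j n i p| ≤
        B.d n ^ natX XR n (Fin.natAdd 4 p) * B2.d n ^ (-ε) := by
    rcases hL.cs with ⟨hb2, hQ, h14⟩ | ⟨hb1, hQ⟩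
    · have hb2' : ((b : ℤ) : ℝ) = 2 := by rw [hb2]; norm_num
      set p : Fin 18 → ℝ := fun k => if k ∈ Dr then 0 else grW 0 W1 (2 * W1) k with hpdef
      have poff : ∀ k, k ∉ Dr → p k = grW 0 W1 (2 * W1) k := fun k hk => if_neg hk
      have pon : ∀ k, k ∈ Dr → p k = 0 := fun k hk => if_pos hk
      have hpc : p ∈ cn QW (actW Dr) :=
        S.mem_congr (nat_grW _ 0 W1 (2 * W1)).mem fun i hi => (poff i hi).symm
      have h14' := hnotD h14
      have h15' := hnotD hL.d15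
      have h16' := hnotD hL.d16
      have hp0 : 0 ≤ p := by
        intro k
        by_cases hk : k ∈ Dr
        · rw [pon k hk]; rfl
        · rw [poff k hk]
          have hk1 : k ∉ D11 := fun h => hk ((hDr k).2 (hL.d11 k h))
          have key : ∀ k : Fin 18, k ∉ D11 → 0 ≤ wc k + 2 * wn k := by decide
          have := key k hk1
          have h3 : (0 : ℝ) ≤ (wc k : ℝ) + 2 * (wn k : ℝ) := by exact_mod_cast this
          simp only [grW, Pi.zero_apply]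
          nlinarith
      have hp1 : p 1 = W1 := by rw [poff 1 hD3.h1, grW_1]
      have hp16 : p 16 = 2 * W1 := by
        rw [poff 16 h16']; simp [grW, wz, wc, wn]
      have hpe : ∀ t : ℝ, 0 ≤ t → p + t • e1W ∈ cn QW (actW Dr) := fun t ht => add_e1_mem hpc ht
      have hsw : ∀ t : ℝ, 0 < t → lamI (p + t • e1W) < lamI p := by
        intro t ht
        have h2 := sweepS one_pos hSt S hz kpos k0 tI (-c) ht.le hpc (by
          rw [hp1, ← hcθ]; simp [btW, grW, wz, wc, wn]) (fun i hi hTi => by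
          rcases (TDs_zero hlo hTi).2 with rfl | hiJ
          · rw [hp1, ← hcθ]; simp [btW, grW, wz, wc, wn]
          · have e1 : -c * btW θ i = W1 * ((wc i : ℝ) + b) := by
              have := hcb i hiJ; linarith
            rw [e1, poff i hi, hb2']
            have h3 : ∀ i ∈ JW 1, wn i = 1 := by decide
            simp only [grW, h3 i hiJ]
            push_cast
            apply le_of_eq
            ring)
        have h3 : 0 < (q 1 + 2 * q 2) * t := by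
          have := H.q1; have := H.q2; positivity
        linarith
      rw [← coneM_mA (M := monW) (A := actW Dr)] at hpc
      obtain ⟨J2, a1, a2, a3⟩ := size15 hZW' hbas (actM_mA Dr) hD3.h1 h14' h15' h16' H.u0 H.κ1 s2
        (j := j) (by rw [← hQ]; exact jsup) (by rw [← hQ]; exact jsz) hW1 (K := x + 2 * W1)
        (by linarith) (fun ε hε => by
          filter_upwards [jpr ε hε] with n hn i hi i' hi' hl
          exact hn i hi i' hi' hl 12 (mem_union_right _ (mem_singleton_self _)))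
        hpc hp0 hp1 hp16 (fun t ht => by
          rw [coneM_mA]; exact hpe t ht) hsw
      refine ⟨J2, a1, a2, fun p' hp' hpD hneg ε hε => ?_⟩
      have hp2 : p' = 10 ∨ p' = 11 := by
        have := hL.q1 hp'
        simpa using this
      rcases hp2 with rfl | rfl
      · exfalso
        have h4 : wc (Fin.natAdd 4 (10 : Fin 14)) = -2 := by decide
        have h3 : btW θ (Fin.natAdd 4 (10 : Fin 14)) = 0 := by
          rw [btW_JW1 hb (hQJ 10 (mem_union_left _ hp')), h4, hb2']; norm_num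
        rw [h3] at hneg
        exact lt_irrefl _ hneg
      · filter_upwards [a3 ε hε] with n hn i hi
        have h3 := hn i hi
        have hu := (H.u0 n).pos (Fin.natAdd 4 (11 : Fin 14))
        rw [sda, ← mul_div_assoc, le_div_iff₀ hu] at h3
        have h4 : u n (Fin.natAdd 4 (11 : Fin 14)) * |j n i 11| ≤
            B.d n ^ natX YI n (Fin.natAdd 4 (11 : Fin 14)) * B2.d n ^ (W1 - ε) := by
          rw [← hnat n _ hpD]; linarith
        refine h4.trans (unit_rec hbase hpos (hQJ 11 (mem_union_left _ hp')) ?_)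
        rw [hcb _ (hQJ 11 (mem_union_left _ hp'))]
        have h5 : wc (Fin.natAdd 4 (11 : Fin 14)) = -1 := by decide
        rw [h5, hb2']
        push_cast
        linarith
    · refine ⟨J1, fun n => Subset.refl _, s2, fun p hp hpD hneg => ?_⟩
      exfalso
      rw [hQ, mem_singleton] at hp
      subst hp
      have hb1' : ((b : ℤ) : ℝ) = 1 := by rw [hb1]; norm_num
      have h4 : wc (Fin.natAdd 4 (11 : Fin 14)) = -1 := by decide
      have h3 : btW θ (Fin.natAdd 4 (11 : Fin 14)) = 0 := by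
        rw [btW_JW1 hb (by decide), h4, hb1']; norm_num
      rw [h3] at hneg
      exact lt_irrefl _ hneg
  obtain ⟨J2, a1, a2, a3⟩ := hJ2
  -- the law
  have L : JLaw θ B B2 I0 J2 κ u F XR YI Qj (Qj ∪ {12}) R1 j := by
    refine jlaw_of (s := 1) (Dr := Dr) (J1 := J1) (w := ww) (c := c) (x := x)
      (Qp := ↑(Qj ∪ {12} : Finset (Fin 14))) hbase hpos hnat
      (fun p hp => hQJ p (mem_union_left _ hp)) hQJ (fun p hp => hp) (fun k hk hkD => ?_)
      (fun k _ => hxK k) (fun k _ => hxm k) (fun n i p hp => jsup n i p (by simpa using hp))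
      (fun ε hε => ?_) (fun ε hε => ?_) a1 a3
    · rw [btW_JW1 hb hk]
      have := mul_nonneg ht1.le (hwcb k hk hkD)
      linarith
    · filter_upwards [jsz ε hε] with n hn i hi p
      by_cases hp : p ∈ Qj
      · have hpD := hQD p (mem_union_left _ hp)
        have h3 := hn i hi p hp
        have hu := (H.u0 n).pos (Fin.natAdd 4 p)
        rw [sda, ← mul_div_assoc, le_div_iff₀ hu] at h3
        rw [SzQ, if_neg hpD]
        linarith
      · rw [jsup n i p hp, abs_zero, mul_zero]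
        unfold SzQ
        split_ifs
        · exact mul_nonneg (Real.rpow_pos_of_pos (B.pos n) _).le
            (Real.rpow_pos_of_pos (B2.pos n) _).le
        · exact mul_nonneg (Real.rpow_pos_of_pos (B.pos n) _).le
            (Real.rpow_pos_of_pos (B2.pos n) _).le
    · filter_upwards [jpr ε hε] with n hn i hi i' hi' hl p hp
      have hp' : p ∈ Qj ∪ {12} := by simpa using hp
      have hpD := hQD p hp'
      have h3 := hn i hi i' hi' hl.symm p hp'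
      have hu := (H.u0 n).pos (Fin.natAdd 4 p)
      rw [sda, ← mul_div_assoc, le_div_iff₀ hu] at h3
      rw [ErQ, if_neg hpD]
      have h4 : B2.d n ^ (x + 2 * W1 - ε) ≤ B2.d n ^ (x - ε) :=
        Real.rpow_le_rpow_of_exponent_ge (B2.pos n) (B2.lt n).le (by linarith)
      have h5 := mul_le_mul_of_nonneg_right h4
        (Real.rpow_pos_of_pos (B.pos n) (YI n (Fin.natAdd 4 p))).le
      linarith
  obtain ⟨Sd, hSd, hd⟩ := dense_sub a2
  refine hasGau_of_law (V := ∅) (J := I) (J1 := J2) H.th1 H.q1 H.q2 H.q0 H.qg H.qθ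
    (fun k hk => absurd hk (by simp)) (fun k hk => ?_) capCl_empty H.u0 H.κ1 hIW hSR big
    (b := b) hL.b0.le hL.b4 (fun k h4 hkD => hL.wcb k h4 fun h => hkD ((hDr k).2 h))
    (fun k h4 hkD he => ?_) (fun n => (a1 n).trans (s1 n)) hSd hd (YI := YI) ?_ ?_
    (Sp := Qj) (Js := Qj ∪ {12}) ?_ subset_union_left (fun q _ h => h) (K := R1) le_rfl L ?_
  · obtain ⟨d1, d2⟩ := hL.d4 k ((hDr k).1 hk)
    exact ⟨d1, d2, fun h => h⟩
  · have hkJ := hL.wc0 k h4 (fun h => hkD ((hDr k).2 h)) he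
    rw [btW_JW1 hb hkJ]
    have : (wc k : ℝ) + b = 0 := by exact_mod_cast he
    rw [this, mul_zero, neg_zero]
  · filter_upwards [hZW.legal 0] with n hn
    have := hn 0 hZW.zero (by rw [norm_zero])
    rwa [smul_zero, add_zero] at this
  · have h2 := posM_le (X1 := X1) (w1 := w1) (h := h) (T := TDs 1 Dr) (b := btW θ) (z := z) (c := c)
      (bC := bCq b W1) w1p hp hh hz (TDs_nonneg one_pos Dr) (fun k hk => by
        rcases (TDs_zero hlo hk).2 with rfl | hkJ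
        · have e1 : c * btW θ 1 = -W1 := by
            rw [← hcθ]; simp [btW, grW, wz, wc, wn]
          rw [e1]; simp [bCq, grW, wz, wc, wn]
        · rw [hcb k hkJ, bCq_JW1 hkJ])
    filter_upwards [h2] with n hn k
    exact hn k
  · exact hL.q1.trans (by decide)
  · intro k hk
    rcases hk with hk | hk
    · right
      have hkJ := hZs k hk
      have hkD := hL.j2 k hkJ
      exact ⟨(hDr k).2 hkD, hL.q4 k (mem_union_right _ hkJ) hkD⟩
    · have hkJ : k ∈ JW 1 := hk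
      by_cases hkD : k ∈ Dq
      · right
        exact ⟨(hDr k).2 hkD, hL.q4 k (mem_union_left _ hkJ) hkD⟩
      · left
        exact hL.q3 k hkJ hkD

end main

/-- **`SeamLinG`** from the rows and 560's relation in the two resonances -/
theorem seamLinG_of (hR : RowsC) (r2 : RelH D11 {2, 3, 17} {10, 11})
    (r1 : RelH D12 {2, 17} {11}) : SeamLinG := by
  intro θ g q Zs hOb hcase hres
  obtain ⟨w0, R, T0, B, B', I0, I, κ, u, F, X', w, Tn, To, PD, ν, own, c₀, H, hz⟩ := hOb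
  have hS : SlotOkW θ (fun k => k ∈ (∅ : Set (Fin 18))) (fun k => k ∈ (∅ : Set (Fin 18))) :=
    ⟨fun k h => h, fun k h => absurd h (by simp), fun k h => absurd h (by simp)⟩
  have h2 : ↑(JW 2) ⊆ Zs ∨ ¬ Res2 θ := by
    rcases hcase with ⟨-, h⟩ | h
    · exact Or.inr h
    · exact Or.inl h.ge
  have hZs : ∀ k ∈ Zs, k ∈ JW 2 := by
    intro k hk
    rcases hcase with ⟨h, -⟩ | h
    · rw [h] at hk; exact absurd hk (by simp)
    · rw [h] at hk; exact hk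
  obtain ⟨C, lam, lo, hst⟩ := SZ480.ob_lin hR H hz hS (fun k h => h) h2 hres
    (v1 := 1 / 2) (by norm_num) (by norm_num)
  rcases hres with h14 | h15
  · have hDr : ∀ k, k ∈ SZ480.DrR θ 1 ↔ k ∈ D11 := SZ480.drR1_14 H.th1 h14
    obtain ⟨z, hz0, k, kpos, k0, lamI, loI, mm, σ, tI, tIo, N⟩ :=
      Ln619.hasLinN2 C (fun k hk => absurd hk (by simp)) hDr rfl hst
    refine lin_case lcase2 r2 H (by norm_num) (by norm_num) ?_ hDr
      (Ln619.stgOk_aux hDr (fun k hk => hk) (by decide) rfl) hst hz0 kpos k0 tI tIo N hZs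
    have : btW θ 14 = 2 * θ 1 - θ 0 := by simp [btW, grW, wz, wc, wn]; ring
    push_cast
    linarith
  · have hDr : ∀ k, k ∈ SZ480.DrR θ 1 ↔ k ∈ D12 := SZ480.drR1_15 H.th1 h15
    obtain ⟨z, hz0, k, kpos, k0, lamI, loI, mm, σ, tI, tIo, N⟩ :=
      Ln619.hasLinN1 C (fun k hk => absurd hk (by simp)) hDr (SZ480.btW14_ne H.th1 h15) rfl hst
    refine lin_case lcase1 r1 H (by norm_num) (by norm_num) ?_ hDr
      (Ln619.stgOk_aux hDr (by decide) (by decide) rfl) hst hz0 kpos k0 tI tIo N hZs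
    have : btW θ 15 = θ 1 - θ 0 := by simp [btW, grW, wz, wc, wn]; ring
    push_cast
    linarith

end Crest.Agent.R136.LinF403
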