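import Crest.Agent.R136.Lin4_560
import Crest.Agent.R136.LinD_560
import Crest.Agent.R136.LinV_938

-- ▼ part R136/Lin5_560
section

/-!
# R136, thin branch, `lin` (helper560), part 5: rigidity of velocities over an `RModel`

`lin_model2`, `lin_model3` : if a level carries fewer than `ρ^(-d (x - t))` points, the velocities of a
`ρ^δ`-part of all lines lie in one hyperplane, up to `ρ^(t - δ)`.
-/

set_option autoImplicit false
set_option linter.unusedSectionVars false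
set_option linter.unusedVariables false

open Filter Topology

namespace Crest.Agent.R136.Lin560

open Finset
open Crest.Agent.R138.Ex926 (Base U)
open Crest.Agent.R136.Gf356
open Crest.Agent.R136.Qd329 (int_img floor_close card_le_img voronoi net_facts)

section

variable {κ : Type} {B : Base} {G : ℕ → RCfg κ} {Leg : Set (κ → ℝ)} {ν : (κ → ℝ) → ℝ}
  {D x M C m : ℝ} {p0 r Qc Qf : κ → ℝ} {pc : ℝ → κ → ℝ} {d : ℕ} {φ : ℕ → ℕ → ℝ}
  {ty : ℕ → ℕ → Fin 2 → ℝ} {vel : ℕ → ℕ → Fin d → ℝ} {pos : ℕ → ℕ → ℕ → Fin d → ℝ}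

/-- all facts for one `n` -/
structure SetN (d : ℕ) (B : Base) (G : ℕ → RCfg κ) (ν : (κ → ℝ) → ℝ) (D x M C m : ℝ)
    (p0 r Qc Qf : κ → ℝ) (φ : ℕ → ℕ → ℝ) (ty : ℕ → ℕ → Fin 2 → ℝ) (vel : ℕ → ℕ → Fin d → ℝ)
    (pos : ℕ → ℕ → ℕ → Fin d → ℝ) (e y t : ℝ) (n : ℕ) (cell : ℕ → ℕ → ℕ) : Prop where
  flow : Flow d (G n).hts (G n).Z (φ n) (vel n) (pos n) (fun k y l => (G n).loose r e k y l)
    (tyl (B.d n ^ x) (ty n)) cell (B.d n ^ (x - (C * D ^ 5 + 1) * e)) M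
  st : ∀ k y l, l ∈ (G n).box r e y k → (G n).loose r e k y l ∧ k ∈ (G n).hts l
  NT : (((G n).L.image (tyl (B.d n ^ x) (ty n))).card : ℝ) ≤
    B.d n ^ (ν Qc - ν p0 - (2 * C + D + 4) * e)
  hT : ∀ y, ((G n).hts y).Nonempty →
    tyl (B.d n ^ x) (ty n) y ∈ (G n).L.image (tyl (B.d n ^ x) (ty n))
  NC : ∀ k ∈ (G n).Z, ∀ S : Finset ℕ, (∀ y ∈ S, k ∈ (G n).hts y) →
    (((S.image (cell k)).card : ℕ) : ℝ) ≤ B.d n ^ (ν r - ν p0 - (D + 1) * e)
  hS : ∀ y, ∀ k ∈ (G n).hts y, B.d n ^ (ν Qf - ν r + (C * D ^ 3 + 1) * e) ≤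
    (((((G n).box r e y k).image (tyl (B.d n ^ x) (ty n))).card : ℕ) : ℝ)
  hc : ∀ c0 : ℝ, ∀ S : Finset ℕ, (∀ l ∈ S, l ∈ (G n).L) →
    (∀ l ∈ S, |ty n l 0 - c0| ≤ B.d n ^ (y + 2 * e)) →
    (((S.image (tyl (B.d n ^ x) (ty n))).card : ℕ) : ℝ) ≤
      B.d n ^ (ν Qf - ν r + (C * D ^ 3 + 1) * e) / 4
  hH : ∀ y, ((G n).hts y).Nonempty → B.d n ^ e * (G n).Z.card ≤ (((G n).hts y).card : ℝ)
  hN : ∀ k ∈ (G n).Z, ∀ R : ℝ, C * R ≤ B.d n ^ (x - t - (C * D ^ 5 + 2) * e) →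
    (((G n).Z.filter fun k' => |φ n k' - φ n k| ≤ R).card : ℝ) ≤
      B.d n ^ (x - t - (C * D ^ 5 + 3) * e) * (G n).Z.card
  ty1 : ∀ S : Finset ℕ, ∀ K : ℕ → ℕ, (∀ l ∈ S, (l, K l) ∈ (G n).I) → ∀ W : Finset ℕ,
      (∀ l ∈ S, ∀ l', (l', K l) ∈ (G n).I → (∀ i, |ty n l' i - ty n l i| ≤ B.d n ^ (x - C * e)) →
        l' ∈ W) →
      (∀ l ∈ S, ∀ l' ∈ S, tyl (B.d n ^ x) (ty n) l = tyl (B.d n ^ x) (ty n) l' → l = l') →
      (S.card : ℝ) ≤ B.d n ^ (ν Qc - (2 * C + 3) * e) * (W.card : ℝ)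
  Lc : ((G n).L.card : ℝ) ≤ B.d n ^ (-ν p0 - (D + 1) * e)
  bd : ∀ k l, (l, k) ∈ (G n).I → (∀ i, |ty n l i| ≤ M)
  c24 : (24 : ℝ) ≤ B.d n ^ (-e)
  cM : 600 * M ^ 3 * C ≤ B.d n ^ (-e)
  Zc : (0 : ℝ) < (G n).Z.card

theorem setup (H : RModel B G 1 x Leg ν D)
    (Q : LRow d B G x M C p0 r Qc Qf pc φ ty vel pos) (P : LProf Leg ν x m p0 r Qc Qf pc)
    {e y t : ℝ} (he : 0 < e) (hy : 0 ≤ y) (hyx : y + 2 * e ≤ x - C * e) (ht : 0 ≤ t)
    (hte : (C * D ^ 5 + 2) * e ≤ x - t) (hmy : (2 * C + D + C * D ^ 3 + 6) * e ≤ m * y) :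
    ∀ᶠ n in (U : Filter ℕ), ∃ cell, SetN d B G ν D x M C m p0 r Qc Qf φ ty vel pos e y t n cell := by
  have hD := H.D1
  have hD0 : 0 < D := by linarith
  have hC := Q.C1
  have hC0 : 0 < C := by linarith
  have hM := Q.M1
  have hD3 : 1 ≤ D ^ 3 := one_le_pow₀ hD
  have hD5 : 1 ≤ D ^ 5 := one_le_pow₀ hD
  have hCD5 : C ≤ C * D ^ 5 := le_mul_of_one_le_right hC0.le hD5
  have hx1 : 0 ≤ x - t - (C * D ^ 5 + 2) * e := by linarith
  filter_upwards [Q.bd, Q.vt, Q.evo e he, Q.rcl e he, Q.rcl (D ^ 5 * e) (by positivity),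
    net_facts H.toRUnif p0 r P.l0 P.lr Q.all he, cnt_lines H Q P he, cnt_all H Q P he, cnt_pt H Q P he,
    cnt_ctypes H Q P he hy hyx, cnt_types H Q P he, H.line e he,
    H.frost (x - t - (C * D ^ 5 + 2) * e) hx1 (by
      have : 0 ≤ (C * D ^ 5 + 2) * e := by positivity
      linarith) e he, Q.zφ, ev_const_le B he 24, ev_const_le B he (600 * M ^ 3 * C),
    ev_const_le B he C] with n h1 h2 h3 h4 h5 h6
    h7 h8 h9 h10 h11 h12 h13 h14 h15 h16 h17
  classical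
  have hZne : (G n).Z.Nonempty := by
    obtain ⟨⟨i, k'⟩, hik⟩ := H.nonempty n
    exact ⟨k', H.memZ hik⟩
  have hcell : ∀ k, ∃ lab : ℕ → ℕ, ((G n).slice k).Nonempty →
      (∀ t ∈ (G n).slice k, ∀ t' ∈ (G n).slice k, lab t = lab t' →
        (G n).loose r (D ^ 5 * e) k t t') ∧
      ((((G n).slice k).image lab).card : ℝ) ≤ B.d n ^ (ν r - e) * ((G n).slice k).card := by
    intro k
    by_cases hne : ((G n).slice k).Nonempty
    · obtain ⟨lab, -, a2, -, a4, -⟩ := h6 k hne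
      exact ⟨lab, fun _ => ⟨a2, a4⟩⟩
    · exact ⟨fun _ => 0, fun h => absurd h hne⟩
  choose cell hcell using hcell
  have memI : ∀ {l k : ℕ}, k ∈ (G n).hts l ↔ (l, k) ∈ (G n).I := fun {l k} => H.memHts
  have hLne : ∀ {l : ℕ}, ((G n).hts l).Nonempty → l ∈ (G n).L := fun {l} hl => by
    obtain ⟨k, hk⟩ := hl
    exact H.memL (memI.1 hk)
  have pw : ∀ {s t : ℝ}, t ≤ s → B.d n ^ s ≤ B.d n ^ t := fun h => rpow_anti B n h
  refine ⟨cell, ?_⟩
  refine
    { flow := ?_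
      st := ?_
      NT := h8
      hT := fun y hy' => mem_image_of_mem _ (hLne hy')
      NC := ?_
      hS := fun y k hk => h9 y k (memI.1 hk)
      hc := ?_
      hH := fun y hy' => h12 y (hLne hy')
      hN := ?_
      ty1 := h11
      Lc := ?_
      bd := fun k l hl => (h1 k l hl).1
      c24 := h15
      cM := h16
      Zc := by exact_mod_cast hZne.card_pos }
  · refine
      { hZ := fun y => filter_subset _ _
        η0 := rpos B n _
        M1 := hM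
        evo := ?_
        nr := ?_
        cl := ?_
        lb := ?_
        vM := ?_
        φM := ?_ }
    · intro l k hk k' hk' i
      exact (h3 l k k' (memI.1 hk) (memI.1 hk') i).trans (pw (by nlinarith))
    · intro k l l' hn hk hk' i
      exact (h4 k l l' (memI.1 hk) (memI.1 hk') hn i).trans (pw (by nlinarith))
    · intro k l l' hk hk' hce i
      have a1 := H.memSlice.2 (memI.1 hk)
      have a2 := H.memSlice.2 (memI.1 hk')
      have a3 := (hcell k ⟨l, a1⟩).1 l a1 l' a2 hce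
      refine (h5 k l l' (memI.1 hk) (memI.1 hk') a3 i).trans (pw ?_)
      have : C * (D ^ 5 * e) = C * D ^ 5 * e := by ring
      nlinarith
    · intro l l' ⟨k, hk⟩ ⟨k', hk'⟩ hlab i
      have a1 := h2 k l k' l' (memI.1 hk) (memI.1 hk') (B.d n ^ x)
        (fun j => tyl_close (rpos B n x) hlab j) i
      refine a1.trans ?_
      calc C * B.d n ^ x ≤ B.d n ^ (-e) * B.d n ^ x :=
            mul_le_mul_of_nonneg_right h17 (rpos B n x).le
        _ = B.d n ^ (x - e) := by rw [← rpow_add']; congr 1; ring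
        _ ≤ _ := pw (by nlinarith)
    · intro l ⟨k, hk⟩ i
      exact (h1 k l (memI.1 hk)).2.1 i
    · intro k hk
      obtain ⟨⟨l, hl⟩, -, -⟩ := h7 k hk
      exact (h1 k l (H.memSlice.1 hl)).2.2
  · intro k y' l hl
    obtain ⟨a1, a2⟩ := RCfg.mem_box.1 hl
    exact ⟨a2, memI.2 (H.memSlice.1 a1)⟩
  · intro k hk S hS
    obtain ⟨hne, h7b, -⟩ := h7 k hk
    have a1 : S.image (cell k) ⊆ ((G n).slice k).image (cell k) :=
      image_subset_image fun l hl => H.memSlice.2 (memI.1 (hS l hl))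
    calc (((S.image (cell k)).card : ℕ) : ℝ) ≤ ((((G n).slice k).image (cell k)).card : ℝ) :=
          Nat.cast_le.2 (card_le_card a1)
      _ ≤ B.d n ^ (ν r - e) * ((G n).slice k).card := (hcell k hne).2
      _ ≤ B.d n ^ (ν r - e) * B.d n ^ (-ν p0 - D * e) :=
          mul_le_mul_of_nonneg_left h7b (rpos B n _).le
      _ = _ := by rw [← rpow_add']; congr 1; ring
  · intro c0 S hSL hSc
    refine (h10 c0 S hSL hSc).trans ?_
    rw [le_div_iff₀ (by norm_num)]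
    calc B.d n ^ (ν Qc - ν p0 + m * y - (2 * C + D + 4) * e) * 4 ≤
        B.d n ^ (ν Qc - ν p0 + m * y - (2 * C + D + 4) * e) * B.d n ^ (-e) :=
          mul_le_mul_of_nonneg_left (by linarith) (rpos B n _).le
      _ = B.d n ^ (ν Qc - ν p0 + m * y - (2 * C + D + 5) * e) := by
          rw [← rpow_add']; congr 1; ring
      _ ≤ _ := pw (by nlinarith [P.hprod])
  · intro k hk R hR
    have a1 : ((G n).Z.filter fun k' => |φ n k' - φ n k| ≤ R) ⊆
        (G n).hbox (x - t - (C * D ^ 5 + 2) * e) k := by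
      intro k' hk'
      obtain ⟨b1, b2⟩ := mem_filter.1 hk'
      unfold RCfg.hbox
      refine mem_filter.2 ⟨b1, ?_⟩
      rw [H.base n]
      refine (h14 k hk k' b1).trans (le_trans ?_ hR)
      exact mul_le_mul_of_nonneg_left b2 hC0.le
    refine (Nat.cast_le.2 (card_le_card a1)).trans ((h13 k hk).trans ?_)
    refine mul_le_mul_of_nonneg_right (le_of_eq ?_) (Nat.cast_nonneg _)
    congr 1; ring
  · obtain ⟨k, hk⟩ := hZne
    exact (h7 k hk).2.2

/-- part with the relation -/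
theorem rel_part {e y t δ : ℝ} {n : ℕ} {cell : ℕ → ℕ → ℕ} (he : 0 < e)
    (S : SetN d B G ν D x M C m p0 r Qc Qf φ ty vel pos e y t n cell)
    (hprod : ν p0 + ν Qf ≤ ν r + ν Qc) (hδ : (D + 2 * C + C * D ^ 3 + 6) * e ≤ δ)
    (S0 : Finset ℕ) (k : ℕ) (hS0 : ∀ l ∈ S0, (l, k) ∈ (G n).I)
    (hcard : B.d n ^ (ν Qf - ν r + (C * D ^ 3 + 1) * e) / 2 ≤
      ((S0.image (tyl (B.d n ^ x) (ty n))).card : ℝ)) (Pr : ℕ → Prop) [DecidablePred Pr]
    (hPr : ∀ l ∈ S0, ∀ l', (l', k) ∈ (G n).I →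
      (∀ i, |ty n l' i - ty n l i| ≤ B.d n ^ (x - C * e)) → Pr l')
    (hL : ∀ l k, (l, k) ∈ (G n).I → l ∈ (G n).L) :
    B.d n ^ δ * ((G n).L.card : ℝ) ≤ (((G n).L.filter Pr).card : ℝ) := by
  obtain ⟨S', hS', hinj, hc⟩ := reps S0 (tyl (B.d n ^ x) (ty n))
  rw [← hc] at hcard
  have h1 := S.ty1 S' (fun _ => k) (fun l hl => hS0 l (hS' hl)) ((G n).L.filter Pr)
    (fun l hl l' hl' hd => mem_filter.2 ⟨hL _ _ hl', hPr l (hS' hl) l' hl' hd⟩) hinj
  have h2 : (2:ℝ) ≤ B.d n ^ (-e) := by linarith [S.c24]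
  have h3 : B.d n ^ (ν Qf - ν r + (C * D ^ 3 + 2) * e) ≤ (S'.card : ℝ) := by
    refine le_trans ?_ hcard
    rw [le_div_iff₀ (by norm_num)]
    calc B.d n ^ (ν Qf - ν r + (C * D ^ 3 + 2) * e) * 2 ≤
        B.d n ^ (ν Qf - ν r + (C * D ^ 3 + 2) * e) * B.d n ^ (-e) :=
          mul_le_mul_of_nonneg_left h2 (rpos B n _).le
      _ = _ := by rw [← rpow_add']; congr 1; ring
  have h4 := h3.trans h1
  have e1 : B.d n ^ (-(ν Qc - (2 * C + 3) * e)) * B.d n ^ (ν Qc - (2 * C + 3) * e) = 1 := by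
    rw [← rpow_add', neg_add_cancel, Real.rpow_zero]
  have h5 := mul_le_mul_of_nonneg_left h4 (rpos B n (-(ν Qc - (2 * C + 3) * e))).le
  rw [← mul_assoc, e1, one_mul, ← rpow_add'] at h5
  refine le_trans ?_ h5
  calc B.d n ^ δ * ((G n).L.card : ℝ) ≤ B.d n ^ δ * B.d n ^ (-ν p0 - (D + 1) * e) :=
        mul_le_mul_of_nonneg_left S.Lc (rpos B n _).le
    _ = B.d n ^ (δ + (-ν p0 - (D + 1) * e)) := by rw [← rpow_add']
    _ ≤ _ := rpow_anti B n (by nlinarith)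

/-- choice of the small parameters -/
theorem params {x t m δ g C D : ℝ} (hm : 0 < m) (hδ : 0 < δ) (hg : 0 < g) (htx : t < x)
    (hC : 1 ≤ C) (hD : 1 ≤ D) (K : ℝ) (hK : 0 < K) : ∃ y e : ℝ, 0 < y ∧ 0 < e ∧
      y + 2 * e ≤ x - t - C * e ∧ K * e ≤ m * y ∧ K * e ≤ g ∧ 8 * y + K * e ≤ δ ∧
      K * e ≤ x - t := by
  have hx : 0 < x - t := by linarith
  obtain ⟨y, hy, hy1, hy2⟩ : ∃ y : ℝ, 0 < y ∧ y ≤ (x - t) / 2 ∧ 8 * y ≤ δ / 2 := by
    refine ⟨min ((x - t) / 2) (δ / 16), lt_min (by linarith) (by linarith), min_le_left _ _, ?_⟩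
    have := min_le_right ((x - t) / 2) (δ / 16)
    linarith
  obtain ⟨e, he, he1⟩ : ∃ e : ℝ, 0 < e ∧
      e ≤ min (min ((x - t) / (2 * (C + 2))) (m * y / K)) (min (g / K) (min (δ / (2 * K))
        ((x - t) / K))) := ⟨_, by positivity, le_rfl⟩
  have a1 := he1.trans ((min_le_left _ _).trans (min_le_left _ _))
  have a2 := he1.trans ((min_le_left _ _).trans (min_le_right _ _))
  have a3 := he1.trans ((min_le_right _ _).trans (min_le_left _ _))
  have a4 := he1.trans ((min_le_right _ _).trans ((min_le_right _ _).trans (min_le_left _ _)))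
  have a5 := he1.trans ((min_le_right _ _).trans ((min_le_right _ _).trans (min_le_right _ _)))
  rw [le_div_iff₀ (by positivity)] at a1 a2 a3 a4 a5
  exact ⟨y, e, hy, he, by nlinarith, by linarith, by linarith, by linarith, by linarith⟩

end

end Crest.Agent.R136.Lin560
end

-- ▼ part R136/Lin7_560
section

/-!
# R136, thin branch, `lin` (helper560), part 7: `lin_model3`
-/

set_option autoImplicit false
set_option linter.unusedSectionVars false
set_option linter.unusedVariables false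

open Filter Topology

namespace Crest.Agent.R136.Lin560

open Finset
open Crest.Agent.R138.Ex926 (Base U)
open Crest.Agent.R136.Gf356

section

variable {κ : Type} {B : Base} {G : ℕ → RCfg κ} {Leg : Set (κ → ℝ)} {ν : (κ → ℝ) → ℝ}
  {D x M C m : ℝ} {p0 r Qc Qf : κ → ℝ} {pc : ℝ → κ → ℝ} {φ : ℕ → ℕ → ℝ}
  {ty : ℕ → ℕ → Fin 2 → ℝ}

/-- the minor of two differences on the parabola -/
theorem minor_eq (k c1 c2 c3 : ℝ) :
    (c1 - c2) * (-(k * c2 ^ 2) - -(k * c3 ^ 2)) - (-(k * c1 ^ 2) - -(k * c2 ^ 2)) * (c2 - c3) =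
      -(k * ((c2 - c1) * (c3 - c2) * (c3 - c1))) := by ring

/-- size of a coefficient -/
theorem coef_le {a b c d M m E : ℝ} (ha : |a| ≤ 2 * M) (hb : |b| ≤ 2 * M) (hc : |c| ≤ 2 * M)
    (hd : |d| ≤ 2 * M) (hm : 0 < |m|) (hE : 8 * M ^ 2 ≤ E * |m|) (hM : 0 ≤ M) :
    |(a * b - c * d) / m| ≤ E := by
  rw [abs_div, div_le_iff₀ hm]
  refine le_trans ?_ hE
  refine (abs_sub _ _).trans ?_
  rw [abs_mul, abs_mul]
  have h1 : |a| * |b| ≤ (2 * M) * (2 * M) := mul_le_mul ha hb (abs_nonneg _) (by positivity)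
  have h2 : |c| * |d| ≤ (2 * M) * (2 * M) := mul_le_mul hc hd (abs_nonneg _) (by positivity)
  linarith

set_option maxHeartbeats 4000000 in
/-- **rigidity in space** -/
theorem lin_model3 {vel : ℕ → ℕ → Fin 3 → ℝ} {pos : ℕ → ℕ → ℕ → Fin 3 → ℝ}
    (H : RModel B G 1 x Leg ν D)
    (Q : LRow 3 B G x M C p0 r Qc Qf pc φ ty vel pos) (P : LProf Leg ν x m p0 r Qc Qf pc)
    {kp : ℕ → ℝ} (hv0 : ∀ n l, vel n l 0 = ty n l 0)
    (hv1 : ∀ n l, vel n l 1 = -(kp n * ty n l 0 ^ 2)) (hv2 : ∀ n l, vel n l 2 = ty n l 1)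
    (hk1 : ∀ n, |kp n| ≤ 1)
    (hkp : ∀ ε : ℝ, 0 < ε → ∀ᶠ n in (U : Filter ℕ), B.d n ^ ε ≤ |kp n|) {t : ℝ} (ht : 0 ≤ t)
    (htx : t < x) (hn : ν p0 - ν r < 3 * (x - t)) {δ : ℝ} (hδ : 0 < δ) :
    ∀ᶠ n in (U : Filter ℕ), ∃ mu la : ℝ, ∃ l1, |mu| ≤ B.d n ^ (-δ) ∧ |la| ≤ B.d n ^ (-δ) ∧
      ∃ T ⊆ (G n).L, B.d n ^ δ * ((G n).L.card : ℝ) ≤ (T.card : ℝ) ∧
      ∀ l ∈ T, |(ty n l 1 - ty n l1 1) - mu * (ty n l 0 - ty n l1 0) -
        la * (-(kp n * ty n l 0 ^ 2) - -(kp n * ty n l1 0 ^ 2))| ≤ B.d n ^ (t - δ) := by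
  have hD := H.D1
  have hD0 : 0 < D := by linarith
  have hC := Q.C1
  have hC0 : 0 < C := by linarith
  have hM := Q.M1
  have hM0 : 0 ≤ M := by linarith
  have hD3 : 1 ≤ D ^ 3 := one_le_pow₀ hD
  have hD5 : 1 ≤ D ^ 5 := one_le_pow₀ hD
  set K : ℝ := 20 * (C * D ^ 5 + C * D ^ 3 + C + D + 2) with hK
  have hCD3 : 0 < C * D ^ 3 := by positivity
  have hCD5 : 0 < C * D ^ 5 := by positivity
  have hK0 : 0 < K := by rw [hK]; positivity
  obtain ⟨y, e, hy, he, q1, q2, q3, q4, q5⟩ := params (x := x) (t := t) P.m0 hδ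
    (g := 3 * (x - t) - (ν p0 - ν r)) (by linarith) htx hC hD K hK0
  have hKe : ∀ s : ℝ, s ≤ K → s * e ≤ K * e := fun s hs => mul_le_mul_of_nonneg_right hs he.le
  filter_upwards [setup H Q P he hy.le (by linarith) ht
    ((hKe _ (by rw [hK]; linarith)).trans q5) ((hKe _ (by rw [hK]; linarith)).trans q2),
    hkp e he] with n hn1 hkn
  obtain ⟨cell, S⟩ := hn1
  classical
  obtain ⟨⟨y0, k0⟩, h0⟩ := H.nonempty n
  have memI : ∀ {l k : ℕ}, k ∈ (G n).hts l ↔ (l, k) ∈ (G n).I := fun {l k} => H.memHts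
  have hLm : ∀ l k, (l, k) ∈ (G n).I → l ∈ (G n).L := fun l k h => H.memL h
  have pw : ∀ {s t : ℝ}, t ≤ s → B.d n ^ s ≤ B.d n ^ t := fun h => rpow_anti B n h
  have pa : ∀ s t : ℝ, B.d n ^ s * B.d n ^ t = B.d n ^ (s + t) := fun s t => (rpow_add' B n s t).symm
  have pos' : ∀ s : ℝ, 0 < B.d n ^ s := fun s => rpos B n s
  have pk : ∀ (s : ℝ) (k : ℕ), (B.d n ^ s) ^ k = B.d n ^ ((k : ℝ) * s) := fun s k => by
    rw [← Real.rpow_natCast, ← Real.rpow_mul (B.pos n).le, mul_comm]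
  have hCe : 0 < C * e := by positivity
  have e0 : 1 ≤ B.d n ^ (-e) := by linarith [S.c24]
  have hMC : 600 * M ^ 3 * C ≤ B.d n ^ (-e) := S.cM
  have hM1' : M ≤ M ^ 3 := le_self_pow₀ hM (by norm_num)
  have hM2' : M ^ 2 ≤ M ^ 3 := pow_le_pow_right₀ hM (by norm_num)
  have hM3' : M ^ 3 ≤ M ^ 3 * C := le_mul_of_one_le_right (by positivity) hC
  have h8M : 8 * M ^ 2 ≤ B.d n ^ (-e) := by
    have : 0 ≤ M ^ 3 * C := by positivity
    linarith
  have h2M : 2 * M ≤ B.d n ^ (-e) := by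
    have : 0 ≤ M ^ 3 * C := by positivity
    linarith
  have key := alt3 (θ := B.d n ^ t) (δ := B.d n ^ (y + 2 * e))
    (nS := B.d n ^ (ν Qf - ν r + (C * D ^ 3 + 1) * e)) (b := B.d n ^ e * (G n).Z.card)
    (N := B.d n ^ (x - t - (C * D ^ 5 + 3) * e) * (G n).Z.card)
    (NC := B.d n ^ (ν r - ν p0 - (D + 1) * e)) S.flow (memI.2 h0)
    (St := fun k y => (G n).box r e y k) S.st S.NT S.hT (pos' _).le S.NC (pos' t) (pos' _).le
    (mul_pos (pos' _) S.Zc).le S.hS ?_ S.hH (mul_pos (pos' _) S.Zc).le ?_ ?_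
  · obtain ⟨y1, y2, y3, k3, g1, g1', g2, g31, g32, g33, g4⟩ := key
    obtain ⟨k1, hk1'⟩ := g1
    obtain ⟨k2, hk2'⟩ := g1'
    have I1 := memI.1 hk1'
    have I2 := memI.1 hk2'
    have I3 := memI.1 g2
    rw [hv0, hv0] at g31 g32 g33
    have vM1 := S.flow.vM y1 ⟨k1, hk1'⟩
    have vM2 := S.flow.vM y2 ⟨k2, hk2'⟩
    have vM3 := S.flow.vM y3 ⟨k3, g2⟩
    have d2M : ∀ {u v : Fin 3 → ℝ}, (∀ i, |u i| ≤ M) → (∀ i, |v i| ≤ M) → ∀ i,
      |u i - v i| ≤ 2 * M := fun hu hv i => (abs_sub _ _).trans (by linarith [hu i, hv i])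
    have a12 := d2M vM1 vM2
    have a23 := d2M vM2 vM3
    set dl := B.d n ^ (y + 2 * e) with hdl
    have hdl0 : 0 < dl := pos' _
    set mn := (vel n y1 0 - vel n y2 0) * (vel n y2 1 - vel n y3 1) -
      (vel n y1 1 - vel n y2 1) * (vel n y2 0 - vel n y3 0) with hmn
    have hmn_ge : B.d n ^ (3 * y + 7 * e) ≤ |mn| := by
      rw [hmn]
      simp only [hv0, hv1]
      rw [minor_eq, abs_neg, abs_mul, abs_mul, abs_mul]
      calc B.d n ^ (3 * y + 7 * e) = B.d n ^ e * (dl * dl * dl) := by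
            rw [hdl, pa, pa, pa]; congr 1; ring
        _ ≤ _ := mul_le_mul hkn (mul_le_mul (mul_le_mul g31.le g33.le hdl0.le (abs_nonneg _))
            g32.le hdl0.le (by positivity)) (by positivity) (abs_nonneg _)
    have hmn0 : 0 < |mn| := (pos' _).trans_le hmn_ge
    have hmne : mn ≠ 0 := abs_pos.1 hmn0
    set la := ((vel n y1 0 - vel n y2 0) * (vel n y2 2 - vel n y3 2) -
      (vel n y1 2 - vel n y2 2) * (vel n y2 0 - vel n y3 0)) / mn with hla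
    set mu := ((vel n y1 2 - vel n y2 2) * (vel n y2 1 - vel n y3 1) -
      (vel n y1 1 - vel n y2 1) * (vel n y2 2 - vel n y3 2)) / mn with hmu
    have hE8 : 8 * M ^ 2 ≤ B.d n ^ (-(3 * y + 8 * e)) * |mn| := by
      calc 8 * M ^ 2 ≤ B.d n ^ (-e) := h8M
        _ = B.d n ^ (-(3 * y + 8 * e)) * B.d n ^ (3 * y + 7 * e) := by rw [pa]; congr 1; ring
        _ ≤ _ := mul_le_mul_of_nonneg_left hmn_ge (pos' _).le
    have hla1 : |la| ≤ B.d n ^ (-(3 * y + 8 * e)) :=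
      coef_le (a12 0) (a23 2) (a12 2) (a23 0) hmn0 hE8 hM0
    have hmu1 : |mu| ≤ B.d n ^ (-(3 * y + 8 * e)) :=
      coef_le (a12 2) (a23 1) (a12 1) (a23 2) hmn0 hE8 hM0
    have hK10 := hKe (C + 10) (by rw [hK]; linarith)
    have hdel : B.d n ^ (-(3 * y + 8 * e)) ≤ B.d n ^ (-δ) := pw (by linarith)
    refine ⟨mu, la, y3, hmu1.trans hdel, hla1.trans hdel, (G n).L.filter fun l =>
      |(ty n l 1 - ty n y3 1) - mu * (ty n l 0 - ty n y3 0) -
        la * (-(kp n * ty n l 0 ^ 2) - -(kp n * ty n y3 0 ^ 2))| ≤ B.d n ^ (t - δ),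
      filter_subset _ _, ?_, fun l hl => (mem_filter.1 hl).2⟩
    refine rel_part he S P.hprod ((hKe _ (by rw [hK]; linarith)).trans (by linarith))
        ((((G n).box r e y3 k3).filter fun l => |det3 (fun i => vel n y1 i - vel n y2 i)
        (fun i => vel n y2 i - vel n y3 i) (fun i => vel n y3 i - vel n l i)| < B.d n ^ t)) k3
        (fun l hl => memI.1 (S.st _ _ _ (mem_filter.1 hl).1).2) ?_ _ ?_ hLm
    · convert g4
    · intro l hl l' hl' hd
      have f1 := (mem_filter.1 hl).2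
      have hIl := memI.1 (S.st _ _ _ (mem_filter.1 hl).1).2
      unfold det3 at f1
      have h4 : |(vel n l 2 - vel n y3 2) - mu * (vel n l 0 - vel n y3 0) -
          la * (vel n l 1 - vel n y3 1)| ≤ B.d n ^ (t - 3 * y - 7 * e) := by
        have e1 : (vel n l 2 - vel n y3 2) - mu * (vel n l 0 - vel n y3 0) -
          la * (vel n l 1 - vel n y3 1) = -((vel n y1 0 - vel n y2 0) *
            ((vel n y2 1 - vel n y3 1) * (vel n y3 2 - vel n l 2) -
              (vel n y2 2 - vel n y3 2) * (vel n y3 1 - vel n l 1)) -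
            (vel n y1 1 - vel n y2 1) * ((vel n y2 0 - vel n y3 0) * (vel n y3 2 - vel n l 2) -
              (vel n y2 2 - vel n y3 2) * (vel n y3 0 - vel n l 0)) +
            (vel n y1 2 - vel n y2 2) * ((vel n y2 0 - vel n y3 0) * (vel n y3 1 - vel n l 1) -
              (vel n y2 1 - vel n y3 1) * (vel n y3 0 - vel n l 0))) / mn := by
          rw [hmu, hla, eq_div_iff hmne]
          have e2 : ∀ a b w1 w2 w3 : ℝ, (w1 - a / mn * w2 - b / mn * w3) * mn =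
              w1 * mn - a * w2 - b * w3 := by
            intro a b w1 w2 w3
            field_simp
          rw [e2, hmn]
          ring
        rw [e1, abs_div, abs_neg, div_le_iff₀ hmn0]
        refine f1.le.trans ?_
        calc B.d n ^ t = B.d n ^ (t - 3 * y - 7 * e) * B.d n ^ (3 * y + 7 * e) := by
              rw [pa]; congr 1; ring
          _ ≤ _ := mul_le_mul_of_nonneg_left hmn_ge (pos' _).le
      rw [hv0, hv0, hv1, hv1, hv2, hv2] at h4
      have e2 : (ty n l' 1 - ty n y3 1) - mu * (ty n l' 0 - ty n y3 0) -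
          la * (-(kp n * ty n l' 0 ^ 2) - -(kp n * ty n y3 0 ^ 2)) =
          ((ty n l 1 - ty n y3 1) - mu * (ty n l 0 - ty n y3 0) -
          la * (-(kp n * ty n l 0 ^ 2) - -(kp n * ty n y3 0 ^ 2))) +
          ((ty n l' 1 - ty n l 1) - mu * (ty n l' 0 - ty n l 0) -
            la * (-(kp n * ty n l' 0 ^ 2) - -(kp n * ty n l 0 ^ 2))) := by ring
      rw [e2]
      refine (abs_add_le _ _).trans ?_
      have bl := S.bd k3 l hIl 0
      have bl' := S.bd k3 l' hl' 0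
      have hbe : |-(kp n * ty n l' 0 ^ 2) - -(kp n * ty n l 0 ^ 2)| ≤
          B.d n ^ (x - (C + 1) * e) := by
        have e3 : -(kp n * ty n l' 0 ^ 2) - -(kp n * ty n l 0 ^ 2) =
          -(kp n * ((ty n l' 0 + ty n l 0) * (ty n l' 0 - ty n l 0))) := by ring
        rw [e3, abs_neg, abs_mul, abs_mul]
        have s1 : |ty n l' 0 + ty n l 0| ≤ 2 * M := (abs_add_le _ _).trans (by linarith)
        calc |kp n| * (|ty n l' 0 + ty n l 0| * |ty n l' 0 - ty n l 0|) ≤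
            1 * (2 * M * B.d n ^ (x - C * e)) := mul_le_mul (hk1 n)
              (mul_le_mul s1 (hd 0) (abs_nonneg _) (by positivity)) (by positivity) zero_le_one
          _ ≤ B.d n ^ (-e) * B.d n ^ (x - C * e) := by
            rw [one_mul]; exact mul_le_mul_of_nonneg_right h2M (pos' _).le
          _ = _ := by rw [pa]; congr 1; ring
      have h5 : |(ty n l' 1 - ty n l 1) - mu * (ty n l' 0 - ty n l 0) -
            la * (-(kp n * ty n l' 0 ^ 2) - -(kp n * ty n l 0 ^ 2))| ≤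
          3 * B.d n ^ (t - 3 * y - (C + 9) * e) := by
        refine (abs_sub _ _).trans ((add_le_add_left (abs_sub _ _) _).trans ?_)
        rw [abs_mul, abs_mul]
        have r1 : B.d n ^ (x - C * e) ≤ B.d n ^ (t - 3 * y - (C + 9) * e) := pw (by linarith)
        have r2 : |mu| * |ty n l' 0 - ty n l 0| ≤ B.d n ^ (t - 3 * y - (C + 9) * e) := by
          calc _ ≤ B.d n ^ (-(3 * y + 8 * e)) * B.d n ^ (x - C * e) :=
                mul_le_mul hmu1 (hd 0) (abs_nonneg _) (pos' _).le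
            _ = B.d n ^ (-(3 * y + 8 * e) + (x - C * e)) := pa _ _
            _ ≤ _ := pw (by linarith)
        have r3 : |la| * |-(kp n * ty n l' 0 ^ 2) - -(kp n * ty n l 0 ^ 2)| ≤
            B.d n ^ (t - 3 * y - (C + 9) * e) := by
          calc _ ≤ B.d n ^ (-(3 * y + 8 * e)) * B.d n ^ (x - (C + 1) * e) :=
                mul_le_mul hla1 hbe (abs_nonneg _) (pos' _).le
            _ = B.d n ^ (-(3 * y + 8 * e) + (x - (C + 1) * e)) := pa _ _
            _ ≤ _ := pw (by linarith)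
        have := hd 1
        linarith
      have r4 : B.d n ^ (t - 3 * y - 7 * e) ≤ B.d n ^ (t - 3 * y - (C + 9) * e) :=
        pw (by linarith)
      calc _ ≤ 4 * B.d n ^ (t - 3 * y - (C + 9) * e) := by linarith
        _ ≤ B.d n ^ (-e) * B.d n ^ (t - 3 * y - (C + 9) * e) :=
          mul_le_mul_of_nonneg_right (by linarith [S.c24]) (pos' _).le
        _ = B.d n ^ (t - 3 * y - (C + 10) * e) := by rw [pa]; congr 1; ring
        _ ≤ _ := pw (by linarith)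
  · -- hc
    intro c0 l k hk
    refine le_trans (le_of_eq ?_) (S.hc c0 (((G n).box r e l k).filter fun l => |vel n l 0 - c0| ≤
      B.d n ^ (y + 2 * e)) (fun l' hl' => hLm l' k (memI.1 (S.st _ _ _ (mem_filter.1 hl').1).2))
      (fun l' hl' => by rw [← hv0]; exact (mem_filter.1 hl').2))
    congr!
  · -- hN
    intro k hk
    refine le_trans (le_of_eq ?_) (S.hN k hk (600 * M ^ 3 * B.d n ^ (x - (C * D ^ 5 + 1) * e) /
      B.d n ^ t) ?_)
    · congr!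
    · have e1 : B.d n ^ (x - (C * D ^ 5 + 1) * e) / B.d n ^ t =
        B.d n ^ (x - t - (C * D ^ 5 + 1) * e) := by
        rw [div_eq_iff (pos' t).ne', pa]; congr 1; ring
      rw [mul_div_assoc, e1]
      calc C * (600 * M ^ 3 * B.d n ^ (x - t - (C * D ^ 5 + 1) * e)) =
          (600 * M ^ 3 * C) * B.d n ^ (x - t - (C * D ^ 5 + 1) * e) := by ring
        _ ≤ B.d n ^ (-e) * B.d n ^ (x - t - (C * D ^ 5 + 1) * e) :=
          mul_le_mul_of_nonneg_right hMC (pos' _).le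
        _ = _ := by rw [pa]; congr 1; ring
  · -- hlt
    have Z0 := S.Zc
    set Z : ℝ := ((G n).Z.card : ℝ) with hZ
    have e1 : (B.d n ^ (ν Qc - ν p0 - (2 * C + D + 4) * e)) ^ 4 *
        (Z * B.d n ^ (ν r - ν p0 - (D + 1) * e)) *
        (B.d n ^ (x - t - (C * D ^ 5 + 3) * e) * Z) ^ 3 =
        B.d n ^ (4 * (ν Qc - ν p0 - (2 * C + D + 4) * e) + (ν r - ν p0 - (D + 1) * e) +
          3 * (x - t - (C * D ^ 5 + 3) * e)) * Z ^ 4 := by
      have a1 : B.d n ^ (4 * (ν Qc - ν p0 - (2 * C + D + 4) * e) + (ν r - ν p0 - (D + 1) * e) +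
          3 * (x - t - (C * D ^ 5 + 3) * e)) =
          (B.d n ^ (ν Qc - ν p0 - (2 * C + D + 4) * e)) ^ 4 *
          B.d n ^ (ν r - ν p0 - (D + 1) * e) * (B.d n ^ (x - t - (C * D ^ 5 + 3) * e)) ^ 3 := by
        rw [pk, pk, pa, pa]; norm_num
      rw [a1]; ring
    have e2 : (B.d n ^ (ν Qf - ν r + (C * D ^ 3 + 1) * e) / 2 * (B.d n ^ e * Z)) ^ 4 =
        B.d n ^ (4 * (ν Qf - ν r + (C * D ^ 3 + 2) * e)) * Z ^ 4 / 16 := by
      have a1 : B.d n ^ (4 * (ν Qf - ν r + (C * D ^ 3 + 2) * e)) =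
          (B.d n ^ (ν Qf - ν r + (C * D ^ 3 + 1) * e) * B.d n ^ e) ^ 4 := by
        rw [pa, pk]; congr 1; push_cast; ring
      rw [a1]; ring
    rw [e1, e2, lt_div_iff₀ (by norm_num)]
    have e3 : B.d n ^ (4 * (ν Qc - ν p0 - (2 * C + D + 4) * e) + (ν r - ν p0 - (D + 1) * e) +
          3 * (x - t - (C * D ^ 5 + 3) * e)) * 16 <
        B.d n ^ (4 * (ν Qf - ν r + (C * D ^ 3 + 2) * e)) := by
      have a2 : 4 * (ν Qf - ν r + (C * D ^ 3 + 2) * e) + e ≤
          4 * (ν Qc - ν p0 - (2 * C + D + 4) * e) + (ν r - ν p0 - (D + 1) * e) +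
          3 * (x - t - (C * D ^ 5 + 3) * e) := by
        have a3 := hKe (4 * (C * D ^ 3 + 2) + 1 + 4 * (2 * C + D + 4) + (D + 1) +
          3 * (C * D ^ 5 + 3)) (by rw [hK]; linarith)
        have a4 := P.hprod
        linarith
      calc _ < B.d n ^ (4 * (ν Qc - ν p0 - (2 * C + D + 4) * e) + (ν r - ν p0 - (D + 1) * e) +
          3 * (x - t - (C * D ^ 5 + 3) * e)) * B.d n ^ (-e) :=
            mul_lt_mul_of_pos_left (by linarith [S.c24]) (pos' _)
        _ = B.d n ^ (4 * (ν Qc - ν p0 - (2 * C + D + 4) * e) + (ν r - ν p0 - (D + 1) * e) +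
          3 * (x - t - (C * D ^ 5 + 3) * e) + (-e)) := pa _ _
        _ ≤ _ := pw (by linarith)
    calc _ = (B.d n ^ (4 * (ν Qc - ν p0 - (2 * C + D + 4) * e) + (ν r - ν p0 - (D + 1) * e) +
          3 * (x - t - (C * D ^ 5 + 3) * e)) * 16) * Z ^ 4 := by ring
      _ < _ := mul_lt_mul_of_pos_right e3 (by positivity)

end

end Crest.Agent.R136.Lin560
end

-- ▼ part R136/Lin8_560
section

/-!
# R136, thin branch, `lin` (helper560), part 8: algebra of the slots `14, 15, 16` in the window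
-/

set_option autoImplicit false
set_option linter.unusedSectionVars false
set_option linter.unusedVariables false

open Filter Topology

namespace Crest.Agent.R136.Lin560

open Finset Crest.Agent.R138.Ex926 Crest.Agent.R136.Net191 Crest.Agent.R136.Gf356
open Crest.Agent.R136.Qg926 Crest.Agent.R136.NetW191 Crest.Agent.R136.EvW938
open Crest.Agent.R136.QdH887 (bv)

/-! ### the dropped part of a flag -/

theorem prod_const_mul (K : ℝ) (X : Fin 18 → ℝ) (l : List (Fin 18)) :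
    (l.map fun s => K * X s).prod = K ^ l.length * (l.map X).prod := by
  induction l with
  | nil => simp
  | cons a l ih =>
    simp only [List.map_cons, List.prod_cons, ih, List.length_cons, pow_succ]
    ring

theorem idx_len : ∀ q, ∀ t ∈ tms q, (Tm.idx t).length ≤ 8 := by decide

theorem sum_abs_le {L : List Tm} {F : Tm → ℝ} {S : ℝ} (hL : ∀ t ∈ L, |F t| ≤ |(t.n : ℝ)| * S) :
    |(L.map F).sum| ≤ (((L.map fun t => t.n.natAbs).sum : ℕ) : ℝ) * S := by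
  induction L with
  | nil => simp
  | cons a L ih =>
    simp only [List.map_cons, List.sum_cons, Nat.cast_add]
    have h1 := ih fun t ht => hL t (List.mem_cons_of_mem _ ht)
    have h2 := hL a List.mem_cons_self
    have h4 : ((a.n.natAbs : ℕ) : ℝ) = |(a.n : ℝ)| := by
      rw [Nat.cast_natAbs, Int.cast_abs]
    rw [h4, add_mul]
    exact (abs_add_le _ _).trans (add_le_add h2 h1)

variable {Dq Uq : Finset (Fin 18)} {W : Wnd 18 fun _ => ℕ × ℝ} {κ : ℕ → ℝ}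
  {u : ℕ → Fin 18 → ℝ} {f : ∀ n : ℕ, ℕ × ℝ → FW} {mm σ x : ℝ}

/-- all walls with a dropped slot at once -/
theorem LnW.gaps (g : LnW Dq Uq W κ u f mm σ x) (R : ℝ) : ∀ᶠ n in (U : Filter ℕ), ∀ k, ∀ l ∈ mlW k,
    (k ∈ Dq ∨ ∃ s ∈ l, s ∈ Dq) → W.X n k + R * W.w n ≤ (l.map (W.X n)).sum := by
  rw [eventually_all]
  intro k
  have := (eventually_all_finite (List.finite_toSet (mlW k)) (l := (U : Filter ℕ))
    (p := fun l n => (k ∈ Dq ∨ ∃ s ∈ l, s ∈ Dq) → W.X n k + R * W.w n ≤ (l.map (W.X n)).sum)).2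
    (fun l hl => by
      by_cases h : k ∈ Dq ∨ ∃ s ∈ l, s ∈ Dq
      · filter_upwards [g.gap k l hl h R] with n hn _ using hn
      · exact Eventually.of_forall fun n h' => absurd h' h)
  exact this

theorem LnW.prod_sd (g : LnW Dq Uq W κ u f mm σ x) (n : ℕ) {k : Fin 18} {l : List (Fin 18)}
    (hl : l ∈ mlW k) : (l.map (sd W u n)).prod = W.B.d n ^ (l.map (W.X n)).sum / u n k := by
  rw [← (g.ww.hl n).mul k l hl]
  clear hl
  induction l with
  | nil => simp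
  | cons s l ih =>
    simp only [List.map_cons, List.prod_cons, List.sum_cons, ih]
    rw [Real.rpow_add (W.B.pos n)]
    unfold sd
    field_simp

theorem LnW.sd0 (g : LnW Dq Uq W κ u f mm σ x) (n : ℕ) (s : Fin 18) : 0 < sd W u n s :=
  g.ww.sd_pos n s

/-- **the dropped part is negligible** -/
theorem LnW.drop (g : LnW Dq Uq W κ u f mm σ x) (R : ℝ) : ∀ᶠ n in (U : Filter ℕ),
    ∀ (h : Fin 4 → ℝ) (v : Fin 14 → ℝ) (K : ℝ), 1 ≤ K →
    (∀ i, |h i| ≤ K * sd W u n (Fin.castAdd 14 i)) →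
    (∀ s, |v s| ≤ K * sd W u n (Fin.natAdd 4 s)) → (∀ s : Fin 14, Fin.natAdd 4 s ∉ Dq → v s = 0) →
    ∀ q : Fin 14, Fin.natAdd 4 q ∉ Dq →
      |tr (κ n) h v q| ≤ 67 * (K ^ 8 * (W.B'.d n ^ R * sd W u n (Fin.natAdd 4 q))) := by
  filter_upwards [g.gaps R] with n hn h v K hK hh hv hv0 q hq
  have hK0 : 0 ≤ K := by linarith
  rw [tr_tms, hv0 q hq, zero_add]
  have hS : 0 ≤ K ^ 8 * (W.B'.d n ^ R * sd W u n (Fin.natAdd 4 q)) := by
    have := g.sd0 n (Fin.natAdd 4 q)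
    have := Real.rpow_pos_of_pos (W.B'.pos n) R
    positivity
  have h1 := sum_abs_le (L := tms q) (F := Tm.ev (κ n) h v)
    (S := K ^ 8 * (W.B'.d n ^ R * sd W u n (Fin.natAdd 4 q))) ?_
  · refine h1.trans (mul_le_mul_of_nonneg_right ?_ hS)
    exact_mod_cast tms_sum q
  · intro t ht
    by_cases hs : Fin.natAdd 4 t.s ∈ Dq
    · have h2 := ev_le (g.ww.hκ n) (X := fun s => K * sd W u n s) hh hv t
      refine h2.trans (mul_le_mul_of_nonneg_left ?_ (abs_nonneg _))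
      rw [prod_const_mul]
      have hmem : t.idx ∈ mlW (Fin.natAdd 4 q) := by
        rw [mlW_right]; exact List.mem_map_of_mem ht
      have h3 := hn (Fin.natAdd 4 q) t.idx hmem (Or.inr ⟨Fin.natAdd 4 t.s, by simp [Tm.idx], hs⟩)
      have h4 : (t.idx.map (sd W u n)).prod ≤ W.B'.d n ^ R * sd W u n (Fin.natAdd 4 q) := by
        rw [g.prod_sd n hmem]
        unfold sd
        rw [← mul_div_assoc, g.dw n, ← Real.rpow_mul (W.B.pos n).le,
          ← Real.rpow_add (W.B.pos n)]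
        refine div_le_div_of_nonneg_right ?_ ((g.ww.hl n).pos _).le
        exact Real.rpow_le_rpow_of_exponent_ge (W.B.pos n) (W.B.lt n).le (by linarith)
      refine mul_le_mul (pow_le_pow_right₀ hK (idx_len q t ht)) h4 ?_ (by positivity)
      exact List.prod_nonneg (by
        intro a ha
        obtain ⟨s, -, rfl⟩ := List.mem_map.1 ha
        exact (g.sd0 n s).le)
    · have h5 : Tm.ev (κ n) h v t = 0 := by
        unfold Tm.ev
        rw [hv0 _ hs, mul_zero]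
      rw [h5, abs_zero]
      exact mul_nonneg (abs_nonneg _) hS

/-! ### the main part -/

theorem tr_10 (κ : ℝ) (h : Fin 4 → ℝ) (w : Fin 14 → ℝ) (hw : ∀ s : Fin 14, s < 10 → w s = 0) :
    tr κ h w 10 = w 10 := by
  rw [tr_tms]
  have e0 := hw 0 (by decide)
  have e1 := hw 1 (by decide)
  have e2 := hw 2 (by decide)
  have e3 := hw 3 (by decide)
  have e4 := hw 4 (by decide)
  have e5 := hw 5 (by decide)
  have e7 := hw 7 (by decide)
  simp [tms, Tm.ev, e0, e1, e2, e3, e4, e5, e7]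

theorem tr_11 (κ : ℝ) (h : Fin 4 → ℝ) (w : Fin 14 → ℝ) (hw : ∀ s : Fin 14, s < 10 → w s = 0) :
    tr κ h w 11 = w 11 - 2 * κ * h 1 * w 10 := by
  rw [tr_tms]
  have e0 := hw 0 (by decide)
  have e1 := hw 1 (by decide)
  have e2 := hw 2 (by decide)
  have e3 := hw 3 (by decide)
  have e4 := hw 4 (by decide)
  have e5 := hw 5 (by decide)
  have e6 := hw 6 (by decide)
  have e7 := hw 7 (by decide)
  have e8 := hw 8 (by decide)
  simp [tms, Tm.ev, e0, e1, e2, e3, e4, e5, e6, e7, e8]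
  ring

theorem tr_12 (κ : ℝ) (h : Fin 4 → ℝ) (w : Fin 14 → ℝ) (hw : ∀ s : Fin 14, s < 10 → w s = 0) :
    tr κ h w 12 = w 12 + h 1 * w 11 - κ * h 1 ^ 2 * w 10 := by
  rw [tr_tms]
  have e0 := hw 0 (by decide)
  have e1 := hw 1 (by decide)
  have e2 := hw 2 (by decide)
  have e3 := hw 3 (by decide)
  have e4 := hw 4 (by decide)
  have e5 := hw 5 (by decide)
  have e6 := hw 6 (by decide)
  have e7 := hw 7 (by decide)
  have e8 := hw 8 (by decide)
  have e9 := hw 9 (by decide)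
  simp [tms, Tm.ev, e0, e1, e2, e3, e4, e5, e6, e7, e8, e9]
  ring

/-- the cocycle, flag part -/
theorem flag_coc (κ : ℝ) (a b c : FW) (q : Fin 14) :
    coW κ a c (Fin.natAdd 4 q) = coW κ b c (Fin.natAdd 4 q) +
      tr κ (rel κ b.g c.g) (fun s => coW κ a b (Fin.natAdd 4 s)) q := by
  have h := congrFun (cocycle κ a b c) q
  rw [Pi.add_apply] at h
  rw [coW_right, coW_right, h]
  congr 2
  funext s
  rw [coW_right]

/-- the cocycle, slot `c` -/
theorem c_coc (κ : ℝ) (a b c : FW) : coW κ a c 1 = coW κ a b 1 + coW κ b c 1 := by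
  have e : (1 : Fin 18) = Fin.castAdd 14 (1 : Fin 4) := rfl
  rw [e, coW_left, coW_left, coW_left]
  simp [rel]

end Crest.Agent.R136.Lin560
end

-- ▼ part R136/Lin9_560
section

/-!
# R136, thin branch, `lin` (helper560), part 9: the relation of the lines gives `LinRel`
-/

set_option autoImplicit false
set_option linter.unusedSectionVars false
set_option linter.unusedVariables false

open Filter Topology

namespace Crest.Agent.R136.Lin560

open Finset Crest.Agent.R138.Ex926 Crest.Agent.R136.Net191 Crest.Agent.R136.Gf356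
open Crest.Agent.R136.Qg926 Crest.Agent.R136.NetW191 Crest.Agent.R136.EvW938
open Crest.Agent.R136.QdH887 (bv)

variable {Dq Uq : Finset (Fin 18)} {W : Wnd 18 fun _ => ℕ × ℝ} {κ : ℕ → ℝ}
  {u : ℕ → Fin 18 → ℝ} {f : ∀ n : ℕ, ℕ × ℝ → FW} {mm σ x : ℝ}

/-- flag of `y` seen from `s₀`, without the dropped slots -/
noncomputable def wm (Dq : Finset (Fin 18)) (W : Wnd 18 fun _ => ℕ × ℝ) (κ : ℕ → ℝ)
    (f : ∀ n : ℕ, ℕ × ℝ → FW) (n : ℕ) (y : ℕ × ℝ) : Fin 14 → ℝ := fun s =>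
  if Fin.natAdd 4 s ∈ Dq then 0 else coW (κ n) (f n (W.s₀ n)) (f n y) (Fin.natAdd 4 s)

/-- the dropped slots contain all flags of weight `≥ 2` -/
def DOk (Dq : Finset (Fin 18)) : Prop :=
  (∀ s : Fin 14, s < 10 → Fin.natAdd 4 s ∈ Dq) ∧ (15 : Fin 18) ∉ Dq ∧ (16 : Fin 18) ∉ Dq ∧
    (1 : Fin 18) ∉ Dq

theorem dOk_a : DOk Da := by unfold DOk; decide
theorem dOk_b : DOk Db := by unfold DOk; decide

section

variable (g : LnW Dq Uq W κ u f mm σ x)

include g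

theorem LnW.K1 : 1 ≤ W.K0 := g.ww.ok.K0_one

theorem LnW.un_sd (n : ℕ) (s : Fin 18) : un W u n s = sd W u n s := by
  unfold un
  rw [g.ekap, one_mul]

theorem LnW.crd_eq {n : ℕ} (gd : W.Good n) {a b : ℕ × ℝ} (ha : a ∈ W.Cl n) (hb : b ∈ W.Cl n)
    (s : Fin 18) : coW (κ n) (f n a) (f n b) s = sd W u n s * W.crd n a b s := by
  rw [← g.un_sd]; exact g.ww.crd_eq gd ha hb s

theorem LnW.crd_le {n : ℕ} (gd : W.Good n) {a b : ℕ × ℝ} (ha : a ∈ W.Cl n) (hb : b ∈ W.Cl n)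
    (s : Fin 18) : |W.crd n a b s| ≤ W.K0 := by
  have := g.ww.crd_le gd ha hb s
  rwa [g.ekap, div_one] at this

theorem LnW.co_le {n : ℕ} (gd : W.Good n) {a b : ℕ × ℝ} (ha : a ∈ W.Cl n) (hb : b ∈ W.Cl n)
    (s : Fin 18) : |coW (κ n) (f n a) (f n b) s| ≤ W.K0 * sd W u n s := by
  rw [g.crd_eq gd ha hb, abs_mul, abs_of_pos (g.sd0 n s), mul_comm]
  exact mul_le_mul_of_nonneg_right (g.crd_le gd ha hb s) (g.sd0 n s).le

theorem LnW.crd_own {n : ℕ} (gd : W.Good n) {a b : ℕ × ℝ} (ha : a ∈ W.Cl n) (hb : b ∈ W.Cl n)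
    (hl : W.lc n a = W.lc n b) {s : Fin 18} (hs : s ≠ 0) :
    |W.crd n a b s| ≤ W.K0 * W.B'.d n ^ x := by
  have := g.ww.crd_own gd ha hb hl (s := s) (t := x)
    (by rw [g.eS, Finset.mem_singleton]; exact hs) (by rw [g.etop])
  rwa [g.ekap, div_one] at this

/-- products of sides -/
theorem LnW.sd_mul (n : ℕ) {k : Fin 18} {l : List (Fin 18)} (hl : l ∈ mlW k) (hk : k ∉ Dq)
    (hs : ∀ s ∈ l, s ∉ Dq) : (l.map (sd W u n)).prod = sd W u n k := by
  rw [g.prod_sd n hl, ← g.tight k hk l hl hs n]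
  rfl

theorem LnW.c_add {n : ℕ} (gd : W.Good n) {a b c : ℕ × ℝ} (ha : a ∈ W.Cl n) (hb : b ∈ W.Cl n)
    (hc : c ∈ W.Cl n) : W.crd n a c 1 = W.crd n a b 1 + W.crd n b c 1 := by
  have h := c_coc (κ n) (f n a) (f n b) (f n c)
  rw [g.crd_eq gd ha hc, g.crd_eq gd ha hb, g.crd_eq gd hb hc, ← mul_add] at h
  exact mul_left_cancel₀ (g.sd0 n 1).ne' h

/-- **the cocycle up to dropped slots** -/
theorem LnW.coc_main (R : ℝ) : ∀ᶠ n in (U : Filter ℕ), W.Good n → ∀ y ∈ W.Cl n, ∀ y' ∈ W.Cl n,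
    ∀ q : Fin 14, Fin.natAdd 4 q ∉ Dq →
    |coW (κ n) (f n (W.s₀ n)) (f n y') (Fin.natAdd 4 q) - coW (κ n) (f n y) (f n y')
      (Fin.natAdd 4 q) - tr (κ n) (rel (κ n) (f n y).g (f n y').g) (wm Dq W κ f n y) q| ≤
      67 * (W.K0 ^ 8 * (W.B'.d n ^ R * sd W u n (Fin.natAdd 4 q))) := by
  filter_upwards [g.drop R] with n hn gd y hy y' hy' q hq
  have h0 := gd.s0
  set w : Fin 14 → ℝ := fun s => coW (κ n) (f n (W.s₀ n)) (f n y) (Fin.natAdd 4 s) with hw
  set h : Fin 4 → ℝ := rel (κ n) (f n y).g (f n y').g with hh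
  have h1 := hn h (w - wm Dq W κ f n y) W.K0 g.K1 (fun i => by
      rw [hh, ← coW_left]; exact g.co_le gd hy hy' _) (fun s => by
      have a := g.co_le gd h0 hy (Fin.natAdd 4 s)
      show |w s - wm Dq W κ f n y s| ≤ _
      unfold wm
      split_ifs with hs
      · rw [sub_zero]; exact a
      · rw [hw]
        simp only [sub_self, abs_zero]
        exact mul_nonneg (by linarith [g.K1]) (g.sd0 n _).le) (fun s hs => by
      show w s - wm Dq W κ f n y s = 0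
      unfold wm
      rw [if_neg hs, sub_self]) q hq
  have h2 := flag_coc (κ n) (f n (W.s₀ n)) (f n y) (f n y') q
  have h3 : tr (κ n) h w q = tr (κ n) h (w - wm Dq W κ f n y) q +
      tr (κ n) h (wm Dq W κ f n y) q := by
    have := congrFun (tr_add (κ n) h (w - wm Dq W κ f n y) (wm Dq W κ f n y)) q
    rw [sub_add_cancel] at this
    exact this
  rw [h2]
  have e : coW (κ n) (f n y) (f n y') (Fin.natAdd 4 q) + tr (κ n) h w q -
      coW (κ n) (f n y) (f n y') (Fin.natAdd 4 q) - tr (κ n) h (wm Dq W κ f n y) q =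
      tr (κ n) h (w - wm Dq W κ f n y) q := by rw [h3]; ring
  rw [e]
  exact h1

theorem LnW.wm0 (hD : DOk Dq) (n : ℕ) (y : ℕ × ℝ) (s : Fin 14) (hs : s < 10) :
    wm Dq W κ f n y s = 0 := by
  unfold wm
  rw [if_pos (hD.1 s hs)]

theorem LnW.wm_le {n : ℕ} (gd : W.Good n) {y : ℕ × ℝ} (hy : y ∈ W.Cl n) (s : Fin 14) :
    |wm Dq W κ f n y s| ≤ W.K0 * sd W u n (Fin.natAdd 4 s) := by
  unfold wm
  split_ifs
  · rw [abs_zero]; exact mul_nonneg (by linarith [g.K1]) (g.sd0 n _).le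
  · exact g.co_le gd gd.s0 hy _

/-- sides of `14, 15, 16` -/
theorem LnW.sd16 (hD : DOk Dq) (n : ℕ) : sd W u n 16 = sd W u n 1 * sd W u n 15 := by
  have h := g.sd_mul n (k := 16) (l := [1, 15]) (by decide) hD.2.2.1 (by
    intro s hs
    rcases List.mem_cons.1 hs with rfl | hs
    · exact hD.2.2.2
    · rw [List.mem_singleton.1 hs]; exact hD.2.1)
  simpa using h.symm

theorem LnW.sd15 (hD : DOk Dq) (h14 : (14 : Fin 18) ∉ Dq) (n : ℕ) :
    sd W u n 15 = sd W u n 1 * sd W u n 14 := by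
  have h := g.sd_mul n (k := 15) (l := [1, 14]) (by decide) hD.2.1 (by
    intro s hs
    rcases List.mem_cons.1 hs with rfl | hs
    · exact hD.2.2.2
    · rw [List.mem_singleton.1 hs]; exact h14)
  simpa using h.symm

theorem LnW.lrp_mem {n : ℕ} {y : ℕ × ℝ} (hy : y ∈ W.Cl n) :
    lrpW W n (W.lc n y) ∈ W.Cl n ∧ W.lc n (lrpW W n (W.lc n y)) = W.lc n y := by
  have h : ∃ i ∈ W.Cl n, W.lc n i = W.lc n y := ⟨y, hy, rfl⟩
  unfold lrpW
  rw [dif_pos h]
  exact h.choose_spec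

/-- **own line, slots `c` and `P`** -/
theorem LnW.line_dev (hD : DOk Dq) : ∀ᶠ n in (U : Filter ℕ), W.Good n → ∀ y ∈ W.Cl n,
    |W.crd n (W.s₀ n) y 1 - tyW W n (W.lc n y) 0| ≤ W.K0 * W.B'.d n ^ x ∧
    |W.crd n (W.s₀ n) y 16 - tyW W n (W.lc n y) 1| ≤ 70 * W.K0 ^ 8 * W.B'.d n ^ x := by
  filter_upwards [g.coc_main x] with n hn gd y hy
  obtain ⟨hr, hl⟩ := g.lrp_mem hy
  set r := lrpW W n (W.lc n y) with hrd
  have h0 := gd.s0
  have hK := g.K1
  have hK0 : 0 ≤ W.K0 := by linarith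
  have hx : 0 ≤ W.B'.d n ^ x := (Real.rpow_pos_of_pos (W.B'.pos n) x).le
  have hx1 : W.B'.d n ^ x ≤ 1 := Real.rpow_le_one (W.B'.pos n).le (W.B'.lt n).le g.x0.le
  have t0 : tyW W n (W.lc n y) 0 = W.crd n (W.s₀ n) r 1 := rfl
  have t1 : tyW W n (W.lc n y) 1 = W.crd n (W.s₀ n) r 16 := rfl
  rw [t0, t1]
  have hc : |W.crd n r y 1| ≤ W.K0 * W.B'.d n ^ x := g.crd_own gd hr hy hl (by decide)
  refine ⟨?_, ?_⟩
  · rw [g.c_add gd h0 hr hy]
    simpa using hc
  · have h1 := hn gd r hr y hy 12 hD.2.2.1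
    have hs : ∀ s, wm Dq W κ f n r s = wm Dq W κ f n r s := fun _ => rfl
    rw [tr_12 _ _ _ (fun s hs => g.wm0 hD n r s hs)] at h1
    have e12 : wm Dq W κ f n r 12 = coW (κ n) (f n (W.s₀ n)) (f n r) 16 := by
      unfold wm
      exact if_neg hD.2.2.1
    have eh1 : rel (κ n) (f n r).g (f n y).g 1 = coW (κ n) (f n r) (f n y) 1 :=
      (coW_left _ _ _ 1).symm
    have n12 : (Fin.natAdd 4 (12 : Fin 14) : Fin 18) = 16 := rfl
    rw [n12, e12, eh1] at h1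
    set D16 := sd W u n 16 with hD16
    have hS16 : 0 < D16 := g.sd0 n 16
    have a1 : |coW (κ n) (f n r) (f n y) 16| ≤ W.K0 * W.B'.d n ^ x * D16 := by
      rw [g.crd_eq gd hr hy, abs_mul, abs_of_pos (g.sd0 n 16), mul_comm]
      exact mul_le_mul_of_nonneg_right (g.crd_own gd hr hy hl (by decide)) hS16.le
    have a2 : |coW (κ n) (f n r) (f n y) 1| ≤ W.K0 * W.B'.d n ^ x * sd W u n 1 := by
      rw [g.crd_eq gd hr hy, abs_mul, abs_of_pos (g.sd0 n 1), mul_comm]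
      exact mul_le_mul_of_nonneg_right hc (g.sd0 n 1).le
    have w11 : |wm Dq W κ f n r 11| ≤ W.K0 * sd W u n 15 := g.wm_le gd hr 11
    have w10 : |wm Dq W κ f n r 10| ≤ W.K0 * sd W u n 14 := g.wm_le gd hr 10
    set h := coW (κ n) (f n r) (f n y) 1 with hh
    have s1 := g.sd0 n 1
    have s15 := g.sd0 n 15
    have s14 := g.sd0 n 14
    have a3 : |h * wm Dq W κ f n r 11| ≤ W.K0 ^ 2 * W.B'.d n ^ x * D16 := by
      rw [abs_mul]
      calc |h| * |wm Dq W κ f n r 11| ≤ (W.K0 * W.B'.d n ^ x * sd W u n 1) *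
            (W.K0 * sd W u n 15) := mul_le_mul a2 w11 (abs_nonneg _) (by positivity)
        _ = W.K0 ^ 2 * W.B'.d n ^ x * (sd W u n 1 * sd W u n 15) := by ring
        _ = _ := by rw [← g.sd16 hD n]
    have a4 : |κ n * h ^ 2 * wm Dq W κ f n r 10| ≤ W.K0 ^ 3 * W.B'.d n ^ x * D16 := by
      by_cases h14 : (14 : Fin 18) ∈ Dq
      · have : wm Dq W κ f n r 10 = 0 := by
          unfold wm
          exact if_pos h14
        rw [this, mul_zero, abs_zero]
        positivity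
      · rw [abs_mul, abs_mul, abs_pow]
        have hk := g.ww.hκ n
        have b1 : |κ n| * |h| ^ 2 ≤ 1 * (W.K0 * W.B'.d n ^ x * sd W u n 1) ^ 2 :=
          mul_le_mul hk (pow_le_pow_left₀ (abs_nonneg _) a2 2) (by positivity) zero_le_one
        calc |κ n| * |h| ^ 2 * |wm Dq W κ f n r 10| ≤
            (1 * (W.K0 * W.B'.d n ^ x * sd W u n 1) ^ 2) * (W.K0 * sd W u n 14) :=
              mul_le_mul b1 w10 (abs_nonneg _) (by positivity)
          _ = W.B'.d n ^ x * (W.K0 ^ 3 * W.B'.d n ^ x * (sd W u n 1 *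
              (sd W u n 1 * sd W u n 14))) := by ring
          _ = W.B'.d n ^ x * (W.K0 ^ 3 * W.B'.d n ^ x * D16) := by
              rw [← g.sd15 hD h14 n, ← g.sd16 hD n]
          _ ≤ 1 * (W.K0 ^ 3 * W.B'.d n ^ x * D16) :=
              mul_le_mul_of_nonneg_right hx1 (by positivity)
          _ = _ := one_mul _
    have hA : |coW (κ n) (f n (W.s₀ n)) (f n y) 16 - coW (κ n) (f n (W.s₀ n)) (f n r) 16| ≤
        (70 * W.K0 ^ 8 * W.B'.d n ^ x) * D16 := by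
      have e : coW (κ n) (f n (W.s₀ n)) (f n y) 16 - coW (κ n) (f n (W.s₀ n)) (f n r) 16 =
          (coW (κ n) (f n (W.s₀ n)) (f n y) 16 - coW (κ n) (f n r) (f n y) 16 -
            (coW (κ n) (f n (W.s₀ n)) (f n r) 16 + h * wm Dq W κ f n r 11 -
              κ n * h ^ 2 * wm Dq W κ f n r 10)) + coW (κ n) (f n r) (f n y) 16 +
          h * wm Dq W κ f n r 11 - κ n * h ^ 2 * wm Dq W κ f n r 10 := by ring
      rw [e]
      have p1 : W.K0 ≤ W.K0 ^ 8 := le_self_pow₀ hK (by norm_num)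
      have p2 : W.K0 ^ 2 ≤ W.K0 ^ 8 := pow_le_pow_right₀ hK (by norm_num)
      have p3 : W.K0 ^ 3 ≤ W.K0 ^ 8 := pow_le_pow_right₀ hK (by norm_num)
      have hxD : 0 ≤ W.B'.d n ^ x * D16 := by positivity
      have q1 : W.K0 * W.B'.d n ^ x * D16 ≤ W.K0 ^ 8 * W.B'.d n ^ x * D16 := by
        rw [mul_assoc, mul_assoc]; exact mul_le_mul_of_nonneg_right p1 hxD
      have q2 : W.K0 ^ 2 * W.B'.d n ^ x * D16 ≤ W.K0 ^ 8 * W.B'.d n ^ x * D16 := by
        rw [mul_assoc, mul_assoc]; exact mul_le_mul_of_nonneg_right p2 hxD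
      have q3 : W.K0 ^ 3 * W.B'.d n ^ x * D16 ≤ W.K0 ^ 8 * W.B'.d n ^ x * D16 := by
        rw [mul_assoc, mul_assoc]; exact mul_le_mul_of_nonneg_right p3 hxD
      have t1 := abs_sub ((coW (κ n) (f n (W.s₀ n)) (f n y) 16 - coW (κ n) (f n r) (f n y) 16 -
            (coW (κ n) (f n (W.s₀ n)) (f n r) 16 + h * wm Dq W κ f n r 11 -
              κ n * h ^ 2 * wm Dq W κ f n r 10)) + coW (κ n) (f n r) (f n y) 16 +
          h * wm Dq W κ f n r 11) (κ n * h ^ 2 * wm Dq W κ f n r 10)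
      have t2 := abs_add_le ((coW (κ n) (f n (W.s₀ n)) (f n y) 16 -
            coW (κ n) (f n r) (f n y) 16 -
            (coW (κ n) (f n (W.s₀ n)) (f n r) 16 + h * wm Dq W κ f n r 11 -
              κ n * h ^ 2 * wm Dq W κ f n r 10)) + coW (κ n) (f n r) (f n y) 16)
          (h * wm Dq W κ f n r 11)
      have t3 := abs_add_le (coW (κ n) (f n (W.s₀ n)) (f n y) 16 -
            coW (κ n) (f n r) (f n y) 16 -
            (coW (κ n) (f n (W.s₀ n)) (f n r) 16 + h * wm Dq W κ f n r 11 -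
              κ n * h ^ 2 * wm Dq W κ f n r 10)) (coW (κ n) (f n r) (f n y) 16)
      have e5 : (70 * W.K0 ^ 8 * W.B'.d n ^ x) * D16 = 67 * (W.K0 ^ 8 * (W.B'.d n ^ x * D16)) +
        3 * (W.K0 ^ 8 * W.B'.d n ^ x * D16) := by ring
      rw [e5]
      linarith
    rw [g.crd_eq gd h0 hy, g.crd_eq gd h0 hr, ← mul_sub, abs_mul, abs_of_pos hS16,
      mul_comm] at hA
    exact le_of_mul_le_mul_right hA hS16

end

/-- the gauge -/
noncomputable def jj (Dq : Finset (Fin 18)) (W : Wnd 18 fun _ => ℕ × ℝ) (κ : ℕ → ℝ)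
    (u : ℕ → Fin 18 → ℝ) (f : ∀ n : ℕ, ℕ × ℝ → FW) (mu la : ℝ) (n : ℕ) (y : ℕ × ℝ) :
    Fin 14 → ℝ := fun q =>
  if q = 10 then wm Dq W κ f n y 10 - la * sd W u n 14
  else if q = 11 then wm Dq W κ f n y 11 - mu * sd W u n 15 +
    2 * κ n * coW (κ n) (f n (W.s₀ n)) (f n y) 1 * (la * sd W u n 14)
  else 0

end Crest.Agent.R136.Lin560
end

-- ▼ part R136/Lin10_560
section

/-!
# R136, thin branch, `lin` (helper560), part 10: the relation of the lines gives `LinRel`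
-/

set_option autoImplicit false
set_option linter.unusedSectionVars false
set_option linter.unusedVariables false

open Filter Topology

namespace Crest.Agent.R136.Lin560

open Finset Crest.Agent.R138.Ex926 Crest.Agent.R136.Net191 Crest.Agent.R136.Gf356
open Crest.Agent.R136.Qg926 Crest.Agent.R136.NetW191 Crest.Agent.R136.EvW938
open Crest.Agent.R136.QdH887 (bv)

variable {Dq Uq : Finset (Fin 18)} {W : Wnd 18 fun _ => ℕ × ℝ} {κ : ℕ → ℝ}
  {u : ℕ → Fin 18 → ℝ} {f : ∀ n : ℕ, ℕ × ℝ → FW} {mm σ x : ℝ}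

/-- weaker in `ε` -/
theorem LinRel.weak {Qj : Finset (Fin 14)} {n : ℕ} {s t s' t' : ℝ} {G' : Finset (ℕ × ℝ)}
    (hu : ∀ k, 0 < sd W u n k) (hs : s ≤ s') (ht : t' ≤ t) (h : LinRel Qj W κ u f n s t G') :
    LinRel Qj W κ u f n s' t' G' := by
  obtain ⟨j, h1, h2, h3⟩ := h
  refine ⟨j, h1, fun y hy q hq => (h2 y hy q hq).trans ?_, fun y hy y' hy' q hq =>
    (h3 y hy y' hy' q hq).trans ?_⟩
  · exact mul_le_mul_of_nonneg_right (Real.rpow_le_rpow_of_exponent_ge (W.B'.pos n)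
      (W.B'.lt n).le (by linarith)) (hu _).le
  · exact mul_le_mul_of_nonneg_right (Real.rpow_le_rpow_of_exponent_ge (W.B'.pos n)
      (W.B'.lt n).le ht) (hu _).le

section

variable (g : LnW Dq Uq W κ u f mm σ x)

include g

theorem LnW.wm10 (h14 : (14 : Fin 18) ∈ Dq) (n : ℕ) (y : ℕ × ℝ) :
    wm Dq W κ f n y 10 = 0 := by
  unfold wm
  exact if_pos h14

set_option maxHeartbeats 2000000 in
/-- **the relation of the lines gives the relation of the incidences** -/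
theorem LnW.rel_core (hD : DOk Dq) {δ t : ℝ} (hδ : 0 < δ) (htx : t < x) :
    ∀ᶠ n in (U : Filter ℕ), W.Good n → ∀ mu la : ℝ, |mu| ≤ W.B'.d n ^ (-δ) →
      |la| ≤ W.B'.d n ^ (-δ) → ((14 : Fin 18) ∈ Dq → la = 0) → ∀ l1 : ℕ, ∀ G' ⊆ W.Cl n,
      (∀ y ∈ G', |(tyW W n (W.lc n y) 1 - tyW W n l1 1) -
        mu * (tyW W n (W.lc n y) 0 - tyW W n l1 0) -
        la * (-(κ n * tyW W n (W.lc n y) 0 ^ 2) - -(κ n * tyW W n l1 0 ^ 2))| ≤
        W.B'.d n ^ (t - δ)) → ∀ Qj : Finset (Fin 14),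
      (Qj = {11} ∧ (14 : Fin 18) ∈ Dq ∨ Qj = {10, 11} ∧ (14 : Fin 18) ∉ Dq) →
      LinRel Qj W κ u f n (4 * δ) (t - 4 * δ) G' := by
  filter_upwards [g.coc_main x, g.line_dev hD,
    Crest.Agent.R136.Gf356.ev_const_le W.B' hδ (300 * W.K0 ^ 8)] with n hcoc hdev hcst gd mu la
      hmu hla hla0 l1 G' hG hrel Qj hQj
  have hK := g.K1
  have hK0 : 0 ≤ W.K0 := by linarith
  have hK8 : W.K0 ≤ W.K0 ^ 8 := le_self_pow₀ hK (by norm_num)
  have hK28 : W.K0 ^ 2 ≤ W.K0 ^ 8 := pow_le_pow_right₀ hK (by norm_num)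
  have hK81 : 1 ≤ W.K0 ^ 8 := one_le_pow₀ hK
  have dp := W.B'.pos n
  have pp : ∀ s : ℝ, 0 < W.B'.d n ^ s := fun s => Real.rpow_pos_of_pos dp s
  have pm : ∀ a b : ℝ, W.B'.d n ^ a * W.B'.d n ^ b = W.B'.d n ^ (a + b) := fun a b =>
    (Real.rpow_add dp a b).symm
  have pw : ∀ {a b : ℝ}, b ≤ a → W.B'.d n ^ a ≤ W.B'.d n ^ b := fun h =>
    Real.rpow_le_rpow_of_exponent_ge dp (W.B'.lt n).le h
  have hk := g.ww.hκ n
  have s1 := g.sd0 n 1
  have s14 := g.sd0 n 14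
  have s15 := g.sd0 n 15
  have s16 := g.sd0 n 16
  have h0 := gd.s0
  set P := W.s₀ n with hP
  set C : ℕ × ℝ → ℝ := fun y => coW (κ n) (f n P) (f n y) 1 with hC
  have hCle : ∀ y ∈ W.Cl n, |C y| ≤ W.K0 * sd W u n 1 := fun y hy => g.co_le gd h0 hy 1
  have one_d : 1 ≤ W.B'.d n ^ (-δ) := by
    have := pw (a := 0) (b := -δ) (by linarith)
    rwa [Real.rpow_zero] at this
  refine ⟨jj Dq W κ u f mu la n, ?_, ?_, ?_⟩
  · intro y q hq
    unfold jj
    rcases hQj with ⟨rfl, h14⟩ | ⟨rfl, h14⟩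
    · split_ifs with h1 h2
      · rw [g.wm10 h14, hla0 h14]; ring
      · exact absurd (by rw [h2]; simp) hq
      · rfl
    · split_ifs with h1 h2
      · exact absurd (by rw [h1]; simp) hq
      · exact absurd (by rw [h2]; simp) hq
      · rfl
  · -- sizes
    intro y hy q hq
    have hyC := hG hy
    have big : 4 * W.K0 * W.B'.d n ^ (-δ) ≤ W.B'.d n ^ (-(4 * δ)) := by
      calc 4 * W.K0 * W.B'.d n ^ (-δ) ≤ W.B'.d n ^ (-δ) * W.B'.d n ^ (-δ) :=
            mul_le_mul_of_nonneg_right (by linarith) (pp _).le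
        _ = W.B'.d n ^ (-δ + -δ) := pm _ _
        _ ≤ _ := pw (by linarith)
    have w10 : |wm Dq W κ f n y 10| ≤ W.K0 * sd W u n 14 := g.wm_le gd hyC 10
    have w11 : |wm Dq W κ f n y 11| ≤ W.K0 * sd W u n 15 := g.wm_le gd hyC 11
    have hq2 : q = 10 ∧ Qj = {10, 11} ∧ (14 : Fin 18) ∉ Dq ∨ q = 11 := by
      rcases hQj with ⟨rfl, h14⟩ | ⟨rfl, h14⟩
      · exact Or.inr (mem_singleton.1 hq)
      · rcases mem_insert.1 hq with h | h
        · exact Or.inl ⟨h, rfl, h14⟩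
        · exact Or.inr (mem_singleton.1 h)
    rcases hq2 with ⟨rfl, -, h14⟩ | rfl
    · have e : jj Dq W κ u f mu la n y 10 = wm Dq W κ f n y 10 - la * sd W u n 14 := by
        unfold jj; simp
      rw [e]
      show _ ≤ _ * sd W u n 14
      calc |wm Dq W κ f n y 10 - la * sd W u n 14| ≤ |wm Dq W κ f n y 10| +
            |la * sd W u n 14| := abs_sub _ _
        _ ≤ W.K0 * sd W u n 14 + W.B'.d n ^ (-δ) * sd W u n 14 := by
            refine add_le_add w10 ?_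
            rw [abs_mul, abs_of_pos s14]
            exact mul_le_mul_of_nonneg_right hla s14.le
        _ = (W.K0 + W.B'.d n ^ (-δ)) * sd W u n 14 := by ring
        _ ≤ (4 * W.K0 * W.B'.d n ^ (-δ)) * sd W u n 14 := by
            refine mul_le_mul_of_nonneg_right ?_ s14.le
            have : W.K0 * 1 ≤ W.K0 * W.B'.d n ^ (-δ) := mul_le_mul_of_nonneg_left one_d hK0
            have : 1 * W.B'.d n ^ (-δ) ≤ W.K0 * W.B'.d n ^ (-δ) :=
              mul_le_mul_of_nonneg_right hK (pp _).le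
            have := pp (-δ)
            nlinarith
        _ ≤ _ := mul_le_mul_of_nonneg_right big s14.le
    · have e : jj Dq W κ u f mu la n y 11 = wm Dq W κ f n y 11 - mu * sd W u n 15 +
          2 * κ n * C y * (la * sd W u n 14) := by
        unfold jj; rw [if_neg (by decide), if_pos rfl]
      rw [e]
      show _ ≤ _ * sd W u n 15
      have e3 : |2 * κ n * C y * (la * sd W u n 14)| ≤ 2 * W.K0 * W.B'.d n ^ (-δ) *
          sd W u n 15 := by
        by_cases h14 : (14 : Fin 18) ∈ Dq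
        · rw [hla0 h14, zero_mul, mul_zero, abs_zero]
          have := pp (-δ)
          positivity
        · rw [abs_mul, abs_mul, abs_mul, abs_mul, abs_of_pos s14, abs_two]
          have a1 : 2 * |κ n| * |C y| ≤ 2 * 1 * (W.K0 * sd W u n 1) :=
            mul_le_mul (by linarith) (hCle y hyC) (abs_nonneg _) (by norm_num)
          have a2 : |la| * sd W u n 14 ≤ W.B'.d n ^ (-δ) * sd W u n 14 :=
            mul_le_mul_of_nonneg_right hla s14.le
          calc 2 * |κ n| * |C y| * (|la| * sd W u n 14) ≤ 2 * 1 * (W.K0 * sd W u n 1) *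
                (W.B'.d n ^ (-δ) * sd W u n 14) := mul_le_mul a1 a2 (by positivity)
                  (by positivity)
            _ = 2 * W.K0 * W.B'.d n ^ (-δ) * (sd W u n 1 * sd W u n 14) := by ring
            _ = _ := by rw [← g.sd15 hD h14 n]
      calc |wm Dq W κ f n y 11 - mu * sd W u n 15 + 2 * κ n * C y * (la * sd W u n 14)| ≤
          |wm Dq W κ f n y 11 - mu * sd W u n 15| + |2 * κ n * C y * (la * sd W u n 14)| :=
            abs_add_le _ _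
        _ ≤ (W.K0 * sd W u n 15 + W.B'.d n ^ (-δ) * sd W u n 15) +
            2 * W.K0 * W.B'.d n ^ (-δ) * sd W u n 15 := by
            refine add_le_add ((abs_sub _ _).trans (add_le_add w11 ?_)) e3
            rw [abs_mul, abs_of_pos s15]
            exact mul_le_mul_of_nonneg_right hmu s15.le
        _ = (W.K0 + W.B'.d n ^ (-δ) + 2 * W.K0 * W.B'.d n ^ (-δ)) * sd W u n 15 := by ring
        _ ≤ (4 * W.K0 * W.B'.d n ^ (-δ)) * sd W u n 15 := by
            refine mul_le_mul_of_nonneg_right ?_ s15.le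
            have : W.K0 * 1 ≤ W.K0 * W.B'.d n ^ (-δ) := mul_le_mul_of_nonneg_left one_d hK0
            have : 1 * W.B'.d n ^ (-δ) ≤ W.K0 * W.B'.d n ^ (-δ) :=
              mul_le_mul_of_nonneg_right hK (pp _).le
            nlinarith
        _ ≤ _ := mul_le_mul_of_nonneg_right big s15.le
  · -- pairs
    intro y hy y' hy' q hq
    have hyC := hG hy
    have hyC' := hG hy'
    have hxt : W.B'.d n ^ x ≤ W.B'.d n ^ (t - δ) := pw (by linarith)
    have big : (300 * W.K0 ^ 8) * W.B'.d n ^ (t - δ) ≤ W.B'.d n ^ (t - 4 * δ) := by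
      calc (300 * W.K0 ^ 8) * W.B'.d n ^ (t - δ) ≤ W.B'.d n ^ (-δ) * W.B'.d n ^ (t - δ) :=
            mul_le_mul_of_nonneg_right hcst (pp _).le
        _ = W.B'.d n ^ (-δ + (t - δ)) := pm _ _
        _ ≤ _ := pw (by linarith)
    have cb : ∀ (X s : ℝ), 0 < s → X ≤ 67 * (W.K0 ^ 8 * (W.B'.d n ^ x * s)) →
        X ≤ W.B'.d n ^ (t - 4 * δ) * s := by
      intro X s hs hX
      refine hX.trans ?_
      have : 67 * (W.K0 ^ 8 * (W.B'.d n ^ x * s)) = (67 * W.K0 ^ 8 * W.B'.d n ^ x) * s := by ring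
      rw [this]
      refine mul_le_mul_of_nonneg_right (le_trans ?_ big) hs.le
      refine mul_le_mul (by nlinarith) hxt (pp _).le (by positivity)
    set h := rel (κ n) (f n y).g (f n y').g with hh
    have eh : h 1 = C y' - C y := by
      have h1 := c_coc (κ n) (f n P) (f n y) (f n y')
      have h2 : h 1 = coW (κ n) (f n y) (f n y') 1 := (coW_left _ _ _ 1).symm
      rw [h2]
      simp only [hC]
      linarith
    have jz : ∀ y, ∀ s : Fin 14, s < 10 → jj Dq W κ u f mu la n y s = 0 := by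
      intro y s hs
      unfold jj
      rw [if_neg (by rintro rfl; exact absurd hs (by decide)),
        if_neg (by rintro rfl; exact absurd hs (by decide))]
    have j10 : ∀ y, jj Dq W κ u f mu la n y 10 = wm Dq W κ f n y 10 - la * sd W u n 14 := by
      intro y; unfold jj; simp
    have j11 : ∀ y, jj Dq W κ u f mu la n y 11 = wm Dq W κ f n y 11 - mu * sd W u n 15 +
          2 * κ n * C y * (la * sd W u n 14) := by
      intro y; unfold jj; rw [if_neg (by decide), if_pos rfl]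
    have j12 : ∀ y, jj Dq W κ u f mu la n y 12 = 0 := by
      intro y; unfold jj; simp
    have wz : ∀ s : Fin 14, s < 10 → wm Dq W κ f n y s = 0 := fun s hs => g.wm0 hD n y s hs
    have hq2 : (q = 10 ∧ (14 : Fin 18) ∉ Dq) ∨ q = 11 ∨ q = 12 := by
      rcases hQj with ⟨rfl, h14⟩ | ⟨rfl, h14⟩
      · simp only [mem_union, mem_singleton] at hq
        exact Or.inr hq
      · simp only [mem_union, mem_insert, mem_singleton] at hq
        rcases hq with (h | h) | h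
        · exact Or.inl ⟨h, h14⟩
        · exact Or.inr (Or.inl h)
        · exact Or.inr (Or.inr h)
    rcases hq2 with ⟨rfl, h14⟩ | rfl | rfl
    · have h1 := hcoc gd y hyC y' hyC' 10 h14
      rw [← hh, tr_10 _ _ _ wz] at h1
      have e10 : coW (κ n) (f n P) (f n y') (Fin.natAdd 4 (10 : Fin 14)) =
          wm Dq W κ f n y' 10 := by
        unfold wm
        exact (if_neg h14).symm
      rw [e10] at h1
      refine cb _ _ s14 ?_
      rw [tr_10 _ _ _ (jz y), j10, j10]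
      have e : coW (κ n) (f n y) (f n y') (Fin.natAdd 4 (10 : Fin 14)) -
          (wm Dq W κ f n y' 10 - la * sd W u n 14 - (wm Dq W κ f n y 10 - la * sd W u n 14)) =
          -(wm Dq W κ f n y' 10 - coW (κ n) (f n y) (f n y') (Fin.natAdd 4 (10 : Fin 14)) -
            wm Dq W κ f n y 10) := by ring
      rw [e, abs_neg]
      exact h1
    · have h1 := hcoc gd y hyC y' hyC' 11 hD.2.1
      rw [← hh, tr_11 _ _ _ wz] at h1
      have e11 : coW (κ n) (f n P) (f n y') (Fin.natAdd 4 (11 : Fin 14)) =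
          wm Dq W κ f n y' 11 := by
        unfold wm
        exact (if_neg hD.2.1).symm
      rw [e11] at h1
      refine cb _ _ s15 ?_
      rw [tr_11 _ _ _ (jz y), j11, j11, j10]
      have e : coW (κ n) (f n y) (f n y') (Fin.natAdd 4 (11 : Fin 14)) -
          (wm Dq W κ f n y' 11 - mu * sd W u n 15 + 2 * κ n * C y' * (la * sd W u n 14) -
            (wm Dq W κ f n y 11 - mu * sd W u n 15 + 2 * κ n * C y * (la * sd W u n 14) -
              2 * κ n * h 1 * (wm Dq W κ f n y 10 - la * sd W u n 14))) =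
          -(wm Dq W κ f n y' 11 - coW (κ n) (f n y) (f n y') (Fin.natAdd 4 (11 : Fin 14)) -
            (wm Dq W κ f n y 11 - 2 * κ n * h 1 * wm Dq W κ f n y 10)) := by
        rw [eh]; ring
      rw [e, abs_neg]
      exact h1
    · have h1 := hcoc gd y hyC y' hyC' 12 hD.2.2.1
      rw [← hh, tr_12 _ _ _ wz] at h1
      have w12 : ∀ z, wm Dq W κ f n z 12 = coW (κ n) (f n P) (f n z) 16 := by
        intro z
        unfold wm
        exact if_neg hD.2.2.1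
      have n12 : (Fin.natAdd 4 (12 : Fin 14) : Fin 18) = 16 := rfl
      rw [w12, n12] at h1
      rw [tr_12 _ _ _ (jz y), j12, j12, j11, j10, n12]
      set c : ℕ × ℝ → ℝ := fun z => W.crd n P z 1 with hc
      set p : ℕ × ℝ → ℝ := fun z => W.crd n P z 16 with hp
      have hCc : ∀ z ∈ W.Cl n, C z = sd W u n 1 * c z := fun z hz => g.crd_eq gd h0 hz 1
      have hPp : ∀ z ∈ W.Cl n, coW (κ n) (f n P) (f n z) 16 = sd W u n 16 * p z :=
        fun z hz => g.crd_eq gd h0 hz 16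
      have hcK : ∀ z ∈ W.Cl n, |c z| ≤ W.K0 := fun z hz => g.crd_le gd h0 hz 1
      have htK : ∀ z ∈ W.Cl n, |tyW W n (W.lc n z) 0| ≤ W.K0 := fun z hz =>
        g.crd_le gd h0 (g.lrp_mem hz).1 1
      -- the gauge part
      have hE : coW (κ n) (f n y) (f n y') 16 - (0 - (0 + h 1 * (wm Dq W κ f n y 11 -
          mu * sd W u n 15 + 2 * κ n * C y * (la * sd W u n 14)) - κ n * h 1 ^ 2 *
          (wm Dq W κ f n y 10 - la * sd W u n 14))) =
          -(coW (κ n) (f n P) (f n y') 16 - coW (κ n) (f n y) (f n y') 16 -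
            (coW (κ n) (f n P) (f n y) 16 + h 1 * wm Dq W κ f n y 11 -
              κ n * h 1 ^ 2 * wm Dq W κ f n y 10)) +
          (coW (κ n) (f n P) (f n y') 16 - coW (κ n) (f n P) (f n y) 16 -
            mu * sd W u n 15 * (C y' - C y) +
            κ n * (la * sd W u n 14) * (C y' ^ 2 - C y ^ 2)) := by
        rw [eh]; ring
      have hla14 : la * sd W u n 1 ^ 2 * sd W u n 14 = la * sd W u n 16 := by
        by_cases h14 : (14 : Fin 18) ∈ Dq
        · rw [hla0 h14]; ring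
        · rw [g.sd16 hD n, g.sd15 hD h14 n]; ring
      have hF : coW (κ n) (f n P) (f n y') 16 - coW (κ n) (f n P) (f n y) 16 -
            mu * sd W u n 15 * (C y' - C y) +
            κ n * (la * sd W u n 14) * (C y' ^ 2 - C y ^ 2) =
          sd W u n 16 * (p y' - p y - mu * (c y' - c y) + la * κ n * (c y' ^ 2 - c y ^ 2)) := by
        rw [hPp y' hyC', hPp y hyC, hCc y' hyC', hCc y hyC]
        have a1 : κ n * (la * sd W u n 14) * ((sd W u n 1 * c y') ^ 2 -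
            (sd W u n 1 * c y) ^ 2) = κ n * (la * sd W u n 1 ^ 2 * sd W u n 14) *
            (c y' ^ 2 - c y ^ 2) := by ring
        have a2 : mu * sd W u n 15 * (sd W u n 1 * c y' - sd W u n 1 * c y) =
            mu * (sd W u n 1 * sd W u n 15) * (c y' - c y) := by ring
        rw [a1, a2, hla14, ← g.sd16 hD n]
        ring
      -- the lines
      set a : ℕ × ℝ → ℝ := fun z => tyW W n (W.lc n z) 0 with ha
      set b : ℕ × ℝ → ℝ := fun z => tyW W n (W.lc n z) 1 with hb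
      have d1 : ∀ z ∈ W.Cl n, |c z - a z| ≤ W.K0 * W.B'.d n ^ x := fun z hz => (hdev gd z hz).1
      have d2 : ∀ z ∈ W.Cl n, |p z - b z| ≤ 70 * W.K0 ^ 8 * W.B'.d n ^ x :=
        fun z hz => (hdev gd z hz).2
      have d3 : ∀ z ∈ W.Cl n, |c z ^ 2 - a z ^ 2| ≤ 2 * W.K0 ^ 2 * W.B'.d n ^ x := by
        intro z hz
        have e : c z ^ 2 - a z ^ 2 = (c z - a z) * (c z + a z) := by ring
        rw [e, abs_mul]
        calc |c z - a z| * |c z + a z| ≤ (W.K0 * W.B'.d n ^ x) * (W.K0 + W.K0) :=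
              mul_le_mul (d1 z hz) ((abs_add_le _ _).trans (add_le_add (hcK z hz) (htK z hz)))
                (abs_nonneg _) (by have := pp x; positivity)
          _ = _ := by ring
      have r1 := hrel y hy
      have r2 := hrel y' hy'
      set R : ℕ × ℝ → ℝ := fun z => (b z - tyW W n l1 1) - mu * (a z - tyW W n l1 0) -
        la * (-(κ n * a z ^ 2) - -(κ n * tyW W n l1 0 ^ 2)) with hR
      have r1' : |R y| ≤ W.B'.d n ^ (t - δ) := r1
      have r2' : |R y'| ≤ W.B'.d n ^ (t - δ) := r2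
      have eR : p y' - p y - mu * (c y' - c y) + la * κ n * (c y' ^ 2 - c y ^ 2) =
          (R y' - R y) + ((p y' - b y') - (p y - b y)) -
          mu * ((c y' - a y') - (c y - a y)) +
          la * κ n * ((c y' ^ 2 - a y' ^ 2) - (c y ^ 2 - a y ^ 2)) := by
        simp only [hR]; ring
      have dx := pp x
      have dt := pp (t - δ)
      have m1 : W.B'.d n ^ (-δ) * W.B'.d n ^ x ≤ W.B'.d n ^ (t - δ) := by
        rw [pm]; exact pw (by linarith)
      have q1 : |(R y' - R y)| ≤ 2 * W.B'.d n ^ (t - δ) := by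
        refine (abs_sub _ _).trans ?_; linarith
      have q2 : |(p y' - b y') - (p y - b y)| ≤ 140 * W.K0 ^ 8 * W.B'.d n ^ (t - δ) := by
        refine (abs_sub _ _).trans ?_
        have h2 := d2 y hyC
        have h3 := d2 y' hyC'
        have h4 : 70 * W.K0 ^ 8 * W.B'.d n ^ x ≤ 70 * W.K0 ^ 8 * W.B'.d n ^ (t - δ) :=
          mul_le_mul_of_nonneg_left hxt (by positivity)
        linarith
      have q3 : |mu * ((c y' - a y') - (c y - a y))| ≤ 2 * W.K0 ^ 8 * W.B'.d n ^ (t - δ) := by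
        rw [abs_mul]
        have h2 := d1 y hyC
        have h3 := d1 y' hyC'
        have h4 : |(c y' - a y') - (c y - a y)| ≤ 2 * W.K0 * W.B'.d n ^ x := by
          refine (abs_sub _ _).trans ?_; linarith
        calc |mu| * |(c y' - a y') - (c y - a y)| ≤ W.B'.d n ^ (-δ) *
              (2 * W.K0 * W.B'.d n ^ x) := mul_le_mul hmu h4 (abs_nonneg _) (pp _).le
          _ = 2 * W.K0 * (W.B'.d n ^ (-δ) * W.B'.d n ^ x) := by ring
          _ ≤ 2 * W.K0 ^ 8 * W.B'.d n ^ (t - δ) :=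
              mul_le_mul (by linarith) m1 (mul_pos (pp _) dx).le (by positivity)
      have q4 : |la * κ n * ((c y' ^ 2 - a y' ^ 2) - (c y ^ 2 - a y ^ 2))| ≤
          4 * W.K0 ^ 8 * W.B'.d n ^ (t - δ) := by
        rw [abs_mul, abs_mul]
        have h2 := d3 y hyC
        have h3 := d3 y' hyC'
        have h4 : |(c y' ^ 2 - a y' ^ 2) - (c y ^ 2 - a y ^ 2)| ≤
            4 * W.K0 ^ 2 * W.B'.d n ^ x := by
          refine (abs_sub _ _).trans ?_; linarith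
        have h5 : |la| * |κ n| ≤ W.B'.d n ^ (-δ) * 1 :=
          mul_le_mul hla hk (abs_nonneg _) (pp _).le
        calc |la| * |κ n| * |(c y' ^ 2 - a y' ^ 2) - (c y ^ 2 - a y ^ 2)| ≤
              (W.B'.d n ^ (-δ) * 1) * (4 * W.K0 ^ 2 * W.B'.d n ^ x) :=
              mul_le_mul h5 h4 (abs_nonneg _) (by have := pp (-δ); positivity)
          _ = 4 * W.K0 ^ 2 * (W.B'.d n ^ (-δ) * W.B'.d n ^ x) := by ring
          _ ≤ 4 * W.K0 ^ 8 * W.B'.d n ^ (t - δ) :=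
              mul_le_mul (by linarith) m1 (mul_pos (pp _) dx).le (by positivity)
      have q5 : |p y' - p y - mu * (c y' - c y) + la * κ n * (c y' ^ 2 - c y ^ 2)| ≤
          148 * W.K0 ^ 8 * W.B'.d n ^ (t - δ) := by
        rw [eR]
        have t1 := abs_add_le ((R y' - R y) + ((p y' - b y') - (p y - b y)) -
          mu * ((c y' - a y') - (c y - a y)))
          (la * κ n * ((c y' ^ 2 - a y' ^ 2) - (c y ^ 2 - a y ^ 2)))
        have t2 := abs_sub ((R y' - R y) + ((p y' - b y') - (p y - b y)))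
          (mu * ((c y' - a y') - (c y - a y)))
        have t3 := abs_add_le (R y' - R y) ((p y' - b y') - (p y - b y))
        have t4 : 2 * W.B'.d n ^ (t - δ) ≤ 2 * W.K0 ^ 8 * W.B'.d n ^ (t - δ) := by
          have := mul_le_mul_of_nonneg_right hK81 dt.le
          linarith
        linarith
      rw [hE, hF]
      have q6 : |sd W u n 16 * (p y' - p y - mu * (c y' - c y) +
          la * κ n * (c y' ^ 2 - c y ^ 2))| ≤
          sd W u n 16 * (148 * W.K0 ^ 8 * W.B'.d n ^ (t - δ)) := by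
        rw [abs_mul, abs_of_pos s16]
        exact mul_le_mul_of_nonneg_left q5 s16.le
      have q7 : 67 * (W.K0 ^ 8 * (W.B'.d n ^ x * sd W u n 16)) ≤
          sd W u n 16 * (67 * W.K0 ^ 8 * W.B'.d n ^ (t - δ)) := by
        have : 67 * (W.K0 ^ 8 * (W.B'.d n ^ x * sd W u n 16)) =
          sd W u n 16 * (67 * W.K0 ^ 8 * W.B'.d n ^ x) := by ring
        rw [this]
        exact mul_le_mul_of_nonneg_left (mul_le_mul_of_nonneg_left hxt (by positivity)) s16.le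
      have q8 : sd W u n 16 * (67 * W.K0 ^ 8 * W.B'.d n ^ (t - δ)) +
          sd W u n 16 * (148 * W.K0 ^ 8 * W.B'.d n ^ (t - δ)) =
          (215 * W.K0 ^ 8 * W.B'.d n ^ (t - δ)) * sd W u n 16 := by ring
      have q9 : (215 * W.K0 ^ 8 * W.B'.d n ^ (t - δ)) * sd W u n 16 ≤
          W.B'.d n ^ (t - 4 * δ) * sd W u n 16 := by
        refine mul_le_mul_of_nonneg_right (le_trans ?_ big) s16.le
        have : 0 ≤ W.K0 ^ 8 * W.B'.d n ^ (t - δ) := by positivity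
        nlinarith
      have q10 := h1.trans q7
      rw [← abs_neg] at q10
      refine (abs_add_le _ _).trans ?_
      exact (add_le_add q10 q6).trans (q8.le.trans q9)

end

end Crest.Agent.R136.Lin560
end

-- ▼ part R136/Lin6_560
section

/-!
# R136, thin branch, `lin` (helper560), part 6: `lin_model2`, `lin_model3`
-/

set_option autoImplicit false
set_option linter.unusedSectionVars false
set_option linter.unusedVariables false

open Filter Topology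

namespace Crest.Agent.R136.Lin560

open Finset
open Crest.Agent.R138.Ex926 (Base U)
open Crest.Agent.R136.Gf356

section

variable {κ : Type} {B : Base} {G : ℕ → RCfg κ} {Leg : Set (κ → ℝ)} {ν : (κ → ℝ) → ℝ}
  {D x M C m : ℝ} {p0 r Qc Qf : κ → ℝ} {pc : ℝ → κ → ℝ} {φ : ℕ → ℕ → ℝ}
  {ty : ℕ → ℕ → Fin 2 → ℝ}


set_option maxHeartbeats 4000000 in
/-- **rigidity in the plane** -/
theorem lin_model2 {vel : ℕ → ℕ → Fin 2 → ℝ} {pos : ℕ → ℕ → ℕ → Fin 2 → ℝ}
    (H : RModel B G 1 x Leg ν D)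
    (Q : LRow 2 B G x M C p0 r Qc Qf pc φ ty vel pos) (P : LProf Leg ν x m p0 r Qc Qf pc)
    (hv : ∀ n l i, vel n l i = ty n l i) {t : ℝ} (ht : 0 ≤ t) (htx : t < x)
    (hn : ν p0 - ν r < 2 * (x - t)) {δ : ℝ} (hδ : 0 < δ) :
    ∀ᶠ n in (U : Filter ℕ), ∃ mu : ℝ, ∃ l1, |mu| ≤ B.d n ^ (-δ) ∧
      ∃ T ⊆ (G n).L, B.d n ^ δ * ((G n).L.card : ℝ) ≤ (T.card : ℝ) ∧
      ∀ l ∈ T, |(ty n l 1 - ty n l1 1) - mu * (ty n l 0 - ty n l1 0)| ≤ B.d n ^ (t - δ) := by
  have hD := H.D1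
  have hD0 : 0 < D := by linarith
  have hC := Q.C1
  have hC0 : 0 < C := by linarith
  have hM := Q.M1
  have hD3 : 1 ≤ D ^ 3 := one_le_pow₀ hD
  have hD5 : 1 ≤ D ^ 5 := one_le_pow₀ hD
  set K : ℝ := 20 * (C * D ^ 5 + C * D ^ 3 + C + D + 2) with hK
  have hCD3 : 0 < C * D ^ 3 := by positivity
  have hCD5 : 0 < C * D ^ 5 := by positivity
  have hK0 : 0 < K := by rw [hK]; positivity
  obtain ⟨y, e, hy, he, q1, q2, q3, q4, q5⟩ := params (x := x) (t := t) P.m0 hδ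
    (g := 2 * (x - t) - (ν p0 - ν r)) (by linarith) htx hC hD K hK0
  have hKe : ∀ s : ℝ, s ≤ K → s * e ≤ K * e := fun s hs => mul_le_mul_of_nonneg_right hs he.le
  filter_upwards [setup H Q P he hy.le (by linarith) ht
    ((hKe _ (by rw [hK]; linarith)).trans q5) ((hKe _ (by rw [hK]; linarith)).trans q2)] with n hn1
  obtain ⟨cell, S⟩ := hn1
  classical
  obtain ⟨⟨y0, k0⟩, h0⟩ := H.nonempty n
  have memI : ∀ {l k : ℕ}, k ∈ (G n).hts l ↔ (l, k) ∈ (G n).I := fun {l k} => H.memHts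
  have hLm : ∀ l k, (l, k) ∈ (G n).I → l ∈ (G n).L := fun l k h => H.memL h
  have pw : ∀ {s t : ℝ}, t ≤ s → B.d n ^ s ≤ B.d n ^ t := fun h => rpow_anti B n h
  have pa : ∀ s t : ℝ, B.d n ^ s * B.d n ^ t = B.d n ^ (s + t) := fun s t => (rpow_add' B n s t).symm
  have pos' : ∀ s : ℝ, 0 < B.d n ^ s := fun s => rpos B n s
  have pk : ∀ (s : ℝ) (k : ℕ), (B.d n ^ s) ^ k = B.d n ^ ((k : ℝ) * s) := fun s k => by
    rw [← Real.rpow_natCast, ← Real.rpow_mul (B.pos n).le, mul_comm]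
  have hCe : 0 < C * e := by positivity
  have e0 : 1 ≤ B.d n ^ (-e) := by linarith [S.c24]
  have hMC : 600 * M ^ 3 * C ≤ B.d n ^ (-e) := S.cM
  have hM2 : 76 * M ^ 2 * C ≤ B.d n ^ (-e) := by
    refine le_trans ?_ hMC
    have : M ^ 2 ≤ M ^ 3 := pow_le_pow_right₀ hM (by norm_num)
    have h2 : M ^ 2 * C ≤ M ^ 3 * C := mul_le_mul_of_nonneg_right this hC0.le
    have h3 : 0 ≤ M ^ 3 * C := by positivity
    linarith
  have key := alt2 (θ := B.d n ^ t) (δ := B.d n ^ (y + 2 * e))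
    (nS := B.d n ^ (ν Qf - ν r + (C * D ^ 3 + 1) * e)) (b := B.d n ^ e * (G n).Z.card)
    (N := B.d n ^ (x - t - (C * D ^ 5 + 3) * e) * (G n).Z.card)
    (NC := B.d n ^ (ν r - ν p0 - (D + 1) * e)) S.flow (memI.2 h0)
    (St := fun k y => (G n).box r e y k) S.st S.NT S.hT (pos' _).le S.NC (pos' t) (pos' _).le
    (mul_pos (pos' _) S.Zc).le S.hS ?_ S.hH (mul_pos (pos' _) S.Zc).le ?_ ?_
  · obtain ⟨y1, y2, k2, g1, g2, g3, g4⟩ := key
    obtain ⟨k1, hk1⟩ := g1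
    have I1 := memI.1 hk1
    have I2 := memI.1 g2
    rw [hv, hv] at g3
    set c1 := ty n y1 0 with hc1
    set c2 := ty n y2 0 with hc2
    set P1 := ty n y1 1 with hP1
    set P2 := ty n y2 1 with hP2
    set dl := B.d n ^ (y + 2 * e) with hdl
    have hdl0 : 0 < dl := pos' _
    have hcne : c1 - c2 ≠ 0 := by
      intro h
      have : c2 - c1 = 0 := by linarith
      rw [this, abs_zero] at g3
      linarith
    have hc12 : dl < |c1 - c2| := by rw [abs_sub_comm]; exact g3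
    have b1 := S.bd k1 y1 I1
    have b2 := S.bd k2 y2 I2
    refine ⟨(P1 - P2) / (c1 - c2), y2, ?_, (G n).L.filter fun l =>
      |(ty n l 1 - ty n y2 1) - (P1 - P2) / (c1 - c2) * (ty n l 0 - ty n y2 0)| ≤ B.d n ^ (t - δ),
      filter_subset _ _, ?_, fun l hl => (mem_filter.1 hl).2⟩
    · have h1 : |P1 - P2| ≤ 2 * M := (abs_sub _ _).trans (by linarith [b1 1, b2 1])
      rw [abs_div, div_le_iff₀ (by linarith)]
      have h2 : 2 * M ≤ B.d n ^ (-e) := by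
        refine le_trans ?_ hMC
        have : M ≤ M ^ 3 := le_self_pow₀ hM (by norm_num)
        have h3 : M ^ 3 ≤ M ^ 3 * C := le_mul_of_one_le_right (by positivity) hC
        linarith
      calc |P1 - P2| ≤ B.d n ^ (-e) := h1.trans h2
        _ ≤ B.d n ^ (-δ + (y + 2 * e)) := pw (by
          have := hKe 3 (by rw [hK]; linarith)
          linarith)
        _ = B.d n ^ (-δ) * dl := rpow_add' _ _ _ _
        _ ≤ _ := mul_le_mul_of_nonneg_left hc12.le (pos' _).le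
    · refine rel_part he S P.hprod ((hKe _ (by rw [hK]; linarith)).trans (by linarith))
        ((((G n).box r e y2 k2).filter fun l => |det2 (fun i => vel n y1 i - vel n y2 i)
        (fun i => vel n y2 i - vel n l i)| < B.d n ^ t)) k2
        (fun l hl => memI.1 (S.st _ _ _ (mem_filter.1 hl).1).2) ?_ _ ?_ hLm
      · convert g4
      · intro l hl l' hl' hd
        have f1 := (mem_filter.1 hl).2
        unfold det2 at f1
        simp only [hv] at f1
        have h3 : |(P1 - P2) / (c1 - c2)| ≤ B.d n ^ (-(y + 3 * e)) := by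
          rw [abs_div, div_le_iff₀ (by linarith)]
          have h1 : |P1 - P2| ≤ 2 * M := (abs_sub _ _).trans (by linarith [b1 1, b2 1])
          have h2 : 2 * M ≤ B.d n ^ (-e) := by
            refine le_trans ?_ hMC
            have : M ≤ M ^ 3 := le_self_pow₀ hM (by norm_num)
            have h3 : M ^ 3 ≤ M ^ 3 * C := le_mul_of_one_le_right (by positivity) hC
            linarith
          calc |P1 - P2| ≤ B.d n ^ (-e) := h1.trans h2
            _ = B.d n ^ (-(y + 3 * e)) * dl := by rw [hdl, pa]; congr 1; ring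
            _ ≤ _ := mul_le_mul_of_nonneg_left hc12.le (pos' _).le
        have h4 : |(ty n l 1 - P2) - (P1 - P2) / (c1 - c2) * (ty n l 0 - c2)| ≤
            B.d n ^ (t - y - 2 * e) := by
          have e1 : (ty n l 1 - P2) - (P1 - P2) / (c1 - c2) * (ty n l 0 - c2) =
              -((c1 - c2) * (P2 - ty n l 1) - (P1 - P2) * (c2 - ty n l 0)) / (c1 - c2) := by
            field_simp
            ring
          rw [e1, abs_div, abs_neg, div_le_iff₀ (by linarith)]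
          refine f1.le.trans ?_
          calc B.d n ^ t = B.d n ^ (t - y - 2 * e) * dl := by rw [hdl, pa]; congr 1; ring
            _ ≤ _ := mul_le_mul_of_nonneg_left hc12.le (pos' _).le
        have e2 : (ty n l' 1 - ty n y2 1) - (P1 - P2) / (c1 - c2) * (ty n l' 0 - ty n y2 0) =
            ((ty n l 1 - P2) - (P1 - P2) / (c1 - c2) * (ty n l 0 - c2)) +
            ((ty n l' 1 - ty n l 1) - (P1 - P2) / (c1 - c2) * (ty n l' 0 - ty n l 0)) := by
          rw [hc2, hP2]; ring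
        rw [e2]
        refine (abs_add_le _ _).trans ?_
        have h5 : |(ty n l' 1 - ty n l 1) - (P1 - P2) / (c1 - c2) * (ty n l' 0 - ty n l 0)| ≤
            2 * B.d n ^ (t - y - (C + 3) * e) := by
          refine (abs_sub _ _).trans ?_
          rw [abs_mul]
          have r1 : B.d n ^ (x - C * e) ≤ B.d n ^ (t - y - (C + 3) * e) := pw (by linarith)
          have r2 : |(P1 - P2) / (c1 - c2)| * |ty n l' 0 - ty n l 0| ≤
              B.d n ^ (t - y - (C + 3) * e) := by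
            calc _ ≤ B.d n ^ (-(y + 3 * e)) * B.d n ^ (x - C * e) :=
                  mul_le_mul h3 (hd 0) (abs_nonneg _) (pos' _).le
              _ = B.d n ^ (-(y + 3 * e) + (x - C * e)) := pa _ _
              _ ≤ _ := pw (by linarith)
          linarith [hd 1]
        have r3 : B.d n ^ (t - y - 2 * e) ≤ B.d n ^ (t - y - (C + 3) * e) := pw (by linarith)
        calc _ ≤ 3 * B.d n ^ (t - y - (C + 3) * e) := by linarith
          _ ≤ B.d n ^ (-e) * B.d n ^ (t - y - (C + 3) * e) :=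
            mul_le_mul_of_nonneg_right (by linarith [S.c24]) (pos' _).le
          _ = B.d n ^ (t - y - (C + 4) * e) := by rw [pa]; congr 1; ring
          _ ≤ _ := pw (by
            have := hKe (C + 4) (by rw [hK]; linarith)
            linarith)
  · -- hc
    intro c0 l k hk
    refine le_trans (le_of_eq ?_) (S.hc c0 (((G n).box r e l k).filter fun l => |vel n l 0 - c0| ≤
      B.d n ^ (y + 2 * e)) (fun l' hl' => hLm l' k (memI.1 (S.st _ _ _ (mem_filter.1 hl').1).2))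
      (fun l' hl' => by rw [← hv]; exact (mem_filter.1 hl').2))
    congr!
  · -- hN
    intro k hk
    refine le_trans (le_of_eq ?_) (S.hN k hk (76 * M ^ 2 * B.d n ^ (x - (C * D ^ 5 + 1) * e) /
      B.d n ^ t) ?_)
    · congr!
    · have e1 : B.d n ^ (x - (C * D ^ 5 + 1) * e) / B.d n ^ t =
        B.d n ^ (x - t - (C * D ^ 5 + 1) * e) := by
        rw [div_eq_iff (pos' t).ne', pa]; congr 1; ring
      rw [mul_div_assoc, e1]
      calc C * (76 * M ^ 2 * B.d n ^ (x - t - (C * D ^ 5 + 1) * e)) =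
          (76 * M ^ 2 * C) * B.d n ^ (x - t - (C * D ^ 5 + 1) * e) := by ring
        _ ≤ B.d n ^ (-e) * B.d n ^ (x - t - (C * D ^ 5 + 1) * e) :=
          mul_le_mul_of_nonneg_right hM2 (pos' _).le
        _ = _ := by rw [pa]; congr 1; ring
  · -- hlt
    have Z0 := S.Zc
    set Z : ℝ := ((G n).Z.card : ℝ) with hZ
    have e1 : (B.d n ^ (ν Qc - ν p0 - (2 * C + D + 4) * e)) ^ 3 *
        (Z * B.d n ^ (ν r - ν p0 - (D + 1) * e)) *
        (B.d n ^ (x - t - (C * D ^ 5 + 3) * e) * Z) ^ 2 =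
        B.d n ^ (3 * (ν Qc - ν p0 - (2 * C + D + 4) * e) + (ν r - ν p0 - (D + 1) * e) +
          2 * (x - t - (C * D ^ 5 + 3) * e)) * Z ^ 3 := by
      have a1 : B.d n ^ (3 * (ν Qc - ν p0 - (2 * C + D + 4) * e) + (ν r - ν p0 - (D + 1) * e) +
          2 * (x - t - (C * D ^ 5 + 3) * e)) =
          (B.d n ^ (ν Qc - ν p0 - (2 * C + D + 4) * e)) ^ 3 *
          B.d n ^ (ν r - ν p0 - (D + 1) * e) * (B.d n ^ (x - t - (C * D ^ 5 + 3) * e)) ^ 2 := by
        rw [pk, pk, pa, pa]; norm_num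
      rw [a1]; ring
    have e2 : (B.d n ^ (ν Qf - ν r + (C * D ^ 3 + 1) * e) / 2 * (B.d n ^ e * Z)) ^ 3 =
        B.d n ^ (3 * (ν Qf - ν r + (C * D ^ 3 + 2) * e)) * Z ^ 3 / 8 := by
      have a1 : B.d n ^ (3 * (ν Qf - ν r + (C * D ^ 3 + 2) * e)) =
          (B.d n ^ (ν Qf - ν r + (C * D ^ 3 + 1) * e) * B.d n ^ e) ^ 3 := by
        rw [pa, pk]; congr 1; push_cast; ring
      rw [a1]; ring
    rw [e1, e2, lt_div_iff₀ (by norm_num)]
    have e3 : B.d n ^ (3 * (ν Qc - ν p0 - (2 * C + D + 4) * e) + (ν r - ν p0 - (D + 1) * e) +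
          2 * (x - t - (C * D ^ 5 + 3) * e)) * 8 <
        B.d n ^ (3 * (ν Qf - ν r + (C * D ^ 3 + 2) * e)) := by
      have a2 : 3 * (ν Qf - ν r + (C * D ^ 3 + 2) * e) + e ≤
          3 * (ν Qc - ν p0 - (2 * C + D + 4) * e) + (ν r - ν p0 - (D + 1) * e) +
          2 * (x - t - (C * D ^ 5 + 3) * e) := by
        have a3 := hKe (3 * (C * D ^ 3 + 2) + 1 + 3 * (2 * C + D + 4) + (D + 1) +
          2 * (C * D ^ 5 + 3)) (by rw [hK]; linarith)
        have a4 := P.hprod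
        linarith
      calc _ < B.d n ^ (3 * (ν Qc - ν p0 - (2 * C + D + 4) * e) + (ν r - ν p0 - (D + 1) * e) +
          2 * (x - t - (C * D ^ 5 + 3) * e)) * B.d n ^ (-e) :=
            mul_lt_mul_of_pos_left (by linarith [S.c24]) (pos' _)
        _ = B.d n ^ (3 * (ν Qc - ν p0 - (2 * C + D + 4) * e) + (ν r - ν p0 - (D + 1) * e) +
          2 * (x - t - (C * D ^ 5 + 3) * e) + (-e)) := pa _ _
        _ ≤ _ := pw (by linarith)
    calc _ = (B.d n ^ (3 * (ν Qc - ν p0 - (2 * C + D + 4) * e) + (ν r - ν p0 - (D + 1) * e) +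
          2 * (x - t - (C * D ^ 5 + 3) * e)) * 8) * Z ^ 3 := by ring
      _ < _ := mul_lt_mul_of_pos_right e3 (by positivity)

end

end Crest.Agent.R136.Lin560
end

-- ▼ part R136/Lin11_560
section

/-!
# R136, thin branch, `lin` (helper560), part 11: the relation on a dense part of the class

* `OkL`, `LnW.legb`, `LnW.leg1`, `LnW.prof` : legality and numbers
* `LnW.modelE` : model
* **`lin_out`**, **`lin_rel2_of`**, **`lin_rel3_of`** : `LinRel` on a `ρ^ε`-part of the class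
-/

set_option autoImplicit false
set_option linter.unusedSectionVars false
set_option linter.unusedVariables false

open Filter Topology

namespace Crest.Agent.R136.Lin560

open Finset Crest.Agent.R138.Ex926 Crest.Agent.R136.Net191 Crest.Agent.R136.Gf356
open Crest.Agent.R136.Qg926 Crest.Agent.R136.NetW191 Crest.Agent.R136.EvW938
open Crest.Agent.R136.QdH887 (bv bv_in bv_out)

/-- integral boxes which respect the walls -/
def OkL (Dq Q : Finset (Fin 18)) : Prop := ∀ k : Fin 18, k ∉ Dq → ∀ l ∈ mlW k,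
  (∀ s ∈ l, s ∉ Dq) → k ∈ Q → ∃ s ∈ l, s ∈ Q

instance (Dq Q : Finset (Fin 18)) : Decidable (OkL Dq Q) := by
  unfold OkL; infer_instance

variable {Dq Uq : Finset (Fin 18)} {W : Wnd 18 fun _ => ℕ × ℝ} {κ : ℕ → ℝ}
  {u : ℕ → Fin 18 → ℝ} {f : ∀ n : ℕ, ℕ × ℝ → FW} {mm σ x : ℝ}

section

variable (g : LnW Dq Uq W κ u f mm σ x)

include g

theorem LnW.legb {Q : Finset (Fin 18)} (hQ : OkL Dq (insert 0 Q)) : bv x Q ∈ W.legW := by
  have hx := g.x0
  refine g.leg _ (fun s => by unfold bv; split_ifs; exacts [hx.le, le_rfl])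
    (fun s => by unfold bv; split_ifs; exacts [le_rfl, hx.le]) fun k hk l hl hs => ?_
  have e : cut {0} (bv x Q) (fun _ => x) = bv x (insert 0 Q) := by
    funext s
    by_cases h0 : s = 0
    · subst h0; rw [cut_of_mem (mem_singleton_self 0), bv_in (mem_insert_self _ _)]
    · rw [cut_of_notMem (by rw [mem_singleton]; exact h0)]
      unfold bv
      simp only [mem_insert, h0, false_or]
  rw [e]
  have nn : ∀ a ∈ l.map (bv x (insert 0 Q)), (0 : ℝ) ≤ a := by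
    intro a ha
    obtain ⟨s, -, rfl⟩ := List.mem_map.1 ha
    unfold bv; split_ifs; exacts [hx.le, le_rfl]
  by_cases hkQ : k ∈ insert 0 Q
  · obtain ⟨s, hs1, hs2⟩ := hQ k hk l hl hs hkQ
    rw [bv_in hkQ]
    have := List.single_le_sum nn _ (List.mem_map_of_mem hs1)
    rwa [bv_in hs2] at this
  · rw [bv_out hkQ]; exact List.sum_nonneg nn

theorem LnW.leg1 {y : ℝ} (h0 : 0 ≤ y) (hy : y ≤ x) :
    (Pi.single 1 y : Fin 18 → ℝ) ∈ W.legW := by
  have hx := g.x0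
  have n1 : ∀ s : Fin 18, 0 ≤ (Pi.single 1 y : Fin 18 → ℝ) s := by
    intro s
    by_cases h : s = 1
    · subst h; simpa using h0
    · rw [Pi.single_eq_of_ne h]
  refine g.leg _ n1 (fun s => ?_) fun k hk l hl hs => ?_
  · by_cases h : s = 1
    · subst h; simpa using hy
    · rw [Pi.single_eq_of_ne h]; exact hx.le
  · have h1 : k ≠ 0 := by
      rintro rfl
      rw [show mlW 0 = [] from by decide] at hl
      exact absurd hl List.not_mem_nil
    have h2 : k ≠ 1 := by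
      rintro rfl
      rw [show mlW 1 = [] from by decide] at hl
      exact absurd hl List.not_mem_nil
    rw [cut_of_notMem (by rw [mem_singleton]; exact h1), Pi.single_eq_of_ne h2]
    refine List.sum_nonneg fun a ha => ?_
    obtain ⟨s, -, rfl⟩ := List.mem_map.1 ha
    by_cases h : s = 0
    · subst h; rw [cut_of_mem (mem_singleton_self 0)]; exact hx.le
    · rw [cut_of_notMem (by rw [mem_singleton]; exact h)]; exact n1 s

theorem LnW.leg0 (h0 : OkL Dq {0}) : (0 : Fin 18 → ℝ) ∈ W.legW := by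
  have := g.legb (Q := ∅) (by simpa using h0)
  have e : bv x ∅ = 0 := by funext s; simp [bv]
  rwa [e] at this

theorem LnW.prof (h0 : OkL Dq {0}) (h1 : OkL Dq (insert 0 Uq)) (h2 : OkL Dq (insert 0 {1, 16}))
    (h3 : OkL Dq (insert 0 (Uq ∪ {1, 16}))) :
    LProf W.legW W.nu x mm 0 (bv x Uq) (bv x {1, 16}) (bv x (Uq ∪ {1, 16}))
      (fun y => Pi.single 1 y) where
  m0 := g.m0
  l0 := g.leg0 h0
  lr := g.legb h1
  lQc := g.legb h2
  lQf := g.legb h3
  lc := fun y h0 hy => g.leg1 h0 hy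
  hprod := g.n3
  H5 := fun y h0 hy => by
    have := g.n5 y h0
    linarith

/-- **pruned set and model** -/
theorem LnW.modelE {E : ∀ n : ℕ, Finset (ℕ × ℝ)} {Mu : ℕ → ℝ}
    (hE : Wnd.EOk W E Mu) (ex : ℕ → ∀ n : ℕ, ℕ × ℝ → ℕ) {g₀ : ℕ → ℝ}
    (hg₀ : Tendsto g₀ U atTop) :
    ∃ (E' : ∀ n : ℕ, Finset (ℕ × ℝ)) (gg : ℕ → ℝ), Wnd.Pruned W E E' gg ex ∧
      (∀ᶠ n in (U : Filter ℕ), gg n ≤ g₀ n) ∧ EvG W E' ∧
      RModel W.B' (W.cfg E') 1 x W.legW W.nu W.Dc := by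
  have hz : W.kz = 0 := g.ww.kz
  obtain ⟨E', gg, h1, h2, h3⟩ := Wnd.EOk.exists_model (σ := 1) (R := x) g.ww.ok hE ex hg₀ g.dens
    zero_le_one le_rfl (by rw [g.etop]) (fun y h0 h1 => by rw [hz]; exact g.frost y h0 h1)
  refine ⟨E', gg, h1, h2, ?_, h3⟩
  filter_upwards [Wnd.ev_cfg g.ww.ok hE h1] with n hn
  exact ⟨hn.1, (h1.sub n).trans hn.2.1, hn.2.2.2⟩

set_option maxHeartbeats 1000000 in
/-- **`LinRel` on a dense part of the class**, from the relation of the lines of a model -/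
theorem lin_out (hD : DOk Dq) (l0 : (0 : Fin 18 → ℝ) ∈ W.legW) {Qj : Finset (Fin 14)}
    (hQj : Qj = {11} ∧ (14 : Fin 18) ∈ Dq ∨ Qj = {10, 11} ∧ (14 : Fin 18) ∉ Dq) {t : ℝ}
    (htx : t < x)
    (hmod : ∀ E : ∀ n : ℕ, Finset (ℕ × ℝ), EvG W E →
      RModel W.B' (W.cfg E) 1 x W.legW W.nu W.Dc → ∀ δ : ℝ, 0 < δ → ∀ᶠ n in (U : Filter ℕ),
      ∃ mu la : ℝ, ∃ l1 : ℕ, |mu| ≤ W.B'.d n ^ (-δ) ∧ |la| ≤ W.B'.d n ^ (-δ) ∧
        ((14 : Fin 18) ∈ Dq → la = 0) ∧ ∃ T ⊆ (W.cfg E n).L,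
        W.B'.d n ^ δ * ((W.cfg E n).L.card : ℝ) ≤ (T.card : ℝ) ∧
        ∀ l ∈ T, |(tyW W n l 1 - tyW W n l1 1) - mu * (tyW W n l 0 - tyW W n l1 0) -
          la * (-(κ n * tyW W n l 0 ^ 2) - -(κ n * tyW W n l1 0 ^ 2))| ≤ W.B'.d n ^ (t - δ))
    {ε : ℝ} (hε : 0 < ε) : ∀ᶠ n in (U : Filter ℕ), ∃ G ⊆ W.Cl n,
      W.B'.d n ^ ε * ((W.Cl n).card : ℝ) ≤ (G.card : ℝ) ∧ LinRel Qj W κ u f n ε (t - ε) G := by
  have hg₀ : Tendsto (fun n : ℕ => (n : ℝ)) U atTop :=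
    tendsto_natCast_atTop_atTop.mono_left U_le_atTop
  obtain ⟨E, gg, hP, -, hEv, H⟩ := g.modelE g.ww.ok.eok_class (fun _ _ _ => 0) hg₀
  set δ : ℝ := ε / 8 with hδd
  have hδ : 0 < δ := by positivity
  filter_upwards [hEv, hmod E hEv H δ hδ, H.low 0 l0 δ hδ, g.ww.ok.card_lc_le hδ, hP.gsub δ hδ,
    g.rel_core hD hδ htx] with n hG hm hlow hlc hg hcore
  obtain ⟨gd, hsub, hcfg⟩ := hG
  obtain ⟨mu, la, l1, hmu, hla, hla0, T, hT, hTc, hrel⟩ := hm
  have hpos : ∀ s : ℝ, 0 < W.B'.d n ^ s := fun s => Real.rpow_pos_of_pos (W.B'.pos n) s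
  have hgpos : 0 ≤ gg n := le_trans zero_le_one (hP.g1 n)
  refine ⟨(E n).filter fun y => W.lc n y ∈ T, (filter_subset _ _).trans hsub, ?_, ?_⟩
  · -- the count
    classical
    set M : ℝ := gg n * (((W.Cl n).image (W.lc n)).card : ℝ) with hMd
    have hM : 0 ≤ M := mul_nonneg hgpos (Nat.cast_nonneg _)
    have hTE : ∀ l ∈ T, ∃ y ∈ E n, W.lc n y = l := by
      intro l hl
      have h2 := hT hl
      rw [hcfg] at h2
      exact mem_image.1 h2
    have hfib : ∀ l ∈ T, ((W.Cl n).card : ℝ) ≤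
        M * (((E n).filter fun y => W.lc n y = l).card : ℝ) := by
      intro l hl
      obtain ⟨y, hy, hyl⟩ := hTE l hl
      have h3 := hP.lines n y hy
      refine h3.trans (le_of_eq ?_)
      rw [hMd]
      congr 2
      rw [← hyl]
      rfl
    have hsum : (((E n).filter fun y => W.lc n y ∈ T).card : ℝ) =
        ∑ l ∈ T, ((E n).filter fun y => W.lc n y = l).card := by
      have e2 := card_eq_sum_card_fiberwise (f := W.lc n)
        (s := (E n).filter fun y => W.lc n y ∈ T) (t := T) (fun y hy => (mem_filter.1 hy).2)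
      rw [e2]
      push_cast
      refine sum_congr rfl fun l hl => ?_
      congr 2
      ext y
      simp only [mem_filter]
      constructor
      · rintro ⟨⟨h1, -⟩, h2⟩; exact ⟨h1, h2⟩
      · rintro ⟨h1, h2⟩; exact ⟨⟨h1, h2 ▸ hl⟩, h2⟩
    have h1 : (T.card : ℝ) * ((W.Cl n).card : ℝ) ≤
        M * (((E n).filter fun y => W.lc n y ∈ T).card : ℝ) := by
      rw [hsum]
      push_cast
      rw [mul_sum]
      calc (T.card : ℝ) * ((W.Cl n).card : ℝ) = ∑ l ∈ T, ((W.Cl n).card : ℝ) := by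
            rw [sum_const, nsmul_eq_mul]
        _ ≤ _ := sum_le_sum hfib
    obtain ⟨⟨i0, k0⟩, hik⟩ := H.nonempty n
    have h4 : W.B'.d n ^ (-W.nu 0 + δ) ≤ (((W.cfg E n).box 0 δ i0 k0).card : ℝ) :=
      hlow _ _ hik
    have h4' : (((W.cfg E n).box 0 δ i0 k0).card : ℝ) ≤ ((W.cfg E n).L.card : ℝ) := by
      have : (W.cfg E n).box 0 δ i0 k0 ⊆ (W.cfg E n).L := fun l hl =>
        (RCfg.mem_slice.1 (RCfg.mem_box.1 hl).1).1
      exact_mod_cast card_le_card this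
    have h5 : W.B'.d n ^ δ * W.B'.d n ^ (-W.nu 0 + δ) ≤ (T.card : ℝ) :=
      (mul_le_mul_of_nonneg_left (h4.trans h4') (hpos _).le).trans hTc
    have h6 : M ≤ W.B'.d n ^ (-δ) * W.B'.d n ^ (W.lam (cut W.S W.top 0) - δ) :=
      mul_le_mul hg (hlc (W.Cl n) (Subset.refl _)) (Nat.cast_nonneg _) (hpos _).le
    set Gc : ℝ := (((E n).filter fun y => W.lc n y ∈ T).card : ℝ) with hGc
    have hGc0 : 0 ≤ Gc := Nat.cast_nonneg _
    have hCl0 : (0 : ℝ) ≤ ((W.Cl n).card : ℝ) := Nat.cast_nonneg _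
    have h7 : W.B'.d n ^ δ * W.B'.d n ^ (-W.nu 0 + δ) * ((W.Cl n).card : ℝ) ≤
        W.B'.d n ^ (-δ) * W.B'.d n ^ (W.lam (cut W.S W.top 0) - δ) * Gc := by
      calc _ ≤ (T.card : ℝ) * ((W.Cl n).card : ℝ) := mul_le_mul_of_nonneg_right h5 hCl0
        _ ≤ M * Gc := h1
        _ ≤ _ := mul_le_mul_of_nonneg_right h6 hGc0
    have hnu : W.nu 0 = W.lam (cut W.S 0 W.top) - W.lam W.top := rfl
    set a1 : ℝ := W.lam (cut W.S W.top 0) with ha1
    have e1 : W.B'.d n ^ δ * W.B'.d n ^ (-W.nu 0 + δ) = W.B'.d n ^ (-W.nu 0 + 2 * δ) := by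
      rw [← Real.rpow_add (W.B'.pos n)]; congr 1; ring
    have e2 : W.B'.d n ^ (-δ) * W.B'.d n ^ (a1 - δ) = W.B'.d n ^ (a1 - 2 * δ) := by
      rw [← Real.rpow_add (W.B'.pos n)]; congr 1; ring
    rw [e1, e2] at h7
    have h8 : W.B'.d n ^ (-W.nu 0 + 2 * δ) * ((W.Cl n).card : ℝ) *
        W.B'.d n ^ (-(a1 - 2 * δ)) ≤ Gc := by
      have := mul_le_mul_of_nonneg_right h7 (hpos (-(a1 - 2 * δ))).le
      refine this.trans (le_of_eq ?_)
      rw [mul_comm (W.B'.d n ^ (a1 - 2 * δ)) Gc, mul_assoc, ← Real.rpow_add (W.B'.pos n),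
        add_neg_cancel, Real.rpow_zero, mul_one]
    refine le_trans ?_ h8
    have e3 : W.B'.d n ^ (-W.nu 0 + 2 * δ) * ((W.Cl n).card : ℝ) * W.B'.d n ^ (-(a1 - 2 * δ)) =
        W.B'.d n ^ (-W.nu 0 + 2 * δ + -(a1 - 2 * δ)) * ((W.Cl n).card : ℝ) := by
      rw [Real.rpow_add (W.B'.pos n) (-W.nu 0 + 2 * δ) (-(a1 - 2 * δ))]; ring
    rw [e3]
    refine mul_le_mul_of_nonneg_right ?_ hCl0
    refine Real.rpow_le_rpow_of_exponent_ge (W.B'.pos n) (W.B'.lt n).le ?_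
    have hd := g.dens
    rw [hnu]
    linarith
  · -- the relation
    have h := hcore gd mu la hmu hla hla0 l1 ((E n).filter fun y => W.lc n y ∈ T)
      ((filter_subset _ _).trans hsub) (fun y hy => hrel _ (mem_filter.1 hy).2) Qj hQj
    exact LinRel.weak (g.sd0 n) (by linarith) (by linarith) h

end

/-- `b1 = 1` -/
theorem lin_rel2_of (g : LnW Da Ua W κ u f mm σ x)
    (hrow : ∀ E : ∀ n : ℕ, Finset (ℕ × ℝ), EvG W E →
      RModel W.B' (W.cfg E) 1 x W.legW W.nu W.Dc → ∃ M C : ℝ,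
      LRow 2 W.B' (W.cfg E) x M C 0 (bv x Ua) (bv x {1, 16}) (bv x (Ua ∪ {1, 16}))
        (fun y => Pi.single 1 y) (phW W) (tyW W) (vel2 W) (pos2 W)) {t : ℝ} (ht : 0 ≤ t)
    (htx : t < x) (ht2 : 2 * t < σ * x) {ε : ℝ} (hε : 0 < ε) :
    ∀ᶠ n in (U : Filter ℕ), ∃ G ⊆ W.Cl n,
      W.B'.d n ^ ε * ((W.Cl n).card : ℝ) ≤ (G.card : ℝ) ∧ LinRel {11} W κ u f n ε (t - ε) G := by
  have hP := g.prof (by decide) (by decide) (by decide) (by decide)
  refine lin_out g dOk_a hP.l0 (Or.inl ⟨rfl, by decide⟩) htx (fun E hE H δ hδ => ?_) hε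
  obtain ⟨M, C, Q⟩ := hrow E hE H
  have hc : ((Ua.card : ℕ) : ℝ) = 2 := by
    have : Ua.card = 2 := by decide
    rw [this]; norm_num
  have h4 := g.n4
  rw [hc] at h4
  filter_upwards [lin_model2 H Q hP (fun n l i => rfl) ht htx (by nlinarith) hδ] with n hn
  obtain ⟨mu, l1, h1, T, h2, h3, h5⟩ := hn
  refine ⟨mu, 0, l1, h1, ?_, fun _ => rfl, T, h2, h3, fun l hl => ?_⟩
  · rw [abs_zero]; exact (Real.rpow_pos_of_pos (W.B'.pos n) _).le
  · rw [zero_mul, sub_zero]; exact h5 l hl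

/-- `b1 = 2` -/
theorem lin_rel3_of (g : LnW Db Ub W κ u f mm σ x)
    (hrow : ∀ E : ∀ n : ℕ, Finset (ℕ × ℝ), EvG W E →
      RModel W.B' (W.cfg E) 1 x W.legW W.nu W.Dc → ∃ M C : ℝ,
      LRow 3 W.B' (W.cfg E) x M C 0 (bv x Ub) (bv x {1, 16}) (bv x (Ub ∪ {1, 16}))
        (fun y => Pi.single 1 y) (phW W) (tyW W) (vel3 W κ) (pos3 W)) {t : ℝ} (ht : 0 ≤ t)
    (htx : t < x) (ht3 : 3 * t < σ * x) {ε : ℝ} (hε : 0 < ε) :
    ∀ᶠ n in (U : Filter ℕ), ∃ G ⊆ W.Cl n,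
      W.B'.d n ^ ε * ((W.Cl n).card : ℝ) ≤ (G.card : ℝ) ∧
        LinRel {10, 11} W κ u f n ε (t - ε) G := by
  have hP := g.prof (by decide) (by decide) (by decide) (by decide)
  refine lin_out g dOk_b hP.l0 (Or.inr ⟨rfl, by decide⟩) htx (fun E hE H δ hδ => ?_) hε
  obtain ⟨M, C, Q⟩ := hrow E hE H
  have hc : ((Ub.card : ℕ) : ℝ) = 3 := by
    have : Ub.card = 3 := by decide
    rw [this]; norm_num
  have h4 := g.n4
  rw [hc] at h4
  filter_upwards [lin_model3 H Q hP (kp := κ) (fun n l => rfl) (fun n l => rfl) (fun n l => rfl)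
    g.ww.hκ g.hk ht htx (by nlinarith) hδ] with n hn
  obtain ⟨mu, la, l1, h1, h1', T, h2, h3, h5⟩ := hn
  exact ⟨mu, la, l1, h1, h1', fun h => absurd h (by decide), T, h2, h3, fun l hl => h5 l hl⟩

end Crest.Agent.R136.Lin560
end

-- ▼ part R136/LinU_938
section

/-!
# R136, thin branch, `lin` (helper938): facts of the window of `lin`

* `line_ty`, `line_evo`, `pos_r`, `ty_q`, `q_ty` : facts of the lines at one `n`
-/

set_option autoImplicit false
set_option linter.unusedSectionVars false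
set_option linter.unusedVariables false

open Filter Topology

namespace Crest.Agent.R136.Lin938

open Finset Crest.Agent.R138.Ex926 Crest.Agent.R136.Net191 Crest.Agent.R136.Gf356
open Crest.Agent.R136.Qg926 Crest.Agent.R136.NetW191 Crest.Agent.R136.EvW938
open Crest.Agent.R136.QdH887 (bv)
open Crest.Agent.R136.Lin560

/-! ### numbers -/

theorem am {x y X Y : ℝ} (hx : |x| ≤ X) (hy : |y| ≤ Y) : |x * y| ≤ X * Y :=
  (abs_mul x y).le.trans (mul_le_mul hx hy (abs_nonneg _) ((abs_nonneg _).trans hx))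

section num

variable {K δ η κ χ ca ce cb ce' z φ A2 A3 A17 P16 w15 w14 Pa Pe Pb Pe' e1 A1 r : ℝ}

/-- `P` on one line -/
theorem num_line (hK : 1 ≤ K) (hδ : 0 ≤ δ) (hδ1 : δ ≤ 1) (hκ : |κ| ≤ 1) (hχ : |χ| ≤ 1)
    (h1 : |A1| ≤ K * δ) (h16 : |P16| ≤ K * δ) (h15 : |w15| ≤ K) (h14 : |w14| ≤ K)
    (hP : |Pa - (Pe + P16 + A1 * w15 - χ * (κ * (A1 ^ 2 * w14)))| ≤ δ) :
    |Pa - Pe| ≤ 4 * K ^ 3 * δ := by
  have k1 : K * δ ≤ K ^ 3 * δ := mul_le_mul_of_nonneg_right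
    (by simpa using pow_le_pow_right₀ hK (show 1 ≤ 3 by norm_num)) hδ
  have k2 : K * K * δ ≤ K ^ 3 * δ := mul_le_mul_of_nonneg_right
    (by rw [← pow_two]; exact pow_le_pow_right₀ hK (by norm_num)) hδ
  have k0 : δ ≤ K ^ 3 * δ := by nlinarith [one_le_pow₀ hK (n := 3)]
  have hK0 : 0 ≤ K := by linarith
  have m1 : |A1 * w15| ≤ K * δ * K := am h1 h15
  have m2 : |A1 ^ 2 * w14| ≤ (K * δ) ^ 2 * K := am (by rw [abs_pow]; gcongr) h14
  have m3 : |κ * (A1 ^ 2 * w14)| ≤ 1 * ((K * δ) ^ 2 * K) := am hκ m2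
  have m4 : |χ * (κ * (A1 ^ 2 * w14))| ≤ 1 * (1 * ((K * δ) ^ 2 * K)) := am hχ m3
  have m5 : (K * δ) ^ 2 * K ≤ K ^ 3 * δ := by
    have : δ ^ 2 ≤ δ := by nlinarith
    calc (K * δ) ^ 2 * K = K ^ 3 * δ ^ 2 := by ring
      _ ≤ _ := mul_le_mul_of_nonneg_left this (by positivity)
  rw [abs_le] at *
  constructor <;> nlinarith

/-- `A` of the evolution -/
theorem num_evoA (hK : 1 ≤ K) (hδ : 0 ≤ δ) (h2 : |A2| ≤ K * δ) (hca : |ca - ce| ≤ K * δ)
    (hce : |ce| ≤ K) (hz : |z| ≤ K) (hzφ : |z - φ| ≤ 2 * K * δ) {Ab Aa : ℝ}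
    (hA : Ab = Aa + A2 + ca * z) : |Ab - Aa - φ * ce| ≤ 10 * K ^ 4 * δ := by
  have e : Ab - Aa - φ * ce = A2 + (ca - ce) * z + ce * (z - φ) := by rw [hA]; ring
  have m1 := am hca hz
  have m2 := am hce hzφ
  rw [e]
  have k1 : K ≤ K ^ 4 := by nlinarith [one_le_pow₀ hK (n := 3)]
  have k2 : K ^ 2 ≤ K ^ 4 := pow_le_pow_right₀ hK (by norm_num)
  have h3 := abs_add_le (A2 + (ca - ce) * z) (ce * (z - φ))
  have h4 := abs_add_le A2 ((ca - ce) * z)
  have k1' := mul_le_mul_of_nonneg_right k1 hδ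
  have k2' := mul_le_mul_of_nonneg_right k2 hδ
  have k3 : 0 ≤ K ^ 4 * δ := by positivity
  nlinarith

/-- `B` of the evolution -/
theorem num_evoB (hK : 1 ≤ K) (hδ : 0 ≤ δ) (hκ : |κ| ≤ 1) (h2 : |A2| ≤ K * δ) (h3 : |A3| ≤ K * δ)
    (hca : |ca - ce| ≤ K * δ) (hce : |ce| ≤ K) (hca' : |ca| ≤ K) (hz : |z| ≤ K)
    (hzφ : |z - φ| ≤ 2 * K * δ) {Bb Ba : ℝ}
    (hB : Bb = Ba + A3 - 2 * κ * (ca * A2) - κ * (ca ^ 2 * z)) :
    |Bb - Ba - φ * (-(κ * ce ^ 2))| ≤ 10 * K ^ 4 * δ := by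
  have e : Bb - Ba - φ * (-(κ * ce ^ 2)) = A3 - 2 * (κ * (ca * A2)) -
      κ * ((ca - ce) * (ca + ce) * z + ce ^ 2 * (z - φ)) := by rw [hB]; ring
  have m1 := am hκ (am hca' h2)
  have m2 : |ca + ce| ≤ 2 * K := (abs_add_le _ _).trans (by linarith)
  have m3 := am (am hca m2) hz
  have m4 : |ce ^ 2 * (z - φ)| ≤ K ^ 2 * (2 * K * δ) := am (by rw [abs_pow]; gcongr) hzφ
  have m5 : |(ca - ce) * (ca + ce) * z + ce ^ 2 * (z - φ)| ≤
      K * δ * (2 * K) * K + K ^ 2 * (2 * K * δ) := (abs_add_le _ _).trans (add_le_add m3 m4)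
  have m6 := am hκ m5
  rw [e]
  have k1 : K ≤ K ^ 4 := by nlinarith [one_le_pow₀ hK (n := 3)]
  have k2 : K ^ 2 ≤ K ^ 4 := pow_le_pow_right₀ hK (by norm_num)
  have k3 : K ^ 3 ≤ K ^ 4 := pow_le_pow_right₀ hK (by norm_num)
  have k1' := mul_le_mul_of_nonneg_right k1 hδ
  have k2' := mul_le_mul_of_nonneg_right k2 hδ
  have k3' := mul_le_mul_of_nonneg_right k3 hδ
  have k4 : 0 ≤ K ^ 4 * δ := by positivity
  rw [abs_le] at *
  constructor <;> nlinarith

/-- `N` of the evolution -/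
theorem num_evoN (hK : 1 ≤ K) (hδ : 0 ≤ δ) (hχ : |χ| ≤ 1) (h2 : |A2| ≤ K * δ) (h3 : |A3| ≤ K * δ)
    (h17 : |A17| ≤ K * δ) (h15 : |w15| ≤ K) (h14 : |w14| ≤ K) (hPa : |Pa - Pe| ≤ 4 * K ^ 3 * δ)
    (hPe : |Pe| ≤ K) (hz : |z| ≤ K) (hzφ : |z - φ| ≤ 2 * K * δ) {Nb Na : ℝ}
    (hN : |Nb - (Na + A17 + z * Pa + A2 * w15 + χ * (A3 * w14))| ≤ δ) :
    |Nb - Na - φ * Pe| ≤ 10 * K ^ 4 * δ := by
  have e : Nb - Na - φ * Pe = (Nb - (Na + A17 + z * Pa + A2 * w15 + χ * (A3 * w14))) + A17 +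
      (z * (Pa - Pe) + (z - φ) * Pe) + A2 * w15 + χ * (A3 * w14) := by ring
  have m1 := am hz hPa
  have m2 := am hzφ hPe
  have m3 := am h2 h15
  have m4 := am hχ (am h3 h14)
  rw [e]
  have k0 : 1 ≤ K ^ 4 := one_le_pow₀ hK
  have k1 : K ≤ K ^ 4 := by nlinarith [one_le_pow₀ hK (n := 3)]
  have k2 : K ^ 2 ≤ K ^ 4 := pow_le_pow_right₀ hK (by norm_num)
  have k0' := mul_le_mul_of_nonneg_right k0 hδ
  have k1' := mul_le_mul_of_nonneg_right k1 hδ
  have k2' := mul_le_mul_of_nonneg_right k2 hδ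
  have k4 : 0 ≤ K ^ 4 * δ := by positivity
  rw [abs_le] at *
  constructor <;> nlinarith

/-- positions at one height -/
theorem num_rA (hK : 1 ≤ K) (hη : 0 ≤ η) (h2 : |A2| ≤ η) (hca : |ca| ≤ K) (hz : |z| ≤ K * η)
    {Ab Aa : ℝ} (hA : Ab = Aa + A2 + ca * z) : |Ab - Aa| ≤ 10 * K ^ 4 * η := by
  have e : Ab - Aa = A2 + ca * z := by rw [hA]; ring
  have m1 := am hca hz
  rw [e]
  have k0 : 1 ≤ K ^ 4 := one_le_pow₀ hK
  have k2 : K ^ 2 ≤ K ^ 4 := pow_le_pow_right₀ hK (by norm_num)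
  have k0' := mul_le_mul_of_nonneg_right k0 hη
  have k2' := mul_le_mul_of_nonneg_right k2 hη
  rw [abs_le] at *
  constructor <;> nlinarith

theorem num_rB (hK : 1 ≤ K) (hη : 0 ≤ η) (hκ : |κ| ≤ 1) (h2 : |A2| ≤ η) (h3 : |A3| ≤ η)
    (hca : |ca| ≤ K) (hz : |z| ≤ K * η) {Bb Ba : ℝ}
    (hB : Bb = Ba + A3 - 2 * κ * (ca * A2) - κ * (ca ^ 2 * z)) :
    |Bb - Ba| ≤ 10 * K ^ 4 * η := by
  have e : Bb - Ba = A3 - 2 * (κ * (ca * A2)) - κ * (ca ^ 2 * z) := by rw [hB]; ring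
  have m1 := am hκ (am hca h2)
  have m2 : |ca ^ 2 * z| ≤ K ^ 2 * (K * η) := am (by rw [abs_pow]; gcongr) hz
  have m3 := am hκ m2
  rw [e]
  have k0 : 1 ≤ K ^ 4 := one_le_pow₀ hK
  have k1 : K ≤ K ^ 4 := by nlinarith [one_le_pow₀ hK (n := 3)]
  have k3 : K ^ 3 ≤ K ^ 4 := pow_le_pow_right₀ hK (by norm_num)
  have k0' := mul_le_mul_of_nonneg_right k0 hη
  have k1' := mul_le_mul_of_nonneg_right k1 hη
  have k3' := mul_le_mul_of_nonneg_right k3 hη
  rw [abs_le] at *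
  constructor <;> nlinarith

theorem num_rN (hK : 1 ≤ K) (hη : 0 ≤ η) (hχ : |χ| ≤ 1) (h2 : |A2| ≤ η)
    (h3 : |χ * (A3 * w14)| ≤ K * η) (h17 : |A17| ≤ η) (h15 : |w15| ≤ K) (hPa : |Pa| ≤ K)
    (hz : |z| ≤ K * η) {Nb Na : ℝ}
    (hN : |Nb - (Na + A17 + z * Pa + A2 * w15 + χ * (A3 * w14))| ≤ η) :
    |Nb - Na| ≤ 10 * K ^ 4 * η := by
  have e : Nb - Na = (Nb - (Na + A17 + z * Pa + A2 * w15 + χ * (A3 * w14))) + A17 +
      z * Pa + A2 * w15 + χ * (A3 * w14) := by ring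
  have m1 := am hz hPa
  have m3 := am h2 h15
  rw [e]
  have k0 : 1 ≤ K ^ 4 := one_le_pow₀ hK
  have k1 : K ≤ K ^ 4 := by nlinarith [one_le_pow₀ hK (n := 3)]
  have k2 : K ^ 2 ≤ K ^ 4 := pow_le_pow_right₀ hK (by norm_num)
  have k0' := mul_le_mul_of_nonneg_right k0 hη
  have k1' := mul_le_mul_of_nonneg_right k1 hη
  have k2' := mul_le_mul_of_nonneg_right k2 hη
  rw [abs_le] at *
  constructor <;> nlinarith

/-- types: from the slots `c`, `P` -/
theorem num_qc (hK : 1 ≤ K) (hη : 0 ≤ η) (h1 : |A1| ≤ η) (ha : |ca - ce| ≤ K * η)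
    (hb : |cb - ce'| ≤ K * η) (hc : cb = ca + A1) : |ce' - ce| ≤ 20 * K ^ 4 * η := by
  have e : ce' - ce = -(cb - ce') + A1 + (ca - ce) := by rw [hc]; ring
  rw [e]
  have k0 : 1 ≤ K ^ 4 := one_le_pow₀ hK
  have k1 : K ≤ K ^ 4 := by nlinarith [one_le_pow₀ hK (n := 3)]
  have k0' := mul_le_mul_of_nonneg_right k0 hη
  have k1' := mul_le_mul_of_nonneg_right k1 hη
  rw [abs_le] at *
  constructor <;> nlinarith

theorem num_qP (hK : 1 ≤ K) (hη : 0 ≤ η) (hκ : |κ| ≤ 1) (hχ : |χ| ≤ 1) (h1 : |A1| ≤ η)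
    (h1' : |A1| ≤ K) (h16 : |P16| ≤ η) (h15 : |w15| ≤ K) (h14 : |w14| ≤ K)
    (ha : |Pa - Pe| ≤ 4 * K ^ 3 * η) (hb : |Pb - Pe'| ≤ 4 * K ^ 3 * η)
    (hP : |Pb - (Pa + P16 + A1 * w15 - χ * (κ * (A1 ^ 2 * w14)))| ≤ η) :
    |Pe' - Pe| ≤ 20 * K ^ 4 * η := by
  have e : Pe' - Pe = -(Pb - Pe') + (Pb - (Pa + P16 + A1 * w15 - χ * (κ * (A1 ^ 2 * w14)))) +
      P16 + A1 * w15 - χ * (κ * (A1 ^ 2 * w14)) + (Pa - Pe) := by ring
  have m1 := am h1 h15
  have m2 : |A1 ^ 2 * w14| ≤ K * η * K := by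
    have : |A1 ^ 2| ≤ K * η := by rw [pow_two]; exact am h1' h1
    exact am this h14
  have m4 := am hχ (am hκ m2)
  rw [e]
  have k0 : 1 ≤ K ^ 4 := one_le_pow₀ hK
  have k1 : K ≤ K ^ 4 := by nlinarith [one_le_pow₀ hK (n := 3)]
  have k2 : K ^ 2 ≤ K ^ 4 := pow_le_pow_right₀ hK (by norm_num)
  have k3 : K ^ 3 ≤ K ^ 4 := pow_le_pow_right₀ hK (by norm_num)
  have k0' := mul_le_mul_of_nonneg_right k0 hη
  have k1' := mul_le_mul_of_nonneg_right k1 hη
  have k2' := mul_le_mul_of_nonneg_right k2 hη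
  have k3' := mul_le_mul_of_nonneg_right k3 hη
  rw [abs_le] at *
  constructor <;> nlinarith

/-- slots from the types -/
theorem num_f1 (hK : 1 ≤ K) (hη : 0 ≤ η) (hcc : |ce' - ce| ≤ η) (ha : |ca - ce| ≤ K * η)
    (hb : |cb - ce'| ≤ K * η) (hc : cb = ca + A1) : |A1| ≤ 3 * K * η := by
  have e : A1 = (cb - ce') + (ce' - ce) - (ca - ce) := by rw [hc]; ring
  rw [e]
  have k0' := mul_le_mul_of_nonneg_right hK hη
  rw [abs_le] at *
  constructor <;> nlinarith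

theorem num_f16 (hK : 1 ≤ K) (hη : 0 ≤ η) (hκ : |κ| ≤ 1) (hχ : |χ| ≤ 1) (h1 : |A1| ≤ 3 * K * η)
    (h1' : |A1| ≤ K) (hPP : |Pe' - Pe| ≤ η) (h15 : |w15| ≤ K) (h14 : |w14| ≤ K)
    (ha : |Pa - Pe| ≤ 4 * K ^ 3 * η) (hb : |Pb - Pe'| ≤ 4 * K ^ 3 * η)
    (hP : |Pb - (Pa + P16 + A1 * w15 - χ * (κ * (A1 ^ 2 * w14)))| ≤ η) :
    |P16| ≤ 20 * K ^ 4 * η := by
  have e : P16 = (Pb - Pe') + (Pe' - Pe) - (Pa - Pe) -
      (Pb - (Pa + P16 + A1 * w15 - χ * (κ * (A1 ^ 2 * w14)))) -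
      A1 * w15 + χ * (κ * (A1 ^ 2 * w14)) := by ring
  have m1 := am h1 h15
  have m2 : |A1 ^ 2 * w14| ≤ K * (3 * K * η) * K := by
    have : |A1 ^ 2| ≤ K * (3 * K * η) := by rw [pow_two]; exact am h1' h1
    exact am this h14
  have m4 := am hχ (am hκ m2)
  rw [e]
  have k0 : 1 ≤ K ^ 4 := one_le_pow₀ hK
  have k2 : K ^ 2 ≤ K ^ 4 := pow_le_pow_right₀ hK (by norm_num)
  have k3 : K ^ 3 ≤ K ^ 4 := pow_le_pow_right₀ hK (by norm_num)
  have k0' := mul_le_mul_of_nonneg_right k0 hη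
  have k2' := mul_le_mul_of_nonneg_right k2 hη
  have k3' := mul_le_mul_of_nonneg_right k3 hη
  rw [abs_le] at *
  constructor <;> nlinarith

end num

/-! ### facts of the window -/

section

variable {Dq Uq : Finset (Fin 18)} {W : Wnd 18 fun _ => ℕ × ℝ} {κ : ℕ → ℝ}
  {u : ℕ → Fin 18 → ℝ} {f : ∀ n : ℕ, ℕ × ℝ → FW} {mm σ x χ : ℝ} {n : ℕ}

theorem lrp_spec {E : Finset (ℕ × ℝ)} (hE : E ⊆ W.Cl n) {l k : ℕ}
    (hI : (l, k) ∈ (W.cfg0 n E).I) : lrpW W n l ∈ W.Cl n ∧ W.lc n (lrpW W n l) = l := by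
  obtain ⟨i, hi, h1, h2⟩ := Wnd.mem_I.1 hI
  have h : ∃ i ∈ W.Cl n, W.lc n i = l := ⟨i, hE hi, h1⟩
  unfold lrpW
  rw [dif_pos h]
  exact h.choose_spec

theorem zrp_spec {E : Finset (ℕ × ℝ)} (hE : E ⊆ W.Cl n) {l k : ℕ}
    (hI : (l, k) ∈ (W.cfg0 n E).I) : W.zrep n k ∈ W.Cl n ∧ W.zc n (W.zrep n k) = k := by
  obtain ⟨i, hi, h1, h2⟩ := Wnd.mem_I.1 hI
  have h := W.zrep_spec (hE hi)
  rw [h2] at h
  exact h

variable (g : LnW Dq Uq W κ u f mm σ x)
include g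

theorem crdK (gd : W.Good n) {a b : ℕ × ℝ} (ha : a ∈ W.Cl n) (hb : b ∈ W.Cl n) (s : Fin 18) :
    |W.crd n a b s| ≤ W.K0 := by
  have := g.ww.crd_le gd ha hb s
  rwa [g.ekap, div_one] at this

theorem crdL (gd : W.Good n) {a b : ℕ × ℝ} (ha : a ∈ W.Cl n) (hb : b ∈ W.Cl n)
    (hl : W.lc n a = W.lc n b) {s : Fin 18} (hs : s ≠ 0) :
    |W.crd n a b s| ≤ W.K0 * W.B'.d n ^ x := by
  have hs' : s ∉ W.S := by rw [g.eS]; simpa using hs
  have := g.ww.crd_own gd ha hb hl (t := x) hs' (by rw [g.etop])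
  rwa [g.ekap, div_one] at this

theorem crdZ (gd : W.Good n) {a b : ℕ × ℝ} (ha : a ∈ W.Cl n) (hb : b ∈ W.Cl n)
    (hl : W.zc n a = W.zc n b) : |W.crd n a b 0| ≤ W.K0 * W.B'.d n ^ x := by
  have := g.ww.crd_lev gd ha hb hl (t := x) (s := 0) (by rw [g.eS]; simp) (by rw [g.etop])
  rwa [g.ekap, div_one] at this

theorem ownZ (gd : W.Good n) {E : Finset (ℕ × ℝ)} (hE : E ⊆ W.Cl n) {l k k' : ℕ}
    (hi : (l, k) ∈ (W.cfg0 n E).I) (hi' : (l, k') ∈ (W.cfg0 n E).I) :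
    |W.crd n (W.rep n l k) (W.rep n l k') 0 - (phW W n k' - phW W n k)| ≤
      2 * W.K0 * W.B'.d n ^ x := by
  have h := g.ww.own_zero gd hE hi hi' (t := x) (by rw [g.etop])
  have e : ∀ k, (W.cfg0 n E).z k = phW W n k := fun k => by
    show W.crd n (W.s₀ n) (W.zrep n k) W.kz = _
    rw [g.ww.kz]
    rfl
  rw [e, e, g.ekap, div_one] at h
  exact h

/-- the type of a line seen from an incidence -/
theorem line_ty (gd : W.Good n) (hC : Cmp W (κ n) χ (W.B'.d n ^ x) n) (hχ : |χ| ≤ 1)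
    {E : Finset (ℕ × ℝ)} (hE : E ⊆ W.Cl n) {l k : ℕ} (hi : (l, k) ∈ (W.cfg0 n E).I) :
    |W.crd n (W.s₀ n) (W.rep n l k) 1 - tyW W n l 0| ≤ W.K0 * W.B'.d n ^ x ∧
    |W.crd n (W.s₀ n) (W.rep n l k) 16 - tyW W n l 1| ≤ 4 * W.K0 ^ 3 * W.B'.d n ^ x := by
  obtain ⟨a1, a2, a3⟩ := Wnd.rep_of_mem hE hi
  obtain ⟨e1, e2⟩ := lrp_spec hE hi
  have ho := gd.s0
  have hK := g.ww.ok.K0_one
  have hδ : 0 ≤ W.B'.d n ^ x := (Real.rpow_pos_of_pos (W.B'.pos n) _).le
  have hδ1 : W.B'.d n ^ x ≤ 1 := Real.rpow_le_one (W.B'.pos n).le (W.B'.lt n).le g.x0.le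
  have s1 := crdL g gd e1 a1 (e2.trans a2.symm) (s := 1) (by decide)
  have s16 := crdL g gd e1 a1 (e2.trans a2.symm) (s := 16) (by decide)
  have t0 : tyW W n l 0 = W.crd n (W.s₀ n) (lrpW W n l) 1 := rfl
  have t1 : tyW W n l 1 = W.crd n (W.s₀ n) (lrpW W n l) 16 := rfl
  constructor
  · rw [t0, hC.c _ ho _ e1 _ a1]
    have : W.crd n (W.s₀ n) (lrpW W n l) 1 + W.crd n (lrpW W n l) (W.rep n l k) 1 -
        W.crd n (W.s₀ n) (lrpW W n l) 1 = W.crd n (lrpW W n l) (W.rep n l k) 1 := by ring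
    rw [this]; exact s1
  · rw [t1]
    exact num_line hK hδ hδ1 (g.ww.hκ n) hχ s1 s16 (crdK g gd ho e1 15) (crdK g gd ho e1 14)
      (hC.P _ ho _ e1 _ a1)

/-- **evolution on a line** -/
theorem line_evo (gd : W.Good n) (hC : Cmp W (κ n) χ (W.B'.d n ^ x) n) (hχ : |χ| ≤ 1)
    {E : Finset (ℕ × ℝ)} (hE : E ⊆ W.Cl n) {l k k' : ℕ} (hi : (l, k) ∈ (W.cfg0 n E).I)
    (hi' : (l, k') ∈ (W.cfg0 n E).I) :
    |W.crd n (W.s₀ n) (W.rep n l k') 2 - W.crd n (W.s₀ n) (W.rep n l k) 2 -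
      (phW W n k' - phW W n k) * tyW W n l 0| ≤ 10 * W.K0 ^ 4 * W.B'.d n ^ x ∧
    |W.crd n (W.s₀ n) (W.rep n l k') 3 - W.crd n (W.s₀ n) (W.rep n l k) 3 -
      (phW W n k' - phW W n k) * (-(κ n * tyW W n l 0 ^ 2))| ≤ 10 * W.K0 ^ 4 * W.B'.d n ^ x ∧
    |W.crd n (W.s₀ n) (W.rep n l k') 17 - W.crd n (W.s₀ n) (W.rep n l k) 17 -
      (phW W n k' - phW W n k) * tyW W n l 1| ≤ 10 * W.K0 ^ 4 * W.B'.d n ^ x := by
  obtain ⟨a1, a2, a3⟩ := Wnd.rep_of_mem hE hi
  obtain ⟨b1, b2, b3⟩ := Wnd.rep_of_mem hE hi'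
  obtain ⟨e1, e2⟩ := lrp_spec hE hi
  have ho := gd.s0
  have hK := g.ww.ok.K0_one
  have hδ : 0 ≤ W.B'.d n ^ x := (Real.rpow_pos_of_pos (W.B'.pos n) _).le
  obtain ⟨l1, l2⟩ := line_ty g gd hC hχ hE hi
  have hab : W.lc n (W.rep n l k) = W.lc n (W.rep n l k') := a2.trans b2.symm
  have z1 := crdK g gd a1 b1 0
  have z2 := ownZ g gd hE hi hi'
  have c0 : |tyW W n l 0| ≤ W.K0 := crdK g gd ho e1 1
  have c1 : |tyW W n l 1| ≤ W.K0 := crdK g gd ho e1 16
  have s2 := crdL g gd a1 b1 hab (s := 2) (by decide)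
  have s3 := crdL g gd a1 b1 hab (s := 3) (by decide)
  have s17 := crdL g gd a1 b1 hab (s := 17) (by decide)
  refine ⟨num_evoA hK hδ s2 l1 c0 z1 z2 (hC.A _ ho _ a1 _ b1),
    num_evoB hK hδ (g.ww.hκ n) s2 s3 l1 c0 (crdK g gd ho a1 1) z1 z2 (hC.B _ ho _ a1 _ b1),
    num_evoN hK hδ hχ s2 s3 s17 (crdK g gd ho a1 15) (crdK g gd ho a1 14) l2 c1 z1 z2
      (hC.N _ ho _ a1 _ b1)⟩

/-- **positions at one height** -/
theorem pos_r (gd : W.Good n) (hC : Cmp W (κ n) χ (W.B'.d n ^ x) n) (hχ : |χ| ≤ 1)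
    {E : Finset (ℕ × ℝ)} (hE : E ⊆ W.Cl n) {l l' k : ℕ} (hi : (l, k) ∈ (W.cfg0 n E).I)
    (hi' : (l', k) ∈ (W.cfg0 n E).I) {η : ℝ} (hη : W.B'.d n ^ x ≤ η)
    (h2 : |W.crd n (W.rep n l k) (W.rep n l' k) 2| ≤ η)
    (h17 : |W.crd n (W.rep n l k) (W.rep n l' k) 17| ≤ η) :
    |W.crd n (W.s₀ n) (W.rep n l' k) 2 - W.crd n (W.s₀ n) (W.rep n l k) 2| ≤
      10 * W.K0 ^ 4 * η ∧
    (|W.crd n (W.rep n l k) (W.rep n l' k) 3| ≤ η →
      |W.crd n (W.s₀ n) (W.rep n l' k) 3 - W.crd n (W.s₀ n) (W.rep n l k) 3| ≤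
        10 * W.K0 ^ 4 * η) ∧
    (χ = 0 ∨ |W.crd n (W.rep n l k) (W.rep n l' k) 3| ≤ η →
      |W.crd n (W.s₀ n) (W.rep n l' k) 17 - W.crd n (W.s₀ n) (W.rep n l k) 17| ≤
        10 * W.K0 ^ 4 * η) := by
  obtain ⟨a1, a2, a3⟩ := Wnd.rep_of_mem hE hi
  obtain ⟨b1, b2, b3⟩ := Wnd.rep_of_mem hE hi'
  have ho := gd.s0
  have hK := g.ww.ok.K0_one
  have hδ : 0 ≤ W.B'.d n ^ x := (Real.rpow_pos_of_pos (W.B'.pos n) _).le
  have hη0 : 0 ≤ η := hδ.trans hη
  have z1 : |W.crd n (W.rep n l k) (W.rep n l' k) 0| ≤ W.K0 * η :=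
    (crdZ g gd a1 b1 (a3.trans b3.symm)).trans
      (mul_le_mul_of_nonneg_left hη (by linarith))
  refine ⟨num_rA hK hη0 h2 (crdK g gd ho a1 1) z1 (hC.A _ ho _ a1 _ b1), fun h3 => ?_,
    fun h3 => ?_⟩
  · exact num_rB hK hη0 (g.ww.hκ n) h2 h3 (crdK g gd ho a1 1) z1 (hC.B _ ho _ a1 _ b1)
  · refine num_rN hK hη0 hχ h2 ?_ h17 (crdK g gd ho a1 15) (crdK g gd ho a1 16) z1
      ((hC.N _ ho _ a1 _ b1).trans hη)
    rcases h3 with h3 | h3
    · rw [h3, zero_mul, abs_zero]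
      have : 0 ≤ W.K0 := by linarith
      positivity
    · have h4 := am hχ (am h3 (crdK g gd ho a1 14))
      refine h4.trans (le_of_eq ?_)
      ring

/-- **types from the slots `c`, `P`** -/
theorem ty_q (gd : W.Good n) (hC : Cmp W (κ n) χ (W.B'.d n ^ x) n) (hχ : |χ| ≤ 1)
    {E : Finset (ℕ × ℝ)} (hE : E ⊆ W.Cl n) {l l' k : ℕ} (hi : (l, k) ∈ (W.cfg0 n E).I)
    (hi' : (l', k) ∈ (W.cfg0 n E).I) {η : ℝ} (hη : W.B'.d n ^ x ≤ η)
    (h1 : |W.crd n (W.rep n l k) (W.rep n l' k) 1| ≤ η)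
    (h16 : |W.crd n (W.rep n l k) (W.rep n l' k) 16| ≤ η) (i : Fin 2) :
    |tyW W n l' i - tyW W n l i| ≤ 20 * W.K0 ^ 4 * η := by
  obtain ⟨a1, a2, a3⟩ := Wnd.rep_of_mem hE hi
  obtain ⟨b1, b2, b3⟩ := Wnd.rep_of_mem hE hi'
  have ho := gd.s0
  have hK := g.ww.ok.K0_one
  have hδ : 0 ≤ W.B'.d n ^ x := (Real.rpow_pos_of_pos (W.B'.pos n) _).le
  have hη0 : 0 ≤ η := hδ.trans hη
  obtain ⟨l1, l2⟩ := line_ty g gd hC hχ hE hi
  obtain ⟨m1, m2⟩ := line_ty g gd hC hχ hE hi'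
  have hK0 : 0 ≤ W.K0 := by linarith
  have k1 : W.K0 * W.B'.d n ^ x ≤ W.K0 * η := mul_le_mul_of_nonneg_left hη hK0
  have k2 : 4 * W.K0 ^ 3 * W.B'.d n ^ x ≤ 4 * W.K0 ^ 3 * η :=
    mul_le_mul_of_nonneg_left hη (by positivity)
  fin_cases i
  · exact num_qc hK hη0 h1 (l1.trans k1) (m1.trans k1) (hC.c _ ho _ a1 _ b1)
  · exact num_qP hK hη0 (g.ww.hκ n) hχ h1 (crdK g gd a1 b1 1) h16 (crdK g gd ho a1 15)
      (crdK g gd ho a1 14) (l2.trans k2) (m2.trans k2) ((hC.P _ ho _ a1 _ b1).trans hη)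

/-- **slots `c`, `P` from the types** -/
theorem q_ty (gd : W.Good n) (hC : Cmp W (κ n) χ (W.B'.d n ^ x) n) (hχ : |χ| ≤ 1)
    {E : Finset (ℕ × ℝ)} (hE : E ⊆ W.Cl n) {l l' k : ℕ} (hi : (l, k) ∈ (W.cfg0 n E).I)
    (hi' : (l', k) ∈ (W.cfg0 n E).I) {η : ℝ} (hη : W.B'.d n ^ x ≤ η)
    (h0 : |tyW W n l' 0 - tyW W n l 0| ≤ η) :
    |W.crd n (W.rep n l k) (W.rep n l' k) 1| ≤ 3 * W.K0 * η ∧
    (|tyW W n l' 1 - tyW W n l 1| ≤ η →
      |W.crd n (W.rep n l k) (W.rep n l' k) 16| ≤ 20 * W.K0 ^ 4 * η) := by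
  obtain ⟨a1, a2, a3⟩ := Wnd.rep_of_mem hE hi
  obtain ⟨b1, b2, b3⟩ := Wnd.rep_of_mem hE hi'
  have ho := gd.s0
  have hK := g.ww.ok.K0_one
  have hδ : 0 ≤ W.B'.d n ^ x := (Real.rpow_pos_of_pos (W.B'.pos n) _).le
  have hη0 : 0 ≤ η := hδ.trans hη
  obtain ⟨l1, l2⟩ := line_ty g gd hC hχ hE hi
  obtain ⟨m1, m2⟩ := line_ty g gd hC hχ hE hi'
  have hK0 : 0 ≤ W.K0 := by linarith
  have k1 : W.K0 * W.B'.d n ^ x ≤ W.K0 * η := mul_le_mul_of_nonneg_left hη hK0
  have k2 : 4 * W.K0 ^ 3 * W.B'.d n ^ x ≤ 4 * W.K0 ^ 3 * η :=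
    mul_le_mul_of_nonneg_left hη (by positivity)
  have f1 := num_f1 hK hη0 h0 (l1.trans k1) (m1.trans k1) (hC.c _ ho _ a1 _ b1)
  refine ⟨f1, fun h1 => ?_⟩
  exact num_f16 hK hη0 (g.ww.hκ n) hχ f1 (crdK g gd a1 b1 1) h1 (crdK g gd ho a1 15)
    (crdK g gd ho a1 14) (l2.trans k2) (m2.trans k2) ((hC.P _ ho _ a1 _ b1).trans hη)

end

end Crest.Agent.R136.Lin938
end

-- ▼ part R136/LinW_938

/-!
# R136, thin branch, `lin` (helper938): rows of the window of `lin`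

* `lRow3` : `LRow 3` for `Db`, `Ub` (positions `A, B, N`)
* `lRow2` : `LRow 2` for `Da`, `Ua` (positions `A, N`)
-/

set_option autoImplicit false
set_option linter.unusedSectionVars false
set_option linter.unusedVariables false

open Filter Topology

namespace Crest.Agent.R136.Lin938

open Finset Crest.Agent.R138.Ex926 Crest.Agent.R136.Net191 Crest.Agent.R136.Gf356
open Crest.Agent.R136.Qg926 Crest.Agent.R136.NetW191 Crest.Agent.R136.EvW938
open Crest.Agent.R136.QdH887 (bv bv_in bv_out)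
open Crest.Agent.R136.Lin560

section

variable {Dq Uq : Finset (Fin 18)} {W : Wnd 18 fun _ => ℕ × ℝ} {κ : ℕ → ℝ}
  {u : ℕ → Fin 18 → ℝ} {f : ∀ n : ℕ, ℕ × ℝ → FW} {mm σ x χ : ℝ}
  {E : ∀ n : ℕ, Finset (ℕ × ℝ)}

theorem rel_crd (g : LnW Dq Uq W κ u f mm σ x) (n : ℕ) (F : Finset (ℕ × ℝ)) (k i l : ℕ)
    {s : Fin 18} (hs : s ≠ 0) :
    (W.cfg0 n F).rel k i l s = W.crd n (W.rep n i k) (W.rep n l k) s := by
  have hs' : s ∉ W.S := by rw [g.eS]; simpa using hs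
  exact if_neg hs'

theorem rel_zero (g : LnW Dq Uq W κ u f mm σ x) (n : ℕ) (F : Finset (ℕ × ℝ)) (k i l : ℕ) :
    (W.cfg0 n F).rel k i l 0 = 0 := by
  have hs' : (0 : Fin 18) ∈ W.S := by rw [g.eS]; simp
  exact if_pos hs'

/-- constants are absorbed -/
theorem absorb (B : Base) {c : ℝ} {n : ℕ} {x ε C : ℝ} (hε : 0 < ε) (hC : 2 ≤ C)
    (hc : c ≤ B.d n ^ (-ε)) : c * B.d n ^ (x - ε) ≤ B.d n ^ (x - C * ε) := by
  refine (mul_le_mul_of_nonneg_right hc (Real.rpow_pos_of_pos (B.pos n) _).le).trans ?_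
  rw [← Real.rpow_add (B.pos n)]
  exact Real.rpow_le_rpow_of_exponent_ge (B.pos n) (B.lt n).le (by nlinarith)

theorem le_eps (B : Base) {n : ℕ} {x ε : ℝ} (hε : 0 ≤ ε) : B.d n ^ x ≤ B.d n ^ (x - ε) :=
  Real.rpow_le_rpow_of_exponent_ge (B.pos n) (B.lt n).le (by linarith)

/-- **rows of `lin`, `b1 = 2`** -/
theorem lRow3 (g : LnW Db Ub W κ u f mm σ x) (hE : EvG W E)
    (H : RModel W.B' (W.cfg E) 1 x W.legW W.nu W.Dc) :
    ∃ M C : ℝ, LRow 3 W.B' (W.cfg E) x M C 0 (bv x Ub) (bv x {1, 16}) (bv x (Ub ∪ {1, 16}))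
      (fun y => Pi.single 1 y) (phW W) (tyW W) (vel3 W κ) (pos3 W) := by
  have hK := g.ww.ok.K0_one
  have hK0 : 0 ≤ W.K0 := by linarith
  have hK2 : W.K0 ≤ W.K0 ^ 2 := by nlinarith
  have hCm := cmpB g
  have h1χ : |(1 : ℝ)| ≤ 1 := by simp
  refine ⟨4 * W.K0 ^ 2, 4 * W.K0 ^ 2, g.x0, by nlinarith, by nlinarith, ?_, ?_, fun ε hε => ?_,
    fun ε hε => ?_, fun ε hε => ?_, fun ε hε => ?_, fun y hy hyx ε hε => ?_, fun ε hε => ?_, ?_⟩
  · -- bd
    filter_upwards [hE] with n hn k l hkl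
    obtain ⟨gd, hsub, heq⟩ := hn
    rw [heq] at hkl
    obtain ⟨e1, e2⟩ := lrp_spec hsub hkl
    obtain ⟨z1, z2⟩ := zrp_spec hsub hkl
    have c0 : |tyW W n l 0| ≤ W.K0 := crdK g gd gd.s0 e1 1
    have c1 : |tyW W n l 1| ≤ W.K0 := crdK g gd gd.s0 e1 16
    have cφ : |phW W n k| ≤ W.K0 := crdK g gd gd.s0 z1 0
    refine ⟨fun i => ?_, fun i => ?_, by nlinarith⟩
    · fin_cases i
      · exact c0.trans (by nlinarith)
      · exact c1.trans (by nlinarith)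
    · fin_cases i
      · exact c0.trans (by nlinarith)
      · show |-(κ n * tyW W n l 0 ^ 2)| ≤ 4 * W.K0 ^ 2
        rw [abs_neg]
        have h2 : |tyW W n l 0 ^ 2| ≤ W.K0 ^ 2 := by rw [abs_pow]; gcongr
        have h3 := am (g.ww.hκ n) h2
        nlinarith
      · exact c1.trans (by nlinarith)
  · -- vt
    filter_upwards [hE] with n hn k l k' l' hkl hkl' s hs
    obtain ⟨gd, hsub, heq⟩ := hn
    rw [heq] at hkl hkl'
    obtain ⟨e1, e2⟩ := lrp_spec hsub hkl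
    obtain ⟨e1', e2'⟩ := lrp_spec hsub hkl'
    have c0 : |tyW W n l 0| ≤ W.K0 := crdK g gd gd.s0 e1 1
    have c0' : |tyW W n l' 0| ≤ W.K0 := crdK g gd gd.s0 e1' 1
    have s0 := hs 0
    have s1 := hs 1
    have hs0 : 0 ≤ s := (abs_nonneg _).trans s0
    have hC1 : s ≤ 4 * W.K0 ^ 2 * s := by nlinarith
    intro i
    fin_cases i
    · exact s0.trans hC1
    · show |-(κ n * tyW W n l 0 ^ 2) - -(κ n * tyW W n l' 0 ^ 2)| ≤ 4 * W.K0 ^ 2 * s
      have e : -(κ n * tyW W n l 0 ^ 2) - -(κ n * tyW W n l' 0 ^ 2) =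
          -(κ n * ((tyW W n l 0 - tyW W n l' 0) * (tyW W n l 0 + tyW W n l' 0))) := by ring
      rw [e, abs_neg]
      have h2 : |tyW W n l 0 + tyW W n l' 0| ≤ 2 * W.K0 := (abs_add_le _ _).trans (by linarith)
      have h3 := am (g.ww.hκ n) (am s0 h2)
      have h4 : W.K0 * s ≤ W.K0 ^ 2 * s := mul_le_mul_of_nonneg_right hK2 hs0
      nlinarith
    · exact s1.trans hC1
  · -- evo
    filter_upwards [hE, hCm, ev_const_le W.B' hε (10 * W.K0 ^ 4)] with n hn hc hcc l k k' hkl hkl'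
    obtain ⟨gd, hsub, heq⟩ := hn
    rw [heq] at hkl hkl'
    obtain ⟨r1, r2, r3⟩ := line_evo g gd (hc gd) h1χ hsub hkl hkl'
    have hle : 10 * W.K0 ^ 4 * W.B'.d n ^ x ≤ W.B'.d n ^ (x - 4 * W.K0 ^ 2 * ε) :=
      (mul_le_mul_of_nonneg_left (le_eps W.B' hε.le) (by positivity)).trans
        (absorb W.B' hε (by nlinarith) hcc)
    intro i
    fin_cases i
    · exact r1.trans hle
    · exact r2.trans hle
    · exact r3.trans hle
  · -- rcl
    filter_upwards [hE, hCm, ev_const_le W.B' hε (10 * W.K0 ^ 4)] with n hn hc hcc k l l' hkl hkl'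
    obtain ⟨gd, hsub, heq⟩ := hn
    rw [heq] at hkl hkl' ⊢
    intro hlo
    have key : ∀ s ∈ Ub, |W.crd n (W.rep n l k) (W.rep n l' k) s| ≤ W.B'.d n ^ (x - ε) := by
      intro s hs
      have h := hlo s
      rw [bv_in hs, rel_crd g n _ k l l' (by rintro rfl; revert hs; decide)] at h
      exact h
    obtain ⟨r1, r2, r3⟩ := pos_r g gd (hc gd) h1χ hsub hkl hkl' (le_eps W.B' hε.le)
      (key 2 (by decide)) (key 17 (by decide))
    have k3 := key 3 (by decide)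
    have hle := absorb W.B' (x := x) hε (show (2 : ℝ) ≤ 4 * W.K0 ^ 2 by nlinarith) hcc
    intro i
    fin_cases i
    · exact r1.trans hle
    · exact (r2 k3).trans hle
    · exact (r3 (Or.inr k3)).trans hle
  · -- qcl
    filter_upwards [hE, hCm, ev_const_le W.B' hε (20 * W.K0 ^ 4)] with n hn hc hcc k l l' hkl hkl'
    obtain ⟨gd, hsub, heq⟩ := hn
    rw [heq] at hkl hkl' ⊢
    intro hlo i
    have key : ∀ s ∈ ({1, 16} : Finset (Fin 18)),
        |W.crd n (W.rep n l k) (W.rep n l' k) s| ≤ W.B'.d n ^ (x - ε) := by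
      intro s hs
      have h := hlo s
      rw [bv_in hs, rel_crd g n _ k l l' (by rintro rfl; revert hs; decide)] at h
      exact h
    exact (ty_q g gd (hc gd) h1χ hsub hkl hkl' (le_eps W.B' hε.le) (key 1 (by decide))
      (key 16 (by decide)) i).trans
      (absorb W.B' (x := x) hε (show (2 : ℝ) ≤ 4 * W.K0 ^ 2 by nlinarith) hcc)
  · -- qfl
    filter_upwards [hE, hCm, ev_const_le W.B' hε (20 * W.K0 ^ 4)] with n hn hc hcc k l l' hkl hkl'
    obtain ⟨gd, hsub, heq⟩ := hn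
    rw [heq] at hkl hkl' ⊢
    intro hlo hty s
    have hle := absorb W.B' (x := x) hε (show (2 : ℝ) ≤ 4 * W.K0 ^ 2 by nlinarith) hcc
    have hp : 0 < W.B'.d n ^ (x - ε) := Real.rpow_pos_of_pos (W.B'.pos n) _
    have hK4 : 1 ≤ W.K0 ^ 4 := one_le_pow₀ hK
    have hle1 : W.B'.d n ^ (x - ε) ≤ W.B'.d n ^ (x - 4 * W.K0 ^ 2 * ε) := by
      refine le_trans ?_ hle
      nlinarith
    obtain ⟨f1, f16⟩ := q_ty g gd (hc gd) h1χ hsub hkl hkl' (le_eps W.B' hε.le) (hty 0)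
    have f16' := f16 (hty 1)
    by_cases hs0 : s = 0
    · subst hs0
      rw [rel_zero g, abs_zero]
      exact (Real.rpow_pos_of_pos (W.B'.pos n) _).le
    rw [rel_crd g n _ k l l' hs0]
    by_cases hsU : s ∈ Ub ∪ {1, 16}
    · rw [bv_in hsU]
      rcases Finset.mem_union.1 hsU with h | h
      · have h2 := hlo s
        rw [bv_in h, rel_crd g n _ k l l' hs0] at h2
        exact h2.trans hle1
      · have h3 : s = 1 ∨ s = 16 := by simpa using h
        rcases h3 with rfl | rfl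
        · refine f1.trans (le_trans ?_ hle)
          refine mul_le_mul_of_nonneg_right ?_ hp.le
          have : W.K0 ≤ W.K0 ^ 4 := by simpa using pow_le_pow_right₀ hK (show 1 ≤ 4 by norm_num)
          nlinarith
        · exact f16'.trans hle
    · rw [bv_out hsU]
      obtain ⟨a1, _, _⟩ := Wnd.rep_of_mem hsub hkl
      obtain ⟨b1, _, _⟩ := Wnd.rep_of_mem hsub hkl'
      refine (crdK g gd a1 b1 s).trans ?_
      have h4 : W.K0 ≤ W.B'.d n ^ (-ε) := by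
        refine le_trans ?_ hcc
        have : W.K0 ≤ W.K0 ^ 4 := by simpa using pow_le_pow_right₀ hK (show 1 ≤ 4 by norm_num)
        nlinarith
      refine h4.trans (Real.rpow_le_rpow_of_exponent_ge (W.B'.pos n) (W.B'.lt n).le ?_)
      nlinarith
  · -- ccl
    filter_upwards [hE, hCm, ev_const_le W.B' hε (20 * W.K0 ^ 4)] with n hn hc hcc k l l' hkl hkl'
    obtain ⟨gd, hsub, heq⟩ := hn
    rw [heq] at hkl hkl' ⊢
    intro hcl s
    have hp : 0 < W.B'.d n ^ y := Real.rpow_pos_of_pos (W.B'.pos n) _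
    have hK4 : W.K0 ≤ W.K0 ^ 4 := by simpa using pow_le_pow_right₀ hK (show 1 ≤ 4 by norm_num)
    obtain ⟨a1, _, _⟩ := Wnd.rep_of_mem hsub hkl
    obtain ⟨b1, _, _⟩ := Wnd.rep_of_mem hsub hkl'
    have hy1 : W.B'.d n ^ x ≤ W.B'.d n ^ y :=
      Real.rpow_le_rpow_of_exponent_ge (W.B'.pos n) (W.B'.lt n).le hyx
    obtain ⟨f1, _⟩ := q_ty g gd (hc gd) h1χ hsub hkl hkl' hy1 hcl
    by_cases hs0 : s = 0
    · subst hs0
      rw [rel_zero g, abs_zero]
      exact (Real.rpow_pos_of_pos (W.B'.pos n) _).le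
    rw [rel_crd g n _ k l l' hs0]
    by_cases hs1 : s = 1
    · subst hs1
      rw [Pi.single_eq_same]
      refine f1.trans ?_
      refine (mul_le_mul_of_nonneg_right ?_ hp.le).trans
        ((mul_le_mul_of_nonneg_right hcc hp.le).trans (le_of_eq ?_))
      · nlinarith
      · rw [← Real.rpow_add (W.B'.pos n)]; congr 1; ring
    · rw [Pi.single_eq_of_ne hs1, zero_sub]
      refine (crdK g gd a1 b1 s).trans (le_trans ?_ hcc)
      nlinarith
  · -- all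
    filter_upwards [hE, ev_const_le W.B' hε W.K0] with n hn hcc k l l' hkl hkl'
    obtain ⟨gd, hsub, heq⟩ := hn
    rw [heq] at hkl hkl' ⊢
    intro s
    obtain ⟨a1, _, _⟩ := Wnd.rep_of_mem hsub hkl
    obtain ⟨b1, _, _⟩ := Wnd.rep_of_mem hsub hkl'
    rw [Pi.zero_apply, zero_sub]
    by_cases hs0 : s = 0
    · subst hs0
      rw [rel_zero g, abs_zero]
      exact (Real.rpow_pos_of_pos (W.B'.pos n) _).le
    rw [rel_crd g n _ k l l' hs0]
    exact (crdK g gd a1 b1 s).trans hcc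
  · -- zφ
    filter_upwards [hE] with n hn k hk k' hk'
    obtain ⟨gd, hsub, heq⟩ := hn
    rw [heq]
    have e : ∀ k, (W.cfg0 n (E n)).z k = phW W n k := fun k => by
      show W.crd n (W.s₀ n) (W.zrep n k) W.kz = _
      rw [g.ww.kz]
      rfl
    rw [e, e]
    have h1 : (1 : ℝ) ≤ 4 * W.K0 ^ 2 := by nlinarith
    have := mul_le_mul_of_nonneg_right h1 (abs_nonneg (phW W n k' - phW W n k))
    linarith

/-- **rows of `lin`, `b1 = 1`** -/
theorem lRow2 (g : LnW Da Ua W κ u f mm σ x) (hE : EvG W E)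
    (H : RModel W.B' (W.cfg E) 1 x W.legW W.nu W.Dc) :
    ∃ M C : ℝ, LRow 2 W.B' (W.cfg E) x M C 0 (bv x Ua) (bv x {1, 16}) (bv x (Ua ∪ {1, 16}))
      (fun y => Pi.single 1 y) (phW W) (tyW W) (vel2 W) (pos2 W) := by
  have hK := g.ww.ok.K0_one
  have hK0 : 0 ≤ W.K0 := by linarith
  have hK2 : W.K0 ≤ W.K0 ^ 2 := by nlinarith
  have hCm := cmpA g
  have h1χ : |(0 : ℝ)| ≤ 1 := by simp
  refine ⟨4 * W.K0 ^ 2, 4 * W.K0 ^ 2, g.x0, by nlinarith, by nlinarith, ?_, ?_, fun ε hε => ?_,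
    fun ε hε => ?_, fun ε hε => ?_, fun ε hε => ?_, fun y hy hyx ε hε => ?_, fun ε hε => ?_, ?_⟩
  · -- bd
    filter_upwards [hE] with n hn k l hkl
    obtain ⟨gd, hsub, heq⟩ := hn
    rw [heq] at hkl
    obtain ⟨e1, e2⟩ := lrp_spec hsub hkl
    obtain ⟨z1, z2⟩ := zrp_spec hsub hkl
    have c0 : |tyW W n l 0| ≤ W.K0 := crdK g gd gd.s0 e1 1
    have c1 : |tyW W n l 1| ≤ W.K0 := crdK g gd gd.s0 e1 16
    have cφ : |phW W n k| ≤ W.K0 := crdK g gd gd.s0 z1 0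
    refine ⟨fun i => ?_, fun i => ?_, by nlinarith⟩
    · fin_cases i
      · exact c0.trans (by nlinarith)
      · exact c1.trans (by nlinarith)
    · fin_cases i
      · exact c0.trans (by nlinarith)
      · exact c1.trans (by nlinarith)
  · -- vt
    filter_upwards [hE] with n hn k l k' l' hkl hkl' s hs
    obtain ⟨gd, hsub, heq⟩ := hn
    rw [heq] at hkl hkl'
    obtain ⟨e1, e2⟩ := lrp_spec hsub hkl
    obtain ⟨e1', e2'⟩ := lrp_spec hsub hkl'
    have c0 : |tyW W n l 0| ≤ W.K0 := crdK g gd gd.s0 e1 1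
    have c0' : |tyW W n l' 0| ≤ W.K0 := crdK g gd gd.s0 e1' 1
    have s0 := hs 0
    have s1 := hs 1
    have hs0 : 0 ≤ s := (abs_nonneg _).trans s0
    have hC1 : s ≤ 4 * W.K0 ^ 2 * s := by nlinarith
    intro i
    fin_cases i
    · exact s0.trans hC1
    · exact s1.trans hC1
  · -- evo
    filter_upwards [hE, hCm, ev_const_le W.B' hε (10 * W.K0 ^ 4)] with n hn hc hcc l k k' hkl hkl'
    obtain ⟨gd, hsub, heq⟩ := hn
    rw [heq] at hkl hkl'
    obtain ⟨r1, r2, r3⟩ := line_evo g gd (hc gd) h1χ hsub hkl hkl'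
    have hle : 10 * W.K0 ^ 4 * W.B'.d n ^ x ≤ W.B'.d n ^ (x - 4 * W.K0 ^ 2 * ε) :=
      (mul_le_mul_of_nonneg_left (le_eps W.B' hε.le) (by positivity)).trans
        (absorb W.B' hε (by nlinarith) hcc)
    intro i
    fin_cases i
    · exact r1.trans hle
    · exact r3.trans hle
  · -- rcl
    filter_upwards [hE, hCm, ev_const_le W.B' hε (10 * W.K0 ^ 4)] with n hn hc hcc k l l' hkl hkl'
    obtain ⟨gd, hsub, heq⟩ := hn
    rw [heq] at hkl hkl' ⊢
    intro hlo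
    have key : ∀ s ∈ Ua, |W.crd n (W.rep n l k) (W.rep n l' k) s| ≤ W.B'.d n ^ (x - ε) := by
      intro s hs
      have h := hlo s
      rw [bv_in hs, rel_crd g n _ k l l' (by rintro rfl; revert hs; decide)] at h
      exact h
    obtain ⟨r1, r2, r3⟩ := pos_r g gd (hc gd) h1χ hsub hkl hkl' (le_eps W.B' hε.le)
      (key 2 (by decide)) (key 17 (by decide))
    have hle := absorb W.B' (x := x) hε (show (2 : ℝ) ≤ 4 * W.K0 ^ 2 by nlinarith) hcc
    intro i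
    fin_cases i
    · exact r1.trans hle
    · exact (r3 (Or.inl rfl)).trans hle
  · -- qcl
    filter_upwards [hE, hCm, ev_const_le W.B' hε (20 * W.K0 ^ 4)] with n hn hc hcc k l l' hkl hkl'
    obtain ⟨gd, hsub, heq⟩ := hn
    rw [heq] at hkl hkl' ⊢
    intro hlo i
    have key : ∀ s ∈ ({1, 16} : Finset (Fin 18)),
        |W.crd n (W.rep n l k) (W.rep n l' k) s| ≤ W.B'.d n ^ (x - ε) := by
      intro s hs
      have h := hlo s
      rw [bv_in hs, rel_crd g n _ k l l' (by rintro rfl; revert hs; decide)] at h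
      exact h
    exact (ty_q g gd (hc gd) h1χ hsub hkl hkl' (le_eps W.B' hε.le) (key 1 (by decide))
      (key 16 (by decide)) i).trans
      (absorb W.B' (x := x) hε (show (2 : ℝ) ≤ 4 * W.K0 ^ 2 by nlinarith) hcc)
  · -- qfl
    filter_upwards [hE, hCm, ev_const_le W.B' hε (20 * W.K0 ^ 4)] with n hn hc hcc k l l' hkl hkl'
    obtain ⟨gd, hsub, heq⟩ := hn
    rw [heq] at hkl hkl' ⊢
    intro hlo hty s
    have hle := absorb W.B' (x := x) hε (show (2 : ℝ) ≤ 4 * W.K0 ^ 2 by nlinarith) hcc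
    have hp : 0 < W.B'.d n ^ (x - ε) := Real.rpow_pos_of_pos (W.B'.pos n) _
    have hK4 : 1 ≤ W.K0 ^ 4 := one_le_pow₀ hK
    have hle1 : W.B'.d n ^ (x - ε) ≤ W.B'.d n ^ (x - 4 * W.K0 ^ 2 * ε) := by
      refine le_trans ?_ hle
      nlinarith
    obtain ⟨f1, f16⟩ := q_ty g gd (hc gd) h1χ hsub hkl hkl' (le_eps W.B' hε.le) (hty 0)
    have f16' := f16 (hty 1)
    by_cases hs0 : s = 0
    · subst hs0
      rw [rel_zero g, abs_zero]
      exact (Real.rpow_pos_of_pos (W.B'.pos n) _).le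
    rw [rel_crd g n _ k l l' hs0]
    by_cases hsU : s ∈ Ua ∪ {1, 16}
    · rw [bv_in hsU]
      rcases Finset.mem_union.1 hsU with h | h
      · have h2 := hlo s
        rw [bv_in h, rel_crd g n _ k l l' hs0] at h2
        exact h2.trans hle1
      · have h3 : s = 1 ∨ s = 16 := by simpa using h
        rcases h3 with rfl | rfl
        · refine f1.trans (le_trans ?_ hle)
          refine mul_le_mul_of_nonneg_right ?_ hp.le
          have : W.K0 ≤ W.K0 ^ 4 := by simpa using pow_le_pow_right₀ hK (show 1 ≤ 4 by norm_num)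
          nlinarith
        · exact f16'.trans hle
    · rw [bv_out hsU]
      obtain ⟨a1, _, _⟩ := Wnd.rep_of_mem hsub hkl
      obtain ⟨b1, _, _⟩ := Wnd.rep_of_mem hsub hkl'
      refine (crdK g gd a1 b1 s).trans ?_
      have h4 : W.K0 ≤ W.B'.d n ^ (-ε) := by
        refine le_trans ?_ hcc
        have : W.K0 ≤ W.K0 ^ 4 := by simpa using pow_le_pow_right₀ hK (show 1 ≤ 4 by norm_num)
        nlinarith
      refine h4.trans (Real.rpow_le_rpow_of_exponent_ge (W.B'.pos n) (W.B'.lt n).le ?_)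
      nlinarith
  · -- ccl
    filter_upwards [hE, hCm, ev_const_le W.B' hε (20 * W.K0 ^ 4)] with n hn hc hcc k l l' hkl hkl'
    obtain ⟨gd, hsub, heq⟩ := hn
    rw [heq] at hkl hkl' ⊢
    intro hcl s
    have hp : 0 < W.B'.d n ^ y := Real.rpow_pos_of_pos (W.B'.pos n) _
    have hK4 : W.K0 ≤ W.K0 ^ 4 := by simpa using pow_le_pow_right₀ hK (show 1 ≤ 4 by norm_num)
    obtain ⟨a1, _, _⟩ := Wnd.rep_of_mem hsub hkl
    obtain ⟨b1, _, _⟩ := Wnd.rep_of_mem hsub hkl'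
    have hy1 : W.B'.d n ^ x ≤ W.B'.d n ^ y :=
      Real.rpow_le_rpow_of_exponent_ge (W.B'.pos n) (W.B'.lt n).le hyx
    obtain ⟨f1, _⟩ := q_ty g gd (hc gd) h1χ hsub hkl hkl' hy1 hcl
    by_cases hs0 : s = 0
    · subst hs0
      rw [rel_zero g, abs_zero]
      exact (Real.rpow_pos_of_pos (W.B'.pos n) _).le
    rw [rel_crd g n _ k l l' hs0]
    by_cases hs1 : s = 1
    · subst hs1
      rw [Pi.single_eq_same]
      refine f1.trans ?_
      refine (mul_le_mul_of_nonneg_right ?_ hp.le).trans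
        ((mul_le_mul_of_nonneg_right hcc hp.le).trans (le_of_eq ?_))
      · nlinarith
      · rw [← Real.rpow_add (W.B'.pos n)]; congr 1; ring
    · rw [Pi.single_eq_of_ne hs1, zero_sub]
      refine (crdK g gd a1 b1 s).trans (le_trans ?_ hcc)
      nlinarith
  · -- all
    filter_upwards [hE, ev_const_le W.B' hε W.K0] with n hn hcc k l l' hkl hkl'
    obtain ⟨gd, hsub, heq⟩ := hn
    rw [heq] at hkl hkl' ⊢
    intro s
    obtain ⟨a1, _, _⟩ := Wnd.rep_of_mem hsub hkl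
    obtain ⟨b1, _, _⟩ := Wnd.rep_of_mem hsub hkl'
    rw [Pi.zero_apply, zero_sub]
    by_cases hs0 : s = 0
    · subst hs0
      rw [rel_zero g, abs_zero]
      exact (Real.rpow_pos_of_pos (W.B'.pos n) _).le
    rw [rel_crd g n _ k l l' hs0]
    exact (crdK g gd a1 b1 s).trans hcc
  · -- zφ
    filter_upwards [hE] with n hn k hk k' hk'
    obtain ⟨gd, hsub, heq⟩ := hn
    rw [heq]
    have e : ∀ k, (W.cfg0 n (E n)).z k = phW W n k := fun k => by
      show W.crd n (W.s₀ n) (W.zrep n k) W.kz = _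
      rw [g.ww.kz]
      rfl
    rw [e, e]
    have h1 : (1 : ℝ) ≤ 4 * W.K0 ^ 2 := by nlinarith
    have := mul_le_mul_of_nonneg_right h1 (abs_nonneg (phW W n k' - phW W n k))
    linarith

end

end Crest.Agent.R136.Lin938
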