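import Crest.Agent.R136.Gen_467
import Crest.Agent.R136.Wdg2_296
import Crest.Agent.R136.AlD_601
import Crest.Agent.R136.AlK_500

-- ▼ part R136/Gen2_467
section

/-!
# R136, PLAN 2 (3) (aligned curved pairs): the wedge at one incidence (helper467)

* `ratio` : comparison of the two frames in the units of the sheets;
* `grad_jet` : the gradient of `q'` in the chart of `S`, from the jet;
* `two_balls` : from two small balls of velocities to the count;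
* `wedge_at` : `Gen467.Wedge` at one good incidence, from `Wdg296.gen_ball` and `AlD601`.
-/

set_option autoImplicit false
set_option linter.unusedVariables false

open Finset

namespace Crest.Agent.R136.Gen467

open Crest.Agent.R136.Sh605 Crest.Agent.R136.Hcp208 Crest.Agent.R136.Rk601 Crest.Agent.R136.AlD601
open Crest.Agent.R136.Tl102 (cmb fr StP StP.of_shN IsExp kap vel rp pc angC)
open Crest.Agent.R136.K4 (Plk4)
open Crest.Agent.R136.Tlt51 (Shp InP)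
open Crest.Agent.R136.Pl2W102 (Near Two1)
open Crest.Agent.R136.KapP335 (kapP DetP expP expP_spec fanP)
open Crest.Agent.R136.Gbx862 (zj dt_le_one)

/-- frames of two aligned sheets of comparable dimensions -/
theorem ratio {S S' : Plk4} {K a w1 w2 : ℝ} (hK : 1 ≤ K) (he : Ortho S.e) (he' : Ortho S'.e)
    (d : Dims K a w1 w2 S) (d' : Dims K a w1 w2 S') (hw2 : 0 ≤ w2)
    (o0 : S.w 0 ≤ S.w 2) (o2 : S.w 2 ≤ S.w 1) (p0 : S'.w 0 ≤ S'.w 2) (p2 : S'.w 2 ≤ S'.w 1)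
    (q0 : 0 ≤ S'.w 0) (ang : angC S S' * w1 ≤ K * w2) (hw1 : 0 ≤ w1) :
    ∀ k, k ≠ 0 → ∀ l, S'.w l * |dt (S.e k) (S'.e l)| ≤ (K ^ 2) ^ 2 * S.w k := by
  obtain ⟨_, ⟨a1, a2⟩, b1, b2⟩ := d
  obtain ⟨_, ⟨a1', a2'⟩, b1', b2'⟩ := d'
  have hK0 : 0 ≤ K := by linarith
  have n1 : ∀ i j, |dt (S.e i) (S'.e j)| ≤ 1 := fun i j =>
    dt_le_one (by simpa using he i i) (by simpa using he' j j)
  have hS1 : S'.w 1 ≤ K ^ 2 * S.w 1 := by nlinarith
  have hS2 : S'.w 2 ≤ K ^ 2 * S.w 2 := by nlinarith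
  have s2 : 0 ≤ S.w 2 := by
    by_contra hcon
    nlinarith [not_le.1 hcon]
  have s1 : 0 ≤ S.w 1 := s2.trans o2
  have hK2 : K ^ 2 ≤ (K ^ 2) ^ 2 := by
    have : 1 ≤ K ^ 2 := one_le_pow₀ hK
    nlinarith
  have hK3 : K ^ 3 ≤ (K ^ 2) ^ 2 := by
    have : K ^ 3 * 1 ≤ K ^ 3 * K := mul_le_mul_of_nonneg_left hK (by positivity)
    nlinarith
  have triv : ∀ {x d S : ℝ}, 0 ≤ x → d ≤ 1 → 0 ≤ S → x ≤ K ^ 2 * S → x * d ≤ (K ^ 2) ^ 2 * S := by
    intro x d S hx hd hS h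
    calc x * d ≤ x * 1 := mul_le_mul_of_nonneg_left hd hx
      _ ≤ K ^ 2 * S := by linarith
      _ ≤ _ := mul_le_mul_of_nonneg_right hK2 hS
  intro k hk l
  have hk' : k = 1 ∨ k = 2 := by
    fin_cases k
    · exact absurd rfl hk
    · exact Or.inl rfl
    · exact Or.inr rfl
  have q2 : 0 ≤ S'.w 2 := q0.trans p0
  have q1 : 0 ≤ S'.w 1 := q2.trans p2
  rcases hk' with rfl | rfl
  · have h2 : S'.w 2 ≤ K ^ 2 * S.w 1 := hS2.trans (mul_le_mul_of_nonneg_left o2 (by positivity))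
    fin_cases l
    · exact triv q0 (n1 _ _) s1 (p0.trans h2)
    · exact triv q1 (n1 _ _) s1 hS1
    · exact triv q2 (n1 _ _) s1 h2
  · fin_cases l
    · exact triv q0 (n1 _ _) s2 (p0.trans hS2)
    · have h1 : |dt (S.e 2) (S'.e 1)| ≤ angC S S' := by
        unfold Tl102.angC
        exact (le_max_right _ _).trans (le_max_right _ _)
      change S'.w 1 * |dt (S.e 2) (S'.e 1)| ≤ (K ^ 2) ^ 2 * S.w 2
      calc S'.w 1 * |dt (S.e 2) (S'.e 1)| ≤ K * w1 * |dt (S.e 2) (S'.e 1)| :=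
            mul_le_mul_of_nonneg_right a2' (abs_nonneg _)
        _ ≤ K * w1 * angC S S' := mul_le_mul_of_nonneg_left h1 (by positivity)
        _ = K * (angC S S' * w1) := by ring
        _ ≤ K * (K * w2) := mul_le_mul_of_nonneg_left ang hK0
        _ ≤ K * (K * (K * S.w 2)) := by gcongr
        _ = K ^ 3 * S.w 2 := by ring
        _ ≤ _ := mul_le_mul_of_nonneg_right hK3 s2
    · exact triv q2 (n1 _ _) s2 hS2

theorem ratio' {S S' : Plk4} {K a w1 w2 : ℝ} (hK : 1 ≤ K) (he : Ortho S.e) (he' : Ortho S'.e)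
    (d : Dims K a w1 w2 S) (d' : Dims K a w1 w2 S') (hw2 : 0 ≤ w2)
    (o0 : S.w 0 ≤ S.w 2) (o2 : S.w 2 ≤ S.w 1) (p0 : S'.w 0 ≤ S'.w 2) (p2 : S'.w 2 ≤ S'.w 1)
    (q0 : 0 ≤ S.w 0) (ang : angC S S' * w1 ≤ K * w2) (hw1 : 0 ≤ w1) :
    ∀ l, l ≠ 0 → ∀ k, S.w k * |dt (S'.e l) (S.e k)| ≤ (K ^ 2) ^ 2 * S'.w l := by
  refine ratio hK he' he d' d hw2 p0 p2 o0 o2 q0 ?_ hw1
  rw [angC_comm]; exact ang

/-- the central difference of `q'` in the chart of `S` -/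
theorem grad_jet {q : ℝ → V3 → ℝ} (hq : IsQ q) (f : Fin 3 → V3) (V : V3) (z : ℝ) (X : V3) (ρ : ℝ)
    (τ : V3) : q z (X + cmb f τ) - q z (X - cmb f τ) =
      dt ![2 * (jt q f V z X ρ).a0, 2 * (jt q f V z X ρ).a 1, 2 * (jt q f V z X ρ).a 2] τ := by
  obtain ⟨h, _⟩ := jt_jet hq f V z X ρ
  have h1 := h (τ 0) 0 (τ 1) (τ 2)
  have h2 := h (-τ 0) 0 (-τ 1) (-τ 2)
  have e1 : X + (ρ * 0) • V + cmb f ![τ 0, τ 1, τ 2] = X + cmb f τ := by
    have : (![τ 0, τ 1, τ 2] : V3) = τ := by funext i; fin_cases i <;> rfl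
    rw [this]; simp
  have e2 : X + (ρ * 0) • V + cmb f ![-τ 0, -τ 1, -τ 2] = X - cmb f τ := by
    funext i
    simp only [cmb, Pi.add_apply, Pi.sub_apply, Pi.smul_apply, smul_eq_mul, Matrix.cons_val]
    ring
  rw [e1, mul_zero, add_zero] at h1
  rw [e2, mul_zero, add_zero] at h2
  rw [h1, h2]
  simp only [dp, qf, dt, Fin.sum_univ_three, Matrix.cons_val]
  ring

open Classical in
/-- **two balls** -/
theorem two_balls {G : Finset ℕ} {Ball : Fin 2 → ℕ → Prop} {m : ℝ} (hm : 0 ≤ m)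
    (h : ∀ y ∈ G, ∃ i, Ball i y)
    (hb : ∀ i, ∀ x ∈ G, Ball i x → (((G.filter fun y => Ball i y).card : ℕ) : ℝ) ≤ m) :
    (G.card : ℝ) ≤ 2 * m := by
  have h1 : G ⊆ (univ : Finset (Fin 2)).biUnion fun i => G.filter fun y => Ball i y := by
    intro y hy
    obtain ⟨i, hi⟩ := h y hy
    exact mem_biUnion.2 ⟨i, mem_univ _, mem_filter.2 ⟨hy, hi⟩⟩
  have h2 : (G.card : ℝ) ≤ ∑ i : Fin 2, (((G.filter fun y => Ball i y).card : ℕ) : ℝ) := by
    exact_mod_cast (card_le_card h1).trans card_biUnion_le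
  refine h2.trans ((sum_le_card_nsmul _ _ m fun i _ => ?_).trans (le_of_eq ?_))
  · by_cases hem : (G.filter fun y => Ball i y).Nonempty
    · obtain ⟨x, hx⟩ := hem
      rw [mem_filter] at hx
      exact hb i x hx.1 hx.2
    · rw [not_nonempty_iff_eq_empty] at hem
      rw [hem]; simpa using hm
  · rw [nsmul_eq_mul, card_univ, Fintype.card_fin]; norm_num

/-- **the wedge at one incidence**.  `Gen p x := Nd1 p ∨ Gn ..`. -/
theorem wedge_at {L : ℕ → Ln4} {cu cv : ℕ → ℕ} {Uf Vf : ℕ → Plk4}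
    {W K a w1 w2 z0 ρ r β k g s : ℝ} {H t j : ℕ} {Nd1 : ℕ × ℕ → Prop} (hH : 1 ≤ H) (hj : j < H)
    (hK : 1 ≤ K) (hW : 0 ≤ W) (hρ : 0 < ρ) (hr0 : 0 < r) (hw1 : 0 ≤ w1) (hw2 : 0 ≤ w2)
    (shU : Shp (Uf (cu t)) z0 ρ r) (shV : Shp (Vf (cv t)) z0 ρ r)
    (inU : InP (L t) (Uf (cu t)) z0 ρ) (inV : InP (L t) (Vf (cv t)) z0 ρ)
    (dU : Dims K a w1 w2 (Uf (cu t))) (dV : Dims K a w1 w2 (Vf (cv t)))
    (ang : angC (Uf (cu t)) (Vf (cv t)) * w1 ≤ K * w2)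
    (hkap : 0 < kapP (Vf (cv t)) z0 ρ (L t)) (hdet : DetP K⁻¹ (Vf (cv t)) z0 ρ (L t))
    (hβ : 0 < β) (hβ1 : β ≤ 1) (hs : 0 < s) (hk : 1 / K ≤ k) (hg : 0 ≤ g)
    (hsl : ¬ Nd1 (t, j) → (jS (Uf (cu t)) (Vf (cv t)).q z0 ρ H j (L t)).a0 ≠ 0 ∧
      ∀ i, i ≠ 0 → |(jS (Uf (cu t)) (Vf (cv t)).q z0 ρ H j (L t)).a i| ≤
        K * |(jS (Uf (cu t)) (Vf (cv t)).q z0 ρ H j (L t)).a0|)
    (hth : ¬ Nd1 (t, j) → ∀ i j', |th (jS (Uf (cu t)) (Uf (cu t)).q z0 ρ H j (L t))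
      (jS (Uf (cu t)) (Vf (cv t)).q z0 ρ H j (L t)) i j'| ≤ K * s)
    (hnum : 2 * 10 ^ 12 * (K ^ 2) ^ 7 * (W / H + (Vf (cv t)).a / kapP (Vf (cv t)) z0 ρ (L t)) +
      10 ^ 5 * (K ^ 2) ^ 4 * g ≤ (K⁻¹ * β ^ 2 / 216) ^ 3) :
    Wedge L cv Vf W z0 ρ (8 * β) H (fun p x => Nd1 p ∨
      Gn (Uf (cu p.1)) (Vf (cv p.1)).q z0 ρ H p.2 (L p.1) (L x) k g s) t j := by
  classical
  set S := Uf (cu t) with hS
  set S' := Vf (cv t) with hS'
  have hH0 : (0 : ℝ) < H := by exact_mod_cast (show 0 < H by omega)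
  intro G m hm hG hball
  -- trivial case
  by_cases hNd : Nd1 (t, j)
  · have hem : G = ∅ := by
      rw [eq_empty_iff_forall_notMem]
      intro y hy
      exact (hG y hy).2.2 (Or.inl hNd)
    rw [hem]; simp; exact hm
  obtain ⟨ha0, hak⟩ := hsl hNd
  have hth := hth hNd
  have hK0 : 0 < K := by linarith
  have hKK : K ≤ K ^ 2 := by nlinarith
  have hK2 : 1 ≤ K ^ 2 := one_le_pow₀ hK
  -- the case of no line
  by_cases hemG : G = ∅
  · rw [hemG]; simp; exact hm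
  obtain ⟨y0, hy0⟩ := nonempty_iff_ne_empty.2 hemG
  obtain ⟨_, _, hy0G⟩ := hG y0 hy0
  have hGn0 : ¬ Gn S S'.q z0 ρ H j (L t) (L y0) k g s := fun h => hy0G (Or.inr h)
  obtain ⟨hSm, _⟩ := not_Gn.1 hGn0
  unfold Sm at hSm
  push Not at hSm
  obtain ⟨i0, l0, hil⟩ := hSm
  -- positivity of the widths
  have u0 : 0 < S.w 0 := hr0.trans_le (shU.r0_le.trans shU.a_le0)
  have u2 : 0 < S.w 2 := u0.trans_le shU.w0_le
  have u1 : 0 < S.w 1 := u2.trans_le shU.w_le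
  have v0 : 0 < S'.w 0 := hr0.trans_le (shV.r0_le.trans shV.a_le0)
  have v2 : 0 < S'.w 2 := v0.trans_le shV.w0_le
  have v1 : 0 < S'.w 1 := v2.trans_le shV.w_le
  have upos : ∀ i, 0 < S.w i := by intro i; fin_cases i <;> assumption
  have vpos : ∀ i, 0 < S'.w i := by intro i; fin_cases i <;> assumption
  have SP' := StP.of_shN shV v0
  have hexp := expP_spec (S := S') shV.isQ v0.ne' z0 ρ (L t)
  set b0 := (expP S' z0 ρ (L t)).1 with hb0
  set b1 := (expP S' z0 ρ (L t)).2.1 with hb1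
  set GG := (expP S' z0 ρ (L t)).2.2 with hGG
  have hkap' : kapP S' z0 ρ (L t) = S'.w 0 * kap b0 b1 GG := rfl
  have hκ : 0 < kap b0 b1 GG := by
    rw [hkap'] at hkap
    exact pos_of_mul_pos_right hkap v0.le
  have hj1 : (j : ℝ) / H ≤ 1 := by
    rw [div_le_one hH0]; exact_mod_cast hj.le
  have hj0 : (0 : ℝ) ≤ (j : ℝ) / H := by positivity
  have hz0 : z0 ≤ z0 + ρ * ((j : ℝ) / H) := by nlinarith
  have hz1 : z0 + ρ * ((j : ℝ) / H) ≤ z0 + ρ := by nlinarith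
  set J := jS S S'.q z0 ρ H j (L t) with hJ
  set nn : Fin 3 → ℝ := fun l => th (jS S S.q z0 ρ H j (L t)) J i0 l / s with hnn
  have hnK : ∀ i, |nn i| ≤ K ^ 2 := by
    intro i
    rw [hnn]; simp only
    rw [abs_div, abs_of_pos hs, div_le_iff₀ hs]
    exact (hth i0 i).trans (mul_le_mul_of_nonneg_right hKK hs.le)
  have hn1 : ∃ i, 1 / K ^ 2 ≤ |nn i| := by
    refine ⟨l0, ?_⟩
    rw [hnn]; simp only
    rw [abs_div, abs_of_pos hs, le_div_iff₀ hs]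
    have h1 : 1 / K ^ 2 ≤ 1 / K := one_div_le_one_div_of_le hK0 hKK
    calc 1 / K ^ 2 * s ≤ k * s := mul_le_mul_of_nonneg_right (h1.trans hk) hs.le
      _ ≤ _ := hil.le
  obtain ⟨p, hp⟩ := Wdg296.gen_ball (e := S.e) (c := S.c) (w := S.w) shU.ortho upos
    (e' := S'.e) (c' := S'.c) (w' := S'.w) (q' := S'.q) (z0 := z0) (ρ := ρ) (a' := S'.a) SP' hρ.le
    (T := L t) (fun z h1 h2 => (inU z h1 h2).1) inV (b0 := b0) (b1 := b1) (G := GG) hexp hκ
    (κd := K⁻¹) (β := β) (r := W / H) (t := g) (K := K ^ 2) (ζ := (j : ℝ) / H)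
    (by positivity) (inv_le_one_of_one_le₀ hK) hβ hβ1 hj0 hj1 (hdet _ hj0 hj1) hK2
    (ratio hK shU.ortho shV.ortho dU dV hw2 shU.w0_le shU.w_le shV.w0_le shV.w_le v0.le ang hw1)
    (ratio' hK shU.ortho shV.ortho dU dV hw2 shU.w0_le shU.w_le shV.w0_le shV.w_le u0.le ang hw1)
    (g := ![2 * J.a0, 2 * J.a 1, 2 * J.a 2])
    (fun τ => grad_jet shV.isQ (fr S.e S.w) S.c.v (z0 + ρ * ((j : ℝ) / H))
      ((L t).pos (z0 + ρ * ((j : ℝ) / H))) ρ τ)
    (by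
      change 2 * J.a0 ≠ 0
      exact mul_ne_zero two_ne_zero ha0)
    (by
      intro i hi
      have h2 : |(![2 * J.a0, 2 * J.a 1, 2 * J.a 2] : V3) i| = 2 * |J.a i| := by
        fin_cases i
        · exact absurd rfl hi
        · change |2 * J.a 1| = 2 * |J.a 1|
          rw [abs_mul, abs_two]
        · change |2 * J.a 2| = 2 * |J.a 2|
          rw [abs_mul, abs_two]
      rw [h2]
      change 2 * |J.a i| ≤ K ^ 2 * |2 * J.a0|
      rw [abs_mul, abs_two]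
      have h3 := hak i hi
      have h4 : K * |J.a0| ≤ K ^ 2 * |J.a0| := mul_le_mul_of_nonneg_right hKK (abs_nonneg _)
      linarith)
    (by positivity) hg
    (by
      rw [← hkap']
      exact hnum)
    hnK hn1
  -- the two balls
  refine two_balls (Ball := fun i y => dist (vel S'.e S'.w ρ (L t) (L y) 1,
    vel S'.e S'.w ρ (L t) (L y) 2) (p i) < 4 * β) hm (fun y hy => ?_) ?_
  · obtain ⟨k1, ⟨k2, k3⟩, k4⟩ := hG y hy
    have hGn : ¬ Gn S S'.q z0 ρ H j (L t) (L y) k g s := fun h => k4 (Or.inr h)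
    obtain ⟨_, hrow⟩ := not_Gn.1 hGn
    refine hp (L y) k1 ?_ ?_ ?_
    · change |dt (S'.e 1) ((L y).pos _ - (L t).pos _) / S'.w 1| ≤ W / H
      rw [abs_div, abs_of_pos v1, div_le_iff₀ v1]
      exact k2
    · change |dt (S'.e 2) ((L y).pos _ - (L t).pos _) / S'.w 2| ≤ W / H
      rw [abs_div, abs_of_pos v2, div_le_iff₀ v2]
      exact k3
    · have h1 := hrow i0
      have e1 : nn 0 + nn 1 * vel S.e S.w ρ S.c (L y) 1 + nn 2 * vel S.e S.w ρ S.c (L y) 2 =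
          (∑ j', th (jS S S.q z0 ρ H j (L t)) J i0 j' * vS S ρ (L y) j') / s := by
        rw [hnn]
        simp only [Fin.sum_univ_three, vS, vel, Matrix.cons_val]
        field_simp
      rw [e1, abs_div, abs_of_pos hs, div_le_iff₀ hs]
      exact h1
  · intro i x hx hxi
    refine hball x hx _ (filter_subset _ _) fun y hy => ?_
    obtain ⟨hyG, hyi⟩ := mem_filter.1 hy
    obtain ⟨_, kx, _⟩ := hG x hx
    obtain ⟨_, ky, _⟩ := hG y hyG
    constructor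
    · have := ky.trans kx.symm
      rwa [← two_mul] at this
    · have hd : dist (vel S'.e S'.w ρ (L t) (L y) 1, vel S'.e S'.w ρ (L t) (L y) 2)
          (vel S'.e S'.w ρ (L t) (L x) 1, vel S'.e S'.w ρ (L t) (L x) 2) < 8 * β := by
        have h1 := dist_triangle_right (vel S'.e S'.w ρ (L t) (L y) 1, vel S'.e S'.w ρ (L t) (L y) 2)
          (vel S'.e S'.w ρ (L t) (L x) 1, vel S'.e S'.w ρ (L t) (L x) 2) (p i)
        linarith
      rw [Prod.dist_eq, max_lt_iff, Real.dist_eq, Real.dist_eq] at hd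
      have key : ∀ l, |vel S'.e S'.w ρ (L t) (L y) l - vel S'.e S'.w ρ (L t) (L x) l| < 8 * β →
          |dt (S'.e l) ((L y).v - (L x).v)| * ρ ≤ 8 * β * S'.w l := by
        intro l hl
        have e2 : vel S'.e S'.w ρ (L t) (L y) l - vel S'.e S'.w ρ (L t) (L x) l =
            ρ * dt (S'.e l) ((L y).v - (L x).v) / S'.w l := by
          simp only [vel, dt, Pi.sub_apply]; ring
        rw [e2, abs_div, abs_of_pos (vpos l), div_lt_iff₀ (vpos l), abs_mul, abs_of_pos hρ] at hl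
        linarith
      exact ⟨key 1 hd.1, key 2 hd.2⟩

end Crest.Agent.R136.Gen467
end

-- ▼ part R136/LWd_467

/-!
# R136 (S0187), PLAN 2 (AL), leaf of record `LeafWedge` (helper467)

`wedge_core` : `LeafWedge` from the bound of the Hessian along the sheet (`hDv`) and the slopes at a
point which is not nondegenerate (`hSl`), by `Gen467.wedge_at`.
-/

set_option autoImplicit false

namespace Crest.Agent.R136.Gen467

open Crest.Agent.R136.Sh605
open Crest.Agent.R136.K4 (Plk4)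
open Crest.Agent.R136.Tlt51 (Shp InP)
open Crest.Agent.R136.Deep51 (CloseC)
open Crest.Agent.R136.KapP335 (DetP kapP)
open Crest.Agent.R136.Tl102 (angC)
open Crest.Agent.R136.Pl2W102 (Near)
open Crest.Agent.R136.Pl2 (kp)
open Crest.Agent.R136.Rk601 (th)
open Crest.Agent.R136.AlD601 (Nd Sm Gn jS)
open Crest.Agent.R136.Al500 (Cf Dm Cl2 LeafWedge)

theorem near_mono {W K x y : ℝ} (h : Near W x y) (hx : 0 ≤ x) (hy : 0 ≤ y) (hK : W ≤ K) :
    Near K x y :=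
  ⟨h.1.trans (mul_le_mul_of_nonneg_right hK hy), h.2.trans (mul_le_mul_of_nonneg_right hK hx)⟩

/-- `C x^n ≤ (C x)^C` -/
theorem pow_le_rpow {C x : ℝ} (hC : 1 ≤ C) (hx : 1 ≤ x) (n : ℕ) (hn : (n : ℝ) ≤ C) :
    C * x ^ n ≤ (C * x) ^ C := by
  have hC0 : 0 ≤ C := by linarith
  have hx0 : 0 ≤ x := by linarith
  rw [Real.mul_rpow hC0 hx0]
  have h1 : C ≤ C ^ C := by
    conv_lhs => rw [← Real.rpow_one C]
    exact Real.rpow_le_rpow_of_exponent_le hC hC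
  have h2 : x ^ n ≤ x ^ C := by
    rw [← Real.rpow_natCast x n]
    exact Real.rpow_le_rpow_of_exponent_le hx hn
  exact mul_le_mul h1 h2 (by positivity) (by positivity)

/-- the number condition of `wedge_at` -/
theorem num_wedge {K1 B k l g β h C X : ℝ} (hK1 : 1 ≤ K1) (hB : 1 ≤ B) (hk : 0 < k) (hk1 : k ≤ 1)
    (hl : 0 ≤ l) (hg : 0 ≤ g) (hh : 0 ≤ h) (hβ : 0 < β) (hβ1 : β ≤ 1)
    (hC : 2 * 10 ^ 25 * K1 ^ 17 + 19 ≤ C) (hX : X ≤ 3 * B ^ 2 * h)
    (hn : (C * B / k) ^ C * (l + g + h) ≤ β ^ C) :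
    2 * 10 ^ 12 * ((K1 * (B / k)) ^ 2) ^ 7 * X + 10 ^ 5 * ((K1 * (B / k)) ^ 2) ^ 4 * g ≤
      ((K1 * (B / k))⁻¹ * (β / 8) ^ 2 / 216) ^ 3 := by
  set x := B / k with hx
  have hx1 : 1 ≤ x := by rw [hx, le_div_iff₀ hk]; linarith
  have hx0 : 0 < x := by linarith
  have hBx : B ≤ x := by
    rw [hx, le_div_iff₀ hk]; nlinarith
  have hK10 : 0 < K1 := by linarith
  have hK17 : 1 ≤ K1 ^ 17 := one_le_pow₀ hK1
  have hC1 : 1 ≤ C := by nlinarith
  have hC19 : ((19 : ℕ) : ℝ) ≤ C := by push_cast; nlinarith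
  have h1 := pow_le_rpow hC1 hx1 19 hC19
  have e1 : C * B / k = C * x := by rw [hx]; ring
  rw [e1] at hn
  have h2 : β ^ C ≤ β ^ 6 := by
    rw [← Real.rpow_natCast β 6]
    exact Real.rpow_le_rpow_of_exponent_ge hβ hβ1 (by push_cast; nlinarith)
  have hs : 0 ≤ l + g + h := by linarith
  have h3 : 2 * 10 ^ 25 * K1 ^ 17 * x ^ 19 * (l + g + h) ≤ β ^ 6 := by
    have h4 : 2 * 10 ^ 25 * K1 ^ 17 * x ^ 19 ≤ C * x ^ 19 :=
      mul_le_mul_of_nonneg_right (by linarith) (by positivity)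
    exact (mul_le_mul_of_nonneg_right (h4.trans h1) hs).trans (hn.trans h2)
  have h5 : 2 * 10 ^ 25 * K1 ^ 17 * x ^ 19 * (g + h) ≤ β ^ 6 := by
    refine le_trans ?_ h3
    exact mul_le_mul_of_nonneg_left (by linarith) (by positivity)
  -- left side
  have hX2 : X ≤ 3 * x ^ 2 * h := by
    refine hX.trans ?_
    have : B ^ 2 ≤ x ^ 2 := pow_le_pow_left₀ (by linarith) hBx 2
    nlinarith
  have e2 : ((K1 * x)⁻¹ * (β / 8) ^ 2 / 216) ^ 3 = β ^ 6 / (13824 ^ 3 * K1 ^ 3 * x ^ 3) := by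
    field_simp
    norm_num
  rw [e2, le_div_iff₀ (by positivity)]
  refine le_trans ?_ h5
  have e3 : 2 * 10 ^ 12 * ((K1 * x) ^ 2) ^ 7 * X * (13824 ^ 3 * K1 ^ 3 * x ^ 3) =
      2 * 10 ^ 12 * 13824 ^ 3 * K1 ^ 17 * x ^ 17 * X := by ring
  have e4 : 10 ^ 5 * ((K1 * x) ^ 2) ^ 4 * g * (13824 ^ 3 * K1 ^ 3 * x ^ 3) =
      10 ^ 5 * 13824 ^ 3 * K1 ^ 11 * x ^ 11 * g := by ring
  rw [add_mul, e3, e4]
  have h6 : 2 * 10 ^ 12 * 13824 ^ 3 * K1 ^ 17 * x ^ 17 * X ≤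
      2 * 10 ^ 12 * 13824 ^ 3 * K1 ^ 17 * x ^ 17 * (3 * x ^ 2 * h) :=
    mul_le_mul_of_nonneg_left hX2 (by positivity)
  have h7 : 2 * 10 ^ 12 * 13824 ^ 3 * K1 ^ 17 * x ^ 17 * (3 * x ^ 2 * h) =
      6 * 10 ^ 12 * 13824 ^ 3 * (K1 ^ 17 * x ^ 19 * h) := by ring
  have h8 : (10 : ℝ) ^ 5 * 13824 ^ 3 * K1 ^ 11 * x ^ 11 * g ≤
      10 ^ 5 * 13824 ^ 3 * (K1 ^ 17 * x ^ 19 * g) := by
    have a1 : K1 ^ 11 ≤ K1 ^ 17 := pow_le_pow_right₀ hK1 (by norm_num)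
    have a2 : x ^ 11 ≤ x ^ 19 := pow_le_pow_right₀ hx1 (by norm_num)
    have a3 : K1 ^ 11 * x ^ 11 ≤ K1 ^ 17 * x ^ 19 := mul_le_mul a1 a2 (by positivity) (by positivity)
    have a4 := mul_le_mul_of_nonneg_right a3 hg
    nlinarith
  have p1 : 0 ≤ K1 ^ 17 * x ^ 19 * g := by positivity
  have p2 : 0 ≤ K1 ^ 17 * x ^ 19 * h := by positivity
  have e5 : 2 * 10 ^ 25 * K1 ^ 17 * x ^ 19 * (g + h) =
      2 * 10 ^ 25 * (K1 ^ 17 * x ^ 19 * g) + 2 * 10 ^ 25 * (K1 ^ 17 * x ^ 19 * h) := by ring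
  rw [e5]
  nlinarith

set_option maxHeartbeats 2000000 in
/-- **`LeafWedge`** over the two pointwise facts -/
theorem wedge_core {K0 : ℝ}
    (hDv : ∀ (S : Plk4) (q' : ℝ → V3 → ℝ) (T : Ln4) (z0 ρ r s : ℝ) (H j : ℕ), 0 < r → 0 < ρ →
      Shp S z0 ρ r → InP T S z0 ρ → 10 ^ 6 * S.a ≤ kapP S z0 ρ T → IsQ q' →
      CloseC S.e S.w S.q S.a q' s T z0 ρ → j < H →
      ∀ i j', |th (jS S S.q z0 ρ H j T) (jS S q' z0 ρ H j T) i j'| ≤ K0 * s)
    (hSl : ∀ (S S' : Plk4) (T : Ln4) (z0 ρ r l m s : ℝ) (H j : ℕ), 0 < r → 0 < ρ →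
      Shp S z0 ρ r → Shp S' z0 ρ r → InP T S z0 ρ → InP T S' z0 ρ → j < H →
      ¬ Nd S S'.q z0 ρ H j T l m s → l * s ≤ S.w 0 / 64 →
      S.w 0 / 32 ≤ |(jS S S'.q z0 ρ H j T).a0| ∧
        ∀ k, k ≠ 0 → |(jS S S'.q z0 ρ H j T).a k| ≤ 16 * |(jS S S'.q z0 ρ H j T).a0|) :
    LeafWedge := by
  set K1 : ℝ := 16 + 2 * |K0| with hK1
  have hK1' : 16 ≤ K1 := by have := abs_nonneg K0; linarith
  have hK11 : 1 ≤ K1 := by linarith
  refine ⟨2 * 10 ^ 25 * K1 ^ 17 + 19, ?_, ?_⟩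
  · have : 0 ≤ K1 ^ 17 := by positivity
    nlinarith
  intro qm qp L P cu cv Uf Vf W B M a w1 w2 z0 ρ zL ρL r κ E H hc _ hCH l m k g β hl hm hk hk1 hg
    hβ hβ1 hn t ht j hj
  set C : ℝ := 2 * 10 ^ 25 * K1 ^ 17 + 19 with hC
  have hK17 : 1 ≤ K1 ^ 17 := one_le_pow₀ hK11
  have hC1 : 1 ≤ C := by rw [hC]; nlinarith
  have hCbig : 2 * 10 ^ 25 ≤ C := by rw [hC]; nlinarith
  have h2 := hc.two.to1
  have hW1 := hc.W1
  have hB1 : 1 ≤ B := hW1.trans hc.WB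
  have hB0 : 0 < B := by linarith
  have hE0 : 0 < E := by have := hc.E1; linarith
  have ha0 := h2.a0
  have hs : 0 < E * a := mul_pos hE0 ha0
  have hH0 : (0 : ℝ) < H := by have := hc.E1; have := hc.EH; linarith
  have hH : 1 ≤ H := by
    have : 0 < H := by exact_mod_cast hH0
    exact this
  have hr0 := h2.r0
  have hρ := h2.ρ0
  have shU := h2.shU t ht
  have shV := h2.shV t ht
  have inU := h2.inU t ht
  have inV := h2.inV t ht
  have hx1 : 1 ≤ B / k := by rw [le_div_iff₀ hk]; linarith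
  have hBx : B ≤ B / k := by rw [le_div_iff₀ hk]; nlinarith
  set K := K1 * (B / k) with hKdef
  have hBK : B ≤ K := hBx.trans (le_mul_of_one_le_left (by linarith) hK11)
  have hWK : W ≤ K := hc.WB.trans hBK
  have hK1K : K1 ≤ K := le_mul_of_one_le_right (by linarith) hx1
  have hKK : 1 ≤ K := hK11.trans hK1K
  have hK0 : 0 < K := by linarith
  -- `H` is large
  have hHbig : 2 * 10 ^ 25 * B ^ 2 ≤ H := by
    have h3 := pow_le_rpow hC1 hB1 2 (by push_cast; linarith)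
    have h4 : 2 * 10 ^ 25 * B ^ 2 ≤ C * B ^ 2 := mul_le_mul_of_nonneg_right hCbig (by positivity)
    exact (h4.trans h3).trans hCH
  -- `l` is small
  have hlsm : 2 * 10 ^ 25 * B * l ≤ 1 := by
    have h3 := pow_le_rpow hC1 hx1 1 (by push_cast; linarith)
    have e1 : C * B / k = C * (B / k) := by ring
    have h4 : β ^ C ≤ 1 := Real.rpow_le_one hβ.le hβ1 (by linarith)
    rw [e1] at hn
    have h5 : C * (B / k) ^ 1 * l ≤ 1 := by
      have h6 : l ≤ l + g + 1 / H := by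
        have : (0 : ℝ) ≤ 1 / H := by positivity
        linarith
      calc C * (B / k) ^ 1 * l ≤ (C * (B / k)) ^ C * (l + g + 1 / H) :=
            mul_le_mul h3 h6 hl.le (by positivity)
        _ ≤ 1 := hn.trans h4
    have h7 : 2 * 10 ^ 25 * B * l ≤ C * (B / k) ^ 1 * l := by
      rw [pow_one]
      exact mul_le_mul_of_nonneg_right (mul_le_mul hCbig hBx hB0.le (by linarith)) hl.le
    exact h7.trans h5
  have kpU : kapP (Uf (cu t)) z0 ρ (L t) ≤ 13 * (Uf (cu t)).w 0 :=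
    Hcp208.kapP_le hr0 hρ.le shU inU
  have kEU : E * a ≤ W * kapP (Uf (cu t)) z0 ρ (L t) := hc.kE t ht
  have kEV : E * a ≤ W * kapP (Vf (cv t)) z0 ρ (L t) := hc.kE' t ht
  have hw0U : 0 < (Uf (cu t)).w 0 := hr0.trans_le (shU.r0_le.trans shU.a_le0)
  have haU : 0 < (Uf (cu t)).a := hr0.trans_le shU.r0_le
  have haV : 0 < (Vf (cv t)).a := hr0.trans_le shV.r0_le
  have hkapV : 0 < kapP (Vf (cv t)) z0 ρ (L t) := by
    by_contra h
    push Not at h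
    have : W * kapP (Vf (cv t)) z0 ρ (L t) ≤ 0 :=
      mul_nonpos_of_nonneg_of_nonpos (by linarith) h
    linarith
  have hkapU : 0 < kapP (Uf (cu t)) z0 ρ (L t) := by
    by_contra h
    push Not at h
    have : W * kapP (Uf (cu t)) z0 ρ (L t) ≤ 0 :=
      mul_nonpos_of_nonneg_of_nonpos (by linarith) h
    linarith
  obtain ⟨dU1, dU2, dU3⟩ := hc.dmU t ht
  obtain ⟨dV1, dV2, dV3⟩ := hc.dmV t ht
  have hEH2 := hc.HE
  -- `10^6 a ≤ kap U`
  have hk6 : 10 ^ 6 * (Uf (cu t)).a ≤ kapP (Uf (cu t)) z0 ρ (L t) := by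
    have a1 : (Uf (cu t)).a ≤ W * a := dU1.2
    have a2 : 2 * 10 ^ 6 * W ^ 2 ≤ H := by
      have : W ^ 2 ≤ B ^ 2 := pow_le_pow_left₀ (by linarith) hc.WB 2
      nlinarith
    have a3 : W * (10 ^ 6 * (Uf (cu t)).a) ≤ W * kapP (Uf (cu t)) z0 ρ (L t) := by
      calc W * (10 ^ 6 * (Uf (cu t)).a) ≤ W * (10 ^ 6 * (W * a)) := by gcongr
        _ = 10 ^ 6 * W ^ 2 * a := by ring
        _ ≤ E * a := mul_le_mul_of_nonneg_right (by linarith) ha0.le
        _ ≤ _ := kEU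
    exact le_of_mul_le_mul_left a3 (by linarith)
  have hβ8 : 8 * (β / 8) = β := by ring
  rw [← hβ8]
  refine wedge_at (K := K) (a := a) (w1 := w1) (w2 := w2) (r := r) (k := k) (g := g) (s := E * a)
    (Nd1 := fun p => Nd (Uf (cu p.1)) (Vf (cv p.1)).q z0 ρ H p.2 (L p.1) l m (E * a))
    hH hj hKK hB0.le hρ hr0 h2.w10.le h2.w20.le shU shV inU inV
    ⟨near_mono dU1 ha0.le haU.le hWK, near_mono dU2 h2.w10.le ?_ hWK,
      near_mono dU3 h2.w20.le ?_ hWK⟩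
    ⟨near_mono dV1 ha0.le haV.le hWK, near_mono dV2 h2.w10.le ?_ hWK,
      near_mono dV3 h2.w20.le ?_ hWK⟩
    ((hc.ang t ht).trans (mul_le_mul_of_nonneg_right hWK h2.w20.le)) hkapV
    ((hc.detV t ht).mono (inv_anti₀ (by linarith) hWK)) (by positivity) (by linarith) hs ?_ hg.le
    ?_ ?_ ?_
  · have := (shU.a_le0.trans shU.w0_le).trans shU.w_le
    linarith
  · have := shU.a_le0.trans shU.w0_le
    linarith
  · have := (shV.a_le0.trans shV.w0_le).trans shV.w_le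
    linarith
  · have := shV.a_le0.trans shV.w0_le
    linarith
  · rw [div_le_iff₀ hK0, hKdef]
    have : k * (K1 * (B / k)) = K1 * B := by field_simp
    rw [this]
    nlinarith
  · intro hNd
    have hls : l * (E * a) ≤ (Uf (cu t)).w 0 / 64 := by
      have b1 : E * a ≤ W * (13 * (Uf (cu t)).w 0) :=
        kEU.trans (mul_le_mul_of_nonneg_left kpU (by linarith))
      have b2 : l * (E * a) ≤ l * (W * (13 * (Uf (cu t)).w 0)) := mul_le_mul_of_nonneg_left b1 hl.le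
      have b3 : l * (W * (13 * (Uf (cu t)).w 0)) ≤ l * (B * (13 * (Uf (cu t)).w 0)) := by
        have := hc.WB
        gcongr
      have b4 : l * (B * (13 * (Uf (cu t)).w 0)) = 13 * (B * l) * (Uf (cu t)).w 0 := by ring
      have b5 : 13 * (B * l) ≤ 1 / 64 := by nlinarith
      have b6 : 13 * (B * l) * (Uf (cu t)).w 0 ≤ 1 / 64 * (Uf (cu t)).w 0 :=
        mul_le_mul_of_nonneg_right b5 hw0U.le
      linarith
    obtain ⟨c1, c2⟩ := hSl _ _ _ z0 ρ r l m (E * a) H j hr0 hρ shU shV inU inV hj hNd hls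
    refine ⟨?_, fun i hi => (c2 i hi).trans ?_⟩
    · intro h0
      rw [h0, abs_zero] at c1
      linarith
    · exact mul_le_mul_of_nonneg_right (by linarith) (abs_nonneg _)
  · intro _ i j'
    have c1 := hDv (Uf (cu t)) (Vf (cv t)).q (L t) z0 ρ r (2 * E * a) H j hr0 hρ shU inU hk6
      shV.isQ (hc.up t ht).1 hj i j'
    refine c1.trans ?_
    have c2 : K0 * (2 * E * a) ≤ |K0| * (2 * E * a) :=
      mul_le_mul_of_nonneg_right (le_abs_self _) (by positivity)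
    have c3 : |K0| * (2 * E * a) = 2 * |K0| * (E * a) := by ring
    have c4 : 2 * |K0| * (E * a) ≤ K * (E * a) :=
      mul_le_mul_of_nonneg_right (by linarith) hs.le
    linarith
  · have hX : B / H + (Vf (cv t)).a / kapP (Vf (cv t)) z0 ρ (L t) ≤ 3 * B ^ 2 * (1 / H) := by
      have c1 : (Vf (cv t)).a / kapP (Vf (cv t)) z0 ρ (L t) ≤ 2 * B ^ 2 * (1 / H) := by
        rw [div_le_iff₀ hkapV]
        have c2 : (Vf (cv t)).a ≤ W * a := dV1.2
        have c3 : H * (Vf (cv t)).a ≤ 2 * B ^ 2 * kapP (Vf (cv t)) z0 ρ (L t) := by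
          calc H * (Vf (cv t)).a ≤ (2 * E) * (W * a) := mul_le_mul hEH2 c2 haV.le (by positivity)
            _ = 2 * W * (E * a) := by ring
            _ ≤ 2 * W * (W * kapP (Vf (cv t)) z0 ρ (L t)) :=
                mul_le_mul_of_nonneg_left kEV (by positivity)
            _ = 2 * W ^ 2 * kapP (Vf (cv t)) z0 ρ (L t) := by ring
            _ ≤ 2 * B ^ 2 * kapP (Vf (cv t)) z0 ρ (L t) := by
                have : W ^ 2 ≤ B ^ 2 := pow_le_pow_left₀ (by linarith) hc.WB 2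
                gcongr
        have c4 : 2 * B ^ 2 * (1 / H) * kapP (Vf (cv t)) z0 ρ (L t) =
            2 * B ^ 2 * kapP (Vf (cv t)) z0 ρ (L t) / H := by ring
        rw [c4, le_div_iff₀ hH0]
        linarith
      have c5 : B / H ≤ B ^ 2 * (1 / H) := by
        have : B / H = B * (1 / H) := by ring
        rw [this]
        have : (0 : ℝ) ≤ 1 / H := by positivity
        exact mul_le_mul_of_nonneg_right (by nlinarith) this
      linarith
    exact num_wedge hK11 hB1 hk hk1 hl.le hg.le (by positivity) hβ hβ1 le_rfl hX hn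

end Crest.Agent.R136.Gen467
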