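import Crest.Agent.R136.Hl4_706
import Crest.Agent.R136.Pl2B_860

-- ▼ part R136/Mlt2_89

/-!
# R136 (S0187), PLAN 2, leaf (B4), (H1) GRADIENT: the rotation of the normal of a sheet of type I in
the hull frame (helper89)

`cv S.e S.w b` = covector of the gradient with plank coordinates `b`.
`rot_FH` : `rot2 ≥ 1 / W` ⊢ `kp S ≤ 8 W |n0 ∧ n1 (f 0, f 2)| w2`.
-/

set_option autoImplicit false
set_option linter.unusedVariables false

namespace Crest.Agent.R136.Mlt89

open Crest.Agent.R136.Sh605 Crest.Agent.R136.Fl808 Crest.Agent.R136.Hl706 Crest.Agent.R136.Pl2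
open Crest.Agent.R136.K4 (Plk4)
open Crest.Agent.R136.Tlt51 (Shp InP)
open Crest.Agent.R136.KapP335 (kapP expP DetP expP_spec)
open Crest.Agent.R136.Tl102 (NrmC IsExp StP shB1 kap scB1 QF)

/-- covector of the gradient with plank coordinates `b` -/
noncomputable def cv (e : Fin 3 → V3) (w b : V3) : V3 :=
  ∑ k, (w 0 / w k * b k) • e k

theorem dt_cv (e : Fin 3 → V3) (w b x : V3) : dt x (cv e w b) =
    w 0 / w 0 * b 0 * dt x (e 0) + w 0 / w 1 * b 1 * dt x (e 1) + w 0 / w 2 * b 2 * dt x (e 2) := by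
  simp only [cv, Fin.sum_univ_three, dt_add, dt_smul]

theorem dt_cv0 {e : Fin 3 → V3} (he : Ortho e) {w b : V3} (hw : w 0 ≠ 0) :
    dt (e 0) (cv e w b) = b 0 := by
  rw [dt_cv, he 0 0, he 0 1, he 0 2]; simp [hw]

theorem dt_cv1 {e : Fin 3 → V3} (he : Ortho e) {w b : V3} :
    dt (e 1) (cv e w b) = w 0 / w 1 * b 1 := by
  rw [dt_cv, he 1 0, he 1 1, he 1 2]; simp

theorem dt_cv2 {e : Fin 3 → V3} (he : Ortho e) {w b : V3} :
    dt (e 2) (cv e w b) = w 0 / w 2 * b 2 := by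
  rw [dt_cv, he 2 0, he 2 1, he 2 2]; simp









end Crest.Agent.R136.Mlt89
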