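import Crest.Agent.R136.Sh3_605
import Crest.Agent.R136.Sh6_605
import Crest.Agent.R136.Cap1_102
import Crest.Agent.R136.Fl1_808

-- ▼ part R136/Sh7_605
section

/-!
# R136 (S0187): local expansion of a sheet of class C* around a line (helper605)
-/

set_option autoImplicit false
set_option linter.unusedVariables false

namespace Crest.Agent.R136.Sh605

open Finset








/-- local expansion of `q` around the line `y`, base height `zm`, in the frame `e` -/
structure Loc (q : ℝ → V3 → ℝ) (e : Fin 3 → V3) (y : Ln4) (zm : ℝ) (g h : V3)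
    (H : Fin 3 → Fin 3 → ℝ) : Prop where
  sym : ∀ i j, H i j = H j i
  exp : ∀ (z : ℝ) (u : V3), q z (y.pos z + u) - q z (y.pos z) =
    (∑ i, (g i + (z - zm) * h i) * dt (e i) u) + ∑ i, ∑ j, H i j * (dt (e i) u * dt (e j) u)






end Crest.Agent.R136.Sh605
namespace Crest.Agent.R136.Sh605.Loc
end Crest.Agent.R136.Sh605.Loc
end

-- ▼ part R136/Sh8_605
section

/-!
# R136 (S0187): test sheets of a sheet of class C* (helper605)
-/

set_option autoImplicit false
set_option linter.unusedVariables false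

namespace Crest.Agent.R136.Sh605

open Finset

/-- frame adapted to a gradient `(G0, G1, G2)` (coordinates in the frame `e`): `f 0` = direction of
the gradient, `f 1` = tangent vector in the plane of `e 0, e 1`. -/
noncomputable def adF (e : Fin 3 → V3) (G0 G1 G2 m m1 : ℝ) : Fin 3 → V3 :=
  ![(1 / m) • (G0 • e 0 + G1 • e 1 + G2 • e 2), (1 / m1) • ((-G1) • e 0 + G0 • e 1),
    (1 / (m * m1)) • ((-(G0 * G2)) • e 0 + (-(G1 * G2)) • e 1 + (m1 ^ 2) • e 2)]

section

variable {e : Fin 3 → V3} {G0 G1 G2 m m1 : ℝ}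

theorem adF_zero (u : V3) : dt (adF e G0 G1 G2 m m1 0) u =
    (1 / m) * (G0 * dt (e 0) u + G1 * dt (e 1) u + G2 * dt (e 2) u) := by
  change dt ((1 / m) • (G0 • e 0 + G1 • e 1 + G2 • e 2)) u = _
  simp only [smul_dt, add_dt]

theorem adF_one (u : V3) : dt (adF e G0 G1 G2 m m1 1) u =
    (1 / m1) * (-G1 * dt (e 0) u + G0 * dt (e 1) u) := by
  change dt ((1 / m1) • ((-G1) • e 0 + G0 • e 1)) u = _
  simp only [smul_dt, add_dt]

theorem adF_two (u : V3) : dt (adF e G0 G1 G2 m m1 2) u =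
    (1 / (m * m1)) * (-(G0 * G2) * dt (e 0) u + -(G1 * G2) * dt (e 1) u +
      m1 ^ 2 * dt (e 2) u) := by
  change dt ((1 / (m * m1)) • ((-(G0 * G2)) • e 0 + (-(G1 * G2)) • e 1 + (m1 ^ 2) • e 2)) u = _
  simp only [smul_dt, add_dt]

/-- coordinates of the adapted frame in the frame `e` -/
theorem dt_adF (he : Ortho e) (i : Fin 3) :
    dt (e i) (adF e G0 G1 G2 m m1 0) = (1 / m) * (![G0, G1, G2] i) ∧
    dt (e i) (adF e G0 G1 G2 m m1 1) = (1 / m1) * (![-G1, G0, 0] i) ∧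
    dt (e i) (adF e G0 G1 G2 m m1 2) = (1 / (m * m1)) * (![-(G0 * G2), -(G1 * G2), m1 ^ 2] i) := by
  have h0 := he 0 i
  have h1 := he 1 i
  have h2 := he 2 i
  rw [dt_comm (e i), dt_comm (e i), dt_comm (e i), adF_zero, adF_one, adF_two, h0, h1, h2]
  fin_cases i <;> simp


end



end Crest.Agent.R136.Sh605
end

-- ▼ part R136/Mdr1_535

/-!
# R136 (S0187), U5 TILT, `Mid`: a small part of a sheet of small curvature extent is a plank
(helper535)

* `y_bound` : distance of the points of the sheet near the line `T` from the tangent plane at `T`.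
* `pf` : frame of the plank (normal = gradient of the sheet at the beginning of the line `T`).
* `plank_of_small` : the lines of the sheet which are close to `T` over a short cell lie in a plank.
-/

set_option autoImplicit false
set_option linter.unusedVariables false

namespace Crest.Agent.R136.Mdr535

open Crest.Agent.R136.Sh605 Crest.Agent.R136.Tl102
open Crest.Agent.R136.Fl808 (InB)

variable {e : Fin 3 → V3} {c T t : Ln4} {w : V3} {q : ℝ → V3 → ℝ} {a z0 ρ : ℝ} {b0 b1 : V3}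
  {G : QF}

/-- lateral components of the gradient -/
noncomputable def gr (b0 w : V3) (k : Fin 3) : ℝ := b0 k / b0 0 * (w 0 / w k)

/-- distance (vertical) from the tangent plane -/
noncomputable def ty (e : Fin 3 → V3) (w b0 d : V3) : ℝ :=
  dt (e 0) d + gr b0 w 1 * dt (e 1) d + gr b0 w 2 * dt (e 2) d

/-- the unsheared function is at most `3 μ kap` on the tangent plane -/
theorem Fq_flat {μ ζ u v : ℝ} (hζ : 0 ≤ ζ) (hζ' : ζ ≤ 1) (hμ : 4 * μ ≤ 1) (hu : |u| ≤ μ)
    (hv : |v| ≤ μ) :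
    |Fq (shB0 b0) (shB1 b0 b1) (shG b0 G) ζ ![0, u, v]| ≤ 3 * μ * kap b0 b1 G := by
  have k1 : |shB1 b0 b1 1| ≤ kap b0 b1 G := (le_max_left _ _).trans (le_max_left _ _)
  have k2 : |shB1 b0 b1 2| ≤ kap b0 b1 G := (le_max_right _ _).trans (le_max_left _ _)
  have k3 : |(shG b0 G).uu| ≤ kap b0 b1 G :=
    (le_max_left _ _).trans ((le_max_left _ _).trans (le_max_right _ _))
  have k4 : |(shG b0 G).uv| ≤ kap b0 b1 G :=
    (le_max_right _ _).trans ((le_max_left _ _).trans (le_max_right _ _))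
  have k5 : |(shG b0 G).vv| ≤ kap b0 b1 G := (le_max_right _ _).trans (le_max_right _ _)
  have hκ := kap_nonneg b0 b1 G
  generalize kap b0 b1 G = κ at *
  have e1 : Fq (shB0 b0) (shB1 b0 b1) (shG b0 G) ζ ![0, u, v] =
      ζ * (shB1 b0 b1 1 * u) + ζ * (shB1 b0 b1 2 * v) + (shG b0 G).uu * (u * u) +
        (shG b0 G).uv * (u * v) + (shG b0 G).vv * (v * v) := by
    simp only [Fq, dt, bz, QF.ev, shB0, Matrix.cons_val]
    ring
  rw [e1]
  have hμ0 : 0 ≤ μ := (abs_nonneg _).trans hu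
  have z1 : |ζ| ≤ 1 := by rw [abs_of_nonneg hζ]; exact hζ'
  have m1 := mul_abs_le z1 (mul_abs_le k1 hu)
  have m2 := mul_abs_le z1 (mul_abs_le k2 hv)
  have m3 := mul_abs_le k3 (mul_abs_le hu hu)
  have m4 := mul_abs_le k4 (mul_abs_le hu hv)
  have m5 := mul_abs_le k5 (mul_abs_le hv hv)
  have m6 : κ * (μ * μ) ≤ κ * (μ * (1 / 4)) := by gcongr; linarith
  have m7 : 0 ≤ κ * μ := mul_nonneg hκ hμ0
  refine (abs_add_le _ _).trans ((add_le_add ((abs_add_le _ _).trans (add_le_add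
    ((abs_add_le _ _).trans (add_le_add ((abs_add_le _ _).trans (add_le_add m1 m2)) m3)) m4)) m5).trans ?_)
  linarith

/-- decomposition of a point of the box: vertical step from the tangent plane -/
theorem pt_decomp (he : Ortho e) (hw : ∀ i, 0 < w i) (P x : V3) :
    x = (P + cmb (fr e w) (unsh b0 0 (dt (e 1) (x - P) / w 1) (dt (e 2) (x - P) / w 2))) +
      ty e w b0 (x - P) • e 0 := by
  funext i
  have h := he.expand (x - P) i
  have hw1 := (hw 1).ne'
  have hw2 := (hw 2).ne'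
  simp only [Pi.add_apply, Pi.smul_apply, smul_eq_mul, cmb, fr, unsh, ty, gr, Matrix.cons_val]
  rw [Pi.sub_apply] at h
  have h' : x i = P i + (dt (e 0) (x - P) * e 0 i + dt (e 1) (x - P) * e 1 i +
      dt (e 2) (x - P) * e 2 i) := by linarith
  rw [h']
  field_simp
  ring

/-- **distance of the points of the sheet from the tangent plane** -/
theorem y_bound (S : StP e c w q z0 ρ) (hE : IsExp q e w T z0 ρ b0 b1 G) (N : NrmC b0 b1 G)
    (hρ : 0 ≤ ρ) {ζ μ : ℝ} (hζ : 0 ≤ ζ) (hζ' : ζ ≤ 1) (hμ : 4 * μ ≤ 1) {x : V3}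
    (hT : InK e c w (z0 + ρ * ζ) (T.pos (z0 + ρ * ζ)))
    (hx : InK e c w (z0 + ρ * ζ) x)
    (hTa : |q (z0 + ρ * ζ) (T.pos (z0 + ρ * ζ))| ≤ a) (hxa : |q (z0 + ρ * ζ) x| ≤ a)
    (h1 : |dt (e 1) (x - T.pos (z0 + ρ * ζ))| ≤ μ * w 1)
    (h2 : |dt (e 2) (x - T.pos (z0 + ρ * ζ))| ≤ μ * w 2) :
    |ty e w b0 (x - T.pos (z0 + ρ * ζ))| ≤ 4 * a + 6 * μ * (w 0 * kap b0 b1 G) := by
  have hw := S.pos
  have hw' : ∀ i, 0 ≤ w i := fun i => (hw i).le
  have hz1 : z0 ≤ z0 + ρ * ζ := by nlinarith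
  have hz2 : z0 + ρ * ζ ≤ z0 + ρ := by nlinarith
  obtain ⟨g1, g2, -, -, -, -, -, s1, s2⟩ := N.b1_le
  have hb0 : b0 0 ≠ 0 := by linarith
  set u := dt (e 1) (x - T.pos (z0 + ρ * ζ)) / w 1 with hu
  set v := dt (e 2) (x - T.pos (z0 + ρ * ζ)) / w 2 with hv
  have hu' : |u| ≤ μ := by
    rw [hu, abs_div, abs_of_pos (hw 1), div_le_iff₀ (hw 1)]; exact h1
  have hv' : |v| ≤ μ := by
    rw [hv, abs_div, abs_of_pos (hw 2), div_le_iff₀ (hw 2)]; exact h2
  have hμ0 : 0 ≤ μ := (abs_nonneg _).trans hu'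
  have hdec := pt_decomp (b0 := b0) S.ortho hw (T.pos (z0 + ρ * ζ)) x
  rw [← hu, ← hv] at hdec
  set τ := ty e w b0 (x - T.pos (z0 + ρ * ζ)) with hτ
  set P' := T.pos (z0 + ρ * ζ) + cmb (fr e w) (unsh b0 0 u v) with hP'
  -- `P'` is in the doubled box
  have hPin : InK e c (dbl3 w) (z0 + ρ * ζ) P' := by
    refine inK_cmb S.ortho hw' hT fun i => ?_
    fin_cases i
    · change |0 - b0 1 / b0 0 * u - b0 2 / b0 0 * v| ≤ 1
      have m1 := mul_abs_le s1 hu'
      have m2 := mul_abs_le s2 hv'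
      rw [zero_sub]
      refine (abs_sub _ _).trans ?_
      rw [abs_neg]
      linarith
    · change |u| ≤ 1
      linarith
    · change |v| ≤ 1
      linarith
  have hxin : InK e c (dbl3 w) (z0 + ρ * ζ) x := by
    intro i
    have := hx i
    change _ ≤ 2 * w i
    have := hw' i
    linarith
  -- value at `P'`
  have hval : q (z0 + ρ * ζ) P' = q (z0 + ρ * ζ) (T.pos (z0 + ρ * ζ)) +
      w 0 * Fq (shB0 b0) (shB1 b0 b1) (shG b0 G) ζ ![0, u, v] := by
    rw [hP', hE, Fq_unsh hb0]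
  have hfl := Fq_flat (b0 := b0) (b1 := b1) (G := G) hζ hζ' hμ hu' hv'
  have hP'a : |q (z0 + ρ * ζ) P'| ≤ a + w 0 * (3 * μ * kap b0 b1 G) := by
    rw [hval]
    refine (abs_add_le _ _).trans (add_le_add hTa ?_)
    rw [abs_mul, abs_of_pos (hw 0)]
    exact mul_le_mul_of_nonneg_left hfl (hw' 0)
  have hdiff : |q (z0 + ρ * ζ) x - q (z0 + ρ * ζ) P'| ≤ 2 * a + w 0 * (3 * μ * kap b0 b1 G) :=
    (abs_sub _ _).trans (by linarith)
  have hst : |τ| / 2 ≤ |q (z0 + ρ * ζ) x - q (z0 + ρ * ζ) P'| := by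
    rcases le_total 0 τ with h | h
    · have h3 := (S.st0 _ hz1 hz2 P' τ h hPin (by rw [← hdec]; exact hxin)).1
      rw [← hdec] at h3
      rw [abs_of_nonneg h]
      exact h3.trans (le_abs_self _)
    · have e2 : P' = x + (-τ) • e 0 := by
        rw [hdec]; module
      have h3 := (S.st0 _ hz1 hz2 x (-τ) (by linarith) hxin (by rw [← e2]; exact hPin)).1
      rw [← e2] at h3
      rw [abs_of_nonpos h, abs_sub_comm]
      exact h3.trans (le_abs_self _)
  have : |τ| ≤ 2 * (2 * a + w 0 * (3 * μ * kap b0 b1 G)) := by linarith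
  refine this.trans (le_of_eq ?_)
  ring

/-! ### the frame of the plank -/

/-- canonical form of the constant part `b0` of the expansion -/
noncomputable def cb0 (q : ℝ → V3 → ℝ) (e : Fin 3 → V3) (w : V3) (T : Ln4) (z0 : ℝ) : V3 :=
  fun k => (q z0 (T.pos z0 + w k • e k) - q z0 (T.pos z0 - w k • e k)) / (2 * w 0)

theorem cb0_eq (hE : IsExp q e w T z0 ρ b0 b1 G) (hw0 : w 0 ≠ 0) : cb0 q e w T z0 = b0 := by
  funext k
  have h := fun x => hE 0 x
  simp only [mul_zero, add_zero] at h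
  have e1 : ∀ s : ℝ, cmb (fr e w) (Pi.single k s) = s • (w k • e k) := by
    intro s
    funext i
    fin_cases k <;> simp [cmb, fr] <;> ring
  have h1 := h (Pi.single k 1)
  have h2 := h (Pi.single k (-1))
  rw [e1, one_smul] at h1
  rw [e1, neg_one_smul, ← sub_eq_add_neg] at h2
  have h3 : Fq b0 b1 G 0 (Pi.single k 1) - Fq b0 b1 G 0 (Pi.single k (-1)) = 2 * b0 k := by
    simp only [Fq, dt, bz, QF.ev]
    fin_cases k <;> simp <;> ring
  unfold cb0
  rw [h1, h2, div_eq_iff (by positivity)]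
  linear_combination w 0 * h3

/-- frame adapted to a gradient `(1, g1, g2)` -/
noncomputable def pf (e : Fin 3 → V3) (g1 g2 : ℝ) : Fin 3 → V3 :=
  adF e 1 g1 g2 (Real.sqrt (1 + g1 ^ 2 + g2 ^ 2)) (Real.sqrt (1 + g1 ^ 2))

/-- **frame of the plank**: adapted to the gradient of `q` at the beginning of the line `T` -/
noncomputable def pfr (q : ℝ → V3 → ℝ) (e : Fin 3 → V3) (w : V3) (T : Ln4) (z0 : ℝ) : Fin 3 → V3 :=
  pf e (gr (cb0 q e w T z0) w 1) (gr (cb0 q e w T z0) w 2)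


theorem pf_sq1 (g1 : ℝ) : Real.sqrt (1 + g1 ^ 2) ^ 2 = 1 ^ 2 + g1 ^ 2 := by
  rw [Real.sq_sqrt (by positivity)]; ring

theorem one_le_m (g1 g2 : ℝ) : 1 ≤ Real.sqrt (1 + g1 ^ 2 + g2 ^ 2) :=
  Real.one_le_sqrt.2 (by nlinarith [sq_nonneg g1, sq_nonneg g2])

theorem one_le_m1 (g1 : ℝ) : 1 ≤ Real.sqrt (1 + g1 ^ 2) :=
  Real.one_le_sqrt.2 (by nlinarith [sq_nonneg g1])





theorem gr_le (N : NrmC b0 b1 G) (hw : ∀ i, 0 < w i) :
    |gr b0 w 1| ≤ 2 * (w 0 / w 1) ∧ |gr b0 w 2| ≤ 2 * (w 0 / w 2) := by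
  obtain ⟨-, -, -, -, -, -, -, s1, s2⟩ := N.b1_le
  have h0 := hw 0
  have h1 := hw 1
  have h2 := hw 2
  constructor
  · unfold gr
    rw [abs_mul, abs_of_pos (div_pos h0 h1)]
    exact mul_le_mul_of_nonneg_right s1 (by positivity)
  · unfold gr
    rw [abs_mul, abs_of_pos (div_pos h0 h2)]
    exact mul_le_mul_of_nonneg_right s2 (by positivity)


end Crest.Agent.R136.Mdr535
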