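import Crest.Agent.R136.Lgt2_989
import Crest.Agent.R136.Nd8_565
import Crest.Agent.R136.KapP_335
import Crest.Agent.R136.Sh3_605

-- ▼ part R136/Lgt3_989
section

/-!
# R136 (S0187), plateau phase: lightlike sub-planks of a sheet, labels (helper989)

`labels` : the lines of one turning sheet are divided into at most `10^26 / (g^4 ω^4)` classes such
that two lines of one class are in a common lightlike strip: lateral coordinates `≤ 189 ω / g`,
turning coordinate `≤ 6·10^6 ω² / g³`.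
-/

set_option autoImplicit false
set_option linter.unusedVariables false

namespace Crest.Agent.R136.Lgt989

open Finset
open Crest.Agent.R136.Sh605 Crest.Agent.R136.Tl102
open Crest.Agent.R136.Nd565 (sA sB Stp)

/-- length of the lateral turning covector -/
noncomputable def mT (b0 b1 : V3) : ℝ := Real.sqrt (shB1 b0 b1 1 ^ 2 + shB1 b0 b1 2 ^ 2)

/-- direction of the lateral turning covector -/
noncomputable def nA (b0 b1 : V3) : ℝ := shB1 b0 b1 1 / mT b0 b1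

/-- direction of the lateral turning covector -/
noncomputable def nB (b0 b1 : V3) : ℝ := shB1 b0 b1 2 / mT b0 b1



variable {e : Fin 3 → V3} {c : Ln4} {w : V3} {q : ℝ → V3 → ℝ} {a z0 ρ r0 : ℝ}



end Crest.Agent.R136.Lgt989
namespace Crest.Agent.R136.Lgt989.Pair
end Crest.Agent.R136.Lgt989.Pair
end

-- ▼ part R136/Lgt5_989

/-!
# R136 (S0187), plateau phase: types and flat narrowing (helper989)

* `turn_of_det` : non-degeneracy (`DetP`) gives the turning hypothesis of `cover`.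
* `cover_bad` : the lines of a turning sheet whose turning covector is transversal to the wide
  direction up to `μ` are covered by `10^26 / (g^4 μ^4)` sub-sheets with the same frame and widths
  `∝ (μ² w 1, μ w 2)` (same cell).
* `flat_cover` : every sheet is covered by `(8 / ω)^2` sub-sheets with the same frame and widths
  `(ω w 1, w 2)`.
-/

set_option autoImplicit false
set_option linter.unusedVariables false

namespace Crest.Agent.R136.Lgt989

open Finset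
open Crest.Agent.R136.Sh605 Crest.Agent.R136.K4
open Crest.Agent.R136.Tl102 (QF Fq bz shB0 shB1 shG scB1 scG kap NrmC IsExp StP fr fan slp)
open Crest.Agent.R136.Nd565 (sA sB Stp same_frame same_mem abs_mul_le2)
open Crest.Agent.R136.KapP335 (DetP kapP detP_iff kapP_eq expP_spec)

variable {e : Fin 3 → V3} {c : Ln4} {w : V3} {q : ℝ → V3 → ℝ} {a z0 ρ r0 : ℝ}

/-- the determinant of the fan at the beginning of the cell -/
theorem turn_of_det {b0 b1 : V3} {G : QF} (N : NrmC b0 b1 G) (hκ : 0 < kap b0 b1 G) {δ : ℝ}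
    (h : δ ≤ |Arc880.det3 (fan (shB0 b0) (scB1 (kap b0 b1 G) b0 b1) (scG (kap b0 b1 G) b0 G) 0)|) :
    δ * kap b0 b1 G ^ 2 ≤ shB1 b0 b1 1 ^ 2 + shB1 b0 b1 2 ^ 2 := by
  obtain ⟨s1, s2, s3, s4, s5, s6, s7, s8, s9, s10⟩ := N.sc_le hκ
  set κ := kap b0 b1 G with hκd
  set γ := scB1 κ b0 b1 with hγ
  set M := scG κ b0 G with hM
  have l1 : slp (shB0 b0) γ 1 0 = 0 := by
    have : (shB0 b0) 1 = 0 := rfl
    simp only [slp, this, zero_mul, add_zero, neg_zero, zero_div]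
  have l2 : slp (shB0 b0) γ 2 0 = 0 := by
    have : (shB0 b0) 2 = 0 := rfl
    simp only [slp, this, zero_mul, add_zero, neg_zero, zero_div]
  have e1 : Arc880.det3 (fan (shB0 b0) γ M 0) =
      (γ 1 * γ 2 * M.uv - γ 1 ^ 2 * M.vv - γ 2 ^ 2 * M.uu) / 16777216 := by
    simp only [Arc880.det3, fan, l1, l2, Matrix.cons_val]
    ring
  rw [e1] at h
  have h2 : |(γ 1 * γ 2 * M.uv - γ 1 ^ 2 * M.vv - γ 2 ^ 2 * M.uu) / 16777216| ≤
      γ 1 ^ 2 + γ 2 ^ 2 := by
    rw [abs_div, abs_of_pos (by norm_num : (0 : ℝ) < 16777216), div_le_iff₀ (by norm_num)]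
    have t1 : |γ 1 * γ 2 * M.uv| ≤ (γ 1 ^ 2 + γ 2 ^ 2) * 1 := by
      refine abs_mul_le2 ?_ s9
      rw [abs_mul]
      nlinarith [sq_nonneg (|γ 1| - |γ 2|), sq_abs (γ 1), sq_abs (γ 2), sq_nonneg (γ 1),
        sq_nonneg (γ 2)]
    have t2 : |γ 1 ^ 2 * M.vv| ≤ γ 1 ^ 2 * 1 :=
      abs_mul_le2 (by rw [abs_of_nonneg (sq_nonneg _)]) s10
    have t3 : |γ 2 ^ 2 * M.uu| ≤ γ 2 ^ 2 * 1 :=
      abs_mul_le2 (by rw [abs_of_nonneg (sq_nonneg _)]) s8
    have t4 := abs_sub (γ 1 * γ 2 * M.uv - γ 1 ^ 2 * M.vv) (γ 2 ^ 2 * M.uu)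
    have t5 := abs_sub (γ 1 * γ 2 * M.uv) (γ 1 ^ 2 * M.vv)
    nlinarith [sq_nonneg (γ 1), sq_nonneg (γ 2)]
  have h3 : δ ≤ γ 1 ^ 2 + γ 2 ^ 2 := h.trans h2
  have e2 : γ 1 ^ 2 + γ 2 ^ 2 = (shB1 b0 b1 1 ^ 2 + shB1 b0 b1 2 ^ 2) / κ ^ 2 := by
    change (shB1 b0 b1 1 / κ) ^ 2 + (shB1 b0 b1 2 / κ) ^ 2 = _
    rw [div_pow, div_pow, ← add_div]
  rw [e2, le_div_iff₀ (by positivity)] at h3
  exact h3

/-- `DetP` in the form used by `cover` -/
theorem exp_of_detP {S : Plk4} {r0 : ℝ} (hS : ShN S.e S.c S.w S.q S.a z0 ρ r0) (hr : 0 < r0)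
    (hρ : 0 < ρ) {T : Ln4} (hT : InSheet T S.e S.c S.w S.q S.a z0 ρ) {δ : ℝ}
    (hd : DetP δ S z0 ρ T) (hk : 0 < kapP S z0 ρ T) :
    ∃ b0 b1 G, IsExp S.q S.e S.w T z0 ρ b0 b1 G ∧ 0 < kap b0 b1 G ∧
      δ * kap b0 b1 G ^ 2 ≤ shB1 b0 b1 1 ^ 2 + shB1 b0 b1 2 ^ 2 ∧
      kapP S z0 ρ T = S.w 0 * kap b0 b1 G := by
  have hap : 0 < S.a := by linarith [hS.r0_le]
  have hw0 : 0 < S.w 0 := by linarith [hS.a_le0]
  have Q := StP.of_shN hS hw0
  have hE := expP_spec hS.isQ hw0.ne' z0 ρ T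
  have N := hE.nrmC Q hρ.le fun z hz hz' => (hT z hz hz').1
  have hk' := kapP_eq hw0.ne' hE
  rw [hk'] at hk
  have hκ : 0 < kap (KapP335.expP S z0 ρ T).1 (KapP335.expP S z0 ρ T).2.1
      (KapP335.expP S z0 ρ T).2.2 := by
    by_contra hc
    push Not at hc
    have := mul_nonpos_of_nonneg_of_nonpos hw0.le hc
    linarith
  exact ⟨_, _, _, hE, hκ, turn_of_det N hκ ((detP_iff hw0.ne' hE δ).1 hd 0 le_rfl zero_le_one), hk'⟩







end Crest.Agent.R136.Lgt989
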