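import Mathlib
import Crest.Agent.R136.Lgt5_989

-- ▼ part R136/Kf2_605
section

/-!
# R136: the lines of a plank of a curved sheet lie in few short strips (helper605)

`plank_cells` : finite part of the plank condition (PL) for the lines of one sheet.
-/

set_option autoImplicit false

open Finset

namespace Crest.Agent.R136.Kf605

/-- number of cells met by points of an interval -/
theorem floor_image {ι : Type*} (A : Finset ι) (y : ι → ℝ) {ω r a : ℝ} (hω : 0 < ω) (hr : 0 ≤ r)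
    (h : ∀ t ∈ A, |y t - a| ≤ r) :
    ((A.image fun t => ⌊y t / ω⌋).card : ℝ) ≤ 2 * r / ω + 2 := by
  have hsub : (A.image fun t => ⌊y t / ω⌋) ⊆ Finset.Icc ⌊(a - r) / ω⌋ ⌊(a + r) / ω⌋ := by
    intro j hj
    obtain ⟨t, ht, rfl⟩ := Finset.mem_image.1 hj
    have h1 := abs_le.1 (h t ht)
    rw [Finset.mem_Icc]
    constructor
    · exact Int.floor_le_floor (div_le_div_of_nonneg_right (by linarith) hω.le)
    · exact Int.floor_le_floor (div_le_div_of_nonneg_right (by linarith) hω.le)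
  have h1 : ((A.image fun t => ⌊y t / ω⌋).card : ℝ) ≤
      ((Finset.Icc ⌊(a - r) / ω⌋ ⌊(a + r) / ω⌋).card : ℝ) := by
    exact_mod_cast Finset.card_le_card hsub
  refine h1.trans ?_
  rw [Int.card_Icc]
  have h2 : ⌊(a - r) / ω⌋ ≤ ⌊(a + r) / ω⌋ :=
    Int.floor_le_floor (div_le_div_of_nonneg_right (by linarith) hω.le)
  have h3 : ((⌊(a + r) / ω⌋ + 1 - ⌊(a - r) / ω⌋).toNat : ℝ) =
      (⌊(a + r) / ω⌋ : ℝ) + 1 - ⌊(a - r) / ω⌋ := by
    have : ((⌊(a + r) / ω⌋ + 1 - ⌊(a - r) / ω⌋).toNat : ℤ) =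
        ⌊(a + r) / ω⌋ + 1 - ⌊(a - r) / ω⌋ := Int.toNat_of_nonneg (by omega)
    exact_mod_cast this
  rw [h3]
  have h4 := Int.floor_le ((a + r) / ω)
  have h5 := Int.lt_floor_add_one ((a - r) / ω)
  have h6 : (a + r) / ω - (a - r) / ω = 2 * r / ω := by ring
  linarith

/-- counting by fibres -/
theorem card_fib {ι κ : Type*} [DecidableEq κ] (A : Finset ι) (f : ι → κ) {N B : ℝ} (hB0 : 0 ≤ B)
    (hN : ((A.image f).card : ℝ) ≤ N)
    (hB : ∀ t ∈ A, ((A.filter fun t' => f t' = f t).card : ℝ) ≤ B) : (A.card : ℝ) ≤ N * B := by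
  have h := Finset.card_eq_sum_card_fiberwise (s := A) (t := A.image f) (f := f)
    (fun y hy => Finset.mem_coe.2 (Finset.mem_image_of_mem f (Finset.mem_coe.1 hy)))
  rw [h]
  push_cast
  have h1 : ∀ c ∈ A.image f, ((A.filter fun y => f y = c).card : ℝ) ≤ B := by
    intro c hc
    obtain ⟨t, ht, rfl⟩ := Finset.mem_image.1 hc
    exact hB t ht
  refine (Finset.sum_le_sum h1).trans ?_
  rw [Finset.sum_const, nsmul_eq_mul]
  exact mul_le_mul_of_nonneg_right hN hB0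

/-- tangential case -/
theorem pt_tan {K s1 σ ω L h x : ℝ} (hK : 1 ≤ K) (hσ : 0 < σ) (hσ2 : σ ^ 2 = s1)
    (hω : K * ω ≤ σ) (hLσ : |L| ≤ σ) (hLh : 1 / K ≤ |L| + |h|) (hx1 : |x| ≤ 1)
    (RH : |L * x + h * x ^ 2| ≤ K * (2 * s1 + ω * |x|)) : |x| ≤ 8 * K * σ := by
  have hK0 : 0 < K := by linarith
  have hx0 := abs_nonneg x
  by_cases hh : 1 / (2 * K) ≤ |h|
  · by_contra hc'
    push Not at hc'
    have b1 : |h| * |x| ^ 2 ≤ |L| * |x| + K * (2 * s1 + ω * |x|) := by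
      have e1 : |h * x ^ 2| = |h| * |x| ^ 2 := by rw [abs_mul, abs_pow]
      have e2 : h * x ^ 2 = (L * x + h * x ^ 2) - L * x := by ring
      rw [← e1, e2]
      refine (abs_sub _ _).trans ?_
      rw [abs_mul L x]
      linarith
    have b2 : |x| ^ 2 ≤ 2 * K * (|L| * |x| + K * (2 * s1 + ω * |x|)) := by
      have := mul_le_mul_of_nonneg_right hh (sq_nonneg |x|)
      have h4 : 1 / (2 * K) * |x| ^ 2 ≤ |L| * |x| + K * (2 * s1 + ω * |x|) := this.trans b1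
      rw [div_mul_eq_mul_div, one_mul, div_le_iff₀ (by positivity)] at h4
      linarith
    have b3 : |L| * |x| ≤ σ * |x| := mul_le_mul_of_nonneg_right hLσ hx0
    have b4 : K * (ω * |x|) ≤ σ * |x| := by
      calc K * (ω * |x|) = (K * ω) * |x| := by ring
        _ ≤ σ * |x| := mul_le_mul_of_nonneg_right hω hx0
    have b5 : |x| ^ 2 ≤ 2 * K * (2 * (σ * |x|) + 2 * K * s1) := by
      refine b2.trans (mul_le_mul_of_nonneg_left ?_ (by positivity))
      linarith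
    rw [← hσ2] at b5
    have hKσ : 0 < K * σ := mul_pos hK0 hσ
    have b6 : 8 * (K * σ) * |x| ≤ |x| ^ 2 := by
      rw [pow_two]
      refine mul_le_mul_of_nonneg_right ?_ hx0
      linarith
    have b7 : (K * σ) * (8 * (K * σ)) < (K * σ) * |x| :=
      mul_lt_mul_of_pos_left (by linarith) hKσ
    have b8 : 2 * K * (2 * (σ * |x|) + 2 * K * σ ^ 2) = 4 * (K * σ * |x|) +
        4 * ((K * σ) * (K * σ)) := by ring
    rw [b8] at b5
    have b9 : 0 < (K * σ) * (K * σ) := mul_pos hKσ hKσ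
    have b10 : 8 * (K * σ) * |x| = 8 * (K * σ * |x|) := by ring
    rw [b10] at b6
    have b11 : (K * σ) * (8 * (K * σ)) = 8 * ((K * σ) * (K * σ)) := by ring
    rw [b11] at b7
    linarith
  · push Not at hh
    have b1 : 1 / (2 * K) ≤ σ := by
      have e : 1 / K = 1 / (2 * K) + 1 / (2 * K) := by field_simp; norm_num
      rw [e] at hLh
      linarith
    rw [div_le_iff₀ (by positivity)] at b1
    have : 0 < K * σ := mul_pos hK0 hσ
    have e : σ * (2 * K) = 2 * (K * σ) := by ring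
    rw [e] at b1
    have e2 : 8 * K * σ = 8 * (K * σ) := by ring
    rw [e2]
    linarith

/-- transversal case -/
theorem pt_tra {K s1 θ ω L h x : ℝ} (hK : 1 ≤ K) (hs1 : 0 < s1) (hθ0 : 0 < θ)
    (hω1 : 8 * K ^ 3 * ω ≤ s1 / θ) (hω2 : 32 * K ^ 3 * ω ≤ θ)
    (hθ2 : θ < 2 * |L|) (hLK : |L| ≤ K) (hLh : 1 / K ≤ |L| + |h|) (hhK : |h| ≤ K)
    (hx1 : |x| ≤ 1) (hω0 : 0 < ω)
    (RH : |L * x + h * x ^ 2| ≤ K * (2 * s1 + ω * |x|)) :
    |x| ≤ 96 * K ^ 3 * (s1 / θ) ∨ |x + L / h| ≤ 96 * K ^ 3 * (s1 / θ) := by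
  have hK0 : 0 < K := by linarith
  have hK2 : 1 ≤ K ^ 2 := one_le_pow₀ hK
  have hK3 : 1 ≤ K ^ 3 := one_le_pow₀ hK
  have hx0 := abs_nonneg x
  set r := s1 / θ with hr
  have hr0 : 0 < r := by positivity
  have hrθ : r * θ = s1 := by rw [hr]; field_simp
  by_cases hh : 1 / (4 * K) ≤ |h|
  · have hhp : 0 < |h| := lt_of_lt_of_le (by positivity) hh
    have hhne : h ≠ 0 := abs_pos.1 hhp
    set y := x + L / h with hy
    have hy0 := abs_nonneg y
    have e1 : L * x + h * x ^ 2 = h * (x * y) := by rw [hy]; field_simp; ring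
    have b1 : |x| * |y| ≤ 8 * K ^ 2 * s1 + 4 * K ^ 2 * ω * |x| := by
      rw [e1, abs_mul, abs_mul] at RH
      have h1 : 1 / (4 * K) * (|x| * |y|) ≤ K * (2 * s1 + ω * |x|) :=
        (mul_le_mul_of_nonneg_right hh (by positivity)).trans RH
      rw [div_mul_eq_mul_div, one_mul, div_le_iff₀ (by positivity)] at h1
      refine h1.trans (le_of_eq ?_)
      ring
    have b2 : θ / (2 * K) ≤ |x| + |y| := by
      have h1 : |L / h| ≤ |x| + |y| := by
        have : L / h = y - x := by rw [hy]; ring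
        rw [this]
        have := abs_sub y x
        linarith
      refine le_trans ?_ h1
      rw [abs_div, div_le_div_iff₀ (by positivity) hhp]
      have h2 : θ * |h| ≤ θ * K := mul_le_mul_of_nonneg_left hhK hθ0.le
      have h3 : θ * K ≤ 2 * |L| * K := mul_le_mul_of_nonneg_right hθ2.le hK0.le
      linarith
    have hθK : 0 < θ / K := by positivity
    have e2 : θ / (2 * K) = (θ / K) / 2 := by ring
    rw [e2] at b2
    have b3 : 32 * (K ^ 2 * ω) ≤ θ / K := by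
      rw [le_div_iff₀ hK0]
      calc 32 * (K ^ 2 * ω) * K = 32 * K ^ 3 * ω := by ring
        _ ≤ θ := hω2
    have b4 : K ^ 2 * s1 = (θ / K) * (K ^ 3 * r) := by rw [← hrθ]; field_simp
    have hKr : 0 < K ^ 3 * r := by positivity
    rcases le_total |x| |y| with hxy | hxy
    · left
      have c1 : (θ / K) / 4 ≤ |y| := by linarith
      have c2 : |x| * ((θ / K) / 4) ≤ |x| * |y| := mul_le_mul_of_nonneg_left c1 hx0
      have c3 : 4 * K ^ 2 * ω * |x| ≤ (θ / K) / 8 * |x| :=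
        mul_le_mul_of_nonneg_right (by linarith) hx0
      have c4 : (θ / K) * |x| ≤ (θ / K) * (96 * K ^ 3 * r) := by
        have e3 : (θ / K) * (96 * K ^ 3 * r) = 96 * (K ^ 2 * s1) := by rw [b4]; ring
        rw [e3]
        have : 0 < K ^ 2 * s1 := by positivity
        linarith
      exact le_of_mul_le_mul_left c4 hθK
    · right
      have c1 : (θ / K) / 4 ≤ |x| := by linarith
      have hxp : 0 < |x| := by linarith
      have c2 : 8 * K ^ 2 * s1 ≤ 32 * (K ^ 3 * r) * |x| := by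
        have h1 := mul_le_mul_of_nonneg_right c1 (by positivity : 0 ≤ 32 * (K ^ 3 * r))
        have h2 : (θ / K) / 4 * (32 * (K ^ 3 * r)) = 8 * (K ^ 2 * s1) := by rw [b4]; ring
        rw [h2] at h1
        linarith
      have c3 : |y| * |x| ≤ (32 * (K ^ 3 * r) + 4 * K ^ 2 * ω) * |x| := by
        rw [add_mul]
        have : |y| * |x| = |x| * |y| := mul_comm _ _
        linarith
      have c4 := le_of_mul_le_mul_right c3 hxp
      have c5 : 4 * K ^ 2 * ω ≤ K ^ 3 * r := by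
        have h1 : K ^ 2 * ω ≤ K ^ 3 * ω := by
          refine mul_le_mul_of_nonneg_right ?_ hω0.le
          exact pow_le_pow_right₀ hK (by norm_num)
        have h2 : r ≤ K ^ 3 * r := by
          calc r = 1 * r := (one_mul _).symm
            _ ≤ K ^ 3 * r := mul_le_mul_of_nonneg_right hK3 hr0.le
        have h3 : 8 * (K ^ 3 * ω) ≤ r := by linarith
        linarith
      linarith
  · left
    push Not at hh
    have b1 : 3 / (4 * K) ≤ |L| := by
      have e : 1 / K = 3 / (4 * K) + 1 / (4 * K) := by field_simp; norm_num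
      rw [e] at hLh
      linarith
    have b2 : 1 / (2 * K) ≤ |L + h * x| := by
      have h1 : |h * x| ≤ 1 / (4 * K) := by
        rw [abs_mul]
        calc |h| * |x| ≤ 1 / (4 * K) * 1 := mul_le_mul hh.le hx1 hx0 (by positivity)
          _ = 1 / (4 * K) := mul_one _
      have h2 : |L| ≤ |L + h * x| + |h * x| := by
        have : L = (L + h * x) - h * x := by ring
        conv_lhs => rw [this]
        exact abs_sub _ _
      have e : 3 / (4 * K) = 1 / (2 * K) + 1 / (4 * K) := by field_simp; norm_num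
      linarith
    have e1 : L * x + h * x ^ 2 = x * (L + h * x) := by ring
    rw [e1, abs_mul] at RH
    have b3 : |x| * (1 / (2 * K)) ≤ K * (2 * s1 + ω * |x|) :=
      (mul_le_mul_of_nonneg_left b2 hx0).trans RH
    rw [mul_one_div, div_le_iff₀ (by positivity)] at b3
    have b4 : θ ≤ 2 * K := by linarith
    have b5 : 4 * (K ^ 2 * ω) ≤ 1 / 4 := by
      have h1 : 32 * K ^ 3 * ω ≤ 2 * K := hω2.trans b4
      have h2 : K * (16 * (K ^ 2 * ω)) ≤ K * 1 := by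
        calc K * (16 * (K ^ 2 * ω)) = (32 * K ^ 3 * ω) / 2 := by ring
          _ ≤ K * 1 := by linarith
      have := le_of_mul_le_mul_left h2 hK0
      linarith
    have b6 : 2 * (K ^ 2 * ω) * |x| ≤ 1 / 8 * |x| :=
      mul_le_mul_of_nonneg_right (by linarith) hx0
    have b7 : |x| ≤ 8 * (K ^ 2 * s1) := by
      have e2 : K * (2 * s1 + ω * |x|) * (2 * K) = 4 * (K ^ 2 * s1) + 2 * (K ^ 2 * ω) * |x| := by
        ring
      rw [e2] at b3
      have : 0 < K ^ 2 * s1 := by positivity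
      linarith
    have b8 : K ^ 2 * s1 ≤ 2 * (K ^ 3 * r) := by
      rw [← hrθ]
      have h1 : r * θ ≤ r * (2 * K) := mul_le_mul_of_nonneg_left b4 hr0.le
      have h2 := mul_le_mul_of_nonneg_left h1 (by positivity : 0 ≤ K ^ 2)
      calc K ^ 2 * (r * θ) ≤ K ^ 2 * (r * (2 * K)) := h2
        _ = 2 * (K ^ 3 * r) := by ring
    have : 0 < K ^ 3 * r := by positivity
    linarith

/-- **the two point lemma** -/
theorem two_pt {K s1 σ θ ω L h x xP : ℝ} (hK : 1 ≤ K) (hs1 : 0 < s1)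
    (hσ : 0 < σ) (hσ2 : σ ^ 2 = s1) (hω0 : 0 < ω) (hω : 8 * K ^ 3 * ω ≤ s1 / θ) (hLθ : |L| ≤ θ)
    (hθ : θ = σ ∨ (2 * σ ≤ θ ∧ θ < 2 * |L|)) (hLK : |L| ≤ K) (hhK : |h| ≤ K)
    (hLh : 1 / K ≤ |L| + |h|) (hx1 : |x| ≤ 1) (hxP : |xP| ≤ ω)
    (R : |L * x + h * x ^ 2| ≤ K * (|L| * |xP| + xP ^ 2 + |xP| * |x| + s1)) :
    |x| ≤ 96 * K ^ 3 * (s1 / θ) ∨ |x + L / h| ≤ 96 * K ^ 3 * (s1 / θ) := by
  have hK0 : 0 < K := by linarith
  have hK3 : 1 ≤ K ^ 3 := one_le_pow₀ hK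
  have hx0 := abs_nonneg x
  have hθσ : σ ≤ θ := by
    rcases hθ with h1 | h1
    · exact h1.ge
    · linarith [h1.1]
  have hθ0 : 0 < θ := lt_of_lt_of_le hσ hθσ
  have hω1 : 8 * ω ≤ s1 / θ := by
    refine le_trans ?_ hω
    have : 1 * ω ≤ K ^ 3 * ω := mul_le_mul_of_nonneg_right hK3 hω0.le
    linarith
  have hωθ : 8 * ω * θ ≤ s1 := by rwa [le_div_iff₀ hθ0] at hω1
  have hωσ : 8 * ω ≤ σ := by
    have h1 : 8 * ω * σ ≤ σ * σ := by
      refine (mul_le_mul_of_nonneg_left hθσ (by positivity)).trans (hωθ.trans (le_of_eq ?_))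
      rw [← hσ2]; ring
    exact le_of_mul_le_mul_right h1 hσ
  have hω2 : ω ^ 2 ≤ s1 / 8 := by
    have h1 : ω ^ 2 = ω * ω := by ring
    have h2 : ω * (8 * ω) ≤ ω * θ := mul_le_mul_of_nonneg_left (hωσ.trans hθσ) hω0.le
    rw [h1]
    linarith
  have RH : |L * x + h * x ^ 2| ≤ K * (2 * s1 + ω * |x|) := by
    refine R.trans (mul_le_mul_of_nonneg_left ?_ hK0.le)
    have a1 : |L| * |xP| ≤ s1 / 8 := by
      calc |L| * |xP| ≤ θ * ω := mul_le_mul hLθ hxP (abs_nonneg _) hθ0.le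
        _ = (8 * ω * θ) / 8 := by ring
        _ ≤ s1 / 8 := by linarith
    have a2 : xP ^ 2 ≤ s1 / 8 := by
      rw [← sq_abs]
      exact (pow_le_pow_left₀ (abs_nonneg _) hxP 2).trans hω2
    have a3 : |xP| * |x| ≤ ω * |x| := mul_le_mul_of_nonneg_right hxP hx0
    linarith
  rcases hθ with hθ | ⟨hθ1, hθ2⟩
  · left
    have e : s1 / θ = σ := by rw [hθ, ← hσ2]; field_simp
    rw [e]
    have hKω : K * ω ≤ σ := by
      rw [e] at hω
      refine le_trans ?_ hω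
      have h1 : K * 1 ≤ K * (8 * K ^ 2) := by
        refine mul_le_mul_of_nonneg_left ?_ hK0.le
        have : 1 ≤ K ^ 2 := one_le_pow₀ hK
        linarith
      have h2 := mul_le_mul_of_nonneg_right h1 hω0.le
      calc K * ω = K * 1 * ω := by ring
        _ ≤ K * (8 * K ^ 2) * ω := h2
        _ = 8 * K ^ 3 * ω := by ring
    have h1 := pt_tan hK hσ hσ2 hKω (hθ ▸ hLθ) hLh hx1 RH
    refine h1.trans ?_
    refine mul_le_mul_of_nonneg_right ?_ hσ.le
    have : K * 1 ≤ K * K ^ 2 := mul_le_mul_of_nonneg_left (one_le_pow₀ hK) hK0.le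
    have e2 : K * K ^ 2 = K ^ 3 := by ring
    rw [e2] at this
    linarith
  · refine pt_tra hK hs1 hθ0 hω ?_ hθ2 hLK hLh hhK hx1 hω0 RH
    have h1 : s1 / θ ≤ θ / 4 := by
      rw [div_le_div_iff₀ hθ0 (by norm_num)]
      have := pow_le_pow_left₀ (by positivity) hθ1 2
      rw [← hσ2]
      nlinarith
    linarith

theorem abs_of_floor {a b ω : ℝ} (hω : 0 < ω) (h : ⌊a / ω⌋ = ⌊b / ω⌋) : |a - b| ≤ ω := by
  have h1 := Int.floor_le (a / ω)
  have h2 := Int.lt_floor_add_one (a / ω)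
  have h3 := Int.floor_le (b / ω)
  have h4 := Int.lt_floor_add_one (b / ω)
  rw [h] at h1 h2
  rw [le_div_iff₀ hω] at h1 h3
  rw [div_lt_iff₀ hω] at h2 h4
  rw [abs_le]
  constructor <;> nlinarith

open Classical in
/-- relations between the lines of a plank -/
structure PlR {ι : Type*} (A : Finset ι) (xP xV L h : ι → ℝ) (s0 s1 K q Dm : ℝ) : Prop where
  hK : 1 ≤ K
  s1p : 0 < s1
  s10 : s1 ≤ s0
  s01 : s0 ≤ 1
  q0 : 0 ≤ q
  D0 : 0 ≤ Dm
  hP : ∀ t ∈ A, ∀ t' ∈ A, |xP t' - xP t| ≤ s0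
  hV : ∀ t ∈ A, ∀ t' ∈ A, |xV t' - xV t| ≤ s0
  hL : ∀ t ∈ A, |L t| ≤ K ∧ |h t| ≤ K ∧ 1 / K ≤ |L t| + |h t|
  hR : ∀ t ∈ A, ∀ t' ∈ A, |L t * (xV t' - xV t) + h t * (xV t' - xV t) ^ 2| ≤
    K * (|L t| * |xP t' - xP t| + (xP t' - xP t) ^ 2 + |xP t' - xP t| * |xV t' - xV t| + s1)
  hD : ∀ t ∈ A, ∀ om : ℝ, s1 / (16 * K ^ 4) ≤ om → om ≤ s0 → |L t| * om ≤ s1 → om ^ 2 ≤ s1 →
    ((A.filter fun t' => |xP t' - xP t| ≤ om ∧ |xV t' - xV t| ≤ om).card : ℝ) ≤
      Dm * om ^ (1 + q) * s1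

section

variable {ι : Type*} {A : Finset ι} {xP xV L h : ι → ℝ} {s0 s1 K q Dm : ℝ}

open Classical in
/-- lines with a given size of `L` -/
theorem class_bd (H : PlR A xP xV L h s0 s1 K q Dm) {σ θ : ℝ} (hσ : 0 < σ) (hσ2 : σ ^ 2 = s1)
    (hσθ : σ ≤ θ) (hθK : θ ≤ 2 * K) {B : Finset ι} (hB : B ⊆ A)
    (hLB : ∀ t ∈ B, |L t| ≤ θ ∧ (θ = σ ∨ (2 * σ ≤ θ ∧ θ < 2 * |L t|))) :
    (B.card : ℝ) ≤ 12304 * K ^ 6 * Dm * s0 ^ (1 + q) * s1 := by
  have hK := H.hK
  have hK0 : 0 < K := by linarith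
  have hK3 : 1 ≤ K ^ 3 := one_le_pow₀ hK
  have hK6 : 1 ≤ K ^ 6 := one_le_pow₀ hK
  have hs1 := H.s1p
  have hs0 : 0 < s0 := lt_of_lt_of_le hs1 H.s10
  have hθ0 : 0 < θ := lt_of_lt_of_le hσ hσθ
  set ω : ℝ := min s0 (s1 / θ) / (8 * K ^ 3) with hωd
  have hm0 : 0 < min s0 (s1 / θ) := lt_min hs0 (by positivity)
  have hω0 : 0 < ω := by positivity
  have hωe : 8 * K ^ 3 * ω = min s0 (s1 / θ) := by rw [hωd]; field_simp
  have hω1 : 8 * K ^ 3 * ω ≤ s1 / θ := hωe.le.trans (min_le_right _ _)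
  have hω2 : 8 * K ^ 3 * ω ≤ s0 := hωe.le.trans (min_le_left _ _)
  have hωK : ω ≤ 8 * K ^ 3 * ω := by
    have : 1 * ω ≤ (8 * K ^ 3) * ω := mul_le_mul_of_nonneg_right (by linarith) hω0.le
    linarith
  have hωs0 : ω ≤ s0 := hωK.trans hω2
  have hωθ : ω * θ ≤ s1 := by
    have := hωK.trans hω1
    rwa [le_div_iff₀ hθ0] at this
  have hωσ : ω ≤ σ := by
    have h1 : ω * σ ≤ σ * σ := by
      refine (mul_le_mul_of_nonneg_left hσθ hω0.le).trans (hωθ.trans (le_of_eq ?_))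
      rw [← hσ2]; ring
    exact le_of_mul_le_mul_right h1 hσ
  have hωsq : ω ^ 2 ≤ s1 := by
    rw [← hσ2]; exact pow_le_pow_left₀ hω0.le hωσ 2
  have hωlow : s1 / (16 * K ^ 4) ≤ ω := by
    have h1 : s1 / (2 * K) ≤ min s0 (s1 / θ) := by
      refine le_min ?_ ?_
      · refine le_trans ?_ H.s10
        exact div_le_self hs1.le (by linarith)
      · exact div_le_div_of_nonneg_left hs1.le hθ0 hθK
    rw [hωd, le_div_iff₀ (by positivity)]
    refine le_trans (le_of_eq ?_) h1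
    field_simp; ring
  set Q : ℝ := Dm * ω ^ (1 + q) * s1 with hQ
  have hQ0 : 0 ≤ Q := by
    have := H.D0
    positivity
  -- fibres
  have hfib : ∀ t0 ∈ B, ((B.filter fun t' => ⌊xP t' / ω⌋ = ⌊xP t0 / ω⌋).card : ℝ) ≤
      (3076 * K ^ 6) * Q := by
    intro t0 ht0
    set G := B.filter fun t' => ⌊xP t' / ω⌋ = ⌊xP t0 / ω⌋ with hG
    refine card_fib G (fun t => ⌊xV t / ω⌋) hQ0 ?_ ?_
    · -- number of velocity cells
      set R0 : ℝ := 768 * K ^ 6 * ω with hR0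
      have hR00 : 0 ≤ R0 := by positivity
      set c2 : ℝ := xV t0 - L t0 / h t0 with hc2
      have hsplit : ∀ t ∈ G, |xV t - xV t0| ≤ R0 ∨ |xV t - c2| ≤ R0 := by
        intro t ht
        obtain ⟨htB, htP⟩ := Finset.mem_filter.1 ht
        have hx := H.hV t0 (hB ht0) t (hB htB)
        obtain ⟨l1, l2, l3⟩ := H.hL t0 (hB ht0)
        obtain ⟨m1, m2⟩ := hLB t0 ht0
        rcases le_total (s1 / θ) s0 with hc | hc
        · have hωe' : 8 * K ^ 3 * ω = s1 / θ := by rw [hωe, min_eq_right hc]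
          have h1 := two_pt hK hs1 hσ hσ2 hω0 hω1 m1 m2 l1 l2 l3 (hx.trans H.s01)
            (abs_of_floor hω0 htP) (H.hR t0 (hB ht0) t (hB htB))
          have e1 : 96 * K ^ 3 * (s1 / θ) = R0 := by rw [← hωe', hR0]; ring
          rw [e1] at h1
          rcases h1 with h1 | h1
          · left; exact h1
          · right
            have e2 : xV t - c2 = xV t - xV t0 + L t0 / h t0 := by rw [hc2]; ring
            rw [e2]; exact h1
        · left
          refine hx.trans ?_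
          have hωe' : 8 * K ^ 3 * ω = s0 := by rw [hωe, min_eq_left hc]
          rw [← hωe', hR0]
          refine mul_le_mul_of_nonneg_right ?_ hω0.le
          have : K ^ 3 * 1 ≤ K ^ 3 * K ^ 3 := mul_le_mul_of_nonneg_left hK3 (by positivity)
          have e : K ^ 3 * K ^ 3 = K ^ 6 := by ring
          rw [e] at this
          linarith
      have hG12 : (G.image fun t => ⌊xV t / ω⌋) ⊆
          ((G.filter fun t => |xV t - xV t0| ≤ R0).image fun t => ⌊xV t / ω⌋) ∪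
          ((G.filter fun t => |xV t - c2| ≤ R0).image fun t => ⌊xV t / ω⌋) := by
        intro j hj
        obtain ⟨t, ht, rfl⟩ := Finset.mem_image.1 hj
        rcases hsplit t ht with h1 | h1
        · exact Finset.mem_union_left _ (Finset.mem_image_of_mem _ (Finset.mem_filter.2 ⟨ht, h1⟩))
        · exact Finset.mem_union_right _ (Finset.mem_image_of_mem _ (Finset.mem_filter.2 ⟨ht, h1⟩))
      have c1 := floor_image (G.filter fun t => |xV t - xV t0| ≤ R0) xV hω0 hR00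
        (fun t ht => (Finset.mem_filter.1 ht).2)
      have c2' := floor_image (G.filter fun t => |xV t - c2| ≤ R0) xV hω0 hR00
        (fun t ht => (Finset.mem_filter.1 ht).2)
      have c3 : ((G.image fun t => ⌊xV t / ω⌋).card : ℝ) ≤
          (((G.filter fun t => |xV t - xV t0| ≤ R0).image fun t => ⌊xV t / ω⌋).card : ℝ) +
          (((G.filter fun t => |xV t - c2| ≤ R0).image fun t => ⌊xV t / ω⌋).card : ℝ) := by
        exact_mod_cast (Finset.card_le_card hG12).trans (Finset.card_union_le _ _)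
      have e1 : 2 * R0 / ω = 1536 * K ^ 6 := by rw [hR0]; field_simp; ring
      rw [e1] at c1 c2'
      linarith
    · intro t ht
      obtain ⟨htB, htP⟩ := Finset.mem_filter.1 ht
      have h1 := H.hD t (hB htB) ω hωlow hωs0
        ((mul_le_mul_of_nonneg_right (hLB t htB).1 hω0.le).trans (by linarith)) hωsq
      refine le_trans ?_ h1
      refine Nat.cast_le.2 (Finset.card_le_card ?_)
      intro t' ht'
      obtain ⟨ht'G, ht'V⟩ := Finset.mem_filter.1 ht'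
      obtain ⟨ht'B, ht'P⟩ := Finset.mem_filter.1 ht'G
      exact Finset.mem_filter.2 ⟨hB ht'B, abs_of_floor hω0 (ht'P.trans htP.symm),
        abs_of_floor hω0 ht'V⟩
  rcases B.eq_empty_or_nonempty with he | ⟨t0, ht0⟩
  · rw [he, Finset.card_empty, Nat.cast_zero]
    have := H.D0
    positivity
  have hpos : ((B.image fun t => ⌊xP t / ω⌋).card : ℝ) ≤ 4 * (s0 / ω) := by
    refine (floor_image B xP hω0 hs0.le (a := xP t0)
      (fun t ht => H.hP t0 (hB ht0) t (hB ht))).trans ?_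
    have : 1 ≤ s0 / ω := by rw [one_le_div hω0]; exact hωs0
    have e : 2 * s0 / ω = 2 * (s0 / ω) := by ring
    rw [e]; linarith
  have h1 := card_fib B (fun t => ⌊xP t / ω⌋) (B := 3076 * K ^ 6 * Q) (by positivity) hpos hfib
  refine h1.trans ?_
  have e1 : ω ^ (1 + q) = ω * ω ^ q := by rw [Real.rpow_add hω0, Real.rpow_one]
  have e2 : s0 ^ (1 + q) = s0 * s0 ^ q := by rw [Real.rpow_add hs0, Real.rpow_one]
  have e3 : 4 * (s0 / ω) * (3076 * K ^ 6 * Q) = 12304 * K ^ 6 * Dm * s0 * s1 * ω ^ q := by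
    rw [hQ, e1]; field_simp; ring
  rw [e3, e2]
  have h2 : ω ^ q ≤ s0 ^ q := Real.rpow_le_rpow hω0.le hωs0 H.q0
  have h3 : 0 ≤ 12304 * K ^ 6 * Dm * s0 * s1 := by
    have := H.D0
    positivity
  have h4 := mul_le_mul_of_nonneg_left h2 h3
  linarith

open Classical in
/-- **the plank condition from short strips** -/
theorem plank_cells (H : PlR A xP xV L h s0 s1 K q Dm) :
    (A.card : ℝ) ≤ 40000 * K ^ 7 * (1 + Real.log (1 / s1)) * Dm * s0 ^ (1 + q) * s1 := by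
  have hK := H.hK
  have hK0 : 0 < K := by linarith
  have hs1 := H.s1p
  have hs0 : 0 < s0 := lt_of_lt_of_le hs1 H.s10
  have hs11 : s1 ≤ 1 := H.s10.trans H.s01
  set σ := Real.sqrt s1 with hσd
  have hσ : 0 < σ := Real.sqrt_pos.2 hs1
  have hσ2 : σ ^ 2 = s1 := Real.sq_sqrt hs1.le
  have hσ1 : σ ≤ 1 := by
    rw [hσd]; exact Real.sqrt_le_one.2 hs11
  have hex : ∀ t : ι, ∃ k : ℕ, |L t| ≤ 2 ^ k * σ ∧ (k = 0 ∨ (1 ≤ k ∧ 2 ^ k * σ < 2 * |L t|)) := by
    intro t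
    have he : ∃ k : ℕ, |L t| ≤ 2 ^ k * σ := by
      obtain ⟨n, hn⟩ := pow_unbounded_of_one_lt (|L t| / σ) (by norm_num : (1 : ℝ) < 2)
      rw [div_lt_iff₀ hσ] at hn
      exact ⟨n, hn.le⟩
    refine ⟨Nat.find he, Nat.find_spec he, ?_⟩
    rcases Nat.eq_zero_or_pos (Nat.find he) with h0 | h0
    · left; exact h0
    · right
      refine ⟨h0, ?_⟩
      have := Nat.find_min he (m := Nat.find he - 1) (by omega)
      push Not at this
      have e : (2 : ℝ) ^ (Nat.find he) = 2 * 2 ^ (Nat.find he - 1) := by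
        rw [← pow_succ']; congr 1; omega
      rw [e]
      linarith
  choose k hk1 hk2 using hex
  set lam := Real.log (1 / s1) with hlam
  have hlam0 : 0 ≤ lam := by
    rw [hlam]; apply Real.log_nonneg; rw [le_div_iff₀ hs1]; linarith
  have hkb : ∀ t ∈ A, (k t : ℝ) ≤ 3 * K * (1 + lam) - 1 := by
    intro t ht
    have hone : 0 ≤ 3 * K * (1 + lam) - 1 := by nlinarith
    rcases hk2 t with h0 | ⟨h0, h1⟩
    · rw [h0, Nat.cast_zero]; exact hone
    · have h2 : (2 : ℝ) ^ (k t) < 2 * K / σ := by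
        rw [lt_div_iff₀ hσ]
        have := (H.hL t ht).1
        linarith
      have h3 : Real.log ((2 : ℝ) ^ (k t)) < Real.log (2 * K / σ) :=
        Real.log_lt_log (by positivity) h2
      rw [Real.log_pow, Real.log_div (by positivity) hσ.ne', Real.log_mul (by norm_num) hK0.ne']
        at h3
      have h4 : Real.log K ≤ K - 1 := Real.log_le_sub_one_of_pos hK0
      have h5 : Real.log σ = - lam / 2 := by
        have : Real.log (σ ^ 2) = Real.log s1 := by rw [hσ2]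
        rw [Real.log_pow] at this
        rw [hlam, one_div, Real.log_inv]
        push_cast at this
        linarith
      have h6 := Real.log_two_gt_d9
      have h7 := Real.log_two_lt_d9
      rw [h5] at h3
      have h8 : (k t : ℝ) * 0.6931471803 ≤ (k t : ℝ) * Real.log 2 :=
        mul_le_mul_of_nonneg_left h6.le (Nat.cast_nonneg _)
      have h9 : (k t : ℝ) * 0.6931471803 ≤ 0.6931471808 + (K - 1) + lam / 2 := by linarith
      have h10 : lam ≤ K * lam := by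
        have := mul_le_mul_of_nonneg_right hK hlam0
        linarith
      have e10 : 3 * K * (1 + lam) - 1 = 3 * K + 3 * (K * lam) - 1 := by ring
      rw [e10]
      linarith
  have hN : ((A.image k).card : ℝ) ≤ 3 * K * (1 + lam) := by
    rcases A.eq_empty_or_nonempty with he | hne
    · rw [he, Finset.image_empty, Finset.card_empty, Nat.cast_zero]; positivity
    · obtain ⟨m, hm1, hm2⟩ := (A.image k).exists_max_image id (hne.image k)
      obtain ⟨t, ht, rfl⟩ := Finset.mem_image.1 hm1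
      have hsub : A.image k ⊆ Finset.range (k t + 1) := by
        intro j hj
        have := hm2 j hj
        rw [Finset.mem_range]
        exact Nat.lt_succ_of_le this
      have h1 := Finset.card_le_card hsub
      rw [Finset.card_range] at h1
      have h2 : ((A.image k).card : ℝ) ≤ (k t : ℝ) + 1 := by exact_mod_cast h1
      have := hkb t ht
      linarith
  have h1 := card_fib A k (N := 3 * K * (1 + lam)) (B := 12304 * K ^ 6 * Dm * s0 ^ (1 + q) * s1)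
    (by have := H.D0; positivity) hN (by
      intro t0 ht0
      refine class_bd H (σ := σ) (θ := 2 ^ (k t0) * σ) hσ hσ2 ?_ ?_ (Finset.filter_subset _ _) ?_
      · have : (1 : ℝ) ≤ 2 ^ (k t0) := one_le_pow₀ (by norm_num)
        have := mul_le_mul_of_nonneg_right this hσ.le
        linarith
      · rcases hk2 t0 with h0 | ⟨h0, h1⟩
        · rw [h0, pow_zero, one_mul]; linarith
        · have := (H.hL t0 ht0).1
          linarith
      · intro t ht
        obtain ⟨htA, htk⟩ := Finset.mem_filter.1 ht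
        rw [← htk]
        refine ⟨hk1 t, ?_⟩
        rcases hk2 t with h0 | ⟨h0, h1⟩
        · left; rw [h0, pow_zero, one_mul]
        · right
          refine ⟨?_, h1⟩
          have : (2 : ℝ) ^ 1 ≤ 2 ^ (k t) := pow_le_pow_right₀ (by norm_num) h0
          rw [pow_one] at this
          exact mul_le_mul_of_nonneg_right this hσ.le)
  refine h1.trans ?_
  have h2 : 0 ≤ K ^ 7 * (1 + lam) * Dm * s0 ^ (1 + q) * s1 := by
    have := H.D0
    positivity
  have e : 3 * K * (1 + lam) * (12304 * K ^ 6 * Dm * s0 ^ (1 + q) * s1) =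
      36912 * (K ^ 7 * (1 + lam) * Dm * s0 ^ (1 + q) * s1) := by ring
  have e2 : 40000 * K ^ 7 * (1 + lam) * Dm * s0 ^ (1 + q) * s1 =
      40000 * (K ^ 7 * (1 + lam) * Dm * s0 ^ (1 + q) * s1) := by ring
  rw [e, e2]
  linarith

end

end Crest.Agent.R136.Kf605
end

-- ▼ part R136/Kf3_605

/-!
# R136: the relation between two lines of a plank of a curved sheet (helper605)

`rel` : in tangent coordinates of `T`, the lateral velocity difference `x` along the long axis of a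
thin strip satisfies `|L x + h x ^ 2| ≤ 2000 (|L| |xP| + xP ^ 2 + |xP| |x| + s)`.
`nondeg` : `|L| + |h| ≥ 50000 δ` (`δ` = determinant of the fan).
-/

set_option autoImplicit false
set_option linter.unusedVariables false

namespace Crest.Agent.R136.Kf605

open Finset
open Crest.Agent.R136.Sh605 Crest.Agent.R136.K4
open Crest.Agent.R136.Tl102 (QF Fq bz shB0 shB1 shG scB1 scG kap NrmC IsExp StP fr fan slp)
open Crest.Agent.R136.Lgt989

theorem mul_ab {a b s t : ℝ} (ha : |a| ≤ s) (hb : |b| ≤ t) : |a * b| ≤ s * t := by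
  rw [abs_mul]; exact mul_le_mul ha hb (abs_nonneg _) ((abs_nonneg _).trans ha)

/-- lateral part of the form -/
def G2 (G : QF) (x y : ℝ) : ℝ := G.uu * x ^ 2 + G.uv * (x * y) + G.vv * y ^ 2

section

variable {N0 γ : V3} {G : QF} {ε s b1 b2 : ℝ} {p v : V3}

theorem G2_le (hG : G.Le 13) {x y r : ℝ} (hx : |x| ≤ r) (hy : |y| ≤ r) : |G2 G x y| ≤ 39 * r ^ 2 := by
  obtain ⟨-, -, -, g4, g5, g6⟩ := hG
  have a1 := mul_ab g4 (mul_ab hx hx)
  have a2 := mul_ab g5 (mul_ab hx hy)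
  have a3 := mul_ab g6 (mul_ab hy hy)
  have e : G2 G x y = G.uu * (x * x) + G.uv * (x * y) + G.vv * (y * y) := by unfold G2; ring
  rw [e]
  refine (abs_add_le _ _).trans ((add_le_add ((abs_add_le _ _).trans (add_le_add a1 a2)) a3).trans ?_)
  nlinarith

/-- decomposition of the lateral form along the axes of the strip -/
theorem G2_dec (G : QF) {b1 b2 x1 x2 : ℝ} (hb : b1 ^ 2 + b2 ^ 2 = 1) :
    G2 G x1 x2 = G2 G b1 b2 * (b1 * x1 + b2 * x2) ^ 2 +
      (2 * G.uu * (b1 * -b2) + G.uv * (b1 * b1 - b2 * b2) + 2 * G.vv * (b2 * b1)) *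
        ((b1 * x1 + b2 * x2) * (-b2 * x1 + b1 * x2)) +
      G2 G (-b2) b1 * (-b2 * x1 + b1 * x2) ^ 2 := by
  have e1 : x1 = b1 * (b1 * x1 + b2 * x2) - b2 * (-b2 * x1 + b1 * x2) := by
    linear_combination (-x1) * hb
  have e2 : x2 = b2 * (b1 * x1 + b2 * x2) + b1 * (-b2 * x1 + b1 * x2) := by
    linear_combination (-x2) * hb
  set X := b1 * x1 + b2 * x2 with hX
  set Y := -b2 * x1 + b1 * x2 with hY
  rw [e1, e2]
  unfold G2
  ring

theorem b_le (hb : b1 ^ 2 + b2 ^ 2 = 1) : |b1| ≤ 1 ∧ |b2| ≤ 1 := by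
  constructor
  · rw [← sq_le_one_iff_abs_le_one]; linarith [sq_nonneg b2]
  · rw [← sq_le_one_iff_abs_le_one]; linarith [sq_nonneg b1]

theorem cross_le (hG : G.Le 13) (hb : b1 ^ 2 + b2 ^ 2 = 1) :
    |2 * G.uu * (b1 * -b2) + G.uv * (b1 * b1 - b2 * b2) + 2 * G.vv * (b2 * b1)| ≤ 78 := by
  obtain ⟨-, -, -, g4, g5, g6⟩ := hG
  obtain ⟨h1, h2⟩ := b_le hb
  have c1 : |b1 * -b2| ≤ 1 * 1 := mul_ab h1 (by rwa [abs_neg])
  have c2 : |b2 * b1| ≤ 1 * 1 := mul_ab h2 h1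
  have c3 : |b1 * b1 - b2 * b2| ≤ 2 := by
    refine (abs_sub _ _).trans ?_
    have := mul_ab h1 h1
    have := mul_ab h2 h2
    linarith
  have t2 : |(2 : ℝ)| ≤ 2 := by norm_num
  have a1 := mul_ab (mul_ab t2 g4) c1
  have a2 := mul_ab g5 c3
  have a3 := mul_ab (mul_ab t2 g6) c2
  refine (abs_add_le _ _).trans ((add_le_add ((abs_add_le _ _).trans (add_le_add a1 a2)) a3).trans ?_)
  norm_num

/-- the components of a lateral vector -/
theorem comp_le (hb : b1 ^ 2 + b2 ^ 2 = 1) (x1 x2 : ℝ) :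
    |x1| ≤ |b1 * x1 + b2 * x2| + |-b2 * x1 + b1 * x2| ∧
    |x2| ≤ |b1 * x1 + b2 * x2| + |-b2 * x1 + b1 * x2| := by
  obtain ⟨h1, h2⟩ := b_le hb
  have e1 : x1 = b1 * (b1 * x1 + b2 * x2) - b2 * (-b2 * x1 + b1 * x2) := by
    linear_combination (-x1) * hb
  have e2 : x2 = b2 * (b1 * x1 + b2 * x2) + b1 * (-b2 * x1 + b1 * x2) := by
    linear_combination (-x2) * hb
  constructor
  · conv_lhs => rw [e1]
    refine (abs_sub _ _).trans ?_
    rw [abs_mul, abs_mul]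
    exact add_le_add (mul_le_of_le_one_left (abs_nonneg _) h1)
      (mul_le_of_le_one_left (abs_nonneg _) h2)
  · conv_lhs => rw [e2]
    refine (abs_add_le _ _).trans ?_
    rw [abs_mul, abs_mul]
    exact add_le_add (mul_le_of_le_one_left (abs_nonneg _) h2)
      (mul_le_of_le_one_left (abs_nonneg _) h1)

theorem abs3 {a b c x y z : ℝ} (h1 : |a| ≤ x) (h2 : |b| ≤ y) (h3 : |c| ≤ z) :
    |a + b + c| ≤ x + y + z :=
  (abs_add_le _ _).trans (add_le_add ((abs_add_le _ _).trans (add_le_add h1 h2)) h3)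

theorem abs2 {a b x y : ℝ} (h1 : |a| ≤ x) (h2 : |b| ≤ y) : |a + b| ≤ x + y :=
  (abs_add_le _ _).trans (add_le_add h1 h2)

/-- lateral form, thin second component -/
theorem G2_thin (hG : G.Le 13) (hb : b1 ^ 2 + b2 ^ 2 = 1) {x1 x2 : ℝ}
    (hX : |b1 * x1 + b2 * x2| ≤ 1) (hs : s ≤ 1) (hY : |-b2 * x1 + b1 * x2| ≤ s) :
    |G2 G x1 x2 - G2 G b1 b2 * (b1 * x1 + b2 * x2) ^ 2| ≤ 117 * s := by
  obtain ⟨h1, h2⟩ := b_le hb
  have hs0 : 0 ≤ s := (abs_nonneg _).trans hY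
  have e : G2 G x1 x2 - G2 G b1 b2 * (b1 * x1 + b2 * x2) ^ 2 =
      (2 * G.uu * (b1 * -b2) + G.uv * (b1 * b1 - b2 * b2) + 2 * G.vv * (b2 * b1)) *
        ((b1 * x1 + b2 * x2) * (-b2 * x1 + b1 * x2)) +
      G2 G (-b2) b1 * ((-b2 * x1 + b1 * x2) * (-b2 * x1 + b1 * x2)) := by
    rw [G2_dec G hb]; ring
  rw [e]
  have a2 := mul_ab (cross_le hG hb) (mul_ab hX hY)
  have a3 := mul_ab (G2_le hG (x := -b2) (by rwa [abs_neg]) h1) (mul_ab hY hY)
  refine (abs2 a2 a3).trans ?_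
  have : s * s ≤ 1 * s := mul_le_mul_of_nonneg_right hs hs0
  linarith

/-- thickness coordinate of the position -/
theorem rel_p0 (n0 : 1 / 2 ≤ N0 0) (n1 : N0 1 = 0) (n2 : N0 2 = 0) (hG : G.Le 13)
    (hp : ∀ k, |p k| ≤ 1 / 1000) (k0 : |dt N0 p + G.ev p| ≤ ε) {Q : ℝ}
    (q1 : |G2 G (p 1) (p 2)| ≤ Q) : |p 0| ≤ 3 * (ε + Q) := by
  obtain ⟨g1, g2, g3, g4, g5, g6⟩ := id hG
  have e1 : N0 0 * p 0 = (dt N0 p + G.ev p) + (-G2 G (p 1) (p 2)) +
      (-(p 0 * (G.yy * p 0 + (G.yu * p 1 + G.yv * p 2)))) := by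
    simp only [dt, QF.ev, G2, n1, n2]; ring
  have a1 : |G.yy * p 0 + (G.yu * p 1 + G.yv * p 2)| ≤ 39 / 1000 :=
    (abs2 (mul_ab g1 (hp 0)) (abs2 (mul_ab g2 (hp 1)) (mul_ab g3 (hp 2)))).trans (by norm_num)
  have a2 := mul_ab (le_refl |p 0|) a1
  have a3 : |N0 0 * p 0| ≤ ε + Q + |p 0| * (39 / 1000) := by
    rw [e1]
    exact abs3 k0 (by rwa [abs_neg]) (by rwa [abs_neg])
  have a4 : 1 / 2 * |p 0| ≤ |N0 0 * p 0| := by
    rw [abs_mul, abs_of_pos (by linarith : 0 < N0 0)]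
    exact mul_le_mul_of_nonneg_right n0 (abs_nonneg _)
  have hε0 : 0 ≤ ε := (abs_nonneg _).trans k0
  have hQ0 : 0 ≤ Q := (abs_nonneg _).trans q1
  linarith

/-- bilinear lateral form -/
theorem rel_bil (hG : G.Le 13) {P V : ℝ} (hp1 : |p 1| ≤ P) (hp2 : |p 2| ≤ P) (hv1 : |v 1| ≤ V)
    (hv2 : |v 2| ≤ V) :
    |2 * G.uu * (p 1 * v 1) + G.uv * (p 1 * v 2 + p 2 * v 1) + 2 * G.vv * (p 2 * v 2)| ≤
      78 * (P * V) := by
  obtain ⟨g1, g2, g3, g4, g5, g6⟩ := hG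
  have t2 : |(2 : ℝ)| ≤ 2 := by norm_num
  have a1 := mul_ab (mul_ab t2 g4) (mul_ab hp1 hv1)
  have a2 := mul_ab g5 (abs2 (mul_ab hp1 hv2) (mul_ab hp2 hv1))
  have a3 := mul_ab (mul_ab t2 g6) (mul_ab hp2 hv2)
  refine (abs3 a1 a2 a3).trans (le_of_eq (by ring))

/-- thickness coordinate of the velocity -/
theorem rel_v0 (n0 : 1 / 2 ≤ N0 0) (n1 : N0 1 = 0) (n2 : N0 2 = 0) (hγ : ∀ k, |γ k| ≤ 3 / 2)
    (hG : G.Le 13) (hp : ∀ k, |p k| ≤ 1 / 1000) (hv : ∀ k, |v k| ≤ 1 / 1000)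
    (k1 : |dt N0 v + dt γ p + G.pol p v| ≤ 8 * ε) {Q1 Q2 : ℝ}
    (h1 : |γ 1 * p 1 + γ 2 * p 2| ≤ Q1)
    (h2 : |2 * G.uu * (p 1 * v 1) + G.uv * (p 1 * v 2 + p 2 * v 1) + 2 * G.vv * (p 2 * v 2)| ≤ Q2) :
    |v 0| ≤ 3 * (8 * ε + 2 * |p 0| + Q1 + Q2) := by
  obtain ⟨g1, g2, g3, g4, g5, g6⟩ := hG
  have e1 : N0 0 * v 0 = ((dt N0 v + dt γ p + G.pol p v) + (-(γ 0 * p 0)) +
      (-(γ 1 * p 1 + γ 2 * p 2))) +
      (-(2 * G.uu * (p 1 * v 1) + G.uv * (p 1 * v 2 + p 2 * v 1) + 2 * G.vv * (p 2 * v 2))) +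
      (-(p 0 * (G.yu * v 1 + G.yv * v 2)) + -(v 0 * (2 * G.yy * p 0 + G.yu * p 1 + G.yv * p 2))) := by
    simp only [dt, QF.pol, n1, n2]; ring
  have t2 : |(2 : ℝ)| ≤ 2 := by norm_num
  have a1 : |G.yu * v 1 + G.yv * v 2| ≤ 26 / 1000 :=
    (abs2 (mul_ab g2 (hv 1)) (mul_ab g3 (hv 2))).trans (by norm_num)
  have a2 : |2 * G.yy * p 0 + G.yu * p 1 + G.yv * p 2| ≤ 52 / 1000 :=
    (abs3 (mul_ab (mul_ab t2 g1) (hp 0)) (mul_ab g2 (hp 1)) (mul_ab g3 (hp 2))).trans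
      (by norm_num)
  have a3 := mul_ab (le_refl |p 0|) a1
  have a4 := mul_ab (le_refl |v 0|) a2
  have a5 := mul_ab (hγ 0) (le_refl |p 0|)
  have a7 : |N0 0 * v 0| ≤ (8 * ε + 3 / 2 * |p 0| + Q1) + Q2 + (|p 0| * (26 / 1000) +
      |v 0| * (52 / 1000)) := by
    rw [e1]
    exact abs3 (abs3 k1 (by rwa [abs_neg]) (by rwa [abs_neg])) (by rwa [abs_neg])
      (abs2 (by rwa [abs_neg]) (by rwa [abs_neg]))
  have a8 : 1 / 2 * |v 0| ≤ |N0 0 * v 0| := by
    rw [abs_mul, abs_of_pos (by linarith : 0 < N0 0)]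
    exact mul_le_mul_of_nonneg_right n0 (abs_nonneg _)
  have hp00 := abs_nonneg (p 0)
  have hv00 := abs_nonneg (v 0)
  have hQ1 : 0 ≤ Q1 := (abs_nonneg _).trans h1
  have hQ2 : 0 ≤ Q2 := (abs_nonneg _).trans h2
  have hε0 : 0 ≤ 8 * ε := (abs_nonneg _).trans k1
  linarith

/-- last coefficient -/
theorem rel_end (hγ : ∀ k, |γ k| ≤ 3 / 2) (hG : G.Le 13) (hv : ∀ k, |v k| ≤ 1 / 1000)
    (k2 : |dt γ v + G.ev v| ≤ 8 * ε) :
    |γ 1 * v 1 + γ 2 * v 2 + G2 G (v 1) (v 2)| ≤ 8 * ε + 2 * |v 0| := by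
  obtain ⟨g1, g2, g3, g4, g5, g6⟩ := hG
  have e1 : γ 1 * v 1 + γ 2 * v 2 + G2 G (v 1) (v 2) = (dt γ v + G.ev v) + (-(γ 0 * v 0)) +
      (-(v 0 * (G.yy * v 0 + (G.yu * v 1 + G.yv * v 2)))) := by
    simp only [dt, QF.ev, G2]; ring
  have a1 : |G.yy * v 0 + (G.yu * v 1 + G.yv * v 2)| ≤ 39 / 1000 :=
    (abs2 (mul_ab g1 (hv 0)) (abs2 (mul_ab g2 (hv 1)) (mul_ab g3 (hv 2)))).trans (by norm_num)
  have a2 := mul_ab (le_refl |v 0|) a1
  have a3 := mul_ab (hγ 0) (le_refl |v 0|)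
  rw [e1]
  refine (abs3 k2 ((abs_neg _).le.trans a3) ((abs_neg _).le.trans a2)).trans ?_
  linarith [abs_nonneg (v 0)]

set_option maxHeartbeats 1000000 in
/-- **the relation between two lines of a strip** -/
theorem rel (n0 : 1 / 2 ≤ N0 0) (n1 : N0 1 = 0) (n2 : N0 2 = 0) (hγ : ∀ k, |γ k| ≤ 3 / 2)
    (hG : G.Le 13) (hb : b1 ^ 2 + b2 ^ 2 = 1) (hp : ∀ k, |p k| ≤ 1 / 1000)
    (hv : ∀ k, |v k| ≤ 1 / 1000) (k0 : |dt N0 p + G.ev p| ≤ ε)
    (k1 : |dt N0 v + dt γ p + G.pol p v| ≤ 8 * ε) (k2 : |dt γ v + G.ev v| ≤ 8 * ε) (hε : ε ≤ s)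
    (hs : s ≤ 1) (hyp : |-b2 * p 1 + b1 * p 2| ≤ s) (hyv : |-b2 * v 1 + b1 * v 2| ≤ s) :
    |(γ 1 * b1 + γ 2 * b2) * (b1 * v 1 + b2 * v 2) + G2 G b1 b2 * (b1 * v 1 + b2 * v 2) ^ 2| ≤
      10000 * (|γ 1 * b1 + γ 2 * b2| * |b1 * p 1 + b2 * p 2| + (b1 * p 1 + b2 * p 2) ^ 2 +
        |b1 * p 1 + b2 * p 2| * |b1 * v 1 + b2 * v 2| + s) := by
  obtain ⟨h1, h2⟩ := b_le hb
  have hs0 : 0 ≤ s := (abs_nonneg _).trans hyp
  obtain ⟨cp1, cp2⟩ := comp_le hb (p 1) (p 2)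
  obtain ⟨cv1, cv2⟩ := comp_le hb (v 1) (v 2)
  have hLn3 : |-γ 1 * b2 + γ 2 * b1| ≤ 3 := by
    refine (abs2 (mul_ab (s := 3 / 2) (by rw [abs_neg]; exact hγ 1) h2) (mul_ab (hγ 2) h1)).trans ?_
    norm_num
  have hX1 : |b1 * v 1 + b2 * v 2| ≤ 1 :=
    (abs2 (mul_ab h1 (hv 1)) (mul_ab h2 (hv 2))).trans (by norm_num)
  have hXP1 : |b1 * p 1 + b2 * p 2| ≤ 1 :=
    (abs2 (mul_ab h1 (hp 1)) (mul_ab h2 (hp 2))).trans (by norm_num)
  have q1 := G2_thin hG hb hXP1 hs hyp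
  have q1' := G2_thin hG hb hX1 hs hyv
  have gb : |G2 G b1 b2| ≤ 39 := (G2_le hG h1 h2).trans (by norm_num)
  have ep : γ 1 * p 1 + γ 2 * p 2 = (γ 1 * b1 + γ 2 * b2) * (b1 * p 1 + b2 * p 2) +
      (-γ 1 * b2 + γ 2 * b1) * (-b2 * p 1 + b1 * p 2) := by
    linear_combination (-(γ 1 * p 1 + γ 2 * p 2)) * hb
  have ev : γ 1 * v 1 + γ 2 * v 2 = (γ 1 * b1 + γ 2 * b2) * (b1 * v 1 + b2 * v 2) +
      (-γ 1 * b2 + γ 2 * b1) * (-b2 * v 1 + b1 * v 2) := by
    linear_combination (-(γ 1 * v 1 + γ 2 * v 2)) * hb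
  generalize hX : b1 * v 1 + b2 * v 2 = X at *
  generalize hY : -b2 * v 1 + b1 * v 2 = Y at *
  generalize hXP : b1 * p 1 + b2 * p 2 = XP at *
  generalize hYP : -b2 * p 1 + b1 * p 2 = YP at *
  generalize hL : γ 1 * b1 + γ 2 * b2 = L at *
  generalize hLn : -γ 1 * b2 + γ 2 * b1 = Ln at *
  have X0 := abs_nonneg X
  have XP0 := abs_nonneg XP
  have L0 := abs_nonneg L
  have XPX : 0 ≤ |XP| * |X| := mul_nonneg XP0 X0
  have LXP : 0 ≤ |L| * |XP| := mul_nonneg L0 XP0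
  have XPsq : 0 ≤ XP ^ 2 := sq_nonneg _
  have hp0 := rel_p0 n0 n1 n2 hG hp k0 (Q := 39 * XP ^ 2 + 117 * s) (by
    have e : G2 G (p 1) (p 2) = G2 G b1 b2 * XP ^ 2 + (G2 G (p 1) (p 2) - G2 G b1 b2 * XP ^ 2) := by
      ring
    rw [e]
    refine abs2 ?_ q1
    rw [abs_mul, abs_of_nonneg XPsq]
    exact mul_le_mul_of_nonneg_right gb XPsq)
  have hbil := rel_bil (p := p) (v := v) hG (P := |XP| + s) (V := |X| + s) (by linarith)
    (by linarith) (by linarith) (by linarith)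
  have hprod : (|XP| + s) * (|X| + s) ≤ |XP| * |X| + 3 * s := by
    have a1 : s * |X| ≤ s * 1 := mul_le_mul_of_nonneg_left hX1 hs0
    have a2 : |XP| * s ≤ 1 * s := mul_le_mul_of_nonneg_right hXP1 hs0
    have a3 : s * s ≤ 1 * s := mul_le_mul_of_nonneg_right hs hs0
    have e : (|XP| + s) * (|X| + s) = |XP| * |X| + s * |X| + |XP| * s + s * s := by ring
    rw [e]; linarith
  have hγp : |γ 1 * p 1 + γ 2 * p 2| ≤ |L| * |XP| + 3 * s := by
    rw [ep]
    exact abs2 (abs_mul _ _).le (mul_ab hLn3 hyp)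
  have hv0 := rel_v0 n0 n1 n2 hγ hG hp hv k1 hγp hbil
  have hend := rel_end hγ hG hv k2
  have e1 : L * X + G2 G b1 b2 * X ^ 2 = (γ 1 * v 1 + γ 2 * v 2 + G2 G (v 1) (v 2)) +
      (-(Ln * Y)) + (-(G2 G (v 1) (v 2) - G2 G b1 b2 * X ^ 2)) := by
    rw [ev]; ring
  have a4 := mul_ab hLn3 hyv
  rw [e1]
  refine (abs3 hend ((abs_neg _).le.trans a4) ((abs_neg _).le.trans q1')).trans ?_
  have hbil' : 78 * ((|XP| + s) * (|X| + s)) ≤ 78 * (|XP| * |X| + 3 * s) := by linarith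
  linarith

/-- **non-degeneracy along every direction** -/
theorem nondeg (hγ : ∀ k, |γ k| ≤ 3 / 2) (hG : G.Le 13) (hb : b1 ^ 2 + b2 ^ 2 = 1) {δ : ℝ}
    (hδ : 16777216 * δ ≤ |γ 1 * γ 2 * G.uv - γ 1 ^ 2 * G.vv - γ 2 ^ 2 * G.uu|) :
    40000 * δ ≤ |γ 1 * b1 + γ 2 * b2| + |G2 G b1 b2| := by
  obtain ⟨h1, h2⟩ := b_le hb
  have e0 : γ 1 * γ 2 * G.uv - γ 1 ^ 2 * G.vv - γ 2 ^ 2 * G.uu = -G2 G (γ 2) (-γ 1) := by
    unfold G2; ring
  rw [e0, abs_neg, G2_dec G hb] at hδ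
  set A := b1 * γ 2 + b2 * -γ 1 with hA
  set B := -b2 * γ 2 + b1 * -γ 1 with hB
  have eB : |B| = |γ 1 * b1 + γ 2 * b2| := by
    rw [hB, ← abs_neg]; congr 1; ring
  have hA3 : |A| ≤ 3 := by
    refine (abs2 (mul_ab h1 (hγ 2)) (mul_ab (t := 3 / 2) h2 (by rw [abs_neg]; exact hγ 1))).trans ?_
    norm_num
  have hB3 : |B| ≤ 3 := by
    refine (abs2 (mul_ab (s := 1) (by rwa [abs_neg]) (hγ 2))
      (mul_ab (t := 3 / 2) h1 (by rw [abs_neg]; exact hγ 1))).trans ?_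
    norm_num
  have a1 : |G2 G b1 b2 * A ^ 2| ≤ |G2 G b1 b2| * 9 := by
    refine mul_ab le_rfl ?_
    rw [abs_pow]
    calc |A| ^ 2 ≤ 3 ^ 2 := pow_le_pow_left₀ (abs_nonneg _) hA3 2
      _ = 9 := by norm_num
  have a2 := mul_ab (cross_le hG hb) (mul_ab hA3 (le_refl |B|))
  have a3 : |G2 G (-b2) b1 * B ^ 2| ≤ 39 * (3 * |B|) := by
    refine mul_ab ((G2_le hG (x := -b2) (by rwa [abs_neg]) h1).trans (by norm_num)) ?_
    rw [abs_pow, pow_two]
    exact mul_le_mul_of_nonneg_right hB3 (abs_nonneg _)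
  have a4 := hδ.trans (abs3 a1 a2 a3)
  rw [← eB]
  have := abs_nonneg B
  have := abs_nonneg (G2 G b1 b2)
  linarith

end

end Crest.Agent.R136.Kf605
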