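import Crest.Agent.R136.Us3_555
import Crest.Agent.R136.KapP_335
import Crest.Agent.R136.Tlt0_51

-- ▼ part R136/Prs1_262
section

/-!
# R136 (S0187), U6 thin side (helper262): persistence of the curvature, finite part

`kap_le_of_slab` : if the zero set of a normalised quadratic function lies in a slab of half-thickness
`ε`, then the curvature extent is at most `10 ^ 6 ε / t ^ 2`.

`root` : explicit root of a quadratic equation, continuous in the coefficients.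
-/

set_option autoImplicit false
set_option linter.unusedVariables false

open Finset

namespace Crest.Agent.R136.Prs262

open Crest.Agent.R136.Sh605 Crest.Agent.R136.K4
open Crest.Agent.R136.Tl102 (QF Fq bz shB0 shB1 shG kap NrmC IsExp fr cmb unsh Fq_unsh StP)
open Crest.Agent.R136.Us555 (kap_entries abs_mul_le2)

/-! ### explicit root -/

/-- the small root of `A x ^ 2 + B x + C = 0` -/
noncomputable def rt (A B C : ℝ) : ℝ := -(2 * C) / (B + Real.sqrt (B ^ 2 - 4 * A * C))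

theorem rt_eq {A B C : ℝ} (hB : 0 < B) (h : 4 * |A| * |C| ≤ B ^ 2) :
    A * rt A B C ^ 2 + B * rt A B C + C = 0 := by
  have hAC : 4 * A * C ≤ 4 * |A| * |C| := by
    have := le_abs_self (A * C)
    rw [abs_mul] at this
    linarith
  have hD : 0 ≤ B ^ 2 - 4 * A * C := by linarith
  have hs := Real.sq_sqrt hD
  have hs0 := Real.sqrt_nonneg (B ^ 2 - 4 * A * C)
  unfold rt
  set s := Real.sqrt (B ^ 2 - 4 * A * C) with hsdef
  have hp : 0 < B + s := by linarith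
  field_simp
  linear_combination C * hs

theorem rt_abs {A B C : ℝ} (hB : 0 < B) : |rt A B C| ≤ 2 * |C| / B := by
  have hs0 := Real.sqrt_nonneg (B ^ 2 - 4 * A * C)
  unfold rt
  have hp : 0 < B + Real.sqrt (B ^ 2 - 4 * A * C) := by linarith
  rw [abs_div, abs_neg, abs_mul, abs_two, abs_of_pos hp]
  exact div_le_div_of_nonneg_left (by positivity) hB (by linarith)

/-! ### the zero set as a graph -/

section graph

variable {b0 b1 : V3} {G : QF}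

/-- coefficient of `x 0` -/
def cB (b0 b1 : V3) (G : QF) (ζ u v : ℝ) : ℝ := b0 0 + ζ * b1 0 + G.yu * u + G.yv * v
/-- the part without `x 0` -/
def cC (b0 b1 : V3) (G : QF) (ζ u v : ℝ) : ℝ :=
  (b0 1 + ζ * b1 1) * u + (b0 2 + ζ * b1 2) * v + (G.uu * u ^ 2 + G.uv * (u * v) + G.vv * v ^ 2)

/-- the zero set over the lateral coordinates -/
noncomputable def gp (b0 b1 : V3) (G : QF) (ζ u v : ℝ) : ℝ :=
  rt G.yy (cB b0 b1 G ζ u v) (cC b0 b1 G ζ u v)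

theorem Fq_eq (b0 b1 : V3) (G : QF) (ζ p u v : ℝ) :
    Fq b0 b1 G ζ ![p, u, v] = G.yy * p ^ 2 + cB b0 b1 G ζ u v * p + cC b0 b1 G ζ u v := by
  simp only [Fq, dt, bz, QF.ev, cB, cC, Matrix.cons_val]
  ring

theorem b_zeta (N : NrmC b0 b1 G) {ζ : ℝ} (h0 : 0 ≤ ζ) (h1 : ζ ≤ 1) :
    1 / 2 ≤ b0 0 + ζ * b1 0 ∧ b0 0 + ζ * b1 0 ≤ 2 ∧ |b0 1 + ζ * b1 1| ≤ 1 ∧
      |b0 2 + ζ * b1 2| ≤ 1 := by
  have a0 : |(0 : ℝ)| ≤ 1 := by norm_num
  have h := N.st ζ h0 h1 0 0 0 a0 a0 a0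
  norm_num at h
  have k : ∀ x y : ℝ, |x| ≤ 1 → |x + y| ≤ 1 → |x + ζ * y| ≤ 1 := by
    intro x y hx hy
    have e1 : x + ζ * y = (1 - ζ) * x + ζ * (x + y) := by ring
    rw [e1]
    rw [abs_le] at hx hy ⊢
    constructor <;> nlinarith [hx.1, hx.2, hy.1, hy.2]
  exact ⟨h.1, h.2, k _ _ N.b01 N.b11, k _ _ N.b02 N.b12⟩

/-- **the zero set is a graph** -/
theorem gp_spec (N : NrmC b0 b1 G) {ζ : ℝ} (h0 : 0 ≤ ζ) (h1 : ζ ≤ 1) {t u v : ℝ} (t0 : 0 ≤ t)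
    (ht : t ≤ 1 / 64) (hu : |u| ≤ t) (hv : |v| ≤ t) :
    15 / 32 ≤ cB b0 b1 G ζ u v ∧ cB b0 b1 G ζ u v ≤ 3 ∧ |cC b0 b1 G ζ u v| ≤ 5 / 2 * t ∧
      Fq b0 b1 G ζ ![gp b0 b1 G ζ u v, u, v] = 0 ∧ |gp b0 b1 G ζ u v| ≤ 12 * t := by
  obtain ⟨s1, s2, s3, s4⟩ := b_zeta N h0 h1
  obtain ⟨m1, m2, m3, m4, m5, m6⟩ := N.G_le
  have hB : 15 / 32 ≤ cB b0 b1 G ζ u v ∧ cB b0 b1 G ζ u v ≤ 3 := by
    have e1 := abs_mul_le2 m2 hu
    have e2 := abs_mul_le2 m3 hv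
    rw [abs_le] at e1 e2
    unfold cB
    constructor <;> linarith [e1.1, e1.2, e2.1, e2.2]
  have hC : |cC b0 b1 G ζ u v| ≤ 5 / 2 * t := by
    unfold cC
    have u2 : |u ^ 2| ≤ t * t := by rw [sq]; exact abs_mul_le2 hu hu
    have v2 : |v ^ 2| ≤ t * t := by rw [sq]; exact abs_mul_le2 hv hv
    have uv := abs_mul_le2 hu hv
    have e1 := abs_mul_le2 s3 hu
    have e2 := abs_mul_le2 s4 hv
    have e3 := abs_mul_le2 m4 u2
    have e4 := abs_mul_le2 m5 uv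
    have e5 := abs_mul_le2 m6 v2
    have e6 := abs_add_le (G.uu * u ^ 2) (G.uv * (u * v))
    have e7 := abs_add_le (G.uu * u ^ 2 + G.uv * (u * v)) (G.vv * v ^ 2)
    have e8 := abs_add_le ((b0 1 + ζ * b1 1) * u) ((b0 2 + ζ * b1 2) * v)
    have e9 := abs_add_le ((b0 1 + ζ * b1 1) * u + (b0 2 + ζ * b1 2) * v)
      (G.uu * u ^ 2 + G.uv * (u * v) + G.vv * v ^ 2)
    have e10 : 3 * (t * t) ≤ 1 / 2 * t := by nlinarith
    linarith
  have hB0 : 0 < cB b0 b1 G ζ u v := by linarith [hB.1]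
  refine ⟨hB.1, hB.2, hC, ?_, ?_⟩
  · rw [Fq_eq]
    refine rt_eq hB0 ?_
    have e1 : |G.yy| * |cC b0 b1 G ζ u v| ≤ 1 * (5 / 2 * t) :=
      mul_le_mul m1 hC (abs_nonneg _) zero_le_one
    nlinarith [hB.1]
  · refine (rt_abs hB0).trans ?_
    rw [div_le_iff₀ hB0]
    nlinarith [hB.1]

/-- continuity of the graph along a ray -/
theorem gp_cont (N : NrmC b0 b1 G) {ζ : ℝ} (h0 : 0 ≤ ζ) (h1 : ζ ≤ 1) {t u v : ℝ} (t0 : 0 ≤ t)
    (ht : t ≤ 1 / 64) (hu : |u| ≤ t) (hv : |v| ≤ t) :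
    ContinuousOn (fun s : ℝ => gp b0 b1 G ζ (s * u) (s * v)) (Set.Icc 0 1) := by
  intro s hs
  have hsu : |s * u| ≤ t := by
    rw [abs_mul, abs_of_nonneg hs.1]
    nlinarith [hs.1, hs.2, abs_nonneg u]
  have hsv : |s * v| ≤ t := by
    rw [abs_mul, abs_of_nonneg hs.1]
    nlinarith [hs.1, hs.2, abs_nonneg v]
  obtain ⟨hB, -⟩ := gp_spec N h0 h1 t0 ht hsu hsv
  have hne : cB b0 b1 G ζ (s * u) (s * v) + Real.sqrt (cB b0 b1 G ζ (s * u) (s * v) ^ 2 -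
      4 * G.yy * cC b0 b1 G ζ (s * u) (s * v)) ≠ 0 := by
    have := Real.sqrt_nonneg (cB b0 b1 G ζ (s * u) (s * v) ^ 2 -
      4 * G.yy * cC b0 b1 G ζ (s * u) (s * v))
    linarith
  have cBc : Continuous fun s : ℝ => cB b0 b1 G ζ (s * u) (s * v) := by unfold cB; fun_prop
  have cCc : Continuous fun s : ℝ => cC b0 b1 G ζ (s * u) (s * v) := by unfold cC; fun_prop
  have c1 : Continuous fun s : ℝ => -(2 * cC b0 b1 G ζ (s * u) (s * v)) := by fun_prop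
  have c2 : Continuous fun s : ℝ => cB b0 b1 G ζ (s * u) (s * v) +
      Real.sqrt (cB b0 b1 G ζ (s * u) (s * v) ^ 2 - 4 * G.yy * cC b0 b1 G ζ (s * u) (s * v)) :=
    cBc.add (Real.continuous_sqrt.comp (by fun_prop))
  exact (c1.continuousAt.div c2.continuousAt hne).continuousWithinAt

/-! ### slab ⊢ small curvature -/

theorem bd_sub {x y X Y : ℝ} (hx : |x| ≤ X) (hy : |y| ≤ Y) : |x - y| ≤ X + Y :=
  (abs_sub _ _).trans (add_le_add hx hy)

theorem bd_add {x y X Y : ℝ} (hx : |x| ≤ X) (hy : |y| ≤ Y) : |x + y| ≤ X + Y :=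
  (abs_add_le _ _).trans (add_le_add hx hy)

/-- the zero set lies in a slab ⊢ the function is small on a plane -/
theorem plane_of_slab (N : NrmC b0 b1 G) {t ε : ℝ} (t0 : 0 < t) (ht : t ≤ 1 / 1024)
    (hsm : ε ≤ t / 4) {h : V3} (hh : 1 / 2 ≤ |h 0| ∨ 1 / 2 ≤ |h 1| ∨ 1 / 2 ≤ |h 2|)
    (hyp : ∀ ζ, 0 ≤ ζ → ζ ≤ 1 → ∀ u v, |u| ≤ t → |v| ≤ t →
      |h 0 * gp b0 b1 G ζ u v + h 1 * u + h 2 * v| ≤ ε) :
    ∃ α β : ℝ, |α| ≤ 24 ∧ |β| ≤ 24 ∧ ∀ ζ, 0 ≤ ζ → ζ ≤ 1 → ∀ u v, |u| ≤ t → |v| ≤ t →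
      |Fq b0 b1 G ζ ![α * u + β * v, u, v]| ≤ 192 * ε := by
  have ht32 : t ≤ 1 / 64 := by linarith
  have tt : |t| ≤ t := by rw [abs_of_pos t0]
  have z0 : |(0 : ℝ)| ≤ t := by rw [abs_zero]; exact t0.le
  have gen : ∀ x : ℝ, |x| * t ≤ ε + |h 0| * (12 * t) → |x| ≤ 1 / 4 + 12 * |h 0| := by
    intro x hx
    by_contra hc
    push Not at hc
    have := mul_lt_mul_of_pos_right hc t0
    nlinarith
  have a1 : |h 1| ≤ 1 / 4 + 12 * |h 0| := by
    refine gen _ ?_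
    have i1 := hyp 0 le_rfl zero_le_one t 0 tt z0
    obtain ⟨-, -, -, -, g1⟩ := gp_spec N le_rfl zero_le_one t0.le ht32 tt z0
    have e2 : h 1 * t = (h 0 * gp b0 b1 G 0 t 0 + h 1 * t + h 2 * 0) - h 0 * gp b0 b1 G 0 t 0 := by
      ring
    have e3 : |h 1 * t| ≤ ε + |h 0| * (12 * t) := by
      rw [e2]
      refine bd_sub i1 ?_
      rw [abs_mul]
      exact mul_le_mul_of_nonneg_left g1 (abs_nonneg _)
    rwa [abs_mul, abs_of_pos t0] at e3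
  have a2 : |h 2| ≤ 1 / 4 + 12 * |h 0| := by
    refine gen _ ?_
    have i1 := hyp 0 le_rfl zero_le_one 0 t z0 tt
    obtain ⟨-, -, -, -, g1⟩ := gp_spec N le_rfl zero_le_one t0.le ht32 z0 tt
    have e2 : h 2 * t = (h 0 * gp b0 b1 G 0 0 t + h 1 * 0 + h 2 * t) - h 0 * gp b0 b1 G 0 0 t := by
      ring
    have e3 : |h 2 * t| ≤ ε + |h 0| * (12 * t) := by
      rw [e2]
      refine bd_sub i1 ?_
      rw [abs_mul]
      exact mul_le_mul_of_nonneg_left g1 (abs_nonneg _)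
    rwa [abs_mul, abs_of_pos t0] at e3
  have a0 : 1 / 48 ≤ |h 0| := by
    rcases hh with hh | hh | hh
    · linarith
    · linarith
    · linarith
  have hn0 : h 0 ≠ 0 := by
    intro hz; rw [hz, abs_zero] at a0; linarith
  have ha0 : 0 < |h 0| := by linarith
  have bα : |-h 1 / h 0| ≤ 24 := by
    rw [abs_div, abs_neg, div_le_iff₀ ha0]; linarith
  have bβ : |-h 2 / h 0| ≤ 24 := by
    rw [abs_div, abs_neg, div_le_iff₀ ha0]; linarith
  refine ⟨-h 1 / h 0, -h 2 / h 0, bα, bβ, ?_⟩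
  obtain ⟨m1, -⟩ := N.G_le
  intro ζ h0 h1 u v hu hv
  obtain ⟨c1, c2, -, c4, c5⟩ := gp_spec N h0 h1 t0.le ht32 hu hv
  have i1 := hyp ζ h0 h1 u v hu hv
  have ε0 : 0 ≤ ε := (abs_nonneg _).trans i1
  generalize gp b0 b1 G ζ u v = g at i1 c4 c5
  have d1 : |g - (-h 1 / h 0 * u + -h 2 / h 0 * v)| ≤ 48 * ε := by
    have e1 : g - (-h 1 / h 0 * u + -h 2 / h 0 * v) = (h 0 * g + h 1 * u + h 2 * v) / h 0 := by
      field_simp; ring
    rw [e1, abs_div, div_le_iff₀ ha0]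
    nlinarith
  have d2 : |-h 1 / h 0 * u + -h 2 / h 0 * v| ≤ 48 * t := by
    have := bd_add (abs_mul_le2 bα hu) (abs_mul_le2 bβ hv)
    linarith
  generalize -h 1 / h 0 * u + -h 2 / h 0 * v = m at d1 d2
  have e2 : Fq b0 b1 G ζ ![m, u, v] = -((g - m) * (cB b0 b1 G ζ u v + G.yy * (g + m))) := by
    have e3 := Fq_eq b0 b1 G ζ g u v
    rw [c4] at e3
    rw [Fq_eq]
    linarith [e3]
  have d3 : |cB b0 b1 G ζ u v + G.yy * (g + m)| ≤ 4 := by
    have e4 : |g + m| ≤ 60 * t := (bd_add c5 d2).trans (by linarith)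
    have e5 := abs_mul_le2 m1 e4
    have e6 : |cB b0 b1 G ζ u v| ≤ 3 := by rw [abs_le]; constructor <;> linarith
    have := bd_add e6 e5
    linarith
  rw [e2, abs_neg]
  have := abs_mul_le2 d1 d3
  linarith

/-- the function is small on a plane ⊢ small curvature -/
theorem kap_of_plane (N : NrmC b0 b1 G) {t δ α β : ℝ} (t0 : 0 < t) (ht : t ≤ 1) (hδ0 : 0 ≤ δ)
    (bα : |α| ≤ 24) (bβ : |β| ≤ 24)
    (hPs : ∀ ζ, 0 ≤ ζ → ζ ≤ 1 → ∀ u v, |u| ≤ t → |v| ≤ t →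
      |Fq b0 b1 G ζ ![α * u + β * v, u, v]| ≤ δ) : kap b0 b1 G * t ^ 2 ≤ 120 * δ := by
  have t2 : 0 < t ^ 2 := by positivity
  have tt : |t| ≤ t := by rw [abs_of_pos t0]
  have tn : |(-t)| ≤ t := by rw [abs_neg, abs_of_pos t0]
  have z0 : |(0 : ℝ)| ≤ t := by rw [abs_zero]; exact t0.le
  obtain ⟨m1, m2, m3, m4, m5, m6⟩ := N.G_le
  obtain ⟨n1, n2, n3, n4, n5, n6, n7, n8, n9⟩ := N.b1_le
  have hb : 0 < b0 0 := by linarith
  have hPe : ∀ ζ u v, Fq b0 b1 G ζ ![α * u + β * v, u, v] =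
      (α * (b0 0 + ζ * b1 0) + (b0 1 + ζ * b1 1)) * u +
      (β * (b0 0 + ζ * b1 0) + (b0 2 + ζ * b1 2)) * v +
      (G.yy * α ^ 2 + G.yu * α + G.uu) * u ^ 2 +
      (2 * G.yy * (α * β) + G.yu * β + G.yv * α + G.uv) * (u * v) +
      (G.yy * β ^ 2 + G.yv * β + G.vv) * v ^ 2 := by
    intro ζ u v
    rw [Fq_eq]
    simp only [cB, cC]
    ring
  have half : ∀ x y : ℝ, |x| ≤ δ → |y| ≤ δ → |(x - y) / 2| ≤ δ ∧ |(x + y) / 2| ≤ δ := by
    intro x y hx hy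
    have h1 := bd_sub hx hy
    have h2 := bd_add hx hy
    constructor
    · rw [abs_div, abs_two, div_le_iff₀ two_pos]; linarith
    · rw [abs_div, abs_two, div_le_iff₀ two_pos]; linarith
  have l1 : ∀ ζ, 0 ≤ ζ → ζ ≤ 1 → |α * (b0 0 + ζ * b1 0) + (b0 1 + ζ * b1 1)| * t ≤ δ := by
    intro ζ h0 h1
    have i1 := hPs ζ h0 h1 t 0 tt z0
    have i2 := hPs ζ h0 h1 (-t) 0 tn z0
    have i3 := (half _ _ i1 i2).1
    rw [hPe, hPe] at i3
    have i4 : |(α * (b0 0 + ζ * b1 0) + (b0 1 + ζ * b1 1)) * t| ≤ δ := by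
      convert i3 using 2
      ring
    rwa [abs_mul, abs_of_pos t0] at i4
  have l2 : ∀ ζ, 0 ≤ ζ → ζ ≤ 1 → |β * (b0 0 + ζ * b1 0) + (b0 2 + ζ * b1 2)| * t ≤ δ := by
    intro ζ h0 h1
    have i1 := hPs ζ h0 h1 0 t z0 tt
    have i2 := hPs ζ h0 h1 0 (-t) z0 tn
    have i3 := (half _ _ i1 i2).1
    rw [hPe, hPe] at i3
    have i4 : |(β * (b0 0 + ζ * b1 0) + (b0 2 + ζ * b1 2)) * t| ≤ δ := by
      convert i3 using 2
      ring
    rwa [abs_mul, abs_of_pos t0] at i4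
  have q11' : |(G.yy * α ^ 2 + G.yu * α + G.uu) * t ^ 2| ≤ δ := by
    have i1 := hPs 0 le_rfl zero_le_one t 0 tt z0
    have i2 := hPs 0 le_rfl zero_le_one (-t) 0 tn z0
    have i3 := (half _ _ i1 i2).2
    rw [hPe, hPe] at i3
    convert i3 using 2
    ring
  have q22' : |(G.yy * β ^ 2 + G.yv * β + G.vv) * t ^ 2| ≤ δ := by
    have i1 := hPs 0 le_rfl zero_le_one 0 t z0 tt
    have i2 := hPs 0 le_rfl zero_le_one 0 (-t) z0 tn
    have i3 := (half _ _ i1 i2).2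
    rw [hPe, hPe] at i3
    convert i3 using 2
    ring
  have q12' : |(2 * G.yy * (α * β) + G.yu * β + G.yv * α + G.uv) * t ^ 2| ≤ 3 * δ := by
    have i1 := hPs 0 le_rfl zero_le_one t t tt tt
    have i2 := hPs 0 le_rfl zero_le_one (-t) (-t) tn tn
    have i3 := (half _ _ i1 i2).2
    rw [hPe, hPe] at i3
    have i4 := bd_sub (bd_sub i3 q11') q22'
    have e1 : (2 * G.yy * (α * β) + G.yu * β + G.yv * α + G.uv) * t ^ 2 =
        ((α * (b0 0 + 0 * b1 0) + (b0 1 + 0 * b1 1)) * t +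
          (β * (b0 0 + 0 * b1 0) + (b0 2 + 0 * b1 2)) * t +
          (G.yy * α ^ 2 + G.yu * α + G.uu) * t ^ 2 +
          (2 * G.yy * (α * β) + G.yu * β + G.yv * α + G.uv) * (t * t) +
          (G.yy * β ^ 2 + G.yv * β + G.vv) * t ^ 2 +
        ((α * (b0 0 + 0 * b1 0) + (b0 1 + 0 * b1 1)) * -t +
          (β * (b0 0 + 0 * b1 0) + (b0 2 + 0 * b1 2)) * -t +
          (G.yy * α ^ 2 + G.yu * α + G.uu) * (-t) ^ 2 +
          (2 * G.yy * (α * β) + G.yu * β + G.yv * α + G.uv) * (-t * -t) +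
          (G.yy * β ^ 2 + G.yv * β + G.vv) * (-t) ^ 2)) / 2 -
        (G.yy * α ^ 2 + G.yu * α + G.uu) * t ^ 2 - (G.yy * β ^ 2 + G.yv * β + G.vv) * t ^ 2 := by
      ring
    rw [e1]
    refine i4.trans (by linarith)
  have q11 : |G.yy * α ^ 2 + G.yu * α + G.uu| * t ^ 2 ≤ δ := by
    rwa [abs_mul, abs_of_pos t2] at q11'
  have q22 : |G.yy * β ^ 2 + G.yv * β + G.vv| * t ^ 2 ≤ δ := by
    rwa [abs_mul, abs_of_pos t2] at q22'
  have q12 : |2 * G.yy * (α * β) + G.yu * β + G.yv * α + G.uv| * t ^ 2 ≤ 3 * δ := by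
    rwa [abs_mul, abs_of_pos t2] at q12'
  clear q11' q22' q12' hPe hPs half
  have r1 : |α + b0 1 / b0 0| * t ≤ 2 * δ := by
    have e1 : α + b0 1 / b0 0 = (α * (b0 0 + 0 * b1 0) + (b0 1 + 0 * b1 1)) / b0 0 := by
      field_simp; ring
    have := l1 0 le_rfl zero_le_one
    rw [e1, abs_div, abs_of_pos hb, div_mul_eq_mul_div, div_le_iff₀ hb]
    nlinarith
  have r2 : |β + b0 2 / b0 0| * t ≤ 2 * δ := by
    have e1 : β + b0 2 / b0 0 = (β * (b0 0 + 0 * b1 0) + (b0 2 + 0 * b1 2)) / b0 0 := by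
      field_simp; ring
    have := l2 0 le_rfl zero_le_one
    rw [e1, abs_div, abs_of_pos hb, div_mul_eq_mul_div, div_le_iff₀ hb]
    nlinarith
  have up : ∀ x K : ℝ, |x| * t ≤ K * δ → |x| * t ^ 2 ≤ K * δ := by
    intro x K hx
    have e1 : |x| * t ^ 2 = |x| * t * t := by ring
    rw [e1]
    have h3 : 0 ≤ |x| * t := by positivity
    exact (mul_le_of_le_one_right h3 ht).trans hx
  have two : ∀ (x a b c : ℝ) (K : ℝ), |x| ≤ |a| + |b| + |c| * K → 0 ≤ K →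
      |a| * t ≤ δ → |b| * t ≤ δ → |c| * t ≤ 2 * δ → |x| * t ≤ (2 + 2 * K) * δ := by
    intro x a b c K hx hK ha hb hc
    calc |x| * t ≤ (|a| + |b| + |c| * K) * t := mul_le_mul_of_nonneg_right hx t0.le
      _ = |a| * t + |b| * t + K * (|c| * t) := by ring
      _ ≤ δ + δ + K * (2 * δ) := by
          have := mul_le_mul_of_nonneg_left hc hK
          linarith
      _ = _ := by ring
  have f1 : |shB1 b0 b1 1| * t ^ 2 ≤ 120 * δ := by
    have e1 : shB1 b0 b1 1 = ((α * (b0 0 + 1 * b1 0) + (b0 1 + 1 * b1 1)) -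
        (α * (b0 0 + 0 * b1 0) + (b0 1 + 0 * b1 1))) - (α + b0 1 / b0 0) * b1 0 := by
      simp only [shB1, Matrix.cons_val]; ring
    have h1 := two (shB1 b0 b1 1) _ _ (α + b0 1 / b0 0) (3 / 2) (by
      rw [e1]
      refine bd_sub (abs_sub _ _) ?_
      rw [abs_mul]; exact mul_le_mul_of_nonneg_left n5 (abs_nonneg _)) (by norm_num)
      (l1 1 zero_le_one le_rfl) (l1 0 le_rfl zero_le_one) r1
    exact (up _ _ h1).trans (by nlinarith)
  have f2 : |shB1 b0 b1 2| * t ^ 2 ≤ 120 * δ := by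
    have e1 : shB1 b0 b1 2 = ((β * (b0 0 + 1 * b1 0) + (b0 2 + 1 * b1 2)) -
        (β * (b0 0 + 0 * b1 0) + (b0 2 + 0 * b1 2))) - (β + b0 2 / b0 0) * b1 0 := by
      simp only [shB1, Matrix.cons_val]; ring
    have h1 := two (shB1 b0 b1 2) _ _ (β + b0 2 / b0 0) (3 / 2) (by
      rw [e1]
      refine bd_sub (abs_sub _ _) ?_
      rw [abs_mul]; exact mul_le_mul_of_nonneg_left n5 (abs_nonneg _)) (by norm_num)
      (l2 1 zero_le_one le_rfl) (l2 0 le_rfl zero_le_one) r2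
    exact (up _ _ h1).trans (by nlinarith)
  have r1' := up _ 2 r1
  have r2' := up _ 2 r2
  have g1 : |(shG b0 G).uu| * t ^ 2 ≤ 120 * δ := by
    have e1 : (shG b0 G).uu = (G.yy * α ^ 2 + G.yu * α + G.uu) -
        (α + b0 1 / b0 0) * (G.yu + (α - b0 1 / b0 0) * G.yy) := by
      simp only [shG]; ring
    have j1 : |G.yu + (α - b0 1 / b0 0) * G.yy| ≤ 27 :=
      (bd_add m2 (abs_mul_le2 (bd_sub bα n8) m1)).trans (by norm_num)
    have j2 : |(shG b0 G).uu| ≤ |G.yy * α ^ 2 + G.yu * α + G.uu| + |α + b0 1 / b0 0| * 27 := by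
      rw [e1]
      refine bd_sub le_rfl ?_
      rw [abs_mul]; exact mul_le_mul_of_nonneg_left j1 (abs_nonneg _)
    calc |(shG b0 G).uu| * t ^ 2 ≤
          (|G.yy * α ^ 2 + G.yu * α + G.uu| + |α + b0 1 / b0 0| * 27) * t ^ 2 :=
          mul_le_mul_of_nonneg_right j2 t2.le
      _ = |G.yy * α ^ 2 + G.yu * α + G.uu| * t ^ 2 + 27 * (|α + b0 1 / b0 0| * t ^ 2) := by ring
      _ ≤ _ := by linarith
  have g2 : |(shG b0 G).vv| * t ^ 2 ≤ 120 * δ := by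
    have e1 : (shG b0 G).vv = (G.yy * β ^ 2 + G.yv * β + G.vv) -
        (β + b0 2 / b0 0) * (G.yv + (β - b0 2 / b0 0) * G.yy) := by
      simp only [shG]; ring
    have j1 : |G.yv + (β - b0 2 / b0 0) * G.yy| ≤ 27 :=
      (bd_add m3 (abs_mul_le2 (bd_sub bβ n9) m1)).trans (by norm_num)
    have j2 : |(shG b0 G).vv| ≤ |G.yy * β ^ 2 + G.yv * β + G.vv| + |β + b0 2 / b0 0| * 27 := by
      rw [e1]
      refine bd_sub le_rfl ?_
      rw [abs_mul]; exact mul_le_mul_of_nonneg_left j1 (abs_nonneg _)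
    calc |(shG b0 G).vv| * t ^ 2 ≤
          (|G.yy * β ^ 2 + G.yv * β + G.vv| + |β + b0 2 / b0 0| * 27) * t ^ 2 :=
          mul_le_mul_of_nonneg_right j2 t2.le
      _ = |G.yy * β ^ 2 + G.yv * β + G.vv| * t ^ 2 + 27 * (|β + b0 2 / b0 0| * t ^ 2) := by ring
      _ ≤ _ := by linarith
  have g3 : |(shG b0 G).uv| * t ^ 2 ≤ 120 * δ := by
    have e1 : (shG b0 G).uv = (2 * G.yy * (α * β) + G.yu * β + G.yv * α + G.uv) -
        (β + b0 2 / b0 0) * (G.yu + 2 * G.yy * α) -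
        (α + b0 1 / b0 0) * (G.yv - 2 * G.yy * (b0 2 / b0 0)) := by
      simp only [shG]; ring
    have m1' : |2 * G.yy| ≤ 2 := by rw [abs_mul, abs_two]; linarith
    have j1 : |G.yu + 2 * G.yy * α| ≤ 49 := (bd_add m2 (abs_mul_le2 m1' bα)).trans (by norm_num)
    have j1' : |G.yv - 2 * G.yy * (b0 2 / b0 0)| ≤ 5 :=
      (bd_sub m3 (abs_mul_le2 m1' n9)).trans (by norm_num)
    have j2 : |(shG b0 G).uv| ≤ |2 * G.yy * (α * β) + G.yu * β + G.yv * α + G.uv| +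
        |β + b0 2 / b0 0| * 49 + |α + b0 1 / b0 0| * 5 := by
      rw [e1]
      refine bd_sub (bd_sub le_rfl ?_) ?_
      · rw [abs_mul]; exact mul_le_mul_of_nonneg_left j1 (abs_nonneg _)
      · rw [abs_mul]; exact mul_le_mul_of_nonneg_left j1' (abs_nonneg _)
    calc |(shG b0 G).uv| * t ^ 2 ≤ (|2 * G.yy * (α * β) + G.yu * β + G.yv * α + G.uv| +
          |β + b0 2 / b0 0| * 49 + |α + b0 1 / b0 0| * 5) * t ^ 2 :=
          mul_le_mul_of_nonneg_right j2 t2.le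
      _ = |2 * G.yy * (α * β) + G.yu * β + G.yv * α + G.uv| * t ^ 2 +
          49 * (|β + b0 2 / b0 0| * t ^ 2) + 5 * (|α + b0 1 / b0 0| * t ^ 2) := by ring
      _ ≤ _ := by linarith
  have fin : ∀ x : ℝ, |x| * t ^ 2 ≤ 120 * δ → |x| ≤ 120 * δ / t ^ 2 := fun x hx => by
    rw [le_div_iff₀ t2]; exact hx
  rw [← le_div_iff₀ t2]
  unfold kap
  exact max_le (max_le (fin _ f1) (fin _ f2)) (max_le (max_le (fin _ g1) (fin _ g3)) (fin _ g2))

/-- **the zero set lies in a slab ⊢ the curvature extent is small** -/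
theorem kap_le_of_slab (N : NrmC b0 b1 G) {t ε : ℝ} (t0 : 0 < t) (ht : t ≤ 1 / 1024) (hε : 0 ≤ ε)
    {h : V3} (hh : 1 / 2 ≤ |h 0| ∨ 1 / 2 ≤ |h 1| ∨ 1 / 2 ≤ |h 2|)
    (hyp : ∀ ζ, 0 ≤ ζ → ζ ≤ 1 → ∀ u v, |u| ≤ t → |v| ≤ t →
      |h 0 * gp b0 b1 G ζ u v + h 1 * u + h 2 * v| ≤ ε) :
    kap b0 b1 G * t ^ 2 ≤ 10 ^ 5 * ε := by
  have t2 : 0 < t ^ 2 := by positivity
  rcases lt_or_ge (t / 4) ε with hbig | hsm
  · have k13 := Tl102.kap_le N
    have h1 : kap b0 b1 G * t ^ 2 ≤ 13 * t ^ 2 := mul_le_mul_of_nonneg_right k13 t2.le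
    nlinarith
  · obtain ⟨α, β, bα, bβ, h1⟩ := plane_of_slab N t0 ht hsm hh hyp
    have h2 := kap_of_plane N t0 (by linarith) (δ := 192 * ε) (by positivity) bα bβ h1
    linarith

end graph

end Crest.Agent.R136.Prs262
end

-- ▼ part R136/Prs2_262

/-!
# R136 (S0187), U6 thin side (helper262): persistence of the curvature, finite part (2)

`Two` : a fine sheet `S` near a coarse sheet `S'` around a common line;
`Two.near` : the zero set of `S` near the line lies near the tangent plane of `S'`;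
`Two.kap_down` : `kap S ≤ C Λ ^ 2 (E + a' + kap S')` (lengths).
-/

set_option autoImplicit false
set_option linter.unusedVariables false

open Finset

namespace Crest.Agent.R136.Prs262

open Crest.Agent.R136.Sh605 Crest.Agent.R136.K4
open Crest.Agent.R136.Tl102 (QF Fq bz shB0 shB1 shG kap NrmC IsExp fr cmb unsh Fq_unsh StP
  dt_cmb_fr)
open Crest.Agent.R136.Us555 (kap_entries abs_mul_le2 abs_dt_le_one point_eq_cmb)
open Crest.Agent.R136.Tlt51 (Close)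

/-- threshold argument -/
theorem ivt_lem {y M : ℝ → ℝ} {c ε : ℝ} (hy : ContinuousOn y (Set.Icc 0 1)) (h0 : y 0 = 0)
    (hM : ∀ s, 0 ≤ s → s ≤ 1 → 5 / 16 ≤ M s ∧ M s ≤ 3) (hε : 0 < ε)
    (h : ∀ s, 0 ≤ s → s ≤ 1 → |y s * (M s + c * y s)| ≤ ε) : |y 1| ≤ 208 * ε := by
  by_contra hc
  push Not at hc
  have hiv := intermediate_value_Icc (zero_le_one' ℝ) hy.abs
  have hmem : 16 * ε ∈ Set.Icc |y 0| |y 1| :=
    ⟨by rw [h0, abs_zero]; positivity, by linarith⟩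
  obtain ⟨s, ⟨s0, s1⟩, hs⟩ := hiv hmem
  have hs' : |y s| = 16 * ε := hs
  obtain ⟨m1, m2⟩ := hM s s0 s1
  obtain ⟨n1, n2⟩ := hM 1 zero_le_one le_rfl
  have e1 := h s s0 s1
  have e2 := h 1 zero_le_one le_rfl
  rw [abs_mul] at e1 e2
  rw [hs'] at e1
  have e3 : |M s + c * y s| ≤ 1 / 16 := by
    by_contra h5
    push Not at h5
    have := mul_lt_mul_of_pos_left h5 (by positivity : 0 < 16 * ε)
    linarith
  have e4 : 1 / 4 ≤ |c| * (16 * ε) := by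
    rw [← hs', ← abs_mul]
    have h6 := abs_le.1 e3
    exact le_abs.2 (Or.inr (by linarith [h6.2]))
  have hp : 0 < |y 1| := by linarith
  have e5 : |M 1 + c * y 1| ≤ 1 / 208 := by
    by_contra h5
    push Not at h5
    have := mul_lt_mul_of_pos_left h5 hp
    linarith
  have e6 : |c| * |y 1| ≤ 3 + 1 / 208 := by
    rw [← abs_mul]
    have h6 := abs_le.1 e5
    exact abs_le.2 ⟨by linarith [h6.1], by linarith [h6.2]⟩
  have e7 := mul_le_mul_of_nonneg_left hc.le (abs_nonneg c)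
  linarith

section

variable {b0 b1 : V3} {G : QF}

/-- tangent form -/
theorem Fq_tan (h : b0 0 ≠ 0) (ζ : ℝ) (x : V3) :
    Fq b0 b1 G ζ x = (x 0 + b0 1 / b0 0 * x 1 + b0 2 / b0 0 * x 2) *
      ((b0 0 + ζ * b1 0 + (shG b0 G).yu * x 1 + (shG b0 G).yv * x 2) +
        G.yy * (x 0 + b0 1 / b0 0 * x 1 + b0 2 / b0 0 * x 2)) +
      (ζ * (shB1 b0 b1 1 * x 1 + shB1 b0 b1 2 * x 2) + ((shG b0 G).uu * (x 1 * x 1) +
        (shG b0 G).uv * (x 1 * x 2) + (shG b0 G).vv * (x 2 * x 2))) := by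
  simp only [Fq, dt, bz, QF.ev, shB1, shG, Matrix.cons_val]
  field_simp
  ring

/-- the two parts of the tangent form -/
theorem tan_small (N : NrmC b0 b1 G) {ζ : ℝ} (h0 : 0 ≤ ζ) (h1 : ζ ≤ 1) {τ : ℝ} (τ0 : 0 ≤ τ)
    (τ1 : τ ≤ 1 / 64) {x1 x2 : ℝ} (hx1 : |x1| ≤ τ) (hx2 : |x2| ≤ τ) :
    (5 / 16 ≤ b0 0 + ζ * b1 0 + (shG b0 G).yu * x1 + (shG b0 G).yv * x2 ∧
      b0 0 + ζ * b1 0 + (shG b0 G).yu * x1 + (shG b0 G).yv * x2 ≤ 3) ∧
    |ζ * (shB1 b0 b1 1 * x1 + shB1 b0 b1 2 * x2) + ((shG b0 G).uu * (x1 * x1) +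
        (shG b0 G).uv * (x1 * x2) + (shG b0 G).vv * (x2 * x2))| ≤ 3 * τ * kap b0 b1 G := by
  obtain ⟨s1, s2, -, -⟩ := b_zeta N h0 h1
  obtain ⟨-, -, y1, y2, -, -, -⟩ := N.sh_le
  obtain ⟨k1, k2, k3, k4, k5⟩ := kap_entries b0 b1 G
  have hk := Tl102.kap_nonneg b0 b1 G
  constructor
  · have e1 := abs_le.1 (abs_mul_le2 y1 hx1)
    have e2 := abs_le.1 (abs_mul_le2 y2 hx2)
    constructor <;> linarith [e1.1, e1.2, e2.1, e2.2]
  · have z1 : |ζ| ≤ 1 := by rw [abs_of_nonneg h0]; exact h1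
    have j1 := abs_mul_le2 z1 (bd_add (abs_mul_le2 k1 hx1) (abs_mul_le2 k2 hx2))
    have j2 := bd_add (bd_add (abs_mul_le2 k3 (abs_mul_le2 hx1 hx1))
      (abs_mul_le2 k4 (abs_mul_le2 hx1 hx2))) (abs_mul_le2 k5 (abs_mul_le2 hx2 hx2))
    have j3 := bd_add j1 j2
    refine j3.trans ?_
    have j4 : 3 * (τ * τ) ≤ τ := by nlinarith
    have j5 := mul_le_mul_of_nonneg_left j4 hk
    nlinarith

end

theorem dt_cmb (n : V3) (e : Fin 3 → V3) (w x : V3) : dt n (cmb (fr e w) x) =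
    x 0 * (w 0 * dt n (e 0)) + x 1 * (w 1 * dt n (e 1)) + x 2 * (w 2 * dt n (e 2)) := by
  simp only [dt, cmb, fr, Pi.smul_apply, smul_eq_mul]; ring

/-- the fine sheet `S` (cell `[z0, z0 + ρ]`) near the coarse sheet `S'` (cell `[z0', z0' + ρ']`),
around the line `T` -/
structure Two (Λ E : ℝ) (S S' : Plk4) (T : Ln4) (z0 ρ z0' ρ' : ℝ) : Prop where
  one : 1 ≤ Λ
  ρ0 : 0 < ρ
  ρ0' : 0 < ρ'
  c1 : z0' ≤ z0
  c2 : z0 + ρ ≤ z0' + ρ'
  st : StP S.e S.c S.w S.q z0 ρ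
  st' : StP S'.e S'.c S'.w S'.q z0' ρ'
  o1 : S.w 0 ≤ S.w 2
  o2 : S.w 2 ≤ S.w 1
  a0 : 0 < S'.a
  inn : InSheet T S.e S.c S.w S.q S.a z0 ρ
  inn' : InSheet T S'.e S'.c S'.w S'.q S'.a z0' ρ'
  cl : Close E S S' T z0 ρ
  w1 : S.w 1 ≤ Λ * S'.w 1
  w2 : S.w 2 ≤ Λ * S'.w 2
  g : |dt (S'.e 2) (S.e 1)| * S.w 1 ≤ Λ * S'.w 2

section

variable {Λ E : ℝ} {S S' : Plk4} {T : Ln4} {z0 ρ z0' ρ' : ℝ} {b0 b1 b0' b1' : V3} {G G' : QF}

/-- point of the zero set of the fine sheet, relative to the line -/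
noncomputable def Xp (S : Plk4) (b0 b1 : V3) (G : QF) (ζ u v : ℝ) : V3 :=
  cmb (fr S.e S.w) ![gp b0 b1 G ζ u v, u, v]

/-- coarse coordinates -/
noncomputable def xc (S' : Plk4) (X : V3) : V3 := fun i => dt (S'.e i) X / S'.w i

/-- height in the coarse cell -/
noncomputable def zt (z0 ρ z0' ρ' ζ : ℝ) : ℝ := (z0 + ρ * ζ - z0') / ρ'

theorem Two.E0 (h : Two Λ E S S' T z0 ρ z0' ρ') : 0 ≤ E := by
  have h1 := h.inn z0 le_rfl (by linarith [h.ρ0])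
  refine (abs_nonneg _).trans (h.cl z0 le_rfl (by linarith [h.ρ0]) (T.pos z0) (fun i => ?_) h1.2)
  have hw := h.st.pos i
  rw [sub_self]
  have : dt (S.e i) (0 : V3) = 0 := by simp [dt]
  rw [this, abs_zero]
  positivity

theorem Two.zt_mem (h : Two Λ E S S' T z0 ρ z0' ρ') {ζ : ℝ} (h0 : 0 ≤ ζ) (h1 : ζ ≤ 1) :
    0 ≤ zt z0 ρ z0' ρ' ζ ∧ zt z0 ρ z0' ρ' ζ ≤ 1 ∧ z0' + ρ' * zt z0 ρ z0' ρ' ζ = z0 + ρ * ζ := by
  have hρ := h.ρ0
  have hρ' := h.ρ0'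
  have e1 := h.c1
  have e2 := h.c2
  have p1 : 0 ≤ ρ * ζ := by positivity
  have p2 : ρ * ζ ≤ ρ := by nlinarith
  refine ⟨div_nonneg (by linarith) hρ'.le, (div_le_one hρ').2 (by linarith), ?_⟩
  unfold zt
  field_simp
  ring

/-- value of the coarse function -/
theorem Two.val (h : Two Λ E S S' T z0 ρ z0' ρ')
    (hE' : IsExp S'.q S'.e S'.w T z0' ρ' b0' b1' G') {ζ : ℝ} (h0 : 0 ≤ ζ) (h1 : ζ ≤ 1) (X : V3)
    {K : ℝ} (hX : |S'.q (z0 + ρ * ζ) (T.pos (z0 + ρ * ζ) + X)| ≤ K) :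
    S'.w 0 * |Fq b0' b1' G' (zt z0 ρ z0' ρ' ζ) (xc S' X)| ≤ K + S'.a := by
  obtain ⟨m0, m1, m2⟩ := h.zt_mem h0 h1
  have hw := h.st'.pos
  have h3 := hE' (zt z0 ρ z0' ρ' ζ) (xc S' X)
  rw [m2] at h3
  have h4 := point_eq_cmb h.st'.ortho hw (T.pos (z0 + ρ * ζ)) (T.pos (z0 + ρ * ζ) + X)
  rw [add_sub_cancel_left] at h4
  have h5 : xc S' X = ![dt (S'.e 0) X / S'.w 0, dt (S'.e 1) X / S'.w 1,
      dt (S'.e 2) X / S'.w 2] := by
    funext i
    fin_cases i <;> rfl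
  rw [h5, ← h4, ← h5] at h3
  have h6 := (h.inn' (z0 + ρ * ζ) (by rw [← m2]; nlinarith [h.ρ0']) (by
    rw [← m2]; nlinarith [h.ρ0'])).2
  have h7 : S'.w 0 * |Fq b0' b1' G' (zt z0 ρ z0' ρ' ζ) (xc S' X)| =
      |S'.w 0 * Fq b0' b1' G' (zt z0 ρ z0' ρ' ζ) (xc S' X)| := by
    rw [abs_mul, abs_of_pos (hw 0)]
  have h8 : S'.w 0 * Fq b0' b1' G' (zt z0 ρ z0' ρ' ζ) (xc S' X) =
      S'.q (z0 + ρ * ζ) (T.pos (z0 + ρ * ζ) + X) - S'.q (z0 + ρ * ζ) (T.pos (z0 + ρ * ζ)) := by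
    linarith
  rw [h7, h8]
  exact bd_sub hX h6

/-- coarse coordinates of a point with small fine coordinates -/
theorem Two.lat (h : Two Λ E S S' T z0 ρ z0' ρ') {t K : ℝ} (t0 : 0 ≤ t) (K0 : 0 ≤ K) {p u v : ℝ}
    (hp : |p| ≤ K * t) (hu : |u| ≤ t) (hv : |v| ≤ t) :
    |xc S' (cmb (fr S.e S.w) ![p, u, v]) 1| ≤ (K + 2) * t * Λ ∧
      |xc S' (cmb (fr S.e S.w) ![p, u, v]) 2| ≤ (K + 2) * t * Λ := by
  have hw := h.st.pos
  have hw' := h.st'.pos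
  have hΛ := h.one
  have d : ∀ i k, |dt (S'.e i) (S.e k)| ≤ 1 := fun i k =>
    abs_dt_le_one (by rw [h.st'.ortho i i]; simp) (by rw [h.st.ortho k k]; simp)
  have s1 : |S.w 0| ≤ S.w 2 := by rw [abs_of_pos (hw 0)]; exact h.o1
  have s2 : |S.w 2| ≤ S.w 2 := by rw [abs_of_pos (hw 2)]
  have s3 : |S.w 1| ≤ S.w 1 := by rw [abs_of_pos (hw 1)]
  have o2 := h.o2
  have g : |S.w 1 * dt (S'.e 2) (S.e 1)| ≤ Λ * S'.w 2 := by
    rw [abs_mul, abs_of_pos (hw 1), mul_comm]; exact h.g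
  have x1 : |dt (S'.e 1) (cmb (fr S.e S.w) ![p, u, v])| ≤ (K + 2) * t * (Λ * S'.w 1) := by
    rw [dt_cmb]
    simp only [Matrix.cons_val]
    have j := bd_add (bd_add (abs_mul_le2 hp (abs_mul_le2 s1 (d 1 0)))
      (abs_mul_le2 hu (abs_mul_le2 s3 (d 1 1)))) (abs_mul_le2 hv (abs_mul_le2 s2 (d 1 2)))
    refine j.trans ?_
    have h5 : (K + 2) * t * S.w 1 ≤ (K + 2) * t * (Λ * S'.w 1) :=
      mul_le_mul_of_nonneg_left h.w1 (by positivity)
    have h6 : K * t * S.w 2 ≤ K * t * S.w 1 := mul_le_mul_of_nonneg_left o2 (by positivity)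
    have h7 : t * S.w 2 ≤ t * S.w 1 := mul_le_mul_of_nonneg_left o2 (by positivity)
    linarith
  have x2 : |dt (S'.e 2) (cmb (fr S.e S.w) ![p, u, v])| ≤ (K + 2) * t * (Λ * S'.w 2) := by
    rw [dt_cmb]
    simp only [Matrix.cons_val]
    have j := bd_add (bd_add (abs_mul_le2 hp (abs_mul_le2 s1 (d 2 0)))
      (abs_mul_le2 hu g)) (abs_mul_le2 hv (abs_mul_le2 s2 (d 2 2)))
    refine j.trans ?_
    have h5 : (K + 1) * t * S.w 2 ≤ (K + 1) * t * (Λ * S'.w 2) :=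
      mul_le_mul_of_nonneg_left h.w2 (by positivity)
    linarith
  constructor
  · unfold xc
    rw [abs_div, abs_of_pos (hw' 1), div_le_iff₀ (hw' 1)]
    linarith
  · unfold xc
    rw [abs_div, abs_of_pos (hw' 2), div_le_iff₀ (hw' 2)]
    linarith

theorem Two.cell (h : Two Λ E S S' T z0 ρ z0' ρ') {ζ : ℝ} (h0 : 0 ≤ ζ) (h1 : ζ ≤ 1) :
    z0 ≤ z0 + ρ * ζ ∧ z0 + ρ * ζ ≤ z0 + ρ := by
  have hρ := h.ρ0
  constructor <;> nlinarith

/-- the zero set of the fine sheet lies in the fattened coarse sheet -/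
theorem Two.val_gp (h : Two Λ E S S' T z0 ρ z0' ρ') (hE : IsExp S.q S.e S.w T z0 ρ b0 b1 G)
    (N : NrmC b0 b1 G) {ζ : ℝ} (h0 : 0 ≤ ζ) (h1 : ζ ≤ 1) {t : ℝ} (t0 : 0 ≤ t) (ht : t ≤ 1 / 128)
    {u v : ℝ} (hu : |u| ≤ t) (hv : |v| ≤ t) :
    |S'.q (z0 + ρ * ζ) (T.pos (z0 + ρ * ζ) + Xp S b0 b1 G ζ u v)| ≤ E := by
  obtain ⟨z1, z2⟩ := h.cell h0 h1
  obtain ⟨-, -, -, g1, g2⟩ := gp_spec N h0 h1 t0 (by linarith) hu hv
  refine h.cl _ z1 z2 _ (fun i => ?_) ?_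
  · rw [add_sub_cancel_left]
    unfold Xp
    rw [dt_cmb_fr h.st.ortho, abs_mul, abs_of_pos (h.st.pos i)]
    have h5 : |(![gp b0 b1 G ζ u v, u, v] : V3) i| ≤ 1 / 8 := by
      fin_cases i
      · exact g2.trans (by linarith)
      · exact hu.trans (by linarith)
      · exact hv.trans (by linarith)
    have := mul_le_mul_of_nonneg_left h5 (h.st.pos i).le
    linarith
  · unfold Xp
    rw [hE, g1, mul_zero, add_zero]
    exact (h.inn _ z1 z2).2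

theorem gp_zero (b0 b1 : V3) (G : QF) (ζ : ℝ) : gp b0 b1 G ζ 0 0 = 0 := by
  unfold gp rt cC
  norm_num

/-- **the zero set of the fine sheet lies near the tangent plane of the coarse sheet** -/
theorem Two.near (h : Two Λ E S S' T z0 ρ z0' ρ') (hE : IsExp S.q S.e S.w T z0 ρ b0 b1 G)
    (N : NrmC b0 b1 G) (hE' : IsExp S'.q S'.e S'.w T z0' ρ' b0' b1' G') (N' : NrmC b0' b1' G')
    {ζ : ℝ} (h0 : 0 ≤ ζ) (h1 : ζ ≤ 1) {t τ : ℝ} (t0 : 0 ≤ t) (ht : 14 * t * Λ ≤ τ)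
    (hτ : τ ≤ 1 / 64) {u v : ℝ} (hu : |u| ≤ t) (hv : |v| ≤ t) :
    S'.w 0 * |xc S' (Xp S b0 b1 G ζ u v) 0 + b0' 1 / b0' 0 * xc S' (Xp S b0 b1 G ζ u v) 1 +
      b0' 2 / b0' 0 * xc S' (Xp S b0 b1 G ζ u v) 2| ≤
      208 * (E + S'.a + 3 * τ * (S'.w 0 * kap b0' b1' G')) := by
  have hΛ := h.one
  have hw0 := h.st'.pos 0
  have τ0 : 0 ≤ τ := le_trans (by positivity) ht
  have tt : t ≤ 1 / 128 := by nlinarith
  obtain ⟨m0, m1, m2⟩ := h.zt_mem h0 h1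
  have hb : b0' 0 ≠ 0 := by
    have := N'.b1_le.1
    intro hz; rw [hz] at this; linarith
  have hk := Tl102.kap_nonneg b0' b1' G'
  have ha := h.a0
  have hEE := h.E0
  set ε := (E + S'.a + 3 * τ * (S'.w 0 * kap b0' b1' G')) / S'.w 0 with hε
  have ε0 : 0 < ε := by
    have : 0 ≤ 3 * τ * (S'.w 0 * kap b0' b1' G') := by positivity
    exact div_pos (by linarith) hw0
  have hsu : ∀ s, 0 ≤ s → s ≤ 1 → ∀ x : ℝ, |x| ≤ t → |s * x| ≤ t := by
    intro s s0 s1 x hx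
    rw [abs_mul, abs_of_nonneg s0]
    nlinarith [abs_nonneg x]
  -- continuity
  have hcont : ∀ i, ContinuousOn (fun s : ℝ => xc S' (Xp S b0 b1 G ζ (s * u) (s * v)) i)
      (Set.Icc 0 1) := by
    intro i
    have hg := gp_cont N h0 h1 t0 (by linarith) hu hv
    have e1 : (fun s : ℝ => xc S' (Xp S b0 b1 G ζ (s * u) (s * v)) i) = fun s : ℝ =>
        (gp b0 b1 G ζ (s * u) (s * v) * (S.w 0 * dt (S'.e i) (S.e 0)) +
          s * u * (S.w 1 * dt (S'.e i) (S.e 1)) + s * v * (S.w 2 * dt (S'.e i) (S.e 2))) /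
          S'.w i := by
      funext s
      unfold xc Xp
      rw [dt_cmb]
      simp only [Matrix.cons_val]
    rw [e1]
    refine ContinuousOn.div_const (((hg.mul continuousOn_const).add ?_).add ?_) _
    · exact (Continuous.continuousOn (by fun_prop))
    · exact (Continuous.continuousOn (by fun_prop))
  have key := ivt_lem (c := G'.yy) (ε := ε)
    (y := fun s : ℝ => xc S' (Xp S b0 b1 G ζ (s * u) (s * v)) 0 +
      b0' 1 / b0' 0 * xc S' (Xp S b0 b1 G ζ (s * u) (s * v)) 1 +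
      b0' 2 / b0' 0 * xc S' (Xp S b0 b1 G ζ (s * u) (s * v)) 2)
    (M := fun s : ℝ => b0' 0 + zt z0 ρ z0' ρ' ζ * b1' 0 +
      (shG b0' G').yu * xc S' (Xp S b0 b1 G ζ (s * u) (s * v)) 1 +
      (shG b0' G').yv * xc S' (Xp S b0 b1 G ζ (s * u) (s * v)) 2)
    (((hcont 0).add (continuousOn_const.mul (hcont 1))).add (continuousOn_const.mul (hcont 2)))
    (by
      have e1 : Xp S b0 b1 G ζ (0 * u) (0 * v) = 0 := by
        unfold Xp
        rw [zero_mul, zero_mul, gp_zero]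
        funext i
        simp [cmb]
      have e2 : ∀ i, xc S' (0 : V3) i = 0 := by
        intro i
        unfold xc
        simp [dt]
      simp only [e1, e2]
      ring)
    (fun s s0 s1 => by
      obtain ⟨-, -, -, g1, g2⟩ := gp_spec N h0 h1 t0 (by linarith) (hsu s s0 s1 u hu)
        (hsu s s0 s1 v hv)
      obtain ⟨l1, l2⟩ := h.lat t0 (by norm_num : (0 : ℝ) ≤ 12) g2 (hsu s s0 s1 u hu)
        (hsu s s0 s1 v hv)
      exact (tan_small N' m0 m1 τ0 hτ (l1.trans (by linarith)) (l2.trans (by linarith))).1)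
    ε0
    (fun s s0 s1 => by
      obtain ⟨-, -, -, g1, g2⟩ := gp_spec N h0 h1 t0 (by linarith) (hsu s s0 s1 u hu)
        (hsu s s0 s1 v hv)
      obtain ⟨l1, l2⟩ := h.lat t0 (by norm_num : (0 : ℝ) ≤ 12) g2 (hsu s s0 s1 u hu)
        (hsu s s0 s1 v hv)
      have l3 := (tan_small N' m0 m1 τ0 hτ (l1.trans (by linarith)) (l2.trans (by linarith))).2
      have l4 := h.val hE' h0 h1 _ (h.val_gp hE N h0 h1 t0 tt (hsu s s0 s1 u hu)
        (hsu s s0 s1 v hv))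
      have l5 := Fq_tan (b1 := b1') (G := G') hb (zt z0 ρ z0' ρ' ζ)
        (xc S' (Xp S b0 b1 G ζ (s * u) (s * v)))
      rw [hε, le_div_iff₀ hw0]
      have l6 : ∀ A B R F w K L : ℝ, F = A * B + R → 0 < w → w * |F| ≤ K → |R| ≤ L →
          |A * B| * w ≤ K + w * L := by
        intro A B R F w K L hF hw hK hR
        have e1 : A * B = F - R := by linarith
        rw [e1]
        have := mul_le_mul_of_nonneg_right (abs_sub F R) hw.le
        have h9 := mul_le_mul_of_nonneg_left hR hw.le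
        linarith
      have l7 := l6 _ _ _ _ _ _ _ l5 hw0 l4 l3
      refine l7.trans (le_of_eq ?_)
      ring)
  simp only [one_mul] at key
  have k2 := mul_le_mul_of_nonneg_left key hw0.le
  refine k2.trans (le_of_eq ?_)
  rw [hε]
  field_simp

/-- **downwards: the curvature extent of the fine sheet is bounded by the one of the coarse sheet** -/
theorem Two.kap_down (h : Two Λ E S S' T z0 ρ z0' ρ') (hE : IsExp S.q S.e S.w T z0 ρ b0 b1 G)
    (hE' : IsExp S'.q S'.e S'.w T z0' ρ' b0' b1' G') :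
    S.w 0 * kap b0 b1 G ≤ 10 ^ 14 * Λ ^ 2 * (E + S'.a + S'.w 0 * kap b0' b1' G') := by
  have N : NrmC b0 b1 G := hE.nrmC h.st h.ρ0.le fun z z1 z2 => (h.inn z z1 z2).1
  have N' : NrmC b0' b1' G' := hE'.nrmC h.st' h.ρ0'.le fun z z1 z2 => (h.inn' z z1 z2).1
  have hΛ := h.one
  have hw := h.st.pos
  have hw' := h.st'.pos
  have hk := Tl102.kap_nonneg b0' b1' G'
  have ha := h.a0
  have hEE := h.E0
  have hΛ0 : 0 < Λ := by linarith
  set t := 1 / (1024 * Λ) with ht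
  have t0 : 0 < t := by positivity
  have t1 : t * Λ = 1 / 1024 := by rw [ht]; field_simp
  have t2 : t ≤ 1 / 1024 := by nlinarith
  -- the normal vector of the coarse sheet
  set m : V3 := S'.e 0 + (b0' 1 / b0' 0 * (S'.w 0 / S'.w 1)) • S'.e 1 +
    (b0' 2 / b0' 0 * (S'.w 0 / S'.w 2)) • S'.e 2 with hm
  have md : ∀ x, dt m x = dt (S'.e 0) x + b0' 1 / b0' 0 * (S'.w 0 / S'.w 1) * dt (S'.e 1) x +
      b0' 2 / b0' 0 * (S'.w 0 / S'.w 2) * dt (S'.e 2) x := by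
    intro x; rw [hm]; simp only [add_dt, smul_dt]
  have mm : 1 ≤ dt m m := by
    have o := h.st'.ortho
    have e1 : dt m m = 1 + (b0' 1 / b0' 0 * (S'.w 0 / S'.w 1)) ^ 2 +
        (b0' 2 / b0' 0 * (S'.w 0 / S'.w 2)) ^ 2 := by
      rw [md, hm]
      simp only [dt_add, dt_smul, o 0 0, o 0 1, o 0 2, o 1 0, o 1 1, o 1 2, o 2 0, o 2 1, o 2 2]
      simp only [if_true, Fin.isValue, Fin.reduceEq, if_false]
      ring
    rw [e1]
    nlinarith [sq_nonneg (b0' 1 / b0' 0 * (S'.w 0 / S'.w 1)),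
      sq_nonneg (b0' 2 / b0' 0 * (S'.w 0 / S'.w 2))]
  have mx : ∀ X : V3, S'.w 0 * (xc S' X 0 + b0' 1 / b0' 0 * xc S' X 1 +
      b0' 2 / b0' 0 * xc S' X 2) = dt m X := by
    intro X
    rw [md]
    unfold xc
    have h0 := (hw' 0).ne'
    have h1 := (hw' 1).ne'
    have h2 := (hw' 2).ne'
    field_simp
  -- components in the fine frame
  have mi : ∃ i, 1 / 2 ≤ |dt m (S.e i)| := by
    by_contra hc
    push Not at hc
    have o := h.st.ortho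
    have e0 := o.expand m
    have e1 : dt m m = dt m (S.e 0) ^ 2 + dt m (S.e 1) ^ 2 + dt m (S.e 2) ^ 2 := by
      have e2 : dt m m = dt (S.e 0) m * dt m (S.e 0) + dt (S.e 1) m * dt m (S.e 1) +
          dt (S.e 2) m * dt m (S.e 2) := by
        have h0 := e0 0
        have h1 := e0 1
        have h2 := e0 2
        have : dt m m = m 0 * m 0 + m 1 * m 1 + m 2 * m 2 := rfl
        have h3 : ∀ i, dt m (S.e i) = m 0 * S.e i 0 + m 1 * S.e i 1 + m 2 * S.e i 2 := fun i => rfl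
        rw [this, h3, h3, h3]
        linear_combination m 0 * h0 + m 1 * h1 + m 2 * h2
      rw [e2, dt_comm (S.e 0) m, dt_comm (S.e 1) m, dt_comm (S.e 2) m]
      ring
    have sq4 : ∀ i, dt m (S.e i) ^ 2 ≤ 1 / 4 := by
      intro i
      rw [← sq_abs]
      nlinarith [hc i, abs_nonneg (dt m (S.e i))]
    have := sq4 0
    have := sq4 1
    have := sq4 2
    linarith
  set ε := 208 * (E + S'.a + S'.w 0 * kap b0' b1' G') / S.w 0 with hε
  have hsum : 0 ≤ E + S'.a + S'.w 0 * kap b0' b1' G' := by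
    have : 0 ≤ S'.w 0 * kap b0' b1' G' := mul_nonneg (hw' 0).le hk
    linarith
  have ε0 : 0 ≤ ε := div_nonneg (mul_nonneg (by norm_num) hsum) (hw 0).le
  have hmain := kap_le_of_slab N t0 t2 ε0
    (h := ![S.w 0 * dt m (S.e 0) / S.w 0, S.w 1 * dt m (S.e 1) / S.w 0,
      S.w 2 * dt m (S.e 2) / S.w 0]) (by
      have hr : ∀ i, S.w 0 ≤ S.w i → 1 / 2 ≤ |dt m (S.e i)| →
          1 / 2 ≤ |S.w i * dt m (S.e i) / S.w 0| := by
        intro i hi h5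
        rw [abs_div, abs_mul, abs_of_pos (hw i), abs_of_pos (hw 0), le_div_iff₀ (hw 0)]
        nlinarith [hw 0, hw i, abs_nonneg (dt m (S.e i))]
      obtain ⟨i, hi⟩ := mi
      fin_cases i
      · exact Or.inl (hr 0 le_rfl hi)
      · exact Or.inr (Or.inl (hr 1 (h.o1.trans h.o2) hi))
      · exact Or.inr (Or.inr (hr 2 h.o1 hi)))
    (fun ζ h0 h1 u v hu hv => by
      have k1 := h.near hE N hE' N' h0 h1 t0.le (τ := 1 / 64) (by nlinarith) le_rfl hu hv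
      have e1 : S'.w 0 * |xc S' (Xp S b0 b1 G ζ u v) 0 +
          b0' 1 / b0' 0 * xc S' (Xp S b0 b1 G ζ u v) 1 +
          b0' 2 / b0' 0 * xc S' (Xp S b0 b1 G ζ u v) 2| = |dt m (Xp S b0 b1 G ζ u v)| := by
        rw [← mx, abs_mul, abs_of_pos (hw' 0)]
      rw [e1] at k1
      simp only [Matrix.cons_val]
      have e2 : S.w 0 * dt m (S.e 0) / S.w 0 * gp b0 b1 G ζ u v +
          S.w 1 * dt m (S.e 1) / S.w 0 * u + S.w 2 * dt m (S.e 2) / S.w 0 * v =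
          dt m (Xp S b0 b1 G ζ u v) / S.w 0 := by
        unfold Xp
        rw [dt_cmb]
        simp only [Matrix.cons_val]
        ring
      rw [e2, abs_div, abs_of_pos (hw 0), hε]
      refine div_le_div_of_nonneg_right (k1.trans ?_) (hw 0).le
      have : 0 ≤ S'.w 0 * kap b0' b1' G' := mul_nonneg (hw' 0).le hk
      linarith)
  have h5 : kap b0 b1 G * t ^ 2 * S.w 0 ≤
      10 ^ 5 * (208 * (E + S'.a + S'.w 0 * kap b0' b1' G')) := by
    have h6 := mul_le_mul_of_nonneg_right hmain (hw 0).le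
    refine h6.trans (le_of_eq ?_)
    rw [hε]
    have := (hw 0).ne'
    field_simp
  have h7 : S.w 0 * kap b0 b1 G = kap b0 b1 G * t ^ 2 * S.w 0 * (1024 * Λ) ^ 2 := by
    have : t ^ 2 * (1024 * Λ) ^ 2 = 1 := by
      rw [← mul_pow, ht]
      have h8 : 1 / (1024 * Λ) * (1024 * Λ) = 1 := by field_simp
      rw [h8, one_pow]
    calc S.w 0 * kap b0 b1 G = kap b0 b1 G * S.w 0 * (t ^ 2 * (1024 * Λ) ^ 2) := by
          rw [this]; ring
      _ = _ := by ring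
  rw [h7]
  have h8 := mul_le_mul_of_nonneg_right h5 (by positivity : 0 ≤ (1024 * Λ) ^ 2)
  refine h8.trans ?_
  have h9 : 0 ≤ Λ ^ 2 * (E + S'.a + S'.w 0 * kap b0' b1' G') := by positivity
  nlinarith

end

end Crest.Agent.R136.Prs262
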