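import Crest.Agent.R136.Nds_335
import Crest.Agent.R136.Cap1_102
import Crest.Agent.R136.Pl2W_102
import Crest.Agent.R136.Kf3_605
import Crest.Agent.R136.Vq4_571
import Crest.Agent.R136.Plw1_102
import Crest.Agent.R136.Prs2_262
import Crest.Agent.R136.Amx3_325
import Crest.Agent.R136.AlK_500
import Crest.Agent.R136.Rk3_601
import Crest.Agent.R136.Deep4_51
import Crest.Agent.R136.Coi6_102
import Crest.Agent.R136.AlD_601
import Crest.Agent.R136.Hcp2_208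
import Crest.Agent.R136.Lgt5_989

-- ▼ part R136/Plh_571
section

/-!
# R136, PLAN 2 (AL), plank hypothesis of (KMb): the strip count (helper571, literal of helper685)

* `flat_of_exp` : the flatness of a strip in terms of the expansion of the sheet at the line gives
  `Nd565.FlatAt` (direction tangent to the sheet at the beginning of the long cell).
* `strip_hd` : number of lines of a sheet in a flat strip `(β, σ)` around one of its lines, from the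
  D-max of a sub-cell with two-sided exponents.
-/

set_option autoImplicit false
set_option linter.unusedVariables false

open Finset

namespace Crest.Agent.R136.Plh571

open Crest.Agent.R136.Sh605
open Crest.Agent.R136.K4 (Plk4)
open Crest.Agent.R136.Tlt51 (Shp InP)
open Crest.Agent.R136.Tl102
open Crest.Agent.R136.Nd565 (FlatAt Stp)
open Crest.Agent.R136.Phc248

theorem kap_mul_scB1 (b0 b1 : V3) (G : QF) :
    kap b0 b1 G * scB1 (kap b0 b1 G) b0 b1 1 = shB1 b0 b1 1 ∧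
    kap b0 b1 G * scB1 (kap b0 b1 G) b0 b1 2 = shB1 b0 b1 2 ∧
    kap b0 b1 G * (scG (kap b0 b1 G) b0 G).uu = (shG b0 G).uu ∧
    kap b0 b1 G * (scG (kap b0 b1 G) b0 G).uv = (shG b0 G).uv ∧
    kap b0 b1 G * (scG (kap b0 b1 G) b0 G).vv = (shG b0 G).vv := by
  have k1 : |shB1 b0 b1 1| ≤ kap b0 b1 G := (le_max_left _ _).trans (le_max_left _ _)
  have k2 : |shB1 b0 b1 2| ≤ kap b0 b1 G := (le_max_right _ _).trans (le_max_left _ _)
  have k3 : |(shG b0 G).uu| ≤ kap b0 b1 G :=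
    ((le_max_left _ _).trans (le_max_left _ _)).trans (le_max_right _ _)
  have k4 : |(shG b0 G).uv| ≤ kap b0 b1 G :=
    ((le_max_right _ _).trans (le_max_left _ _)).trans (le_max_right _ _)
  have k5 : |(shG b0 G).vv| ≤ kap b0 b1 G := (le_max_right _ _).trans (le_max_right _ _)
  have key : ∀ x : ℝ, |x| ≤ kap b0 b1 G → kap b0 b1 G * (x / kap b0 b1 G) = x := by
    intro x hx
    rcases eq_or_ne (kap b0 b1 G) 0 with h | h
    · rw [h] at hx ⊢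
      have : x = 0 := abs_nonpos_iff.1 hx
      rw [this]; simp
    · field_simp
  exact ⟨key _ k1, key _ k2, key _ k3, key _ k4, key _ k5⟩

theorem flat_of_exp {q : ℝ → V3 → ℝ} {e : Fin 3 → V3} {w : V3} {T : Ln4} {zL ρL : ℝ} {b0 b1 : V3}
    {G : QF} (hE : IsExp q e w T zL ρL b0 b1 G) (hb : b0 0 ≠ 0) (hw0 : 0 < w 0) (hw1 : w 1 ≠ 0)
    (hw2 : w 2 ≠ 0) (hρ : 0 < ρL) {nA nB β K σ : ℝ} (hβ : 0 ≤ β)
    (hfl : |kap b0 b1 G * (scB1 (kap b0 b1 G) b0 b1 1 * (-nB) +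
        scB1 (kap b0 b1 G) b0 b1 2 * nA)| * β +
      |kap b0 b1 G * ((scG (kap b0 b1 G) b0 G).uu * nB ^ 2 - (scG (kap b0 b1 G) b0 G).uv * nA * nB +
        (scG (kap b0 b1 G) b0 G).vv * nA ^ 2)| * β ^ 2 ≤ K * σ) :
    FlatAt q e w T zL ρL nA nB β (K * σ * w 0) := by
  obtain ⟨r1, r2, r3, r4, r5⟩ := kap_mul_scB1 b0 b1 G
  set y0 : ℝ := -(b0 1 / b0 0 * (-nB)) - b0 2 / b0 0 * nA with hy0
  refine ⟨w 0 * y0, fun z hz hz' α hα => ?_⟩
  set ζ : ℝ := (z - zL) / ρL with hζ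
  have hζz : zL + ρL * ζ = z := by rw [hζ]; field_simp; ring
  have hζ0 : 0 ≤ ζ := div_nonneg (by linarith) hρ.le
  have hζ1 : ζ ≤ 1 := by rw [hζ, div_le_one hρ]; linarith
  have e1 : α • ((w 0 * y0) • e 0 + (w 1 * -nB) • e 1 + (w 2 * nA) • e 2) =
      cmb (fr e w) (unsh b0 0 (α * (-nB)) (α * nA)) := by
    funext i
    simp only [cmb, fr, unsh, Pi.smul_apply, Pi.add_apply, smul_eq_mul, Matrix.cons_val_zero,
      Matrix.cons_val_one, Matrix.cons_val, hy0]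
    ring
  have h1 := hE ζ (unsh b0 0 (α * (-nB)) (α * nA))
  rw [hζz] at h1
  rw [e1, h1, Fq_unsh hb]
  have e2 : Fq (shB0 b0) (shB1 b0 b1) (shG b0 G) ζ ![0, α * (-nB), α * nA] =
      ζ * (α * (kap b0 b1 G * (scB1 (kap b0 b1 G) b0 b1 1 * (-nB) +
        scB1 (kap b0 b1 G) b0 b1 2 * nA))) +
      α ^ 2 * (kap b0 b1 G * ((scG (kap b0 b1 G) b0 G).uu * nB ^ 2 -
        (scG (kap b0 b1 G) b0 G).uv * nA * nB + (scG (kap b0 b1 G) b0 G).vv * nA ^ 2)) := by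
    have f1 : kap b0 b1 G * (scB1 (kap b0 b1 G) b0 b1 1 * (-nB) +
        scB1 (kap b0 b1 G) b0 b1 2 * nA) = shB1 b0 b1 1 * (-nB) + shB1 b0 b1 2 * nA := by
      rw [← r1, ← r2]; ring
    have f2 : kap b0 b1 G * ((scG (kap b0 b1 G) b0 G).uu * nB ^ 2 -
        (scG (kap b0 b1 G) b0 G).uv * nA * nB + (scG (kap b0 b1 G) b0 G).vv * nA ^ 2) =
        (shG b0 G).uu * nB ^ 2 - (shG b0 G).uv * nA * nB + (shG b0 G).vv * nA ^ 2 := by
      rw [← r3, ← r4, ← r5]; ring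
    rw [f1, f2]
    simp only [Fq, dt, bz, QF.ev, shB0, Matrix.cons_val_zero, Matrix.cons_val_one, Matrix.cons_val]
    ring
  rw [e2]
  set X := kap b0 b1 G * (scB1 (kap b0 b1 G) b0 b1 1 * (-nB) + scB1 (kap b0 b1 G) b0 b1 2 * nA)
  set Y := kap b0 b1 G * ((scG (kap b0 b1 G) b0 G).uu * nB ^ 2 -
        (scG (kap b0 b1 G) b0 G).uv * nA * nB + (scG (kap b0 b1 G) b0 G).vv * nA ^ 2)
  have g1 : |ζ * (α * X)| ≤ |X| * β := by
    rw [abs_mul, abs_mul, abs_of_nonneg hζ0]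
    calc ζ * (|α| * |X|) ≤ 1 * (β * |X|) := by gcongr
      _ = |X| * β := by ring
  have g2 : |α ^ 2 * Y| ≤ |Y| * β ^ 2 := by
    rw [abs_mul, abs_of_nonneg (sq_nonneg α), ← sq_abs α]
    calc |α| ^ 2 * |Y| ≤ β ^ 2 * |Y| := by gcongr
      _ = |Y| * β ^ 2 := by ring
  have g3 : |ζ * (α * X) + α ^ 2 * Y| ≤ K * σ := by
    refine (abs_add_le _ _).trans ?_
    linarith
  rw [add_sub_cancel_left, abs_mul, abs_of_pos hw0, mul_comm]
  exact mul_le_mul_of_nonneg_right g3 hw0.le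

/-- the capacity of a flat strip -/
theorem phC_strip {qm qp : Fin 3 → ℝ} (hq : ∀ k, 0 ≤ qm k ∧ qm k ≤ qp k)
    {a0 w10 w20 a' w1' w2' W β τ : ℝ} (ha0 : 0 < a0) (h10 : 0 < w10) (h20 : 0 < w20) (ha' : 0 < a')
    (h1' : 0 < w1') (h2' : 0 < w2') (hW : 1 ≤ W) (hβ : 0 < β) (hβ1 : β ≤ 1) (hτ : 0 ≤ τ)
    (ea : a' ≤ 3 * W * a0) (e1 : w1' ≤ 36 * W * β * w10) (e2 : w2' ≤ 36 * W * β * w20)
    (e12 : w2' * w1' ≤ (36 * W) ^ 2 * τ * (w20 * w10)) :
    phC qm qp a0 w10 w20 a' w1' w2' ≤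
      (3 * W) ^ (1 + qp 0) * (36 * W) ^ (2 + qp 1 + qp 2) * (τ * β ^ (qm 1 + qm 2)) := by
  have hW0 : 0 < W := by linarith
  have h36 : (0:ℝ) < 36 * W := by positivity
  have h361 : (1:ℝ) ≤ 36 * W := by linarith
  have p0 : ph (qm 0) (qp 0) (a' / a0) ≤ (3 * W) ^ (1 + qp 0) :=
    ph_le_wide (hq 0).1 (hq 0).2 (by positivity) (by rw [div_le_iff₀ ha0]; exact ea) (by linarith)
  -- normalised widths
  set y1 : ℝ := w1' / w10 / (36 * W) with hy1
  set y2 : ℝ := w2' / w20 / (36 * W) with hy2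
  have y1p : 0 < y1 := by positivity
  have y2p : 0 < y2 := by positivity
  have x1 : w1' / w10 = 36 * W * y1 := by rw [hy1]; field_simp
  have x2 : w2' / w20 = 36 * W * y2 := by rw [hy2]; field_simp
  have y1β : y1 ≤ β := by
    rw [hy1, div_le_iff₀ h36, div_le_iff₀ h10]
    linarith
  have y2β : y2 ≤ β := by
    rw [hy2, div_le_iff₀ h36, div_le_iff₀ h20]
    linarith
  have y12 : y1 * y2 ≤ τ := by
    have e : y1 * y2 = w2' * w1' / ((36 * W) ^ 2 * (w20 * w10)) := by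
      rw [hy1, hy2]; field_simp
    rw [e, div_le_iff₀ (by positivity)]
    calc w2' * w1' ≤ (36 * W) ^ 2 * τ * (w20 * w10) := e12
      _ = τ * ((36 * W) ^ 2 * (w20 * w10)) := by ring
  have p1 : ph (qm 1) (qp 1) (w1' / w10) ≤ (36 * W) ^ (1 + qp 1) * y1 ^ (1 + qm 1) := by
    rw [x1]
    refine (ph_mul (hq 1).1 (hq 1).2 y1p.le h361).trans (le_of_eq ?_)
    rw [ph_le_one (hq 1).1 (hq 1).2 y1p.le (y1β.trans hβ1)]
  have p2 : ph (qm 2) (qp 2) (w2' / w20) ≤ (36 * W) ^ (1 + qp 2) * y2 ^ (1 + qm 2) := by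
    rw [x2]
    refine (ph_mul (hq 2).1 (hq 2).2 y2p.le h361).trans (le_of_eq ?_)
    rw [ph_le_one (hq 2).1 (hq 2).2 y2p.le (y2β.trans hβ1)]
  have n0 : 0 ≤ ph (qm 0) (qp 0) (a' / a0) := ph_nonneg (by positivity)
  have n1 : 0 ≤ ph (qm 1) (qp 1) (w1' / w10) := ph_nonneg (by positivity)
  have n2 : 0 ≤ ph (qm 2) (qp 2) (w2' / w20) := ph_nonneg (by positivity)
  have hy : y1 ^ (1 + qm 1) * y2 ^ (1 + qm 2) ≤ τ * β ^ (qm 1 + qm 2) := by
    rw [Real.rpow_add y1p, Real.rpow_add y2p, Real.rpow_one, Real.rpow_one, Real.rpow_add hβ]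
    have a1 : y1 ^ qm 1 ≤ β ^ qm 1 := Real.rpow_le_rpow y1p.le y1β (hq 1).1
    have a2 : y2 ^ qm 2 ≤ β ^ qm 2 := Real.rpow_le_rpow y2p.le y2β (hq 2).1
    have b1 : 0 < y1 ^ qm 1 := Real.rpow_pos_of_pos y1p _
    have b2 : 0 < y2 ^ qm 2 := Real.rpow_pos_of_pos y2p _
    calc y1 * y1 ^ qm 1 * (y2 * y2 ^ qm 2) = (y1 * y2) * (y1 ^ qm 1 * y2 ^ qm 2) := by ring
      _ ≤ τ * (β ^ qm 1 * β ^ qm 2) := by gcongr
  have e36 : (36 * W) ^ (2 + qp 1 + qp 2) = (36 * W) ^ (1 + qp 1) * (36 * W) ^ (1 + qp 2) := by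
    rw [← Real.rpow_add h36]; congr 1; ring
  unfold phC
  calc ph (qm 0) (qp 0) (a' / a0) * ph (qm 1) (qp 1) (w1' / w10) * ph (qm 2) (qp 2) (w2' / w20)
      ≤ (3 * W) ^ (1 + qp 0) * ((36 * W) ^ (1 + qp 1) * y1 ^ (1 + qm 1)) *
          ((36 * W) ^ (1 + qp 2) * y2 ^ (1 + qm 2)) := by
        refine mul_le_mul (mul_le_mul p0 p1 n1 (by positivity)) p2 n2 (by positivity)
    _ = (3 * W) ^ (1 + qp 0) * ((36 * W) ^ (1 + qp 1) * (36 * W) ^ (1 + qp 2)) *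
          (y1 ^ (1 + qm 1) * y2 ^ (1 + qm 2)) := by ring
    _ ≤ (3 * W) ^ (1 + qp 0) * ((36 * W) ^ (1 + qp 1) * (36 * W) ^ (1 + qp 2)) *
          (τ * β ^ (qm 1 + qm 2)) := by gcongr
    _ = _ := by rw [e36]

open Classical in
/-- **strip count (hD)**: lines of the sheet `S` (over the long cell) in the flat strip `(β, σ)` around
the line `T'` of `S`, over the short cell. -/
theorem strip_hd {ι : Type*} {qm qp : Fin 3 → ℝ} (hq : ∀ k, 0 ≤ qm k ∧ qm k ≤ qp k)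
    {P : Finset ι} {L : ι → Ln4} {e : Fin 3 → V3} {c : Ln4} {w : V3} {q : ℝ → V3 → ℝ}
    {a zL ρL z0 ρ r a0 w10 w20 W M : ℝ} (S : ShN e c w q a zL ρL r) (hr : 0 < r) (hz : zL ≤ z0)
    (hz' : z0 + ρ ≤ zL + ρL) (hρ : 0 < ρ) (h128 : 128 * ρ ≤ ρL) (hW : 1 ≤ W) (hM : 0 ≤ M)
    (ha0 : 0 < a0) (h10 : 0 < w10) (h20 : 0 < w20) (na : a ≤ W * a0) (n1 : w 1 ≤ W * w10)
    (n2 : w 2 ≤ W * w20)
    (hd : ∀ S' : Plk4, Shp S' z0 ρ r → S'.w 1 ≤ ρ →
      ((P.filter fun t => InP (L t) S' z0 ρ).card : ℝ) ≤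
        W * M * phC qm qp a0 w10 w20 S'.a (S'.w 1) (S'.w 2))
    {T : Ln4} (hT : InSheet T e c w q a zL ρL) {b0 b1 : V3} {G : QF}
    (hE : IsExp q e w T zL ρL b0 b1 G) {nA nB : ℝ} (hn : nA ^ 2 + nB ^ 2 = 1) {K σ β : ℝ}
    (hK : 1 ≤ K) (hσ : 0 < σ) (hβ : 0 < β) (hβ1 : β ≤ 1 / 40000) (ha : a ≤ β * w 0)
    (ha' : a ≤ σ * w 0) (hβρ : 36 * β * w 1 ≤ ρ)
    (hfl : |kap b0 b1 G * (scB1 (kap b0 b1 G) b0 b1 1 * (-nB) +
        scB1 (kap b0 b1 G) b0 b1 2 * nA)| * β +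
      |kap b0 b1 G * ((scG (kap b0 b1 G) b0 G).uu * nB ^ 2 - (scG (kap b0 b1 G) b0 G).uv * nA * nB +
        (scG (kap b0 b1 G) b0 G).vv * nA ^ 2)| * β ^ 2 ≤ K * σ ∨ β ≤ 2 * σ)
    {B : Finset ι} (hB : B ⊆ P) (hBS : ∀ t ∈ B, InSheet (L t) e c w q a zL ρL)
    (hBs : ∀ t ∈ B, ∀ z, z0 ≤ z → z ≤ z0 + ρ → Stp e w T (L t) nA nB β σ z) :
    (B.card : ℝ) ≤ 186 * K * W * (3 * W) ^ (1 + qp 0) * (36 * W) ^ (2 + qp 1 + qp 2) * M *
      (β * σ) * β ^ (qm 1 + qm 2) := by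
  have hap : 0 < a := by linarith [S.r0_le]
  have hw0 : 0 < w 0 := by linarith [S.a_le0]
  have hw2 : 0 < w 2 := by linarith [S.w0_le]
  have hw1 : 0 < w 1 := by linarith [S.w_le]
  have hρL : 0 < ρL := by linarith
  have hb0 : b0 0 ≠ 0 := by
    have N := IsExp.nrmC (StP.of_shN S hw0) hρL.le (fun z h1 h2 => (hT z h1 h2).1) hE
    have h := (N.st 0 le_rfl zero_le_one 0 0 0 (by simp) (by simp) (by simp)).1
    simp only [zero_mul, mul_zero, add_zero] at h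
    linarith
  obtain ⟨e', w', q', a', S', s1, s2, s3, s4, s5, s6, s8, s9, s10, s7⟩ :=
    Ndc335.strip_sheetR S hr hT hz hz' hρ h128 hK hσ hβ hβ1 ha ha' hn
      (hfl.imp (fun h => flat_of_exp hE hb0 hw0 hw1.ne' hw2.ne' hρL hβ.le h) id)
  have h3 : (B.card : ℝ) ≤ ((P.filter fun t => InP (L t) ⟨0, e', T, w', q', a'⟩ z0 ρ).card : ℝ) := by
    have : B ⊆ P.filter fun t => InP (L t) ⟨0, e', T, w', q', a'⟩ z0 ρ := by
      intro t ht
      rw [mem_filter]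
      exact ⟨hB ht, s7 (L t) (hBS t ht) (hBs t ht)⟩
    exact_mod_cast card_le_card this
  have h4 := hd ⟨0, e', T, w', q', a'⟩ S' (by
    change w' 1 ≤ ρ
    linarith)
  have hw1' : 0 < w' 1 := by linarith
  have hW0 : 0 < W := by linarith
  have h5 := phC_strip (qm := qm) (qp := qp) hq (a0 := a0) (w10 := w10) (w20 := w20) (a' := a')
    (w1' := w' 1) (w2' := w' 2) (W := W) (β := β) (τ := 186 * K * (β * σ)) ha0 h10 h20
    (by linarith) hw1' s3 hW hβ (by linarith) (by positivity)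
    (by linarith)
    (by
      calc w' 1 ≤ 36 * β * w 1 := s5
        _ ≤ 36 * β * (W * w10) := by gcongr
        _ = 36 * W * β * w10 := by ring)
    (by
      calc w' 2 ≤ 36 * β * w 2 := s10
        _ ≤ 36 * β * (W * w20) := by gcongr
        _ = 36 * W * β * w20 := by ring)
    (by
      calc w' 2 * w' 1 ≤ 240000 * K * β * σ * (w 2 * w 1) := s6
        _ ≤ 240000 * K * β * σ * ((W * w20) * (W * w10)) := by gcongr
        _ = 240000 * W ^ 2 * (K * (β * σ)) * (w20 * w10) := by ring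
        _ ≤ 241056 * W ^ 2 * (K * (β * σ)) * (w20 * w10) := by gcongr; norm_num
        _ = (36 * W) ^ 2 * (186 * K * (β * σ)) * (w20 * w10) := by ring)
  calc (B.card : ℝ) ≤ W * M * phC qm qp a0 w10 w20 a' (w' 1) (w' 2) := h3.trans h4
    _ ≤ W * M * ((3 * W) ^ (1 + qp 0) * (36 * W) ^ (2 + qp 1 + qp 2) *
        (186 * K * (β * σ) * β ^ (qm 1 + qm 2))) := by gcongr
    _ = _ := by ring

end Crest.Agent.R136.Plh571
end

-- ▼ part R136/Kf4_605
section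

/-!
# R136: the plank condition for a curved sheet (helper605)
-/

set_option autoImplicit false
set_option linter.unusedVariables false

namespace Crest.Agent.R136.Kf605

open Finset
open Crest.Agent.R136.Sh605 Crest.Agent.R136.K4
open Crest.Agent.R136.Tl102 (QF Fq bz shB0 shB1 shG scB1 scG kap NrmC IsExp StP fr fan slp)
open Crest.Agent.R136.Lgt989
open Crest.Agent.R136.Nd565 (Stp sA sB)
open Crest.Agent.R136.KapP335 (DetP kapP expP fanP expP_spec expP_eq)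
open Crest.Agent.R136.Tlt51 (Shp InP)
open Crest.Agent.R136.Phc248

/-- lateral coordinate of a line -/
noncomputable def lk (e : Fin 3 → V3) (w : V3) (c : Ln4) (k : Fin 3) (z : ℝ) (T : Ln4) : ℝ :=
  dt (e k) (T.pos z - c.pos z) / w k

/-- lateral coordinate along the covector `(b1, b2)` -/
noncomputable def lx (e : Fin 3 → V3) (w : V3) (c : Ln4) (b1 b2 z : ℝ) (T : Ln4) : ℝ :=
  b1 * lk e w c 1 z T + b2 * lk e w c 2 z T

/-- velocity over the cell -/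
noncomputable def lv (e : Fin 3 → V3) (w : V3) (c : Ln4) (b1 b2 z ρ : ℝ) (T : Ln4) : ℝ :=
  lx e w c b1 b2 (z + ρ) T - lx e w c b1 b2 z T

variable {e : Fin 3 → V3} {c : Ln4} {w : V3} {q : ℝ → V3 → ℝ} {a z0 ρ r0 : ℝ}

theorem lk_sub (k : Fin 3) (z : ℝ) (T T' : Ln4) :
    lk e w c k z T' - lk e w c k z T = dt (e k) (T'.pos z - T.pos z) / w k := by
  simp only [lk, dt_sub]; ring

theorem lx_sub (b1 b2 z : ℝ) (b0 : V3) (κ : ℝ) (T T' : Ln4) :
    lx e w c b1 b2 z T' - lx e w c b1 b2 z T =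
      b1 * pp e w b0 κ T z T' 1 + b2 * pp e w b0 κ T z T' 2 := by
  have h1 := lk_sub (e := e) (w := w) (c := c) 1 z T T'
  have h2 := lk_sub (e := e) (w := w) (c := c) 2 z T T'
  have e1 : pp e w b0 κ T z T' 1 = dt (e 1) (T'.pos z - T.pos z) / w 1 := rfl
  have e2 : pp e w b0 κ T z T' 2 = dt (e 2) (T'.pos z - T.pos z) / w 2 := rfl
  rw [e1, e2, ← h1, ← h2]
  unfold lx; ring

theorem lv_sub (b1 b2 z ρ : ℝ) (b0 : V3) (κ : ℝ) (T T' : Ln4) :
    lv e w c b1 b2 z ρ T' - lv e w c b1 b2 z ρ T =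
      b1 * vv e w b0 κ T z ρ T' 1 + b2 * vv e w b0 κ T z ρ T' 2 := by
  have h1 := lx_sub (e := e) (w := w) (c := c) b1 b2 z b0 κ T T'
  have h2 := lx_sub (e := e) (w := w) (c := c) b1 b2 (z + ρ) b0 κ T T'
  unfold lv vv
  linear_combination h2 - h1

theorem pp_self (b0 : V3) (κ z : ℝ) (T : Ln4) : pp e w b0 κ T z T = fun _ => 0 := by
  funext k
  have h : T.pos z - T.pos z = 0 := sub_self _
  unfold pp
  rw [h]
  fin_cases k <;> simp [crdS, Mdr535.ty, dt]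

theorem gv_zero (G : QF) (k : Fin 3) : gv G (fun _ => 0) k = 0 := by
  fin_cases k <;> simp [gv]

theorem vv_self (b0 : V3) (κ z ρ : ℝ) (T : Ln4) : vv e w b0 κ T z ρ T = fun _ => 0 := by
  funext k
  unfold vv
  rw [pp_self, pp_self]; ring

set_option maxHeartbeats 1000000 in
/-- **(R)** for two lines of a sheet -/
theorem pair_rel (S : ShN e c w q a z0 ρ r0) (hr : 0 < r0) (hρ : 0 < ρ) {T T' : Ln4}
    (hT : InSheet T e c w q a z0 ρ) (hT' : InSheet T' e c w q a z0 ρ) {b0 b1 : V3} {G : QF}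
    (hE : IsExp q e w T z0 ρ b0 b1 G) (hκ : 0 < kap b0 b1 G) {μ0 : ℝ} (hμ : 20000 * μ0 ≤ 1)
    (ha : a ≤ μ0 * (w 0 * kap b0 b1 G))
    (hcl : ∀ z, z = z0 ∨ z = z0 + ρ → |dt (e 1) (T'.pos z - T.pos z)| ≤ μ0 * w 1 ∧
      |dt (e 2) (T'.pos z - T.pos z)| ≤ μ0 * w 2)
    {β1 β2 s : ℝ} (hb : β1 ^ 2 + β2 ^ 2 = 1) (hε : 2 * a / (w 0 * kap b0 b1 G) ≤ s) (hs : s ≤ 1)
    (hyp : |lx e w c (-β2) β1 z0 T' - lx e w c (-β2) β1 z0 T| ≤ s)
    (hyv : |lv e w c (-β2) β1 z0 ρ T' - lv e w c (-β2) β1 z0 ρ T| ≤ s) :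
    |(scB1 (kap b0 b1 G) b0 b1 1 * β1 + scB1 (kap b0 b1 G) b0 b1 2 * β2) *
        (lv e w c β1 β2 z0 ρ T' - lv e w c β1 β2 z0 ρ T) +
      G2 (scG (kap b0 b1 G) b0 G) β1 β2 *
        (lv e w c β1 β2 z0 ρ T' - lv e w c β1 β2 z0 ρ T) ^ 2| ≤
      10000 * (|scB1 (kap b0 b1 G) b0 b1 1 * β1 + scB1 (kap b0 b1 G) b0 b1 2 * β2| *
          |lx e w c β1 β2 z0 T' - lx e w c β1 β2 z0 T| +
        (lx e w c β1 β2 z0 T' - lx e w c β1 β2 z0 T) ^ 2 +
        |lx e w c β1 β2 z0 T' - lx e w c β1 β2 z0 T| *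
          |lv e w c β1 β2 z0 ρ T' - lv e w c β1 β2 z0 ρ T| + s) := by
  have hap : 0 < a := by linarith [S.r0_le]
  have hw0 : 0 < w 0 := by linarith [S.a_le0]
  have Q := StP.of_shN S hw0
  have hw := Q.pos
  have N := hE.nrmC Q hρ.le fun z hz hz' => (hT z hz hz').1
  obtain ⟨s1, s2, s3, s4, s5, s6, s7, s8, s9, s10⟩ := N.sc_le hκ
  obtain ⟨g1', g2', -⟩ := N.b1_le
  set κ := kap b0 b1 G with hκd
  have hμ0 : 0 ≤ μ0 := by
    by_contra hc
    push Not at hc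
    have : μ0 * (w 0 * κ) < 0 := mul_neg_of_neg_of_pos hc (mul_pos hw0 hκ)
    linarith
  have P := pair_of S hr hρ hT hT hT' hE hκ (μ0 := μ0) (by linarith) ha (by
    intro X hX z hz
    rcases hX with rfl | rfl
    · have h0 : ∀ k : Fin 3, dt (e k) (X.pos z - X.pos z) = 0 := by
        intro k
        rw [sub_self]; simp [dt]
      rw [h0, h0, abs_zero]
      exact ⟨mul_nonneg hμ0 (hw 1).le, mul_nonneg hμ0 (hw 2).le⟩
    · exact hcl z hz)
  obtain ⟨k0, k1, k2⟩ := P.coef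
  have hp' := P.hp'
  have hv' := P.hv'
  rw [pp_self] at k0 k1
  rw [vv_self] at k1 k2
  simp only [gv_zero, add_zero, sub_zero] at k0 k1 k2
  have e1 := lx_sub (e := e) (w := w) (c := c) β1 β2 z0 b0 κ T T'
  have e2 := lx_sub (e := e) (w := w) (c := c) (-β2) β1 z0 b0 κ T T'
  have e3 := lv_sub (e := e) (w := w) (c := c) β1 β2 z0 ρ b0 κ T T'
  have e4 := lv_sub (e := e) (w := w) (c := c) (-β2) β1 z0 ρ b0 κ T T'
  rw [e2] at hyp
  rw [e4] at hyv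
  rw [e1, e3]
  exact rel (N0 := shB0 b0) (γ := scB1 κ b0 b1) (G := scG κ b0 G) g1' rfl rfl s2
    ⟨s5, by linarith, by linarith, by linarith, by linarith, by linarith⟩ hb
    (fun k => (hp' k).trans (by linarith)) (fun k => (hv' k).trans (by linarith)) k0 k1 k2 hε hs
    hyp hyv

/-- non-degeneracy in terms of `DetP` -/
theorem nd_of {S : Plk4} {r0 : ℝ} (hS : ShN S.e S.c S.w S.q S.a z0 ρ r0) (hr : 0 < r0)
    (hρ : 0 < ρ) {T : Ln4} (hT : InSheet T S.e S.c S.w S.q S.a z0 ρ) {δ : ℝ} (hδ : 0 < δ)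
    (hD : DetP δ S z0 ρ T) (hκ : 0 < kapP S z0 ρ T) :
    ∃ b0 b1 G, IsExp S.q S.e S.w T z0 ρ b0 b1 G ∧ 0 < kap b0 b1 G ∧
      kapP S z0 ρ T = S.w 0 * kap b0 b1 G ∧ kap b0 b1 G ≤ 13 ∧
      ∀ β1 β2 : ℝ, β1 ^ 2 + β2 ^ 2 = 1 →
        |scB1 (kap b0 b1 G) b0 b1 1 * β1 + scB1 (kap b0 b1 G) b0 b1 2 * β2| ≤ 2 ∧
        |G2 (scG (kap b0 b1 G) b0 G) β1 β2| ≤ 39 ∧
        40000 * δ ≤ |scB1 (kap b0 b1 G) b0 b1 1 * β1 + scB1 (kap b0 b1 G) b0 b1 2 * β2| +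
          |G2 (scG (kap b0 b1 G) b0 G) β1 β2| := by
  have hap : 0 < S.a := by linarith [hS.r0_le]
  have hw0 : 0 < S.w 0 := by linarith [hS.a_le0]
  have hE := expP_spec hS.isQ hw0.ne' z0 ρ T
  have Q := StP.of_shN hS hw0
  have N := hE.nrmC Q hρ.le fun z hz hz' => (hT z hz hz').1
  have hκe : kapP S z0 ρ T = S.w 0 * kap (expP S z0 ρ T).1 (expP S z0 ρ T).2.1
      (expP S z0 ρ T).2.2 := rfl
  have hD0 := hD 0 le_rfl zero_le_one
  unfold fanP at hD0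
  generalize (expP S z0 ρ T).1 = b0 at *
  generalize (expP S z0 ρ T).2.1 = b1 at *
  generalize (expP S z0 ρ T).2.2 = G at *
  have hκ' : 0 < kap b0 b1 G := by
    rw [hκe] at hκ
    exact (mul_pos_iff_of_pos_left hw0).1 hκ
  refine ⟨b0, b1, G, hE, hκ', hκe, Tl102.kap_le N, ?_⟩
  intro β1 β2 hb
  obtain ⟨s1, s2, s3, s4, s5, s6, s7, s8, s9, s10⟩ := N.sc_le hκ'
  set κ := kap b0 b1 G with hκd
  set γ := scB1 κ b0 b1 with hγ
  set M := scG κ b0 G with hM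
  have hG : M.Le 13 := ⟨s5, by linarith, by linarith, by linarith, by linarith, by linarith⟩
  obtain ⟨l1, l2⟩ := b_le hb
  have c1 : slp (shB0 b0) γ 1 0 = 0 := by
    have : (shB0 b0) 1 = 0 := rfl
    simp only [slp, this, zero_mul, add_zero, neg_zero, zero_div]
  have c2 : slp (shB0 b0) γ 2 0 = 0 := by
    have : (shB0 b0) 2 = 0 := rfl
    simp only [slp, this, zero_mul, add_zero, neg_zero, zero_div]
  have e1 : Arc880.det3 (fan (shB0 b0) γ M 0) =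
      (γ 1 * γ 2 * M.uv - γ 1 ^ 2 * M.vv - γ 2 ^ 2 * M.uu) / 16777216 := by
    simp only [Arc880.det3, fan, c1, c2, Matrix.cons_val]
    ring
  rw [e1, abs_div, abs_of_pos (by norm_num : (0 : ℝ) < 16777216),
    le_div_iff₀ (by norm_num)] at hD0
  refine ⟨?_, (G2_le hG l1 l2).trans (by norm_num), nondeg s2 hG hb (by linarith)⟩
  refine (abs2 (mul_ab s3 l1) (mul_ab s4 l2)).trans (by norm_num)

/-! ### the chart -/

open Crest.Agent.R138.Defs (E2)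
open Crest.Agent.R138.Tub70 (InPl)
open Crest.Agent.R136.Vq571 (chp chv ch_zero ch_one)

theorem lx_aff (b1 b2 : ℝ) (T T' : Ln4) : ∃ α β : ℝ, ∀ z,
    lx e w c b1 b2 z T' - lx e w c b1 b2 z T = α + z * β := by
  refine ⟨b1 * (dt (e 1) (T'.p - T.p) / w 1) + b2 * (dt (e 2) (T'.p - T.p) / w 2),
    b1 * (dt (e 1) (T'.v - T.v) / w 1) + b2 * (dt (e 2) (T'.v - T.v) / w 2), fun z => ?_⟩
  simp only [lx, lk, dt, Ln4.pos, Pi.sub_apply]
  ring

/-- an affine function bounded at the ends of the short cell -/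
theorem aff_ext {α β z0 ρ zL ρL R s : ℝ} (hρ : 0 < ρ) (hz : zL ≤ z0) (hz' : z0 + ρ ≤ zL + ρL)
    (hR : ρL ≤ R * ρ) (hR1 : 1 ≤ R) (h0 : |α + z0 * β| ≤ s) (h1 : |α + (z0 + ρ) * β| ≤ s) :
    (∀ z, zL ≤ z → z ≤ zL + ρL → |α + z * β| ≤ 3 * R * s) ∧
      |(α + (zL + ρL) * β) - (α + zL * β)| ≤ 3 * R * s := by
  have hs : 0 ≤ s := (abs_nonneg _).trans h0
  have hβ : |ρ * β| ≤ 2 * s := by
    have e : ρ * β = (α + (z0 + ρ) * β) - (α + z0 * β) := by ring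
    rw [e]; refine (abs_sub _ _).trans ?_; linarith
  rw [abs_mul, abs_of_pos hρ] at hβ
  have hL : ρL * |β| ≤ R * (2 * s) := by
    have h2 : ρL * |β| ≤ R * ρ * |β| := mul_le_mul_of_nonneg_right hR (abs_nonneg _)
    have h3 : R * (ρ * |β|) ≤ R * (2 * s) := mul_le_mul_of_nonneg_left hβ (by linarith)
    linarith
  have hRs : s ≤ R * s := by
    have := mul_le_mul_of_nonneg_right hR1 hs
    linarith
  constructor
  · intro z h2 h3
    have e : α + z * β = (α + z0 * β) + (z - z0) * β := by ring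
    rw [e]
    have h4 : |(z - z0) * β| ≤ ρL * |β| := by
      rw [abs_mul]
      refine mul_le_mul_of_nonneg_right ?_ (abs_nonneg _)
      rw [abs_le]; constructor <;> linarith
    refine (abs_add_le _ _).trans ?_
    linarith
  · have e : (α + (zL + ρL) * β) - (α + zL * β) = ρL * β := by ring
    have hρL : 0 ≤ ρL := by linarith
    rw [e, abs_mul, abs_of_nonneg hρL]
    linarith

/-- frames of the plane -/
theorem axis (f : OrthonormalBasis (Fin 2) ℝ E2) {j j' : Fin 2} (hj : j ≠ j') :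
    (f j 0) ^ 2 + (f j 1) ^ 2 = 1 ∧
      (∀ x : E2, inner ℝ x (f j) = (f j 0) * x 0 + (f j 1) * x 1) ∧
      ∀ x : E2, |inner ℝ x (f j')| = |-(f j 1) * x 0 + (f j 0) * x 1| := by
  have hin : ∀ x y : E2, inner ℝ x y = x 0 * y 0 + x 1 * y 1 := by
    intro x y
    rw [PiLp.inner_apply, Fin.sum_univ_two]
    simp [mul_comm]
  have ho := f.orthonormal
  rw [orthonormal_iff_ite] at ho
  have h1 := ho j j
  have h2 := ho j' j'
  have h3 := ho j j'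
  rw [hin] at h1 h2 h3
  rw [if_pos rfl] at h1 h2
  rw [if_neg hj] at h3
  refine ⟨by linarith, fun x => by rw [hin]; ring, ?_⟩
  · intro x
    rw [hin]
    generalize f j 0 = a1 at *
    generalize f j 1 = a2 at *
    generalize f j' 0 = d1 at *
    generalize f j' 1 = d2 at *
    set t := a1 * d2 - a2 * d1 with ht
    have e1 : d1 = -a2 * t := by rw [ht]; linear_combination (-d1) * h1 + a1 * h3
    have e2 : d2 = a1 * t := by rw [ht]; linear_combination (-d2) * h1 + a2 * h3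
    have et : t ^ 2 = 1 := by
      have : t ^ 2 + (a1 * d1 + a2 * d2) ^ 2 = (a1 * a1 + a2 * a2) * (d1 * d1 + d2 * d2) := by
        rw [ht]; ring
      rw [h1, h2, h3] at this
      linarith
    have ea : |t| = 1 := by
      have : |t| ^ 2 = 1 := by rw [sq_abs]; exact et
      nlinarith [abs_nonneg t]
    have e3 : x 0 * d1 + x 1 * d2 = t * (-a2 * x 0 + a1 * x 1) := by
      rw [e1, e2]
      have : -a2 * t = -a2 * t := rfl
      ring
    rw [e3, abs_mul, ea, one_mul]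

/-! ### one group -/

/-- constant of the strip count -/
noncomputable def cD (W K : ℝ) (qm qp : Fin 3 → ℝ) : ℝ :=
  1860000 * W * (3 * W) ^ (1 + qp 0) * (36 * W) ^ (2 + qp 1 + qp 2) *
    (34 * K ^ 4) ^ (1 + (qm 1 + qm 2))


theorem lx_close (hw : ∀ i, 0 < w i) {T T' : Ln4} {β1 β2 μ z : ℝ} (hb : β1 ^ 2 + β2 ^ 2 = 1)
    (h : |dt (e 1) (T'.pos z - T.pos z)| ≤ μ * w 1 ∧ |dt (e 2) (T'.pos z - T.pos z)| ≤ μ * w 2) :
    |lx e w c β1 β2 z T' - lx e w c β1 β2 z T| ≤ 2 * μ := by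
  obtain ⟨l1, l2⟩ := b_le hb
  have h1 : |lk e w c 1 z T' - lk e w c 1 z T| ≤ μ := by
    rw [lk_sub, abs_div, abs_of_pos (hw 1), div_le_iff₀ (hw 1)]; exact h.1
  have h2 : |lk e w c 2 z T' - lk e w c 2 z T| ≤ μ := by
    rw [lk_sub, abs_div, abs_of_pos (hw 2), div_le_iff₀ (hw 2)]; exact h.2
  have e1 : lx e w c β1 β2 z T' - lx e w c β1 β2 z T =
      β1 * (lk e w c 1 z T' - lk e w c 1 z T) + β2 * (lk e w c 2 z T' - lk e w c 2 z T) := by
    unfold lx; ring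
  rw [e1]
  refine (abs2 (mul_ab l1 h1) (mul_ab l2 h2)).trans (by linarith)

/-- positions between the two ends -/
theorem lx_mid {ρL zL : ℝ} (hρL : 0 < ρL) {T T' : Ln4} {β1 β2 m : ℝ}
    (h0 : |lx e w c β1 β2 zL T' - lx e w c β1 β2 zL T| ≤ m)
    (h1 : |lv e w c β1 β2 zL ρL T' - lv e w c β1 β2 zL ρL T| ≤ m) :
    ∀ z, zL ≤ z → z ≤ zL + ρL → |lx e w c β1 β2 z T' - lx e w c β1 β2 z T| ≤ 2 * m := by
  obtain ⟨α, β, hαβ⟩ := lx_aff (e := e) (w := w) (c := c) β1 β2 T T'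
  intro z h2 h3
  have hm : 0 ≤ m := (abs_nonneg _).trans h0
  have e1 : lv e w c β1 β2 zL ρL T' - lv e w c β1 β2 zL ρL T = ρL * β := by
    have a1 := hαβ zL
    have a2 := hαβ (zL + ρL)
    unfold lv
    linear_combination a2 - a1
  rw [e1] at h1
  rw [hαβ] at h0 ⊢
  have e2 : α + z * β = (α + zL * β) + (z - zL) / ρL * (ρL * β) := by field_simp; ring
  rw [e2]
  have h4 : |(z - zL) / ρL| ≤ 1 := by
    rw [abs_div, abs_of_pos hρL, div_le_one hρL, abs_of_nonneg (by linarith)]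
    linarith
  have h5 := mul_ab h4 h1
  refine (abs2 h0 h5).trans (by linarith)


/-! ### the plank condition -/

/-- two lines in a plank of the chart -/
theorem pl_diff {S : Plk4} {T T' : Ln4} {f : OrthonormalBasis (Fin 2) ℝ E2} {s : Fin 2 → ℝ}
    {p0 v0 : E2} (h : InPl f s p0 v0 (chp S z0 ρ T) (chv S z0 ρ T))
    (h' : InPl f s p0 v0 (chp S z0 ρ T') (chv S z0 ρ T')) (ζ : ℝ) (hζ : |ζ| ≤ 1) (j : Fin 2) :
    |inner ℝ ((chp S z0 ρ T' + ζ • chv S z0 ρ T') - (chp S z0 ρ T + ζ • chv S z0 ρ T)) (f j)| ≤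
      2 * s j := by
  have g1 := h ζ hζ j
  have g2 := h' ζ hζ j
  have e : (chp S z0 ρ T' + ζ • chv S z0 ρ T') - (chp S z0 ρ T + ζ • chv S z0 ρ T) =
      (chp S z0 ρ T' - p0 + ζ • (chv S z0 ρ T' - v0)) -
        (chp S z0 ρ T - p0 + ζ • (chv S z0 ρ T - v0)) := by
    rw [smul_sub, smul_sub]; abel
  rw [e, inner_sub_left]
  exact (abs_sub _ _).trans (by linarith)

theorem pl_ends {S : Plk4} {zL ρL R : ℝ} (hρ : 0 < ρ) (hz : zL ≤ z0) (hz' : z0 + ρ ≤ zL + ρL)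
    (hR : ρL ≤ R * ρ) (hR1 : 1 ≤ R) {T T' : Ln4} {f : OrthonormalBasis (Fin 2) ℝ E2}
    {s : Fin 2 → ℝ} {p0 v0 : E2} (h : InPl f s p0 v0 (chp S z0 ρ T) (chv S z0 ρ T))
    (h' : InPl f s p0 v0 (chp S z0 ρ T') (chv S z0 ρ T')) {j j' : Fin 2} (hj : j ≠ j') :
    (|lx S.e S.w S.c (f j 0) (f j 1) zL T' - lx S.e S.w S.c (f j 0) (f j 1) zL T| ≤
        6 * R * s j ∧
      |lv S.e S.w S.c (f j 0) (f j 1) zL ρL T' - lv S.e S.w S.c (f j 0) (f j 1) zL ρL T| ≤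
        6 * R * s j) ∧
    (|lx S.e S.w S.c (-(f j 1)) (f j 0) zL T' - lx S.e S.w S.c (-(f j 1)) (f j 0) zL T| ≤
        6 * R * s j' ∧
      |lv S.e S.w S.c (-(f j 1)) (f j 0) zL ρL T' -
        lv S.e S.w S.c (-(f j 1)) (f j 0) zL ρL T| ≤ 6 * R * s j') := by
  obtain ⟨hb, ax1, ax2⟩ := axis f hj
  have d0 : ∀ ζ : ℝ, ∀ X : Ln4, (chp S z0 ρ X + ζ • chv S z0 ρ X) 0 =
      lk S.e S.w S.c 1 (z0 + ρ / 2 + ρ / 2 * ζ) X := fun ζ X => ch_zero S z0 ρ ζ X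
  have d1 : ∀ ζ : ℝ, ∀ X : Ln4, (chp S z0 ρ X + ζ • chv S z0 ρ X) 1 =
      lk S.e S.w S.c 2 (z0 + ρ / 2 + ρ / 2 * ζ) X := fun ζ X => ch_one S z0 ρ ζ X
  have long : ∀ ζ : ℝ, |ζ| ≤ 1 → ∀ z, z = z0 + ρ / 2 + ρ / 2 * ζ →
      |lx S.e S.w S.c (f j 0) (f j 1) z T' - lx S.e S.w S.c (f j 0) (f j 1) z T| ≤ 2 * s j := by
    intro ζ hζ z hz1
    have g := pl_diff h h' ζ hζ j
    rw [ax1, PiLp.sub_apply, PiLp.sub_apply, d0, d0, d1, d1, ← hz1] at g
    refine le_trans (le_of_eq ?_) g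
    congr 1
    unfold lx; ring
  have short : ∀ ζ : ℝ, |ζ| ≤ 1 → ∀ z, z = z0 + ρ / 2 + ρ / 2 * ζ →
      |lx S.e S.w S.c (-(f j 1)) (f j 0) z T' - lx S.e S.w S.c (-(f j 1)) (f j 0) z T| ≤
        2 * s j' := by
    intro ζ hζ z hz1
    have g := pl_diff h h' ζ hζ j'
    rw [ax2, PiLp.sub_apply, PiLp.sub_apply, d0, d0, d1, d1, ← hz1] at g
    refine le_trans (le_of_eq ?_) g
    congr 1
    unfold lx; ring
  have fin : ∀ γ1 γ2 m : ℝ, (∀ ζ : ℝ, |ζ| ≤ 1 → ∀ z, z = z0 + ρ / 2 + ρ / 2 * ζ →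
      |lx S.e S.w S.c γ1 γ2 z T' - lx S.e S.w S.c γ1 γ2 z T| ≤ 2 * m) →
      |lx S.e S.w S.c γ1 γ2 zL T' - lx S.e S.w S.c γ1 γ2 zL T| ≤ 6 * R * m ∧
      |lv S.e S.w S.c γ1 γ2 zL ρL T' - lv S.e S.w S.c γ1 γ2 zL ρL T| ≤ 6 * R * m := by
    intro γ1 γ2 m hm
    obtain ⟨α, β, hαβ⟩ := lx_aff (e := S.e) (w := S.w) (c := S.c) γ1 γ2 T T'
    have h0 := hm (-1) (by norm_num) z0 (by ring)
    have h1 := hm 1 (by norm_num) (z0 + ρ) (by ring)
    rw [hαβ] at h0 h1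
    obtain ⟨c1, c2⟩ := aff_ext hρ hz hz' hR hR1 h0 h1
    have hρL : 0 ≤ ρL := by linarith
    constructor
    · rw [hαβ]
      exact (c1 zL le_rfl (by linarith)).trans (by linarith)
    · have e1 : lv S.e S.w S.c γ1 γ2 zL ρL T' - lv S.e S.w S.c γ1 γ2 zL ρL T =
          (α + (zL + ρL) * β) - (α + zL * β) := by
        rw [← hαβ, ← hαβ]; unfold lv; ring
      rw [e1]
      exact c2.trans (by linarith)
  exact ⟨fin _ _ _ long, fin _ _ _ short⟩



end Crest.Agent.R136.Kf605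
end

-- ▼ part R136/Kf5_605
section

/-!
# R136: the plank condition for a curved sheet, groups of size `μ` (helper605)
-/

set_option autoImplicit false
set_option linter.unusedVariables false

namespace Crest.Agent.R136.Kf605

open Finset
open Crest.Agent.R136.Sh605 Crest.Agent.R136.K4
open Crest.Agent.R136.Tl102 (QF Fq bz shB0 shB1 shG scB1 scG kap NrmC IsExp StP fr fan slp)
open Crest.Agent.R136.Lgt989
open Crest.Agent.R136.Nd565 (Stp sA sB)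
open Crest.Agent.R136.KapP335 (DetP kapP expP fanP expP_spec expP_eq)
open Crest.Agent.R136.Tlt51 (Shp InP)
open Crest.Agent.R136.Phc248
open Crest.Agent.R138.Defs (E2)
open Crest.Agent.R138.Tub70 (InPl)
open Crest.Agent.R136.Vq571 (chp chv ch_zero ch_one)

variable {e : Fin 3 → V3} {c : Ln4} {w : V3} {q : ℝ → V3 → ℝ} {a z0 ρ r0 : ℝ}

open Classical in
/-- short strips -/
theorem strip_omM {ι : Type*} {qm qp : Fin 3 → ℝ} (hq : ∀ k, 0 ≤ qm k ∧ qm k ≤ qp k)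
    {P : Finset ι} {L : ι → Ln4} {S : Plk4} {zL ρL z0 ρ r a0 w10 w20 W M : ℝ}
    (hS : ShN S.e S.c S.w S.q S.a zL ρL r) (hr : 0 < r) (hz : zL ≤ z0)
    (hz' : z0 + ρ ≤ zL + ρL) (hρ : 0 < ρ) (h128 : 128 * ρ ≤ ρL) (hW : 1 ≤ W) (hM : 0 ≤ M)
    (ha0 : 0 < a0) (h10 : 0 < w10) (h20 : 0 < w20) (na : S.a ≤ W * a0) (n1 : S.w 1 ≤ W * w10)
    (n2 : S.w 2 ≤ W * w20)
    (hd : ∀ S' : Plk4, Shp S' z0 ρ r → S'.w 1 ≤ ρ →
      ((P.filter fun t => InP (L t) S' z0 ρ).card : ℝ) ≤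
        W * M * phC qm qp a0 w10 w20 S'.a (S'.w 1) (S'.w 2))
    {B : Finset ι} (hB : B ⊆ P)
    (hBS : ∀ t ∈ B, InSheet (L t) S.e S.c S.w S.q S.a zL ρL) {T : ι} (hT : T ∈ B)
    {b0 b1 : V3} {G : QF} (hE : IsExp S.q S.e S.w (L T) zL ρL b0 b1 G)
    (hκ : 0 < kap b0 b1 G) (hκ13 : kap b0 b1 G ≤ 13) {β1 β2 : ℝ} (hb : β1 ^ 2 + β2 ^ 2 = 1)
    (hL2 : |scB1 (kap b0 b1 G) b0 b1 1 * β1 + scB1 (kap b0 b1 G) b0 b1 2 * β2| ≤ 2)
    (hh : |G2 (scG (kap b0 b1 G) b0 G) β1 β2| ≤ 39) {K s1 om : ℝ} (hK : 1 ≤ K) (hs1 : 0 < s1)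
    (hs1' : s1 ≤ 1 / 250000) (has : S.a ≤ 2 * s1 * S.w 0)
    (hom : s1 / (16 * K ^ 4) ≤ om) (hom' : om ≤ 1 / 250000)
    (hβρ : 36 * (2 * (om + s1)) * S.w 1 ≤ ρ)
    (hLo : |scB1 (kap b0 b1 G) b0 b1 1 * β1 + scB1 (kap b0 b1 G) b0 b1 2 * β2| * om ≤ s1)
    (hom2 : om ^ 2 ≤ s1)
    (hn : ∀ t ∈ B, ∀ z, zL ≤ z → z ≤ zL + ρL →
      |lx S.e S.w S.c (-β2) β1 z (L t) - lx S.e S.w S.c (-β2) β1 z (L T)| ≤ 2 * s1)
    (hx : ∀ t ∈ B, ∀ z, zL ≤ z → z ≤ zL + ρL →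
      |lx S.e S.w S.c β1 β2 z (L t) - lx S.e S.w S.c β1 β2 z (L T)| ≤ 2 * om) :
    (B.card : ℝ) ≤ cD W K qm qp * M * om ^ (1 + (qm 1 + qm 2)) * s1 := by
  have hap : 0 < S.a := by linarith [hS.r0_le]
  have hw0 : 0 < S.w 0 := by linarith [hS.a_le0]
  have hK4 : 1 ≤ K ^ 4 := one_le_pow₀ hK
  have hom0 : 0 < om := lt_of_lt_of_le (by positivity) hom
  have hs1om : s1 ≤ 16 * K ^ 4 * om := by
    rw [div_le_iff₀ (by positivity)] at hom
    linarith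
  set β : ℝ := 2 * (om + s1) with hβ
  have hβ0 : 0 < β := by positivity
  have hβom : β ≤ 34 * K ^ 4 * om := by
    have h1 : om ≤ K ^ 4 * om := by
      have := mul_le_mul_of_nonneg_right hK4 hom0.le
      linarith
    rw [hβ]; linarith
  obtain ⟨l1, l2⟩ := b_le hb
  have key := Plh571.strip_hd hq hS hr hz hz' hρ h128 hW hM ha0 h10 h20 na n1 n2 hd (hBS T hT) hE
    (nA := -β2) (nB := β1) (by rw [neg_sq]; linarith) (K := 5000) (σ := 2 * s1) (β := β)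
    (by norm_num) (by positivity) hβ0 (by rw [hβ]; linarith)
    (by
      refine has.trans (mul_le_mul_of_nonneg_right ?_ hw0.le)
      rw [hβ]; linarith) has
    hβρ
    (Or.inl (by
      have e1 : kap b0 b1 G * (scB1 (kap b0 b1 G) b0 b1 1 * (-β1) +
          scB1 (kap b0 b1 G) b0 b1 2 * -β2) = -(kap b0 b1 G *
          (scB1 (kap b0 b1 G) b0 b1 1 * β1 + scB1 (kap b0 b1 G) b0 b1 2 * β2)) := by ring
      have e2 : kap b0 b1 G * ((scG (kap b0 b1 G) b0 G).uu * β1 ^ 2 -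
          (scG (kap b0 b1 G) b0 G).uv * (-β2) * β1 + (scG (kap b0 b1 G) b0 G).vv * (-β2) ^ 2) =
          kap b0 b1 G * G2 (scG (kap b0 b1 G) b0 G) β1 β2 := by unfold G2; ring
      rw [e1, e2, abs_neg, abs_mul, abs_mul, abs_of_pos hκ]
      set Lb := |scB1 (kap b0 b1 G) b0 b1 1 * β1 + scB1 (kap b0 b1 G) b0 b1 2 * β2|
      set hb' := |G2 (scG (kap b0 b1 G) b0 G) β1 β2|
      have hLb0 : 0 ≤ Lb := abs_nonneg _
      have hb0' : 0 ≤ hb' := abs_nonneg _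
      have f1 : Lb * β ≤ 6 * s1 := by
        have : Lb * s1 ≤ 2 * s1 := mul_le_mul_of_nonneg_right hL2 hs1.le
        have e3 : Lb * β = 2 * (Lb * om) + 2 * (Lb * s1) := by rw [hβ]; ring
        rw [e3]; linarith
      have f2 : β ^ 2 ≤ 16 * s1 := by
        have : s1 ^ 2 ≤ s1 := by nlinarith
        have e3 : β ^ 2 = 4 * (om ^ 2 + 2 * (om * s1) + s1 ^ 2) := by rw [hβ]; ring
        have : om * s1 ≤ 1 * s1 := mul_le_mul_of_nonneg_right (by linarith) hs1.le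
        rw [e3]; linarith
      have f3 : hb' * β ^ 2 ≤ 39 * (16 * s1) := mul_le_mul hh f2 (sq_nonneg _) (by norm_num)
      have f4 : kap b0 b1 G * (Lb * β) ≤ 13 * (6 * s1) :=
        mul_le_mul hκ13 f1 (by positivity) (by norm_num)
      have f5 : kap b0 b1 G * (hb' * β ^ 2) ≤ 13 * (39 * (16 * s1)) :=
        mul_le_mul hκ13 f3 (by positivity) (by norm_num)
      have e4 : kap b0 b1 G * Lb * β + kap b0 b1 G * hb' * β ^ 2 =
          kap b0 b1 G * (Lb * β) + kap b0 b1 G * (hb' * β ^ 2) := by ring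
      rw [e4]; linarith)) hB hBS
    (by
      intro t ht z h1 h2
      have h3 := hx t ht z (by linarith) (by linarith)
      have h4 := hn t ht z (by linarith) (by linarith)
      have eA : sA S.e S.w (L T) (L t) z = lk S.e S.w S.c 1 z (L t) - lk S.e S.w S.c 1 z (L T) :=
        (lk_sub 1 z (L T) (L t)).symm
      have eB : sB S.e S.w (L T) (L t) z = lk S.e S.w S.c 2 z (L t) - lk S.e S.w S.c 2 z (L T) :=
        (lk_sub 2 z (L T) (L t)).symm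
      have e3 : lx S.e S.w S.c β1 β2 z (L t) - lx S.e S.w S.c β1 β2 z (L T) =
          β1 * sA S.e S.w (L T) (L t) z + β2 * sB S.e S.w (L T) (L t) z := by
        rw [eA, eB]; unfold lx; ring
      have e4 : lx S.e S.w S.c (-β2) β1 z (L t) - lx S.e S.w S.c (-β2) β1 z (L T) =
          -β2 * sA S.e S.w (L T) (L t) z + β1 * sB S.e S.w (L T) (L t) z := by
        rw [eA, eB]; unfold lx; ring
      rw [e3] at h3
      rw [e4] at h4
      obtain ⟨c1, c2⟩ := comp_le hb (sA S.e S.w (L T) (L t) z) (sB S.e S.w (L T) (L t) z)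
      refine ⟨?_, ?_, h4⟩
      · rw [hβ]; linarith
      · rw [hβ]; linarith)
  refine key.trans ?_
  have hq12 : 0 ≤ qm 1 + qm 2 := by linarith [(hq 1).1, (hq 2).1]
  have hW0 : 0 < W := by linarith
  have e1 : β * (2 * s1) * β ^ (qm 1 + qm 2) = 2 * s1 * β ^ (1 + (qm 1 + qm 2)) := by
    rw [Real.rpow_add hβ0 1, Real.rpow_one]; ring
  have e2 : β ^ (1 + (qm 1 + qm 2)) ≤ (34 * K ^ 4) ^ (1 + (qm 1 + qm 2)) *
      om ^ (1 + (qm 1 + qm 2)) := by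
    rw [← Real.mul_rpow (by positivity) hom0.le]
    exact Real.rpow_le_rpow hβ0.le hβom (by linarith)
  calc 186 * 5000 * W * (3 * W) ^ (1 + qp 0) * (36 * W) ^ (2 + qp 1 + qp 2) * M *
        (β * (2 * s1)) * β ^ (qm 1 + qm 2)
      = 186 * 5000 * W * (3 * W) ^ (1 + qp 0) * (36 * W) ^ (2 + qp 1 + qp 2) * M *
        (β * (2 * s1) * β ^ (qm 1 + qm 2)) := by ring
    _ = 186 * 5000 * W * (3 * W) ^ (1 + qp 0) * (36 * W) ^ (2 + qp 1 + qp 2) * M *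
        (2 * s1 * β ^ (1 + (qm 1 + qm 2))) := by rw [e1]
    _ ≤ 186 * 5000 * W * (3 * W) ^ (1 + qp 0) * (36 * W) ^ (2 + qp 1 + qp 2) * M *
        (2 * s1 * ((34 * K ^ 4) ^ (1 + (qm 1 + qm 2)) * om ^ (1 + (qm 1 + qm 2)))) := by
        gcongr
    _ = cD W K qm qp * M * om ^ (1 + (qm 1 + qm 2)) * s1 := by unfold cD; ring


open Classical in
set_option maxHeartbeats 1000000 in
/-- plank lines of one group -/
theorem grp_bdM {ι : Type*} {qm qp : Fin 3 → ℝ} (hq : ∀ k, 0 ≤ qm k ∧ qm k ≤ qp k)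
    {P : Finset ι} {L : ι → Ln4} {S : Plk4} {zL ρL z0 ρ r a0 w10 w20 W M : ℝ}
    (hS : ShN S.e S.c S.w S.q S.a zL ρL r) (hr : 0 < r) (hz : zL ≤ z0)
    (hz' : z0 + ρ ≤ zL + ρL) (hρ : 0 < ρ) (h128 : 128 * ρ ≤ ρL) (hW : 1 ≤ W) (hM : 0 ≤ M)
    (ha0 : 0 < a0) (h10 : 0 < w10) (h20 : 0 < w20) (na : S.a ≤ W * a0) (n1 : S.w 1 ≤ W * w10)
    (n2 : S.w 2 ≤ W * w20)
    (hd : ∀ S' : Plk4, Shp S' z0 ρ r → S'.w 1 ≤ ρ →
      ((P.filter fun t => InP (L t) S' z0 ρ).card : ℝ) ≤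
        W * M * phC qm qp a0 w10 w20 S'.a (S'.w 1) (S'.w 2))
    {μ : ℝ} (hμ0 : 0 < μ) (hμ1 : μ ≤ 1 / 1000000) (hwρ : 576 * μ * S.w 1 ≤ ρ) {A : Finset ι} (hAP : A ⊆ P)
    (hA : ∀ t ∈ A, InSheet (L t) S.e S.c S.w S.q S.a zL ρL) {δ : ℝ} (hδ : 0 < δ) (hδ1 : δ ≤ 1)
    (hD : ∀ t ∈ A, DetP δ S zL ρL (L t)) {H : ℕ} (hH : 1 ≤ H) {K1 C1 : ℝ} (hK1 : 1 ≤ K1)
    (hC1 : 13 * K1 ≤ C1) (hcur : ∀ t ∈ A, S.a * H ≤ K1 * kapP S zL ρL (L t))
    (hsm : ∀ t ∈ A, 2 * S.a ≤ μ * kapP S zL ρL (L t)) {β1 β2 : ℝ} (hb : β1 ^ 2 + β2 ^ 2 = 1)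
    {sl ss : ℝ} (hss : 1 / (H : ℝ) ≤ ss) (hsl : ss ≤ sl)
    (hcl : ∀ t ∈ A, ∀ t' ∈ A, ∀ z, z = zL ∨ z = zL + ρL →
      |dt (S.e 1) ((L t').pos z - (L t).pos z)| ≤ μ * S.w 1 ∧
        |dt (S.e 2) ((L t').pos z - (L t).pos z)| ≤ μ * S.w 2)
    (hbl : ∀ t ∈ A, ∀ t' ∈ A,
      |lx S.e S.w S.c β1 β2 zL (L t') - lx S.e S.w S.c β1 β2 zL (L t)| ≤ C1 * sl ∧
        |lv S.e S.w S.c β1 β2 zL ρL (L t') - lv S.e S.w S.c β1 β2 zL ρL (L t)| ≤ C1 * sl)
    (hbs : ∀ t ∈ A, ∀ t' ∈ A,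
      |lx S.e S.w S.c (-β2) β1 zL (L t') - lx S.e S.w S.c (-β2) β1 zL (L t)| ≤ C1 * ss ∧
        |lv S.e S.w S.c (-β2) β1 zL ρL (L t') - lv S.e S.w S.c (-β2) β1 zL ρL (L t)| ≤ C1 * ss) :
    (A.card : ℝ) ≤ 40000 * (10000 / δ) ^ 7 * (2 / μ * (1 + Real.log H)) *
      (cD W (10000 / δ) qm qp * M) * C1 ^ (2 + (qm 1 + qm 2)) * sl ^ (1 + (qm 1 + qm 2)) * ss := by
  have hap : 0 < S.a := by linarith [hS.r0_le]
  have hw0 : 0 < S.w 0 := by linarith [hS.a_le0]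
  have hρL : 0 < ρL := by linarith
  have Q := StP.of_shN hS hw0
  have hw := Q.pos
  have hHr : (1 : ℝ) ≤ H := by exact_mod_cast hH
  have hH0 : (0 : ℝ) < H := by linarith
  have hss0 : 0 < ss := lt_of_lt_of_le (by positivity) hss
  have hsl0 : 0 < sl := lt_of_lt_of_le hss0 hsl
  have hC10 : 1 ≤ C1 := by linarith
  have hC1p : 0 < C1 := by linarith
  have hkp : ∀ t ∈ A, 0 < kapP S zL ρL (L t) := by
    intro t ht
    have := hsm t ht
    have h2 : 0 < μ * kapP S zL ρL (L t) := by linarith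
    exact (mul_pos_iff_of_pos_left hμ0).1 h2
  have hq12 : 0 ≤ qm 1 + qm 2 := by linarith [(hq 1).1, (hq 2).1]
  have hnb : (-β2) ^ 2 + β1 ^ 2 = 1 := by rw [neg_sq]; linarith
  set K : ℝ := 10000 / δ with hKd
  have hK : 10000 ≤ K := by rw [hKd, le_div_iff₀ hδ]; nlinarith
  have hK0 : 0 < K := by linarith
  have hKinv : 1 / K ≤ 40000 * δ := by
    rw [hKd, one_div_div]; linarith
  set s1' : ℝ := min (C1 * ss) (4 * μ) with hs1'
  set s0' : ℝ := min (C1 * sl) (4 * μ) with hs0'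
  have s1p : 0 < s1' := lt_min (by positivity) (by positivity)
  have s0p : 0 < s0' := lt_min (by positivity) (by positivity)
  have s1le : s1' ≤ 4 * μ := min_le_right _ _
  have s0le : s0' ≤ 4 * μ := min_le_right _ _
  have s1le' : s1' ≤ C1 * ss := min_le_left _ _
  have s0le' : s0' ≤ C1 * sl := min_le_left _ _
  have h2 : ∀ t : ι, ∃ (b0 b1 : V3) (G : QF), t ∈ A →
      IsExp S.q S.e S.w (L t) zL ρL b0 b1 G ∧ 0 < kap b0 b1 G ∧
      kapP S zL ρL (L t) = S.w 0 * kap b0 b1 G ∧ kap b0 b1 G ≤ 13 ∧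
      ∀ β1 β2 : ℝ, β1 ^ 2 + β2 ^ 2 = 1 →
        |scB1 (kap b0 b1 G) b0 b1 1 * β1 + scB1 (kap b0 b1 G) b0 b1 2 * β2| ≤ 2 ∧
        |G2 (scG (kap b0 b1 G) b0 G) β1 β2| ≤ 39 ∧
        40000 * δ ≤ |scB1 (kap b0 b1 G) b0 b1 1 * β1 + scB1 (kap b0 b1 G) b0 b1 2 * β2| +
          |G2 (scG (kap b0 b1 G) b0 G) β1 β2| := by
    intro t
    by_cases ht : t ∈ A
    · obtain ⟨b0, b1, G, h⟩ := nd_of hS hr hρL (hA t ht) hδ (hD t ht) (hkp t ht)
      exact ⟨b0, b1, G, fun _ => h⟩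
    · exact ⟨0, 0, ⟨0, 0, 0, 0, 0, 0⟩, fun h => absurd h ht⟩
  choose b0 b1 G hex using h2
  set Lf : ι → ℝ := fun t => scB1 (kap (b0 t) (b1 t) (G t)) (b0 t) (b1 t) 1 * β1 +
    scB1 (kap (b0 t) (b1 t) (G t)) (b0 t) (b1 t) 2 * β2 with hLf
  set hf : ι → ℝ := fun t => G2 (scG (kap (b0 t) (b1 t) (G t)) (b0 t) (G t)) β1 β2 with hhf
  set xP : ι → ℝ := fun t => lx S.e S.w S.c β1 β2 zL (L t) with hxP
  set xV : ι → ℝ := fun t => lv S.e S.w S.c β1 β2 zL ρL (L t) with hxV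
  have cP : ∀ γ1 γ2 : ℝ, γ1 ^ 2 + γ2 ^ 2 = 1 → ∀ t ∈ A, ∀ t' ∈ A,
      |lx S.e S.w S.c γ1 γ2 zL (L t') - lx S.e S.w S.c γ1 γ2 zL (L t)| ≤ 4 * μ ∧
      |lv S.e S.w S.c γ1 γ2 zL ρL (L t') - lv S.e S.w S.c γ1 γ2 zL ρL (L t)| ≤
        4 * μ := by
    intro γ1 γ2 hγ t ht t' ht'
    have a1 := lx_close (c := S.c) hw hγ (hcl t ht t' ht' zL (Or.inl rfl))
    have a2 := lx_close (c := S.c) hw hγ (hcl t ht t' ht' _ (Or.inr rfl))
    refine ⟨a1.trans (by linarith), ?_⟩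
    have e1 : lv S.e S.w S.c γ1 γ2 zL ρL (L t') - lv S.e S.w S.c γ1 γ2 zL ρL (L t) =
        (lx S.e S.w S.c γ1 γ2 (zL + ρL) (L t') - lx S.e S.w S.c γ1 γ2 (zL + ρL) (L t)) -
        (lx S.e S.w S.c γ1 γ2 zL (L t') - lx S.e S.w S.c γ1 γ2 zL (L t)) := by
      unfold lv; ring
    rw [e1]
    exact (abs_sub _ _).trans (by linarith)
  have nP : ∀ t ∈ A, ∀ t' ∈ A,
      |lx S.e S.w S.c (-β2) β1 zL (L t') - lx S.e S.w S.c (-β2) β1 zL (L t)| ≤ s1' ∧
      |lv S.e S.w S.c (-β2) β1 zL ρL (L t') - lv S.e S.w S.c (-β2) β1 zL ρL (L t)| ≤ s1' :=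
    fun t ht t' ht' => ⟨le_min (hbs t ht t' ht').1 (cP _ _ hnb t ht t' ht').1,
      le_min (hbs t ht t' ht').2 (cP _ _ hnb t ht t' ht').2⟩
  have bP : ∀ t ∈ A, ∀ t' ∈ A, |xP t' - xP t| ≤ s0' ∧ |xV t' - xV t| ≤ s0' :=
    fun t ht t' ht' => ⟨le_min (hbl t ht t' ht').1 (cP _ _ hb t ht t' ht').1,
      le_min (hbl t ht t' ht').2 (cP _ _ hb t ht t' ht').2⟩
  have hWp : 0 < W := by linarith
  have hcD : 0 ≤ cD W K qm qp * M := by unfold cD; positivity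
  have HR : PlR A xP xV Lf hf s0' s1' K (qm 1 + qm 2) (cD W K qm qp * M) := by
    refine ⟨by linarith, s1p, min_le_min (mul_le_mul_of_nonneg_left hsl hC1p.le) le_rfl,
      by linarith, hq12, hcD, fun t ht t' ht' => (bP t ht t' ht').1,
      fun t ht t' ht' => (bP t ht t' ht').2, ?_, ?_, ?_⟩
    · intro t ht
      obtain ⟨a1, a2, a3⟩ := (hex t ht).2.2.2.2 β1 β2 hb
      exact ⟨a1.trans (by linarith), a2.trans (by linarith), hKinv.trans a3⟩
    · intro t ht t' ht'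
      obtain ⟨f1, f2, f3, f4, f5⟩ := hex t ht
      have hk1 := hsm t ht
      have hk2 := hcur t ht
      rw [f3] at hk1 hk2
      have hwk : 0 < S.w 0 * kap (b0 t) (b1 t) (G t) := mul_pos hw0 f2
      have h3 := pair_rel hS hr hρL (hA t ht) (hA t' ht') f1 f2 (μ0 := μ) (by linarith) (by linarith) (hcl t ht t' ht') hb (s := s1')
        (by
          refine le_min ?_ ?_
          · rw [div_le_iff₀ hwk]
            have h4 : S.a * 1 ≤ S.a * (H * ss) := by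
              refine mul_le_mul_of_nonneg_left ?_ hap.le
              rw [div_le_iff₀ hH0] at hss
              linarith
            have h5 : S.a * H * ss ≤ K1 * (S.w 0 * kap (b0 t) (b1 t) (G t)) * ss :=
              mul_le_mul_of_nonneg_right hk2 hss0.le
            have h6 : K1 * (S.w 0 * kap (b0 t) (b1 t) (G t)) * ss * 13 ≤
                C1 * ss * (S.w 0 * kap (b0 t) (b1 t) (G t)) := by
              have := mul_le_mul_of_nonneg_right hC1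
                (by positivity : 0 ≤ ss * (S.w 0 * kap (b0 t) (b1 t) (G t)))
              linarith
            have h7 : 0 ≤ K1 * (S.w 0 * kap (b0 t) (b1 t) (G t)) * ss := by positivity
            linarith
          · rw [div_le_iff₀ hwk]
            linarith [mul_pos hμ0 hwk]) (by linarith) (nP t ht t' ht').1 (nP t ht t' ht').2
      refine h3.trans (mul_le_mul_of_nonneg_right hK ?_)
      have : 0 ≤ |Lf t| * |xP t' - xP t| := by positivity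
      positivity
    · intro t ht om ho1 ho2 ho3 ho4
      obtain ⟨f1, f2, f3, f4, f5⟩ := hex t ht
      obtain ⟨a1, a2, a3⟩ := f5 β1 β2 hb
      have hom0 : 0 ≤ om := le_trans (by positivity) ho1
      have htB : t ∈ A.filter fun t' => |xP t' - xP t| ≤ om ∧ |xV t' - xV t| ≤ om := by
        rw [mem_filter, sub_self, sub_self, abs_zero]
        exact ⟨ht, hom0, hom0⟩
      have hk1 := hsm t ht
      have hk2 := hcur t ht
      rw [f3] at hk1 hk2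
      refine strip_omM hq hS hr hz hz' hρ h128 hW hM ha0 h10 h20 na n1 n2 hd
        ((filter_subset _ _).trans hAP) (fun t' ht' => hA t' (mem_filter.1 ht').1) htB f1 f2 f4
        hb a1 a2 (by linarith) s1p (s1le.trans (by linarith)) ?_ ho1
        (ho2.trans (s0le.trans (by linarith))) (by
          refine le_trans (mul_le_mul_of_nonneg_right ?_ (hw 1).le) hwρ
          linarith) ho3 ho4 ?_ ?_
      · -- a ≤ 2 s1' w0
        have hkw : S.w 0 * kap (b0 t) (b1 t) (G t) ≤ 13 * S.w 0 := by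
          have := mul_le_mul_of_nonneg_left f4 hw0.le
          linarith
        have b1' : S.a ≤ 2 * (C1 * ss) * S.w 0 := by
          have h4 : S.a * 1 ≤ S.a * (H * ss) := by
            refine mul_le_mul_of_nonneg_left ?_ hap.le
            rw [div_le_iff₀ hH0] at hss
            linarith
          have h5 : S.a * H * ss ≤ K1 * (S.w 0 * kap (b0 t) (b1 t) (G t)) * ss :=
            mul_le_mul_of_nonneg_right hk2 hss0.le
          have h6 : K1 * (S.w 0 * kap (b0 t) (b1 t) (G t)) * ss ≤ K1 * (13 * S.w 0) * ss := by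
            gcongr
          have h7 : K1 * (13 * S.w 0) * ss ≤ C1 * (S.w 0 * ss) := by
            have := mul_le_mul_of_nonneg_right hC1 (by positivity : 0 ≤ S.w 0 * ss)
            linarith
          have h8 : 0 ≤ C1 * (S.w 0 * ss) := by positivity
          linarith
        have b2' : S.a ≤ 2 * (4 * μ) * S.w 0 := by
          have := mul_le_mul_of_nonneg_left hkw hμ0.le
          have h9 : 0 < μ * S.w 0 := mul_pos hμ0 hw0
          linarith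
        rcases min_cases (C1 * ss) (4 * μ) with h | h
        · rw [hs1', h.1]; exact b1'
        · rw [hs1', h.1]; exact b2'
      · intro t' ht' z h4 h5
        exact lx_mid hρL (nP t ht t' (mem_filter.1 ht').1).1 (nP t ht t' (mem_filter.1 ht').1).2
          z h4 h5
      · intro t' ht' z h4 h5
        exact lx_mid hρL (mem_filter.1 ht').2.1 (mem_filter.1 ht').2.2 z h4 h5
  have key := plank_cells HR
  have hlogH : 0 ≤ Real.log H := Real.log_nonneg hHr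
  have hμi : 1 ≤ 1 / μ := by rw [le_div_iff₀ hμ0]; linarith
  have hlog : 1 + Real.log (1 / s1') ≤ 2 / μ * (1 + Real.log H) := by
    have h3 : 1 / s1' ≤ (1 / μ) * H := by
      rw [div_le_iff₀ s1p]
      have h4 : μ / (H : ℝ) ≤ s1' := by
        refine le_min ?_ ?_
        · have h5 : μ / (H : ℝ) ≤ 1 / H := by
            apply div_le_div_of_nonneg_right _ hH0.le; linarith
          have h6 : ss ≤ C1 * ss := by
            have := mul_le_mul_of_nonneg_right hC10 hss0.le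
            linarith
          linarith
        · rw [div_le_iff₀ (by positivity)]
          nlinarith
      have h5 : (1 / μ) * H * (μ / H) ≤ (1 / μ) * H * s1' :=
        mul_le_mul_of_nonneg_left h4 (by positivity)
      have h6 : (1 / μ) * (H : ℝ) * (μ / H) = 1 := by field_simp
      rw [h6] at h5
      exact h5
    have h4 := Real.log_le_log (by positivity) h3
    rw [Real.log_mul (by positivity) hH0.ne'] at h4
    have h5 : Real.log (1 / μ) ≤ 1 / μ - 1 := Real.log_le_sub_one_of_pos (by positivity)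
    have e : 2 / μ * (1 + Real.log H) = 2 * (1 / μ) + 2 * ((1 / μ) * Real.log H) := by ring
    have h6 : 1 * Real.log H ≤ (1 / μ) * Real.log H := mul_le_mul_of_nonneg_right hμi hlogH
    rw [e]
    linarith
  have hlog0 : 0 ≤ 2 / μ * (1 + Real.log H) := by positivity
  refine key.trans ?_
  have e1 : (C1 * sl) ^ (1 + (qm 1 + qm 2)) = C1 ^ (1 + (qm 1 + qm 2)) *
      sl ^ (1 + (qm 1 + qm 2)) := Real.mul_rpow hC1p.le hsl0.le
  have e2 : s0' ^ (1 + (qm 1 + qm 2)) ≤ C1 ^ (1 + (qm 1 + qm 2)) *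
      sl ^ (1 + (qm 1 + qm 2)) := by
    rw [← e1]; exact Real.rpow_le_rpow s0p.le s0le' (by linarith)
  have e3 : C1 ^ (2 + (qm 1 + qm 2)) = C1 * C1 ^ (1 + (qm 1 + qm 2)) := by
    have : (2 : ℝ) + (qm 1 + qm 2) = 1 + (1 + (qm 1 + qm 2)) := by ring
    rw [this, Real.rpow_add hC1p, Real.rpow_one]
  calc 40000 * K ^ 7 * (1 + Real.log (1 / s1')) * (cD W K qm qp * M) *
        s0' ^ (1 + (qm 1 + qm 2)) * s1'
      ≤ 40000 * K ^ 7 * (2 / μ * (1 + Real.log H)) * (cD W K qm qp * M) *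
        (C1 ^ (1 + (qm 1 + qm 2)) * sl ^ (1 + (qm 1 + qm 2))) * (C1 * ss) := by
        gcongr
    _ = _ := by rw [e3]; ring


/-- the constant of the plank condition -/
noncomputable def bigM (δ R K1 W μ : ℝ) (qm qp : Fin 3 → ℝ) : ℝ :=
  (3 / μ) ^ 4 * (40000 * (10000 / δ) ^ 7 * (2 / μ) * cD W (10000 / δ) qm qp *
    (13 * (R * K1)) ^ (2 + (qm 1 + qm 2)))

open Classical in
set_option maxHeartbeats 1000000 in
/-- **the plank condition of a curved sheet** (chart of `Vq571`), groups of size `μ` -/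
theorem pl_curvedM {ι : Type*} {qm qp : Fin 3 → ℝ} (hq : ∀ k, 0 ≤ qm k ∧ qm k ≤ qp k)
    {P : Finset ι} {L : ι → Ln4} {S : Plk4} {zL ρL z0 ρ r a0 w10 w20 W M R : ℝ}
    (hS : ShN S.e S.c S.w S.q S.a zL ρL r) (hr : 0 < r) (hz : zL ≤ z0)
    (hz' : z0 + ρ ≤ zL + ρL) (hρ : 0 < ρ) (h128 : 128 * ρ ≤ ρL) (hR : ρL ≤ R * ρ)
    (hW : 1 ≤ W) (hM : 0 ≤ M)
    (ha0 : 0 < a0) (h10 : 0 < w10) (h20 : 0 < w20) (na : S.a ≤ W * a0) (n1 : S.w 1 ≤ W * w10)
    (n2 : S.w 2 ≤ W * w20)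
    (hd : ∀ S' : Plk4, Shp S' z0 ρ r → S'.w 1 ≤ ρ →
      ((P.filter fun t => InP (L t) S' z0 ρ).card : ℝ) ≤
        W * M * phC qm qp a0 w10 w20 S'.a (S'.w 1) (S'.w 2))
    {μ : ℝ} (hμ0 : 0 < μ) (hμ1 : μ ≤ 1 / 1000000) (hwρ : 576 * μ * S.w 1 ≤ ρ) {A : Finset ι} (hAP : A ⊆ P)
    (hA : ∀ t ∈ A, InSheet (L t) S.e S.c S.w S.q S.a zL ρL) {δ : ℝ} (hδ : 0 < δ) (hδ1 : δ ≤ 1)
    (hD : ∀ t ∈ A, DetP δ S zL ρL (L t)) {H : ℕ} (hH : 1 ≤ H) {K1 : ℝ} (hK1 : 1 ≤ K1)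
    (hcur : ∀ t ∈ A, S.a * H ≤ K1 * kapP S zL ρL (L t))
    (hsm : ∀ t ∈ A, 2 * S.a ≤ μ * kapP S zL ρL (L t)) :
    ∀ (f : OrthonormalBasis (Fin 2) ℝ E2) (s : Fin 2 → ℝ) (p0 v0 : E2),
      (∀ j, 1 / (H : ℝ) ≤ s j ∧ s j ≤ 1) →
      ((A.filter fun t => InPl f s p0 v0 (chp S z0 ρ (L t)) (chv S z0 ρ (L t))).card : ℝ) ≤
        bigM δ R K1 W μ qm qp * (1 + Real.log H) * (s 0 * s 1) * (max (s 0) (s 1)) ^ (qm 1 + qm 2) * M := by
  have hap : 0 < S.a := by linarith [hS.r0_le]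
  have hw0 : 0 < S.w 0 := by linarith [hS.a_le0]
  have hρL : 0 < ρL := by linarith
  have Q := StP.of_shN hS hw0
  have hw := Q.pos
  have hHr : (1 : ℝ) ≤ H := by exact_mod_cast hH
  have hH0 : (0 : ℝ) < H := by linarith
  have hR1 : 1 ≤ R := by
    by_contra hc
    push Not at hc
    have : R * ρ < 1 * ρ := mul_lt_mul_of_pos_right hc hρ
    linarith
  have hWp : 0 < W := by linarith
  have hRK : 1 ≤ R * K1 := by nlinarith
  -- one orientation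
  have main : ∀ (f : OrthonormalBasis (Fin 2) ℝ E2) (s : Fin 2 → ℝ) (p0 v0 : E2) (j j' : Fin 2),
      j ≠ j' → (∀ j, 1 / (H : ℝ) ≤ s j ∧ s j ≤ 1) → s j' ≤ s j →
      ((A.filter fun t => InPl f s p0 v0 (chp S z0 ρ (L t)) (chv S z0 ρ (L t))).card : ℝ) ≤
        bigM δ R K1 W μ qm qp * (1 + Real.log H) * (s j ^ (1 + (qm 1 + qm 2)) * s j') * M := by
    intro f s p0 v0 j j' hj hs hsj
    set B := A.filter fun t => InPl f s p0 v0 (chp S z0 ρ (L t)) (chv S z0 ρ (L t)) with hB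
    have hBA : ∀ t ∈ B, t ∈ A := fun t ht => (mem_filter.1 ht).1
    obtain ⟨hb, -, -⟩ := axis f hj
    have hlk : ∀ k z, z = zL ∨ z = zL + ρL → ∀ x ∈ B, |lk S.e S.w S.c k z (L x)| ≤ 1 := by
      intro k z hz1 x hx
      have hz2 : zL ≤ z ∧ z ≤ zL + ρL := by
        rcases hz1 with h | h <;> rw [h] <;> constructor <;> linarith
      have h1 := (hA x (hBA x hx) z hz2.1 hz2.2).1 k
      unfold lk
      rw [abs_div, abs_of_pos (hw k), div_le_one (hw k)]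
      exact h1
    have hμ : (0 : ℝ) < μ := hμ0
    obtain ⟨l1, N1, h1, k1, j1⟩ := refine B (fun _ => 0) 1 (fun _ _ => Nat.one_pos)
      (fun _ x => lk S.e S.w S.c 1 zL (L x)) hμ zero_le_one
      (fun x hx => hlk 1 zL (Or.inl rfl) x hx)
    obtain ⟨l2, N2, h2, k2, j2⟩ := refine B l1 N1 h1 (fun _ x => lk S.e S.w S.c 2 zL (L x)) hμ
      zero_le_one (fun x hx => hlk 2 zL (Or.inl rfl) x hx)
    obtain ⟨l3, N3, h3, k3, j3⟩ := refine B l2 N2 h2
      (fun _ x => lk S.e S.w S.c 1 (zL + ρL) (L x)) hμ zero_le_one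
      (fun x hx => hlk 1 _ (Or.inr rfl) x hx)
    obtain ⟨l4, N4, h4, k4, j4⟩ := refine B l3 N3 h3
      (fun _ x => lk S.e S.w S.c 2 (zL + ρL) (L x)) hμ zero_le_one
      (fun x hx => hlk 2 _ (Or.inr rfl) x hx)
    have hμ3 : 0 ≤ 3 / μ := by positivity
    have hN4 : (N4 : ℝ) ≤ (3 / μ) ^ 4 := by
      have c : (2 * 1 / μ + 1) ≤ 3 / μ := by
        have h1 : 1 ≤ 1 / μ := by rw [le_div_iff₀ hμ0]; linarith
        have e : 3 / μ = 2 * 1 / μ + 1 / μ := by ring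
        rw [e]; linarith
      push_cast at k1
      have g1 : (N1 : ℝ) ≤ 3 / μ := k1.trans (by linarith)
      have g2 : (N2 : ℝ) ≤ (3 / μ) * (3 / μ) :=
        k2.trans (mul_le_mul g1 c (by positivity) hμ3)
      have g3 : (N3 : ℝ) ≤ (3 / μ) * (3 / μ) * (3 / μ) :=
        k3.trans (mul_le_mul g2 c (by positivity) (by positivity))
      have g4 : (N4 : ℝ) ≤ (3 / μ) * (3 / μ) * (3 / μ) * (3 / μ) :=
        k4.trans (mul_le_mul g3 c (by positivity) (by positivity))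
      refine g4.trans (le_of_eq (by ring))
    set Z : ℝ := 40000 * (10000 / δ) ^ 7 * (2 / μ * (1 + Real.log H)) *
      (cD W (10000 / δ) qm qp * M) * (13 * (R * K1)) ^ (2 + (qm 1 + qm 2)) *
        s j ^ (1 + (qm 1 + qm 2)) * s j' with hZ
    have hsj0 : ∀ i, 0 < s i := fun i => lt_of_lt_of_le (by positivity) (hs i).1
    have hlogH : 0 ≤ Real.log H := Real.log_nonneg hHr
    have hcD : 0 ≤ cD W (10000 / δ) qm qp * M := by unfold cD; positivity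
    have hZ0 : 0 ≤ Z := by
      have := hsj0 j
      have := hsj0 j'
      positivity
    have key := card_fib B l4 (N := (3 / μ) ^ 4) (B := Z) hZ0 (by
      refine le_trans ?_ hN4
      have hsub : B.image l4 ⊆ Finset.range N4 := by
        intro i hi
        obtain ⟨x, hx, rfl⟩ := mem_image.1 hi
        exact mem_range.2 (h4 x hx)
      have := card_le_card hsub
      rw [card_range] at this
      exact_mod_cast this) (by
      intro t0 ht0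
      have hG : ∀ t ∈ B.filter (fun t' => l4 t' = l4 t0), t ∈ B := fun t ht => (mem_filter.1 ht).1
      have hends : ∀ t ∈ B.filter (fun t' => l4 t' = l4 t0),
          ∀ t' ∈ B.filter (fun t' => l4 t' = l4 t0), _ := fun t ht t' ht' =>
        pl_ends hρ hz hz' hR hR1 (mem_filter.1 (hG t ht)).2 (mem_filter.1 (hG t' ht')).2 hj
      have hlt : ∀ x : ℝ, 0 ≤ x → 6 * R * x ≤ 13 * (R * K1) * x := by
        intro x hx
        refine mul_le_mul_of_nonneg_right ?_ hx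
        nlinarith
      refine grp_bdM hq hS hr hz hz' hρ h128 hW hM ha0 h10 h20 na n1 n2 hd hμ0 hμ1 hwρ
        (fun t ht => hAP (hBA t (hG t ht))) (fun t ht => hA t (hBA t (hG t ht))) hδ hδ1
        (fun t ht => hD t (hBA t (hG t ht))) hH hK1 (C1 := 13 * (R * K1)) (by nlinarith)
        (fun t ht => hcur t (hBA t (hG t ht))) (fun t ht => hsm t (hBA t (hG t ht))) hb
        (hs j').1 hsj ?_ ?_ ?_
      · intro t ht t' ht' z hz1
        obtain ⟨m1, m2⟩ := mem_filter.1 ht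
        obtain ⟨m1', m2'⟩ := mem_filter.1 ht'
        have m3 : l4 t' = l4 t := m2'.trans m2.symm
        obtain ⟨e4, b4⟩ := j4 t' m1' t m1 m3
        obtain ⟨e3, b3⟩ := j3 t' m1' t m1 e4
        obtain ⟨e2, b2⟩ := j2 t' m1' t m1 e3
        obtain ⟨e1, b1⟩ := j1 t' m1' t m1 e2
        rw [lk_sub, abs_div, abs_of_pos (hw _), div_le_iff₀ (hw _)] at b1 b2 b3 b4
        rcases hz1 with h | h <;> rw [h]
        · exact ⟨b1, b2⟩
        · exact ⟨b3, b4⟩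
      · intro t ht t' ht'
        obtain ⟨⟨c1, c2⟩, c3⟩ := hends t ht t' ht'
        exact ⟨c1.trans (hlt _ (hsj0 j).le), c2.trans (hlt _ (hsj0 j).le)⟩
      · intro t ht t' ht'
        obtain ⟨c1, c2, c3⟩ := hends t ht t' ht'
        exact ⟨c2.trans (hlt _ (hsj0 j').le), c3.trans (hlt _ (hsj0 j').le)⟩)
    refine key.trans (le_of_eq ?_)
    rw [hZ]
    unfold bigM
    ring
  intro f s p0 v0 hs
  have hsp : ∀ i, 0 < s i := fun i => lt_of_lt_of_le (by positivity) (hs i).1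
  rcases le_total (s 1) (s 0) with h | h
  · have h1 := main f s p0 v0 0 1 (by decide) hs h
    refine h1.trans (le_of_eq ?_)
    rw [max_eq_left h, Real.rpow_add (hsp 0) 1, Real.rpow_one]
    ring
  · have h1 := main f s p0 v0 1 0 (by decide) hs h
    refine h1.trans (le_of_eq ?_)
    rw [max_eq_right h, Real.rpow_add (hsp 1) 1, Real.rpow_one]
    ring

end Crest.Agent.R136.Kf605
end

-- ▼ part R136/Dup_571
section

/-!
# R136 (S0187), PLAN 2 (AL): non-degeneracy from a sub-cell to the cell (helper571)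

* `det3_hgt` : `(b0 0 + ζ b1 0)^2 det3 (fan ζ)` does not depend on the height `ζ`.
* `det_up` : `DetP` over the sub-cell gives `DetP` over the cell, `kp_pos_up`, `kp_up`.
-/

set_option autoImplicit false
set_option linter.unusedVariables false

open Finset

namespace Crest.Agent.R136.Dup571

open Crest.Agent.R136.Sh605
open Crest.Agent.R136.Tl102
open Crest.Agent.R136.K4 (Plk4)
open Crest.Agent.R136.Tlt51 (Shp InP)
open Crest.Agent.R136.KapP335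
open Crest.Agent.R136.Cps605
open Crest.Agent.R136.Arc880 (det3)

/-- height law of the determinant of the fan -/
theorem det3_hgt {b0 b1 : V3} {G : QF} {ζ : ℝ} (h : b0 0 + ζ * b1 0 ≠ 0) :
    (b0 0 + ζ * b1 0) ^ 2 * det3 (fan b0 b1 G ζ) =
      (G.uv * (b1 1 * b0 0 - b1 0 * b0 1) * (b1 2 * b0 0 - b1 0 * b0 2) -
        G.vv * (b1 1 * b0 0 - b1 0 * b0 1) ^ 2 - G.uu * (b1 2 * b0 0 - b1 0 * b0 2) ^ 2 -
        (b1 1 * b0 2 - b1 2 * b0 1) * (G.yu * (b1 2 * b0 0 - b1 0 * b0 2) -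
          G.yv * (b1 1 * b0 0 - b1 0 * b0 1)) -
        G.yy * (b1 1 * b0 2 - b1 2 * b0 1) ^ 2) / 16777216 := by
  simp only [det3, fan, slp, Matrix.cons_val]
  field_simp
  ring

/-- the determinant of the scaled fan at two heights -/
theorem det3_two {b0 b1 : V3} {G : QF} (N : NrmC b0 b1 G) (hκ : 0 < kap b0 b1 G) {ζ ζ' : ℝ}
    (h0 : 0 ≤ ζ) (h1 : ζ ≤ 1) (h0' : 0 ≤ ζ') (h1' : ζ' ≤ 1) :
    |det3 (fan (shB0 b0) (scB1 (kap b0 b1 G) b0 b1) (scG (kap b0 b1 G) b0 G) ζ)| ≤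
      16 * |det3 (fan (shB0 b0) (scB1 (kap b0 b1 G) b0 b1) (scG (kap b0 b1 G) b0 G) ζ')| := by
  obtain ⟨g1, -⟩ := N.b1_le
  obtain ⟨d1, d2⟩ := D_ge N h0 h1
  obtain ⟨d1', d2'⟩ := D_ge N h0' h1'
  change 1 / 2 ≤ b0 0 + ζ * b1 0 at d1
  change b0 0 + ζ * b1 0 ≤ 2 at d2
  change 1 / 2 ≤ b0 0 + ζ' * b1 0 at d1'
  change b0 0 + ζ' * b1 0 ≤ 2 at d2'
  rw [Fn880.det3_scaled (by linarith) (by linarith) hκ.ne', Fn880.det3_scaled (by linarith) (by linarith) hκ.ne',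
    abs_div, abs_div]
  have e : (b0 0 + ζ * b1 0) ^ 2 * |det3 (fan b0 b1 G ζ)| =
      (b0 0 + ζ' * b1 0) ^ 2 * |det3 (fan b0 b1 G ζ')| := by
    rw [← abs_of_nonneg (sq_nonneg (b0 0 + ζ * b1 0)), ← abs_mul, det3_hgt (by linarith),
      ← abs_of_nonneg (sq_nonneg (b0 0 + ζ' * b1 0)), ← abs_mul, det3_hgt (by linarith)]
  have h2 : (1 / 2 : ℝ) ^ 2 * |det3 (fan b0 b1 G ζ)| ≤ 2 ^ 2 * |det3 (fan b0 b1 G ζ')| := by
    calc (1 / 2 : ℝ) ^ 2 * |det3 (fan b0 b1 G ζ)|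
        ≤ (b0 0 + ζ * b1 0) ^ 2 * |det3 (fan b0 b1 G ζ)| := by gcongr
      _ = (b0 0 + ζ' * b1 0) ^ 2 * |det3 (fan b0 b1 G ζ')| := e
      _ ≤ 2 ^ 2 * |det3 (fan b0 b1 G ζ')| := by gcongr
  rw [← mul_div_assoc]
  refine div_le_div_of_nonneg_right ?_ (abs_nonneg _)
  linarith

variable {S : Plk4} {T : Ln4} {z0 ρ zL ρL r : ℝ}

theorem kp_up (hr : 0 < r) (hρ : 0 < ρ) (h1 : zL ≤ z0) (h1' : z0 + ρ ≤ zL + ρL)
    (hS : Shp S zL ρL r) (hT : InP T S zL ρL) (hκ : 0 < kapP S z0 ρ T) : 0 < kapP S zL ρL T := by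
  have := Crest.Agent.R136.Pl2W102.kapP_le hr hρ h1 h1' hS hT
  linarith

/-- **non-degeneracy of the sub-cell gives non-degeneracy of the cell** -/
theorem det_up {δ t : ℝ} (hr : 0 < r) (hρ : 0 < ρ) (h1 : zL ≤ z0) (h1' : z0 + ρ ≤ zL + ρL)
    (ht0 : 0 ≤ t) (ht : t * ρL ≤ ρ) (hS : Shp S zL ρL r) (hT : InP T S zL ρL) (hδ : 0 ≤ δ)
    (hκ : 0 < kapP S z0 ρ T) (hdet : DetP δ S z0 ρ T) :
    DetP (t * δ / (16 * 160 ^ 3)) S zL ρL T := by
  have hw0 : 0 < S.w 0 := hr.trans_le (hS.r0_le.trans hS.a_le0)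
  have hρ1 : 0 < ρL := by linarith
  have P := StP.of_shN hS hw0
  obtain ⟨b0, b1, G, hE⟩ := exists_isExp P.isQ S.e hw0.ne' T zL ρL
  have N := hE.nrmC P hρ1.le (fun z h1 h2 => (hT z h1 h2).1)
  obtain ⟨m0, m1, m2⟩ := hgt_mem (z0' := zL) (z0 := z0) hρ1 hρ.le h1 h1'
  have hEs := isExp_mono (z0 := z0) (ρ := ρ) hE hρ1.ne'
  have hτ0 : 0 < ρ / ρL := div_pos hρ hρ1
  have hL := kp_up hr hρ h1 h1' hS hT hκ
  rw [kapP_eq hw0.ne' hE] at hL
  rw [kapP_eq hw0.ne' hEs] at hκ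
  set ζ0 : ℝ := (z0 - zL) / ρL with hζ0
  set τ : ℝ := ρ / ρL with hτ
  have hk : 0 < kap b0 b1 G := (mul_pos_iff_of_pos_left hw0).1 hL
  have hks : 0 < kap (b0s b0 b1 ζ0) (b1s b1 τ) G := (mul_pos_iff_of_pos_left hw0).1 hκ
  have k3 := kap_le_sub N m0 hτ0.le m2
  have hsub := (detP_iff hw0.ne' hEs δ).1 hdet 0 le_rfl zero_le_one
  rw [detP_iff hw0.ne' hE]
  intro ζ z1 z2
  obtain ⟨g1, -⟩ := N.b1_le
  obtain ⟨d1, -⟩ := D_ge N m0 (by linarith)
  change 1 / 2 ≤ b0 0 + ζ0 * b1 0 at d1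
  rw [det3_scaled_sub (b0 := b0) (b1 := b1) (G := G) (κ := kap b0 b1 G) (by linarith)
    (by linarith) (by rw [mul_zero, add_zero]; linarith) hk.ne' hks.ne'] at hsub
  rw [mul_zero, add_zero] at hsub
  have htwo := det3_two N hk (ζ := ζ0) (ζ' := ζ) m0 (by linarith) z1 z2
  set D0 := |det3 (fan (shB0 b0) (scB1 (kap b0 b1 G) b0 b1) (scG (kap b0 b1 G) b0 G) ζ0)| with hD0
  set D1 := |det3 (fan (shB0 b0) (scB1 (kap b0 b1 G) b0 b1) (scG (kap b0 b1 G) b0 G) ζ)| with hD1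
  rw [abs_mul, ← hD0, abs_of_pos (by positivity)] at hsub
  set κ := kap b0 b1 G with hκd
  set κs := kap (b0s b0 b1 ζ0) (b1s b1 τ) G with hκsd
  have hD00 : 0 ≤ D0 := abs_nonneg _
  have hq : τ * (κ / κs) ≤ 160 := by
    rw [← mul_div_assoc, div_le_iff₀ hks]; exact k3
  have hq0 : 0 < τ * (κ / κs) := by positivity
  have h3 : (τ * (κ / κs)) ^ 3 ≤ 160 ^ 3 := pow_le_pow_left₀ hq0.le hq 3
  -- `t δ ≤ τ δ ≤ (τ κ / κs)^3 D0`
  have htτ : t ≤ τ := by rw [hτ, le_div_iff₀ hρ1]; exact ht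
  have h4 : τ * δ ≤ 160 ^ 3 * D0 := by
    calc τ * δ ≤ τ * (τ ^ 2 * (κ / κs) ^ 3 * D0) := mul_le_mul_of_nonneg_left hsub hτ0.le
      _ = (τ * (κ / κs)) ^ 3 * D0 := by ring
      _ ≤ 160 ^ 3 * D0 := mul_le_mul_of_nonneg_right h3 hD00
  have h5 : t * δ ≤ τ * δ := mul_le_mul_of_nonneg_right htτ hδ
  rw [div_le_iff₀ (by positivity)]
  linarith

end Crest.Agent.R136.Dup571
end

-- ▼ part R136/Plw_571
section

/-!
# R136 (S0187), PLAN 2 (AL): the plank hypothesis in the letters of `Two7` (helper571)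

* `pl7` : `Two7`, curved and non-degenerate classes ⊢ plank hypothesis of `kmb_num`;
* `leafPL : Al500.LeafPL`, `plMx : Amx325.PLMx`.
-/

set_option autoImplicit false
set_option linter.unusedVariables false

open Finset

namespace Crest.Agent.R136.Plx571

open Crest.Agent.R136.Sh605
open Crest.Agent.R136.K4 (Plk4)
open Crest.Agent.R136.Tlt51 (Shp InP)
open Crest.Agent.R136.KapP335 (kapP DetP)
open Crest.Agent.R136.Pl2W102 (Near Ex2 Two1)
open Crest.Agent.R136.Pl2 (Two7 kp)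
open Crest.Agent.R136.Phc248
open Crest.Agent.R138.Defs (E2)
open Crest.Agent.R138.Tub70 (InPl)
open Crest.Agent.R136.Vq571 (chp chv)
open Crest.Agent.R136.Kf605 (cD bigM pl_curvedM)

/-! ### powers -/

theorem pw_c {X c : ℝ} (n : ℕ) (hX : 1 ≤ X) (h : c ≤ 2 ^ n) : c ≤ (2 * X) ^ (n : ℝ) := by
  rw [Real.rpow_natCast]
  exact h.trans (pow_le_pow_left₀ (by norm_num) (by linarith) n)

/-- constants times powers of `X` -/
theorem pw_cX {X c : ℝ} (n m : ℕ) (hX : 1 ≤ X) (h : c ≤ 2 ^ n) (hc : 0 ≤ c) :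
    c * X ^ m ≤ (2 * X) ^ ((n + m : ℕ) : ℝ) := by
  rw [Real.rpow_natCast, pow_add]
  have h1 : c ≤ (2 * X) ^ n := h.trans (pow_le_pow_left₀ (by norm_num) (by linarith) n)
  have h2 : X ^ m ≤ (2 * X) ^ m := pow_le_pow_left₀ (by linarith) (by linarith) m
  have h3 : 0 ≤ X ^ m := by positivity
  exact mul_le_mul h1 h2 h3 (hc.trans h1)

theorem pw_mul {X a b s t : ℝ} (hX : 1 ≤ X) (hb : 0 ≤ b) (h1 : a ≤ (2 * X) ^ s)
    (h2 : b ≤ (2 * X) ^ t) : a * b ≤ (2 * X) ^ (s + t) := by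
  have h0 : (0 : ℝ) < 2 * X := by linarith
  rw [Real.rpow_add h0]
  exact mul_le_mul h1 h2 hb (Real.rpow_pos_of_pos h0 _).le

theorem pw_rpow {X a s p : ℝ} (hX : 1 ≤ X) (ha : 0 ≤ a) (h1 : a ≤ (2 * X) ^ s) (hp : 0 ≤ p) :
    a ^ p ≤ (2 * X) ^ (s * p) := by
  rw [Real.rpow_mul (by linarith)]
  exact Real.rpow_le_rpow ha h1 hp

theorem pw_pow {X a s : ℝ} (hX : 1 ≤ X) (ha : 0 ≤ a) (h1 : a ≤ (2 * X) ^ s) (n : ℕ) :
    a ^ n ≤ (2 * X) ^ (s * n) := by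
  have := pw_rpow (p := n) hX ha h1 (Nat.cast_nonneg n)
  rwa [Real.rpow_natCast] at this

/-- the constant of `pl_curvedM` is a power of `2 X` -/
theorem bigM_le {qm qp : Fin 3 → ℝ} (hq : ∀ k, 0 ≤ qm k ∧ qm k ≤ qp k) : ∃ k : ℝ, 30 ≤ k ∧
    ∀ X B : ℝ, 1 ≤ X → 1 ≤ B → B ≤ X →
      bigM (X⁻¹ / (128 * 16 * 160 ^ 3)) 128 (40 * X ^ 2) B (1 / (10 ^ 6 * X ^ 2)) qm qp ≤
        (2 * X) ^ k := by
  have q0 := hq 0
  have q1 := hq 1
  have q2 := hq 2
  refine ⟨((24 : ℕ) : ℝ) * ((4 : ℕ) : ℝ) + (((16 : ℕ) : ℝ) + ((48 : ℕ) : ℝ) * ((7 : ℕ) : ℝ) +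
    ((23 : ℕ) : ℝ) + (((22 : ℕ) : ℝ) + ((3 : ℕ) : ℝ) * (1 + qp 0) + ((7 : ℕ) : ℝ) *
      (2 + qp 1 + qp 2) + (((6 : ℕ) : ℝ) + ((48 : ℕ) : ℝ) * ((4 : ℕ) : ℝ)) *
        (1 + (qm 1 + qm 2))) + ((19 : ℕ) : ℝ) * (2 + (qm 1 + qm 2))), ?_, ?_⟩
  · push_cast
    nlinarith
  intro X B hX hB hBX
  have hX0 : 0 < X := by linarith
  have e1 : 3 / (1 / (10 ^ 6 * X ^ 2)) = 3000000 * X ^ 2 := by field_simp; norm_num
  have e2 : 2 / (1 / (10 ^ 6 * X ^ 2)) = 2000000 * X ^ 2 := by field_simp; norm_num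
  have e3 : 10000 / (X⁻¹ / (128 * 16 * 160 ^ 3)) = 83886080000000 * X ^ 1 := by
    field_simp; norm_num
  have e4 : 13 * (128 * (40 * X ^ 2)) = 66560 * X ^ 2 := by ring
  unfold bigM cD
  rw [e1, e2, e3, e4]
  have a1 : 3000000 * X ^ 2 ≤ (2 * X) ^ ((24 : ℕ) : ℝ) := pw_cX 22 2 hX (by norm_num) (by norm_num)
  have a2 : 2000000 * X ^ 2 ≤ (2 * X) ^ ((23 : ℕ) : ℝ) := pw_cX 21 2 hX (by norm_num) (by norm_num)
  have a3 : 83886080000000 * X ^ 1 ≤ (2 * X) ^ ((48 : ℕ) : ℝ) :=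
    pw_cX 47 1 hX (by norm_num) (by norm_num)
  have a4 : 66560 * X ^ 2 ≤ (2 * X) ^ ((19 : ℕ) : ℝ) := pw_cX 17 2 hX (by norm_num) (by norm_num)
  have a5 : (40000 : ℝ) ≤ (2 * X) ^ ((16 : ℕ) : ℝ) := pw_c 16 hX (by norm_num)
  have a6 : 1860000 * B ≤ (2 * X) ^ ((22 : ℕ) : ℝ) := by
    refine le_trans ?_ (pw_cX (c := 1860000) 21 1 hX (by norm_num) (by norm_num))
    rw [pow_one]; linarith
  have a7 : 3 * B ≤ (2 * X) ^ ((3 : ℕ) : ℝ) := by
    refine le_trans ?_ (pw_cX (c := 3) 2 1 hX (by norm_num) (by norm_num))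
    rw [pow_one]; linarith
  have a8 : 36 * B ≤ (2 * X) ^ ((7 : ℕ) : ℝ) := by
    refine le_trans ?_ (pw_cX (c := 36) 6 1 hX (by norm_num) (by norm_num))
    rw [pow_one]; linarith
  have a9 : (34 : ℝ) ≤ (2 * X) ^ ((6 : ℕ) : ℝ) := pw_c 6 hX (by norm_num)
  have b1 := pw_pow hX (by positivity) a1 4
  have b2 := pw_pow hX (by positivity) a3 7
  have b3 := pw_rpow (p := 1 + qp 0) hX (by positivity) a7 (by linarith)
  have b4 := pw_rpow (p := 2 + qp 1 + qp 2) hX (by positivity) a8 (by linarith)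
  have b5 := pw_rpow (p := 1 + (qm 1 + qm 2)) hX (by positivity)
    (pw_mul hX (by positivity) a9 (pw_pow hX (by positivity) a3 4)) (by linarith)
  have b6 := pw_rpow (p := 2 + (qm 1 + qm 2)) hX (by positivity) a4 (by linarith)
  exact pw_mul hX (by positivity) b1 (pw_mul hX (by positivity) (pw_mul hX (by positivity)
    (pw_mul hX (by positivity) (pw_mul hX (by positivity) a5 b2) a2)
    (pw_mul hX (by positivity) (pw_mul hX (by positivity) (pw_mul hX (by positivity) a6 b3) b4) b5))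
    b6)

/-! ### the letters of `Two7` -/

open Classical in
/-- **plank hypothesis of `kmb_num` for curved and non-degenerate classes** -/
theorem pl7 {qm qp : Fin 3 → ℝ} (hq : ∀ k, 0 ≤ qm k ∧ qm k ≤ qp k) : ∃ k : ℝ, 30 ≤ k ∧
    ∀ (L : ℕ → Ln4) (P : Finset ℕ) (cu cv : ℕ → ℕ) (Uf Vf : ℕ → Plk4)
      (B M a w1 w2 z0 ρ zL ρL r X : ℝ),
      Two7 qm qp L P cu cv Uf Vf B M a w1 w2 z0 ρ zL ρL r → B ≤ X → ∀ H : ℕ, 1 ≤ H →
      (∀ t ∈ P, a * H ≤ X * kapP (Uf (cu t)) z0 ρ (L t)) →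
      (∀ t ∈ P, DetP X⁻¹ (Uf (cu t)) z0 ρ (L t)) →
      (∀ t ∈ P, (2 * X) ^ k * a ≤ kapP (Uf (cu t)) z0 ρ (L t)) →
      ∀ (c : ℕ) (f : OrthonormalBasis (Fin 2) ℝ E2) (s : Fin 2 → ℝ) (p0 v0 : E2),
        (∀ j, 1 / (H : ℝ) ≤ s j ∧ s j ≤ 1) →
        ((P.filter fun t => cu t = c ∧
          InPl f s p0 v0 (chp (Uf c) z0 ρ (L t)) (chv (Uf c) z0 ρ (L t))).card : ℝ) ≤
          (2 * X) ^ k * (1 + Real.log H) * (s 0 * s 1) *
            (max (s 0) (s 1)) ^ (qm 1 + qm 2) * M := by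
  obtain ⟨k, hk, hM⟩ := bigM_le hq
  refine ⟨k, hk, ?_⟩
  intro L P cu cv Uf Vf B M a w1 w2 z0 ρ zL ρL r X h hBX H hH hcur hdet hbig c f s p0 v0 hs
  have h1 := h.to1
  have hB := h1.W1
  have hX : 1 ≤ X := hB.trans hBX
  have hX0 : 0 < X := by linarith
  have hB0 : 0 < B := by linarith
  have hρ := h1.ρ0
  have ha := h1.a0
  have hM0 := h1.M0.le
  have hr := h1.r0
  have hlo := h.lo
  have hhi := h.hi
  have hlong := h.long
  have hρL : 0 < ρL := by linarith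
  have hH1 : (1 : ℝ) ≤ H := by exact_mod_cast hH
  have hlog : 0 ≤ Real.log H := Real.log_nonneg hH1
  have hsp : ∀ i, 0 < s i := fun i => lt_of_lt_of_le (by positivity) (hs i).1
  have h2X : (0 : ℝ) < 2 * X := by linarith
  have hpk : 0 < (2 * X) ^ k := Real.rpow_pos_of_pos h2X _
  have hmx : 0 < max (s 0) (s 1) := lt_max_of_lt_left (hsp 0)
  rcases (P.filter fun t => cu t = c ∧
    InPl f s p0 v0 (chp (Uf c) z0 ρ (L t)) (chv (Uf c) z0 ρ (L t))).eq_empty_or_nonempty with hE | hE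
  · rw [hE, card_empty, Nat.cast_zero]
    have := hsp 0
    have := hsp 1
    positivity
  obtain ⟨t0, ht0⟩ := hE
  obtain ⟨ht0P, ht0c, -⟩ := mem_filter.1 ht0
  have hS : Shp (Uf c) zL ρL r := by
    have := h.shU t0 ht0P
    rwa [ht0c] at this
  obtain ⟨dA, dB, dC⟩ := h1.dimU t0 ht0P
  rw [ht0c] at dA dB dC
  have hap : 0 < (Uf c).a := hr.trans_le hS.r0_le
  have hin : ∀ t ∈ P.filter fun t => cu t = c, InP (L t) (Uf c) zL ρL := by
    intro t ht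
    obtain ⟨htP, htc⟩ := mem_filter.1 ht
    have := h.inU t htP
    rwa [htc] at this
  have hkS : ∀ t ∈ P.filter fun t => cu t = c, (2 * X) ^ k * a ≤ kapP (Uf c) z0 ρ (L t) := by
    intro t ht
    obtain ⟨htP, htc⟩ := mem_filter.1 ht
    have := hbig t htP
    rwa [htc] at this
  have hkL : ∀ t ∈ P.filter fun t => cu t = c,
      kapP (Uf c) z0 ρ (L t) ≤ 40 * kapP (Uf c) zL ρL (L t) := fun t ht =>
    Crest.Agent.R136.Pl2W102.kapP_le hr hρ hlo hhi hS (hin t ht)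
  have hkS0 : ∀ t ∈ P.filter fun t => cu t = c, 0 < kapP (Uf c) z0 ρ (L t) := fun t ht =>
    (mul_pos hpk ha).trans_le (hkS t ht)
  have hδ0 : 0 < X⁻¹ / (128 * 16 * 160 ^ 3) := by positivity
  have hX30 : 80 * 10 ^ 6 * X ^ 3 ≤ (2 * X) ^ k := by
    refine le_trans (pw_cX 27 3 hX (by norm_num) (by norm_num)) ?_
    exact Real.rpow_le_rpow_of_exponent_le (by linarith) (by push_cast; linarith)
  have key := pl_curvedM (S := Uf c) (A := P.filter fun t => cu t = c) (R := 128) (W := B)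
    (μ := 1 / (10 ^ 6 * X ^ 2)) (δ := X⁻¹ / (128 * 16 * 160 ^ 3)) (H := H) (K1 := 40 * X ^ 2)
    (a0 := a) (w10 := w1) (w20 := w2) (M := M) hq hS hr hlo hhi hρ hlong h.short hB hM0 ha h1.w10
    h1.w20 dA.2 dB.2 dC.2 h1.dmax (by positivity)
    (by
      rw [div_le_div_iff₀ (by positivity) (by norm_num)]
      have : 1 ≤ X ^ 2 := one_le_pow₀ hX
      linarith)
    (by
      have h2 : (Uf c).w 1 ≤ X ^ 2 * ρ := by
        calc (Uf c).w 1 ≤ B * w1 := dB.2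
          _ ≤ B * (B * ρ) := mul_le_mul_of_nonneg_left h1.w1ρ hB0.le
          _ = B ^ 2 * ρ := by ring
          _ ≤ X ^ 2 * ρ := by gcongr
      calc 576 * (1 / (10 ^ 6 * X ^ 2)) * (Uf c).w 1
          ≤ 576 * (1 / (10 ^ 6 * X ^ 2)) * (X ^ 2 * ρ) := by gcongr
        _ = 576 / 10 ^ 6 * ρ := by field_simp
        _ ≤ ρ := by linarith)
    (filter_subset _ _) hin hδ0
    (by
      rw [div_le_one (by norm_num)]
      have : X⁻¹ ≤ 1 := inv_le_one_of_one_le₀ hX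
      linarith)
    (by
      intro t ht
      obtain ⟨htP, htc⟩ := mem_filter.1 ht
      have h2 := hdet t htP
      rw [htc] at h2
      have h3 := Dup571.det_up (t := 1 / 128) hr hρ hlo hhi (by norm_num)
        (by have := h.short; linarith) hS (hin t ht) (by positivity) (hkS0 t ht) h2
      refine h3.mono (le_of_eq ?_)
      ring)
    hH
    (by
      have : 1 ≤ X ^ 2 := one_le_pow₀ hX
      linarith)
    (by
      intro t ht
      obtain ⟨htP, htc⟩ := mem_filter.1 ht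
      have h2 := hcur t htP
      rw [htc] at h2
      have h3 := hkL t ht
      have h4 : (Uf c).a ≤ X * a := dA.2.trans (mul_le_mul_of_nonneg_right hBX ha.le)
      calc (Uf c).a * H ≤ X * a * H := mul_le_mul_of_nonneg_right h4 (by positivity)
        _ = X * (a * H) := by ring
        _ ≤ X * (X * kapP (Uf c) z0 ρ (L t)) := mul_le_mul_of_nonneg_left h2 hX0.le
        _ ≤ X * (X * (40 * kapP (Uf c) zL ρL (L t))) := by gcongr
        _ = 40 * X ^ 2 * kapP (Uf c) zL ρL (L t) := by ring)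
    (by
      intro t ht
      have h2 := hkS t ht
      have h3 := hkL t ht
      have h4 : (Uf c).a ≤ X * a := dA.2.trans (mul_le_mul_of_nonneg_right hBX ha.le)
      have h5 : 80 * 10 ^ 6 * X ^ 3 * a ≤ 40 * kapP (Uf c) zL ρL (L t) :=
        (mul_le_mul_of_nonneg_right hX30 ha.le).trans (h2.trans h3)
      rw [div_mul_eq_mul_div, one_mul, le_div_iff₀ (by positivity)]
      calc 2 * (Uf c).a * (10 ^ 6 * X ^ 2) ≤ 2 * (X * a) * (10 ^ 6 * X ^ 2) := by gcongr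
        _ = 80 * 10 ^ 6 * X ^ 3 * a / 40 := by ring
        _ ≤ _ := by linarith)
    f s p0 v0 hs
  rw [filter_filter] at key
  refine key.trans ?_
  have := hM X B hX hB hBX
  have := hsp 0
  have := hsp 1
  gcongr

theorem two7_swap {qm qp : Fin 3 → ℝ} {L : ℕ → Ln4} {P : Finset ℕ} {cu cv : ℕ → ℕ}
    {Uf Vf : ℕ → Plk4} {W M a w1 w2 z0 ρ zL ρL r : ℝ}
    (h : Two7 qm qp L P cu cv Uf Vf W M a w1 w2 z0 ρ zL ρL r) :
    Two7 qm qp L P cv cu Vf Uf W M a w1 w2 z0 ρ zL ρL r :=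
  ⟨Alw500.two_swap h.to1, h.rρ, h.lo, h.hi, h.long, h.short, h.shV, h.shU, h.inV, h.inU⟩

open Classical in
/-- **PL of the balanced case** -/
theorem leafPL : Al500.LeafPL := by
  intro qm qp hq
  obtain ⟨k, hk, key⟩ := pl7 hq
  refine ⟨k + 4, by linarith, ?_⟩
  intro L P cu cv Uf Vf W B M a w1 w2 z0 ρ zL ρL r κ E H h hκ hBH
  have hB : 1 ≤ B := h.W1.trans h.WB
  have hB0 : 0 < B := by linarith
  have hW0 : 0 < W := by linarith [h.W1]
  have hCB : 4 * B ≤ (k + 4) * B := mul_le_mul_of_nonneg_right (by linarith) hB0.le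
  have h4B : (1 : ℝ) ≤ 4 * B := by linarith
  have e4 : (2 * (2 * B)) = 4 * B := by ring
  have hp1 : (4 * B) ^ (k + 1) ≤ ((k + 4) * B) ^ (k + 4) :=
    (Real.rpow_le_rpow (by positivity) hCB (by linarith)).trans
      (Real.rpow_le_rpow_of_exponent_le (by linarith) (by linarith))
  have hp0 : (4 * B) ^ k ≤ ((k + 4) * B) ^ (k + 4) :=
    (Real.rpow_le_rpow_of_exponent_le h4B (by linarith)).trans hp1
  have hHr : (1 : ℝ) ≤ H := by
    refine le_trans ?_ hBH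
    exact (Real.one_le_rpow h4B (by linarith : (0 : ℝ) ≤ k + 1)).trans hp1
  have hH : 1 ≤ H := by exact_mod_cast hHr
  have ha := h.two.to1.a0
  have hM := h.two.to1.M0
  have hE0 : 0 < E := by linarith [h.E1]
  have hsp : ((4 * B) ^ k * a) * (2 * B) ≤ 2 * (E * a) := by
    have h2 : (4 * B) ^ (k + 1) ≤ 2 * E := hp1.trans (hBH.trans h.HE)
    rw [Real.rpow_add (by linarith), Real.rpow_one] at h2
    have h3 : 0 < (4 * B) ^ k := Real.rpow_pos_of_pos (by linarith) _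
    calc ((4 * B) ^ k * a) * (2 * B) ≤ (4 * B) ^ k * (4 * B) * a := by
          nlinarith [mul_pos (mul_pos h3 ha) hB0]
      _ ≤ 2 * E * a := mul_le_mul_of_nonneg_right h2 ha.le
      _ = 2 * (E * a) := by ring
  have gen : ∀ (cu cv : ℕ → ℕ) (Uf Vf : ℕ → Plk4),
      Two7 qm qp L P cu cv Uf Vf B M a w1 w2 z0 ρ zL ρL r →
      (∀ t ∈ P, E * a ≤ W * kp (Uf (cu t)) z0 ρ (L t)) →
      (∀ t ∈ P, DetP W⁻¹ (Uf (cu t)) z0 ρ (L t)) →
      Alw500.PLh P cu L Uf z0 ρ (((k + 4) * B) ^ (k + 4) * (1 + Real.log H)) M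
        (qm 1 + qm 2) H := by
    intro cu cv Uf Vf h7 hkE hdet c f s p0 v0 hs G hG
    have hWk : ∀ t ∈ P, E * a ≤ B * kapP (Uf (cu t)) z0 ρ (L t) := by
      intro t ht
      have h2 := hkE t ht
      change E * a ≤ W * kapP (Uf (cu t)) z0 ρ (L t) at h2
      have h3 : 0 < kapP (Uf (cu t)) z0 ρ (L t) := by
        by_contra hc
        push Not at hc
        have : W * kapP (Uf (cu t)) z0 ρ (L t) ≤ 0 := mul_nonpos_of_nonneg_of_nonpos hW0.le hc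
        have : 0 < E * a := mul_pos hE0 ha
        linarith
      exact h2.trans (mul_le_mul_of_nonneg_right h.WB h3.le)
    have hmain := key L P cu cv Uf Vf B M a w1 w2 z0 ρ zL ρL r (2 * B) h7 (by linarith) H hH
      (by
        intro t ht
        have h2 := hWk t ht
        calc a * H ≤ a * (2 * E) := mul_le_mul_of_nonneg_left h.HE ha.le
          _ = 2 * (E * a) := by ring
          _ ≤ 2 * (B * kapP (Uf (cu t)) z0 ρ (L t)) := by linarith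
          _ = 2 * B * kapP (Uf (cu t)) z0 ρ (L t) := by ring)
      (by
        intro t ht
        refine (hdet t ht).mono (inv_anti₀ hW0 ?_)
        linarith [h.WB])
      (by
        intro t ht
        have h2 := hWk t ht
        rw [e4]
        have h3 : ((4 * B) ^ k * a) * (2 * B) ≤ kapP (Uf (cu t)) z0 ρ (L t) * (2 * B) := by
          refine hsp.trans ?_
          linarith
        exact le_of_mul_le_mul_right h3 (by linarith))
      c f s p0 v0 hs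
    have hsub : G ⊆ P.filter fun t => cu t = c ∧
        InPl f s p0 v0 (chp (Uf c) z0 ρ (L t)) (chv (Uf c) z0 ρ (L t)) := by
      intro t ht
      obtain ⟨h1, h2, h3⟩ := hG t ht
      exact mem_filter.2 ⟨h1, h2, h3⟩
    have hcd : (G.card : ℝ) ≤ ((P.filter fun t => cu t = c ∧
        InPl f s p0 v0 (chp (Uf c) z0 ρ (L t)) (chv (Uf c) z0 ρ (L t))).card : ℝ) := by
      exact_mod_cast card_le_card hsub
    refine hcd.trans (hmain.trans ?_)
    rw [e4]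
    have hsp : ∀ i, 0 < s i := fun i => lt_of_lt_of_le (by positivity) (hs i).1
    have := hsp 0
    have := hsp 1
    have hlog : 0 ≤ Real.log H := Real.log_nonneg hHr
    gcongr
  exact ⟨gen cu cv Uf Vf h.two h.kE h.detU, gen cv cu Vf Uf (two7_swap h.two) h.kE' h.detV⟩

open Classical in
/-- **PL of the mixed case** -/
theorem plMx : Amx325.PLMx := by
  intro η qm qp hE2
  obtain ⟨k, hk, key⟩ := pl7 (qm := qm) (qp := qp) hE2.le
  refine ⟨k + 1, k + 6, by linarith, by linarith, ?_⟩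
  intro L P cu cv Uf Vf W M a w1 w2 z0 ρ zL ρL r Y h H hH4 hHY
  have h1 := h.two.to1
  have hW := h1.W1
  have hW0 : 0 < W := by linarith
  have ha := h1.a0
  have hM := h1.M0
  have h2W : (1 : ℝ) ≤ 2 * W := by linarith
  have hpk : 0 < (2 * W) ^ k := Real.rpow_pos_of_pos (by linarith) _
  have hHr : (4 : ℝ) ≤ H := by exact_mod_cast hH4
  have hH0 : (0 : ℝ) < H := by linarith
  have hlog : 0 ≤ Real.log H := Real.log_nonneg (by linarith)
  have hW1k : W ≤ (2 * W) ^ (k + 1) := by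
    refine (by linarith : W ≤ 2 * W).trans ?_
    calc 2 * W = (2 * W) ^ (1 : ℝ) := (Real.rpow_one _).symm
      _ ≤ (2 * W) ^ (k + 1) := Real.rpow_le_rpow_of_exponent_le h2W (by linarith)
  -- the logarithm
  have hlogH : 1 + Real.log H ≤ (2 * W) ^ (6 : ℝ) := by
    obtain ⟨t, ht⟩ := h.ne
    have h3 := h.lo t ht
    have h4 := Alr877.kapP_le h1.r0 h1.ρ0.le (h1.shU t ht) (h1.inU t ht)
    change Y ≤ kapP (Uf (cu t)) z0 ρ (L t) at h3
    have h5 : (Uf (cu t)).w 0 ≤ (Uf (cu t)).w 1 := (h1.shU t ht).w0_le.trans (h1.shU t ht).w_le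
    have h6 := (h1.dimU t ht).2.1.2
    have hHa : (H : ℝ) * a ≤ 13 * W * w1 := by
      calc (H : ℝ) * a ≤ 13 * (Uf (cu t)).w 0 := hHY.trans (h3.trans h4)
        _ ≤ 13 * (W * w1) := by linarith
        _ = 13 * W * w1 := by ring
    have hHb : (H : ℝ) ≤ 13 * W * (w1 / a) := by
      rw [← mul_div_assoc, le_div_iff₀ ha]; exact hHa
    have hwa : 0 < w1 / a := div_pos h1.w10 ha
    have h7 : Real.log H ≤ Real.log (13 * W) + Real.log (w1 / a) := by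
      rw [← Real.log_mul (by positivity) hwa.ne']
      exact Real.log_le_log hH0 hHb
    have h8 : Real.log (13 * W) ≤ 13 * W := (Real.log_le_sub_one_of_pos (by positivity)).trans
      (by linarith)
    have h9 := h1.lg
    have h10 : 1 + Real.log H ≤ 15 * W := by linarith
    refine h10.trans ?_
    have : 15 * W ^ 1 ≤ (2 * W) ^ ((4 + 1 : ℕ) : ℝ) := pw_cX 4 1 hW (by norm_num) (by norm_num)
    rw [pow_one] at this
    refine this.trans (Real.rpow_le_rpow_of_exponent_le h2W (by norm_num))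
  intro c f s p0 v0 hs
  refine (key L P cu cv Uf Vf W M a w1 w2 z0 ρ zL ρL r W h.two le_rfl H (by omega)
    (by
      intro t ht
      have h3 := h.lo t ht
      change Y ≤ kapP (Uf (cu t)) z0 ρ (L t) at h3
      have h4 : (H : ℝ) * a ≤ kapP (Uf (cu t)) z0 ρ (L t) := hHY.trans h3
      have h5 : 0 < kapP (Uf (cu t)) z0 ρ (L t) := (mul_pos hH0 ha).trans_le h4
      have h6 : kapP (Uf (cu t)) z0 ρ (L t) ≤ W * kapP (Uf (cu t)) z0 ρ (L t) :=
        le_mul_of_one_le_left h5.le hW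
      linarith)
    (by
      intro t ht
      refine (h.ty t ht).det ?_
      exact (mul_le_mul_of_nonneg_right hW1k ha.le).trans (h.ty t ht).big)
    (by
      intro t ht
      refine (mul_le_mul_of_nonneg_right ?_ ha.le).trans (h.ty t ht).big
      exact Real.rpow_le_rpow_of_exponent_le h2W (by linarith))
    c f s p0 v0 hs).trans ?_
  have hsp : ∀ i, 0 < s i := fun i => lt_of_lt_of_le (by positivity) (hs i).1
  have := hsp 0
  have := hsp 1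
  have e6 : (2 * W) ^ (k + 6) = (2 * W) ^ k * (2 * W) ^ (6 : ℝ) := Real.rpow_add (by linarith) _ _
  rw [e6]
  gcongr

end Crest.Agent.R136.Plx571
end

-- ▼ part R136/Jet_818
section

/-!
# R136, PLAN 2 (3), V7 : 2-jets at three heights of a common line (helper818)

In tangent coordinates of the sheet `S` at its line `T` (`y` in units of the curvature extent):
`F = n0 y + ζ (n1 y + r1 u + r2 v) + G`, `P = p y + s0·d + ζ (p' y + s1·d) + M`.
If at three separated heights the tangential gradient of `P` on `S` and the `(u,v)`-part of its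
tangential Hessian are at most `ε`, then `P - ν F` has all its coefficients `≤ C ε / (h^4 δ^2)`.
-/

set_option autoImplicit false
set_option linter.unusedVariables false

namespace Crest.Agent.R136.Jet818

open Crest.Agent.R136.Sh605 Crest.Agent.R136.Tl102

/-- three values of a polynomial of degree two -/
theorem quad3 {a b c h s X : ℝ} {x : Fin 3 → ℝ} (hh : 0 < h) (hh1 : h ≤ 1) (hs : 0 ≤ s)
    (hX : 1 ≤ X) (hx : ∀ i, 0 ≤ x i ∧ x i ≤ X) (hd : ∀ i j, i ≠ j → h ≤ |x i - x j|)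
    (hv : ∀ i, |a + b * x i + c * x i ^ 2| ≤ s) :
    |c| ≤ 4 * s / h ^ 2 ∧ |b| ≤ 10 * X * s / h ^ 2 ∧ |a| ≤ 15 * X ^ 2 * s / h ^ 2 := by
  have h01 := hd 0 1 (by decide)
  have h02 := hd 0 2 (by decide)
  have h12 := hd 1 2 (by decide)
  have slope : ∀ i j, h ≤ |x i - x j| → |b + c * (x i + x j)| ≤ 2 * s / h := by
    intro i j hij
    have e : (x i - x j) * (b + c * (x i + x j)) =
        (a + b * x i + c * x i ^ 2) - (a + b * x j + c * x j ^ 2) := by ring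
    have h1 : |x i - x j| * |b + c * (x i + x j)| ≤ 2 * s := by
      rw [← abs_mul, e]
      have := abs_sub (a + b * x i + c * x i ^ 2) (a + b * x j + c * x j ^ 2)
      linarith [hv i, hv j]
    rw [le_div_iff₀ hh]
    have := mul_le_mul_of_nonneg_right hij (abs_nonneg (b + c * (x i + x j)))
    linarith
  have s1 := slope 0 1 h01
  have s2 := slope 0 2 h02
  have hc : |c| ≤ 4 * s / h ^ 2 := by
    have e : (x 1 - x 2) * c = (b + c * (x 0 + x 1)) - (b + c * (x 0 + x 2)) := by ring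
    have h1 : |x 1 - x 2| * |c| ≤ 4 * s / h := by
      rw [← abs_mul, e]
      have := abs_sub (b + c * (x 0 + x 1)) (b + c * (x 0 + x 2))
      have e2 : 4 * s / h = 2 * s / h + 2 * s / h := by ring
      linarith
    have h2 : h * |c| ≤ 4 * s / h :=
      (mul_le_mul_of_nonneg_right h12 (abs_nonneg c)).trans h1
    rw [le_div_iff₀ (by positivity)]
    rw [le_div_iff₀ hh] at h2
    calc |c| * h ^ 2 = h * |c| * h := by ring
      _ ≤ _ := h2
  have hX0 : 0 ≤ X := by linarith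
  have hh2 : 0 < h ^ 2 := by positivity
  have hsh : s / h ≤ s / h ^ 2 := by
    apply div_le_div_of_nonneg_left hs hh2
    nlinarith
  have hs2 : 0 ≤ s / h ^ 2 := by positivity
  have hb : |b| ≤ 10 * X * s / h ^ 2 := by
    have e : b = (b + c * (x 0 + x 1)) - c * (x 0 + x 1) := by ring
    have h1 : |b| ≤ 2 * s / h + |c| * (2 * X) := by
      rw [e]
      refine (abs_sub _ _).trans (add_le_add s1 ?_)
      rw [abs_mul]
      apply mul_le_mul_of_nonneg_left _ (abs_nonneg c)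
      rw [abs_of_nonneg (add_nonneg (hx 0).1 (hx 1).1)]
      linarith [(hx 0).2, (hx 1).2]
    have h2 : |c| * (2 * X) ≤ 4 * s / h ^ 2 * (2 * X) :=
      mul_le_mul_of_nonneg_right hc (by positivity)
    have e3 : 4 * s / h ^ 2 * (2 * X) = 8 * X * (s / h ^ 2) := by ring
    have e4 : 10 * X * s / h ^ 2 = 8 * X * (s / h ^ 2) + 2 * X * (s / h ^ 2) := by ring
    have e5 : 2 * s / h = 2 * (s / h) := by ring
    have h6 : 2 * (s / h ^ 2) ≤ 2 * X * (s / h ^ 2) := by nlinarith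
    rw [e4]; rw [e3] at h2; rw [e5] at h1
    linarith
  refine ⟨hc, hb, ?_⟩
  have e : a = (a + b * x 0 + c * x 0 ^ 2) - (b * x 0 + c * x 0 ^ 2) := by ring
  have hx0 : |x 0| ≤ X := by rw [abs_of_nonneg (hx 0).1]; exact (hx 0).2
  have h1 : |a| ≤ s + (|b| * X + |c| * X ^ 2) := by
    rw [e]
    refine (abs_sub _ _).trans (add_le_add (hv 0) ?_)
    refine (abs_add_le _ _).trans (add_le_add ?_ ?_)
    · rw [abs_mul]; exact mul_le_mul_of_nonneg_left hx0 (abs_nonneg _)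
    · rw [abs_mul, abs_pow]
      exact mul_le_mul_of_nonneg_left (pow_le_pow_left₀ (abs_nonneg _) hx0 2) (abs_nonneg _)
  have h2 : |b| * X ≤ 10 * X * s / h ^ 2 * X := mul_le_mul_of_nonneg_right hb hX0
  have h3 : |c| * X ^ 2 ≤ 4 * s / h ^ 2 * X ^ 2 := mul_le_mul_of_nonneg_right hc (by positivity)
  have h4 : s ≤ X ^ 2 * (s / h ^ 2) := by
    have h5 : s ≤ s / h ^ 2 := by
      rw [le_div_iff₀ hh2]
      nlinarith [pow_le_one₀ (n := 2) hh.le hh1]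
    have h6 : 1 ≤ X ^ 2 := one_le_pow₀ hX
    nlinarith
  have e5 : 15 * X ^ 2 * s / h ^ 2 =
      X ^ 2 * (s / h ^ 2) + (10 * X * s / h ^ 2 * X + 4 * s / h ^ 2 * X ^ 2) := by ring
  rw [e5]
  linarith

/-- `t(ζ) = ζ / (n0 + ζ n1)` : slope factor of the tangent plane -/
noncomputable def tt (n r : V3) (ζ : ℝ) : ℝ := ζ / (n 0 + ζ * r 0)

/-- multiplier at the height `ζ` -/
noncomputable def nu (n r p s : V3) (ζ : ℝ) : ℝ := (p 0 + ζ * s 0) / (n 0 + ζ * r 0)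

/-- coefficients of `M(-t (r·d), d)` -/
def tuu (t : ℝ) (r : V3) (M : QF) : ℝ := M.uu - t * (r 1 * M.yu) + t ^ 2 * (r 1 ^ 2 * M.yy)
def tuv (t : ℝ) (r : V3) (M : QF) : ℝ :=
  M.uv - t * (r 1 * M.yv + r 2 * M.yu) + t ^ 2 * (2 * (r 1 * r 2) * M.yy)
def tvv (t : ℝ) (r : V3) (M : QF) : ℝ := M.vv - t * (r 2 * M.yv) + t ^ 2 * (r 2 ^ 2 * M.yy)

/-- `M - ν G` -/
def msub (M G : QF) (ν : ℝ) : QF where
  yy := M.yy - ν * G.yy
  yu := M.yu - ν * G.yu
  yv := M.yv - ν * G.yv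
  uu := M.uu - ν * G.uu
  uv := M.uv - ν * G.uv
  vv := M.vv - ν * G.vv


/-- the 2-jet of `P` along `S` at the height `ζ` of the line is at most `ε` -/
structure Jet (n r : V3) (G : QF) (p s : V3) (M : QF) (ζ ε : ℝ) : Prop where
  g1 : |p 1 + ζ * s 1 - nu n r p s ζ * (ζ * r 1)| ≤ ε
  g2 : |p 2 + ζ * s 2 - nu n r p s ζ * (ζ * r 2)| ≤ ε
  uu : |tuu (tt n r ζ) r (msub M G (nu n r p s ζ))| ≤ ε
  uv : |tuv (tt n r ζ) r (msub M G (nu n r p s ζ))| ≤ ε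
  vv : |tvv (tt n r ζ) r (msub M G (nu n r p s ζ))| ≤ ε

theorem aux_div {A B δ : ℝ} {r : ℝ} (hδ : 0 < δ) (hr : δ ≤ |r|) (h : |A * r| ≤ B) :
    |A| ≤ B / δ := by
  rw [le_div_iff₀ hδ]
  rw [abs_mul] at h
  exact (mul_le_mul_of_nonneg_left hr (abs_nonneg A)).trans h

/-- all coefficients of `P - ν F` are at most `A` (the coefficient of `y` is `0`) -/
structure Small (n r : V3) (G : QF) (p s : V3) (M : QF) (ν A : ℝ) : Prop where
  p0 : p 0 = ν * n 0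
  s0 : |s 0 - ν * r 0| ≤ A
  p1 : |p 1| ≤ A
  p2 : |p 2| ≤ A
  s1 : |s 1 - ν * r 1| ≤ A
  s2 : |s 2 - ν * r 2| ≤ A
  M : (msub M G ν).Le A

theorem tri2 {a b A B : ℝ} (ha : |a| ≤ A) (hb : |b| ≤ B) : |a + b| ≤ A + B :=
  (abs_add_le _ _).trans (add_le_add ha hb)

theorem mulb {a b A B : ℝ} (ha : |a| ≤ A) (hb : |b| ≤ B) : |a * b| ≤ A * B := by
  rw [abs_mul]
  exact mul_le_mul ha hb (abs_nonneg _) ((abs_nonneg _).trans ha)

/-- the gradient part, one component -/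
theorem grad3 {n0 r0 p0 s0 pk sk rk h ε : ℝ} (hh : 0 < h) (hh1 : h ≤ 1) (hε : 0 ≤ ε)
    (hn : ∀ ζ : ℝ, 0 ≤ ζ → ζ ≤ 1 → 1 / 2 ≤ n0 + ζ * r0 ∧ n0 + ζ * r0 ≤ 2) (hr0 : |r0| ≤ 2)
    {ζ : Fin 3 → ℝ} (hζ : ∀ i, 0 ≤ ζ i ∧ ζ i ≤ 1) (hd : ∀ i j, i ≠ j → h ≤ |ζ i - ζ j|)
    (hg : ∀ i, |pk + ζ i * sk - (p0 + ζ i * s0) / (n0 + ζ i * r0) * (ζ i * rk)| ≤ ε) :
    |pk| ≤ 60 * (ε / h ^ 2) ∧ |sk - p0 / n0 * rk| ≤ 280 * (ε / h ^ 2) ∧
      |(s0 - p0 / n0 * r0) * rk| ≤ 568 * (ε / h ^ 2) := by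
  have hn0 : 1 / 2 ≤ n0 := by have := (hn 0 le_rfl zero_le_one).1; linarith
  have hn0' : 0 < n0 := by linarith
  have key : ∀ i, |pk * n0 + (pk * r0 + sk * n0 - p0 * rk) * ζ i +
      (sk * r0 - s0 * rk) * ζ i ^ 2| ≤ 2 * ε := by
    intro i
    obtain ⟨a1, a2⟩ := hn (ζ i) (hζ i).1 (hζ i).2
    have hN : 0 < n0 + ζ i * r0 := by linarith
    have hne : n0 + ζ i * r0 ≠ 0 := hN.ne'
    have e : pk * n0 + (pk * r0 + sk * n0 - p0 * rk) * ζ i + (sk * r0 - s0 * rk) * ζ i ^ 2 =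
        (n0 + ζ i * r0) * (pk + ζ i * sk - (p0 + ζ i * s0) / (n0 + ζ i * r0) * (ζ i * rk)) := by
      have e1 : (n0 + ζ i * r0) * ((p0 + ζ i * s0) / (n0 + ζ i * r0)) = p0 + ζ i * s0 :=
        mul_div_cancel₀ _ hne
      have e2 : (n0 + ζ i * r0) * (pk + ζ i * sk - (p0 + ζ i * s0) / (n0 + ζ i * r0) * (ζ i * rk)) =
          (n0 + ζ i * r0) * (pk + ζ i * sk) -
            (n0 + ζ i * r0) * ((p0 + ζ i * s0) / (n0 + ζ i * r0)) * (ζ i * rk) := by ring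
      rw [e2, e1]
      ring
    rw [e, abs_mul, abs_of_pos hN]
    exact mul_le_mul a2 (hg i) (abs_nonneg _) (by norm_num)
  obtain ⟨c1, c2, c3⟩ := quad3 hh hh1 (by positivity : (0:ℝ) ≤ 2 * ε) le_rfl hζ hd key
  set A := ε / h ^ 2 with hA
  have hA0 : 0 ≤ A := by positivity
  have d1 : |sk * r0 - s0 * rk| ≤ 8 * A := c1.trans (le_of_eq (by rw [hA]; ring))
  have d2 : |pk * r0 + sk * n0 - p0 * rk| ≤ 20 * A := c2.trans (le_of_eq (by rw [hA]; ring))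
  have d3 : |pk * n0| ≤ 30 * A := c3.trans (le_of_eq (by rw [hA]; ring))
  have e1 : |pk| ≤ 60 * A := by
    rw [abs_mul, abs_of_pos hn0'] at d3
    nlinarith [abs_nonneg pk]
  have e2 : |sk - p0 / n0 * rk| ≤ 280 * A := by
    have h1 : n0 * (sk - p0 / n0 * rk) = (pk * r0 + sk * n0 - p0 * rk) - pk * r0 := by
      field_simp
      ring
    have h2 : |n0 * (sk - p0 / n0 * rk)| ≤ 140 * A := by
      rw [h1]
      have h3 := mulb e1 hr0
      have h4 := abs_sub (pk * r0 + sk * n0 - p0 * rk) (pk * r0)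
      linarith
    rw [abs_mul, abs_of_pos hn0'] at h2
    nlinarith [abs_nonneg (sk - p0 / n0 * rk)]
  refine ⟨e1, e2, ?_⟩
  have h1 : (s0 - p0 / n0 * r0) * rk = (sk - p0 / n0 * rk) * r0 - (sk * r0 - s0 * rk) := by ring
  rw [h1]
  have h3 := mulb e2 hr0
  have h4 := abs_sub ((sk - p0 / n0 * rk) * r0) (sk * r0 - s0 * rk)
  linarith

theorem tuu_sub (t : ℝ) (r : V3) (M G : QF) (ν μ : ℝ) :
    tuu t r (msub M G ν) = tuu t r (msub M G μ) + (ν - μ) * -tuu t r G := by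
  simp only [tuu, msub]; ring
theorem tuv_sub (t : ℝ) (r : V3) (M G : QF) (ν μ : ℝ) :
    tuv t r (msub M G ν) = tuv t r (msub M G μ) + (ν - μ) * -tuv t r G := by
  simp only [tuv, msub]; ring
theorem tvv_sub (t : ℝ) (r : V3) (M G : QF) (ν μ : ℝ) :
    tvv t r (msub M G ν) = tvv t r (msub M G μ) + (ν - μ) * -tvv t r G := by
  simp only [tvv, msub]; ring

theorem t_bd {t K : ℝ} {r : V3} {G : QF} (ht : 0 ≤ t) (ht2 : t ≤ 2) (hr : ∀ k, |r k| ≤ 2)
    (hK : 0 ≤ K) (hG : G.Le K) :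
    |tuu t r G| ≤ 41 * K ∧ |tuv t r G| ≤ 41 * K ∧ |tvv t r G| ≤ 41 * K := by
  obtain ⟨g1, g2, g3, g4, g5, g6⟩ := hG
  have at' : |t| ≤ 2 := by rw [abs_of_nonneg ht]; exact ht2
  have at2 : |t ^ 2| ≤ 4 := by rw [abs_of_nonneg (by positivity)]; nlinarith
  refine ⟨?_, ?_, ?_⟩
  · have h1 : |t * (r 1 * G.yu)| ≤ 2 * (2 * K) := mulb at' (mulb (hr 1) g2)
    have h2 : |t ^ 2 * (r 1 ^ 2 * G.yy)| ≤ 4 * (4 * K) := by
      refine mulb at2 (mulb ?_ g1)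
      rw [abs_pow]; have := hr 1; nlinarith [abs_nonneg (r 1)]
    unfold tuu
    have h3 := abs_add_le (G.uu - t * (r 1 * G.yu)) (t ^ 2 * (r 1 ^ 2 * G.yy))
    have h4 := abs_sub G.uu (t * (r 1 * G.yu))
    linarith
  · have h1 : |t * (r 1 * G.yv + r 2 * G.yu)| ≤ 2 * (2 * K + 2 * K) :=
      mulb at' (tri2 (mulb (hr 1) g3) (mulb (hr 2) g2))
    have h2 : |t ^ 2 * (2 * (r 1 * r 2) * G.yy)| ≤ 4 * (2 * (2 * 2) * K) :=
      mulb at2 (mulb (mulb (by norm_num) (mulb (hr 1) (hr 2))) g1)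
    unfold tuv
    have h3 := abs_add_le (G.uv - t * (r 1 * G.yv + r 2 * G.yu)) (t ^ 2 * (2 * (r 1 * r 2) * G.yy))
    have h4 := abs_sub G.uv (t * (r 1 * G.yv + r 2 * G.yu))
    linarith
  · have h1 : |t * (r 2 * G.yv)| ≤ 2 * (2 * K) := mulb at' (mulb (hr 2) g3)
    have h2 : |t ^ 2 * (r 2 ^ 2 * G.yy)| ≤ 4 * (4 * K) := by
      refine mulb at2 (mulb ?_ g1)
      rw [abs_pow]; have := hr 2; nlinarith [abs_nonneg (r 2)]
    unfold tvv
    have h3 := abs_add_le (G.vv - t * (r 2 * G.yv)) (t ^ 2 * (r 2 ^ 2 * G.yy))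
    have h4 := abs_sub G.vv (t * (r 2 * G.yv))
    linarith

set_option maxHeartbeats 1000000 in
/-- **V7**: small 2-jets of `P` along `S` at three separated heights of the line: `P` is a multiple of
`F` up to a small error -/
theorem jet3 {n r p s : V3} {G M : QF} {K δ h ε : ℝ} (hK : 1 ≤ K) (hδ : 0 < δ) (hδ1 : δ ≤ 1)
    (hh : 0 < h) (hh1 : h ≤ 1) (hε : 0 ≤ ε)
    (hn : ∀ ζ : ℝ, 0 ≤ ζ → ζ ≤ 1 → 1 / 2 ≤ n 0 + ζ * r 0 ∧ n 0 + ζ * r 0 ≤ 2)
    (hr : ∀ k, |r k| ≤ 2) (hG : G.Le K) (hr1 : δ ≤ |r 1| ∨ δ ≤ |r 2|)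
    {ζ : Fin 3 → ℝ} (hζ : ∀ i, 0 ≤ ζ i ∧ ζ i ≤ 1) (hd : ∀ i j, i ≠ j → h ≤ |ζ i - ζ j|)
    (hJ : ∀ i, Jet n r G p s M (ζ i) ε) :
    Small n r G p s M (p 0 / n 0) (10 ^ 9 * K * ε / (h ^ 4 * δ ^ 3)) := by
  have hn0 : 1 / 2 ≤ n 0 := by have := (hn 0 le_rfl zero_le_one).1; linarith
  have hn2 : n 0 ≤ 2 := by have := (hn 0 le_rfl zero_le_one).2; linarith
  have hn0' : 0 < n 0 := by linarith
  obtain ⟨a1, a2, a3⟩ := grad3 hh hh1 hε hn (hr 0) hζ hd (fun i => (hJ i).g1)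
  obtain ⟨b1, b2, b3⟩ := grad3 hh hh1 hε hn (hr 0) hζ hd (fun i => (hJ i).g2)
  set ν := p 0 / n 0 with hν
  set A := ε / h ^ 2 with hA
  have hA0 : 0 ≤ A := by positivity
  have hεA : ε ≤ A := by
    rw [hA, le_div_iff₀ (by positivity)]
    exact mul_le_of_le_one_right hε (pow_le_one₀ hh.le hh1)
  set B := 568 * A / δ with hB
  have hB0 : 0 ≤ B := by positivity
  have hAB : 568 * A ≤ B := by
    rw [hB, le_div_iff₀ hδ]
    exact mul_le_of_le_one_right (by positivity) hδ1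
  have hs0 : |s 0 - ν * r 0| ≤ B := by
    rcases hr1 with h1 | h1
    · exact aux_div hδ h1 a3
    · exact aux_div hδ h1 b3
  -- the Hessian part
  have hsep : ∀ i j, i ≠ j → h / 8 ≤ |tt n r (ζ i) - tt n r (ζ j)| := by
    intro i j hij
    obtain ⟨c1, c2⟩ := hn (ζ i) (hζ i).1 (hζ i).2
    obtain ⟨d1, d2⟩ := hn (ζ j) (hζ j).1 (hζ j).2
    have hN : 0 < n 0 + ζ i * r 0 := by linarith
    have hN' : 0 < n 0 + ζ j * r 0 := by linarith
    have e : tt n r (ζ i) - tt n r (ζ j) =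
        n 0 * (ζ i - ζ j) / ((n 0 + ζ i * r 0) * (n 0 + ζ j * r 0)) := by
      unfold tt
      rw [div_sub_div _ _ hN.ne' hN'.ne']
      congr 1
      ring
    rw [e, abs_div, abs_mul, abs_of_pos hn0', abs_of_pos (mul_pos hN hN'),
      le_div_iff₀ (mul_pos hN hN')]
    have h1 := hd i j hij
    have h2 : (n 0 + ζ i * r 0) * (n 0 + ζ j * r 0) ≤ 2 * 2 :=
      mul_le_mul c2 d2 hN'.le (by norm_num)
    have h3 : h / 8 * ((n 0 + ζ i * r 0) * (n 0 + ζ j * r 0)) ≤ h / 8 * (2 * 2) :=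
      mul_le_mul_of_nonneg_left h2 (by positivity)
    have h4 : 1 / 2 * h ≤ n 0 * |ζ i - ζ j| := mul_le_mul hn0 h1 hh.le hn0'.le
    linarith
  have htt : ∀ i, 0 ≤ tt n r (ζ i) ∧ tt n r (ζ i) ≤ 2 := by
    intro i
    obtain ⟨c1, c2⟩ := hn (ζ i) (hζ i).1 (hζ i).2
    have hN : 0 < n 0 + ζ i * r 0 := by linarith
    unfold tt
    refine ⟨div_nonneg (hζ i).1 hN.le, ?_⟩
    rw [div_le_iff₀ hN]
    linarith [(hζ i).2]
  have hνi : ∀ i, |nu n r p s (ζ i) - ν| ≤ 2 * B := by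
    intro i
    obtain ⟨c1, c2⟩ := hn (ζ i) (hζ i).1 (hζ i).2
    have hN : 0 < n 0 + ζ i * r 0 := by linarith
    have e : nu n r p s (ζ i) - ν = ζ i * (s 0 - ν * r 0) / (n 0 + ζ i * r 0) := by
      have hp : p 0 = ν * n 0 := by rw [hν]; field_simp
      unfold nu
      rw [eq_div_iff hN.ne', sub_mul, div_mul_cancel₀ _ hN.ne', hp]
      ring
    rw [e, abs_div, abs_of_pos hN, div_le_iff₀ hN, abs_mul, abs_of_nonneg (hζ i).1]
    have h1 : ζ i * |s 0 - ν * r 0| ≤ 1 * B :=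
      mul_le_mul (hζ i).2 hs0 (abs_nonneg _) (by norm_num)
    have h2 : 2 * B * (1 / 2) ≤ 2 * B * (n 0 + ζ i * r 0) :=
      mul_le_mul_of_nonneg_left c1 (by positivity)
    linarith
  set R := msub M G ν with hR
  have hK0 : 0 ≤ K := by linarith
  set s2 := 83 * K * B with hs2
  have hs20 : 0 ≤ s2 := by positivity
  have hεB : ε ≤ K * B := by
    have h1 : ε ≤ 1 * B := by linarith
    exact h1.trans (mul_le_mul_of_nonneg_right hK hB0)
  have step : ∀ x y z : ℝ, |x| ≤ ε → |y| ≤ 2 * B → |z| ≤ 41 * K → |x - y * -z| ≤ s2 := by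
    intro x y z hx hy hz
    have h1 : |y * -z| ≤ 2 * B * (41 * K) := mulb hy (by rw [abs_neg]; exact hz)
    have h2 := abs_sub x (y * -z)
    have e1 : 2 * B * (41 * K) = 82 * (K * B) := by ring
    have e2 : s2 = 83 * (K * B) := by rw [hs2]; ring
    rw [e2]; rw [e1] at h1
    linarith
  have huu : ∀ i, |tuu (tt n r (ζ i)) r R| ≤ s2 := by
    intro i
    obtain ⟨t1, t2⟩ := htt i
    have h1 := (hJ i).uu
    have e := tuu_sub (tt n r (ζ i)) r M G (nu n r p s (ζ i)) ν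
    have e2 : tuu (tt n r (ζ i)) r R = tuu (tt n r (ζ i)) r (msub M G (nu n r p s (ζ i))) -
        (nu n r p s (ζ i) - ν) * -tuu (tt n r (ζ i)) r G := by rw [e, hR]; ring
    rw [e2]
    exact step _ _ _ h1 (hνi i) (t_bd t1 t2 hr hK0 hG).1
  have huv : ∀ i, |tuv (tt n r (ζ i)) r R| ≤ s2 := by
    intro i
    obtain ⟨t1, t2⟩ := htt i
    have h1 := (hJ i).uv
    have e := tuv_sub (tt n r (ζ i)) r M G (nu n r p s (ζ i)) ν
    have e2 : tuv (tt n r (ζ i)) r R = tuv (tt n r (ζ i)) r (msub M G (nu n r p s (ζ i))) -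
        (nu n r p s (ζ i) - ν) * -tuv (tt n r (ζ i)) r G := by rw [e, hR]; ring
    rw [e2]
    exact step _ _ _ h1 (hνi i) (t_bd t1 t2 hr hK0 hG).2.1
  have hvv : ∀ i, |tvv (tt n r (ζ i)) r R| ≤ s2 := by
    intro i
    obtain ⟨t1, t2⟩ := htt i
    have h1 := (hJ i).vv
    have e := tvv_sub (tt n r (ζ i)) r M G (nu n r p s (ζ i)) ν
    have e2 : tvv (tt n r (ζ i)) r R = tvv (tt n r (ζ i)) r (msub M G (nu n r p s (ζ i))) -
        (nu n r p s (ζ i) - ν) * -tvv (tt n r (ζ i)) r G := by rw [e, hR]; ring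
    rw [e2]
    exact step _ _ _ h1 (hνi i) (t_bd t1 t2 hr hK0 hG).2.2
  have hh8 : (0:ℝ) < h / 8 := by positivity
  have hh81 : h / 8 ≤ 1 := by linarith
  obtain ⟨u3, u2, u1⟩ := quad3 (a := R.uu) (b := -(r 1 * R.yu)) (c := r 1 ^ 2 * R.yy)
    hh8 hh81 hs20 (by norm_num : (1:ℝ) ≤ 2) htt hsep (fun i => by
      have := huu i
      unfold tuu at this
      rw [show R.uu + -(r 1 * R.yu) * tt n r (ζ i) + r 1 ^ 2 * R.yy * tt n r (ζ i) ^ 2 =
        R.uu - tt n r (ζ i) * (r 1 * R.yu) + tt n r (ζ i) ^ 2 * (r 1 ^ 2 * R.yy) by ring]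
      exact this)
  obtain ⟨w3, w2, w1⟩ := quad3 (a := R.uv) (b := -(r 1 * R.yv + r 2 * R.yu))
    (c := 2 * (r 1 * r 2) * R.yy) hh8 hh81 hs20 (by norm_num : (1:ℝ) ≤ 2) htt hsep (fun i => by
      have := huv i
      unfold tuv at this
      rw [show R.uv + -(r 1 * R.yv + r 2 * R.yu) * tt n r (ζ i) +
          2 * (r 1 * r 2) * R.yy * tt n r (ζ i) ^ 2 =
        R.uv - tt n r (ζ i) * (r 1 * R.yv + r 2 * R.yu) +
          tt n r (ζ i) ^ 2 * (2 * (r 1 * r 2) * R.yy) by ring]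
      exact this)
  obtain ⟨v3, v2, v1⟩ := quad3 (a := R.vv) (b := -(r 2 * R.yv)) (c := r 2 ^ 2 * R.yy)
    hh8 hh81 hs20 (by norm_num : (1:ℝ) ≤ 2) htt hsep (fun i => by
      have := hvv i
      unfold tvv at this
      rw [show R.vv + -(r 2 * R.yv) * tt n r (ζ i) + r 2 ^ 2 * R.yy * tt n r (ζ i) ^ 2 =
        R.vv - tt n r (ζ i) * (r 2 * R.yv) + tt n r (ζ i) ^ 2 * (r 2 ^ 2 * R.yy) by ring]
      exact this)
  set D := 3840 * (s2 / h ^ 2) with hD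
  have hq0 : 0 ≤ s2 / h ^ 2 := by positivity
  have hD0 : 0 ≤ D := by positivity
  have f4 : 4 * s2 / (h / 8) ^ 2 ≤ D := by
    have : 4 * s2 / (h / 8) ^ 2 = 256 * (s2 / h ^ 2) := by field_simp; ring
    rw [this, hD]; linarith
  have f10 : 10 * 2 * s2 / (h / 8) ^ 2 ≤ D := by
    have : 10 * 2 * s2 / (h / 8) ^ 2 = 1280 * (s2 / h ^ 2) := by field_simp; ring
    rw [this, hD]; linarith
  have f15 : 15 * 2 ^ 2 * s2 / (h / 8) ^ 2 ≤ D := by
    have : 15 * 2 ^ 2 * s2 / (h / 8) ^ 2 = 3840 * (s2 / h ^ 2) := by field_simp; ring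
    rw [this, hD]
  have U1 := u1.trans f15
  have W1 := w1.trans f15
  have V1 := v1.trans f15
  have U2 : |r 1 * R.yu| ≤ D := by have := u2.trans f10; rwa [abs_neg] at this
  have W2 : |r 1 * R.yv + r 2 * R.yu| ≤ D := by have := w2.trans f10; rwa [abs_neg] at this
  have V2 : |r 2 * R.yv| ≤ D := by have := v2.trans f10; rwa [abs_neg] at this
  have U3 := u3.trans f4
  have V3' := v3.trans f4
  have hδ2 : 0 < δ ^ 2 := by positivity
  have hδ21 : δ ^ 2 ≤ δ := by rw [pow_two]; exact mul_le_of_le_one_left hδ.le hδ1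
  have hδ22 : δ ^ 2 ≤ 1 := hδ21.trans hδ1
  have g1 : D ≤ 3 * D / δ ^ 2 := by
    rw [le_div_iff₀ hδ2]
    have := mul_le_of_le_one_right hD0 hδ22
    linarith
  have g2 : D / δ ≤ 3 * D / δ ^ 2 := by
    rw [div_le_div_iff₀ hδ hδ2]
    have h1 := mul_le_mul_of_nonneg_left hδ21 hD0
    have h2 : 0 ≤ D * δ := by positivity
    linarith
  have g3 : D / δ ^ 2 ≤ 3 * D / δ ^ 2 := by
    apply div_le_div_of_nonneg_right _ hδ2.le; linarith
  have g4 : (D + 2 * (D / δ)) / δ ≤ 3 * D / δ ^ 2 := by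
    rw [div_le_div_iff₀ hδ hδ2]
    have : (D + 2 * (D / δ)) * δ ^ 2 = D * δ ^ 2 + 2 * D * δ := by field_simp
    rw [this]
    have h1 := mul_le_mul_of_nonneg_left hδ21 hD0
    linarith
  have hyy : |R.yy| ≤ 3 * D / δ ^ 2 := by
    rcases hr1 with h1 | h1
    · refine le_trans ?_ g3
      rw [le_div_iff₀ hδ2]
      rw [abs_mul, abs_pow] at U3
      have h2 : δ ^ 2 ≤ |r 1| ^ 2 := pow_le_pow_left₀ hδ.le h1 2
      linarith [mul_le_mul_of_nonneg_right h2 (abs_nonneg R.yy)]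
    · refine le_trans ?_ g3
      rw [le_div_iff₀ hδ2]
      rw [abs_mul, abs_pow] at V3'
      have h2 : δ ^ 2 ≤ |r 2| ^ 2 := pow_le_pow_left₀ hδ.le h1 2
      linarith [mul_le_mul_of_nonneg_right h2 (abs_nonneg R.yy)]
  have hyuv : |R.yu| ≤ 3 * D / δ ^ 2 ∧ |R.yv| ≤ 3 * D / δ ^ 2 := by
    rcases hr1 with h1 | h1
    · have k1 : |R.yu| ≤ D / δ := aux_div hδ h1 (by rw [mul_comm]; exact U2)
      have k2 : |R.yv * r 1| ≤ D + 2 * (D / δ) := by
        have e : R.yv * r 1 = (r 1 * R.yv + r 2 * R.yu) - r 2 * R.yu := by ring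
        rw [e]
        have k3 := mulb (hr 2) k1
        have k4 := abs_sub (r 1 * R.yv + r 2 * R.yu) (r 2 * R.yu)
        linarith
      exact ⟨k1.trans g2, (aux_div hδ h1 k2).trans g4⟩
    · have k1 : |R.yv| ≤ D / δ := aux_div hδ h1 (by rw [mul_comm]; exact V2)
      have k2 : |R.yu * r 2| ≤ D + 2 * (D / δ) := by
        have e : R.yu * r 2 = (r 1 * R.yv + r 2 * R.yu) - r 1 * R.yv := by ring
        rw [e]
        have k3 := mulb (hr 1) k1
        have k4 := abs_sub (r 1 * R.yv + r 2 * R.yu) (r 1 * R.yv)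
        linarith
      exact ⟨(aux_div hδ h1 k2).trans g4, k1.trans g2⟩
  have fin : 3 * D / δ ^ 2 ≤ 10 ^ 9 * K * ε / (h ^ 4 * δ ^ 3) := by
    have e : 3 * D / δ ^ 2 = 543098880 * (K * ε / (h ^ 4 * δ ^ 3)) := by
      rw [hD, hs2, hB, hA]
      field_simp
      ring
    rw [e]
    have : 0 ≤ K * ε / (h ^ 4 * δ ^ 3) := by positivity
    have e2 : 10 ^ 9 * K * ε / (h ^ 4 * δ ^ 3) = 10 ^ 9 * (K * ε / (h ^ 4 * δ ^ 3)) := by ring
    rw [e2]
    exact mul_le_mul_of_nonneg_right (by norm_num) this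
  have finB : B ≤ 3 * D / δ ^ 2 := by
    refine le_trans ?_ g1
    rw [hD, hs2]
    have h1 : 1 * B ≤ 83 * K * B := mul_le_mul_of_nonneg_right (by linarith) hB0
    have h3 : 0 ≤ 83 * K * B := by positivity
    have h4 : h ^ 2 ≤ 1 := pow_le_one₀ hh.le hh1
    have h2 : 83 * K * B ≤ 83 * K * B / h ^ 2 := by
      rw [le_div_iff₀ (by positivity)]
      exact mul_le_of_le_one_right h3 h4
    linarith
  exact
    { p0 := by rw [hν]; field_simp
      s0 := hs0.trans (finB.trans fin)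
      p1 := (a1.trans (by linarith)).trans (finB.trans fin)
      p2 := (b1.trans (by linarith)).trans (finB.trans fin)
      s1 := (a2.trans (by linarith)).trans (finB.trans fin)
      s2 := (b2.trans (by linarith)).trans (finB.trans fin)
      M := ⟨hyy.trans fin, hyuv.1.trans fin, hyuv.2.trans fin, (U1.trans g1).trans fin,
        (W1.trans g1).trans fin, (V1.trans g1).trans fin⟩ }

/-- values of `P - ν F` from its coefficients -/
theorem Small.val {n r p s : V3} {G M : QF} {ν A : ℝ} (h : Small n r G p s M ν A) (hA : 0 ≤ A)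
    {ζ Y : ℝ} (hζ : 0 ≤ ζ) (hζ1 : ζ ≤ 1) (hY : 1 ≤ Y) {x : V3} (h0 : |x 0| ≤ Y) (h1 : |x 1| ≤ 1)
    (h2 : |x 2| ≤ 1) : |Fq p s M ζ x - ν * Fq n r G ζ x + ν * (n 1 * x 1 + n 2 * x 2)| ≤
      11 * Y ^ 2 * A := by
  obtain ⟨m1, m2, m3, m4, m5, m6⟩ := h.M
  simp only [msub] at m1 m2 m3 m4 m5 m6
  have e : Fq p s M ζ x - ν * Fq n r G ζ x + ν * (n 1 * x 1 + n 2 * x 2) =
      (s 0 - ν * r 0) * (ζ * x 0) + p 1 * x 1 + p 2 * x 2 + (s 1 - ν * r 1) * (ζ * x 1) +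
      (s 2 - ν * r 2) * (ζ * x 2) + (M.yy - ν * G.yy) * (x 0 ^ 2) +
      (M.yu - ν * G.yu) * (x 0 * x 1) + (M.yv - ν * G.yv) * (x 0 * x 2) +
      (M.uu - ν * G.uu) * (x 1 ^ 2) + (M.uv - ν * G.uv) * (x 1 * x 2) +
      (M.vv - ν * G.vv) * (x 2 ^ 2) := by
    simp only [Fq, dt, bz, QF.ev]
    rw [h.p0]
    ring
  have hY0 : 0 ≤ Y := by linarith
  have hYY : Y ≤ Y ^ 2 := by nlinarith
  have az : |ζ| ≤ 1 := by rw [abs_of_nonneg hζ]; exact hζ1
  have hY2 : (1:ℝ) ≤ Y ^ 2 := by nlinarith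
  have c : ∀ a b : ℝ, |a| ≤ A → |b| ≤ Y ^ 2 → |a * b| ≤ Y ^ 2 * A := fun a b ha hb => by
    have := mulb ha hb; linarith
  have sq : ∀ y : ℝ, |y| ≤ 1 → |y ^ 2| ≤ Y ^ 2 := fun y hy => by
    rw [abs_pow]; nlinarith [abs_nonneg y]
  have t1 := c _ _ h.s0 (show |ζ * x 0| ≤ Y ^ 2 by have := mulb az h0; linarith)
  have t2 := c _ _ h.p1 (show |x 1| ≤ Y ^ 2 by linarith)
  have t3 := c _ _ h.p2 (show |x 2| ≤ Y ^ 2 by linarith)
  have t4 := c _ _ h.s1 (show |ζ * x 1| ≤ Y ^ 2 by have := mulb az h1; linarith)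
  have t5 := c _ _ h.s2 (show |ζ * x 2| ≤ Y ^ 2 by have := mulb az h2; linarith)
  have t6 := c _ _ m1 (show |x 0 ^ 2| ≤ Y ^ 2 by
    rw [abs_pow]; exact pow_le_pow_left₀ (abs_nonneg _) h0 2)
  have t7 := c _ _ m2 (show |x 0 * x 1| ≤ Y ^ 2 by have := mulb h0 h1; linarith)
  have t8 := c _ _ m3 (show |x 0 * x 2| ≤ Y ^ 2 by have := mulb h0 h2; linarith)
  have t9 := c _ _ m4 (sq _ h1)
  have t10 := c _ _ m5 (show |x 1 * x 2| ≤ Y ^ 2 by have := mulb h1 h2; linarith)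
  have t11 := c _ _ m6 (sq _ h2)
  rw [e]
  refine (tri2 (tri2 (tri2 (tri2 (tri2 (tri2 (tri2 (tri2 (tri2 (tri2 t1 t2) t3) t4) t5) t6) t7)
    t8) t9) t10) t11).trans (le_of_eq ?_)
  ring

end Crest.Agent.R136.Jet818
end

-- ▼ part R136/Jet2_818
section

/-!
# R136, PLAN 2 (3), V7 : closing step (helper818)

* `XJ` : the `X`-part of the 2-jet of `Fq b0 b1 G` at the height `ζ` of the line.
* `jet_of` : small `tg`, `th` (helper601) at a height of the line give `Jet`.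
* `close_line` : `Jet` at three heights gives `|V.q - ν S.q|` small near the line.
-/

set_option autoImplicit false
set_option linter.unusedVariables false

namespace Crest.Agent.R136.Jet818

open Crest.Agent.R136.Sh605 Crest.Agent.R136.Tl102 Crest.Agent.R136.Rk601

/-- `X`-part of the 2-jet of `Fq b0 b1 G` at a point of the line, height `ζ` -/
structure XJ (b0 b1 : V3) (G : QF) (ζ : ℝ) (J : Jt) : Prop where
  a0 : J.a0 = b0 0 + ζ * b1 0
  a1 : J.a 1 = b0 1 + ζ * b1 1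
  a2 : J.a 2 = b0 2 + ζ * b1 2
  h00 : J.h00 = 2 * G.yy
  h01 : J.h0 1 = G.yu
  h02 : J.h0 2 = G.yv
  h11 : J.h 1 1 = 2 * G.uu
  h12 : J.h 1 2 = G.uv
  h22 : J.h 2 2 = 2 * G.vv

/-- linear part of the second function in the tangent coordinates of the first one -/
noncomputable def pS (κ : ℝ) (b0 b : V3) : V3 :=
  ![b 0, (b 1 - b0 1 / b0 0 * b 0) / κ, (b 2 - b0 2 / b0 0 * b 0) / κ]


theorem jet_of {b0 b1 b0' b1' : V3} {G G' : QF} {κ ζ ε : ℝ} {J J' : Jt} (hb : b0 0 ≠ 0)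
    (hz : b0 0 + ζ * b1 0 ≠ 0) (hκ : 0 < κ) (hJ : XJ b0 b1 G ζ J) (hJ' : XJ b0' b1' G' ζ J')
    (g1 : |Rk601.tg J J' 1| ≤ κ * ε) (g2 : |Rk601.tg J J' 2| ≤ κ * ε) (h11 : |th J J' 1 1| ≤ κ * ε)
    (h12 : |th J J' 1 2| ≤ κ * ε) (h22 : |th J J' 2 2| ≤ κ * ε) :
    Jet (shB0 b0) (scB1 κ b0 b1) (scG κ b0 G) (pS κ b0 b0') (pS κ b0 b1') (scG κ b0 G') ζ ε := by
  have hκ' : κ ≠ 0 := hκ.ne'
  have e0 : (shB0 b0) 0 + ζ * (scB1 κ b0 b1) 0 = b0 0 + ζ * b1 0 := by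
    simp [shB0, scB1]
  have enu : nu (shB0 b0) (scB1 κ b0 b1) (pS κ b0 b0') (pS κ b0 b1') ζ =
      (b0' 0 + ζ * b1' 0) / (b0 0 + ζ * b1 0) := by
    unfold nu; rw [e0]; simp [pS]
  have ett : tt (shB0 b0) (scB1 κ b0 b1) ζ = ζ / (b0 0 + ζ * b1 0) := by
    unfold tt; rw [e0]
  set N := b0 0 + ζ * b1 0 with hN
  have key : ∀ x y : ℝ, x = y / κ → |y| ≤ κ * ε → |x| ≤ ε := by
    intro x y hx hy
    rw [hx, abs_div, abs_of_pos hκ, div_le_iff₀ hκ]; linarith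
  have key2 : ∀ x y : ℝ, x = y / (2 * κ) → |y| ≤ κ * ε → |x| ≤ ε := by
    intro x y hx hy
    have hε : 0 ≤ κ * ε := (abs_nonneg y).trans hy
    rw [hx, abs_div, abs_of_pos (by positivity : 0 < 2 * κ), div_le_iff₀ (by positivity)]
    linarith
  refine ⟨?_, ?_, ?_, ?_, ?_⟩
  · refine key _ (Rk601.tg J J' 1) ?_ g1
    rw [enu]
    simp only [Rk601.tg, hJ.a0, hJ.a1, hJ'.a0, hJ'.a1, scB1, pS, shB1, Matrix.cons_val]
    rw [← hN]
    field_simp
    rw [hN]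
    ring
  · refine key _ (Rk601.tg J J' 2) ?_ g2
    rw [enu]
    simp only [Rk601.tg, hJ.a0, hJ.a2, hJ'.a0, hJ'.a2, scB1, pS, shB1, Matrix.cons_val]
    rw [← hN]
    field_simp
    rw [hN]
    ring
  · refine key2 _ (th J J' 1 1) ?_ h11
    rw [enu, ett]
    simp only [th, lf, sl, hJ.a0, hJ.a1, hJ'.a0, hJ.h00, hJ.h01, hJ.h11, hJ'.h00, hJ'.h01, hJ'.h11,
      tuu, msub, scB1, scG, shG, shB1, Matrix.cons_val]
    rw [← hN]
    field_simp
    rw [hN]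
    ring
  · refine key _ (th J J' 1 2) ?_ h12
    rw [enu, ett]
    simp only [th, lf, sl, hJ.a0, hJ.a1, hJ.a2, hJ'.a0, hJ.h00, hJ.h01, hJ.h02, hJ.h12, hJ'.h00,
      hJ'.h01, hJ'.h02, hJ'.h12, tuv, msub, scB1, scG, shG, shB1, Matrix.cons_val]
    rw [← hN]
    field_simp
    rw [hN]
    ring
  · refine key2 _ (th J J' 2 2) ?_ h22
    rw [enu, ett]
    simp only [th, lf, sl, hJ.a0, hJ.a2, hJ'.a0, hJ.h00, hJ.h02, hJ.h22, hJ'.h00, hJ'.h02, hJ'.h22,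
      tvv, msub, scB1, scG, shG, shB1, Matrix.cons_val]
    rw [← hN]
    field_simp
    rw [hN]
    ring

/-- the coefficients of `q' - m q` -/
theorem omB_of_small {b0 b1 b0' b1' : V3} {G G' : QF} {κ A : ℝ} (hb : b0 0 ≠ 0)
    (hS : Small (shB0 b0) (scB1 κ b0 b1) (scG κ b0 G) (pS κ b0 b0') (pS κ b0 b1') (scG κ b0 G')
      (b0' 0 / b0 0) A) (hA : 0 ≤ A) : OmB κ A A A b0 b1 G b0' b1' G' := by
  have e0 : om0 κ b0 b0' = ![0, (pS κ b0 b0') 1, (pS κ b0 b0') 2] := by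
    ext k
    fin_cases k
    · exact om0_zero κ hb b0'
    · change (b0' 1 - b0' 0 / b0 0 * b0 1 - b0 1 / b0 0 * (b0' 0 - b0' 0 / b0 0 * b0 0)) / κ =
        (b0' 1 - b0 1 / b0 0 * b0' 0) / κ
      congr 1
      field_simp
      ring
    · change (b0' 2 - b0' 0 / b0 0 * b0 2 - b0 2 / b0 0 * (b0' 0 - b0' 0 / b0 0 * b0 0)) / κ =
        (b0' 2 - b0 2 / b0 0 * b0' 0) / κ
      congr 1
      field_simp
      ring
  have e1 : ∀ k, om1 κ b0 b1 b0' b1' k =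
      (pS κ b0 b1') k - b0' 0 / b0 0 * (scB1 κ b0 b1) k := by
    intro k
    fin_cases k
    · rfl
    · change (b1' 1 - b0' 0 / b0 0 * b1 1 - b0 1 / b0 0 * (b1' 0 - b0' 0 / b0 0 * b1 0)) / κ =
        (b1' 1 - b0 1 / b0 0 * b1' 0) / κ - b0' 0 / b0 0 * ((b1 1 - b0 1 / b0 0 * b1 0) / κ)
      ring
    · change (b1' 2 - b0' 0 / b0 0 * b1 2 - b0 2 / b0 0 * (b1' 0 - b0' 0 / b0 0 * b1 0)) / κ =
        (b1' 2 - b0 2 / b0 0 * b1' 0) / κ - b0' 0 / b0 0 * ((b1 2 - b0 2 / b0 0 * b1 0) / κ)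
      ring
  have eM : omM κ b0 G b0' G' = msub (scG κ b0 G') (scG κ b0 G) (b0' 0 / b0 0) := by
    unfold omM gM QF.comb msub scG shG
    congr 1 <;> ring
  refine OmB.of_le ?_ ?_ ?_
  · intro k
    rw [e0]
    fin_cases k
    · change |(0:ℝ)| ≤ A
      rw [abs_zero]; exact hA
    · exact hS.p1
    · exact hS.p2
  · intro k
    rw [e1 k]
    fin_cases k
    · exact hS.s0
    · exact hS.s1
    · exact hS.s2
  · rw [eM]; exact hS.M

/-- **V7, coefficient form**: `tg`, `th` small at three separated heights of the line -/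
theorem omB3 {b0 b1 b0' b1' : V3} {G G' : QF} (N : NrmC b0 b1 G) (hκ : 0 < kap b0 b1 G)
    {δ h ε : ℝ} (hδ : 0 < δ) (hδ1 : δ ≤ 1) (hh : 0 < h) (hh1 : h ≤ 1) (hε : 0 ≤ ε)
    (htw : δ * kap b0 b1 G ≤ |shB1 b0 b1 1| ∨ δ * kap b0 b1 G ≤ |shB1 b0 b1 2|)
    {ζ : Fin 3 → ℝ} (hζ : ∀ i, 0 ≤ ζ i ∧ ζ i ≤ 1) (hd : ∀ i j, i ≠ j → h ≤ |ζ i - ζ j|)
    {J J' : Fin 3 → Jt} (hJ : ∀ i, XJ b0 b1 G (ζ i) (J i))
    (hJ' : ∀ i, XJ b0' b1' G' (ζ i) (J' i))
    (g1 : ∀ i, |Rk601.tg (J i) (J' i) 1| ≤ kap b0 b1 G * ε)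
    (g2 : ∀ i, |Rk601.tg (J i) (J' i) 2| ≤ kap b0 b1 G * ε)
    (h11 : ∀ i, |th (J i) (J' i) 1 1| ≤ kap b0 b1 G * ε)
    (h12 : ∀ i, |th (J i) (J' i) 1 2| ≤ kap b0 b1 G * ε)
    (h22 : ∀ i, |th (J i) (J' i) 2 2| ≤ kap b0 b1 G * ε) :
    OmB (kap b0 b1 G) (13 * 10 ^ 9 * ε / (h ^ 4 * δ ^ 3)) (13 * 10 ^ 9 * ε / (h ^ 4 * δ ^ 3))
      (13 * 10 ^ 9 * ε / (h ^ 4 * δ ^ 3)) b0 b1 G b0' b1' G' := by
  obtain ⟨g1', g2', -, -, g3, -, -, -, -⟩ := N.b1_le
  have hb0 : 0 < b0 0 := by linarith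
  have hb : b0 0 ≠ 0 := hb0.ne'
  set κ := kap b0 b1 G with hκd
  obtain ⟨c1, c2, c3, c4, c5, c6, c7, c8, c9, c10⟩ := N.sc_le hκ
  have a0 : |(0 : ℝ)| ≤ 1 := by norm_num
  have hn : ∀ x : ℝ, 0 ≤ x → x ≤ 1 → 1 / 2 ≤ b0 0 + x * b1 0 ∧ b0 0 + x * b1 0 ≤ 2 := by
    intro x hx hx1
    have := N.st x hx hx1 0 0 0 a0 a0 a0
    simpa using this
  have hn' : ∀ x : ℝ, 0 ≤ x → x ≤ 1 → 1 / 2 ≤ (shB0 b0) 0 + x * (scB1 κ b0 b1) 0 ∧
      (shB0 b0) 0 + x * (scB1 κ b0 b1) 0 ≤ 2 := hn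
  have hG : (scG κ b0 G).Le 13 :=
    ⟨c5, c6.trans (by norm_num), c7.trans (by norm_num), c8.trans (by norm_num),
      c9.trans (by norm_num), c10.trans (by norm_num)⟩
  have hr1 : δ ≤ |(scB1 κ b0 b1) 1| ∨ δ ≤ |(scB1 κ b0 b1) 2| := by
    rcases htw with h | h
    · left
      change δ ≤ |shB1 b0 b1 1 / κ|
      rw [abs_div, abs_of_pos hκ, le_div_iff₀ hκ]; exact h
    · right
      change δ ≤ |shB1 b0 b1 2 / κ|
      rw [abs_div, abs_of_pos hκ, le_div_iff₀ hκ]; exact h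
  have key := jet3 (n := shB0 b0) (r := scB1 κ b0 b1) (p := pS κ b0 b0') (s := pS κ b0 b1')
    (G := scG κ b0 G) (M := scG κ b0 G') (K := 13) (by norm_num) hδ hδ1 hh hh1 hε hn'
    (fun k => (c2 k).trans (by norm_num)) hG hr1 hζ hd
    (fun i => jet_of hb (by have := (hn (ζ i) (hζ i).1 (hζ i).2).1; linarith) hκ (hJ i) (hJ' i)
      (g1 i) (g2 i) (h11 i) (h12 i) (h22 i))
  have hA : 10 ^ 9 * 13 * ε / (h ^ 4 * δ ^ 3) = 13 * 10 ^ 9 * ε / (h ^ 4 * δ ^ 3) := by ring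
  rw [hA] at key
  exact omB_of_small hb key (by positivity)

end Crest.Agent.R136.Jet818
end

-- ▼ part R136/V7_818
section

/-!
# R136, PLAN 2 (3), leaf V7 in the letters of record (helper818)

* `xj_of` : the jet of `AlD_601` in terms of the expansion along the line.
* `v7_false` : three separated heights of one line which are both `¬ Nd` and `Sm` contradict `far`.
* `v7_card` : counting form.
-/

set_option autoImplicit false
set_option linter.unusedVariables false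
set_option linter.unusedSimpArgs false

open Finset

namespace Crest.Agent.R136.V7818

open Crest.Agent.R136.Sh605 Crest.Agent.R136.Tl102 Crest.Agent.R136.Rk601
open Crest.Agent.R136.Jet818
open Crest.Agent.R136.K4 (Plk4)
open Crest.Agent.R136.Tlt51 (Shp InP CompC)
open Crest.Agent.R136.Deep51 (CloseC)
open Crest.Agent.R136.KapP335 (kapP DetP)
open Crest.Agent.R136.Hcp208 (Al compC_al)
open Crest.Agent.R136.AlD601 (jS jt jt_jet Nd Sm not_Nd)
open Crest.Agent.R136.Gbx862 (zj)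

/-- scaled jet -/
def sc (c : ℝ) (J : Jt) : Jt where
  a0 := c * J.a0
  a := fun i => c * J.a i
  h00 := c * J.h00
  h0 := fun i => c * J.h0 i
  h := fun i j => c * J.h i j

theorem sl_sc {c : ℝ} (hc : c ≠ 0) (J : Jt) : sl (sc c J) = sl J := by
  funext i
  simp only [sl, sc]
  rw [← mul_neg, mul_div_mul_left _ _ hc]

theorem tg_sc {c : ℝ} (hc : c ≠ 0) (J J' : Jt) (i : Fin 3) :
    Rk601.tg (sc c J) (sc c J') i = c * Rk601.tg J J' i := by
  simp only [Rk601.tg, sc]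
  rw [mul_div_mul_left _ _ hc]
  ring

theorem th_sc {c : ℝ} (hc : c ≠ 0) (J J' : Jt) (i j : Fin 3) :
    th (sc c J) (sc c J') i j = c * th J J' i j := by
  simp only [th, sl_sc hc]
  simp only [lf, sc]
  rw [mul_div_mul_left _ _ hc]
  ring

/-- the jet at a point of the line in terms of the expansion along the line -/
theorem xj_of {q : ℝ → V3 → ℝ} {e : Fin 3 → V3} {w : V3} {T : Ln4} {z0 ρ : ℝ} {b0 b1 : V3} {G : QF}
    (hE : IsExp q e w T z0 ρ b0 b1 G) (hw : w 0 ≠ 0) {V : V3} {ζ : ℝ} {J : Jt}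
    (hJ : JetAt q (fr e w) V (z0 + ρ * ζ) (T.pos (z0 + ρ * ζ)) ρ J) (hs : J.Sym) :
    XJ b0 b1 G ζ (sc (1 / w 0) J) := by
  have key : ∀ y u v : ℝ, w 0 * Fq b0 b1 G ζ ![y, u, v] =
      J.a0 * y + (J.a 1 * u + J.a 2 * v) +
        1 / 2 * (J.h00 * y ^ 2 + 2 * y * (J.h0 1 * u + J.h0 2 * v) +
          (J.h 1 1 * u ^ 2 + 2 * J.h 1 2 * (u * v) + J.h 2 2 * v ^ 2)) := by
    intro y u v
    have h1 := hJ y 0 u v
    have h2 := hE ζ ![y, u, v]
    have s := hs 2 1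
    simp only [mul_zero, add_zero, zero_smul] at h1
    rw [h1] at h2
    simp only [dp, qf, Fin.sum_univ_three, Matrix.cons_val] at h2
    rw [s] at h2
    linarith
  have k1 := key 1 0 0
  have k2 := key (-1) 0 0
  have k3 := key 0 1 0
  have k4 := key 0 (-1) 0
  have k5 := key 0 0 1
  have k6 := key 0 0 (-1)
  have k7 := key 1 1 0
  have k8 := key 1 0 1
  have k9 := key 0 1 1
  simp only [Fq, dt, bz, QF.ev, Matrix.cons_val] at k1 k2 k3 k4 k5 k6 k7 k8 k9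
  have fin : ∀ x y : ℝ, y = w 0 * x → 1 / w 0 * y = x := by
    intro x y h
    rw [h]; field_simp
  refine ⟨fin _ _ ?_, fin _ _ ?_, fin _ _ ?_, fin _ _ ?_, fin _ _ ?_, fin _ _ ?_, fin _ _ ?_,
    fin _ _ ?_, fin _ _ ?_⟩ <;> linarith

/-- constant -/
def cV : ℝ := 10 ^ 40

set_option maxHeartbeats 1000000 in
/-- **V7** -/
theorem v7_false {K E a w1 w2 z0 ρ r : ℝ} {S S' : Plk4} {T : Ln4}
    (A : Al K E a w1 w2 z0 ρ r S S' T) {H : ℕ} (hH : 0 < H) {h k : ℝ} (hh : 0 < h) (hh1 : h ≤ 1)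
    (hk : 0 ≤ k) {j : Fin 3 → ℕ} (hj : ∀ i, j i ≤ H)
    (hd : ∀ i i', i ≠ i' → h * (H : ℝ) ≤ |(j i : ℝ) - (j i' : ℝ)|)
    (ht : ∀ i m, |Rk601.tg (jS S S.q z0 ρ H (j i) T) (jS S S'.q z0 ρ H (j i) T) m| ≤ k * (E * a))
    (hsm : ∀ i, Sm S S'.q z0 ρ H (j i) T k (E * a))
    (hbig : 10 ^ 3 * K ^ 5 ≤ E) (hsmall : cV * K ^ 30 * k ≤ h ^ 4) : False := by
  have hK := A.K1
  have hK0 : 0 < K := by linarith
  have ha := A.a0
  have hr := A.r0
  have hρ := A.ρ0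
  have hw0 : 0 < S.w 0 := hr.trans_le (A.sh.r0_le.trans A.sh.a_le0)
  have hw2 : 0 < S.w 2 := hw0.trans_le A.sh.w0_le
  have hw0' : 0 < S'.w 0 := hr.trans_le (A.sh'.r0_le.trans A.sh'.a_le0)
  have hHr : (0:ℝ) < H := by exact_mod_cast hH
  have P := StP.of_shN A.sh hw0
  have P' := StP.of_shN A.sh' hw0'
  have hE0 : 0 < E := by
    have : 0 < 10 ^ 3 * K ^ 5 := by positivity
    linarith
  have hEa : 0 < E * a := mul_pos hE0 ha
  have hkp : 0 < kapP S z0 ρ T := by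
    by_contra hc
    push Not at hc
    have h1 := A.cur
    have := mul_nonpos_of_nonneg_of_nonpos hK0.le hc
    linarith
  obtain ⟨b0, b1, G, hE, hκ, htw, hkk⟩ := Lgt989.exp_of_detP A.sh hr hρ A.mem A.det hkp
  obtain ⟨b0', b1', G', hE'⟩ := exists_isExp P'.isQ S.e hw0.ne' T z0 ρ
  obtain ⟨d0, d1, HH, hH'⟩ := exists_isExp P'.isQ S'.e hw0'.ne' T z0 ρ
  have hC := compC_al A
  have D : Two S.e S.c S.w S.q S'.e S'.c S'.w S'.q T z0 ρ S.a S'.a b0 b1 G b0' b1' G' d0 d1 HH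
      (K ^ 2) (K ^ 3) :=
    { S := P
      S' := P'
      hρ := hρ.le
      hT := A.mem
      hT' := A.mem'
      hE := hE
      hE' := hE'
      hH := hH'
      w02 := A.sh.w0_le
      w21 := A.sh.w_le
      w02' := A.sh'.w0_le
      w21' := A.sh'.w_le
      B1 := one_le_pow₀ hK
      lam1 := one_le_pow₀ hK
      wB1 := (hC.w 1 (by decide)).2
      wB2 := (hC.w 2 (by decide)).2
      wB1' := (hC.w 1 (by decide)).1
      wB2' := (hC.w 2 (by decide)).1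
      tilt := hC.g' 2 (by decide)
      tilt' := by rw [dt_comm]; exact hC.g 2 (by decide) }
  have N := D.nrm
  have hκ13 : kap b0 b1 G ≤ 13 := Tl102.kap_le N
  set κ := kap b0 b1 G with hκd
  have hv0 : 0 < S.w 0 * κ := mul_pos hw0 hκ
  -- the turning
  set δ : ℝ := K⁻¹ / 2 with hδd
  have hKi : 0 < K⁻¹ := inv_pos.2 hK0
  have hKi1 : K⁻¹ ≤ 1 := inv_le_one_of_one_le₀ hK
  have hδ : 0 < δ := by positivity
  have hδ1 : δ ≤ 1 := by rw [hδd]; linarith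
  have htw' : δ * κ ≤ |shB1 b0 b1 1| ∨ δ * κ ≤ |shB1 b0 b1 2| := by
    by_contra hc
    push Not at hc
    obtain ⟨c1, c2⟩ := hc
    have e1 : shB1 b0 b1 1 ^ 2 < (δ * κ) ^ 2 := by
      rw [← sq_abs]; exact pow_lt_pow_left₀ c1 (abs_nonneg _) two_ne_zero
    have e2 : shB1 b0 b1 2 ^ 2 < (δ * κ) ^ 2 := by
      rw [← sq_abs]; exact pow_lt_pow_left₀ c2 (abs_nonneg _) two_ne_zero
    have e3 : (δ * κ) ^ 2 ≤ K⁻¹ / 4 * κ ^ 2 := by
      rw [hδd]
      have h1 : K⁻¹ * K⁻¹ ≤ K⁻¹ := mul_le_of_le_one_right hKi.le hKi1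
      have h2 : (K⁻¹ / 2 * κ) ^ 2 = K⁻¹ * K⁻¹ / 4 * κ ^ 2 := by ring
      rw [h2]
      exact mul_le_mul_of_nonneg_right (by linarith) (sq_nonneg κ)
    have h4 : 0 < K⁻¹ * κ ^ 2 := by positivity
    linarith
  -- heights
  set ζ : Fin 3 → ℝ := fun i => (j i : ℝ) / H with hζd
  have hζ : ∀ i, 0 ≤ ζ i ∧ ζ i ≤ 1 := by
    intro i
    refine ⟨by positivity, ?_⟩
    rw [hζd]; dsimp only
    rw [div_le_one hHr]; exact_mod_cast hj i
  have hζs : ∀ i i', i ≠ i' → h ≤ |ζ i - ζ i'| := by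
    intro i i' hi
    have h1 := hd i i' hi
    rw [hζd]; dsimp only
    rw [← sub_div, abs_div, abs_of_pos hHr, le_div_iff₀ hHr]
    exact h1
  -- the jets
  set s : ℝ := k * (E * a) with hsd
  have hs0 : 0 ≤ s := by positivity
  set ε : ℝ := s / (S.w 0 * κ) with hεd
  have hε : 0 ≤ ε := by positivity
  have hκε : κ * ε = 1 / S.w 0 * s := by
    rw [hεd]; field_simp
  have hc : 1 / S.w 0 ≠ 0 := by positivity
  have hc0 : 0 < 1 / S.w 0 := by positivity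
  have hab : ∀ x : ℝ, |x| ≤ s → |1 / S.w 0 * x| ≤ κ * ε := by
    intro x hx
    rw [hκε, abs_mul, abs_of_pos hc0]
    exact mul_le_mul_of_nonneg_left hx hc0.le
  have J1 : ∀ i, XJ b0 b1 G (ζ i) (sc (1 / S.w 0) (jS S S.q z0 ρ H (j i) T)) := fun i =>
    xj_of hE hw0.ne' (jt_jet P.isQ _ _ _ _ _).1 (jt_jet P.isQ _ _ _ _ _).2
  have J2 : ∀ i, XJ b0' b1' G' (ζ i) (sc (1 / S.w 0) (jS S S'.q z0 ρ H (j i) T)) := fun i =>
    xj_of hE' hw0.ne' (jt_jet P'.isQ _ _ _ _ _).1 (jt_jet P'.isQ _ _ _ _ _).2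
  have O := omB3 N hκ hδ hδ1 hh hh1 hε htw' hζ hζs J1 J2
    (fun i => by rw [tg_sc hc]; exact hab _ (ht i 1))
    (fun i => by rw [tg_sc hc]; exact hab _ (ht i 2))
    (fun i => by rw [th_sc hc]; exact hab _ (hsm i 1 1))
    (fun i => by rw [th_sc hc]; exact hab _ (hsm i 1 2))
    (fun i => by rw [th_sc hc]; exact hab _ (hsm i 2 2))
  set X : ℝ := 13 * 10 ^ 9 * ε / (h ^ 4 * δ ^ 3) with hX
  -- numbers
  have hXv : X * (S.w 0 * κ) = 104 * 10 ^ 9 * K ^ 3 * k / h ^ 4 * (E * a) := by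
    have h1 : K⁻¹ * K = 1 := inv_mul_cancel₀ hK0.ne'
    rw [hX, hεd, hsd, hδd]
    field_simp
    ring
  set Λ : ℝ := X * (S.w 0 * κ) with hΛ
  have hh4 : 0 < h ^ 4 := by positivity
  have hkh : k * K ^ 30 / h ^ 4 ≤ 1 / cV := by
    rw [div_le_div_iff₀ hh4 (by unfold cV; positivity)]
    linarith
  have hΛ0 : 0 ≤ Λ := by rw [hXv]; positivity
  have hΛle : ∀ n : ℕ, n ≤ 27 → K ^ n * Λ ≤ 1 / (9 * 10 ^ 28) * (E * a) := by
    intro n hn
    have h1 : K ^ n * K ^ 3 ≤ K ^ 30 := by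
      rw [← pow_add]; exact pow_le_pow_right₀ hK (by omega)
    have h2 : K ^ n * (104 * 10 ^ 9 * K ^ 3 * k / h ^ 4) ≤ 1 / (9 * 10 ^ 28) := by
      calc K ^ n * (104 * 10 ^ 9 * K ^ 3 * k / h ^ 4) =
            104 * 10 ^ 9 * (k * (K ^ n * K ^ 3) / h ^ 4) := by ring
        _ ≤ 104 * 10 ^ 9 * (k * K ^ 30 / h ^ 4) := by
            refine mul_le_mul_of_nonneg_left ?_ (by positivity)
            exact div_le_div_of_nonneg_right (mul_le_mul_of_nonneg_left h1 hk) hh4.le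
        _ ≤ 104 * 10 ^ 9 * (1 / cV) := mul_le_mul_of_nonneg_left hkh (by positivity)
        _ ≤ _ := by unfold cV; norm_num
    rw [hXv]
    calc K ^ n * (104 * 10 ^ 9 * K ^ 3 * k / h ^ 4 * (E * a)) =
          K ^ n * (104 * 10 ^ 9 * K ^ 3 * k / h ^ 4) * (E * a) := by ring
      _ ≤ _ := mul_le_mul_of_nonneg_right h2 hEa.le
  have L0 := hΛle 0 (by norm_num)
  have L1 := hΛle 1 (by norm_num)
  have L20 := hΛle 20 (by norm_num)
  rw [pow_zero, one_mul] at L0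
  rw [pow_one] at L1
  have hKa : 10 ^ 3 * (K * (K * a)) ≤ E * a := by
    have h5 : K * K ≤ K ^ 5 := by
      have : K ^ 5 = K * K * K ^ 3 := by ring
      rw [this]
      have h3 : 1 ≤ K ^ 3 := one_le_pow₀ hK
      exact le_mul_of_one_le_right (by positivity) h3
    have : 10 ^ 3 * (K * K) ≤ E := by linarith
    have := mul_le_mul_of_nonneg_right this ha.le
    linarith
  have hKa1 : 10 ^ 3 * (K * a) ≤ E * a := by
    have : K * a ≤ K * (K * a) := le_mul_of_one_le_left (by positivity) hK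
    linarith
  have aS : S.a ≤ K * a := A.dim.1.2
  have aS' : S'.a ≤ K * a := A.dim'.1.2
  have aS0 : 0 ≤ S.a := by have := A.sh.r0_le; linarith
  have cur : E * a ≤ K * (S.w 0 * κ) := by rw [← hkk]; exact A.cur
  have hva : 10 ^ 3 * (K * a) ≤ S.w 0 * κ := by
    have h1 : K * (10 ^ 3 * (K * a)) ≤ K * (S.w 0 * κ) := by linarith
    exact le_of_mul_le_mul_left h1 hK0
  have hX1 : X ≤ 1 := by
    have h1 : K * Λ ≤ 1 * (K * (S.w 0 * κ)) := by
      have : 1 / (9 * 10 ^ 28) * (E * a) ≤ 1 * (E * a) :=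
        mul_le_mul_of_nonneg_right (by norm_num) hEa.le
      linarith
    have h2 : K * (X * (S.w 0 * κ)) ≤ K * (1 * (S.w 0 * κ)) := by
      rw [← hΛ]; linarith
    exact le_of_mul_le_mul_right (le_of_mul_le_mul_left h2 hK0) hv0
  have hX8 : 8 * (X * (S.w 0 * κ)) ≤ S.w 2 := by
    rw [← hΛ]
    have h1 : S.w 0 * κ ≤ S.w 2 * 13 := mul_le_mul A.sh.w0_le hκ13 hκ.le hw2.le
    have h2 : K * (S.w 0 * κ) ≤ K * (S.w 2 * 13) := mul_le_mul_of_nonneg_left h1 hK0.le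
    have h3 : K * (8 * Λ) ≤ K * S.w 2 := by
      have : 0 < K * S.w 2 := by positivity
      have e : K * (S.w 2 * 13) = 13 * (K * S.w 2) := by ring
      rw [e] at h2
      have e4 : K * (8 * Λ) = 8 * (K * Λ) := by ring
      rw [e4]
      norm_num at L1
      linarith
    exact le_of_mul_le_mul_left h3 hK0
  refine A.far ⟨?_, ?_⟩
  · refine D.closeC hρ hκ le_rfl O (le_of_eq hΛ.symm) ?_ ?_
    · linarith
    · norm_num at L0
      linarith
  · refine D.closeC' hρ hκ le_rfl hκ13 O hX8 hX1 (le_of_eq hΛ.symm) ?_ ?_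
    · linarith
    · have e : a + 16 * (2 * a + 11 * (10 ^ 11 * (K ^ 2 * K ^ 3) ^ 2) ^ 2 * Λ) =
          33 * a + 176 * 10 ^ 22 * (K ^ 20 * Λ) := by ring
      have e' : S.a + 16 * (2 * S'.a + 11 * (10 ^ 11 * (K ^ 2 * K ^ 3) ^ 2) ^ 2 * Λ) =
          S.a + 32 * S'.a + 176 * 10 ^ 22 * (K ^ 20 * Λ) := by ring
      rw [e']
      norm_num at L20 ⊢
      linarith

end Crest.Agent.R136.V7818
end

-- ▼ part R136/V7b_818

/-!
# R136, PLAN 2 (AL), `LeafV7` (helper818)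
-/

set_option autoImplicit false
set_option linter.unusedVariables false

open Finset

namespace Crest.Agent.R136.V7818

open Crest.Agent.R136.Sh605
open Crest.Agent.R136.K4 (Plk4)
open Crest.Agent.R136.Hcp208 (Al)
open Crest.Agent.R136.AlD601 (jS Nd Sm not_Nd)
open Crest.Agent.R136.Al500 (Cf LeafV7)

/-- the record `Al` from the configuration -/
theorem al_of_cf {qm qp : Fin 3 → ℝ} {L : ℕ → Ln4} {P : Finset ℕ} {cu cv : ℕ → ℕ}
    {Uf Vf : ℕ → Plk4} {W B M a w1 w2 z0 ρ zL ρL r κ E : ℝ} {H : ℕ}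
    (h : Cf qm qp L P cu cv Uf Vf W B M a w1 w2 z0 ρ zL ρL r κ E H) {t : ℕ} (ht : t ∈ P) :
    Al W E a w1 w2 z0 ρ r (Uf (cu t)) (Vf (cv t)) (L t) where
  K1 := h.W1
  r0 := h.two.to1.r0
  ρ0 := h.two.to1.ρ0
  a0 := h.two.to1.a0
  sh := h.two.to1.shU t ht
  sh' := h.two.to1.shV t ht
  mem := h.two.to1.inU t ht
  mem' := h.two.to1.inV t ht
  dim := h.dmU t ht
  dim' := h.dmV t ht
  ang := h.ang t ht
  cur := h.kE t ht
  det := h.detU t ht
  far := h.lo t ht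

/-- **V7** -/
theorem leafV7 : LeafV7 := by
  refine ⟨200, by norm_num, ?_⟩
  intro qm qp L P cu cv Uf Vf W B M a w1 w2 z0 ρ zL ρL r κ E H h _ hBH l m k hl hm hk hlk
    t ht i0 i1 i2 hi2 h01 h12 hall
  have hW := h.W1
  have hWB := h.WB
  have hB : 1 ≤ B := hW.trans hWB
  have hHr : (0:ℝ) < H := by
    have : 0 < H := by omega
    exact_mod_cast this
  have hH : 0 < H := by exact_mod_cast hHr
  have a0 := h.two.to1.a0
  have hEa : 0 ≤ E * a := mul_nonneg (by linarith [h.E1]) a0.le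
  have e200 : (200 * B) ^ (200:ℝ) = (200 * B) ^ 200 := by
    rw [show (200:ℝ) = ((200:ℕ) : ℝ) by norm_num, Real.rpow_natCast]
  rw [e200] at hBH hlk
  have hb1 : (1:ℝ) ≤ 200 * B := by linarith
  have hp : ∀ n : ℕ, n ≤ 200 → (200:ℝ) ^ n * W ^ n ≤ (200 * B) ^ 200 := by
    intro n hn
    calc (200:ℝ) ^ n * W ^ n = (200 * W) ^ n := by rw [mul_pow]
      _ ≤ (200 * B) ^ n := pow_le_pow_left₀ (by linarith) (by linarith) n
      _ ≤ _ := pow_le_pow_right₀ hb1 hn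
  have hW5 : 0 ≤ W ^ 5 := by positivity
  have hW30 : 0 ≤ W ^ 30 := by positivity
  have hbig : 10 ^ 3 * W ^ 5 ≤ E := by
    have h1 := hp 5 (by norm_num)
    have h2 := h.HE
    norm_num at h1
    linarith
  have hlk0 : 0 ≤ l + k := by linarith
  have hsmall : cV * W ^ 30 * (l + k) ≤ (1 / 256 : ℝ) ^ 4 := by
    have h1 := mul_le_mul_of_nonneg_right (hp 30 (by norm_num)) hlk0
    have h2 : 0 ≤ W ^ 30 * (l + k) := by positivity
    have h3 : (200:ℝ) ^ 30 * (W ^ 30 * (l + k)) ≤ 1 := by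
      calc (200:ℝ) ^ 30 * (W ^ 30 * (l + k)) = 200 ^ 30 * W ^ 30 * (l + k) := by ring
        _ ≤ _ := h1
        _ ≤ 1 := hlk
    unfold cV
    have h4 : (10:ℝ) ^ 40 * 256 ^ 4 * (W ^ 30 * (l + k)) ≤ 200 ^ 30 * (W ^ 30 * (l + k)) :=
      mul_le_mul_of_nonneg_right (by norm_num) h2
    have h5 : (1 / 256 : ℝ) ^ 4 * 256 ^ 4 = 1 := by norm_num
    have h6 : (0:ℝ) < 256 ^ 4 := by norm_num
    refine le_of_mul_le_mul_right ?_ h6
    rw [h5]
    calc (10:ℝ) ^ 40 * W ^ 30 * (l + k) * 256 ^ 4 = 10 ^ 40 * 256 ^ 4 * (W ^ 30 * (l + k)) := by ring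
      _ ≤ _ := h4
      _ ≤ 1 := h3
  have g01 : (i0 : ℝ) + 1 / 256 * H ≤ i1 := by
    have := mul_le_mul_of_nonneg_right h01 hHr.le
    rw [add_mul, div_mul_cancel₀ _ hHr.ne', div_mul_cancel₀ _ hHr.ne'] at this
    exact this
  have g12 : (i1 : ℝ) + 1 / 256 * H ≤ i2 := by
    have := mul_le_mul_of_nonneg_right h12 hHr.le
    rw [add_mul, div_mul_cancel₀ _ hHr.ne', div_mul_cancel₀ _ hHr.ne'] at this
    exact this
  have l01 : i0 ≤ i1 := by
    have : (i0 : ℝ) ≤ i1 := by linarith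
    exact_mod_cast this
  have l12 : i1 ≤ i2 := by
    have : (i1 : ℝ) ≤ i2 := by linarith
    exact_mod_cast this
  have d01 : 1 / 256 * (H : ℝ) ≤ |(i0 : ℝ) - i1| := by
    rw [abs_sub_comm]; exact le_trans (by linarith) (le_abs_self _)
  have d12 : 1 / 256 * (H : ℝ) ≤ |(i1 : ℝ) - i2| := by
    rw [abs_sub_comm]; exact le_trans (by linarith) (le_abs_self _)
  have d02 : 1 / 256 * (H : ℝ) ≤ |(i0 : ℝ) - i2| := by
    rw [abs_sub_comm]; exact le_trans (by linarith) (le_abs_self _)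
  have d10 := d01; rw [abs_sub_comm] at d10
  have d21 := d12; rw [abs_sub_comm] at d21
  have d20 := d02; rw [abs_sub_comm] at d20
  set j : Fin 3 → ℕ := ![i0, i1, i2] with hj
  have hja : ∀ i, j i = i0 ∨ j i = i1 ∨ j i = i2 := by
    intro i
    fin_cases i
    · exact Or.inl rfl
    · exact Or.inr (Or.inl rfl)
    · exact Or.inr (Or.inr rfl)
  refine v7_false (al_of_cf h ht) hH (h := 1 / 256) (by norm_num) (by norm_num) hlk0 (j := j)
    ?_ ?_ ?_ ?_ hbig hsmall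
  · intro i
    rcases hja i with h1 | h1 | h1 <;> rw [h1] <;> omega
  · intro i i' hi
    fin_cases i <;> fin_cases i'
    · exact absurd rfl hi
    · exact d01
    · exact d02
    · exact d10
    · exact absurd rfl hi
    · exact d12
    · exact d20
    · exact d21
    · exact absurd rfl hi
  · intro i m'
    have h1 := (not_Nd.1 (hall (j i) (hja i)).1).1 m'
    exact h1.trans (mul_le_mul_of_nonneg_right (by linarith) hEa)
  · intro i m' m''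
    have h1 := (hall (j i) (hja i)).2 m' m''
    exact h1.trans (mul_le_mul_of_nonneg_right (by linarith) hEa)

end Crest.Agent.R136.V7818
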