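import Crest.Agent.R136.AlX_500
import Crest.Agent.R138.KMs_630
import Crest.Agent.R136.LWd_467
import Crest.Agent.R136.Sln_296
import Crest.Agent.R136.Dvb_296
import Crest.Agent.R136.V7b_818_Mg
import Crest.Agent.R136.Clb0_208
import Crest.Agent.R136.Pl2C_860
import Crest.Agent.R136.Kpc_104
import Crest.Agent.R136.HulD_412
import Crest.Agent.R136.Amx3_325
import Crest.Agent.R136.Fh1_792
import Crest.Agent.R136.Alr_877
import Crest.Agent.R136.Mlt2_89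
import Crest.Agent.R136.Mdr1_535
import Crest.Agent.R136.Lnk3_989
import Crest.Agent.R136.Mdr2_535
import Crest.Agent.R136.Clu_108
import Crest.Agent.R136.Lnk1_989
import Crest.Agent.R136.Lkp_140

-- ▼ part R136/Aly_500
section

/-!
# R136 (S0187), PLAN 2 (AL), balanced case: `AlkFalse` from the six leaves (helper500)
-/

set_option autoImplicit false

namespace Crest.Agent.R136.Al500

/-- `KM32` plugged in -/
theorem alkFalse_of' (l1 : LeafPL) (l2 : LeafHull) (l3 : LeafNd) (l4 : LeafWedge) (l5 : LeafV7)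
    (l6 : LeafV6) : Cfo877.AlkFalse :=
  alkFalse_of Crest.Agent.R138.KMs630.km32 l1 l2 l3 l4 l5 l6


end Crest.Agent.R136.Al500
end

-- ▼ part R136/LWe_467
section

/-!
# R136 (S0187), PLAN 2 (AL), leaf of record `LeafWedge` (helper467)

`leafWedge : Al500.LeafWedge`, no hypotheses.
-/

set_option autoImplicit false

namespace Crest.Agent.R136.Gen467

open Crest.Agent.R136.Sh605
open Crest.Agent.R136.Tl102 (StP)

/-- **`LeafWedge`** -/
theorem leafWedge : Al500.LeafWedge := by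
  refine wedge_core (K0 := 10 ^ 13 * Adj214.KD) ?_ ?_
  · intro S q' T z0 ρ r s H j hr hρ hS hT hk hq hC hj i j'
    exact (Wdg296.dv_of hS (hr.trans_le hS.r0_le) hρ.le hT hk hq hC hj.le).th i j'
  · intro S S' T z0 ρ r l m s H j hr hρ hS hS' hT hT' hj hNd hls
    have w0 : 0 < S.w 0 := hr.trans_le (hS.r0_le.trans hS.a_le0)
    have w0' : 0 < S'.w 0 := hr.trans_le (hS'.r0_le.trans hS'.a_le0)
    obtain ⟨c1, -, c3⟩ := Wdg296.slopes_of_not_Nd (StP.of_shN hS w0) (StP.of_shN hS' w0') hρ.le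
      hj.le hS.w0_le hS.w_le hS'.w0_le hS'.w_le hT hT' hNd hls
    exact ⟨c1, c3⟩

end Crest.Agent.R136.Gen467
end

-- ▼ part R136/Alz_500
section

/-!
# R136 (S0187), PLAN 2 (AL), balanced case: the proved leaves plugged (helper500)
-/

set_option autoImplicit false

namespace Crest.Agent.R136.Al500

/-- **`AlkFalse` from the three open leaves** -/
theorem alkFalse_of3 (l2 : LeafHull) (l3 : LeafNd) (l6 : LeafV6) : Cfo877.AlkFalse :=
  alkFalse_of' Plx571.leafPL l2 l3 Gen467.leafWedge V7818.leafV7 l6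

/-- **`AlCore` from the three open leaves** -/
theorem alCore_of3 (l2 : LeafHull) (l3 : LeafNd) (l6 : LeafV6) : Alr877.AlCore :=
  Cfo877.alCore_of (alkFalse_of3 l2 l3 l6)

end Crest.Agent.R136.Al500
end

-- ▼ part R136/Clb_208
section

/-!
# R136 (S0187), PLAN 2, alignment: from `S'` close to `S` to `S` close to `S'` (helper208)

`close_back` : balanced curvatures, `S'` close to `S` up to `K kp S` and aligned hull frames give
`S` close to `S'` up to `(2K)^C kp S`.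
-/

set_option autoImplicit false
set_option linter.unusedVariables false

open Finset

namespace Crest.Agent.R136.Clb208

open Crest.Agent.R136.Sh605 Crest.Agent.R136.Pl2
open Crest.Agent.R136.K4 (Plk4)
open Crest.Agent.R136.Tlt51 (Shp InP)
open Crest.Agent.R136.Deep51 (CloseC dt_exp)
open Crest.Agent.R136.KapP335 (kapP kapP_eq)
open Crest.Agent.R136.Tl102
open Crest.Agent.R136.Pl2W102 (Near)

set_option maxHeartbeats 1000000 in
/-- **from `S'` close to `S` to `S` close to `S'`** (balanced curvatures) -/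
theorem close_back : ∃ C : ℝ, 0 ≤ C ∧ ∀ (K a w1 w2 z0 ρ r : ℝ) (S S' : Plk4) (T : Ln4),
    1 ≤ K → 0 < r → 0 < ρ → Shp S z0 ρ r → Shp S' z0 ρ r → InP T S z0 ρ → InP T S' z0 ρ →
    Near K w1 (S.w 1) → Near K w2 (S.w 2) → Near K w1 (S'.w 1) → Near K w2 (S'.w 2) →
    10 ^ 5 * K * S'.a ≤ kp S z0 ρ T → kp S' z0 ρ T ≤ K * kp S z0 ρ T →
    kp S z0 ρ T ≤ K * kp S' z0 ρ T → Al1 K S S' T a w1 w2 z0 ρ →
    CloseC S.e S.w S.q S.a S'.q ((2 * K) ^ C * kp S z0 ρ T) T z0 ρ := by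
  refine ⟨40, by norm_num, ?_⟩
  intro K a w1 w2 z0 ρ r S S' T hK hr hρ hS hS' hT hT' m1 m2 n1 n2 ha hY' hY hA
  obtain ⟨hang, -, f, g, hf, -, hg, t1, t2, -, -⟩ := hA
  have hK0 : 0 < K := by linarith
  have p0 : 0 < S.w 0 := hr.trans_le (hS.r0_le.trans hS.a_le0)
  have q0 : 0 < S'.w 0 := hr.trans_le (hS'.r0_le.trans hS'.a_le0)
  have P := StP.of_shN hS p0
  have Q := StP.of_shN hS' q0
  have qw1 : 0 < S'.w 1 := Q.pos 1
  have qw2 : 0 < S'.w 2 := Q.pos 2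
  have hw1 : 0 < w1 := by
    have h := n1.2
    by_contra hc
    push Not at hc
    nlinarith
  have hw2 : 0 < w2 := by
    have h := n2.2
    by_contra hc
    push Not at hc
    nlinarith
  obtain ⟨b0, b1, G, hE⟩ := exists_isExp hS'.isQ S'.e q0.ne' T z0 ρ
  have N := hE.nrmC Q hρ.le (fun z h0 h1 => (hT' z h0 h1).1)
  have hkap : kp S' z0 ρ T = S'.w 0 * kap b0 b1 G := kapP_eq q0.ne' hE
  have hκ13 := kap_le N
  have hκ0 := kap_nonneg b0 b1 G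
  obtain ⟨d1, d2⟩ := slopes hK hr hρ hS' hT' hw1 hw2 n1 n2 ha hY hY' hf.ortho hg t1 t2 hE
  set Y := kp S z0 ρ T with hYd
  have ha0 : 0 < S'.a := hr.trans_le hS'.r0_le
  have hY0 : 0 < Y := by
    have : 0 < 10 ^ 5 * K * S'.a := by positivity
    linarith
  have haY : S'.a ≤ Y := by
    have : S'.a ≤ 10 ^ 5 * K * S'.a := by nlinarith
    linarith
  have hYw : Y ≤ 13 * K * S'.w 0 := by
    rw [hkap] at hY
    have : K * (S'.w 0 * kap b0 b1 G) ≤ K * (S'.w 0 * 13) :=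
      mul_le_mul_of_nonneg_left (mul_le_mul_of_nonneg_left hκ13 q0.le) hK0.le
    linarith
  obtain ⟨g1, g2, -, -, -, -, -, s1, s2⟩ := N.b1_le
  intro z hz0 hz1 x hx hxa
  set D : V3 := x - T.pos z with hD
  have hDb : ∀ i, |dt (S.e i) D| ≤ S.w i / 8 := hx
  obtain ⟨l1, l2, l0⟩ := lat hK hw1 hw2 hS.ortho hS'.ortho p0 hS.w0_le hS.w_le q0 hS'.w0_le
    hS'.w_le m1 m2 n1 n2 hang hDb
  have hf0 : |dt (f 0) D| ≤ K * Y := hf.pt T hT z hz0 hz1 x hx hxa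
  set X : V3 := fun k => dt (S'.e k) D / S'.w k with hX
  have hXD : cmb (fr S'.e S'.w) X = D := cmb_co hS'.ortho Q.pos D
  have hX1 : |X 1| ≤ K ^ 2 / 2 := by
    change |dt (S'.e 1) D / S'.w 1| ≤ _
    rw [abs_div, abs_of_pos qw1, div_le_iff₀ qw1]; exact l1
  have hX2 : |X 2| ≤ K ^ 3 / 2 := by
    change |dt (S'.e 2) D / S'.w 2| ≤ _
    rw [abs_div, abs_of_pos qw2, div_le_iff₀ qw2]; exact l2
  have hX0 : S'.w 0 * |X 0| ≤ K ^ 3 / 2 * S'.w 2 := by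
    change S'.w 0 * |dt (S'.e 0) D / S'.w 0| ≤ _
    rw [abs_div, abs_of_pos q0, mul_div_cancel₀ _ q0.ne']; exact l0
  have k23 : K ^ 2 ≤ K ^ 3 := pow_le_pow_right₀ hK (by norm_num)
  have k13 : K ≤ K ^ 3 := by
    have : K ^ 1 ≤ K ^ 3 := pow_le_pow_right₀ hK (by norm_num)
    simpa using this
  have k03 : 1 ≤ K ^ 3 := one_le_pow₀ hK
  have k36 : K ^ 3 ≤ K ^ 6 := pow_le_pow_right₀ hK (by norm_num)
  have hm : |X 1| + |X 2| ≤ K ^ 3 := by linarith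
  set m := K ^ 3 with hmd
  have hm0 : 0 < m := by linarith
  set y := X 0 + b0 1 / b0 0 * X 1 + b0 2 / b0 0 * X 2 with hy
  have hyX : unsh b0 y (X 1) (X 2) = X := by
    rw [hy]
    ext i
    fin_cases i
    · change X 0 + b0 1 / b0 0 * X 1 + b0 2 / b0 0 * X 2 - b0 1 / b0 0 * X 1 -
        b0 2 / b0 0 * X 2 = X 0
      ring
    · rfl
    · rfl
  set δ1 := S'.w 1 * dt (f 0) (S'.e 1) - b0 1 / b0 0 * (S'.w 0 * dt (f 0) (S'.e 0)) with hδ1
  set δ2 := S'.w 2 * dt (f 0) (S'.e 2) - b0 2 / b0 0 * (S'.w 0 * dt (f 0) (S'.e 0)) with hδ2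
  have e1 : dt (f 0) D = S'.w 0 * y * dt (f 0) (S'.e 0) + (X 1 * δ1 + X 2 * δ2) := by
    conv_lhs => rw [← hXD]
    rw [dt_cmb', hδ1, hδ2, hy]
    ring
  -- the bound of the tangent coordinate
  have hyb : S'.w 0 * |y| ≤ 10000 * m ^ 2 * Y := by
    rcases le_or_gt (1 / 10) |dt (f 0) (S'.e 0)| with h | h
    · exact ybd1 hK k13 hY0.le q0 hm d1 d2 hf0 e1 h
    · exact ybd2 hm0.le hY0.le q0 hS'.w0_le hm s1 s2 hX0
        (small_w2 hf.ortho hS'.ortho q0 hS'.w0_le hS'.w_le s1 s2 d1 d2 h)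
  -- the value of the function
  set ζ := (z - z0) / ρ with hζ
  have hζz : z0 + ρ * ζ = z := by rw [hζ]; field_simp; ring
  have hζ0 : 0 ≤ ζ := div_nonneg (by linarith) hρ.le
  have hζ1 : ζ ≤ 1 := by rw [hζ, div_le_one hρ]; linarith
  have hq := hE ζ X
  rw [hζz, hXD] at hq
  have hxT : T.pos z + D = x := by rw [hD]; abel
  rw [hxT] at hq
  have hnear := fq_near N (y := y) hζ0 hζ1 hm
  rw [hyX] at hnear
  have hsl := N.st ζ hζ0 hζ1 0 0 0 (by norm_num) (by norm_num) (by norm_num)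
  simp only [mul_zero, add_zero] at hsl
  obtain ⟨hsl1, hsl2⟩ := hsl
  have hF : |Fq b0 b1 G ζ X| ≤ 2 * |y| + (kap b0 b1 G * (m + m ^ 2) + |y| * (|y| + 5 * m)) := by
    have c1 : |(b0 0 + ζ * b1 0) * y| ≤ 2 * |y| := by
      rw [abs_mul, abs_of_pos (by linarith)]
      exact mul_le_mul_of_nonneg_right hsl2 (abs_nonneg y)
    have c2 := abs_add_le (Fq b0 b1 G ζ X - (b0 0 + ζ * b1 0) * y) ((b0 0 + ζ * b1 0) * y)
    rw [sub_add_cancel] at c2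
    linarith
  have hqT : |S'.q z (T.pos z)| ≤ Y := (hT' z hz0 hz1).2.trans haY
  have hy1 : |y| ≤ 130000 * K * m ^ 2 := by
    have c1 : S'.w 0 * |y| ≤ S'.w 0 * (130000 * K * m ^ 2) := by
      have c2 := mul_le_mul_of_nonneg_left hYw (by positivity : 0 ≤ 10000 * m ^ 2)
      have c3 : 10000 * m ^ 2 * (13 * K * S'.w 0) = S'.w 0 * (130000 * K * m ^ 2) := by ring
      linarith
    exact le_of_mul_le_mul_left c1 q0
  have hkY : S'.w 0 * kap b0 b1 G ≤ K * Y := by rw [← hkap]; exact hY'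
  have hfin := numfin hK hmd hY0.le q0 hyb hy1 hkY hF hqT hq
  exact hfin.trans (mul_le_mul_of_nonneg_right (num K hK) hY0.le)

end Crest.Agent.R136.Clb208
end

-- ▼ part R136/Fsm_104
section

/-!
# R136 (S0187), PLAN 2: two hull frames of the same sheet are aligned (helper104)

* `exists_on` : a sheet has a point over `T + s w_k e_k`, `|s| ≤ 1/16`.
* `fh_same` : `FH C Y S f`, `FH C Y S g` ⊢ the six tilts of `f` against `g`.
-/

set_option autoImplicit false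
set_option linter.unusedVariables false

namespace Crest.Agent.R136.Fsm104

open Crest.Agent.R136.Sh605 Crest.Agent.R136.Fl808
open Crest.Agent.R136.K4 (Plk4)
open Crest.Agent.R136.Tlt51 (Shp InP)
open Crest.Agent.R136.KapP335 (kapP expP)
open Crest.Agent.R136.Pl2

theorem isQ_cont {q : ℝ → V3 → ℝ} (hq : IsQ q) (z : ℝ) (P e : V3) :
    Continuous fun τ : ℝ => q z (P + τ • e) := by
  obtain ⟨c0, c1, c2, b, d, g, h⟩ := hq
  have : (fun τ : ℝ => q z (P + τ • e)) = fun τ : ℝ => c0 + c1 * z + c2 * z ^ 2 +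
      ∑ i, (b i + d i * z) * (P i + τ * e i) +
      ∑ i, ∑ j, g i j * ((P i + τ * e i) * (P j + τ * e j)) := by
    funext τ
    rw [h]
    simp only [Pi.add_apply, Pi.smul_apply, smul_eq_mul]
  rw [this]
  fun_prop

theorem inK_dbl {e : Fin 3 → V3} {c : Ln4} {w : V3} (he : Ortho e) (hw : ∀ i, 0 ≤ w i) {z : ℝ}
    {x : V3} (hx : InK e c w z x) {s τ : ℝ} {k : Fin 3} (hk : k ≠ 0) (hs : |s| ≤ w k)
    (hτ : |τ| ≤ w 0) : InK e c (dbl3 w) z (x + s • e k + τ • e 0) := by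
  intro i
  have e1 : dt (e i) (x + s • e k + τ • e 0 - c.pos z) =
      dt (e i) (x - c.pos z) + s * dt (e i) (e k) + τ * dt (e i) (e 0) := by
    simp only [dt, Pi.add_apply, Pi.sub_apply, Pi.smul_apply, smul_eq_mul]; ring
  rw [e1, he i k, he i 0]
  change _ ≤ 2 * w i
  have h1 := hx i
  have h2 := abs_add_le (dt (e i) (x - c.pos z) + s * (if i = k then (1:ℝ) else 0))
    (τ * (if i = 0 then (1:ℝ) else 0))
  have h3 := abs_add_le (dt (e i) (x - c.pos z)) (s * (if i = k then (1:ℝ) else 0))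
  have h4 := hw i
  by_cases hi : i = 0
  · subst hi
    simp only [Ne.symm hk, if_true, if_false, mul_zero, mul_one, abs_zero, add_zero] at *
    linarith
  · by_cases hik : i = k
    · subst hik
      simp only [hi, if_true, if_false, mul_zero, mul_one, abs_zero, add_zero] at *
      linarith
    · simp only [hi, hik, if_false, mul_zero, abs_zero, add_zero] at *
      linarith

/-- a point of the sheet over `T + s w_k e_k` -/
theorem exists_on {S : Plk4} {T : Ln4} {z0 ρ r z : ℝ} (hr : 0 < r) (hS : Shp S z0 ρ r)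
    (hT : InP T S z0 ρ) (hz : z0 ≤ z) (hz' : z ≤ z0 + ρ) {k : Fin 3} (hk : k ≠ 0) {s : ℝ}
    (hs0 : 0 ≤ s) (hs : s ≤ 1 / 16) :
    ∃ τ : ℝ, |τ| ≤ S.w 0 / 8 ∧ |S.q z (T.pos z + (s * S.w k) • S.e k + τ • S.e 0)| ≤ S.a := by
  have ha : 0 < S.a := hr.trans_le hS.r0_le
  have hw0 : 0 < S.w 0 := ha.trans_le hS.a_le0
  have hw2 : 0 < S.w 2 := hw0.trans_le hS.w0_le
  have hw1 : 0 < S.w 1 := hw2.trans_le hS.w_le
  have hw : ∀ i, 0 < S.w i := by intro i; fin_cases i <;> assumption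
  have hwk := hw k
  obtain ⟨hTK, hTq⟩ := hT z hz hz'
  set P := T.pos z + (s * S.w k) • S.e k with hP
  have hsw : |s * S.w k| ≤ S.w k := by
    rw [abs_mul, abs_of_nonneg hs0, abs_of_pos hwk]; nlinarith
  have hin : ∀ τ : ℝ, |τ| ≤ S.w 0 → InK S.e S.c (dbl3 S.w) z (P + τ • S.e 0) := fun τ h =>
    inK_dbl hS.ortho (fun i => (hw i).le) hTK hk hsw h
  have hP0 : InK S.e S.c (dbl3 S.w) z P := by
    have := hin 0 (by rw [abs_zero]; exact hw0.le)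
    simpa using this
  have hT0 : InK S.e S.c (dbl3 S.w) z (T.pos z) := fun i => by
    change _ ≤ 2 * S.w i
    have := hTK i
    have := (hw i).le
    linarith
  have hlat : |S.q z P - S.q z (T.pos z)| ≤ S.w 0 / 16 := by
    have h1 : |S.q z P - S.q z (T.pos z)| ≤ S.w 0 / S.w k * (s * S.w k) := by
      have hsk : 0 ≤ s * S.w k := mul_nonneg hs0 hwk.le
      have hk12 : k = 1 ∨ k = 2 := by
        fin_cases k
        · exact absurd rfl hk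
        · exact Or.inl rfl
        · exact Or.inr rfl
      rcases hk12 with h | h
      · subst h; exact hS.sl1 z hz hz' _ _ hsk hT0 hP0
      · subst h; exact hS.sl2 z hz hz' _ _ hsk hT0 hP0
    have e1 : S.w 0 / S.w k * (s * S.w k) = s * S.w 0 := by field_simp
    rw [e1] at h1
    nlinarith
  have hPq : |S.q z P| ≤ S.a + S.w 0 / 16 := by
    have e1 : S.q z P = (S.q z P - S.q z (T.pos z)) + S.q z (T.pos z) := by ring
    rw [e1]
    exact (abs_add_le _ _).trans (by linarith)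
  have hcont := isQ_cont hS.isQ z P (S.e 0)
  by_cases h0 : |S.q z P| ≤ S.a
  · exact ⟨0, by rw [abs_zero]; positivity, by simpa using h0⟩
  · have h8 : |S.w 0 / 8| ≤ S.w 0 := by rw [abs_of_pos (by positivity)]; linarith
    have h8' : |-(S.w 0 / 8)| ≤ S.w 0 := by rw [abs_neg]; exact h8
    rcases lt_or_ge S.a (S.q z P) with hp | hp
    · -- go down
      have hlow : S.q z (P + (-(S.w 0 / 8)) • S.e 0) ≤ S.a := by
        have i1 := hin _ h8'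
        have i2 : InK S.e S.c (dbl3 S.w) z (P + (-(S.w 0 / 8)) • S.e 0 + (S.w 0 / 8) • S.e 0) := by
          have : P + (-(S.w 0 / 8)) • S.e 0 + (S.w 0 / 8) • S.e 0 = P := by
            ext i; simp only [Pi.add_apply, Pi.smul_apply, smul_eq_mul]; ring
          rw [this]; exact hP0
        have := (hS.st0 z hz hz' _ (S.w 0 / 8) (by positivity) i1 i2).1
        have e1 : P + (-(S.w 0 / 8)) • S.e 0 + (S.w 0 / 8) • S.e 0 = P := by
          ext i; simp only [Pi.add_apply, Pi.smul_apply, smul_eq_mul]; ring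
        rw [e1] at this
        have := (abs_le.1 hPq).2
        linarith
      have hiv := intermediate_value_Icc (a := -(S.w 0 / 8)) (b := 0) (by linarith)
        hcont.continuousOn
      have hm : S.a ∈ Set.Icc (S.q z (P + (-(S.w 0 / 8)) • S.e 0)) (S.q z (P + (0:ℝ) • S.e 0)) :=
        ⟨hlow, by simpa using hp.le⟩
      obtain ⟨τ, ⟨t1, t2⟩, hτ⟩ := hiv hm
      refine ⟨τ, abs_le.2 ⟨t1, by linarith⟩, ?_⟩
      have hτ' : S.q z (P + τ • S.e 0) = S.a := hτ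
      rw [hτ', abs_of_pos ha]
    · have hn : S.q z P < -S.a := by
        by_contra hc
        push Not at hc
        exact h0 (abs_le.2 ⟨hc, hp⟩)
      have hup : -S.a ≤ S.q z (P + (S.w 0 / 8) • S.e 0) := by
        have i1 := hin _ h8
        have := (hS.st0 z hz hz' P (S.w 0 / 8) (by positivity) hP0 i1).1
        have := (abs_le.1 hPq).1
        linarith
      have hiv := intermediate_value_Icc (a := 0) (b := S.w 0 / 8) (by linarith)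
        hcont.continuousOn
      have hm : -S.a ∈ Set.Icc (S.q z (P + (0:ℝ) • S.e 0)) (S.q z (P + (S.w 0 / 8) • S.e 0)) :=
        ⟨by simpa using hn.le, hup⟩
      obtain ⟨τ, ⟨t1, t2⟩, hτ⟩ := hiv hm
      refine ⟨τ, abs_le.2 ⟨by linarith, t2⟩, ?_⟩
      have hτ' : S.q z (P + τ • S.e 0) = -S.a := hτ
      rw [hτ', abs_neg, abs_of_pos ha]

/-- the normal covector of a hull frame almost vanishes on a chord of the sheet -/
theorem chord {C Y : ℝ} {S : Plk4} {f : Fin 3 → V3} {T : Ln4} {z0 ρ r : ℝ} (hr : 0 < r)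
    (hρ : 0 ≤ ρ) (hS : Shp S z0 ρ r) (hT : InP T S z0 ρ) {k : Fin 3} (hk : k ≠ 0) :
    ∃ τ : ℝ, |τ| ≤ S.w 0 / 8 ∧ ∀ (C Y : ℝ) (f : Fin 3 → V3), FH C Y S f z0 ρ →
      |dt (f 0) (S.e k) * (S.w k / 16) + dt (f 0) (S.e 0) * τ| ≤ C * Y := by
  have ha : 0 < S.a := hr.trans_le hS.r0_le
  have hw0 : 0 < S.w 0 := ha.trans_le hS.a_le0
  have hw2 : 0 < S.w 2 := hw0.trans_le hS.w0_le
  have hw1 : 0 < S.w 1 := hw2.trans_le hS.w_le
  have hw : ∀ i, 0 < S.w i := by intro i; fin_cases i <;> assumption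
  obtain ⟨τ, h1, h2⟩ := exists_on hr hS hT (z := z0) le_rfl (by linarith) hk
    (s := 1 / 16) (by norm_num) le_rfl
  refine ⟨τ, h1, fun C Y f hf => ?_⟩
  have hin : InK S.e T (fun i => S.w i / 8) z0
      (T.pos z0 + (1 / 16 * S.w k) • S.e k + τ • S.e 0) := by
    intro i
    have e1 : dt (S.e i) (T.pos z0 + (1 / 16 * S.w k) • S.e k + τ • S.e 0 - T.pos z0) =
        (1 / 16 * S.w k) * dt (S.e i) (S.e k) + τ * dt (S.e i) (S.e 0) := by
      simp only [dt, Pi.add_apply, Pi.sub_apply, Pi.smul_apply, smul_eq_mul]; ring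
    rw [e1, hS.ortho i k, hS.ortho i 0]
    have hi := hw i
    have hk' := hw k
    by_cases h0 : i = 0
    · subst h0
      simp only [Ne.symm hk, if_true, if_false, mul_zero, mul_one, zero_add]
      exact h1
    · by_cases hik : i = k
      · subst hik
        simp only [h0, if_true, if_false, mul_zero, mul_one, add_zero]
        rw [abs_of_pos (by positivity)]
        linarith
      · simp only [h0, hik, if_false, mul_zero, add_zero, abs_zero]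
        positivity
  have h3 := hf.pt T hT z0 le_rfl (by linarith) _ hin h2
  have e1 : dt (f 0) (T.pos z0 + (1 / 16 * S.w k) • S.e k + τ • S.e 0 - T.pos z0) =
      dt (f 0) (S.e k) * (S.w k / 16) + dt (f 0) (S.e 0) * τ := by
    simp only [dt, Pi.add_apply, Pi.sub_apply, Pi.smul_apply, smul_eq_mul]; ring
  rwa [e1] at h3


/-- the two normal covectors are proportional along `e k` up to `Y / w_k` -/
theorem cross {K Y : ℝ} {S : Plk4} {f g : Fin 3 → V3} {T : Ln4} {z0 ρ r : ℝ} (hr : 0 < r)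
    (hρ : 0 ≤ ρ) (hS : Shp S z0 ρ r) (hT : InP T S z0 ρ) (hf : FH K Y S f z0 ρ)
    (hg : FH K Y S g z0 ρ) (hKY : 0 ≤ K * Y) {k : Fin 3} (hk : k ≠ 0) :
    |dt (g 0) (S.e 0) * dt (f 0) (S.e k) - dt (f 0) (S.e 0) * dt (g 0) (S.e k)| * S.w k ≤
      32 * (K * Y) := by
  have ha : 0 < S.a := hr.trans_le hS.r0_le
  have hw0 : 0 < S.w 0 := ha.trans_le hS.a_le0
  have hw2 : 0 < S.w 2 := hw0.trans_le hS.w0_le
  have hw1 : 0 < S.w 1 := hw2.trans_le hS.w_le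
  have hw : ∀ i, 0 < S.w i := by intro i; fin_cases i <;> assumption
  obtain ⟨τ, hτ, h⟩ := chord (C := K) (Y := Y) (f := f) hr hρ hS hT hk
  have h1 := h K Y f hf
  have h2 := h K Y g hg
  have uf := abs_dt_le_one hS.ortho hf.ortho 0 0
  have ug := abs_dt_le_one hS.ortho hg.ortho 0 0
  have e1 : (dt (g 0) (S.e 0) * dt (f 0) (S.e k) - dt (f 0) (S.e 0) * dt (g 0) (S.e k)) * S.w k =
      16 * (dt (g 0) (S.e 0) * (dt (f 0) (S.e k) * (S.w k / 16) + dt (f 0) (S.e 0) * τ) -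
        dt (f 0) (S.e 0) * (dt (g 0) (S.e k) * (S.w k / 16) + dt (g 0) (S.e 0) * τ)) := by ring
  have e2 : |dt (g 0) (S.e 0) * dt (f 0) (S.e k) - dt (f 0) (S.e 0) * dt (g 0) (S.e k)| * S.w k =
      |(dt (g 0) (S.e 0) * dt (f 0) (S.e k) - dt (f 0) (S.e 0) * dt (g 0) (S.e k)) * S.w k| := by
    rw [abs_mul, abs_of_pos (hw k)]
  rw [e2, e1, abs_mul, abs_of_pos (by norm_num : (0:ℝ) < 16)]
  have m1 : |dt (g 0) (S.e 0) * (dt (f 0) (S.e k) * (S.w k / 16) + dt (f 0) (S.e 0) * τ)| ≤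
      1 * (K * Y) := by
    rw [abs_mul]; exact mul_le_mul ug h1 (abs_nonneg _) zero_le_one
  have m2 : |dt (f 0) (S.e 0) * (dt (g 0) (S.e k) * (S.w k / 16) + dt (g 0) (S.e 0) * τ)| ≤
      1 * (K * Y) := by
    rw [abs_mul]; exact mul_le_mul uf h2 (abs_nonneg _) zero_le_one
  have := abs_sub (dt (g 0) (S.e 0) * (dt (f 0) (S.e k) * (S.w k / 16) + dt (f 0) (S.e 0) * τ))
    (dt (f 0) (S.e 0) * (dt (g 0) (S.e k) * (S.w k / 16) + dt (g 0) (S.e 0) * τ))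
  linarith

/-- one half of the alignment: `f 0` against `g 1`, `g 2` -/
theorem half_aln {K Y : ℝ} {S : Plk4} {f g : Fin 3 → V3} {T : Ln4} {z0 ρ r : ℝ} (hr : 0 < r)
    (hρ : 0 ≤ ρ) (hS : Shp S z0 ρ r) (hT : InP T S z0 ρ) (hf : FH K Y S f z0 ρ)
    (hg : FH K Y S g z0 ρ) (hK : 1 ≤ K) (hY : 0 ≤ Y) :
    |dt (f 0) (g 1)| * S.w 1 ≤ 64 * K ^ 3 * Y ∧ |dt (f 0) (g 2)| * S.w 2 ≤ 64 * K ^ 3 * Y := by
  have ha : 0 < S.a := hr.trans_le hS.r0_le
  have hw0 : 0 < S.w 0 := ha.trans_le hS.a_le0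
  have hw2 : 0 < S.w 2 := hw0.trans_le hS.w0_le
  have hw1 : 0 < S.w 1 := hw2.trans_le hS.w_le
  have hK0 : 0 ≤ K := by linarith
  have hKY : 0 ≤ K * Y := mul_nonneg hK0 hY
  have c1 := cross hr hρ hS hT hf hg hKY (k := 1) (by decide)
  have c2 := cross hr hρ hS hT hf hg hKY (k := 2) (by decide)
  set D1 := dt (g 0) (S.e 0) * dt (f 0) (S.e 1) - dt (f 0) (S.e 0) * dt (g 0) (S.e 1) with hD1
  set D2 := dt (g 0) (S.e 0) * dt (f 0) (S.e 2) - dt (f 0) (S.e 0) * dt (g 0) (S.e 2) with hD2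
  have hK1 : K ≤ K ^ 3 := by
    have := pow_le_pow_right₀ hK (show 1 ≤ 3 by norm_num); simpa using this
  have hK2 : K ^ 2 ≤ K ^ 3 := pow_le_pow_right₀ hK (by norm_num)
  have h00 := hg.e00
  -- the identity
  have key : ∀ i : Fin 3, i ≠ 0 → dt (g 0) (S.e 0) * dt (f 0) (g i) =
      dt (g i) (S.e 1) * D1 + dt (g i) (S.e 2) * D2 := by
    intro i hi
    have o := hg.ortho 0 i
    rw [if_neg (Ne.symm hi)] at o
    rw [dt_expand hS.ortho (g 0) (g i), dt_comm (S.e 0) (g i), dt_comm (S.e 1) (g i),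
      dt_comm (S.e 2) (g i)] at o
    rw [dt_expand hS.ortho (f 0) (g i), dt_comm (S.e 0) (g i), dt_comm (S.e 1) (g i),
      dt_comm (S.e 2) (g i), hD1, hD2]
    linear_combination dt (f 0) (S.e 0) * o
  -- division by `g 0 · e 0`
  have dv : ∀ {x B : ℝ}, |dt (g 0) (S.e 0) * x| ≤ B → |x| ≤ K * B := by
    intro x B hx
    rw [abs_mul] at hx
    have h1 := mul_le_mul_of_nonneg_left hx hK0
    have h2 := mul_le_mul_of_nonneg_right h00 (abs_nonneg x)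
    calc |x| = 1 * |x| := (one_mul _).symm
      _ ≤ K * |dt (g 0) (S.e 0)| * |x| := h2
      _ = K * (|dt (g 0) (S.e 0)| * |x|) := by ring
      _ ≤ K * B := h1
  constructor
  · have k1 := key 1 (by decide)
    have u1 := abs_dt_le_one hS.ortho hg.ortho 1 1
    have e12 := hg.e12
    have b1 : |dt (g 1) (S.e 1) * D1| * S.w 1 ≤ 32 * (K * Y) := by
      rw [abs_mul, mul_assoc]
      calc |dt (g 1) (S.e 1)| * (|D1| * S.w 1) ≤ 1 * (32 * (K * Y)) :=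
            mul_le_mul u1 c1 (by positivity) zero_le_one
        _ = _ := one_mul _
    have b2 : |dt (g 1) (S.e 2) * D2| * S.w 1 ≤ K * (32 * (K * Y)) := by
      rw [abs_mul]
      calc |dt (g 1) (S.e 2)| * |D2| * S.w 1 = (|dt (g 1) (S.e 2)| * S.w 1) * |D2| := by ring
        _ ≤ (K * S.w 2) * |D2| := mul_le_mul_of_nonneg_right e12 (abs_nonneg _)
        _ = K * (|D2| * S.w 2) := by ring
        _ ≤ K * (32 * (K * Y)) := mul_le_mul_of_nonneg_left c2 hK0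
    have b3 : |dt (g 0) (S.e 0) * (dt (f 0) (g 1) * S.w 1)| ≤ 64 * (K ^ 2 * Y) := by
      rw [← mul_assoc, k1, abs_mul, abs_of_pos hw1]
      have h1 := mul_le_mul_of_nonneg_right
        (abs_add_le (dt (g 1) (S.e 1) * D1) (dt (g 1) (S.e 2) * D2)) hw1.le
      have h2 : K * Y ≤ K ^ 2 * Y := by
        have : K ≤ K ^ 2 := by nlinarith
        exact mul_le_mul_of_nonneg_right this hY
      nlinarith
    have b4 := dv b3
    rw [abs_mul, abs_of_pos hw1] at b4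
    calc |dt (f 0) (g 1)| * S.w 1 ≤ K * (64 * (K ^ 2 * Y)) := b4
      _ = 64 * K ^ 3 * Y := by ring
  · have k1 := key 2 (by decide)
    have u1 := abs_dt_le_one hS.ortho hg.ortho 2 1
    have u2 := abs_dt_le_one hS.ortho hg.ortho 2 2
    have b1 : |dt (g 2) (S.e 1) * D1| * S.w 2 ≤ 32 * (K * Y) := by
      rw [abs_mul]
      calc |dt (g 2) (S.e 1)| * |D1| * S.w 2 ≤ 1 * |D1| * S.w 1 := by
            have := hS.w_le
            gcongr
        _ = |D1| * S.w 1 := by ring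
        _ ≤ _ := c1
    have b2 : |dt (g 2) (S.e 2) * D2| * S.w 2 ≤ 32 * (K * Y) := by
      rw [abs_mul, mul_assoc]
      calc |dt (g 2) (S.e 2)| * (|D2| * S.w 2) ≤ 1 * (32 * (K * Y)) :=
            mul_le_mul u2 c2 (by positivity) zero_le_one
        _ = _ := one_mul _
    have b3 : |dt (g 0) (S.e 0) * (dt (f 0) (g 2) * S.w 2)| ≤ 64 * (K * Y) := by
      rw [← mul_assoc, k1, abs_mul, abs_of_pos hw2]
      have h1 := mul_le_mul_of_nonneg_right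
        (abs_add_le (dt (g 2) (S.e 1) * D1) (dt (g 2) (S.e 2) * D2)) hw2.le
      nlinarith
    have b4 := dv b3
    rw [abs_mul, abs_of_pos hw2] at b4
    calc |dt (f 0) (g 2)| * S.w 2 ≤ K * (64 * (K * Y)) := b4
      _ = 64 * K ^ 2 * Y := by ring
      _ ≤ 64 * K ^ 3 * Y := by
        have := mul_le_mul_of_nonneg_right hK2 hY
        nlinarith

/-- `f 1` against `g 2` -/
theorem half_b {K Y : ℝ} {S : Plk4} {f g : Fin 3 → V3} {z0 ρ r : ℝ}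
    (hS : Shp S z0 ρ r) (hw1 : 0 < S.w 1) (hf : FH K Y S f z0 ρ) (hg : FH K Y S g z0 ρ) :
    |dt (f 1) (g 2)| * S.w 1 ≤ 3 * (K * S.w 2) := by
  rw [dt_expand hS.ortho (f 1) (g 2), dt_comm (S.e 0) (g 2), dt_comm (S.e 1) (g 2),
    dt_comm (S.e 2) (g 2)]
  have u0 := abs_dt_le_one hS.ortho hg.ortho 2 0
  have u1 := abs_dt_le_one hS.ortho hf.ortho 1 1
  have u2 := abs_dt_le_one hS.ortho hg.ortho 2 2
  have h1 := abs_add_le (dt (f 1) (S.e 0) * dt (g 2) (S.e 0) + dt (f 1) (S.e 1) * dt (g 2) (S.e 1))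
    (dt (f 1) (S.e 2) * dt (g 2) (S.e 2))
  have h2 := abs_add_le (dt (f 1) (S.e 0) * dt (g 2) (S.e 0)) (dt (f 1) (S.e 1) * dt (g 2) (S.e 1))
  have b1 : |dt (f 1) (S.e 0) * dt (g 2) (S.e 0)| * S.w 1 ≤ K * S.w 2 := by
    rw [abs_mul]
    calc |dt (f 1) (S.e 0)| * |dt (g 2) (S.e 0)| * S.w 1 ≤ |dt (f 1) (S.e 0)| * 1 * S.w 1 := by
          gcongr
      _ = |dt (f 1) (S.e 0)| * S.w 1 := by ring
      _ ≤ _ := hf.e10
  have b2 : |dt (f 1) (S.e 1) * dt (g 2) (S.e 1)| * S.w 1 ≤ K * S.w 2 := by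
    rw [abs_mul]
    calc |dt (f 1) (S.e 1)| * |dt (g 2) (S.e 1)| * S.w 1 ≤ 1 * |dt (g 2) (S.e 1)| * S.w 1 := by
          gcongr
      _ = |dt (g 2) (S.e 1)| * S.w 1 := by ring
      _ ≤ _ := hg.e21
  have b3 : |dt (f 1) (S.e 2) * dt (g 2) (S.e 2)| * S.w 1 ≤ K * S.w 2 := by
    rw [abs_mul]
    calc |dt (f 1) (S.e 2)| * |dt (g 2) (S.e 2)| * S.w 1 ≤ |dt (f 1) (S.e 2)| * 1 * S.w 1 := by
          gcongr
      _ = |dt (f 1) (S.e 2)| * S.w 1 := by ring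
      _ ≤ _ := hf.e12
  have h3 := mul_le_mul_of_nonneg_right (h1.trans (add_le_add h2 le_rfl)) hw1.le
  linarith

/-- **two hull frames of the same sheet are aligned** -/
theorem fh_same {K Y : ℝ} {S : Plk4} {f g : Fin 3 → V3} {T : Ln4} {z0 ρ r : ℝ} (hr : 0 < r)
    (hρ : 0 ≤ ρ) (hS : Shp S z0 ρ r) (hT : InP T S z0 ρ) (hf : FH K Y S f z0 ρ)
    (hg : FH K Y S g z0 ρ) (hK : 1 ≤ K) (hY : 0 ≤ Y) :
    Hul412.Aln (64 * K ^ 3) Y (S.w 1) (S.w 2) f g := by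
  have ha : 0 < S.a := hr.trans_le hS.r0_le
  have hw0 : 0 < S.w 0 := ha.trans_le hS.a_le0
  have hw2 : 0 < S.w 2 := hw0.trans_le hS.w0_le
  have hw1 : 0 < S.w 1 := hw2.trans_le hS.w_le
  have hK1 : K ≤ K ^ 3 := by
    have := pow_le_pow_right₀ hK (show 1 ≤ 3 by norm_num); simpa using this
  obtain ⟨p1, p2⟩ := half_aln hr hρ hS hT hf hg hK hY
  obtain ⟨q1, q2⟩ := half_aln hr hρ hS hT hg hf hK hY
  have b1 := half_b hS hw1 hf hg
  have b2 := half_b hS hw1 hg hf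
  have h3 : 3 * (K * S.w 2) ≤ 64 * K ^ 3 * S.w 2 := by nlinarith
  exact ⟨p1, p2, by rw [dt_comm]; exact q1, by rw [dt_comm]; exact q2, b1.trans h3,
    by rw [dt_comm]; exact b2.trans h3⟩


end Crest.Agent.R136.Fsm104
end

-- ▼ part R136/Hmx_104
section

/-!
# R136 (S0187), PLAN 2 (AL) (A): hull counts for mixed curvatures (helper104)

`hull_gen` : `Two1`, `Al1 W` and `kp U ~ Y` on `P` ⊢ the hull counts in one and two steps.
`hullMx : Amx325.HullMx`.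
-/

set_option autoImplicit false
set_option linter.unusedVariables false

open Finset

namespace Crest.Agent.R136.Hmx104

open Crest.Agent.R136.Sh605 Crest.Agent.R136.Fl808
open Crest.Agent.R136.K4 (Plk4)
open Crest.Agent.R136.Tlt51 (Shp InP)
open Crest.Agent.R136.Tl102 (angC)
open Crest.Agent.R136.Pl2W102 (Near Ex2 Two1)
open Crest.Agent.R136.Pl2 (FH FL kp Two7 Al1)
open Crest.Agent.R136.Hul412 (Aln)
open Crest.Agent.R136.Fh792 (FD Bh bh_num)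

theorem fh_chg {C C' Y Y' z0 ρ : ℝ} {S : Plk4} {f : Fin 3 → V3} (h : FH C Y S f z0 ρ)
    (hC : C ≤ C') (hY : C * Y ≤ C' * Y') (hw1 : 0 ≤ S.w 1) (hw2 : 0 ≤ S.w 2) :
    FH C' Y' S f z0 ρ := by
  have k1 : C * S.w 2 ≤ C' * S.w 2 := mul_le_mul_of_nonneg_right hC hw2
  have k2 : C * S.w 1 ≤ C' * S.w 1 := mul_le_mul_of_nonneg_right hC hw1
  refine ⟨h.ortho, h.e01.trans k1, h.e10.trans k1, h.e12.trans k1, h.e21.trans k1,
    h.e00.trans (mul_le_mul_of_nonneg_right hC (abs_nonneg _)), ?_, ?_⟩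
  · intro t t' ht ht' z h0 h1 k
    refine (h.box t t' ht ht' z h0 h1 k).trans ?_
    fin_cases k
    · exact hY
    · exact k2
    · exact k1
  · intro T hT z h0 h1 x hx hq
    exact (h.pt T hT z h0 h1 x hx hq).trans hY


/-- expansion through two frames: `p` near the axis `e 1`-free part, `q` near the `e' 1`-free part -/
theorem two_exp {e e' : Fin 3 → V3} (he : Ortho e) (he' : Ortho e') {p q : V3} (hp : dt p p = 1)
    (hq : dt q q = 1) {α β γ : ℝ}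
    (h1 : |dt p (e 1)| ≤ α) (h2 : |dt q (e' 0)| ≤ β) (h3 : |dt q (e' 2)| ≤ β)
    (h4 : |dt (e 0) (e' 1)| ≤ γ) (h5 : |dt (e 2) (e' 1)| ≤ γ) :
    |dt p q| ≤ α + 4 * β + 2 * γ := by
  have u : ∀ {f g : V3}, dt f f = 1 → dt g g = 1 → |dt f g| ≤ 1 := fun h h' => Fh792.unit_dt' h h'
  have oe : ∀ i, dt (e i) (e i) = 1 := fun i => by simpa using he i i
  have oe' : ∀ i, dt (e' i) (e' i) = 1 := fun i => by simpa using he' i i
  have k : ∀ i, |dt (e i) (e' 1)| ≤ γ → |dt (e i) q| ≤ 2 * β + γ := by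
    intro i hi
    rw [dt_expand he' (e i) q, dt_comm (e' 0) q, dt_comm (e' 1) q, dt_comm (e' 2) q]
    have a1 := abs_add_le (dt (e i) (e' 0) * dt q (e' 0) + dt (e i) (e' 1) * dt q (e' 1))
      (dt (e i) (e' 2) * dt q (e' 2))
    have a2 := abs_add_le (dt (e i) (e' 0) * dt q (e' 0)) (dt (e i) (e' 1) * dt q (e' 1))
    have b1 : |dt (e i) (e' 0) * dt q (e' 0)| ≤ 1 * β := by
      rw [abs_mul]; exact mul_le_mul (u (oe i) (oe' 0)) h2 (abs_nonneg _) zero_le_one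
    have b2 : |dt (e i) (e' 1) * dt q (e' 1)| ≤ γ * 1 := by
      rw [abs_mul]; exact mul_le_mul hi (u hq (oe' 1)) (abs_nonneg _) ((abs_nonneg _).trans hi)
    have b3 : |dt (e i) (e' 2) * dt q (e' 2)| ≤ 1 * β := by
      rw [abs_mul]; exact mul_le_mul (u (oe i) (oe' 2)) h3 (abs_nonneg _) zero_le_one
    linarith
  have k0 := k 0 h4
  have k2 := k 2 h5
  rw [dt_expand he p q]
  have a1 := abs_add_le (dt p (e 0) * dt (e 0) q + dt p (e 1) * dt (e 1) q)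
    (dt p (e 2) * dt (e 2) q)
  have a2 := abs_add_le (dt p (e 0) * dt (e 0) q) (dt p (e 1) * dt (e 1) q)
  have b1 : |dt p (e 0) * dt (e 0) q| ≤ 1 * (2 * β + γ) := by
    rw [abs_mul]; exact mul_le_mul (u hp (oe 0)) k0 (abs_nonneg _) zero_le_one
  have b2 : |dt p (e 1) * dt (e 1) q| ≤ α * 1 := by
    rw [abs_mul]; exact mul_le_mul h1 (u (oe 1) hq) (abs_nonneg _) ((abs_nonneg _).trans h1)
  have b3 : |dt p (e 2) * dt (e 2) q| ≤ 1 * (2 * β + γ) := by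
    rw [abs_mul]; exact mul_le_mul (u hp (oe 2)) k2 (abs_nonneg _) zero_le_one
  linarith

section
variable {qm qp : Fin 3 → ℝ} {L : ℕ → Ln4} {P : Finset ℕ} {cu cv : ℕ → ℕ} {Uf Vf : ℕ → Plk4}
  {W M a w1 w2 z0 ρ zL ρL r Y : ℝ}

/-- the constant -/
noncomputable def kk (W : ℝ) : ℝ := 4096 * W ^ 5

theorem kk_ge (hW : 1 ≤ W) : 4 * W ≤ kk W ∧ 1 ≤ kk W ∧ 7 * W ^ 3 ≤ kk W ∧ 52 * W ≤ kk W ∧
    W ^ 2 * (64 * (4 * W) ^ 3) = kk W ∧ W * (64 * (4 * W) ^ 3) ≤ kk W := by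
  have h5 : W ≤ W ^ 5 := by
    simpa using pow_le_pow_right₀ hW (show 1 ≤ 5 by norm_num)
  have h3 : W ^ 3 ≤ W ^ 5 := pow_le_pow_right₀ hW (by norm_num)
  have h4 : W ^ 4 ≤ W ^ 5 := pow_le_pow_right₀ hW (by norm_num)
  have h0 : 0 ≤ W ^ 5 := by positivity
  unfold kk
  refine ⟨by linarith, by linarith, by linarith, by linarith, by ring, ?_⟩
  have : W * (64 * (4 * W) ^ 3) = 4096 * W ^ 4 := by ring
  rw [this]; linarith

/-- `x ≤ W³ w2 / w1` from `x * S.w 1 ≤ W S.w 2` -/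
theorem to_w {x : ℝ} {S : Plk4} (hx : 0 ≤ x) (hW : 1 ≤ W) (h : x * S.w 1 ≤ W * S.w 2)
    (h1 : w1 ≤ W * S.w 1) (h2 : S.w 2 ≤ W * w2) : x * w1 ≤ W ^ 3 * w2 := by
  have hW0 : 0 ≤ W := by linarith
  calc x * w1 ≤ x * (W * S.w 1) := mul_le_mul_of_nonneg_left h1 hx
    _ = W * (x * S.w 1) := by ring
    _ ≤ W * (W * S.w 2) := mul_le_mul_of_nonneg_left h hW0
    _ ≤ W * (W * (W * w2)) := by gcongr
    _ = W ^ 3 * w2 := by ring

theorem aln_pair {f g : Fin 3 → V3} {S S' : Plk4} {k : ℝ} (hW : 1 ≤ W) (hw1 : 0 < w1)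
    (hw2 : 0 < w2) (hY : 0 ≤ Y) (hk : k ≤ 4 * Y) (oS : Ortho S.e) (oS' : Ortho S'.e)
    (hf : FH W k S f z0 ρ) (hg : FH W k S' g z0 ρ)
    (d1 : Near W w1 (S.w 1)) (d2 : Near W w2 (S.w 2)) (d1' : Near W w1 (S'.w 1))
    (d2' : Near W w2 (S'.w 2)) (ang : angC S S' * w1 ≤ W * w2)
    (t1 : |dt (f 0) (g 1)| * w1 ≤ W * k) (t2 : |dt (f 0) (g 2)| * w2 ≤ W * k)
    (t3 : |dt (g 0) (f 1)| * w1 ≤ W * k) (t4 : |dt (g 0) (f 2)| * w2 ≤ W * k) :
    Aln (kk W) Y w1 w2 f g := by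
  obtain ⟨k4, k1, k7, -, -, -⟩ := kk_ge hW
  have hW0 : 0 ≤ W := by linarith
  have hk' : W * k ≤ kk W * Y := by
    calc W * k ≤ W * (4 * Y) := mul_le_mul_of_nonneg_left hk hW0
      _ = (4 * W) * Y := by ring
      _ ≤ kk W * Y := mul_le_mul_of_nonneg_right k4 hY
  have of : ∀ i, dt (f i) (f i) = 1 := fun i => by simpa using hf.ortho i i
  have og : ∀ i, dt (g i) (g i) = 1 := fun i => by simpa using hg.ortho i i
  set A := angC S S' with hA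
  have g01 : |dt (S.e 0) (S'.e 1)| ≤ A := (le_max_left _ _).trans (le_max_right _ _)
  have g21 : |dt (S.e 2) (S'.e 1)| ≤ A := (le_max_right _ _).trans (le_max_right _ _)
  have g10 : |dt (S.e 1) (S'.e 0)| ≤ A := (le_max_left _ _).trans (le_max_left _ _)
  have g12 : |dt (S.e 1) (S'.e 2)| ≤ A := (le_max_right _ _).trans (le_max_left _ _)
  set η : ℝ := W ^ 3 * w2 / w1 with hη
  have hdiv : ∀ {x : ℝ}, x * w1 ≤ W ^ 3 * w2 → x ≤ η := by
    intro x hx; rw [hη, le_div_iff₀ hw1]; exact hx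
  have hAη : A ≤ η := by
    apply hdiv
    refine ang.trans ?_
    have : W ≤ W ^ 3 := by simpa using pow_le_pow_right₀ hW (show 1 ≤ 3 by norm_num)
    exact mul_le_mul_of_nonneg_right this hw2.le
  have fin : ∀ {x : ℝ}, x ≤ 7 * η → x * w1 ≤ kk W * w2 := by
    intro x hx
    calc x * w1 ≤ 7 * η * w1 := mul_le_mul_of_nonneg_right hx hw1.le
      _ = 7 * W ^ 3 * w2 := by rw [hη]; field_simp
      _ ≤ kk W * w2 := mul_le_mul_of_nonneg_right k7 hw2.le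
  have f21 : |dt (f 2) (S.e 1)| ≤ η := hdiv (to_w (abs_nonneg _) hW hf.e21 d1.1 d2.2)
  have f10 : |dt (f 1) (S.e 0)| ≤ η := hdiv (to_w (abs_nonneg _) hW hf.e10 d1.1 d2.2)
  have f12 : |dt (f 1) (S.e 2)| ≤ η := hdiv (to_w (abs_nonneg _) hW hf.e12 d1.1 d2.2)
  have g21' : |dt (g 2) (S'.e 1)| ≤ η := hdiv (to_w (abs_nonneg _) hW hg.e21 d1'.1 d2'.2)
  have g10' : |dt (g 1) (S'.e 0)| ≤ η := hdiv (to_w (abs_nonneg _) hW hg.e10 d1'.1 d2'.2)
  have g12' : |dt (g 1) (S'.e 2)| ≤ η := hdiv (to_w (abs_nonneg _) hW hg.e12 d1'.1 d2'.2)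
  refine ⟨t1.trans hk', t2.trans hk', ?_, ?_, ?_, ?_⟩
  · rw [dt_comm]; exact t3.trans hk'
  · rw [dt_comm]; exact t4.trans hk'
  · -- `f 1`, `g 2` : swap the roles
    apply fin
    rw [dt_comm]
    have h4 : |dt (S'.e 0) (S.e 1)| ≤ A := by rw [dt_comm]; exact g10
    have h5 : |dt (S'.e 2) (S.e 1)| ≤ A := by rw [dt_comm]; exact g12
    have := two_exp oS' oS (og 2) (of 1) g21' f10 f12 (h4.trans hAη) (h5.trans hAη)
    linarith
  · apply fin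
    have := two_exp oS oS' (of 2) (og 1) f21 g10' g12' (g01.trans hAη) (g21.trans hAη)
    linarith

/-- frames of one class -/
theorem aln_same {f g : Fin 3 → V3} {S : Plk4} {T : Ln4} {k k' : ℝ} (hr : 0 < r) (hρ : 0 ≤ ρ)
    (hW : 1 ≤ W) (hw1 : 0 < w1) (hw2 : 0 < w2) (hY : 0 ≤ Y) (hk : k ≤ 4 * Y) (hk' : k' ≤ 4 * Y)
    (hS : Shp S z0 ρ r) (hT : InP T S z0 ρ) (hf : FH W k S f z0 ρ) (hg : FH W k' S g z0 ρ)
    (d1 : Near W w1 (S.w 1)) (d2 : Near W w2 (S.w 2)) : Aln (kk W) Y w1 w2 f g := by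
  obtain ⟨k4, k1, k7, -, k5, k6⟩ := kk_ge hW
  have ha : 0 < S.a := hr.trans_le hS.r0_le
  have hw0 : 0 < S.w 0 := ha.trans_le hS.a_le0
  have hs2 : 0 < S.w 2 := hw0.trans_le hS.w0_le
  have hs1 : 0 < S.w 1 := hs2.trans_le hS.w_le
  have hW0 : 0 ≤ W := by linarith
  have e : ∀ {x : ℝ}, x ≤ 4 * Y → W * x ≤ 4 * W * Y := by
    intro x hx
    calc W * x ≤ W * (4 * Y) := mul_le_mul_of_nonneg_left hx hW0
      _ = _ := by ring
  have hf' := fh_chg hf (C' := 4 * W) (Y' := Y) (by linarith) (e hk) hs1.le hs2.le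
  have hg' := fh_chg hg (C' := 4 * W) (Y' := Y) (by linarith) (e hk') hs1.le hs2.le
  have h := Fsm104.fh_same hr hρ hS hT hf' hg' (by linarith) hY
  set C := 64 * (4 * W) ^ 3 with hC
  have hC0 : 0 ≤ C := by positivity
  have ya : ∀ {x w s : ℝ}, 0 ≤ x → w ≤ W * s → x * s ≤ C * Y → x * w ≤ kk W * Y := by
    intro x w s hx hw h0
    calc x * w ≤ x * (W * s) := mul_le_mul_of_nonneg_left hw hx
      _ = W * (x * s) := by ring
      _ ≤ W * (C * Y) := mul_le_mul_of_nonneg_left h0 hW0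
      _ = W * C * Y := by ring
      _ ≤ kk W * Y := mul_le_mul_of_nonneg_right k6 hY
  have yb : ∀ {x : ℝ}, 0 ≤ x → x * S.w 1 ≤ C * S.w 2 → x * w1 ≤ kk W * w2 := by
    intro x hx h0
    calc x * w1 ≤ x * (W * S.w 1) := mul_le_mul_of_nonneg_left d1.1 hx
      _ = W * (x * S.w 1) := by ring
      _ ≤ W * (C * S.w 2) := mul_le_mul_of_nonneg_left h0 hW0
      _ ≤ W * (C * (W * w2)) := by
          have := d2.2
          gcongr
      _ = W ^ 2 * C * w2 := by ring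
      _ = kk W * w2 := by rw [k5]
  exact ⟨ya (abs_nonneg _) d1.1 h.a01, ya (abs_nonneg _) d2.1 h.a02, ya (abs_nonneg _) d1.1 h.a10,
    ya (abs_nonneg _) d2.1 h.a20, yb (abs_nonneg _) h.b12, yb (abs_nonneg _) h.b21⟩

/-- **the data of the flat hull count** -/
theorem fd_of (h : Two1 qm qp L P cu cv Uf Vf W M a w1 w2 z0 ρ r) (hr : r ≤ ρ) (hne : P.Nonempty)
    (haY : a ≤ Y) (hk : ∀ t ∈ P, kp (Uf (cu t)) z0 ρ (L t) ≤ 4 * Y)
    (hk' : ∀ t ∈ P, Y ≤ 4 * kp (Uf (cu t)) z0 ρ (L t))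
    (hal : ∀ t ∈ P, Al1 W (Uf (cu t)) (Vf (cv t)) (L t) a w1 w2 z0 ρ) :
    ∃ fr gr : ℕ → Fin 3 → V3, FD qm qp L P cu cv Uf Vf fr gr W M a w1 w2 z0 ρ r (kk W) Y := by
  have hW := h.W1
  have hY : 0 < Y := h.a0.trans_le haY
  obtain ⟨k4, k1, k7, k52, k5, k6⟩ := kk_ge hW
  have hex : ∀ t, ∃ f g : Fin 3 → V3, t ∈ P →
      FH W (kp (Uf (cu t)) z0 ρ (L t)) (Uf (cu t)) f z0 ρ ∧
      FH W (kp (Uf (cu t)) z0 ρ (L t)) (Vf (cv t)) g z0 ρ ∧
      |dt (f 0) (g 1)| * w1 ≤ W * kp (Uf (cu t)) z0 ρ (L t) ∧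
      |dt (f 0) (g 2)| * w2 ≤ W * kp (Uf (cu t)) z0 ρ (L t) ∧
      |dt (g 0) (f 1)| * w1 ≤ W * kp (Uf (cu t)) z0 ρ (L t) ∧
      |dt (g 0) (f 2)| * w2 ≤ W * kp (Uf (cu t)) z0 ρ (L t) := by
    intro t
    by_cases ht : t ∈ P
    · obtain ⟨f, g, p1, -, p3, p4, p5, p6, p7⟩ := (hal t ht).fr
      exact ⟨f, g, fun _ => ⟨p1, p3, p4, p5, p6, p7⟩⟩
    · exact ⟨fun _ => 0, fun _ => 0, fun h => absurd h ht⟩
  choose fr gr hfg using hex
  have hpos : ∀ S : Plk4, Shp S z0 ρ r → 0 < S.w 1 ∧ 0 < S.w 2 := by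
    intro S hS
    have ha : 0 < S.a := h.r0.trans_le hS.r0_le
    have hs2 : 0 < S.w 2 := (ha.trans_le hS.a_le0).trans_le hS.w0_le
    exact ⟨hs2.trans_le hS.w_le, hs2⟩
  refine ⟨fr, gr, h, hr, k1, haY, ?_, ?_, ?_, ?_, ?_, ?_⟩
  · obtain ⟨t, ht⟩ := hne
    have h1 := Alr877.kapP_le h.r0 h.ρ0.le (h.shU t ht) (h.inU t ht)
    have h2 := (h.shU t ht).w0_le
    have h3 := (h.dimU t ht).2.2.2
    have h4 := hk' t ht
    change Y ≤ 4 * KapP335.kapP (Uf (cu t)) z0 ρ (L t) at h4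
    have hw2 := h.w20
    calc Y ≤ 52 * (W * w2) := by linarith
      _ = 52 * W * w2 := by ring
      _ ≤ kk W * w2 := mul_le_mul_of_nonneg_right k52 hw2.le
  · intro t ht
    obtain ⟨p1, p2⟩ := hpos _ (h.shU t ht)
    refine fh_chg (hfg t ht).1 (by linarith) ?_ p1.le p2.le
    calc W * kp (Uf (cu t)) z0 ρ (L t) ≤ W * (4 * Y) :=
          mul_le_mul_of_nonneg_left (hk t ht) (by linarith)
      _ = (4 * W) * Y := by ring
      _ ≤ kk W * Y := mul_le_mul_of_nonneg_right k4 hY.le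
  · intro t ht
    obtain ⟨p1, p2⟩ := hpos _ (h.shV t ht)
    refine fh_chg (hfg t ht).2.1 (by linarith) ?_ p1.le p2.le
    calc W * kp (Uf (cu t)) z0 ρ (L t) ≤ W * (4 * Y) :=
          mul_le_mul_of_nonneg_left (hk t ht) (by linarith)
      _ = (4 * W) * Y := by ring
      _ ≤ kk W * Y := mul_le_mul_of_nonneg_right k4 hY.le
  · intro t ht
    obtain ⟨p1, p3, p4, p5, p6, p7⟩ := hfg t ht
    exact aln_pair hW h.w10 h.w20 hY.le (hk t ht) (h.shU t ht).ortho (h.shV t ht).ortho p1 p3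
      (h.dimU t ht).2.1 (h.dimU t ht).2.2 (h.dimV t ht).2.1 (h.dimV t ht).2.2 (hal t ht).ang
      p4 p5 p6 p7
  · intro t ht t' ht' e
    have p1 := (hfg t ht).1
    have p2 := (hfg t' ht').1
    rw [← e] at p2
    refine aln_same h.r0 h.ρ0.le hW h.w10 h.w20 hY.le (hk t ht) ?_ (h.shU t ht) (h.inU t ht) p1 p2
      (h.dimU t ht).2.1 (h.dimU t ht).2.2
    have := hk t' ht'
    rw [← e] at this
    exact this
  · intro t ht t' ht' e
    have p1 := (hfg t ht).2.1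
    have p2 := (hfg t' ht').2.1
    rw [← e] at p2
    exact aln_same h.r0 h.ρ0.le hW h.w10 h.w20 hY.le (hk t ht) (hk t' ht') (h.shV t ht)
      (h.inV t ht) p1 p2 (h.dimV t ht).2.1 (h.dimV t ht).2.2

/-- the exponent -/
noncomputable def xx (qp : Fin 3 → ℝ) : ℝ := (14 + 6 * 12) * (25 + 2 * qp 0 + qp 1 + 2 * qp 2)

open Classical in
/-- **hull counts** : one and two steps -/
theorem hull_gen (hq : ∀ k, 0 ≤ qm k ∧ qm k ≤ qp k)
    (h : Two1 qm qp L P cu cv Uf Vf W M a w1 w2 z0 ρ r) (hr : r ≤ ρ) (hne : P.Nonempty)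
    (haY : a ≤ Y) (hk : ∀ t ∈ P, kp (Uf (cu t)) z0 ρ (L t) ≤ 4 * Y)
    (hk' : ∀ t ∈ P, Y ≤ 4 * kp (Uf (cu t)) z0 ρ (L t))
    (hal : ∀ t ∈ P, Al1 W (Uf (cu t)) (Vf (cv t)) (L t) a w1 w2 z0 ρ) :
    (∀ t0 ∈ P, ∀ T : Finset ℕ, (∀ c1 ∈ T, ∃ t ∈ P, ∃ t' ∈ P, cu t = cu t0 ∧ cu t' = c1 ∧
      cv t' = cv t) → (T.card : ℝ) ≤ (2 * W) ^ xx qp * (Y / a) ^ (1 + qp 0)) ∧
    (∀ c, (((P.filter fun t => cu t = c).image cv).card : ℝ) ≤
      (2 * W) ^ xx qp * (Y / a) ^ (1 + qp 0)) ∧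
    (∀ c, (((P.filter fun t => cv t = c).image cu).card : ℝ) ≤
      (2 * W) ^ xx qp * (Y / a) ^ (1 + qp 0)) := by
  obtain ⟨fr, gr, hF⟩ := fd_of h hr hne haY hk hk' hal
  obtain ⟨c1, c2, c3⟩ := hF.count hq
  have hW := h.W1
  obtain ⟨k4, k1, k7, k52, k5, k6⟩ := kk_ge hW
  have hKW : kk W ≤ (2 * W) ^ (12:ℝ) := by
    have e : (2 * W) ^ (12:ℝ) = (2 * W) ^ 12 := by
      rw [← Real.rpow_natCast]; norm_num
    rw [e]
    unfold kk
    have h1 : W ^ 5 ≤ W ^ 12 := pow_le_pow_right₀ hW (by norm_num)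
    have h2 : (2 * W) ^ 12 = 4096 * W ^ 12 := by ring
    rw [h2]; linarith
  have hb := bh_num qp (fun k => (hq k).1.trans (hq k).2) (C1 := 12) (by norm_num) k1 hW hKW h.a0
    haY
  exact ⟨fun t0 h0 T hT => (c1 t0 h0 T hT).trans hb, fun c => (c2 c).trans hb,
    fun c => (c3 c).trans hb⟩

end

/-- **[HULL]** 325's literal -/
theorem hullMx : Amx325.HullMx := by
  intro η qm qp hE
  refine ⟨0, max 0 (xx qp), le_rfl, le_max_left _ _, ?_⟩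
  intro L P cu cv Uf Vf W M a w1 w2 z0 ρ zL ρL r Y h c
  have hW := h.two.to1.W1
  have haY : a ≤ Y := by
    have := h.big
    rwa [Real.rpow_zero, one_mul] at this
  have hY : 0 < Y := h.two.to1.a0.trans_le haY
  have hk : ∀ t ∈ P, kp (Uf (cu t)) z0 ρ (L t) ≤ 4 * Y := fun t ht => by
    have := h.hi t ht; linarith
  have hk' : ∀ t ∈ P, Y ≤ 4 * kp (Uf (cu t)) z0 ρ (L t) := fun t ht => by
    have := h.lo t ht; linarith
  have hc := (hull_gen hE.le h.two.to1 h.two.rρ h.ne haY hk hk' h.al).2.2 c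
  refine hc.trans ?_
  have h1 : (2 * W) ^ xx qp ≤ (2 * W) ^ max 0 (xx qp) :=
    Real.rpow_le_rpow_of_exponent_le (by linarith) (le_max_right _ _)
  have h2 : 0 ≤ (Y / a) ^ (1 + qp 0) := Real.rpow_nonneg (div_pos hY h.two.to1.a0).le _
  exact mul_le_mul_of_nonneg_right h1 h2

end Crest.Agent.R136.Hmx104
end

-- ▼ part R136/Lkf_18
section

/-!
# R136 (S0187), PLAN 2, leaf (B4), (III): the frame matrices of a pair of sheets (helper18)

Plank frames `e = S.e`, `e' = S'.e`; fixed height; `b`, `b'` = plank coordinates of the gradients;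
strip coordinates `A = Λ <e 1, Δ> / w1`, `B = <e 2, Δ> / w2`; `Y = ty e w b Δ / a`.
`frame_mat` : all coordinates of `Δ` (any vector) are linear in `Y, A, B`, with bounded coefficients
(`D = 8 K ^ 3`); the coefficients `t1`, `t2` are the minors of the two gradients.
-/

set_option autoImplicit false
set_option linter.unusedVariables false

namespace Crest.Agent.R136.Lkf18

open Crest.Agent.R136.Sh605
open Crest.Agent.R136.Fl808 (dt_expand abs_dt_le_one)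
open Crest.Agent.R136.Mdr535 (ty gr)
open Crest.Agent.R136.Mlt89 (cv dt_cv dt_cv0 dt_cv1 dt_cv2)

/-- minor of the two gradients in the plank frame -/
def pk (e : Fin 3 → V3) (n n' : V3) (k : Fin 3) : ℝ :=
  dt (e 0) n * dt (e k) n' - dt (e 0) n' * dt (e k) n

theorem ty_cv {e : Fin 3 → V3} {w b : V3} (hw : w 0 ≠ 0) (hb : b 0 ≠ 0) (Δ : V3) :
    dt (cv e w b) Δ = b 0 * ty e w b Δ := by
  rw [dt_comm, dt_cv, dt_comm Δ (e 0), dt_comm Δ (e 1), dt_comm Δ (e 2)]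
  unfold ty gr
  field_simp

/-- the second gradient in terms of the first one and of the minors -/
theorem nrm_id {e : Fin 3 → V3} (he : Ortho e) (n n' Δ : V3) (h0 : dt (e 0) n ≠ 0) :
    dt n' Δ = dt (e 0) n' / dt (e 0) n * dt n Δ +
      (pk e n n' 1 * dt (e 1) Δ + pk e n n' 2 * dt (e 2) Δ) / dt (e 0) n := by
  have h1 := dt_expand he n' Δ
  have h2 := dt_expand he n Δ
  rw [h1, h2, dt_comm n' (e 0), dt_comm n' (e 1), dt_comm n' (e 2), dt_comm n (e 0),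
    dt_comm n (e 1), dt_comm n (e 2)]
  unfold pk
  field_simp
  ring

/-- slopes of the gradient -/
theorem gr_le {w b : V3} (hw : ∀ i, 0 < w i) (hb : 1 / 2 ≤ b 0) {k : Fin 3} (hk : |b k| ≤ 1)
    (hwk : w 0 ≤ w k) : |gr b w k| ≤ 2 := by
  have hb0 : 0 < b 0 := by linarith
  unfold gr
  rw [abs_mul, abs_div, abs_div, abs_of_pos hb0, abs_of_pos (hw 0), abs_of_pos (hw k)]
  have h1 : |b k| / b 0 ≤ 2 := by
    rw [div_le_iff₀ hb0]; linarith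
  have h2 : w 0 / w k ≤ 1 := by
    rw [div_le_one (hw k)]; exact hwk
  have h3 : 0 ≤ |b k| / b 0 := by positivity
  have h4 : 0 ≤ w 0 / w k := (div_pos (hw 0) (hw k)).le
  calc |b k| / b 0 * (w 0 / w k) ≤ 2 * 1 := mul_le_mul h1 h2 h4 (by norm_num)
    _ = 2 := by norm_num

/-- `|gr 1| w 1 ≤ 2 w 0` -/
theorem gr_w {w b : V3} (hw : ∀ i, 0 < w i) (hb : 1 / 2 ≤ b 0) {k : Fin 3} (hk : |b k| ≤ 1) :
    |gr b w k| * w k ≤ 2 * w 0 := by
  have hb0 : 0 < b 0 := by linarith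
  have h1 : |b k| / b 0 ≤ 2 := by
    rw [div_le_iff₀ hb0]; linarith
  unfold gr
  rw [abs_mul, abs_div, abs_div, abs_of_pos hb0, abs_of_pos (hw 0), abs_of_pos (hw k)]
  have e1 : |b k| / b 0 * (w 0 / w k) * w k = |b k| / b 0 * w 0 := by
    have := (hw k).ne'
    field_simp
  rw [e1]
  exact mul_le_mul_of_nonneg_right h1 (hw 0).le

theorem row {e e' : Fin 3 → V3} (he : Ortho e) {w b : V3} (Δ : V3) (k : Fin 3) :
    dt (e' k) Δ = dt (e' k) (e 0) * ty e w b Δ +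
      (dt (e' k) (e 1) - dt (e' k) (e 0) * gr b w 1) * dt (e 1) Δ +
      (dt (e' k) (e 2) - dt (e' k) (e 0) * gr b w 2) * dt (e 2) Δ := by
  rw [dt_expand he (e' k) Δ]
  unfold ty
  ring

theorem comb_le {x y g : ℝ} (hx : |x| ≤ 1) (hy : |y| ≤ 1) (hg : |g| ≤ 2) : |x - y * g| ≤ 3 := by
  have h1 : |y * g| ≤ 1 * 2 := by
    rw [abs_mul]; exact mul_le_mul hy hg (abs_nonneg _) (by norm_num)
  exact (abs_sub _ _).trans (by linarith)

/-- **the frame matrices** -/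
theorem frame_mat {e e' : Fin 3 → V3} (he : Ortho e) (he' : Ortho e') {w w' b b' : V3}
    {a a' w1 w2 Λ K X : ℝ} (hw : ∀ i, 0 < w i) (hw' : ∀ i, 0 < w' i)
    (h02 : w 0 ≤ w 2) (h21 : w 2 ≤ w 1) (h02' : w' 0 ≤ w' 2) (h21' : w' 2 ≤ w' 1)
    (hb : 1 / 2 ≤ b 0) (hb1 : |b 1| ≤ 1) (hb2 : |b 2| ≤ 1)
    (hb' : 1 / 2 ≤ b' 0) (hb0' : b' 0 ≤ 2) (hb1' : |b' 1| ≤ 1) (hb2' : |b' 2| ≤ 1)
    (ha : 0 < a) (ha' : 0 < a') (haa : a ≤ K * a') (hK : 1 ≤ K) (hΛ : 1 ≤ Λ)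
    (hw2 : 0 < w2) (hw12 : w2 ≤ w1)
    (d1 : w1 ≤ K * w 1) (d2 : w2 ≤ K * w 2) (d2r : w 2 ≤ K * w2)
    (d1' : w1 ≤ K * w' 1) (d2' : w2 ≤ K * w' 2)
    (hX : 0 ≤ X) (haX : a * X ≤ K * w2)
    (hfr : |dt (e' 2) (e 1)| * w1 ≤ K * (Λ * w2)) :
    ∃ l11 l22 k10 k11 k12 k20 k21 k22 mm t1 t2 : ℝ,
      |l11| ≤ 8 * K ^ 3 ∧ |l22| ≤ 8 * K ^ 3 ∧ |k10| * X ≤ 8 * K ^ 3 ∧ |k11| ≤ 8 * K ^ 3 ∧
      |k12| ≤ 8 * K ^ 3 ∧ |k20| * X ≤ 8 * K ^ 3 ∧ |k21| ≤ 8 * K ^ 3 ∧ |k22| ≤ 8 * K ^ 3 ∧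
      |mm| ≤ 8 * K ^ 3 ∧
      t1 = pk e (cv e w b) (cv e' w' b') 1 * w1 / (Λ * a' * (b' 0 * b 0)) ∧
      t2 = pk e (cv e w b) (cv e' w' b') 2 * w2 / (a' * (b' 0 * b 0)) ∧
      ∀ Δ : V3,
        dt (e 1) Δ / w 1 = 0 * (ty e w b Δ / a) + l11 * (Λ * dt (e 1) Δ / w1) +
          0 * (dt (e 2) Δ / w2) ∧
        dt (e 2) Δ / w 2 = 0 * (ty e w b Δ / a) + 0 * (Λ * dt (e 1) Δ / w1) +
          l22 * (dt (e 2) Δ / w2) ∧
        dt (e' 1) Δ / w' 1 = k10 * (ty e w b Δ / a) + k11 * (Λ * dt (e 1) Δ / w1) +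
          k12 * (dt (e 2) Δ / w2) ∧
        dt (e' 2) Δ / w' 2 = k20 * (ty e w b Δ / a) + k21 * (Λ * dt (e 1) Δ / w1) +
          k22 * (dt (e 2) Δ / w2) ∧
        ty e' w' b' Δ / a' = mm * (ty e w b Δ / a) + (t1 * (Λ * dt (e 1) Δ / w1) +
          t2 * (dt (e 2) Δ / w2)) := by
  have K0 : 0 < K := by linarith
  have Λ0 : 0 < Λ := by linarith
  have w10 : 0 < w1 := by linarith
  have p0 := hw 0
  have p1 := hw 1
  have p2 := hw 2
  have p0' := hw' 0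
  have p1' := hw' 1
  have p2' := hw' 2
  have b0 : 0 < b 0 := by linarith
  have b0' : 0 < b' 0 := by linarith
  have hK3 : K ≤ K ^ 3 := le_self_pow₀ hK (by norm_num)
  have hK23 : K ^ 2 ≤ K ^ 3 := pow_le_pow_right₀ hK (by norm_num)
  have K3 : 0 < K ^ 3 := by positivity
  have K2 : 0 < K ^ 2 := by positivity
  have one : ∀ i j, |dt (e' i) (e j)| ≤ 1 := fun i j => abs_dt_le_one he he' i j
  have g1 := gr_le hw hb hb1 (h02.trans h21)
  have g2 := gr_le hw hb hb2 h02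
  have g1w := gr_w hw hb hb1
  -- ratios
  have r1 : w1 / w 1 ≤ K := by rw [div_le_iff₀ p1]; exact d1
  have r2 : w2 / w 2 ≤ K := by rw [div_le_iff₀ p2]; exact d2
  have r1' : w1 / w' 1 ≤ K := by rw [div_le_iff₀ p1']; exact d1'
  have r2' : w2 / w' 2 ≤ K := by rw [div_le_iff₀ p2']; exact d2'
  have r21' : w2 / w' 1 ≤ K := by
    rw [div_le_iff₀ p1']; linarith
  have wΛ : ∀ x : ℝ, 0 ≤ x → x / Λ ≤ x := fun x hx => div_le_self hx hΛ
  refine ⟨w1 / (Λ * w 1), w2 / w 2, dt (e' 1) (e 0) * a / w' 1,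
    (dt (e' 1) (e 1) - dt (e' 1) (e 0) * gr b w 1) * (w1 / (Λ * w' 1)),
    (dt (e' 1) (e 2) - dt (e' 1) (e 0) * gr b w 2) * (w2 / w' 1),
    dt (e' 2) (e 0) * a / w' 2,
    (dt (e' 2) (e 1) - dt (e' 2) (e 0) * gr b w 1) * (w1 / (Λ * w' 2)),
    (dt (e' 2) (e 2) - dt (e' 2) (e 0) * gr b w 2) * (w2 / w' 2),
    dt (e 0) (cv e' w' b') * a / (a' * b' 0),
    pk e (cv e w b) (cv e' w' b') 1 * w1 / (Λ * a' * (b' 0 * b 0)),
    pk e (cv e w b) (cv e' w' b') 2 * w2 / (a' * (b' 0 * b 0)),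
    ?_, ?_, ?_, ?_, ?_, ?_, ?_, ?_, ?_, rfl, rfl, ?_⟩
  · rw [abs_of_pos (by positivity)]
    have : w1 / (Λ * w 1) = w1 / w 1 / Λ := by field_simp
    rw [this]
    have := wΛ (w1 / w 1) (by positivity)
    linarith
  · rw [abs_of_pos (by positivity)]; linarith
  · rw [abs_div, abs_mul, abs_of_pos ha, abs_of_pos p1', div_mul_eq_mul_div, div_le_iff₀ p1']
    have h1 : |dt (e' 1) (e 0)| * a * X ≤ 1 * (a * X) := by
      rw [mul_assoc]; exact mul_le_mul_of_nonneg_right (one 1 0) (by positivity)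
    have h2 : K * w2 ≤ K * (K * w' 1) := by
      apply mul_le_mul_of_nonneg_left _ K0.le; linarith
    have h3 : K * (K * w' 1) ≤ 8 * K ^ 3 * w' 1 := by
      have : K * (K * w' 1) = K ^ 2 * w' 1 := by ring
      rw [this]
      apply mul_le_mul_of_nonneg_right _ p1'.le; linarith
    linarith
  · rw [abs_mul, abs_of_pos (by positivity : 0 < w1 / (Λ * w' 1))]
    have h1 := comb_le (one 1 1) (one 1 0) g1
    have h2 : w1 / (Λ * w' 1) ≤ K := by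
      have : w1 / (Λ * w' 1) = w1 / w' 1 / Λ := by field_simp
      rw [this]
      have := wΛ (w1 / w' 1) (by positivity)
      linarith
    calc _ ≤ 3 * K := mul_le_mul h1 h2 (by positivity) (by norm_num)
      _ ≤ _ := by linarith
  · rw [abs_mul, abs_of_pos (by positivity : 0 < w2 / w' 1)]
    have h1 := comb_le (one 1 2) (one 1 0) g2
    calc _ ≤ 3 * K := mul_le_mul h1 r21' (by positivity) (by norm_num)
      _ ≤ _ := by linarith
  · rw [abs_div, abs_mul, abs_of_pos ha, abs_of_pos p2', div_mul_eq_mul_div, div_le_iff₀ p2']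
    have h1 : |dt (e' 2) (e 0)| * a * X ≤ 1 * (a * X) := by
      rw [mul_assoc]; exact mul_le_mul_of_nonneg_right (one 2 0) (by positivity)
    have h2 : K * w2 ≤ K * (K * w' 2) := by
      apply mul_le_mul_of_nonneg_left _ K0.le; linarith
    have h3 : K * (K * w' 2) ≤ 8 * K ^ 3 * w' 2 := by
      have : K * (K * w' 2) = K ^ 2 * w' 2 := by ring
      rw [this]
      apply mul_le_mul_of_nonneg_right _ p2'.le; linarith
    linarith
  · rw [abs_mul, abs_of_pos (by positivity : 0 < w1 / (Λ * w' 2)), mul_div_assoc',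
      div_le_iff₀ (by positivity)]
    have h1 : |dt (e' 2) (e 1) - dt (e' 2) (e 0) * gr b w 1| * w1 ≤
        K * (Λ * w2) + K * (2 * w 0) := by
      calc _ ≤ (|dt (e' 2) (e 1)| + |gr b w 1|) * w1 := by
            apply mul_le_mul_of_nonneg_right _ w10.le
            refine (abs_sub _ _).trans (add_le_add le_rfl ?_)
            rw [abs_mul]
            calc _ ≤ 1 * |gr b w 1| := mul_le_mul_of_nonneg_right (one 2 0) (abs_nonneg _)
              _ = _ := one_mul _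
        _ = |dt (e' 2) (e 1)| * w1 + |gr b w 1| * w1 := by ring
        _ ≤ K * (Λ * w2) + K * (|gr b w 1| * w 1) := by
            apply add_le_add hfr
            calc |gr b w 1| * w1 ≤ |gr b w 1| * (K * w 1) :=
                  mul_le_mul_of_nonneg_left d1 (abs_nonneg _)
              _ = _ := by ring
        _ ≤ _ := by
            apply add_le_add le_rfl
            exact mul_le_mul_of_nonneg_left g1w K0.le
    have h2 : K * (Λ * w2) ≤ K ^ 2 * (Λ * w' 2) := by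
      calc K * (Λ * w2) ≤ K * (Λ * (K * w' 2)) := by gcongr
        _ = _ := by ring
    have h3 : K * (2 * w 0) ≤ 2 * K ^ 3 * (Λ * w' 2) := by
      have h4 : w 0 ≤ K ^ 2 * w' 2 := by
        calc w 0 ≤ w 2 := h02
          _ ≤ K * w2 := d2r
          _ ≤ K * (K * w' 2) := by gcongr
          _ = _ := by ring
      have h5 : w' 2 ≤ Λ * w' 2 := by nlinarith
      calc K * (2 * w 0) ≤ K * (2 * (K ^ 2 * w' 2)) := by gcongr
        _ = 2 * K ^ 3 * w' 2 := by ring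
        _ ≤ _ := by gcongr
    have h6 : K ^ 2 * (Λ * w' 2) ≤ K ^ 3 * (Λ * w' 2) := by gcongr
    have h7 : 0 < K ^ 3 * (Λ * w' 2) := by positivity
    linarith
  · rw [abs_mul, abs_of_pos (by positivity : 0 < w2 / w' 2)]
    have h1 := comb_le (one 2 2) (one 2 0) g2
    calc _ ≤ 3 * K := mul_le_mul h1 r2' (by positivity) (by norm_num)
      _ ≤ _ := by linarith
  · have h1 : |dt (e 0) (cv e' w' b')| ≤ 4 := by
      rw [dt_cv]
      have o : ∀ j, |dt (e 0) (e' j)| ≤ 1 := fun j => abs_dt_le_one he' he 0 j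
      have t0 : |w' 0 / w' 0 * b' 0 * dt (e 0) (e' 0)| ≤ 2 := by
        rw [div_self p0'.ne', one_mul, abs_mul, abs_of_pos b0']
        calc b' 0 * |dt (e 0) (e' 0)| ≤ 2 * 1 := mul_le_mul hb0' (o 0) (abs_nonneg _) (by norm_num)
          _ = 2 := by norm_num
      have tk : ∀ k : Fin 3, |b' k| ≤ 1 → w' 0 ≤ w' k →
          |w' 0 / w' k * b' k * dt (e 0) (e' k)| ≤ 1 := by
        intro k hk hwk
        rw [abs_mul, abs_mul, abs_of_pos (div_pos p0' (hw' k))]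
        have u1 : w' 0 / w' k ≤ 1 := by rw [div_le_one (hw' k)]; exact hwk
        calc w' 0 / w' k * |b' k| * |dt (e 0) (e' k)| ≤ 1 * 1 * 1 :=
              mul_le_mul (mul_le_mul u1 hk (abs_nonneg _) (by norm_num)) (o k) (abs_nonneg _)
                (by norm_num)
          _ = 1 := by norm_num
      have t1 := tk 1 hb1' (h02'.trans h21')
      have t2 := tk 2 hb2' h02'
      refine (abs_add_le _ _).trans ?_
      have := abs_add_le (w' 0 / w' 0 * b' 0 * dt (e 0) (e' 0))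
        (w' 0 / w' 1 * b' 1 * dt (e 0) (e' 1))
      linarith
    rw [abs_div, abs_mul, abs_of_pos ha, abs_of_pos (by positivity : 0 < a' * b' 0),
      div_le_iff₀ (by positivity)]
    have h2 : |dt (e 0) (cv e' w' b')| * a ≤ 4 * (K * a') :=
      mul_le_mul h1 haa ha.le (by norm_num)
    have h3 : 4 * (K * a') ≤ 8 * K ^ 3 * (a' * b' 0) := by
      have h4 : K * a' ≤ K ^ 3 * a' := by gcongr
      have h5 : K ^ 3 * a' * (1 / 2) ≤ K ^ 3 * a' * b' 0 := by gcongr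
      nlinarith
    linarith
  · intro Δ
    refine ⟨?_, ?_, ?_, ?_, ?_⟩
    · field_simp; ring
    · field_simp; ring
    · rw [row (e' := e') he (w := w) (b := b) Δ 1]
      field_simp
    · rw [row (e' := e') he (w := w) (b := b) Δ 2]
      field_simp
    · have h1 := nrm_id he (cv e w b) (cv e' w' b') Δ (by rw [dt_cv0 he p0.ne']; exact b0.ne')
      rw [ty_cv p0'.ne' b0'.ne', ty_cv p0.ne' b0.ne', dt_cv0 he p0.ne'] at h1
      have h2 : ty e' w' b' Δ = (dt (e 0) (cv e' w' b') * ty e w b Δ +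
          (pk e (cv e w b) (cv e' w' b') 1 * dt (e 1) Δ +
            pk e (cv e w b) (cv e' w' b') 2 * dt (e 2) Δ) / b 0) / b' 0 := by
        rw [eq_div_iff b0'.ne', mul_comm, h1]
        field_simp
      rw [h2]
      field_simp

end Crest.Agent.R136.Lkf18
end

-- ▼ part R136/Lnk4_989
section

/-!
# R136 (S0187), g-free tilt (PLAN 2, B4, (III)): time reversal (helper989)

`one_at` : the three inequalities of one sheet at the base heights `z0` (`b = 0`) and `z0 + ρ`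
(`b = 1`), forward velocities in both cases.
-/

set_option autoImplicit false
set_option linter.unusedVariables false

namespace Crest.Agent.R136.Lnk989

open Crest.Agent.R136.Sh605 Crest.Agent.R136.Tl102 Crest.Agent.R136.Lgt989
open Crest.Agent.R136.Mdr535 (ty gr y_bound)

variable {e : Fin 3 → V3} {c : Ln4} {w : V3} {q : ℝ → V3 → ℝ} {a z0 ρ : ℝ}

/-- reversed line -/
def rvl (s : ℝ) (T : Ln4) : Ln4 := ⟨fun i => T.p i + s * T.v i, fun i => - T.v i⟩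

/-- reversed function -/
def rvq (s : ℝ) (q : ℝ → V3 → ℝ) : ℝ → V3 → ℝ := fun z x => q (s - z) x

theorem rvl_pos (s : ℝ) (T : Ln4) (z : ℝ) : (rvl s T).pos z = T.pos (s - z) := by
  funext i; simp only [rvl, Ln4.pos]; ring

theorem rvq_isQ {q : ℝ → V3 → ℝ} (s : ℝ) (hq : IsQ q) : IsQ (rvq s q) := by
  obtain ⟨c0, c1, c2, b, d, g, h⟩ := hq
  refine ⟨c0 + c1 * s + c2 * s ^ 2, -c1 - 2 * c2 * s, c2, fun i => b i + d i * s, fun i => - d i, g,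
    fun z x => ?_⟩
  unfold rvq
  rw [h]
  have e1 : ∑ i, (b i + d i * (s - z)) * x i = ∑ i, (b i + d i * s + -d i * z) * x i :=
    Finset.sum_congr rfl fun i _ => by ring
  rw [e1]; ring

theorem rv_inK {e : Fin 3 → V3} {c : Ln4} {w : V3} (s z : ℝ) (x : V3) :
    InK e (rvl s c) w z x ↔ InK e c w (s - z) x := by
  unfold InK
  rw [rvl_pos]

theorem rv_stP (S : StP e c w q z0 ρ) :
    StP e (rvl (2 * z0 + ρ) c) w (rvq (2 * z0 + ρ) q) z0 ρ where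
  ortho := S.ortho
  isQ := rvq_isQ _ S.isQ
  pos := S.pos
  st0 := by
    intro z h1 h2 x τ hτ hx hx'
    rw [rv_inK] at hx hx'
    exact S.st0 _ (by linarith) (by linarith) x τ hτ hx hx'
  st1 := by
    intro z h1 h2 x τ hτ hx hx'
    rw [rv_inK] at hx hx'
    exact S.st1 _ (by linarith) (by linarith) x τ hτ hx hx'
  st2 := by
    intro z h1 h2 x τ hτ hx hx'
    rw [rv_inK] at hx hx'
    exact S.st2 _ (by linarith) (by linarith) x τ hτ hx hx'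

theorem rv_inSheet {T : Ln4} (hT : InSheet T e c w q a z0 ρ) :
    InSheet (rvl (2 * z0 + ρ) T) e (rvl (2 * z0 + ρ) c) w (rvq (2 * z0 + ρ) q) a z0 ρ := by
  intro z h1 h2
  rw [rv_inK, rvl_pos]
  exact hT _ (by linarith) (by linarith)

theorem rv_isExp {T : Ln4} {b0 b1 : V3} {G : QF} (hE : IsExp q e w T z0 ρ b0 b1 G) :
    IsExp (rvq (2 * z0 + ρ) q) e w (rvl (2 * z0 + ρ) T) z0 ρ (fun k => b0 k + b1 k)
      (fun k => - b1 k) G := by
  intro ζ x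
  have h := hE (1 - ζ) x
  have e1 : 2 * z0 + ρ - (z0 + ρ * ζ) = z0 + ρ * (1 - ζ) := by ring
  rw [rvl_pos]
  unfold rvq
  rw [e1, h]
  have e2 : Fq b0 b1 G (1 - ζ) x = Fq (fun k => b0 k + b1 k) (fun k => - b1 k) G ζ x := by
    simp only [Fq, dt, bz]; ring
  rw [e2]

/-- sign change -/
theorem OneN.flip {K d g1 g2 h11 h12 h22 N0 N1 x1 x2 v1 v2 : ℝ}
    (h : OneN K d g1 g2 h11 h12 h22 N0 N1 x1 x2 v1 v2) :
    OneN K d (-g1) (-g2) h11 h12 h22 N0 (-N1) x1 x2 (-v1) (-v2) := by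
  obtain ⟨h0, h1, h2⟩ := h
  refine ⟨h0, ?_, ?_⟩
  · have e1 : -N1 + (-g1 * x1 + -g2 * x2) + p2 h11 h12 h22 x1 x2 (-v1) (-v2) =
        -(N1 + (g1 * x1 + g2 * x2) + p2 h11 h12 h22 x1 x2 v1 v2) := by
      simp only [p2]; ring
    rw [e1, abs_neg, abs_neg]; exact h1
  · have e1 : -g1 * -v1 + -g2 * -v2 + q2 h11 h12 h22 (-v1) (-v2) =
        g1 * v1 + g2 * v2 + q2 h11 h12 h22 v1 v2 := by
      simp only [q2]; ring
    rw [e1, abs_neg]; exact h2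

/-- gradient at the base height `b` -/
def nb (b0 b1 : V3) (b : ℝ) : V3 := fun k => b0 k + b * b1 k

/-- the coefficients of a sheet at the base height `b ∈ {0, 1}` (forward velocities) -/
structure Cf (b0 b1 : V3) (G : QF) (b β : ℝ) (g1 g2 h11 h12 h22 : ℝ) : Prop where
  g1e : g1 = β / nb b0 b1 b 0 * shB1 (nb b0 b1 b) b1 1
  g2e : g2 = β / nb b0 b1 b 0 * shB1 (nb b0 b1 b) b1 2
  h11e : h11 = β / nb b0 b1 b 0 * (shG (nb b0 b1 b) G).uu
  h12e : h12 = β / nb b0 b1 b 0 * (shG (nb b0 b1 b) G).uv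
  h22e : h22 = β / nb b0 b1 b 0 * (shG (nb b0 b1 b) G).vv

theorem nb_zero (b0 b1 : V3) : nb b0 b1 0 = b0 := by funext k; simp [nb]

theorem nb_one (b0 b1 : V3) : nb b0 b1 1 = fun k => b0 k + b1 k := by funext k; simp [nb]

/-- **one sheet at the base height `b ∈ {0, 1}`** -/
theorem one_at (S : StP e c w q z0 ρ) (a0 : 0 < a) (ha : a ≤ w 0) (hρ : 0 < ρ) {T T' : Ln4}
    (hT : InSheet T e c w q a z0 ρ) (hT' : InSheet T' e c w q a z0 ρ) {b0 b1 : V3} {G : QF}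
    (hE : IsExp q e w T z0 ρ b0 b1 G) {μ : ℝ} (hμ : 20000 * μ ≤ 1)
    (h : ∀ z, z = z0 ∨ z = z0 + ρ →
      |dt (e 1) (dis T T' z)| ≤ μ * w 1 ∧ |dt (e 2) (dis T T' z)| ≤ μ * w 2)
    {b : ℝ} (hb : b = 0 ∨ b = 1) {g1 g2 h11 h12 h22 : ℝ}
    (C : Cf b0 b1 G b (w 0 / a) g1 g2 h11 h12 h22) :
    OneN 164 (800 * μ) g1 g2 h11 h12 h22
      (ty e w (nb b0 b1 b) (dis T T' (z0 + ρ * b)) / a)
      (ty e w (nb b0 b1 b) (dis T T' (z0 + ρ) - dis T T' z0) / a)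
      (dt (e 1) (dis T T' (z0 + ρ * b)) / w 1) (dt (e 2) (dis T T' (z0 + ρ * b)) / w 2)
      (dt (e 1) (dis T T' (z0 + ρ) - dis T T' z0) / w 1)
      (dt (e 2) (dis T T' (z0 + ρ) - dis T T' z0) / w 2) := by
  obtain ⟨c1, c2, c3, c4, c5⟩ := C
  rcases hb with rfl | rfl
  · rw [nb_zero] at c1 c2 c3 c4 c5 ⊢
    rw [mul_zero, add_zero, c1, c2, c3, c4, c5]
    exact one_of S a0 ha hρ hT hT' hE hμ h
  · rw [nb_one] at c1 c2 c3 c4 c5 ⊢
    rw [mul_one]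
    have hd : ∀ z, dis (rvl (2 * z0 + ρ) T) (rvl (2 * z0 + ρ) T') z = dis T T' (2 * z0 + ρ - z) := by
      intro z
      unfold dis
      rw [rvl_pos, rvl_pos]
    have d1 : dis (rvl (2 * z0 + ρ) T) (rvl (2 * z0 + ρ) T') z0 = dis T T' (z0 + ρ) := by
      rw [hd]; congr 1; ring
    have d2 : dis (rvl (2 * z0 + ρ) T) (rvl (2 * z0 + ρ) T') (z0 + ρ) = dis T T' z0 := by
      rw [hd]; congr 1; ring
    have M := one_of (rv_stP S) a0 ha hρ (rv_inSheet hT) (rv_inSheet hT') (rv_isExp hE) hμ (by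
      intro z hz
      rcases hz with rfl | rfl
      · rw [d1]; exact h _ (Or.inr rfl)
      · rw [d2]; exact h _ (Or.inl rfl))
    rw [d1, d2] at M
    have M' := M.flip
    have f1 : -(w 0 / a / (b0 0 + b1 0) * shB1 (fun k => b0 k + b1 k) (fun k => -b1 k) 1) = g1 := by
      rw [c1]
      simp only [shB1, Matrix.cons_val]; ring
    have f2 : -(w 0 / a / (b0 0 + b1 0) * shB1 (fun k => b0 k + b1 k) (fun k => -b1 k) 2) = g2 := by
      rw [c2]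
      simp only [shB1, Matrix.cons_val]; ring
    have f3 : ∀ u : V3, -(dt u (dis T T' z0 - dis T T' (z0 + ρ))) =
        dt u (dis T T' (z0 + ρ) - dis T T' z0) := by
      intro u; simp only [dt, Pi.sub_apply]; ring
    have f4 : -(ty e w (fun k => b0 k + b1 k) (dis T T' z0 - dis T T' (z0 + ρ)) / a) =
        ty e w (fun k => b0 k + b1 k) (dis T T' (z0 + ρ) - dis T T' z0) / a := by
      simp only [ty, dt, Pi.sub_apply]; ring
    rw [f1, f2, f4, ← neg_div, ← neg_div, f3, f3] at M'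
    rw [c3, c4, c5]
    exact M'

end Crest.Agent.R136.Lnk989
end

-- ▼ part R136/Lnk5_989
section

/-!
# R136 (S0187), g-free tilt (PLAN 2, B4, (III)): bounds of the coefficients (helper989)

`nb_bd`, `cf_le` : gradient and coefficients at both base heights; `Mtx` : change of coordinates.
-/

set_option autoImplicit false
set_option linter.unusedVariables false

namespace Crest.Agent.R136.Lnk989

open Crest.Agent.R136.Sh605 Crest.Agent.R136.Tl102 Crest.Agent.R136.Lgt989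
open Crest.Agent.R136.Mdr535 (ty gr y_bound kap_sub)

theorem nb_bd {b0 b1 : V3} {G : QF} (N : NrmC b0 b1 G) {b : ℝ} (hb : b = 0 ∨ b = 1) :
    1 / 2 ≤ nb b0 b1 b 0 ∧ nb b0 b1 b 0 ≤ 2 ∧ |nb b0 b1 b 1| ≤ 1 ∧ |nb b0 b1 b 2| ≤ 1 := by
  have a0 : |(0 : ℝ)| ≤ 1 := by norm_num
  rcases hb with rfl | rfl
  · have h := N.st 0 le_rfl zero_le_one 0 0 0 a0 a0 a0
    simp only [mul_zero, zero_mul, add_zero] at h
    rw [nb_zero]
    exact ⟨h.1, h.2, N.b01, N.b02⟩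
  · have h := N.st 1 zero_le_one le_rfl 0 0 0 a0 a0 a0
    simp only [mul_zero, one_mul, add_zero] at h
    rw [nb_one]
    exact ⟨h.1, h.2, N.b11, N.b12⟩

/-- **size of the coefficients** -/
theorem cf_le {b0 b1 : V3} {G : QF} (N : NrmC b0 b1 G) {b β : ℝ} (hb : b = 0 ∨ b = 1) (hβ : 0 ≤ β)
    {g1 g2 h11 h12 h22 : ℝ} (C : Cf b0 b1 G b β g1 g2 h11 h12 h22) {Bc : ℝ}
    (hB : 256 * (β * kap b0 b1 G) ≤ Bc) :
    |g1| ≤ Bc ∧ |g2| ≤ Bc ∧ |h11| ≤ Bc ∧ |h12| ≤ Bc ∧ |h22| ≤ Bc := by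
  obtain ⟨m1, m2, -, -⟩ := nb_bd N hb
  have hb0 : 0 ≤ b := by rcases hb with rfl | rfl <;> norm_num
  have hb1 : b ≤ 1 := by rcases hb with rfl | rfl <;> norm_num
  have K := (kap_sub N hb0 hb1 zero_le_one (le_refl (1:ℝ))).1
  have e1 : (fun k => (1:ℝ) * b1 k) = b1 := by funext k; rw [one_mul]
  rw [e1] at K
  have K' : kap (nb b0 b1 b) b1 G ≤ 128 * kap b0 b1 G := K
  obtain ⟨k1, k2, k3, k4, k5⟩ := kap_bd (nb b0 b1 b) b1 G
  have mp : 0 < nb b0 b1 b 0 := by linarith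
  have hk := Tl102.kap_nonneg b0 b1 G
  have D : |β / nb b0 b1 b 0| ≤ 2 * β := by
    rw [abs_div, abs_of_pos mp, abs_of_nonneg hβ, div_le_iff₀ mp]
    nlinarith
  have key : ∀ x : ℝ, |x| ≤ kap (nb b0 b1 b) b1 G → |β / nb b0 b1 b 0 * x| ≤ Bc := by
    intro x hx
    rw [abs_mul]
    calc |β / nb b0 b1 b 0| * |x| ≤ (2 * β) * (128 * kap b0 b1 G) :=
          mul_le_mul D (hx.trans K') (abs_nonneg _) (by positivity)
      _ = 256 * (β * kap b0 b1 G) := by ring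
      _ ≤ Bc := hB
  rw [C.g1e, C.g2e, C.h11e, C.h12e, C.h22e]
  exact ⟨key _ k1, key _ k2, key _ k3, key _ k4, key _ k5⟩

/-- every sheet has its coefficients -/
theorem exists_cf (b0 b1 : V3) (G : QF) (b β : ℝ) :
    ∃ g1 g2 h11 h12 h22, Cf b0 b1 G b β g1 g2 h11 h12 h22 := ⟨_, _, _, _, _, rfl, rfl, rfl, rfl, rfl⟩

/-- **change of coordinates**: normal coordinate `Y = ty / a` of `S`, strip coordinates `A`, `B` -/
structure Mtx (e e' : Fin 3 → V3) (w w' m m' : V3) (a a' : ℝ) (A B : V3 → ℝ) (L Bc : ℝ)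
    (l10 l11 l12 l20 l21 l22 k10 k11 k12 k20 k21 k22 mm t1 t2 : ℝ) : Prop where
  x1 : ∀ X, dt (e 1) X / w 1 = l10 * (ty e w m X / a) + l11 * A X + l12 * B X
  x2 : ∀ X, dt (e 2) X / w 2 = l20 * (ty e w m X / a) + l21 * A X + l22 * B X
  y1 : ∀ X, dt (e' 1) X / w' 1 = k10 * (ty e w m X / a) + k11 * A X + k12 * B X
  y2 : ∀ X, dt (e' 2) X / w' 2 = k20 * (ty e w m X / a) + k21 * A X + k22 * B X
  nn : ∀ X, ty e' w' m' X / a' = mm * (ty e w m X / a) + (t1 * A X + t2 * B X)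
  L1 : 1 ≤ L
  l11b : |l11| ≤ L
  l12b : |l12| ≤ L
  l21b : |l21| ≤ L
  l22b : |l22| ≤ L
  k11b : |k11| ≤ L
  k12b : |k12| ≤ L
  k21b : |k21| ≤ L
  k22b : |k22| ≤ L
  l10b : |l10| * Bc ≤ L
  l20b : |l20| * Bc ≤ L
  k10b : |k10| * Bc ≤ L
  k20b : |k20| * Bc ≤ L
  mmb : |mm| ≤ L

end Crest.Agent.R136.Lnk989
end

-- ▼ part R136/Lkg_18
section

/-!
# R136 (S0187), PLAN 2, leaf (B4), (III): `Mtx` of helper989 from `frame_mat` (helper18)
-/

set_option autoImplicit false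
set_option linter.unusedVariables false

namespace Crest.Agent.R136.Lkf18

open Crest.Agent.R136.Sh605
open Crest.Agent.R136.Mdr535 (ty gr)
open Crest.Agent.R136.Mlt89 (cv)
open Crest.Agent.R136.Lnk989 (Mtx)

/-- **the change of coordinates** `Mtx` at one height: strip coordinates `A = Λ <e 1, Δ> / w1`,
`B = <e 2, Δ> / w2`; `L = 8 K ^ 3`. -/
theorem mtx_of {e e' : Fin 3 → V3} (he : Ortho e) (he' : Ortho e') {w w' b b' : V3}
    {a a' w1 w2 Λ K Bc : ℝ} (hw : ∀ i, 0 < w i) (hw' : ∀ i, 0 < w' i)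
    (h02 : w 0 ≤ w 2) (h21 : w 2 ≤ w 1) (h02' : w' 0 ≤ w' 2) (h21' : w' 2 ≤ w' 1)
    (hb : 1 / 2 ≤ b 0) (hb1 : |b 1| ≤ 1) (hb2 : |b 2| ≤ 1)
    (hb' : 1 / 2 ≤ b' 0) (hb0' : b' 0 ≤ 2) (hb1' : |b' 1| ≤ 1) (hb2' : |b' 2| ≤ 1)
    (ha : 0 < a) (ha' : 0 < a') (haa : a ≤ K * a') (hK : 1 ≤ K) (hΛ : 1 ≤ Λ)
    (hw2 : 0 < w2) (hw12 : w2 ≤ w1)
    (d1 : w1 ≤ K * w 1) (d2 : w2 ≤ K * w 2) (d2r : w 2 ≤ K * w2)
    (d1' : w1 ≤ K * w' 1) (d2' : w2 ≤ K * w' 2)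
    (hX : 0 ≤ Bc) (haX : a * Bc ≤ K * w2)
    (hfr : |dt (e' 2) (e 1)| * w1 ≤ K * (Λ * w2)) :
    ∃ l11 l22 k10 k11 k12 k20 k21 k22 mm : ℝ,
      Mtx e e' w w' b b' a a' (fun Δ => Λ * dt (e 1) Δ / w1) (fun Δ => dt (e 2) Δ / w2)
        (8 * K ^ 3) Bc 0 l11 0 0 0 l22 k10 k11 k12 k20 k21 k22 mm
        (pk e (cv e w b) (cv e' w' b') 1 * w1 / (Λ * a' * (b' 0 * b 0)))
        (pk e (cv e w b) (cv e' w' b') 2 * w2 / (a' * (b' 0 * b 0))) := by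
  obtain ⟨l11, l22, k10, k11, k12, k20, k21, k22, mm, t1, t2, c1, c2, c3, c4, c5, c6, c7, c8, c9,
    ht1, ht2, H⟩ := frame_mat he he' hw hw' h02 h21 h02' h21' hb hb1 hb2 hb' hb0' hb1' hb2' ha ha'
      haa hK hΛ hw2 hw12 d1 d2 d2r d1' d2' hX haX hfr
  subst ht1 ht2
  have hK3 : 1 ≤ K ^ 3 := one_le_pow₀ hK
  have hL : 0 ≤ 8 * K ^ 3 := by positivity
  exact ⟨l11, l22, k10, k11, k12, k20, k21, k22, mm,
    { x1 := fun X => (H X).1
      x2 := fun X => (H X).2.1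
      y1 := fun X => (H X).2.2.1
      y2 := fun X => (H X).2.2.2.1
      nn := fun X => (H X).2.2.2.2
      L1 := by linarith
      l11b := c1
      l12b := by rw [abs_zero]; exact hL
      l21b := by rw [abs_zero]; exact hL
      l22b := c2
      k11b := c4
      k12b := c5
      k21b := c7
      k22b := c8
      l10b := by rw [abs_zero, zero_mul]; exact hL
      l20b := by rw [abs_zero, zero_mul]; exact hL
      k10b := c3
      k20b := c6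
      mmb := c9 }⟩

end Crest.Agent.R136.Lkf18
end

-- ▼ part R136/Lnk6_989
section

/-!
# R136 (S0187), g-free tilt (PLAN 2, B4, (III)): assembly of the link (helper989)

`SixAt` : the abstract half (helper816), `link_at` : two sheets through a line `T`, base height
`b ∈ {0, 1}` ⊢ 108's `Six` for every pair `T, T'`.
-/

set_option autoImplicit false
set_option linter.unusedVariables false

namespace Crest.Agent.R136.Lnk989

open Crest.Agent.R136.Sh605 Crest.Agent.R136.Tl102 Crest.Agent.R136.Lgt989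
open Crest.Agent.R136.Mdr535 (ty gr y_bound kap_sub)
open Crest.Agent.R136.Clu108 (Six)

/-- abstract half of the link, constants fixed before the pair -/
def SixAt (C K0 d0 B L M : ℝ) (g1 g2 h11 h12 h22 g1' g2' h11' h12' h22' l10 l11 l12 l20 l21 l22 k10
    k11 k12 k20 k21 k22 mm t1 t2 : ℝ) : Prop :=
  ∃ g g' : ℝ × ℝ, ∃ h h' : ℝ × ℝ × ℝ,
    (|g.1| ≤ 100 * L ^ 3 * B ∧ |g.2| ≤ 100 * L ^ 3 * B ∧ |h.1| ≤ 100 * L ^ 3 * B ∧
      |h.2.1| ≤ 100 * L ^ 3 * B ∧ |h.2.2| ≤ 100 * L ^ 3 * B) ∧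
    (|g'.1| ≤ 100 * L ^ 3 * B ∧ |g'.2| ≤ 100 * L ^ 3 * B ∧ |h'.1| ≤ 100 * L ^ 3 * B ∧
      |h'.2.1| ≤ 100 * L ^ 3 * B ∧ |h'.2.2| ≤ 100 * L ^ 3 * B) ∧
    ∀ Y0 Y1 N0 N1 A0 B0 A1 B1 x1 x2 v1 v2 x1' x2' v1' v2' m : ℝ,
      OneN K0 d0 g1 g2 h11 h12 h22 Y0 Y1 x1 x2 v1 v2 →
      OneN K0 d0 g1' g2' h11' h12' h22' N0 N1 x1' x2' v1' v2' →
      x1 = l10 * Y0 + l11 * A0 + l12 * B0 → x2 = l20 * Y0 + l21 * A0 + l22 * B0 →
      v1 = l10 * Y1 + l11 * A1 + l12 * B1 → v2 = l20 * Y1 + l21 * A1 + l22 * B1 →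
      x1' = k10 * Y0 + k11 * A0 + k12 * B0 → x2' = k20 * Y0 + k21 * A0 + k22 * B0 →
      v1' = k10 * Y1 + k11 * A1 + k12 * B1 → v2' = k20 * Y1 + k21 * A1 + k22 * B1 →
      N0 = mm * Y0 + (t1 * A0 + t2 * B0) → N1 = mm * Y1 + (t1 * A1 + t2 * B1) →
      |x1| ≤ m → |x2| ≤ m → |v1| ≤ m → |v2| ≤ m → |x1'| ≤ m → |x2'| ≤ m → |v1'| ≤ m →
      |v2'| ≤ m → |A0| ≤ m → |B0| ≤ m → |A1| ≤ m → |B1| ≤ m → m ≤ 1 →
      Six (C * L ^ 4 * K0) (C * L ^ 4 * (d0 + m)) M g g' h h' Y0 Y1 ((t1 * A0 + t2 * B0) / M)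
        ((t1 * B0 - t2 * A0) / M) ((t1 * A1 + t2 * B1) / M) ((t1 * B1 - t2 * A1) / M)

/-- the abstract half -/
def SixOf (C : ℝ) : Prop := ∀ (K0 d0 B L M g1 g2 h11 h12 h22 g1' g2' h11' h12' h22' l10 l11 l12 l20
    l21 l22 k10 k11 k12 k20 k21 k22 mm t1 t2 : ℝ),
  1 ≤ K0 → 0 ≤ d0 → 1 ≤ L → 0 < M → M ^ 2 = t1 ^ 2 + t2 ^ 2 →
  |g1| ≤ B → |g2| ≤ B → |h11| ≤ B → |h12| ≤ B → |h22| ≤ B →
  |g1'| ≤ B → |g2'| ≤ B → |h11'| ≤ B → |h12'| ≤ B → |h22'| ≤ B →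
  |l11| ≤ L → |l12| ≤ L → |l21| ≤ L → |l22| ≤ L → |k11| ≤ L → |k12| ≤ L → |k21| ≤ L → |k22| ≤ L →
  |l10| * B ≤ L → |l20| * B ≤ L → |k10| * B ≤ L → |k20| * B ≤ L → |mm| ≤ L →
  SixAt C K0 d0 B L M g1 g2 h11 h12 h22 g1' g2' h11' h12' h22' l10 l11 l12 l20 l21 l22 k10
    k11 k12 k20 k21 k22 mm t1 t2

/-- the data of two sheets through the line `T` -/
structure Two (e e' : Fin 3 → V3) (c c' : Ln4) (w w' : V3) (q q' : ℝ → V3 → ℝ) (a a' z0 ρ : ℝ)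
    (T : Ln4) (b0 b1 : V3) (G : QF) (b0' b1' : V3) (G' : QF) : Prop where
  S : StP e c w q z0 ρ
  S' : StP e' c' w' q' z0 ρ
  a0 : 0 < a
  aw : a ≤ w 0
  a0' : 0 < a'
  aw' : a' ≤ w' 0
  ρ0 : 0 < ρ
  hT : InSheet T e c w q a z0 ρ
  kT : InSheet T e' c' w' q' a' z0 ρ
  hE : IsExp q e w T z0 ρ b0 b1 G
  hE' : IsExp q' e' w' T z0 ρ b0' b1' G'

variable {e e' : Fin 3 → V3} {c c' : Ln4} {w w' : V3} {q q' : ℝ → V3 → ℝ} {a a' z0 ρ : ℝ}
  {T : Ln4} {b0 b1 b0' b1' : V3} {G G' : QF} {A B : V3 → ℝ}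

/-- **LINK**: two sheets through `T` -/
theorem link_at {C : ℝ} (HS : SixOf C)
    (D : Two e e' c c' w w' q q' a a' z0 ρ T b0 b1 G b0' b1' G') {b : ℝ} (hb : b = 0 ∨ b = 1)
    {Bc L M μ : ℝ} (hB : 256 * (w 0 / a * kap b0 b1 G) ≤ Bc)
    (hB' : 256 * (w' 0 / a' * kap b0' b1' G') ≤ Bc) (hμ : 20000 * μ ≤ 1) (μ0 : 0 ≤ μ)
    {l10 l11 l12 l20 l21 l22 k10 k11 k12 k20 k21 k22 mm t1 t2 : ℝ}
    (X : Mtx e e' w w' (nb b0 b1 b) (nb b0' b1' b) a a' A B L Bc l10 l11 l12 l20 l21 l22 k10 k11 k12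
      k20 k21 k22 mm t1 t2) (hM : 0 < M) (hMt : M ^ 2 = t1 ^ 2 + t2 ^ 2) :
    ∃ g g' : ℝ × ℝ, ∃ h h' : ℝ × ℝ × ℝ,
      (|g.1| ≤ 100 * L ^ 3 * Bc ∧ |g.2| ≤ 100 * L ^ 3 * Bc ∧ |h.1| ≤ 100 * L ^ 3 * Bc ∧
        |h.2.1| ≤ 100 * L ^ 3 * Bc ∧ |h.2.2| ≤ 100 * L ^ 3 * Bc) ∧
      (|g'.1| ≤ 100 * L ^ 3 * Bc ∧ |g'.2| ≤ 100 * L ^ 3 * Bc ∧ |h'.1| ≤ 100 * L ^ 3 * Bc ∧
        |h'.2.1| ≤ 100 * L ^ 3 * Bc ∧ |h'.2.2| ≤ 100 * L ^ 3 * Bc) ∧
      ∀ (T' : Ln4) (m : ℝ), InSheet T' e c w q a z0 ρ → InSheet T' e' c' w' q' a' z0 ρ →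
        (∀ z, z = z0 ∨ z = z0 + ρ →
          |dt (e 1) (dis T T' z)| ≤ μ * w 1 ∧ |dt (e 2) (dis T T' z)| ≤ μ * w 2) →
        (∀ z, z = z0 ∨ z = z0 + ρ →
          |dt (e' 1) (dis T T' z)| ≤ μ * w' 1 ∧ |dt (e' 2) (dis T T' z)| ≤ μ * w' 2) →
        2 * μ ≤ m → m ≤ 1 →
        |A (dis T T' (z0 + ρ * b))| ≤ m → |B (dis T T' (z0 + ρ * b))| ≤ m →
        |A (dis T T' (z0 + ρ) - dis T T' z0)| ≤ m → |B (dis T T' (z0 + ρ) - dis T T' z0)| ≤ m →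
        Six (C * L ^ 4 * 164) (C * L ^ 4 * (800 * μ + m)) M g g' h h'
          (ty e w (nb b0 b1 b) (dis T T' (z0 + ρ * b)) / a)
          (ty e w (nb b0 b1 b) (dis T T' (z0 + ρ) - dis T T' z0) / a)
          ((t1 * A (dis T T' (z0 + ρ * b)) + t2 * B (dis T T' (z0 + ρ * b))) / M)
          ((t1 * B (dis T T' (z0 + ρ * b)) - t2 * A (dis T T' (z0 + ρ * b))) / M)
          ((t1 * A (dis T T' (z0 + ρ) - dis T T' z0) + t2 * B (dis T T' (z0 + ρ) - dis T T' z0)) / M)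
          ((t1 * B (dis T T' (z0 + ρ) - dis T T' z0) -
            t2 * A (dis T T' (z0 + ρ) - dis T T' z0)) / M) := by
  have N := D.hE.nrmC D.S D.ρ0.le fun z hz hz' => (D.hT z hz hz').1
  have N' := D.hE'.nrmC D.S' D.ρ0.le fun z hz hz' => (D.kT z hz hz').1
  have wp := D.S.pos
  have wp' := D.S'.pos
  have a0 := D.a0
  have a0' := D.a0'
  have β0 : 0 ≤ w 0 / a := div_nonneg (wp 0).le a0.le
  have β0' : 0 ≤ w' 0 / a' := div_nonneg (wp' 0).le a0'.le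
  obtain ⟨g1, g2, h11, h12, h22, Cc⟩ := exists_cf b0 b1 G b (w 0 / a)
  obtain ⟨g1', g2', h11', h12', h22', Cc'⟩ := exists_cf b0' b1' G' b (w' 0 / a')
  obtain ⟨c1, c2, c3, c4, c5⟩ := cf_le N hb β0 Cc hB
  obtain ⟨d1, d2, d3, d4, d5⟩ := cf_le N' hb β0' Cc' hB'
  obtain ⟨g, g', h, h', i1, i2, i3⟩ := HS 164 (800 * μ) Bc L M g1 g2 h11 h12 h22 g1' g2' h11' h12'
    h22' l10 l11 l12 l20 l21 l22 k10 k11 k12 k20 k21 k22 mm t1 t2 (by norm_num) (by positivity) X.L1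
    hM hMt c1 c2 c3 c4 c5 d1 d2 d3 d4 d5 X.l11b X.l12b X.l21b X.l22b X.k11b X.k12b X.k21b X.k22b
    X.l10b X.l20b X.k10b X.k20b X.mmb
  refine ⟨g, g', h, h', i1, i2, ?_⟩
  intro T' m hT' kT' hs hs' hm m1 A0 B0 A1 B1
  have O := one_at D.S D.a0 D.aw D.ρ0 D.hT hT' D.hE hμ hs hb Cc
  have O' := one_at D.S' D.a0' D.aw' D.ρ0 D.kT kT' D.hE' hμ hs' hb Cc'
  have sub_dt : ∀ (u X Y : V3), dt u (X - Y) = dt u X - dt u Y := by
    intro u X Y
    simp only [dt, Pi.sub_apply]; ring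
  have zb : z0 + ρ * b = z0 ∨ z0 + ρ * b = z0 + ρ := by
    rcases hb with rfl | rfl
    · left; ring
    · right; ring
  have pos : ∀ (f : Fin 3 → V3) (ww : V3) (k : Fin 3), 0 < ww k →
      (∀ z, z = z0 ∨ z = z0 + ρ → |dt (f k) (dis T T' z)| ≤ μ * ww k) →
      |dt (f k) (dis T T' (z0 + ρ * b)) / ww k| ≤ m ∧
        |dt (f k) (dis T T' (z0 + ρ) - dis T T' z0) / ww k| ≤ m := by
    intro f ww k hk hh
    constructor
    · rw [abs_div, abs_of_pos hk, div_le_iff₀ hk]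
      have := hh _ zb
      have : μ * ww k ≤ m * ww k := mul_le_mul_of_nonneg_right (by linarith) hk.le
      linarith
    · rw [abs_div, abs_of_pos hk, div_le_iff₀ hk, sub_dt]
      have h1 := hh _ (Or.inl rfl)
      have h2 := hh _ (Or.inr rfl)
      have : 2 * μ * ww k ≤ m * ww k := mul_le_mul_of_nonneg_right hm hk.le
      exact (abs_sub _ _).trans (by linarith)
  obtain ⟨s1, s2⟩ := pos e w 1 (wp 1) fun z hz => (hs z hz).1
  obtain ⟨s3, s4⟩ := pos e w 2 (wp 2) fun z hz => (hs z hz).2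
  obtain ⟨s5, s6⟩ := pos e' w' 1 (wp' 1) fun z hz => (hs' z hz).1
  obtain ⟨s7, s8⟩ := pos e' w' 2 (wp' 2) fun z hz => (hs' z hz).2
  exact i3 _ _ _ _ _ _ _ _ _ _ _ _ _ _ _ _ m O O' (X.x1 _) (X.x2 _) (X.x1 _) (X.x2 _) (X.y1 _)
    (X.y2 _) (X.y1 _) (X.y2 _) (X.nn _) (X.nn _) s1 s3 s2 s4 s5 s7 s6 s8 A0 B0 A1 B1 m1

end Crest.Agent.R136.Lnk989
end

-- ▼ part R136/Lnk2_816
section

/-!
# R136 (S0187), PLAN 2, (B4) LINK, abstract half (helper816)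

`One` : the three coefficient inequalities of one sheet along a pair (output of `Lnk989.link_one`).
`six_of` : two sheets, strip coordinates `(A, B)`, second normal coordinate `mm Y + τ . (A, B)`
⊢ helper108's six inequalities `Clu108.Six` in the rotated strip coordinates.
-/

set_option autoImplicit false
set_option linter.unusedVariables false

namespace Crest.Agent.R136.Lnk2816

open Crest.Agent.R136.Lnk989 (q2 p2)
open Crest.Agent.R136.Clu108 (h2 pl Six)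

/-- **one sheet** (constants `g`, `h`; `N0, N1` normal coordinate, `x, v` lateral coordinates) -/
structure One (K d g1 g2 h11 h12 h22 N0 N1 x1 x2 v1 v2 : ℝ) : Prop where
  c0 : |N0 + q2 h11 h12 h22 x1 x2| ≤ K + d * |N0|
  c1 : |N1 + (g1 * x1 + g2 * x2) + p2 h11 h12 h22 x1 x2 v1 v2| ≤ K * (1 + |N0|) + d * |N1|
  c2 : |(g1 * v1 + g2 * v2) + q2 h11 h12 h22 v1 v2| ≤ K * (1 + |N1|)

theorem mul_abs_le {a b A B : ℝ} (ha : |a| ≤ A) (hb : |b| ≤ B) : |a * b| ≤ A * B := by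
  rw [abs_mul]
  exact mul_le_mul ha hb (abs_nonneg _) ((abs_nonneg _).trans ha)

theorem add_abs_le {a b A B : ℝ} (ha : |a| ≤ A) (hb : |b| ≤ B) : |a + b| ≤ A + B :=
  (abs_add_le _ _).trans (add_le_add ha hb)

/-- product of a coefficient with `l_{i0}` -/
theorem co_le {h l B L : ℝ} (hh : |h| ≤ B) (hl : |l| * B ≤ L) : |h * l| ≤ L := by
  rw [abs_mul]
  calc |h| * |l| ≤ B * |l| := mul_le_mul_of_nonneg_right hh (abs_nonneg _)
    _ = |l| * B := mul_comm _ _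
    _ ≤ L := hl

theorem err_q {h11 h12 h22 B L m Y l1 l2 x1 x2 X1 X2 : ℝ} (b1 : |h11| ≤ B) (b2 : |h12| ≤ B)
    (b3 : |h22| ≤ B) (k1 : |l1| * B ≤ L) (k2 : |l2| * B ≤ L) (hL : 1 ≤ L) (hm : 0 ≤ m)
    (e1 : x1 = l1 * Y + X1) (e2 : x2 = l2 * Y + X2) (y1 : |x1| ≤ m) (y2 : |x2| ≤ m)
    (z1 : |X1| ≤ 2 * L * m) (z2 : |X2| ≤ 2 * L * m) :
    |q2 h11 h12 h22 x1 x2 - q2 h11 h12 h22 X1 X2| ≤ 9 * L ^ 2 * m * |Y| := by
  have e : q2 h11 h12 h22 x1 x2 - q2 h11 h12 h22 X1 X2 =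
      ((h11 * l1) * (x1 + X1) + (h12 * l1) * x2 + (h12 * l2) * X1 + (h22 * l2) * (x2 + X2)) * Y := by
    unfold q2
    rw [e1, e2]; ring
  have mL : m ≤ L * m := le_mul_of_one_le_left hm hL
  have w1 : |x1 + X1| ≤ 3 * L * m := (add_abs_le y1 z1).trans (by linarith)
  have w2 : |x2 + X2| ≤ 3 * L * m := (add_abs_le y2 z2).trans (by linarith)
  have t := add_abs_le (add_abs_le (add_abs_le (mul_abs_le (co_le b1 k1) w1)
    (mul_abs_le (co_le b2 k1) (y2.trans mL))) (mul_abs_le (co_le b2 k2) z1))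
    (mul_abs_le (co_le b3 k2) w2)
  rw [e, abs_mul]
  refine (mul_le_mul_of_nonneg_right t (abs_nonneg Y)).trans (le_of_eq ?_)
  ring

theorem err_p {h11 h12 h22 B L m Y0 Y1 l1 l2 x1 x2 X1 X2 v1 v2 V1 V2 : ℝ} (b1 : |h11| ≤ B)
    (b2 : |h12| ≤ B) (b3 : |h22| ≤ B) (k1 : |l1| * B ≤ L) (k2 : |l2| * B ≤ L) (hL : 1 ≤ L)
    (hm : 0 ≤ m) (e1 : x1 = l1 * Y0 + X1) (e2 : x2 = l2 * Y0 + X2) (f1 : v1 = l1 * Y1 + V1)
    (f2 : v2 = l2 * Y1 + V2) (y1 : |v1| ≤ m) (y2 : |v2| ≤ m)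
    (z1 : |X1| ≤ 2 * L * m) (z2 : |X2| ≤ 2 * L * m) :
    |p2 h11 h12 h22 x1 x2 v1 v2 - p2 h11 h12 h22 X1 X2 V1 V2| ≤
      6 * L * m * |Y0| + 12 * L ^ 2 * m * |Y1| := by
  have e : p2 h11 h12 h22 x1 x2 v1 v2 - p2 h11 h12 h22 X1 X2 V1 V2 =
      ((h11 * l1) * v1 + (h11 * l1) * v1 + (h12 * l1) * v2 + (h12 * l2) * v1 + (h22 * l2) * v2 +
        (h22 * l2) * v2) * Y0 +
      ((h11 * l1) * X1 + (h11 * l1) * X1 + (h12 * l2) * X1 + (h12 * l1) * X2 + (h22 * l2) * X2 +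
        (h22 * l2) * X2) * Y1 := by
    unfold p2
    rw [e1, e2, f1, f2]; ring
  have a1 := co_le b1 k1
  have a2 := co_le b2 k1
  have a3 := co_le b2 k2
  have a4 := co_le b3 k2
  have t := add_abs_le (add_abs_le (add_abs_le (add_abs_le (add_abs_le (mul_abs_le a1 y1)
    (mul_abs_le a1 y1)) (mul_abs_le a2 y2)) (mul_abs_le a3 y1)) (mul_abs_le a4 y2))
    (mul_abs_le a4 y2)
  have t' := add_abs_le (add_abs_le (add_abs_le (add_abs_le (add_abs_le (mul_abs_le a1 z1)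
    (mul_abs_le a1 z1)) (mul_abs_le a3 z1)) (mul_abs_le a2 z2)) (mul_abs_le a4 z2))
    (mul_abs_le a4 z2)
  rw [e]
  refine (add_abs_le (le_of_eq (abs_mul _ _)) (le_of_eq (abs_mul _ _))).trans ?_
  refine (add_le_add (mul_le_mul_of_nonneg_right t (abs_nonneg Y0))
    (mul_le_mul_of_nonneg_right t' (abs_nonneg Y1))).trans (le_of_eq ?_)
  ring

theorem err_g {g1 g2 B L Y l1 l2 x1 x2 X1 X2 : ℝ} (b1 : |g1| ≤ B) (b2 : |g2| ≤ B)
    (k1 : |l1| * B ≤ L) (k2 : |l2| * B ≤ L) (e1 : x1 = l1 * Y + X1) (e2 : x2 = l2 * Y + X2) :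
    |(g1 * x1 + g2 * x2) - (g1 * X1 + g2 * X2)| ≤ 2 * L * |Y| := by
  have e : (g1 * x1 + g2 * x2) - (g1 * X1 + g2 * X2) = ((g1 * l1) + (g2 * l2)) * Y := by
    rw [e1, e2]; ring
  rw [e, abs_mul]
  refine (mul_le_mul_of_nonneg_right (add_abs_le (co_le b1 k1) (co_le b2 k2))
    (abs_nonneg Y)).trans (le_of_eq ?_)
  ring

/-- pulled back linear form -/
def pg (g1 g2 a11 a12 a21 a22 : ℝ) : ℝ × ℝ := (g1 * a11 + g2 * a21, g1 * a12 + g2 * a22)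

/-- pulled back quadratic form, in helper108's normalisation -/
noncomputable def ph (h11 h12 h22 a11 a12 a21 a22 : ℝ) : ℝ × ℝ × ℝ :=
  (q2 h11 h12 h22 a11 a21, p2 h11 h12 h22 a11 a21 a12 a22 / 2, q2 h11 h12 h22 a12 a22)

theorem ph_h2 (h11 h12 h22 a11 a12 a21 a22 x y : ℝ) :
    h2 (ph h11 h12 h22 a11 a12 a21 a22) x y =
      q2 h11 h12 h22 (a11 * x + a12 * y) (a21 * x + a22 * y) := by
  simp only [h2, ph, q2, p2]; ring

theorem ph_pl (h11 h12 h22 a11 a12 a21 a22 x y x' y' : ℝ) :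
    2 * pl (ph h11 h12 h22 a11 a12 a21 a22) x y x' y' =
      p2 h11 h12 h22 (a11 * x + a12 * y) (a21 * x + a22 * y) (a11 * x' + a12 * y')
        (a21 * x' + a22 * y') := by
  simp only [pl, ph, q2, p2]; ring

theorem q2_le {h11 h12 h22 B A x y : ℝ} (b1 : |h11| ≤ B) (b2 : |h12| ≤ B) (b3 : |h22| ≤ B)
    (hx : |x| ≤ A) (hy : |y| ≤ A) : |q2 h11 h12 h22 x y| ≤ 3 * B * A ^ 2 := by
  have e : q2 h11 h12 h22 x y = h11 * (x * x) + h12 * (x * y) + h22 * (y * y) := by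
    unfold q2; ring
  rw [e]
  have := add_abs_le (add_abs_le (mul_abs_le b1 (mul_abs_le hx hx))
    (mul_abs_le b2 (mul_abs_le hx hy))) (mul_abs_le b3 (mul_abs_le hy hy))
  refine this.trans (le_of_eq ?_)
  ring

theorem p2_le {h11 h12 h22 B A x y x' y' : ℝ} (b1 : |h11| ≤ B) (b2 : |h12| ≤ B) (b3 : |h22| ≤ B)
    (hx : |x| ≤ A) (hy : |y| ≤ A) (hx' : |x'| ≤ A) (hy' : |y'| ≤ A) :
    |p2 h11 h12 h22 x y x' y' / 2| ≤ 3 * B * A ^ 2 := by
  have e : p2 h11 h12 h22 x y x' y' / 2 = h11 * (x * x') + (h12 * (x * y') + h12 * (x' * y)) / 2 +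
      h22 * (y * y') := by
    unfold p2; ring
  rw [e]
  have t1 : |(h12 * (x * y') + h12 * (x' * y)) / 2| ≤ B * (A * A) := by
    rw [abs_div, abs_two, div_le_iff₀ two_pos]
    have := add_abs_le (mul_abs_le b2 (mul_abs_le hx hy')) (mul_abs_le b2 (mul_abs_le hx' hy))
    linarith
  have := add_abs_le (add_abs_le (mul_abs_le b1 (mul_abs_le hx hx')) t1)
    (mul_abs_le b3 (mul_abs_le hy hy'))
  refine this.trans (le_of_eq ?_)
  ring

/-- one sheet in the rotated strip coordinates -/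
theorem one_out {K d B L m g1 g2 h11 h12 h22 l10 l20 a11 a12 a21 a22 Y0 Y1 N0 N1 x1 x2 v1 v2 px s
    cx t : ℝ} (O : One K d g1 g2 h11 h12 h22 N0 N1 x1 x2 v1 v2)
    (bg1 : |g1| ≤ B) (bg2 : |g2| ≤ B) (b1 : |h11| ≤ B) (b2 : |h12| ≤ B) (b3 : |h22| ≤ B)
    (k1 : |l10| * B ≤ L) (k2 : |l20| * B ≤ L) (hL : 1 ≤ L) (hm : 0 ≤ m) (hm1 : m ≤ 1)
    (e1 : x1 = l10 * Y0 + (a11 * px + a12 * s)) (e2 : x2 = l20 * Y0 + (a21 * px + a22 * s))
    (f1 : v1 = l10 * Y1 + (a11 * cx + a12 * t)) (f2 : v2 = l20 * Y1 + (a21 * cx + a22 * t))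
    (y1 : |x1| ≤ m) (y2 : |x2| ≤ m) (y3 : |v1| ≤ m) (y4 : |v2| ≤ m)
    (z1 : |a11 * px + a12 * s| ≤ 2 * L * m) (z2 : |a21 * px + a22 * s| ≤ 2 * L * m)
    (z3 : |a11 * cx + a12 * t| ≤ 2 * L * m) (z4 : |a21 * cx + a22 * t| ≤ 2 * L * m) :
    |N0 + h2 (ph h11 h12 h22 a11 a12 a21 a22) px s| ≤ K + d * |N0| + 9 * L ^ 2 * m * |Y0| ∧
    |N1 + ((pg g1 g2 a11 a12 a21 a22).1 * px + (pg g1 g2 a11 a12 a21 a22).2 * s) +
        2 * pl (ph h11 h12 h22 a11 a12 a21 a22) px s cx t| ≤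
      K * (1 + |N0|) + d * |N1| + 8 * L * |Y0| + 12 * L ^ 2 * m * |Y1| ∧
    |((pg g1 g2 a11 a12 a21 a22).1 * cx + (pg g1 g2 a11 a12 a21 a22).2 * t) +
        h2 (ph h11 h12 h22 a11 a12 a21 a22) cx t| ≤ K * (1 + |N1|) + 11 * L ^ 2 * |Y1| := by
  have q0 := err_q b1 b2 b3 k1 k2 hL hm e1 e2 y1 y2 z1 z2
  have qv := err_q b1 b2 b3 k1 k2 hL hm f1 f2 y3 y4 z3 z4
  have qp := err_p b1 b2 b3 k1 k2 hL hm e1 e2 f1 f2 y3 y4 z1 z2
  have qg := err_g bg1 bg2 k1 k2 e1 e2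
  have qgv := err_g bg1 bg2 k1 k2 f1 f2
  have eg : ∀ x y : ℝ, (pg g1 g2 a11 a12 a21 a22).1 * x + (pg g1 g2 a11 a12 a21 a22).2 * y =
      g1 * (a11 * x + a12 * y) + g2 * (a21 * x + a22 * y) := by
    intro x y; simp only [pg]; ring
  rw [ph_h2, ph_h2, ph_pl, eg, eg]
  set X1 := a11 * px + a12 * s
  set X2 := a21 * px + a22 * s
  set V1 := a11 * cx + a12 * t
  set V2 := a21 * cx + a22 * t
  have Y0n := abs_nonneg Y0
  have Y1n := abs_nonneg Y1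
  have L0 : 0 ≤ L := by linarith
  have LmL : L * m * |Y0| ≤ L * |Y0| :=
    mul_le_mul_of_nonneg_right (mul_le_of_le_one_right L0 hm1) Y0n
  have L2m : L ^ 2 * m * |Y1| ≤ L ^ 2 * |Y1| :=
    mul_le_mul_of_nonneg_right (mul_le_of_le_one_right (by positivity) hm1) Y1n
  have LL : L * |Y1| ≤ L ^ 2 * |Y1| := by
    refine mul_le_mul_of_nonneg_right ?_ Y1n
    rw [pow_two]; exact le_mul_of_one_le_left L0 hL
  refine ⟨?_, ?_, ?_⟩
  · have e : N0 + q2 h11 h12 h22 X1 X2 = (N0 + q2 h11 h12 h22 x1 x2) +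
        -(q2 h11 h12 h22 x1 x2 - q2 h11 h12 h22 X1 X2) := by ring
    rw [e]
    exact add_abs_le O.c0 ((abs_neg _).trans_le q0)
  · have e : N1 + (g1 * X1 + g2 * X2) + p2 h11 h12 h22 X1 X2 V1 V2 =
        (N1 + (g1 * x1 + g2 * x2) + p2 h11 h12 h22 x1 x2 v1 v2) +
        -((g1 * x1 + g2 * x2) - (g1 * X1 + g2 * X2)) +
        -(p2 h11 h12 h22 x1 x2 v1 v2 - p2 h11 h12 h22 X1 X2 V1 V2) := by ring
    rw [e]
    have := add_abs_le (add_abs_le O.c1 ((abs_neg _).trans_le qg)) ((abs_neg _).trans_le qp)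
    linarith
  · have e : (g1 * V1 + g2 * V2) + q2 h11 h12 h22 V1 V2 =
        ((g1 * v1 + g2 * v2) + q2 h11 h12 h22 v1 v2) +
        -((g1 * v1 + g2 * v2) - (g1 * V1 + g2 * V2)) +
        -(q2 h11 h12 h22 v1 v2 - q2 h11 h12 h22 V1 V2) := by ring
    rw [e]
    have := add_abs_le (add_abs_le O.c2 ((abs_neg _).trans_le qgv)) ((abs_neg _).trans_le qv)
    linarith

/-- rotated row -/
theorem row_le {l1 l2 c σ L : ℝ} (h1 : |l1| ≤ L) (h2 : |l2| ≤ L) (hc : |c| ≤ 1) (hσ : |σ| ≤ 1) :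
    |l1 * c + l2 * σ| ≤ 2 * L ∧ |l2 * c - l1 * σ| ≤ 2 * L := by
  constructor
  · have := add_abs_le (mul_abs_le h1 hc) (mul_abs_le h2 hσ)
    linarith
  · have := (abs_sub (l2 * c) (l1 * σ)).trans (add_le_add (mul_abs_le h2 hc) (mul_abs_le h1 hσ))
    linarith

set_option maxHeartbeats 1000000 in
/-- **two sheets** ⊢ helper108's six inequalities -/
theorem six_of {K0 d0 B L mm t1 t2 M g1 g2 h11 h12 h22 g1' g2' h11' h12' h22' l10 l11 l12 l20 l21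
    l22 k10 k11 k12 k20 k21 k22 : ℝ} (bg1 : |g1| ≤ B) (bg2 : |g2| ≤ B) (b1 : |h11| ≤ B)
    (b2 : |h12| ≤ B) (b3 : |h22| ≤ B) (bg1' : |g1'| ≤ B) (bg2' : |g2'| ≤ B) (b1' : |h11'| ≤ B)
    (b2' : |h12'| ≤ B) (b3' : |h22'| ≤ B) (hL : 1 ≤ L)
    (hl11 : |l11| ≤ L) (hl12 : |l12| ≤ L) (hl21 : |l21| ≤ L) (hl22 : |l22| ≤ L)
    (hk11 : |k11| ≤ L) (hk12 : |k12| ≤ L) (hk21 : |k21| ≤ L) (hk22 : |k22| ≤ L)
    (hl10 : |l10| * B ≤ L) (hl20 : |l20| * B ≤ L) (hk10 : |k10| * B ≤ L) (hk20 : |k20| * B ≤ L)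
    (hmm : |mm| ≤ L) (hd0 : 0 ≤ d0) (hK0 : 1 ≤ K0) (hM : 0 < M) (hMt : M ^ 2 = t1 ^ 2 + t2 ^ 2) :
    ∃ g g' : ℝ × ℝ, ∃ h h' : ℝ × ℝ × ℝ,
      (|g.1| ≤ 100 * L ^ 3 * B ∧ |g.2| ≤ 100 * L ^ 3 * B ∧ |g'.1| ≤ 100 * L ^ 3 * B ∧
        |g'.2| ≤ 100 * L ^ 3 * B ∧ |h.1| ≤ 100 * L ^ 3 * B ∧ |h.2.1| ≤ 100 * L ^ 3 * B ∧
        |h.2.2| ≤ 100 * L ^ 3 * B ∧ |h'.1| ≤ 100 * L ^ 3 * B ∧ |h'.2.1| ≤ 100 * L ^ 3 * B ∧
        |h'.2.2| ≤ 100 * L ^ 3 * B) ∧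
      ∀ Y0 Y1 N0 N1 A0 B0 A1 B1 x1 x2 v1 v2 x1' x2' v1' v2' m : ℝ,
        One K0 d0 g1 g2 h11 h12 h22 Y0 Y1 x1 x2 v1 v2 →
        One K0 d0 g1' g2' h11' h12' h22' N0 N1 x1' x2' v1' v2' →
        x1 = l10 * Y0 + l11 * A0 + l12 * B0 → x2 = l20 * Y0 + l21 * A0 + l22 * B0 →
        v1 = l10 * Y1 + l11 * A1 + l12 * B1 → v2 = l20 * Y1 + l21 * A1 + l22 * B1 →
        x1' = k10 * Y0 + k11 * A0 + k12 * B0 → x2' = k20 * Y0 + k21 * A0 + k22 * B0 →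
        v1' = k10 * Y1 + k11 * A1 + k12 * B1 → v2' = k20 * Y1 + k21 * A1 + k22 * B1 →
        N0 = mm * Y0 + (t1 * A0 + t2 * B0) → N1 = mm * Y1 + (t1 * A1 + t2 * B1) →
        |x1| ≤ m → |x2| ≤ m → |v1| ≤ m → |v2| ≤ m → |x1'| ≤ m → |x2'| ≤ m → |v1'| ≤ m →
        |v2'| ≤ m → |A0| ≤ m → |B0| ≤ m → |A1| ≤ m → |B1| ≤ m → m ≤ 1 →
        Six (40 * L ^ 4 * K0) (40 * L ^ 4 * (d0 + m)) M g g' h h' Y0 Y1
          ((t1 * A0 + t2 * B0) / M) ((t1 * B0 - t2 * A0) / M)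
          ((t1 * A1 + t2 * B1) / M) ((t1 * B1 - t2 * A1) / M) := by
  have L0 : 0 < L := by linarith
  have B0' : 0 ≤ B := (abs_nonneg _).trans bg1
  obtain ⟨c, hc⟩ : ∃ c, c = t1 / M := ⟨_, rfl⟩
  obtain ⟨σ, hσ⟩ : ∃ σ, σ = t2 / M := ⟨_, rfl⟩
  have hcσ : c ^ 2 + σ ^ 2 = 1 := by
    rw [hc, hσ, div_pow, div_pow, ← add_div, ← hMt, div_self (by positivity)]
  have c1 : |c| ≤ 1 := by rw [abs_le]; constructor <;> nlinarith [sq_nonneg σ]
  have σ1 : |σ| ≤ 1 := by rw [abs_le]; constructor <;> nlinarith [sq_nonneg c]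
  -- rows
  obtain ⟨r11, r12⟩ := row_le hl11 hl12 c1 σ1
  obtain ⟨r21, r22⟩ := row_le hl21 hl22 c1 σ1
  obtain ⟨s11, s12⟩ := row_le hk11 hk12 c1 σ1
  obtain ⟨s21, s22⟩ := row_le hk21 hk22 c1 σ1
  obtain ⟨a11, ha11⟩ : ∃ a, a = l11 * c + l12 * σ := ⟨_, rfl⟩
  obtain ⟨a12, ha12⟩ : ∃ a, a = l12 * c - l11 * σ := ⟨_, rfl⟩
  obtain ⟨a21, ha21⟩ : ∃ a, a = l21 * c + l22 * σ := ⟨_, rfl⟩
  obtain ⟨a22, ha22⟩ : ∃ a, a = l22 * c - l21 * σ := ⟨_, rfl⟩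
  obtain ⟨e11, he11⟩ : ∃ a, a = k11 * c + k12 * σ := ⟨_, rfl⟩
  obtain ⟨e12, he12⟩ : ∃ a, a = k12 * c - k11 * σ := ⟨_, rfl⟩
  obtain ⟨e21, he21⟩ : ∃ a, a = k21 * c + k22 * σ := ⟨_, rfl⟩
  obtain ⟨e22, he22⟩ : ∃ a, a = k22 * c - k21 * σ := ⟨_, rfl⟩
  rw [← ha11] at r11
  rw [← ha12] at r12
  rw [← ha21] at r21
  rw [← ha22] at r22
  rw [← he11] at s11
  rw [← he12] at s12
  rw [← he21] at s21
  rw [← he22] at s22
  set G : ℝ × ℝ := pg g1 g2 a11 a12 a21 a22 with hG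
  set G' : ℝ × ℝ := pg g1' g2' e11 e12 e21 e22 with hG'
  set H : ℝ × ℝ × ℝ := ph h11 h12 h22 a11 a12 a21 a22 with hH
  set H' : ℝ × ℝ × ℝ := ph h11' h12' h22' e11 e12 e21 e22 with hH'
  have hm1 : |1 - mm| ≤ 2 * L := by
    refine (abs_sub _ _).trans ?_
    rw [abs_one]; linarith
  have L2 : L ≤ L ^ 2 := by rw [pow_two]; exact le_mul_of_one_le_left L0.le hL
  have L3 : L ^ 2 ≤ L ^ 3 := pow_le_pow_right₀ hL (by norm_num)
  have L4 : L ^ 3 ≤ L ^ 4 := pow_le_pow_right₀ hL (by norm_num)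
  have lB : L * B ≤ L ^ 3 * B := mul_le_mul_of_nonneg_right (L2.trans L3) B0'
  have l2B : L ^ 2 * B ≤ L ^ 3 * B := mul_le_mul_of_nonneg_right L3 B0'
  have LB0 : 0 ≤ L ^ 3 * B := by positivity
  -- bounds of the coefficients
  have gb : ∀ u1 u2 p q : ℝ, |u1| ≤ B → |u2| ≤ B → |p| ≤ 2 * L → |q| ≤ 2 * L →
      |u1 * p + u2 * q| ≤ 4 * (L * B) := by
    intro u1 u2 p q h1 h2 h3 h4
    have := add_abs_le (mul_abs_le h1 h3) (mul_abs_le h2 h4)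
    linarith
  have hb : ∀ u1 u2 u3 p q : ℝ, |u1| ≤ B → |u2| ≤ B → |u3| ≤ B → |p| ≤ 2 * L → |q| ≤ 2 * L →
      |q2 u1 u2 u3 p q| ≤ 12 * (L ^ 2 * B) := by
    intro u1 u2 u3 p q h1 h2 h3 h4 h5
    have := q2_le h1 h2 h3 h4 h5
    linarith
  have hb2 : ∀ u1 u2 u3 p q p' q' : ℝ, |u1| ≤ B → |u2| ≤ B → |u3| ≤ B → |p| ≤ 2 * L →
      |q| ≤ 2 * L → |p'| ≤ 2 * L → |q'| ≤ 2 * L → |p2 u1 u2 u3 p q p' q' / 2| ≤
        12 * (L ^ 2 * B) := by
    intro u1 u2 u3 p q p' q' h1 h2 h3 h4 h5 h6 h7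
    have := p2_le h1 h2 h3 h4 h5 h6 h7
    linarith
  have G1 : |G.1| ≤ 4 * (L * B) := gb _ _ _ _ bg1 bg2 r11 r21
  have G2 : |G.2| ≤ 4 * (L * B) := gb _ _ _ _ bg1 bg2 r12 r22
  have G1' : |G'.1| ≤ 4 * (L * B) := gb _ _ _ _ bg1' bg2' s11 s21
  have G2' : |G'.2| ≤ 4 * (L * B) := gb _ _ _ _ bg1' bg2' s12 s22
  have H1 : |H.1| ≤ 12 * (L ^ 2 * B) := hb _ _ _ _ _ b1 b2 b3 r11 r21
  have H2 : |H.2.1| ≤ 12 * (L ^ 2 * B) := hb2 _ _ _ _ _ _ _ b1 b2 b3 r11 r21 r12 r22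
  have H3 : |H.2.2| ≤ 12 * (L ^ 2 * B) := hb _ _ _ _ _ b1 b2 b3 r12 r22
  have H1' : |H'.1| ≤ 12 * (L ^ 2 * B) := hb _ _ _ _ _ b1' b2' b3' s11 s21
  have H2' : |H'.2.1| ≤ 12 * (L ^ 2 * B) := hb2 _ _ _ _ _ _ _ b1' b2' b3' s11 s21 s12 s22
  have H3' : |H'.2.2| ≤ 12 * (L ^ 2 * B) := hb _ _ _ _ _ b1' b2' b3' s12 s22
  have com : ∀ x y : ℝ, |x| ≤ 12 * (L ^ 2 * B) → |y| ≤ 12 * (L ^ 2 * B) →
      |x + (1 - mm) * y| ≤ 100 * L ^ 3 * B := by
    intro x y h1 h2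
    have := add_abs_le h1 (mul_abs_le hm1 h2)
    have e : 2 * L * (12 * (L ^ 2 * B)) = 24 * (L ^ 3 * B) := by ring
    rw [e] at this
    linarith
  have lB2 : 4 * (L * B) ≤ 12 * (L ^ 2 * B) := by
    have : L * B ≤ L ^ 2 * B := mul_le_mul_of_nonneg_right L2 B0'
    have : 0 ≤ L * B := by positivity
    linarith
  refine ⟨G, (G'.1 + (1 - mm) * G.1, G'.2 + (1 - mm) * G.2), H,
    (H'.1 + (1 - mm) * H.1, H'.2.1 + (1 - mm) * H.2.1, H'.2.2 + (1 - mm) * H.2.2), ?_, ?_⟩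
  · refine ⟨by linarith, by linarith, com _ _ (G1'.trans lB2) (G1.trans lB2),
      com _ _ (G2'.trans lB2) (G2.trans lB2), by linarith, by linarith, by linarith,
      com _ _ H1' H1, com _ _ H2' H2, com _ _ H3' H3⟩
  · intro Y0 Y1 N0 N1 A0 B0 A1 B1 x1 x2 v1 v2 x1' x2' v1' v2' m O O' ex1 ex2 ev1 ev2 ex1' ex2' ev1'
      ev2' eN0 eN1 y1 y2 y3 y4 y1' y2' y3' y4' mA0 mB0 mA1 mB1 m1
    have m0 : 0 ≤ m := (abs_nonneg _).trans y1
    obtain ⟨px, hpx⟩ : ∃ px, px = (t1 * A0 + t2 * B0) / M := ⟨_, rfl⟩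
    obtain ⟨s, hs⟩ : ∃ s, s = (t1 * B0 - t2 * A0) / M := ⟨_, rfl⟩
    obtain ⟨cx, hcx⟩ : ∃ cx, cx = (t1 * A1 + t2 * B1) / M := ⟨_, rfl⟩
    obtain ⟨t, ht⟩ : ∃ t, t = (t1 * B1 - t2 * A1) / M := ⟨_, rfl⟩
    rw [← hpx, ← hs, ← hcx, ← ht]
    have epx : px = c * A0 + σ * B0 := by rw [hpx, hc, hσ]; ring
    have es : s = c * B0 - σ * A0 := by rw [hs, hc, hσ]; ring
    have ecx : cx = c * A1 + σ * B1 := by rw [hcx, hc, hσ]; ring
    have et : t = c * B1 - σ * A1 := by rw [ht, hc, hσ]; ring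
    have eA0 : A0 = c * px - σ * s := by
      rw [epx, es]; linear_combination (-A0) * hcσ
    have eB0 : B0 = σ * px + c * s := by
      rw [epx, es]; linear_combination (-B0) * hcσ
    have eA1 : A1 = c * cx - σ * t := by
      rw [ecx, et]; linear_combination (-A1) * hcσ
    have eB1 : B1 = σ * cx + c * t := by
      rw [ecx, et]; linear_combination (-B1) * hcσ
    have hMpx : M * px = t1 * A0 + t2 * B0 := by rw [hpx]; field_simp
    have hMcx : M * cx = t1 * A1 + t2 * B1 := by rw [hcx]; field_simp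
    rw [← hMpx] at eN0
    rw [← hMcx] at eN1
    -- linear parts
    have lin : ∀ p q A B' u v : ℝ, A = c * u - σ * v → B' = σ * u + c * v →
        p * A + q * B' = (p * c + q * σ) * u + (q * c - p * σ) * v := by
      intro p q A B' u v h1 h2; rw [h1, h2]; ring
    have lb : ∀ p q A B' : ℝ, |p| ≤ L → |q| ≤ L → |A| ≤ m → |B'| ≤ m →
        |p * A + q * B'| ≤ 2 * L * m := by
      intro p q A B' h1 h2 h3 h4
      have := add_abs_le (mul_abs_le h1 h3) (mul_abs_le h2 h4)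
      linarith
    have r1 := lin l11 l12 A0 B0 px s eA0 eB0
    have r2 := lin l21 l22 A0 B0 px s eA0 eB0
    have r3 := lin l11 l12 A1 B1 cx t eA1 eB1
    have r4 := lin l21 l22 A1 B1 cx t eA1 eB1
    have r5 := lin k11 k12 A0 B0 px s eA0 eB0
    have r6 := lin k21 k22 A0 B0 px s eA0 eB0
    have r7 := lin k11 k12 A1 B1 cx t eA1 eB1
    have r8 := lin k21 k22 A1 B1 cx t eA1 eB1
    rw [← ha11, ← ha12] at r1 r3
    rw [← ha21, ← ha22] at r2 r4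
    rw [← he11, ← he12] at r5 r7
    rw [← he21, ← he22] at r6 r8
    obtain ⟨o0, o1, o2⟩ := one_out (Y0 := Y0) (Y1 := Y1) O bg1 bg2 b1 b2 b3 hl10 hl20 hL m0 m1
      (by rw [ex1, ← r1]; ring) (by rw [ex2, ← r2]; ring) (by rw [ev1, ← r3]; ring)
      (by rw [ev2, ← r4]; ring) y1 y2 y3 y4
      (by rw [← r1]; exact lb _ _ _ _ hl11 hl12 mA0 mB0)
      (by rw [← r2]; exact lb _ _ _ _ hl21 hl22 mA0 mB0)
      (by rw [← r3]; exact lb _ _ _ _ hl11 hl12 mA1 mB1)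
      (by rw [← r4]; exact lb _ _ _ _ hl21 hl22 mA1 mB1)
    obtain ⟨u0, u1, u2⟩ := one_out (Y0 := Y0) (Y1 := Y1) O' bg1' bg2' b1' b2' b3' hk10 hk20 hL m0 m1
      (by rw [ex1', ← r5]; ring) (by rw [ex2', ← r6]; ring) (by rw [ev1', ← r7]; ring)
      (by rw [ev2', ← r8]; ring) y1' y2' y3' y4'
      (by rw [← r5]; exact lb _ _ _ _ hk11 hk12 mA0 mB0)
      (by rw [← r6]; exact lb _ _ _ _ hk21 hk22 mA0 mB0)
      (by rw [← r7]; exact lb _ _ _ _ hk11 hk12 mA1 mB1)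
      (by rw [← r8]; exact lb _ _ _ _ hk21 hk22 mA1 mB1)
    rw [← hG, ← hH] at o1 o2
    rw [← hH] at o0
    rw [← hG', ← hH'] at u1 u2
    rw [← hH'] at u0
    -- sizes
    obtain ⟨y, hy⟩ : ∃ y, y = |Y0| := ⟨_, rfl⟩
    obtain ⟨w, hw⟩ : ∃ w, w = |Y1| := ⟨_, rfl⟩
    obtain ⟨P, hP⟩ : ∃ P, P = M * |px| := ⟨_, rfl⟩
    obtain ⟨C, hC⟩ : ∃ C, C = M * |cx| := ⟨_, rfl⟩
    have y0 : 0 ≤ y := by rw [hy]; exact abs_nonneg _
    have w0 : 0 ≤ w := by rw [hw]; exact abs_nonneg _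
    have P0 : 0 ≤ P := by rw [hP]; positivity
    have C0 : 0 ≤ C := by rw [hC]; positivity
    have N0b : |N0| ≤ L * y + P := by
      rw [eN0, hy, hP]
      exact add_abs_le (mul_abs_le hmm le_rfl) (by rw [abs_mul, abs_of_pos hM])
    have N1b : |N1| ≤ L * w + C := by
      rw [eN1, hw, hC]
      exact add_abs_le (mul_abs_le hmm le_rfl) (by rw [abs_mul, abs_of_pos hM])
    rw [← hy] at o0 o1 u0 u1
    rw [← hw] at o1 o2 u1 u2
    have K00 : 0 < K0 := by linarith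
    -- products of the constants
    have one4 : 1 ≤ L ^ 4 := one_le_pow₀ hL
    have L14 : L ≤ L ^ 4 := L2.trans (L3.trans L4)
    have L24 : L ^ 2 ≤ L ^ 4 := L3.trans L4
    have LK : ∀ z : ℝ, 0 ≤ z → ∀ k : ℕ, k ≤ 4 → L ^ k * z ≤ L ^ 4 * z := fun z hz k hk =>
      mul_le_mul_of_nonneg_right (pow_le_pow_right₀ hL hk) hz
    have LKK : ∀ z : ℝ, 0 ≤ z → ∀ k : ℕ, k ≤ 4 → L ^ k * z ≤ L ^ 4 * K0 * z := by
      intro z hz k hk
      refine (LK z hz k hk).trans (mul_le_mul_of_nonneg_right ?_ hz)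
      exact le_mul_of_one_le_right (by positivity) hK0
    have LK0 : ∀ z : ℝ, 0 ≤ z → ∀ k : ℕ, k ≤ 4 → L ^ k * K0 * z ≤ L ^ 4 * K0 * z := by
      intro z hz k hk
      refine mul_le_mul_of_nonneg_right (mul_le_mul_of_nonneg_right
        (pow_le_pow_right₀ hL hk) K00.le) hz
    have Ld0 : ∀ z : ℝ, 0 ≤ z → ∀ k : ℕ, k ≤ 4 → L ^ k * d0 * z ≤ L ^ 4 * d0 * z := by
      intro z hz k hk
      refine mul_le_mul_of_nonneg_right (mul_le_mul_of_nonneg_right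
        (pow_le_pow_right₀ hL hk) hd0) hz
    have Lm0 : ∀ z : ℝ, 0 ≤ z → ∀ k : ℕ, k ≤ 4 → L ^ k * m * z ≤ L ^ 4 * m * z := by
      intro z hz k hk
      refine mul_le_mul_of_nonneg_right (mul_le_mul_of_nonneg_right
        (pow_le_pow_right₀ hL hk) m0) hz
    have nK : 0 ≤ L ^ 4 * K0 := by positivity
    have nd : 0 ≤ L ^ 4 * d0 := by positivity
    have nm : 0 ≤ L ^ 4 * m := by positivity
    refine ⟨?_, ?_, ?_, ?_, ?_, ?_⟩
    · -- a0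
      rw [← hy, ← hP]
      refine o0.trans ?_
      have i1 := LK0 1 zero_le_one 0 (by norm_num)
      have i2 := Ld0 y y0 0 (by norm_num)
      have i3 := Lm0 y y0 2 (by norm_num)
      have i4 : 0 ≤ (L ^ 4 * d0) * P := mul_nonneg nd P0
      have i5 : 0 ≤ (L ^ 4 * m) * P := mul_nonneg nm P0
      have i6 : 0 ≤ (L ^ 4 * d0) * y := mul_nonneg nd y0
      have i7 : 0 ≤ (L ^ 4 * m) * y := mul_nonneg nm y0
      have e : 40 * L ^ 4 * K0 + 40 * L ^ 4 * (d0 + m) * (y + P) = 40 * (L ^ 4 * K0) +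
        40 * ((L ^ 4 * d0) * y) + 40 * ((L ^ 4 * d0) * P) + 40 * ((L ^ 4 * m) * y) +
        40 * ((L ^ 4 * m) * P) := by ring
      rw [e]
      simp only [pow_zero, one_mul, mul_one] at i1 i2
      linarith
    · -- a1
      rw [← hy, ← hw, ← hP, ← hC]
      refine o1.trans ?_
      have i1 := LK0 1 zero_le_one 0 (by norm_num)
      have i2 := LK0 y y0 0 (by norm_num)
      have i3 := Ld0 w w0 0 (by norm_num)
      have i4 := LKK y y0 1 (by norm_num)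
      have i5 := Lm0 w w0 2 (by norm_num)
      have j1 : 0 ≤ (L ^ 4 * K0) * P := mul_nonneg nK P0
      have j2 : 0 ≤ (L ^ 4 * K0) * y := mul_nonneg nK y0
      have j3 : 0 ≤ (L ^ 4 * d0) * w := mul_nonneg nd w0
      have j4 : 0 ≤ (L ^ 4 * d0) * C := mul_nonneg nd C0
      have j5 : 0 ≤ (L ^ 4 * m) * w := mul_nonneg nm w0
      have j6 : 0 ≤ (L ^ 4 * m) * C := mul_nonneg nm C0
      have e : 40 * L ^ 4 * K0 * (1 + y + P) + 40 * L ^ 4 * (d0 + m) * (w + C) =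
        40 * (L ^ 4 * K0) + 40 * ((L ^ 4 * K0) * y) + 40 * ((L ^ 4 * K0) * P) +
        40 * ((L ^ 4 * d0) * w) + 40 * ((L ^ 4 * d0) * C) + 40 * ((L ^ 4 * m) * w) +
        40 * ((L ^ 4 * m) * C) := by ring
      rw [e]
      simp only [pow_zero, pow_one, one_mul, mul_one] at i1 i2 i3 i4
      have e2 : K0 * (1 + y) = K0 + K0 * y := by ring
      rw [e2]
      linarith
    · -- a2
      rw [← hy, ← hw, ← hP, ← hC]
      refine o2.trans ?_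
      have i1 := LK0 1 zero_le_one 0 (by norm_num)
      have i2 := LK0 w w0 0 (by norm_num)
      have i4 := LKK w w0 2 (by norm_num)
      have j1 : 0 ≤ (L ^ 4 * K0) * P := mul_nonneg nK P0
      have j2 : 0 ≤ (L ^ 4 * K0) * y := mul_nonneg nK y0
      have j3 : 0 ≤ (L ^ 4 * K0) * w := mul_nonneg nK w0
      have j4 : 0 ≤ (L ^ 4 * K0) * C := mul_nonneg nK C0
      have e : 40 * L ^ 4 * K0 * (1 + y + P + w + C) =
        40 * (L ^ 4 * K0) + 40 * ((L ^ 4 * K0) * y) + 40 * ((L ^ 4 * K0) * P) +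
        40 * ((L ^ 4 * K0) * w) + 40 * ((L ^ 4 * K0) * C) := by ring
      rw [e]
      simp only [pow_zero, one_mul, mul_one] at i1 i2
      have e2 : K0 * (1 + w) = K0 + K0 * w := by ring
      rw [e2]
      linarith
    · -- b0
      rw [← hy, ← hP]
      have e0 : Y0 + M * px + h2 (H'.1 + (1 - mm) * H.1, H'.2.1 + (1 - mm) * H.2.1,
          H'.2.2 + (1 - mm) * H.2.2) px s =
          (N0 + h2 H' px s) + (1 - mm) * (Y0 + h2 H px s) := by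
        rw [eN0]; simp only [h2]; ring
      rw [e0]
      refine (add_abs_le u0 (mul_abs_le hm1 o0)).trans ?_
      have i0 : d0 * |N0| ≤ d0 * (L * y + P) := mul_le_mul_of_nonneg_left N0b hd0
      have i1 := LK0 1 zero_le_one 0 (by norm_num)
      have i1' := LK0 1 zero_le_one 1 (by norm_num)
      have i2 := Ld0 y y0 1 (by norm_num)
      have i2' := Ld0 P P0 0 (by norm_num)
      have i3 := Lm0 y y0 2 (by norm_num)
      have i3' := Lm0 y y0 3 (by norm_num)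
      have i4 : 0 ≤ (L ^ 4 * d0) * P := mul_nonneg nd P0
      have i5 : 0 ≤ (L ^ 4 * m) * P := mul_nonneg nm P0
      have i6 : 0 ≤ (L ^ 4 * d0) * y := mul_nonneg nd y0
      have i7 : 0 ≤ (L ^ 4 * m) * y := mul_nonneg nm y0
      have e : 40 * L ^ 4 * K0 + 40 * L ^ 4 * (d0 + m) * (y + P) = 40 * (L ^ 4 * K0) +
        40 * ((L ^ 4 * d0) * y) + 40 * ((L ^ 4 * d0) * P) + 40 * ((L ^ 4 * m) * y) +
        40 * ((L ^ 4 * m) * P) := by ring
      rw [e]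
      simp only [pow_zero, pow_one, one_mul, mul_one] at i1 i1' i2 i2'
      have e2 : 2 * L * (K0 + d0 * y + 9 * L ^ 2 * m * y) = 2 * (L * K0) + 2 * (L * d0 * y) +
        18 * (L ^ 3 * m * y) := by ring
      have e3 : d0 * (L * y + P) = L * d0 * y + d0 * P := by ring
      rw [e2]
      rw [e3] at i0
      linarith
    · -- b1
      rw [← hy, ← hw, ← hP, ← hC]
      have e0 : Y1 + M * cx + ((G'.1 + (1 - mm) * G.1) * px + (G'.2 + (1 - mm) * G.2) * s) +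
          2 * pl (H'.1 + (1 - mm) * H.1, H'.2.1 + (1 - mm) * H.2.1,
            H'.2.2 + (1 - mm) * H.2.2) px s cx t =
          (N1 + (G'.1 * px + G'.2 * s) + 2 * pl H' px s cx t) +
            (1 - mm) * (Y1 + (G.1 * px + G.2 * s) + 2 * pl H px s cx t) := by
        rw [eN1]; simp only [pl]; ring
      show |Y1 + M * cx + ((G'.1 + (1 - mm) * G.1) * px + (G'.2 + (1 - mm) * G.2) * s) +
          2 * pl (H'.1 + (1 - mm) * H.1, H'.2.1 + (1 - mm) * H.2.1,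
            H'.2.2 + (1 - mm) * H.2.2) px s cx t| ≤ _
      rw [e0]
      refine (add_abs_le u1 (mul_abs_le hm1 o1)).trans ?_
      have i0 : K0 * (1 + |N0|) ≤ K0 * (1 + (L * y + P)) :=
        mul_le_mul_of_nonneg_left (by linarith) K00.le
      have i0' : d0 * |N1| ≤ d0 * (L * w + C) := mul_le_mul_of_nonneg_left N1b hd0
      have i1 := LK0 1 zero_le_one 0 (by norm_num)
      have i1' := LK0 1 zero_le_one 1 (by norm_num)
      have i2 := LK0 y y0 1 (by norm_num)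
      have i2' := LK0 P P0 0 (by norm_num)
      have i3 := Ld0 w w0 1 (by norm_num)
      have i3' := Ld0 C C0 0 (by norm_num)
      have i4 := LKK y y0 1 (by norm_num)
      have i4' := LKK y y0 2 (by norm_num)
      have i5 := Lm0 w w0 2 (by norm_num)
      have i5' := Lm0 w w0 3 (by norm_num)
      have j1 : 0 ≤ (L ^ 4 * K0) * P := mul_nonneg nK P0
      have j2 : 0 ≤ (L ^ 4 * K0) * y := mul_nonneg nK y0
      have j3 : 0 ≤ (L ^ 4 * d0) * w := mul_nonneg nd w0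
      have j4 : 0 ≤ (L ^ 4 * d0) * C := mul_nonneg nd C0
      have j5 : 0 ≤ (L ^ 4 * m) * w := mul_nonneg nm w0
      have j6 : 0 ≤ (L ^ 4 * m) * C := mul_nonneg nm C0
      have e : 40 * L ^ 4 * K0 * (1 + y + P) + 40 * L ^ 4 * (d0 + m) * (w + C) =
        40 * (L ^ 4 * K0) + 40 * ((L ^ 4 * K0) * y) + 40 * ((L ^ 4 * K0) * P) +
        40 * ((L ^ 4 * d0) * w) + 40 * ((L ^ 4 * d0) * C) + 40 * ((L ^ 4 * m) * w) +
        40 * ((L ^ 4 * m) * C) := by ring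
      rw [e]
      simp only [pow_zero, pow_one, one_mul, mul_one] at i1 i1' i2 i2' i3 i3' i4
      have e2 : 2 * L * (K0 * (1 + y) + d0 * w + 8 * L * y + 12 * L ^ 2 * m * w) =
        2 * (L * K0) + 2 * (L * K0 * y) + 2 * (L * d0 * w) + 16 * (L ^ 2 * y) +
          24 * (L ^ 3 * m * w) := by ring
      have e3 : K0 * (1 + (L * y + P)) = K0 + L * K0 * y + K0 * P := by ring
      have e4 : d0 * (L * w + C) = L * d0 * w + d0 * C := by ring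
      rw [e2]
      rw [e3] at i0
      rw [e4] at i0'
      linarith
    · -- b2
      rw [← hy, ← hw, ← hP, ← hC]
      have e0 : ((G'.1 + (1 - mm) * G.1) * cx + (G'.2 + (1 - mm) * G.2) * t) +
          h2 (H'.1 + (1 - mm) * H.1, H'.2.1 + (1 - mm) * H.2.1,
            H'.2.2 + (1 - mm) * H.2.2) cx t =
          ((G'.1 * cx + G'.2 * t) + h2 H' cx t) +
            (1 - mm) * ((G.1 * cx + G.2 * t) + h2 H cx t) := by
        simp only [h2]; ring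
      show |((G'.1 + (1 - mm) * G.1) * cx + (G'.2 + (1 - mm) * G.2) * t) +
          h2 (H'.1 + (1 - mm) * H.1, H'.2.1 + (1 - mm) * H.2.1,
            H'.2.2 + (1 - mm) * H.2.2) cx t| ≤ _
      rw [e0]
      refine (add_abs_le u2 (mul_abs_le hm1 o2)).trans ?_
      have i0 : K0 * (1 + |N1|) ≤ K0 * (1 + (L * w + C)) :=
        mul_le_mul_of_nonneg_left (by linarith) K00.le
      have i1 := LK0 1 zero_le_one 0 (by norm_num)
      have i1' := LK0 1 zero_le_one 1 (by norm_num)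
      have i2 := LK0 w w0 1 (by norm_num)
      have i2' := LK0 C C0 0 (by norm_num)
      have i4 := LKK w w0 2 (by norm_num)
      have i4' := LKK w w0 3 (by norm_num)
      have j1 : 0 ≤ (L ^ 4 * K0) * P := mul_nonneg nK P0
      have j2 : 0 ≤ (L ^ 4 * K0) * y := mul_nonneg nK y0
      have j3 : 0 ≤ (L ^ 4 * K0) * w := mul_nonneg nK w0
      have j4 : 0 ≤ (L ^ 4 * K0) * C := mul_nonneg nK C0
      have e : 40 * L ^ 4 * K0 * (1 + y + P + w + C) =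
        40 * (L ^ 4 * K0) + 40 * ((L ^ 4 * K0) * y) + 40 * ((L ^ 4 * K0) * P) +
        40 * ((L ^ 4 * K0) * w) + 40 * ((L ^ 4 * K0) * C) := by ring
      rw [e]
      simp only [pow_zero, pow_one, one_mul, mul_one] at i1 i1' i2 i2'
      have e2 : 2 * L * (K0 * (1 + w) + 11 * L ^ 2 * w) =
        2 * (L * K0) + 2 * (L * K0 * w) + 22 * (L ^ 3 * w) := by ring
      have e3 : K0 * (1 + (L * w + C)) = K0 + L * K0 * w + K0 * C := by ring
      rw [e2]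
      rw [e3] at i0
      linarith

end Crest.Agent.R136.Lnk2816
end

-- ▼ part R136/Lks_140

/-!
# R136 (S0187), PLAN 2, leaf (B4) share: `LnkSh` (the links over `ShD`) (helper140)

`link_at` (989), `mtx_of` (18), `six_of` (816) ⊢ `Lkp140.LnkSh`.
-/

set_option autoImplicit false
set_option linter.unusedVariables false

namespace Crest.Agent.R136.Lks140

open Finset
open Crest.Agent.R136.Sh605 Crest.Agent.R136.Fl808
open Crest.Agent.R136.K4 (Plk4)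
open Crest.Agent.R136.Tlt51 (Shp InP)
open Crest.Agent.R136.KapP335 (kapP expP expP_spec)
open Crest.Agent.R136.Tl102 (NrmC IsExp StP kap)
open Crest.Agent.R136.Pl2
open Crest.Agent.R136.Pl2W102 (Near Ex2 Two1)
open Crest.Agent.R136.Shd410 (ShD)
open Crest.Agent.R136.Lnk989 (dis nb OneN SixAt SixOf Mtx link_at nb_bd)
open Crest.Agent.R136.Plk511 (stp stc ny0 ny1)
open Crest.Agent.R136.Vlk639 (Lnk)
open Crest.Agent.R136.Grp639 (dx dc al pe)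
open Crest.Agent.R136.Clu108 (Six Bd)
open Crest.Agent.R136.Mlt89 (cv dt_cv)
open Crest.Agent.R136.Mdr535 (ty gr)
open Crest.Agent.R136.Lkf18 (pk mtx_of)
open Crest.Agent.R136.Lkp140 (Close8 pik LnkSh)

/-! ### abstract half -/

theorem sixOf : SixOf 40 := by
  intro K0 d0 B L M g1 g2 h11 h12 h22 g1' g2' h11' h12' h22' l10 l11 l12 l20
    l21 l22 k10 k11 k12 k20 k21 k22 mm t1 t2 hK0 hd0 hL hM hMt a1 a2 a3 a4 a5 b1 b2 b3 b4 b5
    c1 c2 c3 c4 c5 c6 c7 c8 e1 e2 e3 e4 hmm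
  obtain ⟨g, g', h, h', ⟨p1, p2, p3, p4, p5, p6, p7, p8, p9, p10⟩, hs⟩ :=
    Lnk2816.six_of a1 a2 a3 a4 a5 b1 b2 b3 b4 b5 hL c1 c2 c3 c4 c5 c6 c7 c8 e1 e2 e3 e4 hmm hd0
      hK0 hM hMt
  refine ⟨g, g', h, h', ⟨p1, p2, p5, p6, p7⟩, ⟨p3, p4, p8, p9, p10⟩, ?_⟩
  intro Y0 Y1 N0 N1 A0 B0 A1 B1 x1 x2 v1 v2 x1' x2' v1' v2' m h1 h2
  exact hs Y0 Y1 N0 N1 A0 B0 A1 B1 x1 x2 v1 v2 x1' x2' v1' v2' m ⟨h1.1, h1.2.1, h1.2.2⟩
    ⟨h2.1, h2.2.1, h2.2.2⟩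

theorem six_mono {K K' d M : ℝ} (hK : K ≤ K') (hM : 0 < M) {g g' : ℝ × ℝ} {h h' : ℝ × ℝ × ℝ}
    {y0 y1 px s cx t : ℝ} (H : Six K d M g g' h h' y0 y1 px s cx t) :
    Six K' d M g g' h h' y0 y1 px s cx t := by
  have p1 : 0 ≤ 1 + |y0| + M * |px| := by positivity
  have p2 : 0 ≤ 1 + |y0| + M * |px| + |y1| + M * |cx| := by positivity
  have q1 := mul_le_mul_of_nonneg_right hK p1
  have q2 := mul_le_mul_of_nonneg_right hK p2
  exact ⟨by linarith [H.a0], by linarith [H.a1], by linarith [H.a2], by linarith [H.b0],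
    by linarith [H.b1], by linarith [H.b2]⟩

theorem pw {X : ℝ} (hX : 2 ≤ X) (n : ℕ) {c : ℝ} (hc : c ≤ 2 ^ n) : c ≤ X ^ n :=
  hc.trans (pow_le_pow_left₀ (by norm_num) hX n)

/-! ### strip coordinates -/

theorem dx_eq0 (e : Fin 3 → V3) (Λ w1 w2 z0 ρ : ℝ) (t0 : Ln4) (L : ℕ → Ln4) (b : ℕ → ℝ)
    (T T' : ℕ) : dx (stp e Λ w1 w2 z0 t0 L) (stc e Λ w1 w2 ρ t0 L) b T T' 0 =
      Λ * dt (e 1) (dis (L T) (L T') (z0 + ρ * b T)) / w1 := by
  simp only [dx, stp, stc, Matrix.cons_val_zero, dis, dt, Ln4.pos, Pi.sub_apply, Pi.smul_apply,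
    smul_eq_mul]
  ring

theorem dx_eq1 (e : Fin 3 → V3) (Λ w1 w2 z0 ρ : ℝ) (t0 : Ln4) (L : ℕ → Ln4) (b : ℕ → ℝ)
    (T T' : ℕ) : dx (stp e Λ w1 w2 z0 t0 L) (stc e Λ w1 w2 ρ t0 L) b T T' 1 =
      dt (e 2) (dis (L T) (L T') (z0 + ρ * b T)) / w2 := by
  simp only [dx, stp, stc, Matrix.cons_val_one, Matrix.cons_val_fin_one, dis, dt, Ln4.pos,
    Pi.sub_apply, Pi.smul_apply, smul_eq_mul]
  ring

theorem dc_eq0 (e : Fin 3 → V3) (Λ w1 w2 z0 ρ : ℝ) (t0 : Ln4) (L : ℕ → Ln4)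
    (T T' : ℕ) : dc (stc e Λ w1 w2 ρ t0 L) T T' 0 =
      Λ * dt (e 1) (dis (L T) (L T') (z0 + ρ) - dis (L T) (L T') z0) / w1 := by
  simp only [dc, stc, Matrix.cons_val_zero, dis, dt, Ln4.pos, Pi.sub_apply, Pi.smul_apply,
    smul_eq_mul]
  ring

theorem dc_eq1 (e : Fin 3 → V3) (Λ w1 w2 z0 ρ : ℝ) (t0 : Ln4) (L : ℕ → Ln4)
    (T T' : ℕ) : dc (stc e Λ w1 w2 ρ t0 L) T T' 1 =
      dt (e 2) (dis (L T) (L T') (z0 + ρ) - dis (L T) (L T') z0) / w2 := by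
  simp only [dc, stc, Matrix.cons_val_one, Matrix.cons_val_fin_one, dis, dt, Ln4.pos,
    Pi.sub_apply, Pi.smul_apply, smul_eq_mul]
  ring

/-! ### upper bound of the minors -/

/-- components of the gradient of the second sheet in the frame of the first one -/
theorem comp_cv {e e' : Fin 3 → V3} (he : Ortho e) (he' : Ortho e') {w b : V3}
    (hw0 : 0 < w 0) (h02 : w 0 ≤ w 2) (h21 : w 2 ≤ w 1) (b0 : |b 0| ≤ 2) (b1 : |b 1| ≤ 1)
    (b2 : |b 2| ≤ 1) (k : Fin 3) : |dt (e k) (cv e' w b)| ≤ 4 := by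
  have hw2 : 0 < w 2 := hw0.trans_le h02
  have hw1 : 0 < w 1 := hw2.trans_le h21
  rw [dt_cv, div_self hw0.ne', one_mul]
  have o0 := abs_dt_le_one he' he k 0
  have o1 := abs_dt_le_one he' he k 1
  have o2 := abs_dt_le_one he' he k 2
  have r1 : |w 0 / w 1| ≤ 1 := by
    rw [abs_of_pos (by positivity), div_le_one hw1]; linarith
  have r2 : |w 0 / w 2| ≤ 1 := by
    rw [abs_of_pos (by positivity), div_le_one hw2]; exact h02
  have s0 : |b 0 * dt (e k) (e' 0)| ≤ 2 * 1 := by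
    rw [abs_mul]; exact mul_le_mul b0 o0 (abs_nonneg _) (by norm_num)
  have s1 : |w 0 / w 1 * b 1 * dt (e k) (e' 1)| ≤ 1 * 1 * 1 := by
    rw [abs_mul, abs_mul]
    exact mul_le_mul (mul_le_mul r1 b1 (abs_nonneg _) zero_le_one) o1 (abs_nonneg _) (by norm_num)
  have s2 : |w 0 / w 2 * b 2 * dt (e k) (e' 2)| ≤ 1 * 1 * 1 := by
    rw [abs_mul, abs_mul]
    exact mul_le_mul (mul_le_mul r2 b2 (abs_nonneg _) zero_le_one) o2 (abs_nonneg _) (by norm_num)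
  calc _ ≤ |b 0 * dt (e k) (e' 0)| + |w 0 / w 1 * b 1 * dt (e k) (e' 1)| +
        |w 0 / w 2 * b 2 * dt (e k) (e' 2)| :=
        (abs_add_le _ _).trans (add_le_add (abs_add_le _ _) le_rfl)
    _ ≤ _ := by linarith

/-- the wide component of the gradient of the second sheet -/
theorem comp1_cv {e e' : Fin 3 → V3} (he : Ortho e) (he' : Ortho e') {w b : V3}
    (hw0 : 0 < w 0) (h02 : w 0 ≤ w 2) (h21 : w 2 ≤ w 1) (b0 : |b 0| ≤ 2) (b1 : |b 1| ≤ 1)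
    (b2 : |b 2| ≤ 1) {w1 w2 Λ X : ℝ} (hw1 : 0 < w1) (hw2 : 0 < w2) (hΛ : 1 ≤ Λ) (hX : 2 ≤ X)
    (d1 : w1 ≤ X * w 1) (d2 : w 2 ≤ X * w2)
    (t0 : |dt (e 1) (e' 0)| * w1 ≤ X * (Λ * w2)) (t2 : |dt (e 1) (e' 2)| * w1 ≤ X * (Λ * w2)) :
    |dt (e 1) (cv e' w b)| * w1 ≤ 3 * X ^ 2 * (Λ * w2) := by
  have hp2 : 0 < w 2 := hw0.trans_le h02
  have hp1 : 0 < w 1 := hp2.trans_le h21
  have X0 : 0 < X := by linarith
  rw [dt_cv, div_self hw0.ne', one_mul]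
  have o1 := abs_dt_le_one he' he 1 1
  have r2 : |w 0 / w 2| ≤ 1 := by
    rw [abs_of_pos (by positivity), div_le_one hp2]; exact h02
  have hr1 : |w 0 / w 1| = w 0 / w 1 := abs_of_pos (by positivity)
  have s0 : |b 0 * dt (e 1) (e' 0)| * w1 ≤ 2 * (X * (Λ * w2)) := by
    rw [abs_mul, mul_assoc]
    exact mul_le_mul b0 t0 (by positivity) (by norm_num)
  have s1 : |w 0 / w 1 * b 1 * dt (e 1) (e' 1)| * w1 ≤ X ^ 2 * (Λ * w2) := by
    rw [abs_mul, abs_mul, hr1]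
    calc w 0 / w 1 * |b 1| * |dt (e 1) (e' 1)| * w1 ≤ w 0 / w 1 * 1 * 1 * (X * w 1) := by
          gcongr
      _ = X * w 0 := by field_simp
      _ ≤ X * (X * w2) := by
          have := h02.trans d2
          gcongr
      _ = X ^ 2 * (1 * w2) := by ring
      _ ≤ X ^ 2 * (Λ * w2) := by gcongr
  have s2 : |w 0 / w 2 * b 2 * dt (e 1) (e' 2)| * w1 ≤ X * (Λ * w2) := by
    rw [abs_mul, abs_mul]
    calc |w 0 / w 2| * |b 2| * |dt (e 1) (e' 2)| * w1 ≤ 1 * 1 * |dt (e 1) (e' 2)| * w1 := by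
          gcongr
      _ = |dt (e 1) (e' 2)| * w1 := by ring
      _ ≤ _ := t2
  have tri : |b 0 * dt (e 1) (e' 0) + w 0 / w 1 * b 1 * dt (e 1) (e' 1) +
      w 0 / w 2 * b 2 * dt (e 1) (e' 2)| ≤ |b 0 * dt (e 1) (e' 0)| +
        |w 0 / w 1 * b 1 * dt (e 1) (e' 1)| + |w 0 / w 2 * b 2 * dt (e 1) (e' 2)| :=
    (abs_add_le _ _).trans (add_le_add (abs_add_le _ _) le_rfl)
  have hp : 0 ≤ Λ * w2 := by positivity
  have fin : 3 * (X * (Λ * w2)) ≤ 2 * X ^ 2 * (Λ * w2) := by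
    have : 3 * X ≤ 2 * X ^ 2 := by nlinarith
    calc 3 * (X * (Λ * w2)) = (3 * X) * (Λ * w2) := by ring
      _ ≤ _ := mul_le_mul_of_nonneg_right this hp
  calc _ ≤ (|b 0 * dt (e 1) (e' 0)| +
        |w 0 / w 1 * b 1 * dt (e 1) (e' 1)| + |w 0 / w 2 * b 2 * dt (e 1) (e' 2)|) * w1 :=
        mul_le_mul_of_nonneg_right tri hw1.le
    _ = |b 0 * dt (e 1) (e' 0)| * w1 + |w 0 / w 1 * b 1 * dt (e 1) (e' 1)| * w1 +
        |w 0 / w 2 * b 2 * dt (e 1) (e' 2)| * w1 := by ring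
    _ ≤ _ := by linarith

/-- the minors are bounded -/
theorem pk_le {e e' : Fin 3 → V3} (he : Ortho e) (he' : Ortho e') {w w' b b' : V3}
    (hw0 : 0 < w 0) (h02 : w 0 ≤ w 2) (h21 : w 2 ≤ w 1)
    (hw0' : 0 < w' 0) (h02' : w' 0 ≤ w' 2) (h21' : w' 2 ≤ w' 1)
    (b0 : |b 0| ≤ 2) (b1 : |b 1| ≤ 1) (b2 : |b 2| ≤ 1)
    (b0' : |b' 0| ≤ 2) (b1' : |b' 1| ≤ 1) (b2' : |b' 2| ≤ 1)
    {w1 w2 Λ X : ℝ} (hw1 : 0 < w1) (hw2 : 0 < w2) (hΛ : 1 ≤ Λ) (hX : 2 ≤ X)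
    (d1 : w1 ≤ X * w 1) (d2 : w 2 ≤ X * w2) (d1' : w1 ≤ X * w' 1) (d2' : w' 2 ≤ X * w2)
    (t0 : |dt (e 1) (e' 0)| * w1 ≤ X * (Λ * w2)) (t2 : |dt (e 1) (e' 2)| * w1 ≤ X * (Λ * w2)) :
    |pk e (cv e w b) (cv e' w' b') 1| * w1 ≤ 10 * X ^ 2 * (Λ * w2) ∧
      |pk e (cv e w b) (cv e' w' b') 2| ≤ 12 := by
  have hp2 : 0 < w 2 := hw0.trans_le h02
  have hp1 : 0 < w 1 := hp2.trans_le h21
  have X0 : 0 < X := by linarith
  have n0 : |dt (e 0) (cv e w b)| ≤ 2 := by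
    rw [Mlt89.dt_cv0 he hw0.ne']; exact b0
  have n1 : |dt (e 1) (cv e w b)| * w1 ≤ X ^ 2 * (Λ * w2) := by
    rw [Mlt89.dt_cv1 he, abs_mul, abs_of_pos (by positivity : 0 < w 0 / w 1)]
    calc w 0 / w 1 * |b 1| * w1 ≤ w 0 / w 1 * 1 * (X * w 1) := by gcongr
      _ = X * w 0 := by field_simp
      _ ≤ X * (X * w2) := by
          have := h02.trans d2
          gcongr
      _ = X ^ 2 * (1 * w2) := by ring
      _ ≤ X ^ 2 * (Λ * w2) := by gcongr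
  have n2 : |dt (e 2) (cv e w b)| ≤ 1 := by
    rw [Mlt89.dt_cv2 he, abs_mul, abs_of_pos (by positivity : 0 < w 0 / w 2)]
    calc w 0 / w 2 * |b 2| ≤ 1 * 1 := by
          refine mul_le_mul ((div_le_one hp2).2 h02) b2 (abs_nonneg _) zero_le_one
      _ = 1 := by norm_num
  have m0 := comp_cv he he' hw0' h02' h21' b0' b1' b2' 0
  have m2 := comp_cv he he' hw0' h02' h21' b0' b1' b2' 2
  have m1 := comp1_cv he he' hw0' h02' h21' b0' b1' b2' hw1 hw2 hΛ hX d1' d2' t0 t2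
  constructor
  · unfold pk
    calc _ ≤ (|dt (e 0) (cv e w b)| * |dt (e 1) (cv e' w' b')| +
          |dt (e 0) (cv e' w' b')| * |dt (e 1) (cv e w b)|) * w1 := by
          refine mul_le_mul_of_nonneg_right ?_ hw1.le
          rw [← abs_mul, ← abs_mul]; exact abs_sub _ _
      _ = |dt (e 0) (cv e w b)| * (|dt (e 1) (cv e' w' b')| * w1) +
          |dt (e 0) (cv e' w' b')| * (|dt (e 1) (cv e w b)| * w1) := by ring
      _ ≤ 2 * (3 * X ^ 2 * (Λ * w2)) + 4 * (X ^ 2 * (Λ * w2)) := by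
          refine add_le_add (mul_le_mul n0 m1 (by positivity) (by norm_num))
            (mul_le_mul m0 n1 (by positivity) (by norm_num))
      _ = 10 * X ^ 2 * (Λ * w2) := by ring
  · unfold pk
    calc _ ≤ |dt (e 0) (cv e w b)| * |dt (e 2) (cv e' w' b')| +
          |dt (e 0) (cv e' w' b')| * |dt (e 2) (cv e w b)| := by
          rw [← abs_mul, ← abs_mul]; exact abs_sub _ _
      _ ≤ 2 * 4 + 4 * 1 := by
          refine add_le_add (mul_le_mul n0 m2 (abs_nonneg _) (by norm_num))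
            (mul_le_mul m0 n2 (abs_nonneg _) (by norm_num))
      _ = 12 := by norm_num

/-! ### one line -/

/-- the data at one line `T` of `Z` -/
structure At1 (Z : Finset ℕ) (L : ℕ → Ln4) (S S' : Plk4) (X a Y w1 w2 z0 ρ μ Λ : ℝ) (k' : ℕ)
    (T : ℕ) (ζ : ℝ) (N : V3) (gv : Fin 2 → ℝ) (Mf : ℝ) (G G' : ℝ × ℝ) (H H' : ℝ × ℝ × ℝ) :
    Prop where
  hζ : ζ = 0 ∨ ζ = 1
  gn : gv 0 ^ 2 + gv 1 ^ 2 = 1
  MM : 2 ^ k' * (Y / a) / X ^ 4 ≤ Mf
  Mx : Mf ≤ X ^ 10 * (w2 / a)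
  bd : Bd (X ^ 139 * Mf) G H
  bd' : Bd (X ^ 139 * Mf) G' H'
  g2 : |G.2| ≤ X ^ 139 * Mf
  g2' : |G'.2| ≤ X ^ 139 * Mf
  h22 : |H.2.2| ≤ X ^ 139 * Mf
  h22' : |H'.2.2| ≤ X ^ 139 * Mf
  sl : |N 1 / N 0| ≤ 2 ∧ |N 2 / N 0| ≤ 2
  six : ∀ T' ∈ Z, (∀ z, z = z0 ∨ z = z0 + ρ →
      |dt (S.e 1) (dis (L T) (L T') z)| ≤ μ * S.w 1 ∧ |dt (S.e 2) (dis (L T) (L T') z)| ≤ μ * S.w 2 ∧
      |dt (S'.e 1) (dis (L T) (L T') z)| ≤ μ * S'.w 1 ∧
      |dt (S'.e 2) (dis (L T) (L T') z)| ≤ μ * S'.w 2) →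
    |Λ * dt (S.e 1) (dis (L T) (L T') (z0 + ρ * ζ)) / w1| ≤ 2 * μ →
    |dt (S.e 2) (dis (L T) (L T') (z0 + ρ * ζ)) / w2| ≤ 2 * μ →
    |Λ * dt (S.e 1) (dis (L T) (L T') (z0 + ρ) - dis (L T) (L T') z0) / w1| ≤ 2 * μ →
    |dt (S.e 2) (dis (L T) (L T') (z0 + ρ) - dis (L T) (L T') z0) / w2| ≤ 2 * μ →
    Six (X ^ 169) (40 * (8 * (X ^ 12) ^ 3) ^ 4 * (800 * μ + 2 * μ)) Mf G G' H H'
      (ty S.e S.w N (dis (L T) (L T') (z0 + ρ * ζ)) / S.a)
      (ty S.e S.w N (dis (L T) (L T') (z0 + ρ) - dis (L T) (L T') z0) / S.a)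
      (al gv ![Λ * dt (S.e 1) (dis (L T) (L T') (z0 + ρ * ζ)) / w1,
        dt (S.e 2) (dis (L T) (L T') (z0 + ρ * ζ)) / w2])
      (pe gv ![Λ * dt (S.e 1) (dis (L T) (L T') (z0 + ρ * ζ)) / w1,
        dt (S.e 2) (dis (L T) (L T') (z0 + ρ * ζ)) / w2])
      (al gv ![Λ * dt (S.e 1) (dis (L T) (L T') (z0 + ρ) - dis (L T) (L T') z0) / w1,
        dt (S.e 2) (dis (L T) (L T') (z0 + ρ) - dis (L T) (L T') z0) / w2])
      (pe gv ![Λ * dt (S.e 1) (dis (L T) (L T') (z0 + ρ) - dis (L T) (L T') z0) / w1,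
        dt (S.e 2) (dis (L T) (L T') (z0 + ρ) - dis (L T) (L T') z0) / w2])

/-- numbers at one line : `M = |(t1, t2)|` -/
theorem M_bounds {p1 p2 w1 w2 Λ a a' bb X W E : ℝ} (hw1 : 0 < w1) (hw2 : 0 < w2)
    (hΛ : 1 ≤ Λ) (ha : 0 < a) (ha' : 0 < a') (haa : a' ≤ X * a) (haa' : a ≤ X * a')
    (hb1 : 1 / 4 ≤ bb) (hb2 : bb ≤ 4) (hX : 2 ≤ X) (hE : E ≤ X * max (|p1| * (w1 / Λ)) (|p2| * w2))
    (hE0 : 0 < E) (u1 : |p1| * w1 ≤ 10 * X ^ 2 * (Λ * w2)) (u2 : |p2| ≤ 12) :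
    ∃ Mf : ℝ, 0 < Mf ∧ Mf ^ 2 = (p1 * w1 / (Λ * a' * bb)) ^ 2 + (p2 * w2 / (a' * bb)) ^ 2 ∧
      E / a / X ^ 4 ≤ Mf ∧ Mf ≤ X ^ 10 * (w2 / a) := by
  have X0 : 0 < X := by linarith
  have Λ0 : 0 < Λ := by linarith
  have b0 : 0 < bb := by linarith
  obtain ⟨t1, ht1⟩ : ∃ t, t = p1 * w1 / (Λ * a' * bb) := ⟨_, rfl⟩
  obtain ⟨t2, ht2⟩ : ∃ t, t = p2 * w2 / (a' * bb) := ⟨_, rfl⟩
  rw [← ht1, ← ht2]
  have s0 : 0 ≤ t1 ^ 2 + t2 ^ 2 := by positivity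
  have m1 : |t1| ≤ Real.sqrt (t1 ^ 2 + t2 ^ 2) :=
    Real.abs_le_sqrt (by nlinarith [sq_nonneg t2])
  have m2 : |t2| ≤ Real.sqrt (t1 ^ 2 + t2 ^ 2) :=
    Real.abs_le_sqrt (by nlinarith [sq_nonneg t1])
  have e1 : |t1| = |p1| * (w1 / Λ) / (a' * bb) := by
    rw [ht1, abs_div, abs_mul, abs_of_pos hw1, abs_of_pos (by positivity : 0 < Λ * a' * bb)]
    field_simp
  have e2 : |t2| = |p2| * w2 / (a' * bb) := by
    rw [ht2, abs_div, abs_mul, abs_of_pos hw2, abs_of_pos (by positivity : 0 < a' * bb)]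
  have hab : a' * bb ≤ 4 * X * a := by nlinarith
  have hab' : a ≤ 4 * X * (a' * bb) := by
    have : X * a' ≤ 4 * (X * a' * bb) := by nlinarith [mul_pos X0 ha']
    nlinarith
  have lo : E / a / X ^ 4 ≤ max |t1| |t2| := by
    have q : max |t1| |t2| = max (|p1| * (w1 / Λ)) (|p2| * w2) / (a' * bb) := by
      rw [e1, e2, max_div_div_right (by positivity)]
    rw [q, div_div, div_le_div_iff₀ (by positivity) (by positivity)]
    set mx := max (|p1| * (w1 / Λ)) (|p2| * w2) with hmx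
    have mx0 : 0 ≤ mx := le_max_of_le_right (by positivity)
    calc E * (a' * bb) ≤ (X * mx) * (4 * X * a) := by gcongr
      _ = mx * (a * (4 * X ^ 2)) := by ring
      _ ≤ mx * (a * X ^ 4) := by
          have : 4 * X ^ 2 ≤ X ^ 4 := by
            have h4 : (4:ℝ) ≤ X ^ 2 := pw hX 2 (by norm_num)
            calc 4 * X ^ 2 ≤ X ^ 2 * X ^ 2 := mul_le_mul_of_nonneg_right h4 (by positivity)
              _ = X ^ 4 := by ring
          gcongr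
  have lo' : E / a / X ^ 4 ≤ Real.sqrt (t1 ^ 2 + t2 ^ 2) := lo.trans (max_le m1 m2)
  refine ⟨Real.sqrt (t1 ^ 2 + t2 ^ 2), lt_of_lt_of_le (by positivity) lo', Real.sq_sqrt s0, lo', ?_⟩
  have up : Real.sqrt (t1 ^ 2 + t2 ^ 2) ≤ |t1| + |t2| := by
    rw [Real.sqrt_le_left (by positivity)]
    nlinarith [sq_abs t1, sq_abs t2, abs_nonneg t1, abs_nonneg t2,
      mul_nonneg (abs_nonneg t1) (abs_nonneg t2)]
  have c1 : |t1| ≤ 40 * X ^ 3 * (w2 / a) := by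
    rw [e1, div_le_iff₀ (by positivity)]
    have f1 : |p1| * (w1 / Λ) ≤ 10 * X ^ 2 * w2 := by
      rw [← mul_div_assoc, div_le_iff₀ Λ0]; linarith
    calc |p1| * (w1 / Λ) ≤ 10 * X ^ 2 * w2 := f1
      _ = 10 * X ^ 2 * (w2 / a) * a := by field_simp
      _ ≤ 10 * X ^ 2 * (w2 / a) * (4 * X * (a' * bb)) := by gcongr
      _ = _ := by ring
  have c2 : |t2| ≤ 48 * X * (w2 / a) := by
    rw [e2, div_le_iff₀ (by positivity)]
    calc |p2| * w2 ≤ 12 * w2 := by gcongr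
      _ = 12 * (w2 / a) * a := by field_simp
      _ ≤ 12 * (w2 / a) * (4 * X * (a' * bb)) := by gcongr
      _ = _ := by ring
  have n1 : 40 * X ^ 3 + 48 * X ≤ X ^ 10 := by
    have h7 : 88 ≤ X ^ 7 := pw hX 7 (by norm_num)
    have h3 : X ≤ X ^ 3 := le_self_pow₀ (by linarith) (by norm_num)
    calc 40 * X ^ 3 + 48 * X ≤ 88 * X ^ 3 := by linarith
      _ ≤ X ^ 7 * X ^ 3 := mul_le_mul_of_nonneg_right h7 (by positivity)
      _ = X ^ 10 := by ring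
  have hwa : 0 ≤ w2 / a := by positivity
  calc _ ≤ |t1| + |t2| := up
    _ ≤ (40 * X ^ 3 + 48 * X) * (w2 / a) := by linarith
    _ ≤ _ := mul_le_mul_of_nonneg_right n1 hwa

set_option maxHeartbeats 1000000 in
theorem at_one {K : ℝ} {qm qp : Fin 3 → ℝ} {L : ℕ → Ln4} {Z : Finset ℕ}
    {S S' : Plk4} {f g : Fin 3 → V3} {W M a Y w1 w2 z0 ρ r : ℝ} {j k' : ℕ}
    (H : ShD K qm qp L Z S S' f g W M a Y w1 w2 z0 ρ r j k') {X : ℝ} (hWX : W ≤ X)
    (tl0 : |dt (S.e 1) (S'.e 0)| * w1 ≤ X * (2 ^ j * w2))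
    (tl2 : |dt (S.e 1) (S'.e 2)| * w1 ≤ X * (2 ^ j * w2)) {T : ℕ} (hT : T ∈ Z) {ζ : ℝ}
    (hζ : ζ = 0 ∨ ζ = 1)
    (hlo : 2 ^ k' * Y ≤ X * max (|pik S S' z0 ρ (L T) ζ 1| * (w1 / 2 ^ j))
      (|pik S S' z0 ρ (L T) ζ 2| * w2)) {μ : ℝ} (hμ0 : 0 < μ) (hμ : X ^ 315 * μ ≤ 1) :
    ∃ (gv : Fin 2 → ℝ) (Mf : ℝ) (G G' : ℝ × ℝ) (Hh Hh' : ℝ × ℝ × ℝ),
      At1 Z L S S' X a Y w1 w2 z0 ρ μ (2 ^ j) k' T ζ
        (nb (expP S z0 ρ (L T)).1 (expP S z0 ρ (L T)).2.1 ζ) gv Mf G G' Hh Hh' := by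
  have hX : 2 ≤ X := H.W2.trans hWX
  have X0 : 0 < X := by linarith
  have X1 : 1 ≤ X := by linarith
  have W0 : 0 < W := by linarith [H.W2]
  have ha := H.a0
  have hY := ha.trans_le H.aY
  have hw2 : 0 < w2 := hY.trans_le H.Yw
  have hw1 : 0 < w1 := hw2.trans_le H.ww
  have hΛ : (1:ℝ) ≤ 2 ^ j := one_le_pow₀ (by norm_num)
  have hk1 : (1:ℝ) ≤ 2 ^ k' := one_le_pow₀ (by norm_num)
  have hSa : 0 < S.a := H.r0.trans_le H.shS.r0_le
  have hSa' : 0 < S'.a := H.r0.trans_le H.shS'.r0_le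
  have p0 : 0 < S.w 0 := hSa.trans_le H.shS.a_le0
  have p2 : 0 < S.w 2 := p0.trans_le H.shS.w0_le
  have p1 : 0 < S.w 1 := p2.trans_le H.shS.w_le
  have p0' : 0 < S'.w 0 := hSa'.trans_le H.shS'.a_le0
  have p2' : 0 < S'.w 2 := p0'.trans_le H.shS'.w0_le
  have p1' : 0 < S'.w 1 := p2'.trans_le H.shS'.w_le
  have E := expP_spec H.shS.isQ p0.ne' z0 ρ (L T)
  have E' := expP_spec H.shS'.isQ p0'.ne' z0 ρ (L T)
  have St := StP.of_shN H.shS p0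
  have St' := StP.of_shN H.shS' p0'
  have N := E.nrmC St H.ρ0.le fun z h1 h2 => (H.inS T hT z h1 h2).1
  have N' := E'.nrmC St' H.ρ0.le fun z h1 h2 => (H.inS' T hT z h1 h2).1
  obtain ⟨n1, n2, n3, n4⟩ := nb_bd N hζ
  obtain ⟨n1', n2', n3', n4'⟩ := nb_bd N' hζ
  obtain ⟨B, hB⟩ : ∃ B, B = nb (expP S z0 ρ (L T)).1 (expP S z0 ρ (L T)).2.1 ζ := ⟨_, rfl⟩
  obtain ⟨B', hB'⟩ : ∃ B', B' = nb (expP S' z0 ρ (L T)).1 (expP S' z0 ρ (L T)).2.1 ζ := ⟨_, rfl⟩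
  have pk1 : ∀ k, pik S S' z0 ρ (L T) ζ k = pk S.e (cv S.e S.w B) (cv S'.e S'.w B') k := by
    intro k; rw [hB, hB']; rfl
  rw [pk1, pk1] at hlo
  -- dimensions
  have x12 : X ≤ X ^ 12 := le_self_pow₀ X1 (by norm_num)
  have x2 : X ^ 2 ≤ X ^ 12 := pow_le_pow_right₀ X1 (by norm_num)
  have x12' : (1:ℝ) ≤ X ^ 12 := one_le_pow₀ X1
  have D1 : w1 ≤ X * S.w 1 := H.d1.1.trans (mul_le_mul_of_nonneg_right hWX p1.le)
  have D1' : w1 ≤ X * S'.w 1 := H.d1'.1.trans (mul_le_mul_of_nonneg_right hWX p1'.le)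
  have D2 : w2 ≤ X * S.w 2 := H.d2.1.trans (mul_le_mul_of_nonneg_right hWX p2.le)
  have D2' : w2 ≤ X * S'.w 2 := H.d2'.1.trans (mul_le_mul_of_nonneg_right hWX p2'.le)
  have D2r : S.w 2 ≤ X * w2 := H.d2.2.trans (mul_le_mul_of_nonneg_right hWX hw2.le)
  have D2r' : S'.w 2 ≤ X * w2 := H.d2'.2.trans (mul_le_mul_of_nonneg_right hWX hw2.le)
  have A1 : a ≤ X * S.a := H.da.1.trans (mul_le_mul_of_nonneg_right hWX hSa.le)
  have A2 : S.a ≤ X * a := H.da.2.trans (mul_le_mul_of_nonneg_right hWX ha.le)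
  have A1' : a ≤ X * S'.a := H.da'.1.trans (mul_le_mul_of_nonneg_right hWX hSa'.le)
  have A2' : S'.a ≤ X * a := H.da'.2.trans (mul_le_mul_of_nonneg_right hWX ha.le)
  have up : ∀ {x y : ℝ}, 0 ≤ y → x ≤ X * y → x ≤ X ^ 12 * y := fun hy h =>
    h.trans (mul_le_mul_of_nonneg_right x12 hy)
  -- curvature
  have kS : 256 * (S.w 0 / S.a * kap (expP S z0 ρ (L T)).1 (expP S z0 ρ (L T)).2.1
      (expP S z0 ρ (L T)).2.2) ≤ X ^ 11 * (Y / a) := by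
    have h1 : kapP S z0 ρ (L T) ≤ 4 * Y := (H.near T hT).2
    have e1 : S.w 0 / S.a * kap (expP S z0 ρ (L T)).1 (expP S z0 ρ (L T)).2.1
        (expP S z0 ρ (L T)).2.2 = kapP S z0 ρ (L T) / S.a := by
      unfold kapP; ring
    rw [e1]
    calc 256 * (kapP S z0 ρ (L T) / S.a) ≤ 256 * (4 * Y / S.a) := by gcongr
      _ = 1024 * (Y * (1 / S.a)) := by ring
      _ ≤ 1024 * (Y * (X / a)) := by
          have : 1 / S.a ≤ X / a := by
            rw [div_le_div_iff₀ hSa ha]; linarith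
          gcongr
      _ = 1024 * (X * (Y / a)) := by ring
      _ ≤ X ^ 10 * (X * (Y / a)) := by
          have : (1024:ℝ) ≤ X ^ 10 := pw hX 10 (by norm_num)
          gcongr
      _ = _ := by ring
  have kS' : 256 * (S'.w 0 / S'.a * kap (expP S' z0 ρ (L T)).1 (expP S' z0 ρ (L T)).2.1
      (expP S' z0 ρ (L T)).2.2) ≤ X ^ 11 * (Y / a) := by
    have h1 : kapP S' z0 ρ (L T) ≤ 4 * Y := (H.le T hT).trans (H.near T hT).2
    have e1 : S'.w 0 / S'.a * kap (expP S' z0 ρ (L T)).1 (expP S' z0 ρ (L T)).2.1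
        (expP S' z0 ρ (L T)).2.2 = kapP S' z0 ρ (L T) / S'.a := by
      unfold kapP; ring
    rw [e1]
    calc 256 * (kapP S' z0 ρ (L T) / S'.a) ≤ 256 * (4 * Y / S'.a) := by gcongr
      _ = 1024 * (Y * (1 / S'.a)) := by ring
      _ ≤ 1024 * (Y * (X / a)) := by
          have : 1 / S'.a ≤ X / a := by
            rw [div_le_div_iff₀ hSa' ha]; linarith
          gcongr
      _ = 1024 * (X * (Y / a)) := by ring
      _ ≤ X ^ 10 * (X * (Y / a)) := by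
          have : (1024:ℝ) ≤ X ^ 10 := pw hX 10 (by norm_num)
          gcongr
      _ = _ := by ring
  have haX : S.a * (X ^ 11 * (Y / a)) ≤ X ^ 12 * w2 := by
    calc S.a * (X ^ 11 * (Y / a)) ≤ X * a * (X ^ 11 * (Y / a)) := by gcongr
      _ = X ^ 12 * Y := by field_simp
      _ ≤ X ^ 12 * w2 := by
          have := H.Yw
          gcongr
  have hfr : |dt (S'.e 2) (S.e 1)| * w1 ≤ X ^ 12 * (2 ^ j * w2) := by
    rw [dt_comm]; exact up (by positivity) tl2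
  have haa : S.a ≤ X ^ 12 * S'.a := by
    calc S.a ≤ X * (X * S'.a) := A2.trans (mul_le_mul_of_nonneg_left A1' X0.le)
      _ = X ^ 2 * S'.a := by ring
      _ ≤ _ := mul_le_mul_of_nonneg_right x2 hSa'.le
  obtain ⟨l11, l22, k10, k11, k12, k20, k21, k22, mm, MX⟩ := mtx_of (Λ := 2 ^ j)
    H.shS.ortho H.shS'.ortho St.pos St'.pos H.shS.w0_le H.shS.w_le H.shS'.w0_le H.shS'.w_le
    n1 n3 n4 n1' n2' n3' n4' hSa hSa' haa x12' hΛ hw2 H.ww (up p1.le D1) (up p2.le D2)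
    (up hw2.le D2r) (up p1'.le D1') (up p2'.le D2') (by positivity : 0 ≤ X ^ 11 * (Y / a)) haX hfr
  rw [← hB, ← hB'] at MX
  rw [← hB] at n1 n2 n3 n4 ⊢
  rw [← hB'] at n1' n2' n3' n4'
  have ab : |B 0| ≤ 2 := by rw [abs_of_pos (by linarith)]; exact n2
  have ab' : |B' 0| ≤ 2 := by rw [abs_of_pos (by linarith)]; exact n2'
  obtain ⟨u1, u2⟩ := pk_le H.shS.ortho H.shS'.ortho p0 H.shS.w0_le H.shS.w_le p0' H.shS'.w0_le
    H.shS'.w_le ab n3 n4 ab' n3' n4' hw1 hw2 hΛ hX D1 D2r D1' D2r' tl0 tl2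
  have bb1 : 1 / 4 ≤ B' 0 * B 0 := by nlinarith
  have bb2 : B' 0 * B 0 ≤ 4 := by nlinarith
  obtain ⟨Mf, M0, Mt, Ml, Mu⟩ := M_bounds (W := W) hw1 hw2 hΛ ha hSa' A2' A1' bb1 bb2 hX hlo
    (by positivity) u1 u2
  have hμ' : 20000 * μ ≤ 1 := by
    have h1 : (20000:ℝ) ≤ X ^ 315 :=
      (pw hX 15 (by norm_num)).trans (pow_le_pow_right₀ X1 (by norm_num))
    have := mul_le_mul_of_nonneg_right h1 hμ0.le
    linarith
  obtain ⟨g', g'', h', h'', cb, cb', hsix⟩ := link_at sixOf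
    { S := St, S' := St', a0 := hSa, aw := H.shS.a_le0, a0' := hSa', aw' := H.shS'.a_le0,
      ρ0 := H.ρ0, hT := H.inS T hT, kT := H.inS' T hT, hE := E, hE' := E' } hζ kS kS' hμ' hμ0.le
    (by rw [← hB, ← hB']; exact MX) M0 Mt
  rw [← hB] at hsix
  -- sizes of the coefficients
  have hco : 100 * (8 * (X ^ 12) ^ 3) ^ 3 * (X ^ 11 * (Y / a)) ≤ X ^ 139 * Mf := by
    have hYa : 0 ≤ Y / a := by positivity
    calc 100 * (8 * (X ^ 12) ^ 3) ^ 3 * (X ^ 11 * (Y / a)) = 51200 * (X ^ 119 * (Y / a)) := by ring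
      _ ≤ X ^ 16 * (X ^ 119 * (Y / a)) := by
          have : (51200:ℝ) ≤ X ^ 16 := pw hX 16 (by norm_num)
          gcongr
      _ = X ^ 139 * (1 * (Y / a) / X ^ 4) := by field_simp
      _ ≤ X ^ 139 * (2 ^ k' * (Y / a) / X ^ 4) := by gcongr
      _ = X ^ 139 * (2 ^ k' * Y / a / X ^ 4) := by ring
      _ ≤ X ^ 139 * Mf := by gcongr
  refine ⟨![pk S.e (cv S.e S.w B) (cv S'.e S'.w B') 1 * w1 / (2 ^ j * S'.a * (B' 0 * B 0)) / Mf,
    pk S.e (cv S.e S.w B) (cv S'.e S'.w B') 2 * w2 / (S'.a * (B' 0 * B 0)) / Mf], Mf, g', g'', h',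
    h'', ⟨hζ, ?_, ?_, Mu, ⟨cb.1.trans hco, cb.2.2.1.trans hco, cb.2.2.2.1.trans hco⟩,
    ⟨cb'.1.trans hco, cb'.2.2.1.trans hco, cb'.2.2.2.1.trans hco⟩, cb.2.1.trans hco,
    cb'.2.1.trans hco, cb.2.2.2.2.trans hco, cb'.2.2.2.2.trans hco, ?_, ?_⟩⟩
  · simp only [Matrix.cons_val_zero, Matrix.cons_val_one, Matrix.cons_val_fin_one]
    have e : ∀ x y : ℝ, (x / Mf) ^ 2 + (y / Mf) ^ 2 = (x ^ 2 + y ^ 2) / Mf ^ 2 := fun x y => by ring
    rw [e, ← Mt, div_self (by positivity)]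
  · refine le_trans (le_of_eq ?_) Ml
    ring
  · have hb : 0 < B 0 := by linarith
    constructor
    · rw [abs_div, abs_of_pos hb, div_le_iff₀ hb]; linarith
    · rw [abs_div, abs_of_pos hb, div_le_iff₀ hb]; linarith
  · intro T' hT' hc a1 a2 a3 a4
    have S1 := hsix (L T') (2 * μ) (H.inS T' hT') (H.inS' T' hT')
      (fun z hz => ⟨(hc z hz).1, (hc z hz).2.1⟩)
      (fun z hz => ⟨(hc z hz).2.2.1, (hc z hz).2.2.2⟩) le_rfl (by linarith) a1 a2 a3 a4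
    have hK : 40 * (8 * (X ^ 12) ^ 3) ^ 4 * 164 ≤ X ^ 169 := by
      calc 40 * (8 * (X ^ 12) ^ 3) ^ 4 * 164 = 26869760 * X ^ 144 := by ring
        _ ≤ X ^ 25 * X ^ 144 := by
            have : (26869760:ℝ) ≤ X ^ 25 := pw hX 25 (by norm_num)
            gcongr
        _ = X ^ 169 := by ring
    have S2 := six_mono hK M0 S1
    simp only [al, pe, Matrix.cons_val_zero, Matrix.cons_val_one, Matrix.cons_val_fin_one]
    convert S2 using 1 <;> ring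

/-! ### the links -/

theorem lnkSh : LnkSh := by
  refine ⟨315, 139, 169, 10, ?_⟩
  intro K qm qp L Z S S' f g W M a Y w1 w2 z0 ρ r j k' H X hWX tl0 tl2 hlo t0 F hF R μ hR hp hc
    hμ0 hμ hcl
  have hX : 2 ≤ X := H.W2.trans hWX
  have X0 : 0 < X := by linarith
  have X1 : 1 ≤ X := by linarith
  have ha := H.a0
  have hY := ha.trans_le H.aY
  have hk1 : (1:ℝ) ≤ 2 ^ k' := one_le_pow₀ (by norm_num)
  have hYa : 1 ≤ Y / a := by rw [le_div_iff₀ ha, one_mul]; exact H.aY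
  have hkY : 1 ≤ 2 ^ k' * (Y / a) := by
    calc (1:ℝ) = 1 * 1 := by norm_num
      _ ≤ _ := mul_le_mul hk1 hYa (by norm_num) (by linarith)
  have hex : ∀ T, T ∈ F → ∃ (ζ : ℝ) (N : V3) (gv : Fin 2 → ℝ) (Mf : ℝ) (G G' : ℝ × ℝ)
      (Hh Hh' : ℝ × ℝ × ℝ), At1 Z L S S' X a Y w1 w2 z0 ρ μ (2 ^ j) k' T ζ N gv Mf G G' Hh Hh' := by
    intro T hT
    obtain ⟨ζ, hζ, h⟩ := hlo T (hF hT)
    obtain ⟨gv, Mf, G, G', Hh, Hh', h1⟩ := at_one H hWX tl0 tl2 (hF hT) hζ h hμ0 hμ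
    exact ⟨ζ, _, gv, Mf, G, G', Hh, Hh', h1⟩
  choose! b N gv Mf G G' Hh Hh' hA using hex
  have x315 : ∀ {c : ℝ} {n : ℕ}, c ≤ X ^ n → n ≤ 315 → c * μ ≤ 1 := by
    intro c n h1 h2
    have h3 : c ≤ X ^ 315 := h1.trans (pow_le_pow_right₀ X1 h2)
    exact (mul_le_mul_of_nonneg_right h3 hμ0.le).trans hμ
  refine ⟨N, b, gv, Mf, G, G', Hh, Hh', 40 * (8 * (X ^ 12) ^ 3) ^ 4 * (800 * μ + 2 * μ),
    { bb := fun T hT => (hA T hT).hζ
      gn := fun T hT => (hA T hT).gn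
      rp := hp
      rc := hc
      hR := hR
      hm := hμ0
      hmm := ?_
      hd := ?_
      hW := one_le_pow₀ X1
      hK := one_le_pow₀ X1
      hM := by positivity
      hWM := ?_
      MM := fun T hT => (hA T hT).MM
      Mx := fun T hT => (hA T hT).Mx
      bd := fun T hT => (hA T hT).bd
      bd' := fun T hT => (hA T hT).bd'
      g2 := fun T hT => (hA T hT).g2
      g2' := fun T hT => (hA T hT).g2'
      h22 := fun T hT => (hA T hT).h22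
      h22' := fun T hT => (hA T hT).h22'
      six := ?_ }, fun T hT => (hA T hT).sl⟩
  · have h1 : 100 * (X ^ 169 * (X ^ 139 * μ)) = (100 * X ^ 308) * μ := by ring
    rw [h1]
    refine x315 (n := 315) ?_ le_rfl
    calc 100 * X ^ 308 ≤ X ^ 7 * X ^ 308 := by
          have : (100:ℝ) ≤ X ^ 7 := pw hX 7 (by norm_num)
          gcongr
      _ = X ^ 315 := by ring
  · have h1 : 100 * (40 * (8 * (X ^ 12) ^ 3) ^ 4 * (800 * μ + 2 * μ)) =
        (13139968000 * X ^ 144) * μ := by ring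
    rw [h1]
    refine x315 (n := 178) ?_ (by norm_num)
    calc 13139968000 * X ^ 144 ≤ X ^ 34 * X ^ 144 := by
          have : (13139968000:ℝ) ≤ X ^ 34 := pw hX 34 (by norm_num)
          gcongr
      _ = X ^ 178 := by ring
  · calc (1:ℝ) ≤ X ^ 135 * (2 ^ k' * (Y / a)) := by
          have : (1:ℝ) ≤ X ^ 135 := one_le_pow₀ X1
          nlinarith
      _ = X ^ 139 * (2 ^ k' * (Y / a) / X ^ 4) := by field_simp
  · intro T hT T' hT' hb hsm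
    have hS := (hA T hT).six T' (hF hT') (fun z hz => hcl T hT T' hT' z hz)
    have q0 := (hsm 0).1
    have q1 := (hsm 1).1
    have r0 := (hsm 0).2
    have r1 := (hsm 1).2
    rw [dx_eq0] at q0
    rw [dx_eq1] at q1
    rw [dc_eq0] at r0
    rw [dc_eq1] at r1
    have S1 := hS (q0.trans (by linarith)) (q1.trans (by linarith)) (r0.trans (by linarith))
      (r1.trans (by linarith))
    have ea : ∀ (x : Fin 2 → ℝ) (u v : ℝ), x 0 = u → x 1 = v → ![u, v] = x := by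
      intro x u v h0 h1
      funext k
      fin_cases k
      · simp [h0]
      · simp [h1]
    rw [ea _ _ _ (dx_eq0 S.e (2 ^ j) w1 w2 z0 ρ t0 L b T T')
      (dx_eq1 S.e (2 ^ j) w1 w2 z0 ρ t0 L b T T'),
      ea _ _ _ (dc_eq0 S.e (2 ^ j) w1 w2 z0 ρ t0 L T T')
      (dc_eq1 S.e (2 ^ j) w1 w2 z0 ρ t0 L T T')] at S1
    exact S1

end Crest.Agent.R136.Lks140
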