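import Crest.Agent.R136.Ndc_876
import Crest.Agent.R136.Adj_214
import Crest.Agent.R136.Cod_501
import Crest.Agent.R136.Rft_877
import Crest.Agent.R136.AlK_500
import Crest.Agent.R136.Sln_296
import Crest.Agent.R136.Cuu4_57

-- ▼ part R136/Ndg_876
section

/-!
# R136 (U4, PLAN 2 (AL), leaf (D)): count of the nondegenerate boxes, geometric form (helper876)

`nd_geo` : a sheet `S`, a line `T0` of it along which `S` is curved, `q'` close to `S` around `T0`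
(size `Λ`): the boxes of `S` met by lines of `S` near `T0`, where `q'` is small and nondegenerate, are
at most `(C W / (l m))^C (1 + log H) H²`.
-/

set_option autoImplicit false
set_option linter.unusedVariables false

namespace Crest.Agent.R136.Adp876

open Crest.Agent.R136.Rk601 Crest.Agent.R136.Sh605
open Crest.Agent.R136.Tl102 (cmb fr unsh StP NrmC kap_le kap_nonneg IsExp)
open Crest.Agent.R136.K4 (Plk4)
open Crest.Agent.R136.Gbx862 (zj gb lc)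
open Crest.Agent.R136.AlD601
open Crest.Agent.R136.Tlt51 (Shp InP)
open Crest.Agent.R136.KapP335 (kapP expP expP_spec)
open Crest.Agent.R136.Deep51 (CloseC)
open Crest.Agent.R136.Cod501 (kS chart_pt)
open Crest.Agent.R136.Adj214 (NJ JB KD KD_one KD_pos)
open Crest.Agent.R136.Rf877 (Tub)

/-- helper214's increment -/
theorem ev214 (J : Jt) (y : ℝ) (x : Fin 3 → ℝ) : Adj214.ev J y x = ev J y x := by
  rw [ev_eq]; rfl

section
variable {S : Plk4} {z0 ρ r : ℝ} {T0 : Ln4}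

/-- the chart of record around `T0` -/
noncomputable def cT (S : Plk4) (z0 ρ : ℝ) (T0 : Ln4) (ζ y u v : ℝ) : V3 :=
  cg (fr S.e S.w) T0 z0 ρ (kS S z0 ρ T0 * (1 / 256)) ((expP S z0 ρ T0).1 1 / (expP S z0 ρ T0).1 0)
    ((expP S z0 ρ T0).1 2 / (expP S z0 ρ T0).1 0) (1 / 256) ζ y u v

theorem cT_cod (ζ y u v : ℝ) : cT S z0 ρ T0 ζ y u v = Cod501.cx S z0 ρ T0 ζ y u v := by
  unfold cT cg Cod501.cx unsh
  congr 3
  ring

theorem cT_adj (ζ y u v : ℝ) : cT S z0 ρ T0 ζ y u v =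
    Adj214.cx S.e S.w (expP S z0 ρ T0).1 (kS S z0 ρ T0) z0 ρ T0 ζ y u v := by
  unfold cT cg Adj214.cx unsh
  congr 3
  ring

theorem base (hr : 0 < r) (hρ : 0 < ρ) (hS : Shp S z0 ρ r) (hT : InP T0 S z0 ρ)
    (hk : 10 ^ 6 * S.a ≤ kapP S z0 ρ T0) : 0 < S.a ∧ (∀ k, 0 < S.w k) ∧ 0 < kS S z0 ρ T0 ∧
      kS S z0 ρ T0 ≤ 13 ∧ kapP S z0 ρ T0 = S.w 0 * kS S z0 ρ T0 := by
  have ha : 0 < S.a := hr.trans_le hS.r0_le
  have hw0 : 0 < S.w 0 := ha.trans_le hS.a_le0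
  have SP := StP.of_shN hS hw0
  have hE := expP_spec SP.isQ hw0.ne' z0 ρ T0
  have N := hE.nrmC SP hρ.le (fun z h1 h2 => (hT z h1 h2).1)
  have h13 : kS S z0 ρ T0 ≤ 13 := kap_le N
  have hkk : kapP S z0 ρ T0 = S.w 0 * kS S z0 ρ T0 := rfl
  refine ⟨ha, SP.pos, ?_, h13, hkk⟩
  by_contra h
  push Not at h
  have h1 := mul_nonpos_of_nonneg_of_nonpos hw0.le h
  rw [hkk] at hk
  have h2 : 0 < 10 ^ 6 * S.a := by positivity
  linarith

/-- the sheet in the chart -/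
theorem chart_q (hr : 0 < r) (hρ : 0 < ρ) (hS : Shp S z0 ρ r) (hT : InP T0 S z0 ρ)
    (hk : 10 ^ 6 * S.a ≤ kapP S z0 ρ T0) : ∃ (c0 : ℝ) (J : Jt), NJ c0 J ∧
      ∀ ζ y u v, S.q (z0 + ρ * ζ) (cT S z0 ρ T0 ζ y u v) =
        kS S z0 ρ T0 * (1 / 256) * S.w 0 * (c0 + ev J y ![ζ, u, v]) := by
  obtain ⟨ha, hw, hκ, -, hkk⟩ := base hr hρ hS hT hk
  have SP := StP.of_shN hS (hw 0)
  have hE := expP_spec SP.isQ (hw 0).ne' z0 ρ T0
  obtain ⟨c0, J, h1, -, -, -, h2⟩ := Adj214.chart hS ha hρ.le hT hE (by rw [hkk] at hk; exact hk)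
  refine ⟨c0, J, h1, fun ζ y u v => ?_⟩
  rw [cT_adj, ← ev214]
  exact h2 ζ y u v

/-- the division in the chart -/
theorem chart_div (hr : 0 < r) (hρ : 0 < ρ) (hS : Shp S z0 ρ r) (hT : InP T0 S z0 ρ)
    (hk : 10 ^ 6 * S.a ≤ kapP S z0 ρ T0) {q' : ℝ → V3 → ℝ} (hq' : IsQ q') {Λ : ℝ} (hΛ : 0 < Λ)
    (hC : CloseC S.e S.w S.q S.a q' Λ T0 z0 ρ) : ∃ (μ cP : ℝ) (JP : Jt), Bd JP KD ∧
      ∀ ζ y u v, q' (z0 + ρ * ζ) (cT S z0 ρ T0 ζ y u v) -
        μ * S.q (z0 + ρ * ζ) (cT S z0 ρ T0 ζ y u v) = Λ * (cP + ev JP y ![ζ, u, v]) := by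
  obtain ⟨ha, hw, hκ, -, hkk⟩ := base hr hρ hS hT hk
  have SP := StP.of_shN hS (hw 0)
  have hE := expP_spec SP.isQ (hw 0).ne' z0 ρ T0
  obtain ⟨μ, c', D, h1, h2⟩ := Adj214.divide hS ha hρ.le hT hE (by rw [hkk] at hk; exact hk) hq' hC
  have hd : ∀ x : ℝ, |x| ≤ KD * Λ → |Λ⁻¹ * x| ≤ KD := fun x hx => by
    rw [abs_mul, abs_of_pos (inv_pos.2 hΛ), inv_mul_le_iff₀ hΛ]
    linarith
  refine ⟨μ, Λ⁻¹ * c', sm Λ⁻¹ D, ⟨hd _ h1.a0, fun i => hd _ (h1.a i), hd _ h1.h00,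
    fun i => hd _ (h1.h0 i), fun i j => hd _ (h1.h i j), sm_sym h1.sym⟩, fun ζ y u v => ?_⟩
  rw [cT_adj, sm_ev]
  have h3 := h2 ζ y u v
  rw [ev214] at h3
  refine h3.trans ?_
  field_simp

/-- points near `T0` -/
theorem chart_near (hr : 0 < r) (hρ : 0 < ρ) (hS : Shp S z0 ρ r) (hT : InP T0 S z0 ρ)
    (hk : 10 ^ 6 * S.a ≤ kapP S z0 ρ T0) {T : Ln4} (hTS : InP T S z0 ρ)
    (htub : Tub S (1 / 8192) T T0 z0 ρ) {H j : ℕ} (hH : 1 ≤ H) (hj : j ≤ H) :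
    ∃ y u v : ℝ, T.pos (zj z0 ρ H j) = cT S z0 ρ T0 ((j : ℝ) / H) y u v ∧
      |y| ≤ 1 ∧ |u| ≤ 1 ∧ |v| ≤ 1 := by
  obtain ⟨ha, hw, hκ, h13, hkk⟩ := base hr hρ hS hT hk
  have hHr : (0:ℝ) < H := by exact_mod_cast hH
  have hζ0 : 0 ≤ (j : ℝ) / H := by positivity
  have hζ1 : (j : ℝ) / H ≤ 1 := by rw [div_le_one hHr]; exact_mod_cast hj
  have e0 : zj z0 ρ H j = z0 + ρ * ((j : ℝ) / H) := rfl
  have z1 : z0 ≤ zj z0 ρ H j := by rw [e0]; nlinarith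
  have z2 : zj z0 ρ H j ≤ z0 + ρ := by rw [e0]; nlinarith
  obtain ⟨t1, t2, t0⟩ := htub _ z1 z2
  have hK : 0 < kapP S z0 ρ T0 := by rw [hkk]; exact mul_pos (hw 0) hκ
  have haw : 10 ^ 6 * S.a ≤ 13 * S.w 0 := by
    rw [hkk] at hk
    have := mul_le_mul_of_nonneg_left h13 (hw 0).le
    linarith
  have hw0 := hw 0
  obtain ⟨y, u, v, h1, h2, h3, h4⟩ := chart_pt (X := T.pos (zj z0 ρ H j)) (A := S.a)
    (s := 1 / 8192) hr hρ.le hS hT hK hζ0 hζ1 (by norm_num)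
    (by rw [← e0]; linarith) (by rw [← e0]; exact t1) (by rw [← e0]; exact t2)
    (by rw [← e0]; exact (hTS _ z1 z2).2)
  refine ⟨y, u, v, ?_, ?_, h2.trans (by norm_num), h3.trans (by norm_num)⟩
  · rw [h1, cT_cod]
  · refine h4.trans ?_
    have h5 : (S.a + S.a) / kapP S z0 ρ T0 ≤ 2 / 10 ^ 6 := by
      rw [div_le_div_iff₀ hK (by norm_num)]
      linarith
    linarith

end

section
variable {S : Plk4} {z0 ρ r : ℝ} {T0 : Ln4}

/-- the factor of the division is bounded -/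
theorem mu_bound (hr : 0 < r) (hρ : 0 < ρ) (hS : Shp S z0 ρ r) (hT : InP T0 S z0 ρ)
    (hk : 10 ^ 6 * S.a ≤ kapP S z0 ρ T0) {q' : ℝ → V3 → ℝ} {Λ W : ℝ} (hΛ : 0 < Λ) (hW : 1 ≤ W)
    (hΛW : Λ ≤ W * kapP S z0 ρ T0) {c0 μ cP : ℝ} {J JP : Jt} (NN : NJ c0 J) (bP : Bd JP KD)
    (hq : ∀ ζ y u v, S.q (z0 + ρ * ζ) (cT S z0 ρ T0 ζ y u v) =
        kS S z0 ρ T0 * (1 / 256) * S.w 0 * (c0 + ev J y ![ζ, u, v]))
    (hP : ∀ ζ y u v, q' (z0 + ρ * ζ) (cT S z0 ρ T0 ζ y u v) -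
        μ * S.q (z0 + ρ * ζ) (cT S z0 ρ T0 ζ y u v) = Λ * (cP + ev JP y ![ζ, u, v]))
    {T1 : Ln4} {H j1 : ℕ} (hH : 1 ≤ H) (hj : j1 ≤ H) (h1S : InP T1 S z0 ρ)
    (h1t : Tub S (1 / 8192) T1 T0 z0 ρ) (ha0 : |(jS S q' z0 ρ H j1 T1).a0| ≤ W * S.w 0) :
    |μ| ≤ 4000 * KD * W := by
  obtain ⟨ha, hw, hκ, h13, hkk⟩ := base hr hρ hS hT hk
  obtain ⟨y1, u1, v1, pt, hy, hu, hv⟩ := chart_near hr hρ hS hT hk h1S h1t hH hj
  have hHr : (0:ℝ) < H := by exact_mod_cast hH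
  have hζ0 : 0 ≤ (j1 : ℝ) / H := by positivity
  have hζ1 : (j1 : ℝ) / H ≤ 1 := by rw [div_le_one hHr]; exact_mod_cast hj
  have hw0 := hw 0
  have hKD := KD_one
  set κ := kS S z0 ρ T0 with hκd
  set k0 := κ * (1 / 256) * S.w 0 with hk0
  have hk0p : 0 < k0 := by rw [hk0]; positivity
  have hσ : κ * (1 / 256) ≠ 0 := by positivity
  have q2 : ∀ ζ y u v, q' (z0 + ρ * ζ) (cg (fr S.e S.w) T0 z0 ρ (κ * (1 / 256))
      ((expP S z0 ρ T0).1 1 / (expP S z0 ρ T0).1 0) ((expP S z0 ρ T0).1 2 / (expP S z0 ρ T0).1 0)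
      (1 / 256) ζ y u v) =
      (Λ * cP + μ * (k0 * c0)) + ev ((sm Λ JP).addm μ (sm k0 J)) y ![ζ, u, v] := fun ζ y u v => by
    have h1 := hP ζ y u v
    rw [hq] at h1
    rw [addm_ev, sm_ev, sm_ev]
    have h2 : q' (z0 + ρ * ζ) (cT S z0 ρ T0 ζ y u v) = q' (z0 + ρ * ζ) (cg (fr S.e S.w) T0 z0 ρ
      (κ * (1 / 256)) ((expP S z0 ρ T0).1 1 / (expP S z0 ρ T0).1 0)
      ((expP S z0 ρ T0).1 2 / (expP S z0 ρ T0).1 0) (1 / 256) ζ y u v) := rfl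
    rw [← h2]
    linarith
  have j2 := jS_of hS.ortho hw hσ (by norm_num : (1 / 256 : ℝ) ≠ 0)
    (addm_sym (k := μ) (sm_sym (k := Λ) bP.s) (sm_sym (k := k0) NN.sym)) q2 pt
  rw [sh_addm, sh_sm, sh_sm] at j2
  set x1 : Fin 3 → ℝ := ![(j1 : ℝ) / H, u1, v1] with hx1
  have hx : ∀ i, |x1 i| ≤ 1 := by
    intro i; fin_cases i
    · show |(j1 : ℝ) / H| ≤ 1
      rw [abs_of_nonneg hζ0]; exact hζ1
    · exact hu
    · exact hv
  have e0 : (jS S q' z0 ρ H j1 T1).a0 =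
      1 / (κ * (1 / 256)) * (Λ * (sh JP y1 x1).a0 + μ * (k0 * (sh J y1 x1).a0)) := by
    rw [j2]; rfl
  have p0 : |(sh JP y1 x1).a0| ≤ 5 * KD := (bP.shift hy hx).a0
  have q0 : 1 / 2 ≤ (sh J y1 x1).a0 := by
    have := (NN.st y1 x1 hy hζ0 hζ1 hu hv).1
    exact this
  have e1 : μ * (k0 * (sh J y1 x1).a0) =
      κ * (1 / 256) * (jS S q' z0 ρ H j1 T1).a0 - Λ * (sh JP y1 x1).a0 := by
    rw [e0]; field_simp; ring
  have e2 : |μ| * (k0 * (1 / 2)) ≤ κ * (1 / 256) * (W * S.w 0) + W * (S.w 0 * κ) * (5 * KD) := by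
    calc |μ| * (k0 * (1 / 2)) ≤ |μ| * (k0 * (sh J y1 x1).a0) :=
          mul_le_mul_of_nonneg_left (mul_le_mul_of_nonneg_left q0 hk0p.le) (abs_nonneg _)
      _ = |μ * (k0 * (sh J y1 x1).a0)| := by
          rw [abs_mul, abs_of_nonneg (a := k0 * (sh J y1 x1).a0)
            (mul_nonneg hk0p.le (by linarith))]
      _ ≤ |κ * (1 / 256) * (jS S q' z0 ρ H j1 T1).a0| + |Λ * (sh JP y1 x1).a0| := by
          rw [e1]; exact abs_sub _ _
      _ ≤ κ * (1 / 256) * (W * S.w 0) + W * (S.w 0 * κ) * (5 * KD) := by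
          refine add_le_add ?_ ?_
          · rw [abs_mul, abs_of_pos (by positivity : 0 < κ * (1 / 256))]
            exact mul_le_mul_of_nonneg_left ha0 (by positivity)
          · rw [abs_mul, abs_of_pos hΛ]
            rw [hkk] at hΛW
            exact mul_le_mul hΛW p0 (abs_nonneg _) (by positivity)
  have e3 : κ * (1 / 256) * (W * S.w 0) + W * (S.w 0 * κ) * (5 * KD) =
      (W + 1280 * KD * W) * k0 := by rw [hk0]; ring
  rw [e3] at e2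
  have e4 : |μ| * (1 / 2) ≤ W + 1280 * KD * W := by
    have : |μ| * (1 / 2) * k0 ≤ (W + 1280 * KD * W) * k0 := by linarith
    exact le_of_mul_le_mul_right this hk0p
  have e5 : W ≤ KD * W := le_mul_of_one_le_left (by linarith) hKD
  linarith

/-- relative velocity of two lines of a sheet -/
theorem gv_le (hρ : 0 < ρ) (hw : ∀ k, 0 < S.w k) (hT : InP T0 S z0 ρ) (k : Fin 3) :
    |gv S ρ T0 k| ≤ 2 := by
  have h1 := (hT z0 le_rfl (by linarith)).1 k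
  have h2 := (hT (z0 + ρ) (by linarith) le_rfl).1 k
  have e : ρ * dt (S.e k) (T0.v - S.c.v) = dt (S.e k) (T0.pos (z0 + ρ) - S.c.pos (z0 + ρ)) -
      dt (S.e k) (T0.pos z0 - S.c.pos z0) := by
    simp only [dt, Ln4.pos, Pi.sub_apply]; ring
  unfold gv
  rw [abs_div, abs_of_pos (hw k), div_le_iff₀ (hw k), e]
  refine (abs_sub _ _).trans ?_
  linarith

end

/-- number of dyadic scales -/
theorem exists_N {A : ℝ} (hA : 1 ≤ A) {H : ℕ} (hH : 1 ≤ H) {β : ℝ} (hβ : 1 / (H : ℝ) ≤ β) :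
    ∃ N : ℕ, 1 ≤ N ∧ (N : ℝ) ≤ 3 * A * (1 + Real.log H) ∧ A ≤ 2 ^ N * √β := by
  have hHr : (1:ℝ) ≤ H := by exact_mod_cast hH
  have hH0 : (0:ℝ) < H := by linarith
  have hlog : 0 ≤ Real.log H := Real.log_nonneg hHr
  refine ⟨⌈A⌉₊ + ⌈Real.log H⌉₊, ?_, ?_, ?_⟩
  · have : 0 < ⌈A⌉₊ := Nat.ceil_pos.2 (by linarith)
    omega
  · push_cast
    have h1 := Nat.ceil_lt_add_one (show 0 ≤ A by linarith)
    have h2 := Nat.ceil_lt_add_one hlog
    have h3 : Real.log H ≤ A * Real.log H := le_mul_of_one_le_left hlog hA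
    have h4 : 3 * A * (1 + Real.log H) = 3 * A + 3 * (A * Real.log H) := by ring
    rw [h4]
    linarith
  · have h1 : A ≤ 2 ^ ⌈A⌉₊ := by
      have h2 : (⌈A⌉₊ : ℝ) < 2 ^ ⌈A⌉₊ := by exact_mod_cast Nat.lt_two_pow_self
      exact (Nat.le_ceil A).trans h2.le
    have h3 : √(H : ℝ) ≤ 2 ^ ⌈Real.log H⌉₊ := by
      have h4 : (2:ℝ) ^ (Real.log H) ≤ 2 ^ ⌈Real.log H⌉₊ := by
        rw [← Real.rpow_natCast 2]
        exact Real.rpow_le_rpow_of_exponent_le (by norm_num) (Nat.le_ceil _)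
      refine le_trans ?_ h4
      rw [Real.sqrt_eq_rpow, Real.rpow_def_of_pos hH0, Real.rpow_def_of_pos (by norm_num : (0:ℝ) < 2)]
      refine Real.exp_le_exp.2 ?_
      rw [mul_comm (Real.log 2)]
      exact mul_le_mul_of_nonneg_left (by linarith [Real.log_two_gt_d9]) hlog
    have h5 : 1 / √(H : ℝ) ≤ √β := by
      have : 1 / √(H : ℝ) = √(1 / (H : ℝ)) := by rw [Real.sqrt_div zero_le_one, Real.sqrt_one]
      rw [this]; exact Real.sqrt_le_sqrt hβ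
    have hs : 0 < √(H : ℝ) := Real.sqrt_pos.2 hH0
    rw [pow_add]
    calc A = A * √(H : ℝ) * (1 / √(H : ℝ)) := by field_simp
      _ ≤ 2 ^ ⌈A⌉₊ * 2 ^ ⌈Real.log H⌉₊ * √β := by
          refine mul_le_mul (mul_le_mul h1 h3 hs.le (by positivity)) h5 (by positivity)
            (by positivity)

/-- final numbers -/
theorem fin_num {c4 : ℝ} (hc4 : 1 ≤ c4) {n : ℕ} (hn : 5 ≤ n) {W l m : ℝ} (hW : 1 ≤ W) (hl : 0 < l)
    (hl1 : l ≤ 1) (hm : 0 < m) (hm1 : m ≤ 1) {C : ℝ} (hC : C = max c4 n) :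
    c4 * W ^ n / (l * m) ^ 5 ≤ (C * W / (l * m)) ^ C := by
  have hC1 : c4 ≤ C := by rw [hC]; exact le_max_left _ _
  have hCn : (n : ℝ) ≤ C := by rw [hC]; exact le_max_right _ _
  have hC1' : 1 ≤ C := hc4.trans hC1
  have hW0 : (0:ℝ) < W := by linarith
  have hlm : 0 < l * m := mul_pos hl hm
  have hlm1 : l * m ≤ 1 := by
    calc l * m ≤ 1 * 1 := mul_le_mul hl1 hm1 hm.le zero_le_one
      _ = 1 := one_mul 1
  set x := W / (l * m) with hx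
  have hx1 : 1 ≤ x := by rw [hx, le_div_iff₀ hlm]; linarith
  have e1 : C * W / (l * m) = C * x := by rw [hx]; ring
  rw [e1, Real.mul_rpow (by linarith) (by linarith)]
  have h1 : c4 ≤ C ^ C := by
    calc c4 ≤ C := hC1
      _ = C ^ (1:ℝ) := (Real.rpow_one C).symm
      _ ≤ C ^ C := Real.rpow_le_rpow_of_exponent_le hC1' hC1'
  have h2 : x ^ n ≤ x ^ C := by
    rw [← Real.rpow_natCast x n]
    exact Real.rpow_le_rpow_of_exponent_le hx1 hCn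
  have h3 : W ^ n / (l * m) ^ 5 ≤ x ^ n := by
    rw [hx, div_pow]
    refine div_le_div_of_nonneg_left (by positivity) (by positivity) ?_
    exact pow_le_pow_of_le_one hlm.le hlm1 hn
  calc c4 * W ^ n / (l * m) ^ 5 = c4 * (W ^ n / (l * m) ^ 5) := by ring
    _ ≤ C ^ C * x ^ C := mul_le_mul h1 (h3.trans h2) (by positivity) (by positivity)

/-- **LEAF (D), geometric form** -/
theorem nd_geo : ∃ C : ℝ, 1 ≤ C ∧ ∀ (S : Plk4) (q' : ℝ → V3 → ℝ) (z0 ρ r Λ w1 w2 W l m : ℝ)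
    (H : ℕ) (T0 : Ln4) (T : Finset ((ℤ × ℤ) × ℕ)), 0 < r → 0 < ρ → Shp S z0 ρ r →
    InP T0 S z0 ρ → 10 ^ 6 * S.a ≤ kapP S z0 ρ T0 → IsQ q' → 0 < Λ →
    CloseC S.e S.w S.q S.a q' Λ T0 z0 ρ → 1 ≤ W → 1 ≤ H → 0 < w1 → 0 < w2 →
    (S.w 1 ≤ W * w1 ∧ w1 ≤ W * S.w 1) → (S.w 2 ≤ W * w2 ∧ w2 ≤ W * S.w 2) →
    (H : ℝ) * S.a ≤ W * Λ → Λ ≤ W * kapP S z0 ρ T0 →
    (∃ (T1 : Ln4) (j1 : ℕ), j1 ≤ H ∧ InP T1 S z0 ρ ∧ Tub S (1 / 8192) T1 T0 z0 ρ ∧
      |(jS S q' z0 ρ H j1 T1).a0| ≤ W * S.w 0) → 0 < l → l ≤ 1 → 0 < m → m ≤ 1 →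
    (∀ b ∈ T, b.2 < H ∧ ∃ t : Ln4, InP t S z0 ρ ∧ Tub S (1 / 8192) t T0 z0 ρ ∧
      gb S.e S.c w1 w2 z0 ρ H t b.2 = b.1 ∧
      (H : ℝ) * |q' (zj z0 ρ H b.2) (t.pos (zj z0 ρ H b.2))| ≤ W * Λ ∧
      Nd S q' z0 ρ H b.2 t l m Λ) →
    (T.card : ℝ) ≤ (C * W / (l * m)) ^ C * (1 + Real.log H) * (H : ℝ) ^ 2 := by
  have hKD := KD_one
  have hKD0 := KD_pos
  obtain ⟨c2, hc2⟩ : ∃ c2 : ℝ, c2 = 27 * 256 ^ 9 * 10 ^ 14 * (KD * 256) ^ 11 := ⟨_, rfl⟩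
  have hc21 : 1 ≤ c2 := by
    rw [hc2]
    have : (1:ℝ) ≤ (KD * 256) ^ 11 := one_le_pow₀ (by linarith)
    nlinarith
  obtain ⟨c4, hc4⟩ : ∃ c4 : ℝ, c4 = 10 ^ 52 * (3 * (5000 * c2 * 256 ^ 3)) * c2 ^ 10 * 256 ^ 33 *
    (2 * 256 ^ 20) * (8000 * KD) := ⟨_, rfl⟩
  have hc41 : 1 ≤ c4 := by
    rw [hc4]
    have h1 : (1:ℝ) ≤ c2 ^ 10 := one_le_pow₀ hc21
    have h2 : (1:ℝ) ≤ 10 ^ 52 * (3 * (5000 * c2 * 256 ^ 3)) := by nlinarith
    have h3 : (1:ℝ) ≤ 10 ^ 52 * (3 * (5000 * c2 * 256 ^ 3)) * c2 ^ 10 := by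
      calc (1:ℝ) = 1 * 1 := (one_mul 1).symm
        _ ≤ _ := mul_le_mul h2 h1 (by norm_num) (by linarith)
    have h4 : (1:ℝ) ≤ 10 ^ 52 * (3 * (5000 * c2 * 256 ^ 3)) * c2 ^ 10 * 256 ^ 33 := by
      calc (1:ℝ) = 1 * 1 := (one_mul 1).symm
        _ ≤ _ := mul_le_mul h3 (by norm_num) (by norm_num) (by linarith)
    have h5 : (1:ℝ) ≤ 10 ^ 52 * (3 * (5000 * c2 * 256 ^ 3)) * c2 ^ 10 * 256 ^ 33 *
        (2 * 256 ^ 20) := by
      calc (1:ℝ) = 1 * 1 := (one_mul 1).symm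
        _ ≤ _ := mul_le_mul h4 (by norm_num) (by norm_num) (by linarith)
    calc (1:ℝ) = 1 * 1 := (one_mul 1).symm
      _ ≤ _ := mul_le_mul h5 (by linarith) (by norm_num) (by linarith)
  refine ⟨max c4 ((399 : ℕ) : ℝ), hc41.trans (le_max_left _ _), ?_⟩
  intro S q' z0 ρ r Λ w1 w2 W l m H T0 T hr hρ hS hT hk hq' hΛ hC hW hH hw1 hw2 d1 d2 hHa hΛW hμ0
    hl hl1 hm hm1 hT'
  obtain ⟨ha, hw, hκ, h13, hkk⟩ := base hr hρ hS hT hk
  have hHr : (1:ℝ) ≤ H := by exact_mod_cast hH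
  have hH0 : (0:ℝ) < H := by linarith
  have hW0 : (0:ℝ) < W := by linarith
  have hlog : 0 ≤ Real.log H := Real.log_nonneg hHr
  obtain ⟨c0, J, NN, hq⟩ := chart_q hr hρ hS hT hk
  obtain ⟨μ, cP, JP, bP, hP⟩ := chart_div hr hρ hS hT hk hq' hΛ hC
  obtain ⟨T1, j1, hj1, hT1, hT1t, ha0⟩ := hμ0
  have hμ := mu_bound hr hρ hS hT hk hΛ hW hΛW NN bP hq hP hH hj1 hT1 hT1t ha0
  have hw0 := hw 0
  set κ := kS S z0 ρ T0 with hκd
  set k0 := κ * (1 / 256) * S.w 0 with hk0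
  have hk0p : 0 < k0 := by rw [hk0]; positivity
  have hW2 : (1:ℝ) ≤ W ^ 2 := one_le_pow₀ hW
  obtain ⟨K, hK⟩ : ∃ K, K = KD * 256 * W ^ 2 := ⟨_, rfl⟩
  have hKKD : KD ≤ K := by
    rw [hK]
    have : KD * 256 * 1 ≤ KD * 256 * W ^ 2 := mul_le_mul_of_nonneg_left hW2 (by positivity)
    linarith
  have hK2 : 2 ≤ K := by
    rw [hK]
    have : (1:ℝ) * 256 * 1 ≤ KD * 256 * W ^ 2 :=
      mul_le_mul (by linarith) hW2 (by norm_num) (by positivity)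
    linarith
  have hK1 : 1 ≤ K := by linarith
  have hWp : (256 * W) ≥ 256 := by linarith
  -- witnesses
  have hpt : ∀ b : (ℤ × ℤ) × ℕ, ∃ (t : Ln4) (y u v : ℝ), b ∈ T →
      (t.pos (zj z0 ρ H b.2) = cT S z0 ρ T0 ((b.2 : ℝ) / H) y u v ∧ |y| ≤ 1 ∧ |u| ≤ 1 ∧ |v| ≤ 1) ∧
      InP t S z0 ρ ∧ gb S.e S.c w1 w2 z0 ρ H t b.2 = b.1 ∧
      (H : ℝ) * |q' (zj z0 ρ H b.2) (t.pos (zj z0 ρ H b.2))| ≤ W * Λ ∧
      Nd S q' z0 ρ H b.2 t l m Λ := by
    intro b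
    by_cases hb : b ∈ T
    · obtain ⟨h1, t, h2, h3, h4, h5, h6⟩ := hT' b hb
      obtain ⟨y, u, v, g1, g2⟩ := chart_near hr hρ hS hT hk h2 h3 hH h1.le
      exact ⟨t, y, u, v, fun _ => ⟨⟨g1, g2⟩, h2, h4, h5, h6⟩⟩
    · exact ⟨T0, 0, 0, 0, fun h => absurd h hb⟩
  choose Tb yb ub vb hb using hpt
  have hzj : ∀ b ∈ T, z0 ≤ zj z0 ρ H b.2 ∧ zj z0 ρ H b.2 ≤ z0 + ρ := fun b hbT =>
    Gbx862.zj_mem hρ.le (hT' b hbT).1.le
  have hqS : ∀ b ∈ T, |S.q (zj z0 ρ H b.2) ((Tb b).pos (zj z0 ρ H b.2))| ≤ S.a := fun b hbT =>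
    ((hb b hbT).2.1 _ (hzj b hbT).1 (hzj b hbT).2).2
  obtain ⟨β, hβ⟩ : ∃ β : ℝ, β = 8000 * KD * W ^ 2 / H := ⟨_, rfl⟩
  have hβ1 : 1 / (H : ℝ) ≤ β := by
    rw [hβ]
    refine div_le_div_of_nonneg_right ?_ hH0.le
    have : (1:ℝ) * 1 ≤ KD * W ^ 2 := mul_le_mul hKD hW2 (by norm_num) hKD0.le
    linarith
  have hKC : KC K ((256 * W) ^ 3) = c2 * W ^ 31 := by
    unfold KC CK
    rw [hK, hc2]; ring
  have hA1 : 1 ≤ 5000 * (KC K ((256 * W) ^ 3) * (256 * W) ^ 3) := by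
    rw [hKC]
    have h1 : (1:ℝ) ≤ W ^ 31 := one_le_pow₀ hW
    have h2 : (1:ℝ) ≤ (256 * W) ^ 3 := one_le_pow₀ (by linarith)
    have h3 : (1:ℝ) ≤ c2 * W ^ 31 := by
      calc (1:ℝ) = 1 * 1 := (one_mul 1).symm
        _ ≤ _ := mul_le_mul hc21 h1 (by norm_num) (by linarith)
    have h4 : (1:ℝ) ≤ c2 * W ^ 31 * (256 * W) ^ 3 := by
      calc (1:ℝ) = 1 * 1 := (one_mul 1).symm
        _ ≤ _ := mul_le_mul h3 h2 (by norm_num) (by linarith)
    linarith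
  obtain ⟨N, hN1, hN2, hN3⟩ := exists_N hA1 hH hβ1
  have main := nd_count (S := S) (q' := q') (z0 := z0) (ρ := ρ) (T0 := T0) (K := K)
    (W := 256 * W) (w1 := w1) (w2 := w2) (l := l) (m := m) (β := β) (H := H) (N := N)
    (σ := κ * (1 / 256)) (s1 := (expP S z0 ρ T0).1 1 / (expP S z0 ρ T0).1 0)
    (s2 := (expP S z0 ρ T0).1 2 / (expP S z0 ρ T0).1 0) (r := 1 / 256) (k0 := k0) (μ := μ)
    (Λ := Λ) (cq := c0) (cP := cP) (Jq := J) (JP := JP) hS.ortho hw (by positivity) (by norm_num)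
    (by norm_num; linarith) (by linarith) hk0p.ne' hΛ hH hw1 hw2
    ⟨d1.1.trans (mul_le_mul_of_nonneg_right (by linarith) hw1.le),
      d1.2.trans (mul_le_mul_of_nonneg_right (by linarith) (hw 1).le)⟩
    ⟨d2.1.trans (mul_le_mul_of_nonneg_right (by linarith) hw2.le),
      d2.2.trans (mul_le_mul_of_nonneg_right (by linarith) (hw 2).le)⟩
    ((gv_le hρ hw hT 1).trans (by linarith)) ((gv_le hρ hw hT 2).trans (by linarith))
    hq hP hK1 ?_ ?_ ?_ T Tb yb ub vb (fun b hbT => (hT' b hbT).1.le)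
    (fun b hbT => (hb b hbT).1.1) (fun b hbT => (hb b hbT).1.2) ?_ ?_
    (fun b hbT => (hb b hbT).2.2.1) ?_ hl hm hm1 hβ1 hN1 hN3 (fun b hbT => (hb b hbT).2.2.2.2)
  · refine main.trans ?_
    rw [hKC] at main hN2 ⊢
    have g1 : 1 / (l / (256 * W)) ^ 2 + 1 / (m / (256 * W) ^ 4) ^ 5 ≤
        2 * 256 ^ 20 * W ^ 20 / (l * m) ^ 5 := by
      have hlm : 0 < l * m := mul_pos hl hm
      have e1 : 1 / (l / (256 * W)) ^ 2 = (256 * W) ^ 2 / l ^ 2 := by field_simp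
      have e2 : 1 / (m / (256 * W) ^ 4) ^ 5 = (256 * W) ^ 20 / m ^ 5 := by
        rw [div_pow, ← pow_mul, one_div_div]
      have e3 : (256 * W) ^ 2 / l ^ 2 ≤ (256 * W) ^ 20 / (l * m) ^ 5 := by
        refine div_le_div₀ (by positivity) (pow_le_pow_right₀ (by linarith) (by norm_num))
          (by positivity) ?_
        calc (l * m) ^ 5 = l ^ 5 * m ^ 5 := by ring
          _ ≤ l ^ 2 * 1 := mul_le_mul (pow_le_pow_of_le_one hl.le hl1 (by norm_num))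
              (pow_le_one₀ hm.le hm1) (by positivity) (by positivity)
          _ = l ^ 2 := mul_one _
      have e4 : (256 * W) ^ 20 / m ^ 5 ≤ (256 * W) ^ 20 / (l * m) ^ 5 := by
        refine div_le_div_of_nonneg_left (by positivity) (by positivity) ?_
        calc (l * m) ^ 5 = l ^ 5 * m ^ 5 := by ring
          _ ≤ 1 * m ^ 5 := mul_le_mul_of_nonneg_right (pow_le_one₀ hl.le hl1) (by positivity)
          _ = m ^ 5 := one_mul _
      rw [e1, e2]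
      calc (256 * W) ^ 2 / l ^ 2 + (256 * W) ^ 20 / m ^ 5 ≤
          (256 * W) ^ 20 / (l * m) ^ 5 + (256 * W) ^ 20 / (l * m) ^ 5 := add_le_add e3 e4
        _ = _ := by ring
    have g2 : (10:ℝ) ^ 52 * N * (c2 * W ^ 31) ^ 10 * (256 * W) ^ 33 *
        (1 / (l / (256 * W)) ^ 2 + 1 / (m / (256 * W) ^ 4) ^ 5) * β * (H : ℝ) ^ 3 ≤
        10 ^ 52 * (3 * (5000 * (c2 * W ^ 31 * (256 * W) ^ 3)) * (1 + Real.log H)) *
          (c2 * W ^ 31) ^ 10 * (256 * W) ^ 33 * (2 * 256 ^ 20 * W ^ 20 / (l * m) ^ 5) * β *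
          (H : ℝ) ^ 3 := by
      have hβ0 : 0 ≤ β := le_trans (by positivity) hβ1
      have hlm : 0 < l * m := mul_pos hl hm
      gcongr
    refine g2.trans ?_
    have e5 : 10 ^ 52 * (3 * (5000 * (c2 * W ^ 31 * (256 * W) ^ 3)) * (1 + Real.log H)) *
          (c2 * W ^ 31) ^ 10 * (256 * W) ^ 33 * (2 * 256 ^ 20 * W ^ 20 / (l * m) ^ 5) * β *
          (H : ℝ) ^ 3 = c4 * W ^ 399 / (l * m) ^ 5 * (1 + Real.log H) * (H : ℝ) ^ 2 := by
      rw [hβ, hc4]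
      have hlm : l * m ≠ 0 := (mul_pos hl hm).ne'
      field_simp
    rw [e5]
    refine mul_le_mul_of_nonneg_right (mul_le_mul_of_nonneg_right ?_ (by linarith))
      (by positivity)
    exact fin_num hc41 (by norm_num) hW hl hl1 hm hm1 rfl
  · -- bounds of the jet of the sheet
    have h00 := NN.st 0 0 (by norm_num) (by simp) (by simp) (by simp) (by simp)
    have e0 : J.a0 + J.h00 * 0 + dp J.h0 0 = J.a0 := by simp [dp]
    rw [e0] at h00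
    refine ⟨?_, ?_, ?_, ?_, ?_, NN.sym⟩
    · rw [abs_le]; constructor <;> linarith [h00.1, h00.2]
    · intro i
      fin_cases i
      · exact NN.a0.trans (by linarith)
      · show |J.a 1| ≤ K
        rw [NN.a1, abs_zero]; linarith
      · show |J.a 2| ≤ K
        rw [NN.a2, abs_zero]; linarith
    · exact NN.h00.trans hK2
    · intro i
      fin_cases i
      · exact NN.h0.trans (by linarith)
      · exact NN.h1.trans (by linarith)
      · exact NN.h2.trans (by linarith)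
    · exact fun i j => (NN.h i j).trans hK2
  · exact ⟨bP.a0.trans hKKD, fun i => (bP.a i).trans hKKD, bP.h00.trans hKKD,
      fun i => (bP.h0 i).trans hKKD, fun i j => (bP.h i j).trans hKKD, bP.s⟩
  · intro y x hy hx hx0
    have h1 := (NN.st y x hy hx0 (abs_le.1 (hx 0)).2 (hx 1) (hx 2)).1
    have h2 : 1 / 2 ≤ (sh J y x).a0 := h1
    have h3 : 1 / K ≤ 1 / 2 := one_div_le_one_div_of_le (by norm_num) hK2
    rw [abs_of_pos (by linarith)]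
    linarith
  · intro b hbT
    refine (hqS b hbT).trans ?_
    rw [abs_of_pos hk0p]
    have h1 : (H : ℝ) * S.a ≤ W * (W * (S.w 0 * κ)) := by
      rw [hkk] at hΛW
      exact hHa.trans (mul_le_mul_of_nonneg_left hΛW hW0.le)
    have h2 : W * (W * (S.w 0 * κ)) ≤ k0 * K := by
      rw [hk0, hK]
      have e : κ * (1 / 256) * S.w 0 * (KD * 256 * W ^ 2) = KD * (W * (W * (S.w 0 * κ))) := by ring
      rw [e]
      exact le_mul_of_one_le_left (by positivity) hKD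
    have h3 : k0 * (K * (1 / H)) = k0 * K / H := by ring
    rw [h3, le_div_iff₀ hH0]
    linarith
  · intro b hbT
    have h1 := (hb b hbT).2.2.2.1
    have h2 := hqS b hbT
    have h3 : |μ| * |S.q (zj z0 ρ H b.2) ((Tb b).pos (zj z0 ρ H b.2))| ≤
        4000 * KD * W * S.a := mul_le_mul hμ h2 (abs_nonneg _) (by positivity)
    have h4 : |q' (zj z0 ρ H b.2) ((Tb b).pos (zj z0 ρ H b.2))| ≤ W * Λ / H := by
      rw [le_div_iff₀ hH0]; linarith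
    have h5 : S.a ≤ W * Λ / H := by
      rw [le_div_iff₀ hH0]; linarith
    refine (abs_sub _ _).trans ?_
    rw [abs_mul]
    have h6 : 4000 * KD * W * S.a ≤ 4000 * KD * W * (W * Λ / H) :=
      mul_le_mul_of_nonneg_left h5 (by positivity)
    have h7 : W * Λ / H ≤ KD * W * (W * Λ / H) := by
      have h8 : (1:ℝ) * 1 ≤ KD * W := mul_le_mul hKD hW (by norm_num) hKD0.le
      exact le_mul_of_one_le_left (by positivity) (by linarith)
    have h9 : Λ * β = 8000 * (KD * W * (W * Λ / H)) := by rw [hβ]; ring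
    have h10 : 0 ≤ KD * W * (W * Λ / H) := by positivity
    rw [h9]
    linarith
  · intro b hbT k
    exact ((hb b hbT).2.1 _ (hzj b hbT).1 (hzj b hbT).2).1 k

end Crest.Agent.R136.Adp876
end

-- ▼ part R136/Lnv_876
section

/-!
# R136 (U4, PLAN 2 (AL), leaf (D)): nondegenerate boxes in a configuration (helper876)

* `nd_core` : `nd_geo` over a configuration `Cf`, for any function `q'` close to the sheet;
* `lnd_uv`  : the first conjunct of `Al500.LeafNd` (pairs `U t, V t`).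
-/

set_option autoImplicit false
set_option linter.unusedVariables false

namespace Crest.Agent.R136.Adp876

open Crest.Agent.R136.Sh605
open Crest.Agent.R136.K4 (Plk4)
open Crest.Agent.R136.Tlt51 (Shp InP)
open Crest.Agent.R136.Deep51 (CloseC)
open Crest.Agent.R136.KapP335 (kapP)
open Crest.Agent.R136.Tl102 (StP)
open Crest.Agent.R136.Pl2W102 (Near)
open Crest.Agent.R136.Pl2 (kp)
open Crest.Agent.R136.Rf877 (Tub)
open Crest.Agent.R136.Alw500 (lbl)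
open Crest.Agent.R136.Gbx862 (zj gb zj_mem)
open Crest.Agent.R136.AlD601 (Nd jS jt jt_jet)
open Crest.Agent.R136.Al500 (Cf)

/-- change of the scale -/
theorem nd_scale {S : Plk4} {q' : ℝ → V3 → ℝ} {z0 ρ : ℝ} {H j : ℕ} {T : Ln4} {l m s k : ℝ}
    (hk : 0 < k) (h : Nd S q' z0 ρ H j T l m s) :
    Nd S q' z0 ρ H j T (l / k) (m / k ^ 2) (k * s) := by
  have e1 : l / k * (k * s) = l * s := by field_simp
  have e2 : m / k ^ 2 * (k * s) ^ 2 = m * s ^ 2 := by field_simp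
  unfold Nd at h ⊢
  rw [e1, e2]
  exact h

/-- `C x^n ≤ (C x)^C` -/
theorem pow_le_rpow' {C x : ℝ} (hC : 1 ≤ C) (hx : 1 ≤ x) (n : ℕ) (hn : (n : ℝ) ≤ C) :
    C * x ^ n ≤ (C * x) ^ C := by
  have hC0 : 0 ≤ C := by linarith
  have hx0 : 0 ≤ x := by linarith
  rw [Real.mul_rpow hC0 hx0]
  have h1 : C ≤ C ^ C := by
    conv_lhs => rw [← Real.rpow_one C]
    exact Real.rpow_le_rpow_of_exponent_le hC hC
  have h2 : x ^ n ≤ x ^ C := by
    rw [← Real.rpow_natCast x n]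
    exact Real.rpow_le_rpow_of_exponent_le hx hn
  exact mul_le_mul h1 h2 (by positivity) (by positivity)

/-- the final numeral -/
theorem fin_core {C0 K W B l m : ℝ} {n : ℕ} {C : ℝ} (hC0 : 1 ≤ C0) (hK : 1 ≤ K) (hW : 1 ≤ W)
    (hWB : W ≤ B) (hl : 0 < l) (hl1 : l ≤ 1) (hm : 0 < m) (hm1 : m ≤ 1)
    (hC1 : 2 * K ^ 4 * C0 ≤ C) (hC2 : (4 * n + 1) * C0 ≤ C) :
    (C0 * (2 * K * W ^ (n + 1)) / (l / (K * W ^ n) * (m / (K * W ^ n) ^ 2))) ^ C0 ≤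
      (C * B / (l * m)) ^ C := by
  have hW0 : 0 < W := by linarith
  have hK0 : 0 < K := by linarith
  have hB : 1 ≤ B := hW.trans hWB
  have hB0 : 0 < B := by linarith
  have hlm : 0 < l * m := mul_pos hl hm
  have hlm1 : l * m ≤ 1 := mul_le_one₀ hl1 hm.le hm1
  have e1 : C0 * (2 * K * W ^ (n + 1)) / (l / (K * W ^ n) * (m / (K * W ^ n) ^ 2)) =
      2 * K ^ 4 * C0 * W ^ (4 * n + 1) / (l * m) := by
    field_simp
    ring
  have hK4 : 1 ≤ K ^ 4 := one_le_pow₀ hK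
  have hCC0 : C0 ≤ 2 * K ^ 4 * C0 := by
    nlinarith
  have hC : 1 ≤ C := by linarith
  have hx : 1 ≤ C * B / (l * m) := by
    rw [le_div_iff₀ hlm]
    nlinarith
  have e2 : 2 * K ^ 4 * C0 * W ^ (4 * n + 1) / (l * m) ≤ (C * B / (l * m)) ^ (4 * n + 1) := by
    have h1 : W ^ (4 * n + 1) ≤ B ^ (4 * n + 1) := pow_le_pow_left₀ hW0.le hWB _
    have h2 : C ≤ C ^ (4 * n + 1) := le_self_pow₀ hC (by omega)
    have h3 : 1 / (l * m) ≤ (1 / (l * m)) ^ (4 * n + 1) :=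
      le_self_pow₀ (by rw [le_div_iff₀ hlm]; linarith) (by omega)
    calc 2 * K ^ 4 * C0 * W ^ (4 * n + 1) / (l * m)
        = 2 * K ^ 4 * C0 * W ^ (4 * n + 1) * (1 / (l * m)) := by ring
      _ ≤ C ^ (4 * n + 1) * B ^ (4 * n + 1) * (1 / (l * m)) ^ (4 * n + 1) := by
          refine mul_le_mul (mul_le_mul (hC1.trans h2) h1 (by positivity) (by positivity)) h3
            (by positivity) (by positivity)
      _ = (C * B / (l * m)) ^ (4 * n + 1) := by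
          rw [← mul_pow, ← mul_pow]; congr 1; ring
  rw [e1]
  calc (2 * K ^ 4 * C0 * W ^ (4 * n + 1) / (l * m)) ^ C0
      ≤ ((C * B / (l * m)) ^ (4 * n + 1)) ^ C0 :=
        Real.rpow_le_rpow (by positivity) e2 (by linarith)
    _ = (C * B / (l * m)) ^ ((4 * n + 1 : ℝ) * C0) := by
        rw [← Real.rpow_natCast, ← Real.rpow_mul (by linarith)]
        push_cast
        rfl
    _ ≤ (C * B / (l * m)) ^ C := Real.rpow_le_rpow_of_exponent_le hx hC2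

set_option maxHeartbeats 1000000 in
/-- **`nd_geo` over a configuration** : `t0 ∈ P`, `q'` close to `U t0` at `L t0` at the size
`K Wⁿ E a`, slope `≤ K Wⁿ w₀` at one height, `|q'| ≤ K Wⁿ a` at the counted points -/
theorem nd_core (K : ℝ) (n : ℕ) (hK : 1 ≤ K) : ∃ C : ℝ, 1 ≤ C ∧
    ∀ (qm qp : Fin 3 → ℝ) (L : ℕ → Ln4) (P : Finset ℕ) (cu cv : ℕ → ℕ) (Uf Vf : ℕ → Plk4)
      (W B M a w1 w2 z0 ρ zL ρL r κ E : ℝ) (H : ℕ),
      Cf qm qp L P cu cv Uf Vf W B M a w1 w2 z0 ρ zL ρL r κ E H → C * W ^ C * κ ≤ 1 →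
      (C * B) ^ C ≤ H → ∀ l m : ℝ, 0 < l → l ≤ 1 → 0 < m → m ≤ 1 →
      ∀ t0 ∈ P, ∀ q' : ℝ → V3 → ℝ, IsQ q' →
      CloseC (Uf (cu t0)).e (Uf (cu t0)).w (Uf (cu t0)).q (Uf (cu t0)).a q' (K * W ^ n * (E * a))
        (L t0) z0 ρ →
      (∃ j1, j1 ≤ H ∧
        |(jS (Uf (cu t0)) q' z0 ρ H j1 (L t0)).a0| ≤ K * W ^ n * (Uf (cu t0)).w 0) →
      ∀ T : Finset ((ℤ × ℤ) × ℕ), (∀ b ∈ T, b.2 < H ∧ ∃ t ∈ P, cu t = cu t0 ∧
        lbl Uf L w1 w2 z0 ρ H (cu t0) t b.2 = b.1 ∧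
        |q' (zj z0 ρ H b.2) ((L t).pos (zj z0 ρ H b.2))| ≤ K * W ^ n * a ∧
        Nd (Uf (cu t0)) q' z0 ρ H b.2 (L t) l m (E * a)) →
      (T.card : ℝ) ≤ (C * B / (l * m)) ^ C * (1 + Real.log H) * (H : ℝ) ^ 2 := by
  obtain ⟨C0, hC0, main⟩ := nd_geo
  have hK4 : 1 ≤ K ^ 4 := one_le_pow₀ hK
  set C : ℝ := 2 * 10 ^ 6 + 2 * K ^ 4 * C0 + (4 * n + 1) * C0 with hCdef
  have hn0 : (0:ℝ) ≤ n := Nat.cast_nonneg n
  have p1 : 0 ≤ 2 * K ^ 4 * C0 := by positivity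
  have p2 : 0 ≤ (4 * n + 1) * C0 := by positivity
  have hC6 : 2 * 10 ^ 6 ≤ C := by linarith
  have hC1 : 1 ≤ C := by linarith
  refine ⟨C, hC1, ?_⟩
  intro qm qp L P cu cv Uf Vf W B M a w1 w2 z0 ρ zL ρL r κ E H hc hCκ hCH l m hl hl1 hm hm1 t0 ht0
    q' hq' hcl ha0' T hT
  have h2 := hc.two.to1
  have hW1 := hc.W1
  have hW0 : 0 < W := by linarith
  have hB1 : 1 ≤ B := hW1.trans hc.WB
  have hE0 : 0 < E := by have := hc.E1; linarith
  have ha0 := h2.a0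
  have hs : 0 < E * a := mul_pos hE0 ha0
  have hH0 : (0 : ℝ) < H := by have := hc.E1; have := hc.EH; linarith
  have hH : 1 ≤ H := by
    have : 0 < H := by exact_mod_cast hH0
    exact this
  have hr0 := h2.r0
  have hρ := h2.ρ0
  have shU := h2.shU t0 ht0
  have inU := h2.inU t0 ht0
  set S := Uf (cu t0) with hS
  have haS : 0 < S.a := hr0.trans_le shU.r0_le
  have hw0 : 0 < S.w 0 := hr0.trans_le (shU.r0_le.trans shU.a_le0)
  have hwp : ∀ k, 0 < S.w k := (StP.of_shN shU hw0).pos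
  obtain ⟨dU1, dU2, dU3⟩ := hc.dmU t0 ht0
  have hKW : 1 ≤ K * W ^ n := by
    have : 1 ≤ W ^ n := one_le_pow₀ hW1
    nlinarith
  have hKW0 : 0 < K * W ^ n := by linarith
  set Q : ℝ := 2 * K * W ^ (n + 1) with hQ
  have hQe : Q = 2 * W * (K * W ^ n) := by rw [hQ, pow_succ]; ring
  have hQW : W ≤ Q := by
    rw [hQe]; nlinarith
  have hQ2 : 2 * W ≤ Q := by
    rw [hQe]; nlinarith
  have hQ1 : 1 ≤ Q := hW1.trans hQW
  have hQK : K * W ^ n ≤ Q := by rw [hQe]; nlinarith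
  -- κ is small
  have hκ : κ ≤ 1 / 8192 := by
    have h1 : 1 ≤ W ^ C := Real.one_le_rpow hW1 (by linarith)
    have hκ0 := hc.κ0
    have h3 : 2 * 10 ^ 6 * κ ≤ C * W ^ C * κ := by
      refine mul_le_mul_of_nonneg_right ?_ hκ0.le
      nlinarith
    linarith
  -- the sheet is curved
  have hkE : E * a ≤ W * kapP S z0 ρ (L t0) := hc.kE t0 ht0
  have hHbig : 2 * 10 ^ 6 * B ^ 2 ≤ H := by
    have h3 := pow_le_rpow' hC1 hB1 2 (by push_cast; linarith)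
    have h4 : 2 * 10 ^ 6 * B ^ 2 ≤ C * B ^ 2 := mul_le_mul_of_nonneg_right hC6 (by positivity)
    exact (h4.trans h3).trans hCH
  have hcurv : 10 ^ 6 * S.a ≤ kapP S z0 ρ (L t0) := by
    have h3 : S.a ≤ W * a := dU1.2
    have h4 : (H : ℝ) ≤ 2 * E := hc.HE
    have h5 : 10 ^ 6 * W ^ 2 ≤ E := by
      have : W ^ 2 ≤ B ^ 2 := pow_le_pow_left₀ hW0.le hc.WB 2
      nlinarith
    have h6 : W * (10 ^ 6 * (W * a)) ≤ W * kapP S z0 ρ (L t0) := by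
      refine le_trans ?_ hkE
      calc W * (10 ^ 6 * (W * a)) = 10 ^ 6 * W ^ 2 * a := by ring
        _ ≤ E * a := mul_le_mul_of_nonneg_right h5 ha0.le
    have h7 := le_of_mul_le_mul_left h6 hW0
    nlinarith
  have hTub : ∀ t ∈ P, cu t = cu t0 → Tub S (1 / 8192) (L t) (L t0) z0 ρ := by
    intro t ht hct z hz hz'
    obtain ⟨a1, a2, a3⟩ := hc.tubU t ht t0 ht0 hct z hz hz'
    have w1' := (hwp 1)
    have w2' := (hwp 2)
    refine ⟨a1.trans (mul_le_mul_of_nonneg_right hκ w1'.le),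
      a2.trans (mul_le_mul_of_nonneg_right hκ w2'.le), a3.trans ?_⟩
    have := mul_le_mul_of_nonneg_right hκ hw0.le
    linarith
  have key := main S q' z0 ρ r (K * W ^ n * (E * a)) w1 w2 Q (l / (K * W ^ n))
    (m / (K * W ^ n) ^ 2) H (L t0) T hr0 hρ shU inU hcurv hq' (by positivity) hcl hQ1 hH h2.w10
    h2.w20 ?_ ?_ ?_ ?_ ?_ (by positivity) ?_ (by positivity) ?_ ?_
  · refine key.trans ?_
    have hlog : 0 ≤ 1 + Real.log H := by
      have : 0 ≤ Real.log H := Real.log_nonneg (by exact_mod_cast hH)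
      linarith
    refine mul_le_mul_of_nonneg_right (mul_le_mul_of_nonneg_right ?_ hlog) (by positivity)
    exact fin_core hC0 hK hW1 hc.WB hl hl1 hm hm1 (by linarith) (by linarith)
  · exact ⟨dU2.2.trans (mul_le_mul_of_nonneg_right hQW h2.w10.le),
      dU2.1.trans (mul_le_mul_of_nonneg_right hQW (hwp 1).le)⟩
  · exact ⟨dU3.2.trans (mul_le_mul_of_nonneg_right hQW h2.w20.le),
      dU3.1.trans (mul_le_mul_of_nonneg_right hQW (hwp 2).le)⟩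
  · have h3 : S.a ≤ W * a := dU1.2
    have h4 : (H : ℝ) ≤ 2 * E := hc.HE
    calc (H : ℝ) * S.a ≤ 2 * E * (W * a) := mul_le_mul h4 h3 haS.le (by positivity)
      _ = 2 * W * (E * a) := by ring
      _ ≤ Q * (K * W ^ n * (E * a)) := by
          refine mul_le_mul hQ2 ?_ hs.le (by linarith)
          exact le_mul_of_one_le_left hs.le hKW
  · have hkp0 : 0 ≤ kapP S z0 ρ (L t0) := le_trans (by positivity) hcurv
    calc K * W ^ n * (E * a) ≤ K * W ^ n * (W * kapP S z0 ρ (L t0)) :=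
          mul_le_mul_of_nonneg_left hkE hKW0.le
      _ = W * (K * W ^ n) * kapP S z0 ρ (L t0) := by ring
      _ ≤ Q * kapP S z0 ρ (L t0) := by
          refine mul_le_mul_of_nonneg_right ?_ hkp0
          rw [hQe]; nlinarith
  · obtain ⟨j1, hj1, h3⟩ := ha0'
    exact ⟨L t0, j1, hj1, inU, hTub t0 ht0 rfl,
      h3.trans (mul_le_mul_of_nonneg_right hQK hw0.le)⟩
  · rw [div_le_one hKW0]; linarith
  · rw [div_le_one (by positivity)]
    have : 1 ≤ (K * W ^ n) ^ 2 := one_le_pow₀ hKW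
    linarith
  · intro b hb
    obtain ⟨hbH, t, ht, hct, hlb, hval, hnd⟩ := hT b hb
    refine ⟨hbH, L t, ?_, hTub t ht hct, hlb, ?_, nd_scale hKW0 hnd⟩
    · have := h2.inU t ht
      rw [hct] at this
      exact this
    · have h4 : (H : ℝ) ≤ 2 * E := hc.HE
      calc (H : ℝ) * |q' (zj z0 ρ H b.2) ((L t).pos (zj z0 ρ H b.2))|
          ≤ 2 * E * (K * W ^ n * a) := mul_le_mul h4 hval (abs_nonneg _) (by positivity)
        _ = 2 * (K * W ^ n * (E * a)) := by ring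
        _ ≤ Q * (K * W ^ n * (E * a)) := by
            refine mul_le_mul_of_nonneg_right ?_ (by positivity)
            linarith

/-- the slope of a second sheet through the line -/
theorem slope_le {S S' : Plk4} {z0 ρ r : ℝ} {H j : ℕ} {T : Ln4} (hr : 0 < r) (hρ : 0 < ρ)
    (hS : Shp S z0 ρ r) (hS' : Shp S' z0 ρ r) (hT : InP T S' z0 ρ) (hj : j ≤ H) :
    |(jS S S'.q z0 ρ H j T).a0| ≤ 4 * S.w 0 := by
  have w0 : 0 < S.w 0 := hr.trans_le (hS.r0_le.trans hS.a_le0)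
  have w0' : 0 < S'.w 0 := hr.trans_le (hS'.r0_le.trans hS'.a_le0)
  have P := StP.of_shN hS w0
  have P' := StP.of_shN hS' w0'
  obtain ⟨hz, hz'⟩ := zj_mem hρ.le hj
  have hX := (hT _ hz hz').1
  have h := Wdg296.jet_other P.ortho P.pos P' hz hz' hX hS'.w0_le hS'.w_le
    (jt_jet hS'.isQ (Tl102.fr S.e S.w) S.c.v (zj z0 ρ H j) (T.pos (zj z0 ρ H j)) ρ).1
  have h2 := h.2.1
  rw [div_le_iff₀ w0] at h2
  exact h2

set_option maxHeartbeats 1000000 in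
/-- **first conjunct of `LeafNd`** : the pairs `U t, V t` -/
theorem lnd_uv : ∃ C : ℝ, 1 ≤ C ∧ ∀ (qm qp : Fin 3 → ℝ)
    (L : ℕ → Ln4) (P : Finset ℕ) (cu cv : ℕ → ℕ) (Uf Vf : ℕ → Plk4)
    (W B M a w1 w2 z0 ρ zL ρL r κ E : ℝ) (H : ℕ),
    Cf qm qp L P cu cv Uf Vf W B M a w1 w2 z0 ρ zL ρL r κ E H → C * W ^ C * κ ≤ 1 →
    (C * B) ^ C ≤ H → ∀ l m : ℝ, 0 < l → l ≤ 1 → 0 < m → m ≤ 1 →
    ∀ (c c' : ℕ) (T : Finset ((ℤ × ℤ) × ℕ)), (∀ y ∈ T, ∃ t ∈ P, y.2 < H ∧ cu t = c ∧ cv t = c' ∧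
      lbl Uf L w1 w2 z0 ρ H c t y.2 = y.1 ∧
      Nd (Uf (cu t)) (Vf (cv t)).q z0 ρ H y.2 (L t) l m (E * a)) →
      (T.card : ℝ) ≤ (C * B / (l * m)) ^ C * (1 + Real.log H) * (H : ℝ) ^ 2 := by
  obtain ⟨C, hC, main⟩ := nd_core 4 1 (by norm_num)
  refine ⟨C, hC, ?_⟩
  intro qm qp L P cu cv Uf Vf W B M a w1 w2 z0 ρ zL ρL r κ E H hc hCκ hCH l m hl hl1 hm hm1 c c'
    T hT
  have h2 := hc.two.to1
  have hW1 := hc.W1
  have hB1 : 1 ≤ B := hW1.trans hc.WB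
  have hE0 : 0 < E := by have := hc.E1; linarith
  have ha0 := h2.a0
  have hs : 0 < E * a := mul_pos hE0 ha0
  have hH0 : (0 : ℝ) < H := by have := hc.E1; have := hc.EH; linarith
  rcases T.eq_empty_or_nonempty with hTe | ⟨y0, hy0⟩
  · rw [hTe, Finset.card_empty]
    have hlog : 0 ≤ 1 + Real.log H := by
      have : 0 ≤ Real.log H := Real.log_nonneg (by have := hc.E1; have := hc.EH; linarith)
      linarith
    have : 0 ≤ (C * B / (l * m)) ^ C := Real.rpow_nonneg (by positivity) _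
    push_cast
    positivity
  obtain ⟨t0, ht0, hj0, hcu0, hcv0, -, -⟩ := hT y0 hy0
  subst hcu0
  subst hcv0
  have shU := h2.shU t0 ht0
  have shV := h2.shV t0 ht0
  refine main qm qp L P cu cv Uf Vf W B M a w1 w2 z0 ρ zL ρL r κ E H hc hCκ hCH l m hl hl1 hm hm1
    t0 ht0 (Vf (cv t0)).q shV.isQ ?_ ⟨0, Nat.zero_le _, ?_⟩ T ?_
  · have h3 := (hc.up t0 ht0).1
    have h4 : 2 * E * a ≤ 4 * W ^ 1 * (E * a) := by
      rw [pow_one]; nlinarith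
    exact fun z hz hz' x hx hq => (h3 z hz hz' x hx hq).trans h4
  · have h3 := slope_le (H := H) h2.r0 h2.ρ0 shU shV (h2.inV t0 ht0) (Nat.zero_le _)
    refine h3.trans ?_
    have : 0 < (Uf (cu t0)).w 0 := h2.r0.trans_le (shU.r0_le.trans shU.a_le0)
    rw [pow_one]; nlinarith
  · intro b hb
    obtain ⟨t, ht, hbH, hcu, hcv, hlb, hnd⟩ := hT b hb
    refine ⟨hbH, t, ht, hcu, hlb, ?_, ?_⟩
    · obtain ⟨hz, hz'⟩ := zj_mem (z0 := z0) h2.ρ0.le hbH.le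
      have h3 := (h2.inV t ht _ hz hz').2
      rw [hcv] at h3
      refine h3.trans ?_
      have h4 : (Vf (cv t0)).a ≤ W * a := (hc.dmV t0 ht0).1.2
      rw [pow_one]; nlinarith
    · rw [hcu, hcv] at hnd
      exact hnd

end Crest.Agent.R136.Adp876
end

-- ▼ part R136/Lnu_876

/-!
# R136 (U4, PLAN 2 (AL), leaf (D)): nondegenerate boxes, pairs `U t, U t'` (helper876)

* `uu_of_cf` : 57's configuration `Uu` in a configuration `Cf`;
* `lnd_uu_of` : second conjunct of `Al500.LeafNd` over 57's two facts (`ValUu`, `A0Uu`);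
* `leafNd_of` : `Al500.LeafNd` over the same.
-/

set_option autoImplicit false
set_option linter.unusedVariables false

namespace Crest.Agent.R136.Adp876

open Crest.Agent.R136.Sh605
open Crest.Agent.R136.K4 (Plk4)
open Crest.Agent.R136.Tlt51 (Shp InP)
open Crest.Agent.R136.Deep51 (CloseC)
open Crest.Agent.R136.KapP335 (kapP)
open Crest.Agent.R136.Tl102 (StP angC)
open Crest.Agent.R136.Pl2W102 (Near)
open Crest.Agent.R136.Pl2 (kp)
open Crest.Agent.R136.Rf877 (Tub)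
open Crest.Agent.R136.Alw500 (lbl)
open Crest.Agent.R136.Gbx862 (zj gb zj_mem gb_close)
open Crest.Agent.R136.AlD601 (Nd jS jt jt_jet)
open Crest.Agent.R136.Al500 (Cf)
open Crest.Agent.R136.Adj214 (KD KD_one KD_pos)
open Crest.Agent.R136.Cuu57 (Uu)

/-- 57's (2) -/
def ValUu : Prop := ∀ (U V R : Plk4) (t t' : Ln4) (z0 ρ r W a Λ κ : ℝ),
  Uu U V R t t' z0 ρ r W a Λ κ → ∀ z s : ℝ, z0 ≤ z → z ≤ z0 + ρ → 0 ≤ s →
  10 ^ 8 * KD * W ^ 2 * s ≤ 1 → |dt (V.e 1) (t.pos z - t'.pos z)| ≤ s * V.w 1 →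
  |dt (V.e 2) (t.pos z - t'.pos z)| ≤ s * V.w 2 →
  |R.q z (t.pos z)| ≤ 10 ^ 5 * KD * W ^ 2 * (a + s * Λ)

/-- 57's (3) -/
def A0Uu : Prop := ∀ (U V R : Plk4) (t t' : Ln4) (z0 ρ r W a Λ κ : ℝ),
  Uu U V R t t' z0 ρ r W a Λ κ → ∀ (H j : ℕ), j ≤ H → ∀ s : ℝ, 0 ≤ s →
  10 ^ 8 * KD * W ^ 2 * s ≤ 1 →
  |dt (V.e 1) (t.pos (zj z0 ρ H j) - t'.pos (zj z0 ρ H j))| ≤ s * V.w 1 →
  |dt (V.e 2) (t.pos (zj z0 ρ H j) - t'.pos (zj z0 ρ H j))| ≤ s * V.w 2 →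
  |(jS U R.q z0 ρ H j t).a0| ≤ 10 ^ 6 * KD * W * U.w 0

set_option maxHeartbeats 1000000 in
/-- **57's configuration in a configuration** -/
theorem uu_of_cf {C : ℝ} (hC : 10 ^ 30 * KD ^ 2 ≤ C) {qm qp : Fin 3 → ℝ} {L : ℕ → Ln4}
    {P : Finset ℕ} {cu cv : ℕ → ℕ} {Uf Vf : ℕ → Plk4}
    {W B M a w1 w2 z0 ρ zL ρL r κ E : ℝ} {H : ℕ}
    (hc : Cf qm qp L P cu cv Uf Vf W B M a w1 w2 z0 ρ zL ρL r κ E H) (hCκ : C * W ^ C * κ ≤ 1)
    (hCH : (C * B) ^ C ≤ H) {t t' : ℕ} (ht : t ∈ P) (ht' : t' ∈ P) (hcv : cv t' = cv t) :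
    Uu (Uf (cu t)) (Vf (cv t)) (Uf (cu t')) (L t) (L t') z0 ρ r W a (2 * E * a) κ := by
  have KD1 := KD_one
  have KDp := KD_pos
  have hC1 : 1 ≤ C := by nlinarith
  have h2 := hc.two.to1
  have hW1 := hc.W1
  have hW0 : 0 < W := by linarith
  have hB1 : 1 ≤ B := hW1.trans hc.WB
  have hE1 := hc.E1
  have hE0 : 0 < E := by linarith
  have ha0 := h2.a0
  have hs : 0 < E * a := mul_pos hE0 ha0
  have hr0 := h2.r0
  have hρ := h2.ρ0
  have shU := h2.shU t ht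
  have shV := h2.shV t ht
  have shR := h2.shU t' ht'
  have inV' := h2.inV t' ht'
  rw [hcv] at inV'
  have w0U : 0 < (Uf (cu t)).w 0 := hr0.trans_le (shU.r0_le.trans shU.a_le0)
  have w0V : 0 < (Vf (cv t)).w 0 := hr0.trans_le (shV.r0_le.trans shV.a_le0)
  have wU := (StP.of_shN shU w0U).pos
  have wV := (StP.of_shN shV w0V).pos
  have aU0 : 0 < (Uf (cu t)).a := hr0.trans_le shU.r0_le
  have aV0 : 0 < (Vf (cv t)).a := hr0.trans_le shV.r0_le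
  obtain ⟨dU1, dU2, dU3⟩ := hc.dmU t ht
  obtain ⟨dV1, dV2, dV3⟩ := hc.dmV t ht
  obtain ⟨dR1, dR2, dR3⟩ := hc.dmU t' ht'
  have kEU : E * a ≤ W * kapP (Uf (cu t)) z0 ρ (L t) := hc.kE t ht
  have kEV : E * a ≤ W * kapP (Vf (cv t)) z0 ρ (L t') := by
    have h := hc.kE' t' ht'
    rw [hcv] at h
    exact h
  -- κ is small
  have hκ : 10 ^ 4 * κ ≤ 1 := by
    have h1 : 1 ≤ W ^ C := Real.one_le_rpow hW1 (by linarith)
    have hκ0 := hc.κ0
    have h3 : 10 ^ 4 * κ ≤ C * W ^ C * κ := by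
      refine mul_le_mul_of_nonneg_right ?_ hκ0.le
      nlinarith
    linarith
  -- E is large
  have hKD2 : 1 ≤ KD ^ 2 := one_le_pow₀ KD1
  have hC8 : ((8 : ℕ) : ℝ) ≤ C := by push_cast; nlinarith
  have hEbig : 10 ^ 29 * KD ^ 2 * W ^ 8 ≤ E := by
    have h3 := pow_le_rpow' hC1 hB1 8 hC8
    have h4 : 10 ^ 30 * KD ^ 2 * B ^ 8 ≤ C * B ^ 8 := mul_le_mul_of_nonneg_right hC (by positivity)
    have h5 : 10 ^ 30 * KD ^ 2 * W ^ 8 ≤ 10 ^ 30 * KD ^ 2 * B ^ 8 :=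
      mul_le_mul_of_nonneg_left (pow_le_pow_left₀ hW0.le hc.WB 8) (by positivity)
    have h6 := hc.HE
    have h7 : 0 ≤ KD ^ 2 * W ^ 8 := by positivity
    linarith
  have big : ∀ (x k : ℝ), x ≤ W * a → E * a ≤ W * k → 10 ^ 29 * KD ^ 2 * W ^ 6 * x ≤ k := by
    intro x k hx hk
    have h3 : W * (10 ^ 29 * KD ^ 2 * W ^ 6 * x) ≤ W * k := by
      refine le_trans ?_ hk
      calc W * (10 ^ 29 * KD ^ 2 * W ^ 6 * x) = 10 ^ 29 * KD ^ 2 * W ^ 7 * x := by ring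
        _ ≤ 10 ^ 29 * KD ^ 2 * W ^ 7 * (W * a) := mul_le_mul_of_nonneg_left hx (by positivity)
        _ = 10 ^ 29 * KD ^ 2 * W ^ 8 * a := by ring
        _ ≤ E * a := mul_le_mul_of_nonneg_right hEbig ha0.le
    exact le_of_mul_le_mul_left h3 hW0
  have bU := big _ _ dU1.2 kEU
  have bV := big _ _ dV1.2 kEV
  have hW6 : 1 ≤ W ^ 6 := one_le_pow₀ hW1
  have hW36 : W ^ 3 ≤ W ^ 6 := pow_le_pow_right₀ hW1 (by norm_num)
  have hKDKD : KD ≤ KD ^ 2 := by nlinarith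
  have kpV : kapP (Vf (cv t)) z0 ρ (L t') ≤ 13 * (Vf (cv t)).w 0 :=
    Hcp208.kapP_le hr0 hρ.le shV inV'
  have kpVt : kapP (Vf (cv t)) z0 ρ (L t) ≤ 13 * (Vf (cv t)).w 0 :=
    Hcp208.kapP_le hr0 hρ.le shV (h2.inV t ht)
  have one6 : 1 ≤ KD ^ 2 * W ^ 6 := by nlinarith
  exact
    { r0 := hr0
      ρ0 := hρ
      W1 := hW1
      a0 := ha0
      hU := shU
      hV := shV
      hR := shR
      tU := h2.inU t ht
      tV := h2.inV t ht
      tV' := inV'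
      tR := h2.inU t' ht'
      aU := dU1.2
      aU' := dU1.1
      aV := dV1.2
      aV' := dV1.1
      aR := dR1.2
      w1 := by
        calc (Uf (cu t)).w 1 ≤ W * w1 := dU2.2
          _ ≤ W * (W * (Vf (cv t)).w 1) := mul_le_mul_of_nonneg_left dV2.1 hW0.le
          _ = _ := by ring
      w2 := by
        calc (Uf (cu t)).w 2 ≤ W * w2 := dU3.2
          _ ≤ W * (W * (Vf (cv t)).w 2) := mul_le_mul_of_nonneg_left dV3.1 hW0.le
          _ = _ := by ring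
      tl := by
        have h3 : |dt ((Vf (cv t)).e 2) ((Uf (cu t)).e 1)| ≤ angC (Uf (cu t)) (Vf (cv t)) := by
          rw [dt_comm]
          unfold Tl102.angC
          exact (le_max_right _ _).trans (le_max_left _ _)
        have h5 := hc.ang t ht
        have h6 : 0 ≤ angC (Uf (cu t)) (Vf (cv t)) := (abs_nonneg _).trans h3
        calc |dt ((Vf (cv t)).e 2) ((Uf (cu t)).e 1)| * (Uf (cu t)).w 1
            ≤ angC (Uf (cu t)) (Vf (cv t)) * (W * w1) := mul_le_mul h3 dU2.2 (wU 1).le h6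
          _ = W * (angC (Uf (cu t)) (Vf (cv t)) * w1) := by ring
          _ ≤ W * (W * w2) := mul_le_mul_of_nonneg_left h5 hW0.le
          _ ≤ W * (W * (W * (Vf (cv t)).w 2)) := by
              refine mul_le_mul_of_nonneg_left ?_ hW0.le
              exact mul_le_mul_of_nonneg_left dV3.1 hW0.le
          _ = _ := by ring
      c1 := (hc.up t ht).1
      c2 := by
        have h := (hc.up t' ht').2
        rw [hcv] at h
        exact h
      aΛ := by nlinarith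
      ΛU := by linarith
      ΛV := by linarith
      kU := by
        have h3 : kapP (Uf (cu t)) z0 ρ (L t) ≤ W * kapP (Vf (cv t)) z0 ρ (L t) := hc.kUV t ht
        refine h3.trans ?_
        calc W * kapP (Vf (cv t)) z0 ρ (L t) ≤ W * (13 * (Vf (cv t)).w 0) :=
              mul_le_mul_of_nonneg_left kpVt hW0.le
          _ = _ := by ring
      bU := by
        refine le_trans ?_ bU
        have : 0 ≤ KD ^ 2 * W ^ 6 * (Uf (cu t)).a := by positivity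
        linarith
      bV := by
        refine le_trans ?_ bV
        have h3 : KD * W ^ 3 ≤ KD ^ 2 * W ^ 6 := mul_le_mul hKDKD hW36 (by positivity) (by positivity)
        have h4 : KD * W ^ 3 * (Vf (cv t)).a ≤ KD ^ 2 * W ^ 6 * (Vf (cv t)).a :=
          mul_le_mul_of_nonneg_right h3 aV0.le
        have h5 : 0 ≤ KD ^ 2 * W ^ 6 * (Vf (cv t)).a := by positivity
        linarith
      bw := by
        have h3 : 10 ^ 29 * (Vf (cv t)).a ≤ 10 ^ 29 * KD ^ 2 * W ^ 6 * (Vf (cv t)).a := by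
          have := mul_le_mul_of_nonneg_right one6 aV0.le
          linarith
        linarith
      κ0 := hc.κ0.le
      κ1 := hκ
      tub := by
        have h := hc.tubV t ht t' ht' hcv.symm
        rw [hcv] at h
        exact h }

set_option maxHeartbeats 1000000 in
/-- **second conjunct of `LeafNd`** over 57's two facts -/
theorem lnd_uu_of (g2 : ValUu) (g3 : A0Uu) : ∃ C : ℝ, 1 ≤ C ∧ ∀ (qm qp : Fin 3 → ℝ)
    (L : ℕ → Ln4) (P : Finset ℕ) (cu cv : ℕ → ℕ) (Uf Vf : ℕ → Plk4)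
    (W B M a w1 w2 z0 ρ zL ρL r κ E : ℝ) (H : ℕ),
    Cf qm qp L P cu cv Uf Vf W B M a w1 w2 z0 ρ zL ρL r κ E H → C * W ^ C * κ ≤ 1 →
    (C * B) ^ C ≤ H → ∀ l m : ℝ, 0 < l → l ≤ 1 → 0 < m → m ≤ 1 →
    ∀ (c c1 : ℕ) (T : Finset ((ℤ × ℤ) × ℕ)), (∀ y ∈ T, ∃ t ∈ P, ∃ t' ∈ P, y.2 < H ∧ cu t = c ∧
      cu t' = c1 ∧ cv t' = cv t ∧
      lbl Vf L w1 w2 z0 ρ H (cv t) t' y.2 = lbl Vf L w1 w2 z0 ρ H (cv t) t y.2 ∧
      lbl Uf L w1 w2 z0 ρ H c t y.2 = y.1 ∧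
      Nd (Uf (cu t)) (Uf (cu t')).q z0 ρ H y.2 (L t) l m (E * a)) →
      (T.card : ℝ) ≤ (C * B / (l * m)) ^ C * (1 + Real.log H) * (H : ℝ) ^ 2 := by
  have KD1 := KD_one
  have KDp := KD_pos
  set K : ℝ := 2 * 10 ^ 60 * KD ^ 7 with hKdef
  have hKD7 : 1 ≤ KD ^ 7 := one_le_pow₀ KD1
  have hKD17 : KD ≤ KD ^ 7 := le_self_pow₀ KD1 (by norm_num)
  have hKbig : 2 * 10 ^ 60 * KD ≤ K := by
    rw [hKdef]
    exact mul_le_mul_of_nonneg_left hKD17 (by norm_num)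
  have hK1 : 1 ≤ K := by nlinarith
  obtain ⟨C0, hC0, main⟩ := nd_core K 15 hK1
  set C : ℝ := C0 + 10 ^ 30 * KD ^ 2 with hCdef
  have hp : 0 ≤ 10 ^ 30 * KD ^ 2 := by positivity
  have hC1 : 1 ≤ C := by linarith
  have hCC : C0 ≤ C := by linarith
  refine ⟨C, hC1, ?_⟩
  intro qm qp L P cu cv Uf Vf W B M a w1 w2 z0 ρ zL ρL r κ E H hc hCκ hCH l m hl hl1 hm hm1 c c1
    T hT
  have h2 := hc.two.to1
  have hW1 := hc.W1
  have hW0 : 0 < W := by linarith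
  have hB1 : 1 ≤ B := hW1.trans hc.WB
  have hB0 : 0 < B := by linarith
  have hE1 := hc.E1
  have hE0 : 0 < E := by linarith
  have ha0 := h2.a0
  have hs : 0 < E * a := mul_pos hE0 ha0
  have hH0 : (0 : ℝ) < H := by have := hc.EH; linarith
  have hH : 0 < H := by exact_mod_cast hH0
  have hlog : 0 ≤ 1 + Real.log H := by
    have : 0 ≤ Real.log H := Real.log_nonneg (by have := hc.EH; linarith)
    linarith
  have hlm : 0 < l * m := mul_pos hl hm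
  have hlm1 : l * m ≤ 1 := mul_le_one₀ hl1 hm.le hm1
  rcases T.eq_empty_or_nonempty with hTe | ⟨y0, hy0⟩
  · rw [hTe, Finset.card_empty]
    have : 0 ≤ (C * B / (l * m)) ^ C := Real.rpow_nonneg (by positivity) _
    push_cast
    positivity
  -- the constants of `nd_core`
  have hWC : W ^ C0 ≤ W ^ C := Real.rpow_le_rpow_of_exponent_le hW1 hCC
  have hκ' : C0 * W ^ C0 * κ ≤ 1 := by
    refine le_trans (mul_le_mul_of_nonneg_right ?_ hc.κ0.le) hCκ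
    exact mul_le_mul hCC hWC (by positivity) (by linarith)
  have hH' : (C0 * B) ^ C0 ≤ H := by
    refine le_trans ?_ hCH
    calc (C0 * B) ^ C0 ≤ (C * B) ^ C0 :=
          Real.rpow_le_rpow (by positivity) (mul_le_mul_of_nonneg_right hCC hB0.le) (by linarith)
      _ ≤ (C * B) ^ C := Real.rpow_le_rpow_of_exponent_le (by nlinarith) hCC
  have hfin : (C0 * B / (l * m)) ^ C0 ≤ (C * B / (l * m)) ^ C := by
    calc (C0 * B / (l * m)) ^ C0 ≤ (C * B / (l * m)) ^ C0 := by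
          refine Real.rpow_le_rpow (by positivity) ?_ (by linarith)
          exact div_le_div_of_nonneg_right (mul_le_mul_of_nonneg_right hCC hB0.le) hlm.le
      _ ≤ (C * B / (l * m)) ^ C := by
          refine Real.rpow_le_rpow_of_exponent_le ?_ hCC
          rw [le_div_iff₀ hlm]; nlinarith
  have hCuu : 10 ^ 30 * KD ^ 2 ≤ C := by linarith
  -- `s = W / H` is small
  have hEbig : 10 ^ 29 * KD ^ 2 * W ^ 8 ≤ E := by
    have h3 := pow_le_rpow' hC1 hB1 8 (by push_cast; nlinarith)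
    have h4 : 10 ^ 30 * KD ^ 2 * B ^ 8 ≤ C * B ^ 8 := mul_le_mul_of_nonneg_right hCuu (by positivity)
    have h5 : 10 ^ 30 * KD ^ 2 * W ^ 8 ≤ 10 ^ 30 * KD ^ 2 * B ^ 8 :=
      mul_le_mul_of_nonneg_left (pow_le_pow_left₀ hW0.le hc.WB 8) (by positivity)
    have h6 := hc.HE
    have h7 : 0 ≤ KD ^ 2 * W ^ 8 := by positivity
    linarith
  have hss : 10 ^ 8 * KD * W ^ 2 * (W / H) ≤ 1 := by
    have h3 : 10 ^ 8 * KD * W ^ 2 * (W / H) = 10 ^ 8 * KD * W ^ 3 / H := by ring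
    rw [h3, div_le_one hH0]
    have h4 : KD * W ^ 3 ≤ KD ^ 2 * W ^ 8 :=
      mul_le_mul (by nlinarith) (pow_le_pow_right₀ hW1 (by norm_num)) (by positivity)
        (by positivity)
    have h5 := hc.EH
    have h6 : 0 ≤ KD ^ 2 * W ^ 8 := by positivity
    linarith
  -- same label in `V`
  have near : ∀ t ∈ P, ∀ t' ∈ P, cv t' = cv t → ∀ j < H,
      lbl Vf L w1 w2 z0 ρ H (cv t) t' j = lbl Vf L w1 w2 z0 ρ H (cv t) t j →
      |dt ((Vf (cv t)).e 1) ((L t).pos (zj z0 ρ H j) - (L t').pos (zj z0 ρ H j))| ≤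
        W / H * (Vf (cv t)).w 1 ∧
      |dt ((Vf (cv t)).e 2) ((L t).pos (zj z0 ρ H j) - (L t').pos (zj z0 ρ H j))| ≤
        W / H * (Vf (cv t)).w 2 := by
    intro t ht t' ht' hcv j hj hlb
    obtain ⟨e1, e2⟩ := gb_close (e := (Vf (cv t)).e) (c := (Vf (cv t)).c) h2.w10 h2.w20 hH
      (t := L t) (t' := L t') (j := j) hlb.symm
    obtain ⟨-, dV2, dV3⟩ := hc.dmV t ht
    refine ⟨e1.le.trans ?_, e2.le.trans ?_⟩
    · rw [div_mul_eq_mul_div]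
      exact div_le_div_of_nonneg_right dV2.1 hH0.le
    · rw [div_mul_eq_mul_div]
      exact div_le_div_of_nonneg_right dV3.1 hH0.le
  obtain ⟨t0, ht0, t0', ht0', hj0, hcu0, hcu0', hcv0, hlV0, -, -⟩ := hT y0 hy0
  subst hcu0
  subst hcu0'
  have uu0 := uu_of_cf hCuu hc hCκ hCH ht0 ht0' hcv0
  refine (main qm qp L P cu cv Uf Vf W B M a w1 w2 z0 ρ zL ρL r κ E H hc hκ' hH' l m hl hl1 hm hm1
    t0 ht0 (Uf (cu t0')).q uu0.hR.isQ ?_ ⟨y0.2, hj0.le, ?_⟩ T ?_).trans ?_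
  · have h3 := Cuu57.close_uu uu0
    have e1 : 10 ^ 60 * KD ^ 7 * W ^ 15 * (2 * E * a) = K * W ^ 15 * (E * a) := by
      rw [hKdef]; ring
    rw [e1] at h3
    exact h3
  · obtain ⟨n1, n2⟩ := near t0 ht0 t0' ht0' hcv0 y0.2 hj0 hlV0
    have h3 := g3 _ _ _ _ _ _ _ _ _ _ _ _ uu0 H y0.2 hj0.le (W / H) (by positivity) hss n1 n2
    refine h3.trans ?_
    have hw : 0 < (Uf (cu t0)).w 0 := h2.r0.trans_le (uu0.hU.r0_le.trans uu0.hU.a_le0)
    refine mul_le_mul_of_nonneg_right ?_ hw.le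
    have h15 : W ≤ W ^ 15 := le_self_pow₀ hW1 (by norm_num)
    have h16 : 10 ^ 6 * KD ≤ K := by linarith
    exact mul_le_mul h16 h15 hW0.le (by linarith)
  · intro b hb
    obtain ⟨t, ht, t', ht', hj, hcu, hcu', hcv, hlV, hlU, hnd⟩ := hT b hb
    have uu := uu_of_cf hCuu hc hCκ hCH ht ht' hcv
    refine ⟨hj, t, ht, hcu, hlU, ?_, ?_⟩
    · obtain ⟨n1, n2⟩ := near t ht t' ht' hcv b.2 hj hlV
      obtain ⟨hz, hz'⟩ := zj_mem (z0 := z0) h2.ρ0.le hj.le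
      have h3 := g2 _ _ _ _ _ _ _ _ _ _ _ _ uu (zj z0 ρ H b.2) (W / H) hz hz' (by positivity) hss
        n1 n2
      rw [hcu'] at h3
      refine h3.trans ?_
      have h4 : W / H * (2 * E * a) ≤ 2 * W * a := by
        rw [div_mul_eq_mul_div, div_le_iff₀ hH0]
        have := mul_le_mul_of_nonneg_left hc.EH (by positivity : 0 ≤ 2 * W * a)
        linarith
      have h5 : a + W / H * (2 * E * a) ≤ 3 * W * a := by nlinarith
      calc 10 ^ 5 * KD * W ^ 2 * (a + W / H * (2 * E * a))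
          ≤ 10 ^ 5 * KD * W ^ 2 * (3 * W * a) := mul_le_mul_of_nonneg_left h5 (by positivity)
        _ = 3 * 10 ^ 5 * KD * W ^ 3 * a := by ring
        _ ≤ K * W ^ 15 * a := by
            refine mul_le_mul_of_nonneg_right ?_ ha0.le
            refine mul_le_mul ?_ (pow_le_pow_right₀ hW1 (by norm_num)) (by positivity)
              (by linarith)
            linarith
    · rw [hcu, hcu'] at hnd
      exact hnd
  · refine mul_le_mul_of_nonneg_right (mul_le_mul_of_nonneg_right hfin hlog) (by positivity)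

/-- a larger constant -/
theorem up_C {C0 C W B κ l m : ℝ} {H : ℕ} (hC0 : 1 ≤ C0) (hCC : C0 ≤ C) (hW1 : 1 ≤ W)
    (hB1 : 1 ≤ B) (hκ : 0 < κ) (hl : 0 < l) (hl1 : l ≤ 1) (hm : 0 < m) (hm1 : m ≤ 1)
    (hCκ : C * W ^ C * κ ≤ 1) (hCH : (C * B) ^ C ≤ H) (hH : 1 ≤ H) :
    C0 * W ^ C0 * κ ≤ 1 ∧ (C0 * B) ^ C0 ≤ H ∧
      (C0 * B / (l * m)) ^ C0 * (1 + Real.log H) * (H : ℝ) ^ 2 ≤
        (C * B / (l * m)) ^ C * (1 + Real.log H) * (H : ℝ) ^ 2 := by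
  have hB0 : 0 < B := by linarith
  have hlm : 0 < l * m := mul_pos hl hm
  have hlm1 : l * m ≤ 1 := mul_le_one₀ hl1 hm.le hm1
  have hWC : W ^ C0 ≤ W ^ C := Real.rpow_le_rpow_of_exponent_le hW1 hCC
  have hlog : 0 ≤ 1 + Real.log H := by
    have : 0 ≤ Real.log H := Real.log_nonneg (by exact_mod_cast hH)
    linarith
  refine ⟨?_, ?_, ?_⟩
  · refine le_trans (mul_le_mul_of_nonneg_right ?_ hκ.le) hCκ
    exact mul_le_mul hCC hWC (by positivity) (by linarith)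
  · refine le_trans ?_ hCH
    calc (C0 * B) ^ C0 ≤ (C * B) ^ C0 :=
          Real.rpow_le_rpow (by positivity) (mul_le_mul_of_nonneg_right hCC hB0.le) (by linarith)
      _ ≤ (C * B) ^ C := Real.rpow_le_rpow_of_exponent_le (by nlinarith) hCC
  · refine mul_le_mul_of_nonneg_right (mul_le_mul_of_nonneg_right ?_ hlog) (by positivity)
    calc (C0 * B / (l * m)) ^ C0 ≤ (C * B / (l * m)) ^ C0 := by
          refine Real.rpow_le_rpow (by positivity) ?_ (by linarith)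
          exact div_le_div_of_nonneg_right (mul_le_mul_of_nonneg_right hCC hB0.le) hlm.le
      _ ≤ (C * B / (l * m)) ^ C := by
          refine Real.rpow_le_rpow_of_exponent_le ?_ hCC
          rw [le_div_iff₀ hlm]; nlinarith

/-- **`LeafNd`** over 57's two facts -/
theorem leafNd_of (g2 : ValUu) (g3 : A0Uu) : Al500.LeafNd := by
  obtain ⟨C1, hC1, m1⟩ := lnd_uv
  obtain ⟨C2, hC2, m2⟩ := lnd_uu_of g2 g3
  refine ⟨C1 + C2, by linarith, ?_⟩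
  intro qm qp L P cu cv Uf Vf W B M a w1 w2 z0 ρ zL ρL r κ E H hc hCκ hCH l m hl hl1 hm hm1
  have hW1 := hc.W1
  have hB1 : 1 ≤ B := hW1.trans hc.WB
  have hH : 1 ≤ H := by
    have h1 : (1 : ℝ) ≤ H := by have := hc.E1; have := hc.EH; linarith
    exact_mod_cast h1
  obtain ⟨a1, a2, a3⟩ := up_C (H := H) hC1 (by linarith : C1 ≤ C1 + C2) hW1 hB1 hc.κ0 hl hl1 hm hm1
    hCκ hCH hH
  obtain ⟨b1, b2, b3⟩ := up_C (H := H) hC2 (by linarith : C2 ≤ C1 + C2) hW1 hB1 hc.κ0 hl hl1 hm hm1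
    hCκ hCH hH
  refine ⟨fun c c' T hT => ?_, fun c c1 T hT => ?_⟩
  · exact (m1 qm qp L P cu cv Uf Vf W B M a w1 w2 z0 ρ zL ρL r κ E H hc a1 a2 l m hl hl1 hm hm1
      c c' T hT).trans a3
  · exact (m2 qm qp L P cu cv Uf Vf W B M a w1 w2 z0 ρ zL ρL r κ E H hc b1 b2 l m hl hl1 hm hm1
      c c1 T hT).trans b3

end Crest.Agent.R136.Adp876
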