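import Crest.Agent.R136.Ndc_876
import Crest.Agent.R136.Amd_84
import Crest.Agent.R136.Rft_877
import Crest.Agent.R136.Bl5_667

-- ▼ part R136/Nmx1_501
section

/-!
# R136 (U4, PLAN 2 (AL), case (A)): two-scale adapter (helper501)

`DataM` : helper876's `Data` for `q` at the precision `αq`, the `y`-entries of `P` are `O(ε)`,
`ε αq ≤ α`.  By linearity in `P`: the Taylor bounds at the precision `α`.
`count_chg2`, `nd_count2` : 876's counts in this form (proofs copied).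
-/

set_option autoImplicit false
set_option linter.unusedVariables false

namespace Crest.Agent.R136.Nmx501

open Crest.Agent.R136.Rk601 Crest.Agent.R136.Sh605 Crest.Agent.R136.Adp876
open Crest.Agent.R136.Tl102 (cmb fr)
open Crest.Agent.R136.K4 (Plk4)
open Crest.Agent.R136.Gbx862 (zj gb lc)
open Crest.Agent.R136.AlD601

/-- `y`-part divided by `ε` -/
noncomputable def yp (P : Jt) (ε : ℝ) : Jt where
  a0 := P.a0 / ε
  a := fun _ => 0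
  h00 := P.h00 / ε
  h0 := fun i => P.h0 i / ε
  h := fun _ _ => 0

theorem yp_bd {P : Jt} {K ε : ℝ} (hK : 1 ≤ K) (hε : 0 < ε) (h0 : |P.a0| ≤ K * ε)
    (h00 : |P.h00| ≤ K * ε) (hm : ∀ i, |P.h0 i| ≤ K * ε) : Bd (yp P ε) K where
  a0 := by
    show |P.a0 / ε| ≤ K
    rw [abs_div, abs_of_pos hε, div_le_iff₀ hε]; exact h0
  a := fun i => by show |(0:ℝ)| ≤ K; rw [abs_zero]; linarith
  h00 := by
    show |P.h00 / ε| ≤ K
    rw [abs_div, abs_of_pos hε, div_le_iff₀ hε]; exact h00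
  h0 := fun i => by
    show |P.h0 i / ε| ≤ K
    rw [abs_div, abs_of_pos hε, div_le_iff₀ hε]; exact hm i
  h := fun i j => by show |(0:ℝ)| ≤ K; rw [abs_zero]; linarith
  s := fun i j => rfl

/-- **two-scale data** -/
structure DataM {β : Type} (A : Set β) (cq : ℝ) (q P : Jt) (y : β → ℝ) (X : β → Fin 3 → ℝ)
    (K α αq ε : ℝ) : Prop where
  D : Data A cq q (yp P ε) y X K αq
  ba : ∀ i, |P.a i| ≤ K
  bh : ∀ i j, |P.h i j| ≤ K
  s : P.Sym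
  ε0 : 0 < ε
  ε1 : ε ≤ 1
  εα : ε * αq ≤ α

/-- constant -/
noncomputable def C2 (K : ℝ) : ℝ := 2 * CK K

theorem C2_one {K : ℝ} (hK : 1 ≤ K) : 1 ≤ C2 K := by
  unfold C2; linarith [CK_one hK]

/-- constant -/
noncomputable def KC2 (K L : ℝ) : ℝ := 27 * L ^ 3 * C2 K

section

variable {β : Type} {A : Set β} {cq : ℝ} {q P : Jt} {y : β → ℝ} {X : β → Fin 3 → ℝ}
  {K α αq ε : ℝ}

theorem DataM.K1 (D : DataM A cq q P y X K α αq ε) : 1 ≤ K := D.D.K1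

theorem FF_split (hε : ε ≠ 0) (cP : ℝ) (n : β) : FF cP P y X n =
    (cP + ∑ i, P.a i * X n i + 1 / 2 * ∑ i, ∑ j, P.h i j * (X n i * X n j)) +
      ε * FF 0 (yp P ε) y X n := by
  simp only [FF, Adp876.ev, yp, Fin.sum_univ_three]
  field_simp
  ring

theorem GG_split (hε : ε ≠ 0) (n : β) (i : Fin 3) : GG q P y X n i =
    (P.a i + ∑ j, P.h i j * X n j) + ε * GG q (yp P ε) y X n i := by
  simp only [GG, tg, sh, yp, Fin.sum_univ_three]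
  field_simp
  ring

theorem HH_split (hε : ε ≠ 0) (n : β) (i j : Fin 3) : HH q P y X n i j =
    P.h i j + ε * HH q (yp P ε) y X n i j := by
  simp only [HH, th, lf]
  have e0 : (sh P (y n) (X n)).a0 = ε * (sh (yp P ε) (y n) (X n)).a0 := by
    simp only [sh, yp, Fin.sum_univ_three]; field_simp
  have e1 : (sh P (y n) (X n)).h i j = P.h i j := rfl
  have e2 : ∀ k, (sh P (y n) (X n)).h0 k = ε * (sh (yp P ε) (y n) (X n)).h0 k := fun k => by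
    simp only [sh, yp]; field_simp
  have e3 : (sh P (y n) (X n)).h00 = ε * (sh (yp P ε) (y n) (X n)).h00 := by
    simp only [sh, yp]; field_simp
  have e4 : (sh (yp P ε) (y n) (X n)).h i j = 0 := rfl
  rw [e0, e1, e2 i, e2 j, e3, e4]
  ring

theorem scal {ε αq α r C : ℝ} (hε : 0 < ε) (hε1 : ε ≤ 1) (h : ε * αq ≤ α) (hC : 0 ≤ C) (hr : 0 ≤ r) :
    ε * (C * (r + αq)) ≤ C * (r + α) := by
  have h1 : ε * r ≤ r := by nlinarith
  calc ε * (C * (r + αq)) = C * (ε * r + ε * αq) := by ring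
    _ ≤ C * (r + α) := mul_le_mul_of_nonneg_left (add_le_add h1 h) hC

theorem DataM.GG_le (D : DataM A cq q P y X K α αq ε) {n : β} (hn : n ∈ A) (i : Fin 3) :
    |GG q P y X n i| ≤ C2 K := by
  have hK := D.K1
  have h1 := D.D.GG_le hn i
  have hC := CK_one hK
  rw [GG_split D.ε0.ne' n i]
  have h2 : |P.a i + ∑ j, P.h i j * X n j| ≤ 4 * K := by
    have := dot_le (fun j => D.bh i j) (D.D.X1 n hn)
    refine (abs_add_le _ _).trans ?_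
    linarith [D.ba i]
  have h3 : |ε * GG q (yp P ε) y X n i| ≤ CK K := by
    rw [abs_mul, abs_of_pos D.ε0]
    have h0 := abs_nonneg (GG q (yp P ε) y X n i)
    have := D.ε1
    nlinarith
  have h4 : 4 * K ≤ CK K := by
    unfold CK
    have : K ≤ K ^ 11 := le_self_pow₀ hK (by norm_num)
    linarith
  refine (abs_add_le _ _).trans ?_
  unfold C2
  linarith

theorem DataM.HH_le (D : DataM A cq q P y X K α αq ε) {n : β} (hn : n ∈ A) (i j : Fin 3) :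
    |HH q P y X n i j| ≤ C2 K := by
  have hK := D.K1
  have h1 := D.D.HH_le hn i j
  have hC := CK_one hK
  rw [HH_split D.ε0.ne' n i j]
  have h3 : |ε * HH q (yp P ε) y X n i j| ≤ CK K := by
    rw [abs_mul, abs_of_pos D.ε0]
    have h0 := abs_nonneg (HH q (yp P ε) y X n i j)
    have := D.ε1
    nlinarith
  have h4 : K ≤ CK K := by
    unfold CK
    have : K ≤ K ^ 11 := le_self_pow₀ hK (by norm_num)
    linarith
  refine (abs_add_le _ _).trans ?_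
  unfold C2
  linarith [D.bh i j]

theorem DataM.t1 (D : DataM A cq q P y X K α αq ε) (cP : ℝ) {n n' : β} (hn : n ∈ A) (hn' : n' ∈ A)
    {r : ℝ} (hr : ∀ j, |X n' j - X n j| ≤ r) :
    |FF cP P y X n' - FF cP P y X n - ∑ j, GG q P y X n j * (X n' j - X n j)| ≤
      C2 K * (r ^ 2 + α) := by
  have hK := D.K1
  have hC := CK_one hK
  have h1 := D.D.t1 0 hn hn' hr
  have s := D.s
  have e : FF cP P y X n' - FF cP P y X n - ∑ j, GG q P y X n j * (X n' j - X n j) =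
      1 / 2 * (∑ i, ∑ j, P.h i j * ((X n' i - X n i) * (X n' j - X n j))) +
      ε * (FF 0 (yp P ε) y X n' - FF 0 (yp P ε) y X n -
        ∑ j, GG q (yp P ε) y X n j * (X n' j - X n j)) := by
    have g := fun i => GG_split (q := q) (P := P) (y := y) (X := X) D.ε0.ne' n i
    rw [FF_split D.ε0.ne' cP n', FF_split D.ε0.ne' cP n]
    simp only [g, Fin.sum_univ_three]
    rw [s 1 0, s 2 0, s 2 1]
    ring
  rw [e]
  have h2 := quad_le D.bh hr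
  have h3 : |1 / 2 * (∑ i, ∑ j, P.h i j * ((X n' i - X n i) * (X n' j - X n j)))| ≤
      CK K * (r ^ 2 + α) := by
    rw [abs_mul, abs_of_pos (by norm_num : (0:ℝ) < 1 / 2)]
    have h4 : 9 * K ≤ CK K := by
      unfold CK
      have : K ≤ K ^ 11 := le_self_pow₀ hK (by norm_num)
      linarith
    have h5 : 0 ≤ α := le_trans (mul_nonneg D.ε0.le D.D.α0.le) D.εα
    have h6 : 9 * K * r ^ 2 ≤ CK K * (r ^ 2 + α) :=
      mul_le_mul h4 (by linarith) (sq_nonneg r) (by linarith)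
    have h7 : 0 ≤ |∑ i, ∑ j, P.h i j * ((X n' i - X n i) * (X n' j - X n j))| := abs_nonneg _
    have h8 : 9 * K * r ^ 2 = 9 * (K * r ^ 2) := by ring
    linarith
  have h4 : |ε * (FF 0 (yp P ε) y X n' - FF 0 (yp P ε) y X n -
        ∑ j, GG q (yp P ε) y X n j * (X n' j - X n j))| ≤ CK K * (r ^ 2 + α) := by
    rw [abs_mul, abs_of_pos D.ε0]
    exact (mul_le_mul_of_nonneg_left h1 D.ε0.le).trans
      (scal D.ε0 D.ε1 D.εα (by linarith) (sq_nonneg r))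
  refine (abs_add_le _ _).trans ?_
  unfold C2
  linarith

theorem DataM.t2 (D : DataM A cq q P y X K α αq ε) {n n' : β} (hn : n ∈ A) (hn' : n' ∈ A)
    {r : ℝ} (hr : ∀ j, |X n' j - X n j| ≤ r) (i : Fin 3) :
    |GG q P y X n' i - GG q P y X n i - ∑ j, HH q P y X n i j * (X n' j - X n j)| ≤
      C2 K * (r ^ 2 + α) := by
  have hK := D.K1
  have hC := CK_one hK
  have h1 := D.D.t2 hn hn' hr i
  have e : GG q P y X n' i - GG q P y X n i - ∑ j, HH q P y X n i j * (X n' j - X n j) =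
      ε * (GG q (yp P ε) y X n' i - GG q (yp P ε) y X n i -
        ∑ j, HH q (yp P ε) y X n i j * (X n' j - X n j)) := by
    have g := fun i => GG_split (q := q) (P := P) (y := y) (X := X) D.ε0.ne' n i
    have g' := fun i => GG_split (q := q) (P := P) (y := y) (X := X) D.ε0.ne' n' i
    have k := fun i j => HH_split (q := q) (P := P) (y := y) (X := X) D.ε0.ne' n i j
    simp only [g, g', k, Fin.sum_univ_three]
    ring
  rw [e, abs_mul, abs_of_pos D.ε0]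
  have h5 : 0 ≤ α := le_trans (mul_nonneg D.ε0.le D.D.α0.le) D.εα
  have h6 := (mul_le_mul_of_nonneg_left h1 D.ε0.le).trans
    (scal D.ε0 D.ε1 D.εα (by linarith) (sq_nonneg r))
  unfold C2
  have : 0 ≤ CK K * (r ^ 2 + α) := by positivity
  linarith

theorem DataM.t3 (D : DataM A cq q P y X K α αq ε) {n n' : β} (hn : n ∈ A) (hn' : n' ∈ A)
    {r : ℝ} (hr : ∀ j, |X n' j - X n j| ≤ r) (i j : Fin 3) :
    |HH q P y X n' i j - HH q P y X n i j| ≤ C2 K * (r + α) := by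
  have hK := D.K1
  have hC := CK_one hK
  have hr0 : 0 ≤ r := (abs_nonneg _).trans (hr 0)
  have h1 := D.D.t3 hn hn' hr i j
  have e : HH q P y X n' i j - HH q P y X n i j =
      ε * (HH q (yp P ε) y X n' i j - HH q (yp P ε) y X n i j) := by
    rw [HH_split (q := q) (P := P) (y := y) (X := X) D.ε0.ne' n i j,
      HH_split (q := q) (P := P) (y := y) (X := X) D.ε0.ne' n' i j]
    ring
  rw [e, abs_mul, abs_of_pos D.ε0]
  have h5 : 0 ≤ α := le_trans (mul_nonneg D.ε0.le D.D.α0.le) D.εα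
  have h6 := (mul_le_mul_of_nonneg_left h1 D.ε0.le).trans
    (scal D.ε0 D.ε1 D.εα (by linarith) hr0)
  unfold C2
  have : 0 ≤ CK K * (r + α) := by positivity
  linarith

end

/-- **count of the boxes after a linear change of the base coordinates.** -/
theorem count_chg2 {H : ℕ} (hH : 1 ≤ H) {T : Finset ((ℤ × ℤ) × ℕ)} {cq cP : ℝ} {q P : Jt}
    {y : (ℤ × ℤ) × ℕ → ℝ} {X : (ℤ × ℤ) × ℕ → Fin 3 → ℝ} {K L B : ℝ}
    {αq ε : ℝ} (D : DataM (T : Set ((ℤ × ℤ) × ℕ)) cq q P y X K (1 / H) αq ε) {M : Fin 3 → Fin 3 → ℝ}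
    (hL : 1 ≤ L) (hM : ∀ k j, |M k j| ≤ L) (hB : 1 ≤ B) (x : (ℤ × ℤ) × ℕ → Fin 3 → ℝ)
    (hx : ∀ b ∈ T, ∀ b' ∈ T, ∀ k, X b' k - X b k = ∑ j, M k j * (x b' j - x b j))
    (x0 : ∀ y ∈ T, x y 0 = y.2 / H) (x1 : ∀ y ∈ T, ⌊H * x y 1⌋ = y.1.1)
    (x2 : ∀ y ∈ T, ⌊H * x y 2⌋ = y.1.2) (xB : ∀ y ∈ T, ∀ i, |x y i| ≤ B) {β γ m : ℝ}
    (hγ : 0 < γ) (hm : 0 < m) (hm1 : m ≤ 1) (hβ : 1 / (H : ℝ) ≤ β) {N : ℕ} (hN1 : 1 ≤ N)
    (hN : 5000 * (KC2 K L * B ^ 3) ≤ 2 ^ N * √β) (hF : ∀ b ∈ T, |FF cP P y X b| ≤ β)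
    (hnd : ∀ b ∈ T, (∃ i, γ ≤ |∑ k, M k i * GG q P y X b k|) ∨ ∃ i j k l,
      m ≤ |mn (fun i j => ∑ k, ∑ l, M k i * M l j * HH q P y X b k l) i j k l|) :
    (T.card : ℝ) ≤
      10 ^ 52 * N * (KC2 K L) ^ 10 * B ^ 33 * (1 / γ ^ 2 + 1 / m ^ 5) * β * (H : ℝ) ^ 3 := by
  have hC := C2_one D.K1
  have hC0 : (0:ℝ) < C2 K := by linarith
  have hL0 : (0:ℝ) < L := by linarith
  have hL2 : (1:ℝ) ≤ L ^ 2 := one_le_pow₀ hL
  have hL3 : (1:ℝ) ≤ L ^ 3 := one_le_pow₀ hL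
  have h23 : L ^ 2 ≤ L ^ 3 := pow_le_pow_right₀ hL (by norm_num)
  have h13 : L ≤ L ^ 3 := le_self_pow₀ hL (by norm_num)
  have hHr : (0:ℝ) < H := by exact_mod_cast hH
  have hH0 : (0:ℝ) ≤ 1 / H := by positivity
  have hKC1 : 1 ≤ KC2 K L := by
    unfold KC2
    have : (1:ℝ) * 1 ≤ L ^ 3 * C2 K := mul_le_mul hL3 hC (by norm_num) (by positivity)
    linarith
  have hrr : ∀ b ∈ T, ∀ b' ∈ T, ∀ r : ℝ, (∀ j, |x b' j - x b j| ≤ r) →
      ∀ j, |X b' j - X b j| ≤ 3 * (L * r) := by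
    intro b hb b' hb' r hr j
    rw [hx b hb b' hb']
    exact mdot_le hM hr j
  have hKCe : KC2 K L = 27 * (L ^ 3 * C2 K) := by unfold KC2; ring
  refine Sbl57.count_boxes hH hKC1 hB T x (FF cP P y X)
    (fun b i => ∑ k, M k i * GG q P y X b k)
    (fun b i j => ∑ k, ∑ l, M k i * M l j * HH q P y X b k l) x0 x1 x2 xB ?_ ?_ ?_ ?_ ?_ hγ hm hm1
    hβ hN1 hN hF ?_
  · intro b hb i
    refine (mtdot_le hM (fun k => D.GG_le hb k) i).trans ?_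
    rw [hKCe]
    have : L * C2 K ≤ L ^ 3 * C2 K := mul_le_mul_of_nonneg_right h13 hC0.le
    have h0 : 0 ≤ L ^ 3 * C2 K := by positivity
    linarith
  · intro b hb i j
    refine (mtm_le hM (fun k l => D.HH_le hb k l) i j).trans ?_
    rw [hKCe]
    have : L ^ 2 * C2 K ≤ L ^ 3 * C2 K := mul_le_mul_of_nonneg_right h23 hC0.le
    have h0 : 0 ≤ L ^ 3 * C2 K := by positivity
    linarith
  · intro b hb b' hb' r hr
    have h1 := D.t1 cP hb hb' (hrr b hb b' hb' r hr)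
    have e1 : ∑ j, (∑ k, M k j * GG q P y X b k) * (x b' j - x b j) =
        ∑ j, GG q P y X b j * (X b' j - X b j) := by
      simp only [hx b hb b' hb', Fin.sum_univ_three]; ring
    show |FF cP P y X b' - FF cP P y X b -
      ∑ j, (∑ k, M k j * GG q P y X b k) * (x b' j - x b j)| ≤ _
    rw [e1]
    refine h1.trans ?_
    have h2 : L ^ 2 * C2 K * r ^ 2 ≤ L ^ 3 * C2 K * r ^ 2 :=
      mul_le_mul_of_nonneg_right (mul_le_mul_of_nonneg_right h23 hC0.le) (sq_nonneg r)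
    have h3 : 1 * (C2 K * (1 / (H:ℝ))) ≤ L ^ 3 * (C2 K * (1 / H)) :=
      mul_le_mul_of_nonneg_right hL3 (by positivity)
    have h4 : 0 ≤ L ^ 3 * C2 K * r ^ 2 := by positivity
    have h5 : 0 ≤ L ^ 3 * (C2 K * (1 / (H:ℝ))) := by positivity
    rw [hKCe]
    have e2 : C2 K * ((3 * (L * r)) ^ 2 + 1 / H) = 9 * (L ^ 2 * C2 K * r ^ 2) +
        1 * (C2 K * (1 / H)) := by ring
    have e3 : 27 * (L ^ 3 * C2 K) * (r ^ 2 + 1 / H) = 27 * (L ^ 3 * C2 K * r ^ 2) +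
        27 * (L ^ 3 * (C2 K * (1 / H))) := by ring
    rw [e2, e3]
    linarith
  · intro b hb b' hb' r hr i
    have h1 := fun k => D.t2 hb hb' (hrr b hb b' hb' r hr) k
    have e1 : (∑ k, M k i * GG q P y X b' k) - (∑ k, M k i * GG q P y X b k) -
        ∑ j, (∑ k, ∑ l, M k i * M l j * HH q P y X b k l) * (x b' j - x b j) =
        ∑ k, M k i * (GG q P y X b' k - GG q P y X b k -
          ∑ j, HH q P y X b k j * (X b' j - X b j)) := by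
      simp only [hx b hb b' hb', Fin.sum_univ_three]; ring
    show |(∑ k, M k i * GG q P y X b' k) - (∑ k, M k i * GG q P y X b k) -
        ∑ j, (∑ k, ∑ l, M k i * M l j * HH q P y X b k l) * (x b' j - x b j)| ≤ _
    rw [e1]
    refine (mtdot_le hM h1 i).trans ?_
    have h3 : L * (C2 K * (1 / (H:ℝ))) ≤ L ^ 3 * (C2 K * (1 / H)) :=
      mul_le_mul_of_nonneg_right h13 (by positivity)
    have h5 : 0 ≤ L ^ 3 * (C2 K * (1 / (H:ℝ))) := by positivity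
    rw [hKCe]
    have e2 : 3 * (L * (C2 K * ((3 * (L * r)) ^ 2 + 1 / H))) = 27 * (L ^ 3 * C2 K * r ^ 2) +
        3 * (L * (C2 K * (1 / H))) := by ring
    have e3 : 27 * (L ^ 3 * C2 K) * (r ^ 2 + 1 / H) = 27 * (L ^ 3 * C2 K * r ^ 2) +
        27 * (L ^ 3 * (C2 K * (1 / H))) := by ring
    rw [e2, e3]
    linarith
  · intro b hb b' hb' r hr i j
    have h1 := fun k l => D.t3 hb hb' (hrr b hb b' hb' r hr) k l
    have e1 : (∑ k, ∑ l, M k i * M l j * HH q P y X b' k l) -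
        (∑ k, ∑ l, M k i * M l j * HH q P y X b k l) =
        ∑ k, ∑ l, M k i * M l j * (HH q P y X b' k l - HH q P y X b k l) := by
      simp only [Fin.sum_univ_three]; ring
    show |(∑ k, ∑ l, M k i * M l j * HH q P y X b' k l) -
        (∑ k, ∑ l, M k i * M l j * HH q P y X b k l)| ≤ _
    rw [e1]
    refine (mtm_le hM h1 i j).trans ?_
    have h3 : L ^ 2 * (C2 K * (1 / (H:ℝ))) ≤ L ^ 3 * (C2 K * (1 / H)) :=
      mul_le_mul_of_nonneg_right h23 (by positivity)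
    have h5 : 0 ≤ L ^ 3 * (C2 K * (1 / (H:ℝ))) := by positivity
    rw [hKCe]
    have e2 : 9 * (L ^ 2 * (C2 K * (3 * (L * r) + 1 / H))) = 27 * (L ^ 3 * C2 K * r) +
        9 * (L ^ 2 * (C2 K * (1 / H))) := by ring
    have e3 : 27 * (L ^ 3 * C2 K) * (r + 1 / H) = 27 * (L ^ 3 * C2 K * r) +
        27 * (L ^ 3 * (C2 K * (1 / H))) := by ring
    rw [e2, e3]
    linarith
  · exact hnd


section

variable {S : Plk4} {q' : ℝ → V3 → ℝ} {z0 ρ : ℝ} {T0 : Ln4} {σ s1 s2 r k0 μ Λ cq cP : ℝ}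
  {Jq JP : Jt}

/-- **count of the boxes of the sheet `S` at which `q'` is nondegenerate** (raw form: the chart is an
input) -/
theorem nd_count2 {K W w1 w2 l m β αq ε : ℝ} {H N : ℕ} (hO : Ortho S.e) (hw : ∀ k, 0 < S.w k)
    (hσ : σ ≠ 0) (hr : 0 < r) (hrW : 1 / r ≤ W) (hW : 1 ≤ W) (hk0 : k0 ≠ 0) (hΛ : 0 < Λ)
    (hH : 1 ≤ H) (hw1 : 0 < w1) (hw2 : 0 < w2) (d1 : S.w 1 ≤ W * w1 ∧ w1 ≤ W * S.w 1)
    (d2 : S.w 2 ≤ W * w2 ∧ w2 ≤ W * S.w 2) (hg1 : |gv S ρ T0 1| ≤ W) (hg2 : |gv S ρ T0 2| ≤ W)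
    (hq : ∀ ζ y u v, S.q (z0 + ρ * ζ) (cg (fr S.e S.w) T0 z0 ρ σ s1 s2 r ζ y u v) =
      k0 * (cq + ev Jq y ![ζ, u, v]))
    (hP : ∀ ζ y u v, q' (z0 + ρ * ζ) (cg (fr S.e S.w) T0 z0 ρ σ s1 s2 r ζ y u v) -
      μ * S.q (z0 + ρ * ζ) (cg (fr S.e S.w) T0 z0 ρ σ s1 s2 r ζ y u v) =
      Λ * (cP + ev JP y ![ζ, u, v]))
    (hK : 1 ≤ K) (bq : Bd Jq K) (sP : JP.Sym) (bPa : ∀ i, |JP.a i| ≤ K) (bPh : ∀ i j, |JP.h i j| ≤ K)
    (bP0 : |JP.a0| ≤ K * ε) (bP00 : |JP.h00| ≤ K * ε) (bPm : ∀ i, |JP.h0 i| ≤ K * ε)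
    (st : ∀ (y : ℝ) (x : Fin 3 → ℝ), |y| ≤ 1 → (∀ i, |x i| ≤ 1) → 0 ≤ x 0 →
      1 / K ≤ |(sh Jq y x).a0|)
    (T : Finset ((ℤ × ℤ) × ℕ)) (Tb : (ℤ × ℤ) × ℕ → Ln4) (yb ub vb : (ℤ × ℤ) × ℕ → ℝ)
    (hj : ∀ b ∈ T, b.2 ≤ H)
    (pt : ∀ b ∈ T, (Tb b).pos (zj z0 ρ H b.2) =
      cg (fr S.e S.w) T0 z0 ρ σ s1 s2 r ((b.2 : ℝ) / H) (yb b) (ub b) (vb b))
    (p1 : ∀ b ∈ T, |yb b| ≤ 1 ∧ |ub b| ≤ 1 ∧ |vb b| ≤ 1)
    (hαq : 0 < αq) (hαq1 : αq ≤ 1) (hε : 0 < ε) (hε1 : ε ≤ 1) (hεα : ε * αq ≤ 1 / H)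
    (on : ∀ b ∈ T, |S.q (zj z0 ρ H b.2) ((Tb b).pos (zj z0 ρ H b.2))| ≤ |k0| * (K * αq))
    (onP : ∀ b ∈ T, |q' (zj z0 ρ H b.2) ((Tb b).pos (zj z0 ρ H b.2)) -
      μ * S.q (zj z0 ρ H b.2) ((Tb b).pos (zj z0 ρ H b.2))| ≤ Λ * β)
    (lab : ∀ b ∈ T, gb S.e S.c w1 w2 z0 ρ H (Tb b) b.2 = b.1)
    (box : ∀ b ∈ T, ∀ k, |lc S.e S.c k (Tb b) (zj z0 ρ H b.2)| ≤ S.w k)
    (hl : 0 < l) (hm : 0 < m) (hm1 : m ≤ 1) (hβ : 1 / (H : ℝ) ≤ β) (hN1 : 1 ≤ N)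
    (hN : 5000 * (KC2 K (W ^ 3) * W ^ 3) ≤ 2 ^ N * √β)
    (nd : ∀ b ∈ T, Nd S q' z0 ρ H b.2 (Tb b) l m Λ) :
    (T.card : ℝ) ≤ 10 ^ 52 * N * (KC2 K (W ^ 3)) ^ 10 * W ^ 33 *
      (1 / (l / W) ^ 2 + 1 / (m / W ^ 4) ^ 5) * β * (H : ℝ) ^ 3 := by
  have hW0 : (0:ℝ) < W := by linarith
  have hHr : (0:ℝ) < H := by exact_mod_cast hH
  have hH1 : (1:ℝ) ≤ H := by exact_mod_cast hH
  have hS1 := hw 1
  have hS2 := hw 2
  have hW2 : W ≤ W ^ 2 := le_self_pow₀ hW (by norm_num)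
  have hW3 : W ≤ W ^ 3 := le_self_pow₀ hW (by norm_num)
  have hW13 : (1:ℝ) ≤ W ^ 3 := one_le_pow₀ hW
  have hW12 : (1:ℝ) ≤ W ^ 2 := one_le_pow₀ hW
  have hW23 : W ^ 2 ≤ W ^ 3 := pow_le_pow_right₀ hW (by norm_num)
  set X : (ℤ × ℤ) × ℕ → Fin 3 → ℝ := fun b => ![(b.2 : ℝ) / H, ub b, vb b] with hX
  set x : (ℤ × ℤ) × ℕ → Fin 3 → ℝ := fun b => ![(b.2 : ℝ) / H,
    lc S.e S.c 1 (Tb b) (zj z0 ρ H b.2) / w1, lc S.e S.c 2 (Tb b) (zj z0 ρ H b.2) / w2] with hx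
  have hζ : ∀ b ∈ T, 0 ≤ (b.2 : ℝ) / H ∧ (b.2 : ℝ) / H ≤ 1 := fun b hb => by
    refine ⟨by positivity, ?_⟩
    rw [div_le_one hHr]; exact_mod_cast hj b hb
  -- the diagonal
  have hD : ∀ j, 0 < dD S w1 w2 j ∧ dD S w1 w2 j ≤ W ∧ 1 / dD S w1 w2 j ≤ W := by
    intro j
    fin_cases j
    · refine ⟨by simp [dD], by simpa [dD] using hW, by simpa [dD] using hW⟩
    · show 0 < S.w 1 / w1 ∧ S.w 1 / w1 ≤ W ∧ 1 / (S.w 1 / w1) ≤ W
      refine ⟨by positivity, ?_, ?_⟩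
      · rw [div_le_iff₀ hw1]; exact d1.1
      · rw [one_div_div, div_le_iff₀ hS1]; exact d1.2
    · show 0 < S.w 2 / w2 ∧ S.w 2 / w2 ≤ W ∧ 1 / (S.w 2 / w2) ≤ W
      refine ⟨by positivity, ?_, ?_⟩
      · rw [div_le_iff₀ hw2]; exact d2.1
      · rw [one_div_div, div_le_iff₀ hS2]; exact d2.2
  have hNle : ∀ k j, |cN (gv S ρ T0) r k j| ≤ W ^ 2 := by
    have h1 : |1 / r| ≤ W ^ 2 := by
      rw [abs_of_pos (by positivity)]; linarith
    have h0 : |(0:ℝ)| ≤ W ^ 2 := by rw [abs_zero]; positivity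
    have h11 : |(1:ℝ)| ≤ W ^ 2 := by rw [abs_one]; exact hW12
    have hgr : ∀ g : ℝ, |g| ≤ W → |-g / r| ≤ W ^ 2 := fun g hg => by
      rw [abs_div, abs_neg, abs_of_pos hr, div_eq_mul_one_div, sq]
      exact mul_le_mul hg hrW (by positivity) hW0.le
    intro k j
    fin_cases k <;> fin_cases j
    · exact h11
    · exact h0
    · exact h0
    · exact hgr _ hg1
    · exact h1
    · exact h0
    · exact hgr _ hg2
    · exact h0
    · exact h1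
  have hM : ∀ k j, |cM S ρ T0 r w1 w2 k j| ≤ W ^ 3 := by
    intro k j
    obtain ⟨a1, a2, a3⟩ := hD j
    unfold cM
    rw [abs_div, abs_of_pos a1, div_eq_mul_one_div]
    calc |cN (gv S ρ T0) r k j| * (1 / dD S w1 w2 j) ≤ W ^ 2 * W :=
          mul_le_mul (hNle k j) a3 (by positivity) (by positivity)
      _ = W ^ 3 := by ring
  have DT : Data (T : Set ((ℤ × ℤ) × ℕ)) cq Jq (yp JP ε) yb X K αq :=
    { K1 := hK
      α0 := hαq
      α1 := hαq1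
      bq := bq
      bP := yp_bd hK hε bP0 bP00 bPm
      st := st
      y1 := fun b hb => (p1 b hb).1
      X1 := by
        intro b hb i
        fin_cases i
        · show |(b.2 : ℝ) / H| ≤ 1
          rw [abs_of_nonneg (hζ b hb).1]; exact (hζ b hb).2
        · exact (p1 b hb).2.1
        · exact (p1 b hb).2.2
      X0 := fun b hb => (hζ b hb).1
      on := by
        intro b hb
        have h1 := on b hb
        rw [pt b hb] at h1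
        have e0 : zj z0 ρ H b.2 = z0 + ρ * ((b.2 : ℝ) / H) := rfl
        rw [e0, hq, abs_mul] at h1
        exact le_of_mul_le_mul_left h1 (abs_pos.2 hk0) }
  have DM : DataM (T : Set ((ℤ × ℤ) × ℕ)) cq Jq JP yb X K (1 / H) αq ε :=
    { D := DT, ba := bPa, bh := bPh, s := sP, ε0 := hε, ε1 := hε1, εα := hεα }
  have hxX : ∀ b ∈ T, ∀ b' ∈ T, ∀ k, X b' k - X b k =
      ∑ j, cM S ρ T0 r w1 w2 k j * (x b' j - x b j) := by
    intro b hb b' hb' k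
    obtain ⟨e1, e2⟩ := lc_cg hO hw (pt b hb)
    obtain ⟨f1, f2⟩ := lc_cg hO hw (pt b' hb')
    rw [Fin.sum_univ_three]
    fin_cases k
    · show (b'.2 : ℝ) / H - (b.2 : ℝ) / H = 1 / 1 * ((b'.2 : ℝ) / H - (b.2 : ℝ) / H) +
        0 / (S.w 1 / w1) * _ + 0 / (S.w 2 / w2) * _
      ring
    · show ub b' - ub b = (-gv S ρ T0 1 / r) / 1 * ((b'.2 : ℝ) / H - (b.2 : ℝ) / H) +
        (1 / r) / (S.w 1 / w1) * (lc S.e S.c 1 (Tb b') (zj z0 ρ H b'.2) / w1 -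
          lc S.e S.c 1 (Tb b) (zj z0 ρ H b.2) / w1) + 0 / (S.w 2 / w2) * _
      rw [e1, f1]
      field_simp
      ring
    · show vb b' - vb b = (-gv S ρ T0 2 / r) / 1 * ((b'.2 : ℝ) / H - (b.2 : ℝ) / H) +
        0 / (S.w 1 / w1) * _ + (1 / r) / (S.w 2 / w2) *
          (lc S.e S.c 2 (Tb b') (zj z0 ρ H b'.2) / w2 -
          lc S.e S.c 2 (Tb b) (zj z0 ρ H b.2) / w2)
      rw [e2, f2]
      field_simp
      ring
  have hl' : 0 < l / W := by positivity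
  have hm' : 0 < m / W ^ 4 := by positivity
  have hm1' : m / W ^ 4 ≤ 1 := by
    rw [div_le_one (by positivity)]
    exact hm1.trans (one_le_pow₀ hW)
  refine count_chg2 (cP := cP) hH DM (M := cM S ρ T0 r w1 w2) hW13 hM hW x hxX ?_ ?_ ?_ ?_ hl' hm'
    hm1' hβ hN1 hN ?_ ?_
  · intro b hb; rfl
  · intro b hb
    have h1 := lab b hb
    unfold gb at h1
    have h2 := congrArg Prod.fst h1
    simp only at h2
    show ⌊(H : ℝ) * (lc S.e S.c 1 (Tb b) (zj z0 ρ H b.2) / w1)⌋ = b.1.1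
    rw [← mul_div_assoc]; exact h2
  · intro b hb
    have h1 := lab b hb
    unfold gb at h1
    have h2 := congrArg Prod.snd h1
    simp only at h2
    show ⌊(H : ℝ) * (lc S.e S.c 2 (Tb b) (zj z0 ρ H b.2) / w2)⌋ = b.1.2
    rw [← mul_div_assoc]; exact h2
  · intro b hb i
    fin_cases i
    · show |(b.2 : ℝ) / H| ≤ W
      rw [abs_of_nonneg (hζ b hb).1]; exact (hζ b hb).2.trans hW
    · show |lc S.e S.c 1 (Tb b) (zj z0 ρ H b.2) / w1| ≤ W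
      rw [abs_div, abs_of_pos hw1, div_le_iff₀ hw1]
      exact (box b hb 1).trans d1.1
    · show |lc S.e S.c 2 (Tb b) (zj z0 ρ H b.2) / w2| ≤ W
      rw [abs_div, abs_of_pos hw2, div_le_iff₀ hw2]
      exact (box b hb 2).trans d2.1
  · intro b hb
    have h1 := onP b hb
    rw [pt b hb] at h1
    have e0 : zj z0 ρ H b.2 = z0 + ρ * ((b.2 : ℝ) / H) := rfl
    rw [e0, hP, abs_mul, abs_of_pos hΛ] at h1
    exact le_of_mul_le_mul_left h1 hΛ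
  · intro b hb
    have hXv : X b = ![(b.2 : ℝ) / H, ub b, vb b] := rfl
    have h0 : (sh Jq (yb b) ![(b.2 : ℝ) / H, ub b, vb b]).a0 ≠ 0 := by
      have h1 := DT.st5 hb
      rw [hXv] at h1
      have h2 : 0 < |(sh Jq (yb b) ![(b.2 : ℝ) / H, ub b, vb b]).a0| :=
        lt_of_lt_of_le (by positivity) h1
      exact abs_pos.1 h2
    obtain ⟨g1, g2⟩ := tg_th hO hw hσ hr.ne' hk0 hq hP bq.s sP (pt b hb) h0
    have eG : ∀ i, ∑ k, cM S ρ T0 r w1 w2 k i * GG Jq JP yb X b k =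
        tg (jS S S.q z0 ρ H b.2 (Tb b)) (jS S q' z0 ρ H b.2 (Tb b)) i / (Λ * dD S w1 w2 i) := by
      intro i
      have hd := (hD i).1.ne'
      rw [g1 i]
      unfold GG cM
      rw [hXv]
      simp only [Fin.sum_univ_three]
      field_simp
    have eH : ∀ i i', ∑ k, ∑ l, cM S ρ T0 r w1 w2 k i * cM S ρ T0 r w1 w2 l i' *
        HH Jq JP yb X b k l =
        th (jS S S.q z0 ρ H b.2 (Tb b)) (jS S q' z0 ρ H b.2 (Tb b)) i i' /
          (Λ * (dD S w1 w2 i * dD S w1 w2 i')) := by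
      intro i i'
      have hd := (hD i).1.ne'
      have hd' := (hD i').1.ne'
      rw [g2 i i']
      unfold HH cM
      rw [hXv]
      simp only [Fin.sum_univ_three]
      field_simp
    rcases nd b hb with ⟨i, hi⟩ | ⟨i, j, k, k', hi⟩
    · left
      refine ⟨i, ?_⟩
      rw [eG i]
      obtain ⟨a1, a2, a3⟩ := hD i
      rw [abs_div, abs_of_pos (mul_pos hΛ a1), le_div_iff₀ (mul_pos hΛ a1)]
      have e1 : l / W * (Λ * dD S w1 w2 i) ≤ l / W * (Λ * W) :=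
        mul_le_mul_of_nonneg_left (mul_le_mul_of_nonneg_left a2 hΛ.le) hl'.le
      have e2 : l / W * (Λ * W) = l * Λ := by field_simp
      linarith
    · right
      refine ⟨i, j, k, k', ?_⟩
      have hdi := hD i
      have hdj := hD j
      have hdk := hD k
      have hdk' := hD k'
      have e3 : mn (fun i j => ∑ k, ∑ l, cM S ρ T0 r w1 w2 k i * cM S ρ T0 r w1 w2 l j *
          HH Jq JP yb X b k l) i j k k' =
          mn (th (jS S S.q z0 ρ H b.2 (Tb b)) (jS S q' z0 ρ H b.2 (Tb b))) i j k k' /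
            (Λ ^ 2 * ((dD S w1 w2 i * dD S w1 w2 j) * (dD S w1 w2 k * dD S w1 w2 k'))) := by
        unfold mn
        simp only [eH]
        have n1 := hdi.1.ne'
        have n2 := hdj.1.ne'
        have n3 := hdk.1.ne'
        have n4 := hdk'.1.ne'
        field_simp
      rw [e3]
      have hp : 0 < (dD S w1 w2 i * dD S w1 w2 j) * (dD S w1 w2 k * dD S w1 w2 k') :=
        mul_pos (mul_pos hdi.1 hdj.1) (mul_pos hdk.1 hdk'.1)
      have hp2 : 0 < Λ ^ 2 * ((dD S w1 w2 i * dD S w1 w2 j) * (dD S w1 w2 k * dD S w1 w2 k')) :=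
        by positivity
      rw [abs_div, abs_of_pos hp2, le_div_iff₀ hp2]
      have hle : (dD S w1 w2 i * dD S w1 w2 j) * (dD S w1 w2 k * dD S w1 w2 k') ≤ (W * W) * (W * W) :=
        mul_le_mul (mul_le_mul hdi.2.1 hdj.2.1 hdj.1.le hW0.le)
          (mul_le_mul hdk.2.1 hdk'.2.1 hdk'.1.le hW0.le) (mul_pos hdk.1 hdk'.1).le
          (by positivity)
      have e1 : m / W ^ 4 * (Λ ^ 2 * ((dD S w1 w2 i * dD S w1 w2 j) *
          (dD S w1 w2 k * dD S w1 w2 k'))) ≤ m / W ^ 4 * (Λ ^ 2 * ((W * W) * (W * W))) :=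
        mul_le_mul_of_nonneg_left (mul_le_mul_of_nonneg_left hle (by positivity)) hm'.le
      have e2 : m / W ^ 4 * (Λ ^ 2 * ((W * W) * (W * W))) = m * Λ ^ 2 := by field_simp
      linarith

end

end Crest.Agent.R136.Nmx501
end

-- ▼ part R136/NdD_325

/-!
# R136 (S0187), PLAN 2, mixed curvatures: the two inputs of `NdMx` (helper325)

* `ChM`, `ChartMx` : chart of the flat sheet `V` around one common line, `U.q` in this chart;
* `NdPt` : nondegeneracy at every common incidence;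
-/

set_option autoImplicit false
set_option linter.unusedVariables false

open Finset

namespace Crest.Agent.R136.Ndw325

open Crest.Agent.R136.Rk601 Crest.Agent.R136.Sh605
open Crest.Agent.R136.Tl102 (cmb fr)
open Crest.Agent.R136.K4 (Plk4)
open Crest.Agent.R136.Tlt51 (Shp InP)
open Crest.Agent.R136.KapP335 (kapP DetP)
open Crest.Agent.R136.Pl2W102 (Near)
open Crest.Agent.R136.Pl2 (kp Al1)
open Crest.Agent.R136.Hcp208 (Dims)
open Crest.Agent.R136.Gbx862 (zj gb lc zj_mem)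
open Crest.Agent.R136.AlD601 (Nd jS)
open Crest.Agent.R136.Adp876
open Crest.Agent.R136.Bl5667 (shp_pos kp_nonneg)

/-- **chart of `V` around `T0`** and `q'` in this chart -/
structure ChM (K : ℝ) (V : Plk4) (q' : ℝ → V3 → ℝ) (T0 : Ln4) (z0 ρ Y a σ s1 s2 rr k0 μ Λ cq cP ε
    αq : ℝ) (Jq JP : Jt) : Prop where
  σ0 : σ ≠ 0
  r0 : 0 < rr
  rK : 1 / rr ≤ K
  kk0 : k0 ≠ 0
  Λ0 : 0 < Λ
  ΛY : Λ ≤ K * Y
  YΛ : Y ≤ K * Λ
  μa : |μ| * V.a ≤ K * a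
  hq : ∀ ζ y u v, V.q (z0 + ρ * ζ) (cg (fr V.e V.w) T0 z0 ρ σ s1 s2 rr ζ y u v) =
    k0 * (cq + ev Jq y ![ζ, u, v])
  hP : ∀ ζ y u v, q' (z0 + ρ * ζ) (cg (fr V.e V.w) T0 z0 ρ σ s1 s2 rr ζ y u v) -
    μ * V.q (z0 + ρ * ζ) (cg (fr V.e V.w) T0 z0 ρ σ s1 s2 rr ζ y u v) =
    Λ * (cP + ev JP y ![ζ, u, v])
  bq : Bd Jq K
  sP : JP.Sym
  bPa : ∀ i, |JP.a i| ≤ K
  bPh : ∀ i j, |JP.h i j| ≤ K
  bP0 : |JP.a0| ≤ K * ε
  bP00 : |JP.h00| ≤ K * ε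
  bPm : ∀ i, |JP.h0 i| ≤ K * ε
  st : ∀ (y : ℝ) (x : Fin 3 → ℝ), |y| ≤ 1 → (∀ i, |x i| ≤ 1) → 0 ≤ x 0 →
    1 / K ≤ |(sh Jq y x).a0|
  α0 : 0 < αq
  α1 : αq ≤ 1
  ε0 : 0 < ε
  ε1 : ε ≤ 1
  εα : ε * αq * Y ≤ K * a
  on : V.a ≤ |k0| * (K * αq)
  pt : ∀ T : Ln4, InP T V z0 ρ → (∀ z, z0 ≤ z → z ≤ z0 + ρ → ∀ k : Fin 3,
      |dt (V.e k) (T.pos z - T0.pos z)| ≤ V.w k / K) →
    ∀ ζ, 0 ≤ ζ → ζ ≤ 1 → ∃ y u v : ℝ, |y| ≤ 1 ∧ |u| ≤ 1 ∧ |v| ≤ 1 ∧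
      T.pos (z0 + ρ * ζ) = cg (fr V.e V.w) T0 z0 ρ σ s1 s2 rr ζ y u v

/-- **chart** (44 / 501, 84 / 296) -/
def ChartMx : Prop := ∃ C : ℝ, 1 ≤ C ∧
  ∀ (W Y a w1 w2 z0 ρ r : ℝ) (U V : Plk4) (T0 : Ln4),
    1 ≤ W → 0 < r → 0 < ρ → r ≤ ρ → 0 < a → Shp U z0 ρ r → Shp V z0 ρ r →
    InP T0 U z0 ρ → InP T0 V z0 ρ → Dims W a w1 w2 U → Dims W a w1 w2 V →
    Al1 W U V T0 a w1 w2 z0 ρ → DetP W⁻¹ U z0 ρ T0 → Near 4 Y (kp U z0 ρ T0) →
    (2 * W) ^ C * kp V z0 ρ T0 ≤ Y → (2 * W) ^ C * a ≤ Y →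
    ∃ (σ s1 s2 rr k0 μ Λ cq cP ε αq : ℝ) (Jq JP : Jt),
      ChM ((2 * W) ^ C) V U.q T0 z0 ρ Y a σ s1 s2 rr k0 μ Λ cq cP ε αq Jq JP

/-- **nondegeneracy at the incidences** (615) -/
def NdPt : Prop := ∃ C : ℝ, 1 ≤ C ∧
  ∀ (W Y a w1 w2 z0 ρ r : ℝ) (U V : Plk4) (T : Ln4) (H j : ℕ),
    1 ≤ W → 0 < r → 0 < ρ → r ≤ ρ → 0 < a → Shp U z0 ρ r → Shp V z0 ρ r →
    InP T U z0 ρ → InP T V z0 ρ → Dims W a w1 w2 U → Dims W a w1 w2 V →
    Al1 W U V T a w1 w2 z0 ρ → DetP W⁻¹ U z0 ρ T → Near 4 Y (kp U z0 ρ T) →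
    (2 * W) ^ C * kp V z0 ρ T ≤ Y → (2 * W) ^ C * a ≤ Y → 1 ≤ H → j ≤ H →
    Nd V U.q z0 ρ H j T ((2 * W) ^ C)⁻¹ ((2 * W) ^ C)⁻¹ Y

end Crest.Agent.R136.Ndw325
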