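import Crest.Agent.R136.Ndc_876
import Crest.Agent.R136.AdjB_214
import Crest.Agent.R136.Coi1_102
import Crest.Agent.R136.Tlt0_51
import Crest.Agent.R136.Mxd_615
import Crest.Agent.R136.NdD_325
import Crest.Agent.R136.Pl2C_860
import Crest.Agent.R136.Gbx_862
import Crest.Agent.R136.Bl5_667
import Crest.Agent.R136.Cod_501
import Crest.Agent.R136.Hcp2_208

-- ▼ part R136/Nmx2_44
section

/-!
# R136 (S0187), PLAN 2 (AL) (A), NdMx: the chart of a flat base around one of its lines (helper44)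

`cF S z0 ρ T` : chart of the plank `S` around its line `T`, thickness in units of
`kk = (kapP + 10^5 a) / 256`; no lower bound on the curvature extent `kapP` is needed.
`chartF` : the sheet function in the chart; `pointF`, `lineF` : points of the box and lines of the
sheet near `T` are chart points; `surfF` : points of the surface `q = 0` at the height `z0`.
-/

set_option autoImplicit false

namespace Crest.Agent.R136.Nmx44

open Crest.Agent.R136.Sh605 Crest.Agent.R136.Tl102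
open Crest.Agent.R136.K4 (Plk4)
open Crest.Agent.R136.Tlt51 (Shp InP)
open Crest.Agent.R136.KapP335 (expP kapP expP_spec)
open Crest.Agent.R136.Rk601 (Jt)
open Crest.Agent.R136.Adp876 (ev sh Bd cg gv)
open Crest.Agent.R136.Adj214 (jc theta theta_le abs2)

/-- thickness unit of the chart, in units of `w 0 / 256` -/
noncomputable def kF (S : Plk4) (z0 ρ : ℝ) (T : Ln4) : ℝ :=
  kap (expP S z0 ρ T).1 (expP S z0 ρ T).2.1 (expP S z0 ρ T).2.2 + 10 ^ 5 * S.a / S.w 0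

/-- thickness unit of the chart, a length -/
noncomputable def kk (S : Plk4) (z0 ρ : ℝ) (T : Ln4) : ℝ := (kapP S z0 ρ T + 10 ^ 5 * S.a) / 256

/-- slopes of the tangent plane at `T z0` -/
noncomputable def sF (S : Plk4) (z0 ρ : ℝ) (T : Ln4) (k : Fin 3) : ℝ :=
  (expP S z0 ρ T).1 k / (expP S z0 ρ T).1 0

/-- chart of `S` around its line `T` -/
noncomputable def cF (S : Plk4) (z0 ρ : ℝ) (T : Ln4) (ζ y u v : ℝ) : V3 :=
  cg (fr S.e S.w) T z0 ρ (kF S z0 ρ T / 256) (sF S z0 ρ T 1) (sF S z0 ρ T 2) (1 / 256) ζ y u v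

/-- tangent vectors of the chart -/
noncomputable def dF (S : Plk4) (z0 ρ : ℝ) (T : Ln4) (k : Fin 3) : V3 :=
  (1 / 256 : ℝ) • (S.w k • S.e k - (sF S z0 ρ T k * S.w 0) • S.e 0)

section
variable {S : Plk4} {z0 ρ r0 : ℝ} {T : Ln4}

theorem a_pos (hr : 0 < r0) (h : Shp S z0 ρ r0) : 0 < S.a := hr.trans_le h.r0_le

theorem w0_pos (hr : 0 < r0) (h : Shp S z0 ρ r0) : 0 < S.w 0 := (a_pos hr h).trans_le h.a_le0

theorem kk_eq (hr : 0 < r0) (h : Shp S z0 ρ r0) (T : Ln4) :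
    kk S z0 ρ T = kF S z0 ρ T / 256 * S.w 0 := by
  have := (w0_pos hr h).ne'
  unfold kk kF kapP
  field_simp

theorem kk_ge (hr : 0 < r0) (h : Shp S z0 ρ r0) (T : Ln4) : 390 * S.a ≤ kk S z0 ρ T := by
  have h1 := a_pos hr h
  have h2 : 0 ≤ kapP S z0 ρ T := mul_nonneg (w0_pos hr h).le (kap_nonneg _ _ _)
  unfold kk
  linarith


theorem kk_pos (hr : 0 < r0) (h : Shp S z0 ρ r0) (T : Ln4) : 0 < kk S z0 ρ T := by
  have h1 := a_pos hr h
  have := kk_ge hr h T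
  linarith

theorem kF_pos (hr : 0 < r0) (h : Shp S z0 ρ r0) (T : Ln4) : 0 < kF S z0 ρ T := by
  have h1 := a_pos hr h
  have h2 := w0_pos hr h
  have h3 : 0 < 10 ^ 5 * S.a / S.w 0 := by positivity
  have h4 := kap_nonneg (expP S z0 ρ T).1 (expP S z0 ρ T).2.1 (expP S z0 ρ T).2.2
  unfold kF
  linarith

theorem bd_mono {J : Jt} {K K' : ℝ} (h : Bd J K) (hK : K ≤ K') : Bd J K' where
  a0 := h.a0.trans hK
  a := fun i => (h.a i).trans hK
  h00 := h.h00.trans hK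
  h0 := fun i => (h.h0 i).trans hK
  h := fun i j => (h.h i j).trans hK
  s := h.s

theorem cF_eq (hr : 0 < r0) (h : Shp S z0 ρ r0) (T : Ln4) (ζ y u v : ℝ) :
    cF S z0 ρ T ζ y u v = T.pos (z0 + ρ * ζ) + (kk S z0 ρ T * y) • S.e 0 +
      u • dF S z0 ρ T 1 + v • dF S z0 ρ T 2 := by
  rw [kk_eq hr h]
  funext i
  simp only [cF, cg, cmb, fr, dF, Pi.add_apply, Pi.sub_apply, Pi.smul_apply, smul_eq_mul,
    Matrix.cons_val]
  ring

theorem nrm (hr : 0 < r0) (hρ : 0 ≤ ρ) (h : Shp S z0 ρ r0) (hT : InP T S z0 ρ) :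
    NrmC (expP S z0 ρ T).1 (expP S z0 ρ T).2.1 (expP S z0 ρ T).2.2 :=
  (expP_spec h.isQ (w0_pos hr h).ne' z0 ρ T).nrmC (StP.of_shN h (w0_pos hr h)) hρ
    fun z h1 h2 => (hT z h1 h2).1

theorem sF_le (hr : 0 < r0) (hρ : 0 ≤ ρ) (h : Shp S z0 ρ r0) (hT : InP T S z0 ρ) :
    |sF S z0 ρ T 1| ≤ 2 ∧ |sF S z0 ρ T 2| ≤ 2 := by
  obtain ⟨-, -, -, -, -, -, -, s1, s2⟩ := (nrm hr hρ h hT).b1_le
  exact ⟨s1, s2⟩

theorem kF_le (hr : 0 < r0) (hρ : 0 ≤ ρ) (h : Shp S z0 ρ r0) (hT : InP T S z0 ρ)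
    (hk : 10 ^ 6 * S.a ≤ S.w 0) : kF S z0 ρ T ≤ 14 := by
  have h1 := kap_le (nrm hr hρ h hT)
  have hw := w0_pos hr h
  have h2 : 10 ^ 5 * S.a / S.w 0 ≤ 1 := by
    rw [div_le_one hw]
    have := a_pos hr h
    linarith
  unfold kF
  linarith


theorem sc_bd {b0 b1 : V3} {G : QF} {κ : ℝ} (N : NrmC b0 b1 G) (hκ : 0 < κ)
    (hk : kap b0 b1 G ≤ κ) (hκ1 : κ ≤ 14) : |scB1 κ b0 b1 1| ≤ 1 ∧ |scB1 κ b0 b1 2| ≤ 1 ∧
      |(scG κ b0 G).yy| ≤ 14 ∧ |(scG κ b0 G).yu| ≤ 5 ∧ |(scG κ b0 G).yv| ≤ 5 ∧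
      |(scG κ b0 G).uu| ≤ 1 ∧ |(scG κ b0 G).uv| ≤ 1 ∧ |(scG κ b0 G).vv| ≤ 1 := by
  obtain ⟨h1, h2, h3, h4, h5, h6, h7⟩ := N.sh_le
  obtain ⟨m1, -⟩ := N.G_le
  have d : ∀ x, |x| ≤ kap b0 b1 G → |x / κ| ≤ 1 := by
    intro x hx
    rw [abs_div, abs_of_pos hκ, div_le_one hκ]; exact hx.trans hk
  refine ⟨d _ ((le_max_left _ _).trans (le_max_left _ _)),
    d _ ((le_max_right _ _).trans (le_max_left _ _)), ?_, h3, h4,
    d _ ((le_max_left _ _).trans ((le_max_left _ _).trans (le_max_right _ _))),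
    d _ ((le_max_right _ _).trans ((le_max_left _ _).trans (le_max_right _ _))),
    d _ ((le_max_right _ _).trans (le_max_right _ _))⟩
  change |κ * G.yy| ≤ 14
  have := mul_abs_le (abs_le.2 ⟨by linarith, hκ1⟩ : |κ| ≤ 14) m1
  linarith

/-- **the sheet function in the chart** -/
theorem chartF (hr : 0 < r0) (hρ : 0 ≤ ρ) (h : Shp S z0 ρ r0) (hT : InP T S z0 ρ)
    (hk : 10 ^ 6 * S.a ≤ S.w 0) : ∃ (cq : ℝ) (Jq : Jt), |cq| ≤ 1 / 390 ∧ Bd Jq 2 ∧
      (∀ ζ y u v, S.q (z0 + ρ * ζ) (cF S z0 ρ T ζ y u v) =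
        kk S z0 ρ T * (cq + ev Jq y ![ζ, u, v])) ∧
      (∀ (y : ℝ) (x : Fin 3 → ℝ), |y| ≤ 1 → (∀ i, |x i| ≤ 1) → 0 ≤ x 0 →
        1 / 2 ≤ |(sh Jq y x).a0|) ∧
      (∀ (y : ℝ) (x : Fin 3 → ℝ), |y| ≤ 1 → (∀ i, |x i| ≤ 1) → 0 ≤ x 0 →
        1 / 2 ≤ (sh Jq y x).a0) ∧ |Jq.h 1 1| ≤ 1 / 128 ∧ |Jq.h 2 2| ≤ 1 / 128 ∧
      |Jq.h 1 2| ≤ 1 / 256 ∧ Jq.a 1 = 0 ∧ Jq.a 2 = 0 := by
  have hw0 := w0_pos hr h
  have ha := a_pos hr h
  have N := nrm hr hρ h hT
  have hE := expP_spec h.isQ hw0.ne' z0 ρ T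
  have hκ0 := kF_pos hr h T
  have hκ14 := kF_le hr hρ h hT hk
  have hkk := kk_eq hr h T
  have hkp := kk_pos hr h T
  have hge := kk_ge hr h T
  have hkap : kap (expP S z0 ρ T).1 (expP S z0 ρ T).2.1 (expP S z0 ρ T).2.2 ≤ kF S z0 ρ T := by
    unfold kF
    have : 0 < 10 ^ 5 * S.a / S.w 0 := by positivity
    linarith
  set b0 := (expP S z0 ρ T).1 with hb0
  set b1 := (expP S z0 ρ T).2.1 with hb1
  set G := (expP S z0 ρ T).2.2 with hG
  set κ := kF S z0 ρ T with hκdef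
  set k0 := kk S z0 ρ T with hk0def
  obtain ⟨g1, g2, -, -, g3, -, -, s1, s2⟩ := N.b1_le
  obtain ⟨k1, k2, k3, k4, k5, k6, k7, k8⟩ := sc_bd N hκ0 hkap hκ14
  obtain ⟨θ0, θ1, θ2, hθ⟩ := theta h.isQ T z0 ρ
  have hb : b0 0 ≠ 0 := by linarith
  -- size of the `θ`
  obtain ⟨t0, t1, t2⟩ := theta_le (θ0 := θ0 / k0) (θ1 := θ1 / k0) (θ2 := θ2 / k0) (B := 1 / 390)
    (fun ζ h1 h2 => by
      have h3 := (hT (z0 + ρ * ζ) (by nlinarith) (by nlinarith)).2
      rw [hθ] at h3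
      have e : θ0 / k0 + θ1 / k0 * ζ + θ2 / k0 * ζ ^ 2 = (θ0 + θ1 * ζ + θ2 * ζ ^ 2) / k0 := by
        ring
      rw [e, abs_div, abs_of_pos hkp, div_le_iff₀ hkp]
      linarith)
  have half : ∀ {x B : ℝ}, |x| ≤ B → |1 / 256 * x| ≤ 1 / 256 * B := fun hx =>
    abs2 (by norm_num : |(1 / 256 : ℝ)| ≤ 1 / 256) hx
  have two : ∀ {x B : ℝ}, |x| ≤ B → |2 * x| ≤ 2 * B := fun hx =>
    abs2 (by norm_num : |(2 : ℝ)| ≤ 2) hx
  have hst : ∀ (y : ℝ) (x : Fin 3 → ℝ), |y| ≤ 1 → (∀ i, |x i| ≤ 1) → 0 ≤ x 0 →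
      1 / 2 ≤ (sh (jc b0 b1 G κ (θ1 / k0) (θ2 / k0)) y x).a0 := by
    intro y x hy hx hx0
    have eyu : (scG κ b0 G).yu = G.yu - 2 * (b0 1 / b0 0) * G.yy := rfl
    have eyv : (scG κ b0 G).yv = G.yv - 2 * (b0 2 / b0 0) * G.yy := rfl
    have eyy : (scG κ b0 G).yy = κ * G.yy := rfl
    have hk14 : |κ| ≤ 14 := by rw [abs_of_pos hκ0]; exact hκ14
    have hσ : |2 * (1 / 256 * (κ * y)) + -(2 * (1 / 256 * (b0 1 / b0 0 * x 1))) +
        -(2 * (1 / 256 * (b0 2 / b0 0 * x 2)))| ≤ 1 := by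
      refine (abs_add_le _ _).trans ((add_le_add (abs_add_le _ _) le_rfl).trans ?_)
      rw [abs_neg, abs_neg]
      have a1 := two (half (abs2 hk14 hy))
      have a2 := two (half (abs2 s1 (hx 1)))
      have a3 := two (half (abs2 s2 (hx 2)))
      linarith
    have hu' : |1 / 256 * x 1| ≤ 1 := (half (hx 1)).trans (by norm_num)
    have hv' : |1 / 256 * x 2| ≤ 1 := (half (hx 2)).trans (by norm_num)
    have := (N.st (x 0) hx0 ((le_abs_self _).trans (hx 0)) _ _ _ hσ hu' hv').1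
    have e : (sh (jc b0 b1 G κ (θ1 / k0) (θ2 / k0)) y x).a0 =
        b0 0 + x 0 * b1 0 + G.yy * (2 * (1 / 256 * (κ * y)) +
        -(2 * (1 / 256 * (b0 1 / b0 0 * x 1))) + -(2 * (1 / 256 * (b0 2 / b0 0 * x 2)))) +
        G.yu * (1 / 256 * x 1) + G.yv * (1 / 256 * x 2) := by
      simp only [jc, sh, Fin.sum_univ_three, Matrix.cons_val, eyu, eyv, eyy]
      ring
    rw [e]
    exact this
  refine ⟨θ0 / k0, jc b0 b1 G κ (θ1 / k0) (θ2 / k0), t0, ?_, ?_,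
    fun y x hy hx hx0 => (hst y x hy hx hx0).trans (le_abs_self _), hst, ?_, ?_, ?_, rfl, rfl⟩
  · refine ⟨?_, ?_, ?_, ?_, ?_, ?_⟩
    · show |b0 0| ≤ 2
      rw [abs_le]; constructor <;> linarith
    · intro i
      fin_cases i
      · exact t1.trans (by norm_num)
      · show |(0:ℝ)| ≤ 2
        norm_num
      · show |(0:ℝ)| ≤ 2
        norm_num
    · exact (two (half k3)).trans (by norm_num)
    · intro i
      fin_cases i
      · exact g3.trans (by norm_num)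
      · exact (half k4).trans (by norm_num)
      · exact (half k5).trans (by norm_num)
    · intro i j
      fin_cases i <;> fin_cases j
      · exact (two t2).trans (by norm_num)
      · exact k1.trans (by norm_num)
      · exact k2.trans (by norm_num)
      · exact k1.trans (by norm_num)
      · exact (two (half k6)).trans (by norm_num)
      · exact (half k7).trans (by norm_num)
      · exact k2.trans (by norm_num)
      · exact (half k7).trans (by norm_num)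
      · exact (two (half k8)).trans (by norm_num)
    · intro i j
      fin_cases i <;> fin_cases j <;> rfl
  · intro ζ y u v
    have e1 : cF S z0 ρ T ζ y u v = T.pos (z0 + ρ * ζ) +
        cmb (fr S.e S.w) (unsh b0 (κ * (1 / 256 * y)) (1 / 256 * u) (1 / 256 * v)) := by
      unfold cF cg unsh sF
      congr 2
      have e0 : kF S z0 ρ T / 256 * y - (expP S z0 ρ T).1 1 / (expP S z0 ρ T).1 0 * (1 / 256 * u) -
          (expP S z0 ρ T).1 2 / (expP S z0 ρ T).1 0 * (1 / 256 * v) =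
          κ * (1 / 256 * y) - b0 1 / b0 0 * (1 / 256 * u) - b0 2 / b0 0 * (1 / 256 * v) := by
        rw [← hb0, ← hκdef]; ring
      rw [e0]
    rw [e1, hE, hθ, Fq_scaled hb hκ0.ne', hkk]
    have hk00 : κ / 256 * S.w 0 ≠ 0 := by rw [← hkk]; exact hkp.ne'
    simp only [ev, jc, Fin.sum_univ_three, Matrix.cons_val, Fq, Sh605.dt, bz, QF.ev, shB0]
    have e0 : scB1 κ b0 b1 0 = b1 0 := rfl
    rw [e0]
    field_simp
    ring
  · exact (two (half k6)).trans (by norm_num)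
  · exact (two (half k8)).trans (by norm_num)
  · exact (half k7).trans (by norm_num)

end

end Crest.Agent.R136.Nmx44
end

-- ▼ part R136/Nmx2b_44
section

/-!
# R136 (S0187), PLAN 2 (AL) (A), NdMx: points of the chart of a flat base (helper44)
-/

set_option autoImplicit false

namespace Crest.Agent.R136.Nmx44

open Crest.Agent.R136.Sh605 Crest.Agent.R136.Tl102
open Crest.Agent.R136.K4 (Plk4)
open Crest.Agent.R136.Tlt51 (Shp InP)
open Crest.Agent.R136.KapP335 (expP kapP expP_spec)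
open Crest.Agent.R136.Rk601 (Jt)
open Crest.Agent.R136.Adp876 (ev sh Bd cg gv)

section
variable {S : Plk4} {z0 ρ r0 : ℝ} {T : Ln4}

/-- **points of the box near `T` are chart points** -/
theorem pointF (hr : 0 < r0) (hρ : 0 ≤ ρ) (h : Shp S z0 ρ r0) (hT : InP T S z0 ρ)
    {ζ : ℝ} (z1 : 0 ≤ ζ) (z2 : ζ ≤ 1) {X : V3} (hX : InK S.e S.c (dbl3 S.w) (z0 + ρ * ζ) X)
    {δ : ℝ} (hδ : δ ≤ 1 / 8) (h1 : |dt (S.e 1) (X - T.pos (z0 + ρ * ζ))| ≤ δ * S.w 1)
    (h2 : |dt (S.e 2) (X - T.pos (z0 + ρ * ζ))| ≤ δ * S.w 2) :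
    ∃ y u v, X = cF S z0 ρ T ζ y u v ∧
      |y| ≤ 2 * (|S.q (z0 + ρ * ζ) X| + S.a) / kk S z0 ρ T + 1280 * δ ∧
      |u| ≤ 256 * δ ∧ |v| ≤ 256 * δ := by
  have hw0 := w0_pos hr h
  have SP := StP.of_shN h hw0
  have N := nrm hr hρ h hT
  have hE := expP_spec h.isQ hw0.ne' z0 ρ T
  have hκ0 := kF_pos hr h T
  have hkk := kk_eq hr h T
  have hkp := kk_pos hr h T
  have hw1 := SP.pos 1
  have hw2 := SP.pos 2
  have hwne : ∀ i, S.w i ≠ 0 := fun i => (SP.pos i).ne'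
  set b0 := (expP S z0 ρ T).1 with hb0
  set b1 := (expP S z0 ρ T).2.1 with hb1
  set G := (expP S z0 ρ T).2.2 with hG
  set κ := kF S z0 ρ T with hκdef
  set z := z0 + ρ * ζ with hz
  set x := pc S.e S.w T z X with hx
  have c1 : |x 1| ≤ δ := by
    rw [hx]; unfold pc
    rw [abs_div, abs_of_pos hw1, div_le_iff₀ hw1]; exact h1
  have c2 : |x 2| ≤ δ := by
    rw [hx]; unfold pc
    rw [abs_div, abs_of_pos hw2, div_le_iff₀ hw2]; exact h2
  have hδ0 : 0 ≤ δ := (abs_nonneg _).trans c1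
  have hy := yc_le2 SP hρ (fun z h1 h2 => (hT z h1 h2).1) hE z1 z2 hX hδ c1 c2
  have hqT : |S.q z (T.pos z)| ≤ S.a := (hT z (by rw [hz]; nlinarith) (by rw [hz]; nlinarith)).2
  have hxX : T.pos z + cmb (fr S.e S.w) x = X := cmb_pc SP.ortho hwne T z X
  set yc' := yc b0 x with hyc
  refine ⟨256 * yc' / κ, 256 * x 1, 256 * x 2, ?_, ?_, ?_, ?_⟩
  · rw [← hxX]
    unfold cF cg sF
    rw [← hz, ← hb0, ← hκdef]
    congr 2
    have e0 : κ / 256 * (256 * yc' / κ) = yc' := by field_simp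
    have e1 : (1:ℝ) / 256 * (256 * x 1) = x 1 := by ring
    have e2 : (1:ℝ) / 256 * (256 * x 2) = x 2 := by ring
    rw [e0, e1, e2]
    have := unsh_yc b0 x
    unfold unsh at this
    exact this.symm
  · have e : |256 * yc' / κ| = S.w 0 * |yc'| / kk S z0 ρ T := by
      rw [hkk, abs_div, abs_mul, abs_of_pos hκ0, abs_of_pos (by norm_num : (0:ℝ) < 256)]
      have := hw0.ne'
      have := hκ0.ne'
      field_simp
    rw [e, div_add' _ _ _ hkp.ne']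
    refine div_le_div_of_nonneg_right ?_ hkp.le
    have hkap : S.w 0 * kap b0 b1 G ≤ 256 * kk S z0 ρ T := by
      unfold kk kapP
      rw [← hb0, ← hb1, ← hG]
      have := a_pos hr h
      linarith
    have h5 : 5 * δ * (S.w 0 * kap b0 b1 G) ≤ 5 * δ * (256 * kk S z0 ρ T) :=
      mul_le_mul_of_nonneg_left hkap (by positivity)
    linarith
  · rw [abs_mul, abs_of_pos (by norm_num : (0:ℝ) < 256)]; linarith
  · rw [abs_mul, abs_of_pos (by norm_num : (0:ℝ) < 256)]; linarith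

/-- a difference of two lines which is small at both ends is small -/
theorem conv_le {p q : ℝ} {B ζ : ℝ} (h0 : |p| ≤ B) (h1 : |p + q| ≤ B) (z1 : 0 ≤ ζ) (z2 : ζ ≤ 1) :
    |p + ζ * q| ≤ B := by
  have e : p + ζ * q = (1 - ζ) * p + ζ * (p + q) := by ring
  rw [e]
  refine (abs_add_le _ _).trans ?_
  rw [abs_mul, abs_mul, abs_of_nonneg z1, abs_of_nonneg (by linarith : 0 ≤ 1 - ζ)]
  have := mul_le_mul_of_nonneg_left h0 (by linarith : 0 ≤ 1 - ζ)
  have := mul_le_mul_of_nonneg_left h1 z1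
  linarith

theorem dt_line (e : V3) (T T' : Ln4) (z0 ρ ζ : ℝ) :
    dt e (T'.pos (z0 + ρ * ζ) - T.pos (z0 + ρ * ζ)) = dt e (T'.pos z0 - T.pos z0) +
      ζ * (dt e (T'.pos (z0 + ρ) - T.pos (z0 + ρ)) - dt e (T'.pos z0 - T.pos z0)) := by
  simp only [dt, Ln4.pos, Pi.sub_apply]
  ring

/-- **lines of the sheet near `T` are chart lines** -/
theorem lineF (hr : 0 < r0) (hρ : 0 ≤ ρ) (h : Shp S z0 ρ r0) (hT : InP T S z0 ρ) {T' : Ln4}
    (hT' : InP T' S z0 ρ)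
    (p1 : ∀ k : Fin 3, k ≠ 0 → |dt (S.e k) (T'.pos z0 - T.pos z0)| ≤ S.w k / 2 ^ 14)
    (p2 : ∀ k : Fin 3, k ≠ 0 → |dt (S.e k) (T'.pos (z0 + ρ) - T.pos (z0 + ρ))| ≤ S.w k / 2 ^ 14)
    {ζ : ℝ} (z1 : 0 ≤ ζ) (z2 : ζ ≤ 1) : ∃ y u v, T'.pos (z0 + ρ * ζ) = cF S z0 ρ T ζ y u v ∧
      |y| ≤ 1 ∧ |u| ≤ 1 ∧ |v| ≤ 1 := by
  have hz1 : z0 ≤ z0 + ρ * ζ := by nlinarith
  have hz2 : z0 + ρ * ζ ≤ z0 + ρ := by nlinarith
  have hX := hT' _ hz1 hz2
  have hwn : ∀ i, 0 ≤ S.w i := fun i => ((StP.of_shN h (w0_pos hr h)).pos i).le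
  have hX2 : InK S.e S.c (dbl3 S.w) (z0 + ρ * ζ) (T'.pos (z0 + ρ * ζ)) := fun i => by
    have := hX.1 i
    have h3 := hwn i
    change _ ≤ 2 * S.w i
    linarith
  have q : ∀ k : Fin 3, k ≠ 0 →
      |dt (S.e k) (T'.pos (z0 + ρ * ζ) - T.pos (z0 + ρ * ζ))| ≤ 1 / 2 ^ 14 * S.w k := by
    intro k hk
    rw [dt_line]
    refine (conv_le (p1 k hk) ?_ z1 z2).trans (le_of_eq (by ring))
    have := p2 k hk
    have e : dt (S.e k) (T'.pos z0 - T.pos z0) + (dt (S.e k) (T'.pos (z0 + ρ) - T.pos (z0 + ρ)) -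
      dt (S.e k) (T'.pos z0 - T.pos z0)) = dt (S.e k) (T'.pos (z0 + ρ) - T.pos (z0 + ρ)) := by ring
    rw [e]; exact this
  obtain ⟨y, u, v, hP, hy, hu, hv⟩ := pointF hr hρ h hT z1 z2 hX2 (by norm_num : (1:ℝ) / 2 ^ 14 ≤ 1 / 8)
    (q 1 (by decide)) (q 2 (by decide))
  refine ⟨y, u, v, hP, hy.trans ?_, hu.trans (by norm_num), hv.trans (by norm_num)⟩
  have hkp := kk_pos hr h T
  have hge := kk_ge hr h T
  have h4 : 2 * (|S.q (z0 + ρ * ζ) (T'.pos (z0 + ρ * ζ))| + S.a) / kk S z0 ρ T ≤ 4 / 390 := by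
    rw [div_le_div_iff₀ hkp (by norm_num)]
    have := hX.2
    linarith
  have : (4:ℝ) / 390 + 1280 * (1 / 2 ^ 14) ≤ 1 := by norm_num
  linarith


end

end Crest.Agent.R136.Nmx44
end

-- ▼ part R136/Nj1_28
section

/-!
# R136 (U4, PLAN 2 (AL), mixed curvatures): algebra of 2-jets (helper28)

* `jet_of_box`, `jet_of_box'` : a function of the class bounded by `B` on a box (heights on one side
  of the base height) has a jet `≤ 200 B`.
* `jet_scale` : change of the unit of the normal coordinate.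
* `tg_chg`, `lf_chg2`, `th_chg` : gradient and Hessian of the restriction in an adapted chart.
-/

set_option autoImplicit false
set_option linter.unusedVariables false

namespace Crest.Agent.R136.Nj28

open Crest.Agent.R136.Rk601
open Crest.Agent.R136.Mxc615 (chg)
open Crest.Agent.R136.Sh605 (V3 IsQ)
open Crest.Agent.R136.Tl102 (cmb)

set_option maxHeartbeats 4000000 in
/-- values at the heights `0`, `σ / 2`, `σ` bound the jet -/
theorem jet_box_aux {q : ℝ → V3 → ℝ} {f : Fin 3 → V3} {V : V3} {z : ℝ} {X : V3} {ρ B σ : ℝ}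
    {J : Jt} (h : JetAt q f V z X ρ J) (hs : J.Sym) (hσ : σ = 1 / 2 ∨ σ = -(1 / 2))
    (hB : ∀ y s u v : ℝ, |y| ≤ 1 → |u| ≤ 1 → |v| ≤ 1 → (s = 0 ∨ s = σ / 2 ∨ s = σ) →
      |q (z + ρ * s) (X + (ρ * s) • V + cmb f ![y, u, v])| ≤ B) :
    |J.a0| ≤ 200 * B ∧ (∀ i, |J.a i| ≤ 200 * B) ∧ |J.h00| ≤ 200 * B ∧
      (∀ i, |J.h0 i| ≤ 200 * B) ∧ ∀ i j, |J.h i j| ≤ 200 * B := by
  have i0 : |(0 : ℝ)| ≤ 1 := by norm_num
  have i1 : |(1 : ℝ)| ≤ 1 := by norm_num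
  have im : |(-1 : ℝ)| ≤ 1 := by norm_num
  have c0 : (0 : ℝ) = 0 ∨ (0 : ℝ) = σ / 2 ∨ (0 : ℝ) = σ := Or.inl rfl
  have c1 : σ / 2 = 0 ∨ σ / 2 = σ / 2 ∨ σ / 2 = σ := Or.inr (Or.inl rfl)
  have c2 : σ = 0 ∨ σ = σ / 2 ∨ σ = σ := Or.inr (Or.inr rfl)
  have key : ∀ y s u v : ℝ, |y| ≤ 1 → |u| ≤ 1 → |v| ≤ 1 → (s = 0 ∨ s = σ / 2 ∨ s = σ) →
      |q z X + J.a0 * y + dp J.a ![s, u, v] +
      1 / 2 * (J.h00 * y ^ 2 + 2 * y * dp J.h0 ![s, u, v] + qf J.h ![s, u, v])| ≤ B := by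
    intro y s u v h1 h2 h3 h4
    rw [← h y s u v]
    exact hB y s u v h1 h2 h3 h4
  simp only [dp, qf, Fin.sum_univ_three, Matrix.cons_val, abs_le] at key
  have s10 := hs 1 0
  have s20 := hs 2 0
  have s21 := hs 2 1
  have o := key 0 0 0 0 (by simp) (by simp) (by simp) c0
  have y1 := key 1 0 0 0 (by simp) (by simp) (by simp) c0
  have y2 := key (-1) 0 0 0 (by simp) (by simp) (by simp) c0
  have u1 := key 0 0 1 0 (by simp) (by simp) (by simp) c0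
  have u2 := key 0 0 (-1) 0 (by simp) (by simp) (by simp) c0
  have v1 := key 0 0 0 1 (by simp) (by simp) (by simp) c0
  have v2 := key 0 0 0 (-1) (by simp) (by simp) (by simp) c0
  have yu := key 1 0 1 0 (by simp) (by simp) (by simp) c0
  have yv := key 1 0 0 1 (by simp) (by simp) (by simp) c0
  have uv := key 0 0 1 1 (by simp) (by simp) (by simp) c0
  have z1 := key 0 (σ / 2) 0 0 (by simp) (by simp) (by simp) c1
  have z2 := key 0 σ 0 0 (by simp) (by simp) (by simp) c2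
  have yz := key 1 σ 0 0 (by simp) (by simp) (by simp) c2
  have zu := key 0 σ 1 0 (by simp) (by simp) (by simp) c2
  have zv := key 0 σ 0 1 (by simp) (by simp) (by simp) c2
  clear key hB h
  obtain ⟨a0, a, h00, h0, hh⟩ := J
  clear hs i0 i1 im c0 c1 c2
  simp only at *
  rcases hσ with hσ | hσ <;> subst hσ <;> norm_num at o y1 y2 u1 u2 v1 v2 yu yv uv z1 z2 yz zu zv
  all_goals
    refine ⟨abs_le.2 ⟨by linarith, by linarith⟩, fun i => ?_, abs_le.2 ⟨by linarith, by linarith⟩,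
      fun i => ?_, fun i j => ?_⟩
    · fin_cases i <;> simp only [Fin.zero_eta, Fin.mk_one, Fin.reduceFinMk] <;>
        exact abs_le.2 ⟨by linarith, by linarith⟩
    · fin_cases i <;> simp only [Fin.zero_eta, Fin.mk_one, Fin.reduceFinMk] <;>
        exact abs_le.2 ⟨by linarith, by linarith⟩
    · fin_cases i <;> fin_cases j <;> simp only [Fin.zero_eta, Fin.mk_one, Fin.reduceFinMk] <;>
        exact abs_le.2 ⟨by linarith, by linarith⟩

/-- **bounded on a box (heights `[0, 1/2]` after the base height) ⊢ bounded jet** -/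
theorem jet_of_box {q : ℝ → V3 → ℝ} {f : Fin 3 → V3} {V : V3} {z : ℝ} {X : V3} {ρ B : ℝ}
    {J : Jt} (h : JetAt q f V z X ρ J) (hs : J.Sym)
    (hB : ∀ y s u v : ℝ, |y| ≤ 1 → 0 ≤ s → s ≤ 1 / 2 → |u| ≤ 1 → |v| ≤ 1 →
      |q (z + ρ * s) (X + (ρ * s) • V + cmb f ![y, u, v])| ≤ B) :
    |J.a0| ≤ 200 * B ∧ (∀ i, |J.a i| ≤ 200 * B) ∧ |J.h00| ≤ 200 * B ∧
      (∀ i, |J.h0 i| ≤ 200 * B) ∧ ∀ i j, |J.h i j| ≤ 200 * B := by
  refine jet_box_aux h hs (Or.inl rfl) fun y s u v h1 h2 h3 h4 => ?_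
  refine hB y s u v h1 ?_ ?_ h2 h3 <;> rcases h4 with h4 | h4 | h4 <;> rw [h4] <;> norm_num


/-- the jet in the chart with the normal unit multiplied by `θ` -/
def Jt.sc (θ : ℝ) (J : Jt) : Jt := ⟨θ * J.a0, J.a, θ ^ 2 * J.h00, fun i => θ * J.h0 i, J.h⟩

/-- **change of the unit of the normal coordinate** -/
theorem jet_scale {q : ℝ → V3 → ℝ} {e f1 f2 : V3} {V : V3} {z : ℝ} {X : V3} {ρ μ θ : ℝ}
    {J : Jt} (h : JetAt q ![μ • e, f1, f2] V z X ρ J) :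
    JetAt q ![(θ * μ) • e, f1, f2] V z X ρ ⟨θ * J.a0, J.a, θ ^ 2 * J.h00, fun i => θ * J.h0 i, J.h⟩ := by
  intro y ζ u v
  have h1 := h (θ * y) ζ u v
  have e1 : cmb ![(θ * μ) • e, f1, f2] ![y, u, v] = cmb ![μ • e, f1, f2] ![θ * y, u, v] := by
    funext i
    simp only [cmb, Pi.add_apply, Pi.smul_apply, smul_eq_mul, Matrix.cons_val]
    ring
  rw [e1, h1]
  simp only [dp, qf, Fin.sum_univ_three, Matrix.cons_val]
  ring


section

variable {q P : Jt} {A : Fin 3 → V3} {D : V3} {A00 s1 s2 t1 t2 d : ℝ}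





end

end Crest.Agent.R136.Nj28
end

-- ▼ part R136/Nmt_104
section

/-!
# R136 (S0187), PLAN 2 (AL) (A), NdMx: the chart of a THIN base around one of its lines (helper104)

`cN S z0 ρ T` : chart of the plank `S` around its line `T`, thickness in units of `kN = w 0 / 4`, the
tangent vectors are those of helper44's chart (`dF`).  No hypothesis on `a / w 0`.
`chartN` : the sheet function in the chart; `pointN`, `lineN` : points of the box near `T` (in the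
three directions) are chart points.
-/

set_option autoImplicit false

namespace Crest.Agent.R136.Nmt104

open Crest.Agent.R136.Sh605 Crest.Agent.R136.Tl102
open Crest.Agent.R136.K4 (Plk4)
open Crest.Agent.R136.Tlt51 (Shp InP)
open Crest.Agent.R136.KapP335 (expP kapP expP_spec)
open Crest.Agent.R136.Rk601 (Jt)
open Crest.Agent.R136.Adp876 (ev sh Bd cg gv)
open Crest.Agent.R136.Adj214 (jc theta theta_le abs2)
open Crest.Agent.R136.Nmx44 (sF dF nrm w0_pos a_pos sF_le conv_le dt_line)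

/-- thickness unit of the thin chart -/
noncomputable def kN (S : Plk4) : ℝ := S.w 0 / 4

/-- thin chart of `S` around its line `T` -/
noncomputable def cN (S : Plk4) (z0 ρ : ℝ) (T : Ln4) (ζ y u v : ℝ) : V3 :=
  cg (fr S.e S.w) T z0 ρ (1 / 4) (sF S z0 ρ T 1) (sF S z0 ρ T 2) (1 / 256) ζ y u v

section
variable {S : Plk4} {z0 ρ r0 : ℝ} {T : Ln4}

theorem kN_pos (hr : 0 < r0) (h : Shp S z0 ρ r0) : 0 < kN S := by
  have := w0_pos hr h
  unfold kN; linarith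

theorem a_le_kN (h : Shp S z0 ρ r0) : S.a ≤ 4 * kN S := by
  have := h.a_le0
  unfold kN; linarith

theorem cN_eq (T : Ln4) (ζ y u v : ℝ) :
    cN S z0 ρ T ζ y u v = T.pos (z0 + ρ * ζ) + (kN S * y) • S.e 0 +
      u • dF S z0 ρ T 1 + v • dF S z0 ρ T 2 := by
  funext i
  simp only [cN, cg, cmb, fr, dF, kN, Pi.add_apply, Pi.sub_apply, Pi.smul_apply, smul_eq_mul,
    Matrix.cons_val]
  ring

/-- **the sheet function in the thin chart** -/
theorem chartN (hr : 0 < r0) (hρ : 0 ≤ ρ) (h : Shp S z0 ρ r0) (hT : InP T S z0 ρ) :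
    ∃ (cq : ℝ) (Jq : Jt), |cq| ≤ 4 ∧ Bd Jq 64 ∧
      (∀ ζ y u v, S.q (z0 + ρ * ζ) (cN S z0 ρ T ζ y u v) =
        kN S * (cq + ev Jq y ![ζ, u, v])) ∧
      (∀ (y : ℝ) (x : Fin 3 → ℝ), |y| ≤ 1 → (∀ i, |x i| ≤ 1) → 0 ≤ x 0 →
        1 / 2 ≤ |(sh Jq y x).a0|) ∧
      (∀ (y : ℝ) (x : Fin 3 → ℝ), |y| ≤ 1 → (∀ i, |x i| ≤ 1) → 0 ≤ x 0 →
        1 / 2 ≤ (sh Jq y x).a0) ∧ Jq.a 1 = 0 ∧ Jq.a 2 = 0 := by
  have hw0 := w0_pos hr h
  have ha := a_pos hr h
  have haw := h.a_le0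
  have N := nrm hr hρ h hT
  have hE := expP_spec h.isQ hw0.ne' z0 ρ T
  have hkp := kN_pos hr h
  have hkk : kN S = 64 / 256 * S.w 0 := by unfold kN; ring
  set b0 := (expP S z0 ρ T).1 with hb0
  set b1 := (expP S z0 ρ T).2.1 with hb1
  set G := (expP S z0 ρ T).2.2 with hG
  set k0 := kN S with hk0def
  obtain ⟨κ, hκdef⟩ : ∃ κ : ℝ, κ = 64 := ⟨_, rfl⟩
  have hκ0 : 0 < κ := by rw [hκdef]; norm_num
  obtain ⟨g1, g2, -, -, g3, -, -, s1, s2⟩ := N.b1_le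
  obtain ⟨m1, -⟩ := N.G_le
  obtain ⟨-, -, h3, h4, -, -, -⟩ := N.sh_le
  have hkap : kap b0 b1 G ≤ κ := by
    have := kap_le N
    rw [hκdef]; linarith
  have dv : ∀ x, |x| ≤ kap b0 b1 G → |x / κ| ≤ 1 := by
    intro x hx
    rw [abs_div, abs_of_pos hκ0, div_le_one hκ0]; exact hx.trans hkap
  have k1 : |scB1 κ b0 b1 1| ≤ 1 := dv _ ((le_max_left _ _).trans (le_max_left _ _))
  have k2 : |scB1 κ b0 b1 2| ≤ 1 := dv _ ((le_max_right _ _).trans (le_max_left _ _))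
  have k3 : |(scG κ b0 G).yy| ≤ 64 := by
    change |κ * G.yy| ≤ 64
    have := mul_abs_le (abs_le.2 ⟨by linarith, hκdef.le⟩ : |κ| ≤ 64) m1
    linarith
  have k4 : |(scG κ b0 G).yu| ≤ 5 := h3
  have k5 : |(scG κ b0 G).yv| ≤ 5 := h4
  have k6 : |(scG κ b0 G).uu| ≤ 1 :=
    dv _ ((le_max_left _ _).trans ((le_max_left _ _).trans (le_max_right _ _)))
  have k7 : |(scG κ b0 G).uv| ≤ 1 :=
    dv _ ((le_max_right _ _).trans ((le_max_left _ _).trans (le_max_right _ _)))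
  have k8 : |(scG κ b0 G).vv| ≤ 1 := dv _ ((le_max_right _ _).trans (le_max_right _ _))
  obtain ⟨θ0, θ1, θ2, hθ⟩ := theta h.isQ T z0 ρ
  have hb : b0 0 ≠ 0 := by linarith
  obtain ⟨t0, t1, t2⟩ := theta_le (θ0 := θ0 / k0) (θ1 := θ1 / k0) (θ2 := θ2 / k0) (B := 4)
    (fun ζ h1 h2 => by
      have h3 := (hT (z0 + ρ * ζ) (by nlinarith) (by nlinarith)).2
      rw [hθ] at h3
      have e : θ0 / k0 + θ1 / k0 * ζ + θ2 / k0 * ζ ^ 2 = (θ0 + θ1 * ζ + θ2 * ζ ^ 2) / k0 := by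
        ring
      rw [e, abs_div, abs_of_pos hkp, div_le_iff₀ hkp]
      linarith)
  have half : ∀ {x B : ℝ}, |x| ≤ B → |1 / 256 * x| ≤ 1 / 256 * B := fun hx =>
    abs2 (by norm_num : |(1 / 256 : ℝ)| ≤ 1 / 256) hx
  have two : ∀ {x B : ℝ}, |x| ≤ B → |2 * x| ≤ 2 * B := fun hx =>
    abs2 (by norm_num : |(2 : ℝ)| ≤ 2) hx
  have hst : ∀ (y : ℝ) (x : Fin 3 → ℝ), |y| ≤ 1 → (∀ i, |x i| ≤ 1) → 0 ≤ x 0 →
      1 / 2 ≤ (sh (jc b0 b1 G κ (θ1 / k0) (θ2 / k0)) y x).a0 := by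
    intro y x hy hx hx0
    have eyu : (scG κ b0 G).yu = G.yu - 2 * (b0 1 / b0 0) * G.yy := rfl
    have eyv : (scG κ b0 G).yv = G.yv - 2 * (b0 2 / b0 0) * G.yy := rfl
    have eyy : (scG κ b0 G).yy = κ * G.yy := rfl
    have hk14 : |κ| ≤ 64 := by rw [abs_of_pos hκ0]; exact hκdef.le
    have hσ : |2 * (1 / 256 * (κ * y)) + -(2 * (1 / 256 * (b0 1 / b0 0 * x 1))) +
        -(2 * (1 / 256 * (b0 2 / b0 0 * x 2)))| ≤ 1 := by
      refine (abs_add_le _ _).trans ((add_le_add (abs_add_le _ _) le_rfl).trans ?_)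
      rw [abs_neg, abs_neg]
      have a1 := two (half (abs2 hk14 hy))
      have a2 := two (half (abs2 s1 (hx 1)))
      have a3 := two (half (abs2 s2 (hx 2)))
      linarith
    have hu' : |1 / 256 * x 1| ≤ 1 := (half (hx 1)).trans (by norm_num)
    have hv' : |1 / 256 * x 2| ≤ 1 := (half (hx 2)).trans (by norm_num)
    have := (N.st (x 0) hx0 ((le_abs_self _).trans (hx 0)) _ _ _ hσ hu' hv').1
    have e : (sh (jc b0 b1 G κ (θ1 / k0) (θ2 / k0)) y x).a0 =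
        b0 0 + x 0 * b1 0 + G.yy * (2 * (1 / 256 * (κ * y)) +
        -(2 * (1 / 256 * (b0 1 / b0 0 * x 1))) + -(2 * (1 / 256 * (b0 2 / b0 0 * x 2)))) +
        G.yu * (1 / 256 * x 1) + G.yv * (1 / 256 * x 2) := by
      simp only [jc, sh, Fin.sum_univ_three, Matrix.cons_val, eyu, eyv, eyy]
      ring
    rw [e]
    exact this
  refine ⟨θ0 / k0, jc b0 b1 G κ (θ1 / k0) (θ2 / k0), t0, ?_, ?_,
    fun y x hy hx hx0 => (hst y x hy hx hx0).trans (le_abs_self _), hst, rfl, rfl⟩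
  · refine ⟨?_, ?_, ?_, ?_, ?_, ?_⟩
    · show |b0 0| ≤ 64
      rw [abs_le]; constructor <;> linarith
    · intro i
      fin_cases i
      · exact t1.trans (by norm_num)
      · show |(0:ℝ)| ≤ 64
        norm_num
      · show |(0:ℝ)| ≤ 64
        norm_num
    · exact (two (half k3)).trans (by norm_num)
    · intro i
      fin_cases i
      · exact g3.trans (by norm_num)
      · exact (half k4).trans (by norm_num)
      · exact (half k5).trans (by norm_num)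
    · intro i j
      fin_cases i <;> fin_cases j
      · exact (two t2).trans (by norm_num)
      · exact k1.trans (by norm_num)
      · exact k2.trans (by norm_num)
      · exact k1.trans (by norm_num)
      · exact (two (half k6)).trans (by norm_num)
      · exact (half k7).trans (by norm_num)
      · exact k2.trans (by norm_num)
      · exact (half k7).trans (by norm_num)
      · exact (two (half k8)).trans (by norm_num)
    · intro i j
      fin_cases i <;> fin_cases j <;> rfl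
  · intro ζ y u v
    have e1 : cN S z0 ρ T ζ y u v = T.pos (z0 + ρ * ζ) +
        cmb (fr S.e S.w) (unsh b0 (κ * (1 / 256 * y)) (1 / 256 * u) (1 / 256 * v)) := by
      unfold cN cg unsh sF
      congr 2
      have e0 : 1 / 4 * y - (expP S z0 ρ T).1 1 / (expP S z0 ρ T).1 0 * (1 / 256 * u) -
          (expP S z0 ρ T).1 2 / (expP S z0 ρ T).1 0 * (1 / 256 * v) =
          κ * (1 / 256 * y) - b0 1 / b0 0 * (1 / 256 * u) - b0 2 / b0 0 * (1 / 256 * v) := by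
        rw [← hb0, hκdef]; ring
      rw [e0]
    have hkk' : k0 = κ / 256 * S.w 0 := by rw [hκdef]; exact hkk
    rw [e1, hE, hθ, Fq_scaled hb hκ0.ne', hkk']
    have hk00 : κ / 256 * S.w 0 ≠ 0 := by rw [← hkk']; exact hkp.ne'
    simp only [ev, jc, Fin.sum_univ_three, Matrix.cons_val, Fq, Sh605.dt, bz, QF.ev, shB0]
    have e0 : scB1 κ b0 b1 0 = b1 0 := rfl
    rw [e0]
    field_simp
    ring

/-- **points near `T` are chart points** -/
theorem pointN (hr : 0 < r0) (hρ : 0 ≤ ρ) (h : Shp S z0 ρ r0) (hT : InP T S z0 ρ)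
    {ζ : ℝ} {X : V3} {δ : ℝ} (hk : ∀ k, |dt (S.e k) (X - T.pos (z0 + ρ * ζ))| ≤ δ * S.w k) :
    ∃ y u v, X = cN S z0 ρ T ζ y u v ∧ |y| ≤ 20 * δ ∧ |u| ≤ 256 * δ ∧ |v| ≤ 256 * δ := by
  have hw0 := w0_pos hr h
  have SP := StP.of_shN h hw0
  obtain ⟨s1, s2⟩ := sF_le hr hρ h hT
  have hwne : ∀ i, S.w i ≠ 0 := fun i => (SP.pos i).ne'
  set z := z0 + ρ * ζ with hz
  set x := pc S.e S.w T z X with hx
  have c : ∀ k, |x k| ≤ δ := by
    intro k
    rw [hx]; unfold pc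
    rw [abs_div, abs_of_pos (SP.pos k), div_le_iff₀ (SP.pos k)]; exact hk k
  have hδ0 : 0 ≤ δ := (abs_nonneg _).trans (c 0)
  have hxX : T.pos z + cmb (fr S.e S.w) x = X := cmb_pc SP.ortho hwne T z X
  refine ⟨4 * (x 0 + sF S z0 ρ T 1 * x 1 + sF S z0 ρ T 2 * x 2), 256 * x 1, 256 * x 2, ?_, ?_, ?_,
    ?_⟩
  · rw [← hxX]
    unfold cN cg
    rw [← hz]
    congr 2
    funext i
    fin_cases i
    · show x 0 = 1 / 4 * (4 * (x 0 + sF S z0 ρ T 1 * x 1 + sF S z0 ρ T 2 * x 2)) -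
        sF S z0 ρ T 1 * (1 / 256 * (256 * x 1)) - sF S z0 ρ T 2 * (1 / 256 * (256 * x 2))
      ring
    · show x 1 = 1 / 256 * (256 * x 1)
      ring
    · show x 2 = 1 / 256 * (256 * x 2)
      ring
  · rw [abs_mul, abs_of_pos (by norm_num : (0:ℝ) < 4)]
    have a1 := abs2 s1 (c 1)
    have a2 := abs2 s2 (c 2)
    have a0 := c 0
    have := abs_add_three (x 0) (sF S z0 ρ T 1 * x 1) (sF S z0 ρ T 2 * x 2)
    linarith
  · rw [abs_mul, abs_of_pos (by norm_num : (0:ℝ) < 256)]; linarith [c 1]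
  · rw [abs_mul, abs_of_pos (by norm_num : (0:ℝ) < 256)]; linarith [c 2]

/-- **lines near `T` are chart lines** -/
theorem lineN (hr : 0 < r0) (hρ : 0 ≤ ρ) (h : Shp S z0 ρ r0) (hT : InP T S z0 ρ) {T' : Ln4}
    (p1 : ∀ k : Fin 3, |dt (S.e k) (T'.pos z0 - T.pos z0)| ≤ S.w k / 2 ^ 14)
    (p2 : ∀ k : Fin 3, |dt (S.e k) (T'.pos (z0 + ρ) - T.pos (z0 + ρ))| ≤ S.w k / 2 ^ 14)
    {ζ : ℝ} (z1 : 0 ≤ ζ) (z2 : ζ ≤ 1) : ∃ y u v, T'.pos (z0 + ρ * ζ) = cN S z0 ρ T ζ y u v ∧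
      |y| ≤ 1 ∧ |u| ≤ 1 ∧ |v| ≤ 1 := by
  have q : ∀ k : Fin 3,
      |dt (S.e k) (T'.pos (z0 + ρ * ζ) - T.pos (z0 + ρ * ζ))| ≤ 1 / 2 ^ 14 * S.w k := by
    intro k
    rw [dt_line]
    refine (conv_le (p1 k) ?_ z1 z2).trans (le_of_eq (by ring))
    have := p2 k
    have e : dt (S.e k) (T'.pos z0 - T.pos z0) + (dt (S.e k) (T'.pos (z0 + ρ) - T.pos (z0 + ρ)) -
      dt (S.e k) (T'.pos z0 - T.pos z0)) = dt (S.e k) (T'.pos (z0 + ρ) - T.pos (z0 + ρ)) := by ring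
    rw [e]; exact this
  obtain ⟨y, u, v, hP, hy, hu, hv⟩ := pointN hr hρ h hT q
  exact ⟨y, u, v, hP, hy.trans (by norm_num), hu.trans (by norm_num), hv.trans (by norm_num)⟩

end

end Crest.Agent.R136.Nmt104
end

-- ▼ part R136/Nmy_296
section

/-!
# R136 (S0187), PLAN 2, (AL)(A) [ND]: the jet of `U` in the chart of the flatter sheet (helper296)

* `pjet` : a function of the class which is at most `B` on the box
  `T + (p Y) e0 + u d1 + v d2`, `|p|, |u|, |v| ≤ 1`, in a chart with the normal unit `k0 ≤ Y`.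
-/

set_option autoImplicit false
set_option linter.unusedVariables false

namespace Crest.Agent.R136.Nmy296

open Crest.Agent.R136.Sh605 Crest.Agent.R136.Tl102
open Crest.Agent.R136.K4 (Plk4)
open Crest.Agent.R136.Tlt51 (Shp InP)
open Crest.Agent.R136.KapP335 (expP kapP expP_spec)
open Crest.Agent.R136.Rk601 (Jt JetAt exists_jet dp qf)
open Crest.Agent.R136.Adp876 (ev sh Bd cg gv)

/-- **P-jet** -/
theorem pjet {q : ℝ → V3 → ℝ} (hq : IsQ q) {T : Ln4} {z0 ρ Y B Λ k0 : ℝ} {e0 d1 d2 : V3}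
    (hρ : 0 ≤ ρ) (hY : 0 < Y) (hk : 0 < k0) (hkY : k0 ≤ Y) (hB0 : 0 ≤ B) (hΛ : 0 < Λ)
    (hBΛ : 200 * B ≤ Λ)
    (hB : ∀ z, z0 ≤ z → z ≤ z0 + ρ → ∀ p u v : ℝ, |p| ≤ 1 → |u| ≤ 1 → |v| ≤ 1 →
      |q z (T.pos z + (p * Y) • e0 + u • d1 + v • d2)| ≤ B) :
    ∃ (cP : ℝ) (JP : Jt), JP.Sym ∧ (∀ i, |JP.a i| ≤ 1) ∧ (∀ i j, |JP.h i j| ≤ 1) ∧
      |JP.a0| ≤ k0 / Y ∧ |JP.h00| ≤ k0 / Y ∧ (∀ i, |JP.h0 i| ≤ k0 / Y) ∧
      ∀ ζ y u v, q (z0 + ρ * ζ) (T.pos (z0 + ρ * ζ) + (k0 * y) • e0 + u • d1 + v • d2) =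
        Λ * (cP + ev JP y ![ζ, u, v]) := by
  obtain ⟨J, hs, hJ⟩ := exists_jet hq ![Y • e0, d1, d2] T.v z0 (T.pos z0) ρ
  obtain ⟨b1, b2, b3, b4, b5⟩ := Nj28.jet_of_box (B := B) hJ hs (by
    intro y s u v h1 h2 h3 h4 h5
    have e : T.pos z0 + (ρ * s) • T.v + cmb ![Y • e0, d1, d2] ![y, u, v] =
        T.pos (z0 + ρ * s) + (y * Y) • e0 + u • d1 + v • d2 := by
      funext i
      simp only [cmb, Ln4.pos, Pi.add_apply, Pi.smul_apply, smul_eq_mul, Matrix.cons_val]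
      ring
    rw [e]
    exact hB _ (by nlinarith) (by nlinarith) y u v h1 h4 h5)
  obtain ⟨θ, hθ⟩ : ∃ θ, θ = k0 / Y := ⟨_, rfl⟩
  have θ0 : 0 < θ := by rw [hθ]; positivity
  have θ1 : θ ≤ 1 := by rw [hθ, div_le_one hY]; exact hkY
  have hk0 : θ * Y = k0 := by rw [hθ]; field_simp
  have hJ2 := Nj28.jet_scale (θ := θ) hJ
  rw [hk0] at hJ2
  have sc : ∀ x : ℝ, |x| ≤ 200 * B → |Λ⁻¹ * x| ≤ 1 := fun x hx => by
    rw [abs_mul, abs_of_pos (inv_pos.2 hΛ), ← div_eq_inv_mul, div_le_one hΛ]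
    exact hx.trans hBΛ
  have sθ : ∀ x : ℝ, |x| ≤ 200 * B → |Λ⁻¹ * (θ * x)| ≤ θ := fun x hx => by
    have h1 := sc x hx
    have e : Λ⁻¹ * (θ * x) = θ * (Λ⁻¹ * x) := by ring
    rw [e, abs_mul, abs_of_pos θ0]
    exact mul_le_of_le_one_right θ0.le h1
  refine ⟨Λ⁻¹ * q z0 (T.pos z0), ⟨Λ⁻¹ * (θ * J.a0), fun i => Λ⁻¹ * J.a i, Λ⁻¹ * (θ ^ 2 * J.h00),
    fun i => Λ⁻¹ * (θ * J.h0 i), fun i j => Λ⁻¹ * J.h i j⟩, ?_, fun i => sc _ (b2 i),
    fun i j => sc _ (b5 i j), ?_, ?_, ?_, ?_⟩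
  · intro i j
    change Λ⁻¹ * J.h i j = Λ⁻¹ * J.h j i
    rw [hs i j]
  · rw [← hθ]; exact sθ _ b1
  · rw [← hθ]
    have e : θ ^ 2 * J.h00 = θ * (θ * J.h00) := by ring
    change |Λ⁻¹ * (θ ^ 2 * J.h00)| ≤ θ
    rw [e]
    refine sθ _ ?_
    rw [abs_mul, abs_of_pos θ0]
    have := mul_le_of_le_one_left (abs_nonneg J.h00) θ1
    exact this.trans b3
  · rw [← hθ]; exact fun i => sθ _ (b4 i)
  · intro ζ y u v
    have h1 := hJ2 y ζ u v
    have e : T.pos z0 + (ρ * ζ) • T.v + cmb ![k0 • e0, d1, d2] ![y, u, v] =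
        T.pos (z0 + ρ * ζ) + (k0 * y) • e0 + u • d1 + v • d2 := by
      funext i
      simp only [cmb, Ln4.pos, Pi.add_apply, Pi.smul_apply, smul_eq_mul, Matrix.cons_val]
      ring
    rw [e] at h1
    rw [h1]
    have hΛ' := hΛ.ne'
    simp only [ev, dp, qf, Fin.sum_univ_three, Matrix.cons_val]
    field_simp
    ring

open Crest.Agent.R136.Nmx44 (kF kk sF cF dF cF_eq kk_pos kk_ge kF_pos bd_mono chartF lineF w0_pos a_pos sF_le)
open Crest.Agent.R136.Nmt104 (kN cN cN_eq kN_pos a_le_kN chartN lineN)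

open Crest.Agent.R136.Ndw325 (ChM ChartMx)

/-- tangent vectors of 501's `ubox` -/
noncomputable def tau (V : Plk4) (z0 ρ : ℝ) (T : Ln4) (k : Fin 3) : V3 :=
  V.w k • V.e k - (sF V z0 ρ T k * V.w 0) • V.e 0

theorem dF_tau (V : Plk4) (z0 ρ : ℝ) (T : Ln4) (k : Fin 3) :
    dF V z0 ρ T k = (1 / 256 : ℝ) • tau V z0 ρ T k := rfl

/-- **chart of `V` at `T0` with the jets of `V` and `U`** (over 501's `ubox` at `m = 1`) -/
theorem chart_core {W Y a z0 ρ r K : ℝ} {U V : Plk4} {T0 : Ln4} (hW : 1 ≤ W) (hr : 0 < r)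
    (hρ : 0 < ρ) (ha : 0 < a) (hV : Shp V z0 ρ r) (hT : InP T0 V z0 ρ) (hU : IsQ U.q)
    (hda : V.a ≤ W * a) (hK : 2 ^ 31 * W ^ 7 ≤ K) (hkY : kapP V z0 ρ T0 ≤ Y)
    (haY : 10 ^ 6 * W * a ≤ Y)
    (hB : ∀ z, z0 ≤ z → z ≤ z0 + ρ → ∀ p u v : ℝ, |p| ≤ 1 → |u| ≤ 1 → |v| ≤ 1 →
      |U.q z (T0.pos z + (p * Y) • V.e 0 + u • tau V z0 ρ T0 1 + v • tau V z0 ρ T0 2)| ≤
        10 ^ 7 * W ^ 7 * Y) :
    ∃ (σ s1 s2 rr k0 μ Λ cq cP ε αq : ℝ) (Jq JP : Jt),
      ChM K V U.q T0 z0 ρ Y a σ s1 s2 rr k0 μ Λ cq cP ε αq Jq JP := by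
  have hW7 : 1 ≤ W ^ 7 := one_le_pow₀ hW
  have hW0 : 0 < W := by linarith
  have hK31 : 2 ^ 31 ≤ K := by
    have : (2 : ℝ) ^ 31 * 1 ≤ 2 ^ 31 * W ^ 7 := mul_le_mul_of_nonneg_left hW7 (by norm_num)
    linarith
  have hKn : (2147483648 : ℝ) ≤ K := by
    have : (2 : ℝ) ^ 31 = 2147483648 := by norm_num
    linarith
  have hK0 : 0 < K := by linarith
  have hWW : W ≤ W ^ 7 := le_self_pow₀ hW (by norm_num)
  have hWK : 2147483648 * W ≤ K := by
    have : (2 : ℝ) ^ 31 = 2147483648 := by norm_num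
    rw [this] at hK
    linarith
  have hw0 := w0_pos hr hV
  have hVa := a_pos hr hV
  have hY : 0 < Y := by
    have : 0 < 10 ^ 6 * W * a := by positivity
    linarith
  have hVaY : 10 ^ 6 * V.a ≤ Y := by
    have : 10 ^ 6 * V.a ≤ 10 ^ 6 * (W * a) := mul_le_mul_of_nonneg_left hda (by norm_num)
    linarith
  obtain ⟨Λ, hΛ⟩ : ∃ Λ, Λ = 200 * (10 ^ 7 * W ^ 7 * Y) := ⟨_, rfl⟩
  have Λ0 : 0 < Λ := by rw [hΛ]; positivity
  have ΛY : Λ ≤ K * Y := by
    rw [hΛ]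
    have h1 : 2 * 10 ^ 9 * W ^ 7 ≤ K := by
      have : (2 : ℝ) * 10 ^ 9 * W ^ 7 ≤ 2 ^ 31 * W ^ 7 :=
        mul_le_mul_of_nonneg_right (by norm_num) (by positivity)
      linarith
    have := mul_le_mul_of_nonneg_right h1 hY.le
    linarith
  have YΛ : Y ≤ K * Λ := by
    have h1 : Y ≤ Λ := by
      rw [hΛ]
      have : Y ≤ W ^ 7 * Y := le_mul_of_one_le_left hY.le hW7
      have h0 : 0 < W ^ 7 * Y := by positivity
      linarith
    have h2 : Λ ≤ K * Λ := le_mul_of_one_le_left Λ0.le (by linarith)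
    linarith
  -- the box in the vectors `dF`
  have hBd : ∀ z, z0 ≤ z → z ≤ z0 + ρ → ∀ p u v : ℝ, |p| ≤ 1 → |u| ≤ 1 → |v| ≤ 1 →
      |U.q z (T0.pos z + (p * Y) • V.e 0 + u • dF V z0 ρ T0 1 + v • dF V z0 ρ T0 2)| ≤
        10 ^ 7 * W ^ 7 * Y := by
    intro z z1 z2 p u v hp hu hv
    have s1 : |1 / 256 * u| ≤ 1 := by
      rw [abs_mul, abs_of_pos (by norm_num : (0 : ℝ) < 1 / 256)]; linarith [abs_nonneg u]
    have s2 : |1 / 256 * v| ≤ 1 := by
      rw [abs_mul, abs_of_pos (by norm_num : (0 : ℝ) < 1 / 256)]; linarith [abs_nonneg v]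
    have h := hB z z1 z2 p (1 / 256 * u) (1 / 256 * v) hp s1 s2
    have e : ∀ (t : ℝ) (k : Fin 3), t • dF V z0 ρ T0 k = (1 / 256 * t) • tau V z0 ρ T0 k := by
      intro t k
      rw [dF_tau, smul_smul, mul_comm]
    rw [e, e]
    exact h
  have div_le : ∀ x : ℝ, 0 ≤ x → x / K ≤ x / 2 ^ 14 := fun x hx =>
    div_le_div_of_nonneg_left hx (by norm_num) (by
      have : (2 : ℝ) ^ 14 = 16384 := by norm_num
      linarith)
  have wn : ∀ k, 0 ≤ V.w k := fun k => ((StP.of_shN hV hw0).pos k).le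
  by_cases hfat : 10 ^ 6 * V.a ≤ V.w 0
  · -- `V.w 0 ≥ 10^6 V.a`
    obtain ⟨cq, Jq, hc, hBq, hq, hst, -⟩ := chartF hr hρ.le hV hT hfat
    have hk := kk_pos hr hV T0
    have hge := kk_ge hr hV T0
    have hκ := kF_pos hr hV T0
    have hkkY : kk V z0 ρ T0 ≤ Y := by
      unfold kk
      linarith
    obtain ⟨cP, JP, p1, p2, p3, p4, p5, p6, p7⟩ := pjet hU hρ.le hY hk hkkY
      (by positivity : (0 : ℝ) ≤ 10 ^ 7 * W ^ 7 * Y) Λ0 (le_of_eq hΛ.symm) hBd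
    obtain ⟨ε, hε⟩ : ∃ ε, ε = kk V z0 ρ T0 / Y := ⟨_, rfl⟩
    rw [← hε] at p4 p5 p6
    have ε0 : 0 < ε := by rw [hε]; positivity
    have εK : ε ≤ K * ε := le_mul_of_one_le_left ε0.le (by linarith)
    have hq' : ∀ ζ y u v, V.q (z0 + ρ * ζ) (cg (fr V.e V.w) T0 z0 ρ (kF V z0 ρ T0 / 256)
        (sF V z0 ρ T0 1) (sF V z0 ρ T0 2) (1 / 256) ζ y u v) =
        kk V z0 ρ T0 * (cq + ev Jq y ![ζ, u, v]) := hq
    refine ⟨kF V z0 ρ T0 / 256, sF V z0 ρ T0 1, sF V z0 ρ T0 2, 1 / 256, kk V z0 ρ T0, 0, Λ, cq,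
      cP, ε, V.a / kk V z0 ρ T0, Jq, JP, ?_⟩
    refine ⟨by positivity, by norm_num, by norm_num; linarith, hk.ne', Λ0, ΛY, YΛ, ?_, hq', ?_,
      bd_mono hBq (by linarith), p1, fun i => (p2 i).trans (by linarith),
      fun i j => (p3 i j).trans (by linarith), p4.trans εK, p5.trans εK,
      fun i => (p6 i).trans εK, ?_, by positivity, ?_, ε0, ?_, ?_, ?_, ?_⟩
    · rw [abs_zero, zero_mul]; positivity
    · intro ζ y u v
      rw [zero_mul, sub_zero, ← p7]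
      congr 1
      exact cF_eq hr hV T0 ζ y u v
    · intro y x h1 h2 h3
      refine le_trans ?_ (hst y x h1 h2 h3)
      rw [div_le_div_iff₀ hK0 (by norm_num)]; linarith
    · rw [div_le_one hk]; linarith
    · rw [hε, div_le_one hY]; exact hkkY
    · rw [hε]
      have e : kk V z0 ρ T0 / Y * (V.a / kk V z0 ρ T0) * Y = V.a := by field_simp
      rw [e]
      refine hda.trans (mul_le_mul_of_nonneg_right (by linarith) ha.le)
    · rw [abs_of_pos hk]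
      have e : kk V z0 ρ T0 * (K * (V.a / kk V z0 ρ T0)) = K * V.a := by field_simp
      rw [e]
      exact le_mul_of_one_le_left hVa.le (by linarith)
    · intro T hT' hd ζ z1 z2
      obtain ⟨y, u, v, h1, h2, h3, h4⟩ := lineF hr hρ.le hV hT hT'
        (fun k _ => (hd z0 le_rfl (by linarith) k).trans (div_le _ (wn k)))
        (fun k _ => (hd (z0 + ρ) (by linarith) le_rfl k).trans (div_le _ (wn k))) z1 z2
      exact ⟨y, u, v, h2, h3, h4, h1⟩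
  · -- thin sheets
    push Not at hfat
    obtain ⟨cq, Jq, hc, hBq, hq, hst, -⟩ := chartN hr hρ.le hV hT
    have hk := kN_pos hr hV
    have hge := a_le_kN hV
    have hkN : kN V = V.w 0 / 4 := rfl
    have hkkY : kN V ≤ Y := by rw [hkN]; linarith
    obtain ⟨cP, JP, p1, p2, p3, p4, p5, p6, p7⟩ := pjet hU hρ.le hY hk hkkY
      (by positivity : (0 : ℝ) ≤ 10 ^ 7 * W ^ 7 * Y) Λ0 (le_of_eq hΛ.symm) hBd
    obtain ⟨ε, hε⟩ : ∃ ε, ε = kN V / Y := ⟨_, rfl⟩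
    rw [← hε] at p4 p5 p6
    have ε0 : 0 < ε := by rw [hε]; positivity
    have εK : ε ≤ K * ε := le_mul_of_one_le_left ε0.le (by linarith)
    have hq' : ∀ ζ y u v, V.q (z0 + ρ * ζ) (cg (fr V.e V.w) T0 z0 ρ (1 / 4)
        (sF V z0 ρ T0 1) (sF V z0 ρ T0 2) (1 / 256) ζ y u v) =
        kN V * (cq + ev Jq y ![ζ, u, v]) := hq
    refine ⟨1 / 4, sF V z0 ρ T0 1, sF V z0 ρ T0 2, 1 / 256, kN V, 0, Λ, cq,
      cP, ε, 1, Jq, JP, ?_⟩
    refine ⟨by norm_num, by norm_num, by norm_num; linarith, hk.ne', Λ0, ΛY, YΛ, ?_, hq', ?_,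
      bd_mono hBq (by linarith), p1, fun i => (p2 i).trans (by linarith),
      fun i j => (p3 i j).trans (by linarith), p4.trans εK, p5.trans εK,
      fun i => (p6 i).trans εK, ?_, one_pos, le_rfl, ε0, ?_, ?_, ?_, ?_⟩
    · rw [abs_zero, zero_mul]; positivity
    · intro ζ y u v
      rw [zero_mul, sub_zero, ← p7]
      congr 1
      exact cN_eq T0 ζ y u v
    · intro y x h1 h2 h3
      refine le_trans ?_ (hst y x h1 h2 h3)
      rw [div_le_div_iff₀ hK0 (by norm_num)]; linarith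
    · rw [hε, div_le_one hY]; exact hkkY
    · rw [hε]
      have e : kN V / Y * 1 * Y = kN V := by field_simp
      rw [e, hkN]
      have h1 : V.w 0 / 4 ≤ 10 ^ 6 * (W * a) := by linarith
      have h2 : 10 ^ 6 * (W * a) ≤ K * a := by
        have : 10 ^ 6 * W * a ≤ K * a := mul_le_mul_of_nonneg_right (by linarith) ha.le
        linarith
      linarith
    · rw [abs_of_pos hk, mul_one]
      have h1 : 4 * kN V ≤ K * kN V := mul_le_mul_of_nonneg_right (by linarith) hk.le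
      linarith
    · intro T hT' hd ζ z1 z2
      obtain ⟨y, u, v, h1, h2, h3, h4⟩ := lineN hr hρ.le hV hT (T' := T)
        (fun k => (hd z0 le_rfl (by linarith) k).trans (div_le _ (wn k)))
        (fun k => (hd (z0 + ρ) (by linarith) le_rfl k).trans (div_le _ (wn k))) z1 z2
      exact ⟨y, u, v, h2, h3, h4, h1⟩

open Crest.Agent.R136.KapP335 (DetP)
open Crest.Agent.R136.Pl2W102 (Near)
open Crest.Agent.R136.Pl2 (kp Al1)
open Crest.Agent.R136.Hcp208 (Dims)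

/-- 501's `ubox` at `m = 1` -/
def UBx : Prop := ∀ (W Y a w1 w2 z0 ρ r : ℝ) (U V : Plk4) (T0 : Ln4),
    1 ≤ W → 0 < r → 0 < ρ → r ≤ ρ → 0 < a → Shp U z0 ρ r → Shp V z0 ρ r →
    InP T0 U z0 ρ → InP T0 V z0 ρ → Dims W a w1 w2 U → Dims W a w1 w2 V →
    Al1 W U V T0 a w1 w2 z0 ρ → DetP W⁻¹ U z0 ρ T0 → Near 4 Y (kp U z0 ρ T0) →
    10 ^ 8 * W ^ 8 * kp V z0 ρ T0 ≤ Y → 10 ^ 8 * W ^ 8 * a ≤ Y →
    ∀ z, z0 ≤ z → z ≤ z0 + ρ → ∀ p u v : ℝ, |p| ≤ 1 → |u| ≤ 1 → |v| ≤ 1 →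
      |U.q z (T0.pos z + (p * Y) • V.e 0 + u • tau V z0 ρ T0 1 + v • tau V z0 ρ T0 2)| ≤
        10 ^ 7 * W ^ 7 * Y

/-- **the chart of `V` (mixed curvatures)** -/
theorem chartMx_of (hU : UBx) : ChartMx := by
  refine ⟨40, by norm_num, ?_⟩
  intro W Y a w1 w2 z0 ρ r U V T0 hW hr hρ hrρ ha hSU hSV hTU hTV hDU hDV hAl hDet hYk hkV haY
  have h40 : (2 * W) ^ (40 : ℝ) = (2 * W) ^ 40 := by
    rw [show (40 : ℝ) = ((40 : ℕ) : ℝ) by norm_num, Real.rpow_natCast]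
  rw [h40] at hkV haY ⊢
  have hW0 : 0 < W := by linarith
  have hkp : 0 ≤ kp V z0 ρ T0 := mul_nonneg (w0_pos hr hSV).le (kap_nonneg _ _ _)
  have e40 : (2 * W) ^ 40 = 2 ^ 40 * W ^ 40 := by rw [mul_pow]
  have p1 : W ≤ W ^ 40 := le_self_pow₀ hW (by norm_num)
  have p7 : W ^ 7 ≤ W ^ 40 := pow_le_pow_right₀ hW (by norm_num)
  have p8 : W ^ 8 ≤ W ^ 40 := pow_le_pow_right₀ hW (by norm_num)
  have hW40 : 1 ≤ W ^ 40 := one_le_pow₀ hW
  have k1 : 10 ^ 8 * W ^ 8 ≤ (2 * W) ^ 40 := by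
    rw [e40]
    exact mul_le_mul (by norm_num) p8 (by positivity) (by norm_num)
  have k2 : 2 ^ 31 * W ^ 7 ≤ (2 * W) ^ 40 := by
    rw [e40]
    exact mul_le_mul (by norm_num) p7 (by positivity) (by norm_num)
  have k3 : 10 ^ 6 * W ≤ (2 * W) ^ 40 := by
    rw [e40]
    exact mul_le_mul (by norm_num) p1 (by positivity) (by norm_num)
  have k4 : 1 ≤ (2 * W) ^ 40 := one_le_pow₀ (by linarith)
  have c1 := (mul_le_mul_of_nonneg_right k1 hkp).trans hkV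
  have c2 := (mul_le_mul_of_nonneg_right k1 ha.le).trans haY
  have c3 := (mul_le_mul_of_nonneg_right k3 ha.le).trans haY
  have c4 := (mul_le_mul_of_nonneg_right k4 hkp).trans hkV
  rw [one_mul] at c4
  exact chart_core hW hr hρ ha hSV hTV hSU.isQ hDV.1.2 k2 c4 c3
    (hU W Y a w1 w2 z0 ρ r U V T0 hW hr hρ hrρ ha hSU hSV hTU hTV hDU hDV hAl hDet hYk c1 c2)

end Crest.Agent.R136.Nmy296
end

-- ▼ part R136/Nmx3_501

/-!
# R136 (U4, PLAN 2 (AL), case (A), [ND]): the curved sheet near the flat one (helper501)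

* `tan_pt`  : points of `V` over the tangent vectors at a line.
* `ubox`    : from `Al1`: `U.q` is `O(Y)` on the box spanned by `Y e₀` and the tangent vectors of `V`.
-/

set_option autoImplicit false
set_option linter.unusedVariables false

namespace Crest.Agent.R136.Nmx501

open Crest.Agent.R136.Sh605 Crest.Agent.R136.Pl2
open Crest.Agent.R136.Tl102
open Crest.Agent.R136.K4 (Plk4)
open Crest.Agent.R136.Tlt51 (Shp InP)
open Crest.Agent.R136.KapP335 (kapP expP expP_spec)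
open Crest.Agent.R136.Pl2W102 (Near)
open Crest.Agent.R136.Gbx862 (dt_frame dt_le_one)
open Crest.Agent.R136.Bl5667 (shp_pos)

/-- slopes of the sheet at the line -/
noncomputable def sl0 (S : Plk4) (z0 ρ : ℝ) (T : Ln4) (k : Fin 3) : ℝ :=
  (expP S z0 ρ T).1 k / (expP S z0 ρ T).1 0

/-- tangent vector number `k` -/
noncomputable def tau (S : Plk4) (z0 ρ : ℝ) (T : Ln4) (k : Fin 3) : V3 :=
  S.w k • S.e k - (sl0 S z0 ρ T k * S.w 0) • S.e 0

section V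

variable {V : Plk4} {T : Ln4} {z0 ρ r : ℝ}

theorem nrm_of (hr : 0 < r) (hρ : 0 ≤ ρ) (hV : Shp V z0 ρ r) (tV : InP T V z0 ρ) :
    NrmC (expP V z0 ρ T).1 (expP V z0 ρ T).2.1 (expP V z0 ρ T).2.2 := by
  obtain ⟨va, vw0, v2, v1⟩ := shp_pos hr hV
  exact (expP_spec hV.isQ vw0.ne' z0 ρ T).nrmC (StP.of_shN hV vw0) hρ
    (fun z h1 h2 => (tV z h1 h2).1)

theorem sl0_le (hr : 0 < r) (hρ : 0 ≤ ρ) (hV : Shp V z0 ρ r) (tV : InP T V z0 ρ) :
    |sl0 V z0 ρ T 1| ≤ 2 ∧ |sl0 V z0 ρ T 2| ≤ 2 := by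
  obtain ⟨-, -, -, -, -, -, -, s1, s2⟩ := (nrm_of hr hρ hV tV).b1_le
  exact ⟨s1, s2⟩


/-- value of `V.q` over a tangent vector at the lower end -/
theorem q_tan (hr : 0 < r) (hρ : 0 ≤ ρ) (hV : Shp V z0 ρ r) (tV : InP T V z0 ρ) {k : Fin 3}
    (hk : k = 1 ∨ k = 2) :
    |V.q z0 (T.pos z0 + (1 / 256 : ℝ) • tau V z0 ρ T k) - V.q z0 (T.pos z0)| ≤
      kapP V z0 ρ T / 65536 := by
  obtain ⟨va, vw0, v2, v1⟩ := shp_pos hr hV
  have hE := expP_spec hV.isQ vw0.ne' z0 ρ T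
  have N := nrm_of hr hρ hV tV
  have hb := N.b1_le.1
  have hb0 : (expP V z0 ρ T).1 0 ≠ 0 := by linarith
  set b0 := (expP V z0 ρ T).1 with hb0d
  set b1 := (expP V z0 ρ T).2.1 with hb1d
  set G := (expP V z0 ρ T).2.2 with hGd
  have k3 : |(shG b0 G).uu| ≤ kap b0 b1 G :=
    (le_max_left _ _).trans ((le_max_left _ _).trans (le_max_right _ _))
  have k5 : |(shG b0 G).vv| ≤ kap b0 b1 G := (le_max_right _ _).trans (le_max_right _ _)
  have key : ∀ u v : ℝ, V.q z0 (T.pos z0 + cmb (fr V.e V.w) (unsh b0 0 u v)) - V.q z0 (T.pos z0) =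
      V.w 0 * ((shG b0 G).uu * (u * u) + (shG b0 G).uv * (u * v) + (shG b0 G).vv * (v * v)) := by
    intro u v
    have h1 := hE 0 (unsh b0 0 u v)
    rw [mul_zero, add_zero] at h1
    rw [h1, Fq_unsh hb0]
    simp only [Fq, dt, bz, QF.ev, shB0, Matrix.cons_val]
    ring
  rcases hk with rfl | rfl
  · have h1 := key (1 / 256) 0
    have e1 : cmb (fr V.e V.w) (unsh b0 0 (1 / 256) 0) = (1 / 256 : ℝ) • tau V z0 ρ T 1 := by
      ext i
      simp only [cmb, fr, unsh, tau, sl0, Pi.smul_apply, Pi.sub_apply, smul_eq_mul,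
        Matrix.cons_val, ← hb0d]
      ring
    rw [e1] at h1
    rw [h1]
    have e2 : V.w 0 * ((shG b0 G).uu * (1 / 256 * (1 / 256)) + (shG b0 G).uv * (1 / 256 * 0) +
        (shG b0 G).vv * (0 * 0)) = V.w 0 * (shG b0 G).uu / 65536 := by ring
    rw [e2, abs_div, abs_mul, abs_of_pos vw0, abs_of_pos (by norm_num : (0:ℝ) < 65536)]
    apply div_le_div_of_nonneg_right _ (by norm_num)
    exact mul_le_mul_of_nonneg_left k3 vw0.le
  · have h1 := key 0 (1 / 256)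
    have e1 : cmb (fr V.e V.w) (unsh b0 0 0 (1 / 256)) = (1 / 256 : ℝ) • tau V z0 ρ T 2 := by
      ext i
      simp only [cmb, fr, unsh, tau, sl0, Pi.smul_apply, Pi.sub_apply, smul_eq_mul,
        Matrix.cons_val, ← hb0d]
      ring
    rw [e1] at h1
    rw [h1]
    have e2 : V.w 0 * ((shG b0 G).uu * (0 * 0) + (shG b0 G).uv * (0 * (1 / 256)) +
        (shG b0 G).vv * (1 / 256 * (1 / 256))) = V.w 0 * (shG b0 G).vv / 65536 := by ring
    rw [e2, abs_div, abs_mul, abs_of_pos vw0, abs_of_pos (by norm_num : (0:ℝ) < 65536)]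
    apply div_le_div_of_nonneg_right _ (by norm_num)
    exact mul_le_mul_of_nonneg_left k5 vw0.le

/-- components of `tau` in the own frame -/
theorem dt_tau (he : Ortho V.e) (k : Fin 3) (i : Fin 3) : dt (V.e i) (tau V z0 ρ T k) =
    V.w k * (if i = k then 1 else 0) - sl0 V z0 ρ T k * V.w 0 * (if i = 0 then 1 else 0) := by
  unfold tau
  rw [dt_sub, dt_smul, dt_smul, he i k, he i 0]

/-- `q` is continuous in `x` -/
theorem q_cont {q : ℝ → V3 → ℝ} (hq : IsQ q) (z : ℝ) (P e : V3) :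
    Continuous fun n : ℝ => q z (P + n • e) := by
  obtain ⟨c0, c1, c2, b, d, g, h⟩ := hq
  simp only [h, Pi.add_apply, Pi.smul_apply, smul_eq_mul]
  fun_prop

/-- **points of the sheet over the tangent vectors** -/
theorem tan_pt (hr : 0 < r) (hρ : 0 < ρ) (hV : Shp V z0 ρ r) (tV : InP T V z0 ρ) {k : Fin 3}
    (hk : k = 1 ∨ k = 2) : ∃ n : ℝ, |n| ≤ kapP V z0 ρ T / 32768 ∧
      InK V.e T (fun i => V.w i / 8) z0 (T.pos z0 + (1 / 256 : ℝ) • tau V z0 ρ T k + n • V.e 0) ∧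
      |V.q z0 (T.pos z0 + (1 / 256 : ℝ) • tau V z0 ρ T k + n • V.e 0)| ≤ V.a := by
  obtain ⟨va, vw0, v2, v1⟩ := shp_pos hr hV
  have hS := StP.of_shN hV vw0
  have hq := q_tan hr hρ.le hV tV hk
  have hTq := (tV z0 le_rfl (by linarith)).2
  have hTK := (tV z0 le_rfl (by linarith)).1
  obtain ⟨s1, s2⟩ := sl0_le hr hρ.le hV tV
  have hk13 : kapP V z0 ρ T ≤ 13 * V.w 0 := Bl5667.kp_le hr hρ.le hV tV
  have hk0 : 0 ≤ kapP V z0 ρ T := by
    unfold KapP335.kapP; exact mul_nonneg vw0.le (kap_nonneg _ _ _)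
  set P := T.pos z0 + (1 / 256 : ℝ) • tau V z0 ρ T k with hP
  have hsk : |sl0 V z0 ρ T k| ≤ 2 := by rcases hk with rfl | rfl; exacts [s1, s2]
  have hk00 : k ≠ 0 := by rcases hk with rfl | rfl <;> decide
  have w01 : V.w 0 ≤ V.w 1 := hV.w0_le.trans hV.w_le
  have wpos : ∀ i, 0 < V.w i := hS.pos
  have hbox : ∀ n : ℝ, |n| ≤ kapP V z0 ρ T / 32768 →
      InK V.e T (fun i => V.w i / 8) z0 (P + n • V.e 0) := by
    intro n hn i
    have hn' : |n| ≤ V.w 0 / 2000 := hn.trans (by linarith)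
    have e1 : dt (V.e i) (P + n • V.e 0 - T.pos z0) =
        1 / 256 * dt (V.e i) (tau V z0 ρ T k) + n * dt (V.e i) (V.e 0) := by
      have : P + n • V.e 0 - T.pos z0 = (1 / 256 : ℝ) • tau V z0 ρ T k + n • V.e 0 := by
        rw [hP]; ext j; simp only [Pi.add_apply, Pi.sub_apply]; ring
      rw [this, dt_add, dt_smul, dt_smul]
    rw [e1, dt_tau hS.ortho, hS.ortho i 0]
    have p := wpos i
    have hs0 : |sl0 V z0 ρ T k * V.w 0| ≤ 2 * V.w 0 := by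
      rw [abs_mul, abs_of_pos vw0]; exact mul_le_mul_of_nonneg_right hsk vw0.le
    rw [abs_le] at hs0 hn' ⊢
    by_cases h0 : i = 0
    · subst h0
      simp only [if_neg hk00.symm, if_true, mul_zero, mul_one, zero_sub]
      constructor <;> linarith [hs0.1, hs0.2, hn'.1, hn'.2]
    · by_cases h1 : i = k
      · subst h1
        simp only [if_true, if_neg h0, mul_zero, mul_one, sub_zero]
        constructor <;> linarith [hn'.1, hn'.2]
      · simp only [if_neg h0, if_neg h1, mul_zero, sub_zero, add_zero]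
        constructor <;> linarith
  have hdbl : ∀ n : ℝ, |n| ≤ kapP V z0 ρ T / 32768 →
      InK V.e V.c (dbl3 V.w) z0 (P + n • V.e 0) := by
    intro n hn i
    have h1 := hbox n hn i
    have h2 := hTK i
    have e1 : dt (V.e i) (P + n • V.e 0 - V.c.pos z0) =
        dt (V.e i) (P + n • V.e 0 - T.pos z0) + dt (V.e i) (T.pos z0 - V.c.pos z0) := by
      simp only [dt, Pi.sub_apply]; ring
    rw [e1]
    refine (abs_add_le _ _).trans ?_
    change _ ≤ 2 * V.w i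
    have p := wpos i
    simp only at h1
    linarith
  have hc := q_cont hV.isQ z0 P (V.e 0)
  set N := kapP V z0 ρ T / 32768 with hN
  have hN0 : 0 ≤ N := by positivity
  have hNa : |N| ≤ kapP V z0 ρ T / 32768 := by rw [abs_of_nonneg hN0]
  have hNa' : |-N| ≤ kapP V z0 ρ T / 32768 := by rw [abs_neg, abs_of_nonneg hN0]
  have hN2 : N / 2 = kapP V z0 ρ T / 65536 := by rw [hN]; ring
  have z0a : |(0:ℝ)| ≤ kapP V z0 ρ T / 32768 := by rw [abs_zero]; positivity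
  have d0 := hdbl 0 z0a
  rw [zero_smul, add_zero] at d0
  rcases le_total |V.q z0 P| V.a with h | h
  · exact ⟨0, z0a, hbox 0 z0a, by rw [zero_smul, add_zero]; exact h⟩
  · have hqb := abs_le.1 hq
    have hTb := abs_le.1 hTq
    rcases le_total 0 (V.q z0 P) with h0 | h0
    · rw [abs_of_nonneg h0] at h
      -- move down
      have s := (hS.st0 z0 le_rfl (by linarith) (P + (-N) • V.e 0) N hN0 (hdbl _ hNa')
        (by rw [add_assoc, ← add_smul, neg_add_cancel, zero_smul, add_zero]; exact d0)).1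
      rw [add_assoc, ← add_smul, neg_add_cancel, zero_smul, add_zero] at s
      have hlow : V.q z0 (P + (-N) • V.e 0) ≤ V.a := by linarith [hqb.2, hTb.2]
      have ivt := intermediate_value_Icc (by linarith : -N ≤ 0) hc.continuousOn
      have hmem : V.a ∈ Set.Icc (V.q z0 (P + (-N) • V.e 0)) (V.q z0 (P + (0:ℝ) • V.e 0)) := by
        rw [zero_smul, add_zero]; exact ⟨hlow, h⟩
      obtain ⟨n, hn, hn'⟩ := ivt hmem
      have hna : |n| ≤ kapP V z0 ρ T / 32768 := abs_le.2 ⟨hn.1, hn.2.trans hN0⟩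
      refine ⟨n, hna, hbox n hna, ?_⟩
      rw [show V.q z0 (P + n • V.e 0) = V.a from hn', abs_of_pos va]
    · rw [abs_of_nonpos h0] at h
      have s := (hS.st0 z0 le_rfl (by linarith) P N hN0 d0 (hdbl _ hNa)).1
      have hup : -V.a ≤ V.q z0 (P + N • V.e 0) := by linarith [hqb.1, hTb.1]
      have ivt := intermediate_value_Icc hN0 hc.continuousOn
      have hmem : -V.a ∈ Set.Icc (V.q z0 (P + (0:ℝ) • V.e 0)) (V.q z0 (P + N • V.e 0)) := by
        rw [zero_smul, add_zero]; exact ⟨by linarith, hup⟩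
      obtain ⟨n, hn, hn'⟩ := ivt hmem
      have hna : |n| ≤ kapP V z0 ρ T / 32768 := abs_le.2 ⟨by linarith [hn.1], hn.2⟩
      refine ⟨n, hna, hbox n hna, ?_⟩
      rw [show V.q z0 (P + n • V.e 0) = -V.a from hn', abs_neg, abs_of_pos va]

end V

section U

variable {U V : Plk4} {T : Ln4} {z0 ρ r W Y a w1 w2 : ℝ}

set_option maxHeartbeats 2000000 in
/-- **`U.q` is `O(Y)` on the box of `Y e₀` and the tangent vectors of `V`** -/
theorem ubox (hW : 1 ≤ W) (hr : 0 < r) (hρ : 0 < ρ) (hU : Shp U z0 ρ r) (hV : Shp V z0 ρ r)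
    (tU : InP T U z0 ρ) (tV : InP T V z0 ρ) (dU : Hcp208.Dims W a w1 w2 U)
    (dV : Hcp208.Dims W a w1 w2 V) (hA : Al1 W U V T a w1 w2 z0 ρ) (hY : Near 4 Y (kp U z0 ρ T))
    (hk : kp V z0 ρ T ≤ kp U z0 ρ T) {m : ℝ} (hm : 1 ≤ m) {z : ℝ} (hz : z0 ≤ z) (hz' : z ≤ z0 + ρ)
    {p u v : ℝ} (hp : |p| ≤ m) (hu : |u| ≤ m) (hv : |v| ≤ m) :
    |U.q z (T.pos z + (p * Y) • V.e 0 + u • tau V z0 ρ T 1 + v • tau V z0 ρ T 2)| ≤
      10 ^ 7 * W ^ 7 * m ^ 2 * Y := by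
  obtain ⟨va, vw0, v2, v1⟩ := shp_pos hr hV
  obtain ⟨ua, uw0, u2, u1⟩ := shp_pos hr hU
  have hSV := StP.of_shN hV vw0
  have hSU := StP.of_shN hU uw0
  obtain ⟨f, g, hf, hFL, hg, t1, t2, -, -⟩ := hA.fr
  obtain ⟨-, ⟨dU1, dU1'⟩, ⟨dU2, dU2'⟩⟩ := dU
  obtain ⟨-, ⟨dV1, dV1'⟩, ⟨dV2, dV2'⟩⟩ := dV
  set Y1 := kp U z0 ρ T with hY1
  have hW0 : 0 < W := by linarith
  have hm0 : 0 < m := by linarith
  obtain ⟨hYa, hYb⟩ := hY
  have hk13 : Y1 ≤ 13 * U.w 0 := Bl5667.kp_le hr hρ.le hU tU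
  have hkV0 : 0 ≤ kapP V z0 ρ T := by
    unfold KapP335.kapP; exact mul_nonneg vw0.le (kap_nonneg _ _ _)
  have hkV : kapP V z0 ρ T ≤ Y1 := hk
  have Y10 : 0 ≤ Y1 := hkV0.trans hkV
  have hY0 : 0 ≤ Y := by linarith
  obtain ⟨s1, s2⟩ := sl0_le hr hρ.le hV tV
  have w1p : 0 < w1 := pos_of_mul_pos_right (v1.trans_le dV1') hW0.le
  have w2p : 0 < w2 := pos_of_mul_pos_right (v2.trans_le dV2') hW0.le
  have hv0 : V.w 0 ≤ V.w 2 := hV.w0_le
  have hv21 : V.w 2 ≤ V.w 1 := hV.w_le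
  have hu0 : U.w 0 ≤ U.w 2 := hU.w0_le
  have hu21 : U.w 2 ≤ U.w 1 := hU.w_le
  -- (general) size of the tangent vectors
  have hse : ∀ (e : V3) (k : Fin 3), dt e e = 1 → |sl0 V z0 ρ T k| ≤ 2 →
      |dt e (tau V z0 ρ T k)| ≤ V.w k * |dt e (V.e k)| + 2 * V.w 0 := by
    intro e k he hs
    have h0 : |dt e (V.e 0)| ≤ 1 := Gbx862.dt_le_one he (by simpa using hSV.ortho 0 0)
    have : dt e (tau V z0 ρ T k) = V.w k * dt e (V.e k) - sl0 V z0 ρ T k * V.w 0 * dt e (V.e 0) := by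
      unfold tau; rw [dt_sub, dt_smul, dt_smul]
    rw [this]
    refine (abs_sub _ _).trans ?_
    rw [abs_mul, abs_mul (sl0 V z0 ρ T k * V.w 0), abs_mul, abs_of_pos (hSV.pos k), abs_of_pos vw0]
    have h1 : |sl0 V z0 ρ T k| * V.w 0 * |dt e (V.e 0)| ≤ 2 * V.w 0 * 1 := by
      apply mul_le_mul _ h0 (abs_nonneg _) (by positivity)
      exact mul_le_mul_of_nonneg_right hs vw0.le
    linarith
  have fo : ∀ i, dt (f i) (f i) = 1 := fun i => by simpa using hf.ortho i i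
  have go : ∀ i, dt (g i) (g i) = 1 := fun i => by simpa using hg.ortho i i
  have vo : ∀ i, dt (V.e i) (V.e i) = 1 := fun i => by simpa using hSV.ortho i i
  have fle : ∀ (i k : Fin 3), |dt (f i) (V.e k)| ≤ 1 := fun i k => Gbx862.dt_le_one (fo i) (vo k)
  have gle : ∀ (i k : Fin 3), |dt (g i) (V.e k)| ≤ 1 := fun i k => Gbx862.dt_le_one (go i) (vo k)
  have fgle : ∀ (i k : Fin 3), |dt (f i) (g k)| ≤ 1 := fun i k => Gbx862.dt_le_one (fo i) (go k)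
  -- step A
  have hA0 : ∀ k : Fin 3, k = 1 ∨ k = 2 → |dt (g 0) (tau V z0 ρ T k)| ≤ 512 * W * Y1 := by
    intro k hk12
    obtain ⟨n, hn, hK, hqn⟩ := tan_pt hr hρ hV tV hk12
    have h1 := hg.pt T tV z0 le_rfl (by linarith) _ hK hqn
    have e1 : dt (g 0) (T.pos z0 + (1 / 256 : ℝ) • tau V z0 ρ T k + n • V.e 0 - T.pos z0) =
        1 / 256 * dt (g 0) (tau V z0 ρ T k) + n * dt (g 0) (V.e 0) := by
      rw [← dt_smul, ← dt_smul, ← dt_add]
      congr 1; ext j; simp only [Pi.add_apply, Pi.sub_apply]; ring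
    rw [e1] at h1
    have h2 : |n * dt (g 0) (V.e 0)| ≤ Y1 := by
      rw [abs_mul]
      have := mul_le_mul (hn.trans (by linarith : kapP V z0 ρ T / 32768 ≤ Y1)) (gle 0 0)
        (abs_nonneg _) Y10
      linarith
    have hWY : Y1 ≤ W * Y1 := by nlinarith
    rw [abs_le] at h1 h2 ⊢
    constructor <;> linarith [h1.1, h1.2, h2.1, h2.2]
  -- components along g 1, g 2
  have hWle : ∀ {x : ℝ}, 0 ≤ x → x ≤ W * x := fun {x} hx => by nlinarith
  have g1t : ∀ k : Fin 3, k = 1 ∨ k = 2 → |dt (g 1) (tau V z0 ρ T k)| ≤ 3 * W * w1 := by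
    rintro k (rfl | rfl)
    · have := hse (g 1) 1 (go 1) s1
      have h2 := mul_le_mul_of_nonneg_left (gle 1 1) v1.le
      linarith
    · have := hse (g 1) 2 (go 1) s2
      have h2 := mul_le_mul_of_nonneg_left (gle 1 2) v2.le
      linarith
  have g2t : ∀ k : Fin 3, k = 1 ∨ k = 2 → |dt (g 2) (tau V z0 ρ T k)| ≤ 3 * W ^ 2 * w2 := by
    rintro k (rfl | rfl)
    · have h1 := hse (g 2) 1 (go 2) s1
      have h2 := hg.e21
      have h3 : V.w 1 * |dt (g 2) (V.e 1)| + 2 * V.w 0 ≤ 3 * W * V.w 2 := by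
        have := hWle v2.le
        linarith [mul_comm (V.w 1) |dt (g 2) (V.e 1)|]
      have h4 : 3 * W * V.w 2 ≤ 3 * W * (W * w2) := mul_le_mul_of_nonneg_left dV2' (by positivity)
      calc _ ≤ _ := h1
        _ ≤ _ := h3
        _ ≤ _ := h4
        _ = _ := by ring
    · have h1 := hse (g 2) 2 (go 2) s2
      have h2 := mul_le_mul_of_nonneg_left (gle 2 2) v2.le
      have h3 : V.w 2 * |dt (g 2) (V.e 2)| + 2 * V.w 0 ≤ 3 * V.w 2 := by linarith
      have h4 : 3 * V.w 2 ≤ 3 * (W * w2) := mul_le_mul_of_nonneg_left dV2' (by positivity)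
      have h5 := hWle (mul_nonneg hW0.le w2p.le)
      calc _ ≤ _ := h1
        _ ≤ _ := h3
        _ ≤ _ := h4
        _ ≤ _ := by nlinarith
  -- step B
  have W3a : W * Y1 ≤ W ^ 3 * Y1 := by
    have : W ≤ W ^ 3 := le_self_pow₀ hW (by norm_num)
    exact mul_le_mul_of_nonneg_right this Y10
  have W3b : W ^ 2 * Y1 ≤ W ^ 3 * Y1 := by
    have : W ^ 2 ≤ W ^ 3 := pow_le_pow_right₀ hW (by norm_num)
    exact mul_le_mul_of_nonneg_right this Y10
  have hB : ∀ k : Fin 3, k = 1 ∨ k = 2 → |dt (f 0) (tau V z0 ρ T k)| ≤ 518 * W ^ 3 * Y1 := by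
    intro k hk12
    rw [Gbx862.dt_frame hg.ortho (f 0)]
    have a0 : |dt (f 0) (g 0) * dt (g 0) (tau V z0 ρ T k)| ≤ 512 * W * Y1 := by
      rw [abs_mul]
      calc _ ≤ 1 * (512 * W * Y1) := mul_le_mul (fgle 0 0) (hA0 k hk12) (abs_nonneg _) zero_le_one
        _ = _ := by ring
    have a1 : |dt (f 0) (g 1) * dt (g 1) (tau V z0 ρ T k)| ≤ 3 * W ^ 2 * Y1 := by
      rw [abs_mul]
      calc _ ≤ |dt (f 0) (g 1)| * (3 * W * w1) :=
            mul_le_mul_of_nonneg_left (g1t k hk12) (abs_nonneg _)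
        _ = 3 * W * (|dt (f 0) (g 1)| * w1) := by ring
        _ ≤ 3 * W * (W * Y1) := mul_le_mul_of_nonneg_left t1 (by positivity)
        _ = _ := by ring
    have a2 : |dt (f 0) (g 2) * dt (g 2) (tau V z0 ρ T k)| ≤ 3 * W ^ 3 * Y1 := by
      rw [abs_mul]
      calc _ ≤ |dt (f 0) (g 2)| * (3 * W ^ 2 * w2) :=
            mul_le_mul_of_nonneg_left (g2t k hk12) (abs_nonneg _)
        _ = 3 * W ^ 2 * (|dt (f 0) (g 2)| * w2) := by ring
        _ ≤ 3 * W ^ 2 * (W * Y1) := mul_le_mul_of_nonneg_left t2 (by positivity)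
        _ = _ := by ring
    rw [abs_le] at a0 a1 a2 ⊢
    constructor <;> linarith [a0.1, a0.2, a1.1, a1.2, a2.1, a2.2]
  -- the vector
  set D : V3 := (p * Y) • V.e 0 + u • tau V z0 ρ T 1 + v • tau V z0 ρ T 2 with hD
  have hx : T.pos z + (p * Y) • V.e 0 + u • tau V z0 ρ T 1 + v • tau V z0 ρ T 2 = T.pos z + D := by
    rw [hD]; ext j; simp only [Pi.add_apply]; ring
  have hxD : T.pos z + D - T.pos z = D := by ext j; simp only [Pi.add_apply, Pi.sub_apply]; ring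
  have hDe : ∀ e : V3, dt e D = p * Y * dt e (V.e 0) + u * dt e (tau V z0 ρ T 1) +
      v * dt e (tau V z0 ρ T 2) := fun e => by rw [hD, dt_add, dt_add, dt_smul, dt_smul, dt_smul]
  have hDle : ∀ (e : V3) {A1 A2 : ℝ}, dt e e = 1 → |dt e (tau V z0 ρ T 1)| ≤ A1 →
      |dt e (tau V z0 ρ T 2)| ≤ A2 → |dt e D| ≤ m * Y + m * A1 + m * A2 := by
    intro e A1 A2 he h1 h2
    rw [hDe]
    have h0 : |dt e (V.e 0)| ≤ 1 := Gbx862.dt_le_one he (vo 0)
    have b0 : |p * Y * dt e (V.e 0)| ≤ m * Y := by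
      rw [abs_mul, abs_mul, abs_of_nonneg hY0]
      calc _ ≤ m * Y * 1 := mul_le_mul (mul_le_mul_of_nonneg_right hp hY0) h0 (abs_nonneg _)
            (by positivity)
        _ = _ := by ring
    have b1 : |u * dt e (tau V z0 ρ T 1)| ≤ m * A1 := by
      rw [abs_mul]; exact mul_le_mul hu h1 (abs_nonneg _) hm0.le
    have b2 : |v * dt e (tau V z0 ρ T 2)| ≤ m * A2 := by
      rw [abs_mul]; exact mul_le_mul hv h2 (abs_nonneg _) hm0.le
    rw [abs_le] at b0 b1 b2 ⊢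
    constructor <;> linarith [b0.1, b0.2, b1.1, b1.2, b2.1, b2.2]
  have hYU : Y ≤ 52 * U.w 0 := by linarith
  set m' := 1040 * W ^ 3 * m with hm'
  have W31 : 1 ≤ W ^ 3 := one_le_pow₀ hW
  have W21 : W ^ 2 ≤ W ^ 3 := pow_le_pow_right₀ hW (by norm_num)
  have m'1 : 1 ≤ m' := by
    have : 1 * 1 ≤ W ^ 3 * m := mul_le_mul W31 hm zero_le_one (by positivity)
    rw [hm']; linarith [mul_assoc 1040 (W ^ 3) m]
  -- f 0
  have F0 : |dt (f 0) D| ≤ m' * Y1 := by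
    refine (hDle (f 0) (fo 0) (hB 1 (Or.inl rfl)) (hB 2 (Or.inr rfl))).trans ?_
    have h1 : m * Y ≤ m * (4 * Y1) := mul_le_mul_of_nonneg_left hYa hm0.le
    have h2 : m * (4 * Y1) ≤ 4 * (W ^ 3 * m) * Y1 := by
      have : m ≤ W ^ 3 * m := by nlinarith
      nlinarith
    rw [hm']
    linarith
  have uw2W : ∀ {x : ℝ}, 0 ≤ x → x ≤ W ^ 3 * x := fun {x} hx => by nlinarith
  -- f 1
  have F1 : |dt (f 1) D| ≤ m' * U.w 1 := by
    have hw1 : V.w 1 ≤ W ^ 2 * U.w 1 := by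
      calc V.w 1 ≤ W * w1 := dV1'
        _ ≤ W * (W * U.w 1) := mul_le_mul_of_nonneg_left dU1 hW0.le
        _ = _ := by ring
    have c1 : |dt (f 1) (tau V z0 ρ T 1)| ≤ 3 * (W ^ 2 * U.w 1) := by
      have := hse (f 1) 1 (fo 1) s1
      have h2 := mul_le_mul_of_nonneg_left (fle 1 1) v1.le
      linarith
    have c2 : |dt (f 1) (tau V z0 ρ T 2)| ≤ 3 * (W ^ 2 * U.w 1) := by
      have := hse (f 1) 2 (fo 1) s2
      have h2 := mul_le_mul_of_nonneg_left (fle 1 2) v2.le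
      linarith
    refine (hDle (f 1) (fo 1) c1 c2).trans ?_
    have h1 : m * Y ≤ m * (52 * U.w 1) := mul_le_mul_of_nonneg_left (by linarith) hm0.le
    have h3 : W ^ 2 * (m * U.w 1) ≤ W ^ 3 * (m * U.w 1) :=
      mul_le_mul_of_nonneg_right W21 (by positivity)
    have h4 : m * U.w 1 ≤ W ^ 3 * (m * U.w 1) := uw2W (by positivity)
    have h5 : 0 ≤ W ^ 3 * (m * U.w 1) := by positivity
    have e : m' * U.w 1 = 1040 * (W ^ 3 * (m * U.w 1)) := by rw [hm']; ring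
    have e2 : m * (3 * (W ^ 2 * U.w 1)) = 3 * (W ^ 2 * (m * U.w 1)) := by ring
    rw [e, e2]
    linarith
  -- f 2
  have F2 : |dt (f 2) D| ≤ m' * U.w 2 := by
    have hw2 : V.w 2 ≤ W ^ 2 * U.w 2 := by
      calc V.w 2 ≤ W * w2 := dV2'
        _ ≤ W * (W * U.w 2) := mul_le_mul_of_nonneg_left dU2 hW0.le
        _ = _ := by ring
    have c2 : |dt (f 2) (tau V z0 ρ T 2)| ≤ 3 * (W ^ 3 * U.w 2) := by
      have := hse (f 2) 2 (fo 2) s2
      have h2 := mul_le_mul_of_nonneg_left (fle 2 2) v2.le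
      have h3 : W ^ 2 * U.w 2 ≤ W ^ 3 * U.w 2 := mul_le_mul_of_nonneg_right W21 u2.le
      linarith
    have c1 : |dt (f 2) (tau V z0 ρ T 1)| ≤ 5 * (W ^ 3 * U.w 2) := by
      have h1 := hse (f 2) 1 (fo 2) s1
      have hang := hA.ang
      have a01 : |dt (U.e 0) (V.e 1)| ≤ angC U V := (le_max_left _ _).trans (le_max_right _ _)
      have a21 : |dt (U.e 2) (V.e 1)| ≤ angC U V := (le_max_right _ _).trans (le_max_right _ _)
      have ang0 : 0 ≤ angC U V := (abs_nonneg _).trans a01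
      have uo : ∀ i, dt (U.e i) (U.e i) = 1 := fun i => by simpa using hSU.ortho i i
      have f20 : |dt (f 2) (U.e 0)| ≤ 1 := Gbx862.dt_le_one (fo 2) (uo 0)
      have f22 : |dt (f 2) (U.e 2)| ≤ 1 := Gbx862.dt_le_one (fo 2) (uo 2)
      have n11 : |dt (U.e 1) (V.e 1)| ≤ 1 := Gbx862.dt_le_one (uo 1) (vo 1)
      have ex : |dt (f 2) (V.e 1)| ≤ angC U V + |dt (f 2) (U.e 1)| + angC U V := by
        rw [Gbx862.dt_frame hSU.ortho (f 2) (V.e 1)]
        have b0 : |dt (f 2) (U.e 0) * dt (U.e 0) (V.e 1)| ≤ angC U V := by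
          rw [abs_mul]
          calc _ ≤ 1 * angC U V := mul_le_mul f20 a01 (abs_nonneg _) zero_le_one
            _ = _ := one_mul _
        have b1 : |dt (f 2) (U.e 1) * dt (U.e 1) (V.e 1)| ≤ |dt (f 2) (U.e 1)| := by
          rw [abs_mul]
          calc _ ≤ |dt (f 2) (U.e 1)| * 1 := mul_le_mul_of_nonneg_left n11 (abs_nonneg _)
            _ = _ := mul_one _
        have b2 : |dt (f 2) (U.e 2) * dt (U.e 2) (V.e 1)| ≤ angC U V := by
          rw [abs_mul]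
          calc _ ≤ 1 * angC U V := mul_le_mul f22 a21 (abs_nonneg _) zero_le_one
            _ = _ := one_mul _
        refine (abs_add_le _ _).trans ?_
        linarith [abs_add_le (dt (f 2) (U.e 0) * dt (U.e 0) (V.e 1))
          (dt (f 2) (U.e 1) * dt (U.e 1) (V.e 1))]
      have h21 := hf.e21
      -- V.w 1 * angC
      have p1 : V.w 1 * angC U V ≤ W ^ 3 * U.w 2 := by
        calc V.w 1 * angC U V ≤ W * w1 * angC U V := mul_le_mul_of_nonneg_right dV1' ang0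
          _ = W * (angC U V * w1) := by ring
          _ ≤ W * (W * w2) := mul_le_mul_of_nonneg_left hang hW0.le
          _ ≤ W * (W * (W * U.w 2)) := by
              apply mul_le_mul_of_nonneg_left _ hW0.le
              exact mul_le_mul_of_nonneg_left dU2 hW0.le
          _ = _ := by ring
      have p2 : V.w 1 * |dt (f 2) (U.e 1)| ≤ W ^ 3 * U.w 2 := by
        calc V.w 1 * |dt (f 2) (U.e 1)| ≤ W * (W * U.w 1) * |dt (f 2) (U.e 1)| := by
              apply mul_le_mul_of_nonneg_right _ (abs_nonneg _)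
              exact dV1'.trans (mul_le_mul_of_nonneg_left dU1 hW0.le)
          _ = W ^ 2 * (|dt (f 2) (U.e 1)| * U.w 1) := by ring
          _ ≤ W ^ 2 * (W * U.w 2) := mul_le_mul_of_nonneg_left h21 (by positivity)
          _ = _ := by ring
      have p3 : V.w 1 * |dt (f 2) (V.e 1)| ≤ 3 * (W ^ 3 * U.w 2) := by
        have := mul_le_mul_of_nonneg_left ex v1.le
        linarith
      have h3 : W ^ 2 * U.w 2 ≤ W ^ 3 * U.w 2 := mul_le_mul_of_nonneg_right W21 u2.le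
      linarith
    refine (hDle (f 2) (fo 2) c1 c2).trans ?_
    have h1 : m * Y ≤ m * (52 * U.w 2) := mul_le_mul_of_nonneg_left (by linarith) hm0.le
    have h4 : m * U.w 2 ≤ W ^ 3 * (m * U.w 2) := uw2W (by positivity)
    have e : m' * U.w 2 = 1040 * (W ^ 3 * (m * U.w 2)) := by rw [hm']; ring
    have h5 : 0 ≤ W ^ 3 * (m * U.w 2) := by positivity
    have e2 : m * (3 * (W ^ 3 * U.w 2)) = 3 * (W ^ 3 * (m * U.w 2)) := by ring
    have e3 : m * (5 * (W ^ 3 * U.w 2)) = 5 * (W ^ 3 * (m * U.w 2)) := by ring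
    rw [e, e2, e3]
    linarith
  -- conclusion
  obtain ⟨b0, hb1, hb2, key⟩ := hFL T tU
  have hb0 : 0 ≤ b0 := (pos_of_mul_pos_right (lt_of_lt_of_le one_pos hb1) hW0.le).le
  have K := key m' m'1 z hz hz' (T.pos z + D) (by rw [hxD]; exact F0) (by rw [hxD]; exact F1)
    (by rw [hxD]; exact F2)
  rw [hxD] at K
  rw [hx]
  have hb : |b0 * dt (f 0) D| ≤ W * (m' * Y1) := by
    rw [abs_mul, abs_of_nonneg hb0]; exact mul_le_mul hb2 F0 (abs_nonneg _) hW0.le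
  have hmm : m' ≤ m' ^ 2 := by nlinarith
  have h1 : W * (m' * Y1) ≤ W * m' ^ 2 * Y1 := by
    calc W * (m' * Y1) = m' * (W * Y1) := by ring
      _ ≤ m' ^ 2 * (W * Y1) := mul_le_mul_of_nonneg_right hmm (by positivity)
      _ = _ := by ring
  have h2 : |U.q z (T.pos z + D)| ≤ 2 * (W * m' ^ 2 * Y1) := by
    rw [abs_le] at K hb ⊢
    constructor <;> linarith [K.1, K.2, hb.1, hb.2]
  refine h2.trans ?_
  have h3 : 2 * (W * m' ^ 2 * Y1) = 2163200 * (W ^ 7 * m ^ 2) * Y1 := by rw [hm']; ring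
  rw [h3]
  have h4 : 2163200 * (W ^ 7 * m ^ 2) * Y1 ≤ 2163200 * (W ^ 7 * m ^ 2) * (4 * Y) :=
    mul_le_mul_of_nonneg_left hYb (by positivity)
  have h5 : 0 ≤ W ^ 7 * m ^ 2 * Y := by positivity
  have h6 : 2163200 * (W ^ 7 * m ^ 2) * (4 * Y) = 8652800 * (W ^ 7 * m ^ 2 * Y) := by ring
  have h7 : 10 ^ 7 * W ^ 7 * m ^ 2 * Y = 10000000 * (W ^ 7 * m ^ 2 * Y) := by ring
  rw [h7]
  rw [h6] at h4
  linarith

end U

end Crest.Agent.R136.Nmx501
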