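import Mathlib
import Crest.Agent.R136.Mxd_615
import Crest.Agent.R136.Cap3_102
import Crest.Agent.R136.KapP_335
import Crest.Agent.R136.Tlt0_51
import Crest.Agent.R136.Asm1_102
import Crest.Agent.R136.AlD_601
import Crest.Agent.R136.Amd_84

-- ▼ part R136/Mxe_615
section

/-!
# R136 (U4, PLAN 2 (AL), mixed curvatures): the jet of a sheet along its own line (helper615)

* `ownJ`      : jet of a sheet at a point of one of its lines (601's `jet_exp`).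
* `own_lf_le` : tangential Hessian at most `130 κ + 1000 a`.
* `own_det`   : determinant of the tangential Hessian at least `2 ^ 24 δ κ ^ 3` (`DetP δ`).
-/

set_option autoImplicit false
set_option linter.unusedVariables false

namespace Crest.Agent.R136.Mxc615

open Crest.Agent.R136.Rk601
open Crest.Agent.R136.Sh605 Crest.Agent.R136.Tl102
open Crest.Agent.R136.Arc880 (det3)

/-! ### the fan, unscaled -/

theorem slp_eq {b0 b1 : V3} {ζ : ℝ} (h0 : b0 0 ≠ 0) (h1 : b0 0 + ζ * b1 0 ≠ 0) (k : Fin 3) :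
    slp b0 b1 k ζ = -(b0 k / b0 0) + -(ζ * (b1 k - b0 k / b0 0 * b1 0)) / (b0 0 + ζ * b1 0) := by
  unfold slp
  field_simp
  ring

/-- bounds of the entries of the fan by the curvature extent -/
theorem fan_dir {b0 b1 : V3} {G : QF} (N : NrmC b0 b1 G) {ζ : ℝ} (hζ : 0 ≤ ζ) (hζ' : ζ ≤ 1) :
    1 / 2 ≤ b0 0 + ζ * b1 0 ∧ b0 0 + ζ * b1 0 ≤ 2 ∧
    |slp b0 b1 1 ζ| ≤ 2 ∧ |slp b0 b1 2 ζ| ≤ 2 ∧
    |b1 1 + b1 0 * slp b0 b1 1 ζ| ≤ 4 * kap b0 b1 G ∧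
    |b1 2 + b1 0 * slp b0 b1 2 ζ| ≤ 4 * kap b0 b1 G ∧
    |G.uu + G.yu * slp b0 b1 1 ζ + G.yy * slp b0 b1 1 ζ ^ 2| ≤ 63 * kap b0 b1 G ∧
    |G.uv + G.yu * slp b0 b1 2 ζ + G.yv * slp b0 b1 1 ζ +
      2 * G.yy * (slp b0 b1 1 ζ * slp b0 b1 2 ζ)| ≤ 125 * kap b0 b1 G ∧
    |G.vv + G.yv * slp b0 b1 2 ζ + G.yy * slp b0 b1 2 ζ ^ 2| ≤ 63 * kap b0 b1 G := by
  obtain ⟨g1, g2, g3, g4, g5, -, -, -, -⟩ := N.b1_le
  obtain ⟨h1, h2, h3, h4, h5, h6, h7⟩ := N.sh_le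
  obtain ⟨m1, -⟩ := N.G_le
  have hk := kap_le N
  set κ := kap b0 b1 G with hκ
  have hκ0 : 0 ≤ κ := kap_nonneg b0 b1 G
  have k1 : |shB1 b0 b1 1| ≤ κ := (le_max_left _ _).trans (le_max_left _ _)
  have k2 : |shB1 b0 b1 2| ≤ κ := (le_max_right _ _).trans (le_max_left _ _)
  have k3 : |(shG b0 G).uu| ≤ κ :=
    (le_max_left _ _).trans ((le_max_left _ _).trans (le_max_right _ _))
  have k4 : |(shG b0 G).uv| ≤ κ :=
    (le_max_right _ _).trans ((le_max_left _ _).trans (le_max_right _ _))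
  have k5 : |(shG b0 G).vv| ≤ κ := (le_max_right _ _).trans (le_max_right _ _)
  have hn : 1 / 2 ≤ b0 0 + ζ * b1 0 := by nlinarith
  have hn' : b0 0 + ζ * b1 0 ≤ 2 := by nlinarith
  have hn0 : 0 < b0 0 + ζ * b1 0 := by linarith
  have hb : b0 0 ≠ 0 := by linarith
  have sb : ∀ k : Fin 3, |b0 k| ≤ 1 → |b0 k + b1 k| ≤ 1 → |slp b0 b1 k ζ| ≤ 2 := by
    intro k hk0 hk1
    unfold slp
    rw [abs_div, abs_of_pos hn0, div_le_iff₀ hn0, abs_neg]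
    have e : b0 k + ζ * b1 k = (1 - ζ) * b0 k + ζ * (b0 k + b1 k) := by ring
    have : |b0 k + ζ * b1 k| ≤ 1 := by
      rw [e]
      refine (abs_add_le _ _).trans ?_
      rw [abs_mul, abs_mul, abs_of_nonneg hζ, abs_of_nonneg (by linarith : 0 ≤ 1 - ζ)]
      nlinarith
    linarith
  have s1 := sb 1 N.b01 N.b11
  have s2 := sb 2 N.b02 N.b12
  -- deviations of the slopes
  have dv : ∀ x : ℝ, |x| ≤ κ → |-(ζ * x) / (b0 0 + ζ * b1 0)| ≤ 2 * κ := by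
    intro x hx
    rw [abs_div, abs_of_pos hn0, div_le_iff₀ hn0, abs_neg, abs_mul, abs_of_nonneg hζ]
    have := abs_nonneg x
    nlinarith
  have e1 := slp_eq hb hn0.ne' 1
  have e2 := slp_eq hb hn0.ne' 2
  set p := slp b0 b1 1 ζ with hp
  set r := slp b0 b1 2 ζ with hr
  set d1 := -(ζ * (b1 1 - b0 1 / b0 0 * b1 0)) / (b0 0 + ζ * b1 0) with hd1
  set d2 := -(ζ * (b1 2 - b0 2 / b0 0 * b1 0)) / (b0 0 + ζ * b1 0) with hd2
  have D1 : |d1| ≤ 2 * κ := dv _ k1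
  have D2 : |d2| ≤ 2 * κ := dv _ k2
  have t2 : |(2 : ℝ)| ≤ 2 := by norm_num
  refine ⟨hn, hn', s1, s2, ?_, ?_, ?_, ?_, ?_⟩
  · have e : b1 1 + b1 0 * p = shB1 b0 b1 1 + b1 0 * d1 := by
      rw [e1]; simp only [shB1, Matrix.cons_val_one, Matrix.cons_val_zero]; ring
    rw [e]
    refine (Arc880.abs_add2 k1 (mul_abs_le g5 D1)).trans (by linarith)
  · have e : b1 2 + b1 0 * r = shB1 b0 b1 2 + b1 0 * d2 := by
      rw [e2]; simp only [shB1, Matrix.cons_val]; ring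
    rw [e]
    refine (Arc880.abs_add2 k2 (mul_abs_le g5 D2)).trans (by linarith)
  · have e : G.uu + G.yu * p + G.yy * p ^ 2 =
        (shG b0 G).uu + (shG b0 G).yu * d1 + G.yy * (d1 * d1) := by
      rw [e1]; simp only [shG]; ring
    rw [e]
    refine (Arc880.abs_add2 (Arc880.abs_add2 k3 (mul_abs_le h3 D1))
      (mul_abs_le m1 (mul_abs_le D1 D1))).trans ?_
    nlinarith
  · have e : G.uv + G.yu * r + G.yv * p + 2 * G.yy * (p * r) =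
        (shG b0 G).uv + (shG b0 G).yu * d2 + (shG b0 G).yv * d1 + 2 * G.yy * (d1 * d2) := by
      rw [e1, e2]; simp only [shG]; ring
    rw [e]
    refine (Arc880.abs_add2 (Arc880.abs_add2 (Arc880.abs_add2 k4 (mul_abs_le h3 D2))
      (mul_abs_le h4 D1)) (mul_abs_le (mul_abs_le t2 m1) (mul_abs_le D1 D2))).trans ?_
    nlinarith
  · have e : G.vv + G.yv * r + G.yy * r ^ 2 =
        (shG b0 G).vv + (shG b0 G).yv * d2 + G.yy * (d2 * d2) := by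
      rw [e2]; simp only [shG]; ring
    rw [e]
    refine (Arc880.abs_add2 (Arc880.abs_add2 k5 (mul_abs_le h4 D2))
      (mul_abs_le m1 (mul_abs_le D2 D2))).trans ?_
    nlinarith

/-- the fan scales with the curvature extent -/
theorem fan_scale {b0 b1 : V3} {G : QF} {κ ζ : ℝ} (h0 : b0 0 ≠ 0) (h1 : b0 0 + ζ * b1 0 ≠ 0)
    (hκ : κ ≠ 0) (i j : Fin 3) :
    fan b0 b1 G ζ i j = κ * fan (shB0 b0) (scB1 κ b0 b1) (scG κ b0 G) ζ i j := by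
  have s : ∀ k : Fin 3, k ≠ 0 → slp b0 b1 k ζ =
      -(b0 k / b0 0) + κ * slp (shB0 b0) (scB1 κ b0 b1) k ζ := by
    intro k hk
    rw [slp_eq h0 h1 k]
    congr 1
    unfold slp
    fin_cases k
    · exact absurd rfl hk
    · simp only [shB0, scB1, shB1, Fin.mk_one, Matrix.cons_val_one, Matrix.cons_val_zero]
      field_simp
      ring
    · simp only [shB0, scB1, shB1, Fin.reduceFinMk, Matrix.cons_val, Matrix.cons_val_zero]
      field_simp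
      ring
  have s1 := s 1 (by decide)
  have s2 := s 2 (by decide)
  generalize hp : slp (shB0 b0) (scB1 κ b0 b1) 1 ζ = p at s1
  generalize hr : slp (shB0 b0) (scB1 κ b0 b1) 2 ζ = r at s2
  have t01 : (b1 1 + b1 0 * slp b0 b1 1 ζ) / 512 =
      κ * ((scB1 κ b0 b1 1 + scB1 κ b0 b1 0 * p) / 512) := by
    rw [s1]
    simp only [scB1, shB1, Matrix.cons_val_one, Matrix.cons_val_zero]
    field_simp
    ring
  have t02 : (b1 2 + b1 0 * slp b0 b1 2 ζ) / 512 =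
      κ * ((scB1 κ b0 b1 2 + scB1 κ b0 b1 0 * r) / 512) := by
    rw [s2]
    simp only [scB1, shB1, Matrix.cons_val, Matrix.cons_val_zero]
    field_simp
    ring
  have t11 : (G.uu + G.yu * slp b0 b1 1 ζ + G.yy * slp b0 b1 1 ζ ^ 2) / 64 =
      κ * (((scG κ b0 G).uu + (scG κ b0 G).yu * p + (scG κ b0 G).yy * p ^ 2) / 64) := by
    rw [s1]
    simp only [scG, shG]
    field_simp
    ring
  have t12 : (G.uv + G.yu * slp b0 b1 2 ζ + G.yv * slp b0 b1 1 ζ +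
      2 * G.yy * (slp b0 b1 1 ζ * slp b0 b1 2 ζ)) / 128 =
      κ * (((scG κ b0 G).uv + (scG κ b0 G).yu * r + (scG κ b0 G).yv * p +
        2 * (scG κ b0 G).yy * (p * r)) / 128) := by
    rw [s1, s2]
    simp only [scG, shG]
    field_simp
    ring
  have t22 : (G.vv + G.yv * slp b0 b1 2 ζ + G.yy * slp b0 b1 2 ζ ^ 2) / 64 =
      κ * (((scG κ b0 G).vv + (scG κ b0 G).yv * r + (scG κ b0 G).yy * r ^ 2) / 64) := by
    rw [s2]
    simp only [scG, shG]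
    field_simp
    ring
  subst hp hr
  fin_cases i <;> fin_cases j
  · show (0 : ℝ) = κ * 0
    rw [mul_zero]
  · exact t01
  · exact t02
  · exact t01
  · exact t11
  · exact t12
  · exact t02
  · exact t12
  · exact t22

/-! ### the jet of the sheet on its line -/

/-- 601's `jet_exp` -/
noncomputable def ownJ (w0 : ℝ) (b0 b1 : V3) (G : QF) (ζ k1 k2 : ℝ) : Jt where
  a0 := w0 * (b0 0 + ζ * b1 0)
  a := ![k1, w0 * (b0 1 + ζ * b1 1), w0 * (b0 2 + ζ * b1 2)]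
  h00 := 2 * (w0 * G.yy)
  h0 := ![w0 * b1 0, w0 * G.yu, w0 * G.yv]
  h := ![![2 * k2, w0 * b1 1, w0 * b1 2], ![w0 * b1 1, 2 * (w0 * G.uu), w0 * G.uv],
    ![w0 * b1 2, w0 * G.uv, 2 * (w0 * G.vv)]]

theorem ownJ_sym (w0 : ℝ) (b0 b1 : V3) (G : QF) (ζ k1 k2 : ℝ) (i j : Fin 3) :
    (ownJ w0 b0 b1 G ζ k1 k2).h i j = (ownJ w0 b0 b1 G ζ k1 k2).h j i := by
  fin_cases i <;> fin_cases j <;> rfl

/-- main part of the tangential Hessian -/
noncomputable def ownM (w0 : ℝ) (b0 b1 : V3) (G : QF) (ζ : ℝ) : Fin 3 → Fin 3 → ℝ :=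
  ![![0, w0 * (b1 1 + b1 0 * slp b0 b1 1 ζ), w0 * (b1 2 + b1 0 * slp b0 b1 2 ζ)],
    ![w0 * (b1 1 + b1 0 * slp b0 b1 1 ζ),
      2 * (w0 * (G.uu + G.yu * slp b0 b1 1 ζ + G.yy * slp b0 b1 1 ζ ^ 2)),
      w0 * (G.uv + G.yu * slp b0 b1 2 ζ + G.yv * slp b0 b1 1 ζ +
        2 * G.yy * (slp b0 b1 1 ζ * slp b0 b1 2 ζ))],
    ![w0 * (b1 2 + b1 0 * slp b0 b1 2 ζ),
      w0 * (G.uv + G.yu * slp b0 b1 2 ζ + G.yv * slp b0 b1 1 ζ +
        2 * G.yy * (slp b0 b1 1 ζ * slp b0 b1 2 ζ)),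
      2 * (w0 * (G.vv + G.yv * slp b0 b1 2 ζ + G.yy * slp b0 b1 2 ζ ^ 2))]]

theorem ownM_le {b0 b1 : V3} {G : QF} (N : NrmC b0 b1 G) {w0 ζ : ℝ} (hw : 0 ≤ w0) (hζ : 0 ≤ ζ)
    (hζ' : ζ ≤ 1) (i j : Fin 3) : |ownM w0 b0 b1 G ζ i j| ≤ 130 * (w0 * kap b0 b1 G) := by
  obtain ⟨-, -, -, -, c1, c2, c3, c4, c5⟩ := fan_dir N hζ hζ'
  have hκ0 : 0 ≤ kap b0 b1 G := kap_nonneg b0 b1 G
  have hm : ∀ x C : ℝ, C ≤ 130 → |x| ≤ C * kap b0 b1 G → |w0 * x| ≤ 130 * (w0 * kap b0 b1 G) := by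
    intro x C hC hx
    rw [abs_mul, abs_of_nonneg hw]
    have : |x| ≤ 130 * kap b0 b1 G := hx.trans (mul_le_mul_of_nonneg_right hC hκ0)
    calc w0 * |x| ≤ w0 * (130 * kap b0 b1 G) := mul_le_mul_of_nonneg_left this hw
      _ = _ := by ring
  have hm2 : ∀ x : ℝ, |x| ≤ 63 * kap b0 b1 G → |2 * (w0 * x)| ≤ 130 * (w0 * kap b0 b1 G) := by
    intro x hx
    have e : 2 * (w0 * x) = w0 * (2 * x) := by ring
    rw [e]
    refine hm (2 * x) 126 (by norm_num) ?_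
    rw [abs_mul, abs_of_pos (by norm_num : (0:ℝ) < 2)]; linarith
  have z0 : |(0 : ℝ)| ≤ 130 * (w0 * kap b0 b1 G) := by rw [abs_zero]; positivity
  fin_cases i <;> fin_cases j
  · exact z0
  · exact hm _ 4 (by norm_num) c1
  · exact hm _ 4 (by norm_num) c2
  · exact hm _ 4 (by norm_num) c1
  · exact hm2 _ c3
  · exact hm _ 125 (by norm_num) c4
  · exact hm _ 4 (by norm_num) c2
  · exact hm _ 125 (by norm_num) c4
  · exact hm2 _ c5

/-- slopes of the own jet -/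
theorem ownJ_sl {b0 b1 : V3} {G : QF} (N : NrmC b0 b1 G) {w0 ζ k1 k2 a : ℝ} (hw : 0 < w0)
    (hζ : 0 ≤ ζ) (hζ' : ζ ≤ 1) (h1 : |k1| ≤ 10 * a) :
    |sl (ownJ w0 b0 b1 G ζ k1 k2) 0| * w0 ≤ 20 * a ∧
      sl (ownJ w0 b0 b1 G ζ k1 k2) 1 = slp b0 b1 1 ζ ∧
      sl (ownJ w0 b0 b1 G ζ k1 k2) 2 = slp b0 b1 2 ζ := by
  obtain ⟨n1, n2, -⟩ := fan_dir N hζ hζ'
  have hn0 : 0 < b0 0 + ζ * b1 0 := by linarith
  refine ⟨?_, ?_, ?_⟩
  · simp only [sl, ownJ, Matrix.cons_val_zero]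
    rw [abs_div, abs_neg, abs_of_pos (by positivity : 0 < w0 * (b0 0 + ζ * b1 0)),
      div_mul_eq_mul_div, div_le_iff₀ (by positivity)]
    have ha : 0 ≤ a := by have := abs_nonneg k1; linarith
    have : 0 ≤ a * w0 := by positivity
    nlinarith
  · simp only [sl, ownJ, slp, Matrix.cons_val_one, Matrix.cons_val_zero]
    field_simp
  · simp only [sl, ownJ, slp, Matrix.cons_val]
    field_simp

/-- the tangential Hessian of the own jet is `ownM` up to `1000 a` -/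
theorem own_lf_aux {b0 b1 : V3} {G : QF} (N : NrmC b0 b1 G) {w0 ζ k1 k2 a : ℝ}
    (hζ : 0 ≤ ζ) (hζ' : ζ ≤ 1) (ha : 0 ≤ a) (h2 : |k2| ≤ 8 * a) (s : Fin 3 → ℝ)
    (e1 : s 1 = slp b0 b1 1 ζ) (e2 : s 2 = slp b0 b1 2 ζ) (hws : |w0 * s 0| ≤ 20 * a)
    (S0 : |s 0| ≤ 20) (i j : Fin 3) :
    |lf (ownJ w0 b0 b1 G ζ k1 k2) s i j - ownM w0 b0 b1 G ζ i j| ≤ 1000 * a := by
  obtain ⟨-, -, s1, s2, -⟩ := fan_dir N hζ hζ'
  obtain ⟨-, -, -, -, g5, -⟩ := N.b1_le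
  obtain ⟨m1, m2, m3, -⟩ := N.G_le
  have x1 : |b1 0 * (w0 * s 0)| ≤ 3 / 2 * (20 * a) := mul_abs_le g5 hws
  have x2 : |G.yy * (w0 * s 0 * s 0)| ≤ 1 * (20 * a * 20) := mul_abs_le m1 (mul_abs_le hws S0)
  have x3 : |G.yu * (w0 * s 0)| ≤ 1 * (20 * a) := mul_abs_le m2 hws
  have x4 : |G.yv * (w0 * s 0)| ≤ 1 * (20 * a) := mul_abs_le m3 hws
  have x5 : |G.yy * (w0 * s 0 * slp b0 b1 1 ζ)| ≤ 1 * (20 * a * 2) :=
    mul_abs_le m1 (mul_abs_le hws s1)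
  have x6 : |G.yy * (w0 * s 0 * slp b0 b1 2 ζ)| ≤ 1 * (20 * a * 2) :=
    mul_abs_le m1 (mul_abs_le hws s2)
  rw [abs_le] at x1 x2 x3 x4 x5 x6 h2
  obtain ⟨y1, z1⟩ := x1
  obtain ⟨y2, z2⟩ := x2
  obtain ⟨y3, z3⟩ := x3
  obtain ⟨y4, z4⟩ := x4
  obtain ⟨y5, z5⟩ := x5
  obtain ⟨y6, z6⟩ := x6
  obtain ⟨y7, z7⟩ := h2
  clear s1 s2 g5 m1 m2 m3 hws S0
  generalize hp : slp b0 b1 1 ζ = p at *
  generalize hr : slp b0 b1 2 ζ = r at *
  generalize hs0 : s 0 = s0 at *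
  have w01 : |w0 * b1 1 + w0 * b1 0 * p + w0 * G.yu * s0 + 2 * (w0 * G.yy) * (s0 * p) -
      w0 * (b1 1 + b1 0 * p)| ≤ 1000 * a := by
    rw [abs_le]; constructor <;> linarith
  have w02 : |w0 * b1 2 + w0 * b1 0 * r + w0 * G.yv * s0 + 2 * (w0 * G.yy) * (s0 * r) -
      w0 * (b1 2 + b1 0 * r)| ≤ 1000 * a := by
    rw [abs_le]; constructor <;> linarith
  have w00 : |2 * k2 + w0 * b1 0 * s0 + w0 * b1 0 * s0 + 2 * (w0 * G.yy) * (s0 * s0) - 0| ≤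
      1000 * a := by
    rw [abs_le]; constructor <;> linarith
  have ha' : (0 : ℝ) ≤ 1000 * a := by positivity
  fin_cases i <;> fin_cases j
  · show |2 * k2 + w0 * b1 0 * s 0 + w0 * b1 0 * s 0 + 2 * (w0 * G.yy) * (s 0 * s 0) - 0| ≤ _
    rw [hs0]; exact w00
  · show |w0 * b1 1 + w0 * b1 0 * s 1 + w0 * G.yu * s 0 + 2 * (w0 * G.yy) * (s 0 * s 1) -
      w0 * (b1 1 + b1 0 * slp b0 b1 1 ζ)| ≤ _
    rw [hs0, e1, hp]; exact w01
  · show |w0 * b1 2 + w0 * b1 0 * s 2 + w0 * G.yv * s 0 + 2 * (w0 * G.yy) * (s 0 * s 2) -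
      w0 * (b1 2 + b1 0 * slp b0 b1 2 ζ)| ≤ _
    rw [hs0, e2, hr]; exact w02
  · show |w0 * b1 1 + w0 * G.yu * s 0 + w0 * b1 0 * s 1 + 2 * (w0 * G.yy) * (s 1 * s 0) -
      w0 * (b1 1 + b1 0 * slp b0 b1 1 ζ)| ≤ _
    rw [hs0, e1, hp]
    refine le_trans (le_of_eq ?_) w01
    congr 1; ring
  · show |2 * (w0 * G.uu) + w0 * G.yu * s 1 + w0 * G.yu * s 1 + 2 * (w0 * G.yy) * (s 1 * s 1) -
      2 * (w0 * (G.uu + G.yu * slp b0 b1 1 ζ + G.yy * slp b0 b1 1 ζ ^ 2))| ≤ _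
    rw [e1, hp]
    have : 2 * (w0 * G.uu) + w0 * G.yu * p + w0 * G.yu * p + 2 * (w0 * G.yy) * (p * p) -
      2 * (w0 * (G.uu + G.yu * p + G.yy * p ^ 2)) = 0 := by ring
    rw [this, abs_zero]; exact ha'
  · show |w0 * G.uv + w0 * G.yu * s 2 + w0 * G.yv * s 1 + 2 * (w0 * G.yy) * (s 1 * s 2) -
      w0 * (G.uv + G.yu * slp b0 b1 2 ζ + G.yv * slp b0 b1 1 ζ +
        2 * G.yy * (slp b0 b1 1 ζ * slp b0 b1 2 ζ))| ≤ _
    rw [e1, e2, hp, hr]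
    have : w0 * G.uv + w0 * G.yu * r + w0 * G.yv * p + 2 * (w0 * G.yy) * (p * r) -
      w0 * (G.uv + G.yu * r + G.yv * p + 2 * G.yy * (p * r)) = 0 := by ring
    rw [this, abs_zero]; exact ha'
  · show |w0 * b1 2 + w0 * G.yv * s 0 + w0 * b1 0 * s 2 + 2 * (w0 * G.yy) * (s 2 * s 0) -
      w0 * (b1 2 + b1 0 * slp b0 b1 2 ζ)| ≤ _
    rw [hs0, e2, hr]
    refine le_trans (le_of_eq ?_) w02
    congr 1; ring
  · show |w0 * G.uv + w0 * G.yv * s 1 + w0 * G.yu * s 2 + 2 * (w0 * G.yy) * (s 2 * s 1) -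
      w0 * (G.uv + G.yu * slp b0 b1 2 ζ + G.yv * slp b0 b1 1 ζ +
        2 * G.yy * (slp b0 b1 1 ζ * slp b0 b1 2 ζ))| ≤ _
    rw [e1, e2, hp, hr]
    have : w0 * G.uv + w0 * G.yv * p + w0 * G.yu * r + 2 * (w0 * G.yy) * (r * p) -
      w0 * (G.uv + G.yu * r + G.yv * p + 2 * G.yy * (p * r)) = 0 := by ring
    rw [this, abs_zero]; exact ha'
  · show |2 * (w0 * G.vv) + w0 * G.yv * s 2 + w0 * G.yv * s 2 + 2 * (w0 * G.yy) * (s 2 * s 2) -
      2 * (w0 * (G.vv + G.yv * slp b0 b1 2 ζ + G.yy * slp b0 b1 2 ζ ^ 2))| ≤ _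
    rw [e2, hr]
    have : 2 * (w0 * G.vv) + w0 * G.yv * r + w0 * G.yv * r + 2 * (w0 * G.yy) * (r * r) -
      2 * (w0 * (G.vv + G.yv * r + G.yy * r ^ 2)) = 0 := by ring
    rw [this, abs_zero]; exact ha'

theorem own_lf {b0 b1 : V3} {G : QF} (N : NrmC b0 b1 G) {w0 ζ k1 k2 a : ℝ} (hw : 0 < w0)
    (haw : a ≤ w0) (hζ : 0 ≤ ζ) (hζ' : ζ ≤ 1) (h1 : |k1| ≤ 10 * a) (h2 : |k2| ≤ 8 * a)
    (i j : Fin 3) :
    |lf (ownJ w0 b0 b1 G ζ k1 k2) (sl (ownJ w0 b0 b1 G ζ k1 k2)) i j - ownM w0 b0 b1 G ζ i j| ≤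
      1000 * a := by
  obtain ⟨e0, e1, e2⟩ := ownJ_sl (G := G) (k2 := k2) N hw hζ hζ' h1
  have ha : 0 ≤ a := by have := abs_nonneg k1; linarith
  have S0 : |sl (ownJ w0 b0 b1 G ζ k1 k2) 0| ≤ 20 := by
    by_contra hc
    push Not at hc
    have : 20 * w0 < |sl (ownJ w0 b0 b1 G ζ k1 k2) 0| * w0 := mul_lt_mul_of_pos_right hc hw
    linarith
  refine own_lf_aux N hζ hζ' ha h2 _ e1 e2 ?_ S0 i j
  rw [abs_mul, abs_of_pos hw, mul_comm]
  exact e0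

theorem own_lf_le {b0 b1 : V3} {G : QF} (N : NrmC b0 b1 G) {w0 ζ k1 k2 a : ℝ} (hw : 0 < w0)
    (haw : a ≤ w0) (hζ : 0 ≤ ζ) (hζ' : ζ ≤ 1) (h1 : |k1| ≤ 10 * a) (h2 : |k2| ≤ 8 * a)
    (i j : Fin 3) :
    |lf (ownJ w0 b0 b1 G ζ k1 k2) (sl (ownJ w0 b0 b1 G ζ k1 k2)) i j| ≤
      130 * (w0 * kap b0 b1 G) + 1000 * a := by
  have e1 := own_lf N hw haw hζ hζ' h1 h2 i j
  have e2 := ownM_le N hw.le hζ hζ' i j
  have e3 := abs_sub_abs_le_abs_sub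
    (lf (ownJ w0 b0 b1 G ζ k1 k2) (sl (ownJ w0 b0 b1 G ζ k1 k2)) i j) (ownM w0 b0 b1 G ζ i j)
  linarith

/-! ### the determinant -/

theorem prod3_pert {x y z x' y' z' B ε : ℝ} (hx : |x| ≤ B) (hy : |y| ≤ B) (hz : |z| ≤ B)
    (hx' : |x' - x| ≤ ε) (hy' : |y' - y| ≤ ε) (hz' : |z' - z| ≤ ε) (hε : ε ≤ B) :
    |x' * y' * z' - x * y * z| ≤ 7 * (B ^ 2 * ε) := by
  have hB : 0 ≤ B := (abs_nonneg _).trans hx
  have hε0 : 0 ≤ ε := (abs_nonneg _).trans hx'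
  have e : x' * y' * z' - x * y * z = (x' - x) * y * z + x * (y' - y) * z + x * y * (z' - z) +
      (x' - x) * (y' - y) * z + (x' - x) * y * (z' - z) + x * (y' - y) * (z' - z) +
      (x' - x) * (y' - y) * (z' - z) := by ring
  have a1 := mul_abs_le (mul_abs_le hx' hy) hz
  have a2 := mul_abs_le (mul_abs_le hx hy') hz
  have a3 := mul_abs_le (mul_abs_le hx hy) hz'
  have a4 := mul_abs_le (mul_abs_le hx' hy') hz
  have a5 := mul_abs_le (mul_abs_le hx' hy) hz'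
  have a6 := mul_abs_le (mul_abs_le hx hy') hz'
  have a7 := mul_abs_le (mul_abs_le hx' hy') hz'
  have hεB : ε * ε ≤ B * ε := mul_le_mul_of_nonneg_right hε hε0
  have h4 : ε * ε * B ≤ B ^ 2 * ε := by nlinarith
  have h7 : ε * ε * ε ≤ B ^ 2 * ε := by nlinarith
  rw [e]
  refine (Arc880.abs_add2 (Arc880.abs_add2 (Arc880.abs_add2 (Arc880.abs_add2 (Arc880.abs_add2
    (Arc880.abs_add2 a1 a2) a3) a4) a5) a6) a7).trans ?_
  nlinarith

theorem det3_pert {M M' : Fin 3 → Fin 3 → ℝ} {B ε : ℝ} (h : ∀ i j, |M i j| ≤ B)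
    (h' : ∀ i j, |M' i j - M i j| ≤ ε) (hε : ε ≤ B) :
    |det3 M' - det3 M| ≤ 42 * (B ^ 2 * ε) := by
  have a1 := prod3_pert (h 0 0) (h 1 1) (h 2 2) (h' 0 0) (h' 1 1) (h' 2 2) hε
  have a2 := prod3_pert (h 0 1) (h 1 2) (h 0 2) (h' 0 1) (h' 1 2) (h' 0 2) hε
  have a3 := prod3_pert (h 0 0) (h 1 2) (h 1 2) (h' 0 0) (h' 1 2) (h' 1 2) hε
  have a4 := prod3_pert (h 0 1) (h 0 1) (h 2 2) (h' 0 1) (h' 0 1) (h' 2 2) hε
  have a5 := prod3_pert (h 0 2) (h 0 2) (h 1 1) (h' 0 2) (h' 0 2) (h' 1 1) hε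
  rw [abs_le] at a1 a2 a3 a4 a5 ⊢
  obtain ⟨b1, c1⟩ := a1
  obtain ⟨b2, c2⟩ := a2
  obtain ⟨b3, c3⟩ := a3
  obtain ⟨b4, c4⟩ := a4
  obtain ⟨b5, c5⟩ := a5
  unfold det3
  constructor <;> linarith

/-- **determinant of the tangential Hessian of a nondegenerate sheet along its line** -/
theorem own_det {b0 b1 : V3} {G : QF} (N : NrmC b0 b1 G) (hκ : 0 < kap b0 b1 G)
    {w0 ζ k1 k2 a δ : ℝ} (hw : 0 < w0) (haw : a ≤ w0) (hζ : 0 ≤ ζ) (hζ' : ζ ≤ 1)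
    (h1 : |k1| ≤ 10 * a) (h2 : |k2| ≤ 8 * a) (hδ1 : δ ≤ 1)
    (hd : δ ≤ |det3 (fan (shB0 b0) (scB1 (kap b0 b1 G) b0 b1) (scG (kap b0 b1 G) b0 G) ζ)|)
    (ha : 50 * a ≤ δ * (w0 * kap b0 b1 G)) :
    2 ^ 24 * δ * (w0 * kap b0 b1 G) ^ 3 ≤
      |det3 (lf (ownJ w0 b0 b1 G ζ k1 k2) (sl (ownJ w0 b0 b1 G ζ k1 k2)))| := by
  obtain ⟨n1, n2, -⟩ := fan_dir N hζ hζ'
  obtain ⟨g1, -⟩ := N.b1_le
  have hn0 : b0 0 + ζ * b1 0 ≠ 0 := by linarith
  have hb0 : b0 0 ≠ 0 := by linarith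
  have ha0 : 0 ≤ a := by have := abs_nonneg k1; linarith
  set κ := w0 * kap b0 b1 G with hκd
  have hκ0 : 0 < κ := by positivity
  set F := fan (shB0 b0) (scB1 (kap b0 b1 G) b0 b1) (scG (kap b0 b1 G) b0 G) ζ with hF
  have hfs := fan_scale (G := G) hb0 hn0 hκ.ne'
  have hM : det3 (ownM w0 b0 b1 G ζ) = 33554432 * κ ^ 3 * det3 F := by
    have x : ∀ i j, F i j * κ = w0 * fan b0 b1 G ζ i j := fun i j => by
      rw [hfs i j, hκd, hF]; ring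
    have f01 := x 0 1
    have f02 := x 0 2
    have f11 := x 1 1
    have f12 := x 1 2
    have f22 := x 2 2
    refine det_fan hκ0.ne' rfl rfl ?_ ?_ ?_ ?_ ?_
    · have : fan b0 b1 G ζ 0 1 = (b1 1 + b1 0 * slp b0 b1 1 ζ) / 512 := rfl
      rw [this] at f01
      show w0 * (b1 1 + b1 0 * slp b0 b1 1 ζ) = _
      linarith
    · have : fan b0 b1 G ζ 0 2 = (b1 2 + b1 0 * slp b0 b1 2 ζ) / 512 := rfl
      rw [this] at f02
      show w0 * (b1 2 + b1 0 * slp b0 b1 2 ζ) = _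
      linarith
    · have : fan b0 b1 G ζ 1 1 = (G.uu + G.yu * slp b0 b1 1 ζ + G.yy * slp b0 b1 1 ζ ^ 2) / 64 := rfl
      rw [this] at f11
      show 2 * (w0 * (G.uu + G.yu * slp b0 b1 1 ζ + G.yy * slp b0 b1 1 ζ ^ 2)) = _
      linarith
    · have : fan b0 b1 G ζ 1 2 = (G.uv + G.yu * slp b0 b1 2 ζ + G.yv * slp b0 b1 1 ζ +
        2 * G.yy * (slp b0 b1 1 ζ * slp b0 b1 2 ζ)) / 128 := rfl
      rw [this] at f12
      show w0 * (G.uv + G.yu * slp b0 b1 2 ζ + G.yv * slp b0 b1 1 ζ +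
        2 * G.yy * (slp b0 b1 1 ζ * slp b0 b1 2 ζ)) = _
      linarith
    · have : fan b0 b1 G ζ 2 2 = (G.vv + G.yv * slp b0 b1 2 ζ + G.yy * slp b0 b1 2 ζ ^ 2) / 64 := rfl
      rw [this] at f22
      show 2 * (w0 * (G.vv + G.yv * slp b0 b1 2 ζ + G.yy * slp b0 b1 2 ζ ^ 2)) = _
      linarith
  have hp := det3_pert (B := 130 * κ) (ε := 1000 * a) (fun i j => ownM_le N hw.le hζ hζ' i j)
    (own_lf N hw haw hζ hζ' h1 h2) (by nlinarith)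
  have h3 : 33554432 * κ ^ 3 * δ ≤ |det3 (ownM w0 b0 b1 G ζ)| := by
    rw [hM, abs_mul, abs_of_pos (by positivity : (0:ℝ) < 33554432 * κ ^ 3)]
    exact mul_le_mul_of_nonneg_left hd (by positivity)
  have h4 : 42 * ((130 * κ) ^ 2 * (1000 * a)) ≤ 14196000 * δ * κ ^ 3 := by
    have : 0 ≤ κ ^ 2 := by positivity
    have h5 : κ ^ 2 * (50 * a) ≤ κ ^ 2 * (δ * κ) := mul_le_mul_of_nonneg_left ha this
    have h6 : 42 * ((130 * κ) ^ 2 * (1000 * a)) = 14196000 * (κ ^ 2 * (50 * a)) := by ring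
    have h7 : 14196000 * δ * κ ^ 3 = 14196000 * (κ ^ 2 * (δ * κ)) := by ring
    rw [h6, h7]; linarith
  have h6 := abs_sub_abs_le_abs_sub (det3 (ownM w0 b0 b1 G ζ))
    (det3 (lf (ownJ w0 b0 b1 G ζ k1 k2) (sl (ownJ w0 b0 b1 G ζ k1 k2))))
  rw [abs_sub_comm] at h6
  have h7 : 0 ≤ δ * κ ^ 3 := by
    have : 0 ≤ δ := by
      by_contra hc
      push Not at hc
      nlinarith
    positivity
  linarith

end Crest.Agent.R136.Mxc615
end

-- ▼ part R136/Mxf_615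
section

/-!
# R136 (U4, PLAN 2 (AL), mixed curvatures): every incidence is nondegenerate (helper615)

`caseA_nd`: base = the flatter sheet `V`, function = `U.q`, `U` nondegenerate and much more curved:
if the tangential gradient at a point of a common line is small, the tangential Hessian has a large
2x2 minor.
-/

set_option autoImplicit false
set_option linter.unusedVariables false

namespace Crest.Agent.R136.Mxc615

open Crest.Agent.R136.Rk601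
open Crest.Agent.R136.Sh605 Crest.Agent.R136.Tl102
open Crest.Agent.R136.Arc880 (det3)
open Crest.Agent.R136.K4 (Plk4)
open Crest.Agent.R136.Tlt51 (Shp InP)
open Crest.Agent.R136.KapP335 (kapP DetP expP_spec expP detP_iff kapP_eq)
open Crest.Agent.R136.Deep51 (dt_exp abs_dt_unit abs_dt_exp)

/-! ### bounds for the change of the chart -/

theorem chg_sym {J : Jt} {A : Fin 3 → V3} {D : V3} : (chg J A D).Sym := by
  intro i j
  fin_cases i <;> fin_cases j <;>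
    simp only [chg, Fin.zero_eta, Fin.mk_one, Fin.reduceFinMk, Matrix.cons_val_zero,
      Matrix.cons_val_one, Matrix.cons_val, Fin.isValue, reduceIte, one_ne_zero,
      Fin.reduceEq] <;> ring

theorem sum3_le {x : Fin 3 → ℝ} {b : ℝ} (h : ∀ k, |x k| ≤ b) : |∑ k, x k| ≤ 3 * b := by
  rw [Fin.sum_univ_three]
  refine (abs_add_three _ _ _).trans ?_
  have := h 0; have := h 1; have := h 2
  linarith

theorem lf_chg_le {J : Jt} {A : Fin 3 → V3} {D : V3} (h0 : J.a0 ≠ 0) (h1 : (chg J A D).a0 ≠ 0)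
    (hs : ∀ i j, J.h i j = J.h j i) {n b : ℝ} (hN : ∀ i k, |chN J A D i k| ≤ n)
    (hb : ∀ k l, |lf J (sl J) k l| ≤ b) (i j : Fin 3) :
    |lf (chg J A D) (sl (chg J A D)) i j| ≤ 9 * (n ^ 2 * b) := by
  rw [lf_chg h0 h1 hs]
  have h2 : ∀ k, |∑ l, chN J A D i k * chN J A D j l * lf J (sl J) k l| ≤ 3 * (n * n * b) :=
    fun k => sum3_le fun l => mul_abs_le (mul_abs_le (hN i k) (hN j l)) (hb k l)
  refine (sum3_le h2).trans (le_of_eq (by ring))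

theorem mix_chg_le {J : Jt} {A : Fin 3 → V3} {D : V3} (h0 : J.a0 ≠ 0) (h1 : (chg J A D).a0 ≠ 0)
    (hs : ∀ i j, J.h i j = J.h j i) {n α w : ℝ} (hN : ∀ i k, |chN J A D i k| ≤ n)
    (hA : ∀ k, |A 0 k| ≤ α) (q00 : |J.h00| ≤ 2 * w) (q0 : ∀ k, |J.h0 k| ≤ 2 * w)
    (qh : ∀ k l, |J.h k l| ≤ 16 * w) (hsl : ∀ k, |sl J k| ≤ 20) (i : Fin 3) :
    |(chg J A D).h0 i + (chg J A D).h00 * sl (chg J A D) i| ≤ 500 * (α * n * w) := by
  rw [mix_chg h0 h1 hs i]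
  have e1 : ∀ k, |chN J A D i k * (J.h0 k + J.h00 * sl J k)| ≤ n * (2 * w + 2 * w * 20) := fun k =>
    mul_abs_le (hN i k) (Arc880.abs_add2 (q0 k) (mul_abs_le q00 (hsl k)))
  have e2 : ∀ k, |chN J A D i k * (A 0 1 * (J.h k 1 + J.h0 1 * sl J k) +
      A 0 2 * (J.h k 2 + J.h0 2 * sl J k))| ≤
      n * (α * (16 * w + 2 * w * 20) + α * (16 * w + 2 * w * 20)) := fun k =>
    mul_abs_le (hN i k) (Arc880.abs_add2
      (mul_abs_le (hA 1) (Arc880.abs_add2 (qh k 1) (mul_abs_le (q0 1) (hsl k))))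
      (mul_abs_le (hA 2) (Arc880.abs_add2 (qh k 2) (mul_abs_le (q0 2) (hsl k)))))
  have hα : 0 ≤ α := (abs_nonneg _).trans (hA 0)
  have hn : 0 ≤ n := (abs_nonneg _).trans (hN 0 0)
  have hw : 0 ≤ w := by have := abs_nonneg J.h00; linarith
  have hp : 0 ≤ α * n * w := by positivity
  refine (Arc880.abs_add2 (mul_abs_le (hA 0) (sum3_le e1)) (sum3_le e2)).trans ?_
  have e3 : α * (3 * (n * (2 * w + 2 * w * 20))) +
      3 * (n * (α * (16 * w + 2 * w * 20) + α * (16 * w + 2 * w * 20))) = 462 * (α * n * w) := by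
    ring
  rw [e3]; linarith

theorem h00_chg_le {J : Jt} {A : Fin 3 → V3} {D : V3} {α w : ℝ} (hA : ∀ k, |A 0 k| ≤ α)
    (q00 : |J.h00| ≤ 2 * w) (q0 : ∀ k, |J.h0 k| ≤ 2 * w) (qh : ∀ k l, |J.h k l| ≤ 16 * w) :
    |(chg J A D).h00| ≤ 100 * (α ^ 2 * w) := by
  have hw : 0 ≤ w := by have := abs_nonneg J.h00; linarith
  have t2 : |(2 : ℝ)| ≤ 2 := by norm_num
  have e : |J.h00 * (A 0 0 * A 0 0) + J.h0 1 * (A 0 0 * A 0 1) * 2 + J.h0 2 * (A 0 0 * A 0 2) * 2 +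
    J.h 1 1 * (A 0 1 * A 0 1) + (J.h 1 2 + J.h 2 1) * (A 0 1 * A 0 2) + J.h 2 2 * (A 0 2 * A 0 2)| ≤
    2 * w * (α * α) + 2 * w * (α * α) * 2 + 2 * w * (α * α) * 2 + 16 * w * (α * α) +
      (16 * w + 16 * w) * (α * α) + 16 * w * (α * α) :=
    Arc880.abs_add2 (Arc880.abs_add2 (Arc880.abs_add2 (Arc880.abs_add2 (Arc880.abs_add2
      (mul_abs_le q00 (mul_abs_le (hA 0) (hA 0)))
      (mul_abs_le (mul_abs_le (q0 1) (mul_abs_le (hA 0) (hA 1))) t2))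
      (mul_abs_le (mul_abs_le (q0 2) (mul_abs_le (hA 0) (hA 2))) t2))
      (mul_abs_le (qh 1 1) (mul_abs_le (hA 1) (hA 1))))
      (mul_abs_le (Arc880.abs_add2 (qh 1 2) (qh 2 1)) (mul_abs_le (hA 1) (hA 2))))
      (mul_abs_le (qh 2 2) (mul_abs_le (hA 2) (hA 2)))
  refine e.trans ?_
  have : 0 ≤ α ^ 2 * w := by positivity
  nlinarith

/-! ### facts of the own jet -/

structure OwnF (J : Jt) (w a : ℝ) : Prop where
  a1 : w / 2 ≤ J.a0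
  a2 : J.a0 ≤ 2 * w
  g0 : |J.a 0| ≤ 10 * a
  g1 : |J.a 1| ≤ w
  g2 : |J.a 2| ≤ w
  q00 : |J.h00| ≤ 2 * w
  q0 : ∀ k, |J.h0 k| ≤ 2 * w
  qh : ∀ k l, |J.h k l| ≤ 16 * w
  sl : ∀ k, |Rk601.sl J k| ≤ 20
  sym : ∀ i j, J.h i j = J.h j i

theorem own_facts {b0 b1 : V3} {G : QF} (N : NrmC b0 b1 G) {w0 ζ k1 k2 a : ℝ} (hw : 0 < w0)
    (haw : a ≤ w0) (hζ : 0 ≤ ζ) (hζ' : ζ ≤ 1) (h1 : |k1| ≤ 10 * a) (h2 : |k2| ≤ 8 * a) :
    OwnF (ownJ w0 b0 b1 G ζ k1 k2) w0 a := by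
  obtain ⟨n1, n2, s1, s2, -⟩ := fan_dir N hζ hζ'
  obtain ⟨g1, g2, g3, g4, g5, g6, g7, -, -⟩ := N.b1_le
  obtain ⟨m1, m2, m3, m4, m5, m6⟩ := N.G_le
  obtain ⟨e0, e1, e2⟩ := ownJ_sl (G := G) (k2 := k2) N hw hζ hζ' h1
  have hm : ∀ x C : ℝ, |x| ≤ C → |w0 * x| ≤ C * w0 := fun x C hx => by
    rw [abs_mul, abs_of_pos hw, mul_comm]; exact mul_le_mul_of_nonneg_right hx hw.le
  have t2 : |(2 : ℝ)| ≤ 2 := by norm_num
  have cv : ∀ k : Fin 3, |b0 k| ≤ 1 → |b0 k + b1 k| ≤ 1 → |b0 k + ζ * b1 k| ≤ 1 := by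
    intro k hk0 hk1
    have e : b0 k + ζ * b1 k = (1 - ζ) * b0 k + ζ * (b0 k + b1 k) := by ring
    rw [e]
    refine (abs_add_le _ _).trans ?_
    rw [abs_mul, abs_mul, abs_of_nonneg hζ, abs_of_nonneg (by linarith : 0 ≤ 1 - ζ)]
    nlinarith
  refine ⟨?_, ?_, h1, ?_, ?_, ?_, ?_, ?_, ?_, ownJ_sym _ _ _ _ _ _ _⟩
  · show w0 / 2 ≤ w0 * (b0 0 + ζ * b1 0)
    nlinarith
  · show w0 * (b0 0 + ζ * b1 0) ≤ 2 * w0
    nlinarith
  · show |w0 * (b0 1 + ζ * b1 1)| ≤ w0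
    have := hm _ 1 (cv 1 N.b01 N.b11); linarith
  · show |w0 * (b0 2 + ζ * b1 2)| ≤ w0
    have := hm _ 1 (cv 2 N.b02 N.b12); linarith
  · show |2 * (w0 * G.yy)| ≤ 2 * w0
    have := mul_abs_le t2 (hm _ 1 m1); linarith
  · intro k
    fin_cases k
    · show |w0 * b1 0| ≤ 2 * w0
      have := hm _ _ g5; linarith
    · show |w0 * G.yu| ≤ 2 * w0
      have := hm _ _ m2; linarith
    · show |w0 * G.yv| ≤ 2 * w0
      have := hm _ _ m3; linarith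
  · intro k l
    fin_cases k <;> fin_cases l
    · show |2 * k2| ≤ 16 * w0
      have := mul_abs_le t2 h2; linarith
    · show |w0 * b1 1| ≤ 16 * w0
      have := hm _ _ g6; linarith
    · show |w0 * b1 2| ≤ 16 * w0
      have := hm _ _ g7; linarith
    · show |w0 * b1 1| ≤ 16 * w0
      have := hm _ _ g6; linarith
    · show |2 * (w0 * G.uu)| ≤ 16 * w0
      have := mul_abs_le t2 (hm _ _ m4); linarith
    · show |w0 * G.uv| ≤ 16 * w0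
      have := hm _ _ m5; linarith
    · show |w0 * b1 2| ≤ 16 * w0
      have := hm _ _ g7; linarith
    · show |w0 * G.uv| ≤ 16 * w0
      have := hm _ _ m5; linarith
    · show |2 * (w0 * G.vv)| ≤ 16 * w0
      have := mul_abs_le t2 (hm _ _ m6); linarith
  · intro k
    fin_cases k
    · show |Rk601.sl (ownJ w0 b0 b1 G ζ k1 k2) 0| ≤ 20
      by_contra hc
      push Not at hc
      have : 20 * w0 < |Rk601.sl (ownJ w0 b0 b1 G ζ k1 k2) 0| * w0 := mul_lt_mul_of_pos_right hc hw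
      linarith
    · show |Rk601.sl (ownJ w0 b0 b1 G ζ k1 k2) 1| ≤ 20
      rw [e1]; linarith
    · show |Rk601.sl (ownJ w0 b0 b1 G ζ k1 k2) 2| ≤ 20
      rw [e2]; linarith

/-- **the own jet of a sheet at a point of one of its lines** -/
theorem own_jet {e : Fin 3 → V3} {w : V3} {q : ℝ → V3 → ℝ} {z0 ρ a : ℝ} (hq : IsQ q) {T : Ln4}
    (hin : ∀ z, z0 ≤ z → z ≤ z0 + ρ → |q z (T.pos z)| ≤ a) (hρ : 0 ≤ ρ) {b0 b1 : V3} {G : QF}
    (hE : IsExp q e w T z0 ρ b0 b1 G) {ζ : ℝ} (hζ : 0 ≤ ζ) (hζ' : ζ ≤ 1) :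
    ∃ k1 k2 : ℝ, |k1| ≤ 10 * a ∧ |k2| ≤ 8 * a ∧
      JetAt q (fr e w) T.v (z0 + ρ * ζ) (T.pos (z0 + ρ * ζ)) ρ
        (ownJ (w 0) b0 b1 G ζ k1 k2) := by
  obtain ⟨J, hJs, hJ⟩ := exists_jet hq (fr e w) T.v (z0 + ρ * ζ) (T.pos (z0 + ρ * ζ)) ρ
  have hl : ∀ t : ℝ, q (z0 + ρ * (ζ + t)) (T.pos (z0 + ρ * (ζ + t))) =
      q (z0 + ρ * ζ) (T.pos (z0 + ρ * ζ)) + J.a 0 * t + J.h 0 0 / 2 * t ^ 2 := by
    intro t
    have h1 := jet_line hJ (T := T) rfl (y1 := 0) (u1 := 0) (v1 := 0) (by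
      funext i; simp [cmb]) t
    have e1 : z0 + ρ * ζ + ρ * t = z0 + ρ * (ζ + t) := by ring
    rw [e1] at h1
    rw [h1]
    simp only [dp, qf, Fin.sum_univ_three, Matrix.cons_val]
    ring
  have hv : ∀ t : ℝ, 0 ≤ ζ + t → ζ + t ≤ 1 →
      |q (z0 + ρ * ζ) (T.pos (z0 + ρ * ζ)) + J.a 0 * t + J.h 0 0 / 2 * t ^ 2| ≤ a := by
    intro t h1 h2
    rw [← hl t]
    exact hin _ (by nlinarith) (by nlinarith)
  have p0 := abs_le.1 (hv (-ζ) (by linarith) (by linarith))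
  have p1 := abs_le.1 (hv (1 - ζ) (by linarith) (by linarith))
  have ph := abs_le.1 (hv (1 / 2 - ζ) (by linarith) (by linarith))
  have K2 : |J.h 0 0 / 2| ≤ 8 * a := by
    have e : J.h 0 0 / 2 = 2 * ((q (z0 + ρ * ζ) (T.pos (z0 + ρ * ζ)) + J.a 0 * (-ζ) +
      J.h 0 0 / 2 * (-ζ) ^ 2) + (q (z0 + ρ * ζ) (T.pos (z0 + ρ * ζ)) + J.a 0 * (1 - ζ) +
      J.h 0 0 / 2 * (1 - ζ) ^ 2) - 2 * (q (z0 + ρ * ζ) (T.pos (z0 + ρ * ζ)) +
      J.a 0 * (1 / 2 - ζ) + J.h 0 0 / 2 * (1 / 2 - ζ) ^ 2)) := by ring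
    rw [e, abs_le]
    constructor <;> linarith [p0.1, p0.2, p1.1, p1.2, ph.1, ph.2]
  have K1 : |J.a 0| ≤ 10 * a := by
    have e : J.a 0 = (q (z0 + ρ * ζ) (T.pos (z0 + ρ * ζ)) + J.a 0 * (1 - ζ) +
      J.h 0 0 / 2 * (1 - ζ) ^ 2) - (q (z0 + ρ * ζ) (T.pos (z0 + ρ * ζ)) + J.a 0 * (-ζ) +
      J.h 0 0 / 2 * (-ζ) ^ 2) - J.h 0 0 / 2 * (1 - 2 * ζ) := by ring
    have z1 : |1 - 2 * ζ| ≤ 1 := by rw [abs_le]; constructor <;> linarith
    have z2 := abs_le.1 (mul_abs_le K2 z1)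
    rw [e, abs_le]
    constructor <;> linarith [p0.1, p0.2, p1.1, p1.2, z2.1, z2.2]
  exact ⟨J.a 0, J.h 0 0 / 2, K1, K2, jet_exp hE hl⟩

/-! ### frames -/

theorem cmb_crd {e : Fin 3 → V3} (he : Ortho e) {w : V3} (hw : ∀ k, w k ≠ 0) (Y : V3) :
    cmb (fr e w) (fun k => dt (e k) Y / w k) = Y := by
  have h := cmb_pc he hw ⟨0, 0⟩ 0 Y
  have e0 : (⟨0, 0⟩ : Ln4).pos 0 = 0 := by
    funext i; simp [Ln4.pos]
  simp only [e0, zero_add] at h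
  have e1 : pc e w ⟨0, 0⟩ 0 Y = fun k => dt (e k) Y / w k := by
    funext k
    unfold pc
    rw [e0, sub_zero]
  rw [e1] at h
  exact h

/-- matrix of two orthonormal frames -/
theorem det_frames {e f : Fin 3 → V3} (he : Ortho e) (hf : Ortho f) {m : Fin 3 → Fin 3 → ℝ}
    (hm : ∀ i j, m i j = dt (e j) (f i)) :
    |m 0 0 * (m 1 1 * m 2 2 - m 1 2 * m 2 1) - m 0 1 * (m 1 0 * m 2 2 - m 1 2 * m 2 0) +
      m 0 2 * (m 1 0 * m 2 1 - m 1 1 * m 2 0)| = 1 := by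
  have hMM : (Matrix.of m) * (Matrix.of m).transpose = 1 := by
    ext i k
    rw [Matrix.mul_apply, Fin.sum_univ_three]
    simp only [Matrix.transpose_apply, Matrix.of_apply, hm]
    have h1 := dt_exp he (f i) (f k)
    have h2 := hf i k
    rw [dt_comm (f i) (e 0), dt_comm (f i) (e 1), dt_comm (f i) (e 2)] at h1
    rw [← h1, h2, Matrix.one_apply]
  have h2 : (Matrix.of m).det ^ 2 = 1 := by
    have h3 := congrArg Matrix.det hMM
    rw [Matrix.det_mul, Matrix.det_transpose, Matrix.det_one] at h3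
    rw [sq]; exact h3
  have h4 : (Matrix.of m).det = m 0 0 * (m 1 1 * m 2 2 - m 1 2 * m 2 1) -
      m 0 1 * (m 1 0 * m 2 2 - m 1 2 * m 2 0) + m 0 2 * (m 1 0 * m 2 1 - m 1 1 * m 2 0) := by
    rw [Matrix.det_fin_three]
    simp only [Matrix.of_apply]
    ring
  rw [← h4]
  have h5 : |(Matrix.of m).det| ^ 2 = 1 := by rw [sq_abs]; exact h2
  have h6 := abs_nonneg (Matrix.of m).det
  nlinarith

theorem grad_low {X0 X1 X2 μ : ℝ} (h : 1 / 4 ≤ X0 ^ 2 + X1 ^ 2 + X2 ^ 2) (h0 : |X0| ≤ 2 * |μ|)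
    (h1 : |X1| ≤ |μ| + 1 / 10) (h2 : |X2| ≤ |μ| + 1 / 10) : 1 / 10 ≤ |μ| := by
  by_contra hc
  push Not at hc
  have hμ := abs_nonneg μ
  have a0 : X0 ^ 2 ≤ (1 / 5) ^ 2 := by
    rw [← sq_abs]; exact pow_le_pow_left₀ (abs_nonneg _) (by linarith) 2
  have a1 : X1 ^ 2 ≤ (1 / 5) ^ 2 := by
    rw [← sq_abs]; exact pow_le_pow_left₀ (abs_nonneg _) (by linarith) 2
  have a2 : X2 ^ 2 ≤ (1 / 5) ^ 2 := by
    rw [← sq_abs]; exact pow_le_pow_left₀ (abs_nonneg _) (by linarith) 2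
  norm_num at a0 a1 a2
  linarith

/-- third version of `mixed_th_flat` (ratio at most `6`) -/
theorem mixed_th_flat3 {q0 q1 : Jt} {κ B K δ σ η : ℝ} (hκ : 0 < κ) (h1 : q1.a0 ≠ 0)
    (y1 : ∀ i j, q1.h i j = q1.h j i)
    (hK : 0 < K) (b1 : ∀ i j, |lf q1 (sl q1) i j| ≤ K * κ)
    (hd : δ * κ ^ 3 ≤ |det3 (lf q1 (sl q1))|)
    (b0 : ∀ i j, |lf q0 (sl q0) i j| ≤ σ * κ)
    (hB0 : ∀ i, |q1.h0 i + q1.h00 * sl q1 i| ≤ B) (hB : |q1.h00| * η ≤ B)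
    (hη : ∀ i, |tg q0 q1 i| ≤ η * |q1.a0|) (h0 : q0.a0 ≠ 0)
    (herr : 3 * B * η ≤ σ * κ) (hσK : 7 * σ ≤ K)
    (hμ' : |q1.a0 / q0.a0| ≤ 6)
    (hσ : 13440 * (K ^ 2 * σ) ≤ δ) :
    ∃ i j k l, δ * κ ^ 2 ≤ 96 * K * |mn (th q0 q1) i j k l| := by
  have ha1 : 0 < |q1.a0| := abs_pos.2 h1
  have hd' : ∀ i, |sl q0 i - sl q1 i| ≤ η := fun i => by
    rw [sl_sub h0 h1, abs_div, div_le_iff₀ ha1]; exact hη i
  have hσ0 : 0 ≤ σ * κ := (abs_nonneg _).trans (b0 0 0)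
  have hN : ∀ i j, |lf q1 (sl q0) i j - lf q1 (sl q1) i j -
      q1.a0 / q0.a0 * lf q0 (sl q0) i j| ≤ 7 * σ * κ := fun i j => by
    have e1 := lf_change2 hB0 hB hd' i j
    have e2 : |q1.a0 / q0.a0 * lf q0 (sl q0) i j| ≤ 6 * (σ * κ) := by
      rw [abs_mul]; exact mul_le_mul hμ' (b0 i j) (abs_nonneg _) (by norm_num)
    have e3 := abs_sub (lf q1 (sl q0) i j - lf q1 (sl q1) i j) (q1.a0 / q0.a0 * lf q0 (sl q0) i j)
    linarith
  have hsym : ∀ i j, lf q1 (sl q1) i j = lf q1 (sl q1) j i := fun i j => by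
    unfold lf; rw [y1 i j]; ring
  have hmix := mixed_minor (N := fun i j => lf q1 (sl q0) i j - lf q1 (sl q1) i j -
      q1.a0 / q0.a0 * lf q0 (sl q0) i j) (M := lf q1 (sl q1)) (μ := -1)
    (K := K * κ) (δ := δ * κ ^ 3) (σ := 7 * σ * κ) hsym (by positivity) b1 hd hN
    (mul_le_mul_of_nonneg_right hσK hκ.le) (by norm_num) (by norm_num) (by
      have hκ3 : 0 ≤ κ ^ 3 := by positivity
      calc 1920 * ((K * κ) ^ 2 * (7 * σ * κ)) = 13440 * (K ^ 2 * σ) * κ ^ 3 := by ring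
        _ ≤ δ * κ ^ 3 := mul_le_mul_of_nonneg_right hσ hκ3)
  obtain ⟨i, j, k, l, h⟩ := hmix
  refine ⟨i, j, k, l, ?_⟩
  have e : (fun i j => (lf q1 (sl q0) i j - lf q1 (sl q1) i j -
      q1.a0 / q0.a0 * lf q0 (sl q0) i j) - (-1) * lf q1 (sl q1) i j) = th q0 q1 := by
    funext i j
    simp only [th]
    ring
  simp only [e] at h
  have h2 : δ * κ ^ 3 = δ * κ ^ 2 * κ := by ring
  rw [h2] at h
  have h3 : 96 * (K * κ) * |mn (th q0 q1) i j k l| = 96 * K * |mn (th q0 q1) i j k l| * κ := by ring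
  rw [h3] at h
  exact le_of_mul_le_mul_right h hκ

end Crest.Agent.R136.Mxc615
end

-- ▼ part R136/Mxg_615
section

/-!
# R136 (U4, PLAN 2 (AL), mixed curvatures): `caseA_nd` (helper615)
-/

set_option autoImplicit false
set_option linter.unusedVariables false

namespace Crest.Agent.R136.Mxc615

open Crest.Agent.R136.Rk601
open Crest.Agent.R136.Sh605 Crest.Agent.R136.Tl102
open Crest.Agent.R136.Arc880 (det3)
open Crest.Agent.R136.K4 (Plk4)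
open Crest.Agent.R136.Tlt51 (Shp InP)
open Crest.Agent.R136.KapP335 (kapP DetP expP_spec expP detP_iff kapP_eq)
open Crest.Agent.R136.Deep51 (dt_exp abs_dt_unit abs_dt_exp)

/-- velocity of the centre line relative to a line of the box -/
theorem vel_le {e : Fin 3 → V3} {c T : Ln4} {w : V3} {z0 ρ : ℝ} (hρ : 0 ≤ ρ)
    (hT : ∀ z, z0 ≤ z → z ≤ z0 + ρ → InK e c w z (T.pos z)) (i : Fin 3) :
    |dt (e i) (ρ • c.v - ρ • T.v)| ≤ 2 * w i := by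
  have h0 := hT z0 le_rfl (by linarith) i
  have h1 := hT (z0 + ρ) (by linarith) le_rfl i
  have e1 : dt (e i) (ρ • c.v - ρ • T.v) =
      dt (e i) (T.pos z0 - c.pos z0) - dt (e i) (T.pos (z0 + ρ) - c.pos (z0 + ρ)) := by
    simp only [dt, Pi.sub_apply, Pi.smul_apply, smul_eq_mul, Ln4.pos]; ring
  rw [e1]
  refine (abs_sub _ _).trans ?_
  linarith

theorem sq4 {x : ℝ} (h1 : 1 / 2 ≤ x) (h2 : x ≤ 2) : x ^ 2 ≤ 4 ∧ 1 / 4 ≤ x ^ 2 := by
  constructor <;> nlinarith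

theorem sq1 {x : ℝ} (h : |x| ≤ 1) : x ^ 2 ≤ 1 := by
  rw [← sq_abs]; nlinarith [abs_nonneg x]

set_option maxHeartbeats 1000000 in
/-- the jet of the base sheet in its chart -/
theorem base_facts {V : Plk4} {T : Ln4} {z0 ρ r ζ : ℝ} (hr : 0 < r) (hρ : 0 < ρ)
    (hV : Shp V z0 ρ r) (tV : InP T V z0 ρ) (hζ : 0 ≤ ζ) (hζ' : ζ ≤ 1) {JV : Jt} (sV : JV.Sym)
    (jV : JetAt V.q (fr V.e V.w) V.c.v (z0 + ρ * ζ) (T.pos (z0 + ρ * ζ)) ρ JV) :
    V.w 0 / 2 ≤ JV.a0 ∧ (∀ i, |sl JV i| ≤ 40) ∧ (∀ i, i ≠ 0 → |JV.a i| ≤ V.w 0) ∧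
      ∀ i j, |lf JV (sl JV) i j| ≤ 36 * (130 * kapP V z0 ρ T + 1000 * V.a) := by
  have ha : 0 < V.a := lt_of_lt_of_le hr hV.r0_le
  have hw0 : 0 < V.w 0 := lt_of_lt_of_le ha hV.a_le0
  have hw2 : 0 < V.w 2 := lt_of_lt_of_le hw0 hV.w0_le
  have hw1 : 0 < V.w 1 := lt_of_lt_of_le hw2 hV.w_le
  have hwk : ∀ k, V.w k ≠ 0 := by intro k; fin_cases k <;> first | exact hw0.ne' | exact hw1.ne' | exact hw2.ne'
  have S := StP.of_shN hV hw0
  have hin : ∀ z, z0 ≤ z → z ≤ z0 + ρ → InK V.e V.c V.w z (T.pos z) := fun z h1 h2 => (tV z h1 h2).1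
  have hE := expP_spec hV.isQ hw0.ne' z0 ρ T
  obtain ⟨b0, b1, G, hb⟩ : ∃ b0 b1 G, expP V z0 ρ T = (b0, b1, G) := ⟨_, _, _, rfl⟩
  rw [hb] at hE
  simp only at hE
  have N := IsExp.nrmC S hρ.le hin hE
  have hk : kapP V z0 ρ T = V.w 0 * kap b0 b1 G := kapP_eq hw0.ne' hE
  obtain ⟨k1, k2, K1, K2, hJ⟩ := own_jet (a := V.a) hV.isQ (fun z h1 h2 => (tV z h1 h2).2) hρ.le hE
    hζ hζ'
  have F := own_facts N hw0 hV.a_le0 hζ hζ' K1 K2
  have L := own_lf_le N hw0 hV.a_le0 hζ hζ' K1 K2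
  rw [← hk] at L
  generalize hJ' : ownJ (V.w 0) b0 b1 G ζ k1 k2 = J at hJ F L
  -- the chart with the velocity of the centre line
  set A : Fin 3 → V3 := ![![1, 0, 0], ![0, 1, 0], ![0, 0, 1]] with hA
  set D : V3 := fun k => dt (V.e k) (ρ • V.c.v - ρ • T.v) / V.w k with hD
  have hDk : ∀ k, |D k| ≤ 2 := fun k => by
    have hk := vel_le hρ.le hin k
    have hpos : 0 < V.w k := by fin_cases k <;> assumption
    rw [hD]
    show |dt (V.e k) (ρ • V.c.v - ρ • T.v) / V.w k| ≤ 2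
    rw [abs_div, abs_of_pos hpos, div_le_iff₀ hpos]; exact hk
  have hAc : ∀ i, fr V.e V.w i = cmb (fr V.e V.w) (A i) := by
    intro i
    funext j
    fin_cases i <;> simp [hA, cmb]
  have hDc : ρ • V.c.v = ρ • T.v + cmb (fr V.e V.w) D := by
    rw [hD, cmb_crd hV.ortho hwk]; abel
  have hJV : JV = chg J A D := jet_unique jV (chg_jet hJ hAc hDc) sV chg_sym
  have a00 : J.a0 ≠ 0 := by have := F.a1; linarith
  have c0 : (chg J A D).a0 = J.a0 := by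
    show J.a0 * A 0 0 + J.a 1 * A 0 1 + J.a 2 * A 0 2 = J.a0
    simp [hA]
  have c00 : (chg J A D).a0 ≠ 0 := by rw [c0]; exact a00
  have ca0 : |(chg J A D).a 0| ≤ 20 * V.w 0 := by
    show |J.a 0 + (J.a0 * D 0 + J.a 1 * D 1 + J.a 2 * D 2)| ≤ _
    have x0 : |J.a0| ≤ 2 * V.w 0 := by rw [abs_le]; constructor <;> linarith [F.a1, F.a2]
    refine (Arc880.abs_add2 F.g0 (Arc880.abs_add2 (Arc880.abs_add2 (mul_abs_le x0 (hDk 0))
      (mul_abs_le F.g1 (hDk 1))) (mul_abs_le F.g2 (hDk 2)))).trans ?_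
    have := hV.a_le0
    linarith
  have ca1 : (chg J A D).a 1 = J.a 1 := by
    show J.a0 * A 1 0 + J.a 1 * A 1 1 + J.a 2 * A 1 2 = _
    simp [hA]
  have ca2 : (chg J A D).a 2 = J.a 2 := by
    show J.a0 * A 2 0 + J.a 1 * A 2 1 + J.a 2 * A 2 2 = _
    simp [hA]
  have cai : ∀ i, |(chg J A D).a i| ≤ 20 * V.w 0 := by
    intro i
    fin_cases i
    · exact ca0
    · show |(chg J A D).a 1| ≤ _
      rw [ca1]; have := F.g1; linarith
    · show |(chg J A D).a 2| ≤ _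
      rw [ca2]; have := F.g2; linarith
  refine ⟨?_, ?_, ?_, ?_⟩
  · rw [hJV, c0]; exact F.a1
  · intro i
    rw [hJV]
    unfold sl
    have hp : 0 < (chg J A D).a0 := by rw [c0]; have := F.a1; linarith
    rw [abs_div, abs_neg, abs_of_pos hp, div_le_iff₀ hp, c0]
    have := cai i
    have := F.a1
    linarith
  · intro i hi
    rw [hJV]
    fin_cases i
    · exact absurd rfl hi
    · show |(chg J A D).a 1| ≤ _
      rw [ca1]; exact F.g1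
    · show |(chg J A D).a 2| ≤ _
      rw [ca2]; exact F.g2
  · intro i j
    rw [hJV]
    have hN : ∀ i k, |chN J A D i k| ≤ 2 := by
      intro i k
      unfold chN
      fin_cases k
      · simp only [Fin.zero_eta, Fin.isValue, reduceIte]
        split_ifs <;> norm_num
      · simp only [Fin.mk_one, Fin.isValue, one_ne_zero, reduceIte]
        have e0 : A 0 1 = 0 := rfl
        rw [e0, mul_zero, add_zero]
        fin_cases i
        · exact hDk 1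
        · show |(1 : ℝ)| ≤ 2
          norm_num
        · show |(0 : ℝ)| ≤ 2
          norm_num
      · simp only [Fin.reduceFinMk, Fin.isValue, Fin.reduceEq, reduceIte]
        have e0 : A 0 2 = 0 := rfl
        rw [e0, mul_zero, add_zero]
        fin_cases i
        · exact hDk 2
        · show |(0 : ℝ)| ≤ 2
          norm_num
        · show |(1 : ℝ)| ≤ 2
          norm_num
    have := lf_chg_le a00 c00 F.sym hN L i j
    refine this.trans (le_of_eq (by ring))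

set_option maxHeartbeats 2000000 in
/-- **(AL), case (A).** -/
theorem caseA_nd {U V : Plk4} {T : Ln4} {z0 ρ r K τ ζ : ℝ} (hr : 0 < r) (hρ : 0 < ρ) (hK : 1 ≤ K)
    (hU : Shp U z0 ρ r) (hV : Shp V z0 ρ r) (tU : InP T U z0 ρ) (tV : InP T V z0 ρ)
    (d1 : V.w 1 ≤ K * U.w 1) (d1' : U.w 1 ≤ K * V.w 1) (d2 : V.w 2 ≤ K * U.w 2)
    (d2' : U.w 2 ≤ K * V.w 2) (ang : V.w 1 * |dt (U.e 2) (V.e 1)| ≤ K * U.w 2)
    (det : DetP K⁻¹ U z0 ρ T)
    (flat : 10 ^ 22 * K ^ 9 * (kapP V z0 ρ T + U.a + V.a) ≤ kapP U z0 ρ T) (hτ0 : 0 ≤ τ)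
    (hτ : 10 ^ 24 * K ^ 10 * τ ≤ kapP U z0 ρ T) (hζ : 0 ≤ ζ) (hζ' : ζ ≤ 1) {JV JU : Jt}
    (sV : JV.Sym) (sU : JU.Sym)
    (jV : JetAt V.q (fr V.e V.w) V.c.v (z0 + ρ * ζ) (T.pos (z0 + ρ * ζ)) ρ JV)
    (jU : JetAt U.q (fr V.e V.w) V.c.v (z0 + ρ * ζ) (T.pos (z0 + ρ * ζ)) ρ JU)
    (htg : ∀ i, |tg JV JU i| ≤ τ) :
    ∃ i j k l, kapP U z0 ρ T ^ 2 ≤ 10 ^ 6 * K ^ 7 * |mn (th JV JU) i j k l| := by
  have hK0 : 0 < K := by linarith
  obtain ⟨v1, v2, v3, v4⟩ := base_facts hr hρ hV tV hζ hζ' sV jV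
  have ha : 0 < U.a := lt_of_lt_of_le hr hU.r0_le
  have haV : 0 < V.a := lt_of_lt_of_le hr hV.r0_le
  have hw0 : 0 < U.w 0 := lt_of_lt_of_le ha hU.a_le0
  have hw2 : 0 < U.w 2 := lt_of_lt_of_le hw0 hU.w0_le
  have hw1 : 0 < U.w 1 := lt_of_lt_of_le hw2 hU.w_le
  have gw0 : 0 < V.w 0 := lt_of_lt_of_le haV hV.a_le0
  have gw2 : 0 < V.w 2 := lt_of_lt_of_le gw0 hV.w0_le
  have gw1 : 0 < V.w 1 := lt_of_lt_of_le gw2 hV.w_le
  have hwk : ∀ k, U.w k ≠ 0 := by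
    intro k; fin_cases k <;> first | exact hw0.ne' | exact hw1.ne' | exact hw2.ne'
  have S := StP.of_shN hU hw0
  have hin : ∀ z, z0 ≤ z → z ≤ z0 + ρ → InK U.e U.c U.w z (T.pos z) := fun z h1 h2 => (tU z h1 h2).1
  have hinV : ∀ z, z0 ≤ z → z ≤ z0 + ρ → InK V.e V.c V.w z (T.pos z) :=
    fun z h1 h2 => (tV z h1 h2).1
  have hE := expP_spec hU.isQ hw0.ne' z0 ρ T
  obtain ⟨b0, b1, G, hb⟩ : ∃ b0 b1 G, expP U z0 ρ T = (b0, b1, G) := ⟨_, _, _, rfl⟩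
  rw [hb] at hE
  simp only at hE
  have N := IsExp.nrmC S hρ.le hin hE
  have hk : kapP U z0 ρ T = U.w 0 * kap b0 b1 G := kapP_eq hw0.ne' hE
  have hdet := (detP_iff hw0.ne' hE K⁻¹).1 det ζ hζ hζ'
  obtain ⟨k1, k2, K1, K2, hJ⟩ := own_jet (a := U.a) hU.isQ (fun z h1 h2 => (tU z h1 h2).2) hρ.le hE
    hζ hζ'
  -- sizes
  have hκV : 0 ≤ kapP V z0 ρ T := by
    have hE' := expP_spec hV.isQ gw0.ne' z0 ρ T
    rw [kapP_eq gw0.ne' hE']
    exact mul_nonneg gw0.le (kap_nonneg _ _ _)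
  have hK9 : (1 : ℝ) ≤ K ^ 9 := one_le_pow₀ hK
  have hK10 : (1 : ℝ) ≤ K ^ 10 := one_le_pow₀ hK
  set κ := kapP U z0 ρ T with hκ
  have hκ0 : 0 < κ := by
    have : 0 < 10 ^ 22 * K ^ 9 * (kapP V z0 ρ T + U.a + V.a) := by positivity
    linarith
  have hκ13 : κ ≤ 13 * U.w 0 := by
    rw [hk]; have := mul_le_mul_of_nonneg_left (kap_le N) hw0.le; linarith
  have hkap : 0 < kap b0 b1 G := by
    rw [hk] at hκ0
    exact (mul_pos_iff_of_pos_left hw0).1 hκ0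
  have hτκ : 10 ^ 24 * τ ≤ κ := by
    have := mul_le_mul_of_nonneg_right hK10 hτ0
    linarith
  have F := own_facts N hw0 hU.a_le0 hζ hζ' K1 K2
  have L := own_lf_le N hw0 hU.a_le0 hζ hζ' K1 K2
  have aκ : 10 ^ 22 * K ^ 9 * U.a ≤ κ := by
    have : 10 ^ 22 * K ^ 9 * U.a ≤ 10 ^ 22 * K ^ 9 * (kapP V z0 ρ T + U.a + V.a) :=
      mul_le_mul_of_nonneg_left (by linarith) (by positivity)
    linarith
  have Dt := own_det N hkap (δ := K⁻¹) hw0 hU.a_le0 hζ hζ' K1 K2 (inv_le_one_of_one_le₀ hK) hdet (by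
    rw [← hk, inv_mul_eq_div, le_div_iff₀ hK0]
    have h1 : K ≤ K ^ 9 := le_self_pow₀ hK (by norm_num)
    have h2 : 50 * U.a * K ≤ 10 ^ 22 * K ^ 9 * U.a := by
      have : K * U.a ≤ K ^ 9 * U.a := mul_le_mul_of_nonneg_right h1 ha.le
      have h3 : 0 ≤ K ^ 9 * U.a := by positivity
      linarith
    linarith)
  rw [← hk] at L Dt
  generalize hJ' : ownJ (U.w 0) b0 b1 G ζ k1 k2 = J at hJ F L Dt
  -- chart of `V`
  set A : Fin 3 → V3 := fun i k => dt (U.e k) (fr V.e V.w i) / U.w k with hA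
  set D : V3 := fun k => dt (U.e k) (ρ • V.c.v - ρ • T.v) / U.w k with hD
  have hAc : ∀ i, fr V.e V.w i = cmb (fr U.e U.w) (A i) := fun i => (cmb_crd hU.ortho hwk _).symm
  have hDc : ρ • V.c.v = ρ • T.v + cmb (fr U.e U.w) D := by
    rw [hD, cmb_crd hU.ortho hwk]; abel
  have hJU : JU = chg J A D := jet_unique jU (chg_jet hJ hAc hDc) sU chg_sym
  have hm : ∀ i j, A i j = V.w i * dt (U.e j) (V.e i) / U.w j := fun i j => by
    show dt (U.e j) (V.w i • V.e i) / U.w j = _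
    rw [dt_smul]
  have hu : ∀ i j, |dt (U.e j) (V.e i)| ≤ 1 := fun i j => abs_dt_unit hU.ortho hV.ortho j i
  have a00 : J.a0 ≠ 0 := by have := F.a1; linarith
  -- gradient
  set g : V3 := ![J.a0 / U.w 0, J.a 1 / U.w 1, J.a 2 / U.w 2] with hg
  have X : ∀ i, J.a0 * A i 0 + J.a 1 * A i 1 + J.a 2 * A i 2 =
      V.w i * (g 0 * dt (U.e 0) (V.e i) + g 1 * dt (U.e 1) (V.e i) + g 2 * dt (U.e 2) (V.e i)) := by
    intro i
    rw [hm, hm, hm]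
    simp only [hg, Matrix.cons_val_zero, Matrix.cons_val_one, Matrix.cons_val]
    field_simp
  set Xg : Fin 3 → ℝ := fun i =>
    g 0 * dt (U.e 0) (V.e i) + g 1 * dt (U.e 1) (V.e i) + g 2 * dt (U.e 2) (V.e i) with hXg
  have c0 : JU.a0 = V.w 0 * Xg 0 := by rw [hJU]; exact X 0
  have c1 : JU.a 1 = V.w 1 * Xg 1 := by rw [hJU]; exact X 1
  have c2 : JU.a 2 = V.w 2 * Xg 2 := by rw [hJU]; exact X 2
  have hpar : Xg 0 ^ 2 + Xg 1 ^ 2 + Xg 2 ^ 2 = g 0 ^ 2 + g 1 ^ 2 + g 2 ^ 2 := by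
    have y : ∀ i j, dt (U.e i) (V.e 0) * dt (U.e j) (V.e 0) + dt (U.e i) (V.e 1) * dt (U.e j) (V.e 1) +
        dt (U.e i) (V.e 2) * dt (U.e j) (V.e 2) = if i = j then 1 else 0 := by
      intro i j
      have h1 := dt_exp hV.ortho (U.e i) (U.e j)
      rw [hU.ortho i j, dt_comm (V.e 0) (U.e j), dt_comm (V.e 1) (U.e j), dt_comm (V.e 2) (U.e j)] at h1
      exact h1.symm
    have y00 := y 0 0
    have y11 := y 1 1
    have y22 := y 2 2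
    have y01 := y 0 1
    have y02 := y 0 2
    have y12 := y 1 2
    simp only [reduceIte, Fin.isValue, zero_ne_one, Fin.reduceEq] at y00 y11 y22 y01 y02 y12
    simp only [hXg]
    linear_combination g 0 ^ 2 * y00 + g 1 ^ 2 * y11 + g 2 ^ 2 * y22 + 2 * g 0 * g 1 * y01 +
      2 * g 0 * g 2 * y02 + 2 * g 1 * g 2 * y12
  have hg0 : 1 / 2 ≤ g 0 ∧ g 0 ≤ 2 := by
    constructor
    · show 1 / 2 ≤ J.a0 / U.w 0
      rw [le_div_iff₀ hw0]; have := F.a1; linarith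
    · show J.a0 / U.w 0 ≤ 2
      rw [div_le_iff₀ hw0]; exact F.a2
  have hg1 : |g 1| ≤ 1 := by
    show |J.a 1 / U.w 1| ≤ 1
    rw [abs_div, abs_of_pos hw1, div_le_one hw1]
    exact F.g1.trans (hU.w0_le.trans hU.w_le)
  have hg2 : |g 2| ≤ 1 := by
    show |J.a 2 / U.w 2| ≤ 1
    rw [abs_div, abs_of_pos hw2, div_le_one hw2]
    exact F.g2.trans hU.w0_le
  have hlow : 1 / 4 ≤ Xg 0 ^ 2 + Xg 1 ^ 2 + Xg 2 ^ 2 := by
    rw [hpar]
    have h1 := (sq4 hg0.1 hg0.2).2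
    have h2 := sq_nonneg (g 1)
    have h3 := sq_nonneg (g 2)
    linarith
  have hup : Xg 0 ^ 2 ≤ 9 := by
    have h1 : g 1 ^ 2 ≤ 1 := sq1 hg1
    have h2 : g 2 ^ 2 ≤ 1 := sq1 hg2
    have h3 : g 0 ^ 2 ≤ 4 := (sq4 hg0.1 hg0.2).1
    have h4 := sq_nonneg (Xg 1)
    have h5 := sq_nonneg (Xg 2)
    linarith
  have hup' : |Xg 0| ≤ 3 := abs_le_of_sq_le_sq (by linarith) (by norm_num)
  have hVa : 0 < JV.a0 := by linarith
  set μ := JU.a0 / JV.a0 with hμd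
  have hμa : JU.a0 = μ * JV.a0 := by rw [hμd]; field_simp
  have hτw2 : 20 * τ ≤ U.w 2 := by
    have := hU.w0_le
    linarith
  have hτv2 : 10 * τ ≤ V.w 2 := by
    -- `10^24 K^10 τ ≤ 13 w0 ≤ 13 K (V.w 2)`
    have h1 : 10 ^ 24 * K ^ 10 * τ ≤ 13 * (K * V.w 2) := by
      have := hU.w0_le
      linarith
    have h2 : K * (10 ^ 24 * τ) ≤ 10 ^ 24 * K ^ 10 * τ := by
      have h3 : K ≤ K ^ 10 := le_self_pow₀ hK (by norm_num)
      have h4 : K * τ ≤ K ^ 10 * τ := mul_le_mul_of_nonneg_right h3 hτ0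
      linarith
    have h5 : K * (10 ^ 24 * τ) ≤ K * (13 * V.w 2) := by linarith
    have h6 := le_of_mul_le_mul_left h5 hK0
    linarith
  have hX12 : ∀ i : Fin 3, i ≠ 0 → V.w 0 ≤ V.w i → 10 * τ ≤ V.w i → 0 < V.w i →
      JU.a i = V.w i * Xg i → |Xg i| ≤ |μ| + 1 / 10 := by
    intro i hi h1 h2 h3 h4
    have h5 := htg i
    have h6 : tg JV JU i = V.w i * Xg i - μ * JV.a i := by rw [← h4]; rfl
    rw [h6] at h5
    have h7 : |V.w i * Xg i| ≤ τ + |μ| * V.w 0 := by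
      have h8 := abs_sub_abs_le_abs_sub (V.w i * Xg i) (μ * JV.a i)
      have h9 : |μ * JV.a i| ≤ |μ| * V.w 0 := by
        rw [abs_mul]; exact mul_le_mul_of_nonneg_left (v3 i hi) (abs_nonneg _)
      linarith
    rw [abs_mul, abs_of_pos h3] at h7
    have h10 : |μ| * V.w 0 ≤ |μ| * V.w i := mul_le_mul_of_nonneg_left h1 (abs_nonneg _)
    have h11 : V.w i * |Xg i| ≤ V.w i * (|μ| + 1 / 10) := by linarith
    exact le_of_mul_le_mul_left h11 h3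
  have gw02 : V.w 0 ≤ V.w 2 := hV.w0_le
  have gw01 : V.w 0 ≤ V.w 1 := hV.w0_le.trans hV.w_le
  have hX1 := hX12 1 (by decide) gw01 (hτv2.trans hV.w_le) gw1 c1
  have hX2 := hX12 2 (by decide) gw02 hτv2 gw2 c2
  have hVa2 : JV.a0 ≤ 2 * V.w 0 := by
    -- from the slope bound at the base: steepness
    have hE' := expP_spec hV.isQ gw0.ne' z0 ρ T
    obtain ⟨c0', c1', G', hb'⟩ : ∃ c0' c1' G', expP V z0 ρ T = (c0', c1', G') := ⟨_, _, _, rfl⟩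
    rw [hb'] at hE'
    simp only at hE'
    have N' := IsExp.nrmC (StP.of_shN hV gw0) hρ.le hinV hE'
    obtain ⟨l1, l2, L1, L2, hJ2⟩ := own_jet (a := V.a) hV.isQ (fun z h1 h2 => (tV z h1 h2).2) hρ.le
      hE' hζ hζ'
    have F' := own_facts N' gw0 hV.a_le0 hζ hζ' L1 L2
    -- the normal derivative does not depend on the velocity axis
    have y1 := jV 1 0 0 0
    have y2 := jV (-1) 0 0 0
    have z1 := hJ2 1 0 0 0
    have z2 := hJ2 (-1) 0 0 0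
    simp only [dp, qf, Fin.sum_univ_three, Matrix.cons_val, mul_zero, zero_smul, add_zero] at y1 y2 z1 z2
    have : JV.a0 = (ownJ (V.w 0) c0' c1' G' ζ l1 l2).a0 := by
      norm_num at y1 y2 z1 z2
      linarith
    rw [this]; exact F'.a2
  have hX0 : |Xg 0| ≤ 2 * |μ| := by
    have h1 : V.w 0 * Xg 0 = μ * JV.a0 := by rw [← c0]; exact hμa
    have h2 : V.w 0 * |Xg 0| = |μ| * JV.a0 := by
      calc V.w 0 * |Xg 0| = |V.w 0 * Xg 0| := by rw [abs_mul, abs_of_pos gw0]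
        _ = |μ * JV.a0| := by rw [h1]
        _ = |μ| * JV.a0 := by rw [abs_mul, abs_of_pos hVa]
    have h3 : V.w 0 * |Xg 0| ≤ V.w 0 * (2 * |μ|) := by
      rw [h2]
      have := mul_le_mul_of_nonneg_left hVa2 (abs_nonneg μ)
      linarith
    exact le_of_mul_le_mul_left h3 gw0
  have hμ := grad_low hlow hX0 hX1 hX2
  have hJU0 : V.w 0 / 20 ≤ |JU.a0| := by
    rw [hμa, abs_mul, abs_of_pos hVa]
    calc V.w 0 / 20 = 1 / 10 * (V.w 0 / 2) := by ring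
      _ ≤ |μ| * JV.a0 := mul_le_mul hμ v1 (by positivity) (abs_nonneg _)
  have hJUup : |JU.a0| ≤ 3 * V.w 0 := by
    rw [c0, abs_mul, abs_of_pos gw0]
    have := mul_le_mul_of_nonneg_left hup' gw0.le
    linarith
  have hJUne : JU.a0 ≠ 0 := by
    intro h; rw [h, abs_zero] at hJU0; linarith
  have hμ6 : |JU.a0 / JV.a0| ≤ 6 := by
    rw [abs_div, abs_of_pos hVa, div_le_iff₀ hVa]; linarith
  -- entries of the change of basis
  have hA0 : ∀ k, |A 0 k| ≤ V.w 0 / U.w 0 := by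
    intro k
    have hUk : U.w 0 ≤ U.w k := by
      fin_cases k
      · exact le_rfl
      · exact hU.w0_le.trans hU.w_le
      · exact hU.w0_le
    have hUk0 : 0 < U.w k := lt_of_lt_of_le hw0 hUk
    rw [hm, abs_div, abs_of_pos hUk0, abs_mul, abs_of_pos gw0, div_le_div_iff₀ hUk0 hw0]
    have := hu 0 k
    have h1 : V.w 0 * |dt (U.e k) (V.e 0)| ≤ V.w 0 * 1 := mul_le_mul_of_nonneg_left this gw0.le
    have h2 := mul_le_mul h1 hUk hw0.le (by positivity : 0 ≤ V.w 0 * 1)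
    linarith
  have hA02 : ∀ k : Fin 3, k ≠ 0 → |A 0 k| * U.w 2 ≤ V.w 0 := by
    intro k hk0
    have hUk : U.w 2 ≤ U.w k := by
      fin_cases k
      · exact absurd rfl hk0
      · exact hU.w_le
      · exact le_rfl
    have hUk0 : 0 < U.w k := lt_of_lt_of_le hw2 hUk
    rw [hm, abs_div, abs_of_pos hUk0, abs_mul, abs_of_pos gw0, div_mul_eq_mul_div,
      div_le_iff₀ hUk0]
    have := hu 0 k
    have h1 : V.w 0 * |dt (U.e k) (V.e 0)| ≤ V.w 0 * 1 := mul_le_mul_of_nonneg_left this gw0.le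
    have h2 := mul_le_mul h1 hUk hw2.le (by positivity : 0 ≤ V.w 0 * 1)
    linarith
  have hAik : ∀ i k : Fin 3, i ≠ 0 → k ≠ 0 → |A i k| ≤ K := by
    intro i k hi hk0
    fin_cases i <;> fin_cases k <;> simp only [Fin.zero_eta, Fin.mk_one, Fin.reduceFinMk, ne_eq,
      not_true_eq_false, Fin.isValue] at hi hk0 ⊢
    · rw [hm, abs_div, abs_of_pos hw1, abs_mul, abs_of_pos gw1, div_le_iff₀ hw1]
      have := mul_le_mul_of_nonneg_left (hu 1 1) gw1.le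
      linarith
    · rw [hm, abs_div, abs_of_pos hw2, abs_mul, abs_of_pos gw1, div_le_iff₀ hw2]
      exact ang
    · rw [hm, abs_div, abs_of_pos hw1, abs_mul, abs_of_pos gw2, div_le_iff₀ hw1]
      have := mul_le_mul_of_nonneg_left (hu 2 1) gw2.le
      have h2 : K * U.w 2 ≤ K * U.w 1 := mul_le_mul_of_nonneg_left hU.w_le hK0.le
      linarith
    · rw [hm, abs_div, abs_of_pos hw2, abs_mul, abs_of_pos gw2, div_le_iff₀ hw2]
      have := mul_le_mul_of_nonneg_left (hu 2 2) gw2.le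
      linarith
  have hDk : ∀ k : Fin 3, k ≠ 0 → |D k| ≤ 6 * K := by
    intro k hk0
    have y0 := vel_le hρ.le hinV 0
    have y1 := vel_le hρ.le hinV 1
    have y2 := vel_le hρ.le hinV 2
    have hexp := abs_dt_exp hU.ortho hV.ortho k (ρ • V.c.v - ρ • T.v)
    set Y := ρ • V.c.v - ρ • T.v
    have u0 := hu 0 k
    have u2 := hu 2 k
    have m0 : |dt (U.e k) (V.e 0)| * |dt (V.e 0) Y| ≤ 1 * (2 * V.w 0) :=
      mul_le_mul u0 y0 (abs_nonneg _) zero_le_one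
    have m2 : |dt (U.e k) (V.e 2)| * |dt (V.e 2) Y| ≤ 1 * (2 * V.w 2) :=
      mul_le_mul u2 y2 (abs_nonneg _) zero_le_one
    fin_cases k
    · exact absurd rfl hk0
    · show |dt (U.e 1) Y / U.w 1| ≤ 6 * K
      rw [abs_div, abs_of_pos hw1, div_le_iff₀ hw1]
      have m1 : |dt (U.e 1) (V.e 1)| * |dt (V.e 1) Y| ≤ 1 * (2 * V.w 1) :=
        mul_le_mul (hu 1 1) y1 (abs_nonneg _) zero_le_one
      have h3 : V.w 2 ≤ V.w 1 := hV.w_le
      simp only [Fin.mk_one] at hexp m0 m2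
      linarith
    · show |dt (U.e 2) Y / U.w 2| ≤ 6 * K
      rw [abs_div, abs_of_pos hw2, div_le_iff₀ hw2]
      have m1 : |dt (U.e 2) (V.e 1)| * |dt (V.e 1) Y| ≤ 2 * (K * U.w 2) := by
        have h1 : |dt (U.e 2) (V.e 1)| * |dt (V.e 1) Y| ≤ |dt (U.e 2) (V.e 1)| * (2 * V.w 1) :=
          mul_le_mul_of_nonneg_left y1 (abs_nonneg _)
        linarith
      simp only [Fin.reduceFinMk] at hexp m0 m2
      linarith
  have hslU : ∀ i, |sl JU i| * V.w 0 ≤ 40 * V.w 0 + 20 * τ := by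
    intro i
    have h1 : sl JV i - sl JU i = tg JV JU i / JU.a0 := sl_sub hVa.ne' hJUne i
    have h2 : |sl JU i| ≤ |sl JV i| + |tg JV JU i / JU.a0| := by
      have : sl JU i = sl JV i - tg JV JU i / JU.a0 := by linarith
      rw [this]; exact abs_sub _ _
    have h3 : |tg JV JU i / JU.a0| * V.w 0 ≤ 20 * τ := by
      rw [abs_div, div_mul_eq_mul_div, div_le_iff₀ (abs_pos.2 hJUne)]
      have h4 := htg i
      have h5 : 20 * τ * (V.w 0 / 20) ≤ 20 * τ * |JU.a0| :=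
        mul_le_mul_of_nonneg_left hJU0 (by positivity)
      have h6 : |tg JV JU i| * V.w 0 ≤ τ * V.w 0 := mul_le_mul_of_nonneg_right h4 gw0.le
      linarith
    have h7 : |sl JV i| * V.w 0 ≤ 40 * V.w 0 := mul_le_mul_of_nonneg_right (v2 i) gw0.le
    have h8 := mul_le_mul_of_nonneg_right h2 gw0.le
    linarith
  have hsA : ∀ i k : Fin 3, k ≠ 0 → |sl JU i * A 0 k| ≤ 41 * K := by
    intro i k hk0
    have h1 := hA02 k hk0
    have h2 := hslU i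
    have h3 : |sl JU i| * |A 0 k| * U.w 2 ≤ 40 * V.w 0 + 20 * τ := by
      have h4 : |sl JU i| * (|A 0 k| * U.w 2) ≤ |sl JU i| * V.w 0 :=
        mul_le_mul_of_nonneg_left h1 (abs_nonneg _)
      linarith
    rw [abs_mul]
    have h5 : |sl JU i| * |A 0 k| * U.w 2 ≤ 41 * K * U.w 2 := by
      have h6 : V.w 0 ≤ K * U.w 2 := gw02.trans d2
      have h7 : U.w 2 ≤ K * U.w 2 := le_mul_of_one_le_left hw2.le hK
      linarith
    exact le_of_mul_le_mul_right h5 hw2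
  have h1K : (1 : ℝ) ≤ 50 * K := by linarith
  have hN : ∀ i k, |chN J A D i k| ≤ 50 * K := by
    intro i k
    unfold chN
    rw [← hJU]
    by_cases hk0 : k = 0
    · rw [if_pos hk0]
      split_ifs
      · rw [abs_one]; exact h1K
      · rw [abs_zero]; positivity
    · rw [if_neg hk0]
      have h1 := hsA i k hk0
      refine (abs_add_le _ _).trans ?_
      have h2 : |(![D, A 1, A 2] : Fin 3 → V3) i k| ≤ 6 * K := by
        fin_cases i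
        · exact hDk k hk0
        · exact (hAik 1 k (by decide) hk0).trans (by linarith)
        · exact (hAik 2 k (by decide) hk0).trans (by linarith)
      linarith
  have cne : (chg J A D).a0 ≠ 0 := by rw [← hJU]; exact hJUne
  -- entries of the tangential Hessian of `U`
  have aκ' : 1000 * U.a ≤ κ := by
    have := mul_le_mul_of_nonneg_right hK9 ha.le
    linarith
  have B1 : ∀ i j, |lf JU (sl JU) i j| ≤ (10 ^ 7 * K ^ 2) * κ := by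
    intro i j
    have h1 := lf_chg_le a00 cne F.sym hN (b := 131 * κ) (fun k l => (L k l).trans (by linarith)) i j
    rw [← hJU] at h1
    refine h1.trans ?_
    have : 0 ≤ K ^ 2 * κ := by positivity
    linarith
  -- determinant
  have Dm := det_frames (m := fun i j => dt (U.e j) (V.e i)) hU.ortho hV.ortho (fun i j => rfl)
  have hjac := jac_chg (J := J) (A := A) (D := D) cne
  set Nd := chN J A D 1 1 * chN J A D 2 2 - chN J A D 1 2 * chN J A D 2 1 with hNd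
  rw [← hJU] at hjac
  have hdetA : A 0 0 * (A 1 1 * A 2 2 - A 1 2 * A 2 1) - A 0 1 * (A 1 0 * A 2 2 - A 1 2 * A 2 0) +
        A 0 2 * (A 1 0 * A 2 1 - A 1 1 * A 2 0) =
      V.w 0 * V.w 1 * V.w 2 / (U.w 0 * U.w 1 * U.w 2) *
        (dt (U.e 0) (V.e 0) * (dt (U.e 1) (V.e 1) * dt (U.e 2) (V.e 2) -
          dt (U.e 2) (V.e 1) * dt (U.e 1) (V.e 2)) -
        dt (U.e 1) (V.e 0) * (dt (U.e 0) (V.e 1) * dt (U.e 2) (V.e 2) -
          dt (U.e 2) (V.e 1) * dt (U.e 0) (V.e 2)) +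
        dt (U.e 2) (V.e 0) * (dt (U.e 0) (V.e 1) * dt (U.e 1) (V.e 2) -
          dt (U.e 1) (V.e 1) * dt (U.e 0) (V.e 2))) := by
    simp only [hm]
    field_simp
  have hNd' : 1 ≤ 6 * K ^ 2 * |Nd| := by
    rw [hdetA] at hjac
    have h1 : |Nd| * |JU.a0| = |J.a0| * (V.w 0 * V.w 1 * V.w 2 / (U.w 0 * U.w 1 * U.w 2)) := by
      rw [← abs_mul, hjac, abs_mul, abs_mul, Dm, mul_one,
        abs_of_pos (by positivity : 0 < V.w 0 * V.w 1 * V.w 2 / (U.w 0 * U.w 1 * U.w 2))]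
    have h2 : U.w 0 / 2 ≤ |J.a0| := F.a1.trans (le_abs_self _)
    have h3 : |Nd| * |JU.a0| ≤ |Nd| * (3 * V.w 0) := mul_le_mul_of_nonneg_left hJUup (abs_nonneg _)
    have h4 : U.w 0 / 2 * (V.w 0 * V.w 1 * V.w 2 / (U.w 0 * U.w 1 * U.w 2)) ≤
        |J.a0| * (V.w 0 * V.w 1 * V.w 2 / (U.w 0 * U.w 1 * U.w 2)) :=
      mul_le_mul_of_nonneg_right h2 (by positivity)
    have h5 : U.w 0 / 2 * (V.w 0 * V.w 1 * V.w 2 / (U.w 0 * U.w 1 * U.w 2)) =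
        V.w 0 * (V.w 1 * V.w 2 / (2 * (U.w 1 * U.w 2))) := by field_simp
    have h6 : V.w 0 * (V.w 1 * V.w 2 / (2 * (U.w 1 * U.w 2))) ≤ V.w 0 * (3 * |Nd|) := by
      rw [← h5]; linarith
    have h7 := le_of_mul_le_mul_left h6 gw0
    have h8 : 1 ≤ K ^ 2 * (V.w 1 * V.w 2 / (U.w 1 * U.w 2)) := by
      rw [← mul_div_assoc, le_div_iff₀ (by positivity), one_mul]
      calc U.w 1 * U.w 2 ≤ (K * V.w 1) * (K * V.w 2) := mul_le_mul d1' d2' hw2.le (by positivity)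
        _ = K ^ 2 * (V.w 1 * V.w 2) := by ring
    have h9 : V.w 1 * V.w 2 / (2 * (U.w 1 * U.w 2)) = 1 / 2 * (V.w 1 * V.w 2 / (U.w 1 * U.w 2)) := by
      field_simp
    rw [h9] at h7
    have h10 : K ^ 2 * (1 / 2 * (V.w 1 * V.w 2 / (U.w 1 * U.w 2))) ≤ K ^ 2 * (3 * |Nd|) :=
      mul_le_mul_of_nonneg_left h7 (by positivity)
    linarith
  have hdet3 : (400000 * K⁻¹ ^ 5) * κ ^ 3 ≤ |det3 (lf JU (sl JU))| := by
    rw [hJU, det3_chg a00 cne F.sym, ← hNd, abs_mul, abs_pow]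
    have h1 : 1 / (36 * K ^ 4) ≤ |Nd| ^ 2 := by
      rw [div_le_iff₀ (by positivity)]
      have h2 : (1 : ℝ) ≤ (6 * K ^ 2 * |Nd|) ^ 2 := one_le_pow₀ hNd'
      calc (1 : ℝ) ≤ (6 * K ^ 2 * |Nd|) ^ 2 := h2
        _ = |Nd| ^ 2 * (36 * K ^ 4) := by ring
    calc (400000 * K⁻¹ ^ 5) * κ ^ 3 ≤ 1 / (36 * K ^ 4) * (2 ^ 24 * K⁻¹ * κ ^ 3) := by
          have h3 : 1 / (36 * K ^ 4) * (2 ^ 24 * K⁻¹ * κ ^ 3) =
              (2 ^ 24 / 36) * (K⁻¹ ^ 5 * κ ^ 3) := by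
            field_simp
          have h4 : (400000 * K⁻¹ ^ 5) * κ ^ 3 = 400000 * (K⁻¹ ^ 5 * κ ^ 3) := by ring
          rw [h3, h4]
          exact mul_le_mul_of_nonneg_right (by norm_num) (by positivity)
      _ ≤ |Nd| ^ 2 * |det3 (lf J (sl J))| :=
          mul_le_mul h1 Dt (by positivity) (by positivity)
  -- mixed derivatives
  have hmix : ∀ i, |JU.h0 i + JU.h00 * sl JU i| ≤ 25000 * K * V.w 0 := by
    intro i
    have h1 := mix_chg_le a00 cne F.sym hN hA0 F.q00 F.q0 F.qh F.sl i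
    rw [← hJU] at h1
    have h2 : V.w 0 / U.w 0 * (50 * K) * U.w 0 = 50 * K * V.w 0 := by field_simp
    rw [h2] at h1
    linarith
  have hh00 : |JU.h00| * U.w 0 ≤ 100 * V.w 0 ^ 2 := by
    have h1 := h00_chg_le (D := D) hA0 F.q00 F.q0 F.qh
    rw [← hJU] at h1
    have h2 : (V.w 0 / U.w 0) ^ 2 * U.w 0 * U.w 0 = V.w 0 ^ 2 := by field_simp
    have h3 := mul_le_mul_of_nonneg_right h1 hw0.le
    calc |JU.h00| * U.w 0 ≤ 100 * ((V.w 0 / U.w 0) ^ 2 * U.w 0) * U.w 0 := h3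
      _ = 100 * ((V.w 0 / U.w 0) ^ 2 * U.w 0 * U.w 0) := by ring
      _ = _ := by rw [h2]
  have hη : ∀ i, |tg JV JU i| ≤ 20 * τ / V.w 0 * |JU.a0| := by
    intro i
    have h1 : τ = 20 * τ / V.w 0 * (V.w 0 / 20) := by field_simp
    calc |tg JV JU i| ≤ τ := htg i
      _ = 20 * τ / V.w 0 * (V.w 0 / 20) := h1
      _ ≤ _ := mul_le_mul_of_nonneg_left hJU0 (by positivity)
  have hBη : |JU.h00| * (20 * τ / V.w 0) ≤ 25000 * K * V.w 0 := by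
    have h1 : |JU.h00| * (20 * τ / V.w 0) * (U.w 0 * V.w 0) = |JU.h00| * U.w 0 * (20 * τ) := by
      field_simp
    have h2 : |JU.h00| * U.w 0 * (20 * τ) ≤ 100 * V.w 0 ^ 2 * (20 * τ) :=
      mul_le_mul_of_nonneg_right hh00 (by positivity)
    have h3 : 2000 * τ ≤ 25000 * K * U.w 0 := by
      have : U.w 0 ≤ K * U.w 0 := le_mul_of_one_le_left hw0.le hK
      linarith
    have h4 : |JU.h00| * (20 * τ / V.w 0) * (U.w 0 * V.w 0) ≤
        25000 * K * V.w 0 * (U.w 0 * V.w 0) := by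
      rw [h1]
      calc |JU.h00| * U.w 0 * (20 * τ) ≤ 100 * V.w 0 ^ 2 * (20 * τ) := h2
        _ = V.w 0 ^ 2 * (2000 * τ) := by ring
        _ ≤ V.w 0 ^ 2 * (25000 * K * U.w 0) := mul_le_mul_of_nonneg_left h3 (by positivity)
        _ = _ := by ring
    exact le_of_mul_le_mul_right h4 (by positivity)
  set σ : ℝ := 2 / 10 ^ 13 * K⁻¹ ^ 9 with hσd
  have hKi : 0 < K⁻¹ := by positivity
  have hσ0 : 0 < σ := by rw [hσd]; positivity
  have hσle : σ ≤ 2 / 10 ^ 13 := by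
    rw [hσd]
    have : K⁻¹ ^ 9 ≤ 1 := pow_le_one₀ hKi.le (inv_le_one_of_one_le₀ hK)
    linarith
  have herr : 3 * (25000 * K * V.w 0) * (20 * τ / V.w 0) ≤ σ * κ := by
    have h1 : 3 * (25000 * K * V.w 0) * (20 * τ / V.w 0) = 1500000 * (K * τ) := by
      field_simp; ring
    rw [h1, hσd]
    have h2 : 2 / 10 ^ 13 * K⁻¹ ^ 9 * (10 ^ 24 * K ^ 10 * τ) ≤ 2 / 10 ^ 13 * K⁻¹ ^ 9 * κ :=
      mul_le_mul_of_nonneg_left hτ (by positivity)
    have h3 : 2 / 10 ^ 13 * K⁻¹ ^ 9 * (10 ^ 24 * K ^ 10 * τ) = 2 * 10 ^ 11 * (K * τ) := by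
      field_simp
    rw [h3] at h2
    have : 0 ≤ K * τ := by positivity
    linarith
  have hb0 : ∀ i j, |lf JV (sl JV) i j| ≤ σ * κ := by
    intro i j
    refine (v4 i j).trans ?_
    have h1 : 36 * (130 * kapP V z0 ρ T + 1000 * V.a) ≤ 36000 * (kapP V z0 ρ T + U.a + V.a) := by
      linarith
    have h2 : σ * (10 ^ 22 * K ^ 9 * (kapP V z0 ρ T + U.a + V.a)) ≤ σ * κ :=
      mul_le_mul_of_nonneg_left flat hσ0.le
    have h3 : σ * (10 ^ 22 * K ^ 9 * (kapP V z0 ρ T + U.a + V.a)) =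
        2 * 10 ^ 9 * (kapP V z0 ρ T + U.a + V.a) := by
      rw [hσd]; field_simp
    rw [h3] at h2
    linarith
  have hK2 : (1 : ℝ) ≤ K ^ 2 := one_le_pow₀ hK
  obtain ⟨i, j, k, l, h⟩ := mixed_th_flat3 (q0 := JV) (q1 := JU) (κ := κ) (K := 10 ^ 7 * K ^ 2)
    (δ := 400000 * K⁻¹ ^ 5) (σ := σ) hκ0 hJUne sU (by positivity) B1 hdet3 hb0 hmix hBη hη hVa.ne'
    herr (by linarith) hμ6 (by
      have h1 : 13440 * ((10 ^ 7 * K ^ 2) ^ 2 * σ) = 268800 * K⁻¹ ^ 5 := by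
        rw [hσd]; field_simp; ring
      rw [h1]
      exact mul_le_mul_of_nonneg_right (by norm_num) (by positivity))
  refine ⟨i, j, k, l, ?_⟩
  have h1 : K ^ 5 * (400000 * K⁻¹ ^ 5 * κ ^ 2) = 400000 * κ ^ 2 := by field_simp
  have h2 : K ^ 5 * (400000 * K⁻¹ ^ 5 * κ ^ 2) ≤
      K ^ 5 * (96 * (10 ^ 7 * K ^ 2) * |mn (th JV JU) i j k l|) :=
    mul_le_mul_of_nonneg_left h (by positivity)
  rw [h1] at h2
  have h3 : K ^ 5 * (96 * (10 ^ 7 * K ^ 2) * |mn (th JV JU) i j k l|) =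
      96 * 10 ^ 7 * (K ^ 7 * |mn (th JV JU) i j k l|) := by ring
  rw [h3] at h2
  have h4 : 0 ≤ K ^ 7 * |mn (th JV JU) i j k l| := by positivity
  linarith

end Crest.Agent.R136.Mxc615
end

-- ▼ part R136/Mxh_615
section

/-!
# R136 (U4, PLAN 2 (AL), mixed curvatures): `caseA_Nd`, over 601's `Nd` (helper615)
-/

set_option autoImplicit false
set_option linter.unusedVariables false

namespace Crest.Agent.R136.Mxc615

open Crest.Agent.R136.Rk601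
open Crest.Agent.R136.Sh605 Crest.Agent.R136.Tl102
open Crest.Agent.R136.K4 (Plk4)
open Crest.Agent.R136.Tlt51 (Shp InP)
open Crest.Agent.R136.KapP335 (kapP DetP)
open Crest.Agent.R136.AlD601 (jt jt_jet jS Nd)
open Crest.Agent.R136.Gbx862 (zj)

/-- **(AL), case (A)** : `Nd` at every height number of every common line. -/
theorem caseA_Nd {U V : Plk4} {T : Ln4} {z0 ρ r K l m s : ℝ} {H j : ℕ} (hr : 0 < r) (hρ : 0 < ρ)
    (hK : 1 ≤ K) (hU : Shp U z0 ρ r) (hV : Shp V z0 ρ r) (tU : InP T U z0 ρ) (tV : InP T V z0 ρ)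
    (d1 : V.w 1 ≤ K * U.w 1) (d1' : U.w 1 ≤ K * V.w 1) (d2 : V.w 2 ≤ K * U.w 2)
    (d2' : U.w 2 ≤ K * V.w 2) (ang : V.w 1 * |dt (U.e 2) (V.e 1)| ≤ K * U.w 2)
    (det : DetP K⁻¹ U z0 ρ T)
    (flat : 10 ^ 22 * K ^ 9 * (kapP V z0 ρ T + U.a + V.a) ≤ kapP U z0 ρ T)
    (hH : 0 < H) (hj : j ≤ H) (hl : 0 ≤ l) (hs : 0 ≤ s)
    (h1 : 10 ^ 24 * K ^ 10 * (l * s) ≤ kapP U z0 ρ T)
    (h2 : 10 ^ 6 * K ^ 7 * (m * s ^ 2) < kapP U z0 ρ T ^ 2) : Nd V U.q z0 ρ H j T l m s := by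
  by_cases h : ∀ i, |Rk601.tg (jS V V.q z0 ρ H j T) (jS V U.q z0 ρ H j T) i| ≤ l * s
  · right
    obtain ⟨jV, sV⟩ := jt_jet hV.isQ (fr V.e V.w) V.c.v (zj z0 ρ H j) (T.pos (zj z0 ρ H j)) ρ
    obtain ⟨jU, sU⟩ := jt_jet hU.isQ (fr V.e V.w) V.c.v (zj z0 ρ H j) (T.pos (zj z0 ρ H j)) ρ
    have hH' : (0 : ℝ) < H := by exact_mod_cast hH
    have hζ : (0 : ℝ) ≤ (j : ℝ) / H := by positivity
    have hζ' : (j : ℝ) / H ≤ 1 := (div_le_one hH').2 (by exact_mod_cast hj)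
    obtain ⟨i, j', k, k', hm⟩ := caseA_nd hr hρ hK hU hV tU tV d1 d1' d2 d2' ang det flat
      (mul_nonneg hl hs) h1 hζ hζ' sV sU jV jU h
    refine ⟨i, j', k, k', ?_⟩
    have hK7 : 0 < 10 ^ 6 * K ^ 7 := by positivity
    exact lt_of_mul_lt_mul_left (lt_of_lt_of_le h2 hm) hK7.le
  · left
    push Not at h
    exact h

end Crest.Agent.R136.Mxc615
end

-- ▼ part R136/Npt_615

/-!
# R136 (U4, PLAN 2 (AL), mixed curvatures): `NdPt` (helper615)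
-/

set_option autoImplicit false
set_option linter.unusedVariables false

namespace Crest.Agent.R136.Mxc615

open Crest.Agent.R136.Sh605
open Crest.Agent.R136.K4 (Plk4)
open Crest.Agent.R136.Tlt51 (Shp InP)
open Crest.Agent.R136.KapP335 (kapP DetP DetP.mono)
open Crest.Agent.R136.Tl102 (angC StP StP.of_shN)
open Crest.Agent.R136.Pl2W102 (Near)
open Crest.Agent.R136.Pl2 (kp Al1)
open Crest.Agent.R136.Hcp208 (Dims)
open Crest.Agent.R136.AlD601 (Nd)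

/-- **pointwise nondegeneracy in the data of `Amx84.NdMx`** -/
theorem ndPt_at {W Y a w1 w2 z0 ρ r : ℝ} {H j : ℕ} {U V : Plk4} {T : Ln4} (hW : 1 ≤ W)
    (hr : 0 < r) (hρ : 0 < ρ) (ha : 0 < a) (hU : Shp U z0 ρ r) (hV : Shp V z0 ρ r)
    (tU : InP T U z0 ρ) (tV : InP T V z0 ρ) (dU : Dims W a w1 w2 U) (dV : Dims W a w1 w2 V)
    (al : Al1 W U V T a w1 w2 z0 ρ) (det : DetP W⁻¹ U z0 ρ T) (hY : Near 4 Y (kp U z0 ρ T))
    (hV' : (2 * W) ^ (120 : ℝ) * kp V z0 ρ T ≤ Y) (ha' : (2 * W) ^ (120 : ℝ) * a ≤ Y)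
    (hH : 1 ≤ H) (hj : j ≤ H) :
    Nd V U.q z0 ρ H j T ((2 * W) ^ (-(120 : ℝ))) ((2 * W) ^ (-(120 : ℝ))) Y := by
  have hW0 : 0 < W := by linarith
  have h2W : (0 : ℝ) < 2 * W := by linarith
  have e1 : (2 * W) ^ (120 : ℝ) = 2 ^ 120 * W ^ 120 := by
    rw [← mul_pow]; exact_mod_cast Real.rpow_natCast (2 * W) 120
  have e2 : (2 * W) ^ (-(120 : ℝ)) = (2 ^ 120 * W ^ 120)⁻¹ := by
    rw [Real.rpow_neg h2W.le, e1]
  rw [e1] at hV' ha'
  rw [e2]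
  have hQ : (0 : ℝ) < 2 ^ 120 * W ^ 120 := by positivity
  obtain ⟨⟨a1, a2⟩, ⟨b1, b2⟩, ⟨c1, c2⟩⟩ := dU
  obtain ⟨⟨a1', a2'⟩, ⟨b1', b2'⟩, ⟨c1', c2'⟩⟩ := dV
  have haU : 0 < U.a := lt_of_lt_of_le hr hU.r0_le
  have hw0 : 0 < U.w 0 := lt_of_lt_of_le haU hU.a_le0
  have hw2 : 0 < U.w 2 := lt_of_lt_of_le hw0 hU.w0_le
  have hw1 : 0 < U.w 1 := lt_of_lt_of_le hw2 hU.w_le
  have haV : 0 < V.a := lt_of_lt_of_le hr hV.r0_le
  have gw0 : 0 < V.w 0 := lt_of_lt_of_le haV hV.a_le0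
  have gw2 : 0 < V.w 2 := lt_of_lt_of_le gw0 hV.w0_le
  have gw1 : 0 < V.w 1 := lt_of_lt_of_le gw2 hV.w_le
  have hW3 : (1 : ℝ) ≤ W ^ 3 := one_le_pow₀ hW
  have two : ∀ x y X : ℝ, 0 ≤ x → y ≤ W * X → X ≤ W * x → y ≤ W ^ 3 * x := by
    intro x y X hx h1 h2
    have h3 := mul_le_mul_of_nonneg_left h2 hW0.le
    have h4 : W ^ 2 * x ≤ W ^ 3 * x :=
      mul_le_mul_of_nonneg_right (pow_le_pow_right₀ hW (by norm_num)) hx
    have h5 : W * (W * x) = W ^ 2 * x := by ring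
    linarith
  have d1 : V.w 1 ≤ W ^ 3 * U.w 1 := two _ _ _ hw1.le b2' b1
  have d1' : U.w 1 ≤ W ^ 3 * V.w 1 := two _ _ _ gw1.le b2 b1'
  have d2 : V.w 2 ≤ W ^ 3 * U.w 2 := two _ _ _ hw2.le c2' c1
  have d2' : U.w 2 ≤ W ^ 3 * V.w 2 := two _ _ _ gw2.le c2 c1'
  have hang : V.w 1 * |dt (U.e 2) (V.e 1)| ≤ W ^ 3 * U.w 2 := by
    have h1 : |dt (U.e 2) (V.e 1)| ≤ angC U V := by
      unfold angC
      exact (le_max_right _ _).trans (le_max_right _ _)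
    have h0 : 0 ≤ angC U V := (abs_nonneg _).trans h1
    have h2 := al.ang
    calc V.w 1 * |dt (U.e 2) (V.e 1)| ≤ (W * w1) * angC U V :=
          mul_le_mul b2' h1 (abs_nonneg _) (gw1.le.trans b2')
      _ = W * (angC U V * w1) := by ring
      _ ≤ W * (W * w2) := mul_le_mul_of_nonneg_left h2 hW0.le
      _ ≤ W * (W * (W * U.w 2)) :=
        mul_le_mul_of_nonneg_left (mul_le_mul_of_nonneg_left c1 hW0.le) hW0.le
      _ = W ^ 3 * U.w 2 := by ring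
  have hdet : DetP (W ^ 3)⁻¹ U z0 ρ T := by
    refine det.mono ?_
    have h1 : W ≤ W ^ 3 := le_self_pow₀ hW (by norm_num)
    exact inv_anti₀ hW0 h1
  -- numbers
  have hkU : Y ≤ 4 * kapP U z0 ρ T := hY.1
  have hkV0 : (2 ^ 120 * W ^ 120) * kapP V z0 ρ T ≤ Y := hV'
  have hY0 : 0 < Y := lt_of_lt_of_le (by positivity) ha'
  have hk0 : 0 < kapP U z0 ρ T := by linarith
  have hkVn : 0 ≤ kapP V z0 ρ T := by
    have hE' := KapP335.expP_spec hV.isQ gw0.ne' z0 ρ T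
    rw [KapP335.kapP_eq gw0.ne' hE']
    exact mul_nonneg gw0.le (Tl102.kap_nonneg _ _ _)
  have hK27 : (W ^ 3) ^ 9 = W ^ 27 := by ring
  have flat : 10 ^ 22 * (W ^ 3) ^ 9 * (kapP V z0 ρ T + U.a + V.a) ≤ kapP U z0 ρ T := by
    rw [hK27]
    have h1 : W ^ 27 * kapP V z0 ρ T ≤ W ^ 120 * kapP V z0 ρ T :=
      mul_le_mul_of_nonneg_right (pow_le_pow_right₀ hW (by norm_num)) hkVn
    have h2 : W ^ 28 * a ≤ W ^ 120 * a :=
      mul_le_mul_of_nonneg_right (pow_le_pow_right₀ hW (by norm_num)) ha.le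
    have h3 : W ^ 27 * U.a ≤ W ^ 28 * a := by
      have := mul_le_mul_of_nonneg_left a2 (by positivity : (0:ℝ) ≤ W ^ 27)
      calc W ^ 27 * U.a ≤ W ^ 27 * (W * a) := this
        _ = W ^ 28 * a := by ring
    have h4 : W ^ 27 * V.a ≤ W ^ 28 * a := by
      have := mul_le_mul_of_nonneg_left a2' (by positivity : (0:ℝ) ≤ W ^ 27)
      calc W ^ 27 * V.a ≤ W ^ 27 * (W * a) := this
        _ = W ^ 28 * a := by ring
    have h5 : 0 ≤ W ^ 120 * a := by positivity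
    have h6 : 0 ≤ W ^ 120 * kapP V z0 ρ T := mul_nonneg (pow_nonneg hW0.le _) hkVn
    have h7 : 10 ^ 22 * W ^ 27 * (kapP V z0 ρ T + U.a + V.a) =
        10 ^ 22 * (W ^ 27 * kapP V z0 ρ T + W ^ 27 * U.a + W ^ 27 * V.a) := by ring
    rw [h7]
    norm_num at hkV0 ha' ⊢
    linarith
  have hQi : (0 : ℝ) < (2 ^ 120 * W ^ 120)⁻¹ := by positivity
  refine caseA_Nd hr hρ hW3 hU hV tU tV d1 d1' d2 d2' hang hdet flat (by omega) hj hQi.le hY0.le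
    ?_ ?_
  · have h1 : (W ^ 3) ^ 10 = W ^ 30 := by ring
    rw [h1]
    have h2 : 10 ^ 24 * W ^ 30 * ((2 ^ 120 * W ^ 120)⁻¹ * Y) ≤ Y / 4 := by
      rw [inv_mul_eq_div, ← mul_div_assoc, div_le_div_iff₀ hQ (by norm_num)]
      have h3 : W ^ 30 * Y ≤ W ^ 120 * Y :=
        mul_le_mul_of_nonneg_right (pow_le_pow_right₀ hW (by norm_num)) hY0.le
      have h4 : 0 ≤ W ^ 120 * Y := by positivity
      norm_num
      linarith
    linarith
  · have h1 : (W ^ 3) ^ 7 = W ^ 21 := by ring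
    rw [h1]
    have h2 : 10 ^ 6 * W ^ 21 * ((2 ^ 120 * W ^ 120)⁻¹ * Y ^ 2) < Y ^ 2 / 16 := by
      rw [inv_mul_eq_div, ← mul_div_assoc, div_lt_div_iff₀ hQ (by norm_num)]
      have h3 : W ^ 21 * Y ^ 2 ≤ W ^ 120 * Y ^ 2 :=
        mul_le_mul_of_nonneg_right (pow_le_pow_right₀ hW (by norm_num)) (by positivity)
      have h4 : 0 < W ^ 120 * Y ^ 2 := by positivity
      norm_num
      linarith
    have h5 : Y ^ 2 ≤ 16 * kapP U z0 ρ T ^ 2 := by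
      have := pow_le_pow_left₀ hY0.le hkU 2
      calc Y ^ 2 ≤ (4 * kapP U z0 ρ T) ^ 2 := this
        _ = _ := by ring
    linarith

end Crest.Agent.R136.Mxc615
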