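import Crest.Agent.R136.RLc_66
import Crest.Agent.R136.RL2_626
import Crest.Agent.R136.RL5_478

-- ▼ part R136/Qh1_831
section

/-!
# R136, thin branch (helper831): a relation on the interior classes gives the input of the gauge step

* `bCq b w1` : base of the class, `z : 0`, `c : -w1`, height `-b w1`.
* `JLaw` : law of the pairs with one interior label, gauge `j` per incidence.
* **`hasGau_of_law`** : record window with D-max, stage and `JLaw` give `HasGau`.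
-/

set_option autoImplicit false
set_option linter.unusedVariables false

open Finset Filter Topology

namespace Crest.Agent.R136.Qh831

open Crest.Agent.R136.Net191
open Crest.Agent.R136.NetW191
open Crest.Agent.R136.PrW464
open Crest.Agent.R136.NatW697
open Crest.Agent.R136.LadW697
open Crest.Agent.R136.LadG697
open Crest.Agent.R136.Top484
open Crest.Agent.R136.NatT550
open Crest.Agent.R136.ThS830
open Crest.Agent.R136.LadT830
open Crest.Agent.R136.Zpr779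
open Crest.Agent.R136.Qg926
open Crest.Agent.R136.EvW938
open Crest.Agent.R136.GauW619
open Crest.Agent.R136.AwJ774
open Crest.Agent.R136.K2S774
open Crest.Agent.R136.RL66
open Crest.Agent.R136.RL626 (mvz new_pair coW_gau_two side_le)
open Crest.Agent.R138.Ex926
open Crest.Agent.R136.Gau66 (popular_fs few_labels sub_rpow zprof_refine)

/-! ### base of the class -/

/-- base of the class -/
def bCq (b : ℤ) (w1 : ℝ) : Fin 18 → ℝ := grW 0 (-w1) (-((b : ℝ) * w1))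

theorem bCq_nat (Dr : Set (Fin 18)) (b : ℤ) (w1 : ℝ) : Nat QW (actW Dr) (bCq b w1) :=
  nat_grW _ _ _ _

theorem bCq_zero (b : ℤ) (w1 : ℝ) : bCq b w1 0 = 0 := by simp [bCq, grW, wz, wc, wn]

theorem bCq_one (b : ℤ) (w1 : ℝ) : bCq b w1 1 = -w1 := by simp [bCq, grW, wz, wc, wn]

theorem wn_flag : ∀ k : Fin 18, 4 ≤ k → wn k = 1 := by decide

theorem bCq_flag {b : ℤ} {w1 : ℝ} {k : Fin 18} (hk : 4 ≤ k) :
    bCq b w1 k = -((wc k + b : ℤ) : ℝ) * w1 := by
  unfold bCq grW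
  rw [wn_flag k hk]
  push_cast
  ring

theorem lt_four : ∀ k : Fin 18, ¬ 4 ≤ k → k = 0 ∨ k = 1 ∨ k = 2 ∨ k = 3 := by decide

theorem bCq_low {b : ℤ} {w1 : ℝ} (h : 0 ≤ w1) {k : Fin 18} (hk : ¬ 4 ≤ k) (h0 : k ≠ 0) :
    bCq b w1 k ≤ -w1 := by
  rcases lt_four k hk with rfl | rfl | rfl | rfl
  · exact absurd rfl h0
  all_goals simp [bCq, grW, wz, wc, wn] <;> linarith

theorem bCq_le {b : ℤ} {w1 : ℝ} (h : 0 ≤ w1) (b0 : 0 ≤ b) (k : Fin 18) : bCq b w1 k ≤ 4 * w1 := by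
  by_cases hk : 4 ≤ k
  · rw [bCq_flag hk]
    have hw : ∀ k : Fin 18, -4 ≤ wc k := by decide
    have h1 : (-4 : ℝ) ≤ ((wc k + b : ℤ) : ℝ) := by
      have := hw k
      exact_mod_cast (by omega : (-4 : ℤ) ≤ wc k + b)
    nlinarith
  · by_cases h0 : k = 0
    · rw [h0, bCq_zero]; linarith
    · have := bCq_low (b := b) h hk h0
      linarith

theorem bCq_ge {b : ℤ} {w1 : ℝ} (h : 0 ≤ w1) (b4 : b ≤ 4) (k : Fin 18) :
    -(wtR k * w1) ≤ bCq b w1 k := by
  by_cases hk : 4 ≤ k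
  · rw [bCq_flag hk]
    have h1 : wtR k = ((wz k + wc k + 9 : ℤ) : ℝ) := by
      unfold wtR grW
      rw [wn_flag k hk]
      push_cast
      ring
    have hw : ∀ k : Fin 18, -4 ≤ wz k := by decide
    have h2 : ((wc k + b : ℤ) : ℝ) ≤ ((wz k + wc k + 9 : ℤ) : ℝ) := by
      have := hw k
      exact_mod_cast (by omega : wc k + b ≤ wz k + wc k + 9)
    rw [h1]
    have := mul_le_mul_of_nonneg_right h2 h
    linarith
  · rcases lt_four k hk with rfl | rfl | rfl | rfl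
    all_goals simp [bCq, wtR, grW, wz, wc, wn] <;> linarith

theorem bCq_nonpos {b : ℤ} {w1 : ℝ} (h : 0 ≤ w1) {k : Fin 18} (hk : 4 ≤ k → 0 ≤ wc k + b) :
    bCq b w1 k ≤ 0 := by
  by_cases h4 : 4 ≤ k
  · rw [bCq_flag h4]
    have h1 : (0 : ℝ) ≤ ((wc k + b : ℤ) : ℝ) := by exact_mod_cast hk h4
    nlinarith [mul_nonneg h1 h]
  · by_cases h0 : k = 0
    · rw [h0, bCq_zero]
    · have := bCq_low (b := b) h h4 h0
      linarith

theorem bCq_hi {θ : Fin 3 → ℝ} {w1 R1 T1 : ℝ} (big : BigW θ w1 R1 T1) {b : ℤ} {k : Fin 18}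
    (hk : 4 ≤ k → 0 ≤ wc k + b) (hk0 : 4 ≤ k → wc k + b = 0 → 0 ≤ btW θ k) {v : ℝ}
    (h0 : 0 ≤ v) (h1 : v ≤ 1) : bCq b w1 k ≤ v * btW θ k := by
  have hw : 0 ≤ w1 := by have := big.T0; have := big.w0T; linarith
  have key : bCq b w1 k ≤ -w1 → bCq b w1 k ≤ v * btW θ k := by
    intro h
    refine h.trans ?_
    have h2 := btW_ge big k
    rcases le_total 0 (btW θ k) with h3 | h3
    · have := mul_nonneg h0 h3
      linarith
    · have := mul_nonneg (sub_nonneg.2 h1) (neg_nonneg.2 h3)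
      linarith
  by_cases h4 : 4 ≤ k
  · by_cases h5 : wc k + b = 0
    · rw [bCq_flag h4, h5]
      have := mul_nonneg h0 (hk0 h4 h5)
      simp only [Int.cast_zero, neg_zero, zero_mul]
      exact this
    · refine key ?_
      rw [bCq_flag h4]
      have h6 : 1 ≤ wc k + b := by
        have := hk h4
        omega
      have h7 : (1 : ℝ) ≤ ((wc k + b : ℤ) : ℝ) := by exact_mod_cast h6
      nlinarith [mul_le_mul_of_nonneg_right h7 hw]
  · by_cases h5 : k = 0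
    · subst h5
      have e : btW θ 0 = 1 := by simp [btW, grW, wz, wc, wn]
      rw [bCq_zero, e, mul_one]
      exact h0
    · exact key (bCq_low hw h4 h5)

/-! ### algebra of the gauges -/

/-- slots of the gauges -/
def Sq : Finset (Fin 14) := {3, 5, 6, 10, 11}

theorem hl_Sq : ∀ q, ∀ t ∈ tms q, (∀ i ∈ t.hl, i = 0) → t.s ∉ Sq := by decide

/-- the gauges are not moved by the height shift -/
theorem mvz_Sq {κ z : ℝ} {e : Fin 14 → ℝ} (he : ∀ p, p ∉ Sq → e p = 0) (q : Fin 14) :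
    mvz κ z e q = 0 := by
  unfold mvz
  rw [tr_tms]
  have key : ∀ L : List Tm, (∀ t ∈ L, t ∈ tms q) →
      (L.map (Tm.ev κ ![z, 0, 0, 0] e)).sum = 0 := by
    intro L
    induction L with
    | nil => intro _; simp
    | cons a L ih =>
      intro hL
      rw [List.map_cons, List.sum_cons, ih fun t ht => hL t (List.mem_cons_of_mem _ ht), add_zero]
      have ha := hL a List.mem_cons_self
      by_cases h0 : ∀ i ∈ a.hl, i = 0
      · unfold Tm.ev
        rw [he a.s (hl_Sq q a ha h0), mul_zero]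
      · push Not at h0
        obtain ⟨i, hi, hi0⟩ := h0
        have h1 : (a.hl.map ![z, 0, 0, 0]).prod = 0 := by
          rw [List.prod_eq_zero_iff, List.mem_map]
          refine ⟨i, hi, ?_⟩
          fin_cases i
          · exact absurd rfl hi0
          · rfl
          · rfl
          · rfl
        unfold Tm.ev
        rw [h1, mul_zero, zero_mul]
  rw [key _ fun t ht => ht]
  ring

/-- a slot which does not see the gauge -/
theorem tr_unseen {κ : ℝ} {h : Fin 4 → ℝ} {e : Fin 14 → ℝ} {q : Fin 14} (h0 : e q = 0)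
    (ht : ∀ t ∈ tms q, e t.s = 0) : tr κ h e q = 0 := by
  rw [tr_tms, h0, zero_add]
  have key : ∀ L : List Tm, (∀ t ∈ L, t ∈ tms q) → (L.map (Tm.ev κ h e)).sum = 0 := by
    intro L
    induction L with
    | nil => intro _; simp
    | cons a L ih =>
      intro hL
      rw [List.map_cons, List.sum_cons, ih fun t ht => hL t (List.mem_cons_of_mem _ ht), add_zero]
      unfold Tm.ev
      rw [ht a (hL a List.mem_cons_self), mul_zero]
  exact key _ fun t ht => ht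

/-- the gauged label, two gauges -/
theorem coW_gau2 (κ : ℝ) (e e' : Fin 14 → ℝ) (f f' : FW) (q : Fin 14) :
    coW κ (gau κ e f) (gau κ e' f') (Fin.natAdd 4 q) =
      coW κ f f' (Fin.natAdd 4 q) + e' q - tr κ (rel κ f.g f'.g) e q := by
  rw [coW_gau_two, coW_gau_flag]
  ring

theorem tr_neg_apply (κ : ℝ) (h : Fin 4 → ℝ) (e : Fin 14 → ℝ) (q : Fin 14) :
    tr κ h (fun p => -e p) q = -tr κ h e q := by
  have h1 := tr_sub κ h 0 e
  rw [tr_zero] at h1
  have e1 : (0 : Fin 14 → ℝ) - e = fun p => -e p := by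
    funext p; simp
  rw [e1] at h1
  rw [h1]
  simp

end Crest.Agent.R136.Qh831
end

-- ▼ part R136/Qh2_831

/-!
# R136, thin branch (helper831): a relation on the interior classes gives the input of the gauge step

* `JLaw` : law of the pairs with one interior label, gauge `j` per incidence.
* `exists_part2` : dense part; classes of base `bC` have one interior label, own pairs are in the own
  box.
* **`hasGau_of_law`** : record window with D-max, stage and `JLaw` give `HasGau`.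
-/

set_option autoImplicit false
set_option linter.unusedVariables false

open Finset Filter Topology

namespace Crest.Agent.R136.Qh831

open Crest.Agent.R136.Net191
open Crest.Agent.R136.NetW191
open Crest.Agent.R136.PrW464
open Crest.Agent.R136.NatW697
open Crest.Agent.R136.LadW697
open Crest.Agent.R136.LadG697
open Crest.Agent.R136.Top484
open Crest.Agent.R136.NatT550
open Crest.Agent.R136.ThS830
open Crest.Agent.R136.LadT830
open Crest.Agent.R136.Zpr779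
open Crest.Agent.R136.Qg926
open Crest.Agent.R136.EvW938
open Crest.Agent.R136.GauW619
open Crest.Agent.R136.AwJ774
open Crest.Agent.R136.K2S774
open Crest.Agent.R136.RL66
open Crest.Agent.R136.RL478 (IWG GdU)
open Crest.Agent.R136.RL626 (mvz new_pair coW_gau_two side_le)
open Crest.Agent.R138.Ex926
open Crest.Agent.R136.Gau66 (popular_fs few_labels sub_rpow zprof_refine)

/-- **law of the pairs with one interior label** (`YI` = base point of the interior label), gauge `j`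
per incidence on the slots `Sp`, relation on the slots `Js`, precision `K` -/
structure JLaw (θ : Fin 3 → ℝ) (B B' : Base) (I0 J1 : ℕ → Finset (ℕ × ℝ)) (κ : ℕ → ℝ)
    (u : ℕ → Fin 18 → ℝ) (F : ℕ → ℕ × ℝ → FW) (X YI : ℕ → Fin 18 → ℝ) (Sp Js : Finset (Fin 14))
    (K : ℝ) (j : ℕ → ℕ × ℝ → Fin 14 → ℝ) : Prop where
  supp : ∀ n i p, p ∉ Sp → j n i p = 0
  size : ∀ ε : ℝ, 0 < ε → ∀ᶠ n in (U : Filter ℕ), ∀ i ∈ J1 n, ∀ p ∈ Sp,
    u n (Fin.natAdd 4 p) * |j n i p| ≤ B.d n ^ natX X n (Fin.natAdd 4 p) *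
      B'.d n ^ (max 0 (btW θ (Fin.natAdd 4 p)) - ε)
  pair : ∀ ε : ℝ, 0 < ε → ∀ᶠ n in (U : Filter ℕ), ∀ i ∈ J1 n, ∀ i' ∈ J1 n,
    nlab B I0 (coU u κ F) monW 67 n (YI n) i = nlab B I0 (coU u κ F) monW 67 n (YI n) i' →
    ∀ q ∈ Js, u n (Fin.natAdd 4 q) * |coW (κ n) (F n i) (F n i') (Fin.natAdd 4 q) -
        (j n i' q - tr (κ n) (rel (κ n) (F n i).g (F n i').g) (j n i) q)| ≤
      B.d n ^ natX X n (Fin.natAdd 4 q) * B'.d n ^ (K - ε)

section win

variable {θ : Fin 3 → ℝ} {g : ℝ} {q : Fin 3 → ℝ} {V Dr : Set (Fin 18)}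
  {P : Set (Fin 18 → ℝ)} {ν own : (Fin 18 → ℝ) → ℝ} {r0 : Fin 18 → ℝ}
  {B B' : Base} {I0 J : ℕ → Finset (ℕ × ℝ)} {κ : ℕ → ℝ} {u : ℕ → Fin 18 → ℝ}
  {F : ℕ → ℕ × ℝ → FW} {X : ℕ → Fin 18 → ℝ} {w Tn To : ℕ → ℝ}
  {lam lo : (Fin 18 → ℝ) → ℝ}

/-- **dense part**: classes of base `bC` have one coarse label `YI`, own pairs lie in the own box -/
theorem exists_part2 (iw : IW B B' I0 J κ u F X w Dr Tn To lam lo) {Z : Set (Fin 18)}
    (st : Stage QW P ν own 18 r0 (btW θ) (DlW g q) (QdW θ) Z V 0 (btW θ) 1 (actW Dr) Dr lam lo)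
    {J1 : ℕ → Finset (ℕ × ℝ)} (hs1 : ∀ n, J1 n ⊆ J n) {Sd : ℕ → ℝ} (hSd : B'.Sub Sd)
    (hd : ∀ᶠ n in (U : Filter ℕ), ((J n).card : ℝ) ≤ Sd n * ((J1 n).card : ℝ))
    {YI : ℕ → Fin 18 → ℝ} (hleg : ∀ᶠ n in (U : Filter ℕ), Legal monW (YI n))
    (hcap : CapCl V) {bC : Fin 18 → ℝ} (hb : Nat QW (actW Dr) bC) (b0 : bC 0 = 0)
    {K1 : ℝ} (hK1 : 0 ≤ K1) (hbK : ∀ k, bC k ≤ ob0 V K1 k)
    (hYI : ∀ᶠ n in (U : Filter ℕ), YI n ≤ X n + w n • bC) :
    ∃ (J' : ℕ → Finset (ℕ × ℝ)) (s₀ : ℕ → ℕ × ℝ), (∀ n, J' n ⊆ J1 n) ∧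
      IW B B' I0 J' κ u F X w Dr Tn To lam lo ∧
      ZCls B B' I0 J' (coU u κ F) monW 67 (fun n => X n + w n • bC) w
        {a | bC + a ∈ cn QW (actW Dr)} (fun n => Tn n * B'.d n ^ (-lam bC))
        (fun a => lam (bC + a) - lam bC)
        (fun n => cls (J' n) (zlab B I0 (coU u κ F) monW 67 (fun n => X n + w n • bC) w n 0)
          (s₀ n)) s₀ ∧
      (∀ P ⊆ {a | bC + a ∈ cn QW (actW Dr)}, ∀ R : ℝ, (∀ p ∈ P, ‖p‖ ≤ R) → (∀ p ∈ P, 0 ≤ p) →
        TProf B' (fun n => cls (J' n)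
            (zlab B I0 (coU u κ F) monW 67 (fun n => X n + w n • bC) w n 0) (s₀ n))
          (zolb B I0 (coU u κ F) monW 67 (fun n => X n + w n • bC) w) P
          (fun n => To n * B'.d n ^ (-lo bC)) (fun a => lo (bC + a) - lo bC)) ∧
      (∀ᶠ n in (U : Filter ℕ), ∀ i ∈ cls (J' n)
          (zlab B I0 (coU u κ F) monW 67 (fun n => X n + w n • bC) w n 0) (s₀ n),
        ∀ i' ∈ cls (J' n)
          (zlab B I0 (coU u κ F) monW 67 (fun n => X n + w n • bC) w n 0) (s₀ n),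
        nlab B I0 (coU u κ F) monW 67 n (YI n) i = nlab B I0 (coU u κ F) monW 67 n (YI n) i' ∧
        (∀ k, |coU u κ F n i i' k| ≤ cK0 monW 67 * (B.d n ^ X n k * B'.d n ^ bC k)) ∧
        (i.1 = i'.1 → ∀ k, |coU u κ F n i i' k| ≤
          cK0 monW 67 * (B.d n ^ X n k * B'.d n ^ ob0 V K1 k))) := by
  classical
  set aK : Fin 18 → ℝ := ob0 V K1 with haK
  have haKm : aK ∈ cn QW (actW Dr) := ob0_mem hcap hK1
  have aK0 : aK 0 = 0 := by rw [haK]; unfold ob0; exact if_pos (Or.inl rfl)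
  have aKV : ∀ k ∈ V, aK k = 0 := fun k hk => by rw [haK]; unfold ob0; exact if_pos (Or.inr hk)
  -- own values at the two boxes
  have lob : lo bC = 0 := by
    have := st.ownr bC hb.mem fun i hi => by
      rw [b0, mul_zero, ← aKV i hi]
      exact hbK i
    rw [this, b0]; simp
  have loK : lo aK = 0 := by
    have := st.ownr aK haKm fun i hi => by rw [aK0, mul_zero, aKV i hi]
    rw [this, aK0]; simp
  set fb : ℕ → ℕ × ℝ → ℕ × (ℕ × ℝ) := fun n =>
    zolb B I0 (coU u κ F) monW 67 (fun n => X n + w n • bC) w n 0 with hfb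
  set fz : ℕ → ℕ × ℝ → ℕ × ℝ := fun n =>
    zlab B I0 (coU u κ F) monW 67 (fun n => X n + w n • bC) w n 0 with hfz
  set fK : ℕ → ℕ × ℝ → ℕ × (ℕ × ℝ) := fun n => zolb B I0 (coU u κ F) monW 67 X w n aK with hfK
  set fY : ℕ → ℕ × ℝ → ℕ × ℝ := fun n => nlab B I0 (coU u κ F) monW 67 n (YI n) with hfY
  have hfze : ∀ n, fz n = nlab B I0 (coU u κ F) monW 67 n (X n + w n • bC) := fun n => by
    show nlab B I0 (coU u κ F) monW 67 n (X n + w n • bC + w n • (0 : Fin 18 → ℝ)) = _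
    rw [smul_zero, add_zero]
  have hfbe : ∀ n, fb n = zolb B I0 (coU u κ F) monW 67 X w n bC := fun n => by
    funext x
    show (x.1, nlab B I0 (coU u κ F) monW 67 n (X n + w n • bC + w n • (0 : Fin 18 → ℝ)) x) =
      (x.1, nlab B I0 (coU u κ F) monW 67 n (X n + w n • bC) x)
    rw [smul_zero, add_zero]
  have hcN : 0 < max 1 (cN monW 67 (cK0 monW 67)) := lt_of_lt_of_le one_pos (le_max_left _ _)
  -- one coarse label on the classes of base `bC`
  obtain ⟨J2, S2, hS2, hsub2, hpop2⟩ := popular_sub (B := B') (J := J1) (f := fz) (g := fY) (by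
    intro ε hε
    filter_upwards [hleg, hYI, iw.win.legal ‖bC‖, iw.win.sub,
      ev_const_le B' hcN hε] with n n1 n2 n3 n4 n5 s hs
    rw [hfze]
    refine le_trans ?_ ((le_max_right _ _).trans n5)
    exact few_labels (B := B) iw.win.chart n1 (n3 bC hb.mem le_rfl) n2 ((hs1 n).trans n4) hs)
  -- own pairs
  obtain ⟨J3, S3, hS3, hsub3, hpop3⟩ := popular_sub (B := B') (J := J2) (f := fb) (g := fK) (by
    intro ε hε
    filter_upwards [iw.own.num (max ‖bC‖ ‖aK‖) ε hε] with n n1 s hs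
    have h1 := n1 bC hb.mem (le_max_left _ _) aK haKm (le_max_right _ _) hbK s
      (hs1 n (hsub2 n hs))
    rw [lob, loK, sub_zero, zero_add] at h1
    rw [hfbe]
    refine le_trans ?_ h1
    exact_mod_cast card_le_card (image_subset_image (cls_mono ((hsub2 n).trans (hs1 n)) _ _)))
  have hsub : ∀ n, J3 n ⊆ J n := fun n => (hsub3 n).trans ((hsub2 n).trans (hs1 n))
  have hdens : ∀ᶠ n in (U : Filter ℕ), ((J n).card : ℝ) ≤
      (Sd n * S2 n * S3 n) * ((J3 n).card : ℝ) := by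
    filter_upwards [hd, hpop2, hpop3, hSd.ev_le (ε := 1) one_pos, hS2.ev_le (ε := 1) one_pos]
      with n n1 n2 n3 n4 n5
    calc ((J n).card : ℝ) ≤ Sd n * (J1 n).card := n1
      _ ≤ Sd n * (S2 n * (J2 n).card) := mul_le_mul_of_nonneg_left n2.1 n4.1.le
      _ ≤ Sd n * (S2 n * (S3 n * (J3 n).card)) :=
          mul_le_mul_of_nonneg_left (mul_le_mul_of_nonneg_left n3.1 n5.1.le) n4.1.le
      _ = _ := by ring
  have H' : IW B B' I0 J3 κ u F X w Dr Tn To lam lo :=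
    iw_refine iw hsub ((hSd.mul hS2).mul hS3) hdens
  obtain ⟨s₀, h1, h2, h3⟩ := iw_exists_cls H' st hb
  refine ⟨J3, s₀, fun n => (hsub3 n).trans (hsub2 n), H', h2, h3, ?_⟩
  filter_upwards [hpop2, hpop3, iw.win.legal ‖aK‖, iw.win.legal ‖bC‖, H'.win.sub] with
    n m1 m2 n2 n2' n3 i hi i' hi'
  obtain ⟨a1, a2⟩ := mem_cls.1 hi
  obtain ⟨b1, b2⟩ := mem_cls.1 hi'
  have e0 : fz n i = fz n i' := a2.trans b2.symm
  refine ⟨m1.2 i (hsub3 n a1) i' (hsub3 n b1) e0, fun k => ?_, fun hl k => ?_⟩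
  · have h9 := near_of_nlab iw.win.chart (n2' bC hb.mem le_rfl) (n3 a1) (n3 b1)
      (by rw [hfze] at e0; exact e0) k
    refine h9.trans (le_of_eq ?_)
    have e1 : (X n + w n • bC) k = X n k + w n * bC k := rfl
    rw [e1, Real.rpow_add (B.pos n), Real.rpow_mul (B.pos n).le, ← iw.win.base n]
  · have h4 : fb n i = fb n i' := by
      show (i.1, _) = (i'.1, _)
      rw [hl]
      exact congrArg _ e0
    have h5 := m2.2 i a1 i' b1 h4
    obtain ⟨-, h8⟩ := Prod.mk.inj h5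
    have h9 := near_of_nlab iw.win.chart (n2 aK haKm le_rfl) (n3 a1) (n3 b1) h8 k
    refine h9.trans (le_of_eq ?_)
    have e1 : (X n + w n • aK) k = X n k + w n * aK k := rfl
    rw [e1, Real.rpow_add (B.pos n), Real.rpow_mul (B.pos n).le, ← iw.win.base n]

/-- sides of the dropped slots: the own box in natural sides -/
theorem ownc_of (hV0 : ∀ k ∈ V, (4 : Fin 18) ≤ k) (dr4 : ∀ k ∈ Dr, 4 ≤ k ∧ k ≠ 17 ∧ k ∉ V)
    (iw : IW B B' I0 J κ u F X w Dr Tn To lam lo) {E : ℕ → Finset (ℕ × ℝ)} {R C0 : ℝ} (hR : 0 ≤ R)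
    (hown : ∀ᶠ n in (U : Filter ℕ), ∀ i ∈ E n, ∀ i' ∈ E n, i.1 = i'.1 →
      ∀ k, |coU u κ F n i i' k| ≤ C0 * (B.d n ^ X n k * B'.d n ^ (ob0 V R k))) :
    ∀ ε : ℝ, 0 < ε → ∀ᶠ n in (U : Filter ℕ), ∀ i ∈ E n, ∀ j ∈ E n, i.1 = j.1 →
      ∀ k, |coU u κ F n i j k| ≤ B.d n ^ natX X n k * B'.d n ^ (ob0 V R k - ε) := by
  intro ε hε
  filter_upwards [hown, side_le (B := B) (B' := B') (fun k hk => ⟨(dr4 k hk).1, (dr4 k hk).2.1⟩)
    iw.bas iw.nat iw.win.base (R := R),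
    Crest.Agent.R136.Gf356.ev_const_le B' (t := ε) hε C0] with n h1 h2 h3 i hi i' hi' hii k
  have hdp : ∀ v : ℝ, 0 < B'.d n ^ v := fun v => Real.rpow_pos_of_pos (B'.pos n) _
  have hBp : ∀ v : ℝ, 0 < B.d n ^ v := fun v => Real.rpow_pos_of_pos (B.pos n) _
  have hmono : ∀ {v v' : ℝ}, v ≤ v' → B'.d n ^ v' ≤ B'.d n ^ v := fun {v v'} h =>
    Real.rpow_le_rpow_of_exponent_ge (B'.pos n) (B'.lt n).le h
  have hob0 : 0 ≤ ob0 V R k := by
    unfold ob0
    split_ifs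
    · exact le_rfl
    · exact hR
  have h4 : C0 * (B.d n ^ X n k * B'.d n ^ (ob0 V R k)) ≤
      B'.d n ^ (-ε) * (B.d n ^ X n k * B'.d n ^ (ob0 V R k)) :=
    mul_le_mul_of_nonneg_right h3 (mul_pos (hBp _) (hdp _)).le
  have h5 : B.d n ^ X n k * B'.d n ^ (ob0 V R k) ≤
      B.d n ^ natX X n k * B'.d n ^ (ob0 V R k) := by
    by_cases hk : k ∈ Dr
    · have e1 : ob0 V R k = R := by
        unfold ob0
        rw [if_neg]
        rintro (h | h)
        · have := (dr4 k hk).1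
          rw [h] at this
          exact absurd this (by decide)
        · exact (dr4 k hk).2.2 h
      have h6 : B'.d n ^ (ob0 V R k) ≤ 1 := by
        have := hmono hob0
        rwa [Real.rpow_zero] at this
      have h7 := mul_le_mul_of_nonneg_left h6 (hBp (X n k)).le
      rw [mul_one] at h7
      rw [e1] at h7 ⊢
      exact h7.trans (h2 k hk)
    · rw [iw.nat n k hk]
  have h6 := mul_le_mul_of_nonneg_left h5 (hdp (-ε)).le
  have h7 : B'.d n ^ (-ε) * B'.d n ^ (ob0 V R k) = B'.d n ^ (ob0 V R k - ε) := by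
    rw [← Real.rpow_add (B'.pos n)]; congr 1; ring
  calc |coU u κ F n i i' k| ≤ _ := h1 i hi i' hi' hii k
    _ ≤ _ := h4
    _ ≤ _ := h6
    _ = B.d n ^ natX X n k * (B'.d n ^ (-ε) * B'.d n ^ (ob0 V R k)) := by ring
    _ = _ := by rw [h7]

/-- dropped slots are negligible on every class of bounded base -/
theorem drop_of (dr4 : ∀ k ∈ Dr, 4 ≤ k ∧ k ≠ 17 ∧ k ∉ V)
    (iw : IW B B' I0 J κ u F X w Dr Tn To lam lo) {E : ℕ → Finset (ℕ × ℝ)} {bC : Fin 18 → ℝ}
    {C0 : ℝ} (hown : ∀ᶠ n in (U : Filter ℕ), ∀ i ∈ E n, ∀ i' ∈ E n,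
      ∀ k, |coU u κ F n i i' k| ≤ C0 * (B.d n ^ X n k * B'.d n ^ (bC k))) (R : ℝ) :
    ∀ᶠ n in (U : Filter ℕ), ∀ i ∈ E n, ∀ j ∈ E n, ∀ k ∈ Dr,
      |coU u κ F n i j k| ≤ B.d n ^ natX X n k * B'.d n ^ R := by
  filter_upwards [hown, side_le (B := B) (B' := B') (fun k hk => ⟨(dr4 k hk).1, (dr4 k hk).2.1⟩)
    iw.bas iw.nat iw.win.base (R := R + ‖bC‖ + 1),
    Crest.Agent.R136.Gf356.ev_const_le B' (t := 1) one_pos C0] with n h1 h2 h3 i hi i' hi' k hk
  have hdp : ∀ v : ℝ, 0 < B'.d n ^ v := fun v => Real.rpow_pos_of_pos (B'.pos n) _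
  have hBp : ∀ v : ℝ, 0 < B.d n ^ v := fun v => Real.rpow_pos_of_pos (B.pos n) _
  have hmono : ∀ {v v' : ℝ}, v ≤ v' → B'.d n ^ v' ≤ B'.d n ^ v := fun {v v'} h =>
    Real.rpow_le_rpow_of_exponent_ge (B'.pos n) (B'.lt n).le h
  have hb : -‖bC‖ ≤ bC k := by
    have := norm_le_pi_norm bC k
    rw [Real.norm_eq_abs] at this
    exact (abs_le.1 this).1
  calc |coU u κ F n i i' k| ≤ C0 * (B.d n ^ X n k * B'.d n ^ (bC k)) := h1 i hi i' hi' k
    _ ≤ B'.d n ^ (-(1 : ℝ)) * (B.d n ^ X n k * B'.d n ^ (bC k)) :=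
        mul_le_mul_of_nonneg_right h3 (mul_pos (hBp _) (hdp _)).le
    _ ≤ B'.d n ^ (-(1 : ℝ)) * ((B.d n ^ natX X n k * B'.d n ^ (R + ‖bC‖ + 1)) *
          B'.d n ^ (-‖bC‖)) := by
        refine mul_le_mul_of_nonneg_left ?_ (hdp _).le
        exact mul_le_mul (h2 k hk) (hmono hb) (hdp _).le (mul_pos (hBp _) (hdp _)).le
    _ = B.d n ^ natX X n k * (B'.d n ^ (-(1 : ℝ)) * B'.d n ^ (R + ‖bC‖ + 1) *
          B'.d n ^ (-‖bC‖)) := by ring
    _ = B.d n ^ natX X n k * B'.d n ^ R := by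
        rw [← Real.rpow_add (B'.pos n), ← Real.rpow_add (B'.pos n)]; congr 2; ring

end win

end Crest.Agent.R136.Qh831
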