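import Crest.Agent.R136.SZ2_480
import Crest.Agent.R136.Qgn5_887
import Crest.Agent.R136.Qh2_831
import Crest.Agent.R136.RL10_478
import Crest.Agent.R136.QGc_312
import Crest.Agent.R136.Qh3_831
import Crest.Agent.R136.Qgn4_887
import Crest.Agent.R136.Qi1_599

-- ▼ part R136/LadG4_697
section

/-!
# R136, thin branch (helper697): the quadratic resonance, numbers for the final assembly
-/

set_option autoImplicit false
set_option linter.unusedVariables false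

open Finset Filter Topology

namespace Crest.Agent.R136.LadG697

open Crest.Agent.R136.Net191
open Crest.Agent.R136.NetW191
open Crest.Agent.R136.PrW464
open Crest.Agent.R136.NatW697
open Crest.Agent.R136.LadW697
open Crest.Agent.R136.LadT830
open Crest.Agent.R136.SZ480
open Crest.Agent.R136.RL478
open Crest.Agent.R136.Qh831

section

variable {θ : Fin 3 → ℝ} {V : Set (Fin 18)}

/-- the resonant weight and the dropped slots -/
theorem quad_b (h1 : 0 < θ 1) (hres : Res2 θ) : ∃ (b : ℤ) (D : Finset (Fin 18)),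
    (1 - θ 0) + b * θ 1 = 2 ∧ (↑D : Set (Fin 18)) = DrR θ 2 ∧
    ((b = 4 ∧ D = {4, 5, 6, 8}) ∨ (b = 3 ∧ D = {4, 5, 6, 7, 8}) ∨
      (b = 2 ∧ D = {4, 5, 6, 7, 8, 9})) := by
  have hd : ∀ k : Fin 18, k ∈ DrW ((2 : ℤ) : ℝ) ↔ k ∈ ({4, 5, 6, 8} : Finset (Fin 18)) := by
    intro k
    have e : k ∈ DrW ((2 : ℤ) : ℝ) ↔ 4 ≤ k ∧ 2 < alW k := by
      constructor
      · rintro ⟨h, h2⟩; exact ⟨h, by exact_mod_cast h2⟩
      · rintro ⟨h, h2⟩; exact ⟨h, by exact_mod_cast h2⟩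
    rw [e]; clear e; revert k; decide
  rcases hres with h | h | h
  · refine ⟨4, {4, 5, 6, 8}, ?_, ?_, Or.inl ⟨rfl, rfl⟩⟩
    · simp only [btW, grW, wz, wc, wn] at h
      simp at h
      push_cast
      linarith
    · ext k
      simp only [DrR, Set.mem_union, hd, mem_coe]
      have := jr7 h1 h k
      tauto
  · refine ⟨3, {4, 5, 6, 7, 8}, ?_, ?_, Or.inr (Or.inl ⟨rfl, rfl⟩)⟩
    · simp only [btW, grW, wz, wc, wn] at h
      simp at h
      push_cast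
      linarith
    · ext k
      simp only [DrR, Set.mem_union, hd, mem_coe]
      rw [← jr9 h1 h k]
      revert k; decide
  · refine ⟨2, {4, 5, 6, 7, 8, 9}, ?_, ?_, Or.inr (Or.inr ⟨rfl, rfl⟩)⟩
    · simp only [btW, grW, wz, wc, wn] at h
      simp at h
      push_cast
      linarith
    · ext k
      simp only [DrR, Set.mem_union, hd, mem_coe]
      rw [← jr10 h1 h k]
      revert k; decide

/-- **side facts of the quadratic resonance** (`D` = dropped slots) -/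
theorem quad_side {b : ℤ} {D : Finset (Fin 18)}
    (h : (b = 4 ∧ D = {4, 5, 6, 8}) ∨ (b = 3 ∧ D = {4, 5, 6, 7, 8}) ∨
      (b = 2 ∧ D = {4, 5, 6, 7, 8, 9})) :
    0 ≤ b ∧ b ≤ 4 ∧ (∀ k, 4 ≤ k → k ∉ D → 0 ≤ wc k + b) ∧ (∀ k ∈ D, 4 ≤ k ∧ k ≤ 9) ∧
      (∀ k, 4 ≤ k → k ∉ D → wc k + b = 0 → k ∈ JW 2 ∨ (b = 2 ∧ k = 14)) ∧
      (4 ∈ D ∧ 5 ∈ D ∧ 6 ∈ D ∧ 8 ∈ D) := by
  rcases h with ⟨rfl, rfl⟩ | ⟨rfl, rfl⟩ | ⟨rfl, rfl⟩ <;> decide

theorem btW_JW2 {b : ℤ} (hb : (1 - θ 0) + b * θ 1 = 2) {k : Fin 18} (hk : k ∈ JW 2) :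
    btW θ k = -((wc k + b : ℤ) : ℝ) * θ 1 := by
  have h := mem_JW.1 hk
  have hz : wz k = -2 := by
    have := h.2
    simp only [alW, if_pos h.1] at this
    omega
  have hn : wn k = 1 := (by decide : ∀ k : Fin 18, 4 ≤ k → wn k = 1) k h.1
  simp only [btW, grW, hz, hn]
  push_cast
  linarith

/-- visible slots are the slots of `A` and `B` -/
theorem vis_quad (vis : ∀ k ∈ V, (4 ≤ k ∧ k ≠ 13 ∧ k ≠ 16 ∧ k ≠ 17) ∧ 0 < btW θ k)
    (hs : ∀ k ∈ V, KW θ k < 2) : ∀ k ∈ V, k = 14 ∨ k = 15 := fun k hk =>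
  affine_of_KW (vis k hk).1.1 (vis k hk).1.2.2.1 (vis k hk).1.2.2.2 (vis k hk).2 (hs k hk)

end

end Crest.Agent.R136.LadG697
end

-- ▼ part R136/LadG5_697

/-!
# R136, thin branch (helper697): the quadratic resonance, front of the final assembly
-/

set_option autoImplicit false
set_option linter.unusedVariables false

open Finset Filter Topology

namespace Crest.Agent.R136.LadG697

open Crest.Agent.R136.Net191
open Crest.Agent.R136.NetW191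
open Crest.Agent.R136.PrW464
open Crest.Agent.R136.NatW697
open Crest.Agent.R136.LadW697
open Crest.Agent.R136.LadT830
open Crest.Agent.R136.Zpr779
open Crest.Agent.R136.Qg926
open Crest.Agent.R136.EvW938
open Crest.Agent.R136.Bas938
open Crest.Agent.R136.AwJ774
open Crest.Agent.R136.K2S774
open Crest.Agent.R136.SZ480
open Crest.Agent.R136.RL478
open Crest.Agent.R136.Qh831
open Crest.Agent.R136.ThS830
open Crest.Agent.R136.GauW619
open Crest.Agent.R136.Qgn887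
open Crest.Agent.R136.QG312
open Crest.Agent.R138.Ex926

section

variable {θ : Fin 3 → ℝ} {V : Set (Fin 18)} {b : ℤ} {D : Finset (Fin 18)}

theorem quad_D3 (hDD : (↑D : Set (Fin 18)) = DrR θ 2)
    (h : (b = 4 ∧ D = {4, 5, 6, 8}) ∨ (b = 3 ∧ D = {4, 5, 6, 7, 8}) ∨
      (b = 2 ∧ D = {4, 5, 6, 7, 8, 9})) : Dr3 (DrR θ 2) := by
  rw [← hDD]
  rcases h with ⟨-, rfl⟩ | ⟨-, rfl⟩ | ⟨-, rfl⟩ <;>
    exact ⟨by rw [mem_coe]; decide, by rw [mem_coe]; decide, by rw [mem_coe]; decide⟩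

theorem DrR2_lo (θ : Fin 3 → ℝ) : ∀ k ∈ DrW 2, k ∈ DrR θ 2 := fun k hk =>
  Or.inl (by rw [two_cast]; exact hk)

/-- zeros of the ray -/
theorem TD_zero (hres : DrOk (DrR θ 2)) {k : Fin 18} (hk : TD (DrR θ 2) k = 0) :
    k = 1 ∨ (k ∈ JW 2 ∧ k ∉ DrR θ 2) := by
  by_cases hD : k ∈ DrR θ 2
  · rw [TD_mem hD] at hk; exact absurd hk one_ne_zero
  · rw [TD_not hD, TW_of_not fun h => hD (DrR2_lo θ k h)] at hk
    have h1 : ∀ k : Fin 18, wz k + 2 * wn k = 0 → k = 1 ∨ k ∈ JW 2 := by decide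
    have h2 : wz k + 2 * wn k = 0 := by
      have : ((wz k + 2 * wn k : ℤ) : ℝ) = 0 := by push_cast; simpa [saW] using hk
      exact_mod_cast this
    rcases h1 k h2 with h3 | h3
    · exact Or.inl h3
    · exact Or.inr ⟨h3, hD⟩

/-- the record class of base `bCq b w` against the moved interior base -/
theorem ha_quad (h1 : 0 < θ 1) (hb : (1 - θ 0) + b * θ 1 = 2) (hok : DrOk (DrR θ 2)) (w : ℝ)
    (k : Fin 18) (hk : TD (DrR θ 2) k = 0) : w / θ 1 * btW θ k ≤ bCq b w k := by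
  have hne : θ 1 ≠ 0 := h1.ne'
  rcases TD_zero hok hk with rfl | ⟨h2, -⟩
  · have e1 : btW θ 1 = -θ 1 := by simp [btW, grW, wz, wc, wn]
    have e2 : bCq b w 1 = -w := by simp [bCq, grW, wz, wc, wn]
    rw [e1, e2]
    field_simp
    linarith
  · have e2 : bCq b w k = -((wc k + b : ℤ) : ℝ) * w := by
      have h := mem_JW.1 h2
      have hn : wn k = 1 := (by decide : ∀ k : Fin 18, 4 ≤ k → wn k = 1) k h.1
      simp only [bCq, grW, hn]
      push_cast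
      ring
    rw [btW_JW2 hb h2, e2]
    refine le_of_eq ?_
    field_simp

theorem hlo0_quad (hb : (1 - θ 0) + b * θ 1 = 2) (hDD : (↑D : Set (Fin 18)) = DrR θ 2)
    (h : (b = 4 ∧ D = {4, 5, 6, 8}) ∨ (b = 3 ∧ D = {4, 5, 6, 7, 8}) ∨
      (b = 2 ∧ D = {4, 5, 6, 7, 8, 9})) (k : Fin 18) (h4 : 4 ≤ k) (hk : k ∉ DrR θ 2)
    (h0 : wc k + b = 0) : 0 ≤ btW θ k := by
  rw [← hDD, mem_coe] at hk
  rcases (quad_side h).2.2.2.2.1 k h4 hk h0 with h2 | ⟨rfl, rfl⟩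
  · rw [btW_JW2 hb h2, h0]; simp
  · have e : btW θ 14 = (1 - θ 0) - 1 + 2 * θ 1 := by
      simp [btW, grW, wz, wc, wn]; ring
    rw [e]
    push_cast at hb
    linarith

theorem dr4_quad (vis : ∀ k ∈ V, (4 ≤ k ∧ k ≠ 13 ∧ k ≠ 16 ∧ k ≠ 17) ∧ 0 < btW θ k)
    (hs : ∀ k ∈ V, KW θ k < 2) (hDD : (↑D : Set (Fin 18)) = DrR θ 2)
    (h : (b = 4 ∧ D = {4, 5, 6, 8}) ∨ (b = 3 ∧ D = {4, 5, 6, 7, 8}) ∨
      (b = 2 ∧ D = {4, 5, 6, 7, 8, 9})) : ∀ k ∈ DrR θ 2, 4 ≤ k ∧ k ≠ 17 ∧ k ∉ V := by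
  intro k hk
  rw [← hDD, mem_coe] at hk
  have h1 := (quad_side h).2.2.2.1 k hk
  have h2 : ∀ k : Fin 18, k ≤ 9 → k ≠ 17 ∧ k ≠ 14 ∧ k ≠ 15 := by decide
  have h3 := h2 k h1.2
  refine ⟨h1.1, h3.1, fun hV => ?_⟩
  rcases vis_quad vis hs k hV with e | e
  · exact h3.2.1 e
  · exact h3.2.2 e

end


section front

variable {θ : Fin 3 → ℝ} {g : ℝ} {q : Fin 3 → ℝ} {V T : Set (Fin 18)} {w0 R T0 : ℝ}
  {B B' : Base} {I0 I : ℕ → Finset (ℕ × ℝ)} {κ : ℕ → ℝ} {u : ℕ → Fin 18 → ℝ}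
  {F : ℕ → ℕ × ℝ → FW} {X : ℕ → Fin 18 → ℝ} {w : ℕ → ℝ} {Tn To : ℕ → ℝ}
  {PD : Set (Fin 18 → ℝ)} {ν own : (Fin 18 → ℝ) → ℝ} {c₀ : ℝ}


end front

end Crest.Agent.R136.LadG697
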