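import Crest.Agent.R136.QdH_887

/-!
# R136, thin branch (helper887): the window of `quad` (rung `s = 2`)

* `QdW W κ u f mm x` : window with `S = {0}`, every top `x`, tight walls between the slots which are
  not dropped, the other walls at infinite distance, `|κ| ≥ ρ^ε`, density and Frostman conditions,
  and the numbers (H1) .. (H5) in `W.nu`
* `QdW.modelE` : pruned set and `RModel` inside any dense part
* **`exists_qdW`** : at a point of the rung `s = 2` which is not dead, inside any dense set `J'`,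
  with any losses
-/

set_option autoImplicit false
set_option linter.unusedSectionVars false
set_option linter.unusedVariables false

open Filter Topology

namespace Crest.Agent.R136.QdH887

open Finset Crest.Agent.R138.Ex926 Crest.Agent.R136.Net191 Crest.Agent.R136.Gf356
open Crest.Agent.R136.Qg926 Crest.Agent.R136.Dg219 Crest.Agent.R136.Aw413
open Crest.Agent.R136.NetW191 Crest.Agent.R136.EvW938 Crest.Agent.R136.PrW464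
open Crest.Agent.R136.LadW697 Crest.Agent.R136.AwJ774 Crest.Agent.R136.Bas938
open Crest.Agent.R136.Ht887 Crest.Agent.R136.Win887
open Crest.Agent.R136.K2S774 (cn)

/-- **the window of `quad`** : `p = {2, 3, 14, 15}`, `v = {1, 11, 12}` -/
structure QdW (W : Wnd 18 fun _ => ℕ × ℝ) (κ : ℕ → ℝ) (u : ℕ → Fin 18 → ℝ)
    (f : ∀ n : ℕ, ℕ × ℝ → FW) (mm x : ℝ) : Prop where
  x0 : 0 < x
  m0 : 0 < mm
  ww : WWnd W κ u f
  eS : W.S = {0}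
  etop : W.top = fun _ => x
  ekap : W.kap = fun _ => 1
  dw : ∀ n, W.B'.d n = W.B.d n ^ W.w n
  hk : ∀ ε : ℝ, 0 < ε → ∀ᶠ n in (U : Filter ℕ), W.B'.d n ^ ε ≤ |κ n|
  /-- walls between slots which are not dropped -/
  tight : ∀ k, k ∉ D2 → ∀ l ∈ mlW k, (∀ s ∈ l, s ∉ D2) → ∀ n, W.X n k = (l.map (W.X n)).sum
  /-- the other walls are at infinite distance -/
  gap : ∀ k, ∀ l ∈ mlW k, (k ∈ D2 ∨ ∃ s ∈ l, s ∈ D2) → ∀ R : ℝ, ∀ᶠ n in (U : Filter ℕ),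
    W.X n k + R * W.w n ≤ (l.map (W.X n)).sum
  room : ∀ s, ∀ R : ℝ, ∀ᶠ n in (U : Filter ℕ), R * W.w n ≤ W.X n s
  dens : W.lam W.top ≤ W.lam (cut W.S W.top 0) + W.lam (cut W.S 0 W.top)
  frost : ∀ y : ℝ, 0 ≤ y → y ≤ x → W.lam (Pi.single 0 y) ≤ -(1 * y)
  /-- legal boxes -/
  leg : ∀ p : Fin 18 → ℝ, (∀ s, 0 ≤ p s) → (∀ s, p s ≤ x) →
    (∀ k, k ∉ D2 → ∀ l ∈ mlW k, (∀ s ∈ l, s ∉ D2) →
      cut {0} p (fun _ => x) k ≤ (l.map (cut {0} p (fun _ => x))).sum) → p ∈ W.legW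
  n1 : W.nu (bv x {2, 3, 14, 15, 16}) = W.nu (bv x {2, 3, 14, 15})
  n2 : W.nu (bv x {1, 11, 12, 16}) = W.nu (bv x {1, 11, 12})
  n3 : W.nu 0 + W.nu (bv x {1, 2, 3, 11, 12, 14, 15}) =
    W.nu (bv x {2, 3, 14, 15}) + W.nu (bv x {1, 11, 12})
  n4 : W.nu (bv x {2, 3}) ≤ W.nu 0 - 2 * x
  n5 : ∀ y, 0 ≤ y → W.nu (Pi.single 1 y) ≤ W.nu 0 - mm * y

section fin

variable {W : Wnd 18 fun _ => ℕ × ℝ} {κ : ℕ → ℝ} {u : ℕ → Fin 18 → ℝ}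
  {f : ∀ n : ℕ, ℕ × ℝ → FW} {mm x : ℝ}



/-- **pruned set and model** inside a dense part -/
theorem QdW.modelE (g : QdW W κ u f mm x) {E : ∀ n : ℕ, Finset (ℕ × ℝ)} {Mu : ℕ → ℝ}
    (hE : Wnd.EOk W E Mu) (ex : ℕ → ∀ n : ℕ, ℕ × ℝ → ℕ) {g₀ : ℕ → ℝ}
    (hg₀ : Tendsto g₀ U atTop) :
    ∃ (E' : ∀ n : ℕ, Finset (ℕ × ℝ)) (gg : ℕ → ℝ), Wnd.Pruned W E E' gg ex ∧
      (∀ᶠ n in (U : Filter ℕ), gg n ≤ g₀ n) ∧ EvG W E' ∧
      RModel W.B' (W.cfg E') 1 x W.legW W.nu W.Dc := by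
  have hz : W.kz = 0 := g.ww.kz
  obtain ⟨E', gg, h1, h2, h3⟩ := Wnd.EOk.exists_model (σ := 1) (R := x) g.ww.ok hE ex hg₀ g.dens
    zero_le_one le_rfl (by rw [g.etop]) (fun y h0 h1 => by rw [hz]; exact g.frost y h0 h1)
  refine ⟨E', gg, h1, h2, ?_, h3⟩
  filter_upwards [Wnd.ev_cfg g.ww.ok hE h1] with n hn
  exact ⟨hn.1, (h1.sub n).trans hn.2.1, hn.2.2.2⟩

/-- **pruned set and model** -/
theorem QdW.model (g : QdW W κ u f mm x) : ∃ E : ∀ n : ℕ, Finset (ℕ × ℝ), EvG W E ∧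
    RModel W.B' (W.cfg E) 1 x W.legW W.nu W.Dc := by
  obtain ⟨E', gg, -, -, h1, h2⟩ := g.modelE g.ww.ok.eok_section (fun _ _ _ => 0)
    (g₀ := fun n => 1 + W.B'.L n)
    (tendsto_atTop.2 fun b => (W.B'.ev_L_ge b).mono fun n hn => by linarith)
  exact ⟨E', h1, h2⟩

end fin

section pt

variable {B Bo : Base} {I J : ∀ n : ℕ, Finset (ℕ × ℝ)}
  {co : ∀ n : ℕ, ℕ × ℝ → ℕ × ℝ → Fin 18 → ℝ} {kp : ℕ → ℝ} {u : ℕ → Fin 18 → ℝ}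
  {F : ∀ n : ℕ, ℕ × ℝ → FW} {C : ℝ}
  {lam : (Fin 18 → ℝ) → ℝ} {A : ℝ × ℝ} {φ : ℕ → (Fin 18 → ℝ) → ℝ}
  {r : ℕ → ℝ} {κ : Fin 18 → ℝ} {V Tw : Fin 18 → Prop}



end pt

/-! ### `PtC` form -/

section ptC

variable {B Bo : Base} {I J : ℕ → Finset (ℕ × ℝ)} {co : ∀ n : ℕ, ℕ × ℝ → ℕ × ℝ → Fin 18 → ℝ}
  {C : ℝ} {κ : ℕ → ℝ} {u : ℕ → Fin 18 → ℝ} {f : ℕ → ℕ × ℝ → FW} {K : ℝ} {θ q : Fin 3 → ℝ}
  {V T : Set (Fin 18)} {lam lo : (Fin 18 → ℝ) → ℝ} {A : ℝ × ℝ}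
  {φ : ℕ → (Fin 18 → ℝ) → ℝ} {r : ℕ → ℝ}

open Crest.Agent.R136.NatW697 (KW)


end ptC

end Crest.Agent.R136.QdH887
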