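import Crest.Agent.R136.Qd11_329
import Crest.Agent.R136.QdW_887

/-!
# R136, thin branch, `quad` (helper861), part 1: window algebra

* `QIn Dr W κ u f mm x` : the window of `quad` with general dropped slots
* `ntu` : natural units (multiplicative along ALL walls); `tc` : coordinates in natural units;
  dropped slots are tiny; `tc_mul`, `tc_tr` : exact transition
-/

set_option autoImplicit false
set_option linter.unusedSectionVars false
set_option linter.unusedVariables false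

open Filter Topology

namespace Crest.Agent.R136.Qe861

open Finset
open Crest.Agent.R138.Ex926 (Base U)
open Crest.Agent.R136.Gf356 Crest.Agent.R136.Qg926 Crest.Agent.R136.NetW191
open Crest.Agent.R136.EvW938 Crest.Agent.R136.Net191
open Crest.Agent.R136.PrW464 (grW grW_list)
open Crest.Agent.R136.QdH887 (bv)

/-- **the window of `quad`**, dropped slots `Dr` -/
structure QIn (Dr : Finset (Fin 18)) (W : Wnd 18 fun _ => ℕ × ℝ) (κ : ℕ → ℝ)
    (u : ℕ → Fin 18 → ℝ) (f : ∀ n : ℕ, ℕ × ℝ → FW) (mm x : ℝ) : Prop where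
  lo : ∀ k, k = 4 ∨ k = 5 ∨ k = 6 ∨ k = 8 → k ∈ Dr
  hi : ∀ k ∈ Dr, k = 4 ∨ k = 5 ∨ k = 6 ∨ k = 8 ∨ k = 7 ∨ k = 9
  x0 : 0 < x
  m0 : 0 < mm
  ww : WWnd W κ u f
  eS : W.S = {0}
  etop : W.top = fun _ => x
  ekap : W.kap = fun _ => 1
  dw : ∀ n, W.B'.d n = W.B.d n ^ W.w n
  hk : ∀ ε : ℝ, 0 < ε → ∀ᶠ n in (U : Filter ℕ), W.B'.d n ^ ε ≤ |κ n|
  tight : ∀ k, k ∉ Dr → ∀ l ∈ mlW k, (∀ s ∈ l, s ∉ Dr) → ∀ n, W.X n k = (l.map (W.X n)).sum
  gap : ∀ k, ∀ l ∈ mlW k, (k ∈ Dr ∨ ∃ s ∈ l, s ∈ Dr) → ∀ R : ℝ, ∀ᶠ n in (U : Filter ℕ),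
    W.X n k + R * W.w n ≤ (l.map (W.X n)).sum
  dens : W.lam W.top ≤ W.lam (cut W.S W.top 0) + W.lam (cut W.S 0 W.top)
  frost : ∀ y : ℝ, 0 ≤ y → y ≤ x → W.lam (Pi.single 0 y) ≤ -(1 * y)
  leg : ∀ p : Fin 18 → ℝ, (∀ s, 0 ≤ p s) → (∀ s, p s ≤ x) →
    (∀ k, k ∉ Dr → ∀ l ∈ mlW k, (∀ s ∈ l, s ∉ Dr) →
      cut {0} p (fun _ => x) k ≤ (l.map (cut {0} p (fun _ => x))).sum) → p ∈ W.legW
  n1 : W.nu (bv x {2, 3, 14, 15, 16}) = W.nu (bv x {2, 3, 14, 15})
  n2 : W.nu (bv x {1, 11, 12, 16}) = W.nu (bv x {1, 11, 12})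
  n3 : W.nu 0 + W.nu (bv x {1, 2, 3, 11, 12, 14, 15}) =
    W.nu (bv x {2, 3, 14, 15}) + W.nu (bv x {1, 11, 12})
  n4 : W.nu (bv x {2, 3}) ≤ W.nu 0 - 2 * x
  n5 : ∀ y, 0 ≤ y → W.nu (Pi.single 1 y) ≤ W.nu 0 - mm * y

/-! ### homogeneity of `tr` -/





/-! ### the natural units of a window -/

/-- completing frames of the wall of `17` through a flag slot -/
def frl : Fin 18 → List (Fin 18) :=
  ![[], [], [], [], [2, 2, 2, 2], [2, 2, 3], [2, 2, 2], [3, 3], [2, 2, 0], [2, 3], [2, 2], [3, 0],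
    [2, 0], [0, 0], [3], [2], [0], []]

theorem frl_mem : ∀ k : Fin 18, 4 ≤ k → k ≠ 17 → frl k ++ [k] ∈ mlW 17 := by decide

theorem frl_lt : ∀ k : Fin 18, ∀ s ∈ frl k, s < 4 := by decide

/-- natural exponents -/
noncomputable def nX (W : Wnd 18 fun _ => ℕ × ℝ) (n : ℕ) (k : Fin 18) : ℝ :=
  grW (W.X n 0) (W.X n 1) (W.X n 17) k






section

variable {Dr : Finset (Fin 18)} {W : Wnd 18 fun _ => ℕ × ℝ} {κ : ℕ → ℝ} {u : ℕ → Fin 18 → ℝ}
  {f : ∀ n : ℕ, ℕ × ℝ → FW} {mm x : ℝ}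

namespace QIn

variable (g : QIn Dr W κ u f mm x)

include g

theorem lt4 {s : Fin 18} (hs : s < 4) : s ∉ Dr := by
  intro h
  rcases g.hi s h with h | h | h | h | h | h <;> subst h <;> exact absurd hs (by decide)

theorem ge10 {s : Fin 18} (hs : 10 ≤ s) : s ∉ Dr := by
  intro h
  rcases g.hi s h with h | h | h | h | h | h <;> subst h <;> exact absurd hs (by decide)

theorem nX_low {n : ℕ} {s : Fin 18} (hs : s < 4) : W.X n s = nX W n s := by
  have t2 := g.tight 2 (g.lt4 (by decide)) [1, 0] (by decide) (fun s hs => g.lt4 (by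
    revert s; decide)) n
  have t3 := g.tight 3 (g.lt4 (by decide)) [1, 2] (by decide) (fun s hs => g.lt4 (by
    revert s; decide)) n
  simp only [List.map_cons, List.map_nil, List.sum_cons, List.sum_nil, add_zero] at t2 t3
  have hs' : s = 0 ∨ s = 1 ∨ s = 2 ∨ s = 3 := by revert hs; revert s; decide
  rcases hs' with h | h | h | h <;> subst h <;>
    simp [nX, grW, PrW464.wz, PrW464.wc, PrW464.wn] <;> linarith

theorem nX17 (n : ℕ) : W.X n 17 = nX W n 17 := by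
  simp [nX, grW, PrW464.wz, PrW464.wc, PrW464.wn]

theorem sum_eq (n : ℕ) {k : Fin 18} (h4 : 4 ≤ k) (h17 : k ≠ 17) :
    ((frl k ++ [k]).map (W.X n)).sum - W.X n 17 = W.X n k - nX W n k := by
  have h1 := grW_list (W.X n 0) (W.X n 1) (W.X n 17) 17 (frl k ++ [k]) (frl_mem k h4 h17)
  have h2 : ((frl k).map (W.X n)).sum = ((frl k).map (nX W n)).sum := by
    congr 1
    exact List.map_congr_left fun s hs => g.nX_low (frl_lt k s hs)
  have h3 := g.nX17 n
  simp only [List.map_append, List.sum_append, List.map_cons, List.map_nil, List.sum_cons,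
    List.sum_nil, add_zero] at h1 ⊢
  change ((frl k).map (nX W n)).sum + nX W n k = nX W n 17 at h1
  rw [h2, h3]
  linarith


theorem nX_gap (R : ℝ) : ∀ᶠ n in (U : Filter ℕ), ∀ k ∈ Dr, nX W n k + R * W.w n ≤ W.X n k := by
  have h : ∀ k : Fin 18, ∀ᶠ n in (U : Filter ℕ), k ∈ Dr → nX W n k + R * W.w n ≤ W.X n k := by
    intro k
    by_cases hk : k ∈ Dr
    · have h4 : 4 ≤ k := by
        by_contra h
        exact g.lt4 (not_le.1 h) hk
      have h17 : k ≠ 17 := by rintro rfl; exact g.ge10 (by decide) hk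
      filter_upwards [g.gap 17 (frl k ++ [k]) (frl_mem k h4 h17) (Or.inr ⟨k, by simp, hk⟩) R] with
        n hn _
      have := g.sum_eq n h4 h17
      linarith
    · exact Filter.Eventually.of_forall fun n h => absurd h hk
  have := Filter.eventually_all.2 h
  filter_upwards [this] with n hn k hk
  exact hn k hk





/-! #### transition -/






/-! #### bounds -/






end QIn

end

end Crest.Agent.R136.Qe861
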