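import Crest.Agent.R136.Qd13_329_Mg
import Crest.Agent.R136.RowW_619
import Crest.Agent.R136.WkH4_626
import Crest.Agent.R136.Qi1_599
import Crest.Agent.R136.Qgn4_887
import Crest.Agent.R136.Qe1_861
import Crest.Agent.R136.RL2_626
import Crest.Agent.R136.RLc_66
import Crest.Agent.R136.Qgn3_887
import Crest.Agent.R136.SZ2_480
import Crest.Agent.R136.Qgn6_887
import Crest.Agent.R136.LadG5_697
import Crest.Agent.R136.Js_893
import Crest.Agent.R136.QGc_312
import Crest.Agent.R136.QGd_312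

-- ▼ part R136/Qd14_329
section

/-!
# R136: the bilinear rigidity (helper329), part 14: the static gauge and its transport

* `Eq0` : the static flag `E` of a full relation at the height `z`.
* `claimA` : full relation at one incidence ⊢ the flag of the incidence is `tr h E` on the slots
  `7 .. 12`.
* `claimB` : transport along the line.
* `pair_rel` : the relation of all pairs.
-/

set_option autoImplicit false

namespace Crest.Agent.R136.Qd329

open Crest.Agent.R136.NetW191 Crest.Agent.R136.EvW938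

/-- the static flag -/
noncomputable def Eq0 (e3 e5 e6 s0 β0 ζ0 Z0 P0 R0 z : ℝ) : Fin 14 → ℝ :=
  ![0, 0, 0, e3, 0, e5, e6, ζ0, Z0, R0, β0 - z * ζ0, s0 - z * Z0, P0 - 2 * z * R0, 0]

section

variable {e3 e5 e6 s0 β0 ζ0 Z0 P0 R0 z : ℝ}

theorem Eq0_fz : Fz (Eq0 e3 e5 e6 s0 β0 ζ0 Z0 P0 R0 z) := ⟨rfl, rfl, rfl, rfl⟩

theorem Eq0_bd {K Λ : ℝ} (hK : 1 ≤ K) (hΛ : 0 ≤ Λ) (h3 : |e3| ≤ Λ) (h5 : |e5| ≤ Λ)
    (h6 : |e6| ≤ Λ) (hs : |s0| ≤ Λ) (hβ : |β0| ≤ Λ) (hζ : |ζ0| ≤ Λ) (hZ : |Z0| ≤ Λ)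
    (hP : |P0| ≤ Λ) (hR : |R0| ≤ Λ) (hz : |z| ≤ K) (q : Fin 14) :
    |Eq0 e3 e5 e6 s0 β0 ζ0 Z0 P0 R0 z q| ≤ 3 * K * Λ := by
  have K0 : 0 ≤ K := by linarith
  have k1 : Λ ≤ K * Λ := le_mul_of_one_le_left hΛ hK
  have h0 : |(0 : ℝ)| ≤ 3 * K * Λ := by rw [abs_zero]; positivity
  have zζ := mb hz hζ
  have zZ := mb hz hZ
  have zR := mb hz hR
  fin_cases q
  · exact h0
  · exact h0
  · exact h0
  · change |e3| ≤ _; linarith
  · exact h0
  · change |e5| ≤ _; linarith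
  · change |e6| ≤ _; linarith
  · change |ζ0| ≤ _; linarith
  · change |Z0| ≤ _; linarith
  · change |R0| ≤ _; linarith
  · change |β0 - z * ζ0| ≤ _
    have := abs_sub β0 (z * ζ0); linarith
  · change |s0 - z * Z0| ≤ _
    have := abs_sub s0 (z * Z0); linarith
  · change |P0 - 2 * z * R0| ≤ _
    have e : P0 - 2 * z * R0 = P0 - 2 * (z * R0) := by ring
    rw [e]
    have := abs_sub P0 (2 * (z * R0))
    rw [abs_mul 2, abs_two] at this
    linarith
  · exact h0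

/-- a product with `κ` -/
theorem kb {κ x X : ℝ} (hκ : |κ| ≤ 1) (hx : |x| ≤ X) : |κ * x| ≤ X := by
  have := mb hκ hx
  linarith

theorem a2 {x X : ℝ} (hx : |x| ≤ X) : |2 * x| ≤ 2 * X := by
  rw [abs_mul, abs_two]; linarith

/-- a bound of a power product -/
theorem pw1 {K x : ℝ} (hK : 1 ≤ K) (hx : 0 ≤ x) : x ≤ K ^ 4 * x :=
  le_mul_of_one_le_left hx (one_le_pow₀ hK)

theorem pwn {K x : ℝ} (hK : 1 ≤ K) (hx : 0 ≤ x) {j : ℕ} (hj : j ≤ 4) : K ^ j * x ≤ K ^ 4 * x :=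
  mul_le_mul_of_nonneg_right (pow_le_pow_right₀ hK hj) hx

variable {l1 l2 m1 m2 κ K Λ η : ℝ} {h : Fin 4 → ℝ} {w : Fin 14 → ℝ}

set_option maxHeartbeats 1000000 in
/-- **full relation at one incidence ⊢ the flag is the static flag on the slots `7 .. 12`** -/
theorem claimA (hκ : |κ| ≤ 1) (hK : 1 ≤ K) (hΛ : 1 ≤ Λ) (hη : 0 ≤ η) (bh : ∀ i, |h i| ≤ K)
    (hz : |h 0 - z| ≤ η) (h3 : |m1 - 2 * e3| ≤ η) (h5 : |l1 - e5| ≤ η) (h12 : |l1 - m2| ≤ η)
    (h6 : l2 = 2 * e6) (bζ : |ζ0| ≤ Λ) (bZ : |Z0| ≤ Λ) (bR : |R0| ≤ Λ)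
    (r : FRel κ l1 l2 m1 m2 s0 β0 ζ0 Z0 P0 R0 η (h 2) (h 3) (h 1) (w 11 + 2 * κ * h 1 * w 10)
      (w 10) (w 7) (w 8 + 2 * κ * h 1 * w 7) (w 12) (w 9)) (q : Fin 14) (hq : 7 ≤ q)
    (hq' : q ≠ 13) :
    |w q - tr κ h (Eq0 e3 e5 e6 s0 β0 ζ0 Z0 P0 R0 z) q| ≤ 20 * K ^ 4 * (Λ * η) := by
  have K0 : 0 ≤ K := by linarith
  obtain ⟨⟨rs, rβ, rζ, rZ⟩, rΦ, rR'⟩ := r
  set y := Λ * η with hy
  have hηy : η ≤ y := le_mul_of_one_le_left hη hΛ
  have y0 : 0 ≤ y := hη.trans hηy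
  have b1 := bh 1
  have b2 := bh 2
  have b3 := bh 3
  have m2e : |m2 - e5| ≤ 2 * η := by
    have e : m2 - e5 = (l1 - e5) - (l1 - m2) := by ring
    rw [e]
    have := abs_sub (l1 - e5) (l1 - m2)
    linarith
  have p0 : y ≤ K ^ 4 * y := pw1 hK y0
  have p1 : K * y ≤ K ^ 4 * y := by
    have := pwn hK y0 (j := 1) (by norm_num); rwa [pow_one] at this
  have p2 : K * (K * y) ≤ K ^ 4 * y := by
    have := pwn hK y0 (j := 2) (by norm_num)
    have e : K * (K * y) = K ^ 2 * y := by ring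
    rwa [e]
  have p3 : K * (K * (K * y)) ≤ K ^ 4 * y := by
    have := pwn hK y0 (j := 3) (by norm_num)
    have e : K * (K * (K * y)) = K ^ 3 * y := by ring
    rwa [e]
  have p4 : K * (K * (K * (K * y))) ≤ K ^ 4 * y := by
    have e : K * (K * (K * (K * y))) = K ^ 4 * y := by ring
    rw [e]
  have r1 : K * η ≤ K * y := mul_le_mul_of_nonneg_left hηy K0
  have r2 : K * (K * η) ≤ K * (K * y) := mul_le_mul_of_nonneg_left r1 K0
  have r3 : K * (K * (K * η)) ≤ K * (K * (K * y)) := mul_le_mul_of_nonneg_left r2 K0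
  have r4 : K * (K * (K * (K * η))) ≤ K * (K * (K * (K * y))) := mul_le_mul_of_nonneg_left r3 K0
  have zz : Fz (Eq0 e3 e5 e6 s0 β0 ζ0 Z0 P0 R0 z) := Eq0_fz
  have cases : q = 7 ∨ q = 8 ∨ q = 9 ∨ q = 10 ∨ q = 11 ∨ q = 12 := by
    have : ∀ q : Fin 14, 7 ≤ q → q ≠ 13 → q = 7 ∨ q = 8 ∨ q = 9 ∨ q = 10 ∨ q = 11 ∨ q = 12 := by
      decide
    exact this q hq hq'
  have k1 := kb hκ (mb b1 (mb b1 h3))
  have t1 := mb b1 h5
  rcases cases with rfl | rfl | rfl | rfl | rfl | rfl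
  · rw [zz.t7]
    change |w 7 - (ζ0 - 2 * κ * h 1 ^ 2 * e3 + h 1 * e5)| ≤ _
    have e : w 7 - (ζ0 - 2 * κ * h 1 ^ 2 * e3 + h 1 * e5) =
        (w 7 - (l1 * h 1 - κ * m1 * h 1 ^ 2 + ζ0)) + h 1 * (l1 - e5) -
        κ * (h 1 * (h 1 * (m1 - 2 * e3))) := by ring
    rw [e]
    have s1 := abs_sub ((w 7 - (l1 * h 1 - κ * m1 * h 1 ^ 2 + ζ0)) + h 1 * (l1 - e5))
      (κ * (h 1 * (h 1 * (m1 - 2 * e3))))
    have s2 := abs_add_le (w 7 - (l1 * h 1 - κ * m1 * h 1 ^ 2 + ζ0)) (h 1 * (l1 - e5))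
    linarith
  · rw [zz.t8]
    change |w 8 - (Z0 + 4 * κ ^ 2 * h 1 ^ 3 * e3 - 3 * κ * h 1 ^ 2 * e5 + 2 * h 1 * e6 -
      2 * κ * h 1 * ζ0)| ≤ _
    have e : w 8 - (Z0 + 4 * κ ^ 2 * h 1 ^ 3 * e3 - 3 * κ * h 1 ^ 2 * e5 + 2 * h 1 * e6 -
      2 * κ * h 1 * ζ0) = (w 8 + 2 * κ * h 1 * w 7 - (l2 * h 1 - κ * m2 * h 1 ^ 2 + Z0)) -
        2 * (κ * (h 1 * (w 7 - (l1 * h 1 - κ * m1 * h 1 ^ 2 + ζ0)))) +
        κ * (h 1 * (h 1 * (l1 - m2))) - 3 * (κ * (h 1 * (h 1 * (l1 - e5)))) +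
        2 * (κ * (κ * (h 1 * (h 1 * (h 1 * (m1 - 2 * e3)))))) := by rw [h6]; ring
    rw [e]
    have i1 := kb hκ (mb b1 rζ)
    have i2 := kb hκ (mb b1 (mb b1 h12))
    have i3 := kb hκ (mb b1 (mb b1 h5))
    have i4 := kb hκ (kb hκ (mb b1 (mb b1 (mb b1 h3))))
    have s1 := abs_add_le ((w 8 + 2 * κ * h 1 * w 7 - (l2 * h 1 - κ * m2 * h 1 ^ 2 + Z0)) -
        2 * (κ * (h 1 * (w 7 - (l1 * h 1 - κ * m1 * h 1 ^ 2 + ζ0)))) +
        κ * (h 1 * (h 1 * (l1 - m2))) - 3 * (κ * (h 1 * (h 1 * (l1 - e5)))))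
        (2 * (κ * (κ * (h 1 * (h 1 * (h 1 * (m1 - 2 * e3)))))))
    have s2 := abs_sub ((w 8 + 2 * κ * h 1 * w 7 - (l2 * h 1 - κ * m2 * h 1 ^ 2 + Z0)) -
        2 * (κ * (h 1 * (w 7 - (l1 * h 1 - κ * m1 * h 1 ^ 2 + ζ0)))) +
        κ * (h 1 * (h 1 * (l1 - m2)))) (3 * (κ * (h 1 * (h 1 * (l1 - e5)))))
    have s3 := abs_add_le ((w 8 + 2 * κ * h 1 * w 7 - (l2 * h 1 - κ * m2 * h 1 ^ 2 + Z0)) -
        2 * (κ * (h 1 * (w 7 - (l1 * h 1 - κ * m1 * h 1 ^ 2 + ζ0)))))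
        (κ * (h 1 * (h 1 * (l1 - m2))))
    have s4 := abs_sub (w 8 + 2 * κ * h 1 * w 7 - (l2 * h 1 - κ * m2 * h 1 ^ 2 + Z0))
        (2 * (κ * (h 1 * (w 7 - (l1 * h 1 - κ * m1 * h 1 ^ 2 + ζ0)))))
    rw [abs_mul 2, abs_two] at s1 s4
    rw [abs_mul 3, abs_of_pos (show (0 : ℝ) < 3 by norm_num)] at s2
    linarith
  · rw [zz.t9]
    change |w 9 - (R0 + κ ^ 2 * h 1 ^ 4 * e3 - κ * h 1 ^ 3 * e5 + h 1 ^ 2 * e6 -
      κ * h 1 ^ 2 * ζ0 + h 1 * Z0)| ≤ _
    have e : w 9 - (R0 + κ ^ 2 * h 1 ^ 4 * e3 - κ * h 1 ^ 3 * e5 + h 1 ^ 2 * e6 -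
      κ * h 1 ^ 2 * ζ0 + h 1 * Z0) = (w 9 - (rR κ l1 l2 m1 m2 ζ0 Z0 (h 1) + R0)) +
        κ * (κ * (h 1 * (h 1 * (h 1 * (h 1 * (m1 - 2 * e3)))))) / 2 -
        κ * (h 1 * (h 1 * (h 1 * (l1 - e5)))) / 2 -
        κ * (h 1 * (h 1 * (h 1 * (m2 - e5)))) / 2 := by
      rw [h6]; unfold rR; ring
    rw [e]
    have i1 := kb hκ (kb hκ (mb b1 (mb b1 (mb b1 (mb b1 h3)))))
    have i2 := kb hκ (mb b1 (mb b1 (mb b1 h5)))
    have i3 := kb hκ (mb b1 (mb b1 (mb b1 m2e)))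
    have s1 := abs_sub ((w 9 - (rR κ l1 l2 m1 m2 ζ0 Z0 (h 1) + R0)) +
        κ * (κ * (h 1 * (h 1 * (h 1 * (h 1 * (m1 - 2 * e3)))))) / 2 -
        κ * (h 1 * (h 1 * (h 1 * (l1 - e5)))) / 2) (κ * (h 1 * (h 1 * (h 1 * (m2 - e5)))) / 2)
    have s2 := abs_sub ((w 9 - (rR κ l1 l2 m1 m2 ζ0 Z0 (h 1) + R0)) +
        κ * (κ * (h 1 * (h 1 * (h 1 * (h 1 * (m1 - 2 * e3)))))) / 2)
        (κ * (h 1 * (h 1 * (h 1 * (l1 - e5)))) / 2)
    have s3 := abs_add_le (w 9 - (rR κ l1 l2 m1 m2 ζ0 Z0 (h 1) + R0))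
        (κ * (κ * (h 1 * (h 1 * (h 1 * (h 1 * (m1 - 2 * e3)))))) / 2)
    rw [abs_div, abs_two] at s1 s2 s3
    have e4 : K * (K * (K * (2 * η))) = 2 * (K * (K * (K * η))) := by ring
    rw [e4] at i3
    linarith
  · rw [zz.t10]
    change |w 10 - (β0 - z * ζ0 + 2 * h 3 * e3 + h 2 * e5 + h 0 * ζ0)| ≤ _
    have e : w 10 - (β0 - z * ζ0 + 2 * h 3 * e3 + h 2 * e5 + h 0 * ζ0) =
        (w 10 - (m1 * h 3 + m2 * h 2 + β0)) + h 3 * (m1 - 2 * e3) + h 2 * (m2 - e5) -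
        ζ0 * (h 0 - z) := by ring
    rw [e]
    have i1 := mb b3 h3
    have i2 := mb b2 m2e
    have i3 := mb bζ hz
    have s1 := abs_sub ((w 10 - (m1 * h 3 + m2 * h 2 + β0)) + h 3 * (m1 - 2 * e3) +
      h 2 * (m2 - e5)) (ζ0 * (h 0 - z))
    have s2 := abs_add_le ((w 10 - (m1 * h 3 + m2 * h 2 + β0)) + h 3 * (m1 - 2 * e3))
      (h 2 * (m2 - e5))
    have s3 := abs_add_le (w 10 - (m1 * h 3 + m2 * h 2 + β0)) (h 3 * (m1 - 2 * e3))
    have e4 : K * (2 * η) = 2 * (K * η) := by ring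
    rw [e4] at i2
    rw [← hy] at i3
    linarith
  · rw [zz.t11]
    change |w 11 - (s0 - z * Z0 - 4 * κ * h 1 * h 3 * e3 - 2 * κ * h 1 * h 2 * e5 + h 3 * e5 +
      2 * h 2 * e6 - 2 * κ * h 0 * h 1 * ζ0 + h 0 * Z0 - 2 * κ * h 1 * (β0 - z * ζ0))| ≤ _
    have e : w 11 - (s0 - z * Z0 - 4 * κ * h 1 * h 3 * e3 - 2 * κ * h 1 * h 2 * e5 + h 3 * e5 +
      2 * h 2 * e6 - 2 * κ * h 0 * h 1 * ζ0 + h 0 * Z0 - 2 * κ * h 1 * (β0 - z * ζ0)) =
        (w 11 + 2 * κ * h 1 * w 10 - (l1 * h 3 + l2 * h 2 + s0)) -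
        2 * (κ * (h 1 * (w 10 - (m1 * h 3 + m2 * h 2 + β0)))) + h 3 * (l1 - e5) -
        2 * (κ * (h 1 * (h 3 * (m1 - 2 * e3)))) - 2 * (κ * (h 1 * (h 2 * (m2 - e5)))) -
        Z0 * (h 0 - z) + 2 * (κ * (h 1 * (ζ0 * (h 0 - z)))) := by rw [h6]; ring
    rw [e]
    have i1 := kb hκ (mb b1 rβ)
    have i2 := mb b3 h5
    have i3 := kb hκ (mb b1 (mb b3 h3))
    have i4 := kb hκ (mb b1 (mb b2 m2e))
    have i5 := mb bZ hz
    have i6 := kb hκ (mb b1 (mb bζ hz))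
    have s1 := abs_add_le ((w 11 + 2 * κ * h 1 * w 10 - (l1 * h 3 + l2 * h 2 + s0)) -
        2 * (κ * (h 1 * (w 10 - (m1 * h 3 + m2 * h 2 + β0)))) + h 3 * (l1 - e5) -
        2 * (κ * (h 1 * (h 3 * (m1 - 2 * e3)))) - 2 * (κ * (h 1 * (h 2 * (m2 - e5)))) -
        Z0 * (h 0 - z)) (2 * (κ * (h 1 * (ζ0 * (h 0 - z)))))
    have s2 := abs_sub ((w 11 + 2 * κ * h 1 * w 10 - (l1 * h 3 + l2 * h 2 + s0)) -
        2 * (κ * (h 1 * (w 10 - (m1 * h 3 + m2 * h 2 + β0)))) + h 3 * (l1 - e5) -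
        2 * (κ * (h 1 * (h 3 * (m1 - 2 * e3)))) - 2 * (κ * (h 1 * (h 2 * (m2 - e5)))))
        (Z0 * (h 0 - z))
    have s3 := abs_sub ((w 11 + 2 * κ * h 1 * w 10 - (l1 * h 3 + l2 * h 2 + s0)) -
        2 * (κ * (h 1 * (w 10 - (m1 * h 3 + m2 * h 2 + β0)))) + h 3 * (l1 - e5) -
        2 * (κ * (h 1 * (h 3 * (m1 - 2 * e3))))) (2 * (κ * (h 1 * (h 2 * (m2 - e5)))))
    have s4 := abs_sub ((w 11 + 2 * κ * h 1 * w 10 - (l1 * h 3 + l2 * h 2 + s0)) -
        2 * (κ * (h 1 * (w 10 - (m1 * h 3 + m2 * h 2 + β0)))) + h 3 * (l1 - e5))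
        (2 * (κ * (h 1 * (h 3 * (m1 - 2 * e3)))))
    have s5 := abs_add_le ((w 11 + 2 * κ * h 1 * w 10 - (l1 * h 3 + l2 * h 2 + s0)) -
        2 * (κ * (h 1 * (w 10 - (m1 * h 3 + m2 * h 2 + β0))))) (h 3 * (l1 - e5))
    have s6 := abs_sub (w 11 + 2 * κ * h 1 * w 10 - (l1 * h 3 + l2 * h 2 + s0))
        (2 * (κ * (h 1 * (w 10 - (m1 * h 3 + m2 * h 2 + β0)))))
    rw [abs_mul 2, abs_two] at s1 s3 s4 s6
    have e4 : K * (K * (2 * η)) = 2 * (K * (K * η)) := by ring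
    rw [e4] at i4
    rw [← hy] at i5 i6
    linarith
  · rw [zz.t12]
    change |w 12 - (P0 - 2 * z * R0 - 2 * κ * h 1 ^ 2 * h 3 * e3 - κ * h 1 ^ 2 * h 2 * e5 +
      h 1 * h 3 * e5 + 2 * h 1 * h 2 * e6 + h 3 * ζ0 - κ * h 0 * h 1 ^ 2 * ζ0 + h 2 * Z0 +
      h 0 * h 1 * Z0 + 2 * h 0 * R0 - κ * h 1 ^ 2 * (β0 - z * ζ0) +
      h 1 * (s0 - z * Z0))| ≤ _
    have e : w 12 - (P0 - 2 * z * R0 - 2 * κ * h 1 ^ 2 * h 3 * e3 - κ * h 1 ^ 2 * h 2 * e5 +
      h 1 * h 3 * e5 + 2 * h 1 * h 2 * e6 + h 3 * ζ0 - κ * h 0 * h 1 ^ 2 * ζ0 + h 2 * Z0 +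
      h 0 * h 1 * Z0 + 2 * h 0 * R0 - κ * h 1 ^ 2 * (β0 - z * ζ0) +
      h 1 * (s0 - z * Z0)) =
        (w 12 - (phiR κ l1 l2 m1 m2 s0 β0 ζ0 Z0 (h 2) (h 3) (h 1) + P0)) +
        h 1 * (h 3 * (l1 - e5)) - κ * (h 1 * (h 1 * (h 3 * (m1 - 2 * e3)))) -
        κ * (h 1 * (h 1 * (h 2 * (m2 - e5)))) + κ * (h 1 * (h 1 * (ζ0 * (h 0 - z)))) -
        h 1 * (Z0 * (h 0 - z)) - 2 * (R0 * (h 0 - z)) := by
      rw [h6]; unfold phiR; ring
    rw [e]
    have i1 := mb b1 (mb b3 h5)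
    have i2 := kb hκ (mb b1 (mb b1 (mb b3 h3)))
    have i3 := kb hκ (mb b1 (mb b1 (mb b2 m2e)))
    have i4 := kb hκ (mb b1 (mb b1 (mb bζ hz)))
    have i5 := mb b1 (mb bZ hz)
    have i6 := mb bR hz
    have s1 := abs_sub ((w 12 - (phiR κ l1 l2 m1 m2 s0 β0 ζ0 Z0 (h 2) (h 3) (h 1) + P0)) +
        h 1 * (h 3 * (l1 - e5)) - κ * (h 1 * (h 1 * (h 3 * (m1 - 2 * e3)))) -
        κ * (h 1 * (h 1 * (h 2 * (m2 - e5)))) + κ * (h 1 * (h 1 * (ζ0 * (h 0 - z)))) -
        h 1 * (Z0 * (h 0 - z))) (2 * (R0 * (h 0 - z)))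
    have s2 := abs_sub ((w 12 - (phiR κ l1 l2 m1 m2 s0 β0 ζ0 Z0 (h 2) (h 3) (h 1) + P0)) +
        h 1 * (h 3 * (l1 - e5)) - κ * (h 1 * (h 1 * (h 3 * (m1 - 2 * e3)))) -
        κ * (h 1 * (h 1 * (h 2 * (m2 - e5)))) + κ * (h 1 * (h 1 * (ζ0 * (h 0 - z)))))
        (h 1 * (Z0 * (h 0 - z)))
    have s3 := abs_add_le ((w 12 - (phiR κ l1 l2 m1 m2 s0 β0 ζ0 Z0 (h 2) (h 3) (h 1) + P0)) +
        h 1 * (h 3 * (l1 - e5)) - κ * (h 1 * (h 1 * (h 3 * (m1 - 2 * e3)))) -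
        κ * (h 1 * (h 1 * (h 2 * (m2 - e5))))) (κ * (h 1 * (h 1 * (ζ0 * (h 0 - z)))))
    have s4 := abs_sub ((w 12 - (phiR κ l1 l2 m1 m2 s0 β0 ζ0 Z0 (h 2) (h 3) (h 1) + P0)) +
        h 1 * (h 3 * (l1 - e5)) - κ * (h 1 * (h 1 * (h 3 * (m1 - 2 * e3)))))
        (κ * (h 1 * (h 1 * (h 2 * (m2 - e5)))))
    have s5 := abs_sub ((w 12 - (phiR κ l1 l2 m1 m2 s0 β0 ζ0 Z0 (h 2) (h 3) (h 1) + P0)) +
        h 1 * (h 3 * (l1 - e5))) (κ * (h 1 * (h 1 * (h 3 * (m1 - 2 * e3)))))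
    have s6 := abs_add_le (w 12 - (phiR κ l1 l2 m1 m2 s0 β0 ζ0 Z0 (h 2) (h 3) (h 1) + P0))
        (h 1 * (h 3 * (l1 - e5)))
    rw [abs_mul 2, abs_two] at s1
    have e4 : K * (K * (K * (2 * η))) = 2 * (K * (K * (K * η))) := by ring
    rw [e4] at i3
    rw [← hy] at i4 i5 i6
    linarith

end

/-- the components `q ≤ 12` do not see the component `13` -/
theorem tr_congr13 {κ : ℝ} {h : Fin 4 → ℝ} {w w' : Fin 14 → ℝ} (hw : ∀ q, q ≠ 13 → w q = w' q)
    (q : Fin 14) (hq : q ≠ 13) : tr κ h w q = tr κ h w' q := by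
  have hs : ∀ q : Fin 14, q ≠ 13 → ∀ t ∈ tms q, t.s ≠ 13 := by decide
  rw [tr_tms, tr_tms, hw q hq]
  congr 2
  refine List.map_congr_left fun t ht => ?_
  unfold Tm.ev
  rw [hw t.s (hs q hq t ht)]

section

variable {κ K η Λ : ℝ} {h h' g : Fin 4 → ℝ} {w v w' E : Fin 14 → ℝ}

/-- the flag without its component `13` -/
def cut13 (w : Fin 14 → ℝ) : Fin 14 → ℝ := fun q => if q = 13 then 0 else w q

theorem cut13_of {w : Fin 14 → ℝ} {q : Fin 14} (hq : q ≠ 13) : cut13 w q = w q := if_neg hq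

/-- the difference to the static flag -/
theorem Loc.diff (L : Loc κ K η h h' g w v w') (E : Fin 14 → ℝ) {q : Fin 14} (hq : q ≠ 13) :
    |(w' q - tr κ g E q) - (v q + tr κ h' (cut13 (w - tr κ h E)) q)| ≤ η := by
  have h1 := L.fl q hq
  have e1 : tr κ h' (cut13 (w - tr κ h E)) q = tr κ h' w q - tr κ g E q := by
    rw [tr_congr13 (w' := w - tr κ h E) (fun q hq => cut13_of hq) q hq, tr_sub, Pi.sub_apply,
      L.fr, tr_mul]
  rw [e1]
  have e2 : w' q - tr κ g E q - (v q + (tr κ h' w q - tr κ g E q)) =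
      w' q - (v q + tr κ h' w q) := by ring
  rw [e2]
  exact h1

/-- **transport along the line** -/
theorem claimB (L : Loc κ K η h h' g w v w') {u δ : ℝ} (hu : |u| ≤ K) (i0 : |h' 0 - u| ≤ η)
    (i1 : |h' 1| ≤ η) (i2 : |h' 2| ≤ η) (i3 : |h' 3| ≤ η) (hv : ∀ q, q ≠ 13 → |v q| ≤ η)
    (hE : Fz E) (hΛ : ∀ q, |(w - tr κ h E) q| ≤ Λ)
    (hA : ∀ q, 7 ≤ q → q ≠ 13 → |w q - tr κ h E q| ≤ δ) (q : Fin 14) (hq : 7 ≤ q)
    (hq' : q ≠ 13) : |w' q - tr κ g E q| ≤ 2 * η + 470 * K ^ 7 * η * Λ + (1 + 2 * K) * δ := by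
  have K1 := L.K1
  have K0 : 0 ≤ K := by linarith
  have η0 := L.η0
  have Λ0 : 0 ≤ Λ := (abs_nonneg _).trans (hΛ 0)
  have δ0 : 0 ≤ δ := (abs_nonneg _).trans (hA 7 (by decide) (by decide))
  set D := cut13 (w - tr κ h E) with hD
  have h1 := L.diff E hq'
  rw [← hD] at h1
  have bD : ∀ q, |D q| ≤ Λ := fun q => by
    by_cases h13 : q = 13
    · rw [hD, cut13, if_pos h13, abs_zero]; exact Λ0
    · rw [hD, cut13_of h13]; exact hΛ q
  have b0 : ∀ i, |sh u i| ≤ K := by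
    intro i; fin_cases i
    · exact hu
    · change |(0 : ℝ)| ≤ K; rw [abs_zero]; exact K0
    · change |(0 : ℝ)| ≤ K; rw [abs_zero]; exact K0
    · change |(0 : ℝ)| ≤ K; rw [abs_zero]; exact K0
  have hh : ∀ i, |h' i - sh u i| ≤ η := by
    intro i; fin_cases i
    · exact i0
    · change |h' 1 - 0| ≤ η; rw [sub_zero]; exact i1
    · change |h' 2 - 0| ≤ η; rw [sub_zero]; exact i2
    · change |h' 3 - 0| ≤ η; rw [sub_zero]; exact i3
  have h2 := tr_frame L.hκ K1 η0 Λ0 L.bh' b0 hh bD q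
  have zD : Fz D := by
    have t := hE.tr (κ := κ) (h := h)
    have z := L.zw
    refine ⟨?_, ?_, ?_, ?_⟩
    · rw [hD, cut13_of (by decide), Pi.sub_apply, z.z0, t.z0, sub_zero]
    · rw [hD, cut13_of (by decide), Pi.sub_apply, z.z1, t.z1, sub_zero]
    · rw [hD, cut13_of (by decide), Pi.sub_apply, z.z2, t.z2, sub_zero]
    · rw [hD, cut13_of (by decide), Pi.sub_apply, z.z4, t.z4, sub_zero]
  have dD : ∀ q, 7 ≤ q → q ≠ 13 → |D q| ≤ δ := fun q a b => by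
    rw [hD, cut13_of b, Pi.sub_apply]; exact hA q a b
  have h3 : |tr κ (sh u) D q| ≤ (1 + 2 * K) * δ := by
    have cases : q = 7 ∨ q = 8 ∨ q = 9 ∨ q = 10 ∨ q = 11 ∨ q = 12 := by
      have : ∀ q : Fin 14, 7 ≤ q → q ≠ 13 → q = 7 ∨ q = 8 ∨ q = 9 ∨ q = 10 ∨ q = 11 ∨
        q = 12 := by decide
      exact this q hq hq'
    have d7 := dD 7 (by decide) (by decide)
    have d8 := dD 8 (by decide) (by decide)
    have d9 := dD 9 (by decide) (by decide)
    have d10 := dD 10 (by decide) (by decide)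
    have d11 := dD 11 (by decide) (by decide)
    have d12 := dD 12 (by decide) (by decide)
    have k1 : 0 ≤ K * δ := by positivity
    rcases cases with rfl | rfl | rfl | rfl | rfl | rfl
    · have e : tr κ (sh u) D 7 = D 7 := by
        rw [zD.t7]; change D 7 - 2 * κ * 0 ^ 2 * D 3 + 0 * D 5 = _; ring
      rw [e]; linarith
    · rw [tr_sh8]; linarith
    · rw [tr_sh9]; linarith
    · have e : tr κ (sh u) D 10 = D 10 + u * D 7 := by rw [tr_sh10, zD.z4]; ring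
      rw [e]
      have := abs_add_le (D 10) (u * D 7)
      have := mb hu d7
      linarith
    · rw [tr_sh11]
      have := abs_add_le (D 11) (u * D 8)
      have := mb hu d8
      linarith
    · rw [tr_sh12]
      have e : D 12 + 2 * u * D 9 = D 12 + 2 * (u * D 9) := by ring
      rw [e]
      have h4 := abs_add_le (D 12) (2 * (u * D 9))
      rw [abs_mul 2, abs_two] at h4
      have := mb hu d9
      linarith
  have h4 := hv q hq'
  have e : w' q - tr κ g E q = ((w' q - tr κ g E q) - (v q + tr κ h' D q)) + v q +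
      (tr κ h' D q - tr κ (sh u) D q) + tr κ (sh u) D q := by ring
  rw [e]
  have s1 := abs_add_le (((w' q - tr κ g E q) - (v q + tr κ h' D q)) + v q +
      (tr κ h' D q - tr κ (sh u) D q)) (tr κ (sh u) D q)
  have s2 := abs_add_le (((w' q - tr κ g E q) - (v q + tr κ h' D q)) + v q)
      (tr κ h' D q - tr κ (sh u) D q)
  have s3 := abs_add_le ((w' q - tr κ g E q) - (v q + tr κ h' D q)) (v q)
  linarith

/-- the own gauge of an incidence: the components `3, 5, 6` of the difference to the static flag -/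
def Jg (D : Fin 14 → ℝ) : Fin 14 → ℝ := fun q => if q = 3 ∨ q = 5 ∨ q = 6 then D q else 0

/-- **relation of a pair** -/
theorem pair_rel (L : Loc κ K η h h' g w v w') {δ : ℝ} (hE : Fz E) (hw' : Fz w')
    (hA : ∀ q, 7 ≤ q → q ≠ 13 → |w q - tr κ h E q| ≤ δ)
    (hB : ∀ q, 7 ≤ q → q ≠ 13 → |w' q - tr κ g E q| ≤ δ) (q : Fin 14) (hq : q ≠ 13) :
    |v q - (Jg (w' - tr κ g E) q - tr κ h' (Jg (w - tr κ h E)) q)| ≤
      η + δ + 470 * K ^ 7 * δ := by
  have K1 := L.K1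
  have δ0 : 0 ≤ δ := (abs_nonneg _).trans (hA 7 (by decide) (by decide))
  have K0 : 0 ≤ K := by linarith
  set D := cut13 (w - tr κ h E) with hD
  set D' := w' - tr κ g E with hD'
  have h1 := L.diff E hq
  rw [← hD] at h1
  have e1 : w' q - tr κ g E q = D' q := rfl
  rw [e1] at h1
  have tE := hE.tr (κ := κ) (h := h)
  have tE' := hE.tr (κ := κ) (h := g)
  have low : ∀ q : Fin 14, ¬ 7 ≤ q → ¬ (q = 3 ∨ q = 5 ∨ q = 6) → q = 0 ∨ q = 1 ∨ q = 2 ∨
      q = 4 := by decide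
  -- the rest of `D`
  have r1 : ∀ q, |(D - Jg (w - tr κ h E)) q| ≤ δ := by
    intro q
    rw [Pi.sub_apply]
    by_cases h13 : q = 13
    · subst h13
      rw [hD, cut13, if_pos rfl, Jg, if_neg (by decide), sub_zero, abs_zero]; exact δ0
    · rw [hD, cut13_of h13]
      unfold Jg
      split_ifs with hc
      · rw [sub_self, abs_zero]; exact δ0
      · by_cases h7 : 7 ≤ q
        · rw [sub_zero]; exact hA q h7 h13
        · rw [sub_zero, Pi.sub_apply]
          rcases low q h7 hc with rfl | rfl | rfl | rfl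
          · rw [L.zw.z0, tE.z0, sub_zero, abs_zero]; exact δ0
          · rw [L.zw.z1, tE.z1, sub_zero, abs_zero]; exact δ0
          · rw [L.zw.z2, tE.z2, sub_zero, abs_zero]; exact δ0
          · rw [L.zw.z4, tE.z4, sub_zero, abs_zero]; exact δ0
  have r2 : |D' q - Jg D' q| ≤ δ := by
    unfold Jg
    split_ifs with hc
    · rw [sub_self, abs_zero]; exact δ0
    · by_cases h7 : 7 ≤ q
      · rw [sub_zero]; exact hB q h7 hq
      · rw [sub_zero, hD', Pi.sub_apply]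
        rcases low q h7 hc with rfl | rfl | rfl | rfl
        · rw [hw'.z0, tE'.z0, sub_zero, abs_zero]; exact δ0
        · rw [hw'.z1, tE'.z1, sub_zero, abs_zero]; exact δ0
        · rw [hw'.z2, tE'.z2, sub_zero, abs_zero]; exact δ0
        · rw [hw'.z4, tE'.z4, sub_zero, abs_zero]; exact δ0
  have r3 := tr_small L.hκ K1 δ0 L.bh' r1 q
  rw [tr_sub, Pi.sub_apply] at r3
  have e : v q - (Jg D' q - tr κ h' (Jg (w - tr κ h E)) q) =
      (D' q - Jg D' q) - (tr κ h' D q - tr κ h' (Jg (w - tr κ h E)) q) -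
      (D' q - (v q + tr κ h' D q)) := by ring
  rw [e]
  have s1 := abs_sub ((D' q - Jg D' q) - (tr κ h' D q - tr κ h' (Jg (w - tr κ h E)) q))
      (D' q - (v q + tr κ h' D q))
  have s2 := abs_sub (D' q - Jg D' q) (tr κ h' D q - tr κ h' (Jg (w - tr κ h E)) q)
  linarith

end

end Crest.Agent.R136.Qd329
end

-- ▼ part R136/Qd15_329
section

/-!
# R136: the bilinear rigidity (helper329), part 15: the window

* `QWin W κ lam f Dr x` : window of `quad`, dropped slots `Dr = {4,5,6,8}`, `+ 7`, `+ 7, 9`.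
* `QNu` : its numbers.
* `QWin.coc` : the normalised coordinates satisfy the cocycle of the W-group up to `ρ^x`.
* `QWin.qrow`, `QWin.qevo`, `QWin.srow`, `QWin.qprof` : input of `quad_full2`.
-/

set_option autoImplicit false
set_option linter.unusedSectionVars false
set_option linter.unusedVariables false

open Filter Topology

namespace Crest.Agent.R136.Qd329

open Finset Crest.Agent.R136.NetW191 Crest.Agent.R136.Net191 Crest.Agent.R136.Qg926
open Crest.Agent.R136.EvW938 Crest.Agent.R136.RowW619 Crest.Agent.R136.Gf356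
open Crest.Agent.R138.Ex926 (Base U)

/-- the box `x` on `S` -/
def qb (S : Finset (Fin 18)) (x : ℝ) : Fin 18 → ℝ := fun k => if k ∈ S then x else 0

/-- the slots of the spread box -/
def Sq (Dr : Finset (Fin 18)) : Finset (Fin 18) := if (9 : Fin 18) ∈ Dr then {2, 14, 15} else {2, 14}

/-- **numbers of `quad`** -/
structure QNu (ν : (Fin 18 → ℝ) → ℝ) (Dr : Finset (Fin 18)) (x m : ℝ) : Prop where
  m0 : 0 < m
  n1 : ν (qb {2, 3, 14, 15} x) ≤ ν (qb {2, 3, 14, 15, 16} x)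
  n2 : ν (qb {1, 11, 12} x) ≤ ν (qb {1, 11, 12, 16} x)
  n3 : ν 0 + ν (qb {1, 2, 3, 11, 12, 14, 15} x) ≤ ν (qb {2, 3, 14, 15} x) + ν (qb {1, 11, 12} x)
  n4 : 2 * x ≤ ν 0 - ν (qb {2, 3} x)
  n5 : ∀ y, 0 ≤ y → y ≤ x → m * y ≤ ν 0 - ν (qb {1} y)
  n6 : (7 : Fin 18) ∈ Dr → ∀ y, 0 ≤ y → y ≤ x →
    m * y ≤ ν (qb (Sq Dr) x) - ν (Function.update (qb (Sq Dr) x) 3 y)

variable {ι : ℕ → Type*} [∀ n, DecidableEq (ι n)] {W : Wnd 18 ι} {κ : ℕ → ℝ}
  {lam : ℕ → Fin 18 → ℝ} {f : ∀ n, ι n → FW} {Dr : Finset (Fin 18)} {x m : ℝ}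

/-- **window of `quad`** -/
structure QWin (W : Wnd 18 ι) (κ : ℕ → ℝ) (lam : ℕ → Fin 18 → ℝ) (f : ∀ n, ι n → FW)
    (Dr : Finset (Fin 18)) (x : ℝ) : Prop where
  x0 : 0 < x
  ww : WWnd W κ lam f
  eS : W.S = {0}
  etop : W.top = fun _ => x
  ekap : W.kap = fun _ => 1
  dw : ∀ n, W.B'.d n = W.B.d n ^ W.w n
  hk : ∀ ε : ℝ, 0 < ε → ∀ᶠ n in (U : Filter ℕ), W.B'.d n ^ ε ≤ |κ n|
  dr : Dr = {4, 5, 6, 8} ∨ Dr = {4, 5, 6, 7, 8} ∨ Dr = {4, 5, 6, 7, 8, 9}
  /-- walls between slots which are not dropped -/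
  tight : ∀ k, k ∉ Dr → ∀ l ∈ mlW k, (∀ s ∈ l, s ∉ Dr) → ∀ n, W.X n k = (l.map (W.X n)).sum
  /-- the other walls are at infinite distance -/
  gap : ∀ k, ∀ l ∈ mlW k, (k ∈ Dr ∨ ∃ s ∈ l, s ∈ Dr) → ∀ R : ℝ, ∀ᶠ n in (U : Filter ℕ),
    W.X n k + R * W.w n ≤ (l.map (W.X n)).sum
  dens : W.lam W.top ≤ W.lam (cut W.S W.top 0) + W.lam (cut W.S 0 W.top)
  frost : ∀ y : ℝ, 0 ≤ y → y ≤ x → W.lam (Pi.single 0 y) ≤ -(1 * y)
  /-- legal boxes -/
  leg : ∀ p : Fin 18 → ℝ, (∀ s, 0 ≤ p s) → (∀ s, p s ≤ x) →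
    (∀ k, k ∉ Dr → ∀ l ∈ mlW k, (∀ s ∈ l, s ∉ Dr) →
      cut {0} p (fun _ => x) k ≤ (l.map (cut {0} p (fun _ => x))).sum) → p ∈ W.legW

/-- the frame of `y` seen from `x` -/
noncomputable def hW (W : Wnd 18 ι) (n : ℕ) (x y : ι n) : Fin 4 → ℝ := frm (W.crd n x y)

/-- the flag of `y` seen from `x`, without the dropped components and the component `13` -/
noncomputable def fW (W : Wnd 18 ι) (Dr : Finset (Fin 18)) (n : ℕ) (x y : ι n) : Fin 14 → ℝ :=
  fun q => if q = 13 ∨ Fin.natAdd 4 q ∈ Dr then 0 else W.crd n x y (Fin.natAdd 4 q)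

theorem fW_le (n : ℕ) (a b : ι n) (q : Fin 14) :
    |fW W Dr n a b q| ≤ |W.crd n a b (Fin.natAdd 4 q)| := by
  unfold fW
  split_ifs
  · rw [abs_zero]; exact abs_nonneg _
  · exact le_rfl

theorem fW_of {n : ℕ} {a b : ι n} {q : Fin 14} (h1 : q ≠ 13) (h2 : Fin.natAdd 4 q ∉ Dr) :
    fW W Dr n a b q = W.crd n a b (Fin.natAdd 4 q) := if_neg (by rintro (h | h); exacts [h1 h, h2 h])

theorem fW_dr {n : ℕ} {a b : ι n} {q : Fin 14} (h2 : Fin.natAdd 4 q ∈ Dr) :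
    fW W Dr n a b q = 0 := if_pos (Or.inr h2)

section static

variable (g : QWin W κ lam f Dr x)

include g

theorem QWin.sub4 {s : Fin 18} (hs : s ∈ ({4, 5, 6, 8} : Finset (Fin 18))) : s ∈ Dr := by
  have h1 : ∀ s : Fin 18, s ∈ ({4, 5, 6, 8} : Finset (Fin 18)) → s ∈ ({4, 5, 6, 7, 8} : Finset (Fin 18)) := by
    decide
  have h2 : ∀ s : Fin 18, s ∈ ({4, 5, 6, 8} : Finset (Fin 18)) →
      s ∈ ({4, 5, 6, 7, 8, 9} : Finset (Fin 18)) := by decide
  rcases g.dr with h | h | h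
  · rw [h]; exact hs
  · rw [h]; exact h1 s hs
  · rw [h]; exact h2 s hs

theorem QWin.nfr (i : Fin 4) : Fin.castAdd 14 i ∉ Dr := by
  have h0 : ∀ i : Fin 4, (Fin.castAdd 14 i : Fin 18) ∉ ({4, 5, 6, 8} : Finset (Fin 18)) := by decide
  have h1 : ∀ i : Fin 4, (Fin.castAdd 14 i : Fin 18) ∉ ({4, 5, 6, 7, 8} : Finset (Fin 18)) := by
    decide
  have h2 : ∀ i : Fin 4, (Fin.castAdd 14 i : Fin 18) ∉ ({4, 5, 6, 7, 8, 9} : Finset (Fin 18)) := by
    decide
  rcases g.dr with h | h | h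
  · rw [h]; exact h0 i
  · rw [h]; exact h1 i
  · rw [h]; exact h2 i

theorem QWin.h97 (h9 : (9 : Fin 18) ∈ Dr) : (7 : Fin 18) ∈ Dr := by
  rcases g.dr with h | h | h
  · rw [h] at h9; exact absurd h9 (by decide)
  · rw [h]; decide
  · rw [h]; decide

/-- big slots are not dropped -/
theorem QWin.nbig {s : Fin 18} (hs : 10 ≤ s) : s ∉ Dr := by
  have h0 : ∀ s : Fin 18, 10 ≤ s → s ∉ ({4, 5, 6, 8} : Finset (Fin 18)) := by decide
  have h1 : ∀ s : Fin 18, 10 ≤ s → s ∉ ({4, 5, 6, 7, 8} : Finset (Fin 18)) := by decide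
  have h2 : ∀ s : Fin 18, 10 ≤ s → s ∉ ({4, 5, 6, 7, 8, 9} : Finset (Fin 18)) := by decide
  rcases g.dr with h | h | h
  · rw [h]; exact h0 s hs
  · rw [h]; exact h1 s hs
  · rw [h]; exact h2 s hs

theorem QWin.fz {n : ℕ} (a b : ι n) : Fz (fW W Dr n a b) :=
  ⟨fW_dr (g.sub4 (by decide)), fW_dr (g.sub4 (by decide)), fW_dr (g.sub4 (by decide)),
    fW_dr (g.sub4 (by decide))⟩

theorem QWin.cfl_one {k : Fin 18} (hk : k ∉ Dr) {l : List (Fin 18)} (hl : l ∈ mlW k)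
    (hs : ∀ s ∈ l, s ∉ Dr) (n : ℕ) : cfl W lam n l k = 1 := by
  rw [g.ww.cfl_eq hl (g.tight k hk l hl hs n), g.ekap]
  have : (l.map fun _ : Fin 18 => (1 : ℝ)).prod = 1 := by
    induction l with
    | nil => rfl
    | cons a l ih => simp
  rw [this, div_one]

theorem QWin.cfl_dead {k : Fin 18} {l : List (Fin 18)} (hl : l ∈ mlW k)
    (hd : k ∈ Dr ∨ ∃ s ∈ l, s ∈ Dr) :
    ∀ᶠ n in (U : Filter ℕ), cfl W lam n l k ≤ W.B'.d n ^ x := by
  filter_upwards [g.gap k l hl hd x] with n hn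
  have e1 : (l.map (un W lam n)).prod =
      W.B.d n ^ (l.map (W.X n)).sum / (l.map (lam n)).prod := by
    clear hl hd hn
    induction l with
    | nil => simp
    | cons a l ih =>
      simp only [List.map_cons, List.prod_cons, List.sum_cons, ih]
      unfold un sd
      rw [Real.rpow_add (W.B.pos n), g.ekap]
      field_simp
  have h2 := ((g.ww.hl n).pos k).ne'
  have h3 := (Real.rpow_pos_of_pos (W.B.pos n) (W.X n k))
  have e2 : cfl W lam n l k = W.B.d n ^ ((l.map (W.X n)).sum - W.X n k) := by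
    unfold cfl
    rw [e1, (g.ww.hl n).mul k l hl, Real.rpow_sub (W.B.pos n)]
    unfold un sd
    rw [g.ekap]
    have := h3.ne'
    field_simp
  rw [e2, g.dw, ← Real.rpow_mul (W.B.pos n).le]
  exact Real.rpow_le_rpow_of_exponent_ge (W.B.pos n) (W.B.lt n).le (by linarith)

theorem QWin.cfl_all : ∀ᶠ n in (U : Filter ℕ), ∀ q : Fin 14, ∀ t ∈ tms q,
    Fin.natAdd 4 t.s ∈ Dr → cfl W lam n t.idx (Fin.natAdd 4 q) ≤ W.B'.d n ^ x := by
  refine Filter.eventually_all.2 fun q => ?_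
  have : ∀ᶠ n in (U : Filter ℕ), ∀ t ∈ (tms q).toFinset,
      Fin.natAdd 4 t.s ∈ Dr → cfl W lam n t.idx (Fin.natAdd 4 q) ≤ W.B'.d n ^ x := by
    refine (Filter.eventually_all_finset _).2 fun t ht => ?_
    by_cases hs : Fin.natAdd 4 t.s ∈ Dr
    · have hl : t.idx ∈ mlW (Fin.natAdd 4 q) := by
        rw [mlW_right]; exact List.mem_map_of_mem (List.mem_toFinset.1 ht)
      filter_upwards [g.cfl_dead hl (Or.inr ⟨_, by simp [Tm.idx], hs⟩)] with n hn _
      exact hn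
    · exact Eventually.of_forall fun n h => absurd h hs
  filter_upwards [this] with n hn t ht
  exact hn t (List.mem_toFinset.2 ht)

end static

/-- the constant of the window -/
noncomputable def Kq (W : Wnd 18 ι) : ℝ := 2 * MW W

/-- difference of two sums -/
theorem sum_diff {α : Type*} (F G : α → ℝ) (mm : α → ℤ) {D : ℝ} (l : List α)
    (h : ∀ a ∈ l, |F a - G a| ≤ |(mm a : ℝ)| * D) :
    |(l.map F).sum - (l.map G).sum| ≤ (((l.map fun a => (mm a).natAbs).sum : ℕ) : ℝ) * D := by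
  induction l with
  | nil => simp
  | cons a l ih =>
    have h1 := ih fun b hb => h b (List.mem_cons_of_mem _ hb)
    have h2 : (((mm a).natAbs : ℕ) : ℝ) = |(mm a : ℝ)| := by rw [Nat.cast_natAbs, Int.cast_abs]
    have h3 := h a List.mem_cons_self
    simp only [List.map_cons, List.sum_cons, Nat.cast_add]
    rw [h2, add_mul]
    have e : F a + (l.map F).sum - (G a + (l.map G).sum) =
        (F a - G a) + ((l.map F).sum - (l.map G).sum) := by ring
    rw [e]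
    exact (abs_add_le _ _).trans (add_le_add h3 h1)

section coc

variable (g : QWin W κ lam f Dr x)

include g

theorem QWin.Kq1 : 1 ≤ Kq W := by
  have := (MW_le g.ww).1
  unfold Kq
  linarith

theorem QWin.MW_Kq : MW W ≤ Kq W := by
  have := (MW_le g.ww).1
  unfold Kq
  linarith

theorem QWin.K0_MW : W.K0 ≤ MW W := by
  have := (MW_le g.ww).2 0
  rwa [g.ekap, div_one] at this

/-- **the cocycle in normalised coordinates** -/
theorem QWin.coc : ∀ᶠ n in (U : Filter ℕ), W.Good n ∧ ∀ a ∈ W.Cl n, ∀ b ∈ W.Cl n,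
    ∀ c ∈ W.Cl n, Loc (κ n) (Kq W) (67 * (Kq W) ^ 7 * W.B'.d n ^ x) (hW W n a b) (hW W n b c)
      (hW W n a c) (fW W Dr n a b) (fW W Dr n b c) (fW W Dr n a c) := by
  filter_upwards [g.cfl_all, g.ww.ok.ev_good] with n hd gd
  refine ⟨gd, fun a ha b hb c hc => ?_⟩
  have hK := g.Kq1
  have hMK := g.MW_Kq
  have hρ : 0 < W.B'.d n ^ x := Real.rpow_pos_of_pos (W.B'.pos n) _
  have bd : ∀ {a b : ι n}, a ∈ W.Cl n → b ∈ W.Cl n → ∀ s, |W.crd n a b s| ≤ Kq W :=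
    fun ha hb s => (crd_MW g.ww gd ha hb s).trans hMK
  have n1 : (1 : Fin 18) ∉ Dr := g.nfr 1
  have n2 : (2 : Fin 18) ∉ Dr := g.nfr 2
  have n3 : (3 : Fin 18) ∉ Dr := g.nfr 3
  have n0 : (0 : Fin 18) ∉ Dr := g.nfr 0
  refine ⟨g.ww.hκ n, hK, by positivity, fun i => bd ha hb _, fun i => bd hb hc _,
    fun i => bd ha hc _, fun q => (fW_le n a b q).trans (bd ha hb _),
    fun q => (fW_le n a c q).trans (bd ha hc _), g.fz a b, ?_, ?_⟩
  · funext i
    fin_cases i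
    · change W.crd n a c 0 = mul (κ n) (hW W n a b) (hW W n b c) 0
      rw [mul0, comp0 g.ww gd ha hb hc]; rfl
    · change W.crd n a c 1 = mul (κ n) (hW W n a b) (hW W n b c) 1
      rw [mul1, comp1 g.ww gd ha hb hc]; rfl
    · change W.crd n a c 2 = mul (κ n) (hW W n a b) (hW W n b c) 2
      rw [mul2, comp2 g.ww gd ha hb hc, g.cfl_one n2 (by decide) (by
        intro s hs
        simp only [List.mem_cons, List.not_mem_nil, or_false] at hs
        rcases hs with rfl | rfl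
        · exact n1
        · exact n0), one_mul]; rfl
    · change W.crd n a c 3 = mul (κ n) (hW W n a b) (hW W n b c) 3
      rw [mul3, comp3 g.ww gd ha hb hc, g.cfl_one n3 (l := [1, 2]) (by decide) (by
        intro s hs
        simp only [List.mem_cons, List.not_mem_nil, or_false] at hs
        rcases hs with rfl | rfl
        · exact n1
        · exact n2), g.cfl_one n3 (l := [1, 1, 0]) (by decide) (by
        intro s hs
        simp only [List.mem_cons, List.not_mem_nil, or_false] at hs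
        rcases hs with rfl | rfl | rfl
        · exact n1
        · exact n1
        · exact n0)]
      change _ = W.crd n a b 3 + W.crd n b c 3 - 2 * κ n * W.crd n a b 1 * W.crd n b c 2 -
        κ n * W.crd n a b 1 ^ 2 * W.crd n b c 0
      ring
  · intro q hq
    have zw := g.fz a b
    by_cases hqD : Fin.natAdd 4 q ∈ Dr
    · have hz : tr (κ n) (hW W n b c) (fW W Dr n a b) q = 0 := by
        have c0 : ∀ q : Fin 14, (Fin.natAdd 4 q : Fin 18) ∈ ({4, 5, 6, 7, 8, 9} : Finset (Fin 18)) →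
            q = 0 ∨ q = 1 ∨ q = 2 ∨ q = 4 ∨ q = 3 ∨ q = 5 := by decide
        have hsub : ∀ s ∈ Dr, s ∈ ({4, 5, 6, 7, 8, 9} : Finset (Fin 18)) := by
          have s1 : ∀ s : Fin 18, s ∈ ({4, 5, 6, 8} : Finset (Fin 18)) →
            s ∈ ({4, 5, 6, 7, 8, 9} : Finset (Fin 18)) := by decide
          have s2 : ∀ s : Fin 18, s ∈ ({4, 5, 6, 7, 8} : Finset (Fin 18)) →
            s ∈ ({4, 5, 6, 7, 8, 9} : Finset (Fin 18)) := by decide
          intro s hs
          rcases g.dr with h | h | h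
          · rw [h] at hs; exact s1 s hs
          · rw [h] at hs; exact s2 s hs
          · rw [h] at hs; exact hs
        rcases c0 q (hsub _ hqD) with rfl | rfl | rfl | rfl | rfl | rfl
        · exact zw.t0
        · exact zw.t1
        · exact zw.t2
        · exact zw.t4
        · rw [zw.t3, fW_dr hqD]
        · have h7 : (Fin.natAdd 4 (3 : Fin 14) : Fin 18) ∈ Dr := g.h97 hqD
          rw [zw.t5, fW_dr hqD, fW_dr h7]; ring
      rw [hz, fW_dr hqD, fW_dr hqD, add_zero, sub_zero, abs_zero]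
      positivity
    · rw [fW_of hq hqD, fW_of hq hqD, tr_tms, fW_of hq hqD, comp_flag g.ww gd ha hb hc q]
      have e : W.crd n a b (Fin.natAdd 4 q) + W.crd n b c (Fin.natAdd 4 q) +
          ((tms q).map (tmN W κ lam n q (W.crd n a b) (W.crd n b c))).sum -
          (W.crd n b c (Fin.natAdd 4 q) + (W.crd n a b (Fin.natAdd 4 q) +
            ((tms q).map (Tm.ev (κ n) (hW W n b c) (fW W Dr n a b))).sum)) =
          ((tms q).map (tmN W κ lam n q (W.crd n a b) (W.crd n b c))).sum -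
            ((tms q).map (Tm.ev (κ n) (hW W n b c) (fW W Dr n a b))).sum := by ring
      rw [e]
      refine (sum_diff _ _ (fun t => t.n) (D := (Kq W) ^ 7 * W.B'.d n ^ x) _ ?_).trans ?_
      · intro t ht
        by_cases hs : Fin.natAdd 4 t.s ∈ Dr
        · have e0 : Tm.ev (κ n) (hW W n b c) (fW W Dr n a b) t = 0 := by
            unfold Tm.ev; rw [fW_dr hs, mul_zero]
          rw [e0, sub_zero]
          have hP : |(t.idx.map (mix (W.crd n a b) (W.crd n b c))).prod| ≤ (Kq W) ^ 7 := by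
            refine (prod_le_pow hK (fun s => ?_) _).trans (pow_le_pow_right₀ hK (idx_len q t ht))
            refine Fin.addCases (m := 4) (n := 14) (fun i => ?_) (fun q' => ?_) s
            · rw [mix_left]; exact bd hb hc _
            · rw [mix_right]; exact bd ha hb _
          have := tmN_le g.ww.hκ (g.ww.cfl_pos n t.idx (Fin.natAdd 4 q)).le (hd q t ht hs) hP
          refine this.trans (le_of_eq ?_)
          ring
        · have h13 : t.s ≠ 13 := by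
            have hs : ∀ q : Fin 14, q ≠ 13 → ∀ t ∈ tms q, t.s ≠ 13 := by decide
            exact hs q hq t ht
          have hc1 : cfl W lam n t.idx (Fin.natAdd 4 q) = 1 := by
            refine g.cfl_one hqD (by rw [mlW_right]; exact List.mem_map_of_mem ht) ?_ n
            intro s hs'
            simp only [Tm.idx, List.mem_append, List.mem_map, List.mem_singleton] at hs'
            rcases hs' with ⟨i, -, rfl⟩ | rfl
            · exact g.nfr i
            · exact hs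
          have e1 : tmN W κ lam n q (W.crd n a b) (W.crd n b c) t =
              Tm.ev (κ n) (hW W n b c) (fW W Dr n a b) t := by
            unfold tmN Tm.ev
            rw [hc1, fW_of h13 hs]
            have : (t.hl.map (hW W n b c)) = t.hl.map fun i => W.crd n b c (Fin.castAdd 14 i) := rfl
            rw [this]
            ring
          rw [e1, sub_self, abs_zero]
          positivity
      · have g2 : ((((tms q).map fun t => t.n.natAbs).sum : ℕ) : ℝ) ≤ 67 := by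
          exact_mod_cast tms_sum q
        have : 0 ≤ (Kq W) ^ 7 * W.B'.d n ^ x := by positivity
        nlinarith

end coc

end Crest.Agent.R136.Qd329
end

-- ▼ part R136/Qd16_329
section

/-!
# R136: the bilinear rigidity (helper329), part 16: the rows of the window
-/

set_option autoImplicit false
set_option linter.unusedSectionVars false
set_option linter.unusedVariables false

open Filter Topology

namespace Crest.Agent.R136.Qd329

open Finset Crest.Agent.R136.NetW191 Crest.Agent.R136.Net191 Crest.Agent.R136.Qg926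
open Crest.Agent.R136.EvW938 Crest.Agent.R136.RowW619 Crest.Agent.R136.Gf356
open Crest.Agent.R138.Ex926 (Base U)

variable {ι : ℕ → Type*} [∀ n, DecidableEq (ι n)] {W : Wnd 18 ι} {κ : ℕ → ℝ}
  {lam : ℕ → Fin 18 → ℝ} {f : ∀ n, ι n → FW} {Dr : Finset (Fin 18)} {x m : ℝ}
  {E' : ∀ n, Finset (ι n)}

/-! ### the coordinates of the configuration -/

/-- frame coordinate `i` -/
noncomputable def cH (W : Wnd 18 ι) (i : Fin 4) (n k l : ℕ) : ℝ :=
  hW W n (W.s₀ n) (W.rep n l k) i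

/-- flag coordinate `q` -/
noncomputable def cF (W : Wnd 18 ι) (Dr : Finset (Fin 18)) (q : Fin 14) (n k l : ℕ) : ℝ :=
  fW W Dr n (W.s₀ n) (W.rep n l k) q

/-- the coordinate `s` -/
noncomputable def cS (W : Wnd 18 ι) (κ : ℕ → ℝ) (Dr : Finset (Fin 18)) (n k l : ℕ) : ℝ :=
  cF W Dr 11 n k l + 2 * κ n * cH W 1 n k l * cF W Dr 10 n k l

/-- the coordinate `Z` -/
noncomputable def cZ (W : Wnd 18 ι) (κ : ℕ → ℝ) (Dr : Finset (Fin 18)) (n k l : ℕ) : ℝ :=
  cF W Dr 8 n k l + 2 * κ n * cH W 1 n k l * cF W Dr 7 n k l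

/-- the error constant -/
noncomputable def Cq (W : Wnd 18 ι) : ℝ := 6000 * (Kq W) ^ 12 * (67 * (Kq W) ^ 7)

/-- one row -/
structure RowAt (W : Wnd 18 ι) (κ : ℕ → ℝ) (Dr : Finset (Fin 18)) (G : RCfg (Fin 18)) (n : ℕ)
    (x : ℝ) (k l l' : ℕ) : Prop where
  loc : Loc (κ n) (Kq W) (67 * (Kq W) ^ 7 * W.B'.d n ^ x) (hW W n (W.s₀ n) (W.rep n l k))
    (hW W n (W.rep n l k) (W.rep n l' k)) (hW W n (W.s₀ n) (W.rep n l' k))
    (fW W Dr n (W.s₀ n) (W.rep n l k)) (fW W Dr n (W.rep n l k) (W.rep n l' k))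
    (fW W Dr n (W.s₀ n) (W.rep n l' k))
  z0 : |hW W n (W.rep n l k) (W.rep n l' k) 0| ≤ 67 * (Kq W) ^ 7 * W.B'.d n ^ x
  bd : ∀ s, |W.crd n (W.rep n l k) (W.rep n l' k) s| ≤ Kq W
  r0 : G.rel k l l' 0 = 0
  rs : ∀ s, s ≠ 0 → G.rel k l l' s = W.crd n (W.rep n l k) (W.rep n l' k) s

section rows

variable (g : QWin W κ lam f Dr x)

include g

theorem QWin.MW_le67 {n : ℕ} (y : ℝ) : MW W * W.B'.d n ^ y ≤ 67 * (Kq W) ^ 7 * W.B'.d n ^ y := by
  have hK := g.Kq1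
  have h1 : MW W ≤ 67 * (Kq W) ^ 7 := by
    have : Kq W ≤ (Kq W) ^ 7 := by
      calc Kq W = (Kq W) ^ 1 := (pow_one _).symm
        _ ≤ _ := pow_le_pow_right₀ hK (by norm_num)
    have := g.MW_Kq
    linarith
  exact mul_le_mul_of_nonneg_right h1 (Real.rpow_pos_of_pos (W.B'.pos n) _).le

theorem QWin.rows (hE : ∀ᶠ n in (U : Filter ℕ), E' n ⊆ W.Cl n ∧ W.cfg E' n = W.cfg0 n (E' n)) :
    ∀ᶠ n in (U : Filter ℕ), ∀ k l l', (l, k) ∈ (W.cfg E' n).I → (l', k) ∈ (W.cfg E' n).I →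
      RowAt W κ Dr (W.cfg E' n) n x k l l' := by
  filter_upwards [hE, g.coc] with n ⟨h1, h2⟩ ⟨gd, hL⟩ k l l' hl hl'
  rw [h2] at hl hl' ⊢
  obtain ⟨a1, a2, a3⟩ := Wnd.rep_of_mem h1 hl
  obtain ⟨b1, b2, b3⟩ := Wnd.rep_of_mem h1 hl'
  have h0S : (0 : Fin 18) ∈ W.S := g.ww.h0
  refine ⟨hL _ gd.s0 _ a1 _ b1, ?_, fun s => (crd_MW g.ww gd a1 b1 s).trans g.MW_Kq, if_pos h0S,
    fun s hs => g.ww.rel_eq l l' k (by rw [g.eS, mem_singleton]; exact hs)⟩
  have h3 := lev_MW g.ww gd a1 b1 (a3.trans b3.symm) h0S (t := x) (by rw [g.etop])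
  exact h3.trans (g.MW_le67 x)

/-- larger error -/
theorem QWin.eta {n : ℕ} {ε : ℝ} (hε : 0 < ε) :
    67 * (Kq W) ^ 7 * W.B'.d n ^ x ≤ 67 * (Kq W) ^ 7 * W.B'.d n ^ (x - ε) := by
  have hK := g.Kq1
  refine mul_le_mul_of_nonneg_left ?_ (by positivity)
  exact Real.rpow_le_rpow_of_exponent_ge (W.B'.pos n) (W.B'.lt n).le (by linarith)

theorem QWin.eta' {n : ℕ} {ε X : ℝ} (h : X ≤ W.B'.d n ^ (x - ε)) :
    X ≤ 67 * (Kq W) ^ 7 * W.B'.d n ^ (x - ε) := by
  have hK := g.Kq1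
  refine h.trans (le_mul_of_one_le_left (Real.rpow_pos_of_pos (W.B'.pos n) _).le ?_)
  have : 1 ≤ (Kq W) ^ 7 := one_le_pow₀ hK
  linarith

/-- the final constant -/
theorem QWin.fin {n : ℕ} {ε X c : ℝ} {j : ℕ} (hc : c ≤ 6000) (hc0 : 0 ≤ c) (hj : j ≤ 12)
    (h1 : Cq W ≤ W.B'.d n ^ (-ε)) {y : ℝ}
    (h : X ≤ c * (Kq W) ^ j * (67 * (Kq W) ^ 7 * W.B'.d n ^ y)) : X ≤ W.B'.d n ^ (y - ε) := by
  have hK := g.Kq1
  have hρ := Real.rpow_pos_of_pos (W.B'.pos n) y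
  have e1 : c * (Kq W) ^ j ≤ 6000 * (Kq W) ^ 12 :=
    mul_le_mul hc (pow_le_pow_right₀ hK hj) (by positivity) (by norm_num)
  have e2 : c * (Kq W) ^ j * (67 * (Kq W) ^ 7 * W.B'.d n ^ y) ≤
      6000 * (Kq W) ^ 12 * (67 * (Kq W) ^ 7 * W.B'.d n ^ y) :=
    mul_le_mul_of_nonneg_right e1 (by positivity)
  have e3 : 6000 * (Kq W) ^ 12 * (67 * (Kq W) ^ 7 * W.B'.d n ^ y) = Cq W * W.B'.d n ^ y := by
    unfold Cq; ring
  rw [e3] at e2
  refine (h.trans e2).trans ((mul_le_mul_of_nonneg_right h1 hρ.le).trans (le_of_eq ?_))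
  rw [← Real.rpow_add (W.B'.pos n)]
  congr 1; ring

/-- from `loose` to coordinates -/
theorem RowAt.crd {n k l l' : ℕ} {ε : ℝ} {p : Fin 18 → ℝ}
    (r : RowAt W κ Dr (W.cfg E' n) n x k l l') (h : (W.cfg E' n).loose p ε k l l') (s : Fin 18)
    (hs : s ≠ 0) : |W.crd n (W.rep n l k) (W.rep n l' k) s| ≤ W.B'.d n ^ (p s - ε) := by
  have := h s
  rwa [r.rs s hs, Wnd.cfg_ρ] at this

/-- from coordinates to `loose` -/
theorem RowAt.loose {n k l l' : ℕ} {ε : ℝ} {p : Fin 18 → ℝ}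
    (r : RowAt W κ Dr (W.cfg E' n) n x k l l')
    (h : ∀ s, s ≠ 0 → |W.crd n (W.rep n l k) (W.rep n l' k) s| ≤ W.B'.d n ^ (p s - ε)) :
    (W.cfg E' n).loose p ε k l l' := by
  intro s
  rw [Wnd.cfg_ρ]
  by_cases hs : s = 0
  · rw [hs, r.r0, abs_zero]; exact (Real.rpow_pos_of_pos (W.B'.pos n) _).le
  · rw [r.rs s hs]; exact h s hs

omit g in
theorem qb_mem {S : Finset (Fin 18)} {y : ℝ} {s : Fin 18} (h : s ∈ S) : qb S y s = y := if_pos h
omit g in
theorem qb_not {S : Finset (Fin 18)} {y : ℝ} {s : Fin 18} (h : s ∉ S) : qb S y s = 0 := if_neg h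

variable (hE : ∀ᶠ n in (U : Filter ℕ), E' n ⊆ W.Cl n ∧ W.cfg E' n = W.cfg0 n (E' n))

include hE

theorem QWin.bds : ∀ᶠ n in (U : Filter ℕ), ∀ k l, (l, k) ∈ (W.cfg E' n).I →
    (∀ i, |cH W i n k l| ≤ Kq W) ∧ (∀ q, |cF W Dr q n k l| ≤ Kq W) ∧
    |cS W κ Dr n k l| ≤ 3 * (Kq W) ^ 2 ∧ |cZ W κ Dr n k l| ≤ 3 * (Kq W) ^ 2 := by
  filter_upwards [g.rows hE] with n hr k l hl
  have L := (hr k l l hl hl).loc
  have hK := g.Kq1
  have key : ∀ a b c : ℝ, |a| ≤ Kq W → |b| ≤ Kq W → |c| ≤ Kq W →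
      |a + 2 * κ n * b * c| ≤ 3 * (Kq W) ^ 2 := by
    intro a b c ha hb hc
    have e : a + 2 * κ n * b * c = a + 2 * (κ n * (b * c)) := by ring
    rw [e]
    have h1 := kb L.hκ (mb hb hc)
    have h2 := abs_add_le a (2 * (κ n * (b * c)))
    rw [abs_mul 2, abs_two] at h2
    nlinarith
  exact ⟨L.bh, L.bw, key _ _ _ (L.bw 11) (L.bh 1) (L.bw 10), key _ _ _ (L.bw 8) (L.bh 1) (L.bw 7)⟩

set_option maxHeartbeats 1000000 in
/-- **the rows at one height** -/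
theorem QWin.qrow : QRow W.B' (W.cfg E') x (3 * (Kq W) ^ 2) 2 (0 : Fin 18 → ℝ) (qb {2, 3} x)
    (qb {2, 3, 14, 15} x) (qb {1, 11, 12} x) (qb {2, 3, 14, 15, 16} x) (qb {1, 11, 12, 16} x)
    (fun y => qb {1} y) (cH W 2) (cH W 3) (cH W 1) (cS W κ Dr) (cF W Dr 10) (cF W Dr 7)
    (cZ W κ Dr) (cF W Dr 12) κ where
  x0 := g.x0
  M1 := by
    have := one_le_pow₀ (n := 2) g.Kq1
    linarith
  C1 := by norm_num
  kp1 := g.ww.hκ
  kpl := g.hk
  bd := by
    filter_upwards [g.bds hE] with n h k l hl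
    obtain ⟨h1, h2, h3, h4⟩ := h k l hl
    have hK := g.Kq1
    have hKM : Kq W ≤ 3 * (Kq W) ^ 2 := by nlinarith
    exact ⟨(h1 2).trans hKM, (h1 3).trans hKM, (h1 1).trans hKM, h3, (h2 10).trans hKM,
      (h2 7).trans hKM, h4⟩
  pcl := by
    intro ε hε
    filter_upwards [g.rows hE, ev_const_le W.B' hε (Cq W)] with n hr hC k l l' hl hl' hlo
    have r := hr k l l' hl hl'
    have L := r.loc.mono (g.eta (n := n) hε)
    have c := r.crd g hlo
    have z0 := r.z0.trans (g.eta hε)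
    have c2 := g.eta' (by simpa [qb] using c 2 (by decide))
    have c3 := g.eta' (by simpa [qb] using c 3 (by decide))
    have c14 : |fW W Dr n (W.rep n l k) (W.rep n l' k) 10| ≤ 67 * (Kq W) ^ 7 * W.B'.d n ^ (x - ε) :=
      (fW_le _ _ _ _).trans (g.eta' (by simpa [qb] using c 14 (by decide)))
    have c15 : |fW W Dr n (W.rep n l k) (W.rep n l' k) 11| ≤ 67 * (Kq W) ^ 7 * W.B'.d n ^ (x - ε) :=
      (fW_le _ _ _ _).trans (g.eta' (by simpa [qb] using c 15 (by decide)))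
    obtain ⟨p1, p2, -⟩ := L.pbox z0 c2 c3
    have q1 := L.pos2 z0 c2
    have q2 := L.pos3 z0 c2 c3
    have q3 := p1 c14
    have q4 := L.ps q3 (p2 c15)
    have e0 : x - 2 * ε = (x - ε) - ε := by ring
    rw [e0]
    refine ⟨?_, ?_, ?_, ?_⟩
    · rw [abs_sub_comm]
      exact g.fin (c := 2) (j := 2) (by norm_num) (by norm_num) (by norm_num) hC q1
    · rw [abs_sub_comm]
      exact g.fin (c := 4) (j := 2) (by norm_num) (by norm_num) (by norm_num) hC q2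
    · rw [abs_sub_comm]
      refine g.fin (c := 1416) (j := 9) (by norm_num) (by norm_num) (by norm_num) hC
        (q4.trans (le_of_eq ?_))
      ring
    · rw [abs_sub_comm]
      exact g.fin (c := 472) (j := 8) (by norm_num) (by norm_num) (by norm_num) hC q3
  vcl := by
    intro ε hε
    filter_upwards [g.rows hE, ev_const_le W.B' hε (Cq W)] with n hr hC k l l' hl hl' hlo
    have r := hr k l l' hl hl'
    have hK := g.Kq1
    have L := r.loc.mono (g.eta (n := n) hε)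
    have c := r.crd g hlo
    have z0 := r.z0.trans (g.eta hε)
    have c1 := g.eta' (by simpa [qb] using c 1 (by decide))
    have c11 : |fW W Dr n (W.rep n l k) (W.rep n l' k) 7| ≤ 67 * (Kq W) ^ 7 * W.B'.d n ^ (x - ε) :=
      (fW_le _ _ _ _).trans (g.eta' (by simpa [qb] using c 11 (by decide)))
    have c12 : |fW W Dr n (W.rep n l k) (W.rep n l' k) 8| ≤ 67 * (Kq W) ^ 7 * W.B'.d n ^ (x - ε) :=
      (fW_le _ _ _ _).trans (g.eta' (by simpa [qb] using c 12 (by decide)))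
    obtain ⟨p1, p2, -⟩ := L.vbox z0 c1
    have q7 := p1 c11
    have q8 := p2 c12
    have hA : 67 * (Kq W) ^ 7 * W.B'.d n ^ (x - ε) ≤
        472 * (Kq W) ^ 8 * (67 * (Kq W) ^ 7 * W.B'.d n ^ (x - ε)) := by
      refine le_mul_of_one_le_left L.η0 ?_
      have : 1 ≤ (Kq W) ^ 8 := one_le_pow₀ hK
      linarith
    have q9 := L.vZ hA c1 q7 q8
    have e0 : x - 2 * ε = (x - ε) - ε := by ring
    rw [e0]
    refine ⟨?_, ?_, ?_⟩
    · rw [abs_sub_comm]
      refine g.fin (c := 1) (j := 0) (by norm_num) (by norm_num) (by norm_num) hC ?_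
      rw [pow_zero, one_mul, one_mul]
      have e : cH W 1 n k l' - cH W 1 n k l = hW W n (W.rep n l k) (W.rep n l' k) 1 := by
        have := L.g1
        unfold cH
        linarith
      rw [e]; exact c1
    · rw [abs_sub_comm]
      exact g.fin (c := 472) (j := 8) (by norm_num) (by norm_num) (by norm_num) hC q7
    · rw [abs_sub_comm]
      refine g.fin (c := 2360) (j := 9) (by norm_num) (by norm_num) (by norm_num) hC
        (q9.trans (le_of_eq ?_))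
      ring
  pPr := by
    intro ε hε
    filter_upwards [g.rows hE, ev_const_le W.B' hε (Cq W)] with n hr hC k l l' hl hl' hlo
    have r := hr k l l' hl hl'
    have L := r.loc.mono (g.eta (n := n) hε)
    have c := r.crd g hlo
    have z0 := r.z0.trans (g.eta hε)
    have c2 := g.eta' (by simpa [qb] using c 2 (by decide))
    have c3 := g.eta' (by simpa [qb] using c 3 (by decide))
    have c14 : |fW W Dr n (W.rep n l k) (W.rep n l' k) 10| ≤ 67 * (Kq W) ^ 7 * W.B'.d n ^ (x - ε) :=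
      (fW_le _ _ _ _).trans (g.eta' (by simpa [qb] using c 14 (by decide)))
    have c15 : |fW W Dr n (W.rep n l k) (W.rep n l' k) 11| ≤ 67 * (Kq W) ^ 7 * W.B'.d n ^ (x - ε) :=
      (fW_le _ _ _ _).trans (g.eta' (by simpa [qb] using c 15 (by decide)))
    have c16 : |fW W Dr n (W.rep n l k) (W.rep n l' k) 12| ≤ 67 * (Kq W) ^ 7 * W.B'.d n ^ (x - ε) :=
      (fW_le _ _ _ _).trans (g.eta' (by simpa [qb] using c 16 (by decide)))
    obtain ⟨p1, p2, p3⟩ := L.pbox z0 c2 c3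
    have q := L.pP (p1 c14) (p2 c15) (p3 c16)
    have e0 : x - 2 * ε = (x - ε) - ε := by ring
    rw [e0, abs_sub_comm]
    refine g.fin (c := 2360) (j := 10) (by norm_num) (by norm_num) (by norm_num) hC
      (q.trans (le_of_eq ?_))
    ring
  vPr := by
    intro ε hε
    filter_upwards [g.rows hE, ev_const_le W.B' hε (Cq W)] with n hr hC k l l' hl hl' hlo
    have r := hr k l l' hl hl'
    have hK := g.Kq1
    have L := r.loc.mono (g.eta (n := n) hε)
    have c := r.crd g hlo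
    have z0 := r.z0.trans (g.eta hε)
    have c1 := g.eta' (by simpa [qb] using c 1 (by decide))
    have c11 : |fW W Dr n (W.rep n l k) (W.rep n l' k) 7| ≤ 67 * (Kq W) ^ 7 * W.B'.d n ^ (x - ε) :=
      (fW_le _ _ _ _).trans (g.eta' (by simpa [qb] using c 11 (by decide)))
    have c12 : |fW W Dr n (W.rep n l k) (W.rep n l' k) 8| ≤ 67 * (Kq W) ^ 7 * W.B'.d n ^ (x - ε) :=
      (fW_le _ _ _ _).trans (g.eta' (by simpa [qb] using c 12 (by decide)))
    have c16 : |fW W Dr n (W.rep n l k) (W.rep n l' k) 12| ≤ 67 * (Kq W) ^ 7 * W.B'.d n ^ (x - ε) :=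
      (fW_le _ _ _ _).trans (g.eta' (by simpa [qb] using c 16 (by decide)))
    obtain ⟨p1, p2, p3⟩ := L.vbox z0 c1
    have hA : 67 * (Kq W) ^ 7 * W.B'.d n ^ (x - ε) ≤
        472 * (Kq W) ^ 8 * (67 * (Kq W) ^ 7 * W.B'.d n ^ (x - ε)) := by
      refine le_mul_of_one_le_left L.η0 ?_
      have : 1 ≤ (Kq W) ^ 8 := one_le_pow₀ hK
      linarith
    have q := L.vP hA z0 c1 (p1 c11) (p2 c12) (p3 c16)
    have e0 : x - 2 * ε = (x - ε) - ε := by ring
    rw [e0, abs_sub_comm]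
    refine g.fin (c := 5664) (j := 11) (by norm_num) (by norm_num) (by norm_num) hC
      (q.trans (le_of_eq ?_))
    ring
  all := by
    intro ε hε
    filter_upwards [g.rows hE, ev_const_le W.B' hε (Kq W)] with n hr hC k l l' hl hl'
    have r := hr k l l' hl hl'
    refine r.loose g fun s hs => ?_
    rw [Pi.zero_apply, zero_sub]
    exact (r.bd s).trans hC
  acl := by
    intro ε hε
    filter_upwards [g.rows hE, ev_const_le W.B' hε (Kq W), ev_const_le W.B' hε (Cq W)] with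
      n hr hC hC' k l l' hl hl' ha hb
    have r := hr k l l' hl hl'
    have hK := g.Kq1
    have K0 : 0 ≤ Kq W := by linarith
    have L := r.loc
    have hle : W.B'.d n ^ x ≤ 67 * (Kq W) ^ 7 * W.B'.d n ^ x := by
      refine le_mul_of_one_le_left (Real.rpow_pos_of_pos (W.B'.pos n) _).le ?_
      have : 1 ≤ (Kq W) ^ 7 := one_le_pow₀ hK
      linarith
    have i2 := L.inv2 r.z0 (ha.trans hle)
    set η := 67 * (Kq W) ^ 7 * W.B'.d n ^ x with hη
    have η0 : 0 ≤ η := L.η0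
    have i3 := L.inv3 (y := η) (τ := 2 * Kq W * η) (r.z0.trans (by nlinarith)) i2 (hb.trans hle)
    refine r.loose g fun s hs => ?_
    by_cases h2 : s = 2
    · subst h2
      rw [qb_mem (by decide)]
      refine g.fin (c := 2) (j := 1) (by norm_num) (by norm_num) (by norm_num) hC' ?_
      rw [pow_one]; exact i2
    by_cases h3 : s = 3
    · subst h3
      rw [qb_mem (by decide)]
      refine g.fin (c := 7) (j := 3) (by norm_num) (by norm_num) (by norm_num) hC'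
        (i3.trans ?_)
      have : η ≤ (Kq W) ^ 3 * η := le_mul_of_one_le_left η0 (one_le_pow₀ hK)
      have e : 3 * (Kq W) ^ 2 * (2 * Kq W * η) = 6 * ((Kq W) ^ 3 * η) := by ring
      rw [e]
      have e2 : 7 * (Kq W) ^ 3 * η = 7 * ((Kq W) ^ 3 * η) := by ring
      rw [e2]
      linarith
    rw [qb_not (by simp [h2, h3]), zero_sub]
    exact (r.bd s).trans hC
  ccl := by
    intro y hy hyx ε hε
    filter_upwards [g.rows hE, ev_const_le W.B' hε (Kq W)] with n hr hC k l l' hl hl' hc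
    have r := hr k l l' hl hl'
    refine r.loose g fun s hs => ?_
    by_cases h1 : s = 1
    · subst h1
      rw [qb_mem (by decide)]
      have e : W.crd n (W.rep n l k) (W.rep n l' k) 1 = cH W 1 n k l' - cH W 1 n k l := by
        have := r.loc.g1
        have e2 : hW W n (W.rep n l k) (W.rep n l' k) 1 =
          W.crd n (W.rep n l k) (W.rep n l' k) 1 := rfl
        unfold cH
        linarith
      rw [e]
      exact hc.trans (Real.rpow_le_rpow_of_exponent_ge (W.B'.pos n) (W.B'.lt n).le (by linarith))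
    · rw [qb_not (by simp [h1]), zero_sub]
      exact (r.bd s).trans hC

/-- **the rows of the spread box** -/
theorem QWin.srow (h7 : (7 : Fin 18) ∈ Dr) : SRow W.B' (W.cfg E') x 2 (qb (Sq Dr) x)
    (fun y => Function.update (qb (Sq Dr) x) 3 y) (cH W 2) (cH W 3) (cS W κ Dr) (cF W Dr 10)
    ((9 : Fin 18) ∈ Dr) := by
  have m2 : (2 : Fin 18) ∈ Sq Dr := by unfold Sq; split_ifs <;> decide
  have m14 : (14 : Fin 18) ∈ Sq Dr := by unfold Sq; split_ifs <;> decide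
  have m15 : (9 : Fin 18) ∈ Dr → (15 : Fin 18) ∈ Sq Dr := fun h => by
    unfold Sq; rw [if_pos h]; decide
  refine ⟨?_, ?_⟩
  · intro ε hε
    filter_upwards [g.rows hE, ev_const_le W.B' hε (Cq W)] with n hr hC k l l' hl hl' hlo
    have r := hr k l l' hl hl'
    have L := r.loc.mono (g.eta (n := n) hε)
    have c := r.crd g hlo
    have z0 := r.z0.trans (g.eta hε)
    have c2 := c 2 (by decide)
    rw [qb_mem m2] at c2
    have c2' := g.eta' c2
    have c14 := c 14 (by decide)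
    rw [qb_mem m14] at c14
    have c14' : |fW W Dr n (W.rep n l k) (W.rep n l' k) 10| ≤ 67 * (Kq W) ^ 7 * W.B'.d n ^ (x - ε) :=
      (fW_le _ _ _ _).trans (g.eta' c14)
    have w3 : fW W Dr n (W.s₀ n) (W.rep n l k) 3 = 0 := fW_dr h7
    obtain ⟨p1, p2⟩ := L.sbox z0 c2' w3
    have q1 := L.pos2 z0 c2'
    have q3 := p1 c14'
    have e0 : x - 2 * ε = (x - ε) - ε := by ring
    rw [e0]
    refine ⟨?_, ?_, fun h9 => ?_⟩
    · rw [abs_sub_comm]
      exact g.fin (c := 2) (j := 2) (by norm_num) (by norm_num) (by norm_num) hC q1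
    · rw [abs_sub_comm]
      exact g.fin (c := 472) (j := 8) (by norm_num) (by norm_num) (by norm_num) hC q3
    · have c15 := c 15 (by decide)
      rw [qb_mem (m15 h9)] at c15
      have c15' : |fW W Dr n (W.rep n l k) (W.rep n l' k) 11| ≤
          67 * (Kq W) ^ 7 * W.B'.d n ^ (x - ε) := (fW_le _ _ _ _).trans (g.eta' c15)
      have w5 : fW W Dr n (W.s₀ n) (W.rep n l k) 5 = 0 := fW_dr h9
      have q4 := L.ps q3 (p2 w5 c15')
      rw [abs_sub_comm]
      refine g.fin (c := 1416) (j := 9) (by norm_num) (by norm_num) (by norm_num) hC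
        (q4.trans (le_of_eq ?_))
      ring
  · intro y hy hyx ε hε
    filter_upwards [g.rows hE, ev_const_le W.B' hε (Kq W), ev_const_le W.B' hε (Cq W)] with
      n hr hC hC' k l l' hl hl' hlo hb
    have r := hr k l l' hl hl'
    have hK := g.Kq1
    have L := r.loc
    have c := r.crd g hlo
    have c2 := c 2 (by decide)
    rw [qb_mem m2] at c2
    have z0 := r.z0.trans (g.eta hε)
    have i3 := L.inv3 z0 (g.eta' c2) hb
    have e0 : ∀ t : ℝ, t - 2 * ε = (t - ε) - ε := fun t => by ring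
    have hρ : ∀ t : ℝ, 0 < W.B'.d n ^ t := fun t => Real.rpow_pos_of_pos (W.B'.pos n) _
    refine r.loose g fun s hs => ?_
    by_cases h3 : s = 3
    · subst h3
      rw [Function.update_self, e0]
      refine g.fin (c := 4) (j := 2) (by norm_num) (by norm_num) (by norm_num) hC' ?_
      refine i3.trans ?_
      have f1 : W.B'.d n ^ y ≤ 67 * (Kq W) ^ 7 * W.B'.d n ^ (y - ε) := by
        have f2 : W.B'.d n ^ y ≤ W.B'.d n ^ (y - ε) :=
          Real.rpow_le_rpow_of_exponent_ge (W.B'.pos n) (W.B'.lt n).le (by linarith)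
        refine f2.trans (le_mul_of_one_le_left (hρ _).le ?_)
        have : 1 ≤ (Kq W) ^ 7 := one_le_pow₀ hK
        linarith
      have f3 : 67 * (Kq W) ^ 7 * W.B'.d n ^ (x - ε) ≤ 67 * (Kq W) ^ 7 * W.B'.d n ^ (y - ε) :=
        mul_le_mul_of_nonneg_left (Real.rpow_le_rpow_of_exponent_ge (W.B'.pos n) (W.B'.lt n).le
          (by linarith)) (by positivity)
      set η := 67 * (Kq W) ^ 7 * W.B'.d n ^ (y - ε) with hη
      have η0 : 0 ≤ η := by have := hρ (y - ε); positivity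
      have f4 := mul_le_mul_of_nonneg_left f3 (show 0 ≤ 3 * (Kq W) ^ 2 by positivity)
      have f5 : η ≤ (Kq W) ^ 2 * η := le_mul_of_one_le_left η0 (one_le_pow₀ hK)
      have e : 4 * (Kq W) ^ 2 * η = 4 * ((Kq W) ^ 2 * η) := by ring
      rw [e]
      linarith
    · rw [Function.update_of_ne h3]
      by_cases hsS : s ∈ Sq Dr
      · have := c s hs
        refine this.trans ?_
        exact Real.rpow_le_rpow_of_exponent_ge (W.B'.pos n) (W.B'.lt n).le (by linarith)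
      · rw [qb_not hsS, zero_sub]
        refine ((r.bd s).trans hC).trans ?_
        exact Real.rpow_le_rpow_of_exponent_ge (W.B'.pos n) (W.B'.lt n).le (by linarith)

/-- **the rows of the evolution** -/
theorem QWin.qevo : QEvo2 W.B' (W.cfg E') x (3 * (Kq W) ^ 2) (cH W 2) (cH W 3) (cH W 1)
    (cS W κ Dr) (cF W Dr 10) (cF W Dr 7) (cZ W κ Dr) (cF W Dr 12) (cF W Dr 9) κ := by
  have zb : ∀ᶠ n in (U : Filter ℕ), ∀ k ∈ (W.cfg E' n).Z, ∀ k' ∈ (W.cfg E' n).Z,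
      |(W.cfg E' n).z k' - (W.cfg E' n).z k| ≤ Kq W := by
    filter_upwards [hE, g.ww.ok.ev_good] with n ⟨h1, h2⟩ gd k hk k' hk'
    rw [h2] at hk hk' ⊢
    have hz : ∀ k ∈ (W.cfg0 n (E' n)).Z, |(W.cfg0 n (E' n)).z k| ≤ MW W := by
      intro k hk
      obtain ⟨y, hy, rfl⟩ := mem_image.1 hk
      exact crd_MW g.ww gd gd.s0 (W.zrep_spec (h1 hy)).1 _
    have := abs_sub ((W.cfg0 n (E' n)).z k') ((W.cfg0 n (E' n)).z k)
    have := hz k hk
    have := hz k' hk'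
    unfold Kq
    linarith
  have hK := g.Kq1
  have hKM : Kq W ≤ 3 * (Kq W) ^ 2 := by nlinarith
  refine ⟨?_, ?_, ?_⟩
  · filter_upwards [zb] with n h k hk k' hk'
    exact (h k hk k' hk').trans hKM
  · filter_upwards [g.bds hE] with n h k l hl
    obtain ⟨h1, h2, h3, h4⟩ := h k l hl
    exact ⟨(h2 12).trans hKM, (h2 9).trans hKM⟩
  · intro ε hε
    filter_upwards [hE, g.coc, zb, ev_const_le W.B' hε (Cq W)] with
      n ⟨h1, h2⟩ ⟨gd, hL⟩ hz hC k k' l hl hl'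
    have hkZ : ∀ {k l : ℕ}, (l, k) ∈ (W.cfg E' n).I → k ∈ (W.cfg E' n).Z := by
      intro k l hkl
      rw [h2] at hkl ⊢
      obtain ⟨y, hy, -, rfl⟩ := Wnd.mem_I.1 hkl
      exact mem_image_of_mem _ hy
    have hu := hz k (hkZ hl) k' (hkZ hl')
    rw [h2] at hl hl' hu ⊢
    obtain ⟨a1, a2, a3⟩ := Wnd.rep_of_mem h1 hl
    obtain ⟨b1, b2, b3⟩ := Wnd.rep_of_mem h1 hl'
    have L := hL _ gd.s0 _ a1 _ b1
    have hz0 := g.ww.own_zero gd h1 hl hl' (t := x) (by rw [g.etop])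
    have i0 : |hW W n (W.rep n l k) (W.rep n l k') 0 -
        ((W.cfg0 n (E' n)).z k' - (W.cfg0 n (E' n)).z k)| ≤ 67 * (Kq W) ^ 7 * W.B'.d n ^ x := by
      refine hz0.trans ?_
      rw [g.ekap, div_one]
      have k1 := g.K0_MW
      have k2 : 2 * W.K0 * W.B'.d n ^ x ≤ Kq W * W.B'.d n ^ x := by
        refine mul_le_mul_of_nonneg_right ?_ (Real.rpow_pos_of_pos (W.B'.pos n) _).le
        unfold Kq; linarith
      refine k2.trans (mul_le_mul_of_nonneg_right ?_ (Real.rpow_pos_of_pos (W.B'.pos n) _).le)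
      have : Kq W ≤ (Kq W) ^ 7 := by
        calc Kq W = (Kq W) ^ 1 := (pow_one _).symm
          _ ≤ _ := pow_le_pow_right₀ hK (by norm_num)
      have : 0 ≤ (Kq W) ^ 7 := by positivity
      linarith
    have own : ∀ s : Fin 18, s ≠ 0 → |W.crd n (W.rep n l k) (W.rep n l k') s| ≤
        67 * (Kq W) ^ 7 * W.B'.d n ^ x := fun s hs =>
      (own_MW g.ww gd a1 b1 (a2.trans b2.symm) (s := s) (t := x)
        (by rw [g.eS, mem_singleton]; exact hs) (by rw [g.etop])).trans (g.MW_le67 x)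
    have nz : ∀ q : Fin 14, (Fin.natAdd 4 q : Fin 18) ≠ 0 := by decide
    obtain ⟨e1, e2, e3, e4, e5, e6, e7, e8, e9⟩ := L.evo hu i0 (own 1 (by decide))
      (own 2 (by decide)) (own 3 (by decide)) fun q _ => (fW_le _ _ _ _).trans (own _ (nz q))
    have F : ∀ {X : ℝ}, X ≤ 5000 * (Kq W) ^ 12 * (67 * (Kq W) ^ 7 * W.B'.d n ^ x) →
        X ≤ W.B'.d n ^ (x - ε) := fun h =>
      g.fin (c := 5000) (j := 12) (by norm_num) (by norm_num) (by norm_num) hC h
    exact ⟨F e1, F e2, F e3, F e4, F e5, F e6, F e7, F e8, F e9⟩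

end rows

/-! ### the numbers -/

/-- legal boxes: decidable condition -/
def LQ (Dr Q Q' : Finset (Fin 18)) : Prop :=
  ∀ k, k ∉ Dr → ∀ l ∈ mlW k, (∀ s ∈ l, s ∉ Dr) → (k = 0 ∨ k ∈ Q') → ∃ s ∈ l, s = 0 ∨ s ∈ Q

instance (Dr Q Q' : Finset (Fin 18)) : Decidable (LQ Dr Q Q') := by unfold LQ; infer_instance

theorem QWin.legQ (g : QWin W κ lam f Dr x) {Q Q' : Finset (Fin 18)} (hd : LQ Dr Q Q')
    {p : Fin 18 → ℝ} (h0 : ∀ s, 0 ≤ p s) (h1 : ∀ s, p s ≤ x) (hQ : ∀ s ∈ Q, p s = x)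
    (hQ' : ∀ s, s ∉ Q' → p s = 0) : p ∈ W.legW := by
  refine g.leg p h0 h1 fun k hk l hl hs => ?_
  have hx := g.x0
  have v0 : ∀ s, 0 ≤ cut {0} p (fun _ => x) s := fun s => by
    by_cases hs : s ∈ ({0} : Finset (Fin 18))
    · rw [cut_of_mem hs]; exact hx.le
    · rw [cut_of_notMem hs]; exact h0 s
  have vx : ∀ s, cut {0} p (fun _ => x) s ≤ x := fun s => by
    by_cases hs : s ∈ ({0} : Finset (Fin 18))
    · rw [cut_of_mem hs]
    · rw [cut_of_notMem hs]; exact h1 s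
  have sum0 : ∀ l : List (Fin 18), 0 ≤ (l.map (cut {0} p (fun _ => x))).sum := fun l =>
    List.sum_nonneg fun y hy => by
      obtain ⟨s, -, rfl⟩ := List.mem_map.1 hy
      exact v0 s
  by_cases hk' : k = 0 ∨ k ∈ Q'
  · obtain ⟨s, hs1, hs2⟩ := hd k hk l hl hs hk'
    have e : cut {0} p (fun _ => x) s = x := by
      rcases hs2 with h | h
      · subst h; exact cut_of_mem (mem_singleton_self 0)
      · by_cases h0 : s ∈ ({0} : Finset (Fin 18))
        · exact cut_of_mem h0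
        · rw [cut_of_notMem h0]; exact hQ s h
    have h2 : cut {0} p (fun _ => x) s ≤ (l.map (cut {0} p (fun _ => x))).sum := by
      refine List.single_le_sum ?_ _ (List.mem_map_of_mem hs1)
      intro y hy
      obtain ⟨s, -, rfl⟩ := List.mem_map.1 hy
      exact v0 s
    exact (vx k).trans (e.ge.trans h2)
  · push Not at hk'
    have e : cut {0} p (fun _ => x) k = 0 := by
      rw [cut_of_notMem (by rw [mem_singleton]; exact hk'.1)]
      exact hQ' k hk'.2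
    rw [e]
    exact sum0 l

theorem QWin.leg_qb (g : QWin W κ lam f Dr x) {Q : Finset (Fin 18)} (hd : LQ Dr Q Q) :
    qb Q x ∈ W.legW :=
  g.legQ hd (fun s => by unfold qb; split_ifs; exacts [g.x0.le, le_rfl])
    (fun s => by unfold qb; split_ifs; exacts [le_rfl, g.x0.le]) (fun s hs => if_pos hs)
    (fun s hs => if_neg hs)

theorem LQ_all (hdr : Dr = {4, 5, 6, 8} ∨ Dr = {4, 5, 6, 7, 8} ∨ Dr = {4, 5, 6, 7, 8, 9})
    {Q Q' : Finset (Fin 18)} (h : LQ {4, 5, 6, 8} Q Q') : LQ Dr Q Q' := by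
  have s1 : ∀ s : Fin 18, s ∉ ({4, 5, 6, 7, 8, 9} : Finset (Fin 18)) →
    s ∉ ({4, 5, 6, 8} : Finset (Fin 18)) := by decide
  have s2 : ∀ s : Fin 18, s ∉ ({4, 5, 6, 7, 8} : Finset (Fin 18)) →
    s ∉ ({4, 5, 6, 8} : Finset (Fin 18)) := by decide
  rcases hdr with h1 | h1 | h1
  · rw [h1]; exact h
  · rw [h1]; exact fun k hk l hl hs hk' => h k (s2 k hk) l hl (fun s hs' => s2 s (hs s hs')) hk'
  · rw [h1]; exact fun k hk l hl hs hk' => h k (s1 k hk) l hl (fun s hs' => s1 s (hs s hs')) hk'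

/-- **the numbers in the window** -/
theorem QWin.qprof (g : QWin W κ lam f Dr x) (N : QNu W.nu Dr x m) :
    QProf W.legW W.nu x m (0 : Fin 18 → ℝ) (qb {2, 3} x) (qb {2, 3, 14, 15} x)
      (qb {1, 11, 12} x) (qb {1, 2, 3, 11, 12, 14, 15} x) (qb {2, 3, 14, 15, 16} x)
      (qb {1, 11, 12, 16} x) (fun y => qb {1} y) where
  m0 := N.m0
  l0 := g.legQ (Q := ∅) (Q' := ∅) (LQ_all g.dr (by decide)) (fun s => le_rfl)
    (fun s => g.x0.le) (fun s hs => absurd hs (by simp)) (fun s _ => rfl)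
  lA := g.leg_qb (LQ_all g.dr (by decide))
  lp := g.leg_qb (LQ_all g.dr (by decide))
  lv := g.leg_qb (LQ_all g.dr (by decide))
  lpv := g.leg_qb (LQ_all g.dr (by decide))
  lpP := g.leg_qb (LQ_all g.dr (by decide))
  lvP := g.leg_qb (LQ_all g.dr (by decide))
  lc := fun y hy hyx => g.legQ (Q := ∅) (Q' := {1}) (LQ_all g.dr (by decide))
    (fun s => by unfold qb; split_ifs; exacts [hy, le_rfl])
    (fun s => by unfold qb; split_ifs; exacts [hyx, g.x0.le]) (fun s hs => absurd hs (by simp))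
    (fun s hs => if_neg hs)
  por := by
    intro j
    have h : ∀ j : Fin 18,
        ((j ∈ ({1, 2, 3, 11, 12, 14, 15} : Finset (Fin 18)) ↔ j ∈ ({2, 3, 14, 15} : Finset (Fin 18))) ∨
        (j ∈ ({1, 2, 3, 11, 12, 14, 15} : Finset (Fin 18)) ↔ j ∈ ({1, 11, 12} : Finset (Fin 18)))) := by
      decide
    rcases h j with h | h
    · left; unfold qb; simp only [h]
    · right; unfold qb; simp only [h]
  pge := by
    intro j
    have h : ∀ j : Fin 18, j ∈ ({2, 3, 14, 15} : Finset (Fin 18)) →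
      j ∈ ({2, 3, 14, 15, 16} : Finset (Fin 18)) := by decide
    by_cases hj : j ∈ ({2, 3, 14, 15} : Finset (Fin 18))
    · rw [qb_mem hj, qb_mem (h j hj)]
    · rw [qb_not hj]; unfold qb; split_ifs; exacts [g.x0.le, le_rfl]
  vge := by
    intro j
    have h : ∀ j : Fin 18, j ∈ ({1, 11, 12} : Finset (Fin 18)) →
      j ∈ ({1, 11, 12, 16} : Finset (Fin 18)) := by decide
    by_cases hj : j ∈ ({1, 11, 12} : Finset (Fin 18))
    · rw [qb_mem hj, qb_mem (h j hj)]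
    · rw [qb_not hj]; unfold qb; split_ifs; exacts [g.x0.le, le_rfl]
  H1 := N.n1
  H2 := N.n2
  H3 := N.n3
  H4 := N.n4
  H5 := N.n5

/-- **the numbers of the spread box** -/
theorem QWin.sprof (g : QWin W κ lam f Dr x) (N : QNu W.nu Dr x m) (h7 : (7 : Fin 18) ∈ Dr) :
    SProf W.legW W.nu x m (qb (Sq Dr) x) (fun y => Function.update (qb (Sq Dr) x) 3 y) := by
  have h3 : (3 : Fin 18) ∉ Sq Dr := by unfold Sq; split_ifs <;> decide
  have hL : LQ Dr (Sq Dr) (insert 3 (Sq Dr)) := by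
    rcases g.dr with h | h | h
    · rw [h] at h7; exact absurd h7 (by decide)
    · rw [h]; decide
    · rw [h]; decide
  refine ⟨?_, fun y hy hyx => ?_, N.n6 h7⟩
  · refine g.legQ (Q := Sq Dr) (Q' := insert 3 (Sq Dr)) hL
      (fun s => by unfold qb; split_ifs; exacts [g.x0.le, le_rfl])
      (fun s => by unfold qb; split_ifs; exacts [le_rfl, g.x0.le]) (fun s hs => if_pos hs)
      (fun s hs => if_neg fun h => hs (mem_insert_of_mem h))
  · refine g.legQ hL (fun s => ?_) (fun s => ?_) (fun s hs => ?_) (fun s hs => ?_)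
    · by_cases h : s = 3
      · subst h; rw [Function.update_self]; exact hy
      · rw [Function.update_of_ne h]; unfold qb; split_ifs; exacts [g.x0.le, le_rfl]
    · by_cases h : s = 3
      · subst h; rw [Function.update_self]; exact hyx
      · rw [Function.update_of_ne h]; unfold qb; split_ifs; exacts [le_rfl, g.x0.le]
    · have h : s ≠ 3 := fun h => h3 (h ▸ hs)
      rw [Function.update_of_ne h, qb_mem hs]
    · have h : s ≠ 3 := fun h => hs (h ▸ mem_insert_self _ _)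
      rw [Function.update_of_ne h, qb_not fun h' => hs (mem_insert_of_mem h')]

end Crest.Agent.R136.Qd329
end

-- ▼ part R136/Qd17_329
section

/-!
# R136: the bilinear rigidity (helper329), part 17: **`quad` in the window**

`QWin.quad` : in a window of `quad` with the numbers `QNu`, a `ρ^ε`-part of every honest set of
incidences satisfies `QuadRel`: an own gauge `j` on the slots `BB, AB, AA` (`q = 3, 5, 6`) explains
the slots `q = 3, 5, 6, 7, .., 12` of all pairs up to `ρ^(x-ε)`.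
-/

set_option autoImplicit false
set_option linter.unusedSectionVars false
set_option linter.unusedVariables false

open Filter Topology

namespace Crest.Agent.R136.Qd329

open Finset Crest.Agent.R136.NetW191 Crest.Agent.R136.Net191 Crest.Agent.R136.Qg926
open Crest.Agent.R136.EvW938 Crest.Agent.R136.RowW619 Crest.Agent.R136.Gf356
open Crest.Agent.R138.Ex926 (Base U)

variable {ι : ℕ → Type*} [∀ n, DecidableEq (ι n)] {W : Wnd 18 ι} {κ : ℕ → ℝ}
  {lam : ℕ → Fin 18 → ℝ} {f : ∀ n, ι n → FW} {Dr : Finset (Fin 18)} {x m : ℝ}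

/-- **relation of all pairs**: own gauge `j` on the slots `3, 5, 6` (zero on the dropped slots) -/
def QuadRel (W : Wnd 18 ι) (κ : ℕ → ℝ) (lam : ℕ → Fin 18 → ℝ) (f : ∀ n, ι n → FW)
    (Dr : Finset (Fin 18)) (n : ℕ) (x ε : ℝ) (G' : Finset (ι n)) : Prop :=
  ∃ j : ι n → Fin 14 → ℝ,
    (∀ y q, q ∉ ({3, 5, 6} : Finset (Fin 14)) ∨ (Fin.natAdd 4 q : Fin 18) ∈ Dr → j y q = 0) ∧
    (∀ y ∈ G', ∀ q, |j y q| ≤ W.B'.d n ^ (-ε) * sd W lam n (Fin.natAdd 4 q)) ∧
    ∀ y ∈ G', ∀ y' ∈ G', ∀ q ∈ ({3, 5, 6, 7, 8, 9, 10, 11, 12} : Finset (Fin 14)),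
      (Fin.natAdd 4 q : Fin 18) ∉ Dr →
      |coW (κ n) (f n y) (f n y') (Fin.natAdd 4 q) -
        (j y' q - tr (κ n) (frm (coW (κ n) (f n y) (f n y'))) (j y) q)| ≤
        W.B'.d n ^ (x - ε) * sd W lam n (Fin.natAdd 4 q)

theorem QuadRel.mono {n : ℕ} {ε : ℝ} {G G' : Finset (ι n)} (h : G' ⊆ G)
    (hG : QuadRel W κ lam f Dr n x ε G) : QuadRel W κ lam f Dr n x ε G' := by
  obtain ⟨j, h1, h2, h3⟩ := hG
  exact ⟨j, h1, fun y hy => h2 y (h hy), fun y hy y' hy' => h3 y (h hy) y' (h hy')⟩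


/-- the arithmetic of the constants -/
theorem fin_num {K Λ η : ℝ} (hK : 1 ≤ K) (hΛ : 1 ≤ Λ) (hη : 0 ≤ η) :
    K + 470 * K ^ 7 * (3 * K * Λ) ≤ 2000 * K ^ 8 * Λ ∧
    η + (2 * η + 470 * K ^ 7 * η * (2000 * K ^ 8 * Λ) + (1 + 2 * K) * (20 * K ^ 4 * (Λ * η))) +
      470 * K ^ 7 * (2 * η + 470 * K ^ 7 * η * (2000 * K ^ 8 * Λ) +
        (1 + 2 * K) * (20 * K ^ 4 * (Λ * η))) ≤ 10 ^ 9 * K ^ 22 * (Λ * η) := by
  have K0 : 0 ≤ K := by linarith
  set y := Λ * η with hy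
  have hηy : η ≤ y := le_mul_of_one_le_left hη hΛ
  have y0 : 0 ≤ y := hη.trans hηy
  have pw : ∀ {i j : ℕ}, i ≤ j → K ^ i ≤ K ^ j := fun h => pow_le_pow_right₀ hK h
  constructor
  · have h1 : K ≤ K ^ 8 := by
      calc K = K ^ 1 := (pow_one K).symm
        _ ≤ _ := pw (by norm_num)
    have h2 : K ^ 8 ≤ K ^ 8 * Λ := le_mul_of_one_le_right (by positivity) hΛ
    have e : 470 * K ^ 7 * (3 * K * Λ) = 1410 * (K ^ 8 * Λ) := by ring
    rw [e]
    have e2 : 2000 * K ^ 8 * Λ = 2000 * (K ^ 8 * Λ) := by ring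
    rw [e2]
    linarith
  · have hB : 2 * η + 470 * K ^ 7 * η * (2000 * K ^ 8 * Λ) + (1 + 2 * K) * (20 * K ^ 4 * y) ≤
        940062 * (K ^ 15 * y) := by
      have e1 : 470 * K ^ 7 * η * (2000 * K ^ 8 * Λ) = 940000 * (K ^ 15 * y) := by
        rw [hy]; ring
      have e2 : (1 + 2 * K) * (20 * K ^ 4 * y) = 20 * (K ^ 4 * y) + 40 * (K ^ 5 * y) := by ring
      rw [e1, e2]
      have k1 : y ≤ K ^ 15 * y := le_mul_of_one_le_left y0 (one_le_pow₀ hK)
      have k2 : K ^ 4 * y ≤ K ^ 15 * y := mul_le_mul_of_nonneg_right (pw (by norm_num)) y0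
      have k3 : K ^ 5 * y ≤ K ^ 15 * y := mul_le_mul_of_nonneg_right (pw (by norm_num)) y0
      linarith
    set b := 2 * η + 470 * K ^ 7 * η * (2000 * K ^ 8 * Λ) + (1 + 2 * K) * (20 * K ^ 4 * y) with hb
    have h3 : 470 * K ^ 7 * b ≤ 470 * K ^ 7 * (940062 * (K ^ 15 * y)) :=
      mul_le_mul_of_nonneg_left hB (by positivity)
    have e3 : 470 * K ^ 7 * (940062 * (K ^ 15 * y)) = 441829140 * (K ^ 22 * y) := by ring
    rw [e3] at h3
    have k1 : y ≤ K ^ 22 * y := le_mul_of_one_le_left y0 (one_le_pow₀ hK)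
    have k2 : K ^ 15 * y ≤ K ^ 22 * y := mul_le_mul_of_nonneg_right (pw (by norm_num)) y0
    have e4 : 10 ^ 9 * K ^ 22 * y = 1000000000 * (K ^ 22 * y) := by ring
    rw [e4]
    have k0 : 0 ≤ K ^ 22 * y := by positivity
    linarith

theorem Jg_le (D : Fin 14 → ℝ) (q : Fin 14) : |Jg D q| ≤ |D q| := by
  unfold Jg; split_ifs
  · exact le_rfl
  · rw [abs_zero]; exact abs_nonneg _

/-- the substitution of a flag without dropped components, raw against normalised -/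
theorem QWin.raw_tr (g : QWin W κ lam f Dr x) (n : ℕ) {J : Fin 14 → ℝ}
    (hJ : ∀ q, (Fin.natAdd 4 q : Fin 18) ∈ Dr → J q = 0) (c : Fin 18 → ℝ) {q : Fin 14}
    (hq : (Fin.natAdd 4 q : Fin 18) ∉ Dr) :
    tr (κ n) (frm fun s => un W lam n s * c s) (fun q => un W lam n (Fin.natAdd 4 q) * J q) q =
      un W lam n (Fin.natAdd 4 q) * tr (κ n) (frm c) J q := by
  set b : Fin 18 → ℝ := Fin.append (m := 4) (n := 14) (fun _ => 0) J with hb
  have eb : ∀ q : Fin 14, b (Fin.natAdd 4 q) = J q := fun q => Fin.append_right _ _ _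
  have e1 : (fun q => un W lam n (Fin.natAdd 4 q) * J q) = flg fun s => un W lam n s * b s := by
    funext q'
    change _ = un W lam n (Fin.natAdd 4 q') * b (Fin.natAdd 4 q')
    rw [eb]
  rw [e1, tr_norm g.ww, tr_tms, eb]
  congr 2
  refine congrArg List.sum (List.map_congr_left fun t ht => ?_)
  unfold tmN Tm.ev
  rw [eb]
  by_cases hs : (Fin.natAdd 4 t.s : Fin 18) ∈ Dr
  · rw [hJ _ hs, mul_zero, mul_zero, mul_zero]
  · have hc1 : cfl W lam n t.idx (Fin.natAdd 4 q) = 1 := by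
      refine g.cfl_one hq (by rw [mlW_right]; exact List.mem_map_of_mem ht) ?_ n
      intro s hs'
      simp only [Tm.idx, List.mem_append, List.mem_map, List.mem_singleton] at hs'
      rcases hs' with ⟨i, -, rfl⟩ | rfl
      · exact g.nfr i
      · exact hs
    rw [hc1]
    have : (t.hl.map (frm c)) = t.hl.map fun i => c (Fin.castAdd 14 i) := rfl
    rw [this]
    ring

set_option maxHeartbeats 2000000 in
/-- **`quad` in the window** -/
theorem QWin.quad (g : QWin W κ lam f Dr x) (N : QNu W.nu Dr x m) {E : ∀ n, Finset (ι n)}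
    {Mu : ℕ → ℝ} (hE : Wnd.EOk W E Mu) {ε : ℝ} (hε : 0 < ε) :
    ∀ᶠ n in (U : Filter ℕ), ∃ G' ⊆ E n, W.B'.d n ^ ε * ((E n).card : ℝ) ≤ (G'.card : ℝ) ∧
      QuadRel W κ lam f Dr n x ε G' := by
  obtain ⟨E', gg, hP, -, hM⟩ := Wnd.EOk.exists_model (σ := 1) (R := x) g.ww.ok hE
    (fun _ _ _ => 0) (g₀ := fun n => (n : ℝ))
    (tendsto_natCast_atTop_atTop.mono_left Crest.Agent.R138.Ex926.U_le_atTop) g.dens
    zero_le_one le_rfl (by rw [g.etop]) (fun y h0 h1 => by rw [g.ww.kz]; exact g.frost y h0 h1)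
  have hE2 : ∀ᶠ n in (U : Filter ℕ), E' n ⊆ W.Cl n ∧ W.cfg E' n = W.cfg0 n (E' n) := by
    filter_upwards [Wnd.ev_cfg g.ww.ok hE hP] with n ⟨g1, h1, h2, h3⟩
    exact ⟨(hP.sub n).trans h1, h3⟩
  have he : 0 < ε / 4 := by positivity
  filter_upwards [quad_full2 hM one_pos g.x0 (g.qrow hE2) (g.qevo hE2) (g.qprof N)
    (fun h7 => g.srow hE2 h7) (fun h7 => g.sprof N h7) g.h97 he,
    Crest.Agent.R136.Wk323.lines_pull g.ww.ok hE hP g.dens he, hE2, g.coc,
    ev_const_le W.B' he (10 ^ 9 * (Kq W) ^ 22 * (67 * (Kq W) ^ 7)),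
    ev_const_le W.B' he (2000 * (Kq W) ^ 8)] with n hq hpull ⟨h1, h2⟩ ⟨gd, hL⟩ hC1 hC2
  obtain ⟨k, hk, l1, l2, m1, m2, s0, β0, ζ0, Z0, P0, R0, b1, b2, b3, b4, b5, b6, b7, b8, b9, b10,
    b11, b12, b13, L2, hL2, hcard, hrel⟩ := hq
  have hpos : ∀ t : ℝ, 0 < W.B'.d n ^ t := fun t => Real.rpow_pos_of_pos (W.B'.pos n) t
  have hK := g.Kq1
  have K0 : 0 ≤ Kq W := by linarith
  set Λ := W.B'.d n ^ (-(ε / 4)) with hΛd
  have hΛ : 1 ≤ Λ := by
    rw [hΛd, ← Real.rpow_zero (W.B'.d n)]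
    exact Real.rpow_le_rpow_of_exponent_ge (W.B'.pos n) (W.B'.lt n).le (by linarith)
  have hΛ0 : 0 ≤ Λ := by linarith
  set η := 67 * (Kq W) ^ 7 * W.B'.d n ^ (x - ε / 4) with hη
  have η0 : 0 ≤ η := by have := hpos (x - ε / 4); positivity
  have toη : ∀ {X : ℝ}, X ≤ W.B'.d n ^ (x - ε / 4) → X ≤ η := fun h => g.eta' h
  have ηmono : 67 * (Kq W) ^ 7 * W.B'.d n ^ x ≤ η := g.eta he
  have nz : ∀ q : Fin 14, (Fin.natAdd 4 q : Fin 18) ≠ 0 := by decide
  rw [h2] at hL2 hcard hk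
  refine ⟨(E' n).filter fun i => W.lc n i ∈ L2, (filter_subset _ _).trans (hP.sub n), ?_, ?_⟩
  · have hsub : L2 ⊆ (W.cfg E' n).L := by
      rw [h2]; exact fun l hl => (RCfg.mem_slice.1 (hL2 hl)).1
    have := hpull L2 hsub (by rw [h2]; exact hcard)
    rwa [show 4 * (ε / 4) = ε by ring] at this
  -- the static flag
  set e3 : ℝ := if (7 : Fin 18) ∈ Dr then 0 else m1 / 2 with he3
  set e5 : ℝ := if (9 : Fin 18) ∈ Dr then 0 else l1 with he5
  set z := (W.cfg0 n (E' n)).z k with hz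
  set EE := Eq0 e3 e5 (l2 / 2) s0 β0 ζ0 Z0 P0 R0 z with hEE
  have zE : Fz EE := Eq0_fz
  have d3 : |m1 - 2 * e3| ≤ η := by
    rw [he3]
    split_ifs with h7
    · rw [mul_zero, sub_zero]; exact toη (b12 h7)
    · have : m1 - 2 * (m1 / 2) = 0 := by ring
      rw [this, abs_zero]; exact η0
  have d5 : |l1 - e5| ≤ η := by
    rw [he5]
    split_ifs with h9
    · rw [sub_zero]; exact toη (b13 h9)
    · rw [sub_self, abs_zero]; exact η0
  have be3 : |e3| ≤ Λ := by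
    rw [he3]
    split_ifs
    · rw [abs_zero]; exact hΛ0
    · rw [abs_div, abs_two]; linarith [abs_nonneg m1]
  have be5 : |e5| ≤ Λ := by
    rw [he5]
    split_ifs
    · rw [abs_zero]; exact hΛ0
    · exact b1
  have be6 : |l2 / 2| ≤ Λ := by rw [abs_div, abs_two]; linarith [abs_nonneg l2]
  have hzK : |z| ≤ Kq W := by
    obtain ⟨y, hy, rfl⟩ := mem_image.1 hk
    exact (crd_MW g.ww gd gd.s0 (W.zrep_spec (h1 hy)).1 _).trans g.MW_Kq
  have bE := Eq0_bd hK hΛ0 be3 be5 be6 b5 b6 b7 b8 b9 b10 hzK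
  rw [← hEE] at bE
  obtain ⟨num1, num2⟩ := fin_num hK hΛ η0
  set δ := 2 * η + 470 * (Kq W) ^ 7 * η * (2000 * (Kq W) ^ 8 * Λ) +
    (1 + 2 * Kq W) * (20 * (Kq W) ^ 4 * (Λ * η)) with hδ
  -- difference to the static flag, any incidence of the class
  have big : ∀ y ∈ W.Cl n, ∀ q,
      |(fW W Dr n (W.s₀ n) y - tr (κ n) (hW W n (W.s₀ n) y) EE) q| ≤ 2000 * (Kq W) ^ 8 * Λ := by
    intro y hy q
    have L := hL _ gd.s0 _ hy _ hy
    rw [Pi.sub_apply]
    have t1 := tr_small L.hκ hK (show 0 ≤ 3 * Kq W * Λ by positivity) L.bh bE q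
    have t2 := L.bw q
    have t3 := abs_sub (fW W Dr n (W.s₀ n) y q) (tr (κ n) (hW W n (W.s₀ n) y) EE q)
    linarith
  -- the static flag explains the slots `7 .. 12`
  have key : ∀ y ∈ (E' n).filter fun i => W.lc n i ∈ L2, y ∈ W.Cl n ∧ ∀ q, 7 ≤ q → q ≠ 13 →
      |fW W Dr n (W.s₀ n) y q - tr (κ n) (hW W n (W.s₀ n) y) EE q| ≤ δ := by
    intro y hy
    obtain ⟨hy1, hy2⟩ := mem_filter.1 hy
    have hyC := h1 hy1
    refine ⟨hyC, ?_⟩
    have hI : (W.lc n y, k) ∈ (W.cfg0 n (E' n)).I := (RCfg.mem_slice.1 (hL2 hy2)).2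
    obtain ⟨a1, a2, a3⟩ := Wnd.rep_of_mem h1 hI
    obtain ⟨y0, hy0, hy01, hy02⟩ := Wnd.mem_I.1 hI
    have r1 := W.zrep_spec (h1 hy0)
    rw [hy02] at r1
    set p := W.rep n (W.lc n y) k with hp
    have LA := (hL _ gd.s0 _ a1 _ hyC).mono ηmono
    have hzz : |hW W n (W.s₀ n) p 0 - z| ≤ η := by
      have ez : z = W.crd n (W.s₀ n) (W.zrep n k) 0 := by
        rw [hz]
        show W.crd n (W.s₀ n) (W.zrep n k) W.kz = _
        rw [g.ww.kz]
      have c0 := comp0 g.ww gd gd.s0 r1.1 a1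
      have e : hW W n (W.s₀ n) p 0 - z = W.crd n (W.zrep n k) p 0 := by
        rw [ez]
        change W.crd n (W.s₀ n) p 0 - _ = _
        rw [c0]; ring
      rw [e]
      have := lev_MW g.ww gd r1.1 a1 (r1.2.trans a3.symm) g.ww.h0 (t := x) (by rw [g.etop])
      exact (this.trans (g.MW_le67 x)).trans ηmono
    have fr := hrel _ hy2
    have fr' : FRel (κ n) l1 l2 m1 m2 s0 β0 ζ0 Z0 P0 R0 η (hW W n (W.s₀ n) p 2)
        (hW W n (W.s₀ n) p 3) (hW W n (W.s₀ n) p 1)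
        (fW W Dr n (W.s₀ n) p 11 + 2 * κ n * hW W n (W.s₀ n) p 1 * fW W Dr n (W.s₀ n) p 10)
        (fW W Dr n (W.s₀ n) p 10) (fW W Dr n (W.s₀ n) p 7)
        (fW W Dr n (W.s₀ n) p 8 + 2 * κ n * hW W n (W.s₀ n) p 1 * fW W Dr n (W.s₀ n) p 7)
        (fW W Dr n (W.s₀ n) p 12) (fW W Dr n (W.s₀ n) p 9) :=
      ⟨fr.rel.mono (toη le_rfl), fr.rΦ.trans (toη le_rfl), fr.rR.trans (toη le_rfl)⟩
    have hA := claimA LA.hκ hK hΛ η0 LA.bh hzz d3 d5 (toη b11)
      (show l2 = 2 * (l2 / 2) by ring) b7 b8 b10 fr'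
    have own : ∀ s : Fin 18, s ≠ 0 → |W.crd n p y s| ≤ η := fun s hs =>
      ((own_MW g.ww gd a1 hyC a2 (s := s) (t := x)
        (by rw [g.eS, mem_singleton]; exact hs) (by rw [g.etop])).trans (g.MW_le67 x)).trans ηmono
    intro q hq hq'
    have := claimB LA (u := hW W n p y 0) (LA.bh' 0) (by rw [sub_self, abs_zero]; exact η0)
      (own 1 (by decide)) (own 2 (by decide)) (own 3 (by decide))
      (fun q _ => (fW_le _ _ _ _).trans (own _ (nz q))) zE (big p a1) hA q hq hq'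
    exact this
  -- the gauge
  refine ⟨fun y q => un W lam n (Fin.natAdd 4 q) *
    Jg (fW W Dr n (W.s₀ n) y - tr (κ n) (hW W n (W.s₀ n) y) EE) q, ?_, ?_, ?_⟩
  · have hJD : ∀ y : ι n, ∀ q, q ∉ ({3, 5, 6} : Finset (Fin 14)) ∨ (Fin.natAdd 4 q : Fin 18) ∈ Dr →
        Jg (fW W Dr n (W.s₀ n) y - tr (κ n) (hW W n (W.s₀ n) y) EE) q = 0 := by
      intro y q hq
      by_cases hc : q = 3 ∨ q = 5 ∨ q = 6
      · have hqD : (Fin.natAdd 4 q : Fin 18) ∈ Dr := by
          rcases hq with h | h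
          · exact absurd (by simpa using hc) h
          · exact h
        unfold Jg
        rw [if_pos hc, Pi.sub_apply, fW_dr hqD]
        rcases hc with rfl | rfl | rfl
        · have h7 : (7 : Fin 18) ∈ Dr := hqD
          rw [zE.t3]
          have : EE 3 = e3 := rfl
          rw [this, he3, if_pos h7, sub_zero]
        · have h9 : (9 : Fin 18) ∈ Dr := hqD
          have h7 := g.h97 h9
          rw [zE.t5]
          have i1 : EE 3 = e3 := rfl
          have i2 : EE 5 = e5 := rfl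
          rw [i1, i2, he3, he5, if_pos h7, if_pos h9]
          ring
        · exact absurd hqD (g.nbig (by decide))
      · unfold Jg; rw [if_neg hc]
    intro y q hq
    beta_reduce
    rw [hJD y q hq, mul_zero]
  · intro y hy q
    beta_reduce
    obtain ⟨hyC, -⟩ := key y hy
    have hu : un W lam n (Fin.natAdd 4 q) = sd W lam n (Fin.natAdd 4 q) := by
      unfold un; rw [g.ekap, one_mul]
    have hs0 := g.ww.sd_pos n (Fin.natAdd 4 q)
    rw [hu, abs_mul, abs_of_pos hs0, mul_comm]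
    refine mul_le_mul_of_nonneg_right ?_ hs0.le
    refine ((Jg_le _ q).trans (big y hyC q)).trans ?_
    have := mul_le_mul_of_nonneg_right hC2 hΛ0
    refine this.trans ?_
    rw [hΛd, ← Real.rpow_add (W.B'.pos n)]
    exact Real.rpow_le_rpow_of_exponent_ge (W.B'.pos n) (W.B'.lt n).le (by linarith)
  · intro y hy y' hy' q hq hqD
    beta_reduce
    obtain ⟨hyC, hyk⟩ := key y hy
    obtain ⟨hyC', hyk'⟩ := key y' hy'
    have L := (hL _ gd.s0 _ hyC _ hyC').mono ηmono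
    have hq13 : q ≠ 13 := by
      rintro rfl
      exact absurd hq (by decide)
    have hpr := pair_rel L zE (g.fz _ _) hyk hyk' q hq13
    rw [fW_of hq13 hqD] at hpr
    have hJz : ∀ q, (Fin.natAdd 4 q : Fin 18) ∈ Dr →
        Jg (fW W Dr n (W.s₀ n) y - tr (κ n) (hW W n (W.s₀ n) y) EE) q = 0 := by
      intro q hqD
      by_cases hc : q = 3 ∨ q = 5 ∨ q = 6
      · unfold Jg
        rw [if_pos hc, Pi.sub_apply, fW_dr hqD]
        rcases hc with rfl | rfl | rfl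
        · have h7 : (7 : Fin 18) ∈ Dr := hqD
          rw [zE.t3]
          have : EE 3 = e3 := rfl
          rw [this, he3, if_pos h7, sub_zero]
        · have h9 : (9 : Fin 18) ∈ Dr := hqD
          have h7 := g.h97 h9
          rw [zE.t5]
          have i1 : EE 3 = e3 := rfl
          have i2 : EE 5 = e5 := rfl
          rw [i1, i2, he3, he5, if_pos h7, if_pos h9]
          ring
        · exact absurd hqD (g.nbig (by decide))
      · unfold Jg; rw [if_neg hc]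
    have hraw := g.raw_tr n hJz (W.crd n y y') hqD
    rw [g.ww.crd_fun gd hyC hyC'] at hraw
    rw [hraw, g.ww.crd_eq gd hyC hyC']
    have hs0 := g.ww.un_pos n (Fin.natAdd 4 q)
    have hu : un W lam n (Fin.natAdd 4 q) = sd W lam n (Fin.natAdd 4 q) := by
      unfold un; rw [g.ekap, one_mul]
    set u := un W lam n (Fin.natAdd 4 q) with hud
    have e : u * W.crd n y y' (Fin.natAdd 4 q) -
        (u * Jg (fW W Dr n (W.s₀ n) y' - tr (κ n) (hW W n (W.s₀ n) y') EE) q -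
          u * tr (κ n) (frm (W.crd n y y'))
            (Jg (fW W Dr n (W.s₀ n) y - tr (κ n) (hW W n (W.s₀ n) y) EE)) q) =
        u * (W.crd n y y' (Fin.natAdd 4 q) -
          (Jg (fW W Dr n (W.s₀ n) y' - tr (κ n) (hW W n (W.s₀ n) y') EE) q -
            tr (κ n) (hW W n y y')
              (Jg (fW W Dr n (W.s₀ n) y - tr (κ n) (hW W n (W.s₀ n) y) EE)) q)) := by
      unfold hW; ring
    rw [e, abs_mul, abs_of_pos hs0, ← hu, mul_comm]
    refine mul_le_mul_of_nonneg_right (hpr.trans ?_) hs0.le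
    refine num2.trans ?_
    have e2 : 10 ^ 9 * (Kq W) ^ 22 * (Λ * η) =
        (10 ^ 9 * (Kq W) ^ 22 * (67 * (Kq W) ^ 7)) * (Λ * W.B'.d n ^ (x - ε / 4)) := by
      rw [hη]; ring
    rw [e2]
    have h5 : 0 ≤ Λ * W.B'.d n ^ (x - ε / 4) := mul_nonneg hΛ0 (hpos _).le
    refine (mul_le_mul_of_nonneg_right hC1 h5).trans ?_
    rw [hΛd, ← Real.rpow_add (W.B'.pos n), ← Real.rpow_add (W.B'.pos n)]
    exact Real.rpow_le_rpow_of_exponent_ge (W.B'.pos n) (W.B'.lt n).le (by linarith)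

end Crest.Agent.R136.Qd329
end

-- ▼ part R136/Qi2_599
section

/-!
# R136 (helper599): the relation half of `quad` over a zoom window

* `qwin_of`, `qnu_of` : 887's window `QdWD` is 329's `QWin`, `QNu`.
* **`quad_relJ`** : `QWin.quad` in the letters of `RelJ` (`SzQ`, `ErQ`, all slots of `{3,5,6,..,12}`,
  dropped slots included).
* **`quad_one`** : interior zoom window with the numbers `QdN` ⊢ dense part, one `j`.
-/

set_option autoImplicit false
set_option linter.unusedVariables false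
set_option linter.unusedSectionVars false

open Filter Topology

namespace Crest.Agent.R136.Qi599

open Finset Crest.Agent.R136.NetW191 Crest.Agent.R136.Net191 Crest.Agent.R136.Qg926
open Crest.Agent.R136.EvW938 Crest.Agent.R136.Bas938 Crest.Agent.R136.Gf356
open Crest.Agent.R136.Aw413 Crest.Agent.R136.Dg219 Crest.Agent.R136.LadG697
open Crest.Agent.R136.Int599 (iw)
open Crest.Agent.R136.Qgn887 Crest.Agent.R136.QdH887 Crest.Agent.R136.Qd329
open Crest.Agent.R136.LadW697 Crest.Agent.R136.AwJ774 Crest.Agent.R136.PrW464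
open Crest.Agent.R136.K2S774 (cn)
open Crest.Agent.R138.Ex926 (Base U cls)
open Crest.Agent.R138.Dp76 (Dense)

section fin

variable {Dr : Finset (Fin 18)} {W : Wnd 18 fun _ => ℕ × ℝ} {κ : ℕ → ℝ} {u : ℕ → Fin 18 → ℝ}
  {f : ∀ n : ℕ, ℕ × ℝ → FW} {mm x : ℝ}

theorem dr_cases (hD : DrOk (↑Dr : Set (Fin 18))) (h97 : (9 : Fin 18) ∈ Dr → (7 : Fin 18) ∈ Dr) :
    Dr = {4, 5, 6, 8} ∨ Dr = {4, 5, 6, 7, 8} ∨ Dr = {4, 5, 6, 7, 8, 9} := by
  have lo : ∀ k ∈ QdH887.D2, k ∈ Dr := fun k hk => by exact_mod_cast hD.lo k hk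
  have hi : ∀ k ∈ Dr, k ∈ QdH887.D2 ∨ k = 7 ∨ k = 9 := fun k hk => hD.hi k (by exact_mod_cast hk)
  by_cases h9 : (9 : Fin 18) ∈ Dr
  · right; right
    have h7 := h97 h9
    ext k
    constructor
    · intro hk
      rcases hi k hk with h | h | h
      · clear hk; revert h; revert k; decide
      · subst h; decide
      · subst h; decide
    · intro hk
      have : k ∈ QdH887.D2 ∨ k = 7 ∨ k = 9 := by revert hk; revert k; decide
      rcases this with h | h | h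
      · exact lo k h
      · subst h; exact h7
      · subst h; exact h9
  · by_cases h7 : (7 : Fin 18) ∈ Dr
    · right; left
      ext k
      constructor
      · intro hk
        rcases hi k hk with h | h | h
        · clear hk; revert h; revert k; decide
        · subst h; decide
        · subst h; exact absurd hk h9
      · intro hk
        have : k ∈ QdH887.D2 ∨ k = 7 := by revert hk; revert k; decide
        rcases this with h | h
        · exact lo k h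
        · subst h; exact h7
    · left
      ext k
      constructor
      · intro hk
        rcases hi k hk with h | h | h
        · clear hk; revert h; revert k; decide
        · subst h; exact absurd hk h7
        · subst h; exact absurd hk h9
      · intro hk
        exact lo k (by revert hk; revert k; decide)

theorem qwin_of (g : QdWD Dr W κ u f mm x) (hD : DrOk (↑Dr : Set (Fin 18)))
    (h97 : (9 : Fin 18) ∈ Dr → (7 : Fin 18) ∈ Dr) : QWin W κ u f Dr x where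
  x0 := g.x0
  ww := g.ww
  eS := g.eS
  etop := g.etop
  ekap := g.ekap
  dw := g.dw
  hk := g.hk
  dr := dr_cases hD h97
  tight := g.tight
  gap := g.gap
  dens := g.dens
  frost := g.frost
  leg := g.leg

theorem bv_one (y : ℝ) : bv y {1} = Pi.single 1 y := by
  funext k
  unfold bv
  by_cases hk : k = 1
  · subst hk; simp
  · rw [if_neg (by simpa using hk), Pi.single_eq_of_ne hk]

theorem qnu_of (g : QdWD Dr W κ u f mm x) : QNu W.nu Dr x mm where
  m0 := g.m0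
  n1 := g.n1.symm.le
  n2 := g.n2.symm.le
  n3 := g.n3.le
  n4 := by
    have := g.n4
    change 2 * x ≤ W.nu 0 - W.nu (bv x {2, 3})
    linarith
  n5 := fun y h0 _ => by
    have := g.n5 y h0
    change mm * y ≤ W.nu 0 - W.nu (bv y {1})
    rw [bv_one]
    linarith
  n6 := g.n6

theorem qin_of (g : QdWD Dr W κ u f mm x) (hD : DrOk (↑Dr : Set (Fin 18))) :
    Qe861.QIn Dr W κ u f mm x where
  lo := fun k hk => by
    have : k ∈ QdH887.D2 := by revert hk; revert k; decide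
    exact_mod_cast hD.lo k this
  hi := fun k hk => by
    rcases hD.hi k (by exact_mod_cast hk) with h | h | h
    · clear hk; revert h; revert k; decide
    · exact Or.inr (Or.inr (Or.inr (Or.inr (Or.inl h))))
    · exact Or.inr (Or.inr (Or.inr (Or.inr (Or.inr h))))
  x0 := g.x0
  m0 := g.m0
  ww := g.ww
  eS := g.eS
  etop := g.etop
  ekap := g.ekap
  dw := g.dw
  hk := g.hk
  tight := g.tight
  gap := g.gap
  dens := g.dens
  frost := g.frost
  leg := g.leg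
  n1 := g.n1
  n2 := g.n2
  n3 := g.n3
  n4 := g.n4
  n5 := g.n5

/-- the correction does not move the dropped slots -/
theorem tr_drop {κ : ℝ} {h : Fin 4 → ℝ} {j : Fin 14 → ℝ} (h97 : (9 : Fin 18) ∈ Dr → (7 : Fin 18) ∈ Dr)
    (hj : ∀ q, q ∉ ({3, 5, 6} : Finset (Fin 14)) ∨ (Fin.natAdd 4 q : Fin 18) ∈ Dr → j q = 0)
    {p : Fin 14} (hp : p = 3 ∨ p = 5) (hd : (Fin.natAdd 4 p : Fin 18) ∈ Dr) : tr κ h j p = 0 := by
  have j0 : j 0 = 0 := hj 0 (Or.inl (by decide))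
  have j1 : j 1 = 0 := hj 1 (Or.inl (by decide))
  have j2 : j 2 = 0 := hj 2 (Or.inl (by decide))
  rcases hp with rfl | rfl
  · have j3 : j 3 = 0 := hj 3 (Or.inr hd)
    rw [tr3, j0, j1, j3]; ring
  · have j5 : j 5 = 0 := hj 5 (Or.inr hd)
    have j3 : j 3 = 0 := hj 3 (Or.inr (h97 hd))
    rw [tr5, j0, j1, j2, j3, j5]; ring

/-- **the relation of `quad` in the window**, letters of `RelJ` -/
theorem quad_relJ (g : QdWD Dr W κ u f mm x) (hD : DrOk (↑Dr : Set (Fin 18)))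
    (h97 : (9 : Fin 18) ∈ Dr → (7 : Fin 18) ∈ Dr) {E : ℕ → Finset (ℕ × ℝ)} {Mu : ℕ → ℝ}
    (hE : Wnd.EOk W E Mu) {ε : ℝ} (hε : 0 < ε) :
    ∀ᶠ n in (U : Filter ℕ), ∃ G ⊆ E n, W.B'.d n ^ ε * ((E n).card : ℝ) ≤ (G.card : ℝ) ∧
      RelJ u κ f {3, 5, 6} {3, 5, 6, 7, 8, 9, 10, 11, 12} (SzQ W.B W.B' W.X (↑Dr) x)
        (ErQ W.B W.B' W.X (↑Dr) x) n ε G := by
  classical
  have gi := qin_of g hD
  filter_upwards [(qwin_of g hD h97).quad (qnu_of g) hE hε, hE.sub, g.ww.ok.ev_good,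
    gi.nX_gap x, Gf356.ev_const_le W.B' hε W.K0] with n hq hsub hgd hgap hK
  obtain ⟨G, hG, hc, j, h1, h2, h3⟩ := hq
  have pu : ∀ k, 0 < u n k := fun k => (g.ww.hl n).pos k
  have hsd : ∀ k, u n k * sd W u n k = W.B.d n ^ W.X n k := fun k => by
    unfold sd
    have := (pu k).ne'
    field_simp
  refine ⟨G, hG, hc, j, fun i p hp => h1 i p (Or.inl (by simpa using hp)), ⟨?_, ?_⟩⟩
  · intro i hi p
    unfold SzQ
    split_ifs with hd
    · rw [h1 i p (Or.inr (by exact_mod_cast hd)), abs_zero, mul_zero]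
      exact mul_nonneg (Real.rpow_nonneg (W.B.pos n).le _) (Real.rpow_nonneg (W.B'.pos n).le _)
    · refine (mul_le_mul_of_nonneg_left (h2 i hi p) (pu _).le).trans (le_of_eq ?_)
      rw [mul_left_comm, hsd]
      ring
  · intro i hi i' hi' p hp
    have hp' : p ∈ ({3, 5, 6, 7, 8, 9, 10, 11, 12} : Finset (Fin 14)) := by
      simpa using hp
    unfold ErQ
    split_ifs with hd
    · have hd' : (Fin.natAdd 4 p : Fin 18) ∈ Dr := by exact_mod_cast hd
      have hp2 : p = 3 ∨ p = 5 := by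
        rcases gi.hi _ hd' with h | h | h | h | h | h <;> revert h <;> revert hp' <;>
          clear hp hd hd' h1 h2 h3 hc <;> revert p <;> decide
      have e1 : j i' p = 0 := h1 i' p (Or.inr hd')
      have e2 := tr_drop (κ := κ n) (h := rel (κ n) (f n i).g (f n i').g) h97 (h1 i) hp2 hd'
      rw [e1, e2, sub_zero, sub_zero]
      have k1 := g.ww.bnd hgd (hsub (hG hi)) (hsub (hG hi')) (Fin.natAdd 4 p)
      have k2 := hgap _ hd'
      have k3 : W.B.d n ^ W.X n (Fin.natAdd 4 p) ≤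
          W.B.d n ^ natX W.X n (Fin.natAdd 4 p) * W.B'.d n ^ x := by
        rw [g.dw n, ← Real.rpow_mul (W.B.pos n).le, ← Real.rpow_add (W.B.pos n)]
        refine Real.rpow_le_rpow_of_exponent_ge (W.B.pos n) (W.B.lt n).le ?_
        have e3 : natX W.X n (Fin.natAdd 4 p) = Qe861.nX W n (Fin.natAdd 4 p) := rfl
        rw [e3]
        linarith
      have k4 : W.K0 * W.B'.d n ^ x ≤ W.B'.d n ^ (x - ε) := by
        have : W.B'.d n ^ (x - ε) = W.B'.d n ^ (-ε) * W.B'.d n ^ x := by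
          rw [← Real.rpow_add (W.B'.pos n)]; congr 1; ring
        rw [this]
        exact mul_le_mul_of_nonneg_right hK (Real.rpow_nonneg (W.B'.pos n).le _)
      have k0 : 0 ≤ W.K0 := by linarith [g.ww.ok.K0_one]
      calc u n (Fin.natAdd 4 p) * |coW (κ n) (f n i) (f n i') (Fin.natAdd 4 p)|
          ≤ u n (Fin.natAdd 4 p) * (W.K0 * sd W u n (Fin.natAdd 4 p)) :=
            mul_le_mul_of_nonneg_left k1 (pu _).le
        _ = W.K0 * W.B.d n ^ W.X n (Fin.natAdd 4 p) := by rw [mul_left_comm, hsd]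
        _ ≤ W.K0 * (W.B.d n ^ natX W.X n (Fin.natAdd 4 p) * W.B'.d n ^ x) :=
            mul_le_mul_of_nonneg_left k3 k0
        _ = W.B.d n ^ natX W.X n (Fin.natAdd 4 p) * (W.K0 * W.B'.d n ^ x) := by ring
        _ ≤ _ := mul_le_mul_of_nonneg_left k4 (Real.rpow_nonneg (W.B.pos n).le _)
    · have hd' : (Fin.natAdd 4 p : Fin 18) ∉ Dr := fun h => hd (by exact_mod_cast h)
      have k := h3 i hi i' hi' p hp' hd'
      rw [frm_coW] at k
      refine (mul_le_mul_of_nonneg_left k (pu _).le).trans (le_of_eq ?_)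
      rw [mul_left_comm, hsd]
      ring

end fin

section zoom

variable {B B' : Base} {I J : ℕ → Finset (ℕ × ℝ)}
  {kp : ℕ → ℝ} {u : ℕ → Fin 18 → ℝ} {f : ℕ → ℕ × ℝ → FW} {Y : ℕ → Fin 18 → ℝ}
  {w : ℕ → ℝ} {Tz : ℕ → ℝ} {Dr : Finset (Fin 18)} {lam : (Fin 18 → ℝ) → ℝ} {x mm : ℝ}

/-- **RELATION HALF OF `quad`**, from the interior zoom window to one `j` on a dense part -/
theorem quad_one (hZ : ZWin B B' I J (coU u kp f) monW 67 Y w (cn QW (actW ↑Dr)) Tz lam)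
    (hX : AwZ146.BasX monW (mA monW (actW ↑Dr)) (mA monW (actW ↑Dr)) Y w)
    (hgr : ∀ n, GrU (u n)) (hk1 : ∀ n, |kp n| ≤ 1)
    (hkp : B'.Sub fun n => |kp n|⁻¹) (hD : DrOk ↑Dr)
    (h97 : (9 : Fin 18) ∈ Dr → (7 : Fin 18) ∈ Dr) (hN : QdN ↑Dr lam mm) (hx : 0 < x) :
    ∃ J1 : ℕ → Finset (ℕ × ℝ), (∀ n, J1 n ⊆ J n) ∧ Dense B' J1 J ∧
      ∃ j : ℕ → ℕ × ℝ → Fin 14 → ℝ,
      (∀ n i p, p ∉ ({3, 5, 6} : Set (Fin 14)) → j n i p = 0) ∧
      (∀ ε : ℝ, 0 < ε → ∀ᶠ n in (U : Filter ℕ), ∀ i ∈ J1 n, ∀ p,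
        u n (Fin.natAdd 4 p) * |j n i p| ≤ SzQ B B' Y (↑Dr) x n ε p) ∧
      ∀ ε : ℝ, 0 < ε → ∀ᶠ n in (U : Filter ℕ), ∀ i ∈ J1 n, ∀ i' ∈ J1 n,
        zlab B I (coU u kp f) monW 67 Y w n 0 i = zlab B I (coU u kp f) monW 67 Y w n 0 i' →
        ∀ p ∈ ({3, 5, 6, 7, 8, 9, 10, 11, 12} : Set (Fin 14)), u n (Fin.natAdd 4 p) *
          |coW (kp n) (f n i) (f n i') (Fin.natAdd 4 p) -
            (j n i' p - tr (kp n) (rel (kp n) (f n i).g (f n i').g) (j n i) p)| ≤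
          ErQ B B' Y (↑Dr) x n ε p := by
  obtain ⟨J1, h1, h2, h3⟩ := qd_core hZ hX hgr hk1 hkp hD hN hx
    (RelJ u kp f {3, 5, 6} {3, 5, 6, 7, 8, 9, 10, 11, 12} (SzQ B B' Y (↑Dr) x)
      (ErQ B B' Y (↑Dr) x))
    (fun n ε G G' hG h => h.sub hG)
    (fun n ε ε' G hε h => h.weak (fun n ε ε' p => SzQ_mono n ε ε' p)
      (fun n ε ε' p => ErQ_mono n ε ε' p) hε)
    fun Gd s₀ E Mu _ hw hE ε hε => quad_relJ hw hD h97 hE hε
  obtain ⟨j, h4, h5, h6⟩ := rel_one (fun n ε ε' p => SzQ_mono n ε ε' p)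
    (fun n ε ε' p => ErQ_mono n ε ε' p) h3
  exact ⟨J1, h1, h2, j, h4, h5, h6⟩

end zoom

end Crest.Agent.R136.Qi599
end

-- ▼ part R136/Qj1_289
section

/-!
# R136, thin branch, quad / lin (helper289): natural size of the correction at `t = 0`

* `far_alg` : slots `14, 15` on one far pair (`A` not narrow) ⊢ `AB, AA` of the correction natural.
* `far_algL` : slot `16` on one far pair (`c` not narrow) ⊢ `A` of the correction natural.
* `size_quad`, `size_lin` : over windows, from far pairs.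
-/

set_option autoImplicit false
set_option linter.unusedVariables false

open Finset Filter Topology

namespace Crest.Agent.R136.Qj289

open Crest.Agent.R136.Net191
open Crest.Agent.R136.NetW191
open Crest.Agent.R136.PrW464
open Crest.Agent.R136.NatW697
open Crest.Agent.R136.LadW697
open Crest.Agent.R136.LadG697
open Crest.Agent.R136.EvW938
open Crest.Agent.R136.GauW619
open Crest.Agent.R136.AwJ774
open Crest.Agent.R136.K2S774
open Crest.Agent.R136.Qg926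
open Crest.Agent.R136.QdH887
open Crest.Agent.R138.Ex926

/-! ### algebra on one pair -/

theorem u14a {u : Fin 18 → ℝ} (hu : GrU u) : u 14 = u 3 * u 7 := by
  have := hu.mul 14 [3, 7] (by decide)
  simpa using this.symm
theorem u14b {u : Fin 18 → ℝ} (hu : GrU u) : u 14 = u 2 * u 9 := by
  have := hu.mul 14 [2, 9] (by decide)
  simpa using this.symm
theorem u15a {u : Fin 18 → ℝ} (hu : GrU u) : u 15 = u 3 * u 9 := by
  have := hu.mul 15 [3, 9] (by decide)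
  simpa using this.symm
theorem u15b {u : Fin 18 → ℝ} (hu : GrU u) : u 15 = u 2 * u 10 := by
  have := hu.mul 15 [2, 10] (by decide)
  simpa using this.symm
theorem u15c {u : Fin 18 → ℝ} (hu : GrU u) : u 15 = u 1 * u 14 := by
  have := hu.mul 15 [1, 14] (by decide)
  simpa using this.symm

theorem tr10_S {κ : ℝ} {h : Fin 4 → ℝ} {e : Fin 14 → ℝ}
    (he : ∀ p, p ∉ ({3, 5, 6} : Finset (Fin 14)) → e p = 0) :
    tr κ h e 10 = 2 * h 3 * e 3 + h 2 * e 5 := by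
  rw [tr10, he 0 (by decide), he 1 (by decide), he 2 (by decide), he 4 (by decide),
    he 7 (by decide), he 10 (by decide)]
  ring

theorem tr11_S {κ : ℝ} {h : Fin 4 → ℝ} {e : Fin 14 → ℝ}
    (he : ∀ p, p ∉ ({3, 5, 6} : Finset (Fin 14)) → e p = 0) :
    tr κ h e 11 = h 3 * e 5 + 2 * h 2 * e 6 - 2 * κ * h 1 * (2 * h 3 * e 3 + h 2 * e 5) := by
  rw [tr11, he 0 (by decide), he 1 (by decide), he 2 (by decide), he 4 (by decide),
    he 7 (by decide), he 8 (by decide), he 10 (by decide), he 11 (by decide)]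
  ring


/-- **one far pair, quad** -/
theorem far_alg {u : Fin 18 → ℝ} (hu : GrU u) {κ : ℝ} (hκ : |κ| ≤ 1) {P : Fin 18 → ℝ}
    (hP : ∀ k, 0 < P k) (p14a : P 14 = P 3 * P 7) (p14b : P 14 = P 2 * P 9)
    (p15a : P 15 = P 3 * P 9) (p15b : P 15 = P 2 * P 10) (p15c : P 15 = P 1 * P 14)
    {C0 M t : ℝ} (hC : 1 ≤ C0) (hM : 1 ≤ M) (ht : 0 < t) (ht1 : t ≤ 1)
    {e : Fin 14 → ℝ} (he : ∀ p, p ∉ ({3, 5, 6} : Finset (Fin 14)) → e p = 0) {h : Fin 4 → ℝ}
    {c14 c15 : ℝ} (h1 : u 1 * |h 1| ≤ C0 * P 1) (h2 : C0 * P 2 * t ≤ u 2 * |h 2|)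
    (h3 : u 3 * |h 3| ≤ C0 * P 3) (e3 : u 7 * |e 3| ≤ P 7 * M)
    (hc14 : u 14 * |c14| ≤ C0 * P 14) (hc15 : u 15 * |c15| ≤ C0 * P 15)
    (r14 : u 14 * |c14 + tr κ h e 10| ≤ P 14 * M) (r15 : u 15 * |c15 + tr κ h e 11| ≤ P 15 * M) :
    u 9 * |e 5| ≤ P 9 * (4 * M / t) ∧ u 10 * |e 6| ≤ P 10 * (10 * C0 * M / t ^ 2) := by
  have up := hu.pos
  have a0 : ∀ x : ℝ, 0 ≤ |x| := abs_nonneg
  rw [tr10_S he] at r14
  rw [tr11_S he] at r15
  set g : ℝ := 2 * h 3 * e 3 + h 2 * e 5 with hg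
  -- the slot 14
  have s14 : u 14 * |g| ≤ (C0 + M) * P 14 := by
    have : |g| ≤ |c14 + g| + |c14| := by
      have := abs_sub (c14 + g) c14
      rwa [add_sub_cancel_left] at this
    have h9 := mul_le_mul_of_nonneg_left this (up 14).le
    rw [mul_add] at h9
    have e9 : (C0 + M) * P 14 = P 14 * M + C0 * P 14 := by ring
    rw [e9]
    linarith
  have s37 : u 14 * |2 * h 3 * e 3| ≤ 2 * (C0 * M) * P 14 := by
    have e1 : u 14 * |2 * h 3 * e 3| = 2 * ((u 3 * |h 3|) * (u 7 * |e 3|)) := by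
      rw [u14a hu, abs_mul, abs_mul, abs_two]; ring
    rw [e1, p14a]
    have h9 := mul_le_mul h3 e3 (mul_nonneg (up 7).le (a0 _)) (mul_nonneg (by linarith) (hP 3).le)
    have e9 : 2 * (C0 * M) * (P 3 * P 7) = 2 * (C0 * P 3 * (P 7 * M)) := by ring
    rw [e9]
    linarith
  have s29 : (u 2 * |h 2|) * (u 9 * |e 5|) ≤ 4 * (C0 * M) * P 14 := by
    have e1 : (u 2 * |h 2|) * (u 9 * |e 5|) = u 14 * |h 2 * e 5| := by
      rw [u14b hu, abs_mul]; ring
    have e2 : h 2 * e 5 = g - 2 * h 3 * e 3 := by rw [hg]; ring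
    have e3' := mul_le_mul_of_nonneg_left (abs_sub g (2 * h 3 * e 3)) (up 14).le
    rw [e1, e2]
    have hM0 : (0:ℝ) ≤ M := by linarith
    have hCM : C0 + M ≤ 2 * (C0 * M) := by
      have b1 : C0 ≤ C0 * M := le_mul_of_one_le_right (by linarith) hM
      have b2 : M ≤ C0 * M := le_mul_of_one_le_left hM0 hC
      linarith
    have := mul_le_mul_of_nonneg_right hCM (hP 14).le
    rw [mul_add] at e3'
    linarith
  have k9 : u 9 * |e 5| ≤ P 9 * (4 * M / t) := by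
    have hy : 0 ≤ u 9 * |e 5| := mul_nonneg (up 9).le (a0 _)
    have h4 := (mul_le_mul_of_nonneg_right h2 hy).trans s29
    rw [p14b] at h4
    have hpos : 0 < C0 * P 2 * t := by have := hP 2; positivity
    have h5 : (C0 * P 2 * t) * (u 9 * |e 5|) ≤ (C0 * P 2 * t) * (P 9 * (4 * M / t)) := by
      refine h4.trans (le_of_eq ?_)
      field_simp
    exact le_of_mul_le_mul_left h5 hpos
  refine ⟨k9, ?_⟩
  -- the slot 15
  have hκg : u 15 * |2 * κ * h 1 * g| ≤ 2 * (C0 * (C0 + M)) * P 15 := by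
    have e1 : u 15 * |2 * κ * h 1 * g| = 2 * |κ| * ((u 1 * |h 1|) * (u 14 * |g|)) := by
      rw [u15c hu, abs_mul, abs_mul, abs_mul, abs_two]; ring
    rw [e1, p15c]
    have m1 := mul_le_mul h1 s14 (mul_nonneg (up 14).le (a0 _))
      (mul_nonneg (by linarith) (hP 1).le)
    have m2 : (0:ℝ) ≤ (u 1 * |h 1|) * (u 14 * |g|) :=
      mul_nonneg (mul_nonneg (up 1).le (a0 _)) (mul_nonneg (up 14).le (a0 _))
    calc 2 * |κ| * ((u 1 * |h 1|) * (u 14 * |g|)) ≤ 2 * 1 * ((u 1 * |h 1|) * (u 14 * |g|)) := by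
          gcongr
      _ ≤ 2 * 1 * (C0 * P 1 * ((C0 + M) * P 14)) := by gcongr
      _ = _ := by ring
  have h39 : u 15 * |h 3 * e 5| ≤ (4 * C0 * M / t) * P 15 := by
    have e1 : u 15 * |h 3 * e 5| = (u 3 * |h 3|) * (u 9 * |e 5|) := by
      rw [u15a hu, abs_mul]; ring
    rw [e1, p15a]
    refine (mul_le_mul h3 k9 (mul_nonneg (up 9).le (a0 _))
      (mul_nonneg (by linarith) (hP 3).le)).trans (le_of_eq ?_)
    ring
  have s210 : (u 2 * |h 2|) * (2 * (u 10 * |e 6|)) ≤ (10 * C0 ^ 2 * M / t) * P 15 := by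
    have e1 : (u 2 * |h 2|) * (2 * (u 10 * |e 6|)) = u 15 * |2 * h 2 * e 6| := by
      rw [u15b hu, abs_mul, abs_mul, abs_two]; ring
    have e2 : 2 * h 2 * e 6 = (c15 + (h 3 * e 5 + 2 * h 2 * e 6 - 2 * κ * h 1 * g)) - c15 -
        h 3 * e 5 + 2 * κ * h 1 * g := by ring
    rw [e1, e2]
    set G : ℝ := c15 + (h 3 * e 5 + 2 * h 2 * e 6 - 2 * κ * h 1 * g) with hG
    have t1 : |G - c15 - h 3 * e 5 + 2 * κ * h 1 * g| ≤
        |G| + |c15| + |h 3 * e 5| + |2 * κ * h 1 * g| := by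
      have b1 := abs_add_le (G - c15 - h 3 * e 5) (2 * κ * h 1 * g)
      have b2 := abs_sub (G - c15) (h 3 * e 5)
      have b3 := abs_sub G c15
      linarith
    have t2 := mul_le_mul_of_nonneg_left t1 (up 15).le
    refine t2.trans ?_
    have t3 : u 15 * (|G| + |c15| + |h 3 * e 5| + |2 * κ * h 1 * g|) =
        u 15 * |G| + u 15 * |c15| + u 15 * |h 3 * e 5| + u 15 * |2 * κ * h 1 * g| := by ring
    rw [t3]
    have hP15 := hP 15
    have hsum : u 15 * |G| + u 15 * |c15| + u 15 * |h 3 * e 5| + u 15 * |2 * κ * h 1 * g| ≤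
        (M + C0 + 4 * C0 * M / t + 2 * (C0 * (C0 + M))) * P 15 := by
      have : (M + C0 + 4 * C0 * M / t + 2 * (C0 * (C0 + M))) * P 15 = P 15 * M + C0 * P 15 +
        (4 * C0 * M / t) * P 15 + 2 * (C0 * (C0 + M)) * P 15 := by ring
      rw [this]
      linarith
    refine hsum.trans (mul_le_mul_of_nonneg_right ?_ hP15.le)
    have hM0 : (0:ℝ) ≤ M := by linarith
    have hCC : C0 ≤ C0 ^ 2 := le_self_pow₀ hC (by norm_num)
    have hM2 : M ≤ C0 ^ 2 * M := le_mul_of_one_le_left hM0 (one_le_pow₀ hC)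
    have hC2 : C0 ≤ C0 ^ 2 * M := hCC.trans (le_mul_of_one_le_right (by positivity) hM)
    have hCM2 : C0 * M ≤ C0 ^ 2 * M := mul_le_mul_of_nonneg_right hCC hM0
    have hCC2 : C0 ^ 2 ≤ C0 ^ 2 * M := le_mul_of_one_le_right (by positivity) hM
    have hX : 0 ≤ C0 ^ 2 * M := by positivity
    have hXt : C0 ^ 2 * M ≤ C0 ^ 2 * M / t := by
      rw [le_div_iff₀ ht]
      exact mul_le_of_le_one_right hX ht1
    have h4t : 4 * C0 * M / t ≤ 4 * (C0 ^ 2 * M / t) := by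
      rw [← mul_div_assoc]
      exact div_le_div_of_nonneg_right (by linarith) ht.le
    have e10 : 10 * C0 ^ 2 * M / t = 10 * (C0 ^ 2 * M / t) := by rw [← mul_div_assoc]; ring
    have e11 : 2 * (C0 * (C0 + M)) = 2 * C0 ^ 2 + 2 * (C0 * M) := by ring
    rw [e10, e11]
    linarith
  have hy : 0 ≤ 2 * (u 10 * |e 6|) := mul_nonneg two_pos.le (mul_nonneg (up 10).le (a0 _))
  have h4 := (mul_le_mul_of_nonneg_right h2 hy).trans s210
  rw [p15b] at h4
  have hpos : 0 < C0 * P 2 * t * 2 := by have := hP 2; positivity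
  have hP10 := hP 10
  have h5 : (C0 * P 2 * t * 2) * (u 10 * |e 6|) ≤
      (C0 * P 2 * t * 2) * (P 10 * (10 * C0 * M / t ^ 2)) := by
    have e1 : (C0 * P 2 * t * 2) * (u 10 * |e 6|) = C0 * P 2 * t * (2 * (u 10 * |e 6|)) := by ring
    rw [e1]
    refine h4.trans ?_
    have e2 : C0 * P 2 * t * 2 * (P 10 * (10 * C0 * M / t ^ 2)) =
        2 * (10 * C0 ^ 2 * M / t * (P 2 * P 10)) := by
      field_simp
    rw [e2]
    have : 0 ≤ 10 * C0 ^ 2 * M / t * (P 2 * P 10) := by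
      have := hP 2
      positivity
    linarith
  exact le_of_mul_le_mul_left h5 hpos


/-! ### windows -/

/-- boxes with two values -/
theorem bvm {Q : Finset (Fin 18)} (h : ∀ k ∈ Q, ∀ l ∈ mlW k, ∃ s ∈ l, s ∈ Q) {x : ℝ} (hx : 0 ≤ x)
    (Dr : Set (Fin 18)) : bv x Q ∈ cn QW (actW Dr) := by
  rw [mem_cnW]
  intro k _ l hl _
  have h0 : ∀ s, 0 ≤ bv x Q s := fun s => by
    unfold bv
    split_ifs <;> [exact hx; exact le_rfl]
  have hs : 0 ≤ (l.map (bv x Q)).sum := by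
    refine List.sum_nonneg fun y hy => ?_
    obtain ⟨t, -, rfl⟩ := List.mem_map.1 hy
    exact h0 t
  by_cases hk : k ∈ Q
  · obtain ⟨s, hsl, hsQ⟩ := h k hk l hl
    rw [bv_in hk]
    have h2 : bv x Q s ≤ (l.map (bv x Q)).sum :=
      List.single_le_sum (fun y hy => by
        obtain ⟨t, -, rfl⟩ := List.mem_map.1 hy
        exact h0 t) _ (List.mem_map_of_mem hsl)
    rwa [bv_in hsQ] at h2
  · rw [bv_out hk]; exact hs

theorem bvm0 {x : ℝ} (hx : 0 ≤ x) (Dr : Set (Fin 18)) : bv x {0} ∈ cn QW (actW Dr) :=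
  bvm (by decide) hx Dr
theorem bvm02 {x : ℝ} (hx : 0 ≤ x) (Dr : Set (Fin 18)) : bv x {0, 2} ∈ cn QW (actW Dr) :=
  bvm (by decide) hx Dr

/-- **the number for quad** : `A` costs given `z` -/
theorem num_quad {Dr : Set (Fin 18)} {lam : (Fin 18 → ℝ) → ℝ} {mm : ℝ}
    (h : Qgn887.QdN Dr lam mm) {x : ℝ} (hx : 0 < x) : lam (bv x {0, 2}) ≤ lam (bv x {0}) - x := by
  have h4 := (h.num x hx).h4
  have m3 : bv x {0, 2, 3} ∈ cn QW (actW Dr) := bvm (by decide) hx.le Dr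
  have h5 := h.sharp _ (bvm02 hx.le Dr) _ m3 (fun k => by
    unfold bv
    by_cases hk : k ∈ ({0, 2} : Finset (Fin 18))
    · have : k ∈ ({0, 2, 3} : Finset (Fin 18)) := by
        simp only [mem_insert, mem_singleton] at hk ⊢
        tauto
      rw [if_pos hk, if_pos this]
    · rw [if_neg hk]
      split_ifs <;> [exact hx.le; exact le_rfl])
  have e : ∑ s, (bv x ({0, 2, 3} : Finset (Fin 18)) s - bv x ({0, 2} : Finset (Fin 18)) s) = x := by
    rw [Finset.sum_eq_single (3 : Fin 18)]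
    · rw [bv_in (by decide), bv_out (by decide), sub_zero]
    · intro b _ hb
      by_cases hk : b ∈ ({0, 2} : Finset (Fin 18))
      · have : b ∈ ({0, 2, 3} : Finset (Fin 18)) := by
          simp only [mem_insert, mem_singleton] at hk ⊢
          tauto
        rw [bv_in hk, bv_in this, sub_self]
      · have : b ∉ ({0, 2, 3} : Finset (Fin 18)) := by
          simp only [mem_insert, mem_singleton] at hk ⊢
          tauto
        rw [bv_out hk, bv_out this, sub_self]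
    · intro h
      exact absurd (mem_univ _) h
  rw [e] at h5
  linarith

section

variable {Dr : Set (Fin 18)} {B B' : Base} {I0 J1 J2 : ℕ → Finset (ℕ × ℝ)} {κ : ℕ → ℝ}
  {u : ℕ → Fin 18 → ℝ} {F : ℕ → ℕ × ℝ → FW} {X : ℕ → Fin 18 → ℝ} {w : ℕ → ℝ}
  {a : Fin 18 → ℝ} {j : ℕ → ℕ × ℝ → Fin 14 → ℝ}

theorem powX (hb : ∀ n, B'.d n = B.d n ^ w n) (n : ℕ) (k : Fin 18) (l : List (Fin 18))
    (hl : l ∈ mlW k) : B.d n ^ natX X n k = (l.map fun s => B.d n ^ natX X n s).prod := by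
  have h1 : natX X n k = (l.map (natX X n)).sum := (grW_list _ _ _ k l hl).symm
  rw [h1]
  clear h1 hl
  induction l with
  | nil => simp
  | cons s l ih =>
    simp only [List.map_cons, List.sum_cons, List.prod_cons]
    rw [Real.rpow_add (B.pos n), ih]

/-- far pair: a box narrow in the slot `s₀` fails only in the slot `s₀` -/
theorem far_slot {n : ℕ} {i i' : ℕ × ℝ} {Q Q' : Finset (Fin 18)} {s₀ : Fin 18} {x : ℝ}
    (hQ : ∀ k, k ≠ s₀ → (k ∈ Q' ↔ k ∈ Q)) (h0 : s₀ ∈ Q') {C0 : ℝ}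
    (h1 : wbox B B' (coU u κ F) X n (bv x Q) C0 i i')
    (h2 : ¬ wbox B B' (coU u κ F) X n (bv x Q') C0 i i') :
    C0 * (B.d n ^ X n s₀ * B'.d n ^ x) ≤ |coU u κ F n i i' s₀| := by
  unfold wbox at h2
  push Not at h2
  obtain ⟨s, hs⟩ := h2
  by_cases h : s = s₀
  · subst h
    rw [bv_in h0] at hs
    exact hs.le
  · exfalso
    have h3 := h1 s
    have e : bv x Q' s = bv x Q s := by
      unfold bv
      simp only [hQ s h]
    rw [e] at hs
    exact absurd h3 (not_le.2 hs)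

/-- **natural size at `t = 0`, quad**, from far pairs -/
theorem size_quad (hb : ∀ n, B'.d n = B.d n ^ w n) (u0 : ∀ n, GrU (u n))
    (κ1 : ∀ n, |κ n| ≤ 1) (hDr : ∀ k ∈ Dr, 4 ≤ k ∧ k ≤ 13)
    (nat : ∀ n k, k ∉ Dr → X n k = natX X n k)
    (hsub : ∀ n, J2 n ⊆ J1 n)
    (supp : ∀ n i p, p ∉ ({3, 5, 6} : Finset (Fin 14)) → j n i p = 0)
    (s7 : ∀ ε : ℝ, 0 < ε → ∀ᶠ n in (U : Filter ℕ), ∀ i ∈ J1 n,
      u n 7 * |j n i 3| ≤ B.d n ^ natX X n 7 * B'.d n ^ (-ε))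
    (pair : ∀ ε : ℝ, 0 < ε → ∀ᶠ n in (U : Filter ℕ), ∀ i ∈ J1 n, ∀ i' ∈ J1 n,
      zlab B I0 (coU u κ F) monW 67 X w n a i' = zlab B I0 (coU u κ F) monW 67 X w n a i →
      ∀ p : Fin 14, p = 10 ∨ p = 11 → u n (Fin.natAdd 4 p) *
        |coW (κ n) (F n i) (F n i') (Fin.natAdd 4 p) - (j n i' p -
          tr (κ n) (rel (κ n) (F n i).g (F n i').g) (j n i) p)| ≤
            B.d n ^ natX X n (Fin.natAdd 4 p) * B'.d n ^ (-ε))
    (far : ∀ k : ℕ, ∀ᶠ n in (U : Filter ℕ), ∀ i ∈ J2 n, ∃ i' ∈ J1 n,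
      zlab B I0 (coU u κ F) monW 67 X w n a i' = zlab B I0 (coU u κ F) monW 67 X w n a i ∧
      wbox B B' (coU u κ F) X n (bv (1 / ((k : ℝ) + 1)) {0}) (cK0 monW 67) i i' ∧
      ¬ wbox B B' (coU u κ F) X n (bv (1 / ((k : ℝ) + 1)) {0, 2}) (cK0 monW 67) i i') :
    ∀ ε : ℝ, 0 < ε → ∀ᶠ n in (U : Filter ℕ), ∀ i ∈ J2 n, ∀ p : Fin 14, p = 5 ∨ p = 6 →
      u n (Fin.natAdd 4 p) * |j n i p| ≤ B.d n ^ natX X n (Fin.natAdd 4 p) * B'.d n ^ (-ε) := by
  intro ε hε
  obtain ⟨k, hk⟩ := exists_nat_one_div_lt (show 0 < ε / 8 by positivity)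
  set δ : ℝ := 1 / ((k : ℝ) + 1) with hδ
  have hδ0 : 0 < δ := by positivity
  have hC0 : (1 : ℝ) ≤ cK0 monW 67 := cK0_one (by norm_num)
  set C0 : ℝ := cK0 monW 67 with hC0e
  have nD : ∀ s : Fin 18, (s < 4 ∨ 13 < s) → s ∉ Dr := by
    intro s hs hsD
    obtain ⟨h4, h13⟩ := hDr s hsD
    rcases hs with h | h
    · exact absurd h4 (not_le.2 h)
    · exact absurd h13 (not_le.2 h)
  filter_upwards [far k, s7 (ε / 4) (by positivity), pair (ε / 4) (by positivity),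
    Crest.Agent.R136.Gf356.ev_const_le B' (t := ε / 2) (by positivity) (10 * C0)]
    with n hfar h7 hpair hc i hi p hp
  obtain ⟨i', hi', hlab, hw1, hw2⟩ := hfar i hi
  have hiJ := hsub n hi
  have hdp : ∀ v : ℝ, 0 < B'.d n ^ v := fun v => Real.rpow_pos_of_pos (B'.pos n) _
  have hBp : ∀ v : ℝ, 0 < B.d n ^ v := fun v => Real.rpow_pos_of_pos (B.pos n) _
  have hmono : ∀ {v v' : ℝ}, v ≤ v' → B'.d n ^ v' ≤ B'.d n ^ v := fun {v v'} h =>
    Real.rpow_le_rpow_of_exponent_ge (B'.pos n) (B'.lt n).le h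
  have hM : 1 ≤ B'.d n ^ (-(ε / 4)) := by
    have := hmono (v := -(ε / 4)) (v' := 0) (by linarith)
    rwa [Real.rpow_zero] at this
  have ht1 : B'.d n ^ δ ≤ 1 := by
    have := hmono (v := 0) (v' := δ) hδ0.le
    rwa [Real.rpow_zero] at this
  set P : Fin 18 → ℝ := fun s => B.d n ^ natX X n s with hP
  have hPX : ∀ s : Fin 18, (s < 4 ∨ 13 < s) → B.d n ^ X n s = P s := fun s hs => by
    rw [nat n s (nD s hs)]
  -- sizes in the fine box
  have hbox : ∀ s : Fin 18, s ≠ 0 → (s < 4 ∨ 13 < s) →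
      u n s * |coW (κ n) (F n i) (F n i') s| ≤ C0 * P s := by
    intro s hs0 hs
    have h1 := hw1 s
    rw [bv_out (by simpa using hs0), Real.rpow_zero, mul_one, hPX s hs] at h1
    have e : |coU u κ F n i i' s| = u n s * |coW (κ n) (F n i) (F n i') s| := by
      unfold coU
      rw [abs_mul, abs_of_pos ((u0 n).pos s)]
    rwa [e] at h1
  have hfr : ∀ q : Fin 4, coW (κ n) (F n i) (F n i') (Fin.castAdd 14 q) =
      rel (κ n) (F n i).g (F n i').g q := fun q => coW_left _ _ _ _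
  have h2 : C0 * P 2 * B'.d n ^ δ ≤ u n 2 * |rel (κ n) (F n i).g (F n i').g 2| := by
    have h1 := far_slot (s₀ := 2) (by decide) (by decide) hw1 hw2
    rw [hPX 2 (by decide)] at h1
    have e : |coU u κ F n i i' 2| = u n 2 * |rel (κ n) (F n i).g (F n i').g 2| := by
      unfold coU
      rw [abs_mul, abs_of_pos ((u0 n).pos 2)]
      congr 2
    rw [e] at h1
    rwa [← mul_assoc] at h1
  have e14 : (Fin.natAdd 4 (10 : Fin 14) : Fin 18) = 14 := rfl
  have e15 : (Fin.natAdd 4 (11 : Fin 14) : Fin 18) = 15 := rfl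
  have z10 : j n i' 10 = 0 := supp n i' 10 (by decide)
  have z11 : j n i' 11 = 0 := supp n i' 11 (by decide)
  have r14 := hpair i hiJ i' hi' hlab 10 (Or.inl rfl)
  have r15 := hpair i hiJ i' hi' hlab 11 (Or.inr rfl)
  rw [z10, zero_sub, sub_neg_eq_add, e14] at r14
  rw [z11, zero_sub, sub_neg_eq_add, e15] at r15
  have pw := powX (B := B) (X := X) hb n
  have key := far_alg (u := u n) (u0 n) (κ1 n) (P := P) (fun s => hBp _)
    (by have := pw 14 [3, 7] (by decide); simpa using this)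
    (by have := pw 14 [2, 9] (by decide); simpa using this)
    (by have := pw 15 [3, 9] (by decide); simpa using this)
    (by have := pw 15 [2, 10] (by decide); simpa using this)
    (by have := pw 15 [1, 14] (by decide); simpa using this)
    hC0 hM (hdp δ) ht1 (e := j n i) (fun p hp => supp n i p hp)
    (h := rel (κ n) (F n i).g (F n i').g)
    (c14 := coW (κ n) (F n i) (F n i') 14) (c15 := coW (κ n) (F n i) (F n i') 15)
    (by have := hbox 1 (by decide) (by decide); rwa [show (1 : Fin 18) = Fin.castAdd 14 1 from rfl, hfr] at this)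
    h2
    (by have := hbox 3 (by decide) (by decide); rwa [show (3 : Fin 18) = Fin.castAdd 14 3 from rfl, hfr] at this)
    (h7 i hiJ) (hbox 14 (by decide) (by decide)) (hbox 15 (by decide) (by decide)) r14 r15
  have hfin : 10 * C0 * B'.d n ^ (-(ε / 4)) / (B'.d n ^ δ) ^ 2 ≤ B'.d n ^ (-ε) := by
    rw [div_le_iff₀ (pow_pos (hdp δ) 2), ← Real.rpow_natCast, ← Real.rpow_mul (B'.pos n).le,
      ← Real.rpow_add (B'.pos n)]
    calc 10 * C0 * B'.d n ^ (-(ε / 4)) ≤ B'.d n ^ (-(ε / 2)) * B'.d n ^ (-(ε / 4)) :=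
          mul_le_mul_of_nonneg_right hc (hdp _).le
      _ = B'.d n ^ (-(ε / 2) + -(ε / 4)) := (Real.rpow_add (B'.pos n) _ _).symm
      _ ≤ _ := hmono (by push_cast; linarith)
  have hfin4 : 4 * B'.d n ^ (-(ε / 4)) / B'.d n ^ δ ≤ B'.d n ^ (-ε) := by
    rw [div_le_iff₀ (hdp δ), ← Real.rpow_add (B'.pos n)]
    have h4 : (4 : ℝ) ≤ B'.d n ^ (-(ε / 2)) := le_trans (by linarith) hc
    calc 4 * B'.d n ^ (-(ε / 4)) ≤ B'.d n ^ (-(ε / 2)) * B'.d n ^ (-(ε / 4)) :=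
          mul_le_mul_of_nonneg_right h4 (hdp _).le
      _ = B'.d n ^ (-(ε / 2) + -(ε / 4)) := (Real.rpow_add (B'.pos n) _ _).symm
      _ ≤ _ := hmono (by linarith)
  rcases hp with rfl | rfl
  · exact key.1.trans (mul_le_mul_of_nonneg_left hfin4 (hBp _).le)
  · exact key.2.trans (mul_le_mul_of_nonneg_left hfin (hBp _).le)


end

end Crest.Agent.R136.Qj289
end

-- ▼ part R136/SZ3_480
section

/-!
# R136, thin branch (helper480): 887's `hasQuadA` at the closed stage of `quad`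

* **`quad_A`** : interior point of `quad` (structure `OutA`, own profile, numbers at every base) at
  every stage over a context
* **`ob_quadA`** : the same from an object
-/

set_option autoImplicit false
set_option linter.unusedVariables false

open Finset Filter Topology

namespace Crest.Agent.R136.SZ480

open Crest.Agent.R138.Ex926
open Crest.Agent.R136.Net191
open Crest.Agent.R136.NetW191
open Crest.Agent.R136.PrW464
open Crest.Agent.R136.NatW697
open Crest.Agent.R136.LadW697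
open Crest.Agent.R136.LadT830
open Crest.Agent.R136.LadG697
open Crest.Agent.R136.EvW938
open Crest.Agent.R136.AwJ774
open Crest.Agent.R136.K2S774
open Crest.Agent.R136.K2A146
open Crest.Agent.R136.Qgn887
open Crest.Agent.R136.QdH887
open Crest.Agent.R136.ThS830
open Crest.Agent.R136.Ht887
open Crest.Agent.R136.Win887
open Crest.Agent.R136.ThB830
open Crest.Agent.R136.Top484
open Crest.Agent.R136.Bas938
open Crest.Agent.R136.Qg926
open Crest.Agent.R136.Lq196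
open Crest.Agent.R136.Dg219
open Crest.Agent.R136.Dg262 (X)
open Crest.Agent.R136.Rc146 (OutA)

variable {P : Set (Fin 18 → ℝ)} {ν own : (Fin 18 → ℝ) → ℝ} {K : ℝ} {r0 : Fin 18 → ℝ}
  {θ : Fin 3 → ℝ} {g : ℝ} {q : Fin 3 → ℝ} {V T Zs : Set (Fin 18)}
  {lam lo : (Fin 18 → ℝ) → ℝ}

/-- **stage + interior point of `quad`** with its structure (887's `hasQuadA`) -/
theorem ob_quadA (hR : RowsC) {w0 R T0 : ℝ} {B B' : Base} {I0 I : ℕ → Finset (ℕ × ℝ)} {κ : ℕ → ℝ}
    {u : ℕ → Fin 18 → ℝ} {F : ℕ → ℕ × ℝ → FW} {X' : ℕ → Fin 18 → ℝ} {w Tn To : ℕ → ℝ}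
    {PD : Set (Fin 18 → ℝ)} {c₀ : ℝ}
    (H : ZW θ g q V T w0 R T0 B B' I0 I κ u F X' w Tn To PD ν own c₀)
    (hS : SlotOkW θ (fun k => k ∈ V) (fun k => k ∈ T)) (hs : ∀ k ∈ V, KW θ k < 2)
    (hres : Res2 θ) {v1 : ℝ} (h0 : 0 < v1) (h1 : v1 < 1) :
    CtxW (Leg monW R) ν own 18 (pathW θ w0 v1) θ g q V T ∧
    ∃ lam lo, Stage QW (Leg monW R) ν own 18 (pathW θ w0 v1) (btW θ) (DlW g q) (QdW θ) (ZR θ 2)
      V 0 (btW θ) 1 (actW (DrR θ 2)) (DrR θ 2) lam lo ∧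
    ∃ z : ℝ × ℝ, z.1 < 0 ∧ ∃ k : ℕ → ℝ, (∀ l, 0 < k l) ∧ Tendsto k atTop (𝓝 0) ∧
      ∃ (lamI loI : (Fin 18 → ℝ) → ℝ) (mm : ℝ) (A : ℝ × ℝ) (φ : ℕ → (Fin 18 → ℝ) → ℝ)
        (r : ℕ → ℝ),
        IsTan (cn QW (actW (DrR θ 2))) (cn QW (actW (DrR θ 2))) lam
          (fun _ => X 0 (TD (DrR θ 2)) (btW θ) z) k lamI ∧
        IsTan (cn QW (actW (DrR θ 2))) (cn QW (actW (DrR θ 2))) lo
          (fun _ => X 0 (TD (DrR θ 2)) (btW θ) z) k loI ∧
        OutA (gC (TD (DrR θ 2)) (btW θ)) (cn QW (actW (DrR θ 2))) (TD (DrR θ 2)) (btW θ)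
          (dhC (TD (DrR θ 2)) (btW θ)) (nC (TD (DrR θ 2)) (btW θ)) lamI A φ r ∧
        -A.1 < 5 ∧ (∀ c ∈ cn QW (actW (DrR θ 2)), loI c = -(c 0)) ∧ QdN (DrR θ 2) lamI mm ∧
        ∀ v : ℝ × ℝ, QdN (DrR θ 2) (fun p => lamI (X 0 (TD (DrR θ 2)) (btW θ) v + p) -
          lamI (X 0 (TD (DrR θ 2)) (btW θ) v)) mm := by
  obtain ⟨C, lam, lo, hst⟩ := ob_quad hR H hS hs hres h0 h1
  exact ⟨C, lam, lo, hst, hasQuadA C hs hres (drR2_ok C.θ1 hres) drR2_7 drR2_9 rfl hst⟩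

end Crest.Agent.R136.SZ480
end

-- ▼ part R136/QGe_312

/-!
# R136, thin branch (helper312): the quadratic resonance, assembly

* `size_upQ` : natural sizes at `t = 0` from the law at the interior base and far partners.
* **`seamQuadG`** : `RowsC` ⊢ `SeamQuadG`.
-/

set_option autoImplicit false
set_option linter.unusedVariables false

open Finset Filter Topology

namespace Crest.Agent.R136.QG312

open Crest.Agent.R136.Net191
open Crest.Agent.R136.NetW191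
open Crest.Agent.R136.PrW464
open Crest.Agent.R136.NatW697
open Crest.Agent.R136.LadW697
open Crest.Agent.R136.LadG697
open Crest.Agent.R136.LadT830
open Crest.Agent.R136.Zpr779
open Crest.Agent.R136.Qg926
open Crest.Agent.R136.EvW938
open Crest.Agent.R136.Bas938
open Crest.Agent.R136.AwJ774
open Crest.Agent.R136.K2S774
open Crest.Agent.R136.RL478
open Crest.Agent.R136.ThS830
open Crest.Agent.R136.GauW619
open Crest.Agent.R136.Qgn887
open Crest.Agent.R136.QdH887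
open Crest.Agent.R136.SZ480
open Crest.Agent.R136.Qh831
open Crest.Agent.R136.Qj289
open Crest.Agent.R138.Ex926
open Crest.Agent.R138.Dp76 (Dense)

section size

variable {θ : Fin 3 → ℝ} {Dr : Set (Fin 18)} {B B' : Base}
  {I0 I J1 : ℕ → Finset (ℕ × ℝ)} {κ : ℕ → ℝ} {u : ℕ → Fin 18 → ℝ} {F : ℕ → ℕ × ℝ → FW}
  {Y : ℕ → Fin 18 → ℝ} {w TI : ℕ → ℝ} {lam : (Fin 18 → ℝ) → ℝ} {x mm : ℝ} {a : Fin 18 → ℝ}
  {j : ℕ → ℕ × ℝ → Fin 14 → ℝ}

theorem natX_add (n : ℕ) (k : Fin 18) : natX (fun n => Y n + w n • a) n k =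
    natX Y n k + w n * grW (a 0) (a 1) (a 17) k := by
  show grW (Y n 0 + w n * a 0) (Y n 1 + w n * a 1) (Y n 17 + w n * a 17) k = _
  rw [grW_add, grW_smul]
  rfl

theorem cn_add (ha : NatG Dr a) {c : Fin 18 → ℝ} (hc : c ∈ cn QW (actW Dr)) :
    a + c ∈ cn QW (actW Dr) := by
  rw [mem_cnW] at hc ⊢
  intro k hk l hl hs
  have h1 := hc k hk l hl hs
  have h2 := ha.list hk hl hs
  have e : (l.map (a + c)).sum = (l.map a).sum + (l.map c).sum := by
    rw [← List.sum_map_add]; rfl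
  rw [e, Pi.add_apply, h2]
  linarith

theorem zero_cn : (0 : Fin 18 → ℝ) ∈ cn QW (actW Dr) := by
  rw [mem_cnW]
  intro k hk l hl hs
  have e : l.map (0 : Fin 18 → ℝ) = List.replicate l.length 0 := by
    refine List.eq_replicate_iff.2 ⟨by simp, ?_⟩
    intro b hb
    obtain ⟨t, -, rfl⟩ := List.mem_map.1 hb
    rfl
  rw [e, List.sum_replicate, smul_zero]
  exact le_rfl

/-- **natural sizes at `t = 0`**, from the law at the interior base -/
theorem size_upQ (hZ : ZWin B B' I0 I (coU u κ F) monW 67 Y w (cn QW (actW Dr)) TI lam)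
    (u0 : ∀ n, GrU (u n)) (κ1 : ∀ n, |κ n| ≤ 1) (hDr : ∀ k ∈ Dr, 4 ≤ k ∧ k ≤ 13)
    (hY : ∀ n, NatG Dr (Y n)) (ha : NatG Dr a) (ha0 : ∀ k, 0 ≤ a k)
    (hN : QdN Dr (fun p => lam (a + p) - lam a) mm) (hJ1 : Dense B' J1 I)
    (hsup : ∀ n i p, p ∉ ({3, 5, 6} : Set (Fin 14)) → j n i p = 0)
    (hsz : ∀ ε : ℝ, 0 < ε → ∀ᶠ n in (U : Filter ℕ), ∀ i ∈ J1 n, ∀ p,
      u n (Fin.natAdd 4 p) * |j n i p| ≤ Qi599.SzQ B B' Y Dr x n ε p)
    (hpr : ∀ ε : ℝ, 0 < ε → ∀ᶠ n in (U : Filter ℕ), ∀ i ∈ J1 n, ∀ i' ∈ J1 n,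
      zlab B I0 (coU u κ F) monW 67 Y w n 0 i = zlab B I0 (coU u κ F) monW 67 Y w n 0 i' →
      ∀ p ∈ ({3, 5, 6, 7, 8, 9, 10, 11, 12} : Set (Fin 14)), u n (Fin.natAdd 4 p) *
        |coW (κ n) (F n i) (F n i') (Fin.natAdd 4 p) -
          (j n i' p - tr (κ n) (rel (κ n) (F n i).g (F n i').g) (j n i) p)| ≤
        Qi599.ErQ B B' Y Dr x n ε p)
    (g7 : (7 : Fin 18) ∈ Dr → grW (a 0) (a 1) (a 17) 7 ≤ x)
    (g7' : (7 : Fin 18) ∉ Dr → grW (a 0) (a 1) (a 17) 7 ≤ 0)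
    (g14 : grW (a 0) (a 1) (a 17) 14 ≤ x) (g15 : grW (a 0) (a 1) (a 17) 15 ≤ x) :
    ∃ J2 : ℕ → Finset (ℕ × ℝ), (∀ n, J2 n ⊆ J1 n) ∧ Dense B' J2 I ∧
      ∀ ε : ℝ, 0 < ε → ∀ᶠ n in (U : Filter ℕ), ∀ i ∈ J2 n, ∀ p : Fin 14, p = 5 ∨ p = 6 →
        u n (Fin.natAdd 4 p) * |j n i p| ≤
          B.d n ^ natX (fun n => Y n + w n • a) n (Fin.natAdd 4 p) * B'.d n ^ (-ε) := by
  have haD : a ∈ cn QW (actW Dr) := by simpa using cn_add ha (zero_cn (Dr := Dr))
  have hb := hZ.base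
  have hS := hZ.shift haD
  have hmem : ∀ {c : Fin 18 → ℝ}, c ∈ cn QW (actW Dr) → c ∈ {c | a + c ∈ cn QW (actW Dr)} :=
    fun hc => cn_add ha hc
  have hδ : ∀ k : ℕ, 0 < 1 / ((k : ℝ) + 1) := fun k => by positivity
  obtain ⟨J2, h1, h2, h3⟩ := Js893.far_dense hS hJ1 (a := -a)
    (by show a + -a ∈ cn QW (actW Dr); rw [add_neg_cancel]; exact zero_cn)
    (fun k => bv (1 / ((k : ℝ) + 1)) {0}) (fun k => bv (1 / ((k : ℝ) + 1)) {0, 2})
    (fun k => hmem (bvm0 (hδ k).le Dr)) (fun k => hmem (bvm02 (hδ k).le Dr))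
    (fun k s => by
      have h0 : 0 ≤ bv (1 / ((k : ℝ) + 1)) {0} s := by
        unfold bv
        split_ifs <;> [exact (hδ k).le; exact le_rfl]
      have := ha0 s
      simp only [Pi.neg_apply]
      linarith)
    (fun k => by
      have := num_quad hN (hδ k)
      have := hδ k
      linarith)
  have hlab : ∀ n i, zlab B I0 (coU u κ F) monW 67 (fun n => Y n + w n • a) w n (-a) i =
      zlab B I0 (coU u κ F) monW 67 Y w n 0 i := fun n i => by
    show nlab B I0 (coU u κ F) monW 67 n ((Y n + w n • a) + w n • (-a)) i =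
      nlab B I0 (coU u κ F) monW 67 n (Y n + w n • (0 : Fin 18 → ℝ)) i
    congr 1
    rw [smul_neg, smul_zero, add_zero]
    abel
  have hunit : ∀ n (k : Fin 18) (t : ℝ), B.d n ^ natX Y n k * B'.d n ^ t =
      B.d n ^ natX (fun n => Y n + w n • a) n k * B'.d n ^ (t - grW (a 0) (a 1) (a 17) k) := by
    intro n k t
    rw [natX_add, Real.rpow_add (B.pos n), Real.rpow_mul (B.pos n).le, ← hb n, mul_assoc,
      ← Real.rpow_add (B'.pos n)]
    congr 2
    ring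
  have hmono : ∀ {n : ℕ} {v v' : ℝ}, v ≤ v' → B'.d n ^ v' ≤ B'.d n ^ v := fun {n v v'} h =>
    Real.rpow_le_rpow_of_exponent_ge (B'.pos n) (B'.lt n).le h
  have hBp : ∀ n (v : ℝ), 0 < B.d n ^ v := fun n v => Real.rpow_pos_of_pos (B.pos n) _
  have hYn : ∀ n k, k ∉ Dr → Y n k = natX Y n k := fun n k hk => hY n k hk
  refine ⟨J2, h1, h2, ?_⟩
  refine size_quad (Dr := Dr) (B := B) (B' := B') (I0 := I0) (J1 := J1) (J2 := J2) (κ := κ) (u := u)
    (F := F) (X := fun n => Y n + w n • a) (w := w) (a := -a) (j := j) hb u0 κ1 hDr ?_ h1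
    (fun n i p hp => hsup n i p (by simpa using hp)) ?_ ?_ h3
  · intro n k hk
    exact ((hY n).add (ha.smul (w n))) k hk
  · intro ε hε
    filter_upwards [hsz ε hε] with n hn i hi
    have h4 := hn i hi 3
    have e : (Fin.natAdd 4 (3 : Fin 14) : Fin 18) = 7 := rfl
    refine le_trans (by simpa only [e] using h4) ?_
    by_cases h7 : (7 : Fin 18) ∈ Dr
    · rw [(szQ_le (p := 3) hYn).1 h7, e, hunit]
      exact mul_le_mul_of_nonneg_left (hmono (by have := g7 h7; linarith)) (hBp _ _).le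
    · rw [(szQ_le (p := 3) hYn).2 h7, e, hunit]
      exact mul_le_mul_of_nonneg_left (hmono (by have := g7' h7; linarith)) (hBp _ _).le
  · intro ε hε
    filter_upwards [hpr ε hε] with n hn i hi i' hi' hl p hp
    have hl' : zlab B I0 (coU u κ F) monW 67 Y w n 0 i = zlab B I0 (coU u κ F) monW 67 Y w n 0 i' := by
      rw [hlab, hlab] at hl
      exact hl.symm
    have hpQ : p ∈ ({3, 5, 6, 7, 8, 9, 10, 11, 12} : Set (Fin 14)) := by
      rcases hp with rfl | rfl <;> simp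
    refine (hn i hi i' hi' hl' p hpQ).trans ?_
    rw [erQ_eq hYn, hunit]
    refine mul_le_mul_of_nonneg_left (hmono ?_) (hBp _ _).le
    rcases hp with rfl | rfl
    · have e : (Fin.natAdd 4 (10 : Fin 14) : Fin 18) = 14 := rfl
      rw [e]; linarith
    · have e : (Fin.natAdd 4 (11 : Fin 14) : Fin 18) = 15 := rfl
      rw [e]; linarith

end size

/-- **the quadratic resonance** -/
theorem seamQuadG (hR : RowsC) : SeamQuadG := by
  intro θ g q V T capV hOb hS hs hres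
  obtain ⟨w0, R, T0, B, B', I0, I, κ, u, F, X, w, Tn, To, PD, ν, own, c₀, H, -⟩ := hOb
  have h1 := H.th1
  obtain ⟨b, D, hb, hDD, hbD⟩ := quad_b h1 hres
  obtain ⟨C, lam, lo, hst, z, hz, k, kpos, k0, lamI, loI, mm, A, φ, r, tI, tIo, hA, hA5, hlo,
    hQ, hQv⟩ := ob_quadA hR H hS hs hres (v1 := 1 / 2) (by norm_num) (by norm_num)
  have hD3 := quad_D3 hDD hbD
  obtain ⟨T1, wC, R1, big⟩ := exists_bigW θ
  have hwC : 0 ≤ wC := by have := big.T0; have := big.w0T; linarith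
  set c : ℝ := wC / θ 1 with hc
  have hc0 : 0 ≤ c := div_nonneg hwC h1.le
  set M : ℝ := c * (1 + ‖btW θ‖) with hM
  have hcM : c ≤ M := by
    have := mul_nonneg hc0 (norm_nonneg (btW θ))
    rw [hM]; linarith
  have hM0 : 0 ≤ M := hc0.trans hcM
  have hbM : ∀ k, c * btW θ k ≤ M := fun k => by
    have h2 := norm_le_pi_norm (btW θ) k
    rw [Real.norm_eq_abs] at h2
    have h3 := mul_le_mul_of_nonneg_left ((le_abs_self _).trans h2) hc0
    rw [hM]; linarith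
  obtain ⟨x, hx1, hxK, hx0⟩ := exists_prec θ c (R1 + M)
  have natT : NatG (DrR θ 2) (TD (DrR θ 2)) := by
    rw [← TDs_two]; exact natG_TDs hD3 (DrR2_lo θ)
  have naty : NatG (DrR θ 2) (Dg262.X 0 (TD (DrR θ 2)) (btW θ) z) := by
    rw [← TDs_two]; exact natG_yD hD3 (DrR2_lo θ) θ z
  obtain ⟨B2, X1, w1, h, TI, ToI, TR, ToR, lamR, loR, w1p, hp, hh, hB2, natX1, bas, ZI, ZIo, ToI0, WR,
    stR⟩ := front_winM H (v1 := 1 / 2) (by norm_num) (by norm_num) hD3 hst z.2 c naty kpos k0 tI tIo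
  set y : Fin 18 → ℝ := Dg262.X 0 (TD (DrR θ 2)) (btW θ) z with hy
  set YI : ℕ → Fin 18 → ℝ := fun n => X1 n + w1 n • y with hYI
  set XR : ℕ → Fin 18 → ℝ := fun n => X1 n + w1 n • ((z.2 - c * h n) • btW θ) with hXR
  set wu : ℕ → ℝ := fun n => w1 n * h n with hwu
  have u0 := H.u0
  have κ1 := H.κ1
  have hDok : DrOk (DrR θ 2) := drR2_ok h1 hres
  have side := quad_side hbD
  have D9 : ∀ k ∈ DrR θ 2, 4 ≤ k ∧ k ≤ 9 := fun k hk => by
    rw [← hDD, mem_coe] at hk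
    exact side.2.2.2.1 k hk
  have hle : ∀ k : Fin 18, k ≤ 9 → k ≤ 13 := by decide
  -- the relation
  obtain ⟨J1, J1s, J1d, j, jsup, jsz, jpr⟩ := Qi599.quad_one (Dr := D) (x := x) (mm := mm)
    (by rw [hDD]; exact ZI) (by rw [hDD]; exact bas) u0 κ1 WR.iw.kap (by rw [hDD]; exact hDok)
    (by rcases hbD with ⟨-, rfl⟩ | ⟨-, rfl⟩ | ⟨-, rfl⟩ <;> decide)
    (by rw [hDD]; exact hQ) (by linarith)
  rw [hDD] at jsz jpr
  have natYI : ∀ n, NatG (DrR θ 2) (YI n) := fun n => (natX1 n).add (naty.smul (w1 n))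
  -- the shift
  set a : Fin 18 → ℝ := Dg262.X 0 (TD (DrR θ 2)) (btW θ) (M, -c) with ha
  have hak : ∀ k, a k = M * TD (DrR θ 2) k - c * btW θ k := fun k => by
    rw [ha, X_zero]
    simp only [Pi.add_apply, Pi.smul_apply, smul_eq_mul]
    ring
  have nata : NatG (DrR θ 2) a := by
    rw [ha, X_zero]
    exact (natT.smul _).add ((natG_btW hD3 θ).smul _)
  have gT : ∀ k, grW (TD (DrR θ 2) 0) (TD (DrR θ 2) 1) (TD (DrR θ 2) 17) k = wz k + 2 * wn k := by
    intro k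
    have e0 : TD (DrR θ 2) 0 = 1 := by
      rw [TD_not hD3.h0, TW_of_not fun h => hD3.h0 (DrR2_lo θ _ h), saW_grW, grW_0]
    have e1 : TD (DrR θ 2) 1 = 0 := by
      rw [TD_not hD3.h1, TW_of_not fun h => hD3.h1 (DrR2_lo θ _ h), saW_grW, grW_1]
    have e17 : TD (DrR θ 2) 17 = 2 := by
      rw [TD_not hD3.h17, TW_of_not fun h => hD3.h17 (DrR2_lo θ _ h), saW_grW, grW_17]
    rw [e0, e1, e17]
    simp only [grW]
    ring
  have ga : ∀ k, grW (a 0) (a 1) (a 17) k = M * (wz k + 2 * wn k) - c * btW θ k := fun k => by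
    have e : grW (a 0) (a 1) (a 17) k = M * grW (TD (DrR θ 2) 0) (TD (DrR θ 2) 1)
        (TD (DrR θ 2) 17) k - c * grW (btW θ 0) (btW θ 1) (btW θ 17) k := by
      rw [hak, hak, hak]
      simp only [grW]
      ring
    have e2 : grW (btW θ 0) (btW θ 1) (btW θ 17) k = btW θ k := by
      simp only [btW, grW_0, grW_1, grW_17]
    rw [e, gT, e2]
  have hlo' : ∀ k, 4 ≤ k → k ∉ DrR θ 2 → 0 ≤ wc k + b := fun k h4 hk =>
    side.2.2.1 k h4 (by rwa [← hDD, mem_coe] at hk)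
  have ha0 : ∀ k, 0 ≤ a k := by
    intro k
    rw [hak]
    by_cases hk : k ∈ DrR θ 2
    · rw [TD_mem hk, mul_one]
      have := hbM k
      linarith
    · have t0 := TD_nonneg (DrR θ 2) k
      have t1 : TD (DrR θ 2) k = wz k + 2 * wn k := by
        rw [TD_not hk, TW_of_not fun h => hk (DrR2_lo θ _ h)]
        simp only [saW]
      have t2 : 0 ≤ wc k + b * wn k := by
        by_cases h4 : 4 ≤ k
        · have hn : wn k = 1 := (by decide : ∀ k : Fin 18, 4 ≤ k → wn k = 1) k h4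
          rw [hn, mul_one]
          exact hlo' k h4 hk
        · have h5 : ∀ k : Fin 18, ¬ 4 ≤ k → wn k = 0 ∧ 0 ≤ wc k := by decide
          rw [(h5 k h4).1, mul_zero, add_zero]
          exact (h5 k h4).2
      have t3 : (0 : ℝ) ≤ (wc k : ℝ) + b * wn k := by exact_mod_cast t2
      have t4 : btW θ k = TD (DrR θ 2) k - ((wc k : ℝ) + b * wn k) * θ 1 := by
        have e : (1 - θ 0) = 2 - b * θ 1 := by linarith
        rw [t1]
        simp only [btW, grW]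
        rw [e]
        ring
      have t5 : M * TD (DrR θ 2) k - c * btW θ k = (M - c) * TD (DrR θ 2) k +
          c * (((wc k : ℝ) + b * wn k) * θ 1) := by
        rw [t4]; ring
      rw [t5]
      have := mul_nonneg (sub_nonneg.2 hcM) t0
      have := mul_nonneg hc0 (mul_nonneg t3 h1.le)
      linarith
  have h70 : (7 : Fin 18) ∉ DrR θ 2 → btW θ 7 = 0 := fun h7 => by
    rw [← hDD, mem_coe] at h7
    rcases hbD with ⟨rfl, -⟩ | ⟨-, rfl⟩ | ⟨-, rfl⟩
    · rw [btW_JW2 hb (by decide)]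
      have : wc 7 + 4 = 0 := by decide
      rw [this]; simp
    · exact absurd (by decide) h7
    · exact absurd (by decide) h7
  have hR1 : 0 ≤ R1 := by have := big.T0; have := big.R0; linarith
  have w7 : (wz 7 : ℝ) + 2 * wn 7 = 0 := by
    have : wz 7 + 2 * wn 7 = 0 := by decide
    exact_mod_cast this
  have w14 : (wz 14 : ℝ) + 2 * wn 14 = 1 := by
    have : wz 14 + 2 * wn 14 = 1 := by decide
    exact_mod_cast this
  have w15 : (wz 15 : ℝ) + 2 * wn 15 = 1 := by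
    have : wz 15 + 2 * wn 15 = 1 := by decide
    exact_mod_cast this
  obtain ⟨J2, J2s, J2d, J2z⟩ := size_upQ (a := a) (x := x) ZI u0 κ1
    (fun k hk => ⟨(D9 k hk).1, hle k (D9 k hk).2⟩) natYI nata ha0 (hQv (M, -c)) J1d jsup jsz jpr
    (fun _ => by
      rw [ga, w7]
      have := (le_max_left 0 (btW θ 7)).trans (hx0 7)
      linarith)
    (fun h7 => by rw [ga, w7, h70 h7]; simp)
    (by rw [ga, w14]; have := hxK 14; linarith)
    (by rw [ga, w15]; have := hxK 15; linarith)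
  have wJ : ∀ k ∈ JW 2, (wz k : ℝ) + 2 * wn k = 0 := fun k hk => by
    have : ∀ k ∈ JW 2, wz k + 2 * wn k = 0 := by decide
    exact_mod_cast this k hk
  have hpos : ∀ n, ∀ k ∈ JW 2, natX YI n k = natX XR n k + wu n * (c * btW θ k) := by
    intro n k hk
    rw [hYI, hy, natX_posM (c := c) (h := h), gT, wJ k hk]
    simp only [mul_zero, add_zero]
    rfl
  have hbt : ∀ k ∈ JW 2, k ∉ DrR θ 2 → btW θ k ≤ 0 := fun k hk hkD => by
    have t : (0 : ℝ) ≤ ((wc k + b : ℤ) : ℝ) := by exact_mod_cast hlo' k (mem_JW.1 hk).1 hkD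
    have := mul_nonneg t h1.le
    rw [btW_JW2 hb hk]
    linarith
  have hnat2 : ∀ n, ∀ k ∈ JW 2, natX (fun n => YI n + wu n • a) n k = natX XR n k := by
    intro n k hk
    rw [natX_add, hpos n k hk, ga, wJ k hk]
    ring
  have L : JLaw θ B B2 I0 J2 κ u F XR YI {3, 5, 6} {3, 5, 6, 7, 8, 9} R1 j := by
    refine jlaw_of (s := 2) (Dr := DrR θ 2) (x := x) (c := c) hB2 hpos (fun n k hk => natYI n k hk)
      (by decide) (by decide) (Qp := {3, 5, 6, 7, 8, 9, 10, 11, 12}) ?_ hbt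
      (fun k _ => by have := hxK k; linarith) (fun k _ => hx0 k)
      (fun n i p hp => jsup n i p (by simpa using hp)) jsz jpr J2s ?_
    · intro p hp
      have : ∀ p ∈ ({3, 5, 6, 7, 8, 9} : Finset (Fin 14)),
          p ∈ ({3, 5, 6, 7, 8, 9, 10, 11, 12} : Finset (Fin 14)) := by decide
      have h5 := this p hp
      simpa using h5
    · intro p hp hpD hp0 ε hε
      have h5 : p = 3 ∨ p = 5 ∨ p = 6 := by simpa using hp
      rcases h5 with rfl | rfl | rfl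
      · exact absurd (h70 hpD) hp0.ne
      · filter_upwards [J2z ε hε] with n hn i hi
        have h6 := hn i hi 5 (Or.inl rfl)
        rwa [hnat2 n _ (by decide)] at h6
      · filter_upwards [J2z ε hε] with n hn i hi
        have h6 := hn i hi 6 (Or.inr rfl)
        rwa [hnat2 n _ (by decide)] at h6
  obtain ⟨Sd, hSd, hd⟩ := dense_sub J2d
  exact hasGau_of_law h1 H.q1 H.q2 H.q0 H.qg H.qθ H.vis (dr4_quad H.vis hs hDD hbD) capV u0 κ1 WR stR
    big side.1 side.2.1 hlo'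
    (hlo0_quad hb hDD hbD) (fun n => (J2s n).trans (J1s n)) hSd hd
    (by
      filter_upwards [ZI.legal 0] with n hn
      have h5 := hn 0 ZI.zero (by simp)
      rwa [smul_zero, add_zero] at h5)
    (by
      filter_upwards [posM_le (c := c) w1p hp hh hz (TD_nonneg (DrR θ 2))
        (ha_quad h1 hb hDok wC)] with n hn k
      exact hn k)
    (by decide) (by decide)
    (fun p hpJ hpV => by
      have h5 := vis_quad H.vis hs _ hpV
      have h6 : ∀ p ∈ ({3, 5, 6, 7, 8, 9} : Finset (Fin 14)),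
          (Fin.natAdd 4 p : Fin 18) ≠ 14 ∧ (Fin.natAdd 4 p : Fin 18) ≠ 15 := by decide
      exact h5.elim (h6 p hpJ).1 (h6 p hpJ).2)
    le_rfl L
    (fun k hk => Or.inl (by
      have h5 : ∀ k ∈ JW 2, ∃ p ∈ ({3, 5, 6, 7, 8, 9} : Finset (Fin 14)), k = Fin.natAdd 4 p := by
        decide
      exact h5 k (mem_coe.1 hk)))


end Crest.Agent.R136.QG312
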