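import Mathlib
import Crest.Agent.R136.Deep6_51
import Crest.Agent.R136.Eng3_904
import Crest.Agent.R136.Two3_904
import Crest.Agent.R136.Pl2W_102
import Crest.Agent.R136.DAl_879
import Crest.Agent.R136.Pl2C_860
import Crest.Agent.R136.DAl7_879
import Crest.Agent.R136.Plw1_102
import Crest.Agent.R136.Pl2Def_860
import Crest.Agent.R136.Kil8_327_Mg
import Crest.Agent.R136.Ndk_335
import Crest.Agent.R136.Prs2_262
import Crest.Agent.R136.HulW_565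
import Crest.Agent.R138.ArgM1_163
import Crest.Agent.R136.Asm3_102
import Crest.Agent.R136.Tlt1_51
import Crest.Agent.R136.Alr_877
import Crest.Agent.R136.SmT_163

-- ▼ part R136/Eng4_904
section

/-!
# R136 (U5 TILT): the deep count for the marks, one stage (helper904)

`Core` : hypotheses of the deep count at an incidence; `core_fin` : `tilt_num` for the marks of two
levels.
-/

set_option autoImplicit false
set_option linter.unusedVariables false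
set_option linter.unusedSectionVars false

open Finset Filter Topology

namespace Crest.Agent.R136.Eng904

open Crest.Agent.R138.Ex926 Crest.Agent.R138.Dp76
open Crest.Agent.R138.Mk163 (zc zl rho alive own)
open Crest.Agent.R138.MkRef627 (lc)
open Crest.Agent.R136.MkA627 (Geo MkA ampA fib_bounds)
open Crest.Agent.R136.Dia770 (extO DeepP)
open Crest.Agent.R136.Deep51 Crest.Agent.R136.Tlt51 Crest.Agent.R136.Top484
open Crest.Agent.R136.Sh605 Crest.Agent.R136.K4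

/-- hypotheses of the deep count at the incidence `x` : base level `b`, other level `c`,
coincidence at the scale `s`, capture with `θ`, `τ`. -/
structure Core (D : Dat4) (n : ℕ) (b c : ℚ) (s lam τ θ A : ℝ) (N : ℕ) (x : ℕ × ℝ) : Prop where
  coin : CoinC (mk4 D n b x).e (mk4 D n b x).w (mk4 D n b x).q (mk4 D n c x).e (mk4 D n c x).c
    (mk4 D n c x).w (mk4 D n c x).q (mk4 D n c x).a A (s / lam * (mk4 D n b x).w 1)
    (s * (mk4 D n b x).w 2) (D.L n x.1) (zx D n (max b c) x) (rh D n (max b c))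
  g : |dt ((mk4 D n b x).e 1) ((mk4 D n c x).e 2)| * (mk4 D n b x).w 1 ≤
    lam * (mk4 D n b x).w 2
  g' : |dt ((mk4 D n b x).e 2) ((mk4 D n c x).e 1)| * (mk4 D n b x).w 1 ≤
    lam * (mk4 D n b x).w 2
  w0 : 16 * A ≤ (mk4 D n b x).w 0
  cap : ∃ ζ0 : Fin 2 → ℝ, ∀ ζ, zx D n (max b c) x ≤ ζ →
    ζ ≤ zx D n (max b c) x + rh D n (max b c) → (∀ i, θ * rh D n (max b c) ≤ |ζ - ζ0 i|) →
    ∃ V : Fin N → V3, ∀ t : Ln4, InP t (mk4 D n b x) (zx D n b x) (rh D n b) →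
      InP t (mk4 D n c x) (zx D n c x) (rh D n c) →
      |dt ((mk4 D n b x).e 1) (t.pos ζ - (D.L n x.1).pos ζ)| ≤ s * (mk4 D n b x).w 1 →
      |dt ((mk4 D n b x).e 2) (t.pos ζ - (D.L n x.1).pos ζ)| ≤ s * (mk4 D n b x).w 2 →
        ∃ l, |dt ((mk4 D n b x).e 1) (t.v - V l)| * rh D n (max b c) ≤
            τ * (mk4 D n b x).w 1 ∧
          |dt ((mk4 D n b x).e 2) (t.v - V l)| * rh D n (max b c) ≤
            lam * τ * (mk4 D n b x).w 2

theorem choose_k {y z : ℝ} (hy : 0 < y) (h : y ≤ z) :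
    ∃ k : ℕ, (2:ℝ) ^ k * y ≤ z ∧ z ≤ 2 * (2 ^ k * y) := by
  obtain ⟨k, h1, h2⟩ := exists_nat_pow_near (x := z / y) (y := 2) (by rwa [le_div_iff₀ hy, one_mul])
    one_lt_two
  rw [le_div_iff₀ hy] at h1
  rw [div_lt_iff₀ hy, pow_succ] at h2
  exact ⟨k, h1, by nlinarith⟩

theorem rho_add (i k : ℕ) : rho (i + k) = rho i / 2 ^ k := by
  unfold Crest.Agent.R138.Mk163.rho
  rw [pow_add, div_div]

theorem aux1 {X s lam : ℝ} (hX : 1 ≤ X) (hs : 0 < s) (hl : 1 ≤ lam) (h : 2 ^ 10 * X ^ 8 * s ≤ 1) :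
    X ^ 6 * s ≤ lam := by
  have h1 : X ^ 6 ≤ X ^ 8 := pow_le_pow_right₀ hX (by norm_num)
  have h2 : X ^ 6 * s ≤ X ^ 8 * s := mul_le_mul_of_nonneg_right h1 hs.le
  have h3 : 0 ≤ X ^ 8 * s := by positivity
  have h4 : 2 ^ 10 * X ^ 8 * s = 2 ^ 10 * (X ^ 8 * s) := by ring
  rw [h4] at h
  linarith

theorem aux2 {X s lam τ : ℝ} (hX : 1 ≤ X) (hτ : 0 < τ) (hl : 1 ≤ lam) (h : s ≤ lam * τ) :
    X ^ 4 * s ≤ 64 * lam * (X ^ 4 * τ) := by
  have h1 : X ^ 4 * s ≤ X ^ 4 * (lam * τ) := mul_le_mul_of_nonneg_left h (by positivity)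
  have h2 : 0 ≤ X ^ 4 * (lam * τ) := by positivity
  have h3 : 64 * lam * (X ^ 4 * τ) = 64 * (X ^ 4 * (lam * τ)) := by ring
  rw [h3]
  linarith

theorem aux3 {X s lam τ : ℝ} {k k2 : ℕ} (hX : 1 ≤ X) (hs : 0 < s) (hl : 1 ≤ lam) (hτ : 0 < τ)
    (h1 : lam ≤ 2 * (2 ^ k * (X ^ 6 * s))) (h2 : (2:ℝ) ^ k2 * (X ^ 4 * s) ≤ 64 * lam * (X ^ 4 * τ))
    (h3 : 128 * X ^ 6 * τ ≤ 1) : k2 ≤ k := by
  have e1 : (2:ℝ) ^ k2 * (X ^ 4 * s) ≤ 2 ^ k * (X ^ 4 * s) := by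
    calc (2:ℝ) ^ k2 * (X ^ 4 * s) ≤ 64 * lam * (X ^ 4 * τ) := h2
      _ = lam * (64 * (X ^ 4 * τ)) := by ring
      _ ≤ 2 * (2 ^ k * (X ^ 6 * s)) * (64 * (X ^ 4 * τ)) :=
          mul_le_mul_of_nonneg_right h1 (by positivity)
      _ = (2 ^ k * (X ^ 4 * s)) * (128 * X ^ 6 * τ) := by ring
      _ ≤ (2 ^ k * (X ^ 4 * s)) * 1 := mul_le_mul_of_nonneg_left h3 (by positivity)
      _ = _ := mul_one _
  have e2 : (2:ℝ) ^ k2 ≤ 2 ^ k := le_of_mul_le_mul_right e1 (by positivity)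
  exact (pow_le_pow_iff_right₀ (by norm_num : (1:ℝ) < 2)).1 e2

theorem aux4 {X s lam r w0 w1 w2 A ρ : ℝ} {k : ℕ} (hX : 1 ≤ X) (hs : 0 < s) (hl : 1 ≤ lam)
    (hr : 0 < r) (hρ : 0 < ρ) (h1 : (2:ℝ) ^ k * (X ^ 6 * s) ≤ lam) (h2 : lam * w2 ≤ 2 * w1)
    (h3 : w1 ≤ X * ρ) (h4 : r ≤ w0) (h5 : w0 ≤ A) (h6 : 64 * A ≤ X ^ 4 * s * w2) :
    r * 2 ^ k ≤ ρ := by
  have e1 : lam * (64 * r) ≤ 2 * (X ^ 5 * s * ρ) := by
    have d1 : 64 * r ≤ X ^ 4 * s * w2 := by linarith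
    calc lam * (64 * r) ≤ lam * (X ^ 4 * s * w2) := mul_le_mul_of_nonneg_left d1 (by linarith)
      _ = X ^ 4 * s * (lam * w2) := by ring
      _ ≤ X ^ 4 * s * (2 * (X * ρ)) :=
          mul_le_mul_of_nonneg_left (h2.trans (mul_le_mul_of_nonneg_left h3 (by norm_num)))
            (by positivity)
      _ = _ := by ring
  have e0 : X ^ 5 ≤ X ^ 6 := pow_le_pow_right₀ hX (by norm_num)
  have e2 : X ^ 5 * s * ρ * 2 ^ k ≤ lam * ρ := by
    calc X ^ 5 * s * ρ * 2 ^ k = X ^ 5 * (s * ρ * 2 ^ k) := by ring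
      _ ≤ X ^ 6 * (s * ρ * 2 ^ k) := mul_le_mul_of_nonneg_right e0 (by positivity)
      _ = (2 ^ k * (X ^ 6 * s)) * ρ := by ring
      _ ≤ _ := mul_le_mul_of_nonneg_right h1 hρ.le
  have e3 : lam * (64 * (r * 2 ^ k)) ≤ lam * (2 * ρ) := by
    calc lam * (64 * (r * 2 ^ k)) = lam * (64 * r) * 2 ^ k := by ring
      _ ≤ 2 * (X ^ 5 * s * ρ) * 2 ^ k := mul_le_mul_of_nonneg_right e1 (by positivity)
      _ = 2 * (X ^ 5 * s * ρ * 2 ^ k) := by ring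
      _ ≤ 2 * (lam * ρ) := mul_le_mul_of_nonneg_left e2 (by norm_num)
      _ = _ := by ring
  have e4 := le_of_mul_le_mul_left e3 (by linarith)
  have e5 : 0 < r * 2 ^ k := by positivity
  linarith




variable {η : ℝ} {p : Par4} {D : Dat4}



end Crest.Agent.R136.Eng904
end

-- ▼ part R136/EngM_904
section

/-!
# R136 (U5 TILT): the deep count for sequences (helper904)

`core_seqM` : `tilt_num` on the part given by `engineM`.
-/

set_option autoImplicit false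
set_option linter.unusedVariables false
set_option linter.unusedSectionVars false

open Finset Filter Topology

namespace Crest.Agent.R136.Eng904

open Crest.Agent.R138.Ex926 Crest.Agent.R138.Dp76
open Crest.Agent.R138.Mk163 (zc zl rho alive own)
open Crest.Agent.R138.MkRef627 (lc)
open Crest.Agent.R136.MkA627 (Geo MkA ampA fib_bounds)
open Crest.Agent.R136.Dia770 (extO DeepP)
open Crest.Agent.R136.Deep51 Crest.Agent.R136.Tlt51 Crest.Agent.R136.Top484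
open Crest.Agent.R136.Sh605 Crest.Agent.R136.K4

variable {p : Par4} {D : Dat4}

/-- marked sequence of the data -/
abbrev MkD (p : Par4) (D : Dat4) : Prop :=
  MkA D.B D.I (D.G p) D.lev D.A (fun v => p.g * v) (fun v => 0 * v)
    (fun j v => p.θ j * (1 - v)) D.f D.b D.vm D.w

/-- numbers of one stage -/
structure NumAt (p : Par4) (D : Dat4) (n : ℕ) (b c : ℚ) (s lam τ θ A X E : ℝ) : Prop where
  X1 : 1 ≤ X
  X2 : 2 ≤ X
  s0 : 0 < s
  l1 : 1 ≤ lam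
  τ0 : 0 < τ
  θ0 : 0 ≤ θ
  sτ : s ≤ lam * τ
  lw : lam * D.w 2 n b ≤ 2 * D.w 1 n b
  n1 : 32 * X * θ ≤ 1
  n2 : 2 ^ 10 * X ^ 8 * s ≤ 1
  n3 : 128 * X ^ 6 * τ ≤ 1
  wp : ∀ j, 0 < D.w j n b
  K : ∀ j, D.w j n b ≤ X * D.w j n c ∧ D.w j n c ≤ X * D.w j n b
  lb : D.lev n b ≤ D.lev n (max b c)
  lc : D.lev n c ≤ D.lev n (max b c)
  cl : (2:ℝ) ^ D.lev n (max b c) ≤ X * 2 ^ D.lev n b
  cl' : (2:ℝ) ^ D.lev n (max b c) ≤ X * 2 ^ D.lev n c
  cr : D.w 1 n b ≤ X * rho (D.lev n (max b c))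
  r0 : D.r0 n ≤ D.w 0 n b
  aA : D.w 0 n b ≤ A
  Aa : A ≤ X * D.w 0 n b
  aA' : D.w 0 n c ≤ A
  As : 64 * A ≤ X ^ 4 * s * D.w 2 n b
  hE : D.B.d n ^ (-E) ≤ X
  gb : D.B.d n ^ (-(p.g * (((max b c : ℚ) : ℝ) - b) + E)) ≤ X
  gc : D.B.d n ^ (-(p.g * (((max b c : ℚ) : ℝ) - c) + E)) ≤ X

/-- choice of the levels -/
structure LevAt (s lam τ X : ℝ) (k k2 : ℕ) : Prop where
  a1 : (2:ℝ) ^ k * (X ^ 6 * s) ≤ lam
  a2 : lam ≤ 2 * (2 ^ k * (X ^ 6 * s))
  a3 : (2:ℝ) ^ k2 * (X ^ 4 * s) ≤ 64 * lam * (X ^ 4 * τ)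
  a4 : 64 * lam * (X ^ 4 * τ) ≤ 2 * (2 ^ k2 * (X ^ 4 * s))

theorem LevAt.ex {n : ℕ} {b c : ℚ} {s lam τ θ A X E : ℝ}
    (h : NumAt p D n b c s lam τ θ A X E) : ∃ k k2 : ℕ, LevAt s lam τ X k k2 := by
  have hX := h.X1
  have hs := h.s0
  have hX0 : 0 < X := by linarith
  obtain ⟨k, hk⟩ := choose_k (y := X ^ 6 * s) (by positivity) (aux1 hX hs h.l1 h.n2)
  obtain ⟨k2, hk2⟩ := choose_k (y := X ^ 4 * s) (by positivity) (aux2 hX h.τ0 h.l1 h.sτ)
  exact ⟨k, k2, hk.1, hk.2, hk2.1, hk2.2⟩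

theorem NumAt.kk {n : ℕ} {b c : ℚ} {s lam τ θ A X E : ℝ} {k k2 : ℕ}
    (h : NumAt p D n b c s lam τ θ A X E) (hl : LevAt s lam τ X k k2) : k2 ≤ k :=
  aux3 h.X1 h.s0 h.l1 h.τ0 hl.a2 hl.a3 h.n3

theorem NumAt.rr {n : ℕ} {b c : ℚ} {s lam τ θ A X E : ℝ} {k k2 : ℕ} (hr : 0 < D.r0 n)
    (h : NumAt p D n b c s lam τ θ A X E) (hl : LevAt s lam τ X k k2) :
    D.r0 n ≤ rho (D.lev n (max b c) + k) := by
  rw [rho_add, le_div_iff₀ (by positivity)]
  exact aux4 h.X1 h.s0 h.l1 hr (rho_pos _) hl.a1 h.lw h.cr h.r0 h.aA h.As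

open Classical in
/-- output of `engine` at one stage -/
structure OutAt (p : Par4) (D : Dat4) (n : ℕ) (u v : ℚ) (J : Finset (ℕ × ℝ)) (k k2 : ℕ) (E : ℝ)
    (P : Finset (ℕ × ℤ)) : Prop where
  ne : P.Nonempty
  F3 : ∀ o ∈ P, ∃ x ∈ J, lc (D.lev n v) x = par (D.lev n v) (D.lev n v + k) o ∧
        lc (D.lev n u) x = par (D.lev n u) (D.lev n v + k) o
  F1 : ∀ o ∈ P, (2:ℝ) ^ (D.lev n v + k - D.lev n v) *
        (ampA D.B D.A (fun v => p.g * v) n v * D.vm n v) ≤ D.B.d n ^ (-E) *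
        ((P.filter fun y => clQ (D.lev n v) (D.lev n v + k) (D.f n v) y =
          clQ (D.lev n v) (D.lev n v + k) (D.f n v) o).card : ℝ)
  F1' : ∀ o ∈ P, (2:ℝ) ^ (D.lev n v + k - D.lev n u) *
        (ampA D.B D.A (fun v => p.g * v) n u * D.vm n u) ≤ D.B.d n ^ (-E) *
        ((P.filter fun y => clQ (D.lev n u) (D.lev n v + k) (D.f n u) y =
          clQ (D.lev n u) (D.lev n v + k) (D.f n u) o).card : ℝ)
  F2 : ∀ o ∈ P, (2:ℝ) ^ (D.lev n v + k - D.lev n v) ≤ D.B.d n ^ (-E) *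
        ((P.filter fun y => y.1 = o.1 ∧
          anc (D.lev n v) (D.lev n v + k) y.2 = anc (D.lev n v) (D.lev n v + k) o.2).card : ℝ)
  F4 : ∀ (j : ℤ) (s : Plk4), (D.G p).adm n (D.lev n v + k) j s →
        ((P.filter fun o => o.2 = j ∧ (D.G p).mem n (D.lev n v + k) j s o.1).card : ℝ) ≤
          D.B.d n ^ (-E) * (D.A n * D.B.d n ^ (-(p.g * v))) *
            2 ^ ((p.g + E) * (((D.lev n v + k : ℕ) : ℝ) - D.lev n v)) *
            (D.G p).val n (D.lev n v + k) j s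
  F4' : ∀ (j : ℤ) (s : Plk4), (D.G p).adm n (D.lev n v + k2) j s →
        (((P.image (par (D.lev n v + k2) (D.lev n v + k))).filter fun o => o.2 = j ∧
          (D.G p).mem n (D.lev n v + k2) j s o.1).card : ℝ) ≤
          D.B.d n ^ (-E) * (D.A n * D.B.d n ^ (-(p.g * v))) *
            2 ^ ((p.g + E) * (((D.lev n v + k2 : ℕ) : ℝ) - D.lev n v)) *
            (D.G p).val n (D.lev n v + k2) j s



theorem ratio_rw (hmka : MkD p D) {K : ℝ}
    (hK : ∀ k : Fin 3, |1 - p.θ k| ≤ K) {b c : ℚ} (hb0 : 0 ≤ b) (hb1 : b ≤ 1) (hc0 : 0 ≤ c)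
    (hc1 : c ≤ 1) {ε : ℝ} (hε : 0 < ε) : ∀ᶠ n in (U : Filter ℕ), ∀ k : Fin 3, 0 < D.w k n b ∧
      0 < D.w k n c ∧ D.w k n b ≤ D.B.d n ^ (-(K * |(b:ℝ) - c| + ε)) * D.w k n c ∧
      D.w k n c ≤ D.B.d n ^ (-(K * |(b:ℝ) - c| + ε)) * D.w k n b := by
  rw [eventually_all]
  intro k
  have h1 := w_ratio hmka k hb0 hb1 hc0 hc1 (hK k) hε
  have h2 := w_ratio hmka k hc0 hc1 hb0 hb1 (hK k) hε
  rw [abs_sub_comm (c:ℝ) b] at h2
  filter_upwards [h1, h2, hmka.wpos k b hb0 hb1, hmka.wpos k c hc0 hc1] with n a1 a2 a3 a4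
  exact ⟨a3, a4, a1, a2⟩

theorem d_mono (B : Base) (n : ℕ) {x y : ℝ} (h : x ≤ y) : B.d n ^ (-x) ≤ B.d n ^ (-y) :=
  Real.rpow_le_rpow_of_exponent_ge (B.pos n) (B.lt n).le (by linarith)





end Crest.Agent.R136.Eng904
end

-- ▼ part R136/Two4_904
section

/-!
# R136 (U4, PLAN 2): two systems of marks in one cell (helper904)

`two1_seqM` : the data `Pl2W102.Two1` from a dense part of the incidences, D-max at the marked levels
only.
-/

set_option autoImplicit false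
set_option linter.unusedVariables false
set_option maxHeartbeats 400000

open Finset Filter Topology

namespace Crest.Agent.R136.Eng904

open Crest.Agent.R138.Ex926 Crest.Agent.R138.Dp76
open Crest.Agent.R138.Mk163 (zc zl rho alive own)
open Crest.Agent.R138.MkRef627 (lc)
open Crest.Agent.R136.MkA627 (Geo MkA ampA fib_bounds)
open Crest.Agent.R136.Deep51 Crest.Agent.R136.Tlt51 Crest.Agent.R136.Top484
open Crest.Agent.R136.Sh605 Crest.Agent.R136.K4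
open Crest.Agent.R136.Pl2W102 (Near Two1)
open Crest.Agent.R136.Phc248 (phC phC_nonneg)
open Crest.Agent.R136.DAl879 (vmk DAll)

/-- the sub-cell in its ancestor -/
theorem sub_cell {i m : ℕ} (h : i ≤ m) (j : ℤ) :
    zl i (anc i m j) ≤ zl m j ∧ zl m j + rho m ≤ zl i (anc i m j) + rho i := by
  obtain ⟨h1, h2⟩ := (anc_eq (i := i) (m := m) (j := j) (J := anc i m j)).1 rfl
  have e : (2:ℝ) ^ m = 2 ^ (m - i) * 2 ^ i := by rw [← pow_add]; congr 1; omega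
  have p1 : (0:ℝ) < 2 ^ (m - i) := by positivity
  have p2 : (0:ℝ) < 2 ^ i := by positivity
  have h1' : (2:ℝ) ^ (m - i) * (anc i m j : ℝ) ≤ j := by exact_mod_cast h1
  have h2' : (j : ℝ) + 1 ≤ (2:ℝ) ^ (m - i) * ((anc i m j : ℝ) + 1) := by
    have : j + 1 ≤ 2 ^ (m - i) * (anc i m j + 1) := h2
    exact_mod_cast this
  unfold Crest.Agent.R138.Mk163.zl Crest.Agent.R138.Mk163.rho
  constructor
  · rw [e, div_le_div_iff₀ p2 (by positivity)]
    have := mul_le_mul_of_nonneg_right h1' p2.le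
    linarith
  · rw [← add_div, ← add_div, e, div_le_div_iff₀ (by positivity) p2]
    have := mul_le_mul_of_nonneg_right h2' p2.le
    linarith

theorem shp_in {S : Plk4} {z0 ρ z1 ρ1 r : ℝ} (h : Shp S z1 ρ1 r) (h0 : z1 ≤ z0)
    (h1 : z0 + ρ ≤ z1 + ρ1) : Shp S z0 ρ r :=
  { ortho := h.ortho
    isQ := h.isQ
    a_le0 := h.a_le0
    w0_le := h.w0_le
    w_le := h.w_le
    r0_le := h.r0_le
    st0 := fun z a b => h.st0 z (h0.trans a) (b.trans h1)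
    sl1 := fun z a b => h.sl1 z (h0.trans a) (b.trans h1)
    sl2 := fun z a b => h.sl2 z (h0.trans a) (b.trans h1) }

theorem inP_in {S : Plk4} {t : Ln4} {z0 ρ z1 ρ1 : ℝ} (h : InP t S z1 ρ1) (h0 : z1 ≤ z0)
    (h1 : z0 + ρ ≤ z1 + ρ1) : InP t S z0 ρ :=
  fun z a b => h z (h0.trans a) (b.trans h1)

/-- size of the marks of two levels -/
theorem vmk_le {q : Fin 3 → ℝ} (hq : ∀ k, 0 ≤ q k) {ρ ρ' X : ℝ} {w w' : Fin 3 → ℝ} (hX : 1 ≤ X)
    (hρ : 0 < ρ) (hρ' : 0 < ρ') (hw : ∀ k, 0 < w k) (hw' : ∀ k, 0 < w' k)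
    (h1 : ∀ k, w' k ≤ X * w k) (h2 : ρ ≤ X * ρ') :
    vmk q ρ' (w' 0) (w' 1) (w' 2) ≤ X ^ (3 + 2 * (q 0 + q 1 + q 2)) *
      vmk q ρ (w 0) (w 1) (w 2) := by
  have hX0 : 0 < X := by linarith
  have hr : ∀ k, w' k / ρ' ≤ X ^ (2:ℝ) * (w k / ρ) := by
    intro k
    rw [div_le_iff₀ hρ']
    have h3 : w k / ρ * ρ ≤ w k / ρ * (X * ρ') :=
      mul_le_mul_of_nonneg_left h2 (div_pos (hw k) hρ).le
    rw [div_mul_cancel₀ _ hρ.ne'] at h3
    have h4 := mul_le_mul_of_nonneg_left h3 hX0.le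
    have e : X ^ (2:ℝ) = X * X := by
      rw [show (2:ℝ) = ((2:ℕ):ℝ) by norm_num, Real.rpow_natCast]; ring
    rw [e]
    calc w' k ≤ X * w k := h1 k
      _ ≤ X * (w k / ρ * (X * ρ')) := h4
      _ = _ := by ring
  have h := valr_le hq hρ hρ' (hw 0) (hw 1) (hw 2) (hw' 0).le (hw' 1).le (hw' 2).le hX0.le hX0.le
    hX0.le (Real.rpow_nonneg hX0.le _) (Real.rpow_nonneg hX0.le _) (Real.rpow_nonneg hX0.le _)
    (h1 0) (h1 1) (h1 2) (hr 0) (hr 1) (hr 2)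
  have e : X * X * X * ((X ^ (2:ℝ)) ^ q 0 * (X ^ (2:ℝ)) ^ q 1 * (X ^ (2:ℝ)) ^ q 2) =
      X ^ (3 + 2 * (q 0 + q 1 + q 2)) := by
    have e3 : X * X * X = X ^ (3:ℝ) := by
      rw [show (3:ℝ) = ((3:ℕ):ℝ) by norm_num, Real.rpow_natCast]; ring
    rw [e3, ← Real.rpow_mul hX0.le, ← Real.rpow_mul hX0.le, ← Real.rpow_mul hX0.le,
      ← Real.rpow_add hX0, ← Real.rpow_add hX0, ← Real.rpow_add hX0]
    congr 1; ring
  rw [e] at h
  exact h

variable {η : ℝ} {p : Par4} {D : Dat4}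

/-- size of the classes at the level `v` -/
noncomputable def cls (p : Par4) (D : Dat4) (n : ℕ) (v : ℚ) : ℝ :=
  D.A n * D.B.d n ^ (-(p.g * v)) * vmk p.q (rho (D.lev n v)) (D.w 0 n v) (D.w 1 n v) (D.w 2 n v)

open Classical in
/-- **two systems of marks in one cell** -/
theorem two1_seqE (hmka : MkD p D) (hq : ∀ k, 0 ≤ p.q k) (hg : 0 ≤ p.g) (hr0 : ∀ n, 0 < D.r0 n)
    (hlog : ∀ ε : ℝ, 0 < ε → ∀ᶠ n in (U : Filter ℕ), Real.log (1 / D.r0 n) ≤ D.B.d n ^ (-ε))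
    (hvel : ∀ᶠ n in (U : Filter ℕ), ∀ x ∈ D.I n, ∀ i, |(D.L n x.1).v i| ≤ 1)
    {qm qp : Fin 3 → ℝ} (hD : DAll D.B D.I D.L D.lev D.A p.g p.q D.r0 D.w qm qp) :
    ∃ C : ℝ, 0 ≤ C ∧ ∀ b c : ℚ, 0 ≤ b → b ≤ 1 → 0 ≤ c → c ≤ 1 → ∀ ε : ℝ, 0 < ε →
    ∀ J : ℕ → Finset (ℕ × ℝ), Dense D.B J D.I →
    ∀ᶠ n in (U : Filter ℕ), ∃ (j : ℤ) (Q : Finset ℕ) (cu cv : ℕ → ℕ), Q.Nonempty ∧
      Two1 qm qp (D.L n) Q cu cv (D.b n b) (D.b n c) (D.B.d n ^ (-(C * |(b:ℝ) - c| + ε)))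
        (cls p D n (max b c)) (D.w 0 n (max b c)) (D.w 1 n (max b c)) (D.w 2 n (max b c)) (zl (D.lev n (max b c)) j)
        (rh D n (max b c)) (D.r0 n) ∧
      ∀ t ∈ Q, ∃ x ∈ J n, x.1 = t ∧ zc (D.lev n (max b c)) x.2 = j ∧
        zx D n (max b c) x = zl (D.lev n (max b c)) j ∧
        D.b n b (cu t) = mk4 D n b x ∧ D.b n c (cv t) = mk4 D n c x := by
  obtain ⟨K, hK1, hK⟩ : ∃ K : ℝ, 1 ≤ K ∧ ∀ k : Fin 3, |1 - p.θ k| ≤ K := by
    have h0 := abs_nonneg (1 - p.θ 0)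
    have h1 := abs_nonneg (1 - p.θ 1)
    have h2 := abs_nonneg (1 - p.θ 2)
    refine ⟨|1 - p.θ 0| + |1 - p.θ 1| + |1 - p.θ 2| + 1, by linarith, fun k => ?_⟩
    fin_cases k
    · show |1 - p.θ 0| ≤ _
      linarith
    · show |1 - p.θ 1| ≤ _
      linarith
    · show |1 - p.θ 2| ≤ _
      linarith
  have hQ := add_nonneg (add_nonneg (hq 0) (hq 1)) (hq 2)
  set N : ℝ := 3 + 2 * (p.q 0 + p.q 1 + p.q 2) with hN
  have hN3 : 3 ≤ N := by rw [hN]; linarith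
  have hNK : 0 ≤ N * K := mul_nonneg (by linarith) (by linarith)
  refine ⟨N * K + p.g + K, by linarith, ?_⟩
  intro b c hb0 hb1 hc0 hc1 ε hε J hJ
  set δ : ℝ := |(b:ℝ) - c| with hδ
  have hδ0 : 0 ≤ δ := abs_nonneg _
  set C : ℝ := N * K + p.g + K with hC
  have hv0 : 0 ≤ max b c := hb0.trans (le_max_left _ _)
  have hv1 : max b c ≤ 1 := max_le hb1 hc1
  set v : ℚ := max b c with hv
  have hvb : |(v:ℝ) - b| ≤ δ := by
    rw [hδ, hv]; push_cast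
    rcases le_total (b:ℝ) c with h | h
    · rw [max_eq_right h, abs_sub_comm]
    · rw [max_eq_left h]; simp
  have hvc : |(v:ℝ) - c| ≤ δ := by
    rw [hδ, hv]; push_cast
    rcases le_total (b:ℝ) c with h | h
    · rw [max_eq_right h]; simp
    · rw [max_eq_left h]
  have hbv : (b:ℝ) ≤ v := by exact_mod_cast le_max_left b c
  have hcv : (c:ℝ) ≤ v := by exact_mod_cast le_max_right b c
  set ε1 : ℝ := ε / (N + 2) with hε1
  have hε1p : 0 < ε1 := by positivity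
  have hε1e : (N + 2) * ε1 = ε := by rw [hε1]; field_simp
  have hNε : 0 ≤ N * ε1 := by positivity
  -- facts for one of the two levels
  have key : ∀ e : ℚ, 0 ≤ e → e ≤ 1 → e ≤ v → |(v:ℝ) - e| ≤ δ → ∀ᶠ n in (U : Filter ℕ),
      (∀ k : Fin 3, Near (D.B.d n ^ (-(C * δ + ε))) (D.w k n v) (D.w k n e)) ∧
      D.lev n e ≤ D.lev n v ∧
      D.A n * D.B.d n ^ (-(p.g * v)) *
          vmk p.q (rho (D.lev n v)) (D.w 0 n v) (D.w 1 n v) (D.w 2 n v) ≤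
        D.B.d n ^ (-(C * δ + ε)) * (D.B.d n ^ ε1 *
          (ampA D.B D.A (fun v => p.g * v) n e * D.vm n e)) := by
    intro e he0 he1 hev hd
    have hev' : (e:ℝ) ≤ v := by exact_mod_cast hev
    have hev2 : (v:ℝ) - e ≤ δ := (le_abs_self _).trans hd
    filter_upwards [ratio_rw hmka hK hv0 hv1 he0 he1 hε1p, hmka.lev_mono e v he0 hev hv1,
      lev2 hmka he0 hev hv1 hε1p, mark_ofM hmka he0 he1, hmka.ne, hmka.vpos e he0 he1] with
      n h1 h2 h3 h4 h5 h6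
    obtain ⟨x0, hx0⟩ := h5
    have hm := h4 x0 hx0
    have hKδ : K * |(v:ℝ) - e| ≤ K * δ := mul_le_mul_of_nonneg_left hd (by linarith)
    have hKδ0 : 0 ≤ K * δ := mul_nonneg (by linarith) hδ0
    have hgδ : p.g * ((v:ℝ) - e) ≤ p.g * δ := mul_le_mul_of_nonneg_left hev2 hg
    have hgδ0 : 0 ≤ p.g * δ := mul_nonneg hg hδ0
    have hNKδ : 0 ≤ N * K * δ := mul_nonneg hNK hδ0
    have hCδ : C * δ = N * K * δ + p.g * δ + K * δ := by rw [hC]; ring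
    set X : ℝ := D.B.d n ^ (-(K * δ + ε1)) with hX
    have hX1 : 1 ≤ X := Real.one_le_rpow_of_pos_of_le_one_of_nonpos (D.B.pos n) (D.B.lt n).le (by
      linarith)
    have hXW : X ≤ D.B.d n ^ (-(C * δ + ε)) := d_mono D.B n (by rw [hCδ]; linarith)
    have hrat : ∀ k : Fin 3, D.w k n v ≤ X * D.w k n e ∧ D.w k n e ≤ X * D.w k n v := by
      intro k
      obtain ⟨y1, y2, y3, y4⟩ := h1 k
      have y5 : D.B.d n ^ (-(K * |(v:ℝ) - e| + ε1)) ≤ X := d_mono D.B n (by linarith)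
      exact ⟨y3.trans (mul_le_mul_of_nonneg_right y5 y2.le),
        y4.trans (mul_le_mul_of_nonneg_right y5 y1.le)⟩
    refine ⟨fun k => ⟨(hrat k).1.trans (mul_le_mul_of_nonneg_right hXW (h1 k).2.1.le),
      (hrat k).2.trans (mul_le_mul_of_nonneg_right hXW (h1 k).1.le)⟩, h2, ?_⟩
    have hrho : rho (D.lev n e) ≤ X * rho (D.lev n v) := by
      have h7 : D.B.d n ^ (-((v:ℝ) - e + ε1)) ≤ X := d_mono D.B n (by
        have : δ ≤ K * δ := le_mul_of_one_le_left hδ0 hK1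
        linarith)
      have h8 : (2:ℝ) ^ D.lev n v ≤ X * 2 ^ D.lev n e :=
        h3.trans (mul_le_mul_of_nonneg_right h7 (by positivity))
      unfold Crest.Agent.R138.Mk163.rho
      rw [mul_one_div, div_le_div_iff₀ (by positivity) (by positivity), one_mul]
      exact h8
    have hvm := vmk_le (ρ := rho (D.lev n e)) (ρ' := rho (D.lev n v)) (w := fun k => D.w k n e)
      (w' := fun k => D.w k n v) hq hX1 (rho_pos _) (rho_pos _) (fun k => (h1 k).2.1)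
      (fun k => (h1 k).1) (fun k => (hrat k).1) hrho
    have hvme : D.vm n e = vmk p.q (rho (D.lev n e)) (D.w 0 n e) (D.w 1 n e) (D.w 2 n e) := hm.vm
    rw [← hvme] at hvm
    have hAp := hmka.Apos n
    have hpv := dpow_pos D.B n (-(p.g * v))
    refine (mul_le_mul_of_nonneg_left hvm (mul_pos hAp hpv).le).trans ?_
    unfold Crest.Agent.R136.MkA627.ampA
    have e1 : D.B.d n ^ (-(p.g * v)) * X ^ N ≤ D.B.d n ^ (-(C * δ + ε)) *
        (D.B.d n ^ ε1 * D.B.d n ^ (-(p.g * e))) := by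
      rw [hX, ← Real.rpow_mul (D.B.pos n).le, ← dpow_add, ← dpow_add, ← dpow_add]
      refine Real.rpow_le_rpow_of_exponent_ge (D.B.pos n) (D.B.lt n).le ?_
      have e2 : -(K * δ + ε1) * N = -(N * K * δ + N * ε1) := by ring
      have e3 : p.g * (v:ℝ) = p.g * ((v:ℝ) - e) + p.g * e := by ring
      have e4 : (N + 2) * ε1 = N * ε1 + 2 * ε1 := by ring
      rw [e2, hCδ]
      linarith
    calc D.A n * D.B.d n ^ (-(p.g * v)) * (X ^ N * D.vm n e)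
        = (D.B.d n ^ (-(p.g * v)) * X ^ N) * (D.A n * D.vm n e) := by ring
      _ ≤ (D.B.d n ^ (-(C * δ + ε)) * (D.B.d n ^ ε1 * D.B.d n ^ (-(p.g * e)))) *
          (D.A n * D.vm n e) := mul_le_mul_of_nonneg_right e1 (mul_pos hAp h6).le
      _ = _ := by ring
  filter_upwards [cell0 hmka (fun v => by simp) hb0 hb1 hc0 hc1 hJ hε1p,
    key b hb0 hb1 (le_max_left _ _) hvb, key c hc0 hc1 (le_max_right _ _) hvc,
    mark_ofM hmka hb0 hb1, mark_ofM hmka hc0 hc1, mark_ofM hmka hv0 hv1,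
    hmka.wpos 0 v hv0 hv1, hmka.wpos 1 v hv0 hv1, hmka.wpos 2 v hv0 hv1, hlog ε hε, hvel,
    hD v hv0 hv1 ε hε, hJ.1] with n z1 z2 z3 z4 z5 z6 z7 z8 z9 z10 z11 z12 z13
  obtain ⟨j, Q, ⟨t0, ht0⟩, q2, q3, q4⟩ := z1
  obtain ⟨y1, y2, y3⟩ := z2
  obtain ⟨y4, y5, y6⟩ := z3
  have hCδ : 0 ≤ C * δ := mul_nonneg (by rw [hC]; linarith) hδ0
  have hW1 : 1 ≤ D.B.d n ^ (-(C * δ + ε)) :=
    Real.one_le_rpow_of_pos_of_le_one_of_nonpos (D.B.pos n) (D.B.lt n).le (by linarith)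
  have hW0 : D.B.d n ^ (-ε) ≤ D.B.d n ^ (-(C * δ + ε)) := d_mono D.B n (by linarith)
  have hρ := rho_pos (D.lev n v)
  have hM0 : 0 < D.A n * D.B.d n ^ (-(p.g * v)) *
      vmk p.q (rho (D.lev n v)) (D.w 0 n v) (D.w 1 n v) (D.w 2 n v) := by
    have := hmka.Apos n
    have := dpow_pos D.B n (-(p.g * v))
    unfold vmk
    positivity
  -- the objects
  have obj : ∀ t ∈ Q, ∃ x ∈ J n, x.1 = t ∧ zc (D.lev n v) x.2 = j ∧
      zx D n v x = zl (D.lev n v) j ∧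
      D.b n b (D.f n b t (anc (D.lev n b) (D.lev n v) j)) = mk4 D n b x ∧
      D.b n c (D.f n c t (anc (D.lev n c) (D.lev n v) j)) = mk4 D n c x ∧
      zx D n b x = zl (D.lev n b) (anc (D.lev n b) (D.lev n v) j) ∧
      zx D n c x = zl (D.lev n c) (anc (D.lev n c) (D.lev n v) j) := by
    intro t ht
    obtain ⟨x, hx, hx1, hx2, hx3, hx4⟩ := q2 t ht
    refine ⟨x, hx, hx1, hx2, ?_, ?_, ?_, ?_, ?_⟩
    · unfold Crest.Agent.R136.Tlt51.zx; rw [hx2]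
    · unfold Crest.Agent.R136.Tlt51.mk4; rw [hx3, hx1]
    · unfold Crest.Agent.R136.Tlt51.mk4; rw [hx4, hx1]
    · unfold Crest.Agent.R136.Tlt51.zx; rw [hx3]
    · unfold Crest.Agent.R136.Tlt51.zx; rw [hx4]
  obtain ⟨sb1, sb2⟩ := sub_cell y2 j
  obtain ⟨sc1, sc2⟩ := sub_cell y5 j
  have hone : D.B.d n ^ ε1 * D.B.d n ^ (-ε1) = 1 := by rw [← dpow_add]; simp
  have full : ∀ {V a : ℝ} {k : ℕ}, V ≤ D.B.d n ^ (-ε1) * (k : ℝ) →
      a ≤ D.B.d n ^ (-(C * δ + ε)) * (D.B.d n ^ ε1 * V) →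
      a ≤ D.B.d n ^ (-(C * δ + ε)) * (k : ℝ) := by
    intro V a k h1 h2
    refine h2.trans (mul_le_mul_of_nonneg_left ?_ (by linarith))
    have := mul_le_mul_of_nonneg_left h1 (dpow_pos D.B n ε1).le
    rwa [← mul_assoc, hone, one_mul] at this
  refine ⟨j, Q, fun t => D.f n b t (anc (D.lev n b) (D.lev n v) j),
    fun t => D.f n c t (anc (D.lev n c) (D.lev n v) j), ⟨t0, ht0⟩, ?_, ?_⟩
  · refine
      { W1 := hW1
        M0 := hM0
        r0 := hr0 n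
        ρ0 := hρ
        a0 := z7
        w10 := z8
        w20 := z9
        w1ρ := ?_
        lg := ?_
        vel := ?_
        shU := ?_
        shV := ?_
        inU := ?_
        inV := ?_
        dimU := ?_
        dimV := ?_
        fullU := fun t ht => full (q3 t ht) y3
        fullV := fun t ht => full (q4 t ht) y6
        dmax := ?_ }
    · obtain ⟨x, hx, -⟩ := obj t0 ht0
      have hm := z6 x (z13 hx)
      have h1 : D.w 1 n v ≤ rh D n v := by rw [← hm.w1]; exact hm.w1r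
      exact h1.trans (le_mul_of_one_le_left hρ.le hW1)
    · obtain ⟨x, hx, -⟩ := obj t0 ht0
      have hm := z6 x (z13 hx)
      have h1 : D.w 1 n v ≤ rh D n v := by rw [← hm.w1]; exact hm.w1r
      have h2 : rh D n v ≤ 1 := by
        unfold Crest.Agent.R136.Tlt51.rh Crest.Agent.R138.Mk163.rho
        rw [div_le_one (by positivity)]
        exact one_le_pow₀ (by norm_num)
      have h3 : D.r0 n ≤ D.w 0 n v := by rw [← hm.a]; exact hm.shp.r0_le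
      refine (Real.log_le_log (div_pos z8 z7) ?_).trans (z10.trans hW0)
      rw [div_le_div_iff₀ z7 (hr0 n), one_mul]
      calc D.w 1 n v * D.r0 n ≤ 1 * D.w 0 n v :=
            mul_le_mul (h1.trans h2) h3 (hr0 n).le zero_le_one
        _ = _ := one_mul _
    · intro t ht
      obtain ⟨x, hx, rfl, -⟩ := obj t ht
      exact z11 x (z13 hx)
    · intro t ht
      obtain ⟨x, hx, hx1, hx2, hx3, hx4, hx5, hx6, hx7⟩ := obj t ht
      have hm := z4 x (z13 hx)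
      show Shp (D.b n b (D.f n b t (anc (D.lev n b) (D.lev n v) j))) _ _ _
      rw [hx4]
      have := hm.shp
      rw [hx6] at this
      exact shp_in this sb1 sb2
    · intro t ht
      obtain ⟨x, hx, hx1, hx2, hx3, hx4, hx5, hx6, hx7⟩ := obj t ht
      have hm := z5 x (z13 hx)
      show Shp (D.b n c (D.f n c t (anc (D.lev n c) (D.lev n v) j))) _ _ _
      rw [hx5]
      have := hm.shp
      rw [hx7] at this
      exact shp_in this sc1 sc2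
    · intro t ht
      obtain ⟨x, hx, hx1, hx2, hx3, hx4, hx5, hx6, hx7⟩ := obj t ht
      have hm := z4 x (z13 hx)
      show InP (D.L n t) (D.b n b (D.f n b t (anc (D.lev n b) (D.lev n v) j))) _ _
      rw [hx4, ← hx1]
      have := hm.inP
      rw [hx6] at this
      exact inP_in this sb1 sb2
    · intro t ht
      obtain ⟨x, hx, hx1, hx2, hx3, hx4, hx5, hx6, hx7⟩ := obj t ht
      have hm := z5 x (z13 hx)
      show InP (D.L n t) (D.b n c (D.f n c t (anc (D.lev n c) (D.lev n v) j))) _ _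
      rw [hx5, ← hx1]
      have := hm.inP
      rw [hx7] at this
      exact inP_in this sc1 sc2
    · intro t ht
      obtain ⟨x, hx, hx1, hx2, hx3, hx4, hx5, hx6, hx7⟩ := obj t ht
      have hm := z4 x (z13 hx)
      show Near _ _ (D.b n b (D.f n b t (anc (D.lev n b) (D.lev n v) j))).a ∧
        Near _ _ ((D.b n b (D.f n b t (anc (D.lev n b) (D.lev n v) j))).w 1) ∧
        Near _ _ ((D.b n b (D.f n b t (anc (D.lev n b) (D.lev n v) j))).w 2)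
      rw [hx4, hm.a, hm.w1, hm.w2]
      exact ⟨y1 0, y1 1, y1 2⟩
    · intro t ht
      obtain ⟨x, hx, hx1, hx2, hx3, hx4, hx5, hx6, hx7⟩ := obj t ht
      have hm := z5 x (z13 hx)
      show Near _ _ (D.b n c (D.f n c t (anc (D.lev n c) (D.lev n v) j))).a ∧
        Near _ _ ((D.b n c (D.f n c t (anc (D.lev n c) (D.lev n v) j))).w 1) ∧
        Near _ _ ((D.b n c (D.f n c t (anc (D.lev n c) (D.lev n v) j))).w 2)
      rw [hx5, hm.a, hm.w1, hm.w2]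
      exact ⟨y4 0, y4 1, y4 2⟩
    · intro S hS hS1
      have h1 := z12 j S hS hS1
      have h2 : ((Q.filter fun t => InP (D.L n t) S (zl (D.lev n v) j) (rh D n v)).card : ℝ) ≤
          (((alive (D.I n) (D.lev n v) j).filter fun t =>
            InSheet (D.L n t) S.e S.c S.w S.q S.a (zl (D.lev n v) j) (rho (D.lev n v))).card : ℝ) := by
        refine Nat.cast_le.2 (card_le_card fun t ht => ?_)
        rw [mem_filter] at ht ⊢
        refine ⟨?_, ht.2⟩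
        obtain ⟨x, hx, hx1, hx2, -⟩ := obj t ht.1
        exact Crest.Agent.R138.TiltU51.mem_alive.2 ⟨x, z13 hx, hx2, hx1⟩
      have a0 : 0 < S.a := (hr0 n).trans_le hS.r0_le
      have a2 : 0 < S.w 2 := a0.trans_le (hS.a_le0.trans hS.w0_le)
      have a1 : 0 < S.w 1 := a2.trans_le hS.w_le
      refine h2.trans (h1.trans ?_)
      refine mul_le_mul_of_nonneg_right (mul_le_mul_of_nonneg_right hW0 hM0.le)
        (phC_nonneg z7.le z8.le z9.le a0.le a1.le a2.le)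
  · intro t ht
    obtain ⟨x, hx, hx1, hx2, hx3, hx4, hx5, hx6, hx7⟩ := obj t ht
    exact ⟨x, hx, hx1, hx2, hx3, hx4, hx5⟩


end Crest.Agent.R136.Eng904
end

-- ▼ part R136/Two7_904
section

/-!
# R136 (U4, PLAN 2): two systems of marks in a sub-cell (helper904)

`two7_seqM` : the data `Pl2.Two7` from a dense part of the incidences.
`two_seq` : the same for `J1c`.
-/

set_option autoImplicit false
set_option linter.unusedVariables false
set_option maxHeartbeats 400000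

open Finset Filter Topology

namespace Crest.Agent.R136.Eng904

open Crest.Agent.R138.Ex926 Crest.Agent.R138.Dp76
open Crest.Agent.R138.Mk163 (zc zl rho alive own)
open Crest.Agent.R138.MkRef627 (lc)
open Crest.Agent.R136.MkA627 (Geo MkA ampA fib_bounds)
open Crest.Agent.R136.Deep51 Crest.Agent.R136.Tlt51 Crest.Agent.R136.Top484
open Crest.Agent.R136.Sh605 Crest.Agent.R136.K4
open Crest.Agent.R136.Pl2W102 (Near Two1)
open Crest.Agent.R136.Pl2 (Two7)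
open Crest.Agent.R136.Phc248 (phC phC_nonneg)
open Crest.Agent.R136.DAl879 (vmk DAll DAllK)

theorem near_mono {W W' x y : ℝ} (h : Near W x y) (hW : 1 ≤ W) (hWW : W ≤ W') (hx : 0 < x) :
    Near W' x y := by
  have hy : 0 < y := by
    by_contra hcon
    push Not at hcon
    have := mul_nonpos_of_nonneg_of_nonpos (show 0 ≤ W by linarith) hcon
    linarith [h.1]
  exact ⟨h.1.trans (mul_le_mul_of_nonneg_right hWW hy.le),
    h.2.trans (mul_le_mul_of_nonneg_right hWW hx.le)⟩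

open Classical in
/-- **a popular sub-cell** -/
theorem two7_of {qm qp : Fin 3 → ℝ} {L : ℕ → Ln4} {Q : Finset ℕ} {cu cv : ℕ → ℕ} {Uf Vf : ℕ → Plk4}
    {W M a w1 w2 r : ℝ} {lv : ℕ} {J : ℤ}
    (h : Two1 qm qp L Q cu cv Uf Vf W M a w1 w2 (zl lv J) (rho lv) r) (hQ : Q.Nonempty)
    {Pn : Finset (ℕ × ℤ)} {jt : ℕ → ℤ} (hjt : ∀ t ∈ Q, jt t / 2 ^ 7 = J)
    (hjP : ∀ t ∈ Q, (t, jt t) ∈ Pn)
    (hD : ∀ (j : ℤ) (s : Plk4),
      ShN s.e s.c s.w s.q s.a (zl (lv + 7) j) (rho (lv + 7)) r → s.w 1 ≤ rho (lv + 7) →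
      ((Pn.filter fun o => o.2 = j ∧
          InSheet (L o.1) s.e s.c s.w s.q s.a (zl (lv + 7) j) (rho (lv + 7))).card : ℝ) ≤
        W * M * phC qm qp a w1 w2 s.a (s.w 1) (s.w 2)) :
    ∃ (j : ℤ) (Q' : Finset ℕ), Q' ⊆ Q ∧ j / 2 ^ 7 = J ∧ Q'.Nonempty ∧ (∀ t ∈ Q', jt t = j) ∧
      Two1 qm qp L Q' cu cv Uf Vf (600 * W) M a w1 w2 (zl (lv + 7) j) (rho (lv + 7)) r := by
  have hW1 := h.W1
  have hM := h.M0
  have hW0 : 0 < W := by linarith
  have hQc : (0:ℝ) < Q.card := by exact_mod_cast card_pos.2 hQ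
  have hlab : ∀ f : ℕ → ℕ, (∀ t ∈ Q, M ≤ W * ((Q.filter fun s => f s = f t).card : ℝ)) →
      ((Q.image fun t => (f t, jt t)).card : ℝ) * (M / (600 * W)) ≤ Q.card / 4 := by
    intro f hf
    have h1 : ((Q.image f).card : ℝ) * (M / W) ≤ Q.card := by
      refine labels_le f fun o ho => ?_
      rw [div_le_iff₀ hW0]
      have := hf o ho
      linarith
    have h2 : (Q.image fun t => (f t, jt t)).card ≤ (Q.image f).card * 128 := by
      have e : (Q.image fun t => (f t, jt t)) ⊆ (Q.image f) ×ˢ (Ico (128 * J) (128 * J + 128)) := by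
        intro x hx
        obtain ⟨t, ht, rfl⟩ := mem_image.1 hx
        refine mem_product.2 ⟨mem_image_of_mem f ht, mem_Ico.2 ?_⟩
        have h3 := hjt t ht
        norm_num at h3
        constructor
        · show 128 * J ≤ jt t
          omega
        · show jt t < 128 * J + 128
          omega
      refine (card_le_card e).trans (le_of_eq ?_)
      rw [card_product, Int.card_Ico]
      congr 1
      omega
    have h3 : ((Q.image fun t => (f t, jt t)).card : ℝ) ≤ (Q.image f).card * 128 := by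
      exact_mod_cast h2
    refine (mul_le_mul_of_nonneg_right h3 (by positivity)).trans ?_
    have e : ((Q.image f).card : ℝ) * 128 * (M / (600 * W)) =
        ((Q.image f).card : ℝ) * (M / W) * (128 / 600) := by
      field_simp
    rw [e]
    have h4 : 0 ≤ ((Q.image f).card : ℝ) * (M / W) := by positivity
    linarith
  have k1 := hlab cu h.fullU
  have k2 := hlab cv h.fullV
  obtain ⟨Q1, hQ1, ⟨t0, ht0⟩, q1, q2⟩ := prune2 (P := Q) (fun t => (cu t, jt t))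
    (fun t => (cv t, jt t)) (s := M / (600 * W)) (t := M / (600 * W)) (by positivity)
    (by positivity) (by linarith)
  have hcell : jt t0 / 2 ^ 7 = J := hjt t0 (hQ1 ht0)
  have hanc : anc lv (lv + 7) (jt t0) = J := by
    unfold Crest.Agent.R136.Deep51.anc
    rw [Nat.add_sub_cancel_left]
    exact hcell
  obtain ⟨s1, s2⟩ := sub_cell (i := lv) (m := lv + 7) (by omega) (jt t0)
  rw [hanc] at s1 s2
  have hrho : rho lv = 128 * rho (lv + 7) := by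
    unfold Crest.Agent.R138.Mk163.rho
    rw [pow_add]; field_simp; norm_num
  have hρ7 := rho_pos (lv + 7)
  have hsub : (Q1.filter fun t => jt t = jt t0) ⊆ Q := (filter_subset _ _).trans hQ1
  have hWW : W ≤ 600 * W := by linarith
  have hfull : ∀ f : ℕ → ℕ, (∀ o ∈ Q1, M / (600 * W) ≤
      ((Q1.filter fun y => (f y, jt y) = (f o, jt o)).card : ℝ)) →
      ∀ t ∈ Q1.filter fun t => jt t = jt t0, M ≤ 600 * W *
        (((Q1.filter fun t => jt t = jt t0).filter fun s => f s = f t).card : ℝ) := by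
    intro f hf t ht
    rw [mem_filter] at ht
    have h1 := hf t ht.1
    rw [div_le_iff₀ (by positivity)] at h1
    have h2 : (Q1.filter fun y => (f y, jt y) = (f t, jt t)) ⊆
        ((Q1.filter fun t => jt t = jt t0).filter fun s => f s = f t) := by
      intro y hy
      rw [mem_filter, Prod.mk.injEq] at hy
      rw [mem_filter, mem_filter]
      exact ⟨⟨hy.1, hy.2.2.trans ht.2⟩, hy.2.1⟩
    have h3 : ((Q1.filter fun y => (f y, jt y) = (f t, jt t)).card : ℝ) ≤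
        (((Q1.filter fun t => jt t = jt t0).filter fun s => f s = f t).card : ℝ) := by
      exact_mod_cast card_le_card h2
    have h4 := mul_le_mul_of_nonneg_right h3 (show 0 ≤ 600 * W by positivity)
    linarith
  refine ⟨jt t0, Q1.filter fun t => jt t = jt t0, hsub, hcell, ⟨t0, mem_filter.2 ⟨ht0, rfl⟩⟩,
    fun t ht => (mem_filter.1 ht).2, ?_⟩
  refine
    { W1 := by linarith
      M0 := hM
      r0 := h.r0
      ρ0 := hρ7
      a0 := h.a0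
      w10 := h.w10
      w20 := h.w20
      w1ρ := ?_
      lg := h.lg.trans hWW
      vel := fun t ht => h.vel t (hsub ht)
      shU := fun t ht => shp_in (h.shU t (hsub ht)) s1 s2
      shV := fun t ht => shp_in (h.shV t (hsub ht)) s1 s2
      inU := fun t ht => inP_in (h.inU t (hsub ht)) s1 s2
      inV := fun t ht => inP_in (h.inV t (hsub ht)) s1 s2
      dimU := fun t ht => ?_
      dimV := fun t ht => ?_
      fullU := hfull cu q1
      fullV := hfull cv q2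
      dmax := ?_ }
  · have h1 := h.w1ρ
    rw [hrho] at h1
    have h2 : 0 ≤ W * rho (lv + 7) := by positivity
    linarith
  · obtain ⟨d1, d2, d3⟩ := h.dimU t (hsub ht)
    exact ⟨near_mono d1 hW1 hWW h.a0, near_mono d2 hW1 hWW h.w10, near_mono d3 hW1 hWW h.w20⟩
  · obtain ⟨d1, d2, d3⟩ := h.dimV t (hsub ht)
    exact ⟨near_mono d1 hW1 hWW h.a0, near_mono d2 hW1 hWW h.w10, near_mono d3 hW1 hWW h.w20⟩
  · intro S hS hS1
    have h1 := hD (jt t0) S hS hS1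
    have h2 : (((Q1.filter fun t => jt t = jt t0).filter fun t =>
        InP (L t) S (zl (lv + 7) (jt t0)) (rho (lv + 7))).card : ℝ) ≤
        ((Pn.filter fun o => o.2 = jt t0 ∧
          InSheet (L o.1) S.e S.c S.w S.q S.a (zl (lv + 7) (jt t0)) (rho (lv + 7))).card : ℝ) := by
      have h3 : (((Q1.filter fun t => jt t = jt t0).filter fun t =>
          InP (L t) S (zl (lv + 7) (jt t0)) (rho (lv + 7))).image fun t => (t, jt t0)) ⊆
          (Pn.filter fun o => o.2 = jt t0 ∧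
            InSheet (L o.1) S.e S.c S.w S.q S.a (zl (lv + 7) (jt t0)) (rho (lv + 7))) := by
        intro o ho
        obtain ⟨t, ht, rfl⟩ := mem_image.1 ho
        rw [mem_filter, mem_filter] at ht
        rw [mem_filter]
        refine ⟨?_, rfl, ht.2⟩
        have := hjP t (hQ1 ht.1.1)
        rw [ht.1.2] at this
        exact this
      have h4 := card_le_card h3
      rw [card_image_of_injOn (fun x _ y _ hxy => (Prod.mk.inj hxy).1)] at h4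
      exact_mod_cast h4
    have a0 : 0 < S.a := h.r0.trans_le hS.r0_le
    have a2 : 0 < S.w 2 := a0.trans_le (hS.a_le0.trans hS.w0_le)
    have a1 : 0 < S.w 1 := a2.trans_le hS.w_le
    refine h2.trans (h1.trans ?_)
    exact mul_le_mul_of_nonneg_right (mul_le_mul_of_nonneg_right hWW hM.le)
      (phC_nonneg h.a0.le h.w10.le h.w20.le a0.le a1.le a2.le)

/-- `Two1` is monotone in `W` -/
theorem two1_mono {qm qp : Fin 3 → ℝ} {L : ℕ → Ln4} {Q : Finset ℕ} {cu cv : ℕ → ℕ}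
    {Uf Vf : ℕ → Plk4} {W W' M a w1 w2 z0 ρ r : ℝ}
    (t1 : Two1 qm qp L Q cu cv Uf Vf W M a w1 w2 z0 ρ r) (hWW : W ≤ W') :
    Two1 qm qp L Q cu cv Uf Vf W' M a w1 w2 z0 ρ r :=
  { W1 := t1.W1.trans hWW
    M0 := t1.M0
    r0 := t1.r0
    ρ0 := t1.ρ0
    a0 := t1.a0
    w10 := t1.w10
    w20 := t1.w20
    w1ρ := t1.w1ρ.trans (mul_le_mul_of_nonneg_right hWW t1.ρ0.le)
    lg := t1.lg.trans hWW
    vel := t1.vel
    shU := t1.shU
    shV := t1.shV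
    inU := t1.inU
    inV := t1.inV
    dimU := fun t ht => by
      obtain ⟨d1, d2, d3⟩ := t1.dimU t ht
      exact ⟨near_mono d1 t1.W1 hWW t1.a0, near_mono d2 t1.W1 hWW t1.w10,
        near_mono d3 t1.W1 hWW t1.w20⟩
    dimV := fun t ht => by
      obtain ⟨d1, d2, d3⟩ := t1.dimV t ht
      exact ⟨near_mono d1 t1.W1 hWW t1.a0, near_mono d2 t1.W1 hWW t1.w10,
        near_mono d3 t1.W1 hWW t1.w20⟩
    fullU := fun t ht =>
      (t1.fullU t ht).trans (mul_le_mul_of_nonneg_right hWW (Nat.cast_nonneg _))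
    fullV := fun t ht =>
      (t1.fullV t ht).trans (mul_le_mul_of_nonneg_right hWW (Nat.cast_nonneg _))
    dmax := fun S hS hS1 => by
      have a0 : 0 < S.a := t1.r0.trans_le hS.r0_le
      have a2 : 0 < S.w 2 := a0.trans_le (hS.a_le0.trans hS.w0_le)
      have a1 : 0 < S.w 1 := a2.trans_le hS.w_le
      exact (t1.dmax S hS hS1).trans (mul_le_mul_of_nonneg_right
        (mul_le_mul_of_nonneg_right hWW t1.M0.le)
        (phC_nonneg t1.a0.le t1.w10.le t1.w20.le a0.le a1.le a2.le)) }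

variable {η : ℝ} {p : Par4} {D : Dat4}


/-! ### the data of `J1c` -/

theorem J1c.qpos (h : J1c η p D) : ∀ k, 0 ≤ p.q k := by
  intro k
  fin_cases k
  exacts [h.q0.1, h.g0.2.le, h.q2.1.le]


end Crest.Agent.R136.Eng904
end

-- ▼ part R136/Plw2_102
section

/-!
# R136 (S0187), PLAN 2 (tilt without deep levels): from finite theorems to negligible sets (helper102)

* `typU_sub` : the typical facts over a sub-cell;
* `TwoAt` : literal of helper904's `two1_seq`;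
* `negl_ft` : a finite theorem over `Two1` gives a negligible set.
-/

set_option autoImplicit false
set_option linter.unusedVariables false

open Finset Filter Topology

namespace Crest.Agent.R136.Pl2W102

open Crest.Agent.R138.Ex926 (Base U)
open Crest.Agent.R138.Dp76 (Dense dpow_pos dpow_add dpow_le dpow_le_one)
open Crest.Agent.R138.Mk163 (zc zl rho Negl)
open Crest.Agent.R138.ArgM163 (ev_const log_dpow)
open Crest.Agent.R136.MkA627
open Crest.Agent.R136.Sh605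
open Crest.Agent.R136.Tl102
open Crest.Agent.R136.Deep51 (CloseC)
open Crest.Agent.R136.K4 (Plk4)
open Crest.Agent.R136.Top484
open Crest.Agent.R136.Tlt51 (Shp InP mk4 zx rh TiltOKC)
open Crest.Agent.R136.KapP335
open Crest.Agent.R136.Cps605
open Crest.Agent.R136.Pl2 (TypU TypP kp rot2)

/-- the typical facts over a sub-cell -/
theorem typU_sub {K : ℝ} {S : Plk4} {T : Ln4} {z0 ρ z1 ρ1 r B δ W W0 a : ℝ} (hr : 0 < r)
    (hρ : 0 < ρ) (h1 : z1 ≤ z0) (h1' : z0 + ρ ≤ z1 + ρ1) (hS : Shp S z1 ρ1 r) (hT : InP T S z1 ρ1)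
    (hB : 1 ≤ B) (hb1 : ρ1 ≤ B * ρ) (hδ : 0 < δ) (hδ1 : δ ≤ 1) (hW0 : 1 ≤ W0)
    (haa : S.a ≤ W0 * a)
    (hdet : δ⁻¹ * S.a < kapP S z1 ρ1 T → DetP δ S z1 ρ1 T ∧ Ty δ S T z1 ρ1)
    (hW : 10 ^ 5 * (B ^ 2 * W0) ≤ δ * W) : TypU K W a S T z0 ρ := by
  have hw0 : 0 < S.w 0 := hr.trans_le (hS.r0_le.trans hS.a_le0)
  have ha : 0 < S.a := hr.trans_le hS.r0_le
  have hρ1 : 0 < ρ1 := by linarith
  have hB0 : 0 < B := by linarith
  have hW00 : 0 < W0 := by linarith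
  have ha0 : 0 < a := by
    by_contra hc
    push Not at hc
    have := mul_nonpos_of_nonneg_of_nonpos hW00.le hc
    linarith
  have hBW : B ≤ B ^ 2 * W0 := by
    have h2 : B * 1 ≤ B * B := mul_le_mul_of_nonneg_left hB hB0.le
    have h3 : B ^ 2 * 1 ≤ B ^ 2 * W0 := mul_le_mul_of_nonneg_left hW0 (by positivity)
    nlinarith
  have hB1 : 1 ≤ B ^ 2 * W0 := hB.trans hBW
  have hWBB : W0 ≤ B ^ 2 * W0 := by
    have : 1 * W0 ≤ B ^ 2 * W0 := mul_le_mul_of_nonneg_right (by nlinarith) hW00.le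
    linarith
  have hWpos : 0 < W := by
    by_contra hc
    push Not at hc
    have : δ * W ≤ 0 := mul_nonpos_of_nonneg_of_nonpos hδ.le hc
    linarith
  have r1 : B⁻¹ ≤ ρ / ρ1 := by
    rw [le_div_iff₀ hρ1, inv_mul_le_iff₀ hB0]; exact hb1
  -- curvature of the own cell
  have key : W * a ≤ kapP S z0 ρ T → DetP W⁻¹ S z0 ρ T ∧ Ty W⁻¹ S T z0 ρ := by
    intro hk
    have k4 : kapP S z0 ρ T ≤ 40 * kapP S z1 ρ1 T := kapP_le hr hρ h1 h1' hS hT
    have hbig : δ⁻¹ * S.a < kapP S z1 ρ1 T := by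
      rw [inv_mul_lt_iff₀ hδ]
      have e1 : 10 ^ 5 * (B ^ 2 * W0) * a ≤ δ * W * a := mul_le_mul_of_nonneg_right hW ha0.le
      have e2 : δ * (W * a) ≤ δ * (40 * kapP S z1 ρ1 T) :=
        mul_le_mul_of_nonneg_left (hk.trans k4) hδ.le
      have e3 : W0 * a ≤ B ^ 2 * W0 * a := mul_le_mul_of_nonneg_right hWBB ha0.le
      have e4 : 0 < W0 * a := mul_pos hW00 ha0
      nlinarith
    obtain ⟨hd, ht⟩ := hdet hbig
    have hκ : 0 < kapP S z1 ρ1 T := lt_of_le_of_lt (by positivity) hbig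
    obtain ⟨k1, k2, k3⟩ := kapP_sub hr hρ h1 h1' hS hT hκ hd
    have hWδ : 10 ^ 5 * (B ^ 2 * W0) / δ ≤ W := by
      rw [div_le_iff₀ hδ]; linarith
    have hB2 : B ^ 2 ≤ B ^ 2 * W0 := le_mul_of_one_le_right (by positivity) hW0
    have hWd : W⁻¹ ≤ (B⁻¹) ^ 2 / 40 ^ 3 * δ := by
      rw [inv_pow, inv_le_iff_one_le_mul₀ hWpos, div_mul_eq_mul_div, div_mul_eq_mul_div,
        le_div_iff₀ (by norm_num), mul_assoc, ← div_eq_inv_mul, le_div_iff₀ (by positivity)]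
      nlinarith
    have hWt : W⁻¹ ≤ B⁻¹ * δ / 160 := by
      rw [inv_le_iff_one_le_mul₀ hWpos, div_mul_eq_mul_div, le_div_iff₀ (by norm_num), mul_assoc,
        ← div_eq_inv_mul, le_div_iff₀ hB0]
      nlinarith
    constructor
    · refine k3.mono (hWd.trans ?_)
      have : (B⁻¹) ^ 2 ≤ (ρ / ρ1) ^ 2 := pow_le_pow_left₀ (by positivity) r1 2
      gcongr
    · refine (ty_sub hr hρ h1 h1' hS hT k1 hδ.le ht).mono (hWt.trans ?_)
      gcongr
  refine ⟨fun h => (key h).1, fun h _ => ?_⟩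
  have h2 := (key h).2 _ _ _ (expP_spec hS.isQ hw0.ne' z0 ρ T)
  unfold rot2
  rw [one_div]
  exact h2

/-! ### sequences -/

/-- linear functions of `log (1/d)` with a larger slope win -/
theorem ev_lin (B : Base) {x y K : ℝ} (h : y < x) :
    ∀ᶠ n in (U : Filter ℕ), K + y * B.L n < x * B.L n := by
  filter_upwards [B.ev_L_ge (K / (x - y) + 1)] with n hn
  have hxy : 0 < x - y := by linarith
  have : K / (x - y) < B.L n := by linarith
  rw [div_lt_iff₀ hxy] at this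
  linarith

/-- a constant times a smaller power -/
theorem ev_pow (B : Base) {x y K : ℝ} (hK : 0 < K) (h : y < x) :
    ∀ᶠ n in (U : Filter ℕ), K * B.d n ^ (-y) ≤ B.d n ^ (-x) := by
  filter_upwards [ev_lin B (K := Real.log K) h] with n hn
  rw [← Real.log_le_log_iff (mul_pos hK (dpow_pos _ _ _)) (dpow_pos _ _ _),
    Real.log_mul hK.ne' (dpow_pos _ _ _).ne', log_dpow, log_dpow]
  linarith

/-- a part which is not negligible is dense -/
theorem dense_of_not_negl {B : Base} {I : ℕ → Finset (ℕ × ℝ)} {P : ℕ → ℕ × ℝ → Prop}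
    (h : ¬ Negl B I P) : ∃ J : ℕ → Finset (ℕ × ℝ), Dense B J I ∧ ∀ n, ∀ x ∈ J n, P n x := by
  classical
  refine ⟨fun n => (I n).filter (P n), ⟨Eventually.of_forall fun n => filter_subset _ _, ?_⟩,
    fun n x hx => (mem_filter.1 hx).2⟩
  intro γ hγ
  by_contra hcon
  refine h ⟨γ, hγ, ?_⟩
  rw [← Ultrafilter.eventually_not] at hcon
  filter_upwards [hcon] with n hn
  exact (not_le.1 hn).le.trans' (by exact_mod_cast card_le_card (fun x hx => by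
    rw [mem_filter] at hx ⊢; exact hx))

theorem Dense.remove {B : Base} {I J : ℕ → Finset (ℕ × ℝ)} {P : ℕ → ℕ × ℝ → Prop}
    (h : Dense B J I) (hP : Negl B I P) : ∃ J' : ℕ → Finset (ℕ × ℝ), Dense B J' I ∧
      ∀ n, ∀ x ∈ J' n, x ∈ J n ∧ ¬ P n x := by
  classical
  have h1 := Crest.Agent.R138.Mk163.Negl.compl (Crest.Agent.R138.Mk163.Negl.dense hP h)
  refine ⟨_, h1.trans h, fun n x hx => mem_filter.1 hx⟩

/-- curvature extent of the mark over its own cell -/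
noncomputable def kpm (D : Dat4) (n : ℕ) (b : ℚ) (x : ℕ × ℝ) : ℝ :=
  kapP (mk4 D n b x) (zx D n b x) (rh D n b) (D.L n x.1)

/-- curved incidences which are degenerate (0) -/
def DegAt (D : Dat4) (ε : ℝ) (b : ℚ) (n : ℕ) (x : ℕ × ℝ) : Prop :=
  D.B.d n ^ (-ε) * (mk4 D n b x).a < kpm D n b x ∧
    ¬ DetP (D.B.d n ^ ε) (mk4 D n b x) (zx D n b x) (rh D n b) (D.L n x.1)

/-- left end of the cell of level `lev m + 7` chosen for the incidence -/
noncomputable def zs (D : Dat4) (m : ℚ) (jx : ℕ → ℕ × ℝ → ℤ) (n : ℕ) (x : ℕ × ℝ) : ℝ :=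
  zl (D.lev n m + 7) (jx n x)

/-- its length -/
noncomputable def rs (D : Dat4) (m : ℚ) (n : ℕ) : ℝ := rho (D.lev n m + 7)

/-- the marks of the levels `b` and `c` of one incidence and a common cell `[z, z + ρ]` -/
structure Pair (D : Dat4) (n : ℕ) (b c : ℚ) (B z ρ : ℝ) (x : ℕ × ℝ) : Prop where
  shp : Shp (mk4 D n b x) (zx D n b x) (rh D n b) (D.r0 n)
  shp' : Shp (mk4 D n c x) (zx D n c x) (rh D n c) (D.r0 n)
  inp : InP (D.L n x.1) (mk4 D n b x) (zx D n b x) (rh D n b)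
  inp' : InP (D.L n x.1) (mk4 D n c x) (zx D n c x) (rh D n c)
  z1 : zx D n b x ≤ z
  z1' : z + ρ ≤ zx D n b x + rh D n b
  z2 : zx D n c x ≤ z
  z2' : z + ρ ≤ zx D n c x + rh D n c
  rb : rh D n b ≤ B * ρ
  rc : rh D n c ≤ B * ρ
  a : (mk4 D n b x).a = D.w 0 n b
  w1 : (mk4 D n b x).w 1 = D.w 1 n b
  w2 : (mk4 D n b x).w 2 = D.w 2 n b

theorem Pair.of_le {D : Dat4} {n : ℕ} {b c : ℚ} {B B' z ρ : ℝ} {x : ℕ × ℝ}
    (h : Pair D n b c B z ρ x) (hB : B ≤ B') (hρ : 0 ≤ ρ) : Pair D n b c B' z ρ x :=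
  ⟨h.shp, h.shp', h.inp, h.inp', h.z1, h.z1', h.z2, h.z2',
    h.rb.trans (mul_le_mul_of_nonneg_right hB hρ), h.rc.trans (mul_le_mul_of_nonneg_right hB hρ),
    h.a, h.w1, h.w2⟩

/-- the marks of the levels `u < v` of an incidence, the cells and the short cell -/
structure Inc (D : Dat4) (n : ℕ) (u v : ℚ) (jx : ℕ → ℕ × ℝ → ℤ) (B : ℝ) (x : ℕ × ℝ) : Prop where
  su : Shp (mk4 D n u x) (zx D n u x) (rh D n u) (D.r0 n)
  sv : Shp (mk4 D n v x) (zx D n v x) (rh D n v) (D.r0 n)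
  iu : InP (D.L n x.1) (mk4 D n u x) (zx D n u x) (rh D n u)
  iv : InP (D.L n x.1) (mk4 D n v x) (zx D n v x) (rh D n v)
  au : (mk4 D n u x).a = D.w 0 n u ∧ (mk4 D n u x).w 1 = D.w 1 n u ∧ (mk4 D n u x).w 2 = D.w 2 n u
  av : (mk4 D n v x).a = D.w 0 n v ∧ (mk4 D n v x).w 1 = D.w 1 n v ∧ (mk4 D n v x).w 2 = D.w 2 n v
  z1 : zx D n u x ≤ zx D n v x
  z2 : zx D n v x + rh D n v ≤ zx D n u x + rh D n u
  rr : rh D n u ≤ B * rh D n v
  s1 : zx D n v x ≤ zs D v jx n x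
  s2 : zs D v jx n x + rs D v n ≤ zx D n v x + rh D n v
  s3 : rh D n v = 128 * rs D v n
  cw : ∀ k, D.w k n u ≤ B * D.w k n v ∧ D.w k n v ≤ B * D.w k n u

theorem rs_pos (D : Dat4) (m : ℚ) (n : ℕ) : 0 < rs D m n := by
  unfold rs Crest.Agent.R138.Mk163.rho; positivity

/-- **literal of helper904's `two7_seq`**, `m` = finer one of the two levels -/
def TwoAt (qm qp : Fin 3 → ℝ) (C : ℝ) (D : Dat4) (m : ℚ) (jx : ℕ → ℕ × ℝ → ℤ) (b c : ℚ) : Prop :=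
  ∀ ε : ℝ, 0 < ε → ∀ J : ℕ → Finset (ℕ × ℝ), Dense D.B J D.I → ∀ᶠ n in (U : Filter ℕ),
    ∃ (j : ℤ) (P : Finset ℕ) (cu cv : ℕ → ℕ) (M a w1 w2 : ℝ), P.Nonempty ∧
      Two7 qm qp (D.L n) P cu cv (D.b n b) (D.b n c) (D.B.d n ^ (-(C * |(b:ℝ) - c| + ε)))
        M a w1 w2 (zl (D.lev n m + 7) j) (rho (D.lev n m + 7)) (zl (D.lev n m) (j / 2 ^ 7))
        (rho (D.lev n m)) (D.r0 n) ∧
      ∀ t ∈ P, ∃ x ∈ J n, x.1 = t ∧ jx n x = j ∧
        D.b n b (cu t) = mk4 D n b x ∧ D.b n c (cv t) = mk4 D n c x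

/-- curved incidences of type II -/
def RotAt (D : Dat4) (ε : ℝ) (b : ℚ) (n : ℕ) (x : ℕ × ℝ) : Prop :=
  D.B.d n ^ (-ε) * (mk4 D n b x).a < kpm D n b x ∧
    ¬ Ty (D.B.d n ^ ε) (mk4 D n b x) (D.L n x.1) (zx D n b x) (rh D n b)

/-- properties of two sheets, a line, dimensions and a cell, with a loss `E` -/
abbrev PropE := ℝ → Plk4 → Plk4 → Ln4 → ℝ → ℝ → ℝ → ℝ → ℝ → Prop

/-- stable under changes of the dimensions and of the loss -/
def Stab (H : PropE) : Prop := ∀ (E E' W : ℝ) (S S' : Plk4) (T : Ln4)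
  (a w1 w2 a' w1' w2' z0 ρ r : ℝ), 1 ≤ W → 0 < E → E * W ^ 2 ≤ E' → 0 < a → 0 < w1 → 0 < w2 →
    0 < a' → 0 < w1' → 0 < w2' → Near W a a' → Near W w1 w1' → Near W w2 w2' →
    0 < r → Shp S z0 ρ r → Shp S' z0 ρ r → H E S S' T a w1 w2 z0 ρ →
    H E' S S' T a' w1' w2' z0 ρ

/-- the property for the marks of levels `b`, `c` of an incidence, over the short cell -/
def At (H : PropE) (D : Dat4) (m : ℚ) (jx : ℕ → ℕ × ℝ → ℤ) (b c : ℚ) (E : ℝ) (n : ℕ)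
    (x : ℕ × ℝ) : Prop :=
  H E (mk4 D n b x) (mk4 D n c x) (D.L n x.1) (D.w 0 n b) (D.w 1 n b) (D.w 2 n b)
    (zs D m jx n x) (rs D m n)

/-- over the short cell the mark of level `b` is curved, and more curved than the one of level `c` -/
def Curv (D : Dat4) (m : ℚ) (jx : ℕ → ℕ × ℝ → ℤ) (b c : ℚ) (E : ℝ) (n : ℕ) (x : ℕ × ℝ) : Prop :=
  E * D.w 0 n b ≤ kp (mk4 D n b x) (zs D m jx n x) (rs D m n) (D.L n x.1) ∧
    kp (mk4 D n c x) (zs D m jx n x) (rs D m n) (D.L n x.1) ≤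
      kp (mk4 D n b x) (zs D m jx n x) (rs D m n) (D.L n x.1)

/-- a finite theorem -/
def FT (H Q : PropE) (qm qp : Fin 3 → ℝ) (K0 C : ℝ) : Prop :=
  ∀ (L : ℕ → Ln4) (P : Finset ℕ) (cu cv : ℕ → ℕ) (Uf Vf : ℕ → Plk4)
    (W M a w1 w2 z0 ρ zL ρL r : ℝ),
    Two7 qm qp L P cu cv Uf Vf W M a w1 w2 z0 ρ zL ρL r → ρL ≤ 128 * ρ → P.Nonempty →
    (∀ t ∈ P, TypP ((2 * W) ^ K0) W a (Uf (cu t)) (Vf (cv t)) (L t) z0 ρ) →
    (∀ t ∈ P, H W (Uf (cu t)) (Vf (cv t)) (L t) a w1 w2 z0 ρ) →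
    ∃ t ∈ P, Q ((2 * W) ^ C) (Uf (cu t)) (Vf (cv t)) (L t) a w1 w2 z0 ρ

theorem dp_mul (B : Base) (n : ℕ) (a b : ℝ) : B.d n ^ (-a) * B.d n ^ (-b) = B.d n ^ (-(a + b)) := by
  rw [← dpow_add]; congr 1; ring

set_option maxHeartbeats 1000000 in
/-- **a finite theorem gives a negligible set** -/
theorem negl_ft {H Q : PropE} {qm qp : Fin 3 → ℝ} {K0 C : ℝ} (hFT : FT H Q qm qp K0 C)
    (hC : 0 ≤ C) (hK0 : 0 ≤ K0) (sH : Stab H) (sQ : Stab Q) {D : Dat4} {m b c : ℚ}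
    {jx : ℕ → ℕ × ℝ → ℤ} {Cw C2 ε yH yb y1 y : ℝ}
    (hε : 0 < ε) (hr0 : ∀ n, 0 < D.r0 n) (hCw : 0 ≤ Cw) (hC2 : 0 ≤ C2)
    (hw : ∀ k, ∀ᶠ n in (U : Filter ℕ), 0 < D.w k n b)
    (hpair : ∀ᶠ n in (U : Filter ℕ), ∀ x ∈ D.I n,
      Pair D n b c (D.B.d n ^ (-(Cw * |(b:ℝ) - c| + ε))) (zs D m jx n x) (rs D m n) x)
    (hTwo : TwoAt qm qp C2 D m jx b c)
    (hnd : Negl D.B D.I (DegAt D ε b)) (hnd' : Negl D.B D.I (DegAt D ε c))
    (hro : Negl D.B D.I (RotAt D ε b)) (hro' : Negl D.B D.I (RotAt D ε c))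
    (hyH : 0 ≤ yH)
    (hy1 : 2 * (Cw * |(b:ℝ) - c| + ε) + (C2 * |(b:ℝ) - c| + ε) + ε < y1)
    (hy1' : yH + 2 * (C2 * |(b:ℝ) - c| + ε) ≤ y1)
    (hyb : K0 * y1 + (C2 * |(b:ℝ) - c| + ε) < yb)
    (hy : C * y1 + 2 * (C2 * |(b:ℝ) - c| + ε) < y) :
    Negl D.B D.I fun n x => Curv D m jx b c (D.B.d n ^ (-yb)) n x ∧
      At H D m jx b c (D.B.d n ^ (-yH)) n x ∧ ¬ At Q D m jx b c (D.B.d n ^ (-y)) n x := by
  have hδ : 0 ≤ |(b:ℝ) - c| := abs_nonneg _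
  set δ := |(b:ℝ) - c| with hδd
  have hy10 : 0 < y1 := by
    have : 0 ≤ Cw * δ := by positivity
    have : 0 ≤ C2 * δ := by positivity
    linarith
  have hy20 : 0 < C2 * δ + ε := by positivity
  have hyw0 : 0 < Cw * δ + ε := by positivity
  by_contra hcon
  obtain ⟨J0, hJ0, h0⟩ := dense_of_not_negl hcon
  obtain ⟨J1, hJ1, h1⟩ := Dense.remove hJ0 hnd
  obtain ⟨J2, hJ2, h2⟩ := Dense.remove hJ1 hnd'
  obtain ⟨J3, hJ3, h3⟩ := Dense.remove hJ2 hro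
  obtain ⟨J4, hJ4, h4⟩ := Dense.remove hJ3 hro'
  have V1 : ∀ᶠ n in (U : Filter ℕ), 10 ^ 5 *
      D.B.d n ^ (-(2 * (Cw * δ + ε) + (C2 * δ + ε) + ε)) ≤ D.B.d n ^ (-y1) :=
    ev_pow D.B (by norm_num) hy1
  have V2 : ∀ᶠ n in (U : Filter ℕ), (2:ℝ) ^ C *
      D.B.d n ^ (-(C * y1 + 2 * (C2 * δ + ε))) ≤ D.B.d n ^ (-y) :=
    ev_pow D.B (by positivity) hy
  have V3 : ∀ᶠ n in (U : Filter ℕ), (2:ℝ) ^ K0 *
      D.B.d n ^ (-(K0 * y1 + (C2 * δ + ε))) ≤ D.B.d n ^ (-yb) :=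
    ev_pow D.B (by positivity) hyb
  obtain ⟨n, hpn, ⟨j, P, cu, cv, M, a, w1, w2, hP, hT, hx⟩, v1, v2, v3, hJI, hw0, hw1, hw2⟩ :=
    (hpair.and ((hTwo ε hε J4 hJ4).and (V1.and (V2.and (V3.and (hJ4.1.and
      ((hw 0).and ((hw 1).and (hw 2))))))))).exists
  have dle1 : D.B.d n ^ ε ≤ 1 := dpow_le_one D.B n hε.le
  have dp := dpow_pos D.B n
  have e1 : ∀ {z : ℝ}, 0 ≤ z → 1 ≤ D.B.d n ^ (-z) := by
    intro z hz
    have := dpow_le D.B n (show -z ≤ 0 by linarith)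
    rwa [Real.rpow_zero] at this
  -- the new `W`
  have hWW : D.B.d n ^ (-(C2 * δ + ε)) ≤ D.B.d n ^ (-y1) := by
    refine dpow_le D.B n ?_
    have : 0 ≤ Cw * δ := by positivity
    linarith
  have hT' := hT.mono hWW
  have hT1 := hT.to1
  have hWn : 10 ^ 5 * ((D.B.d n ^ (-(Cw * δ + ε))) ^ 2 * D.B.d n ^ (-(C2 * δ + ε))) ≤
      D.B.d n ^ ε * D.B.d n ^ (-y1) := by
    have g1 : (D.B.d n ^ (-(Cw * δ + ε))) ^ 2 * D.B.d n ^ (-(C2 * δ + ε)) =
        D.B.d n ^ ε * D.B.d n ^ (-(2 * (Cw * δ + ε) + (C2 * δ + ε) + ε)) := by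
      rw [sq, ← dpow_add, ← dpow_add, ← dpow_add]; congr 1; ring
    rw [g1]
    calc _ = D.B.d n ^ ε * (10 ^ 5 * D.B.d n ^ (-(2 * (Cw * δ + ε) + (C2 * δ + ε) + ε))) := by
          ring
      _ ≤ _ := mul_le_mul_of_nonneg_left v1 (dp _).le
  -- facts at the lines of `P`
  have hρ : rs D m n = rho (D.lev n m + 7) := rfl
  have bad : ∀ t ∈ P, ∃ x ∈ J4 n, x.1 = t ∧ zs D m jx n x = zl (D.lev n m + 7) j ∧
      D.b n b (cu t) = mk4 D n b x ∧ D.b n c (cv t) = mk4 D n c x ∧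
      Curv D m jx b c (D.B.d n ^ (-yb)) n x ∧
      At H D m jx b c (D.B.d n ^ (-yH)) n x ∧ ¬ At Q D m jx b c (D.B.d n ^ (-y)) n x := by
    intro t ht
    obtain ⟨x, hxJ, x1, x2, x3, x4⟩ := hx t ht
    exact ⟨x, hxJ, x1, by unfold zs; rw [x2], x3, x4,
      h0 n x ((h1 n x (h2 n x (h3 n x (h4 n x hxJ).1).1).1).1)⟩
  have typ1 : ∀ t ∈ P, TypU ((2 * D.B.d n ^ (-y1)) ^ K0) (D.B.d n ^ (-y1)) a (D.b n b (cu t))
      (D.L n t) (zl (D.lev n m + 7) j) (rho (D.lev n m + 7)) := by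
    intro t ht
    obtain ⟨x, hxJ, x1, x2, x3, x4, -⟩ := bad t ht
    obtain ⟨y3, n4⟩ := h4 n x hxJ
    obtain ⟨y2, n3⟩ := h3 n x y3
    obtain ⟨yy1, n2⟩ := h2 n x y2
    obtain ⟨yy0, n1⟩ := h1 n x yy1
    have pr := hpn x (hJI hxJ)
    obtain ⟨d1, -, -⟩ := hT1.dimU t ht
    rw [x3] at d1 ⊢
    rw [← x2, ← hρ, ← x1]
    refine typU_sub (W0 := D.B.d n ^ (-(C2 * δ + ε))) (hr0 n) (by rw [hρ]; exact hT1.ρ0) pr.z1
      pr.z1' pr.shp pr.inp (e1 hyw0.le) pr.rb (dp ε) dle1 (e1 hy20.le) d1.2 ?_ hWn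
    intro hk
    rw [show (D.B.d n ^ ε)⁻¹ = D.B.d n ^ (-ε) from (Real.rpow_neg (D.B.pos n).le _).symm] at hk
    constructor
    · by_contra hc; exact n1 ⟨hk, hc⟩
    · by_contra hc; exact n3 ⟨hk, hc⟩
  have typ2 : ∀ t ∈ P, TypU ((2 * D.B.d n ^ (-y1)) ^ K0) (D.B.d n ^ (-y1)) a (D.b n c (cv t))
      (D.L n t) (zl (D.lev n m + 7) j) (rho (D.lev n m + 7)) := by
    intro t ht
    obtain ⟨x, hxJ, x1, x2, x3, x4, -⟩ := bad t ht
    obtain ⟨y3, n4⟩ := h4 n x hxJ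
    obtain ⟨y2, n3⟩ := h3 n x y3
    obtain ⟨yy1, n2⟩ := h2 n x y2
    have pr := hpn x (hJI hxJ)
    obtain ⟨d1, -, -⟩ := hT1.dimV t ht
    rw [x4] at d1 ⊢
    rw [← x2, ← hρ, ← x1]
    refine typU_sub (W0 := D.B.d n ^ (-(C2 * δ + ε))) (hr0 n) (by rw [hρ]; exact hT1.ρ0) pr.z2
      pr.z2' pr.shp' pr.inp' (e1 hyw0.le) pr.rc (dp ε) dle1 (e1 hy20.le) d1.2 ?_ hWn
    intro hk
    rw [show (D.B.d n ^ ε)⁻¹ = D.B.d n ^ (-ε) from (Real.rpow_neg (D.B.pos n).le _).symm] at hk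
    constructor
    · by_contra hc; exact n2 ⟨hk, hc⟩
    · by_contra hc; exact n4 ⟨hk, hc⟩
  have nr : ∀ t ∈ P, ∀ x ∈ J4 n, D.b n b (cu t) = mk4 D n b x →
      Near (D.B.d n ^ (-(C2 * δ + ε))) a (D.w 0 n b) ∧
      Near (D.B.d n ^ (-(C2 * δ + ε))) w1 (D.w 1 n b) ∧
      Near (D.B.d n ^ (-(C2 * δ + ε))) w2 (D.w 2 n b) := by
    intro t ht x hxJ x3
    have pr := hpn x (hJI hxJ)
    have := hT1.dimU t ht
    rw [x3, pr.a, pr.w1, pr.w2] at this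
    exact this
  have typ : ∀ t ∈ P, TypP ((2 * D.B.d n ^ (-y1)) ^ K0) (D.B.d n ^ (-y1)) a (D.b n b (cu t))
      (D.b n c (cv t)) (D.L n t) (zl (D.lev n m + 7) j) (rho (D.lev n m + 7)) := by
    intro t ht
    obtain ⟨x, hxJ, x1, x2, x3, x4, ⟨c1, c2⟩, -⟩ := bad t ht
    obtain ⟨k1, -, -⟩ := nr t ht x hxJ x3
    rw [x2, hρ, x1, ← x3] at c1
    rw [x2, hρ, x1, ← x3, ← x4] at c2
    refine ⟨le_trans ?_ c1, c2, typ1 t ht, typ2 t ht⟩
    calc (2 * D.B.d n ^ (-y1)) ^ K0 * a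
        ≤ (2 * D.B.d n ^ (-y1)) ^ K0 * (D.B.d n ^ (-(C2 * δ + ε)) * D.w 0 n b) :=
          mul_le_mul_of_nonneg_left k1.1 (Real.rpow_nonneg (by have := dp (-y1); linarith) _)
      _ = (2:ℝ) ^ K0 * D.B.d n ^ (-(K0 * y1 + (C2 * δ + ε))) * D.w 0 n b := by
          rw [Real.mul_rpow (by norm_num) (dp _).le, ← Real.rpow_mul (D.B.pos n).le]
          rw [show -(K0 * y1 + (C2 * δ + ε)) = -y1 * K0 + -(C2 * δ + ε) by ring, dpow_add]
          ring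
      _ ≤ _ := mul_le_mul_of_nonneg_right v3 hw0.le
  have hyp : ∀ t ∈ P, H (D.B.d n ^ (-y1)) (D.b n b (cu t)) (D.b n c (cv t)) (D.L n t) a w1 w2
      (zl (D.lev n m + 7) j) (rho (D.lev n m + 7)) := by
    intro t ht
    obtain ⟨x, hxJ, x1, x2, x3, x4, -, x5, -⟩ := bad t ht
    obtain ⟨k1, k2, k3⟩ := nr t ht x hxJ x3
    unfold At at x5
    rw [x2, hρ, x1, ← x3, ← x4] at x5
    refine sH _ _ _ _ _ _ _ _ _ _ _ _ _ _ _ hT1.W1 (dp _) ?_ hw0 hw1 hw2 hT1.a0 hT1.w10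
      hT1.w20 k1.symm k2.symm k3.symm hT1.r0 (hT1.shU t ht) (hT1.shV t ht) x5
    rw [sq, ← dpow_add, ← dpow_add]
    exact dpow_le D.B n (by linarith)
  have h128 : rho (D.lev n m) ≤ 128 * rho (D.lev n m + 7) := by
    unfold Crest.Agent.R138.Mk163.rho
    rw [pow_add]
    have : (0:ℝ) < 2 ^ D.lev n m := by positivity
    rw [← mul_div_assoc, div_le_div_iff₀ this (by positivity)]
    nlinarith
  obtain ⟨t, ht, hQ⟩ := hFT _ _ _ _ _ _ _ _ _ _ _ _ _ _ _ _ hT' h128 hP typ hyp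
  obtain ⟨x, hxJ, x1, x2, x3, x4, -, -, x6⟩ := bad t ht
  obtain ⟨k1, k2, k3⟩ := nr t ht x hxJ x3
  apply x6
  unfold At
  rw [x2, hρ, x1, ← x3, ← x4]
  have hd1 : 0 < 2 * D.B.d n ^ (-y1) := by have := dp (-y1); linarith
  refine sQ _ _ _ _ _ _ _ _ _ _ _ _ _ _ _ hT1.W1 (Real.rpow_pos_of_pos hd1 C) ?_ hT1.a0
    hT1.w10 hT1.w20 hw0 hw1 hw2 k1 k2 k3 hT1.r0 (hT1.shU t ht) (hT1.shV t ht) hQ
  refine le_trans (le_of_eq ?_) v2
  rw [Real.mul_rpow (by norm_num) (dp _).le, ← Real.rpow_mul (D.B.pos n).le, sq, ← dpow_add,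
    mul_assoc, ← dpow_add]
  congr 2; ring

end Crest.Agent.R136.Pl2W102
end

-- ▼ part R136/Two8_904
section

/-!
# R136 (U4, PLAN 2): two systems of marks in a sub-cell, for helper102's wrapper (helper904)

`two7_at` : the literal `Pl2W102.TwoAt` over `J1c`; the sub-cell of an incidence does not depend on the
loss.
-/

set_option autoImplicit false
set_option linter.unusedVariables false
set_option maxHeartbeats 400000

open Finset Filter Topology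

namespace Crest.Agent.R136.Eng904

open Crest.Agent.R138.Ex926 Crest.Agent.R138.Dp76
open Crest.Agent.R138.Mk163 (zc zl rho alive own)
open Crest.Agent.R138.MkRef627 (lc)
open Crest.Agent.R136.MkA627 (Geo MkA ampA fib_bounds)
open Crest.Agent.R136.Deep51 Crest.Agent.R136.Tlt51 Crest.Agent.R136.Top484
open Crest.Agent.R136.Sh605 Crest.Agent.R136.K4
open Crest.Agent.R136.Pl2W102 (Near Two1 TwoAt)
open Crest.Agent.R136.Phc248 (phC phC_nonneg)
open Crest.Agent.R136.DAl879 (vmk DAll DAllK)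

open Classical in
/-- one family of sub-cells for all losses -/
theorem dallK_diag {k : ℕ} {B : Base} {I : ℕ → Finset (ℕ × ℝ)} {L : ℕ → ℕ → Ln4}
    {lev : ℕ → ℚ → ℕ} {A : ℕ → ℝ} {g : ℝ} {q : Fin 3 → ℝ} {r0 : ℕ → ℝ} {w : Fin 3 → ℕ → ℚ → ℝ}
    {qm qp : Fin 3 → ℝ} (hr0 : ∀ n, 0 < r0 n) (hA : ∀ n, 0 < A n)
    (h : DAllK k B I L lev A g q r0 w qm qp) {v : ℚ} (h0 : 0 ≤ v) (h1 : v ≤ 1)
    (hw : ∀ k : Fin 3, ∀ᶠ n in (U : Filter ℕ), 0 < w k n v) :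
    ∃ P : ℕ → Finset (ℕ × ℤ),
    (∀ᶠ n in (U : Filter ℕ), ∀ x ∈ I n, ∃ j : ℤ, j / 2 ^ k = zc (lev n v) x.2 ∧
      (x.1, j) ∈ P n) ∧
    ∀ ε : ℝ, 0 < ε → ∀ᶠ n in (U : Filter ℕ), ∀ (j : ℤ) (s : Plk4),
      ShN s.e s.c s.w s.q s.a (zl (lev n v + k) j) (rho (lev n v + k)) (r0 n) →
      s.w 1 ≤ rho (lev n v + k) →
      (((P n).filter fun o => o.2 = j ∧
          InSheet (L n o.1) s.e s.c s.w s.q s.a (zl (lev n v + k) j)
            (rho (lev n v + k))).card : ℝ) ≤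
        B.d n ^ (-ε) * (A n * B.d n ^ (-(g * v)) *
            vmk q (rho (lev n v)) (w 0 n v) (w 1 n v) (w 2 n v)) *
          phC qm qp (w 0 n v) (w 1 n v) (w 2 n v) s.a (s.w 1) (s.w 2) := by
  have hex : ∀ m : ℕ, ∃ P : ℕ → Finset (ℕ × ℤ),
      (∀ᶠ n in (U : Filter ℕ), ∀ x ∈ I n, ∃ j : ℤ, j / 2 ^ k = zc (lev n v) x.2 ∧
        (x.1, j) ∈ P n) ∧
      ∀ᶠ n in (U : Filter ℕ), ∀ (j : ℤ) (s : Plk4),
        ShN s.e s.c s.w s.q s.a (zl (lev n v + k) j) (rho (lev n v + k)) (r0 n) →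
        s.w 1 ≤ rho (lev n v + k) →
        (((P n).filter fun o => o.2 = j ∧
            InSheet (L n o.1) s.e s.c s.w s.q s.a (zl (lev n v + k) j)
              (rho (lev n v + k))).card : ℝ) ≤
          B.d n ^ (-(1 / ((m:ℝ) + 1))) * (A n * B.d n ^ (-(g * v)) *
              vmk q (rho (lev n v)) (w 0 n v) (w 1 n v) (w 2 n v)) *
            phC qm qp (w 0 n v) (w 1 n v) (w 2 n v) s.a (s.w 1) (s.w 2) := fun m =>
    h v h0 h1 (1 / ((m:ℝ) + 1)) (by positivity)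
  choose P hP1 hP2 using hex
  set Good : ℕ → ℕ → Prop := fun n m =>
    (∀ x ∈ I n, ∃ j : ℤ, j / 2 ^ k = zc (lev n v) x.2 ∧ (x.1, j) ∈ P m n) ∧
    ∀ (j : ℤ) (s : Plk4),
        ShN s.e s.c s.w s.q s.a (zl (lev n v + k) j) (rho (lev n v + k)) (r0 n) →
        s.w 1 ≤ rho (lev n v + k) →
        (((P m n).filter fun o => o.2 = j ∧
            InSheet (L n o.1) s.e s.c s.w s.q s.a (zl (lev n v + k) j)
              (rho (lev n v + k))).card : ℝ) ≤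
          B.d n ^ (-(1 / ((m:ℝ) + 1))) * (A n * B.d n ^ (-(g * v)) *
              vmk q (rho (lev n v)) (w 0 n v) (w 1 n v) (w 2 n v)) *
            phC qm qp (w 0 n v) (w 1 n v) (w 2 n v) s.a (s.w 1) (s.w 2) with hGood
  set kk : ℕ → ℕ := fun n => Nat.findGreatest (Good n) n with hkk
  have main : ∀ M : ℕ, ∀ᶠ n in (U : Filter ℕ), Good n (kk n) ∧ M ≤ kk n := by
    intro M
    filter_upwards [hP1 M, hP2 M, ev_ge M] with n a1 a2 a3
    have hg : Good n M := ⟨a1, a2⟩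
    exact ⟨Nat.findGreatest_spec a3 hg, Nat.le_findGreatest a3 hg⟩
  refine ⟨fun n => P (kk n) n, (main 0).mono fun n hn => hn.1.1, fun ε hε => ?_⟩
  obtain ⟨M, hM⟩ := exists_nat_one_div_lt hε
  filter_upwards [main M, hw 0, hw 1, hw 2] with n hn w0 w1 w2 j s hs hs1
  refine (hn.1.2 j s hs hs1).trans ?_
  have a0 : 0 < s.a := (hr0 n).trans_le hs.r0_le
  have a2 : 0 < s.w 2 := a0.trans_le (hs.a_le0.trans hs.w0_le)
  have a1 : 0 < s.w 1 := a2.trans_le hs.w_le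
  have hρ := rho_pos (lev n v)
  have hV : 0 < A n * B.d n ^ (-(g * v)) * vmk q (rho (lev n v)) (w 0 n v) (w 1 n v) (w 2 n v) := by
    have := hA n
    have := dpow_pos B n (-(g * v))
    unfold vmk
    positivity
  refine mul_le_mul_of_nonneg_right (mul_le_mul_of_nonneg_right ?_ hV.le)
    (phC_nonneg w0.le w1.le w2.le a0.le a1.le a2.le)
  refine d_mono B n ?_
  have h3 : (1:ℝ) / ((kk n : ℝ) + 1) ≤ 1 / ((M:ℝ) + 1) := by
    refine one_div_le_one_div_of_le (by positivity) ?_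
    have : (M:ℝ) ≤ kk n := by exact_mod_cast hn.2
    linarith
  linarith

variable {η : ℝ} {p : Par4} {D : Dat4}

open Classical in
/-- **two systems of marks in a sub-cell** -/
theorem two7_atM (hmka : MkD p D) (hq : ∀ k, 0 ≤ p.q k) (hg : 0 ≤ p.g) (hr0 : ∀ n, 0 < D.r0 n)
    (hlog : ∀ ε : ℝ, 0 < ε → ∀ᶠ n in (U : Filter ℕ), Real.log (1 / D.r0 n) ≤ D.B.d n ^ (-ε))
    (hvel : ∀ᶠ n in (U : Filter ℕ), ∀ x ∈ D.I n, ∀ i, |(D.L n x.1).v i| ≤ 1)
    {qm qp : Fin 3 → ℝ} (hD : DAll D.B D.I D.L D.lev D.A p.g p.q D.r0 D.w qm qp)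
    (hD7 : DAllK 7 D.B D.I D.L D.lev D.A p.g p.q D.r0 D.w qm qp) :
    ∃ C : ℝ, 0 ≤ C ∧ ∀ b c : ℚ, 0 ≤ b → b ≤ 1 → 0 ≤ c → c ≤ 1 →
    ∃ jx : ℕ → ℕ × ℝ → ℤ,
    (∀ᶠ n in (U : Filter ℕ), ∀ x ∈ D.I n, jx n x / 2 ^ 7 = zc (D.lev n (max b c)) x.2) ∧
    TwoAt qm qp C D (max b c) jx b c ∧ TwoAt qm qp C D (max b c) jx c b := by
  obtain ⟨C, hC, h⟩ := two1_seqE hmka hq hg hr0 hlog hvel hD
  refine ⟨C, hC, fun b c hb0 hb1 hc0 hc1 => ?_⟩
  have hv0 : 0 ≤ max b c := hb0.trans (le_max_left _ _)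
  have hv1 : max b c ≤ 1 := max_le hb1 hc1
  obtain ⟨P, hP1, hP2⟩ := dallK_diag hr0 hmka.Apos hD7 hv0 hv1 (fun k => hmka.wpos k _ hv0 hv1)
  set v : ℚ := max b c with hv
  set jx : ℕ → ℕ × ℝ → ℤ := fun n x =>
    if hx : ∃ j : ℤ, j / 2 ^ 7 = zc (D.lev n v) x.2 ∧ (x.1, j) ∈ P n then Classical.choose hx
    else 0 with hjx
  have hj : ∀ᶠ n in (U : Filter ℕ), ∀ x ∈ D.I n, jx n x / 2 ^ 7 = zc (D.lev n v) x.2 ∧
      (x.1, jx n x) ∈ P n := by
    filter_upwards [hP1] with n hn x hx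
    have h1 := hn x hx
    have h2 := Classical.choose_spec h1
    have h3 : jx n x = Classical.choose h1 := by
      simp only [hjx]
      rw [dif_pos h1]
    rw [h3]; exact h2
  refine ⟨jx, hj.mono fun n hn x hx => (hn x hx).1, ?_⟩
  have key : ∀ b' c' : ℚ, max b' c' = v → 0 ≤ b' → b' ≤ 1 → 0 ≤ c' → c' ≤ 1 →
      TwoAt qm qp C D v jx b' c' := by
    intro b' c' hmax hb0 hb1 hc0 hc1 ε hε J hJ
    filter_upwards [h b' c' hb0 hb1 hc0 hc1 (ε / 2) (by positivity) J hJ, hj,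
      hP2 (ε / 2) (by positivity), hJ.1,
      ev_small D.B (show 0 < ε / 2 by positivity) (K := 1 / 600) (by norm_num)] with
      n z1 z2 z3 z4 z5
    rw [hmax] at z1
    obtain ⟨J0, Q, cu, cv, q1, q2, q3⟩ := z1
    have hδ : 0 ≤ |(b':ℝ) - c'| := abs_nonneg _
    have hCδ : 0 ≤ C * |(b':ℝ) - c'| := mul_nonneg hC hδ
    have hM := q2.M0
    have hW1 := q2.W1
    choose! xt hxJ hx1 hx2 hx3 hx4 hx5 using q3
    obtain ⟨j, Q', r1, r2, r3, r5, r4⟩ := two7_of (lv := D.lev n v) (J := J0) (Pn := P n)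
      (jt := fun t => jx n (xt t)) q2 q1
      (by
        intro t ht
        rw [← hx2 t ht]
        exact (z2 _ (z4 (hxJ t ht))).1)
      (by
        intro t ht
        have := (z2 _ (z4 (hxJ t ht))).2
        rw [hx1 t ht] at this
        exact this)
      (by
        intro j s hs hs1
        have a0 : 0 < s.a := (hr0 n).trans_le hs.r0_le
        have a2 : 0 < s.w 2 := a0.trans_le (hs.a_le0.trans hs.w0_le)
        have a1 : 0 < s.w 1 := a2.trans_le hs.w_le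
        refine (z3 j s hs hs1).trans ?_
        have hW0 : D.B.d n ^ (-(ε / 2)) ≤ D.B.d n ^ (-(C * |(b':ℝ) - c'| + ε / 2)) :=
          d_mono D.B n (by linarith)
        exact mul_le_mul_of_nonneg_right (mul_le_mul_of_nonneg_right hW0 hM.le)
          (phC_nonneg q2.a0.le q2.w10.le q2.w20.le a0.le a1.le a2.le))
    have hWW : 600 * D.B.d n ^ (-(C * |(b':ℝ) - c'| + ε / 2)) ≤
        D.B.d n ^ (-(C * |(b':ℝ) - c'| + ε)) := by
      have hde := dpow_pos D.B n (ε / 2)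
      have h5 : (600:ℝ) ≤ D.B.d n ^ (-(ε / 2)) := by
        rw [Real.rpow_neg (D.B.pos n).le, le_inv_comm₀ (by norm_num) hde]
        rw [one_div] at z5; exact z5
      have e1 : D.B.d n ^ (-(C * |(b':ℝ) - c'| + ε)) =
          D.B.d n ^ (-(ε / 2)) * D.B.d n ^ (-(C * |(b':ℝ) - c'| + ε / 2)) := by
        rw [← dpow_add]; congr 1; ring
      rw [e1]
      exact mul_le_mul_of_nonneg_right h5 (dpow_pos D.B n _).le
    have t1 := two1_mono r4 hWW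
    have hrho : rho (D.lev n v) = 128 * rho (D.lev n v + 7) := by
      unfold Crest.Agent.R138.Mk163.rho
      rw [pow_add]; field_simp; norm_num
    have hanc : anc (D.lev n v) (D.lev n v + 7) j = j / 2 ^ 7 := by
      unfold Crest.Agent.R136.Deep51.anc
      rw [Nat.add_sub_cancel_left]
    obtain ⟨s1, s2⟩ := sub_cell (i := D.lev n v) (m := D.lev n v + 7) (by omega) j
    rw [hanc] at s1 s2
    have hρ7 := rho_pos (D.lev n v + 7)
    have hW128 : 128 ≤ D.B.d n ^ (-(C * |(b':ℝ) - c'| + ε)) := by linarith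
    have t7 : Pl2W102.Two7 qm qp (D.L n) Q' cu cv (D.b n b') (D.b n c')
        (D.B.d n ^ (-(C * |(b':ℝ) - c'| + ε))) (cls p D n v) (D.w 0 n v) (D.w 1 n v) (D.w 2 n v)
        (zl (D.lev n v + 7) j) (rho (D.lev n v + 7)) (zl (D.lev n v) (j / 2 ^ 7))
        (rho (D.lev n v)) (D.r0 n) :=
      { to1 := t1
        z1 := s1
        z2 := s2
        l1 := hrho.symm.le
        l2 := by rw [hrho]; exact mul_le_mul_of_nonneg_right hW128 hρ7.le
        shU := fun t ht => by rw [r2]; exact q2.shU t (r1 ht)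
        shV := fun t ht => by rw [r2]; exact q2.shV t (r1 ht)
        inU := fun t ht => by rw [r2]; exact q2.inU t (r1 ht)
        inV := fun t ht => by rw [r2]; exact q2.inV t (r1 ht) }
    exact ⟨j, Q', cu, cv, cls p D n v, D.w 0 n v, D.w 1 n v, D.w 2 n v, r3, t7,
      fun t ht => ⟨xt t, hxJ t (r1 ht), hx1 t (r1 ht), r5 t ht, hx4 t (r1 ht), hx5 t (r1 ht)⟩⟩
  exact ⟨key _ _ rfl hb0 hb1 hc0 hc1, key _ _ (max_comm _ _) hc0 hc1 hb0 hb1⟩

/-- **literal of helper102's wrapper** -/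
theorem two7_at (hJ1 : J1c η p D) : ∃ qm qp : Fin 3 → ℝ, DAl879.Ex2 η qm qp ∧
    ∃ C : ℝ, 0 ≤ C ∧ ∀ b c : ℚ, 0 ≤ b → b ≤ 1 → 0 ≤ c → c ≤ 1 →
    ∃ jx : ℕ → ℕ × ℝ → ℤ,
    (∀ᶠ n in (U : Filter ℕ), ∀ x ∈ D.I n, jx n x / 2 ^ 7 = zc (D.lev n (max b c)) x.2) ∧
    TwoAt qm qp C D (max b c) jx b c ∧ TwoAt qm qp C D (max b c) jx c b := by
  obtain ⟨qm, qp, hE, hD, hD7⟩ := hJ1.dall
  exact ⟨qm, qp, hE, two7_atM hJ1.mka (J1c.qpos hJ1) hJ1.g0.1.le hJ1.r0pos hJ1.r0log hJ1.vel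
    hD hD7⟩

end Crest.Agent.R136.Eng904
end

-- ▼ part R136/Two9_904
section

/-!
# R136 (U4, PLAN 2): the marks of two levels at one incidence (helper904)
-/

set_option autoImplicit false
set_option linter.unusedVariables false
set_option maxHeartbeats 400000

open Finset Filter Topology

namespace Crest.Agent.R136.Eng904

open Crest.Agent.R138.Ex926 Crest.Agent.R138.Dp76
open Crest.Agent.R138.Mk163 (zc zl rho alive own)
open Crest.Agent.R138.MkRef627 (lc)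
open Crest.Agent.R136.MkA627 (Geo MkA ampA fib_bounds)
open Crest.Agent.R136.Deep51 Crest.Agent.R136.Tlt51 Crest.Agent.R136.Top484
open Crest.Agent.R136.Sh605 Crest.Agent.R136.K4
open Crest.Agent.R136.Pl2W102 (Near Two1 TwoAt Pair zs rs)

variable {η : ℝ} {p : Par4} {D : Dat4}

theorem rho7 (D : Dat4) (v : ℚ) (n : ℕ) : rho (D.lev n v) = 128 * rs D v n := by
  unfold Crest.Agent.R136.Pl2W102.rs Crest.Agent.R138.Mk163.rho
  rw [pow_add]; field_simp; norm_num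

open Classical in
/-- **the marks of two levels at one incidence** -/
theorem pair_ev (hJ : J1c η p D) : ∃ Cw : ℝ, 0 ≤ Cw ∧ ∀ b c : ℚ, 0 ≤ b → b ≤ 1 → 0 ≤ c → c ≤ 1 →
    (∀ ε : ℝ, 0 < ε → ∀ᶠ n in (U : Filter ℕ), ∀ k : Fin 3,
      Near (D.B.d n ^ (-(Cw * |(b:ℝ) - c| + ε))) (D.w k n b) (D.w k n c)) ∧
    ∀ jx : ℕ → ℕ × ℝ → ℤ,
    (∀ᶠ n in (U : Filter ℕ), ∀ x ∈ D.I n, jx n x / 2 ^ 7 = zc (D.lev n (max b c)) x.2) →
    ∀ ε : ℝ, 0 < ε → ∀ᶠ n in (U : Filter ℕ), ∀ x ∈ D.I n,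
      Pair D n b c (D.B.d n ^ (-(Cw * |(b:ℝ) - c| + ε))) (zs D (max b c) jx n x)
        (rs D (max b c) n) x ∧
      Pair D n c b (D.B.d n ^ (-(Cw * |(c:ℝ) - b| + ε))) (zs D (max b c) jx n x)
        (rs D (max b c) n) x := by
  obtain ⟨K, hK1, hK⟩ : ∃ K : ℝ, 1 ≤ K ∧ ∀ k : Fin 3, |1 - p.θ k| ≤ K := by
    have h0 := abs_nonneg (1 - p.θ 0)
    have h1 := abs_nonneg (1 - p.θ 1)
    have h2 := abs_nonneg (1 - p.θ 2)
    refine ⟨|1 - p.θ 0| + |1 - p.θ 1| + |1 - p.θ 2| + 1, by linarith, fun k => ?_⟩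
    fin_cases k
    · show |1 - p.θ 0| ≤ _
      linarith
    · show |1 - p.θ 1| ≤ _
      linarith
    · show |1 - p.θ 2| ≤ _
      linarith
  refine ⟨K, by linarith, fun b c hb0 hb1 hc0 hc1 => ⟨fun ε hε => ?_, fun jx hjx ε hε => ?_⟩⟩
  · filter_upwards [ratio_rw hJ.mka hK hb0 hb1 hc0 hc1 hε] with n hn k
    exact ⟨(hn k).2.2.1, (hn k).2.2.2⟩
  set δ : ℝ := |(b:ℝ) - c| with hδ
  have hδ0 : 0 ≤ δ := abs_nonneg _
  have hv0 : 0 ≤ max b c := hb0.trans (le_max_left _ _)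
  have hv1 : max b c ≤ 1 := max_le hb1 hc1
  set v : ℚ := max b c with hv
  have hvb : (v:ℝ) - b ≤ δ := by
    rw [hδ, hv]; push_cast
    rcases le_total (b:ℝ) c with h | h
    · rw [max_eq_right h, abs_of_nonpos (by linarith)]; linarith
    · rw [max_eq_left h]; simp
  have hvc : (v:ℝ) - c ≤ δ := by
    rw [hδ, hv]; push_cast
    rcases le_total (b:ℝ) c with h | h
    · rw [max_eq_right h]; simp
    · rw [max_eq_left h, abs_of_nonneg (by linarith)]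
  have hcb : |(c:ℝ) - b| = δ := abs_sub_comm _ _
  have hKδ : δ ≤ K * δ := le_mul_of_one_le_left hδ0 hK1
  -- one level
  have one : ∀ e : ℚ, 0 ≤ e → e ≤ 1 → e ≤ v → (v:ℝ) - e ≤ δ →
      ∀ᶠ n in (U : Filter ℕ), rh D n e ≤ D.B.d n ^ (-(K * δ + ε)) * rs D v n ∧
        ∀ x ∈ D.I n, zx D n e x ≤ zs D v jx n x ∧
          zs D v jx n x + rs D v n ≤ zx D n e x + rh D n e := by
    intro e he0 he1 hev hd
    filter_upwards [hjx, hJ.mka.lev_mono e v he0 hev hv1,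
      lev2 hJ.mka he0 hev hv1 (show 0 < ε / 2 by positivity),
      ev_small D.B (show 0 < ε / 2 by positivity) (K := 1 / 128) (by norm_num)] with n h1 h2 h3 h4
    have hρ7 : 0 < rs D v n := rho_pos _
    constructor
    · have hde := dpow_pos D.B n (ε / 2)
      have h5 : (128:ℝ) ≤ D.B.d n ^ (-(ε / 2)) := by
        rw [Real.rpow_neg (D.B.pos n).le, le_inv_comm₀ (by norm_num) hde]
        rw [one_div] at h4; exact h4
      have h6 : rho (D.lev n e) ≤ D.B.d n ^ (-((v:ℝ) - e + ε / 2)) * rho (D.lev n v) := by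
        unfold Crest.Agent.R138.Mk163.rho
        rw [mul_one_div, div_le_div_iff₀ (by positivity) (by positivity), one_mul]
        exact h3
      rw [rho7 D v n] at h6
      have h7 : D.B.d n ^ (-((v:ℝ) - e + ε / 2)) * D.B.d n ^ (-(ε / 2)) ≤
          D.B.d n ^ (-(K * δ + ε)) := by
        rw [← dpow_add]
        exact Real.rpow_le_rpow_of_exponent_ge (D.B.pos n) (D.B.lt n).le (by linarith)
      have hp := dpow_pos D.B n (-((v:ℝ) - e + ε / 2))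
      show rho (D.lev n e) ≤ _
      calc rho (D.lev n e) ≤ D.B.d n ^ (-((v:ℝ) - e + ε / 2)) * (128 * rs D v n) := h6
        _ = D.B.d n ^ (-((v:ℝ) - e + ε / 2)) * 128 * rs D v n := by ring
        _ ≤ D.B.d n ^ (-((v:ℝ) - e + ε / 2)) * D.B.d n ^ (-(ε / 2)) * rs D v n :=
            mul_le_mul_of_nonneg_right (mul_le_mul_of_nonneg_left h5 hp.le) hρ7.le
        _ ≤ _ := mul_le_mul_of_nonneg_right h7 hρ7.le
    · intro x hx
      have hj := h1 x hx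
      have e1 : anc (D.lev n v) (D.lev n v + 7) (jx n x) = zc (D.lev n v) x.2 := by
        unfold Crest.Agent.R136.Deep51.anc
        rw [Nat.add_sub_cancel_left]
        exact hj
      have e2 : anc (D.lev n e) (D.lev n v + 7) (jx n x) = zc (D.lev n e) x.2 := by
        rw [← anc_anc h2 (by omega) (jx n x), e1, anc_zc h2]
      obtain ⟨s1, s2⟩ := sub_cell (i := D.lev n e) (m := D.lev n v + 7) (by omega) (jx n x)
      rw [e2] at s1 s2
      exact ⟨s1, s2⟩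
  filter_upwards [mark_ofM hJ.mka hb0 hb1, mark_ofM hJ.mka hc0 hc1,
    one b hb0 hb1 (le_max_left _ _) hvb, one c hc0 hc1 (le_max_right _ _) hvc] with
    n m1 m2 o1 o2 x hx
  have M1 := m1 x hx
  have M2 := m2 x hx
  obtain ⟨r1, z1⟩ := o1
  obtain ⟨r2, z2⟩ := o2
  obtain ⟨a1, a2⟩ := z1 x hx
  obtain ⟨b1, b2⟩ := z2 x hx
  rw [hcb]
  exact ⟨⟨M1.shp, M2.shp, M1.inP, M2.inP, a1, a2, b1, b2, r1, r2, M1.a, M1.w1, M1.w2⟩,
    ⟨M2.shp, M1.shp, M2.inP, M1.inP, b1, b2, a1, a2, r2, r1, M2.a, M2.w1, M2.w2⟩⟩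

end Crest.Agent.R136.Eng904
end

-- ▼ part R136/Rtn_846
section

/-!
# R136 (S0187), PLAN 2 wrapper: typical incidences are nondegenerate and rotate (helper846)

`typ_negl` : off a negligible set, curved marks are nondegenerate (`DegAt`) and of type I (`RotAt`),
every level in `[0, 1]`, no narrowness condition.
-/

set_option autoImplicit false
set_option linter.unusedVariables false

open Finset Filter Topology

namespace Crest.Agent.R136.Rtn846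

open Crest.Agent.R138.Ex926 (Base U)
open Crest.Agent.R138.Dp76 (Dense dpow_pos dpow_add dpow_le dpow_le_one)
open Crest.Agent.R138.Mk163 (zc zl rho Negl)
open Crest.Agent.R138.MkRef627 (mem_alive)
open Crest.Agent.R136.MkA627
open Crest.Agent.R136.Sh605
open Crest.Agent.R136.K4 (Plk4)
open Crest.Agent.R136.Top484
open Crest.Agent.R136.Tlt51 (Shp InP mk4 zx rh)
open Crest.Agent.R136.KapP335
open Crest.Agent.R136.Pl2W102

theorem negl_deg {η : ℝ} (hη : η ≤ 1) {p : Par4} {D : Dat4} (hJ : J1c η p D) {v : ℚ}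
    (hv0 : 0 ≤ v) (hv1 : v ≤ 1) {ε : ℝ} (hε : 0 < ε) : Negl D.B D.I (DegAt D ε v) :=
  Ndc335.nonDeg_core hη hJ hv0 hv1 hε

theorem negl_rot {η : ℝ} (hη : η ≤ 1) {p : Par4} {D : Dat4} (hJ : J1c η p D) {v : ℚ}
    (hv0 : 0 ≤ v) (hv1 : v ≤ 1) {ε : ℝ} (hε : 0 < ε) : Negl D.B D.I (RotAt D ε v) := by
  by_contra hcon
  obtain ⟨J0, hJ0, h0⟩ := dense_of_not_negl hcon
  obtain ⟨J1, hJ1, hM1⟩ := hJ.mka.refine hJ0
  have hN : ∀ k : ℕ, Negl D.B J1 (DegAt D (1 / ((k:ℝ) + 1)) v) := fun k =>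
    Crest.Agent.R138.Mk163.Negl.dense (negl_deg hη hJ hv0 hv1 (by positivity)) (hJ1.trans hJ0)
  obtain ⟨J2, hJ2s, hJ2, hM2, h2⟩ := Us555.mka_avoid hM1 _ hN
  have hsub : ∀ᶠ n in (U : Filter ℕ), ∀ x ∈ J2 n, RotAt D ε v n x := by
    filter_upwards [hJ1.1] with n hn x hx
    exact h0 n x (hn (hJ2s n hx))
  have hpos : ∀ᶠ n in (U : Filter ℕ), ∀ x ∈ J2 n, 0 < (mk4 D n v x).a := by
    filter_upwards [hM2.mark v hv0 hv1] with n a1 x hx
    obtain ⟨m1, m2, m3, m4⟩ := a1 (zc (D.lev n v) x.2) x.1 (mem_alive.2 ⟨x, hx, rfl, rfl⟩)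
    exact (hJ.r0pos n).trans_le m2.1.r0_le
  -- nondegenerate
  have hd : ∀ ε' : ℝ, 0 < ε' → ∀ᶠ n in (U : Filter ℕ), ∀ x ∈ J2 n, DetP (D.B.d n ^ ε')
      (mk4 D n v x) (zx D n v x) (rh D n v) (D.L n x.1) := by
    intro ε' hε'
    obtain ⟨k, hk⟩ := exists_nat_one_div_lt (lt_min hε hε')
    have hk1 : 1 / ((k:ℝ) + 1) ≤ ε := hk.le.trans (min_le_left _ _)
    have hk2 : 1 / ((k:ℝ) + 1) ≤ ε' := hk.le.trans (min_le_right _ _)
    filter_upwards [h2 k, hsub, hpos] with n hn hs ha x hx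
    by_contra hc
    refine hn x hx ⟨lt_of_le_of_lt ?_ (hs x hx).1, fun h => hc (h.mono ?_)⟩
    · exact mul_le_mul_of_nonneg_right (dpow_le D.B n (by linarith)) (ha x hx).le
    · exact dpow_le D.B n hk2
  have ht : ∀ᶠ n in (U : Filter ℕ), ∀ x ∈ J2 n,
      (mk4 D n v x).a ≤ D.B.d n ^ ε * kapP (mk4 D n v x) (zx D n v x) (rh D n v)
        (D.L n x.1) := by
    filter_upwards [hsub] with n hs x hx
    have h3 : D.B.d n ^ (-ε) * (mk4 D n v x).a <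
      kapP (mk4 D n v x) (zx D n v x) (rh D n v) (D.L n x.1) := (hs x hx).1
    have h4 := mul_le_mul_of_nonneg_left h3.le (dpow_pos D.B n ε).le
    rwa [← mul_assoc, ← dpow_add, add_neg_cancel, Real.rpow_zero, one_mul] at h4
  have hK := Kil327.kilN4 hM2 hJ.r0pos hJ.wrs (add_pos hJ.g0.2 hJ.q2.1) hv0 hv1 hd hε ht hε
  obtain ⟨J3, hJ3, h3⟩ := Dense.remove (Dense.refl D.B J2) hK
  obtain ⟨n, hn, hs, hne⟩ := ((hJ3.2 1 one_pos).and (hsub.and hM2.ne)).exists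
  have he : J3 n = ∅ := by
    refine Finset.eq_empty_of_forall_notMem fun x hx => ?_
    obtain ⟨h6, h7⟩ := h3 n x hx
    exact h7 (hs x h6).2
  rw [he, card_empty, Nat.cast_zero] at hn
  have h5 : (0:ℝ) < (J2 n).card := by exact_mod_cast hne.card_pos
  have h6 := mul_pos (dpow_pos D.B n 1) h5
  linarith

/-- **typical facts at every level** -/
theorem typ_negl {η : ℝ} (hη : η ≤ 1) {p : Par4} {D : Dat4} (hJ : J1c η p D) {v : ℚ}
    (hv0 : 0 ≤ v) (hv1 : v ≤ 1) {ε : ℝ} (hε : 0 < ε) :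
    Negl D.B D.I (DegAt D ε v) ∧ Negl D.B D.I (RotAt D ε v) :=
  ⟨negl_deg hη hJ hv0 hv1 hε, negl_rot hη hJ hv0 hv1 hε⟩

end Crest.Agent.R136.Rtn846
end

-- ▼ part R136/Tw7_46
section

/-!
# R136 (S0187), PLAN 2: from a cell `[zL, zL + ρL]` to a sub-cell `[z0, z0 + ρ]` and back (helper46)

The D-max of rotated sub-planks is only legal over a shorter cell (685, ARCH 12c), so the sheets of
`Two7` live over a longer cell than the D-max.

* `kp_le`, `kp_ge`, `det_sub`, `rot_sub`, `typU_sub`, `typP_sub` : facts at a line, long cell to sub-cell.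
* `closeC_sub` : closeness passes to sub-cells.
* `closeC_ext` : **closeness over the sub-cell and non-degeneracy of the base sheet give closeness
  over the long cell.**
* `close_up` : the same in both directions.
-/

set_option autoImplicit false
set_option linter.unusedVariables false

open Finset

namespace Crest.Agent.R136.Tw746

open Crest.Agent.R136.Sh605
open Crest.Agent.R136.Tl102
open Crest.Agent.R136.Deep51 (CloseC)
open Crest.Agent.R136.K4 (Plk4)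
open Crest.Agent.R136.Tlt51 (Shp InP)
open Crest.Agent.R136.KapP335
open Crest.Agent.R136.Cps605
open Crest.Agent.R136.Pl2 (kp rot2 TypU TypP)
open Crest.Agent.R136.Pl2W102 (Ty ty_sub)

variable {S S' : Plk4} {T : Ln4} {z0 ρ zL ρL r : ℝ}

theorem inP_sub {S : Plk4} {T : Ln4} (h : InP T S zL ρL) (h1 : zL ≤ z0) (h1' : z0 + ρ ≤ zL + ρL) :
    InP T S z0 ρ := fun z a b => h z (h1.trans a) (b.trans h1')

theorem w0_pos {S : Plk4} (hr : 0 < r) (hS : Shp S z0 ρ r) : 0 < S.w 0 :=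
  hr.trans_le (hS.r0_le.trans hS.a_le0)

/-! ### curvature extent, non-degeneracy, rotation -/


/-- the extent over a sub-cell is at most `40` times the one over the cell -/
theorem kp_le (hr : 0 < r) (hρ : 0 < ρ) (h1 : zL ≤ z0) (h1' : z0 + ρ ≤ zL + ρL)
    (hS : Shp S zL ρL r) (hT : InP T S zL ρL) : kp S z0 ρ T ≤ 40 * kp S zL ρL T :=
  Crest.Agent.R136.Pl2W102.kapP_le hr hρ h1 h1' hS hT



/-- non-degeneracy over a sub-cell -/
theorem det_sub {δ t : ℝ} (hr : 0 < r) (hρ : 0 < ρ) (h1 : zL ≤ z0) (h1' : z0 + ρ ≤ zL + ρL)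
    (ht0 : 0 ≤ t) (ht : t * ρL ≤ ρ) (hS : Shp S zL ρL r) (hT : InP T S zL ρL) (hδ : 0 ≤ δ)
    (hκ : 0 < kp S zL ρL T) (hdet : DetP δ S zL ρL T) : DetP (t ^ 2 / 40 ^ 3 * δ) S z0 ρ T := by
  have hρ1 : 0 < ρL := by linarith
  obtain ⟨-, -, k3⟩ := kapP_sub hr hρ h1 h1' hS hT hκ hdet
  refine k3.mono ?_
  have : t ≤ ρ / ρL := by rw [le_div_iff₀ hρ1]; exact ht
  have := pow_le_pow_left₀ ht0 this 2
  gcongr

theorem rot2_iff {δ : ℝ} (hq : IsQ S.q) (hw : S.w 0 ≠ 0) : δ ≤ rot2 S z0 ρ T ↔ Ty δ S T z0 ρ := by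
  have hE := expP_spec hq hw z0 ρ T
  constructor
  · intro h b0 b1 G hE'
    obtain ⟨e1, e2, e3⟩ := isExp_unique hw hE' hE
    rw [e1, e2, e3]
    exact h
  · intro h
    exact h _ _ _ hE

/-- type I over a sub-cell -/
theorem rot_sub {δ t : ℝ} (hr : 0 < r) (hρ : 0 < ρ) (h1 : zL ≤ z0) (h1' : z0 + ρ ≤ zL + ρL)
    (ht : t * ρL ≤ ρ) (hS : Shp S zL ρL r) (hT : InP T S zL ρL) (hδ : 0 ≤ δ)
    (hκ : 0 < kp S z0 ρ T) (hd : δ ≤ rot2 S zL ρL T) : t * δ / 160 ≤ rot2 S z0 ρ T := by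
  have hρ1 : 0 < ρL := by linarith
  have hw0 : 0 < S.w 0 := w0_pos hr hS
  have h2 := ty_sub hr hρ h1 h1' hS hT hκ hδ ((rot2_iff hS.isQ hw0.ne').1 hd)
  refine (rot2_iff hS.isQ hw0.ne').2 (h2.mono ?_)
  have : t ≤ ρ / ρL := by rw [le_div_iff₀ hρ1]; exact ht
  gcongr

/-- **typical facts over a sub-cell** -/
theorem typU_sub {K K1 W W' a t : ℝ} (hr : 0 < r) (hρ : 0 < ρ) (h1 : zL ≤ z0)
    (h1' : z0 + ρ ≤ zL + ρL) (ht0 : 0 < t) (ht : t * ρL ≤ ρ) (hS : Shp S zL ρL r)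
    (hT : InP T S zL ρL) (ha : 0 < a) (hW : 0 < W) (hWW : 40 ^ 3 / t ^ 2 * W ≤ W')
    (h : TypU K1 W a S T zL ρL) : TypU K W' a S T z0 ρ := by
  have hρ1 : 0 < ρL := by linarith
  have hw0 : 0 < S.w 0 := w0_pos hr hS
  have ht1 : t ≤ 1 := by
    by_contra hc
    push Not at hc
    nlinarith
  have ht2 : t ^ 2 ≤ 1 := pow_le_one₀ ht0.le ht1
  have hi : 1 ≤ 1 / t ^ 2 := by rw [le_div_iff₀ (by positivity)]; linarith
  have hW40 : 40 ^ 3 * W ≤ W' := by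
    refine le_trans ?_ hWW
    have : 40 ^ 3 / t ^ 2 * W = 40 ^ 3 * W * (1 / t ^ 2) := by ring
    rw [this]
    exact le_mul_of_one_le_right (by positivity) hi
  have hW' : 0 < W' := lt_of_lt_of_le (by positivity) hW40
  have key : W' * a ≤ kp S z0 ρ T → W * a ≤ kp S zL ρL T := by
    intro h2
    have h3 := kp_le hr hρ h1 h1' hS hT
    have h4 : 40 ^ 3 * W * a ≤ W' * a := mul_le_mul_of_nonneg_right hW40 ha.le
    have h5 : 0 < W * a := mul_pos hW ha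
    nlinarith
  refine ⟨fun h2 => ?_, fun h2 h3 => ?_⟩
  · have h4 := key h2
    have h5 : 0 < kp S zL ρL T := lt_of_lt_of_le (mul_pos hW ha) h4
    have h6 := det_sub hr hρ h1 h1' ht0.le ht hS hT (inv_nonneg.2 hW.le) h5 (h.det h4)
    refine h6.mono ?_
    rw [inv_le_iff_one_le_mul₀ hW']
    have e : t ^ 2 / 40 ^ 3 * W⁻¹ * W' = W' / (40 ^ 3 / t ^ 2 * W) := by
      field_simp
    rw [e, le_div_iff₀ (by positivity), one_mul]
    exact hWW
  · have h4 := key h2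
    have h5 : 0 < kp S z0 ρ T := lt_of_lt_of_le (mul_pos hW' ha) h2
    have h3' : W * S.w 2 ≤ S.w 1 := by
      refine le_trans (mul_le_mul_of_nonneg_right ?_ (hw0.trans_le hS.w0_le).le) h3
      linarith
    have h6 := rot_sub hr hρ h1 h1' ht hS hT (by positivity) h5 (h.rot h4 h3')
    refine le_trans ?_ h6
    rw [div_le_iff₀ hW']
    have e : t * (1 / W) / 160 * W' = t * W' / (160 * W) := by
      field_simp
    rw [e, le_div_iff₀ (by positivity), one_mul]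
    have h7 : 40 ^ 3 * W ≤ t ^ 2 * W' := by
      rw [div_mul_eq_mul_div, div_le_iff₀ (by positivity)] at hWW
      linarith
    have h8 : t ^ 2 * W' ≤ t * W' := by
      refine mul_le_mul_of_nonneg_right ?_ hW'.le
      nlinarith
    linarith


/-! ### closeness -/

theorem closeC_sub {e : Fin 3 → V3} {w : V3} {q q' : ℝ → V3 → ℝ} {a E E' : ℝ}
    (h : CloseC e w q a q' E T zL ρL) (hE : E ≤ E') (h1 : zL ≤ z0) (h1' : z0 + ρ ≤ zL + ρL) :
    CloseC e w q a q' E' T z0 ρ :=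
  fun z a1 a2 x hx hq => (h z (h1.trans a1) (a2.trans h1') x hx hq).trans hE

/-- evaluation of `ω` at an arbitrary height -/
theorem omB_far {κ X Z : ℝ} {b0 b1 : V3} {G : QF} {b0' b1' : V3} {G' : QF}
    (O : OmB κ X X X b0 b1 G b0' b1' G') (hb0 : b0 0 ≠ 0) {ζ h s : ℝ} {p : V3} (hζ : |ζ| ≤ Z)
    (h0 : |p 0| ≤ h) (h1 : |p 1| ≤ s) (h2 : |p 2| ≤ s) :
    |Fq (om0 κ b0 b0') (om1 κ b0 b1 b0' b1') (omM κ b0 G b0' G') ζ p| ≤
      X * (Z * h + h ^ 2 + 2 * (h * s) + 2 * s + 2 * (Z * s) + 3 * s ^ 2) := by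
  have z0 := om0_zero κ hb0 b0'
  have e : Fq (om0 κ b0 b0') (om1 κ b0 b1 b0' b1') (omM κ b0 G b0' G') ζ p =
      (ζ * om1 κ b0 b1 b0' b1' 0 * p 0 + (omM κ b0 G b0' G').yy * (p 0 * p 0) +
        ((omM κ b0 G b0' G').yu * (p 0 * p 1) + (omM κ b0 G b0' G').yv * (p 0 * p 2))) +
      ((om0 κ b0 b0' 1 * p 1 + om0 κ b0 b0' 2 * p 2) +
        (ζ * om1 κ b0 b1 b0' b1' 1 * p 1 + ζ * om1 κ b0 b1 b0' b1' 2 * p 2) +
        ((omM κ b0 G b0' G').uu * (p 1 * p 1) + (omM κ b0 G b0' G').uv * (p 1 * p 2) +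
          (omM κ b0 G b0' G').vv * (p 2 * p 2))) := by
    simp only [Fq, dt, bz, QF.ev, z0]; ring
  rw [e]
  refine (Arc880.abs_add2 (Arc880.abs_add2 (Arc880.abs_add2
    (mul_abs_le (mul_abs_le hζ O.y1) h0) (mul_abs_le O.yy (mul_abs_le h0 h0)))
    (Arc880.abs_add2 (mul_abs_le O.yu (mul_abs_le h0 h1)) (mul_abs_le O.yv (mul_abs_le h0 h2))))
    (Arc880.abs_add2 (Arc880.abs_add2
      (Arc880.abs_add2 (mul_abs_le O.h01 h1) (mul_abs_le O.h02 h2))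
      (Arc880.abs_add2 (mul_abs_le (mul_abs_le hζ O.h11) h1)
        (mul_abs_le (mul_abs_le hζ O.h12) h2)))
      (Arc880.abs_add2 (Arc880.abs_add2 (mul_abs_le O.uu (mul_abs_le h1 h1))
        (mul_abs_le O.uv (mul_abs_le h1 h2))) (mul_abs_le O.vv (mul_abs_le h2 h2))))).trans
    (le_of_eq (by ring))

set_option maxHeartbeats 1000000 in
/-- **the coefficient form over the sub-cell gives closeness over the cell** -/
theorem closeC_poly {t E' : ℝ} (hr : 0 < r) (hρ : 0 < ρ) (h1 : zL ≤ z0)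
    (h1' : z0 + ρ ≤ zL + ρL) (hS : Shp S zL ρL r) (hT : InP T S zL ρL) (hS' : Shp S' zL ρL r)
    (hT' : InP T S' zL ρL) (ht0 : 0 < t) (ht : t * ρL ≤ ρ) (hpoly : PolyC E' S S' T z0 ρ)
    (hE'0 : 0 ≤ E') (hk : 0 < kp S zL ρL T) (hka : S.a ≤ kp S zL ρL T) :
    CloseC S.e S.w S.q S.a S'.q (S'.a + 16 * S.a + 10 ^ 6 / t ^ 2 * E') T zL ρL := by
  have hρ1 : 0 < ρL := by linarith
  have hw0 : 0 < S.w 0 := w0_pos hr hS
  have hw0' : 0 < S'.w 0 := w0_pos hr hS'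
  have ht1 : t ≤ 1 := by
    by_contra hc
    push Not at hc
    nlinarith
  have P := StP.of_shN hS hw0
  have hwp : ∀ k, 0 < S.w k := P.pos
  have hwne : ∀ k, S.w k ≠ 0 := fun k => (hwp k).ne'
  obtain ⟨b0, b1, G, hEx⟩ := exists_isExp P.isQ S.e hw0.ne' T zL ρL
  have hTK : ∀ z, zL ≤ z → z ≤ zL + ρL → InK S.e S.c S.w z (T.pos z) :=
    fun z h1 h2 => (hT z h1 h2).1
  have N := hEx.nrmC P hρ1.le hTK
  obtain ⟨m0, m1, m2⟩ := hgt_mem (z0' := zL) (z0 := z0) hρ1 hρ.le h1 h1'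
  have hEs := isExp_mono (z0 := z0) (ρ := ρ) hEx hρ1.ne'
  have hτ0 : 0 < ρ / ρL := div_pos hρ hρ1
  have hζ01 : (z0 - zL) / ρL ≤ 1 := by linarith
  obtain ⟨b0', b1', G', hEx'⟩ := exists_isExp hS'.isQ S.e hw0.ne' T z0 ρ
  obtain ⟨μ1, μ2, X, hX, OB⟩ := hpoly _ _ _ _ _ _ hEs hEx'
  have hk1 : t * kap b0 b1 G ≤
      160 * kap (b0s b0 b1 ((z0 - zL) / ρL)) (b1s b1 (ρ / ρL)) G := by
    refine le_trans (mul_le_mul_of_nonneg_right ?_ (kap_nonneg _ _ _)) (kap_le_sub N m0 hτ0.le m2)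
    rw [le_div_iff₀ hρ1]; exact ht
  unfold kp at hk hka
  rw [kapP_eq hw0.ne' hEx] at hk hka
  have hκL : 0 < kap b0 b1 G := (mul_pos_iff_of_pos_left hw0).1 hk
  obtain ⟨q1, q2⟩ := D_ge N m0 hζ01
  have sl1 := slope_sub N m0 hζ01 (k := 1) (Or.inl rfl)
  have sl2 := slope_sub N m0 hζ01 (k := 2) (Or.inr rfl)
  obtain ⟨kc1, kc2, -⟩ := kap_comp b0 b1 G
  set ζ0 := (z0 - zL) / ρL with hζ0
  set B0 := b0s b0 b1 ζ0 with hB0
  set B1 := b1s b1 (ρ / ρL) with hB1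
  set κ := kap B0 B1 G with hκ
  set κL := kap b0 b1 G with hκLd
  have hκ0 : 0 < κ := by
    have : 0 < t * κL := mul_pos ht0 hκL
    linarith
  have hX0 : 0 ≤ X := OB.nonneg.1
  have hB00 : B0 0 ≠ 0 := by linarith
  intro z hz1 hz2 y hy hq
  have ez : z = z0 + ρ * ((z - z0) / ρ) := by field_simp; ring
  have ezL : z = zL + ρL * ((z - zL) / ρL) := by field_simp; ring
  have hζa : |(z - z0) / ρ| ≤ 1 / t := by
    rw [abs_div, abs_of_pos hρ, div_le_div_iff₀ hρ ht0, one_mul]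
    have h3 : |z - z0| ≤ ρL := by
      rw [abs_le]; constructor <;> linarith
    calc |z - z0| * t ≤ ρL * t := mul_le_mul_of_nonneg_right h3 ht0.le
      _ ≤ ρ := by linarith
  have hζL0 : 0 ≤ (z - zL) / ρL := div_nonneg (by linarith) hρ1.le
  have hζL1 : (z - zL) / ρL ≤ 1 := by rw [div_le_one hρ1]; linarith
  -- the point in the coordinates of `S`
  have hpv : ∀ k : Fin 3, |pv S.e S.w (y - T.pos z) k| ≤ 1 / 8 := by
    intro k
    have h3 := hy k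
    simp only [pv]
    rw [abs_div, abs_of_pos (hwp k), div_le_iff₀ (hwp k)]
    linarith
  have hyK : InK S.e S.c (dbl3 S.w) z y := by
    intro k
    have h3 := hy k
    have h4 := hTK z hz1 hz2 k
    have e1 : dt (S.e k) (y - S.c.pos z) =
        dt (S.e k) (y - T.pos z) + dt (S.e k) (T.pos z - S.c.pos z) := by
      rw [← dt_add]
      congr 1
      abel
    rw [e1]
    refine (abs_add_le _ _).trans ?_
    simp only [dbl3]
    have := hwp k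
    beta_reduce at h3
    linarith
  have hTq : |S.q z (T.pos z)| ≤ S.a := (hT z hz1 hz2).2
  have hTq' : |S'.q z (T.pos z)| ≤ S'.a := (hT' z hz1 hz2).2
  have hyc := yc_le2 P hρ1.le hTK hEx (ζ := (z - zL) / ρL) hζL0 hζL1 (X := y) (r := 1 / 8)
    (by rw [← ezL]; exact hyK) le_rfl (by rw [← ezL]; exact hpv 1) (by rw [← ezL]; exact hpv 2)
  rw [← ezL, pc_pv] at hyc
  set x := pv S.e S.w (y - T.pos z) with hx
  have hyc1 : |yc b0 x| ≤ 5 * κL := by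
    have h3 : S.w 0 * |yc b0 x| ≤ S.w 0 * (5 * κL) := by
      refine hyc.trans ?_
      have h4 : 0 < S.w 0 * κL := mul_pos hw0 hκL
      nlinarith
    exact le_of_mul_le_mul_left h3 hw0
  have hyc2 : |yc B0 x| ≤ 6 * κL := by
    have e1 : yc B0 x = yc b0 x + (B0 1 / B0 0 - b0 1 / b0 0) * x 1 +
        (B0 2 / B0 0 - b0 2 / b0 0) * x 2 := by
      unfold yc; ring
    rw [e1]
    have f : ∀ k : Fin 3, |shB1 b0 b1 k| ≤ κL → |B0 k / B0 0 - b0 k / b0 0| ≤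
        2 * ζ0 * |shB1 b0 b1 k| → |(B0 k / B0 0 - b0 k / b0 0) * x k| ≤ κL / 4 := by
      intro k h3 h4
      have h5 : 2 * ζ0 * |shB1 b0 b1 k| ≤ 2 * κL := by
        have := abs_nonneg (shB1 b0 b1 k)
        nlinarith
      have := mul_abs_le (h4.trans h5) (hpv k)
      linarith
    have g1 := f 1 kc1 sl1
    have g2 := f 2 kc2 sl2
    have := Arc880.abs_add2 (Arc880.abs_add2 hyc1 g1) g2
    linarith
  have hp0 : |tv κ B0 S.e S.w (y - T.pos z) 0| ≤ 960 / t := by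
    change |yc B0 x / κ| ≤ 960 / t
    rw [abs_div, abs_of_pos hκ0, div_le_div_iff₀ hκ0 ht0]
    calc |yc B0 x| * t ≤ 6 * κL * t := mul_le_mul_of_nonneg_right hyc2 ht0.le
      _ ≤ 960 * κ := by linarith
  have hv := om_val P.ortho hwne hEs hEx' hκ0.ne' ((z - z0) / ρ) y
  rw [← ez] at hv
  have hF := omB_far OB hB00 (p := tv κ B0 S.e S.w (y - T.pos z)) hζa hp0
    (show |tv κ B0 S.e S.w (y - T.pos z) 1| ≤ 1 / 8 from hpv 1)
    (show |tv κ B0 S.e S.w (y - T.pos z) 2| ≤ 1 / 8 from hpv 2)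
  have hnum : 1 / t * (960 / t) + (960 / t) ^ 2 + 2 * (960 / t * (1 / 8)) + 2 * (1 / 8) +
      2 * (1 / t * (1 / 8)) + 3 * (1 / 8) ^ 2 ≤ 10 ^ 6 / t ^ 2 := by
    rw [le_div_iff₀ (by positivity)]
    have e1 : (1 / t * (960 / t) + (960 / t) ^ 2 + 2 * (960 / t * (1 / 8)) + 2 * (1 / 8) +
      2 * (1 / t * (1 / 8)) + 3 * (1 / 8) ^ 2) * t ^ 2 =
        960 + 921600 + 240 * t + t ^ 2 / 4 + t / 4 + 3 / 64 * t ^ 2 := by
      field_simp
      ring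
    rw [e1]
    have : t ^ 2 ≤ 1 := pow_le_one₀ ht0.le ht1
    linarith
  have hom : |S.w 0 * κ * Fq (om0 κ B0 b0') (om1 κ B0 B1 b0' b1') (omM κ B0 G b0' G')
      ((z - z0) / ρ) (tv κ B0 S.e S.w (y - T.pos z))| ≤ 10 ^ 6 / t ^ 2 * E' := by
    rw [abs_mul, abs_of_pos (mul_pos hw0 hκ0)]
    calc S.w 0 * κ * |Fq (om0 κ B0 b0') (om1 κ B0 B1 b0' b1') (omM κ B0 G b0' G')
          ((z - z0) / ρ) (tv κ B0 S.e S.w (y - T.pos z))|
        ≤ S.w 0 * κ * (X * (10 ^ 6 / t ^ 2)) :=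
          mul_le_mul_of_nonneg_left (hF.trans (mul_le_mul_of_nonneg_left hnum hX0))
            (mul_pos hw0 hκ0).le
      _ = 10 ^ 6 / t ^ 2 * (X * (S.w 0 * κ)) := by ring
      _ ≤ 10 ^ 6 / t ^ 2 * E' := mul_le_mul_of_nonneg_left hX (by positivity)
  rw [← hv] at hom
  have hmq : |b0' 0 / B0 0 * (S.q z y - S.q z (T.pos z))| ≤ 8 * (2 * S.a) := by
    refine mul_abs_le μ2 ?_
    have := Arc880.abs_sub2 hq hTq
    linarith
  have e2 : S'.q z y = S'.q z (T.pos z) + b0' 0 / B0 0 * (S.q z y - S.q z (T.pos z)) +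
      (S'.q z y - S'.q z (T.pos z) - b0' 0 / B0 0 * (S.q z y - S.q z (T.pos z))) := by ring
  rw [e2]
  have := Arc880.abs_add2 (Arc880.abs_add2 hTq' hmq) hom
  linarith


/-- **closeness over the sub-cell gives closeness over the cell**, non-degeneracy over the
sub-cell -/
theorem closeC_extS {δ t E : ℝ} (hr : 0 < r) (hρ : 0 < ρ) (h1 : zL ≤ z0)
    (h1' : z0 + ρ ≤ zL + ρL) (hS : Shp S zL ρL r) (hT : InP T S zL ρL) (hS' : Shp S' zL ρL r)
    (hT' : InP T S' zL ρL) (ht0 : 0 < t) (ht : t * ρL ≤ ρ) (hδ : 0 < δ)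
    (hdet : DetP δ S z0 ρ T) (hcl : CloseC S.e S.w S.q S.a S'.q E T z0 ρ) (hE0 : 0 ≤ E)
    (hE : 10 ^ 20 * E ≤ δ ^ 8 * kp S z0 ρ T) (hka : 40 * S.a ≤ kp S z0 ρ T) :
    CloseC S.e S.w S.q S.a S'.q (S'.a + 16 * S.a + 10 ^ 6 / t ^ 2 * (10 ^ 19 * E / δ ^ 8))
      T zL ρL := by
  have hw0 : 0 < S.w 0 := w0_pos hr hS
  have hw0' : 0 < S'.w 0 := w0_pos hr hS'
  have ha : 0 < S.a := hr.trans_le hS.r0_le
  have hk0 : 0 < kp S z0 ρ T := by linarith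
  have hk1 := kp_le hr hρ h1 h1' hS hT
  exact closeC_poly hr hρ h1 h1' hS hT hS' hT' ht0 ht
    (Crest.Agent.R136.TL650.polyC_of_close (shp_sub hS h1 h1') hw0 hρ.le (inP_sub hT h1 h1') hS'
      hw0' h1 h1' hT' hk0 hδ hdet hcl hE) (by positivity) (by linarith) (by linarith)

end Crest.Agent.R136.Tw746
end

-- ▼ part R136/Tw8_46
section

/-!
# R136 (S0187), PLAN 2: closeness of two sheets over a sub-cell gives closeness over the cell, in both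
directions (helper46)

* `kp_two` : the extent of the base sheet is bounded by the one of the other sheet.
* `close_up` : both directions, abstract sizes.
* `close_near` : both directions, in the letters of `Two1`, `TypU`.
-/

set_option autoImplicit false
set_option linter.unusedVariables false

open Finset

namespace Crest.Agent.R136.Tw746

open Crest.Agent.R136.Sh605
open Crest.Agent.R136.Tl102
open Crest.Agent.R136.Deep51 (CloseC)
open Crest.Agent.R136.K4 (Plk4)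
open Crest.Agent.R136.Tlt51 (Shp InP)
open Crest.Agent.R136.KapP335
open Crest.Agent.R136.Cps605
open Crest.Agent.R136.Pl2 (kp rot2 TypU TypP)
open Crest.Agent.R136.Pl2W102 (Ty ty_sub Near)

variable {S S' : Plk4} {T : Ln4} {z0 ρ zL ρL r : ℝ}

theorem a_pos {S : Plk4} (hr : 0 < r) (hS : Shp S z0 ρ r) : 0 < S.a := hr.trans_le hS.r0_le

/-- the extent of the base sheet over the sub-cell is bounded by the one of the other sheet -/
theorem kp_two {Λ E : ℝ} (hr : 0 < r) (hρ : 0 < ρ) (h1 : zL ≤ z0) (h1' : z0 + ρ ≤ zL + ρL)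
    (hS : Shp S zL ρL r) (hT : InP T S zL ρL) (hS' : Shp S' zL ρL r) (hT' : InP T S' zL ρL)
    (hΛ : 1 ≤ Λ) (hcl : CloseC S.e S.w S.q S.a S'.q E T z0 ρ) (w1 : S.w 1 ≤ Λ * S'.w 1)
    (w2 : S.w 2 ≤ Λ * S'.w 2) (g : |dt (S'.e 2) (S.e 1)| * S.w 1 ≤ Λ * S'.w 2) :
    kp S z0 ρ T ≤ 10 ^ 14 * Λ ^ 2 * (E + S'.a + kp S' zL ρL T) := by
  have hρ1 : 0 < ρL := by linarith
  have hw0 : 0 < S.w 0 := w0_pos hr hS
  have hw0' : 0 < S'.w 0 := w0_pos hr hS'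
  have P := StP.of_shN hS hw0
  have P' := StP.of_shN hS' hw0'
  have H : Crest.Agent.R136.Prs262.Two Λ E S S' T z0 ρ zL ρL :=
    { one := hΛ
      ρ0 := hρ
      ρ0' := hρ1
      c1 := h1
      c2 := h1'
      st := stP_mono P h1 h1'
      st' := P'
      o1 := hS.w0_le
      o2 := hS.w_le
      a0 := a_pos hr hS'
      inn := inSheet_mono hT h1 h1'
      inn' := hT'
      cl := hcl
      w1 := w1
      w2 := w2
      g := g }
  exact H.kap_down (expP_spec P.isQ hw0.ne' z0 ρ T) (expP_spec P'.isQ hw0'.ne' zL ρL T)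



/-! ### the same with the facts over the sub-cell -/

/-- **both directions over the long cell**, curvature and non-degeneracy over the sub-cell -/
theorem close_upS {Λ W a t : ℝ} (hr : 0 < r) (hρ : 0 < ρ) (h1 : zL ≤ z0) (h1' : z0 + ρ ≤ zL + ρL)
    (ht0 : 0 < t) (ht : t * ρL ≤ ρ) (hS : Shp S zL ρL r) (hT : InP T S zL ρL)
    (hS' : Shp S' zL ρL r) (hT' : InP T S' zL ρL) (ha : 0 < a) (hW : 1 ≤ W) (hΛ : 1 ≤ Λ)
    (dS : S.a ≤ Λ * a) (dS' : S'.a ≤ Λ * a) (w1 : S.w 1 ≤ Λ * S'.w 1) (w2 : S.w 2 ≤ Λ * S'.w 2)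
    (g : |dt (S'.e 2) (S.e 1)| * S.w 1 ≤ Λ * S'.w 2)
    (tU : W * a ≤ kp S z0 ρ T → DetP W⁻¹ S z0 ρ T)
    (tV : W * a ≤ kp S' z0 ρ T → DetP W⁻¹ S' z0 ρ T)
    (hcl : CloseC S.e S.w S.q S.a S'.q (Λ * a) T z0 ρ)
    (hcl' : CloseC S'.e S'.w S'.q S'.a S.q (Λ * a) T z0 ρ)
    (hbig : 10 ^ 35 * Λ ^ 3 * W ^ 8 * a ≤ kp S z0 ρ T) :
    CloseC S.e S.w S.q S.a S'.q (10 ^ 26 * Λ * W ^ 8 / t ^ 2 * a) T zL ρL ∧
      CloseC S'.e S'.w S'.q S'.a S.q (10 ^ 26 * Λ * W ^ 8 / t ^ 2 * a) T zL ρL := by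
  have hρ1 : 0 < ρL := by linarith
  have hW0 : 0 < W := by linarith
  have hΛ0 : 0 < Λ := by linarith
  have ht1 : t ≤ 1 := by
    by_contra hc
    push Not at hc
    nlinarith
  have hW8 : 1 ≤ W ^ 8 := one_le_pow₀ hW
  have hWW8 : W ≤ W ^ 8 := by
    calc W = W ^ 1 := (pow_one W).symm
      _ ≤ W ^ 8 := pow_le_pow_right₀ hW (by norm_num)
  have hΛ2 : 1 ≤ Λ ^ 2 := one_le_pow₀ hΛ
  -- the unit `u = Λ W^8 a`
  set u := Λ * W ^ 8 * a with hu
  have hu0 : 0 < u := by positivity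
  have e0 : 10 ^ 35 * Λ ^ 3 * W ^ 8 * a = 10 ^ 35 * Λ ^ 2 * u := by rw [hu]; ring
  rw [e0] at hbig
  have hΛu : Λ * a ≤ u := by
    rw [hu]
    exact mul_le_mul_of_nonneg_right (le_mul_of_one_le_right hΛ0.le hW8) ha.le
  have hWu : W * a ≤ u := by
    rw [hu]
    exact mul_le_mul_of_nonneg_right (hWW8.trans (le_mul_of_one_le_left (by positivity) hΛ)) ha.le
  have hΛ2u : u ≤ Λ ^ 2 * u := le_mul_of_one_le_left hu0.le hΛ2
  have hbig1 : 10 ^ 35 * u ≤ kp S z0 ρ T := by nlinarith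
  -- the other sheet
  have hS0 := shp_sub hS h1 h1'
  have hS0' := shp_sub hS' h1 h1'
  have hk1 := kp_two (zL := z0) (ρL := ρ) hr hρ le_rfl le_rfl hS0 (inP_sub hT h1 h1') hS0'
    (inP_sub hT' h1 h1') hΛ hcl w1 w2 g
  have hbig' : 10 ^ 20 * u ≤ kp S' z0 ρ T := by
    by_contra hc
    push Not at hc
    have h3 : Λ * a + S'.a + kp S' z0 ρ T ≤ (2 + 10 ^ 20) * u := by linarith
    have h4 : 10 ^ 14 * Λ ^ 2 * (Λ * a + S'.a + kp S' z0 ρ T) ≤
        10 ^ 14 * Λ ^ 2 * ((2 + 10 ^ 20) * u) := mul_le_mul_of_nonneg_left h3 (by positivity)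
    have h5 : 10 ^ 35 * (Λ ^ 2 * u) ≤ (10 ^ 14 * (2 + 10 ^ 20)) * (Λ ^ 2 * u) := by
      have e1 : 10 ^ 35 * (Λ ^ 2 * u) = 10 ^ 35 * Λ ^ 2 * u := by ring
      have e2 : (10 ^ 14 * (2 + 10 ^ 20)) * (Λ ^ 2 * u) =
        10 ^ 14 * Λ ^ 2 * ((2 + 10 ^ 20) * u) := by ring
      rw [e1, e2]
      linarith
    have h6 : 0 < Λ ^ 2 * u := by positivity
    have h7 : (10 ^ 14 * (2 + 10 ^ 20) : ℝ) < 10 ^ 35 := by norm_num
    nlinarith
  have dU := tU (by linarith)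
  have dV := tV (by linarith)
  have hWi : 0 < W⁻¹ := inv_pos.2 hW0
  have hE0 : 0 ≤ Λ * a := by positivity
  have hE : ∀ k : ℝ, 10 ^ 20 * u ≤ k → 10 ^ 20 * (Λ * a) ≤ W⁻¹ ^ 8 * k := by
    intro k hk
    have h3 : W⁻¹ ^ 8 * (10 ^ 20 * u) ≤ W⁻¹ ^ 8 * k :=
      mul_le_mul_of_nonneg_left hk (by positivity)
    have h4 : W⁻¹ ^ 8 * (10 ^ 20 * u) = 10 ^ 20 * (Λ * a) := by
      rw [hu]
      field_simp
    linarith
  have c1 := closeC_extS hr hρ h1 h1' hS hT hS' hT' ht0 ht hWi dU hcl hE0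
    (hE _ (by linarith)) (by linarith)
  have c2 := closeC_extS hr hρ h1 h1' hS' hT' hS hT ht0 ht hWi dV hcl' hE0 (hE _ hbig')
    (by linarith)
  have tp2 : 0 < t ^ 2 := by positivity
  have hfin : 17 * (Λ * a) + 10 ^ 6 / t ^ 2 * (10 ^ 19 * (Λ * a) / W⁻¹ ^ 8) ≤
      10 ^ 26 * Λ * W ^ 8 / t ^ 2 * a := by
    have e1 : 10 ^ 6 / t ^ 2 * (10 ^ 19 * (Λ * a) / W⁻¹ ^ 8) = 10 ^ 25 * (u / t ^ 2) := by
      rw [hu]
      field_simp
    have e2 : 10 ^ 26 * Λ * W ^ 8 / t ^ 2 * a = 10 ^ 26 * (u / t ^ 2) := by rw [hu]; ring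
    have e3 : u ≤ u / t ^ 2 := by
      rw [le_div_iff₀ tp2]
      have : t ^ 2 ≤ 1 := pow_le_one₀ ht0.le ht1
      nlinarith
    rw [e1, e2]
    linarith
  refine ⟨closeC_sub c1 ?_ le_rfl le_rfl, closeC_sub c2 ?_ le_rfl le_rfl⟩
  · linarith
  · linarith

/-- **both directions over the long cell**, in the letters of `Two1` and `TypU`, facts over the
sub-cell: `B` bounds all ratios, `E = B a` -/
theorem close_nearS {K K' B W a w1 w2 t : ℝ} (hr : 0 < r) (hρ : 0 < ρ) (h1 : zL ≤ z0)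
    (h1' : z0 + ρ ≤ zL + ρL) (ht0 : 0 < t) (ht : t * ρL ≤ ρ) (hS : Shp S zL ρL r)
    (hT : InP T S zL ρL) (hS' : Shp S' zL ρL r) (hT' : InP T S' zL ρL) (ha : 0 < a)
    (hW : 1 ≤ W) (hB : 1 ≤ B)
    (dU : Near B a S.a ∧ Near B w1 (S.w 1) ∧ Near B w2 (S.w 2))
    (dV : Near B a S'.a ∧ Near B w1 (S'.w 1) ∧ Near B w2 (S'.w 2))
    (hang : angC S S' * w1 ≤ B * w2)
    (tU : TypU K W a S T z0 ρ) (tV : TypU K' W a S' T z0 ρ)
    (hcl : CloseC S.e S.w S.q S.a S'.q (B * a) T z0 ρ)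
    (hcl' : CloseC S'.e S'.w S'.q S'.a S.q (B * a) T z0 ρ)
    (hbig : 10 ^ 35 * B ^ 9 * W ^ 8 * a ≤ kp S z0 ρ T) :
    CloseC S.e S.w S.q S.a S'.q (10 ^ 26 * B ^ 3 * W ^ 8 / t ^ 2 * a) T zL ρL ∧
      CloseC S'.e S'.w S'.q S'.a S.q (10 ^ 26 * B ^ 3 * W ^ 8 / t ^ 2 * a) T zL ρL := by
  have hB0 : 0 < B := by linarith
  have hB3 : B ≤ B ^ 3 := by
    calc B = B ^ 1 := (pow_one B).symm
      _ ≤ B ^ 3 := pow_le_pow_right₀ hB (by norm_num)
  have hB2 : B ^ 2 ≤ B ^ 3 := pow_le_pow_right₀ hB (by norm_num)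
  obtain ⟨⟨ua, ua'⟩, ⟨u1, u1'⟩, ⟨u2, u2'⟩⟩ := dU
  obtain ⟨⟨va, va'⟩, ⟨v1, v1'⟩, ⟨v2, v2'⟩⟩ := dV
  have pw2 : 0 < S'.w 2 := (w0_pos hr hS').trans_le hS'.w0_le
  have pw1 : 0 < S'.w 1 := pw2.trans_le hS'.w_le
  have qw2 : 0 < S.w 2 := (w0_pos hr hS).trans_le hS.w0_le
  have qw1 : 0 < S.w 1 := qw2.trans_le hS.w_le
  refine close_upS hr hρ h1 h1' ht0 ht hS hT hS' hT' ha hW (Λ := B ^ 3) (one_le_pow₀ hB) ?_ ?_ ?_ ?_
    ?_ tU.det tV.det ?_ ?_ ?_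
  · exact ua'.trans (mul_le_mul_of_nonneg_right hB3 ha.le)
  · exact va'.trans (mul_le_mul_of_nonneg_right hB3 ha.le)
  · calc S.w 1 ≤ B * w1 := u1'
      _ ≤ B * (B * S'.w 1) := mul_le_mul_of_nonneg_left v1 hB0.le
      _ = B ^ 2 * S'.w 1 := by ring
      _ ≤ B ^ 3 * S'.w 1 := mul_le_mul_of_nonneg_right hB2 pw1.le
  · calc S.w 2 ≤ B * w2 := u2'
      _ ≤ B * (B * S'.w 2) := mul_le_mul_of_nonneg_left v2 hB0.le
      _ = B ^ 2 * S'.w 2 := by ring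
      _ ≤ B ^ 3 * S'.w 2 := mul_le_mul_of_nonneg_right hB2 pw2.le
  · have h3 : |dt (S'.e 2) (S.e 1)| ≤ angC S S' := by
      rw [dt_comm]; exact le_angC _ _ (by decide)
    have h4 : 0 ≤ angC S S' := (abs_nonneg _).trans h3
    calc |dt (S'.e 2) (S.e 1)| * S.w 1 ≤ angC S S' * (B * w1) :=
          mul_le_mul h3 u1' qw1.le h4
      _ = B * (angC S S' * w1) := by ring
      _ ≤ B * (B * w2) := mul_le_mul_of_nonneg_left hang hB0.le
      _ ≤ B * (B * (B * S'.w 2)) := by gcongr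
      _ = B ^ 3 * S'.w 2 := by ring
  · exact closeC_sub hcl (mul_le_mul_of_nonneg_right hB3 ha.le) le_rfl le_rfl
  · exact closeC_sub hcl' (mul_le_mul_of_nonneg_right hB3 ha.le) le_rfl le_rfl
  · have e : 10 ^ 35 * (B ^ 3) ^ 3 * W ^ 8 * a = 10 ^ 35 * B ^ 9 * W ^ 8 * a := by
      ring
    rw [e]; exact hbig

end Crest.Agent.R136.Tw746
end

-- ▼ part R136/Pl2D_860
section

/-!
# R136 (S0187), PLAN 2: conversion of 102's `Two7` to the `Two7` of `Pl2C_860` (helper860)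
-/

set_option autoImplicit false
set_option linter.unusedVariables false

open Finset

namespace Crest.Agent.R136.Pl2

open Crest.Agent.R136.Sh605 Crest.Agent.R136.Fl808
open Crest.Agent.R136.K4 (Plk4)
open Crest.Agent.R136.Tlt51 (Shp InP)
open Crest.Agent.R136.Pl2W102 (Near Ex2 Two1)

variable {qm qp : Fin 3 → ℝ} {L : ℕ → Ln4} {P : Finset ℕ} {cu cv : ℕ → ℕ} {Uf Vf : ℕ → Plk4}
  {W M a w1 w2 z0 ρ zL ρL r : ℝ}

theorem two7_of102 (h : Pl2W102.Two7 qm qp L P cu cv Uf Vf W M a w1 w2 z0 ρ zL ρL r)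
    (hr : r ≤ ρ) (h128 : ρL ≤ 128 * ρ) :
    Two7 qm qp L P cu cv Uf Vf W M a w1 w2 z0 ρ zL ρL r :=
  ⟨h.to1, hr, h.z1, h.z2, h.l1, h128, h.shU, h.shV, h.inU, h.inV⟩


/-- `r ≤ ρ` is free for curved sheets -/
theorem two7_of102' (h : Pl2W102.Two7 qm qp L P cu cv Uf Vf W M a w1 w2 z0 ρ zL ρL r) {t : ℕ}
    (ht : t ∈ P) {K : ℝ} (hK : (2 * W) ^ (8 : ℝ) ≤ K) (hbig : K * a ≤ kp (Uf (cu t)) z0 ρ (L t))
    (h128 : ρL ≤ 128 * ρ) : Two7 qm qp L P cu cv Uf Vf W M a w1 w2 z0 ρ zL ρL r :=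
  two7_of102 h (Hul565.two1_small h.to1 ht (k := 0) le_rfl (by simpa using hK) hbig).2.2.2 h128

end Crest.Agent.R136.Pl2
end

-- ▼ part R136/Asy2_51
section

/-!
# R136 (U5 TILT), last assembly, part 2: the two marks of an incidence, selection of the dyadic base
tilt and of the coincidence scale (helper51)
-/

set_option autoImplicit false
set_option linter.unusedVariables false

open Finset Filter Topology

namespace Crest.Agent.R136.Asy51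

open Crest.Agent.R138.Ex926 (Base U)
open Crest.Agent.R138.Dp76 (Dense dense_of_sub dpow_pos dpow_add)
open Crest.Agent.R138.Mk163 (zc zl rho Negl)
open Crest.Agent.R136.MkA627 Crest.Agent.R136.Sh605 Crest.Agent.R136.K4 Crest.Agent.R136.Top484
open Crest.Agent.R136.Deep51 (CoinC CloseC anc anc_zc anc_sub)
open Crest.Agent.R136.Tlt51 (Shp InP CompC Agree mk4 zx rh TiltOKC cx)
open Crest.Agent.R136.Tl102
open Crest.Agent.R136.Eng904 (mark_of w_ratio lev2 MarkAt)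


/-- the marks of the levels `b` (base) and `c` of one incidence -/
structure Pair (D : Dat4) (n : ℕ) (b c : ℚ) (B : ℝ) (x : ℕ × ℝ) : Prop where
  shp : Shp (mk4 D n b x) (zx D n b x) (rh D n b) (D.r0 n)
  shp' : Shp (mk4 D n c x) (zx D n c x) (rh D n c) (D.r0 n)
  inp : InP (D.L n x.1) (mk4 D n b x) (zx D n b x) (rh D n b)
  inp' : InP (D.L n x.1) (mk4 D n c x) (zx D n c x) (rh D n c)
  z1 : zx D n b x ≤ zx D n (max b c) x
  z1' : zx D n (max b c) x + rh D n (max b c) ≤ zx D n b x + rh D n b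
  z2 : zx D n c x ≤ zx D n (max b c) x
  z2' : zx D n (max b c) x + rh D n (max b c) ≤ zx D n c x + rh D n c
  rb : rh D n b ≤ B * rh D n (max b c)
  rc : rh D n c ≤ B * rh D n (max b c)
  a : (mk4 D n b x).a = D.w 0 n b
  w1 : (mk4 D n b x).w 1 = D.w 1 n b
  w2 : (mk4 D n b x).w 2 = D.w 2 n b
  a' : (mk4 D n c x).a = D.w 0 n c
  w1' : (mk4 D n c x).w 1 = D.w 1 n c
  w2' : (mk4 D n c x).w 2 = D.w 2 n c
  cw : ∀ k, D.w k n b ≤ B * D.w k n c ∧ D.w k n c ≤ B * D.w k n b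

theorem zx_sub {D : Dat4} {n : ℕ} {b m : ℚ} (h : D.lev n b ≤ D.lev n m) (x : ℕ × ℝ) :
    zx D n b x ≤ zx D n m x ∧ zx D n m x + rh D n m ≤ zx D n b x + rh D n b := by
  have := anc_sub h (zc (D.lev n m) x.2)
  rw [anc_zc h] at this
  exact this





end Crest.Agent.R136.Asy51
namespace Crest.Agent.R136.Asy51.Dense
end Crest.Agent.R136.Asy51.Dense
end

-- ▼ part R136/Wr1_774

/-!
# R136 (S0187), PLAN 2: the tilt over `J1c` from `BTR Al1` and `ALR Al1` (helper774, second copy)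

* `stab_Al1`, `stab_QA` : stability under changes of the dimensions;
* `fin_at` : the step at one incidence;
* **`tiltB_of`** : `BTR Al1`, `ALR Al1` ⊢ the tilt of the curved pairs over `J1c`.
-/

set_option autoImplicit false
set_option linter.unusedVariables false

open Finset Filter Topology

namespace Crest.Agent.R136.Wr774

open Crest.Agent.R138.Ex926 (Base U)
open Crest.Agent.R138.Dp76 (Dense dpow_pos dpow_add dpow_le dpow_le_one)
open Crest.Agent.R138.Mk163 (zc zl rho Negl)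
open Crest.Agent.R136.MkA627
open Crest.Agent.R136.Sh605
open Crest.Agent.R136.Tl102 (angC angC_nonneg shp_sub)
open Crest.Agent.R136.Deep51 (CloseC)
open Crest.Agent.R136.K4 (Plk4)
open Crest.Agent.R136.Top484
open Crest.Agent.R136.Tlt51 (Shp InP mk4 zx rh TiltOKC)
open Crest.Agent.R136.KapP335
open Crest.Agent.R136.Cps605
open Crest.Agent.R136.Pl2 (TypU TypP kp rot2 Al1 BTR ALR Rel FH FL)
open Crest.Agent.R136.Pl2W102

/-- no hypothesis -/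
def QT : PropE := fun _ _ _ _ _ _ _ _ _ => True

/-- conclusion of the alignment theorem -/
def QA : PropE := fun E S S' T a w1 w2 z0 ρ =>
  CloseC S.e S.w S.q S.a S'.q (E * a) T z0 ρ ∧ CloseC S'.e S'.w S'.q S'.a S.q (E * a) T z0 ρ

theorem closeC_mono {e : Fin 3 → V3} {w : V3} {q : ℝ → V3 → ℝ} {a : ℝ} {q' : ℝ → V3 → ℝ}
    {E E' : ℝ} {T : Ln4} {z0 ρ : ℝ} (h : CloseC e w q a q' E T z0 ρ) (hE : E ≤ E') :
    CloseC e w q a q' E' T z0 ρ := fun z h1 h2 x hx hq => (h z h1 h2 x hx hq).trans hE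

theorem stab_QT : Stab QT := by
  intro E E' W S S' T a w1 w2 a' w1' w2' z0 ρ r _ _ _ _ _ _ _ _ _ _ _ _ _ _ _ _
  trivial

theorem stab_QA : Stab QA := by
  intro E E' W S S' T a w1 w2 a' w1' w2' z0 ρ r hW hE hE' ha _ _ ha' _ _ na _ _ _ _ _ h
  have h1 : E * a ≤ E' * a' := by
    have hW2 : W ≤ W ^ 2 := by nlinarith
    calc E * a ≤ E * (W * a') := mul_le_mul_of_nonneg_left na.1 hE.le
      _ = E * W * a' := by ring
      _ ≤ E * W ^ 2 * a' :=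
          mul_le_mul_of_nonneg_right (mul_le_mul_of_nonneg_left hW2 hE.le) ha'.le
      _ ≤ E' * a' := mul_le_mul_of_nonneg_right hE' ha'.le
  exact ⟨closeC_mono h.1 h1, closeC_mono h.2 h1⟩

theorem stab_Al1 : Stab Al1 := by
  intro E E' W S S' T a w1 w2 a' w1' w2' z0 ρ r hW hE hE' ha hw1 hw2 ha' hw1' hw2' na n1 n2 hr sh
    sh' h
  have hW2 : W ≤ W ^ 2 := by nlinarith
  have hW0 : 0 ≤ W := by linarith
  have hEW : E * W ≤ E' := (mul_le_mul_of_nonneg_left hW2 hE.le).trans hE'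
  have hEE : E ≤ E' := (le_mul_of_one_le_right hE.le hW).trans hEW
  have hS0 := hr.trans_le (sh.r0_le.trans sh.a_le0)
  have hS2 : 0 < S.w 2 := hS0.trans_le sh.w0_le
  have hS1 : 0 < S.w 1 := hS2.trans_le sh.w_le
  have hT0 := hr.trans_le (sh'.r0_le.trans sh'.a_le0)
  have hT2 : 0 < S'.w 2 := hT0.trans_le sh'.w0_le
  have hT1 : 0 < S'.w 1 := hT2.trans_le sh'.w_le
  have hk : 0 ≤ kp S z0 ρ T := kapP_nonneg hS0.le
  have ha0 : 0 ≤ angC S S' := angC_nonneg S S'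
  have tr : ∀ {x y y' : ℝ}, 0 ≤ x → y' ≤ W * y → x * y ≤ E * kp S z0 ρ T →
      x * y' ≤ E' * kp S z0 ρ T := by
    intro x y y' hx hy h
    calc x * y' ≤ x * (W * y) := mul_le_mul_of_nonneg_left hy hx
      _ = W * (x * y) := by ring
      _ ≤ W * (E * kp S z0 ρ T) := mul_le_mul_of_nonneg_left h hW0
      _ = E * W * kp S z0 ρ T := by ring
      _ ≤ _ := mul_le_mul_of_nonneg_right hEW hk
  refine ⟨?_, closeC_mono h.close (mul_le_mul_of_nonneg_right hEE hk), ?_⟩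
  · calc angC S S' * w1' ≤ angC S S' * (W * w1) := mul_le_mul_of_nonneg_left n1.2 ha0
      _ = W * (angC S S' * w1) := by ring
      _ ≤ W * (E * w2) := mul_le_mul_of_nonneg_left h.ang hW0
      _ = E * W * w2 := by ring
      _ ≤ E * W * (W * w2') := mul_le_mul_of_nonneg_left n2.1 (mul_nonneg hE.le hW0)
      _ = E * W ^ 2 * w2' := by ring
      _ ≤ E' * w2' := mul_le_mul_of_nonneg_right hE' hw2'.le
  · obtain ⟨f, g, h1, h2, h3, h4, h5, h6, h7⟩ := h.fr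
    exact ⟨f, g, Alr877.fh_mono h1 hEE hk hS1.le hS2.le, Alr877.fl_mono h2 hEE hE hk,
      Alr877.fh_mono h3 hEE hk hT1.le hT2.le, tr (abs_nonneg _) n1.2 h4, tr (abs_nonneg _) n2.2 h5,
      tr (abs_nonneg _) n1.2 h6, tr (abs_nonneg _) n2.2 h7⟩

/-- the finite theorems in the common form -/
theorem ft_B {R : Rel} (h : BTR R) {η : ℝ} {qm qp : Fin 3 → ℝ} (hq : Ex2 η qm qp) :
    ∃ K0 C : ℝ, 0 ≤ K0 ∧ 0 ≤ C ∧ FT QT R qm qp K0 C := by
  obtain ⟨K0, C, hK, hC, h⟩ := h η qm qp hq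
  exact ⟨K0, C, hK, hC, fun L P cu cv Uf Vf W M a w1 w2 z0 ρ zL ρL r h1 _ h2 h3 _ =>
    h L P cu cv Uf Vf W M a w1 w2 z0 ρ r h1.to1 h2 h3⟩

theorem ft_A {R : Rel} (h : ALR R) : ∃ η : ℝ, 0 < η ∧ ∀ qm qp : Fin 3 → ℝ, Ex2 η qm qp →
    ∃ K0 C : ℝ, 0 ≤ K0 ∧ 0 ≤ C ∧ FT R QA qm qp K0 C := by
  obtain ⟨η, hη, h⟩ := h
  refine ⟨η, hη, fun qm qp hq => ?_⟩
  obtain ⟨K0, C, hK, hC, h⟩ := h qm qp hq
  refine ⟨max K0 8, C, hK.trans (le_max_left _ _), hC, ?_⟩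
  intro L P cu cv Uf Vf W M a w1 w2 z0 ρ zL ρL r h1 h128 h2 h3 h4
  have hW := h1.to1.W1
  have hW1 : 1 ≤ 2 * W := by linarith
  obtain ⟨t, ht⟩ := h2
  have h7 := Pl2.two7_of102' h1 ht (K := (2 * W) ^ (max K0 8))
    (Real.rpow_le_rpow_of_exponent_le hW1 (le_max_right _ _)) (h3 t ht).big h128
  refine h L P cu cv Uf Vf W M a w1 w2 z0 ρ zL ρL r h7 ⟨t, ht⟩ (fun s hs => ?_) h4
  obtain ⟨b1, b2, b3, b4⟩ := h3 s hs
  exact ⟨(mul_le_mul_of_nonneg_right (Real.rpow_le_rpow_of_exponent_le hW1 (le_max_left _ _))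
    h1.to1.a0.le).trans b1, b2, ⟨b3.det, b3.rot⟩, ⟨b4.det, b4.rot⟩⟩

/-- the sheets of the mark over the cell of the finer level -/
theorem long_of {D : Dat4} {n : ℕ} {x : ℕ × ℝ} {b v : ℚ} {r : ℝ} (h : D.lev n b ≤ D.lev n v)
    (hS : Shp (mk4 D n b x) (zx D n b x) (rh D n b) r)
    (hT : InP (D.L n x.1) (mk4 D n b x) (zx D n b x) (rh D n b)) :
    Shp (mk4 D n b x) (zx D n v x) (rh D n v) r ∧
      InP (D.L n x.1) (mk4 D n b x) (zx D n v x) (rh D n v) := by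
  obtain ⟨h1, h2⟩ := Asy51.zx_sub h x
  exact ⟨shp_sub hS h1 h2, Tw746.inP_sub hT h1 h2⟩

/-- typical facts over the short cell -/
theorem typ_short {D : Dat4} {n : ℕ} {x : ℕ × ℝ} {b c v : ℚ} {jx : ℕ → ℕ × ℝ → ℤ}
    {e B0 W a : ℝ} (he : 0 ≤ e) (hr : 0 < D.r0 n) (hB0 : 1 ≤ B0)
    (pr : Pair D n b c B0 (zs D v jx n x) (rs D v n) x) (nd : ¬ DegAt D e b n x)
    (ro : ¬ RotAt D e b n x) (haa : (mk4 D n b x).a ≤ B0 * a)
    (hW : 10 ^ 5 * B0 ^ 3 ≤ D.B.d n ^ e * W) :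
    TypU 1 W a (mk4 D n b x) (D.L n x.1) (zs D v jx n x) (rs D v n) := by
  refine Pl2W102.typU_sub (W0 := B0) (B := B0) (δ := D.B.d n ^ e) hr (rs_pos D v n) pr.z1
    pr.z1' pr.shp pr.inp hB0 pr.rb (dpow_pos D.B n e) (dpow_le_one D.B n he) hB0 haa ?_ ?_
  · intro hk
    rw [show (D.B.d n ^ e)⁻¹ = D.B.d n ^ (-e) from (Real.rpow_neg (D.B.pos n).le _).symm] at hk
    constructor
    · by_contra hc; exact nd ⟨hk, hc⟩
    · by_contra hc; exact ro ⟨hk, hc⟩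
  · calc 10 ^ 5 * (B0 ^ 2 * B0) = 10 ^ 5 * B0 ^ 3 := by ring
      _ ≤ _ := hW

/-- **the step at one incidence** -/
theorem fin_at {D : Dat4} {n : ℕ} {x : ℕ × ℝ} {u v b c : ℚ} {jx : ℕ → ℕ × ℝ → ℤ}
    {e B0 W BM Eb EA EB E : ℝ} (huv : u < v) (hbc : (b = v ∧ c = u) ∨ (b = u ∧ c = v))
    (he : 0 ≤ e) (hr : 0 < D.r0 n) (hB0 : 1 ≤ B0) (hW1 : 1 ≤ W) (hBM : B0 ≤ BM) (hEA : EA ≤ BM)
    (hEB : EB ≤ BM)
    (pr : Pair D n b c B0 (zs D v jx n x) (rs D v n) x)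
    (pr' : Pair D n c b B0 (zs D v jx n x) (rs D v n) x)
    (lu : D.lev n u ≤ D.lev n v)
    (near : ∀ k, Near B0 (D.w k n b) (D.w k n c)) (wb : ∀ k, 0 < D.w k n b)
    (nd : ¬ DegAt D e b n x) (nd' : ¬ DegAt D e c n x)
    (ro : ¬ RotAt D e b n x) (ro' : ¬ RotAt D e c n x)
    (cv : Curv D v jx b c Eb n x) (aR : At Al1 D v jx b c EB n x) (aA : At QA D v jx b c EA n x)
    (hW : 10 ^ 5 * B0 ^ 3 ≤ D.B.d n ^ e * W)
    (hbig : 10 ^ 35 * BM ^ 9 * W ^ 8 ≤ Eb)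
    (hE : 10 ^ 26 * BM ^ 3 * W ^ 8 / (1 / 128) ^ 2 ≤ E) (hEBE : EB ≤ E) : TiltOKC D E u v n x := by
  have w0 := wb 0
  have hBM1 : 1 ≤ BM := hB0.trans hBM
  have hlb : D.lev n b ≤ D.lev n v := by
    rcases hbc with ⟨rfl, rfl⟩ | ⟨rfl, rfl⟩
    · exact le_rfl
    · exact lu
  have hlc : D.lev n c ≤ D.lev n v := by
    rcases hbc with ⟨rfl, rfl⟩ | ⟨rfl, rfl⟩
    · exact lu
    · exact le_rfl
  obtain ⟨sb, ib⟩ := long_of hlb pr.shp pr.inp
  obtain ⟨sc, ic⟩ := long_of hlc pr'.shp pr'.inp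
  -- the short cell in the cell of level `v`
  obtain ⟨z1, z1'⟩ : zx D n v x ≤ zs D v jx n x ∧
      zs D v jx n x + rs D v n ≤ zx D n v x + rh D n v := by
    rcases hbc with ⟨rfl, rfl⟩ | ⟨rfl, rfl⟩
    · exact ⟨pr.z1, pr.z1'⟩
    · exact ⟨pr'.z1, pr'.z1'⟩
  have h128 : rh D n v = 128 * rs D v n := Eng904.rho7 D v n
  have nr : ∀ k, Near BM (D.w k n b) (D.w k n b) := fun k =>
    ⟨le_mul_of_one_le_left (wb k).le hBM1, le_mul_of_one_le_left (wb k).le hBM1⟩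
  have wc : ∀ k, 0 < D.w k n c := by
    intro k
    have h1 := (near k).1
    by_contra hc
    push Not at hc
    have := mul_nonpos_of_nonneg_of_nonpos (by linarith : (0:ℝ) ≤ B0) hc
    have := wb k
    linarith
  have nr' : ∀ k, Near BM (D.w k n b) (D.w k n c) := fun k =>
    (near k).mono hBM (wb k).le (wc k).le
  have tU := typ_short (a := D.w 0 n b) he hr hB0 pr nd ro (by
    rw [pr.a]; exact le_mul_of_one_le_left w0.le hB0) hW
  have tV := typ_short (a := D.w 0 n b) he hr hB0 pr' nd' ro' (by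
    rw [pr'.a]; exact (near 0).2) hW
  have hang : angC (mk4 D n b x) (mk4 D n c x) * D.w 1 n b ≤ BM * D.w 2 n b :=
    aR.ang.trans (mul_le_mul_of_nonneg_right hEB (wb 2).le)
  obtain ⟨o1, o2⟩ := Tw746.close_nearS (zL := zx D n v x) (ρL := rh D n v) (t := 1 / 128)
    (a := D.w 0 n b) (w1 := D.w 1 n b) (w2 := D.w 2 n b) (B := BM) (W := W) hr (rs_pos D v n) z1 z1'
    (by norm_num) (by rw [h128]; linarith) sb ib sc ic w0 hW1 hBM1
    (by rw [pr.a, pr.w1, pr.w2]; exact ⟨nr 0, nr 1, nr 2⟩)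
    (by rw [pr'.a, pr'.w1, pr'.w2]; exact ⟨nr' 0, nr' 1, nr' 2⟩) hang tU tV
    (closeC_mono aA.1 (mul_le_mul_of_nonneg_right hEA w0.le))
    (closeC_mono aA.2 (mul_le_mul_of_nonneg_right hEA w0.le))
    ((mul_le_mul_of_nonneg_right hbig w0.le).trans cv.1)
  have hm : max b c = v := by
    rcases hbc with ⟨rfl, rfl⟩ | ⟨rfl, rfl⟩
    · exact max_eq_left huv.le
    · exact max_eq_right huv.le
  have hE0 : 0 ≤ E := le_trans (by positivity) hE
  refine tiltOK_cl (b := b) (c := c) (E' := 10 ^ 26 * BM ^ 3 * W ^ 8 / (1 / 128) ^ 2 * D.w 0 n b)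
    (lam := EB) huv hbc ?_ ?_ aR.ang ?_ (wb 1) (wb 2).le hE0 hEBE
  · rw [hm]; exact o1
  · rw [hm]; exact o2
  · refine mul_le_mul hE ?_ w0.le hE0
    rcases hbc with ⟨rfl, rfl⟩ | ⟨rfl, rfl⟩
    · exact le_max_right _ _
    · exact le_max_left _ _

/-- the two finite theorems in one order of the levels -/
theorem two_negl {qm qp : Fin 3 → ℝ} {KB CB KA CA : ℝ} (fB : FT QT Al1 qm qp KB CB)
    (fA : FT Al1 QA qm qp KA CA) (hKB : 0 ≤ KB) (hCB : 0 ≤ CB) (hKA : 0 ≤ KA) (hCA : 0 ≤ CA)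
    {D : Dat4} {m b c : ℚ} {jx : ℕ → ℕ × ℝ → ℤ} {Cw C2 δ e s1 sB s2 sA yb : ℝ} (he : 0 < e)
    (hδ : |(b:ℝ) - c| = δ) (hδ0 : 0 ≤ δ) (hr0 : ∀ n, 0 < D.r0 n) (hCw : 0 ≤ Cw) (hC2 : 0 ≤ C2)
    (hw : ∀ k, ∀ᶠ n in (U : Filter ℕ), 0 < D.w k n b)
    (hpair : ∀ᶠ n in (U : Filter ℕ), ∀ x ∈ D.I n,
      Pair D n b c (D.B.d n ^ (-(Cw * |(b:ℝ) - c| + e))) (zs D m jx n x) (rs D m n) x)
    (hTwo : TwoAt qm qp C2 D m jx b c)
    (hnd : Negl D.B D.I (DegAt D e b)) (hnd' : Negl D.B D.I (DegAt D e c))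
    (hro : Negl D.B D.I (RotAt D e b)) (hro' : Negl D.B D.I (RotAt D e c))
    (hs1 : s1 = 2 * (Cw + 1) + 3 * (C2 + 1) + 2) (hsB : sB = CB * s1 + 2 * (C2 + 1) + 1)
    (hs2 : s2 = sB + 2 * (Cw + 1) + 3 * (C2 + 1) + 2) (hsA : sA = CA * s2 + 2 * (C2 + 1) + 1)
    (hyb : KB * (s1 * (δ + e)) + (C2 + 1) * (δ + e) < yb)
    (hyb' : KA * (s2 * (δ + e)) + (C2 + 1) * (δ + e) < yb) :
    Negl D.B D.I fun n x => Curv D m jx b c (D.B.d n ^ (-yb)) n x ∧
      ¬ (At Al1 D m jx b c (D.B.d n ^ (-(sB * (δ + e)))) n x ∧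
        At QA D m jx b c (D.B.d n ^ (-(sA * (δ + e)))) n x) := by
  set M := δ + e with hM
  have hM0 : 0 < M := by linarith
  have a1 : Cw * δ + e ≤ (Cw + 1) * M := by
    rw [hM]
    have := mul_nonneg hCw he.le
    linarith
  have a2 : C2 * δ + e ≤ (C2 + 1) * M := by
    rw [hM]
    have := mul_nonneg hC2 he.le
    linarith
  have a3 : e ≤ M := by linarith
  have b1 : 0 ≤ (Cw + 1) * M := by positivity
  have b2 : 0 ≤ (C2 + 1) * M := by positivity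
  have hs10 : 0 ≤ s1 := by rw [hs1]; positivity
  have hsB0 : 0 ≤ sB := by rw [hsB]; positivity
  have hs20 : 0 ≤ s2 := by rw [hs2]; positivity
  have c1 : s1 * M = 2 * ((Cw + 1) * M) + 3 * ((C2 + 1) * M) + 2 * M := by rw [hs1]; ring
  have c2 : sB * M = CB * (s1 * M) + 2 * ((C2 + 1) * M) + M := by rw [hsB]; ring
  have c3 : s2 * M = sB * M + 2 * ((Cw + 1) * M) + 3 * ((C2 + 1) * M) + 2 * M := by
    rw [hs2]; ring
  have c4 : sA * M = CA * (s2 * M) + 2 * ((C2 + 1) * M) + M := by rw [hsA]; ring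
  have d1 : 0 ≤ s1 * M := by positivity
  have d2 : 0 ≤ sB * M := by positivity
  have hB := negl_ft fB hCB hKB stab_QT stab_Al1 (D := D) (m := m) (b := b) (c := c) (jx := jx)
    (Cw := Cw) (C2 := C2) (ε := e) (yH := 0) (yb := yb) (y1 := s1 * M) (y := sB * M) he hr0 hCw
    hC2 hw hpair hTwo hnd hnd' hro hro' le_rfl (by rw [hδ]; linarith) (by rw [hδ]; linarith)
    (by rw [hδ]; linarith) (by rw [hδ]; linarith)
  have hA := negl_ft fA hCA hKA stab_Al1 stab_QA (D := D) (m := m) (b := b) (c := c) (jx := jx)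
    (Cw := Cw) (C2 := C2) (ε := e) (yH := sB * M) (yb := yb) (y1 := s2 * M) (y := sA * M) he hr0
    hCw hC2 hw hpair hTwo hnd hnd' hro hro' d2 (by rw [hδ]; linarith) (by rw [hδ]; linarith)
    (by rw [hδ]; linarith) (by rw [hδ]; linarith)
  refine (Crest.Agent.R138.Mk163.Negl.or hB hA).mono ?_
  refine Eventually.of_forall fun n x hx h => ?_
  obtain ⟨h1, h2⟩ := h
  by_cases k : At Al1 D m jx b c (D.B.d n ^ (-(sB * M))) n x
  · exact Or.inr ⟨h1, k, fun h3 => h2 ⟨k, h3⟩⟩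
  · refine Or.inl ⟨h1, ?_, k⟩
    show At QT D m jx b c _ n x
    exact trivial

/-- curvature over the own cell and over the short cell -/
theorem k_short {D : Dat4} {n : ℕ} {x : ℕ × ℝ} {b c v : ℚ} {jx : ℕ → ℕ × ℝ → ℤ} {e B0 : ℝ}
    (hr : 0 < D.r0 n) (hB0 : 1 ≤ B0)
    (pr : Pair D n b c B0 (zs D v jx n x) (rs D v n) x) (nd : ¬ DegAt D e b n x)
    (hbig : D.B.d n ^ (-e) * (mk4 D n b x).a < kpm D n b x) :
    kpm D n b x ≤ 160 * B0 * kp (mk4 D n b x) (zs D v jx n x) (rs D v n) (D.L n x.1) := by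
  have hd : DetP (D.B.d n ^ e) (mk4 D n b x) (zx D n b x) (rh D n b) (D.L n x.1) := by
    by_contra hc
    exact nd ⟨hbig, hc⟩
  have ha : 0 < (mk4 D n b x).a := hr.trans_le pr.shp.r0_le
  have hk : 0 < kpm D n b x := lt_of_le_of_lt (mul_nonneg (dpow_pos D.B n _).le ha.le) hbig
  have hρ := rs_pos D v n
  obtain ⟨k1, k2, -⟩ := Tl102.kapP_sub hr hρ pr.z1 pr.z1' pr.shp pr.inp hk hd
  have hB : 0 < B0 := by linarith
  have hρ1 : 0 < rh D n b := by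
    have h1 := pr.z1
    have h2 := pr.z1'
    linarith
  have h1 : B0⁻¹ ≤ rs D v n / rh D n b := by
    rw [le_div_iff₀ hρ1, inv_mul_le_iff₀ hB]; exact pr.rb
  have h2 : B0⁻¹ * kpm D n b x ≤ 160 * kapP (mk4 D n b x) (zs D v jx n x) (rs D v n) (D.L n x.1) :=
    (mul_le_mul_of_nonneg_right h1 hk.le).trans k2
  rw [inv_mul_le_iff₀ hB] at h2
  show kpm D n b x ≤ 160 * B0 * kapP (mk4 D n b x) (zs D v jx n x) (rs D v n) (D.L n x.1)
  linarith

theorem rpow_pw (B : Base) (n k : ℕ) (y : ℝ) : (B.d n ^ (-y)) ^ k = B.d n ^ (-((k:ℝ) * y)) := by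
  rw [← Real.rpow_natCast, ← Real.rpow_mul (B.pos n).le]
  congr 1; ring

theorem ex2_of {η : ℝ} {qm qp : Fin 3 → ℝ} (h : DAl879.Ex2 η qm qp) : Ex2 η qm qp :=
  ⟨h.le, h.pos, h.e02, h.e1, h.e00, h.e21⟩

set_option maxHeartbeats 1000000 in
/-- **the tilt of the curved pairs over `J1c`** -/
theorem tiltB_of (hB : BTR Al1) (hA : ALR Al1) : ∃ η : ℝ, 0 < η ∧ ∀ (p : Par4) (D : Dat4),
    J1c η p D → SmT163.TiltB D := by
  obtain ⟨ηA, hηA, hA⟩ := ft_A hA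
  refine ⟨min 1 ηA, lt_min one_pos hηA, fun p D hJ => ?_⟩
  obtain ⟨qm, qp, hE, C2, hC2, h2⟩ := Eng904.two7_at hJ
  obtain ⟨KB, CB, hKB, hCB, fB⟩ := ft_B hB (ex2_of hE)
  obtain ⟨KA, CA, hKA, hCA, fA⟩ := hA qm qp (ex2_of (hE.mono (min_le_right _ _)))
  obtain ⟨Cw, hCw, hp⟩ := Eng904.pair_ev hJ
  obtain ⟨s1, hs1⟩ : ∃ s1 : ℝ, s1 = 2 * (Cw + 1) + 3 * (C2 + 1) + 2 := ⟨_, rfl⟩
  obtain ⟨sB, hsB⟩ : ∃ sB : ℝ, sB = CB * s1 + 2 * (C2 + 1) + 1 := ⟨_, rfl⟩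
  obtain ⟨s2, hs2⟩ : ∃ s2 : ℝ, s2 = sB + 2 * (Cw + 1) + 3 * (C2 + 1) + 2 := ⟨_, rfl⟩
  obtain ⟨sA, hsA⟩ : ∃ sA : ℝ, sA = CA * s2 + 2 * (C2 + 1) + 1 := ⟨_, rfl⟩
  obtain ⟨sM, hsM⟩ : ∃ sM : ℝ, sM = sA + sB + (Cw + 1) := ⟨_, rfl⟩
  obtain ⟨sW, hsW⟩ : ∃ sW : ℝ, sW = 3 * (Cw + 1) + 2 := ⟨_, rfl⟩
  obtain ⟨sb, hsb⟩ : ∃ sb : ℝ, sb = KB * s1 + KA * s2 + (C2 + 1) + 9 * sM + 8 * sW + 1 :=
    ⟨_, rfl⟩
  obtain ⟨sT, hsT⟩ : ∃ sT : ℝ, sT = sb + (Cw + 1) + 3 * sM + 8 * sW + sB + 2 := ⟨_, rfl⟩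
  have p1 : 0 ≤ s1 := by rw [hs1]; positivity
  have pB : 0 ≤ sB := by rw [hsB]; positivity
  have p2 : 0 ≤ s2 := by rw [hs2]; positivity
  have pA : 0 ≤ sA := by rw [hsA]; positivity
  have pM : 0 ≤ sM := by rw [hsM]; positivity
  have pW : 0 ≤ sW := by rw [hsW]; positivity
  have pb : 0 ≤ sb := by rw [hsb]; positivity
  have pT : 1 ≤ sT := by
    rw [hsT]
    have : 0 ≤ sb + (Cw + 1) + 3 * sM + 8 * sW + sB := by positivity
    linarith
  refine ⟨sT, by linarith, ?_⟩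
  intro u v hu huv hv ε hε
  have hv0 : 0 ≤ v := hu.trans huv.le
  have hu1 : u ≤ 1 := huv.le.trans hv
  have huv' : (u:ℝ) < v := by exact_mod_cast huv
  have hm : max v u = v := max_eq_left huv.le
  obtain ⟨δ, hδ⟩ : ∃ δ : ℝ, δ = (v:ℝ) - u := ⟨_, rfl⟩
  have hδ0 : 0 < δ := by rw [hδ]; linarith
  have hd1 : |(v:ℝ) - u| = δ := by rw [hδ]; exact abs_of_pos (by linarith)
  have hd2 : |(u:ℝ) - v| = δ := by rw [abs_sub_comm]; exact hd1
  obtain ⟨e, he⟩ : ∃ e : ℝ, e = ε / sT := ⟨_, rfl⟩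
  have he0 : 0 < e := by rw [he]; positivity
  have hee : sT * e = ε := by rw [he]; field_simp
  obtain ⟨jx, hjx, T1, T2⟩ := h2 v u hv0 hv hu hu1
  rw [hm] at T1 T2
  obtain ⟨hn, hpr⟩ := hp v u hv0 hv hu hu1
  have hn := hn e he0
  have hpr := hpr jx hjx e he0
  rw [hm] at hpr
  obtain ⟨t1, t3⟩ := Rtn846.typ_negl (min_le_left _ _) hJ hv0 hv he0
  obtain ⟨t2, t4⟩ := Rtn846.typ_negl (min_le_left _ _) hJ hu hu1 he0
  obtain ⟨M, hM⟩ : ∃ M : ℝ, M = δ + e := ⟨_, rfl⟩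
  have hM0 : 0 < M := by rw [hM]; linarith
  have a1 : Cw * δ + e ≤ (Cw + 1) * M := by
    rw [hM]
    have := mul_nonneg hCw he0.le
    linarith
  have a3 : e ≤ M := by rw [hM]; linarith
  have b1 : 0 ≤ (Cw + 1) * M := by positivity
  have b2 : 0 ≤ (C2 + 1) * M := by positivity
  have cM : sM * M = sA * M + sB * M + (Cw + 1) * M := by rw [hsM]; ring
  have cW : sW * M = 3 * ((Cw + 1) * M) + 2 * M := by rw [hsW]; ring
  have cb : sb * M = KB * (s1 * M) + KA * (s2 * M) + (C2 + 1) * M + 9 * (sM * M) +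
      8 * (sW * M) + M := by rw [hsb]; ring
  have cT : sT * M = sb * M + (Cw + 1) * M + 3 * (sM * M) + 8 * (sW * M) + sB * M + 2 * M := by
    rw [hsT]; ring
  have q1 : 0 ≤ KB * (s1 * M) := by positivity
  have q2 : 0 ≤ KA * (s2 * M) := by positivity
  have qM : 0 ≤ sM * M := by positivity
  have qW : 0 ≤ sW * M := by positivity
  have qA : 0 ≤ sA * M := by positivity
  have qB : 0 ≤ sB * M := by positivity
  have qb : 0 ≤ sb * M := by positivity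
  obtain ⟨yb, hyb⟩ : ∃ yb : ℝ, yb = sb * M := ⟨_, rfl⟩
  have N1 := two_negl fB fA hKB hCB hKA hCA (D := D) (m := v) (b := v) (c := u) (jx := jx)
    (yb := yb) he0 hd1 hδ0.le hJ.r0pos hCw hC2 (fun k => hJ.mka.wpos k v hv0 hv)
    (by filter_upwards [hpr] with n h x hx; exact (h x hx).1) T1 t1 t2 t3 t4 hs1 hsB hs2 hsA
    (by rw [← hM, hyb]; linarith) (by rw [← hM, hyb]; linarith)
  have N2 := two_negl fB fA hKB hCB hKA hCA (D := D) (m := v) (b := u) (c := v) (jx := jx)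
    (yb := yb) he0 hd2 hδ0.le hJ.r0pos hCw hC2 (fun k => hJ.mka.wpos k u hu hu1)
    (by filter_upwards [hpr] with n h x hx; exact (h x hx).2) T2 t2 t1 t4 t3 hs1 hsB hs2 hsA
    (by rw [← hM, hyb]; linarith) (by rw [← hM, hyb]; linarith)
  rw [← hM] at N1 N2
  -- numbers
  obtain ⟨yW, hyW⟩ : ∃ yW : ℝ, yW = 3 * (Cw * δ + e) + e + e := ⟨_, rfl⟩
  have hCd : 0 ≤ Cw * δ := by positivity
  have hyWM : yW ≤ sW * M := by rw [hyW, cW]; linarith
  have hyW0 : 0 ≤ yW := by rw [hyW]; positivity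
  have V1 : ∀ᶠ n in (U : Filter ℕ), 10 ^ 5 * D.B.d n ^ (-(3 * (Cw * δ + e))) ≤
      D.B.d n ^ (-(3 * (Cw * δ + e) + e)) := ev_pow D.B (by norm_num) (by linarith)
  have V2 : ∀ᶠ n in (U : Filter ℕ), 10 ^ 35 * D.B.d n ^ (-(9 * (sM * M) + 8 * yW)) ≤
      D.B.d n ^ (-yb) := ev_pow D.B (by norm_num) (by rw [hyb]; linarith)
  have V3 : ∀ᶠ n in (U : Filter ℕ), (10 ^ 26 * 128 ^ 2) *
      D.B.d n ^ (-(3 * (sM * M) + 8 * yW)) ≤ D.B.d n ^ (-(sT * M)) :=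
    ev_pow D.B (by norm_num) (by linarith)
  have V4 : ∀ᶠ n in (U : Filter ℕ), 160 * D.B.d n ^ (-((Cw * δ + e) + yb)) ≤
      D.B.d n ^ (-(sT * M)) := ev_pow D.B (by norm_num) (by rw [hyb]; linarith)
  have V5 : ∀ᶠ n in (U : Filter ℕ), 2 * D.B.d n ^ (-e) ≤ D.B.d n ^ (-(sT * M)) :=
    ev_pow D.B (by norm_num) (by linarith)
  refine (Crest.Agent.R138.Mk163.Negl.or (Crest.Agent.R138.Mk163.Negl.or N1 N2)
    (Crest.Agent.R138.Mk163.Negl.or (Crest.Agent.R138.Mk163.Negl.or t1 t2)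
      (Crest.Agent.R138.Mk163.Negl.or t3 t4))).mono ?_
  filter_upwards [hpr, hn, V1, V2, V3, V4, V5, hJ.mka.lev_mono u v hu huv.le hv,
    hJ.mka.wpos 0 u hu hu1, hJ.mka.wpos 1 u hu hu1, hJ.mka.wpos 2 u hu hu1,
    hJ.mka.wpos 0 v hv0 hv, hJ.mka.wpos 1 v hv0 hv, hJ.mka.wpos 2 v hv0 hv] with
    n hpn nn v1 v2 v3 v4 v5 lm wu0 wu1 wu2 wv0 wv1 wv2 x hx hnot
  by_contra hcon
  push Not at hcon
  obtain ⟨⟨n1, n2⟩, ⟨d1, d2⟩, ⟨r1, r2⟩⟩ := hcon
  obtain ⟨hbig, hno⟩ := hnot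
  obtain ⟨pr, pr'⟩ := hpn x hx
  rw [hd1] at pr
  rw [hd2] at pr'
  rw [hd1] at nn
  have dp := dpow_pos D.B n
  have eX : D.B.d n ^ (-(sT * ((v : ℝ) - u)) - ε) = D.B.d n ^ (-(sT * M)) := by
    congr 1
    rw [hM, ← hδ, ← hee]; ring
  rw [eX] at hbig hno
  set X := D.B.d n ^ (-(sT * M)) with hX
  set B0 := D.B.d n ^ (-(Cw * δ + e)) with hB0d
  have hB01 : 1 ≤ B0 := by
    have := dpow_le D.B n (show -(Cw * δ + e) ≤ 0 by linarith)
    rwa [Real.rpow_zero] at this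
  have hr := hJ.r0pos n
  have wU : ∀ k, 0 < D.w k n u := by
    intro k; fin_cases k
    · exact wu0
    · exact wu1
    · exact wu2
  have wV : ∀ k, 0 < D.w k n v := by
    intro k; fin_cases k
    · exact wv0
    · exact wv1
    · exact wv2
  have hX0 : 0 < X := dp _
  have hXe : D.B.d n ^ (-e) < X := by
    have := dp (-e)
    linarith
  -- the short cell is curved
  have big : ∀ {b c : ℚ}, Pair D n b c B0 (zs D v jx n x) (rs D v n) x → ¬ DegAt D e b n x →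
      0 < D.w 0 n b → D.w 0 n b ≤ max (D.w 0 n u) (D.w 0 n v) →
      X * max (D.w 0 n u) (D.w 0 n v) ≤ kpm D n b x →
      D.B.d n ^ (-yb) * max (D.w 0 n u) (D.w 0 n v) ≤
        kp (mk4 D n b x) (zs D v jx n x) (rs D v n) (D.L n x.1) := by
    intro b c hpb hnb hwb hwm hk
    have hMx : 0 < max (D.w 0 n u) (D.w 0 n v) := hwb.trans_le hwm
    have h1 : D.B.d n ^ (-e) * (mk4 D n b x).a < kpm D n b x := by
      rw [hpb.a]
      calc D.B.d n ^ (-e) * D.w 0 n b < X * D.w 0 n b := mul_lt_mul_of_pos_right hXe hwb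
        _ ≤ X * max (D.w 0 n u) (D.w 0 n v) := mul_le_mul_of_nonneg_left hwm hX0.le
        _ ≤ _ := hk
    have h2 := k_short hr hB01 hpb hnb h1
    have h3 : 160 * B0 * D.B.d n ^ (-yb) ≤ X := by
      rw [show 160 * B0 * D.B.d n ^ (-yb) = 160 * D.B.d n ^ (-((Cw * δ + e) + yb)) by
        rw [← dp_mul]; ring]
      exact v4
    have h4 : 160 * B0 * (D.B.d n ^ (-yb) * max (D.w 0 n u) (D.w 0 n v)) ≤
        160 * B0 * kp (mk4 D n b x) (zs D v jx n x) (rs D v n) (D.L n x.1) := by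
      calc _ = 160 * B0 * D.B.d n ^ (-yb) * max (D.w 0 n u) (D.w 0 n v) := by ring
        _ ≤ X * max (D.w 0 n u) (D.w 0 n v) := mul_le_mul_of_nonneg_right h3 hMx.le
        _ ≤ kpm D n b x := hk
        _ ≤ _ := h2
    exact le_of_mul_le_mul_left h4 (by linarith)
  have hmax : D.B.d n ^ (-yb) * max (D.w 0 n u) (D.w 0 n v) ≤
      max (kp (mk4 D n v x) (zs D v jx n x) (rs D v n) (D.L n x.1))
        (kp (mk4 D n u x) (zs D v jx n x) (rs D v n) (D.L n x.1)) := by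
    rcases le_max_iff.1 hbig with h | h
    · exact (big pr d1 wv0 (le_max_right _ _) h).trans (le_max_left _ _)
    · exact (big pr' d2 wu0 (le_max_left _ _) h).trans (le_max_right _ _)
  -- numbers for the last step
  have hW1 : 1 ≤ D.B.d n ^ (-yW) := by
    have := dpow_le D.B n (show -yW ≤ 0 by linarith)
    rwa [Real.rpow_zero] at this
  have m1 : B0 ≤ D.B.d n ^ (-(sM * M)) := dpow_le D.B n (by linarith)
  have m2 : D.B.d n ^ (-(sA * M)) ≤ D.B.d n ^ (-(sM * M)) := dpow_le D.B n (by linarith)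
  have m3 : D.B.d n ^ (-(sB * M)) ≤ D.B.d n ^ (-(sM * M)) := dpow_le D.B n (by linarith)
  have m4 : 10 ^ 5 * B0 ^ 3 ≤ D.B.d n ^ e * D.B.d n ^ (-yW) := by
    rw [hB0d, rpow_pw, ← dpow_add]
    refine le_trans (le_of_eq ?_) (v1.trans (le_of_eq ?_))
    · push_cast; ring_nf
    · congr 1; rw [hyW]; ring
  have m5 : 10 ^ 35 * (D.B.d n ^ (-(sM * M))) ^ 9 * (D.B.d n ^ (-yW)) ^ 8 ≤
      D.B.d n ^ (-yb) := by
    rw [rpow_pw, rpow_pw, mul_assoc, dp_mul]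
    exact_mod_cast v2
  have m6 : 10 ^ 26 * (D.B.d n ^ (-(sM * M))) ^ 3 * (D.B.d n ^ (-yW)) ^ 8 / (1 / 128) ^ 2 ≤
      X := by
    rw [rpow_pw, rpow_pw]
    refine le_trans (le_of_eq ?_) v3
    push_cast
    rw [← dp_mul]
    ring
  have m7 : D.B.d n ^ (-(sB * M)) ≤ X := dpow_le D.B n (by linarith)
  rcases le_total (kp (mk4 D n u x) (zs D v jx n x) (rs D v n) (D.L n x.1))
    (kp (mk4 D n v x) (zs D v jx n x) (rs D v n) (D.L n x.1)) with hk | hk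
  · rw [max_eq_left hk] at hmax
    have cv : Curv D v jx v u (D.B.d n ^ (-yb)) n x :=
      ⟨(mul_le_mul_of_nonneg_left (le_max_right _ _) (dp _).le).trans hmax, hk⟩
    obtain ⟨k1, k2⟩ := n1 cv
    exact hno (fin_at huv (Or.inl ⟨rfl, rfl⟩) he0.le hr hB01 hW1 m1 m2 m3 pr pr' lm nn wV d1 d2
      r1 r2 cv k1 k2 m4 m5 m6 m7)
  · rw [max_eq_right hk] at hmax
    have cv : Curv D v jx u v (D.B.d n ^ (-yb)) n x :=
      ⟨(mul_le_mul_of_nonneg_left (le_max_left _ _) (dp _).le).trans hmax, hk⟩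
    obtain ⟨k1, k2⟩ := n2 cv
    exact hno (fin_at huv (Or.inr ⟨rfl, rfl⟩) he0.le hr hB01 hW1 m1 m2 m3 pr' pr lm
      (fun k => ⟨(nn k).2, (nn k).1⟩) wU d2 d1 r2 r1 cv k1 k2 m4 m5 m6 m7)

end Crest.Agent.R136.Wr774
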