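import Crest.Agent.R136.Mlz_410_Mg
import Crest.Agent.R136.Lnu_876
import Crest.Agent.R136.Cuu5_57
import Crest.Agent.R136.Nmx3_501_Mg
import Mathlib
import Crest.Agent.R136.Npt_615
import Crest.Agent.R136.NdD_325
import Crest.Agent.R136.LinF3_403
import Crest.Agent.R136.LinW_938_Mg
import Crest.Agent.R136.Fin_484
import Crest.Agent.R136.Alr_877
import Crest.Agent.R136.Lks_140_Mg
import Crest.Agent.R136.Wr1_774
import Crest.Agent.R136.Hul5_412_Mg
import Crest.Agent.R136.V7b_818_Mg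
import Crest.Agent.R136.CubH_938_Mg
import Crest.Agent.R136.QGe_312
import Crest.Agent.R136.Chm3_862
import Crest.Agent.R136.Sln_296
import Crest.Agent.R136.Dvb_296
import Crest.Agent.R136.Rk3_601
import Crest.Agent.R136.Chm_862
import Crest.Agent.R136.AlD_601
import Crest.Agent.R136.Cap2_102
import Crest.Agent.R136.KapP_335
import Crest.Agent.R136.Kpc_104
import Crest.Agent.R136.Hcp1_208
import Crest.Agent.R136.Cuu3_57
import Crest.Agent.R136.Cuu4_57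
import Crest.Agent.R136.AlK_500

-- ▼ part R136/Shy_410
section

/-!
# R136 (S0187), PLAN 2, leaf (B4) share: `ShareL`, `ShareR` from the links (helper410)
-/

set_option autoImplicit false

namespace Crest.Agent.R136.Shv410

/-- **`ShareR`** from 524's links -/
theorem shareR_of1 (hl : Lkp140.LnkSh) : Shd410.ShareR := shareR_of (Lkp140.lnkS_of hl mLow)

/-- **`ShareL`** from 524's links -/
theorem shareL_of1 (hl : Lkp140.LnkSh) : Pl2.ShareL := shareL_of (shareR_of1 hl)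

end Crest.Agent.R136.Shv410
end

-- ▼ part R136/Lnd_57
section

/-! # R136, PLAN 2 (AL): `LeafNd` (helper57; assembly 876, 57) -/

set_option autoImplicit false

namespace Crest.Agent.R136.Cuu57

/-- **nondegenerate boxes**: the leaf of `AlK_500` -/
theorem leafNd : Al500.LeafNd :=
  Adp876.leafNd_of
    (fun _ _ _ _ _ _ _ _ _ _ _ _ h _ _ hz hz' hs hs1 h1 h2 => val_uu h hz hz' hs hs1 h1 h2)
    (fun _ _ _ _ _ _ _ _ _ _ _ _ h _ _ hj _ hs hs1 h1 h2 => a0_uu h hj hs hs1 h1 h2)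

end Crest.Agent.R136.Cuu57
end

-- ▼ part R136/Nmz_140
section

/-!
# R136 (S0187), PLAN 2, (AL)(A) [ND]: `ChartMx` (helper140: plug of 501's `ubox` into 296's assembly)
-/

set_option autoImplicit false
set_option linter.unusedVariables false

namespace Crest.Agent.R136.Nmz140

open Crest.Agent.R136.Pl2W102 (Near)
open Crest.Agent.R136.Pl2 (kp Al1)
open Crest.Agent.R136.Bl5667 (kp_nonneg)

theorem uBx : Nmy296.UBx := by
  intro W Y a w1 w2 z0 ρ r U V T0 hW hr hρ hrρ ha hSU hSV hTU hTV hDU hDV hAl hDet hYk hkV haY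
    z hz hz' p u v hp hu hv
  have hW8 : 1 ≤ W ^ 8 := one_le_pow₀ hW
  have k0 : 0 ≤ kp V z0 ρ T0 := kp_nonneg (Nmx44.w0_pos hr hSV).le _ _ _
  have h1 : 4 * kp V z0 ρ T0 ≤ 10 ^ 8 * W ^ 8 * kp V z0 ρ T0 := by
    refine mul_le_mul_of_nonneg_right ?_ k0
    nlinarith
  have hk : kp V z0 ρ T0 ≤ kp U z0 ρ T0 := by
    have := hYk.1
    linarith
  have h := Nmx501.ubox hW hr hρ hSU hSV hTU hTV hDU hDV hAl hYk hk (m := 1) le_rfl hz hz' hp hu hv
  rw [one_pow, mul_one] at h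
  exact h

/-- **`ChartMx`** -/
theorem chartMx : Ndw325.ChartMx := Nmy296.chartMx_of uBx

end Crest.Agent.R136.Nmz140
end

-- ▼ part R136/Nptb_615
section

/-!
# R136 (U4, PLAN 2 (AL), mixed curvatures): `ndPt : NdPt` (helper615)
-/

set_option autoImplicit false
set_option linter.unusedVariables false

namespace Crest.Agent.R136.Mxc615

open Crest.Agent.R136.Sh605

theorem ndPt : Ndw325.NdPt := by
  refine ⟨120, by norm_num, ?_⟩
  intro W Y a w1 w2 z0 ρ r U V T H j hW hr hρ hrρ ha hU hV tU tV dU dV al det hY hV' ha' hH hj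
  have h2W : (0 : ℝ) ≤ 2 * W := by linarith
  have h := ndPt_at hW hr hρ ha hU hV tU tV dU dV al det hY hV' ha' hH hj
  rw [Real.rpow_neg h2W] at h
  exact h

end Crest.Agent.R136.Mxc615
end

-- ▼ part R136/LinF4_403
section

/-!
# R136, thin branch (helper403): `SeamLinG` from the rows

* `relH2`, `relH1` : 560's relation with 938's rows
* **`seamLinG_rows`** : `RowsC → SeamLinG`
-/

set_option autoImplicit false
set_option linter.unusedVariables false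

open Filter Topology

namespace Crest.Agent.R136.LinF403

open Finset Crest.Agent.R138.Ex926 Crest.Agent.R136.Net191 Crest.Agent.R136.Gf356
open Crest.Agent.R136.Qg926 Crest.Agent.R136.NetW191 Crest.Agent.R136.EvW938
open Crest.Agent.R136.LadG697 Crest.Agent.R136.Ln619

/-- `N ∥ B` -/
theorem relH2 : RelH D11 {2, 3, 17} {10, 11} := by
  intro κ u f mm σ K hm hσ
  set t : ℝ := max K 0 with ht
  have ht0 : 0 ≤ t := le_max_right _ _
  have htK : K ≤ t := le_max_left _ _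
  refine ⟨t + 1 + (3 * t + 1) / σ, by positivity, fun W g ε hε => ?_⟩
  have h1 : 0 ≤ (3 * t + 1) / σ := by positivity
  have h2 : 3 * t < σ * (t + 1 + (3 * t + 1) / σ) := by
    have e : σ * (t + 1 + (3 * t + 1) / σ) = σ * (t + 1) + (3 * t + 1) := by
      field_simp
    rw [e]
    have := mul_nonneg hσ.le (by linarith : (0:ℝ) ≤ t + 1)
    linarith
  have hW : Lin560.LnW Lin560.Db Lin560.Ub W κ u f mm σ (t + 1 + (3 * t + 1) / σ) := g
  filter_upwards [Lin560.lin_rel3_of hW (fun E hE H => Lin938.lRow3 hW hE H) ht0 (by linarith) h2 hε]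
    with n hn
  obtain ⟨G, g1, g2, g3⟩ := hn
  refine ⟨G, g1, g2, ?_⟩
  obtain ⟨j, j1, j2, j3⟩ := g3
  refine ⟨j, j1, j2, fun y hy y' hy' q hq => (j3 y hy y' hy' q hq).trans ?_⟩
  have hsd : 0 ≤ sd W u n (Fin.natAdd 4 q) := by
    unfold sd
    exact (div_pos (Real.rpow_pos_of_pos (W.B.pos n) _) ((hW.ww.hl n).pos _)).le
  exact mul_le_mul_of_nonneg_right
    (Real.rpow_le_rpow_of_exponent_ge (W.B'.pos n) (W.B'.lt n).le (by linarith)) hsd

/-- `N ∥ A` -/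
theorem relH1 : RelH D12 {2, 17} {11} := by
  intro κ u f mm σ K hm hσ
  set t : ℝ := max K 0 with ht
  have ht0 : 0 ≤ t := le_max_right _ _
  have htK : K ≤ t := le_max_left _ _
  refine ⟨t + 1 + (2 * t + 1) / σ, by positivity, fun W g ε hε => ?_⟩
  have h1 : 0 ≤ (2 * t + 1) / σ := by positivity
  have h2 : 2 * t < σ * (t + 1 + (2 * t + 1) / σ) := by
    have e : σ * (t + 1 + (2 * t + 1) / σ) = σ * (t + 1) + (2 * t + 1) := by
      field_simp
    rw [e]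
    have := mul_nonneg hσ.le (by linarith : (0:ℝ) ≤ t + 1)
    linarith
  have hW : Lin560.LnW Lin560.Da Lin560.Ua W κ u f mm σ (t + 1 + (2 * t + 1) / σ) := g
  filter_upwards [Lin560.lin_rel2_of hW (fun E hE H => Lin938.lRow2 hW hE H) ht0 (by linarith) h2 hε]
    with n hn
  obtain ⟨G, g1, g2, g3⟩ := hn
  refine ⟨G, g1, g2, ?_⟩
  obtain ⟨j, j1, j2, j3⟩ := g3
  refine ⟨j, j1, j2, fun y hy y' hy' q hq => (j3 y hy y' hy' q hq).trans ?_⟩
  have hsd : 0 ≤ sd W u n (Fin.natAdd 4 q) := by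
    unfold sd
    exact (div_pos (Real.rpow_pos_of_pos (W.B.pos n) _) ((hW.ww.hl n).pos _)).le
  exact mul_le_mul_of_nonneg_right
    (Real.rpow_le_rpow_of_exponent_ge (W.B'.pos n) (W.B'.lt n).le (by linarith)) hsd

/-- **`SeamLinG`** from the rows -/
theorem seamLinG_rows (hR : RowsC) : SeamLinG := seamLinG_of hR relH2 relH1

end Crest.Agent.R136.LinF403
end

-- ▼ part R136/Fin2_484
section

/-!
# R136 (S0187): final wiring over the leaves of PLAN 2 and of the rows (helper484)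

`Leaves` = exactly the statements which are open; a field is removed when it is proved.
-/

set_option autoImplicit false
set_option linter.unusedVariables false

namespace Crest.Agent.R136.Fin484

open Crest.Agent.R136.Top484
open Crest.Agent.R136.LadG697

/-- **the open leaves** -/
structure Leaves : Prop where
  /-- 601, 862, 467, 818, 455 -/
  leafV6 : Al500.LeafV6

/-- **(BT)** -/
theorem btr : Pl2.BTR Pl2.Al1 := Btr879.btr_of1 (Shv410.shareL_of1 Lks140.lnkSh)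

theorem nd : Amx325.NdMx := Ndw325.ndMx_of Nmz140.chartMx Mxc615.ndPt

theorem alr (O : Leaves) : Pl2.ALR Pl2.Al1 :=
  Alr877.alr_of (Kcl44.ubalA_of Plx571.plMx Hmx104.hullMx nd) Clb208.close_back
    (Al500.alCore_of3 Hul412.leafHull Cuu57.leafNd O.leafV6)

/-- **tilt** -/
theorem tilt (O : Leaves) : ∃ η : ℝ, 0 < η ∧ ∀ (p : Par4) (D : Dat4), J1c η p D → SmT163.TiltB D :=
  Wr774.tiltB_of btr (alr O)

theorem rows34 : Pin851.Rows34 := fun W E κ u f lam x hW hx => Cr544.rows34 hW hx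

theorem spec34 : Pin851.Spec34 := Pin851.spec34_of rows34

theorem spec35 : Pin851.Spec35 := Pin851.spec35_of
  (Pin851.rows35_of fun W E κ u f lam x h hx => ⟨_, _, Cub938.sevo35 h le_rfl le_rfl⟩)

theorem rowsC' : RowsC :=
  Rws938.rowsC_of (Pin851.pin3_of spec35 spec34)
    Vw848.deadhi2

/-- **KS4 from the leaves** -/
theorem ks4_of (O : Leaves) : KS879.KS4 :=
  ks4_of_leaves (tilt O) spec35 spec34
    (QG312.seamQuadG rowsC') (LinF403.seamLinG_rows rowsC')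

/-- **S0187 from the leaves** -/
theorem s0187_of (O : Leaves) (K : Set (EuclideanSpace ℝ (Fin 4)))
    (hK : ∀ e : EuclideanSpace ℝ (Fin 4), ‖e‖ = 1 →
      ∃ a : EuclideanSpace ℝ (Fin 4), segment ℝ a (a + e) ⊆ K) : dimH K = 4 :=
  KS879.s0187_of_KS4 (ks4_of O) K hK

end Crest.Agent.R136.Fin484
end

-- ▼ part R136/Chm4_862
section

/-!
# R136 (U4, PLAN 2 (3) = (AL), V6): the jets of `U t'`, `V` moved from `T'` to `T` (helper862)
-/

set_option autoImplicit false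

namespace Crest.Agent.R136.Chm862

open Crest.Agent.R136.Sh605
open Crest.Agent.R136.Rk601
open Crest.Agent.R136.AlD601
open Crest.Agent.R136.Gbx862 (zj zj_mem)
open Crest.Agent.R136.K4 (Plk4)
open Crest.Agent.R136.Tlt51 (Shp InP)
open Crest.Agent.R136.Tl102
open Crest.Agent.R136.KapP335 (kapP expP expP_spec)

theorem gr_eq {J : Jt} (h : J.a0 ≠ 0) (y : ℝ) (w : Fin 3 → ℝ) :
    gr J y w = J.a0 * (y - ∑ k, sl J k * w k) := by
  have e : ∀ k, J.a k = -(sl J k * J.a0) := fun k => by have := sl_tan h k; linarith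
  simp only [gr, Fin.sum_univ_three]
  rw [e 0, e 1, e 2]; ring

theorem Own.ne {C w k : ℝ} {J : Jt} (h : Own C w k J) (hw : 0 < w) : J.a0 ≠ 0 := by
  have := h.lo; intro h0; rw [h0] at this; linarith

theorem Own.abs {C w k : ℝ} {J : Jt} (h : Own C w k J) (hw : 0 < w) :
    w / 2 ≤ |J.a0| ∧ |J.a0| ≤ 2 * w := by
  have h1 := h.lo
  rw [abs_of_pos (by linarith)]
  exact ⟨h1, h.hi⟩

theorem Own.mono {C C' w k : ℝ} {J : Jt} (h : Own C w k J) (hC : C ≤ C') (hw : 0 ≤ w)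
    (hk : 0 ≤ k) : Own C' w k J :=
  ⟨h.sy, h.lo, h.hi, fun i => (h.s i).trans hC,
    fun i => (h.g i).trans (mul_le_mul_of_nonneg_right hC hw), h.h00,
    fun i j => (h.lf i j).trans (mul_le_mul_of_nonneg_right hC hk)⟩

/-- the gradient along the displacement of two points of the sheet is small -/
theorem grad_small {J : Jt} {w k K y u v δ α : ℝ} (hK : 2 ≤ K) (h : Own K w k J) (hw : 0 < w)
    (hδ0 : 0 ≤ δ) (hy : |y| ≤ δ) (hu : |u| ≤ δ) (hv : |v| ≤ δ)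
    (hδ : 16 * K ^ 3 * δ ≤ 1)
    (hα : |J.a0 * y + dp J.a ![0, u, v] + 1 / 2 * (J.h00 * y ^ 2 + 2 * y * dp J.h0 ![0, u, v] +
      qf J.h ![0, u, v])| ≤ α) :
    |gr J y ![0, u, v]| ≤ 4 * K * α + 18 * K ^ 2 * k * δ ^ 2 := by
  have hK0 : (0 : ℝ) < K := by linarith
  have hK1 : (1 : ℝ) ≤ K := by linarith
  obtain ⟨l1, l2⟩ := h.abs hw
  have wk : ∀ i, |(![0, u, v] : Fin 3 → ℝ) i| ≤ δ := by
    intro i; fin_cases i
    · simpa using hδ0
    · exact hu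
    · exact hv
  have hκR : K * (k / w) * w = K * k := by field_simp
  have hα0 : α / w * w = α := by field_simp
  have hs : |∑ i, sl J i * (![0, u, v] : Fin 3 → ℝ) i| ≤ 3 * (K * δ) := by
    refine sum3_le fun i => ?_
    rw [abs_mul]
    exact mul_le_mul (h.s i) (wk i) (abs_nonneg _) hK0.le
  have he : |y - ∑ i, sl J i * (![0, u, v] : Fin 3 → ℝ) i| ≤ 4 * K * δ := by
    refine (abs_sub _ _).trans ?_
    nlinarith
  have hK3 : K ^ 2 ≤ K ^ 3 := pow_le_pow_right₀ hK1 (by norm_num)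
  have key := disp_le (q := J) (y := y) (w := ![0, u, v]) (K := K) (κ := k / w) (δ := δ) (R := w)
    (α := α / w) h.sy hK1 hw hδ0
    ((div_le_div_of_nonneg_left hw.le (by norm_num) hK).trans l1)
    wk (fun i j => by rw [hκR]; exact h.lf i j) h.g
    (h.h00.trans (mul_le_mul_of_nonneg_right hK hw.le)) (by nlinarith)
    (by
      calc 2 * K ^ 2 * |y - ∑ i, sl J i * (![0, u, v] : Fin 3 → ℝ) i| ≤
            2 * K ^ 2 * (4 * K * δ) := mul_le_mul_of_nonneg_left he (by positivity)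
        _ = 8 * (K ^ 3 * δ) := by ring
        _ ≤ 1 := by nlinarith [mul_nonneg (pow_nonneg hK0.le 3) hδ0])
    (by rw [hα0]; exact hα)
  rw [gr_eq (h.ne hw), abs_mul]
  calc |J.a0| * |y - ∑ i, sl J i * (![0, u, v] : Fin 3 → ℝ) i| ≤
        2 * w * (2 * K * (α / w) + 9 * K ^ 2 * (k / w) * δ ^ 2) :=
        mul_le_mul l2 key (abs_nonneg _) (by positivity)
    _ = 4 * K * (α / w * w) + 18 * K ^ 2 * (k / w * w) * δ ^ 2 := by ring
    _ = 4 * K * α + 18 * K ^ 2 * k * δ ^ 2 := by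
        rw [hα0]
        have : k / w * w = k := by field_simp
        rw [this]

/-- **displacement along the first sheet from the gradient of the second one** -/
theorem disp_other {J J' : Jt} {w k K y δ A g : ℝ} {W : Fin 3 → ℝ} (h : Own K w k J) (hw : 0 < w)
    (hδ0 : 0 ≤ δ) (hW : ∀ i, |W i| ≤ δ) (ht : ∀ i, |tg J J' i| ≤ A) (h0 : w / 32 ≤ |J'.a0|)
    (hg : |gr J' y W| ≤ g) :
    w * |y - ∑ i, sl J i * W i| ≤ 128 * (g + 3 * (δ * A)) := by
  have hne := h.ne hw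
  obtain ⟨l1, l2⟩ := h.abs hw
  have hA0 : 0 ≤ A := (abs_nonneg _).trans (ht 0)
  set e := y - ∑ i, sl J i * W i with he
  have e1 : gr J' y W = J'.a0 * e + ∑ i, W i * tg J J' i := by
    rw [he]
    have hs : ∀ i, sl J i * J.a0 = -J.a i := fun i => by have := sl_tan hne i; linarith
    simp only [gr, Fin.sum_univ_three, tg_eq]
    ring
  have h1 : |∑ i, W i * tg J J' i| ≤ 3 * (δ * A) := by
    refine sum3_le fun i => ?_
    rw [abs_mul]
    exact mul_le_mul (hW i) (ht i) (abs_nonneg _) hδ0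
  have h2 : |J'.a0| * |e| ≤ g + 3 * (δ * A) := by
    rw [← abs_mul]
    have : J'.a0 * e = gr J' y W - ∑ i, W i * tg J J' i := by rw [e1]; ring
    rw [this]
    exact (abs_sub _ _).trans (add_le_add hg h1)
  have h3 : w / 32 * |e| ≤ |J'.a0| * |e| := mul_le_mul_of_nonneg_right h0 (abs_nonneg _)
  have h4 : 0 ≤ g + 3 * (δ * A) := by
    have := (abs_nonneg _).trans hg
    positivity
  linarith

variable {q q' J1 J' : Jt} {y κ δ N R : ℝ} {w W : Fin 3 → ℝ}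

theorem Mv.lf_le {K : ℝ} (H : Mv q q' y w K κ δ N R) (i j : Fin 3) :
    |lf (sh q y w) (sl (sh q y w)) i j| ≤ 25 * K ^ 5 * (κ * R) := by
  have hK := H.K1
  have hK0 : (0 : ℝ) < K := by linarith
  have hκ := H.κ0
  have hκ1 := H.κ1
  have hδ := H.δ0
  have hδ1 := H.δ1
  change |lf q (sl (sh q y w)) i j| ≤ _
  set σ : Fin 3 → ℝ := fun i => sl (sh q y w) i - sl q i with hσ
  have hs : sl (sh q y w) = fun i => sl q i + σ i := by funext i; simp only [hσ]; ring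
  have hσb : ∀ i, |σ i| ≤ 4 * K ^ 2 * (κ * δ) := fun i => H.sl_le i
  have hss : |σ i * σ j| ≤ 16 * K ^ 4 * (κ ^ 2 * δ ^ 2) := by
    rw [abs_mul]
    calc |σ i| * |σ j| ≤ (4 * K ^ 2 * (κ * δ)) * (4 * K ^ 2 * (κ * δ)) :=
          mul_le_mul (hσb i) (hσb j) (abs_nonneg _) (by positivity)
      _ = _ := by ring
  have hδ2 : δ ^ 2 ≤ δ := by nlinarith
  have hR := H.R0
  have hκR : 0 ≤ κ * R := by positivity
  rw [hs, lf_add q]
  have a1 := H.hq i j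
  have a2 : ∀ i j, |σ j * (q.h0 i + sl q i * q.h00)| ≤ 4 * K ^ 3 * (κ * R) := fun i j => by
    rw [abs_mul]
    calc |σ j| * |gm q q i| ≤ 4 * K ^ 2 * (κ * δ) * (K * R) :=
          mul_le_mul (hσb j) (H.hg i) (abs_nonneg _) (by positivity)
      _ = 4 * K ^ 3 * (κ * R) * δ := by ring
      _ ≤ 4 * K ^ 3 * (κ * R) * 1 := mul_le_mul_of_nonneg_left hδ1 (by positivity)
      _ = _ := by ring
  have a4 : |q.h00 * (σ i * σ j)| ≤ 16 * K ^ 5 * (κ * R) := by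
    rw [abs_mul]
    calc |q.h00| * |σ i * σ j| ≤ (K * R) * (16 * K ^ 4 * (κ ^ 2 * δ ^ 2)) :=
          mul_le_mul H.h00 hss (abs_nonneg _) (by positivity)
      _ = 16 * K ^ 5 * (κ * R) * (κ * δ ^ 2) := by ring
      _ ≤ 16 * K ^ 5 * (κ * R) * 1 := by
          refine mul_le_mul_of_nonneg_left ?_ (by positivity)
          have : δ ^ 2 ≤ 1 := hδ2.trans hδ1
          nlinarith
      _ = _ := by ring
  have k3 : K ^ 3 ≤ K ^ 5 := pow_le_pow_right₀ hK (by norm_num)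
  have k1 : K ≤ K ^ 5 := by
    calc K = K ^ 1 := (pow_one K).symm
      _ ≤ K ^ 5 := pow_le_pow_right₀ hK (by norm_num)
  have b1 : 4 * K ^ 3 * (κ * R) ≤ 4 * K ^ 5 * (κ * R) :=
    mul_le_mul_of_nonneg_right (by linarith) hκR
  have b2 : K * κ * R ≤ K ^ 5 * (κ * R) := by
    calc K * κ * R = K * (κ * R) := by ring
      _ ≤ _ := mul_le_mul_of_nonneg_right k1 hκR
  calc _ ≤ |lf q (sl q) i j| + |σ j * (q.h0 i + sl q i * q.h00)| +
        |σ i * (q.h0 j + sl q j * q.h00)| + |q.h00 * (σ i * σ j)| := by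
        refine (abs_add_le _ _).trans (add_le_add ((abs_add_le _ _).trans (add_le_add
          (abs_add_le _ _) le_rfl)) le_rfl)
    _ ≤ _ := by linarith [a2 i j, a2 j i]

/-- **(1) moving in the chart of the first sheet** -/
theorem move1 {ω k kk K s l : ℝ} (hK : 10 ^ 7 ≤ K) (hω : 0 < ω)
    (k13 : k ≤ 13 * ω) (own : Own K ω k J1) (kk0 : 0 < kk) (c1 : kk ≤ K * k)
    (s0 : 0 ≤ s) (s1 : s ≤ K * kk) (l1 : l ≤ 1) (hδ0 : 0 ≤ δ) (hδ : K ^ 19 * δ ≤ 1)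
    (hW : ∀ i, |W i| ≤ 3 * (K * (K * δ))) (hg : |gr J' y W| ≤ 10 * K ^ 2 * (kk * δ))
    (ht : ∀ i, |tg J1 J' i| ≤ l * s) (h0 : ω / 32 ≤ |J'.a0|)
    (n : ∀ i j, |th J1 J' i j| ≤ K * s) (ng : ∀ i, k / ω * |gm J1 (df J1 J') i| ≤ K * s)
    (n0 : (k / ω) ^ 2 * |(df J1 J').h00| ≤ K * s) :
    Mv J1 J' y W (K ^ 2) (k / (K * ω)) (K ^ 6 * δ) (K * s) ω ∧ ω / 4 ≤ |(sh J1 y W).a0| := by
  have hK0 : (0 : ℝ) < K := by linarith
  have hK1 : (1 : ℝ) ≤ K := by linarith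
  have k0 : 0 < k := by
    by_contra h
    push Not at h
    nlinarith
  have hp : ∀ {a b : ℕ}, a ≤ b → K ^ a ≤ K ^ b := fun h => pow_le_pow_right₀ hK1 h
  have hdp : ∀ {a b : ℕ}, a ≤ b → K ^ a * δ ≤ K ^ b * δ := fun h =>
    mul_le_mul_of_nonneg_right (hp h) hδ0
  have hδ7 : K ^ 7 * δ ≤ 1 := (hdp (by norm_num)).trans hδ
  have hδ6 : K ^ 6 * δ ≤ 1 / 10 ^ 7 := by
    have : K ^ 6 * δ * K ≤ 1 := by
      calc K ^ 6 * δ * K = K ^ 7 * δ := by ring
        _ ≤ 1 := hδ7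
    rw [le_div_iff₀ (by norm_num)]
    exact (mul_le_mul_of_nonneg_left hK (by positivity)).trans this
  have hw3 : 3 * (K * (K * δ)) ≤ K ^ 6 * δ := by
    calc 3 * (K * (K * δ)) = 3 * (K ^ 2 * δ) := by ring
      _ ≤ K * (K ^ 2 * δ) := mul_le_mul_of_nonneg_right (by linarith) (by positivity)
      _ = K ^ 3 * δ := by ring
      _ ≤ K ^ 6 * δ := hdp (by norm_num)
  set e := y - ∑ i, sl J1 i * W i with he
  -- the displacement
  have hA : l * s ≤ K * kk := by nlinarith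
  have hd := disp_other (K := K) (k := k) own hω (by positivity) hW (A := K * kk)
    (fun i => (ht i).trans hA) h0 hg
  have hd2 : ω * |e| ≤ K ^ 5 * (k * δ) := by
    refine hd.trans ?_
    calc 128 * (10 * K ^ 2 * (kk * δ) + 3 * (3 * (K * (K * δ)) * (K * kk))) =
          (1280 * K ^ 2 + 1152 * K ^ 3) * (kk * δ) := by ring
      _ ≤ K ^ 4 * (kk * δ) := by
          refine mul_le_mul_of_nonneg_right ?_ (by positivity)
          have h2 : K ^ 2 ≤ K ^ 3 := hp (by norm_num)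
          have h3 : K ^ 4 = K * K ^ 3 := by ring
          have h4 : 10 ^ 7 * K ^ 3 ≤ K * K ^ 3 := mul_le_mul_of_nonneg_right hK (by positivity)
          rw [h3]; nlinarith [pow_pos hK0 3]
      _ ≤ K ^ 4 * ((K * k) * δ) :=
          mul_le_mul_of_nonneg_left (mul_le_mul_of_nonneg_right c1 hδ0) (by positivity)
      _ = K ^ 5 * (k * δ) := by ring
  have hκ : k / (K * ω) ≤ k / ω := by
    refine div_le_div_of_nonneg_left k0.le hω ?_
    nlinarith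
  have hκ0 : 0 ≤ k / (K * ω) := by positivity
  have hκω : k / (K * ω) * ω = k / K := by field_simp
  have hy : |e| ≤ k / (K * ω) * (K ^ 6 * δ) := by
    have e1 : k / (K * ω) * (K ^ 6 * δ) = K ^ 5 * (k * δ) / ω := by field_simp
    rw [e1, le_div_iff₀ hω]; linarith
  have hκ1 : k / (K * ω) ≤ 1 := by
    rw [div_le_one (by positivity)]
    calc k ≤ 13 * ω := k13
      _ ≤ K * ω := mul_le_mul_of_nonneg_right (by linarith) hω.le
  have hK12 : K ≤ K ^ 2 := by nlinarith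
  have hlo : ω / 4 ≤ |(sh J1 y W).a0| := by
    have e1 := sh_nor J1 J1 W y
    have a1 : |∑ i, W i * gm J1 J1 i| ≤ 3 * (3 * (K * (K * δ)) * (K * ω)) := by
      refine sum3_le fun i => ?_
      rw [abs_mul]
      exact mul_le_mul (hW i) (own.g i) (abs_nonneg _) (by positivity)
    have a2 : |e * J1.h00| ≤ K ^ 6 * δ * (2 * ω) := by
      rw [abs_mul]
      refine mul_le_mul (hy.trans ?_) own.h00 (abs_nonneg _) (by positivity)
      calc _ ≤ 1 * (K ^ 6 * δ) := mul_le_mul_of_nonneg_right hκ1 (by positivity)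
        _ = _ := one_mul _
    have a3 : 3 * (3 * (K * (K * δ)) * (K * ω)) ≤ K ^ 6 * δ * (9 * ω) := by
      calc 3 * (3 * (K * (K * δ)) * (K * ω)) = K ^ 3 * δ * (9 * ω) := by ring
        _ ≤ _ := mul_le_mul_of_nonneg_right (hdp (by norm_num)) (by positivity)
    have a4 : K ^ 6 * δ * (11 * ω) ≤ 1 / 10 ^ 7 * (11 * ω) :=
      mul_le_mul_of_nonneg_right hδ6 (by positivity)
    have a5 := own.lo
    have b1 := neg_abs_le (∑ i, W i * gm J1 J1 i)
    have b2 := neg_abs_le (e * J1.h00)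
    refine le_trans ?_ (le_abs_self _)
    rw [e1]
    norm_num at a4
    nlinarith
  refine ⟨⟨by nlinarith, hω, hκ0, hκ1, by positivity, by linarith, own.ne hω, ?_,
    fun i => (hW i).trans hw3, hy, fun i j => ?_, fun i => (own.g i).trans
      (mul_le_mul_of_nonneg_right hK12 hω.le), own.h00.trans
      (mul_le_mul_of_nonneg_right (by nlinarith) hω.le), n, fun i => ?_, ?_⟩, hlo⟩
  · refine le_trans ?_ hlo
    exact div_le_div_of_nonneg_left hω.le (by norm_num) (by nlinarith)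
  · refine (own.lf i j).trans (le_of_eq ?_)
    field_simp
  · exact (mul_le_mul_of_nonneg_right hκ (abs_nonneg _)).trans (ng i)
  · refine le_trans (mul_le_mul_of_nonneg_right ?_ (abs_nonneg _)) n0
    exact pow_le_pow_left₀ hκ0 hκ 2

end Crest.Agent.R136.Chm862
end

-- ▼ part R136/Chm5_862
section

/-!
# R136 (U4, PLAN 2 (3) = (AL), V6): `v6_move`, the jets moved from `T'` to `T` (helper862)
-/

set_option autoImplicit false

namespace Crest.Agent.R136.Chm862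

open Crest.Agent.R136.Sh605
open Crest.Agent.R136.Rk601
open Crest.Agent.R136.AlD601
open Crest.Agent.R136.Gbx862 (zj zj_mem)
open Crest.Agent.R136.K4 (Plk4)
open Crest.Agent.R136.Tlt51 (Shp InP)
open Crest.Agent.R136.Tl102
open Crest.Agent.R136.KapP335 (kapP expP expP_spec)
open Crest.Agent.R136.Deep51 (abs_dt_unit)

/-- the data of a pair of jets `G, G'` (moved), with the scales `ω` of the sheet, `κR` -/
structure Md (G G' : Jt) (K ω c s l m δ k : ℝ) : Prop where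
  sy : G.Sym
  sy' : G'.Sym
  lo : ω / 4 ≤ |G.a0|
  hsl : ∀ i, |sl G i| ≤ 2 * K
  hlf : ∀ i j, |lf G (sl G) i j| ≤ K ^ 11 * c
  htg : ∀ i, |tg G G' i| ≤ K ^ 12 * ((l + δ) * s)
  hth : ∀ i j, |th G G' i j| ≤ 2 * K * s
  hen : ∃ i j, k * s ≤ |th G G' i j| + K ^ 20 * (δ * s)
  hmn : ∀ i j k l', |mn (th G G') i j k l'| ≤ K ^ 33 * ((m + δ) * s ^ 2)

theorem md_of {J1 J' : Jt} {y ω c K s l m δ k : ℝ} {W : Fin 3 → ℝ} (hK : 10 ^ 7 ≤ K)
    (c0 : 0 ≤ c)
    (H : Mv J1 J' y W (K ^ 2) (c / (K * ω)) (K ^ 6 * δ) (K * s) ω)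
    (lo : ω / 4 ≤ |(sh J1 y W).a0|) (hs : ∀ i, |sl J1 i| ≤ K) (sy : J1.Sym) (sy' : J'.Sym)
    (s0 : 0 ≤ s) (l0 : 0 ≤ l) (m0 : 0 ≤ m) (hδ0 : 0 ≤ δ) (hδ : K ^ 19 * δ ≤ 1)
    (ht : ∀ i, |tg J1 J' i| ≤ l * s) (hm : ∀ i j k l', |mn (th J1 J') i j k l'| ≤ m * s ^ 2)
    (hk : ∃ i j, k * s ≤ |th J1 J' i j|) :
    Md (sh J1 y W) (sh J' y W) K ω c s l m δ k := by
  have hK0 : (0 : ℝ) < K := by linarith
  have hK1 : (1 : ℝ) ≤ K := by linarith
  have hω := H.R0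
  have hp : ∀ {a b : ℕ}, a ≤ b → K ^ a ≤ K ^ b := fun h => pow_le_pow_right₀ hK1 h
  have hup : ∀ {n : ℕ} {x : ℝ}, 0 ≤ x → x ≤ 10 ^ 7 → x * K ^ n ≤ K ^ (n + 1) := fun hx hx' => by
    rw [pow_succ']
    exact mul_le_mul_of_nonneg_right (hx'.trans hK) (by positivity)
  have hdp : ∀ {a b : ℕ}, a ≤ b → K ^ a * δ ≤ K ^ b * δ := fun h =>
    mul_le_mul_of_nonneg_right (hp h) hδ0
  have ew : c / (K * ω) * ω = c / K := by field_simp
  have ec : c / K ≤ c := div_le_self c0 hK1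
  have e1 : c / (K * ω) ≤ 1 := H.κ1
  refine ⟨sy, sy', lo, fun i => ?_, fun i j => ?_, fun i => ?_, fun i j => ?_, ?_,
    fun i j k l' => ?_⟩
  · have h1 := H.sl_le i
    have h2 : 4 * (K ^ 2) ^ 2 * (c / (K * ω) * (K ^ 6 * δ)) ≤ K := by
      calc 4 * (K ^ 2) ^ 2 * (c / (K * ω) * (K ^ 6 * δ)) ≤
            4 * (K ^ 2) ^ 2 * (1 * (K ^ 6 * δ)) := by
            refine mul_le_mul_of_nonneg_left ?_ (by positivity)
            exact mul_le_mul_of_nonneg_right e1 (by positivity)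
        _ = 4 * (K ^ 10 * δ) := by ring
        _ ≤ 4 * (K ^ 19 * δ) := mul_le_mul_of_nonneg_left (hdp (by norm_num)) (by norm_num)
        _ ≤ 4 * 1 := mul_le_mul_of_nonneg_left hδ (by norm_num)
        _ ≤ K := by linarith
    have h3 := hs i
    have h4 : |sl (sh J1 y W) i| ≤ |sl (sh J1 y W) i - sl J1 i| + |sl J1 i| := by
      have := abs_add_le (sl (sh J1 y W) i - sl J1 i) (sl J1 i)
      rwa [sub_add_cancel] at this
    linarith
  · refine (H.lf_le i j).trans ?_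
    rw [ew]
    calc 25 * (K ^ 2) ^ 5 * (c / K) ≤ 25 * (K ^ 2) ^ 5 * c :=
          mul_le_mul_of_nonneg_left ec (by positivity)
      _ = 25 * K ^ 10 * c := by ring
      _ ≤ K ^ 11 * c := mul_le_mul_of_nonneg_right (hup (by norm_num) (by norm_num)) c0
  · have h1 := H.tg_le i
    have h2 := ht i
    have h4 : |tg (sh J1 y W) (sh J' y W) i| ≤
        |tg (sh J1 y W) (sh J' y W) i - tg J1 J' i| + |tg J1 J' i| := by
      have := abs_add_le (tg (sh J1 y W) (sh J' y W) i - tg J1 J' i) (tg J1 J' i)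
      rwa [sub_add_cancel] at this
    have h5 : 20 * (K ^ 2) ^ 2 * (K * s * (K ^ 6 * δ)) ≤ K ^ 12 * (δ * s) := by
      calc 20 * (K ^ 2) ^ 2 * (K * s * (K ^ 6 * δ)) = 20 * K ^ 11 * (δ * s) := by ring
        _ ≤ _ := mul_le_mul_of_nonneg_right (hup (by norm_num) (by norm_num)) (by positivity)
    have h6 : l * s ≤ K ^ 12 * (l * s) := le_mul_of_one_le_left (by positivity)
      (one_le_pow₀ hK1)
    calc _ ≤ K ^ 12 * (δ * s) + K ^ 12 * (l * s) := by linarith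
      _ = _ := by ring
  · have h1 := H.th_le i j
    have h2 := H.hN i j
    have h4 : |th (sh J1 y W) (sh J' y W) i j| ≤
        |th (sh J1 y W) (sh J' y W) i j - th J1 J' i j| + |th J1 J' i j| := by
      have := abs_add_le (th (sh J1 y W) (sh J' y W) i j - th J1 J' i j) (th J1 J' i j)
      rwa [sub_add_cancel] at this
    have h5 : 124 * (K ^ 2) ^ 6 * (K * s * (K ^ 6 * δ)) ≤ K * s := by
      calc 124 * (K ^ 2) ^ 6 * (K * s * (K ^ 6 * δ)) = 124 * K ^ 18 * δ * (K * s) := by ring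
        _ ≤ K ^ 19 * δ * (K * s) := by
          refine mul_le_mul_of_nonneg_right ?_ (by positivity)
          exact mul_le_mul_of_nonneg_right (hup (by norm_num) (by norm_num)) hδ0
        _ ≤ 1 * (K * s) := mul_le_mul_of_nonneg_right hδ (by positivity)
        _ = _ := one_mul _
    linarith
  · obtain ⟨i, j, hij⟩ := hk
    refine ⟨i, j, ?_⟩
    have h1 := H.th_le i j
    have h4 : |th J1 J' i j| ≤
        |th (sh J1 y W) (sh J' y W) i j - th J1 J' i j| + |th (sh J1 y W) (sh J' y W) i j| := by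
      have := abs_sub (th (sh J1 y W) (sh J' y W) i j)
        (th (sh J1 y W) (sh J' y W) i j - th J1 J' i j)
      rw [sub_sub_cancel] at this
      linarith
    have h5 : 124 * (K ^ 2) ^ 6 * (K * s * (K ^ 6 * δ)) ≤ K ^ 20 * (δ * s) := by
      calc 124 * (K ^ 2) ^ 6 * (K * s * (K ^ 6 * δ)) = 124 * K ^ 19 * (δ * s) := by ring
        _ ≤ _ := mul_le_mul_of_nonneg_right (hup (by norm_num) (by norm_num)) (by positivity)
    linarith
  · have h1 := H.mn_le i j k l'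
    have h2 := hm i j k l'
    have h4 : |mn (th (sh J1 y W) (sh J' y W)) i j k l'| ≤
        |mn (th (sh J1 y W) (sh J' y W)) i j k l' - mn (th J1 J') i j k l'| +
          |mn (th J1 J') i j k l'| := by
      have := abs_add_le (mn (th (sh J1 y W) (sh J' y W)) i j k l' - mn (th J1 J') i j k l')
        (mn (th J1 J') i j k l')
      rwa [sub_add_cancel] at this
    have h5 : 62000 * (K ^ 2) ^ 12 * ((K * s) ^ 2 * (K ^ 6 * δ)) ≤ K ^ 33 * (δ * s ^ 2) := by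
      calc 62000 * (K ^ 2) ^ 12 * ((K * s) ^ 2 * (K ^ 6 * δ)) =
            62000 * K ^ 32 * (δ * s ^ 2) := by ring
        _ ≤ _ := mul_le_mul_of_nonneg_right (hup (by norm_num) (by norm_num)) (by positivity)
    have h6 : m * s ^ 2 ≤ K ^ 33 * (m * s ^ 2) := le_mul_of_one_le_left (by positivity)
      (one_le_pow₀ hK1)
    calc _ ≤ K ^ 33 * (δ * s ^ 2) + K ^ 33 * (m * s ^ 2) := by linarith
      _ = _ := by ring

/-- the maps of the change of chart: sizes -/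
structure Lb (K r ω : ℝ) (L : Lm) : Prop where
  mC : ∀ k, |L.mC k| ≤ K
  mCr : ∀ k, |L.mC k| * ω ≤ r
  mm : ∀ k i, |L.mm k i| ≤ 20 * K

/-- **(2) the change of chart** : `r` = width of the new sheet, `ω` = width of the old one -/
theorem cc_of {G G' : Jt} {L : Lm} {K ω r c s l m δ k : ℝ} (hK : 10 ^ 7 ≤ K) (ω0 : 0 < ω)
    (r0 : 0 < r) (cω : c ≤ 13 * ω) (H : Md G G' K ω c s l m δ k)
    (hL : Lb K r ω L) (hr : r / 32 ≤ |(pull 1 L G).a0|) (hsl : ∀ i, |sl (pull 1 L G) i| ≤ 2 * K) :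
    Cc 1 L G G' (K ^ 12) (K ^ 12 * ((l + δ) * s)) (2 * K * s) (K ^ 33 * ((m + δ) * s ^ 2)) := by
  have hK0 : (0 : ℝ) < K := by linarith
  have hK1 : (1 : ℝ) ≤ K := by linarith
  have hp : ∀ {a b : ℕ}, a ≤ b → K ^ a ≤ K ^ b := fun h => pow_le_pow_right₀ hK1 h
  have hup : ∀ {n : ℕ} {x : ℝ}, 0 ≤ x → x ≤ 10 ^ 7 → x * K ^ n ≤ K ^ (n + 1) := fun hx hx' => by
    rw [pow_succ']
    exact mul_le_mul_of_nonneg_right (hx'.trans hK) (by positivity)
  have egr : gr G L.m00 L.mC = (pull 1 L G).a0 := (one_mul _).symm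
  have hG0 : G.a0 ≠ 0 := by
    intro h; have := H.lo; rw [h, abs_zero] at this; linarith
  have k12 : 20 * K ≤ K ^ 12 := by
    calc 20 * K = 20 * K ^ 1 := by ring
      _ ≤ K ^ 2 := hup (by norm_num) (by norm_num)
      _ ≤ K ^ 12 := hp (by norm_num)
  refine ⟨one_le_pow₀ hK1, one_pos, H.sy, H.sy', hG0, ?_, fun k i j => ?_,
    fun k => (hL.mC k).trans (by linarith), fun k i => (hL.mm k i).trans k12,
    fun i => (hsl i).trans (by linarith), H.htg, H.hth, H.hmn⟩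
  · rw [egr]
    intro h
    rw [h, abs_zero] at hr
    linarith
  · rw [egr]
    have hc : |lf G (sl G) i j| ≤ K ^ 11 * (13 * ω) :=
      (H.hlf i j).trans (mul_le_mul_of_nonneg_left cω (by positivity))
    calc |L.mC k| * |lf G (sl G) i j| ≤ |L.mC k| * (K ^ 11 * (13 * ω)) :=
          mul_le_mul_of_nonneg_left hc (abs_nonneg _)
      _ = 13 * K ^ 11 * (|L.mC k| * ω) := by ring
      _ ≤ 13 * K ^ 11 * r := mul_le_mul_of_nonneg_left (hL.mCr k) (by positivity)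
      _ = 416 * K ^ 11 * (r / 32) := by ring
      _ ≤ 416 * K ^ 11 * |(pull 1 L G).a0| := mul_le_mul_of_nonneg_left hr (by positivity)
      _ ≤ K ^ 12 * |(pull 1 L G).a0| :=
          mul_le_mul_of_nonneg_right (hup (by norm_num) (by norm_num)) (abs_nonneg _)

theorem lb_of {S S' : Plk4} {K ρ : ℝ} (H : Tr K S S')
    (h : ∀ k, k ≠ 0 → |co S'.e S'.w (ρ • (S.c.v - S'.c.v)) k| ≤ 20 * K) :
    Lb K (S.w 0) (S'.w 0) (tr S S' ρ) := by
  have hK := H.K1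
  have hK0 : (0 : ℝ) < K := by linarith
  have e1 : (1 : Fin 3) ≠ 0 := by decide
  have e2 : (2 : Fin 3) ≠ 0 := by decide
  have key : ∀ k, k ≠ 0 → |co S'.e S'.w (fr S.e S.w 0) k| * S'.w 0 ≤ S.w 0 := by
    intro k hk
    have e : co S'.e S'.w (fr S.e S.w 0) k = S.w 0 * dt (S'.e k) (S.e 0) / S'.w k := by
      simp only [co, fr, dt, Pi.smul_apply, smul_eq_mul]; ring
    have pk := H.pos' k
    have p0 := H.pos 0
    have u := abs_dt_unit H.o' H.o k 0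
    have w0k : S'.w 0 ≤ S'.w k := by
      fin_cases k
      · exact absurd rfl hk
      · exact H.w02'.trans H.w21'
      · exact H.w02'
    rw [e, abs_div, abs_of_pos pk, abs_mul, abs_of_pos p0, div_mul_eq_mul_div, div_le_iff₀ pk]
    exact mul_le_mul (mul_le_of_le_one_right p0.le u) w0k H.w0'.le p0.le
  have t0 : |(0 : ℝ)| ≤ K := by rw [abs_zero]; exact hK0.le
  have z0 : |(0 : ℝ)| ≤ 20 * K := by rw [abs_zero]; positivity
  have o0 : |(1 : ℝ)| ≤ 20 * K := by rw [abs_one]; linarith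
  have le20 : K ≤ 20 * K := by linarith
  refine ⟨fun k => ?_, fun k => ?_, fun k i => ?_⟩
  · fin_cases k
    · exact t0
    · exact H.ent 0 1 e1
    · exact H.ent 0 2 e2
  · fin_cases k
    · change |(0 : ℝ)| * S'.w 0 ≤ S.w 0
      rw [abs_zero, zero_mul]; exact (H.pos 0).le
    · exact key 1 e1
    · exact key 2 e2
  · fin_cases k <;> fin_cases i
    · exact o0
    · exact z0
    · exact z0
    · exact h 1 e1
    · exact (H.ent 1 1 e1).trans le20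
    · exact (H.ent 2 1 e1).trans le20
    · exact h 2 e2
    · exact (H.ent 1 2 e2).trans le20
    · exact (H.ent 2 2 e2).trans le20

/-- **(3) the way back** -/
theorem cc_rev {G G' : Jt} {L L' : Lm} {K ω r c s l m δ k N : ℝ} (hK : 10 ^ 7 ≤ K)
    (c0 : 0 ≤ c) (cr : c ≤ K ^ 2 * r) (H : Md G G' K ω c s l m δ k)
    (C : Cc 1 L G G' (K ^ 12) (K ^ 12 * ((l + δ) * s)) (2 * K * s) (K ^ 33 * ((m + δ) * s ^ 2)))
    (hL' : Lb K ω r L') (hG : pull 1 L' (pull 1 L G) = G)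
    (hN : ∀ i j, |th (pull 1 L G) (pull 1 L G') i j| ≤ N) :
    Cc 1 L' (pull 1 L G) (pull 1 L G') (K ^ 62) (6 * (K ^ 12) ^ 2 * (1 * (K ^ 12 * ((l + δ) * s)))) N
      (50000 * (K ^ 12) ^ 10 * (1 ^ 2 * (K ^ 33 * ((m + δ) * s ^ 2) +
        (2 * K * s + K ^ 12 * ((l + δ) * s)) * (K ^ 12 * ((l + δ) * s))))) := by
  have hK0 : (0 : ℝ) < K := by linarith
  have hK1 : (1 : ℝ) ≤ K := by linarith
  have hp : ∀ {a b : ℕ}, a ≤ b → K ^ a ≤ K ^ b := fun h => pow_le_pow_right₀ hK1 h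
  have hup : ∀ {n : ℕ} {x : ℝ}, 0 ≤ x → x ≤ 10 ^ 7 → x * K ^ n ≤ K ^ (n + 1) := fun hx hx' => by
    rw [pow_succ']
    exact mul_le_mul_of_nonneg_right (hx'.trans hK) (by positivity)
  have egr : gr (pull 1 L G) L'.m00 L'.mC = G.a0 := by
    have h1 : (pull 1 L' (pull 1 L G)).a0 = 1 * gr (pull 1 L G) L'.m00 L'.mC := rfl
    rw [hG, one_mul] at h1
    exact h1.symm
  have hG0 : G.a0 ≠ 0 := C.g0
  have k12 : 20 * K ≤ K ^ 62 := by
    calc 20 * K = 20 * K ^ 1 := by ring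
      _ ≤ K ^ 2 := hup (by norm_num) (by norm_num)
      _ ≤ K ^ 62 := hp (by norm_num)
  have hlf : ∀ i j, |lf (pull 1 L G) (sl (pull 1 L G)) i j| ≤ K ^ 62 / 4 * r := by
    intro i j
    rw [lf_pull H.sy one_ne_zero hG0 C.ne]
    rw [one_mul]
    have h1 : |∑ k, ∑ l, tm 1 L G k i * tm 1 L G l j * lf G (sl G) k l| ≤
        9 * ((2 * (K ^ 12) ^ 2) * (2 * (K ^ 12) ^ 2) * (K ^ 11 * c)) := by
      refine sum33_le fun k l => ?_
      rw [abs_mul, abs_mul]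
      refine mul_le_mul (mul_le_mul (C.tm_le k i) (C.tm_le l j) (abs_nonneg _) (by positivity))
        (H.hlf k l) (abs_nonneg _) (by positivity)
    refine h1.trans ?_
    calc 9 * ((2 * (K ^ 12) ^ 2) * (2 * (K ^ 12) ^ 2) * (K ^ 11 * c)) = 36 * K ^ 59 * c := by ring
      _ ≤ 36 * K ^ 59 * (K ^ 2 * r) := mul_le_mul_of_nonneg_left cr (by positivity)
      _ = 144 * K ^ 61 / 4 * r := by ring
      _ ≤ K ^ 62 / 4 * r := by
          have hr : 0 ≤ r := by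
            by_contra h
            push Not at h
            have : K ^ 2 * r < 0 := mul_neg_of_pos_of_neg (by positivity) h
            linarith
          refine mul_le_mul_of_nonneg_right ?_ hr
          exact div_le_div_of_nonneg_right (hup (by norm_num) (by norm_num)) (by norm_num)
  refine ⟨one_le_pow₀ hK1, one_pos, pull_sym H.sy, pull_sym H.sy', C.ne, ?_, fun k i j => ?_,
    fun k => (hL'.mC k).trans (by linarith), fun k i => (hL'.mm k i).trans k12,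
    fun i => ?_, C.tg_le, hN, C.mn_le⟩
  · rw [egr]; exact hG0
  · rw [egr]
    calc |L'.mC k| * |lf (pull 1 L G) (sl (pull 1 L G)) i j| ≤ |L'.mC k| * (K ^ 62 / 4 * r) :=
          mul_le_mul_of_nonneg_left (hlf i j) (abs_nonneg _)
      _ = K ^ 62 / 4 * (|L'.mC k| * r) := by ring
      _ ≤ K ^ 62 / 4 * ω := mul_le_mul_of_nonneg_left (hL'.mCr k) (by positivity)
      _ = K ^ 62 * (ω / 4) := by ring
      _ ≤ K ^ 62 * |G.a0| := mul_le_mul_of_nonneg_left H.lo (by positivity)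
  · rw [hG]
    exact (H.hsl i).trans (by linarith)

/-- **(4) the conclusion in the new chart** -/
theorem md_end {G G' : Jt} {L L' : Lm} {K ω r c s l m δ k : ℝ} (hK : 10 ^ 7 ≤ K) (ω0 : 0 < ω)
    (r0 : 0 < r) (c0 : 0 ≤ c) (cω : c ≤ 13 * ω) (cr : c ≤ K ^ 2 * r) (s0 : 0 < s) (l0 : 0 ≤ l)
    (m0 : 0 ≤ m) (δ0 : 0 ≤ δ) (k1 : k ≤ 1) (hP : K ^ 400 * (l + δ) ≤ k)
    (H : Md G G' K ω c s l m δ k) (hL : Lb K r ω L) (hL' : Lb K ω r L')
    (hr : r / 32 ≤ |(pull 1 L G).a0|) (hsl : ∀ i, |sl (pull 1 L G) i| ≤ 2 * K)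
    (hG : pull 1 L' (pull 1 L G) = G) (hG' : pull 1 L' (pull 1 L G') = G') :
    (∀ i i', |th (pull 1 L G) (pull 1 L G') i i'| ≤ K ^ 400 * s) ∧
    (∃ i i', k * s ≤ K ^ 400 * |th (pull 1 L G) (pull 1 L G') i i'|) ∧
    (∀ i i' j j', |mn (th (pull 1 L G) (pull 1 L G')) i i' j j'| ≤
      K ^ 400 * ((l + m + δ) * s ^ 2)) ∧
    ∀ i, |tg (pull 1 L G) (pull 1 L G') i| ≤ K ^ 400 * ((l + δ) * s) := by
  have hK0 : (0 : ℝ) < K := by linarith
  have hK1 : (1 : ℝ) ≤ K := by linarith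
  have hp : ∀ {a b : ℕ}, a ≤ b → K ^ a ≤ K ^ b := fun h => pow_le_pow_right₀ hK1 h
  have hup : ∀ {n : ℕ} {x : ℝ}, 0 ≤ x → x ≤ 10 ^ 7 → x * K ^ n ≤ K ^ (n + 1) := fun hx hx' => by
    rw [pow_succ']
    exact mul_le_mul_of_nonneg_right (hx'.trans hK) (by positivity)
  have C := cc_of hK ω0 r0 cω H hL hr hsl
  obtain ⟨A, hA⟩ : ∃ A, A = (l + δ) * s := ⟨_, rfl⟩
  have A0 : 0 ≤ A := by rw [hA]; positivity
  have A1 : K ^ 12 * A ≤ s := by
    rw [hA]
    have h1 : K ^ 12 * (l + δ) ≤ 1 := by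
      calc K ^ 12 * (l + δ) ≤ K ^ 400 * (l + δ) :=
            mul_le_mul_of_nonneg_right (hp (by norm_num)) (by positivity)
        _ ≤ 1 := hP.trans k1
    calc K ^ 12 * ((l + δ) * s) = K ^ 12 * (l + δ) * s := by ring
      _ ≤ 1 * s := mul_le_mul_of_nonneg_right h1 s0.le
      _ = s := one_mul _
  refine ⟨fun i i' => ?_, ?_, fun i i' j j' => ?_, fun i => ?_⟩
  · refine (C.th_le i i').trans ?_
    rw [← hA]
    calc 108 * (K ^ 12) ^ 5 * (1 * (2 * K * s + K ^ 12 * A)) ≤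
          108 * (K ^ 12) ^ 5 * (1 * (2 * K * s + K * s)) := by
          refine mul_le_mul_of_nonneg_left ?_ (by positivity)
          nlinarith
      _ = 324 * K ^ 61 * s := by ring
      _ ≤ K ^ 62 * s := mul_le_mul_of_nonneg_right (hup (by norm_num) (by norm_num)) s0.le
      _ ≤ K ^ 400 * s := mul_le_mul_of_nonneg_right (hp (by norm_num)) s0.le
  · by_contra hne
    push Not at hne
    have hks : 0 < k * s := lt_of_le_of_lt (by positivity) (hne 0 0)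
    have hN : ∀ i j, |th (pull 1 L G) (pull 1 L G') i j| ≤ k * s / K ^ 400 := fun i j => by
      rw [le_div_iff₀ (by positivity)]
      linarith [hne i j]
    have D := cc_rev hK c0 cr H C hL' hG hN
    obtain ⟨i, j, hij⟩ := H.hen
    have h1 := D.th_le i j
    rw [hG, hG', ← hA] at h1
    have h2 : 108 * (K ^ 62) ^ 5 * (1 * (k * s / K ^ 400 + 6 * (K ^ 12) ^ 2 * (1 * (K ^ 12 * A)))) =
        108 * K ^ 310 * (k * s / K ^ 400) + 648 * K ^ 346 * A := by ring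
    have h3 : 108 * K ^ 310 * (k * s / K ^ 400) ≤ k * s / 4 := by
      rw [← mul_div_assoc, div_le_div_iff₀ (by positivity) (by norm_num)]
      calc 108 * K ^ 310 * (k * s) * 4 = 432 * K ^ 310 * (k * s) := by ring
        _ ≤ K ^ 311 * (k * s) := mul_le_mul_of_nonneg_right (hup (by norm_num) (by norm_num)) hks.le
        _ ≤ K ^ 400 * (k * s) := mul_le_mul_of_nonneg_right (hp (by norm_num)) hks.le
        _ = k * s * K ^ 400 := by ring
    have h4 : K ^ 20 * (δ * s) ≤ K ^ 346 * A := by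
      rw [hA]
      refine mul_le_mul (hp (by norm_num)) ?_ (by positivity) (by positivity)
      exact mul_le_mul_of_nonneg_right (by linarith) s0.le
    have h5 : 649 * K ^ 346 * A ≤ k * s / 4 := by
      have : 4 * (649 * K ^ 346 * A) ≤ K ^ 400 * (l + δ) * s := by
        calc 4 * (649 * K ^ 346 * A) = 2596 * K ^ 346 * A := by ring
          _ ≤ K ^ 347 * A := mul_le_mul_of_nonneg_right (hup (by norm_num) (by norm_num)) A0
          _ ≤ K ^ 400 * A := mul_le_mul_of_nonneg_right (hp (by norm_num)) A0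
          _ = _ := by rw [hA]; ring
      have h6 : K ^ 400 * (l + δ) * s ≤ k * s := mul_le_mul_of_nonneg_right hP s0.le
      linarith
    rw [h2] at h1
    linarith
  · refine (C.mn_le i i' j j').trans ?_
    rw [← hA]
    obtain ⟨B, hB⟩ : ∃ B, B = (l + m + δ) * s ^ 2 := ⟨_, rfl⟩
    have b1 : (m + δ) * s ^ 2 ≤ B := by
      rw [hB]; exact mul_le_mul_of_nonneg_right (by linarith) (by positivity)
    have b2 : s * A ≤ B := by
      rw [hB, hA]
      calc s * ((l + δ) * s) = (l + δ) * s ^ 2 := by ring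
        _ ≤ _ := mul_le_mul_of_nonneg_right (by linarith) (by positivity)
    have B0 : 0 ≤ B := by rw [hB]; positivity
    rw [← hB]
    have b3 : (2 * K * s + K ^ 12 * A) * (K ^ 12 * A) ≤ 3 * K ^ 13 * B := by
      calc (2 * K * s + K ^ 12 * A) * (K ^ 12 * A) ≤ (2 * K * s + K * s) * (K ^ 12 * A) := by
            refine mul_le_mul_of_nonneg_right ?_ (by positivity)
            nlinarith
        _ = 3 * K ^ 13 * (s * A) := by ring
        _ ≤ _ := mul_le_mul_of_nonneg_left b2 (by positivity)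
    have b4 : 3 * K ^ 13 * B ≤ K ^ 33 * B := by
      calc 3 * K ^ 13 * B ≤ K ^ 14 * B :=
            mul_le_mul_of_nonneg_right (hup (by norm_num) (by norm_num)) B0
        _ ≤ K ^ 33 * B := mul_le_mul_of_nonneg_right (hp (by norm_num)) B0
    have b5 : K ^ 33 * ((m + δ) * s ^ 2) ≤ K ^ 33 * B := mul_le_mul_of_nonneg_left b1 (by positivity)
    calc 50000 * (K ^ 12) ^ 10 * (1 ^ 2 * (K ^ 33 * ((m + δ) * s ^ 2) +
          (2 * K * s + K ^ 12 * A) * (K ^ 12 * A))) ≤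
          50000 * (K ^ 12) ^ 10 * (1 ^ 2 * (K ^ 33 * B + K ^ 33 * B)) := by
          refine mul_le_mul_of_nonneg_left ?_ (by positivity)
          linarith
      _ = 100000 * K ^ 153 * B := by ring
      _ ≤ K ^ 154 * B := mul_le_mul_of_nonneg_right (hup (by norm_num) (by norm_num)) B0
      _ ≤ K ^ 400 * B := mul_le_mul_of_nonneg_right (hp (by norm_num)) B0
  · refine (C.tg_le i).trans ?_
    rw [← hA]
    calc 6 * (K ^ 12) ^ 2 * (1 * (K ^ 12 * A)) = 6 * K ^ 36 * A := by ring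
      _ ≤ K ^ 37 * A := mul_le_mul_of_nonneg_right (hup (by norm_num) (by norm_num)) A0
      _ ≤ K ^ 400 * A := mul_le_mul_of_nonneg_right (hp (by norm_num)) A0

theorem vec3 (x : V3) : ![x 0, x 1, x 2] = x := by
  funext i; fin_cases i <;> rfl

/-- slopes from the tangential differences -/
theorem sl_of_tg {q0 q2 : Jt} {K A r : ℝ} (h0 : ∀ i, |sl q0 i| ≤ K) (r0 : 0 < r)
    (hr : r / 32 ≤ |q2.a0|) (hA : ∀ i, |tg q0 q2 i| ≤ A) (hAr : A ≤ r / 32) (i : Fin 3) :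
    |sl q2 i| ≤ K + 1 := by
  have hne : q2.a0 ≠ 0 := by
    intro h; rw [h, abs_zero] at hr; linarith
  have hpos : 0 < |q2.a0| := abs_pos.2 hne
  have e : sl q2 i * q2.a0 = sl q0 i * q2.a0 - tg q0 q2 i := by
    have := sl_tan hne i
    rw [tg_eq]; linarith
  have h1 : |sl q2 i| * |q2.a0| ≤ (K + 1) * |q2.a0| := by
    rw [← abs_mul, e]
    refine (abs_sub _ _).trans ?_
    rw [abs_mul]
    have := mul_le_mul_of_nonneg_right (h0 i) (abs_nonneg q2.a0)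
    linarith [hA i]
  exact le_of_mul_le_mul_right h1 hpos

/-- **`v6_move`** : the pair `(R, V)` at the point of `T`, in the chart of `U`, from the data in
the chart of `R` at the point of `T'`. -/
theorem v6_move {U V R : Plk4} {T T' : Ln4} {z0 ρ K kV kR kk s l m δ k : ℝ} {H j : ℕ}
    (hK : 10 ^ 7 ≤ K) (hρ : 0 ≤ ρ) (qV : IsQ V.q) (qR : IsQ R.q)
    (oV : Own K (V.w 0) kV (jS V V.q z0 ρ H j T')) (oR : Own K (R.w 0) kR (jS R R.q z0 ρ H j T'))
    (c1 : kV ≤ K * kk) (c2 : kk ≤ K * kR) (c3 : kR ≤ 13 * R.w 0) (c4 : kk ≤ K * U.w 0)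
    (c5 : kR ≤ K * kk)
    (VR : Tr K V R) (UR : Tr K U R) (RU : Tr K R U) (VU : Tr K V U)
    (i1 : InP T U z0 ρ) (i2 : InP T V z0 ρ) (i3 : InP T' V z0 ρ) (i4 : InP T' R z0 ρ)
    (qa : |V.q (zj z0 ρ H j) (T.pos (zj z0 ρ H j))| ≤ K * kk * δ)
    (qa' : |V.q (zj z0 ρ H j) (T'.pos (zj z0 ρ H j))| ≤ K * kk * δ)
    (hd : ∀ i, |dt (V.e i) (T.pos (zj z0 ρ H j) - T'.pos (zj z0 ρ H j))| ≤ K * δ * V.w i)
    (s0 : 0 < s) (s1 : s ≤ K * kk)
    (nd : ¬ Nd R V.q z0 ρ H j T' l m s) (sm : ¬ Sm R V.q z0 ρ H j T' k s)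
    (a0 : R.w 0 / 32 ≤ |(jS R V.q z0 ρ H j T').a0|)
    (dv : Wdg296.Dv R V.q z0 ρ H j T' K (kR / R.w 0) s)
    (b0 : U.w 0 / 32 ≤ |(jS U R.q z0 ρ H j T).a0|)
    (bs : ∀ i, |sl (jS U R.q z0 ρ H j T) i| ≤ 2 * K)
    (k1 : k ≤ 1) (l0 : 0 ≤ l) (m0 : 0 ≤ m) (δ0 : 0 ≤ δ) (hP : K ^ 400 * (l + δ) ≤ k) :
    (∀ i i', |th (jS U R.q z0 ρ H j T) (jS U V.q z0 ρ H j T) i i'| ≤ K ^ 400 * s) ∧
    (∃ i i', k * s ≤ K ^ 400 * |th (jS U R.q z0 ρ H j T) (jS U V.q z0 ρ H j T) i i'|) ∧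
    (∀ i i' j' k', |mn (th (jS U R.q z0 ρ H j T) (jS U V.q z0 ρ H j T)) i i' j' k'| ≤
      K ^ 400 * ((l + m + δ) * s ^ 2)) ∧
    ∀ i, |tg (jS U R.q z0 ρ H j T) (jS U V.q z0 ρ H j T) i| ≤ K ^ 400 * ((l + δ) * s) := by
  have hK0 : (0 : ℝ) < K := by linarith
  have hK1 : (1 : ℝ) ≤ K := by linarith
  have hp : ∀ {a b : ℕ}, a ≤ b → K ^ a ≤ K ^ b := fun h => pow_le_pow_right₀ hK1 h
  have kk0 : 0 < kk := by
    by_contra h
    push Not at h
    nlinarith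
  have kR0 : 0 < kR := by
    by_contra h
    push Not at h
    nlinarith
  have ω0 := UR.w0'
  have r0 := UR.w0
  have hδl : K ^ 400 * (l + δ) ≤ 1 := hP.trans k1
  have hδ : ∀ n : ℕ, n ≤ 400 → K ^ n * δ ≤ 1 := fun n hn => by
    calc K ^ n * δ ≤ K ^ 400 * (l + δ) :=
          mul_le_mul (hp hn) (by linarith) δ0 (by positivity)
      _ ≤ 1 := hδl
  have l1 : l ≤ 1 := by
    calc l ≤ l + δ := by linarith
      _ ≤ K ^ 400 * (l + δ) := le_mul_of_one_le_left (by positivity) (one_le_pow₀ hK1)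
      _ ≤ 1 := hδl
  obtain ⟨z, hz⟩ : ∃ z, z = zj z0 ρ H j := ⟨_, rfl⟩
  rw [← hz] at qa qa' hd
  obtain ⟨D, hD⟩ : ∃ D, D = T.pos z - T'.pos z := ⟨_, rfl⟩
  rw [← hD] at hd
  have hTD : T.pos z = T'.pos z + D := by rw [hD]; abel
  -- coordinates of the displacement
  obtain ⟨y, hy⟩ : ∃ y, y = co R.e R.w D 0 := ⟨_, rfl⟩
  obtain ⟨u, hu⟩ : ∃ u, u = co R.e R.w D 1 := ⟨_, rfl⟩
  obtain ⟨v, hv⟩ : ∃ v, v = co R.e R.w D 2 := ⟨_, rfl⟩
  have eR : cmb (fr R.e R.w) ![y, u, v] = D := by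
    rw [hy, hu, hv, vec3, cmb_co UR.o' UR.pos']
  have eV : cmb (fr V.e V.w) ![co V.e V.w D 0, co V.e V.w D 1, co V.e V.w D 2] = D := by
    rw [vec3, cmb_co VR.o VR.pos]
  have bV : ∀ i, |co V.e V.w D i| ≤ K * δ := fun i => by
    unfold co
    rw [abs_div, abs_of_pos (VR.pos i), div_le_iff₀ (VR.pos i)]
    exact hd i
  have bW : ∀ i, |(![0, u, v] : Fin 3 → ℝ) i| ≤ 3 * (K * (K * δ)) := by
    intro i
    fin_cases i
    · simp only [Fin.zero_eta, Matrix.cons_val_zero, abs_zero]; positivity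
    · have := VR.box hd 1 (by decide)
      rw [← hu] at this; exact this
    · have := VR.box hd 2 (by decide)
      rw [← hv] at this; exact this
  -- the gradient in the chart of `V`
  have gV : |gr (jS V V.q z0 ρ H j T') (co V.e V.w D 0)
      ![0, co V.e V.w D 1, co V.e V.w D 2]| ≤ 10 * K ^ 2 * (kk * δ) := by
    have hj := (jt_jet qV (fr V.e V.w) V.c.v z (T'.pos z) ρ).1 (co V.e V.w D 0) 0 (co V.e V.w D 1)
      (co V.e V.w D 2)
    rw [eV, mul_zero, zero_smul, add_zero, add_zero, ← hTD] at hj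
    have g1 := grad_small (K := K) (δ := K * δ) (α := 2 * (K * kk * δ)) (by linarith) oV VR.w0
      (by positivity) (bV 0) (bV 1) (bV 2)
      (by
        calc 16 * K ^ 3 * (K * δ) = 16 * (K ^ 4 * δ) := by ring
          _ ≤ K * (K ^ 4 * δ) := mul_le_mul_of_nonneg_right (by linarith) (by positivity)
          _ = K ^ 5 * δ := by ring
          _ ≤ 1 := hδ 5 (by norm_num))
      (by
        change |(jt V.q (fr V.e V.w) V.c.v (zj z0 ρ H j) (T'.pos (zj z0 ρ H j)) ρ).a0 *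
          co V.e V.w D 0 + dp (jt V.q (fr V.e V.w) V.c.v (zj z0 ρ H j)
            (T'.pos (zj z0 ρ H j)) ρ).a ![0, co V.e V.w D 1, co V.e V.w D 2] + 1 / 2 *
          ((jt V.q (fr V.e V.w) V.c.v (zj z0 ρ H j) (T'.pos (zj z0 ρ H j)) ρ).h00 *
            (co V.e V.w D 0) ^ 2 + 2 * (co V.e V.w D 0) *
            dp (jt V.q (fr V.e V.w) V.c.v (zj z0 ρ H j) (T'.pos (zj z0 ρ H j)) ρ).h0
              ![0, co V.e V.w D 1, co V.e V.w D 2] +
            qf (jt V.q (fr V.e V.w) V.c.v (zj z0 ρ H j) (T'.pos (zj z0 ρ H j)) ρ).h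
              ![0, co V.e V.w D 1, co V.e V.w D 2])| ≤ 2 * (K * kk * δ)
        rw [← hz]
        rw [abs_le] at *
        constructor <;> linarith [qa.1, qa.2, qa'.1, qa'.2])
    refine g1.trans ?_
    have h1 : 18 * K ^ 2 * kV * (K * δ) ^ 2 ≤ 2 * K ^ 2 * (kk * δ) := by
      calc 18 * K ^ 2 * kV * (K * δ) ^ 2 = 18 * K ^ 2 * (K * δ) ^ 2 * kV := by ring
        _ ≤ 18 * K ^ 2 * (K * δ) ^ 2 * (K * kk) := mul_le_mul_of_nonneg_left c1 (by positivity)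
        _ = 18 * (K ^ 3 * δ) * (K ^ 2 * (kk * δ)) := by ring
        _ ≤ 2 * (K ^ 2 * (kk * δ)) := by
            refine mul_le_mul_of_nonneg_right ?_ (by positivity)
            have : 10 ^ 7 * (K ^ 3 * δ) ≤ 1 := by
              calc 10 ^ 7 * (K ^ 3 * δ) ≤ K * (K ^ 3 * δ) :=
                    mul_le_mul_of_nonneg_right hK (by positivity)
                _ = K ^ 4 * δ := by ring
                _ ≤ 1 := hδ 4 (by norm_num)
            linarith
        _ = _ := by ring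
    calc 4 * K * (2 * (K * kk * δ)) + 18 * K ^ 2 * kV * (K * δ) ^ 2 ≤
          8 * K ^ 2 * (kk * δ) + 2 * K ^ 2 * (kk * δ) := by
          have : 4 * K * (2 * (K * kk * δ)) = 8 * K ^ 2 * (kk * δ) := by ring
          linarith
      _ = _ := by ring
  have gR : |gr (jS R V.q z0 ρ H j T') y ![0, u, v]| ≤ 10 * K ^ 2 * (kk * δ) := by
    have := gr_inv qV (f := fr V.e V.w) (f' := fr R.e R.w) (V := V.c.v) (V' := R.c.v)
      (z := zj z0 ρ H j) (X := T'.pos (zj z0 ρ H j)) (ρ := ρ) (eV.trans eR.symm)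
    unfold jS at gV ⊢
    rw [← this]; exact gV
  obtain ⟨nt, nm⟩ := not_Nd.1 nd
  obtain ⟨hM, hlo⟩ := move1 (J1 := jS R R.q z0 ρ H j T') (J' := jS R V.q z0 ρ H j T') (y := y)
    (W := ![0, u, v]) (l := l) hK ω0 c3 oR kk0 c2 s0.le s1 l1 δ0 (hδ 19 (by norm_num)) bW gR nt a0
    dv.th dv.gm dv.h00
  have sV : (jS R V.q z0 ρ H j T').Sym := (jt_jet qV _ _ _ _ _).2
  have hsm : ∃ i i', k * s ≤ |th (jS R R.q z0 ρ H j T') (jS R V.q z0 ρ H j T') i i'| := by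
    unfold Sm at sm
    push Not at sm
    obtain ⟨i, i', h⟩ := sm
    exact ⟨i, i', h.le⟩
  have hMd := md_of hK kR0.le hM hlo oR.s oR.sy sV s0.le l0 m0 δ0 (hδ 19 (by norm_num)) nt nm hsm
  -- the changes of chart
  have t1 : ∀ q : ℝ → V3 → ℝ, IsQ q → sh (jS R q z0 ρ H j T') y ![0, u, v] =
      jt q (fr R.e R.w) R.c.v z (T.pos z) ρ := fun q hq => by
    have := jt_shift hq (fr R.e R.w) R.c.v z (T'.pos z) ρ y u v
    rw [eR, ← hTD] at this
    rw [this, hz]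
    rfl
  have t2 : ∀ q : ℝ → V3 → ℝ, IsQ q → pull 1 (tr U R ρ) (sh (jS R q z0 ρ H j T') y ![0, u, v]) =
      jS U q z0 ρ H j T := fun q hq => by
    rw [t1 q hq, ← jt_tr hq UR.o' UR.pos', hz]
    rfl
  have t3 : ∀ q : ℝ → V3 → ℝ, IsQ q → pull 1 (tr R U ρ) (pull 1 (tr U R ρ)
      (sh (jS R q z0 ρ H j T') y ![0, u, v])) = sh (jS R q z0 ρ H j T') y ![0, u, v] :=
    fun q hq => by
      rw [t2 q hq, t1 q hq]
      unfold jS
      rw [← jt_tr hq RU.o' RU.pos', hz]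
  have L1 := lb_of UR (fun i hi => UR.shear VR hρ i1 i2 i3 i4 i hi)
  have L2 := lb_of RU (fun i hi => RU.shear VU hρ i4 i3 i2 i1 i hi)
  have key := md_end hK ω0 r0 kR0.le c3 (c5.trans (by
      calc K * kk ≤ K * (K * U.w 0) := mul_le_mul_of_nonneg_left c4 hK0.le
        _ = K ^ 2 * U.w 0 := by ring)) s0 l0 m0 δ0 k1 hP hMd L1 L2 (by rw [t2 _ qR]; exact b0)
    (by rw [t2 _ qR]; exact bs) (t3 _ qR) (t3 _ qV)
  rw [t2 _ qR, t2 _ qV] at key
  exact key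

end Crest.Agent.R136.Chm862
end

-- ▼ part R136/Rk5_601
section

/-!
# R136 (U4, PLAN 2 (3) = (AL), leaf (E) = V6) in the literal of AlD_121 (helper601)

Base class `q0 = U t`, middle class `q1 = V t`, end class `q2 = U t'`, all jets at one point.
* `h6_rows`    : the rows of `th q0 q1` are small at the direction `v'` of `T'`.
* `line_delta` : the value of `th q2 q1` at the direction of a line of both sheets.
-/

set_option autoImplicit false

namespace Crest.Agent.R136.Rk601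

/-- **composition of the Hessians**, intrinsic error: `P = q2 - μ q1`, `μ = q2.a0 / q1.a0`; only the
mixed derivative of `P` in the direction of `q0`'s tangent space and the normal one enter. -/
theorem th_comp2 {q0 q1 q2 : Jt} {B1 B2 η : ℝ} (h0 : q0.a0 ≠ 0) (h1 : q1.a0 ≠ 0)
    (hη : ∀ i, |tg q0 q1 i| ≤ η * |q1.a0|)
    (hB1 : ∀ i, |(q2.h0 i - q2.a0 / q1.a0 * q1.h0 i) +
      (q2.h00 - q2.a0 / q1.a0 * q1.h00) * sl q0 i| ≤ B1)
    (hB2 : |q2.h00 - q2.a0 / q1.a0 * q1.h00| ≤ B2) (i j : Fin 3) :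
    |th q0 q2 i j - (q2.a0 / q1.a0 * th q0 q1 i j + th q1 q2 i j)| ≤ 2 * B1 * η + B2 * η ^ 2 := by
  have hB1' : 0 ≤ B1 := (abs_nonneg _).trans (hB1 0)
  have hB2' : 0 ≤ B2 := (abs_nonneg _).trans hB2
  have ha1 : 0 < |q1.a0| := abs_pos.2 h1
  have hη' : 0 ≤ η := by
    by_contra hc
    have h2 := (abs_nonneg _).trans (hη 0)
    nlinarith
  have hd : ∀ i, |sl q0 i - sl q1 i| ≤ η := fun i => by
    rw [sl_sub h0 h1, abs_div, div_le_iff₀ ha1]; exact hη i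
  have key : th q0 q2 i j - (q2.a0 / q1.a0 * th q0 q1 i j + th q1 q2 i j) =
      ((q2.h0 i - q2.a0 / q1.a0 * q1.h0 i) + (q2.h00 - q2.a0 / q1.a0 * q1.h00) * sl q0 i) *
          (sl q0 j - sl q1 j) +
        ((q2.h0 j - q2.a0 / q1.a0 * q1.h0 j) + (q2.h00 - q2.a0 / q1.a0 * q1.h00) * sl q0 j) *
          (sl q0 i - sl q1 i) +
        -((q2.h00 - q2.a0 / q1.a0 * q1.h00) * ((sl q0 i - sl q1 i) * (sl q0 j - sl q1 j))) := by
    have e : q2.a0 / q0.a0 = q2.a0 / q1.a0 * (q1.a0 / q0.a0) := by field_simp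
    simp only [th, lf]
    rw [e]
    ring
  rw [key]
  refine (abs_add_three _ _ _).trans ?_
  rw [abs_neg, abs_mul, abs_mul, abs_mul, abs_mul]
  have h2 := mul_le_mul (hB1 i) (hd j) (abs_nonneg _) hB1'
  have h3 := mul_le_mul (hB1 j) (hd i) (abs_nonneg _) hB1'
  have h4 := mul_le_mul hB2 (mul_le_mul (hd i) (hd j) (abs_nonneg _) hη') (by positivity) hB2'
  have e5 : 2 * B1 * η + B2 * η ^ 2 = B1 * η + B1 * η + B2 * (η * η) := by ring
  rw [e5]
  linarith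

/-- **V6 at one point** (no bound for the slopes is used). -/
theorem h6_rows {q0 q1 q2 : Jt} {v : Fin 3 → ℝ} {K m δ c B1 B2 η : ℝ} (hK : 1 ≤ K)
    (h0 : q0.a0 ≠ 0) (h2 : q2.a0 ≠ 0) (y0 : q0.Sym) (y1 : q1.Sym) (y2 : q2.Sym)
    (hμ : |q1.a0 / q2.a0| ≤ K) (hη : ∀ i, |tg q0 q2 i| ≤ η * |q2.a0|)
    (hB1 : ∀ i, |(q1.h0 i - q1.a0 / q2.a0 * q2.h0 i) +
      (q1.h00 - q1.a0 / q2.a0 * q2.h00) * sl q0 i| ≤ B1)
    (hB2 : |q1.h00 - q1.a0 / q2.a0 * q2.h00| ≤ B2) (hc : 0 ≤ c)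
    (herr : c * (2 * B1 * η + B2 * η ^ 2) ≤ m)
    (b1 : ∀ i j, c * |th q0 q1 i j| ≤ K) (b2 : ∀ i j, c * |th q2 q1 i j| ≤ K)
    (l1 : ∃ i j, 1 / K ≤ c * |th q0 q1 i j|) (l2 : ∃ i j, 1 / K ≤ c * |th q2 q1 i j|)
    (m1 : ∀ i j k l, c ^ 2 * |mn (th q0 q1) i j k l| ≤ m)
    (m2 : ∀ i j k l, c ^ 2 * |mn (th q2 q1) i j k l| ≤ m)
    (m3 : ∀ i j k l, c ^ 2 * |mn (th q0 q2) i j k l| ≤ m)
    (hm : m ≤ 1 / (4 * K ^ 4)) (hv : ∀ i, |v i| ≤ K) (hδ : c * |qf (th q2 q1) v| ≤ δ) (i : Fin 3) :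
    c * |∑ j, th q0 q1 i j * v j| ≤ 1000 * K ^ 6 * (Real.sqrt δ + Real.sqrt m) := by
  have hK0 : (0 : ℝ) < K := by linarith
  have hK2 : (1 : ℝ) ≤ K ^ 2 := one_le_pow₀ hK
  have hm0 : 0 ≤ m := (mul_nonneg (sq_nonneg c) (abs_nonneg _)).trans (m1 0 0 0 0)
  have hδ0 : 0 ≤ δ := (mul_nonneg hc (abs_nonneg _)).trans hδ
  have hmm : m ≤ K ^ 2 * m := le_mul_of_one_le_left hm0 hK2
  have hab : ∀ x : ℝ, |c * x| = c * |x| := fun x => by rw [abs_mul, abs_of_nonneg hc]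
  set μ := q1.a0 / q2.a0 with hμd
  obtain ⟨s, n, hs, hn, -, hsn, hnv⟩ := h6_alg (H1 := fun i j => c * th q0 q1 i j)
    (H2 := fun i j => -(c * th q2 q1 i j)) (H := fun i j => c * μ * th q0 q2 i j)
    (v := v) (K := K) (m := K ^ 2 * m) (δ := δ) hK
    (fun i j => by show c * th q0 q1 i j = c * th q0 q1 j i; rw [th_symm y0 y1])
    (fun i j => by show -(c * th q2 q1 i j) = -(c * th q2 q1 j i); rw [th_symm y2 y1])
    (fun i j => by show |c * th q0 q1 i j| ≤ K; rw [hab]; exact b1 i j)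
    (fun i j => by show |-(c * th q2 q1 i j)| ≤ K; rw [abs_neg, hab]; exact b2 i j)
    (by obtain ⟨i, j, h⟩ := l1; exact ⟨i, j, by show _ ≤ |c * th q0 q1 i j|; rw [hab]; exact h⟩)
    (by
      obtain ⟨i, j, h⟩ := l2
      exact ⟨i, j, by show _ ≤ |-(c * th q2 q1 i j)|; rw [abs_neg, hab]; exact h⟩)
    (fun i j k l => by
      rw [mn_smul, abs_mul, abs_of_nonneg (sq_nonneg c)]; exact (m1 i j k l).trans hmm)
    (fun i j k l => by
      have e : mn (fun i j => -(c * th q2 q1 i j)) i j k l = c ^ 2 * mn (th q2 q1) i j k l := by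
        unfold mn; ring
      rw [e, abs_mul, abs_of_nonneg (sq_nonneg c)]; exact (m2 i j k l).trans hmm)
    (fun i j k l => by
      rw [mn_smul, mul_pow, abs_mul, abs_mul, abs_of_nonneg (sq_nonneg c),
        abs_of_nonneg (sq_nonneg μ)]
      have h3 : μ ^ 2 ≤ K ^ 2 := by
        rw [← sq_abs μ]; exact pow_le_pow_left₀ (abs_nonneg _) hμ 2
      have h4 := m3 i j k l
      calc c ^ 2 * μ ^ 2 * |mn (th q0 q2) i j k l|
          = μ ^ 2 * (c ^ 2 * |mn (th q0 q2) i j k l|) := by ring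
        _ ≤ K ^ 2 * m := mul_le_mul h3 h4 (by positivity) (by positivity))
    (fun i j => by
      have e : c * μ * th q0 q2 i j - (c * th q0 q1 i j + -(c * th q2 q1 i j)) =
          c * (-(th q0 q1 i j - (μ * th q0 q2 i j + th q2 q1 i j))) := by ring
      show |c * μ * th q0 q2 i j - (c * th q0 q1 i j + -(c * th q2 q1 i j))| ≤ K ^ 2 * m
      rw [e, hab, abs_neg]
      exact ((mul_le_mul_of_nonneg_left (th_comp2 (q0 := q0) (q1 := q2) (q2 := q1) h0 h2 hη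
        hB1 hB2 i j) hc).trans herr).trans hmm)
    (by
      have h1 : K ^ 2 * m ≤ K ^ 2 * (1 / (4 * K ^ 4)) := mul_le_mul_of_nonneg_left hm (by positivity)
      have h2 : K ^ 2 * (1 / (4 * K ^ 4)) = 1 / (4 * K ^ 2) := by field_simp
      rw [h2] at h1; exact h1)
    hv
    (by
      have e : qf (fun i j => -(c * th q2 q1 i j)) v = c * (-(qf (th q2 q1) v)) := by
        unfold qf; simp only [Fin.sum_univ_three]; ring
      rw [e, hab, abs_neg]; exact hδ)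
  -- the row
  have hrow : c * |∑ j, th q0 q1 i j * v j| = |∑ j, (c * th q0 q1 i j) * v j| := by
    rw [← hab, Finset.mul_sum]
    congr 1
    exact Finset.sum_congr rfl fun j _ => by ring
  have hdec : ∑ j, (c * th q0 q1 i j) * v j =
      s * n i * dp n v + ∑ j, (c * th q0 q1 i j - s * n i * n j) * v j := by
    unfold dp
    rw [Finset.mul_sum, ← Finset.sum_add_distrib]
    exact Finset.sum_congr rfl fun j _ => by ring
  have hs' : |s| = 1 := by rcases hs with h | h <;> rw [h] <;> simp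
  have herr2 : |∑ j, (c * th q0 q1 i j - s * n i * n j) * v j| ≤ 3 * (2 * K * (K ^ 2 * m) * K) :=
    dp_le (n := fun j => c * th q0 q1 i j - s * n i * n j) (v := v) (fun j => hsn i j) hv
  have hsm : Real.sqrt (K ^ 2 * m) = K * Real.sqrt m := by
    rw [Real.sqrt_mul (by positivity), Real.sqrt_sq hK0.le]
  rw [hsm] at hnv
  have hsδ := Real.sqrt_nonneg δ
  have hsm0 := Real.sqrt_nonneg m
  have hsqm : Real.sqrt m ^ 2 = m := Real.sq_sqrt hm0
  have hm14 : m ≤ 1 / 4 := by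
    refine hm.trans ?_
    have : (1 : ℝ) ≤ K ^ 4 := one_le_pow₀ hK
    rw [div_le_div_iff₀ (by positivity) (by norm_num)]
    linarith
  have hmsq : m ≤ Real.sqrt m := by
    have h5 : Real.sqrt m ≤ 1 := Real.sqrt_le_one.2 (by linarith)
    calc m = Real.sqrt m * Real.sqrt m := by rw [← sq, hsqm]
      _ ≤ Real.sqrt m * 1 := mul_le_mul_of_nonneg_left h5 hsm0
      _ = Real.sqrt m := mul_one _
  rw [hrow, hdec]
  refine (abs_add_le _ _).trans ?_
  rw [abs_mul, abs_mul, hs', one_mul]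
  have h5 : |n i| * |dp n v| ≤ 2 * K * (300 * K ^ 4 * (Real.sqrt δ + K * Real.sqrt m)) :=
    mul_le_mul (hn i) hnv (abs_nonneg _) (by positivity)
  have p56 : K ^ 5 ≤ K ^ 6 := pow_le_pow_right₀ hK (by norm_num)
  have p46 : K ^ 4 ≤ K ^ 6 := pow_le_pow_right₀ hK (by norm_num)
  have e1 : 2 * K * (300 * K ^ 4 * (Real.sqrt δ + K * Real.sqrt m)) =
      600 * (K ^ 5 * Real.sqrt δ) + 600 * (K ^ 6 * Real.sqrt m) := by ring
  have e2 : 3 * (2 * K * (K ^ 2 * m) * K) = 6 * (K ^ 4 * m) := by ring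
  have e3 : 1000 * K ^ 6 * (Real.sqrt δ + Real.sqrt m) =
      1000 * (K ^ 6 * Real.sqrt δ) + 1000 * (K ^ 6 * Real.sqrt m) := by ring
  have f1 : K ^ 5 * Real.sqrt δ ≤ K ^ 6 * Real.sqrt δ := mul_le_mul_of_nonneg_right p56 hsδ
  have f2 : K ^ 4 * m ≤ K ^ 6 * Real.sqrt m := mul_le_mul p46 hmsq hm0 (by positivity)
  have f3 : 0 ≤ K ^ 6 * Real.sqrt δ := by positivity
  have f4 : 0 ≤ K ^ 6 * Real.sqrt m := by positivity
  rw [e1] at h5
  rw [e2] at herr2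
  rw [e3]
  linarith

/-- second derivative of a jet in the direction `(y; v)` -/
def d2 (J : Jt) (y : ℝ) (v : Fin 3 → ℝ) : ℝ := J.h00 * y ^ 2 + 2 * y * dp J.h0 v + qf J.h v

/-- the tangential Hessian on `v` = second derivative on the lift of `v` -/
theorem qf_th {q q' : Jt} (v : Fin 3 → ℝ) :
    qf (th q q') v = d2 q' (dp (sl q) v) v - q'.a0 / q.a0 * d2 q (dp (sl q) v) v := by
  unfold th lf d2 qf dp
  simp only [Fin.sum_univ_three]
  ring

/-- **a line of both sheets**: `(y; v)` = direction of `T'`; `q`, `q'` = jets of the two sheets at a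
point of (or near) the line. -/
theorem line_delta {q q' : Jt} {v : Fin 3 → ℝ} {y K B1 B2 a1 a2 : ℝ} (hK : 1 ≤ K)
    (h : q.a0 ≠ 0) (hμ : |q'.a0 / q.a0| ≤ K) (hv : ∀ i, |v i| ≤ K)
    (hB1 : ∀ i, |(q'.h0 i - q'.a0 / q.a0 * q.h0 i) +
      (q'.h00 - q'.a0 / q.a0 * q.h00) * sl q i| ≤ B1)
    (hB2 : |q'.h00 - q'.a0 / q.a0 * q.h00| ≤ B2)
    (d1 : |d2 q y v| ≤ a1) (d1' : |d2 q' y v| ≤ a1)
    (hl : |q.a0 * y + dp q.a v| ≤ a2 * |q.a0|) :
    |qf (th q q') v| ≤ 2 * K * a1 + 6 * K * B1 * a2 + B2 * a2 ^ 2 := by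
  have hK0 : (0 : ℝ) < K := by linarith
  have hB1' : 0 ≤ B1 := (abs_nonneg _).trans (hB1 0)
  have hB2' : 0 ≤ B2 := (abs_nonneg _).trans hB2
  have ha1 : 0 ≤ a1 := (abs_nonneg _).trans d1
  have hq : 0 < |q.a0| := abs_pos.2 h
  have hd : |dp (sl q) v - y| ≤ a2 := by
    have e : dp (sl q) v - y = -(q.a0 * y + dp q.a v) / q.a0 := by
      unfold dp sl; simp only [Fin.sum_univ_three]; field_simp; ring
    rw [e, abs_div, abs_neg, div_le_iff₀ hq]; exact hl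
  have ha2 : 0 ≤ a2 := (abs_nonneg _).trans hd
  have key : qf (th q q') v = (d2 q' y v - q'.a0 / q.a0 * d2 q y v) +
      2 * (dp (sl q) v - y) * dp (fun i => (q'.h0 i - q'.a0 / q.a0 * q.h0 i) +
        (q'.h00 - q'.a0 / q.a0 * q.h00) * sl q i) v +
      -((q'.h00 - q'.a0 / q.a0 * q.h00) * (dp (sl q) v - y) ^ 2) := by
    rw [qf_th]
    unfold d2 dp
    simp only [Fin.sum_univ_three]
    ring
  rw [key]
  refine (abs_add_three _ _ _).trans ?_
  have t1 : |d2 q' y v - q'.a0 / q.a0 * d2 q y v| ≤ a1 + K * a1 := by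
    refine (abs_sub _ _).trans ?_
    rw [abs_mul]
    exact add_le_add d1' (mul_le_mul hμ d1 (abs_nonneg _) hK0.le)
  have t2 : |2 * (dp (sl q) v - y) * dp (fun i => (q'.h0 i - q'.a0 / q.a0 * q.h0 i) +
        (q'.h00 - q'.a0 / q.a0 * q.h00) * sl q i) v| ≤ 2 * a2 * (3 * (B1 * K)) := by
    rw [abs_mul, abs_mul, abs_of_pos (by norm_num : (0 : ℝ) < 2)]
    exact mul_le_mul (mul_le_mul_of_nonneg_left hd (by norm_num)) (dp_le hB1 hv) (abs_nonneg _)
      (by positivity)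
  have t3 : |-((q'.h00 - q'.a0 / q.a0 * q.h00) * (dp (sl q) v - y) ^ 2)| ≤ B2 * a2 ^ 2 := by
    rw [abs_neg, abs_mul, abs_pow]
    exact mul_le_mul hB2 (pow_le_pow_left₀ (abs_nonneg _) hd 2) (by positivity) hB2'
  have e1 : a1 + K * a1 ≤ 2 * K * a1 := by nlinarith
  have e2 : 2 * a2 * (3 * (B1 * K)) = 6 * K * B1 * a2 := by ring
  linarith

end Crest.Agent.R136.Rk601
end

-- ▼ part R136/Rk6_601
section

/-!
# R136 (U4, PLAN 2 (3) = (AL), leaf (E) = V6), closing step, jets (helper601)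

`v6_close`: jets at one point `x` in the chart of `U t`: `q0` of `U t`, `q1` of `V t`, `q2` of `U t'`.
`ω` = thickness of the plank, `κ ω` = curvature extent, `s` = discrepancy, `v` = velocity of `T'`.
-/

set_option autoImplicit false

namespace Crest.Agent.R136.Rk601

open Crest.Agent.R136.Chm862 (gm df)

/-- `q1 - (q1.a0 / q2.a0) q2` is the difference of the two linearised functions over `q0` -/
theorem df_pair {q0 q1 q2 : Jt} (h0 : q0.a0 ≠ 0) (h2 : q2.a0 ≠ 0) :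
    (q1.h00 - q1.a0 / q2.a0 * q2.h00 = (df q0 q1).h00 - q1.a0 / q2.a0 * (df q0 q2).h00) ∧
    ∀ i, (q1.h0 i - q1.a0 / q2.a0 * q2.h0 i) +
      (q1.h00 - q1.a0 / q2.a0 * q2.h00) * sl q0 i =
      gm q0 (df q0 q1) i - q1.a0 / q2.a0 * gm q0 (df q0 q2) i := by
  constructor
  · simp only [df, Jt.addm]
    field_simp
    ring
  · intro i
    simp only [gm, df, Jt.addm]
    have e : q1.a0 / q2.a0 * (-(q2.a0 / q0.a0)) = -(q1.a0 / q0.a0) := by field_simp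
    linear_combination (q0.h0 i + sl q0 i * q0.h00) * e

set_option maxHeartbeats 1600000 in
/-- **V6, closing step** -/
theorem v6_close {q0 q1 q2 : Jt} {v : Fin 3 → ℝ} {y K ω κ s l m a h : ℝ} (hK : 1 ≤ K)
    (ω0 : 0 < ω) (κ0 : 0 < κ) (s0 : 0 < s) (l0 : 0 ≤ l) (a0 : 0 ≤ a) (h0' : 0 ≤ h)
    (hs : s ≤ K * (κ * ω)) (hh : h ≤ 1) (ha : a ≤ K * (κ * ω)) (h0 : q0.a0 ≠ 0)
    (h2 : ω / K ≤ |q2.a0|) (h1 : |q1.a0| ≤ K * ω)
    (y0 : q0.Sym) (y1 : q1.Sym) (y2 : q2.Sym)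
    (n1 : ∀ i, κ * |gm q0 (df q0 q1) i| ≤ K * s) (n1' : κ ^ 2 * |(df q0 q1).h00| ≤ K * s)
    (n2 : ∀ i, κ * |gm q0 (df q0 q2) i| ≤ K * s) (n2' : κ ^ 2 * |(df q0 q2).h00| ≤ K * s)
    (ht : ∀ i, |tg q0 q2 i| ≤ l * s) (b1 : ∀ i j, |th q0 q1 i j| ≤ K * s)
    (b2 : ∀ i j, |th q2 q1 i j| ≤ K * s) (l1 : ∃ i j, s ≤ K * |th q0 q1 i j|)
    (l2 : ∃ i j, s ≤ K * |th q2 q1 i j|) (m1 : ∀ i j k l, |mn (th q0 q1) i j k l| ≤ m * s ^ 2)
    (m2 : ∀ i j k l, |mn (th q2 q1) i j k l| ≤ m * s ^ 2)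
    (m3 : ∀ i j k l, |mn (th q0 q2) i j k l| ≤ m * s ^ 2) (hlm : 12 * K ^ 8 * l ≤ m)
    (hm : m ≤ 1 / (4 * K ^ 8)) (hv : ∀ i, |v i| ≤ K) (d1 : |d2 q2 y v| ≤ K * a)
    (d1' : |d2 q1 y v| ≤ K * a) (hl : |q2.a0 * y + dp q2.a v| ≤ K * (a + κ * ω * h)) (i : Fin 3) :
    |∑ j, th q0 q1 i j * v j| ≤
      s * (1000 * K ^ 12 * (Real.sqrt (100 * K ^ 10 * (a / s + a / (κ * ω) + h)) + Real.sqrt m)) := by
  have hK0 : (0 : ℝ) < K := by linarith
  have hKK : K ≤ K ^ 2 := by nlinarith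
  have hK2 : (1 : ℝ) ≤ K ^ 2 := one_le_pow₀ hK
  have hq2 : q2.a0 ≠ 0 := by
    intro hc
    rw [hc, abs_zero] at h2
    have : 0 < ω / K := by positivity
    linarith
  have hq2' : 0 < |q2.a0| := abs_pos.2 hq2
  obtain ⟨e1, e2⟩ := df_pair (q0 := q0) (q1 := q1) (q2 := q2) h0 hq2
  have hωq : ω ≤ K * |q2.a0| := by
    rw [div_le_iff₀ hK0] at h2; linarith
  -- the ratio
  have hμ : |q1.a0 / q2.a0| ≤ K ^ 2 := by
    rw [abs_div, div_le_iff₀ hq2']
    calc |q1.a0| ≤ K * ω := h1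
      _ ≤ K * (K * |q2.a0|) := mul_le_mul_of_nonneg_left hωq hK0.le
      _ = K ^ 2 * |q2.a0| := by ring
  -- the mixed and normal derivatives
  obtain ⟨B1, hB1⟩ : ∃ x : ℝ, x = 2 * K ^ 3 * (s / κ) := ⟨_, rfl⟩
  obtain ⟨B2, hB2⟩ : ∃ x : ℝ, x = 2 * K ^ 3 * (s / κ ^ 2) := ⟨_, rfl⟩
  have hdiv : ∀ x : ℝ, κ * |x| ≤ K * s → |x| ≤ K * (s / κ) := fun x hx => by
    rw [← mul_div_assoc, le_div_iff₀ κ0]; linarith
  have hdiv2 : ∀ x : ℝ, κ ^ 2 * |x| ≤ K * s → |x| ≤ K * (s / κ ^ 2) := fun x hx => by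
    rw [← mul_div_assoc, le_div_iff₀ (by positivity)]; linarith
  have hb1 : ∀ i, |(q1.h0 i - q1.a0 / q2.a0 * q2.h0 i) +
      (q1.h00 - q1.a0 / q2.a0 * q2.h00) * sl q0 i| ≤ B1 := fun i => by
    rw [e2 i]
    refine (abs_sub _ _).trans ?_
    rw [abs_mul]
    have g1 := hdiv _ (n1 i)
    have g2 := mul_le_mul hμ (hdiv _ (n2 i)) (abs_nonneg _) (by positivity)
    have g3 : K * (s / κ) ≤ K ^ 3 * (s / κ) :=
      mul_le_mul_of_nonneg_right (by nlinarith [pow_le_pow_right₀ hK (show 1 ≤ 3 by norm_num)])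
        (by positivity)
    calc _ ≤ K * (s / κ) + K ^ 2 * (K * (s / κ)) := add_le_add g1 g2
      _ = K * (s / κ) + K ^ 3 * (s / κ) := by ring
      _ ≤ B1 := by rw [hB1]; linarith
  have hb2 : |q1.h00 - q1.a0 / q2.a0 * q2.h00| ≤ B2 := by
    rw [e1]
    refine (abs_sub _ _).trans ?_
    rw [abs_mul]
    have g1 := hdiv2 _ n1'
    have g2 := mul_le_mul hμ (hdiv2 _ n2') (abs_nonneg _) (by positivity)
    have g3 : K * (s / κ ^ 2) ≤ K ^ 3 * (s / κ ^ 2) :=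
      mul_le_mul_of_nonneg_right (by nlinarith [pow_le_pow_right₀ hK (show 1 ≤ 3 by norm_num)])
        (by positivity)
    calc _ ≤ K * (s / κ ^ 2) + K ^ 2 * (K * (s / κ ^ 2)) := add_le_add g1 g2
      _ = K * (s / κ ^ 2) + K ^ 3 * (s / κ ^ 2) := by ring
      _ ≤ B2 := by rw [hB2]; linarith
  have hkω : 0 < κ * ω := by positivity
  -- slopes
  obtain ⟨η, hη⟩ : ∃ x : ℝ, x = K * l * s / ω := ⟨_, rfl⟩
  have hη' : ∀ i, |tg q0 q2 i| ≤ η * |q2.a0| := fun i => by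
    refine (ht i).trans ?_
    rw [hη, div_mul_eq_mul_div, le_div_iff₀ ω0]
    calc l * s * ω ≤ l * s * (K * |q2.a0|) := mul_le_mul_of_nonneg_left hωq (by positivity)
      _ = K * l * s * |q2.a0| := by ring
  have hm0 : 0 ≤ m := le_trans (by positivity) hlm
  have hl1 : l ≤ 1 := by
    have h5 : (1 : ℝ) ≤ K ^ 8 := one_le_pow₀ hK
    have h6 : 1 / (4 * K ^ 8) ≤ 1 := by
      rw [div_le_one (by positivity)]; linarith
    nlinarith
  have hsk : s / (κ * ω) ≤ K := by rw [div_le_iff₀ hkω]; exact hs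
  have hsk0 : 0 ≤ s / (κ * ω) := by positivity
  have herr : 1 / s * (2 * B1 * η + B2 * η ^ 2) ≤ m := by
    have e : 1 / s * (2 * B1 * η + B2 * η ^ 2) = 4 * K ^ 4 * l * (s / (κ * ω)) +
        2 * K ^ 5 * l ^ 2 * (s / (κ * ω)) ^ 2 := by
      rw [hB1, hB2, hη]; field_simp; ring
    rw [e]
    have g1 : 4 * K ^ 4 * l * (s / (κ * ω)) ≤ 4 * K ^ 4 * l * K :=
      mul_le_mul_of_nonneg_left hsk (by positivity)
    have g2 : 2 * K ^ 5 * l ^ 2 * (s / (κ * ω)) ^ 2 ≤ 2 * K ^ 5 * l * K ^ 2 := by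
      have g3 : (s / (κ * ω)) ^ 2 ≤ K ^ 2 := pow_le_pow_left₀ hsk0 hsk 2
      have g4 : l ^ 2 ≤ l := by nlinarith
      calc 2 * K ^ 5 * l ^ 2 * (s / (κ * ω)) ^ 2 ≤ 2 * K ^ 5 * l ^ 2 * K ^ 2 :=
            mul_le_mul_of_nonneg_left g3 (by positivity)
        _ ≤ 2 * K ^ 5 * l * K ^ 2 := by
            refine mul_le_mul_of_nonneg_right ?_ (by positivity)
            exact mul_le_mul_of_nonneg_left g4 (by positivity)
    have g5 : K ^ 5 * l ≤ K ^ 8 * l :=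
      mul_le_mul_of_nonneg_right (pow_le_pow_right₀ hK (by norm_num)) l0
    have g6 : K ^ 7 * l ≤ K ^ 8 * l :=
      mul_le_mul_of_nonneg_right (pow_le_pow_right₀ hK (by norm_num)) l0
    have g7 : 0 ≤ K ^ 8 * l := by positivity
    calc _ ≤ 4 * K ^ 4 * l * K + 2 * K ^ 5 * l * K ^ 2 := add_le_add g1 g2
      _ = 4 * (K ^ 5 * l) + 2 * (K ^ 7 * l) := by ring
      _ ≤ 12 * (K ^ 8 * l) := by linarith
      _ ≤ m := by linarith
  -- the line
  obtain ⟨a2, ha2⟩ : ∃ x : ℝ, x = K ^ 2 * (a + κ * ω * h) / ω := ⟨_, rfl⟩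
  have hline : |q2.a0 * y + dp q2.a v| ≤ a2 * |q2.a0| := by
    refine hl.trans ?_
    rw [ha2, div_mul_eq_mul_div, le_div_iff₀ ω0]
    calc K * (a + κ * ω * h) * ω ≤ K * (a + κ * ω * h) * (K * |q2.a0|) :=
          mul_le_mul_of_nonneg_left hωq (by positivity)
      _ = K ^ 2 * (a + κ * ω * h) * |q2.a0| := by ring
  have hv2 : ∀ i, |v i| ≤ K ^ 2 := fun i => (hv i).trans hKK
  -- th q2 q1 on v; the derivatives over q2 instead of q0
  have hd21 : ∀ i, |(q1.h0 i - q1.a0 / q2.a0 * q2.h0 i) +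
      (q1.h00 - q1.a0 / q2.a0 * q2.h00) * sl q2 i| ≤ 3 * K ^ 5 * (s / κ) := fun i => by
    have e : (q1.h0 i - q1.a0 / q2.a0 * q2.h0 i) +
        (q1.h00 - q1.a0 / q2.a0 * q2.h00) * sl q2 i =
        ((q1.h0 i - q1.a0 / q2.a0 * q2.h0 i) + (q1.h00 - q1.a0 / q2.a0 * q2.h00) * sl q0 i) +
        (q1.h00 - q1.a0 / q2.a0 * q2.h00) * -(sl q0 i - sl q2 i) := by ring
    rw [e]
    refine (abs_add_le _ _).trans ?_
    have hd : |sl q0 i - sl q2 i| ≤ η := by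
      rw [sl_sub h0 hq2, abs_div, div_le_iff₀ hq2']; exact hη' i
    rw [abs_mul, abs_neg]
    have g1 := mul_le_mul hb2 hd (abs_nonneg _) ((abs_nonneg _).trans hb2)
    have g2 : B2 * η = 2 * K ^ 4 * l * (s / (κ * ω)) * (s / κ) := by
      rw [hB2, hη]; field_simp
    have g3 : 2 * K ^ 4 * l * (s / (κ * ω)) * (s / κ) ≤ K ^ 5 * (s / κ) := by
      refine mul_le_mul_of_nonneg_right ?_ (by positivity)
      have hl2 : 2 * l ≤ 1 := by
        have h5 : (1 : ℝ) ≤ K ^ 8 := one_le_pow₀ hK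
        have h6 : 1 / (4 * K ^ 8) ≤ 1 := by
          rw [div_le_one (by positivity)]; linarith
        nlinarith
      calc 2 * K ^ 4 * l * (s / (κ * ω)) ≤ 2 * K ^ 4 * l * K :=
            mul_le_mul_of_nonneg_left hsk (by positivity)
        _ = K ^ 5 * (2 * l) := by ring
        _ ≤ K ^ 5 * 1 := mul_le_mul_of_nonneg_left hl2 (by positivity)
        _ = K ^ 5 := mul_one _
    have g4 : B1 ≤ 2 * K ^ 5 * (s / κ) := by
      rw [hB1]
      refine mul_le_mul_of_nonneg_right ?_ (by positivity)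
      have := pow_le_pow_right₀ hK (show 3 ≤ 5 by norm_num)
      linarith
    have g5 := hb1 i
    calc _ ≤ B1 + B2 * η := add_le_add g5 g1
      _ ≤ 2 * K ^ 5 * (s / κ) + K ^ 5 * (s / κ) := by rw [g2]; exact add_le_add g4 g3
      _ = 3 * K ^ 5 * (s / κ) := by ring
  have hδ0 := line_delta (q := q2) (q' := q1) (v := v) (y := y) (K := K ^ 2)
    (B1 := 3 * K ^ 5 * (s / κ)) (B2 := B2) (a1 := K * a) (a2 := a2) hK2 hq2 hμ hv2 hd21 hb2 d1 d1'
    hline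
  obtain ⟨δ, hδ⟩ : ∃ x : ℝ, x = 100 * K ^ 10 * (a / s + a / (κ * ω) + h) := ⟨_, rfl⟩
  have hakω : a / (κ * ω) ≤ K := by rw [div_le_iff₀ hkω]; exact ha
  have haK0 : 0 ≤ a / (κ * ω) := by positivity
  have hass : 0 ≤ a / s := by positivity
  have hδ1 : 1 / s * |qf (th q2 q1) v| ≤ δ := by
    have g0 : 1 / s * |qf (th q2 q1) v| ≤ 1 / s * (2 * K ^ 2 * (K * a) +
        6 * K ^ 2 * (3 * K ^ 5 * (s / κ)) * a2 + B2 * a2 ^ 2) :=
      mul_le_mul_of_nonneg_left hδ0 (by positivity)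
    have e : 1 / s * (2 * K ^ 2 * (K * a) + 6 * K ^ 2 * (3 * K ^ 5 * (s / κ)) * a2 + B2 * a2 ^ 2) =
        2 * K ^ 3 * (a / s) + 18 * K ^ 9 * (a / (κ * ω) + h) +
          2 * K ^ 7 * (a / (κ * ω) + h) ^ 2 := by
      rw [hB2, ha2]; field_simp; ring
    rw [e] at g0
    set x : ℝ := a / (κ * ω) + h with hx
    have hx0 : 0 ≤ x := by positivity
    have hx1 : x ≤ 2 * K := by linarith
    have g1 : 2 * K ^ 7 * x ^ 2 ≤ 4 * K ^ 8 * x := by
      have : x ^ 2 ≤ 2 * K * x := by nlinarith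
      calc 2 * K ^ 7 * x ^ 2 ≤ 2 * K ^ 7 * (2 * K * x) := mul_le_mul_of_nonneg_left this (by positivity)
        _ = 4 * K ^ 8 * x := by ring
    have p1 : K ^ 3 ≤ K ^ 10 := pow_le_pow_right₀ hK (by norm_num)
    have p2 : K ^ 9 ≤ K ^ 10 := pow_le_pow_right₀ hK (by norm_num)
    have p3 : K ^ 8 ≤ K ^ 10 := pow_le_pow_right₀ hK (by norm_num)
    have q1' : K ^ 3 * (a / s) ≤ K ^ 10 * (a / s) := mul_le_mul_of_nonneg_right p1 hass
    have q2' : K ^ 9 * x ≤ K ^ 10 * x := mul_le_mul_of_nonneg_right p2 hx0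
    have q3' : K ^ 8 * x ≤ K ^ 10 * x := mul_le_mul_of_nonneg_right p3 hx0
    have q4' : 0 ≤ K ^ 10 * (a / s) := by positivity
    have q5' : 0 ≤ K ^ 10 * x := by positivity
    have e5 : δ = 100 * (K ^ 10 * (a / s)) + 100 * (K ^ 10 * x) := by rw [hδ, hx]; ring
    rw [e5]
    linarith
  have hab : ∀ x : ℝ, 1 / s * |x| ≤ K → True := fun _ _ => trivial
  have hsc : ∀ x B : ℝ, |x| ≤ B * s → 1 / s * |x| ≤ B := fun x B hx => by
    rw [one_div_mul_eq_div, div_le_iff₀ s0]; exact hx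
  have hKM : K * s ≤ K ^ 2 * s := mul_le_mul_of_nonneg_right hKK s0.le
  have hmn : ∀ x : ℝ, |x| ≤ m * s ^ 2 → (1 / s) ^ 2 * |x| ≤ m := fun x hx => by
    rw [div_pow, one_pow, one_div_mul_eq_div, div_le_iff₀ (by positivity)]; exact hx
  have hlo : ∀ x : ℝ, s ≤ K * |x| → 1 / K ^ 2 ≤ 1 / s * |x| := fun x hx => by
    rw [one_div_mul_eq_div, div_le_div_iff₀ (by positivity) s0]
    calc 1 * s ≤ K * |x| := by linarith
      _ ≤ K ^ 2 * |x| := mul_le_mul_of_nonneg_right hKK (abs_nonneg _)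
      _ = |x| * K ^ 2 := by ring
  have fin := h6_rows (q0 := q0) (q1 := q1) (q2 := q2) (v := v) (K := K ^ 2) (m := m) (δ := δ)
    (c := 1 / s) (B1 := B1) (B2 := B2) (η := η) hK2 h0 hq2 y0 y1 y2 hμ hη' hb1 hb2 (by positivity)
    herr (fun i j => hsc _ _ ((b1 i j).trans hKM)) (fun i j => hsc _ _ ((b2 i j).trans hKM))
    (by obtain ⟨i, j, h⟩ := l1; exact ⟨i, j, hlo _ h⟩)
    (by obtain ⟨i, j, h⟩ := l2; exact ⟨i, j, hlo _ h⟩)
    (fun i j k l => hmn _ (m1 i j k l)) (fun i j k l => hmn _ (m2 i j k l))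
    (fun i j k l => hmn _ (m3 i j k l))
    (by
      refine hm.trans (le_of_eq ?_)
      ring)
    hv2 hδ1 i
  rw [one_div_mul_eq_div, div_le_iff₀ s0] at fin
  rw [← hδ]
  calc _ ≤ _ := fin
    _ = _ := by ring

end Crest.Agent.R136.Rk601
end

-- ▼ part R136/Rk7_601
section

/-!
# R136 (U4, PLAN 2 (3) = (AL), leaf (E) = V6), geometry of one line of two sheets (helper601)
-/

set_option autoImplicit false

namespace Crest.Agent.R136.Rk601

open Crest.Agent.R136.Sh605 Crest.Agent.R136.Tl102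
open Crest.Agent.R136.K4 (Plk4)
open Crest.Agent.R136.Tlt51 (Shp InP)
open Crest.Agent.R136.KapP335 (kapP kapP_eq)
open Crest.Agent.R136.Gbx862 (zj)
open Crest.Agent.R136.AlD601
open Crest.Agent.R136.Chm862 (gm df)

/-- quadratic function of one variable, bounded on an interval of length `1` -/
theorem quad_bd {c0 c1 c2 A ζ0 : ℝ} (h0 : 0 ≤ ζ0) (h1 : ζ0 ≤ 1)
    (h : ∀ ζ, 0 ≤ ζ0 + ζ → ζ0 + ζ ≤ 1 → |c0 + c1 * ζ + c2 * ζ ^ 2| ≤ A) :
    |c1| ≤ 10 * A ∧ |c2| ≤ 8 * A := by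
  have a0 := h (-ζ0) (by linarith) (by linarith)
  have a1 := h (1 / 2 - ζ0) (by linarith) (by linarith)
  have a2 := h (1 - ζ0) (by linarith) (by linarith)
  rw [abs_le] at a0 a1 a2
  have e1 : c2 / 2 = (c0 + c1 * (-ζ0) + c2 * (-ζ0) ^ 2) - 2 * (c0 + c1 * (1 / 2 - ζ0) +
      c2 * (1 / 2 - ζ0) ^ 2) + (c0 + c1 * (1 - ζ0) + c2 * (1 - ζ0) ^ 2) := by ring
  have e2 : c1 = (c0 + c1 * (1 - ζ0) + c2 * (1 - ζ0) ^ 2) -
      (c0 + c1 * (-ζ0) + c2 * (-ζ0) ^ 2) - c2 * (1 - 2 * ζ0) := by ring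
  have h2 : |c2| ≤ 8 * A := by
    rw [abs_le]; constructor <;> linarith [a0.1, a0.2, a1.1, a1.2, a2.1, a2.2]
  have h3 : |c2 * (1 - 2 * ζ0)| ≤ 8 * A := by
    rw [abs_mul]
    have h4 : |1 - 2 * ζ0| ≤ 1 := by rw [abs_le]; constructor <;> linarith
    calc |c2| * |1 - 2 * ζ0| ≤ |c2| * 1 := mul_le_mul_of_nonneg_left h4 (abs_nonneg _)
      _ ≤ 8 * A := by linarith
  refine ⟨?_, h2⟩
  rw [abs_le] at h3
  rw [abs_le]
  constructor <;> linarith [a0.1, a0.2, a2.1, a2.2, h3.1, h3.2]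

/-- values in a direction, in terms of the jet -/
theorem dir_jet {q : ℝ → V3 → ℝ} {f : Fin 3 → V3} {V : V3} {z : ℝ} {X : V3} {ρ : ℝ} {J : Jt}
    (h : JetAt q f V z X ρ J) {v' : V3} {y u1 v1 : ℝ}
    (hv : ρ • v' = ρ • V + cmb f ![y, u1, v1]) (ζ : ℝ) :
    q (z + ρ * ζ) (X + (ρ * ζ) • v') = q z X + ζ * (J.a0 * y + dp J.a ![1, u1, v1]) +
      ζ ^ 2 / 2 * d2 J y ![1, u1, v1] := by
  have h1 := jet_line h (T := ⟨X - z • v', v'⟩)
    (by funext i; simp only [Ln4.pos, Pi.sub_apply, Pi.smul_apply, smul_eq_mul]; ring) hv ζ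
  have e : (⟨X - z • v', v'⟩ : Ln4).pos (z + ρ * ζ) = X + (ρ * ζ) • v' := by
    funext i
    simp only [Ln4.pos, Pi.sub_apply, Pi.add_apply, Pi.smul_apply, smul_eq_mul]; ring
  rw [e] at h1
  exact h1

/-- a quadratic function along a line -/
theorem line_quad {q : ℝ → V3 → ℝ} (hq : IsQ q) (T : Ln4) (z ρ : ℝ) :
    ∃ c1 c2 : ℝ, ∀ ζ, q (z + ρ * ζ) (T.pos (z + ρ * ζ)) = q z (T.pos z) + c1 * ζ + c2 * ζ ^ 2 := by
  obtain ⟨J, -, hJ⟩ := exists_jet hq 0 T.v z (T.pos z) ρ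
  refine ⟨J.a 0, J.h 0 0 / 2, fun ζ => ?_⟩
  have h1 := hJ 0 ζ 0 0
  have e : T.pos z + (ρ * ζ) • T.v + cmb 0 ![0, 0, 0] = T.pos (z + ρ * ζ) := by
    funext i
    simp only [Ln4.pos, cmb, Pi.add_apply, Pi.smul_apply, smul_eq_mul, Pi.zero_apply]; ring
  rw [e] at h1
  rw [h1]
  simp only [dp, qf, Fin.sum_univ_three, Matrix.cons_val]
  ring

/-- values along a parallel of `T'`, from the expansion around `T'` -/
theorem par_line {q : ℝ → V3 → ℝ} {e : Fin 3 → V3} {w : V3} (he : Ortho e) (hw : ∀ k, w k ≠ 0)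
    {T' : Ln4} {z0 ρ : ℝ} {b0 b1 : V3} {G : QF} (hE : IsExp q e w T' z0 ρ b0 b1 G) (ζ0 ζ : ℝ)
    (X : V3) : q (z0 + ρ * ζ0 + ρ * ζ) (X + (ρ * ζ) • T'.v) =
      q (z0 + ρ * ζ0 + ρ * ζ) (T'.pos (z0 + ρ * ζ0 + ρ * ζ)) +
        w 0 * (Fq b0 b1 G ζ0 (pc e w T' (z0 + ρ * ζ0) X) +
          ζ * dt b1 (pc e w T' (z0 + ρ * ζ0) X)) := by
  have h1 := hE (ζ0 + ζ) (pc e w T' (z0 + ρ * ζ0) X)
  have e0 : z0 + ρ * (ζ0 + ζ) = z0 + ρ * ζ0 + ρ * ζ := by ring
  rw [e0] at h1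
  have e1 : T'.pos (z0 + ρ * ζ0 + ρ * ζ) + cmb (fr e w) (pc e w T' (z0 + ρ * ζ0) X) =
      X + (ρ * ζ) • T'.v := by
    have h2 := cmb_pc he hw T' (z0 + ρ * ζ0) X
    funext i
    have h3 := congrFun h2 i
    simp only [Pi.add_apply, Ln4.pos, Pi.smul_apply, smul_eq_mul] at h3 ⊢
    linear_combination h3
  rw [e1] at h1
  rw [h1]
  simp only [Fq, dt, bz]
  ring

/-- direction of `T'` in a chart, and the derivatives of `q` along `T'` at a point `X` -/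
theorem along {q : ℝ → V3 → ℝ} (hq : IsQ q) {e : Fin 3 → V3} {w : V3} (he : Ortho e)
    (hw : ∀ k, w k ≠ 0) {T' : Ln4} {z0 ρ : ℝ} {b0 b1 : V3} {G : QF}
    (hE : IsExp q e w T' z0 ρ b0 b1 G) {a ζ0 : ℝ} (h0 : 0 ≤ ζ0) (h1 : ζ0 ≤ 1)
    (ha : ∀ ζ, 0 ≤ ζ → ζ ≤ 1 → |q (z0 + ρ * ζ) (T'.pos (z0 + ρ * ζ))| ≤ a) (X : V3)
    {f : Fin 3 → V3} {V : V3} {J : Jt} (hJ : JetAt q f V (z0 + ρ * ζ0) X ρ J) {y u1 v1 : ℝ}
    (hv : ρ • T'.v = ρ • V + cmb f ![y, u1, v1]) :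
    |d2 J y ![1, u1, v1]| ≤ 16 * a ∧
      |(J.a0 * y + dp J.a ![1, u1, v1]) - w 0 * dt b1 (pc e w T' (z0 + ρ * ζ0) X)| ≤ 10 * a := by
  obtain ⟨c1, c2, hc⟩ := line_quad hq T' (z0 + ρ * ζ0) ρ
  obtain ⟨k1, k2⟩ := quad_bd (c0 := q (z0 + ρ * ζ0) (T'.pos (z0 + ρ * ζ0))) (c1 := c1) (c2 := c2)
    (A := a) h0 h1 (fun ζ g0 g1 => by
      rw [← hc ζ]
      have := ha (ζ0 + ζ) g0 g1
      have e0 : z0 + ρ * (ζ0 + ζ) = z0 + ρ * ζ0 + ρ * ζ := by ring
      rwa [e0] at this)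
  have key : ∀ ζ : ℝ, q (z0 + ρ * ζ0) X + ζ * (J.a0 * y + dp J.a ![1, u1, v1]) +
      ζ ^ 2 / 2 * d2 J y ![1, u1, v1] = (q (z0 + ρ * ζ0) (T'.pos (z0 + ρ * ζ0)) + c1 * ζ +
        c2 * ζ ^ 2) + w 0 * (Fq b0 b1 G ζ0 (pc e w T' (z0 + ρ * ζ0) X) +
          ζ * dt b1 (pc e w T' (z0 + ρ * ζ0) X)) := fun ζ => by
    rw [← dir_jet hJ hv ζ, par_line he hw hE ζ0 ζ X, hc ζ]
  have p := key 1
  have n := key (-1)
  have o := key 0
  have e2 : d2 J y ![1, u1, v1] = 2 * c2 := by linarith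
  have e3 : (J.a0 * y + dp J.a ![1, u1, v1]) - w 0 * dt b1 (pc e w T' (z0 + ρ * ζ0) X) = c1 := by
    linarith
  rw [e2, e3, abs_mul, abs_of_pos (by norm_num : (0 : ℝ) < 2)]
  exact ⟨by linarith, k1⟩

/-- **derivative of the sheet's function along `T'` at a point `X` of the sheet near `T'`** -/
theorem along_near {q : ℝ → V3 → ℝ} {e : Fin 3 → V3} {c : Ln4} {w : V3} {z0 ρ : ℝ}
    (S : StP e c w q z0 ρ) (hρ : 0 ≤ ρ) {T' : Ln4}
    (hT : ∀ z, z0 ≤ z → z ≤ z0 + ρ → InK e c w z (T'.pos z)) {b0 b1 : V3} {G : QF}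
    (hE : IsExp q e w T' z0 ρ b0 b1 G) {a ζ0 : ℝ} (h0 : 0 ≤ ζ0) (h1 : ζ0 ≤ 1)
    (ha : ∀ ζ, 0 ≤ ζ → ζ ≤ 1 → |q (z0 + ρ * ζ) (T'.pos (z0 + ρ * ζ))| ≤ a) {X : V3}
    (hX : InK e c w (z0 + ρ * ζ0) X) (hXa : |q (z0 + ρ * ζ0) X| ≤ a) {h : ℝ} (hh : h ≤ 1 / 8)
    (x1 : |pc e w T' (z0 + ρ * ζ0) X 1| ≤ h) (x2 : |pc e w T' (z0 + ρ * ζ0) X 2| ≤ h)
    {f : Fin 3 → V3} {V : V3} {J : Jt} (hJ : JetAt q f V (z0 + ρ * ζ0) X ρ J) {y u1 v1 : ℝ}
    (hv : ρ • T'.v = ρ • V + cmb f ![y, u1, v1]) :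
    |J.a0 * y + dp J.a ![1, u1, v1]| ≤ 16 * a + 10 * (h * (w 0 * kap b0 b1 G)) := by
  have hwne : ∀ i, w i ≠ 0 := fun i => (S.pos i).ne'
  have hw0 := S.pos 0
  obtain ⟨-, k1⟩ := along S.isQ S.ortho hwne hE h0 h1 ha X hJ hv
  have N := hE.nrmC S hρ hT
  obtain ⟨-, -, -, -, b10, -, -, -, -⟩ := N.b1_le
  have hh0 : 0 ≤ h := (abs_nonneg _).trans x1
  have hy := yc_le S hρ hT hE h0 h1 hX hh x1 x2
  have hTa := ha ζ0 h0 h1
  set x := pc e w T' (z0 + ρ * ζ0) X with hx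
  have hκ := kap_nonneg b0 b1 G
  have m1 : |shB1 b0 b1 1| ≤ kap b0 b1 G := le_max_of_le_left (le_max_left _ _)
  have m2 : |shB1 b0 b1 2| ≤ kap b0 b1 G := le_max_of_le_left (le_max_right _ _)
  have e1 : dt b1 x = b1 0 * yc b0 x + shB1 b0 b1 1 * x 1 + shB1 b0 b1 2 * x 2 := by
    simp only [dt, yc, shB1, Matrix.cons_val]; ring
  have t1 : |b1 0 * yc b0 x| ≤ 3 / 2 * |yc b0 x| := by
    rw [abs_mul]; exact mul_le_mul_of_nonneg_right b10 (abs_nonneg _)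
  have t2 : |shB1 b0 b1 1 * x 1| ≤ kap b0 b1 G * h := by
    rw [abs_mul]; exact mul_le_mul m1 x1 (abs_nonneg _) hκ
  have t3 : |shB1 b0 b1 2 * x 2| ≤ kap b0 b1 G * h := by
    rw [abs_mul]; exact mul_le_mul m2 x2 (abs_nonneg _) hκ
  have t4 : |dt b1 x| ≤ 3 / 2 * |yc b0 x| + 2 * (kap b0 b1 G * h) := by
    rw [e1]
    refine (abs_add_three _ _ _).trans ?_
    linarith
  have t5 : |w 0 * dt b1 x| ≤ 6 * a + 10 * (h * (w 0 * kap b0 b1 G)) := by
    rw [abs_mul, abs_of_pos hw0]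
    have h5 := mul_le_mul_of_nonneg_left t4 hw0.le
    have h6 : w 0 * (3 / 2 * |yc b0 x| + 2 * (kap b0 b1 G * h)) =
        3 / 2 * (w 0 * |yc b0 x|) + 2 * (h * (w 0 * kap b0 b1 G)) := by ring
    have h7 : 5 * h * (w 0 * kap b0 b1 G) = 5 * (h * (w 0 * kap b0 b1 G)) := by ring
    have h8 : 0 ≤ h * (w 0 * kap b0 b1 G) := by positivity
    rw [h7] at hy
    rw [h6] at h5
    linarith
  have e6 : J.a0 * y + dp J.a ![1, u1, v1] = (J.a0 * y + dp J.a ![1, u1, v1] - w 0 * dt b1 x) +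
      w 0 * dt b1 x := by ring
  rw [e6]
  refine (abs_add_le _ _).trans ?_
  linarith

/-- the direction of `T'` in the chart of `S` -/
theorem dir_vS {S : Plk4} (he : Ortho S.e) (hw : ∀ k, S.w k ≠ 0) (ρ : ℝ) (T' : Ln4) :
    ρ • T'.v = ρ • S.c.v + cmb (fr S.e S.w)
      ![ρ * dt (S.e 0) (T'.v - S.c.v) / S.w 0, vS S ρ T' 1, vS S ρ T' 2] := by
  funext i
  have h1 := he.expand (T'.v - S.c.v) i
  have e0 : ρ * dt (S.e 0) (T'.v - S.c.v) / S.w 0 * (S.w 0 * S.e 0 i) =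
      ρ * (dt (S.e 0) (T'.v - S.c.v) * S.e 0 i) := by field_simp [hw 0]
  have e1 : ρ * dt (S.e 1) (T'.v - S.c.v) / S.w 1 * (S.w 1 * S.e 1 i) =
      ρ * (dt (S.e 1) (T'.v - S.c.v) * S.e 1 i) := by field_simp [hw 1]
  have e2 : ρ * dt (S.e 2) (T'.v - S.c.v) / S.w 2 * (S.w 2 * S.e 2 i) =
      ρ * (dt (S.e 2) (T'.v - S.c.v) * S.e 2 i) := by field_simp [hw 2]
  simp only [Pi.add_apply, Pi.smul_apply, smul_eq_mul, cmb, fr, vS, Matrix.cons_val]
  rw [e0, e1, e2]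
  simp only [Pi.sub_apply] at h1
  linear_combination ρ * h1

theorem vS_eq (S : Plk4) (ρ : ℝ) (T' : Ln4) :
    (![1, vS S ρ T' 1, vS S ρ T' 2] : Fin 3 → ℝ) = vS S ρ T' := by
  funext i; fin_cases i <;> rfl

end Crest.Agent.R136.Rk601
end

-- ▼ part R136/V6p_467
section

/-!
# R136 (S0187), PLAN 2 (AL), leaf V6 at one pair of lines (helper467, second of 601)

`U`, `V`, `R` : three sheets, `T ∈ U ∩ V`, `T' ∈ V ∩ R`; jets at the point of `T` in the chart of `U`.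
-/

set_option autoImplicit false

namespace Crest.Agent.R136.V6p467

open Crest.Agent.R136.Sh605 Crest.Agent.R136.Tl102
open Crest.Agent.R136.K4 (Plk4)
open Crest.Agent.R136.Tlt51 (Shp InP)
open Crest.Agent.R136.Deep51 (CloseC)
open Crest.Agent.R136.KapP335 (kapP kapP_eq)
open Crest.Agent.R136.Gbx862 (zj)
open Crest.Agent.R136.Rk601
open Crest.Agent.R136.AlD601
open Crest.Agent.R136.Hcp208 (Nr)
open Crest.Agent.R136.Chm862 (gm df Tr co vel_InP co_add co_smul)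
open Crest.Agent.R136.Adj214 (KD KD_pos KD_one)

theorem zj_eq (z0 ρ : ℝ) (H j : ℕ) : zj z0 ρ H j = z0 + ρ * ((j : ℝ) / H) := rfl

theorem ratio_mem {H j : ℕ} (hj : j ≤ H) : (0 : ℝ) ≤ (j : ℝ) / H ∧ (j : ℝ) / H ≤ 1 := by
  refine ⟨by positivity, ?_⟩
  rcases Nat.eq_zero_or_pos H with h | h
  · rw [h]; simp
  · rw [div_le_one (by exact_mod_cast h)]; exact_mod_cast hj

/-- velocity of a line of `V` in the chart of `U` -/
theorem vS_le {U V : Plk4} {T T' : Ln4} {z0 ρ K : ℝ} (H : Tr K V U) (hρ : 0 ≤ ρ)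
    (h1 : InP T U z0 ρ) (h2 : InP T V z0 ρ) (h3 : InP T' V z0 ρ) (i : Fin 3) :
    |vS U ρ T' i| ≤ 14 * K := by
  have hK := H.K1
  have key : ∀ k : Fin 3, k ≠ 0 → |co U.e U.w (ρ • (T'.v - U.c.v)) k| ≤ 14 * K := by
    intro k hk
    have e : co U.e U.w (ρ • (T'.v - U.c.v)) k = co U.e U.w (ρ • (T'.v - V.c.v)) k +
        -co U.e U.w (ρ • (T.v - V.c.v)) k + co U.e U.w (ρ • (T.v - U.c.v)) k := by
      simp only [co, dt, Pi.smul_apply, Pi.sub_apply, smul_eq_mul]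
      ring
    have b1 := H.box (vel_InP hρ h3) k hk
    have b2 := H.box (vel_InP hρ h2) k hk
    have b3 : |co U.e U.w (ρ • (T.v - U.c.v)) k| ≤ 2 := by
      have pk := H.pos' k
      unfold co
      rw [abs_div, abs_of_pos pk, div_le_iff₀ pk]
      exact vel_InP hρ h1 k
    rw [e]
    rw [abs_le] at *
    constructor <;> linarith [b1.1, b1.2, b2.1, b2.2, b3.1, b3.2]
  have e1 : ∀ k : Fin 3, ρ * dt (U.e k) (T'.v - U.c.v) / U.w k =
      co U.e U.w (ρ • (T'.v - U.c.v)) k := by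
    intro k
    simp only [co, dt, Pi.smul_apply, Pi.sub_apply, smul_eq_mul]
    ring
  fin_cases i
  · show |(1 : ℝ)| ≤ _
    rw [abs_one]; linarith
  · show |ρ * dt (U.e 1) (T'.v - U.c.v) / U.w 1| ≤ _
    rw [e1]; exact key 1 (by decide)
  · show |ρ * dt (U.e 2) (T'.v - U.c.v) / U.w 2| ≤ _
    rw [e1]; exact key 2 (by decide)

/-- second derivative of a sheet function along one of its lines, in any chart -/
theorem d2_le {U R : Plk4} {T T' : Ln4} {z0 ρ r : ℝ} {H j : ℕ} (hr : 0 < r) (hρ : 0 ≤ ρ)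
    (hU : Shp U z0 ρ r) (hR : Shp R z0 ρ r) (hT' : InP T' R z0 ρ) (hj : j ≤ H) :
    |d2 (jS U R.q z0 ρ H j T) (ρ * dt (U.e 0) (T'.v - U.c.v) / U.w 0) (vS U ρ T')| ≤
      16 * R.a := by
  have w0 : 0 < U.w 0 := hr.trans_le (hU.r0_le.trans hU.a_le0)
  have w0' : 0 < R.w 0 := hr.trans_le (hR.r0_le.trans hR.a_le0)
  have SP := StP.of_shN hU w0
  have SP' := StP.of_shN hR w0'
  obtain ⟨b0, b1, G, hE⟩ := exists_isExp hR.isQ R.e w0'.ne' T' z0 ρ
  obtain ⟨z1, z2⟩ := ratio_mem hj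
  have hJ := (jt_jet hR.isQ (fr U.e U.w) U.c.v (zj z0 ρ H j) (T.pos (zj z0 ρ H j)) ρ).1
  have h := along hR.isQ hR.ortho (fun k => (SP'.pos k).ne') hE z1 z2 (a := R.a)
    (fun ζ g0 g1 => (hT' _ (by nlinarith) (by nlinarith)).2) (T.pos (zj z0 ρ H j)) hJ
    (dir_vS SP.ortho (fun k => (SP.pos k).ne') ρ T')
  rw [vS_eq] at h
  exact h.1

/-- derivative of the middle sheet's function in the direction of `T'` at the point of `T` -/
theorem d1_le {U V : Plk4} {T T' : Ln4} {z0 ρ r h : ℝ} {H j : ℕ} (hr : 0 < r) (hρ : 0 ≤ ρ)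
    (hU : Shp U z0 ρ r) (hV : Shp V z0 ρ r) (hT : InP T V z0 ρ) (hT' : InP T' V z0 ρ)
    (hj : j ≤ H) (hh : h ≤ 1 / 8) (hn : Nr V h (zj z0 ρ H j) T T') :
    |(jS U V.q z0 ρ H j T).a0 * (ρ * dt (U.e 0) (T'.v - U.c.v) / U.w 0) +
      dp (jS U V.q z0 ρ H j T).a (vS U ρ T')| ≤ 16 * V.a + 10 * (h * kapP V z0 ρ T') := by
  have w0 : 0 < U.w 0 := hr.trans_le (hU.r0_le.trans hU.a_le0)
  have w0' : 0 < V.w 0 := hr.trans_le (hV.r0_le.trans hV.a_le0)
  have SP := StP.of_shN hU w0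
  have SP' := StP.of_shN hV w0'
  obtain ⟨b0, b1, G, hE⟩ := exists_isExp hV.isQ V.e w0'.ne' T' z0 ρ
  obtain ⟨z1, z2⟩ := ratio_mem hj
  have hJ := (jt_jet hV.isQ (fr U.e U.w) U.c.v (zj z0 ρ H j) (T.pos (zj z0 ρ H j)) ρ).1
  have zm1 : z0 ≤ zj z0 ρ H j := by rw [zj_eq]; nlinarith
  have zm2 : zj z0 ρ H j ≤ z0 + ρ := by rw [zj_eq]; nlinarith
  have hX := hT _ zm1 zm2
  have p1 : |pc V.e V.w T' (z0 + ρ * ((j : ℝ) / H)) (T.pos (zj z0 ρ H j)) 1| ≤ h := by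
    have p := SP'.pos 1
    show |dt (V.e 1) (T.pos (zj z0 ρ H j) - T'.pos (zj z0 ρ H j)) / V.w 1| ≤ h
    rw [abs_div, abs_of_pos p, div_le_iff₀ p]
    exact hn.1
  have p2 : |pc V.e V.w T' (z0 + ρ * ((j : ℝ) / H)) (T.pos (zj z0 ρ H j)) 2| ≤ h := by
    have p := SP'.pos 2
    show |dt (V.e 2) (T.pos (zj z0 ρ H j) - T'.pos (zj z0 ρ H j)) / V.w 2| ≤ h
    rw [abs_div, abs_of_pos p, div_le_iff₀ p]
    exact hn.2
  have hk := along_near SP' hρ (fun z g0 g1 => (hT' z g0 g1).1) hE z1 z2 (a := V.a)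
    (fun ζ g0 g1 => (hT' _ (by nlinarith) (by nlinarith)).2) (X := T.pos (zj z0 ρ H j))
    hX.1 hX.2 hh p1 p2 hJ (dir_vS SP.ortho (fun k => (SP.pos k).ne') ρ T')
  rw [vS_eq] at hk
  rw [kapP_eq w0'.ne' hE]
  exact hk

/-- data at the point of `T` for the pair `R`, `V` (moved from `T'`) -/
structure Mvd (U V R : Plk4) (z0 ρ : ℝ) (H j : ℕ) (T T' : Ln4) (K l m h s : ℝ) : Prop where
  b2 : ∀ i i', |th (jS U R.q z0 ρ H j T) (jS U V.q z0 ρ H j T) i i'| ≤ K * s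
  l2 : ∃ i i', s ≤ K * |th (jS U R.q z0 ρ H j T) (jS U V.q z0 ρ H j T) i i'|
  m2 : ∀ i i' k k', |mn (th (jS U R.q z0 ρ H j T) (jS U V.q z0 ρ H j T)) i i' k k'| ≤
    K * (l + m + h) * s ^ 2
  t2 : ∀ i, |tg (jS U R.q z0 ρ H j T) (jS U V.q z0 ρ H j T) i| ≤ K * (l + h) * s

end Crest.Agent.R136.V6p467
end

-- ▼ part R136/A0r_467
section

/-!
# R136 (S0187), PLAN 2 (AL), leaf V6: the end sheet at the point of `T` (helper467)

* `near_box` : the point of `T` at the height `j` lies in the `3/2`-box of `R` (`T' ∈ V ∩ R` near `T ∈ V`).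
* `a0_gen`   : size of the normal derivative in the chart of `U` if the tangential gradient is small.
-/

set_option autoImplicit false

namespace Crest.Agent.R136.V6p467

open Crest.Agent.R136.Sh605 Crest.Agent.R136.Tl102
open Crest.Agent.R136.K4 (Plk4)
open Crest.Agent.R136.Tlt51 (Shp InP)
open Crest.Agent.R136.Deep51 (CloseC)
open Crest.Agent.R136.KapP335 (kapP kapP_eq)
open Crest.Agent.R136.Gbx862 (zj)
open Crest.Agent.R136.Rk601
open Crest.Agent.R136.AlD601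
open Crest.Agent.R136.Hcp208 (Nr)
open Crest.Agent.R136.Chm862 (gm df Tr co)
open Crest.Agent.R136.Adj214 (KD KD_pos KD_one)

/-- displacement of two near lines of `V` in the frame of `V` -/
theorem disp_V {V : Plk4} {T T' : Ln4} {z0 ρ r h m : ℝ} {H j : ℕ} (hr : 0 < r) (hρ : 0 ≤ ρ)
    (hV : Shp V z0 ρ r) (hT : InP T V z0 ρ) (hT' : InP T' V z0 ρ) (hj : j ≤ H) (hh : h ≤ 1 / 8)
    (hn : Nr V h (zj z0 ρ H j) T T') (hm : 4 * V.a + 69 * h * V.w 0 ≤ m * V.w 0) (hhm : h ≤ m)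
    (i : Fin 3) :
    |dt (V.e i) (T.pos (zj z0 ρ H j) - T'.pos (zj z0 ρ H j))| ≤ m * V.w i := by
  have w0 : 0 < V.w 0 := hr.trans_le (hV.r0_le.trans hV.a_le0)
  have SP := StP.of_shN hV w0
  obtain ⟨b0, b1, G, hE⟩ := exists_isExp hV.isQ V.e w0.ne' T' z0 ρ
  obtain ⟨z1, z2⟩ := ratio_mem hj
  have zm1 : z0 ≤ zj z0 ρ H j := by rw [zj_eq]; nlinarith
  have zm2 : zj z0 ρ H j ≤ z0 + ρ := by rw [zj_eq]; nlinarith
  have hX := hT _ zm1 zm2
  have hX' := hT' _ zm1 zm2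
  have N := hE.nrmC SP hρ (fun z g0 g1 => (hT' z g0 g1).1)
  obtain ⟨-, -, -, -, -, -, -, s1, s2⟩ := N.b1_le
  have p1 : |pc V.e V.w T' (z0 + ρ * ((j : ℝ) / H)) (T.pos (zj z0 ρ H j)) 1| ≤ h := by
    have p := SP.pos 1
    show |dt (V.e 1) (T.pos (zj z0 ρ H j) - T'.pos (zj z0 ρ H j)) / V.w 1| ≤ h
    rw [abs_div, abs_of_pos p, div_le_iff₀ p]
    exact hn.1
  have p2 : |pc V.e V.w T' (z0 + ρ * ((j : ℝ) / H)) (T.pos (zj z0 ρ H j)) 2| ≤ h := by
    have p := SP.pos 2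
    show |dt (V.e 2) (T.pos (zj z0 ρ H j) - T'.pos (zj z0 ρ H j)) / V.w 2| ≤ h
    rw [abs_div, abs_of_pos p, div_le_iff₀ p]
    exact hn.2
  have hy := yc_le SP hρ (fun z g0 g1 => (hT' z g0 g1).1) hE z1 z2
    (X := T.pos (zj z0 ρ H j)) hX.1 hh p1 p2
  have hqx : |V.q (z0 + ρ * ((j : ℝ) / H)) (T.pos (zj z0 ρ H j))| ≤ V.a := hX.2
  have hqt : |V.q (z0 + ρ * ((j : ℝ) / H)) (T'.pos (z0 + ρ * ((j : ℝ) / H)))| ≤ V.a := hX'.2
  have hk : V.w 0 * kap b0 b1 G ≤ 13 * V.w 0 := by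
    have := kap_le N
    nlinarith
  have h0 : 0 ≤ h := (abs_nonneg _).trans p1
  set x := pc V.e V.w T' (z0 + ρ * ((j : ℝ) / H)) (T.pos (zj z0 ρ H j)) with hx
  have ex : x 0 = yc b0 x + -(b0 1 / b0 0 * x 1) + -(b0 2 / b0 0 * x 2) := by
    simp only [yc]; ring
  have hx0 : |x 0| ≤ |yc b0 x| + 4 * h := by
    rw [ex]
    refine (abs_add_three _ _ _).trans ?_
    rw [abs_neg, abs_neg, abs_mul, abs_mul]
    have t1 := mul_le_mul s1 p1 (abs_nonneg _) (by norm_num : (0:ℝ) ≤ 2)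
    have t2 := mul_le_mul s2 p2 (abs_nonneg _) (by norm_num : (0:ℝ) ≤ 2)
    linarith
  have e0 : |dt (V.e 0) (T.pos (zj z0 ρ H j) - T'.pos (zj z0 ρ H j))| = |x 0| * V.w 0 := by
    have : x 0 = dt (V.e 0) (T.pos (zj z0 ρ H j) - T'.pos (zj z0 ρ H j)) / V.w 0 := rfl
    rw [this, abs_div, abs_of_pos w0, div_mul_cancel₀ _ w0.ne']
  fin_cases i
  · show |dt (V.e 0) _| ≤ m * V.w 0
    rw [e0]
    have g1 := mul_le_mul_of_nonneg_right hx0 w0.le
    have g2 : 5 * h * (V.w 0 * kap b0 b1 G) ≤ 5 * h * (13 * V.w 0) :=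
      mul_le_mul_of_nonneg_left hk (by positivity)
    nlinarith
  · show |dt (V.e 1) _| ≤ m * V.w 1
    exact hn.1.trans (mul_le_mul_of_nonneg_right hhm (SP.pos 1).le)
  · show |dt (V.e 2) _| ≤ m * V.w 2
    exact hn.2.trans (mul_le_mul_of_nonneg_right hhm (SP.pos 2).le)

/-- **the point of `T` in the box of `R`** -/
theorem near_box {V R : Plk4} {T T' : Ln4} {z0 ρ r h m K M Λ : ℝ} {H j : ℕ} (hr : 0 < r)
    (hρ : 0 < ρ) (hK : 1 ≤ K) (hV : Shp V z0 ρ r) (hR : Shp R z0 ρ r) (hT : InP T V z0 ρ)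
    (hT' : InP T' V z0 ρ) (hTR : InP T' R z0 ρ) (hj : j ≤ H) (hh : h ≤ 1 / 8)
    (hn : Nr V h (zj z0 ρ H j) T T') (hm : 4 * V.a + 69 * h * V.w 0 ≤ m * V.w 0) (hhm : h ≤ m)
    (tr : Tr K V R) (hk : 10 ^ 6 * V.a ≤ kapP V z0 ρ T')
    (hC : CloseC V.e V.w V.q V.a R.q Λ T' z0 ρ) (hΛ : 0 ≤ Λ) (hΛk : Λ ≤ 2 * K * kapP V z0 ρ T')
    (hkR : kapP V z0 ρ T' ≤ K * R.w 0)
    (hM : 512 * ((V.a + V.a) / kapP V z0 ρ T') + 1280 * h ≤ M) (hM1 : 10 ^ 5 * KD * K ^ 2 * M ≤ 1)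
    (hm1 : 48 * K * m ≤ 1) (i : Fin 3) :
    |dt (R.e i) (T.pos (zj z0 ρ H j) - T'.pos (zj z0 ρ H j))| ≤ 1 / 2 * R.w i := by
  obtain ⟨z1, z2⟩ := ratio_mem hj
  have zm1 : z0 ≤ zj z0 ρ H j := by rw [zj_eq]; nlinarith
  have zm2 : zj z0 ρ H j ≤ z0 + ρ := by rw [zj_eq]; nlinarith
  have hX := hT _ zm1 zm2
  have wV : ∀ i, 0 < V.w i := tr.pos
  have wR : ∀ i, 0 < R.w i := tr.pos'
  have hD := disp_V hr hρ.le hV hT hT' hj hh hn hm hhm
  have hlat : ∀ k : Fin 3, k ≠ 0 →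
      |dt (R.e k) (T.pos (zj z0 ρ H j) - T'.pos (zj z0 ρ H j))| ≤ 3 * (K * m) * R.w k := by
    intro k hk
    have h1 := tr.box hD k hk
    unfold co at h1
    rw [abs_div, abs_of_pos (wR k), div_le_iff₀ (wR k)] at h1
    exact h1
  have KDp := KD_pos
  have KD1 := KD_one
  have hkp : 0 < kapP V z0 ρ T' := by
    have : 0 < 10 ^ 6 * V.a := by have := hr.trans_le hV.r0_le; positivity
    linarith
  have ha0 : 0 < V.a := hr.trans_le hV.r0_le
  have hh0 : 0 ≤ h := by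
    have h1 := (abs_nonneg _).trans hn.1
    have h2 := wV 1
    by_contra hc
    push Not at hc
    have := mul_neg_of_neg_of_pos hc h2
    linarith
  have hM0 : 0 ≤ M := le_trans (by positivity) hM
  have hMle : M ≤ 1 := by
    have h1 : (1 : ℝ) ≤ 10 ^ 5 * KD * K ^ 2 := by
      have : (1 : ℝ) ≤ K ^ 2 := one_le_pow₀ hK
      nlinarith
    nlinarith
  have hXd : InK V.e V.c (dbl3 V.w) (zj z0 ρ H j) (T.pos (zj z0 ρ H j)) := fun k => by
    have := hX.1 k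
    have := wV k
    show _ ≤ 2 * V.w k
    linarith
  obtain ⟨-, h0⟩ := Cuu57.one_step hr hρ hK hV hR hT' hTR hk hC hΛ hΛk zm1 zm2 hXd hh hn.1 hn.2
    hX.2 hM hMle
  have h00 := h0 (3 * (K * m)) (hlat 1 (by decide)) (hlat 2 (by decide))
  have m0 : 0 ≤ m := hh0.trans hhm
  have hKm : 3 * (K * m) ≤ 1 / 16 := by linarith
  fin_cases i
  · show |dt (R.e 0) _| ≤ 1 / 2 * R.w 0
    refine h00.trans ?_
    have g1 : 2000 * KD * K * kapP V z0 ρ T' * M ≤ 2000 * KD * K ^ 2 * M * R.w 0 := by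
      calc 2000 * KD * K * kapP V z0 ρ T' * M ≤ 2000 * KD * K * (K * R.w 0) * M := by gcongr
        _ = _ := by ring
    have g2 : 3 * (KD * Λ) * M ≤ 6 * KD * K ^ 2 * M * R.w 0 := by
      calc 3 * (KD * Λ) * M ≤ 3 * (KD * (2 * K * (K * R.w 0))) * M := by
            have : Λ ≤ 2 * K * (K * R.w 0) :=
              hΛk.trans (mul_le_mul_of_nonneg_left hkR (by positivity))
            gcongr
        _ = _ := by ring
    have g3 : 2006 * KD * K ^ 2 * M * R.w 0 ≤ 1 / 40 * R.w 0 := by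
      refine mul_le_mul_of_nonneg_right ?_ (wR 0).le
      linarith
    have g4 : 2 * (3 * (K * m)) * R.w 0 ≤ 1 / 8 * R.w 0 :=
      mul_le_mul_of_nonneg_right (by linarith) (wR 0).le
    have := wR 0
    linarith
  · show |dt (R.e 1) _| ≤ 1 / 2 * R.w 1
    refine (hlat 1 (by decide)).trans (mul_le_mul_of_nonneg_right (by linarith) (wR 1).le)
  · show |dt (R.e 2) _| ≤ 1 / 2 * R.w 2
    refine (hlat 2 (by decide)).trans (mul_le_mul_of_nonneg_right (by linarith) (wR 2).le)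

/-- a small sub-box at one height -/
theorem stP_sub {R : Plk4} {z0 ρ z : ℝ} {T : Ln4} (S : StP R.e R.c R.w R.q z0 ρ) (hz : z0 ≤ z)
    (hz' : z ≤ z0 + ρ) (hT : ∀ i, |dt (R.e i) (T.pos z - R.c.pos z)| ≤ 3 / 2 * R.w i) :
    StP R.e T (fun i => R.w i / 4) R.q z 0 := by
  have key : ∀ z' : ℝ, z ≤ z' → z' ≤ z + 0 → ∀ x : V3, InK R.e T (dbl3 fun i => R.w i / 4) z' x →
      InK R.e R.c (dbl3 R.w) z' x := by
    intro z' h1 h2 x hx i
    have e : z' = z := by linarith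
    subst e
    have h3 := hx i
    have h4 := hT i
    change _ ≤ 2 * (R.w i / 4) at h3
    show _ ≤ 2 * R.w i
    have e1 : dt (R.e i) (x - R.c.pos z') = dt (R.e i) (x - T.pos z') +
        dt (R.e i) (T.pos z' - R.c.pos z') := by
      simp only [dt, Pi.sub_apply]; ring
    rw [e1]
    refine (abs_add_le _ _).trans ?_
    linarith
  refine ⟨S.ortho, S.isQ, fun i => by have := S.pos i; positivity, ?_, ?_, ?_⟩
  · intro z' h1 h2 x τ hτ hx hx'
    exact S.st0 z' (by linarith) (by linarith) x τ hτ (key z' h1 h2 x hx) (key z' h1 h2 _ hx')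
  · intro z' h1 h2 x τ hτ hx hx'
    have h := S.st1 z' (by linarith) (by linarith) x τ hτ (key z' h1 h2 x hx) (key z' h1 h2 _ hx')
    have e : R.w 0 / 4 / (R.w 1 / 4) = R.w 0 / R.w 1 := by
      have := (S.pos 1).ne'
      field_simp
    show _ ≤ R.w 0 / 4 / (R.w 1 / 4) * τ
    rw [e]; exact h
  · intro z' h1 h2 x τ hτ hx hx'
    have h := S.st2 z' (by linarith) (by linarith) x τ hτ (key z' h1 h2 x hx) (key z' h1 h2 _ hx')
    have e : R.w 0 / 4 / (R.w 2 / 4) = R.w 0 / R.w 2 := by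
      have := (S.pos 2).ne'
      field_simp
    show _ ≤ R.w 0 / 4 / (R.w 2 / 4) * τ
    rw [e]; exact h

/-- the spatial gradient does not depend on the unit of time -/
theorem jt_rho (q : ℝ → V3 → ℝ) (f : Fin 3 → V3) (V : V3) (z : ℝ) (X : V3) (ρ ρ' : ℝ) :
    (jt q f V z X ρ).a0 = (jt q f V z X ρ').a0 ∧ (jt q f V z X ρ).a 1 = (jt q f V z X ρ').a 1 ∧
      (jt q f V z X ρ).a 2 = (jt q f V z X ρ').a 2 := by
  refine ⟨?_, ?_, ?_⟩ <;>
    simp only [jt, ch, ei, Pi.zero_apply, Pi.neg_apply, Matrix.cons_val, neg_zero, mul_zero]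

/-- **normal derivative of another sheet in the chart of `U`** -/
theorem a0_gen {U R : Plk4} {z0 ρ r : ℝ} {H j : ℕ} {T : Ln4} (hr : 0 < r) (hρ : 0 ≤ ρ)
    (hU : Shp U z0 ρ r) (hR : Shp R z0 ρ r) (hTU : InP T U z0 ρ) (hj : j ≤ H)
    (hT : ∀ i, |dt (R.e i) (T.pos (zj z0 ρ H j) - R.c.pos (zj z0 ρ H j))| ≤ 3 / 2 * R.w i)
    {l m s : ℝ} (h : ¬ Nd U R.q z0 ρ H j T l m s) (hls : l * s ≤ U.w 0 / 64) :
    U.w 0 / 32 ≤ |(jS U R.q z0 ρ H j T).a0| ∧ |(jS U R.q z0 ρ H j T).a0| ≤ 4 * U.w 0 := by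
  have w0 : 0 < U.w 0 := hr.trans_le (hU.r0_le.trans hU.a_le0)
  have w0' : 0 < R.w 0 := hr.trans_le (hR.r0_le.trans hR.a_le0)
  have SP := StP.of_shN hU w0
  have SP' := StP.of_shN hR w0'
  obtain ⟨z1, z2⟩ := ratio_mem hj
  have zm1 : z0 ≤ zj z0 ρ H j := by rw [zj_eq]; nlinarith
  have zm2 : zj z0 ρ H j ≤ z0 + ρ := by rw [zj_eq]; nlinarith
  obtain ⟨s1, s2, s3⟩ := Wdg296.jS_self SP hρ hj hTU
  have SS := stP_sub SP' zm1 zm2 hT
  have hXK : InK R.e T (fun i => R.w i / 4) (zj z0 ρ H j) (T.pos (zj z0 ρ H j)) := by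
    intro i
    have e : T.pos (zj z0 ρ H j) - T.pos (zj z0 ρ H j) = 0 := sub_self _
    rw [e]
    have e2 : dt (R.e i) 0 = 0 := by simp [Sh605.dt]
    rw [e2, abs_zero]
    have := SP'.pos i
    show (0 : ℝ) ≤ R.w i / 4
    positivity
  obtain ⟨o1, o2, -, -⟩ := Wdg296.jet_other SP.ortho SP.pos SS le_rfl (by linarith) hXK
    (by have := hR.w0_le; show R.w 0 / 4 ≤ R.w 2 / 4; linarith)
    (by have := hR.w_le; show R.w 2 / 4 ≤ R.w 1 / 4; linarith)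
    (jt_jet hR.isQ (fr U.e U.w) U.c.v (zj z0 ρ H j) (T.pos (zj z0 ρ H j)) 0).1
  obtain ⟨i0, i1, i2⟩ := jt_rho R.q (fr U.e U.w) U.c.v (zj z0 ρ H j) (T.pos (zj z0 ρ H j)) 0 ρ
  rw [i0] at o1 o2
  rw [i1, i2] at o1
  obtain ⟨g, -⟩ := not_Nd.1 h
  change 1 / 2 ≤ |(jS U R.q z0 ρ H j T).a0| / U.w 0 + |(jS U R.q z0 ρ H j T).a 1| / U.w 1 +
    |(jS U R.q z0 ρ H j T).a 2| / U.w 2 at o1
  change |(jS U R.q z0 ρ H j T).a0| / U.w 0 ≤ 4 at o2
  set J0 := jS U U.q z0 ρ H j T with hJ0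
  set J := jS U R.q z0 ρ H j T with hJ
  have p0 := SP.pos 0
  have p1 := SP.pos 1
  have p2 := SP.pos 2
  have a0pos : 0 < J0.a0 := by linarith
  have key : ∀ k : Fin 3, k ≠ 0 → |J.a k| ≤ U.w 0 / 64 + 2 * |J.a0| := by
    intro k hk
    have h1 := (g k).trans hls
    unfold Rk601.tg at h1
    have h2 := s3 k hk
    have h3 : |J.a0 / J0.a0 * J0.a k| ≤ 2 * |J.a0| := by
      rw [abs_mul, abs_div, abs_of_pos a0pos, div_mul_eq_mul_div, div_le_iff₀ a0pos]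
      have h4 : |J0.a k| ≤ 2 * J0.a0 := by linarith
      calc |J.a0| * |J0.a k| ≤ |J.a0| * (2 * J0.a0) := mul_le_mul_of_nonneg_left h4 (abs_nonneg _)
        _ = 2 * |J.a0| * J0.a0 := by ring
    have h5 : |J.a k| ≤ |J.a k - J.a0 / J0.a0 * J0.a k| + |J.a0 / J0.a0 * J0.a k| := by
      have := abs_add_le (J.a k - J.a0 / J0.a0 * J0.a k) (J.a0 / J0.a0 * J0.a k)
      rwa [sub_add_cancel] at this
    linarith
  have k1 := key 1 (by decide)
  have k2 := key 2 (by decide)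
  have w02 := hU.w0_le
  have w21 := hU.w_le
  have f1 : |J.a 1| / U.w 1 ≤ |J.a 1| / U.w 0 :=
    div_le_div_of_nonneg_left (abs_nonneg _) p0 (w02.trans w21)
  have f2 : |J.a 2| / U.w 2 ≤ |J.a 2| / U.w 0 := div_le_div_of_nonneg_left (abs_nonneg _) p0 w02
  have o3 : U.w 0 / 2 ≤ |J.a0| + |J.a 1| + |J.a 2| := by
    have h1 : 1 / 2 ≤ (|J.a0| + |J.a 1| + |J.a 2|) / U.w 0 := by
      rw [add_div, add_div]; linarith
    rw [le_div_iff₀ p0] at h1
    linarith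
  have l0 : U.w 0 / 16 ≤ |J.a0| := by linarith
  refine ⟨by linarith, ?_⟩
  rwa [div_le_iff₀ p0] at o2

end Crest.Agent.R136.V6p467
end

-- ▼ part R136/V6m_467
section

/-!
# R136 (S0187), PLAN 2 (AL), leaf V6 at one pair of lines (helper467)

`v6_point` : all hypotheses of 601's `v6_close` from the geometry, with the numbers.
-/

set_option autoImplicit false

namespace Crest.Agent.R136.V6p467

open Crest.Agent.R136.Sh605 Crest.Agent.R136.Tl102
open Crest.Agent.R136.K4 (Plk4)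
open Crest.Agent.R136.Tlt51 (Shp InP)
open Crest.Agent.R136.Deep51 (CloseC)
open Crest.Agent.R136.KapP335 (kapP kapP_eq)
open Crest.Agent.R136.Gbx862 (zj)
open Crest.Agent.R136.Rk601
open Crest.Agent.R136.AlD601
open Crest.Agent.R136.Hcp208 (Nr)
open Crest.Agent.R136.Chm862 (gm df Tr co)
open Crest.Agent.R136.Adj214 (KD KD_pos KD_one)

/-- derivative of the end sheet's function in the direction `(y; v)` from the middle one's -/
theorem dir_end {q1 q2 : Jt} {y : ℝ} {v : Fin 3 → ℝ} {A t K ω : ℝ} (hω : 0 < ω)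
    (h1 : ω / 32 ≤ |q1.a0|) (h2 : ω / 32 ≤ |q2.a0|) (h2' : |q2.a0| ≤ 4 * ω)
    (hA : |q1.a0 * y + dp q1.a v| ≤ A) (ht : ∀ i, |tg q2 q1 i| ≤ t) (hv : ∀ i, |v i| ≤ K) :
    |q2.a0 * y + dp q2.a v| ≤ 128 * (A + 3 * (t * K)) := by
  have n1 : q1.a0 ≠ 0 := by
    intro h; rw [h, abs_zero] at h1; linarith
  have n2 : q2.a0 ≠ 0 := by
    intro h; rw [h, abs_zero] at h2; linarith
  have p1 : 0 < |q1.a0| := abs_pos.2 n1
  have t0 : 0 ≤ t := (abs_nonneg _).trans (ht 0)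
  have e : q2.a0 * y + dp q2.a v = q2.a0 / q1.a0 * ((q1.a0 * y + dp q1.a v) -
      ∑ i, tg q2 q1 i * v i) := by
    simp only [Rk601.tg, dp, Fin.sum_univ_three]
    field_simp
    ring
  have hr : |q2.a0 / q1.a0| ≤ 128 := by
    rw [abs_div, div_le_iff₀ p1]; linarith
  have hs : |∑ i, tg q2 q1 i * v i| ≤ 3 * (t * K) := by
    refine Chm862.sum3_le fun i => ?_
    rw [abs_mul]
    exact mul_le_mul (ht i) (hv i) (abs_nonneg _) t0
  rw [e, abs_mul]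
  refine mul_le_mul hr ?_ (abs_nonneg _) (by norm_num)
  refine (abs_sub _ _).trans ?_
  linarith

/-- final numbers -/
theorem fin_num {K3 Sg g X Y : ℝ} (hK : 1 ≤ K3) (hS : 0 ≤ Sg) (hg : 0 ≤ g)
    (hX : X ≤ 300 * K3 ^ 11 * Sg) (hY : Y ≤ 300 * K3 ^ 11 * Sg)
    (hn : 2 * 10 ^ 9 * K3 ^ 35 * Sg ≤ g ^ 2) :
    1000 * K3 ^ 12 * (Real.sqrt X + Real.sqrt Y) ≤ g := by
  have hK0 : 0 < K3 := by linarith
  have key : Real.sqrt (300 * K3 ^ 11 * Sg) ≤ g / (2000 * K3 ^ 12) := by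
    rw [Real.sqrt_le_iff]
    refine ⟨by positivity, ?_⟩
    rw [div_pow, le_div_iff₀ (by positivity)]
    calc 300 * K3 ^ 11 * Sg * (2000 * K3 ^ 12) ^ 2 = 12 * 10 ^ 8 * K3 ^ 35 * Sg := by ring
      _ ≤ 2 * 10 ^ 9 * K3 ^ 35 * Sg := by
          have : 0 ≤ K3 ^ 35 * Sg := by positivity
          nlinarith
      _ ≤ g ^ 2 := hn
  have h1 := (Real.sqrt_le_sqrt hX).trans key
  have h2 := (Real.sqrt_le_sqrt hY).trans key
  calc 1000 * K3 ^ 12 * (Real.sqrt X + Real.sqrt Y) ≤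
        1000 * K3 ^ 12 * (g / (2000 * K3 ^ 12) + g / (2000 * K3 ^ 12)) :=
        mul_le_mul_of_nonneg_left (add_le_add h1 h2) (by positivity)
    _ = g := by field_simp; ring

set_option maxHeartbeats 1600000 in
/-- **V6 at one pair of lines** -/
theorem v6_point {U V R : Plk4} {T T' : Ln4} {z0 ρ r K a s l m δ g : ℝ} {H j : ℕ}
    (hK : 1 ≤ K) (hr : 0 < r) (hρ : 0 < ρ) (ha : 0 < a) (hs : 0 < s) (hl : 0 ≤ l) (hm : 0 ≤ m)
    (hδ : 0 ≤ δ) (hg : 0 ≤ g) (hg1 : g ≤ 1) (hj : j ≤ H) (shU : Shp U z0 ρ r) (shV : Shp V z0 ρ r)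
    (shR : Shp R z0 ρ r) (inU : InP T U z0 ρ) (inV : InP T V z0 ρ) (inV' : InP T' V z0 ρ)
    (inR : InP T' R z0 ρ) (aU : a ≤ K * U.a) (aV : V.a ≤ K * a) (aR : R.a ≤ K * a)
    (kU : 10 ^ 6 * U.a ≤ kapP U z0 ρ T) (kV : kapP V z0 ρ T' ≤ K * kapP U z0 ρ T)
    (sk : s ≤ K * kapP U z0 ρ T) (h8 : K * δ ≤ 1 / 8) (nr : Nr V (K * δ) (zj z0 ρ H j) T T')
    (tr : Tr K V U) (c1 : CloseC U.e U.w U.q U.a V.q (K * s) T z0 ρ)
    (c2 : CloseC U.e U.w U.q U.a R.q (K * s) T z0 ρ)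
    (nd1 : ¬ Nd U V.q z0 ρ H j T l m s) (nd2 : ¬ Nd U R.q z0 ρ H j T l m s)
    (l1 : ∃ i i', s ≤ K * |th (jS U U.q z0 ρ H j T) (jS U V.q z0 ρ H j T) i i'|)
    (a1 : U.w 0 / 32 ≤ |(jS U V.q z0 ρ H j T).a0| ∧ |(jS U V.q z0 ρ H j T).a0| ≤ 4 * U.w 0)
    (a2 : U.w 0 / 32 ≤ |(jS U R.q z0 ρ H j T).a0| ∧ |(jS U R.q z0 ρ H j T).a0| ≤ 4 * U.w 0)
    (b2 : ∀ i i', |th (jS U R.q z0 ρ H j T) (jS U V.q z0 ρ H j T) i i'| ≤ K * s)
    (l2 : ∃ i i', s ≤ K * |th (jS U R.q z0 ρ H j T) (jS U V.q z0 ρ H j T) i i'|)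
    (m2 : ∀ i i' k k', |mn (th (jS U R.q z0 ρ H j T) (jS U V.q z0 ρ H j T)) i i' k k'| ≤
      K * ((l + m + δ) * s ^ 2))
    (t2 : ∀ i, |tg (jS U R.q z0 ρ H j T) (jS U V.q z0 ρ H j T) i| ≤ K * ((l + δ) * s))
    (has : a ≤ K * δ * s) (hak : a ≤ K * δ * kapP U z0 ρ T)
    (hn : 2 * 10 ^ 9 * (10 ^ 13 * KD * K ^ 3) ^ 35 * (l + m + δ) ≤ g ^ 2) (i : Fin 3) :
    |∑ j', th (jS U U.q z0 ρ H j T) (jS U V.q z0 ρ H j T) i j' * vS U ρ T' j'| ≤ g * s := by
  have KDp := KD_pos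
  have KD1 := KD_one
  have hU0 : 0 < U.a := hr.trans_le shU.r0_le
  have hw0 : 0 < U.w 0 := hU0.trans_le shU.a_le0
  have SP := StP.of_shN shU hw0
  obtain ⟨k, hk⟩ : ∃ k, k = kapP U z0 ρ T := ⟨_, rfl⟩
  rw [← hk] at kU kV sk hak
  have hkp : 0 < k := by linarith
  obtain ⟨K3, hK3⟩ : ∃ x : ℝ, x = 10 ^ 13 * KD * K ^ 3 := ⟨_, rfl⟩
  rw [← hK3] at hn
  have hK0 : 0 < K := by linarith
  have hK31 : K ≤ K ^ 3 := le_self_pow₀ hK (by norm_num)
  have hbig : 10 ^ 13 * K ^ 3 ≤ K3 := by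
    rw [hK3]
    have : 0 ≤ 10 ^ 13 * K ^ 3 * (KD - 1) := mul_nonneg (by positivity) (by linarith)
    linarith
  have hKK3 : 10 ^ 13 * K ≤ K3 := by linarith
  have hK3' : K ≤ K3 := by linarith
  have h31 : 1 ≤ K3 := by linarith
  have hK30 : 0 < K3 := by linarith
  have hdvK : 10 ^ 13 * KD * K ≤ K3 := by
    rw [hK3]
    exact mul_le_mul_of_nonneg_left hK31 (by positivity)
  have hSg : 0 ≤ l + m + δ := by linarith
  set Sg := l + m + δ with hSgd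
  have hSg1 : 2 * 10 ^ 9 * K3 ^ 35 * Sg ≤ 1 := hn.trans (pow_le_one₀ hg hg1)
  -- data of the two pairs
  have D1 := Wdg296.dv_of shU hU0 hρ.le inU (by rw [← hk]; exact kU) shV.isQ c1 hj
  have D2 := Wdg296.dv_of shU hU0 hρ.le inU (by rw [← hk]; exact kU) shR.isQ c2 hj
  rw [← hk] at D1 D2
  obtain ⟨g1, g2⟩ := not_Nd.1 nd1
  obtain ⟨g3, g4⟩ := not_Nd.1 nd2
  obtain ⟨s1, -, -⟩ := Wdg296.jS_self SP hρ.le hj inU
  have dU := (jt_jet shU.isQ (fr U.e U.w) U.c.v (zj z0 ρ H j) (T.pos (zj z0 ρ H j)) ρ).2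
  have dV := (jt_jet shV.isQ (fr U.e U.w) U.c.v (zj z0 ρ H j) (T.pos (zj z0 ρ H j)) ρ).2
  have dR := (jt_jet shR.isQ (fr U.e U.w) U.c.v (zj z0 ρ H j) (T.pos (zj z0 ρ H j)) ρ).2
  have hv := vS_le tr hρ.le inU inV inV'
  have e1 := d2_le (T := T) hr hρ.le shU shR inR hj
  have e2 := d2_le (T := T) hr hρ.le shU shV inV' hj
  have e3 := d1_le hr hρ.le shU shV inV inV' hj h8 nr
  have e4 := dir_end hw0 a1.1 a2.1 a2.2 e3 t2 hv
  have hdv : ∀ x : ℝ, x ≤ 10 ^ 13 * KD * (K * s) → x ≤ K3 * s := fun x hx => by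
    refine hx.trans ?_
    calc 10 ^ 13 * KD * (K * s) = 10 ^ 13 * KD * K * s := by ring
      _ ≤ K3 * s := mul_le_mul_of_nonneg_right hdvK hs.le
  have hKs : ∀ x : ℝ, x ≤ K * s → x ≤ K3 * s := fun x hx =>
    hx.trans (mul_le_mul_of_nonneg_right hK3' hs.le)
  have hKx : ∀ x : ℝ, s ≤ K * |x| → s ≤ K3 * |x| := fun x hx =>
    hx.trans (mul_le_mul_of_nonneg_right hK3' (abs_nonneg _))
  have hκω : k / U.w 0 * U.w 0 = k := div_mul_cancel₀ _ hw0.ne'
  have hK8 : 1 ≤ K3 ^ 8 := one_le_pow₀ h31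
  obtain ⟨m', hm'⟩ : ∃ x : ℝ, x = 12 * K3 ^ 8 * Sg := ⟨_, rfl⟩
  have hKm' : K * Sg ≤ m' := by
    rw [hm']
    refine mul_le_mul_of_nonneg_right ?_ hSg
    have : K3 ≤ K3 ^ 8 := le_self_pow₀ h31 (by norm_num)
    linarith
  have hmm' : m ≤ m' := by
    have : m ≤ Sg := by rw [hSgd]; linarith
    have h2 : Sg ≤ K * Sg := le_mul_of_one_le_left hSg hK
    linarith
  have hlm : 12 * K3 ^ 8 * l ≤ m' := by
    rw [hm']
    refine mul_le_mul_of_nonneg_left ?_ (by positivity)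
    rw [hSgd]; linarith
  have p16 : K3 ^ 16 ≤ K3 ^ 35 := pow_le_pow_right₀ h31 (by norm_num)
  have hm4 : m' ≤ 1 / (4 * K3 ^ 8) := by
    rw [hm', le_div_iff₀ (by positivity)]
    calc 12 * K3 ^ 8 * Sg * (4 * K3 ^ 8) = 48 * (K3 ^ 16 * Sg) := by ring
      _ ≤ 48 * (K3 ^ 35 * Sg) :=
          mul_le_mul_of_nonneg_left (mul_le_mul_of_nonneg_right p16 hSg) (by norm_num)
      _ ≤ 2 * 10 ^ 9 * K3 ^ 35 * Sg := by
          have : 0 ≤ K3 ^ 35 * Sg := by positivity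
          linarith
      _ ≤ 1 := hSg1
  have hh1 : l + δ ≤ 1 := by
    have h2 : Sg ≤ 2 * 10 ^ 9 * K3 ^ 35 * Sg := by
      refine le_mul_of_one_le_left hSg ?_
      have : 1 ≤ K3 ^ 35 := one_le_pow₀ h31
      linarith
    have : l + δ ≤ Sg := by rw [hSgd]; linarith
    linarith
  have s2 : 0 ≤ s ^ 2 := sq_nonneg s
  have fin := v6_close (q0 := jS U U.q z0 ρ H j T) (q1 := jS U V.q z0 ρ H j T)
    (q2 := jS U R.q z0 ρ H j T) (v := vS U ρ T')
    (y := ρ * dt (U.e 0) (T'.v - U.c.v) / U.w 0) (K := K3) (ω := U.w 0) (κ := k / U.w 0) (s := s)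
    (l := l) (m := m') (a := a) (h := l + δ) h31 hw0 (by positivity) hs hl ha.le (by linarith)
    (by rw [hκω]; exact sk.trans (mul_le_mul_of_nonneg_right hK3' hkp.le)) hh1
    (by
      rw [hκω]
      have : a ≤ K * k := by
        have : K * U.a ≤ K * k := mul_le_mul_of_nonneg_left (by linarith) hK0.le
        linarith
      exact this.trans (mul_le_mul_of_nonneg_right hK3' hkp.le))
    (by intro h0; rw [h0] at s1; linarith)
    (by
      refine le_trans ?_ a2.1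
      exact div_le_div_of_nonneg_left hw0.le (by norm_num) (by linarith))
    (a1.2.trans (mul_le_mul_of_nonneg_right (by linarith) hw0.le))
    dU dV dR (fun i => hdv _ (D1.gm i)) (hdv _ D1.h00) (fun i => hdv _ (D2.gm i)) (hdv _ D2.h00)
    g3 (fun i i' => hdv _ (D1.th i i')) (fun i i' => hKs _ (b2 i i'))
    (by obtain ⟨i, i', h⟩ := l1; exact ⟨i, i', hKx _ h⟩)
    (by obtain ⟨i, i', h⟩ := l2; exact ⟨i, i', hKx _ h⟩)
    (fun i i' k k' => (g2 i i' k k').trans (mul_le_mul_of_nonneg_right hmm' s2))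
    (fun i i' k k' => (m2 i i' k k').trans (by
      rw [← mul_assoc]; exact mul_le_mul_of_nonneg_right hKm' s2))
    (fun i i' k k' => (g4 i i' k k').trans (mul_le_mul_of_nonneg_right hmm' s2))
    hlm hm4 (fun i => (hv i).trans (by linarith))
    (e1.trans (by
      calc 16 * R.a ≤ 16 * (K * a) := by linarith
        _ = 16 * K * a := by ring
        _ ≤ K3 * a := mul_le_mul_of_nonneg_right (by linarith) ha.le))
    (e2.trans (by
      calc 16 * V.a ≤ 16 * (K * a) := by linarith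
        _ = 16 * K * a := by ring
        _ ≤ K3 * a := mul_le_mul_of_nonneg_right (by linarith) ha.le))
    (e4.trans (by
      rw [hκω]
      have x1 : K * δ * kapP V z0 ρ T' ≤ K * δ * (K * k) :=
        mul_le_mul_of_nonneg_left kV (by positivity)
      have x2 : K * ((l + δ) * s) * (14 * K) ≤ K * ((l + δ) * (K * k)) * (14 * K) := by
        have : 0 ≤ l + δ := by linarith
        gcongr
      have x3 : K * δ * (K * k) ≤ K ^ 3 * ((l + δ) * k) := by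
        have y1 : K * δ * (K * k) = K ^ 2 * (δ * k) := by ring
        have y2 : K ^ 2 ≤ K ^ 3 := pow_le_pow_right₀ hK (by norm_num)
        have y3 : δ * k ≤ (l + δ) * k := mul_le_mul_of_nonneg_right (by linarith) hkp.le
        rw [y1]
        exact mul_le_mul y2 y3 (by positivity) (by positivity)
      have x4 : K * ((l + δ) * (K * k)) * (14 * K) = 14 * (K ^ 3 * ((l + δ) * k)) := by ring
      have x5 : 16 * V.a ≤ 16 * (K ^ 3 * a) := by
        have : K * a ≤ K ^ 3 * a := mul_le_mul_of_nonneg_right hK31 ha.le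
        linarith
      have x6 : 10 ^ 13 * (K ^ 3 * (a + k * (l + δ))) ≤ K3 * (a + k * (l + δ)) := by
        rw [← mul_assoc]
        refine mul_le_mul_of_nonneg_right hbig ?_
        have : 0 ≤ l + δ := by linarith
        positivity
      have x7 : 0 ≤ K ^ 3 * a := by positivity
      have x8 : 0 ≤ K ^ 3 * ((l + δ) * k) := by
        have : 0 ≤ l + δ := by linarith
        positivity
      have x9 : K ^ 3 * (a + k * (l + δ)) = K ^ 3 * a + K ^ 3 * ((l + δ) * k) := by ring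
      rw [x9] at x6
      rw [x4] at x2
      linarith)) i
  refine fin.trans ?_
  rw [mul_comm g s]
  refine mul_le_mul_of_nonneg_left ?_ hs.le
  refine fin_num h31 hSg hg ?_ ?_ hn
  · rw [hκω]
    have y1 : a / s ≤ K * δ := by rw [div_le_iff₀ hs]; exact has
    have y2 : a / k ≤ K * δ := by rw [div_le_iff₀ hkp]; exact hak
    have y3 : a / s + a / k + (l + δ) ≤ 3 * (K3 * Sg) := by
      have z1 : K * δ ≤ K3 * δ := mul_le_mul_of_nonneg_right hK3' hδ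
      have z2 : l + δ ≤ K3 * (l + δ) := le_mul_of_one_le_left (by linarith) h31
      have z3 : K3 * Sg = K3 * l + K3 * m + K3 * δ := by rw [hSgd]; ring
      have z4 : 0 ≤ K3 * m := by positivity
      have z5 : 0 ≤ K3 * l := by positivity
      have z6 : K3 * (l + δ) = K3 * l + K3 * δ := by ring
      linarith
    calc 100 * K3 ^ 10 * (a / s + a / k + (l + δ)) ≤ 100 * K3 ^ 10 * (3 * (K3 * Sg)) :=
          mul_le_mul_of_nonneg_left y3 (by positivity)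
      _ = 300 * K3 ^ 11 * Sg := by ring
  · rw [hm']
    refine mul_le_mul_of_nonneg_right ?_ hSg
    have : K3 ^ 8 ≤ K3 ^ 11 := pow_le_pow_right₀ h31 (by norm_num)
    have : 0 ≤ K3 ^ 11 := by positivity
    linarith

end Crest.Agent.R136.V6p467
end

-- ▼ part R136/Nv6_601
section

/-!
# R136 (S0187), PLAN 2 (AL), leaf V6: real powers to natural powers (helper601)
-/

set_option autoImplicit false

namespace Crest.Agent.R136.Nv601

/-- **numbers of LeafV6** : any `C ≥ c, n, 2` turns the real powers of the leaf into natural ones -/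
theorem num6 {c C : ℝ} {n : ℕ} (hc : 1 ≤ c) (h1 : c ≤ C) (h2 : (n : ℝ) ≤ C) (h3 : 2 ≤ C)
    {B k g S : ℝ} (hB : 1 ≤ B) (hk : 0 < k) (hk1 : k ≤ 1) (hg : 0 < g) (hg1 : g ≤ 1) (hS : 0 ≤ S)
    (h : (C * B / k) ^ C * S ≤ g ^ C) : (c * B / k) ^ n * S ≤ g ^ 2 := by
  have hC : 1 ≤ C := hc.trans h1
  have hcB : 1 ≤ c * B / k := by
    rw [le_div_iff₀ hk]
    have : 1 ≤ c * B := by nlinarith
    linarith
  have hCB : c * B / k ≤ C * B / k := by
    refine div_le_div_of_nonneg_right ?_ hk.le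
    exact mul_le_mul_of_nonneg_right h1 (by linarith)
  have e1 : (c * B / k) ^ n ≤ (C * B / k) ^ C := by
    calc (c * B / k) ^ n = (c * B / k) ^ ((n : ℕ) : ℝ) := (Real.rpow_natCast _ _).symm
      _ ≤ (c * B / k) ^ C := Real.rpow_le_rpow_of_exponent_le hcB h2
      _ ≤ (C * B / k) ^ C := Real.rpow_le_rpow (by linarith) hCB (by linarith)
  have e2 : g ^ C ≤ g ^ 2 := by
    calc g ^ C ≤ g ^ (2 : ℝ) := Real.rpow_le_rpow_of_exponent_ge hg hg1 h3
      _ = g ^ 2 := by norm_cast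
  exact ((mul_le_mul_of_nonneg_right e1 hS).trans h).trans e2



end Crest.Agent.R136.Nv601
end

-- ▼ part R136/Lv6_778
section

/-!
# R136 (S0187), PLAN 2 (AL), balanced case: leaf V6 (helper778, insurance)
-/

set_option autoImplicit false
set_option linter.unusedVariables false

open Finset

namespace Crest.Agent.R136.Lv6778

open Crest.Agent.R136.Sh605 Crest.Agent.R136.Tl102
open Crest.Agent.R136.Rk601
open Crest.Agent.R136.AlD601
open Crest.Agent.R136.K4 (Plk4)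
open Crest.Agent.R136.Tlt51 (Shp InP)
open Crest.Agent.R136.Deep51 (CloseC)
open Crest.Agent.R136.KapP335 (kapP)
open Crest.Agent.R136.Chm862
open Crest.Agent.R136.Hcp208 (Nr)
open Crest.Agent.R136.Cuu57 (Uu)
open Crest.Agent.R136.Gbx862 (zj zj_mem)
open Crest.Agent.R136.Adj214 (KD KD_pos KD_one)
open Crest.Agent.R136.Alw500 (lbl)

theorem cc_mono {e : Fin 3 → V3} {w : V3} {q : ℝ → V3 → ℝ} {a : ℝ} {q' : ℝ → V3 → ℝ}
    {E E' : ℝ} {T : Ln4} {z0 ρ : ℝ} (h : CloseC e w q a q' E T z0 ρ) (hE : E ≤ E') :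
    CloseC e w q a q' E' T z0 ρ :=
  fun z h1 h2 x hx hq => (h z h1 h2 x hx hq).trans hE

set_option maxHeartbeats 2000000 in
/-- **V6 at one pair of lines** -/
theorem v6_uu {U V R : Plk4} {T T' : Ln4} {z0 ρ r W a κ E A l m k g : ℝ} {H j : ℕ}
    (h : Uu U V R T T' z0 ρ r W a (2 * E * a) κ) (hE1 : 1 ≤ E) (hEH : E ≤ H)
    (hHE : (H : ℝ) ≤ 2 * E) (trUV : Tr (W ^ 3) U V) (trVU : Tr (W ^ 3) V U)
    (trVR : Tr (W ^ 3) V R) (trRV : Tr (W ^ 3) R V)
    (kEU : E * a ≤ W * kapP U z0 ρ T) (kER : E * a ≤ W * kapP R z0 ρ T')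
    (kEV : E * a ≤ W * kapP V z0 ρ T') (kVU : kapP V z0 ρ T ≤ W * kapP U z0 ρ T)
    (kRV : kapP R z0 ρ T' ≤ W * kapP V z0 ρ T') (kVR : kapP V z0 ρ T' ≤ W * kapP R z0 ρ T')
    (upR : CloseC R.e R.w R.q R.a V.q (2 * E * a) T' z0 ρ) (hj : j ≤ H)
    (n1 : |dt (V.e 1) (T.pos (zj z0 ρ H j) - T'.pos (zj z0 ρ H j))| ≤ W / H * V.w 1)
    (n2 : |dt (V.e 2) (T.pos (zj z0 ρ H j) - T'.pos (zj z0 ρ H j))| ≤ W / H * V.w 2)
    (hl : 0 < l) (hm : 0 < m) (hk : 0 < k) (hk1 : k ≤ 1) (hg : 0 < g) (hg1 : g ≤ 1)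
    (nd1 : ¬ Nd U V.q z0 ρ H j T l m (E * a)) (nd2 : ¬ Nd R V.q z0 ρ H j T' l m (E * a))
    (nd3 : ¬ Nd U R.q z0 ρ H j T l m (E * a)) (sm1 : ¬ Sm U V.q z0 ρ H j T k (E * a))
    (sm2 : ¬ Sm R V.q z0 ρ H j T' k (E * a)) (hA : 10 ^ 61 * KD ^ 7 ≤ A)
    (num : (A * W ^ 15 / k) ^ 50000 * (l + m + 1 / H) ≤ g ^ 2) (i : Fin 3) :
    |∑ j', th (jS U U.q z0 ρ H j T) (jS U V.q z0 ρ H j T) i j' * vS U ρ T' j'| ≤ g * (E * a) := by
  have KDp := KD_pos
  have KD1 := KD_one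
  have hW := h.W1
  have hW0 : 0 < W := by linarith
  have ha := h.a0
  have hr := h.r0
  have hρ := h.ρ0
  have hH0 : (0 : ℝ) < H := by linarith
  obtain ⟨δ, hδ⟩ : ∃ δ, δ = 1 / (H : ℝ) := ⟨_, rfl⟩
  obtain ⟨s, hs⟩ : ∃ s, s = E * a := ⟨_, rfl⟩
  have hs2 : 2 * E * a = 2 * s := by rw [hs]; ring
  have hs0 : 0 < s := by rw [hs]; positivity
  rw [hs2] at upR h
  rw [← hs] at nd1 nd2 nd3 sm1 sm2 kEU kER kEV ⊢
  rw [← hδ] at num
  have hδ0 : 0 < δ := by rw [hδ]; positivity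
  have hδH : δ * H = 1 := by rw [hδ]; field_simp
  have hWδ : W / H = W * δ := by rw [hδ]; ring
  rw [hWδ] at n1 n2
  -- `a ≤ 2 s δ`
  have has : a ≤ 2 * s * δ := by
    have h1 : a * (H * δ) ≤ a * (2 * E * δ) := by
      refine mul_le_mul_of_nonneg_left ?_ ha.le
      exact mul_le_mul_of_nonneg_right hHE hδ0.le
    have h2 : H * δ = 1 := by rw [mul_comm]; exact hδH
    rw [h2, mul_one] at h1
    rw [hs]; linarith
  -- the constants
  obtain ⟨K, hK⟩ : ∃ K, K = A * W ^ 15 := ⟨_, rfl⟩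
  obtain ⟨x, hx⟩ : ∃ x, x = K / k := ⟨_, rfl⟩
  rw [← hK, ← hx] at num
  have KD7 : 1 ≤ KD ^ 7 := one_le_pow₀ KD1
  have hA1 : 10 ^ 61 ≤ A := by
    have : (10 : ℝ) ^ 61 * 1 ≤ 10 ^ 61 * KD ^ 7 := mul_le_mul_of_nonneg_left KD7 (by positivity)
    linarith
  have hA0 : 0 < A := by linarith
  have hWn : ∀ n : ℕ, n ≤ 15 → A * W ^ n ≤ K := fun n hn => by
    rw [hK]
    exact mul_le_mul_of_nonneg_left (pow_le_pow_right₀ hW hn) hA0.le
  have hAK : A ≤ K := by have := hWn 0 (by norm_num); rwa [pow_zero, mul_one] at this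
  have hK61 : 10 ^ 61 ≤ K := hA1.trans hAK
  have hK0 : 0 < K := by linarith
  have hK1 : 1 ≤ K := by linarith
  have hKW : ∀ (c : ℝ) (n : ℕ), c ≤ 10 ^ 61 → n ≤ 15 → c * W ^ n ≤ K := fun c n hc hn =>
    (mul_le_mul_of_nonneg_right (hc.trans hA1) (by positivity)).trans (hWn n hn)
  have hKW1 : W ≤ K := by have := hKW 1 1 (by norm_num) (by norm_num); linarith
  have hKx : K ≤ x := by
    rw [hx, le_div_iff₀ hk]
    exact mul_le_of_le_one_right hK0.le hk1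
  have hx0 : 0 < x := by linarith
  have hx1 : 1 ≤ x := by linarith
  have hkx : k * x = K := by rw [hx]; field_simp
  have hKDA : 10 ^ 61 * KD ≤ K := by
    have : KD ≤ KD ^ 7 := le_self_pow₀ KD1 (by norm_num)
    have : (10 : ℝ) ^ 61 * KD ≤ 10 ^ 61 * KD ^ 7 := mul_le_mul_of_nonneg_left this (by positivity)
    linarith
  obtain ⟨S, hS⟩ : ∃ S, S = l + m + δ := ⟨_, rfl⟩
  rw [← hS] at num
  have hS0 : 0 < S := by rw [hS]; linarith
  have hSδ : δ ≤ S := by rw [hS]; linarith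
  have hSl : l ≤ S := by rw [hS]; linarith
  have hlδ : l + δ ≤ S := by rw [hS]; linarith
  have hg2 : g ^ 2 ≤ 1 := pow_le_one₀ hg.le hg1
  have hP : ∀ n : ℕ, n ≤ 50000 → x ^ n * S ≤ g ^ 2 := fun n hn =>
    (mul_le_mul_of_nonneg_right (pow_le_pow_right₀ hx1 hn) hS0.le).trans num
  have hP1 : ∀ n : ℕ, n ≤ 50000 → x ^ n * S ≤ 1 := fun n hn => (hP n hn).trans hg2
  have hKn : ∀ n : ℕ, K ^ n ≤ x ^ n := fun n => pow_le_pow_left₀ hK0.le hKx n
  have hKδ : ∀ n : ℕ, n ≤ 400 → K ^ n * δ ≤ 1 := fun n hn =>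
    (mul_le_mul (hKn n) hSδ hδ0.le (by positivity)).trans (hP1 n (by omega))
  have hKl : ∀ n : ℕ, n ≤ 400 → K ^ n * l ≤ 1 := fun n hn =>
    (mul_le_mul (hKn n) hSl hl.le (by positivity)).trans (hP1 n (by omega))
  -- sizes
  obtain ⟨kU, hkU⟩ : ∃ y, y = kapP U z0 ρ T := ⟨_, rfl⟩
  obtain ⟨kV, hkV⟩ : ∃ y, y = kapP V z0 ρ T' := ⟨_, rfl⟩
  obtain ⟨kR, hkR⟩ : ∃ y, y = kapP R z0 ρ T' := ⟨_, rfl⟩
  have aU0 : 0 < U.a := hr.trans_le h.hU.r0_le
  have aV0 : 0 < V.a := hr.trans_le h.hV.r0_le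
  have aR0 : 0 < R.a := hr.trans_le h.hR.r0_le
  have wU0 : 0 < U.w 0 := aU0.trans_le h.hU.a_le0
  have wV0 : 0 < V.w 0 := aV0.trans_le h.hV.a_le0
  have wR0 : 0 < R.w 0 := aR0.trans_le h.hR.a_le0
  have U13 : kU ≤ 13 * U.w 0 := by rw [hkU]; exact Hcp208.kapP_le hr hρ.le h.hU h.tU
  have V13 : kV ≤ 13 * V.w 0 := by rw [hkV]; exact Hcp208.kapP_le hr hρ.le h.hV h.tV'
  have R13 : kR ≤ 13 * R.w 0 := by rw [hkR]; exact Hcp208.kapP_le hr hρ.le h.hR h.tR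
  have comp := Kpc104.kapP_comp hρ hr h.hV h.tV h.tV'
  rw [← hkU] at kEU kVU
  rw [← hkR] at kER kRV kVR
  rw [← hkV] at kEV kRV kVR comp
  have pos_of : ∀ y : ℝ, s ≤ W * y → 0 < y := by
    intro y hy
    by_contra hc
    push Not at hc
    have := mul_nonpos_of_nonneg_of_nonpos hW0.le hc
    linarith
  have kU0 := pos_of _ kEU
  have kR0 := pos_of _ kER
  have kV0 := pos_of _ kEV
  have W2 : W ≤ W ^ 2 := le_self_pow₀ hW (by norm_num)
  have δK : ∀ (c : ℝ) (n : ℕ), 0 ≤ c → c ≤ 10 ^ 61 → n ≤ 15 → c * W ^ n * δ ≤ 1 := by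
    intro c n hc0 hc hn
    have h1 := mul_le_mul_of_nonneg_right (hKW c n hc hn) hδ0.le
    have h2 := hKδ 1 (by norm_num)
    rw [pow_one] at h2
    linarith
  -- `x.a` against the curvatures
  have aW : ∀ y b : ℝ, b ≤ W * a → s ≤ W * y → b ≤ 2 * W ^ 2 * δ * y := by
    intro y b h1 h2
    calc b ≤ W * (2 * s * δ) := h1.trans (mul_le_mul_of_nonneg_left has hW0.le)
      _ = 2 * W * δ * s := by ring
      _ ≤ 2 * W * δ * (W * y) := mul_le_mul_of_nonneg_left h2 (by positivity)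
      _ = _ := by ring
  have aV1 := aW _ _ h.aV kEV
  have aR1 := aW _ _ h.aR kER
  have aVU := aW _ _ h.aV kEU
  have hVa : 10 ^ 6 * V.a ≤ kV := by
    have h1 := δK (2 * 10 ^ 6) 2 (by norm_num) (by norm_num) (by norm_num)
    have h2 := mul_le_mul_of_nonneg_right h1 kV0.le
    linarith
  have hRa : 10 ^ 6 * R.a ≤ kR := by
    have h1 := δK (2 * 10 ^ 6) 2 (by norm_num) (by norm_num) (by norm_num)
    have h2 := mul_le_mul_of_nonneg_right h1 kR0.le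
    linarith
  have hUa : 10 ^ 6 * U.a ≤ kU := by
    have aU1 := aW _ _ h.aU kEU
    have h1 := δK (2 * 10 ^ 6) 2 (by norm_num) (by norm_num) (by norm_num)
    have h2 := mul_le_mul_of_nonneg_right h1 kU0.le
    linarith
  have kVkU : kV ≤ 1200000 * W ^ 2 * kU := by
    have h1 := δK 2 0 (by norm_num) (by norm_num) (by norm_num)
    rw [pow_zero, mul_one] at h1
    have h2 : 2 * W ^ 2 * δ * kU ≤ W ^ 2 * kU := by
      have := mul_le_mul_of_nonneg_right h1 (show 0 ≤ W ^ 2 * kU by positivity)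
      linarith
    have h3 : W * kU ≤ W ^ 2 * kU := mul_le_mul_of_nonneg_right W2 kU0.le
    linarith
  -- transition data
  have tVR : Tr K V R := trVR.mono (by have := hKW 1 3 (by norm_num) (by norm_num); linarith)
  have tVU : Tr K V U := trVU.mono (by have := hKW 1 3 (by norm_num) (by norm_num); linarith)
  have tUR : Tr K U R := (trUV.trans trVR).mono (by
    have := hKW 3 6 (by norm_num) (by norm_num)
    calc 3 * W ^ 3 * W ^ 3 = 3 * W ^ 6 := by ring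
      _ ≤ K := this)
  have tRU : Tr K R U := (trRV.trans trVU).mono (by
    have := hKW 3 6 (by norm_num) (by norm_num)
    calc 3 * W ^ 3 * W ^ 3 = 3 * W ^ 6 := by ring
      _ ≤ K := this)
  obtain ⟨z1, z2⟩ := zj_mem (z0 := z0) hρ.le hj
  have hK36 : (3600000 : ℝ) ≤ K := by linarith
  have oV : Own K (V.w 0) kV (jS V V.q z0 ρ H j T') := by
    rw [hkV]
    exact (own hr hρ.le h.hV h.tV' hj (by rw [← hkV]; linarith)).mono hK36 wV0.le
      (by rw [← hkV]; exact kV0.le)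
  have oR : Own K (R.w 0) kR (jS R R.q z0 ρ H j T') := by
    rw [hkR]
    exact (own hr hρ.le h.hR h.tR hj (by rw [← hkR]; linarith)).mono hK36 wR0.le
      (by rw [← hkR]; exact kR0.le)
  have oU := own (H := H) (j := j) hr hρ.le h.hU h.tU hj (by rw [← hkU]; linarith)
  have hWK : ∀ y : ℝ, 0 ≤ y → W * y ≤ K * y := fun y hy => mul_le_mul_of_nonneg_right hKW1 hy
  -- displacement
  have hWδ8 : W * δ ≤ 1 / 8 := by
    have := δK 8 1 (by norm_num) (by norm_num) (by norm_num)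
    rw [pow_one] at this; linarith
  have nr : Nr V (W * δ) (zj z0 ρ H j) T T' := ⟨n1, n2⟩
  have hWKδ : W * δ ≤ K * δ := mul_le_mul_of_nonneg_right hKW1 hδ0.le
  have hm4 : 4 * V.a + 69 * (W * δ) * V.w 0 ≤ K * δ * V.w 0 := by
    have h1 : 2 * W ^ 2 * δ * kV ≤ 2 * W ^ 2 * δ * (13 * V.w 0) :=
      mul_le_mul_of_nonneg_left V13 (by positivity)
    have h2 := hKW 200 2 (by norm_num) (by norm_num)
    have h3 := mul_le_mul_of_nonneg_right h2 (show 0 ≤ δ * V.w 0 by positivity)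
    have h4 := mul_le_mul_of_nonneg_right W2 (show 0 ≤ δ * V.w 0 by positivity)
    have h5 : 0 ≤ W ^ 2 * (δ * V.w 0) := by positivity
    linarith
  have hd := V6p467.disp_V hr hρ.le h.hV h.tV h.tV' hj hWδ8 nr hm4 hWKδ
  -- slopes at `T'`
  have SU := StP.of_shN h.hU wU0
  have SV := StP.of_shN h.hV wV0
  have SR := StP.of_shN h.hR wR0
  have hl832 : 832 * W * l ≤ 1 := by
    have h1 := mul_le_mul_of_nonneg_right (hKW 832 1 (by norm_num) (by norm_num)) hl.le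
    have h2 := hKl 1 (by norm_num)
    rw [pow_one] at h1 h2; linarith
  have hlsU : l * s ≤ U.w 0 / 64 := by
    have h1 : l * s ≤ l * (W * (13 * U.w 0)) :=
      mul_le_mul_of_nonneg_left (kEU.trans (mul_le_mul_of_nonneg_left U13 hW0.le)) hl.le
    have h2 := mul_le_mul_of_nonneg_right hl832 wU0.le
    linarith
  have hlsR : l * s ≤ R.w 0 / 64 := by
    have h1 : l * s ≤ l * (W * (13 * R.w 0)) :=
      mul_le_mul_of_nonneg_left (kER.trans (mul_le_mul_of_nonneg_left R13 hW0.le)) hl.le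
    have h2 := mul_le_mul_of_nonneg_right hl832 wR0.le
    linarith
  obtain ⟨r1, r2, -⟩ := Wdg296.slopes_of_not_Nd SR SV hρ.le hj h.hR.w0_le h.hR.w_le h.hV.w0_le
    h.hV.w_le h.tR h.tV' nd2 hlsR
  obtain ⟨v1, v2, -⟩ := Wdg296.slopes_of_not_Nd SU SV hρ.le hj h.hU.w0_le h.hU.w_le h.hV.w0_le
    h.hV.w_le h.tU h.tV nd1 hlsU
  have dv0 := Wdg296.dv_of h.hR aR0 hρ.le h.tR (by rw [← hkR]; exact hRa) h.hV.isQ upR hj
  rw [← hkR] at dv0
  have hKD2 : 10 ^ 13 * KD * (2 * s) ≤ K * s := by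
    have h1 : 2 * 10 ^ 13 * KD ≤ K := by linarith
    have := mul_le_mul_of_nonneg_right h1 hs0.le
    linarith
  have dv : Wdg296.Dv R V.q z0 ρ H j T' K (kR / R.w 0) s :=
    ⟨fun i i' => (dv0.th i i').trans hKD2, fun i => (dv0.gm i).trans hKD2, dv0.h00.trans hKD2⟩
  -- `T` in the box of `R`
  have hcl : CloseC V.e V.w V.q V.a R.q (2 * s) T' z0 ρ := h.c2
  have hkVR : kV ≤ K * R.w 0 := by
    have h1 : kV ≤ W * (13 * R.w 0) := kVR.trans (mul_le_mul_of_nonneg_left R13 hW0.le)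
    have h2 := mul_le_mul_of_nonneg_right (hKW 13 1 (by norm_num) (by norm_num)) wR0.le
    rw [pow_one] at h2
    linarith
  have hM : 512 * ((V.a + V.a) / kV) + 1280 * (W * δ) ≤ K * δ := by
    have h1 : (V.a + V.a) / kV ≤ 4 * W ^ 2 * δ := by
      rw [div_le_iff₀ kV0]; linarith
    have h2 := mul_le_mul_of_nonneg_right (hKW 4000 2 (by norm_num) (by norm_num)) hδ0.le
    have h3 := mul_le_mul_of_nonneg_right W2 hδ0.le
    have h4 : 0 ≤ W ^ 2 * δ := by positivity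
    linarith
  have hM1 : 10 ^ 5 * KD * K ^ 2 * (K * δ) ≤ 1 := by
    have h1 : 10 ^ 5 * KD ≤ K := by linarith
    have h2 := mul_le_mul_of_nonneg_right h1 (show 0 ≤ K ^ 3 * δ by positivity)
    have h3 := hKδ 4 (by norm_num)
    calc 10 ^ 5 * KD * K ^ 2 * (K * δ) = 10 ^ 5 * KD * (K ^ 3 * δ) := by ring
      _ ≤ K * (K ^ 3 * δ) := h2
      _ = K ^ 4 * δ := by ring
      _ ≤ 1 := h3
  have hm1 : 48 * K * (K * δ) ≤ 1 := by
    have h1 : 48 * (K ^ 2 * δ) ≤ K * (K ^ 2 * δ) :=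
      mul_le_mul_of_nonneg_right (by linarith) (by positivity)
    have h3 := hKδ 3 (by norm_num)
    calc 48 * K * (K * δ) = 48 * (K ^ 2 * δ) := by ring
      _ ≤ K * (K ^ 2 * δ) := h1
      _ = K ^ 3 * δ := by ring
      _ ≤ 1 := h3
  have hΛk : 2 * s ≤ 2 * K * kapP V z0 ρ T' := by
    rw [← hkV]
    have := kEV.trans (hWK _ kV0.le)
    linarith
  have nb := V6p467.near_box hr hρ hK1 h.hV h.hR h.tV h.tV' h.tR hj hWδ8 nr hm4 hWKδ tVR
    (by rw [← hkV]; exact hVa) hcl (by linarith) hΛk (by rw [← hkV]; exact hkVR)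
    (by rw [← hkV]; exact hM) hM1 hm1
  have hTR : ∀ i, |dt (R.e i) (T.pos (zj z0 ρ H j) - R.c.pos (zj z0 ρ H j))| ≤ 3 / 2 * R.w i := by
    intro i
    have h1 := (h.tR _ z1 z2).1 i
    have e : dt (R.e i) (T.pos (zj z0 ρ H j) - R.c.pos (zj z0 ρ H j)) =
        dt (R.e i) (T.pos (zj z0 ρ H j) - T'.pos (zj z0 ρ H j)) +
          dt (R.e i) (T'.pos (zj z0 ρ H j) - R.c.pos (zj z0 ρ H j)) := by
      simp only [dt, Pi.sub_apply]; ring
    rw [e]
    refine (abs_add_le _ _).trans ?_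
    have := nb i
    linarith
  obtain ⟨u1, u2⟩ := V6p467.a0_gen hr hρ.le h.hU h.hR h.tU hj hTR nd3 hlsU
  obtain ⟨nd3t, -⟩ := not_Nd.1 nd3
  have bs : ∀ i, |sl (jS U R.q z0 ρ H j T) i| ≤ 2 * K := fun i =>
    (sl_of_tg (A := l * s) oU.s wU0 u1 nd3t (by linarith) i).trans (by linarith)
  -- the move
  have hVq : ∀ y : ℝ, |y| ≤ V.a → |y| ≤ K * kV * δ := by
    intro y hy
    have h1 := mul_le_mul_of_nonneg_right (hKW 2 2 (by norm_num) (by norm_num))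
      (show 0 ≤ δ * kV by positivity)
    linarith
  have hx400 : x ^ 400 * S ≤ k := by
    have h1 := hP1 401 (by norm_num)
    have h2 : x ^ 400 * S * x ≤ k * x := by
      rw [hkx]
      calc x ^ 400 * S * x = x ^ 401 * S := by ring
        _ ≤ 1 := h1
        _ ≤ K := hK1
    exact le_of_mul_le_mul_right h2 hx0
  have hPk : K ^ 400 * (l + δ) ≤ k :=
    (mul_le_mul (hKn 400) hlδ (by linarith) (by positivity)).trans hx400
  obtain ⟨b2, ⟨i1, i2, l2⟩, m2, t2⟩ := v6_move (kk := kV) (δ := δ) (k := k)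
    (by linarith : (10 : ℝ) ^ 7 ≤ K) hρ.le h.hV.isQ
    h.hR.isQ oV oR (le_mul_of_one_le_left kV0.le hK1) (kVR.trans (hWK _ kR0.le)) R13
    (by
      have h1 : 1200000 * W ^ 2 * kU ≤ 1200000 * W ^ 2 * (13 * U.w 0) :=
        mul_le_mul_of_nonneg_left U13 (by positivity)
      have h2 := mul_le_mul_of_nonneg_right (hKW 15600000 2 (by norm_num) (by norm_num)) wU0.le
      linarith)
    (kRV.trans (hWK _ kV0.le)) tVR tUR tRU tVU h.tU h.tV h.tV' h.tR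
    (hVq _ (h.tV _ z1 z2).2) (hVq _ (h.tV' _ z1 z2).2) hd hs0 (kEV.trans (hWK _ kV0.le)) nd2 sm2
    r1 dv u1 bs hk1 hl.le hm.le hδ0.le hPk
  -- the point
  obtain ⟨X, hX⟩ : ∃ X, X = x ^ 400 := ⟨_, rfl⟩
  have hKX : K ^ 400 ≤ X := by rw [hX]; exact hKn 400
  have hxX : x ≤ X := by rw [hX]; exact le_self_pow₀ hx1 (by norm_num)
  have hKX1 : K ≤ X := hKx.trans hxX
  have hX0 : 0 < X := by linarith
  have hX1 : 1 ≤ X := by linarith
  have hkX : K ^ 400 ≤ k * X := by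
    rw [hX]
    calc K ^ 400 = K * K ^ 399 := by ring
      _ ≤ K * x ^ 399 := mul_le_mul_of_nonneg_left (hKn 399) hK0.le
      _ = k * x * x ^ 399 := by rw [hkx]
      _ = k * x ^ 400 := by ring
  have hXδ : X * δ ≤ 1 / 8 := by
    have h1 : x ^ 401 * δ ≤ 1 :=
      (mul_le_mul_of_nonneg_left hSδ (by positivity)).trans (hP1 401 (by norm_num))
    have h2 : X * δ * 8 ≤ X * δ * x := mul_le_mul_of_nonneg_left (by linarith) (by positivity)
    have h3 : X * δ * x = x ^ 401 * δ := by rw [hX]; ring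
    linarith
  have up : ∀ c y : ℝ, c ≤ X → 0 ≤ y → c * y ≤ X * y := fun c y h1 h2 =>
    mul_le_mul_of_nonneg_right h1 h2
  have hXW : ∀ (c : ℝ) (n : ℕ), c ≤ 10 ^ 61 → n ≤ 15 → c * W ^ n ≤ X := fun c n h1 h2 =>
    (hKW c n h1 h2).trans hKX1
  have hXW1 : W ≤ X := hKW1.trans hKX1
  refine V6p467.v6_point (K := X) (a := a) (s := s) (l := l) (m := m) (δ := δ) (g := g) hX1 hr hρ ha
    hs0 hl.le hm.le hδ0.le hg.le hg1 hj h.hU h.hV h.hR h.tU h.tV h.tV' h.tR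
    (h.aU'.trans (up _ _ hXW1 aU0.le)) (h.aV.trans (up _ _ hXW1 ha.le))
    (h.aR.trans (up _ _ hXW1 ha.le)) (by rw [← hkU]; exact hUa) ?_ ?_ hXδ ?_ (tVU.mono hKX1) ?_ ?_
    nd1 nd3 ?_ ⟨v1, v2⟩ ⟨u1, u2⟩ ?_ ?_ ?_ ?_ ?_ ?_ ?_ i
  · rw [← hkU, ← hkV]
    exact kVkU.trans (up _ _ (hXW _ 2 (by norm_num) (by norm_num)) kU0.le)
  · rw [← hkU]
    exact kEU.trans (up _ _ hXW1 kU0.le)
  · have h1 : W * δ ≤ X * δ := up _ _ hXW1 hδ0.le
    exact ⟨n1.trans (mul_le_mul_of_nonneg_right h1 (SV.pos 1).le),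
      n2.trans (mul_le_mul_of_nonneg_right h1 (SV.pos 2).le)⟩
  · exact cc_mono h.c1 (up _ _ (by linarith) hs0.le)
  · refine cc_mono (Cuu57.close_uu h) ?_
    have h1 : 10 ^ 60 * KD ^ 7 * W ^ 15 * (2 * s) = 2 * 10 ^ 60 * KD ^ 7 * W ^ 15 * s := by ring
    rw [h1]
    refine up _ _ ?_ hs0.le
    refine le_trans ?_ hKX1
    rw [hK]
    refine mul_le_mul_of_nonneg_right ?_ (by positivity)
    linarith
  · unfold Sm at sm1
    push Not at sm1
    obtain ⟨i3, i4, h3⟩ := sm1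
    refine ⟨i3, i4, ?_⟩
    have h4 : k * s ≤ k * (X * |th (jS U U.q z0 ρ H j T) (jS U V.q z0 ρ H j T) i3 i4|) := by
      refine h3.le.trans ?_
      have h5 : 1 ≤ k * X := (one_le_pow₀ hK1).trans hkX
      have := mul_le_mul_of_nonneg_right h5
        (abs_nonneg (th (jS U U.q z0 ρ H j T) (jS U V.q z0 ρ H j T) i3 i4))
      linarith
    exact le_of_mul_le_mul_left h4 hk
  · exact fun i i' => (b2 i i').trans (up _ _ hKX hs0.le)
  · refine ⟨i1, i2, ?_⟩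
    have h4 : k * s ≤ k * (X * |th (jS U R.q z0 ρ H j T) (jS U V.q z0 ρ H j T) i1 i2|) := by
      refine l2.trans ?_
      have := mul_le_mul_of_nonneg_right hkX
        (abs_nonneg (th (jS U R.q z0 ρ H j T) (jS U V.q z0 ρ H j T) i1 i2))
      linarith
    exact le_of_mul_le_mul_left h4 hk
  · exact fun i i' k1 k2 => (m2 i i' k1 k2).trans (up _ _ hKX (by positivity))
  · exact fun i => (t2 i).trans (up _ _ hKX (by positivity))
  · have h1 := up 2 (s * δ) (by linarith) (by positivity)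
    linarith
  · rw [← hkU]
    have h1 : 2 * s * δ ≤ 2 * (W * kU) * δ := by
      have := mul_le_mul_of_nonneg_right kEU hδ0.le
      linarith
    have h2 := up _ (δ * kU) (hXW 2 1 (by norm_num) (by norm_num)) (by positivity)
    rw [pow_one] at h2
    linarith
  · have h1 : 10 ^ 13 * KD * X ^ 3 ≤ x * X ^ 3 :=
      mul_le_mul_of_nonneg_right (by linarith) (by positivity)
    have h2 : (10 ^ 13 * KD * X ^ 3) ^ 35 ≤ (x * X ^ 3) ^ 35 :=
      pow_le_pow_left₀ (by positivity) h1 35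
    have e1 : x * X ^ 3 = x ^ 1201 := by
      rw [hX, ← pow_mul]
      calc x * x ^ (400 * 3) = x ^ (1 + 400 * 3) := by rw [pow_add, pow_one]
        _ = _ := rfl
    rw [e1, ← pow_mul] at h2
    have h3 : 2 * 10 ^ 9 * (10 ^ 13 * KD * X ^ 3) ^ 35 ≤ x * x ^ (1201 * 35) :=
      mul_le_mul (by linarith) h2 (by positivity) hx0.le
    have e2 : x * x ^ (1201 * 35) = x ^ (1 + 1201 * 35) := by rw [pow_add, pow_one]
    rw [e2] at h3
    rw [← hS]
    exact (mul_le_mul_of_nonneg_right h3 hS0.le).trans (hP _ (by norm_num))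

/-- **leaf V6** -/
theorem leafV6 : Al500.LeafV6 := by
  have KDp := KD_pos
  have KD1 := KD_one
  obtain ⟨A, hA⟩ : ∃ A : ℝ, A = 10 ^ 61 * KD ^ 7 := ⟨_, rfl⟩
  have hA2 : 10 ^ 30 * KD ^ 2 ≤ A := by
    rw [hA]
    exact mul_le_mul (by norm_num) (pow_le_pow_right₀ KD1 (by norm_num)) (by positivity)
      (by positivity)
  have hA1 : 1 ≤ A := by
    have : 1 ≤ KD ^ 2 := one_le_pow₀ KD1
    linarith
  refine ⟨A + 750000, by linarith, ?_⟩
  intro qm qp L P cu cv Uf Vf W B M a w1 w2 z0 ρ zL ρL r κ E H hc hCκ hCH l m k g hl hm hk hk1 hg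
    hg1 hnum t ht t' ht' j hj hcv hlb nd1 nd2 nd3 sm1 sm2
  have uu := Adp876.uu_of_cf (C := A + 750000) (by linarith) hc hCκ hCH ht ht' hcv
  have h2 := hc.two.to1
  have hW := hc.W1
  have hB : 1 ≤ B := hW.trans hc.WB
  have hH0 : 0 < H := by omega
  have hHr : (0 : ℝ) < H := by exact_mod_cast hH0
  refine not_Gn.2 ⟨sm1, fun i => ?_⟩
  obtain ⟨dU1, dU2, dU3⟩ := hc.dmU t ht
  obtain ⟨dV1, dV2, dV3⟩ := hc.dmV t ht
  obtain ⟨dR1, dR2, dR3⟩ := hc.dmU t' ht'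
  obtain ⟨trUV, trVU⟩ := Tr.of_ang hW h2.r0 uu.hU uu.hV dU2 dU3 dV2 dV3 (hc.ang t ht)
  have angR := hc.ang t' ht'
  have kER' := hc.kE' t' ht'
  have kUV' := hc.kUV t' ht'
  have kVU' := hc.kVU t' ht'
  have upR := (hc.up t' ht').1
  rw [hcv] at nd2 sm2 angR kER' kUV' kVU' upR
  obtain ⟨trRV, trVR⟩ := Tr.of_ang hW h2.r0 uu.hR uu.hV dR2 dR3 dV2 dV3 angR
  obtain ⟨e1, e2⟩ := Gbx862.gb_close (e := (Vf (cv t)).e) (c := (Vf (cv t)).c) h2.w10 h2.w20 hH0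
    (t := L t) (t' := L t') (j := j) hlb.symm
  have n1 : |dt ((Vf (cv t)).e 1) ((L t).pos (zj z0 ρ H j) - (L t').pos (zj z0 ρ H j))| ≤
      W / H * (Vf (cv t)).w 1 := by
    refine e1.le.trans ?_
    rw [div_mul_eq_mul_div]
    exact div_le_div_of_nonneg_right dV2.1 hHr.le
  have n2 : |dt ((Vf (cv t)).e 2) ((L t).pos (zj z0 ρ H j) - (L t').pos (zj z0 ρ H j))| ≤
      W / H * (Vf (cv t)).w 2 := by
    refine e2.le.trans ?_
    rw [div_mul_eq_mul_div]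
    exact div_le_div_of_nonneg_right dV3.1 hHr.le
  have hS0 : 0 ≤ l + m + 1 / (H : ℝ) := by positivity
  have num0 := Nv601.num6 (c := A) (C := A + 750000) (n := 750000) hA1 (by linarith)
    (by push_cast; linarith) (by linarith) hB hk hk1 hg hg1 hS0 hnum
  have num : (A * W ^ 15 / k) ^ 50000 * (l + m + 1 / H) ≤ g ^ 2 := by
    refine le_trans (mul_le_mul_of_nonneg_right ?_ hS0) num0
    have h3 : A * W ^ 15 / k ≤ (A * B / k) ^ 15 := by
      rw [div_pow, mul_pow]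
      have a1 : A * W ^ 15 ≤ A ^ 15 * B ^ 15 :=
        mul_le_mul (le_self_pow₀ hA1 (by norm_num)) (pow_le_pow_left₀ (by linarith) hc.WB 15)
          (by positivity) (by positivity)
      have a2 : k ^ 15 ≤ k := pow_le_of_le_one hk.le hk1 (by norm_num)
      exact div_le_div₀ (by positivity) a1 (by positivity) a2
    calc (A * W ^ 15 / k) ^ 50000 ≤ ((A * B / k) ^ 15) ^ 50000 :=
          pow_le_pow_left₀ (by positivity) h3 _
      _ = (A * B / k) ^ (15 * 50000) := by rw [← pow_mul]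
      _ = (A * B / k) ^ 750000 := by norm_num
  exact v6_uu uu hc.E1 hc.EH hc.HE trUV trVU trVR trRV (hc.kE t ht) (hc.kE t' ht') kER'
    (hc.kVU t ht) kUV' kVU' upR hj.le n1 n2 hl hm hk hk1 hg hg1 nd1 nd2 nd3 sm1 sm2 hA.ge num i

end Crest.Agent.R136.Lv6778
end

-- ▼ part R136/Fin3_484

/-!
# R136 (S0187): the theorem (helper484)
-/

set_option autoImplicit false

namespace Crest.Agent.R136.Fin484

/-- all the leaves -/
theorem leaves : Leaves := ⟨Crest.Agent.R136.Lv6778.leafV6⟩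


/-- **dimension four** -/
theorem s0187 (K : Set (EuclideanSpace ℝ (Fin 4)))
    (hK : ∀ e : EuclideanSpace ℝ (Fin 4), ‖e‖ = 1 →
      ∃ a : EuclideanSpace ℝ (Fin 4), segment ℝ a (a + e) ⊆ K) : dimH K = 4 :=
  s0187_of leaves K hK

end Crest.Agent.R136.Fin484
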