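import Crest.Agent.R136.Fm4_808

-- ▼ part R136/Fm5_808
section

/-!
# R136 (S0187): flat tilt, pigeonhole and deep D-max (helper808)
-/

set_option autoImplicit false
set_option linter.unusedVariables false
set_option linter.unusedSectionVars false

namespace Crest.Agent.R136.Fl808

open Finset Filter Topology Crest.Agent.R136.Sh605
open Crest.Agent.R138.Ex926 (Base U)
open Crest.Agent.R138.Dp76 (Dense dpow_pos dpow_add dpow_le dpow_le_one)
open Crest.Agent.R138.Mk163 (zc zl rho alive own Negl)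
open Crest.Agent.R138.MkRef627 (lc mem_alive card_class)
open Crest.Agent.R136.K4 (Plk4)
open Crest.Agent.R136.MkA627
open Crest.Agent.R136.Dia770 (extO DeepP)

theorem Dy.hleg4 {e e' : Fin 3 → V3} {a w1 w2 : ℝ} {j k' : ℕ} (H : Dy e e' a w1 w2 j k')
    (he : Ortho e) (he' : Ortho e') (ha : 0 < a) (haw : a ≤ w2) (hw : w2 ≤ w1) :
    a * 2 ^ k' ≤ 4 * w2 := by
  have hw2 : 0 < w2 := ha.trans_le haw
  have hw1 : 0 < w1 := hw2.trans_le hw
  have hj : (0:ℝ) < 2 ^ j := by positivity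
  have h21 := H.b21
  have h01 := H.b01
  have hR : |dt (e' 1) (e 0)| * w1 ≤ 2 * (2 ^ j * w2) := by
    have h1 := dt_expand he (e' 1) (e' 1)
    have h2 := dt_expand he' (e 1) (e 1)
    have u1 : dt (e' 1) (e' 1) = 1 := by have := he' 1 1; simpa using this
    have u2 : dt (e 1) (e 1) = 1 := by have := he 1 1; simpa using this
    rw [u1, dt_comm (e 0), dt_comm (e 1) (e' 1), dt_comm (e 2) (e' 1)] at h1
    rw [u2, dt_comm (e 1) (e' 0), dt_comm (e 1) (e' 1), dt_comm (e 1) (e' 2)] at h2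
    have h3 : dt (e' 1) (e 0) ^ 2 ≤ dt (e' 0) (e 1) ^ 2 + dt (e' 2) (e 1) ^ 2 := by
      nlinarith [sq_nonneg (dt (e' 1) (e 2))]
    set x := |dt (e' 1) (e 0)| with hx
    set y := |dt (e' 0) (e 1)| with hy
    set z := |dt (e' 2) (e 1)| with hz
    have h4 : x ^ 2 ≤ y ^ 2 + z ^ 2 := by
      rw [hx, hy, hz, sq_abs, sq_abs, sq_abs]; exact h3
    have hy0 : 0 ≤ y := abs_nonneg _
    have hz0 : 0 ≤ z := abs_nonneg _
    have hx0 : 0 ≤ x := abs_nonneg _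
    have h5 : x ≤ y + z := by nlinarith
    calc x * w1 ≤ (y + z) * w1 := by gcongr
      _ = y * w1 + z * w1 := by ring
      _ ≤ _ := by linarith
  have fin : ∀ y : ℝ, y ≤ 2 * (2 ^ j * w2) → 2 ^ k' * (2 ^ j * a) ≤ 2 * y → a * 2 ^ k' ≤ 4 * w2 := by
    intro y h1 h2
    have h3 : 2 ^ j * (a * 2 ^ k') ≤ 2 ^ j * (4 * w2) := by
      calc 2 ^ j * (a * 2 ^ k') = 2 ^ k' * (2 ^ j * a) := by ring
        _ ≤ 2 * (2 * (2 ^ j * w2)) := by linarith
        _ ≤ _ := by linarith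
    exact le_of_mul_le_mul_left h3 hj
  have hp : 0 < 2 ^ j * w2 := by positivity
  rcases H.tlo with h | h | h | h | h
  · rw [h, pow_zero, mul_one]; linarith
  · exact fin _ hR h
  · refine fin _ ?_ h
    have := abs_dt_le_one he he' 2 0
    have : |dt (e' 2) (e 0)| * w2 ≤ 1 * w2 := by gcongr
    have : 2 ^ j * (|dt (e' 2) (e 0)| * w2) ≤ 2 ^ j * (1 * w2) := by gcongr
    linarith
  · exact fin _ (by linarith) h
  · refine fin _ ?_ h
    have := abs_dt_le_one he he' 0 2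
    have : |dt (e' 0) (e 2)| * w2 ≤ 1 * w2 := by gcongr
    have : 2 ^ j * (|dt (e' 0) (e 2)| * w2) ≤ 2 ^ j * (1 * w2) := by gcongr
    linarith

/-- total depth -/
theorem Dy.total {e e' : Fin 3 → V3} {a w1 w2 : ℝ} {j k' : ℕ} (H : Dy e e' a w1 w2 j k')
    (he : Ortho e) (he' : Ortho e') (ha : 0 < a) (haw : a ≤ w2) (hw : w2 ≤ w1) :
    2 ^ (k' + j) * a ≤ 8 * w1 := by
  have h1 := H.hleg4 he he' ha haw hw
  have h2 := H.hlw he he' ha haw hw
  have hj : (0:ℝ) < 2 ^ j := by positivity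
  calc 2 ^ (k' + j) * a = 2 ^ j * (a * 2 ^ k') := by rw [pow_add]; ring
    _ ≤ 2 ^ j * (4 * w2) := by gcongr
    _ = 4 * (2 ^ j * w2) := by ring
    _ ≤ _ := by linarith

/-! ### pigeonhole -/

open Classical in
theorem dense_of_not_negl {B : Base} {I : ℕ → Finset (ℕ × ℝ)} {P : ℕ → ℕ × ℝ → Prop}
    (h : ¬ Negl B I P) : Dense B (fun n => (I n).filter (P n)) I := by
  refine ⟨Eventually.of_forall fun n => filter_subset _ _, fun η hη => ?_⟩
  by_contra hc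
  apply h
  refine ⟨η, hη, ?_⟩
  have h1 : ∀ᶠ n in (U : Filter ℕ), ¬ (B.d n ^ η * ((I n).card : ℝ) ≤
      (((I n).filter (P n)).card : ℝ)) := Ultrafilter.eventually_not.2 hc
  filter_upwards [h1] with n hn
  exact (not_le.1 hn).le

open Classical in
/-- a function with few values is constant on a dense part -/
theorem exists_const {B : Base} {J : ℕ → Finset (ℕ × ℝ)} (F : ℕ → ℕ × ℝ → ℕ)
    (hF : ∀ ε : ℝ, 0 < ε → ∀ᶠ n in (U : Filter ℕ), ∀ x ∈ J n, (F n x : ℝ) ≤ B.d n ^ (-ε)) :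
    ∃ k : ℕ → ℕ, Dense B (fun n => (J n).filter fun x => F n x = k n) J := by
  have hex : ∀ n, ∃ k, ∀ k', (((J n).filter fun x => F n x = k').card : ℝ) ≤
      (((J n).filter fun x => F n x = k).card : ℝ) := by
    intro n
    rcases ((J n).image (F n)).eq_empty_or_nonempty with h | h
    · refine ⟨0, fun k' => ?_⟩
      rw [image_eq_empty] at h
      rw [h]
      simp
    · obtain ⟨k, hk, hm⟩ := exists_max_image ((J n).image (F n))
        (fun k => ((J n).filter fun x => F n x = k).card) h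
      refine ⟨k, fun k' => ?_⟩
      by_cases hk' : k' ∈ (J n).image (F n)
      · exact_mod_cast hm k' hk'
      · have : (J n).filter (fun x => F n x = k') = ∅ := by
          rw [filter_eq_empty_iff]
          intro x hx hxk
          exact hk' (mem_image.2 ⟨x, hx, hxk⟩)
        rw [this]
        simp
  choose k hk using hex
  refine ⟨k, Eventually.of_forall fun n => filter_subset _ _, fun η hη => ?_⟩
  have h2 : 0 < η / 2 := by linarith
  filter_upwards [hF (η / 2) h2, const_le B 2 h2] with n h3 h4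
  have h5 : ((J n).card : ℝ) ≤ (B.d n ^ (-(η / 2)) + 1) *
      (((J n).filter fun x => F n x = k n).card : ℝ) := by
    refine Crest.Agent.R136.Deep51.card_le_of_fib (J n) ((J n).image (F n)) (F n)
      (fun x hx => mem_image_of_mem _ hx) (Nat.cast_nonneg _) ?_ (fun c _ => hk n c)
    have h6 : (J n).image (F n) ⊆ range (⌊B.d n ^ (-(η / 2))⌋₊ + 1) := by
      intro c hc
      obtain ⟨x, hx, rfl⟩ := mem_image.1 hc
      rw [mem_range, Nat.lt_add_one_iff]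
      exact Nat.le_floor (h3 x hx)
    have h7 := card_le_card h6
    rw [card_range] at h7
    have h8 : (((J n).image (F n)).card : ℝ) ≤ (⌊B.d n ^ (-(η / 2))⌋₊ : ℝ) + 1 := by
      exact_mod_cast h7
    have h9 := Nat.floor_le (dpow_pos B n (-(η / 2))).le
    linarith
  have hK : (0:ℝ) ≤ (((J n).filter fun x => F n x = k n).card : ℝ) := Nat.cast_nonneg _
  set K := (((J n).filter fun x => F n x = k n).card : ℝ) with hKd
  have hd := dpow_pos B n (η / 2)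
  have e1 : B.d n ^ (η / 2) * B.d n ^ (-(η / 2)) = 1 := by rw [← dpow_add]; simp
  have e2 : B.d n ^ η = B.d n ^ (η / 2) * B.d n ^ (η / 2) := by rw [← dpow_add]; congr 1; ring
  have h10 : B.d n ^ (-(η / 2)) + 1 ≤ B.d n ^ (-(η / 2)) * 2 := by linarith
  have h11 : B.d n ^ (η / 2) * 2 ≤ 1 := by
    calc B.d n ^ (η / 2) * 2 ≤ B.d n ^ (η / 2) * B.d n ^ (-(η / 2)) := by gcongr
      _ = 1 := e1
  calc B.d n ^ η * ((J n).card : ℝ) ≤ B.d n ^ η * ((B.d n ^ (-(η / 2)) + 1) * K) := by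
        have := dpow_pos B n η
        gcongr
    _ ≤ B.d n ^ η * ((B.d n ^ (-(η / 2)) * 2) * K) := by
        have := dpow_pos B n η
        gcongr
    _ = (B.d n ^ (η / 2) * B.d n ^ (-(η / 2))) * (B.d n ^ (η / 2) * 2) * K := by rw [e2]; ring
    _ ≤ 1 * 1 * K := by rw [e1]; gcongr
    _ = K := by ring

/-! ### deep D-max, box form -/


end Crest.Agent.R136.Fl808
end

-- ▼ part R136/Fm6_808
section

/-!
# R136 (S0187): flat tilt, numbers of one stage (helper808)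
-/

set_option autoImplicit false
set_option linter.unusedVariables false
set_option linter.unusedSectionVars false

namespace Crest.Agent.R136.Fl808

open Finset Filter Topology Crest.Agent.R136.Sh605
open Crest.Agent.R138.Ex926 (Base U)
open Crest.Agent.R138.Dp76 (Dense dpow_pos dpow_add dpow_le dpow_le_one)
open Crest.Agent.R138.Mk163 (zc zl rho alive own Negl)
open Crest.Agent.R138.MkRef627 (lc mem_alive card_class)

theorem L_le (B : Base) (n : ℕ) {ε : ℝ} (hε : 0 < ε) : B.L n ≤ 1 / ε * B.d n ^ (-ε) := by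
  rw [dpow_exp]
  have h1 := Real.add_one_le_exp (-(-ε * B.L n))
  rw [div_mul_eq_mul_div, one_mul, le_div_iff₀ hε]
  have : -(-ε * B.L n) = ε * B.L n := by ring
  rw [this] at h1 ⊢
  linarith

/-- the six entries, abstractly: `r21 = w2 / w1`, `r02 = a / w2`, `r01 = a / w1` -/
def Six (e e' : Fin 3 → V3) (r21 r02 r01 : ℝ) : Prop :=
  (|dt (e 1) (e' 2)| ≤ r21 ∧ |dt (e 2) (e' 1)| ≤ r21) ∧
  (|dt (e 0) (e' 2)| ≤ r02 ∧ |dt (e 2) (e' 0)| ≤ r02) ∧
  (|dt (e 0) (e' 1)| ≤ r01 ∧ |dt (e 1) (e' 0)| ≤ r01)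

theorem Six.mono {e e' : Fin 3 → V3} {r21 r02 r01 s21 s02 s01 : ℝ} (h : Six e e' r21 r02 r01)
    (h1 : r21 ≤ s21) (h2 : r02 ≤ s02) (h3 : r01 ≤ s01) : Six e e' s21 s02 s01 :=
  ⟨⟨h.1.1.trans h1, h.1.2.trans h1⟩, ⟨h.2.1.1.trans h2, h.2.1.2.trans h2⟩,
    ⟨h.2.2.1.trans h3, h.2.2.2.trans h3⟩⟩


/-- entries from the dyadic tilts -/
theorem six_of_dy {e e' : Fin 3 → V3} {a w1 w2 a0 w10 w20 K : ℝ} {j k' : ℕ}
    (H : Dy e e' a w1 w2 j k') (he : Ortho e) (he' : Ortho e') (ha : 0 < a) (haw : a ≤ w2)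
    (hw : w2 ≤ w1) (h20 : 0 < w20) (h10 : 0 < w10) (ha1 : a ≤ K * a0) (hw2 : w2 ≤ K * w20)
    (hw2' : w20 ≤ w2) (hw1' : w10 ≤ w1) :
    Six e e' (w20 / w10 * (2 * K * 2 ^ (k' + j))) (a0 / w20 * (2 * K * 2 ^ (k' + j)))
      (a0 / w10 * (2 * K * 2 ^ (k' + j))) := by
  have pw2 : 0 < w2 := ha.trans_le haw
  have pw1 : 0 < w1 := pw2.trans_le hw
  have hj : (1:ℝ) ≤ 2 ^ j := one_le_pow₀ (by norm_num)
  have hk : (1:ℝ) ≤ 2 ^ k' := one_le_pow₀ (by norm_num)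
  have hj0 : (0:ℝ) < 2 ^ j := by positivity
  have hk0 : (0:ℝ) < 2 ^ k' := by positivity
  have b12 := H.b12 he he' ha haw hw
  -- base entries
  have base : ∀ x : ℝ, |x| * w1 ≤ 2 * (2 ^ j * w2) → |x| ≤ w20 / w10 * (2 * K * 2 ^ (k' + j)) := by
    intro x hx
    rw [div_mul_eq_mul_div, le_div_iff₀ h10, pow_add]
    have hKw : 0 < K * w20 := pw2.trans_le hw2
    calc |x| * w10 ≤ |x| * w1 := by gcongr
      _ ≤ 2 * (2 ^ j * w2) := hx
      _ ≤ 2 * (2 ^ j * (K * w20)) := by gcongr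
      _ = 2 * 1 * 2 ^ j * (K * w20) := by ring
      _ ≤ 2 * 2 ^ k' * 2 ^ j * (K * w20) := by gcongr
      _ = _ := by ring
  have hKa : 0 < K * a0 := ha.trans_le ha1
  have thin1 : ∀ x : ℝ, |x| * w1 ≤ 2 ^ k' * (2 ^ j * a) → |x| ≤
      a0 / w10 * (2 * K * 2 ^ (k' + j)) := by
    intro x hx
    rw [div_mul_eq_mul_div, le_div_iff₀ h10, pow_add]
    calc |x| * w10 ≤ |x| * w1 := by gcongr
      _ ≤ 2 ^ k' * (2 ^ j * a) := hx
      _ ≤ 2 ^ k' * (2 ^ j * (K * a0)) := by gcongr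
      _ ≤ 2 * (2 ^ k' * (2 ^ j * (K * a0))) := by
        have : 0 < 2 ^ k' * (2 ^ j * (K * a0)) := by positivity
        linarith
      _ = _ := by ring
  have thin2 : ∀ x : ℝ, 2 ^ j * (|x| * w2) ≤ 2 ^ k' * (2 ^ j * a) → |x| ≤
      a0 / w20 * (2 * K * 2 ^ (k' + j)) := by
    intro x hx
    have hx' : |x| * w2 ≤ 2 ^ k' * a := by
      have : 2 ^ j * (|x| * w2) ≤ 2 ^ j * (2 ^ k' * a) := hx.trans (le_of_eq (by ring))
      exact le_of_mul_le_mul_left this hj0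
    rw [div_mul_eq_mul_div, le_div_iff₀ h20, pow_add]
    calc |x| * w20 ≤ |x| * w2 := by gcongr
      _ ≤ 2 ^ k' * a := hx'
      _ ≤ 2 ^ k' * (K * a0) := by gcongr
      _ = 1 * (2 ^ k' * (K * a0)) * 1 := by ring
      _ ≤ 2 * (2 ^ k' * (K * a0)) * 2 ^ j := by gcongr; norm_num
      _ = _ := by ring
  have hp : 0 < 2 ^ j * w2 := by positivity
  refine ⟨⟨?_, ?_⟩, ⟨?_, ?_⟩, ⟨?_, ?_⟩⟩
  · rw [dt_comm]; exact base _ (by linarith [H.b21])
  · rw [dt_comm]; exact base _ b12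
  · rw [dt_comm]; exact thin2 _ H.t20
  · rw [dt_comm]; exact thin2 _ H.t02
  · rw [dt_comm]; exact thin1 _ H.t10
  · rw [dt_comm]; exact thin1 _ H.t01

/-! ### D-max -/

theorem rho_le_one (i : ℕ) : rho i ≤ 1 := by
  unfold rho
  rw [div_le_one (by positivity)]
  exact one_le_pow₀ (by norm_num)


/-- the defect -/
noncomputable def WW (B : Base) (n k0 : ℕ) (E Q g δ ε1 : ℝ) : ℝ :=
  (200 * E) ^ (3 + Q) * ((10 ^ 6 * E) ^ 6 * B.d n ^ (-(2 * ε1) - g * δ) * (2 ^ k0) ^ Q) *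
    (2 ^ k0 * (16 * 4 ^ k0)) * B.d n ^ (δ - ε1)

theorem WW_pos (B : Base) (n k0 : ℕ) {E Q g δ ε1 : ℝ} (hE : 1 ≤ E) : 0 < WW B n k0 E Q g δ ε1 := by
  have h1 := dpow_pos B n (-(2 * ε1) - g * δ)
  have h2 := dpow_pos B n (δ - ε1)
  unfold WW
  positivity

theorem WW_log {B : Base} {n k0 : ℕ} {E Q g δ ε1 C1 : ℝ} (hE : E = B.d n ^ (-(C1 * δ) - ε1))
    (hC1 : 0 ≤ C1) (hδ : 0 ≤ δ) (hε1 : 0 ≤ ε1) (hQ : 0 ≤ Q)
    (h2k : (2:ℝ) ^ k0 ≤ B.d n ^ (-δ - ε1)) :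
    Real.log (WW B n k0 E Q g δ ε1 / (B.d n ^ (2 * ε1) / 4)) ≤
      ((3 + Q) * Real.log 200 + 6 * Real.log (10 ^ 6) + Real.log 16 + Real.log 4) +
      (((9 + Q) * C1 + g + Q + 3) * δ + (2 * Q + 17) * ε1) * B.L n := by
  have hL := B.L_pos n
  have hE0 : 0 < E := by rw [hE]; exact dpow_pos B n _
  have hE1 : 1 ≤ E := by
    rw [hE]
    have := dpow_le B n (show -(C1 * δ) - ε1 ≤ 0 by nlinarith [mul_nonneg hC1 hδ])
    rwa [Real.rpow_zero] at this
  have d1 := dpow_pos B n (-(2 * ε1) - g * δ)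
  have d2 := dpow_pos B n (δ - ε1)
  have d3 := dpow_pos B n (2 * ε1)
  have lE : Real.log E = (C1 * δ + ε1) * B.L n := by
    rw [hE, dpow_exp, Real.log_exp]; ring
  have l1 : Real.log (B.d n ^ (-(2 * ε1) - g * δ)) = (2 * ε1 + g * δ) * B.L n := by
    rw [dpow_exp, Real.log_exp]; ring
  have l2 : Real.log (B.d n ^ (δ - ε1)) = (ε1 - δ) * B.L n := by
    rw [dpow_exp, Real.log_exp]; ring
  have l3 : Real.log (B.d n ^ (2 * ε1)) = -(2 * ε1) * B.L n := by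
    rw [dpow_exp, Real.log_exp]; ring
  have lk : Real.log ((2:ℝ) ^ k0) ≤ (δ + ε1) * B.L n := by
    have := Real.log_le_log (by positivity) h2k
    rw [dpow_exp, Real.log_exp] at this
    linarith
  have lk0 : 0 ≤ Real.log ((2:ℝ) ^ k0) := Real.log_nonneg (one_le_pow₀ (by norm_num))
  have l4 : Real.log ((4:ℝ) ^ k0) = 2 * Real.log ((2:ℝ) ^ k0) := by
    have : (4:ℝ) ^ k0 = (2 ^ k0) ^ 2 := by rw [← pow_mul, mul_comm, pow_mul]; norm_num
    rw [this, Real.log_pow]; norm_num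
  have l5 : Real.log ((200 * E) ^ (3 + Q)) = (3 + Q) * (Real.log 200 + Real.log E) := by
    rw [Real.log_rpow (by positivity), Real.log_mul (by norm_num) hE0.ne']
  have l6 : Real.log ((10 ^ 6 * E) ^ 6) = 6 * (Real.log (10 ^ 6) + Real.log E) := by
    rw [Real.log_pow, Real.log_mul (by norm_num) hE0.ne']; norm_num
  have l7 : Real.log (((2:ℝ) ^ k0) ^ Q) = Q * Real.log ((2:ℝ) ^ k0) :=
    Real.log_rpow (by positivity) _
  have hWp := WW_pos B n k0 hE1 (Q := Q) (g := g) (δ := δ) (ε1 := ε1)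
  have hW : Real.log (WW B n k0 E Q g δ ε1) = (3 + Q) * (Real.log 200 + Real.log E) +
      (6 * (Real.log (10 ^ 6) + Real.log E) + Real.log (B.d n ^ (-(2 * ε1) - g * δ)) +
        Q * Real.log ((2:ℝ) ^ k0)) + (Real.log ((2:ℝ) ^ k0) + (Real.log 16 +
        2 * Real.log ((2:ℝ) ^ k0))) + Real.log (B.d n ^ (δ - ε1)) := by
    rw [← l7, ← l6, ← l5, ← l4]
    unfold WW
    have p5 : (200 * E) ^ (3 + Q) ≠ 0 := by positivity
    have p6 : (10 ^ 6 * E) ^ 6 ≠ 0 := by positivity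
    have p7 : ((2:ℝ) ^ k0) ^ Q ≠ 0 := by positivity
    have p2 : (2:ℝ) ^ k0 ≠ 0 := by positivity
    have p4 : (4:ℝ) ^ k0 ≠ 0 := by positivity
    generalize (200 * E) ^ (3 + Q) = x5 at *
    generalize (10 ^ 6 * E) ^ 6 = x6 at *
    generalize ((2:ℝ) ^ k0) ^ Q = x7 at *
    generalize (2:ℝ) ^ k0 = x2 at *
    generalize (4:ℝ) ^ k0 = x4 at *
    generalize B.d n ^ (-(2 * ε1) - g * δ) = y1 at *
    generalize B.d n ^ (δ - ε1) = y2 at *
    have q1 := d1.ne'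
    have q2 := d2.ne'
    rw [Real.log_mul (by positivity) q2, Real.log_mul (by positivity) (by positivity),
      Real.log_mul p5 (by positivity), Real.log_mul (by positivity) p7,
      Real.log_mul p6 q1, Real.log_mul p2 (by positivity),
      Real.log_mul (by norm_num) p4]
  rw [Real.log_div hWp.ne' (by positivity), Real.log_div d3.ne' (by norm_num), hW, l1,
    l2, l3, lE]
  have p1 : Q * Real.log ((2:ℝ) ^ k0) ≤ Q * ((δ + ε1) * B.L n) := by gcongr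
  have p2 := mul_nonneg hδ hL.le
  nlinarith [p1, p2, lk]

end Crest.Agent.R136.Fl808
end

-- ▼ part R136/Fm7_808
section

/-!
# R136 (S0187): flat tilt, one stage of the sequence (helper808)
-/

set_option autoImplicit false
set_option linter.unusedVariables false
set_option linter.unusedSectionVars false

namespace Crest.Agent.R136.Fl808

open Finset Filter Topology Crest.Agent.R136.Sh605
open Crest.Agent.R138.Ex926 (Base U)
open Crest.Agent.R138.Dp76 (Dense dpow_pos dpow_add dpow_le dpow_le_one)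
open Crest.Agent.R138.Mk163 (zc zl rho alive own Negl)
open Crest.Agent.R138.MkRef627 (lc mem_alive card_class)
open Crest.Agent.R136.K4 (Plk4)
open Crest.Agent.R136.MkA627
open Crest.Agent.R136.Dia770 (extO DeepP extO_anc)

theorem DMaxP.sub {P P' : Finset (ℕ × ℤ)} {L : ℕ → Ln4} {m : ℕ} {D q0 q1 q2 r0 ω1 ω2 R0 R2 Ra : ℝ}
    (h : DMaxP P L m D q0 q1 q2 r0 ω1 ω2 R0 R2 Ra) (hP : P' ⊆ P) :
    DMaxP P' L m D q0 q1 q2 r0 ω1 ω2 R0 R2 Ra :=
  fun c => (h c).sub (image_subset_image (filter_subset_filter _ hP))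


theorem one_le_dpow (B : Base) (n : ℕ) {x : ℝ} (hx : x ≤ 0) : 1 ≤ B.d n ^ x := by
  have := dpow_le B n hx
  rwa [Real.rpow_zero] at this

section

variable {B : Base} {n : ℕ} {J : Finset (ℕ × ℝ)} {L : ℕ → Ln4} {lu lv l1 k0 : ℕ}
  {fu fv : ℕ → ℤ → ℕ} {bu bv : ℕ → Plk4}
  {au w1u w2u av w1v w2v Aa gu q0 q1 q2 g r0 ω1 ω2 κ0 κ1 κ2 δ ε1 ε2 γ C1 : ℝ} {j k' : ℕ}
  {Pj P P' : Finset (ℕ × ℤ)}


end

end Crest.Agent.R136.Fl808
end

-- ▼ part R136/Fm8_808
section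

/-!
# R136 (S0187): flat tilt, dyadic tilts of a dense part (helper808)
-/

set_option autoImplicit false
set_option linter.unusedVariables false
set_option linter.unusedSectionVars false

namespace Crest.Agent.R136.Fl808

open Finset Filter Topology Crest.Agent.R136.Sh605
open Crest.Agent.R138.Ex926 (Base U)
open Crest.Agent.R138.Dp76 (Dense dpow_pos dpow_add dpow_le dpow_le_one)
open Crest.Agent.R138.Mk163 (zc zl rho alive own Negl)
open Crest.Agent.R138.MkRef627 (lc mem_alive card_class)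
open Crest.Agent.R136.K4 (Plk4)
open Crest.Agent.R136.MkA627
open Crest.Agent.R136.Dia770 (extO DeepP extO_anc)

/-- frame of the mark of level `v` of the incidence `x` -/
noncomputable def frm (lev : ℕ → ℚ → ℕ) (f : ℕ → ℚ → ℕ → ℤ → ℕ) (b : ℕ → ℚ → ℕ → Plk4) (n : ℕ) (v : ℚ)
    (x : ℕ × ℝ) : Fin 3 → V3 := (b n v (f n v x.1 (zc (lev n v) x.2))).e

/-- common thickness of the marks of levels `u`, `v` -/
noncomputable def dA (w : Fin 3 → ℕ → ℚ → ℝ) (n : ℕ) (u v : ℚ) : ℝ := aC (w 0 n u) (w 0 n v)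

/-- common widths of the marks of levels `u`, `v` -/
noncomputable def dW (lev : ℕ → ℚ → ℕ) (w : Fin 3 → ℕ → ℚ → ℝ) (i : Fin 3) (n : ℕ) (u v : ℚ) : ℝ :=
  wC (lev n v - lev n u) (w 0 n u) (w 0 n v) (w i n u) (w i n v)

/-- dyadic tilts of the marks of levels `u`, `v` along `x` -/
def DyA (lev : ℕ → ℚ → ℕ) (f : ℕ → ℚ → ℕ → ℤ → ℕ) (b : ℕ → ℚ → ℕ → Plk4) (w : Fin 3 → ℕ → ℚ → ℝ)
    (n : ℕ) (u v : ℚ) (x : ℕ × ℝ) (j k : ℕ) : Prop :=
  Dy (frm lev f b n u x) (frm lev f b n v x) (dA w n u v) (dW lev w 1 n u v) (dW lev w 2 n u v) j k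

/-- sum of the slopes -/
def cTh (θ : Fin 3 → ℝ) : ℝ := |θ 0| + |θ 1| + |θ 2| + 1

theorem cTh_ge (θ : Fin 3 → ℝ) (j : Fin 3) : |θ j| + 1 ≤ cTh θ := by
  have h0 := abs_nonneg (θ 0)
  have h1 := abs_nonneg (θ 1)
  have h2 := abs_nonneg (θ 2)
  unfold cTh
  fin_cases j
  · simp only [Fin.zero_eta]; linarith
  · simp only [Fin.mk_one]; linarith
  · simp only [Fin.reduceFinMk]; linarith

theorem cTh_nonneg (θ : Fin 3 → ℝ) : 0 ≤ cTh θ := by
  have := cTh_ge θ 0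
  have := abs_nonneg (θ 0)
  linarith

section

variable {B : Base} {I : ℕ → Finset (ℕ × ℝ)} {G : Geo Plk4 (Fin 3)} {lev : ℕ → ℚ → ℕ}
    {A : ℕ → ℝ} {g : ℝ} {θ : Fin 3 → ℝ} {f : ℕ → ℚ → ℕ → ℤ → ℕ} {b : ℕ → ℚ → ℕ → Plk4}
    {vm : ℕ → ℚ → ℝ} {w : Fin 3 → ℕ → ℚ → ℝ} {L : ℕ → ℕ → Ln4} {r0 : ℕ → ℝ} {q : Fin 3 → ℝ}

/-- all widths are comparable -/
theorem comp_ev (h : MkF B I G lev A g θ f b vm w) {u v : ℚ} (hu : 0 ≤ u)
    (huv : u ≤ v) (hv : v ≤ 1) {ε : ℝ} (hε : 0 < ε) : ∀ᶠ n in (U : Filter ℕ), ∀ j : Fin 3,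
      w j n u ≤ B.d n ^ (-(cTh θ * ((v:ℝ) - u)) - ε) * w j n v ∧
      w j n v ≤ B.d n ^ (-(cTh θ * ((v:ℝ) - u)) - ε) * w j n u := by
  rw [Filter.eventually_all]
  intro j
  filter_upwards [wid_comp h j hu huv hv hε, h.wpos j u hu (huv.trans hv),
    h.wpos j v (hu.trans huv) hv] with n hn p1 p2
  have hvu : (0:ℝ) ≤ (v:ℝ) - u := by
    have : (u:ℝ) ≤ v := by exact_mod_cast huv
    linarith
  have h1 : B.d n ^ (-((|θ j| + 1) * ((v:ℝ) - u)) - ε) ≤
      B.d n ^ (-(cTh θ * ((v:ℝ) - u)) - ε) := by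
    refine dpow_le B n ?_
    have := mul_le_mul_of_nonneg_right (cTh_ge θ j) hvu
    linarith
  exact ⟨hn.1.trans (by gcongr), hn.2.trans (by gcongr)⟩

/-- frames are orthonormal -/
theorem frm_ortho (h : MkF B I G lev A g θ f b vm w) (hG : GeoOk G L r0 q) {v : ℚ} (hv0 : 0 ≤ v)
    (hv1 : v ≤ 1) : ∀ᶠ n in (U : Filter ℕ), ∀ x ∈ I n, Ortho (frm lev f b n v x) := by
  filter_upwards [h.mark v hv0 hv1] with n hm x hx
  obtain ⟨m1, m2, m3, m4⟩ := hm (zc (lev n v) x.2) x.1 (mem_alive.2 ⟨x, hx, rfl, rfl⟩)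
  exact (hG.adm _ _ _ _ m2).1.ortho

/-- facts of the common dimensions -/
theorem dAW (h : MkF B I G lev A g θ f b vm w) (hG : GeoOk G L r0 q) (hr0 : ∀ n, 0 < r0 n)
    {u v : ℚ} (hu : 0 ≤ u) (huv : u ≤ v) (hv : v ≤ 1) {ε : ℝ} (hε : 0 < ε) :
    ∀ᶠ n in (U : Filter ℕ), 40 * r0 n ≤ dA w n u v ∧ dA w n u v ≤ dW lev w 2 n u v ∧
      dW lev w 2 n u v ≤ dW lev w 1 n u v ∧
      dA w n u v ≤ 40 * B.d n ^ (-(cTh θ * ((v:ℝ) - u)) - ε) * w 0 n v ∧
      dW lev w 1 n u v ≤ 200 * B.d n ^ (-(cTh θ * ((v:ℝ) - u)) - ε) * w 1 n v ∧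
      dW lev w 2 n u v ≤ 200 * B.d n ^ (-(cTh θ * ((v:ℝ) - u)) - ε) * w 2 n v ∧
      w 1 n v ≤ dW lev w 1 n u v ∧ w 2 n v ≤ dW lev w 2 n u v ∧
      (dA w n u v ≤ rho (lev n v) → dW lev w 1 n u v ≤ 5 * rho (lev n v)) := by
  filter_upwards [dims h hG hr0 hu (huv.trans hv), dims h hG hr0 (hu.trans huv) hv,
    comp_ev h hu huv hv hε, lev_pow h hu huv hv hε] with n d1 d2 hc hl
  obtain ⟨a1, a2, a3, a4, -⟩ := d1
  obtain ⟨b1, b2, b3, b4, -⟩ := d2
  have pu : 0 < w 0 n u := (hr0 n).trans_le a1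
  have pv : 0 < w 0 n v := (hr0 n).trans_le b1
  have hvu : (0:ℝ) ≤ (v:ℝ) - u := by
    have : (u:ℝ) ≤ v := by exact_mod_cast huv
    linarith
  have hE : 1 ≤ B.d n ^ (-(cTh θ * ((v:ℝ) - u)) - ε) := one_le_dpow B n (by
    have := mul_nonneg (cTh_nonneg θ) hvu; linarith)
  have hA : 0 < dA w n u v := aC_pos pu
  have e1 : 5 * dA w n u v ≤ dW lev w 2 n u v := wC_a
  have e2 : 5 * w 1 n v ≤ dW lev w 1 n u v := wC_v
  have e3 : 5 * w 2 n v ≤ dW lev w 2 n u v := wC_v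
  refine ⟨?_, by linarith, wC_mono a3 b3, aC_leV pv hE (hc 0).1,
    wC_leV pv (b2.trans b3) hE (hc 0).1 (hc 1).1, wC_leV pv b2 hE (hc 0).1 (hc 2).1, by linarith,
    by linarith, ?_⟩
  · have : w 0 n u ≤ max (w 0 n u) (w 0 n v) := le_max_left _ _
    unfold dA aC; linarith
  · intro hρ
    unfold dW wC
    refine mul_le_mul_of_nonneg_left (max_le (max_le b4 ?_) hρ) (by norm_num)
    rw [div_le_iff₀ (by positivity)]
    rw [rho_two hl.1] at a4
    exact a4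

open Classical in
/-- **(D) dyadic tilts are constant on a dense marked part** -/
theorem exists_dyA (h : MkF B I G lev A g θ f b vm w) (hG : GeoOk G L r0 q) (hr0 : ∀ n, 0 < r0 n)
    (hlog : ∀ ε : ℝ, 0 < ε → ∀ᶠ n in (U : Filter ℕ), Real.log (1 / r0 n) ≤ B.d n ^ (-ε))
    {u v : ℚ} (hu : 0 ≤ u) (huv : u ≤ v) (hv : v ≤ 1) {J0 : ℕ → Finset (ℕ × ℝ)}
    (hJ0 : Dense B J0 I) :
    ∃ (J : ℕ → Finset (ℕ × ℝ)) (j k : ℕ → ℕ), (∀ n, J n ⊆ J0 n) ∧ Dense B J J0 ∧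
      MkF B J G lev A g θ f b vm w ∧
      ∀ᶠ n in (U : Filter ℕ), ∀ x ∈ J n, DyA lev f b w n u v x (j n) (k n) := by
  have hvu : (0:ℝ) ≤ (v:ℝ) - u := by
    have : (u:ℝ) ≤ v := by exact_mod_cast huv
    linarith
  -- choice
  set F : ℕ → ℕ × ℝ → ℕ × ℕ := fun n x =>
    if hx : ∃ p : ℕ × ℕ, DyA lev f b w n u v x p.1 p.2 then hx.choose else (0, 0) with hF
  have hFs : ∀ᶠ n in (U : Filter ℕ), ∀ x, DyA lev f b w n u v x (F n x).1 (F n x).2 := by
    filter_upwards [dAW h hG hr0 hu huv hv one_pos] with n hn x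
    obtain ⟨a1, a2, -⟩ := hn
    have hA : 0 < dA w n u v := lt_of_lt_of_le (by have := hr0 n; linarith) a1
    obtain ⟨j, k, hjk⟩ := exists_dy (frm lev f b n u x) (frm lev f b n v x)
      (w1 := dW lev w 1 n u v) hA (hA.trans_le a2)
    have hex : ∃ p : ℕ × ℕ, DyA lev f b w n u v x p.1 p.2 := ⟨(j, k), hjk⟩
    simp only [hF, dif_pos hex]
    exact hex.choose_spec
  -- bound
  have hbd : ∀ ε : ℝ, 0 < ε → ∀ᶠ n in (U : Filter ℕ), ∀ x ∈ I n,
      (((F n x).2 + (F n x).1 : ℕ) : ℝ) ≤ B.d n ^ (-ε) := by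
    intro ε hε
    have hε2 : 0 < ε / 2 := by linarith
    have hT := cTh_nonneg θ
    filter_upwards [hFs, dAW h hG hr0 hu huv hv one_pos, frm_ortho h hG hu (huv.trans hv),
      frm_ortho h hG (hu.trans huv) hv, dims h hG hr0 (hu.trans huv) hv, hlog (ε / 2) hε2,
      const_le B (2 * (800 + (cTh θ * ((v:ℝ) - u) + 1) * (1 / (ε / 2)) + 1)) hε2]
      with n h1 h2 h3 h4 h5 h6 h7 x hx
    obtain ⟨a1, a2, a3, a4, a5, -⟩ := h2
    have hr := hr0 n
    have hA : 0 < dA w n u v := by linarith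
    have ht := (h1 x).total (h3 x hx) (h4 x hx) hA a2 a3
    have hE : 1 ≤ B.d n ^ (-(cTh θ * ((v:ℝ) - u)) - 1) := one_le_dpow B n (by
      have := mul_nonneg (cTh_nonneg θ) hvu; linarith)
    set N := (F n x).2 + (F n x).1 with hN
    have hρ1 := rho_le_one (lev n v)
    have hw1 : w 1 n v ≤ 1 := h5.2.2.2.1.trans hρ1
    have hlE : Real.log (B.d n ^ (-(cTh θ * ((v:ℝ) - u)) - 1)) =
        (cTh θ * ((v:ℝ) - u) + 1) * B.L n := by
      rw [dpow_exp, Real.log_exp]; ring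
    set E := B.d n ^ (-(cTh θ * ((v:ℝ) - u)) - 1) with hEd
    have hE0 : 0 < E := by linarith
    have h8 : (2:ℝ) ^ N * r0 n ≤ 800 * E := by
      have e1 : (2:ℝ) ^ N * (40 * r0 n) ≤ 2 ^ N * dA w n u v := by gcongr
      have e2 : 8 * dW lev w 1 n u v ≤ 8 * (200 * E * 1) := by
        have : 200 * E * w 1 n v ≤ 200 * E * 1 := by gcongr
        linarith
      have e3 : (2:ℝ) ^ N * (40 * r0 n) = 40 * (2 ^ N * r0 n) := by ring
      have : 0 < E := hE0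
      linarith
    have h9 : (2:ℝ) ^ N ≤ 800 * E * (1 / r0 n) := by
      rw [mul_one_div, le_div_iff₀ hr]; exact h8
    have h10 : (N : ℝ) * Real.log 2 ≤ Real.log 800 + (cTh θ * ((v:ℝ) - u) + 1) * B.L n +
        Real.log (1 / r0 n) := by
      have := Real.log_le_log (by positivity) h9
      rw [Real.log_pow, Real.log_mul (by positivity) (by positivity),
        Real.log_mul (by norm_num) hE0.ne', hlE] at this
      exact this
    have h11 : Real.log 800 ≤ 800 := by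
      have := Real.log_le_sub_one_of_pos (show (0:ℝ) < 800 by norm_num)
      linarith
    have h12 : (1:ℝ) / 2 ≤ Real.log 2 := by
      have := Real.log_two_gt_d9
      linarith
    have h13 := L_le B n hε2
    have hN0 : (0:ℝ) ≤ N := Nat.cast_nonneg _
    have h14 : (N : ℝ) * (1 / 2) ≤ (N:ℝ) * Real.log 2 := by gcongr
    have hd1 : 1 ≤ B.d n ^ (-(ε / 2)) := one_le_dpow B n (by linarith)
    have hcoef : 0 ≤ cTh θ * ((v:ℝ) - u) + 1 := by
      have := mul_nonneg hT hvu; linarith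
    have h15 : (cTh θ * ((v:ℝ) - u) + 1) * B.L n ≤
        (cTh θ * ((v:ℝ) - u) + 1) * (1 / (ε / 2) * B.d n ^ (-(ε / 2))) := by gcongr
    have h16 : (N : ℝ) ≤ (2 * (800 + (cTh θ * ((v:ℝ) - u) + 1) * (1 / (ε / 2)) + 1)) *
        B.d n ^ (-(ε / 2)) := by
      have : (800:ℝ) * 1 ≤ 800 * B.d n ^ (-(ε / 2)) := by gcongr
      have e4 : (2 * (800 + (cTh θ * ((v:ℝ) - u) + 1) * (1 / (ε / 2)) + 1)) *
        B.d n ^ (-(ε / 2)) = 2 * (800 * B.d n ^ (-(ε / 2)) + (cTh θ * ((v:ℝ) - u) + 1) *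
          (1 / (ε / 2) * B.d n ^ (-(ε / 2))) + B.d n ^ (-(ε / 2))) := by ring
      rw [e4]
      linarith
    refine h16.trans ?_
    have hdp := dpow_pos B n (-(ε / 2))
    calc _ ≤ B.d n ^ (-(ε / 2)) * B.d n ^ (-(ε / 2)) := by gcongr
      _ = B.d n ^ (-ε) := by rw [← dpow_add]; congr 1; ring
  -- first pigeonhole
  obtain ⟨j, hj⟩ := exists_const (B := B) (J := J0) (fun n x => (F n x).1) (by
    intro ε hε
    filter_upwards [hbd ε hε, hJ0.1] with n h1 h2 x hx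
    refine le_trans ?_ (h1 x (h2 hx))
    push_cast
    have : (0:ℝ) ≤ ((F n x).2 : ℝ) := Nat.cast_nonneg _
    linarith)
  set J1 : ℕ → Finset (ℕ × ℝ) := fun n => (J0 n).filter fun x => (F n x).1 = j n with hJ1
  obtain ⟨k, hk⟩ := exists_const (B := B) (J := J1) (fun n x => (F n x).2) (by
    intro ε hε
    filter_upwards [hbd ε hε, hJ0.1] with n h1 h2 x hx
    refine le_trans ?_ (h1 x (h2 (filter_subset _ _ hx)))
    push_cast
    have : (0:ℝ) ≤ ((F n x).1 : ℝ) := Nat.cast_nonneg _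
    linarith)
  have hd2 : Dense B (fun n => (J1 n).filter fun x => (F n x).2 = k n) J0 := hk.trans hj
  obtain ⟨J', hs, hd3, -, hM⟩ := h.refine' (hd2.trans hJ0)
  refine ⟨J', j, k, fun n => (hs n).trans ((filter_subset _ _).trans (filter_subset _ _)),
    hd3.trans hd2, hM, ?_⟩
  filter_upwards [hFs] with n hn x hx
  have h1 := mem_filter.1 (hs n hx)
  have h2 := (mem_filter.1 h1.1).2
  have := hn x
  rw [h1.2, h2] at this
  exact this

end

end Crest.Agent.R136.Fl808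
end

-- ▼ part R136/Fm9_808

/-!
# R136 (S0187): flat tilt, sequence form (helper808)

`tilt_core` : flat marks, D-max at arbitrary depth for flat boxes ⊢ the six entries of the transition
matrix between the frames of the marks of two levels are bounded by the ratios of the widths up to
`d^(-C (v - u) - ε)`.
-/

set_option autoImplicit false
set_option linter.unusedVariables false
set_option linter.unusedSectionVars false

namespace Crest.Agent.R136.Fl808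

open Finset Filter Topology Crest.Agent.R136.Sh605
open Crest.Agent.R138.Ex926 (Base U)
open Crest.Agent.R138.Dp76 (Dense dpow_pos dpow_add dpow_le dpow_le_one)
open Crest.Agent.R138.Mk163 (zc zl rho alive own Negl)
open Crest.Agent.R138.MkRef627 (lc mem_alive card_class alive_mono)
open Crest.Agent.R136.K4 (Plk4)
open Crest.Agent.R136.MkA627
open Crest.Agent.R136.Dia770 (extO DeepP extO_anc)


/-- hypotheses on the rewards -/
structure Rw (q : Fin 3 → ℝ) (g : ℝ) : Prop where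
  g0 : 0 < g
  q0 : 0 ≤ q 0
  q2 : 0 < q 2
  q02 : 2 * q 0 ≤ q 2
  q21 : 8 * q 2 ≤ q 1
  g1 : 64 * (2 * g + q 0) ≤ q 1
  gq : 64 * (2 * g + q 0) ^ 2 ≤ q 1 * q 2

open Classical in
theorem exists_bad {B : Base} {I : ℕ → Finset (ℕ × ℝ)} {P : ℕ → ℕ × ℝ → Prop}
    (h : ¬ Negl B I P) : ∃ J : ℕ → Finset (ℕ × ℝ), Dense B J I ∧ ∀ n, ∀ x ∈ J n, P n x :=
  ⟨_, dense_of_not_negl h, fun n x hx => (mem_filter.1 hx).2⟩

section

variable {B : Base} {I I0 : ℕ → Finset (ℕ × ℝ)} {G : Geo Plk4 (Fin 3)} {lev : ℕ → ℚ → ℕ}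
    {A : ℕ → ℝ} {g : ℝ} {θ : Fin 3 → ℝ} {f : ℕ → ℚ → ℕ → ℤ → ℕ} {b : ℕ → ℚ → ℕ → Plk4}
    {vm : ℕ → ℚ → ℝ} {w : Fin 3 → ℕ → ℚ → ℝ} {L : ℕ → ℕ → Ln4} {r0 : ℕ → ℝ} {q : Fin 3 → ℝ}
    {ω1 ω2 κ0 κ1 κ2 : ℕ → ℝ} {Ad : (ℕ → ℕ) → Prop} {j k : ℕ → ℕ}



end

end Crest.Agent.R136.Fl808
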