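import Crest.Agent.R136.Fw0_808
import Crest.Agent.R136.Fm9_808

-- ▼ part R136/Fw1_808
section

/-!
# R136 (S0187): g-free flat tilt, one stage (helper808)

`one_nG` : marks of two levels compared over the cells of the finer level;
`stage_nG` : the same with the numbers of the extremal sequence.
-/

set_option autoImplicit false
set_option linter.unusedVariables false
set_option linter.unusedSectionVars false

namespace Crest.Agent.R136.Fl808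

open Finset Filter Topology Crest.Agent.R136.Sh605
open Crest.Agent.R138.Ex926 (Base U)
open Crest.Agent.R138.Dp76 (Dense dpow_pos dpow_add dpow_le dpow_le_one)
open Crest.Agent.R138.Mk163 (zc zl rho alive own Negl)
open Crest.Agent.R138.MkRef627 (lc mem_alive card_class)
open Crest.Agent.R136.K4 (Plk4)

section

variable {α β : Type} {Ou Ov : Finset (ℕ × ℤ)} {L : ℕ → Ln4} {i k0 : ℕ} {f : ℕ × ℤ → α}
  {g : ℕ × ℤ → β} {bf : α → Ln4} {ef : α → Fin 3 → V3} {bg : β → Ln4} {eg : β → Fin 3 → V3}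
  {au w1u w2u Au av w1v w2v Av r0 W Wu c D C : ℝ} {qm qp : Fin 3 → ℝ} {j k' : ℕ}

theorem one_nG (hFF : FreeC qm qp C) (hu : FSys Ou L i f bf ef au w1u w2u Au)
    (hv : FSys Ov L (i + k0) g bg eg av w1v w2v Av)
    (hpar : ∀ x ∈ Ov, par k0 x ∈ Ou) (hc : 0 < c) (hc0 : c * (Ou.card : ℝ) ≤ Ov.card)
    (hne : Ov.Nonempty)
    (hau : 0 < au) (hau2 : au ≤ w2u) (hwu : w2u ≤ w1u)
    (hav : 0 < av) (hav2 : av ≤ w2v) (hwv : w2v ≤ w1v)
    (hd : DMaxD Ov L (i + k0) D qm qp r0 (10 ^ 6 * wC k0 au av w1u w1v) (aC au av)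
      (wC k0 au av w1u w1v) (wC k0 au av w2u w2v))
    (hr0 : 0 < r0) (hr : r0 ≤ aC au av) (hAu : 0 < Au) (hAv : 0 < Av)
    (hWu0 : 0 ≤ Wu) (hDu : D ≤ Wu * Au) (hDv : D ≤ W * Av)
    (hWu : Wu * (2 ^ k0 * (16 * 4 ^ k0)) ≤ W * c) (hW : 1 ≤ W)
    (hlg : Real.log (wC k0 au av w1u w1v / aC au av) ≤ W)
    (hD : ∀ x ∈ Ov, Dy (ef (f (par k0 x))) (eg (g x)) (aC au av) (wC k0 au av w1u w1v)
      (wC k0 au av w2u w2v) j k') :
    (j : ℝ) ≤ C * (1 + Real.log W) ∧ (k' : ℝ) ≤ C * (1 + Real.log W) := by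
  have hw2u : 0 < w2u := hau.trans_le hau2
  have hw1u : 0 < w1u := hw2u.trans_le hwu
  have hw2v : 0 < w2v := hav.trans_le hav2
  have hw1v : 0 < w1v := hw2v.trans_le hwv
  have ha : 0 < aC au av := aC_pos hau
  have haw : aC au av ≤ wC k0 au av w2u w2v := by
    have := wC_a (k0 := k0) (au := au) (av := av) (w1u := w2u) (w1v := w2v)
    linarith
  have hw : wC k0 au av w2u w2v ≤ wC k0 au av w1u w1v := wC_mono hwu hwv
  have p2 : 0 < wC k0 au av w2u w2v := ha.trans_le haw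
  have p1 : 0 < wC k0 au av w1u w1v := p2.trans_le hw
  have b1 := wC_u (k0 := k0) (au := au) (av := av) (w1u := w1u) (w1v := w1v)
  have b2 := wC_u (k0 := k0) (au := au) (av := av) (w1u := w2u) (w1v := w2v)
  have hz := hu.zoom hpar hAu (by positivity : 0 < wC k0 au av w1u w1v / 5)
    (by positivity : 0 < wC k0 au av w2u w2v / 5) hw1u.le hw2u.le b1 b2 hc hc0
  have hz' := hz.mono (aC_u (av := av) hau)
    (by linarith : 5 * (wC k0 au av w1u w1v / 5) ≤ wC k0 au av w1u w1v)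
    (by linarith : 5 * (wC k0 au av w2u w2v / 5) ≤ wC k0 au av w2u w2v) le_rfl
  have v1 := wC_v (k0 := k0) (au := au) (av := av) (w1u := w1u) (w1v := w1v)
  have v2 := wC_v (k0 := k0) (au := au) (av := av) (w1u := w2u) (w1v := w2v)
  have hv' := hv.mono (aC_v (au := au) hav) (by linarith : w1v ≤ wC k0 au av w1u w1v)
    (by linarith : w2v ≤ wC k0 au av w2u w2v) le_rfl
  have hN := N_le hw1u.le hw2u.le (by positivity : 0 < wC k0 au av w1u w1v / 5)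
    (by positivity : 0 < wC k0 au av w2u w2v / 5) b1 b2
  have hNp : 0 < (2 * (w1u / (wC k0 au av w1u w1v / 5)) + 2) *
    (2 * (w2u / (wC k0 au av w2u w2v / 5)) + 2) := by positivity
  generalize hNN : (2 * (w1u / (wC k0 au av w1u w1v / 5)) + 2) *
    (2 * (w2u / (wC k0 au av w2u w2v / 5)) + 2) = N at *
  have h2k : (0:ℝ) < 2 ^ k0 := by positivity
  have hA' : 0 < Au * c / (2 ^ k0 * N) := by positivity
  have hV1 : D ≤ W * (Au * c / (2 ^ k0 * N)) := by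
    rw [← mul_div_assoc, le_div_iff₀ (by positivity)]
    calc D * (2 ^ k0 * N) ≤ (Wu * Au) * (2 ^ k0 * N) := by gcongr
      _ ≤ (Wu * Au) * (2 ^ k0 * (16 * 4 ^ k0)) := by gcongr
      _ = (Wu * (2 ^ k0 * (16 * 4 ^ k0))) * Au := by ring
      _ ≤ (W * c) * Au := by gcongr
      _ = _ := by ring
  exact hFF _ _ Ov L (i + k0) _ g _ _ bg eg _ _ _ _ Av D W r0 j k' hne hz' hv' hA' hAv hr0 hr haw hw
    hd hV1 hDv hW hlg hD

end

section

variable {B : Base} {n : ℕ} {J : Finset (ℕ × ℝ)} {L : ℕ → Ln4} {lu lv k0 : ℕ}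
  {fu fv : ℕ → ℤ → ℕ} {bu bv : ℕ → Plk4}
  {au w1u w2u av w1v w2v Aa gu q0 q1 q2 g r0 δ ε1 C1 C : ℝ} {qm qp : Fin 3 → ℝ} {j k' : ℕ}

open Classical in
/-- **one stage of the sequence** (`gu = g u`) -/
theorem stage_nG (hFF : FreeC qm qp C) (hJ : J.Nonempty) (hlv : lv = lu + k0)
    (hu : FSys (J.image (lc lu)) L lu (fun o => (o.2, fu o.1 o.2)) (fun κ : ℤ × ℕ => (bu κ.2).c)
      (fun κ => (bu κ.2).e) au w1u w2u (B.d n ^ ε1 * (Aa * B.d n ^ (-gu) *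
        (capB q0 q1 q2 au w1u w2u * rho lu ^ (-(q0 + q1 + q2))))))
    (hv : FSys (J.image (lc lv)) L lv (fun o => (o.2, fv o.1 o.2)) (fun κ : ℤ × ℕ => (bv κ.2).c)
      (fun κ => (bv κ.2).e) av w1v w2v (B.d n ^ ε1 * (Aa * B.d n ^ (-(gu + g * δ)) *
        (capB q0 q1 q2 av w1v w2v * rho lv ^ (-(q0 + q1 + q2))))))
    (hAa : 0 < Aa)
    (hown : ∀ x ∈ J, B.d n ^ (-δ + ε1) ≤ ((own J lu lv x).card : ℝ))
    (hε1 : 0 < ε1) (hδ : 0 ≤ δ) (hC1 : 0 ≤ C1)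
    -- D-max
    (hd : DMaxD (J.image (lc lv)) L lv (B.d n ^ (-ε1) * (Aa * B.d n ^ (-(gu + g * δ)) *
        (capB q0 q1 q2 av w1v w2v * rho lv ^ (-(q0 + q1 + q2))))) qm qp r0 (rho lv) av w1v w2v)
    -- numbers
    (hr0 : 0 < r0) (hru : r0 ≤ au) (hau2 : au ≤ w2u) (hwu : w2u ≤ w1u)
    (hrv : r0 ≤ av) (hav2 : av ≤ w2v) (hwv : w2v ≤ w1v) (hρv : w1v ≤ rho lv)
    (ea : au ≤ B.d n ^ (-(C1 * δ) - ε1) * av) (ea' : av ≤ B.d n ^ (-(C1 * δ) - ε1) * au)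
    (e1 : w1u ≤ B.d n ^ (-(C1 * δ) - ε1) * w1v) (e1' : w1v ≤ B.d n ^ (-(C1 * δ) - ε1) * w1u)
    (e2 : w2u ≤ B.d n ^ (-(C1 * δ) - ε1) * w2v) (e2' : w2v ≤ B.d n ^ (-(C1 * δ) - ε1) * w2u)
    (hk0 : B.d n ^ (-δ + ε1) ≤ (2:ℝ) ^ k0)
    (hlog : Real.log (1 / r0) ≤ B.d n ^ (-ε1))
    -- rewards
    (hg : 0 ≤ g) (hq0 : 0 ≤ q0) (hq1 : 0 ≤ q1) (hq2 : 0 ≤ q2) (hm : ∀ k, 0 ≤ qm k)
    (hmp : ∀ k, qm k ≤ qp k)
    (hD : ∀ x ∈ J, Dy (bu (fu x.1 (zc lu x.2))).e (bv (fv x.1 (zc lv x.2))).e (aC au av)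
      (wC k0 au av w1u w1v) (wC k0 au av w2u w2v) j k') :
    (j : ℝ) ≤ C * (1 + Real.log (WW B n k0 (B.d n ^ (-(C1 * δ) - ε1))
        (11 + (q0 + q1 + q2) + (qp 0 + qp 1 + qp 2)) g δ ε1 / (B.d n ^ (2 * ε1) / 4))) ∧
      (k' : ℝ) ≤ C * (1 + Real.log (WW B n k0 (B.d n ^ (-(C1 * δ) - ε1))
        (11 + (q0 + q1 + q2) + (qp 0 + qp 1 + qp 2)) g δ ε1 / (B.d n ^ (2 * ε1) / 4))) := by
  have hE : 1 ≤ B.d n ^ (-(C1 * δ) - ε1) := one_le_dpow B n (by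
    have := mul_nonneg hC1 hδ; linarith)
  set E := B.d n ^ (-(C1 * δ) - ε1) with hEd
  set Q := q0 + q1 + q2 with hQ
  set Qp := qp 0 + qp 1 + qp 2 with hQp
  have hp : ∀ k, 0 ≤ qp k := fun k => (hm k).trans (hmp k)
  have hau : 0 < au := hr0.trans_le hru
  have hav : 0 < av := hr0.trans_le hrv
  have hw2u : 0 < w2u := hau.trans_le hau2
  have hw1u : 0 < w1u := hw2u.trans_le hwu
  have hw2v : 0 < w2v := hav.trans_le hav2
  have hw1v : 0 < w1v := hw2v.trans_le hwv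
  have hQ0 : 0 ≤ Q := by rw [hQ]; linarith
  have hQp0 : 0 ≤ Qp := by rw [hQp]; linarith [hp 0, hp 1, hp 2]
  have hcu : 0 < capB q0 q1 q2 au w1u w2u := capB_pos hau hw1u hw2u
  have hcv : 0 < capB q0 q1 q2 av w1v w2v := capB_pos hav hw1v hw2v
  have hρu := rho_pos lu
  have hρv0 := rho_pos lv
  have hRu : 0 < rho lu ^ (-Q) := Real.rpow_pos_of_pos hρu _
  have hRv : 0 < rho lv ^ (-Q) := Real.rpow_pos_of_pos hρv0 _
  have d1 := dpow_pos B n ε1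
  have d2 := dpow_pos B n (-ε1)
  have d3 := dpow_pos B n (-gu)
  have d4 := dpow_pos B n (-(gu + g * δ))
  have d5 := dpow_pos B n (-δ + ε1)
  have d6 := dpow_pos B n (2 * ε1)
  have d7 := dpow_pos B n (-(2 * ε1) - g * δ)
  have d8 := dpow_pos B n (-(2 * ε1))
  have dd := dpow_pos B n (δ - ε1)
  have hle : lu ≤ lv := by omega
  have hE0 : 0 < E := by linarith
  have h200 : 0 < 200 * E := by positivity
  have h200' : 1 ≤ 200 * E := by linarith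
  have hAap := hAa
  -- common shape
  have ha : 0 < aC au av := aC_pos hau
  have v1 := wC_v (k0 := k0) (au := au) (av := av) (w1u := w1u) (w1v := w1v)
  have v2 := wC_v (k0 := k0) (au := au) (av := av) (w1u := w2u) (w1v := w2v)
  have x1 := wC_leV (k0 := k0) hav (hav2.trans hwv) hE ea e1
  have x2 := wC_leV (k0 := k0) hav hav2 hE ea e2
  have x0 := aC_leV (au := au) hav hE ea
  have p1 : 0 < wC k0 au av w1u w1v := by linarith
  have p2 : 0 < wC k0 au av w2u w2v := by linarith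
  have hra : r0 ≤ aC au av := by
    have := aC_u (av := av) hau
    linarith
  have hcommon := hd.wide (K := 2 * 10 ^ 8 * E) (R0 := 10 ^ 6 * wC k0 au av w1u w1v) hm hmp hav hw1v
    hw2v ha p1 p2 h200' (by
      refine x0.trans ?_
      have : 0 < E * av := by positivity
      linarith) x1 x2 hr0 (hrv.trans ((hav2.trans hwv).trans hρv)) (by positivity)
    (by linarith) (by
      calc 10 ^ 6 * wC k0 au av w1u w1v ≤ 10 ^ 6 * (200 * E * w1v) := by gcongr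
        _ ≤ 10 ^ 6 * (200 * E * rho lv) := by gcongr
        _ = _ := by ring)
  rw [← hQp] at hcommon
  -- the defect
  set W := WW B n k0 E (11 + Q + Qp) g δ ε1 / (B.d n ^ (2 * ε1) / 4) with hWd
  have h2k : (0:ℝ) < 2 ^ k0 := by positivity
  have h2k1 : (1:ℝ) ≤ 2 ^ k0 := one_le_pow₀ (by norm_num)
  have h4k1 : (1:ℝ) ≤ 4 ^ k0 := one_le_pow₀ (by norm_num)
  have h2kQ : (1:ℝ) ≤ (2 ^ k0) ^ Q := Real.one_le_rpow h2k1 hQ0
  have e7 : B.d n ^ (δ - ε1) * B.d n ^ (-δ + ε1) = 1 := by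
    rw [← dpow_add]
    have : δ - ε1 + (-δ + ε1) = 0 := by ring
    rw [this, Real.rpow_zero]
  have e8 : (1:ℝ) ≤ 2 ^ k0 * B.d n ^ (δ - ε1) := by
    calc (1:ℝ) = B.d n ^ (-δ + ε1) * B.d n ^ (δ - ε1) := by rw [mul_comm, e7]
      _ ≤ _ := by gcongr
  have e9 : B.d n ^ (-(2 * ε1)) ≤ B.d n ^ (-(2 * ε1) - g * δ) :=
    dpow_le B n (by have := mul_nonneg hg hδ; linarith)
  have hW0 : 0 < WW B n k0 E (11 + Q + Qp) g δ ε1 := WW_pos B n k0 hE
  have hWW : WW B n k0 E (11 + Q + Qp) g δ ε1 ≤ W := by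
    rw [hWd, le_div_iff₀ (by positivity)]
    have : B.d n ^ (2 * ε1) / 4 ≤ 1 := by
      have := dpow_le_one B n (show 0 ≤ 2 * ε1 by linarith)
      linarith
    calc _ ≤ WW B n k0 E (11 + Q + Qp) g δ ε1 * 1 := by gcongr
      _ = _ := mul_one _
  -- constants
  have hK6 : (2 * (2 * 10 ^ 8 * E) + 1) ^ 6 ≤ (10 ^ 9 * E) ^ 6 := by
    refine pow_le_pow_left₀ (by positivity) ?_ 6
    linarith
  have hK8 : (10 ^ 9 * E) ^ 6 ≤ (200 * E) ^ (8:ℝ) * (10 ^ 6 * E) ^ 6 := by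
    have h8 : (200 * E) ^ (8:ℝ) = (200 * E) ^ 8 := by
      rw [← Real.rpow_natCast]; norm_num
    rw [h8]
    have hE8 : (1:ℝ) ≤ E ^ 8 := one_le_pow₀ hE
    have hE6 : 0 < E ^ 6 := by positivity
    calc (10 ^ 9 * E) ^ 6 = 10 ^ 54 * E ^ 6 * 1 := by ring
      _ ≤ (200 ^ 8 * 10 ^ 36) * E ^ 6 * E ^ 8 := by gcongr; norm_num
      _ = _ := by ring
  have hsplit : (200 * E) ^ (3 + (11 + Q + Qp)) =
      (200 * E) ^ (3 + Qp) * (200 * E) ^ (3 + Q) * (200 * E) ^ (8:ℝ) := by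
    rw [← Real.rpow_add h200, ← Real.rpow_add h200]; congr 1; ring
  have hkQ : ((2:ℝ) ^ k0) ^ Q ≤ (2 ^ k0) ^ (11 + Q + Qp) :=
    Real.rpow_le_rpow_of_exponent_le h2k1 (by linarith)
  have hx3 : 1 ≤ (200 * E) ^ (3 + Q) := Real.one_le_rpow h200' (by linarith)
  have hx3p : 1 ≤ (200 * E) ^ (3 + Qp) := Real.one_le_rpow h200' (by linarith)
  have hEQ : E ^ (3 + Q) ≤ (200 * E) ^ (3 + Q) :=
    Real.rpow_le_rpow hE0.le (by linarith) (by linarith)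
  have hEQ0 : 0 < E ^ (3 + Q) := by positivity
  -- number of the coarse system
  set Wu := (10 ^ 9 * E) ^ 6 * (200 * E) ^ (3 + Qp) * (E ^ (3 + Q) *
    (B.d n ^ (-(2 * ε1) - g * δ) * (2 ^ k0) ^ Q)) with hWu
  have hWuW : Wu * (2 ^ k0 * (16 * 4 ^ k0)) ≤ W * B.d n ^ (-δ + ε1) := by
    calc Wu * (2 ^ k0 * (16 * 4 ^ k0)) ≤
        (((200 * E) ^ (8:ℝ) * (10 ^ 6 * E) ^ 6) * (200 * E) ^ (3 + Qp) * ((200 * E) ^ (3 + Q) *
          (B.d n ^ (-(2 * ε1) - g * δ) * (2 ^ k0) ^ (11 + Q + Qp)))) *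
          (2 ^ k0 * (16 * 4 ^ k0)) := by
          rw [hWu]; gcongr
      _ = WW B n k0 E (11 + Q + Qp) g δ ε1 * B.d n ^ (-δ + ε1) := by
          unfold WW
          rw [mul_assoc ((200 * E) ^ (3 + (11 + Q + Qp)) * ((10 ^ 6 * E) ^ 6 *
            B.d n ^ (-(2 * ε1) - g * δ) * (2 ^ k0) ^ (11 + Q + Qp)) * (2 ^ k0 * (16 * 4 ^ k0))), e7,
            mul_one, hsplit]
          ring
      _ ≤ _ := by gcongr
  have hWv : (10 ^ 9 * E) ^ 6 * (200 * E) ^ (3 + Qp) * B.d n ^ (-(2 * ε1)) ≤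
      WW B n k0 E (11 + Q + Qp) g δ ε1 := by
    unfold WW
    rw [hsplit]
    have hk1 : (1:ℝ) ≤ (2 ^ k0) ^ (11 + Q + Qp) := Real.one_le_rpow h2k1 (by linarith)
    calc (10 ^ 9 * E) ^ 6 * (200 * E) ^ (3 + Qp) * B.d n ^ (-(2 * ε1)) ≤
        ((200 * E) ^ (8:ℝ) * (10 ^ 6 * E) ^ 6) * (200 * E) ^ (3 + Qp) *
          B.d n ^ (-(2 * ε1) - g * δ) := by gcongr
      _ = ((200 * E) ^ (3 + Qp) * 1 * (200 * E) ^ (8:ℝ)) * ((10 ^ 6 * E) ^ 6 *
          B.d n ^ (-(2 * ε1) - g * δ) * 1) * (1 * (1 * 1)) := by ring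
      _ ≤ ((200 * E) ^ (3 + Qp) * (200 * E) ^ (3 + Q) * (200 * E) ^ (8:ℝ)) * ((10 ^ 6 * E) ^ 6 *
          B.d n ^ (-(2 * ε1) - g * δ) * (2 ^ k0) ^ (11 + Q + Qp)) *
          ((2 ^ k0 * B.d n ^ (δ - ε1)) * (16 * 4 ^ k0)) := by
          gcongr
          · linarith
      _ = _ := by ring
  have hWv1 : 1 ≤ (10 ^ 9 * E) ^ 6 * (200 * E) ^ (3 + Qp) * B.d n ^ (-(2 * ε1)) := by
    have h2 : (1:ℝ) ≤ (10 ^ 9 * E) ^ 6 := one_le_pow₀ (by linarith)
    have h3 : 1 ≤ B.d n ^ (-(2 * ε1)) := one_le_dpow B n (by linarith)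
    calc (1:ℝ) = 1 * 1 * 1 := by ring
      _ ≤ _ := by gcongr
  have hW1 : 1 ≤ W := hWv1.trans (hWv.trans hWW)
  -- logarithm
  have hlg : Real.log (wC k0 au av w1u w1v / aC au av) ≤ W := by
    have hρ1 := rho_le_one lv
    have h1 : wC k0 au av w1u w1v / aC au av ≤ 200 * E * (1 / r0) := by
      rw [mul_one_div, div_le_div_iff₀ ha hr0]
      calc wC k0 au av w1u w1v * r0 ≤ (200 * E * w1v) * r0 := by gcongr
        _ ≤ (200 * E * 1) * aC au av := by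
            gcongr
            exact hρv.trans hρ1
        _ = _ := by ring
    have h2 := Real.log_le_log (by positivity) h1
    rw [Real.log_mul (by positivity) (by positivity)] at h2
    have h3 : Real.log (200 * E) ≤ 200 * E := by
      have := Real.log_le_sub_one_of_pos h200
      linarith
    have h4 : B.d n ^ (-ε1) ≤ B.d n ^ (-(2 * ε1)) := dpow_le B n (by linarith)
    have h5 : 1 ≤ B.d n ^ (-(2 * ε1)) := one_le_dpow B n (by linarith)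
    have h6 : 200 * E + B.d n ^ (-(2 * ε1)) ≤
        (10 ^ 9 * E) ^ 6 * (200 * E) ^ (3 + Qp) * B.d n ^ (-(2 * ε1)) := by
      have h7 : 2 * (200 * E) ≤ (10 ^ 9 * E) ^ 6 := by
        have h8 : (10 ^ 9 * E) ^ 1 ≤ (10 ^ 9 * E) ^ 6 :=
          pow_le_pow_right₀ (by linarith) (by norm_num)
        rw [pow_one] at h8
        linarith
      calc 200 * E + B.d n ^ (-(2 * ε1)) ≤ 200 * E * B.d n ^ (-(2 * ε1)) +
            200 * E * B.d n ^ (-(2 * ε1)) := by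
            have i1 : 200 * E ≤ 200 * E * B.d n ^ (-(2 * ε1)) :=
              le_mul_of_one_le_right (by positivity) h5
            have i2 : B.d n ^ (-(2 * ε1)) ≤ 200 * E * B.d n ^ (-(2 * ε1)) :=
              le_mul_of_one_le_left (by positivity) h200'
            linarith
        _ = 2 * (200 * E) * 1 * B.d n ^ (-(2 * ε1)) := by ring
        _ ≤ _ := by gcongr
    linarith [hWv.trans hWW]
  -- numbers
  have hOv : ((J.image (lc lv))).Nonempty := hJ.image _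
  have hlab := own_count hle hown
  have hρ2 : rho lu ^ (-Q) * (2 ^ k0) ^ Q = rho lv ^ (-Q) := by
    have h1 : rho lu = rho lv * 2 ^ k0 := by
      rw [rho_two hle]; congr 2; omega
    rw [h1, Real.mul_rpow hρv0.le (by positivity), mul_assoc, ← Real.rpow_add (by positivity),
      neg_add_cancel, Real.rpow_zero, mul_one]
  have hdd : B.d n ^ (-ε1) = B.d n ^ (-(2 * ε1)) * B.d n ^ ε1 := by
    rw [← dpow_add]; congr 1; ring
  have hgd : B.d n ^ (-(gu + g * δ)) * B.d n ^ (-ε1) =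
      B.d n ^ (-(2 * ε1) - g * δ) * (B.d n ^ ε1 * B.d n ^ (-gu)) := by
    rw [← dpow_add, ← dpow_add, ← dpow_add]; congr 1; ring
  have hDv : (2 * (2 * 10 ^ 8 * E) + 1) ^ 6 * ((200 * E) ^ (3 + Qp) * (B.d n ^ (-ε1) *
      (Aa * B.d n ^ (-(gu + g * δ)) * (capB q0 q1 q2 av w1v w2v * rho lv ^ (-Q))))) ≤
      W * (B.d n ^ ε1 * (Aa * B.d n ^ (-(gu + g * δ)) *
        (capB q0 q1 q2 av w1v w2v * rho lv ^ (-Q)))) := by
    calc _ ≤ (10 ^ 9 * E) ^ 6 * ((200 * E) ^ (3 + Qp) * (B.d n ^ (-ε1) *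
      (Aa * B.d n ^ (-(gu + g * δ)) * (capB q0 q1 q2 av w1v w2v * rho lv ^ (-Q))))) := by gcongr
      _ = ((10 ^ 9 * E) ^ 6 * (200 * E) ^ (3 + Qp) * B.d n ^ (-(2 * ε1))) * (B.d n ^ ε1 *
        (Aa * B.d n ^ (-(gu + g * δ)) * (capB q0 q1 q2 av w1v w2v * rho lv ^ (-Q)))) := by
          rw [hdd]; ring
      _ ≤ _ := by
          have := hWv.trans hWW
          gcongr
  have hcap : capB q0 q1 q2 av w1v w2v ≤ E ^ (3 + Q) * capB q0 q1 q2 au w1u w2u := by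
    rw [hQ, ← capB_cube hau.le hw1u.le hw2u.le hE0]
    exact capB_mono hq0 hq1 hq2 hav.le hw1v.le hw2v.le ea' e1' e2'
  have hDu : (2 * (2 * 10 ^ 8 * E) + 1) ^ 6 * ((200 * E) ^ (3 + Qp) * (B.d n ^ (-ε1) *
      (Aa * B.d n ^ (-(gu + g * δ)) * (capB q0 q1 q2 av w1v w2v * rho lv ^ (-Q))))) ≤
      Wu * (B.d n ^ ε1 * (Aa * B.d n ^ (-gu) *
        (capB q0 q1 q2 au w1u w2u * rho lu ^ (-Q)))) := by
    calc _ ≤ (10 ^ 9 * E) ^ 6 * ((200 * E) ^ (3 + Qp) * (B.d n ^ (-ε1) *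
        (Aa * B.d n ^ (-(gu + g * δ)) * ((E ^ (3 + Q) * capB q0 q1 q2 au w1u w2u) *
          rho lv ^ (-Q))))) := by gcongr
      _ = (10 ^ 9 * E) ^ 6 * (200 * E) ^ (3 + Qp) * E ^ (3 + Q) * Aa * capB q0 q1 q2 au w1u w2u *
          (B.d n ^ (-(gu + g * δ)) * B.d n ^ (-ε1)) * rho lv ^ (-Q) := by ring
      _ = (10 ^ 9 * E) ^ 6 * (200 * E) ^ (3 + Qp) * E ^ (3 + Q) * Aa * capB q0 q1 q2 au w1u w2u *
          (B.d n ^ (-(2 * ε1) - g * δ) * (B.d n ^ ε1 * B.d n ^ (-gu))) *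
          (rho lu ^ (-Q) * (2 ^ k0) ^ Q) := by rw [hgd, hρ2]
      _ = _ := by rw [hWu]; ring
  subst hlv
  refine one_nG hFF hu hv ?_ d5 hlab hOv hau hau2 hwu hav hav2 hwv hcommon hr0 hra (by positivity)
    (by positivity) (by positivity) hDu hDv hWuW hW1 hlg ?_
  · intro x hx
    obtain ⟨y, hy, rfl⟩ := mem_image.1 hx
    have := par_lc hle y
    rw [Nat.add_sub_cancel_left] at this
    rw [this]
    exact mem_image_of_mem _ hy
  · intro x hx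
    obtain ⟨y, hy, rfl⟩ := mem_image.1 hx
    have h1 := par_lc hle y
    rw [Nat.add_sub_cancel_left] at h1
    have h2 := hD y hy
    rw [h1]
    exact h2

end

end Crest.Agent.R136.Fl808
end

-- ▼ part R136/Fw2_808
section

/-!
# R136 (S0187): g-free flat tilt, sequence form (helper808)

`tilt_coreG` : flat marks, D-max with two-sided exponents for all flat boxes (same level) and the
finite theorem `FreeC` ⊢ the six entries of the transition matrix between the frames of the marks of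
two levels are bounded by the ratios of the widths up to `d^(-C (v - u) - ε)`.
-/

set_option autoImplicit false
set_option linter.unusedVariables false
set_option linter.unusedSectionVars false

namespace Crest.Agent.R136.Fl808

open Finset Filter Topology Crest.Agent.R136.Sh605
open Crest.Agent.R138.Ex926 (Base U)
open Crest.Agent.R138.Dp76 (Dense dpow_pos dpow_add dpow_le dpow_le_one)
open Crest.Agent.R138.Mk163 (zc zl rho alive own Negl)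
open Crest.Agent.R138.MkRef627 (lc mem_alive card_class alive_mono)
open Crest.Agent.R136.K4 (Plk4)
open Crest.Agent.R136.MkA627

open Classical in
theorem DMaxD.sub {P P' : Finset (ℕ × ℤ)} {L : ℕ → Ln4} {m : ℕ} {D r0 R0 a w1 w2 : ℝ}
    {qm qp : Fin 3 → ℝ} (h : DMaxD P L m D qm qp r0 R0 a w1 w2) (hP : P' ⊆ P) :
    DMaxD P' L m D qm qp r0 R0 a w1 w2 := by
  intro c n l a' w1' w2' h1 h2 h3 h4 h5
  refine le_trans ?_ (h c n l a' w1' w2' h1 h2 h3 h4 h5)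
  exact Nat.cast_le.2 (card_le_card (filter_subset_filter _ hP))

/-- D-max of all flat boxes at the level `v`, relative to the marks of the level -/
def DallW (B : Base) (I : ℕ → Finset (ℕ × ℝ)) (L : ℕ → ℕ → Ln4) (lev : ℕ → ℚ → ℕ) (A : ℕ → ℝ)
    (g : ℝ) (r0 : ℕ → ℝ) (q : Fin 3 → ℝ) (w : Fin 3 → ℕ → ℚ → ℝ) (qm qp : Fin 3 → ℝ) (v : ℚ) :
    Prop :=
  ∀ ε : ℝ, 0 < ε → ∀ᶠ n in (U : Filter ℕ), DMaxD ((I n).image (lc (lev n v))) (L n) (lev n v)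
    (B.d n ^ (-ε) * (A n * B.d n ^ (-(g * v)) * (capB (q 0) (q 1) (q 2) (w 0 n v) (w 1 n v)
      (w 2 n v) * rho (lev n v) ^ (-(q 0 + q 1 + q 2))))) qm qp (r0 n) (rho (lev n v))
    (w 0 n v) (w 1 n v) (w 2 n v)

/-- sum of the exponents -/
def QG (q qp : Fin 3 → ℝ) : ℝ := 11 + (q 0 + q 1 + q 2) + (qp 0 + qp 1 + qp 2)

/-- constants of the exponents -/
noncomputable def cG (θ q qp : Fin 3 → ℝ) (g : ℝ) : ℝ := (9 + QG q qp) * cTh θ + g + QG q qp + 3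
/-- absolute constant -/
noncomputable def k0G (q qp : Fin 3 → ℝ) : ℝ :=
  (3 + QG q qp) * Real.log 200 + 6 * Real.log (10 ^ 6) + Real.log 16 + Real.log 4

section

variable {B : Base} {I : ℕ → Finset (ℕ × ℝ)} {G : Geo Plk4 (Fin 3)} {lev : ℕ → ℚ → ℕ}
    {A : ℕ → ℝ} {g C : ℝ} {θ : Fin 3 → ℝ} {f : ℕ → ℚ → ℕ → ℤ → ℕ} {b : ℕ → ℚ → ℕ → Plk4}
    {vm : ℕ → ℚ → ℝ} {w : Fin 3 → ℕ → ℚ → ℝ} {L : ℕ → ℕ → Ln4} {r0 : ℕ → ℝ} {q qm qp : Fin 3 → ℝ}
    {j k : ℕ → ℕ}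

theorem DallW.sub {J : ℕ → Finset (ℕ × ℝ)} {v : ℚ} (h : DallW B I L lev A g r0 q w qm qp v)
    (hJ : ∀ᶠ n in (U : Filter ℕ), J n ⊆ I n) : DallW B J L lev A g r0 q w qm qp v := by
  intro ε hε
  filter_upwards [h ε hε, hJ] with n h1 h2
  exact h1.sub (image_subset_image h2)

open Classical in
/-- **the dyadic tilts are bounded** -/
theorem stage_evG (hFF : FreeC qm qp C) (hC : 0 ≤ C) (h : MkF B I G lev A g θ f b vm w)
    (hG : GeoOk G L r0 q) (hr0 : ∀ n, 0 < r0 n)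
    (hlog : ∀ ε : ℝ, 0 < ε → ∀ᶠ n in (U : Filter ℕ), Real.log (1 / r0 n) ≤ B.d n ^ (-ε))
    (hF : FlatE I lev f b) {u v : ℚ} (hu : 0 ≤ u) (huv : u ≤ v) (hv : v ≤ 1)
    (hW : DallW B I L lev A g r0 q w qm qp v)
    (hD : ∀ᶠ n in (U : Filter ℕ), ∀ x ∈ I n, DyA lev f b w n u v x (j n) (k n))
    (hg : 0 ≤ g) (hq : ∀ i, 0 ≤ q i) (hm : ∀ i, 0 ≤ qm i) (hmp : ∀ i, qm i ≤ qp i)
    {ε1 : ℝ} (hε1 : 0 < ε1) :
    ∀ᶠ n in (U : Filter ℕ),
      (j n : ℝ) ≤ C * (1 + (k0G q qp +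
        (cG θ q qp g * ((v:ℝ) - u) + (2 * QG q qp + 17) * ε1) * B.L n)) ∧
      (k n : ℝ) ≤ C * (1 + (k0G q qp +
        (cG θ q qp g * ((v:ℝ) - u) + (2 * QG q qp + 17) * ε1) * B.L n)) := by
  have hu1 : u ≤ 1 := huv.trans hv
  have hv0 : 0 ≤ v := hu.trans huv
  have hvu : (0:ℝ) ≤ (v:ℝ) - u := by
    have : (u:ℝ) ≤ v := by exact_mod_cast huv
    linarith
  have hgv : g * (v:ℝ) = g * u + g * ((v:ℝ) - u) := by ring
  filter_upwards [h.ne, sys_ev h hG hF hu hu1 hε1, sys_ev h hG hF hv0 hv hε1,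
    dims h hG hr0 hu hu1, dims h hG hr0 hv0 hv, comp_ev h hu huv hv hε1, lev_pow h hu huv hv hε1,
    h.own u v hu huv hv ε1 hε1, hD, hW ε1 hε1, hlog ε1 hε1]
    with n e1 e2 e3 e4 e5 e6 e7 e9 e12 e18 e19
  obtain ⟨du0, du1, du2, du3, du4⟩ := e4
  obtain ⟨dv0, dv1, dv2, dv3, dv4⟩ := e5
  have hsu : FSys ((I n).image (lc (lev n u))) (L n) (lev n u) (fun o => (o.2, f n u o.1 o.2))
      (fun κ : ℤ × ℕ => (b n u κ.2).c) (fun κ => (b n u κ.2).e) (w 0 n u) (w 1 n u) (w 2 n u)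
      (B.d n ^ ε1 * (A n * B.d n ^ (-(g * u)) * (capB (q 0) (q 1) (q 2) (w 0 n u) (w 1 n u)
        (w 2 n u) * rho (lev n u) ^ (-(q 0 + q 1 + q 2))))) := by
    rw [← du4]; exact e2
  have hsv : FSys ((I n).image (lc (lev n v))) (L n) (lev n v) (fun o => (o.2, f n v o.1 o.2))
      (fun κ : ℤ × ℕ => (b n v κ.2).c) (fun κ => (b n v κ.2).e) (w 0 n v) (w 1 n v) (w 2 n v)
      (B.d n ^ ε1 * (A n * B.d n ^ (-(g * u + g * ((v:ℝ) - u))) * (capB (q 0) (q 1) (q 2)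
        (w 0 n v) (w 1 n v) (w 2 n v) * rho (lev n v) ^ (-(q 0 + q 1 + q 2))))) := by
    rw [← dv4, ← hgv]; exact e3
  rw [hgv] at e18
  have key := stage_nG (B := B) (n := n) (J := I n) (L := L n) (lu := lev n u) (lv := lev n v)
    (k0 := lev n v - lev n u) (fu := f n u) (fv := f n v) (bu := b n u)
    (bv := b n v) (C1 := cTh θ) (δ := (v:ℝ) - u) (j := j n) (k' := k n) hFF e1
    (by have := e7.1; omega) hsu hsv (h.Apos n)
    (fun x hx => by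
      have := (e9 x hx).1
      simp only [zero_mul, sub_zero, add_zero] at this
      exact this)
    hε1 hvu (cTh_nonneg θ) e18 (hr0 n) du0 du1 du2 dv0 dv1 dv2 dv3
    (e6 0).1 (e6 0).2 (e6 1).1 (e6 1).2 (e6 2).1 (e6 2).2 e7.2.2 e19 hg (hq 0) (hq 1) (hq 2) hm hmp
    (fun x hx => e12 x hx)
  have hQ : 0 ≤ 11 + (q 0 + q 1 + q 2) + (qp 0 + qp 1 + qp 2) := by
    linarith [hq 0, hq 1, hq 2, (hm 0).trans (hmp 0), (hm 1).trans (hmp 1), (hm 2).trans (hmp 2)]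
  have hlog := WW_log (B := B) (n := n) (k0 := lev n v - lev n u)
    (Q := 11 + (q 0 + q 1 + q 2) + (qp 0 + qp 1 + qp 2)) (g := g)
    (δ := (v:ℝ) - u) (ε1 := ε1) (C1 := cTh θ) rfl (cTh_nonneg θ) hvu hε1.le hQ e7.2.1
  unfold cG k0G QG
  exact ⟨key.1.trans (by gcongr), key.2.trans (by gcongr)⟩

open Classical in
/-- **flat tilt, g-free** -/
theorem tilt_coreG (hFF : FreeC qm qp C) (hC : 0 ≤ C) (h : MkF B I G lev A g θ f b vm w)
    (hG : GeoOk G L r0 q) (hr0 : ∀ n, 0 < r0 n)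
    (hlog : ∀ ε : ℝ, 0 < ε → ∀ᶠ n in (U : Filter ℕ), Real.log (1 / r0 n) ≤ B.d n ^ (-ε))
    (hF : FlatE I lev f b)
    (hW : ∀ v : ℚ, 0 ≤ v → v ≤ 1 → DallW B I L lev A g r0 q w qm qp v)
    (hg : 0 ≤ g) (hq : ∀ i, 0 ≤ q i) (hm : ∀ i, 0 ≤ qm i) (hmp : ∀ i, qm i ≤ qp i) :
    ∃ C' : ℝ, 0 ≤ C' ∧ ∀ u v : ℚ, 0 ≤ u → u < v → v ≤ 1 → ∀ ε : ℝ, 0 < ε →
      Negl B I fun n x => ¬ Six (frm lev f b n u x) (frm lev f b n v x)
        (max (w 2 n u / w 1 n u) (w 2 n v / w 1 n v) * B.d n ^ (-(C' * ((v:ℝ) - u)) - ε))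
        (max (w 0 n u / w 2 n u) (w 0 n v / w 2 n v) * B.d n ^ (-(C' * ((v:ℝ) - u)) - ε))
        (max (w 0 n u / w 1 n u) (w 0 n v / w 1 n v) * B.d n ^ (-(C' * ((v:ℝ) - u)) - ε)) := by
  have hp : ∀ i, 0 ≤ qp i := fun i => (hm i).trans (hmp i)
  have hQ : 0 ≤ QG q qp := by
    unfold QG; linarith [hq 0, hq 1, hq 2, hp 0, hp 1, hp 2]
  have hT := cTh_nonneg θ
  have hcE : 0 ≤ cG θ q qp g := by
    unfold cG; positivity
  refine ⟨cTh θ + 2 * C * cG θ q qp g, by positivity, fun u v hu huv hv ε hε => ?_⟩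
  have hu1 : u ≤ 1 := huv.le.trans hv
  have hv0 : 0 ≤ v := hu.trans huv.le
  have hvu : (0:ℝ) ≤ (v:ℝ) - u := by
    have : (u:ℝ) ≤ v := by exact_mod_cast huv.le
    linarith
  by_contra hN
  obtain ⟨J0, hdJ0, hbad0⟩ := exists_bad hN
  obtain ⟨J, j, k, hs, hdJ, hM, hDy⟩ := exists_dyA h hG hr0 hlog hu huv.le hv hdJ0
  have hdI : Dense B J I := hdJ.trans hdJ0
  -- exponents
  obtain ⟨K, hK⟩ : ∃ K : ℝ, K = 2 + 2 * C * (2 * QG q qp + 17) := ⟨_, rfl⟩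
  have hK2 : 2 ≤ K := by rw [hK]; have : 0 ≤ 2 * C * (2 * QG q qp + 17) := by positivity
                         linarith
  obtain ⟨ε1, hε1, hεK⟩ : ∃ ε1 : ℝ, 0 < ε1 ∧ K * ε1 ≤ ε :=
    ⟨ε / K, by positivity, le_of_eq (by field_simp)⟩
  have hFJ : FlatE J lev f b := by
    intro v' h0 h1
    filter_upwards [hF v' h0 h1, hdI.1] with n hn hsub c t ht
    exact hn c t (alive_mono hsub _ _ ht)
  have hst := stage_evG hFF hC hM hG hr0 hlog hFJ hu huv.le hv ((hW v hv0 hv).sub hdI.1) hDy hg hq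
    hm hmp hε1
  -- contradiction
  have hfin : ∀ᶠ n in (U : Filter ℕ), False := by
    filter_upwards [dAW hM hG hr0 hu huv.le hv hε1, hM.ne, hDy, dims hM hG hr0 hu hu1,
      dims hM hG hr0 hv0 hv, const_le B (400 * Real.exp (2 * C * (1 + k0G q qp))) hε1,
      frm_ortho hM hG hu hu1, frm_ortho hM hG hv0 hv, hst]
      with n a1 a2 a3 a4 a5 a6 a7 a8 a9
    obtain ⟨x, hx⟩ := a2
    have hbad := hbad0 n x (hs n hx)
    obtain ⟨b1, b2, b3, b4, b5, b6, b7, b8, b9⟩ := a1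
    obtain ⟨du0, du1, du2, du3, -⟩ := a4
    obtain ⟨dv0, dv1, dv2, dv3, -⟩ := a5
    have hr := hr0 n
    have pv0 : 0 < w 0 n v := hr.trans_le dv0
    have pv2 : 0 < w 2 n v := pv0.trans_le dv1
    have pv1 : 0 < w 1 n v := pv2.trans_le dv2
    have hA : 0 < dA w n u v := by linarith
    have hEp := dpow_pos B n (-(cTh θ * ((v:ℝ) - u)) - ε1)
    have hsix := six_of_dy (a3 x hx) (a7 x hx) (a8 x hx) hA b2 b3 pv2 pv1
      (K := 200 * B.d n ^ (-(cTh θ * ((v:ℝ) - u)) - ε1)) (a0 := w 0 n v) (by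
        refine b4.trans ?_
        gcongr
        norm_num) b6 b8 b7
    have hL := B.L_pos n
    have hN : (((k n + j n : ℕ)) : ℝ) ≤ 2 * C * (1 + k0G q qp) + (2 * C * (cG θ q qp g *
        ((v:ℝ) - u) + (2 * QG q qp + 17) * ε1)) * B.L n := by
      push_cast
      linarith [a9.1, a9.2]
    set N := k n + j n with hNd
    have h2 : (2:ℝ) ^ N ≤ Real.exp (N : ℝ) := by
      have h3 : (2:ℝ) ≤ Real.exp 1 := by
        have := Real.add_one_le_exp (1:ℝ); linarith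
      have h4 : Real.exp (N : ℝ) = Real.exp 1 ^ N := by rw [← Real.exp_nat_mul, mul_one]
      rw [h4]
      exact pow_le_pow_left₀ (by norm_num) h3 N
    have h3 : (2:ℝ) ^ N ≤ Real.exp (2 * C * (1 + k0G q qp)) * B.d n ^ (-(2 * C * (cG θ q qp g *
        ((v:ℝ) - u) + (2 * QG q qp + 17) * ε1))) := by
      refine h2.trans ?_
      rw [dpow_exp, ← Real.exp_add, Real.exp_le_exp]
      refine hN.trans (le_of_eq ?_)
      ring
    have h4 : 2 * (200 * B.d n ^ (-(cTh θ * ((v:ℝ) - u)) - ε1)) * 2 ^ N ≤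
        B.d n ^ (-((cTh θ + 2 * C * cG θ q qp g) * ((v:ℝ) - u)) - ε) := by
      have hYp := dpow_pos B n (-(2 * C * (cG θ q qp g *
        ((v:ℝ) - u) + (2 * QG q qp + 17) * ε1)))
      calc 2 * (200 * B.d n ^ (-(cTh θ * ((v:ℝ) - u)) - ε1)) * 2 ^ N ≤
          2 * (200 * B.d n ^ (-(cTh θ * ((v:ℝ) - u)) - ε1)) *
          (Real.exp (2 * C * (1 + k0G q qp)) * B.d n ^ (-(2 * C * (cG θ q qp g *
            ((v:ℝ) - u) + (2 * QG q qp + 17) * ε1)))) := by gcongr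
        _ = (400 * Real.exp (2 * C * (1 + k0G q qp))) * (B.d n ^ (-(cTh θ * ((v:ℝ) - u)) - ε1) *
          B.d n ^ (-(2 * C * (cG θ q qp g *
            ((v:ℝ) - u) + (2 * QG q qp + 17) * ε1)))) := by ring
        _ ≤ B.d n ^ (-ε1) * (B.d n ^ (-(cTh θ * ((v:ℝ) - u)) - ε1) *
          B.d n ^ (-(2 * C * (cG θ q qp g *
            ((v:ℝ) - u) + (2 * QG q qp + 17) * ε1)))) := by gcongr
        _ = B.d n ^ (-ε1 + ((-(cTh θ * ((v:ℝ) - u)) - ε1) + (-(2 * C * (cG θ q qp g *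
            ((v:ℝ) - u) + (2 * QG q qp + 17) * ε1))))) := by
          rw [← dpow_add, ← dpow_add]
        _ ≤ _ := by
          refine dpow_le B n ?_
          have e : -ε1 + ((-(cTh θ * ((v:ℝ) - u)) - ε1) + (-(2 * C * (cG θ q qp g *
            ((v:ℝ) - u) + (2 * QG q qp + 17) * ε1)))) =
            -((cTh θ + 2 * C * cG θ q qp g) * ((v:ℝ) - u)) - K * ε1 := by rw [hK]; ring
          rw [e]
          linarith
    apply hbad
    refine hsix.mono ?_ ?_ ?_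
    · exact mul_le_mul (le_max_right _ _) h4 (by positivity)
        ((by positivity : 0 ≤ w 2 n v / w 1 n v).trans (le_max_right _ _))
    · exact mul_le_mul (le_max_right _ _) h4 (by positivity)
        ((by positivity : 0 ≤ w 0 n v / w 2 n v).trans (le_max_right _ _))
    · exact mul_le_mul (le_max_right _ _) h4 (by positivity)
        ((by positivity : 0 ≤ w 0 n v / w 1 n v).trans (le_max_right _ _))
  obtain ⟨n, hn⟩ := hfin.exists
  exact hn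

end

end Crest.Agent.R136.Fl808
end

-- ▼ part R136/Fn1_808

/-!
# R136 (S0187): flat tilt from a crude tilt (helper808)

* `qfl`, `shN_flat`, `inSheet_flat` : flat boxes are sheets; `GeoT`, `deepW_of` : deep D-max of sheets
  gives deep D-max of flat boxes;
* `dy_of_crude` : a crude tilt (six entries with the loss `d^(-C)`) bounds the dyadic tilts;
* `tilt_crude` : crude tilt ⊢ flat tilt, tests only at bounded exponents.
-/

set_option autoImplicit false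
set_option linter.unusedVariables false
set_option linter.unusedSectionVars false

namespace Crest.Agent.R136.Fl808

open Finset Filter Topology Crest.Agent.R136.Sh605
open Crest.Agent.R138.Ex926 (Base U)
open Crest.Agent.R138.Dp76 (Dense dpow_pos dpow_add dpow_le dpow_le_one)
open Crest.Agent.R138.Mk163 (zc zl rho alive own Negl)
open Crest.Agent.R138.MkRef627 (lc mem_alive card_class alive_mono)
open Crest.Agent.R136.K4 (Plk4)
open Crest.Agent.R136.MkA627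
open Crest.Agent.R136.Dia770 (extO DeepP extO_anc)

/-! ### flat boxes as test sheets -/

/-- the affine function of a flat box -/
def qfl (n : Fin 3 → V3) (l : Ln4) : ℝ → V3 → ℝ := fun z x => dt (n 0) (x - l.pos z)

theorem isQ_qfl (n : Fin 3 → V3) (l : Ln4) : IsQ (qfl n l) := by
  refine ⟨-dt (n 0) l.p, -dt (n 0) l.v, 0, n 0, 0, fun _ _ => 0, fun z x => ?_⟩
  simp only [qfl, dt, Ln4.pos, Pi.sub_apply, Fin.sum_univ_three, Pi.zero_apply]
  ring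

theorem qfl_step (n : Fin 3 → V3) (l : Ln4) (z : ℝ) (x y : V3) (τ : ℝ) :
    qfl n l z (x + τ • y) - qfl n l z x = τ * dt (n 0) y := by
  simp only [qfl, dt, Ln4.pos, Pi.sub_apply, Pi.add_apply, Pi.smul_apply, smul_eq_mul]
  ring

theorem shN_flat {n : Fin 3 → V3} (hn : Ortho n) (l : Ln4) {a w1 w2 z0 ρ r0 : ℝ} (hr : r0 ≤ a)
    (ha : 0 < a) (haw : a ≤ w2) (hw : w2 ≤ w1) :
    ShN n l ![w2, w1, w2] (qfl n l) a z0 ρ r0 := by
  have p2 : 0 < w2 := ha.trans_le haw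
  have p1 : 0 < w1 := p2.trans_le hw
  refine ShN0.toN ⟨hn, isQ_qfl n l, by simp, by simpa using haw, by simpa using hw, hr, ?_, ?_, ?_⟩
  · intro z _ _ x τ hτ _ _
    rw [qfl_step, hn 0 0, if_pos rfl]
    constructor <;> linarith
  · intro z _ _ x τ hτ _ _
    have : dt (n 0) (n 1) = 0 := by rw [hn 0 1]; simp
    rw [qfl_step, this, mul_zero, abs_zero]
    simp only [Matrix.cons_val_zero, Matrix.cons_val_one, Matrix.cons_val]
    positivity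
  · intro z _ _ x τ hτ _ _
    have : dt (n 0) (n 2) = 0 := by rw [hn 0 2]; simp
    rw [qfl_step, this, mul_zero, abs_zero]
    exact hτ

theorem inSheet_flat {t l : Ln4} {n : Fin 3 → V3} {a w1 w2 z0 ρ : ℝ} (haw : a ≤ w2)
    (h : InB t l n ![a, w1, w2] z0 ρ) : InSheet t n l ![w2, w1, w2] (qfl n l) a z0 ρ := by
  intro z h0 h1
  have h2 := h z h0 h1
  refine ⟨fun i => ?_, ?_⟩
  · have h3 := h2 i
    fin_cases i
    · simp only [Fin.zero_eta, Matrix.cons_val_zero] at h3 ⊢; linarith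
    · simpa using h3
    · simpa using h3
  · have h3 := h2 0
    simpa [qfl] using h3




section

variable {B : Base} {I : ℕ → Finset (ℕ × ℝ)} {G : Geo Plk4 (Fin 3)} {lev : ℕ → ℚ → ℕ}
    {A : ℕ → ℝ} {g : ℝ} {L : ℕ → ℕ → Ln4} {r0 r1 : ℕ → ℝ} {q : Fin 3 → ℝ}
    {ω1 ω2 κ0 κ1 κ2 : ℕ → ℝ} {Ad : (ℕ → ℕ) → Prop}


end


/-! ### crude tilt -/

/-- the six entries at the loss `X` -/
def SixM (lev : ℕ → ℚ → ℕ) (f : ℕ → ℚ → ℕ → ℤ → ℕ) (b : ℕ → ℚ → ℕ → Plk4)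
    (w : Fin 3 → ℕ → ℚ → ℝ) (X : ℝ) (n : ℕ) (u v : ℚ) (x : ℕ × ℝ) : Prop :=
  Six (frm lev f b n u x) (frm lev f b n v x)
    (max (w 2 n u / w 1 n u) (w 2 n v / w 1 n v) * X)
    (max (w 0 n u / w 2 n u) (w 0 n v / w 2 n v) * X)
    (max (w 0 n u / w 1 n u) (w 0 n v / w 1 n v) * X)




section

variable {B : Base} {I I0 : ℕ → Finset (ℕ × ℝ)} {G : Geo Plk4 (Fin 3)} {lev : ℕ → ℚ → ℕ}
    {A : ℕ → ℝ} {g : ℝ} {θ : Fin 3 → ℝ} {f : ℕ → ℚ → ℕ → ℤ → ℕ} {b : ℕ → ℚ → ℕ → Plk4}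
    {vm : ℕ → ℚ → ℝ} {w : Fin 3 → ℕ → ℚ → ℝ} {L : ℕ → ℕ → Ln4} {r0 : ℕ → ℝ} {q : Fin 3 → ℝ}
    {ω1 ω2 κ0 κ1 κ2 : ℕ → ℝ}




end

end Crest.Agent.R136.Fl808
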