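import Crest.Agent.R136.Geo3_186

/-!
# R136, [GEO-D] for the straight chart, finite part (helper186)

`gd_sheet` : the lines of a chart box around an incidence are contained in one sheet of 605's class
(in the original coordinates of `ℝ³`), with Lipschitz constant `1`.
-/

set_option autoImplicit false
set_option linter.unusedVariables false

namespace Crest.Agent.R136.GeoQ186

open Crest.Agent.R136.NetQ186
open Crest.Agent.R136.Sh605

/-- permuted coordinates -/
def pv (π : Equiv.Perm (Fin 3)) (x : V3) : V3 := fun k => x (π k)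

theorem dt_pv (π : Equiv.Perm (Fin 3)) (x y : V3) : dt (pv π x) (pv π y) = dt x y := by
  rw [dt_perm π x y]; rfl

theorem pv_symm (π : Equiv.Perm (Fin 3)) (x : V3) : pv π (pv π.symm x) = x := by
  funext k; simp [pv]

theorem dt_pvs (π : Equiv.Perm (Fin 3)) (e x : V3) : dt (pv π.symm e) x = dt e (pv π x) := by
  rw [← dt_pv π (pv π.symm e) x, pv_symm]

theorem pv_sub (π : Equiv.Perm (Fin 3)) (x y : V3) : pv π (x - y) = pv π x - pv π y := rfl

theorem pv_pos (π : Equiv.Perm (Fin 3)) (t : Ln4) (z : ℝ) : pv π (t.pos z) = (cLn π t).pos z := rfl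

/-- the frame in the original coordinates -/
def fpv (π : Equiv.Perm (Fin 3)) (e : Fin 3 → V3) : Fin 3 → V3 := fun k => pv π.symm (e k)

/-- the function in the original coordinates -/
def qpv (π : Equiv.Perm (Fin 3)) (q : ℝ → V3 → ℝ) : ℝ → V3 → ℝ := fun z x => q z (pv π x)

theorem inK_perm {π : Equiv.Perm (Fin 3)} {e : Fin 3 → V3} {c : Ln4} {w : V3} {z : ℝ} {x : V3} :
    InK (fpv π e) c w z x ↔ InK e (cLn π c) w z (pv π x) := by
  unfold InK fpv
  simp only [dt_pvs, pv_sub, pv_pos]



theorem inSheet_perm {π : Equiv.Perm (Fin 3)} {e : Fin 3 → V3} {t c : Ln4} {w : V3}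
    {q : ℝ → V3 → ℝ} {a z0 ρ : ℝ} :
    InSheet t (fpv π e) c w (qpv π q) a z0 ρ ↔ InSheet (cLn π t) e (cLn π c) w q a z0 ρ := by
  unfold InSheet
  refine forall_congr' fun z => forall_congr' fun _ => forall_congr' fun _ => ?_
  rw [inK_perm]
  rfl


section

variable {π : Equiv.Perm (Fin 3)} {c : Ln4} {zi ei Fa Fb H Wa Wb Wy z0 ρ ρ' r0 w1 w2 a : ℝ}
  {b : Fin 11 → ℝ}


end

end Crest.Agent.R136.GeoQ186
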