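import Crest.Agent.R138.Ex_926
import Crest.Agent.R138.Tw0_829

/-!
# R136: chart-free exponent forms of Kaufman and of the visible shift (helper356)

* `exists_le_of_ev`: comparison of exponents (829, repeated here: no `Cfg`).
* `kauf_ex`: Kaufman's count in exponent form; no chart, no box, arbitrary functions.
* `cells_shift`, `vis_ex`: a coordinate which is visible in another one has no more cells.
* `good_pair`: a good pair of heights with many common lines.
-/

set_option autoImplicit false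
set_option linter.unusedVariables false
set_option linter.unusedSectionVars false

open Filter Topology Finset

namespace Crest.Agent.R136.Gf356

open Crest.Agent.R138.Ex926 (Base U)

/-! ### powers of the base -/

theorem tendsto_rpow_zero (B : Base) {t : ℝ} (ht : 0 < t) :
    Tendsto (fun n => B.d n ^ t) U (𝓝 0) := by
  have := B.lim0.rpow_const (p := t) (Or.inr ht.le)
  simpa [Real.zero_rpow ht.ne'] using this

theorem ev_rpow_lt (B : Base) {t c : ℝ} (ht : 0 < t) (hc : 0 < c) :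
    ∀ᶠ n in (U : Filter ℕ), B.d n ^ t < c :=
  (tendsto_rpow_zero B ht).eventually (gt_mem_nhds hc)

/-- constants are absorbed -/
theorem ev_const_le (B : Base) {t : ℝ} (ht : 0 < t) (C : ℝ) :
    ∀ᶠ n in (U : Filter ℕ), C ≤ B.d n ^ (-t) := by
  have hC : 0 < 1 / (|C| + 1) := by positivity
  filter_upwards [ev_rpow_lt B ht hC] with n hn
  have hd := B.pos n
  rw [Real.rpow_neg hd.le]
  have h1 : 0 < B.d n ^ t := Real.rpow_pos_of_pos hd t
  rw [lt_div_iff₀ (by positivity)] at hn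
  calc C ≤ |C| + 1 := by linarith [le_abs_self C]
    _ ≤ (B.d n ^ t)⁻¹ := by
        rw [le_inv_comm₀ (by positivity) h1, ← one_div, le_div_iff₀ (by positivity)]
        exact hn.le

theorem rpow_anti (B : Base) (n : ℕ) {s t : ℝ} (h : s ≤ t) : B.d n ^ t ≤ B.d n ^ s :=
  Real.rpow_le_rpow_of_exponent_ge (B.pos n) (B.lt n).le h

theorem rpow_add' (B : Base) (n : ℕ) (s t : ℝ) : B.d n ^ (s + t) = B.d n ^ s * B.d n ^ t :=
  Real.rpow_add (B.pos n) s t

theorem rpos (B : Base) (n : ℕ) (t : ℝ) : 0 < B.d n ^ t := Real.rpow_pos_of_pos (B.pos n) t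

/-- the basic comparison of exponents -/
theorem exists_le_of_ev (B : Base) (J : ℕ) (β : ℕ → ℝ) (α C C0 : ℝ)
    (h : ∀ ε : ℝ, 0 < ε → ∀ᶠ n in (U : Filter ℕ),
      B.d n ^ (α + C * ε) ≤ C0 * ∑ j ∈ range (J + 1), B.d n ^ (β j - C * ε)) :
    ∃ j ≤ J, β j ≤ α := by
  by_contra hcon
  push Not at hcon
  obtain ⟨g, hg, hgj⟩ : ∃ g : ℝ, 0 < g ∧ ∀ j ≤ J, α + g ≤ β j := by
    have hne : (range (J + 1)).Nonempty := Finset.nonempty_range_iff.2 (by omega)
    refine ⟨(range (J + 1)).inf' hne (fun j => β j - α), ?_, ?_⟩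
    · refine (Finset.lt_inf'_iff hne).2 ?_
      intro j hj
      have := hcon j (by simpa [Nat.lt_succ_iff] using hj)
      linarith
    · intro j hj
      have := Finset.inf'_le (s := range (J + 1)) (fun j => β j - α)
        (b := j) (by simpa [Nat.lt_succ_iff] using hj)
      linarith
  set D := |C| + 1 with hD
  have hDpos : 0 < D := by positivity
  set ε := g / (4 * D) with hε
  have hεpos : 0 < ε := by positivity
  have hCε : |C| * ε ≤ g / 4 := by
    have : |C| * ε ≤ D * ε := mul_le_mul_of_nonneg_right (by simp [hD]) hεpos.le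
    have h2 : D * ε = g / 4 := by rw [hε]; field_simp
    linarith
  have habs : |C * ε| ≤ g / 4 := by rw [abs_mul, abs_of_pos hεpos]; exact hCε
  rw [abs_le] at habs
  have h1 := ev_rpow_lt B (t := g / 2) (c := 1 / ((|C0| + 1) * (J + 1))) (by linarith)
    (by positivity)
  obtain ⟨n, hn1, hn2⟩ := ((h ε hεpos).and h1).exists
  have hd := B.pos n
  have h3 : ∑ j ∈ range (J + 1), B.d n ^ (β j - C * ε)
      ≤ (J + 1) * B.d n ^ (α + g - g / 4) := by
    calc _ ≤ ∑ j ∈ range (J + 1), B.d n ^ (α + g - g / 4) := by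
          refine Finset.sum_le_sum fun j hj => rpow_anti B n ?_
          have := hgj j (by simpa [Nat.lt_succ_iff] using hj)
          linarith [habs.2]
      _ = _ := by simp
  have h4 : B.d n ^ (α + g / 4) ≤ B.d n ^ (α + C * ε) := rpow_anti B n (by linarith [habs.2])
  have hs0 : 0 ≤ ∑ j ∈ range (J + 1), B.d n ^ (β j - C * ε) :=
    Finset.sum_nonneg fun j _ => (Real.rpow_pos_of_pos hd _).le
  have h5 : C0 * ∑ j ∈ range (J + 1), B.d n ^ (β j - C * ε)
      ≤ (|C0| + 1) * ((J + 1) * B.d n ^ (α + g - g / 4)) := by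
    calc _ ≤ (|C0| + 1) * ∑ j ∈ range (J + 1), B.d n ^ (β j - C * ε) :=
          mul_le_mul_of_nonneg_right (by linarith [le_abs_self C0]) hs0
      _ ≤ _ := mul_le_mul_of_nonneg_left h3 (by positivity)
  have h6 : B.d n ^ (α + g - g / 4) = B.d n ^ (α + g / 4) * B.d n ^ (g / 2) := by
    rw [← rpow_add']; congr 1; ring
  have h7 : B.d n ^ (α + g / 4) ≤ (|C0| + 1) * ((J + 1) * (B.d n ^ (α + g / 4) * B.d n ^ (g / 2))) := by
    rw [← h6]
    exact h4.trans (hn1.trans h5)
  have h8 : 0 < B.d n ^ (α + g / 4) := Real.rpow_pos_of_pos hd _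
  rw [lt_div_iff₀ (by positivity)] at hn2
  have h9 : B.d n ^ (α + g / 4) * 1 ≤ B.d n ^ (α + g / 4) *
      (B.d n ^ (g / 2) * ((|C0| + 1) * (J + 1))) := by
    calc _ = B.d n ^ (α + g / 4) := mul_one _
      _ ≤ _ := h7
      _ = _ := by ring
  have h10 := le_of_mul_le_mul_left h9 h8
  linarith

/-- two exponents -/
theorem le_of_ev (B : Base) (α β C C0 : ℝ)
    (h : ∀ ε : ℝ, 0 < ε → ∀ᶠ n in (U : Filter ℕ),
      B.d n ^ (α + C * ε) ≤ C0 * B.d n ^ (β - C * ε)) : β ≤ α := by
  obtain ⟨j, hj, h1⟩ := exists_le_of_ev B 0 (fun _ => β) α C C0 (by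
    intro ε hε
    filter_upwards [h ε hε] with n hn
    simpa using hn)
  exact h1

/-! ### Kaufman -/

/-- the scale `x * j / J` -/
noncomputable def sc (x : ℝ) (J j : ℕ) : ℝ := x * j / J

theorem sc_zero (x : ℝ) (J : ℕ) : sc x J 0 = 0 := by simp [sc]

theorem sc_top (x : ℝ) {J : ℕ} (hJ : 0 < J) : sc x J J = x := by
  unfold sc
  have : (J : ℝ) ≠ 0 := by exact_mod_cast hJ.ne'
  field_simp

theorem sc_nonneg {x : ℝ} (hx : 0 ≤ x) (J j : ℕ) : 0 ≤ sc x J j := by unfold sc; positivity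

theorem sc_le {x : ℝ} (hx : 0 ≤ x) {J j : ℕ} (hJ : 0 < J) (hj : j ≤ J) : sc x J j ≤ x := by
  unfold sc
  have h1 : (0 : ℝ) < J := by exact_mod_cast hJ
  rw [div_le_iff₀ h1]
  have h2 : (j : ℝ) ≤ J := by exact_mod_cast hj
  exact mul_le_mul_of_nonneg_left h2 hx

theorem sc_succ (x : ℝ) {J : ℕ} (hJ : 0 < J) (j : ℕ) : sc x J (j + 1) = sc x J j + x / J := by
  unfold sc
  have : (J : ℝ) ≠ 0 := by exact_mod_cast hJ.ne'
  push_cast
  field_simp



/-! ### the visible shift -/


/-- the number of points is at most (number of cells) × (largest cell) -/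
theorem card_le_cells {ι : Type*} [DecidableEq ι] (S : Finset ι) (X : ι → ℝ) {r P : ℝ} (hr : 0 < r)
    (hP : ∀ i ∈ S, ((S.filter fun i' => |X i' - X i| ≤ r).card : ℝ) ≤ P) :
    (S.card : ℝ) ≤ ((S.image fun i => ⌊X i / r⌋).card : ℝ) * P := by
  classical
  have h1 : S.card = ∑ c ∈ S.image fun i => ⌊X i / r⌋, (S.filter fun i => ⌊X i / r⌋ = c).card :=
    Finset.card_eq_sum_card_fiberwise fun i hi => Finset.mem_image_of_mem _ hi
  have h2 : ∀ c ∈ S.image fun i => ⌊X i / r⌋, ((S.filter fun i => ⌊X i / r⌋ = c).card : ℝ) ≤ P := by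
    intro c hc
    obtain ⟨i, hi, rfl⟩ := Finset.mem_image.1 hc
    refine le_trans ?_ (hP i hi)
    have : (S.filter fun i' => ⌊X i' / r⌋ = ⌊X i / r⌋) ⊆ S.filter fun i' => |X i' - X i| ≤ r := by
      intro i' hi'
      obtain ⟨a1, a2⟩ := Finset.mem_filter.1 hi'
      have e1 := Int.abs_sub_lt_one_of_floor_eq_floor a2
      rw [← sub_div, abs_div, abs_of_pos hr, div_lt_one hr] at e1
      exact Finset.mem_filter.2 ⟨a1, e1.le⟩
    exact_mod_cast Finset.card_le_card this
  calc (S.card : ℝ) = ∑ c ∈ S.image fun i => ⌊X i / r⌋,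
        ((S.filter fun i => ⌊X i / r⌋ = c).card : ℝ) := by rw [h1]; push_cast; rfl
    _ ≤ ∑ c ∈ S.image fun i => ⌊X i / r⌋, P := Finset.sum_le_sum h2
    _ = _ := by rw [Finset.sum_const, nsmul_eq_mul]


/-- **a good pair of heights with many common lines.** -/
theorem good_pair {ι : Type*} [DecidableEq ι] (L : Finset ι) (Z : Finset ℕ) (al : ι → ℕ → Prop)
    [∀ i, DecidablePred (al i)] (bad : ℕ → ℕ → Prop) [∀ k, DecidablePred (bad k)] {θ : ℝ}
    (hθ : 0 < θ) (hL : L.Nonempty) (hZ : Z.Nonempty)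
    (hal : ∀ i ∈ L, θ * (Z.card : ℝ) ≤ ((Z.filter fun k => al i k).card : ℝ))
    (hbad : ∀ i ∈ L, 2 * ((((Z.filter fun k => al i k) ×ˢ (Z.filter fun k => al i k)).filter
      fun q => bad q.1 q.2).card : ℝ) ≤ (((Z.filter fun k => al i k).card : ℝ)) ^ 2) :
    ∃ k ∈ Z, ∃ k' ∈ Z, ¬ bad k k' ∧
      θ ^ 2 / 2 * (L.card : ℝ) ≤ ((L.filter fun i => al i k ∧ al i k').card : ℝ) := by
  classical
  by_contra hcon
  push Not at hcon
  have hZ0 : (0 : ℝ) < Z.card := by exact_mod_cast hZ.card_pos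
  have hL0 : (0 : ℝ) < L.card := by exact_mod_cast hL.card_pos
  set W := (Z ×ˢ Z).filter fun q => ¬ bad q.1 q.2 with hW
  -- double counting
  have h1 : ∑ i ∈ L, ((W.filter fun q => al i q.1 ∧ al i q.2).card : ℝ) =
      ∑ q ∈ W, ((L.filter fun i => al i q.1 ∧ al i q.2).card : ℝ) := by
    have : ∑ i ∈ L, (W.filter fun q => al i q.1 ∧ al i q.2).card =
        ∑ q ∈ W, (L.filter fun i => al i q.1 ∧ al i q.2).card := by
      simp only [Finset.card_filter]
      exact Finset.sum_comm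
    exact_mod_cast this
  have h2 : ∀ i ∈ L, θ ^ 2 / 2 * (Z.card : ℝ) ^ 2 ≤
      ((W.filter fun q => al i q.1 ∧ al i q.2).card : ℝ) := by
    intro i hi
    set H := Z.filter fun k => al i k with hH
    have e1 : W.filter (fun q => al i q.1 ∧ al i q.2) = (H ×ˢ H).filter fun q => ¬ bad q.1 q.2 := by
      ext q
      simp only [hW, hH, Finset.mem_filter, Finset.mem_product]
      tauto
    have e2 : ((H ×ˢ H).filter fun q => bad q.1 q.2).card +
        ((H ×ˢ H).filter fun q => ¬ bad q.1 q.2).card = H.card * H.card := by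
      rw [Finset.card_filter_add_card_filter_not, Finset.card_product]
    have e3 : (((H ×ˢ H).filter fun q => bad q.1 q.2).card : ℝ) +
        (((H ×ˢ H).filter fun q => ¬ bad q.1 q.2).card : ℝ) = (H.card : ℝ) * H.card := by
      exact_mod_cast e2
    have e4 := hbad i hi
    have e5 := hal i hi
    rw [e1]
    have e6 : (θ * (Z.card : ℝ)) ^ 2 ≤ (H.card : ℝ) ^ 2 :=
      pow_le_pow_left₀ (by positivity) e5 2
    nlinarith
  have h3 : (L.card : ℝ) * (θ ^ 2 / 2 * (Z.card : ℝ) ^ 2) ≤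
      ∑ q ∈ W, ((L.filter fun i => al i q.1 ∧ al i q.2).card : ℝ) := by
    rw [← h1]
    calc (L.card : ℝ) * (θ ^ 2 / 2 * (Z.card : ℝ) ^ 2) = ∑ i ∈ L, θ ^ 2 / 2 * (Z.card : ℝ) ^ 2 := by
          rw [Finset.sum_const, nsmul_eq_mul]
      _ ≤ _ := Finset.sum_le_sum h2
  have h4 : ∑ q ∈ W, ((L.filter fun i => al i q.1 ∧ al i q.2).card : ℝ) <
      (L.card : ℝ) * (θ ^ 2 / 2 * (Z.card : ℝ) ^ 2) := by
    rcases W.eq_empty_or_nonempty with hWe | hWn
    · rw [hWe, Finset.sum_empty]; positivity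
    · have hWc : (W.card : ℝ) ≤ (Z.card : ℝ) ^ 2 := by
        have : W.card ≤ Z.card * Z.card := by
          rw [← Finset.card_product]; exact Finset.card_le_card (Finset.filter_subset _ _)
        rw [sq]; exact_mod_cast this
      calc ∑ q ∈ W, ((L.filter fun i => al i q.1 ∧ al i q.2).card : ℝ)
          < ∑ q ∈ W, θ ^ 2 / 2 * (L.card : ℝ) := by
            refine Finset.sum_lt_sum_of_nonempty hWn fun q hq => ?_
            obtain ⟨a1, a2⟩ := Finset.mem_filter.1 hq
            rw [Finset.mem_product] at a1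
            exact hcon q.1 a1.1 q.2 a1.2 a2
        _ = (W.card : ℝ) * (θ ^ 2 / 2 * (L.card : ℝ)) := by rw [Finset.sum_const, nsmul_eq_mul]
        _ ≤ (Z.card : ℝ) ^ 2 * (θ ^ 2 / 2 * (L.card : ℝ)) :=
            mul_le_mul_of_nonneg_right hWc (by positivity)
        _ = _ := by ring
  exact absurd h4 (not_lt.2 h3)

/-- **a popular fibre.** -/
theorem exists_fibre {ι γ : Type*} [DecidableEq ι] [DecidableEq γ] (T : Finset ι) (lab : ι → γ)
    (hT : T.Nonempty) {M : ℝ} (hM : ((T.image lab).card : ℝ) ≤ M) :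
    ∃ i0 ∈ T, (T.card : ℝ) ≤ M * ((T.filter fun i => lab i = lab i0).card : ℝ) := by
  classical
  by_contra hcon
  push Not at hcon
  have h1 : (T.card : ℝ) = ∑ c ∈ T.image lab, ((T.filter fun i => lab i = c).card : ℝ) := by
    have : T.card = ∑ c ∈ T.image lab, (T.filter fun i => lab i = c).card :=
      Finset.card_eq_sum_card_fiberwise fun i hi => Finset.mem_image_of_mem _ hi
    exact_mod_cast this
  have hne : (T.image lab).Nonempty := hT.image lab
  have hT0 : (0 : ℝ) < T.card := by exact_mod_cast hT.card_pos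
  have hI0 : (0 : ℝ) < (T.image lab).card := by exact_mod_cast hne.card_pos
  have hM0 : 0 < M := lt_of_lt_of_le hI0 hM
  have h2 : ∑ c ∈ T.image lab, ((T.filter fun i => lab i = c).card : ℝ) <
      ∑ c ∈ T.image lab, (T.card : ℝ) / M := by
    refine Finset.sum_lt_sum_of_nonempty hne fun c hc => ?_
    obtain ⟨i, hi, rfl⟩ := Finset.mem_image.1 hc
    rw [lt_div_iff₀ hM0, mul_comm]
    exact hcon i hi
  rw [← h1, Finset.sum_const, nsmul_eq_mul] at h2
  have h3 : ((T.image lab).card : ℝ) * ((T.card : ℝ) / M) ≤ M * ((T.card : ℝ) / M) :=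
    mul_le_mul_of_nonneg_right hM (by positivity)
  have h4 : M * ((T.card : ℝ) / M) = T.card := by field_simp
  linarith

end Crest.Agent.R136.Gf356
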