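import Crest.Agent.R136.KDef4_879
import Crest.Agent.R136.Sh6_605

/-!
# R136: literal configurations with a class PARAMETER and three rewards (helper879)

`Leg m r Λm K` = the sheet `K` (over the cell `K.j` of level `m`) belongs to the class at resolution
`r` with slope cap `Λm`.  `cap5 q m K = a w2 w1 (a 2^m)^(q 0) (w1 2^m)^(q 1) (w2 2^m)^(q 2)` (thickness, wide, narrow).
`Ok5 Leg q F`: validity of the configuration `F : Cf4`.
`ClsOK Leg κ`: what the enemy needs from the class.  `enemy5`: `¬ KS4` gives admissible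
configurations of value `≥ b0 - ∑ |q i|`.
-/

set_option autoImplicit false

open Finset

namespace Crest.Agent.R136.K4

open Sh605 KS879 En879

noncomputable section

/-- capacity with three rewards -/
def cap5 (q : Fin 3 → ℝ) (m : ℕ) (K : Plk4) : ℝ :=
  K.a * K.w 2 * K.w 1 *
    ((K.a * 2 ^ m) ^ q 0 * (K.w 1 * 2 ^ m) ^ q 1 * (K.w 2 * 2 ^ m) ^ q 2)

/-- validity of a configuration for the class `Leg` and the rewards `q` -/
structure Ok5 (Leg : ℕ → ℝ → ℝ → Plk4 → Prop) (q : Fin 3 → ℝ) (F : Cf4) : Prop where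
  M1 : 1 ≤ F.M
  r0 : 0 < F.r
  rle : F.r ≤ 1 / 2 ^ F.top
  Λ1 : 1 ≤ F.Λm
  ne : F.I.Nonempty
  cell : ∀ x ∈ F.I, ∀ y ∈ F.I, zc4 F.m x.2 = zc4 F.m y.2
  D1p : 0 < F.D1
  legal : ∀ x ∈ F.I, Leg F.top F.r F.Λm (F.K (F.cl (ob4 F.top x)))
  mem : ∀ x ∈ F.I, In4 F.top (F.K (F.cl (ob4 F.top x))) (ob4 F.top x)
  low : ∀ x ∈ F.I, F.D1 * cap5 q F.top (F.K (F.cl (ob4 F.top x))) ≤ ((F.cls x).card : ℝ)
  up : ∀ K, Leg F.m F.r F.Λm K → ((objs4 F.m F.I K).card : ℝ) ≤ F.D0 * cap5 q F.m K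

/-- what the enemy needs from the class: members over the cell `[0,1]` are sheets (resolution
loses `2^κ`), have `w 1 ≤ 2^κ`; cubes are members. -/
structure ClsOK (Leg : ℕ → ℝ → ℝ → Plk4 → Prop) (κ : ℕ) : Prop where
  sheet : ∀ r Λm K, 0 < r → Leg 0 r Λm K → K.j = 0 →
    Sheet K.e K.c K.w K.q K.a 0 1 (r / 2 ^ κ)
  width : ∀ r Λm K, 0 < r → Leg 0 r Λm K → r ≤ K.a ∧ K.a ≤ K.w 2 ∧ K.w 2 ≤ K.w 1 ∧ K.w 1 ≤ 2 ^ κ
  cube : ∀ m r Λm o, 0 < r → 1 ≤ Λm → r ≤ 1 / 2 ^ m → Leg m r Λm (cubeK r o)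






/-- the total reward exponent -/
def qs (q : Fin 3 → ℝ) : ℝ := |q 0| + |q 1| + |q 2|





/-! ### the official class `ShN` (605, class C*) -/

/-- legal C*-sheets of level `m` at resolution `r` (the slope cap is not used) -/
def LegN (m : ℕ) (r _Λm : ℝ) (K : Plk4) : Prop :=
  ShN K.e K.c K.w K.q K.a ((K.j : ℝ) / 2 ^ m) (1 / 2 ^ m) r ∧ K.w 1 ≤ 1 / 2 ^ m

/-- one coordinate step in a box -/
theorem step_move {e : Fin 3 → V3} {q : ℝ → V3 → ℝ} {c : Ln4} {w : V3} {z : ℝ} {k : Fin 3}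
    {Λ : ℝ} (hst : ∀ (x : V3) (τ : ℝ), 0 ≤ τ → InK e c w z x → InK e c w z (x + τ • e k) →
      |q z (x + τ • e k) - q z x| ≤ Λ * τ) {x : V3} {τ : ℝ} (h0 : InK e c w z x)
    (h1 : InK e c w z (x + τ • e k)) : |q z (x + τ • e k) - q z x| ≤ Λ * |τ| := by
  rcases le_total 0 τ with h | h
  · rw [abs_of_nonneg h]; exact hst x τ h h0 h1
  · rw [abs_of_nonpos h, abs_sub_comm]
    have e1 : x + τ • e k + (-τ) • e k = x := by rw [add_assoc, ← add_smul]; simp
    have := hst (x + τ • e k) (-τ) (by linarith) h1 (by rw [e1]; exact h0)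
    rwa [e1] at this

theorem abs_dt_le {e x : V3} (he : dt e e = 1) : |dt e x| ≤ |x 0| + |x 1| + |x 2| := by
  have h0 : |e 0| ≤ 1 := by
    rw [← abs_one, ← sq_le_sq]; unfold dt at he; nlinarith [sq_nonneg (e 1), sq_nonneg (e 2)]
  have h1 : |e 1| ≤ 1 := by
    rw [← abs_one, ← sq_le_sq]; unfold dt at he; nlinarith [sq_nonneg (e 0), sq_nonneg (e 2)]
  have h2 : |e 2| ≤ 1 := by
    rw [← abs_one, ← sq_le_sq]; unfold dt at he; nlinarith [sq_nonneg (e 0), sq_nonneg (e 1)]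
  unfold dt
  calc |e 0 * x 0 + e 1 * x 1 + e 2 * x 2| ≤ |e 0 * x 0| + |e 1 * x 1| + |e 2 * x 2| := by
        refine (abs_add_le _ _).trans ?_
        have := abs_add_le (e 0 * x 0) (e 1 * x 1)
        linarith
    _ = |e 0| * |x 0| + |e 1| * |x 1| + |e 2| * |x 2| := by rw [abs_mul, abs_mul, abs_mul]
    _ ≤ 1 * |x 0| + 1 * |x 1| + 1 * |x 2| := by gcongr
    _ = _ := by ring

theorem shN_w2 {e : Fin 3 → V3} {c : Ln4} {w : V3} {q : ℝ → V3 → ℝ} {a z0 ρ r0 : ℝ}
    (hr : 0 < r0) (h : ShN e c w q a z0 ρ r0) : 0 < w 2 ∧ 0 < w 1 ∧ 0 < w 0 := by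
  have h1 : 0 < w 2 := (hr.trans_le h.r0_le).trans_le h.a_le
  exact ⟨h1, h1.trans_le h.w_le, (hr.trans_le h.r0_le).trans_le h.a_le0⟩

/-- `ShN` at resolution `r0` is a `Sheet` at resolution `r0 / 4` -/
theorem shN_toSheet {e : Fin 3 → V3} {c : Ln4} {w : V3} {q : ℝ → V3 → ℝ} {a z0 ρ r0 : ℝ}
    (hr : 0 < r0) (h : ShN e c w q a z0 ρ r0) : Sheet e c w q a z0 ρ (r0 / 2 ^ 2) := by
  obtain ⟨p2, p1, p0⟩ := shN_w2 hr h
  have hd : ∀ i, dbl w i ≤ dbl3 w i := by
    intro i
    fin_cases i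
    · show w 0 ≤ 2 * w 0; linarith
    · exact le_rfl
    · exact le_rfl
  have hin : ∀ {z : ℝ} {x : V3}, InK e c (dbl w) z x → InK e c (dbl3 w) z x :=
    fun hx i => (hx i).trans (hd i)
  refine ⟨h.ortho, h.isQ, ?_, h.a_le, h.w_le, ?_, ?_⟩
  · intro z hz0 hz1 x τ hτ hx hx'
    exact h.st0 z hz0 hz1 x τ hτ (hin hx) (hin hx')
  · have := h.r0_le
    have : r0 / 2 ^ 2 ≤ r0 := div_le_self hr.le (by norm_num)
    linarith [h.r0_le]
  · refine ⟨4, by norm_num, ?_, by
      have := h.r0_le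
      have e1 : r0 / 2 ^ 2 * 4 = r0 := by ring
      rw [e1]; exact this⟩
    intro z hz0 hz1 x x' hx hx'
    -- move from `x'` to `x` along `e 0`, `e 1`, `e 2`
    set t : Fin 3 → ℝ := fun i => dt (e i) (x - x') with ht
    have hxe : x = x' + t 0 • e 0 + t 1 • e 1 + t 2 • e 2 := by
      funext j
      have := h.ortho.expand (x - x') j
      simp only [Pi.sub_apply] at this
      simp only [Pi.add_apply, Pi.smul_apply, smul_eq_mul, ht]
      linarith
    set x1 : V3 := x' + t 0 • e 0 with hx1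
    set x2 : V3 := x1 + t 1 • e 1 with hx2
    have hx3 : x = x2 + t 2 • e 2 := by rw [hx2, hx1]; exact hxe
    have c1 : InK e c (dbl3 w) z x1 := by
      intro i
      rw [hx1, KR879.dt_move]
      fin_cases i
      · show |dt (e 0) (x' - c.pos z) + t 0 * dt (e 0) (e 0)| ≤ dbl3 w 0
        rw [KR879.dt_self h.ortho, mul_one, ht]
        have : dt (e 0) (x' - c.pos z) + dt (e 0) (x - x') = dt (e 0) (x - c.pos z) := by
          simp only [dt, Pi.sub_apply]; ring
        simp only [this]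
        exact hin hx 0
      · show |dt (e 1) (x' - c.pos z) + t 0 * dt (e 1) (e 0)| ≤ dbl3 w 1
        rw [KR879.dt_ne h.ortho (by decide : (1 : Fin 3) ≠ 0), mul_zero, add_zero]
        exact hin hx' 1
      · show |dt (e 2) (x' - c.pos z) + t 0 * dt (e 2) (e 0)| ≤ dbl3 w 2
        rw [KR879.dt_ne h.ortho (by decide : (2 : Fin 3) ≠ 0), mul_zero, add_zero]
        exact hin hx' 2
    have c2 : InK e c (dbl3 w) z x2 := by
      intro i
      rw [hx2, KR879.dt_move]
      fin_cases i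
      · show |dt (e 0) (x1 - c.pos z) + t 1 * dt (e 0) (e 1)| ≤ dbl3 w 0
        rw [KR879.dt_ne h.ortho (by decide : (0 : Fin 3) ≠ 1), mul_zero, add_zero]
        exact c1 0
      · show |dt (e 1) (x1 - c.pos z) + t 1 * dt (e 1) (e 1)| ≤ dbl3 w 1
        rw [KR879.dt_self h.ortho, mul_one, ht]
        have e2 : dt (e 1) (x1 - c.pos z) = dt (e 1) (x' - c.pos z) := by
          rw [hx1, KR879.dt_move, KR879.dt_ne h.ortho (by decide : (1 : Fin 3) ≠ 0), mul_zero,
            add_zero]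
        have : dt (e 1) (x1 - c.pos z) + dt (e 1) (x - x') = dt (e 1) (x - c.pos z) := by
          rw [e2]; simp only [dt, Pi.sub_apply]; ring
        simp only [this]
        exact hin hx 1
      · show |dt (e 2) (x1 - c.pos z) + t 1 * dt (e 2) (e 1)| ≤ dbl3 w 2
        rw [KR879.dt_ne h.ortho (by decide : (2 : Fin 3) ≠ 1), mul_zero, add_zero]
        exact c1 2
    have m0 := step_move (q := q) (k := 0) (Λ := 2) (fun y τ hτ hy hy' => by
      have := h.st0 z hz0 hz1 y τ hτ hy hy'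
      rw [abs_le]; constructor <;> linarith [this.1, this.2]) (hin hx') c1
    have m1 := step_move (q := q) (k := 1) (Λ := 1) (fun y τ hτ hy hy' => by
      refine (h.st1 z hz0 hz1 y τ hτ hy hy').trans ?_
      have : w 2 / w 1 ≤ 1 := (div_le_one p1).2 h.w_le
      nlinarith) c1 c2
    have m2 := step_move (q := q) (k := 2) (Λ := 1) (fun y τ hτ hy hy' => by
      refine (h.st2 z hz0 hz1 y τ hτ hy hy').trans ?_
      linarith) c2 (by rw [← hx3]; exact hin hx)
    rw [← hx1] at m0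
    rw [← hx2] at m1
    rw [← hx3] at m2
    have d0 := abs_dt_le (e := e 0) (x := x - x') (KR879.dt_self h.ortho 0)
    have d1 := abs_dt_le (e := e 1) (x := x - x') (KR879.dt_self h.ortho 1)
    have d2 := abs_dt_le (e := e 2) (x := x - x') (KR879.dt_self h.ortho 2)
    simp only [Pi.sub_apply] at d0 d1 d2
    have hsum : |q z x - q z x'| ≤ |q z x1 - q z x'| + |q z x2 - q z x1| + |q z x - q z x2| := by
      have e1 : q z x - q z x' = (q z x1 - q z x') + (q z x2 - q z x1) + (q z x - q z x2) := by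
        ring
      rw [e1]
      refine (abs_add_le _ _).trans ?_
      have := abs_add_le (q z x1 - q z x') (q z x2 - q z x1)
      linarith
    simp only [ht] at m0 m1 m2
    linarith

/-- the `r`-cube around a line is a cigar -/
theorem cubeN0 (c : Ln4) {r z0 ρ : ℝ} (hr : 0 < r) :
    ShN0 stdE c ![r, r, r] (cubeQ c) r z0 ρ r where
  ortho := ortho_std
  isQ := (cubeSheet c (r := r) (z0 := z0) (ρ := ρ)).isQ
  w0_eq := rfl
  a_le := le_rfl
  w_le := le_rfl
  r0_le := le_rfl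
  st0 := by
    intro z _ _ x τ hτ _ _
    have : cubeQ c z (x + τ • stdE 0) - cubeQ c z x = τ := by
      simp only [cubeQ, stdE, Pi.add_apply, Pi.smul_apply, smul_eq_mul, Matrix.cons_val_zero]
      ring
    rw [this]; constructor <;> linarith
  st1 := by
    intro z _ _ x τ hτ _ _
    have h1 : cubeQ c z (x + τ • stdE 1) - cubeQ c z x = 0 := by
      simp only [cubeQ, stdE, Pi.add_apply, Pi.smul_apply, smul_eq_mul, Matrix.cons_val_zero,
        Matrix.cons_val_one]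
      ring
    rw [h1, abs_zero]
    have : (![r, r, r] : V3) 2 / (![r, r, r] : V3) 1 = 1 := by
      show r / r = 1
      exact div_self hr.ne'
    rw [this, one_mul]
    exact hτ
  st2 := by
    intro z _ _ x τ hτ _ _
    have h1 : cubeQ c z (x + τ • stdE 2) - cubeQ c z x = 0 := by
      simp only [cubeQ, stdE, Pi.add_apply, Pi.smul_apply, smul_eq_mul, Matrix.cons_val_zero,
        Matrix.cons_val]
      ring
    rw [h1, abs_zero]
    exact hτ

/-- the `r`-cube around a line is a C*-sheet -/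
theorem cubeN (c : Ln4) {r z0 ρ : ℝ} (hr : 0 < r) :
    ShN stdE c ![r, r, r] (cubeQ c) r z0 ρ r := (cubeN0 c hr).toN


end

end Crest.Agent.R136.K4
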