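import Crest.Agent.R138.TwA_501
import Crest.Agent.R138.PlThin_187

-- ▼ part R136/LA1_501
section

/-!
# R136 [RIG_E], Lemma A (for helper344), part 1 (helper501): configurations, counting, slopes

Lines `l : (x l, c l, p l)`, heights `k : (z k, f k)`; position `X_l(k) = x l + z k * c l`.  If two
lines meet at `k` then `p l' - p l = f k * (c l' - c l)` up to `δ / e`.  All losses are powers of `e`.
-/

set_option autoImplicit false
set_option linter.unusedVariables false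
set_option linter.unusedSectionVars false

open Finset

namespace Crest.Agent.R136.LA501

open Crest.Agent.R138.TwA501 (sq_card_le card_le_of_fibers)

/-- position of the line `l` at the height `k` -/
def XX (z x c : ℕ → ℝ) (l k : ℕ) : ℝ := x l + z k * c l

/-- cell of width `δ` of the position -/
noncomputable def cell (δ : ℝ) (z x c : ℕ → ℝ) (k l : ℕ) : ℤ := ⌊XX z x c l k / δ⌋

/-- a regular configuration -/
structure Cfg (δ e m : ℝ) (L Z : Finset ℕ) (I : Finset (ℕ × ℕ)) (z f x c p : ℕ → ℝ) : Prop where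
  δ0 : 0 < δ
  δe : δ ≤ e
  e0 : 0 < e
  e1 : e ≤ 1 / 100
  m0 : 0 < m
  m1 : m ≤ 1
  sub : I ⊆ L ×ˢ Z
  zf : ∀ k ∈ Z, |z k| ≤ 1 ∧ |f k| ≤ 1
  lb : ∀ l ∈ L, |x l| ≤ 2 ∧ |c l| ≤ 1 ∧ |p l| ≤ 1
  hz : ∀ k ∈ Z, ∀ r : ℝ, δ ≤ r → r ≤ 1 →
    ((Z.filter fun k' => |z k' - z k| ≤ r).card : ℝ) ≤ r / e * Z.card
  pen : ∀ l k : ℕ, (l, k) ∈ I → ∀ r : ℝ, δ ≤ r → r ≤ 2 →
    ((L.filter fun l' => (l', k) ∈ I ∧ |XX z x c l' k - XX z x c l k| ≤ δ ∧
      |c l' - c l| ≤ r).card : ℝ) ≤ δ * r ^ m / e * L.card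
  star : ∀ l l' k : ℕ, (l, k) ∈ I → (l', k) ∈ I → |XX z x c l' k - XX z x c l k| ≤ δ →
    |p l' - p l - f k * (c l' - c l)| ≤ δ / e
  degZ : ∀ k ∈ Z, e * (L.card : ℝ) ≤ ((L.filter fun l => (l, k) ∈ I).card : ℝ)
  degL : ∀ l ∈ L, e * (Z.card : ℝ) ≤ ((Z.filter fun k => (l, k) ∈ I).card : ℝ)
  nL : L.Nonempty
  nZ : Z.Nonempty

section

variable {δ e m : ℝ} {L Z : Finset ℕ} {I : Finset (ℕ × ℕ)} {z f x c p : ℕ → ℝ}

theorem cell_close (hδ : 0 < δ) {k l l' : ℕ} (h : cell δ z x c k l = cell δ z x c k l') :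
    |XX z x c l' k - XX z x c l k| ≤ δ := by
  unfold cell at h
  have h1 := Int.abs_sub_lt_one_of_floor_eq_floor h
  rw [← sub_div, abs_div, abs_of_pos hδ, div_lt_one hδ] at h1
  rw [abs_sub_comm]
  exact h1.le

theorem cells_card (H : Cfg δ e m L Z I z f x c p) {k : ℕ} (hk : k ∈ Z) {S : Finset ℕ}
    (hS : S ⊆ L) : ((S.image (cell δ z x c k)).card : ℝ) ≤ 8 / δ := by
  have hδ := H.δ0
  have hsub : S.image (cell δ z x c k) ⊆ Finset.Icc ⌊-3 / δ⌋ ⌊3 / δ⌋ := by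
    intro a ha
    obtain ⟨l, hl, rfl⟩ := mem_image.1 ha
    obtain ⟨h1, h2, -⟩ := H.lb l (hS hl)
    have h3 := (H.zf k hk).1
    have h4 : |z k * c l| ≤ 1 := by
      rw [abs_mul]
      calc |z k| * |c l| ≤ 1 * 1 := mul_le_mul h3 h2 (abs_nonneg _) zero_le_one
        _ = 1 := one_mul _
    rw [abs_le] at h1 h4
    rw [Finset.mem_Icc]
    unfold cell XX
    refine ⟨Int.floor_le_floor ?_, Int.floor_le_floor ?_⟩
    · exact div_le_div_of_nonneg_right (by linarith [h1.1, h4.1]) hδ.le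
    · exact div_le_div_of_nonneg_right (by linarith [h1.2, h4.2]) hδ.le
  have h1 : ((S.image (cell δ z x c k)).card : ℝ) ≤ ((Finset.Icc ⌊-3 / δ⌋ ⌊3 / δ⌋).card : ℝ) := by
    exact_mod_cast card_le_card hsub
  refine h1.trans ?_
  rw [Int.card_Icc]
  have h2 : (0 : ℤ) ≤ ⌊3 / δ⌋ + 1 - ⌊-3 / δ⌋ := by
    have : ⌊-3 / δ⌋ ≤ ⌊3 / δ⌋ := Int.floor_le_floor
      (div_le_div_of_nonneg_right (by norm_num) hδ.le)
    omega
  have h3 : (((⌊3 / δ⌋ + 1 - ⌊-3 / δ⌋).toNat : ℕ) : ℝ) = ((⌊3 / δ⌋ + 1 - ⌊-3 / δ⌋ : ℤ) : ℝ) := by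
    have := Int.toNat_of_nonneg h2
    exact_mod_cast this
  rw [h3]
  push_cast
  have h4 := Int.floor_le (3 / δ)
  have h5 := Int.lt_floor_add_one (-3 / δ)
  have h6 : 1 ≤ 1 / δ := by
    rw [le_div_iff₀ hδ]
    linarith [H.δe, H.e1]
  have h7 : 8 / δ = 3 / δ - (-3 / δ) + 2 * (1 / δ) := by ring
  rw [h7]
  linarith

/-- lines of one cell at `k` -/
theorem fib_one (H : Cfg δ e m L Z I z f x c p) {k : ℕ} {S : Finset ℕ} (hS : S ⊆ L)
    (hSI : ∀ l ∈ S, (l, k) ∈ I) {r : ℝ} (hr : δ ≤ r) (hr2 : r ≤ 2)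
    (hc : ∀ l ∈ S, ∀ l' ∈ S, |XX z x c l' k - XX z x c l k| ≤ δ ∧ |c l' - c l| ≤ r) :
    (S.card : ℝ) ≤ δ * r ^ m / e * L.card := by
  have hr0 : 0 < r := H.δ0.trans_le hr
  rcases S.eq_empty_or_nonempty with rfl | ⟨l0, hl0⟩
  · rw [card_empty, Nat.cast_zero]
    have := H.δ0
    have := H.e0
    positivity
  · refine le_trans ?_ (H.pen l0 k (hSI l0 hl0) r hr hr2)
    exact_mod_cast card_le_card fun l hl => by
      rw [mem_filter]
      exact ⟨hS hl, hSI l hl, hc l0 hl0 l hl⟩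

theorem two_rpow_le (hm : 0 < m) (hm1 : m ≤ 1) : (2 : ℝ) ^ m ≤ 2 := by
  calc (2 : ℝ) ^ m ≤ (2 : ℝ) ^ (1 : ℝ) := Real.rpow_le_rpow_of_exponent_le (by norm_num) hm1
    _ = 2 := Real.rpow_one 2

/-- all lines of a cell -/
theorem fib_all (H : Cfg δ e m L Z I z f x c p) {k : ℕ} {S : Finset ℕ} (hS : S ⊆ L)
    (hSI : ∀ l ∈ S, (l, k) ∈ I)
    (hc : ∀ l ∈ S, ∀ l' ∈ S, |XX z x c l' k - XX z x c l k| ≤ δ) :
    (S.card : ℝ) ≤ 2 * δ / e * L.card := by
  have h1 := fib_one H hS hSI (r := 2) (by linarith [H.δe, H.e1]) le_rfl fun l hl l' hl' => by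
    refine ⟨hc l hl l' hl', ?_⟩
    have a1 := (H.lb l (hS hl)).2.1
    have a2 := (H.lb l' (hS hl')).2.1
    rw [abs_le] at a1 a2 ⊢
    constructor <;> linarith [a1.1, a1.2, a2.1, a2.2]
  refine h1.trans ?_
  have h2 := two_rpow_le H.m0 H.m1
  have := H.δ0
  have := H.e0
  refine mul_le_mul_of_nonneg_right ?_ (Nat.cast_nonneg _)
  refine div_le_div_of_nonneg_right ?_ H.e0.le
  nlinarith

/-- `l, l'` are incident to `k0` and `k`, in one cell at `k`, with `s1 < |c l - c l'|` -/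
noncomputable def P1 (δ : ℝ) (L : Finset ℕ) (I : Finset (ℕ × ℕ)) (z x c : ℕ → ℝ) (s1 : ℝ)
    (k0 k : ℕ) : Finset (ℕ × ℕ) :=
  (L ×ˢ L).filter fun q => ((q.1, k) ∈ I ∧ (q.1, k0) ∈ I) ∧ ((q.2, k) ∈ I ∧ (q.2, k0) ∈ I) ∧
    cell δ z x c k q.1 = cell δ z x c k q.2 ∧ s1 < |c q.2 - c q.1|

theorem mem_P1 {s1 : ℝ} {k0 k : ℕ} {q : ℕ × ℕ} : q ∈ P1 δ L I z x c s1 k0 k ↔
    (q.1 ∈ L ∧ q.2 ∈ L) ∧ ((q.1, k) ∈ I ∧ (q.1, k0) ∈ I) ∧ ((q.2, k) ∈ I ∧ (q.2, k0) ∈ I) ∧
    cell δ z x c k q.1 = cell δ z x c k q.2 ∧ s1 < |c q.2 - c q.1| := by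
  unfold P1
  rw [mem_filter, mem_product]

/-- total number of pairs at `(k0, k)` -/
theorem P1_le (H : Cfg δ e m L Z I z f x c p) (s1 : ℝ) (k0 k : ℕ) :
    ((P1 δ L I z x c s1 k0 k).card : ℝ) ≤ 2 * δ / e * (L.card : ℝ) ^ 2 := by
  have hδ := H.δ0
  have he := H.e0
  have h1 := card_le_of_fibers (P1 δ L I z x c s1 k0 k) Prod.fst (2 * δ / e * L.card) (by
    rintro ⟨l, l0⟩ hl
    have hS : ((P1 δ L I z x c s1 k0 k).filter fun q => q.1 = l).card =
        (((P1 δ L I z x c s1 k0 k).filter fun q => q.1 = l).image Prod.snd).card := by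
      rw [card_image_of_injOn]
      rintro ⟨a, b⟩ h1 ⟨a', b'⟩ h2 h3
      rw [mem_coe, mem_filter] at h1 h2
      have e1 : a = l := h1.2
      have e2 : a' = l := h2.2
      have e3 : b = b' := h3
      rw [e1, e2, e3]
    rw [hS]
    have hmem : ∀ l' ∈ (((P1 δ L I z x c s1 k0 k).filter fun q => q.1 = l).image Prod.snd),
        l' ∈ L ∧ (l', k) ∈ I ∧ cell δ z x c k l = cell δ z x c k l' := by
      intro l' hl'
      obtain ⟨⟨a, b⟩, h1, h2⟩ := mem_image.1 hl'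
      rw [mem_filter, mem_P1] at h1
      have e1 : a = l := h1.2
      have e2 : b = l' := h2
      subst e1 e2
      exact ⟨h1.1.1.2, h1.1.2.2.1.1, h1.1.2.2.2.1⟩
    refine fib_all H (k := k) (fun l' hl' => (hmem l' hl').1) (fun l' hl' => (hmem l' hl').2.1)
      fun a ha b hb => ?_
    exact cell_close hδ (((hmem a ha).2.2).symm.trans (hmem b hb).2.2))
  refine h1.trans ?_
  have h2 : (((P1 δ L I z x c s1 k0 k).image Prod.fst).card : ℝ) ≤ L.card := by
    exact_mod_cast card_le_card fun l hl => by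
      obtain ⟨q, hq, rfl⟩ := mem_image.1 hl
      exact (mem_P1.1 hq).1.1
  calc (((P1 δ L I z x c s1 k0 k).image Prod.fst).card : ℝ) * (2 * δ / e * L.card)
      ≤ L.card * (2 * δ / e * L.card) := mul_le_mul_of_nonneg_right h2 (by positivity)
    _ = _ := by ring

/-- pairs at `(k0, k)` with given cells at `k0` -/
theorem P1_fib (H : Cfg δ e m L Z I z f x c p) {s1 s2 : ℝ} (hs2 : 0 < s2) (hs21 : s2 ≤ 1)
    (hδs : δ ≤ s2) {k0 k : ℕ} (hfar : s2 < |z k - z k0|) (A A' : ℤ) :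
    (((P1 δ L I z x c s1 k0 k).filter fun q => cell δ z x c k0 q.1 = A ∧
      cell δ z x c k0 q.2 = A').card : ℝ) ≤ 4 * δ ^ 2 * δ ^ m / (e ^ 2 * s2) * (L.card : ℝ) ^ 2 := by
  have hδ := H.δ0
  have he := H.e0
  set Q := (P1 δ L I z x c s1 k0 k).filter fun q => cell δ z x c k0 q.1 = A ∧
      cell δ z x c k0 q.2 = A' with hQ
  have h1 := card_le_of_fibers Q Prod.fst (δ * (2 * δ / s2) ^ m / e * L.card) (by
    rintro ⟨l, l0⟩ hl
    have hS : (Q.filter fun q => q.1 = l).card =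
        ((Q.filter fun q => q.1 = l).image Prod.snd).card := by
      rw [card_image_of_injOn]
      rintro ⟨a, b⟩ h1 ⟨a', b'⟩ h2 h3
      rw [mem_coe, mem_filter] at h1 h2
      have e1 : a = l := h1.2
      have e2 : a' = l := h2.2
      have e3 : b = b' := h3
      rw [e1, e2, e3]
    rw [hS]
    have hmem : ∀ l' ∈ ((Q.filter fun q => q.1 = l).image Prod.snd),
        l' ∈ L ∧ (l', k0) ∈ I ∧ cell δ z x c k l = cell δ z x c k l' ∧
          cell δ z x c k0 l' = A' := by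
      intro l' hl'
      obtain ⟨⟨a, b⟩, h1, h2⟩ := mem_image.1 hl'
      rw [mem_filter, hQ, mem_filter, mem_P1] at h1
      have e1 : a = l := h1.2
      have e2 : b = l' := h2
      subst e1 e2
      exact ⟨h1.1.1.1.2, h1.1.1.2.2.1.2, h1.1.1.2.2.2.1, h1.1.2.2⟩
    refine fib_one H (k := k0) (fun l' hl' => (hmem l' hl').1) (fun l' hl' => (hmem l' hl').2.1)
      ?_ ?_ fun a ha b hb => ?_
    · rw [le_div_iff₀ hs2]
      nlinarith
    · rw [div_le_iff₀ hs2]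
      linarith
    · have g1 := cell_close hδ (((hmem a ha).2.2.2).trans (hmem b hb).2.2.2.symm)
      refine ⟨g1, ?_⟩
      have g2 := cell_close hδ (((hmem a ha).2.2.1).symm.trans (hmem b hb).2.2.1)
      have g3 : (z k - z k0) * (c b - c a) =
          (XX z x c b k - XX z x c a k) - (XX z x c b k0 - XX z x c a k0) := by
        unfold XX; ring
      have g4 : |z k - z k0| * |c b - c a| ≤ 2 * δ := by
        rw [← abs_mul, g3]
        refine (abs_sub _ _).trans ?_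
        linarith
      rw [le_div_iff₀ hs2]
      calc |c b - c a| * s2 ≤ |c b - c a| * |z k - z k0| :=
            mul_le_mul_of_nonneg_left hfar.le (abs_nonneg _)
        _ = |z k - z k0| * |c b - c a| := mul_comm _ _
        _ ≤ _ := g4)
  have h2 : ((Q.image Prod.fst).card : ℝ) ≤ 2 * δ / e * L.card := by
    have hmem : ∀ l ∈ Q.image Prod.fst, l ∈ L ∧ (l, k0) ∈ I ∧ cell δ z x c k0 l = A := by
      intro l hl
      obtain ⟨q, hq, rfl⟩ := mem_image.1 hl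
      rw [hQ, mem_filter, mem_P1] at hq
      exact ⟨hq.1.1.1, hq.1.2.1.2, hq.2.1⟩
    refine fib_all H (k := k0) (fun l' hl' => (hmem l' hl').1) (fun l' hl' => (hmem l' hl').2.1)
      fun a ha b hb => cell_close hδ (((hmem a ha).2.2).trans (hmem b hb).2.2.symm)
  refine h1.trans ((mul_le_mul_of_nonneg_right h2 (by positivity)).trans ?_)
  have h3 : (2 * δ / s2) ^ m ≤ 2 * δ ^ m / s2 := by
    rw [Real.div_rpow (by positivity) hs2.le, Real.mul_rpow (by norm_num) hδ.le]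
    have g1 := two_rpow_le H.m0 H.m1
    have g2 : s2 ≤ s2 ^ m := by
      calc s2 = s2 ^ (1 : ℝ) := (Real.rpow_one s2).symm
        _ ≤ _ := Real.rpow_le_rpow_of_exponent_ge hs2 hs21 H.m1
    have g3 : 0 < δ ^ m := Real.rpow_pos_of_pos hδ _
    exact div_le_div₀ (by positivity) (mul_le_mul_of_nonneg_right g1 g3.le) hs2 g2
  calc 2 * δ / e * (L.card : ℝ) * (δ * (2 * δ / s2) ^ m / e * L.card)
      ≤ 2 * δ / e * (L.card : ℝ) * (δ * (2 * δ ^ m / s2) / e * L.card) := by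
        refine mul_le_mul_of_nonneg_left ?_ (by positivity)
        refine mul_le_mul_of_nonneg_right ?_ (Nat.cast_nonneg _)
        refine div_le_div_of_nonneg_right ?_ he.le
        exact mul_le_mul_of_nonneg_left h3 hδ.le
    _ = _ := by field_simp; ring

/-- slope of `f` between two heights -/
noncomputable def slp (z f : ℕ → ℝ) (k0 k : ℕ) : ℝ := (f k - f k0) / (z k - z k0)

/-- one pair of lines meeting at `k`, seen from `k0` -/
theorem one_pair (H : Cfg δ e m L Z I z f x c p) {s1 s2 : ℝ} (hs2 : 0 < s2) (hse : s2 ≤ e)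
    {k0 k : ℕ} (hk0 : k0 ∈ Z) (hk : k ∈ Z) (hfar : s2 < |z k - z k0|) {q : ℕ × ℕ}
    (hq : q ∈ P1 δ L I z x c s1 k0 k) :
    |(p q.2 - p q.1 - f k0 * (c q.2 - c q.1)) +
      slp z f k0 k * (XX z x c q.2 k0 - XX z x c q.1 k0)| ≤ 3 * δ / s2 ∧
      s1 * s2 - δ ≤ |XX z x c q.2 k0 - XX z x c q.1 k0| ∧ |slp z f k0 k| ≤ 2 / s2 := by
  have hδ := H.δ0
  have he := H.e0
  obtain ⟨⟨h1, h2⟩, ⟨h3, h4⟩, ⟨h5, h6⟩, h7, h8⟩ := mem_P1.1 hq
  have hne : z k - z k0 ≠ 0 := by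
    intro h0
    rw [h0, abs_zero] at hfar
    linarith
  have g1 := cell_close hδ h7
  have g2 := H.star _ _ _ h3 h5 g1
  have g3 : slp z f k0 k * (z k - z k0) = f k - f k0 := by
    unfold slp
    field_simp
  have g4 : |slp z f k0 k| ≤ 2 / s2 := by
    unfold slp
    rw [abs_div]
    have a1 := (H.zf k hk).2
    have a2 := (H.zf k0 hk0).2
    have a3 : |f k - f k0| ≤ 2 := by
      refine (abs_sub _ _).trans ?_
      linarith
    exact div_le_div₀ (by norm_num) a3 hs2 hfar.le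
  refine ⟨?_, ?_, g4⟩
  · have e1 : (p q.2 - p q.1 - f k0 * (c q.2 - c q.1)) +
        slp z f k0 k * (XX z x c q.2 k0 - XX z x c q.1 k0) =
        (p q.2 - p q.1 - f k * (c q.2 - c q.1)) +
          slp z f k0 k * (XX z x c q.2 k - XX z x c q.1 k) := by
      have : (f k - f k0) * (c q.2 - c q.1) = slp z f k0 k * (z k - z k0) * (c q.2 - c q.1) := by
        rw [g3]
      unfold XX
      linear_combination this
    rw [e1]
    refine (abs_add_le _ _).trans ?_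
    rw [abs_mul]
    have b1 : |slp z f k0 k| * |XX z x c q.2 k - XX z x c q.1 k| ≤ 2 / s2 * δ :=
      mul_le_mul g4 g1 (abs_nonneg _) (by positivity)
    have b2 : δ / e ≤ δ / s2 := div_le_div_of_nonneg_left hδ.le hs2 hse
    have b3 : 3 * δ / s2 = δ / s2 + 2 / s2 * δ := by ring
    rw [b3]
    linarith
  · have e1 : XX z x c q.2 k0 - XX z x c q.1 k0 = (XX z x c q.2 k - XX z x c q.1 k) -
        (z k - z k0) * (c q.2 - c q.1) := by
      unfold XX; ring
    have b1 : s1 * s2 ≤ |(z k - z k0) * (c q.2 - c q.1)| := by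
      rw [abs_mul]
      calc s1 * s2 ≤ |c q.2 - c q.1| * s2 := mul_le_mul_of_nonneg_right h8.le hs2.le
        _ ≤ |c q.2 - c q.1| * |z k - z k0| := mul_le_mul_of_nonneg_left hfar.le (abs_nonneg _)
        _ = _ := mul_comm _ _
    have b2 : |(z k - z k0) * (c q.2 - c q.1)| ≤ |XX z x c q.2 k0 - XX z x c q.1 k0| +
        |XX z x c q.2 k - XX z x c q.1 k| := by
      have b3 : (z k - z k0) * (c q.2 - c q.1) = (XX z x c q.2 k - XX z x c q.1 k) -
          (XX z x c q.2 k0 - XX z x c q.1 k0) := by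
        rw [e1]; ring
      rw [b3]
      refine (abs_sub _ _).trans ?_
      linarith
    linarith

/-- **the slope depends only on the two cells at the pin** -/
theorem slopes_eq (H : Cfg δ e m L Z I z f x c p) {s1 s2 : ℝ} (hs1 : 0 < s1) (hs2 : 0 < s2)
    (hse : s2 ≤ e) (hδs : 2 * δ ≤ s1 * s2) {k0 k h : ℕ} (hk0 : k0 ∈ Z) (hk : k ∈ Z) (hh : h ∈ Z)
    (hfar : s2 < |z k - z k0|) (hfar' : s2 < |z h - z k0|) {q q' : ℕ × ℕ}
    (hq : q ∈ P1 δ L I z x c s1 k0 k) (hq' : q' ∈ P1 δ L I z x c s1 k0 h)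
    (h1 : cell δ z x c k0 q.1 = cell δ z x c k0 q'.1)
    (h2 : cell δ z x c k0 q.2 = cell δ z x c k0 q'.2) :
    |slp z f k0 h - slp z f k0 k| ≤ 24 * δ / (s1 * s2 ^ 2) := by
  have hδ := H.δ0
  have he := H.e0
  obtain ⟨a1, a2, a3⟩ := one_pair H hs2 hse hk0 hk hfar hq
  obtain ⟨b1, b2, b3⟩ := one_pair H hs2 hse hk0 hh hfar' hq'
  have mq := mem_P1.1 hq
  have mq' := mem_P1.1 hq'
  have c1 := cell_close hδ h1
  have c2 := cell_close hδ h2
  have d1 := H.star _ _ _ mq.2.1.2 mq'.2.1.2 c1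
  have d2 := H.star _ _ _ mq.2.2.1.2 mq'.2.2.1.2 c2
  set DX := XX z x c q.2 k0 - XX z x c q.1 k0 with hDX
  set DY := XX z x c q'.2 k0 - XX z x c q'.1 k0 with hDY
  set s := slp z f k0 k with hs
  set t := slp z f k0 h with ht
  have hb : δ / e ≤ δ / s2 := div_le_div_of_nonneg_left hδ.le hs2 hse
  have f1 : |DY - DX| ≤ 2 * δ := by
    have : DY - DX = (XX z x c q'.2 k0 - XX z x c q.2 k0) -
        (XX z x c q'.1 k0 - XX z x c q.1 k0) := by rw [hDX, hDY]; ring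
    rw [this]
    refine (abs_sub _ _).trans ?_
    linarith
  have f2 : |t| * |DY - DX| ≤ 2 / s2 * (2 * δ) := mul_le_mul b3 f1 (abs_nonneg _) (by positivity)
  have f3 : (t - s) * DX = ((p q'.2 - p q'.1 - f k0 * (c q'.2 - c q'.1)) + t * DY) -
      ((p q.2 - p q.1 - f k0 * (c q.2 - c q.1)) + s * DX) -
      ((p q'.2 - p q.2 - f k0 * (c q'.2 - c q.2)) - (p q'.1 - p q.1 - f k0 * (c q'.1 - c q.1))) -
      t * (DY - DX) := by ring
  have f4 : |(t - s) * DX| ≤ 12 * δ / s2 := by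
    rw [f3]
    have g1 := abs_sub (((p q'.2 - p q'.1 - f k0 * (c q'.2 - c q'.1)) + t * DY) -
      ((p q.2 - p q.1 - f k0 * (c q.2 - c q.1)) + s * DX) -
      ((p q'.2 - p q.2 - f k0 * (c q'.2 - c q.2)) - (p q'.1 - p q.1 - f k0 * (c q'.1 - c q.1))))
      (t * (DY - DX))
    have g2 := abs_sub (((p q'.2 - p q'.1 - f k0 * (c q'.2 - c q'.1)) + t * DY) -
      ((p q.2 - p q.1 - f k0 * (c q.2 - c q.1)) + s * DX))
      ((p q'.2 - p q.2 - f k0 * (c q'.2 - c q.2)) - (p q'.1 - p q.1 - f k0 * (c q'.1 - c q.1)))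
    have g3 := abs_sub ((p q'.2 - p q'.1 - f k0 * (c q'.2 - c q'.1)) + t * DY)
      ((p q.2 - p q.1 - f k0 * (c q.2 - c q.1)) + s * DX)
    have g4 := abs_sub (p q'.2 - p q.2 - f k0 * (c q'.2 - c q.2))
      (p q'.1 - p q.1 - f k0 * (c q'.1 - c q.1))
    rw [abs_mul] at g1
    have g5 : 12 * δ / s2 = 3 * δ / s2 + 3 * δ / s2 + 2 * (δ / s2) + 2 / s2 * (2 * δ) := by ring
    rw [g5]
    linarith
  have f5 : s1 * s2 / 2 ≤ |DX| := by linarith
  rw [abs_mul] at f4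
  have f6 : |t - s| * (s1 * s2 / 2) ≤ 12 * δ / s2 :=
    (mul_le_mul_of_nonneg_left f5 (abs_nonneg _)).trans f4
  rw [le_div_iff₀ (by positivity)]
  rw [le_div_iff₀ hs2] at f6
  nlinarith

end

end Crest.Agent.R136.LA501
end

-- ▼ part R136/LA2_501
section

/-!
# R136 [RIG_E], Lemma A (for helper344), part 2 (helper501): many bad pairs
-/

set_option autoImplicit false
set_option linter.unusedVariables false
set_option linter.unusedSectionVars false

open Finset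

namespace Crest.Agent.R136.LA501

open Crest.Agent.R138.TwA501 (sq_card_le card_le_of_fibers)

variable {δ e m : ℝ} {L Z : Finset ℕ} {I : Finset (ℕ × ℕ)} {z f x c p : ℕ → ℝ}

/-- lines through both `k0` and `k` -/
def S2 (L : Finset ℕ) (I : Finset (ℕ × ℕ)) (k0 k : ℕ) : Finset ℕ :=
  L.filter fun l => (l, k) ∈ I ∧ (l, k0) ∈ I

theorem sum_S2 (L Z : Finset ℕ) (I : Finset (ℕ × ℕ)) :
    ∑ k0 ∈ Z, ∑ k ∈ Z, ((S2 L I k0 k).card : ℝ) =
      ∑ l ∈ L, ((Z.filter fun k => (l, k) ∈ I).card : ℝ) ^ 2 := by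
  have h1 : ∀ k0 k : ℕ, ((S2 L I k0 k).card : ℝ) =
      ∑ l ∈ L, (if (l, k) ∈ I then (1 : ℝ) else 0) * (if (l, k0) ∈ I then (1 : ℝ) else 0) := by
    intro k0 k
    unfold S2
    rw [card_filter]
    push_cast
    refine sum_congr rfl fun l _ => ?_
    by_cases a : (l, k) ∈ I <;> by_cases b : (l, k0) ∈ I <;> simp [a, b]
  have h2 : ∀ l : ℕ, ((Z.filter fun k => (l, k) ∈ I).card : ℝ) =
      ∑ k ∈ Z, (if (l, k) ∈ I then (1 : ℝ) else 0) := by
    intro l
    rw [card_filter]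
    push_cast
    rfl
  calc ∑ k0 ∈ Z, ∑ k ∈ Z, ((S2 L I k0 k).card : ℝ)
      = ∑ k0 ∈ Z, ∑ k ∈ Z, ∑ l ∈ L, (if (l, k) ∈ I then (1 : ℝ) else 0) *
          (if (l, k0) ∈ I then (1 : ℝ) else 0) :=
        sum_congr rfl fun k0 _ => sum_congr rfl fun k _ => h1 k0 k
    _ = ∑ k0 ∈ Z, ∑ l ∈ L, ∑ k ∈ Z, (if (l, k) ∈ I then (1 : ℝ) else 0) *
          (if (l, k0) ∈ I then (1 : ℝ) else 0) := sum_congr rfl fun k0 _ => sum_comm
    _ = ∑ l ∈ L, ∑ k0 ∈ Z, ∑ k ∈ Z, (if (l, k) ∈ I then (1 : ℝ) else 0) *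
          (if (l, k0) ∈ I then (1 : ℝ) else 0) := sum_comm
    _ = ∑ l ∈ L, ((Z.filter fun k => (l, k) ∈ I).card : ℝ) ^ 2 := by
        refine sum_congr rfl fun l _ => ?_
        rw [h2 l, sq, sum_mul_sum]
        refine sum_congr rfl fun k0 _ => ?_
        rw [← sum_mul, mul_comm]
        rw [← mul_sum]

/-- **many common pairs** -/
theorem sum_S2_sq (H : Cfg δ e m L Z I z f x c p) :
    e ^ 4 * (Z.card : ℝ) ^ 2 * (L.card : ℝ) ^ 2 ≤
      ∑ k0 ∈ Z, ∑ k ∈ Z, ((S2 L I k0 k).card : ℝ) ^ 2 := by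
  have hZ : (0 : ℝ) < Z.card := by exact_mod_cast H.nZ.card_pos
  have hL : (0 : ℝ) < L.card := by exact_mod_cast H.nL.card_pos
  have he := H.e0
  have h1 : (L.card : ℝ) * (e * Z.card) ^ 2 ≤ ∑ k0 ∈ Z, ∑ k ∈ Z, ((S2 L I k0 k).card : ℝ) := by
    rw [sum_S2]
    calc (L.card : ℝ) * (e * Z.card) ^ 2 = ∑ l ∈ L, (e * (Z.card : ℝ)) ^ 2 := by
          rw [sum_const, nsmul_eq_mul]
      _ ≤ _ := sum_le_sum fun l hl => pow_le_pow_left₀ (by positivity) (H.degL l hl) 2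
  have h2 : (∑ k0 ∈ Z, ∑ k ∈ Z, ((S2 L I k0 k).card : ℝ)) ^ 2 ≤
      ((Z.card : ℝ) ^ 2) * ∑ k0 ∈ Z, ∑ k ∈ Z, ((S2 L I k0 k).card : ℝ) ^ 2 := by
    have g1 := sq_sum_le_card_mul_sum_sq (s := Z ×ˢ Z)
      (f := fun q : ℕ × ℕ => ((S2 L I q.1 q.2).card : ℝ))
    rw [sum_product, sum_product, card_product] at g1
    push_cast at g1
    rw [sq (Z.card : ℝ)]
    exact g1
  have h3 : ((L.card : ℝ) * (e * Z.card) ^ 2) ^ 2 ≤
      ((Z.card : ℝ) ^ 2) * ∑ k0 ∈ Z, ∑ k ∈ Z, ((S2 L I k0 k).card : ℝ) ^ 2 :=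
    (pow_le_pow_left₀ (by positivity) h1 2).trans h2
  have h4 : ((L.card : ℝ) * (e * Z.card) ^ 2) ^ 2 =
      ((Z.card : ℝ) ^ 2) * (e ^ 4 * (Z.card : ℝ) ^ 2 * (L.card : ℝ) ^ 2) := by ring
  rw [h4] at h3
  exact le_of_mul_le_mul_left h3 (by positivity)

/-- near pairs of one cell -/
theorem near_le (H : Cfg δ e m L Z I z f x c p) {S : Finset ℕ} {k : ℕ} (hS : S ⊆ L)
    (hSI : ∀ l ∈ S, (l, k) ∈ I) {s1 : ℝ} (h1 : δ ≤ s1) (h2 : s1 ≤ 2) :
    (((S ×ˢ S).filter fun q => cell δ z x c k q.1 = cell δ z x c k q.2 ∧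
      |c q.2 - c q.1| ≤ s1).card : ℝ) ≤ S.card * (δ * s1 ^ m / e * L.card) := by
  have hδ := H.δ0
  have he := H.e0
  set Q := (S ×ˢ S).filter fun q => cell δ z x c k q.1 = cell δ z x c k q.2 ∧
      |c q.2 - c q.1| ≤ s1 with hQ
  have hs0 : 0 < s1 := hδ.trans_le h1
  have g1 := card_le_of_fibers Q Prod.fst (δ * s1 ^ m / e * L.card) (by
    rintro ⟨l, l0⟩ hl
    have hlS : l ∈ S := by
      rw [hQ, mem_filter, mem_product] at hl
      exact hl.1.1
    have hcd : (Q.filter fun q => q.1 = l).card =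
        ((Q.filter fun q => q.1 = l).image Prod.snd).card := by
      rw [card_image_of_injOn]
      rintro ⟨a, b⟩ h1 ⟨a', b'⟩ h2 h3
      rw [mem_coe, mem_filter] at h1 h2
      have e1 : a = l := h1.2
      have e2 : a' = l := h2.2
      have e3 : b = b' := h3
      rw [e1, e2, e3]
    rw [hcd]
    refine le_trans ?_ (H.pen l k (hSI l hlS) s1 h1 h2)
    exact_mod_cast card_le_card fun l' hl' => by
      obtain ⟨⟨a, b⟩, h1, h2⟩ := mem_image.1 hl'
      rw [mem_filter, hQ, mem_filter, mem_product] at h1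
      have e1 : a = l := h1.2
      have e2 : b = l' := h2
      subst e1 e2
      rw [mem_filter]
      exact ⟨hS h1.1.1.2, hSI b h1.1.1.2, cell_close hδ h1.1.2.1, h1.1.2.2⟩)
  refine g1.trans ?_
  refine mul_le_mul_of_nonneg_right ?_ (by positivity)
  exact_mod_cast card_le_card fun l hl => by
    obtain ⟨q, hq, rfl⟩ := mem_image.1 hl
    rw [hQ, mem_filter, mem_product] at hq
    exact hq.1.1

/-- lower bound of the number of far pairs of one cell -/
theorem far_ge (H : Cfg δ e m L Z I z f x c p) {S : Finset ℕ} {k : ℕ} (hk : k ∈ Z) (hS : S ⊆ L)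
    (hSI : ∀ l ∈ S, (l, k) ∈ I) {s1 : ℝ} (h1 : δ ≤ s1) (h2 : s1 ≤ 2) :
    δ / 8 * (S.card : ℝ) ^ 2 ≤ (((S ×ˢ S).filter fun q =>
      cell δ z x c k q.1 = cell δ z x c k q.2 ∧ s1 < |c q.2 - c q.1|).card : ℝ) +
      S.card * (δ * s1 ^ m / e * L.card) := by
  have hδ := H.δ0
  have g1 := sq_card_le S (cell δ z x c k)
  have g2 := cells_card H hk hS
  have g3 : (S.card : ℝ) ^ 2 ≤ 8 / δ *
      (((S ×ˢ S).filter fun q => cell δ z x c k q.1 = cell δ z x c k q.2).card : ℝ) :=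
    g1.trans (mul_le_mul_of_nonneg_right g2 (Nat.cast_nonneg _))
  have g4 : δ / 8 * (S.card : ℝ) ^ 2 ≤
      (((S ×ˢ S).filter fun q => cell δ z x c k q.1 = cell δ z x c k q.2).card : ℝ) := by
    calc δ / 8 * (S.card : ℝ) ^ 2 ≤ δ / 8 * (8 / δ *
        (((S ×ˢ S).filter fun q => cell δ z x c k q.1 = cell δ z x c k q.2).card : ℝ)) :=
          mul_le_mul_of_nonneg_left g3 (by positivity)
      _ = _ := by field_simp
  refine g4.trans ?_
  have g5 := near_le H hS hSI h1 h2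
  have g6 : (((S ×ˢ S).filter fun q => cell δ z x c k q.1 = cell δ z x c k q.2).card : ℝ) ≤
      (((S ×ˢ S).filter fun q => cell δ z x c k q.1 = cell δ z x c k q.2 ∧
        s1 < |c q.2 - c q.1|).card : ℝ) +
      (((S ×ˢ S).filter fun q => cell δ z x c k q.1 = cell δ z x c k q.2 ∧
      |c q.2 - c q.1| ≤ s1).card : ℝ) := by
    have : ((S ×ˢ S).filter fun q => cell δ z x c k q.1 = cell δ z x c k q.2) ⊆
        ((S ×ˢ S).filter fun q => cell δ z x c k q.1 = cell δ z x c k q.2 ∧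
          s1 < |c q.2 - c q.1|) ∪ ((S ×ˢ S).filter fun q =>
            cell δ z x c k q.1 = cell δ z x c k q.2 ∧ |c q.2 - c q.1| ≤ s1) := by
      intro q hq
      rw [mem_filter] at hq
      rw [mem_union, mem_filter, mem_filter]
      rcases lt_or_ge s1 |c q.2 - c q.1| with h | h
      · exact Or.inl ⟨hq.1, hq.2, h⟩
      · exact Or.inr ⟨hq.1, hq.2, h⟩
    exact_mod_cast (card_le_card this).trans (card_union_le _ _)
  linarith

/-- powers: `(e ^ (n * M)) ^ m ≤ e ^ n` if `1 ≤ M m` -/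
theorem pow_rpow_le {e m : ℝ} (he : 0 < e) (he1 : e ≤ 1) {M : ℕ} (hM : 1 ≤ (M : ℝ) * m) (n : ℕ) :
    (e ^ (n * M)) ^ m ≤ e ^ n := by
  rw [← Real.rpow_natCast e (n * M), ← Real.rpow_mul he.le, ← Real.rpow_natCast e n]
  refine Real.rpow_le_rpow_of_exponent_ge he he1 ?_
  push_cast
  have : (n : ℝ) * 1 ≤ n * (M * m) := mul_le_mul_of_nonneg_left hM (Nat.cast_nonneg _)
  linarith

/-- far heights -/
noncomputable def farZ (Z : Finset ℕ) (z : ℕ → ℝ) (s2 : ℝ) (k0 : ℕ) : Finset ℕ :=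
  Z.filter fun k => s2 < |z k - z k0|

/-- **lower bound of the number of configurations** -/
theorem sum_P1_ge (H : Cfg δ e m L Z I z f x c p) {M : ℕ} (hM : 1 ≤ (M : ℝ) * m)
    (hδ1 : δ ≤ e ^ (6 * M)) (hδ2 : δ ≤ e ^ 8) :
    e ^ 4 * δ / 16 * (Z.card : ℝ) ^ 2 * (L.card : ℝ) ^ 2 ≤
      ∑ k0 ∈ Z, ∑ k ∈ farZ Z z (e ^ 8) k0,
        ((P1 δ L I z x c (e ^ (6 * M)) k0 k).card : ℝ) := by
  have hδ := H.δ0
  have he := H.e0
  have he1 : e ≤ 1 := by linarith [H.e1]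
  set s1 : ℝ := e ^ (6 * M) with hs1
  have hs10 : 0 < s1 := by positivity
  have hs12 : s1 ≤ 2 := (pow_le_one₀ he.le he1).trans (by norm_num)
  have hs1m : s1 ^ m ≤ e ^ 6 := pow_rpow_le he he1 hM 6
  set s2 : ℝ := e ^ 8 with hs2
  have hs20 : 0 < s2 := by positivity
  have hs21 : s2 ≤ 1 := pow_le_one₀ he.le he1
  set N : ℝ := (Z.card : ℝ) ^ 2 * (L.card : ℝ) ^ 2 with hN
  have hN0 : 0 ≤ N := by positivity
  -- all heights
  have hP : ∀ k0 k : ℕ, k ∈ Z → δ / 8 * ((S2 L I k0 k).card : ℝ) ^ 2 ≤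
      ((P1 δ L I z x c s1 k0 k).card : ℝ) + δ * e ^ 5 * (L.card : ℝ) ^ 2 := by
    intro k0 k hk
    have hS : S2 L I k0 k ⊆ L := filter_subset _ _
    have hSI : ∀ l ∈ S2 L I k0 k, (l, k) ∈ I := fun l hl => (mem_filter.1 hl).2.1
    have g1 := far_ge H hk hS hSI hδ1 hs12
    have g2 : (((S2 L I k0 k ×ˢ S2 L I k0 k).filter fun q =>
        cell δ z x c k q.1 = cell δ z x c k q.2 ∧ s1 < |c q.2 - c q.1|).card : ℝ) ≤
        ((P1 δ L I z x c s1 k0 k).card : ℝ) := by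
      exact_mod_cast card_le_card fun q hq => by
        rw [mem_filter, mem_product] at hq
        obtain ⟨⟨a1, a2⟩, a3, a4⟩ := hq
        unfold S2 at a1 a2
        rw [mem_filter] at a1 a2
        exact mem_P1.2 ⟨⟨a1.1, a2.1⟩, a1.2, a2.2, a3, a4⟩
    have g3 : ((S2 L I k0 k).card : ℝ) * (δ * s1 ^ m / e * L.card) ≤
        δ * e ^ 5 * (L.card : ℝ) ^ 2 := by
      have a1 : ((S2 L I k0 k).card : ℝ) ≤ L.card := by exact_mod_cast card_le_card hS
      have a2 : δ * s1 ^ m / e ≤ δ * e ^ 5 := by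
        rw [div_le_iff₀ he]
        calc δ * s1 ^ m ≤ δ * e ^ 6 := mul_le_mul_of_nonneg_left hs1m hδ.le
          _ = _ := by ring
      calc ((S2 L I k0 k).card : ℝ) * (δ * s1 ^ m / e * L.card)
          ≤ L.card * (δ * e ^ 5 * L.card) := by
            refine mul_le_mul a1 ?_ (by positivity) (Nat.cast_nonneg _)
            exact mul_le_mul_of_nonneg_right a2 (Nat.cast_nonneg _)
        _ = _ := by ring
    linarith
  have hsum : δ / 8 * ∑ k0 ∈ Z, ∑ k ∈ Z, ((S2 L I k0 k).card : ℝ) ^ 2 ≤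
      ∑ k0 ∈ Z, ∑ k ∈ Z, ((P1 δ L I z x c s1 k0 k).card : ℝ) + δ * e ^ 5 * N := by
    rw [mul_sum]
    have g1 : ∑ k0 ∈ Z, δ / 8 * ∑ k ∈ Z, ((S2 L I k0 k).card : ℝ) ^ 2 ≤
        ∑ k0 ∈ Z, (∑ k ∈ Z, ((P1 δ L I z x c s1 k0 k).card : ℝ) +
          Z.card * (δ * e ^ 5 * (L.card : ℝ) ^ 2)) := by
      refine sum_le_sum fun k0 _ => ?_
      rw [mul_sum]
      refine (sum_le_sum fun k hk => hP k0 k hk).trans (le_of_eq ?_)
      rw [sum_add_distrib, sum_const, nsmul_eq_mul]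
    refine g1.trans (le_of_eq ?_)
    rw [sum_add_distrib, sum_const, nsmul_eq_mul, hN]
    ring
  -- near heights
  have hnear : ∑ k0 ∈ Z, ∑ k ∈ Z.filter (fun k => ¬ s2 < |z k - z k0|),
      ((P1 δ L I z x c s1 k0 k).card : ℝ) ≤ 2 * δ * e ^ 6 * N := by
    have g1 : ∀ k0 ∈ Z, ∑ k ∈ Z.filter (fun k => ¬ s2 < |z k - z k0|),
        ((P1 δ L I z x c s1 k0 k).card : ℝ) ≤
        (s2 / e * Z.card) * (2 * δ / e * (L.card : ℝ) ^ 2) := by
      intro k0 hk0
      have a1 := H.hz k0 hk0 s2 hδ2 hs21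
      have a2 : ∑ k ∈ Z.filter (fun k => ¬ s2 < |z k - z k0|),
          ((P1 δ L I z x c s1 k0 k).card : ℝ) ≤
          ∑ k ∈ Z.filter (fun k => ¬ s2 < |z k - z k0|), 2 * δ / e * (L.card : ℝ) ^ 2 :=
        sum_le_sum fun k _ => P1_le H s1 k0 k
      refine a2.trans ?_
      rw [sum_const, nsmul_eq_mul]
      refine mul_le_mul_of_nonneg_right ?_ (by positivity)
      refine le_trans ?_ a1
      exact_mod_cast card_le_card fun k hk => by
        rw [mem_filter] at hk ⊢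
        exact ⟨hk.1, not_lt.1 hk.2⟩
    refine (sum_le_sum g1).trans (le_of_eq ?_)
    rw [sum_const, nsmul_eq_mul, hN, hs2]
    field_simp
  have hsplit : ∀ k0 : ℕ, ∑ k ∈ Z, ((P1 δ L I z x c s1 k0 k).card : ℝ) =
      ∑ k ∈ farZ Z z s2 k0, ((P1 δ L I z x c s1 k0 k).card : ℝ) +
      ∑ k ∈ Z.filter (fun k => ¬ s2 < |z k - z k0|), ((P1 δ L I z x c s1 k0 k).card : ℝ) := by
    intro k0
    unfold farZ
    rw [sum_filter_add_sum_filter_not]
  have htot := sum_S2_sq H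
  have h1 : δ / 8 * (e ^ 4 * (Z.card : ℝ) ^ 2 * (L.card : ℝ) ^ 2) ≤
      ∑ k0 ∈ Z, ∑ k ∈ farZ Z z s2 k0, ((P1 δ L I z x c s1 k0 k).card : ℝ) +
        2 * δ * e ^ 6 * N + δ * e ^ 5 * N := by
    have a1 := (mul_le_mul_of_nonneg_left htot (by positivity : (0:ℝ) ≤ δ / 8)).trans hsum
    have a2 : ∑ k0 ∈ Z, ∑ k ∈ Z, ((P1 δ L I z x c s1 k0 k).card : ℝ) =
        ∑ k0 ∈ Z, ∑ k ∈ farZ Z z s2 k0, ((P1 δ L I z x c s1 k0 k).card : ℝ) +
        ∑ k0 ∈ Z, ∑ k ∈ Z.filter (fun k => ¬ s2 < |z k - z k0|),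
          ((P1 δ L I z x c s1 k0 k).card : ℝ) := by
      rw [← sum_add_distrib]
      exact sum_congr rfl fun k0 _ => hsplit k0
    rw [a2] at a1
    linarith
  have h2 : e ^ 5 ≤ e ^ 4 / 100 := by
    calc e ^ 5 = e ^ 4 * e := by ring
      _ ≤ e ^ 4 * (1 / 100) := mul_le_mul_of_nonneg_left H.e1 (by positivity)
      _ = _ := by ring
  have h3 : e ^ 6 ≤ e ^ 4 / 10000 := by
    calc e ^ 6 = e ^ 5 * e := by ring
      _ ≤ e ^ 4 / 100 * (1 / 100) := mul_le_mul h2 H.e1 he.le (by positivity)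
      _ = _ := by ring
  have h4 : δ * N * e ^ 5 ≤ δ * N * (e ^ 4 / 100) := mul_le_mul_of_nonneg_left h2 (by positivity)
  have h5 : δ * N * e ^ 6 ≤ δ * N * (e ^ 4 / 10000) :=
    mul_le_mul_of_nonneg_left h3 (by positivity)
  have h6 : 0 ≤ δ * N * e ^ 4 := by positivity
  have h7 : e ^ 4 * δ / 16 * (Z.card : ℝ) ^ 2 * (L.card : ℝ) ^ 2 = δ * N * e ^ 4 / 16 := by
    rw [hN]; ring
  have h8 : δ / 8 * (e ^ 4 * (Z.card : ℝ) ^ 2 * (L.card : ℝ) ^ 2) = δ * N * e ^ 4 / 8 := by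
    rw [hN]; ring
  rw [h7]
  rw [h8] at h1
  linarith

/-- **upper bound at one pin** -/
theorem pin_le (H : Cfg δ e m L Z I z f x c p) {s1 s2 r κ : ℝ} (hs1 : 0 < s1) (hs2 : 0 < s2)
    (hse : s2 ≤ e) (hδs : 2 * δ ≤ s1 * s2) (hδs2 : δ ≤ s2) (hκ : 0 ≤ κ)
    (hr : 24 * δ / (s1 * s2 ^ 2) ≤ r) {k0 : ℕ} (hk0 : k0 ∈ Z) :
    ∑ k ∈ farZ Z z s2 k0, ((P1 δ L I z x c s1 k0 k).card : ℝ) ≤
      (((farZ Z z s2 k0).filter fun k => κ * Z.card ≤
        (((farZ Z z s2 k0).filter fun h => |slp z f k0 h - slp z f k0 k| ≤ r).card : ℝ)).card : ℝ) *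
        (2 * δ / e * (L.card : ℝ) ^ 2) +
      (8 / δ) ^ 2 * (κ * Z.card) * (4 * δ ^ 2 * δ ^ m / (e ^ 2 * s2) * (L.card : ℝ) ^ 2) := by
  classical
  have hδ := H.δ0
  have he := H.e0
  have he1 : e ≤ 1 := by linarith [H.e1]
  have hs21 : s2 ≤ 1 := hse.trans he1
  have hfZ : farZ Z z s2 k0 ⊆ Z := filter_subset _ _
  have hfar : ∀ k ∈ farZ Z z s2 k0, s2 < |z k - z k0| := fun k hk => (mem_filter.1 hk).2
  set Bd := (farZ Z z s2 k0).filter fun k => κ * Z.card ≤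
        (((farZ Z z s2 k0).filter fun h => |slp z f k0 h - slp z f k0 k| ≤ r).card : ℝ) with hBd
  set Gd := (farZ Z z s2 k0).filter fun k => ¬ κ * Z.card ≤
        (((farZ Z z s2 k0).filter fun h => |slp z f k0 h - slp z f k0 k| ≤ r).card : ℝ) with hGd
  have hsp : ∑ k ∈ farZ Z z s2 k0, ((P1 δ L I z x c s1 k0 k).card : ℝ) =
      ∑ k ∈ Bd, ((P1 δ L I z x c s1 k0 k).card : ℝ) +
        ∑ k ∈ Gd, ((P1 δ L I z x c s1 k0 k).card : ℝ) := by
    rw [hBd, hGd, sum_filter_add_sum_filter_not]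
  rw [hsp]
  refine add_le_add ?_ ?_
  · refine (sum_le_sum fun k _ => P1_le H s1 k0 k).trans (le_of_eq ?_)
    rw [sum_const, nsmul_eq_mul]
  · -- all configurations over good heights
    set W := Gd.sigma fun k => P1 δ L I z x c s1 k0 k with hW
    have hWc : (W.card : ℝ) = ∑ k ∈ Gd, ((P1 δ L I z x c s1 k0 k).card : ℝ) := by
      rw [hW, card_sigma]
      push_cast
      rfl
    rw [← hWc]
    have hlab := card_le_of_fibers W
      (fun w => (w.1, cell δ z x c k0 w.2.1, cell δ z x c k0 w.2.2))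
      (4 * δ ^ 2 * δ ^ m / (e ^ 2 * s2) * (L.card : ℝ) ^ 2) (by
        rintro ⟨k, q⟩ hw
        rw [hW, mem_sigma] at hw
        have hkf : k ∈ farZ Z z s2 k0 := (mem_filter.1 hw.1).1
        refine le_trans ?_ (P1_fib H (s1 := s1) hs2 hs21 hδs2 (hfar k hkf)
          (cell δ z x c k0 q.1) (cell δ z x c k0 q.2))
        have : (W.filter fun w => (w.1, cell δ z x c k0 w.2.1, cell δ z x c k0 w.2.2) =
            (k, cell δ z x c k0 q.1, cell δ z x c k0 q.2)).card ≤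
            (((P1 δ L I z x c s1 k0 k).filter fun q' => cell δ z x c k0 q'.1 =
              cell δ z x c k0 q.1 ∧ cell δ z x c k0 q'.2 = cell δ z x c k0 q.2)).card := by
          refine card_le_card_of_injOn (fun w => w.2) ?_ ?_
          · rintro ⟨k', q'⟩ h1
            rw [mem_coe, mem_filter, hW, mem_sigma] at h1
            obtain ⟨⟨a1, a2⟩, a3⟩ := h1
            simp only [Prod.mk.injEq] at a3
            obtain ⟨b1, b2, b3⟩ := a3
            subst b1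
            rw [mem_coe, mem_filter]
            exact ⟨a2, b2, b3⟩
          · rintro ⟨k', q'⟩ h1 ⟨k'', q''⟩ h2 h3
            rw [mem_coe, mem_filter] at h1 h2
            have a1 := h1.2
            have a2 := h2.2
            simp only [Prod.mk.injEq] at a1 a2
            have b1 : k' = k'' := a1.1.trans a2.1.symm
            subst b1
            have b2 : q' = q'' := h3
            rw [b2]
        exact_mod_cast this)
    refine hlab.trans (mul_le_mul_of_nonneg_right ?_ (by positivity))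
    set Im := W.image fun w => (w.1, cell δ z x c k0 w.2.1, cell δ z x c k0 w.2.2) with hIm
    have hlab2 := card_le_of_fibers Im (fun w => w.2) (κ * Z.card) (by
      rintro ⟨k, A, A'⟩ hw
      rw [hIm, mem_image] at hw
      obtain ⟨⟨k1, q⟩, hq1, hq2⟩ := hw
      simp only [Prod.mk.injEq] at hq2
      obtain ⟨b1, b2, b3⟩ := hq2
      subst b1
      rw [hW, mem_sigma] at hq1
      have hkG := mem_filter.1 hq1.1
      have hlt := not_le.1 hkG.2
      refine le_trans ?_ hlt.le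
      have : (Im.filter fun w => w.2 = (A, A')).card ≤
          ((farZ Z z s2 k0).filter fun h => |slp z f k0 h - slp z f k0 k1| ≤ r).card := by
        refine card_le_card_of_injOn (fun w => w.1) ?_ ?_
        · rintro ⟨h, C, C'⟩ h1
          rw [mem_coe, mem_filter, hIm, mem_image] at h1
          obtain ⟨⟨⟨h', q'⟩, a1, a2⟩, a3⟩ := h1
          simp only [Prod.mk.injEq] at a2 a3
          obtain ⟨c1, c2, c3⟩ := a2
          subst c1
          rw [hW, mem_sigma] at a1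
          have hhG := mem_filter.1 a1.1
          rw [mem_coe, mem_filter]
          refine ⟨hhG.1, ?_⟩
          refine (slopes_eq H hs1 hs2 hse hδs hk0 (hfZ hkG.1) (hfZ hhG.1) (hfar _ hkG.1)
            (hfar _ hhG.1) hq1.2 a1.2 ?_ ?_).trans hr
          · rw [b2, c2, a3.1]
          · rw [b3, c3, a3.2]
        · rintro ⟨h, C, C'⟩ h1 ⟨h', D, D'⟩ h2 h3
          rw [mem_coe, mem_filter] at h1 h2
          have a1 := h1.2
          have a2 := h2.2
          simp only [Prod.mk.injEq] at a1 a2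
          have b1 : h = h' := h3
          rw [b1, a1.1, a1.2, a2.1, a2.2]
      exact_mod_cast this)
    refine hlab2.trans (mul_le_mul_of_nonneg_right ?_ (by positivity))
    have hsub : Im.image (fun w => w.2) ⊆
        (L.image (cell δ z x c k0)) ×ˢ (L.image (cell δ z x c k0)) := by
      intro w hw
      rw [mem_image] at hw
      obtain ⟨w', hw', rfl⟩ := hw
      rw [hIm, mem_image] at hw'
      obtain ⟨⟨k1, q⟩, hq1, rfl⟩ := hw'
      rw [hW, mem_sigma] at hq1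
      have := mem_P1.1 hq1.2
      rw [mem_product, mem_image, mem_image]
      exact ⟨⟨q.1, this.1.1, rfl⟩, ⟨q.2, this.1.2, rfl⟩⟩
    have h8 := cells_card H hk0 (Subset.refl L)
    calc ((Im.image fun w => w.2).card : ℝ) ≤
          (((L.image (cell δ z x c k0)) ×ˢ (L.image (cell δ z x c k0))).card : ℝ) := by
          exact_mod_cast card_le_card hsub
      _ = ((L.image (cell δ z x c k0)).card : ℝ) * ((L.image (cell δ z x c k0)).card : ℝ) := by
          rw [card_product]; push_cast; rfl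
      _ ≤ (8 / δ) * (8 / δ) := mul_le_mul h8 h8 (Nat.cast_nonneg _) (by positivity)
      _ = _ := by ring

end Crest.Agent.R136.LA501
end

-- ▼ part R136/LA3_501
section

/-!
# R136 [RIG_E], Lemma A (for helper344), part 3 (helper501): the strip
-/

set_option autoImplicit false
set_option linter.unusedVariables false
set_option linter.unusedSectionVars false

open Finset

namespace Crest.Agent.R136.LA501

open Crest.Agent.R138.TwA501 (sq_card_le card_le_of_fibers)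

/-- the pairs with many heights of the same slope -/
noncomputable def Bdp (Z : Finset ℕ) (z f : ℕ → ℝ) (s2 r κ : ℝ) (k0 : ℕ) : Finset ℕ :=
  (farZ Z z s2 k0).filter fun k => κ * Z.card ≤
    (((farZ Z z s2 k0).filter fun h => |slp z f k0 h - slp z f k0 k| ≤ r).card : ℝ)

section

variable {δ e m : ℝ} {L Z : Finset ℕ} {I : Finset (ℕ × ℕ)} {z f x c p : ℕ → ℝ}

/-- **many bad pairs** -/
theorem many_bad (H : Cfg δ e m L Z I z f x c p) {M : ℕ} (hM : 1 ≤ (M : ℝ) * m)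
    (hδ1 : 2 * δ ≤ e ^ (6 * M + 8)) {r κ : ℝ} (hr : δ / e ^ (6 * M + 18) ≤ r)
    (hκ0 : 0 ≤ κ) (hκ : κ * δ ^ m ≤ δ * e ^ 16) :
    e ^ 6 * (Z.card : ℝ) ^ 2 ≤ ∑ k0 ∈ Z, ((Bdp Z z f (e ^ 8) r κ k0).card : ℝ) := by
  have hδ := H.δ0
  have he := H.e0
  have he1 : e ≤ 1 := by linarith [H.e1]
  have hZ : (0 : ℝ) < Z.card := by exact_mod_cast H.nZ.card_pos
  have hL : (0 : ℝ) < L.card := by exact_mod_cast H.nL.card_pos
  have hsplit : e ^ (6 * M + 8) = e ^ (6 * M) * e ^ 8 := pow_add _ _ _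
  have hp1 : e ^ (6 * M) ≤ 1 := pow_le_one₀ he.le he1
  have hp2 : e ^ 8 ≤ 1 := pow_le_one₀ he.le he1
  have hp10 : 0 < e ^ (6 * M) := by positivity
  have hp20 : 0 < e ^ 8 := by positivity
  have hδa : δ ≤ e ^ (6 * M) := by
    have : e ^ (6 * M) * e ^ 8 ≤ e ^ (6 * M) * 1 := mul_le_mul_of_nonneg_left hp2 hp10.le
    rw [hsplit] at hδ1
    linarith
  have hδb : δ ≤ e ^ 8 := by
    have : e ^ (6 * M) * e ^ 8 ≤ 1 * e ^ 8 := mul_le_mul_of_nonneg_right hp1 hp20.le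
    rw [hsplit] at hδ1
    linarith
  have hse : e ^ 8 ≤ e := by
    calc e ^ 8 = e ^ 7 * e := by ring
      _ ≤ 1 * e := mul_le_mul_of_nonneg_right (pow_le_one₀ he.le he1) he.le
      _ = e := one_mul e
  have hlow := sum_P1_ge H hM hδa hδb
  have hrr : 24 * δ / (e ^ (6 * M) * (e ^ 8) ^ 2) ≤ r := by
    refine le_trans ?_ hr
    rw [div_le_div_iff₀ (by positivity) (by positivity)]
    have g1 : e ^ (6 * M + 18) = e ^ (6 * M) * (e ^ 8) ^ 2 * e ^ 2 := by ring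
    rw [g1]
    have g2 : e ^ 2 ≤ 1 / 24 := by nlinarith [H.e1]
    have g3 : 0 < δ * (e ^ (6 * M) * (e ^ 8) ^ 2) := by positivity
    calc 24 * δ * (e ^ (6 * M) * (e ^ 8) ^ 2 * e ^ 2)
        = 24 * (δ * (e ^ (6 * M) * (e ^ 8) ^ 2)) * e ^ 2 := by ring
      _ ≤ 24 * (δ * (e ^ (6 * M) * (e ^ 8) ^ 2)) * (1 / 24) :=
          mul_le_mul_of_nonneg_left g2 (by positivity)
      _ = _ := by ring
  have hup : ∀ k0 ∈ Z, ∑ k ∈ farZ Z z (e ^ 8) k0,
      ((P1 δ L I z x c (e ^ (6 * M)) k0 k).card : ℝ) ≤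
      ((Bdp Z z f (e ^ 8) r κ k0).card : ℝ) * (2 * δ / e * (L.card : ℝ) ^ 2) +
        256 * δ * e ^ 6 * Z.card * (L.card : ℝ) ^ 2 := by
    intro k0 hk0
    have g1 := pin_le H hp10 hp20 hse (by rw [← hsplit]; exact hδ1) hδb hκ0 hrr hk0
    refine g1.trans ?_
    unfold Bdp
    refine add_le_add le_rfl ?_
    have g2 : (8 / δ) ^ 2 * (κ * Z.card) * (4 * δ ^ 2 * δ ^ m / (e ^ 2 * e ^ 8) *
        (L.card : ℝ) ^ 2) = 256 * (κ * δ ^ m) / e ^ 10 * (Z.card * (L.card : ℝ) ^ 2) := by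
      field_simp
      ring
    rw [g2]
    have g3 : 256 * (κ * δ ^ m) / e ^ 10 ≤ 256 * δ * e ^ 6 := by
      rw [div_le_iff₀ (by positivity)]
      calc 256 * (κ * δ ^ m) ≤ 256 * (δ * e ^ 16) := mul_le_mul_of_nonneg_left hκ (by norm_num)
        _ = _ := by ring
    calc 256 * (κ * δ ^ m) / e ^ 10 * (Z.card * (L.card : ℝ) ^ 2)
        ≤ 256 * δ * e ^ 6 * (Z.card * (L.card : ℝ) ^ 2) :=
          mul_le_mul_of_nonneg_right g3 (by positivity)
      _ = _ := by ring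
  have hall := hlow.trans (sum_le_sum hup)
  rw [sum_add_distrib, ← sum_mul, sum_const, nsmul_eq_mul] at hall
  set S := ∑ k0 ∈ Z, ((Bdp Z z f (e ^ 8) r κ k0).card : ℝ) with hS
  have hS0 : 0 ≤ S := sum_nonneg fun _ _ => Nat.cast_nonneg _
  -- divide by `δ #L^2`
  have h1 : (e ^ 4 / 16 * (Z.card : ℝ) ^ 2) * (δ * (L.card : ℝ) ^ 2) ≤
      (S * (2 / e) + 256 * e ^ 6 * (Z.card : ℝ) ^ 2) * (δ * (L.card : ℝ) ^ 2) := by
    calc (e ^ 4 / 16 * (Z.card : ℝ) ^ 2) * (δ * (L.card : ℝ) ^ 2)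
        = e ^ 4 * δ / 16 * (Z.card : ℝ) ^ 2 * (L.card : ℝ) ^ 2 := by ring
      _ ≤ _ := hall
      _ = _ := by ring
  have h2 := le_of_mul_le_mul_right h1 (by positivity)
  have h3 : e ^ 6 ≤ e ^ 4 / 10000 := by
    have : e ^ 2 ≤ 1 / 10000 := by nlinarith [H.e1]
    calc e ^ 6 = e ^ 4 * e ^ 2 := by ring
      _ ≤ e ^ 4 * (1 / 10000) := mul_le_mul_of_nonneg_left this (by positivity)
      _ = _ := by ring
  have h4 : e ^ 4 / 50 * (Z.card : ℝ) ^ 2 ≤ S * (2 / e) := by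
    have g1 : 256 * e ^ 6 * (Z.card : ℝ) ^ 2 ≤ 256 * (e ^ 4 / 10000) * (Z.card : ℝ) ^ 2 :=
      mul_le_mul_of_nonneg_right (by linarith) (by positivity)
    have g2 : 0 ≤ e ^ 4 * (Z.card : ℝ) ^ 2 := by positivity
    linarith
  have h5 : e ^ 5 / 100 * (Z.card : ℝ) ^ 2 ≤ S := by
    have g1 : e / 2 * (e ^ 4 / 50 * (Z.card : ℝ) ^ 2) ≤ e / 2 * (S * (2 / e)) :=
      mul_le_mul_of_nonneg_left h4 (by positivity)
    have g2 : e / 2 * (S * (2 / e)) = S := by field_simp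
    rw [g2] at g1
    linarith
  refine le_trans ?_ h5
  refine mul_le_mul_of_nonneg_right ?_ (by positivity)
  calc e ^ 6 = e ^ 5 * e := by ring
    _ ≤ e ^ 5 * (1 / 100) := mul_le_mul_of_nonneg_left H.e1 (by positivity)
    _ = _ := by ring

end

/-- small powers -/
theorem exists_small_rpow {t b : ℝ} (ht : 0 < t) (hb : 0 < b) :
    ∃ δ₀ : ℝ, 0 < δ₀ ∧ δ₀ ≤ 1 ∧ ∀ δ : ℝ, 0 < δ → δ ≤ δ₀ → δ ^ t ≤ b := by
  refine ⟨min 1 (b ^ (1 / t)), lt_min one_pos (Real.rpow_pos_of_pos hb _), min_le_left _ _,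
    fun δ h1 h2 => ?_⟩
  calc δ ^ t ≤ (b ^ (1 / t)) ^ t := Real.rpow_le_rpow h1.le (h2.trans (min_le_right _ _)) ht.le
    _ = b := by rw [← Real.rpow_mul hb.le, one_div_mul_cancel ht.ne', Real.rpow_one]

theorem rp_anti {δ s t : ℝ} (h0 : 0 < δ) (h1 : δ ≤ 1) (h : s ≤ t) : δ ^ t ≤ δ ^ s :=
  Real.rpow_le_rpow_of_exponent_ge h0 h1 h

/-- **the strip** -/
theorem strip {m : ℝ} (hm : 0 < m) (hm1 : m ≤ 1) : ∃ a c₀ : ℝ, 0 < a ∧ a ≤ 1 ∧ 0 < c₀ ∧
    ∀ c1 : ℝ, 0 < c1 → c1 ≤ c₀ → ∃ ε₀ : ℝ, 0 < ε₀ ∧ ∀ ε : ℝ, 0 < ε → ε ≤ ε₀ →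
    ∃ δ₀ : ℝ, 0 < δ₀ ∧ ∀ δ : ℝ, 0 < δ → δ ≤ δ₀ → ∀ (L Z : Finset ℕ) (I : Finset (ℕ × ℕ))
      (z f x c p : ℕ → ℝ), Cfg δ (δ ^ ε) m L Z I z f x c p →
      ∃ μ g0 w : ℝ, |μ| ≤ 2 * δ ^ (-c1) ∧ δ ≤ w ∧ w ≤ δ ^ (a / 2) ∧
        w ^ (m / 4) * (Z.card : ℝ) ≤ ((Z.filter fun k => |f k - μ * z k - g0| ≤ w).card : ℝ) := by
  obtain ⟨M, hM⟩ : ∃ M : ℕ, 1 / m ≤ M := exists_nat_ge _
  have hMm : 1 ≤ (M : ℝ) * m := by rw [div_le_iff₀ hm] at hM; exact hM
  obtain ⟨a, c₀, ha, ha1, hc₀, HT⟩ := Crest.Agent.R138.Pl187.thin_graph (s := 1)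
    (σ := 1 - m / 2) (η := m / 4) one_pos (by linarith) (by linarith) (by positivity)
  refine ⟨a, c₀, ha, ha1, hc₀, fun c1 hc1 hc1c => ?_⟩
  obtain ⟨r₀, hr₀, HR⟩ := HT c1 hc1 hc1c
  set N3 : ℕ := 6 * M + 18 with hN3
  have hN3p : (0 : ℝ) < (N3 : ℝ) + 16 := by positivity
  refine ⟨min (min (1 / (2 * ((N3 : ℝ) + 16))) (c1 / 32)) (m / (2 * ((N3 : ℝ) + 16))), by
    positivity, fun ε hε hεε => ?_⟩
  have e1 : ((N3 : ℝ) + 16) * ε ≤ 1 / 2 := by
    have : ε ≤ 1 / (2 * ((N3 : ℝ) + 16)) := hεε.trans ((min_le_left _ _).trans (min_le_left _ _))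
    calc ((N3 : ℝ) + 16) * ε ≤ ((N3 : ℝ) + 16) * (1 / (2 * ((N3 : ℝ) + 16))) :=
          mul_le_mul_of_nonneg_left this hN3p.le
      _ = _ := by field_simp
  have e2 : ε ≤ c1 / 32 := hεε.trans ((min_le_left _ _).trans (min_le_right _ _))
  have e3 : ((N3 : ℝ) + 16) * ε ≤ m / 2 := by
    have : ε ≤ m / (2 * ((N3 : ℝ) + 16)) := hεε.trans (min_le_right _ _)
    calc ((N3 : ℝ) + 16) * ε ≤ ((N3 : ℝ) + 16) * (m / (2 * ((N3 : ℝ) + 16))) :=
          mul_le_mul_of_nonneg_left this hN3p.le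
      _ = _ := by field_simp
  have e4 : (N3 : ℝ) * ε ≤ 1 / 2 := by
    have : 0 < 16 * ε := by positivity
    linarith
  obtain ⟨d1, hd1, hd11, HD1⟩ := exists_small_rpow (t := 1 / 2) (by norm_num) hr₀
  obtain ⟨d2, hd2, hd21, HD2⟩ := exists_small_rpow (t := 1 / 2) (b := 1 / 2) (by norm_num)
    (by norm_num)
  refine ⟨min d1 (min d2 (1 / 2)), by positivity, ?_⟩
  intro δ hδ hδδ L Z I z f x c p H
  have hδ1 : δ ≤ 1 / 2 := hδδ.trans ((min_le_right _ _).trans (min_le_right _ _))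
  have hδ1' : δ ≤ 1 := by linarith
  have hr0 := HD1 δ hδ (hδδ.trans (min_le_left _ _))
  have hh0 := HD2 δ hδ (hδδ.trans ((min_le_right _ _).trans (min_le_left _ _)))
  set e : ℝ := δ ^ ε with he
  have hpw : ∀ n : ℕ, e ^ n = δ ^ ((n : ℝ) * ε) := by
    intro n
    rw [he, ← Real.rpow_natCast (δ ^ ε) n, ← Real.rpow_mul hδ.le, mul_comm]
  have he0 : 0 < e := Real.rpow_pos_of_pos hδ _
  set r : ℝ := δ / e ^ N3 with hr
  have hrval : r = δ ^ (1 - (N3 : ℝ) * ε) := by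
    rw [hr, hpw, Real.rpow_sub hδ, Real.rpow_one]
  have hrpos : 0 < r := by rw [hrval]; exact Real.rpow_pos_of_pos hδ _
  have hrh : r ≤ δ ^ (1 / 2 : ℝ) := by
    rw [hrval]; exact rp_anti hδ hδ1' (by linarith)
  have hδr : δ ≤ r := by
    rw [hrval]
    calc δ = δ ^ (1 : ℝ) := (Real.rpow_one δ).symm
      _ ≤ _ := rp_anti hδ hδ1' (by have : 0 ≤ (N3 : ℝ) * ε := by positivity
                                   linarith)
  have hr1 : r ≤ 1 := hrh.trans (Real.rpow_le_one hδ.le hδ1' (by norm_num))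
  -- `r ^ c1 ≤ e ^ 8`
  have hrc : r ^ c1 ≤ δ ^ (c1 / 2) := by
    calc r ^ c1 ≤ (δ ^ (1 / 2 : ℝ)) ^ c1 := Real.rpow_le_rpow hrpos.le hrh hc1.le
      _ = _ := by rw [← Real.rpow_mul hδ.le]; congr 1; ring
  have hrc8 : r ^ c1 ≤ e ^ 8 := by
    rw [hpw]
    refine hrc.trans (rp_anti hδ hδ1' ?_)
    push_cast
    linarith
  set κ : ℝ := δ ^ (1 - m) * e ^ 16 with hκ
  have hκ0 : 0 ≤ κ := by
    have := Real.rpow_nonneg hδ.le (1 - m)
    positivity
  have hκm : κ * δ ^ m ≤ δ * e ^ 16 := by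
    rw [hκ]
    refine le_of_eq ?_
    calc δ ^ (1 - m) * e ^ 16 * δ ^ m = (δ ^ (1 - m) * δ ^ m) * e ^ 16 := by ring
      _ = _ := by rw [← Real.rpow_add hδ]; simp
  have hκr : r ^ (1 - m / 2) ≤ κ := by
    rw [hκ, hpw, hrval, ← Real.rpow_mul hδ.le, ← Real.rpow_add hδ]
    refine rp_anti hδ hδ1' ?_
    push_cast
    have g1 : (N3 : ℝ) * ε * (m / 2) ≥ 0 := by positivity
    nlinarith
  have hbig : 2 * δ ≤ e ^ (6 * M + 8) := by
    rw [hpw]
    have g1 : δ = δ ^ (1 / 2 : ℝ) * δ ^ (1 / 2 : ℝ) := by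
      rw [← Real.rpow_add hδ]; norm_num
    have g2 : δ ^ (1 / 2 : ℝ) ≤ δ ^ (((6 * M + 8 : ℕ) : ℝ) * ε) := by
      refine rp_anti hδ hδ1' ?_
      have g3 : ((6 * M + 8 : ℕ) : ℝ) ≤ (N3 : ℝ) := by
        rw [hN3]; push_cast; linarith
      exact (mul_le_mul_of_nonneg_right g3 hε.le).trans e4
    have g4 : 0 < δ ^ (1 / 2 : ℝ) := Real.rpow_pos_of_pos hδ _
    calc 2 * δ = (2 * δ ^ (1 / 2 : ℝ)) * δ ^ (1 / 2 : ℝ) := by rw [mul_assoc, ← g1]
      _ ≤ 1 * δ ^ (1 / 2 : ℝ) := mul_le_mul_of_nonneg_right (by linarith) g4.le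
      _ = δ ^ (1 / 2 : ℝ) := one_mul _
      _ ≤ _ := g2
  have hmany := many_bad H hMm hbig (r := r) (κ := κ) le_rfl hκ0 hκm
  have hZ : (0 : ℝ) < Z.card := by exact_mod_cast H.nZ.card_pos
  have hthin := HR r hrpos (hrh.trans hr0) Z z f H.zf (by
    intro ρ h1 h2 k hk
    refine (H.hz k hk ρ (hδr.trans h1) h2).trans ?_
    rw [Real.rpow_one]
    refine mul_le_mul_of_nonneg_right ?_ (Nat.cast_nonneg _)
    have hρ : 0 < ρ := hrpos.trans_le h1
    rw [div_eq_mul_inv, mul_comm ρ]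
    refine mul_le_mul_of_nonneg_right ?_ hρ.le
    rw [Real.rpow_neg hrpos.le]
    refine inv_anti₀ (Real.rpow_pos_of_pos hrpos _) ?_
    refine hrc.trans ?_
    rw [he]
    exact rp_anti hδ hδ1' (by linarith))
  rcases hthin with hst | hbad
  · obtain ⟨k₁, hk₁, k₂, hk₂, hsep, μ, w, hμ, hμ2, hw1, hw2, hmass⟩ := hst
    refine ⟨μ, f k₁ - μ * z k₁, w, ?_, hδr.trans hw1, ?_, ?_⟩
    · refine hμ2.trans (mul_le_mul_of_nonneg_left ?_ (by norm_num))
      exact Real.rpow_le_rpow_of_nonpos hδ hδr (by linarith)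
    · refine hw2.trans ?_
      calc r ^ a ≤ (δ ^ (1 / 2 : ℝ)) ^ a := Real.rpow_le_rpow hrpos.le hrh ha.le
        _ = _ := by rw [← Real.rpow_mul hδ.le]; congr 1; ring
    · refine hmass.trans (le_of_eq ?_)
      congr 2
      ext k
      rw [mem_filter, mem_filter]
      have : f k - f k₁ - μ * (z k - z k₁) = f k - μ * z k - (f k₁ - μ * z k₁) := by ring
      rw [this]
  · exfalso
    have h1 : ∑ k0 ∈ Z, ((Bdp Z z f (e ^ 8) r κ k0).card : ℝ) ≤ r ^ c1 * (Z.card : ℝ) ^ 2 := by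
      refine le_trans ?_ hbad
      have h2 : ∑ k0 ∈ Z, (Bdp Z z f (e ^ 8) r κ k0).card =
          (Z.sigma fun k0 => Bdp Z z f (e ^ 8) r κ k0).card := (card_sigma _ _).symm
      have h3 : (∑ k0 ∈ Z, ((Bdp Z z f (e ^ 8) r κ k0).card : ℝ)) =
          ((Z.sigma fun k0 => Bdp Z z f (e ^ 8) r κ k0).card : ℝ) := by
        rw [← h2]; push_cast; rfl
      rw [h3]
      have h4 : (Z.sigma fun k0 => Bdp Z z f (e ^ 8) r κ k0).card ≤
          ((Z ×ˢ Z).filter fun q => r ^ c1 ≤ |z q.2 - z q.1| ∧ r ^ (1 - m / 2) * Z.card ≤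
            ((Z.filter fun k => r ^ c1 ≤ |z k - z q.1| ∧
            |(f k - f q.1) / (z k - z q.1) - (f q.2 - f q.1) / (z q.2 - z q.1)| ≤
              r).card : ℝ)).card := by
        refine card_le_card_of_injOn (fun w => (w.1, w.2)) ?_ ?_
        · rintro ⟨k0, k⟩ hw
          rw [mem_coe, mem_sigma] at hw
          obtain ⟨a1, a2⟩ := hw
          unfold Bdp at a2
          rw [mem_filter] at a2
          have a3 := mem_filter.1 a2.1
          rw [mem_coe, mem_filter, mem_product]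
          refine ⟨⟨a1, a3.1⟩, hrc8.trans a3.2.le, ?_⟩
          refine (mul_le_mul_of_nonneg_right hκr (Nat.cast_nonneg _)).trans (a2.2.trans ?_)
          exact_mod_cast card_le_card fun h hh => by
            rw [mem_filter] at hh
            have b1 := mem_filter.1 hh.1
            rw [mem_filter]
            exact ⟨b1.1, hrc8.trans b1.2.le, hh.2⟩
        · rintro ⟨k0, k⟩ _ ⟨k0', k'⟩ _ h3
          simp only [Prod.mk.injEq] at h3
          obtain ⟨b1, b2⟩ := h3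
          subst b1 b2
          rfl
      exact_mod_cast h4
    have h5 : e ^ 6 * (Z.card : ℝ) ^ 2 ≤ r ^ c1 * (Z.card : ℝ) ^ 2 := hmany.trans h1
    have h6 := le_of_mul_le_mul_right h5 (by positivity)
    have h7 : r ^ c1 < e ^ 6 := by
      rw [hpw]
      refine hrc.trans_lt ?_
      refine Real.rpow_lt_rpow_of_exponent_gt hδ (by linarith) ?_
      push_cast
      linarith
    linarith

end Crest.Agent.R136.LA501
end

-- ▼ part R136/LA4_501

/-!
# R136 [RIG_E], Lemma A (for helper344), part 4 (helper501): regularisation, level sets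
-/

set_option autoImplicit false
set_option linter.unusedVariables false
set_option linter.unusedSectionVars false

open Finset

namespace Crest.Agent.R136.LA501

open Crest.Agent.R138.TwA501 (sq_card_le card_le_of_fibers)

/-- incidences over `L1 × Z1` -/
def res (I : Finset (ℕ × ℕ)) (L1 Z1 : Finset ℕ) : Finset (ℕ × ℕ) := (L1 ×ˢ Z1).filter (· ∈ I)

theorem mem_res {I : Finset (ℕ × ℕ)} {L1 Z1 : Finset ℕ} {l k : ℕ} :
    (l, k) ∈ res I L1 Z1 ↔ (l ∈ L1 ∧ k ∈ Z1) ∧ (l, k) ∈ I := by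
  unfold res
  rw [mem_filter, mem_product]

theorem res_card (I : Finset (ℕ × ℕ)) (L1 Z1 : Finset ℕ) :
    ((res I L1 Z1).card : ℝ) = ∑ l ∈ L1, ((Z1.filter fun k => (l, k) ∈ I).card : ℝ) := by
  unfold res
  rw [card_filter, sum_product]
  push_cast
  refine sum_congr rfl fun l _ => ?_
  rw [card_filter]
  push_cast
  rfl

theorem res_card' (I : Finset (ℕ × ℕ)) (L1 Z1 : Finset ℕ) :
    ((res I L1 Z1).card : ℝ) = ∑ k ∈ Z1, ((L1.filter fun l => (l, k) ∈ I).card : ℝ) := by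
  unfold res
  rw [card_filter, sum_product_right]
  push_cast
  refine sum_congr rfl fun l _ => ?_
  rw [card_filter]
  push_cast
  rfl

/-- **minimal degrees** -/
theorem regularize (L Z : Finset ℕ) (I : Finset (ℕ × ℕ)) {d : ℝ} (hd : 0 < d)
    (hL : L.Nonempty) (hZ : Z.Nonempty) (hdens : d * L.card * Z.card ≤ ((res I L Z).card : ℝ)) :
    ∃ L1 ⊆ L, ∃ Z1 ⊆ Z, d / 2 * L.card * Z.card ≤ ((res I L1 Z1).card : ℝ) ∧
      (∀ k ∈ Z1, d / 4 * L.card ≤ ((L1.filter fun l => (l, k) ∈ I).card : ℝ)) ∧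
      (∀ l ∈ L1, d / 4 * Z.card ≤ ((Z1.filter fun k => (l, k) ∈ I).card : ℝ)) := by
  classical
  have hLc : (0 : ℝ) < L.card := by exact_mod_cast hL.card_pos
  have hZc : (0 : ℝ) < Z.card := by exact_mod_cast hZ.card_pos
  set Φ : Finset ℕ × Finset ℕ → ℝ := fun q => ((res I q.1 q.2).card : ℝ) -
    d / 4 * Z.card * q.1.card - d / 4 * L.card * q.2.card with hΦ
  obtain ⟨⟨L1, Z1⟩, hmem, hmax⟩ := exists_max_image (L.powerset ×ˢ Z.powerset) Φ
    ⟨(L, Z), by rw [mem_product]; exact ⟨mem_powerset_self L, mem_powerset_self Z⟩⟩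
  rw [mem_product, mem_powerset, mem_powerset] at hmem
  refine ⟨L1, hmem.1, Z1, hmem.2, ?_, fun k hk => ?_, fun l hl => ?_⟩
  · have h1 := hmax (L, Z) (by
      rw [mem_product]; exact ⟨mem_powerset_self L, mem_powerset_self Z⟩)
    simp only [hΦ] at h1
    have h2 : 0 ≤ d / 4 * Z.card * (L1.card : ℝ) := by positivity
    have h3 : 0 ≤ d / 4 * L.card * (Z1.card : ℝ) := by positivity
    have h4 : d / 4 * Z.card * (L.card : ℝ) = d * L.card * Z.card / 4 := by ring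
    have h5 : d / 4 * L.card * (Z.card : ℝ) = d * L.card * Z.card / 4 := by ring
    have h6 : d / 2 * L.card * Z.card = d * L.card * Z.card / 2 := by ring
    rw [h6]
    linarith
  · have h1 := hmax (L1, Z1.erase k) (by
      rw [mem_product, mem_powerset, mem_powerset]
      exact ⟨hmem.1, (erase_subset _ _).trans hmem.2⟩)
    simp only [hΦ] at h1
    rw [res_card', res_card', card_erase_of_mem hk, ← add_sum_erase Z1 _ hk] at h1
    have h2 : 1 ≤ Z1.card := card_pos.2 ⟨k, hk⟩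
    rw [Nat.cast_sub h2] at h1
    push_cast at h1
    linarith
  · have h1 := hmax (L1.erase l, Z1) (by
      rw [mem_product, mem_powerset, mem_powerset]
      exact ⟨(erase_subset _ _).trans hmem.1, hmem.2⟩)
    simp only [hΦ] at h1
    rw [res_card, res_card, card_erase_of_mem hl, ← add_sum_erase L1 _ hl] at h1
    have h2 : 1 ≤ L1.card := card_pos.2 ⟨l, hl⟩
    rw [Nat.cast_sub h2] at h1
    push_cast at h1
    linarith

/-- the hypotheses without degrees -/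
structure Raw (δ e m : ℝ) (L Z : Finset ℕ) (I : Finset (ℕ × ℕ)) (z f x c p : ℕ → ℝ) : Prop where
  zf : ∀ k ∈ Z, |z k| ≤ 1 ∧ |f k| ≤ 1
  lb : ∀ l ∈ L, |x l| ≤ 2 ∧ |c l| ≤ 1 ∧ |p l| ≤ 1
  hz : ∀ k ∈ Z, ∀ r : ℝ, δ ≤ r → r ≤ 1 →
    ((Z.filter fun k' => |z k' - z k| ≤ r).card : ℝ) ≤ r / e * Z.card
  pen : ∀ l k : ℕ, (l, k) ∈ I → ∀ r : ℝ, δ ≤ r → r ≤ 2 →
    ((L.filter fun l' => (l', k) ∈ I ∧ |XX z x c l' k - XX z x c l k| ≤ δ ∧
      |c l' - c l| ≤ r).card : ℝ) ≤ δ * r ^ m / e * L.card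
  star : ∀ l l' k : ℕ, (l, k) ∈ I → (l', k) ∈ I → |XX z x c l' k - XX z x c l k| ≤ δ →
    |p l' - p l - f k * (c l' - c l)| ≤ δ / e

section

variable {δ e m : ℝ} {L Z : Finset ℕ} {I : Finset (ℕ × ℕ)} {z f x c p : ℕ → ℝ}

theorem Cfg.raw (H : Cfg δ e m L Z I z f x c p) : Raw δ e m L Z I z f x c p :=
  ⟨H.zf, H.lb, H.hz, H.pen, H.star⟩

/-- restriction of the hypotheses -/
theorem Raw.res (H : Raw δ e m L Z I z f x c p) (hδ : 0 < δ) (he : 0 < e) {L1 Z1 : Finset ℕ}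
    (hL : L1 ⊆ L) (hZ : Z1 ⊆ Z) {τ : ℝ} (hτ : 0 < τ) (hτ1 : τ ≤ 1)
    (hL1 : τ * L.card ≤ (L1.card : ℝ))
    (hZ1 : τ * Z.card ≤ (Z1.card : ℝ)) : Raw δ (e * τ) m L1 Z1 (res I L1 Z1) z f x c p where
  zf := fun k hk => H.zf k (hZ hk)
  lb := fun l hl => H.lb l (hL hl)
  hz := fun k hk r h1 h2 => by
    have hr : 0 < r := hδ.trans_le h1
    have g1 := H.hz k (hZ hk) r h1 h2
    have g2 : ((Z1.filter fun k' => |z k' - z k| ≤ r).card : ℝ) ≤
        ((Z.filter fun k' => |z k' - z k| ≤ r).card : ℝ) := by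
      exact_mod_cast card_le_card (filter_subset_filter _ hZ)
    refine g2.trans (g1.trans ?_)
    have g3 : r / (e * τ) * Z1.card = r / e * (Z1.card / τ) := by
      field_simp
    rw [g3]
    refine mul_le_mul_of_nonneg_left ?_ (by positivity)
    rw [le_div_iff₀ hτ]
    linarith
  pen := fun l k hlk r h1 h2 => by
    have hr : 0 < r := hδ.trans_le h1
    have hrm : 0 ≤ r ^ m := Real.rpow_nonneg hr.le _
    have g1 := H.pen l k (mem_res.1 hlk).2 r h1 h2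
    have g2 : ((L1.filter fun l' => (l', k) ∈ LA501.res I L1 Z1 ∧
        |XX z x c l' k - XX z x c l k| ≤ δ ∧ |c l' - c l| ≤ r).card : ℝ) ≤
        ((L.filter fun l' => (l', k) ∈ I ∧ |XX z x c l' k - XX z x c l k| ≤ δ ∧
          |c l' - c l| ≤ r).card : ℝ) := by
      exact_mod_cast card_le_card fun l' hl' => by
        rw [mem_filter] at hl' ⊢
        exact ⟨hL hl'.1, (mem_res.1 hl'.2.1).2, hl'.2.2⟩
    refine g2.trans (g1.trans ?_)
    have g3 : δ * r ^ m / (e * τ) * L1.card = δ * r ^ m / e * (L1.card / τ) := by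
      field_simp
    rw [g3]
    refine mul_le_mul_of_nonneg_left ?_ (by positivity)
    rw [le_div_iff₀ hτ]
    linarith
  star := fun l l' k h1 h2 h3 => by
    refine (H.star l l' k (mem_res.1 h1).2 (mem_res.1 h2).2 h3).trans ?_
    refine div_le_div_of_nonneg_left hδ.le (by positivity) ?_
    calc e * τ ≤ e * 1 := mul_le_mul_of_nonneg_left hτ1 he.le
      _ = e := mul_one e

theorem Raw.mono (H : Raw δ e m L Z I z f x c p) (hδ : 0 < δ) {e' : ℝ} (he' : 0 < e')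
    (h : e' ≤ e) : Raw δ e' m L Z I z f x c p where
  zf := H.zf
  lb := H.lb
  hz := fun k hk r h1 h2 => (H.hz k hk r h1 h2).trans (by
    have hr : 0 < r := hδ.trans_le h1
    exact mul_le_mul_of_nonneg_right (div_le_div_of_nonneg_left hr.le he' h) (Nat.cast_nonneg _))
  pen := fun l k hlk r h1 h2 => (H.pen l k hlk r h1 h2).trans (by
    have hr : 0 < r := hδ.trans_le h1
    have hrm : 0 ≤ r ^ m := Real.rpow_nonneg hr.le _
    exact mul_le_mul_of_nonneg_right (div_le_div_of_nonneg_left (by positivity) he' h)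
      (Nat.cast_nonneg _))
  star := fun l l' k h1 h2 h3 => (H.star l l' k h1 h2 h3).trans
    (div_le_div_of_nonneg_left hδ.le he' h)

/-- **from raw hypotheses to a regular configuration** -/
theorem Raw.cfg (H : Raw δ e m L Z I z f x c p) (hδ : 0 < δ) (he : 0 < e) (he1 : e ≤ 1 / 100)
    (hm : 0 < m) (hm1 : m ≤ 1) (hL : L.Nonempty) (hZ : Z.Nonempty) {d e' : ℝ} (hd : 0 < d)
    (hd1 : d ≤ 1) (hdens : d * L.card * Z.card ≤ ((LA501.res I L Z).card : ℝ)) (he' : 0 < e')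
    (hee : e' ≤ e * d / 4) (hδe : δ ≤ e') :
    ∃ L1 ⊆ L, ∃ Z1 ⊆ Z, d / 2 * L.card ≤ (L1.card : ℝ) ∧ d / 2 * Z.card ≤ (Z1.card : ℝ) ∧
      Cfg δ e' m L1 Z1 (LA501.res I L1 Z1) z f x c p := by
  have hLc : (0 : ℝ) < L.card := by exact_mod_cast hL.card_pos
  have hZc : (0 : ℝ) < Z.card := by exact_mod_cast hZ.card_pos
  obtain ⟨L1, hL1, Z1, hZ1, h1, h2, h3⟩ := regularize L Z I hd hL hZ hdens
  have hcard : ((LA501.res I L1 Z1).card : ℝ) ≤ L1.card * Z1.card := by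
    have : (LA501.res I L1 Z1).card ≤ (L1 ×ˢ Z1).card := card_le_card (filter_subset _ _)
    rw [card_product] at this
    exact_mod_cast this
  have hL1c : (L1.card : ℝ) ≤ L.card := by exact_mod_cast card_le_card hL1
  have hZ1c : (Z1.card : ℝ) ≤ Z.card := by exact_mod_cast card_le_card hZ1
  have a1 : d / 2 * L.card ≤ (L1.card : ℝ) := by
    have : (d / 2 * L.card) * Z.card ≤ L1.card * (Z.card : ℝ) :=
      h1.trans (hcard.trans (mul_le_mul_of_nonneg_left hZ1c (Nat.cast_nonneg _)))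
    exact le_of_mul_le_mul_right this hZc
  have a2 : d / 2 * Z.card ≤ (Z1.card : ℝ) := by
    have : (d / 2 * Z.card) * L.card ≤ Z1.card * (L.card : ℝ) := by
      calc (d / 2 * Z.card) * L.card = d / 2 * L.card * Z.card := by ring
        _ ≤ _ := h1
        _ ≤ L1.card * Z1.card := hcard
        _ ≤ L.card * Z1.card := mul_le_mul_of_nonneg_right hL1c (Nat.cast_nonneg _)
        _ = _ := mul_comm _ _
    exact le_of_mul_le_mul_right this hLc
  have b1 : (0 : ℝ) < L1.card := by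
    have : 0 < d / 2 * L.card := by positivity
    linarith
  have b2 : (0 : ℝ) < Z1.card := by
    have : 0 < d / 2 * Z.card := by positivity
    linarith
  have hR := (H.res hδ he hL1 hZ1 (τ := d / 2) (by positivity) (by linarith) a1 a2).mono hδ he'
    (by have : 0 < e * d := by positivity
        linarith)
  have hed : e' ≤ d / 4 := by
    refine hee.trans ?_
    have : e * d ≤ 1 * d := mul_le_mul_of_nonneg_right (by linarith) hd.le
    linarith
  refine ⟨L1, hL1, Z1, hZ1, a1, a2, ?_⟩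
  refine
    { δ0 := hδ
      δe := hδe
      e0 := he'
      e1 := ?_
      m0 := hm
      m1 := hm1
      sub := filter_subset _ _
      zf := hR.zf
      lb := hR.lb
      hz := hR.hz
      pen := hR.pen
      star := hR.star
      degZ := fun k hk => ?_
      degL := fun l hl => ?_
      nL := card_pos.1 (by exact_mod_cast b1)
      nZ := card_pos.1 (by exact_mod_cast b2) }
  · refine hee.trans ?_
    have : e * d ≤ 1 / 100 * 1 := mul_le_mul he1 hd1 hd.le (by norm_num)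
    linarith
  · have g1 : (L1.filter fun l => (l, k) ∈ LA501.res I L1 Z1) = L1.filter fun l => (l, k) ∈ I := by
      ext l
      rw [mem_filter, mem_filter, mem_res]
      constructor
      · rintro ⟨u1, u2⟩; exact ⟨u1, u2.2⟩
      · rintro ⟨u1, u2⟩; exact ⟨u1, ⟨u1, hk⟩, u2⟩
    rw [g1]
    refine le_trans ?_ (h2 k hk)
    exact mul_le_mul hed hL1c b1.le (by positivity)
  · have g1 : (Z1.filter fun k => (l, k) ∈ LA501.res I L1 Z1) = Z1.filter fun k => (l, k) ∈ I := by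
      ext k
      rw [mem_filter, mem_filter, mem_res]
      constructor
      · rintro ⟨u1, u2⟩; exact ⟨u1, u2.2⟩
      · rintro ⟨u1, u2⟩; exact ⟨u1, ⟨hl, u1⟩, u2⟩
    rw [g1]
    refine le_trans ?_ (h3 l hl)
    exact mul_le_mul hed hZ1c b2.le (by positivity)

/-- far pairs of one cell at the height `k` -/
noncomputable def FP (δ : ℝ) (L : Finset ℕ) (I : Finset (ℕ × ℕ)) (z x c : ℕ → ℝ) (s : ℝ)
    (k : ℕ) : Finset (ℕ × ℕ) :=
  ((L.filter fun l => (l, k) ∈ I) ×ˢ (L.filter fun l => (l, k) ∈ I)).filter fun q =>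
    cell δ z x c k q.1 = cell δ z x c k q.2 ∧ s < |c q.2 - c q.1|

theorem mem_FP {s : ℝ} {k : ℕ} {q : ℕ × ℕ} : q ∈ FP δ L I z x c s k ↔
    ((q.1 ∈ L ∧ (q.1, k) ∈ I) ∧ (q.2 ∈ L ∧ (q.2, k) ∈ I)) ∧
      cell δ z x c k q.1 = cell δ z x c k q.2 ∧ s < |c q.2 - c q.1| := by
  unfold FP
  rw [mem_filter, mem_product, mem_filter, mem_filter]

/-- a far pair meets at few heights -/
theorem meet_le (H : Cfg δ e m L Z I z f x c p) {s : ℝ} (hs : 0 < s) (hs1 : s ≤ 1)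
    (hδs : 2 * δ ≤ s) {l l' : ℕ} (hc : s < |c l' - c l|) {K : Finset ℕ} (hK : K ⊆ Z)
    (hKc : ∀ k ∈ K, cell δ z x c k l = cell δ z x c k l') :
    (K.card : ℝ) ≤ 2 * δ / (s * e) * Z.card := by
  have hδ := H.δ0
  have he := H.e0
  rcases K.eq_empty_or_nonempty with rfl | ⟨k0, hk0⟩
  · rw [card_empty, Nat.cast_zero]
    positivity
  · have h1 := H.hz k0 (hK hk0) (2 * δ / s) (by
      rw [le_div_iff₀ hs]; nlinarith) (by rw [div_le_one hs]; exact hδs)
    have h2 : (K.card : ℝ) ≤ ((Z.filter fun k' => |z k' - z k0| ≤ 2 * δ / s).card : ℝ) := by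
      exact_mod_cast card_le_card fun k hk => by
        rw [mem_filter]
        refine ⟨hK hk, ?_⟩
        have g1 := cell_close hδ (hKc k hk)
        have g2 := cell_close hδ (hKc k0 hk0)
        have g3 : (z k - z k0) * (c l' - c l) =
            (XX z x c l' k - XX z x c l k) - (XX z x c l' k0 - XX z x c l k0) := by
          unfold XX; ring
        have g4 : |z k - z k0| * |c l' - c l| ≤ 2 * δ := by
          rw [← abs_mul, g3]
          refine (abs_sub _ _).trans ?_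
          linarith
        rw [le_div_iff₀ hs]
        exact (mul_le_mul_of_nonneg_left hc.le (abs_nonneg _)).trans g4
    refine h2.trans (h1.trans (le_of_eq ?_))
    field_simp

/-- many far pairs at a height -/
theorem FP_ge (H : Cfg δ e m L Z I z f x c p) {M : ℕ} (hM : 1 ≤ (M : ℝ) * m)
    (hδ4 : δ ≤ e ^ (4 * M)) {k : ℕ} (hk : k ∈ Z) :
    δ / 16 * e ^ 2 * (L.card : ℝ) ^ 2 ≤ ((FP δ L I z x c (e ^ (4 * M)) k).card : ℝ) := by
  have hδ := H.δ0
  have he := H.e0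
  have he1 : e ≤ 1 := by linarith [H.e1]
  set A := L.filter fun l => (l, k) ∈ I with hA
  have hAL : A ⊆ L := filter_subset _ _
  have hAI : ∀ l ∈ A, (l, k) ∈ I := fun l hl => (mem_filter.1 hl).2
  have hs2 : e ^ (4 * M) ≤ 2 := (pow_le_one₀ he.le he1).trans (by norm_num)
  have hsm : (e ^ (4 * M)) ^ m ≤ e ^ 4 := pow_rpow_le he he1 hM 4
  have g1 := far_ge H hk hAL hAI hδ4 hs2
  have g2 : ((A.card : ℝ)) * (δ * (e ^ (4 * M)) ^ m / e * L.card) ≤
      δ * e ^ 2 * (A.card : ℝ) ^ 2 := by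
    have a1 : δ * (e ^ (4 * M)) ^ m / e ≤ δ * e ^ 3 := by
      rw [div_le_iff₀ he]
      calc δ * (e ^ (4 * M)) ^ m ≤ δ * e ^ 4 := mul_le_mul_of_nonneg_left hsm hδ.le
        _ = _ := by ring
    have a2 := H.degZ k hk
    rw [← hA] at a2
    calc (A.card : ℝ) * (δ * (e ^ (4 * M)) ^ m / e * L.card)
        ≤ A.card * (δ * e ^ 3 * L.card) := by
          refine mul_le_mul_of_nonneg_left ?_ (Nat.cast_nonneg _)
          exact mul_le_mul_of_nonneg_right a1 (Nat.cast_nonneg _)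
      _ = A.card * (δ * e ^ 2) * (e * L.card) := by ring
      _ ≤ A.card * (δ * e ^ 2) * A.card := mul_le_mul_of_nonneg_left a2 (by positivity)
      _ = _ := by ring
  have g3 : δ / 16 * (A.card : ℝ) ^ 2 ≤ ((FP δ L I z x c (e ^ (4 * M)) k).card : ℝ) := by
    have b1 : e ^ 2 ≤ 1 / 16 := by nlinarith [H.e1]
    have b2 : δ * e ^ 2 * (A.card : ℝ) ^ 2 ≤ δ * (1 / 16) * (A.card : ℝ) ^ 2 :=
      mul_le_mul_of_nonneg_right (mul_le_mul_of_nonneg_left b1 hδ.le) (by positivity)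
    unfold FP
    rw [← hA]
    linarith
  refine le_trans ?_ g3
  have a2 := H.degZ k hk
  rw [← hA] at a2
  calc δ / 16 * e ^ 2 * (L.card : ℝ) ^ 2 = δ / 16 * (e * L.card) ^ 2 := by ring
    _ ≤ _ := mul_le_mul_of_nonneg_left (pow_le_pow_left₀ (by positivity) a2 2) (by positivity)

/-- **level sets**: if `q` is constant on the pencils of the heights of `S` then a dense set of lines
has level sets of share `#S / #Z`. -/
theorem level (H : Cfg δ e m L Z I z f x c p) {M : ℕ} (hM : 1 ≤ (M : ℝ) * m)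
    (hδ4 : 2 * δ ≤ e ^ (4 * M)) {S : Finset ℕ} (hS : S ⊆ Z) (hSn : S.Nonempty) {q : ℕ → ℝ}
    {W : ℝ} (hW : ∀ k ∈ S, ∀ l l' : ℕ, (l, k) ∈ I → (l', k) ∈ I →
      |XX z x c l' k - XX z x c l k| ≤ δ → |q l' - q l| ≤ W) :
    e ^ 4 * (L.card : ℝ) ≤ ((L.filter fun l => (S.card : ℝ) / Z.card * e ^ (4 * M + 4) *
      L.card ≤ ((L.filter fun l' => |q l' - q l| ≤ W).card : ℝ)).card : ℝ) := by
  classical
  have hδ := H.δ0
  have he := H.e0
  have he1 : e ≤ 1 := by linarith [H.e1]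
  have hLc : (0 : ℝ) < L.card := by exact_mod_cast H.nL.card_pos
  have hZc : (0 : ℝ) < Z.card := by exact_mod_cast H.nZ.card_pos
  have hSc : (0 : ℝ) < S.card := by exact_mod_cast hSn.card_pos
  have hs1 : e ^ (4 * M) ≤ 1 := pow_le_one₀ he.le he1
  have hs0 : 0 < e ^ (4 * M) := by positivity
  set s : ℝ := e ^ (4 * M) with hs
  set T := S.sigma fun k => FP δ L I z x c s k with hT
  have hTc : (S.card : ℝ) * (δ / 16 * e ^ 2 * (L.card : ℝ) ^ 2) ≤ (T.card : ℝ) := by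
    rw [hT, card_sigma]
    push_cast
    calc (S.card : ℝ) * (δ / 16 * e ^ 2 * (L.card : ℝ) ^ 2)
        = ∑ k ∈ S, (δ / 16 * e ^ 2 * (L.card : ℝ) ^ 2) := by rw [sum_const, nsmul_eq_mul]
      _ ≤ _ := sum_le_sum fun k hk => FP_ge H hM (by linarith) (hS hk)
  -- fibres over the first line
  set F : ℕ → ℝ := fun l => ((T.filter fun w => w.2.1 = l).card : ℝ) with hF
  have hTF : (T.card : ℝ) = ∑ l ∈ L, F l := by
    have h1 := card_eq_sum_card_fiberwise (s := T) (t := L) (f := fun w => w.2.1) (by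
      rintro ⟨k, w⟩ hw
      rw [mem_coe, hT, mem_sigma] at hw
      exact mem_coe.2 (mem_FP.1 hw.2).1.1.1)
    rw [h1]
    push_cast
    rfl
  have hF1 : ∀ l, F l ≤ S.card * (2 * δ / e * L.card) := by
    intro l
    have h1 := card_le_of_fibers (T.filter fun w => w.2.1 = l) (fun w => w.1)
      (2 * δ / e * L.card) (by
        rintro ⟨k, w⟩ hw
        have hcd : ((T.filter fun w => w.2.1 = l).filter fun w => w.1 = k).card =
            (((T.filter fun w => w.2.1 = l).filter fun w => w.1 = k).image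
              fun w => w.2.2).card := by
          rw [card_image_of_injOn]
          rintro ⟨k1, a, b⟩ h1 ⟨k2, a', b'⟩ h2 h3
          rw [mem_coe, mem_filter, mem_filter] at h1 h2
          have c1 : k1 = k := h1.2
          have c2 : k2 = k := h2.2
          have c3 : a = l := h1.1.2
          have c4 : a' = l := h2.1.2
          have c5 : b = b' := h3
          rw [c1, c2, c3, c4, c5]
        rw [hcd]
        have hmem : ∀ l' ∈ (((T.filter fun w => w.2.1 = l).filter fun w => w.1 = k).image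
              fun w => w.2.2), l' ∈ L ∧ (l', k) ∈ I ∧ cell δ z x c k l = cell δ z x c k l' := by
          intro l' hl'
          obtain ⟨⟨k1, a, b⟩, h1, h2⟩ := mem_image.1 hl'
          rw [mem_filter, mem_filter, hT, mem_sigma] at h1
          have c1 : k1 = k := h1.2
          have c3 : a = l := h1.1.2
          have c5 : b = l' := h2
          subst c1 c3 c5
          have := mem_FP.1 h1.1.1.2
          exact ⟨this.1.2.1, this.1.2.2, this.2.1⟩
        refine fib_all H (k := k) (fun l' hl' => (hmem l' hl').1)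
          (fun l' hl' => (hmem l' hl').2.1) fun a ha b hb => ?_
        exact cell_close hδ (((hmem a ha).2.2).symm.trans (hmem b hb).2.2))
    refine h1.trans (mul_le_mul_of_nonneg_right ?_ (by positivity))
    exact_mod_cast card_le_card fun k hk => by
      obtain ⟨w, hw, rfl⟩ := mem_image.1 hk
      rw [mem_filter, hT, mem_sigma] at hw
      exact hw.1.1
  have hF2 : ∀ l, F l ≤ ((L.filter fun l' => |q l' - q l| ≤ W).card : ℝ) *
      (2 * δ / (s * e) * Z.card) := by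
    intro l
    have h1 := card_le_of_fibers (T.filter fun w => w.2.1 = l) (fun w => w.2.2)
      (2 * δ / (s * e) * Z.card) (by
        rintro ⟨k, w⟩ hw
        rw [mem_filter, hT, mem_sigma] at hw
        have hw1 := mem_FP.1 hw.1.2
        have hwl : w.1 = l := hw.2
        have hcd : ((T.filter fun w => w.2.1 = l).filter fun w' => w'.2.2 = w.2).card =
            (((T.filter fun w => w.2.1 = l).filter fun w' => w'.2.2 = w.2).image
              fun w => w.1).card := by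
          rw [card_image_of_injOn]
          rintro ⟨k1, a, b⟩ h1 ⟨k2, a', b'⟩ h2 h3
          rw [mem_coe, mem_filter, mem_filter] at h1 h2
          have c1 : b = w.2 := h1.2
          have c2 : b' = w.2 := h2.2
          have c3 : a = l := h1.1.2
          have c4 : a' = l := h2.1.2
          have c5 : k1 = k2 := h3
          rw [c1, c2, c3, c4, c5]
        rw [hcd]
        refine meet_le H (l := l) (l' := w.2) hs0 hs1 hδ4 (by rw [← hwl]; exact hw1.2.2) ?_ ?_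
        · intro k' hk'
          obtain ⟨⟨k1, a, b⟩, h1, h2⟩ := mem_image.1 hk'
          rw [mem_filter, mem_filter, hT, mem_sigma] at h1
          have c5 : k1 = k' := h2
          subst c5
          exact hS h1.1.1.1
        · intro k' hk'
          obtain ⟨⟨k1, a, b⟩, h1, h2⟩ := mem_image.1 hk'
          rw [mem_filter, mem_filter, hT, mem_sigma] at h1
          have c1 : k1 = k' := h2
          have c3 : a = l := h1.1.2
          have c5 : b = w.2 := h1.2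
          subst c1 c3 c5
          exact (mem_FP.1 h1.1.1.2).2.1)
    refine h1.trans (mul_le_mul_of_nonneg_right ?_ (by positivity))
    exact_mod_cast card_le_card fun l' hl' => by
      obtain ⟨⟨k1, a, b⟩, h1, h2⟩ := mem_image.1 hl'
      rw [mem_filter, hT, mem_sigma] at h1
      have c3 : a = l := h1.2
      have c5 : b = l' := h2
      subst c3 c5
      have h3 := mem_FP.1 h1.1.2
      rw [mem_filter]
      exact ⟨h3.1.2.1, hW k1 h1.1.1 _ _ h3.1.1.2 h3.1.2.2 (cell_close hδ h3.2.1)⟩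
  set th : ℝ := S.card * (δ * e ^ 2 / 32 * L.card) with hth
  set G := L.filter fun l => (S.card : ℝ) / Z.card * e ^ (4 * M + 4) *
      L.card ≤ ((L.filter fun l' => |q l' - q l| ≤ W).card : ℝ) with hG
  have hGth : ∀ l ∈ L, l ∉ G → F l ≤ th := by
    intro l hl hlG
    by_contra hcon
    push Not at hcon
    apply hlG
    rw [hG, mem_filter]
    refine ⟨hl, ?_⟩
    have h1 : th ≤ ((L.filter fun l' => |q l' - q l| ≤ W).card : ℝ) *
      (2 * δ / (s * e) * Z.card) := hcon.le.trans (hF2 l)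
    have h2 : 0 < 2 * δ / (s * e) * Z.card := by positivity
    refine le_of_mul_le_mul_right (le_trans ?_ h1) h2
    rw [hth]
    have h3 : (S.card : ℝ) / Z.card * e ^ (4 * M + 4) * L.card * (2 * δ / (s * e) * Z.card) =
        S.card * (δ * (2 * e ^ 3) * L.card) := by
      rw [hs]
      field_simp
      ring
    rw [h3]
    refine mul_le_mul_of_nonneg_left ?_ hSc.le
    refine mul_le_mul_of_nonneg_right ?_ hLc.le
    have h4 : 2 * e ^ 3 ≤ e ^ 2 / 32 := by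
      have : e ^ 3 = e ^ 2 * e := by ring
      rw [this]
      nlinarith [H.e1, sq_nonneg e, mul_pos he he]
    nlinarith
  have hsum : (T.card : ℝ) ≤ G.card * (S.card * (2 * δ / e * L.card)) + L.card * th := by
    rw [hTF]
    have h1 : ∑ l ∈ L, F l = ∑ l ∈ G, F l + ∑ l ∈ L \ G, F l := by
      rw [add_comm, sum_sdiff (filter_subset _ _)]
    rw [h1]
    refine add_le_add ?_ ?_
    · refine (sum_le_sum fun l _ => hF1 l).trans (le_of_eq ?_)
      rw [sum_const, nsmul_eq_mul]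
    · have h2 : ∑ l ∈ L \ G, F l ≤ ∑ l ∈ L \ G, th :=
        sum_le_sum fun l hl => hGth l (mem_sdiff.1 hl).1 (mem_sdiff.1 hl).2
      refine h2.trans ?_
      rw [sum_const, nsmul_eq_mul]
      refine mul_le_mul_of_nonneg_right ?_ (by positivity)
      exact_mod_cast card_le_card sdiff_subset
  have h5 := hTc.trans hsum
  -- conclude
  have h6 : (e ^ 3 / 64 * L.card) * (S.card * (2 * δ / e * L.card)) ≤
      G.card * (S.card * (2 * δ / e * L.card)) := by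
    have g1 : (e ^ 3 / 64 * L.card) * (S.card * (2 * δ / e * L.card)) =
        S.card * (δ * e ^ 2 * (L.card : ℝ) ^ 2) / 32 := by
      field_simp
      ring
    have g2 : L.card * th = S.card * (δ * e ^ 2 * (L.card : ℝ) ^ 2) / 32 := by
      rw [hth]; ring
    rw [g1]
    rw [g2] at h5
    have g3 : (S.card : ℝ) * (δ / 16 * e ^ 2 * (L.card : ℝ) ^ 2) =
        S.card * (δ * e ^ 2 * (L.card : ℝ) ^ 2) / 16 := by ring
    rw [g3] at h5
    linarith
  have h7 := le_of_mul_le_mul_right h6 (by positivity)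
  refine le_trans ?_ h7
  refine mul_le_mul_of_nonneg_right ?_ hLc.le
  calc e ^ 4 = e ^ 3 * e := by ring
    _ ≤ e ^ 3 * (1 / 64) := mul_le_mul_of_nonneg_left (by linarith [H.e1]) (by positivity)
    _ = _ := by ring

end

end Crest.Agent.R136.LA501
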