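import Crest.Agent.R136.Cap1_102

/-!
# R136 (S0187), plateau phase: lightlike sub-planks of a sheet, core algebra (helper989)

Two lines of one sheet in scaled tangent coordinates of a third one: `x(ζ) = p + ζ v`.  If the
positions differ by at most `ω` and the velocities differ by at most `ω` in the direction of the
kernel of the turning covector, then the velocities differ by `O(ω)` (`core1`); if moreover
`R · Δp = O(ω²)` for a reference line, then `N · Δ`, `R · Δ` are `O(ω²)` (`core2`).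
-/

set_option autoImplicit false
set_option linter.unusedVariables false

namespace Crest.Agent.R136.Lgt989

open Crest.Agent.R136.Sh605 Crest.Agent.R136.Tl102

/-- gradient of a quadratic form -/
def gv (G : QF) (x : V3) : V3 :=
  ![2 * G.yy * x 0 + G.yu * x 1 + G.yv * x 2, G.yu * x 0 + 2 * G.uu * x 1 + G.uv * x 2,
    G.yv * x 0 + G.uv * x 1 + 2 * G.vv * x 2]







/-- difference of the values on two lines -/
theorem Fq_diff (N0 γ : V3) (G : QF) (ζ : ℝ) (p v p' v' : V3) :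
    Fq N0 γ G ζ (bz p' v' ζ) - Fq N0 γ G ζ (bz p v ζ) =
      Fq (fun k => N0 k + gv G p k) (fun k => γ k + gv G v k) G ζ
        (bz (fun k => p' k - p k) (fun k => v' k - v k) ζ) := by
  simp only [Fq, dt, bz, QF.ev, gv, Matrix.cons_val]; ring

/-- the polynomial along a line -/
theorem Fq_line (N R : V3) (G : QF) (ζ : ℝ) (D V : V3) :
    Fq N R G ζ (bz D V ζ) = (dt N D + G.ev D) + ζ * (dt N V + dt R D + G.pol D V) +
      ζ ^ 2 * (dt R V + G.ev V) := by
  simp only [Fq, dt, bz, QF.ev, QF.pol]; ring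

theorem coef_le {c0 c1 c2 ε : ℝ} (h : ∀ ζ : ℝ, 0 ≤ ζ → ζ ≤ 1 → |c0 + ζ * c1 + ζ ^ 2 * c2| ≤ ε) :
    |c0| ≤ ε ∧ |c1| ≤ 8 * ε ∧ |c2| ≤ 8 * ε := by
  have h0 := h 0 le_rfl zero_le_one
  have h1 := h (1 / 2) (by norm_num) (by norm_num)
  have h2 := h 1 zero_le_one le_rfl
  rw [abs_le] at h0 h1 h2
  refine ⟨?_, ?_, ?_⟩ <;> rw [abs_le] <;> constructor <;>
    linarith [h0.1, h0.2, h1.1, h1.2, h2.1, h2.2]

/-- coefficients of the sheet in scaled tangent coordinates of the base line -/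
structure Bas (N0 γ : V3) (G : QF) (g : ℝ) : Prop where
  n0 : 1 / 2 ≤ N0 0
  n0' : N0 0 ≤ 2
  n1 : N0 1 = 0
  n2 : N0 2 = 0
  γ_le : ∀ k, |γ k| ≤ 3 / 2
  G_le : G.Le 13
  g0 : 0 < g
  g1 : g ≤ 1
  turn : g ≤ γ 1 ^ 2 + γ 2 ^ 2

/-- two lines of the sheet near the base line -/
structure Pair (N0 γ : V3) (G : QF) (μ ε : ℝ) (p v p' v' : V3) : Prop where
  hp : ∀ k, |p k| ≤ μ
  hv : ∀ k, |v k| ≤ μ
  hp' : ∀ k, |p' k| ≤ μ
  hv' : ∀ k, |v' k| ≤ μ
  val : ∀ ζ, 0 ≤ ζ → ζ ≤ 1 → |Fq N0 γ G ζ (bz p' v' ζ) - Fq N0 γ G ζ (bz p v ζ)| ≤ ε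

section

variable {N0 γ : V3} {G : QF} {g μ ε ω : ℝ} {p v p' v' : V3}

theorem Pair.coef (P : Pair N0 γ G μ ε p v p' v') :
    |dt (fun k => N0 k + gv G p k) (fun k => p' k - p k) + G.ev (fun k => p' k - p k)| ≤ ε ∧
    |dt (fun k => N0 k + gv G p k) (fun k => v' k - v k) +
      dt (fun k => γ k + gv G v k) (fun k => p' k - p k) +
      G.pol (fun k => p' k - p k) (fun k => v' k - v k)| ≤ 8 * ε ∧
    |dt (fun k => γ k + gv G v k) (fun k => v' k - v k) + G.ev (fun k => v' k - v k)| ≤ 8 * ε := by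
  apply coef_le
  intro ζ h0 h1
  rw [← Fq_line, ← Fq_diff]
  exact P.val ζ h0 h1



end

end Crest.Agent.R136.Lgt989
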